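import Vale.Agent.Lib.P154.Chain.End
import Vale.Agent.Lib.P154.Chain.D4.H

set_option linter.all false

namespace Vale.Agent.Lib.P154.Chain.D4

open Vale.Agent.Lib.P154.Chain

theorem inv_0 : Inv g l0 0 S0.cp0 := by
  rw [S0.start_ok]
  exact inv_start S0.check_ok

theorem inv_r0_0 : Inv g l0 10 S0.rc0 := by
  have h := inv_run (n := 0) (k := 10) S0.check_ok ops_ok inv_0
  rw [S0.run_ok0] at h
  exact h

theorem inv_r0_1 : Inv g l0 18 S0.rc1 := by
  have h := inv_run (n := 10) (k := 8) S0.check_ok ops_ok inv_r0_0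
  rw [S0.run_ok1] at h
  exact h

theorem inv_r0_2 : Inv g l0 23 S0.rc2 := by
  have h := inv_run (n := 18) (k := 5) S0.check_ok ops_ok inv_r0_1
  rw [S0.run_ok2] at h
  exact h

theorem inv_s1 : Inv g l0 23 S1.cp0 := by
  have h : S1.cp0 = S0.rc2 := by
    decide +kernel
  rw [h]
  exact inv_r0_2

theorem inv_r1_0 : Inv g l1 24 S1.rc0 := by
  have h := inv_run1 (n := 23) S1.check_ok ops_ok inv_s1
  rw [S1.run_ok0] at h
  exact h

theorem inv_s2 : Inv g l1 24 S2.cp0 := by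
  have h : S2.cp0 = S1.rc0 := by
    decide +kernel
  rw [h]
  exact inv_r1_0

theorem inv_r2_0 : Inv g l1 42 S2.rc0 := by
  have h := inv_run (n := 24) (k := 18) S2.check_ok ops_ok inv_s2
  rw [S2.run_ok0] at h
  exact h

theorem inv_r2_1 : Inv g l1 54 S2.rc1 := by
  have h := inv_run (n := 42) (k := 12) S2.check_ok ops_ok inv_r2_0
  rw [S2.run_ok1] at h
  exact h

theorem inv_s3 : Inv g l1 54 S3.cp0 := by
  have h : S3.cp0 = S2.rc1 := by
    decide +kernel
  rw [h]
  exact inv_r2_1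

theorem inv_r3_0 : Inv g l1 73 S3.rc0 := by
  have h := inv_run (n := 54) (k := 19) S3.check_ok ops_ok inv_s3
  rw [S3.run_ok0] at h
  exact h

theorem inv_r3_1 : Inv g l1 93 S3.rc1 := by
  have h := inv_run (n := 73) (k := 20) S3.check_ok ops_ok inv_r3_0
  rw [S3.run_ok1] at h
  exact h

theorem inv_r3_2 : Inv g l1 97 S3.rc2 := by
  have h := inv_run (n := 93) (k := 4) S3.check_ok ops_ok inv_r3_1
  rw [S3.run_ok2] at h
  exact h

theorem inv_s4 : Inv g l1 97 S4.cp0 := by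
  have h : S4.cp0 = S3.rc2 := by
    decide +kernel
  rw [h]
  exact inv_r3_2

theorem inv_r4_0 : Inv g l2 98 S4.rc0 := by
  have h := inv_run1 (n := 97) S4.check_ok ops_ok inv_s4
  rw [S4.run_ok0] at h
  exact h

theorem inv_s5 : Inv g l2 98 S5.cp0 := by
  have h : S5.cp0 = S4.rc0 := by
    decide +kernel
  rw [h]
  exact inv_r4_0

theorem inv_r5_0 : Inv g l2 128 S5.rc0 := by
  have h := inv_run (n := 98) (k := 30) S5.check_ok ops_ok inv_s5
  rw [S5.run_ok0] at h
  exact h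

theorem inv_r5_1 : Inv g l2 129 S5.rc1 := by
  have h := inv_run (n := 128) (k := 1) S5.check_ok ops_ok inv_r5_0
  rw [S5.run_ok1] at h
  exact h

theorem inv_s6 : Inv g l2 129 S6.cp0 := by
  have h : S6.cp0 = S5.rc1 := by
    decide +kernel
  rw [h]
  exact inv_r5_1

theorem inv_r6_0 : Inv g l3 130 S6.rc0 := by
  have h := inv_run1 (n := 129) S6.check_ok ops_ok inv_s6
  rw [S6.run_ok0] at h
  exact h

theorem inv_s7 : Inv g l3 130 S7.cp0 := by
  have h : S7.cp0 = S6.rc0 := by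
    decide +kernel
  rw [h]
  exact inv_r6_0

theorem inv_r7_0 : Inv g l3 150 S7.rc0 := by
  have h := inv_run (n := 130) (k := 20) S7.check_ok ops_ok inv_s7
  rw [S7.run_ok0] at h
  exact h

theorem inv_r7_1 : Inv g l3 171 S7.rc1 := by
  have h := inv_run (n := 150) (k := 21) S7.check_ok ops_ok inv_r7_0
  rw [S7.run_ok1] at h
  exact h

theorem inv_r7_2 : Inv g l3 192 S7.rc2 := by
  have h := inv_run (n := 171) (k := 21) S7.check_ok ops_ok inv_r7_1
  rw [S7.run_ok2] at h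
  exact h

theorem inv_r7_3 : Inv g l3 196 S7.rc3 := by
  have h := inv_run (n := 192) (k := 4) S7.check_ok ops_ok inv_r7_2
  rw [S7.run_ok3] at h
  exact h

theorem inv_e : Inv g l3 196 S7.cp1 := by
  have h : S7.cp1 = S7.rc3 := by
    decide +kernel
  rw [h]
  exact inv_r7_3

theorem hand : ∃ A : FF, A.Good ∧ (∀ G, Sublin G → Symm G → val (Xv g.d (lamOf g) (196 + 1)) G ≤ val A.F G)
      ∧ InClass ((hp.kapN : ℝ) / hp.kapD) ((hp.bpN : ℝ) / hp.bpD) ((hp.bmN : ℝ) / hp.bmD) (famEx A.F)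
          ((hp.Mn : ℝ) / hp.Md) :=
  handoff S7.check_ok ops_ok inv_e (by decide +kernel) (by decide +kernel) (by decide +kernel)
    (by decide +kernel) S7.hand_ok

/-- nonreconstruction at this degree -/
theorem tendsto_main {lam : ℝ} (h02 : lam ≤ 0) (hKS : ((4 : ℕ) : ℝ) * lam ^ 2 ≤ 1) :
    Filter.Tendsto (Vale.Agent.Lib.P154.reconError 4 3 lam) Filter.atTop (nhds 0) :=
  tendsto_of_chain (g := g) (h := hp) (by decide +kernel) hand (by decide +kernel)
    (lamOf_le_of_KS (by decide +kernel) (by decide +kernel) h02 hKS) h02 hKS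

end Vale.Agent.Lib.P154.Chain.D4
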