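import Vale.Agent.Lib.P154.Chain.D4.R0_2

set_option linter.all false

namespace Vale.Agent.Lib.P154.Chain.D4.S1

noncomputable def pc0 : PT := (PT.nd (nat_lit 690054) (PT.nd (nat_lit 351278) (PT.nd (nat_lit 148144) (PT.nd (nat_lit 80370) (PT.nd (nat_lit 12690) (PT.nd (nat_lit 12596) PT.nil (PT.lf (nat_lit 84) (nat_lit 6) (nat_lit 1) (nat_lit 3) (nat_lit 134) (nat_lit 0) (nat_lit 136))) (PT.nd (nat_lit 94) (PT.lf (nat_lit 168) (nat_lit 3) (nat_lit 2) (nat_lit 1) (nat_lit 135) (nat_lit 0) (nat_lit 135)) (PT.lf (nat_lit 84) (nat_lit 6) (nat_lit 1) (nat_lit 1) (nat_lit 136) (nat_lit 0) (nat_lit 134)))) (PT.nd (nat_lit 94) (PT.lf (nat_lit 252) (nat_lit 6) (nat_lit 3) (nat_lit 3) (nat_lit 134) (nat_lit 1) (nat_lit 135)) (PT.nd (nat_lit 67586) (PT.lf (nat_lit 252) (nat_lit 6) (nat_lit 3) (nat_lit 1) (nat_lit 135) (nat_lit 1) (nat_lit 134)) (PT.lf (nat_lit 336) (nat_lit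 6) (nat_lit 4) (nat_lit 3) (nat_lit 133) (nat_lit 2) (nat_lit 135))))) (PT.nd (nat_lit 67774) (PT.nd (nat_lit 94) (PT.lf (nat_lit 420) (nat_lit 3) (nat_lit 5) (nat_lit 1) (nat_lit 134) (nat_lit 2) (nat_lit 134)) (PT.nd (nat_lit 67586) (PT.lf (nat_lit 336) (nat_lit 6) (nat_lit 4) (nat_lit 1) (nat_lit 135) (nat_lit 2) (nat_lit 133)) (PT.lf (nat_lit 504) (nat_lit 6) (nat_lit 6) (nat_lit 3) (nat_lit 133) (nat_lit 3) (nat_lit 134)))) (PT.nd (nat_lit 67680) (PT.nd (nat_lit 67586) (PT.lf (nat_lit 504) (nat_lit 6) (nat_lit 6) (nat_lit 1) (nat_lit 134) (nat_lit 3) (nat_lit 133)) (PT.lf (nat_lit 588) (nat_lit 6) (nat_lit 7) (nat_lit 3) (nat_lit 132) (nat_lit 4) (nat_lit 134))) (PT.nd (nat_lit 94) (PT.lf (nat_lit 672) (nat_lit 3) (nat_lit 8) (nat_lit 1) (nat_lit 133) (nat_lit 4) (nat_lit 133)) (PT.lf (nat_lit 588) (nat_lit 6) (nat_lit 7) (nat_lit 1) (nat_lit 134) (nat_lit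 4) (nat_lit 132)))))) (PT.nd (nat_lit 203134) (PT.nd (nat_lit 67774) (PT.nd (nat_lit 94) (PT.lf (nat_lit 756) (nat_lit 6) (nat_lit 9) (nat_lit 3) (nat_lit 132) (nat_lit 5) (nat_lit 133)) (PT.nd (nat_lit 67586) (PT.lf (nat_lit 756) (nat_lit 6) (nat_lit 9) (nat_lit 1) (nat_lit 133) (nat_lit 5) (nat_lit 132)) (PT.lf (nat_lit 840) (nat_lit 6) (nat_lit 10) (nat_lit 3) (nat_lit 131) (nat_lit 6) (nat_lit 133)))) (PT.nd (nat_lit 67680) (PT.nd (nat_lit 94) (PT.lf (nat_lit 924) (nat_lit 3) (nat_lit 11) (nat_lit 1) (nat_lit 132) (nat_lit 6) (nat_lit 132)) (PT.lf (nat_lit 840) (nat_lit 6) (nat_lit 10) (nat_lit 1) (nat_lit 133) (nat_lit 6) (nat_lit 131))) (PT.nd (nat_lit 94) (PT.lf (nat_lit 1008) (nat_lit 6) (nat_lit 12) (nat_lit 3) (nat_lit 131) (nat_lit 7) (nat_lit 132)) (PT.lf (nat_lit 1008) (nat_lit 6) (nat_lit 12) (nat_lit 1) (nat_lit 132) (nat_lit 7) (nat_lit 131)))))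 (PT.nd (nat_lit 67774) (PT.nd (nat_lit 94) (PT.lf (nat_lit 1092) (nat_lit 6) (nat_lit 13) (nat_lit 3) (nat_lit 130) (nat_lit 8) (nat_lit 132)) (PT.nd (nat_lit 94) (PT.lf (nat_lit 1176) (nat_lit 3) (nat_lit 14) (nat_lit 1) (nat_lit 131) (nat_lit 8) (nat_lit 131)) (PT.lf (nat_lit 1092) (nat_lit 6) (nat_lit 13) (nat_lit 1) (nat_lit 132) (nat_lit 8) (nat_lit 130)))) (PT.nd (nat_lit 67680) (PT.nd (nat_lit 94) (PT.lf (nat_lit 1260) (nat_lit 6) (nat_lit 15) (nat_lit 3) (nat_lit 130) (nat_lit 9) (nat_lit 131)) (PT.lf (nat_lit 1260) (nat_lit 6) (nat_lit 15) (nat_lit 1) (nat_lit 131) (nat_lit 9) (nat_lit 130))) (PT.nd (nat_lit 94) (PT.lf (nat_lit 1344) (nat_lit 6) (nat_lit 16) (nat_lit 3) (nat_lit 129) (nat_lit 10) (nat_lit 131)) (PT.lf (nat_lit 1428) (nat_lit 3) (nat_lit 17) (nat_lit 1) (nat_lit 130) (nat_lit 10) (nat_lit 130))))))) (PT.nd (nat_lit 406268) (PT.nd (nat_lit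 203134) (PT.nd (nat_lit 135266) (PT.nd (nat_lit 67586) (PT.lf (nat_lit 1344) (nat_lit 6) (nat_lit 16) (nat_lit 1) (nat_lit 131) (nat_lit 10) (nat_lit 129)) (PT.nd (nat_lit 94) (PT.lf (nat_lit 1512) (nat_lit 6) (nat_lit 18) (nat_lit 3) (nat_lit 129) (nat_lit 11) (nat_lit 130)) (PT.lf (nat_lit 1512) (nat_lit 6) (nat_lit 18) (nat_lit 1) (nat_lit 130) (nat_lit 11) (nat_lit 129)))) (PT.nd (nat_lit 188) (PT.nd (nat_lit 94) (PT.lf (nat_lit 1596) (nat_lit 6) (nat_lit 19) (nat_lit 3) (nat_lit 128) (nat_lit 12) (nat_lit 130)) (PT.lf (nat_lit 1680) (nat_lit 3) (nat_lit 20) (nat_lit 1) (nat_lit 129) (nat_lit 12) (nat_lit 129))) (PT.nd (nat_lit 67586) (PT.lf (nat_lit 1596) (nat_lit 6) (nat_lit 19) (nat_lit 1) (nat_lit 130) (nat_lit 12) (nat_lit 128)) (PT.lf (nat_lit 1764) (nat_lit 6) (nat_lit 21) (nat_lit 3) (nat_lit 128) (nat_lit 13) (nat_lit 129))))) (PT.nd (nat_lit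 67774) (PT.nd (nat_lit 67586) (PT.lf (nat_lit 1764) (nat_lit 6) (nat_lit 21) (nat_lit 1) (nat_lit 129) (nat_lit 13) (nat_lit 128)) (PT.nd (nat_lit 94) (PT.lf (nat_lit 1848) (nat_lit 6) (nat_lit 22) (nat_lit 3) (nat_lit 127) (nat_lit 14) (nat_lit 129)) (PT.lf (nat_lit 1932) (nat_lit 3) (nat_lit 23) (nat_lit 1) (nat_lit 128) (nat_lit 14) (nat_lit 128)))) (PT.nd (nat_lit 67680) (PT.nd (nat_lit 67586) (PT.lf (nat_lit 1848) (nat_lit 6) (nat_lit 22) (nat_lit 1) (nat_lit 129) (nat_lit 14) (nat_lit 127)) (PT.lf (nat_lit 2016) (nat_lit 6) (nat_lit 24) (nat_lit 3) (nat_lit 127) (nat_lit 15) (nat_lit 128))) (PT.nd (nat_lit 67586) (PT.lf (nat_lit 2016) (nat_lit 6) (nat_lit 24) (nat_lit 1) (nat_lit 128) (nat_lit 15) (nat_lit 127)) (PT.lf (nat_lit 2100) (nat_lit 6) (nat_lit 25) (nat_lit 3) (nat_lit 126) (nat_lit 16) (nat_lit 128)))))) (PT.nd (nat_lit 203134) (PT.nd (nat_lit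 67774) (PT.nd (nat_lit 94) (PT.lf (nat_lit 2184) (nat_lit 3) (nat_lit 26) (nat_lit 1) (nat_lit 127) (nat_lit 16) (nat_lit 127)) (PT.nd (nat_lit 67586) (PT.lf (nat_lit 2100) (nat_lit 6) (nat_lit 25) (nat_lit 1) (nat_lit 128) (nat_lit 16) (nat_lit 126)) (PT.lf (nat_lit 2268) (nat_lit 6) (nat_lit 27) (nat_lit 3) (nat_lit 126) (nat_lit 17) (nat_lit 127)))) (PT.nd (nat_lit 67680) (PT.nd (nat_lit 67586) (PT.lf (nat_lit 2268) (nat_lit 6) (nat_lit 27) (nat_lit 1) (nat_lit 127) (nat_lit 17) (nat_lit 126)) (PT.lf (nat_lit 2352) (nat_lit 6) (nat_lit 28) (nat_lit 3) (nat_lit 125) (nat_lit 18) (nat_lit 127))) (PT.nd (nat_lit 94) (PT.lf (nat_lit 2436) (nat_lit 3) (nat_lit 29) (nat_lit 1) (nat_lit 126) (nat_lit 18) (nat_lit 126)) (PT.lf (nat_lit 2352) (nat_lit 6) (nat_lit 28) (nat_lit 1) (nat_lit 127) (nat_lit 18) (nat_lit 125))))) (PT.nd (nat_lit 67774) (PT.nd (nat_lit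 94) (PT.lf (nat_lit 2520) (nat_lit 6) (nat_lit 30) (nat_lit 3) (nat_lit 125) (nat_lit 19) (nat_lit 126)) (PT.nd (nat_lit 67586) (PT.lf (nat_lit 2520) (nat_lit 6) (nat_lit 30) (nat_lit 1) (nat_lit 126) (nat_lit 19) (nat_lit 125)) (PT.lf (nat_lit 2604) (nat_lit 6) (nat_lit 31) (nat_lit 3) (nat_lit 124) (nat_lit 20) (nat_lit 126)))) (PT.nd (nat_lit 67680) (PT.nd (nat_lit 94) (PT.lf (nat_lit 2688) (nat_lit 3) (nat_lit 32) (nat_lit 1) (nat_lit 125) (nat_lit 20) (nat_lit 125)) (PT.lf (nat_lit 2604) (nat_lit 6) (nat_lit 31) (nat_lit 1) (nat_lit 126) (nat_lit 20) (nat_lit 124))) (PT.nd (nat_lit 94) (PT.lf (nat_lit 2772) (nat_lit 6) (nat_lit 33) (nat_lit 3) (nat_lit 124) (nat_lit 21) (nat_lit 125)) (PT.lf (nat_lit 2772) (nat_lit 6) (nat_lit 33) (nat_lit 1) (nat_lit 125) (nat_lit 21) (nat_lit 124))))))))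
noncomputable def pc1 : PT := (PT.nd (nat_lit 745044) (PT.nd (nat_lit 338776) (PT.nd (nat_lit 135642) (PT.nd (nat_lit 67774) (PT.nd (nat_lit 94) (PT.lf (nat_lit 2856) (nat_lit 6) (nat_lit 34) (nat_lit 3) (nat_lit 123) (nat_lit 22) (nat_lit 125)) (PT.nd (nat_lit 94) (PT.lf (nat_lit 2940) (nat_lit 3) (nat_lit 35) (nat_lit 1) (nat_lit 124) (nat_lit 22) (nat_lit 124)) (PT.lf (nat_lit 2856) (nat_lit 6) (nat_lit 34) (nat_lit 1) (nat_lit 125) (nat_lit 22) (nat_lit 123)))) (PT.nd (nat_lit 67680) (PT.nd (nat_lit 94) (PT.lf (nat_lit 3024) (nat_lit 6) (nat_lit 36) (nat_lit 3) (nat_lit 123) (nat_lit 23) (nat_lit 124)) (PT.lf (nat_lit 3024) (nat_lit 6) (nat_lit 36) (nat_lit 1) (nat_lit 124) (nat_lit 23) (nat_lit 123))) (PT.nd (nat_lit 94) (PT.lf (nat_lit 3108) (nat_lit 6) (nat_lit 37) (nat_lit 3) (nat_lit 122) (nat_lit 24) (nat_lit 124)) (PT.lf (nat_lit 3192) (nat_lit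 3) (nat_lit 38) (nat_lit 1) (nat_lit 123) (nat_lit 24) (nat_lit 123))))) (PT.nd (nat_lit 135266) (PT.nd (nat_lit 67586) (PT.lf (nat_lit 3108) (nat_lit 6) (nat_lit 37) (nat_lit 1) (nat_lit 124) (nat_lit 24) (nat_lit 122)) (PT.nd (nat_lit 94) (PT.lf (nat_lit 3276) (nat_lit 6) (nat_lit 39) (nat_lit 3) (nat_lit 122) (nat_lit 25) (nat_lit 123)) (PT.lf (nat_lit 3276) (nat_lit 6) (nat_lit 39) (nat_lit 1) (nat_lit 123) (nat_lit 25) (nat_lit 122)))) (PT.nd (nat_lit 188) (PT.nd (nat_lit 94) (PT.lf (nat_lit 3360) (nat_lit 6) (nat_lit 40) (nat_lit 3) (nat_lit 121) (nat_lit 26) (nat_lit 123)) (PT.lf (nat_lit 3444) (nat_lit 3) (nat_lit 41) (nat_lit 1) (nat_lit 122) (nat_lit 26) (nat_lit 122))) (PT.nd (nat_lit 67586) (PT.lf (nat_lit 3360) (nat_lit 6) (nat_lit 40) (nat_lit 1) (nat_lit 123) (nat_lit 26) (nat_lit 121)) (PT.lf (nat_lit 3528) (nat_lit 6) (nat_lit 42) (nat_lit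 3) (nat_lit 121) (nat_lit 27) (nat_lit 122)))))) (PT.nd (nat_lit 203134) (PT.nd (nat_lit 67774) (PT.nd (nat_lit 67586) (PT.lf (nat_lit 3528) (nat_lit 6) (nat_lit 42) (nat_lit 1) (nat_lit 122) (nat_lit 27) (nat_lit 121)) (PT.nd (nat_lit 94) (PT.lf (nat_lit 3612) (nat_lit 6) (nat_lit 43) (nat_lit 3) (nat_lit 120) (nat_lit 28) (nat_lit 122)) (PT.lf (nat_lit 3696) (nat_lit 3) (nat_lit 44) (nat_lit 1) (nat_lit 121) (nat_lit 28) (nat_lit 121)))) (PT.nd (nat_lit 67680) (PT.nd (nat_lit 67586) (PT.lf (nat_lit 3612) (nat_lit 6) (nat_lit 43) (nat_lit 1) (nat_lit 122) (nat_lit 28) (nat_lit 120)) (PT.lf (nat_lit 3780) (nat_lit 6) (nat_lit 45) (nat_lit 3) (nat_lit 120) (nat_lit 29) (nat_lit 121))) (PT.nd (nat_lit 67586) (PT.lf (nat_lit 3780) (nat_lit 6) (nat_lit 45) (nat_lit 1) (nat_lit 121) (nat_lit 29) (nat_lit 120)) (PT.lf (nat_lit 3864) (nat_lit 6) (nat_lit 46) (nat_lit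 3) (nat_lit 119) (nat_lit 30) (nat_lit 121))))) (PT.nd (nat_lit 67774) (PT.nd (nat_lit 94) (PT.lf (nat_lit 3948) (nat_lit 3) (nat_lit 47) (nat_lit 1) (nat_lit 120) (nat_lit 30) (nat_lit 120)) (PT.nd (nat_lit 67586) (PT.lf (nat_lit 3864) (nat_lit 6) (nat_lit 46) (nat_lit 1) (nat_lit 121) (nat_lit 30) (nat_lit 119)) (PT.lf (nat_lit 4032) (nat_lit 6) (nat_lit 48) (nat_lit 3) (nat_lit 119) (nat_lit 31) (nat_lit 120)))) (PT.nd (nat_lit 67680) (PT.nd (nat_lit 67586) (PT.lf (nat_lit 4032) (nat_lit 6) (nat_lit 48) (nat_lit 1) (nat_lit 120) (nat_lit 31) (nat_lit 119)) (PT.lf (nat_lit 4116) (nat_lit 6) (nat_lit 49) (nat_lit 3) (nat_lit 118) (nat_lit 32) (nat_lit 120))) (PT.nd (nat_lit 94) (PT.lf (nat_lit 4200) (nat_lit 3) (nat_lit 50) (nat_lit 1) (nat_lit 119) (nat_lit 32) (nat_lit 119)) (PT.lf (nat_lit 4116) (nat_lit 6) (nat_lit 49) (nat_lit 1) (nat_lit 120) (nat_lit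 32) (nat_lit 118))))))) (PT.nd (nat_lit 338776) (PT.nd (nat_lit 203134) (PT.nd (nat_lit 67774) (PT.nd (nat_lit 94) (PT.lf (nat_lit 4284) (nat_lit 6) (nat_lit 51) (nat_lit 3) (nat_lit 118) (nat_lit 33) (nat_lit 119)) (PT.nd (nat_lit 67586) (PT.lf (nat_lit 4284) (nat_lit 6) (nat_lit 51) (nat_lit 1) (nat_lit 119) (nat_lit 33) (nat_lit 118)) (PT.lf (nat_lit 4368) (nat_lit 6) (nat_lit 52) (nat_lit 3) (nat_lit 117) (nat_lit 34) (nat_lit 119)))) (PT.nd (nat_lit 67680) (PT.nd (nat_lit 94) (PT.lf (nat_lit 4452) (nat_lit 3) (nat_lit 53) (nat_lit 1) (nat_lit 118) (nat_lit 34) (nat_lit 118)) (PT.lf (nat_lit 4368) (nat_lit 6) (nat_lit 52) (nat_lit 1) (nat_lit 119) (nat_lit 34) (nat_lit 117))) (PT.nd (nat_lit 94) (PT.lf (nat_lit 4536) (nat_lit 6) (nat_lit 54) (nat_lit 3) (nat_lit 117) (nat_lit 35) (nat_lit 118)) (PT.lf (nat_lit 4536) (nat_lit 6) (nat_lit 54) (nat_lit 1)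 (nat_lit 118) (nat_lit 35) (nat_lit 117))))) (PT.nd (nat_lit 67774) (PT.nd (nat_lit 94) (PT.lf (nat_lit 4620) (nat_lit 6) (nat_lit 55) (nat_lit 3) (nat_lit 116) (nat_lit 36) (nat_lit 118)) (PT.nd (nat_lit 94) (PT.lf (nat_lit 4704) (nat_lit 3) (nat_lit 56) (nat_lit 1) (nat_lit 117) (nat_lit 36) (nat_lit 117)) (PT.lf (nat_lit 4620) (nat_lit 6) (nat_lit 55) (nat_lit 1) (nat_lit 118) (nat_lit 36) (nat_lit 116)))) (PT.nd (nat_lit 67680) (PT.nd (nat_lit 94) (PT.lf (nat_lit 4788) (nat_lit 6) (nat_lit 57) (nat_lit 3) (nat_lit 116) (nat_lit 37) (nat_lit 117)) (PT.lf (nat_lit 4788) (nat_lit 6) (nat_lit 57) (nat_lit 1) (nat_lit 117) (nat_lit 37) (nat_lit 116))) (PT.nd (nat_lit 94) (PT.lf (nat_lit 4872) (nat_lit 6) (nat_lit 58) (nat_lit 3) (nat_lit 115) (nat_lit 38) (nat_lit 117)) (PT.lf (nat_lit 4956) (nat_lit 3) (nat_lit 59) (nat_lit 1) (nat_lit 116) (nat_lit 38) (nat_lit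 116)))))) (PT.nd (nat_lit 203134) (PT.nd (nat_lit 135266) (PT.nd (nat_lit 67586) (PT.lf (nat_lit 4872) (nat_lit 6) (nat_lit 58) (nat_lit 1) (nat_lit 117) (nat_lit 38) (nat_lit 115)) (PT.nd (nat_lit 94) (PT.lf (nat_lit 5040) (nat_lit 6) (nat_lit 60) (nat_lit 3) (nat_lit 115) (nat_lit 39) (nat_lit 116)) (PT.lf (nat_lit 5040) (nat_lit 6) (nat_lit 60) (nat_lit 1) (nat_lit 116) (nat_lit 39) (nat_lit 115)))) (PT.nd (nat_lit 188) (PT.nd (nat_lit 94) (PT.lf (nat_lit 5124) (nat_lit 6) (nat_lit 61) (nat_lit 3) (nat_lit 114) (nat_lit 40) (nat_lit 116)) (PT.lf (nat_lit 5208) (nat_lit 3) (nat_lit 62) (nat_lit 1) (nat_lit 115) (nat_lit 40) (nat_lit 115))) (PT.nd (nat_lit 67586) (PT.lf (nat_lit 5124) (nat_lit 6) (nat_lit 61) (nat_lit 1) (nat_lit 116) (nat_lit 40) (nat_lit 114)) (PT.lf (nat_lit 5292) (nat_lit 6) (nat_lit 63) (nat_lit 3) (nat_lit 114) (nat_lit 41) (nat_lit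 115))))) (PT.nd (nat_lit 67774) (PT.nd (nat_lit 67586) (PT.lf (nat_lit 5292) (nat_lit 6) (nat_lit 63) (nat_lit 1) (nat_lit 115) (nat_lit 41) (nat_lit 114)) (PT.nd (nat_lit 94) (PT.lf (nat_lit 5376) (nat_lit 6) (nat_lit 64) (nat_lit 3) (nat_lit 113) (nat_lit 42) (nat_lit 115)) (PT.lf (nat_lit 5460) (nat_lit 3) (nat_lit 65) (nat_lit 1) (nat_lit 114) (nat_lit 42) (nat_lit 114)))) (PT.nd (nat_lit 67680) (PT.nd (nat_lit 67586) (PT.lf (nat_lit 5376) (nat_lit 6) (nat_lit 64) (nat_lit 1) (nat_lit 115) (nat_lit 42) (nat_lit 113)) (PT.lf (nat_lit 5544) (nat_lit 6) (nat_lit 66) (nat_lit 3) (nat_lit 113) (nat_lit 43) (nat_lit 114))) (PT.nd (nat_lit 67586) (PT.lf (nat_lit 5544) (nat_lit 6) (nat_lit 66) (nat_lit 1) (nat_lit 114) (nat_lit 43) (nat_lit 113)) (PT.lf (nat_lit 5628) (nat_lit 6) (nat_lit 67) (nat_lit 3) (nat_lit 112) (nat_lit 44) (nat_lit 114))))))))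
noncomputable def pc2 : PT := (PT.nd (nat_lit 744950) (PT.nd (nat_lit 338682) (PT.nd (nat_lit 135548) (PT.nd (nat_lit 67774) (PT.nd (nat_lit 94) (PT.lf (nat_lit 5712) (nat_lit 3) (nat_lit 68) (nat_lit 1) (nat_lit 113) (nat_lit 44) (nat_lit 113)) (PT.nd (nat_lit 67586) (PT.lf (nat_lit 5628) (nat_lit 6) (nat_lit 67) (nat_lit 1) (nat_lit 114) (nat_lit 44) (nat_lit 112)) (PT.lf (nat_lit 5796) (nat_lit 6) (nat_lit 69) (nat_lit 3) (nat_lit 112) (nat_lit 45) (nat_lit 113)))) (PT.nd (nat_lit 67586) (PT.lf (nat_lit 5796) (nat_lit 6) (nat_lit 69) (nat_lit 1) (nat_lit 113) (nat_lit 45) (nat_lit 112)) (PT.nd (nat_lit 94) (PT.lf (nat_lit 5880) (nat_lit 6) (nat_lit 70) (nat_lit 3) (nat_lit 111) (nat_lit 46) (nat_lit 113)) (PT.lf (nat_lit 5964) (nat_lit 3) (nat_lit 71) (nat_lit 1) (nat_lit 112) (nat_lit 46) (nat_lit 112))))) (PT.nd (nat_lit 135266) (PT.nd (nat_lit 67586)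 (PT.lf (nat_lit 5880) (nat_lit 6) (nat_lit 70) (nat_lit 1) (nat_lit 113) (nat_lit 46) (nat_lit 111)) (PT.nd (nat_lit 94) (PT.lf (nat_lit 6048) (nat_lit 6) (nat_lit 72) (nat_lit 3) (nat_lit 111) (nat_lit 47) (nat_lit 112)) (PT.lf (nat_lit 6048) (nat_lit 6) (nat_lit 72) (nat_lit 1) (nat_lit 112) (nat_lit 47) (nat_lit 111)))) (PT.nd (nat_lit 188) (PT.nd (nat_lit 94) (PT.lf (nat_lit 6132) (nat_lit 6) (nat_lit 73) (nat_lit 3) (nat_lit 110) (nat_lit 48) (nat_lit 112)) (PT.lf (nat_lit 6216) (nat_lit 3) (nat_lit 74) (nat_lit 1) (nat_lit 111) (nat_lit 48) (nat_lit 111))) (PT.nd (nat_lit 67586) (PT.lf (nat_lit 6132) (nat_lit 6) (nat_lit 73) (nat_lit 1) (nat_lit 112) (nat_lit 48) (nat_lit 110)) (PT.lf (nat_lit 6300) (nat_lit 6) (nat_lit 75) (nat_lit 3) (nat_lit 110) (nat_lit 49) (nat_lit 111)))))) (PT.nd (nat_lit 203134) (PT.nd (nat_lit 67774) (PT.nd (nat_lit 67586)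 (PT.lf (nat_lit 6300) (nat_lit 6) (nat_lit 75) (nat_lit 1) (nat_lit 111) (nat_lit 49) (nat_lit 110)) (PT.nd (nat_lit 94) (PT.lf (nat_lit 6384) (nat_lit 6) (nat_lit 76) (nat_lit 3) (nat_lit 109) (nat_lit 50) (nat_lit 111)) (PT.lf (nat_lit 6468) (nat_lit 3) (nat_lit 77) (nat_lit 1) (nat_lit 110) (nat_lit 50) (nat_lit 110)))) (PT.nd (nat_lit 67680) (PT.nd (nat_lit 67586) (PT.lf (nat_lit 6384) (nat_lit 6) (nat_lit 76) (nat_lit 1) (nat_lit 111) (nat_lit 50) (nat_lit 109)) (PT.lf (nat_lit 6552) (nat_lit 6) (nat_lit 78) (nat_lit 3) (nat_lit 109) (nat_lit 51) (nat_lit 110))) (PT.nd (nat_lit 67586) (PT.lf (nat_lit 6552) (nat_lit 6) (nat_lit 78) (nat_lit 1) (nat_lit 110) (nat_lit 51) (nat_lit 109)) (PT.lf (nat_lit 6636) (nat_lit 6) (nat_lit 79) (nat_lit 3) (nat_lit 108) (nat_lit 52) (nat_lit 110))))) (PT.nd (nat_lit 67774) (PT.nd (nat_lit 94) (PT.lf (nat_lit 6720) (nat_lit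 3) (nat_lit 80) (nat_lit 1) (nat_lit 109) (nat_lit 52) (nat_lit 109)) (PT.nd (nat_lit 67586) (PT.lf (nat_lit 6636) (nat_lit 6) (nat_lit 79) (nat_lit 1) (nat_lit 110) (nat_lit 52) (nat_lit 108)) (PT.lf (nat_lit 6804) (nat_lit 6) (nat_lit 81) (nat_lit 3) (nat_lit 108) (nat_lit 53) (nat_lit 109)))) (PT.nd (nat_lit 67680) (PT.nd (nat_lit 67586) (PT.lf (nat_lit 6804) (nat_lit 6) (nat_lit 81) (nat_lit 1) (nat_lit 109) (nat_lit 53) (nat_lit 108)) (PT.lf (nat_lit 6888) (nat_lit 6) (nat_lit 82) (nat_lit 3) (nat_lit 107) (nat_lit 54) (nat_lit 109))) (PT.nd (nat_lit 94) (PT.lf (nat_lit 6972) (nat_lit 3) (nat_lit 83) (nat_lit 1) (nat_lit 108) (nat_lit 54) (nat_lit 108)) (PT.lf (nat_lit 6888) (nat_lit 6) (nat_lit 82) (nat_lit 1) (nat_lit 109) (nat_lit 54) (nat_lit 107))))))) (PT.nd (nat_lit 338776) (PT.nd (nat_lit 203134) (PT.nd (nat_lit 67774) (PT.nd (nat_lit 94) (PT.lf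 (nat_lit 7056) (nat_lit 6) (nat_lit 84) (nat_lit 3) (nat_lit 107) (nat_lit 55) (nat_lit 108)) (PT.nd (nat_lit 67586) (PT.lf (nat_lit 7056) (nat_lit 6) (nat_lit 84) (nat_lit 1) (nat_lit 108) (nat_lit 55) (nat_lit 107)) (PT.lf (nat_lit 7140) (nat_lit 6) (nat_lit 85) (nat_lit 3) (nat_lit 106) (nat_lit 56) (nat_lit 108)))) (PT.nd (nat_lit 67680) (PT.nd (nat_lit 94) (PT.lf (nat_lit 7224) (nat_lit 3) (nat_lit 86) (nat_lit 1) (nat_lit 107) (nat_lit 56) (nat_lit 107)) (PT.lf (nat_lit 7140) (nat_lit 6) (nat_lit 85) (nat_lit 1) (nat_lit 108) (nat_lit 56) (nat_lit 106))) (PT.nd (nat_lit 94) (PT.lf (nat_lit 7308) (nat_lit 6) (nat_lit 87) (nat_lit 3) (nat_lit 106) (nat_lit 57) (nat_lit 107)) (PT.lf (nat_lit 7308) (nat_lit 6) (nat_lit 87) (nat_lit 1) (nat_lit 107) (nat_lit 57) (nat_lit 106))))) (PT.nd (nat_lit 67774) (PT.nd (nat_lit 94) (PT.lf (nat_lit 7392) (nat_lit 6)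 (nat_lit 88) (nat_lit 3) (nat_lit 105) (nat_lit 58) (nat_lit 107)) (PT.nd (nat_lit 94) (PT.lf (nat_lit 7476) (nat_lit 3) (nat_lit 89) (nat_lit 1) (nat_lit 106) (nat_lit 58) (nat_lit 106)) (PT.lf (nat_lit 7392) (nat_lit 6) (nat_lit 88) (nat_lit 1) (nat_lit 107) (nat_lit 58) (nat_lit 105)))) (PT.nd (nat_lit 67680) (PT.nd (nat_lit 94) (PT.lf (nat_lit 7560) (nat_lit 6) (nat_lit 90) (nat_lit 3) (nat_lit 105) (nat_lit 59) (nat_lit 106)) (PT.lf (nat_lit 7560) (nat_lit 6) (nat_lit 90) (nat_lit 1) (nat_lit 106) (nat_lit 59) (nat_lit 105))) (PT.nd (nat_lit 94) (PT.lf (nat_lit 7644) (nat_lit 6) (nat_lit 91) (nat_lit 3) (nat_lit 104) (nat_lit 60) (nat_lit 106)) (PT.lf (nat_lit 7728) (nat_lit 3) (nat_lit 92) (nat_lit 1) (nat_lit 105) (nat_lit 60) (nat_lit 105)))))) (PT.nd (nat_lit 203134) (PT.nd (nat_lit 135266) (PT.nd (nat_lit 67586) (PT.lf (nat_lit 7644) (nat_lit 6)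 (nat_lit 91) (nat_lit 1) (nat_lit 106) (nat_lit 60) (nat_lit 104)) (PT.nd (nat_lit 94) (PT.lf (nat_lit 7812) (nat_lit 6) (nat_lit 93) (nat_lit 3) (nat_lit 104) (nat_lit 61) (nat_lit 105)) (PT.lf (nat_lit 7812) (nat_lit 6) (nat_lit 93) (nat_lit 1) (nat_lit 105) (nat_lit 61) (nat_lit 104)))) (PT.nd (nat_lit 188) (PT.nd (nat_lit 94) (PT.lf (nat_lit 7896) (nat_lit 6) (nat_lit 94) (nat_lit 3) (nat_lit 103) (nat_lit 62) (nat_lit 105)) (PT.lf (nat_lit 7980) (nat_lit 3) (nat_lit 95) (nat_lit 1) (nat_lit 104) (nat_lit 62) (nat_lit 104))) (PT.nd (nat_lit 67586) (PT.lf (nat_lit 7896) (nat_lit 6) (nat_lit 94) (nat_lit 1) (nat_lit 105) (nat_lit 62) (nat_lit 103)) (PT.lf (nat_lit 8064) (nat_lit 6) (nat_lit 96) (nat_lit 3) (nat_lit 103) (nat_lit 63) (nat_lit 104))))) (PT.nd (nat_lit 67774) (PT.nd (nat_lit 67586) (PT.lf (nat_lit 8064) (nat_lit 6) (nat_lit 96) (nat_lit 1)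 (nat_lit 104) (nat_lit 63) (nat_lit 103)) (PT.nd (nat_lit 94) (PT.lf (nat_lit 8148) (nat_lit 6) (nat_lit 97) (nat_lit 3) (nat_lit 102) (nat_lit 64) (nat_lit 104)) (PT.lf (nat_lit 8232) (nat_lit 3) (nat_lit 98) (nat_lit 1) (nat_lit 103) (nat_lit 64) (nat_lit 103)))) (PT.nd (nat_lit 67680) (PT.nd (nat_lit 67586) (PT.lf (nat_lit 8148) (nat_lit 6) (nat_lit 97) (nat_lit 1) (nat_lit 104) (nat_lit 64) (nat_lit 102)) (PT.lf (nat_lit 8316) (nat_lit 6) (nat_lit 99) (nat_lit 3) (nat_lit 102) (nat_lit 65) (nat_lit 103))) (PT.nd (nat_lit 67586) (PT.lf (nat_lit 8316) (nat_lit 6) (nat_lit 99) (nat_lit 1) (nat_lit 103) (nat_lit 65) (nat_lit 102)) (PT.lf (nat_lit 8400) (nat_lit 6) (nat_lit 100) (nat_lit 3) (nat_lit 101) (nat_lit 66) (nat_lit 103))))))))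
noncomputable def pc3 : PT := (PT.nd (nat_lit 541910) (PT.nd (nat_lit 338494) (PT.nd (nat_lit 203040) (PT.nd (nat_lit 67774) (PT.nd (nat_lit 94) (PT.lf (nat_lit 8484) (nat_lit 3) (nat_lit 101) (nat_lit 1) (nat_lit 102) (nat_lit 66) (nat_lit 102)) (PT.nd (nat_lit 67586) (PT.lf (nat_lit 8400) (nat_lit 6) (nat_lit 100) (nat_lit 1) (nat_lit 103) (nat_lit 66) (nat_lit 101)) (PT.lf (nat_lit 8568) (nat_lit 6) (nat_lit 102) (nat_lit 3) (nat_lit 101) (nat_lit 67) (nat_lit 102)))) (PT.nd (nat_lit 67680) (PT.nd (nat_lit 67586) (PT.lf (nat_lit 8568) (nat_lit 6) (nat_lit 102) (nat_lit 1) (nat_lit 102) (nat_lit 67) (nat_lit 101)) (PT.lf (nat_lit 8652) (nat_lit 6) (nat_lit 103) (nat_lit 3) (nat_lit 100) (nat_lit 68) (nat_lit 102))) (PT.nd (nat_lit 94) (PT.lf (nat_lit 8736) (nat_lit 3) (nat_lit 104) (nat_lit 1) (nat_lit 101) (nat_lit 68) (nat_lit 101)) (PT.lf (nat_lit 8652)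 (nat_lit 6) (nat_lit 103) (nat_lit 1) (nat_lit 102) (nat_lit 68) (nat_lit 100))))) (PT.nd (nat_lit 282) (PT.nd (nat_lit 94) (PT.lf (nat_lit 8820) (nat_lit 6) (nat_lit 105) (nat_lit 3) (nat_lit 99) (nat_lit 69) (nat_lit 102)) (PT.nd (nat_lit 94) (PT.lf (nat_lit 8904) (nat_lit 6) (nat_lit 106) (nat_lit 3) (nat_lit 100) (nat_lit 69) (nat_lit 101)) (PT.lf (nat_lit 8904) (nat_lit 6) (nat_lit 106) (nat_lit 1) (nat_lit 101) (nat_lit 69) (nat_lit 100)))) (PT.nd (nat_lit 67586) (PT.nd (nat_lit 67492) (PT.lf (nat_lit 8820) (nat_lit 6) (nat_lit 105) (nat_lit 1) (nat_lit 102) (nat_lit 69) (nat_lit 99)) (PT.lf (nat_lit 8988) (nat_lit 6) (nat_lit 107) (nat_lit 3) (nat_lit 99) (nat_lit 70) (nat_lit 101))) (PT.nd (nat_lit 94) (PT.lf (nat_lit 9072) (nat_lit 3) (nat_lit 108) (nat_lit 1) (nat_lit 100) (nat_lit 70) (nat_lit 100)) (PT.lf (nat_lit 8988) (nat_lit 6) (nat_lit 107)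 (nat_lit 1) (nat_lit 101) (nat_lit 70) (nat_lit 99)))))) (PT.nd (nat_lit 135454) (PT.nd (nat_lit 282) (PT.nd (nat_lit 94) (PT.lf (nat_lit 9156) (nat_lit 6) (nat_lit 109) (nat_lit 3) (nat_lit 98) (nat_lit 71) (nat_lit 101)) (PT.nd (nat_lit 94) (PT.lf (nat_lit 9240) (nat_lit 6) (nat_lit 110) (nat_lit 3) (nat_lit 99) (nat_lit 71) (nat_lit 100)) (PT.lf (nat_lit 9240) (nat_lit 6) (nat_lit 110) (nat_lit 1) (nat_lit 100) (nat_lit 71) (nat_lit 99)))) (PT.nd (nat_lit 67586) (PT.nd (nat_lit 67492) (PT.lf (nat_lit 9156) (nat_lit 6) (nat_lit 109) (nat_lit 1) (nat_lit 101) (nat_lit 71) (nat_lit 98)) (PT.lf (nat_lit 9324) (nat_lit 6) (nat_lit 111) (nat_lit 3) (nat_lit 98) (nat_lit 72) (nat_lit 100))) (PT.nd (nat_lit 94) (PT.lf (nat_lit 9408) (nat_lit 3) (nat_lit 112) (nat_lit 1) (nat_lit 99) (nat_lit 72) (nat_lit 99)) (PT.lf (nat_lit 9324) (nat_lit 6) (nat_lit 111) (nat_lit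 1) (nat_lit 100) (nat_lit 72) (nat_lit 98))))) (PT.nd (nat_lit 282) (PT.nd (nat_lit 94) (PT.lf (nat_lit 9492) (nat_lit 6) (nat_lit 113) (nat_lit 3) (nat_lit 97) (nat_lit 73) (nat_lit 100)) (PT.nd (nat_lit 94) (PT.lf (nat_lit 9576) (nat_lit 6) (nat_lit 114) (nat_lit 3) (nat_lit 98) (nat_lit 73) (nat_lit 99)) (PT.lf (nat_lit 9576) (nat_lit 6) (nat_lit 114) (nat_lit 1) (nat_lit 99) (nat_lit 73) (nat_lit 98)))) (PT.nd (nat_lit 67492) (PT.nd (nat_lit 67398) (PT.lf (nat_lit 9492) (nat_lit 6) (nat_lit 113) (nat_lit 1) (nat_lit 100) (nat_lit 73) (nat_lit 97)) (PT.lf (nat_lit 9660) (nat_lit 6) (nat_lit 115) (nat_lit 3) (nat_lit 96) (nat_lit 74) (nat_lit 100))) (PT.nd (nat_lit 94) (PT.lf (nat_lit 9744) (nat_lit 6) (nat_lit 116) (nat_lit 3) (nat_lit 97) (nat_lit 74) (nat_lit 99)) (PT.lf (nat_lit 9828) (nat_lit 3) (nat_lit 117) (nat_lit 1) (nat_lit 98) (nat_lit 74) (nat_lit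 98))))))) (PT.nd (nat_lit 203228) (PT.nd (nat_lit 135266) (PT.nd (nat_lit 67586) (PT.nd (nat_lit 94) (PT.lf (nat_lit 9744) (nat_lit 6) (nat_lit 116) (nat_lit 1) (nat_lit 99) (nat_lit 74) (nat_lit 97)) (PT.nd (nat_lit 67398) (PT.lf (nat_lit 9660) (nat_lit 6) (nat_lit 115) (nat_lit 1) (nat_lit 100) (nat_lit 74) (nat_lit 96)) (PT.lf (nat_lit 9912) (nat_lit 6) (nat_lit 118) (nat_lit 3) (nat_lit 96) (nat_lit 75) (nat_lit 99)))) (PT.nd (nat_lit 188) (PT.nd (nat_lit 94) (PT.lf (nat_lit 9996) (nat_lit 6) (nat_lit 119) (nat_lit 3) (nat_lit 97) (nat_lit 75) (nat_lit 98)) (PT.lf (nat_lit 9996) (nat_lit 6) (nat_lit 119) (nat_lit 1) (nat_lit 98) (nat_lit 75) (nat_lit 97))) (PT.nd (nat_lit 67398) (PT.lf (nat_lit 9912) (nat_lit 6) (nat_lit 118) (nat_lit 1) (nat_lit 99) (nat_lit 75) (nat_lit 96)) (PT.lf (nat_lit 10080) (nat_lit 6) (nat_lit 120) (nat_lit 3) (nat_lit 95) (nat_lit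 76) (nat_lit 99))))) (PT.nd (nat_lit 282) (PT.nd (nat_lit 94) (PT.lf (nat_lit 10164) (nat_lit 6) (nat_lit 121) (nat_lit 3) (nat_lit 96) (nat_lit 76) (nat_lit 98)) (PT.nd (nat_lit 94) (PT.lf (nat_lit 10248) (nat_lit 3) (nat_lit 122) (nat_lit 1) (nat_lit 97) (nat_lit 76) (nat_lit 97)) (PT.lf (nat_lit 10164) (nat_lit 6) (nat_lit 121) (nat_lit 1) (nat_lit 98) (nat_lit 76) (nat_lit 96)))) (PT.nd (nat_lit 67492) (PT.nd (nat_lit 67398) (PT.lf (nat_lit 10080) (nat_lit 6) (nat_lit 120) (nat_lit 1) (nat_lit 99) (nat_lit 76) (nat_lit 95)) (PT.lf (nat_lit 10332) (nat_lit 6) (nat_lit 123) (nat_lit 3) (nat_lit 95) (nat_lit 77) (nat_lit 98))) (PT.nd (nat_lit 94) (PT.lf (nat_lit 10416) (nat_lit 6) (nat_lit 124) (nat_lit 3) (nat_lit 96) (nat_lit 77) (nat_lit 97)) (PT.lf (nat_lit 10416) (nat_lit 6) (nat_lit 124) (nat_lit 1) (nat_lit 97) (nat_lit 77) (nat_lit 96)))))) (PT.nd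 (nat_lit 135172) (PT.nd (nat_lit 67586) (PT.nd (nat_lit 67398) (PT.lf (nat_lit 10332) (nat_lit 6) (nat_lit 123) (nat_lit 1) (nat_lit 98) (nat_lit 77) (nat_lit 95)) (PT.nd (nat_lit 94) (PT.lf (nat_lit 10500) (nat_lit 6) (nat_lit 125) (nat_lit 3) (nat_lit 94) (nat_lit 78) (nat_lit 98)) (PT.lf (nat_lit 10584) (nat_lit 6) (nat_lit 126) (nat_lit 3) (nat_lit 95) (nat_lit 78) (nat_lit 97)))) (PT.nd (nat_lit 188) (PT.nd (nat_lit 94) (PT.lf (nat_lit 10668) (nat_lit 3) (nat_lit 127) (nat_lit 1) (nat_lit 96) (nat_lit 78) (nat_lit 96)) (PT.lf (nat_lit 10584) (nat_lit 6) (nat_lit 126) (nat_lit 1) (nat_lit 97) (nat_lit 78) (nat_lit 95))) (PT.nd (nat_lit 67304) (PT.lf (nat_lit 10500) (nat_lit 6) (nat_lit 125) (nat_lit 1) (nat_lit 98) (nat_lit 78) (nat_lit 94)) (PT.lf (nat_lit 10752) (nat_lit 6) (nat_lit 128) (nat_lit 3) (nat_lit 93) (nat_lit 79) (nat_lit 98))))) (PT.nd (nat_lit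 282) (PT.nd (nat_lit 94) (PT.lf (nat_lit 10836) (nat_lit 6) (nat_lit 129) (nat_lit 3) (nat_lit 94) (nat_lit 79) (nat_lit 97)) (PT.nd (nat_lit 94) (PT.lf (nat_lit 10920) (nat_lit 6) (nat_lit 130) (nat_lit 3) (nat_lit 95) (nat_lit 79) (nat_lit 96)) (PT.lf (nat_lit 10920) (nat_lit 6) (nat_lit 130) (nat_lit 1) (nat_lit 96) (nat_lit 79) (nat_lit 95)))) (PT.nd (nat_lit 67304) (PT.nd (nat_lit 94) (PT.lf (nat_lit 10836) (nat_lit 6) (nat_lit 129) (nat_lit 1) (nat_lit 97) (nat_lit 79) (nat_lit 94)) (PT.lf (nat_lit 10752) (nat_lit 6) (nat_lit 128) (nat_lit 1) (nat_lit 98) (nat_lit 79) (nat_lit 93))) (PT.nd (nat_lit 94) (PT.lf (nat_lit 11004) (nat_lit 6) (nat_lit 131) (nat_lit 3) (nat_lit 92) (nat_lit 80) (nat_lit 98)) (PT.lf (nat_lit 11088) (nat_lit 6) (nat_lit 132) (nat_lit 3) (nat_lit 93) (nat_lit 80) (nat_lit 97))))))))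
noncomputable def pc4 : PT := (PT.nd (nat_lit 270720) (PT.nd (nat_lit 135454) (PT.nd (nat_lit 67680) (PT.nd (nat_lit 282) (PT.nd (nat_lit 94) (PT.lf (nat_lit 11172) (nat_lit 6) (nat_lit 133) (nat_lit 3) (nat_lit 94) (nat_lit 80) (nat_lit 96)) (PT.nd (nat_lit 94) (PT.lf (nat_lit 11256) (nat_lit 3) (nat_lit 134) (nat_lit 1) (nat_lit 95) (nat_lit 80) (nat_lit 95)) (PT.lf (nat_lit 11172) (nat_lit 6) (nat_lit 133) (nat_lit 1) (nat_lit 96) (nat_lit 80) (nat_lit 94)))) (PT.nd (nat_lit 94) (PT.lf (nat_lit 11088) (nat_lit 6) (nat_lit 132) (nat_lit 1) (nat_lit 97) (nat_lit 80) (nat_lit 93)) (PT.nd (nat_lit 67210) (PT.lf (nat_lit 11004) (nat_lit 6) (nat_lit 131) (nat_lit 1) (nat_lit 98) (nat_lit 80) (nat_lit 92)) (PT.lf (nat_lit 11340) (nat_lit 6) (nat_lit 135) (nat_lit 3) (nat_lit 92) (nat_lit 81) (nat_lit 97))))) (PT.nd (nat_lit 282) (PT.nd (nat_lit 94) (PT.lf (nat_lit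 11424) (nat_lit 6) (nat_lit 136) (nat_lit 3) (nat_lit 93) (nat_lit 81) (nat_lit 96)) (PT.nd (nat_lit 94) (PT.lf (nat_lit 11508) (nat_lit 6) (nat_lit 137) (nat_lit 3) (nat_lit 94) (nat_lit 81) (nat_lit 95)) (PT.lf (nat_lit 11508) (nat_lit 6) (nat_lit 137) (nat_lit 1) (nat_lit 95) (nat_lit 81) (nat_lit 94)))) (PT.nd (nat_lit 67304) (PT.nd (nat_lit 94) (PT.lf (nat_lit 11424) (nat_lit 6) (nat_lit 136) (nat_lit 1) (nat_lit 96) (nat_lit 81) (nat_lit 93)) (PT.lf (nat_lit 11340) (nat_lit 6) (nat_lit 135) (nat_lit 1) (nat_lit 97) (nat_lit 81) (nat_lit 92))) (PT.nd (nat_lit 94) (PT.lf (nat_lit 11592) (nat_lit 6) (nat_lit 138) (nat_lit 3) (nat_lit 91) (nat_lit 82) (nat_lit 97)) (PT.lf (nat_lit 11676) (nat_lit 6) (nat_lit 139) (nat_lit 3) (nat_lit 92) (nat_lit 82) (nat_lit 96)))))) (PT.nd (nat_lit 67680) (PT.nd (nat_lit 282) (PT.nd (nat_lit 94) (PT.lf (nat_lit 11760)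 (nat_lit 6) (nat_lit 140) (nat_lit 3) (nat_lit 93) (nat_lit 82) (nat_lit 95)) (PT.nd (nat_lit 94) (PT.lf (nat_lit 11844) (nat_lit 3) (nat_lit 141) (nat_lit 1) (nat_lit 94) (nat_lit 82) (nat_lit 94)) (PT.lf (nat_lit 11760) (nat_lit 6) (nat_lit 140) (nat_lit 1) (nat_lit 95) (nat_lit 82) (nat_lit 93)))) (PT.nd (nat_lit 67210) (PT.nd (nat_lit 94) (PT.lf (nat_lit 11676) (nat_lit 6) (nat_lit 139) (nat_lit 1) (nat_lit 96) (nat_lit 82) (nat_lit 92)) (PT.lf (nat_lit 11592) (nat_lit 6) (nat_lit 138) (nat_lit 1) (nat_lit 97) (nat_lit 82) (nat_lit 91))) (PT.nd (nat_lit 94) (PT.lf (nat_lit 12180) (nat_lit 6) (nat_lit 145) (nat_lit 3) (nat_lit 90) (nat_lit 83) (nat_lit 97)) (PT.lf (nat_lit 12264) (nat_lit 6) (nat_lit 146) (nat_lit 3) (nat_lit 91) (nat_lit 83) (nat_lit 96))))) (PT.nd (nat_lit 282) (PT.nd (nat_lit 94) (PT.lf (nat_lit 12348) (nat_lit 6) (nat_lit 147) (nat_lit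 3) (nat_lit 92) (nat_lit 83) (nat_lit 95)) (PT.nd (nat_lit 94) (PT.lf (nat_lit 12432) (nat_lit 6) (nat_lit 148) (nat_lit 3) (nat_lit 93) (nat_lit 83) (nat_lit 94)) (PT.lf (nat_lit 12432) (nat_lit 6) (nat_lit 148) (nat_lit 1) (nat_lit 94) (nat_lit 83) (nat_lit 93)))) (PT.nd (nat_lit 188) (PT.nd (nat_lit 94) (PT.lf (nat_lit 12348) (nat_lit 6) (nat_lit 147) (nat_lit 1) (nat_lit 95) (nat_lit 83) (nat_lit 92)) (PT.lf (nat_lit 12264) (nat_lit 6) (nat_lit 146) (nat_lit 1) (nat_lit 96) (nat_lit 83) (nat_lit 91))) (PT.nd (nat_lit 67022) (PT.lf (nat_lit 12180) (nat_lit 6) (nat_lit 145) (nat_lit 1) (nat_lit 97) (nat_lit 83) (nat_lit 90)) (PT.lf (nat_lit 12096) (nat_lit 6) (nat_lit 144) (nat_lit 3) (nat_lit 89) (nat_lit 84) (nat_lit 97))))))) (PT.nd (nat_lit 68150) (PT.nd (nat_lit 658) (PT.nd (nat_lit 282) (PT.nd (nat_lit 94) (PT.lf (nat_lit 12768) (nat_lit 6) (nat_lit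 152) (nat_lit 3) (nat_lit 90) (nat_lit 84) (nat_lit 96)) (PT.nd (nat_lit 94) (PT.lf (nat_lit 12852) (nat_lit 6) (nat_lit 153) (nat_lit 3) (nat_lit 91) (nat_lit 84) (nat_lit 95)) (PT.lf (nat_lit 12936) (nat_lit 6) (nat_lit 154) (nat_lit 3) (nat_lit 92) (nat_lit 84) (nat_lit 94)))) (PT.nd (nat_lit 188) (PT.nd (nat_lit 94) (PT.lf (nat_lit 13020) (nat_lit 3) (nat_lit 155) (nat_lit 1) (nat_lit 93) (nat_lit 84) (nat_lit 93)) (PT.lf (nat_lit 12936) (nat_lit 6) (nat_lit 154) (nat_lit 1) (nat_lit 94) (nat_lit 84) (nat_lit 92))) (PT.nd (nat_lit 94) (PT.lf (nat_lit 12852) (nat_lit 6) (nat_lit 153) (nat_lit 1) (nat_lit 95) (nat_lit 84) (nat_lit 91)) (PT.lf (nat_lit 12768) (nat_lit 6) (nat_lit 152) (nat_lit 1) (nat_lit 96) (nat_lit 84) (nat_lit 90))))) (PT.nd (nat_lit 67116) (PT.nd (nat_lit 66928) (PT.lf (nat_lit 12096) (nat_lit 6) (nat_lit 144) (nat_lit 1) (nat_lit 97)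 (nat_lit 84) (nat_lit 89)) (PT.nd (nat_lit 94) (PT.lf (nat_lit 12012) (nat_lit 6) (nat_lit 143) (nat_lit 3) (nat_lit 88) (nat_lit 85) (nat_lit 97)) (PT.lf (nat_lit 12684) (nat_lit 6) (nat_lit 151) (nat_lit 3) (nat_lit 89) (nat_lit 85) (nat_lit 96)))) (PT.nd (nat_lit 188) (PT.nd (nat_lit 94) (PT.lf (nat_lit 13272) (nat_lit 6) (nat_lit 158) (nat_lit 3) (nat_lit 90) (nat_lit 85) (nat_lit 95)) (PT.lf (nat_lit 13356) (nat_lit 6) (nat_lit 159) (nat_lit 3) (nat_lit 91) (nat_lit 85) (nat_lit 94))) (PT.nd (nat_lit 94) (PT.lf (nat_lit 13440) (nat_lit 6) (nat_lit 160) (nat_lit 3) (nat_lit 92) (nat_lit 85) (nat_lit 93)) (PT.lf (nat_lit 13440) (nat_lit 6) (nat_lit 160) (nat_lit 1) (nat_lit 93) (nat_lit 85) (nat_lit 92)))))) (PT.nd (nat_lit 67398) (PT.nd (nat_lit 282) (PT.nd (nat_lit 94) (PT.lf (nat_lit 13356) (nat_lit 6) (nat_lit 159) (nat_lit 1) (nat_lit 94) (nat_lit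 85) (nat_lit 91)) (PT.nd (nat_lit 94) (PT.lf (nat_lit 13272) (nat_lit 6) (nat_lit 158) (nat_lit 1) (nat_lit 95) (nat_lit 85) (nat_lit 90)) (PT.lf (nat_lit 12684) (nat_lit 6) (nat_lit 151) (nat_lit 1) (nat_lit 96) (nat_lit 85) (nat_lit 89)))) (PT.nd (nat_lit 66928) (PT.nd (nat_lit 66834) (PT.lf (nat_lit 12012) (nat_lit 6) (nat_lit 143) (nat_lit 1) (nat_lit 97) (nat_lit 85) (nat_lit 88)) (PT.lf (nat_lit 11928) (nat_lit 6) (nat_lit 142) (nat_lit 3) (nat_lit 87) (nat_lit 86) (nat_lit 97))) (PT.nd (nat_lit 94) (PT.lf (nat_lit 12600) (nat_lit 6) (nat_lit 150) (nat_lit 3) (nat_lit 88) (nat_lit 86) (nat_lit 96)) (PT.lf (nat_lit 13188) (nat_lit 6) (nat_lit 157) (nat_lit 3) (nat_lit 89) (nat_lit 86) (nat_lit 95))))) (PT.nd (nat_lit 282) (PT.nd (nat_lit 94) (PT.lf (nat_lit 13692) (nat_lit 6) (nat_lit 163) (nat_lit 3) (nat_lit 90) (nat_lit 86) (nat_lit 94)) (PT.nd (nat_lit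 94) (PT.lf (nat_lit 13776) (nat_lit 6) (nat_lit 164) (nat_lit 3) (nat_lit 91) (nat_lit 86) (nat_lit 93)) (PT.lf (nat_lit 13860) (nat_lit 3) (nat_lit 165) (nat_lit 1) (nat_lit 92) (nat_lit 86) (nat_lit 92)))) (PT.nd (nat_lit 188) (PT.nd (nat_lit 94) (PT.lf (nat_lit 13776) (nat_lit 6) (nat_lit 164) (nat_lit 1) (nat_lit 93) (nat_lit 86) (nat_lit 91)) (PT.lf (nat_lit 13692) (nat_lit 6) (nat_lit 163) (nat_lit 1) (nat_lit 94) (nat_lit 86) (nat_lit 90))) (PT.nd (nat_lit 94) (PT.lf (nat_lit 13188) (nat_lit 6) (nat_lit 157) (nat_lit 1) (nat_lit 95) (nat_lit 86) (nat_lit 89)) (PT.lf (nat_lit 12600) (nat_lit 6) (nat_lit 150) (nat_lit 1) (nat_lit 96) (nat_lit 86) (nat_lit 88))))))))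
noncomputable def pc5 : PT := (PT.nd (nat_lit 202288) (PT.nd (nat_lit 134514) (PT.nd (nat_lit 67304) (PT.nd (nat_lit 66928) (PT.nd (nat_lit 66740) (PT.lf (nat_lit 11928) (nat_lit 6) (nat_lit 142) (nat_lit 1) (nat_lit 97) (nat_lit 86) (nat_lit 87)) (PT.nd (nat_lit 94) (PT.lf (nat_lit 11928) (nat_lit 6) (nat_lit 142) (nat_lit 5) (nat_lit 86) (nat_lit 87) (nat_lit 97)) (PT.lf (nat_lit 12516) (nat_lit 3) (nat_lit 149) (nat_lit 3) (nat_lit 87) (nat_lit 87) (nat_lit 96)))) (PT.nd (nat_lit 188) (PT.nd (nat_lit 94) (PT.lf (nat_lit 13104) (nat_lit 6) (nat_lit 156) (nat_lit 3) (nat_lit 88) (nat_lit 87) (nat_lit 95)) (PT.lf (nat_lit 13608) (nat_lit 6) (nat_lit 162) (nat_lit 3) (nat_lit 89) (nat_lit 87) (nat_lit 94))) (PT.nd (nat_lit 94) (PT.lf (nat_lit 14028) (nat_lit 6) (nat_lit 167) (nat_lit 3) (nat_lit 90) (nat_lit 87) (nat_lit 93)) (PT.lf (nat_lit 14112) (nat_lit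 6) (nat_lit 168) (nat_lit 3) (nat_lit 91) (nat_lit 87) (nat_lit 92))))) (PT.nd (nat_lit 282) (PT.nd (nat_lit 94) (PT.lf (nat_lit 14112) (nat_lit 6) (nat_lit 168) (nat_lit 1) (nat_lit 92) (nat_lit 87) (nat_lit 91)) (PT.nd (nat_lit 94) (PT.lf (nat_lit 14028) (nat_lit 6) (nat_lit 167) (nat_lit 1) (nat_lit 93) (nat_lit 87) (nat_lit 90)) (PT.lf (nat_lit 13608) (nat_lit 6) (nat_lit 162) (nat_lit 1) (nat_lit 94) (nat_lit 87) (nat_lit 89)))) (PT.nd (nat_lit 188) (PT.nd (nat_lit 94) (PT.lf (nat_lit 13104) (nat_lit 6) (nat_lit 156) (nat_lit 1) (nat_lit 95) (nat_lit 87) (nat_lit 88)) (PT.lf (nat_lit 12516) (nat_lit 3) (nat_lit 149) (nat_lit 0) (nat_lit 96) (nat_lit 87) (nat_lit 87))) (PT.nd (nat_lit 66646) (PT.lf (nat_lit 11928) (nat_lit 6) (nat_lit 142) (nat_lit 0) (nat_lit 97) (nat_lit 87) (nat_lit 86)) (PT.lf (nat_lit 12012) (nat_lit 6) (nat_lit 143) (nat_lit 5) (nat_lit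 85) (nat_lit 88) (nat_lit 97)))))) (PT.nd (nat_lit 658) (PT.nd (nat_lit 282) (PT.nd (nat_lit 94) (PT.lf (nat_lit 12600) (nat_lit 6) (nat_lit 150) (nat_lit 5) (nat_lit 86) (nat_lit 88) (nat_lit 96)) (PT.nd (nat_lit 94) (PT.lf (nat_lit 13104) (nat_lit 6) (nat_lit 156) (nat_lit 5) (nat_lit 87) (nat_lit 88) (nat_lit 95)) (PT.lf (nat_lit 13524) (nat_lit 3) (nat_lit 161) (nat_lit 3) (nat_lit 88) (nat_lit 88) (nat_lit 94)))) (PT.nd (nat_lit 188) (PT.nd (nat_lit 94) (PT.lf (nat_lit 13944) (nat_lit 6) (nat_lit 166) (nat_lit 3) (nat_lit 89) (nat_lit 88) (nat_lit 93)) (PT.lf (nat_lit 14280) (nat_lit 6) (nat_lit 170) (nat_lit 3) (nat_lit 90) (nat_lit 88) (nat_lit 92))) (PT.nd (nat_lit 94) (PT.lf (nat_lit 14364) (nat_lit 3) (nat_lit 171) (nat_lit 1) (nat_lit 91) (nat_lit 88) (nat_lit 91)) (PT.lf (nat_lit 14280) (nat_lit 6) (nat_lit 170) (nat_lit 1) (nat_lit 92) (nat_lit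 88) (nat_lit 90))))) (PT.nd (nat_lit 282) (PT.nd (nat_lit 94) (PT.lf (nat_lit 13944) (nat_lit 6) (nat_lit 166) (nat_lit 1) (nat_lit 93) (nat_lit 88) (nat_lit 89)) (PT.nd (nat_lit 94) (PT.lf (nat_lit 13524) (nat_lit 3) (nat_lit 161) (nat_lit 0) (nat_lit 94) (nat_lit 88) (nat_lit 88)) (PT.lf (nat_lit 13104) (nat_lit 6) (nat_lit 156) (nat_lit 0) (nat_lit 95) (nat_lit 88) (nat_lit 87)))) (PT.nd (nat_lit 66646) (PT.nd (nat_lit 94) (PT.lf (nat_lit 12600) (nat_lit 6) (nat_lit 150) (nat_lit 0) (nat_lit 96) (nat_lit 88) (nat_lit 86)) (PT.lf (nat_lit 12012) (nat_lit 6) (nat_lit 143) (nat_lit 0) (nat_lit 97) (nat_lit 88) (nat_lit 85))) (PT.nd (nat_lit 94) (PT.lf (nat_lit 12096) (nat_lit 6) (nat_lit 144) (nat_lit 5) (nat_lit 84) (nat_lit 89) (nat_lit 97)) (PT.lf (nat_lit 12684) (nat_lit 6) (nat_lit 151) (nat_lit 5) (nat_lit 85) (nat_lit 89) (nat_lit 96))))))) (PT.nd (nat_lit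 67680) (PT.nd (nat_lit 658) (PT.nd (nat_lit 282) (PT.nd (nat_lit 94) (PT.lf (nat_lit 13188) (nat_lit 6) (nat_lit 157) (nat_lit 5) (nat_lit 86) (nat_lit 89) (nat_lit 95)) (PT.nd (nat_lit 94) (PT.lf (nat_lit 13608) (nat_lit 6) (nat_lit 162) (nat_lit 5) (nat_lit 87) (nat_lit 89) (nat_lit 94)) (PT.lf (nat_lit 13944) (nat_lit 6) (nat_lit 166) (nat_lit 5) (nat_lit 88) (nat_lit 89) (nat_lit 93)))) (PT.nd (nat_lit 188) (PT.nd (nat_lit 94) (PT.lf (nat_lit 14196) (nat_lit 3) (nat_lit 169) (nat_lit 3) (nat_lit 89) (nat_lit 89) (nat_lit 92)) (PT.lf (nat_lit 14448) (nat_lit 6) (nat_lit 172) (nat_lit 3) (nat_lit 90) (nat_lit 89) (nat_lit 91))) (PT.nd (nat_lit 94) (PT.lf (nat_lit 14448) (nat_lit 6) (nat_lit 172) (nat_lit 1) (nat_lit 91) (nat_lit 89) (nat_lit 90)) (PT.lf (nat_lit 14196) (nat_lit 3) (nat_lit 169) (nat_lit 0) (nat_lit 92) (nat_lit 89) (nat_lit 89))))) (PT.nd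 (nat_lit 282) (PT.nd (nat_lit 94) (PT.lf (nat_lit 13944) (nat_lit 6) (nat_lit 166) (nat_lit 0) (nat_lit 93) (nat_lit 89) (nat_lit 88)) (PT.nd (nat_lit 94) (PT.lf (nat_lit 13608) (nat_lit 6) (nat_lit 162) (nat_lit 0) (nat_lit 94) (nat_lit 89) (nat_lit 87)) (PT.lf (nat_lit 13188) (nat_lit 6) (nat_lit 157) (nat_lit 0) (nat_lit 95) (nat_lit 89) (nat_lit 86)))) (PT.nd (nat_lit 66552) (PT.nd (nat_lit 94) (PT.lf (nat_lit 12684) (nat_lit 6) (nat_lit 151) (nat_lit 0) (nat_lit 96) (nat_lit 89) (nat_lit 85)) (PT.lf (nat_lit 12096) (nat_lit 6) (nat_lit 144) (nat_lit 0) (nat_lit 97) (nat_lit 89) (nat_lit 84))) (PT.nd (nat_lit 94) (PT.lf (nat_lit 12180) (nat_lit 6) (nat_lit 145) (nat_lit 5) (nat_lit 83) (nat_lit 90) (nat_lit 97)) (PT.lf (nat_lit 12768) (nat_lit 6) (nat_lit 152) (nat_lit 5) (nat_lit 84) (nat_lit 90) (nat_lit 96)))))) (PT.nd (nat_lit 658) (PT.nd (nat_lit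 282) (PT.nd (nat_lit 94) (PT.lf (nat_lit 13272) (nat_lit 6) (nat_lit 158) (nat_lit 5) (nat_lit 85) (nat_lit 90) (nat_lit 95)) (PT.nd (nat_lit 94) (PT.lf (nat_lit 13692) (nat_lit 6) (nat_lit 163) (nat_lit 5) (nat_lit 86) (nat_lit 90) (nat_lit 94)) (PT.lf (nat_lit 14028) (nat_lit 6) (nat_lit 167) (nat_lit 5) (nat_lit 87) (nat_lit 90) (nat_lit 93)))) (PT.nd (nat_lit 188) (PT.nd (nat_lit 94) (PT.lf (nat_lit 14280) (nat_lit 6) (nat_lit 170) (nat_lit 5) (nat_lit 88) (nat_lit 90) (nat_lit 92)) (PT.lf (nat_lit 14448) (nat_lit 6) (nat_lit 172) (nat_lit 5) (nat_lit 89) (nat_lit 90) (nat_lit 91))) (PT.nd (nat_lit 94) (PT.lf (nat_lit 14532) (nat_lit 1) (nat_lit 173) (nat_lit 0) (nat_lit 90) (nat_lit 90) (nat_lit 90)) (PT.lf (nat_lit 14448) (nat_lit 6) (nat_lit 172) (nat_lit 0) (nat_lit 91) (nat_lit 90) (nat_lit 89))))) (PT.nd (nat_lit 282) (PT.nd (nat_lit 94) (PT.lf (nat_lit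 14280) (nat_lit 6) (nat_lit 170) (nat_lit 0) (nat_lit 92) (nat_lit 90) (nat_lit 88)) (PT.nd (nat_lit 94) (PT.lf (nat_lit 14028) (nat_lit 6) (nat_lit 167) (nat_lit 0) (nat_lit 93) (nat_lit 90) (nat_lit 87)) (PT.lf (nat_lit 13692) (nat_lit 6) (nat_lit 163) (nat_lit 0) (nat_lit 94) (nat_lit 90) (nat_lit 86)))) (PT.nd (nat_lit 188) (PT.nd (nat_lit 94) (PT.lf (nat_lit 13272) (nat_lit 6) (nat_lit 158) (nat_lit 0) (nat_lit 95) (nat_lit 90) (nat_lit 85)) (PT.lf (nat_lit 12768) (nat_lit 6) (nat_lit 152) (nat_lit 0) (nat_lit 96) (nat_lit 90) (nat_lit 84))) (PT.nd (nat_lit 66364) (PT.lf (nat_lit 12180) (nat_lit 6) (nat_lit 145) (nat_lit 0) (nat_lit 97) (nat_lit 90) (nat_lit 83)) (PT.lf (nat_lit 11592) (nat_lit 6) (nat_lit 138) (nat_lit 5) (nat_lit 82) (nat_lit 91) (nat_lit 97))))))))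
noncomputable def pc6 : PT := (PT.nd (nat_lit 68620) (PT.nd (nat_lit 1222) (PT.nd (nat_lit 564) (PT.nd (nat_lit 282) (PT.nd (nat_lit 94) (PT.lf (nat_lit 12264) (nat_lit 6) (nat_lit 146) (nat_lit 5) (nat_lit 83) (nat_lit 91) (nat_lit 96)) (PT.nd (nat_lit 94) (PT.lf (nat_lit 12852) (nat_lit 6) (nat_lit 153) (nat_lit 5) (nat_lit 84) (nat_lit 91) (nat_lit 95)) (PT.lf (nat_lit 13356) (nat_lit 6) (nat_lit 159) (nat_lit 5) (nat_lit 85) (nat_lit 91) (nat_lit 94)))) (PT.nd (nat_lit 94) (PT.lf (nat_lit 13776) (nat_lit 6) (nat_lit 164) (nat_lit 5) (nat_lit 86) (nat_lit 91) (nat_lit 93)) (PT.nd (nat_lit 94) (PT.lf (nat_lit 14112) (nat_lit 6) (nat_lit 168) (nat_lit 5) (nat_lit 87) (nat_lit 91) (nat_lit 92)) (PT.lf (nat_lit 14364) (nat_lit 3) (nat_lit 171) (nat_lit 4) (nat_lit 88) (nat_lit 91) (nat_lit 91))))) (PT.nd (nat_lit 282) (PT.nd (nat_lit 94) (PT.lf (nat_lit 14448)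 (nat_lit 6) (nat_lit 172) (nat_lit 4) (nat_lit 89) (nat_lit 91) (nat_lit 90)) (PT.nd (nat_lit 94) (PT.lf (nat_lit 14448) (nat_lit 6) (nat_lit 172) (nat_lit 2) (nat_lit 90) (nat_lit 91) (nat_lit 89)) (PT.lf (nat_lit 14364) (nat_lit 3) (nat_lit 171) (nat_lit 0) (nat_lit 91) (nat_lit 91) (nat_lit 88)))) (PT.nd (nat_lit 188) (PT.nd (nat_lit 94) (PT.lf (nat_lit 14112) (nat_lit 6) (nat_lit 168) (nat_lit 0) (nat_lit 92) (nat_lit 91) (nat_lit 87)) (PT.lf (nat_lit 13776) (nat_lit 6) (nat_lit 164) (nat_lit 0) (nat_lit 93) (nat_lit 91) (nat_lit 86))) (PT.nd (nat_lit 94) (PT.lf (nat_lit 13356) (nat_lit 6) (nat_lit 159) (nat_lit 0) (nat_lit 94) (nat_lit 91) (nat_lit 85)) (PT.lf (nat_lit 12852) (nat_lit 6) (nat_lit 153) (nat_lit 0) (nat_lit 95) (nat_lit 91) (nat_lit 84)))))) (PT.nd (nat_lit 66740) (PT.nd (nat_lit 66364) (PT.nd (nat_lit 94) (PT.lf (nat_lit 12264) (nat_lit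 6) (nat_lit 146) (nat_lit 0) (nat_lit 96) (nat_lit 91) (nat_lit 83)) (PT.nd (nat_lit 66176) (PT.lf (nat_lit 11592) (nat_lit 6) (nat_lit 138) (nat_lit 0) (nat_lit 97) (nat_lit 91) (nat_lit 82)) (PT.lf (nat_lit 11004) (nat_lit 6) (nat_lit 131) (nat_lit 5) (nat_lit 80) (nat_lit 92) (nat_lit 98)))) (PT.nd (nat_lit 188) (PT.nd (nat_lit 94) (PT.lf (nat_lit 11340) (nat_lit 6) (nat_lit 135) (nat_lit 5) (nat_lit 81) (nat_lit 92) (nat_lit 97)) (PT.lf (nat_lit 11676) (nat_lit 6) (nat_lit 139) (nat_lit 5) (nat_lit 82) (nat_lit 92) (nat_lit 96))) (PT.nd (nat_lit 94) (PT.lf (nat_lit 12348) (nat_lit 6) (nat_lit 147) (nat_lit 5) (nat_lit 83) (nat_lit 92) (nat_lit 95)) (PT.lf (nat_lit 12936) (nat_lit 6) (nat_lit 154) (nat_lit 5) (nat_lit 84) (nat_lit 92) (nat_lit 94))))) (PT.nd (nat_lit 282) (PT.nd (nat_lit 94) (PT.lf (nat_lit 13440) (nat_lit 6) (nat_lit 160) (nat_lit 5) (nat_lit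 85) (nat_lit 92) (nat_lit 93)) (PT.nd (nat_lit 94) (PT.lf (nat_lit 13860) (nat_lit 3) (nat_lit 165) (nat_lit 4) (nat_lit 86) (nat_lit 92) (nat_lit 92)) (PT.lf (nat_lit 14112) (nat_lit 6) (nat_lit 168) (nat_lit 4) (nat_lit 87) (nat_lit 92) (nat_lit 91)))) (PT.nd (nat_lit 188) (PT.nd (nat_lit 94) (PT.lf (nat_lit 14280) (nat_lit 6) (nat_lit 170) (nat_lit 4) (nat_lit 88) (nat_lit 92) (nat_lit 90)) (PT.lf (nat_lit 14196) (nat_lit 3) (nat_lit 169) (nat_lit 2) (nat_lit 89) (nat_lit 92) (nat_lit 89))) (PT.nd (nat_lit 94) (PT.lf (nat_lit 14280) (nat_lit 6) (nat_lit 170) (nat_lit 2) (nat_lit 90) (nat_lit 92) (nat_lit 88)) (PT.lf (nat_lit 14112) (nat_lit 6) (nat_lit 168) (nat_lit 2) (nat_lit 91) (nat_lit 92) (nat_lit 87))))))) (PT.nd (nat_lit 67210) (PT.nd (nat_lit 66552) (PT.nd (nat_lit 282) (PT.nd (nat_lit 94) (PT.lf (nat_lit 13860) (nat_lit 3) (nat_lit 165) (nat_lit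 0) (nat_lit 92) (nat_lit 92) (nat_lit 86)) (PT.nd (nat_lit 94) (PT.lf (nat_lit 13440) (nat_lit 6) (nat_lit 160) (nat_lit 0) (nat_lit 93) (nat_lit 92) (nat_lit 85)) (PT.lf (nat_lit 12936) (nat_lit 6) (nat_lit 154) (nat_lit 0) (nat_lit 94) (nat_lit 92) (nat_lit 84)))) (PT.nd (nat_lit 188) (PT.nd (nat_lit 94) (PT.lf (nat_lit 12348) (nat_lit 6) (nat_lit 147) (nat_lit 0) (nat_lit 95) (nat_lit 92) (nat_lit 83)) (PT.lf (nat_lit 11676) (nat_lit 6) (nat_lit 139) (nat_lit 0) (nat_lit 96) (nat_lit 92) (nat_lit 82))) (PT.nd (nat_lit 94) (PT.lf (nat_lit 11340) (nat_lit 6) (nat_lit 135) (nat_lit 0) (nat_lit 97) (nat_lit 92) (nat_lit 81)) (PT.lf (nat_lit 11004) (nat_lit 6) (nat_lit 131) (nat_lit 0) (nat_lit 98) (nat_lit 92) (nat_lit 80))))) (PT.nd (nat_lit 282) (PT.nd (nat_lit 94) (PT.lf (nat_lit 10752) (nat_lit 6) (nat_lit 128) (nat_lit 5) (nat_lit 79) (nat_lit 93) (nat_lit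 98)) (PT.nd (nat_lit 94) (PT.lf (nat_lit 11088) (nat_lit 6) (nat_lit 132) (nat_lit 5) (nat_lit 80) (nat_lit 93) (nat_lit 97)) (PT.lf (nat_lit 11424) (nat_lit 6) (nat_lit 136) (nat_lit 5) (nat_lit 81) (nat_lit 93) (nat_lit 96)))) (PT.nd (nat_lit 188) (PT.nd (nat_lit 94) (PT.lf (nat_lit 11760) (nat_lit 6) (nat_lit 140) (nat_lit 5) (nat_lit 82) (nat_lit 93) (nat_lit 95)) (PT.lf (nat_lit 12432) (nat_lit 6) (nat_lit 148) (nat_lit 5) (nat_lit 83) (nat_lit 93) (nat_lit 94))) (PT.nd (nat_lit 94) (PT.lf (nat_lit 13020) (nat_lit 3) (nat_lit 155) (nat_lit 4) (nat_lit 84) (nat_lit 93) (nat_lit 93)) (PT.lf (nat_lit 13440) (nat_lit 6) (nat_lit 160) (nat_lit 4) (nat_lit 85) (nat_lit 93) (nat_lit 92)))))) (PT.nd (nat_lit 658) (PT.nd (nat_lit 282) (PT.nd (nat_lit 94) (PT.lf (nat_lit 13776) (nat_lit 6) (nat_lit 164) (nat_lit 4) (nat_lit 86) (nat_lit 93) (nat_lit 91)) (PT.nd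 (nat_lit 94) (PT.lf (nat_lit 14028) (nat_lit 6) (nat_lit 167) (nat_lit 4) (nat_lit 87) (nat_lit 93) (nat_lit 90)) (PT.lf (nat_lit 13944) (nat_lit 6) (nat_lit 166) (nat_lit 4) (nat_lit 88) (nat_lit 93) (nat_lit 89)))) (PT.nd (nat_lit 188) (PT.nd (nat_lit 94) (PT.lf (nat_lit 13944) (nat_lit 6) (nat_lit 166) (nat_lit 2) (nat_lit 89) (nat_lit 93) (nat_lit 88)) (PT.lf (nat_lit 14028) (nat_lit 6) (nat_lit 167) (nat_lit 2) (nat_lit 90) (nat_lit 93) (nat_lit 87))) (PT.nd (nat_lit 94) (PT.lf (nat_lit 13776) (nat_lit 6) (nat_lit 164) (nat_lit 2) (nat_lit 91) (nat_lit 93) (nat_lit 86)) (PT.lf (nat_lit 13440) (nat_lit 6) (nat_lit 160) (nat_lit 2) (nat_lit 92) (nat_lit 93) (nat_lit 85))))) (PT.nd (nat_lit 282) (PT.nd (nat_lit 94) (PT.lf (nat_lit 13020) (nat_lit 3) (nat_lit 155) (nat_lit 0) (nat_lit 93) (nat_lit 93) (nat_lit 84)) (PT.nd (nat_lit 94) (PT.lf (nat_lit 12432)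 (nat_lit 6) (nat_lit 148) (nat_lit 0) (nat_lit 94) (nat_lit 93) (nat_lit 83)) (PT.lf (nat_lit 11760) (nat_lit 6) (nat_lit 140) (nat_lit 0) (nat_lit 95) (nat_lit 93) (nat_lit 82)))) (PT.nd (nat_lit 188) (PT.nd (nat_lit 94) (PT.lf (nat_lit 11424) (nat_lit 6) (nat_lit 136) (nat_lit 0) (nat_lit 96) (nat_lit 93) (nat_lit 81)) (PT.lf (nat_lit 11088) (nat_lit 6) (nat_lit 132) (nat_lit 0) (nat_lit 97) (nat_lit 93) (nat_lit 80))) (PT.nd (nat_lit 65894) (PT.lf (nat_lit 10752) (nat_lit 6) (nat_lit 128) (nat_lit 0) (nat_lit 98) (nat_lit 93) (nat_lit 79)) (PT.lf (nat_lit 10500) (nat_lit 6) (nat_lit 125) (nat_lit 5) (nat_lit 78) (nat_lit 94) (nat_lit 98))))))))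
noncomputable def pc7 : PT := (PT.nd (nat_lit 68244) (PT.nd (nat_lit 1316) (PT.nd (nat_lit 658) (PT.nd (nat_lit 282) (PT.nd (nat_lit 94) (PT.lf (nat_lit 10836) (nat_lit 6) (nat_lit 129) (nat_lit 5) (nat_lit 79) (nat_lit 94) (nat_lit 97)) (PT.nd (nat_lit 94) (PT.lf (nat_lit 11172) (nat_lit 6) (nat_lit 133) (nat_lit 5) (nat_lit 80) (nat_lit 94) (nat_lit 96)) (PT.lf (nat_lit 11508) (nat_lit 6) (nat_lit 137) (nat_lit 5) (nat_lit 81) (nat_lit 94) (nat_lit 95)))) (PT.nd (nat_lit 188) (PT.nd (nat_lit 94) (PT.lf (nat_lit 11844) (nat_lit 3) (nat_lit 141) (nat_lit 4) (nat_lit 82) (nat_lit 94) (nat_lit 94)) (PT.lf (nat_lit 12432) (nat_lit 6) (nat_lit 148) (nat_lit 4) (nat_lit 83) (nat_lit 94) (nat_lit 93))) (PT.nd (nat_lit 94) (PT.lf (nat_lit 12936) (nat_lit 6) (nat_lit 154) (nat_lit 4) (nat_lit 84) (nat_lit 94) (nat_lit 92)) (PT.lf (nat_lit 13356) (nat_lit 6) (nat_lit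 159) (nat_lit 4) (nat_lit 85) (nat_lit 94) (nat_lit 91))))) (PT.nd (nat_lit 282) (PT.nd (nat_lit 94) (PT.lf (nat_lit 13692) (nat_lit 6) (nat_lit 163) (nat_lit 4) (nat_lit 86) (nat_lit 94) (nat_lit 90)) (PT.nd (nat_lit 94) (PT.lf (nat_lit 13608) (nat_lit 6) (nat_lit 162) (nat_lit 4) (nat_lit 87) (nat_lit 94) (nat_lit 89)) (PT.lf (nat_lit 13524) (nat_lit 3) (nat_lit 161) (nat_lit 2) (nat_lit 88) (nat_lit 94) (nat_lit 88)))) (PT.nd (nat_lit 188) (PT.nd (nat_lit 94) (PT.lf (nat_lit 13608) (nat_lit 6) (nat_lit 162) (nat_lit 2) (nat_lit 89) (nat_lit 94) (nat_lit 87)) (PT.lf (nat_lit 13692) (nat_lit 6) (nat_lit 163) (nat_lit 2) (nat_lit 90) (nat_lit 94) (nat_lit 86))) (PT.nd (nat_lit 94) (PT.lf (nat_lit 13356) (nat_lit 6) (nat_lit 159) (nat_lit 2) (nat_lit 91) (nat_lit 94) (nat_lit 85)) (PT.lf (nat_lit 12936) (nat_lit 6) (nat_lit 154) (nat_lit 2) (nat_lit 92) (nat_lit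 94) (nat_lit 84)))))) (PT.nd (nat_lit 66270) (PT.nd (nat_lit 282) (PT.nd (nat_lit 94) (PT.lf (nat_lit 12432) (nat_lit 6) (nat_lit 148) (nat_lit 2) (nat_lit 93) (nat_lit 94) (nat_lit 83)) (PT.nd (nat_lit 94) (PT.lf (nat_lit 11844) (nat_lit 3) (nat_lit 141) (nat_lit 0) (nat_lit 94) (nat_lit 94) (nat_lit 82)) (PT.lf (nat_lit 11508) (nat_lit 6) (nat_lit 137) (nat_lit 0) (nat_lit 95) (nat_lit 94) (nat_lit 81)))) (PT.nd (nat_lit 188) (PT.nd (nat_lit 94) (PT.lf (nat_lit 11172) (nat_lit 6) (nat_lit 133) (nat_lit 0) (nat_lit 96) (nat_lit 94) (nat_lit 80)) (PT.lf (nat_lit 10836) (nat_lit 6) (nat_lit 129) (nat_lit 0) (nat_lit 97) (nat_lit 94) (nat_lit 79))) (PT.nd (nat_lit 65706) (PT.lf (nat_lit 10500) (nat_lit 6) (nat_lit 125) (nat_lit 0) (nat_lit 98) (nat_lit 94) (nat_lit 78)) (PT.lf (nat_lit 10080) (nat_lit 6) (nat_lit 120) (nat_lit 5) (nat_lit 76) (nat_lit 95) (nat_lit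 99))))) (PT.nd (nat_lit 282) (PT.nd (nat_lit 94) (PT.lf (nat_lit 10332) (nat_lit 6) (nat_lit 123) (nat_lit 5) (nat_lit 77) (nat_lit 95) (nat_lit 98)) (PT.nd (nat_lit 94) (PT.lf (nat_lit 10584) (nat_lit 6) (nat_lit 126) (nat_lit 5) (nat_lit 78) (nat_lit 95) (nat_lit 97)) (PT.lf (nat_lit 10920) (nat_lit 6) (nat_lit 130) (nat_lit 5) (nat_lit 79) (nat_lit 95) (nat_lit 96)))) (PT.nd (nat_lit 188) (PT.nd (nat_lit 94) (PT.lf (nat_lit 11256) (nat_lit 3) (nat_lit 134) (nat_lit 4) (nat_lit 80) (nat_lit 95) (nat_lit 95)) (PT.lf (nat_lit 11508) (nat_lit 6) (nat_lit 137) (nat_lit 4) (nat_lit 81) (nat_lit 95) (nat_lit 94))) (PT.nd (nat_lit 94) (PT.lf (nat_lit 11760) (nat_lit 6) (nat_lit 140) (nat_lit 4) (nat_lit 82) (nat_lit 95) (nat_lit 93)) (PT.lf (nat_lit 12348) (nat_lit 6) (nat_lit 147) (nat_lit 4) (nat_lit 83) (nat_lit 95) (nat_lit 92))))))) (PT.nd (nat_lit 1316) (PT.nd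 (nat_lit 658) (PT.nd (nat_lit 282) (PT.nd (nat_lit 94) (PT.lf (nat_lit 12852) (nat_lit 6) (nat_lit 153) (nat_lit 4) (nat_lit 84) (nat_lit 95) (nat_lit 91)) (PT.nd (nat_lit 94) (PT.lf (nat_lit 13272) (nat_lit 6) (nat_lit 158) (nat_lit 4) (nat_lit 85) (nat_lit 95) (nat_lit 90)) (PT.lf (nat_lit 13188) (nat_lit 6) (nat_lit 157) (nat_lit 4) (nat_lit 86) (nat_lit 95) (nat_lit 89)))) (PT.nd (nat_lit 188) (PT.nd (nat_lit 94) (PT.lf (nat_lit 13104) (nat_lit 6) (nat_lit 156) (nat_lit 4) (nat_lit 87) (nat_lit 95) (nat_lit 88)) (PT.lf (nat_lit 13104) (nat_lit 6) (nat_lit 156) (nat_lit 2) (nat_lit 88) (nat_lit 95) (nat_lit 87))) (PT.nd (nat_lit 94) (PT.lf (nat_lit 13188) (nat_lit 6) (nat_lit 157) (nat_lit 2) (nat_lit 89) (nat_lit 95) (nat_lit 86)) (PT.lf (nat_lit 13272) (nat_lit 6) (nat_lit 158) (nat_lit 2) (nat_lit 90) (nat_lit 95) (nat_lit 85))))) (PT.nd (nat_lit 282)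 (PT.nd (nat_lit 94) (PT.lf (nat_lit 12852) (nat_lit 6) (nat_lit 153) (nat_lit 2) (nat_lit 91) (nat_lit 95) (nat_lit 84)) (PT.nd (nat_lit 94) (PT.lf (nat_lit 12348) (nat_lit 6) (nat_lit 147) (nat_lit 2) (nat_lit 92) (nat_lit 95) (nat_lit 83)) (PT.lf (nat_lit 11760) (nat_lit 6) (nat_lit 140) (nat_lit 2) (nat_lit 93) (nat_lit 95) (nat_lit 82)))) (PT.nd (nat_lit 188) (PT.nd (nat_lit 94) (PT.lf (nat_lit 11508) (nat_lit 6) (nat_lit 137) (nat_lit 2) (nat_lit 94) (nat_lit 95) (nat_lit 81)) (PT.lf (nat_lit 11256) (nat_lit 3) (nat_lit 134) (nat_lit 0) (nat_lit 95) (nat_lit 95) (nat_lit 80))) (PT.nd (nat_lit 94) (PT.lf (nat_lit 10920) (nat_lit 6) (nat_lit 130) (nat_lit 0) (nat_lit 96) (nat_lit 95) (nat_lit 79)) (PT.lf (nat_lit 10584) (nat_lit 6) (nat_lit 126) (nat_lit 0) (nat_lit 97) (nat_lit 95) (nat_lit 78)))))) (PT.nd (nat_lit 65988) (PT.nd (nat_lit 65612) (PT.nd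 (nat_lit 94) (PT.lf (nat_lit 10332) (nat_lit 6) (nat_lit 123) (nat_lit 0) (nat_lit 98) (nat_lit 95) (nat_lit 77)) (PT.nd (nat_lit 65424) (PT.lf (nat_lit 10080) (nat_lit 6) (nat_lit 120) (nat_lit 0) (nat_lit 99) (nat_lit 95) (nat_lit 76)) (PT.lf (nat_lit 9660) (nat_lit 6) (nat_lit 115) (nat_lit 5) (nat_lit 74) (nat_lit 96) (nat_lit 100)))) (PT.nd (nat_lit 188) (PT.nd (nat_lit 94) (PT.lf (nat_lit 9912) (nat_lit 6) (nat_lit 118) (nat_lit 5) (nat_lit 75) (nat_lit 96) (nat_lit 99)) (PT.lf (nat_lit 10164) (nat_lit 6) (nat_lit 121) (nat_lit 5) (nat_lit 76) (nat_lit 96) (nat_lit 98))) (PT.nd (nat_lit 94) (PT.lf (nat_lit 10416) (nat_lit 6) (nat_lit 124) (nat_lit 5) (nat_lit 77) (nat_lit 96) (nat_lit 97)) (PT.lf (nat_lit 10668) (nat_lit 3) (nat_lit 127) (nat_lit 4) (nat_lit 78) (nat_lit 96) (nat_lit 96))))) (PT.nd (nat_lit 282) (PT.nd (nat_lit 94) (PT.lf (nat_lit 10920)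 (nat_lit 6) (nat_lit 130) (nat_lit 4) (nat_lit 79) (nat_lit 96) (nat_lit 95)) (PT.nd (nat_lit 94) (PT.lf (nat_lit 11172) (nat_lit 6) (nat_lit 133) (nat_lit 4) (nat_lit 80) (nat_lit 96) (nat_lit 94)) (PT.lf (nat_lit 11424) (nat_lit 6) (nat_lit 136) (nat_lit 4) (nat_lit 81) (nat_lit 96) (nat_lit 93)))) (PT.nd (nat_lit 188) (PT.nd (nat_lit 94) (PT.lf (nat_lit 11676) (nat_lit 6) (nat_lit 139) (nat_lit 4) (nat_lit 82) (nat_lit 96) (nat_lit 92)) (PT.lf (nat_lit 12264) (nat_lit 6) (nat_lit 146) (nat_lit 4) (nat_lit 83) (nat_lit 96) (nat_lit 91))) (PT.nd (nat_lit 94) (PT.lf (nat_lit 12768) (nat_lit 6) (nat_lit 152) (nat_lit 4) (nat_lit 84) (nat_lit 96) (nat_lit 90)) (PT.lf (nat_lit 12684) (nat_lit 6) (nat_lit 151) (nat_lit 4) (nat_lit 85) (nat_lit 96) (nat_lit 89))))))))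
noncomputable def pc8 : PT := (PT.nd (nat_lit 67680) (PT.nd (nat_lit 1222) (PT.nd (nat_lit 564) (PT.nd (nat_lit 282) (PT.nd (nat_lit 94) (PT.lf (nat_lit 12600) (nat_lit 6) (nat_lit 150) (nat_lit 4) (nat_lit 86) (nat_lit 96) (nat_lit 88)) (PT.nd (nat_lit 94) (PT.lf (nat_lit 12516) (nat_lit 3) (nat_lit 149) (nat_lit 2) (nat_lit 87) (nat_lit 96) (nat_lit 87)) (PT.lf (nat_lit 12600) (nat_lit 6) (nat_lit 150) (nat_lit 2) (nat_lit 88) (nat_lit 96) (nat_lit 86)))) (PT.nd (nat_lit 94) (PT.lf (nat_lit 12684) (nat_lit 6) (nat_lit 151) (nat_lit 2) (nat_lit 89) (nat_lit 96) (nat_lit 85)) (PT.nd (nat_lit 94) (PT.lf (nat_lit 12768) (nat_lit 6) (nat_lit 152) (nat_lit 2) (nat_lit 90) (nat_lit 96) (nat_lit 84)) (PT.lf (nat_lit 12264) (nat_lit 6) (nat_lit 146) (nat_lit 2) (nat_lit 91) (nat_lit 96) (nat_lit 83))))) (PT.nd (nat_lit 282) (PT.nd (nat_lit 94) (PT.lf (nat_lit 11676)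 (nat_lit 6) (nat_lit 139) (nat_lit 2) (nat_lit 92) (nat_lit 96) (nat_lit 82)) (PT.nd (nat_lit 94) (PT.lf (nat_lit 11424) (nat_lit 6) (nat_lit 136) (nat_lit 2) (nat_lit 93) (nat_lit 96) (nat_lit 81)) (PT.lf (nat_lit 11172) (nat_lit 6) (nat_lit 133) (nat_lit 2) (nat_lit 94) (nat_lit 96) (nat_lit 80)))) (PT.nd (nat_lit 188) (PT.nd (nat_lit 94) (PT.lf (nat_lit 10920) (nat_lit 6) (nat_lit 130) (nat_lit 2) (nat_lit 95) (nat_lit 96) (nat_lit 79)) (PT.lf (nat_lit 10668) (nat_lit 3) (nat_lit 127) (nat_lit 0) (nat_lit 96) (nat_lit 96) (nat_lit 78))) (PT.nd (nat_lit 94) (PT.lf (nat_lit 10416) (nat_lit 6) (nat_lit 124) (nat_lit 0) (nat_lit 97) (nat_lit 96) (nat_lit 77)) (PT.lf (nat_lit 10164) (nat_lit 6) (nat_lit 121) (nat_lit 0) (nat_lit 98) (nat_lit 96) (nat_lit 76)))))) (PT.nd (nat_lit 65800) (PT.nd (nat_lit 65424) (PT.nd (nat_lit 94) (PT.lf (nat_lit 9912) (nat_lit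 6) (nat_lit 118) (nat_lit 0) (nat_lit 99) (nat_lit 96) (nat_lit 75)) (PT.nd (nat_lit 65236) (PT.lf (nat_lit 9660) (nat_lit 6) (nat_lit 115) (nat_lit 0) (nat_lit 100) (nat_lit 96) (nat_lit 74)) (PT.lf (nat_lit 9492) (nat_lit 6) (nat_lit 113) (nat_lit 5) (nat_lit 73) (nat_lit 97) (nat_lit 100)))) (PT.nd (nat_lit 188) (PT.nd (nat_lit 94) (PT.lf (nat_lit 9744) (nat_lit 6) (nat_lit 116) (nat_lit 5) (nat_lit 74) (nat_lit 97) (nat_lit 99)) (PT.lf (nat_lit 9996) (nat_lit 6) (nat_lit 119) (nat_lit 5) (nat_lit 75) (nat_lit 97) (nat_lit 98))) (PT.nd (nat_lit 94) (PT.lf (nat_lit 10248) (nat_lit 3) (nat_lit 122) (nat_lit 4) (nat_lit 76) (nat_lit 97) (nat_lit 97)) (PT.lf (nat_lit 10416) (nat_lit 6) (nat_lit 124) (nat_lit 4) (nat_lit 77) (nat_lit 97) (nat_lit 96))))) (PT.nd (nat_lit 282) (PT.nd (nat_lit 94) (PT.lf (nat_lit 10584) (nat_lit 6) (nat_lit 126) (nat_lit 4) (nat_lit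 78) (nat_lit 97) (nat_lit 95)) (PT.nd (nat_lit 94) (PT.lf (nat_lit 10836) (nat_lit 6) (nat_lit 129) (nat_lit 4) (nat_lit 79) (nat_lit 97) (nat_lit 94)) (PT.lf (nat_lit 11088) (nat_lit 6) (nat_lit 132) (nat_lit 4) (nat_lit 80) (nat_lit 97) (nat_lit 93)))) (PT.nd (nat_lit 188) (PT.nd (nat_lit 94) (PT.lf (nat_lit 11340) (nat_lit 6) (nat_lit 135) (nat_lit 4) (nat_lit 81) (nat_lit 97) (nat_lit 92)) (PT.lf (nat_lit 11592) (nat_lit 6) (nat_lit 138) (nat_lit 4) (nat_lit 82) (nat_lit 97) (nat_lit 91))) (PT.nd (nat_lit 94) (PT.lf (nat_lit 12180) (nat_lit 6) (nat_lit 145) (nat_lit 4) (nat_lit 83) (nat_lit 97) (nat_lit 90)) (PT.lf (nat_lit 12096) (nat_lit 6) (nat_lit 144) (nat_lit 4) (nat_lit 84) (nat_lit 97) (nat_lit 89))))))) (PT.nd (nat_lit 1316) (PT.nd (nat_lit 658) (PT.nd (nat_lit 282) (PT.nd (nat_lit 94) (PT.lf (nat_lit 12012) (nat_lit 6) (nat_lit 143) (nat_lit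 4) (nat_lit 85) (nat_lit 97) (nat_lit 88)) (PT.nd (nat_lit 94) (PT.lf (nat_lit 11928) (nat_lit 6) (nat_lit 142) (nat_lit 4) (nat_lit 86) (nat_lit 97) (nat_lit 87)) (PT.lf (nat_lit 11928) (nat_lit 6) (nat_lit 142) (nat_lit 2) (nat_lit 87) (nat_lit 97) (nat_lit 86)))) (PT.nd (nat_lit 188) (PT.nd (nat_lit 94) (PT.lf (nat_lit 12012) (nat_lit 6) (nat_lit 143) (nat_lit 2) (nat_lit 88) (nat_lit 97) (nat_lit 85)) (PT.lf (nat_lit 12096) (nat_lit 6) (nat_lit 144) (nat_lit 2) (nat_lit 89) (nat_lit 97) (nat_lit 84))) (PT.nd (nat_lit 94) (PT.lf (nat_lit 12180) (nat_lit 6) (nat_lit 145) (nat_lit 2) (nat_lit 90) (nat_lit 97) (nat_lit 83)) (PT.lf (nat_lit 11592) (nat_lit 6) (nat_lit 138) (nat_lit 2) (nat_lit 91) (nat_lit 97) (nat_lit 82))))) (PT.nd (nat_lit 282) (PT.nd (nat_lit 94) (PT.lf (nat_lit 11340) (nat_lit 6) (nat_lit 135) (nat_lit 2) (nat_lit 92) (nat_lit 97) (nat_lit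 81)) (PT.nd (nat_lit 94) (PT.lf (nat_lit 11088) (nat_lit 6) (nat_lit 132) (nat_lit 2) (nat_lit 93) (nat_lit 97) (nat_lit 80)) (PT.lf (nat_lit 10836) (nat_lit 6) (nat_lit 129) (nat_lit 2) (nat_lit 94) (nat_lit 97) (nat_lit 79)))) (PT.nd (nat_lit 188) (PT.nd (nat_lit 94) (PT.lf (nat_lit 10584) (nat_lit 6) (nat_lit 126) (nat_lit 2) (nat_lit 95) (nat_lit 97) (nat_lit 78)) (PT.lf (nat_lit 10416) (nat_lit 6) (nat_lit 124) (nat_lit 2) (nat_lit 96) (nat_lit 97) (nat_lit 77))) (PT.nd (nat_lit 94) (PT.lf (nat_lit 10248) (nat_lit 3) (nat_lit 122) (nat_lit 0) (nat_lit 97) (nat_lit 97) (nat_lit 76)) (PT.lf (nat_lit 9996) (nat_lit 6) (nat_lit 119) (nat_lit 0) (nat_lit 98) (nat_lit 97) (nat_lit 75)))))) (PT.nd (nat_lit 65612) (PT.nd (nat_lit 65236) (PT.nd (nat_lit 94) (PT.lf (nat_lit 9744) (nat_lit 6) (nat_lit 116) (nat_lit 0) (nat_lit 99) (nat_lit 97) (nat_lit 74)) (PT.nd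 (nat_lit 65048) (PT.lf (nat_lit 9492) (nat_lit 6) (nat_lit 113) (nat_lit 0) (nat_lit 100) (nat_lit 97) (nat_lit 73)) (PT.lf (nat_lit 9156) (nat_lit 6) (nat_lit 109) (nat_lit 5) (nat_lit 71) (nat_lit 98) (nat_lit 101)))) (PT.nd (nat_lit 188) (PT.nd (nat_lit 94) (PT.lf (nat_lit 9324) (nat_lit 6) (nat_lit 111) (nat_lit 5) (nat_lit 72) (nat_lit 98) (nat_lit 100)) (PT.lf (nat_lit 9576) (nat_lit 6) (nat_lit 114) (nat_lit 5) (nat_lit 73) (nat_lit 98) (nat_lit 99))) (PT.nd (nat_lit 94) (PT.lf (nat_lit 9828) (nat_lit 3) (nat_lit 117) (nat_lit 4) (nat_lit 74) (nat_lit 98) (nat_lit 98)) (PT.lf (nat_lit 9996) (nat_lit 6) (nat_lit 119) (nat_lit 4) (nat_lit 75) (nat_lit 98) (nat_lit 97))))) (PT.nd (nat_lit 282) (PT.nd (nat_lit 94) (PT.lf (nat_lit 10164) (nat_lit 6) (nat_lit 121) (nat_lit 4) (nat_lit 76) (nat_lit 98) (nat_lit 96)) (PT.nd (nat_lit 94) (PT.lf (nat_lit 10332)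 (nat_lit 6) (nat_lit 123) (nat_lit 4) (nat_lit 77) (nat_lit 98) (nat_lit 95)) (PT.lf (nat_lit 10500) (nat_lit 6) (nat_lit 125) (nat_lit 4) (nat_lit 78) (nat_lit 98) (nat_lit 94)))) (PT.nd (nat_lit 1222) (PT.nd (nat_lit 94) (PT.lf (nat_lit 10752) (nat_lit 6) (nat_lit 128) (nat_lit 4) (nat_lit 79) (nat_lit 98) (nat_lit 93)) (PT.lf (nat_lit 11004) (nat_lit 6) (nat_lit 131) (nat_lit 4) (nat_lit 80) (nat_lit 98) (nat_lit 92))) (PT.nd (nat_lit 94) (PT.lf (nat_lit 11004) (nat_lit 6) (nat_lit 131) (nat_lit 2) (nat_lit 92) (nat_lit 98) (nat_lit 80)) (PT.lf (nat_lit 10752) (nat_lit 6) (nat_lit 128) (nat_lit 2) (nat_lit 93) (nat_lit 98) (nat_lit 79))))))))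
noncomputable def pc9 : PT := (PT.nd (nat_lit 133480) (PT.nd (nat_lit 65988) (PT.nd (nat_lit 658) (PT.nd (nat_lit 282) (PT.nd (nat_lit 94) (PT.lf (nat_lit 10500) (nat_lit 6) (nat_lit 125) (nat_lit 2) (nat_lit 94) (nat_lit 98) (nat_lit 78)) (PT.nd (nat_lit 94) (PT.lf (nat_lit 10332) (nat_lit 6) (nat_lit 123) (nat_lit 2) (nat_lit 95) (nat_lit 98) (nat_lit 77)) (PT.lf (nat_lit 10164) (nat_lit 6) (nat_lit 121) (nat_lit 2) (nat_lit 96) (nat_lit 98) (nat_lit 76)))) (PT.nd (nat_lit 188) (PT.nd (nat_lit 94) (PT.lf (nat_lit 9996) (nat_lit 6) (nat_lit 119) (nat_lit 2) (nat_lit 97) (nat_lit 98) (nat_lit 75)) (PT.lf (nat_lit 9828) (nat_lit 3) (nat_lit 117) (nat_lit 0) (nat_lit 98) (nat_lit 98) (nat_lit 74))) (PT.nd (nat_lit 94) (PT.lf (nat_lit 9576) (nat_lit 6) (nat_lit 114) (nat_lit 0) (nat_lit 99) (nat_lit 98) (nat_lit 73)) (PT.lf (nat_lit 9324) (nat_lit 6) (nat_lit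 111) (nat_lit 0) (nat_lit 100) (nat_lit 98) (nat_lit 72))))) (PT.nd (nat_lit 64954) (PT.nd (nat_lit 64766) (PT.lf (nat_lit 9156) (nat_lit 6) (nat_lit 109) (nat_lit 0) (nat_lit 101) (nat_lit 98) (nat_lit 71)) (PT.nd (nat_lit 94) (PT.lf (nat_lit 8820) (nat_lit 6) (nat_lit 105) (nat_lit 5) (nat_lit 69) (nat_lit 99) (nat_lit 102)) (PT.lf (nat_lit 8988) (nat_lit 6) (nat_lit 107) (nat_lit 5) (nat_lit 70) (nat_lit 99) (nat_lit 101)))) (PT.nd (nat_lit 188) (PT.nd (nat_lit 94) (PT.lf (nat_lit 9240) (nat_lit 6) (nat_lit 110) (nat_lit 5) (nat_lit 71) (nat_lit 99) (nat_lit 100)) (PT.lf (nat_lit 9408) (nat_lit 3) (nat_lit 112) (nat_lit 4) (nat_lit 72) (nat_lit 99) (nat_lit 99))) (PT.nd (nat_lit 94) (PT.lf (nat_lit 9576) (nat_lit 6) (nat_lit 114) (nat_lit 4) (nat_lit 73) (nat_lit 99) (nat_lit 98)) (PT.lf (nat_lit 9744) (nat_lit 6) (nat_lit 116) (nat_lit 4) (nat_lit 74)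 (nat_lit 99) (nat_lit 97)))))) (PT.nd (nat_lit 2350) (PT.nd (nat_lit 1974) (PT.nd (nat_lit 94) (PT.lf (nat_lit 9912) (nat_lit 6) (nat_lit 118) (nat_lit 4) (nat_lit 75) (nat_lit 99) (nat_lit 96)) (PT.nd (nat_lit 1786) (PT.lf (nat_lit 10080) (nat_lit 6) (nat_lit 120) (nat_lit 4) (nat_lit 76) (nat_lit 99) (nat_lit 95)) (PT.lf (nat_lit 10080) (nat_lit 6) (nat_lit 120) (nat_lit 2) (nat_lit 95) (nat_lit 99) (nat_lit 76)))) (PT.nd (nat_lit 188) (PT.nd (nat_lit 94) (PT.lf (nat_lit 9912) (nat_lit 6) (nat_lit 118) (nat_lit 2) (nat_lit 96) (nat_lit 99) (nat_lit 75)) (PT.lf (nat_lit 9744) (nat_lit 6) (nat_lit 116) (nat_lit 2) (nat_lit 97) (nat_lit 99) (nat_lit 74))) (PT.nd (nat_lit 94) (PT.lf (nat_lit 9576) (nat_lit 6) (nat_lit 114) (nat_lit 2) (nat_lit 98) (nat_lit 99) (nat_lit 73)) (PT.lf (nat_lit 9408) (nat_lit 3) (nat_lit 112) (nat_lit 0) (nat_lit 99) (nat_lit 99)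 (nat_lit 72))))) (PT.nd (nat_lit 64766) (PT.nd (nat_lit 94) (PT.lf (nat_lit 9240) (nat_lit 6) (nat_lit 110) (nat_lit 0) (nat_lit 100) (nat_lit 99) (nat_lit 71)) (PT.nd (nat_lit 94) (PT.lf (nat_lit 8988) (nat_lit 6) (nat_lit 107) (nat_lit 0) (nat_lit 101) (nat_lit 99) (nat_lit 70)) (PT.lf (nat_lit 8820) (nat_lit 6) (nat_lit 105) (nat_lit 0) (nat_lit 102) (nat_lit 99) (nat_lit 69)))) (PT.nd (nat_lit 188) (PT.nd (nat_lit 94) (PT.lf (nat_lit 8652) (nat_lit 6) (nat_lit 103) (nat_lit 5) (nat_lit 68) (nat_lit 100) (nat_lit 102)) (PT.lf (nat_lit 8904) (nat_lit 6) (nat_lit 106) (nat_lit 5) (nat_lit 69) (nat_lit 100) (nat_lit 101))) (PT.nd (nat_lit 94) (PT.lf (nat_lit 9072) (nat_lit 3) (nat_lit 108) (nat_lit 4) (nat_lit 70) (nat_lit 100) (nat_lit 100)) (PT.lf (nat_lit 9240) (nat_lit 6) (nat_lit 110) (nat_lit 4) (nat_lit 71) (nat_lit 100) (nat_lit 99))))))) (PT.nd (nat_lit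 67586) (PT.nd (nat_lit 2632) (PT.nd (nat_lit 2256) (PT.nd (nat_lit 94) (PT.lf (nat_lit 9324) (nat_lit 6) (nat_lit 111) (nat_lit 4) (nat_lit 72) (nat_lit 100) (nat_lit 98)) (PT.nd (nat_lit 94) (PT.lf (nat_lit 9492) (nat_lit 6) (nat_lit 113) (nat_lit 4) (nat_lit 73) (nat_lit 100) (nat_lit 97)) (PT.lf (nat_lit 9660) (nat_lit 6) (nat_lit 115) (nat_lit 4) (nat_lit 74) (nat_lit 100) (nat_lit 96)))) (PT.nd (nat_lit 188) (PT.nd (nat_lit 94) (PT.lf (nat_lit 9660) (nat_lit 6) (nat_lit 115) (nat_lit 2) (nat_lit 96) (nat_lit 100) (nat_lit 74)) (PT.lf (nat_lit 9492) (nat_lit 6) (nat_lit 113) (nat_lit 2) (nat_lit 97) (nat_lit 100) (nat_lit 73))) (PT.nd (nat_lit 94) (PT.lf (nat_lit 9324) (nat_lit 6) (nat_lit 111) (nat_lit 2) (nat_lit 98) (nat_lit 100) (nat_lit 72)) (PT.lf (nat_lit 9240) (nat_lit 6) (nat_lit 110) (nat_lit 2) (nat_lit 99) (nat_lit 100) (nat_lit 71))))) (PT.nd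 (nat_lit 64578) (PT.nd (nat_lit 94) (PT.lf (nat_lit 9072) (nat_lit 3) (nat_lit 108) (nat_lit 0) (nat_lit 100) (nat_lit 100) (nat_lit 70)) (PT.nd (nat_lit 94) (PT.lf (nat_lit 8904) (nat_lit 6) (nat_lit 106) (nat_lit 0) (nat_lit 101) (nat_lit 100) (nat_lit 69)) (PT.lf (nat_lit 8652) (nat_lit 6) (nat_lit 103) (nat_lit 0) (nat_lit 102) (nat_lit 100) (nat_lit 68)))) (PT.nd (nat_lit 188) (PT.nd (nat_lit 94) (PT.lf (nat_lit 8400) (nat_lit 6) (nat_lit 100) (nat_lit 5) (nat_lit 66) (nat_lit 101) (nat_lit 103)) (PT.lf (nat_lit 8568) (nat_lit 6) (nat_lit 102) (nat_lit 5) (nat_lit 67) (nat_lit 101) (nat_lit 102))) (PT.nd (nat_lit 94) (PT.lf (nat_lit 8736) (nat_lit 3) (nat_lit 104) (nat_lit 4) (nat_lit 68) (nat_lit 101) (nat_lit 101)) (PT.lf (nat_lit 8904) (nat_lit 6) (nat_lit 106) (nat_lit 4) (nat_lit 69) (nat_lit 101) (nat_lit 100)))))) (PT.nd (nat_lit 3102) (PT.nd (nat_lit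 2726) (PT.nd (nat_lit 94) (PT.lf (nat_lit 8988) (nat_lit 6) (nat_lit 107) (nat_lit 4) (nat_lit 70) (nat_lit 101) (nat_lit 99)) (PT.nd (nat_lit 2538) (PT.lf (nat_lit 9156) (nat_lit 6) (nat_lit 109) (nat_lit 4) (nat_lit 71) (nat_lit 101) (nat_lit 98)) (PT.lf (nat_lit 9156) (nat_lit 6) (nat_lit 109) (nat_lit 2) (nat_lit 98) (nat_lit 101) (nat_lit 71)))) (PT.nd (nat_lit 188) (PT.nd (nat_lit 94) (PT.lf (nat_lit 8988) (nat_lit 6) (nat_lit 107) (nat_lit 2) (nat_lit 99) (nat_lit 101) (nat_lit 70)) (PT.lf (nat_lit 8904) (nat_lit 6) (nat_lit 106) (nat_lit 2) (nat_lit 100) (nat_lit 101) (nat_lit 69))) (PT.nd (nat_lit 94) (PT.lf (nat_lit 8736) (nat_lit 3) (nat_lit 104) (nat_lit 0) (nat_lit 101) (nat_lit 101) (nat_lit 68)) (PT.lf (nat_lit 8568) (nat_lit 6) (nat_lit 102) (nat_lit 0) (nat_lit 102) (nat_lit 101) (nat_lit 67))))) (PT.nd (nat_lit 64296) (PT.nd (nat_lit 64108)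 (PT.lf (nat_lit 8400) (nat_lit 6) (nat_lit 100) (nat_lit 0) (nat_lit 103) (nat_lit 101) (nat_lit 66)) (PT.nd (nat_lit 94) (PT.lf (nat_lit 8148) (nat_lit 6) (nat_lit 97) (nat_lit 5) (nat_lit 64) (nat_lit 102) (nat_lit 104)) (PT.lf (nat_lit 8316) (nat_lit 6) (nat_lit 99) (nat_lit 5) (nat_lit 65) (nat_lit 102) (nat_lit 103)))) (PT.nd (nat_lit 188) (PT.nd (nat_lit 94) (PT.lf (nat_lit 8484) (nat_lit 3) (nat_lit 101) (nat_lit 4) (nat_lit 66) (nat_lit 102) (nat_lit 102)) (PT.lf (nat_lit 8568) (nat_lit 6) (nat_lit 102) (nat_lit 4) (nat_lit 67) (nat_lit 102) (nat_lit 101))) (PT.nd (nat_lit 94) (PT.lf (nat_lit 8652) (nat_lit 6) (nat_lit 103) (nat_lit 4) (nat_lit 68) (nat_lit 102) (nat_lit 100)) (PT.lf (nat_lit 8820) (nat_lit 6) (nat_lit 105) (nat_lit 4) (nat_lit 69) (nat_lit 102) (nat_lit 99))))))))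
noncomputable def pc10 : PT := (PT.nd (nat_lit 199562) (PT.nd (nat_lit 68150) (PT.nd (nat_lit 64296) (PT.nd (nat_lit 282) (PT.nd (nat_lit 94) (PT.lf (nat_lit 8820) (nat_lit 6) (nat_lit 105) (nat_lit 2) (nat_lit 99) (nat_lit 102) (nat_lit 69)) (PT.nd (nat_lit 94) (PT.lf (nat_lit 8652) (nat_lit 6) (nat_lit 103) (nat_lit 2) (nat_lit 100) (nat_lit 102) (nat_lit 68)) (PT.lf (nat_lit 8568) (nat_lit 6) (nat_lit 102) (nat_lit 2) (nat_lit 101) (nat_lit 102) (nat_lit 67)))) (PT.nd (nat_lit 94) (PT.lf (nat_lit 8484) (nat_lit 3) (nat_lit 101) (nat_lit 0) (nat_lit 102) (nat_lit 102) (nat_lit 66)) (PT.nd (nat_lit 94) (PT.lf (nat_lit 8316) (nat_lit 6) (nat_lit 99) (nat_lit 0) (nat_lit 103) (nat_lit 102) (nat_lit 65)) (PT.lf (nat_lit 8148) (nat_lit 6) (nat_lit 97) (nat_lit 0) (nat_lit 104) (nat_lit 102) (nat_lit 64))))) (PT.nd (nat_lit 282) (PT.nd (nat_lit 94) (PT.lf (nat_lit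 7896) (nat_lit 6) (nat_lit 94) (nat_lit 5) (nat_lit 62) (nat_lit 103) (nat_lit 105)) (PT.nd (nat_lit 94) (PT.lf (nat_lit 8064) (nat_lit 6) (nat_lit 96) (nat_lit 5) (nat_lit 63) (nat_lit 103) (nat_lit 104)) (PT.lf (nat_lit 8232) (nat_lit 3) (nat_lit 98) (nat_lit 4) (nat_lit 64) (nat_lit 103) (nat_lit 103)))) (PT.nd (nat_lit 3384) (PT.nd (nat_lit 94) (PT.lf (nat_lit 8316) (nat_lit 6) (nat_lit 99) (nat_lit 4) (nat_lit 65) (nat_lit 103) (nat_lit 102)) (PT.lf (nat_lit 8400) (nat_lit 6) (nat_lit 100) (nat_lit 4) (nat_lit 66) (nat_lit 103) (nat_lit 101))) (PT.nd (nat_lit 94) (PT.lf (nat_lit 8400) (nat_lit 6) (nat_lit 100) (nat_lit 2) (nat_lit 101) (nat_lit 103) (nat_lit 66)) (PT.lf (nat_lit 8316) (nat_lit 6) (nat_lit 99) (nat_lit 2) (nat_lit 102) (nat_lit 103) (nat_lit 65)))))) (PT.nd (nat_lit 64108) (PT.nd (nat_lit 63732) (PT.nd (nat_lit 94) (PT.lf (nat_lit 8232)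 (nat_lit 3) (nat_lit 98) (nat_lit 0) (nat_lit 103) (nat_lit 103) (nat_lit 64)) (PT.nd (nat_lit 94) (PT.lf (nat_lit 8064) (nat_lit 6) (nat_lit 96) (nat_lit 0) (nat_lit 104) (nat_lit 103) (nat_lit 63)) (PT.lf (nat_lit 7896) (nat_lit 6) (nat_lit 94) (nat_lit 0) (nat_lit 105) (nat_lit 103) (nat_lit 62)))) (PT.nd (nat_lit 188) (PT.nd (nat_lit 94) (PT.lf (nat_lit 7644) (nat_lit 6) (nat_lit 91) (nat_lit 5) (nat_lit 60) (nat_lit 104) (nat_lit 106)) (PT.lf (nat_lit 7812) (nat_lit 6) (nat_lit 93) (nat_lit 5) (nat_lit 61) (nat_lit 104) (nat_lit 105))) (PT.nd (nat_lit 94) (PT.lf (nat_lit 7980) (nat_lit 3) (nat_lit 95) (nat_lit 4) (nat_lit 62) (nat_lit 104) (nat_lit 104)) (PT.lf (nat_lit 8064) (nat_lit 6) (nat_lit 96) (nat_lit 4) (nat_lit 63) (nat_lit 104) (nat_lit 103))))) (PT.nd (nat_lit 3760) (PT.nd (nat_lit 3572) (PT.lf (nat_lit 8148) (nat_lit 6) (nat_lit 97) (nat_lit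 4) (nat_lit 64) (nat_lit 104) (nat_lit 102)) (PT.nd (nat_lit 94) (PT.lf (nat_lit 8148) (nat_lit 6) (nat_lit 97) (nat_lit 2) (nat_lit 102) (nat_lit 104) (nat_lit 64)) (PT.lf (nat_lit 8064) (nat_lit 6) (nat_lit 96) (nat_lit 2) (nat_lit 103) (nat_lit 104) (nat_lit 63)))) (PT.nd (nat_lit 188) (PT.nd (nat_lit 94) (PT.lf (nat_lit 7980) (nat_lit 3) (nat_lit 95) (nat_lit 0) (nat_lit 104) (nat_lit 104) (nat_lit 62)) (PT.lf (nat_lit 7812) (nat_lit 6) (nat_lit 93) (nat_lit 0) (nat_lit 105) (nat_lit 104) (nat_lit 61))) (PT.nd (nat_lit 63262) (PT.lf (nat_lit 7644) (nat_lit 6) (nat_lit 91) (nat_lit 0) (nat_lit 106) (nat_lit 104) (nat_lit 60)) (PT.lf (nat_lit 7392) (nat_lit 6) (nat_lit 88) (nat_lit 5) (nat_lit 58) (nat_lit 105) (nat_lit 107))))))) (PT.nd (nat_lit 72004) (PT.nd (nat_lit 4418) (PT.nd (nat_lit 282) (PT.nd (nat_lit 94) (PT.lf (nat_lit 7560) (nat_lit 6) (nat_lit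 90) (nat_lit 5) (nat_lit 59) (nat_lit 105) (nat_lit 106)) (PT.nd (nat_lit 94) (PT.lf (nat_lit 7728) (nat_lit 3) (nat_lit 92) (nat_lit 4) (nat_lit 60) (nat_lit 105) (nat_lit 105)) (PT.lf (nat_lit 7812) (nat_lit 6) (nat_lit 93) (nat_lit 4) (nat_lit 61) (nat_lit 105) (nat_lit 104)))) (PT.nd (nat_lit 3948) (PT.nd (nat_lit 3854) (PT.lf (nat_lit 7896) (nat_lit 6) (nat_lit 94) (nat_lit 4) (nat_lit 62) (nat_lit 105) (nat_lit 103)) (PT.lf (nat_lit 7896) (nat_lit 6) (nat_lit 94) (nat_lit 2) (nat_lit 103) (nat_lit 105) (nat_lit 62))) (PT.nd (nat_lit 94) (PT.lf (nat_lit 7812) (nat_lit 6) (nat_lit 93) (nat_lit 2) (nat_lit 104) (nat_lit 105) (nat_lit 61)) (PT.lf (nat_lit 7728) (nat_lit 3) (nat_lit 92) (nat_lit 0) (nat_lit 105) (nat_lit 105) (nat_lit 60))))) (PT.nd (nat_lit 63168) (PT.nd (nat_lit 94) (PT.lf (nat_lit 7560) (nat_lit 6) (nat_lit 90) (nat_lit 0) (nat_lit 106)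 (nat_lit 105) (nat_lit 59)) (PT.nd (nat_lit 62980) (PT.lf (nat_lit 7392) (nat_lit 6) (nat_lit 88) (nat_lit 0) (nat_lit 107) (nat_lit 105) (nat_lit 58)) (PT.lf (nat_lit 7140) (nat_lit 6) (nat_lit 85) (nat_lit 5) (nat_lit 56) (nat_lit 106) (nat_lit 108)))) (PT.nd (nat_lit 188) (PT.nd (nat_lit 94) (PT.lf (nat_lit 7308) (nat_lit 6) (nat_lit 87) (nat_lit 5) (nat_lit 57) (nat_lit 106) (nat_lit 107)) (PT.lf (nat_lit 7476) (nat_lit 3) (nat_lit 89) (nat_lit 4) (nat_lit 58) (nat_lit 106) (nat_lit 106))) (PT.nd (nat_lit 94) (PT.lf (nat_lit 7560) (nat_lit 6) (nat_lit 90) (nat_lit 4) (nat_lit 59) (nat_lit 106) (nat_lit 105)) (PT.lf (nat_lit 7644) (nat_lit 6) (nat_lit 91) (nat_lit 4) (nat_lit 60) (nat_lit 106) (nat_lit 104)))))) (PT.nd (nat_lit 63262) (PT.nd (nat_lit 282) (PT.nd (nat_lit 94) (PT.lf (nat_lit 7644) (nat_lit 6) (nat_lit 91) (nat_lit 2) (nat_lit 104) (nat_lit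 106) (nat_lit 60)) (PT.nd (nat_lit 94) (PT.lf (nat_lit 7560) (nat_lit 6) (nat_lit 90) (nat_lit 2) (nat_lit 105) (nat_lit 106) (nat_lit 59)) (PT.lf (nat_lit 7476) (nat_lit 3) (nat_lit 89) (nat_lit 0) (nat_lit 106) (nat_lit 106) (nat_lit 58)))) (PT.nd (nat_lit 62792) (PT.nd (nat_lit 94) (PT.lf (nat_lit 7308) (nat_lit 6) (nat_lit 87) (nat_lit 0) (nat_lit 107) (nat_lit 106) (nat_lit 57)) (PT.lf (nat_lit 7140) (nat_lit 6) (nat_lit 85) (nat_lit 0) (nat_lit 108) (nat_lit 106) (nat_lit 56))) (PT.nd (nat_lit 94) (PT.lf (nat_lit 6888) (nat_lit 6) (nat_lit 82) (nat_lit 5) (nat_lit 54) (nat_lit 107) (nat_lit 109)) (PT.lf (nat_lit 7056) (nat_lit 6) (nat_lit 84) (nat_lit 5) (nat_lit 55) (nat_lit 107) (nat_lit 108))))) (PT.nd (nat_lit 4606) (PT.nd (nat_lit 94) (PT.lf (nat_lit 7224) (nat_lit 3) (nat_lit 86) (nat_lit 4) (nat_lit 56) (nat_lit 107) (nat_lit 107)) (PT.nd (nat_lit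 94) (PT.lf (nat_lit 7308) (nat_lit 6) (nat_lit 87) (nat_lit 4) (nat_lit 57) (nat_lit 107) (nat_lit 106)) (PT.lf (nat_lit 7392) (nat_lit 6) (nat_lit 88) (nat_lit 4) (nat_lit 58) (nat_lit 107) (nat_lit 105)))) (PT.nd (nat_lit 188) (PT.nd (nat_lit 94) (PT.lf (nat_lit 7392) (nat_lit 6) (nat_lit 88) (nat_lit 2) (nat_lit 105) (nat_lit 107) (nat_lit 58)) (PT.lf (nat_lit 7308) (nat_lit 6) (nat_lit 87) (nat_lit 2) (nat_lit 106) (nat_lit 107) (nat_lit 57))) (PT.nd (nat_lit 94) (PT.lf (nat_lit 7224) (nat_lit 3) (nat_lit 86) (nat_lit 0) (nat_lit 107) (nat_lit 107) (nat_lit 56)) (PT.lf (nat_lit 7056) (nat_lit 6) (nat_lit 84) (nat_lit 0) (nat_lit 108) (nat_lit 107) (nat_lit 55))))))))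
noncomputable def pc11 : PT := (PT.nd (nat_lit 203416) (PT.nd (nat_lit 130284) (PT.nd (nat_lit 67586) (PT.nd (nat_lit 62604) (PT.nd (nat_lit 62416) (PT.lf (nat_lit 6888) (nat_lit 6) (nat_lit 82) (nat_lit 0) (nat_lit 109) (nat_lit 107) (nat_lit 54)) (PT.nd (nat_lit 94) (PT.lf (nat_lit 6636) (nat_lit 6) (nat_lit 79) (nat_lit 5) (nat_lit 52) (nat_lit 108) (nat_lit 110)) (PT.lf (nat_lit 6804) (nat_lit 6) (nat_lit 81) (nat_lit 5) (nat_lit 53) (nat_lit 108) (nat_lit 109)))) (PT.nd (nat_lit 188) (PT.nd (nat_lit 94) (PT.lf (nat_lit 6972) (nat_lit 3) (nat_lit 83) (nat_lit 4) (nat_lit 54) (nat_lit 108) (nat_lit 108)) (PT.lf (nat_lit 7056) (nat_lit 6) (nat_lit 84) (nat_lit 4) (nat_lit 55) (nat_lit 108) (nat_lit 107))) (PT.nd (nat_lit 4700) (PT.lf (nat_lit 7140) (nat_lit 6) (nat_lit 85) (nat_lit 4) (nat_lit 56) (nat_lit 108) (nat_lit 106)) (PT.lf (nat_lit 7140) (nat_lit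 6) (nat_lit 85) (nat_lit 2) (nat_lit 106) (nat_lit 108) (nat_lit 56))))) (PT.nd (nat_lit 282) (PT.nd (nat_lit 94) (PT.lf (nat_lit 7056) (nat_lit 6) (nat_lit 84) (nat_lit 2) (nat_lit 107) (nat_lit 108) (nat_lit 55)) (PT.nd (nat_lit 94) (PT.lf (nat_lit 6972) (nat_lit 3) (nat_lit 83) (nat_lit 0) (nat_lit 108) (nat_lit 108) (nat_lit 54)) (PT.lf (nat_lit 6804) (nat_lit 6) (nat_lit 81) (nat_lit 0) (nat_lit 109) (nat_lit 108) (nat_lit 53)))) (PT.nd (nat_lit 62228) (PT.nd (nat_lit 62134) (PT.lf (nat_lit 6636) (nat_lit 6) (nat_lit 79) (nat_lit 0) (nat_lit 110) (nat_lit 108) (nat_lit 52)) (PT.lf (nat_lit 6384) (nat_lit 6) (nat_lit 76) (nat_lit 5) (nat_lit 50) (nat_lit 109) (nat_lit 111))) (PT.nd (nat_lit 94) (PT.lf (nat_lit 6552) (nat_lit 6) (nat_lit 78) (nat_lit 5) (nat_lit 51) (nat_lit 109) (nat_lit 110)) (PT.lf (nat_lit 6720) (nat_lit 3) (nat_lit 80) (nat_lit 4)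 (nat_lit 52) (nat_lit 109) (nat_lit 109)))))) (PT.nd (nat_lit 67304) (PT.nd (nat_lit 5170) (PT.nd (nat_lit 94) (PT.lf (nat_lit 6804) (nat_lit 6) (nat_lit 81) (nat_lit 4) (nat_lit 53) (nat_lit 109) (nat_lit 108)) (PT.nd (nat_lit 4982) (PT.lf (nat_lit 6888) (nat_lit 6) (nat_lit 82) (nat_lit 4) (nat_lit 54) (nat_lit 109) (nat_lit 107)) (PT.lf (nat_lit 6888) (nat_lit 6) (nat_lit 82) (nat_lit 2) (nat_lit 107) (nat_lit 109) (nat_lit 54)))) (PT.nd (nat_lit 188) (PT.nd (nat_lit 94) (PT.lf (nat_lit 6804) (nat_lit 6) (nat_lit 81) (nat_lit 2) (nat_lit 108) (nat_lit 109) (nat_lit 53)) (PT.lf (nat_lit 6720) (nat_lit 3) (nat_lit 80) (nat_lit 0) (nat_lit 109) (nat_lit 109) (nat_lit 52))) (PT.nd (nat_lit 94) (PT.lf (nat_lit 6552) (nat_lit 6) (nat_lit 78) (nat_lit 0) (nat_lit 110) (nat_lit 109) (nat_lit 51)) (PT.lf (nat_lit 6384) (nat_lit 6) (nat_lit 76) (nat_lit 0) (nat_lit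 111) (nat_lit 109) (nat_lit 50))))) (PT.nd (nat_lit 282) (PT.nd (nat_lit 94) (PT.lf (nat_lit 6132) (nat_lit 6) (nat_lit 73) (nat_lit 5) (nat_lit 48) (nat_lit 110) (nat_lit 112)) (PT.nd (nat_lit 94) (PT.lf (nat_lit 6300) (nat_lit 6) (nat_lit 75) (nat_lit 5) (nat_lit 49) (nat_lit 110) (nat_lit 111)) (PT.lf (nat_lit 6468) (nat_lit 3) (nat_lit 77) (nat_lit 4) (nat_lit 50) (nat_lit 110) (nat_lit 110)))) (PT.nd (nat_lit 5358) (PT.nd (nat_lit 94) (PT.lf (nat_lit 6552) (nat_lit 6) (nat_lit 78) (nat_lit 4) (nat_lit 51) (nat_lit 110) (nat_lit 109)) (PT.lf (nat_lit 6636) (nat_lit 6) (nat_lit 79) (nat_lit 4) (nat_lit 52) (nat_lit 110) (nat_lit 108))) (PT.nd (nat_lit 94) (PT.lf (nat_lit 6636) (nat_lit 6) (nat_lit 79) (nat_lit 2) (nat_lit 108) (nat_lit 110) (nat_lit 52)) (PT.lf (nat_lit 6552) (nat_lit 6) (nat_lit 78) (nat_lit 2) (nat_lit 109) (nat_lit 110) (nat_lit 51)))))))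 (PT.nd (nat_lit 129438) (PT.nd (nat_lit 62134) (PT.nd (nat_lit 61758) (PT.nd (nat_lit 94) (PT.lf (nat_lit 6468) (nat_lit 3) (nat_lit 77) (nat_lit 0) (nat_lit 110) (nat_lit 110) (nat_lit 50)) (PT.nd (nat_lit 94) (PT.lf (nat_lit 6300) (nat_lit 6) (nat_lit 75) (nat_lit 0) (nat_lit 111) (nat_lit 110) (nat_lit 49)) (PT.lf (nat_lit 6132) (nat_lit 6) (nat_lit 73) (nat_lit 0) (nat_lit 112) (nat_lit 110) (nat_lit 48)))) (PT.nd (nat_lit 188) (PT.nd (nat_lit 94) (PT.lf (nat_lit 5880) (nat_lit 6) (nat_lit 70) (nat_lit 5) (nat_lit 46) (nat_lit 111) (nat_lit 113)) (PT.lf (nat_lit 6048) (nat_lit 6) (nat_lit 72) (nat_lit 5) (nat_lit 47) (nat_lit 111) (nat_lit 112))) (PT.nd (nat_lit 94) (PT.lf (nat_lit 6216) (nat_lit 3) (nat_lit 74) (nat_lit 4) (nat_lit 48) (nat_lit 111) (nat_lit 111)) (PT.lf (nat_lit 6300) (nat_lit 6) (nat_lit 75) (nat_lit 4) (nat_lit 49) (nat_lit 111) (nat_lit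 110))))) (PT.nd (nat_lit 5734) (PT.nd (nat_lit 5546) (PT.lf (nat_lit 6384) (nat_lit 6) (nat_lit 76) (nat_lit 4) (nat_lit 50) (nat_lit 111) (nat_lit 109)) (PT.nd (nat_lit 94) (PT.lf (nat_lit 6384) (nat_lit 6) (nat_lit 76) (nat_lit 2) (nat_lit 109) (nat_lit 111) (nat_lit 50)) (PT.lf (nat_lit 6300) (nat_lit 6) (nat_lit 75) (nat_lit 2) (nat_lit 110) (nat_lit 111) (nat_lit 49)))) (PT.nd (nat_lit 188) (PT.nd (nat_lit 94) (PT.lf (nat_lit 6216) (nat_lit 3) (nat_lit 74) (nat_lit 0) (nat_lit 111) (nat_lit 111) (nat_lit 48)) (PT.lf (nat_lit 6048) (nat_lit 6) (nat_lit 72) (nat_lit 0) (nat_lit 112) (nat_lit 111) (nat_lit 47))) (PT.nd (nat_lit 61288) (PT.lf (nat_lit 5880) (nat_lit 6) (nat_lit 70) (nat_lit 0) (nat_lit 113) (nat_lit 111) (nat_lit 46)) (PT.lf (nat_lit 5628) (nat_lit 6) (nat_lit 67) (nat_lit 5) (nat_lit 44) (nat_lit 112) (nat_lit 114)))))) (PT.nd (nat_lit 6392)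 (PT.nd (nat_lit 282) (PT.nd (nat_lit 94) (PT.lf (nat_lit 5796) (nat_lit 6) (nat_lit 69) (nat_lit 5) (nat_lit 45) (nat_lit 112) (nat_lit 113)) (PT.nd (nat_lit 94) (PT.lf (nat_lit 5964) (nat_lit 3) (nat_lit 71) (nat_lit 4) (nat_lit 46) (nat_lit 112) (nat_lit 112)) (PT.lf (nat_lit 6048) (nat_lit 6) (nat_lit 72) (nat_lit 4) (nat_lit 47) (nat_lit 112) (nat_lit 111)))) (PT.nd (nat_lit 5922) (PT.nd (nat_lit 5828) (PT.lf (nat_lit 6132) (nat_lit 6) (nat_lit 73) (nat_lit 4) (nat_lit 48) (nat_lit 112) (nat_lit 110)) (PT.lf (nat_lit 6132) (nat_lit 6) (nat_lit 73) (nat_lit 2) (nat_lit 110) (nat_lit 112) (nat_lit 48))) (PT.nd (nat_lit 94) (PT.lf (nat_lit 6048) (nat_lit 6) (nat_lit 72) (nat_lit 2) (nat_lit 111) (nat_lit 112) (nat_lit 47)) (PT.lf (nat_lit 5964) (nat_lit 3) (nat_lit 71) (nat_lit 0) (nat_lit 112) (nat_lit 112) (nat_lit 46))))) (PT.nd (nat_lit 61194) (PT.nd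 (nat_lit 94) (PT.lf (nat_lit 5796) (nat_lit 6) (nat_lit 69) (nat_lit 0) (nat_lit 113) (nat_lit 112) (nat_lit 45)) (PT.nd (nat_lit 61006) (PT.lf (nat_lit 5628) (nat_lit 6) (nat_lit 67) (nat_lit 0) (nat_lit 114) (nat_lit 112) (nat_lit 44)) (PT.lf (nat_lit 5376) (nat_lit 6) (nat_lit 64) (nat_lit 5) (nat_lit 42) (nat_lit 113) (nat_lit 115)))) (PT.nd (nat_lit 188) (PT.nd (nat_lit 94) (PT.lf (nat_lit 5544) (nat_lit 6) (nat_lit 66) (nat_lit 5) (nat_lit 43) (nat_lit 113) (nat_lit 114)) (PT.lf (nat_lit 5712) (nat_lit 3) (nat_lit 68) (nat_lit 4) (nat_lit 44) (nat_lit 113) (nat_lit 113))) (PT.nd (nat_lit 94) (PT.lf (nat_lit 5796) (nat_lit 6) (nat_lit 69) (nat_lit 4) (nat_lit 45) (nat_lit 113) (nat_lit 112)) (PT.lf (nat_lit 5880) (nat_lit 6) (nat_lit 70) (nat_lit 4) (nat_lit 46) (nat_lit 113) (nat_lit 111))))))))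
noncomputable def pc12 : PT := (PT.nd (nat_lit 196460) (PT.nd (nat_lit 68150) (PT.nd (nat_lit 61194) (PT.nd (nat_lit 282) (PT.nd (nat_lit 94) (PT.lf (nat_lit 5880) (nat_lit 6) (nat_lit 70) (nat_lit 2) (nat_lit 111) (nat_lit 113) (nat_lit 46)) (PT.nd (nat_lit 94) (PT.lf (nat_lit 5796) (nat_lit 6) (nat_lit 69) (nat_lit 2) (nat_lit 112) (nat_lit 113) (nat_lit 45)) (PT.lf (nat_lit 5712) (nat_lit 3) (nat_lit 68) (nat_lit 0) (nat_lit 113) (nat_lit 113) (nat_lit 44)))) (PT.nd (nat_lit 94) (PT.lf (nat_lit 5544) (nat_lit 6) (nat_lit 66) (nat_lit 0) (nat_lit 114) (nat_lit 113) (nat_lit 43)) (PT.nd (nat_lit 60724) (PT.lf (nat_lit 5376) (nat_lit 6) (nat_lit 64) (nat_lit 0) (nat_lit 115) (nat_lit 113) (nat_lit 42)) (PT.lf (nat_lit 5124) (nat_lit 6) (nat_lit 61) (nat_lit 5) (nat_lit 40) (nat_lit 114) (nat_lit 116))))) (PT.nd (nat_lit 282) (PT.nd (nat_lit 94) (PT.lf (nat_lit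 5292) (nat_lit 6) (nat_lit 63) (nat_lit 5) (nat_lit 41) (nat_lit 114) (nat_lit 115)) (PT.nd (nat_lit 94) (PT.lf (nat_lit 5460) (nat_lit 3) (nat_lit 65) (nat_lit 4) (nat_lit 42) (nat_lit 114) (nat_lit 114)) (PT.lf (nat_lit 5544) (nat_lit 6) (nat_lit 66) (nat_lit 4) (nat_lit 43) (nat_lit 114) (nat_lit 113)))) (PT.nd (nat_lit 6486) (PT.nd (nat_lit 6392) (PT.lf (nat_lit 5628) (nat_lit 6) (nat_lit 67) (nat_lit 4) (nat_lit 44) (nat_lit 114) (nat_lit 112)) (PT.lf (nat_lit 5628) (nat_lit 6) (nat_lit 67) (nat_lit 2) (nat_lit 112) (nat_lit 114) (nat_lit 44))) (PT.nd (nat_lit 94) (PT.lf (nat_lit 5544) (nat_lit 6) (nat_lit 66) (nat_lit 2) (nat_lit 113) (nat_lit 114) (nat_lit 43)) (PT.lf (nat_lit 5460) (nat_lit 3) (nat_lit 65) (nat_lit 0) (nat_lit 114) (nat_lit 114) (nat_lit 42)))))) (PT.nd (nat_lit 67586) (PT.nd (nat_lit 60630) (PT.nd (nat_lit 94) (PT.lf (nat_lit 5292)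 (nat_lit 6) (nat_lit 63) (nat_lit 0) (nat_lit 115) (nat_lit 114) (nat_lit 41)) (PT.nd (nat_lit 60442) (PT.lf (nat_lit 5124) (nat_lit 6) (nat_lit 61) (nat_lit 0) (nat_lit 116) (nat_lit 114) (nat_lit 40)) (PT.lf (nat_lit 4872) (nat_lit 6) (nat_lit 58) (nat_lit 5) (nat_lit 38) (nat_lit 115) (nat_lit 117)))) (PT.nd (nat_lit 188) (PT.nd (nat_lit 94) (PT.lf (nat_lit 5040) (nat_lit 6) (nat_lit 60) (nat_lit 5) (nat_lit 39) (nat_lit 115) (nat_lit 116)) (PT.lf (nat_lit 5208) (nat_lit 3) (nat_lit 62) (nat_lit 4) (nat_lit 40) (nat_lit 115) (nat_lit 115))) (PT.nd (nat_lit 94) (PT.lf (nat_lit 5292) (nat_lit 6) (nat_lit 63) (nat_lit 4) (nat_lit 41) (nat_lit 115) (nat_lit 114)) (PT.lf (nat_lit 5376) (nat_lit 6) (nat_lit 64) (nat_lit 4) (nat_lit 42) (nat_lit 115) (nat_lit 113))))) (PT.nd (nat_lit 282) (PT.nd (nat_lit 94) (PT.lf (nat_lit 5376) (nat_lit 6) (nat_lit 64) (nat_lit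 2) (nat_lit 113) (nat_lit 115) (nat_lit 42)) (PT.nd (nat_lit 94) (PT.lf (nat_lit 5292) (nat_lit 6) (nat_lit 63) (nat_lit 2) (nat_lit 114) (nat_lit 115) (nat_lit 41)) (PT.lf (nat_lit 5208) (nat_lit 3) (nat_lit 62) (nat_lit 0) (nat_lit 115) (nat_lit 115) (nat_lit 40)))) (PT.nd (nat_lit 60254) (PT.nd (nat_lit 94) (PT.lf (nat_lit 5040) (nat_lit 6) (nat_lit 60) (nat_lit 0) (nat_lit 116) (nat_lit 115) (nat_lit 39)) (PT.lf (nat_lit 4872) (nat_lit 6) (nat_lit 58) (nat_lit 0) (nat_lit 117) (nat_lit 115) (nat_lit 38))) (PT.nd (nat_lit 94) (PT.lf (nat_lit 4620) (nat_lit 6) (nat_lit 55) (nat_lit 5) (nat_lit 36) (nat_lit 116) (nat_lit 118)) (PT.lf (nat_lit 4788) (nat_lit 6) (nat_lit 57) (nat_lit 5) (nat_lit 37) (nat_lit 116) (nat_lit 117))))))) (PT.nd (nat_lit 75106) (PT.nd (nat_lit 7520) (PT.nd (nat_lit 7144) (PT.nd (nat_lit 94) (PT.lf (nat_lit 4956) (nat_lit 3) (nat_lit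 59) (nat_lit 4) (nat_lit 38) (nat_lit 116) (nat_lit 116)) (PT.nd (nat_lit 94) (PT.lf (nat_lit 5040) (nat_lit 6) (nat_lit 60) (nat_lit 4) (nat_lit 39) (nat_lit 116) (nat_lit 115)) (PT.lf (nat_lit 5124) (nat_lit 6) (nat_lit 61) (nat_lit 4) (nat_lit 40) (nat_lit 116) (nat_lit 114)))) (PT.nd (nat_lit 188) (PT.nd (nat_lit 94) (PT.lf (nat_lit 5124) (nat_lit 6) (nat_lit 61) (nat_lit 2) (nat_lit 114) (nat_lit 116) (nat_lit 40)) (PT.lf (nat_lit 5040) (nat_lit 6) (nat_lit 60) (nat_lit 2) (nat_lit 115) (nat_lit 116) (nat_lit 39))) (PT.nd (nat_lit 94) (PT.lf (nat_lit 4956) (nat_lit 3) (nat_lit 59) (nat_lit 0) (nat_lit 116) (nat_lit 116) (nat_lit 38)) (PT.lf (nat_lit 4788) (nat_lit 6) (nat_lit 57) (nat_lit 0) (nat_lit 117) (nat_lit 116) (nat_lit 37))))) (PT.nd (nat_lit 60066) (PT.nd (nat_lit 59878) (PT.lf (nat_lit 4620) (nat_lit 6) (nat_lit 55) (nat_lit 0) (nat_lit 118)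 (nat_lit 116) (nat_lit 36)) (PT.nd (nat_lit 94) (PT.lf (nat_lit 4368) (nat_lit 6) (nat_lit 52) (nat_lit 5) (nat_lit 34) (nat_lit 117) (nat_lit 119)) (PT.lf (nat_lit 4536) (nat_lit 6) (nat_lit 54) (nat_lit 5) (nat_lit 35) (nat_lit 117) (nat_lit 118)))) (PT.nd (nat_lit 188) (PT.nd (nat_lit 94) (PT.lf (nat_lit 4704) (nat_lit 3) (nat_lit 56) (nat_lit 4) (nat_lit 36) (nat_lit 117) (nat_lit 117)) (PT.lf (nat_lit 4788) (nat_lit 6) (nat_lit 57) (nat_lit 4) (nat_lit 37) (nat_lit 117) (nat_lit 116))) (PT.nd (nat_lit 7238) (PT.lf (nat_lit 4872) (nat_lit 6) (nat_lit 58) (nat_lit 4) (nat_lit 38) (nat_lit 117) (nat_lit 115)) (PT.lf (nat_lit 4872) (nat_lit 6) (nat_lit 58) (nat_lit 2) (nat_lit 115) (nat_lit 117) (nat_lit 38)))))) (PT.nd (nat_lit 60160) (PT.nd (nat_lit 282) (PT.nd (nat_lit 94) (PT.lf (nat_lit 4788) (nat_lit 6) (nat_lit 57) (nat_lit 2) (nat_lit 116) (nat_lit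 117) (nat_lit 37)) (PT.nd (nat_lit 94) (PT.lf (nat_lit 4704) (nat_lit 3) (nat_lit 56) (nat_lit 0) (nat_lit 117) (nat_lit 117) (nat_lit 36)) (PT.lf (nat_lit 4536) (nat_lit 6) (nat_lit 54) (nat_lit 0) (nat_lit 118) (nat_lit 117) (nat_lit 35)))) (PT.nd (nat_lit 59690) (PT.nd (nat_lit 59596) (PT.lf (nat_lit 4368) (nat_lit 6) (nat_lit 52) (nat_lit 0) (nat_lit 119) (nat_lit 117) (nat_lit 34)) (PT.lf (nat_lit 4116) (nat_lit 6) (nat_lit 49) (nat_lit 5) (nat_lit 32) (nat_lit 118) (nat_lit 120))) (PT.nd (nat_lit 94) (PT.lf (nat_lit 4284) (nat_lit 6) (nat_lit 51) (nat_lit 5) (nat_lit 33) (nat_lit 118) (nat_lit 119)) (PT.lf (nat_lit 4452) (nat_lit 3) (nat_lit 53) (nat_lit 4) (nat_lit 34) (nat_lit 118) (nat_lit 118))))) (PT.nd (nat_lit 7708) (PT.nd (nat_lit 94) (PT.lf (nat_lit 4536) (nat_lit 6) (nat_lit 54) (nat_lit 4) (nat_lit 35) (nat_lit 118) (nat_lit 117)) (PT.nd (nat_lit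 7520) (PT.lf (nat_lit 4620) (nat_lit 6) (nat_lit 55) (nat_lit 4) (nat_lit 36) (nat_lit 118) (nat_lit 116)) (PT.lf (nat_lit 4620) (nat_lit 6) (nat_lit 55) (nat_lit 2) (nat_lit 116) (nat_lit 118) (nat_lit 36)))) (PT.nd (nat_lit 188) (PT.nd (nat_lit 94) (PT.lf (nat_lit 4536) (nat_lit 6) (nat_lit 54) (nat_lit 2) (nat_lit 117) (nat_lit 118) (nat_lit 35)) (PT.lf (nat_lit 4452) (nat_lit 3) (nat_lit 53) (nat_lit 0) (nat_lit 118) (nat_lit 118) (nat_lit 34))) (PT.nd (nat_lit 94) (PT.lf (nat_lit 4284) (nat_lit 6) (nat_lit 51) (nat_lit 0) (nat_lit 119) (nat_lit 118) (nat_lit 33)) (PT.lf (nat_lit 4116) (nat_lit 6) (nat_lit 49) (nat_lit 0) (nat_lit 120) (nat_lit 118) (nat_lit 32))))))))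
noncomputable def pc13 : PT := (PT.nd (nat_lit 144196) (PT.nd (nat_lit 67962) (PT.nd (nat_lit 8366) (PT.nd (nat_lit 282) (PT.nd (nat_lit 94) (PT.lf (nat_lit 3864) (nat_lit 6) (nat_lit 46) (nat_lit 5) (nat_lit 30) (nat_lit 119) (nat_lit 121)) (PT.nd (nat_lit 94) (PT.lf (nat_lit 4032) (nat_lit 6) (nat_lit 48) (nat_lit 5) (nat_lit 31) (nat_lit 119) (nat_lit 120)) (PT.lf (nat_lit 4200) (nat_lit 3) (nat_lit 50) (nat_lit 4) (nat_lit 32) (nat_lit 119) (nat_lit 119)))) (PT.nd (nat_lit 7896) (PT.nd (nat_lit 94) (PT.lf (nat_lit 4284) (nat_lit 6) (nat_lit 51) (nat_lit 4) (nat_lit 33) (nat_lit 119) (nat_lit 118)) (PT.lf (nat_lit 4368) (nat_lit 6) (nat_lit 52) (nat_lit 4) (nat_lit 34) (nat_lit 119) (nat_lit 117))) (PT.nd (nat_lit 94) (PT.lf (nat_lit 4368) (nat_lit 6) (nat_lit 52) (nat_lit 2) (nat_lit 117) (nat_lit 119) (nat_lit 34)) (PT.lf (nat_lit 4284) (nat_lit 6) (nat_lit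 51) (nat_lit 2) (nat_lit 118) (nat_lit 119) (nat_lit 33))))) (PT.nd (nat_lit 59220) (PT.nd (nat_lit 94) (PT.lf (nat_lit 4200) (nat_lit 3) (nat_lit 50) (nat_lit 0) (nat_lit 119) (nat_lit 119) (nat_lit 32)) (PT.nd (nat_lit 94) (PT.lf (nat_lit 4032) (nat_lit 6) (nat_lit 48) (nat_lit 0) (nat_lit 120) (nat_lit 119) (nat_lit 31)) (PT.lf (nat_lit 3864) (nat_lit 6) (nat_lit 46) (nat_lit 0) (nat_lit 121) (nat_lit 119) (nat_lit 30)))) (PT.nd (nat_lit 188) (PT.nd (nat_lit 94) (PT.lf (nat_lit 3612) (nat_lit 6) (nat_lit 43) (nat_lit 5) (nat_lit 28) (nat_lit 120) (nat_lit 122)) (PT.lf (nat_lit 3780) (nat_lit 6) (nat_lit 45) (nat_lit 5) (nat_lit 29) (nat_lit 120) (nat_lit 121))) (PT.nd (nat_lit 94) (PT.lf (nat_lit 3948) (nat_lit 3) (nat_lit 47) (nat_lit 4) (nat_lit 30) (nat_lit 120) (nat_lit 120)) (PT.lf (nat_lit 4032) (nat_lit 6) (nat_lit 48) (nat_lit 4) (nat_lit 31) (nat_lit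 120) (nat_lit 119)))))) (PT.nd (nat_lit 67304) (PT.nd (nat_lit 8272) (PT.nd (nat_lit 8084) (PT.lf (nat_lit 4116) (nat_lit 6) (nat_lit 49) (nat_lit 4) (nat_lit 32) (nat_lit 120) (nat_lit 118)) (PT.nd (nat_lit 94) (PT.lf (nat_lit 4116) (nat_lit 6) (nat_lit 49) (nat_lit 2) (nat_lit 118) (nat_lit 120) (nat_lit 32)) (PT.lf (nat_lit 4032) (nat_lit 6) (nat_lit 48) (nat_lit 2) (nat_lit 119) (nat_lit 120) (nat_lit 31)))) (PT.nd (nat_lit 188) (PT.nd (nat_lit 94) (PT.lf (nat_lit 3948) (nat_lit 3) (nat_lit 47) (nat_lit 0) (nat_lit 120) (nat_lit 120) (nat_lit 30)) (PT.lf (nat_lit 3780) (nat_lit 6) (nat_lit 45) (nat_lit 0) (nat_lit 121) (nat_lit 120) (nat_lit 29))) (PT.nd (nat_lit 58750) (PT.lf (nat_lit 3612) (nat_lit 6) (nat_lit 43) (nat_lit 0) (nat_lit 122) (nat_lit 120) (nat_lit 28)) (PT.lf (nat_lit 3360) (nat_lit 6) (nat_lit 40) (nat_lit 5) (nat_lit 26) (nat_lit 121)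 (nat_lit 123))))) (PT.nd (nat_lit 282) (PT.nd (nat_lit 94) (PT.lf (nat_lit 3528) (nat_lit 6) (nat_lit 42) (nat_lit 5) (nat_lit 27) (nat_lit 121) (nat_lit 122)) (PT.nd (nat_lit 94) (PT.lf (nat_lit 3696) (nat_lit 3) (nat_lit 44) (nat_lit 4) (nat_lit 28) (nat_lit 121) (nat_lit 121)) (PT.lf (nat_lit 3780) (nat_lit 6) (nat_lit 45) (nat_lit 4) (nat_lit 29) (nat_lit 121) (nat_lit 120)))) (PT.nd (nat_lit 8460) (PT.nd (nat_lit 8366) (PT.lf (nat_lit 3864) (nat_lit 6) (nat_lit 46) (nat_lit 4) (nat_lit 30) (nat_lit 121) (nat_lit 119)) (PT.lf (nat_lit 3864) (nat_lit 6) (nat_lit 46) (nat_lit 2) (nat_lit 119) (nat_lit 121) (nat_lit 30))) (PT.nd (nat_lit 94) (PT.lf (nat_lit 3780) (nat_lit 6) (nat_lit 45) (nat_lit 2) (nat_lit 120) (nat_lit 121) (nat_lit 29)) (PT.lf (nat_lit 3696) (nat_lit 3) (nat_lit 44) (nat_lit 0) (nat_lit 121) (nat_lit 121) (nat_lit 28))))))) (PT.nd (nat_lit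 126336) (PT.nd (nat_lit 67586) (PT.nd (nat_lit 58656) (PT.nd (nat_lit 94) (PT.lf (nat_lit 3528) (nat_lit 6) (nat_lit 42) (nat_lit 0) (nat_lit 122) (nat_lit 121) (nat_lit 27)) (PT.nd (nat_lit 58468) (PT.lf (nat_lit 3360) (nat_lit 6) (nat_lit 40) (nat_lit 0) (nat_lit 123) (nat_lit 121) (nat_lit 26)) (PT.lf (nat_lit 3108) (nat_lit 6) (nat_lit 37) (nat_lit 5) (nat_lit 24) (nat_lit 122) (nat_lit 124)))) (PT.nd (nat_lit 188) (PT.nd (nat_lit 94) (PT.lf (nat_lit 3276) (nat_lit 6) (nat_lit 39) (nat_lit 5) (nat_lit 25) (nat_lit 122) (nat_lit 123)) (PT.lf (nat_lit 3444) (nat_lit 3) (nat_lit 41) (nat_lit 4) (nat_lit 26) (nat_lit 122) (nat_lit 122))) (PT.nd (nat_lit 94) (PT.lf (nat_lit 3528) (nat_lit 6) (nat_lit 42) (nat_lit 4) (nat_lit 27) (nat_lit 122) (nat_lit 121)) (PT.lf (nat_lit 3612) (nat_lit 6) (nat_lit 43) (nat_lit 4) (nat_lit 28) (nat_lit 122) (nat_lit 120)))))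 (PT.nd (nat_lit 282) (PT.nd (nat_lit 94) (PT.lf (nat_lit 3612) (nat_lit 6) (nat_lit 43) (nat_lit 2) (nat_lit 120) (nat_lit 122) (nat_lit 28)) (PT.nd (nat_lit 94) (PT.lf (nat_lit 3528) (nat_lit 6) (nat_lit 42) (nat_lit 2) (nat_lit 121) (nat_lit 122) (nat_lit 27)) (PT.lf (nat_lit 3444) (nat_lit 3) (nat_lit 41) (nat_lit 0) (nat_lit 122) (nat_lit 122) (nat_lit 26)))) (PT.nd (nat_lit 58280) (PT.nd (nat_lit 94) (PT.lf (nat_lit 3276) (nat_lit 6) (nat_lit 39) (nat_lit 0) (nat_lit 123) (nat_lit 122) (nat_lit 25)) (PT.lf (nat_lit 3108) (nat_lit 6) (nat_lit 37) (nat_lit 0) (nat_lit 124) (nat_lit 122) (nat_lit 24))) (PT.nd (nat_lit 94) (PT.lf (nat_lit 2856) (nat_lit 6) (nat_lit 34) (nat_lit 5) (nat_lit 22) (nat_lit 123) (nat_lit 125)) (PT.lf (nat_lit 3024) (nat_lit 6) (nat_lit 36) (nat_lit 5) (nat_lit 23) (nat_lit 123) (nat_lit 124)))))) (PT.nd (nat_lit 9494) (PT.nd (nat_lit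 9118) (PT.nd (nat_lit 94) (PT.lf (nat_lit 3192) (nat_lit 3) (nat_lit 38) (nat_lit 4) (nat_lit 24) (nat_lit 123) (nat_lit 123)) (PT.nd (nat_lit 94) (PT.lf (nat_lit 3276) (nat_lit 6) (nat_lit 39) (nat_lit 4) (nat_lit 25) (nat_lit 123) (nat_lit 122)) (PT.lf (nat_lit 3360) (nat_lit 6) (nat_lit 40) (nat_lit 4) (nat_lit 26) (nat_lit 123) (nat_lit 121)))) (PT.nd (nat_lit 188) (PT.nd (nat_lit 94) (PT.lf (nat_lit 3360) (nat_lit 6) (nat_lit 40) (nat_lit 2) (nat_lit 121) (nat_lit 123) (nat_lit 26)) (PT.lf (nat_lit 3276) (nat_lit 6) (nat_lit 39) (nat_lit 2) (nat_lit 122) (nat_lit 123) (nat_lit 25))) (PT.nd (nat_lit 94) (PT.lf (nat_lit 3192) (nat_lit 3) (nat_lit 38) (nat_lit 0) (nat_lit 123) (nat_lit 123) (nat_lit 24)) (PT.lf (nat_lit 3024) (nat_lit 6) (nat_lit 36) (nat_lit 0) (nat_lit 124) (nat_lit 123) (nat_lit 23))))) (PT.nd (nat_lit 58092) (PT.nd (nat_lit 57904) (PT.lf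 (nat_lit 2856) (nat_lit 6) (nat_lit 34) (nat_lit 0) (nat_lit 125) (nat_lit 123) (nat_lit 22)) (PT.nd (nat_lit 94) (PT.lf (nat_lit 2604) (nat_lit 6) (nat_lit 31) (nat_lit 5) (nat_lit 20) (nat_lit 124) (nat_lit 126)) (PT.lf (nat_lit 2772) (nat_lit 6) (nat_lit 33) (nat_lit 5) (nat_lit 21) (nat_lit 124) (nat_lit 125)))) (PT.nd (nat_lit 188) (PT.nd (nat_lit 94) (PT.lf (nat_lit 2940) (nat_lit 3) (nat_lit 35) (nat_lit 4) (nat_lit 22) (nat_lit 124) (nat_lit 124)) (PT.lf (nat_lit 3024) (nat_lit 6) (nat_lit 36) (nat_lit 4) (nat_lit 23) (nat_lit 124) (nat_lit 123))) (PT.nd (nat_lit 9212) (PT.lf (nat_lit 3108) (nat_lit 6) (nat_lit 37) (nat_lit 4) (nat_lit 24) (nat_lit 124) (nat_lit 122)) (PT.lf (nat_lit 3108) (nat_lit 6) (nat_lit 37) (nat_lit 2) (nat_lit 122) (nat_lit 124) (nat_lit 24))))))))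
noncomputable def pc14 : PT := (PT.nd (nat_lit 193452) (PT.nd (nat_lit 125490) (PT.nd (nat_lit 58186) (PT.nd (nat_lit 282) (PT.nd (nat_lit 94) (PT.lf (nat_lit 3024) (nat_lit 6) (nat_lit 36) (nat_lit 2) (nat_lit 123) (nat_lit 124) (nat_lit 23)) (PT.nd (nat_lit 94) (PT.lf (nat_lit 2940) (nat_lit 3) (nat_lit 35) (nat_lit 0) (nat_lit 124) (nat_lit 124) (nat_lit 22)) (PT.lf (nat_lit 2772) (nat_lit 6) (nat_lit 33) (nat_lit 0) (nat_lit 125) (nat_lit 124) (nat_lit 21)))) (PT.nd (nat_lit 57716) (PT.nd (nat_lit 57622) (PT.lf (nat_lit 2604) (nat_lit 6) (nat_lit 31) (nat_lit 0) (nat_lit 126) (nat_lit 124) (nat_lit 20)) (PT.lf (nat_lit 2352) (nat_lit 6) (nat_lit 28) (nat_lit 5) (nat_lit 18) (nat_lit 125) (nat_lit 127))) (PT.nd (nat_lit 94) (PT.lf (nat_lit 2520) (nat_lit 6) (nat_lit 30) (nat_lit 5) (nat_lit 19) (nat_lit 125) (nat_lit 126)) (PT.lf (nat_lit 2688) (nat_lit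 3) (nat_lit 32) (nat_lit 4) (nat_lit 20) (nat_lit 125) (nat_lit 125))))) (PT.nd (nat_lit 9682) (PT.nd (nat_lit 94) (PT.lf (nat_lit 2772) (nat_lit 6) (nat_lit 33) (nat_lit 4) (nat_lit 21) (nat_lit 125) (nat_lit 124)) (PT.nd (nat_lit 9494) (PT.lf (nat_lit 2856) (nat_lit 6) (nat_lit 34) (nat_lit 4) (nat_lit 22) (nat_lit 125) (nat_lit 123)) (PT.lf (nat_lit 2856) (nat_lit 6) (nat_lit 34) (nat_lit 2) (nat_lit 123) (nat_lit 125) (nat_lit 22)))) (PT.nd (nat_lit 188) (PT.nd (nat_lit 94) (PT.lf (nat_lit 2772) (nat_lit 6) (nat_lit 33) (nat_lit 2) (nat_lit 124) (nat_lit 125) (nat_lit 21)) (PT.lf (nat_lit 2688) (nat_lit 3) (nat_lit 32) (nat_lit 0) (nat_lit 125) (nat_lit 125) (nat_lit 20))) (PT.nd (nat_lit 94) (PT.lf (nat_lit 2520) (nat_lit 6) (nat_lit 30) (nat_lit 0) (nat_lit 126) (nat_lit 125) (nat_lit 19)) (PT.lf (nat_lit 2352) (nat_lit 6) (nat_lit 28) (nat_lit 0) (nat_lit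 127) (nat_lit 125) (nat_lit 18)))))) (PT.nd (nat_lit 10340) (PT.nd (nat_lit 282) (PT.nd (nat_lit 94) (PT.lf (nat_lit 2100) (nat_lit 6) (nat_lit 25) (nat_lit 5) (nat_lit 16) (nat_lit 126) (nat_lit 128)) (PT.nd (nat_lit 94) (PT.lf (nat_lit 2268) (nat_lit 6) (nat_lit 27) (nat_lit 5) (nat_lit 17) (nat_lit 126) (nat_lit 127)) (PT.lf (nat_lit 2436) (nat_lit 3) (nat_lit 29) (nat_lit 4) (nat_lit 18) (nat_lit 126) (nat_lit 126)))) (PT.nd (nat_lit 9870) (PT.nd (nat_lit 94) (PT.lf (nat_lit 2520) (nat_lit 6) (nat_lit 30) (nat_lit 4) (nat_lit 19) (nat_lit 126) (nat_lit 125)) (PT.lf (nat_lit 2604) (nat_lit 6) (nat_lit 31) (nat_lit 4) (nat_lit 20) (nat_lit 126) (nat_lit 124))) (PT.nd (nat_lit 94) (PT.lf (nat_lit 2604) (nat_lit 6) (nat_lit 31) (nat_lit 2) (nat_lit 124) (nat_lit 126) (nat_lit 20)) (PT.lf (nat_lit 2520) (nat_lit 6) (nat_lit 30) (nat_lit 2) (nat_lit 125) (nat_lit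 126) (nat_lit 19))))) (PT.nd (nat_lit 57246) (PT.nd (nat_lit 94) (PT.lf (nat_lit 2436) (nat_lit 3) (nat_lit 29) (nat_lit 0) (nat_lit 126) (nat_lit 126) (nat_lit 18)) (PT.nd (nat_lit 94) (PT.lf (nat_lit 2268) (nat_lit 6) (nat_lit 27) (nat_lit 0) (nat_lit 127) (nat_lit 126) (nat_lit 17)) (PT.lf (nat_lit 2100) (nat_lit 6) (nat_lit 25) (nat_lit 0) (nat_lit 128) (nat_lit 126) (nat_lit 16)))) (PT.nd (nat_lit 188) (PT.nd (nat_lit 94) (PT.lf (nat_lit 1848) (nat_lit 6) (nat_lit 22) (nat_lit 5) (nat_lit 14) (nat_lit 127) (nat_lit 129)) (PT.lf (nat_lit 2016) (nat_lit 6) (nat_lit 24) (nat_lit 5) (nat_lit 15) (nat_lit 127) (nat_lit 128))) (PT.nd (nat_lit 94) (PT.lf (nat_lit 2184) (nat_lit 3) (nat_lit 26) (nat_lit 4) (nat_lit 16) (nat_lit 127) (nat_lit 127)) (PT.lf (nat_lit 2268) (nat_lit 6) (nat_lit 27) (nat_lit 4) (nat_lit 17) (nat_lit 127) (nat_lit 126))))))) (PT.nd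 (nat_lit 78208) (PT.nd (nat_lit 67304) (PT.nd (nat_lit 10246) (PT.nd (nat_lit 10058) (PT.lf (nat_lit 2352) (nat_lit 6) (nat_lit 28) (nat_lit 4) (nat_lit 18) (nat_lit 127) (nat_lit 125)) (PT.nd (nat_lit 94) (PT.lf (nat_lit 2352) (nat_lit 6) (nat_lit 28) (nat_lit 2) (nat_lit 125) (nat_lit 127) (nat_lit 18)) (PT.lf (nat_lit 2268) (nat_lit 6) (nat_lit 27) (nat_lit 2) (nat_lit 126) (nat_lit 127) (nat_lit 17)))) (PT.nd (nat_lit 188) (PT.nd (nat_lit 94) (PT.lf (nat_lit 2184) (nat_lit 3) (nat_lit 26) (nat_lit 0) (nat_lit 127) (nat_lit 127) (nat_lit 16)) (PT.lf (nat_lit 2016) (nat_lit 6) (nat_lit 24) (nat_lit 0) (nat_lit 128) (nat_lit 127) (nat_lit 15))) (PT.nd (nat_lit 56776) (PT.lf (nat_lit 1848) (nat_lit 6) (nat_lit 22) (nat_lit 0) (nat_lit 129) (nat_lit 127) (nat_lit 14)) (PT.lf (nat_lit 1596) (nat_lit 6) (nat_lit 19) (nat_lit 5) (nat_lit 12) (nat_lit 128) (nat_lit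 130))))) (PT.nd (nat_lit 282) (PT.nd (nat_lit 94) (PT.lf (nat_lit 1764) (nat_lit 6) (nat_lit 21) (nat_lit 5) (nat_lit 13) (nat_lit 128) (nat_lit 129)) (PT.nd (nat_lit 94) (PT.lf (nat_lit 1932) (nat_lit 3) (nat_lit 23) (nat_lit 4) (nat_lit 14) (nat_lit 128) (nat_lit 128)) (PT.lf (nat_lit 2016) (nat_lit 6) (nat_lit 24) (nat_lit 4) (nat_lit 15) (nat_lit 128) (nat_lit 127)))) (PT.nd (nat_lit 10434) (PT.nd (nat_lit 10340) (PT.lf (nat_lit 2100) (nat_lit 6) (nat_lit 25) (nat_lit 4) (nat_lit 16) (nat_lit 128) (nat_lit 126)) (PT.lf (nat_lit 2100) (nat_lit 6) (nat_lit 25) (nat_lit 2) (nat_lit 126) (nat_lit 128) (nat_lit 16))) (PT.nd (nat_lit 94) (PT.lf (nat_lit 2016) (nat_lit 6) (nat_lit 24) (nat_lit 2) (nat_lit 127) (nat_lit 128) (nat_lit 15)) (PT.lf (nat_lit 1932) (nat_lit 3) (nat_lit 23) (nat_lit 0) (nat_lit 128) (nat_lit 128) (nat_lit 14)))))) (PT.nd (nat_lit 67586)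 (PT.nd (nat_lit 56682) (PT.nd (nat_lit 94) (PT.lf (nat_lit 1764) (nat_lit 6) (nat_lit 21) (nat_lit 0) (nat_lit 129) (nat_lit 128) (nat_lit 13)) (PT.nd (nat_lit 56494) (PT.lf (nat_lit 1596) (nat_lit 6) (nat_lit 19) (nat_lit 0) (nat_lit 130) (nat_lit 128) (nat_lit 12)) (PT.lf (nat_lit 1344) (nat_lit 6) (nat_lit 16) (nat_lit 5) (nat_lit 10) (nat_lit 129) (nat_lit 131)))) (PT.nd (nat_lit 188) (PT.nd (nat_lit 94) (PT.lf (nat_lit 1512) (nat_lit 6) (nat_lit 18) (nat_lit 5) (nat_lit 11) (nat_lit 129) (nat_lit 130)) (PT.lf (nat_lit 1680) (nat_lit 3) (nat_lit 20) (nat_lit 4) (nat_lit 12) (nat_lit 129) (nat_lit 129))) (PT.nd (nat_lit 94) (PT.lf (nat_lit 1764) (nat_lit 6) (nat_lit 21) (nat_lit 4) (nat_lit 13) (nat_lit 129) (nat_lit 128)) (PT.lf (nat_lit 1848) (nat_lit 6) (nat_lit 22) (nat_lit 4) (nat_lit 14) (nat_lit 129) (nat_lit 127))))) (PT.nd (nat_lit 282) (PT.nd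 (nat_lit 94) (PT.lf (nat_lit 1848) (nat_lit 6) (nat_lit 22) (nat_lit 2) (nat_lit 127) (nat_lit 129) (nat_lit 14)) (PT.nd (nat_lit 94) (PT.lf (nat_lit 1764) (nat_lit 6) (nat_lit 21) (nat_lit 2) (nat_lit 128) (nat_lit 129) (nat_lit 13)) (PT.lf (nat_lit 1680) (nat_lit 3) (nat_lit 20) (nat_lit 0) (nat_lit 129) (nat_lit 129) (nat_lit 12)))) (PT.nd (nat_lit 56306) (PT.nd (nat_lit 94) (PT.lf (nat_lit 1512) (nat_lit 6) (nat_lit 18) (nat_lit 0) (nat_lit 130) (nat_lit 129) (nat_lit 11)) (PT.lf (nat_lit 1344) (nat_lit 6) (nat_lit 16) (nat_lit 0) (nat_lit 131) (nat_lit 129) (nat_lit 10))) (PT.nd (nat_lit 94) (PT.lf (nat_lit 1092) (nat_lit 6) (nat_lit 13) (nat_lit 5) (nat_lit 8) (nat_lit 130) (nat_lit 132)) (PT.lf (nat_lit 1260) (nat_lit 6) (nat_lit 15) (nat_lit 5) (nat_lit 9) (nat_lit 130) (nat_lit 131))))))))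
noncomputable def pc15 : PT := (PT.nd (nat_lit 202570) (PT.nd (nat_lit 79054) (PT.nd (nat_lit 11468) (PT.nd (nat_lit 11092) (PT.nd (nat_lit 94) (PT.lf (nat_lit 1428) (nat_lit 3) (nat_lit 17) (nat_lit 4) (nat_lit 10) (nat_lit 130) (nat_lit 130)) (PT.nd (nat_lit 94) (PT.lf (nat_lit 1512) (nat_lit 6) (nat_lit 18) (nat_lit 4) (nat_lit 11) (nat_lit 130) (nat_lit 129)) (PT.lf (nat_lit 1596) (nat_lit 6) (nat_lit 19) (nat_lit 4) (nat_lit 12) (nat_lit 130) (nat_lit 128)))) (PT.nd (nat_lit 188) (PT.nd (nat_lit 94) (PT.lf (nat_lit 1596) (nat_lit 6) (nat_lit 19) (nat_lit 2) (nat_lit 128) (nat_lit 130) (nat_lit 12)) (PT.lf (nat_lit 1512) (nat_lit 6) (nat_lit 18) (nat_lit 2) (nat_lit 129) (nat_lit 130) (nat_lit 11))) (PT.nd (nat_lit 94) (PT.lf (nat_lit 1428) (nat_lit 3) (nat_lit 17) (nat_lit 0) (nat_lit 130) (nat_lit 130) (nat_lit 10)) (PT.lf (nat_lit 1260) (nat_lit 6)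 (nat_lit 15) (nat_lit 0) (nat_lit 131) (nat_lit 130) (nat_lit 9))))) (PT.nd (nat_lit 56118) (PT.nd (nat_lit 55930) (PT.lf (nat_lit 1092) (nat_lit 6) (nat_lit 13) (nat_lit 0) (nat_lit 132) (nat_lit 130) (nat_lit 8)) (PT.nd (nat_lit 94) (PT.lf (nat_lit 840) (nat_lit 6) (nat_lit 10) (nat_lit 5) (nat_lit 6) (nat_lit 131) (nat_lit 133)) (PT.lf (nat_lit 1008) (nat_lit 6) (nat_lit 12) (nat_lit 5) (nat_lit 7) (nat_lit 131) (nat_lit 132)))) (PT.nd (nat_lit 188) (PT.nd (nat_lit 94) (PT.lf (nat_lit 1176) (nat_lit 3) (nat_lit 14) (nat_lit 4) (nat_lit 8) (nat_lit 131) (nat_lit 131)) (PT.lf (nat_lit 1260) (nat_lit 6) (nat_lit 15) (nat_lit 4) (nat_lit 9) (nat_lit 131) (nat_lit 130))) (PT.nd (nat_lit 11186) (PT.lf (nat_lit 1344) (nat_lit 6) (nat_lit 16) (nat_lit 4) (nat_lit 10) (nat_lit 131) (nat_lit 129)) (PT.lf (nat_lit 1344) (nat_lit 6) (nat_lit 16) (nat_lit 2) (nat_lit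 129) (nat_lit 131) (nat_lit 10)))))) (PT.nd (nat_lit 56212) (PT.nd (nat_lit 282) (PT.nd (nat_lit 94) (PT.lf (nat_lit 1260) (nat_lit 6) (nat_lit 15) (nat_lit 2) (nat_lit 130) (nat_lit 131) (nat_lit 9)) (PT.nd (nat_lit 94) (PT.lf (nat_lit 1176) (nat_lit 3) (nat_lit 14) (nat_lit 0) (nat_lit 131) (nat_lit 131) (nat_lit 8)) (PT.lf (nat_lit 1008) (nat_lit 6) (nat_lit 12) (nat_lit 0) (nat_lit 132) (nat_lit 131) (nat_lit 7)))) (PT.nd (nat_lit 55742) (PT.nd (nat_lit 55648) (PT.lf (nat_lit 840) (nat_lit 6) (nat_lit 10) (nat_lit 0) (nat_lit 133) (nat_lit 131) (nat_lit 6)) (PT.lf (nat_lit 588) (nat_lit 6) (nat_lit 7) (nat_lit 5) (nat_lit 4) (nat_lit 132) (nat_lit 134))) (PT.nd (nat_lit 94) (PT.lf (nat_lit 756) (nat_lit 6) (nat_lit 9) (nat_lit 5) (nat_lit 5) (nat_lit 132) (nat_lit 133)) (PT.lf (nat_lit 924) (nat_lit 3) (nat_lit 11) (nat_lit 4) (nat_lit 6) (nat_lit 132)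 (nat_lit 132))))) (PT.nd (nat_lit 11656) (PT.nd (nat_lit 94) (PT.lf (nat_lit 1008) (nat_lit 6) (nat_lit 12) (nat_lit 4) (nat_lit 7) (nat_lit 132) (nat_lit 131)) (PT.nd (nat_lit 11468) (PT.lf (nat_lit 1092) (nat_lit 6) (nat_lit 13) (nat_lit 4) (nat_lit 8) (nat_lit 132) (nat_lit 130)) (PT.lf (nat_lit 1092) (nat_lit 6) (nat_lit 13) (nat_lit 2) (nat_lit 130) (nat_lit 132) (nat_lit 8)))) (PT.nd (nat_lit 188) (PT.nd (nat_lit 94) (PT.lf (nat_lit 1008) (nat_lit 6) (nat_lit 12) (nat_lit 2) (nat_lit 131) (nat_lit 132) (nat_lit 7)) (PT.lf (nat_lit 924) (nat_lit 3) (nat_lit 11) (nat_lit 0) (nat_lit 132) (nat_lit 132) (nat_lit 6))) (PT.nd (nat_lit 94) (PT.lf (nat_lit 756) (nat_lit 6) (nat_lit 9) (nat_lit 0) (nat_lit 133) (nat_lit 132) (nat_lit 5)) (PT.lf (nat_lit 588) (nat_lit 6) (nat_lit 7) (nat_lit 0) (nat_lit 134) (nat_lit 132) (nat_lit 4))))))) (PT.nd (nat_lit 67962)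 (PT.nd (nat_lit 12314) (PT.nd (nat_lit 282) (PT.nd (nat_lit 94) (PT.lf (nat_lit 336) (nat_lit 6) (nat_lit 4) (nat_lit 5) (nat_lit 2) (nat_lit 133) (nat_lit 135)) (PT.nd (nat_lit 94) (PT.lf (nat_lit 504) (nat_lit 6) (nat_lit 6) (nat_lit 5) (nat_lit 3) (nat_lit 133) (nat_lit 134)) (PT.lf (nat_lit 672) (nat_lit 3) (nat_lit 8) (nat_lit 4) (nat_lit 4) (nat_lit 133) (nat_lit 133)))) (PT.nd (nat_lit 11844) (PT.nd (nat_lit 94) (PT.lf (nat_lit 756) (nat_lit 6) (nat_lit 9) (nat_lit 4) (nat_lit 5) (nat_lit 133) (nat_lit 132)) (PT.lf (nat_lit 840) (nat_lit 6) (nat_lit 10) (nat_lit 4) (nat_lit 6) (nat_lit 133) (nat_lit 131))) (PT.nd (nat_lit 94) (PT.lf (nat_lit 840) (nat_lit 6) (nat_lit 10) (nat_lit 2) (nat_lit 131) (nat_lit 133) (nat_lit 6)) (PT.lf (nat_lit 756) (nat_lit 6) (nat_lit 9) (nat_lit 2) (nat_lit 132) (nat_lit 133) (nat_lit 5))))) (PT.nd (nat_lit 55272) (PT.nd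 (nat_lit 94) (PT.lf (nat_lit 672) (nat_lit 3) (nat_lit 8) (nat_lit 0) (nat_lit 133) (nat_lit 133) (nat_lit 4)) (PT.nd (nat_lit 94) (PT.lf (nat_lit 504) (nat_lit 6) (nat_lit 6) (nat_lit 0) (nat_lit 134) (nat_lit 133) (nat_lit 3)) (PT.lf (nat_lit 336) (nat_lit 6) (nat_lit 4) (nat_lit 0) (nat_lit 135) (nat_lit 133) (nat_lit 2)))) (PT.nd (nat_lit 188) (PT.nd (nat_lit 94) (PT.lf (nat_lit 84) (nat_lit 6) (nat_lit 1) (nat_lit 5) (nat_lit 0) (nat_lit 134) (nat_lit 136)) (PT.lf (nat_lit 252) (nat_lit 6) (nat_lit 3) (nat_lit 5) (nat_lit 1) (nat_lit 134) (nat_lit 135))) (PT.nd (nat_lit 94) (PT.lf (nat_lit 420) (nat_lit 3) (nat_lit 5) (nat_lit 4) (nat_lit 2) (nat_lit 134) (nat_lit 134)) (PT.lf (nat_lit 504) (nat_lit 6) (nat_lit 6) (nat_lit 4) (nat_lit 3) (nat_lit 134) (nat_lit 133)))))) (PT.nd (nat_lit 67492) (PT.nd (nat_lit 12220) (PT.nd (nat_lit 12032) (PT.lf (nat_lit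 588) (nat_lit 6) (nat_lit 7) (nat_lit 4) (nat_lit 4) (nat_lit 134) (nat_lit 132)) (PT.nd (nat_lit 94) (PT.lf (nat_lit 588) (nat_lit 6) (nat_lit 7) (nat_lit 2) (nat_lit 132) (nat_lit 134) (nat_lit 4)) (PT.lf (nat_lit 504) (nat_lit 6) (nat_lit 6) (nat_lit 2) (nat_lit 133) (nat_lit 134) (nat_lit 3)))) (PT.nd (nat_lit 188) (PT.nd (nat_lit 94) (PT.lf (nat_lit 420) (nat_lit 3) (nat_lit 5) (nat_lit 0) (nat_lit 134) (nat_lit 134) (nat_lit 2)) (PT.lf (nat_lit 252) (nat_lit 6) (nat_lit 3) (nat_lit 0) (nat_lit 135) (nat_lit 134) (nat_lit 1))) (PT.nd (nat_lit 54990) (PT.lf (nat_lit 84) (nat_lit 6) (nat_lit 1) (nat_lit 0) (nat_lit 136) (nat_lit 134) (nat_lit 0)) (PT.lf (nat_lit 168) (nat_lit 3) (nat_lit 2) (nat_lit 4) (nat_lit 0) (nat_lit 135) (nat_lit 135))))) (PT.nd (nat_lit 12502) (PT.nd (nat_lit 94) (PT.lf (nat_lit 252) (nat_lit 6) (nat_lit 3) (nat_lit 4) (nat_lit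 1) (nat_lit 135) (nat_lit 134)) (PT.nd (nat_lit 12314) (PT.lf (nat_lit 336) (nat_lit 6) (nat_lit 4) (nat_lit 4) (nat_lit 2) (nat_lit 135) (nat_lit 133)) (PT.lf (nat_lit 336) (nat_lit 6) (nat_lit 4) (nat_lit 2) (nat_lit 133) (nat_lit 135) (nat_lit 2)))) (PT.nd (nat_lit 55178) (PT.nd (nat_lit 94) (PT.lf (nat_lit 252) (nat_lit 6) (nat_lit 3) (nat_lit 2) (nat_lit 134) (nat_lit 135) (nat_lit 1)) (PT.lf (nat_lit 168) (nat_lit 3) (nat_lit 2) (nat_lit 0) (nat_lit 135) (nat_lit 135) (nat_lit 0))) (PT.nd (nat_lit 12596) (PT.lf (nat_lit 84) (nat_lit 6) (nat_lit 1) (nat_lit 4) (nat_lit 0) (nat_lit 136) (nat_lit 134)) (PT.lf (nat_lit 84) (nat_lit 6) (nat_lit 1) (nat_lit 2) (nat_lit 134) (nat_lit 136) (nat_lit 0))))))))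
noncomputable def xc0 : XT := (XT.nd (nat_lit 271096) (nat_lit 0) (nat_lit 0) (XT.nd (nat_lit 202946) (nat_lit 0) (nat_lit 0) (XT.nd (nat_lit 135266) (nat_lit 0) (nat_lit 0) (XT.nd (nat_lit 67680) (nat_lit 0) (nat_lit 0) (XT.nd (nat_lit 67492) (nat_lit 0) (nat_lit 0) (XT.lf (nat_lit 0) (nat_lit 75395332745185) (nat_lit 0) (nat_lit 0) (nat_lit 0) (nat_lit 0) (nat_lit 0) (nat_lit 0) (nat_lit 1) (nat_lit 0) (nat_lit 1) (nat_lit 0) (nat_lit 505) (nat_lit 288) (nat_lit 287)) (XT.nd (nat_lit 94) (nat_lit 0) (nat_lit 0) (XT.lf (nat_lit 0) (nat_lit 29925624306659) (nat_lit 0) (nat_lit 0) (nat_lit 0) (nat_lit 0) (nat_lit 0) (nat_lit 0) (nat_lit 1) (nat_lit 0) (nat_lit 1) (nat_lit 0) (nat_lit 502) (nat_lit 289) (nat_lit 289)) (XT.lf (nat_lit 0) (nat_lit 64639347437834) (nat_lit 0) (nat_lit 0) (nat_lit 0) (nat_lit 0) (nat_lit 0) (nat_lit 0) (nat_lit 1) (nat_lit 0) (nat_lit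 1) (nat_lit 0) (nat_lit 503) (nat_lit 289) (nat_lit 288)))) (XT.nd (nat_lit 67398) (nat_lit 0) (nat_lit 0) (XT.nd (nat_lit 94) (nat_lit 0) (nat_lit 0) (XT.lf (nat_lit 0) (nat_lit 69810494220214) (nat_lit 0) (nat_lit 0) (nat_lit 0) (nat_lit 0) (nat_lit 0) (nat_lit 0) (nat_lit 1) (nat_lit 0) (nat_lit 1) (nat_lit 0) (nat_lit 504) (nat_lit 289) (nat_lit 287)) (XT.lf (nat_lit 0) (nat_lit 75395332793245) (nat_lit 0) (nat_lit 0) (nat_lit 0) (nat_lit 0) (nat_lit 0) (nat_lit 0) (nat_lit 1) (nat_lit 0) (nat_lit 1) (nat_lit 0) (nat_lit 505) (nat_lit 289) (nat_lit 286))) (XT.nd (nat_lit 94) (nat_lit 0) (nat_lit 0) (XT.lf (nat_lit 0) (nat_lit 25656400452512) (nat_lit 0) (nat_lit 0) (nat_lit 0) (nat_lit 0) (nat_lit 0) (nat_lit 0) (nat_lit 1) (nat_lit 0) (nat_lit 1) (nat_lit 0) (nat_lit 500) (nat_lit 290) (nat_lit 290)) (XT.lf (nat_lit 0) (nat_lit 55417823827711) (nat_lit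 0) (nat_lit 0) (nat_lit 0) (nat_lit 0) (nat_lit 0) (nat_lit 0) (nat_lit 1) (nat_lit 0) (nat_lit 1) (nat_lit 0) (nat_lit 501) (nat_lit 290) (nat_lit 289))))) (XT.nd (nat_lit 282) (nat_lit 0) (nat_lit 0) (XT.nd (nat_lit 94) (nat_lit 0) (nat_lit 0) (XT.lf (nat_lit 0) (nat_lit 59851248640270) (nat_lit 0) (nat_lit 0) (nat_lit 0) (nat_lit 0) (nat_lit 0) (nat_lit 0) (nat_lit 1) (nat_lit 0) (nat_lit 1) (nat_lit 0) (nat_lit 502) (nat_lit 290) (nat_lit 288)) (XT.nd (nat_lit 94) (nat_lit 0) (nat_lit 0) (XT.lf (nat_lit 0) (nat_lit 64639347489739) (nat_lit 0) (nat_lit 0) (nat_lit 0) (nat_lit 0) (nat_lit 0) (nat_lit 0) (nat_lit 1) (nat_lit 0) (nat_lit 1) (nat_lit 0) (nat_lit 503) (nat_lit 290) (nat_lit 287)) (XT.lf (nat_lit 0) (nat_lit 69810494295225) (nat_lit 0) (nat_lit 0) (nat_lit 0) (nat_lit 0) (nat_lit 0) (nat_lit 0) (nat_lit 1) (nat_lit 0) (nat_lit 1) (nat_lit 0)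 (nat_lit 504) (nat_lit 290) (nat_lit 286)))) (XT.nd (nat_lit 67210) (nat_lit 0) (nat_lit 0) (XT.nd (nat_lit 67116) (nat_lit 0) (nat_lit 0) (XT.lf (nat_lit 0) (nat_lit 75395332889650) (nat_lit 0) (nat_lit 0) (nat_lit 0) (nat_lit 0) (nat_lit 0) (nat_lit 0) (nat_lit 1) (nat_lit 0) (nat_lit 1) (nat_lit 0) (nat_lit 505) (nat_lit 290) (nat_lit 285)) (XT.lf (nat_lit 0) (nat_lit 21996229190804) (nat_lit 0) (nat_lit 0) (nat_lit 0) (nat_lit 0) (nat_lit 0) (nat_lit 0) (nat_lit 1) (nat_lit 0) (nat_lit 1) (nat_lit 0) (nat_lit 498) (nat_lit 291) (nat_lit 291))) (XT.nd (nat_lit 94) (nat_lit 0) (nat_lit 0) (XT.lf (nat_lit 0) (nat_lit 47511853810446) (nat_lit 0) (nat_lit 0) (nat_lit 0) (nat_lit 0) (nat_lit 0) (nat_lit 0) (nat_lit 1) (nat_lit 0) (nat_lit 1) (nat_lit 0) (nat_lit 499) (nat_lit 291) (nat_lit 290)) (XT.lf (nat_lit 0) (nat_lit 51312800934131) (nat_lit 0) (nat_lit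 0) (nat_lit 0) (nat_lit 0) (nat_lit 0) (nat_lit 0) (nat_lit 1) (nat_lit 0) (nat_lit 1) (nat_lit 0) (nat_lit 500) (nat_lit 291) (nat_lit 289)))))) (XT.nd (nat_lit 67492) (nat_lit 0) (nat_lit 0) (XT.nd (nat_lit 282) (nat_lit 0) (nat_lit 0) (XT.nd (nat_lit 94) (nat_lit 0) (nat_lit 0) (XT.lf (nat_lit 0) (nat_lit 55417823883768) (nat_lit 0) (nat_lit 0) (nat_lit 0) (nat_lit 0) (nat_lit 0) (nat_lit 0) (nat_lit 1) (nat_lit 0) (nat_lit 1) (nat_lit 0) (nat_lit 501) (nat_lit 291) (nat_lit 288)) (XT.nd (nat_lit 94) (nat_lit 0) (nat_lit 0) (XT.lf (nat_lit 0) (nat_lit 59851248721282) (nat_lit 0) (nat_lit 0) (nat_lit 0) (nat_lit 0) (nat_lit 0) (nat_lit 0) (nat_lit 1) (nat_lit 0) (nat_lit 1) (nat_lit 0) (nat_lit 502) (nat_lit 291) (nat_lit 287)) (XT.lf (nat_lit 0) (nat_lit 64639347593856) (nat_lit 0) (nat_lit 0) (nat_lit 0) (nat_lit 0) (nat_lit 0) (nat_lit 0) (nat_lit 1)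 (nat_lit 0) (nat_lit 1) (nat_lit 0) (nat_lit 503) (nat_lit 291) (nat_lit 286)))) (XT.nd (nat_lit 67022) (nat_lit 0) (nat_lit 0) (XT.nd (nat_lit 94) (nat_lit 0) (nat_lit 0) (XT.lf (nat_lit 0) (nat_lit 69810494420737) (nat_lit 0) (nat_lit 0) (nat_lit 0) (nat_lit 0) (nat_lit 0) (nat_lit 0) (nat_lit 1) (nat_lit 0) (nat_lit 1) (nat_lit 0) (nat_lit 504) (nat_lit 291) (nat_lit 285)) (XT.lf (nat_lit 0) (nat_lit 75395333034972) (nat_lit 0) (nat_lit 0) (nat_lit 0) (nat_lit 0) (nat_lit 0) (nat_lit 0) (nat_lit 1) (nat_lit 0) (nat_lit 1) (nat_lit 0) (nat_lit 505) (nat_lit 291) (nat_lit 284))) (XT.nd (nat_lit 94) (nat_lit 0) (nat_lit 0) (XT.lf (nat_lit 0) (nat_lit 18858222366682) (nat_lit 0) (nat_lit 0) (nat_lit 0) (nat_lit 0) (nat_lit 0) (nat_lit 0) (nat_lit 1) (nat_lit 0) (nat_lit 1) (nat_lit 0) (nat_lit 496) (nat_lit 292) (nat_lit 292)) (XT.lf (nat_lit 0) (nat_lit 40733758971007)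 (nat_lit 0) (nat_lit 0) (nat_lit 0) (nat_lit 0) (nat_lit 0) (nat_lit 0) (nat_lit 1) (nat_lit 0) (nat_lit 1) (nat_lit 0) (nat_lit 497) (nat_lit 292) (nat_lit 291))))) (XT.nd (nat_lit 282) (nat_lit 0) (nat_lit 0) (XT.nd (nat_lit 94) (nat_lit 0) (nat_lit 0) (XT.lf (nat_lit 0) (nat_lit 43992458413045) (nat_lit 0) (nat_lit 0) (nat_lit 0) (nat_lit 0) (nat_lit 0) (nat_lit 0) (nat_lit 1) (nat_lit 0) (nat_lit 1) (nat_lit 0) (nat_lit 498) (nat_lit 292) (nat_lit 290)) (XT.nd (nat_lit 94) (nat_lit 0) (nat_lit 0) (XT.lf (nat_lit 0) (nat_lit 47511853870988) (nat_lit 0) (nat_lit 0) (nat_lit 0) (nat_lit 0) (nat_lit 0) (nat_lit 0) (nat_lit 1) (nat_lit 0) (nat_lit 1) (nat_lit 0) (nat_lit 499) (nat_lit 292) (nat_lit 289)) (XT.lf (nat_lit 0) (nat_lit 51312801021623) (nat_lit 0) (nat_lit 0) (nat_lit 0) (nat_lit 0) (nat_lit 0) (nat_lit 0) (nat_lit 1) (nat_lit 0) (nat_lit 1) (nat_lit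 0) (nat_lit 500) (nat_lit 292) (nat_lit 288)))) (XT.nd (nat_lit 188) (nat_lit 0) (nat_lit 0) (XT.nd (nat_lit 94) (nat_lit 0) (nat_lit 0) (XT.lf (nat_lit 0) (nat_lit 55417823996215) (nat_lit 0) (nat_lit 0) (nat_lit 0) (nat_lit 0) (nat_lit 0) (nat_lit 0) (nat_lit 1) (nat_lit 0) (nat_lit 1) (nat_lit 0) (nat_lit 501) (nat_lit 292) (nat_lit 287)) (XT.lf (nat_lit 0) (nat_lit 59851248856834) (nat_lit 0) (nat_lit 0) (nat_lit 0) (nat_lit 0) (nat_lit 0) (nat_lit 0) (nat_lit 1) (nat_lit 0) (nat_lit 1) (nat_lit 0) (nat_lit 502) (nat_lit 292) (nat_lit 286))) (XT.nd (nat_lit 94) (nat_lit 0) (nat_lit 0) (XT.lf (nat_lit 0) (nat_lit 64639347750803) (nat_lit 0) (nat_lit 0) (nat_lit 0) (nat_lit 0) (nat_lit 0) (nat_lit 0) (nat_lit 1) (nat_lit 0) (nat_lit 1) (nat_lit 0) (nat_lit 503) (nat_lit 292) (nat_lit 285)) (XT.lf (nat_lit 0) (nat_lit 69810494597493) (nat_lit 0) (nat_lit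 0) (nat_lit 0) (nat_lit 0) (nat_lit 0) (nat_lit 0) (nat_lit 1) (nat_lit 0) (nat_lit 1) (nat_lit 0) (nat_lit 504) (nat_lit 292) (nat_lit 284))))))) (XT.nd (nat_lit 134420) (nat_lit 0) (nat_lit 0) (XT.nd (nat_lit 67304) (nat_lit 0) (nat_lit 0) (XT.nd (nat_lit 66928) (nat_lit 0) (nat_lit 0) (XT.nd (nat_lit 66740) (nat_lit 0) (nat_lit 0) (XT.lf (nat_lit 0) (nat_lit 75395333230071) (nat_lit 0) (nat_lit 0) (nat_lit 0) (nat_lit 0) (nat_lit 0) (nat_lit 0) (nat_lit 1) (nat_lit 0) (nat_lit 1) (nat_lit 0) (nat_lit 505) (nat_lit 292) (nat_lit 283)) (XT.nd (nat_lit 94) (nat_lit 0) (nat_lit 0) (XT.lf (nat_lit 0) (nat_lit 16167887392483) (nat_lit 0) (nat_lit 0) (nat_lit 0) (nat_lit 0) (nat_lit 0) (nat_lit 0) (nat_lit 1) (nat_lit 0) (nat_lit 1) (nat_lit 0) (nat_lit 494) (nat_lit 293) (nat_lit 293)) (XT.lf (nat_lit 0) (nat_lit 34922635319453) (nat_lit 0) (nat_lit 0) (nat_lit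 0) (nat_lit 0) (nat_lit 0) (nat_lit 0) (nat_lit 1) (nat_lit 0) (nat_lit 1) (nat_lit 0) (nat_lit 495) (nat_lit 293) (nat_lit 292)))) (XT.nd (nat_lit 188) (nat_lit 0) (nat_lit 0) (XT.nd (nat_lit 94) (nat_lit 0) (nat_lit 0) (XT.lf (nat_lit 0) (nat_lit 37716444767315) (nat_lit 0) (nat_lit 0) (nat_lit 0) (nat_lit 0) (nat_lit 0) (nat_lit 0) (nat_lit 1) (nat_lit 0) (nat_lit 1) (nat_lit 0) (nat_lit 496) (nat_lit 293) (nat_lit 291)) (XT.lf (nat_lit 0) (nat_lit 40733759036392) (nat_lit 0) (nat_lit 0) (nat_lit 0) (nat_lit 0) (nat_lit 0) (nat_lit 0) (nat_lit 1) (nat_lit 0) (nat_lit 1) (nat_lit 0) (nat_lit 497) (nat_lit 293) (nat_lit 290))) (XT.nd (nat_lit 94) (nat_lit 0) (nat_lit 0) (XT.lf (nat_lit 0) (nat_lit 43992458507537) (nat_lit 0) (nat_lit 0) (nat_lit 0) (nat_lit 0) (nat_lit 0) (nat_lit 0) (nat_lit 1) (nat_lit 0) (nat_lit 1) (nat_lit 0) (nat_lit 498) (nat_lit 293)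 (nat_lit 289)) (XT.lf (nat_lit 0) (nat_lit 47511853992430) (nat_lit 0) (nat_lit 0) (nat_lit 0) (nat_lit 0) (nat_lit 0) (nat_lit 0) (nat_lit 1) (nat_lit 0) (nat_lit 1) (nat_lit 0) (nat_lit 499) (nat_lit 293) (nat_lit 288))))) (XT.nd (nat_lit 282) (nat_lit 0) (nat_lit 0) (XT.nd (nat_lit 94) (nat_lit 0) (nat_lit 0) (XT.lf (nat_lit 0) (nat_lit 51312801168021) (nat_lit 0) (nat_lit 0) (nat_lit 0) (nat_lit 0) (nat_lit 0) (nat_lit 0) (nat_lit 1) (nat_lit 0) (nat_lit 1) (nat_lit 0) (nat_lit 500) (nat_lit 293) (nat_lit 287)) (XT.nd (nat_lit 94) (nat_lit 0) (nat_lit 0) (XT.lf (nat_lit 0) (nat_lit 55417824165718) (nat_lit 0) (nat_lit 0) (nat_lit 0) (nat_lit 0) (nat_lit 0) (nat_lit 0) (nat_lit 1) (nat_lit 0) (nat_lit 1) (nat_lit 0) (nat_lit 501) (nat_lit 293) (nat_lit 286)) (XT.lf (nat_lit 0) (nat_lit 59851249047731) (nat_lit 0) (nat_lit 0) (nat_lit 0) (nat_lit 0) (nat_lit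 0) (nat_lit 0) (nat_lit 1) (nat_lit 0) (nat_lit 1) (nat_lit 0) (nat_lit 502) (nat_lit 293) (nat_lit 285)))) (XT.nd (nat_lit 188) (nat_lit 0) (nat_lit 0) (XT.nd (nat_lit 94) (nat_lit 0) (nat_lit 0) (XT.lf (nat_lit 0) (nat_lit 64639347961510) (nat_lit 0) (nat_lit 0) (nat_lit 0) (nat_lit 0) (nat_lit 0) (nat_lit 0) (nat_lit 1) (nat_lit 0) (nat_lit 1) (nat_lit 0) (nat_lit 503) (nat_lit 293) (nat_lit 284)) (XT.lf (nat_lit 0) (nat_lit 69810494826542) (nat_lit 0) (nat_lit 0) (nat_lit 0) (nat_lit 0) (nat_lit 0) (nat_lit 0) (nat_lit 1) (nat_lit 0) (nat_lit 1) (nat_lit 0) (nat_lit 504) (nat_lit 293) (nat_lit 283))) (XT.nd (nat_lit 66552) (nat_lit 0) (nat_lit 0) (XT.lf (nat_lit 0) (nat_lit 75395333476103) (nat_lit 0) (nat_lit 0) (nat_lit 0) (nat_lit 0) (nat_lit 0) (nat_lit 0) (nat_lit 1) (nat_lit 0) (nat_lit 1) (nat_lit 0) (nat_lit 505) (nat_lit 293) (nat_lit 282)) (XT.lf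 (nat_lit 0) (nat_lit 13861358881537) (nat_lit 0) (nat_lit 0) (nat_lit 0) (nat_lit 0) (nat_lit 0) (nat_lit 0) (nat_lit 1) (nat_lit 0) (nat_lit 1) (nat_lit 0) (nat_lit 492) (nat_lit 294) (nat_lit 294)))))) (XT.nd (nat_lit 658) (nat_lit 0) (nat_lit 0) (XT.nd (nat_lit 282) (nat_lit 0) (nat_lit 0) (XT.nd (nat_lit 94) (nat_lit 0) (nat_lit 0) (XT.lf (nat_lit 0) (nat_lit 29940533619946) (nat_lit 0) (nat_lit 0) (nat_lit 0) (nat_lit 0) (nat_lit 0) (nat_lit 0) (nat_lit 1) (nat_lit 0) (nat_lit 1) (nat_lit 0) (nat_lit 493) (nat_lit 294) (nat_lit 293)) (XT.nd (nat_lit 94) (nat_lit 0) (nat_lit 0) (XT.lf (nat_lit 0) (nat_lit 32335774821632) (nat_lit 0) (nat_lit 0) (nat_lit 0) (nat_lit 0) (nat_lit 0) (nat_lit 0) (nat_lit 1) (nat_lit 0) (nat_lit 1) (nat_lit 0) (nat_lit 494) (nat_lit 294) (nat_lit 292)) (XT.lf (nat_lit 0) (nat_lit 34922635390069) (nat_lit 0) (nat_lit 0) (nat_lit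 0) (nat_lit 0) (nat_lit 0) (nat_lit 0) (nat_lit 1) (nat_lit 0) (nat_lit 1) (nat_lit 0) (nat_lit 495) (nat_lit 294) (nat_lit 291)))) (XT.nd (nat_lit 188) (nat_lit 0) (nat_lit 0) (XT.nd (nat_lit 94) (nat_lit 0) (nat_lit 0) (XT.lf (nat_lit 0) (nat_lit 37716444869367) (nat_lit 0) (nat_lit 0) (nat_lit 0) (nat_lit 0) (nat_lit 0) (nat_lit 0) (nat_lit 1) (nat_lit 0) (nat_lit 1) (nat_lit 0) (nat_lit 496) (nat_lit 294) (nat_lit 290)) (XT.lf (nat_lit 0) (nat_lit 40733759167550) (nat_lit 0) (nat_lit 0) (nat_lit 0) (nat_lit 0) (nat_lit 0) (nat_lit 0) (nat_lit 1) (nat_lit 0) (nat_lit 1) (nat_lit 0) (nat_lit 497) (nat_lit 294) (nat_lit 289))) (XT.nd (nat_lit 94) (nat_lit 0) (nat_lit 0) (XT.lf (nat_lit 0) (nat_lit 43992458665645) (nat_lit 0) (nat_lit 0) (nat_lit 0) (nat_lit 0) (nat_lit 0) (nat_lit 0) (nat_lit 1) (nat_lit 0) (nat_lit 1) (nat_lit 0) (nat_lit 498) (nat_lit 294)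 (nat_lit 288)) (XT.lf (nat_lit 0) (nat_lit 47511854175493) (nat_lit 0) (nat_lit 0) (nat_lit 0) (nat_lit 0) (nat_lit 0) (nat_lit 0) (nat_lit 1) (nat_lit 0) (nat_lit 1) (nat_lit 0) (nat_lit 499) (nat_lit 294) (nat_lit 287))))) (XT.nd (nat_lit 282) (nat_lit 0) (nat_lit 0) (XT.nd (nat_lit 94) (nat_lit 0) (nat_lit 0) (XT.lf (nat_lit 0) (nat_lit 51312801374189) (nat_lit 0) (nat_lit 0) (nat_lit 0) (nat_lit 0) (nat_lit 0) (nat_lit 0) (nat_lit 1) (nat_lit 0) (nat_lit 1) (nat_lit 0) (nat_lit 500) (nat_lit 294) (nat_lit 286)) (XT.nd (nat_lit 94) (nat_lit 0) (nat_lit 0) (XT.lf (nat_lit 0) (nat_lit 55417824393281) (nat_lit 0) (nat_lit 0) (nat_lit 0) (nat_lit 0) (nat_lit 0) (nat_lit 0) (nat_lit 1) (nat_lit 0) (nat_lit 1) (nat_lit 0) (nat_lit 501) (nat_lit 294) (nat_lit 285)) (XT.lf (nat_lit 0) (nat_lit 59851249295104) (nat_lit 0) (nat_lit 0) (nat_lit 0) (nat_lit 0) (nat_lit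 0) (nat_lit 0) (nat_lit 1) (nat_lit 0) (nat_lit 1) (nat_lit 0) (nat_lit 502) (nat_lit 294) (nat_lit 284)))) (XT.nd (nat_lit 188) (nat_lit 0) (nat_lit 0) (XT.nd (nat_lit 94) (nat_lit 0) (nat_lit 0) (XT.lf (nat_lit 0) (nat_lit 64639348227225) (nat_lit 0) (nat_lit 0) (nat_lit 0) (nat_lit 0) (nat_lit 0) (nat_lit 0) (nat_lit 1) (nat_lit 0) (nat_lit 1) (nat_lit 0) (nat_lit 503) (nat_lit 294) (nat_lit 283)) (XT.lf (nat_lit 0) (nat_lit 69810495109241) (nat_lit 0) (nat_lit 0) (nat_lit 0) (nat_lit 0) (nat_lit 0) (nat_lit 0) (nat_lit 1) (nat_lit 0) (nat_lit 1) (nat_lit 0) (nat_lit 504) (nat_lit 294) (nat_lit 282))) (XT.nd (nat_lit 66364) (nat_lit 0) (nat_lit 0) (XT.lf (nat_lit 0) (nat_lit 75395333774527) (nat_lit 0) (nat_lit 0) (nat_lit 0) (nat_lit 0) (nat_lit 0) (nat_lit 0) (nat_lit 1) (nat_lit 0) (nat_lit 1) (nat_lit 0) (nat_lit 505) (nat_lit 294) (nat_lit 281)) (XT.lf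 (nat_lit 0) (nat_lit 11883882559186) (nat_lit 0) (nat_lit 0) (nat_lit 0) (nat_lit 0) (nat_lit 0) (nat_lit 0) (nat_lit 1) (nat_lit 0) (nat_lit 1) (nat_lit 0) (nat_lit 490) (nat_lit 295) (nat_lit 295))))))))
noncomputable def xc1 : XT := (XT.nd (nat_lit 68714) (nat_lit 0) (nat_lit 0) (XT.nd (nat_lit 1316) (nat_lit 0) (nat_lit 0) (XT.nd (nat_lit 658) (nat_lit 0) (nat_lit 0) (XT.nd (nat_lit 282) (nat_lit 0) (nat_lit 0) (XT.nd (nat_lit 94) (nat_lit 0) (nat_lit 0) (XT.lf (nat_lit 0) (nat_lit 25669184638533) (nat_lit 0) (nat_lit 0) (nat_lit 0) (nat_lit 0) (nat_lit 0) (nat_lit 0) (nat_lit 1) (nat_lit 0) (nat_lit 1) (nat_lit 0) (nat_lit 491) (nat_lit 295) (nat_lit 294)) (XT.nd (nat_lit 94) (nat_lit 0) (nat_lit 0) (XT.lf (nat_lit 0) (nat_lit 27722717802674) (nat_lit 0) (nat_lit 0) (nat_lit 0) (nat_lit 0) (nat_lit 0) (nat_lit 0) (nat_lit 1) (nat_lit 0) (nat_lit 1) (nat_lit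 0) (nat_lit 492) (nat_lit 295) (nat_lit 293)) (XT.lf (nat_lit 0) (nat_lit 29940533696211) (nat_lit 0) (nat_lit 0) (nat_lit 0) (nat_lit 0) (nat_lit 0) (nat_lit 0) (nat_lit 1) (nat_lit 0) (nat_lit 1) (nat_lit 0) (nat_lit 493) (nat_lit 295) (nat_lit 292)))) (XT.nd (nat_lit 188) (nat_lit 0) (nat_lit 0) (XT.nd (nat_lit 94) (nat_lit 0) (nat_lit 0) (XT.lf (nat_lit 0) (nat_lit 32335774931847) (nat_lit 0) (nat_lit 0) (nat_lit 0) (nat_lit 0) (nat_lit 0) (nat_lit 0) (nat_lit 1) (nat_lit 0) (nat_lit 1) (nat_lit 0) (nat_lit 494) (nat_lit 295) (nat_lit 291)) (XT.lf (nat_lit 0) (nat_lit 34922635531720) (nat_lit 0) (nat_lit 0) (nat_lit 0) (nat_lit 0) (nat_lit 0) (nat_lit 0) (nat_lit 1) (nat_lit 0) (nat_lit 1) (nat_lit 0) (nat_lit 495) (nat_lit 295) (nat_lit 290))) (XT.nd (nat_lit 94) (nat_lit 0) (nat_lit 0) (XT.lf (nat_lit 0) (nat_lit 37716445040124) (nat_lit 0) (nat_lit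 0) (nat_lit 0) (nat_lit 0) (nat_lit 0) (nat_lit 0) (nat_lit 1) (nat_lit 0) (nat_lit 1) (nat_lit 0) (nat_lit 496) (nat_lit 295) (nat_lit 289)) (XT.lf (nat_lit 0) (nat_lit 40733759365258) (nat_lit 0) (nat_lit 0) (nat_lit 0) (nat_lit 0) (nat_lit 0) (nat_lit 0) (nat_lit 1) (nat_lit 0) (nat_lit 1) (nat_lit 0) (nat_lit 497) (nat_lit 295) (nat_lit 288))))) (XT.nd (nat_lit 282) (nat_lit 0) (nat_lit 0) (XT.nd (nat_lit 94) (nat_lit 0) (nat_lit 0) (XT.lf (nat_lit 0) (nat_lit 43992458888308) (nat_lit 0) (nat_lit 0) (nat_lit 0) (nat_lit 0) (nat_lit 0) (nat_lit 0) (nat_lit 1) (nat_lit 0) (nat_lit 1) (nat_lit 0) (nat_lit 498) (nat_lit 295) (nat_lit 287)) (XT.nd (nat_lit 94) (nat_lit 0) (nat_lit 0) (XT.lf (nat_lit 0) (nat_lit 47511854421262) (nat_lit 0) (nat_lit 0) (nat_lit 0) (nat_lit 0) (nat_lit 0) (nat_lit 0) (nat_lit 1) (nat_lit 0) (nat_lit 1) (nat_lit 0) (nat_lit 499)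 (nat_lit 295) (nat_lit 286)) (XT.lf (nat_lit 0) (nat_lit 51312801641352) (nat_lit 0) (nat_lit 0) (nat_lit 0) (nat_lit 0) (nat_lit 0) (nat_lit 0) (nat_lit 1) (nat_lit 0) (nat_lit 1) (nat_lit 0) (nat_lit 500) (nat_lit 295) (nat_lit 285)))) (XT.nd (nat_lit 188) (nat_lit 0) (nat_lit 0) (XT.nd (nat_lit 94) (nat_lit 0) (nat_lit 0) (XT.lf (nat_lit 0) (nat_lit 55417824680253) (nat_lit 0) (nat_lit 0) (nat_lit 0) (nat_lit 0) (nat_lit 0) (nat_lit 0) (nat_lit 1) (nat_lit 0) (nat_lit 1) (nat_lit 0) (nat_lit 501) (nat_lit 295) (nat_lit 284)) (XT.lf (nat_lit 0) (nat_lit 59851249600419) (nat_lit 0) (nat_lit 0) (nat_lit 0) (nat_lit 0) (nat_lit 0) (nat_lit 0) (nat_lit 1) (nat_lit 0) (nat_lit 1) (nat_lit 0) (nat_lit 502) (nat_lit 295) (nat_lit 283))) (XT.nd (nat_lit 94) (nat_lit 0) (nat_lit 0) (XT.lf (nat_lit 0) (nat_lit 64639348549523) (nat_lit 0) (nat_lit 0) (nat_lit 0) (nat_lit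 0) (nat_lit 0) (nat_lit 0) (nat_lit 1) (nat_lit 0) (nat_lit 1) (nat_lit 0) (nat_lit 503) (nat_lit 295) (nat_lit 282)) (XT.lf (nat_lit 0) (nat_lit 69810495447264) (nat_lit 0) (nat_lit 0) (nat_lit 0) (nat_lit 0) (nat_lit 0) (nat_lit 0) (nat_lit 1) (nat_lit 0) (nat_lit 1) (nat_lit 0) (nat_lit 504) (nat_lit 295) (nat_lit 281)))))) (XT.nd (nat_lit 66740) (nat_lit 0) (nat_lit 0) (XT.nd (nat_lit 66364) (nat_lit 0) (nat_lit 0) (XT.nd (nat_lit 66176) (nat_lit 0) (nat_lit 0) (XT.lf (nat_lit 0) (nat_lit 75395334127111) (nat_lit 0) (nat_lit 0) (nat_lit 0) (nat_lit 0) (nat_lit 0) (nat_lit 0) (nat_lit 1) (nat_lit 0) (nat_lit 1) (nat_lit 0) (nat_lit 505) (nat_lit 295) (nat_lit 280)) (XT.nd (nat_lit 94) (nat_lit 0) (nat_lit 0) (XT.lf (nat_lit 0) (nat_lit 10188515460840) (nat_lit 0) (nat_lit 0) (nat_lit 0) (nat_lit 0) (nat_lit 0) (nat_lit 0) (nat_lit 1) (nat_lit 0) (nat_lit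 1) (nat_lit 0) (nat_lit 488) (nat_lit 296) (nat_lit 296)) (XT.lf (nat_lit 0) (nat_lit 22007191570961) (nat_lit 0) (nat_lit 0) (nat_lit 0) (nat_lit 0) (nat_lit 0) (nat_lit 0) (nat_lit 1) (nat_lit 0) (nat_lit 1) (nat_lit 0) (nat_lit 489) (nat_lit 296) (nat_lit 295)))) (XT.nd (nat_lit 188) (nat_lit 0) (nat_lit 0) (XT.nd (nat_lit 94) (nat_lit 0) (nat_lit 0) (XT.lf (nat_lit 0) (nat_lit 23767765161140) (nat_lit 0) (nat_lit 0) (nat_lit 0) (nat_lit 0) (nat_lit 0) (nat_lit 0) (nat_lit 1) (nat_lit 0) (nat_lit 1) (nat_lit 0) (nat_lit 490) (nat_lit 296) (nat_lit 294)) (XT.lf (nat_lit 0) (nat_lit 25669184720900) (nat_lit 0) (nat_lit 0) (nat_lit 0) (nat_lit 0) (nat_lit 0) (nat_lit 0) (nat_lit 1) (nat_lit 0) (nat_lit 1) (nat_lit 0) (nat_lit 491) (nat_lit 296) (nat_lit 293))) (XT.nd (nat_lit 94) (nat_lit 0) (nat_lit 0) (XT.lf (nat_lit 0) (nat_lit 27722717921707) (nat_lit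 0) (nat_lit 0) (nat_lit 0) (nat_lit 0) (nat_lit 0) (nat_lit 0) (nat_lit 1) (nat_lit 0) (nat_lit 1) (nat_lit 0) (nat_lit 492) (nat_lit 296) (nat_lit 292)) (XT.lf (nat_lit 0) (nat_lit 29940533849194) (nat_lit 0) (nat_lit 0) (nat_lit 0) (nat_lit 0) (nat_lit 0) (nat_lit 0) (nat_lit 1) (nat_lit 0) (nat_lit 1) (nat_lit 0) (nat_lit 493) (nat_lit 296) (nat_lit 291))))) (XT.nd (nat_lit 282) (nat_lit 0) (nat_lit 0) (XT.nd (nat_lit 94) (nat_lit 0) (nat_lit 0) (XT.lf (nat_lit 0) (nat_lit 32335775116266) (nat_lit 0) (nat_lit 0) (nat_lit 0) (nat_lit 0) (nat_lit 0) (nat_lit 0) (nat_lit 1) (nat_lit 0) (nat_lit 1) (nat_lit 0) (nat_lit 494) (nat_lit 296) (nat_lit 290)) (XT.nd (nat_lit 94) (nat_lit 0) (nat_lit 0) (XT.lf (nat_lit 0) (nat_lit 34922635745245) (nat_lit 0) (nat_lit 0) (nat_lit 0) (nat_lit 0) (nat_lit 0) (nat_lit 0) (nat_lit 1) (nat_lit 0) (nat_lit 1) (nat_lit 0)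 (nat_lit 495) (nat_lit 296) (nat_lit 289)) (XT.lf (nat_lit 0) (nat_lit 37716445280600) (nat_lit 0) (nat_lit 0) (nat_lit 0) (nat_lit 0) (nat_lit 0) (nat_lit 0) (nat_lit 1) (nat_lit 0) (nat_lit 1) (nat_lit 0) (nat_lit 496) (nat_lit 296) (nat_lit 288)))) (XT.nd (nat_lit 188) (nat_lit 0) (nat_lit 0) (XT.nd (nat_lit 94) (nat_lit 0) (nat_lit 0) (XT.lf (nat_lit 0) (nat_lit 40733759630688) (nat_lit 0) (nat_lit 0) (nat_lit 0) (nat_lit 0) (nat_lit 0) (nat_lit 0) (nat_lit 1) (nat_lit 0) (nat_lit 1) (nat_lit 0) (nat_lit 497) (nat_lit 296) (nat_lit 287)) (XT.lf (nat_lit 0) (nat_lit 43992459176844) (nat_lit 0) (nat_lit 0) (nat_lit 0) (nat_lit 0) (nat_lit 0) (nat_lit 0) (nat_lit 1) (nat_lit 0) (nat_lit 1) (nat_lit 0) (nat_lit 498) (nat_lit 296) (nat_lit 286))) (XT.nd (nat_lit 94) (nat_lit 0) (nat_lit 0) (XT.lf (nat_lit 0) (nat_lit 47511854731192) (nat_lit 0) (nat_lit 0)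 (nat_lit 0) (nat_lit 0) (nat_lit 0) (nat_lit 0) (nat_lit 1) (nat_lit 0) (nat_lit 1) (nat_lit 0) (nat_lit 499) (nat_lit 296) (nat_lit 285)) (XT.lf (nat_lit 0) (nat_lit 51312801971092) (nat_lit 0) (nat_lit 0) (nat_lit 0) (nat_lit 0) (nat_lit 0) (nat_lit 0) (nat_lit 1) (nat_lit 0) (nat_lit 1) (nat_lit 0) (nat_lit 500) (nat_lit 296) (nat_lit 284))))))) (XT.nd (nat_lit 67210) (nat_lit 0) (nat_lit 0) (XT.nd (nat_lit 66552) (nat_lit 0) (nat_lit 0) (XT.nd (nat_lit 282) (nat_lit 0) (nat_lit 0) (XT.nd (nat_lit 94) (nat_lit 0) (nat_lit 0) (XT.lf (nat_lit 0) (nat_lit 55417825028335) (nat_lit 0) (nat_lit 0) (nat_lit 0) (nat_lit 0) (nat_lit 0) (nat_lit 0) (nat_lit 1) (nat_lit 0) (nat_lit 1) (nat_lit 0) (nat_lit 501) (nat_lit 296) (nat_lit 283)) (XT.nd (nat_lit 94) (nat_lit 0) (nat_lit 0) (XT.lf (nat_lit 0) (nat_lit 59851249965484) (nat_lit 0) (nat_lit 0) (nat_lit 0) (nat_lit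 0) (nat_lit 0) (nat_lit 0) (nat_lit 1) (nat_lit 0) (nat_lit 1) (nat_lit 0) (nat_lit 502) (nat_lit 296) (nat_lit 282)) (XT.lf (nat_lit 0) (nat_lit 64639348930313) (nat_lit 0) (nat_lit 0) (nat_lit 0) (nat_lit 0) (nat_lit 0) (nat_lit 0) (nat_lit 1) (nat_lit 0) (nat_lit 1) (nat_lit 0) (nat_lit 503) (nat_lit 296) (nat_lit 281)))) (XT.nd (nat_lit 66082) (nat_lit 0) (nat_lit 0) (XT.nd (nat_lit 94) (nat_lit 0) (nat_lit 0) (XT.lf (nat_lit 0) (nat_lit 69810495842615) (nat_lit 0) (nat_lit 0) (nat_lit 0) (nat_lit 0) (nat_lit 0) (nat_lit 0) (nat_lit 1) (nat_lit 0) (nat_lit 1) (nat_lit 0) (nat_lit 504) (nat_lit 296) (nat_lit 280)) (XT.lf (nat_lit 0) (nat_lit 75395334535944) (nat_lit 0) (nat_lit 0) (nat_lit 0) (nat_lit 0) (nat_lit 0) (nat_lit 0) (nat_lit 1) (nat_lit 0) (nat_lit 1) (nat_lit 0) (nat_lit 505) (nat_lit 296) (nat_lit 279))) (XT.nd (nat_lit 94) (nat_lit 0) (nat_lit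 0) (XT.lf (nat_lit 0) (nat_lit 8735011561320) (nat_lit 0) (nat_lit 0) (nat_lit 0) (nat_lit 0) (nat_lit 0) (nat_lit 0) (nat_lit 1) (nat_lit 0) (nat_lit 1) (nat_lit 0) (nat_lit 486) (nat_lit 297) (nat_lit 297)) (XT.lf (nat_lit 0) (nat_lit 18867623002043) (nat_lit 0) (nat_lit 0) (nat_lit 0) (nat_lit 0) (nat_lit 0) (nat_lit 0) (nat_lit 1) (nat_lit 0) (nat_lit 1) (nat_lit 0) (nat_lit 487) (nat_lit 297) (nat_lit 296))))) (XT.nd (nat_lit 282) (nat_lit 0) (nat_lit 0) (XT.nd (nat_lit 94) (nat_lit 0) (nat_lit 0) (XT.lf (nat_lit 0) (nat_lit 20377030967869) (nat_lit 0) (nat_lit 0) (nat_lit 0) (nat_lit 0) (nat_lit 0) (nat_lit 0) (nat_lit 1) (nat_lit 0) (nat_lit 1) (nat_lit 0) (nat_lit 488) (nat_lit 297) (nat_lit 295)) (XT.nd (nat_lit 94) (nat_lit 0) (nat_lit 0) (XT.lf (nat_lit 0) (nat_lit 22007191659917) (nat_lit 0) (nat_lit 0) (nat_lit 0) (nat_lit 0) (nat_lit 0) (nat_lit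 0) (nat_lit 1) (nat_lit 0) (nat_lit 1) (nat_lit 0) (nat_lit 489) (nat_lit 297) (nat_lit 294)) (XT.lf (nat_lit 0) (nat_lit 23767765289695) (nat_lit 0) (nat_lit 0) (nat_lit 0) (nat_lit 0) (nat_lit 0) (nat_lit 0) (nat_lit 1) (nat_lit 0) (nat_lit 1) (nat_lit 0) (nat_lit 490) (nat_lit 297) (nat_lit 293)))) (XT.nd (nat_lit 188) (nat_lit 0) (nat_lit 0) (XT.nd (nat_lit 94) (nat_lit 0) (nat_lit 0) (XT.lf (nat_lit 0) (nat_lit 25669184886122) (nat_lit 0) (nat_lit 0) (nat_lit 0) (nat_lit 0) (nat_lit 0) (nat_lit 0) (nat_lit 1) (nat_lit 0) (nat_lit 1) (nat_lit 0) (nat_lit 491) (nat_lit 297) (nat_lit 292)) (XT.lf (nat_lit 0) (nat_lit 27722718120878) (nat_lit 0) (nat_lit 0) (nat_lit 0) (nat_lit 0) (nat_lit 0) (nat_lit 0) (nat_lit 1) (nat_lit 0) (nat_lit 1) (nat_lit 0) (nat_lit 492) (nat_lit 297) (nat_lit 291))) (XT.nd (nat_lit 94) (nat_lit 0) (nat_lit 0) (XT.lf (nat_lit 0)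 (nat_lit 29940534079801) (nat_lit 0) (nat_lit 0) (nat_lit 0) (nat_lit 0) (nat_lit 0) (nat_lit 0) (nat_lit 1) (nat_lit 0) (nat_lit 1) (nat_lit 0) (nat_lit 493) (nat_lit 297) (nat_lit 290)) (XT.lf (nat_lit 0) (nat_lit 32335775375979) (nat_lit 0) (nat_lit 0) (nat_lit 0) (nat_lit 0) (nat_lit 0) (nat_lit 0) (nat_lit 1) (nat_lit 0) (nat_lit 1) (nat_lit 0) (nat_lit 494) (nat_lit 297) (nat_lit 289)))))) (XT.nd (nat_lit 658) (nat_lit 0) (nat_lit 0) (XT.nd (nat_lit 282) (nat_lit 0) (nat_lit 0) (XT.nd (nat_lit 94) (nat_lit 0) (nat_lit 0) (XT.lf (nat_lit 0) (nat_lit 34922636031909) (nat_lit 0) (nat_lit 0) (nat_lit 0) (nat_lit 0) (nat_lit 0) (nat_lit 0) (nat_lit 1) (nat_lit 0) (nat_lit 1) (nat_lit 0) (nat_lit 495) (nat_lit 297) (nat_lit 288)) (XT.nd (nat_lit 94) (nat_lit 0) (nat_lit 0) (XT.lf (nat_lit 0) (nat_lit 37716445592218) (nat_lit 0) (nat_lit 0) (nat_lit 0) (nat_lit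 0) (nat_lit 0) (nat_lit 0) (nat_lit 1) (nat_lit 0) (nat_lit 1) (nat_lit 0) (nat_lit 496) (nat_lit 297) (nat_lit 287)) (XT.lf (nat_lit 0) (nat_lit 40733759965412) (nat_lit 0) (nat_lit 0) (nat_lit 0) (nat_lit 0) (nat_lit 0) (nat_lit 0) (nat_lit 1) (nat_lit 0) (nat_lit 1) (nat_lit 0) (nat_lit 497) (nat_lit 297) (nat_lit 286)))) (XT.nd (nat_lit 188) (nat_lit 0) (nat_lit 0) (XT.nd (nat_lit 94) (nat_lit 0) (nat_lit 0) (XT.lf (nat_lit 0) (nat_lit 43992459532962) (nat_lit 0) (nat_lit 0) (nat_lit 0) (nat_lit 0) (nat_lit 0) (nat_lit 0) (nat_lit 1) (nat_lit 0) (nat_lit 1) (nat_lit 0) (nat_lit 498) (nat_lit 297) (nat_lit 285)) (XT.lf (nat_lit 0) (nat_lit 47511855107120) (nat_lit 0) (nat_lit 0) (nat_lit 0) (nat_lit 0) (nat_lit 0) (nat_lit 0) (nat_lit 1) (nat_lit 0) (nat_lit 1) (nat_lit 0) (nat_lit 499) (nat_lit 297) (nat_lit 284))) (XT.nd (nat_lit 94) (nat_lit 0) (nat_lit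 0) (XT.lf (nat_lit 0) (nat_lit 51312802365362) (nat_lit 0) (nat_lit 0) (nat_lit 0) (nat_lit 0) (nat_lit 0) (nat_lit 0) (nat_lit 1) (nat_lit 0) (nat_lit 1) (nat_lit 0) (nat_lit 500) (nat_lit 297) (nat_lit 283)) (XT.lf (nat_lit 0) (nat_lit 55417825439589) (nat_lit 0) (nat_lit 0) (nat_lit 0) (nat_lit 0) (nat_lit 0) (nat_lit 0) (nat_lit 1) (nat_lit 0) (nat_lit 1) (nat_lit 0) (nat_lit 501) (nat_lit 297) (nat_lit 282))))) (XT.nd (nat_lit 66082) (nat_lit 0) (nat_lit 0) (XT.nd (nat_lit 188) (nat_lit 0) (nat_lit 0) (XT.nd (nat_lit 94) (nat_lit 0) (nat_lit 0) (XT.lf (nat_lit 0) (nat_lit 59851250392463) (nat_lit 0) (nat_lit 0) (nat_lit 0) (nat_lit 0) (nat_lit 0) (nat_lit 0) (nat_lit 1) (nat_lit 0) (nat_lit 1) (nat_lit 0) (nat_lit 502) (nat_lit 297) (nat_lit 281)) (XT.lf (nat_lit 0) (nat_lit 64639349371853) (nat_lit 0) (nat_lit 0) (nat_lit 0) (nat_lit 0) (nat_lit 0) (nat_lit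 0) (nat_lit 1) (nat_lit 0) (nat_lit 1) (nat_lit 0) (nat_lit 503) (nat_lit 297) (nat_lit 280))) (XT.nd (nat_lit 94) (nat_lit 0) (nat_lit 0) (XT.lf (nat_lit 0) (nat_lit 69810496297637) (nat_lit 0) (nat_lit 0) (nat_lit 0) (nat_lit 0) (nat_lit 0) (nat_lit 0) (nat_lit 1) (nat_lit 0) (nat_lit 1) (nat_lit 0) (nat_lit 504) (nat_lit 297) (nat_lit 279)) (XT.lf (nat_lit 0) (nat_lit 75395335003449) (nat_lit 0) (nat_lit 0) (nat_lit 0) (nat_lit 0) (nat_lit 0) (nat_lit 0) (nat_lit 1) (nat_lit 0) (nat_lit 1) (nat_lit 0) (nat_lit 505) (nat_lit 297) (nat_lit 278)))) (XT.nd (nat_lit 188) (nat_lit 0) (nat_lit 0) (XT.nd (nat_lit 94) (nat_lit 0) (nat_lit 0) (XT.lf (nat_lit 0) (nat_lit 7488866381642) (nat_lit 0) (nat_lit 0) (nat_lit 0) (nat_lit 0) (nat_lit 0) (nat_lit 0) (nat_lit 1) (nat_lit 0) (nat_lit 1) (nat_lit 0) (nat_lit 484) (nat_lit 298) (nat_lit 298)) (XT.lf (nat_lit 0)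 (nat_lit 16175949256305) (nat_lit 0) (nat_lit 0) (nat_lit 0) (nat_lit 0) (nat_lit 0) (nat_lit 0) (nat_lit 1) (nat_lit 0) (nat_lit 1) (nat_lit 0) (nat_lit 485) (nat_lit 298) (nat_lit 297))) (XT.nd (nat_lit 94) (nat_lit 0) (nat_lit 0) (XT.lf (nat_lit 0) (nat_lit 17470023172525) (nat_lit 0) (nat_lit 0) (nat_lit 0) (nat_lit 0) (nat_lit 0) (nat_lit 0) (nat_lit 1) (nat_lit 0) (nat_lit 1) (nat_lit 0) (nat_lit 486) (nat_lit 298) (nat_lit 296)) (XT.lf (nat_lit 0) (nat_lit 18867623098115) (nat_lit 0) (nat_lit 0) (nat_lit 0) (nat_lit 0) (nat_lit 0) (nat_lit 0) (nat_lit 1) (nat_lit 0) (nat_lit 1) (nat_lit 0) (nat_lit 487) (nat_lit 298) (nat_lit 295))))))))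
noncomputable def xc2 : XT := (XT.nd (nat_lit 68150) (nat_lit 0) (nat_lit 0) (XT.nd (nat_lit 1316) (nat_lit 0) (nat_lit 0) (XT.nd (nat_lit 658) (nat_lit 0) (nat_lit 0) (XT.nd (nat_lit 282) (nat_lit 0) (nat_lit 0) (XT.nd (nat_lit 94) (nat_lit 0) (nat_lit 0) (XT.lf (nat_lit 0) (nat_lit 20377031106708) (nat_lit 0) (nat_lit 0) (nat_lit 0) (nat_lit 0) (nat_lit 0) (nat_lit 0) (nat_lit 1) (nat_lit 0) (nat_lit 1) (nat_lit 0) (nat_lit 488) (nat_lit 298) (nat_lit 294)) (XT.nd (nat_lit 94) (nat_lit 0) (nat_lit 0) (XT.lf (nat_lit 0) (nat_lit 22007191838356) (nat_lit 0) (nat_lit 0) (nat_lit 0) (nat_lit 0) (nat_lit 0) (nat_lit 0) (nat_lit 1) (nat_lit 0) (nat_lit 1) (nat_lit 0) (nat_lit 489) (nat_lit 298) (nat_lit 293)) (XT.lf (nat_lit 0) (nat_lit 23767765504801) (nat_lit 0) (nat_lit 0) (nat_lit 0) (nat_lit 0) (nat_lit 0) (nat_lit 0) (nat_lit 1) (nat_lit 0) (nat_lit 1) (nat_lit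 0) (nat_lit 490) (nat_lit 298) (nat_lit 292)))) (XT.nd (nat_lit 188) (nat_lit 0) (nat_lit 0) (XT.nd (nat_lit 94) (nat_lit 0) (nat_lit 0) (XT.lf (nat_lit 0) (nat_lit 25669185135177) (nat_lit 0) (nat_lit 0) (nat_lit 0) (nat_lit 0) (nat_lit 0) (nat_lit 0) (nat_lit 1) (nat_lit 0) (nat_lit 1) (nat_lit 0) (nat_lit 491) (nat_lit 298) (nat_lit 291)) (XT.lf (nat_lit 0) (nat_lit 27722718401369) (nat_lit 0) (nat_lit 0) (nat_lit 0) (nat_lit 0) (nat_lit 0) (nat_lit 0) (nat_lit 1) (nat_lit 0) (nat_lit 1) (nat_lit 0) (nat_lit 492) (nat_lit 298) (nat_lit 290))) (XT.nd (nat_lit 94) (nat_lit 0) (nat_lit 0) (XT.lf (nat_lit 0) (nat_lit 29940534389398) (nat_lit 0) (nat_lit 0) (nat_lit 0) (nat_lit 0) (nat_lit 0) (nat_lit 0) (nat_lit 1) (nat_lit 0) (nat_lit 1) (nat_lit 0) (nat_lit 493) (nat_lit 298) (nat_lit 289)) (XT.lf (nat_lit 0) (nat_lit 32335775712527) (nat_lit 0) (nat_lit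 0) (nat_lit 0) (nat_lit 0) (nat_lit 0) (nat_lit 0) (nat_lit 1) (nat_lit 0) (nat_lit 1) (nat_lit 0) (nat_lit 494) (nat_lit 298) (nat_lit 288))))) (XT.nd (nat_lit 282) (nat_lit 0) (nat_lit 0) (XT.nd (nat_lit 94) (nat_lit 0) (nat_lit 0) (XT.lf (nat_lit 0) (nat_lit 34922636393411) (nat_lit 0) (nat_lit 0) (nat_lit 0) (nat_lit 0) (nat_lit 0) (nat_lit 0) (nat_lit 1) (nat_lit 0) (nat_lit 1) (nat_lit 0) (nat_lit 495) (nat_lit 298) (nat_lit 287)) (XT.nd (nat_lit 94) (nat_lit 0) (nat_lit 0) (XT.lf (nat_lit 0) (nat_lit 37716445976826) (nat_lit 0) (nat_lit 0) (nat_lit 0) (nat_lit 0) (nat_lit 0) (nat_lit 0) (nat_lit 1) (nat_lit 0) (nat_lit 1) (nat_lit 0) (nat_lit 496) (nat_lit 298) (nat_lit 286)) (XT.lf (nat_lit 0) (nat_lit 40733760371415) (nat_lit 0) (nat_lit 0) (nat_lit 0) (nat_lit 0) (nat_lit 0) (nat_lit 0) (nat_lit 1) (nat_lit 0) (nat_lit 1) (nat_lit 0) (nat_lit 497)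 (nat_lit 298) (nat_lit 285)))) (XT.nd (nat_lit 188) (nat_lit 0) (nat_lit 0) (XT.nd (nat_lit 94) (nat_lit 0) (nat_lit 0) (XT.lf (nat_lit 0) (nat_lit 43992459958774) (nat_lit 0) (nat_lit 0) (nat_lit 0) (nat_lit 0) (nat_lit 0) (nat_lit 0) (nat_lit 1) (nat_lit 0) (nat_lit 1) (nat_lit 0) (nat_lit 498) (nat_lit 298) (nat_lit 284)) (XT.lf (nat_lit 0) (nat_lit 47511855551274) (nat_lit 0) (nat_lit 0) (nat_lit 0) (nat_lit 0) (nat_lit 0) (nat_lit 0) (nat_lit 1) (nat_lit 0) (nat_lit 1) (nat_lit 0) (nat_lit 499) (nat_lit 298) (nat_lit 283))) (XT.nd (nat_lit 94) (nat_lit 0) (nat_lit 0) (XT.lf (nat_lit 0) (nat_lit 51312802826500) (nat_lit 0) (nat_lit 0) (nat_lit 0) (nat_lit 0) (nat_lit 0) (nat_lit 0) (nat_lit 1) (nat_lit 0) (nat_lit 1) (nat_lit 0) (nat_lit 500) (nat_lit 298) (nat_lit 282)) (XT.lf (nat_lit 0) (nat_lit 55417825916452) (nat_lit 0) (nat_lit 0) (nat_lit 0) (nat_lit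 0) (nat_lit 0) (nat_lit 0) (nat_lit 1) (nat_lit 0) (nat_lit 1) (nat_lit 0) (nat_lit 501) (nat_lit 298) (nat_lit 281)))))) (XT.nd (nat_lit 66176) (nat_lit 0) (nat_lit 0) (XT.nd (nat_lit 282) (nat_lit 0) (nat_lit 0) (XT.nd (nat_lit 94) (nat_lit 0) (nat_lit 0) (XT.lf (nat_lit 0) (nat_lit 59851250883887) (nat_lit 0) (nat_lit 0) (nat_lit 0) (nat_lit 0) (nat_lit 0) (nat_lit 0) (nat_lit 1) (nat_lit 0) (nat_lit 1) (nat_lit 0) (nat_lit 502) (nat_lit 298) (nat_lit 280)) (XT.nd (nat_lit 94) (nat_lit 0) (nat_lit 0) (XT.lf (nat_lit 0) (nat_lit 64639349876759) (nat_lit 0) (nat_lit 0) (nat_lit 0) (nat_lit 0) (nat_lit 0) (nat_lit 0) (nat_lit 1) (nat_lit 0) (nat_lit 1) (nat_lit 0) (nat_lit 503) (nat_lit 298) (nat_lit 279)) (XT.lf (nat_lit 0) (nat_lit 69810496815026) (nat_lit 0) (nat_lit 0) (nat_lit 0) (nat_lit 0) (nat_lit 0) (nat_lit 0) (nat_lit 1) (nat_lit 0) (nat_lit 1)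 (nat_lit 0) (nat_lit 504) (nat_lit 298) (nat_lit 278)))) (XT.nd (nat_lit 65706) (nat_lit 0) (nat_lit 0) (XT.nd (nat_lit 65612) (nat_lit 0) (nat_lit 0) (XT.lf (nat_lit 0) (nat_lit 75395335532397) (nat_lit 0) (nat_lit 0) (nat_lit 0) (nat_lit 0) (nat_lit 0) (nat_lit 0) (nat_lit 1) (nat_lit 0) (nat_lit 1) (nat_lit 0) (nat_lit 505) (nat_lit 298) (nat_lit 277)) (XT.lf (nat_lit 0) (nat_lit 6420497893319) (nat_lit 0) (nat_lit 0) (nat_lit 0) (nat_lit 0) (nat_lit 0) (nat_lit 0) (nat_lit 1) (nat_lit 0) (nat_lit 1) (nat_lit 0) (nat_lit 482) (nat_lit 299) (nat_lit 299))) (XT.nd (nat_lit 94) (nat_lit 0) (nat_lit 0) (XT.lf (nat_lit 0) (nat_lit 13868273151284) (nat_lit 0) (nat_lit 0) (nat_lit 0) (nat_lit 0) (nat_lit 0) (nat_lit 0) (nat_lit 1) (nat_lit 0) (nat_lit 1) (nat_lit 0) (nat_lit 483) (nat_lit 299) (nat_lit 298)) (XT.lf (nat_lit 0) (nat_lit 14977732817159) (nat_lit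 0) (nat_lit 0) (nat_lit 0) (nat_lit 0) (nat_lit 0) (nat_lit 0) (nat_lit 1) (nat_lit 0) (nat_lit 1) (nat_lit 0) (nat_lit 484) (nat_lit 299) (nat_lit 297))))) (XT.nd (nat_lit 282) (nat_lit 0) (nat_lit 0) (XT.nd (nat_lit 94) (nat_lit 0) (nat_lit 0) (XT.lf (nat_lit 0) (nat_lit 16175949360063) (nat_lit 0) (nat_lit 0) (nat_lit 0) (nat_lit 0) (nat_lit 0) (nat_lit 0) (nat_lit 1) (nat_lit 0) (nat_lit 1) (nat_lit 0) (nat_lit 485) (nat_lit 299) (nat_lit 296)) (XT.nd (nat_lit 94) (nat_lit 0) (nat_lit 0) (XT.lf (nat_lit 0) (nat_lit 17470023322472) (nat_lit 0) (nat_lit 0) (nat_lit 0) (nat_lit 0) (nat_lit 0) (nat_lit 0) (nat_lit 1) (nat_lit 0) (nat_lit 1) (nat_lit 0) (nat_lit 486) (nat_lit 299) (nat_lit 295)) (XT.lf (nat_lit 0) (nat_lit 18867623290829) (nat_lit 0) (nat_lit 0) (nat_lit 0) (nat_lit 0) (nat_lit 0) (nat_lit 0) (nat_lit 1) (nat_lit 0) (nat_lit 1) (nat_lit 0)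 (nat_lit 487) (nat_lit 299) (nat_lit 294)))) (XT.nd (nat_lit 188) (nat_lit 0) (nat_lit 0) (XT.nd (nat_lit 94) (nat_lit 0) (nat_lit 0) (XT.lf (nat_lit 0) (nat_lit 20377031339022) (nat_lit 0) (nat_lit 0) (nat_lit 0) (nat_lit 0) (nat_lit 0) (nat_lit 0) (nat_lit 1) (nat_lit 0) (nat_lit 1) (nat_lit 0) (nat_lit 488) (nat_lit 299) (nat_lit 293)) (XT.lf (nat_lit 0) (nat_lit 22007192107336) (nat_lit 0) (nat_lit 0) (nat_lit 0) (nat_lit 0) (nat_lit 0) (nat_lit 0) (nat_lit 1) (nat_lit 0) (nat_lit 1) (nat_lit 0) (nat_lit 489) (nat_lit 299) (nat_lit 292))) (XT.nd (nat_lit 94) (nat_lit 0) (nat_lit 0) (XT.lf (nat_lit 0) (nat_lit 23767765807730) (nat_lit 0) (nat_lit 0) (nat_lit 0) (nat_lit 0) (nat_lit 0) (nat_lit 0) (nat_lit 1) (nat_lit 0) (nat_lit 1) (nat_lit 0) (nat_lit 490) (nat_lit 299) (nat_lit 291)) (XT.lf (nat_lit 0) (nat_lit 25669185469542) (nat_lit 0) (nat_lit 0)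 (nat_lit 0) (nat_lit 0) (nat_lit 0) (nat_lit 0) (nat_lit 1) (nat_lit 0) (nat_lit 1) (nat_lit 0) (nat_lit 491) (nat_lit 299) (nat_lit 290))))))) (XT.nd (nat_lit 66646) (nat_lit 0) (nat_lit 0) (XT.nd (nat_lit 658) (nat_lit 0) (nat_lit 0) (XT.nd (nat_lit 282) (nat_lit 0) (nat_lit 0) (XT.nd (nat_lit 94) (nat_lit 0) (nat_lit 0) (XT.lf (nat_lit 0) (nat_lit 27722718764841) (nat_lit 0) (nat_lit 0) (nat_lit 0) (nat_lit 0) (nat_lit 0) (nat_lit 0) (nat_lit 1) (nat_lit 0) (nat_lit 1) (nat_lit 0) (nat_lit 492) (nat_lit 299) (nat_lit 289)) (XT.nd (nat_lit 94) (nat_lit 0) (nat_lit 0) (XT.lf (nat_lit 0) (nat_lit 29940534779821) (nat_lit 0) (nat_lit 0) (nat_lit 0) (nat_lit 0) (nat_lit 0) (nat_lit 0) (nat_lit 1) (nat_lit 0) (nat_lit 1) (nat_lit 0) (nat_lit 493) (nat_lit 299) (nat_lit 288)) (XT.lf (nat_lit 0) (nat_lit 32335776127904) (nat_lit 0) (nat_lit 0) (nat_lit 0) (nat_lit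 0) (nat_lit 0) (nat_lit 0) (nat_lit 1) (nat_lit 0) (nat_lit 1) (nat_lit 0) (nat_lit 494) (nat_lit 299) (nat_lit 287)))) (XT.nd (nat_lit 188) (nat_lit 0) (nat_lit 0) (XT.nd (nat_lit 94) (nat_lit 0) (nat_lit 0) (XT.lf (nat_lit 0) (nat_lit 34922636831894) (nat_lit 0) (nat_lit 0) (nat_lit 0) (nat_lit 0) (nat_lit 0) (nat_lit 0) (nat_lit 1) (nat_lit 0) (nat_lit 1) (nat_lit 0) (nat_lit 495) (nat_lit 299) (nat_lit 286)) (XT.lf (nat_lit 0) (nat_lit 37716446436703) (nat_lit 0) (nat_lit 0) (nat_lit 0) (nat_lit 0) (nat_lit 0) (nat_lit 0) (nat_lit 1) (nat_lit 0) (nat_lit 1) (nat_lit 0) (nat_lit 496) (nat_lit 299) (nat_lit 285))) (XT.nd (nat_lit 94) (nat_lit 0) (nat_lit 0) (XT.lf (nat_lit 0) (nat_lit 40733760851101) (nat_lit 0) (nat_lit 0) (nat_lit 0) (nat_lit 0) (nat_lit 0) (nat_lit 0) (nat_lit 1) (nat_lit 0) (nat_lit 1) (nat_lit 0) (nat_lit 497) (nat_lit 299) (nat_lit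 284)) (XT.lf (nat_lit 0) (nat_lit 43992460456803) (nat_lit 0) (nat_lit 0) (nat_lit 0) (nat_lit 0) (nat_lit 0) (nat_lit 0) (nat_lit 1) (nat_lit 0) (nat_lit 1) (nat_lit 0) (nat_lit 498) (nat_lit 299) (nat_lit 283))))) (XT.nd (nat_lit 282) (nat_lit 0) (nat_lit 0) (XT.nd (nat_lit 94) (nat_lit 0) (nat_lit 0) (XT.lf (nat_lit 0) (nat_lit 47511856066286) (nat_lit 0) (nat_lit 0) (nat_lit 0) (nat_lit 0) (nat_lit 0) (nat_lit 0) (nat_lit 1) (nat_lit 0) (nat_lit 1) (nat_lit 0) (nat_lit 499) (nat_lit 299) (nat_lit 282)) (XT.nd (nat_lit 94) (nat_lit 0) (nat_lit 0) (XT.lf (nat_lit 0) (nat_lit 51312803357237) (nat_lit 0) (nat_lit 0) (nat_lit 0) (nat_lit 0) (nat_lit 0) (nat_lit 0) (nat_lit 1) (nat_lit 0) (nat_lit 1) (nat_lit 0) (nat_lit 500) (nat_lit 299) (nat_lit 281)) (XT.lf (nat_lit 0) (nat_lit 55417826461750) (nat_lit 0) (nat_lit 0) (nat_lit 0) (nat_lit 0) (nat_lit 0) (nat_lit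 0) (nat_lit 1) (nat_lit 0) (nat_lit 1) (nat_lit 0) (nat_lit 501) (nat_lit 299) (nat_lit 280)))) (XT.nd (nat_lit 188) (nat_lit 0) (nat_lit 0) (XT.nd (nat_lit 94) (nat_lit 0) (nat_lit 0) (XT.lf (nat_lit 0) (nat_lit 59851251442667) (nat_lit 0) (nat_lit 0) (nat_lit 0) (nat_lit 0) (nat_lit 0) (nat_lit 0) (nat_lit 1) (nat_lit 0) (nat_lit 1) (nat_lit 0) (nat_lit 502) (nat_lit 299) (nat_lit 279)) (XT.lf (nat_lit 0) (nat_lit 64639350448022) (nat_lit 0) (nat_lit 0) (nat_lit 0) (nat_lit 0) (nat_lit 0) (nat_lit 0) (nat_lit 1) (nat_lit 0) (nat_lit 1) (nat_lit 0) (nat_lit 503) (nat_lit 299) (nat_lit 278))) (XT.nd (nat_lit 94) (nat_lit 0) (nat_lit 0) (XT.lf (nat_lit 0) (nat_lit 69810497397849) (nat_lit 0) (nat_lit 0) (nat_lit 0) (nat_lit 0) (nat_lit 0) (nat_lit 0) (nat_lit 1) (nat_lit 0) (nat_lit 1) (nat_lit 0) (nat_lit 504) (nat_lit 299) (nat_lit 277)) (XT.lf (nat_lit 0)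 (nat_lit 75395336125922) (nat_lit 0) (nat_lit 0) (nat_lit 0) (nat_lit 0) (nat_lit 0) (nat_lit 0) (nat_lit 1) (nat_lit 0) (nat_lit 1) (nat_lit 0) (nat_lit 505) (nat_lit 299) (nat_lit 276)))))) (XT.nd (nat_lit 658) (nat_lit 0) (nat_lit 0) (XT.nd (nat_lit 282) (nat_lit 0) (nat_lit 0) (XT.nd (nat_lit 94) (nat_lit 0) (nat_lit 0) (XT.lf (nat_lit 0) (nat_lit 5504544275835) (nat_lit 0) (nat_lit 0) (nat_lit 0) (nat_lit 0) (nat_lit 0) (nat_lit 0) (nat_lit 1) (nat_lit 0) (nat_lit 1) (nat_lit 0) (nat_lit 480) (nat_lit 300) (nat_lit 300)) (XT.nd (nat_lit 94) (nat_lit 0) (nat_lit 0) (XT.lf (nat_lit 0) (nat_lit 11889813153656) (nat_lit 0) (nat_lit 0) (nat_lit 0) (nat_lit 0) (nat_lit 0) (nat_lit 0) (nat_lit 1) (nat_lit 0) (nat_lit 1) (nat_lit 0) (nat_lit 481) (nat_lit 300) (nat_lit 299)) (XT.lf (nat_lit 0) (nat_lit 12840995844823) (nat_lit 0) (nat_lit 0) (nat_lit 0) (nat_lit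 0) (nat_lit 0) (nat_lit 0) (nat_lit 1) (nat_lit 0) (nat_lit 1) (nat_lit 0) (nat_lit 482) (nat_lit 300) (nat_lit 298)))) (XT.nd (nat_lit 188) (nat_lit 0) (nat_lit 0) (XT.nd (nat_lit 94) (nat_lit 0) (nat_lit 0) (XT.lf (nat_lit 0) (nat_lit 13868273263343) (nat_lit 0) (nat_lit 0) (nat_lit 0) (nat_lit 0) (nat_lit 0) (nat_lit 0) (nat_lit 1) (nat_lit 0) (nat_lit 1) (nat_lit 0) (nat_lit 483) (nat_lit 300) (nat_lit 297)) (XT.lf (nat_lit 0) (nat_lit 14977732979102) (nat_lit 0) (nat_lit 0) (nat_lit 0) (nat_lit 0) (nat_lit 0) (nat_lit 0) (nat_lit 1) (nat_lit 0) (nat_lit 1) (nat_lit 0) (nat_lit 484) (nat_lit 300) (nat_lit 296))) (XT.nd (nat_lit 94) (nat_lit 0) (nat_lit 0) (XT.lf (nat_lit 0) (nat_lit 16175949568195) (nat_lit 0) (nat_lit 0) (nat_lit 0) (nat_lit 0) (nat_lit 0) (nat_lit 0) (nat_lit 1) (nat_lit 0) (nat_lit 1) (nat_lit 0) (nat_lit 485) (nat_lit 300) (nat_lit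 295)) (XT.lf (nat_lit 0) (nat_lit 17470023573371) (nat_lit 0) (nat_lit 0) (nat_lit 0) (nat_lit 0) (nat_lit 0) (nat_lit 0) (nat_lit 1) (nat_lit 0) (nat_lit 1) (nat_lit 0) (nat_lit 486) (nat_lit 300) (nat_lit 294))))) (XT.nd (nat_lit 376) (nat_lit 0) (nat_lit 0) (XT.nd (nat_lit 188) (nat_lit 0) (nat_lit 0) (XT.nd (nat_lit 94) (nat_lit 0) (nat_lit 0) (XT.lf (nat_lit 0) (nat_lit 18867623581327) (nat_lit 0) (nat_lit 0) (nat_lit 0) (nat_lit 0) (nat_lit 0) (nat_lit 0) (nat_lit 1) (nat_lit 0) (nat_lit 1) (nat_lit 0) (nat_lit 487) (nat_lit 300) (nat_lit 293)) (XT.lf (nat_lit 0) (nat_lit 20377031666186) (nat_lit 0) (nat_lit 0) (nat_lit 0) (nat_lit 0) (nat_lit 0) (nat_lit 0) (nat_lit 1) (nat_lit 0) (nat_lit 1) (nat_lit 0) (nat_lit 488) (nat_lit 300) (nat_lit 292))) (XT.nd (nat_lit 94) (nat_lit 0) (nat_lit 0) (XT.lf (nat_lit 0) (nat_lit 22007192468450) (nat_lit 0) (nat_lit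 0) (nat_lit 0) (nat_lit 0) (nat_lit 0) (nat_lit 0) (nat_lit 1) (nat_lit 0) (nat_lit 1) (nat_lit 0) (nat_lit 489) (nat_lit 300) (nat_lit 291)) (XT.lf (nat_lit 0) (nat_lit 23767766200280) (nat_lit 0) (nat_lit 0) (nat_lit 0) (nat_lit 0) (nat_lit 0) (nat_lit 0) (nat_lit 1) (nat_lit 0) (nat_lit 1) (nat_lit 0) (nat_lit 490) (nat_lit 300) (nat_lit 290)))) (XT.nd (nat_lit 188) (nat_lit 0) (nat_lit 0) (XT.nd (nat_lit 94) (nat_lit 0) (nat_lit 0) (XT.lf (nat_lit 0) (nat_lit 25669185891198) (nat_lit 0) (nat_lit 0) (nat_lit 0) (nat_lit 0) (nat_lit 0) (nat_lit 0) (nat_lit 1) (nat_lit 0) (nat_lit 1) (nat_lit 0) (nat_lit 491) (nat_lit 300) (nat_lit 289)) (XT.lf (nat_lit 0) (nat_lit 27722719213448) (nat_lit 0) (nat_lit 0) (nat_lit 0) (nat_lit 0) (nat_lit 0) (nat_lit 0) (nat_lit 1) (nat_lit 0) (nat_lit 1) (nat_lit 0) (nat_lit 492) (nat_lit 300) (nat_lit 288))) (XT.nd (nat_lit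 94) (nat_lit 0) (nat_lit 0) (XT.lf (nat_lit 0) (nat_lit 29940535253382) (nat_lit 0) (nat_lit 0) (nat_lit 0) (nat_lit 0) (nat_lit 0) (nat_lit 0) (nat_lit 1) (nat_lit 0) (nat_lit 1) (nat_lit 0) (nat_lit 493) (nat_lit 300) (nat_lit 287)) (XT.lf (nat_lit 0) (nat_lit 32335776624571) (nat_lit 0) (nat_lit 0) (nat_lit 0) (nat_lit 0) (nat_lit 0) (nat_lit 0) (nat_lit 1) (nat_lit 0) (nat_lit 1) (nat_lit 0) (nat_lit 494) (nat_lit 300) (nat_lit 286))))))))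
noncomputable def xc3 : XT := (XT.nd (nat_lit 67774) (nat_lit 0) (nat_lit 0) (XT.nd (nat_lit 66458) (nat_lit 0) (nat_lit 0) (XT.nd (nat_lit 658) (nat_lit 0) (nat_lit 0) (XT.nd (nat_lit 282) (nat_lit 0) (nat_lit 0) (XT.nd (nat_lit 94) (nat_lit 0) (nat_lit 0) (XT.lf (nat_lit 0) (nat_lit 34922637349955) (nat_lit 0) (nat_lit 0) (nat_lit 0) (nat_lit 0) (nat_lit 0) (nat_lit 0) (nat_lit 1) (nat_lit 0) (nat_lit 1) (nat_lit 0) (nat_lit 495) (nat_lit 300) (nat_lit 285)) (XT.nd (nat_lit 94) (nat_lit 0) (nat_lit 0) (XT.lf (nat_lit 0) (nat_lit 37716446974574) (nat_lit 0) (nat_lit 0) (nat_lit 0) (nat_lit 0) (nat_lit 0) (nat_lit 0) (nat_lit 1) (nat_lit 0) (nat_lit 1) (nat_lit 0) (nat_lit 496) (nat_lit 300) (nat_lit 284)) (XT.lf (nat_lit 0) (nat_lit 40733761407314) (nat_lit 0) (nat_lit 0) (nat_lit 0) (nat_lit 0) (nat_lit 0) (nat_lit 0) (nat_lit 1) (nat_lit 0) (nat_lit 1)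 (nat_lit 0) (nat_lit 497) (nat_lit 300) (nat_lit 283)))) (XT.nd (nat_lit 188) (nat_lit 0) (nat_lit 0) (XT.nd (nat_lit 94) (nat_lit 0) (nat_lit 0) (XT.lf (nat_lit 0) (nat_lit 43992461029999) (nat_lit 0) (nat_lit 0) (nat_lit 0) (nat_lit 0) (nat_lit 0) (nat_lit 0) (nat_lit 1) (nat_lit 0) (nat_lit 1) (nat_lit 0) (nat_lit 498) (nat_lit 300) (nat_lit 282)) (XT.lf (nat_lit 0) (nat_lit 47511856655208) (nat_lit 0) (nat_lit 0) (nat_lit 0) (nat_lit 0) (nat_lit 0) (nat_lit 0) (nat_lit 1) (nat_lit 0) (nat_lit 1) (nat_lit 0) (nat_lit 499) (nat_lit 300) (nat_lit 281))) (XT.nd (nat_lit 94) (nat_lit 0) (nat_lit 0) (XT.lf (nat_lit 0) (nat_lit 51312803960720) (nat_lit 0) (nat_lit 0) (nat_lit 0) (nat_lit 0) (nat_lit 0) (nat_lit 0) (nat_lit 1) (nat_lit 0) (nat_lit 1) (nat_lit 0) (nat_lit 500) (nat_lit 300) (nat_lit 280)) (XT.lf (nat_lit 0) (nat_lit 55417827078715) (nat_lit 0)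 (nat_lit 0) (nat_lit 0) (nat_lit 0) (nat_lit 0) (nat_lit 0) (nat_lit 1) (nat_lit 0) (nat_lit 1) (nat_lit 0) (nat_lit 501) (nat_lit 300) (nat_lit 279))))) (XT.nd (nat_lit 282) (nat_lit 0) (nat_lit 0) (XT.nd (nat_lit 94) (nat_lit 0) (nat_lit 0) (XT.lf (nat_lit 0) (nat_lit 59851252072115) (nat_lit 0) (nat_lit 0) (nat_lit 0) (nat_lit 0) (nat_lit 0) (nat_lit 0) (nat_lit 1) (nat_lit 0) (nat_lit 1) (nat_lit 0) (nat_lit 502) (nat_lit 300) (nat_lit 278)) (XT.nd (nat_lit 94) (nat_lit 0) (nat_lit 0) (XT.lf (nat_lit 0) (nat_lit 64639351089029) (nat_lit 0) (nat_lit 0) (nat_lit 0) (nat_lit 0) (nat_lit 0) (nat_lit 0) (nat_lit 1) (nat_lit 0) (nat_lit 1) (nat_lit 0) (nat_lit 503) (nat_lit 300) (nat_lit 277)) (XT.lf (nat_lit 0) (nat_lit 69810498049558) (nat_lit 0) (nat_lit 0) (nat_lit 0) (nat_lit 0) (nat_lit 0) (nat_lit 0) (nat_lit 1) (nat_lit 0) (nat_lit 1) (nat_lit 0) (nat_lit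 504) (nat_lit 300) (nat_lit 276)))) (XT.nd (nat_lit 65330) (nat_lit 0) (nat_lit 0) (XT.nd (nat_lit 65236) (nat_lit 0) (nat_lit 0) (XT.lf (nat_lit 0) (nat_lit 75395336787541) (nat_lit 0) (nat_lit 0) (nat_lit 0) (nat_lit 0) (nat_lit 0) (nat_lit 0) (nat_lit 1) (nat_lit 0) (nat_lit 1) (nat_lit 0) (nat_lit 505) (nat_lit 300) (nat_lit 275)) (XT.lf (nat_lit 0) (nat_lit 4719261856869) (nat_lit 0) (nat_lit 0) (nat_lit 0) (nat_lit 0) (nat_lit 0) (nat_lit 0) (nat_lit 1) (nat_lit 0) (nat_lit 1) (nat_lit 0) (nat_lit 478) (nat_lit 301) (nat_lit 301))) (XT.nd (nat_lit 94) (nat_lit 0) (nat_lit 0) (XT.lf (nat_lit 0) (nat_lit 10193602930117) (nat_lit 0) (nat_lit 0) (nat_lit 0) (nat_lit 0) (nat_lit 0) (nat_lit 0) (nat_lit 1) (nat_lit 0) (nat_lit 1) (nat_lit 0) (nat_lit 479) (nat_lit 301) (nat_lit 300)) (XT.lf (nat_lit 0) (nat_lit 11009088614511) (nat_lit 0) (nat_lit 0) (nat_lit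 0) (nat_lit 0) (nat_lit 0) (nat_lit 0) (nat_lit 1) (nat_lit 0) (nat_lit 1) (nat_lit 0) (nat_lit 480) (nat_lit 301) (nat_lit 299)))))) (XT.nd (nat_lit 658) (nat_lit 0) (nat_lit 0) (XT.nd (nat_lit 282) (nat_lit 0) (nat_lit 0) (XT.nd (nat_lit 94) (nat_lit 0) (nat_lit 0) (XT.lf (nat_lit 0) (nat_lit 11889813274680) (nat_lit 0) (nat_lit 0) (nat_lit 0) (nat_lit 0) (nat_lit 0) (nat_lit 0) (nat_lit 1) (nat_lit 0) (nat_lit 1) (nat_lit 0) (nat_lit 481) (nat_lit 301) (nat_lit 298)) (XT.nd (nat_lit 94) (nat_lit 0) (nat_lit 0) (XT.lf (nat_lit 0) (nat_lit 12840996019721) (nat_lit 0) (nat_lit 0) (nat_lit 0) (nat_lit 0) (nat_lit 0) (nat_lit 0) (nat_lit 1) (nat_lit 0) (nat_lit 1) (nat_lit 0) (nat_lit 482) (nat_lit 301) (nat_lit 297)) (XT.lf (nat_lit 0) (nat_lit 13868273488125) (nat_lit 0) (nat_lit 0) (nat_lit 0) (nat_lit 0) (nat_lit 0) (nat_lit 0) (nat_lit 1) (nat_lit 0) (nat_lit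 1) (nat_lit 0) (nat_lit 483) (nat_lit 301) (nat_lit 296)))) (XT.nd (nat_lit 188) (nat_lit 0) (nat_lit 0) (XT.nd (nat_lit 94) (nat_lit 0) (nat_lit 0) (XT.lf (nat_lit 0) (nat_lit 14977733250073) (nat_lit 0) (nat_lit 0) (nat_lit 0) (nat_lit 0) (nat_lit 0) (nat_lit 0) (nat_lit 1) (nat_lit 0) (nat_lit 1) (nat_lit 0) (nat_lit 484) (nat_lit 301) (nat_lit 295)) (XT.lf (nat_lit 0) (nat_lit 16175949881933) (nat_lit 0) (nat_lit 0) (nat_lit 0) (nat_lit 0) (nat_lit 0) (nat_lit 0) (nat_lit 1) (nat_lit 0) (nat_lit 1) (nat_lit 0) (nat_lit 485) (nat_lit 301) (nat_lit 294))) (XT.nd (nat_lit 94) (nat_lit 0) (nat_lit 0) (XT.lf (nat_lit 0) (nat_lit 17470023926708) (nat_lit 0) (nat_lit 0) (nat_lit 0) (nat_lit 0) (nat_lit 0) (nat_lit 0) (nat_lit 1) (nat_lit 0) (nat_lit 1) (nat_lit 0) (nat_lit 486) (nat_lit 301) (nat_lit 293)) (XT.lf (nat_lit 0) (nat_lit 18867623971331) (nat_lit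 0) (nat_lit 0) (nat_lit 0) (nat_lit 0) (nat_lit 0) (nat_lit 0) (nat_lit 1) (nat_lit 0) (nat_lit 1) (nat_lit 0) (nat_lit 487) (nat_lit 301) (nat_lit 292))))) (XT.nd (nat_lit 282) (nat_lit 0) (nat_lit 0) (XT.nd (nat_lit 94) (nat_lit 0) (nat_lit 0) (XT.lf (nat_lit 0) (nat_lit 20377032090140) (nat_lit 0) (nat_lit 0) (nat_lit 0) (nat_lit 0) (nat_lit 0) (nat_lit 0) (nat_lit 1) (nat_lit 0) (nat_lit 1) (nat_lit 0) (nat_lit 488) (nat_lit 301) (nat_lit 291)) (XT.nd (nat_lit 94) (nat_lit 0) (nat_lit 0) (XT.lf (nat_lit 0) (nat_lit 22007192923839) (nat_lit 0) (nat_lit 0) (nat_lit 0) (nat_lit 0) (nat_lit 0) (nat_lit 0) (nat_lit 1) (nat_lit 0) (nat_lit 1) (nat_lit 0) (nat_lit 489) (nat_lit 301) (nat_lit 290)) (XT.lf (nat_lit 0) (nat_lit 23767766684775) (nat_lit 0) (nat_lit 0) (nat_lit 0) (nat_lit 0) (nat_lit 0) (nat_lit 0) (nat_lit 1) (nat_lit 0) (nat_lit 1) (nat_lit 0)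 (nat_lit 490) (nat_lit 301) (nat_lit 289)))) (XT.nd (nat_lit 188) (nat_lit 0) (nat_lit 0) (XT.nd (nat_lit 94) (nat_lit 0) (nat_lit 0) (XT.lf (nat_lit 0) (nat_lit 25669186402644) (nat_lit 0) (nat_lit 0) (nat_lit 0) (nat_lit 0) (nat_lit 0) (nat_lit 0) (nat_lit 1) (nat_lit 0) (nat_lit 1) (nat_lit 0) (nat_lit 491) (nat_lit 301) (nat_lit 288)) (XT.lf (nat_lit 0) (nat_lit 27722719749848) (nat_lit 0) (nat_lit 0) (nat_lit 0) (nat_lit 0) (nat_lit 0) (nat_lit 0) (nat_lit 1) (nat_lit 0) (nat_lit 1) (nat_lit 0) (nat_lit 492) (nat_lit 301) (nat_lit 287))) (XT.nd (nat_lit 94) (nat_lit 0) (nat_lit 0) (XT.lf (nat_lit 0) (nat_lit 29940535812888) (nat_lit 0) (nat_lit 0) (nat_lit 0) (nat_lit 0) (nat_lit 0) (nat_lit 0) (nat_lit 1) (nat_lit 0) (nat_lit 1) (nat_lit 0) (nat_lit 493) (nat_lit 301) (nat_lit 286)) (XT.lf (nat_lit 0) (nat_lit 32335777205471) (nat_lit 0) (nat_lit 0)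 (nat_lit 0) (nat_lit 0) (nat_lit 0) (nat_lit 0) (nat_lit 1) (nat_lit 0) (nat_lit 1) (nat_lit 0) (nat_lit 494) (nat_lit 301) (nat_lit 285))))))) (XT.nd (nat_lit 66364) (nat_lit 0) (nat_lit 0) (XT.nd (nat_lit 658) (nat_lit 0) (nat_lit 0) (XT.nd (nat_lit 282) (nat_lit 0) (nat_lit 0) (XT.nd (nat_lit 94) (nat_lit 0) (nat_lit 0) (XT.lf (nat_lit 0) (nat_lit 34922637950665) (nat_lit 0) (nat_lit 0) (nat_lit 0) (nat_lit 0) (nat_lit 0) (nat_lit 0) (nat_lit 1) (nat_lit 0) (nat_lit 1) (nat_lit 0) (nat_lit 495) (nat_lit 301) (nat_lit 284)) (XT.nd (nat_lit 94) (nat_lit 0) (nat_lit 0) (XT.lf (nat_lit 0) (nat_lit 37716447593626) (nat_lit 0) (nat_lit 0) (nat_lit 0) (nat_lit 0) (nat_lit 0) (nat_lit 0) (nat_lit 1) (nat_lit 0) (nat_lit 1) (nat_lit 0) (nat_lit 496) (nat_lit 301) (nat_lit 283)) (XT.lf (nat_lit 0) (nat_lit 40733762043350) (nat_lit 0) (nat_lit 0) (nat_lit 0) (nat_lit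 0) (nat_lit 0) (nat_lit 0) (nat_lit 1) (nat_lit 0) (nat_lit 1) (nat_lit 0) (nat_lit 497) (nat_lit 301) (nat_lit 282)))) (XT.nd (nat_lit 188) (nat_lit 0) (nat_lit 0) (XT.nd (nat_lit 94) (nat_lit 0) (nat_lit 0) (XT.lf (nat_lit 0) (nat_lit 43992461681761) (nat_lit 0) (nat_lit 0) (nat_lit 0) (nat_lit 0) (nat_lit 0) (nat_lit 0) (nat_lit 1) (nat_lit 0) (nat_lit 1) (nat_lit 0) (nat_lit 498) (nat_lit 301) (nat_lit 281)) (XT.lf (nat_lit 0) (nat_lit 47511857321530) (nat_lit 0) (nat_lit 0) (nat_lit 0) (nat_lit 0) (nat_lit 0) (nat_lit 0) (nat_lit 1) (nat_lit 0) (nat_lit 1) (nat_lit 0) (nat_lit 499) (nat_lit 301) (nat_lit 280))) (XT.nd (nat_lit 94) (nat_lit 0) (nat_lit 0) (XT.lf (nat_lit 0) (nat_lit 51312804640524) (nat_lit 0) (nat_lit 0) (nat_lit 0) (nat_lit 0) (nat_lit 0) (nat_lit 0) (nat_lit 1) (nat_lit 0) (nat_lit 1) (nat_lit 0) (nat_lit 500) (nat_lit 301) (nat_lit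 279)) (XT.lf (nat_lit 0) (nat_lit 55417827771002) (nat_lit 0) (nat_lit 0) (nat_lit 0) (nat_lit 0) (nat_lit 0) (nat_lit 0) (nat_lit 1) (nat_lit 0) (nat_lit 1) (nat_lit 0) (nat_lit 501) (nat_lit 301) (nat_lit 278))))) (XT.nd (nat_lit 65330) (nat_lit 0) (nat_lit 0) (XT.nd (nat_lit 94) (nat_lit 0) (nat_lit 0) (XT.lf (nat_lit 0) (nat_lit 59851252775961) (nat_lit 0) (nat_lit 0) (nat_lit 0) (nat_lit 0) (nat_lit 0) (nat_lit 0) (nat_lit 1) (nat_lit 0) (nat_lit 1) (nat_lit 0) (nat_lit 502) (nat_lit 301) (nat_lit 277)) (XT.nd (nat_lit 94) (nat_lit 0) (nat_lit 0) (XT.lf (nat_lit 0) (nat_lit 64639351803578) (nat_lit 0) (nat_lit 0) (nat_lit 0) (nat_lit 0) (nat_lit 0) (nat_lit 0) (nat_lit 1) (nat_lit 0) (nat_lit 1) (nat_lit 0) (nat_lit 503) (nat_lit 301) (nat_lit 276)) (XT.lf (nat_lit 0) (nat_lit 69810498774016) (nat_lit 0) (nat_lit 0) (nat_lit 0) (nat_lit 0) (nat_lit 0)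 (nat_lit 0) (nat_lit 1) (nat_lit 0) (nat_lit 1) (nat_lit 0) (nat_lit 504) (nat_lit 301) (nat_lit 275)))) (XT.nd (nat_lit 188) (nat_lit 0) (nat_lit 0) (XT.nd (nat_lit 94) (nat_lit 0) (nat_lit 0) (XT.lf (nat_lit 0) (nat_lit 4046008943079) (nat_lit 0) (nat_lit 0) (nat_lit 0) (nat_lit 0) (nat_lit 0) (nat_lit 0) (nat_lit 1) (nat_lit 0) (nat_lit 1) (nat_lit 0) (nat_lit 476) (nat_lit 302) (nat_lit 302)) (XT.lf (nat_lit 0) (nat_lit 8739376421872) (nat_lit 0) (nat_lit 0) (nat_lit 0) (nat_lit 0) (nat_lit 0) (nat_lit 0) (nat_lit 1) (nat_lit 0) (nat_lit 1) (nat_lit 0) (nat_lit 477) (nat_lit 302) (nat_lit 301))) (XT.nd (nat_lit 94) (nat_lit 0) (nat_lit 0) (XT.lf (nat_lit 0) (nat_lit 9438523781605) (nat_lit 0) (nat_lit 0) (nat_lit 0) (nat_lit 0) (nat_lit 0) (nat_lit 0) (nat_lit 1) (nat_lit 0) (nat_lit 1) (nat_lit 0) (nat_lit 478) (nat_lit 302) (nat_lit 300)) (XT.lf (nat_lit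 0) (nat_lit 10193603060822) (nat_lit 0) (nat_lit 0) (nat_lit 0) (nat_lit 0) (nat_lit 0) (nat_lit 0) (nat_lit 1) (nat_lit 0) (nat_lit 1) (nat_lit 0) (nat_lit 479) (nat_lit 302) (nat_lit 299)))))) (XT.nd (nat_lit 658) (nat_lit 0) (nat_lit 0) (XT.nd (nat_lit 282) (nat_lit 0) (nat_lit 0) (XT.nd (nat_lit 94) (nat_lit 0) (nat_lit 0) (XT.lf (nat_lit 0) (nat_lit 11009088803401) (nat_lit 0) (nat_lit 0) (nat_lit 0) (nat_lit 0) (nat_lit 0) (nat_lit 0) (nat_lit 1) (nat_lit 0) (nat_lit 1) (nat_lit 0) (nat_lit 480) (nat_lit 302) (nat_lit 298)) (XT.nd (nat_lit 94) (nat_lit 0) (nat_lit 0) (XT.lf (nat_lit 0) (nat_lit 11889813517444) (nat_lit 0) (nat_lit 0) (nat_lit 0) (nat_lit 0) (nat_lit 0) (nat_lit 0) (nat_lit 1) (nat_lit 0) (nat_lit 1) (nat_lit 0) (nat_lit 481) (nat_lit 302) (nat_lit 297)) (XT.lf (nat_lit 0) (nat_lit 12840996312370) (nat_lit 0) (nat_lit 0) (nat_lit 0) (nat_lit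 0) (nat_lit 0) (nat_lit 0) (nat_lit 1) (nat_lit 0) (nat_lit 1) (nat_lit 0) (nat_lit 482) (nat_lit 302) (nat_lit 296)))) (XT.nd (nat_lit 188) (nat_lit 0) (nat_lit 0) (XT.nd (nat_lit 94) (nat_lit 0) (nat_lit 0) (XT.lf (nat_lit 0) (nat_lit 13868273826962) (nat_lit 0) (nat_lit 0) (nat_lit 0) (nat_lit 0) (nat_lit 0) (nat_lit 0) (nat_lit 1) (nat_lit 0) (nat_lit 1) (nat_lit 0) (nat_lit 483) (nat_lit 302) (nat_lit 295)) (XT.lf (nat_lit 0) (nat_lit 14977733631677) (nat_lit 0) (nat_lit 0) (nat_lit 0) (nat_lit 0) (nat_lit 0) (nat_lit 0) (nat_lit 1) (nat_lit 0) (nat_lit 1) (nat_lit 0) (nat_lit 484) (nat_lit 302) (nat_lit 294))) (XT.nd (nat_lit 94) (nat_lit 0) (nat_lit 0) (XT.lf (nat_lit 0) (nat_lit 16175950303136) (nat_lit 0) (nat_lit 0) (nat_lit 0) (nat_lit 0) (nat_lit 0) (nat_lit 0) (nat_lit 1) (nat_lit 0) (nat_lit 1) (nat_lit 0) (nat_lit 485) (nat_lit 302) (nat_lit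 293)) (XT.lf (nat_lit 0) (nat_lit 17470024384578) (nat_lit 0) (nat_lit 0) (nat_lit 0) (nat_lit 0) (nat_lit 0) (nat_lit 0) (nat_lit 1) (nat_lit 0) (nat_lit 1) (nat_lit 0) (nat_lit 486) (nat_lit 302) (nat_lit 292))))) (XT.nd (nat_lit 376) (nat_lit 0) (nat_lit 0) (XT.nd (nat_lit 188) (nat_lit 0) (nat_lit 0) (XT.nd (nat_lit 94) (nat_lit 0) (nat_lit 0) (XT.lf (nat_lit 0) (nat_lit 18867624463151) (nat_lit 0) (nat_lit 0) (nat_lit 0) (nat_lit 0) (nat_lit 0) (nat_lit 0) (nat_lit 1) (nat_lit 0) (nat_lit 1) (nat_lit 0) (nat_lit 487) (nat_lit 302) (nat_lit 291)) (XT.lf (nat_lit 0) (nat_lit 20377032613395) (nat_lit 0) (nat_lit 0) (nat_lit 0) (nat_lit 0) (nat_lit 0) (nat_lit 0) (nat_lit 1) (nat_lit 0) (nat_lit 1) (nat_lit 0) (nat_lit 488) (nat_lit 302) (nat_lit 290))) (XT.nd (nat_lit 94) (nat_lit 0) (nat_lit 0) (XT.lf (nat_lit 0) (nat_lit 22007193476200) (nat_lit 0) (nat_lit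 0) (nat_lit 0) (nat_lit 0) (nat_lit 0) (nat_lit 0) (nat_lit 1) (nat_lit 0) (nat_lit 1) (nat_lit 0) (nat_lit 489) (nat_lit 302) (nat_lit 289)) (XT.lf (nat_lit 0) (nat_lit 23767767264088) (nat_lit 0) (nat_lit 0) (nat_lit 0) (nat_lit 0) (nat_lit 0) (nat_lit 0) (nat_lit 1) (nat_lit 0) (nat_lit 1) (nat_lit 0) (nat_lit 490) (nat_lit 302) (nat_lit 288)))) (XT.nd (nat_lit 188) (nat_lit 0) (nat_lit 0) (XT.nd (nat_lit 94) (nat_lit 0) (nat_lit 0) (XT.lf (nat_lit 0) (nat_lit 25669187006911) (nat_lit 0) (nat_lit 0) (nat_lit 0) (nat_lit 0) (nat_lit 0) (nat_lit 0) (nat_lit 1) (nat_lit 0) (nat_lit 1) (nat_lit 0) (nat_lit 491) (nat_lit 302) (nat_lit 287)) (XT.lf (nat_lit 0) (nat_lit 27722720377221) (nat_lit 0) (nat_lit 0) (nat_lit 0) (nat_lit 0) (nat_lit 0) (nat_lit 0) (nat_lit 1) (nat_lit 0) (nat_lit 1) (nat_lit 0) (nat_lit 492) (nat_lit 302) (nat_lit 286))) (XT.nd (nat_lit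 94) (nat_lit 0) (nat_lit 0) (XT.lf (nat_lit 0) (nat_lit 29940536461655) (nat_lit 0) (nat_lit 0) (nat_lit 0) (nat_lit 0) (nat_lit 0) (nat_lit 0) (nat_lit 1) (nat_lit 0) (nat_lit 1) (nat_lit 0) (nat_lit 493) (nat_lit 302) (nat_lit 285)) (XT.lf (nat_lit 0) (nat_lit 32335777874048) (nat_lit 0) (nat_lit 0) (nat_lit 0) (nat_lit 0) (nat_lit 0) (nat_lit 0) (nat_lit 1) (nat_lit 0) (nat_lit 1) (nat_lit 0) (nat_lit 494) (nat_lit 302) (nat_lit 284))))))))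
noncomputable def xc4 : XT := (XT.nd (nat_lit 67492) (nat_lit 0) (nat_lit 0) (XT.nd (nat_lit 66176) (nat_lit 0) (nat_lit 0) (XT.nd (nat_lit 658) (nat_lit 0) (nat_lit 0) (XT.nd (nat_lit 282) (nat_lit 0) (nat_lit 0) (XT.nd (nat_lit 94) (nat_lit 0) (nat_lit 0) (XT.lf (nat_lit 0) (nat_lit 34922638637584) (nat_lit 0) (nat_lit 0) (nat_lit 0) (nat_lit 0) (nat_lit 0) (nat_lit 0) (nat_lit 1) (nat_lit 0) (nat_lit 1) (nat_lit 0) (nat_lit 495) (nat_lit 302) (nat_lit 283)) (XT.nd (nat_lit 94) (nat_lit 0) (nat_lit 0) (XT.lf (nat_lit 0) (nat_lit 37716448297529) (nat_lit 0) (nat_lit 0) (nat_lit 0) (nat_lit 0) (nat_lit 0) (nat_lit 0) (nat_lit 1) (nat_lit 0) (nat_lit 1) (nat_lit 0) (nat_lit 496) (nat_lit 302) (nat_lit 282)) (XT.lf (nat_lit 0) (nat_lit 40733762762978) (nat_lit 0) (nat_lit 0) (nat_lit 0) (nat_lit 0) (nat_lit 0) (nat_lit 0) (nat_lit 1) (nat_lit 0) (nat_lit 1)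 (nat_lit 0) (nat_lit 497) (nat_lit 302) (nat_lit 281)))) (XT.nd (nat_lit 188) (nat_lit 0) (nat_lit 0) (XT.nd (nat_lit 94) (nat_lit 0) (nat_lit 0) (XT.lf (nat_lit 0) (nat_lit 43992462415949) (nat_lit 0) (nat_lit 0) (nat_lit 0) (nat_lit 0) (nat_lit 0) (nat_lit 0) (nat_lit 1) (nat_lit 0) (nat_lit 1) (nat_lit 0) (nat_lit 498) (nat_lit 302) (nat_lit 280)) (XT.lf (nat_lit 0) (nat_lit 47511858069200) (nat_lit 0) (nat_lit 0) (nat_lit 0) (nat_lit 0) (nat_lit 0) (nat_lit 0) (nat_lit 1) (nat_lit 0) (nat_lit 1) (nat_lit 0) (nat_lit 499) (nat_lit 302) (nat_lit 279))) (XT.nd (nat_lit 94) (nat_lit 0) (nat_lit 0) (XT.lf (nat_lit 0) (nat_lit 51312805400677) (nat_lit 0) (nat_lit 0) (nat_lit 0) (nat_lit 0) (nat_lit 0) (nat_lit 0) (nat_lit 1) (nat_lit 0) (nat_lit 1) (nat_lit 0) (nat_lit 500) (nat_lit 302) (nat_lit 278)) (XT.lf (nat_lit 0) (nat_lit 55417828542714) (nat_lit 0)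 (nat_lit 0) (nat_lit 0) (nat_lit 0) (nat_lit 0) (nat_lit 0) (nat_lit 1) (nat_lit 0) (nat_lit 1) (nat_lit 0) (nat_lit 501) (nat_lit 302) (nat_lit 277))))) (XT.nd (nat_lit 65142) (nat_lit 0) (nat_lit 0) (XT.nd (nat_lit 94) (nat_lit 0) (nat_lit 0) (XT.lf (nat_lit 0) (nat_lit 59851253558376) (nat_lit 0) (nat_lit 0) (nat_lit 0) (nat_lit 0) (nat_lit 0) (nat_lit 0) (nat_lit 1) (nat_lit 0) (nat_lit 1) (nat_lit 0) (nat_lit 502) (nat_lit 302) (nat_lit 276)) (XT.nd (nat_lit 94) (nat_lit 0) (nat_lit 0) (XT.lf (nat_lit 0) (nat_lit 64639352595902) (nat_lit 0) (nat_lit 0) (nat_lit 0) (nat_lit 0) (nat_lit 0) (nat_lit 0) (nat_lit 1) (nat_lit 0) (nat_lit 1) (nat_lit 0) (nat_lit 503) (nat_lit 302) (nat_lit 275)) (XT.lf (nat_lit 0) (nat_lit 69810499575516) (nat_lit 0) (nat_lit 0) (nat_lit 0) (nat_lit 0) (nat_lit 0) (nat_lit 0) (nat_lit 1) (nat_lit 0) (nat_lit 1) (nat_lit 0) (nat_lit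 504) (nat_lit 302) (nat_lit 274)))) (XT.nd (nat_lit 188) (nat_lit 0) (nat_lit 0) (XT.nd (nat_lit 94) (nat_lit 0) (nat_lit 0) (XT.lf (nat_lit 0) (nat_lit 3468803288206) (nat_lit 0) (nat_lit 0) (nat_lit 0) (nat_lit 0) (nat_lit 0) (nat_lit 0) (nat_lit 1) (nat_lit 0) (nat_lit 1) (nat_lit 0) (nat_lit 474) (nat_lit 303) (nat_lit 303)) (XT.lf (nat_lit 0) (nat_lit 7492611975733) (nat_lit 0) (nat_lit 0) (nat_lit 0) (nat_lit 0) (nat_lit 0) (nat_lit 0) (nat_lit 1) (nat_lit 0) (nat_lit 1) (nat_lit 0) (nat_lit 475) (nat_lit 303) (nat_lit 302))) (XT.nd (nat_lit 94) (nat_lit 0) (nat_lit 0) (XT.lf (nat_lit 0) (nat_lit 8092017959453) (nat_lit 0) (nat_lit 0) (nat_lit 0) (nat_lit 0) (nat_lit 0) (nat_lit 0) (nat_lit 1) (nat_lit 0) (nat_lit 1) (nat_lit 0) (nat_lit 476) (nat_lit 303) (nat_lit 301)) (XT.lf (nat_lit 0) (nat_lit 8739376563034) (nat_lit 0) (nat_lit 0) (nat_lit 0) (nat_lit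 0) (nat_lit 0) (nat_lit 0) (nat_lit 1) (nat_lit 0) (nat_lit 1) (nat_lit 0) (nat_lit 477) (nat_lit 303) (nat_lit 300)))))) (XT.nd (nat_lit 658) (nat_lit 0) (nat_lit 0) (XT.nd (nat_lit 282) (nat_lit 0) (nat_lit 0) (XT.nd (nat_lit 94) (nat_lit 0) (nat_lit 0) (XT.lf (nat_lit 0) (nat_lit 9438523985606) (nat_lit 0) (nat_lit 0) (nat_lit 0) (nat_lit 0) (nat_lit 0) (nat_lit 0) (nat_lit 1) (nat_lit 0) (nat_lit 1) (nat_lit 0) (nat_lit 478) (nat_lit 303) (nat_lit 299)) (XT.nd (nat_lit 94) (nat_lit 0) (nat_lit 0) (XT.lf (nat_lit 0) (nat_lit 10193603323008) (nat_lit 0) (nat_lit 0) (nat_lit 0) (nat_lit 0) (nat_lit 0) (nat_lit 0) (nat_lit 1) (nat_lit 0) (nat_lit 1) (nat_lit 0) (nat_lit 479) (nat_lit 303) (nat_lit 298)) (XT.lf (nat_lit 0) (nat_lit 11009089119461) (nat_lit 0) (nat_lit 0) (nat_lit 0) (nat_lit 0) (nat_lit 0) (nat_lit 0) (nat_lit 1) (nat_lit 0) (nat_lit 1) (nat_lit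 0) (nat_lit 480) (nat_lit 303) (nat_lit 297)))) (XT.nd (nat_lit 188) (nat_lit 0) (nat_lit 0) (XT.nd (nat_lit 94) (nat_lit 0) (nat_lit 0) (XT.lf (nat_lit 0) (nat_lit 11889813883388) (nat_lit 0) (nat_lit 0) (nat_lit 0) (nat_lit 0) (nat_lit 0) (nat_lit 0) (nat_lit 1) (nat_lit 0) (nat_lit 1) (nat_lit 0) (nat_lit 481) (nat_lit 303) (nat_lit 296)) (XT.lf (nat_lit 0) (nat_lit 12840996724502) (nat_lit 0) (nat_lit 0) (nat_lit 0) (nat_lit 0) (nat_lit 0) (nat_lit 0) (nat_lit 1) (nat_lit 0) (nat_lit 1) (nat_lit 0) (nat_lit 482) (nat_lit 303) (nat_lit 295))) (XT.nd (nat_lit 94) (nat_lit 0) (nat_lit 0) (XT.lf (nat_lit 0) (nat_lit 13868274281862) (nat_lit 0) (nat_lit 0) (nat_lit 0) (nat_lit 0) (nat_lit 0) (nat_lit 0) (nat_lit 1) (nat_lit 0) (nat_lit 1) (nat_lit 0) (nat_lit 483) (nat_lit 303) (nat_lit 294)) (XT.lf (nat_lit 0) (nat_lit 14977734126176) (nat_lit 0) (nat_lit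 0) (nat_lit 0) (nat_lit 0) (nat_lit 0) (nat_lit 0) (nat_lit 1) (nat_lit 0) (nat_lit 1) (nat_lit 0) (nat_lit 484) (nat_lit 303) (nat_lit 293))))) (XT.nd (nat_lit 282) (nat_lit 0) (nat_lit 0) (XT.nd (nat_lit 94) (nat_lit 0) (nat_lit 0) (XT.lf (nat_lit 0) (nat_lit 16175950834302) (nat_lit 0) (nat_lit 0) (nat_lit 0) (nat_lit 0) (nat_lit 0) (nat_lit 0) (nat_lit 1) (nat_lit 0) (nat_lit 1) (nat_lit 0) (nat_lit 485) (nat_lit 303) (nat_lit 292)) (XT.nd (nat_lit 94) (nat_lit 0) (nat_lit 0) (XT.lf (nat_lit 0) (nat_lit 17470024949693) (nat_lit 0) (nat_lit 0) (nat_lit 0) (nat_lit 0) (nat_lit 0) (nat_lit 0) (nat_lit 1) (nat_lit 0) (nat_lit 1) (nat_lit 0) (nat_lit 486) (nat_lit 303) (nat_lit 291)) (XT.lf (nat_lit 0) (nat_lit 18867625059702) (nat_lit 0) (nat_lit 0) (nat_lit 0) (nat_lit 0) (nat_lit 0) (nat_lit 0) (nat_lit 1) (nat_lit 0) (nat_lit 1) (nat_lit 0) (nat_lit 487)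 (nat_lit 303) (nat_lit 290)))) (XT.nd (nat_lit 188) (nat_lit 0) (nat_lit 0) (XT.nd (nat_lit 94) (nat_lit 0) (nat_lit 0) (XT.lf (nat_lit 0) (nat_lit 20377033239052) (nat_lit 0) (nat_lit 0) (nat_lit 0) (nat_lit 0) (nat_lit 0) (nat_lit 0) (nat_lit 1) (nat_lit 0) (nat_lit 1) (nat_lit 0) (nat_lit 488) (nat_lit 303) (nat_lit 289)) (XT.lf (nat_lit 0) (nat_lit 22007194128809) (nat_lit 0) (nat_lit 0) (nat_lit 0) (nat_lit 0) (nat_lit 0) (nat_lit 0) (nat_lit 1) (nat_lit 0) (nat_lit 1) (nat_lit 0) (nat_lit 489) (nat_lit 303) (nat_lit 288))) (XT.nd (nat_lit 94) (nat_lit 0) (nat_lit 0) (XT.lf (nat_lit 0) (nat_lit 23767767941650) (nat_lit 0) (nat_lit 0) (nat_lit 0) (nat_lit 0) (nat_lit 0) (nat_lit 0) (nat_lit 1) (nat_lit 0) (nat_lit 1) (nat_lit 0) (nat_lit 490) (nat_lit 303) (nat_lit 287)) (XT.lf (nat_lit 0) (nat_lit 25669187707580) (nat_lit 0) (nat_lit 0) (nat_lit 0) (nat_lit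 0) (nat_lit 0) (nat_lit 0) (nat_lit 1) (nat_lit 0) (nat_lit 1) (nat_lit 0) (nat_lit 491) (nat_lit 303) (nat_lit 286))))))) (XT.nd (nat_lit 65988) (nat_lit 0) (nat_lit 0) (XT.nd (nat_lit 658) (nat_lit 0) (nat_lit 0) (XT.nd (nat_lit 282) (nat_lit 0) (nat_lit 0) (XT.nd (nat_lit 94) (nat_lit 0) (nat_lit 0) (XT.lf (nat_lit 0) (nat_lit 27722721099283) (nat_lit 0) (nat_lit 0) (nat_lit 0) (nat_lit 0) (nat_lit 0) (nat_lit 0) (nat_lit 1) (nat_lit 0) (nat_lit 1) (nat_lit 0) (nat_lit 492) (nat_lit 303) (nat_lit 285)) (XT.nd (nat_lit 94) (nat_lit 0) (nat_lit 0) (XT.lf (nat_lit 0) (nat_lit 29940537203527) (nat_lit 0) (nat_lit 0) (nat_lit 0) (nat_lit 0) (nat_lit 0) (nat_lit 0) (nat_lit 1) (nat_lit 0) (nat_lit 1) (nat_lit 0) (nat_lit 493) (nat_lit 303) (nat_lit 284)) (XT.lf (nat_lit 0) (nat_lit 32335778634262) (nat_lit 0) (nat_lit 0) (nat_lit 0) (nat_lit 0) (nat_lit 0) (nat_lit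 0) (nat_lit 1) (nat_lit 0) (nat_lit 1) (nat_lit 0) (nat_lit 494) (nat_lit 303) (nat_lit 283)))) (XT.nd (nat_lit 188) (nat_lit 0) (nat_lit 0) (XT.nd (nat_lit 94) (nat_lit 0) (nat_lit 0) (XT.lf (nat_lit 0) (nat_lit 34922639414782) (nat_lit 0) (nat_lit 0) (nat_lit 0) (nat_lit 0) (nat_lit 0) (nat_lit 0) (nat_lit 1) (nat_lit 0) (nat_lit 1) (nat_lit 0) (nat_lit 495) (nat_lit 303) (nat_lit 282)) (XT.lf (nat_lit 0) (nat_lit 37716449090452) (nat_lit 0) (nat_lit 0) (nat_lit 0) (nat_lit 0) (nat_lit 0) (nat_lit 0) (nat_lit 1) (nat_lit 0) (nat_lit 1) (nat_lit 0) (nat_lit 496) (nat_lit 303) (nat_lit 281))) (XT.nd (nat_lit 94) (nat_lit 0) (nat_lit 0) (XT.lf (nat_lit 0) (nat_lit 40733763570462) (nat_lit 0) (nat_lit 0) (nat_lit 0) (nat_lit 0) (nat_lit 0) (nat_lit 0) (nat_lit 1) (nat_lit 0) (nat_lit 1) (nat_lit 0) (nat_lit 497) (nat_lit 303) (nat_lit 280)) (XT.lf (nat_lit 0)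 (nat_lit 43992463236915) (nat_lit 0) (nat_lit 0) (nat_lit 0) (nat_lit 0) (nat_lit 0) (nat_lit 0) (nat_lit 1) (nat_lit 0) (nat_lit 1) (nat_lit 0) (nat_lit 498) (nat_lit 303) (nat_lit 279))))) (XT.nd (nat_lit 282) (nat_lit 0) (nat_lit 0) (XT.nd (nat_lit 94) (nat_lit 0) (nat_lit 0) (XT.lf (nat_lit 0) (nat_lit 47511858902650) (nat_lit 0) (nat_lit 0) (nat_lit 0) (nat_lit 0) (nat_lit 0) (nat_lit 0) (nat_lit 1) (nat_lit 0) (nat_lit 1) (nat_lit 0) (nat_lit 499) (nat_lit 303) (nat_lit 278)) (XT.nd (nat_lit 94) (nat_lit 0) (nat_lit 0) (XT.lf (nat_lit 0) (nat_lit 51312806245685) (nat_lit 0) (nat_lit 0) (nat_lit 0) (nat_lit 0) (nat_lit 0) (nat_lit 0) (nat_lit 1) (nat_lit 0) (nat_lit 1) (nat_lit 0) (nat_lit 500) (nat_lit 303) (nat_lit 277)) (XT.lf (nat_lit 0) (nat_lit 55417829398425) (nat_lit 0) (nat_lit 0) (nat_lit 0) (nat_lit 0) (nat_lit 0) (nat_lit 0) (nat_lit 1) (nat_lit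 0) (nat_lit 1) (nat_lit 0) (nat_lit 501) (nat_lit 303) (nat_lit 276)))) (XT.nd (nat_lit 188) (nat_lit 0) (nat_lit 0) (XT.nd (nat_lit 94) (nat_lit 0) (nat_lit 0) (XT.lf (nat_lit 0) (nat_lit 59851254423996) (nat_lit 0) (nat_lit 0) (nat_lit 0) (nat_lit 0) (nat_lit 0) (nat_lit 0) (nat_lit 1) (nat_lit 0) (nat_lit 1) (nat_lit 0) (nat_lit 502) (nat_lit 303) (nat_lit 275)) (XT.lf (nat_lit 0) (nat_lit 64639353470698) (nat_lit 0) (nat_lit 0) (nat_lit 0) (nat_lit 0) (nat_lit 0) (nat_lit 0) (nat_lit 1) (nat_lit 0) (nat_lit 1) (nat_lit 0) (nat_lit 503) (nat_lit 303) (nat_lit 274))) (XT.nd (nat_lit 64766) (nat_lit 0) (nat_lit 0) (XT.lf (nat_lit 0) (nat_lit 69810500458808) (nat_lit 0) (nat_lit 0) (nat_lit 0) (nat_lit 0) (nat_lit 0) (nat_lit 0) (nat_lit 1) (nat_lit 0) (nat_lit 1) (nat_lit 0) (nat_lit 504) (nat_lit 303) (nat_lit 273)) (XT.lf (nat_lit 0) (nat_lit 2973942693307)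 (nat_lit 0) (nat_lit 0) (nat_lit 0) (nat_lit 0) (nat_lit 0) (nat_lit 0) (nat_lit 1) (nat_lit 0) (nat_lit 1) (nat_lit 0) (nat_lit 472) (nat_lit 304) (nat_lit 304)))))) (XT.nd (nat_lit 658) (nat_lit 0) (nat_lit 0) (XT.nd (nat_lit 282) (nat_lit 0) (nat_lit 0) (XT.nd (nat_lit 94) (nat_lit 0) (nat_lit 0) (XT.lf (nat_lit 0) (nat_lit 6423712840608) (nat_lit 0) (nat_lit 0) (nat_lit 0) (nat_lit 0) (nat_lit 0) (nat_lit 0) (nat_lit 1) (nat_lit 0) (nat_lit 1) (nat_lit 0) (nat_lit 473) (nat_lit 304) (nat_lit 303)) (XT.nd (nat_lit 94) (nat_lit 0) (nat_lit 0) (XT.lf (nat_lit 0) (nat_lit 6937606655572) (nat_lit 0) (nat_lit 0) (nat_lit 0) (nat_lit 0) (nat_lit 0) (nat_lit 0) (nat_lit 1) (nat_lit 0) (nat_lit 1) (nat_lit 0) (nat_lit 474) (nat_lit 304) (nat_lit 302)) (XT.lf (nat_lit 0) (nat_lit 7492612128188) (nat_lit 0) (nat_lit 0) (nat_lit 0) (nat_lit 0) (nat_lit 0) (nat_lit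 0) (nat_lit 1) (nat_lit 0) (nat_lit 1) (nat_lit 0) (nat_lit 475) (nat_lit 304) (nat_lit 301)))) (XT.nd (nat_lit 188) (nat_lit 0) (nat_lit 0) (XT.nd (nat_lit 94) (nat_lit 0) (nat_lit 0) (XT.lf (nat_lit 0) (nat_lit 8092018179775) (nat_lit 0) (nat_lit 0) (nat_lit 0) (nat_lit 0) (nat_lit 0) (nat_lit 0) (nat_lit 1) (nat_lit 0) (nat_lit 1) (nat_lit 0) (nat_lit 476) (nat_lit 304) (nat_lit 300)) (XT.lf (nat_lit 0) (nat_lit 8739376846194) (nat_lit 0) (nat_lit 0) (nat_lit 0) (nat_lit 0) (nat_lit 0) (nat_lit 0) (nat_lit 1) (nat_lit 0) (nat_lit 1) (nat_lit 0) (nat_lit 477) (nat_lit 304) (nat_lit 299))) (XT.nd (nat_lit 94) (nat_lit 0) (nat_lit 0) (XT.lf (nat_lit 0) (nat_lit 9438524326951) (nat_lit 0) (nat_lit 0) (nat_lit 0) (nat_lit 0) (nat_lit 0) (nat_lit 0) (nat_lit 1) (nat_lit 0) (nat_lit 1) (nat_lit 0) (nat_lit 478) (nat_lit 304) (nat_lit 298)) (XT.lf (nat_lit 0) (nat_lit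 10193603718227) (nat_lit 0) (nat_lit 0) (nat_lit 0) (nat_lit 0) (nat_lit 0) (nat_lit 0) (nat_lit 1) (nat_lit 0) (nat_lit 1) (nat_lit 0) (nat_lit 479) (nat_lit 304) (nat_lit 297))))) (XT.nd (nat_lit 282) (nat_lit 0) (nat_lit 0) (XT.nd (nat_lit 94) (nat_lit 0) (nat_lit 0) (XT.lf (nat_lit 0) (nat_lit 11009089564564) (nat_lit 0) (nat_lit 0) (nat_lit 0) (nat_lit 0) (nat_lit 0) (nat_lit 0) (nat_lit 1) (nat_lit 0) (nat_lit 1) (nat_lit 0) (nat_lit 480) (nat_lit 304) (nat_lit 296)) (XT.nd (nat_lit 94) (nat_lit 0) (nat_lit 0) (XT.lf (nat_lit 0) (nat_lit 11889814374680) (nat_lit 0) (nat_lit 0) (nat_lit 0) (nat_lit 0) (nat_lit 0) (nat_lit 0) (nat_lit 1) (nat_lit 0) (nat_lit 1) (nat_lit 0) (nat_lit 481) (nat_lit 304) (nat_lit 295)) (XT.lf (nat_lit 0) (nat_lit 12840997258562) (nat_lit 0) (nat_lit 0) (nat_lit 0) (nat_lit 0) (nat_lit 0) (nat_lit 0) (nat_lit 1) (nat_lit 0)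 (nat_lit 1) (nat_lit 0) (nat_lit 482) (nat_lit 304) (nat_lit 294)))) (XT.nd (nat_lit 188) (nat_lit 0) (nat_lit 0) (XT.nd (nat_lit 94) (nat_lit 0) (nat_lit 0) (XT.lf (nat_lit 0) (nat_lit 13868274855520) (nat_lit 0) (nat_lit 0) (nat_lit 0) (nat_lit 0) (nat_lit 0) (nat_lit 0) (nat_lit 1) (nat_lit 0) (nat_lit 1) (nat_lit 0) (nat_lit 483) (nat_lit 304) (nat_lit 293)) (XT.lf (nat_lit 0) (nat_lit 14977734736501) (nat_lit 0) (nat_lit 0) (nat_lit 0) (nat_lit 0) (nat_lit 0) (nat_lit 0) (nat_lit 1) (nat_lit 0) (nat_lit 1) (nat_lit 0) (nat_lit 484) (nat_lit 304) (nat_lit 292))) (XT.nd (nat_lit 94) (nat_lit 0) (nat_lit 0) (XT.lf (nat_lit 0) (nat_lit 16175951478577) (nat_lit 0) (nat_lit 0) (nat_lit 0) (nat_lit 0) (nat_lit 0) (nat_lit 0) (nat_lit 1) (nat_lit 0) (nat_lit 1) (nat_lit 0) (nat_lit 485) (nat_lit 304) (nat_lit 291)) (XT.lf (nat_lit 0) (nat_lit 17470025625403)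 (nat_lit 0) (nat_lit 0) (nat_lit 0) (nat_lit 0) (nat_lit 0) (nat_lit 0) (nat_lit 1) (nat_lit 0) (nat_lit 1) (nat_lit 0) (nat_lit 486) (nat_lit 304) (nat_lit 290))))))))
noncomputable def xc5 : XT := (XT.nd (nat_lit 67116) (nat_lit 0) (nat_lit 0) (XT.nd (nat_lit 1316) (nat_lit 0) (nat_lit 0) (XT.nd (nat_lit 658) (nat_lit 0) (nat_lit 0) (XT.nd (nat_lit 282) (nat_lit 0) (nat_lit 0) (XT.nd (nat_lit 94) (nat_lit 0) (nat_lit 0) (XT.lf (nat_lit 0) (nat_lit 18867625764518) (nat_lit 0) (nat_lit 0) (nat_lit 0) (nat_lit 0) (nat_lit 0) (nat_lit 0) (nat_lit 1) (nat_lit 0) (nat_lit 1) (nat_lit 0) (nat_lit 487) (nat_lit 304) (nat_lit 289)) (XT.nd (nat_lit 94) (nat_lit 0) (nat_lit 0) (XT.lf (nat_lit 0) (nat_lit 20377033970820) (nat_lit 0) (nat_lit 0) (nat_lit 0) (nat_lit 0) (nat_lit 0) (nat_lit 0) (nat_lit 1) (nat_lit 0) (nat_lit 1) (nat_lit 0) (nat_lit 488) (nat_lit 304)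 (nat_lit 288)) (XT.lf (nat_lit 0) (nat_lit 22007194885530) (nat_lit 0) (nat_lit 0) (nat_lit 0) (nat_lit 0) (nat_lit 0) (nat_lit 0) (nat_lit 1) (nat_lit 0) (nat_lit 1) (nat_lit 0) (nat_lit 489) (nat_lit 304) (nat_lit 287)))) (XT.nd (nat_lit 188) (nat_lit 0) (nat_lit 0) (XT.nd (nat_lit 94) (nat_lit 0) (nat_lit 0) (XT.lf (nat_lit 0) (nat_lit 23767768721478) (nat_lit 0) (nat_lit 0) (nat_lit 0) (nat_lit 0) (nat_lit 0) (nat_lit 0) (nat_lit 1) (nat_lit 0) (nat_lit 1) (nat_lit 0) (nat_lit 490) (nat_lit 304) (nat_lit 286)) (XT.lf (nat_lit 0) (nat_lit 25669188508801) (nat_lit 0) (nat_lit 0) (nat_lit 0) (nat_lit 0) (nat_lit 0) (nat_lit 0) (nat_lit 1) (nat_lit 0) (nat_lit 1) (nat_lit 0) (nat_lit 491) (nat_lit 304) (nat_lit 285))) (XT.nd (nat_lit 94) (nat_lit 0) (nat_lit 0) (XT.lf (nat_lit 0) (nat_lit 27722721920315) (nat_lit 0) (nat_lit 0) (nat_lit 0) (nat_lit 0) (nat_lit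 0) (nat_lit 0) (nat_lit 1) (nat_lit 0) (nat_lit 1) (nat_lit 0) (nat_lit 492) (nat_lit 304) (nat_lit 284)) (XT.lf (nat_lit 0) (nat_lit 29940538042901) (nat_lit 0) (nat_lit 0) (nat_lit 0) (nat_lit 0) (nat_lit 0) (nat_lit 0) (nat_lit 1) (nat_lit 0) (nat_lit 1) (nat_lit 0) (nat_lit 493) (nat_lit 304) (nat_lit 283))))) (XT.nd (nat_lit 282) (nat_lit 0) (nat_lit 0) (XT.nd (nat_lit 94) (nat_lit 0) (nat_lit 0) (XT.lf (nat_lit 0) (nat_lit 32335779490619) (nat_lit 0) (nat_lit 0) (nat_lit 0) (nat_lit 0) (nat_lit 0) (nat_lit 0) (nat_lit 1) (nat_lit 0) (nat_lit 1) (nat_lit 0) (nat_lit 494) (nat_lit 304) (nat_lit 282)) (XT.nd (nat_lit 94) (nat_lit 0) (nat_lit 0) (XT.lf (nat_lit 0) (nat_lit 34922640286864) (nat_lit 0) (nat_lit 0) (nat_lit 0) (nat_lit 0) (nat_lit 0) (nat_lit 0) (nat_lit 1) (nat_lit 0) (nat_lit 1) (nat_lit 0) (nat_lit 495) (nat_lit 304) (nat_lit 281)) (XT.lf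 (nat_lit 0) (nat_lit 37716449977095) (nat_lit 0) (nat_lit 0) (nat_lit 0) (nat_lit 0) (nat_lit 0) (nat_lit 0) (nat_lit 1) (nat_lit 0) (nat_lit 1) (nat_lit 0) (nat_lit 496) (nat_lit 304) (nat_lit 280)))) (XT.nd (nat_lit 188) (nat_lit 0) (nat_lit 0) (XT.nd (nat_lit 94) (nat_lit 0) (nat_lit 0) (XT.lf (nat_lit 0) (nat_lit 40733764470587) (nat_lit 0) (nat_lit 0) (nat_lit 0) (nat_lit 0) (nat_lit 0) (nat_lit 0) (nat_lit 1) (nat_lit 0) (nat_lit 1) (nat_lit 0) (nat_lit 497) (nat_lit 304) (nat_lit 279)) (XT.lf (nat_lit 0) (nat_lit 43992464149523) (nat_lit 0) (nat_lit 0) (nat_lit 0) (nat_lit 0) (nat_lit 0) (nat_lit 0) (nat_lit 1) (nat_lit 0) (nat_lit 1) (nat_lit 0) (nat_lit 498) (nat_lit 304) (nat_lit 278))) (XT.nd (nat_lit 94) (nat_lit 0) (nat_lit 0) (XT.lf (nat_lit 0) (nat_lit 47511859826817) (nat_lit 0) (nat_lit 0) (nat_lit 0) (nat_lit 0) (nat_lit 0) (nat_lit 0) (nat_lit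 1) (nat_lit 0) (nat_lit 1) (nat_lit 0) (nat_lit 499) (nat_lit 304) (nat_lit 277)) (XT.lf (nat_lit 0) (nat_lit 51312807180555) (nat_lit 0) (nat_lit 0) (nat_lit 0) (nat_lit 0) (nat_lit 0) (nat_lit 0) (nat_lit 1) (nat_lit 0) (nat_lit 1) (nat_lit 0) (nat_lit 500) (nat_lit 304) (nat_lit 276)))))) (XT.nd (nat_lit 65142) (nat_lit 0) (nat_lit 0) (XT.nd (nat_lit 282) (nat_lit 0) (nat_lit 0) (XT.nd (nat_lit 94) (nat_lit 0) (nat_lit 0) (XT.lf (nat_lit 0) (nat_lit 55417830343204) (nat_lit 0) (nat_lit 0) (nat_lit 0) (nat_lit 0) (nat_lit 0) (nat_lit 0) (nat_lit 1) (nat_lit 0) (nat_lit 1) (nat_lit 0) (nat_lit 501) (nat_lit 304) (nat_lit 275)) (XT.nd (nat_lit 94) (nat_lit 0) (nat_lit 0) (XT.lf (nat_lit 0) (nat_lit 59851255377951) (nat_lit 0) (nat_lit 0) (nat_lit 0) (nat_lit 0) (nat_lit 0) (nat_lit 0) (nat_lit 1) (nat_lit 0) (nat_lit 1) (nat_lit 0) (nat_lit 502) (nat_lit 304)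 (nat_lit 274)) (XT.lf (nat_lit 0) (nat_lit 64639354433149) (nat_lit 0) (nat_lit 0) (nat_lit 0) (nat_lit 0) (nat_lit 0) (nat_lit 0) (nat_lit 1) (nat_lit 0) (nat_lit 1) (nat_lit 0) (nat_lit 503) (nat_lit 304) (nat_lit 273)))) (XT.nd (nat_lit 64672) (nat_lit 0) (nat_lit 0) (XT.nd (nat_lit 64578) (nat_lit 0) (nat_lit 0) (XT.lf (nat_lit 0) (nat_lit 69810501429125) (nat_lit 0) (nat_lit 0) (nat_lit 0) (nat_lit 0) (nat_lit 0) (nat_lit 0) (nat_lit 1) (nat_lit 0) (nat_lit 1) (nat_lit 0) (nat_lit 504) (nat_lit 304) (nat_lit 272)) (XT.lf (nat_lit 0) (nat_lit 2549679732610) (nat_lit 0) (nat_lit 0) (nat_lit 0) (nat_lit 0) (nat_lit 0) (nat_lit 0) (nat_lit 1) (nat_lit 0) (nat_lit 1) (nat_lit 0) (nat_lit 470) (nat_lit 305) (nat_lit 305))) (XT.nd (nat_lit 94) (nat_lit 0) (nat_lit 0) (XT.lf (nat_lit 0) (nat_lit 5507304575347) (nat_lit 0) (nat_lit 0) (nat_lit 0) (nat_lit 0) (nat_lit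 0) (nat_lit 0) (nat_lit 1) (nat_lit 0) (nat_lit 1) (nat_lit 0) (nat_lit 471) (nat_lit 305) (nat_lit 304)) (XT.lf (nat_lit 0) (nat_lit 5947885472107) (nat_lit 0) (nat_lit 0) (nat_lit 0) (nat_lit 0) (nat_lit 0) (nat_lit 0) (nat_lit 1) (nat_lit 0) (nat_lit 1) (nat_lit 0) (nat_lit 472) (nat_lit 305) (nat_lit 303))))) (XT.nd (nat_lit 282) (nat_lit 0) (nat_lit 0) (XT.nd (nat_lit 94) (nat_lit 0) (nat_lit 0) (XT.lf (nat_lit 0) (nat_lit 6423713005259) (nat_lit 0) (nat_lit 0) (nat_lit 0) (nat_lit 0) (nat_lit 0) (nat_lit 0) (nat_lit 1) (nat_lit 0) (nat_lit 1) (nat_lit 0) (nat_lit 473) (nat_lit 305) (nat_lit 302)) (XT.nd (nat_lit 94) (nat_lit 0) (nat_lit 0) (XT.lf (nat_lit 0) (nat_lit 6937606893519) (nat_lit 0) (nat_lit 0) (nat_lit 0) (nat_lit 0) (nat_lit 0) (nat_lit 0) (nat_lit 1) (nat_lit 0) (nat_lit 1) (nat_lit 0) (nat_lit 474) (nat_lit 305) (nat_lit 301)) (XT.lf (nat_lit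 0) (nat_lit 7492612434001) (nat_lit 0) (nat_lit 0) (nat_lit 0) (nat_lit 0) (nat_lit 0) (nat_lit 0) (nat_lit 1) (nat_lit 0) (nat_lit 1) (nat_lit 0) (nat_lit 475) (nat_lit 305) (nat_lit 300)))) (XT.nd (nat_lit 188) (nat_lit 0) (nat_lit 0) (XT.nd (nat_lit 94) (nat_lit 0) (nat_lit 0) (XT.lf (nat_lit 0) (nat_lit 8092018548427) (nat_lit 0) (nat_lit 0) (nat_lit 0) (nat_lit 0) (nat_lit 0) (nat_lit 0) (nat_lit 1) (nat_lit 0) (nat_lit 1) (nat_lit 0) (nat_lit 476) (nat_lit 305) (nat_lit 299)) (XT.lf (nat_lit 0) (nat_lit 8739377273031) (nat_lit 0) (nat_lit 0) (nat_lit 0) (nat_lit 0) (nat_lit 0) (nat_lit 0) (nat_lit 1) (nat_lit 0) (nat_lit 1) (nat_lit 0) (nat_lit 477) (nat_lit 305) (nat_lit 298))) (XT.nd (nat_lit 94) (nat_lit 0) (nat_lit 0) (XT.lf (nat_lit 0) (nat_lit 9438524807663) (nat_lit 0) (nat_lit 0) (nat_lit 0) (nat_lit 0) (nat_lit 0) (nat_lit 0) (nat_lit 1) (nat_lit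 0) (nat_lit 1) (nat_lit 0) (nat_lit 478) (nat_lit 305) (nat_lit 297)) (XT.lf (nat_lit 0) (nat_lit 10193604248823) (nat_lit 0) (nat_lit 0) (nat_lit 0) (nat_lit 0) (nat_lit 0) (nat_lit 0) (nat_lit 1) (nat_lit 0) (nat_lit 1) (nat_lit 0) (nat_lit 479) (nat_lit 305) (nat_lit 296))))))) (XT.nd (nat_lit 1316) (nat_lit 0) (nat_lit 0) (XT.nd (nat_lit 658) (nat_lit 0) (nat_lit 0) (XT.nd (nat_lit 282) (nat_lit 0) (nat_lit 0) (XT.nd (nat_lit 94) (nat_lit 0) (nat_lit 0) (XT.lf (nat_lit 0) (nat_lit 11009090141348) (nat_lit 0) (nat_lit 0) (nat_lit 0) (nat_lit 0) (nat_lit 0) (nat_lit 0) (nat_lit 1) (nat_lit 0) (nat_lit 1) (nat_lit 0) (nat_lit 480) (nat_lit 305) (nat_lit 295)) (XT.nd (nat_lit 94) (nat_lit 0) (nat_lit 0) (XT.lf (nat_lit 0) (nat_lit 11889814994232) (nat_lit 0) (nat_lit 0) (nat_lit 0) (nat_lit 0) (nat_lit 0) (nat_lit 0) (nat_lit 1) (nat_lit 0) (nat_lit 1) (nat_lit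 0) (nat_lit 481) (nat_lit 305) (nat_lit 294)) (XT.lf (nat_lit 0) (nat_lit 12840997917712) (nat_lit 0) (nat_lit 0) (nat_lit 0) (nat_lit 0) (nat_lit 0) (nat_lit 0) (nat_lit 1) (nat_lit 0) (nat_lit 1) (nat_lit 0) (nat_lit 482) (nat_lit 305) (nat_lit 293)))) (XT.nd (nat_lit 188) (nat_lit 0) (nat_lit 0) (XT.nd (nat_lit 94) (nat_lit 0) (nat_lit 0) (XT.lf (nat_lit 0) (nat_lit 13868275551337) (nat_lit 0) (nat_lit 0) (nat_lit 0) (nat_lit 0) (nat_lit 0) (nat_lit 0) (nat_lit 1) (nat_lit 0) (nat_lit 1) (nat_lit 0) (nat_lit 483) (nat_lit 305) (nat_lit 292)) (XT.lf (nat_lit 0) (nat_lit 14977735466268) (nat_lit 0) (nat_lit 0) (nat_lit 0) (nat_lit 0) (nat_lit 0) (nat_lit 0) (nat_lit 1) (nat_lit 0) (nat_lit 1) (nat_lit 0) (nat_lit 484) (nat_lit 305) (nat_lit 291))) (XT.nd (nat_lit 94) (nat_lit 0) (nat_lit 0) (XT.lf (nat_lit 0) (nat_lit 16175952239779) (nat_lit 0) (nat_lit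 0) (nat_lit 0) (nat_lit 0) (nat_lit 0) (nat_lit 0) (nat_lit 1) (nat_lit 0) (nat_lit 1) (nat_lit 0) (nat_lit 485) (nat_lit 305) (nat_lit 290)) (XT.lf (nat_lit 0) (nat_lit 17470026415712) (nat_lit 0) (nat_lit 0) (nat_lit 0) (nat_lit 0) (nat_lit 0) (nat_lit 0) (nat_lit 1) (nat_lit 0) (nat_lit 1) (nat_lit 0) (nat_lit 486) (nat_lit 305) (nat_lit 289))))) (XT.nd (nat_lit 282) (nat_lit 0) (nat_lit 0) (XT.nd (nat_lit 94) (nat_lit 0) (nat_lit 0) (XT.lf (nat_lit 0) (nat_lit 18867626581778) (nat_lit 0) (nat_lit 0) (nat_lit 0) (nat_lit 0) (nat_lit 0) (nat_lit 0) (nat_lit 1) (nat_lit 0) (nat_lit 1) (nat_lit 0) (nat_lit 487) (nat_lit 305) (nat_lit 288)) (XT.nd (nat_lit 94) (nat_lit 0) (nat_lit 0) (XT.lf (nat_lit 0) (nat_lit 20377034813034) (nat_lit 0) (nat_lit 0) (nat_lit 0) (nat_lit 0) (nat_lit 0) (nat_lit 0) (nat_lit 1) (nat_lit 0) (nat_lit 1) (nat_lit 0) (nat_lit 488)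 (nat_lit 305) (nat_lit 287)) (XT.lf (nat_lit 0) (nat_lit 22007195750850) (nat_lit 0) (nat_lit 0) (nat_lit 0) (nat_lit 0) (nat_lit 0) (nat_lit 0) (nat_lit 1) (nat_lit 0) (nat_lit 1) (nat_lit 0) (nat_lit 489) (nat_lit 305) (nat_lit 286)))) (XT.nd (nat_lit 188) (nat_lit 0) (nat_lit 0) (XT.nd (nat_lit 94) (nat_lit 0) (nat_lit 0) (XT.lf (nat_lit 0) (nat_lit 23767769608192) (nat_lit 0) (nat_lit 0) (nat_lit 0) (nat_lit 0) (nat_lit 0) (nat_lit 0) (nat_lit 1) (nat_lit 0) (nat_lit 1) (nat_lit 0) (nat_lit 490) (nat_lit 305) (nat_lit 285)) (XT.lf (nat_lit 0) (nat_lit 25669189415325) (nat_lit 0) (nat_lit 0) (nat_lit 0) (nat_lit 0) (nat_lit 0) (nat_lit 0) (nat_lit 1) (nat_lit 0) (nat_lit 1) (nat_lit 0) (nat_lit 491) (nat_lit 305) (nat_lit 284))) (XT.nd (nat_lit 94) (nat_lit 0) (nat_lit 0) (XT.lf (nat_lit 0) (nat_lit 27722722845181) (nat_lit 0) (nat_lit 0) (nat_lit 0) (nat_lit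 0) (nat_lit 0) (nat_lit 0) (nat_lit 1) (nat_lit 0) (nat_lit 1) (nat_lit 0) (nat_lit 492) (nat_lit 305) (nat_lit 283)) (XT.lf (nat_lit 0) (nat_lit 29940538984750) (nat_lit 0) (nat_lit 0) (nat_lit 0) (nat_lit 0) (nat_lit 0) (nat_lit 0) (nat_lit 1) (nat_lit 0) (nat_lit 1) (nat_lit 0) (nat_lit 493) (nat_lit 305) (nat_lit 282)))))) (XT.nd (nat_lit 658) (nat_lit 0) (nat_lit 0) (XT.nd (nat_lit 282) (nat_lit 0) (nat_lit 0) (XT.nd (nat_lit 94) (nat_lit 0) (nat_lit 0) (XT.lf (nat_lit 0) (nat_lit 32335780448194) (nat_lit 0) (nat_lit 0) (nat_lit 0) (nat_lit 0) (nat_lit 0) (nat_lit 0) (nat_lit 1) (nat_lit 0) (nat_lit 1) (nat_lit 0) (nat_lit 494) (nat_lit 305) (nat_lit 281)) (XT.nd (nat_lit 94) (nat_lit 0) (nat_lit 0) (XT.lf (nat_lit 0) (nat_lit 34922641259000) (nat_lit 0) (nat_lit 0) (nat_lit 0) (nat_lit 0) (nat_lit 0) (nat_lit 0) (nat_lit 1) (nat_lit 0) (nat_lit 1) (nat_lit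 0) (nat_lit 495) (nat_lit 305) (nat_lit 280)) (XT.lf (nat_lit 0) (nat_lit 37716450962712) (nat_lit 0) (nat_lit 0) (nat_lit 0) (nat_lit 0) (nat_lit 0) (nat_lit 0) (nat_lit 1) (nat_lit 0) (nat_lit 1) (nat_lit 0) (nat_lit 496) (nat_lit 305) (nat_lit 279)))) (XT.nd (nat_lit 188) (nat_lit 0) (nat_lit 0) (XT.nd (nat_lit 94) (nat_lit 0) (nat_lit 0) (XT.lf (nat_lit 0) (nat_lit 40733765468687) (nat_lit 0) (nat_lit 0) (nat_lit 0) (nat_lit 0) (nat_lit 0) (nat_lit 0) (nat_lit 1) (nat_lit 0) (nat_lit 1) (nat_lit 0) (nat_lit 497) (nat_lit 305) (nat_lit 278)) (XT.lf (nat_lit 0) (nat_lit 43992465159183) (nat_lit 0) (nat_lit 0) (nat_lit 0) (nat_lit 0) (nat_lit 0) (nat_lit 0) (nat_lit 1) (nat_lit 0) (nat_lit 1) (nat_lit 0) (nat_lit 498) (nat_lit 305) (nat_lit 277))) (XT.nd (nat_lit 94) (nat_lit 0) (nat_lit 0) (XT.lf (nat_lit 0) (nat_lit 47511860847179) (nat_lit 0) (nat_lit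 0) (nat_lit 0) (nat_lit 0) (nat_lit 0) (nat_lit 0) (nat_lit 1) (nat_lit 0) (nat_lit 1) (nat_lit 0) (nat_lit 499) (nat_lit 305) (nat_lit 276)) (XT.lf (nat_lit 0) (nat_lit 51312808210827) (nat_lit 0) (nat_lit 0) (nat_lit 0) (nat_lit 0) (nat_lit 0) (nat_lit 0) (nat_lit 1) (nat_lit 0) (nat_lit 1) (nat_lit 0) (nat_lit 500) (nat_lit 305) (nat_lit 275))))) (XT.nd (nat_lit 64672) (nat_lit 0) (nat_lit 0) (XT.nd (nat_lit 188) (nat_lit 0) (nat_lit 0) (XT.nd (nat_lit 94) (nat_lit 0) (nat_lit 0) (XT.lf (nat_lit 0) (nat_lit 55417831382652) (nat_lit 0) (nat_lit 0) (nat_lit 0) (nat_lit 0) (nat_lit 0) (nat_lit 0) (nat_lit 1) (nat_lit 0) (nat_lit 1) (nat_lit 0) (nat_lit 501) (nat_lit 305) (nat_lit 274)) (XT.lf (nat_lit 0) (nat_lit 59851256425894) (nat_lit 0) (nat_lit 0) (nat_lit 0) (nat_lit 0) (nat_lit 0) (nat_lit 0) (nat_lit 1) (nat_lit 0) (nat_lit 1) (nat_lit 0) (nat_lit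 502) (nat_lit 305) (nat_lit 273))) (XT.nd (nat_lit 94) (nat_lit 0) (nat_lit 0) (XT.lf (nat_lit 0) (nat_lit 64639355488959) (nat_lit 0) (nat_lit 0) (nat_lit 0) (nat_lit 0) (nat_lit 0) (nat_lit 0) (nat_lit 1) (nat_lit 0) (nat_lit 1) (nat_lit 0) (nat_lit 503) (nat_lit 305) (nat_lit 272)) (XT.lf (nat_lit 0) (nat_lit 69810502492219) (nat_lit 0) (nat_lit 0) (nat_lit 0) (nat_lit 0) (nat_lit 0) (nat_lit 0) (nat_lit 1) (nat_lit 0) (nat_lit 1) (nat_lit 0) (nat_lit 504) (nat_lit 305) (nat_lit 271)))) (XT.nd (nat_lit 188) (nat_lit 0) (nat_lit 0) (XT.nd (nat_lit 94) (nat_lit 0) (nat_lit 0) (XT.lf (nat_lit 0) (nat_lit 2185942883371) (nat_lit 0) (nat_lit 0) (nat_lit 0) (nat_lit 0) (nat_lit 0) (nat_lit 0) (nat_lit 1) (nat_lit 0) (nat_lit 1) (nat_lit 0) (nat_lit 468) (nat_lit 306) (nat_lit 306)) (XT.lf (nat_lit 0) (nat_lit 4721632689224) (nat_lit 0) (nat_lit 0) (nat_lit 0)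 (nat_lit 0) (nat_lit 0) (nat_lit 0) (nat_lit 1) (nat_lit 0) (nat_lit 1) (nat_lit 0) (nat_lit 469) (nat_lit 306) (nat_lit 305))) (XT.nd (nat_lit 94) (nat_lit 0) (nat_lit 0) (XT.lf (nat_lit 0) (nat_lit 5099359557552) (nat_lit 0) (nat_lit 0) (nat_lit 0) (nat_lit 0) (nat_lit 0) (nat_lit 0) (nat_lit 1) (nat_lit 0) (nat_lit 1) (nat_lit 0) (nat_lit 470) (nat_lit 306) (nat_lit 304)) (XT.lf (nat_lit 0) (nat_lit 5507304753171) (nat_lit 0) (nat_lit 0) (nat_lit 0) (nat_lit 0) (nat_lit 0) (nat_lit 0) (nat_lit 1) (nat_lit 0) (nat_lit 1) (nat_lit 0) (nat_lit 471) (nat_lit 306) (nat_lit 303))))))))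
noncomputable def xc6 : XT := (XT.nd (nat_lit 2632) (nat_lit 0) (nat_lit 0) (XT.nd (nat_lit 1316) (nat_lit 0) (nat_lit 0) (XT.nd (nat_lit 658) (nat_lit 0) (nat_lit 0) (XT.nd (nat_lit 282) (nat_lit 0) (nat_lit 0) (XT.nd (nat_lit 94) (nat_lit 0) (nat_lit 0) (XT.lf (nat_lit 0) (nat_lit 5947885729090) (nat_lit 0) (nat_lit 0) (nat_lit 0) (nat_lit 0) (nat_lit 0) (nat_lit 0) (nat_lit 1) (nat_lit 0) (nat_lit 1) (nat_lit 0) (nat_lit 472) (nat_lit 306) (nat_lit 302)) (XT.nd (nat_lit 94) (nat_lit 0) (nat_lit 0) (XT.lf (nat_lit 0) (nat_lit 6423713335538) (nat_lit 0) (nat_lit 0) (nat_lit 0) (nat_lit 0) (nat_lit 0) (nat_lit 0) (nat_lit 1) (nat_lit 0) (nat_lit 1) (nat_lit 0) (nat_lit 473) (nat_lit 306) (nat_lit 301)) (XT.lf (nat_lit 0) (nat_lit 6937607291664) (nat_lit 0) (nat_lit 0) (nat_lit 0) (nat_lit 0) (nat_lit 0) (nat_lit 0) (nat_lit 1) (nat_lit 0) (nat_lit 1) (nat_lit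 0) (nat_lit 474) (nat_lit 306) (nat_lit 300)))) (XT.nd (nat_lit 188) (nat_lit 0) (nat_lit 0) (XT.nd (nat_lit 94) (nat_lit 0) (nat_lit 0) (XT.lf (nat_lit 0) (nat_lit 7492612894985) (nat_lit 0) (nat_lit 0) (nat_lit 0) (nat_lit 0) (nat_lit 0) (nat_lit 0) (nat_lit 1) (nat_lit 0) (nat_lit 1) (nat_lit 0) (nat_lit 475) (nat_lit 306) (nat_lit 299)) (XT.lf (nat_lit 0) (nat_lit 8092019067596) (nat_lit 0) (nat_lit 0) (nat_lit 0) (nat_lit 0) (nat_lit 0) (nat_lit 0) (nat_lit 1) (nat_lit 0) (nat_lit 1) (nat_lit 0) (nat_lit 476) (nat_lit 306) (nat_lit 298))) (XT.nd (nat_lit 94) (nat_lit 0) (nat_lit 0) (XT.lf (nat_lit 0) (nat_lit 8739377846074) (nat_lit 0) (nat_lit 0) (nat_lit 0) (nat_lit 0) (nat_lit 0) (nat_lit 0) (nat_lit 1) (nat_lit 0) (nat_lit 1) (nat_lit 0) (nat_lit 477) (nat_lit 306) (nat_lit 297)) (XT.lf (nat_lit 0) (nat_lit 9438525430589) (nat_lit 0) (nat_lit 0) (nat_lit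 0) (nat_lit 0) (nat_lit 0) (nat_lit 0) (nat_lit 1) (nat_lit 0) (nat_lit 1) (nat_lit 0) (nat_lit 478) (nat_lit 306) (nat_lit 296))))) (XT.nd (nat_lit 282) (nat_lit 0) (nat_lit 0) (XT.nd (nat_lit 94) (nat_lit 0) (nat_lit 0) (XT.lf (nat_lit 0) (nat_lit 10193604917938) (nat_lit 0) (nat_lit 0) (nat_lit 0) (nat_lit 0) (nat_lit 0) (nat_lit 0) (nat_lit 1) (nat_lit 0) (nat_lit 1) (nat_lit 0) (nat_lit 479) (nat_lit 306) (nat_lit 295)) (XT.nd (nat_lit 94) (nat_lit 0) (nat_lit 0) (XT.lf (nat_lit 0) (nat_lit 11009090853231) (nat_lit 0) (nat_lit 0) (nat_lit 0) (nat_lit 0) (nat_lit 0) (nat_lit 0) (nat_lit 1) (nat_lit 0) (nat_lit 1) (nat_lit 0) (nat_lit 480) (nat_lit 306) (nat_lit 294)) (XT.lf (nat_lit 0) (nat_lit 11889815745714) (nat_lit 0) (nat_lit 0) (nat_lit 0) (nat_lit 0) (nat_lit 0) (nat_lit 0) (nat_lit 1) (nat_lit 0) (nat_lit 1) (nat_lit 0) (nat_lit 481) (nat_lit 306)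 (nat_lit 293)))) (XT.nd (nat_lit 188) (nat_lit 0) (nat_lit 0) (XT.nd (nat_lit 94) (nat_lit 0) (nat_lit 0) (XT.lf (nat_lit 0) (nat_lit 12840998705861) (nat_lit 0) (nat_lit 0) (nat_lit 0) (nat_lit 0) (nat_lit 0) (nat_lit 0) (nat_lit 1) (nat_lit 0) (nat_lit 1) (nat_lit 0) (nat_lit 482) (nat_lit 306) (nat_lit 292)) (XT.lf (nat_lit 0) (nat_lit 13868276373436) (nat_lit 0) (nat_lit 0) (nat_lit 0) (nat_lit 0) (nat_lit 0) (nat_lit 0) (nat_lit 1) (nat_lit 0) (nat_lit 1) (nat_lit 0) (nat_lit 483) (nat_lit 306) (nat_lit 291))) (XT.nd (nat_lit 94) (nat_lit 0) (nat_lit 0) (XT.lf (nat_lit 0) (nat_lit 14977736319802) (nat_lit 0) (nat_lit 0) (nat_lit 0) (nat_lit 0) (nat_lit 0) (nat_lit 0) (nat_lit 1) (nat_lit 0) (nat_lit 1) (nat_lit 0) (nat_lit 484) (nat_lit 306) (nat_lit 290)) (XT.lf (nat_lit 0) (nat_lit 16175953122419) (nat_lit 0) (nat_lit 0) (nat_lit 0) (nat_lit 0) (nat_lit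 0) (nat_lit 0) (nat_lit 1) (nat_lit 0) (nat_lit 1) (nat_lit 0) (nat_lit 485) (nat_lit 306) (nat_lit 289)))))) (XT.nd (nat_lit 658) (nat_lit 0) (nat_lit 0) (XT.nd (nat_lit 282) (nat_lit 0) (nat_lit 0) (XT.nd (nat_lit 94) (nat_lit 0) (nat_lit 0) (XT.lf (nat_lit 0) (nat_lit 17470027325303) (nat_lit 0) (nat_lit 0) (nat_lit 0) (nat_lit 0) (nat_lit 0) (nat_lit 0) (nat_lit 1) (nat_lit 0) (nat_lit 1) (nat_lit 0) (nat_lit 486) (nat_lit 306) (nat_lit 288)) (XT.nd (nat_lit 94) (nat_lit 0) (nat_lit 0) (XT.lf (nat_lit 0) (nat_lit 18867627516323) (nat_lit 0) (nat_lit 0) (nat_lit 0) (nat_lit 0) (nat_lit 0) (nat_lit 0) (nat_lit 1) (nat_lit 0) (nat_lit 1) (nat_lit 0) (nat_lit 487) (nat_lit 306) (nat_lit 287)) (XT.lf (nat_lit 0) (nat_lit 20377035770685) (nat_lit 0) (nat_lit 0) (nat_lit 0) (nat_lit 0) (nat_lit 0) (nat_lit 0) (nat_lit 1) (nat_lit 0) (nat_lit 1) (nat_lit 0) (nat_lit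 488) (nat_lit 306) (nat_lit 286)))) (XT.nd (nat_lit 188) (nat_lit 0) (nat_lit 0) (XT.nd (nat_lit 94) (nat_lit 0) (nat_lit 0) (XT.lf (nat_lit 0) (nat_lit 22007196729895) (nat_lit 0) (nat_lit 0) (nat_lit 0) (nat_lit 0) (nat_lit 0) (nat_lit 0) (nat_lit 1) (nat_lit 0) (nat_lit 1) (nat_lit 0) (nat_lit 489) (nat_lit 306) (nat_lit 285)) (XT.lf (nat_lit 0) (nat_lit 23767770607047) (nat_lit 0) (nat_lit 0) (nat_lit 0) (nat_lit 0) (nat_lit 0) (nat_lit 0) (nat_lit 1) (nat_lit 0) (nat_lit 1) (nat_lit 0) (nat_lit 490) (nat_lit 306) (nat_lit 284))) (XT.nd (nat_lit 94) (nat_lit 0) (nat_lit 0) (XT.lf (nat_lit 0) (nat_lit 25669190432522) (nat_lit 0) (nat_lit 0) (nat_lit 0) (nat_lit 0) (nat_lit 0) (nat_lit 0) (nat_lit 1) (nat_lit 0) (nat_lit 1) (nat_lit 0) (nat_lit 491) (nat_lit 306) (nat_lit 283)) (XT.lf (nat_lit 0) (nat_lit 27722723879361) (nat_lit 0) (nat_lit 0) (nat_lit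 0) (nat_lit 0) (nat_lit 0) (nat_lit 0) (nat_lit 1) (nat_lit 0) (nat_lit 1) (nat_lit 0) (nat_lit 492) (nat_lit 306) (nat_lit 282))))) (XT.nd (nat_lit 282) (nat_lit 0) (nat_lit 0) (XT.nd (nat_lit 94) (nat_lit 0) (nat_lit 0) (XT.lf (nat_lit 0) (nat_lit 29940540034656) (nat_lit 0) (nat_lit 0) (nat_lit 0) (nat_lit 0) (nat_lit 0) (nat_lit 0) (nat_lit 1) (nat_lit 0) (nat_lit 1) (nat_lit 0) (nat_lit 493) (nat_lit 306) (nat_lit 281)) (XT.nd (nat_lit 94) (nat_lit 0) (nat_lit 0) (XT.lf (nat_lit 0) (nat_lit 32335781512661) (nat_lit 0) (nat_lit 0) (nat_lit 0) (nat_lit 0) (nat_lit 0) (nat_lit 0) (nat_lit 1) (nat_lit 0) (nat_lit 1) (nat_lit 0) (nat_lit 494) (nat_lit 306) (nat_lit 280)) (XT.lf (nat_lit 0) (nat_lit 34922642336948) (nat_lit 0) (nat_lit 0) (nat_lit 0) (nat_lit 0) (nat_lit 0) (nat_lit 0) (nat_lit 1) (nat_lit 0) (nat_lit 1) (nat_lit 0) (nat_lit 495) (nat_lit 306)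 (nat_lit 279)))) (XT.nd (nat_lit 188) (nat_lit 0) (nat_lit 0) (XT.nd (nat_lit 94) (nat_lit 0) (nat_lit 0) (XT.lf (nat_lit 0) (nat_lit 37716452053144) (nat_lit 0) (nat_lit 0) (nat_lit 0) (nat_lit 0) (nat_lit 0) (nat_lit 0) (nat_lit 1) (nat_lit 0) (nat_lit 1) (nat_lit 0) (nat_lit 496) (nat_lit 306) (nat_lit 278)) (XT.lf (nat_lit 0) (nat_lit 40733766570678) (nat_lit 0) (nat_lit 0) (nat_lit 0) (nat_lit 0) (nat_lit 0) (nat_lit 0) (nat_lit 1) (nat_lit 0) (nat_lit 1) (nat_lit 0) (nat_lit 497) (nat_lit 306) (nat_lit 277))) (XT.nd (nat_lit 94) (nat_lit 0) (nat_lit 0) (XT.lf (nat_lit 0) (nat_lit 43992466271876) (nat_lit 0) (nat_lit 0) (nat_lit 0) (nat_lit 0) (nat_lit 0) (nat_lit 0) (nat_lit 1) (nat_lit 0) (nat_lit 1) (nat_lit 0) (nat_lit 498) (nat_lit 306) (nat_lit 276)) (XT.lf (nat_lit 0) (nat_lit 47511861969782) (nat_lit 0) (nat_lit 0) (nat_lit 0) (nat_lit 0) (nat_lit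 0) (nat_lit 0) (nat_lit 1) (nat_lit 0) (nat_lit 1) (nat_lit 0) (nat_lit 499) (nat_lit 306) (nat_lit 275))))))) (XT.nd (nat_lit 65424) (nat_lit 0) (nat_lit 0) (XT.nd (nat_lit 64766) (nat_lit 0) (nat_lit 0) (XT.nd (nat_lit 282) (nat_lit 0) (nat_lit 0) (XT.nd (nat_lit 94) (nat_lit 0) (nat_lit 0) (XT.lf (nat_lit 0) (nat_lit 51312809342605) (nat_lit 0) (nat_lit 0) (nat_lit 0) (nat_lit 0) (nat_lit 0) (nat_lit 0) (nat_lit 1) (nat_lit 0) (nat_lit 1) (nat_lit 0) (nat_lit 500) (nat_lit 306) (nat_lit 274)) (XT.nd (nat_lit 94) (nat_lit 0) (nat_lit 0) (XT.lf (nat_lit 0) (nat_lit 55417832522926) (nat_lit 0) (nat_lit 0) (nat_lit 0) (nat_lit 0) (nat_lit 0) (nat_lit 0) (nat_lit 1) (nat_lit 0) (nat_lit 1) (nat_lit 0) (nat_lit 501) (nat_lit 306) (nat_lit 273)) (XT.lf (nat_lit 0) (nat_lit 59851257574035) (nat_lit 0) (nat_lit 0) (nat_lit 0) (nat_lit 0) (nat_lit 0) (nat_lit 0)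 (nat_lit 1) (nat_lit 0) (nat_lit 1) (nat_lit 0) (nat_lit 502) (nat_lit 306) (nat_lit 272)))) (XT.nd (nat_lit 64296) (nat_lit 0) (nat_lit 0) (XT.nd (nat_lit 94) (nat_lit 0) (nat_lit 0) (XT.lf (nat_lit 0) (nat_lit 64639356644384) (nat_lit 0) (nat_lit 0) (nat_lit 0) (nat_lit 0) (nat_lit 0) (nat_lit 0) (nat_lit 1) (nat_lit 0) (nat_lit 1) (nat_lit 0) (nat_lit 503) (nat_lit 306) (nat_lit 271)) (XT.lf (nat_lit 0) (nat_lit 69810503654389) (nat_lit 0) (nat_lit 0) (nat_lit 0) (nat_lit 0) (nat_lit 0) (nat_lit 0) (nat_lit 1) (nat_lit 0) (nat_lit 1) (nat_lit 0) (nat_lit 504) (nat_lit 306) (nat_lit 270))) (XT.nd (nat_lit 94) (nat_lit 0) (nat_lit 0) (XT.lf (nat_lit 0) (nat_lit 1874097439686) (nat_lit 0) (nat_lit 0) (nat_lit 0) (nat_lit 0) (nat_lit 0) (nat_lit 0) (nat_lit 1) (nat_lit 0) (nat_lit 1) (nat_lit 0) (nat_lit 466) (nat_lit 307) (nat_lit 307)) (XT.lf (nat_lit 0)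 (nat_lit 4048046215754) (nat_lit 0) (nat_lit 0) (nat_lit 0) (nat_lit 0) (nat_lit 0) (nat_lit 0) (nat_lit 1) (nat_lit 0) (nat_lit 1) (nat_lit 0) (nat_lit 467) (nat_lit 307) (nat_lit 306))))) (XT.nd (nat_lit 282) (nat_lit 0) (nat_lit 0) (XT.nd (nat_lit 94) (nat_lit 0) (nat_lit 0) (XT.lf (nat_lit 0) (nat_lit 4371885866461) (nat_lit 0) (nat_lit 0) (nat_lit 0) (nat_lit 0) (nat_lit 0) (nat_lit 0) (nat_lit 1) (nat_lit 0) (nat_lit 1) (nat_lit 0) (nat_lit 468) (nat_lit 307) (nat_lit 305)) (XT.nd (nat_lit 94) (nat_lit 0) (nat_lit 0) (XT.lf (nat_lit 0) (nat_lit 4721632881273) (nat_lit 0) (nat_lit 0) (nat_lit 0) (nat_lit 0) (nat_lit 0) (nat_lit 0) (nat_lit 1) (nat_lit 0) (nat_lit 1) (nat_lit 0) (nat_lit 469) (nat_lit 307) (nat_lit 304)) (XT.lf (nat_lit 0) (nat_lit 5099359835094) (nat_lit 0) (nat_lit 0) (nat_lit 0) (nat_lit 0) (nat_lit 0) (nat_lit 0) (nat_lit 1) (nat_lit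 0) (nat_lit 1) (nat_lit 0) (nat_lit 470) (nat_lit 307) (nat_lit 303)))) (XT.nd (nat_lit 188) (nat_lit 0) (nat_lit 0) (XT.nd (nat_lit 94) (nat_lit 0) (nat_lit 0) (XT.lf (nat_lit 0) (nat_lit 5507305109871) (nat_lit 0) (nat_lit 0) (nat_lit 0) (nat_lit 0) (nat_lit 0) (nat_lit 0) (nat_lit 1) (nat_lit 0) (nat_lit 1) (nat_lit 0) (nat_lit 471) (nat_lit 307) (nat_lit 302)) (XT.lf (nat_lit 0) (nat_lit 5947886159086) (nat_lit 0) (nat_lit 0) (nat_lit 0) (nat_lit 0) (nat_lit 0) (nat_lit 0) (nat_lit 1) (nat_lit 0) (nat_lit 1) (nat_lit 0) (nat_lit 472) (nat_lit 307) (nat_lit 301))) (XT.nd (nat_lit 94) (nat_lit 0) (nat_lit 0) (XT.lf (nat_lit 0) (nat_lit 6423713833401) (nat_lit 0) (nat_lit 0) (nat_lit 0) (nat_lit 0) (nat_lit 0) (nat_lit 0) (nat_lit 1) (nat_lit 0) (nat_lit 1) (nat_lit 0) (nat_lit 473) (nat_lit 307) (nat_lit 300)) (XT.lf (nat_lit 0) (nat_lit 6937607852366) (nat_lit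 0) (nat_lit 0) (nat_lit 0) (nat_lit 0) (nat_lit 0) (nat_lit 0) (nat_lit 1) (nat_lit 0) (nat_lit 1) (nat_lit 0) (nat_lit 474) (nat_lit 307) (nat_lit 299)))))) (XT.nd (nat_lit 658) (nat_lit 0) (nat_lit 0) (XT.nd (nat_lit 282) (nat_lit 0) (nat_lit 0) (XT.nd (nat_lit 94) (nat_lit 0) (nat_lit 0) (XT.lf (nat_lit 0) (nat_lit 7492613513871) (nat_lit 0) (nat_lit 0) (nat_lit 0) (nat_lit 0) (nat_lit 0) (nat_lit 0) (nat_lit 1) (nat_lit 0) (nat_lit 1) (nat_lit 0) (nat_lit 475) (nat_lit 307) (nat_lit 298)) (XT.nd (nat_lit 94) (nat_lit 0) (nat_lit 0) (XT.lf (nat_lit 0) (nat_lit 8092019740357) (nat_lit 0) (nat_lit 0) (nat_lit 0) (nat_lit 0) (nat_lit 0) (nat_lit 0) (nat_lit 1) (nat_lit 0) (nat_lit 1) (nat_lit 0) (nat_lit 476) (nat_lit 307) (nat_lit 297)) (XT.lf (nat_lit 0) (nat_lit 8739378568719) (nat_lit 0) (nat_lit 0) (nat_lit 0) (nat_lit 0) (nat_lit 0) (nat_lit 0) (nat_lit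 1) (nat_lit 0) (nat_lit 1) (nat_lit 0) (nat_lit 477) (nat_lit 307) (nat_lit 296)))) (XT.nd (nat_lit 188) (nat_lit 0) (nat_lit 0) (XT.nd (nat_lit 94) (nat_lit 0) (nat_lit 0) (XT.lf (nat_lit 0) (nat_lit 9438526199423) (nat_lit 0) (nat_lit 0) (nat_lit 0) (nat_lit 0) (nat_lit 0) (nat_lit 0) (nat_lit 1) (nat_lit 0) (nat_lit 1) (nat_lit 0) (nat_lit 478) (nat_lit 307) (nat_lit 295)) (XT.lf (nat_lit 0) (nat_lit 10193605729539) (nat_lit 0) (nat_lit 0) (nat_lit 0) (nat_lit 0) (nat_lit 0) (nat_lit 0) (nat_lit 1) (nat_lit 0) (nat_lit 1) (nat_lit 0) (nat_lit 479) (nat_lit 307) (nat_lit 294))) (XT.nd (nat_lit 94) (nat_lit 0) (nat_lit 0) (XT.lf (nat_lit 0) (nat_lit 11009091704431) (nat_lit 0) (nat_lit 0) (nat_lit 0) (nat_lit 0) (nat_lit 0) (nat_lit 0) (nat_lit 1) (nat_lit 0) (nat_lit 1) (nat_lit 0) (nat_lit 480) (nat_lit 307) (nat_lit 293)) (XT.lf (nat_lit 0) (nat_lit 11889816633580)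 (nat_lit 0) (nat_lit 0) (nat_lit 0) (nat_lit 0) (nat_lit 0) (nat_lit 0) (nat_lit 1) (nat_lit 0) (nat_lit 1) (nat_lit 0) (nat_lit 481) (nat_lit 307) (nat_lit 292))))) (XT.nd (nat_lit 376) (nat_lit 0) (nat_lit 0) (XT.nd (nat_lit 188) (nat_lit 0) (nat_lit 0) (XT.nd (nat_lit 94) (nat_lit 0) (nat_lit 0) (XT.lf (nat_lit 0) (nat_lit 12840999627677) (nat_lit 0) (nat_lit 0) (nat_lit 0) (nat_lit 0) (nat_lit 0) (nat_lit 0) (nat_lit 1) (nat_lit 0) (nat_lit 1) (nat_lit 0) (nat_lit 482) (nat_lit 307) (nat_lit 291)) (XT.lf (nat_lit 0) (nat_lit 13868277326687) (nat_lit 0) (nat_lit 0) (nat_lit 0) (nat_lit 0) (nat_lit 0) (nat_lit 0) (nat_lit 1) (nat_lit 0) (nat_lit 1) (nat_lit 0) (nat_lit 483) (nat_lit 307) (nat_lit 290))) (XT.nd (nat_lit 94) (nat_lit 0) (nat_lit 0) (XT.lf (nat_lit 0) (nat_lit 14977737302160) (nat_lit 0) (nat_lit 0) (nat_lit 0) (nat_lit 0) (nat_lit 0) (nat_lit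 0) (nat_lit 1) (nat_lit 0) (nat_lit 1) (nat_lit 0) (nat_lit 484) (nat_lit 307) (nat_lit 289)) (XT.lf (nat_lit 0) (nat_lit 16175954131728) (nat_lit 0) (nat_lit 0) (nat_lit 0) (nat_lit 0) (nat_lit 0) (nat_lit 0) (nat_lit 1) (nat_lit 0) (nat_lit 1) (nat_lit 0) (nat_lit 485) (nat_lit 307) (nat_lit 288)))) (XT.nd (nat_lit 188) (nat_lit 0) (nat_lit 0) (XT.nd (nat_lit 94) (nat_lit 0) (nat_lit 0) (XT.lf (nat_lit 0) (nat_lit 17470028359566) (nat_lit 0) (nat_lit 0) (nat_lit 0) (nat_lit 0) (nat_lit 0) (nat_lit 0) (nat_lit 1) (nat_lit 0) (nat_lit 1) (nat_lit 0) (nat_lit 486) (nat_lit 307) (nat_lit 287)) (XT.lf (nat_lit 0) (nat_lit 18867628573692) (nat_lit 0) (nat_lit 0) (nat_lit 0) (nat_lit 0) (nat_lit 0) (nat_lit 0) (nat_lit 1) (nat_lit 0) (nat_lit 1) (nat_lit 0) (nat_lit 487) (nat_lit 307) (nat_lit 286))) (XT.nd (nat_lit 94) (nat_lit 0) (nat_lit 0) (XT.lf (nat_lit 0)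 (nat_lit 20377036849448) (nat_lit 0) (nat_lit 0) (nat_lit 0) (nat_lit 0) (nat_lit 0) (nat_lit 0) (nat_lit 1) (nat_lit 0) (nat_lit 1) (nat_lit 0) (nat_lit 488) (nat_lit 307) (nat_lit 285)) (XT.lf (nat_lit 0) (nat_lit 22007197828468) (nat_lit 0) (nat_lit 0) (nat_lit 0) (nat_lit 0) (nat_lit 0) (nat_lit 0) (nat_lit 1) (nat_lit 0) (nat_lit 1) (nat_lit 0) (nat_lit 489) (nat_lit 307) (nat_lit 284))))))))
noncomputable def xc7 : XT := (XT.nd (nat_lit 66552) (nat_lit 0) (nat_lit 0) (XT.nd (nat_lit 1316) (nat_lit 0) (nat_lit 0) (XT.nd (nat_lit 658) (nat_lit 0) (nat_lit 0) (XT.nd (nat_lit 282) (nat_lit 0) (nat_lit 0) (XT.nd (nat_lit 94) (nat_lit 0) (nat_lit 0) (XT.lf (nat_lit 0) (nat_lit 23767771723962) (nat_lit 0) (nat_lit 0) (nat_lit 0) (nat_lit 0) (nat_lit 0) (nat_lit 0) (nat_lit 1) (nat_lit 0) (nat_lit 1) (nat_lit 0) (nat_lit 490) (nat_lit 307) (nat_lit 283)) (XT.nd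 (nat_lit 94) (nat_lit 0) (nat_lit 0) (XT.lf (nat_lit 0) (nat_lit 25669191566421) (nat_lit 0) (nat_lit 0) (nat_lit 0) (nat_lit 0) (nat_lit 0) (nat_lit 0) (nat_lit 1) (nat_lit 0) (nat_lit 1) (nat_lit 0) (nat_lit 491) (nat_lit 307) (nat_lit 282)) (XT.lf (nat_lit 0) (nat_lit 27722725028985) (nat_lit 0) (nat_lit 0) (nat_lit 0) (nat_lit 0) (nat_lit 0) (nat_lit 0) (nat_lit 1) (nat_lit 0) (nat_lit 1) (nat_lit 0) (nat_lit 492) (nat_lit 307) (nat_lit 281)))) (XT.nd (nat_lit 188) (nat_lit 0) (nat_lit 0) (XT.nd (nat_lit 94) (nat_lit 0) (nat_lit 0) (XT.lf (nat_lit 0) (nat_lit 29940541198841) (nat_lit 0) (nat_lit 0) (nat_lit 0) (nat_lit 0) (nat_lit 0) (nat_lit 0) (nat_lit 1) (nat_lit 0) (nat_lit 1) (nat_lit 0) (nat_lit 493) (nat_lit 307) (nat_lit 280)) (XT.lf (nat_lit 0) (nat_lit 32335782690327) (nat_lit 0) (nat_lit 0) (nat_lit 0) (nat_lit 0) (nat_lit 0) (nat_lit 0) (nat_lit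 1) (nat_lit 0) (nat_lit 1) (nat_lit 0) (nat_lit 494) (nat_lit 307) (nat_lit 279))) (XT.nd (nat_lit 94) (nat_lit 0) (nat_lit 0) (XT.lf (nat_lit 0) (nat_lit 34922643527098) (nat_lit 0) (nat_lit 0) (nat_lit 0) (nat_lit 0) (nat_lit 0) (nat_lit 0) (nat_lit 1) (nat_lit 0) (nat_lit 1) (nat_lit 0) (nat_lit 495) (nat_lit 307) (nat_lit 278)) (XT.lf (nat_lit 0) (nat_lit 37716453254853) (nat_lit 0) (nat_lit 0) (nat_lit 0) (nat_lit 0) (nat_lit 0) (nat_lit 0) (nat_lit 1) (nat_lit 0) (nat_lit 1) (nat_lit 0) (nat_lit 496) (nat_lit 307) (nat_lit 277))))) (XT.nd (nat_lit 282) (nat_lit 0) (nat_lit 0) (XT.nd (nat_lit 94) (nat_lit 0) (nat_lit 0) (XT.lf (nat_lit 0) (nat_lit 40733767783089) (nat_lit 0) (nat_lit 0) (nat_lit 0) (nat_lit 0) (nat_lit 0) (nat_lit 0) (nat_lit 1) (nat_lit 0) (nat_lit 1) (nat_lit 0) (nat_lit 497) (nat_lit 307) (nat_lit 276)) (XT.nd (nat_lit 94) (nat_lit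 0) (nat_lit 0) (XT.lf (nat_lit 0) (nat_lit 43992467494197) (nat_lit 0) (nat_lit 0) (nat_lit 0) (nat_lit 0) (nat_lit 0) (nat_lit 0) (nat_lit 1) (nat_lit 0) (nat_lit 1) (nat_lit 0) (nat_lit 498) (nat_lit 307) (nat_lit 275)) (XT.lf (nat_lit 0) (nat_lit 47511863201278) (nat_lit 0) (nat_lit 0) (nat_lit 0) (nat_lit 0) (nat_lit 0) (nat_lit 0) (nat_lit 1) (nat_lit 0) (nat_lit 1) (nat_lit 0) (nat_lit 499) (nat_lit 307) (nat_lit 274)))) (XT.nd (nat_lit 188) (nat_lit 0) (nat_lit 0) (XT.nd (nat_lit 94) (nat_lit 0) (nat_lit 0) (XT.lf (nat_lit 0) (nat_lit 51312810582598) (nat_lit 0) (nat_lit 0) (nat_lit 0) (nat_lit 0) (nat_lit 0) (nat_lit 0) (nat_lit 1) (nat_lit 0) (nat_lit 1) (nat_lit 0) (nat_lit 500) (nat_lit 307) (nat_lit 273)) (XT.lf (nat_lit 0) (nat_lit 55417833770785) (nat_lit 0) (nat_lit 0) (nat_lit 0) (nat_lit 0) (nat_lit 0) (nat_lit 0) (nat_lit 1) (nat_lit 0) (nat_lit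 1) (nat_lit 0) (nat_lit 501) (nat_lit 307) (nat_lit 272))) (XT.nd (nat_lit 94) (nat_lit 0) (nat_lit 0) (XT.lf (nat_lit 0) (nat_lit 59851258829178) (nat_lit 0) (nat_lit 0) (nat_lit 0) (nat_lit 0) (nat_lit 0) (nat_lit 0) (nat_lit 1) (nat_lit 0) (nat_lit 1) (nat_lit 0) (nat_lit 502) (nat_lit 307) (nat_lit 271)) (XT.lf (nat_lit 0) (nat_lit 64639357906271) (nat_lit 0) (nat_lit 0) (nat_lit 0) (nat_lit 0) (nat_lit 0) (nat_lit 0) (nat_lit 1) (nat_lit 0) (nat_lit 1) (nat_lit 0) (nat_lit 503) (nat_lit 307) (nat_lit 270)))))) (XT.nd (nat_lit 64578) (nat_lit 0) (nat_lit 0) (XT.nd (nat_lit 64202) (nat_lit 0) (nat_lit 0) (XT.nd (nat_lit 64014) (nat_lit 0) (nat_lit 0) (XT.lf (nat_lit 0) (nat_lit 69810504922521) (nat_lit 0) (nat_lit 0) (nat_lit 0) (nat_lit 0) (nat_lit 0) (nat_lit 0) (nat_lit 1) (nat_lit 0) (nat_lit 1) (nat_lit 0) (nat_lit 504) (nat_lit 307) (nat_lit 269))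 (XT.nd (nat_lit 94) (nat_lit 0) (nat_lit 0) (XT.lf (nat_lit 0) (nat_lit 1606740534625) (nat_lit 0) (nat_lit 0) (nat_lit 0) (nat_lit 0) (nat_lit 0) (nat_lit 0) (nat_lit 1) (nat_lit 0) (nat_lit 1) (nat_lit 0) (nat_lit 464) (nat_lit 308) (nat_lit 308)) (XT.lf (nat_lit 0) (nat_lit 3470554960505) (nat_lit 0) (nat_lit 0) (nat_lit 0) (nat_lit 0) (nat_lit 0) (nat_lit 0) (nat_lit 1) (nat_lit 0) (nat_lit 1) (nat_lit 0) (nat_lit 465) (nat_lit 308) (nat_lit 307)))) (XT.nd (nat_lit 188) (nat_lit 0) (nat_lit 0) (XT.nd (nat_lit 94) (nat_lit 0) (nat_lit 0) (XT.lf (nat_lit 0) (nat_lit 3748194987067) (nat_lit 0) (nat_lit 0) (nat_lit 0) (nat_lit 0) (nat_lit 0) (nat_lit 0) (nat_lit 1) (nat_lit 0) (nat_lit 1) (nat_lit 0) (nat_lit 466) (nat_lit 308) (nat_lit 306)) (XT.lf (nat_lit 0) (nat_lit 4048046423167) (nat_lit 0) (nat_lit 0) (nat_lit 0) (nat_lit 0) (nat_lit 0) (nat_lit 0)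 (nat_lit 1) (nat_lit 0) (nat_lit 1) (nat_lit 0) (nat_lit 467) (nat_lit 308) (nat_lit 305))) (XT.nd (nat_lit 94) (nat_lit 0) (nat_lit 0) (XT.lf (nat_lit 0) (nat_lit 4371886166205) (nat_lit 0) (nat_lit 0) (nat_lit 0) (nat_lit 0) (nat_lit 0) (nat_lit 0) (nat_lit 1) (nat_lit 0) (nat_lit 1) (nat_lit 0) (nat_lit 468) (nat_lit 308) (nat_lit 304)) (XT.lf (nat_lit 0) (nat_lit 4721633266510) (nat_lit 0) (nat_lit 0) (nat_lit 0) (nat_lit 0) (nat_lit 0) (nat_lit 0) (nat_lit 1) (nat_lit 0) (nat_lit 1) (nat_lit 0) (nat_lit 469) (nat_lit 308) (nat_lit 303))))) (XT.nd (nat_lit 282) (nat_lit 0) (nat_lit 0) (XT.nd (nat_lit 94) (nat_lit 0) (nat_lit 0) (XT.lf (nat_lit 0) (nat_lit 5099360299490) (nat_lit 0) (nat_lit 0) (nat_lit 0) (nat_lit 0) (nat_lit 0) (nat_lit 0) (nat_lit 1) (nat_lit 0) (nat_lit 1) (nat_lit 0) (nat_lit 470) (nat_lit 308) (nat_lit 302)) (XT.nd (nat_lit 94) (nat_lit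 0) (nat_lit 0) (XT.lf (nat_lit 0) (nat_lit 5507305647563) (nat_lit 0) (nat_lit 0) (nat_lit 0) (nat_lit 0) (nat_lit 0) (nat_lit 0) (nat_lit 1) (nat_lit 0) (nat_lit 1) (nat_lit 0) (nat_lit 471) (nat_lit 308) (nat_lit 301)) (XT.lf (nat_lit 0) (nat_lit 5947886764645) (nat_lit 0) (nat_lit 0) (nat_lit 0) (nat_lit 0) (nat_lit 0) (nat_lit 0) (nat_lit 1) (nat_lit 0) (nat_lit 1) (nat_lit 0) (nat_lit 472) (nat_lit 308) (nat_lit 300)))) (XT.nd (nat_lit 188) (nat_lit 0) (nat_lit 0) (XT.nd (nat_lit 94) (nat_lit 0) (nat_lit 0) (XT.lf (nat_lit 0) (nat_lit 6423714501798) (nat_lit 0) (nat_lit 0) (nat_lit 0) (nat_lit 0) (nat_lit 0) (nat_lit 0) (nat_lit 1) (nat_lit 0) (nat_lit 1) (nat_lit 0) (nat_lit 473) (nat_lit 308) (nat_lit 299)) (XT.lf (nat_lit 0) (nat_lit 6937608578947) (nat_lit 0) (nat_lit 0) (nat_lit 0) (nat_lit 0) (nat_lit 0) (nat_lit 0) (nat_lit 1) (nat_lit 0) (nat_lit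 1) (nat_lit 0) (nat_lit 474) (nat_lit 308) (nat_lit 298))) (XT.nd (nat_lit 94) (nat_lit 0) (nat_lit 0) (XT.lf (nat_lit 0) (nat_lit 7492614294328) (nat_lit 0) (nat_lit 0) (nat_lit 0) (nat_lit 0) (nat_lit 0) (nat_lit 0) (nat_lit 1) (nat_lit 0) (nat_lit 1) (nat_lit 0) (nat_lit 475) (nat_lit 308) (nat_lit 297)) (XT.lf (nat_lit 0) (nat_lit 8092020570697) (nat_lit 0) (nat_lit 0) (nat_lit 0) (nat_lit 0) (nat_lit 0) (nat_lit 0) (nat_lit 1) (nat_lit 0) (nat_lit 1) (nat_lit 0) (nat_lit 476) (nat_lit 308) (nat_lit 296))))))) (XT.nd (nat_lit 1316) (nat_lit 0) (nat_lit 0) (XT.nd (nat_lit 658) (nat_lit 0) (nat_lit 0) (XT.nd (nat_lit 282) (nat_lit 0) (nat_lit 0) (XT.nd (nat_lit 94) (nat_lit 0) (nat_lit 0) (XT.lf (nat_lit 0) (nat_lit 8739379445248) (nat_lit 0) (nat_lit 0) (nat_lit 0) (nat_lit 0) (nat_lit 0) (nat_lit 0) (nat_lit 1) (nat_lit 0) (nat_lit 1) (nat_lit 0) (nat_lit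 477) (nat_lit 308) (nat_lit 295)) (XT.nd (nat_lit 94) (nat_lit 0) (nat_lit 0) (XT.lf (nat_lit 0) (nat_lit 9438527118719) (nat_lit 0) (nat_lit 0) (nat_lit 0) (nat_lit 0) (nat_lit 0) (nat_lit 0) (nat_lit 1) (nat_lit 0) (nat_lit 1) (nat_lit 0) (nat_lit 478) (nat_lit 308) (nat_lit 294)) (XT.lf (nat_lit 0) (nat_lit 10193606688434) (nat_lit 0) (nat_lit 0) (nat_lit 0) (nat_lit 0) (nat_lit 0) (nat_lit 0) (nat_lit 1) (nat_lit 0) (nat_lit 1) (nat_lit 0) (nat_lit 479) (nat_lit 308) (nat_lit 293)))) (XT.nd (nat_lit 188) (nat_lit 0) (nat_lit 0) (XT.nd (nat_lit 94) (nat_lit 0) (nat_lit 0) (XT.lf (nat_lit 0) (nat_lit 11009092699993) (nat_lit 0) (nat_lit 0) (nat_lit 0) (nat_lit 0) (nat_lit 0) (nat_lit 0) (nat_lit 1) (nat_lit 0) (nat_lit 1) (nat_lit 0) (nat_lit 480) (nat_lit 308) (nat_lit 292)) (XT.lf (nat_lit 0) (nat_lit 11889817663092) (nat_lit 0) (nat_lit 0) (nat_lit 0)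 (nat_lit 0) (nat_lit 0) (nat_lit 0) (nat_lit 1) (nat_lit 0) (nat_lit 1) (nat_lit 0) (nat_lit 481) (nat_lit 308) (nat_lit 291))) (XT.nd (nat_lit 94) (nat_lit 0) (nat_lit 0) (XT.lf (nat_lit 0) (nat_lit 12841000688624) (nat_lit 0) (nat_lit 0) (nat_lit 0) (nat_lit 0) (nat_lit 0) (nat_lit 0) (nat_lit 1) (nat_lit 0) (nat_lit 1) (nat_lit 0) (nat_lit 482) (nat_lit 308) (nat_lit 290)) (XT.lf (nat_lit 0) (nat_lit 13868278416741) (nat_lit 0) (nat_lit 0) (nat_lit 0) (nat_lit 0) (nat_lit 0) (nat_lit 0) (nat_lit 1) (nat_lit 0) (nat_lit 1) (nat_lit 0) (nat_lit 483) (nat_lit 308) (nat_lit 289))))) (XT.nd (nat_lit 282) (nat_lit 0) (nat_lit 0) (XT.nd (nat_lit 94) (nat_lit 0) (nat_lit 0) (XT.lf (nat_lit 0) (nat_lit 14977738419164) (nat_lit 0) (nat_lit 0) (nat_lit 0) (nat_lit 0) (nat_lit 0) (nat_lit 0) (nat_lit 1) (nat_lit 0) (nat_lit 1) (nat_lit 0) (nat_lit 484) (nat_lit 308)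 (nat_lit 288)) (XT.nd (nat_lit 94) (nat_lit 0) (nat_lit 0) (XT.lf (nat_lit 0) (nat_lit 16175955273687) (nat_lit 0) (nat_lit 0) (nat_lit 0) (nat_lit 0) (nat_lit 0) (nat_lit 0) (nat_lit 1) (nat_lit 0) (nat_lit 1) (nat_lit 0) (nat_lit 485) (nat_lit 308) (nat_lit 287)) (XT.lf (nat_lit 0) (nat_lit 17470029524631) (nat_lit 0) (nat_lit 0) (nat_lit 0) (nat_lit 0) (nat_lit 0) (nat_lit 0) (nat_lit 1) (nat_lit 0) (nat_lit 1) (nat_lit 0) (nat_lit 486) (nat_lit 308) (nat_lit 286)))) (XT.nd (nat_lit 188) (nat_lit 0) (nat_lit 0) (XT.nd (nat_lit 94) (nat_lit 0) (nat_lit 0) (XT.lf (nat_lit 0) (nat_lit 18867629760151) (nat_lit 0) (nat_lit 0) (nat_lit 0) (nat_lit 0) (nat_lit 0) (nat_lit 0) (nat_lit 1) (nat_lit 0) (nat_lit 1) (nat_lit 0) (nat_lit 487) (nat_lit 308) (nat_lit 285)) (XT.lf (nat_lit 0) (nat_lit 20377038055716) (nat_lit 0) (nat_lit 0) (nat_lit 0) (nat_lit 0) (nat_lit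 0) (nat_lit 0) (nat_lit 1) (nat_lit 0) (nat_lit 1) (nat_lit 0) (nat_lit 488) (nat_lit 308) (nat_lit 284))) (XT.nd (nat_lit 94) (nat_lit 0) (nat_lit 0) (XT.lf (nat_lit 0) (nat_lit 22007199053079) (nat_lit 0) (nat_lit 0) (nat_lit 0) (nat_lit 0) (nat_lit 0) (nat_lit 0) (nat_lit 1) (nat_lit 0) (nat_lit 1) (nat_lit 0) (nat_lit 489) (nat_lit 308) (nat_lit 283)) (XT.lf (nat_lit 0) (nat_lit 23767772965556) (nat_lit 0) (nat_lit 0) (nat_lit 0) (nat_lit 0) (nat_lit 0) (nat_lit 0) (nat_lit 1) (nat_lit 0) (nat_lit 1) (nat_lit 0) (nat_lit 490) (nat_lit 308) (nat_lit 282)))))) (XT.nd (nat_lit 658) (nat_lit 0) (nat_lit 0) (XT.nd (nat_lit 282) (nat_lit 0) (nat_lit 0) (XT.nd (nat_lit 94) (nat_lit 0) (nat_lit 0) (XT.lf (nat_lit 0) (nat_lit 25669192823740) (nat_lit 0) (nat_lit 0) (nat_lit 0) (nat_lit 0) (nat_lit 0) (nat_lit 0) (nat_lit 1) (nat_lit 0) (nat_lit 1) (nat_lit 0) (nat_lit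 491) (nat_lit 308) (nat_lit 281)) (XT.nd (nat_lit 94) (nat_lit 0) (nat_lit 0) (XT.lf (nat_lit 0) (nat_lit 27722726300865) (nat_lit 0) (nat_lit 0) (nat_lit 0) (nat_lit 0) (nat_lit 0) (nat_lit 0) (nat_lit 1) (nat_lit 0) (nat_lit 1) (nat_lit 0) (nat_lit 492) (nat_lit 308) (nat_lit 280)) (XT.lf (nat_lit 0) (nat_lit 29940542484203) (nat_lit 0) (nat_lit 0) (nat_lit 0) (nat_lit 0) (nat_lit 0) (nat_lit 0) (nat_lit 1) (nat_lit 0) (nat_lit 1) (nat_lit 0) (nat_lit 493) (nat_lit 308) (nat_lit 279)))) (XT.nd (nat_lit 188) (nat_lit 0) (nat_lit 0) (XT.nd (nat_lit 94) (nat_lit 0) (nat_lit 0) (XT.lf (nat_lit 0) (nat_lit 32335783988173) (nat_lit 0) (nat_lit 0) (nat_lit 0) (nat_lit 0) (nat_lit 0) (nat_lit 0) (nat_lit 1) (nat_lit 0) (nat_lit 1) (nat_lit 0) (nat_lit 494) (nat_lit 308) (nat_lit 278)) (XT.lf (nat_lit 0) (nat_lit 34922644836502) (nat_lit 0) (nat_lit 0) (nat_lit 0)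 (nat_lit 0) (nat_lit 0) (nat_lit 0) (nat_lit 1) (nat_lit 0) (nat_lit 1) (nat_lit 0) (nat_lit 495) (nat_lit 308) (nat_lit 277))) (XT.nd (nat_lit 94) (nat_lit 0) (nat_lit 0) (XT.lf (nat_lit 0) (nat_lit 37716454574960) (nat_lit 0) (nat_lit 0) (nat_lit 0) (nat_lit 0) (nat_lit 0) (nat_lit 0) (nat_lit 1) (nat_lit 0) (nat_lit 1) (nat_lit 0) (nat_lit 496) (nat_lit 308) (nat_lit 276)) (XT.lf (nat_lit 0) (nat_lit 40733769113106) (nat_lit 0) (nat_lit 0) (nat_lit 0) (nat_lit 0) (nat_lit 0) (nat_lit 0) (nat_lit 1) (nat_lit 0) (nat_lit 1) (nat_lit 0) (nat_lit 497) (nat_lit 308) (nat_lit 275))))) (XT.nd (nat_lit 376) (nat_lit 0) (nat_lit 0) (XT.nd (nat_lit 188) (nat_lit 0) (nat_lit 0) (XT.nd (nat_lit 94) (nat_lit 0) (nat_lit 0) (XT.lf (nat_lit 0) (nat_lit 43992468833389) (nat_lit 0) (nat_lit 0) (nat_lit 0) (nat_lit 0) (nat_lit 0) (nat_lit 0) (nat_lit 1) (nat_lit 0) (nat_lit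 1) (nat_lit 0) (nat_lit 498) (nat_lit 308) (nat_lit 274)) (XT.lf (nat_lit 0) (nat_lit 47511864548966) (nat_lit 0) (nat_lit 0) (nat_lit 0) (nat_lit 0) (nat_lit 0) (nat_lit 0) (nat_lit 1) (nat_lit 0) (nat_lit 1) (nat_lit 0) (nat_lit 499) (nat_lit 308) (nat_lit 273))) (XT.nd (nat_lit 94) (nat_lit 0) (nat_lit 0) (XT.lf (nat_lit 0) (nat_lit 51312811938152) (nat_lit 0) (nat_lit 0) (nat_lit 0) (nat_lit 0) (nat_lit 0) (nat_lit 0) (nat_lit 1) (nat_lit 0) (nat_lit 1) (nat_lit 0) (nat_lit 500) (nat_lit 308) (nat_lit 272)) (XT.lf (nat_lit 0) (nat_lit 55417835133624) (nat_lit 0) (nat_lit 0) (nat_lit 0) (nat_lit 0) (nat_lit 0) (nat_lit 0) (nat_lit 1) (nat_lit 0) (nat_lit 1) (nat_lit 0) (nat_lit 501) (nat_lit 308) (nat_lit 271)))) (XT.nd (nat_lit 188) (nat_lit 0) (nat_lit 0) (XT.nd (nat_lit 94) (nat_lit 0) (nat_lit 0) (XT.lf (nat_lit 0) (nat_lit 59851260198761) (nat_lit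 0) (nat_lit 0) (nat_lit 0) (nat_lit 0) (nat_lit 0) (nat_lit 0) (nat_lit 1) (nat_lit 0) (nat_lit 1) (nat_lit 0) (nat_lit 502) (nat_lit 308) (nat_lit 270)) (XT.lf (nat_lit 0) (nat_lit 64639359282099) (nat_lit 0) (nat_lit 0) (nat_lit 0) (nat_lit 0) (nat_lit 0) (nat_lit 0) (nat_lit 1) (nat_lit 0) (nat_lit 1) (nat_lit 0) (nat_lit 503) (nat_lit 308) (nat_lit 269))) (XT.nd (nat_lit 63826) (nat_lit 0) (nat_lit 0) (XT.lf (nat_lit 0) (nat_lit 69810506304131) (nat_lit 0) (nat_lit 0) (nat_lit 0) (nat_lit 0) (nat_lit 0) (nat_lit 0) (nat_lit 1) (nat_lit 0) (nat_lit 1) (nat_lit 0) (nat_lit 504) (nat_lit 308) (nat_lit 268)) (XT.lf (nat_lit 0) (nat_lit 1377525404764) (nat_lit 0) (nat_lit 0) (nat_lit 0) (nat_lit 0) (nat_lit 0) (nat_lit 0) (nat_lit 1) (nat_lit 0) (nat_lit 1) (nat_lit 0) (nat_lit 462) (nat_lit 309) (nat_lit 309))))))))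
noncomputable def xc8 : XT := (XT.nd (nat_lit 2632) (nat_lit 0) (nat_lit 0) (XT.nd (nat_lit 1316) (nat_lit 0) (nat_lit 0) (XT.nd (nat_lit 658) (nat_lit 0) (nat_lit 0) (XT.nd (nat_lit 282) (nat_lit 0) (nat_lit 0) (XT.nd (nat_lit 94) (nat_lit 0) (nat_lit 0) (XT.lf (nat_lit 0) (nat_lit 2975449912464) (nat_lit 0) (nat_lit 0) (nat_lit 0) (nat_lit 0) (nat_lit 0) (nat_lit 0) (nat_lit 1) (nat_lit 0) (nat_lit 1) (nat_lit 0) (nat_lit 463) (nat_lit 309) (nat_lit 308)) (XT.nd (nat_lit 94) (nat_lit 0) (nat_lit 0) (XT.lf (nat_lit 0) (nat_lit 3213481185561) (nat_lit 0) (nat_lit 0) (nat_lit 0) (nat_lit 0) (nat_lit 0) (nat_lit 0) (nat_lit 1) (nat_lit 0) (nat_lit 1) (nat_lit 0) (nat_lit 464) (nat_lit 309) (nat_lit 307)) (XT.lf (nat_lit 0) (nat_lit 3470555184511) (nat_lit 0) (nat_lit 0) (nat_lit 0) (nat_lit 0) (nat_lit 0) (nat_lit 0) (nat_lit 1) (nat_lit 0) (nat_lit 1) (nat_lit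 0) (nat_lit 465) (nat_lit 309) (nat_lit 306)))) (XT.nd (nat_lit 188) (nat_lit 0) (nat_lit 0) (XT.nd (nat_lit 94) (nat_lit 0) (nat_lit 0) (XT.lf (nat_lit 0) (nat_lit 3748195310791) (nat_lit 0) (nat_lit 0) (nat_lit 0) (nat_lit 0) (nat_lit 0) (nat_lit 0) (nat_lit 1) (nat_lit 0) (nat_lit 1) (nat_lit 0) (nat_lit 466) (nat_lit 309) (nat_lit 305)) (XT.lf (nat_lit 0) (nat_lit 4048046839223) (nat_lit 0) (nat_lit 0) (nat_lit 0) (nat_lit 0) (nat_lit 0) (nat_lit 0) (nat_lit 1) (nat_lit 0) (nat_lit 1) (nat_lit 0) (nat_lit 467) (nat_lit 309) (nat_lit 304))) (XT.nd (nat_lit 94) (nat_lit 0) (nat_lit 0) (XT.lf (nat_lit 0) (nat_lit 4371886667753) (nat_lit 0) (nat_lit 0) (nat_lit 0) (nat_lit 0) (nat_lit 0) (nat_lit 0) (nat_lit 1) (nat_lit 0) (nat_lit 1) (nat_lit 0) (nat_lit 468) (nat_lit 309) (nat_lit 303)) (XT.lf (nat_lit 0) (nat_lit 4721633847217) (nat_lit 0) (nat_lit 0) (nat_lit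 0) (nat_lit 0) (nat_lit 0) (nat_lit 0) (nat_lit 1) (nat_lit 0) (nat_lit 1) (nat_lit 0) (nat_lit 469) (nat_lit 309) (nat_lit 302))))) (XT.nd (nat_lit 282) (nat_lit 0) (nat_lit 0) (XT.nd (nat_lit 94) (nat_lit 0) (nat_lit 0) (XT.lf (nat_lit 0) (nat_lit 5099360953493) (nat_lit 0) (nat_lit 0) (nat_lit 0) (nat_lit 0) (nat_lit 0) (nat_lit 0) (nat_lit 1) (nat_lit 0) (nat_lit 1) (nat_lit 0) (nat_lit 470) (nat_lit 309) (nat_lit 301)) (XT.nd (nat_lit 94) (nat_lit 0) (nat_lit 0) (XT.lf (nat_lit 0) (nat_lit 5507306369432) (nat_lit 0) (nat_lit 0) (nat_lit 0) (nat_lit 0) (nat_lit 0) (nat_lit 0) (nat_lit 1) (nat_lit 0) (nat_lit 1) (nat_lit 0) (nat_lit 471) (nat_lit 309) (nat_lit 300)) (XT.lf (nat_lit 0) (nat_lit 5947887549353) (nat_lit 0) (nat_lit 0) (nat_lit 0) (nat_lit 0) (nat_lit 0) (nat_lit 0) (nat_lit 1) (nat_lit 0) (nat_lit 1) (nat_lit 0) (nat_lit 472) (nat_lit 309)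 (nat_lit 299)))) (XT.nd (nat_lit 188) (nat_lit 0) (nat_lit 0) (XT.nd (nat_lit 94) (nat_lit 0) (nat_lit 0) (XT.lf (nat_lit 0) (nat_lit 6423715344691) (nat_lit 0) (nat_lit 0) (nat_lit 0) (nat_lit 0) (nat_lit 0) (nat_lit 0) (nat_lit 1) (nat_lit 0) (nat_lit 1) (nat_lit 0) (nat_lit 473) (nat_lit 309) (nat_lit 298)) (XT.lf (nat_lit 0) (nat_lit 6937609475715) (nat_lit 0) (nat_lit 0) (nat_lit 0) (nat_lit 0) (nat_lit 0) (nat_lit 0) (nat_lit 1) (nat_lit 0) (nat_lit 1) (nat_lit 0) (nat_lit 474) (nat_lit 309) (nat_lit 297))) (XT.nd (nat_lit 94) (nat_lit 0) (nat_lit 0) (XT.lf (nat_lit 0) (nat_lit 7492615240979) (nat_lit 0) (nat_lit 0) (nat_lit 0) (nat_lit 0) (nat_lit 0) (nat_lit 0) (nat_lit 1) (nat_lit 0) (nat_lit 1) (nat_lit 0) (nat_lit 475) (nat_lit 309) (nat_lit 296)) (XT.lf (nat_lit 0) (nat_lit 8092021563537) (nat_lit 0) (nat_lit 0) (nat_lit 0) (nat_lit 0) (nat_lit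 0) (nat_lit 0) (nat_lit 1) (nat_lit 0) (nat_lit 1) (nat_lit 0) (nat_lit 476) (nat_lit 309) (nat_lit 295)))))) (XT.nd (nat_lit 658) (nat_lit 0) (nat_lit 0) (XT.nd (nat_lit 282) (nat_lit 0) (nat_lit 0) (XT.nd (nat_lit 94) (nat_lit 0) (nat_lit 0) (XT.lf (nat_lit 0) (nat_lit 8739380480855) (nat_lit 0) (nat_lit 0) (nat_lit 0) (nat_lit 0) (nat_lit 0) (nat_lit 0) (nat_lit 1) (nat_lit 0) (nat_lit 1) (nat_lit 0) (nat_lit 477) (nat_lit 309) (nat_lit 294)) (XT.nd (nat_lit 94) (nat_lit 0) (nat_lit 0) (XT.lf (nat_lit 0) (nat_lit 9438528193925) (nat_lit 0) (nat_lit 0) (nat_lit 0) (nat_lit 0) (nat_lit 0) (nat_lit 0) (nat_lit 1) (nat_lit 0) (nat_lit 1) (nat_lit 0) (nat_lit 478) (nat_lit 309) (nat_lit 293)) (XT.lf (nat_lit 0) (nat_lit 10193607800307) (nat_lit 0) (nat_lit 0) (nat_lit 0) (nat_lit 0) (nat_lit 0) (nat_lit 0) (nat_lit 1) (nat_lit 0) (nat_lit 1) (nat_lit 0) (nat_lit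 479) (nat_lit 309) (nat_lit 292)))) (XT.nd (nat_lit 188) (nat_lit 0) (nat_lit 0) (XT.nd (nat_lit 94) (nat_lit 0) (nat_lit 0) (XT.lf (nat_lit 0) (nat_lit 11009093845815) (nat_lit 0) (nat_lit 0) (nat_lit 0) (nat_lit 0) (nat_lit 0) (nat_lit 0) (nat_lit 1) (nat_lit 0) (nat_lit 1) (nat_lit 0) (nat_lit 480) (nat_lit 309) (nat_lit 291)) (XT.lf (nat_lit 0) (nat_lit 11889818840350) (nat_lit 0) (nat_lit 0) (nat_lit 0) (nat_lit 0) (nat_lit 0) (nat_lit 0) (nat_lit 1) (nat_lit 0) (nat_lit 1) (nat_lit 0) (nat_lit 481) (nat_lit 309) (nat_lit 290))) (XT.nd (nat_lit 94) (nat_lit 0) (nat_lit 0) (XT.lf (nat_lit 0) (nat_lit 12841001894988) (nat_lit 0) (nat_lit 0) (nat_lit 0) (nat_lit 0) (nat_lit 0) (nat_lit 0) (nat_lit 1) (nat_lit 0) (nat_lit 1) (nat_lit 0) (nat_lit 482) (nat_lit 309) (nat_lit 289)) (XT.lf (nat_lit 0) (nat_lit 13868279650056) (nat_lit 0) (nat_lit 0) (nat_lit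 0) (nat_lit 0) (nat_lit 0) (nat_lit 0) (nat_lit 1) (nat_lit 0) (nat_lit 1) (nat_lit 0) (nat_lit 483) (nat_lit 309) (nat_lit 288))))) (XT.nd (nat_lit 282) (nat_lit 0) (nat_lit 0) (XT.nd (nat_lit 94) (nat_lit 0) (nat_lit 0) (XT.lf (nat_lit 0) (nat_lit 14977739677434) (nat_lit 0) (nat_lit 0) (nat_lit 0) (nat_lit 0) (nat_lit 0) (nat_lit 0) (nat_lit 1) (nat_lit 0) (nat_lit 1) (nat_lit 0) (nat_lit 484) (nat_lit 309) (nat_lit 287)) (XT.nd (nat_lit 94) (nat_lit 0) (nat_lit 0) (XT.lf (nat_lit 0) (nat_lit 16175956555062) (nat_lit 0) (nat_lit 0) (nat_lit 0) (nat_lit 0) (nat_lit 0) (nat_lit 0) (nat_lit 1) (nat_lit 0) (nat_lit 1) (nat_lit 0) (nat_lit 485) (nat_lit 309) (nat_lit 286)) (XT.lf (nat_lit 0) (nat_lit 17470030827401) (nat_lit 0) (nat_lit 0) (nat_lit 0) (nat_lit 0) (nat_lit 0) (nat_lit 0) (nat_lit 1) (nat_lit 0) (nat_lit 1) (nat_lit 0) (nat_lit 486) (nat_lit 309)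 (nat_lit 285)))) (XT.nd (nat_lit 188) (nat_lit 0) (nat_lit 0) (XT.nd (nat_lit 94) (nat_lit 0) (nat_lit 0) (XT.lf (nat_lit 0) (nat_lit 18867631082730) (nat_lit 0) (nat_lit 0) (nat_lit 0) (nat_lit 0) (nat_lit 0) (nat_lit 0) (nat_lit 1) (nat_lit 0) (nat_lit 1) (nat_lit 0) (nat_lit 487) (nat_lit 309) (nat_lit 284)) (XT.lf (nat_lit 0) (nat_lit 20377039396638) (nat_lit 0) (nat_lit 0) (nat_lit 0) (nat_lit 0) (nat_lit 0) (nat_lit 0) (nat_lit 1) (nat_lit 0) (nat_lit 1) (nat_lit 0) (nat_lit 488) (nat_lit 309) (nat_lit 283))) (XT.nd (nat_lit 94) (nat_lit 0) (nat_lit 0) (XT.lf (nat_lit 0) (nat_lit 22007200410984) (nat_lit 0) (nat_lit 0) (nat_lit 0) (nat_lit 0) (nat_lit 0) (nat_lit 0) (nat_lit 1) (nat_lit 0) (nat_lit 1) (nat_lit 0) (nat_lit 489) (nat_lit 309) (nat_lit 282)) (XT.lf (nat_lit 0) (nat_lit 23767774339186) (nat_lit 0) (nat_lit 0) (nat_lit 0) (nat_lit 0) (nat_lit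 0) (nat_lit 0) (nat_lit 1) (nat_lit 0) (nat_lit 1) (nat_lit 0) (nat_lit 490) (nat_lit 309) (nat_lit 281))))))) (XT.nd (nat_lit 64860) (nat_lit 0) (nat_lit 0) (XT.nd (nat_lit 658) (nat_lit 0) (nat_lit 0) (XT.nd (nat_lit 282) (nat_lit 0) (nat_lit 0) (XT.nd (nat_lit 94) (nat_lit 0) (nat_lit 0) (XT.lf (nat_lit 0) (nat_lit 25669194211931) (nat_lit 0) (nat_lit 0) (nat_lit 0) (nat_lit 0) (nat_lit 0) (nat_lit 0) (nat_lit 1) (nat_lit 0) (nat_lit 1) (nat_lit 0) (nat_lit 491) (nat_lit 309) (nat_lit 280)) (XT.nd (nat_lit 94) (nat_lit 0) (nat_lit 0) (XT.lf (nat_lit 0) (nat_lit 27722727702538) (nat_lit 0) (nat_lit 0) (nat_lit 0) (nat_lit 0) (nat_lit 0) (nat_lit 0) (nat_lit 1) (nat_lit 0) (nat_lit 1) (nat_lit 0) (nat_lit 492) (nat_lit 309) (nat_lit 279)) (XT.lf (nat_lit 0) (nat_lit 29940543898359) (nat_lit 0) (nat_lit 0) (nat_lit 0) (nat_lit 0) (nat_lit 0) (nat_lit 0) (nat_lit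 1) (nat_lit 0) (nat_lit 1) (nat_lit 0) (nat_lit 493) (nat_lit 309) (nat_lit 278)))) (XT.nd (nat_lit 188) (nat_lit 0) (nat_lit 0) (XT.nd (nat_lit 94) (nat_lit 0) (nat_lit 0) (XT.lf (nat_lit 0) (nat_lit 32335785413888) (nat_lit 0) (nat_lit 0) (nat_lit 0) (nat_lit 0) (nat_lit 0) (nat_lit 0) (nat_lit 1) (nat_lit 0) (nat_lit 1) (nat_lit 0) (nat_lit 494) (nat_lit 309) (nat_lit 277)) (XT.lf (nat_lit 0) (nat_lit 34922646272920) (nat_lit 0) (nat_lit 0) (nat_lit 0) (nat_lit 0) (nat_lit 0) (nat_lit 0) (nat_lit 1) (nat_lit 0) (nat_lit 1) (nat_lit 0) (nat_lit 495) (nat_lit 309) (nat_lit 276))) (XT.nd (nat_lit 94) (nat_lit 0) (nat_lit 0) (XT.lf (nat_lit 0) (nat_lit 37716456021287) (nat_lit 0) (nat_lit 0) (nat_lit 0) (nat_lit 0) (nat_lit 0) (nat_lit 0) (nat_lit 1) (nat_lit 0) (nat_lit 1) (nat_lit 0) (nat_lit 496) (nat_lit 309) (nat_lit 275)) (XT.lf (nat_lit 0) (nat_lit 40733770568609)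 (nat_lit 0) (nat_lit 0) (nat_lit 0) (nat_lit 0) (nat_lit 0) (nat_lit 0) (nat_lit 1) (nat_lit 0) (nat_lit 1) (nat_lit 0) (nat_lit 497) (nat_lit 309) (nat_lit 274))))) (XT.nd (nat_lit 282) (nat_lit 0) (nat_lit 0) (XT.nd (nat_lit 94) (nat_lit 0) (nat_lit 0) (XT.lf (nat_lit 0) (nat_lit 43992470297388) (nat_lit 0) (nat_lit 0) (nat_lit 0) (nat_lit 0) (nat_lit 0) (nat_lit 0) (nat_lit 1) (nat_lit 0) (nat_lit 1) (nat_lit 0) (nat_lit 498) (nat_lit 309) (nat_lit 273)) (XT.nd (nat_lit 94) (nat_lit 0) (nat_lit 0) (XT.lf (nat_lit 0) (nat_lit 47511866020832) (nat_lit 0) (nat_lit 0) (nat_lit 0) (nat_lit 0) (nat_lit 0) (nat_lit 0) (nat_lit 1) (nat_lit 0) (nat_lit 1) (nat_lit 0) (nat_lit 499) (nat_lit 309) (nat_lit 272)) (XT.lf (nat_lit 0) (nat_lit 51312813417302) (nat_lit 0) (nat_lit 0) (nat_lit 0) (nat_lit 0) (nat_lit 0) (nat_lit 0) (nat_lit 1) (nat_lit 0) (nat_lit 1) (nat_lit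 0) (nat_lit 500) (nat_lit 309) (nat_lit 271)))) (XT.nd (nat_lit 188) (nat_lit 0) (nat_lit 0) (XT.nd (nat_lit 94) (nat_lit 0) (nat_lit 0) (XT.lf (nat_lit 0) (nat_lit 55417836619518) (nat_lit 0) (nat_lit 0) (nat_lit 0) (nat_lit 0) (nat_lit 0) (nat_lit 0) (nat_lit 1) (nat_lit 0) (nat_lit 1) (nat_lit 0) (nat_lit 501) (nat_lit 309) (nat_lit 270)) (XT.lf (nat_lit 0) (nat_lit 59851261690900) (nat_lit 0) (nat_lit 0) (nat_lit 0) (nat_lit 0) (nat_lit 0) (nat_lit 0) (nat_lit 1) (nat_lit 0) (nat_lit 1) (nat_lit 0) (nat_lit 502) (nat_lit 309) (nat_lit 269))) (XT.nd (nat_lit 94) (nat_lit 0) (nat_lit 0) (XT.lf (nat_lit 0) (nat_lit 64639360780020) (nat_lit 0) (nat_lit 0) (nat_lit 0) (nat_lit 0) (nat_lit 0) (nat_lit 0) (nat_lit 1) (nat_lit 0) (nat_lit 1) (nat_lit 0) (nat_lit 503) (nat_lit 309) (nat_lit 268)) (XT.lf (nat_lit 0) (nat_lit 69810507807406) (nat_lit 0) (nat_lit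 0) (nat_lit 0) (nat_lit 0) (nat_lit 0) (nat_lit 0) (nat_lit 1) (nat_lit 0) (nat_lit 1) (nat_lit 0) (nat_lit 504) (nat_lit 309) (nat_lit 267)))))) (XT.nd (nat_lit 658) (nat_lit 0) (nat_lit 0) (XT.nd (nat_lit 282) (nat_lit 0) (nat_lit 0) (XT.nd (nat_lit 94) (nat_lit 0) (nat_lit 0) (XT.lf (nat_lit 0) (nat_lit 1181010725357) (nat_lit 0) (nat_lit 0) (nat_lit 0) (nat_lit 0) (nat_lit 0) (nat_lit 0) (nat_lit 1) (nat_lit 0) (nat_lit 1) (nat_lit 0) (nat_lit 460) (nat_lit 310) (nat_lit 310)) (XT.nd (nat_lit 94) (nat_lit 0) (nat_lit 0) (XT.lf (nat_lit 0) (nat_lit 2550977807998) (nat_lit 0) (nat_lit 0) (nat_lit 0) (nat_lit 0) (nat_lit 0) (nat_lit 0) (nat_lit 1) (nat_lit 0) (nat_lit 1) (nat_lit 0) (nat_lit 461) (nat_lit 310) (nat_lit 309)) (XT.lf (nat_lit 0) (nat_lit 2755050935145) (nat_lit 0) (nat_lit 0) (nat_lit 0) (nat_lit 0) (nat_lit 0) (nat_lit 0) (nat_lit 1) (nat_lit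 0) (nat_lit 1) (nat_lit 0) (nat_lit 462) (nat_lit 310) (nat_lit 308)))) (XT.nd (nat_lit 188) (nat_lit 0) (nat_lit 0) (XT.nd (nat_lit 94) (nat_lit 0) (nat_lit 0) (XT.lf (nat_lit 0) (nat_lit 2975450154391) (nat_lit 0) (nat_lit 0) (nat_lit 0) (nat_lit 0) (nat_lit 0) (nat_lit 0) (nat_lit 1) (nat_lit 0) (nat_lit 1) (nat_lit 0) (nat_lit 463) (nat_lit 310) (nat_lit 307)) (XT.lf (nat_lit 0) (nat_lit 3213481535183) (nat_lit 0) (nat_lit 0) (nat_lit 0) (nat_lit 0) (nat_lit 0) (nat_lit 0) (nat_lit 1) (nat_lit 0) (nat_lit 1) (nat_lit 0) (nat_lit 464) (nat_lit 310) (nat_lit 306))) (XT.nd (nat_lit 94) (nat_lit 0) (nat_lit 0) (XT.lf (nat_lit 0) (nat_lit 3470555633851) (nat_lit 0) (nat_lit 0) (nat_lit 0) (nat_lit 0) (nat_lit 0) (nat_lit 0) (nat_lit 1) (nat_lit 0) (nat_lit 1) (nat_lit 0) (nat_lit 465) (nat_lit 310) (nat_lit 305)) (XT.lf (nat_lit 0) (nat_lit 3748195852463) (nat_lit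 0) (nat_lit 0) (nat_lit 0) (nat_lit 0) (nat_lit 0) (nat_lit 0) (nat_lit 1) (nat_lit 0) (nat_lit 1) (nat_lit 0) (nat_lit 466) (nat_lit 310) (nat_lit 304))))) (XT.nd (nat_lit 282) (nat_lit 0) (nat_lit 0) (XT.nd (nat_lit 94) (nat_lit 0) (nat_lit 0) (XT.lf (nat_lit 0) (nat_lit 4048047466387) (nat_lit 0) (nat_lit 0) (nat_lit 0) (nat_lit 0) (nat_lit 0) (nat_lit 0) (nat_lit 1) (nat_lit 0) (nat_lit 1) (nat_lit 0) (nat_lit 467) (nat_lit 310) (nat_lit 303)) (XT.nd (nat_lit 94) (nat_lit 0) (nat_lit 0) (XT.lf (nat_lit 0) (nat_lit 4371887374076) (nat_lit 0) (nat_lit 0) (nat_lit 0) (nat_lit 0) (nat_lit 0) (nat_lit 0) (nat_lit 1) (nat_lit 0) (nat_lit 1) (nat_lit 0) (nat_lit 468) (nat_lit 310) (nat_lit 302)) (XT.lf (nat_lit 0) (nat_lit 4721634626835) (nat_lit 0) (nat_lit 0) (nat_lit 0) (nat_lit 0) (nat_lit 0) (nat_lit 0) (nat_lit 1) (nat_lit 0) (nat_lit 1) (nat_lit 0) (nat_lit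 469) (nat_lit 310) (nat_lit 301)))) (XT.nd (nat_lit 188) (nat_lit 0) (nat_lit 0) (XT.nd (nat_lit 94) (nat_lit 0) (nat_lit 0) (XT.lf (nat_lit 0) (nat_lit 5099361800978) (nat_lit 0) (nat_lit 0) (nat_lit 0) (nat_lit 0) (nat_lit 0) (nat_lit 0) (nat_lit 1) (nat_lit 0) (nat_lit 1) (nat_lit 0) (nat_lit 470) (nat_lit 310) (nat_lit 300)) (XT.lf (nat_lit 0) (nat_lit 5507307279757) (nat_lit 0) (nat_lit 0) (nat_lit 0) (nat_lit 0) (nat_lit 0) (nat_lit 0) (nat_lit 1) (nat_lit 0) (nat_lit 1) (nat_lit 0) (nat_lit 471) (nat_lit 310) (nat_lit 299))) (XT.nd (nat_lit 94) (nat_lit 0) (nat_lit 0) (XT.lf (nat_lit 0) (nat_lit 5947888517862) (nat_lit 0) (nat_lit 0) (nat_lit 0) (nat_lit 0) (nat_lit 0) (nat_lit 0) (nat_lit 1) (nat_lit 0) (nat_lit 1) (nat_lit 0) (nat_lit 472) (nat_lit 310) (nat_lit 298)) (XT.lf (nat_lit 0) (nat_lit 6423716367074) (nat_lit 0) (nat_lit 0) (nat_lit 0) (nat_lit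 0) (nat_lit 0) (nat_lit 0) (nat_lit 1) (nat_lit 0) (nat_lit 1) (nat_lit 0) (nat_lit 473) (nat_lit 310) (nat_lit 297))))))))
noncomputable def xc9 : XT := (XT.nd (nat_lit 2632) (nat_lit 0) (nat_lit 0) (XT.nd (nat_lit 1316) (nat_lit 0) (nat_lit 0) (XT.nd (nat_lit 658) (nat_lit 0) (nat_lit 0) (XT.nd (nat_lit 282) (nat_lit 0) (nat_lit 0) (XT.nd (nat_lit 94) (nat_lit 0) (nat_lit 0) (XT.lf (nat_lit 0) (nat_lit 6937610547982) (nat_lit 0) (nat_lit 0) (nat_lit 0) (nat_lit 0) (nat_lit 0) (nat_lit 0) (nat_lit 1) (nat_lit 0) (nat_lit 1) (nat_lit 0) (nat_lit 474) (nat_lit 310) (nat_lit 296)) (XT.nd (nat_lit 94) (nat_lit 0) (nat_lit 0) (XT.lf (nat_lit 0) (nat_lit 7492616359435) (nat_lit 0) (nat_lit 0) (nat_lit 0) (nat_lit 0) (nat_lit 0) (nat_lit 0) (nat_lit 1) (nat_lit 0) (nat_lit 1) (nat_lit 0) (nat_lit 475) (nat_lit 310) (nat_lit 295)) (XT.lf (nat_lit 0) (nat_lit 8092022724760)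 (nat_lit 0) (nat_lit 0) (nat_lit 0) (nat_lit 0) (nat_lit 0) (nat_lit 0) (nat_lit 1) (nat_lit 0) (nat_lit 1) (nat_lit 0) (nat_lit 476) (nat_lit 310) (nat_lit 294)))) (XT.nd (nat_lit 188) (nat_lit 0) (nat_lit 0) (XT.nd (nat_lit 94) (nat_lit 0) (nat_lit 0) (XT.lf (nat_lit 0) (nat_lit 8739381681677) (nat_lit 0) (nat_lit 0) (nat_lit 0) (nat_lit 0) (nat_lit 0) (nat_lit 0) (nat_lit 1) (nat_lit 0) (nat_lit 1) (nat_lit 0) (nat_lit 477) (nat_lit 310) (nat_lit 293)) (XT.lf (nat_lit 0) (nat_lit 9438529431414) (nat_lit 0) (nat_lit 0) (nat_lit 0) (nat_lit 0) (nat_lit 0) (nat_lit 0) (nat_lit 1) (nat_lit 0) (nat_lit 1) (nat_lit 0) (nat_lit 478) (nat_lit 310) (nat_lit 292))) (XT.nd (nat_lit 94) (nat_lit 0) (nat_lit 0) (XT.lf (nat_lit 0) (nat_lit 10193609071746) (nat_lit 0) (nat_lit 0) (nat_lit 0) (nat_lit 0) (nat_lit 0) (nat_lit 0) (nat_lit 1) (nat_lit 0) (nat_lit 1) (nat_lit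 0) (nat_lit 479) (nat_lit 310) (nat_lit 291)) (XT.lf (nat_lit 0) (nat_lit 11009095148689) (nat_lit 0) (nat_lit 0) (nat_lit 0) (nat_lit 0) (nat_lit 0) (nat_lit 0) (nat_lit 1) (nat_lit 0) (nat_lit 1) (nat_lit 0) (nat_lit 480) (nat_lit 310) (nat_lit 290))))) (XT.nd (nat_lit 282) (nat_lit 0) (nat_lit 0) (XT.nd (nat_lit 94) (nat_lit 0) (nat_lit 0) (XT.lf (nat_lit 0) (nat_lit 11889820172330) (nat_lit 0) (nat_lit 0) (nat_lit 0) (nat_lit 0) (nat_lit 0) (nat_lit 0) (nat_lit 1) (nat_lit 0) (nat_lit 1) (nat_lit 0) (nat_lit 481) (nat_lit 310) (nat_lit 289)) (XT.nd (nat_lit 94) (nat_lit 0) (nat_lit 0) (XT.lf (nat_lit 0) (nat_lit 12841003253920) (nat_lit 0) (nat_lit 0) (nat_lit 0) (nat_lit 0) (nat_lit 0) (nat_lit 0) (nat_lit 1) (nat_lit 0) (nat_lit 1) (nat_lit 0) (nat_lit 482) (nat_lit 310) (nat_lit 288)) (XT.lf (nat_lit 0) (nat_lit 13868281033941) (nat_lit 0) (nat_lit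 0) (nat_lit 0) (nat_lit 0) (nat_lit 0) (nat_lit 0) (nat_lit 1) (nat_lit 0) (nat_lit 1) (nat_lit 0) (nat_lit 483) (nat_lit 310) (nat_lit 287)))) (XT.nd (nat_lit 188) (nat_lit 0) (nat_lit 0) (XT.nd (nat_lit 94) (nat_lit 0) (nat_lit 0) (XT.lf (nat_lit 0) (nat_lit 14977741084425) (nat_lit 0) (nat_lit 0) (nat_lit 0) (nat_lit 0) (nat_lit 0) (nat_lit 0) (nat_lit 1) (nat_lit 0) (nat_lit 1) (nat_lit 0) (nat_lit 484) (nat_lit 310) (nat_lit 286)) (XT.lf (nat_lit 0) (nat_lit 16175957983448) (nat_lit 0) (nat_lit 0) (nat_lit 0) (nat_lit 0) (nat_lit 0) (nat_lit 0) (nat_lit 1) (nat_lit 0) (nat_lit 1) (nat_lit 0) (nat_lit 485) (nat_lit 310) (nat_lit 285))) (XT.nd (nat_lit 94) (nat_lit 0) (nat_lit 0) (XT.lf (nat_lit 0) (nat_lit 17470032275596) (nat_lit 0) (nat_lit 0) (nat_lit 0) (nat_lit 0) (nat_lit 0) (nat_lit 0) (nat_lit 1) (nat_lit 0) (nat_lit 1) (nat_lit 0) (nat_lit 486)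 (nat_lit 310) (nat_lit 284)) (XT.lf (nat_lit 0) (nat_lit 18867632549268) (nat_lit 0) (nat_lit 0) (nat_lit 0) (nat_lit 0) (nat_lit 0) (nat_lit 0) (nat_lit 1) (nat_lit 0) (nat_lit 1) (nat_lit 0) (nat_lit 487) (nat_lit 310) (nat_lit 283)))))) (XT.nd (nat_lit 658) (nat_lit 0) (nat_lit 0) (XT.nd (nat_lit 282) (nat_lit 0) (nat_lit 0) (XT.nd (nat_lit 94) (nat_lit 0) (nat_lit 0) (XT.lf (nat_lit 0) (nat_lit 20377040880159) (nat_lit 0) (nat_lit 0) (nat_lit 0) (nat_lit 0) (nat_lit 0) (nat_lit 0) (nat_lit 1) (nat_lit 0) (nat_lit 1) (nat_lit 0) (nat_lit 488) (nat_lit 310) (nat_lit 282)) (XT.nd (nat_lit 94) (nat_lit 0) (nat_lit 0) (XT.lf (nat_lit 0) (nat_lit 22007201910230) (nat_lit 0) (nat_lit 0) (nat_lit 0) (nat_lit 0) (nat_lit 0) (nat_lit 0) (nat_lit 1) (nat_lit 0) (nat_lit 1) (nat_lit 0) (nat_lit 489) (nat_lit 310) (nat_lit 281)) (XT.lf (nat_lit 0) (nat_lit 23767775852993)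 (nat_lit 0) (nat_lit 0) (nat_lit 0) (nat_lit 0) (nat_lit 0) (nat_lit 0) (nat_lit 1) (nat_lit 0) (nat_lit 1) (nat_lit 0) (nat_lit 490) (nat_lit 310) (nat_lit 280)))) (XT.nd (nat_lit 188) (nat_lit 0) (nat_lit 0) (XT.nd (nat_lit 94) (nat_lit 0) (nat_lit 0) (XT.lf (nat_lit 0) (nat_lit 25669195739220) (nat_lit 0) (nat_lit 0) (nat_lit 0) (nat_lit 0) (nat_lit 0) (nat_lit 0) (nat_lit 1) (nat_lit 0) (nat_lit 1) (nat_lit 0) (nat_lit 491) (nat_lit 310) (nat_lit 279)) (XT.lf (nat_lit 0) (nat_lit 27722729242310) (nat_lit 0) (nat_lit 0) (nat_lit 0) (nat_lit 0) (nat_lit 0) (nat_lit 0) (nat_lit 1) (nat_lit 0) (nat_lit 1) (nat_lit 0) (nat_lit 492) (nat_lit 310) (nat_lit 278))) (XT.nd (nat_lit 94) (nat_lit 0) (nat_lit 0) (XT.lf (nat_lit 0) (nat_lit 29940545449690) (nat_lit 0) (nat_lit 0) (nat_lit 0) (nat_lit 0) (nat_lit 0) (nat_lit 0) (nat_lit 1) (nat_lit 0) (nat_lit 1) (nat_lit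 0) (nat_lit 493) (nat_lit 310) (nat_lit 277)) (XT.lf (nat_lit 0) (nat_lit 32335786975921) (nat_lit 0) (nat_lit 0) (nat_lit 0) (nat_lit 0) (nat_lit 0) (nat_lit 0) (nat_lit 1) (nat_lit 0) (nat_lit 1) (nat_lit 0) (nat_lit 494) (nat_lit 310) (nat_lit 276))))) (XT.nd (nat_lit 282) (nat_lit 0) (nat_lit 0) (XT.nd (nat_lit 94) (nat_lit 0) (nat_lit 0) (XT.lf (nat_lit 0) (nat_lit 34922647844863) (nat_lit 0) (nat_lit 0) (nat_lit 0) (nat_lit 0) (nat_lit 0) (nat_lit 0) (nat_lit 1) (nat_lit 0) (nat_lit 1) (nat_lit 0) (nat_lit 495) (nat_lit 310) (nat_lit 275)) (XT.nd (nat_lit 94) (nat_lit 0) (nat_lit 0) (XT.lf (nat_lit 0) (nat_lit 37716457602406) (nat_lit 0) (nat_lit 0) (nat_lit 0) (nat_lit 0) (nat_lit 0) (nat_lit 0) (nat_lit 1) (nat_lit 0) (nat_lit 1) (nat_lit 0) (nat_lit 496) (nat_lit 310) (nat_lit 274)) (XT.lf (nat_lit 0) (nat_lit 40733772158223) (nat_lit 0) (nat_lit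 0) (nat_lit 0) (nat_lit 0) (nat_lit 0) (nat_lit 0) (nat_lit 1) (nat_lit 0) (nat_lit 1) (nat_lit 0) (nat_lit 497) (nat_lit 310) (nat_lit 273)))) (XT.nd (nat_lit 188) (nat_lit 0) (nat_lit 0) (XT.nd (nat_lit 94) (nat_lit 0) (nat_lit 0) (XT.lf (nat_lit 0) (nat_lit 43992471894869) (nat_lit 0) (nat_lit 0) (nat_lit 0) (nat_lit 0) (nat_lit 0) (nat_lit 0) (nat_lit 1) (nat_lit 0) (nat_lit 1) (nat_lit 0) (nat_lit 498) (nat_lit 310) (nat_lit 272)) (XT.lf (nat_lit 0) (nat_lit 47511867625597) (nat_lit 0) (nat_lit 0) (nat_lit 0) (nat_lit 0) (nat_lit 0) (nat_lit 0) (nat_lit 1) (nat_lit 0) (nat_lit 1) (nat_lit 0) (nat_lit 499) (nat_lit 310) (nat_lit 271))) (XT.nd (nat_lit 94) (nat_lit 0) (nat_lit 0) (XT.lf (nat_lit 0) (nat_lit 51312815028811) (nat_lit 0) (nat_lit 0) (nat_lit 0) (nat_lit 0) (nat_lit 0) (nat_lit 0) (nat_lit 1) (nat_lit 0) (nat_lit 1) (nat_lit 0) (nat_lit 500)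 (nat_lit 310) (nat_lit 270)) (XT.lf (nat_lit 0) (nat_lit 55417838237272) (nat_lit 0) (nat_lit 0) (nat_lit 0) (nat_lit 0) (nat_lit 0) (nat_lit 0) (nat_lit 1) (nat_lit 0) (nat_lit 1) (nat_lit 0) (nat_lit 501) (nat_lit 310) (nat_lit 269))))))) (XT.nd (nat_lit 64672) (nat_lit 0) (nat_lit 0) (XT.nd (nat_lit 64014) (nat_lit 0) (nat_lit 0) (XT.nd (nat_lit 63638) (nat_lit 0) (nat_lit 0) (XT.nd (nat_lit 94) (nat_lit 0) (nat_lit 0) (XT.lf (nat_lit 0) (nat_lit 59851263314437) (nat_lit 0) (nat_lit 0) (nat_lit 0) (nat_lit 0) (nat_lit 0) (nat_lit 0) (nat_lit 1) (nat_lit 0) (nat_lit 1) (nat_lit 0) (nat_lit 502) (nat_lit 310) (nat_lit 268)) (XT.nd (nat_lit 94) (nat_lit 0) (nat_lit 0) (XT.lf (nat_lit 0) (nat_lit 64639362408911) (nat_lit 0) (nat_lit 0) (nat_lit 0) (nat_lit 0) (nat_lit 0) (nat_lit 0) (nat_lit 1) (nat_lit 0) (nat_lit 1) (nat_lit 0) (nat_lit 503) (nat_lit 310)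 (nat_lit 267)) (XT.lf (nat_lit 0) (nat_lit 69810509441254) (nat_lit 0) (nat_lit 0) (nat_lit 0) (nat_lit 0) (nat_lit 0) (nat_lit 0) (nat_lit 1) (nat_lit 0) (nat_lit 1) (nat_lit 0) (nat_lit 504) (nat_lit 310) (nat_lit 266)))) (XT.nd (nat_lit 188) (nat_lit 0) (nat_lit 0) (XT.nd (nat_lit 94) (nat_lit 0) (nat_lit 0) (XT.lf (nat_lit 0) (nat_lit 1012531439534) (nat_lit 0) (nat_lit 0) (nat_lit 0) (nat_lit 0) (nat_lit 0) (nat_lit 0) (nat_lit 1) (nat_lit 0) (nat_lit 1) (nat_lit 0) (nat_lit 458) (nat_lit 311) (nat_lit 311)) (XT.lf (nat_lit 0) (nat_lit 2187062121918) (nat_lit 0) (nat_lit 0) (nat_lit 0) (nat_lit 0) (nat_lit 0) (nat_lit 0) (nat_lit 1) (nat_lit 0) (nat_lit 1) (nat_lit 0) (nat_lit 459) (nat_lit 311) (nat_lit 310))) (XT.nd (nat_lit 94) (nat_lit 0) (nat_lit 0) (XT.lf (nat_lit 0) (nat_lit 2362021586379) (nat_lit 0) (nat_lit 0) (nat_lit 0) (nat_lit 0) (nat_lit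 0) (nat_lit 0) (nat_lit 1) (nat_lit 0) (nat_lit 1) (nat_lit 0) (nat_lit 460) (nat_lit 311) (nat_lit 309)) (XT.lf (nat_lit 0) (nat_lit 2550978069279) (nat_lit 0) (nat_lit 0) (nat_lit 0) (nat_lit 0) (nat_lit 0) (nat_lit 0) (nat_lit 1) (nat_lit 0) (nat_lit 1) (nat_lit 0) (nat_lit 461) (nat_lit 311) (nat_lit 308))))) (XT.nd (nat_lit 282) (nat_lit 0) (nat_lit 0) (XT.nd (nat_lit 94) (nat_lit 0) (nat_lit 0) (XT.lf (nat_lit 0) (nat_lit 2755051312737) (nat_lit 0) (nat_lit 0) (nat_lit 0) (nat_lit 0) (nat_lit 0) (nat_lit 0) (nat_lit 1) (nat_lit 0) (nat_lit 1) (nat_lit 0) (nat_lit 462) (nat_lit 311) (nat_lit 307)) (XT.nd (nat_lit 94) (nat_lit 0) (nat_lit 0) (XT.lf (nat_lit 0) (nat_lit 2975450639678) (nat_lit 0) (nat_lit 0) (nat_lit 0) (nat_lit 0) (nat_lit 0) (nat_lit 0) (nat_lit 1) (nat_lit 0) (nat_lit 1) (nat_lit 0) (nat_lit 463) (nat_lit 311) (nat_lit 306)) (XT.lf (nat_lit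 0) (nat_lit 3213482120188) (nat_lit 0) (nat_lit 0) (nat_lit 0) (nat_lit 0) (nat_lit 0) (nat_lit 0) (nat_lit 1) (nat_lit 0) (nat_lit 1) (nat_lit 0) (nat_lit 464) (nat_lit 311) (nat_lit 305)))) (XT.nd (nat_lit 188) (nat_lit 0) (nat_lit 0) (XT.nd (nat_lit 94) (nat_lit 0) (nat_lit 0) (XT.lf (nat_lit 0) (nat_lit 3470556311188) (nat_lit 0) (nat_lit 0) (nat_lit 0) (nat_lit 0) (nat_lit 0) (nat_lit 0) (nat_lit 1) (nat_lit 0) (nat_lit 1) (nat_lit 0) (nat_lit 465) (nat_lit 311) (nat_lit 304)) (XT.lf (nat_lit 0) (nat_lit 3748196615292) (nat_lit 0) (nat_lit 0) (nat_lit 0) (nat_lit 0) (nat_lit 0) (nat_lit 0) (nat_lit 1) (nat_lit 0) (nat_lit 1) (nat_lit 0) (nat_lit 466) (nat_lit 311) (nat_lit 303))) (XT.nd (nat_lit 94) (nat_lit 0) (nat_lit 0) (XT.lf (nat_lit 0) (nat_lit 4048048308375) (nat_lit 0) (nat_lit 0) (nat_lit 0) (nat_lit 0) (nat_lit 0) (nat_lit 0) (nat_lit 1) (nat_lit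 0) (nat_lit 1) (nat_lit 0) (nat_lit 467) (nat_lit 311) (nat_lit 302)) (XT.lf (nat_lit 0) (nat_lit 4371888289360) (nat_lit 0) (nat_lit 0) (nat_lit 0) (nat_lit 0) (nat_lit 0) (nat_lit 0) (nat_lit 1) (nat_lit 0) (nat_lit 1) (nat_lit 0) (nat_lit 468) (nat_lit 311) (nat_lit 301)))))) (XT.nd (nat_lit 658) (nat_lit 0) (nat_lit 0) (XT.nd (nat_lit 282) (nat_lit 0) (nat_lit 0) (XT.nd (nat_lit 94) (nat_lit 0) (nat_lit 0) (XT.lf (nat_lit 0) (nat_lit 4721635609986) (nat_lit 0) (nat_lit 0) (nat_lit 0) (nat_lit 0) (nat_lit 0) (nat_lit 0) (nat_lit 1) (nat_lit 0) (nat_lit 1) (nat_lit 0) (nat_lit 469) (nat_lit 311) (nat_lit 300)) (XT.nd (nat_lit 94) (nat_lit 0) (nat_lit 0) (XT.lf (nat_lit 0) (nat_lit 5099362846967) (nat_lit 0) (nat_lit 0) (nat_lit 0) (nat_lit 0) (nat_lit 0) (nat_lit 0) (nat_lit 1) (nat_lit 0) (nat_lit 1) (nat_lit 0) (nat_lit 470) (nat_lit 311) (nat_lit 299))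 (XT.lf (nat_lit 0) (nat_lit 5507308383930) (nat_lit 0) (nat_lit 0) (nat_lit 0) (nat_lit 0) (nat_lit 0) (nat_lit 0) (nat_lit 1) (nat_lit 0) (nat_lit 1) (nat_lit 0) (nat_lit 471) (nat_lit 311) (nat_lit 298)))) (XT.nd (nat_lit 188) (nat_lit 0) (nat_lit 0) (XT.nd (nat_lit 94) (nat_lit 0) (nat_lit 0) (XT.lf (nat_lit 0) (nat_lit 5947889675910) (nat_lit 0) (nat_lit 0) (nat_lit 0) (nat_lit 0) (nat_lit 0) (nat_lit 0) (nat_lit 1) (nat_lit 0) (nat_lit 1) (nat_lit 0) (nat_lit 472) (nat_lit 311) (nat_lit 297)) (XT.lf (nat_lit 0) (nat_lit 6423717575006) (nat_lit 0) (nat_lit 0) (nat_lit 0) (nat_lit 0) (nat_lit 0) (nat_lit 0) (nat_lit 1) (nat_lit 0) (nat_lit 1) (nat_lit 0) (nat_lit 473) (nat_lit 311) (nat_lit 296))) (XT.nd (nat_lit 94) (nat_lit 0) (nat_lit 0) (XT.lf (nat_lit 0) (nat_lit 6937611802103) (nat_lit 0) (nat_lit 0) (nat_lit 0) (nat_lit 0) (nat_lit 0) (nat_lit 0)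 (nat_lit 1) (nat_lit 0) (nat_lit 1) (nat_lit 0) (nat_lit 474) (nat_lit 311) (nat_lit 295)) (XT.lf (nat_lit 0) (nat_lit 7492617656323) (nat_lit 0) (nat_lit 0) (nat_lit 0) (nat_lit 0) (nat_lit 0) (nat_lit 0) (nat_lit 1) (nat_lit 0) (nat_lit 1) (nat_lit 0) (nat_lit 475) (nat_lit 311) (nat_lit 294))))) (XT.nd (nat_lit 376) (nat_lit 0) (nat_lit 0) (XT.nd (nat_lit 188) (nat_lit 0) (nat_lit 0) (XT.nd (nat_lit 94) (nat_lit 0) (nat_lit 0) (XT.lf (nat_lit 0) (nat_lit 8092024061247) (nat_lit 0) (nat_lit 0) (nat_lit 0) (nat_lit 0) (nat_lit 0) (nat_lit 0) (nat_lit 1) (nat_lit 0) (nat_lit 1) (nat_lit 0) (nat_lit 476) (nat_lit 311) (nat_lit 293)) (XT.lf (nat_lit 0) (nat_lit 8739383054831) (nat_lit 0) (nat_lit 0) (nat_lit 0) (nat_lit 0) (nat_lit 0) (nat_lit 0) (nat_lit 1) (nat_lit 0) (nat_lit 1) (nat_lit 0) (nat_lit 477) (nat_lit 311) (nat_lit 292))) (XT.nd (nat_lit 94) (nat_lit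 0) (nat_lit 0) (XT.lf (nat_lit 0) (nat_lit 9438530838518) (nat_lit 0) (nat_lit 0) (nat_lit 0) (nat_lit 0) (nat_lit 0) (nat_lit 0) (nat_lit 1) (nat_lit 0) (nat_lit 1) (nat_lit 0) (nat_lit 478) (nat_lit 311) (nat_lit 291)) (XT.lf (nat_lit 0) (nat_lit 10193610510284) (nat_lit 0) (nat_lit 0) (nat_lit 0) (nat_lit 0) (nat_lit 0) (nat_lit 0) (nat_lit 1) (nat_lit 0) (nat_lit 1) (nat_lit 0) (nat_lit 479) (nat_lit 311) (nat_lit 290)))) (XT.nd (nat_lit 188) (nat_lit 0) (nat_lit 0) (XT.nd (nat_lit 94) (nat_lit 0) (nat_lit 0) (XT.lf (nat_lit 0) (nat_lit 11009096616335) (nat_lit 0) (nat_lit 0) (nat_lit 0) (nat_lit 0) (nat_lit 0) (nat_lit 0) (nat_lit 1) (nat_lit 0) (nat_lit 1) (nat_lit 0) (nat_lit 480) (nat_lit 311) (nat_lit 289)) (XT.lf (nat_lit 0) (nat_lit 11889821666926) (nat_lit 0) (nat_lit 0) (nat_lit 0) (nat_lit 0) (nat_lit 0) (nat_lit 0) (nat_lit 1) (nat_lit 0) (nat_lit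 1) (nat_lit 0) (nat_lit 481) (nat_lit 311) (nat_lit 288))) (XT.nd (nat_lit 94) (nat_lit 0) (nat_lit 0) (XT.lf (nat_lit 0) (nat_lit 12841004773470) (nat_lit 0) (nat_lit 0) (nat_lit 0) (nat_lit 0) (nat_lit 0) (nat_lit 0) (nat_lit 1) (nat_lit 0) (nat_lit 1) (nat_lit 0) (nat_lit 482) (nat_lit 311) (nat_lit 287)) (XT.lf (nat_lit 0) (nat_lit 13868282576598) (nat_lit 0) (nat_lit 0) (nat_lit 0) (nat_lit 0) (nat_lit 0) (nat_lit 0) (nat_lit 1) (nat_lit 0) (nat_lit 1) (nat_lit 0) (nat_lit 483) (nat_lit 311) (nat_lit 286))))))))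
noncomputable def xc10 : XT := (XT.nd (nat_lit 65800) (nat_lit 0) (nat_lit 0) (XT.nd (nat_lit 1316) (nat_lit 0) (nat_lit 0) (XT.nd (nat_lit 658) (nat_lit 0) (nat_lit 0) (XT.nd (nat_lit 282) (nat_lit 0) (nat_lit 0) (XT.nd (nat_lit 94) (nat_lit 0) (nat_lit 0) (XT.lf (nat_lit 0) (nat_lit 14977742648476) (nat_lit 0) (nat_lit 0) (nat_lit 0) (nat_lit 0) (nat_lit 0) (nat_lit 0) (nat_lit 1) (nat_lit 0) (nat_lit 1) (nat_lit 0) (nat_lit 484) (nat_lit 311) (nat_lit 285)) (XT.nd (nat_lit 94) (nat_lit 0) (nat_lit 0) (XT.lf (nat_lit 0) (nat_lit 16175959567308) (nat_lit 0) (nat_lit 0) (nat_lit 0) (nat_lit 0) (nat_lit 0) (nat_lit 0) (nat_lit 1) (nat_lit 0) (nat_lit 1) (nat_lit 0) (nat_lit 485) (nat_lit 311) (nat_lit 284)) (XT.lf (nat_lit 0) (nat_lit 17470033877798) (nat_lit 0) (nat_lit 0) (nat_lit 0) (nat_lit 0) (nat_lit 0) (nat_lit 0) (nat_lit 1) (nat_lit 0) (nat_lit 1)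 (nat_lit 0) (nat_lit 486) (nat_lit 311) (nat_lit 283)))) (XT.nd (nat_lit 188) (nat_lit 0) (nat_lit 0) (XT.nd (nat_lit 94) (nat_lit 0) (nat_lit 0) (XT.lf (nat_lit 0) (nat_lit 18867634168454) (nat_lit 0) (nat_lit 0) (nat_lit 0) (nat_lit 0) (nat_lit 0) (nat_lit 0) (nat_lit 1) (nat_lit 0) (nat_lit 1) (nat_lit 0) (nat_lit 487) (nat_lit 311) (nat_lit 282)) (XT.lf (nat_lit 0) (nat_lit 20377042515070) (nat_lit 0) (nat_lit 0) (nat_lit 0) (nat_lit 0) (nat_lit 0) (nat_lit 0) (nat_lit 1) (nat_lit 0) (nat_lit 1) (nat_lit 0) (nat_lit 488) (nat_lit 311) (nat_lit 281))) (XT.nd (nat_lit 94) (nat_lit 0) (nat_lit 0) (XT.lf (nat_lit 0) (nat_lit 22007203559702) (nat_lit 0) (nat_lit 0) (nat_lit 0) (nat_lit 0) (nat_lit 0) (nat_lit 0) (nat_lit 1) (nat_lit 0) (nat_lit 1) (nat_lit 0) (nat_lit 489) (nat_lit 311) (nat_lit 280)) (XT.lf (nat_lit 0) (nat_lit 23767777515947) (nat_lit 0)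 (nat_lit 0) (nat_lit 0) (nat_lit 0) (nat_lit 0) (nat_lit 0) (nat_lit 1) (nat_lit 0) (nat_lit 1) (nat_lit 0) (nat_lit 490) (nat_lit 311) (nat_lit 279))))) (XT.nd (nat_lit 282) (nat_lit 0) (nat_lit 0) (XT.nd (nat_lit 94) (nat_lit 0) (nat_lit 0) (XT.lf (nat_lit 0) (nat_lit 25669197414657) (nat_lit 0) (nat_lit 0) (nat_lit 0) (nat_lit 0) (nat_lit 0) (nat_lit 0) (nat_lit 1) (nat_lit 0) (nat_lit 1) (nat_lit 0) (nat_lit 491) (nat_lit 311) (nat_lit 278)) (XT.nd (nat_lit 94) (nat_lit 0) (nat_lit 0) (XT.lf (nat_lit 0) (nat_lit 27722730929307) (nat_lit 0) (nat_lit 0) (nat_lit 0) (nat_lit 0) (nat_lit 0) (nat_lit 0) (nat_lit 1) (nat_lit 0) (nat_lit 1) (nat_lit 0) (nat_lit 492) (nat_lit 311) (nat_lit 277)) (XT.lf (nat_lit 0) (nat_lit 29940547147389) (nat_lit 0) (nat_lit 0) (nat_lit 0) (nat_lit 0) (nat_lit 0) (nat_lit 0) (nat_lit 1) (nat_lit 0) (nat_lit 1) (nat_lit 0) (nat_lit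 493) (nat_lit 311) (nat_lit 276)))) (XT.nd (nat_lit 188) (nat_lit 0) (nat_lit 0) (XT.nd (nat_lit 94) (nat_lit 0) (nat_lit 0) (XT.lf (nat_lit 0) (nat_lit 32335788683530) (nat_lit 0) (nat_lit 0) (nat_lit 0) (nat_lit 0) (nat_lit 0) (nat_lit 0) (nat_lit 1) (nat_lit 0) (nat_lit 1) (nat_lit 0) (nat_lit 494) (nat_lit 311) (nat_lit 275)) (XT.lf (nat_lit 0) (nat_lit 34922649561647) (nat_lit 0) (nat_lit 0) (nat_lit 0) (nat_lit 0) (nat_lit 0) (nat_lit 0) (nat_lit 1) (nat_lit 0) (nat_lit 1) (nat_lit 0) (nat_lit 495) (nat_lit 311) (nat_lit 274))) (XT.nd (nat_lit 94) (nat_lit 0) (nat_lit 0) (XT.lf (nat_lit 0) (nat_lit 37716459327686) (nat_lit 0) (nat_lit 0) (nat_lit 0) (nat_lit 0) (nat_lit 0) (nat_lit 0) (nat_lit 1) (nat_lit 0) (nat_lit 1) (nat_lit 0) (nat_lit 496) (nat_lit 311) (nat_lit 273)) (XT.lf (nat_lit 0) (nat_lit 40733773891370) (nat_lit 0) (nat_lit 0) (nat_lit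 0) (nat_lit 0) (nat_lit 0) (nat_lit 0) (nat_lit 1) (nat_lit 0) (nat_lit 1) (nat_lit 0) (nat_lit 497) (nat_lit 311) (nat_lit 272)))))) (XT.nd (nat_lit 63826) (nat_lit 0) (nat_lit 0) (XT.nd (nat_lit 282) (nat_lit 0) (nat_lit 0) (XT.nd (nat_lit 94) (nat_lit 0) (nat_lit 0) (XT.lf (nat_lit 0) (nat_lit 43992473635300) (nat_lit 0) (nat_lit 0) (nat_lit 0) (nat_lit 0) (nat_lit 0) (nat_lit 0) (nat_lit 1) (nat_lit 0) (nat_lit 1) (nat_lit 0) (nat_lit 498) (nat_lit 311) (nat_lit 271)) (XT.nd (nat_lit 94) (nat_lit 0) (nat_lit 0) (XT.lf (nat_lit 0) (nat_lit 47511869372772) (nat_lit 0) (nat_lit 0) (nat_lit 0) (nat_lit 0) (nat_lit 0) (nat_lit 0) (nat_lit 1) (nat_lit 0) (nat_lit 1) (nat_lit 0) (nat_lit 499) (nat_lit 311) (nat_lit 270)) (XT.lf (nat_lit 0) (nat_lit 51312816782231) (nat_lit 0) (nat_lit 0) (nat_lit 0) (nat_lit 0) (nat_lit 0) (nat_lit 0) (nat_lit 1) (nat_lit 0)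 (nat_lit 1) (nat_lit 0) (nat_lit 500) (nat_lit 311) (nat_lit 269)))) (XT.nd (nat_lit 188) (nat_lit 0) (nat_lit 0) (XT.nd (nat_lit 94) (nat_lit 0) (nat_lit 0) (XT.lf (nat_lit 0) (nat_lit 55417839996474) (nat_lit 0) (nat_lit 0) (nat_lit 0) (nat_lit 0) (nat_lit 0) (nat_lit 0) (nat_lit 1) (nat_lit 0) (nat_lit 1) (nat_lit 0) (nat_lit 501) (nat_lit 311) (nat_lit 268)) (XT.lf (nat_lit 0) (nat_lit 59851265078992) (nat_lit 0) (nat_lit 0) (nat_lit 0) (nat_lit 0) (nat_lit 0) (nat_lit 0) (nat_lit 1) (nat_lit 0) (nat_lit 1) (nat_lit 0) (nat_lit 502) (nat_lit 311) (nat_lit 267))) (XT.nd (nat_lit 94) (nat_lit 0) (nat_lit 0) (XT.lf (nat_lit 0) (nat_lit 64639364178424) (nat_lit 0) (nat_lit 0) (nat_lit 0) (nat_lit 0) (nat_lit 0) (nat_lit 0) (nat_lit 1) (nat_lit 0) (nat_lit 1) (nat_lit 0) (nat_lit 503) (nat_lit 311) (nat_lit 266)) (XT.lf (nat_lit 0) (nat_lit 69810511215357)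 (nat_lit 0) (nat_lit 0) (nat_lit 0) (nat_lit 0) (nat_lit 0) (nat_lit 0) (nat_lit 1) (nat_lit 0) (nat_lit 1) (nat_lit 0) (nat_lit 504) (nat_lit 311) (nat_lit 265))))) (XT.nd (nat_lit 282) (nat_lit 0) (nat_lit 0) (XT.nd (nat_lit 94) (nat_lit 0) (nat_lit 0) (XT.lf (nat_lit 0) (nat_lit 868088015180) (nat_lit 0) (nat_lit 0) (nat_lit 0) (nat_lit 0) (nat_lit 0) (nat_lit 0) (nat_lit 1) (nat_lit 0) (nat_lit 1) (nat_lit 0) (nat_lit 456) (nat_lit 312) (nat_lit 312)) (XT.nd (nat_lit 94) (nat_lit 0) (nat_lit 0) (XT.lf (nat_lit 0) (nat_lit 1875063862316) (nat_lit 0) (nat_lit 0) (nat_lit 0) (nat_lit 0) (nat_lit 0) (nat_lit 0) (nat_lit 1) (nat_lit 0) (nat_lit 1) (nat_lit 0) (nat_lit 457) (nat_lit 312) (nat_lit 311)) (XT.lf (nat_lit 0) (nat_lit 2025063025586) (nat_lit 0) (nat_lit 0) (nat_lit 0) (nat_lit 0) (nat_lit 0) (nat_lit 0) (nat_lit 1) (nat_lit 0) (nat_lit 1) (nat_lit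 0) (nat_lit 458) (nat_lit 312) (nat_lit 310)))) (XT.nd (nat_lit 188) (nat_lit 0) (nat_lit 0) (XT.nd (nat_lit 94) (nat_lit 0) (nat_lit 0) (XT.lf (nat_lit 0) (nat_lit 2187062404101) (nat_lit 0) (nat_lit 0) (nat_lit 0) (nat_lit 0) (nat_lit 0) (nat_lit 0) (nat_lit 1) (nat_lit 0) (nat_lit 1) (nat_lit 0) (nat_lit 459) (nat_lit 312) (nat_lit 309)) (XT.lf (nat_lit 0) (nat_lit 2362021994179) (nat_lit 0) (nat_lit 0) (nat_lit 0) (nat_lit 0) (nat_lit 0) (nat_lit 0) (nat_lit 1) (nat_lit 0) (nat_lit 1) (nat_lit 0) (nat_lit 460) (nat_lit 312) (nat_lit 308))) (XT.nd (nat_lit 94) (nat_lit 0) (nat_lit 0) (XT.lf (nat_lit 0) (nat_lit 2550978593389) (nat_lit 0) (nat_lit 0) (nat_lit 0) (nat_lit 0) (nat_lit 0) (nat_lit 0) (nat_lit 1) (nat_lit 0) (nat_lit 1) (nat_lit 0) (nat_lit 461) (nat_lit 312) (nat_lit 307)) (XT.lf (nat_lit 0) (nat_lit 2755051944543) (nat_lit 0) (nat_lit 0) (nat_lit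 0) (nat_lit 0) (nat_lit 0) (nat_lit 0) (nat_lit 1) (nat_lit 0) (nat_lit 1) (nat_lit 0) (nat_lit 462) (nat_lit 312) (nat_lit 306))))))) (XT.nd (nat_lit 1316) (nat_lit 0) (nat_lit 0) (XT.nd (nat_lit 658) (nat_lit 0) (nat_lit 0) (XT.nd (nat_lit 282) (nat_lit 0) (nat_lit 0) (XT.nd (nat_lit 94) (nat_lit 0) (nat_lit 0) (XT.lf (nat_lit 0) (nat_lit 2975451371202) (nat_lit 0) (nat_lit 0) (nat_lit 0) (nat_lit 0) (nat_lit 0) (nat_lit 0) (nat_lit 1) (nat_lit 0) (nat_lit 1) (nat_lit 0) (nat_lit 463) (nat_lit 312) (nat_lit 305)) (XT.nd (nat_lit 94) (nat_lit 0) (nat_lit 0) (XT.lf (nat_lit 0) (nat_lit 3213482944043) (nat_lit 0) (nat_lit 0) (nat_lit 0) (nat_lit 0) (nat_lit 0) (nat_lit 0) (nat_lit 1) (nat_lit 0) (nat_lit 1) (nat_lit 0) (nat_lit 464) (nat_lit 312) (nat_lit 304)) (XT.lf (nat_lit 0) (nat_lit 3470557220535) (nat_lit 0) (nat_lit 0) (nat_lit 0) (nat_lit 0) (nat_lit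 0) (nat_lit 0) (nat_lit 1) (nat_lit 0) (nat_lit 1) (nat_lit 0) (nat_lit 465) (nat_lit 312) (nat_lit 303)))) (XT.nd (nat_lit 188) (nat_lit 0) (nat_lit 0) (XT.nd (nat_lit 94) (nat_lit 0) (nat_lit 0) (XT.lf (nat_lit 0) (nat_lit 3748197603798) (nat_lit 0) (nat_lit 0) (nat_lit 0) (nat_lit 0) (nat_lit 0) (nat_lit 0) (nat_lit 1) (nat_lit 0) (nat_lit 1) (nat_lit 0) (nat_lit 466) (nat_lit 312) (nat_lit 302)) (XT.lf (nat_lit 0) (nat_lit 4048049370177) (nat_lit 0) (nat_lit 0) (nat_lit 0) (nat_lit 0) (nat_lit 0) (nat_lit 0) (nat_lit 1) (nat_lit 0) (nat_lit 1) (nat_lit 0) (nat_lit 467) (nat_lit 312) (nat_lit 301))) (XT.nd (nat_lit 94) (nat_lit 0) (nat_lit 0) (XT.lf (nat_lit 0) (nat_lit 4371889419028) (nat_lit 0) (nat_lit 0) (nat_lit 0) (nat_lit 0) (nat_lit 0) (nat_lit 0) (nat_lit 1) (nat_lit 0) (nat_lit 1) (nat_lit 0) (nat_lit 468) (nat_lit 312) (nat_lit 300)) (XT.lf (nat_lit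 0) (nat_lit 4721636802493) (nat_lit 0) (nat_lit 0) (nat_lit 0) (nat_lit 0) (nat_lit 0) (nat_lit 0) (nat_lit 1) (nat_lit 0) (nat_lit 1) (nat_lit 0) (nat_lit 469) (nat_lit 312) (nat_lit 299))))) (XT.nd (nat_lit 282) (nat_lit 0) (nat_lit 0) (XT.nd (nat_lit 94) (nat_lit 0) (nat_lit 0) (XT.lf (nat_lit 0) (nat_lit 5099364097659) (nat_lit 0) (nat_lit 0) (nat_lit 0) (nat_lit 0) (nat_lit 0) (nat_lit 0) (nat_lit 1) (nat_lit 0) (nat_lit 1) (nat_lit 0) (nat_lit 470) (nat_lit 312) (nat_lit 298)) (XT.nd (nat_lit 94) (nat_lit 0) (nat_lit 0) (XT.lf (nat_lit 0) (nat_lit 5507309688497) (nat_lit 0) (nat_lit 0) (nat_lit 0) (nat_lit 0) (nat_lit 0) (nat_lit 0) (nat_lit 1) (nat_lit 0) (nat_lit 1) (nat_lit 0) (nat_lit 471) (nat_lit 312) (nat_lit 297)) (XT.lf (nat_lit 0) (nat_lit 5947891030360) (nat_lit 0) (nat_lit 0) (nat_lit 0) (nat_lit 0) (nat_lit 0) (nat_lit 0) (nat_lit 1) (nat_lit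 0) (nat_lit 1) (nat_lit 0) (nat_lit 472) (nat_lit 312) (nat_lit 296)))) (XT.nd (nat_lit 188) (nat_lit 0) (nat_lit 0) (XT.nd (nat_lit 94) (nat_lit 0) (nat_lit 0) (XT.lf (nat_lit 0) (nat_lit 6423718975645) (nat_lit 0) (nat_lit 0) (nat_lit 0) (nat_lit 0) (nat_lit 0) (nat_lit 0) (nat_lit 1) (nat_lit 0) (nat_lit 1) (nat_lit 0) (nat_lit 473) (nat_lit 312) (nat_lit 295)) (XT.lf (nat_lit 0) (nat_lit 6937613245509) (nat_lit 0) (nat_lit 0) (nat_lit 0) (nat_lit 0) (nat_lit 0) (nat_lit 0) (nat_lit 1) (nat_lit 0) (nat_lit 1) (nat_lit 0) (nat_lit 474) (nat_lit 312) (nat_lit 294))) (XT.nd (nat_lit 94) (nat_lit 0) (nat_lit 0) (XT.lf (nat_lit 0) (nat_lit 7492619139329) (nat_lit 0) (nat_lit 0) (nat_lit 0) (nat_lit 0) (nat_lit 0) (nat_lit 0) (nat_lit 1) (nat_lit 0) (nat_lit 1) (nat_lit 0) (nat_lit 475) (nat_lit 312) (nat_lit 293)) (XT.lf (nat_lit 0) (nat_lit 8092025580919) (nat_lit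 0) (nat_lit 0) (nat_lit 0) (nat_lit 0) (nat_lit 0) (nat_lit 0) (nat_lit 1) (nat_lit 0) (nat_lit 1) (nat_lit 0) (nat_lit 476) (nat_lit 312) (nat_lit 292)))))) (XT.nd (nat_lit 658) (nat_lit 0) (nat_lit 0) (XT.nd (nat_lit 282) (nat_lit 0) (nat_lit 0) (XT.nd (nat_lit 94) (nat_lit 0) (nat_lit 0) (XT.lf (nat_lit 0) (nat_lit 8739384608453) (nat_lit 0) (nat_lit 0) (nat_lit 0) (nat_lit 0) (nat_lit 0) (nat_lit 0) (nat_lit 1) (nat_lit 0) (nat_lit 1) (nat_lit 0) (nat_lit 477) (nat_lit 312) (nat_lit 291)) (XT.nd (nat_lit 94) (nat_lit 0) (nat_lit 0) (XT.lf (nat_lit 0) (nat_lit 9438532423575) (nat_lit 0) (nat_lit 0) (nat_lit 0) (nat_lit 0) (nat_lit 0) (nat_lit 0) (nat_lit 1) (nat_lit 0) (nat_lit 1) (nat_lit 0) (nat_lit 478) (nat_lit 312) (nat_lit 290)) (XT.lf (nat_lit 0) (nat_lit 10193612124448) (nat_lit 0) (nat_lit 0) (nat_lit 0) (nat_lit 0) (nat_lit 0) (nat_lit 0) (nat_lit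 1) (nat_lit 0) (nat_lit 1) (nat_lit 0) (nat_lit 479) (nat_lit 312) (nat_lit 289)))) (XT.nd (nat_lit 188) (nat_lit 0) (nat_lit 0) (XT.nd (nat_lit 94) (nat_lit 0) (nat_lit 0) (XT.lf (nat_lit 0) (nat_lit 11009098257449) (nat_lit 0) (nat_lit 0) (nat_lit 0) (nat_lit 0) (nat_lit 0) (nat_lit 0) (nat_lit 1) (nat_lit 0) (nat_lit 1) (nat_lit 0) (nat_lit 480) (nat_lit 312) (nat_lit 288)) (XT.lf (nat_lit 0) (nat_lit 11889823332995) (nat_lit 0) (nat_lit 0) (nat_lit 0) (nat_lit 0) (nat_lit 0) (nat_lit 0) (nat_lit 1) (nat_lit 0) (nat_lit 1) (nat_lit 0) (nat_lit 481) (nat_lit 312) (nat_lit 287))) (XT.nd (nat_lit 94) (nat_lit 0) (nat_lit 0) (XT.lf (nat_lit 0) (nat_lit 12841006462645) (nat_lit 0) (nat_lit 0) (nat_lit 0) (nat_lit 0) (nat_lit 0) (nat_lit 0) (nat_lit 1) (nat_lit 0) (nat_lit 1) (nat_lit 0) (nat_lit 482) (nat_lit 312) (nat_lit 286)) (XT.lf (nat_lit 0) (nat_lit 13868284287167)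 (nat_lit 0) (nat_lit 0) (nat_lit 0) (nat_lit 0) (nat_lit 0) (nat_lit 0) (nat_lit 1) (nat_lit 0) (nat_lit 1) (nat_lit 0) (nat_lit 483) (nat_lit 312) (nat_lit 285))))) (XT.nd (nat_lit 376) (nat_lit 0) (nat_lit 0) (XT.nd (nat_lit 188) (nat_lit 0) (nat_lit 0) (XT.nd (nat_lit 94) (nat_lit 0) (nat_lit 0) (XT.lf (nat_lit 0) (nat_lit 14977744378855) (nat_lit 0) (nat_lit 0) (nat_lit 0) (nat_lit 0) (nat_lit 0) (nat_lit 0) (nat_lit 1) (nat_lit 0) (nat_lit 1) (nat_lit 0) (nat_lit 484) (nat_lit 312) (nat_lit 284)) (XT.lf (nat_lit 0) (nat_lit 16175961316029) (nat_lit 0) (nat_lit 0) (nat_lit 0) (nat_lit 0) (nat_lit 0) (nat_lit 0) (nat_lit 1) (nat_lit 0) (nat_lit 1) (nat_lit 0) (nat_lit 485) (nat_lit 312) (nat_lit 283))) (XT.nd (nat_lit 94) (nat_lit 0) (nat_lit 0) (XT.lf (nat_lit 0) (nat_lit 17470035643503) (nat_lit 0) (nat_lit 0) (nat_lit 0) (nat_lit 0) (nat_lit 0) (nat_lit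 0) (nat_lit 1) (nat_lit 0) (nat_lit 1) (nat_lit 0) (nat_lit 486) (nat_lit 312) (nat_lit 282)) (XT.lf (nat_lit 0) (nat_lit 18867635949883) (nat_lit 0) (nat_lit 0) (nat_lit 0) (nat_lit 0) (nat_lit 0) (nat_lit 0) (nat_lit 1) (nat_lit 0) (nat_lit 1) (nat_lit 0) (nat_lit 487) (nat_lit 312) (nat_lit 281)))) (XT.nd (nat_lit 188) (nat_lit 0) (nat_lit 0) (XT.nd (nat_lit 94) (nat_lit 0) (nat_lit 0) (XT.lf (nat_lit 0) (nat_lit 20377044311060) (nat_lit 0) (nat_lit 0) (nat_lit 0) (nat_lit 0) (nat_lit 0) (nat_lit 0) (nat_lit 1) (nat_lit 0) (nat_lit 1) (nat_lit 0) (nat_lit 488) (nat_lit 312) (nat_lit 280)) (XT.lf (nat_lit 0) (nat_lit 22007205369175) (nat_lit 0) (nat_lit 0) (nat_lit 0) (nat_lit 0) (nat_lit 0) (nat_lit 0) (nat_lit 1) (nat_lit 0) (nat_lit 1) (nat_lit 0) (nat_lit 489) (nat_lit 312) (nat_lit 279))) (XT.nd (nat_lit 94) (nat_lit 0) (nat_lit 0) (XT.lf (nat_lit 0)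 (nat_lit 23767779337903) (nat_lit 0) (nat_lit 0) (nat_lit 0) (nat_lit 0) (nat_lit 0) (nat_lit 0) (nat_lit 1) (nat_lit 0) (nat_lit 1) (nat_lit 0) (nat_lit 490) (nat_lit 312) (nat_lit 278)) (XT.lf (nat_lit 0) (nat_lit 25669199248172) (nat_lit 0) (nat_lit 0) (nat_lit 0) (nat_lit 0) (nat_lit 0) (nat_lit 0) (nat_lit 1) (nat_lit 0) (nat_lit 1) (nat_lit 0) (nat_lit 491) (nat_lit 312) (nat_lit 277))))))))
noncomputable def xc11 : XT := (XT.nd (nat_lit 65706) (nat_lit 0) (nat_lit 0) (XT.nd (nat_lit 64390) (nat_lit 0) (nat_lit 0) (XT.nd (nat_lit 658) (nat_lit 0) (nat_lit 0) (XT.nd (nat_lit 282) (nat_lit 0) (nat_lit 0) (XT.nd (nat_lit 94) (nat_lit 0) (nat_lit 0) (XT.lf (nat_lit 0) (nat_lit 27722732773524) (nat_lit 0) (nat_lit 0) (nat_lit 0) (nat_lit 0) (nat_lit 0) (nat_lit 0) (nat_lit 1) (nat_lit 0) (nat_lit 1) (nat_lit 0) (nat_lit 492) (nat_lit 312) (nat_lit 276)) (XT.nd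 (nat_lit 94) (nat_lit 0) (nat_lit 0) (XT.lf (nat_lit 0) (nat_lit 29940549001515) (nat_lit 0) (nat_lit 0) (nat_lit 0) (nat_lit 0) (nat_lit 0) (nat_lit 0) (nat_lit 1) (nat_lit 0) (nat_lit 1) (nat_lit 0) (nat_lit 493) (nat_lit 312) (nat_lit 275)) (XT.lf (nat_lit 0) (nat_lit 32335790546832) (nat_lit 0) (nat_lit 0) (nat_lit 0) (nat_lit 0) (nat_lit 0) (nat_lit 0) (nat_lit 1) (nat_lit 0) (nat_lit 1) (nat_lit 0) (nat_lit 494) (nat_lit 312) (nat_lit 274)))) (XT.nd (nat_lit 188) (nat_lit 0) (nat_lit 0) (XT.nd (nat_lit 94) (nat_lit 0) (nat_lit 0) (XT.lf (nat_lit 0) (nat_lit 34922651433445) (nat_lit 0) (nat_lit 0) (nat_lit 0) (nat_lit 0) (nat_lit 0) (nat_lit 0) (nat_lit 1) (nat_lit 0) (nat_lit 1) (nat_lit 0) (nat_lit 495) (nat_lit 312) (nat_lit 273)) (XT.lf (nat_lit 0) (nat_lit 37716461207351) (nat_lit 0) (nat_lit 0) (nat_lit 0) (nat_lit 0) (nat_lit 0) (nat_lit 0) (nat_lit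 1) (nat_lit 0) (nat_lit 1) (nat_lit 0) (nat_lit 496) (nat_lit 312) (nat_lit 272))) (XT.nd (nat_lit 94) (nat_lit 0) (nat_lit 0) (XT.lf (nat_lit 0) (nat_lit 40733775778319) (nat_lit 0) (nat_lit 0) (nat_lit 0) (nat_lit 0) (nat_lit 0) (nat_lit 0) (nat_lit 1) (nat_lit 0) (nat_lit 1) (nat_lit 0) (nat_lit 497) (nat_lit 312) (nat_lit 271)) (XT.lf (nat_lit 0) (nat_lit 43992475528993) (nat_lit 0) (nat_lit 0) (nat_lit 0) (nat_lit 0) (nat_lit 0) (nat_lit 0) (nat_lit 1) (nat_lit 0) (nat_lit 1) (nat_lit 0) (nat_lit 498) (nat_lit 312) (nat_lit 270))))) (XT.nd (nat_lit 282) (nat_lit 0) (nat_lit 0) (XT.nd (nat_lit 94) (nat_lit 0) (nat_lit 0) (XT.lf (nat_lit 0) (nat_lit 47511871272710) (nat_lit 0) (nat_lit 0) (nat_lit 0) (nat_lit 0) (nat_lit 0) (nat_lit 0) (nat_lit 1) (nat_lit 0) (nat_lit 1) (nat_lit 0) (nat_lit 499) (nat_lit 312) (nat_lit 269)) (XT.nd (nat_lit 94) (nat_lit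 0) (nat_lit 0) (XT.lf (nat_lit 0) (nat_lit 51312818687951) (nat_lit 0) (nat_lit 0) (nat_lit 0) (nat_lit 0) (nat_lit 0) (nat_lit 0) (nat_lit 1) (nat_lit 0) (nat_lit 1) (nat_lit 0) (nat_lit 500) (nat_lit 312) (nat_lit 268)) (XT.lf (nat_lit 0) (nat_lit 55417841907548) (nat_lit 0) (nat_lit 0) (nat_lit 0) (nat_lit 0) (nat_lit 0) (nat_lit 0) (nat_lit 1) (nat_lit 0) (nat_lit 1) (nat_lit 0) (nat_lit 501) (nat_lit 312) (nat_lit 267)))) (XT.nd (nat_lit 63262) (nat_lit 0) (nat_lit 0) (XT.nd (nat_lit 94) (nat_lit 0) (nat_lit 0) (XT.lf (nat_lit 0) (nat_lit 59851266995024) (nat_lit 0) (nat_lit 0) (nat_lit 0) (nat_lit 0) (nat_lit 0) (nat_lit 0) (nat_lit 1) (nat_lit 0) (nat_lit 1) (nat_lit 0) (nat_lit 502) (nat_lit 312) (nat_lit 266)) (XT.lf (nat_lit 0) (nat_lit 64639366099045) (nat_lit 0) (nat_lit 0) (nat_lit 0) (nat_lit 0) (nat_lit 0) (nat_lit 0) (nat_lit 1) (nat_lit 0)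 (nat_lit 1) (nat_lit 0) (nat_lit 503) (nat_lit 312) (nat_lit 265))) (XT.nd (nat_lit 94) (nat_lit 0) (nat_lit 0) (XT.lf (nat_lit 0) (nat_lit 744251500568) (nat_lit 0) (nat_lit 0) (nat_lit 0) (nat_lit 0) (nat_lit 0) (nat_lit 0) (nat_lit 1) (nat_lit 0) (nat_lit 1) (nat_lit 0) (nat_lit 454) (nat_lit 313) (nat_lit 313)) (XT.lf (nat_lit 0) (nat_lit 1607576490716) (nat_lit 0) (nat_lit 0) (nat_lit 0) (nat_lit 0) (nat_lit 0) (nat_lit 0) (nat_lit 1) (nat_lit 0) (nat_lit 1) (nat_lit 0) (nat_lit 455) (nat_lit 313) (nat_lit 312)))))) (XT.nd (nat_lit 658) (nat_lit 0) (nat_lit 0) (XT.nd (nat_lit 282) (nat_lit 0) (nat_lit 0) (XT.nd (nat_lit 94) (nat_lit 0) (nat_lit 0) (XT.lf (nat_lit 0) (nat_lit 1736176188601) (nat_lit 0) (nat_lit 0) (nat_lit 0) (nat_lit 0) (nat_lit 0) (nat_lit 0) (nat_lit 1) (nat_lit 0) (nat_lit 1) (nat_lit 0) (nat_lit 456) (nat_lit 313) (nat_lit 311)) (XT.nd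 (nat_lit 94) (nat_lit 0) (nat_lit 0) (XT.lf (nat_lit 0) (nat_lit 1875064167074) (nat_lit 0) (nat_lit 0) (nat_lit 0) (nat_lit 0) (nat_lit 0) (nat_lit 0) (nat_lit 1) (nat_lit 0) (nat_lit 1) (nat_lit 0) (nat_lit 457) (nat_lit 313) (nat_lit 310)) (XT.lf (nat_lit 0) (nat_lit 2025063466009) (nat_lit 0) (nat_lit 0) (nat_lit 0) (nat_lit 0) (nat_lit 0) (nat_lit 0) (nat_lit 1) (nat_lit 0) (nat_lit 1) (nat_lit 0) (nat_lit 458) (nat_lit 313) (nat_lit 309)))) (XT.nd (nat_lit 188) (nat_lit 0) (nat_lit 0) (XT.nd (nat_lit 94) (nat_lit 0) (nat_lit 0) (XT.lf (nat_lit 0) (nat_lit 2187062970140) (nat_lit 0) (nat_lit 0) (nat_lit 0) (nat_lit 0) (nat_lit 0) (nat_lit 0) (nat_lit 1) (nat_lit 0) (nat_lit 1) (nat_lit 0) (nat_lit 459) (nat_lit 313) (nat_lit 308)) (XT.lf (nat_lit 0) (nat_lit 2362022676529) (nat_lit 0) (nat_lit 0) (nat_lit 0) (nat_lit 0) (nat_lit 0) (nat_lit 0) (nat_lit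 1) (nat_lit 0) (nat_lit 1) (nat_lit 0) (nat_lit 460) (nat_lit 313) (nat_lit 307))) (XT.nd (nat_lit 94) (nat_lit 0) (nat_lit 0) (XT.lf (nat_lit 0) (nat_lit 2550979383435) (nat_lit 0) (nat_lit 0) (nat_lit 0) (nat_lit 0) (nat_lit 0) (nat_lit 0) (nat_lit 1) (nat_lit 0) (nat_lit 1) (nat_lit 0) (nat_lit 461) (nat_lit 313) (nat_lit 306)) (XT.lf (nat_lit 0) (nat_lit 2755052834306) (nat_lit 0) (nat_lit 0) (nat_lit 0) (nat_lit 0) (nat_lit 0) (nat_lit 0) (nat_lit 1) (nat_lit 0) (nat_lit 1) (nat_lit 0) (nat_lit 462) (nat_lit 313) (nat_lit 305))))) (XT.nd (nat_lit 282) (nat_lit 0) (nat_lit 0) (XT.nd (nat_lit 94) (nat_lit 0) (nat_lit 0) (XT.lf (nat_lit 0) (nat_lit 2975452353297) (nat_lit 0) (nat_lit 0) (nat_lit 0) (nat_lit 0) (nat_lit 0) (nat_lit 0) (nat_lit 1) (nat_lit 0) (nat_lit 1) (nat_lit 0) (nat_lit 463) (nat_lit 313) (nat_lit 304)) (XT.nd (nat_lit 94) (nat_lit 0)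 (nat_lit 0) (XT.lf (nat_lit 0) (nat_lit 3213484011630) (nat_lit 0) (nat_lit 0) (nat_lit 0) (nat_lit 0) (nat_lit 0) (nat_lit 0) (nat_lit 1) (nat_lit 0) (nat_lit 1) (nat_lit 0) (nat_lit 464) (nat_lit 313) (nat_lit 303)) (XT.lf (nat_lit 0) (nat_lit 3470558367282) (nat_lit 0) (nat_lit 0) (nat_lit 0) (nat_lit 0) (nat_lit 0) (nat_lit 0) (nat_lit 1) (nat_lit 0) (nat_lit 1) (nat_lit 0) (nat_lit 465) (nat_lit 313) (nat_lit 302)))) (XT.nd (nat_lit 188) (nat_lit 0) (nat_lit 0) (XT.nd (nat_lit 94) (nat_lit 0) (nat_lit 0) (XT.lf (nat_lit 0) (nat_lit 3748198823840) (nat_lit 0) (nat_lit 0) (nat_lit 0) (nat_lit 0) (nat_lit 0) (nat_lit 0) (nat_lit 1) (nat_lit 0) (nat_lit 1) (nat_lit 0) (nat_lit 466) (nat_lit 313) (nat_lit 301)) (XT.lf (nat_lit 0) (nat_lit 4048050658086) (nat_lit 0) (nat_lit 0) (nat_lit 0) (nat_lit 0) (nat_lit 0) (nat_lit 0) (nat_lit 1) (nat_lit 0) (nat_lit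 1) (nat_lit 0) (nat_lit 467) (nat_lit 313) (nat_lit 300))) (XT.nd (nat_lit 94) (nat_lit 0) (nat_lit 0) (XT.lf (nat_lit 0) (nat_lit 4371890769776) (nat_lit 0) (nat_lit 0) (nat_lit 0) (nat_lit 0) (nat_lit 0) (nat_lit 0) (nat_lit 1) (nat_lit 0) (nat_lit 1) (nat_lit 0) (nat_lit 468) (nat_lit 313) (nat_lit 299)) (XT.lf (nat_lit 0) (nat_lit 4721638211425) (nat_lit 0) (nat_lit 0) (nat_lit 0) (nat_lit 0) (nat_lit 0) (nat_lit 0) (nat_lit 1) (nat_lit 0) (nat_lit 1) (nat_lit 0) (nat_lit 469) (nat_lit 313) (nat_lit 298))))))) (XT.nd (nat_lit 1316) (nat_lit 0) (nat_lit 0) (XT.nd (nat_lit 658) (nat_lit 0) (nat_lit 0) (XT.nd (nat_lit 282) (nat_lit 0) (nat_lit 0) (XT.nd (nat_lit 94) (nat_lit 0) (nat_lit 0) (XT.lf (nat_lit 0) (nat_lit 5099365560466) (nat_lit 0) (nat_lit 0) (nat_lit 0) (nat_lit 0) (nat_lit 0) (nat_lit 0) (nat_lit 1) (nat_lit 0) (nat_lit 1) (nat_lit 0) (nat_lit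 470) (nat_lit 313) (nat_lit 297)) (XT.nd (nat_lit 94) (nat_lit 0) (nat_lit 0) (XT.lf (nat_lit 0) (nat_lit 5507311201187) (nat_lit 0) (nat_lit 0) (nat_lit 0) (nat_lit 0) (nat_lit 0) (nat_lit 0) (nat_lit 1) (nat_lit 0) (nat_lit 1) (nat_lit 0) (nat_lit 471) (nat_lit 313) (nat_lit 296)) (XT.lf (nat_lit 0) (nat_lit 5947892589240) (nat_lit 0) (nat_lit 0) (nat_lit 0) (nat_lit 0) (nat_lit 0) (nat_lit 0) (nat_lit 1) (nat_lit 0) (nat_lit 1) (nat_lit 0) (nat_lit 472) (nat_lit 313) (nat_lit 295)))) (XT.nd (nat_lit 188) (nat_lit 0) (nat_lit 0) (XT.nd (nat_lit 94) (nat_lit 0) (nat_lit 0) (XT.lf (nat_lit 0) (nat_lit 6423720577292) (nat_lit 0) (nat_lit 0) (nat_lit 0) (nat_lit 0) (nat_lit 0) (nat_lit 0) (nat_lit 1) (nat_lit 0) (nat_lit 1) (nat_lit 0) (nat_lit 473) (nat_lit 313) (nat_lit 294)) (XT.lf (nat_lit 0) (nat_lit 6937614886755) (nat_lit 0) (nat_lit 0) (nat_lit 0) (nat_lit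 0) (nat_lit 0) (nat_lit 0) (nat_lit 1) (nat_lit 0) (nat_lit 1) (nat_lit 0) (nat_lit 474) (nat_lit 313) (nat_lit 293))) (XT.nd (nat_lit 94) (nat_lit 0) (nat_lit 0) (XT.lf (nat_lit 0) (nat_lit 7492620817240) (nat_lit 0) (nat_lit 0) (nat_lit 0) (nat_lit 0) (nat_lit 0) (nat_lit 0) (nat_lit 1) (nat_lit 0) (nat_lit 1) (nat_lit 0) (nat_lit 475) (nat_lit 313) (nat_lit 292)) (XT.lf (nat_lit 0) (nat_lit 8092027292781) (nat_lit 0) (nat_lit 0) (nat_lit 0) (nat_lit 0) (nat_lit 0) (nat_lit 0) (nat_lit 1) (nat_lit 0) (nat_lit 1) (nat_lit 0) (nat_lit 476) (nat_lit 313) (nat_lit 291))))) (XT.nd (nat_lit 282) (nat_lit 0) (nat_lit 0) (XT.nd (nat_lit 94) (nat_lit 0) (nat_lit 0) (XT.lf (nat_lit 0) (nat_lit 8739386351750) (nat_lit 0) (nat_lit 0) (nat_lit 0) (nat_lit 0) (nat_lit 0) (nat_lit 0) (nat_lit 1) (nat_lit 0) (nat_lit 1) (nat_lit 0) (nat_lit 477) (nat_lit 313) (nat_lit 290))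 (XT.nd (nat_lit 94) (nat_lit 0) (nat_lit 0) (XT.lf (nat_lit 0) (nat_lit 9438534195979) (nat_lit 0) (nat_lit 0) (nat_lit 0) (nat_lit 0) (nat_lit 0) (nat_lit 0) (nat_lit 1) (nat_lit 0) (nat_lit 1) (nat_lit 0) (nat_lit 478) (nat_lit 313) (nat_lit 289)) (XT.lf (nat_lit 0) (nat_lit 10193613923803) (nat_lit 0) (nat_lit 0) (nat_lit 0) (nat_lit 0) (nat_lit 0) (nat_lit 0) (nat_lit 1) (nat_lit 0) (nat_lit 1) (nat_lit 0) (nat_lit 479) (nat_lit 313) (nat_lit 288)))) (XT.nd (nat_lit 188) (nat_lit 0) (nat_lit 0) (XT.nd (nat_lit 94) (nat_lit 0) (nat_lit 0) (XT.lf (nat_lit 0) (nat_lit 11009100081758) (nat_lit 0) (nat_lit 0) (nat_lit 0) (nat_lit 0) (nat_lit 0) (nat_lit 0) (nat_lit 1) (nat_lit 0) (nat_lit 1) (nat_lit 0) (nat_lit 480) (nat_lit 313) (nat_lit 287)) (XT.lf (nat_lit 0) (nat_lit 11889825180410) (nat_lit 0) (nat_lit 0) (nat_lit 0) (nat_lit 0) (nat_lit 0) (nat_lit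 0) (nat_lit 1) (nat_lit 0) (nat_lit 1) (nat_lit 0) (nat_lit 481) (nat_lit 313) (nat_lit 286))) (XT.nd (nat_lit 94) (nat_lit 0) (nat_lit 0) (XT.lf (nat_lit 0) (nat_lit 12841008331454) (nat_lit 0) (nat_lit 0) (nat_lit 0) (nat_lit 0) (nat_lit 0) (nat_lit 0) (nat_lit 1) (nat_lit 0) (nat_lit 1) (nat_lit 0) (nat_lit 482) (nat_lit 313) (nat_lit 285)) (XT.lf (nat_lit 0) (nat_lit 13868286175786) (nat_lit 0) (nat_lit 0) (nat_lit 0) (nat_lit 0) (nat_lit 0) (nat_lit 0) (nat_lit 1) (nat_lit 0) (nat_lit 1) (nat_lit 0) (nat_lit 483) (nat_lit 313) (nat_lit 284)))))) (XT.nd (nat_lit 658) (nat_lit 0) (nat_lit 0) (XT.nd (nat_lit 282) (nat_lit 0) (nat_lit 0) (XT.nd (nat_lit 94) (nat_lit 0) (nat_lit 0) (XT.lf (nat_lit 0) (nat_lit 14977746285815) (nat_lit 0) (nat_lit 0) (nat_lit 0) (nat_lit 0) (nat_lit 0) (nat_lit 0) (nat_lit 1) (nat_lit 0) (nat_lit 1) (nat_lit 0) (nat_lit 484)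 (nat_lit 313) (nat_lit 283)) (XT.nd (nat_lit 94) (nat_lit 0) (nat_lit 0) (XT.lf (nat_lit 0) (nat_lit 16175963239973) (nat_lit 0) (nat_lit 0) (nat_lit 0) (nat_lit 0) (nat_lit 0) (nat_lit 0) (nat_lit 1) (nat_lit 0) (nat_lit 1) (nat_lit 0) (nat_lit 485) (nat_lit 313) (nat_lit 282)) (XT.lf (nat_lit 0) (nat_lit 17470037583172) (nat_lit 0) (nat_lit 0) (nat_lit 0) (nat_lit 0) (nat_lit 0) (nat_lit 0) (nat_lit 1) (nat_lit 0) (nat_lit 1) (nat_lit 0) (nat_lit 486) (nat_lit 313) (nat_lit 281)))) (XT.nd (nat_lit 188) (nat_lit 0) (nat_lit 0) (XT.nd (nat_lit 94) (nat_lit 0) (nat_lit 0) (XT.lf (nat_lit 0) (nat_lit 18867637904114) (nat_lit 0) (nat_lit 0) (nat_lit 0) (nat_lit 0) (nat_lit 0) (nat_lit 0) (nat_lit 1) (nat_lit 0) (nat_lit 1) (nat_lit 0) (nat_lit 487) (nat_lit 313) (nat_lit 280)) (XT.lf (nat_lit 0) (nat_lit 20377046278773) (nat_lit 0) (nat_lit 0) (nat_lit 0) (nat_lit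 0) (nat_lit 0) (nat_lit 0) (nat_lit 1) (nat_lit 0) (nat_lit 1) (nat_lit 0) (nat_lit 488) (nat_lit 313) (nat_lit 279))) (XT.nd (nat_lit 94) (nat_lit 0) (nat_lit 0) (XT.lf (nat_lit 0) (nat_lit 22007207349370) (nat_lit 0) (nat_lit 0) (nat_lit 0) (nat_lit 0) (nat_lit 0) (nat_lit 0) (nat_lit 1) (nat_lit 0) (nat_lit 1) (nat_lit 0) (nat_lit 489) (nat_lit 313) (nat_lit 278)) (XT.lf (nat_lit 0) (nat_lit 23767781329657) (nat_lit 0) (nat_lit 0) (nat_lit 0) (nat_lit 0) (nat_lit 0) (nat_lit 0) (nat_lit 1) (nat_lit 0) (nat_lit 1) (nat_lit 0) (nat_lit 490) (nat_lit 313) (nat_lit 277))))) (XT.nd (nat_lit 376) (nat_lit 0) (nat_lit 0) (XT.nd (nat_lit 188) (nat_lit 0) (nat_lit 0) (XT.nd (nat_lit 94) (nat_lit 0) (nat_lit 0) (XT.lf (nat_lit 0) (nat_lit 25669201250629) (nat_lit 0) (nat_lit 0) (nat_lit 0) (nat_lit 0) (nat_lit 0) (nat_lit 0) (nat_lit 1) (nat_lit 0) (nat_lit 1) (nat_lit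 0) (nat_lit 491) (nat_lit 313) (nat_lit 276)) (XT.lf (nat_lit 0) (nat_lit 27722734785890) (nat_lit 0) (nat_lit 0) (nat_lit 0) (nat_lit 0) (nat_lit 0) (nat_lit 0) (nat_lit 1) (nat_lit 0) (nat_lit 1) (nat_lit 0) (nat_lit 492) (nat_lit 313) (nat_lit 275))) (XT.nd (nat_lit 94) (nat_lit 0) (nat_lit 0) (XT.lf (nat_lit 0) (nat_lit 29940551023058) (nat_lit 0) (nat_lit 0) (nat_lit 0) (nat_lit 0) (nat_lit 0) (nat_lit 0) (nat_lit 1) (nat_lit 0) (nat_lit 1) (nat_lit 0) (nat_lit 493) (nat_lit 313) (nat_lit 274)) (XT.lf (nat_lit 0) (nat_lit 32335792576870) (nat_lit 0) (nat_lit 0) (nat_lit 0) (nat_lit 0) (nat_lit 0) (nat_lit 0) (nat_lit 1) (nat_lit 0) (nat_lit 1) (nat_lit 0) (nat_lit 494) (nat_lit 313) (nat_lit 273)))) (XT.nd (nat_lit 188) (nat_lit 0) (nat_lit 0) (XT.nd (nat_lit 94) (nat_lit 0) (nat_lit 0) (XT.lf (nat_lit 0) (nat_lit 34922653471350) (nat_lit 0) (nat_lit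 0) (nat_lit 0) (nat_lit 0) (nat_lit 0) (nat_lit 0) (nat_lit 1) (nat_lit 0) (nat_lit 1) (nat_lit 0) (nat_lit 495) (nat_lit 313) (nat_lit 272)) (XT.lf (nat_lit 0) (nat_lit 37716463252539) (nat_lit 0) (nat_lit 0) (nat_lit 0) (nat_lit 0) (nat_lit 0) (nat_lit 0) (nat_lit 1) (nat_lit 0) (nat_lit 1) (nat_lit 0) (nat_lit 496) (nat_lit 313) (nat_lit 271))) (XT.nd (nat_lit 94) (nat_lit 0) (nat_lit 0) (XT.lf (nat_lit 0) (nat_lit 40733777830252) (nat_lit 0) (nat_lit 0) (nat_lit 0) (nat_lit 0) (nat_lit 0) (nat_lit 0) (nat_lit 1) (nat_lit 0) (nat_lit 1) (nat_lit 0) (nat_lit 497) (nat_lit 313) (nat_lit 270)) (XT.lf (nat_lit 0) (nat_lit 43992477587171) (nat_lit 0) (nat_lit 0) (nat_lit 0) (nat_lit 0) (nat_lit 0) (nat_lit 0) (nat_lit 1) (nat_lit 0) (nat_lit 1) (nat_lit 0) (nat_lit 498) (nat_lit 313) (nat_lit 269))))))))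
noncomputable def xc12 : XT := (XT.nd (nat_lit 65518) (nat_lit 0) (nat_lit 0) (XT.nd (nat_lit 64202) (nat_lit 0) (nat_lit 0) (XT.nd (nat_lit 63544) (nat_lit 0) (nat_lit 0) (XT.nd (nat_lit 282) (nat_lit 0) (nat_lit 0) (XT.nd (nat_lit 94) (nat_lit 0) (nat_lit 0) (XT.lf (nat_lit 0) (nat_lit 47511873336670) (nat_lit 0) (nat_lit 0) (nat_lit 0) (nat_lit 0) (nat_lit 0) (nat_lit 0) (nat_lit 1) (nat_lit 0) (nat_lit 1) (nat_lit 0) (nat_lit 499) (nat_lit 313) (nat_lit 268)) (XT.nd (nat_lit 94) (nat_lit 0) (nat_lit 0) (XT.lf (nat_lit 0) (nat_lit 51312820757265) (nat_lit 0) (nat_lit 0) (nat_lit 0) (nat_lit 0) (nat_lit 0) (nat_lit 0) (nat_lit 1) (nat_lit 0) (nat_lit 1) (nat_lit 0) (nat_lit 500) (nat_lit 313) (nat_lit 267)) (XT.lf (nat_lit 0) (nat_lit 55417843981819) (nat_lit 0) (nat_lit 0) (nat_lit 0) (nat_lit 0) (nat_lit 0) (nat_lit 0) (nat_lit 1) (nat_lit 0) (nat_lit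 1) (nat_lit 0) (nat_lit 501) (nat_lit 313) (nat_lit 266)))) (XT.nd (nat_lit 63074) (nat_lit 0) (nat_lit 0) (XT.nd (nat_lit 94) (nat_lit 0) (nat_lit 0) (XT.lf (nat_lit 0) (nat_lit 59851269073885) (nat_lit 0) (nat_lit 0) (nat_lit 0) (nat_lit 0) (nat_lit 0) (nat_lit 0) (nat_lit 1) (nat_lit 0) (nat_lit 1) (nat_lit 0) (nat_lit 502) (nat_lit 313) (nat_lit 265)) (XT.lf (nat_lit 0) (nat_lit 64639368182157) (nat_lit 0) (nat_lit 0) (nat_lit 0) (nat_lit 0) (nat_lit 0) (nat_lit 0) (nat_lit 1) (nat_lit 0) (nat_lit 1) (nat_lit 0) (nat_lit 503) (nat_lit 313) (nat_lit 264))) (XT.nd (nat_lit 94) (nat_lit 0) (nat_lit 0) (XT.lf (nat_lit 0) (nat_lit 638082124877) (nat_lit 0) (nat_lit 0) (nat_lit 0) (nat_lit 0) (nat_lit 0) (nat_lit 0) (nat_lit 1) (nat_lit 0) (nat_lit 1) (nat_lit 0) (nat_lit 452) (nat_lit 314) (nat_lit 314)) (XT.lf (nat_lit 0) (nat_lit 1378250099183) (nat_lit 0)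 (nat_lit 0) (nat_lit 0) (nat_lit 0) (nat_lit 0) (nat_lit 0) (nat_lit 1) (nat_lit 0) (nat_lit 1) (nat_lit 0) (nat_lit 453) (nat_lit 314) (nat_lit 313))))) (XT.nd (nat_lit 282) (nat_lit 0) (nat_lit 0) (XT.nd (nat_lit 94) (nat_lit 0) (nat_lit 0) (XT.lf (nat_lit 0) (nat_lit 1488503172035) (nat_lit 0) (nat_lit 0) (nat_lit 0) (nat_lit 0) (nat_lit 0) (nat_lit 0) (nat_lit 1) (nat_lit 0) (nat_lit 1) (nat_lit 0) (nat_lit 454) (nat_lit 314) (nat_lit 312)) (XT.nd (nat_lit 94) (nat_lit 0) (nat_lit 0) (XT.lf (nat_lit 0) (nat_lit 1607576819855) (nat_lit 0) (nat_lit 0) (nat_lit 0) (nat_lit 0) (nat_lit 0) (nat_lit 0) (nat_lit 1) (nat_lit 0) (nat_lit 1) (nat_lit 0) (nat_lit 455) (nat_lit 314) (nat_lit 311)) (XT.lf (nat_lit 0) (nat_lit 1736176664258) (nat_lit 0) (nat_lit 0) (nat_lit 0) (nat_lit 0) (nat_lit 0) (nat_lit 0) (nat_lit 1) (nat_lit 0) (nat_lit 1) (nat_lit 0) (nat_lit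 456) (nat_lit 314) (nat_lit 310)))) (XT.nd (nat_lit 188) (nat_lit 0) (nat_lit 0) (XT.nd (nat_lit 94) (nat_lit 0) (nat_lit 0) (XT.lf (nat_lit 0) (nat_lit 1875064778397) (nat_lit 0) (nat_lit 0) (nat_lit 0) (nat_lit 0) (nat_lit 0) (nat_lit 0) (nat_lit 1) (nat_lit 0) (nat_lit 1) (nat_lit 0) (nat_lit 457) (nat_lit 314) (nat_lit 309)) (XT.lf (nat_lit 0) (nat_lit 2025064202948) (nat_lit 0) (nat_lit 0) (nat_lit 0) (nat_lit 0) (nat_lit 0) (nat_lit 0) (nat_lit 1) (nat_lit 0) (nat_lit 1) (nat_lit 0) (nat_lit 458) (nat_lit 314) (nat_lit 308))) (XT.nd (nat_lit 94) (nat_lit 0) (nat_lit 0) (XT.lf (nat_lit 0) (nat_lit 2187063823390) (nat_lit 0) (nat_lit 0) (nat_lit 0) (nat_lit 0) (nat_lit 0) (nat_lit 0) (nat_lit 1) (nat_lit 0) (nat_lit 1) (nat_lit 0) (nat_lit 459) (nat_lit 314) (nat_lit 307)) (XT.lf (nat_lit 0) (nat_lit 2362023637473) (nat_lit 0) (nat_lit 0) (nat_lit 0) (nat_lit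 0) (nat_lit 0) (nat_lit 0) (nat_lit 1) (nat_lit 0) (nat_lit 1) (nat_lit 0) (nat_lit 460) (nat_lit 314) (nat_lit 306)))))) (XT.nd (nat_lit 658) (nat_lit 0) (nat_lit 0) (XT.nd (nat_lit 282) (nat_lit 0) (nat_lit 0) (XT.nd (nat_lit 94) (nat_lit 0) (nat_lit 0) (XT.lf (nat_lit 0) (nat_lit 2550980444097) (nat_lit 0) (nat_lit 0) (nat_lit 0) (nat_lit 0) (nat_lit 0) (nat_lit 0) (nat_lit 1) (nat_lit 0) (nat_lit 1) (nat_lit 0) (nat_lit 461) (nat_lit 314) (nat_lit 305)) (XT.nd (nat_lit 94) (nat_lit 0) (nat_lit 0) (XT.lf (nat_lit 0) (nat_lit 2755053987300) (nat_lit 0) (nat_lit 0) (nat_lit 0) (nat_lit 0) (nat_lit 0) (nat_lit 0) (nat_lit 1) (nat_lit 0) (nat_lit 1) (nat_lit 0) (nat_lit 462) (nat_lit 314) (nat_lit 304)) (XT.lf (nat_lit 0) (nat_lit 2975453591783) (nat_lit 0) (nat_lit 0) (nat_lit 0) (nat_lit 0) (nat_lit 0) (nat_lit 0) (nat_lit 1) (nat_lit 0) (nat_lit 1) (nat_lit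 0) (nat_lit 463) (nat_lit 314) (nat_lit 303)))) (XT.nd (nat_lit 188) (nat_lit 0) (nat_lit 0) (XT.nd (nat_lit 94) (nat_lit 0) (nat_lit 0) (XT.lf (nat_lit 0) (nat_lit 3213485329276) (nat_lit 0) (nat_lit 0) (nat_lit 0) (nat_lit 0) (nat_lit 0) (nat_lit 0) (nat_lit 1) (nat_lit 0) (nat_lit 1) (nat_lit 0) (nat_lit 464) (nat_lit 314) (nat_lit 302)) (XT.lf (nat_lit 0) (nat_lit 3470559758223) (nat_lit 0) (nat_lit 0) (nat_lit 0) (nat_lit 0) (nat_lit 0) (nat_lit 0) (nat_lit 1) (nat_lit 0) (nat_lit 1) (nat_lit 0) (nat_lit 465) (nat_lit 314) (nat_lit 301))) (XT.nd (nat_lit 94) (nat_lit 0) (nat_lit 0) (XT.lf (nat_lit 0) (nat_lit 3748200282648) (nat_lit 0) (nat_lit 0) (nat_lit 0) (nat_lit 0) (nat_lit 0) (nat_lit 0) (nat_lit 1) (nat_lit 0) (nat_lit 1) (nat_lit 0) (nat_lit 466) (nat_lit 314) (nat_lit 300)) (XT.lf (nat_lit 0) (nat_lit 4048052179732) (nat_lit 0) (nat_lit 0) (nat_lit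 0) (nat_lit 0) (nat_lit 0) (nat_lit 0) (nat_lit 1) (nat_lit 0) (nat_lit 1) (nat_lit 0) (nat_lit 467) (nat_lit 314) (nat_lit 299))))) (XT.nd (nat_lit 282) (nat_lit 0) (nat_lit 0) (XT.nd (nat_lit 94) (nat_lit 0) (nat_lit 0) (XT.lf (nat_lit 0) (nat_lit 4371892349607) (nat_lit 0) (nat_lit 0) (nat_lit 0) (nat_lit 0) (nat_lit 0) (nat_lit 0) (nat_lit 1) (nat_lit 0) (nat_lit 1) (nat_lit 0) (nat_lit 468) (nat_lit 314) (nat_lit 298)) (XT.nd (nat_lit 94) (nat_lit 0) (nat_lit 0) (XT.lf (nat_lit 0) (nat_lit 4721639845131) (nat_lit 0) (nat_lit 0) (nat_lit 0) (nat_lit 0) (nat_lit 0) (nat_lit 0) (nat_lit 1) (nat_lit 0) (nat_lit 1) (nat_lit 0) (nat_lit 469) (nat_lit 314) (nat_lit 297)) (XT.lf (nat_lit 0) (nat_lit 5099367244055) (nat_lit 0) (nat_lit 0) (nat_lit 0) (nat_lit 0) (nat_lit 0) (nat_lit 0) (nat_lit 1) (nat_lit 0) (nat_lit 1) (nat_lit 0) (nat_lit 470) (nat_lit 314)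 (nat_lit 296)))) (XT.nd (nat_lit 188) (nat_lit 0) (nat_lit 0) (XT.nd (nat_lit 94) (nat_lit 0) (nat_lit 0) (XT.lf (nat_lit 0) (nat_lit 5507312930966) (nat_lit 0) (nat_lit 0) (nat_lit 0) (nat_lit 0) (nat_lit 0) (nat_lit 0) (nat_lit 1) (nat_lit 0) (nat_lit 1) (nat_lit 0) (nat_lit 471) (nat_lit 314) (nat_lit 295)) (XT.lf (nat_lit 0) (nat_lit 5947894361785) (nat_lit 0) (nat_lit 0) (nat_lit 0) (nat_lit 0) (nat_lit 0) (nat_lit 0) (nat_lit 1) (nat_lit 0) (nat_lit 1) (nat_lit 0) (nat_lit 472) (nat_lit 314) (nat_lit 294))) (XT.nd (nat_lit 94) (nat_lit 0) (nat_lit 0) (XT.lf (nat_lit 0) (nat_lit 6423722389436) (nat_lit 0) (nat_lit 0) (nat_lit 0) (nat_lit 0) (nat_lit 0) (nat_lit 0) (nat_lit 1) (nat_lit 0) (nat_lit 1) (nat_lit 0) (nat_lit 473) (nat_lit 314) (nat_lit 293)) (XT.lf (nat_lit 0) (nat_lit 6937616735566) (nat_lit 0) (nat_lit 0) (nat_lit 0) (nat_lit 0) (nat_lit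 0) (nat_lit 0) (nat_lit 1) (nat_lit 0) (nat_lit 1) (nat_lit 0) (nat_lit 474) (nat_lit 314) (nat_lit 292))))))) (XT.nd (nat_lit 1316) (nat_lit 0) (nat_lit 0) (XT.nd (nat_lit 658) (nat_lit 0) (nat_lit 0) (XT.nd (nat_lit 282) (nat_lit 0) (nat_lit 0) (XT.nd (nat_lit 94) (nat_lit 0) (nat_lit 0) (XT.lf (nat_lit 0) (nat_lit 7492622700001) (nat_lit 0) (nat_lit 0) (nat_lit 0) (nat_lit 0) (nat_lit 0) (nat_lit 0) (nat_lit 1) (nat_lit 0) (nat_lit 1) (nat_lit 0) (nat_lit 475) (nat_lit 314) (nat_lit 291)) (XT.nd (nat_lit 94) (nat_lit 0) (nat_lit 0) (XT.lf (nat_lit 0) (nat_lit 8092029206977) (nat_lit 0) (nat_lit 0) (nat_lit 0) (nat_lit 0) (nat_lit 0) (nat_lit 0) (nat_lit 1) (nat_lit 0) (nat_lit 1) (nat_lit 0) (nat_lit 476) (nat_lit 314) (nat_lit 290)) (XT.lf (nat_lit 0) (nat_lit 8739388295053) (nat_lit 0) (nat_lit 0) (nat_lit 0) (nat_lit 0) (nat_lit 0) (nat_lit 0) (nat_lit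 1) (nat_lit 0) (nat_lit 1) (nat_lit 0) (nat_lit 477) (nat_lit 314) (nat_lit 289)))) (XT.nd (nat_lit 188) (nat_lit 0) (nat_lit 0) (XT.nd (nat_lit 94) (nat_lit 0) (nat_lit 0) (XT.lf (nat_lit 0) (nat_lit 9438536166232) (nat_lit 0) (nat_lit 0) (nat_lit 0) (nat_lit 0) (nat_lit 0) (nat_lit 0) (nat_lit 1) (nat_lit 0) (nat_lit 1) (nat_lit 0) (nat_lit 478) (nat_lit 314) (nat_lit 288)) (XT.lf (nat_lit 0) (nat_lit 10193615919011) (nat_lit 0) (nat_lit 0) (nat_lit 0) (nat_lit 0) (nat_lit 0) (nat_lit 0) (nat_lit 1) (nat_lit 0) (nat_lit 1) (nat_lit 0) (nat_lit 479) (nat_lit 314) (nat_lit 287))) (XT.nd (nat_lit 94) (nat_lit 0) (nat_lit 0) (XT.lf (nat_lit 0) (nat_lit 11009102100072) (nat_lit 0) (nat_lit 0) (nat_lit 0) (nat_lit 0) (nat_lit 0) (nat_lit 0) (nat_lit 1) (nat_lit 0) (nat_lit 1) (nat_lit 0) (nat_lit 480) (nat_lit 314) (nat_lit 286)) (XT.lf (nat_lit 0) (nat_lit 11889827220118)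 (nat_lit 0) (nat_lit 0) (nat_lit 0) (nat_lit 0) (nat_lit 0) (nat_lit 0) (nat_lit 1) (nat_lit 0) (nat_lit 1) (nat_lit 0) (nat_lit 481) (nat_lit 314) (nat_lit 285))))) (XT.nd (nat_lit 282) (nat_lit 0) (nat_lit 0) (XT.nd (nat_lit 94) (nat_lit 0) (nat_lit 0) (XT.lf (nat_lit 0) (nat_lit 12841010390972) (nat_lit 0) (nat_lit 0) (nat_lit 0) (nat_lit 0) (nat_lit 0) (nat_lit 0) (nat_lit 1) (nat_lit 0) (nat_lit 1) (nat_lit 0) (nat_lit 482) (nat_lit 314) (nat_lit 284)) (XT.nd (nat_lit 94) (nat_lit 0) (nat_lit 0) (XT.lf (nat_lit 0) (nat_lit 13868288253645) (nat_lit 0) (nat_lit 0) (nat_lit 0) (nat_lit 0) (nat_lit 0) (nat_lit 0) (nat_lit 1) (nat_lit 0) (nat_lit 1) (nat_lit 0) (nat_lit 483) (nat_lit 314) (nat_lit 283)) (XT.lf (nat_lit 0) (nat_lit 14977748380658) (nat_lit 0) (nat_lit 0) (nat_lit 0) (nat_lit 0) (nat_lit 0) (nat_lit 0) (nat_lit 1) (nat_lit 0) (nat_lit 1) (nat_lit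 0) (nat_lit 484) (nat_lit 314) (nat_lit 282)))) (XT.nd (nat_lit 188) (nat_lit 0) (nat_lit 0) (XT.nd (nat_lit 94) (nat_lit 0) (nat_lit 0) (XT.lf (nat_lit 0) (nat_lit 16175965350542) (nat_lit 0) (nat_lit 0) (nat_lit 0) (nat_lit 0) (nat_lit 0) (nat_lit 0) (nat_lit 1) (nat_lit 0) (nat_lit 1) (nat_lit 0) (nat_lit 485) (nat_lit 314) (nat_lit 281)) (XT.lf (nat_lit 0) (nat_lit 17470039708302) (nat_lit 0) (nat_lit 0) (nat_lit 0) (nat_lit 0) (nat_lit 0) (nat_lit 0) (nat_lit 1) (nat_lit 0) (nat_lit 1) (nat_lit 0) (nat_lit 486) (nat_lit 314) (nat_lit 280))) (XT.nd (nat_lit 94) (nat_lit 0) (nat_lit 0) (XT.lf (nat_lit 0) (nat_lit 18867640042725) (nat_lit 0) (nat_lit 0) (nat_lit 0) (nat_lit 0) (nat_lit 0) (nat_lit 0) (nat_lit 1) (nat_lit 0) (nat_lit 1) (nat_lit 0) (nat_lit 487) (nat_lit 314) (nat_lit 279)) (XT.lf (nat_lit 0) (nat_lit 20377048429867) (nat_lit 0) (nat_lit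 0) (nat_lit 0) (nat_lit 0) (nat_lit 0) (nat_lit 0) (nat_lit 1) (nat_lit 0) (nat_lit 1) (nat_lit 0) (nat_lit 488) (nat_lit 314) (nat_lit 278)))))) (XT.nd (nat_lit 658) (nat_lit 0) (nat_lit 0) (XT.nd (nat_lit 282) (nat_lit 0) (nat_lit 0) (XT.nd (nat_lit 94) (nat_lit 0) (nat_lit 0) (XT.lf (nat_lit 0) (nat_lit 22007209512024) (nat_lit 0) (nat_lit 0) (nat_lit 0) (nat_lit 0) (nat_lit 0) (nat_lit 0) (nat_lit 1) (nat_lit 0) (nat_lit 1) (nat_lit 0) (nat_lit 489) (nat_lit 314) (nat_lit 277)) (XT.nd (nat_lit 94) (nat_lit 0) (nat_lit 0) (XT.lf (nat_lit 0) (nat_lit 23767783503013) (nat_lit 0) (nat_lit 0) (nat_lit 0) (nat_lit 0) (nat_lit 0) (nat_lit 0) (nat_lit 1) (nat_lit 0) (nat_lit 1) (nat_lit 0) (nat_lit 490) (nat_lit 314) (nat_lit 276)) (XT.lf (nat_lit 0) (nat_lit 25669203433894) (nat_lit 0) (nat_lit 0) (nat_lit 0) (nat_lit 0) (nat_lit 0) (nat_lit 0) (nat_lit 1) (nat_lit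 0) (nat_lit 1) (nat_lit 0) (nat_lit 491) (nat_lit 314) (nat_lit 275)))) (XT.nd (nat_lit 188) (nat_lit 0) (nat_lit 0) (XT.nd (nat_lit 94) (nat_lit 0) (nat_lit 0) (XT.lf (nat_lit 0) (nat_lit 27722736978331) (nat_lit 0) (nat_lit 0) (nat_lit 0) (nat_lit 0) (nat_lit 0) (nat_lit 0) (nat_lit 1) (nat_lit 0) (nat_lit 1) (nat_lit 0) (nat_lit 492) (nat_lit 314) (nat_lit 274)) (XT.lf (nat_lit 0) (nat_lit 29940553223995) (nat_lit 0) (nat_lit 0) (nat_lit 0) (nat_lit 0) (nat_lit 0) (nat_lit 0) (nat_lit 1) (nat_lit 0) (nat_lit 1) (nat_lit 0) (nat_lit 493) (nat_lit 314) (nat_lit 273))) (XT.nd (nat_lit 94) (nat_lit 0) (nat_lit 0) (XT.lf (nat_lit 0) (nat_lit 32335794785674) (nat_lit 0) (nat_lit 0) (nat_lit 0) (nat_lit 0) (nat_lit 0) (nat_lit 0) (nat_lit 1) (nat_lit 0) (nat_lit 1) (nat_lit 0) (nat_lit 494) (nat_lit 314) (nat_lit 272)) (XT.lf (nat_lit 0) (nat_lit 34922655687438)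 (nat_lit 0) (nat_lit 0) (nat_lit 0) (nat_lit 0) (nat_lit 0) (nat_lit 0) (nat_lit 1) (nat_lit 0) (nat_lit 1) (nat_lit 0) (nat_lit 495) (nat_lit 314) (nat_lit 271))))) (XT.nd (nat_lit 376) (nat_lit 0) (nat_lit 0) (XT.nd (nat_lit 188) (nat_lit 0) (nat_lit 0) (XT.nd (nat_lit 94) (nat_lit 0) (nat_lit 0) (XT.lf (nat_lit 0) (nat_lit 37716465475371) (nat_lit 0) (nat_lit 0) (nat_lit 0) (nat_lit 0) (nat_lit 0) (nat_lit 0) (nat_lit 1) (nat_lit 0) (nat_lit 1) (nat_lit 0) (nat_lit 496) (nat_lit 314) (nat_lit 270)) (XT.lf (nat_lit 0) (nat_lit 40733780059329) (nat_lit 0) (nat_lit 0) (nat_lit 0) (nat_lit 0) (nat_lit 0) (nat_lit 0) (nat_lit 1) (nat_lit 0) (nat_lit 1) (nat_lit 0) (nat_lit 497) (nat_lit 314) (nat_lit 269))) (XT.nd (nat_lit 94) (nat_lit 0) (nat_lit 0) (XT.lf (nat_lit 0) (nat_lit 43992479822030) (nat_lit 0) (nat_lit 0) (nat_lit 0) (nat_lit 0) (nat_lit 0) (nat_lit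 0) (nat_lit 1) (nat_lit 0) (nat_lit 1) (nat_lit 0) (nat_lit 498) (nat_lit 314) (nat_lit 268)) (XT.lf (nat_lit 0) (nat_lit 47511875576883) (nat_lit 0) (nat_lit 0) (nat_lit 0) (nat_lit 0) (nat_lit 0) (nat_lit 0) (nat_lit 1) (nat_lit 0) (nat_lit 1) (nat_lit 0) (nat_lit 499) (nat_lit 314) (nat_lit 267)))) (XT.nd (nat_lit 188) (nat_lit 0) (nat_lit 0) (XT.nd (nat_lit 94) (nat_lit 0) (nat_lit 0) (XT.lf (nat_lit 0) (nat_lit 51312823002436) (nat_lit 0) (nat_lit 0) (nat_lit 0) (nat_lit 0) (nat_lit 0) (nat_lit 0) (nat_lit 1) (nat_lit 0) (nat_lit 1) (nat_lit 0) (nat_lit 500) (nat_lit 314) (nat_lit 266)) (XT.lf (nat_lit 0) (nat_lit 55417846231580) (nat_lit 0) (nat_lit 0) (nat_lit 0) (nat_lit 0) (nat_lit 0) (nat_lit 0) (nat_lit 1) (nat_lit 0) (nat_lit 1) (nat_lit 0) (nat_lit 501) (nat_lit 314) (nat_lit 265))) (XT.nd (nat_lit 94) (nat_lit 0) (nat_lit 0) (XT.lf (nat_lit 0)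 (nat_lit 59851271327896) (nat_lit 0) (nat_lit 0) (nat_lit 0) (nat_lit 0) (nat_lit 0) (nat_lit 0) (nat_lit 1) (nat_lit 0) (nat_lit 1) (nat_lit 0) (nat_lit 502) (nat_lit 314) (nat_lit 264)) (XT.lf (nat_lit 0) (nat_lit 64639370440103) (nat_lit 0) (nat_lit 0) (nat_lit 0) (nat_lit 0) (nat_lit 0) (nat_lit 0) (nat_lit 1) (nat_lit 0) (nat_lit 1) (nat_lit 0) (nat_lit 503) (nat_lit 314) (nat_lit 263))))))))
noncomputable def xc13 : XT := (XT.nd (nat_lit 2632) (nat_lit 0) (nat_lit 0) (XT.nd (nat_lit 1316) (nat_lit 0) (nat_lit 0) (XT.nd (nat_lit 658) (nat_lit 0) (nat_lit 0) (XT.nd (nat_lit 282) (nat_lit 0) (nat_lit 0) (XT.nd (nat_lit 94) (nat_lit 0) (nat_lit 0) (XT.lf (nat_lit 0) (nat_lit 547059511280) (nat_lit 0) (nat_lit 0) (nat_lit 0) (nat_lit 0) (nat_lit 0) (nat_lit 0) (nat_lit 1) (nat_lit 0) (nat_lit 1) (nat_lit 0) (nat_lit 450) (nat_lit 315) (nat_lit 315)) (XT.nd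 (nat_lit 94) (nat_lit 0) (nat_lit 0) (XT.lf (nat_lit 0) (nat_lit 1181640670569) (nat_lit 0) (nat_lit 0) (nat_lit 0) (nat_lit 0) (nat_lit 0) (nat_lit 0) (nat_lit 1) (nat_lit 0) (nat_lit 1) (nat_lit 0) (nat_lit 451) (nat_lit 315) (nat_lit 314)) (XT.lf (nat_lit 0) (nat_lit 1276164434326) (nat_lit 0) (nat_lit 0) (nat_lit 0) (nat_lit 0) (nat_lit 0) (nat_lit 0) (nat_lit 1) (nat_lit 0) (nat_lit 1) (nat_lit 0) (nat_lit 452) (nat_lit 315) (nat_lit 313)))) (XT.nd (nat_lit 188) (nat_lit 0) (nat_lit 0) (XT.nd (nat_lit 94) (nat_lit 0) (nat_lit 0) (XT.lf (nat_lit 0) (nat_lit 1378250454653) (nat_lit 0) (nat_lit 0) (nat_lit 0) (nat_lit 0) (nat_lit 0) (nat_lit 0) (nat_lit 1) (nat_lit 0) (nat_lit 1) (nat_lit 0) (nat_lit 453) (nat_lit 315) (nat_lit 312)) (XT.lf (nat_lit 0) (nat_lit 1488503685745) (nat_lit 0) (nat_lit 0) (nat_lit 0) (nat_lit 0) (nat_lit 0) (nat_lit 0) (nat_lit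 1) (nat_lit 0) (nat_lit 1) (nat_lit 0) (nat_lit 454) (nat_lit 315) (nat_lit 311))) (XT.nd (nat_lit 94) (nat_lit 0) (nat_lit 0) (XT.lf (nat_lit 0) (nat_lit 1607577480083) (nat_lit 0) (nat_lit 0) (nat_lit 0) (nat_lit 0) (nat_lit 0) (nat_lit 0) (nat_lit 1) (nat_lit 0) (nat_lit 1) (nat_lit 0) (nat_lit 455) (nat_lit 315) (nat_lit 310)) (XT.lf (nat_lit 0) (nat_lit 1736177460151) (nat_lit 0) (nat_lit 0) (nat_lit 0) (nat_lit 0) (nat_lit 0) (nat_lit 0) (nat_lit 1) (nat_lit 0) (nat_lit 1) (nat_lit 0) (nat_lit 456) (nat_lit 315) (nat_lit 309))))) (XT.nd (nat_lit 282) (nat_lit 0) (nat_lit 0) (XT.nd (nat_lit 94) (nat_lit 0) (nat_lit 0) (XT.lf (nat_lit 0) (nat_lit 1875065699906) (nat_lit 0) (nat_lit 0) (nat_lit 0) (nat_lit 0) (nat_lit 0) (nat_lit 0) (nat_lit 1) (nat_lit 0) (nat_lit 1) (nat_lit 0) (nat_lit 457) (nat_lit 315) (nat_lit 308)) (XT.nd (nat_lit 94) (nat_lit 0)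 (nat_lit 0) (XT.lf (nat_lit 0) (nat_lit 2025065240768) (nat_lit 0) (nat_lit 0) (nat_lit 0) (nat_lit 0) (nat_lit 0) (nat_lit 0) (nat_lit 1) (nat_lit 0) (nat_lit 1) (nat_lit 0) (nat_lit 458) (nat_lit 315) (nat_lit 307)) (XT.lf (nat_lit 0) (nat_lit 2187064968905) (nat_lit 0) (nat_lit 0) (nat_lit 0) (nat_lit 0) (nat_lit 0) (nat_lit 0) (nat_lit 1) (nat_lit 0) (nat_lit 1) (nat_lit 0) (nat_lit 459) (nat_lit 315) (nat_lit 306)))) (XT.nd (nat_lit 188) (nat_lit 0) (nat_lit 0) (XT.nd (nat_lit 94) (nat_lit 0) (nat_lit 0) (XT.lf (nat_lit 0) (nat_lit 2362024882707) (nat_lit 0) (nat_lit 0) (nat_lit 0) (nat_lit 0) (nat_lit 0) (nat_lit 0) (nat_lit 1) (nat_lit 0) (nat_lit 1) (nat_lit 0) (nat_lit 460) (nat_lit 315) (nat_lit 305)) (XT.lf (nat_lit 0) (nat_lit 2550981781662) (nat_lit 0) (nat_lit 0) (nat_lit 0) (nat_lit 0) (nat_lit 0) (nat_lit 0) (nat_lit 1) (nat_lit 0) (nat_lit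 1) (nat_lit 0) (nat_lit 461) (nat_lit 315) (nat_lit 304))) (XT.nd (nat_lit 94) (nat_lit 0) (nat_lit 0) (XT.lf (nat_lit 0) (nat_lit 2755055410357) (nat_lit 0) (nat_lit 0) (nat_lit 0) (nat_lit 0) (nat_lit 0) (nat_lit 0) (nat_lit 1) (nat_lit 0) (nat_lit 1) (nat_lit 0) (nat_lit 462) (nat_lit 315) (nat_lit 303)) (XT.lf (nat_lit 0) (nat_lit 2975455093999) (nat_lit 0) (nat_lit 0) (nat_lit 0) (nat_lit 0) (nat_lit 0) (nat_lit 0) (nat_lit 1) (nat_lit 0) (nat_lit 1) (nat_lit 0) (nat_lit 463) (nat_lit 315) (nat_lit 302)))))) (XT.nd (nat_lit 658) (nat_lit 0) (nat_lit 0) (XT.nd (nat_lit 282) (nat_lit 0) (nat_lit 0) (XT.nd (nat_lit 94) (nat_lit 0) (nat_lit 0) (XT.lf (nat_lit 0) (nat_lit 3213486904788) (nat_lit 0) (nat_lit 0) (nat_lit 0) (nat_lit 0) (nat_lit 0) (nat_lit 0) (nat_lit 1) (nat_lit 0) (nat_lit 1) (nat_lit 0) (nat_lit 464) (nat_lit 315) (nat_lit 301)) (XT.nd (nat_lit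 94) (nat_lit 0) (nat_lit 0) (XT.lf (nat_lit 0) (nat_lit 3470561401601) (nat_lit 0) (nat_lit 0) (nat_lit 0) (nat_lit 0) (nat_lit 0) (nat_lit 0) (nat_lit 1) (nat_lit 0) (nat_lit 1) (nat_lit 0) (nat_lit 465) (nat_lit 315) (nat_lit 300)) (XT.lf (nat_lit 0) (nat_lit 3748201988865) (nat_lit 0) (nat_lit 0) (nat_lit 0) (nat_lit 0) (nat_lit 0) (nat_lit 0) (nat_lit 1) (nat_lit 0) (nat_lit 1) (nat_lit 0) (nat_lit 466) (nat_lit 315) (nat_lit 299)))) (XT.nd (nat_lit 188) (nat_lit 0) (nat_lit 0) (XT.nd (nat_lit 94) (nat_lit 0) (nat_lit 0) (XT.lf (nat_lit 0) (nat_lit 4048053944134) (nat_lit 0) (nat_lit 0) (nat_lit 0) (nat_lit 0) (nat_lit 0) (nat_lit 0) (nat_lit 1) (nat_lit 0) (nat_lit 1) (nat_lit 0) (nat_lit 467) (nat_lit 315) (nat_lit 298)) (XT.lf (nat_lit 0) (nat_lit 4371894167884) (nat_lit 0) (nat_lit 0) (nat_lit 0) (nat_lit 0) (nat_lit 0) (nat_lit 0) (nat_lit 1) (nat_lit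 0) (nat_lit 1) (nat_lit 0) (nat_lit 468) (nat_lit 315) (nat_lit 297))) (XT.nd (nat_lit 94) (nat_lit 0) (nat_lit 0) (XT.lf (nat_lit 0) (nat_lit 4721641713291) (nat_lit 0) (nat_lit 0) (nat_lit 0) (nat_lit 0) (nat_lit 0) (nat_lit 0) (nat_lit 1) (nat_lit 0) (nat_lit 1) (nat_lit 0) (nat_lit 469) (nat_lit 315) (nat_lit 296)) (XT.lf (nat_lit 0) (nat_lit 5099369158404) (nat_lit 0) (nat_lit 0) (nat_lit 0) (nat_lit 0) (nat_lit 0) (nat_lit 0) (nat_lit 1) (nat_lit 0) (nat_lit 1) (nat_lit 0) (nat_lit 470) (nat_lit 315) (nat_lit 295))))) (XT.nd (nat_lit 282) (nat_lit 0) (nat_lit 0) (XT.nd (nat_lit 94) (nat_lit 0) (nat_lit 0) (XT.lf (nat_lit 0) (nat_lit 5507314888082) (nat_lit 0) (nat_lit 0) (nat_lit 0) (nat_lit 0) (nat_lit 0) (nat_lit 0) (nat_lit 1) (nat_lit 0) (nat_lit 1) (nat_lit 0) (nat_lit 471) (nat_lit 315) (nat_lit 294)) (XT.nd (nat_lit 94) (nat_lit 0) (nat_lit 0)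 (XT.lf (nat_lit 0) (nat_lit 5947896358501) (nat_lit 0) (nat_lit 0) (nat_lit 0) (nat_lit 0) (nat_lit 0) (nat_lit 0) (nat_lit 1) (nat_lit 0) (nat_lit 1) (nat_lit 0) (nat_lit 472) (nat_lit 315) (nat_lit 293)) (XT.lf (nat_lit 0) (nat_lit 6423724422818) (nat_lit 0) (nat_lit 0) (nat_lit 0) (nat_lit 0) (nat_lit 0) (nat_lit 0) (nat_lit 1) (nat_lit 0) (nat_lit 1) (nat_lit 0) (nat_lit 473) (nat_lit 315) (nat_lit 292)))) (XT.nd (nat_lit 188) (nat_lit 0) (nat_lit 0) (XT.nd (nat_lit 94) (nat_lit 0) (nat_lit 0) (XT.lf (nat_lit 0) (nat_lit 6937618802897) (nat_lit 0) (nat_lit 0) (nat_lit 0) (nat_lit 0) (nat_lit 0) (nat_lit 0) (nat_lit 1) (nat_lit 0) (nat_lit 1) (nat_lit 0) (nat_lit 474) (nat_lit 315) (nat_lit 291)) (XT.lf (nat_lit 0) (nat_lit 7492624798768) (nat_lit 0) (nat_lit 0) (nat_lit 0) (nat_lit 0) (nat_lit 0) (nat_lit 0) (nat_lit 1) (nat_lit 0) (nat_lit 1) (nat_lit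 0) (nat_lit 475) (nat_lit 315) (nat_lit 290))) (XT.nd (nat_lit 94) (nat_lit 0) (nat_lit 0) (XT.lf (nat_lit 0) (nat_lit 8092031334851) (nat_lit 0) (nat_lit 0) (nat_lit 0) (nat_lit 0) (nat_lit 0) (nat_lit 0) (nat_lit 1) (nat_lit 0) (nat_lit 1) (nat_lit 0) (nat_lit 476) (nat_lit 315) (nat_lit 289)) (XT.lf (nat_lit 0) (nat_lit 8739390449877) (nat_lit 0) (nat_lit 0) (nat_lit 0) (nat_lit 0) (nat_lit 0) (nat_lit 0) (nat_lit 1) (nat_lit 0) (nat_lit 1) (nat_lit 0) (nat_lit 477) (nat_lit 315) (nat_lit 288))))))) (XT.nd (nat_lit 1316) (nat_lit 0) (nat_lit 0) (XT.nd (nat_lit 658) (nat_lit 0) (nat_lit 0) (XT.nd (nat_lit 282) (nat_lit 0) (nat_lit 0) (XT.nd (nat_lit 94) (nat_lit 0) (nat_lit 0) (XT.lf (nat_lit 0) (nat_lit 9438538346011) (nat_lit 0) (nat_lit 0) (nat_lit 0) (nat_lit 0) (nat_lit 0) (nat_lit 0) (nat_lit 1) (nat_lit 0) (nat_lit 1) (nat_lit 0) (nat_lit 478) (nat_lit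 315) (nat_lit 287)) (XT.nd (nat_lit 94) (nat_lit 0) (nat_lit 0) (XT.lf (nat_lit 0) (nat_lit 10193618121895) (nat_lit 0) (nat_lit 0) (nat_lit 0) (nat_lit 0) (nat_lit 0) (nat_lit 0) (nat_lit 1) (nat_lit 0) (nat_lit 1) (nat_lit 0) (nat_lit 479) (nat_lit 315) (nat_lit 286)) (XT.lf (nat_lit 0) (nat_lit 11009104324351) (nat_lit 0) (nat_lit 0) (nat_lit 0) (nat_lit 0) (nat_lit 0) (nat_lit 0) (nat_lit 1) (nat_lit 0) (nat_lit 1) (nat_lit 0) (nat_lit 480) (nat_lit 315) (nat_lit 285)))) (XT.nd (nat_lit 188) (nat_lit 0) (nat_lit 0) (XT.nd (nat_lit 94) (nat_lit 0) (nat_lit 0) (XT.lf (nat_lit 0) (nat_lit 11889829464206) (nat_lit 0) (nat_lit 0) (nat_lit 0) (nat_lit 0) (nat_lit 0) (nat_lit 0) (nat_lit 1) (nat_lit 0) (nat_lit 1) (nat_lit 0) (nat_lit 481) (nat_lit 315) (nat_lit 284)) (XT.lf (nat_lit 0) (nat_lit 12841012653402) (nat_lit 0) (nat_lit 0) (nat_lit 0) (nat_lit 0)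 (nat_lit 0) (nat_lit 0) (nat_lit 1) (nat_lit 0) (nat_lit 1) (nat_lit 0) (nat_lit 482) (nat_lit 315) (nat_lit 283))) (XT.nd (nat_lit 94) (nat_lit 0) (nat_lit 0) (XT.lf (nat_lit 0) (nat_lit 13868290533059) (nat_lit 0) (nat_lit 0) (nat_lit 0) (nat_lit 0) (nat_lit 0) (nat_lit 0) (nat_lit 1) (nat_lit 0) (nat_lit 1) (nat_lit 0) (nat_lit 483) (nat_lit 315) (nat_lit 282)) (XT.lf (nat_lit 0) (nat_lit 14977750675798) (nat_lit 0) (nat_lit 0) (nat_lit 0) (nat_lit 0) (nat_lit 0) (nat_lit 0) (nat_lit 1) (nat_lit 0) (nat_lit 1) (nat_lit 0) (nat_lit 484) (nat_lit 315) (nat_lit 281))))) (XT.nd (nat_lit 282) (nat_lit 0) (nat_lit 0) (XT.nd (nat_lit 94) (nat_lit 0) (nat_lit 0) (XT.lf (nat_lit 0) (nat_lit 16175967660242) (nat_lit 0) (nat_lit 0) (nat_lit 0) (nat_lit 0) (nat_lit 0) (nat_lit 0) (nat_lit 1) (nat_lit 0) (nat_lit 1) (nat_lit 0) (nat_lit 485) (nat_lit 315) (nat_lit 280))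 (XT.nd (nat_lit 94) (nat_lit 0) (nat_lit 0) (XT.lf (nat_lit 0) (nat_lit 17470042031484) (nat_lit 0) (nat_lit 0) (nat_lit 0) (nat_lit 0) (nat_lit 0) (nat_lit 0) (nat_lit 1) (nat_lit 0) (nat_lit 1) (nat_lit 0) (nat_lit 486) (nat_lit 315) (nat_lit 279)) (XT.lf (nat_lit 0) (nat_lit 18867642378390) (nat_lit 0) (nat_lit 0) (nat_lit 0) (nat_lit 0) (nat_lit 0) (nat_lit 0) (nat_lit 1) (nat_lit 0) (nat_lit 1) (nat_lit 0) (nat_lit 487) (nat_lit 315) (nat_lit 278)))) (XT.nd (nat_lit 188) (nat_lit 0) (nat_lit 0) (XT.nd (nat_lit 94) (nat_lit 0) (nat_lit 0) (XT.lf (nat_lit 0) (nat_lit 20377050777092) (nat_lit 0) (nat_lit 0) (nat_lit 0) (nat_lit 0) (nat_lit 0) (nat_lit 0) (nat_lit 1) (nat_lit 0) (nat_lit 1) (nat_lit 0) (nat_lit 488) (nat_lit 315) (nat_lit 277)) (XT.lf (nat_lit 0) (nat_lit 22007211869950) (nat_lit 0) (nat_lit 0) (nat_lit 0) (nat_lit 0) (nat_lit 0) (nat_lit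 0) (nat_lit 1) (nat_lit 0) (nat_lit 1) (nat_lit 0) (nat_lit 489) (nat_lit 315) (nat_lit 276))) (XT.nd (nat_lit 94) (nat_lit 0) (nat_lit 0) (XT.lf (nat_lit 0) (nat_lit 23767785870850) (nat_lit 0) (nat_lit 0) (nat_lit 0) (nat_lit 0) (nat_lit 0) (nat_lit 0) (nat_lit 1) (nat_lit 0) (nat_lit 1) (nat_lit 0) (nat_lit 490) (nat_lit 315) (nat_lit 275)) (XT.lf (nat_lit 0) (nat_lit 25669205810906) (nat_lit 0) (nat_lit 0) (nat_lit 0) (nat_lit 0) (nat_lit 0) (nat_lit 0) (nat_lit 1) (nat_lit 0) (nat_lit 1) (nat_lit 0) (nat_lit 491) (nat_lit 315) (nat_lit 274)))))) (XT.nd (nat_lit 658) (nat_lit 0) (nat_lit 0) (XT.nd (nat_lit 282) (nat_lit 0) (nat_lit 0) (XT.nd (nat_lit 94) (nat_lit 0) (nat_lit 0) (XT.lf (nat_lit 0) (nat_lit 27722739363839) (nat_lit 0) (nat_lit 0) (nat_lit 0) (nat_lit 0) (nat_lit 0) (nat_lit 0) (nat_lit 1) (nat_lit 0) (nat_lit 1) (nat_lit 0) (nat_lit 492)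 (nat_lit 315) (nat_lit 273)) (XT.nd (nat_lit 94) (nat_lit 0) (nat_lit 0) (XT.lf (nat_lit 0) (nat_lit 29940555617369) (nat_lit 0) (nat_lit 0) (nat_lit 0) (nat_lit 0) (nat_lit 0) (nat_lit 0) (nat_lit 1) (nat_lit 0) (nat_lit 1) (nat_lit 0) (nat_lit 493) (nat_lit 315) (nat_lit 272)) (XT.lf (nat_lit 0) (nat_lit 32335797186333) (nat_lit 0) (nat_lit 0) (nat_lit 0) (nat_lit 0) (nat_lit 0) (nat_lit 0) (nat_lit 1) (nat_lit 0) (nat_lit 1) (nat_lit 0) (nat_lit 494) (nat_lit 315) (nat_lit 271)))) (XT.nd (nat_lit 188) (nat_lit 0) (nat_lit 0) (XT.nd (nat_lit 94) (nat_lit 0) (nat_lit 0) (XT.lf (nat_lit 0) (nat_lit 34922658094841) (nat_lit 0) (nat_lit 0) (nat_lit 0) (nat_lit 0) (nat_lit 0) (nat_lit 0) (nat_lit 1) (nat_lit 0) (nat_lit 1) (nat_lit 0) (nat_lit 495) (nat_lit 315) (nat_lit 270)) (XT.lf (nat_lit 0) (nat_lit 37716467889019) (nat_lit 0) (nat_lit 0) (nat_lit 0) (nat_lit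 0) (nat_lit 0) (nat_lit 0) (nat_lit 1) (nat_lit 0) (nat_lit 1) (nat_lit 0) (nat_lit 496) (nat_lit 315) (nat_lit 269))) (XT.nd (nat_lit 94) (nat_lit 0) (nat_lit 0) (XT.lf (nat_lit 0) (nat_lit 40733782478759) (nat_lit 0) (nat_lit 0) (nat_lit 0) (nat_lit 0) (nat_lit 0) (nat_lit 0) (nat_lit 1) (nat_lit 0) (nat_lit 1) (nat_lit 0) (nat_lit 497) (nat_lit 315) (nat_lit 268)) (XT.lf (nat_lit 0) (nat_lit 43992482246814) (nat_lit 0) (nat_lit 0) (nat_lit 0) (nat_lit 0) (nat_lit 0) (nat_lit 0) (nat_lit 1) (nat_lit 0) (nat_lit 1) (nat_lit 0) (nat_lit 498) (nat_lit 315) (nat_lit 267))))) (XT.nd (nat_lit 376) (nat_lit 0) (nat_lit 0) (XT.nd (nat_lit 188) (nat_lit 0) (nat_lit 0) (XT.nd (nat_lit 94) (nat_lit 0) (nat_lit 0) (XT.lf (nat_lit 0) (nat_lit 47511878006624) (nat_lit 0) (nat_lit 0) (nat_lit 0) (nat_lit 0) (nat_lit 0) (nat_lit 0) (nat_lit 1) (nat_lit 0) (nat_lit 1) (nat_lit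 0) (nat_lit 499) (nat_lit 315) (nat_lit 266)) (XT.lf (nat_lit 0) (nat_lit 51312825436767) (nat_lit 0) (nat_lit 0) (nat_lit 0) (nat_lit 0) (nat_lit 0) (nat_lit 0) (nat_lit 1) (nat_lit 0) (nat_lit 1) (nat_lit 0) (nat_lit 500) (nat_lit 315) (nat_lit 265))) (XT.nd (nat_lit 94) (nat_lit 0) (nat_lit 0) (XT.lf (nat_lit 0) (nat_lit 55417848670161) (nat_lit 0) (nat_lit 0) (nat_lit 0) (nat_lit 0) (nat_lit 0) (nat_lit 0) (nat_lit 1) (nat_lit 0) (nat_lit 1) (nat_lit 0) (nat_lit 501) (nat_lit 315) (nat_lit 264)) (XT.lf (nat_lit 0) (nat_lit 59851273770413) (nat_lit 0) (nat_lit 0) (nat_lit 0) (nat_lit 0) (nat_lit 0) (nat_lit 0) (nat_lit 1) (nat_lit 0) (nat_lit 1) (nat_lit 0) (nat_lit 502) (nat_lit 315) (nat_lit 263)))) (XT.nd (nat_lit 62698) (nat_lit 0) (nat_lit 0) (XT.nd (nat_lit 62604) (nat_lit 0) (nat_lit 0) (XT.lf (nat_lit 0) (nat_lit 64639372886263) (nat_lit 0) (nat_lit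 0) (nat_lit 0) (nat_lit 0) (nat_lit 0) (nat_lit 0) (nat_lit 1) (nat_lit 0) (nat_lit 1) (nat_lit 0) (nat_lit 503) (nat_lit 315) (nat_lit 262)) (XT.lf (nat_lit 0) (nat_lit 469022845925) (nat_lit 0) (nat_lit 0) (nat_lit 0) (nat_lit 0) (nat_lit 0) (nat_lit 0) (nat_lit 1) (nat_lit 0) (nat_lit 1) (nat_lit 0) (nat_lit 448) (nat_lit 316) (nat_lit 316))) (XT.nd (nat_lit 94) (nat_lit 0) (nat_lit 0) (XT.lf (nat_lit 0) (nat_lit 1013080843498) (nat_lit 0) (nat_lit 0) (nat_lit 0) (nat_lit 0) (nat_lit 0) (nat_lit 0) (nat_lit 1) (nat_lit 0) (nat_lit 1) (nat_lit 0) (nat_lit 449) (nat_lit 316) (nat_lit 315)) (XT.lf (nat_lit 0) (nat_lit 1094119221897) (nat_lit 0) (nat_lit 0) (nat_lit 0) (nat_lit 0) (nat_lit 0) (nat_lit 0) (nat_lit 1) (nat_lit 0) (nat_lit 1) (nat_lit 0) (nat_lit 450) (nat_lit 316) (nat_lit 314))))))))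
noncomputable def xc14 : XT := (XT.nd (nat_lit 2632) (nat_lit 0) (nat_lit 0) (XT.nd (nat_lit 1316) (nat_lit 0) (nat_lit 0) (XT.nd (nat_lit 658) (nat_lit 0) (nat_lit 0) (XT.nd (nat_lit 282) (nat_lit 0) (nat_lit 0) (XT.nd (nat_lit 94) (nat_lit 0) (nat_lit 0) (XT.lf (nat_lit 0) (nat_lit 1181641054477) (nat_lit 0) (nat_lit 0) (nat_lit 0) (nat_lit 0) (nat_lit 0) (nat_lit 0) (nat_lit 1) (nat_lit 0) (nat_lit 1) (nat_lit 0) (nat_lit 451) (nat_lit 316) (nat_lit 313)) (XT.nd (nat_lit 94) (nat_lit 0) (nat_lit 0) (XT.lf (nat_lit 0) (nat_lit 1276164989132) (nat_lit 0) (nat_lit 0) (nat_lit 0) (nat_lit 0) (nat_lit 0) (nat_lit 0) (nat_lit 1) (nat_lit 0) (nat_lit 1) (nat_lit 0) (nat_lit 452) (nat_lit 316) (nat_lit 312)) (XT.lf (nat_lit 0) (nat_lit 1378251167699) (nat_lit 0) (nat_lit 0) (nat_lit 0) (nat_lit 0) (nat_lit 0) (nat_lit 0) (nat_lit 1) (nat_lit 0) (nat_lit 1) (nat_lit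 0) (nat_lit 453) (nat_lit 316) (nat_lit 311)))) (XT.nd (nat_lit 188) (nat_lit 0) (nat_lit 0) (XT.nd (nat_lit 94) (nat_lit 0) (nat_lit 0) (XT.lf (nat_lit 0) (nat_lit 1488504545310) (nat_lit 0) (nat_lit 0) (nat_lit 0) (nat_lit 0) (nat_lit 0) (nat_lit 0) (nat_lit 1) (nat_lit 0) (nat_lit 1) (nat_lit 0) (nat_lit 454) (nat_lit 316) (nat_lit 310)) (XT.lf (nat_lit 0) (nat_lit 1607578475313) (nat_lit 0) (nat_lit 0) (nat_lit 0) (nat_lit 0) (nat_lit 0) (nat_lit 0) (nat_lit 1) (nat_lit 0) (nat_lit 1) (nat_lit 0) (nat_lit 455) (nat_lit 316) (nat_lit 309))) (XT.nd (nat_lit 94) (nat_lit 0) (nat_lit 0) (XT.lf (nat_lit 0) (nat_lit 1736178580997) (nat_lit 0) (nat_lit 0) (nat_lit 0) (nat_lit 0) (nat_lit 0) (nat_lit 0) (nat_lit 1) (nat_lit 0) (nat_lit 1) (nat_lit 0) (nat_lit 456) (nat_lit 316) (nat_lit 308)) (XT.lf (nat_lit 0) (nat_lit 1875066937063) (nat_lit 0) (nat_lit 0) (nat_lit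 0) (nat_lit 0) (nat_lit 0) (nat_lit 0) (nat_lit 1) (nat_lit 0) (nat_lit 1) (nat_lit 0) (nat_lit 457) (nat_lit 316) (nat_lit 307))))) (XT.nd (nat_lit 282) (nat_lit 0) (nat_lit 0) (XT.nd (nat_lit 94) (nat_lit 0) (nat_lit 0) (XT.lf (nat_lit 0) (nat_lit 2025066585620) (nat_lit 0) (nat_lit 0) (nat_lit 0) (nat_lit 0) (nat_lit 0) (nat_lit 0) (nat_lit 1) (nat_lit 0) (nat_lit 1) (nat_lit 0) (nat_lit 458) (nat_lit 316) (nat_lit 306)) (XT.nd (nat_lit 94) (nat_lit 0) (nat_lit 0) (XT.lf (nat_lit 0) (nat_lit 2187066413475) (nat_lit 0) (nat_lit 0) (nat_lit 0) (nat_lit 0) (nat_lit 0) (nat_lit 0) (nat_lit 1) (nat_lit 0) (nat_lit 1) (nat_lit 0) (nat_lit 459) (nat_lit 316) (nat_lit 305)) (XT.lf (nat_lit 0) (nat_lit 2362026419609) (nat_lit 0) (nat_lit 0) (nat_lit 0) (nat_lit 0) (nat_lit 0) (nat_lit 0) (nat_lit 1) (nat_lit 0) (nat_lit 1) (nat_lit 0) (nat_lit 460) (nat_lit 316)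 (nat_lit 304)))) (XT.nd (nat_lit 188) (nat_lit 0) (nat_lit 0) (XT.nd (nat_lit 94) (nat_lit 0) (nat_lit 0) (XT.lf (nat_lit 0) (nat_lit 2550983404056) (nat_lit 0) (nat_lit 0) (nat_lit 0) (nat_lit 0) (nat_lit 0) (nat_lit 0) (nat_lit 1) (nat_lit 0) (nat_lit 1) (nat_lit 0) (nat_lit 461) (nat_lit 316) (nat_lit 303)) (XT.lf (nat_lit 0) (nat_lit 2755057111910) (nat_lit 0) (nat_lit 0) (nat_lit 0) (nat_lit 0) (nat_lit 0) (nat_lit 0) (nat_lit 1) (nat_lit 0) (nat_lit 1) (nat_lit 0) (nat_lit 462) (nat_lit 316) (nat_lit 302))) (XT.nd (nat_lit 94) (nat_lit 0) (nat_lit 0) (XT.lf (nat_lit 0) (nat_lit 2975456868848) (nat_lit 0) (nat_lit 0) (nat_lit 0) (nat_lit 0) (nat_lit 0) (nat_lit 0) (nat_lit 1) (nat_lit 0) (nat_lit 1) (nat_lit 0) (nat_lit 463) (nat_lit 316) (nat_lit 301)) (XT.lf (nat_lit 0) (nat_lit 3213488747503) (nat_lit 0) (nat_lit 0) (nat_lit 0) (nat_lit 0) (nat_lit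 0) (nat_lit 0) (nat_lit 1) (nat_lit 0) (nat_lit 1) (nat_lit 0) (nat_lit 464) (nat_lit 316) (nat_lit 300)))))) (XT.nd (nat_lit 658) (nat_lit 0) (nat_lit 0) (XT.nd (nat_lit 282) (nat_lit 0) (nat_lit 0) (XT.nd (nat_lit 94) (nat_lit 0) (nat_lit 0) (XT.lf (nat_lit 0) (nat_lit 3470563307155) (nat_lit 0) (nat_lit 0) (nat_lit 0) (nat_lit 0) (nat_lit 0) (nat_lit 0) (nat_lit 1) (nat_lit 0) (nat_lit 1) (nat_lit 0) (nat_lit 465) (nat_lit 316) (nat_lit 299)) (XT.nd (nat_lit 94) (nat_lit 0) (nat_lit 0) (XT.lf (nat_lit 0) (nat_lit 3748203952604) (nat_lit 0) (nat_lit 0) (nat_lit 0) (nat_lit 0) (nat_lit 0) (nat_lit 0) (nat_lit 1) (nat_lit 0) (nat_lit 1) (nat_lit 0) (nat_lit 466) (nat_lit 316) (nat_lit 298)) (XT.lf (nat_lit 0) (nat_lit 4048055961747) (nat_lit 0) (nat_lit 0) (nat_lit 0) (nat_lit 0) (nat_lit 0) (nat_lit 0) (nat_lit 1) (nat_lit 0) (nat_lit 1) (nat_lit 0) (nat_lit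 467) (nat_lit 316) (nat_lit 297)))) (XT.nd (nat_lit 188) (nat_lit 0) (nat_lit 0) (XT.nd (nat_lit 94) (nat_lit 0) (nat_lit 0) (XT.lf (nat_lit 0) (nat_lit 4371896235381) (nat_lit 0) (nat_lit 0) (nat_lit 0) (nat_lit 0) (nat_lit 0) (nat_lit 0) (nat_lit 1) (nat_lit 0) (nat_lit 1) (nat_lit 0) (nat_lit 468) (nat_lit 316) (nat_lit 296)) (XT.lf (nat_lit 0) (nat_lit 4721643826977) (nat_lit 0) (nat_lit 0) (nat_lit 0) (nat_lit 0) (nat_lit 0) (nat_lit 0) (nat_lit 1) (nat_lit 0) (nat_lit 1) (nat_lit 0) (nat_lit 469) (nat_lit 316) (nat_lit 295))) (XT.nd (nat_lit 94) (nat_lit 0) (nat_lit 0) (XT.lf (nat_lit 0) (nat_lit 5099371314857) (nat_lit 0) (nat_lit 0) (nat_lit 0) (nat_lit 0) (nat_lit 0) (nat_lit 0) (nat_lit 1) (nat_lit 0) (nat_lit 1) (nat_lit 0) (nat_lit 470) (nat_lit 316) (nat_lit 294)) (XT.lf (nat_lit 0) (nat_lit 5507317084134) (nat_lit 0) (nat_lit 0) (nat_lit 0) (nat_lit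 0) (nat_lit 0) (nat_lit 0) (nat_lit 1) (nat_lit 0) (nat_lit 1) (nat_lit 0) (nat_lit 471) (nat_lit 316) (nat_lit 293))))) (XT.nd (nat_lit 282) (nat_lit 0) (nat_lit 0) (XT.nd (nat_lit 94) (nat_lit 0) (nat_lit 0) (XT.lf (nat_lit 0) (nat_lit 5947898591219) (nat_lit 0) (nat_lit 0) (nat_lit 0) (nat_lit 0) (nat_lit 0) (nat_lit 0) (nat_lit 1) (nat_lit 0) (nat_lit 1) (nat_lit 0) (nat_lit 472) (nat_lit 316) (nat_lit 292)) (XT.nd (nat_lit 94) (nat_lit 0) (nat_lit 0) (XT.lf (nat_lit 0) (nat_lit 6423726689487) (nat_lit 0) (nat_lit 0) (nat_lit 0) (nat_lit 0) (nat_lit 0) (nat_lit 0) (nat_lit 1) (nat_lit 0) (nat_lit 1) (nat_lit 0) (nat_lit 473) (nat_lit 316) (nat_lit 291)) (XT.lf (nat_lit 0) (nat_lit 6937621101001) (nat_lit 0) (nat_lit 0) (nat_lit 0) (nat_lit 0) (nat_lit 0) (nat_lit 0) (nat_lit 1) (nat_lit 0) (nat_lit 1) (nat_lit 0) (nat_lit 474) (nat_lit 316) (nat_lit 290))))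 (XT.nd (nat_lit 188) (nat_lit 0) (nat_lit 0) (XT.nd (nat_lit 94) (nat_lit 0) (nat_lit 0) (XT.lf (nat_lit 0) (nat_lit 7492627125979) (nat_lit 0) (nat_lit 0) (nat_lit 0) (nat_lit 0) (nat_lit 0) (nat_lit 0) (nat_lit 1) (nat_lit 0) (nat_lit 1) (nat_lit 0) (nat_lit 475) (nat_lit 316) (nat_lit 289)) (XT.lf (nat_lit 0) (nat_lit 8092033689012) (nat_lit 0) (nat_lit 0) (nat_lit 0) (nat_lit 0) (nat_lit 0) (nat_lit 0) (nat_lit 1) (nat_lit 0) (nat_lit 1) (nat_lit 0) (nat_lit 476) (nat_lit 316) (nat_lit 288))) (XT.nd (nat_lit 94) (nat_lit 0) (nat_lit 0) (XT.lf (nat_lit 0) (nat_lit 8739392828993) (nat_lit 0) (nat_lit 0) (nat_lit 0) (nat_lit 0) (nat_lit 0) (nat_lit 0) (nat_lit 1) (nat_lit 0) (nat_lit 1) (nat_lit 0) (nat_lit 477) (nat_lit 316) (nat_lit 287)) (XT.lf (nat_lit 0) (nat_lit 9438540748232) (nat_lit 0) (nat_lit 0) (nat_lit 0) (nat_lit 0) (nat_lit 0) (nat_lit 0) (nat_lit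 1) (nat_lit 0) (nat_lit 1) (nat_lit 0) (nat_lit 478) (nat_lit 316) (nat_lit 286))))))) (XT.nd (nat_lit 1316) (nat_lit 0) (nat_lit 0) (XT.nd (nat_lit 658) (nat_lit 0) (nat_lit 0) (XT.nd (nat_lit 282) (nat_lit 0) (nat_lit 0) (XT.nd (nat_lit 94) (nat_lit 0) (nat_lit 0) (XT.lf (nat_lit 0) (nat_lit 10193620545511) (nat_lit 0) (nat_lit 0) (nat_lit 0) (nat_lit 0) (nat_lit 0) (nat_lit 0) (nat_lit 1) (nat_lit 0) (nat_lit 1) (nat_lit 0) (nat_lit 479) (nat_lit 316) (nat_lit 285)) (XT.nd (nat_lit 94) (nat_lit 0) (nat_lit 0) (XT.lf (nat_lit 0) (nat_lit 11009106767776) (nat_lit 0) (nat_lit 0) (nat_lit 0) (nat_lit 0) (nat_lit 0) (nat_lit 0) (nat_lit 1) (nat_lit 0) (nat_lit 1) (nat_lit 0) (nat_lit 480) (nat_lit 316) (nat_lit 284)) (XT.lf (nat_lit 0) (nat_lit 11889831925974) (nat_lit 0) (nat_lit 0) (nat_lit 0) (nat_lit 0) (nat_lit 0) (nat_lit 0) (nat_lit 1) (nat_lit 0) (nat_lit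 1) (nat_lit 0) (nat_lit 481) (nat_lit 316) (nat_lit 283)))) (XT.nd (nat_lit 188) (nat_lit 0) (nat_lit 0) (XT.nd (nat_lit 94) (nat_lit 0) (nat_lit 0) (XT.lf (nat_lit 0) (nat_lit 12841015132153) (nat_lit 0) (nat_lit 0) (nat_lit 0) (nat_lit 0) (nat_lit 0) (nat_lit 0) (nat_lit 1) (nat_lit 0) (nat_lit 1) (nat_lit 0) (nat_lit 482) (nat_lit 316) (nat_lit 282)) (XT.lf (nat_lit 0) (nat_lit 13868293027536) (nat_lit 0) (nat_lit 0) (nat_lit 0) (nat_lit 0) (nat_lit 0) (nat_lit 0) (nat_lit 1) (nat_lit 0) (nat_lit 1) (nat_lit 0) (nat_lit 483) (nat_lit 316) (nat_lit 281))) (XT.nd (nat_lit 94) (nat_lit 0) (nat_lit 0) (XT.lf (nat_lit 0) (nat_lit 14977753184835) (nat_lit 0) (nat_lit 0) (nat_lit 0) (nat_lit 0) (nat_lit 0) (nat_lit 0) (nat_lit 1) (nat_lit 0) (nat_lit 1) (nat_lit 0) (nat_lit 484) (nat_lit 316) (nat_lit 280)) (XT.lf (nat_lit 0) (nat_lit 16175970182761) (nat_lit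 0) (nat_lit 0) (nat_lit 0) (nat_lit 0) (nat_lit 0) (nat_lit 0) (nat_lit 1) (nat_lit 0) (nat_lit 1) (nat_lit 0) (nat_lit 485) (nat_lit 316) (nat_lit 279))))) (XT.nd (nat_lit 282) (nat_lit 0) (nat_lit 0) (XT.nd (nat_lit 94) (nat_lit 0) (nat_lit 0) (XT.lf (nat_lit 0) (nat_lit 17470044566486) (nat_lit 0) (nat_lit 0) (nat_lit 0) (nat_lit 0) (nat_lit 0) (nat_lit 0) (nat_lit 1) (nat_lit 0) (nat_lit 1) (nat_lit 0) (nat_lit 486) (nat_lit 316) (nat_lit 278)) (XT.nd (nat_lit 94) (nat_lit 0) (nat_lit 0) (XT.lf (nat_lit 0) (nat_lit 18867644924951) (nat_lit 0) (nat_lit 0) (nat_lit 0) (nat_lit 0) (nat_lit 0) (nat_lit 0) (nat_lit 1) (nat_lit 0) (nat_lit 1) (nat_lit 0) (nat_lit 487) (nat_lit 316) (nat_lit 277)) (XT.lf (nat_lit 0) (nat_lit 20377053334355) (nat_lit 0) (nat_lit 0) (nat_lit 0) (nat_lit 0) (nat_lit 0) (nat_lit 0) (nat_lit 1) (nat_lit 0) (nat_lit 1) (nat_lit 0)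 (nat_lit 488) (nat_lit 316) (nat_lit 276)))) (XT.nd (nat_lit 188) (nat_lit 0) (nat_lit 0) (XT.nd (nat_lit 94) (nat_lit 0) (nat_lit 0) (XT.lf (nat_lit 0) (nat_lit 22007214437123) (nat_lit 0) (nat_lit 0) (nat_lit 0) (nat_lit 0) (nat_lit 0) (nat_lit 0) (nat_lit 1) (nat_lit 0) (nat_lit 1) (nat_lit 0) (nat_lit 489) (nat_lit 316) (nat_lit 275)) (XT.lf (nat_lit 0) (nat_lit 23767788447198) (nat_lit 0) (nat_lit 0) (nat_lit 0) (nat_lit 0) (nat_lit 0) (nat_lit 0) (nat_lit 1) (nat_lit 0) (nat_lit 1) (nat_lit 0) (nat_lit 490) (nat_lit 316) (nat_lit 274))) (XT.nd (nat_lit 94) (nat_lit 0) (nat_lit 0) (XT.lf (nat_lit 0) (nat_lit 25669208395751) (nat_lit 0) (nat_lit 0) (nat_lit 0) (nat_lit 0) (nat_lit 0) (nat_lit 0) (nat_lit 1) (nat_lit 0) (nat_lit 1) (nat_lit 0) (nat_lit 491) (nat_lit 316) (nat_lit 273)) (XT.lf (nat_lit 0) (nat_lit 27722741956551) (nat_lit 0) (nat_lit 0)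 (nat_lit 0) (nat_lit 0) (nat_lit 0) (nat_lit 0) (nat_lit 1) (nat_lit 0) (nat_lit 1) (nat_lit 0) (nat_lit 492) (nat_lit 316) (nat_lit 272)))))) (XT.nd (nat_lit 658) (nat_lit 0) (nat_lit 0) (XT.nd (nat_lit 282) (nat_lit 0) (nat_lit 0) (XT.nd (nat_lit 94) (nat_lit 0) (nat_lit 0) (XT.lf (nat_lit 0) (nat_lit 29940558217365) (nat_lit 0) (nat_lit 0) (nat_lit 0) (nat_lit 0) (nat_lit 0) (nat_lit 0) (nat_lit 1) (nat_lit 0) (nat_lit 1) (nat_lit 0) (nat_lit 493) (nat_lit 316) (nat_lit 271)) (XT.nd (nat_lit 94) (nat_lit 0) (nat_lit 0) (XT.lf (nat_lit 0) (nat_lit 32335799793072) (nat_lit 0) (nat_lit 0) (nat_lit 0) (nat_lit 0) (nat_lit 0) (nat_lit 0) (nat_lit 1) (nat_lit 0) (nat_lit 1) (nat_lit 0) (nat_lit 494) (nat_lit 316) (nat_lit 270)) (XT.lf (nat_lit 0) (nat_lit 34922660707825) (nat_lit 0) (nat_lit 0) (nat_lit 0) (nat_lit 0) (nat_lit 0) (nat_lit 0) (nat_lit 1) (nat_lit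 0) (nat_lit 1) (nat_lit 0) (nat_lit 495) (nat_lit 316) (nat_lit 269)))) (XT.nd (nat_lit 188) (nat_lit 0) (nat_lit 0) (XT.nd (nat_lit 94) (nat_lit 0) (nat_lit 0) (XT.lf (nat_lit 0) (nat_lit 37716470507786) (nat_lit 0) (nat_lit 0) (nat_lit 0) (nat_lit 0) (nat_lit 0) (nat_lit 0) (nat_lit 1) (nat_lit 0) (nat_lit 1) (nat_lit 0) (nat_lit 496) (nat_lit 316) (nat_lit 268)) (XT.lf (nat_lit 0) (nat_lit 40733785102879) (nat_lit 0) (nat_lit 0) (nat_lit 0) (nat_lit 0) (nat_lit 0) (nat_lit 0) (nat_lit 1) (nat_lit 0) (nat_lit 1) (nat_lit 0) (nat_lit 497) (nat_lit 316) (nat_lit 267))) (XT.nd (nat_lit 94) (nat_lit 0) (nat_lit 0) (XT.lf (nat_lit 0) (nat_lit 43992484875892) (nat_lit 0) (nat_lit 0) (nat_lit 0) (nat_lit 0) (nat_lit 0) (nat_lit 0) (nat_lit 1) (nat_lit 0) (nat_lit 1) (nat_lit 0) (nat_lit 498) (nat_lit 316) (nat_lit 266)) (XT.lf (nat_lit 0) (nat_lit 47511880640292)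 (nat_lit 0) (nat_lit 0) (nat_lit 0) (nat_lit 0) (nat_lit 0) (nat_lit 0) (nat_lit 1) (nat_lit 0) (nat_lit 1) (nat_lit 0) (nat_lit 499) (nat_lit 316) (nat_lit 265))))) (XT.nd (nat_lit 62698) (nat_lit 0) (nat_lit 0) (XT.nd (nat_lit 188) (nat_lit 0) (nat_lit 0) (XT.nd (nat_lit 94) (nat_lit 0) (nat_lit 0) (XT.lf (nat_lit 0) (nat_lit 51312828074685) (nat_lit 0) (nat_lit 0) (nat_lit 0) (nat_lit 0) (nat_lit 0) (nat_lit 0) (nat_lit 1) (nat_lit 0) (nat_lit 1) (nat_lit 0) (nat_lit 500) (nat_lit 316) (nat_lit 264)) (XT.lf (nat_lit 0) (nat_lit 55417851312015) (nat_lit 0) (nat_lit 0) (nat_lit 0) (nat_lit 0) (nat_lit 0) (nat_lit 0) (nat_lit 1) (nat_lit 0) (nat_lit 1) (nat_lit 0) (nat_lit 501) (nat_lit 316) (nat_lit 263))) (XT.nd (nat_lit 94) (nat_lit 0) (nat_lit 0) (XT.lf (nat_lit 0) (nat_lit 59851276415910) (nat_lit 0) (nat_lit 0) (nat_lit 0) (nat_lit 0) (nat_lit 0) (nat_lit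 0) (nat_lit 1) (nat_lit 0) (nat_lit 1) (nat_lit 0) (nat_lit 502) (nat_lit 316) (nat_lit 262)) (XT.lf (nat_lit 0) (nat_lit 64639375535134) (nat_lit 0) (nat_lit 0) (nat_lit 0) (nat_lit 0) (nat_lit 0) (nat_lit 0) (nat_lit 1) (nat_lit 0) (nat_lit 1) (nat_lit 0) (nat_lit 503) (nat_lit 316) (nat_lit 261)))) (XT.nd (nat_lit 188) (nat_lit 0) (nat_lit 0) (XT.nd (nat_lit 94) (nat_lit 0) (nat_lit 0) (XT.lf (nat_lit 0) (nat_lit 402119582500) (nat_lit 0) (nat_lit 0) (nat_lit 0) (nat_lit 0) (nat_lit 0) (nat_lit 0) (nat_lit 1) (nat_lit 0) (nat_lit 1) (nat_lit 0) (nat_lit 446) (nat_lit 317) (nat_lit 317)) (XT.lf (nat_lit 0) (nat_lit 868569114204) (nat_lit 0) (nat_lit 0) (nat_lit 0) (nat_lit 0) (nat_lit 0) (nat_lit 0) (nat_lit 1) (nat_lit 0) (nat_lit 1) (nat_lit 0) (nat_lit 447) (nat_lit 317) (nat_lit 316))) (XT.nd (nat_lit 94) (nat_lit 0) (nat_lit 0) (XT.lf (nat_lit 0) (nat_lit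 938045907133) (nat_lit 0) (nat_lit 0) (nat_lit 0) (nat_lit 0) (nat_lit 0) (nat_lit 0) (nat_lit 1) (nat_lit 0) (nat_lit 1) (nat_lit 0) (nat_lit 448) (nat_lit 317) (nat_lit 315)) (XT.lf (nat_lit 0) (nat_lit 1013081258118) (nat_lit 0) (nat_lit 0) (nat_lit 0) (nat_lit 0) (nat_lit 0) (nat_lit 0) (nat_lit 1) (nat_lit 0) (nat_lit 1) (nat_lit 0) (nat_lit 449) (nat_lit 317) (nat_lit 314))))))))
noncomputable def xc15 : XT := (XT.nd (nat_lit 2632) (nat_lit 0) (nat_lit 0) (XT.nd (nat_lit 1316) (nat_lit 0) (nat_lit 0) (XT.nd (nat_lit 658) (nat_lit 0) (nat_lit 0) (XT.nd (nat_lit 282) (nat_lit 0) (nat_lit 0) (XT.nd (nat_lit 94) (nat_lit 0) (nat_lit 0) (XT.lf (nat_lit 0) (nat_lit 1094119821089) (nat_lit 0) (nat_lit 0) (nat_lit 0) (nat_lit 0) (nat_lit 0) (nat_lit 0) (nat_lit 1) (nat_lit 0) (nat_lit 1) (nat_lit 0) (nat_lit 450) (nat_lit 317) (nat_lit 313)) (XT.nd (nat_lit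 94) (nat_lit 0) (nat_lit 0) (XT.lf (nat_lit 0) (nat_lit 1181641824567) (nat_lit 0) (nat_lit 0) (nat_lit 0) (nat_lit 0) (nat_lit 0) (nat_lit 0) (nat_lit 1) (nat_lit 0) (nat_lit 1) (nat_lit 0) (nat_lit 451) (nat_lit 317) (nat_lit 312)) (XT.lf (nat_lit 0) (nat_lit 1276165917462) (nat_lit 0) (nat_lit 0) (nat_lit 0) (nat_lit 0) (nat_lit 0) (nat_lit 0) (nat_lit 1) (nat_lit 0) (nat_lit 1) (nat_lit 0) (nat_lit 452) (nat_lit 317) (nat_lit 311)))) (XT.nd (nat_lit 188) (nat_lit 0) (nat_lit 0) (XT.nd (nat_lit 94) (nat_lit 0) (nat_lit 0) (XT.lf (nat_lit 0) (nat_lit 1378252242548) (nat_lit 0) (nat_lit 0) (nat_lit 0) (nat_lit 0) (nat_lit 0) (nat_lit 0) (nat_lit 1) (nat_lit 0) (nat_lit 1) (nat_lit 0) (nat_lit 453) (nat_lit 317) (nat_lit 310)) (XT.lf (nat_lit 0) (nat_lit 1488505755823) (nat_lit 0) (nat_lit 0) (nat_lit 0) (nat_lit 0) (nat_lit 0) (nat_lit 0) (nat_lit 1) (nat_lit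 0) (nat_lit 1) (nat_lit 0) (nat_lit 454) (nat_lit 317) (nat_lit 309))) (XT.nd (nat_lit 94) (nat_lit 0) (nat_lit 0) (XT.lf (nat_lit 0) (nat_lit 1607579811442) (nat_lit 0) (nat_lit 0) (nat_lit 0) (nat_lit 0) (nat_lit 0) (nat_lit 0) (nat_lit 1) (nat_lit 0) (nat_lit 1) (nat_lit 0) (nat_lit 455) (nat_lit 317) (nat_lit 308)) (XT.lf (nat_lit 0) (nat_lit 1736180033437) (nat_lit 0) (nat_lit 0) (nat_lit 0) (nat_lit 0) (nat_lit 0) (nat_lit 0) (nat_lit 1) (nat_lit 0) (nat_lit 1) (nat_lit 0) (nat_lit 456) (nat_lit 317) (nat_lit 307))))) (XT.nd (nat_lit 282) (nat_lit 0) (nat_lit 0) (XT.nd (nat_lit 94) (nat_lit 0) (nat_lit 0) (XT.lf (nat_lit 0) (nat_lit 1875068497198) (nat_lit 0) (nat_lit 0) (nat_lit 0) (nat_lit 0) (nat_lit 0) (nat_lit 0) (nat_lit 1) (nat_lit 0) (nat_lit 1) (nat_lit 0) (nat_lit 457) (nat_lit 317) (nat_lit 306)) (XT.nd (nat_lit 94) (nat_lit 0) (nat_lit 0)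 (XT.lf (nat_lit 0) (nat_lit 2025068245474) (nat_lit 0) (nat_lit 0) (nat_lit 0) (nat_lit 0) (nat_lit 0) (nat_lit 0) (nat_lit 1) (nat_lit 0) (nat_lit 1) (nat_lit 0) (nat_lit 458) (nat_lit 317) (nat_lit 305)) (XT.lf (nat_lit 0) (nat_lit 2187068165661) (nat_lit 0) (nat_lit 0) (nat_lit 0) (nat_lit 0) (nat_lit 0) (nat_lit 0) (nat_lit 1) (nat_lit 0) (nat_lit 1) (nat_lit 0) (nat_lit 459) (nat_lit 317) (nat_lit 304)))) (XT.nd (nat_lit 188) (nat_lit 0) (nat_lit 0) (XT.nd (nat_lit 94) (nat_lit 0) (nat_lit 0) (XT.lf (nat_lit 0) (nat_lit 2362028257286) (nat_lit 0) (nat_lit 0) (nat_lit 0) (nat_lit 0) (nat_lit 0) (nat_lit 0) (nat_lit 1) (nat_lit 0) (nat_lit 1) (nat_lit 0) (nat_lit 460) (nat_lit 317) (nat_lit 303)) (XT.lf (nat_lit 0) (nat_lit 2550985320892) (nat_lit 0) (nat_lit 0) (nat_lit 0) (nat_lit 0) (nat_lit 0) (nat_lit 0) (nat_lit 1) (nat_lit 0) (nat_lit 1) (nat_lit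 0) (nat_lit 461) (nat_lit 317) (nat_lit 302))) (XT.nd (nat_lit 94) (nat_lit 0) (nat_lit 0) (XT.lf (nat_lit 0) (nat_lit 2755059102042) (nat_lit 0) (nat_lit 0) (nat_lit 0) (nat_lit 0) (nat_lit 0) (nat_lit 0) (nat_lit 1) (nat_lit 0) (nat_lit 1) (nat_lit 0) (nat_lit 462) (nat_lit 317) (nat_lit 301)) (XT.lf (nat_lit 0) (nat_lit 2975458926846) (nat_lit 0) (nat_lit 0) (nat_lit 0) (nat_lit 0) (nat_lit 0) (nat_lit 0) (nat_lit 1) (nat_lit 0) (nat_lit 1) (nat_lit 0) (nat_lit 463) (nat_lit 317) (nat_lit 300)))))) (XT.nd (nat_lit 658) (nat_lit 0) (nat_lit 0) (XT.nd (nat_lit 282) (nat_lit 0) (nat_lit 0) (XT.nd (nat_lit 94) (nat_lit 0) (nat_lit 0) (XT.lf (nat_lit 0) (nat_lit 3213490868340) (nat_lit 0) (nat_lit 0) (nat_lit 0) (nat_lit 0) (nat_lit 0) (nat_lit 0) (nat_lit 1) (nat_lit 0) (nat_lit 1) (nat_lit 0) (nat_lit 464) (nat_lit 317) (nat_lit 299)) (XT.nd (nat_lit 94) (nat_lit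 0) (nat_lit 0) (XT.lf (nat_lit 0) (nat_lit 3470565486178) (nat_lit 0) (nat_lit 0) (nat_lit 0) (nat_lit 0) (nat_lit 0) (nat_lit 0) (nat_lit 1) (nat_lit 0) (nat_lit 1) (nat_lit 0) (nat_lit 465) (nat_lit 317) (nat_lit 298)) (XT.lf (nat_lit 0) (nat_lit 3748206185501) (nat_lit 0) (nat_lit 0) (nat_lit 0) (nat_lit 0) (nat_lit 0) (nat_lit 0) (nat_lit 1) (nat_lit 0) (nat_lit 1) (nat_lit 0) (nat_lit 466) (nat_lit 317) (nat_lit 297)))) (XT.nd (nat_lit 188) (nat_lit 0) (nat_lit 0) (XT.nd (nat_lit 94) (nat_lit 0) (nat_lit 0) (XT.lf (nat_lit 0) (nat_lit 4048058244528) (nat_lit 0) (nat_lit 0) (nat_lit 0) (nat_lit 0) (nat_lit 0) (nat_lit 0) (nat_lit 1) (nat_lit 0) (nat_lit 1) (nat_lit 0) (nat_lit 467) (nat_lit 317) (nat_lit 296)) (XT.lf (nat_lit 0) (nat_lit 4371898564350) (nat_lit 0) (nat_lit 0) (nat_lit 0) (nat_lit 0) (nat_lit 0) (nat_lit 0) (nat_lit 1) (nat_lit 0) (nat_lit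 1) (nat_lit 0) (nat_lit 468) (nat_lit 317) (nat_lit 295))) (XT.nd (nat_lit 94) (nat_lit 0) (nat_lit 0) (XT.lf (nat_lit 0) (nat_lit 4721646198713) (nat_lit 0) (nat_lit 0) (nat_lit 0) (nat_lit 0) (nat_lit 0) (nat_lit 0) (nat_lit 1) (nat_lit 0) (nat_lit 1) (nat_lit 0) (nat_lit 469) (nat_lit 317) (nat_lit 294)) (XT.lf (nat_lit 0) (nat_lit 5099373726193) (nat_lit 0) (nat_lit 0) (nat_lit 0) (nat_lit 0) (nat_lit 0) (nat_lit 0) (nat_lit 1) (nat_lit 0) (nat_lit 1) (nat_lit 0) (nat_lit 470) (nat_lit 317) (nat_lit 293))))) (XT.nd (nat_lit 282) (nat_lit 0) (nat_lit 0) (XT.nd (nat_lit 94) (nat_lit 0) (nat_lit 0) (XT.lf (nat_lit 0) (nat_lit 5507319532136) (nat_lit 0) (nat_lit 0) (nat_lit 0) (nat_lit 0) (nat_lit 0) (nat_lit 0) (nat_lit 1) (nat_lit 0) (nat_lit 1) (nat_lit 0) (nat_lit 471) (nat_lit 317) (nat_lit 292)) (XT.nd (nat_lit 94) (nat_lit 0) (nat_lit 0) (XT.lf (nat_lit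 0) (nat_lit 5947901073171) (nat_lit 0) (nat_lit 0) (nat_lit 0) (nat_lit 0) (nat_lit 0) (nat_lit 0) (nat_lit 1) (nat_lit 0) (nat_lit 1) (nat_lit 0) (nat_lit 472) (nat_lit 317) (nat_lit 291)) (XT.lf (nat_lit 0) (nat_lit 6423729202874) (nat_lit 0) (nat_lit 0) (nat_lit 0) (nat_lit 0) (nat_lit 0) (nat_lit 0) (nat_lit 1) (nat_lit 0) (nat_lit 1) (nat_lit 0) (nat_lit 473) (nat_lit 317) (nat_lit 290)))) (XT.nd (nat_lit 188) (nat_lit 0) (nat_lit 0) (XT.nd (nat_lit 94) (nat_lit 0) (nat_lit 0) (XT.lf (nat_lit 0) (nat_lit 6937623643495) (nat_lit 0) (nat_lit 0) (nat_lit 0) (nat_lit 0) (nat_lit 0) (nat_lit 0) (nat_lit 1) (nat_lit 0) (nat_lit 1) (nat_lit 0) (nat_lit 474) (nat_lit 317) (nat_lit 289)) (XT.lf (nat_lit 0) (nat_lit 7492629695423) (nat_lit 0) (nat_lit 0) (nat_lit 0) (nat_lit 0) (nat_lit 0) (nat_lit 0) (nat_lit 1) (nat_lit 0) (nat_lit 1) (nat_lit 0) (nat_lit 475)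 (nat_lit 317) (nat_lit 288))) (XT.nd (nat_lit 94) (nat_lit 0) (nat_lit 0) (XT.lf (nat_lit 0) (nat_lit 8092036283411) (nat_lit 0) (nat_lit 0) (nat_lit 0) (nat_lit 0) (nat_lit 0) (nat_lit 0) (nat_lit 1) (nat_lit 0) (nat_lit 1) (nat_lit 0) (nat_lit 476) (nat_lit 317) (nat_lit 287)) (XT.lf (nat_lit 0) (nat_lit 8739395446498) (nat_lit 0) (nat_lit 0) (nat_lit 0) (nat_lit 0) (nat_lit 0) (nat_lit 0) (nat_lit 1) (nat_lit 0) (nat_lit 1) (nat_lit 0) (nat_lit 477) (nat_lit 317) (nat_lit 286))))))) (XT.nd (nat_lit 1316) (nat_lit 0) (nat_lit 0) (XT.nd (nat_lit 658) (nat_lit 0) (nat_lit 0) (XT.nd (nat_lit 282) (nat_lit 0) (nat_lit 0) (XT.nd (nat_lit 94) (nat_lit 0) (nat_lit 0) (XT.lf (nat_lit 0) (nat_lit 9438543387131) (nat_lit 0) (nat_lit 0) (nat_lit 0) (nat_lit 0) (nat_lit 0) (nat_lit 0) (nat_lit 1) (nat_lit 0) (nat_lit 1) (nat_lit 0) (nat_lit 478) (nat_lit 317) (nat_lit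 285)) (XT.nd (nat_lit 94) (nat_lit 0) (nat_lit 0) (XT.lf (nat_lit 0) (nat_lit 10193623204220) (nat_lit 0) (nat_lit 0) (nat_lit 0) (nat_lit 0) (nat_lit 0) (nat_lit 0) (nat_lit 1) (nat_lit 0) (nat_lit 1) (nat_lit 0) (nat_lit 479) (nat_lit 317) (nat_lit 284)) (XT.lf (nat_lit 0) (nat_lit 11009109444827) (nat_lit 0) (nat_lit 0) (nat_lit 0) (nat_lit 0) (nat_lit 0) (nat_lit 0) (nat_lit 1) (nat_lit 0) (nat_lit 1) (nat_lit 0) (nat_lit 480) (nat_lit 317) (nat_lit 283)))) (XT.nd (nat_lit 188) (nat_lit 0) (nat_lit 0) (XT.nd (nat_lit 94) (nat_lit 0) (nat_lit 0) (XT.lf (nat_lit 0) (nat_lit 11889834620008) (nat_lit 0) (nat_lit 0) (nat_lit 0) (nat_lit 0) (nat_lit 0) (nat_lit 0) (nat_lit 1) (nat_lit 0) (nat_lit 1) (nat_lit 0) (nat_lit 481) (nat_lit 317) (nat_lit 282)) (XT.lf (nat_lit 0) (nat_lit 12841017841913) (nat_lit 0) (nat_lit 0) (nat_lit 0) (nat_lit 0) (nat_lit 0) (nat_lit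 0) (nat_lit 1) (nat_lit 0) (nat_lit 1) (nat_lit 0) (nat_lit 482) (nat_lit 317) (nat_lit 281))) (XT.nd (nat_lit 94) (nat_lit 0) (nat_lit 0) (XT.lf (nat_lit 0) (nat_lit 13868295751856) (nat_lit 0) (nat_lit 0) (nat_lit 0) (nat_lit 0) (nat_lit 0) (nat_lit 0) (nat_lit 1) (nat_lit 0) (nat_lit 1) (nat_lit 0) (nat_lit 483) (nat_lit 317) (nat_lit 280)) (XT.lf (nat_lit 0) (nat_lit 14977755922637) (nat_lit 0) (nat_lit 0) (nat_lit 0) (nat_lit 0) (nat_lit 0) (nat_lit 0) (nat_lit 1) (nat_lit 0) (nat_lit 1) (nat_lit 0) (nat_lit 484) (nat_lit 317) (nat_lit 279))))) (XT.nd (nat_lit 282) (nat_lit 0) (nat_lit 0) (XT.nd (nat_lit 94) (nat_lit 0) (nat_lit 0) (XT.lf (nat_lit 0) (nat_lit 16175972933046) (nat_lit 0) (nat_lit 0) (nat_lit 0) (nat_lit 0) (nat_lit 0) (nat_lit 0) (nat_lit 1) (nat_lit 0) (nat_lit 1) (nat_lit 0) (nat_lit 485) (nat_lit 317) (nat_lit 278)) (XT.nd (nat_lit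 94) (nat_lit 0) (nat_lit 0) (XT.lf (nat_lit 0) (nat_lit 17470047328330) (nat_lit 0) (nat_lit 0) (nat_lit 0) (nat_lit 0) (nat_lit 0) (nat_lit 0) (nat_lit 1) (nat_lit 0) (nat_lit 1) (nat_lit 0) (nat_lit 486) (nat_lit 317) (nat_lit 277)) (XT.lf (nat_lit 0) (nat_lit 18867647697498) (nat_lit 0) (nat_lit 0) (nat_lit 0) (nat_lit 0) (nat_lit 0) (nat_lit 0) (nat_lit 1) (nat_lit 0) (nat_lit 1) (nat_lit 0) (nat_lit 487) (nat_lit 317) (nat_lit 276)))) (XT.nd (nat_lit 188) (nat_lit 0) (nat_lit 0) (XT.nd (nat_lit 94) (nat_lit 0) (nat_lit 0) (XT.lf (nat_lit 0) (nat_lit 20377056116812) (nat_lit 0) (nat_lit 0) (nat_lit 0) (nat_lit 0) (nat_lit 0) (nat_lit 0) (nat_lit 1) (nat_lit 0) (nat_lit 1) (nat_lit 0) (nat_lit 488) (nat_lit 317) (nat_lit 275)) (XT.lf (nat_lit 0) (nat_lit 22007217228756) (nat_lit 0) (nat_lit 0) (nat_lit 0) (nat_lit 0) (nat_lit 0) (nat_lit 0) (nat_lit 1)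 (nat_lit 0) (nat_lit 1) (nat_lit 0) (nat_lit 489) (nat_lit 317) (nat_lit 274))) (XT.nd (nat_lit 94) (nat_lit 0) (nat_lit 0) (XT.lf (nat_lit 0) (nat_lit 23767791247327) (nat_lit 0) (nat_lit 0) (nat_lit 0) (nat_lit 0) (nat_lit 0) (nat_lit 0) (nat_lit 1) (nat_lit 0) (nat_lit 1) (nat_lit 0) (nat_lit 490) (nat_lit 317) (nat_lit 273)) (XT.lf (nat_lit 0) (nat_lit 25669211203746) (nat_lit 0) (nat_lit 0) (nat_lit 0) (nat_lit 0) (nat_lit 0) (nat_lit 0) (nat_lit 1) (nat_lit 0) (nat_lit 1) (nat_lit 0) (nat_lit 491) (nat_lit 317) (nat_lit 272)))))) (XT.nd (nat_lit 658) (nat_lit 0) (nat_lit 0) (XT.nd (nat_lit 282) (nat_lit 0) (nat_lit 0) (XT.nd (nat_lit 94) (nat_lit 0) (nat_lit 0) (XT.lf (nat_lit 0) (nat_lit 27722744771830) (nat_lit 0) (nat_lit 0) (nat_lit 0) (nat_lit 0) (nat_lit 0) (nat_lit 0) (nat_lit 1) (nat_lit 0) (nat_lit 1) (nat_lit 0) (nat_lit 492) (nat_lit 317)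 (nat_lit 271)) (XT.nd (nat_lit 94) (nat_lit 0) (nat_lit 0) (XT.lf (nat_lit 0) (nat_lit 29940561039388) (nat_lit 0) (nat_lit 0) (nat_lit 0) (nat_lit 0) (nat_lit 0) (nat_lit 0) (nat_lit 1) (nat_lit 0) (nat_lit 1) (nat_lit 0) (nat_lit 493) (nat_lit 317) (nat_lit 270)) (XT.lf (nat_lit 0) (nat_lit 32335802621340) (nat_lit 0) (nat_lit 0) (nat_lit 0) (nat_lit 0) (nat_lit 0) (nat_lit 0) (nat_lit 1) (nat_lit 0) (nat_lit 1) (nat_lit 0) (nat_lit 494) (nat_lit 317) (nat_lit 269)))) (XT.nd (nat_lit 188) (nat_lit 0) (nat_lit 0) (XT.nd (nat_lit 94) (nat_lit 0) (nat_lit 0) (XT.lf (nat_lit 0) (nat_lit 34922663541876) (nat_lit 0) (nat_lit 0) (nat_lit 0) (nat_lit 0) (nat_lit 0) (nat_lit 0) (nat_lit 1) (nat_lit 0) (nat_lit 1) (nat_lit 0) (nat_lit 495) (nat_lit 317) (nat_lit 268)) (XT.lf (nat_lit 0) (nat_lit 37716473347190) (nat_lit 0) (nat_lit 0) (nat_lit 0) (nat_lit 0) (nat_lit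 0) (nat_lit 0) (nat_lit 1) (nat_lit 0) (nat_lit 1) (nat_lit 0) (nat_lit 496) (nat_lit 317) (nat_lit 267))) (XT.nd (nat_lit 94) (nat_lit 0) (nat_lit 0) (XT.lf (nat_lit 0) (nat_lit 40733787947241) (nat_lit 0) (nat_lit 0) (nat_lit 0) (nat_lit 0) (nat_lit 0) (nat_lit 0) (nat_lit 1) (nat_lit 0) (nat_lit 1) (nat_lit 0) (nat_lit 497) (nat_lit 317) (nat_lit 266)) (XT.lf (nat_lit 0) (nat_lit 43992487724843) (nat_lit 0) (nat_lit 0) (nat_lit 0) (nat_lit 0) (nat_lit 0) (nat_lit 0) (nat_lit 1) (nat_lit 0) (nat_lit 1) (nat_lit 0) (nat_lit 498) (nat_lit 317) (nat_lit 265))))) (XT.nd (nat_lit 376) (nat_lit 0) (nat_lit 0) (XT.nd (nat_lit 188) (nat_lit 0) (nat_lit 0) (XT.nd (nat_lit 94) (nat_lit 0) (nat_lit 0) (XT.lf (nat_lit 0) (nat_lit 47511883493494) (nat_lit 0) (nat_lit 0) (nat_lit 0) (nat_lit 0) (nat_lit 0) (nat_lit 0) (nat_lit 1) (nat_lit 0) (nat_lit 1) (nat_lit 0) (nat_lit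 499) (nat_lit 317) (nat_lit 264)) (XT.lf (nat_lit 0) (nat_lit 51312830931822) (nat_lit 0) (nat_lit 0) (nat_lit 0) (nat_lit 0) (nat_lit 0) (nat_lit 0) (nat_lit 1) (nat_lit 0) (nat_lit 1) (nat_lit 0) (nat_lit 500) (nat_lit 317) (nat_lit 263))) (XT.nd (nat_lit 94) (nat_lit 0) (nat_lit 0) (XT.lf (nat_lit 0) (nat_lit 55417854172795) (nat_lit 0) (nat_lit 0) (nat_lit 0) (nat_lit 0) (nat_lit 0) (nat_lit 0) (nat_lit 1) (nat_lit 0) (nat_lit 1) (nat_lit 0) (nat_lit 501) (nat_lit 317) (nat_lit 262)) (XT.lf (nat_lit 0) (nat_lit 59851279280064) (nat_lit 0) (nat_lit 0) (nat_lit 0) (nat_lit 0) (nat_lit 0) (nat_lit 0) (nat_lit 1) (nat_lit 0) (nat_lit 1) (nat_lit 0) (nat_lit 502) (nat_lit 317) (nat_lit 261)))) (XT.nd (nat_lit 62322) (nat_lit 0) (nat_lit 0) (XT.nd (nat_lit 62228) (nat_lit 0) (nat_lit 0) (XT.lf (nat_lit 0) (nat_lit 64639378402413) (nat_lit 0) (nat_lit 0) (nat_lit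 0) (nat_lit 0) (nat_lit 0) (nat_lit 0) (nat_lit 1) (nat_lit 0) (nat_lit 1) (nat_lit 0) (nat_lit 503) (nat_lit 317) (nat_lit 260)) (XT.lf (nat_lit 0) (nat_lit 344761464687) (nat_lit 0) (nat_lit 0) (nat_lit 0) (nat_lit 0) (nat_lit 0) (nat_lit 0) (nat_lit 1) (nat_lit 0) (nat_lit 1) (nat_lit 0) (nat_lit 444) (nat_lit 318) (nat_lit 318))) (XT.nd (nat_lit 94) (nat_lit 0) (nat_lit 0) (XT.lf (nat_lit 0) (nat_lit 744674845008) (nat_lit 0) (nat_lit 0) (nat_lit 0) (nat_lit 0) (nat_lit 0) (nat_lit 0) (nat_lit 1) (nat_lit 0) (nat_lit 1) (nat_lit 0) (nat_lit 445) (nat_lit 318) (nat_lit 317)) (XT.lf (nat_lit 0) (nat_lit 804239397506) (nat_lit 0) (nat_lit 0) (nat_lit 0) (nat_lit 0) (nat_lit 0) (nat_lit 0) (nat_lit 1) (nat_lit 0) (nat_lit 1) (nat_lit 0) (nat_lit 446) (nat_lit 318) (nat_lit 316))))))))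
noncomputable def xc16 : XT := (XT.nd (nat_lit 2632) (nat_lit 0) (nat_lit 0) (XT.nd (nat_lit 1316) (nat_lit 0) (nat_lit 0) (XT.nd (nat_lit 658) (nat_lit 0) (nat_lit 0) (XT.nd (nat_lit 282) (nat_lit 0) (nat_lit 0) (XT.nd (nat_lit 94) (nat_lit 0) (nat_lit 0) (XT.lf (nat_lit 0) (nat_lit 868569561993) (nat_lit 0) (nat_lit 0) (nat_lit 0) (nat_lit 0) (nat_lit 0) (nat_lit 0) (nat_lit 1) (nat_lit 0) (nat_lit 1) (nat_lit 0) (nat_lit 447) (nat_lit 318) (nat_lit 315)) (XT.nd (nat_lit 94) (nat_lit 0) (nat_lit 0) (XT.lf (nat_lit 0) (nat_lit 938046554260) (nat_lit 0) (nat_lit 0) (nat_lit 0) (nat_lit 0) (nat_lit 0) (nat_lit 0) (nat_lit 1) (nat_lit 0) (nat_lit 1) (nat_lit 0) (nat_lit 448) (nat_lit 318) (nat_lit 314)) (XT.lf (nat_lit 0) (nat_lit 1013082089815) (nat_lit 0) (nat_lit 0) (nat_lit 0) (nat_lit 0) (nat_lit 0) (nat_lit 0) (nat_lit 1) (nat_lit 0) (nat_lit 1) (nat_lit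 0) (nat_lit 449) (nat_lit 318) (nat_lit 313)))) (XT.nd (nat_lit 188) (nat_lit 0) (nat_lit 0) (XT.nd (nat_lit 94) (nat_lit 0) (nat_lit 0) (XT.lf (nat_lit 0) (nat_lit 1094120823685) (nat_lit 0) (nat_lit 0) (nat_lit 0) (nat_lit 0) (nat_lit 0) (nat_lit 0) (nat_lit 1) (nat_lit 0) (nat_lit 1) (nat_lit 0) (nat_lit 450) (nat_lit 318) (nat_lit 312)) (XT.lf (nat_lit 0) (nat_lit 1181642985403) (nat_lit 0) (nat_lit 0) (nat_lit 0) (nat_lit 0) (nat_lit 0) (nat_lit 0) (nat_lit 1) (nat_lit 0) (nat_lit 1) (nat_lit 0) (nat_lit 451) (nat_lit 318) (nat_lit 311))) (XT.nd (nat_lit 94) (nat_lit 0) (nat_lit 0) (XT.lf (nat_lit 0) (nat_lit 1276167224817) (nat_lit 0) (nat_lit 0) (nat_lit 0) (nat_lit 0) (nat_lit 0) (nat_lit 0) (nat_lit 1) (nat_lit 0) (nat_lit 1) (nat_lit 0) (nat_lit 452) (nat_lit 318) (nat_lit 310)) (XT.lf (nat_lit 0) (nat_lit 1378253685567) (nat_lit 0) (nat_lit 0) (nat_lit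 0) (nat_lit 0) (nat_lit 0) (nat_lit 0) (nat_lit 1) (nat_lit 0) (nat_lit 1) (nat_lit 0) (nat_lit 453) (nat_lit 318) (nat_lit 309))))) (XT.nd (nat_lit 282) (nat_lit 0) (nat_lit 0) (XT.nd (nat_lit 94) (nat_lit 0) (nat_lit 0) (XT.lf (nat_lit 0) (nat_lit 1488507324459) (nat_lit 0) (nat_lit 0) (nat_lit 0) (nat_lit 0) (nat_lit 0) (nat_lit 0) (nat_lit 1) (nat_lit 0) (nat_lit 1) (nat_lit 0) (nat_lit 454) (nat_lit 318) (nat_lit 308)) (XT.nd (nat_lit 94) (nat_lit 0) (nat_lit 0) (XT.lf (nat_lit 0) (nat_lit 1607581496389) (nat_lit 0) (nat_lit 0) (nat_lit 0) (nat_lit 0) (nat_lit 0) (nat_lit 0) (nat_lit 1) (nat_lit 0) (nat_lit 1) (nat_lit 0) (nat_lit 455) (nat_lit 318) (nat_lit 307)) (XT.lf (nat_lit 0) (nat_lit 1736181826079) (nat_lit 0) (nat_lit 0) (nat_lit 0) (nat_lit 0) (nat_lit 0) (nat_lit 0) (nat_lit 1) (nat_lit 0) (nat_lit 1) (nat_lit 0) (nat_lit 456) (nat_lit 318)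 (nat_lit 306)))) (XT.nd (nat_lit 188) (nat_lit 0) (nat_lit 0) (XT.nd (nat_lit 94) (nat_lit 0) (nat_lit 0) (XT.lf (nat_lit 0) (nat_lit 1875070389558) (nat_lit 0) (nat_lit 0) (nat_lit 0) (nat_lit 0) (nat_lit 0) (nat_lit 0) (nat_lit 1) (nat_lit 0) (nat_lit 1) (nat_lit 0) (nat_lit 457) (nat_lit 318) (nat_lit 305)) (XT.lf (nat_lit 0) (nat_lit 2025070230165) (nat_lit 0) (nat_lit 0) (nat_lit 0) (nat_lit 0) (nat_lit 0) (nat_lit 0) (nat_lit 1) (nat_lit 0) (nat_lit 1) (nat_lit 0) (nat_lit 458) (nat_lit 318) (nat_lit 304))) (XT.nd (nat_lit 94) (nat_lit 0) (nat_lit 0) (XT.lf (nat_lit 0) (nat_lit 2187070235844) (nat_lit 0) (nat_lit 0) (nat_lit 0) (nat_lit 0) (nat_lit 0) (nat_lit 0) (nat_lit 1) (nat_lit 0) (nat_lit 1) (nat_lit 0) (nat_lit 459) (nat_lit 318) (nat_lit 303)) (XT.lf (nat_lit 0) (nat_lit 2362030406628) (nat_lit 0) (nat_lit 0) (nat_lit 0) (nat_lit 0) (nat_lit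 0) (nat_lit 0) (nat_lit 1) (nat_lit 0) (nat_lit 1) (nat_lit 0) (nat_lit 460) (nat_lit 318) (nat_lit 302)))))) (XT.nd (nat_lit 658) (nat_lit 0) (nat_lit 0) (XT.nd (nat_lit 282) (nat_lit 0) (nat_lit 0) (XT.nd (nat_lit 94) (nat_lit 0) (nat_lit 0) (XT.lf (nat_lit 0) (nat_lit 2550987543531) (nat_lit 0) (nat_lit 0) (nat_lit 0) (nat_lit 0) (nat_lit 0) (nat_lit 0) (nat_lit 1) (nat_lit 0) (nat_lit 1) (nat_lit 0) (nat_lit 461) (nat_lit 318) (nat_lit 301)) (XT.nd (nat_lit 94) (nat_lit 0) (nat_lit 0) (XT.lf (nat_lit 0) (nat_lit 2755061392547) (nat_lit 0) (nat_lit 0) (nat_lit 0) (nat_lit 0) (nat_lit 0) (nat_lit 0) (nat_lit 1) (nat_lit 0) (nat_lit 1) (nat_lit 0) (nat_lit 462) (nat_lit 318) (nat_lit 300)) (XT.lf (nat_lit 0) (nat_lit 2975461280190) (nat_lit 0) (nat_lit 0) (nat_lit 0) (nat_lit 0) (nat_lit 0) (nat_lit 0) (nat_lit 1) (nat_lit 0) (nat_lit 1) (nat_lit 0) (nat_lit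 463) (nat_lit 318) (nat_lit 299)))) (XT.nd (nat_lit 188) (nat_lit 0) (nat_lit 0) (XT.nd (nat_lit 94) (nat_lit 0) (nat_lit 0) (XT.lf (nat_lit 0) (nat_lit 3213493279869) (nat_lit 0) (nat_lit 0) (nat_lit 0) (nat_lit 0) (nat_lit 0) (nat_lit 0) (nat_lit 1) (nat_lit 0) (nat_lit 1) (nat_lit 0) (nat_lit 464) (nat_lit 318) (nat_lit 298)) (XT.lf (nat_lit 0) (nat_lit 3470567951580) (nat_lit 0) (nat_lit 0) (nat_lit 0) (nat_lit 0) (nat_lit 0) (nat_lit 0) (nat_lit 1) (nat_lit 0) (nat_lit 1) (nat_lit 0) (nat_lit 465) (nat_lit 318) (nat_lit 297))) (XT.nd (nat_lit 94) (nat_lit 0) (nat_lit 0) (XT.lf (nat_lit 0) (nat_lit 3748208700787) (nat_lit 0) (nat_lit 0) (nat_lit 0) (nat_lit 0) (nat_lit 0) (nat_lit 0) (nat_lit 1) (nat_lit 0) (nat_lit 1) (nat_lit 0) (nat_lit 466) (nat_lit 318) (nat_lit 296)) (XT.lf (nat_lit 0) (nat_lit 4048060806003) (nat_lit 0) (nat_lit 0) (nat_lit 0) (nat_lit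 0) (nat_lit 0) (nat_lit 0) (nat_lit 1) (nat_lit 0) (nat_lit 1) (nat_lit 0) (nat_lit 467) (nat_lit 318) (nat_lit 295))))) (XT.nd (nat_lit 282) (nat_lit 0) (nat_lit 0) (XT.nd (nat_lit 94) (nat_lit 0) (nat_lit 0) (XT.lf (nat_lit 0) (nat_lit 4371901168592) (nat_lit 0) (nat_lit 0) (nat_lit 0) (nat_lit 0) (nat_lit 0) (nat_lit 0) (nat_lit 1) (nat_lit 0) (nat_lit 1) (nat_lit 0) (nat_lit 468) (nat_lit 318) (nat_lit 294)) (XT.nd (nat_lit 94) (nat_lit 0) (nat_lit 0) (XT.lf (nat_lit 0) (nat_lit 4721648842556) (nat_lit 0) (nat_lit 0) (nat_lit 0) (nat_lit 0) (nat_lit 0) (nat_lit 0) (nat_lit 1) (nat_lit 0) (nat_lit 1) (nat_lit 0) (nat_lit 469) (nat_lit 318) (nat_lit 293)) (XT.lf (nat_lit 0) (nat_lit 5099376406701) (nat_lit 0) (nat_lit 0) (nat_lit 0) (nat_lit 0) (nat_lit 0) (nat_lit 0) (nat_lit 1) (nat_lit 0) (nat_lit 1) (nat_lit 0) (nat_lit 470) (nat_lit 318) (nat_lit 292))))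 (XT.nd (nat_lit 188) (nat_lit 0) (nat_lit 0) (XT.nd (nat_lit 94) (nat_lit 0) (nat_lit 0) (XT.lf (nat_lit 0) (nat_lit 5507322246594) (nat_lit 0) (nat_lit 0) (nat_lit 0) (nat_lit 0) (nat_lit 0) (nat_lit 0) (nat_lit 1) (nat_lit 0) (nat_lit 1) (nat_lit 0) (nat_lit 471) (nat_lit 318) (nat_lit 291)) (XT.lf (nat_lit 0) (nat_lit 5947903819065) (nat_lit 0) (nat_lit 0) (nat_lit 0) (nat_lit 0) (nat_lit 0) (nat_lit 0) (nat_lit 1) (nat_lit 0) (nat_lit 1) (nat_lit 0) (nat_lit 472) (nat_lit 318) (nat_lit 290))) (XT.nd (nat_lit 94) (nat_lit 0) (nat_lit 0) (XT.lf (nat_lit 0) (nat_lit 6423731977874) (nat_lit 0) (nat_lit 0) (nat_lit 0) (nat_lit 0) (nat_lit 0) (nat_lit 0) (nat_lit 1) (nat_lit 0) (nat_lit 1) (nat_lit 0) (nat_lit 473) (nat_lit 318) (nat_lit 289)) (XT.lf (nat_lit 0) (nat_lit 6937626445446) (nat_lit 0) (nat_lit 0) (nat_lit 0) (nat_lit 0) (nat_lit 0) (nat_lit 0) (nat_lit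 1) (nat_lit 0) (nat_lit 1) (nat_lit 0) (nat_lit 474) (nat_lit 318) (nat_lit 288))))))) (XT.nd (nat_lit 1316) (nat_lit 0) (nat_lit 0) (XT.nd (nat_lit 658) (nat_lit 0) (nat_lit 0) (XT.nd (nat_lit 282) (nat_lit 0) (nat_lit 0) (XT.nd (nat_lit 94) (nat_lit 0) (nat_lit 0) (XT.lf (nat_lit 0) (nat_lit 7492632522329) (nat_lit 0) (nat_lit 0) (nat_lit 0) (nat_lit 0) (nat_lit 0) (nat_lit 0) (nat_lit 1) (nat_lit 0) (nat_lit 1) (nat_lit 0) (nat_lit 475) (nat_lit 318) (nat_lit 287)) (XT.nd (nat_lit 94) (nat_lit 0) (nat_lit 0) (XT.lf (nat_lit 0) (nat_lit 8092039133422) (nat_lit 0) (nat_lit 0) (nat_lit 0) (nat_lit 0) (nat_lit 0) (nat_lit 0) (nat_lit 1) (nat_lit 0) (nat_lit 1) (nat_lit 0) (nat_lit 476) (nat_lit 318) (nat_lit 286)) (XT.lf (nat_lit 0) (nat_lit 8739398317903) (nat_lit 0) (nat_lit 0) (nat_lit 0) (nat_lit 0) (nat_lit 0) (nat_lit 0) (nat_lit 1) (nat_lit 0) (nat_lit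 1) (nat_lit 0) (nat_lit 477) (nat_lit 318) (nat_lit 285)))) (XT.nd (nat_lit 188) (nat_lit 0) (nat_lit 0) (XT.nd (nat_lit 94) (nat_lit 0) (nat_lit 0) (XT.lf (nat_lit 0) (nat_lit 9438546278346) (nat_lit 0) (nat_lit 0) (nat_lit 0) (nat_lit 0) (nat_lit 0) (nat_lit 0) (nat_lit 1) (nat_lit 0) (nat_lit 1) (nat_lit 0) (nat_lit 478) (nat_lit 318) (nat_lit 284)) (XT.lf (nat_lit 0) (nat_lit 10193626113777) (nat_lit 0) (nat_lit 0) (nat_lit 0) (nat_lit 0) (nat_lit 0) (nat_lit 0) (nat_lit 1) (nat_lit 0) (nat_lit 1) (nat_lit 0) (nat_lit 479) (nat_lit 318) (nat_lit 283))) (XT.nd (nat_lit 94) (nat_lit 0) (nat_lit 0) (XT.lf (nat_lit 0) (nat_lit 11009112371367) (nat_lit 0) (nat_lit 0) (nat_lit 0) (nat_lit 0) (nat_lit 0) (nat_lit 0) (nat_lit 1) (nat_lit 0) (nat_lit 1) (nat_lit 0) (nat_lit 480) (nat_lit 318) (nat_lit 282)) (XT.lf (nat_lit 0) (nat_lit 11889837562274) (nat_lit 0)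 (nat_lit 0) (nat_lit 0) (nat_lit 0) (nat_lit 0) (nat_lit 0) (nat_lit 1) (nat_lit 0) (nat_lit 1) (nat_lit 0) (nat_lit 481) (nat_lit 318) (nat_lit 281))))) (XT.nd (nat_lit 282) (nat_lit 0) (nat_lit 0) (XT.nd (nat_lit 94) (nat_lit 0) (nat_lit 0) (XT.lf (nat_lit 0) (nat_lit 12841020798739) (nat_lit 0) (nat_lit 0) (nat_lit 0) (nat_lit 0) (nat_lit 0) (nat_lit 0) (nat_lit 1) (nat_lit 0) (nat_lit 1) (nat_lit 0) (nat_lit 482) (nat_lit 318) (nat_lit 280)) (XT.nd (nat_lit 94) (nat_lit 0) (nat_lit 0) (XT.lf (nat_lit 0) (nat_lit 13868298722165) (nat_lit 0) (nat_lit 0) (nat_lit 0) (nat_lit 0) (nat_lit 0) (nat_lit 0) (nat_lit 1) (nat_lit 0) (nat_lit 1) (nat_lit 0) (nat_lit 483) (nat_lit 318) (nat_lit 279)) (XT.lf (nat_lit 0) (nat_lit 14977758905429) (nat_lit 0) (nat_lit 0) (nat_lit 0) (nat_lit 0) (nat_lit 0) (nat_lit 0) (nat_lit 1) (nat_lit 0) (nat_lit 1) (nat_lit 0) (nat_lit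 484) (nat_lit 318) (nat_lit 278)))) (XT.nd (nat_lit 188) (nat_lit 0) (nat_lit 0) (XT.nd (nat_lit 94) (nat_lit 0) (nat_lit 0) (XT.lf (nat_lit 0) (nat_lit 16175975927397) (nat_lit 0) (nat_lit 0) (nat_lit 0) (nat_lit 0) (nat_lit 0) (nat_lit 0) (nat_lit 1) (nat_lit 0) (nat_lit 1) (nat_lit 0) (nat_lit 485) (nat_lit 318) (nat_lit 277)) (XT.lf (nat_lit 0) (nat_lit 17470050333384) (nat_lit 0) (nat_lit 0) (nat_lit 0) (nat_lit 0) (nat_lit 0) (nat_lit 0) (nat_lit 1) (nat_lit 0) (nat_lit 1) (nat_lit 0) (nat_lit 486) (nat_lit 318) (nat_lit 276))) (XT.nd (nat_lit 94) (nat_lit 0) (nat_lit 0) (XT.lf (nat_lit 0) (nat_lit 18867650712461) (nat_lit 0) (nat_lit 0) (nat_lit 0) (nat_lit 0) (nat_lit 0) (nat_lit 0) (nat_lit 1) (nat_lit 0) (nat_lit 1) (nat_lit 0) (nat_lit 487) (nat_lit 318) (nat_lit 275)) (XT.lf (nat_lit 0) (nat_lit 20377059140950) (nat_lit 0) (nat_lit 0) (nat_lit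 0) (nat_lit 0) (nat_lit 0) (nat_lit 0) (nat_lit 1) (nat_lit 0) (nat_lit 1) (nat_lit 0) (nat_lit 488) (nat_lit 318) (nat_lit 274)))))) (XT.nd (nat_lit 658) (nat_lit 0) (nat_lit 0) (XT.nd (nat_lit 282) (nat_lit 0) (nat_lit 0) (XT.nd (nat_lit 94) (nat_lit 0) (nat_lit 0) (XT.lf (nat_lit 0) (nat_lit 22007220261390) (nat_lit 0) (nat_lit 0) (nat_lit 0) (nat_lit 0) (nat_lit 0) (nat_lit 0) (nat_lit 1) (nat_lit 0) (nat_lit 1) (nat_lit 0) (nat_lit 489) (nat_lit 318) (nat_lit 273)) (XT.nd (nat_lit 94) (nat_lit 0) (nat_lit 0) (XT.lf (nat_lit 0) (nat_lit 23767794287828) (nat_lit 0) (nat_lit 0) (nat_lit 0) (nat_lit 0) (nat_lit 0) (nat_lit 0) (nat_lit 1) (nat_lit 0) (nat_lit 1) (nat_lit 0) (nat_lit 490) (nat_lit 318) (nat_lit 272)) (XT.lf (nat_lit 0) (nat_lit 25669214251531) (nat_lit 0) (nat_lit 0) (nat_lit 0) (nat_lit 0) (nat_lit 0) (nat_lit 0) (nat_lit 1) (nat_lit 0) (nat_lit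 1) (nat_lit 0) (nat_lit 491) (nat_lit 318) (nat_lit 271)))) (XT.nd (nat_lit 188) (nat_lit 0) (nat_lit 0) (XT.nd (nat_lit 94) (nat_lit 0) (nat_lit 0) (XT.lf (nat_lit 0) (nat_lit 27722747826359) (nat_lit 0) (nat_lit 0) (nat_lit 0) (nat_lit 0) (nat_lit 0) (nat_lit 0) (nat_lit 1) (nat_lit 0) (nat_lit 1) (nat_lit 0) (nat_lit 492) (nat_lit 318) (nat_lit 270)) (XT.lf (nat_lit 0) (nat_lit 29940564100162) (nat_lit 0) (nat_lit 0) (nat_lit 0) (nat_lit 0) (nat_lit 0) (nat_lit 0) (nat_lit 1) (nat_lit 0) (nat_lit 1) (nat_lit 0) (nat_lit 493) (nat_lit 318) (nat_lit 269))) (XT.nd (nat_lit 94) (nat_lit 0) (nat_lit 0) (XT.lf (nat_lit 0) (nat_lit 32335805687897) (nat_lit 0) (nat_lit 0) (nat_lit 0) (nat_lit 0) (nat_lit 0) (nat_lit 0) (nat_lit 1) (nat_lit 0) (nat_lit 1) (nat_lit 0) (nat_lit 494) (nat_lit 318) (nat_lit 268)) (XT.lf (nat_lit 0) (nat_lit 34922666613786) (nat_lit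 0) (nat_lit 0) (nat_lit 0) (nat_lit 0) (nat_lit 0) (nat_lit 0) (nat_lit 1) (nat_lit 0) (nat_lit 1) (nat_lit 0) (nat_lit 495) (nat_lit 318) (nat_lit 267))))) (XT.nd (nat_lit 282) (nat_lit 0) (nat_lit 0) (XT.nd (nat_lit 94) (nat_lit 0) (nat_lit 0) (XT.lf (nat_lit 0) (nat_lit 37716476424058) (nat_lit 0) (nat_lit 0) (nat_lit 0) (nat_lit 0) (nat_lit 0) (nat_lit 0) (nat_lit 1) (nat_lit 0) (nat_lit 1) (nat_lit 0) (nat_lit 496) (nat_lit 318) (nat_lit 266)) (XT.nd (nat_lit 94) (nat_lit 0) (nat_lit 0) (XT.lf (nat_lit 0) (nat_lit 40733791028699) (nat_lit 0) (nat_lit 0) (nat_lit 0) (nat_lit 0) (nat_lit 0) (nat_lit 0) (nat_lit 1) (nat_lit 0) (nat_lit 1) (nat_lit 0) (nat_lit 497) (nat_lit 318) (nat_lit 265)) (XT.lf (nat_lit 0) (nat_lit 43992490810551) (nat_lit 0) (nat_lit 0) (nat_lit 0) (nat_lit 0) (nat_lit 0) (nat_lit 0) (nat_lit 1) (nat_lit 0) (nat_lit 1) (nat_lit 0)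 (nat_lit 498) (nat_lit 318) (nat_lit 264)))) (XT.nd (nat_lit 188) (nat_lit 0) (nat_lit 0) (XT.nd (nat_lit 94) (nat_lit 0) (nat_lit 0) (XT.lf (nat_lit 0) (nat_lit 47511886583137) (nat_lit 0) (nat_lit 0) (nat_lit 0) (nat_lit 0) (nat_lit 0) (nat_lit 0) (nat_lit 1) (nat_lit 0) (nat_lit 1) (nat_lit 0) (nat_lit 499) (nat_lit 318) (nat_lit 263)) (XT.lf (nat_lit 0) (nat_lit 51312834025109) (nat_lit 0) (nat_lit 0) (nat_lit 0) (nat_lit 0) (nat_lit 0) (nat_lit 0) (nat_lit 1) (nat_lit 0) (nat_lit 1) (nat_lit 0) (nat_lit 500) (nat_lit 318) (nat_lit 262))) (XT.nd (nat_lit 94) (nat_lit 0) (nat_lit 0) (XT.lf (nat_lit 0) (nat_lit 55417857269456) (nat_lit 0) (nat_lit 0) (nat_lit 0) (nat_lit 0) (nat_lit 0) (nat_lit 0) (nat_lit 1) (nat_lit 0) (nat_lit 1) (nat_lit 0) (nat_lit 501) (nat_lit 318) (nat_lit 261)) (XT.lf (nat_lit 0) (nat_lit 59851282379849) (nat_lit 0) (nat_lit 0)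 (nat_lit 0) (nat_lit 0) (nat_lit 0) (nat_lit 0) (nat_lit 1) (nat_lit 0) (nat_lit 1) (nat_lit 0) (nat_lit 502) (nat_lit 318) (nat_lit 260))))))))
noncomputable def xc17 : XT := (XT.nd (nat_lit 64578) (nat_lit 0) (nat_lit 0) (XT.nd (nat_lit 63262) (nat_lit 0) (nat_lit 0) (XT.nd (nat_lit 62604) (nat_lit 0) (nat_lit 0) (XT.nd (nat_lit 62228) (nat_lit 0) (nat_lit 0) (XT.nd (nat_lit 62040) (nat_lit 0) (nat_lit 0) (XT.lf (nat_lit 0) (nat_lit 64639381505090) (nat_lit 0) (nat_lit 0) (nat_lit 0) (nat_lit 0) (nat_lit 0) (nat_lit 0) (nat_lit 1) (nat_lit 0) (nat_lit 1) (nat_lit 0) (nat_lit 503) (nat_lit 318) (nat_lit 259)) (XT.nd (nat_lit 94) (nat_lit 0) (nat_lit 0) (XT.lf (nat_lit 0) (nat_lit 295586822523) (nat_lit 0) (nat_lit 0) (nat_lit 0) (nat_lit 0) (nat_lit 0) (nat_lit 0) (nat_lit 1) (nat_lit 0) (nat_lit 1) (nat_lit 0) (nat_lit 442) (nat_lit 319) (nat_lit 319)) (XT.lf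 (nat_lit 0) (nat_lit 638456824437) (nat_lit 0) (nat_lit 0) (nat_lit 0) (nat_lit 0) (nat_lit 0) (nat_lit 0) (nat_lit 1) (nat_lit 0) (nat_lit 1) (nat_lit 0) (nat_lit 443) (nat_lit 319) (nat_lit 318)))) (XT.nd (nat_lit 188) (nat_lit 0) (nat_lit 0) (XT.nd (nat_lit 94) (nat_lit 0) (nat_lit 0) (XT.lf (nat_lit 0) (nat_lit 689523180481) (nat_lit 0) (nat_lit 0) (nat_lit 0) (nat_lit 0) (nat_lit 0) (nat_lit 0) (nat_lit 1) (nat_lit 0) (nat_lit 1) (nat_lit 0) (nat_lit 444) (nat_lit 319) (nat_lit 317)) (XT.lf (nat_lit 0) (nat_lit 744675328621) (nat_lit 0) (nat_lit 0) (nat_lit 0) (nat_lit 0) (nat_lit 0) (nat_lit 0) (nat_lit 1) (nat_lit 0) (nat_lit 1) (nat_lit 0) (nat_lit 445) (nat_lit 319) (nat_lit 316))) (XT.nd (nat_lit 94) (nat_lit 0) (nat_lit 0) (XT.lf (nat_lit 0) (nat_lit 804240096403) (nat_lit 0) (nat_lit 0) (nat_lit 0) (nat_lit 0) (nat_lit 0) (nat_lit 0) (nat_lit 1)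 (nat_lit 0) (nat_lit 1) (nat_lit 0) (nat_lit 446) (nat_lit 319) (nat_lit 315)) (XT.lf (nat_lit 0) (nat_lit 868570460226) (nat_lit 0) (nat_lit 0) (nat_lit 0) (nat_lit 0) (nat_lit 0) (nat_lit 0) (nat_lit 1) (nat_lit 0) (nat_lit 1) (nat_lit 0) (nat_lit 447) (nat_lit 319) (nat_lit 314))))) (XT.nd (nat_lit 282) (nat_lit 0) (nat_lit 0) (XT.nd (nat_lit 94) (nat_lit 0) (nat_lit 0) (XT.lf (nat_lit 0) (nat_lit 938047637064) (nat_lit 0) (nat_lit 0) (nat_lit 0) (nat_lit 0) (nat_lit 0) (nat_lit 0) (nat_lit 1) (nat_lit 0) (nat_lit 1) (nat_lit 0) (nat_lit 448) (nat_lit 319) (nat_lit 313)) (XT.nd (nat_lit 94) (nat_lit 0) (nat_lit 0) (XT.lf (nat_lit 0) (nat_lit 1013083343518) (nat_lit 0) (nat_lit 0) (nat_lit 0) (nat_lit 0) (nat_lit 0) (nat_lit 0) (nat_lit 1) (nat_lit 0) (nat_lit 1) (nat_lit 0) (nat_lit 449) (nat_lit 319) (nat_lit 312)) (XT.lf (nat_lit 0) (nat_lit 1094122235628)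 (nat_lit 0) (nat_lit 0) (nat_lit 0) (nat_lit 0) (nat_lit 0) (nat_lit 0) (nat_lit 1) (nat_lit 0) (nat_lit 1) (nat_lit 0) (nat_lit 450) (nat_lit 319) (nat_lit 311)))) (XT.nd (nat_lit 188) (nat_lit 0) (nat_lit 0) (XT.nd (nat_lit 94) (nat_lit 0) (nat_lit 0) (XT.lf (nat_lit 0) (nat_lit 1181644543864) (nat_lit 0) (nat_lit 0) (nat_lit 0) (nat_lit 0) (nat_lit 0) (nat_lit 0) (nat_lit 1) (nat_lit 0) (nat_lit 1) (nat_lit 0) (nat_lit 451) (nat_lit 319) (nat_lit 310)) (XT.lf (nat_lit 0) (nat_lit 1276168918943) (nat_lit 0) (nat_lit 0) (nat_lit 0) (nat_lit 0) (nat_lit 0) (nat_lit 0) (nat_lit 1) (nat_lit 0) (nat_lit 1) (nat_lit 0) (nat_lit 452) (nat_lit 319) (nat_lit 309))) (XT.nd (nat_lit 94) (nat_lit 0) (nat_lit 0) (XT.lf (nat_lit 0) (nat_lit 1378255505310) (nat_lit 0) (nat_lit 0) (nat_lit 0) (nat_lit 0) (nat_lit 0) (nat_lit 0) (nat_lit 1) (nat_lit 0) (nat_lit 1) (nat_lit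 0) (nat_lit 453) (nat_lit 319) (nat_lit 308)) (XT.lf (nat_lit 0) (nat_lit 1488509260512) (nat_lit 0) (nat_lit 0) (nat_lit 0) (nat_lit 0) (nat_lit 0) (nat_lit 0) (nat_lit 1) (nat_lit 0) (nat_lit 1) (nat_lit 0) (nat_lit 454) (nat_lit 319) (nat_lit 307)))))) (XT.nd (nat_lit 658) (nat_lit 0) (nat_lit 0) (XT.nd (nat_lit 282) (nat_lit 0) (nat_lit 0) (XT.nd (nat_lit 94) (nat_lit 0) (nat_lit 0) (XT.lf (nat_lit 0) (nat_lit 1607583540138) (nat_lit 0) (nat_lit 0) (nat_lit 0) (nat_lit 0) (nat_lit 0) (nat_lit 0) (nat_lit 1) (nat_lit 0) (nat_lit 1) (nat_lit 0) (nat_lit 455) (nat_lit 319) (nat_lit 306)) (XT.nd (nat_lit 94) (nat_lit 0) (nat_lit 0) (XT.lf (nat_lit 0) (nat_lit 1736183969546) (nat_lit 0) (nat_lit 0) (nat_lit 0) (nat_lit 0) (nat_lit 0) (nat_lit 0) (nat_lit 1) (nat_lit 0) (nat_lit 1) (nat_lit 0) (nat_lit 456) (nat_lit 319) (nat_lit 305)) (XT.lf (nat_lit 0) (nat_lit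 1875072625356) (nat_lit 0) (nat_lit 0) (nat_lit 0) (nat_lit 0) (nat_lit 0) (nat_lit 0) (nat_lit 1) (nat_lit 0) (nat_lit 1) (nat_lit 0) (nat_lit 457) (nat_lit 319) (nat_lit 304)))) (XT.nd (nat_lit 188) (nat_lit 0) (nat_lit 0) (XT.nd (nat_lit 94) (nat_lit 0) (nat_lit 0) (XT.lf (nat_lit 0) (nat_lit 2025072551455) (nat_lit 0) (nat_lit 0) (nat_lit 0) (nat_lit 0) (nat_lit 0) (nat_lit 0) (nat_lit 1) (nat_lit 0) (nat_lit 1) (nat_lit 0) (nat_lit 458) (nat_lit 319) (nat_lit 303)) (XT.lf (nat_lit 0) (nat_lit 2187072636293) (nat_lit 0) (nat_lit 0) (nat_lit 0) (nat_lit 0) (nat_lit 0) (nat_lit 0) (nat_lit 1) (nat_lit 0) (nat_lit 1) (nat_lit 0) (nat_lit 459) (nat_lit 319) (nat_lit 302))) (XT.nd (nat_lit 94) (nat_lit 0) (nat_lit 0) (XT.lf (nat_lit 0) (nat_lit 2362032880374) (nat_lit 0) (nat_lit 0) (nat_lit 0) (nat_lit 0) (nat_lit 0) (nat_lit 0) (nat_lit 1) (nat_lit 0) (nat_lit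 1) (nat_lit 0) (nat_lit 460) (nat_lit 319) (nat_lit 301)) (XT.lf (nat_lit 0) (nat_lit 2550990085142) (nat_lit 0) (nat_lit 0) (nat_lit 0) (nat_lit 0) (nat_lit 0) (nat_lit 0) (nat_lit 1) (nat_lit 0) (nat_lit 1) (nat_lit 0) (nat_lit 461) (nat_lit 319) (nat_lit 300))))) (XT.nd (nat_lit 282) (nat_lit 0) (nat_lit 0) (XT.nd (nat_lit 94) (nat_lit 0) (nat_lit 0) (XT.lf (nat_lit 0) (nat_lit 2755063996998) (nat_lit 0) (nat_lit 0) (nat_lit 0) (nat_lit 0) (nat_lit 0) (nat_lit 0) (nat_lit 1) (nat_lit 0) (nat_lit 1) (nat_lit 0) (nat_lit 462) (nat_lit 319) (nat_lit 299)) (XT.nd (nat_lit 94) (nat_lit 0) (nat_lit 0) (XT.lf (nat_lit 0) (nat_lit 2975463942826) (nat_lit 0) (nat_lit 0) (nat_lit 0) (nat_lit 0) (nat_lit 0) (nat_lit 0) (nat_lit 1) (nat_lit 0) (nat_lit 1) (nat_lit 0) (nat_lit 463) (nat_lit 319) (nat_lit 298)) (XT.lf (nat_lit 0) (nat_lit 3213495996378) (nat_lit 0) (nat_lit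 0) (nat_lit 0) (nat_lit 0) (nat_lit 0) (nat_lit 0) (nat_lit 1) (nat_lit 0) (nat_lit 1) (nat_lit 0) (nat_lit 464) (nat_lit 319) (nat_lit 297)))) (XT.nd (nat_lit 188) (nat_lit 0) (nat_lit 0) (XT.nd (nat_lit 94) (nat_lit 0) (nat_lit 0) (XT.lf (nat_lit 0) (nat_lit 3470570717974) (nat_lit 0) (nat_lit 0) (nat_lit 0) (nat_lit 0) (nat_lit 0) (nat_lit 0) (nat_lit 1) (nat_lit 0) (nat_lit 1) (nat_lit 0) (nat_lit 465) (nat_lit 319) (nat_lit 296)) (XT.lf (nat_lit 0) (nat_lit 3748211513369) (nat_lit 0) (nat_lit 0) (nat_lit 0) (nat_lit 0) (nat_lit 0) (nat_lit 0) (nat_lit 1) (nat_lit 0) (nat_lit 1) (nat_lit 0) (nat_lit 466) (nat_lit 319) (nat_lit 295))) (XT.nd (nat_lit 94) (nat_lit 0) (nat_lit 0) (XT.lf (nat_lit 0) (nat_lit 4048063661353) (nat_lit 0) (nat_lit 0) (nat_lit 0) (nat_lit 0) (nat_lit 0) (nat_lit 0) (nat_lit 1) (nat_lit 0) (nat_lit 1) (nat_lit 0) (nat_lit 467) (nat_lit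 319) (nat_lit 294)) (XT.lf (nat_lit 0) (nat_lit 4371904063541) (nat_lit 0) (nat_lit 0) (nat_lit 0) (nat_lit 0) (nat_lit 0) (nat_lit 0) (nat_lit 1) (nat_lit 0) (nat_lit 1) (nat_lit 0) (nat_lit 468) (nat_lit 319) (nat_lit 293))))))) (XT.nd (nat_lit 1316) (nat_lit 0) (nat_lit 0) (XT.nd (nat_lit 658) (nat_lit 0) (nat_lit 0) (XT.nd (nat_lit 282) (nat_lit 0) (nat_lit 0) (XT.nd (nat_lit 94) (nat_lit 0) (nat_lit 0) (XT.lf (nat_lit 0) (nat_lit 4721651774170) (nat_lit 0) (nat_lit 0) (nat_lit 0) (nat_lit 0) (nat_lit 0) (nat_lit 0) (nat_lit 1) (nat_lit 0) (nat_lit 1) (nat_lit 0) (nat_lit 469) (nat_lit 319) (nat_lit 292)) (XT.nd (nat_lit 94) (nat_lit 0) (nat_lit 0) (XT.lf (nat_lit 0) (nat_lit 5099379372266) (nat_lit 0) (nat_lit 0) (nat_lit 0) (nat_lit 0) (nat_lit 0) (nat_lit 0) (nat_lit 1) (nat_lit 0) (nat_lit 1) (nat_lit 0) (nat_lit 470) (nat_lit 319) (nat_lit 291)) (XT.lf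 (nat_lit 0) (nat_lit 5507325243595) (nat_lit 0) (nat_lit 0) (nat_lit 0) (nat_lit 0) (nat_lit 0) (nat_lit 0) (nat_lit 1) (nat_lit 0) (nat_lit 1) (nat_lit 0) (nat_lit 471) (nat_lit 319) (nat_lit 290)))) (XT.nd (nat_lit 188) (nat_lit 0) (nat_lit 0) (XT.nd (nat_lit 94) (nat_lit 0) (nat_lit 0) (XT.lf (nat_lit 0) (nat_lit 5947906845171) (nat_lit 0) (nat_lit 0) (nat_lit 0) (nat_lit 0) (nat_lit 0) (nat_lit 0) (nat_lit 1) (nat_lit 0) (nat_lit 1) (nat_lit 0) (nat_lit 472) (nat_lit 319) (nat_lit 289)) (XT.lf (nat_lit 0) (nat_lit 6423735030932) (nat_lit 0) (nat_lit 0) (nat_lit 0) (nat_lit 0) (nat_lit 0) (nat_lit 0) (nat_lit 1) (nat_lit 0) (nat_lit 1) (nat_lit 0) (nat_lit 473) (nat_lit 319) (nat_lit 288))) (XT.nd (nat_lit 94) (nat_lit 0) (nat_lit 0) (XT.lf (nat_lit 0) (nat_lit 6937629523458) (nat_lit 0) (nat_lit 0) (nat_lit 0) (nat_lit 0) (nat_lit 0) (nat_lit 0) (nat_lit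 1) (nat_lit 0) (nat_lit 1) (nat_lit 0) (nat_lit 474) (nat_lit 319) (nat_lit 287)) (XT.lf (nat_lit 0) (nat_lit 7492635623446) (nat_lit 0) (nat_lit 0) (nat_lit 0) (nat_lit 0) (nat_lit 0) (nat_lit 0) (nat_lit 1) (nat_lit 0) (nat_lit 1) (nat_lit 0) (nat_lit 475) (nat_lit 319) (nat_lit 286))))) (XT.nd (nat_lit 282) (nat_lit 0) (nat_lit 0) (XT.nd (nat_lit 94) (nat_lit 0) (nat_lit 0) (XT.lf (nat_lit 0) (nat_lit 8092042255934) (nat_lit 0) (nat_lit 0) (nat_lit 0) (nat_lit 0) (nat_lit 0) (nat_lit 0) (nat_lit 1) (nat_lit 0) (nat_lit 1) (nat_lit 0) (nat_lit 476) (nat_lit 319) (nat_lit 285)) (XT.nd (nat_lit 94) (nat_lit 0) (nat_lit 0) (XT.lf (nat_lit 0) (nat_lit 8739401460225) (nat_lit 0) (nat_lit 0) (nat_lit 0) (nat_lit 0) (nat_lit 0) (nat_lit 0) (nat_lit 1) (nat_lit 0) (nat_lit 1) (nat_lit 0) (nat_lit 477) (nat_lit 319) (nat_lit 284)) (XT.lf (nat_lit 0) (nat_lit 9438549439010)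 (nat_lit 0) (nat_lit 0) (nat_lit 0) (nat_lit 0) (nat_lit 0) (nat_lit 0) (nat_lit 1) (nat_lit 0) (nat_lit 1) (nat_lit 0) (nat_lit 478) (nat_lit 319) (nat_lit 283)))) (XT.nd (nat_lit 188) (nat_lit 0) (nat_lit 0) (XT.nd (nat_lit 94) (nat_lit 0) (nat_lit 0) (XT.lf (nat_lit 0) (nat_lit 10193629291424) (nat_lit 0) (nat_lit 0) (nat_lit 0) (nat_lit 0) (nat_lit 0) (nat_lit 0) (nat_lit 1) (nat_lit 0) (nat_lit 1) (nat_lit 0) (nat_lit 479) (nat_lit 319) (nat_lit 282)) (XT.lf (nat_lit 0) (nat_lit 11009115564740) (nat_lit 0) (nat_lit 0) (nat_lit 0) (nat_lit 0) (nat_lit 0) (nat_lit 0) (nat_lit 1) (nat_lit 0) (nat_lit 1) (nat_lit 0) (nat_lit 480) (nat_lit 319) (nat_lit 281))) (XT.nd (nat_lit 94) (nat_lit 0) (nat_lit 0) (XT.lf (nat_lit 0) (nat_lit 11889840770207) (nat_lit 0) (nat_lit 0) (nat_lit 0) (nat_lit 0) (nat_lit 0) (nat_lit 0) (nat_lit 1) (nat_lit 0) (nat_lit 1) (nat_lit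 0) (nat_lit 481) (nat_lit 319) (nat_lit 280)) (XT.lf (nat_lit 0) (nat_lit 12841024020155) (nat_lit 0) (nat_lit 0) (nat_lit 0) (nat_lit 0) (nat_lit 0) (nat_lit 0) (nat_lit 1) (nat_lit 0) (nat_lit 1) (nat_lit 0) (nat_lit 482) (nat_lit 319) (nat_lit 279)))))) (XT.nd (nat_lit 658) (nat_lit 0) (nat_lit 0) (XT.nd (nat_lit 282) (nat_lit 0) (nat_lit 0) (XT.nd (nat_lit 94) (nat_lit 0) (nat_lit 0) (XT.lf (nat_lit 0) (nat_lit 13868301956063) (nat_lit 0) (nat_lit 0) (nat_lit 0) (nat_lit 0) (nat_lit 0) (nat_lit 0) (nat_lit 1) (nat_lit 0) (nat_lit 1) (nat_lit 0) (nat_lit 483) (nat_lit 319) (nat_lit 278)) (XT.nd (nat_lit 94) (nat_lit 0) (nat_lit 0) (XT.lf (nat_lit 0) (nat_lit 14977762150887) (nat_lit 0) (nat_lit 0) (nat_lit 0) (nat_lit 0) (nat_lit 0) (nat_lit 0) (nat_lit 1) (nat_lit 0) (nat_lit 1) (nat_lit 0) (nat_lit 484) (nat_lit 319) (nat_lit 277)) (XT.lf (nat_lit 0)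 (nat_lit 16175979183557) (nat_lit 0) (nat_lit 0) (nat_lit 0) (nat_lit 0) (nat_lit 0) (nat_lit 0) (nat_lit 1) (nat_lit 0) (nat_lit 1) (nat_lit 0) (nat_lit 485) (nat_lit 319) (nat_lit 276)))) (XT.nd (nat_lit 188) (nat_lit 0) (nat_lit 0) (XT.nd (nat_lit 94) (nat_lit 0) (nat_lit 0) (XT.lf (nat_lit 0) (nat_lit 17470053599453) (nat_lit 0) (nat_lit 0) (nat_lit 0) (nat_lit 0) (nat_lit 0) (nat_lit 0) (nat_lit 1) (nat_lit 0) (nat_lit 1) (nat_lit 0) (nat_lit 486) (nat_lit 319) (nat_lit 275)) (XT.lf (nat_lit 0) (nat_lit 18867653987706) (nat_lit 0) (nat_lit 0) (nat_lit 0) (nat_lit 0) (nat_lit 0) (nat_lit 0) (nat_lit 1) (nat_lit 0) (nat_lit 1) (nat_lit 0) (nat_lit 487) (nat_lit 319) (nat_lit 274))) (XT.nd (nat_lit 94) (nat_lit 0) (nat_lit 0) (XT.lf (nat_lit 0) (nat_lit 20377062424692) (nat_lit 0) (nat_lit 0) (nat_lit 0) (nat_lit 0) (nat_lit 0) (nat_lit 0) (nat_lit 1) (nat_lit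 0) (nat_lit 1) (nat_lit 0) (nat_lit 488) (nat_lit 319) (nat_lit 273)) (XT.lf (nat_lit 0) (nat_lit 22007223552998) (nat_lit 0) (nat_lit 0) (nat_lit 0) (nat_lit 0) (nat_lit 0) (nat_lit 0) (nat_lit 1) (nat_lit 0) (nat_lit 1) (nat_lit 0) (nat_lit 489) (nat_lit 319) (nat_lit 272))))) (XT.nd (nat_lit 376) (nat_lit 0) (nat_lit 0) (XT.nd (nat_lit 188) (nat_lit 0) (nat_lit 0) (XT.nd (nat_lit 94) (nat_lit 0) (nat_lit 0) (XT.lf (nat_lit 0) (nat_lit 23767797586720) (nat_lit 0) (nat_lit 0) (nat_lit 0) (nat_lit 0) (nat_lit 0) (nat_lit 0) (nat_lit 1) (nat_lit 0) (nat_lit 1) (nat_lit 0) (nat_lit 490) (nat_lit 319) (nat_lit 271)) (XT.lf (nat_lit 0) (nat_lit 25669217557167) (nat_lit 0) (nat_lit 0) (nat_lit 0) (nat_lit 0) (nat_lit 0) (nat_lit 0) (nat_lit 1) (nat_lit 0) (nat_lit 1) (nat_lit 0) (nat_lit 491) (nat_lit 319) (nat_lit 270))) (XT.nd (nat_lit 94) (nat_lit 0) (nat_lit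 0) (XT.lf (nat_lit 0) (nat_lit 27722751138240) (nat_lit 0) (nat_lit 0) (nat_lit 0) (nat_lit 0) (nat_lit 0) (nat_lit 0) (nat_lit 1) (nat_lit 0) (nat_lit 1) (nat_lit 0) (nat_lit 492) (nat_lit 319) (nat_lit 269)) (XT.lf (nat_lit 0) (nat_lit 29940567417825) (nat_lit 0) (nat_lit 0) (nat_lit 0) (nat_lit 0) (nat_lit 0) (nat_lit 0) (nat_lit 1) (nat_lit 0) (nat_lit 1) (nat_lit 0) (nat_lit 493) (nat_lit 319) (nat_lit 268)))) (XT.nd (nat_lit 188) (nat_lit 0) (nat_lit 0) (XT.nd (nat_lit 94) (nat_lit 0) (nat_lit 0) (XT.lf (nat_lit 0) (nat_lit 32335809010914) (nat_lit 0) (nat_lit 0) (nat_lit 0) (nat_lit 0) (nat_lit 0) (nat_lit 0) (nat_lit 1) (nat_lit 0) (nat_lit 1) (nat_lit 0) (nat_lit 494) (nat_lit 319) (nat_lit 267)) (XT.lf (nat_lit 0) (nat_lit 34922669941760) (nat_lit 0) (nat_lit 0) (nat_lit 0) (nat_lit 0) (nat_lit 0) (nat_lit 0) (nat_lit 1) (nat_lit 0) (nat_lit 1) (nat_lit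 0) (nat_lit 495) (nat_lit 319) (nat_lit 266))) (XT.nd (nat_lit 94) (nat_lit 0) (nat_lit 0) (XT.lf (nat_lit 0) (nat_lit 37716479756622) (nat_lit 0) (nat_lit 0) (nat_lit 0) (nat_lit 0) (nat_lit 0) (nat_lit 0) (nat_lit 1) (nat_lit 0) (nat_lit 1) (nat_lit 0) (nat_lit 496) (nat_lit 319) (nat_lit 265)) (XT.lf (nat_lit 0) (nat_lit 40733794365513) (nat_lit 0) (nat_lit 0) (nat_lit 0) (nat_lit 0) (nat_lit 0) (nat_lit 0) (nat_lit 1) (nat_lit 0) (nat_lit 1) (nat_lit 0) (nat_lit 497) (nat_lit 319) (nat_lit 264))))))))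
noncomputable def xc18 : XT := (XT.nd (nat_lit 64484) (nat_lit 0) (nat_lit 0) (XT.nd (nat_lit 63168) (nat_lit 0) (nat_lit 0) (XT.nd (nat_lit 62510) (nat_lit 0) (nat_lit 0) (XT.nd (nat_lit 282) (nat_lit 0) (nat_lit 0) (XT.nd (nat_lit 94) (nat_lit 0) (nat_lit 0) (XT.lf (nat_lit 0) (nat_lit 43992494151301) (nat_lit 0) (nat_lit 0) (nat_lit 0) (nat_lit 0) (nat_lit 0) (nat_lit 0) (nat_lit 1) (nat_lit 0) (nat_lit 1) (nat_lit 0) (nat_lit 498) (nat_lit 319) (nat_lit 263)) (XT.nd (nat_lit 94) (nat_lit 0) (nat_lit 0) (XT.lf (nat_lit 0) (nat_lit 47511889927531) (nat_lit 0) (nat_lit 0) (nat_lit 0) (nat_lit 0) (nat_lit 0) (nat_lit 0) (nat_lit 1) (nat_lit 0) (nat_lit 1) (nat_lit 0) (nat_lit 499) (nat_lit 319) (nat_lit 262)) (XT.lf (nat_lit 0) (nat_lit 51312837372877) (nat_lit 0) (nat_lit 0) (nat_lit 0) (nat_lit 0) (nat_lit 0) (nat_lit 0) (nat_lit 1) (nat_lit 0) (nat_lit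 1) (nat_lit 0) (nat_lit 500) (nat_lit 319) (nat_lit 261)))) (XT.nd (nat_lit 62040) (nat_lit 0) (nat_lit 0) (XT.nd (nat_lit 94) (nat_lit 0) (nat_lit 0) (XT.lf (nat_lit 0) (nat_lit 55417860620348) (nat_lit 0) (nat_lit 0) (nat_lit 0) (nat_lit 0) (nat_lit 0) (nat_lit 0) (nat_lit 1) (nat_lit 0) (nat_lit 1) (nat_lit 0) (nat_lit 501) (nat_lit 319) (nat_lit 260)) (XT.lf (nat_lit 0) (nat_lit 59851285733633) (nat_lit 0) (nat_lit 0) (nat_lit 0) (nat_lit 0) (nat_lit 0) (nat_lit 0) (nat_lit 1) (nat_lit 0) (nat_lit 1) (nat_lit 0) (nat_lit 502) (nat_lit 319) (nat_lit 259))) (XT.nd (nat_lit 94) (nat_lit 0) (nat_lit 0) (XT.lf (nat_lit 0) (nat_lit 253428247630) (nat_lit 0) (nat_lit 0) (nat_lit 0) (nat_lit 0) (nat_lit 0) (nat_lit 0) (nat_lit 1) (nat_lit 0) (nat_lit 1) (nat_lit 0) (nat_lit 440) (nat_lit 320) (nat_lit 320)) (XT.lf (nat_lit 0) (nat_lit 547393445691) (nat_lit 0)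 (nat_lit 0) (nat_lit 0) (nat_lit 0) (nat_lit 0) (nat_lit 0) (nat_lit 1) (nat_lit 0) (nat_lit 1) (nat_lit 0) (nat_lit 441) (nat_lit 320) (nat_lit 319))))) (XT.nd (nat_lit 282) (nat_lit 0) (nat_lit 0) (XT.nd (nat_lit 94) (nat_lit 0) (nat_lit 0) (XT.lf (nat_lit 0) (nat_lit 591173916242) (nat_lit 0) (nat_lit 0) (nat_lit 0) (nat_lit 0) (nat_lit 0) (nat_lit 0) (nat_lit 1) (nat_lit 0) (nat_lit 1) (nat_lit 0) (nat_lit 442) (nat_lit 320) (nat_lit 318)) (XT.nd (nat_lit 94) (nat_lit 0) (nat_lit 0) (XT.lf (nat_lit 0) (nat_lit 638457346739) (nat_lit 0) (nat_lit 0) (nat_lit 0) (nat_lit 0) (nat_lit 0) (nat_lit 0) (nat_lit 1) (nat_lit 0) (nat_lit 1) (nat_lit 0) (nat_lit 443) (nat_lit 320) (nat_lit 317)) (XT.lf (nat_lit 0) (nat_lit 689523935289) (nat_lit 0) (nat_lit 0) (nat_lit 0) (nat_lit 0) (nat_lit 0) (nat_lit 0) (nat_lit 1) (nat_lit 0) (nat_lit 1) (nat_lit 0) (nat_lit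 444) (nat_lit 320) (nat_lit 316)))) (XT.nd (nat_lit 188) (nat_lit 0) (nat_lit 0) (XT.nd (nat_lit 94) (nat_lit 0) (nat_lit 0) (XT.lf (nat_lit 0) (nat_lit 744676298713) (nat_lit 0) (nat_lit 0) (nat_lit 0) (nat_lit 0) (nat_lit 0) (nat_lit 0) (nat_lit 1) (nat_lit 0) (nat_lit 1) (nat_lit 0) (nat_lit 445) (nat_lit 320) (nat_lit 315)) (XT.lf (nat_lit 0) (nat_lit 804241265831) (nat_lit 0) (nat_lit 0) (nat_lit 0) (nat_lit 0) (nat_lit 0) (nat_lit 0) (nat_lit 1) (nat_lit 0) (nat_lit 1) (nat_lit 0) (nat_lit 446) (nat_lit 320) (nat_lit 314))) (XT.nd (nat_lit 94) (nat_lit 0) (nat_lit 0) (XT.lf (nat_lit 0) (nat_lit 868571814226) (nat_lit 0) (nat_lit 0) (nat_lit 0) (nat_lit 0) (nat_lit 0) (nat_lit 0) (nat_lit 1) (nat_lit 0) (nat_lit 1) (nat_lit 0) (nat_lit 447) (nat_lit 320) (nat_lit 313)) (XT.lf (nat_lit 0) (nat_lit 938049161962) (nat_lit 0) (nat_lit 0) (nat_lit 0) (nat_lit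 0) (nat_lit 0) (nat_lit 0) (nat_lit 1) (nat_lit 0) (nat_lit 1) (nat_lit 0) (nat_lit 448) (nat_lit 320) (nat_lit 312)))))) (XT.nd (nat_lit 658) (nat_lit 0) (nat_lit 0) (XT.nd (nat_lit 282) (nat_lit 0) (nat_lit 0) (XT.nd (nat_lit 94) (nat_lit 0) (nat_lit 0) (XT.lf (nat_lit 0) (nat_lit 1013085026657) (nat_lit 0) (nat_lit 0) (nat_lit 0) (nat_lit 0) (nat_lit 0) (nat_lit 0) (nat_lit 1) (nat_lit 0) (nat_lit 1) (nat_lit 0) (nat_lit 449) (nat_lit 320) (nat_lit 311)) (XT.nd (nat_lit 94) (nat_lit 0) (nat_lit 0) (XT.lf (nat_lit 0) (nat_lit 1094124065284) (nat_lit 0) (nat_lit 0) (nat_lit 0) (nat_lit 0) (nat_lit 0) (nat_lit 0) (nat_lit 1) (nat_lit 0) (nat_lit 1) (nat_lit 0) (nat_lit 450) (nat_lit 320) (nat_lit 310)) (XT.lf (nat_lit 0) (nat_lit 1181646509186) (nat_lit 0) (nat_lit 0) (nat_lit 0) (nat_lit 0) (nat_lit 0) (nat_lit 0) (nat_lit 1) (nat_lit 0) (nat_lit 1) (nat_lit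 0) (nat_lit 451) (nat_lit 320) (nat_lit 309)))) (XT.nd (nat_lit 188) (nat_lit 0) (nat_lit 0) (XT.nd (nat_lit 94) (nat_lit 0) (nat_lit 0) (XT.lf (nat_lit 0) (nat_lit 1276171009881) (nat_lit 0) (nat_lit 0) (nat_lit 0) (nat_lit 0) (nat_lit 0) (nat_lit 0) (nat_lit 1) (nat_lit 0) (nat_lit 1) (nat_lit 0) (nat_lit 452) (nat_lit 320) (nat_lit 308)) (XT.lf (nat_lit 0) (nat_lit 1378257712558) (nat_lit 0) (nat_lit 0) (nat_lit 0) (nat_lit 0) (nat_lit 0) (nat_lit 0) (nat_lit 1) (nat_lit 0) (nat_lit 1) (nat_lit 0) (nat_lit 453) (nat_lit 320) (nat_lit 307))) (XT.nd (nat_lit 94) (nat_lit 0) (nat_lit 0) (XT.lf (nat_lit 0) (nat_lit 1488511575456) (nat_lit 0) (nat_lit 0) (nat_lit 0) (nat_lit 0) (nat_lit 0) (nat_lit 0) (nat_lit 1) (nat_lit 0) (nat_lit 1) (nat_lit 0) (nat_lit 454) (nat_lit 320) (nat_lit 306)) (XT.lf (nat_lit 0) (nat_lit 1607585954799) (nat_lit 0) (nat_lit 0) (nat_lit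 0) (nat_lit 0) (nat_lit 0) (nat_lit 0) (nat_lit 1) (nat_lit 0) (nat_lit 1) (nat_lit 0) (nat_lit 455) (nat_lit 320) (nat_lit 305))))) (XT.nd (nat_lit 282) (nat_lit 0) (nat_lit 0) (XT.nd (nat_lit 94) (nat_lit 0) (nat_lit 0) (XT.lf (nat_lit 0) (nat_lit 1736186476539) (nat_lit 0) (nat_lit 0) (nat_lit 0) (nat_lit 0) (nat_lit 0) (nat_lit 0) (nat_lit 1) (nat_lit 0) (nat_lit 1) (nat_lit 0) (nat_lit 456) (nat_lit 320) (nat_lit 304)) (XT.nd (nat_lit 94) (nat_lit 0) (nat_lit 0) (XT.lf (nat_lit 0) (nat_lit 1875075217842) (nat_lit 0) (nat_lit 0) (nat_lit 0) (nat_lit 0) (nat_lit 0) (nat_lit 0) (nat_lit 1) (nat_lit 0) (nat_lit 1) (nat_lit 0) (nat_lit 457) (nat_lit 320) (nat_lit 303)) (XT.lf (nat_lit 0) (nat_lit 2025075223100) (nat_lit 0) (nat_lit 0) (nat_lit 0) (nat_lit 0) (nat_lit 0) (nat_lit 0) (nat_lit 1) (nat_lit 0) (nat_lit 1) (nat_lit 0) (nat_lit 458) (nat_lit 320)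 (nat_lit 302)))) (XT.nd (nat_lit 188) (nat_lit 0) (nat_lit 0) (XT.nd (nat_lit 94) (nat_lit 0) (nat_lit 0) (XT.lf (nat_lit 0) (nat_lit 2187075381234) (nat_lit 0) (nat_lit 0) (nat_lit 0) (nat_lit 0) (nat_lit 0) (nat_lit 0) (nat_lit 1) (nat_lit 0) (nat_lit 1) (nat_lit 0) (nat_lit 459) (nat_lit 320) (nat_lit 301)) (XT.lf (nat_lit 0) (nat_lit 2362035693180) (nat_lit 0) (nat_lit 0) (nat_lit 0) (nat_lit 0) (nat_lit 0) (nat_lit 0) (nat_lit 1) (nat_lit 0) (nat_lit 1) (nat_lit 0) (nat_lit 460) (nat_lit 320) (nat_lit 300))) (XT.nd (nat_lit 94) (nat_lit 0) (nat_lit 0) (XT.lf (nat_lit 0) (nat_lit 2550992960788) (nat_lit 0) (nat_lit 0) (nat_lit 0) (nat_lit 0) (nat_lit 0) (nat_lit 0) (nat_lit 1) (nat_lit 0) (nat_lit 1) (nat_lit 0) (nat_lit 461) (nat_lit 320) (nat_lit 299)) (XT.lf (nat_lit 0) (nat_lit 2755066930828) (nat_lit 0) (nat_lit 0) (nat_lit 0) (nat_lit 0) (nat_lit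 0) (nat_lit 0) (nat_lit 1) (nat_lit 0) (nat_lit 1) (nat_lit 0) (nat_lit 462) (nat_lit 320) (nat_lit 298))))))) (XT.nd (nat_lit 1316) (nat_lit 0) (nat_lit 0) (XT.nd (nat_lit 658) (nat_lit 0) (nat_lit 0) (XT.nd (nat_lit 282) (nat_lit 0) (nat_lit 0) (XT.nd (nat_lit 94) (nat_lit 0) (nat_lit 0) (XT.lf (nat_lit 0) (nat_lit 2975466930530) (nat_lit 0) (nat_lit 0) (nat_lit 0) (nat_lit 0) (nat_lit 0) (nat_lit 0) (nat_lit 1) (nat_lit 0) (nat_lit 1) (nat_lit 0) (nat_lit 463) (nat_lit 320) (nat_lit 297)) (XT.nd (nat_lit 94) (nat_lit 0) (nat_lit 0) (XT.lf (nat_lit 0) (nat_lit 3213499033967) (nat_lit 0) (nat_lit 0) (nat_lit 0) (nat_lit 0) (nat_lit 0) (nat_lit 0) (nat_lit 1) (nat_lit 0) (nat_lit 1) (nat_lit 0) (nat_lit 464) (nat_lit 320) (nat_lit 296)) (XT.lf (nat_lit 0) (nat_lit 3470573801751) (nat_lit 0) (nat_lit 0) (nat_lit 0) (nat_lit 0) (nat_lit 0) (nat_lit 0) (nat_lit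 1) (nat_lit 0) (nat_lit 1) (nat_lit 0) (nat_lit 465) (nat_lit 320) (nat_lit 295)))) (XT.nd (nat_lit 188) (nat_lit 0) (nat_lit 0) (XT.nd (nat_lit 94) (nat_lit 0) (nat_lit 0) (XT.lf (nat_lit 0) (nat_lit 3748214639914) (nat_lit 0) (nat_lit 0) (nat_lit 0) (nat_lit 0) (nat_lit 0) (nat_lit 0) (nat_lit 1) (nat_lit 0) (nat_lit 1) (nat_lit 0) (nat_lit 466) (nat_lit 320) (nat_lit 294)) (XT.lf (nat_lit 0) (nat_lit 4048066827497) (nat_lit 0) (nat_lit 0) (nat_lit 0) (nat_lit 0) (nat_lit 0) (nat_lit 0) (nat_lit 1) (nat_lit 0) (nat_lit 1) (nat_lit 0) (nat_lit 467) (nat_lit 320) (nat_lit 293))) (XT.nd (nat_lit 94) (nat_lit 0) (nat_lit 0) (XT.lf (nat_lit 0) (nat_lit 4371907266352) (nat_lit 0) (nat_lit 0) (nat_lit 0) (nat_lit 0) (nat_lit 0) (nat_lit 0) (nat_lit 1) (nat_lit 0) (nat_lit 1) (nat_lit 0) (nat_lit 468) (nat_lit 320) (nat_lit 292)) (XT.lf (nat_lit 0) (nat_lit 4721655010931)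 (nat_lit 0) (nat_lit 0) (nat_lit 0) (nat_lit 0) (nat_lit 0) (nat_lit 0) (nat_lit 1) (nat_lit 0) (nat_lit 1) (nat_lit 0) (nat_lit 469) (nat_lit 320) (nat_lit 291))))) (XT.nd (nat_lit 282) (nat_lit 0) (nat_lit 0) (XT.nd (nat_lit 94) (nat_lit 0) (nat_lit 0) (XT.lf (nat_lit 0) (nat_lit 5099382640462) (nat_lit 0) (nat_lit 0) (nat_lit 0) (nat_lit 0) (nat_lit 0) (nat_lit 0) (nat_lit 1) (nat_lit 0) (nat_lit 1) (nat_lit 0) (nat_lit 470) (nat_lit 320) (nat_lit 290)) (XT.nd (nat_lit 94) (nat_lit 0) (nat_lit 0) (XT.lf (nat_lit 0) (nat_lit 5507328540897) (nat_lit 0) (nat_lit 0) (nat_lit 0) (nat_lit 0) (nat_lit 0) (nat_lit 0) (nat_lit 1) (nat_lit 0) (nat_lit 1) (nat_lit 0) (nat_lit 471) (nat_lit 320) (nat_lit 289)) (XT.lf (nat_lit 0) (nat_lit 5947910169424) (nat_lit 0) (nat_lit 0) (nat_lit 0) (nat_lit 0) (nat_lit 0) (nat_lit 0) (nat_lit 1) (nat_lit 0) (nat_lit 1) (nat_lit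 0) (nat_lit 472) (nat_lit 320) (nat_lit 288)))) (XT.nd (nat_lit 188) (nat_lit 0) (nat_lit 0) (XT.nd (nat_lit 94) (nat_lit 0) (nat_lit 0) (XT.lf (nat_lit 0) (nat_lit 6423738380139) (nat_lit 0) (nat_lit 0) (nat_lit 0) (nat_lit 0) (nat_lit 0) (nat_lit 0) (nat_lit 1) (nat_lit 0) (nat_lit 1) (nat_lit 0) (nat_lit 473) (nat_lit 320) (nat_lit 287)) (XT.lf (nat_lit 0) (nat_lit 6937632895771) (nat_lit 0) (nat_lit 0) (nat_lit 0) (nat_lit 0) (nat_lit 0) (nat_lit 0) (nat_lit 1) (nat_lit 0) (nat_lit 1) (nat_lit 0) (nat_lit 474) (nat_lit 320) (nat_lit 286))) (XT.nd (nat_lit 94) (nat_lit 0) (nat_lit 0) (XT.lf (nat_lit 0) (nat_lit 7492639017154) (nat_lit 0) (nat_lit 0) (nat_lit 0) (nat_lit 0) (nat_lit 0) (nat_lit 0) (nat_lit 1) (nat_lit 0) (nat_lit 1) (nat_lit 0) (nat_lit 475) (nat_lit 320) (nat_lit 285)) (XT.lf (nat_lit 0) (nat_lit 8092045669451) (nat_lit 0) (nat_lit 0) (nat_lit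 0) (nat_lit 0) (nat_lit 0) (nat_lit 0) (nat_lit 1) (nat_lit 0) (nat_lit 1) (nat_lit 0) (nat_lit 476) (nat_lit 320) (nat_lit 284)))))) (XT.nd (nat_lit 658) (nat_lit 0) (nat_lit 0) (XT.nd (nat_lit 282) (nat_lit 0) (nat_lit 0) (XT.nd (nat_lit 94) (nat_lit 0) (nat_lit 0) (XT.lf (nat_lit 0) (nat_lit 8739404892084) (nat_lit 0) (nat_lit 0) (nat_lit 0) (nat_lit 0) (nat_lit 0) (nat_lit 0) (nat_lit 1) (nat_lit 0) (nat_lit 1) (nat_lit 0) (nat_lit 477) (nat_lit 320) (nat_lit 283)) (XT.nd (nat_lit 94) (nat_lit 0) (nat_lit 0) (XT.lf (nat_lit 0) (nat_lit 9438552887853) (nat_lit 0) (nat_lit 0) (nat_lit 0) (nat_lit 0) (nat_lit 0) (nat_lit 0) (nat_lit 1) (nat_lit 0) (nat_lit 1) (nat_lit 0) (nat_lit 478) (nat_lit 320) (nat_lit 282)) (XT.lf (nat_lit 0) (nat_lit 10193632755992) (nat_lit 0) (nat_lit 0) (nat_lit 0) (nat_lit 0) (nat_lit 0) (nat_lit 0) (nat_lit 1) (nat_lit 0) (nat_lit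 1) (nat_lit 0) (nat_lit 479) (nat_lit 320) (nat_lit 281)))) (XT.nd (nat_lit 188) (nat_lit 0) (nat_lit 0) (XT.nd (nat_lit 94) (nat_lit 0) (nat_lit 0) (XT.lf (nat_lit 0) (nat_lit 11009119043869) (nat_lit 0) (nat_lit 0) (nat_lit 0) (nat_lit 0) (nat_lit 0) (nat_lit 0) (nat_lit 1) (nat_lit 0) (nat_lit 1) (nat_lit 0) (nat_lit 480) (nat_lit 320) (nat_lit 280)) (XT.lf (nat_lit 0) (nat_lit 11889844262818) (nat_lit 0) (nat_lit 0) (nat_lit 0) (nat_lit 0) (nat_lit 0) (nat_lit 0) (nat_lit 1) (nat_lit 0) (nat_lit 1) (nat_lit 0) (nat_lit 481) (nat_lit 320) (nat_lit 279))) (XT.nd (nat_lit 94) (nat_lit 0) (nat_lit 0) (XT.lf (nat_lit 0) (nat_lit 12841027525249) (nat_lit 0) (nat_lit 0) (nat_lit 0) (nat_lit 0) (nat_lit 0) (nat_lit 0) (nat_lit 1) (nat_lit 0) (nat_lit 1) (nat_lit 0) (nat_lit 482) (nat_lit 320) (nat_lit 278)) (XT.lf (nat_lit 0) (nat_lit 13868305472716) (nat_lit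 0) (nat_lit 0) (nat_lit 0) (nat_lit 0) (nat_lit 0) (nat_lit 0) (nat_lit 1) (nat_lit 0) (nat_lit 1) (nat_lit 0) (nat_lit 483) (nat_lit 320) (nat_lit 277))))) (XT.nd (nat_lit 376) (nat_lit 0) (nat_lit 0) (XT.nd (nat_lit 188) (nat_lit 0) (nat_lit 0) (XT.nd (nat_lit 94) (nat_lit 0) (nat_lit 0) (XT.lf (nat_lit 0) (nat_lit 14977765678242) (nat_lit 0) (nat_lit 0) (nat_lit 0) (nat_lit 0) (nat_lit 0) (nat_lit 0) (nat_lit 1) (nat_lit 0) (nat_lit 1) (nat_lit 0) (nat_lit 484) (nat_lit 320) (nat_lit 276)) (XT.lf (nat_lit 0) (nat_lit 16175982720822) (nat_lit 0) (nat_lit 0) (nat_lit 0) (nat_lit 0) (nat_lit 0) (nat_lit 0) (nat_lit 1) (nat_lit 0) (nat_lit 1) (nat_lit 0) (nat_lit 485) (nat_lit 320) (nat_lit 275))) (XT.nd (nat_lit 94) (nat_lit 0) (nat_lit 0) (XT.lf (nat_lit 0) (nat_lit 17470057145894) (nat_lit 0) (nat_lit 0) (nat_lit 0) (nat_lit 0) (nat_lit 0) (nat_lit 0) (nat_lit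 1) (nat_lit 0) (nat_lit 1) (nat_lit 0) (nat_lit 486) (nat_lit 320) (nat_lit 274)) (XT.lf (nat_lit 0) (nat_lit 18867657542643) (nat_lit 0) (nat_lit 0) (nat_lit 0) (nat_lit 0) (nat_lit 0) (nat_lit 0) (nat_lit 1) (nat_lit 0) (nat_lit 1) (nat_lit 0) (nat_lit 487) (nat_lit 320) (nat_lit 273)))) (XT.nd (nat_lit 188) (nat_lit 0) (nat_lit 0) (XT.nd (nat_lit 94) (nat_lit 0) (nat_lit 0) (XT.lf (nat_lit 0) (nat_lit 20377065987495) (nat_lit 0) (nat_lit 0) (nat_lit 0) (nat_lit 0) (nat_lit 0) (nat_lit 0) (nat_lit 1) (nat_lit 0) (nat_lit 1) (nat_lit 0) (nat_lit 488) (nat_lit 320) (nat_lit 272)) (XT.lf (nat_lit 0) (nat_lit 22007227123085) (nat_lit 0) (nat_lit 0) (nat_lit 0) (nat_lit 0) (nat_lit 0) (nat_lit 0) (nat_lit 1) (nat_lit 0) (nat_lit 1) (nat_lit 0) (nat_lit 489) (nat_lit 320) (nat_lit 271))) (XT.nd (nat_lit 94) (nat_lit 0) (nat_lit 0) (XT.lf (nat_lit 0) (nat_lit 23767801163551)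 (nat_lit 0) (nat_lit 0) (nat_lit 0) (nat_lit 0) (nat_lit 0) (nat_lit 0) (nat_lit 1) (nat_lit 0) (nat_lit 1) (nat_lit 0) (nat_lit 490) (nat_lit 320) (nat_lit 270)) (XT.lf (nat_lit 0) (nat_lit 25669221140244) (nat_lit 0) (nat_lit 0) (nat_lit 0) (nat_lit 0) (nat_lit 0) (nat_lit 0) (nat_lit 1) (nat_lit 0) (nat_lit 1) (nat_lit 0) (nat_lit 491) (nat_lit 320) (nat_lit 269))))))))
noncomputable def xc19 : XT := (XT.nd (nat_lit 64296) (nat_lit 0) (nat_lit 0) (XT.nd (nat_lit 62980) (nat_lit 0) (nat_lit 0) (XT.nd (nat_lit 658) (nat_lit 0) (nat_lit 0) (XT.nd (nat_lit 282) (nat_lit 0) (nat_lit 0) (XT.nd (nat_lit 94) (nat_lit 0) (nat_lit 0) (XT.lf (nat_lit 0) (nat_lit 27722754727098) (nat_lit 0) (nat_lit 0) (nat_lit 0) (nat_lit 0) (nat_lit 0) (nat_lit 0) (nat_lit 1) (nat_lit 0) (nat_lit 1) (nat_lit 0) (nat_lit 492) (nat_lit 320) (nat_lit 268)) (XT.nd (nat_lit 94) (nat_lit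 0) (nat_lit 0) (XT.lf (nat_lit 0) (nat_lit 29940571012038) (nat_lit 0) (nat_lit 0) (nat_lit 0) (nat_lit 0) (nat_lit 0) (nat_lit 0) (nat_lit 1) (nat_lit 0) (nat_lit 1) (nat_lit 0) (nat_lit 493) (nat_lit 320) (nat_lit 267)) (XT.lf (nat_lit 0) (nat_lit 32335812610083) (nat_lit 0) (nat_lit 0) (nat_lit 0) (nat_lit 0) (nat_lit 0) (nat_lit 0) (nat_lit 1) (nat_lit 0) (nat_lit 1) (nat_lit 0) (nat_lit 494) (nat_lit 320) (nat_lit 266)))) (XT.nd (nat_lit 188) (nat_lit 0) (nat_lit 0) (XT.nd (nat_lit 94) (nat_lit 0) (nat_lit 0) (XT.lf (nat_lit 0) (nat_lit 34922673545520) (nat_lit 0) (nat_lit 0) (nat_lit 0) (nat_lit 0) (nat_lit 0) (nat_lit 0) (nat_lit 1) (nat_lit 0) (nat_lit 1) (nat_lit 0) (nat_lit 495) (nat_lit 320) (nat_lit 265)) (XT.lf (nat_lit 0) (nat_lit 37716483364632) (nat_lit 0) (nat_lit 0) (nat_lit 0) (nat_lit 0) (nat_lit 0) (nat_lit 0) (nat_lit 1) (nat_lit 0) (nat_lit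 1) (nat_lit 0) (nat_lit 496) (nat_lit 320) (nat_lit 264))) (XT.nd (nat_lit 94) (nat_lit 0) (nat_lit 0) (XT.lf (nat_lit 0) (nat_lit 40733797977458) (nat_lit 0) (nat_lit 0) (nat_lit 0) (nat_lit 0) (nat_lit 0) (nat_lit 0) (nat_lit 1) (nat_lit 0) (nat_lit 1) (nat_lit 0) (nat_lit 497) (nat_lit 320) (nat_lit 263)) (XT.lf (nat_lit 0) (nat_lit 43992497766890) (nat_lit 0) (nat_lit 0) (nat_lit 0) (nat_lit 0) (nat_lit 0) (nat_lit 0) (nat_lit 1) (nat_lit 0) (nat_lit 1) (nat_lit 0) (nat_lit 498) (nat_lit 320) (nat_lit 262))))) (XT.nd (nat_lit 282) (nat_lit 0) (nat_lit 0) (XT.nd (nat_lit 94) (nat_lit 0) (nat_lit 0) (XT.lf (nat_lit 0) (nat_lit 47511893546494) (nat_lit 0) (nat_lit 0) (nat_lit 0) (nat_lit 0) (nat_lit 0) (nat_lit 0) (nat_lit 1) (nat_lit 0) (nat_lit 1) (nat_lit 0) (nat_lit 499) (nat_lit 320) (nat_lit 261)) (XT.nd (nat_lit 94) (nat_lit 0) (nat_lit 0) (XT.lf (nat_lit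 0) (nat_lit 51312840994963) (nat_lit 0) (nat_lit 0) (nat_lit 0) (nat_lit 0) (nat_lit 0) (nat_lit 0) (nat_lit 1) (nat_lit 0) (nat_lit 1) (nat_lit 0) (nat_lit 500) (nat_lit 320) (nat_lit 260)) (XT.lf (nat_lit 0) (nat_lit 55417864245327) (nat_lit 0) (nat_lit 0) (nat_lit 0) (nat_lit 0) (nat_lit 0) (nat_lit 0) (nat_lit 1) (nat_lit 0) (nat_lit 1) (nat_lit 0) (nat_lit 501) (nat_lit 320) (nat_lit 259)))) (XT.nd (nat_lit 61852) (nat_lit 0) (nat_lit 0) (XT.nd (nat_lit 61758) (nat_lit 0) (nat_lit 0) (XT.lf (nat_lit 0) (nat_lit 59851289361291) (nat_lit 0) (nat_lit 0) (nat_lit 0) (nat_lit 0) (nat_lit 0) (nat_lit 0) (nat_lit 1) (nat_lit 0) (nat_lit 1) (nat_lit 0) (nat_lit 502) (nat_lit 320) (nat_lit 258)) (XT.lf (nat_lit 0) (nat_lit 217284879958) (nat_lit 0) (nat_lit 0) (nat_lit 0) (nat_lit 0) (nat_lit 0) (nat_lit 0) (nat_lit 1) (nat_lit 0) (nat_lit 1) (nat_lit 0) (nat_lit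 438) (nat_lit 321) (nat_lit 321))) (XT.nd (nat_lit 94) (nat_lit 0) (nat_lit 0) (XT.lf (nat_lit 0) (nat_lit 469322845985) (nat_lit 0) (nat_lit 0) (nat_lit 0) (nat_lit 0) (nat_lit 0) (nat_lit 0) (nat_lit 1) (nat_lit 0) (nat_lit 1) (nat_lit 0) (nat_lit 439) (nat_lit 321) (nat_lit 320)) (XT.lf (nat_lit 0) (nat_lit 506856788151) (nat_lit 0) (nat_lit 0) (nat_lit 0) (nat_lit 0) (nat_lit 0) (nat_lit 0) (nat_lit 1) (nat_lit 0) (nat_lit 1) (nat_lit 0) (nat_lit 440) (nat_lit 321) (nat_lit 319)))))) (XT.nd (nat_lit 658) (nat_lit 0) (nat_lit 0) (XT.nd (nat_lit 282) (nat_lit 0) (nat_lit 0) (XT.nd (nat_lit 94) (nat_lit 0) (nat_lit 0) (XT.lf (nat_lit 0) (nat_lit 547394009777) (nat_lit 0) (nat_lit 0) (nat_lit 0) (nat_lit 0) (nat_lit 0) (nat_lit 0) (nat_lit 1) (nat_lit 0) (nat_lit 1) (nat_lit 0) (nat_lit 441) (nat_lit 321) (nat_lit 318)) (XT.nd (nat_lit 94) (nat_lit 0) (nat_lit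 0) (XT.lf (nat_lit 0) (nat_lit 591174731435) (nat_lit 0) (nat_lit 0) (nat_lit 0) (nat_lit 0) (nat_lit 0) (nat_lit 0) (nat_lit 1) (nat_lit 0) (nat_lit 1) (nat_lit 0) (nat_lit 442) (nat_lit 321) (nat_lit 317)) (XT.lf (nat_lit 0) (nat_lit 638458394438) (nat_lit 0) (nat_lit 0) (nat_lit 0) (nat_lit 0) (nat_lit 0) (nat_lit 0) (nat_lit 1) (nat_lit 0) (nat_lit 1) (nat_lit 0) (nat_lit 443) (nat_lit 321) (nat_lit 316)))) (XT.nd (nat_lit 188) (nat_lit 0) (nat_lit 0) (XT.nd (nat_lit 94) (nat_lit 0) (nat_lit 0) (XT.lf (nat_lit 0) (nat_lit 689525198272) (nat_lit 0) (nat_lit 0) (nat_lit 0) (nat_lit 0) (nat_lit 0) (nat_lit 0) (nat_lit 1) (nat_lit 0) (nat_lit 1) (nat_lit 0) (nat_lit 444) (nat_lit 321) (nat_lit 315)) (XT.lf (nat_lit 0) (nat_lit 744677761032) (nat_lit 0) (nat_lit 0) (nat_lit 0) (nat_lit 0) (nat_lit 0) (nat_lit 0) (nat_lit 1) (nat_lit 0) (nat_lit 1) (nat_lit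 0) (nat_lit 445) (nat_lit 321) (nat_lit 314))) (XT.nd (nat_lit 94) (nat_lit 0) (nat_lit 0) (XT.lf (nat_lit 0) (nat_lit 804242912721) (nat_lit 0) (nat_lit 0) (nat_lit 0) (nat_lit 0) (nat_lit 0) (nat_lit 0) (nat_lit 1) (nat_lit 0) (nat_lit 1) (nat_lit 0) (nat_lit 446) (nat_lit 321) (nat_lit 313)) (XT.lf (nat_lit 0) (nat_lit 868573632015) (nat_lit 0) (nat_lit 0) (nat_lit 0) (nat_lit 0) (nat_lit 0) (nat_lit 0) (nat_lit 1) (nat_lit 0) (nat_lit 1) (nat_lit 0) (nat_lit 447) (nat_lit 321) (nat_lit 312))))) (XT.nd (nat_lit 282) (nat_lit 0) (nat_lit 0) (XT.nd (nat_lit 94) (nat_lit 0) (nat_lit 0) (XT.lf (nat_lit 0) (nat_lit 938051137991) (nat_lit 0) (nat_lit 0) (nat_lit 0) (nat_lit 0) (nat_lit 0) (nat_lit 0) (nat_lit 1) (nat_lit 0) (nat_lit 1) (nat_lit 0) (nat_lit 448) (nat_lit 321) (nat_lit 311)) (XT.nd (nat_lit 94) (nat_lit 0) (nat_lit 0) (XT.lf (nat_lit 0) (nat_lit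 1013087149204) (nat_lit 0) (nat_lit 0) (nat_lit 0) (nat_lit 0) (nat_lit 0) (nat_lit 0) (nat_lit 1) (nat_lit 0) (nat_lit 1) (nat_lit 0) (nat_lit 449) (nat_lit 321) (nat_lit 310)) (XT.lf (nat_lit 0) (nat_lit 1094126323497) (nat_lit 0) (nat_lit 0) (nat_lit 0) (nat_lit 0) (nat_lit 0) (nat_lit 0) (nat_lit 1) (nat_lit 0) (nat_lit 1) (nat_lit 0) (nat_lit 450) (nat_lit 321) (nat_lit 309)))) (XT.nd (nat_lit 188) (nat_lit 0) (nat_lit 0) (XT.nd (nat_lit 94) (nat_lit 0) (nat_lit 0) (XT.lf (nat_lit 0) (nat_lit 1181648893015) (nat_lit 0) (nat_lit 0) (nat_lit 0) (nat_lit 0) (nat_lit 0) (nat_lit 0) (nat_lit 1) (nat_lit 0) (nat_lit 1) (nat_lit 0) (nat_lit 451) (nat_lit 321) (nat_lit 308)) (XT.lf (nat_lit 0) (nat_lit 1276173510021) (nat_lit 0) (nat_lit 0) (nat_lit 0) (nat_lit 0) (nat_lit 0) (nat_lit 0) (nat_lit 1) (nat_lit 0) (nat_lit 1) (nat_lit 0) (nat_lit 452) (nat_lit 321)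 (nat_lit 307))) (XT.nd (nat_lit 94) (nat_lit 0) (nat_lit 0) (XT.lf (nat_lit 0) (nat_lit 1378260320393) (nat_lit 0) (nat_lit 0) (nat_lit 0) (nat_lit 0) (nat_lit 0) (nat_lit 0) (nat_lit 1) (nat_lit 0) (nat_lit 1) (nat_lit 0) (nat_lit 453) (nat_lit 321) (nat_lit 306)) (XT.lf (nat_lit 0) (nat_lit 1488514283009) (nat_lit 0) (nat_lit 0) (nat_lit 0) (nat_lit 0) (nat_lit 0) (nat_lit 0) (nat_lit 1) (nat_lit 0) (nat_lit 1) (nat_lit 0) (nat_lit 454) (nat_lit 321) (nat_lit 305))))))) (XT.nd (nat_lit 1316) (nat_lit 0) (nat_lit 0) (XT.nd (nat_lit 658) (nat_lit 0) (nat_lit 0) (XT.nd (nat_lit 282) (nat_lit 0) (nat_lit 0) (XT.nd (nat_lit 94) (nat_lit 0) (nat_lit 0) (XT.lf (nat_lit 0) (nat_lit 1607588754684) (nat_lit 0) (nat_lit 0) (nat_lit 0) (nat_lit 0) (nat_lit 0) (nat_lit 0) (nat_lit 1) (nat_lit 0) (nat_lit 1) (nat_lit 0) (nat_lit 455) (nat_lit 321) (nat_lit 304)) (XT.nd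 (nat_lit 94) (nat_lit 0) (nat_lit 0) (XT.lf (nat_lit 0) (nat_lit 1736189361916) (nat_lit 0) (nat_lit 0) (nat_lit 0) (nat_lit 0) (nat_lit 0) (nat_lit 0) (nat_lit 1) (nat_lit 0) (nat_lit 1) (nat_lit 0) (nat_lit 456) (nat_lit 321) (nat_lit 303)) (XT.lf (nat_lit 0) (nat_lit 1875078182378) (nat_lit 0) (nat_lit 0) (nat_lit 0) (nat_lit 0) (nat_lit 0) (nat_lit 0) (nat_lit 1) (nat_lit 0) (nat_lit 1) (nat_lit 0) (nat_lit 457) (nat_lit 321) (nat_lit 302)))) (XT.nd (nat_lit 188) (nat_lit 0) (nat_lit 0) (XT.nd (nat_lit 94) (nat_lit 0) (nat_lit 0) (XT.lf (nat_lit 0) (nat_lit 2025078260931) (nat_lit 0) (nat_lit 0) (nat_lit 0) (nat_lit 0) (nat_lit 0) (nat_lit 0) (nat_lit 1) (nat_lit 0) (nat_lit 1) (nat_lit 0) (nat_lit 458) (nat_lit 321) (nat_lit 301)) (XT.lf (nat_lit 0) (nat_lit 2187078486931) (nat_lit 0) (nat_lit 0) (nat_lit 0) (nat_lit 0) (nat_lit 0) (nat_lit 0) (nat_lit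 1) (nat_lit 0) (nat_lit 1) (nat_lit 0) (nat_lit 459) (nat_lit 321) (nat_lit 300))) (XT.nd (nat_lit 94) (nat_lit 0) (nat_lit 0) (XT.lf (nat_lit 0) (nat_lit 2362038861717) (nat_lit 0) (nat_lit 0) (nat_lit 0) (nat_lit 0) (nat_lit 0) (nat_lit 0) (nat_lit 1) (nat_lit 0) (nat_lit 1) (nat_lit 0) (nat_lit 460) (nat_lit 321) (nat_lit 299)) (XT.lf (nat_lit 0) (nat_lit 2550996187509) (nat_lit 0) (nat_lit 0) (nat_lit 0) (nat_lit 0) (nat_lit 0) (nat_lit 0) (nat_lit 1) (nat_lit 0) (nat_lit 1) (nat_lit 0) (nat_lit 461) (nat_lit 321) (nat_lit 298))))) (XT.nd (nat_lit 282) (nat_lit 0) (nat_lit 0) (XT.nd (nat_lit 94) (nat_lit 0) (nat_lit 0) (XT.lf (nat_lit 0) (nat_lit 2755070211424) (nat_lit 0) (nat_lit 0) (nat_lit 0) (nat_lit 0) (nat_lit 0) (nat_lit 0) (nat_lit 1) (nat_lit 0) (nat_lit 1) (nat_lit 0) (nat_lit 462) (nat_lit 321) (nat_lit 297)) (XT.nd (nat_lit 94) (nat_lit 0)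 (nat_lit 0) (XT.lf (nat_lit 0) (nat_lit 2975470261010) (nat_lit 0) (nat_lit 0) (nat_lit 0) (nat_lit 0) (nat_lit 0) (nat_lit 0) (nat_lit 1) (nat_lit 0) (nat_lit 1) (nat_lit 0) (nat_lit 463) (nat_lit 321) (nat_lit 296)) (XT.lf (nat_lit 0) (nat_lit 3213502410635) (nat_lit 0) (nat_lit 0) (nat_lit 0) (nat_lit 0) (nat_lit 0) (nat_lit 0) (nat_lit 1) (nat_lit 0) (nat_lit 1) (nat_lit 0) (nat_lit 464) (nat_lit 321) (nat_lit 295)))) (XT.nd (nat_lit 188) (nat_lit 0) (nat_lit 0) (XT.nd (nat_lit 94) (nat_lit 0) (nat_lit 0) (XT.lf (nat_lit 0) (nat_lit 3470577221187) (nat_lit 0) (nat_lit 0) (nat_lit 0) (nat_lit 0) (nat_lit 0) (nat_lit 0) (nat_lit 1) (nat_lit 0) (nat_lit 1) (nat_lit 0) (nat_lit 465) (nat_lit 321) (nat_lit 294)) (XT.lf (nat_lit 0) (nat_lit 3748218098949) (nat_lit 0) (nat_lit 0) (nat_lit 0) (nat_lit 0) (nat_lit 0) (nat_lit 0) (nat_lit 1) (nat_lit 0) (nat_lit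 1) (nat_lit 0) (nat_lit 466) (nat_lit 321) (nat_lit 293))) (XT.nd (nat_lit 94) (nat_lit 0) (nat_lit 0) (XT.lf (nat_lit 0) (nat_lit 4048070323198) (nat_lit 0) (nat_lit 0) (nat_lit 0) (nat_lit 0) (nat_lit 0) (nat_lit 0) (nat_lit 1) (nat_lit 0) (nat_lit 1) (nat_lit 0) (nat_lit 467) (nat_lit 321) (nat_lit 292)) (XT.lf (nat_lit 0) (nat_lit 4371910796003) (nat_lit 0) (nat_lit 0) (nat_lit 0) (nat_lit 0) (nat_lit 0) (nat_lit 0) (nat_lit 1) (nat_lit 0) (nat_lit 1) (nat_lit 0) (nat_lit 468) (nat_lit 321) (nat_lit 291)))))) (XT.nd (nat_lit 658) (nat_lit 0) (nat_lit 0) (XT.nd (nat_lit 282) (nat_lit 0) (nat_lit 0) (XT.nd (nat_lit 94) (nat_lit 0) (nat_lit 0) (XT.lf (nat_lit 0) (nat_lit 4721658572017) (nat_lit 0) (nat_lit 0) (nat_lit 0) (nat_lit 0) (nat_lit 0) (nat_lit 0) (nat_lit 1) (nat_lit 0) (nat_lit 1) (nat_lit 0) (nat_lit 469) (nat_lit 321) (nat_lit 290)) (XT.nd (nat_lit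 94) (nat_lit 0) (nat_lit 0) (XT.lf (nat_lit 0) (nat_lit 5099386230655) (nat_lit 0) (nat_lit 0) (nat_lit 0) (nat_lit 0) (nat_lit 0) (nat_lit 0) (nat_lit 1) (nat_lit 0) (nat_lit 1) (nat_lit 0) (nat_lit 470) (nat_lit 321) (nat_lit 289)) (XT.lf (nat_lit 0) (nat_lit 5507332158041) (nat_lit 0) (nat_lit 0) (nat_lit 0) (nat_lit 0) (nat_lit 0) (nat_lit 0) (nat_lit 1) (nat_lit 0) (nat_lit 1) (nat_lit 0) (nat_lit 471) (nat_lit 321) (nat_lit 288)))) (XT.nd (nat_lit 188) (nat_lit 0) (nat_lit 0) (XT.nd (nat_lit 94) (nat_lit 0) (nat_lit 0) (XT.lf (nat_lit 0) (nat_lit 5947913811522) (nat_lit 0) (nat_lit 0) (nat_lit 0) (nat_lit 0) (nat_lit 0) (nat_lit 0) (nat_lit 1) (nat_lit 0) (nat_lit 1) (nat_lit 0) (nat_lit 472) (nat_lit 321) (nat_lit 287)) (XT.lf (nat_lit 0) (nat_lit 6423742045343) (nat_lit 0) (nat_lit 0) (nat_lit 0) (nat_lit 0) (nat_lit 0) (nat_lit 0) (nat_lit 1) (nat_lit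 0) (nat_lit 1) (nat_lit 0) (nat_lit 473) (nat_lit 321) (nat_lit 286))) (XT.nd (nat_lit 94) (nat_lit 0) (nat_lit 0) (XT.lf (nat_lit 0) (nat_lit 6937636582369) (nat_lit 0) (nat_lit 0) (nat_lit 0) (nat_lit 0) (nat_lit 0) (nat_lit 0) (nat_lit 1) (nat_lit 0) (nat_lit 1) (nat_lit 0) (nat_lit 474) (nat_lit 321) (nat_lit 285)) (XT.lf (nat_lit 0) (nat_lit 7492642723562) (nat_lit 0) (nat_lit 0) (nat_lit 0) (nat_lit 0) (nat_lit 0) (nat_lit 0) (nat_lit 1) (nat_lit 0) (nat_lit 1) (nat_lit 0) (nat_lit 475) (nat_lit 321) (nat_lit 284))))) (XT.nd (nat_lit 376) (nat_lit 0) (nat_lit 0) (XT.nd (nat_lit 188) (nat_lit 0) (nat_lit 0) (XT.nd (nat_lit 94) (nat_lit 0) (nat_lit 0) (XT.lf (nat_lit 0) (nat_lit 8092049394201) (nat_lit 0) (nat_lit 0) (nat_lit 0) (nat_lit 0) (nat_lit 0) (nat_lit 0) (nat_lit 1) (nat_lit 0) (nat_lit 1) (nat_lit 0) (nat_lit 476) (nat_lit 321) (nat_lit 283))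 (XT.lf (nat_lit 0) (nat_lit 8739408633817) (nat_lit 0) (nat_lit 0) (nat_lit 0) (nat_lit 0) (nat_lit 0) (nat_lit 0) (nat_lit 1) (nat_lit 0) (nat_lit 1) (nat_lit 0) (nat_lit 477) (nat_lit 321) (nat_lit 282))) (XT.nd (nat_lit 94) (nat_lit 0) (nat_lit 0) (XT.lf (nat_lit 0) (nat_lit 9438556645312) (nat_lit 0) (nat_lit 0) (nat_lit 0) (nat_lit 0) (nat_lit 0) (nat_lit 0) (nat_lit 1) (nat_lit 0) (nat_lit 1) (nat_lit 0) (nat_lit 478) (nat_lit 321) (nat_lit 281)) (XT.lf (nat_lit 0) (nat_lit 10193636528012) (nat_lit 0) (nat_lit 0) (nat_lit 0) (nat_lit 0) (nat_lit 0) (nat_lit 0) (nat_lit 1) (nat_lit 0) (nat_lit 1) (nat_lit 0) (nat_lit 479) (nat_lit 321) (nat_lit 280)))) (XT.nd (nat_lit 188) (nat_lit 0) (nat_lit 0) (XT.nd (nat_lit 94) (nat_lit 0) (nat_lit 0) (XT.lf (nat_lit 0) (nat_lit 11009122829370) (nat_lit 0) (nat_lit 0) (nat_lit 0) (nat_lit 0) (nat_lit 0) (nat_lit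 0) (nat_lit 1) (nat_lit 0) (nat_lit 1) (nat_lit 0) (nat_lit 480) (nat_lit 321) (nat_lit 279)) (XT.lf (nat_lit 0) (nat_lit 11889848060803) (nat_lit 0) (nat_lit 0) (nat_lit 0) (nat_lit 0) (nat_lit 0) (nat_lit 0) (nat_lit 1) (nat_lit 0) (nat_lit 1) (nat_lit 0) (nat_lit 481) (nat_lit 321) (nat_lit 278))) (XT.nd (nat_lit 94) (nat_lit 0) (nat_lit 0) (XT.lf (nat_lit 0) (nat_lit 12841031334792) (nat_lit 0) (nat_lit 0) (nat_lit 0) (nat_lit 0) (nat_lit 0) (nat_lit 0) (nat_lit 1) (nat_lit 0) (nat_lit 1) (nat_lit 0) (nat_lit 482) (nat_lit 321) (nat_lit 277)) (XT.lf (nat_lit 0) (nat_lit 13868309292962) (nat_lit 0) (nat_lit 0) (nat_lit 0) (nat_lit 0) (nat_lit 0) (nat_lit 0) (nat_lit 1) (nat_lit 0) (nat_lit 1) (nat_lit 0) (nat_lit 483) (nat_lit 321) (nat_lit 276))))))))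
noncomputable def xc20 : XT := (XT.nd (nat_lit 64108) (nat_lit 0) (nat_lit 0) (XT.nd (nat_lit 1316) (nat_lit 0) (nat_lit 0) (XT.nd (nat_lit 658) (nat_lit 0) (nat_lit 0) (XT.nd (nat_lit 282) (nat_lit 0) (nat_lit 0) (XT.nd (nat_lit 94) (nat_lit 0) (nat_lit 0) (XT.lf (nat_lit 0) (nat_lit 14977769508398) (nat_lit 0) (nat_lit 0) (nat_lit 0) (nat_lit 0) (nat_lit 0) (nat_lit 0) (nat_lit 1) (nat_lit 0) (nat_lit 1) (nat_lit 0) (nat_lit 484) (nat_lit 321) (nat_lit 275)) (XT.nd (nat_lit 94) (nat_lit 0) (nat_lit 0) (XT.lf (nat_lit 0) (nat_lit 16175986560153) (nat_lit 0) (nat_lit 0) (nat_lit 0) (nat_lit 0) (nat_lit 0) (nat_lit 0) (nat_lit 1) (nat_lit 0) (nat_lit 1) (nat_lit 0) (nat_lit 485) (nat_lit 321) (nat_lit 274)) (XT.lf (nat_lit 0) (nat_lit 17470060993721) (nat_lit 0) (nat_lit 0) (nat_lit 0) (nat_lit 0) (nat_lit 0) (nat_lit 0) (nat_lit 1) (nat_lit 0) (nat_lit 1)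 (nat_lit 0) (nat_lit 486) (nat_lit 321) (nat_lit 273)))) (XT.nd (nat_lit 188) (nat_lit 0) (nat_lit 0) (XT.nd (nat_lit 94) (nat_lit 0) (nat_lit 0) (XT.lf (nat_lit 0) (nat_lit 18867661398337) (nat_lit 0) (nat_lit 0) (nat_lit 0) (nat_lit 0) (nat_lit 0) (nat_lit 0) (nat_lit 1) (nat_lit 0) (nat_lit 1) (nat_lit 0) (nat_lit 487) (nat_lit 321) (nat_lit 272)) (XT.lf (nat_lit 0) (nat_lit 20377069850473) (nat_lit 0) (nat_lit 0) (nat_lit 0) (nat_lit 0) (nat_lit 0) (nat_lit 0) (nat_lit 1) (nat_lit 0) (nat_lit 1) (nat_lit 0) (nat_lit 488) (nat_lit 321) (nat_lit 271))) (XT.nd (nat_lit 94) (nat_lit 0) (nat_lit 0) (XT.lf (nat_lit 0) (nat_lit 22007230992807) (nat_lit 0) (nat_lit 0) (nat_lit 0) (nat_lit 0) (nat_lit 0) (nat_lit 0) (nat_lit 1) (nat_lit 0) (nat_lit 1) (nat_lit 0) (nat_lit 489) (nat_lit 321) (nat_lit 270)) (XT.lf (nat_lit 0) (nat_lit 23767805039518) (nat_lit 0)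 (nat_lit 0) (nat_lit 0) (nat_lit 0) (nat_lit 0) (nat_lit 0) (nat_lit 1) (nat_lit 0) (nat_lit 1) (nat_lit 0) (nat_lit 490) (nat_lit 321) (nat_lit 269))))) (XT.nd (nat_lit 282) (nat_lit 0) (nat_lit 0) (XT.nd (nat_lit 94) (nat_lit 0) (nat_lit 0) (XT.lf (nat_lit 0) (nat_lit 25669225021993) (nat_lit 0) (nat_lit 0) (nat_lit 0) (nat_lit 0) (nat_lit 0) (nat_lit 0) (nat_lit 1) (nat_lit 0) (nat_lit 1) (nat_lit 0) (nat_lit 491) (nat_lit 321) (nat_lit 268)) (XT.nd (nat_lit 94) (nat_lit 0) (nat_lit 0) (XT.lf (nat_lit 0) (nat_lit 27722758614202) (nat_lit 0) (nat_lit 0) (nat_lit 0) (nat_lit 0) (nat_lit 0) (nat_lit 0) (nat_lit 1) (nat_lit 0) (nat_lit 1) (nat_lit 0) (nat_lit 492) (nat_lit 321) (nat_lit 267)) (XT.lf (nat_lit 0) (nat_lit 29940574904098) (nat_lit 0) (nat_lit 0) (nat_lit 0) (nat_lit 0) (nat_lit 0) (nat_lit 0) (nat_lit 1) (nat_lit 0) (nat_lit 1) (nat_lit 0) (nat_lit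 493) (nat_lit 321) (nat_lit 266)))) (XT.nd (nat_lit 188) (nat_lit 0) (nat_lit 0) (XT.nd (nat_lit 94) (nat_lit 0) (nat_lit 0) (XT.lf (nat_lit 0) (nat_lit 32335816506734) (nat_lit 0) (nat_lit 0) (nat_lit 0) (nat_lit 0) (nat_lit 0) (nat_lit 0) (nat_lit 1) (nat_lit 0) (nat_lit 1) (nat_lit 0) (nat_lit 494) (nat_lit 321) (nat_lit 265)) (XT.lf (nat_lit 0) (nat_lit 34922677446421) (nat_lit 0) (nat_lit 0) (nat_lit 0) (nat_lit 0) (nat_lit 0) (nat_lit 0) (nat_lit 1) (nat_lit 0) (nat_lit 1) (nat_lit 0) (nat_lit 495) (nat_lit 321) (nat_lit 264))) (XT.nd (nat_lit 94) (nat_lit 0) (nat_lit 0) (XT.lf (nat_lit 0) (nat_lit 37716487269468) (nat_lit 0) (nat_lit 0) (nat_lit 0) (nat_lit 0) (nat_lit 0) (nat_lit 0) (nat_lit 1) (nat_lit 0) (nat_lit 1) (nat_lit 0) (nat_lit 496) (nat_lit 321) (nat_lit 263)) (XT.lf (nat_lit 0) (nat_lit 40733801885938) (nat_lit 0) (nat_lit 0) (nat_lit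 0) (nat_lit 0) (nat_lit 0) (nat_lit 0) (nat_lit 1) (nat_lit 0) (nat_lit 1) (nat_lit 0) (nat_lit 497) (nat_lit 321) (nat_lit 262)))))) (XT.nd (nat_lit 62134) (nat_lit 0) (nat_lit 0) (XT.nd (nat_lit 282) (nat_lit 0) (nat_lit 0) (XT.nd (nat_lit 94) (nat_lit 0) (nat_lit 0) (XT.lf (nat_lit 0) (nat_lit 43992501678744) (nat_lit 0) (nat_lit 0) (nat_lit 0) (nat_lit 0) (nat_lit 0) (nat_lit 0) (nat_lit 1) (nat_lit 0) (nat_lit 1) (nat_lit 0) (nat_lit 498) (nat_lit 321) (nat_lit 261)) (XT.nd (nat_lit 94) (nat_lit 0) (nat_lit 0) (XT.lf (nat_lit 0) (nat_lit 47511897461471) (nat_lit 0) (nat_lit 0) (nat_lit 0) (nat_lit 0) (nat_lit 0) (nat_lit 0) (nat_lit 1) (nat_lit 0) (nat_lit 1) (nat_lit 0) (nat_lit 499) (nat_lit 321) (nat_lit 260)) (XT.lf (nat_lit 0) (nat_lit 51312844912834) (nat_lit 0) (nat_lit 0) (nat_lit 0) (nat_lit 0) (nat_lit 0) (nat_lit 0) (nat_lit 1) (nat_lit 0)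 (nat_lit 1) (nat_lit 0) (nat_lit 500) (nat_lit 321) (nat_lit 259)))) (XT.nd (nat_lit 61664) (nat_lit 0) (nat_lit 0) (XT.nd (nat_lit 94) (nat_lit 0) (nat_lit 0) (XT.lf (nat_lit 0) (nat_lit 55417868165876) (nat_lit 0) (nat_lit 0) (nat_lit 0) (nat_lit 0) (nat_lit 0) (nat_lit 0) (nat_lit 1) (nat_lit 0) (nat_lit 1) (nat_lit 0) (nat_lit 501) (nat_lit 321) (nat_lit 258)) (XT.lf (nat_lit 0) (nat_lit 59851293284319) (nat_lit 0) (nat_lit 0) (nat_lit 0) (nat_lit 0) (nat_lit 0) (nat_lit 0) (nat_lit 1) (nat_lit 0) (nat_lit 1) (nat_lit 0) (nat_lit 502) (nat_lit 321) (nat_lit 257))) (XT.nd (nat_lit 94) (nat_lit 0) (nat_lit 0) (XT.lf (nat_lit 0) (nat_lit 186298648165) (nat_lit 0) (nat_lit 0) (nat_lit 0) (nat_lit 0) (nat_lit 0) (nat_lit 0) (nat_lit 1) (nat_lit 0) (nat_lit 1) (nat_lit 0) (nat_lit 436) (nat_lit 322) (nat_lit 322)) (XT.lf (nat_lit 0) (nat_lit 402391585734) (nat_lit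 0) (nat_lit 0) (nat_lit 0) (nat_lit 0) (nat_lit 0) (nat_lit 0) (nat_lit 1) (nat_lit 0) (nat_lit 1) (nat_lit 0) (nat_lit 437) (nat_lit 322) (nat_lit 321))))) (XT.nd (nat_lit 282) (nat_lit 0) (nat_lit 0) (XT.nd (nat_lit 94) (nat_lit 0) (nat_lit 0) (XT.lf (nat_lit 0) (nat_lit 434570076239) (nat_lit 0) (nat_lit 0) (nat_lit 0) (nat_lit 0) (nat_lit 0) (nat_lit 0) (nat_lit 1) (nat_lit 0) (nat_lit 1) (nat_lit 0) (nat_lit 438) (nat_lit 322) (nat_lit 320)) (XT.nd (nat_lit 94) (nat_lit 0) (nat_lit 0) (XT.lf (nat_lit 0) (nat_lit 469323455198) (nat_lit 0) (nat_lit 0) (nat_lit 0) (nat_lit 0) (nat_lit 0) (nat_lit 0) (nat_lit 1) (nat_lit 0) (nat_lit 1) (nat_lit 0) (nat_lit 439) (nat_lit 322) (nat_lit 319)) (XT.lf (nat_lit 0) (nat_lit 506857668559) (nat_lit 0) (nat_lit 0) (nat_lit 0) (nat_lit 0) (nat_lit 0) (nat_lit 0) (nat_lit 1) (nat_lit 0) (nat_lit 1) (nat_lit 0) (nat_lit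 440) (nat_lit 322) (nat_lit 318)))) (XT.nd (nat_lit 188) (nat_lit 0) (nat_lit 0) (XT.nd (nat_lit 94) (nat_lit 0) (nat_lit 0) (XT.lf (nat_lit 0) (nat_lit 547395141292) (nat_lit 0) (nat_lit 0) (nat_lit 0) (nat_lit 0) (nat_lit 0) (nat_lit 0) (nat_lit 1) (nat_lit 0) (nat_lit 1) (nat_lit 0) (nat_lit 441) (nat_lit 322) (nat_lit 317)) (XT.lf (nat_lit 0) (nat_lit 591176095456) (nat_lit 0) (nat_lit 0) (nat_lit 0) (nat_lit 0) (nat_lit 0) (nat_lit 0) (nat_lit 1) (nat_lit 0) (nat_lit 1) (nat_lit 0) (nat_lit 442) (nat_lit 322) (nat_lit 316))) (XT.nd (nat_lit 94) (nat_lit 0) (nat_lit 0) (XT.lf (nat_lit 0) (nat_lit 638459973743) (nat_lit 0) (nat_lit 0) (nat_lit 0) (nat_lit 0) (nat_lit 0) (nat_lit 0) (nat_lit 1) (nat_lit 0) (nat_lit 1) (nat_lit 0) (nat_lit 443) (nat_lit 322) (nat_lit 315)) (XT.lf (nat_lit 0) (nat_lit 689526976913) (nat_lit 0) (nat_lit 0) (nat_lit 0) (nat_lit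 0) (nat_lit 0) (nat_lit 0) (nat_lit 1) (nat_lit 0) (nat_lit 1) (nat_lit 0) (nat_lit 444) (nat_lit 322) (nat_lit 314))))))) (XT.nd (nat_lit 1316) (nat_lit 0) (nat_lit 0) (XT.nd (nat_lit 658) (nat_lit 0) (nat_lit 0) (XT.nd (nat_lit 282) (nat_lit 0) (nat_lit 0) (XT.nd (nat_lit 94) (nat_lit 0) (nat_lit 0) (XT.lf (nat_lit 0) (nat_lit 744679724245) (nat_lit 0) (nat_lit 0) (nat_lit 0) (nat_lit 0) (nat_lit 0) (nat_lit 0) (nat_lit 1) (nat_lit 0) (nat_lit 1) (nat_lit 0) (nat_lit 445) (nat_lit 322) (nat_lit 313)) (XT.nd (nat_lit 94) (nat_lit 0) (nat_lit 0) (XT.lf (nat_lit 0) (nat_lit 804245046833) (nat_lit 0) (nat_lit 0) (nat_lit 0) (nat_lit 0) (nat_lit 0) (nat_lit 0) (nat_lit 1) (nat_lit 0) (nat_lit 1) (nat_lit 0) (nat_lit 446) (nat_lit 322) (nat_lit 312)) (XT.lf (nat_lit 0) (nat_lit 868575924366) (nat_lit 0) (nat_lit 0) (nat_lit 0) (nat_lit 0) (nat_lit 0) (nat_lit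 0) (nat_lit 1) (nat_lit 0) (nat_lit 1) (nat_lit 0) (nat_lit 447) (nat_lit 322) (nat_lit 311)))) (XT.nd (nat_lit 188) (nat_lit 0) (nat_lit 0) (XT.nd (nat_lit 94) (nat_lit 0) (nat_lit 0) (XT.lf (nat_lit 0) (nat_lit 938053576861) (nat_lit 0) (nat_lit 0) (nat_lit 0) (nat_lit 0) (nat_lit 0) (nat_lit 0) (nat_lit 1) (nat_lit 0) (nat_lit 1) (nat_lit 0) (nat_lit 448) (nat_lit 322) (nat_lit 310)) (XT.lf (nat_lit 0) (nat_lit 1013089723739) (nat_lit 0) (nat_lit 0) (nat_lit 0) (nat_lit 0) (nat_lit 0) (nat_lit 0) (nat_lit 1) (nat_lit 0) (nat_lit 1) (nat_lit 0) (nat_lit 449) (nat_lit 322) (nat_lit 309))) (XT.nd (nat_lit 94) (nat_lit 0) (nat_lit 0) (XT.lf (nat_lit 0) (nat_lit 1094129023648) (nat_lit 0) (nat_lit 0) (nat_lit 0) (nat_lit 0) (nat_lit 0) (nat_lit 0) (nat_lit 1) (nat_lit 0) (nat_lit 1) (nat_lit 0) (nat_lit 450) (nat_lit 322) (nat_lit 308)) (XT.lf (nat_lit 0) (nat_lit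 1181651709476) (nat_lit 0) (nat_lit 0) (nat_lit 0) (nat_lit 0) (nat_lit 0) (nat_lit 0) (nat_lit 1) (nat_lit 0) (nat_lit 1) (nat_lit 0) (nat_lit 451) (nat_lit 322) (nat_lit 307))))) (XT.nd (nat_lit 282) (nat_lit 0) (nat_lit 0) (XT.nd (nat_lit 94) (nat_lit 0) (nat_lit 0) (XT.lf (nat_lit 0) (nat_lit 1276176434178) (nat_lit 0) (nat_lit 0) (nat_lit 0) (nat_lit 0) (nat_lit 0) (nat_lit 0) (nat_lit 1) (nat_lit 0) (nat_lit 1) (nat_lit 0) (nat_lit 452) (nat_lit 322) (nat_lit 306)) (XT.nd (nat_lit 94) (nat_lit 0) (nat_lit 0) (XT.lf (nat_lit 0) (nat_lit 1378263344268) (nat_lit 0) (nat_lit 0) (nat_lit 0) (nat_lit 0) (nat_lit 0) (nat_lit 0) (nat_lit 1) (nat_lit 0) (nat_lit 1) (nat_lit 0) (nat_lit 453) (nat_lit 322) (nat_lit 305)) (XT.lf (nat_lit 0) (nat_lit 1488517399216) (nat_lit 0) (nat_lit 0) (nat_lit 0) (nat_lit 0) (nat_lit 0) (nat_lit 0) (nat_lit 1) (nat_lit 0) (nat_lit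 1) (nat_lit 0) (nat_lit 454) (nat_lit 322) (nat_lit 304)))) (XT.nd (nat_lit 188) (nat_lit 0) (nat_lit 0) (XT.nd (nat_lit 94) (nat_lit 0) (nat_lit 0) (XT.lf (nat_lit 0) (nat_lit 1607591956382) (nat_lit 0) (nat_lit 0) (nat_lit 0) (nat_lit 0) (nat_lit 0) (nat_lit 0) (nat_lit 1) (nat_lit 0) (nat_lit 1) (nat_lit 0) (nat_lit 455) (nat_lit 322) (nat_lit 303)) (XT.lf (nat_lit 0) (nat_lit 1736192642773) (nat_lit 0) (nat_lit 0) (nat_lit 0) (nat_lit 0) (nat_lit 0) (nat_lit 0) (nat_lit 1) (nat_lit 0) (nat_lit 1) (nat_lit 0) (nat_lit 456) (nat_lit 322) (nat_lit 302))) (XT.nd (nat_lit 94) (nat_lit 0) (nat_lit 0) (XT.lf (nat_lit 0) (nat_lit 1875081536531) (nat_lit 0) (nat_lit 0) (nat_lit 0) (nat_lit 0) (nat_lit 0) (nat_lit 0) (nat_lit 1) (nat_lit 0) (nat_lit 1) (nat_lit 0) (nat_lit 457) (nat_lit 322) (nat_lit 301)) (XT.lf (nat_lit 0) (nat_lit 2025081682951) (nat_lit 0) (nat_lit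 0) (nat_lit 0) (nat_lit 0) (nat_lit 0) (nat_lit 0) (nat_lit 1) (nat_lit 0) (nat_lit 1) (nat_lit 0) (nat_lit 458) (nat_lit 322) (nat_lit 300)))))) (XT.nd (nat_lit 658) (nat_lit 0) (nat_lit 0) (XT.nd (nat_lit 282) (nat_lit 0) (nat_lit 0) (XT.nd (nat_lit 94) (nat_lit 0) (nat_lit 0) (XT.lf (nat_lit 0) (nat_lit 2187081971791) (nat_lit 0) (nat_lit 0) (nat_lit 0) (nat_lit 0) (nat_lit 0) (nat_lit 0) (nat_lit 1) (nat_lit 0) (nat_lit 1) (nat_lit 0) (nat_lit 459) (nat_lit 322) (nat_lit 299)) (XT.nd (nat_lit 94) (nat_lit 0) (nat_lit 0) (XT.lf (nat_lit 0) (nat_lit 2362042404761) (nat_lit 0) (nat_lit 0) (nat_lit 0) (nat_lit 0) (nat_lit 0) (nat_lit 0) (nat_lit 1) (nat_lit 0) (nat_lit 1) (nat_lit 0) (nat_lit 460) (nat_lit 322) (nat_lit 298)) (XT.lf (nat_lit 0) (nat_lit 2550999784427) (nat_lit 0) (nat_lit 0) (nat_lit 0) (nat_lit 0) (nat_lit 0) (nat_lit 0) (nat_lit 1) (nat_lit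 0) (nat_lit 1) (nat_lit 0) (nat_lit 461) (nat_lit 322) (nat_lit 297)))) (XT.nd (nat_lit 188) (nat_lit 0) (nat_lit 0) (XT.nd (nat_lit 94) (nat_lit 0) (nat_lit 0) (XT.lf (nat_lit 0) (nat_lit 2755073858226) (nat_lit 0) (nat_lit 0) (nat_lit 0) (nat_lit 0) (nat_lit 0) (nat_lit 0) (nat_lit 1) (nat_lit 0) (nat_lit 1) (nat_lit 0) (nat_lit 462) (nat_lit 322) (nat_lit 296)) (XT.lf (nat_lit 0) (nat_lit 2975473954001) (nat_lit 0) (nat_lit 0) (nat_lit 0) (nat_lit 0) (nat_lit 0) (nat_lit 0) (nat_lit 1) (nat_lit 0) (nat_lit 1) (nat_lit 0) (nat_lit 463) (nat_lit 322) (nat_lit 295))) (XT.nd (nat_lit 94) (nat_lit 0) (nat_lit 0) (XT.lf (nat_lit 0) (nat_lit 3213506146393) (nat_lit 0) (nat_lit 0) (nat_lit 0) (nat_lit 0) (nat_lit 0) (nat_lit 0) (nat_lit 1) (nat_lit 0) (nat_lit 1) (nat_lit 0) (nat_lit 464) (nat_lit 322) (nat_lit 294)) (XT.lf (nat_lit 0) (nat_lit 3470580996544) (nat_lit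 0) (nat_lit 0) (nat_lit 0) (nat_lit 0) (nat_lit 0) (nat_lit 0) (nat_lit 1) (nat_lit 0) (nat_lit 1) (nat_lit 0) (nat_lit 465) (nat_lit 322) (nat_lit 293))))) (XT.nd (nat_lit 282) (nat_lit 0) (nat_lit 0) (XT.nd (nat_lit 94) (nat_lit 0) (nat_lit 0) (XT.lf (nat_lit 0) (nat_lit 3748221910972) (nat_lit 0) (nat_lit 0) (nat_lit 0) (nat_lit 0) (nat_lit 0) (nat_lit 0) (nat_lit 1) (nat_lit 0) (nat_lit 1) (nat_lit 0) (nat_lit 466) (nat_lit 322) (nat_lit 292)) (XT.nd (nat_lit 94) (nat_lit 0) (nat_lit 0) (XT.lf (nat_lit 0) (nat_lit 4048074169171) (nat_lit 0) (nat_lit 0) (nat_lit 0) (nat_lit 0) (nat_lit 0) (nat_lit 0) (nat_lit 1) (nat_lit 0) (nat_lit 1) (nat_lit 0) (nat_lit 467) (nat_lit 322) (nat_lit 291)) (XT.lf (nat_lit 0) (nat_lit 4371914673411) (nat_lit 0) (nat_lit 0) (nat_lit 0) (nat_lit 0) (nat_lit 0) (nat_lit 0) (nat_lit 1) (nat_lit 0) (nat_lit 1) (nat_lit 0) (nat_lit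 468) (nat_lit 322) (nat_lit 290)))) (XT.nd (nat_lit 188) (nat_lit 0) (nat_lit 0) (XT.nd (nat_lit 94) (nat_lit 0) (nat_lit 0) (XT.lf (nat_lit 0) (nat_lit 4721662478532) (nat_lit 0) (nat_lit 0) (nat_lit 0) (nat_lit 0) (nat_lit 0) (nat_lit 0) (nat_lit 1) (nat_lit 0) (nat_lit 1) (nat_lit 0) (nat_lit 469) (nat_lit 322) (nat_lit 289)) (XT.lf (nat_lit 0) (nat_lit 5099390164121) (nat_lit 0) (nat_lit 0) (nat_lit 0) (nat_lit 0) (nat_lit 0) (nat_lit 0) (nat_lit 1) (nat_lit 0) (nat_lit 1) (nat_lit 0) (nat_lit 470) (nat_lit 322) (nat_lit 288))) (XT.nd (nat_lit 94) (nat_lit 0) (nat_lit 0) (XT.lf (nat_lit 0) (nat_lit 5507336116461) (nat_lit 0) (nat_lit 0) (nat_lit 0) (nat_lit 0) (nat_lit 0) (nat_lit 0) (nat_lit 1) (nat_lit 0) (nat_lit 1) (nat_lit 0) (nat_lit 471) (nat_lit 322) (nat_lit 287)) (XT.lf (nat_lit 0) (nat_lit 5947917793049) (nat_lit 0) (nat_lit 0) (nat_lit 0) (nat_lit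 0) (nat_lit 0) (nat_lit 0) (nat_lit 1) (nat_lit 0) (nat_lit 1) (nat_lit 0) (nat_lit 472) (nat_lit 322) (nat_lit 286))))))))
noncomputable def xc21 : XT := (XT.nd (nat_lit 2632) (nat_lit 0) (nat_lit 0) (XT.nd (nat_lit 1316) (nat_lit 0) (nat_lit 0) (XT.nd (nat_lit 658) (nat_lit 0) (nat_lit 0) (XT.nd (nat_lit 282) (nat_lit 0) (nat_lit 0) (XT.nd (nat_lit 94) (nat_lit 0) (nat_lit 0) (XT.lf (nat_lit 0) (nat_lit 6423746048263) (nat_lit 0) (nat_lit 0) (nat_lit 0) (nat_lit 0) (nat_lit 0) (nat_lit 0) (nat_lit 1) (nat_lit 0) (nat_lit 1) (nat_lit 0) (nat_lit 473) (nat_lit 322) (nat_lit 285)) (XT.nd (nat_lit 94) (nat_lit 0) (nat_lit 0) (XT.lf (nat_lit 0) (nat_lit 6937640605099) (nat_lit 0) (nat_lit 0) (nat_lit 0) (nat_lit 0) (nat_lit 0) (nat_lit 0) (nat_lit 1) (nat_lit 0) (nat_lit 1) (nat_lit 0) (nat_lit 474) (nat_lit 322) (nat_lit 284)) (XT.lf (nat_lit 0) (nat_lit 7492646764634)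 (nat_lit 0) (nat_lit 0) (nat_lit 0) (nat_lit 0) (nat_lit 0) (nat_lit 0) (nat_lit 1) (nat_lit 0) (nat_lit 1) (nat_lit 0) (nat_lit 475) (nat_lit 322) (nat_lit 283)))) (XT.nd (nat_lit 188) (nat_lit 0) (nat_lit 0) (XT.nd (nat_lit 94) (nat_lit 0) (nat_lit 0) (XT.lf (nat_lit 0) (nat_lit 8092053452257) (nat_lit 0) (nat_lit 0) (nat_lit 0) (nat_lit 0) (nat_lit 0) (nat_lit 0) (nat_lit 1) (nat_lit 0) (nat_lit 1) (nat_lit 0) (nat_lit 476) (nat_lit 322) (nat_lit 282)) (XT.lf (nat_lit 0) (nat_lit 8739412707598) (nat_lit 0) (nat_lit 0) (nat_lit 0) (nat_lit 0) (nat_lit 0) (nat_lit 0) (nat_lit 1) (nat_lit 0) (nat_lit 1) (nat_lit 0) (nat_lit 477) (nat_lit 322) (nat_lit 281))) (XT.nd (nat_lit 94) (nat_lit 0) (nat_lit 0) (XT.lf (nat_lit 0) (nat_lit 9438560733653) (nat_lit 0) (nat_lit 0) (nat_lit 0) (nat_lit 0) (nat_lit 0) (nat_lit 0) (nat_lit 1) (nat_lit 0) (nat_lit 1) (nat_lit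 0) (nat_lit 478) (nat_lit 322) (nat_lit 280)) (XT.lf (nat_lit 0) (nat_lit 10193640629835) (nat_lit 0) (nat_lit 0) (nat_lit 0) (nat_lit 0) (nat_lit 0) (nat_lit 0) (nat_lit 1) (nat_lit 0) (nat_lit 1) (nat_lit 0) (nat_lit 479) (nat_lit 322) (nat_lit 279))))) (XT.nd (nat_lit 282) (nat_lit 0) (nat_lit 0) (XT.nd (nat_lit 94) (nat_lit 0) (nat_lit 0) (XT.lf (nat_lit 0) (nat_lit 11009126943677) (nat_lit 0) (nat_lit 0) (nat_lit 0) (nat_lit 0) (nat_lit 0) (nat_lit 0) (nat_lit 1) (nat_lit 0) (nat_lit 1) (nat_lit 0) (nat_lit 480) (nat_lit 322) (nat_lit 278)) (XT.nd (nat_lit 94) (nat_lit 0) (nat_lit 0) (XT.lf (nat_lit 0) (nat_lit 11889852186669) (nat_lit 0) (nat_lit 0) (nat_lit 0) (nat_lit 0) (nat_lit 0) (nat_lit 0) (nat_lit 1) (nat_lit 0) (nat_lit 1) (nat_lit 0) (nat_lit 481) (nat_lit 322) (nat_lit 277)) (XT.lf (nat_lit 0) (nat_lit 12841035471361) (nat_lit 0) (nat_lit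 0) (nat_lit 0) (nat_lit 0) (nat_lit 0) (nat_lit 0) (nat_lit 1) (nat_lit 0) (nat_lit 1) (nat_lit 0) (nat_lit 482) (nat_lit 322) (nat_lit 276)))) (XT.nd (nat_lit 188) (nat_lit 0) (nat_lit 0) (XT.nd (nat_lit 94) (nat_lit 0) (nat_lit 0) (XT.lf (nat_lit 0) (nat_lit 13868313439440) (nat_lit 0) (nat_lit 0) (nat_lit 0) (nat_lit 0) (nat_lit 0) (nat_lit 0) (nat_lit 1) (nat_lit 0) (nat_lit 1) (nat_lit 0) (nat_lit 483) (nat_lit 322) (nat_lit 275)) (XT.lf (nat_lit 0) (nat_lit 14977773664051) (nat_lit 0) (nat_lit 0) (nat_lit 0) (nat_lit 0) (nat_lit 0) (nat_lit 0) (nat_lit 1) (nat_lit 0) (nat_lit 1) (nat_lit 0) (nat_lit 484) (nat_lit 322) (nat_lit 274))) (XT.nd (nat_lit 94) (nat_lit 0) (nat_lit 0) (XT.lf (nat_lit 0) (nat_lit 16175990724303) (nat_lit 0) (nat_lit 0) (nat_lit 0) (nat_lit 0) (nat_lit 0) (nat_lit 0) (nat_lit 1) (nat_lit 0) (nat_lit 1) (nat_lit 0) (nat_lit 485)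 (nat_lit 322) (nat_lit 273)) (XT.lf (nat_lit 0) (nat_lit 17470065165737) (nat_lit 0) (nat_lit 0) (nat_lit 0) (nat_lit 0) (nat_lit 0) (nat_lit 0) (nat_lit 1) (nat_lit 0) (nat_lit 1) (nat_lit 0) (nat_lit 486) (nat_lit 322) (nat_lit 272)))))) (XT.nd (nat_lit 658) (nat_lit 0) (nat_lit 0) (XT.nd (nat_lit 282) (nat_lit 0) (nat_lit 0) (XT.nd (nat_lit 94) (nat_lit 0) (nat_lit 0) (XT.lf (nat_lit 0) (nat_lit 18867665577637) (nat_lit 0) (nat_lit 0) (nat_lit 0) (nat_lit 0) (nat_lit 0) (nat_lit 0) (nat_lit 1) (nat_lit 0) (nat_lit 1) (nat_lit 0) (nat_lit 487) (nat_lit 322) (nat_lit 271)) (XT.nd (nat_lit 94) (nat_lit 0) (nat_lit 0) (XT.lf (nat_lit 0) (nat_lit 20377074036517) (nat_lit 0) (nat_lit 0) (nat_lit 0) (nat_lit 0) (nat_lit 0) (nat_lit 0) (nat_lit 1) (nat_lit 0) (nat_lit 1) (nat_lit 0) (nat_lit 488) (nat_lit 322) (nat_lit 270)) (XT.lf (nat_lit 0) (nat_lit 22007235185097)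 (nat_lit 0) (nat_lit 0) (nat_lit 0) (nat_lit 0) (nat_lit 0) (nat_lit 0) (nat_lit 1) (nat_lit 0) (nat_lit 1) (nat_lit 0) (nat_lit 489) (nat_lit 322) (nat_lit 269)))) (XT.nd (nat_lit 188) (nat_lit 0) (nat_lit 0) (XT.nd (nat_lit 94) (nat_lit 0) (nat_lit 0) (XT.lf (nat_lit 0) (nat_lit 23767809237590) (nat_lit 0) (nat_lit 0) (nat_lit 0) (nat_lit 0) (nat_lit 0) (nat_lit 0) (nat_lit 1) (nat_lit 0) (nat_lit 1) (nat_lit 0) (nat_lit 490) (nat_lit 322) (nat_lit 268)) (XT.lf (nat_lit 0) (nat_lit 25669229225418) (nat_lit 0) (nat_lit 0) (nat_lit 0) (nat_lit 0) (nat_lit 0) (nat_lit 0) (nat_lit 1) (nat_lit 0) (nat_lit 1) (nat_lit 0) (nat_lit 491) (nat_lit 322) (nat_lit 267))) (XT.nd (nat_lit 94) (nat_lit 0) (nat_lit 0) (XT.lf (nat_lit 0) (nat_lit 27722762822584) (nat_lit 0) (nat_lit 0) (nat_lit 0) (nat_lit 0) (nat_lit 0) (nat_lit 0) (nat_lit 1) (nat_lit 0) (nat_lit 1) (nat_lit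 0) (nat_lit 492) (nat_lit 322) (nat_lit 266)) (XT.lf (nat_lit 0) (nat_lit 29940579117071) (nat_lit 0) (nat_lit 0) (nat_lit 0) (nat_lit 0) (nat_lit 0) (nat_lit 0) (nat_lit 1) (nat_lit 0) (nat_lit 1) (nat_lit 0) (nat_lit 493) (nat_lit 322) (nat_lit 265))))) (XT.nd (nat_lit 282) (nat_lit 0) (nat_lit 0) (XT.nd (nat_lit 94) (nat_lit 0) (nat_lit 0) (XT.lf (nat_lit 0) (nat_lit 32335820723957) (nat_lit 0) (nat_lit 0) (nat_lit 0) (nat_lit 0) (nat_lit 0) (nat_lit 0) (nat_lit 1) (nat_lit 0) (nat_lit 1) (nat_lit 0) (nat_lit 494) (nat_lit 322) (nat_lit 264)) (XT.nd (nat_lit 94) (nat_lit 0) (nat_lit 0) (XT.lf (nat_lit 0) (nat_lit 34922681667579) (nat_lit 0) (nat_lit 0) (nat_lit 0) (nat_lit 0) (nat_lit 0) (nat_lit 0) (nat_lit 1) (nat_lit 0) (nat_lit 1) (nat_lit 0) (nat_lit 495) (nat_lit 322) (nat_lit 263)) (XT.lf (nat_lit 0) (nat_lit 37716491494270) (nat_lit 0) (nat_lit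 0) (nat_lit 0) (nat_lit 0) (nat_lit 0) (nat_lit 0) (nat_lit 1) (nat_lit 0) (nat_lit 1) (nat_lit 0) (nat_lit 496) (nat_lit 322) (nat_lit 262)))) (XT.nd (nat_lit 188) (nat_lit 0) (nat_lit 0) (XT.nd (nat_lit 94) (nat_lit 0) (nat_lit 0) (XT.lf (nat_lit 0) (nat_lit 40733806114114) (nat_lit 0) (nat_lit 0) (nat_lit 0) (nat_lit 0) (nat_lit 0) (nat_lit 0) (nat_lit 1) (nat_lit 0) (nat_lit 1) (nat_lit 0) (nat_lit 497) (nat_lit 322) (nat_lit 261)) (XT.lf (nat_lit 0) (nat_lit 43992505910044) (nat_lit 0) (nat_lit 0) (nat_lit 0) (nat_lit 0) (nat_lit 0) (nat_lit 0) (nat_lit 1) (nat_lit 0) (nat_lit 1) (nat_lit 0) (nat_lit 498) (nat_lit 322) (nat_lit 260))) (XT.nd (nat_lit 94) (nat_lit 0) (nat_lit 0) (XT.lf (nat_lit 0) (nat_lit 47511901695664) (nat_lit 0) (nat_lit 0) (nat_lit 0) (nat_lit 0) (nat_lit 0) (nat_lit 0) (nat_lit 1) (nat_lit 0) (nat_lit 1) (nat_lit 0) (nat_lit 499)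 (nat_lit 322) (nat_lit 259)) (XT.lf (nat_lit 0) (nat_lit 51312849149704) (nat_lit 0) (nat_lit 0) (nat_lit 0) (nat_lit 0) (nat_lit 0) (nat_lit 0) (nat_lit 1) (nat_lit 0) (nat_lit 1) (nat_lit 0) (nat_lit 500) (nat_lit 322) (nat_lit 258))))))) (XT.nd (nat_lit 62604) (nat_lit 0) (nat_lit 0) (XT.nd (nat_lit 61946) (nat_lit 0) (nat_lit 0) (XT.nd (nat_lit 61570) (nat_lit 0) (nat_lit 0) (XT.nd (nat_lit 94) (nat_lit 0) (nat_lit 0) (XT.lf (nat_lit 0) (nat_lit 55417872405226) (nat_lit 0) (nat_lit 0) (nat_lit 0) (nat_lit 0) (nat_lit 0) (nat_lit 0) (nat_lit 1) (nat_lit 0) (nat_lit 1) (nat_lit 0) (nat_lit 501) (nat_lit 322) (nat_lit 257)) (XT.nd (nat_lit 61382) (nat_lit 0) (nat_lit 0) (XT.lf (nat_lit 0) (nat_lit 59851297525966) (nat_lit 0) (nat_lit 0) (nat_lit 0) (nat_lit 0) (nat_lit 0) (nat_lit 0) (nat_lit 1) (nat_lit 0) (nat_lit 1) (nat_lit 0) (nat_lit 502) (nat_lit 322)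 (nat_lit 256)) (XT.lf (nat_lit 0) (nat_lit 159733899595) (nat_lit 0) (nat_lit 0) (nat_lit 0) (nat_lit 0) (nat_lit 0) (nat_lit 0) (nat_lit 1) (nat_lit 0) (nat_lit 1) (nat_lit 0) (nat_lit 434) (nat_lit 323) (nat_lit 323)))) (XT.nd (nat_lit 188) (nat_lit 0) (nat_lit 0) (XT.nd (nat_lit 94) (nat_lit 0) (nat_lit 0) (XT.lf (nat_lit 0) (nat_lit 345010649278) (nat_lit 0) (nat_lit 0) (nat_lit 0) (nat_lit 0) (nat_lit 0) (nat_lit 0) (nat_lit 1) (nat_lit 0) (nat_lit 1) (nat_lit 0) (nat_lit 435) (nat_lit 323) (nat_lit 322)) (XT.lf (nat_lit 0) (nat_lit 372597637959) (nat_lit 0) (nat_lit 0) (nat_lit 0) (nat_lit 0) (nat_lit 0) (nat_lit 0) (nat_lit 1) (nat_lit 0) (nat_lit 1) (nat_lit 0) (nat_lit 436) (nat_lit 323) (nat_lit 321))) (XT.nd (nat_lit 94) (nat_lit 0) (nat_lit 0) (XT.lf (nat_lit 0) (nat_lit 402392243684) (nat_lit 0) (nat_lit 0) (nat_lit 0) (nat_lit 0) (nat_lit 0)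 (nat_lit 0) (nat_lit 1) (nat_lit 0) (nat_lit 1) (nat_lit 0) (nat_lit 437) (nat_lit 323) (nat_lit 320)) (XT.lf (nat_lit 0) (nat_lit 434571027080) (nat_lit 0) (nat_lit 0) (nat_lit 0) (nat_lit 0) (nat_lit 0) (nat_lit 0) (nat_lit 1) (nat_lit 0) (nat_lit 1) (nat_lit 0) (nat_lit 438) (nat_lit 323) (nat_lit 319))))) (XT.nd (nat_lit 282) (nat_lit 0) (nat_lit 0) (XT.nd (nat_lit 94) (nat_lit 0) (nat_lit 0) (XT.lf (nat_lit 0) (nat_lit 469324677234) (nat_lit 0) (nat_lit 0) (nat_lit 0) (nat_lit 0) (nat_lit 0) (nat_lit 0) (nat_lit 1) (nat_lit 0) (nat_lit 1) (nat_lit 0) (nat_lit 439) (nat_lit 323) (nat_lit 318)) (XT.nd (nat_lit 94) (nat_lit 0) (nat_lit 0) (XT.lf (nat_lit 0) (nat_lit 506859141702) (nat_lit 0) (nat_lit 0) (nat_lit 0) (nat_lit 0) (nat_lit 0) (nat_lit 0) (nat_lit 1) (nat_lit 0) (nat_lit 1) (nat_lit 0) (nat_lit 440) (nat_lit 323) (nat_lit 317)) (XT.lf (nat_lit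 0) (nat_lit 547396846941) (nat_lit 0) (nat_lit 0) (nat_lit 0) (nat_lit 0) (nat_lit 0) (nat_lit 0) (nat_lit 1) (nat_lit 0) (nat_lit 1) (nat_lit 0) (nat_lit 441) (nat_lit 323) (nat_lit 316)))) (XT.nd (nat_lit 188) (nat_lit 0) (nat_lit 0) (XT.nd (nat_lit 94) (nat_lit 0) (nat_lit 0) (XT.lf (nat_lit 0) (nat_lit 591178016389) (nat_lit 0) (nat_lit 0) (nat_lit 0) (nat_lit 0) (nat_lit 0) (nat_lit 0) (nat_lit 1) (nat_lit 0) (nat_lit 1) (nat_lit 0) (nat_lit 442) (nat_lit 323) (nat_lit 315)) (XT.lf (nat_lit 0) (nat_lit 638462094013) (nat_lit 0) (nat_lit 0) (nat_lit 0) (nat_lit 0) (nat_lit 0) (nat_lit 0) (nat_lit 1) (nat_lit 0) (nat_lit 1) (nat_lit 0) (nat_lit 443) (nat_lit 323) (nat_lit 314))) (XT.nd (nat_lit 94) (nat_lit 0) (nat_lit 0) (XT.lf (nat_lit 0) (nat_lit 689529281754) (nat_lit 0) (nat_lit 0) (nat_lit 0) (nat_lit 0) (nat_lit 0) (nat_lit 0) (nat_lit 1) (nat_lit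 0) (nat_lit 1) (nat_lit 0) (nat_lit 444) (nat_lit 323) (nat_lit 313)) (XT.lf (nat_lit 0) (nat_lit 744682199984) (nat_lit 0) (nat_lit 0) (nat_lit 0) (nat_lit 0) (nat_lit 0) (nat_lit 0) (nat_lit 1) (nat_lit 0) (nat_lit 1) (nat_lit 0) (nat_lit 445) (nat_lit 323) (nat_lit 312)))))) (XT.nd (nat_lit 658) (nat_lit 0) (nat_lit 0) (XT.nd (nat_lit 282) (nat_lit 0) (nat_lit 0) (XT.nd (nat_lit 94) (nat_lit 0) (nat_lit 0) (XT.lf (nat_lit 0) (nat_lit 804247680812) (nat_lit 0) (nat_lit 0) (nat_lit 0) (nat_lit 0) (nat_lit 0) (nat_lit 0) (nat_lit 1) (nat_lit 0) (nat_lit 1) (nat_lit 0) (nat_lit 446) (nat_lit 323) (nat_lit 311)) (XT.nd (nat_lit 94) (nat_lit 0) (nat_lit 0) (XT.lf (nat_lit 0) (nat_lit 868578704864) (nat_lit 0) (nat_lit 0) (nat_lit 0) (nat_lit 0) (nat_lit 0) (nat_lit 0) (nat_lit 1) (nat_lit 0) (nat_lit 1) (nat_lit 0) (nat_lit 447) (nat_lit 323) (nat_lit 310)) (XT.lf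 (nat_lit 0) (nat_lit 938056493024) (nat_lit 0) (nat_lit 0) (nat_lit 0) (nat_lit 0) (nat_lit 0) (nat_lit 0) (nat_lit 1) (nat_lit 0) (nat_lit 1) (nat_lit 0) (nat_lit 448) (nat_lit 323) (nat_lit 309)))) (XT.nd (nat_lit 188) (nat_lit 0) (nat_lit 0) (XT.nd (nat_lit 94) (nat_lit 0) (nat_lit 0) (XT.lf (nat_lit 0) (nat_lit 1013092765517) (nat_lit 0) (nat_lit 0) (nat_lit 0) (nat_lit 0) (nat_lit 0) (nat_lit 0) (nat_lit 1) (nat_lit 0) (nat_lit 1) (nat_lit 0) (nat_lit 449) (nat_lit 323) (nat_lit 308)) (XT.lf (nat_lit 0) (nat_lit 1094132181737) (nat_lit 0) (nat_lit 0) (nat_lit 0) (nat_lit 0) (nat_lit 0) (nat_lit 0) (nat_lit 1) (nat_lit 0) (nat_lit 1) (nat_lit 0) (nat_lit 450) (nat_lit 323) (nat_lit 307))) (XT.nd (nat_lit 94) (nat_lit 0) (nat_lit 0) (XT.lf (nat_lit 0) (nat_lit 1181654975261) (nat_lit 0) (nat_lit 0) (nat_lit 0) (nat_lit 0) (nat_lit 0) (nat_lit 0) (nat_lit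 1) (nat_lit 0) (nat_lit 1) (nat_lit 0) (nat_lit 451) (nat_lit 323) (nat_lit 306)) (XT.lf (nat_lit 0) (nat_lit 1276179799681) (nat_lit 0) (nat_lit 0) (nat_lit 0) (nat_lit 0) (nat_lit 0) (nat_lit 0) (nat_lit 1) (nat_lit 0) (nat_lit 1) (nat_lit 0) (nat_lit 452) (nat_lit 323) (nat_lit 305))))) (XT.nd (nat_lit 376) (nat_lit 0) (nat_lit 0) (XT.nd (nat_lit 188) (nat_lit 0) (nat_lit 0) (XT.nd (nat_lit 94) (nat_lit 0) (nat_lit 0) (XT.lf (nat_lit 0) (nat_lit 1378266802103) (nat_lit 0) (nat_lit 0) (nat_lit 0) (nat_lit 0) (nat_lit 0) (nat_lit 0) (nat_lit 1) (nat_lit 0) (nat_lit 1) (nat_lit 0) (nat_lit 453) (nat_lit 323) (nat_lit 304)) (XT.lf (nat_lit 0) (nat_lit 1488520942542) (nat_lit 0) (nat_lit 0) (nat_lit 0) (nat_lit 0) (nat_lit 0) (nat_lit 0) (nat_lit 1) (nat_lit 0) (nat_lit 1) (nat_lit 0) (nat_lit 454) (nat_lit 323) (nat_lit 303))) (XT.nd (nat_lit 94) (nat_lit 0)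 (nat_lit 0) (XT.lf (nat_lit 0) (nat_lit 1607595578868) (nat_lit 0) (nat_lit 0) (nat_lit 0) (nat_lit 0) (nat_lit 0) (nat_lit 0) (nat_lit 1) (nat_lit 0) (nat_lit 1) (nat_lit 0) (nat_lit 455) (nat_lit 323) (nat_lit 302)) (XT.lf (nat_lit 0) (nat_lit 1736196338555) (nat_lit 0) (nat_lit 0) (nat_lit 0) (nat_lit 0) (nat_lit 0) (nat_lit 0) (nat_lit 1) (nat_lit 0) (nat_lit 1) (nat_lit 0) (nat_lit 456) (nat_lit 323) (nat_lit 301)))) (XT.nd (nat_lit 188) (nat_lit 0) (nat_lit 0) (XT.nd (nat_lit 94) (nat_lit 0) (nat_lit 0) (XT.lf (nat_lit 0) (nat_lit 1875085300179) (nat_lit 0) (nat_lit 0) (nat_lit 0) (nat_lit 0) (nat_lit 0) (nat_lit 0) (nat_lit 1) (nat_lit 0) (nat_lit 1) (nat_lit 0) (nat_lit 457) (nat_lit 323) (nat_lit 300)) (XT.lf (nat_lit 0) (nat_lit 2025085509438) (nat_lit 0) (nat_lit 0) (nat_lit 0) (nat_lit 0) (nat_lit 0) (nat_lit 0) (nat_lit 1) (nat_lit 0) (nat_lit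 1) (nat_lit 0) (nat_lit 458) (nat_lit 323) (nat_lit 299))) (XT.nd (nat_lit 94) (nat_lit 0) (nat_lit 0) (XT.lf (nat_lit 0) (nat_lit 2187085856462) (nat_lit 0) (nat_lit 0) (nat_lit 0) (nat_lit 0) (nat_lit 0) (nat_lit 0) (nat_lit 1) (nat_lit 0) (nat_lit 1) (nat_lit 0) (nat_lit 459) (nat_lit 323) (nat_lit 298)) (XT.lf (nat_lit 0) (nat_lit 2362046343307) (nat_lit 0) (nat_lit 0) (nat_lit 0) (nat_lit 0) (nat_lit 0) (nat_lit 0) (nat_lit 1) (nat_lit 0) (nat_lit 1) (nat_lit 0) (nat_lit 460) (nat_lit 323) (nat_lit 297))))))))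
noncomputable def xc22 : XT := (XT.nd (nat_lit 2632) (nat_lit 0) (nat_lit 0) (XT.nd (nat_lit 1316) (nat_lit 0) (nat_lit 0) (XT.nd (nat_lit 658) (nat_lit 0) (nat_lit 0) (XT.nd (nat_lit 282) (nat_lit 0) (nat_lit 0) (XT.nd (nat_lit 94) (nat_lit 0) (nat_lit 0) (XT.lf (nat_lit 0) (nat_lit 2551003772857) (nat_lit 0) (nat_lit 0) (nat_lit 0) (nat_lit 0) (nat_lit 0) (nat_lit 0) (nat_lit 1) (nat_lit 0) (nat_lit 1) (nat_lit 0) (nat_lit 461) (nat_lit 323) (nat_lit 296)) (XT.nd (nat_lit 94) (nat_lit 0) (nat_lit 0) (XT.lf (nat_lit 0) (nat_lit 2755077892844) (nat_lit 0) (nat_lit 0) (nat_lit 0) (nat_lit 0) (nat_lit 0) (nat_lit 0) (nat_lit 1) (nat_lit 0) (nat_lit 1) (nat_lit 0) (nat_lit 462) (nat_lit 323) (nat_lit 295)) (XT.lf (nat_lit 0) (nat_lit 2975478031386) (nat_lit 0) (nat_lit 0) (nat_lit 0) (nat_lit 0) (nat_lit 0) (nat_lit 0) (nat_lit 1) (nat_lit 0) (nat_lit 1) (nat_lit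 0) (nat_lit 463) (nat_lit 323) (nat_lit 294)))) (XT.nd (nat_lit 188) (nat_lit 0) (nat_lit 0) (XT.nd (nat_lit 94) (nat_lit 0) (nat_lit 0) (XT.lf (nat_lit 0) (nat_lit 3213510263378) (nat_lit 0) (nat_lit 0) (nat_lit 0) (nat_lit 0) (nat_lit 0) (nat_lit 0) (nat_lit 1) (nat_lit 0) (nat_lit 1) (nat_lit 0) (nat_lit 464) (nat_lit 323) (nat_lit 293)) (XT.lf (nat_lit 0) (nat_lit 3470585150195) (nat_lit 0) (nat_lit 0) (nat_lit 0) (nat_lit 0) (nat_lit 0) (nat_lit 0) (nat_lit 1) (nat_lit 0) (nat_lit 1) (nat_lit 0) (nat_lit 465) (nat_lit 323) (nat_lit 292))) (XT.nd (nat_lit 94) (nat_lit 0) (nat_lit 0) (XT.lf (nat_lit 0) (nat_lit 3748226098574) (nat_lit 0) (nat_lit 0) (nat_lit 0) (nat_lit 0) (nat_lit 0) (nat_lit 0) (nat_lit 1) (nat_lit 0) (nat_lit 1) (nat_lit 0) (nat_lit 466) (nat_lit 323) (nat_lit 291)) (XT.lf (nat_lit 0) (nat_lit 4048078388208) (nat_lit 0) (nat_lit 0) (nat_lit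 0) (nat_lit 0) (nat_lit 0) (nat_lit 0) (nat_lit 1) (nat_lit 0) (nat_lit 1) (nat_lit 0) (nat_lit 467) (nat_lit 323) (nat_lit 290))))) (XT.nd (nat_lit 282) (nat_lit 0) (nat_lit 0) (XT.nd (nat_lit 94) (nat_lit 0) (nat_lit 0) (XT.lf (nat_lit 0) (nat_lit 4371918921554) (nat_lit 0) (nat_lit 0) (nat_lit 0) (nat_lit 0) (nat_lit 0) (nat_lit 0) (nat_lit 1) (nat_lit 0) (nat_lit 1) (nat_lit 0) (nat_lit 468) (nat_lit 323) (nat_lit 289)) (XT.nd (nat_lit 94) (nat_lit 0) (nat_lit 0) (XT.lf (nat_lit 0) (nat_lit 4721666753626) (nat_lit 0) (nat_lit 0) (nat_lit 0) (nat_lit 0) (nat_lit 0) (nat_lit 0) (nat_lit 1) (nat_lit 0) (nat_lit 1) (nat_lit 0) (nat_lit 469) (nat_lit 323) (nat_lit 288)) (XT.lf (nat_lit 0) (nat_lit 5099394464169) (nat_lit 0) (nat_lit 0) (nat_lit 0) (nat_lit 0) (nat_lit 0) (nat_lit 0) (nat_lit 1) (nat_lit 0) (nat_lit 1) (nat_lit 0) (nat_lit 470) (nat_lit 323)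 (nat_lit 287)))) (XT.nd (nat_lit 188) (nat_lit 0) (nat_lit 0) (XT.nd (nat_lit 94) (nat_lit 0) (nat_lit 0) (XT.lf (nat_lit 0) (nat_lit 5507340439615) (nat_lit 0) (nat_lit 0) (nat_lit 0) (nat_lit 0) (nat_lit 0) (nat_lit 0) (nat_lit 1) (nat_lit 0) (nat_lit 1) (nat_lit 0) (nat_lit 471) (nat_lit 323) (nat_lit 286)) (XT.lf (nat_lit 0) (nat_lit 5947922137597) (nat_lit 0) (nat_lit 0) (nat_lit 0) (nat_lit 0) (nat_lit 0) (nat_lit 0) (nat_lit 1) (nat_lit 0) (nat_lit 1) (nat_lit 0) (nat_lit 472) (nat_lit 323) (nat_lit 285))) (XT.nd (nat_lit 94) (nat_lit 0) (nat_lit 0) (XT.lf (nat_lit 0) (nat_lit 6423750412621) (nat_lit 0) (nat_lit 0) (nat_lit 0) (nat_lit 0) (nat_lit 0) (nat_lit 0) (nat_lit 1) (nat_lit 0) (nat_lit 1) (nat_lit 0) (nat_lit 473) (nat_lit 323) (nat_lit 284)) (XT.lf (nat_lit 0) (nat_lit 6937644987799) (nat_lit 0) (nat_lit 0) (nat_lit 0) (nat_lit 0) (nat_lit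 0) (nat_lit 0) (nat_lit 1) (nat_lit 0) (nat_lit 1) (nat_lit 0) (nat_lit 474) (nat_lit 323) (nat_lit 283)))))) (XT.nd (nat_lit 658) (nat_lit 0) (nat_lit 0) (XT.nd (nat_lit 282) (nat_lit 0) (nat_lit 0) (XT.nd (nat_lit 94) (nat_lit 0) (nat_lit 0) (XT.lf (nat_lit 0) (nat_lit 7492651164317) (nat_lit 0) (nat_lit 0) (nat_lit 0) (nat_lit 0) (nat_lit 0) (nat_lit 0) (nat_lit 1) (nat_lit 0) (nat_lit 1) (nat_lit 0) (nat_lit 475) (nat_lit 323) (nat_lit 282)) (XT.nd (nat_lit 94) (nat_lit 0) (nat_lit 0) (XT.lf (nat_lit 0) (nat_lit 8092057867666) (nat_lit 0) (nat_lit 0) (nat_lit 0) (nat_lit 0) (nat_lit 0) (nat_lit 0) (nat_lit 1) (nat_lit 0) (nat_lit 1) (nat_lit 0) (nat_lit 476) (nat_lit 323) (nat_lit 281)) (XT.lf (nat_lit 0) (nat_lit 8739417137568) (nat_lit 0) (nat_lit 0) (nat_lit 0) (nat_lit 0) (nat_lit 0) (nat_lit 0) (nat_lit 1) (nat_lit 0) (nat_lit 1) (nat_lit 0) (nat_lit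 477) (nat_lit 323) (nat_lit 280)))) (XT.nd (nat_lit 188) (nat_lit 0) (nat_lit 0) (XT.nd (nat_lit 94) (nat_lit 0) (nat_lit 0) (XT.lf (nat_lit 0) (nat_lit 9438565177105) (nat_lit 0) (nat_lit 0) (nat_lit 0) (nat_lit 0) (nat_lit 0) (nat_lit 0) (nat_lit 1) (nat_lit 0) (nat_lit 1) (nat_lit 0) (nat_lit 478) (nat_lit 323) (nat_lit 279)) (XT.lf (nat_lit 0) (nat_lit 10193645085770) (nat_lit 0) (nat_lit 0) (nat_lit 0) (nat_lit 0) (nat_lit 0) (nat_lit 0) (nat_lit 1) (nat_lit 0) (nat_lit 1) (nat_lit 0) (nat_lit 479) (nat_lit 323) (nat_lit 278))) (XT.nd (nat_lit 94) (nat_lit 0) (nat_lit 0) (XT.lf (nat_lit 0) (nat_lit 11009131411171) (nat_lit 0) (nat_lit 0) (nat_lit 0) (nat_lit 0) (nat_lit 0) (nat_lit 0) (nat_lit 1) (nat_lit 0) (nat_lit 1) (nat_lit 0) (nat_lit 480) (nat_lit 323) (nat_lit 277)) (XT.lf (nat_lit 0) (nat_lit 11889856664865) (nat_lit 0) (nat_lit 0) (nat_lit 0)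 (nat_lit 0) (nat_lit 0) (nat_lit 0) (nat_lit 1) (nat_lit 0) (nat_lit 1) (nat_lit 0) (nat_lit 481) (nat_lit 323) (nat_lit 276))))) (XT.nd (nat_lit 282) (nat_lit 0) (nat_lit 0) (XT.nd (nat_lit 94) (nat_lit 0) (nat_lit 0) (XT.lf (nat_lit 0) (nat_lit 12841039959467) (nat_lit 0) (nat_lit 0) (nat_lit 0) (nat_lit 0) (nat_lit 0) (nat_lit 0) (nat_lit 1) (nat_lit 0) (nat_lit 1) (nat_lit 0) (nat_lit 482) (nat_lit 323) (nat_lit 275)) (XT.nd (nat_lit 94) (nat_lit 0) (nat_lit 0) (XT.lf (nat_lit 0) (nat_lit 13868317936722) (nat_lit 0) (nat_lit 0) (nat_lit 0) (nat_lit 0) (nat_lit 0) (nat_lit 0) (nat_lit 1) (nat_lit 0) (nat_lit 1) (nat_lit 0) (nat_lit 483) (nat_lit 323) (nat_lit 274)) (XT.lf (nat_lit 0) (nat_lit 14977778169829) (nat_lit 0) (nat_lit 0) (nat_lit 0) (nat_lit 0) (nat_lit 0) (nat_lit 0) (nat_lit 1) (nat_lit 0) (nat_lit 1) (nat_lit 0) (nat_lit 484) (nat_lit 323)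 (nat_lit 273)))) (XT.nd (nat_lit 188) (nat_lit 0) (nat_lit 0) (XT.nd (nat_lit 94) (nat_lit 0) (nat_lit 0) (XT.lf (nat_lit 0) (nat_lit 16175995237947) (nat_lit 0) (nat_lit 0) (nat_lit 0) (nat_lit 0) (nat_lit 0) (nat_lit 0) (nat_lit 1) (nat_lit 0) (nat_lit 1) (nat_lit 0) (nat_lit 485) (nat_lit 323) (nat_lit 272)) (XT.lf (nat_lit 0) (nat_lit 17470069686665) (nat_lit 0) (nat_lit 0) (nat_lit 0) (nat_lit 0) (nat_lit 0) (nat_lit 0) (nat_lit 1) (nat_lit 0) (nat_lit 1) (nat_lit 0) (nat_lit 486) (nat_lit 323) (nat_lit 271))) (XT.nd (nat_lit 94) (nat_lit 0) (nat_lit 0) (XT.lf (nat_lit 0) (nat_lit 18867670105310) (nat_lit 0) (nat_lit 0) (nat_lit 0) (nat_lit 0) (nat_lit 0) (nat_lit 0) (nat_lit 1) (nat_lit 0) (nat_lit 1) (nat_lit 0) (nat_lit 487) (nat_lit 323) (nat_lit 270)) (XT.lf (nat_lit 0) (nat_lit 20377078570434) (nat_lit 0) (nat_lit 0) (nat_lit 0) (nat_lit 0) (nat_lit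 0) (nat_lit 0) (nat_lit 1) (nat_lit 0) (nat_lit 1) (nat_lit 0) (nat_lit 488) (nat_lit 323) (nat_lit 269))))))) (XT.nd (nat_lit 62416) (nat_lit 0) (nat_lit 0) (XT.nd (nat_lit 658) (nat_lit 0) (nat_lit 0) (XT.nd (nat_lit 282) (nat_lit 0) (nat_lit 0) (XT.nd (nat_lit 94) (nat_lit 0) (nat_lit 0) (XT.lf (nat_lit 0) (nat_lit 22007239724796) (nat_lit 0) (nat_lit 0) (nat_lit 0) (nat_lit 0) (nat_lit 0) (nat_lit 0) (nat_lit 1) (nat_lit 0) (nat_lit 1) (nat_lit 0) (nat_lit 489) (nat_lit 323) (nat_lit 268)) (XT.nd (nat_lit 94) (nat_lit 0) (nat_lit 0) (XT.lf (nat_lit 0) (nat_lit 23767813782643) (nat_lit 0) (nat_lit 0) (nat_lit 0) (nat_lit 0) (nat_lit 0) (nat_lit 0) (nat_lit 1) (nat_lit 0) (nat_lit 1) (nat_lit 0) (nat_lit 490) (nat_lit 323) (nat_lit 267)) (XT.lf (nat_lit 0) (nat_lit 25669233775429) (nat_lit 0) (nat_lit 0) (nat_lit 0) (nat_lit 0) (nat_lit 0) (nat_lit 0) (nat_lit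 1) (nat_lit 0) (nat_lit 1) (nat_lit 0) (nat_lit 491) (nat_lit 323) (nat_lit 266)))) (XT.nd (nat_lit 188) (nat_lit 0) (nat_lit 0) (XT.nd (nat_lit 94) (nat_lit 0) (nat_lit 0) (XT.lf (nat_lit 0) (nat_lit 27722767377185) (nat_lit 0) (nat_lit 0) (nat_lit 0) (nat_lit 0) (nat_lit 0) (nat_lit 0) (nat_lit 1) (nat_lit 0) (nat_lit 1) (nat_lit 0) (nat_lit 492) (nat_lit 323) (nat_lit 265)) (XT.lf (nat_lit 0) (nat_lit 29940583675922) (nat_lit 0) (nat_lit 0) (nat_lit 0) (nat_lit 0) (nat_lit 0) (nat_lit 0) (nat_lit 1) (nat_lit 0) (nat_lit 1) (nat_lit 0) (nat_lit 493) (nat_lit 323) (nat_lit 264))) (XT.nd (nat_lit 94) (nat_lit 0) (nat_lit 0) (XT.lf (nat_lit 0) (nat_lit 32335825286743) (nat_lit 0) (nat_lit 0) (nat_lit 0) (nat_lit 0) (nat_lit 0) (nat_lit 0) (nat_lit 1) (nat_lit 0) (nat_lit 1) (nat_lit 0) (nat_lit 494) (nat_lit 323) (nat_lit 263)) (XT.lf (nat_lit 0) (nat_lit 34922686234009)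 (nat_lit 0) (nat_lit 0) (nat_lit 0) (nat_lit 0) (nat_lit 0) (nat_lit 0) (nat_lit 1) (nat_lit 0) (nat_lit 1) (nat_lit 0) (nat_lit 495) (nat_lit 323) (nat_lit 262))))) (XT.nd (nat_lit 282) (nat_lit 0) (nat_lit 0) (XT.nd (nat_lit 94) (nat_lit 0) (nat_lit 0) (XT.lf (nat_lit 0) (nat_lit 37716496064074) (nat_lit 0) (nat_lit 0) (nat_lit 0) (nat_lit 0) (nat_lit 0) (nat_lit 0) (nat_lit 1) (nat_lit 0) (nat_lit 1) (nat_lit 0) (nat_lit 496) (nat_lit 323) (nat_lit 261)) (XT.nd (nat_lit 94) (nat_lit 0) (nat_lit 0) (XT.lf (nat_lit 0) (nat_lit 40733810687042) (nat_lit 0) (nat_lit 0) (nat_lit 0) (nat_lit 0) (nat_lit 0) (nat_lit 0) (nat_lit 1) (nat_lit 0) (nat_lit 1) (nat_lit 0) (nat_lit 497) (nat_lit 323) (nat_lit 260)) (XT.lf (nat_lit 0) (nat_lit 43992510485864) (nat_lit 0) (nat_lit 0) (nat_lit 0) (nat_lit 0) (nat_lit 0) (nat_lit 0) (nat_lit 1) (nat_lit 0) (nat_lit 1) (nat_lit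 0) (nat_lit 498) (nat_lit 323) (nat_lit 259)))) (XT.nd (nat_lit 188) (nat_lit 0) (nat_lit 0) (XT.nd (nat_lit 94) (nat_lit 0) (nat_lit 0) (XT.lf (nat_lit 0) (nat_lit 47511906274162) (nat_lit 0) (nat_lit 0) (nat_lit 0) (nat_lit 0) (nat_lit 0) (nat_lit 0) (nat_lit 1) (nat_lit 0) (nat_lit 1) (nat_lit 0) (nat_lit 499) (nat_lit 323) (nat_lit 258)) (XT.lf (nat_lit 0) (nat_lit 51312853730683) (nat_lit 0) (nat_lit 0) (nat_lit 0) (nat_lit 0) (nat_lit 0) (nat_lit 0) (nat_lit 1) (nat_lit 0) (nat_lit 1) (nat_lit 0) (nat_lit 500) (nat_lit 323) (nat_lit 257))) (XT.nd (nat_lit 94) (nat_lit 0) (nat_lit 0) (XT.lf (nat_lit 0) (nat_lit 55417876988501) (nat_lit 0) (nat_lit 0) (nat_lit 0) (nat_lit 0) (nat_lit 0) (nat_lit 0) (nat_lit 1) (nat_lit 0) (nat_lit 1) (nat_lit 0) (nat_lit 501) (nat_lit 323) (nat_lit 256)) (XT.lf (nat_lit 0) (nat_lit 59851302111367) (nat_lit 0) (nat_lit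 0) (nat_lit 0) (nat_lit 0) (nat_lit 0) (nat_lit 0) (nat_lit 1) (nat_lit 0) (nat_lit 1) (nat_lit 0) (nat_lit 502) (nat_lit 323) (nat_lit 255)))))) (XT.nd (nat_lit 658) (nat_lit 0) (nat_lit 0) (XT.nd (nat_lit 282) (nat_lit 0) (nat_lit 0) (XT.nd (nat_lit 94) (nat_lit 0) (nat_lit 0) (XT.lf (nat_lit 0) (nat_lit 136959936303) (nat_lit 0) (nat_lit 0) (nat_lit 0) (nat_lit 0) (nat_lit 0) (nat_lit 0) (nat_lit 1) (nat_lit 0) (nat_lit 1) (nat_lit 0) (nat_lit 432) (nat_lit 324) (nat_lit 324)) (XT.nd (nat_lit 94) (nat_lit 0) (nat_lit 0) (XT.lf (nat_lit 0) (nat_lit 295817722659) (nat_lit 0) (nat_lit 0) (nat_lit 0) (nat_lit 0) (nat_lit 0) (nat_lit 0) (nat_lit 1) (nat_lit 0) (nat_lit 1) (nat_lit 0) (nat_lit 433) (nat_lit 324) (nat_lit 323)) (XT.lf (nat_lit 0) (nat_lit 319468168149) (nat_lit 0) (nat_lit 0) (nat_lit 0) (nat_lit 0) (nat_lit 0) (nat_lit 0) (nat_lit 1) (nat_lit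 0) (nat_lit 1) (nat_lit 0) (nat_lit 434) (nat_lit 324) (nat_lit 322)))) (XT.nd (nat_lit 188) (nat_lit 0) (nat_lit 0) (XT.nd (nat_lit 94) (nat_lit 0) (nat_lit 0) (XT.lf (nat_lit 0) (nat_lit 345011359864) (nat_lit 0) (nat_lit 0) (nat_lit 0) (nat_lit 0) (nat_lit 0) (nat_lit 0) (nat_lit 1) (nat_lit 0) (nat_lit 1) (nat_lit 0) (nat_lit 435) (nat_lit 324) (nat_lit 321)) (XT.lf (nat_lit 0) (nat_lit 372598664867) (nat_lit 0) (nat_lit 0) (nat_lit 0) (nat_lit 0) (nat_lit 0) (nat_lit 0) (nat_lit 1) (nat_lit 0) (nat_lit 1) (nat_lit 0) (nat_lit 436) (nat_lit 324) (nat_lit 320))) (XT.nd (nat_lit 94) (nat_lit 0) (nat_lit 0) (XT.lf (nat_lit 0) (nat_lit 402393563483) (nat_lit 0) (nat_lit 0) (nat_lit 0) (nat_lit 0) (nat_lit 0) (nat_lit 0) (nat_lit 1) (nat_lit 0) (nat_lit 1) (nat_lit 0) (nat_lit 437) (nat_lit 324) (nat_lit 319)) (XT.lf (nat_lit 0) (nat_lit 434572618074) (nat_lit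 0) (nat_lit 0) (nat_lit 0) (nat_lit 0) (nat_lit 0) (nat_lit 0) (nat_lit 1) (nat_lit 0) (nat_lit 1) (nat_lit 0) (nat_lit 438) (nat_lit 324) (nat_lit 318))))) (XT.nd (nat_lit 376) (nat_lit 0) (nat_lit 0) (XT.nd (nat_lit 188) (nat_lit 0) (nat_lit 0) (XT.nd (nat_lit 94) (nat_lit 0) (nat_lit 0) (XT.lf (nat_lit 0) (nat_lit 469326519335) (nat_lit 0) (nat_lit 0) (nat_lit 0) (nat_lit 0) (nat_lit 0) (nat_lit 0) (nat_lit 1) (nat_lit 0) (nat_lit 1) (nat_lit 0) (nat_lit 439) (nat_lit 324) (nat_lit 317)) (XT.lf (nat_lit 0) (nat_lit 506861216310) (nat_lit 0) (nat_lit 0) (nat_lit 0) (nat_lit 0) (nat_lit 0) (nat_lit 0) (nat_lit 1) (nat_lit 0) (nat_lit 1) (nat_lit 0) (nat_lit 440) (nat_lit 324) (nat_lit 316))) (XT.nd (nat_lit 94) (nat_lit 0) (nat_lit 0) (XT.lf (nat_lit 0) (nat_lit 547399136832) (nat_lit 0) (nat_lit 0) (nat_lit 0) (nat_lit 0) (nat_lit 0) (nat_lit 0) (nat_lit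 1) (nat_lit 0) (nat_lit 1) (nat_lit 0) (nat_lit 441) (nat_lit 324) (nat_lit 315)) (XT.lf (nat_lit 0) (nat_lit 591180505617) (nat_lit 0) (nat_lit 0) (nat_lit 0) (nat_lit 0) (nat_lit 0) (nat_lit 0) (nat_lit 1) (nat_lit 0) (nat_lit 1) (nat_lit 0) (nat_lit 442) (nat_lit 324) (nat_lit 314)))) (XT.nd (nat_lit 188) (nat_lit 0) (nat_lit 0) (XT.nd (nat_lit 94) (nat_lit 0) (nat_lit 0) (XT.lf (nat_lit 0) (nat_lit 638464767811) (nat_lit 0) (nat_lit 0) (nat_lit 0) (nat_lit 0) (nat_lit 0) (nat_lit 0) (nat_lit 1) (nat_lit 0) (nat_lit 1) (nat_lit 0) (nat_lit 443) (nat_lit 324) (nat_lit 313)) (XT.lf (nat_lit 0) (nat_lit 689532126451) (nat_lit 0) (nat_lit 0) (nat_lit 0) (nat_lit 0) (nat_lit 0) (nat_lit 0) (nat_lit 1) (nat_lit 0) (nat_lit 1) (nat_lit 0) (nat_lit 444) (nat_lit 324) (nat_lit 312))) (XT.nd (nat_lit 94) (nat_lit 0) (nat_lit 0) (XT.lf (nat_lit 0) (nat_lit 744685202922)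 (nat_lit 0) (nat_lit 0) (nat_lit 0) (nat_lit 0) (nat_lit 0) (nat_lit 0) (nat_lit 1) (nat_lit 0) (nat_lit 1) (nat_lit 0) (nat_lit 445) (nat_lit 324) (nat_lit 311)) (XT.lf (nat_lit 0) (nat_lit 804250830268) (nat_lit 0) (nat_lit 0) (nat_lit 0) (nat_lit 0) (nat_lit 0) (nat_lit 0) (nat_lit 1) (nat_lit 0) (nat_lit 1) (nat_lit 0) (nat_lit 446) (nat_lit 324) (nat_lit 310))))))))
noncomputable def xc23 : XT := (XT.nd (nat_lit 2632) (nat_lit 0) (nat_lit 0) (XT.nd (nat_lit 1316) (nat_lit 0) (nat_lit 0) (XT.nd (nat_lit 658) (nat_lit 0) (nat_lit 0) (XT.nd (nat_lit 282) (nat_lit 0) (nat_lit 0) (XT.nd (nat_lit 94) (nat_lit 0) (nat_lit 0) (XT.lf (nat_lit 0) (nat_lit 868581989985) (nat_lit 0) (nat_lit 0) (nat_lit 0) (nat_lit 0) (nat_lit 0) (nat_lit 0) (nat_lit 1) (nat_lit 0) (nat_lit 1) (nat_lit 0) (nat_lit 447) (nat_lit 324) (nat_lit 309)) (XT.nd (nat_lit 94) (nat_lit 0)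 (nat_lit 0) (XT.lf (nat_lit 0) (nat_lit 938059903761) (nat_lit 0) (nat_lit 0) (nat_lit 0) (nat_lit 0) (nat_lit 0) (nat_lit 0) (nat_lit 1) (nat_lit 0) (nat_lit 1) (nat_lit 0) (nat_lit 448) (nat_lit 324) (nat_lit 308)) (XT.lf (nat_lit 0) (nat_lit 1013096292565) (nat_lit 0) (nat_lit 0) (nat_lit 0) (nat_lit 0) (nat_lit 0) (nat_lit 0) (nat_lit 1) (nat_lit 0) (nat_lit 1) (nat_lit 0) (nat_lit 449) (nat_lit 324) (nat_lit 307)))) (XT.nd (nat_lit 188) (nat_lit 0) (nat_lit 0) (XT.nd (nat_lit 94) (nat_lit 0) (nat_lit 0) (XT.lf (nat_lit 0) (nat_lit 1094135816481) (nat_lit 0) (nat_lit 0) (nat_lit 0) (nat_lit 0) (nat_lit 0) (nat_lit 0) (nat_lit 1) (nat_lit 0) (nat_lit 1) (nat_lit 0) (nat_lit 450) (nat_lit 324) (nat_lit 306)) (XT.lf (nat_lit 0) (nat_lit 1181658709722) (nat_lit 0) (nat_lit 0) (nat_lit 0) (nat_lit 0) (nat_lit 0) (nat_lit 0) (nat_lit 1) (nat_lit 0) (nat_lit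 1) (nat_lit 0) (nat_lit 451) (nat_lit 324) (nat_lit 305))) (XT.nd (nat_lit 94) (nat_lit 0) (nat_lit 0) (XT.lf (nat_lit 0) (nat_lit 1276183626473) (nat_lit 0) (nat_lit 0) (nat_lit 0) (nat_lit 0) (nat_lit 0) (nat_lit 0) (nat_lit 1) (nat_lit 0) (nat_lit 1) (nat_lit 0) (nat_lit 452) (nat_lit 324) (nat_lit 304)) (XT.lf (nat_lit 0) (nat_lit 1378270714387) (nat_lit 0) (nat_lit 0) (nat_lit 0) (nat_lit 0) (nat_lit 0) (nat_lit 0) (nat_lit 1) (nat_lit 0) (nat_lit 1) (nat_lit 0) (nat_lit 453) (nat_lit 324) (nat_lit 303))))) (XT.nd (nat_lit 282) (nat_lit 0) (nat_lit 0) (XT.nd (nat_lit 94) (nat_lit 0) (nat_lit 0) (XT.lf (nat_lit 0) (nat_lit 1488524933986) (nat_lit 0) (nat_lit 0) (nat_lit 0) (nat_lit 0) (nat_lit 0) (nat_lit 0) (nat_lit 1) (nat_lit 0) (nat_lit 1) (nat_lit 0) (nat_lit 454) (nat_lit 324) (nat_lit 302)) (XT.nd (nat_lit 94) (nat_lit 0) (nat_lit 0) (XT.lf (nat_lit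 0) (nat_lit 1607599643607) (nat_lit 0) (nat_lit 0) (nat_lit 0) (nat_lit 0) (nat_lit 0) (nat_lit 0) (nat_lit 1) (nat_lit 0) (nat_lit 1) (nat_lit 0) (nat_lit 455) (nat_lit 324) (nat_lit 301)) (XT.lf (nat_lit 0) (nat_lit 1736200471161) (nat_lit 0) (nat_lit 0) (nat_lit 0) (nat_lit 0) (nat_lit 0) (nat_lit 0) (nat_lit 1) (nat_lit 0) (nat_lit 1) (nat_lit 0) (nat_lit 456) (nat_lit 324) (nat_lit 300)))) (XT.nd (nat_lit 188) (nat_lit 0) (nat_lit 0) (XT.nd (nat_lit 94) (nat_lit 0) (nat_lit 0) (XT.lf (nat_lit 0) (nat_lit 1875089495624) (nat_lit 0) (nat_lit 0) (nat_lit 0) (nat_lit 0) (nat_lit 0) (nat_lit 0) (nat_lit 1) (nat_lit 0) (nat_lit 1) (nat_lit 0) (nat_lit 457) (nat_lit 324) (nat_lit 299)) (XT.lf (nat_lit 0) (nat_lit 2025089763068) (nat_lit 0) (nat_lit 0) (nat_lit 0) (nat_lit 0) (nat_lit 0) (nat_lit 0) (nat_lit 1) (nat_lit 0) (nat_lit 1) (nat_lit 0) (nat_lit 458)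 (nat_lit 324) (nat_lit 298))) (XT.nd (nat_lit 94) (nat_lit 0) (nat_lit 0) (XT.lf (nat_lit 0) (nat_lit 2187090163966) (nat_lit 0) (nat_lit 0) (nat_lit 0) (nat_lit 0) (nat_lit 0) (nat_lit 0) (nat_lit 1) (nat_lit 0) (nat_lit 1) (nat_lit 0) (nat_lit 459) (nat_lit 324) (nat_lit 297)) (XT.lf (nat_lit 0) (nat_lit 2362050700694) (nat_lit 0) (nat_lit 0) (nat_lit 0) (nat_lit 0) (nat_lit 0) (nat_lit 0) (nat_lit 1) (nat_lit 0) (nat_lit 1) (nat_lit 0) (nat_lit 460) (nat_lit 324) (nat_lit 296)))))) (XT.nd (nat_lit 658) (nat_lit 0) (nat_lit 0) (XT.nd (nat_lit 282) (nat_lit 0) (nat_lit 0) (XT.nd (nat_lit 94) (nat_lit 0) (nat_lit 0) (XT.lf (nat_lit 0) (nat_lit 2551008176434) (nat_lit 0) (nat_lit 0) (nat_lit 0) (nat_lit 0) (nat_lit 0) (nat_lit 0) (nat_lit 1) (nat_lit 0) (nat_lit 1) (nat_lit 0) (nat_lit 461) (nat_lit 324) (nat_lit 295)) (XT.nd (nat_lit 94) (nat_lit 0) (nat_lit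 0) (XT.lf (nat_lit 0) (nat_lit 2755082339188) (nat_lit 0) (nat_lit 0) (nat_lit 0) (nat_lit 0) (nat_lit 0) (nat_lit 0) (nat_lit 1) (nat_lit 0) (nat_lit 1) (nat_lit 0) (nat_lit 462) (nat_lit 324) (nat_lit 294)) (XT.lf (nat_lit 0) (nat_lit 2975482517330) (nat_lit 0) (nat_lit 0) (nat_lit 0) (nat_lit 0) (nat_lit 0) (nat_lit 0) (nat_lit 1) (nat_lit 0) (nat_lit 1) (nat_lit 0) (nat_lit 463) (nat_lit 324) (nat_lit 293)))) (XT.nd (nat_lit 188) (nat_lit 0) (nat_lit 0) (XT.nd (nat_lit 94) (nat_lit 0) (nat_lit 0) (XT.lf (nat_lit 0) (nat_lit 3213514785988) (nat_lit 0) (nat_lit 0) (nat_lit 0) (nat_lit 0) (nat_lit 0) (nat_lit 0) (nat_lit 1) (nat_lit 0) (nat_lit 1) (nat_lit 0) (nat_lit 464) (nat_lit 324) (nat_lit 292)) (XT.lf (nat_lit 0) (nat_lit 3470589706755) (nat_lit 0) (nat_lit 0) (nat_lit 0) (nat_lit 0) (nat_lit 0) (nat_lit 0) (nat_lit 1) (nat_lit 0) (nat_lit 1) (nat_lit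 0) (nat_lit 465) (nat_lit 324) (nat_lit 291))) (XT.nd (nat_lit 94) (nat_lit 0) (nat_lit 0) (XT.lf (nat_lit 0) (nat_lit 3748230686568) (nat_lit 0) (nat_lit 0) (nat_lit 0) (nat_lit 0) (nat_lit 0) (nat_lit 0) (nat_lit 1) (nat_lit 0) (nat_lit 1) (nat_lit 0) (nat_lit 466) (nat_lit 324) (nat_lit 290)) (XT.lf (nat_lit 0) (nat_lit 4048083005309) (nat_lit 0) (nat_lit 0) (nat_lit 0) (nat_lit 0) (nat_lit 0) (nat_lit 0) (nat_lit 1) (nat_lit 0) (nat_lit 1) (nat_lit 0) (nat_lit 467) (nat_lit 324) (nat_lit 289))))) (XT.nd (nat_lit 282) (nat_lit 0) (nat_lit 0) (XT.nd (nat_lit 94) (nat_lit 0) (nat_lit 0) (XT.lf (nat_lit 0) (nat_lit 4371923565606) (nat_lit 0) (nat_lit 0) (nat_lit 0) (nat_lit 0) (nat_lit 0) (nat_lit 0) (nat_lit 1) (nat_lit 0) (nat_lit 1) (nat_lit 0) (nat_lit 468) (nat_lit 324) (nat_lit 288)) (XT.nd (nat_lit 94) (nat_lit 0) (nat_lit 0) (XT.lf (nat_lit 0) (nat_lit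 4721671422633) (nat_lit 0) (nat_lit 0) (nat_lit 0) (nat_lit 0) (nat_lit 0) (nat_lit 0) (nat_lit 1) (nat_lit 0) (nat_lit 1) (nat_lit 0) (nat_lit 469) (nat_lit 324) (nat_lit 287)) (XT.lf (nat_lit 0) (nat_lit 5099399156281) (nat_lit 0) (nat_lit 0) (nat_lit 0) (nat_lit 0) (nat_lit 0) (nat_lit 0) (nat_lit 1) (nat_lit 0) (nat_lit 1) (nat_lit 0) (nat_lit 470) (nat_lit 324) (nat_lit 286)))) (XT.nd (nat_lit 188) (nat_lit 0) (nat_lit 0) (XT.nd (nat_lit 94) (nat_lit 0) (nat_lit 0) (XT.lf (nat_lit 0) (nat_lit 5507345153121) (nat_lit 0) (nat_lit 0) (nat_lit 0) (nat_lit 0) (nat_lit 0) (nat_lit 0) (nat_lit 1) (nat_lit 0) (nat_lit 1) (nat_lit 0) (nat_lit 471) (nat_lit 324) (nat_lit 285)) (XT.lf (nat_lit 0) (nat_lit 5947926870913) (nat_lit 0) (nat_lit 0) (nat_lit 0) (nat_lit 0) (nat_lit 0) (nat_lit 0) (nat_lit 1) (nat_lit 0) (nat_lit 1) (nat_lit 0) (nat_lit 472) (nat_lit 324)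 (nat_lit 284))) (XT.nd (nat_lit 94) (nat_lit 0) (nat_lit 0) (XT.lf (nat_lit 0) (nat_lit 6423755164280) (nat_lit 0) (nat_lit 0) (nat_lit 0) (nat_lit 0) (nat_lit 0) (nat_lit 0) (nat_lit 1) (nat_lit 0) (nat_lit 1) (nat_lit 0) (nat_lit 473) (nat_lit 324) (nat_lit 283)) (XT.lf (nat_lit 0) (nat_lit 6937649756441) (nat_lit 0) (nat_lit 0) (nat_lit 0) (nat_lit 0) (nat_lit 0) (nat_lit 0) (nat_lit 1) (nat_lit 0) (nat_lit 1) (nat_lit 0) (nat_lit 474) (nat_lit 324) (nat_lit 282))))))) (XT.nd (nat_lit 1316) (nat_lit 0) (nat_lit 0) (XT.nd (nat_lit 658) (nat_lit 0) (nat_lit 0) (XT.nd (nat_lit 282) (nat_lit 0) (nat_lit 0) (XT.nd (nat_lit 94) (nat_lit 0) (nat_lit 0) (XT.lf (nat_lit 0) (nat_lit 7492655948684) (nat_lit 0) (nat_lit 0) (nat_lit 0) (nat_lit 0) (nat_lit 0) (nat_lit 0) (nat_lit 1) (nat_lit 0) (nat_lit 1) (nat_lit 0) (nat_lit 475) (nat_lit 324) (nat_lit 281)) (XT.nd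 (nat_lit 94) (nat_lit 0) (nat_lit 0) (XT.lf (nat_lit 0) (nat_lit 8092062666593) (nat_lit 0) (nat_lit 0) (nat_lit 0) (nat_lit 0) (nat_lit 0) (nat_lit 0) (nat_lit 1) (nat_lit 0) (nat_lit 1) (nat_lit 0) (nat_lit 476) (nat_lit 324) (nat_lit 280)) (XT.lf (nat_lit 0) (nat_lit 8739421949978) (nat_lit 0) (nat_lit 0) (nat_lit 0) (nat_lit 0) (nat_lit 0) (nat_lit 0) (nat_lit 1) (nat_lit 0) (nat_lit 1) (nat_lit 0) (nat_lit 477) (nat_lit 324) (nat_lit 279)))) (XT.nd (nat_lit 188) (nat_lit 0) (nat_lit 0) (XT.nd (nat_lit 94) (nat_lit 0) (nat_lit 0) (XT.lf (nat_lit 0) (nat_lit 9438570001998) (nat_lit 0) (nat_lit 0) (nat_lit 0) (nat_lit 0) (nat_lit 0) (nat_lit 0) (nat_lit 1) (nat_lit 0) (nat_lit 1) (nat_lit 0) (nat_lit 478) (nat_lit 324) (nat_lit 278)) (XT.lf (nat_lit 0) (nat_lit 10193649922222) (nat_lit 0) (nat_lit 0) (nat_lit 0) (nat_lit 0) (nat_lit 0) (nat_lit 0) (nat_lit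 1) (nat_lit 0) (nat_lit 1) (nat_lit 0) (nat_lit 479) (nat_lit 324) (nat_lit 277))) (XT.nd (nat_lit 94) (nat_lit 0) (nat_lit 0) (XT.lf (nat_lit 0) (nat_lit 11009136258325) (nat_lit 0) (nat_lit 0) (nat_lit 0) (nat_lit 0) (nat_lit 0) (nat_lit 0) (nat_lit 1) (nat_lit 0) (nat_lit 1) (nat_lit 0) (nat_lit 480) (nat_lit 324) (nat_lit 276)) (XT.lf (nat_lit 0) (nat_lit 11889861521929) (nat_lit 0) (nat_lit 0) (nat_lit 0) (nat_lit 0) (nat_lit 0) (nat_lit 0) (nat_lit 1) (nat_lit 0) (nat_lit 1) (nat_lit 0) (nat_lit 481) (nat_lit 324) (nat_lit 275))))) (XT.nd (nat_lit 282) (nat_lit 0) (nat_lit 0) (XT.nd (nat_lit 94) (nat_lit 0) (nat_lit 0) (XT.lf (nat_lit 0) (nat_lit 12841044825706) (nat_lit 0) (nat_lit 0) (nat_lit 0) (nat_lit 0) (nat_lit 0) (nat_lit 0) (nat_lit 1) (nat_lit 0) (nat_lit 1) (nat_lit 0) (nat_lit 482) (nat_lit 324) (nat_lit 274)) (XT.nd (nat_lit 94) (nat_lit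 0) (nat_lit 0) (XT.lf (nat_lit 0) (nat_lit 13868322811457) (nat_lit 0) (nat_lit 0) (nat_lit 0) (nat_lit 0) (nat_lit 0) (nat_lit 0) (nat_lit 1) (nat_lit 0) (nat_lit 1) (nat_lit 0) (nat_lit 483) (nat_lit 324) (nat_lit 273)) (XT.lf (nat_lit 0) (nat_lit 14977783052431) (nat_lit 0) (nat_lit 0) (nat_lit 0) (nat_lit 0) (nat_lit 0) (nat_lit 0) (nat_lit 1) (nat_lit 0) (nat_lit 1) (nat_lit 0) (nat_lit 484) (nat_lit 324) (nat_lit 272)))) (XT.nd (nat_lit 188) (nat_lit 0) (nat_lit 0) (XT.nd (nat_lit 94) (nat_lit 0) (nat_lit 0) (XT.lf (nat_lit 0) (nat_lit 16176000127833) (nat_lit 0) (nat_lit 0) (nat_lit 0) (nat_lit 0) (nat_lit 0) (nat_lit 0) (nat_lit 1) (nat_lit 0) (nat_lit 1) (nat_lit 0) (nat_lit 485) (nat_lit 324) (nat_lit 271)) (XT.lf (nat_lit 0) (nat_lit 17470074583296) (nat_lit 0) (nat_lit 0) (nat_lit 0) (nat_lit 0) (nat_lit 0) (nat_lit 0) (nat_lit 1) (nat_lit 0) (nat_lit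 1) (nat_lit 0) (nat_lit 486) (nat_lit 324) (nat_lit 270))) (XT.nd (nat_lit 94) (nat_lit 0) (nat_lit 0) (XT.lf (nat_lit 0) (nat_lit 18867675008185) (nat_lit 0) (nat_lit 0) (nat_lit 0) (nat_lit 0) (nat_lit 0) (nat_lit 0) (nat_lit 1) (nat_lit 0) (nat_lit 1) (nat_lit 0) (nat_lit 487) (nat_lit 324) (nat_lit 269)) (XT.lf (nat_lit 0) (nat_lit 20377083479092) (nat_lit 0) (nat_lit 0) (nat_lit 0) (nat_lit 0) (nat_lit 0) (nat_lit 0) (nat_lit 1) (nat_lit 0) (nat_lit 1) (nat_lit 0) (nat_lit 488) (nat_lit 324) (nat_lit 268)))))) (XT.nd (nat_lit 658) (nat_lit 0) (nat_lit 0) (XT.nd (nat_lit 282) (nat_lit 0) (nat_lit 0) (XT.nd (nat_lit 94) (nat_lit 0) (nat_lit 0) (XT.lf (nat_lit 0) (nat_lit 22007244638808) (nat_lit 0) (nat_lit 0) (nat_lit 0) (nat_lit 0) (nat_lit 0) (nat_lit 0) (nat_lit 1) (nat_lit 0) (nat_lit 1) (nat_lit 0) (nat_lit 489) (nat_lit 324) (nat_lit 267)) (XT.nd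 (nat_lit 94) (nat_lit 0) (nat_lit 0) (XT.lf (nat_lit 0) (nat_lit 23767818701612) (nat_lit 0) (nat_lit 0) (nat_lit 0) (nat_lit 0) (nat_lit 0) (nat_lit 0) (nat_lit 1) (nat_lit 0) (nat_lit 1) (nat_lit 0) (nat_lit 490) (nat_lit 324) (nat_lit 266)) (XT.lf (nat_lit 0) (nat_lit 25669238698988) (nat_lit 0) (nat_lit 0) (nat_lit 0) (nat_lit 0) (nat_lit 0) (nat_lit 0) (nat_lit 1) (nat_lit 0) (nat_lit 1) (nat_lit 0) (nat_lit 491) (nat_lit 324) (nat_lit 265)))) (XT.nd (nat_lit 188) (nat_lit 0) (nat_lit 0) (XT.nd (nat_lit 94) (nat_lit 0) (nat_lit 0) (XT.lf (nat_lit 0) (nat_lit 27722772304994) (nat_lit 0) (nat_lit 0) (nat_lit 0) (nat_lit 0) (nat_lit 0) (nat_lit 0) (nat_lit 1) (nat_lit 0) (nat_lit 1) (nat_lit 0) (nat_lit 492) (nat_lit 324) (nat_lit 264)) (XT.lf (nat_lit 0) (nat_lit 29940588607666) (nat_lit 0) (nat_lit 0) (nat_lit 0) (nat_lit 0) (nat_lit 0) (nat_lit 0) (nat_lit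 1) (nat_lit 0) (nat_lit 1) (nat_lit 0) (nat_lit 493) (nat_lit 324) (nat_lit 263))) (XT.nd (nat_lit 94) (nat_lit 0) (nat_lit 0) (XT.lf (nat_lit 0) (nat_lit 32335830222131) (nat_lit 0) (nat_lit 0) (nat_lit 0) (nat_lit 0) (nat_lit 0) (nat_lit 0) (nat_lit 1) (nat_lit 0) (nat_lit 1) (nat_lit 0) (nat_lit 494) (nat_lit 324) (nat_lit 262)) (XT.lf (nat_lit 0) (nat_lit 34922691172771) (nat_lit 0) (nat_lit 0) (nat_lit 0) (nat_lit 0) (nat_lit 0) (nat_lit 0) (nat_lit 1) (nat_lit 0) (nat_lit 1) (nat_lit 0) (nat_lit 495) (nat_lit 324) (nat_lit 261))))) (XT.nd (nat_lit 376) (nat_lit 0) (nat_lit 0) (XT.nd (nat_lit 188) (nat_lit 0) (nat_lit 0) (XT.nd (nat_lit 94) (nat_lit 0) (nat_lit 0) (XT.lf (nat_lit 0) (nat_lit 37716501005960) (nat_lit 0) (nat_lit 0) (nat_lit 0) (nat_lit 0) (nat_lit 0) (nat_lit 0) (nat_lit 1) (nat_lit 0) (nat_lit 1) (nat_lit 0) (nat_lit 496) (nat_lit 324)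 (nat_lit 260)) (XT.lf (nat_lit 0) (nat_lit 40733815631820) (nat_lit 0) (nat_lit 0) (nat_lit 0) (nat_lit 0) (nat_lit 0) (nat_lit 0) (nat_lit 1) (nat_lit 0) (nat_lit 1) (nat_lit 0) (nat_lit 497) (nat_lit 324) (nat_lit 259))) (XT.nd (nat_lit 94) (nat_lit 0) (nat_lit 0) (XT.lf (nat_lit 0) (nat_lit 43992515433321) (nat_lit 0) (nat_lit 0) (nat_lit 0) (nat_lit 0) (nat_lit 0) (nat_lit 0) (nat_lit 1) (nat_lit 0) (nat_lit 1) (nat_lit 0) (nat_lit 498) (nat_lit 324) (nat_lit 258)) (XT.lf (nat_lit 0) (nat_lit 47511911224099) (nat_lit 0) (nat_lit 0) (nat_lit 0) (nat_lit 0) (nat_lit 0) (nat_lit 0) (nat_lit 1) (nat_lit 0) (nat_lit 1) (nat_lit 0) (nat_lit 499) (nat_lit 324) (nat_lit 257)))) (XT.nd (nat_lit 188) (nat_lit 0) (nat_lit 0) (XT.nd (nat_lit 94) (nat_lit 0) (nat_lit 0) (XT.lf (nat_lit 0) (nat_lit 51312858682916) (nat_lit 0) (nat_lit 0) (nat_lit 0) (nat_lit 0) (nat_lit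 0) (nat_lit 0) (nat_lit 1) (nat_lit 0) (nat_lit 1) (nat_lit 0) (nat_lit 500) (nat_lit 324) (nat_lit 256)) (XT.lf (nat_lit 0) (nat_lit 55417881942860) (nat_lit 0) (nat_lit 0) (nat_lit 0) (nat_lit 0) (nat_lit 0) (nat_lit 0) (nat_lit 1) (nat_lit 0) (nat_lit 1) (nat_lit 0) (nat_lit 501) (nat_lit 324) (nat_lit 255))) (XT.nd (nat_lit 61006) (nat_lit 0) (nat_lit 0) (XT.lf (nat_lit 0) (nat_lit 59851307067694) (nat_lit 0) (nat_lit 0) (nat_lit 0) (nat_lit 0) (nat_lit 0) (nat_lit 0) (nat_lit 1) (nat_lit 0) (nat_lit 1) (nat_lit 0) (nat_lit 502) (nat_lit 324) (nat_lit 254)) (XT.lf (nat_lit 0) (nat_lit 117436042541) (nat_lit 0) (nat_lit 0) (nat_lit 0) (nat_lit 0) (nat_lit 0) (nat_lit 0) (nat_lit 1) (nat_lit 0) (nat_lit 1) (nat_lit 0) (nat_lit 430) (nat_lit 325) (nat_lit 325))))))))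
noncomputable def xc24 : XT := (XT.nd (nat_lit 2632) (nat_lit 0) (nat_lit 0) (XT.nd (nat_lit 1316) (nat_lit 0) (nat_lit 0) (XT.nd (nat_lit 658) (nat_lit 0) (nat_lit 0) (XT.nd (nat_lit 282) (nat_lit 0) (nat_lit 0) (XT.nd (nat_lit 94) (nat_lit 0) (nat_lit 0) (XT.lf (nat_lit 0) (nat_lit 253644852953) (nat_lit 0) (nat_lit 0) (nat_lit 0) (nat_lit 0) (nat_lit 0) (nat_lit 0) (nat_lit 1) (nat_lit 0) (nat_lit 1) (nat_lit 0) (nat_lit 431) (nat_lit 325) (nat_lit 324)) (XT.nd (nat_lit 94) (nat_lit 0) (nat_lit 0) (XT.lf (nat_lit 0) (nat_lit 273920271081) (nat_lit 0) (nat_lit 0) (nat_lit 0) (nat_lit 0) (nat_lit 0) (nat_lit 0) (nat_lit 1) (nat_lit 0) (nat_lit 1) (nat_lit 0) (nat_lit 432) (nat_lit 325) (nat_lit 323)) (XT.lf (nat_lit 0) (nat_lit 295818490092) (nat_lit 0) (nat_lit 0) (nat_lit 0) (nat_lit 0) (nat_lit 0) (nat_lit 0) (nat_lit 1) (nat_lit 0) (nat_lit 1) (nat_lit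 0) (nat_lit 433) (nat_lit 325) (nat_lit 322)))) (XT.nd (nat_lit 188) (nat_lit 0) (nat_lit 0) (XT.nd (nat_lit 94) (nat_lit 0) (nat_lit 0) (XT.lf (nat_lit 0) (nat_lit 319469277210) (nat_lit 0) (nat_lit 0) (nat_lit 0) (nat_lit 0) (nat_lit 0) (nat_lit 0) (nat_lit 1) (nat_lit 0) (nat_lit 1) (nat_lit 0) (nat_lit 434) (nat_lit 325) (nat_lit 321)) (XT.lf (nat_lit 0) (nat_lit 345012785247) (nat_lit 0) (nat_lit 0) (nat_lit 0) (nat_lit 0) (nat_lit 0) (nat_lit 0) (nat_lit 1) (nat_lit 0) (nat_lit 1) (nat_lit 0) (nat_lit 435) (nat_lit 325) (nat_lit 320))) (XT.nd (nat_lit 94) (nat_lit 0) (nat_lit 0) (XT.lf (nat_lit 0) (nat_lit 372600383141) (nat_lit 0) (nat_lit 0) (nat_lit 0) (nat_lit 0) (nat_lit 0) (nat_lit 0) (nat_lit 1) (nat_lit 0) (nat_lit 1) (nat_lit 0) (nat_lit 436) (nat_lit 325) (nat_lit 319)) (XT.lf (nat_lit 0) (nat_lit 402395552952) (nat_lit 0) (nat_lit 0) (nat_lit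 0) (nat_lit 0) (nat_lit 0) (nat_lit 0) (nat_lit 1) (nat_lit 0) (nat_lit 1) (nat_lit 0) (nat_lit 437) (nat_lit 325) (nat_lit 318))))) (XT.nd (nat_lit 282) (nat_lit 0) (nat_lit 0) (XT.nd (nat_lit 94) (nat_lit 0) (nat_lit 0) (XT.lf (nat_lit 0) (nat_lit 434574858650) (nat_lit 0) (nat_lit 0) (nat_lit 0) (nat_lit 0) (nat_lit 0) (nat_lit 0) (nat_lit 1) (nat_lit 0) (nat_lit 1) (nat_lit 0) (nat_lit 438) (nat_lit 325) (nat_lit 317)) (XT.nd (nat_lit 94) (nat_lit 0) (nat_lit 0) (XT.lf (nat_lit 0) (nat_lit 469328992418) (nat_lit 0) (nat_lit 0) (nat_lit 0) (nat_lit 0) (nat_lit 0) (nat_lit 0) (nat_lit 1) (nat_lit 0) (nat_lit 1) (nat_lit 0) (nat_lit 439) (nat_lit 325) (nat_lit 316)) (XT.lf (nat_lit 0) (nat_lit 506863904676) (nat_lit 0) (nat_lit 0) (nat_lit 0) (nat_lit 0) (nat_lit 0) (nat_lit 0) (nat_lit 1) (nat_lit 0) (nat_lit 1) (nat_lit 0) (nat_lit 440) (nat_lit 325) (nat_lit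 315)))) (XT.nd (nat_lit 188) (nat_lit 0) (nat_lit 0) (XT.nd (nat_lit 94) (nat_lit 0) (nat_lit 0) (XT.lf (nat_lit 0) (nat_lit 547402024535) (nat_lit 0) (nat_lit 0) (nat_lit 0) (nat_lit 0) (nat_lit 0) (nat_lit 0) (nat_lit 1) (nat_lit 0) (nat_lit 1) (nat_lit 0) (nat_lit 441) (nat_lit 325) (nat_lit 314)) (XT.lf (nat_lit 0) (nat_lit 591183577890) (nat_lit 0) (nat_lit 0) (nat_lit 0) (nat_lit 0) (nat_lit 0) (nat_lit 0) (nat_lit 1) (nat_lit 0) (nat_lit 1) (nat_lit 0) (nat_lit 442) (nat_lit 325) (nat_lit 313))) (XT.nd (nat_lit 94) (nat_lit 0) (nat_lit 0) (XT.lf (nat_lit 0) (nat_lit 638468010984) (nat_lit 0) (nat_lit 0) (nat_lit 0) (nat_lit 0) (nat_lit 0) (nat_lit 0) (nat_lit 1) (nat_lit 0) (nat_lit 1) (nat_lit 0) (nat_lit 443) (nat_lit 325) (nat_lit 312)) (XT.lf (nat_lit 0) (nat_lit 689535527864) (nat_lit 0) (nat_lit 0) (nat_lit 0) (nat_lit 0) (nat_lit 0) (nat_lit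 0) (nat_lit 1) (nat_lit 0) (nat_lit 1) (nat_lit 0) (nat_lit 444) (nat_lit 325) (nat_lit 311)))))) (XT.nd (nat_lit 658) (nat_lit 0) (nat_lit 0) (XT.nd (nat_lit 282) (nat_lit 0) (nat_lit 0) (XT.nd (nat_lit 94) (nat_lit 0) (nat_lit 0) (XT.lf (nat_lit 0) (nat_lit 744688750852) (nat_lit 0) (nat_lit 0) (nat_lit 0) (nat_lit 0) (nat_lit 0) (nat_lit 0) (nat_lit 1) (nat_lit 0) (nat_lit 1) (nat_lit 0) (nat_lit 445) (nat_lit 325) (nat_lit 310)) (XT.nd (nat_lit 94) (nat_lit 0) (nat_lit 0) (XT.lf (nat_lit 0) (nat_lit 804254513863) (nat_lit 0) (nat_lit 0) (nat_lit 0) (nat_lit 0) (nat_lit 0) (nat_lit 0) (nat_lit 1) (nat_lit 0) (nat_lit 1) (nat_lit 0) (nat_lit 446) (nat_lit 325) (nat_lit 309)) (XT.lf (nat_lit 0) (nat_lit 868585799196) (nat_lit 0) (nat_lit 0) (nat_lit 0) (nat_lit 0) (nat_lit 0) (nat_lit 0) (nat_lit 1) (nat_lit 0) (nat_lit 1) (nat_lit 0) (nat_lit 447) (nat_lit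 325) (nat_lit 308)))) (XT.nd (nat_lit 188) (nat_lit 0) (nat_lit 0) (XT.nd (nat_lit 94) (nat_lit 0) (nat_lit 0) (XT.lf (nat_lit 0) (nat_lit 938063829283) (nat_lit 0) (nat_lit 0) (nat_lit 0) (nat_lit 0) (nat_lit 0) (nat_lit 0) (nat_lit 1) (nat_lit 0) (nat_lit 1) (nat_lit 0) (nat_lit 448) (nat_lit 325) (nat_lit 307)) (XT.lf (nat_lit 0) (nat_lit 1013100325783) (nat_lit 0) (nat_lit 0) (nat_lit 0) (nat_lit 0) (nat_lit 0) (nat_lit 0) (nat_lit 1) (nat_lit 0) (nat_lit 1) (nat_lit 0) (nat_lit 449) (nat_lit 325) (nat_lit 306))) (XT.nd (nat_lit 94) (nat_lit 0) (nat_lit 0) (XT.lf (nat_lit 0) (nat_lit 1094139949416) (nat_lit 0) (nat_lit 0) (nat_lit 0) (nat_lit 0) (nat_lit 0) (nat_lit 0) (nat_lit 1) (nat_lit 0) (nat_lit 1) (nat_lit 0) (nat_lit 450) (nat_lit 325) (nat_lit 305)) (XT.lf (nat_lit 0) (nat_lit 1181662934990) (nat_lit 0) (nat_lit 0) (nat_lit 0) (nat_lit 0) (nat_lit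 0) (nat_lit 0) (nat_lit 1) (nat_lit 0) (nat_lit 1) (nat_lit 0) (nat_lit 451) (nat_lit 325) (nat_lit 304))))) (XT.nd (nat_lit 282) (nat_lit 0) (nat_lit 0) (XT.nd (nat_lit 94) (nat_lit 0) (nat_lit 0) (XT.lf (nat_lit 0) (nat_lit 1276187937233) (nat_lit 0) (nat_lit 0) (nat_lit 0) (nat_lit 0) (nat_lit 0) (nat_lit 0) (nat_lit 1) (nat_lit 0) (nat_lit 1) (nat_lit 0) (nat_lit 452) (nat_lit 325) (nat_lit 303)) (XT.nd (nat_lit 94) (nat_lit 0) (nat_lit 0) (XT.lf (nat_lit 0) (nat_lit 1378275104306) (nat_lit 0) (nat_lit 0) (nat_lit 0) (nat_lit 0) (nat_lit 0) (nat_lit 0) (nat_lit 1) (nat_lit 0) (nat_lit 1) (nat_lit 0) (nat_lit 453) (nat_lit 325) (nat_lit 302)) (XT.lf (nat_lit 0) (nat_lit 1488529397200) (nat_lit 0) (nat_lit 0) (nat_lit 0) (nat_lit 0) (nat_lit 0) (nat_lit 0) (nat_lit 1) (nat_lit 0) (nat_lit 1) (nat_lit 0) (nat_lit 454) (nat_lit 325) (nat_lit 301)))) (XT.nd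 (nat_lit 188) (nat_lit 0) (nat_lit 0) (XT.nd (nat_lit 94) (nat_lit 0) (nat_lit 0) (XT.lf (nat_lit 0) (nat_lit 1607604174688) (nat_lit 0) (nat_lit 0) (nat_lit 0) (nat_lit 0) (nat_lit 0) (nat_lit 0) (nat_lit 1) (nat_lit 0) (nat_lit 1) (nat_lit 0) (nat_lit 455) (nat_lit 325) (nat_lit 300)) (XT.lf (nat_lit 0) (nat_lit 1736205065081) (nat_lit 0) (nat_lit 0) (nat_lit 0) (nat_lit 0) (nat_lit 0) (nat_lit 0) (nat_lit 1) (nat_lit 0) (nat_lit 1) (nat_lit 0) (nat_lit 456) (nat_lit 325) (nat_lit 299))) (XT.nd (nat_lit 94) (nat_lit 0) (nat_lit 0) (XT.lf (nat_lit 0) (nat_lit 1875094147728) (nat_lit 0) (nat_lit 0) (nat_lit 0) (nat_lit 0) (nat_lit 0) (nat_lit 0) (nat_lit 1) (nat_lit 0) (nat_lit 1) (nat_lit 0) (nat_lit 457) (nat_lit 325) (nat_lit 298)) (XT.lf (nat_lit 0) (nat_lit 2025094469047) (nat_lit 0) (nat_lit 0) (nat_lit 0) (nat_lit 0) (nat_lit 0) (nat_lit 0) (nat_lit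 1) (nat_lit 0) (nat_lit 1) (nat_lit 0) (nat_lit 458) (nat_lit 325) (nat_lit 297))))))) (XT.nd (nat_lit 1316) (nat_lit 0) (nat_lit 0) (XT.nd (nat_lit 658) (nat_lit 0) (nat_lit 0) (XT.nd (nat_lit 282) (nat_lit 0) (nat_lit 0) (XT.nd (nat_lit 94) (nat_lit 0) (nat_lit 0) (XT.lf (nat_lit 0) (nat_lit 2187094919829) (nat_lit 0) (nat_lit 0) (nat_lit 0) (nat_lit 0) (nat_lit 0) (nat_lit 0) (nat_lit 1) (nat_lit 0) (nat_lit 1) (nat_lit 0) (nat_lit 459) (nat_lit 325) (nat_lit 296)) (XT.nd (nat_lit 94) (nat_lit 0) (nat_lit 0) (XT.lf (nat_lit 0) (nat_lit 2362055502746) (nat_lit 0) (nat_lit 0) (nat_lit 0) (nat_lit 0) (nat_lit 0) (nat_lit 0) (nat_lit 1) (nat_lit 0) (nat_lit 1) (nat_lit 0) (nat_lit 460) (nat_lit 325) (nat_lit 295)) (XT.lf (nat_lit 0) (nat_lit 2551013021252) (nat_lit 0) (nat_lit 0) (nat_lit 0) (nat_lit 0) (nat_lit 0) (nat_lit 0) (nat_lit 1) (nat_lit 0) (nat_lit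 1) (nat_lit 0) (nat_lit 461) (nat_lit 325) (nat_lit 294)))) (XT.nd (nat_lit 188) (nat_lit 0) (nat_lit 0) (XT.nd (nat_lit 94) (nat_lit 0) (nat_lit 0) (XT.lf (nat_lit 0) (nat_lit 2755087223606) (nat_lit 0) (nat_lit 0) (nat_lit 0) (nat_lit 0) (nat_lit 0) (nat_lit 0) (nat_lit 1) (nat_lit 0) (nat_lit 1) (nat_lit 0) (nat_lit 462) (nat_lit 325) (nat_lit 293)) (XT.lf (nat_lit 0) (nat_lit 2975487438414) (nat_lit 0) (nat_lit 0) (nat_lit 0) (nat_lit 0) (nat_lit 0) (nat_lit 0) (nat_lit 1) (nat_lit 0) (nat_lit 1) (nat_lit 0) (nat_lit 463) (nat_lit 325) (nat_lit 292))) (XT.nd (nat_lit 94) (nat_lit 0) (nat_lit 0) (XT.lf (nat_lit 0) (nat_lit 3213519741022) (nat_lit 0) (nat_lit 0) (nat_lit 0) (nat_lit 0) (nat_lit 0) (nat_lit 0) (nat_lit 1) (nat_lit 0) (nat_lit 1) (nat_lit 0) (nat_lit 464) (nat_lit 325) (nat_lit 291)) (XT.lf (nat_lit 0) (nat_lit 3470594693224) (nat_lit 0) (nat_lit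 0) (nat_lit 0) (nat_lit 0) (nat_lit 0) (nat_lit 0) (nat_lit 1) (nat_lit 0) (nat_lit 1) (nat_lit 0) (nat_lit 465) (nat_lit 325) (nat_lit 290))))) (XT.nd (nat_lit 282) (nat_lit 0) (nat_lit 0) (XT.nd (nat_lit 94) (nat_lit 0) (nat_lit 0) (XT.lf (nat_lit 0) (nat_lit 3748235702145) (nat_lit 0) (nat_lit 0) (nat_lit 0) (nat_lit 0) (nat_lit 0) (nat_lit 0) (nat_lit 1) (nat_lit 0) (nat_lit 1) (nat_lit 0) (nat_lit 466) (nat_lit 325) (nat_lit 289)) (XT.nd (nat_lit 94) (nat_lit 0) (nat_lit 0) (XT.lf (nat_lit 0) (nat_lit 4048088047836) (nat_lit 0) (nat_lit 0) (nat_lit 0) (nat_lit 0) (nat_lit 0) (nat_lit 0) (nat_lit 1) (nat_lit 0) (nat_lit 1) (nat_lit 0) (nat_lit 467) (nat_lit 325) (nat_lit 288)) (XT.lf (nat_lit 0) (nat_lit 4371928633088) (nat_lit 0) (nat_lit 0) (nat_lit 0) (nat_lit 0) (nat_lit 0) (nat_lit 0) (nat_lit 1) (nat_lit 0) (nat_lit 1) (nat_lit 0) (nat_lit 468) (nat_lit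 325) (nat_lit 287)))) (XT.nd (nat_lit 188) (nat_lit 0) (nat_lit 0) (XT.nd (nat_lit 94) (nat_lit 0) (nat_lit 0) (XT.lf (nat_lit 0) (nat_lit 4721676513220) (nat_lit 0) (nat_lit 0) (nat_lit 0) (nat_lit 0) (nat_lit 0) (nat_lit 0) (nat_lit 1) (nat_lit 0) (nat_lit 1) (nat_lit 0) (nat_lit 469) (nat_lit 325) (nat_lit 286)) (XT.lf (nat_lit 0) (nat_lit 5099404268262) (nat_lit 0) (nat_lit 0) (nat_lit 0) (nat_lit 0) (nat_lit 0) (nat_lit 0) (nat_lit 1) (nat_lit 0) (nat_lit 1) (nat_lit 0) (nat_lit 470) (nat_lit 325) (nat_lit 285))) (XT.nd (nat_lit 94) (nat_lit 0) (nat_lit 0) (XT.lf (nat_lit 0) (nat_lit 5507350284912) (nat_lit 0) (nat_lit 0) (nat_lit 0) (nat_lit 0) (nat_lit 0) (nat_lit 0) (nat_lit 1) (nat_lit 0) (nat_lit 1) (nat_lit 0) (nat_lit 471) (nat_lit 325) (nat_lit 284)) (XT.lf (nat_lit 0) (nat_lit 5947932021046) (nat_lit 0) (nat_lit 0) (nat_lit 0) (nat_lit 0) (nat_lit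 0) (nat_lit 0) (nat_lit 1) (nat_lit 0) (nat_lit 1) (nat_lit 0) (nat_lit 472) (nat_lit 325) (nat_lit 283)))))) (XT.nd (nat_lit 658) (nat_lit 0) (nat_lit 0) (XT.nd (nat_lit 282) (nat_lit 0) (nat_lit 0) (XT.nd (nat_lit 94) (nat_lit 0) (nat_lit 0) (XT.lf (nat_lit 0) (nat_lit 6423760331396) (nat_lit 0) (nat_lit 0) (nat_lit 0) (nat_lit 0) (nat_lit 0) (nat_lit 0) (nat_lit 1) (nat_lit 0) (nat_lit 1) (nat_lit 0) (nat_lit 473) (nat_lit 325) (nat_lit 282)) (XT.nd (nat_lit 94) (nat_lit 0) (nat_lit 0) (XT.lf (nat_lit 0) (nat_lit 6937654939283) (nat_lit 0) (nat_lit 0) (nat_lit 0) (nat_lit 0) (nat_lit 0) (nat_lit 0) (nat_lit 1) (nat_lit 0) (nat_lit 1) (nat_lit 0) (nat_lit 474) (nat_lit 325) (nat_lit 281)) (XT.lf (nat_lit 0) (nat_lit 7492661146087) (nat_lit 0) (nat_lit 0) (nat_lit 0) (nat_lit 0) (nat_lit 0) (nat_lit 0) (nat_lit 1) (nat_lit 0) (nat_lit 1) (nat_lit 0) (nat_lit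 475) (nat_lit 325) (nat_lit 280)))) (XT.nd (nat_lit 188) (nat_lit 0) (nat_lit 0) (XT.nd (nat_lit 94) (nat_lit 0) (nat_lit 0) (XT.lf (nat_lit 0) (nat_lit 8092067877478) (nat_lit 0) (nat_lit 0) (nat_lit 0) (nat_lit 0) (nat_lit 0) (nat_lit 0) (nat_lit 1) (nat_lit 0) (nat_lit 1) (nat_lit 0) (nat_lit 476) (nat_lit 325) (nat_lit 279)) (XT.lf (nat_lit 0) (nat_lit 8739427173346) (nat_lit 0) (nat_lit 0) (nat_lit 0) (nat_lit 0) (nat_lit 0) (nat_lit 0) (nat_lit 1) (nat_lit 0) (nat_lit 1) (nat_lit 0) (nat_lit 477) (nat_lit 325) (nat_lit 278))) (XT.nd (nat_lit 94) (nat_lit 0) (nat_lit 0) (XT.lf (nat_lit 0) (nat_lit 9438575236925) (nat_lit 0) (nat_lit 0) (nat_lit 0) (nat_lit 0) (nat_lit 0) (nat_lit 0) (nat_lit 1) (nat_lit 0) (nat_lit 1) (nat_lit 0) (nat_lit 478) (nat_lit 325) (nat_lit 277)) (XT.lf (nat_lit 0) (nat_lit 10193655167851) (nat_lit 0) (nat_lit 0) (nat_lit 0)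 (nat_lit 0) (nat_lit 0) (nat_lit 0) (nat_lit 1) (nat_lit 0) (nat_lit 1) (nat_lit 0) (nat_lit 479) (nat_lit 325) (nat_lit 276))))) (XT.nd (nat_lit 282) (nat_lit 0) (nat_lit 0) (XT.nd (nat_lit 94) (nat_lit 0) (nat_lit 0) (XT.lf (nat_lit 0) (nat_lit 11009141513864) (nat_lit 0) (nat_lit 0) (nat_lit 0) (nat_lit 0) (nat_lit 0) (nat_lit 0) (nat_lit 1) (nat_lit 0) (nat_lit 1) (nat_lit 0) (nat_lit 480) (nat_lit 325) (nat_lit 275)) (XT.nd (nat_lit 94) (nat_lit 0) (nat_lit 0) (XT.lf (nat_lit 0) (nat_lit 11889866786643) (nat_lit 0) (nat_lit 0) (nat_lit 0) (nat_lit 0) (nat_lit 0) (nat_lit 0) (nat_lit 1) (nat_lit 0) (nat_lit 1) (nat_lit 0) (nat_lit 481) (nat_lit 325) (nat_lit 274)) (XT.lf (nat_lit 0) (nat_lit 12841050098917) (nat_lit 0) (nat_lit 0) (nat_lit 0) (nat_lit 0) (nat_lit 0) (nat_lit 0) (nat_lit 1) (nat_lit 0) (nat_lit 1) (nat_lit 0) (nat_lit 482) (nat_lit 325)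 (nat_lit 273)))) (XT.nd (nat_lit 188) (nat_lit 0) (nat_lit 0) (XT.nd (nat_lit 94) (nat_lit 0) (nat_lit 0) (XT.lf (nat_lit 0) (nat_lit 13868328092534) (nat_lit 0) (nat_lit 0) (nat_lit 0) (nat_lit 0) (nat_lit 0) (nat_lit 0) (nat_lit 1) (nat_lit 0) (nat_lit 1) (nat_lit 0) (nat_lit 483) (nat_lit 325) (nat_lit 272)) (XT.lf (nat_lit 0) (nat_lit 14977788340792) (nat_lit 0) (nat_lit 0) (nat_lit 0) (nat_lit 0) (nat_lit 0) (nat_lit 0) (nat_lit 1) (nat_lit 0) (nat_lit 1) (nat_lit 0) (nat_lit 484) (nat_lit 325) (nat_lit 271))) (XT.nd (nat_lit 94) (nat_lit 0) (nat_lit 0) (XT.lf (nat_lit 0) (nat_lit 16176005422939) (nat_lit 0) (nat_lit 0) (nat_lit 0) (nat_lit 0) (nat_lit 0) (nat_lit 0) (nat_lit 1) (nat_lit 0) (nat_lit 1) (nat_lit 0) (nat_lit 485) (nat_lit 325) (nat_lit 270)) (XT.lf (nat_lit 0) (nat_lit 17470079884646) (nat_lit 0) (nat_lit 0) (nat_lit 0) (nat_lit 0) (nat_lit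 0) (nat_lit 0) (nat_lit 1) (nat_lit 0) (nat_lit 1) (nat_lit 0) (nat_lit 486) (nat_lit 325) (nat_lit 269))))))))
noncomputable def xc25 : XT := (XT.nd (nat_lit 63450) (nat_lit 0) (nat_lit 0) (XT.nd (nat_lit 1316) (nat_lit 0) (nat_lit 0) (XT.nd (nat_lit 658) (nat_lit 0) (nat_lit 0) (XT.nd (nat_lit 282) (nat_lit 0) (nat_lit 0) (XT.nd (nat_lit 94) (nat_lit 0) (nat_lit 0) (XT.lf (nat_lit 0) (nat_lit 18867680315317) (nat_lit 0) (nat_lit 0) (nat_lit 0) (nat_lit 0) (nat_lit 0) (nat_lit 0) (nat_lit 1) (nat_lit 0) (nat_lit 1) (nat_lit 0) (nat_lit 487) (nat_lit 325) (nat_lit 268)) (XT.nd (nat_lit 94) (nat_lit 0) (nat_lit 0) (XT.lf (nat_lit 0) (nat_lit 20377088791578) (nat_lit 0) (nat_lit 0) (nat_lit 0) (nat_lit 0) (nat_lit 0) (nat_lit 0) (nat_lit 1) (nat_lit 0) (nat_lit 1) (nat_lit 0) (nat_lit 488) (nat_lit 325) (nat_lit 267)) (XT.lf (nat_lit 0) (nat_lit 22007249956251)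 (nat_lit 0) (nat_lit 0) (nat_lit 0) (nat_lit 0) (nat_lit 0) (nat_lit 0) (nat_lit 1) (nat_lit 0) (nat_lit 1) (nat_lit 0) (nat_lit 489) (nat_lit 325) (nat_lit 266)))) (XT.nd (nat_lit 188) (nat_lit 0) (nat_lit 0) (XT.nd (nat_lit 94) (nat_lit 0) (nat_lit 0) (XT.lf (nat_lit 0) (nat_lit 23767824023646) (nat_lit 0) (nat_lit 0) (nat_lit 0) (nat_lit 0) (nat_lit 0) (nat_lit 0) (nat_lit 1) (nat_lit 0) (nat_lit 1) (nat_lit 0) (nat_lit 490) (nat_lit 325) (nat_lit 265)) (XT.lf (nat_lit 0) (nat_lit 25669244025272) (nat_lit 0) (nat_lit 0) (nat_lit 0) (nat_lit 0) (nat_lit 0) (nat_lit 0) (nat_lit 1) (nat_lit 0) (nat_lit 1) (nat_lit 0) (nat_lit 491) (nat_lit 325) (nat_lit 264))) (XT.nd (nat_lit 94) (nat_lit 0) (nat_lit 0) (XT.lf (nat_lit 0) (nat_lit 27722777635213) (nat_lit 0) (nat_lit 0) (nat_lit 0) (nat_lit 0) (nat_lit 0) (nat_lit 0) (nat_lit 1) (nat_lit 0) (nat_lit 1) (nat_lit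 0) (nat_lit 492) (nat_lit 325) (nat_lit 263)) (XT.lf (nat_lit 0) (nat_lit 29940593941529) (nat_lit 0) (nat_lit 0) (nat_lit 0) (nat_lit 0) (nat_lit 0) (nat_lit 0) (nat_lit 1) (nat_lit 0) (nat_lit 1) (nat_lit 0) (nat_lit 493) (nat_lit 325) (nat_lit 262))))) (XT.nd (nat_lit 282) (nat_lit 0) (nat_lit 0) (XT.nd (nat_lit 94) (nat_lit 0) (nat_lit 0) (XT.lf (nat_lit 0) (nat_lit 32335835559368) (nat_lit 0) (nat_lit 0) (nat_lit 0) (nat_lit 0) (nat_lit 0) (nat_lit 0) (nat_lit 1) (nat_lit 0) (nat_lit 1) (nat_lit 0) (nat_lit 494) (nat_lit 325) (nat_lit 261)) (XT.nd (nat_lit 94) (nat_lit 0) (nat_lit 0) (XT.lf (nat_lit 0) (nat_lit 34922696513132) (nat_lit 0) (nat_lit 0) (nat_lit 0) (nat_lit 0) (nat_lit 0) (nat_lit 0) (nat_lit 1) (nat_lit 0) (nat_lit 1) (nat_lit 0) (nat_lit 495) (nat_lit 325) (nat_lit 260)) (XT.lf (nat_lit 0) (nat_lit 37716506349213) (nat_lit 0) (nat_lit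 0) (nat_lit 0) (nat_lit 0) (nat_lit 0) (nat_lit 0) (nat_lit 1) (nat_lit 0) (nat_lit 1) (nat_lit 0) (nat_lit 496) (nat_lit 325) (nat_lit 259)))) (XT.nd (nat_lit 188) (nat_lit 0) (nat_lit 0) (XT.nd (nat_lit 94) (nat_lit 0) (nat_lit 0) (XT.lf (nat_lit 0) (nat_lit 40733820977752) (nat_lit 0) (nat_lit 0) (nat_lit 0) (nat_lit 0) (nat_lit 0) (nat_lit 0) (nat_lit 1) (nat_lit 0) (nat_lit 1) (nat_lit 0) (nat_lit 497) (nat_lit 325) (nat_lit 258)) (XT.lf (nat_lit 0) (nat_lit 43992520781732) (nat_lit 0) (nat_lit 0) (nat_lit 0) (nat_lit 0) (nat_lit 0) (nat_lit 0) (nat_lit 1) (nat_lit 0) (nat_lit 1) (nat_lit 0) (nat_lit 498) (nat_lit 325) (nat_lit 257))) (XT.nd (nat_lit 94) (nat_lit 0) (nat_lit 0) (XT.lf (nat_lit 0) (nat_lit 47511916574807) (nat_lit 0) (nat_lit 0) (nat_lit 0) (nat_lit 0) (nat_lit 0) (nat_lit 0) (nat_lit 1) (nat_lit 0) (nat_lit 1) (nat_lit 0) (nat_lit 499)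 (nat_lit 325) (nat_lit 256)) (XT.lf (nat_lit 0) (nat_lit 51312864035749) (nat_lit 0) (nat_lit 0) (nat_lit 0) (nat_lit 0) (nat_lit 0) (nat_lit 0) (nat_lit 1) (nat_lit 0) (nat_lit 1) (nat_lit 0) (nat_lit 500) (nat_lit 325) (nat_lit 255)))))) (XT.nd (nat_lit 61476) (nat_lit 0) (nat_lit 0) (XT.nd (nat_lit 61100) (nat_lit 0) (nat_lit 0) (XT.nd (nat_lit 60912) (nat_lit 0) (nat_lit 0) (XT.lf (nat_lit 0) (nat_lit 55417887297662) (nat_lit 0) (nat_lit 0) (nat_lit 0) (nat_lit 0) (nat_lit 0) (nat_lit 0) (nat_lit 1) (nat_lit 0) (nat_lit 1) (nat_lit 0) (nat_lit 501) (nat_lit 325) (nat_lit 254)) (XT.nd (nat_lit 94) (nat_lit 0) (nat_lit 0) (XT.lf (nat_lit 0) (nat_lit 100698648281) (nat_lit 0) (nat_lit 0) (nat_lit 0) (nat_lit 0) (nat_lit 0) (nat_lit 0) (nat_lit 1) (nat_lit 0) (nat_lit 1) (nat_lit 0) (nat_lit 428) (nat_lit 326) (nat_lit 326)) (XT.lf (nat_lit 0) (nat_lit 217490721437)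 (nat_lit 0) (nat_lit 0) (nat_lit 0) (nat_lit 0) (nat_lit 0) (nat_lit 0) (nat_lit 1) (nat_lit 0) (nat_lit 1) (nat_lit 0) (nat_lit 429) (nat_lit 326) (nat_lit 325)))) (XT.nd (nat_lit 188) (nat_lit 0) (nat_lit 0) (XT.nd (nat_lit 94) (nat_lit 0) (nat_lit 0) (XT.lf (nat_lit 0) (nat_lit 234872515435) (nat_lit 0) (nat_lit 0) (nat_lit 0) (nat_lit 0) (nat_lit 0) (nat_lit 0) (nat_lit 1) (nat_lit 0) (nat_lit 1) (nat_lit 0) (nat_lit 430) (nat_lit 326) (nat_lit 324)) (XT.lf (nat_lit 0) (nat_lit 253645681781) (nat_lit 0) (nat_lit 0) (nat_lit 0) (nat_lit 0) (nat_lit 0) (nat_lit 0) (nat_lit 1) (nat_lit 0) (nat_lit 1) (nat_lit 0) (nat_lit 431) (nat_lit 326) (nat_lit 323))) (XT.nd (nat_lit 94) (nat_lit 0) (nat_lit 0) (XT.lf (nat_lit 0) (nat_lit 273921468867) (nat_lit 0) (nat_lit 0) (nat_lit 0) (nat_lit 0) (nat_lit 0) (nat_lit 0) (nat_lit 1) (nat_lit 0) (nat_lit 1) (nat_lit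 0) (nat_lit 432) (nat_lit 326) (nat_lit 322)) (XT.lf (nat_lit 0) (nat_lit 295820029506) (nat_lit 0) (nat_lit 0) (nat_lit 0) (nat_lit 0) (nat_lit 0) (nat_lit 0) (nat_lit 1) (nat_lit 0) (nat_lit 1) (nat_lit 0) (nat_lit 433) (nat_lit 326) (nat_lit 321))))) (XT.nd (nat_lit 282) (nat_lit 0) (nat_lit 0) (XT.nd (nat_lit 94) (nat_lit 0) (nat_lit 0) (XT.lf (nat_lit 0) (nat_lit 319471132946) (nat_lit 0) (nat_lit 0) (nat_lit 0) (nat_lit 0) (nat_lit 0) (nat_lit 0) (nat_lit 1) (nat_lit 0) (nat_lit 1) (nat_lit 0) (nat_lit 434) (nat_lit 326) (nat_lit 320)) (XT.nd (nat_lit 94) (nat_lit 0) (nat_lit 0) (XT.lf (nat_lit 0) (nat_lit 345014933874) (nat_lit 0) (nat_lit 0) (nat_lit 0) (nat_lit 0) (nat_lit 0) (nat_lit 0) (nat_lit 1) (nat_lit 0) (nat_lit 1) (nat_lit 0) (nat_lit 435) (nat_lit 326) (nat_lit 319)) (XT.lf (nat_lit 0) (nat_lit 372602802963) (nat_lit 0) (nat_lit 0) (nat_lit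 0) (nat_lit 0) (nat_lit 0) (nat_lit 0) (nat_lit 1) (nat_lit 0) (nat_lit 1) (nat_lit 0) (nat_lit 436) (nat_lit 326) (nat_lit 318)))) (XT.nd (nat_lit 188) (nat_lit 0) (nat_lit 0) (XT.nd (nat_lit 94) (nat_lit 0) (nat_lit 0) (XT.lf (nat_lit 0) (nat_lit 402398223881) (nat_lit 0) (nat_lit 0) (nat_lit 0) (nat_lit 0) (nat_lit 0) (nat_lit 0) (nat_lit 1) (nat_lit 0) (nat_lit 1) (nat_lit 0) (nat_lit 437) (nat_lit 326) (nat_lit 317)) (XT.lf (nat_lit 0) (nat_lit 434577762086) (nat_lit 0) (nat_lit 0) (nat_lit 0) (nat_lit 0) (nat_lit 0) (nat_lit 0) (nat_lit 1) (nat_lit 0) (nat_lit 1) (nat_lit 0) (nat_lit 438) (nat_lit 326) (nat_lit 316))) (XT.nd (nat_lit 94) (nat_lit 0) (nat_lit 0) (XT.lf (nat_lit 0) (nat_lit 469332111136) (nat_lit 0) (nat_lit 0) (nat_lit 0) (nat_lit 0) (nat_lit 0) (nat_lit 0) (nat_lit 1) (nat_lit 0) (nat_lit 1) (nat_lit 0) (nat_lit 439) (nat_lit 326) (nat_lit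 315)) (XT.lf (nat_lit 0) (nat_lit 506867222731) (nat_lit 0) (nat_lit 0) (nat_lit 0) (nat_lit 0) (nat_lit 0) (nat_lit 0) (nat_lit 1) (nat_lit 0) (nat_lit 1) (nat_lit 0) (nat_lit 440) (nat_lit 326) (nat_lit 314))))))) (XT.nd (nat_lit 1316) (nat_lit 0) (nat_lit 0) (XT.nd (nat_lit 658) (nat_lit 0) (nat_lit 0) (XT.nd (nat_lit 282) (nat_lit 0) (nat_lit 0) (XT.nd (nat_lit 94) (nat_lit 0) (nat_lit 0) (XT.lf (nat_lit 0) (nat_lit 547405527161) (nat_lit 0) (nat_lit 0) (nat_lit 0) (nat_lit 0) (nat_lit 0) (nat_lit 0) (nat_lit 1) (nat_lit 0) (nat_lit 1) (nat_lit 0) (nat_lit 441) (nat_lit 326) (nat_lit 313)) (XT.nd (nat_lit 94) (nat_lit 0) (nat_lit 0) (XT.lf (nat_lit 0) (nat_lit 591187251415) (nat_lit 0) (nat_lit 0) (nat_lit 0) (nat_lit 0) (nat_lit 0) (nat_lit 0) (nat_lit 1) (nat_lit 0) (nat_lit 1) (nat_lit 0) (nat_lit 442) (nat_lit 326) (nat_lit 312)) (XT.lf (nat_lit 0)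 (nat_lit 638471842749) (nat_lit 0) (nat_lit 0) (nat_lit 0) (nat_lit 0) (nat_lit 0) (nat_lit 0) (nat_lit 1) (nat_lit 0) (nat_lit 1) (nat_lit 0) (nat_lit 443) (nat_lit 326) (nat_lit 311)))) (XT.nd (nat_lit 188) (nat_lit 0) (nat_lit 0) (XT.nd (nat_lit 94) (nat_lit 0) (nat_lit 0) (XT.lf (nat_lit 0) (nat_lit 689539506147) (nat_lit 0) (nat_lit 0) (nat_lit 0) (nat_lit 0) (nat_lit 0) (nat_lit 0) (nat_lit 1) (nat_lit 0) (nat_lit 1) (nat_lit 0) (nat_lit 444) (nat_lit 326) (nat_lit 310)) (XT.lf (nat_lit 0) (nat_lit 744692864801) (nat_lit 0) (nat_lit 0) (nat_lit 0) (nat_lit 0) (nat_lit 0) (nat_lit 0) (nat_lit 1) (nat_lit 0) (nat_lit 1) (nat_lit 0) (nat_lit 445) (nat_lit 326) (nat_lit 309))) (XT.nd (nat_lit 94) (nat_lit 0) (nat_lit 0) (XT.lf (nat_lit 0) (nat_lit 804258753428) (nat_lit 0) (nat_lit 0) (nat_lit 0) (nat_lit 0) (nat_lit 0) (nat_lit 0) (nat_lit 1) (nat_lit 0)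 (nat_lit 1) (nat_lit 0) (nat_lit 446) (nat_lit 326) (nat_lit 308)) (XT.lf (nat_lit 0) (nat_lit 868590155072) (nat_lit 0) (nat_lit 0) (nat_lit 0) (nat_lit 0) (nat_lit 0) (nat_lit 0) (nat_lit 1) (nat_lit 0) (nat_lit 1) (nat_lit 0) (nat_lit 447) (nat_lit 326) (nat_lit 307))))) (XT.nd (nat_lit 282) (nat_lit 0) (nat_lit 0) (XT.nd (nat_lit 94) (nat_lit 0) (nat_lit 0) (XT.lf (nat_lit 0) (nat_lit 938068292854) (nat_lit 0) (nat_lit 0) (nat_lit 0) (nat_lit 0) (nat_lit 0) (nat_lit 0) (nat_lit 1) (nat_lit 0) (nat_lit 1) (nat_lit 0) (nat_lit 448) (nat_lit 326) (nat_lit 306)) (XT.nd (nat_lit 94) (nat_lit 0) (nat_lit 0) (XT.lf (nat_lit 0) (nat_lit 1013104889072) (nat_lit 0) (nat_lit 0) (nat_lit 0) (nat_lit 0) (nat_lit 0) (nat_lit 0) (nat_lit 1) (nat_lit 0) (nat_lit 1) (nat_lit 0) (nat_lit 449) (nat_lit 326) (nat_lit 305)) (XT.lf (nat_lit 0) (nat_lit 1094144605037) (nat_lit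 0) (nat_lit 0) (nat_lit 0) (nat_lit 0) (nat_lit 0) (nat_lit 0) (nat_lit 1) (nat_lit 0) (nat_lit 1) (nat_lit 0) (nat_lit 450) (nat_lit 326) (nat_lit 304)))) (XT.nd (nat_lit 188) (nat_lit 0) (nat_lit 0) (XT.nd (nat_lit 94) (nat_lit 0) (nat_lit 0) (XT.lf (nat_lit 0) (nat_lit 1181667676102) (nat_lit 0) (nat_lit 0) (nat_lit 0) (nat_lit 0) (nat_lit 0) (nat_lit 0) (nat_lit 1) (nat_lit 0) (nat_lit 1) (nat_lit 0) (nat_lit 451) (nat_lit 326) (nat_lit 303)) (XT.lf (nat_lit 0) (nat_lit 1276192757504) (nat_lit 0) (nat_lit 0) (nat_lit 0) (nat_lit 0) (nat_lit 0) (nat_lit 0) (nat_lit 1) (nat_lit 0) (nat_lit 1) (nat_lit 0) (nat_lit 452) (nat_lit 326) (nat_lit 302))) (XT.nd (nat_lit 94) (nat_lit 0) (nat_lit 0) (XT.lf (nat_lit 0) (nat_lit 1378279997873) (nat_lit 0) (nat_lit 0) (nat_lit 0) (nat_lit 0) (nat_lit 0) (nat_lit 0) (nat_lit 1) (nat_lit 0) (nat_lit 1) (nat_lit 0) (nat_lit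 453) (nat_lit 326) (nat_lit 301)) (XT.lf (nat_lit 0) (nat_lit 1488534358634) (nat_lit 0) (nat_lit 0) (nat_lit 0) (nat_lit 0) (nat_lit 0) (nat_lit 0) (nat_lit 1) (nat_lit 0) (nat_lit 1) (nat_lit 0) (nat_lit 454) (nat_lit 326) (nat_lit 300)))))) (XT.nd (nat_lit 658) (nat_lit 0) (nat_lit 0) (XT.nd (nat_lit 282) (nat_lit 0) (nat_lit 0) (XT.nd (nat_lit 94) (nat_lit 0) (nat_lit 0) (XT.lf (nat_lit 0) (nat_lit 1607609198961) (nat_lit 0) (nat_lit 0) (nat_lit 0) (nat_lit 0) (nat_lit 0) (nat_lit 0) (nat_lit 1) (nat_lit 0) (nat_lit 1) (nat_lit 0) (nat_lit 455) (nat_lit 326) (nat_lit 299)) (XT.nd (nat_lit 94) (nat_lit 0) (nat_lit 0) (XT.lf (nat_lit 0) (nat_lit 1736210147538) (nat_lit 0) (nat_lit 0) (nat_lit 0) (nat_lit 0) (nat_lit 0) (nat_lit 0) (nat_lit 1) (nat_lit 0) (nat_lit 1) (nat_lit 0) (nat_lit 456) (nat_lit 326) (nat_lit 298)) (XT.lf (nat_lit 0) (nat_lit 1875099284060)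 (nat_lit 0) (nat_lit 0) (nat_lit 0) (nat_lit 0) (nat_lit 0) (nat_lit 0) (nat_lit 1) (nat_lit 0) (nat_lit 1) (nat_lit 0) (nat_lit 457) (nat_lit 326) (nat_lit 297)))) (XT.nd (nat_lit 188) (nat_lit 0) (nat_lit 0) (XT.nd (nat_lit 94) (nat_lit 0) (nat_lit 0) (XT.lf (nat_lit 0) (nat_lit 2025099655262) (nat_lit 0) (nat_lit 0) (nat_lit 0) (nat_lit 0) (nat_lit 0) (nat_lit 0) (nat_lit 1) (nat_lit 0) (nat_lit 1) (nat_lit 0) (nat_lit 458) (nat_lit 326) (nat_lit 296)) (XT.lf (nat_lit 0) (nat_lit 2187100152233) (nat_lit 0) (nat_lit 0) (nat_lit 0) (nat_lit 0) (nat_lit 0) (nat_lit 0) (nat_lit 1) (nat_lit 0) (nat_lit 1) (nat_lit 0) (nat_lit 459) (nat_lit 326) (nat_lit 295))) (XT.nd (nat_lit 94) (nat_lit 0) (nat_lit 0) (XT.lf (nat_lit 0) (nat_lit 2362060777917) (nat_lit 0) (nat_lit 0) (nat_lit 0) (nat_lit 0) (nat_lit 0) (nat_lit 0) (nat_lit 1) (nat_lit 0) (nat_lit 1) (nat_lit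 0) (nat_lit 460) (nat_lit 326) (nat_lit 294)) (XT.lf (nat_lit 0) (nat_lit 2551018336023) (nat_lit 0) (nat_lit 0) (nat_lit 0) (nat_lit 0) (nat_lit 0) (nat_lit 0) (nat_lit 1) (nat_lit 0) (nat_lit 1) (nat_lit 0) (nat_lit 461) (nat_lit 326) (nat_lit 293))))) (XT.nd (nat_lit 376) (nat_lit 0) (nat_lit 0) (XT.nd (nat_lit 188) (nat_lit 0) (nat_lit 0) (XT.nd (nat_lit 94) (nat_lit 0) (nat_lit 0) (XT.lf (nat_lit 0) (nat_lit 2755092575043) (nat_lit 0) (nat_lit 0) (nat_lit 0) (nat_lit 0) (nat_lit 0) (nat_lit 0) (nat_lit 1) (nat_lit 0) (nat_lit 1) (nat_lit 0) (nat_lit 462) (nat_lit 326) (nat_lit 292)) (XT.lf (nat_lit 0) (nat_lit 2975492823801) (nat_lit 0) (nat_lit 0) (nat_lit 0) (nat_lit 0) (nat_lit 0) (nat_lit 0) (nat_lit 1) (nat_lit 0) (nat_lit 1) (nat_lit 0) (nat_lit 463) (nat_lit 326) (nat_lit 291))) (XT.nd (nat_lit 94) (nat_lit 0) (nat_lit 0) (XT.lf (nat_lit 0) (nat_lit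 3213525157844) (nat_lit 0) (nat_lit 0) (nat_lit 0) (nat_lit 0) (nat_lit 0) (nat_lit 0) (nat_lit 1) (nat_lit 0) (nat_lit 1) (nat_lit 0) (nat_lit 464) (nat_lit 326) (nat_lit 290)) (XT.lf (nat_lit 0) (nat_lit 3470600139153) (nat_lit 0) (nat_lit 0) (nat_lit 0) (nat_lit 0) (nat_lit 0) (nat_lit 0) (nat_lit 1) (nat_lit 0) (nat_lit 1) (nat_lit 0) (nat_lit 465) (nat_lit 326) (nat_lit 289)))) (XT.nd (nat_lit 188) (nat_lit 0) (nat_lit 0) (XT.nd (nat_lit 94) (nat_lit 0) (nat_lit 0) (XT.lf (nat_lit 0) (nat_lit 3748241175024) (nat_lit 0) (nat_lit 0) (nat_lit 0) (nat_lit 0) (nat_lit 0) (nat_lit 0) (nat_lit 1) (nat_lit 0) (nat_lit 1) (nat_lit 0) (nat_lit 466) (nat_lit 326) (nat_lit 288)) (XT.lf (nat_lit 0) (nat_lit 4048093545670) (nat_lit 0) (nat_lit 0) (nat_lit 0) (nat_lit 0) (nat_lit 0) (nat_lit 0) (nat_lit 1) (nat_lit 0) (nat_lit 1) (nat_lit 0) (nat_lit 467) (nat_lit 326)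 (nat_lit 287))) (XT.nd (nat_lit 94) (nat_lit 0) (nat_lit 0) (XT.lf (nat_lit 0) (nat_lit 4371934154028) (nat_lit 0) (nat_lit 0) (nat_lit 0) (nat_lit 0) (nat_lit 0) (nat_lit 0) (nat_lit 1) (nat_lit 0) (nat_lit 1) (nat_lit 0) (nat_lit 468) (nat_lit 326) (nat_lit 286)) (XT.lf (nat_lit 0) (nat_lit 4721682055554) (nat_lit 0) (nat_lit 0) (nat_lit 0) (nat_lit 0) (nat_lit 0) (nat_lit 0) (nat_lit 1) (nat_lit 0) (nat_lit 1) (nat_lit 0) (nat_lit 469) (nat_lit 326) (nat_lit 285))))))))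
noncomputable def xc26 : XT := (XT.nd (nat_lit 2632) (nat_lit 0) (nat_lit 0) (XT.nd (nat_lit 1316) (nat_lit 0) (nat_lit 0) (XT.nd (nat_lit 658) (nat_lit 0) (nat_lit 0) (XT.nd (nat_lit 282) (nat_lit 0) (nat_lit 0) (XT.nd (nat_lit 94) (nat_lit 0) (nat_lit 0) (XT.lf (nat_lit 0) (nat_lit 5099409830406) (nat_lit 0) (nat_lit 0) (nat_lit 0) (nat_lit 0) (nat_lit 0) (nat_lit 0) (nat_lit 1) (nat_lit 0) (nat_lit 1) (nat_lit 0) (nat_lit 470) (nat_lit 326) (nat_lit 284)) (XT.nd (nat_lit 94) (nat_lit 0) (nat_lit 0) (XT.lf (nat_lit 0) (nat_lit 5507355865398) (nat_lit 0) (nat_lit 0) (nat_lit 0) (nat_lit 0) (nat_lit 0) (nat_lit 0) (nat_lit 1) (nat_lit 0) (nat_lit 1) (nat_lit 0) (nat_lit 471) (nat_lit 326) (nat_lit 283)) (XT.lf (nat_lit 0) (nat_lit 5947937618515) (nat_lit 0) (nat_lit 0) (nat_lit 0) (nat_lit 0) (nat_lit 0) (nat_lit 0) (nat_lit 1) (nat_lit 0) (nat_lit 1) (nat_lit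 0) (nat_lit 472) (nat_lit 326) (nat_lit 282)))) (XT.nd (nat_lit 188) (nat_lit 0) (nat_lit 0) (XT.nd (nat_lit 94) (nat_lit 0) (nat_lit 0) (XT.lf (nat_lit 0) (nat_lit 6423765944591) (nat_lit 0) (nat_lit 0) (nat_lit 0) (nat_lit 0) (nat_lit 0) (nat_lit 0) (nat_lit 1) (nat_lit 0) (nat_lit 1) (nat_lit 0) (nat_lit 473) (nat_lit 326) (nat_lit 281)) (XT.lf (nat_lit 0) (nat_lit 6937660567038) (nat_lit 0) (nat_lit 0) (nat_lit 0) (nat_lit 0) (nat_lit 0) (nat_lit 0) (nat_lit 1) (nat_lit 0) (nat_lit 1) (nat_lit 0) (nat_lit 474) (nat_lit 326) (nat_lit 280))) (XT.nd (nat_lit 94) (nat_lit 0) (nat_lit 0) (XT.lf (nat_lit 0) (nat_lit 7492666787324) (nat_lit 0) (nat_lit 0) (nat_lit 0) (nat_lit 0) (nat_lit 0) (nat_lit 0) (nat_lit 1) (nat_lit 0) (nat_lit 1) (nat_lit 0) (nat_lit 475) (nat_lit 326) (nat_lit 279)) (XT.lf (nat_lit 0) (nat_lit 8092073531199) (nat_lit 0) (nat_lit 0) (nat_lit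 0) (nat_lit 0) (nat_lit 0) (nat_lit 0) (nat_lit 1) (nat_lit 0) (nat_lit 1) (nat_lit 0) (nat_lit 476) (nat_lit 326) (nat_lit 278))))) (XT.nd (nat_lit 282) (nat_lit 0) (nat_lit 0) (XT.nd (nat_lit 94) (nat_lit 0) (nat_lit 0) (XT.lf (nat_lit 0) (nat_lit 8739432838625) (nat_lit 0) (nat_lit 0) (nat_lit 0) (nat_lit 0) (nat_lit 0) (nat_lit 0) (nat_lit 1) (nat_lit 0) (nat_lit 1) (nat_lit 0) (nat_lit 477) (nat_lit 326) (nat_lit 277)) (XT.nd (nat_lit 94) (nat_lit 0) (nat_lit 0) (XT.lf (nat_lit 0) (nat_lit 9438580912907) (nat_lit 0) (nat_lit 0) (nat_lit 0) (nat_lit 0) (nat_lit 0) (nat_lit 0) (nat_lit 1) (nat_lit 0) (nat_lit 1) (nat_lit 0) (nat_lit 478) (nat_lit 326) (nat_lit 276)) (XT.lf (nat_lit 0) (nat_lit 10193660853743) (nat_lit 0) (nat_lit 0) (nat_lit 0) (nat_lit 0) (nat_lit 0) (nat_lit 0) (nat_lit 1) (nat_lit 0) (nat_lit 1) (nat_lit 0) (nat_lit 479) (nat_lit 326)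 (nat_lit 275)))) (XT.nd (nat_lit 188) (nat_lit 0) (nat_lit 0) (XT.nd (nat_lit 94) (nat_lit 0) (nat_lit 0) (XT.lf (nat_lit 0) (nat_lit 11009147208932) (nat_lit 0) (nat_lit 0) (nat_lit 0) (nat_lit 0) (nat_lit 0) (nat_lit 0) (nat_lit 1) (nat_lit 0) (nat_lit 1) (nat_lit 0) (nat_lit 480) (nat_lit 326) (nat_lit 274)) (XT.lf (nat_lit 0) (nat_lit 11889872490207) (nat_lit 0) (nat_lit 0) (nat_lit 0) (nat_lit 0) (nat_lit 0) (nat_lit 0) (nat_lit 1) (nat_lit 0) (nat_lit 1) (nat_lit 0) (nat_lit 481) (nat_lit 326) (nat_lit 273))) (XT.nd (nat_lit 94) (nat_lit 0) (nat_lit 0) (XT.lf (nat_lit 0) (nat_lit 12841055810347) (nat_lit 0) (nat_lit 0) (nat_lit 0) (nat_lit 0) (nat_lit 0) (nat_lit 0) (nat_lit 1) (nat_lit 0) (nat_lit 1) (nat_lit 0) (nat_lit 482) (nat_lit 326) (nat_lit 272)) (XT.lf (nat_lit 0) (nat_lit 13868333811248) (nat_lit 0) (nat_lit 0) (nat_lit 0) (nat_lit 0) (nat_lit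 0) (nat_lit 0) (nat_lit 1) (nat_lit 0) (nat_lit 1) (nat_lit 0) (nat_lit 483) (nat_lit 326) (nat_lit 271)))))) (XT.nd (nat_lit 658) (nat_lit 0) (nat_lit 0) (XT.nd (nat_lit 282) (nat_lit 0) (nat_lit 0) (XT.nd (nat_lit 94) (nat_lit 0) (nat_lit 0) (XT.lf (nat_lit 0) (nat_lit 14977794066250) (nat_lit 0) (nat_lit 0) (nat_lit 0) (nat_lit 0) (nat_lit 0) (nat_lit 0) (nat_lit 1) (nat_lit 0) (nat_lit 1) (nat_lit 0) (nat_lit 484) (nat_lit 326) (nat_lit 270)) (XT.nd (nat_lit 94) (nat_lit 0) (nat_lit 0) (XT.lf (nat_lit 0) (nat_lit 16176011154642) (nat_lit 0) (nat_lit 0) (nat_lit 0) (nat_lit 0) (nat_lit 0) (nat_lit 0) (nat_lit 1) (nat_lit 0) (nat_lit 1) (nat_lit 0) (nat_lit 485) (nat_lit 326) (nat_lit 269)) (XT.lf (nat_lit 0) (nat_lit 17470085622132) (nat_lit 0) (nat_lit 0) (nat_lit 0) (nat_lit 0) (nat_lit 0) (nat_lit 0) (nat_lit 1) (nat_lit 0) (nat_lit 1) (nat_lit 0) (nat_lit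 486) (nat_lit 326) (nat_lit 268)))) (XT.nd (nat_lit 188) (nat_lit 0) (nat_lit 0) (XT.nd (nat_lit 94) (nat_lit 0) (nat_lit 0) (XT.lf (nat_lit 0) (nat_lit 18867686058157) (nat_lit 0) (nat_lit 0) (nat_lit 0) (nat_lit 0) (nat_lit 0) (nat_lit 0) (nat_lit 1) (nat_lit 0) (nat_lit 1) (nat_lit 0) (nat_lit 487) (nat_lit 326) (nat_lit 267)) (XT.lf (nat_lit 0) (nat_lit 20377094539375) (nat_lit 0) (nat_lit 0) (nat_lit 0) (nat_lit 0) (nat_lit 0) (nat_lit 0) (nat_lit 1) (nat_lit 0) (nat_lit 1) (nat_lit 0) (nat_lit 488) (nat_lit 326) (nat_lit 266))) (XT.nd (nat_lit 94) (nat_lit 0) (nat_lit 0) (XT.lf (nat_lit 0) (nat_lit 22007255708638) (nat_lit 0) (nat_lit 0) (nat_lit 0) (nat_lit 0) (nat_lit 0) (nat_lit 0) (nat_lit 1) (nat_lit 0) (nat_lit 1) (nat_lit 0) (nat_lit 489) (nat_lit 326) (nat_lit 265)) (XT.lf (nat_lit 0) (nat_lit 23767829780282) (nat_lit 0) (nat_lit 0) (nat_lit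 0) (nat_lit 0) (nat_lit 0) (nat_lit 0) (nat_lit 1) (nat_lit 0) (nat_lit 1) (nat_lit 0) (nat_lit 490) (nat_lit 326) (nat_lit 264))))) (XT.nd (nat_lit 282) (nat_lit 0) (nat_lit 0) (XT.nd (nat_lit 94) (nat_lit 0) (nat_lit 0) (XT.lf (nat_lit 0) (nat_lit 25669249785844) (nat_lit 0) (nat_lit 0) (nat_lit 0) (nat_lit 0) (nat_lit 0) (nat_lit 0) (nat_lit 1) (nat_lit 0) (nat_lit 1) (nat_lit 0) (nat_lit 491) (nat_lit 326) (nat_lit 263)) (XT.nd (nat_lit 94) (nat_lit 0) (nat_lit 0) (XT.lf (nat_lit 0) (nat_lit 27722783399429) (nat_lit 0) (nat_lit 0) (nat_lit 0) (nat_lit 0) (nat_lit 0) (nat_lit 0) (nat_lit 1) (nat_lit 0) (nat_lit 1) (nat_lit 0) (nat_lit 492) (nat_lit 326) (nat_lit 262)) (XT.lf (nat_lit 0) (nat_lit 29940599709119) (nat_lit 0) (nat_lit 0) (nat_lit 0) (nat_lit 0) (nat_lit 0) (nat_lit 0) (nat_lit 1) (nat_lit 0) (nat_lit 1) (nat_lit 0) (nat_lit 493) (nat_lit 326)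 (nat_lit 261)))) (XT.nd (nat_lit 188) (nat_lit 0) (nat_lit 0) (XT.nd (nat_lit 94) (nat_lit 0) (nat_lit 0) (XT.lf (nat_lit 0) (nat_lit 32335841330082) (nat_lit 0) (nat_lit 0) (nat_lit 0) (nat_lit 0) (nat_lit 0) (nat_lit 0) (nat_lit 1) (nat_lit 0) (nat_lit 1) (nat_lit 0) (nat_lit 494) (nat_lit 326) (nat_lit 260)) (XT.lf (nat_lit 0) (nat_lit 34922702286738) (nat_lit 0) (nat_lit 0) (nat_lit 0) (nat_lit 0) (nat_lit 0) (nat_lit 0) (nat_lit 1) (nat_lit 0) (nat_lit 1) (nat_lit 0) (nat_lit 495) (nat_lit 326) (nat_lit 259))) (XT.nd (nat_lit 94) (nat_lit 0) (nat_lit 0) (XT.lf (nat_lit 0) (nat_lit 37716512125498) (nat_lit 0) (nat_lit 0) (nat_lit 0) (nat_lit 0) (nat_lit 0) (nat_lit 0) (nat_lit 1) (nat_lit 0) (nat_lit 1) (nat_lit 0) (nat_lit 496) (nat_lit 326) (nat_lit 258)) (XT.lf (nat_lit 0) (nat_lit 40733826756516) (nat_lit 0) (nat_lit 0) (nat_lit 0) (nat_lit 0) (nat_lit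 0) (nat_lit 0) (nat_lit 1) (nat_lit 0) (nat_lit 1) (nat_lit 0) (nat_lit 497) (nat_lit 326) (nat_lit 257))))))) (XT.nd (nat_lit 61946) (nat_lit 0) (nat_lit 0) (XT.nd (nat_lit 61288) (nat_lit 0) (nat_lit 0) (XT.nd (nat_lit 282) (nat_lit 0) (nat_lit 0) (XT.nd (nat_lit 94) (nat_lit 0) (nat_lit 0) (XT.lf (nat_lit 0) (nat_lit 43992526562793) (nat_lit 0) (nat_lit 0) (nat_lit 0) (nat_lit 0) (nat_lit 0) (nat_lit 0) (nat_lit 1) (nat_lit 0) (nat_lit 1) (nat_lit 0) (nat_lit 498) (nat_lit 326) (nat_lit 256)) (XT.nd (nat_lit 94) (nat_lit 0) (nat_lit 0) (XT.lf (nat_lit 0) (nat_lit 47511922357993) (nat_lit 0) (nat_lit 0) (nat_lit 0) (nat_lit 0) (nat_lit 0) (nat_lit 0) (nat_lit 1) (nat_lit 0) (nat_lit 1) (nat_lit 0) (nat_lit 499) (nat_lit 326) (nat_lit 255)) (XT.lf (nat_lit 0) (nat_lit 51312869820905) (nat_lit 0) (nat_lit 0) (nat_lit 0) (nat_lit 0) (nat_lit 0) (nat_lit 0)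 (nat_lit 1) (nat_lit 0) (nat_lit 1) (nat_lit 0) (nat_lit 500) (nat_lit 326) (nat_lit 254)))) (XT.nd (nat_lit 60818) (nat_lit 0) (nat_lit 0) (XT.nd (nat_lit 60724) (nat_lit 0) (nat_lit 0) (XT.lf (nat_lit 0) (nat_lit 55417893084640) (nat_lit 0) (nat_lit 0) (nat_lit 0) (nat_lit 0) (nat_lit 0) (nat_lit 0) (nat_lit 1) (nat_lit 0) (nat_lit 1) (nat_lit 0) (nat_lit 501) (nat_lit 326) (nat_lit 253)) (XT.lf (nat_lit 0) (nat_lit 86350324041) (nat_lit 0) (nat_lit 0) (nat_lit 0) (nat_lit 0) (nat_lit 0) (nat_lit 0) (nat_lit 1) (nat_lit 0) (nat_lit 1) (nat_lit 0) (nat_lit 426) (nat_lit 327) (nat_lit 327))) (XT.nd (nat_lit 94) (nat_lit 0) (nat_lit 0) (XT.lf (nat_lit 0) (nat_lit 186496872369) (nat_lit 0) (nat_lit 0) (nat_lit 0) (nat_lit 0) (nat_lit 0) (nat_lit 0) (nat_lit 1) (nat_lit 0) (nat_lit 1) (nat_lit 0) (nat_lit 427) (nat_lit 327) (nat_lit 326)) (XT.lf (nat_lit 0) (nat_lit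 201397761344) (nat_lit 0) (nat_lit 0) (nat_lit 0) (nat_lit 0) (nat_lit 0) (nat_lit 0) (nat_lit 1) (nat_lit 0) (nat_lit 1) (nat_lit 0) (nat_lit 428) (nat_lit 327) (nat_lit 325))))) (XT.nd (nat_lit 282) (nat_lit 0) (nat_lit 0) (XT.nd (nat_lit 94) (nat_lit 0) (nat_lit 0) (XT.lf (nat_lit 0) (nat_lit 217491616571) (nat_lit 0) (nat_lit 0) (nat_lit 0) (nat_lit 0) (nat_lit 0) (nat_lit 0) (nat_lit 1) (nat_lit 0) (nat_lit 1) (nat_lit 0) (nat_lit 429) (nat_lit 327) (nat_lit 324)) (XT.nd (nat_lit 94) (nat_lit 0) (nat_lit 0) (XT.lf (nat_lit 0) (nat_lit 234873809044) (nat_lit 0) (nat_lit 0) (nat_lit 0) (nat_lit 0) (nat_lit 0) (nat_lit 0) (nat_lit 1) (nat_lit 0) (nat_lit 1) (nat_lit 0) (nat_lit 430) (nat_lit 327) (nat_lit 323)) (XT.lf (nat_lit 0) (nat_lit 253647344348) (nat_lit 0) (nat_lit 0) (nat_lit 0) (nat_lit 0) (nat_lit 0) (nat_lit 0) (nat_lit 1) (nat_lit 0) (nat_lit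 1) (nat_lit 0) (nat_lit 431) (nat_lit 327) (nat_lit 322)))) (XT.nd (nat_lit 188) (nat_lit 0) (nat_lit 0) (XT.nd (nat_lit 94) (nat_lit 0) (nat_lit 0) (XT.lf (nat_lit 0) (nat_lit 273923473061) (nat_lit 0) (nat_lit 0) (nat_lit 0) (nat_lit 0) (nat_lit 0) (nat_lit 0) (nat_lit 1) (nat_lit 0) (nat_lit 1) (nat_lit 0) (nat_lit 432) (nat_lit 327) (nat_lit 321)) (XT.lf (nat_lit 0) (nat_lit 295822350023) (nat_lit 0) (nat_lit 0) (nat_lit 0) (nat_lit 0) (nat_lit 0) (nat_lit 0) (nat_lit 1) (nat_lit 0) (nat_lit 1) (nat_lit 0) (nat_lit 433) (nat_lit 327) (nat_lit 320))) (XT.nd (nat_lit 94) (nat_lit 0) (nat_lit 0) (XT.lf (nat_lit 0) (nat_lit 319473746354) (nat_lit 0) (nat_lit 0) (nat_lit 0) (nat_lit 0) (nat_lit 0) (nat_lit 0) (nat_lit 1) (nat_lit 0) (nat_lit 1) (nat_lit 0) (nat_lit 434) (nat_lit 327) (nat_lit 319)) (XT.lf (nat_lit 0) (nat_lit 345017818477) (nat_lit 0) (nat_lit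 0) (nat_lit 0) (nat_lit 0) (nat_lit 0) (nat_lit 0) (nat_lit 1) (nat_lit 0) (nat_lit 1) (nat_lit 0) (nat_lit 435) (nat_lit 327) (nat_lit 318)))))) (XT.nd (nat_lit 658) (nat_lit 0) (nat_lit 0) (XT.nd (nat_lit 282) (nat_lit 0) (nat_lit 0) (XT.nd (nat_lit 94) (nat_lit 0) (nat_lit 0) (XT.lf (nat_lit 0) (nat_lit 372605938673) (nat_lit 0) (nat_lit 0) (nat_lit 0) (nat_lit 0) (nat_lit 0) (nat_lit 0) (nat_lit 1) (nat_lit 0) (nat_lit 1) (nat_lit 0) (nat_lit 436) (nat_lit 327) (nat_lit 317)) (XT.nd (nat_lit 94) (nat_lit 0) (nat_lit 0) (XT.lf (nat_lit 0) (nat_lit 402401592097) (nat_lit 0) (nat_lit 0) (nat_lit 0) (nat_lit 0) (nat_lit 0) (nat_lit 0) (nat_lit 1) (nat_lit 0) (nat_lit 1) (nat_lit 0) (nat_lit 437) (nat_lit 327) (nat_lit 316)) (XT.lf (nat_lit 0) (nat_lit 434581345585) (nat_lit 0) (nat_lit 0) (nat_lit 0) (nat_lit 0) (nat_lit 0) (nat_lit 0) (nat_lit 1) (nat_lit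 0) (nat_lit 1) (nat_lit 0) (nat_lit 438) (nat_lit 327) (nat_lit 315)))) (XT.nd (nat_lit 188) (nat_lit 0) (nat_lit 0) (XT.nd (nat_lit 94) (nat_lit 0) (nat_lit 0) (XT.lf (nat_lit 0) (nat_lit 469335893972) (nat_lit 0) (nat_lit 0) (nat_lit 0) (nat_lit 0) (nat_lit 0) (nat_lit 0) (nat_lit 1) (nat_lit 0) (nat_lit 1) (nat_lit 0) (nat_lit 439) (nat_lit 327) (nat_lit 314)) (XT.lf (nat_lit 0) (nat_lit 506871190138) (nat_lit 0) (nat_lit 0) (nat_lit 0) (nat_lit 0) (nat_lit 0) (nat_lit 0) (nat_lit 1) (nat_lit 0) (nat_lit 1) (nat_lit 0) (nat_lit 440) (nat_lit 327) (nat_lit 313))) (XT.nd (nat_lit 94) (nat_lit 0) (nat_lit 0) (XT.lf (nat_lit 0) (nat_lit 547409665467) (nat_lit 0) (nat_lit 0) (nat_lit 0) (nat_lit 0) (nat_lit 0) (nat_lit 0) (nat_lit 1) (nat_lit 0) (nat_lit 1) (nat_lit 0) (nat_lit 441) (nat_lit 327) (nat_lit 312)) (XT.lf (nat_lit 0) (nat_lit 591191547961) (nat_lit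 0) (nat_lit 0) (nat_lit 0) (nat_lit 0) (nat_lit 0) (nat_lit 0) (nat_lit 1) (nat_lit 0) (nat_lit 1) (nat_lit 0) (nat_lit 442) (nat_lit 327) (nat_lit 311))))) (XT.nd (nat_lit 376) (nat_lit 0) (nat_lit 0) (XT.nd (nat_lit 188) (nat_lit 0) (nat_lit 0) (XT.nd (nat_lit 94) (nat_lit 0) (nat_lit 0) (XT.lf (nat_lit 0) (nat_lit 638476285813) (nat_lit 0) (nat_lit 0) (nat_lit 0) (nat_lit 0) (nat_lit 0) (nat_lit 0) (nat_lit 1) (nat_lit 0) (nat_lit 1) (nat_lit 0) (nat_lit 443) (nat_lit 327) (nat_lit 310)) (XT.lf (nat_lit 0) (nat_lit 689544084877) (nat_lit 0) (nat_lit 0) (nat_lit 0) (nat_lit 0) (nat_lit 0) (nat_lit 0) (nat_lit 1) (nat_lit 0) (nat_lit 1) (nat_lit 0) (nat_lit 444) (nat_lit 327) (nat_lit 309))) (XT.nd (nat_lit 94) (nat_lit 0) (nat_lit 0) (XT.lf (nat_lit 0) (nat_lit 744697569146) (nat_lit 0) (nat_lit 0) (nat_lit 0) (nat_lit 0) (nat_lit 0) (nat_lit 0) (nat_lit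 1) (nat_lit 0) (nat_lit 1) (nat_lit 0) (nat_lit 445) (nat_lit 327) (nat_lit 308)) (XT.lf (nat_lit 0) (nat_lit 804263574084) (nat_lit 0) (nat_lit 0) (nat_lit 0) (nat_lit 0) (nat_lit 0) (nat_lit 0) (nat_lit 1) (nat_lit 0) (nat_lit 1) (nat_lit 0) (nat_lit 446) (nat_lit 327) (nat_lit 307)))) (XT.nd (nat_lit 188) (nat_lit 0) (nat_lit 0) (XT.nd (nat_lit 94) (nat_lit 0) (nat_lit 0) (XT.lf (nat_lit 0) (nat_lit 868595083424) (nat_lit 0) (nat_lit 0) (nat_lit 0) (nat_lit 0) (nat_lit 0) (nat_lit 0) (nat_lit 1) (nat_lit 0) (nat_lit 1) (nat_lit 0) (nat_lit 447) (nat_lit 327) (nat_lit 306)) (XT.lf (nat_lit 0) (nat_lit 938073320924) (nat_lit 0) (nat_lit 0) (nat_lit 0) (nat_lit 0) (nat_lit 0) (nat_lit 0) (nat_lit 1) (nat_lit 0) (nat_lit 1) (nat_lit 0) (nat_lit 448) (nat_lit 327) (nat_lit 305))) (XT.nd (nat_lit 94) (nat_lit 0) (nat_lit 0) (XT.lf (nat_lit 0) (nat_lit 1013110009473)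 (nat_lit 0) (nat_lit 0) (nat_lit 0) (nat_lit 0) (nat_lit 0) (nat_lit 0) (nat_lit 1) (nat_lit 0) (nat_lit 1) (nat_lit 0) (nat_lit 449) (nat_lit 327) (nat_lit 304)) (XT.lf (nat_lit 0) (nat_lit 1094149810930) (nat_lit 0) (nat_lit 0) (nat_lit 0) (nat_lit 0) (nat_lit 0) (nat_lit 0) (nat_lit 1) (nat_lit 0) (nat_lit 1) (nat_lit 0) (nat_lit 450) (nat_lit 327) (nat_lit 303))))))))
noncomputable def xc27 : XT := (XT.nd (nat_lit 2632) (nat_lit 0) (nat_lit 0) (XT.nd (nat_lit 1316) (nat_lit 0) (nat_lit 0) (XT.nd (nat_lit 658) (nat_lit 0) (nat_lit 0) (XT.nd (nat_lit 282) (nat_lit 0) (nat_lit 0) (XT.nd (nat_lit 94) (nat_lit 0) (nat_lit 0) (XT.lf (nat_lit 0) (nat_lit 1181672961155) (nat_lit 0) (nat_lit 0) (nat_lit 0) (nat_lit 0) (nat_lit 0) (nat_lit 0) (nat_lit 1) (nat_lit 0) (nat_lit 1) (nat_lit 0) (nat_lit 451) (nat_lit 327) (nat_lit 302)) (XT.nd (nat_lit 94) (nat_lit 0)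 (nat_lit 0) (XT.lf (nat_lit 0) (nat_lit 1276198115852) (nat_lit 0) (nat_lit 0) (nat_lit 0) (nat_lit 0) (nat_lit 0) (nat_lit 0) (nat_lit 1) (nat_lit 0) (nat_lit 1) (nat_lit 0) (nat_lit 452) (nat_lit 327) (nat_lit 301)) (XT.lf (nat_lit 0) (nat_lit 1378285424088) (nat_lit 0) (nat_lit 0) (nat_lit 0) (nat_lit 0) (nat_lit 0) (nat_lit 0) (nat_lit 1) (nat_lit 0) (nat_lit 1) (nat_lit 0) (nat_lit 453) (nat_lit 327) (nat_lit 300)))) (XT.nd (nat_lit 188) (nat_lit 0) (nat_lit 0) (XT.nd (nat_lit 94) (nat_lit 0) (nat_lit 0) (XT.lf (nat_lit 0) (nat_lit 1488539847688) (nat_lit 0) (nat_lit 0) (nat_lit 0) (nat_lit 0) (nat_lit 0) (nat_lit 0) (nat_lit 1) (nat_lit 0) (nat_lit 1) (nat_lit 0) (nat_lit 454) (nat_lit 327) (nat_lit 299)) (XT.lf (nat_lit 0) (nat_lit 1607614746199) (nat_lit 0) (nat_lit 0) (nat_lit 0) (nat_lit 0) (nat_lit 0) (nat_lit 0) (nat_lit 1) (nat_lit 0) (nat_lit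 1) (nat_lit 0) (nat_lit 455) (nat_lit 327) (nat_lit 298))) (XT.nd (nat_lit 94) (nat_lit 0) (nat_lit 0) (XT.lf (nat_lit 0) (nat_lit 1736215748651) (nat_lit 0) (nat_lit 0) (nat_lit 0) (nat_lit 0) (nat_lit 0) (nat_lit 0) (nat_lit 1) (nat_lit 0) (nat_lit 1) (nat_lit 0) (nat_lit 456) (nat_lit 327) (nat_lit 297)) (XT.lf (nat_lit 0) (nat_lit 1875104935057) (nat_lit 0) (nat_lit 0) (nat_lit 0) (nat_lit 0) (nat_lit 0) (nat_lit 0) (nat_lit 1) (nat_lit 0) (nat_lit 1) (nat_lit 0) (nat_lit 457) (nat_lit 327) (nat_lit 296))))) (XT.nd (nat_lit 282) (nat_lit 0) (nat_lit 0) (XT.nd (nat_lit 94) (nat_lit 0) (nat_lit 0) (XT.lf (nat_lit 0) (nat_lit 2025105352447) (nat_lit 0) (nat_lit 0) (nat_lit 0) (nat_lit 0) (nat_lit 0) (nat_lit 0) (nat_lit 1) (nat_lit 0) (nat_lit 1) (nat_lit 0) (nat_lit 458) (nat_lit 327) (nat_lit 295)) (XT.nd (nat_lit 94) (nat_lit 0) (nat_lit 0) (XT.lf (nat_lit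 0) (nat_lit 2187105892186) (nat_lit 0) (nat_lit 0) (nat_lit 0) (nat_lit 0) (nat_lit 0) (nat_lit 0) (nat_lit 1) (nat_lit 0) (nat_lit 1) (nat_lit 0) (nat_lit 459) (nat_lit 327) (nat_lit 294)) (XT.lf (nat_lit 0) (nat_lit 2362066557469) (nat_lit 0) (nat_lit 0) (nat_lit 0) (nat_lit 0) (nat_lit 0) (nat_lit 0) (nat_lit 1) (nat_lit 0) (nat_lit 1) (nat_lit 0) (nat_lit 460) (nat_lit 327) (nat_lit 293)))) (XT.nd (nat_lit 188) (nat_lit 0) (nat_lit 0) (XT.nd (nat_lit 94) (nat_lit 0) (nat_lit 0) (XT.lf (nat_lit 0) (nat_lit 2551024152241) (nat_lit 0) (nat_lit 0) (nat_lit 0) (nat_lit 0) (nat_lit 0) (nat_lit 0) (nat_lit 1) (nat_lit 0) (nat_lit 1) (nat_lit 0) (nat_lit 461) (nat_lit 327) (nat_lit 292)) (XT.lf (nat_lit 0) (nat_lit 2755098425211) (nat_lit 0) (nat_lit 0) (nat_lit 0) (nat_lit 0) (nat_lit 0) (nat_lit 0) (nat_lit 1) (nat_lit 0) (nat_lit 1) (nat_lit 0) (nat_lit 462)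 (nat_lit 327) (nat_lit 291))) (XT.nd (nat_lit 94) (nat_lit 0) (nat_lit 0) (XT.lf (nat_lit 0) (nat_lit 2975498705404) (nat_lit 0) (nat_lit 0) (nat_lit 0) (nat_lit 0) (nat_lit 0) (nat_lit 0) (nat_lit 1) (nat_lit 0) (nat_lit 1) (nat_lit 0) (nat_lit 463) (nat_lit 327) (nat_lit 290)) (XT.lf (nat_lit 0) (nat_lit 3213531068554) (nat_lit 0) (nat_lit 0) (nat_lit 0) (nat_lit 0) (nat_lit 0) (nat_lit 0) (nat_lit 1) (nat_lit 0) (nat_lit 1) (nat_lit 0) (nat_lit 464) (nat_lit 327) (nat_lit 289)))))) (XT.nd (nat_lit 658) (nat_lit 0) (nat_lit 0) (XT.nd (nat_lit 282) (nat_lit 0) (nat_lit 0) (XT.nd (nat_lit 94) (nat_lit 0) (nat_lit 0) (XT.lf (nat_lit 0) (nat_lit 3470606076814) (nat_lit 0) (nat_lit 0) (nat_lit 0) (nat_lit 0) (nat_lit 0) (nat_lit 0) (nat_lit 1) (nat_lit 0) (nat_lit 1) (nat_lit 0) (nat_lit 465) (nat_lit 327) (nat_lit 288)) (XT.nd (nat_lit 94) (nat_lit 0) (nat_lit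 0) (XT.lf (nat_lit 0) (nat_lit 3748247137639) (nat_lit 0) (nat_lit 0) (nat_lit 0) (nat_lit 0) (nat_lit 0) (nat_lit 0) (nat_lit 1) (nat_lit 0) (nat_lit 1) (nat_lit 0) (nat_lit 466) (nat_lit 327) (nat_lit 287)) (XT.lf (nat_lit 0) (nat_lit 4048099531391) (nat_lit 0) (nat_lit 0) (nat_lit 0) (nat_lit 0) (nat_lit 0) (nat_lit 0) (nat_lit 1) (nat_lit 0) (nat_lit 1) (nat_lit 0) (nat_lit 467) (nat_lit 327) (nat_lit 286)))) (XT.nd (nat_lit 188) (nat_lit 0) (nat_lit 0) (XT.nd (nat_lit 94) (nat_lit 0) (nat_lit 0) (XT.lf (nat_lit 0) (nat_lit 4371940161143) (nat_lit 0) (nat_lit 0) (nat_lit 0) (nat_lit 0) (nat_lit 0) (nat_lit 0) (nat_lit 1) (nat_lit 0) (nat_lit 1) (nat_lit 0) (nat_lit 468) (nat_lit 327) (nat_lit 285)) (XT.lf (nat_lit 0) (nat_lit 4721688082479) (nat_lit 0) (nat_lit 0) (nat_lit 0) (nat_lit 0) (nat_lit 0) (nat_lit 0) (nat_lit 1) (nat_lit 0) (nat_lit 1) (nat_lit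 0) (nat_lit 469) (nat_lit 327) (nat_lit 284))) (XT.nd (nat_lit 94) (nat_lit 0) (nat_lit 0) (XT.lf (nat_lit 0) (nat_lit 5099415875673) (nat_lit 0) (nat_lit 0) (nat_lit 0) (nat_lit 0) (nat_lit 0) (nat_lit 0) (nat_lit 1) (nat_lit 0) (nat_lit 1) (nat_lit 0) (nat_lit 470) (nat_lit 327) (nat_lit 283)) (XT.lf (nat_lit 0) (nat_lit 5507361927649) (nat_lit 0) (nat_lit 0) (nat_lit 0) (nat_lit 0) (nat_lit 0) (nat_lit 0) (nat_lit 1) (nat_lit 0) (nat_lit 1) (nat_lit 0) (nat_lit 471) (nat_lit 327) (nat_lit 282))))) (XT.nd (nat_lit 282) (nat_lit 0) (nat_lit 0) (XT.nd (nat_lit 94) (nat_lit 0) (nat_lit 0) (XT.lf (nat_lit 0) (nat_lit 5947943696491) (nat_lit 0) (nat_lit 0) (nat_lit 0) (nat_lit 0) (nat_lit 0) (nat_lit 0) (nat_lit 1) (nat_lit 0) (nat_lit 1) (nat_lit 0) (nat_lit 472) (nat_lit 327) (nat_lit 281)) (XT.nd (nat_lit 94) (nat_lit 0) (nat_lit 0) (XT.lf (nat_lit 0) (nat_lit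 6423772037127) (nat_lit 0) (nat_lit 0) (nat_lit 0) (nat_lit 0) (nat_lit 0) (nat_lit 0) (nat_lit 1) (nat_lit 0) (nat_lit 1) (nat_lit 0) (nat_lit 473) (nat_lit 327) (nat_lit 280)) (XT.lf (nat_lit 0) (nat_lit 6937666673057) (nat_lit 0) (nat_lit 0) (nat_lit 0) (nat_lit 0) (nat_lit 0) (nat_lit 0) (nat_lit 1) (nat_lit 0) (nat_lit 1) (nat_lit 0) (nat_lit 474) (nat_lit 327) (nat_lit 279)))) (XT.nd (nat_lit 188) (nat_lit 0) (nat_lit 0) (XT.nd (nat_lit 94) (nat_lit 0) (nat_lit 0) (XT.lf (nat_lit 0) (nat_lit 7492672905826) (nat_lit 0) (nat_lit 0) (nat_lit 0) (nat_lit 0) (nat_lit 0) (nat_lit 0) (nat_lit 1) (nat_lit 0) (nat_lit 1) (nat_lit 0) (nat_lit 475) (nat_lit 327) (nat_lit 278)) (XT.lf (nat_lit 0) (nat_lit 8092079661259) (nat_lit 0) (nat_lit 0) (nat_lit 0) (nat_lit 0) (nat_lit 0) (nat_lit 0) (nat_lit 1) (nat_lit 0) (nat_lit 1) (nat_lit 0) (nat_lit 476) (nat_lit 327)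 (nat_lit 277))) (XT.nd (nat_lit 94) (nat_lit 0) (nat_lit 0) (XT.lf (nat_lit 0) (nat_lit 8739438979388) (nat_lit 0) (nat_lit 0) (nat_lit 0) (nat_lit 0) (nat_lit 0) (nat_lit 0) (nat_lit 1) (nat_lit 0) (nat_lit 1) (nat_lit 0) (nat_lit 477) (nat_lit 327) (nat_lit 276)) (XT.lf (nat_lit 0) (nat_lit 9438587063579) (nat_lit 0) (nat_lit 0) (nat_lit 0) (nat_lit 0) (nat_lit 0) (nat_lit 0) (nat_lit 1) (nat_lit 0) (nat_lit 1) (nat_lit 0) (nat_lit 478) (nat_lit 327) (nat_lit 275))))))) (XT.nd (nat_lit 1316) (nat_lit 0) (nat_lit 0) (XT.nd (nat_lit 658) (nat_lit 0) (nat_lit 0) (XT.nd (nat_lit 282) (nat_lit 0) (nat_lit 0) (XT.nd (nat_lit 94) (nat_lit 0) (nat_lit 0) (XT.lf (nat_lit 0) (nat_lit 10193667013591) (nat_lit 0) (nat_lit 0) (nat_lit 0) (nat_lit 0) (nat_lit 0) (nat_lit 0) (nat_lit 1) (nat_lit 0) (nat_lit 1) (nat_lit 0) (nat_lit 479) (nat_lit 327) (nat_lit 274)) (XT.nd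 (nat_lit 94) (nat_lit 0) (nat_lit 0) (XT.lf (nat_lit 0) (nat_lit 11009153377276) (nat_lit 0) (nat_lit 0) (nat_lit 0) (nat_lit 0) (nat_lit 0) (nat_lit 0) (nat_lit 1) (nat_lit 0) (nat_lit 1) (nat_lit 0) (nat_lit 480) (nat_lit 327) (nat_lit 273)) (XT.lf (nat_lit 0) (nat_lit 11889878666418) (nat_lit 0) (nat_lit 0) (nat_lit 0) (nat_lit 0) (nat_lit 0) (nat_lit 0) (nat_lit 1) (nat_lit 0) (nat_lit 1) (nat_lit 0) (nat_lit 481) (nat_lit 327) (nat_lit 272)))) (XT.nd (nat_lit 188) (nat_lit 0) (nat_lit 0) (XT.nd (nat_lit 94) (nat_lit 0) (nat_lit 0) (XT.lf (nat_lit 0) (nat_lit 12841061993842) (nat_lit 0) (nat_lit 0) (nat_lit 0) (nat_lit 0) (nat_lit 0) (nat_lit 0) (nat_lit 1) (nat_lit 0) (nat_lit 1) (nat_lit 0) (nat_lit 482) (nat_lit 327) (nat_lit 271)) (XT.lf (nat_lit 0) (nat_lit 13868340001488) (nat_lit 0) (nat_lit 0) (nat_lit 0) (nat_lit 0) (nat_lit 0) (nat_lit 0) (nat_lit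 1) (nat_lit 0) (nat_lit 1) (nat_lit 0) (nat_lit 483) (nat_lit 327) (nat_lit 270))) (XT.nd (nat_lit 94) (nat_lit 0) (nat_lit 0) (XT.lf (nat_lit 0) (nat_lit 14977800262735) (nat_lit 0) (nat_lit 0) (nat_lit 0) (nat_lit 0) (nat_lit 0) (nat_lit 0) (nat_lit 1) (nat_lit 0) (nat_lit 1) (nat_lit 0) (nat_lit 484) (nat_lit 327) (nat_lit 269)) (XT.lf (nat_lit 0) (nat_lit 16176017356908) (nat_lit 0) (nat_lit 0) (nat_lit 0) (nat_lit 0) (nat_lit 0) (nat_lit 0) (nat_lit 1) (nat_lit 0) (nat_lit 1) (nat_lit 0) (nat_lit 485) (nat_lit 327) (nat_lit 268))))) (XT.nd (nat_lit 282) (nat_lit 0) (nat_lit 0) (XT.nd (nat_lit 94) (nat_lit 0) (nat_lit 0) (XT.lf (nat_lit 0) (nat_lit 17470091829752) (nat_lit 0) (nat_lit 0) (nat_lit 0) (nat_lit 0) (nat_lit 0) (nat_lit 0) (nat_lit 1) (nat_lit 0) (nat_lit 1) (nat_lit 0) (nat_lit 486) (nat_lit 327) (nat_lit 267)) (XT.nd (nat_lit 94) (nat_lit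 0) (nat_lit 0) (XT.lf (nat_lit 0) (nat_lit 18867692270734) (nat_lit 0) (nat_lit 0) (nat_lit 0) (nat_lit 0) (nat_lit 0) (nat_lit 0) (nat_lit 1) (nat_lit 0) (nat_lit 1) (nat_lit 0) (nat_lit 487) (nat_lit 327) (nat_lit 266)) (XT.lf (nat_lit 0) (nat_lit 20377100756543) (nat_lit 0) (nat_lit 0) (nat_lit 0) (nat_lit 0) (nat_lit 0) (nat_lit 0) (nat_lit 1) (nat_lit 0) (nat_lit 1) (nat_lit 0) (nat_lit 488) (nat_lit 327) (nat_lit 265)))) (XT.nd (nat_lit 188) (nat_lit 0) (nat_lit 0) (XT.nd (nat_lit 94) (nat_lit 0) (nat_lit 0) (XT.lf (nat_lit 0) (nat_lit 22007261930056) (nat_lit 0) (nat_lit 0) (nat_lit 0) (nat_lit 0) (nat_lit 0) (nat_lit 0) (nat_lit 1) (nat_lit 0) (nat_lit 1) (nat_lit 0) (nat_lit 489) (nat_lit 327) (nat_lit 264)) (XT.lf (nat_lit 0) (nat_lit 23767836005636) (nat_lit 0) (nat_lit 0) (nat_lit 0) (nat_lit 0) (nat_lit 0) (nat_lit 0) (nat_lit 1) (nat_lit 0) (nat_lit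 1) (nat_lit 0) (nat_lit 490) (nat_lit 327) (nat_lit 263))) (XT.nd (nat_lit 94) (nat_lit 0) (nat_lit 0) (XT.lf (nat_lit 0) (nat_lit 25669256014841) (nat_lit 0) (nat_lit 0) (nat_lit 0) (nat_lit 0) (nat_lit 0) (nat_lit 0) (nat_lit 1) (nat_lit 0) (nat_lit 1) (nat_lit 0) (nat_lit 491) (nat_lit 327) (nat_lit 262)) (XT.lf (nat_lit 0) (nat_lit 27722789631800) (nat_lit 0) (nat_lit 0) (nat_lit 0) (nat_lit 0) (nat_lit 0) (nat_lit 0) (nat_lit 1) (nat_lit 0) (nat_lit 1) (nat_lit 0) (nat_lit 492) (nat_lit 327) (nat_lit 261)))))) (XT.nd (nat_lit 658) (nat_lit 0) (nat_lit 0) (XT.nd (nat_lit 282) (nat_lit 0) (nat_lit 0) (XT.nd (nat_lit 94) (nat_lit 0) (nat_lit 0) (XT.lf (nat_lit 0) (nat_lit 29940605944614) (nat_lit 0) (nat_lit 0) (nat_lit 0) (nat_lit 0) (nat_lit 0) (nat_lit 0) (nat_lit 1) (nat_lit 0) (nat_lit 1) (nat_lit 0) (nat_lit 493) (nat_lit 327) (nat_lit 260)) (XT.nd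 (nat_lit 94) (nat_lit 0) (nat_lit 0) (XT.lf (nat_lit 0) (nat_lit 32335847568469) (nat_lit 0) (nat_lit 0) (nat_lit 0) (nat_lit 0) (nat_lit 0) (nat_lit 0) (nat_lit 1) (nat_lit 0) (nat_lit 1) (nat_lit 0) (nat_lit 494) (nat_lit 327) (nat_lit 259)) (XT.lf (nat_lit 0) (nat_lit 34922708527804) (nat_lit 0) (nat_lit 0) (nat_lit 0) (nat_lit 0) (nat_lit 0) (nat_lit 0) (nat_lit 1) (nat_lit 0) (nat_lit 1) (nat_lit 0) (nat_lit 495) (nat_lit 327) (nat_lit 258)))) (XT.nd (nat_lit 188) (nat_lit 0) (nat_lit 0) (XT.nd (nat_lit 94) (nat_lit 0) (nat_lit 0) (XT.lf (nat_lit 0) (nat_lit 37716518369043) (nat_lit 0) (nat_lit 0) (nat_lit 0) (nat_lit 0) (nat_lit 0) (nat_lit 0) (nat_lit 1) (nat_lit 0) (nat_lit 1) (nat_lit 0) (nat_lit 496) (nat_lit 327) (nat_lit 257)) (XT.lf (nat_lit 0) (nat_lit 40733833002358) (nat_lit 0) (nat_lit 0) (nat_lit 0) (nat_lit 0) (nat_lit 0) (nat_lit 0) (nat_lit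 1) (nat_lit 0) (nat_lit 1) (nat_lit 0) (nat_lit 497) (nat_lit 327) (nat_lit 256))) (XT.nd (nat_lit 94) (nat_lit 0) (nat_lit 0) (XT.lf (nat_lit 0) (nat_lit 43992532810760) (nat_lit 0) (nat_lit 0) (nat_lit 0) (nat_lit 0) (nat_lit 0) (nat_lit 0) (nat_lit 1) (nat_lit 0) (nat_lit 1) (nat_lit 0) (nat_lit 498) (nat_lit 327) (nat_lit 255)) (XT.lf (nat_lit 0) (nat_lit 47511928607930) (nat_lit 0) (nat_lit 0) (nat_lit 0) (nat_lit 0) (nat_lit 0) (nat_lit 0) (nat_lit 1) (nat_lit 0) (nat_lit 1) (nat_lit 0) (nat_lit 499) (nat_lit 327) (nat_lit 254))))) (XT.nd (nat_lit 60818) (nat_lit 0) (nat_lit 0) (XT.nd (nat_lit 60630) (nat_lit 0) (nat_lit 0) (XT.nd (nat_lit 94) (nat_lit 0) (nat_lit 0) (XT.lf (nat_lit 0) (nat_lit 51312876072664) (nat_lit 0) (nat_lit 0) (nat_lit 0) (nat_lit 0) (nat_lit 0) (nat_lit 0) (nat_lit 1) (nat_lit 0) (nat_lit 1) (nat_lit 0) (nat_lit 500) (nat_lit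 327) (nat_lit 253)) (XT.lf (nat_lit 0) (nat_lit 55417899338087) (nat_lit 0) (nat_lit 0) (nat_lit 0) (nat_lit 0) (nat_lit 0) (nat_lit 0) (nat_lit 1) (nat_lit 0) (nat_lit 1) (nat_lit 0) (nat_lit 501) (nat_lit 327) (nat_lit 252))) (XT.nd (nat_lit 94) (nat_lit 0) (nat_lit 0) (XT.lf (nat_lit 0) (nat_lit 74050345760) (nat_lit 0) (nat_lit 0) (nat_lit 0) (nat_lit 0) (nat_lit 0) (nat_lit 0) (nat_lit 1) (nat_lit 0) (nat_lit 1) (nat_lit 0) (nat_lit 424) (nat_lit 328) (nat_lit 328)) (XT.lf (nat_lit 0) (nat_lit 159927333079) (nat_lit 0) (nat_lit 0) (nat_lit 0) (nat_lit 0) (nat_lit 0) (nat_lit 0) (nat_lit 1) (nat_lit 0) (nat_lit 1) (nat_lit 0) (nat_lit 425) (nat_lit 328) (nat_lit 327)))) (XT.nd (nat_lit 188) (nat_lit 0) (nat_lit 0) (XT.nd (nat_lit 94) (nat_lit 0) (nat_lit 0) (XT.lf (nat_lit 0) (nat_lit 172701150045) (nat_lit 0) (nat_lit 0) (nat_lit 0) (nat_lit 0) (nat_lit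 0) (nat_lit 0) (nat_lit 1) (nat_lit 0) (nat_lit 1) (nat_lit 0) (nat_lit 426) (nat_lit 328) (nat_lit 326)) (XT.lf (nat_lit 0) (nat_lit 186497839114) (nat_lit 0) (nat_lit 0) (nat_lit 0) (nat_lit 0) (nat_lit 0) (nat_lit 0) (nat_lit 1) (nat_lit 0) (nat_lit 1) (nat_lit 0) (nat_lit 427) (nat_lit 328) (nat_lit 325))) (XT.nd (nat_lit 94) (nat_lit 0) (nat_lit 0) (XT.lf (nat_lit 0) (nat_lit 201399158442) (nat_lit 0) (nat_lit 0) (nat_lit 0) (nat_lit 0) (nat_lit 0) (nat_lit 0) (nat_lit 1) (nat_lit 0) (nat_lit 1) (nat_lit 0) (nat_lit 428) (nat_lit 328) (nat_lit 324)) (XT.lf (nat_lit 0) (nat_lit 217493412143) (nat_lit 0) (nat_lit 0) (nat_lit 0) (nat_lit 0) (nat_lit 0) (nat_lit 0) (nat_lit 1) (nat_lit 0) (nat_lit 1) (nat_lit 0) (nat_lit 429) (nat_lit 328) (nat_lit 323))))))))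
noncomputable def xc28 : XT := (XT.nd (nat_lit 2632) (nat_lit 0) (nat_lit 0) (XT.nd (nat_lit 1316) (nat_lit 0) (nat_lit 0) (XT.nd (nat_lit 658) (nat_lit 0) (nat_lit 0) (XT.nd (nat_lit 282) (nat_lit 0) (nat_lit 0) (XT.nd (nat_lit 94) (nat_lit 0) (nat_lit 0) (XT.lf (nat_lit 0) (nat_lit 234875973574) (nat_lit 0) (nat_lit 0) (nat_lit 0) (nat_lit 0) (nat_lit 0) (nat_lit 0) (nat_lit 1) (nat_lit 0) (nat_lit 1) (nat_lit 0) (nat_lit 430) (nat_lit 328) (nat_lit 322)) (XT.nd (nat_lit 94) (nat_lit 0) (nat_lit 0) (XT.lf (nat_lit 0) (nat_lit 253649850506) (nat_lit 0) (nat_lit 0) (nat_lit 0) (nat_lit 0) (nat_lit 0) (nat_lit 0) (nat_lit 1) (nat_lit 0) (nat_lit 1) (nat_lit 0) (nat_lit 431) (nat_lit 328) (nat_lit 321)) (XT.lf (nat_lit 0) (nat_lit 273926295542) (nat_lit 0) (nat_lit 0) (nat_lit 0) (nat_lit 0) (nat_lit 0) (nat_lit 0) (nat_lit 1) (nat_lit 0) (nat_lit 1) (nat_lit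 0) (nat_lit 432) (nat_lit 328) (nat_lit 320)))) (XT.nd (nat_lit 188) (nat_lit 0) (nat_lit 0) (XT.nd (nat_lit 94) (nat_lit 0) (nat_lit 0) (XT.lf (nat_lit 0) (nat_lit 295825465394) (nat_lit 0) (nat_lit 0) (nat_lit 0) (nat_lit 0) (nat_lit 0) (nat_lit 0) (nat_lit 1) (nat_lit 0) (nat_lit 1) (nat_lit 0) (nat_lit 433) (nat_lit 328) (nat_lit 319)) (XT.lf (nat_lit 0) (nat_lit 319477132920) (nat_lit 0) (nat_lit 0) (nat_lit 0) (nat_lit 0) (nat_lit 0) (nat_lit 0) (nat_lit 1) (nat_lit 0) (nat_lit 1) (nat_lit 0) (nat_lit 434) (nat_lit 328) (nat_lit 318))) (XT.nd (nat_lit 94) (nat_lit 0) (nat_lit 0) (XT.lf (nat_lit 0) (nat_lit 345021456151) (nat_lit 0) (nat_lit 0) (nat_lit 0) (nat_lit 0) (nat_lit 0) (nat_lit 0) (nat_lit 1) (nat_lit 0) (nat_lit 1) (nat_lit 0) (nat_lit 435) (nat_lit 328) (nat_lit 317)) (XT.lf (nat_lit 0) (nat_lit 372609808853) (nat_lit 0) (nat_lit 0) (nat_lit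 0) (nat_lit 0) (nat_lit 0) (nat_lit 0) (nat_lit 1) (nat_lit 0) (nat_lit 1) (nat_lit 0) (nat_lit 436) (nat_lit 328) (nat_lit 316))))) (XT.nd (nat_lit 282) (nat_lit 0) (nat_lit 0) (XT.nd (nat_lit 94) (nat_lit 0) (nat_lit 0) (XT.lf (nat_lit 0) (nat_lit 402405677560) (nat_lit 0) (nat_lit 0) (nat_lit 0) (nat_lit 0) (nat_lit 0) (nat_lit 0) (nat_lit 1) (nat_lit 0) (nat_lit 1) (nat_lit 0) (nat_lit 437) (nat_lit 328) (nat_lit 315)) (XT.nd (nat_lit 94) (nat_lit 0) (nat_lit 0) (XT.lf (nat_lit 0) (nat_lit 434585630385) (nat_lit 0) (nat_lit 0) (nat_lit 0) (nat_lit 0) (nat_lit 0) (nat_lit 0) (nat_lit 1) (nat_lit 0) (nat_lit 1) (nat_lit 0) (nat_lit 438) (nat_lit 328) (nat_lit 314)) (XT.lf (nat_lit 0) (nat_lit 469340363343) (nat_lit 0) (nat_lit 0) (nat_lit 0) (nat_lit 0) (nat_lit 0) (nat_lit 0) (nat_lit 1) (nat_lit 0) (nat_lit 1) (nat_lit 0) (nat_lit 439) (nat_lit 328) (nat_lit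 313)))) (XT.nd (nat_lit 188) (nat_lit 0) (nat_lit 0) (XT.nd (nat_lit 94) (nat_lit 0) (nat_lit 0) (XT.lf (nat_lit 0) (nat_lit 506875830408) (nat_lit 0) (nat_lit 0) (nat_lit 0) (nat_lit 0) (nat_lit 0) (nat_lit 0) (nat_lit 1) (nat_lit 0) (nat_lit 1) (nat_lit 0) (nat_lit 440) (nat_lit 328) (nat_lit 312)) (XT.lf (nat_lit 0) (nat_lit 547414463977) (nat_lit 0) (nat_lit 0) (nat_lit 0) (nat_lit 0) (nat_lit 0) (nat_lit 0) (nat_lit 1) (nat_lit 0) (nat_lit 1) (nat_lit 0) (nat_lit 441) (nat_lit 328) (nat_lit 311))) (XT.nd (nat_lit 94) (nat_lit 0) (nat_lit 0) (XT.lf (nat_lit 0) (nat_lit 591196492989) (nat_lit 0) (nat_lit 0) (nat_lit 0) (nat_lit 0) (nat_lit 0) (nat_lit 0) (nat_lit 1) (nat_lit 0) (nat_lit 1) (nat_lit 0) (nat_lit 442) (nat_lit 328) (nat_lit 310)) (XT.lf (nat_lit 0) (nat_lit 638481366506) (nat_lit 0) (nat_lit 0) (nat_lit 0) (nat_lit 0) (nat_lit 0) (nat_lit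 0) (nat_lit 1) (nat_lit 0) (nat_lit 1) (nat_lit 0) (nat_lit 443) (nat_lit 328) (nat_lit 309)))))) (XT.nd (nat_lit 658) (nat_lit 0) (nat_lit 0) (XT.nd (nat_lit 282) (nat_lit 0) (nat_lit 0) (XT.nd (nat_lit 94) (nat_lit 0) (nat_lit 0) (XT.lf (nat_lit 0) (nat_lit 689549291185) (nat_lit 0) (nat_lit 0) (nat_lit 0) (nat_lit 0) (nat_lit 0) (nat_lit 0) (nat_lit 1) (nat_lit 0) (nat_lit 1) (nat_lit 0) (nat_lit 444) (nat_lit 328) (nat_lit 308)) (XT.nd (nat_lit 94) (nat_lit 0) (nat_lit 0) (XT.lf (nat_lit 0) (nat_lit 744702891766) (nat_lit 0) (nat_lit 0) (nat_lit 0) (nat_lit 0) (nat_lit 0) (nat_lit 0) (nat_lit 1) (nat_lit 0) (nat_lit 1) (nat_lit 0) (nat_lit 445) (nat_lit 328) (nat_lit 307)) (XT.lf (nat_lit 0) (nat_lit 804269004400) (nat_lit 0) (nat_lit 0) (nat_lit 0) (nat_lit 0) (nat_lit 0) (nat_lit 0) (nat_lit 1) (nat_lit 0) (nat_lit 1) (nat_lit 0) (nat_lit 446) (nat_lit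 328) (nat_lit 306)))) (XT.nd (nat_lit 188) (nat_lit 0) (nat_lit 0) (XT.nd (nat_lit 94) (nat_lit 0) (nat_lit 0) (XT.lf (nat_lit 0) (nat_lit 868600613457) (nat_lit 0) (nat_lit 0) (nat_lit 0) (nat_lit 0) (nat_lit 0) (nat_lit 0) (nat_lit 1) (nat_lit 0) (nat_lit 1) (nat_lit 0) (nat_lit 447) (nat_lit 328) (nat_lit 305)) (XT.lf (nat_lit 0) (nat_lit 938078943289) (nat_lit 0) (nat_lit 0) (nat_lit 0) (nat_lit 0) (nat_lit 0) (nat_lit 0) (nat_lit 1) (nat_lit 0) (nat_lit 1) (nat_lit 0) (nat_lit 448) (nat_lit 328) (nat_lit 304))) (XT.nd (nat_lit 94) (nat_lit 0) (nat_lit 0) (XT.lf (nat_lit 0) (nat_lit 1013115717330) (nat_lit 0) (nat_lit 0) (nat_lit 0) (nat_lit 0) (nat_lit 0) (nat_lit 0) (nat_lit 1) (nat_lit 0) (nat_lit 1) (nat_lit 0) (nat_lit 449) (nat_lit 328) (nat_lit 303)) (XT.lf (nat_lit 0) (nat_lit 1094155597946) (nat_lit 0) (nat_lit 0) (nat_lit 0) (nat_lit 0) (nat_lit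 0) (nat_lit 0) (nat_lit 1) (nat_lit 0) (nat_lit 1) (nat_lit 0) (nat_lit 450) (nat_lit 328) (nat_lit 302))))) (XT.nd (nat_lit 282) (nat_lit 0) (nat_lit 0) (XT.nd (nat_lit 94) (nat_lit 0) (nat_lit 0) (XT.lf (nat_lit 0) (nat_lit 1181678821466) (nat_lit 0) (nat_lit 0) (nat_lit 0) (nat_lit 0) (nat_lit 0) (nat_lit 0) (nat_lit 1) (nat_lit 0) (nat_lit 1) (nat_lit 0) (nat_lit 451) (nat_lit 328) (nat_lit 301)) (XT.nd (nat_lit 94) (nat_lit 0) (nat_lit 0) (XT.lf (nat_lit 0) (nat_lit 1276204044030) (nat_lit 0) (nat_lit 0) (nat_lit 0) (nat_lit 0) (nat_lit 0) (nat_lit 0) (nat_lit 1) (nat_lit 0) (nat_lit 1) (nat_lit 0) (nat_lit 452) (nat_lit 328) (nat_lit 300)) (XT.lf (nat_lit 0) (nat_lit 1378291415105) (nat_lit 0) (nat_lit 0) (nat_lit 0) (nat_lit 0) (nat_lit 0) (nat_lit 0) (nat_lit 1) (nat_lit 0) (nat_lit 1) (nat_lit 0) (nat_lit 453) (nat_lit 328) (nat_lit 299)))) (XT.nd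 (nat_lit 188) (nat_lit 0) (nat_lit 0) (XT.nd (nat_lit 94) (nat_lit 0) (nat_lit 0) (XT.lf (nat_lit 0) (nat_lit 1488545896890) (nat_lit 0) (nat_lit 0) (nat_lit 0) (nat_lit 0) (nat_lit 0) (nat_lit 0) (nat_lit 1) (nat_lit 0) (nat_lit 1) (nat_lit 0) (nat_lit 454) (nat_lit 328) (nat_lit 298)) (XT.lf (nat_lit 0) (nat_lit 1607620849276) (nat_lit 0) (nat_lit 0) (nat_lit 0) (nat_lit 0) (nat_lit 0) (nat_lit 0) (nat_lit 1) (nat_lit 0) (nat_lit 1) (nat_lit 0) (nat_lit 455) (nat_lit 328) (nat_lit 297))) (XT.nd (nat_lit 94) (nat_lit 0) (nat_lit 0) (XT.lf (nat_lit 0) (nat_lit 1736221901611) (nat_lit 0) (nat_lit 0) (nat_lit 0) (nat_lit 0) (nat_lit 0) (nat_lit 0) (nat_lit 1) (nat_lit 0) (nat_lit 1) (nat_lit 0) (nat_lit 456) (nat_lit 328) (nat_lit 296)) (XT.lf (nat_lit 0) (nat_lit 1875111134205) (nat_lit 0) (nat_lit 0) (nat_lit 0) (nat_lit 0) (nat_lit 0) (nat_lit 0) (nat_lit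 1) (nat_lit 0) (nat_lit 1) (nat_lit 0) (nat_lit 457) (nat_lit 328) (nat_lit 295))))))) (XT.nd (nat_lit 1316) (nat_lit 0) (nat_lit 0) (XT.nd (nat_lit 658) (nat_lit 0) (nat_lit 0) (XT.nd (nat_lit 282) (nat_lit 0) (nat_lit 0) (XT.nd (nat_lit 94) (nat_lit 0) (nat_lit 0) (XT.lf (nat_lit 0) (nat_lit 2025111594364) (nat_lit 0) (nat_lit 0) (nat_lit 0) (nat_lit 0) (nat_lit 0) (nat_lit 0) (nat_lit 1) (nat_lit 0) (nat_lit 1) (nat_lit 0) (nat_lit 458) (nat_lit 328) (nat_lit 294)) (XT.nd (nat_lit 94) (nat_lit 0) (nat_lit 0) (XT.lf (nat_lit 0) (nat_lit 2187112173701) (nat_lit 0) (nat_lit 0) (nat_lit 0) (nat_lit 0) (nat_lit 0) (nat_lit 0) (nat_lit 1) (nat_lit 0) (nat_lit 1) (nat_lit 0) (nat_lit 459) (nat_lit 328) (nat_lit 293)) (XT.lf (nat_lit 0) (nat_lit 2362072875651) (nat_lit 0) (nat_lit 0) (nat_lit 0) (nat_lit 0) (nat_lit 0) (nat_lit 0) (nat_lit 1) (nat_lit 0) (nat_lit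 1) (nat_lit 0) (nat_lit 460) (nat_lit 328) (nat_lit 292)))) (XT.nd (nat_lit 188) (nat_lit 0) (nat_lit 0) (XT.nd (nat_lit 94) (nat_lit 0) (nat_lit 0) (XT.lf (nat_lit 0) (nat_lit 2551030504373) (nat_lit 0) (nat_lit 0) (nat_lit 0) (nat_lit 0) (nat_lit 0) (nat_lit 0) (nat_lit 1) (nat_lit 0) (nat_lit 1) (nat_lit 0) (nat_lit 461) (nat_lit 328) (nat_lit 291)) (XT.lf (nat_lit 0) (nat_lit 2755104808778) (nat_lit 0) (nat_lit 0) (nat_lit 0) (nat_lit 0) (nat_lit 0) (nat_lit 0) (nat_lit 1) (nat_lit 0) (nat_lit 1) (nat_lit 0) (nat_lit 462) (nat_lit 328) (nat_lit 290))) (XT.nd (nat_lit 94) (nat_lit 0) (nat_lit 0) (XT.lf (nat_lit 0) (nat_lit 2975505118078) (nat_lit 0) (nat_lit 0) (nat_lit 0) (nat_lit 0) (nat_lit 0) (nat_lit 0) (nat_lit 1) (nat_lit 0) (nat_lit 1) (nat_lit 0) (nat_lit 463) (nat_lit 328) (nat_lit 289)) (XT.lf (nat_lit 0) (nat_lit 3213537508179) (nat_lit 0) (nat_lit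 0) (nat_lit 0) (nat_lit 0) (nat_lit 0) (nat_lit 0) (nat_lit 1) (nat_lit 0) (nat_lit 1) (nat_lit 0) (nat_lit 464) (nat_lit 328) (nat_lit 288))))) (XT.nd (nat_lit 282) (nat_lit 0) (nat_lit 0) (XT.nd (nat_lit 94) (nat_lit 0) (nat_lit 0) (XT.lf (nat_lit 0) (nat_lit 3470612541393) (nat_lit 0) (nat_lit 0) (nat_lit 0) (nat_lit 0) (nat_lit 0) (nat_lit 0) (nat_lit 1) (nat_lit 0) (nat_lit 1) (nat_lit 0) (nat_lit 465) (nat_lit 328) (nat_lit 287)) (XT.nd (nat_lit 94) (nat_lit 0) (nat_lit 0) (XT.lf (nat_lit 0) (nat_lit 3748253625324) (nat_lit 0) (nat_lit 0) (nat_lit 0) (nat_lit 0) (nat_lit 0) (nat_lit 0) (nat_lit 1) (nat_lit 0) (nat_lit 1) (nat_lit 0) (nat_lit 466) (nat_lit 328) (nat_lit 286)) (XT.lf (nat_lit 0) (nat_lit 4048106040470) (nat_lit 0) (nat_lit 0) (nat_lit 0) (nat_lit 0) (nat_lit 0) (nat_lit 0) (nat_lit 1) (nat_lit 0) (nat_lit 1) (nat_lit 0) (nat_lit 467) (nat_lit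 328) (nat_lit 285)))) (XT.nd (nat_lit 188) (nat_lit 0) (nat_lit 0) (XT.nd (nat_lit 94) (nat_lit 0) (nat_lit 0) (XT.lf (nat_lit 0) (nat_lit 4371946690031) (nat_lit 0) (nat_lit 0) (nat_lit 0) (nat_lit 0) (nat_lit 0) (nat_lit 0) (nat_lit 1) (nat_lit 0) (nat_lit 1) (nat_lit 0) (nat_lit 468) (nat_lit 328) (nat_lit 284)) (XT.lf (nat_lit 0) (nat_lit 4721694629709) (nat_lit 0) (nat_lit 0) (nat_lit 0) (nat_lit 0) (nat_lit 0) (nat_lit 0) (nat_lit 1) (nat_lit 0) (nat_lit 1) (nat_lit 0) (nat_lit 469) (nat_lit 328) (nat_lit 283))) (XT.nd (nat_lit 94) (nat_lit 0) (nat_lit 0) (XT.lf (nat_lit 0) (nat_lit 5099422439887) (nat_lit 0) (nat_lit 0) (nat_lit 0) (nat_lit 0) (nat_lit 0) (nat_lit 0) (nat_lit 1) (nat_lit 0) (nat_lit 1) (nat_lit 0) (nat_lit 470) (nat_lit 328) (nat_lit 282)) (XT.lf (nat_lit 0) (nat_lit 5507368507588) (nat_lit 0) (nat_lit 0) (nat_lit 0) (nat_lit 0) (nat_lit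 0) (nat_lit 0) (nat_lit 1) (nat_lit 0) (nat_lit 1) (nat_lit 0) (nat_lit 471) (nat_lit 328) (nat_lit 281)))))) (XT.nd (nat_lit 658) (nat_lit 0) (nat_lit 0) (XT.nd (nat_lit 282) (nat_lit 0) (nat_lit 0) (XT.nd (nat_lit 94) (nat_lit 0) (nat_lit 0) (XT.lf (nat_lit 0) (nat_lit 5947950290991) (nat_lit 0) (nat_lit 0) (nat_lit 0) (nat_lit 0) (nat_lit 0) (nat_lit 0) (nat_lit 1) (nat_lit 0) (nat_lit 1) (nat_lit 0) (nat_lit 472) (nat_lit 328) (nat_lit 280)) (XT.nd (nat_lit 94) (nat_lit 0) (nat_lit 0) (XT.lf (nat_lit 0) (nat_lit 6423778645109) (nat_lit 0) (nat_lit 0) (nat_lit 0) (nat_lit 0) (nat_lit 0) (nat_lit 0) (nat_lit 1) (nat_lit 0) (nat_lit 1) (nat_lit 0) (nat_lit 473) (nat_lit 328) (nat_lit 279)) (XT.lf (nat_lit 0) (nat_lit 6937673293522) (nat_lit 0) (nat_lit 0) (nat_lit 0) (nat_lit 0) (nat_lit 0) (nat_lit 0) (nat_lit 1) (nat_lit 0) (nat_lit 1) (nat_lit 0) (nat_lit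 474) (nat_lit 328) (nat_lit 278)))) (XT.nd (nat_lit 188) (nat_lit 0) (nat_lit 0) (XT.nd (nat_lit 94) (nat_lit 0) (nat_lit 0) (XT.lf (nat_lit 0) (nat_lit 7492679537850) (nat_lit 0) (nat_lit 0) (nat_lit 0) (nat_lit 0) (nat_lit 0) (nat_lit 0) (nat_lit 1) (nat_lit 0) (nat_lit 1) (nat_lit 0) (nat_lit 475) (nat_lit 328) (nat_lit 277)) (XT.lf (nat_lit 0) (nat_lit 8092086303986) (nat_lit 0) (nat_lit 0) (nat_lit 0) (nat_lit 0) (nat_lit 0) (nat_lit 0) (nat_lit 1) (nat_lit 0) (nat_lit 1) (nat_lit 0) (nat_lit 476) (nat_lit 328) (nat_lit 276))) (XT.nd (nat_lit 94) (nat_lit 0) (nat_lit 0) (XT.lf (nat_lit 0) (nat_lit 8739445632024) (nat_lit 0) (nat_lit 0) (nat_lit 0) (nat_lit 0) (nat_lit 0) (nat_lit 0) (nat_lit 1) (nat_lit 0) (nat_lit 1) (nat_lit 0) (nat_lit 477) (nat_lit 328) (nat_lit 275)) (XT.lf (nat_lit 0) (nat_lit 9438593725391) (nat_lit 0) (nat_lit 0) (nat_lit 0) (nat_lit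 0) (nat_lit 0) (nat_lit 0) (nat_lit 1) (nat_lit 0) (nat_lit 1) (nat_lit 0) (nat_lit 478) (nat_lit 328) (nat_lit 274))))) (XT.nd (nat_lit 376) (nat_lit 0) (nat_lit 0) (XT.nd (nat_lit 188) (nat_lit 0) (nat_lit 0) (XT.nd (nat_lit 94) (nat_lit 0) (nat_lit 0) (XT.lf (nat_lit 0) (nat_lit 10193673683899) (nat_lit 0) (nat_lit 0) (nat_lit 0) (nat_lit 0) (nat_lit 0) (nat_lit 0) (nat_lit 1) (nat_lit 0) (nat_lit 1) (nat_lit 0) (nat_lit 479) (nat_lit 328) (nat_lit 273)) (XT.lf (nat_lit 0) (nat_lit 11009160055450) (nat_lit 0) (nat_lit 0) (nat_lit 0) (nat_lit 0) (nat_lit 0) (nat_lit 0) (nat_lit 1) (nat_lit 0) (nat_lit 1) (nat_lit 0) (nat_lit 480) (nat_lit 328) (nat_lit 272))) (XT.nd (nat_lit 94) (nat_lit 0) (nat_lit 0) (XT.lf (nat_lit 0) (nat_lit 11889885351876) (nat_lit 0) (nat_lit 0) (nat_lit 0) (nat_lit 0) (nat_lit 0) (nat_lit 0) (nat_lit 1) (nat_lit 0) (nat_lit 1) (nat_lit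 0) (nat_lit 481) (nat_lit 328) (nat_lit 271)) (XT.lf (nat_lit 0) (nat_lit 12841068686044) (nat_lit 0) (nat_lit 0) (nat_lit 0) (nat_lit 0) (nat_lit 0) (nat_lit 0) (nat_lit 1) (nat_lit 0) (nat_lit 1) (nat_lit 0) (nat_lit 482) (nat_lit 328) (nat_lit 270)))) (XT.nd (nat_lit 188) (nat_lit 0) (nat_lit 0) (XT.nd (nat_lit 94) (nat_lit 0) (nat_lit 0) (XT.lf (nat_lit 0) (nat_lit 13868346699935) (nat_lit 0) (nat_lit 0) (nat_lit 0) (nat_lit 0) (nat_lit 0) (nat_lit 0) (nat_lit 1) (nat_lit 0) (nat_lit 1) (nat_lit 0) (nat_lit 483) (nat_lit 328) (nat_lit 269)) (XT.lf (nat_lit 0) (nat_lit 14977806966964) (nat_lit 0) (nat_lit 0) (nat_lit 0) (nat_lit 0) (nat_lit 0) (nat_lit 0) (nat_lit 1) (nat_lit 0) (nat_lit 1) (nat_lit 0) (nat_lit 484) (nat_lit 328) (nat_lit 268))) (XT.nd (nat_lit 94) (nat_lit 0) (nat_lit 0) (XT.lf (nat_lit 0) (nat_lit 16176024066492) (nat_lit 0) (nat_lit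 0) (nat_lit 0) (nat_lit 0) (nat_lit 0) (nat_lit 0) (nat_lit 1) (nat_lit 0) (nat_lit 1) (nat_lit 0) (nat_lit 485) (nat_lit 328) (nat_lit 267)) (XT.lf (nat_lit 0) (nat_lit 17470098544293) (nat_lit 0) (nat_lit 0) (nat_lit 0) (nat_lit 0) (nat_lit 0) (nat_lit 0) (nat_lit 1) (nat_lit 0) (nat_lit 1) (nat_lit 0) (nat_lit 486) (nat_lit 328) (nat_lit 266))))))))
noncomputable def xc29 : XT := (XT.nd (nat_lit 62886) (nat_lit 0) (nat_lit 0) (XT.nd (nat_lit 1316) (nat_lit 0) (nat_lit 0) (XT.nd (nat_lit 658) (nat_lit 0) (nat_lit 0) (XT.nd (nat_lit 282) (nat_lit 0) (nat_lit 0) (XT.nd (nat_lit 94) (nat_lit 0) (nat_lit 0) (XT.lf (nat_lit 0) (nat_lit 18867698989865) (nat_lit 0) (nat_lit 0) (nat_lit 0) (nat_lit 0) (nat_lit 0) (nat_lit 0) (nat_lit 1) (nat_lit 0) (nat_lit 1) (nat_lit 0) (nat_lit 487) (nat_lit 328) (nat_lit 265)) (XT.nd (nat_lit 94) (nat_lit 0) (nat_lit 0) (XT.lf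 (nat_lit 0) (nat_lit 20377107479924) (nat_lit 0) (nat_lit 0) (nat_lit 0) (nat_lit 0) (nat_lit 0) (nat_lit 0) (nat_lit 1) (nat_lit 0) (nat_lit 1) (nat_lit 0) (nat_lit 488) (nat_lit 328) (nat_lit 264)) (XT.lf (nat_lit 0) (nat_lit 22007268657372) (nat_lit 0) (nat_lit 0) (nat_lit 0) (nat_lit 0) (nat_lit 0) (nat_lit 0) (nat_lit 1) (nat_lit 0) (nat_lit 1) (nat_lit 0) (nat_lit 489) (nat_lit 328) (nat_lit 263)))) (XT.nd (nat_lit 188) (nat_lit 0) (nat_lit 0) (XT.nd (nat_lit 94) (nat_lit 0) (nat_lit 0) (XT.lf (nat_lit 0) (nat_lit 23767842736596) (nat_lit 0) (nat_lit 0) (nat_lit 0) (nat_lit 0) (nat_lit 0) (nat_lit 0) (nat_lit 1) (nat_lit 0) (nat_lit 1) (nat_lit 0) (nat_lit 490) (nat_lit 328) (nat_lit 262)) (XT.lf (nat_lit 0) (nat_lit 25669262749175) (nat_lit 0) (nat_lit 0) (nat_lit 0) (nat_lit 0) (nat_lit 0) (nat_lit 0) (nat_lit 1) (nat_lit 0) (nat_lit 1) (nat_lit 0)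 (nat_lit 491) (nat_lit 328) (nat_lit 261))) (XT.nd (nat_lit 94) (nat_lit 0) (nat_lit 0) (XT.lf (nat_lit 0) (nat_lit 27722796369258) (nat_lit 0) (nat_lit 0) (nat_lit 0) (nat_lit 0) (nat_lit 0) (nat_lit 0) (nat_lit 1) (nat_lit 0) (nat_lit 1) (nat_lit 0) (nat_lit 492) (nat_lit 328) (nat_lit 260)) (XT.lf (nat_lit 0) (nat_lit 29940612684964) (nat_lit 0) (nat_lit 0) (nat_lit 0) (nat_lit 0) (nat_lit 0) (nat_lit 0) (nat_lit 1) (nat_lit 0) (nat_lit 1) (nat_lit 0) (nat_lit 493) (nat_lit 328) (nat_lit 259))))) (XT.nd (nat_lit 282) (nat_lit 0) (nat_lit 0) (XT.nd (nat_lit 94) (nat_lit 0) (nat_lit 0) (XT.lf (nat_lit 0) (nat_lit 32335854311498) (nat_lit 0) (nat_lit 0) (nat_lit 0) (nat_lit 0) (nat_lit 0) (nat_lit 0) (nat_lit 1) (nat_lit 0) (nat_lit 1) (nat_lit 0) (nat_lit 494) (nat_lit 328) (nat_lit 258)) (XT.nd (nat_lit 94) (nat_lit 0) (nat_lit 0) (XT.lf (nat_lit 0) (nat_lit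 34922715273312) (nat_lit 0) (nat_lit 0) (nat_lit 0) (nat_lit 0) (nat_lit 0) (nat_lit 0) (nat_lit 1) (nat_lit 0) (nat_lit 1) (nat_lit 0) (nat_lit 495) (nat_lit 328) (nat_lit 257)) (XT.lf (nat_lit 0) (nat_lit 37716525116848) (nat_lit 0) (nat_lit 0) (nat_lit 0) (nat_lit 0) (nat_lit 0) (nat_lit 0) (nat_lit 1) (nat_lit 0) (nat_lit 1) (nat_lit 0) (nat_lit 496) (nat_lit 328) (nat_lit 256)))) (XT.nd (nat_lit 188) (nat_lit 0) (nat_lit 0) (XT.nd (nat_lit 94) (nat_lit 0) (nat_lit 0) (XT.lf (nat_lit 0) (nat_lit 40733839752289) (nat_lit 0) (nat_lit 0) (nat_lit 0) (nat_lit 0) (nat_lit 0) (nat_lit 0) (nat_lit 1) (nat_lit 0) (nat_lit 1) (nat_lit 0) (nat_lit 497) (nat_lit 328) (nat_lit 255)) (XT.lf (nat_lit 0) (nat_lit 43992539562660) (nat_lit 0) (nat_lit 0) (nat_lit 0) (nat_lit 0) (nat_lit 0) (nat_lit 0) (nat_lit 1) (nat_lit 0) (nat_lit 1) (nat_lit 0) (nat_lit 498) (nat_lit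 328) (nat_lit 254))) (XT.nd (nat_lit 94) (nat_lit 0) (nat_lit 0) (XT.lf (nat_lit 0) (nat_lit 47511935361652) (nat_lit 0) (nat_lit 0) (nat_lit 0) (nat_lit 0) (nat_lit 0) (nat_lit 0) (nat_lit 1) (nat_lit 0) (nat_lit 1) (nat_lit 0) (nat_lit 499) (nat_lit 328) (nat_lit 253)) (XT.lf (nat_lit 0) (nat_lit 51312882828074) (nat_lit 0) (nat_lit 0) (nat_lit 0) (nat_lit 0) (nat_lit 0) (nat_lit 0) (nat_lit 1) (nat_lit 0) (nat_lit 1) (nat_lit 0) (nat_lit 500) (nat_lit 328) (nat_lit 252)))))) (XT.nd (nat_lit 60912) (nat_lit 0) (nat_lit 0) (XT.nd (nat_lit 60536) (nat_lit 0) (nat_lit 0) (XT.nd (nat_lit 60348) (nat_lit 0) (nat_lit 0) (XT.lf (nat_lit 0) (nat_lit 55417906095060) (nat_lit 0) (nat_lit 0) (nat_lit 0) (nat_lit 0) (nat_lit 0) (nat_lit 0) (nat_lit 1) (nat_lit 0) (nat_lit 1) (nat_lit 0) (nat_lit 501) (nat_lit 328) (nat_lit 251)) (XT.nd (nat_lit 94) (nat_lit 0) (nat_lit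 0) (XT.lf (nat_lit 0) (nat_lit 63506605757) (nat_lit 0) (nat_lit 0) (nat_lit 0) (nat_lit 0) (nat_lit 0) (nat_lit 0) (nat_lit 1) (nat_lit 0) (nat_lit 1) (nat_lit 0) (nat_lit 422) (nat_lit 329) (nat_lit 329)) (XT.lf (nat_lit 0) (nat_lit 137151141570) (nat_lit 0) (nat_lit 0) (nat_lit 0) (nat_lit 0) (nat_lit 0) (nat_lit 0) (nat_lit 1) (nat_lit 0) (nat_lit 1) (nat_lit 0) (nat_lit 423) (nat_lit 329) (nat_lit 328)))) (XT.nd (nat_lit 188) (nat_lit 0) (nat_lit 0) (XT.nd (nat_lit 94) (nat_lit 0) (nat_lit 0) (XT.lf (nat_lit 0) (nat_lit 148101233641) (nat_lit 0) (nat_lit 0) (nat_lit 0) (nat_lit 0) (nat_lit 0) (nat_lit 0) (nat_lit 1) (nat_lit 0) (nat_lit 1) (nat_lit 0) (nat_lit 424) (nat_lit 329) (nat_lit 327)) (XT.lf (nat_lit 0) (nat_lit 159928377163) (nat_lit 0) (nat_lit 0) (nat_lit 0) (nat_lit 0) (nat_lit 0) (nat_lit 0) (nat_lit 1) (nat_lit 0) (nat_lit 1) (nat_lit 0)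 (nat_lit 425) (nat_lit 329) (nat_lit 326))) (XT.nd (nat_lit 94) (nat_lit 0) (nat_lit 0) (XT.lf (nat_lit 0) (nat_lit 172702658911) (nat_lit 0) (nat_lit 0) (nat_lit 0) (nat_lit 0) (nat_lit 0) (nat_lit 0) (nat_lit 1) (nat_lit 0) (nat_lit 1) (nat_lit 0) (nat_lit 426) (nat_lit 329) (nat_lit 325)) (XT.lf (nat_lit 0) (nat_lit 186499778332) (nat_lit 0) (nat_lit 0) (nat_lit 0) (nat_lit 0) (nat_lit 0) (nat_lit 0) (nat_lit 1) (nat_lit 0) (nat_lit 1) (nat_lit 0) (nat_lit 427) (nat_lit 329) (nat_lit 324))))) (XT.nd (nat_lit 282) (nat_lit 0) (nat_lit 0) (XT.nd (nat_lit 94) (nat_lit 0) (nat_lit 0) (XT.lf (nat_lit 0) (nat_lit 201401496135) (nat_lit 0) (nat_lit 0) (nat_lit 0) (nat_lit 0) (nat_lit 0) (nat_lit 0) (nat_lit 1) (nat_lit 0) (nat_lit 1) (nat_lit 0) (nat_lit 428) (nat_lit 329) (nat_lit 323)) (XT.nd (nat_lit 94) (nat_lit 0) (nat_lit 0) (XT.lf (nat_lit 0) (nat_lit 217496118794)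 (nat_lit 0) (nat_lit 0) (nat_lit 0) (nat_lit 0) (nat_lit 0) (nat_lit 0) (nat_lit 1) (nat_lit 0) (nat_lit 1) (nat_lit 0) (nat_lit 429) (nat_lit 329) (nat_lit 322)) (XT.lf (nat_lit 0) (nat_lit 234879021853) (nat_lit 0) (nat_lit 0) (nat_lit 0) (nat_lit 0) (nat_lit 0) (nat_lit 0) (nat_lit 1) (nat_lit 0) (nat_lit 1) (nat_lit 0) (nat_lit 430) (nat_lit 329) (nat_lit 321)))) (XT.nd (nat_lit 188) (nat_lit 0) (nat_lit 0) (XT.nd (nat_lit 94) (nat_lit 0) (nat_lit 0) (XT.lf (nat_lit 0) (nat_lit 253653215107) (nat_lit 0) (nat_lit 0) (nat_lit 0) (nat_lit 0) (nat_lit 0) (nat_lit 0) (nat_lit 1) (nat_lit 0) (nat_lit 1) (nat_lit 0) (nat_lit 431) (nat_lit 329) (nat_lit 320)) (XT.lf (nat_lit 0) (nat_lit 273929953034) (nat_lit 0) (nat_lit 0) (nat_lit 0) (nat_lit 0) (nat_lit 0) (nat_lit 0) (nat_lit 1) (nat_lit 0) (nat_lit 1) (nat_lit 0) (nat_lit 432) (nat_lit 329) (nat_lit 319)))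 (XT.nd (nat_lit 94) (nat_lit 0) (nat_lit 0) (XT.lf (nat_lit 0) (nat_lit 295829394081) (nat_lit 0) (nat_lit 0) (nat_lit 0) (nat_lit 0) (nat_lit 0) (nat_lit 0) (nat_lit 1) (nat_lit 0) (nat_lit 1) (nat_lit 0) (nat_lit 433) (nat_lit 329) (nat_lit 318)) (XT.lf (nat_lit 0) (nat_lit 319481312714) (nat_lit 0) (nat_lit 0) (nat_lit 0) (nat_lit 0) (nat_lit 0) (nat_lit 0) (nat_lit 1) (nat_lit 0) (nat_lit 1) (nat_lit 0) (nat_lit 434) (nat_lit 329) (nat_lit 317))))))) (XT.nd (nat_lit 1316) (nat_lit 0) (nat_lit 0) (XT.nd (nat_lit 658) (nat_lit 0) (nat_lit 0) (XT.nd (nat_lit 282) (nat_lit 0) (nat_lit 0) (XT.nd (nat_lit 94) (nat_lit 0) (nat_lit 0) (XT.lf (nat_lit 0) (nat_lit 345025868451) (nat_lit 0) (nat_lit 0) (nat_lit 0) (nat_lit 0) (nat_lit 0) (nat_lit 0) (nat_lit 1) (nat_lit 0) (nat_lit 1) (nat_lit 0) (nat_lit 435) (nat_lit 329) (nat_lit 316)) (XT.nd (nat_lit 94) (nat_lit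 0) (nat_lit 0) (XT.lf (nat_lit 0) (nat_lit 372614436436) (nat_lit 0) (nat_lit 0) (nat_lit 0) (nat_lit 0) (nat_lit 0) (nat_lit 0) (nat_lit 1) (nat_lit 0) (nat_lit 1) (nat_lit 0) (nat_lit 436) (nat_lit 329) (nat_lit 315)) (XT.lf (nat_lit 0) (nat_lit 402410504481) (nat_lit 0) (nat_lit 0) (nat_lit 0) (nat_lit 0) (nat_lit 0) (nat_lit 0) (nat_lit 1) (nat_lit 0) (nat_lit 1) (nat_lit 0) (nat_lit 437) (nat_lit 329) (nat_lit 314)))) (XT.nd (nat_lit 188) (nat_lit 0) (nat_lit 0) (XT.nd (nat_lit 94) (nat_lit 0) (nat_lit 0) (XT.lf (nat_lit 0) (nat_lit 434590641876) (nat_lit 0) (nat_lit 0) (nat_lit 0) (nat_lit 0) (nat_lit 0) (nat_lit 0) (nat_lit 1) (nat_lit 0) (nat_lit 1) (nat_lit 0) (nat_lit 438) (nat_lit 329) (nat_lit 313)) (XT.lf (nat_lit 0) (nat_lit 469345545733) (nat_lit 0) (nat_lit 0) (nat_lit 0) (nat_lit 0) (nat_lit 0) (nat_lit 0) (nat_lit 1) (nat_lit 0) (nat_lit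 1) (nat_lit 0) (nat_lit 439) (nat_lit 329) (nat_lit 312))) (XT.nd (nat_lit 94) (nat_lit 0) (nat_lit 0) (XT.lf (nat_lit 0) (nat_lit 506881171038) (nat_lit 0) (nat_lit 0) (nat_lit 0) (nat_lit 0) (nat_lit 0) (nat_lit 0) (nat_lit 1) (nat_lit 0) (nat_lit 1) (nat_lit 0) (nat_lit 440) (nat_lit 329) (nat_lit 311)) (XT.lf (nat_lit 0) (nat_lit 547419951125) (nat_lit 0) (nat_lit 0) (nat_lit 0) (nat_lit 0) (nat_lit 0) (nat_lit 0) (nat_lit 1) (nat_lit 0) (nat_lit 1) (nat_lit 0) (nat_lit 441) (nat_lit 329) (nat_lit 310))))) (XT.nd (nat_lit 282) (nat_lit 0) (nat_lit 0) (XT.nd (nat_lit 94) (nat_lit 0) (nat_lit 0) (XT.lf (nat_lit 0) (nat_lit 591202115803) (nat_lit 0) (nat_lit 0) (nat_lit 0) (nat_lit 0) (nat_lit 0) (nat_lit 0) (nat_lit 1) (nat_lit 0) (nat_lit 1) (nat_lit 0) (nat_lit 442) (nat_lit 329) (nat_lit 309)) (XT.nd (nat_lit 94) (nat_lit 0) (nat_lit 0) (XT.lf (nat_lit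 0) (nat_lit 638487114936) (nat_lit 0) (nat_lit 0) (nat_lit 0) (nat_lit 0) (nat_lit 0) (nat_lit 0) (nat_lit 1) (nat_lit 0) (nat_lit 1) (nat_lit 0) (nat_lit 443) (nat_lit 329) (nat_lit 308)) (XT.lf (nat_lit 0) (nat_lit 689555155926) (nat_lit 0) (nat_lit 0) (nat_lit 0) (nat_lit 0) (nat_lit 0) (nat_lit 0) (nat_lit 1) (nat_lit 0) (nat_lit 1) (nat_lit 0) (nat_lit 444) (nat_lit 329) (nat_lit 307)))) (XT.nd (nat_lit 188) (nat_lit 0) (nat_lit 0) (XT.nd (nat_lit 94) (nat_lit 0) (nat_lit 0) (XT.lf (nat_lit 0) (nat_lit 744708864202) (nat_lit 0) (nat_lit 0) (nat_lit 0) (nat_lit 0) (nat_lit 0) (nat_lit 0) (nat_lit 1) (nat_lit 0) (nat_lit 1) (nat_lit 0) (nat_lit 445) (nat_lit 329) (nat_lit 306)) (XT.lf (nat_lit 0) (nat_lit 804275076554) (nat_lit 0) (nat_lit 0) (nat_lit 0) (nat_lit 0) (nat_lit 0) (nat_lit 0) (nat_lit 1) (nat_lit 0) (nat_lit 1) (nat_lit 0) (nat_lit 446) (nat_lit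 329) (nat_lit 305))) (XT.nd (nat_lit 94) (nat_lit 0) (nat_lit 0) (XT.lf (nat_lit 0) (nat_lit 868606777942) (nat_lit 0) (nat_lit 0) (nat_lit 0) (nat_lit 0) (nat_lit 0) (nat_lit 0) (nat_lit 1) (nat_lit 0) (nat_lit 1) (nat_lit 0) (nat_lit 447) (nat_lit 329) (nat_lit 304)) (XT.lf (nat_lit 0) (nat_lit 938085193266) (nat_lit 0) (nat_lit 0) (nat_lit 0) (nat_lit 0) (nat_lit 0) (nat_lit 0) (nat_lit 1) (nat_lit 0) (nat_lit 1) (nat_lit 0) (nat_lit 448) (nat_lit 329) (nat_lit 303)))))) (XT.nd (nat_lit 658) (nat_lit 0) (nat_lit 0) (XT.nd (nat_lit 282) (nat_lit 0) (nat_lit 0) (XT.nd (nat_lit 94) (nat_lit 0) (nat_lit 0) (XT.lf (nat_lit 0) (nat_lit 1013122046467) (nat_lit 0) (nat_lit 0) (nat_lit 0) (nat_lit 0) (nat_lit 0) (nat_lit 0) (nat_lit 1) (nat_lit 0) (nat_lit 1) (nat_lit 0) (nat_lit 449) (nat_lit 329) (nat_lit 302)) (XT.nd (nat_lit 94) (nat_lit 0) (nat_lit 0) (XT.lf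 (nat_lit 0) (nat_lit 1094162000378) (nat_lit 0) (nat_lit 0) (nat_lit 0) (nat_lit 0) (nat_lit 0) (nat_lit 0) (nat_lit 1) (nat_lit 0) (nat_lit 1) (nat_lit 0) (nat_lit 450) (nat_lit 329) (nat_lit 301)) (XT.lf (nat_lit 0) (nat_lit 1181685291765) (nat_lit 0) (nat_lit 0) (nat_lit 0) (nat_lit 0) (nat_lit 0) (nat_lit 0) (nat_lit 1) (nat_lit 0) (nat_lit 1) (nat_lit 0) (nat_lit 451) (nat_lit 329) (nat_lit 300)))) (XT.nd (nat_lit 188) (nat_lit 0) (nat_lit 0) (XT.nd (nat_lit 94) (nat_lit 0) (nat_lit 0) (XT.lf (nat_lit 0) (nat_lit 1276210577168) (nat_lit 0) (nat_lit 0) (nat_lit 0) (nat_lit 0) (nat_lit 0) (nat_lit 0) (nat_lit 1) (nat_lit 0) (nat_lit 1) (nat_lit 0) (nat_lit 452) (nat_lit 329) (nat_lit 299)) (XT.lf (nat_lit 0) (nat_lit 1378298006428) (nat_lit 0) (nat_lit 0) (nat_lit 0) (nat_lit 0) (nat_lit 0) (nat_lit 0) (nat_lit 1) (nat_lit 0) (nat_lit 1) (nat_lit 0) (nat_lit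 453) (nat_lit 329) (nat_lit 298))) (XT.nd (nat_lit 94) (nat_lit 0) (nat_lit 0) (XT.lf (nat_lit 0) (nat_lit 1488552542086) (nat_lit 0) (nat_lit 0) (nat_lit 0) (nat_lit 0) (nat_lit 0) (nat_lit 0) (nat_lit 1) (nat_lit 0) (nat_lit 1) (nat_lit 0) (nat_lit 454) (nat_lit 329) (nat_lit 297)) (XT.lf (nat_lit 0) (nat_lit 1607627544356) (nat_lit 0) (nat_lit 0) (nat_lit 0) (nat_lit 0) (nat_lit 0) (nat_lit 0) (nat_lit 1) (nat_lit 0) (nat_lit 1) (nat_lit 0) (nat_lit 455) (nat_lit 329) (nat_lit 296))))) (XT.nd (nat_lit 376) (nat_lit 0) (nat_lit 0) (XT.nd (nat_lit 188) (nat_lit 0) (nat_lit 0) (XT.nd (nat_lit 94) (nat_lit 0) (nat_lit 0) (XT.lf (nat_lit 0) (nat_lit 1736228642880) (nat_lit 0) (nat_lit 0) (nat_lit 0) (nat_lit 0) (nat_lit 0) (nat_lit 0) (nat_lit 1) (nat_lit 0) (nat_lit 1) (nat_lit 0) (nat_lit 456) (nat_lit 329) (nat_lit 295)) (XT.lf (nat_lit 0) (nat_lit 1875117918242)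 (nat_lit 0) (nat_lit 0) (nat_lit 0) (nat_lit 0) (nat_lit 0) (nat_lit 0) (nat_lit 1) (nat_lit 0) (nat_lit 1) (nat_lit 0) (nat_lit 457) (nat_lit 329) (nat_lit 294))) (XT.nd (nat_lit 94) (nat_lit 0) (nat_lit 0) (XT.lf (nat_lit 0) (nat_lit 2025118418000) (nat_lit 0) (nat_lit 0) (nat_lit 0) (nat_lit 0) (nat_lit 0) (nat_lit 0) (nat_lit 1) (nat_lit 0) (nat_lit 1) (nat_lit 0) (nat_lit 458) (nat_lit 329) (nat_lit 293)) (XT.lf (nat_lit 0) (nat_lit 2187119034003) (nat_lit 0) (nat_lit 0) (nat_lit 0) (nat_lit 0) (nat_lit 0) (nat_lit 0) (nat_lit 1) (nat_lit 0) (nat_lit 1) (nat_lit 0) (nat_lit 459) (nat_lit 329) (nat_lit 292)))) (XT.nd (nat_lit 188) (nat_lit 0) (nat_lit 0) (XT.nd (nat_lit 94) (nat_lit 0) (nat_lit 0) (XT.lf (nat_lit 0) (nat_lit 2362079769903) (nat_lit 0) (nat_lit 0) (nat_lit 0) (nat_lit 0) (nat_lit 0) (nat_lit 0) (nat_lit 1) (nat_lit 0) (nat_lit 1) (nat_lit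 0) (nat_lit 460) (nat_lit 329) (nat_lit 291)) (XT.lf (nat_lit 0) (nat_lit 2551037430061) (nat_lit 0) (nat_lit 0) (nat_lit 0) (nat_lit 0) (nat_lit 0) (nat_lit 0) (nat_lit 1) (nat_lit 0) (nat_lit 1) (nat_lit 0) (nat_lit 461) (nat_lit 329) (nat_lit 290))) (XT.nd (nat_lit 94) (nat_lit 0) (nat_lit 0) (XT.lf (nat_lit 0) (nat_lit 2755111763572) (nat_lit 0) (nat_lit 0) (nat_lit 0) (nat_lit 0) (nat_lit 0) (nat_lit 0) (nat_lit 1) (nat_lit 0) (nat_lit 1) (nat_lit 0) (nat_lit 462) (nat_lit 329) (nat_lit 289)) (XT.lf (nat_lit 0) (nat_lit 2975512099823) (nat_lit 0) (nat_lit 0) (nat_lit 0) (nat_lit 0) (nat_lit 0) (nat_lit 0) (nat_lit 1) (nat_lit 0) (nat_lit 1) (nat_lit 0) (nat_lit 463) (nat_lit 329) (nat_lit 288))))))))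
noncomputable def xc30 : XT := (XT.nd (nat_lit 2632) (nat_lit 0) (nat_lit 0) (XT.nd (nat_lit 1316) (nat_lit 0) (nat_lit 0) (XT.nd (nat_lit 658) (nat_lit 0) (nat_lit 0) (XT.nd (nat_lit 282) (nat_lit 0) (nat_lit 0) (XT.nd (nat_lit 94) (nat_lit 0) (nat_lit 0) (XT.lf (nat_lit 0) (nat_lit 3213544514878) (nat_lit 0) (nat_lit 0) (nat_lit 0) (nat_lit 0) (nat_lit 0) (nat_lit 0) (nat_lit 1) (nat_lit 0) (nat_lit 1) (nat_lit 0) (nat_lit 464) (nat_lit 329) (nat_lit 287)) (XT.nd (nat_lit 94) (nat_lit 0) (nat_lit 0) (XT.lf (nat_lit 0) (nat_lit 3470619571198) (nat_lit 0) (nat_lit 0) (nat_lit 0) (nat_lit 0) (nat_lit 0) (nat_lit 0) (nat_lit 1) (nat_lit 0) (nat_lit 1) (nat_lit 0) (nat_lit 465) (nat_lit 329) (nat_lit 286)) (XT.lf (nat_lit 0) (nat_lit 3748260676523) (nat_lit 0) (nat_lit 0) (nat_lit 0) (nat_lit 0) (nat_lit 0) (nat_lit 0) (nat_lit 1) (nat_lit 0) (nat_lit 1) (nat_lit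 0) (nat_lit 466) (nat_lit 329) (nat_lit 285)))) (XT.nd (nat_lit 188) (nat_lit 0) (nat_lit 0) (XT.nd (nat_lit 94) (nat_lit 0) (nat_lit 0) (XT.lf (nat_lit 0) (nat_lit 4048113111479) (nat_lit 0) (nat_lit 0) (nat_lit 0) (nat_lit 0) (nat_lit 0) (nat_lit 0) (nat_lit 1) (nat_lit 0) (nat_lit 1) (nat_lit 0) (nat_lit 467) (nat_lit 329) (nat_lit 284)) (XT.lf (nat_lit 0) (nat_lit 4371953779382) (nat_lit 0) (nat_lit 0) (nat_lit 0) (nat_lit 0) (nat_lit 0) (nat_lit 0) (nat_lit 1) (nat_lit 0) (nat_lit 1) (nat_lit 0) (nat_lit 468) (nat_lit 329) (nat_lit 283))) (XT.nd (nat_lit 94) (nat_lit 0) (nat_lit 0) (XT.lf (nat_lit 0) (nat_lit 4721701736044) (nat_lit 0) (nat_lit 0) (nat_lit 0) (nat_lit 0) (nat_lit 0) (nat_lit 0) (nat_lit 1) (nat_lit 0) (nat_lit 1) (nat_lit 0) (nat_lit 469) (nat_lit 329) (nat_lit 282)) (XT.lf (nat_lit 0) (nat_lit 5099429561947) (nat_lit 0) (nat_lit 0) (nat_lit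 0) (nat_lit 0) (nat_lit 0) (nat_lit 0) (nat_lit 1) (nat_lit 0) (nat_lit 1) (nat_lit 0) (nat_lit 470) (nat_lit 329) (nat_lit 281))))) (XT.nd (nat_lit 282) (nat_lit 0) (nat_lit 0) (XT.nd (nat_lit 94) (nat_lit 0) (nat_lit 0) (XT.lf (nat_lit 0) (nat_lit 5507375644209) (nat_lit 0) (nat_lit 0) (nat_lit 0) (nat_lit 0) (nat_lit 0) (nat_lit 0) (nat_lit 1) (nat_lit 0) (nat_lit 1) (nat_lit 0) (nat_lit 471) (nat_lit 329) (nat_lit 280)) (XT.nd (nat_lit 94) (nat_lit 0) (nat_lit 0) (XT.lf (nat_lit 0) (nat_lit 5947957441094) (nat_lit 0) (nat_lit 0) (nat_lit 0) (nat_lit 0) (nat_lit 0) (nat_lit 0) (nat_lit 1) (nat_lit 0) (nat_lit 1) (nat_lit 0) (nat_lit 472) (nat_lit 329) (nat_lit 279)) (XT.lf (nat_lit 0) (nat_lit 6423785807695) (nat_lit 0) (nat_lit 0) (nat_lit 0) (nat_lit 0) (nat_lit 0) (nat_lit 0) (nat_lit 1) (nat_lit 0) (nat_lit 1) (nat_lit 0) (nat_lit 473) (nat_lit 329)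 (nat_lit 278)))) (XT.nd (nat_lit 188) (nat_lit 0) (nat_lit 0) (XT.nd (nat_lit 94) (nat_lit 0) (nat_lit 0) (XT.lf (nat_lit 0) (nat_lit 6937680467667) (nat_lit 0) (nat_lit 0) (nat_lit 0) (nat_lit 0) (nat_lit 0) (nat_lit 0) (nat_lit 1) (nat_lit 0) (nat_lit 1) (nat_lit 0) (nat_lit 474) (nat_lit 329) (nat_lit 277)) (XT.lf (nat_lit 0) (nat_lit 7492686722698) (nat_lit 0) (nat_lit 0) (nat_lit 0) (nat_lit 0) (nat_lit 0) (nat_lit 0) (nat_lit 1) (nat_lit 0) (nat_lit 1) (nat_lit 0) (nat_lit 475) (nat_lit 329) (nat_lit 276))) (XT.nd (nat_lit 94) (nat_lit 0) (nat_lit 0) (XT.lf (nat_lit 0) (nat_lit 8092093498743) (nat_lit 0) (nat_lit 0) (nat_lit 0) (nat_lit 0) (nat_lit 0) (nat_lit 0) (nat_lit 1) (nat_lit 0) (nat_lit 1) (nat_lit 0) (nat_lit 476) (nat_lit 329) (nat_lit 275)) (XT.lf (nat_lit 0) (nat_lit 8739452835957) (nat_lit 0) (nat_lit 0) (nat_lit 0) (nat_lit 0) (nat_lit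 0) (nat_lit 0) (nat_lit 1) (nat_lit 0) (nat_lit 1) (nat_lit 0) (nat_lit 477) (nat_lit 329) (nat_lit 274)))))) (XT.nd (nat_lit 658) (nat_lit 0) (nat_lit 0) (XT.nd (nat_lit 282) (nat_lit 0) (nat_lit 0) (XT.nd (nat_lit 94) (nat_lit 0) (nat_lit 0) (XT.lf (nat_lit 0) (nat_lit 9438600937820) (nat_lit 0) (nat_lit 0) (nat_lit 0) (nat_lit 0) (nat_lit 0) (nat_lit 0) (nat_lit 1) (nat_lit 0) (nat_lit 1) (nat_lit 0) (nat_lit 478) (nat_lit 329) (nat_lit 273)) (XT.nd (nat_lit 94) (nat_lit 0) (nat_lit 0) (XT.lf (nat_lit 0) (nat_lit 10193680904194) (nat_lit 0) (nat_lit 0) (nat_lit 0) (nat_lit 0) (nat_lit 0) (nat_lit 0) (nat_lit 1) (nat_lit 0) (nat_lit 1) (nat_lit 0) (nat_lit 479) (nat_lit 329) (nat_lit 272)) (XT.lf (nat_lit 0) (nat_lit 11009167283029) (nat_lit 0) (nat_lit 0) (nat_lit 0) (nat_lit 0) (nat_lit 0) (nat_lit 0) (nat_lit 1) (nat_lit 0) (nat_lit 1) (nat_lit 0) (nat_lit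 480) (nat_lit 329) (nat_lit 271)))) (XT.nd (nat_lit 188) (nat_lit 0) (nat_lit 0) (XT.nd (nat_lit 94) (nat_lit 0) (nat_lit 0) (XT.lf (nat_lit 0) (nat_lit 11889892586200) (nat_lit 0) (nat_lit 0) (nat_lit 0) (nat_lit 0) (nat_lit 0) (nat_lit 0) (nat_lit 1) (nat_lit 0) (nat_lit 1) (nat_lit 0) (nat_lit 481) (nat_lit 329) (nat_lit 270)) (XT.lf (nat_lit 0) (nat_lit 12841075926613) (nat_lit 0) (nat_lit 0) (nat_lit 0) (nat_lit 0) (nat_lit 0) (nat_lit 0) (nat_lit 1) (nat_lit 0) (nat_lit 1) (nat_lit 0) (nat_lit 482) (nat_lit 329) (nat_lit 269))) (XT.nd (nat_lit 94) (nat_lit 0) (nat_lit 0) (XT.lf (nat_lit 0) (nat_lit 13868353946286) (nat_lit 0) (nat_lit 0) (nat_lit 0) (nat_lit 0) (nat_lit 0) (nat_lit 0) (nat_lit 1) (nat_lit 0) (nat_lit 1) (nat_lit 0) (nat_lit 483) (nat_lit 329) (nat_lit 268)) (XT.lf (nat_lit 0) (nat_lit 14977814218669) (nat_lit 0) (nat_lit 0) (nat_lit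 0) (nat_lit 0) (nat_lit 0) (nat_lit 0) (nat_lit 1) (nat_lit 0) (nat_lit 1) (nat_lit 0) (nat_lit 484) (nat_lit 329) (nat_lit 267))))) (XT.nd (nat_lit 282) (nat_lit 0) (nat_lit 0) (XT.nd (nat_lit 94) (nat_lit 0) (nat_lit 0) (XT.lf (nat_lit 0) (nat_lit 16176031323154) (nat_lit 0) (nat_lit 0) (nat_lit 0) (nat_lit 0) (nat_lit 0) (nat_lit 0) (nat_lit 1) (nat_lit 0) (nat_lit 1) (nat_lit 0) (nat_lit 485) (nat_lit 329) (nat_lit 266)) (XT.nd (nat_lit 94) (nat_lit 0) (nat_lit 0) (XT.lf (nat_lit 0) (nat_lit 17470105805545) (nat_lit 0) (nat_lit 0) (nat_lit 0) (nat_lit 0) (nat_lit 0) (nat_lit 0) (nat_lit 1) (nat_lit 0) (nat_lit 1) (nat_lit 0) (nat_lit 486) (nat_lit 329) (nat_lit 265)) (XT.lf (nat_lit 0) (nat_lit 18867706255367) (nat_lit 0) (nat_lit 0) (nat_lit 0) (nat_lit 0) (nat_lit 0) (nat_lit 0) (nat_lit 1) (nat_lit 0) (nat_lit 1) (nat_lit 0) (nat_lit 487) (nat_lit 329)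 (nat_lit 264)))) (XT.nd (nat_lit 188) (nat_lit 0) (nat_lit 0) (XT.nd (nat_lit 94) (nat_lit 0) (nat_lit 0) (XT.lf (nat_lit 0) (nat_lit 20377114749361) (nat_lit 0) (nat_lit 0) (nat_lit 0) (nat_lit 0) (nat_lit 0) (nat_lit 0) (nat_lit 1) (nat_lit 0) (nat_lit 1) (nat_lit 0) (nat_lit 488) (nat_lit 329) (nat_lit 263)) (XT.lf (nat_lit 0) (nat_lit 22007275930453) (nat_lit 0) (nat_lit 0) (nat_lit 0) (nat_lit 0) (nat_lit 0) (nat_lit 0) (nat_lit 1) (nat_lit 0) (nat_lit 1) (nat_lit 0) (nat_lit 489) (nat_lit 329) (nat_lit 262))) (XT.nd (nat_lit 94) (nat_lit 0) (nat_lit 0) (XT.lf (nat_lit 0) (nat_lit 23767850013051) (nat_lit 0) (nat_lit 0) (nat_lit 0) (nat_lit 0) (nat_lit 0) (nat_lit 0) (nat_lit 1) (nat_lit 0) (nat_lit 1) (nat_lit 0) (nat_lit 490) (nat_lit 329) (nat_lit 261)) (XT.lf (nat_lit 0) (nat_lit 25669270028754) (nat_lit 0) (nat_lit 0) (nat_lit 0) (nat_lit 0) (nat_lit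 0) (nat_lit 0) (nat_lit 1) (nat_lit 0) (nat_lit 1) (nat_lit 0) (nat_lit 491) (nat_lit 329) (nat_lit 260))))))) (XT.nd (nat_lit 61382) (nat_lit 0) (nat_lit 0) (XT.nd (nat_lit 658) (nat_lit 0) (nat_lit 0) (XT.nd (nat_lit 282) (nat_lit 0) (nat_lit 0) (XT.nd (nat_lit 94) (nat_lit 0) (nat_lit 0) (XT.lf (nat_lit 0) (nat_lit 27722803651729) (nat_lit 0) (nat_lit 0) (nat_lit 0) (nat_lit 0) (nat_lit 0) (nat_lit 0) (nat_lit 1) (nat_lit 0) (nat_lit 1) (nat_lit 0) (nat_lit 492) (nat_lit 329) (nat_lit 259)) (XT.nd (nat_lit 94) (nat_lit 0) (nat_lit 0) (XT.lf (nat_lit 0) (nat_lit 29940619970114) (nat_lit 0) (nat_lit 0) (nat_lit 0) (nat_lit 0) (nat_lit 0) (nat_lit 0) (nat_lit 1) (nat_lit 0) (nat_lit 1) (nat_lit 0) (nat_lit 493) (nat_lit 329) (nat_lit 258)) (XT.lf (nat_lit 0) (nat_lit 32335861599127) (nat_lit 0) (nat_lit 0) (nat_lit 0) (nat_lit 0) (nat_lit 0) (nat_lit 0) (nat_lit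 1) (nat_lit 0) (nat_lit 1) (nat_lit 0) (nat_lit 494) (nat_lit 329) (nat_lit 257)))) (XT.nd (nat_lit 188) (nat_lit 0) (nat_lit 0) (XT.nd (nat_lit 94) (nat_lit 0) (nat_lit 0) (XT.lf (nat_lit 0) (nat_lit 34922722563238) (nat_lit 0) (nat_lit 0) (nat_lit 0) (nat_lit 0) (nat_lit 0) (nat_lit 0) (nat_lit 1) (nat_lit 0) (nat_lit 1) (nat_lit 0) (nat_lit 495) (nat_lit 329) (nat_lit 256)) (XT.lf (nat_lit 0) (nat_lit 37716532408900) (nat_lit 0) (nat_lit 0) (nat_lit 0) (nat_lit 0) (nat_lit 0) (nat_lit 0) (nat_lit 1) (nat_lit 0) (nat_lit 1) (nat_lit 0) (nat_lit 496) (nat_lit 329) (nat_lit 255))) (XT.nd (nat_lit 94) (nat_lit 0) (nat_lit 0) (XT.lf (nat_lit 0) (nat_lit 40733847046309) (nat_lit 0) (nat_lit 0) (nat_lit 0) (nat_lit 0) (nat_lit 0) (nat_lit 0) (nat_lit 1) (nat_lit 0) (nat_lit 1) (nat_lit 0) (nat_lit 497) (nat_lit 329) (nat_lit 254)) (XT.lf (nat_lit 0) (nat_lit 43992546858503)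 (nat_lit 0) (nat_lit 0) (nat_lit 0) (nat_lit 0) (nat_lit 0) (nat_lit 0) (nat_lit 1) (nat_lit 0) (nat_lit 1) (nat_lit 0) (nat_lit 498) (nat_lit 329) (nat_lit 253))))) (XT.nd (nat_lit 60348) (nat_lit 0) (nat_lit 0) (XT.nd (nat_lit 94) (nat_lit 0) (nat_lit 0) (XT.lf (nat_lit 0) (nat_lit 47511942659183) (nat_lit 0) (nat_lit 0) (nat_lit 0) (nat_lit 0) (nat_lit 0) (nat_lit 0) (nat_lit 1) (nat_lit 0) (nat_lit 1) (nat_lit 0) (nat_lit 499) (nat_lit 329) (nat_lit 252)) (XT.nd (nat_lit 94) (nat_lit 0) (nat_lit 0) (XT.lf (nat_lit 0) (nat_lit 51312890127168) (nat_lit 0) (nat_lit 0) (nat_lit 0) (nat_lit 0) (nat_lit 0) (nat_lit 0) (nat_lit 1) (nat_lit 0) (nat_lit 1) (nat_lit 0) (nat_lit 500) (nat_lit 329) (nat_lit 251)) (XT.lf (nat_lit 0) (nat_lit 55417913395601) (nat_lit 0) (nat_lit 0) (nat_lit 0) (nat_lit 0) (nat_lit 0) (nat_lit 0) (nat_lit 1) (nat_lit 0) (nat_lit 1) (nat_lit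 0) (nat_lit 501) (nat_lit 329) (nat_lit 250)))) (XT.nd (nat_lit 188) (nat_lit 0) (nat_lit 0) (XT.nd (nat_lit 94) (nat_lit 0) (nat_lit 0) (XT.lf (nat_lit 0) (nat_lit 54468677715) (nat_lit 0) (nat_lit 0) (nat_lit 0) (nat_lit 0) (nat_lit 0) (nat_lit 0) (nat_lit 1) (nat_lit 0) (nat_lit 1) (nat_lit 0) (nat_lit 420) (nat_lit 330) (nat_lit 330)) (XT.lf (nat_lit 0) (nat_lit 117627366850) (nat_lit 0) (nat_lit 0) (nat_lit 0) (nat_lit 0) (nat_lit 0) (nat_lit 0) (nat_lit 1) (nat_lit 0) (nat_lit 1) (nat_lit 0) (nat_lit 421) (nat_lit 330) (nat_lit 329))) (XT.nd (nat_lit 94) (nat_lit 0) (nat_lit 0) (XT.lf (nat_lit 0) (nat_lit 127013797004) (nat_lit 0) (nat_lit 0) (nat_lit 0) (nat_lit 0) (nat_lit 0) (nat_lit 0) (nat_lit 1) (nat_lit 0) (nat_lit 1) (nat_lit 0) (nat_lit 422) (nat_lit 330) (nat_lit 328)) (XT.lf (nat_lit 0) (nat_lit 137152269181) (nat_lit 0) (nat_lit 0) (nat_lit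 0) (nat_lit 0) (nat_lit 0) (nat_lit 0) (nat_lit 1) (nat_lit 0) (nat_lit 1) (nat_lit 0) (nat_lit 423) (nat_lit 330) (nat_lit 327)))))) (XT.nd (nat_lit 658) (nat_lit 0) (nat_lit 0) (XT.nd (nat_lit 282) (nat_lit 0) (nat_lit 0) (XT.nd (nat_lit 94) (nat_lit 0) (nat_lit 0) (XT.lf (nat_lit 0) (nat_lit 148102863216) (nat_lit 0) (nat_lit 0) (nat_lit 0) (nat_lit 0) (nat_lit 0) (nat_lit 0) (nat_lit 1) (nat_lit 0) (nat_lit 1) (nat_lit 0) (nat_lit 424) (nat_lit 330) (nat_lit 326)) (XT.nd (nat_lit 94) (nat_lit 0) (nat_lit 0) (XT.lf (nat_lit 0) (nat_lit 159930471518) (nat_lit 0) (nat_lit 0) (nat_lit 0) (nat_lit 0) (nat_lit 0) (nat_lit 0) (nat_lit 1) (nat_lit 0) (nat_lit 1) (nat_lit 0) (nat_lit 425) (nat_lit 330) (nat_lit 325)) (XT.lf (nat_lit 0) (nat_lit 172705183619) (nat_lit 0) (nat_lit 0) (nat_lit 0) (nat_lit 0) (nat_lit 0) (nat_lit 0) (nat_lit 1) (nat_lit 0) (nat_lit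 1) (nat_lit 0) (nat_lit 426) (nat_lit 330) (nat_lit 324)))) (XT.nd (nat_lit 188) (nat_lit 0) (nat_lit 0) (XT.nd (nat_lit 94) (nat_lit 0) (nat_lit 0) (XT.lf (nat_lit 0) (nat_lit 186502701515) (nat_lit 0) (nat_lit 0) (nat_lit 0) (nat_lit 0) (nat_lit 0) (nat_lit 0) (nat_lit 1) (nat_lit 0) (nat_lit 1) (nat_lit 0) (nat_lit 427) (nat_lit 330) (nat_lit 323)) (XT.lf (nat_lit 0) (nat_lit 201404788276) (nat_lit 0) (nat_lit 0) (nat_lit 0) (nat_lit 0) (nat_lit 0) (nat_lit 0) (nat_lit 1) (nat_lit 0) (nat_lit 1) (nat_lit 0) (nat_lit 428) (nat_lit 330) (nat_lit 322))) (XT.nd (nat_lit 94) (nat_lit 0) (nat_lit 0) (XT.lf (nat_lit 0) (nat_lit 217499752564) (nat_lit 0) (nat_lit 0) (nat_lit 0) (nat_lit 0) (nat_lit 0) (nat_lit 0) (nat_lit 1) (nat_lit 0) (nat_lit 1) (nat_lit 0) (nat_lit 429) (nat_lit 330) (nat_lit 321)) (XT.lf (nat_lit 0) (nat_lit 234882971945) (nat_lit 0) (nat_lit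 0) (nat_lit 0) (nat_lit 0) (nat_lit 0) (nat_lit 0) (nat_lit 1) (nat_lit 0) (nat_lit 1) (nat_lit 0) (nat_lit 430) (nat_lit 330) (nat_lit 320))))) (XT.nd (nat_lit 376) (nat_lit 0) (nat_lit 0) (XT.nd (nat_lit 188) (nat_lit 0) (nat_lit 0) (XT.nd (nat_lit 94) (nat_lit 0) (nat_lit 0) (XT.lf (nat_lit 0) (nat_lit 253657458089) (nat_lit 0) (nat_lit 0) (nat_lit 0) (nat_lit 0) (nat_lit 0) (nat_lit 0) (nat_lit 1) (nat_lit 0) (nat_lit 1) (nat_lit 0) (nat_lit 431) (nat_lit 330) (nat_lit 319)) (XT.lf (nat_lit 0) (nat_lit 273934467211) (nat_lit 0) (nat_lit 0) (nat_lit 0) (nat_lit 0) (nat_lit 0) (nat_lit 0) (nat_lit 1) (nat_lit 0) (nat_lit 1) (nat_lit 0) (nat_lit 432) (nat_lit 330) (nat_lit 318))) (XT.nd (nat_lit 94) (nat_lit 0) (nat_lit 0) (XT.lf (nat_lit 0) (nat_lit 295834159365) (nat_lit 0) (nat_lit 0) (nat_lit 0) (nat_lit 0) (nat_lit 0) (nat_lit 0) (nat_lit 1) (nat_lit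 0) (nat_lit 1) (nat_lit 0) (nat_lit 433) (nat_lit 330) (nat_lit 317)) (XT.lf (nat_lit 0) (nat_lit 319486310505) (nat_lit 0) (nat_lit 0) (nat_lit 0) (nat_lit 0) (nat_lit 0) (nat_lit 0) (nat_lit 1) (nat_lit 0) (nat_lit 1) (nat_lit 0) (nat_lit 434) (nat_lit 330) (nat_lit 316)))) (XT.nd (nat_lit 188) (nat_lit 0) (nat_lit 0) (XT.nd (nat_lit 94) (nat_lit 0) (nat_lit 0) (XT.lf (nat_lit 0) (nat_lit 345031081525) (nat_lit 0) (nat_lit 0) (nat_lit 0) (nat_lit 0) (nat_lit 0) (nat_lit 0) (nat_lit 1) (nat_lit 0) (nat_lit 1) (nat_lit 0) (nat_lit 435) (nat_lit 330) (nat_lit 315)) (XT.lf (nat_lit 0) (nat_lit 372619848847) (nat_lit 0) (nat_lit 0) (nat_lit 0) (nat_lit 0) (nat_lit 0) (nat_lit 0) (nat_lit 1) (nat_lit 0) (nat_lit 1) (nat_lit 0) (nat_lit 436) (nat_lit 330) (nat_lit 314))) (XT.nd (nat_lit 94) (nat_lit 0) (nat_lit 0) (XT.lf (nat_lit 0) (nat_lit 402416101462) (nat_lit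 0) (nat_lit 0) (nat_lit 0) (nat_lit 0) (nat_lit 0) (nat_lit 0) (nat_lit 1) (nat_lit 0) (nat_lit 1) (nat_lit 0) (nat_lit 437) (nat_lit 330) (nat_lit 313)) (XT.lf (nat_lit 0) (nat_lit 434596409757) (nat_lit 0) (nat_lit 0) (nat_lit 0) (nat_lit 0) (nat_lit 0) (nat_lit 0) (nat_lit 1) (nat_lit 0) (nat_lit 1) (nat_lit 0) (nat_lit 438) (nat_lit 330) (nat_lit 312))))))))
noncomputable def xc31 : XT := (XT.nd (nat_lit 2632) (nat_lit 0) (nat_lit 0) (XT.nd (nat_lit 1316) (nat_lit 0) (nat_lit 0) (XT.nd (nat_lit 658) (nat_lit 0) (nat_lit 0) (XT.nd (nat_lit 282) (nat_lit 0) (nat_lit 0) (XT.nd (nat_lit 94) (nat_lit 0) (nat_lit 0) (XT.lf (nat_lit 0) (nat_lit 469351471854) (nat_lit 0) (nat_lit 0) (nat_lit 0) (nat_lit 0) (nat_lit 0) (nat_lit 0) (nat_lit 1) (nat_lit 0) (nat_lit 1) (nat_lit 0) (nat_lit 439) (nat_lit 330) (nat_lit 311)) (XT.nd (nat_lit 94) (nat_lit 0) (nat_lit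 0) (XT.lf (nat_lit 0) (nat_lit 506887243677) (nat_lit 0) (nat_lit 0) (nat_lit 0) (nat_lit 0) (nat_lit 0) (nat_lit 0) (nat_lit 1) (nat_lit 0) (nat_lit 1) (nat_lit 0) (nat_lit 440) (nat_lit 330) (nat_lit 310)) (XT.lf (nat_lit 0) (nat_lit 547426159429) (nat_lit 0) (nat_lit 0) (nat_lit 0) (nat_lit 0) (nat_lit 0) (nat_lit 0) (nat_lit 1) (nat_lit 0) (nat_lit 1) (nat_lit 0) (nat_lit 441) (nat_lit 330) (nat_lit 309)))) (XT.nd (nat_lit 188) (nat_lit 0) (nat_lit 0) (XT.nd (nat_lit 94) (nat_lit 0) (nat_lit 0) (XT.lf (nat_lit 0) (nat_lit 591208449723) (nat_lit 0) (nat_lit 0) (nat_lit 0) (nat_lit 0) (nat_lit 0) (nat_lit 0) (nat_lit 1) (nat_lit 0) (nat_lit 1) (nat_lit 0) (nat_lit 442) (nat_lit 330) (nat_lit 308)) (XT.lf (nat_lit 0) (nat_lit 638493565167) (nat_lit 0) (nat_lit 0) (nat_lit 0) (nat_lit 0) (nat_lit 0) (nat_lit 0) (nat_lit 1) (nat_lit 0) (nat_lit 1) (nat_lit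 0) (nat_lit 443) (nat_lit 330) (nat_lit 307))) (XT.nd (nat_lit 94) (nat_lit 0) (nat_lit 0) (XT.lf (nat_lit 0) (nat_lit 689561713852) (nat_lit 0) (nat_lit 0) (nat_lit 0) (nat_lit 0) (nat_lit 0) (nat_lit 0) (nat_lit 1) (nat_lit 0) (nat_lit 1) (nat_lit 0) (nat_lit 444) (nat_lit 330) (nat_lit 306)) (XT.lf (nat_lit 0) (nat_lit 744715521846) (nat_lit 0) (nat_lit 0) (nat_lit 0) (nat_lit 0) (nat_lit 0) (nat_lit 0) (nat_lit 1) (nat_lit 0) (nat_lit 1) (nat_lit 0) (nat_lit 445) (nat_lit 330) (nat_lit 305))))) (XT.nd (nat_lit 282) (nat_lit 0) (nat_lit 0) (XT.nd (nat_lit 94) (nat_lit 0) (nat_lit 0) (XT.lf (nat_lit 0) (nat_lit 804281826529) (nat_lit 0) (nat_lit 0) (nat_lit 0) (nat_lit 0) (nat_lit 0) (nat_lit 0) (nat_lit 1) (nat_lit 0) (nat_lit 1) (nat_lit 0) (nat_lit 446) (nat_lit 330) (nat_lit 304)) (XT.nd (nat_lit 94) (nat_lit 0) (nat_lit 0) (XT.lf (nat_lit 0) (nat_lit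 868613613410) (nat_lit 0) (nat_lit 0) (nat_lit 0) (nat_lit 0) (nat_lit 0) (nat_lit 0) (nat_lit 1) (nat_lit 0) (nat_lit 1) (nat_lit 0) (nat_lit 447) (nat_lit 330) (nat_lit 303)) (XT.lf (nat_lit 0) (nat_lit 938092107893) (nat_lit 0) (nat_lit 0) (nat_lit 0) (nat_lit 0) (nat_lit 0) (nat_lit 0) (nat_lit 1) (nat_lit 0) (nat_lit 1) (nat_lit 0) (nat_lit 448) (nat_lit 330) (nat_lit 302)))) (XT.nd (nat_lit 188) (nat_lit 0) (nat_lit 0) (XT.nd (nat_lit 94) (nat_lit 0) (nat_lit 0) (XT.lf (nat_lit 0) (nat_lit 1013129034389) (nat_lit 0) (nat_lit 0) (nat_lit 0) (nat_lit 0) (nat_lit 0) (nat_lit 0) (nat_lit 1) (nat_lit 0) (nat_lit 1) (nat_lit 0) (nat_lit 449) (nat_lit 330) (nat_lit 301)) (XT.lf (nat_lit 0) (nat_lit 1094169056167) (nat_lit 0) (nat_lit 0) (nat_lit 0) (nat_lit 0) (nat_lit 0) (nat_lit 0) (nat_lit 1) (nat_lit 0) (nat_lit 1) (nat_lit 0) (nat_lit 450) (nat_lit 330)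 (nat_lit 300))) (XT.nd (nat_lit 94) (nat_lit 0) (nat_lit 0) (XT.lf (nat_lit 0) (nat_lit 1181692410393) (nat_lit 0) (nat_lit 0) (nat_lit 0) (nat_lit 0) (nat_lit 0) (nat_lit 0) (nat_lit 1) (nat_lit 0) (nat_lit 1) (nat_lit 0) (nat_lit 451) (nat_lit 330) (nat_lit 299)) (XT.lf (nat_lit 0) (nat_lit 1276217753981) (nat_lit 0) (nat_lit 0) (nat_lit 0) (nat_lit 0) (nat_lit 0) (nat_lit 0) (nat_lit 1) (nat_lit 0) (nat_lit 1) (nat_lit 0) (nat_lit 452) (nat_lit 330) (nat_lit 298)))))) (XT.nd (nat_lit 658) (nat_lit 0) (nat_lit 0) (XT.nd (nat_lit 282) (nat_lit 0) (nat_lit 0) (XT.nd (nat_lit 94) (nat_lit 0) (nat_lit 0) (XT.lf (nat_lit 0) (nat_lit 1378305237115) (nat_lit 0) (nat_lit 0) (nat_lit 0) (nat_lit 0) (nat_lit 0) (nat_lit 0) (nat_lit 1) (nat_lit 0) (nat_lit 1) (nat_lit 0) (nat_lit 453) (nat_lit 330) (nat_lit 297)) (XT.nd (nat_lit 94) (nat_lit 0) (nat_lit 0) (XT.lf (nat_lit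 0) (nat_lit 1488559822657) (nat_lit 0) (nat_lit 0) (nat_lit 0) (nat_lit 0) (nat_lit 0) (nat_lit 0) (nat_lit 1) (nat_lit 0) (nat_lit 1) (nat_lit 0) (nat_lit 454) (nat_lit 330) (nat_lit 296)) (XT.lf (nat_lit 0) (nat_lit 1607634871116) (nat_lit 0) (nat_lit 0) (nat_lit 0) (nat_lit 0) (nat_lit 0) (nat_lit 0) (nat_lit 1) (nat_lit 0) (nat_lit 1) (nat_lit 0) (nat_lit 455) (nat_lit 330) (nat_lit 295)))) (XT.nd (nat_lit 188) (nat_lit 0) (nat_lit 0) (XT.nd (nat_lit 94) (nat_lit 0) (nat_lit 0) (XT.lf (nat_lit 0) (nat_lit 1736236012407) (nat_lit 0) (nat_lit 0) (nat_lit 0) (nat_lit 0) (nat_lit 0) (nat_lit 0) (nat_lit 1) (nat_lit 0) (nat_lit 1) (nat_lit 0) (nat_lit 456) (nat_lit 330) (nat_lit 294)) (XT.lf (nat_lit 0) (nat_lit 1875125327368) (nat_lit 0) (nat_lit 0) (nat_lit 0) (nat_lit 0) (nat_lit 0) (nat_lit 0) (nat_lit 1) (nat_lit 0) (nat_lit 1) (nat_lit 0) (nat_lit 457)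 (nat_lit 330) (nat_lit 293))) (XT.nd (nat_lit 94) (nat_lit 0) (nat_lit 0) (XT.lf (nat_lit 0) (nat_lit 2025125863792) (nat_lit 0) (nat_lit 0) (nat_lit 0) (nat_lit 0) (nat_lit 0) (nat_lit 0) (nat_lit 1) (nat_lit 0) (nat_lit 1) (nat_lit 0) (nat_lit 458) (nat_lit 330) (nat_lit 292)) (XT.lf (nat_lit 0) (nat_lit 2187126513746) (nat_lit 0) (nat_lit 0) (nat_lit 0) (nat_lit 0) (nat_lit 0) (nat_lit 0) (nat_lit 1) (nat_lit 0) (nat_lit 1) (nat_lit 0) (nat_lit 459) (nat_lit 330) (nat_lit 291))))) (XT.nd (nat_lit 282) (nat_lit 0) (nat_lit 0) (XT.nd (nat_lit 94) (nat_lit 0) (nat_lit 0) (XT.lf (nat_lit 0) (nat_lit 2362087281081) (nat_lit 0) (nat_lit 0) (nat_lit 0) (nat_lit 0) (nat_lit 0) (nat_lit 0) (nat_lit 1) (nat_lit 0) (nat_lit 1) (nat_lit 0) (nat_lit 460) (nat_lit 330) (nat_lit 290)) (XT.nd (nat_lit 94) (nat_lit 0) (nat_lit 0) (XT.lf (nat_lit 0) (nat_lit 2551044970345)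 (nat_lit 0) (nat_lit 0) (nat_lit 0) (nat_lit 0) (nat_lit 0) (nat_lit 0) (nat_lit 1) (nat_lit 0) (nat_lit 1) (nat_lit 0) (nat_lit 461) (nat_lit 330) (nat_lit 289)) (XT.lf (nat_lit 0) (nat_lit 2755119330807) (nat_lit 0) (nat_lit 0) (nat_lit 0) (nat_lit 0) (nat_lit 0) (nat_lit 0) (nat_lit 1) (nat_lit 0) (nat_lit 1) (nat_lit 0) (nat_lit 462) (nat_lit 330) (nat_lit 288)))) (XT.nd (nat_lit 188) (nat_lit 0) (nat_lit 0) (XT.nd (nat_lit 94) (nat_lit 0) (nat_lit 0) (XT.lf (nat_lit 0) (nat_lit 2975519692012) (nat_lit 0) (nat_lit 0) (nat_lit 0) (nat_lit 0) (nat_lit 0) (nat_lit 0) (nat_lit 1) (nat_lit 0) (nat_lit 1) (nat_lit 0) (nat_lit 463) (nat_lit 330) (nat_lit 287)) (XT.lf (nat_lit 0) (nat_lit 3213552130173) (nat_lit 0) (nat_lit 0) (nat_lit 0) (nat_lit 0) (nat_lit 0) (nat_lit 0) (nat_lit 1) (nat_lit 0) (nat_lit 1) (nat_lit 0) (nat_lit 464) (nat_lit 330) (nat_lit 286)))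 (XT.nd (nat_lit 94) (nat_lit 0) (nat_lit 0) (XT.lf (nat_lit 0) (nat_lit 3470627207887) (nat_lit 0) (nat_lit 0) (nat_lit 0) (nat_lit 0) (nat_lit 0) (nat_lit 0) (nat_lit 1) (nat_lit 0) (nat_lit 1) (nat_lit 0) (nat_lit 465) (nat_lit 330) (nat_lit 285)) (XT.lf (nat_lit 0) (nat_lit 3748268333022) (nat_lit 0) (nat_lit 0) (nat_lit 0) (nat_lit 0) (nat_lit 0) (nat_lit 0) (nat_lit 1) (nat_lit 0) (nat_lit 1) (nat_lit 0) (nat_lit 466) (nat_lit 330) (nat_lit 284))))))) (XT.nd (nat_lit 1316) (nat_lit 0) (nat_lit 0) (XT.nd (nat_lit 658) (nat_lit 0) (nat_lit 0) (XT.nd (nat_lit 282) (nat_lit 0) (nat_lit 0) (XT.nd (nat_lit 94) (nat_lit 0) (nat_lit 0) (XT.lf (nat_lit 0) (nat_lit 4048120786320) (nat_lit 0) (nat_lit 0) (nat_lit 0) (nat_lit 0) (nat_lit 0) (nat_lit 0) (nat_lit 1) (nat_lit 0) (nat_lit 1) (nat_lit 0) (nat_lit 467) (nat_lit 330) (nat_lit 283)) (XT.nd (nat_lit 94) (nat_lit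 0) (nat_lit 0) (XT.lf (nat_lit 0) (nat_lit 4371961471207) (nat_lit 0) (nat_lit 0) (nat_lit 0) (nat_lit 0) (nat_lit 0) (nat_lit 0) (nat_lit 1) (nat_lit 0) (nat_lit 1) (nat_lit 0) (nat_lit 468) (nat_lit 330) (nat_lit 282)) (XT.lf (nat_lit 0) (nat_lit 4721709443594) (nat_lit 0) (nat_lit 0) (nat_lit 0) (nat_lit 0) (nat_lit 0) (nat_lit 0) (nat_lit 1) (nat_lit 0) (nat_lit 1) (nat_lit 0) (nat_lit 469) (nat_lit 330) (nat_lit 281)))) (XT.nd (nat_lit 188) (nat_lit 0) (nat_lit 0) (XT.nd (nat_lit 94) (nat_lit 0) (nat_lit 0) (XT.lf (nat_lit 0) (nat_lit 5099437284058) (nat_lit 0) (nat_lit 0) (nat_lit 0) (nat_lit 0) (nat_lit 0) (nat_lit 0) (nat_lit 1) (nat_lit 0) (nat_lit 1) (nat_lit 0) (nat_lit 470) (nat_lit 330) (nat_lit 280)) (XT.lf (nat_lit 0) (nat_lit 5507383379801) (nat_lit 0) (nat_lit 0) (nat_lit 0) (nat_lit 0) (nat_lit 0) (nat_lit 0) (nat_lit 1) (nat_lit 0) (nat_lit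 1) (nat_lit 0) (nat_lit 471) (nat_lit 330) (nat_lit 279))) (XT.nd (nat_lit 94) (nat_lit 0) (nat_lit 0) (XT.lf (nat_lit 0) (nat_lit 5947965189170) (nat_lit 0) (nat_lit 0) (nat_lit 0) (nat_lit 0) (nat_lit 0) (nat_lit 0) (nat_lit 1) (nat_lit 0) (nat_lit 1) (nat_lit 0) (nat_lit 472) (nat_lit 330) (nat_lit 278)) (XT.lf (nat_lit 0) (nat_lit 6423793567330) (nat_lit 0) (nat_lit 0) (nat_lit 0) (nat_lit 0) (nat_lit 0) (nat_lit 0) (nat_lit 1) (nat_lit 0) (nat_lit 1) (nat_lit 0) (nat_lit 473) (nat_lit 330) (nat_lit 277))))) (XT.nd (nat_lit 282) (nat_lit 0) (nat_lit 0) (XT.nd (nat_lit 94) (nat_lit 0) (nat_lit 0) (XT.lf (nat_lit 0) (nat_lit 6937688238004) (nat_lit 0) (nat_lit 0) (nat_lit 0) (nat_lit 0) (nat_lit 0) (nat_lit 0) (nat_lit 1) (nat_lit 0) (nat_lit 1) (nat_lit 0) (nat_lit 474) (nat_lit 330) (nat_lit 276)) (XT.nd (nat_lit 94) (nat_lit 0) (nat_lit 0) (XT.lf (nat_lit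 0) (nat_lit 7492694502945) (nat_lit 0) (nat_lit 0) (nat_lit 0) (nat_lit 0) (nat_lit 0) (nat_lit 0) (nat_lit 1) (nat_lit 0) (nat_lit 1) (nat_lit 0) (nat_lit 475) (nat_lit 330) (nat_lit 275)) (XT.lf (nat_lit 0) (nat_lit 8092101288166) (nat_lit 0) (nat_lit 0) (nat_lit 0) (nat_lit 0) (nat_lit 0) (nat_lit 0) (nat_lit 1) (nat_lit 0) (nat_lit 1) (nat_lit 0) (nat_lit 476) (nat_lit 330) (nat_lit 274)))) (XT.nd (nat_lit 188) (nat_lit 0) (nat_lit 0) (XT.nd (nat_lit 94) (nat_lit 0) (nat_lit 0) (XT.lf (nat_lit 0) (nat_lit 8739460633876) (nat_lit 0) (nat_lit 0) (nat_lit 0) (nat_lit 0) (nat_lit 0) (nat_lit 0) (nat_lit 1) (nat_lit 0) (nat_lit 1) (nat_lit 0) (nat_lit 477) (nat_lit 330) (nat_lit 273)) (XT.lf (nat_lit 0) (nat_lit 9438608743605) (nat_lit 0) (nat_lit 0) (nat_lit 0) (nat_lit 0) (nat_lit 0) (nat_lit 0) (nat_lit 1) (nat_lit 0) (nat_lit 1) (nat_lit 0) (nat_lit 478)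 (nat_lit 330) (nat_lit 272))) (XT.nd (nat_lit 94) (nat_lit 0) (nat_lit 0) (XT.lf (nat_lit 0) (nat_lit 10193688717264) (nat_lit 0) (nat_lit 0) (nat_lit 0) (nat_lit 0) (nat_lit 0) (nat_lit 0) (nat_lit 1) (nat_lit 0) (nat_lit 1) (nat_lit 0) (nat_lit 479) (nat_lit 330) (nat_lit 271)) (XT.lf (nat_lit 0) (nat_lit 11009175102843) (nat_lit 0) (nat_lit 0) (nat_lit 0) (nat_lit 0) (nat_lit 0) (nat_lit 0) (nat_lit 1) (nat_lit 0) (nat_lit 1) (nat_lit 0) (nat_lit 480) (nat_lit 330) (nat_lit 270)))))) (XT.nd (nat_lit 658) (nat_lit 0) (nat_lit 0) (XT.nd (nat_lit 282) (nat_lit 0) (nat_lit 0) (XT.nd (nat_lit 94) (nat_lit 0) (nat_lit 0) (XT.lf (nat_lit 0) (nat_lit 11889900412258) (nat_lit 0) (nat_lit 0) (nat_lit 0) (nat_lit 0) (nat_lit 0) (nat_lit 0) (nat_lit 1) (nat_lit 0) (nat_lit 1) (nat_lit 0) (nat_lit 481) (nat_lit 330) (nat_lit 269)) (XT.nd (nat_lit 94) (nat_lit 0) (nat_lit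 0) (XT.lf (nat_lit 0) (nat_lit 12841083758453) (nat_lit 0) (nat_lit 0) (nat_lit 0) (nat_lit 0) (nat_lit 0) (nat_lit 0) (nat_lit 1) (nat_lit 0) (nat_lit 1) (nat_lit 0) (nat_lit 482) (nat_lit 330) (nat_lit 268)) (XT.lf (nat_lit 0) (nat_lit 13868361783480) (nat_lit 0) (nat_lit 0) (nat_lit 0) (nat_lit 0) (nat_lit 0) (nat_lit 0) (nat_lit 1) (nat_lit 0) (nat_lit 1) (nat_lit 0) (nat_lit 483) (nat_lit 330) (nat_lit 267)))) (XT.nd (nat_lit 188) (nat_lit 0) (nat_lit 0) (XT.nd (nat_lit 94) (nat_lit 0) (nat_lit 0) (XT.lf (nat_lit 0) (nat_lit 14977822060821) (nat_lit 0) (nat_lit 0) (nat_lit 0) (nat_lit 0) (nat_lit 0) (nat_lit 0) (nat_lit 1) (nat_lit 0) (nat_lit 1) (nat_lit 0) (nat_lit 484) (nat_lit 330) (nat_lit 266)) (XT.lf (nat_lit 0) (nat_lit 16176039169896) (nat_lit 0) (nat_lit 0) (nat_lit 0) (nat_lit 0) (nat_lit 0) (nat_lit 0) (nat_lit 1) (nat_lit 0) (nat_lit 1) (nat_lit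 0) (nat_lit 485) (nat_lit 330) (nat_lit 265))) (XT.nd (nat_lit 94) (nat_lit 0) (nat_lit 0) (XT.lf (nat_lit 0) (nat_lit 17470113656537) (nat_lit 0) (nat_lit 0) (nat_lit 0) (nat_lit 0) (nat_lit 0) (nat_lit 0) (nat_lit 1) (nat_lit 0) (nat_lit 1) (nat_lit 0) (nat_lit 486) (nat_lit 330) (nat_lit 264)) (XT.lf (nat_lit 0) (nat_lit 18867714110295) (nat_lit 0) (nat_lit 0) (nat_lit 0) (nat_lit 0) (nat_lit 0) (nat_lit 0) (nat_lit 1) (nat_lit 0) (nat_lit 1) (nat_lit 0) (nat_lit 487) (nat_lit 330) (nat_lit 263))))) (XT.nd (nat_lit 376) (nat_lit 0) (nat_lit 0) (XT.nd (nat_lit 188) (nat_lit 0) (nat_lit 0) (XT.nd (nat_lit 94) (nat_lit 0) (nat_lit 0) (XT.lf (nat_lit 0) (nat_lit 20377122607932) (nat_lit 0) (nat_lit 0) (nat_lit 0) (nat_lit 0) (nat_lit 0) (nat_lit 0) (nat_lit 1) (nat_lit 0) (nat_lit 1) (nat_lit 0) (nat_lit 488) (nat_lit 330) (nat_lit 262)) (XT.lf (nat_lit 0)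 (nat_lit 22007283792398) (nat_lit 0) (nat_lit 0) (nat_lit 0) (nat_lit 0) (nat_lit 0) (nat_lit 0) (nat_lit 1) (nat_lit 0) (nat_lit 1) (nat_lit 0) (nat_lit 489) (nat_lit 330) (nat_lit 261))) (XT.nd (nat_lit 94) (nat_lit 0) (nat_lit 0) (XT.lf (nat_lit 0) (nat_lit 23767857878120) (nat_lit 0) (nat_lit 0) (nat_lit 0) (nat_lit 0) (nat_lit 0) (nat_lit 0) (nat_lit 1) (nat_lit 0) (nat_lit 1) (nat_lit 0) (nat_lit 490) (nat_lit 330) (nat_lit 260)) (XT.lf (nat_lit 0) (nat_lit 25669277896715) (nat_lit 0) (nat_lit 0) (nat_lit 0) (nat_lit 0) (nat_lit 0) (nat_lit 0) (nat_lit 1) (nat_lit 0) (nat_lit 1) (nat_lit 0) (nat_lit 491) (nat_lit 330) (nat_lit 259)))) (XT.nd (nat_lit 188) (nat_lit 0) (nat_lit 0) (XT.nd (nat_lit 94) (nat_lit 0) (nat_lit 0) (XT.lf (nat_lit 0) (nat_lit 27722811522369) (nat_lit 0) (nat_lit 0) (nat_lit 0) (nat_lit 0) (nat_lit 0) (nat_lit 0) (nat_lit 1) (nat_lit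 0) (nat_lit 1) (nat_lit 0) (nat_lit 492) (nat_lit 330) (nat_lit 258)) (XT.lf (nat_lit 0) (nat_lit 29940627843234) (nat_lit 0) (nat_lit 0) (nat_lit 0) (nat_lit 0) (nat_lit 0) (nat_lit 0) (nat_lit 1) (nat_lit 0) (nat_lit 1) (nat_lit 0) (nat_lit 493) (nat_lit 330) (nat_lit 257))) (XT.nd (nat_lit 94) (nat_lit 0) (nat_lit 0) (XT.lf (nat_lit 0) (nat_lit 32335869474543) (nat_lit 0) (nat_lit 0) (nat_lit 0) (nat_lit 0) (nat_lit 0) (nat_lit 0) (nat_lit 1) (nat_lit 0) (nat_lit 1) (nat_lit 0) (nat_lit 494) (nat_lit 330) (nat_lit 256)) (XT.lf (nat_lit 0) (nat_lit 34922730440780) (nat_lit 0) (nat_lit 0) (nat_lit 0) (nat_lit 0) (nat_lit 0) (nat_lit 0) (nat_lit 1) (nat_lit 0) (nat_lit 1) (nat_lit 0) (nat_lit 495) (nat_lit 330) (nat_lit 255))))))))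
noncomputable def xc32 : XT := (XT.nd (nat_lit 62698) (nat_lit 0) (nat_lit 0) (XT.nd (nat_lit 61382) (nat_lit 0) (nat_lit 0) (XT.nd (nat_lit 60724) (nat_lit 0) (nat_lit 0) (XT.nd (nat_lit 282) (nat_lit 0) (nat_lit 0) (XT.nd (nat_lit 94) (nat_lit 0) (nat_lit 0) (XT.lf (nat_lit 0) (nat_lit 37716540288411) (nat_lit 0) (nat_lit 0) (nat_lit 0) (nat_lit 0) (nat_lit 0) (nat_lit 0) (nat_lit 1) (nat_lit 0) (nat_lit 1) (nat_lit 0) (nat_lit 496) (nat_lit 330) (nat_lit 254)) (XT.nd (nat_lit 94) (nat_lit 0) (nat_lit 0) (XT.lf (nat_lit 0) (nat_lit 40733854927643) (nat_lit 0) (nat_lit 0) (nat_lit 0) (nat_lit 0) (nat_lit 0) (nat_lit 0) (nat_lit 1) (nat_lit 0) (nat_lit 1) (nat_lit 0) (nat_lit 497) (nat_lit 330) (nat_lit 253)) (XT.lf (nat_lit 0) (nat_lit 43992554741525) (nat_lit 0) (nat_lit 0) (nat_lit 0) (nat_lit 0) (nat_lit 0) (nat_lit 0) (nat_lit 1) (nat_lit 0) (nat_lit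 1) (nat_lit 0) (nat_lit 498) (nat_lit 330) (nat_lit 252)))) (XT.nd (nat_lit 60254) (nat_lit 0) (nat_lit 0) (XT.nd (nat_lit 60160) (nat_lit 0) (nat_lit 0) (XT.lf (nat_lit 0) (nat_lit 47511950543767) (nat_lit 0) (nat_lit 0) (nat_lit 0) (nat_lit 0) (nat_lit 0) (nat_lit 0) (nat_lit 1) (nat_lit 0) (nat_lit 1) (nat_lit 0) (nat_lit 499) (nat_lit 330) (nat_lit 251)) (XT.lf (nat_lit 0) (nat_lit 46721871090) (nat_lit 0) (nat_lit 0) (nat_lit 0) (nat_lit 0) (nat_lit 0) (nat_lit 0) (nat_lit 1) (nat_lit 0) (nat_lit 1) (nat_lit 0) (nat_lit 418) (nat_lit 331) (nat_lit 331))) (XT.nd (nat_lit 94) (nat_lit 0) (nat_lit 0) (XT.lf (nat_lit 0) (nat_lit 100892266379) (nat_lit 0) (nat_lit 0) (nat_lit 0) (nat_lit 0) (nat_lit 0) (nat_lit 0) (nat_lit 1) (nat_lit 0) (nat_lit 1) (nat_lit 0) (nat_lit 419) (nat_lit 331) (nat_lit 330)) (XT.lf (nat_lit 0) (nat_lit 108937987759) (nat_lit 0)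 (nat_lit 0) (nat_lit 0) (nat_lit 0) (nat_lit 0) (nat_lit 0) (nat_lit 1) (nat_lit 0) (nat_lit 1) (nat_lit 0) (nat_lit 420) (nat_lit 331) (nat_lit 329))))) (XT.nd (nat_lit 282) (nat_lit 0) (nat_lit 0) (XT.nd (nat_lit 94) (nat_lit 0) (nat_lit 0) (XT.lf (nat_lit 0) (nat_lit 117628584670) (nat_lit 0) (nat_lit 0) (nat_lit 0) (nat_lit 0) (nat_lit 0) (nat_lit 0) (nat_lit 1) (nat_lit 0) (nat_lit 1) (nat_lit 0) (nat_lit 421) (nat_lit 331) (nat_lit 328)) (XT.nd (nat_lit 94) (nat_lit 0) (nat_lit 0) (XT.lf (nat_lit 0) (nat_lit 127015556944) (nat_lit 0) (nat_lit 0) (nat_lit 0) (nat_lit 0) (nat_lit 0) (nat_lit 0) (nat_lit 1) (nat_lit 0) (nat_lit 1) (nat_lit 0) (nat_lit 422) (nat_lit 331) (nat_lit 327)) (XT.lf (nat_lit 0) (nat_lit 137154531085) (nat_lit 0) (nat_lit 0) (nat_lit 0) (nat_lit 0) (nat_lit 0) (nat_lit 0) (nat_lit 1) (nat_lit 0) (nat_lit 1) (nat_lit 0) (nat_lit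 423) (nat_lit 331) (nat_lit 326)))) (XT.nd (nat_lit 188) (nat_lit 0) (nat_lit 0) (XT.nd (nat_lit 94) (nat_lit 0) (nat_lit 0) (XT.lf (nat_lit 0) (nat_lit 148105589901) (nat_lit 0) (nat_lit 0) (nat_lit 0) (nat_lit 0) (nat_lit 0) (nat_lit 0) (nat_lit 1) (nat_lit 0) (nat_lit 1) (nat_lit 0) (nat_lit 424) (nat_lit 331) (nat_lit 325)) (XT.lf (nat_lit 0) (nat_lit 159933628556) (nat_lit 0) (nat_lit 0) (nat_lit 0) (nat_lit 0) (nat_lit 0) (nat_lit 0) (nat_lit 1) (nat_lit 0) (nat_lit 1) (nat_lit 0) (nat_lit 425) (nat_lit 331) (nat_lit 324))) (XT.nd (nat_lit 94) (nat_lit 0) (nat_lit 0) (XT.lf (nat_lit 0) (nat_lit 172708739131) (nat_lit 0) (nat_lit 0) (nat_lit 0) (nat_lit 0) (nat_lit 0) (nat_lit 0) (nat_lit 1) (nat_lit 0) (nat_lit 1) (nat_lit 0) (nat_lit 426) (nat_lit 331) (nat_lit 323)) (XT.lf (nat_lit 0) (nat_lit 186506625986) (nat_lit 0) (nat_lit 0) (nat_lit 0) (nat_lit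 0) (nat_lit 0) (nat_lit 0) (nat_lit 1) (nat_lit 0) (nat_lit 1) (nat_lit 0) (nat_lit 427) (nat_lit 331) (nat_lit 322)))))) (XT.nd (nat_lit 658) (nat_lit 0) (nat_lit 0) (XT.nd (nat_lit 282) (nat_lit 0) (nat_lit 0) (XT.nd (nat_lit 94) (nat_lit 0) (nat_lit 0) (XT.lf (nat_lit 0) (nat_lit 201409054374) (nat_lit 0) (nat_lit 0) (nat_lit 0) (nat_lit 0) (nat_lit 0) (nat_lit 0) (nat_lit 1) (nat_lit 0) (nat_lit 1) (nat_lit 0) (nat_lit 428) (nat_lit 331) (nat_lit 321)) (XT.nd (nat_lit 94) (nat_lit 0) (nat_lit 0) (XT.lf (nat_lit 0) (nat_lit 217504334984) (nat_lit 0) (nat_lit 0) (nat_lit 0) (nat_lit 0) (nat_lit 0) (nat_lit 0) (nat_lit 1) (nat_lit 0) (nat_lit 1) (nat_lit 0) (nat_lit 429) (nat_lit 331) (nat_lit 320)) (XT.lf (nat_lit 0) (nat_lit 234887847256) (nat_lit 0) (nat_lit 0) (nat_lit 0) (nat_lit 0) (nat_lit 0) (nat_lit 0) (nat_lit 1) (nat_lit 0) (nat_lit 1) (nat_lit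 0) (nat_lit 430) (nat_lit 331) (nat_lit 319)))) (XT.nd (nat_lit 188) (nat_lit 0) (nat_lit 0) (XT.nd (nat_lit 94) (nat_lit 0) (nat_lit 0) (XT.lf (nat_lit 0) (nat_lit 253662604596) (nat_lit 0) (nat_lit 0) (nat_lit 0) (nat_lit 0) (nat_lit 0) (nat_lit 0) (nat_lit 1) (nat_lit 0) (nat_lit 1) (nat_lit 0) (nat_lit 431) (nat_lit 331) (nat_lit 318)) (XT.lf (nat_lit 0) (nat_lit 273939864825) (nat_lit 0) (nat_lit 0) (nat_lit 0) (nat_lit 0) (nat_lit 0) (nat_lit 0) (nat_lit 1) (nat_lit 0) (nat_lit 1) (nat_lit 0) (nat_lit 432) (nat_lit 331) (nat_lit 317))) (XT.nd (nat_lit 94) (nat_lit 0) (nat_lit 0) (XT.lf (nat_lit 0) (nat_lit 295839789485) (nat_lit 0) (nat_lit 0) (nat_lit 0) (nat_lit 0) (nat_lit 0) (nat_lit 0) (nat_lit 1) (nat_lit 0) (nat_lit 1) (nat_lit 0) (nat_lit 433) (nat_lit 331) (nat_lit 316)) (XT.lf (nat_lit 0) (nat_lit 319492155908) (nat_lit 0) (nat_lit 0) (nat_lit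 0) (nat_lit 0) (nat_lit 0) (nat_lit 0) (nat_lit 1) (nat_lit 0) (nat_lit 1) (nat_lit 0) (nat_lit 434) (nat_lit 331) (nat_lit 315))))) (XT.nd (nat_lit 282) (nat_lit 0) (nat_lit 0) (XT.nd (nat_lit 94) (nat_lit 0) (nat_lit 0) (XT.lf (nat_lit 0) (nat_lit 345037126265) (nat_lit 0) (nat_lit 0) (nat_lit 0) (nat_lit 0) (nat_lit 0) (nat_lit 0) (nat_lit 1) (nat_lit 0) (nat_lit 1) (nat_lit 0) (nat_lit 435) (nat_lit 331) (nat_lit 314)) (XT.nd (nat_lit 94) (nat_lit 0) (nat_lit 0) (XT.lf (nat_lit 0) (nat_lit 372626078158) (nat_lit 0) (nat_lit 0) (nat_lit 0) (nat_lit 0) (nat_lit 0) (nat_lit 0) (nat_lit 1) (nat_lit 0) (nat_lit 1) (nat_lit 0) (nat_lit 436) (nat_lit 331) (nat_lit 313)) (XT.lf (nat_lit 0) (nat_lit 402422501672) (nat_lit 0) (nat_lit 0) (nat_lit 0) (nat_lit 0) (nat_lit 0) (nat_lit 0) (nat_lit 1) (nat_lit 0) (nat_lit 1) (nat_lit 0) (nat_lit 437) (nat_lit 331) (nat_lit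 312)))) (XT.nd (nat_lit 188) (nat_lit 0) (nat_lit 0) (XT.nd (nat_lit 94) (nat_lit 0) (nat_lit 0) (XT.lf (nat_lit 0) (nat_lit 434602968207) (nat_lit 0) (nat_lit 0) (nat_lit 0) (nat_lit 0) (nat_lit 0) (nat_lit 0) (nat_lit 1) (nat_lit 0) (nat_lit 1) (nat_lit 0) (nat_lit 438) (nat_lit 331) (nat_lit 311)) (XT.lf (nat_lit 0) (nat_lit 469358176822) (nat_lit 0) (nat_lit 0) (nat_lit 0) (nat_lit 0) (nat_lit 0) (nat_lit 0) (nat_lit 1) (nat_lit 0) (nat_lit 1) (nat_lit 0) (nat_lit 439) (nat_lit 331) (nat_lit 310))) (XT.nd (nat_lit 94) (nat_lit 0) (nat_lit 0) (XT.lf (nat_lit 0) (nat_lit 506894084310) (nat_lit 0) (nat_lit 0) (nat_lit 0) (nat_lit 0) (nat_lit 0) (nat_lit 0) (nat_lit 1) (nat_lit 0) (nat_lit 1) (nat_lit 0) (nat_lit 440) (nat_lit 331) (nat_lit 309)) (XT.lf (nat_lit 0) (nat_lit 547433125678) (nat_lit 0) (nat_lit 0) (nat_lit 0) (nat_lit 0) (nat_lit 0) (nat_lit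 0) (nat_lit 1) (nat_lit 0) (nat_lit 1) (nat_lit 0) (nat_lit 441) (nat_lit 331) (nat_lit 308))))))) (XT.nd (nat_lit 1316) (nat_lit 0) (nat_lit 0) (XT.nd (nat_lit 658) (nat_lit 0) (nat_lit 0) (XT.nd (nat_lit 282) (nat_lit 0) (nat_lit 0) (XT.nd (nat_lit 94) (nat_lit 0) (nat_lit 0) (XT.lf (nat_lit 0) (nat_lit 591215532283) (nat_lit 0) (nat_lit 0) (nat_lit 0) (nat_lit 0) (nat_lit 0) (nat_lit 0) (nat_lit 1) (nat_lit 0) (nat_lit 1) (nat_lit 0) (nat_lit 442) (nat_lit 331) (nat_lit 307)) (XT.nd (nat_lit 94) (nat_lit 0) (nat_lit 0) (XT.lf (nat_lit 0) (nat_lit 638500755422) (nat_lit 0) (nat_lit 0) (nat_lit 0) (nat_lit 0) (nat_lit 0) (nat_lit 0) (nat_lit 1) (nat_lit 0) (nat_lit 1) (nat_lit 0) (nat_lit 443) (nat_lit 331) (nat_lit 306)) (XT.lf (nat_lit 0) (nat_lit 689569003826) (nat_lit 0) (nat_lit 0) (nat_lit 0) (nat_lit 0) (nat_lit 0) (nat_lit 0) (nat_lit 1) (nat_lit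 0) (nat_lit 1) (nat_lit 0) (nat_lit 444) (nat_lit 331) (nat_lit 305)))) (XT.nd (nat_lit 188) (nat_lit 0) (nat_lit 0) (XT.nd (nat_lit 94) (nat_lit 0) (nat_lit 0) (XT.lf (nat_lit 0) (nat_lit 744722904151) (nat_lit 0) (nat_lit 0) (nat_lit 0) (nat_lit 0) (nat_lit 0) (nat_lit 0) (nat_lit 1) (nat_lit 0) (nat_lit 1) (nat_lit 0) (nat_lit 445) (nat_lit 331) (nat_lit 304)) (XT.lf (nat_lit 0) (nat_lit 804289294326) (nat_lit 0) (nat_lit 0) (nat_lit 0) (nat_lit 0) (nat_lit 0) (nat_lit 0) (nat_lit 1) (nat_lit 0) (nat_lit 1) (nat_lit 0) (nat_lit 446) (nat_lit 331) (nat_lit 303))) (XT.nd (nat_lit 94) (nat_lit 0) (nat_lit 0) (XT.lf (nat_lit 0) (nat_lit 868621160366) (nat_lit 0) (nat_lit 0) (nat_lit 0) (nat_lit 0) (nat_lit 0) (nat_lit 0) (nat_lit 1) (nat_lit 0) (nat_lit 1) (nat_lit 0) (nat_lit 447) (nat_lit 331) (nat_lit 302)) (XT.lf (nat_lit 0) (nat_lit 938099728145) (nat_lit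 0) (nat_lit 0) (nat_lit 0) (nat_lit 0) (nat_lit 0) (nat_lit 0) (nat_lit 1) (nat_lit 0) (nat_lit 1) (nat_lit 0) (nat_lit 448) (nat_lit 331) (nat_lit 301))))) (XT.nd (nat_lit 282) (nat_lit 0) (nat_lit 0) (XT.nd (nat_lit 94) (nat_lit 0) (nat_lit 0) (XT.lf (nat_lit 0) (nat_lit 1013136722508) (nat_lit 0) (nat_lit 0) (nat_lit 0) (nat_lit 0) (nat_lit 0) (nat_lit 0) (nat_lit 1) (nat_lit 0) (nat_lit 1) (nat_lit 0) (nat_lit 449) (nat_lit 331) (nat_lit 300)) (XT.nd (nat_lit 94) (nat_lit 0) (nat_lit 0) (XT.lf (nat_lit 0) (nat_lit 1094176807125) (nat_lit 0) (nat_lit 0) (nat_lit 0) (nat_lit 0) (nat_lit 0) (nat_lit 0) (nat_lit 1) (nat_lit 0) (nat_lit 1) (nat_lit 0) (nat_lit 450) (nat_lit 331) (nat_lit 299)) (XT.lf (nat_lit 0) (nat_lit 1181700219535) (nat_lit 0) (nat_lit 0) (nat_lit 0) (nat_lit 0) (nat_lit 0) (nat_lit 0) (nat_lit 1) (nat_lit 0) (nat_lit 1) (nat_lit 0) (nat_lit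 451) (nat_lit 331) (nat_lit 298)))) (XT.nd (nat_lit 188) (nat_lit 0) (nat_lit 0) (XT.nd (nat_lit 94) (nat_lit 0) (nat_lit 0) (XT.lf (nat_lit 0) (nat_lit 1276225616998) (nat_lit 0) (nat_lit 0) (nat_lit 0) (nat_lit 0) (nat_lit 0) (nat_lit 0) (nat_lit 1) (nat_lit 0) (nat_lit 1) (nat_lit 0) (nat_lit 452) (nat_lit 331) (nat_lit 297)) (XT.lf (nat_lit 0) (nat_lit 1378313150015) (nat_lit 0) (nat_lit 0) (nat_lit 0) (nat_lit 0) (nat_lit 0) (nat_lit 0) (nat_lit 1) (nat_lit 0) (nat_lit 1) (nat_lit 0) (nat_lit 453) (nat_lit 331) (nat_lit 296))) (XT.nd (nat_lit 94) (nat_lit 0) (nat_lit 0) (XT.lf (nat_lit 0) (nat_lit 1488567781746) (nat_lit 0) (nat_lit 0) (nat_lit 0) (nat_lit 0) (nat_lit 0) (nat_lit 0) (nat_lit 1) (nat_lit 0) (nat_lit 1) (nat_lit 0) (nat_lit 454) (nat_lit 331) (nat_lit 295)) (XT.lf (nat_lit 0) (nat_lit 1607642872972) (nat_lit 0) (nat_lit 0) (nat_lit 0) (nat_lit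 0) (nat_lit 0) (nat_lit 0) (nat_lit 1) (nat_lit 0) (nat_lit 1) (nat_lit 0) (nat_lit 455) (nat_lit 331) (nat_lit 294)))))) (XT.nd (nat_lit 658) (nat_lit 0) (nat_lit 0) (XT.nd (nat_lit 282) (nat_lit 0) (nat_lit 0) (XT.nd (nat_lit 94) (nat_lit 0) (nat_lit 0) (XT.lf (nat_lit 0) (nat_lit 1736244053863) (nat_lit 0) (nat_lit 0) (nat_lit 0) (nat_lit 0) (nat_lit 0) (nat_lit 0) (nat_lit 1) (nat_lit 0) (nat_lit 1) (nat_lit 0) (nat_lit 456) (nat_lit 331) (nat_lit 293)) (XT.nd (nat_lit 94) (nat_lit 0) (nat_lit 0) (XT.lf (nat_lit 0) (nat_lit 1875133405490) (nat_lit 0) (nat_lit 0) (nat_lit 0) (nat_lit 0) (nat_lit 0) (nat_lit 0) (nat_lit 1) (nat_lit 0) (nat_lit 1) (nat_lit 0) (nat_lit 457) (nat_lit 331) (nat_lit 292)) (XT.lf (nat_lit 0) (nat_lit 2025133975864) (nat_lit 0) (nat_lit 0) (nat_lit 0) (nat_lit 0) (nat_lit 0) (nat_lit 0) (nat_lit 1) (nat_lit 0) (nat_lit 1) (nat_lit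 0) (nat_lit 458) (nat_lit 331) (nat_lit 291)))) (XT.nd (nat_lit 188) (nat_lit 0) (nat_lit 0) (XT.nd (nat_lit 94) (nat_lit 0) (nat_lit 0) (XT.lf (nat_lit 0) (nat_lit 2187134657253) (nat_lit 0) (nat_lit 0) (nat_lit 0) (nat_lit 0) (nat_lit 0) (nat_lit 0) (nat_lit 1) (nat_lit 0) (nat_lit 1) (nat_lit 0) (nat_lit 459) (nat_lit 331) (nat_lit 290)) (XT.lf (nat_lit 0) (nat_lit 2362095453695) (nat_lit 0) (nat_lit 0) (nat_lit 0) (nat_lit 0) (nat_lit 0) (nat_lit 0) (nat_lit 1) (nat_lit 0) (nat_lit 1) (nat_lit 0) (nat_lit 460) (nat_lit 331) (nat_lit 289))) (XT.nd (nat_lit 94) (nat_lit 0) (nat_lit 0) (XT.lf (nat_lit 0) (nat_lit 2551053169910) (nat_lit 0) (nat_lit 0) (nat_lit 0) (nat_lit 0) (nat_lit 0) (nat_lit 0) (nat_lit 1) (nat_lit 0) (nat_lit 1) (nat_lit 0) (nat_lit 461) (nat_lit 331) (nat_lit 288)) (XT.lf (nat_lit 0) (nat_lit 2755127555326) (nat_lit 0) (nat_lit 0) (nat_lit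 0) (nat_lit 0) (nat_lit 0) (nat_lit 0) (nat_lit 1) (nat_lit 0) (nat_lit 1) (nat_lit 0) (nat_lit 462) (nat_lit 331) (nat_lit 287))))) (XT.nd (nat_lit 282) (nat_lit 0) (nat_lit 0) (XT.nd (nat_lit 94) (nat_lit 0) (nat_lit 0) (XT.lf (nat_lit 0) (nat_lit 2975527939637) (nat_lit 0) (nat_lit 0) (nat_lit 0) (nat_lit 0) (nat_lit 0) (nat_lit 0) (nat_lit 1) (nat_lit 0) (nat_lit 1) (nat_lit 0) (nat_lit 463) (nat_lit 331) (nat_lit 286)) (XT.nd (nat_lit 94) (nat_lit 0) (nat_lit 0) (XT.lf (nat_lit 0) (nat_lit 3213560399192) (nat_lit 0) (nat_lit 0) (nat_lit 0) (nat_lit 0) (nat_lit 0) (nat_lit 0) (nat_lit 1) (nat_lit 0) (nat_lit 1) (nat_lit 0) (nat_lit 464) (nat_lit 331) (nat_lit 285)) (XT.lf (nat_lit 0) (nat_lit 3470635496716) (nat_lit 0) (nat_lit 0) (nat_lit 0) (nat_lit 0) (nat_lit 0) (nat_lit 0) (nat_lit 1) (nat_lit 0) (nat_lit 1) (nat_lit 0) (nat_lit 465) (nat_lit 331)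 (nat_lit 284)))) (XT.nd (nat_lit 188) (nat_lit 0) (nat_lit 0) (XT.nd (nat_lit 94) (nat_lit 0) (nat_lit 0) (XT.lf (nat_lit 0) (nat_lit 3748276640193) (nat_lit 0) (nat_lit 0) (nat_lit 0) (nat_lit 0) (nat_lit 0) (nat_lit 0) (nat_lit 1) (nat_lit 0) (nat_lit 1) (nat_lit 0) (nat_lit 466) (nat_lit 331) (nat_lit 283)) (XT.lf (nat_lit 0) (nat_lit 4048129110474) (nat_lit 0) (nat_lit 0) (nat_lit 0) (nat_lit 0) (nat_lit 0) (nat_lit 0) (nat_lit 1) (nat_lit 0) (nat_lit 1) (nat_lit 0) (nat_lit 467) (nat_lit 331) (nat_lit 282))) (XT.nd (nat_lit 94) (nat_lit 0) (nat_lit 0) (XT.lf (nat_lit 0) (nat_lit 4371969811087) (nat_lit 0) (nat_lit 0) (nat_lit 0) (nat_lit 0) (nat_lit 0) (nat_lit 0) (nat_lit 1) (nat_lit 0) (nat_lit 1) (nat_lit 0) (nat_lit 468) (nat_lit 331) (nat_lit 281)) (XT.lf (nat_lit 0) (nat_lit 4721717798034) (nat_lit 0) (nat_lit 0) (nat_lit 0) (nat_lit 0) (nat_lit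 0) (nat_lit 0) (nat_lit 1) (nat_lit 0) (nat_lit 1) (nat_lit 0) (nat_lit 469) (nat_lit 331) (nat_lit 280))))))))
noncomputable def xc33 : XT := (XT.nd (nat_lit 2632) (nat_lit 0) (nat_lit 0) (XT.nd (nat_lit 1316) (nat_lit 0) (nat_lit 0) (XT.nd (nat_lit 658) (nat_lit 0) (nat_lit 0) (XT.nd (nat_lit 282) (nat_lit 0) (nat_lit 0) (XT.nd (nat_lit 94) (nat_lit 0) (nat_lit 0) (XT.lf (nat_lit 0) (nat_lit 5099445651980) (nat_lit 0) (nat_lit 0) (nat_lit 0) (nat_lit 0) (nat_lit 0) (nat_lit 0) (nat_lit 1) (nat_lit 0) (nat_lit 1) (nat_lit 0) (nat_lit 470) (nat_lit 331) (nat_lit 279)) (XT.nd (nat_lit 94) (nat_lit 0) (nat_lit 0) (XT.lf (nat_lit 0) (nat_lit 5507391760207) (nat_lit 0) (nat_lit 0) (nat_lit 0) (nat_lit 0) (nat_lit 0) (nat_lit 0) (nat_lit 1) (nat_lit 0) (nat_lit 1) (nat_lit 0) (nat_lit 471) (nat_lit 331) (nat_lit 278)) (XT.lf (nat_lit 0) (nat_lit 5947973581135)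 (nat_lit 0) (nat_lit 0) (nat_lit 0) (nat_lit 0) (nat_lit 0) (nat_lit 0) (nat_lit 1) (nat_lit 0) (nat_lit 1) (nat_lit 0) (nat_lit 472) (nat_lit 331) (nat_lit 277)))) (XT.nd (nat_lit 188) (nat_lit 0) (nat_lit 0) (XT.nd (nat_lit 94) (nat_lit 0) (nat_lit 0) (XT.lf (nat_lit 0) (nat_lit 6423801969997) (nat_lit 0) (nat_lit 0) (nat_lit 0) (nat_lit 0) (nat_lit 0) (nat_lit 0) (nat_lit 1) (nat_lit 0) (nat_lit 1) (nat_lit 0) (nat_lit 473) (nat_lit 331) (nat_lit 276)) (XT.lf (nat_lit 0) (nat_lit 6937696650581) (nat_lit 0) (nat_lit 0) (nat_lit 0) (nat_lit 0) (nat_lit 0) (nat_lit 0) (nat_lit 1) (nat_lit 0) (nat_lit 1) (nat_lit 0) (nat_lit 474) (nat_lit 331) (nat_lit 275))) (XT.nd (nat_lit 94) (nat_lit 0) (nat_lit 0) (XT.lf (nat_lit 0) (nat_lit 7492702924697) (nat_lit 0) (nat_lit 0) (nat_lit 0) (nat_lit 0) (nat_lit 0) (nat_lit 0) (nat_lit 1) (nat_lit 0) (nat_lit 1) (nat_lit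 0) (nat_lit 475) (nat_lit 331) (nat_lit 274)) (XT.lf (nat_lit 0) (nat_lit 8092109718414) (nat_lit 0) (nat_lit 0) (nat_lit 0) (nat_lit 0) (nat_lit 0) (nat_lit 0) (nat_lit 1) (nat_lit 0) (nat_lit 1) (nat_lit 0) (nat_lit 476) (nat_lit 331) (nat_lit 273))))) (XT.nd (nat_lit 282) (nat_lit 0) (nat_lit 0) (XT.nd (nat_lit 94) (nat_lit 0) (nat_lit 0) (XT.lf (nat_lit 0) (nat_lit 8739469071991) (nat_lit 0) (nat_lit 0) (nat_lit 0) (nat_lit 0) (nat_lit 0) (nat_lit 0) (nat_lit 1) (nat_lit 0) (nat_lit 1) (nat_lit 0) (nat_lit 477) (nat_lit 331) (nat_lit 272)) (XT.nd (nat_lit 94) (nat_lit 0) (nat_lit 0) (XT.lf (nat_lit 0) (nat_lit 9438617189004) (nat_lit 0) (nat_lit 0) (nat_lit 0) (nat_lit 0) (nat_lit 0) (nat_lit 0) (nat_lit 1) (nat_lit 0) (nat_lit 1) (nat_lit 0) (nat_lit 478) (nat_lit 331) (nat_lit 271)) (XT.lf (nat_lit 0) (nat_lit 10193697169407) (nat_lit 0) (nat_lit 0)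 (nat_lit 0) (nat_lit 0) (nat_lit 0) (nat_lit 0) (nat_lit 1) (nat_lit 0) (nat_lit 1) (nat_lit 0) (nat_lit 479) (nat_lit 331) (nat_lit 270)))) (XT.nd (nat_lit 188) (nat_lit 0) (nat_lit 0) (XT.nd (nat_lit 94) (nat_lit 0) (nat_lit 0) (XT.lf (nat_lit 0) (nat_lit 11009183561231) (nat_lit 0) (nat_lit 0) (nat_lit 0) (nat_lit 0) (nat_lit 0) (nat_lit 0) (nat_lit 1) (nat_lit 0) (nat_lit 1) (nat_lit 0) (nat_lit 480) (nat_lit 331) (nat_lit 269)) (XT.lf (nat_lit 0) (nat_lit 11889908876428) (nat_lit 0) (nat_lit 0) (nat_lit 0) (nat_lit 0) (nat_lit 0) (nat_lit 0) (nat_lit 1) (nat_lit 0) (nat_lit 1) (nat_lit 0) (nat_lit 481) (nat_lit 331) (nat_lit 268))) (XT.nd (nat_lit 94) (nat_lit 0) (nat_lit 0) (XT.lf (nat_lit 0) (nat_lit 12841092227977) (nat_lit 0) (nat_lit 0) (nat_lit 0) (nat_lit 0) (nat_lit 0) (nat_lit 0) (nat_lit 1) (nat_lit 0) (nat_lit 1) (nat_lit 0) (nat_lit 482) (nat_lit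 331) (nat_lit 267)) (XT.lf (nat_lit 0) (nat_lit 13868370257962) (nat_lit 0) (nat_lit 0) (nat_lit 0) (nat_lit 0) (nat_lit 0) (nat_lit 0) (nat_lit 1) (nat_lit 0) (nat_lit 1) (nat_lit 0) (nat_lit 483) (nat_lit 331) (nat_lit 266)))))) (XT.nd (nat_lit 658) (nat_lit 0) (nat_lit 0) (XT.nd (nat_lit 282) (nat_lit 0) (nat_lit 0) (XT.nd (nat_lit 94) (nat_lit 0) (nat_lit 0) (XT.lf (nat_lit 0) (nat_lit 14977830539892) (nat_lit 0) (nat_lit 0) (nat_lit 0) (nat_lit 0) (nat_lit 0) (nat_lit 0) (nat_lit 1) (nat_lit 0) (nat_lit 1) (nat_lit 0) (nat_lit 484) (nat_lit 331) (nat_lit 265)) (XT.nd (nat_lit 94) (nat_lit 0) (nat_lit 0) (XT.lf (nat_lit 0) (nat_lit 16176047653217) (nat_lit 0) (nat_lit 0) (nat_lit 0) (nat_lit 0) (nat_lit 0) (nat_lit 0) (nat_lit 1) (nat_lit 0) (nat_lit 1) (nat_lit 0) (nat_lit 485) (nat_lit 331) (nat_lit 264)) (XT.lf (nat_lit 0) (nat_lit 17470122143794) (nat_lit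 0) (nat_lit 0) (nat_lit 0) (nat_lit 0) (nat_lit 0) (nat_lit 0) (nat_lit 1) (nat_lit 0) (nat_lit 1) (nat_lit 0) (nat_lit 486) (nat_lit 331) (nat_lit 263)))) (XT.nd (nat_lit 188) (nat_lit 0) (nat_lit 0) (XT.nd (nat_lit 94) (nat_lit 0) (nat_lit 0) (XT.lf (nat_lit 0) (nat_lit 18867722601195) (nat_lit 0) (nat_lit 0) (nat_lit 0) (nat_lit 0) (nat_lit 0) (nat_lit 0) (nat_lit 1) (nat_lit 0) (nat_lit 1) (nat_lit 0) (nat_lit 487) (nat_lit 331) (nat_lit 262)) (XT.lf (nat_lit 0) (nat_lit 20377131102207) (nat_lit 0) (nat_lit 0) (nat_lit 0) (nat_lit 0) (nat_lit 0) (nat_lit 0) (nat_lit 1) (nat_lit 0) (nat_lit 1) (nat_lit 0) (nat_lit 488) (nat_lit 331) (nat_lit 261))) (XT.nd (nat_lit 94) (nat_lit 0) (nat_lit 0) (XT.lf (nat_lit 0) (nat_lit 22007292289797) (nat_lit 0) (nat_lit 0) (nat_lit 0) (nat_lit 0) (nat_lit 0) (nat_lit 0) (nat_lit 1) (nat_lit 0) (nat_lit 1) (nat_lit 0)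 (nat_lit 489) (nat_lit 331) (nat_lit 260)) (XT.lf (nat_lit 0) (nat_lit 23767866378411) (nat_lit 0) (nat_lit 0) (nat_lit 0) (nat_lit 0) (nat_lit 0) (nat_lit 0) (nat_lit 1) (nat_lit 0) (nat_lit 1) (nat_lit 0) (nat_lit 490) (nat_lit 331) (nat_lit 259))))) (XT.nd (nat_lit 282) (nat_lit 0) (nat_lit 0) (XT.nd (nat_lit 94) (nat_lit 0) (nat_lit 0) (XT.lf (nat_lit 0) (nat_lit 25669286399684) (nat_lit 0) (nat_lit 0) (nat_lit 0) (nat_lit 0) (nat_lit 0) (nat_lit 0) (nat_lit 1) (nat_lit 0) (nat_lit 1) (nat_lit 0) (nat_lit 491) (nat_lit 331) (nat_lit 258)) (XT.nd (nat_lit 94) (nat_lit 0) (nat_lit 0) (XT.lf (nat_lit 0) (nat_lit 27722820027818) (nat_lit 0) (nat_lit 0) (nat_lit 0) (nat_lit 0) (nat_lit 0) (nat_lit 0) (nat_lit 1) (nat_lit 0) (nat_lit 1) (nat_lit 0) (nat_lit 492) (nat_lit 331) (nat_lit 257)) (XT.lf (nat_lit 0) (nat_lit 29940636350979) (nat_lit 0) (nat_lit 0)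 (nat_lit 0) (nat_lit 0) (nat_lit 0) (nat_lit 0) (nat_lit 1) (nat_lit 0) (nat_lit 1) (nat_lit 0) (nat_lit 493) (nat_lit 331) (nat_lit 256)))) (XT.nd (nat_lit 188) (nat_lit 0) (nat_lit 0) (XT.nd (nat_lit 94) (nat_lit 0) (nat_lit 0) (XT.lf (nat_lit 0) (nat_lit 32335877984415) (nat_lit 0) (nat_lit 0) (nat_lit 0) (nat_lit 0) (nat_lit 0) (nat_lit 0) (nat_lit 1) (nat_lit 0) (nat_lit 1) (nat_lit 0) (nat_lit 494) (nat_lit 331) (nat_lit 255)) (XT.lf (nat_lit 0) (nat_lit 34922738952620) (nat_lit 0) (nat_lit 0) (nat_lit 0) (nat_lit 0) (nat_lit 0) (nat_lit 0) (nat_lit 1) (nat_lit 0) (nat_lit 1) (nat_lit 0) (nat_lit 495) (nat_lit 331) (nat_lit 254))) (XT.nd (nat_lit 94) (nat_lit 0) (nat_lit 0) (XT.lf (nat_lit 0) (nat_lit 37716548802074) (nat_lit 0) (nat_lit 0) (nat_lit 0) (nat_lit 0) (nat_lit 0) (nat_lit 0) (nat_lit 1) (nat_lit 0) (nat_lit 1) (nat_lit 0) (nat_lit 496) (nat_lit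 331) (nat_lit 253)) (XT.lf (nat_lit 0) (nat_lit 40733863442994) (nat_lit 0) (nat_lit 0) (nat_lit 0) (nat_lit 0) (nat_lit 0) (nat_lit 0) (nat_lit 1) (nat_lit 0) (nat_lit 1) (nat_lit 0) (nat_lit 497) (nat_lit 331) (nat_lit 252))))))) (XT.nd (nat_lit 61194) (nat_lit 0) (nat_lit 0) (XT.nd (nat_lit 60536) (nat_lit 0) (nat_lit 0) (XT.nd (nat_lit 60160) (nat_lit 0) (nat_lit 0) (XT.nd (nat_lit 94) (nat_lit 0) (nat_lit 0) (XT.lf (nat_lit 0) (nat_lit 43992563258438) (nat_lit 0) (nat_lit 0) (nat_lit 0) (nat_lit 0) (nat_lit 0) (nat_lit 0) (nat_lit 1) (nat_lit 0) (nat_lit 1) (nat_lit 0) (nat_lit 498) (nat_lit 331) (nat_lit 251)) (XT.nd (nat_lit 59972) (nat_lit 0) (nat_lit 0) (XT.lf (nat_lit 0) (nat_lit 47511959062127) (nat_lit 0) (nat_lit 0) (nat_lit 0) (nat_lit 0) (nat_lit 0) (nat_lit 0) (nat_lit 1) (nat_lit 0) (nat_lit 1) (nat_lit 0) (nat_lit 499) (nat_lit 331) (nat_lit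 250)) (XT.lf (nat_lit 0) (nat_lit 40082133772) (nat_lit 0) (nat_lit 0) (nat_lit 0) (nat_lit 0) (nat_lit 0) (nat_lit 0) (nat_lit 1) (nat_lit 0) (nat_lit 1) (nat_lit 0) (nat_lit 416) (nat_lit 332) (nat_lit 332)))) (XT.nd (nat_lit 188) (nat_lit 0) (nat_lit 0) (XT.nd (nat_lit 94) (nat_lit 0) (nat_lit 0) (XT.lf (nat_lit 0) (nat_lit 86548275759) (nat_lit 0) (nat_lit 0) (nat_lit 0) (nat_lit 0) (nat_lit 0) (nat_lit 0) (nat_lit 1) (nat_lit 0) (nat_lit 1) (nat_lit 0) (nat_lit 417) (nat_lit 332) (nat_lit 331)) (XT.lf (nat_lit 0) (nat_lit 93444425096) (nat_lit 0) (nat_lit 0) (nat_lit 0) (nat_lit 0) (nat_lit 0) (nat_lit 0) (nat_lit 1) (nat_lit 0) (nat_lit 1) (nat_lit 0) (nat_lit 418) (nat_lit 332) (nat_lit 330))) (XT.nd (nat_lit 94) (nat_lit 0) (nat_lit 0) (XT.lf (nat_lit 0) (nat_lit 100893581624) (nat_lit 0) (nat_lit 0) (nat_lit 0) (nat_lit 0) (nat_lit 0) (nat_lit 0)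 (nat_lit 1) (nat_lit 0) (nat_lit 1) (nat_lit 0) (nat_lit 419) (nat_lit 332) (nat_lit 329)) (XT.lf (nat_lit 0) (nat_lit 108939888495) (nat_lit 0) (nat_lit 0) (nat_lit 0) (nat_lit 0) (nat_lit 0) (nat_lit 0) (nat_lit 1) (nat_lit 0) (nat_lit 1) (nat_lit 0) (nat_lit 420) (nat_lit 332) (nat_lit 328))))) (XT.nd (nat_lit 282) (nat_lit 0) (nat_lit 0) (XT.nd (nat_lit 94) (nat_lit 0) (nat_lit 0) (XT.lf (nat_lit 0) (nat_lit 117631027526) (nat_lit 0) (nat_lit 0) (nat_lit 0) (nat_lit 0) (nat_lit 0) (nat_lit 0) (nat_lit 1) (nat_lit 0) (nat_lit 1) (nat_lit 0) (nat_lit 421) (nat_lit 332) (nat_lit 327)) (XT.nd (nat_lit 94) (nat_lit 0) (nat_lit 0) (XT.lf (nat_lit 0) (nat_lit 127018501764) (nat_lit 0) (nat_lit 0) (nat_lit 0) (nat_lit 0) (nat_lit 0) (nat_lit 0) (nat_lit 1) (nat_lit 0) (nat_lit 1) (nat_lit 0) (nat_lit 422) (nat_lit 332) (nat_lit 326)) (XT.lf (nat_lit 0) (nat_lit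 137157940685) (nat_lit 0) (nat_lit 0) (nat_lit 0) (nat_lit 0) (nat_lit 0) (nat_lit 0) (nat_lit 1) (nat_lit 0) (nat_lit 1) (nat_lit 0) (nat_lit 423) (nat_lit 332) (nat_lit 325)))) (XT.nd (nat_lit 188) (nat_lit 0) (nat_lit 0) (XT.nd (nat_lit 94) (nat_lit 0) (nat_lit 0) (XT.lf (nat_lit 0) (nat_lit 148109429854) (nat_lit 0) (nat_lit 0) (nat_lit 0) (nat_lit 0) (nat_lit 0) (nat_lit 0) (nat_lit 1) (nat_lit 0) (nat_lit 1) (nat_lit 0) (nat_lit 424) (nat_lit 332) (nat_lit 324)) (XT.lf (nat_lit 0) (nat_lit 159937866984) (nat_lit 0) (nat_lit 0) (nat_lit 0) (nat_lit 0) (nat_lit 0) (nat_lit 0) (nat_lit 1) (nat_lit 0) (nat_lit 1) (nat_lit 0) (nat_lit 425) (nat_lit 332) (nat_lit 323))) (XT.nd (nat_lit 94) (nat_lit 0) (nat_lit 0) (XT.lf (nat_lit 0) (nat_lit 172713346518) (nat_lit 0) (nat_lit 0) (nat_lit 0) (nat_lit 0) (nat_lit 0) (nat_lit 0) (nat_lit 1) (nat_lit 0) (nat_lit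 1) (nat_lit 0) (nat_lit 426) (nat_lit 332) (nat_lit 322)) (XT.lf (nat_lit 0) (nat_lit 186511575000) (nat_lit 0) (nat_lit 0) (nat_lit 0) (nat_lit 0) (nat_lit 0) (nat_lit 0) (nat_lit 1) (nat_lit 0) (nat_lit 1) (nat_lit 0) (nat_lit 427) (nat_lit 332) (nat_lit 321)))))) (XT.nd (nat_lit 658) (nat_lit 0) (nat_lit 0) (XT.nd (nat_lit 282) (nat_lit 0) (nat_lit 0) (XT.nd (nat_lit 94) (nat_lit 0) (nat_lit 0) (XT.lf (nat_lit 0) (nat_lit 201414319711) (nat_lit 0) (nat_lit 0) (nat_lit 0) (nat_lit 0) (nat_lit 0) (nat_lit 0) (nat_lit 1) (nat_lit 0) (nat_lit 1) (nat_lit 0) (nat_lit 428) (nat_lit 332) (nat_lit 320)) (XT.nd (nat_lit 94) (nat_lit 0) (nat_lit 0) (XT.lf (nat_lit 0) (nat_lit 217509893212) (nat_lit 0) (nat_lit 0) (nat_lit 0) (nat_lit 0) (nat_lit 0) (nat_lit 0) (nat_lit 1) (nat_lit 0) (nat_lit 1) (nat_lit 0) (nat_lit 429) (nat_lit 332) (nat_lit 319)) (XT.lf (nat_lit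 0) (nat_lit 234893676679) (nat_lit 0) (nat_lit 0) (nat_lit 0) (nat_lit 0) (nat_lit 0) (nat_lit 0) (nat_lit 1) (nat_lit 0) (nat_lit 1) (nat_lit 0) (nat_lit 430) (nat_lit 332) (nat_lit 318)))) (XT.nd (nat_lit 188) (nat_lit 0) (nat_lit 0) (XT.nd (nat_lit 94) (nat_lit 0) (nat_lit 0) (XT.lf (nat_lit 0) (nat_lit 253668685126) (nat_lit 0) (nat_lit 0) (nat_lit 0) (nat_lit 0) (nat_lit 0) (nat_lit 0) (nat_lit 1) (nat_lit 0) (nat_lit 1) (nat_lit 0) (nat_lit 431) (nat_lit 332) (nat_lit 317)) (XT.lf (nat_lit 0) (nat_lit 273946177861) (nat_lit 0) (nat_lit 0) (nat_lit 0) (nat_lit 0) (nat_lit 0) (nat_lit 0) (nat_lit 1) (nat_lit 0) (nat_lit 1) (nat_lit 0) (nat_lit 432) (nat_lit 332) (nat_lit 316))) (XT.nd (nat_lit 94) (nat_lit 0) (nat_lit 0) (XT.lf (nat_lit 0) (nat_lit 295846317805) (nat_lit 0) (nat_lit 0) (nat_lit 0) (nat_lit 0) (nat_lit 0) (nat_lit 0) (nat_lit 1) (nat_lit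 0) (nat_lit 1) (nat_lit 0) (nat_lit 433) (nat_lit 332) (nat_lit 315)) (XT.lf (nat_lit 0) (nat_lit 319498883564) (nat_lit 0) (nat_lit 0) (nat_lit 0) (nat_lit 0) (nat_lit 0) (nat_lit 0) (nat_lit 1) (nat_lit 0) (nat_lit 1) (nat_lit 0) (nat_lit 434) (nat_lit 332) (nat_lit 314))))) (XT.nd (nat_lit 376) (nat_lit 0) (nat_lit 0) (XT.nd (nat_lit 188) (nat_lit 0) (nat_lit 0) (XT.nd (nat_lit 94) (nat_lit 0) (nat_lit 0) (XT.lf (nat_lit 0) (nat_lit 345044038492) (nat_lit 0) (nat_lit 0) (nat_lit 0) (nat_lit 0) (nat_lit 0) (nat_lit 0) (nat_lit 1) (nat_lit 0) (nat_lit 1) (nat_lit 0) (nat_lit 435) (nat_lit 332) (nat_lit 313)) (XT.lf (nat_lit 0) (nat_lit 372633161284) (nat_lit 0) (nat_lit 0) (nat_lit 0) (nat_lit 0) (nat_lit 0) (nat_lit 0) (nat_lit 1) (nat_lit 0) (nat_lit 1) (nat_lit 0) (nat_lit 436) (nat_lit 332) (nat_lit 312))) (XT.nd (nat_lit 94) (nat_lit 0) (nat_lit 0) (XT.lf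 (nat_lit 0) (nat_lit 402429743038) (nat_lit 0) (nat_lit 0) (nat_lit 0) (nat_lit 0) (nat_lit 0) (nat_lit 0) (nat_lit 1) (nat_lit 0) (nat_lit 1) (nat_lit 0) (nat_lit 437) (nat_lit 332) (nat_lit 311)) (XT.lf (nat_lit 0) (nat_lit 434610356091) (nat_lit 0) (nat_lit 0) (nat_lit 0) (nat_lit 0) (nat_lit 0) (nat_lit 0) (nat_lit 1) (nat_lit 0) (nat_lit 1) (nat_lit 0) (nat_lit 438) (nat_lit 332) (nat_lit 310)))) (XT.nd (nat_lit 188) (nat_lit 0) (nat_lit 0) (XT.nd (nat_lit 94) (nat_lit 0) (nat_lit 0) (XT.lf (nat_lit 0) (nat_lit 469365700371) (nat_lit 0) (nat_lit 0) (nat_lit 0) (nat_lit 0) (nat_lit 0) (nat_lit 0) (nat_lit 1) (nat_lit 0) (nat_lit 1) (nat_lit 0) (nat_lit 439) (nat_lit 332) (nat_lit 309)) (XT.lf (nat_lit 0) (nat_lit 506901733475) (nat_lit 0) (nat_lit 0) (nat_lit 0) (nat_lit 0) (nat_lit 0) (nat_lit 0) (nat_lit 1) (nat_lit 0) (nat_lit 1) (nat_lit 0) (nat_lit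 440) (nat_lit 332) (nat_lit 308))) (XT.nd (nat_lit 94) (nat_lit 0) (nat_lit 0) (XT.lf (nat_lit 0) (nat_lit 547440891155) (nat_lit 0) (nat_lit 0) (nat_lit 0) (nat_lit 0) (nat_lit 0) (nat_lit 0) (nat_lit 1) (nat_lit 0) (nat_lit 1) (nat_lit 0) (nat_lit 441) (nat_lit 332) (nat_lit 307)) (XT.lf (nat_lit 0) (nat_lit 591223405454) (nat_lit 0) (nat_lit 0) (nat_lit 0) (nat_lit 0) (nat_lit 0) (nat_lit 0) (nat_lit 1) (nat_lit 0) (nat_lit 1) (nat_lit 0) (nat_lit 442) (nat_lit 332) (nat_lit 306))))))))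
noncomputable def xc34 : XT := (XT.nd (nat_lit 2632) (nat_lit 0) (nat_lit 0) (XT.nd (nat_lit 1316) (nat_lit 0) (nat_lit 0) (XT.nd (nat_lit 658) (nat_lit 0) (nat_lit 0) (XT.nd (nat_lit 282) (nat_lit 0) (nat_lit 0) (XT.nd (nat_lit 94) (nat_lit 0) (nat_lit 0) (XT.lf (nat_lit 0) (nat_lit 638508728312) (nat_lit 0) (nat_lit 0) (nat_lit 0) (nat_lit 0) (nat_lit 0) (nat_lit 0) (nat_lit 1) (nat_lit 0) (nat_lit 1) (nat_lit 0) (nat_lit 443) (nat_lit 332) (nat_lit 305)) (XT.nd (nat_lit 94) (nat_lit 0) (nat_lit 0) (XT.lf (nat_lit 0) (nat_lit 689577069047) (nat_lit 0) (nat_lit 0) (nat_lit 0) (nat_lit 0) (nat_lit 0) (nat_lit 0) (nat_lit 1) (nat_lit 0) (nat_lit 1) (nat_lit 0) (nat_lit 444) (nat_lit 332) (nat_lit 304)) (XT.lf (nat_lit 0) (nat_lit 744731054864) (nat_lit 0) (nat_lit 0) (nat_lit 0) (nat_lit 0) (nat_lit 0) (nat_lit 0) (nat_lit 1) (nat_lit 0) (nat_lit 1) (nat_lit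 0) (nat_lit 445) (nat_lit 332) (nat_lit 303)))) (XT.nd (nat_lit 188) (nat_lit 0) (nat_lit 0) (XT.nd (nat_lit 94) (nat_lit 0) (nat_lit 0) (XT.lf (nat_lit 0) (nat_lit 804297524198) (nat_lit 0) (nat_lit 0) (nat_lit 0) (nat_lit 0) (nat_lit 0) (nat_lit 0) (nat_lit 1) (nat_lit 0) (nat_lit 1) (nat_lit 0) (nat_lit 446) (nat_lit 332) (nat_lit 302)) (XT.lf (nat_lit 0) (nat_lit 868629463534) (nat_lit 0) (nat_lit 0) (nat_lit 0) (nat_lit 0) (nat_lit 0) (nat_lit 0) (nat_lit 1) (nat_lit 0) (nat_lit 1) (nat_lit 0) (nat_lit 447) (nat_lit 332) (nat_lit 301))) (XT.nd (nat_lit 94) (nat_lit 0) (nat_lit 0) (XT.lf (nat_lit 0) (nat_lit 938108099179) (nat_lit 0) (nat_lit 0) (nat_lit 0) (nat_lit 0) (nat_lit 0) (nat_lit 0) (nat_lit 1) (nat_lit 0) (nat_lit 1) (nat_lit 0) (nat_lit 448) (nat_lit 332) (nat_lit 300)) (XT.lf (nat_lit 0) (nat_lit 1013145156381) (nat_lit 0) (nat_lit 0) (nat_lit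 0) (nat_lit 0) (nat_lit 0) (nat_lit 0) (nat_lit 1) (nat_lit 0) (nat_lit 1) (nat_lit 0) (nat_lit 449) (nat_lit 332) (nat_lit 299))))) (XT.nd (nat_lit 282) (nat_lit 0) (nat_lit 0) (XT.nd (nat_lit 94) (nat_lit 0) (nat_lit 0) (XT.lf (nat_lit 0) (nat_lit 1094185299183) (nat_lit 0) (nat_lit 0) (nat_lit 0) (nat_lit 0) (nat_lit 0) (nat_lit 0) (nat_lit 1) (nat_lit 0) (nat_lit 1) (nat_lit 0) (nat_lit 450) (nat_lit 332) (nat_lit 298)) (XT.nd (nat_lit 94) (nat_lit 0) (nat_lit 0) (XT.lf (nat_lit 0) (nat_lit 1181708765468) (nat_lit 0) (nat_lit 0) (nat_lit 0) (nat_lit 0) (nat_lit 0) (nat_lit 0) (nat_lit 1) (nat_lit 0) (nat_lit 1) (nat_lit 0) (nat_lit 451) (nat_lit 332) (nat_lit 297)) (XT.lf (nat_lit 0) (nat_lit 1276234212814) (nat_lit 0) (nat_lit 0) (nat_lit 0) (nat_lit 0) (nat_lit 0) (nat_lit 0) (nat_lit 1) (nat_lit 0) (nat_lit 1) (nat_lit 0) (nat_lit 452) (nat_lit 332)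 (nat_lit 296)))) (XT.nd (nat_lit 188) (nat_lit 0) (nat_lit 0) (XT.nd (nat_lit 94) (nat_lit 0) (nat_lit 0) (XT.lf (nat_lit 0) (nat_lit 1378321792020) (nat_lit 0) (nat_lit 0) (nat_lit 0) (nat_lit 0) (nat_lit 0) (nat_lit 0) (nat_lit 1) (nat_lit 0) (nat_lit 1) (nat_lit 0) (nat_lit 453) (nat_lit 332) (nat_lit 295)) (XT.lf (nat_lit 0) (nat_lit 1488576466519) (nat_lit 0) (nat_lit 0) (nat_lit 0) (nat_lit 0) (nat_lit 0) (nat_lit 0) (nat_lit 1) (nat_lit 0) (nat_lit 1) (nat_lit 0) (nat_lit 454) (nat_lit 332) (nat_lit 294))) (XT.nd (nat_lit 94) (nat_lit 0) (nat_lit 0) (XT.lf (nat_lit 0) (nat_lit 1607651597344) (nat_lit 0) (nat_lit 0) (nat_lit 0) (nat_lit 0) (nat_lit 0) (nat_lit 0) (nat_lit 1) (nat_lit 0) (nat_lit 1) (nat_lit 0) (nat_lit 455) (nat_lit 332) (nat_lit 293)) (XT.lf (nat_lit 0) (nat_lit 1736252814901) (nat_lit 0) (nat_lit 0) (nat_lit 0) (nat_lit 0) (nat_lit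 0) (nat_lit 0) (nat_lit 1) (nat_lit 0) (nat_lit 1) (nat_lit 0) (nat_lit 456) (nat_lit 332) (nat_lit 292)))))) (XT.nd (nat_lit 658) (nat_lit 0) (nat_lit 0) (XT.nd (nat_lit 282) (nat_lit 0) (nat_lit 0) (XT.nd (nat_lit 94) (nat_lit 0) (nat_lit 0) (XT.lf (nat_lit 0) (nat_lit 1875142200478) (nat_lit 0) (nat_lit 0) (nat_lit 0) (nat_lit 0) (nat_lit 0) (nat_lit 0) (nat_lit 1) (nat_lit 0) (nat_lit 1) (nat_lit 0) (nat_lit 457) (nat_lit 332) (nat_lit 291)) (XT.nd (nat_lit 94) (nat_lit 0) (nat_lit 0) (XT.lf (nat_lit 0) (nat_lit 2025142802287) (nat_lit 0) (nat_lit 0) (nat_lit 0) (nat_lit 0) (nat_lit 0) (nat_lit 0) (nat_lit 1) (nat_lit 0) (nat_lit 1) (nat_lit 0) (nat_lit 458) (nat_lit 332) (nat_lit 290)) (XT.lf (nat_lit 0) (nat_lit 2187143512783) (nat_lit 0) (nat_lit 0) (nat_lit 0) (nat_lit 0) (nat_lit 0) (nat_lit 0) (nat_lit 1) (nat_lit 0) (nat_lit 1) (nat_lit 0) (nat_lit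 459) (nat_lit 332) (nat_lit 289)))) (XT.nd (nat_lit 188) (nat_lit 0) (nat_lit 0) (XT.nd (nat_lit 94) (nat_lit 0) (nat_lit 0) (XT.lf (nat_lit 0) (nat_lit 2362104336175) (nat_lit 0) (nat_lit 0) (nat_lit 0) (nat_lit 0) (nat_lit 0) (nat_lit 0) (nat_lit 1) (nat_lit 0) (nat_lit 1) (nat_lit 0) (nat_lit 460) (nat_lit 332) (nat_lit 288)) (XT.lf (nat_lit 0) (nat_lit 2551062077344) (nat_lit 0) (nat_lit 0) (nat_lit 0) (nat_lit 0) (nat_lit 0) (nat_lit 0) (nat_lit 1) (nat_lit 0) (nat_lit 1) (nat_lit 0) (nat_lit 461) (nat_lit 332) (nat_lit 287))) (XT.nd (nat_lit 94) (nat_lit 0) (nat_lit 0) (XT.lf (nat_lit 0) (nat_lit 2755136485867) (nat_lit 0) (nat_lit 0) (nat_lit 0) (nat_lit 0) (nat_lit 0) (nat_lit 0) (nat_lit 1) (nat_lit 0) (nat_lit 1) (nat_lit 0) (nat_lit 462) (nat_lit 332) (nat_lit 286)) (XT.lf (nat_lit 0) (nat_lit 2975536891572) (nat_lit 0) (nat_lit 0) (nat_lit 0) (nat_lit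 0) (nat_lit 0) (nat_lit 0) (nat_lit 1) (nat_lit 0) (nat_lit 1) (nat_lit 0) (nat_lit 463) (nat_lit 332) (nat_lit 285))))) (XT.nd (nat_lit 282) (nat_lit 0) (nat_lit 0) (XT.nd (nat_lit 94) (nat_lit 0) (nat_lit 0) (XT.lf (nat_lit 0) (nat_lit 3213569370937) (nat_lit 0) (nat_lit 0) (nat_lit 0) (nat_lit 0) (nat_lit 0) (nat_lit 0) (nat_lit 1) (nat_lit 0) (nat_lit 1) (nat_lit 0) (nat_lit 464) (nat_lit 332) (nat_lit 284)) (XT.nd (nat_lit 94) (nat_lit 0) (nat_lit 0) (XT.lf (nat_lit 0) (nat_lit 3470644486802) (nat_lit 0) (nat_lit 0) (nat_lit 0) (nat_lit 0) (nat_lit 0) (nat_lit 0) (nat_lit 1) (nat_lit 0) (nat_lit 1) (nat_lit 0) (nat_lit 465) (nat_lit 332) (nat_lit 283)) (XT.lf (nat_lit 0) (nat_lit 3748285647263) (nat_lit 0) (nat_lit 0) (nat_lit 0) (nat_lit 0) (nat_lit 0) (nat_lit 0) (nat_lit 1) (nat_lit 0) (nat_lit 1) (nat_lit 0) (nat_lit 466) (nat_lit 332) (nat_lit 282))))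 (XT.nd (nat_lit 188) (nat_lit 0) (nat_lit 0) (XT.nd (nat_lit 94) (nat_lit 0) (nat_lit 0) (XT.lf (nat_lit 0) (nat_lit 4048138133270) (nat_lit 0) (nat_lit 0) (nat_lit 0) (nat_lit 0) (nat_lit 0) (nat_lit 0) (nat_lit 1) (nat_lit 0) (nat_lit 1) (nat_lit 0) (nat_lit 467) (nat_lit 332) (nat_lit 281)) (XT.lf (nat_lit 0) (nat_lit 4371978848443) (nat_lit 0) (nat_lit 0) (nat_lit 0) (nat_lit 0) (nat_lit 0) (nat_lit 0) (nat_lit 1) (nat_lit 0) (nat_lit 1) (nat_lit 0) (nat_lit 468) (nat_lit 332) (nat_lit 280))) (XT.nd (nat_lit 94) (nat_lit 0) (nat_lit 0) (XT.lf (nat_lit 0) (nat_lit 4721726848872) (nat_lit 0) (nat_lit 0) (nat_lit 0) (nat_lit 0) (nat_lit 0) (nat_lit 0) (nat_lit 1) (nat_lit 0) (nat_lit 1) (nat_lit 0) (nat_lit 469) (nat_lit 332) (nat_lit 279)) (XT.lf (nat_lit 0) (nat_lit 5099454715302) (nat_lit 0) (nat_lit 0) (nat_lit 0) (nat_lit 0) (nat_lit 0) (nat_lit 0) (nat_lit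 1) (nat_lit 0) (nat_lit 1) (nat_lit 0) (nat_lit 470) (nat_lit 332) (nat_lit 278))))))) (XT.nd (nat_lit 1316) (nat_lit 0) (nat_lit 0) (XT.nd (nat_lit 658) (nat_lit 0) (nat_lit 0) (XT.nd (nat_lit 282) (nat_lit 0) (nat_lit 0) (XT.nd (nat_lit 94) (nat_lit 0) (nat_lit 0) (XT.lf (nat_lit 0) (nat_lit 5507400835087) (nat_lit 0) (nat_lit 0) (nat_lit 0) (nat_lit 0) (nat_lit 0) (nat_lit 0) (nat_lit 1) (nat_lit 0) (nat_lit 1) (nat_lit 0) (nat_lit 471) (nat_lit 332) (nat_lit 277)) (XT.nd (nat_lit 94) (nat_lit 0) (nat_lit 0) (XT.lf (nat_lit 0) (nat_lit 5947982666717) (nat_lit 0) (nat_lit 0) (nat_lit 0) (nat_lit 0) (nat_lit 0) (nat_lit 0) (nat_lit 1) (nat_lit 0) (nat_lit 1) (nat_lit 0) (nat_lit 472) (nat_lit 332) (nat_lit 276)) (XT.lf (nat_lit 0) (nat_lit 6423811065490) (nat_lit 0) (nat_lit 0) (nat_lit 0) (nat_lit 0) (nat_lit 0) (nat_lit 0) (nat_lit 1) (nat_lit 0) (nat_lit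 1) (nat_lit 0) (nat_lit 473) (nat_lit 332) (nat_lit 275)))) (XT.nd (nat_lit 188) (nat_lit 0) (nat_lit 0) (XT.nd (nat_lit 94) (nat_lit 0) (nat_lit 0) (XT.lf (nat_lit 0) (nat_lit 6937705755249) (nat_lit 0) (nat_lit 0) (nat_lit 0) (nat_lit 0) (nat_lit 0) (nat_lit 0) (nat_lit 1) (nat_lit 0) (nat_lit 1) (nat_lit 0) (nat_lit 474) (nat_lit 332) (nat_lit 274)) (XT.lf (nat_lit 0) (nat_lit 7492712037861) (nat_lit 0) (nat_lit 0) (nat_lit 0) (nat_lit 0) (nat_lit 0) (nat_lit 0) (nat_lit 1) (nat_lit 0) (nat_lit 1) (nat_lit 0) (nat_lit 475) (nat_lit 332) (nat_lit 273))) (XT.nd (nat_lit 94) (nat_lit 0) (nat_lit 0) (XT.lf (nat_lit 0) (nat_lit 8092118839444) (nat_lit 0) (nat_lit 0) (nat_lit 0) (nat_lit 0) (nat_lit 0) (nat_lit 0) (nat_lit 1) (nat_lit 0) (nat_lit 1) (nat_lit 0) (nat_lit 476) (nat_lit 332) (nat_lit 272)) (XT.lf (nat_lit 0) (nat_lit 8739478200305) (nat_lit 0) (nat_lit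 0) (nat_lit 0) (nat_lit 0) (nat_lit 0) (nat_lit 0) (nat_lit 1) (nat_lit 0) (nat_lit 1) (nat_lit 0) (nat_lit 477) (nat_lit 332) (nat_lit 271))))) (XT.nd (nat_lit 282) (nat_lit 0) (nat_lit 0) (XT.nd (nat_lit 94) (nat_lit 0) (nat_lit 0) (XT.lf (nat_lit 0) (nat_lit 9438626324063) (nat_lit 0) (nat_lit 0) (nat_lit 0) (nat_lit 0) (nat_lit 0) (nat_lit 0) (nat_lit 1) (nat_lit 0) (nat_lit 1) (nat_lit 0) (nat_lit 478) (nat_lit 332) (nat_lit 270)) (XT.nd (nat_lit 94) (nat_lit 0) (nat_lit 0) (XT.lf (nat_lit 0) (nat_lit 10193706310711) (nat_lit 0) (nat_lit 0) (nat_lit 0) (nat_lit 0) (nat_lit 0) (nat_lit 0) (nat_lit 1) (nat_lit 0) (nat_lit 1) (nat_lit 0) (nat_lit 479) (nat_lit 332) (nat_lit 269)) (XT.lf (nat_lit 0) (nat_lit 11009192708317) (nat_lit 0) (nat_lit 0) (nat_lit 0) (nat_lit 0) (nat_lit 0) (nat_lit 0) (nat_lit 1) (nat_lit 0) (nat_lit 1) (nat_lit 0) (nat_lit 480)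 (nat_lit 332) (nat_lit 268)))) (XT.nd (nat_lit 188) (nat_lit 0) (nat_lit 0) (XT.nd (nat_lit 94) (nat_lit 0) (nat_lit 0) (XT.lf (nat_lit 0) (nat_lit 11889918028868) (nat_lit 0) (nat_lit 0) (nat_lit 0) (nat_lit 0) (nat_lit 0) (nat_lit 0) (nat_lit 1) (nat_lit 0) (nat_lit 1) (nat_lit 0) (nat_lit 481) (nat_lit 332) (nat_lit 267)) (XT.lf (nat_lit 0) (nat_lit 12841101385375) (nat_lit 0) (nat_lit 0) (nat_lit 0) (nat_lit 0) (nat_lit 0) (nat_lit 0) (nat_lit 1) (nat_lit 0) (nat_lit 1) (nat_lit 0) (nat_lit 482) (nat_lit 332) (nat_lit 266))) (XT.nd (nat_lit 94) (nat_lit 0) (nat_lit 0) (XT.lf (nat_lit 0) (nat_lit 13868379419949) (nat_lit 0) (nat_lit 0) (nat_lit 0) (nat_lit 0) (nat_lit 0) (nat_lit 0) (nat_lit 1) (nat_lit 0) (nat_lit 1) (nat_lit 0) (nat_lit 483) (nat_lit 332) (nat_lit 265)) (XT.lf (nat_lit 0) (nat_lit 14977839706130) (nat_lit 0) (nat_lit 0) (nat_lit 0) (nat_lit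 0) (nat_lit 0) (nat_lit 0) (nat_lit 1) (nat_lit 0) (nat_lit 1) (nat_lit 0) (nat_lit 484) (nat_lit 332) (nat_lit 264)))))) (XT.nd (nat_lit 658) (nat_lit 0) (nat_lit 0) (XT.nd (nat_lit 282) (nat_lit 0) (nat_lit 0) (XT.nd (nat_lit 94) (nat_lit 0) (nat_lit 0) (XT.lf (nat_lit 0) (nat_lit 16176056823390) (nat_lit 0) (nat_lit 0) (nat_lit 0) (nat_lit 0) (nat_lit 0) (nat_lit 0) (nat_lit 1) (nat_lit 0) (nat_lit 1) (nat_lit 0) (nat_lit 485) (nat_lit 332) (nat_lit 263)) (XT.nd (nat_lit 94) (nat_lit 0) (nat_lit 0) (XT.lf (nat_lit 0) (nat_lit 17470131317610) (nat_lit 0) (nat_lit 0) (nat_lit 0) (nat_lit 0) (nat_lit 0) (nat_lit 0) (nat_lit 1) (nat_lit 0) (nat_lit 1) (nat_lit 0) (nat_lit 486) (nat_lit 332) (nat_lit 262)) (XT.lf (nat_lit 0) (nat_lit 18867731778386) (nat_lit 0) (nat_lit 0) (nat_lit 0) (nat_lit 0) (nat_lit 0) (nat_lit 0) (nat_lit 1) (nat_lit 0) (nat_lit 1) (nat_lit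 0) (nat_lit 487) (nat_lit 332) (nat_lit 261)))) (XT.nd (nat_lit 188) (nat_lit 0) (nat_lit 0) (XT.nd (nat_lit 94) (nat_lit 0) (nat_lit 0) (XT.lf (nat_lit 0) (nat_lit 20377140282521) (nat_lit 0) (nat_lit 0) (nat_lit 0) (nat_lit 0) (nat_lit 0) (nat_lit 0) (nat_lit 1) (nat_lit 0) (nat_lit 1) (nat_lit 0) (nat_lit 488) (nat_lit 332) (nat_lit 260)) (XT.lf (nat_lit 0) (nat_lit 22007301473004) (nat_lit 0) (nat_lit 0) (nat_lit 0) (nat_lit 0) (nat_lit 0) (nat_lit 0) (nat_lit 1) (nat_lit 0) (nat_lit 1) (nat_lit 0) (nat_lit 489) (nat_lit 332) (nat_lit 259))) (XT.nd (nat_lit 94) (nat_lit 0) (nat_lit 0) (XT.lf (nat_lit 0) (nat_lit 23767875564296) (nat_lit 0) (nat_lit 0) (nat_lit 0) (nat_lit 0) (nat_lit 0) (nat_lit 0) (nat_lit 1) (nat_lit 0) (nat_lit 1) (nat_lit 0) (nat_lit 490) (nat_lit 332) (nat_lit 258)) (XT.lf (nat_lit 0) (nat_lit 25669295588049) (nat_lit 0) (nat_lit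 0) (nat_lit 0) (nat_lit 0) (nat_lit 0) (nat_lit 0) (nat_lit 1) (nat_lit 0) (nat_lit 1) (nat_lit 0) (nat_lit 491) (nat_lit 332) (nat_lit 257))))) (XT.nd (nat_lit 376) (nat_lit 0) (nat_lit 0) (XT.nd (nat_lit 188) (nat_lit 0) (nat_lit 0) (XT.nd (nat_lit 94) (nat_lit 0) (nat_lit 0) (XT.lf (nat_lit 0) (nat_lit 27722829218480) (nat_lit 0) (nat_lit 0) (nat_lit 0) (nat_lit 0) (nat_lit 0) (nat_lit 0) (nat_lit 1) (nat_lit 0) (nat_lit 1) (nat_lit 0) (nat_lit 492) (nat_lit 332) (nat_lit 256)) (XT.lf (nat_lit 0) (nat_lit 29940645543766) (nat_lit 0) (nat_lit 0) (nat_lit 0) (nat_lit 0) (nat_lit 0) (nat_lit 0) (nat_lit 1) (nat_lit 0) (nat_lit 1) (nat_lit 0) (nat_lit 493) (nat_lit 332) (nat_lit 255))) (XT.nd (nat_lit 94) (nat_lit 0) (nat_lit 0) (XT.lf (nat_lit 0) (nat_lit 32335887179171) (nat_lit 0) (nat_lit 0) (nat_lit 0) (nat_lit 0) (nat_lit 0) (nat_lit 0) (nat_lit 1) (nat_lit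 0) (nat_lit 1) (nat_lit 0) (nat_lit 494) (nat_lit 332) (nat_lit 254)) (XT.lf (nat_lit 0) (nat_lit 34922748149199) (nat_lit 0) (nat_lit 0) (nat_lit 0) (nat_lit 0) (nat_lit 0) (nat_lit 0) (nat_lit 1) (nat_lit 0) (nat_lit 1) (nat_lit 0) (nat_lit 495) (nat_lit 332) (nat_lit 253)))) (XT.nd (nat_lit 188) (nat_lit 0) (nat_lit 0) (XT.nd (nat_lit 94) (nat_lit 0) (nat_lit 0) (XT.lf (nat_lit 0) (nat_lit 37716558000340) (nat_lit 0) (nat_lit 0) (nat_lit 0) (nat_lit 0) (nat_lit 0) (nat_lit 0) (nat_lit 1) (nat_lit 0) (nat_lit 1) (nat_lit 0) (nat_lit 496) (nat_lit 332) (nat_lit 252)) (XT.lf (nat_lit 0) (nat_lit 40733872642823) (nat_lit 0) (nat_lit 0) (nat_lit 0) (nat_lit 0) (nat_lit 0) (nat_lit 0) (nat_lit 1) (nat_lit 0) (nat_lit 1) (nat_lit 0) (nat_lit 497) (nat_lit 332) (nat_lit 251))) (XT.nd (nat_lit 94) (nat_lit 0) (nat_lit 0) (XT.lf (nat_lit 0) (nat_lit 43992572459714)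 (nat_lit 0) (nat_lit 0) (nat_lit 0) (nat_lit 0) (nat_lit 0) (nat_lit 0) (nat_lit 1) (nat_lit 0) (nat_lit 1) (nat_lit 0) (nat_lit 498) (nat_lit 332) (nat_lit 250)) (XT.lf (nat_lit 0) (nat_lit 47511968264744) (nat_lit 0) (nat_lit 0) (nat_lit 0) (nat_lit 0) (nat_lit 0) (nat_lit 0) (nat_lit 1) (nat_lit 0) (nat_lit 1) (nat_lit 0) (nat_lit 499) (nat_lit 332) (nat_lit 249))))))))
noncomputable def xc35 : XT := (XT.nd (nat_lit 2632) (nat_lit 0) (nat_lit 0) (XT.nd (nat_lit 1316) (nat_lit 0) (nat_lit 0) (XT.nd (nat_lit 658) (nat_lit 0) (nat_lit 0) (XT.nd (nat_lit 282) (nat_lit 0) (nat_lit 0) (XT.nd (nat_lit 94) (nat_lit 0) (nat_lit 0) (XT.lf (nat_lit 0) (nat_lit 34391682008) (nat_lit 0) (nat_lit 0) (nat_lit 0) (nat_lit 0) (nat_lit 0) (nat_lit 0) (nat_lit 1) (nat_lit 0) (nat_lit 1) (nat_lit 0) (nat_lit 414) (nat_lit 333) (nat_lit 333)) (XT.nd (nat_lit 94) (nat_lit 0)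 (nat_lit 0) (XT.lf (nat_lit 0) (nat_lit 74254569293) (nat_lit 0) (nat_lit 0) (nat_lit 0) (nat_lit 0) (nat_lit 0) (nat_lit 0) (nat_lit 1) (nat_lit 0) (nat_lit 1) (nat_lit 0) (nat_lit 415) (nat_lit 333) (nat_lit 332)) (XT.lf (nat_lit 0) (nat_lit 80165005094) (nat_lit 0) (nat_lit 0) (nat_lit 0) (nat_lit 0) (nat_lit 0) (nat_lit 0) (nat_lit 1) (nat_lit 0) (nat_lit 1) (nat_lit 0) (nat_lit 416) (nat_lit 333) (nat_lit 331)))) (XT.nd (nat_lit 188) (nat_lit 0) (nat_lit 0) (XT.nd (nat_lit 94) (nat_lit 0) (nat_lit 0) (XT.lf (nat_lit 0) (nat_lit 86549696224) (nat_lit 0) (nat_lit 0) (nat_lit 0) (nat_lit 0) (nat_lit 0) (nat_lit 0) (nat_lit 1) (nat_lit 0) (nat_lit 1) (nat_lit 0) (nat_lit 417) (nat_lit 333) (nat_lit 330)) (XT.lf (nat_lit 0) (nat_lit 93446477890) (nat_lit 0) (nat_lit 0) (nat_lit 0) (nat_lit 0) (nat_lit 0) (nat_lit 0) (nat_lit 1) (nat_lit 0) (nat_lit 1) (nat_lit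 0) (nat_lit 418) (nat_lit 333) (nat_lit 329))) (XT.nd (nat_lit 94) (nat_lit 0) (nat_lit 0) (XT.lf (nat_lit 0) (nat_lit 100896219909) (nat_lit 0) (nat_lit 0) (nat_lit 0) (nat_lit 0) (nat_lit 0) (nat_lit 0) (nat_lit 1) (nat_lit 0) (nat_lit 1) (nat_lit 0) (nat_lit 419) (nat_lit 333) (nat_lit 328)) (XT.lf (nat_lit 0) (nat_lit 108943068900) (nat_lit 0) (nat_lit 0) (nat_lit 0) (nat_lit 0) (nat_lit 0) (nat_lit 0) (nat_lit 1) (nat_lit 0) (nat_lit 1) (nat_lit 0) (nat_lit 420) (nat_lit 333) (nat_lit 327))))) (XT.nd (nat_lit 282) (nat_lit 0) (nat_lit 0) (XT.nd (nat_lit 94) (nat_lit 0) (nat_lit 0) (XT.lf (nat_lit 0) (nat_lit 117634709895) (nat_lit 0) (nat_lit 0) (nat_lit 0) (nat_lit 0) (nat_lit 0) (nat_lit 0) (nat_lit 1) (nat_lit 0) (nat_lit 1) (nat_lit 0) (nat_lit 421) (nat_lit 333) (nat_lit 326)) (XT.nd (nat_lit 94) (nat_lit 0) (nat_lit 0) (XT.lf (nat_lit 0) (nat_lit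 127022648914) (nat_lit 0) (nat_lit 0) (nat_lit 0) (nat_lit 0) (nat_lit 0) (nat_lit 0) (nat_lit 1) (nat_lit 0) (nat_lit 1) (nat_lit 0) (nat_lit 422) (nat_lit 333) (nat_lit 325)) (XT.lf (nat_lit 0) (nat_lit 137162518188) (nat_lit 0) (nat_lit 0) (nat_lit 0) (nat_lit 0) (nat_lit 0) (nat_lit 0) (nat_lit 1) (nat_lit 0) (nat_lit 1) (nat_lit 0) (nat_lit 423) (nat_lit 333) (nat_lit 324)))) (XT.nd (nat_lit 188) (nat_lit 0) (nat_lit 0) (XT.nd (nat_lit 94) (nat_lit 0) (nat_lit 0) (XT.lf (nat_lit 0) (nat_lit 148114405832) (nat_lit 0) (nat_lit 0) (nat_lit 0) (nat_lit 0) (nat_lit 0) (nat_lit 0) (nat_lit 1) (nat_lit 0) (nat_lit 1) (nat_lit 0) (nat_lit 424) (nat_lit 333) (nat_lit 323)) (XT.lf (nat_lit 0) (nat_lit 159943211920) (nat_lit 0) (nat_lit 0) (nat_lit 0) (nat_lit 0) (nat_lit 0) (nat_lit 0) (nat_lit 1) (nat_lit 0) (nat_lit 1) (nat_lit 0) (nat_lit 425) (nat_lit 333)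 (nat_lit 322))) (XT.nd (nat_lit 94) (nat_lit 0) (nat_lit 0) (XT.lf (nat_lit 0) (nat_lit 172719033081) (nat_lit 0) (nat_lit 0) (nat_lit 0) (nat_lit 0) (nat_lit 0) (nat_lit 0) (nat_lit 1) (nat_lit 0) (nat_lit 1) (nat_lit 0) (nat_lit 426) (nat_lit 333) (nat_lit 321)) (XT.lf (nat_lit 0) (nat_lit 186517577886) (nat_lit 0) (nat_lit 0) (nat_lit 0) (nat_lit 0) (nat_lit 0) (nat_lit 0) (nat_lit 1) (nat_lit 0) (nat_lit 1) (nat_lit 0) (nat_lit 427) (nat_lit 333) (nat_lit 320)))))) (XT.nd (nat_lit 658) (nat_lit 0) (nat_lit 0) (XT.nd (nat_lit 282) (nat_lit 0) (nat_lit 0) (XT.nd (nat_lit 94) (nat_lit 0) (nat_lit 0) (XT.lf (nat_lit 0) (nat_lit 201420615488) (nat_lit 0) (nat_lit 0) (nat_lit 0) (nat_lit 0) (nat_lit 0) (nat_lit 0) (nat_lit 1) (nat_lit 0) (nat_lit 1) (nat_lit 0) (nat_lit 428) (nat_lit 333) (nat_lit 319)) (XT.nd (nat_lit 94) (nat_lit 0) (nat_lit 0) (XT.lf (nat_lit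 0) (nat_lit 217516460184) (nat_lit 0) (nat_lit 0) (nat_lit 0) (nat_lit 0) (nat_lit 0) (nat_lit 0) (nat_lit 1) (nat_lit 0) (nat_lit 1) (nat_lit 0) (nat_lit 429) (nat_lit 333) (nat_lit 318)) (XT.lf (nat_lit 0) (nat_lit 234900494758) (nat_lit 0) (nat_lit 0) (nat_lit 0) (nat_lit 0) (nat_lit 0) (nat_lit 0) (nat_lit 1) (nat_lit 0) (nat_lit 1) (nat_lit 0) (nat_lit 430) (nat_lit 333) (nat_lit 317)))) (XT.nd (nat_lit 188) (nat_lit 0) (nat_lit 0) (XT.nd (nat_lit 94) (nat_lit 0) (nat_lit 0) (XT.lf (nat_lit 0) (nat_lit 253675735710) (nat_lit 0) (nat_lit 0) (nat_lit 0) (nat_lit 0) (nat_lit 0) (nat_lit 0) (nat_lit 1) (nat_lit 0) (nat_lit 1) (nat_lit 0) (nat_lit 431) (nat_lit 333) (nat_lit 316)) (XT.lf (nat_lit 0) (nat_lit 273953443729) (nat_lit 0) (nat_lit 0) (nat_lit 0) (nat_lit 0) (nat_lit 0) (nat_lit 0) (nat_lit 1) (nat_lit 0) (nat_lit 1) (nat_lit 0) (nat_lit 432) (nat_lit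 333) (nat_lit 315))) (XT.nd (nat_lit 94) (nat_lit 0) (nat_lit 0) (XT.lf (nat_lit 0) (nat_lit 295853783010) (nat_lit 0) (nat_lit 0) (nat_lit 0) (nat_lit 0) (nat_lit 0) (nat_lit 0) (nat_lit 1) (nat_lit 0) (nat_lit 1) (nat_lit 0) (nat_lit 433) (nat_lit 333) (nat_lit 314)) (XT.lf (nat_lit 0) (nat_lit 319506533340) (nat_lit 0) (nat_lit 0) (nat_lit 0) (nat_lit 0) (nat_lit 0) (nat_lit 0) (nat_lit 1) (nat_lit 0) (nat_lit 1) (nat_lit 0) (nat_lit 434) (nat_lit 333) (nat_lit 313))))) (XT.nd (nat_lit 282) (nat_lit 0) (nat_lit 0) (XT.nd (nat_lit 94) (nat_lit 0) (nat_lit 0) (XT.lf (nat_lit 0) (nat_lit 345051859167) (nat_lit 0) (nat_lit 0) (nat_lit 0) (nat_lit 0) (nat_lit 0) (nat_lit 0) (nat_lit 1) (nat_lit 0) (nat_lit 1) (nat_lit 0) (nat_lit 435) (nat_lit 333) (nat_lit 312)) (XT.nd (nat_lit 94) (nat_lit 0) (nat_lit 0) (XT.lf (nat_lit 0) (nat_lit 372641140199) (nat_lit 0)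 (nat_lit 0) (nat_lit 0) (nat_lit 0) (nat_lit 0) (nat_lit 0) (nat_lit 1) (nat_lit 0) (nat_lit 1) (nat_lit 0) (nat_lit 436) (nat_lit 333) (nat_lit 311)) (XT.lf (nat_lit 0) (nat_lit 402437868471) (nat_lit 0) (nat_lit 0) (nat_lit 0) (nat_lit 0) (nat_lit 0) (nat_lit 0) (nat_lit 1) (nat_lit 0) (nat_lit 1) (nat_lit 0) (nat_lit 437) (nat_lit 333) (nat_lit 310)))) (XT.nd (nat_lit 188) (nat_lit 0) (nat_lit 0) (XT.nd (nat_lit 94) (nat_lit 0) (nat_lit 0) (XT.lf (nat_lit 0) (nat_lit 434618617189) (nat_lit 0) (nat_lit 0) (nat_lit 0) (nat_lit 0) (nat_lit 0) (nat_lit 0) (nat_lit 1) (nat_lit 0) (nat_lit 1) (nat_lit 0) (nat_lit 438) (nat_lit 333) (nat_lit 309)) (XT.lf (nat_lit 0) (nat_lit 469374087086) (nat_lit 0) (nat_lit 0) (nat_lit 0) (nat_lit 0) (nat_lit 0) (nat_lit 0) (nat_lit 1) (nat_lit 0) (nat_lit 1) (nat_lit 0) (nat_lit 439) (nat_lit 333) (nat_lit 308))) (XT.nd (nat_lit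 94) (nat_lit 0) (nat_lit 0) (XT.lf (nat_lit 0) (nat_lit 506910236501) (nat_lit 0) (nat_lit 0) (nat_lit 0) (nat_lit 0) (nat_lit 0) (nat_lit 0) (nat_lit 1) (nat_lit 0) (nat_lit 1) (nat_lit 0) (nat_lit 440) (nat_lit 333) (nat_lit 307)) (XT.lf (nat_lit 0) (nat_lit 547449501875) (nat_lit 0) (nat_lit 0) (nat_lit 0) (nat_lit 0) (nat_lit 0) (nat_lit 0) (nat_lit 1) (nat_lit 0) (nat_lit 1) (nat_lit 0) (nat_lit 441) (nat_lit 333) (nat_lit 306))))))) (XT.nd (nat_lit 1316) (nat_lit 0) (nat_lit 0) (XT.nd (nat_lit 658) (nat_lit 0) (nat_lit 0) (XT.nd (nat_lit 282) (nat_lit 0) (nat_lit 0) (XT.nd (nat_lit 94) (nat_lit 0) (nat_lit 0) (XT.lf (nat_lit 0) (nat_lit 591232115893) (nat_lit 0) (nat_lit 0) (nat_lit 0) (nat_lit 0) (nat_lit 0) (nat_lit 0) (nat_lit 1) (nat_lit 0) (nat_lit 1) (nat_lit 0) (nat_lit 442) (nat_lit 333) (nat_lit 305)) (XT.nd (nat_lit 94) (nat_lit 0) (nat_lit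 0) (XT.lf (nat_lit 0) (nat_lit 638517531082) (nat_lit 0) (nat_lit 0) (nat_lit 0) (nat_lit 0) (nat_lit 0) (nat_lit 0) (nat_lit 1) (nat_lit 0) (nat_lit 1) (nat_lit 0) (nat_lit 443) (nat_lit 333) (nat_lit 304)) (XT.lf (nat_lit 0) (nat_lit 689585957309) (nat_lit 0) (nat_lit 0) (nat_lit 0) (nat_lit 0) (nat_lit 0) (nat_lit 0) (nat_lit 1) (nat_lit 0) (nat_lit 1) (nat_lit 0) (nat_lit 444) (nat_lit 333) (nat_lit 303)))) (XT.nd (nat_lit 188) (nat_lit 0) (nat_lit 0) (XT.nd (nat_lit 94) (nat_lit 0) (nat_lit 0) (XT.lf (nat_lit 0) (nat_lit 744740022286) (nat_lit 0) (nat_lit 0) (nat_lit 0) (nat_lit 0) (nat_lit 0) (nat_lit 0) (nat_lit 1) (nat_lit 0) (nat_lit 1) (nat_lit 0) (nat_lit 445) (nat_lit 333) (nat_lit 302)) (XT.lf (nat_lit 0) (nat_lit 804306564916) (nat_lit 0) (nat_lit 0) (nat_lit 0) (nat_lit 0) (nat_lit 0) (nat_lit 0) (nat_lit 1) (nat_lit 0) (nat_lit 1) (nat_lit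 0) (nat_lit 446) (nat_lit 333) (nat_lit 301))) (XT.nd (nat_lit 94) (nat_lit 0) (nat_lit 0) (XT.lf (nat_lit 0) (nat_lit 868638572118) (nat_lit 0) (nat_lit 0) (nat_lit 0) (nat_lit 0) (nat_lit 0) (nat_lit 0) (nat_lit 1) (nat_lit 0) (nat_lit 1) (nat_lit 0) (nat_lit 447) (nat_lit 333) (nat_lit 300)) (XT.lf (nat_lit 0) (nat_lit 938117270602) (nat_lit 0) (nat_lit 0) (nat_lit 0) (nat_lit 0) (nat_lit 0) (nat_lit 0) (nat_lit 1) (nat_lit 0) (nat_lit 1) (nat_lit 0) (nat_lit 448) (nat_lit 333) (nat_lit 299))))) (XT.nd (nat_lit 282) (nat_lit 0) (nat_lit 0) (XT.nd (nat_lit 94) (nat_lit 0) (nat_lit 0) (XT.lf (nat_lit 0) (nat_lit 1013154385988) (nat_lit 0) (nat_lit 0) (nat_lit 0) (nat_lit 0) (nat_lit 0) (nat_lit 0) (nat_lit 1) (nat_lit 0) (nat_lit 1) (nat_lit 0) (nat_lit 449) (nat_lit 333) (nat_lit 298)) (XT.nd (nat_lit 94) (nat_lit 0) (nat_lit 0) (XT.lf (nat_lit 0) (nat_lit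 1094194582665) (nat_lit 0) (nat_lit 0) (nat_lit 0) (nat_lit 0) (nat_lit 0) (nat_lit 0) (nat_lit 1) (nat_lit 0) (nat_lit 1) (nat_lit 0) (nat_lit 450) (nat_lit 333) (nat_lit 297)) (XT.lf (nat_lit 0) (nat_lit 1181718098833) (nat_lit 0) (nat_lit 0) (nat_lit 0) (nat_lit 0) (nat_lit 0) (nat_lit 0) (nat_lit 1) (nat_lit 0) (nat_lit 1) (nat_lit 0) (nat_lit 451) (nat_lit 333) (nat_lit 296)))) (XT.nd (nat_lit 188) (nat_lit 0) (nat_lit 0) (XT.nd (nat_lit 94) (nat_lit 0) (nat_lit 0) (XT.lf (nat_lit 0) (nat_lit 1276243592368) (nat_lit 0) (nat_lit 0) (nat_lit 0) (nat_lit 0) (nat_lit 0) (nat_lit 0) (nat_lit 1) (nat_lit 0) (nat_lit 1) (nat_lit 0) (nat_lit 452) (nat_lit 333) (nat_lit 295)) (XT.lf (nat_lit 0) (nat_lit 1378331214341) (nat_lit 0) (nat_lit 0) (nat_lit 0) (nat_lit 0) (nat_lit 0) (nat_lit 0) (nat_lit 1) (nat_lit 0) (nat_lit 1) (nat_lit 0) (nat_lit 453) (nat_lit 333)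 (nat_lit 294))) (XT.nd (nat_lit 94) (nat_lit 0) (nat_lit 0) (XT.lf (nat_lit 0) (nat_lit 1488585928439) (nat_lit 0) (nat_lit 0) (nat_lit 0) (nat_lit 0) (nat_lit 0) (nat_lit 0) (nat_lit 1) (nat_lit 0) (nat_lit 1) (nat_lit 0) (nat_lit 454) (nat_lit 333) (nat_lit 293)) (XT.lf (nat_lit 0) (nat_lit 1607661095931) (nat_lit 0) (nat_lit 0) (nat_lit 0) (nat_lit 0) (nat_lit 0) (nat_lit 0) (nat_lit 1) (nat_lit 0) (nat_lit 1) (nat_lit 0) (nat_lit 455) (nat_lit 333) (nat_lit 292)))))) (XT.nd (nat_lit 658) (nat_lit 0) (nat_lit 0) (XT.nd (nat_lit 282) (nat_lit 0) (nat_lit 0) (XT.nd (nat_lit 94) (nat_lit 0) (nat_lit 0) (XT.lf (nat_lit 0) (nat_lit 1736262347438) (nat_lit 0) (nat_lit 0) (nat_lit 0) (nat_lit 0) (nat_lit 0) (nat_lit 0) (nat_lit 1) (nat_lit 0) (nat_lit 1) (nat_lit 0) (nat_lit 456) (nat_lit 333) (nat_lit 291)) (XT.nd (nat_lit 94) (nat_lit 0) (nat_lit 0) (XT.lf (nat_lit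 0) (nat_lit 1875151764450) (nat_lit 0) (nat_lit 0) (nat_lit 0) (nat_lit 0) (nat_lit 0) (nat_lit 0) (nat_lit 1) (nat_lit 0) (nat_lit 1) (nat_lit 0) (nat_lit 457) (nat_lit 333) (nat_lit 290)) (XT.lf (nat_lit 0) (nat_lit 2025152395366) (nat_lit 0) (nat_lit 0) (nat_lit 0) (nat_lit 0) (nat_lit 0) (nat_lit 0) (nat_lit 1) (nat_lit 0) (nat_lit 1) (nat_lit 0) (nat_lit 458) (nat_lit 333) (nat_lit 289)))) (XT.nd (nat_lit 188) (nat_lit 0) (nat_lit 0) (XT.nd (nat_lit 94) (nat_lit 0) (nat_lit 0) (XT.lf (nat_lit 0) (nat_lit 2187153132812) (nat_lit 0) (nat_lit 0) (nat_lit 0) (nat_lit 0) (nat_lit 0) (nat_lit 0) (nat_lit 1) (nat_lit 0) (nat_lit 1) (nat_lit 0) (nat_lit 459) (nat_lit 333) (nat_lit 288)) (XT.lf (nat_lit 0) (nat_lit 2362113981159) (nat_lit 0) (nat_lit 0) (nat_lit 0) (nat_lit 0) (nat_lit 0) (nat_lit 0) (nat_lit 1) (nat_lit 0) (nat_lit 1) (nat_lit 0) (nat_lit 460)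 (nat_lit 333) (nat_lit 287))) (XT.nd (nat_lit 94) (nat_lit 0) (nat_lit 0) (XT.lf (nat_lit 0) (nat_lit 2551071745434) (nat_lit 0) (nat_lit 0) (nat_lit 0) (nat_lit 0) (nat_lit 0) (nat_lit 0) (nat_lit 1) (nat_lit 0) (nat_lit 1) (nat_lit 0) (nat_lit 461) (nat_lit 333) (nat_lit 286)) (XT.lf (nat_lit 0) (nat_lit 2755146175351) (nat_lit 0) (nat_lit 0) (nat_lit 0) (nat_lit 0) (nat_lit 0) (nat_lit 0) (nat_lit 1) (nat_lit 0) (nat_lit 1) (nat_lit 0) (nat_lit 462) (nat_lit 333) (nat_lit 285))))) (XT.nd (nat_lit 376) (nat_lit 0) (nat_lit 0) (XT.nd (nat_lit 188) (nat_lit 0) (nat_lit 0) (XT.nd (nat_lit 94) (nat_lit 0) (nat_lit 0) (XT.lf (nat_lit 0) (nat_lit 2975546600865) (nat_lit 0) (nat_lit 0) (nat_lit 0) (nat_lit 0) (nat_lit 0) (nat_lit 0) (nat_lit 1) (nat_lit 0) (nat_lit 1) (nat_lit 0) (nat_lit 463) (nat_lit 333) (nat_lit 284)) (XT.lf (nat_lit 0) (nat_lit 3213579098572)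 (nat_lit 0) (nat_lit 0) (nat_lit 0) (nat_lit 0) (nat_lit 0) (nat_lit 0) (nat_lit 1) (nat_lit 0) (nat_lit 1) (nat_lit 0) (nat_lit 464) (nat_lit 333) (nat_lit 283))) (XT.nd (nat_lit 94) (nat_lit 0) (nat_lit 0) (XT.lf (nat_lit 0) (nat_lit 3470654231422) (nat_lit 0) (nat_lit 0) (nat_lit 0) (nat_lit 0) (nat_lit 0) (nat_lit 0) (nat_lit 1) (nat_lit 0) (nat_lit 1) (nat_lit 0) (nat_lit 465) (nat_lit 333) (nat_lit 282)) (XT.lf (nat_lit 0) (nat_lit 3748295407608) (nat_lit 0) (nat_lit 0) (nat_lit 0) (nat_lit 0) (nat_lit 0) (nat_lit 0) (nat_lit 1) (nat_lit 0) (nat_lit 1) (nat_lit 0) (nat_lit 466) (nat_lit 333) (nat_lit 281)))) (XT.nd (nat_lit 188) (nat_lit 0) (nat_lit 0) (XT.nd (nat_lit 94) (nat_lit 0) (nat_lit 0) (XT.lf (nat_lit 0) (nat_lit 4048147908175) (nat_lit 0) (nat_lit 0) (nat_lit 0) (nat_lit 0) (nat_lit 0) (nat_lit 0) (nat_lit 1) (nat_lit 0) (nat_lit 1) (nat_lit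 0) (nat_lit 467) (nat_lit 333) (nat_lit 280)) (XT.lf (nat_lit 0) (nat_lit 4371988636830) (nat_lit 0) (nat_lit 0) (nat_lit 0) (nat_lit 0) (nat_lit 0) (nat_lit 0) (nat_lit 1) (nat_lit 0) (nat_lit 1) (nat_lit 0) (nat_lit 468) (nat_lit 333) (nat_lit 279))) (XT.nd (nat_lit 94) (nat_lit 0) (nat_lit 0) (XT.lf (nat_lit 0) (nat_lit 4721736649743) (nat_lit 0) (nat_lit 0) (nat_lit 0) (nat_lit 0) (nat_lit 0) (nat_lit 0) (nat_lit 1) (nat_lit 0) (nat_lit 1) (nat_lit 0) (nat_lit 469) (nat_lit 333) (nat_lit 278)) (XT.lf (nat_lit 0) (nat_lit 5099464527731) (nat_lit 0) (nat_lit 0) (nat_lit 0) (nat_lit 0) (nat_lit 0) (nat_lit 0) (nat_lit 1) (nat_lit 0) (nat_lit 1) (nat_lit 0) (nat_lit 470) (nat_lit 333) (nat_lit 277))))))))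
noncomputable def xc36 : XT := (XT.nd (nat_lit 2632) (nat_lit 0) (nat_lit 0) (XT.nd (nat_lit 1316) (nat_lit 0) (nat_lit 0) (XT.nd (nat_lit 658) (nat_lit 0) (nat_lit 0) (XT.nd (nat_lit 282) (nat_lit 0) (nat_lit 0) (XT.nd (nat_lit 94) (nat_lit 0) (nat_lit 0) (XT.lf (nat_lit 0) (nat_lit 5507410658219) (nat_lit 0) (nat_lit 0) (nat_lit 0) (nat_lit 0) (nat_lit 0) (nat_lit 0) (nat_lit 1) (nat_lit 0) (nat_lit 1) (nat_lit 0) (nat_lit 471) (nat_lit 333) (nat_lit 276)) (XT.nd (nat_lit 94) (nat_lit 0) (nat_lit 0) (XT.lf (nat_lit 0) (nat_lit 5947992499759) (nat_lit 0) (nat_lit 0) (nat_lit 0) (nat_lit 0) (nat_lit 0) (nat_lit 0) (nat_lit 1) (nat_lit 0) (nat_lit 1) (nat_lit 0) (nat_lit 472) (nat_lit 333) (nat_lit 275)) (XT.lf (nat_lit 0) (nat_lit 6423820907707) (nat_lit 0) (nat_lit 0) (nat_lit 0) (nat_lit 0) (nat_lit 0) (nat_lit 0) (nat_lit 1) (nat_lit 0) (nat_lit 1) (nat_lit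 0) (nat_lit 473) (nat_lit 333) (nat_lit 274)))) (XT.nd (nat_lit 188) (nat_lit 0) (nat_lit 0) (XT.nd (nat_lit 94) (nat_lit 0) (nat_lit 0) (XT.lf (nat_lit 0) (nat_lit 6937715605962) (nat_lit 0) (nat_lit 0) (nat_lit 0) (nat_lit 0) (nat_lit 0) (nat_lit 0) (nat_lit 1) (nat_lit 0) (nat_lit 1) (nat_lit 0) (nat_lit 474) (nat_lit 333) (nat_lit 273)) (XT.lf (nat_lit 0) (nat_lit 7492721896441) (nat_lit 0) (nat_lit 0) (nat_lit 0) (nat_lit 0) (nat_lit 0) (nat_lit 0) (nat_lit 1) (nat_lit 0) (nat_lit 1) (nat_lit 0) (nat_lit 475) (nat_lit 333) (nat_lit 272))) (XT.nd (nat_lit 94) (nat_lit 0) (nat_lit 0) (XT.lf (nat_lit 0) (nat_lit 8092128705308) (nat_lit 0) (nat_lit 0) (nat_lit 0) (nat_lit 0) (nat_lit 0) (nat_lit 0) (nat_lit 1) (nat_lit 0) (nat_lit 1) (nat_lit 0) (nat_lit 476) (nat_lit 333) (nat_lit 271)) (XT.lf (nat_lit 0) (nat_lit 8739488072913) (nat_lit 0) (nat_lit 0) (nat_lit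 0) (nat_lit 0) (nat_lit 0) (nat_lit 0) (nat_lit 1) (nat_lit 0) (nat_lit 1) (nat_lit 0) (nat_lit 477) (nat_lit 333) (nat_lit 270))))) (XT.nd (nat_lit 282) (nat_lit 0) (nat_lit 0) (XT.nd (nat_lit 94) (nat_lit 0) (nat_lit 0) (XT.lf (nat_lit 0) (nat_lit 9438636202916) (nat_lit 0) (nat_lit 0) (nat_lit 0) (nat_lit 0) (nat_lit 0) (nat_lit 0) (nat_lit 1) (nat_lit 0) (nat_lit 1) (nat_lit 0) (nat_lit 478) (nat_lit 333) (nat_lit 269)) (XT.nd (nat_lit 94) (nat_lit 0) (nat_lit 0) (XT.lf (nat_lit 0) (nat_lit 10193716195346) (nat_lit 0) (nat_lit 0) (nat_lit 0) (nat_lit 0) (nat_lit 0) (nat_lit 0) (nat_lit 1) (nat_lit 0) (nat_lit 1) (nat_lit 0) (nat_lit 479) (nat_lit 333) (nat_lit 268)) (XT.lf (nat_lit 0) (nat_lit 11009202598306) (nat_lit 0) (nat_lit 0) (nat_lit 0) (nat_lit 0) (nat_lit 0) (nat_lit 0) (nat_lit 1) (nat_lit 0) (nat_lit 1) (nat_lit 0) (nat_lit 480) (nat_lit 333)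 (nat_lit 267)))) (XT.nd (nat_lit 188) (nat_lit 0) (nat_lit 0) (XT.nd (nat_lit 94) (nat_lit 0) (nat_lit 0) (XT.lf (nat_lit 0) (nat_lit 11889927923815) (nat_lit 0) (nat_lit 0) (nat_lit 0) (nat_lit 0) (nat_lit 0) (nat_lit 0) (nat_lit 1) (nat_lit 0) (nat_lit 1) (nat_lit 0) (nat_lit 481) (nat_lit 333) (nat_lit 266)) (XT.lf (nat_lit 0) (nat_lit 12841111284911) (nat_lit 0) (nat_lit 0) (nat_lit 0) (nat_lit 0) (nat_lit 0) (nat_lit 0) (nat_lit 1) (nat_lit 0) (nat_lit 1) (nat_lit 0) (nat_lit 482) (nat_lit 333) (nat_lit 265))) (XT.nd (nat_lit 94) (nat_lit 0) (nat_lit 0) (XT.lf (nat_lit 0) (nat_lit 13868389323736) (nat_lit 0) (nat_lit 0) (nat_lit 0) (nat_lit 0) (nat_lit 0) (nat_lit 0) (nat_lit 1) (nat_lit 0) (nat_lit 1) (nat_lit 0) (nat_lit 483) (nat_lit 333) (nat_lit 264)) (XT.lf (nat_lit 0) (nat_lit 14977849613851) (nat_lit 0) (nat_lit 0) (nat_lit 0) (nat_lit 0) (nat_lit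 0) (nat_lit 0) (nat_lit 1) (nat_lit 0) (nat_lit 1) (nat_lit 0) (nat_lit 484) (nat_lit 333) (nat_lit 263)))))) (XT.nd (nat_lit 658) (nat_lit 0) (nat_lit 0) (XT.nd (nat_lit 282) (nat_lit 0) (nat_lit 0) (XT.nd (nat_lit 94) (nat_lit 0) (nat_lit 0) (XT.lf (nat_lit 0) (nat_lit 16176066734755) (nat_lit 0) (nat_lit 0) (nat_lit 0) (nat_lit 0) (nat_lit 0) (nat_lit 0) (nat_lit 1) (nat_lit 0) (nat_lit 1) (nat_lit 0) (nat_lit 485) (nat_lit 333) (nat_lit 262)) (XT.nd (nat_lit 94) (nat_lit 0) (nat_lit 0) (XT.lf (nat_lit 0) (nat_lit 17470141232350) (nat_lit 0) (nat_lit 0) (nat_lit 0) (nat_lit 0) (nat_lit 0) (nat_lit 0) (nat_lit 1) (nat_lit 0) (nat_lit 1) (nat_lit 0) (nat_lit 486) (nat_lit 333) (nat_lit 261)) (XT.lf (nat_lit 0) (nat_lit 18867741696249) (nat_lit 0) (nat_lit 0) (nat_lit 0) (nat_lit 0) (nat_lit 0) (nat_lit 0) (nat_lit 1) (nat_lit 0) (nat_lit 1) (nat_lit 0) (nat_lit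 487) (nat_lit 333) (nat_lit 260)))) (XT.nd (nat_lit 188) (nat_lit 0) (nat_lit 0) (XT.nd (nat_lit 94) (nat_lit 0) (nat_lit 0) (XT.lf (nat_lit 0) (nat_lit 20377150203277) (nat_lit 0) (nat_lit 0) (nat_lit 0) (nat_lit 0) (nat_lit 0) (nat_lit 0) (nat_lit 1) (nat_lit 0) (nat_lit 1) (nat_lit 0) (nat_lit 488) (nat_lit 333) (nat_lit 259)) (XT.lf (nat_lit 0) (nat_lit 22007311396438) (nat_lit 0) (nat_lit 0) (nat_lit 0) (nat_lit 0) (nat_lit 0) (nat_lit 0) (nat_lit 1) (nat_lit 0) (nat_lit 1) (nat_lit 0) (nat_lit 489) (nat_lit 333) (nat_lit 258))) (XT.nd (nat_lit 94) (nat_lit 0) (nat_lit 0) (XT.lf (nat_lit 0) (nat_lit 23767885490210) (nat_lit 0) (nat_lit 0) (nat_lit 0) (nat_lit 0) (nat_lit 0) (nat_lit 0) (nat_lit 1) (nat_lit 0) (nat_lit 1) (nat_lit 0) (nat_lit 490) (nat_lit 333) (nat_lit 257)) (XT.lf (nat_lit 0) (nat_lit 25669305516260) (nat_lit 0) (nat_lit 0) (nat_lit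 0) (nat_lit 0) (nat_lit 0) (nat_lit 0) (nat_lit 1) (nat_lit 0) (nat_lit 1) (nat_lit 0) (nat_lit 491) (nat_lit 333) (nat_lit 256))))) (XT.nd (nat_lit 282) (nat_lit 0) (nat_lit 0) (XT.nd (nat_lit 94) (nat_lit 0) (nat_lit 0) (XT.lf (nat_lit 0) (nat_lit 27722839148816) (nat_lit 0) (nat_lit 0) (nat_lit 0) (nat_lit 0) (nat_lit 0) (nat_lit 0) (nat_lit 1) (nat_lit 0) (nat_lit 1) (nat_lit 0) (nat_lit 492) (nat_lit 333) (nat_lit 255)) (XT.nd (nat_lit 94) (nat_lit 0) (nat_lit 0) (XT.lf (nat_lit 0) (nat_lit 29940655476071) (nat_lit 0) (nat_lit 0) (nat_lit 0) (nat_lit 0) (nat_lit 0) (nat_lit 0) (nat_lit 1) (nat_lit 0) (nat_lit 1) (nat_lit 0) (nat_lit 493) (nat_lit 333) (nat_lit 254)) (XT.lf (nat_lit 0) (nat_lit 32335897113299) (nat_lit 0) (nat_lit 0) (nat_lit 0) (nat_lit 0) (nat_lit 0) (nat_lit 0) (nat_lit 1) (nat_lit 0) (nat_lit 1) (nat_lit 0) (nat_lit 494) (nat_lit 333)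 (nat_lit 253)))) (XT.nd (nat_lit 188) (nat_lit 0) (nat_lit 0) (XT.nd (nat_lit 94) (nat_lit 0) (nat_lit 0) (XT.lf (nat_lit 0) (nat_lit 34922758085015) (nat_lit 0) (nat_lit 0) (nat_lit 0) (nat_lit 0) (nat_lit 0) (nat_lit 0) (nat_lit 1) (nat_lit 0) (nat_lit 1) (nat_lit 0) (nat_lit 495) (nat_lit 333) (nat_lit 252)) (XT.lf (nat_lit 0) (nat_lit 37716567937718) (nat_lit 0) (nat_lit 0) (nat_lit 0) (nat_lit 0) (nat_lit 0) (nat_lit 0) (nat_lit 1) (nat_lit 0) (nat_lit 1) (nat_lit 0) (nat_lit 496) (nat_lit 333) (nat_lit 251))) (XT.nd (nat_lit 94) (nat_lit 0) (nat_lit 0) (XT.lf (nat_lit 0) (nat_lit 40733882581648) (nat_lit 0) (nat_lit 0) (nat_lit 0) (nat_lit 0) (nat_lit 0) (nat_lit 0) (nat_lit 1) (nat_lit 0) (nat_lit 1) (nat_lit 0) (nat_lit 497) (nat_lit 333) (nat_lit 250)) (XT.lf (nat_lit 0) (nat_lit 43992582399879) (nat_lit 0) (nat_lit 0) (nat_lit 0) (nat_lit 0) (nat_lit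 0) (nat_lit 0) (nat_lit 1) (nat_lit 0) (nat_lit 1) (nat_lit 0) (nat_lit 498) (nat_lit 333) (nat_lit 249))))))) (XT.nd (nat_lit 60818) (nat_lit 0) (nat_lit 0) (XT.nd (nat_lit 60160) (nat_lit 0) (nat_lit 0) (XT.nd (nat_lit 59784) (nat_lit 0) (nat_lit 0) (XT.nd (nat_lit 59596) (nat_lit 0) (nat_lit 0) (XT.lf (nat_lit 0) (nat_lit 47511978206149) (nat_lit 0) (nat_lit 0) (nat_lit 0) (nat_lit 0) (nat_lit 0) (nat_lit 0) (nat_lit 1) (nat_lit 0) (nat_lit 1) (nat_lit 0) (nat_lit 499) (nat_lit 333) (nat_lit 248)) (XT.nd (nat_lit 94) (nat_lit 0) (nat_lit 0) (XT.lf (nat_lit 0) (nat_lit 29515253823) (nat_lit 0) (nat_lit 0) (nat_lit 0) (nat_lit 0) (nat_lit 0) (nat_lit 0) (nat_lit 1) (nat_lit 0) (nat_lit 1) (nat_lit 0) (nat_lit 412) (nat_lit 334) (nat_lit 334)) (XT.lf (nat_lit 0) (nat_lit 63718967306) (nat_lit 0) (nat_lit 0) (nat_lit 0) (nat_lit 0) (nat_lit 0) (nat_lit 0) (nat_lit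 1) (nat_lit 0) (nat_lit 1) (nat_lit 0) (nat_lit 413) (nat_lit 334) (nat_lit 333)))) (XT.nd (nat_lit 188) (nat_lit 0) (nat_lit 0) (XT.nd (nat_lit 94) (nat_lit 0) (nat_lit 0) (XT.lf (nat_lit 0) (nat_lit 68784160569) (nat_lit 0) (nat_lit 0) (nat_lit 0) (nat_lit 0) (nat_lit 0) (nat_lit 0) (nat_lit 1) (nat_lit 0) (nat_lit 1) (nat_lit 0) (nat_lit 414) (nat_lit 334) (nat_lit 332)) (XT.lf (nat_lit 0) (nat_lit 74256103395) (nat_lit 0) (nat_lit 0) (nat_lit 0) (nat_lit 0) (nat_lit 0) (nat_lit 0) (nat_lit 1) (nat_lit 0) (nat_lit 1) (nat_lit 0) (nat_lit 415) (nat_lit 334) (nat_lit 331))) (XT.nd (nat_lit 94) (nat_lit 0) (nat_lit 0) (XT.lf (nat_lit 0) (nat_lit 80167222112) (nat_lit 0) (nat_lit 0) (nat_lit 0) (nat_lit 0) (nat_lit 0) (nat_lit 0) (nat_lit 1) (nat_lit 0) (nat_lit 1) (nat_lit 0) (nat_lit 416) (nat_lit 334) (nat_lit 330)) (XT.lf (nat_lit 0) (nat_lit 86552545572)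 (nat_lit 0) (nat_lit 0) (nat_lit 0) (nat_lit 0) (nat_lit 0) (nat_lit 0) (nat_lit 1) (nat_lit 0) (nat_lit 1) (nat_lit 0) (nat_lit 417) (nat_lit 334) (nat_lit 329))))) (XT.nd (nat_lit 282) (nat_lit 0) (nat_lit 0) (XT.nd (nat_lit 94) (nat_lit 0) (nat_lit 0) (XT.lf (nat_lit 0) (nat_lit 93449912728) (nat_lit 0) (nat_lit 0) (nat_lit 0) (nat_lit 0) (nat_lit 0) (nat_lit 0) (nat_lit 1) (nat_lit 0) (nat_lit 1) (nat_lit 0) (nat_lit 418) (nat_lit 334) (nat_lit 328)) (XT.nd (nat_lit 94) (nat_lit 0) (nat_lit 0) (XT.lf (nat_lit 0) (nat_lit 100900196867) (nat_lit 0) (nat_lit 0) (nat_lit 0) (nat_lit 0) (nat_lit 0) (nat_lit 0) (nat_lit 1) (nat_lit 0) (nat_lit 1) (nat_lit 0) (nat_lit 419) (nat_lit 334) (nat_lit 327)) (XT.lf (nat_lit 0) (nat_lit 108947547822) (nat_lit 0) (nat_lit 0) (nat_lit 0) (nat_lit 0) (nat_lit 0) (nat_lit 0) (nat_lit 1) (nat_lit 0) (nat_lit 1) (nat_lit 0)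 (nat_lit 420) (nat_lit 334) (nat_lit 326)))) (XT.nd (nat_lit 188) (nat_lit 0) (nat_lit 0) (XT.nd (nat_lit 94) (nat_lit 0) (nat_lit 0) (XT.lf (nat_lit 0) (nat_lit 117639653598) (nat_lit 0) (nat_lit 0) (nat_lit 0) (nat_lit 0) (nat_lit 0) (nat_lit 0) (nat_lit 1) (nat_lit 0) (nat_lit 1) (nat_lit 0) (nat_lit 421) (nat_lit 334) (nat_lit 325)) (XT.lf (nat_lit 0) (nat_lit 127028022969) (nat_lit 0) (nat_lit 0) (nat_lit 0) (nat_lit 0) (nat_lit 0) (nat_lit 0) (nat_lit 1) (nat_lit 0) (nat_lit 1) (nat_lit 0) (nat_lit 422) (nat_lit 334) (nat_lit 324))) (XT.nd (nat_lit 94) (nat_lit 0) (nat_lit 0) (XT.lf (nat_lit 0) (nat_lit 137168290718) (nat_lit 0) (nat_lit 0) (nat_lit 0) (nat_lit 0) (nat_lit 0) (nat_lit 0) (nat_lit 1) (nat_lit 0) (nat_lit 1) (nat_lit 0) (nat_lit 423) (nat_lit 334) (nat_lit 323)) (XT.lf (nat_lit 0) (nat_lit 148120547320) (nat_lit 0) (nat_lit 0) (nat_lit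 0) (nat_lit 0) (nat_lit 0) (nat_lit 0) (nat_lit 1) (nat_lit 0) (nat_lit 1) (nat_lit 0) (nat_lit 424) (nat_lit 334) (nat_lit 322)))))) (XT.nd (nat_lit 658) (nat_lit 0) (nat_lit 0) (XT.nd (nat_lit 282) (nat_lit 0) (nat_lit 0) (XT.nd (nat_lit 94) (nat_lit 0) (nat_lit 0) (XT.lf (nat_lit 0) (nat_lit 159949695037) (nat_lit 0) (nat_lit 0) (nat_lit 0) (nat_lit 0) (nat_lit 0) (nat_lit 0) (nat_lit 1) (nat_lit 0) (nat_lit 1) (nat_lit 0) (nat_lit 425) (nat_lit 334) (nat_lit 321)) (XT.nd (nat_lit 94) (nat_lit 0) (nat_lit 0) (XT.lf (nat_lit 0) (nat_lit 172725832520) (nat_lit 0) (nat_lit 0) (nat_lit 0) (nat_lit 0) (nat_lit 0) (nat_lit 0) (nat_lit 1) (nat_lit 0) (nat_lit 1) (nat_lit 0) (nat_lit 426) (nat_lit 334) (nat_lit 320)) (XT.lf (nat_lit 0) (nat_lit 186524670215) (nat_lit 0) (nat_lit 0) (nat_lit 0) (nat_lit 0) (nat_lit 0) (nat_lit 0) (nat_lit 1) (nat_lit 0) (nat_lit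 1) (nat_lit 0) (nat_lit 427) (nat_lit 334) (nat_lit 319)))) (XT.nd (nat_lit 188) (nat_lit 0) (nat_lit 0) (XT.nd (nat_lit 94) (nat_lit 0) (nat_lit 0) (XT.lf (nat_lit 0) (nat_lit 201427979013) (nat_lit 0) (nat_lit 0) (nat_lit 0) (nat_lit 0) (nat_lit 0) (nat_lit 0) (nat_lit 1) (nat_lit 0) (nat_lit 1) (nat_lit 0) (nat_lit 428) (nat_lit 334) (nat_lit 318)) (XT.lf (nat_lit 0) (nat_lit 217524074816) (nat_lit 0) (nat_lit 0) (nat_lit 0) (nat_lit 0) (nat_lit 0) (nat_lit 0) (nat_lit 1) (nat_lit 0) (nat_lit 1) (nat_lit 0) (nat_lit 429) (nat_lit 334) (nat_lit 317))) (XT.nd (nat_lit 94) (nat_lit 0) (nat_lit 0) (XT.lf (nat_lit 0) (nat_lit 234908341896) (nat_lit 0) (nat_lit 0) (nat_lit 0) (nat_lit 0) (nat_lit 0) (nat_lit 0) (nat_lit 1) (nat_lit 0) (nat_lit 1) (nat_lit 0) (nat_lit 430) (nat_lit 334) (nat_lit 316)) (XT.lf (nat_lit 0) (nat_lit 253683798132) (nat_lit 0) (nat_lit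 0) (nat_lit 0) (nat_lit 0) (nat_lit 0) (nat_lit 0) (nat_lit 1) (nat_lit 0) (nat_lit 1) (nat_lit 0) (nat_lit 431) (nat_lit 334) (nat_lit 315))))) (XT.nd (nat_lit 282) (nat_lit 0) (nat_lit 0) (XT.nd (nat_lit 94) (nat_lit 0) (nat_lit 0) (XT.lf (nat_lit 0) (nat_lit 273961705487) (nat_lit 0) (nat_lit 0) (nat_lit 0) (nat_lit 0) (nat_lit 0) (nat_lit 0) (nat_lit 1) (nat_lit 0) (nat_lit 1) (nat_lit 0) (nat_lit 432) (nat_lit 334) (nat_lit 314)) (XT.nd (nat_lit 94) (nat_lit 0) (nat_lit 0) (XT.lf (nat_lit 0) (nat_lit 295862229339) (nat_lit 0) (nat_lit 0) (nat_lit 0) (nat_lit 0) (nat_lit 0) (nat_lit 0) (nat_lit 1) (nat_lit 0) (nat_lit 1) (nat_lit 0) (nat_lit 433) (nat_lit 334) (nat_lit 313)) (XT.lf (nat_lit 0) (nat_lit 319515150568) (nat_lit 0) (nat_lit 0) (nat_lit 0) (nat_lit 0) (nat_lit 0) (nat_lit 0) (nat_lit 1) (nat_lit 0) (nat_lit 1) (nat_lit 0) (nat_lit 434) (nat_lit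 334) (nat_lit 312)))) (XT.nd (nat_lit 188) (nat_lit 0) (nat_lit 0) (XT.nd (nat_lit 94) (nat_lit 0) (nat_lit 0) (XT.lf (nat_lit 0) (nat_lit 345060634635) (nat_lit 0) (nat_lit 0) (nat_lit 0) (nat_lit 0) (nat_lit 0) (nat_lit 0) (nat_lit 1) (nat_lit 0) (nat_lit 1) (nat_lit 0) (nat_lit 435) (nat_lit 334) (nat_lit 311)) (XT.lf (nat_lit 0) (nat_lit 372650062185) (nat_lit 0) (nat_lit 0) (nat_lit 0) (nat_lit 0) (nat_lit 0) (nat_lit 0) (nat_lit 1) (nat_lit 0) (nat_lit 1) (nat_lit 0) (nat_lit 436) (nat_lit 334) (nat_lit 310))) (XT.nd (nat_lit 94) (nat_lit 0) (nat_lit 0) (XT.lf (nat_lit 0) (nat_lit 402446926123) (nat_lit 0) (nat_lit 0) (nat_lit 0) (nat_lit 0) (nat_lit 0) (nat_lit 0) (nat_lit 1) (nat_lit 0) (nat_lit 1) (nat_lit 0) (nat_lit 437) (nat_lit 334) (nat_lit 309)) (XT.lf (nat_lit 0) (nat_lit 434627800457) (nat_lit 0) (nat_lit 0) (nat_lit 0) (nat_lit 0) (nat_lit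 0) (nat_lit 0) (nat_lit 1) (nat_lit 0) (nat_lit 1) (nat_lit 0) (nat_lit 438) (nat_lit 334) (nat_lit 308))))))))
noncomputable def xc37 : XT := (XT.nd (nat_lit 2632) (nat_lit 0) (nat_lit 0) (XT.nd (nat_lit 1316) (nat_lit 0) (nat_lit 0) (XT.nd (nat_lit 658) (nat_lit 0) (nat_lit 0) (XT.nd (nat_lit 282) (nat_lit 0) (nat_lit 0) (XT.nd (nat_lit 94) (nat_lit 0) (nat_lit 0) (XT.lf (nat_lit 0) (nat_lit 469383386664) (nat_lit 0) (nat_lit 0) (nat_lit 0) (nat_lit 0) (nat_lit 0) (nat_lit 0) (nat_lit 1) (nat_lit 0) (nat_lit 1) (nat_lit 0) (nat_lit 439) (nat_lit 334) (nat_lit 307)) (XT.nd (nat_lit 94) (nat_lit 0) (nat_lit 0) (XT.lf (nat_lit 0) (nat_lit 506919643774) (nat_lit 0) (nat_lit 0) (nat_lit 0) (nat_lit 0) (nat_lit 0) (nat_lit 0) (nat_lit 1) (nat_lit 0) (nat_lit 1) (nat_lit 0) (nat_lit 440) (nat_lit 334) (nat_lit 306)) (XT.lf (nat_lit 0) (nat_lit 547459008867) (nat_lit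 0) (nat_lit 0) (nat_lit 0) (nat_lit 0) (nat_lit 0) (nat_lit 0) (nat_lit 1) (nat_lit 0) (nat_lit 1) (nat_lit 0) (nat_lit 441) (nat_lit 334) (nat_lit 305)))) (XT.nd (nat_lit 188) (nat_lit 0) (nat_lit 0) (XT.nd (nat_lit 94) (nat_lit 0) (nat_lit 0) (XT.lf (nat_lit 0) (nat_lit 591241715216) (nat_lit 0) (nat_lit 0) (nat_lit 0) (nat_lit 0) (nat_lit 0) (nat_lit 0) (nat_lit 1) (nat_lit 0) (nat_lit 1) (nat_lit 0) (nat_lit 442) (nat_lit 334) (nat_lit 304)) (XT.lf (nat_lit 0) (nat_lit 638527215897) (nat_lit 0) (nat_lit 0) (nat_lit 0) (nat_lit 0) (nat_lit 0) (nat_lit 0) (nat_lit 1) (nat_lit 0) (nat_lit 1) (nat_lit 0) (nat_lit 443) (nat_lit 334) (nat_lit 303))) (XT.nd (nat_lit 94) (nat_lit 0) (nat_lit 0) (XT.lf (nat_lit 0) (nat_lit 689595721283) (nat_lit 0) (nat_lit 0) (nat_lit 0) (nat_lit 0) (nat_lit 0) (nat_lit 0) (nat_lit 1) (nat_lit 0) (nat_lit 1) (nat_lit 0) (nat_lit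 444) (nat_lit 334) (nat_lit 302)) (XT.lf (nat_lit 0) (nat_lit 744749859556) (nat_lit 0) (nat_lit 0) (nat_lit 0) (nat_lit 0) (nat_lit 0) (nat_lit 0) (nat_lit 1) (nat_lit 0) (nat_lit 1) (nat_lit 0) (nat_lit 445) (nat_lit 334) (nat_lit 301))))) (XT.nd (nat_lit 282) (nat_lit 0) (nat_lit 0) (XT.nd (nat_lit 94) (nat_lit 0) (nat_lit 0) (XT.lf (nat_lit 0) (nat_lit 804316470052) (nat_lit 0) (nat_lit 0) (nat_lit 0) (nat_lit 0) (nat_lit 0) (nat_lit 0) (nat_lit 1) (nat_lit 0) (nat_lit 1) (nat_lit 0) (nat_lit 446) (nat_lit 334) (nat_lit 300)) (XT.nd (nat_lit 94) (nat_lit 0) (nat_lit 0) (XT.lf (nat_lit 0) (nat_lit 868648540093) (nat_lit 0) (nat_lit 0) (nat_lit 0) (nat_lit 0) (nat_lit 0) (nat_lit 0) (nat_lit 1) (nat_lit 0) (nat_lit 1) (nat_lit 0) (nat_lit 447) (nat_lit 334) (nat_lit 299)) (XT.lf (nat_lit 0) (nat_lit 938127296762) (nat_lit 0) (nat_lit 0) (nat_lit 0) (nat_lit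 0) (nat_lit 0) (nat_lit 0) (nat_lit 1) (nat_lit 0) (nat_lit 1) (nat_lit 0) (nat_lit 448) (nat_lit 334) (nat_lit 298)))) (XT.nd (nat_lit 188) (nat_lit 0) (nat_lit 0) (XT.nd (nat_lit 94) (nat_lit 0) (nat_lit 0) (XT.lf (nat_lit 0) (nat_lit 1013164466023) (nat_lit 0) (nat_lit 0) (nat_lit 0) (nat_lit 0) (nat_lit 0) (nat_lit 0) (nat_lit 1) (nat_lit 0) (nat_lit 1) (nat_lit 0) (nat_lit 449) (nat_lit 334) (nat_lit 297)) (XT.lf (nat_lit 0) (nat_lit 1094204712583) (nat_lit 0) (nat_lit 0) (nat_lit 0) (nat_lit 0) (nat_lit 0) (nat_lit 0) (nat_lit 1) (nat_lit 0) (nat_lit 1) (nat_lit 0) (nat_lit 450) (nat_lit 334) (nat_lit 296))) (XT.nd (nat_lit 94) (nat_lit 0) (nat_lit 0) (XT.lf (nat_lit 0) (nat_lit 1181728274940) (nat_lit 0) (nat_lit 0) (nat_lit 0) (nat_lit 0) (nat_lit 0) (nat_lit 0) (nat_lit 1) (nat_lit 0) (nat_lit 1) (nat_lit 0) (nat_lit 451) (nat_lit 334) (nat_lit 295))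 (XT.lf (nat_lit 0) (nat_lit 1276253811242) (nat_lit 0) (nat_lit 0) (nat_lit 0) (nat_lit 0) (nat_lit 0) (nat_lit 0) (nat_lit 1) (nat_lit 0) (nat_lit 1) (nat_lit 0) (nat_lit 452) (nat_lit 334) (nat_lit 294)))))) (XT.nd (nat_lit 658) (nat_lit 0) (nat_lit 0) (XT.nd (nat_lit 282) (nat_lit 0) (nat_lit 0) (XT.nd (nat_lit 94) (nat_lit 0) (nat_lit 0) (XT.lf (nat_lit 0) (nat_lit 1378341472815) (nat_lit 0) (nat_lit 0) (nat_lit 0) (nat_lit 0) (nat_lit 0) (nat_lit 0) (nat_lit 1) (nat_lit 0) (nat_lit 1) (nat_lit 0) (nat_lit 453) (nat_lit 334) (nat_lit 293)) (XT.nd (nat_lit 94) (nat_lit 0) (nat_lit 0) (XT.lf (nat_lit 0) (nat_lit 1488596223579) (nat_lit 0) (nat_lit 0) (nat_lit 0) (nat_lit 0) (nat_lit 0) (nat_lit 0) (nat_lit 1) (nat_lit 0) (nat_lit 1) (nat_lit 0) (nat_lit 454) (nat_lit 334) (nat_lit 292)) (XT.lf (nat_lit 0) (nat_lit 1607671425021) (nat_lit 0) (nat_lit 0) (nat_lit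 0) (nat_lit 0) (nat_lit 0) (nat_lit 0) (nat_lit 1) (nat_lit 0) (nat_lit 1) (nat_lit 0) (nat_lit 455) (nat_lit 334) (nat_lit 291)))) (XT.nd (nat_lit 188) (nat_lit 0) (nat_lit 0) (XT.nd (nat_lit 94) (nat_lit 0) (nat_lit 0) (XT.lf (nat_lit 0) (nat_lit 1736272707963) (nat_lit 0) (nat_lit 0) (nat_lit 0) (nat_lit 0) (nat_lit 0) (nat_lit 0) (nat_lit 1) (nat_lit 0) (nat_lit 1) (nat_lit 0) (nat_lit 456) (nat_lit 334) (nat_lit 290)) (XT.lf (nat_lit 0) (nat_lit 1875162154082) (nat_lit 0) (nat_lit 0) (nat_lit 0) (nat_lit 0) (nat_lit 0) (nat_lit 0) (nat_lit 1) (nat_lit 0) (nat_lit 1) (nat_lit 0) (nat_lit 457) (nat_lit 334) (nat_lit 289))) (XT.nd (nat_lit 94) (nat_lit 0) (nat_lit 0) (XT.lf (nat_lit 0) (nat_lit 2025162811948) (nat_lit 0) (nat_lit 0) (nat_lit 0) (nat_lit 0) (nat_lit 0) (nat_lit 0) (nat_lit 1) (nat_lit 0) (nat_lit 1) (nat_lit 0) (nat_lit 458) (nat_lit 334)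 (nat_lit 288)) (XT.lf (nat_lit 0) (nat_lit 2187163574349) (nat_lit 0) (nat_lit 0) (nat_lit 0) (nat_lit 0) (nat_lit 0) (nat_lit 0) (nat_lit 1) (nat_lit 0) (nat_lit 1) (nat_lit 0) (nat_lit 459) (nat_lit 334) (nat_lit 287))))) (XT.nd (nat_lit 282) (nat_lit 0) (nat_lit 0) (XT.nd (nat_lit 94) (nat_lit 0) (nat_lit 0) (XT.lf (nat_lit 0) (nat_lit 2362124445802) (nat_lit 0) (nat_lit 0) (nat_lit 0) (nat_lit 0) (nat_lit 0) (nat_lit 0) (nat_lit 1) (nat_lit 0) (nat_lit 1) (nat_lit 0) (nat_lit 460) (nat_lit 334) (nat_lit 286)) (XT.nd (nat_lit 94) (nat_lit 0) (nat_lit 0) (XT.lf (nat_lit 0) (nat_lit 2551082231471) (nat_lit 0) (nat_lit 0) (nat_lit 0) (nat_lit 0) (nat_lit 0) (nat_lit 0) (nat_lit 1) (nat_lit 0) (nat_lit 1) (nat_lit 0) (nat_lit 461) (nat_lit 334) (nat_lit 285)) (XT.lf (nat_lit 0) (nat_lit 2755156681197) (nat_lit 0) (nat_lit 0) (nat_lit 0) (nat_lit 0) (nat_lit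 0) (nat_lit 0) (nat_lit 1) (nat_lit 0) (nat_lit 1) (nat_lit 0) (nat_lit 462) (nat_lit 334) (nat_lit 284)))) (XT.nd (nat_lit 188) (nat_lit 0) (nat_lit 0) (XT.nd (nat_lit 94) (nat_lit 0) (nat_lit 0) (XT.lf (nat_lit 0) (nat_lit 2975557125054) (nat_lit 0) (nat_lit 0) (nat_lit 0) (nat_lit 0) (nat_lit 0) (nat_lit 0) (nat_lit 1) (nat_lit 0) (nat_lit 1) (nat_lit 0) (nat_lit 463) (nat_lit 334) (nat_lit 283)) (XT.lf (nat_lit 0) (nat_lit 3213589639744) (nat_lit 0) (nat_lit 0) (nat_lit 0) (nat_lit 0) (nat_lit 0) (nat_lit 0) (nat_lit 1) (nat_lit 0) (nat_lit 1) (nat_lit 0) (nat_lit 464) (nat_lit 334) (nat_lit 282))) (XT.nd (nat_lit 94) (nat_lit 0) (nat_lit 0) (XT.lf (nat_lit 0) (nat_lit 3470664788319) (nat_lit 0) (nat_lit 0) (nat_lit 0) (nat_lit 0) (nat_lit 0) (nat_lit 0) (nat_lit 1) (nat_lit 0) (nat_lit 1) (nat_lit 0) (nat_lit 465) (nat_lit 334) (nat_lit 281)) (XT.lf (nat_lit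 0) (nat_lit 3748305979066) (nat_lit 0) (nat_lit 0) (nat_lit 0) (nat_lit 0) (nat_lit 0) (nat_lit 0) (nat_lit 1) (nat_lit 0) (nat_lit 1) (nat_lit 0) (nat_lit 466) (nat_lit 334) (nat_lit 280))))))) (XT.nd (nat_lit 1316) (nat_lit 0) (nat_lit 0) (XT.nd (nat_lit 658) (nat_lit 0) (nat_lit 0) (XT.nd (nat_lit 282) (nat_lit 0) (nat_lit 0) (XT.nd (nat_lit 94) (nat_lit 0) (nat_lit 0) (XT.lf (nat_lit 0) (nat_lit 4048158493115) (nat_lit 0) (nat_lit 0) (nat_lit 0) (nat_lit 0) (nat_lit 0) (nat_lit 0) (nat_lit 1) (nat_lit 0) (nat_lit 1) (nat_lit 0) (nat_lit 467) (nat_lit 334) (nat_lit 279)) (XT.nd (nat_lit 94) (nat_lit 0) (nat_lit 0) (XT.lf (nat_lit 0) (nat_lit 4371999234254) (nat_lit 0) (nat_lit 0) (nat_lit 0) (nat_lit 0) (nat_lit 0) (nat_lit 0) (nat_lit 1) (nat_lit 0) (nat_lit 1) (nat_lit 0) (nat_lit 468) (nat_lit 334) (nat_lit 278)) (XT.lf (nat_lit 0) (nat_lit 4721747258725)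 (nat_lit 0) (nat_lit 0) (nat_lit 0) (nat_lit 0) (nat_lit 0) (nat_lit 0) (nat_lit 1) (nat_lit 0) (nat_lit 1) (nat_lit 0) (nat_lit 469) (nat_lit 334) (nat_lit 277)))) (XT.nd (nat_lit 188) (nat_lit 0) (nat_lit 0) (XT.nd (nat_lit 94) (nat_lit 0) (nat_lit 0) (XT.lf (nat_lit 0) (nat_lit 5099475147416) (nat_lit 0) (nat_lit 0) (nat_lit 0) (nat_lit 0) (nat_lit 0) (nat_lit 0) (nat_lit 1) (nat_lit 0) (nat_lit 1) (nat_lit 0) (nat_lit 470) (nat_lit 334) (nat_lit 276)) (XT.lf (nat_lit 0) (nat_lit 5507421287814) (nat_lit 0) (nat_lit 0) (nat_lit 0) (nat_lit 0) (nat_lit 0) (nat_lit 0) (nat_lit 1) (nat_lit 0) (nat_lit 1) (nat_lit 0) (nat_lit 471) (nat_lit 334) (nat_lit 275))) (XT.nd (nat_lit 94) (nat_lit 0) (nat_lit 0) (XT.lf (nat_lit 0) (nat_lit 5948003138529) (nat_lit 0) (nat_lit 0) (nat_lit 0) (nat_lit 0) (nat_lit 0) (nat_lit 0) (nat_lit 1) (nat_lit 0) (nat_lit 1) (nat_lit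 0) (nat_lit 472) (nat_lit 334) (nat_lit 274)) (XT.lf (nat_lit 0) (nat_lit 6423831554973) (nat_lit 0) (nat_lit 0) (nat_lit 0) (nat_lit 0) (nat_lit 0) (nat_lit 0) (nat_lit 1) (nat_lit 0) (nat_lit 1) (nat_lit 0) (nat_lit 473) (nat_lit 334) (nat_lit 273))))) (XT.nd (nat_lit 282) (nat_lit 0) (nat_lit 0) (XT.nd (nat_lit 94) (nat_lit 0) (nat_lit 0) (XT.lf (nat_lit 0) (nat_lit 6937726261095) (nat_lit 0) (nat_lit 0) (nat_lit 0) (nat_lit 0) (nat_lit 0) (nat_lit 0) (nat_lit 1) (nat_lit 0) (nat_lit 1) (nat_lit 0) (nat_lit 474) (nat_lit 334) (nat_lit 272)) (XT.nd (nat_lit 94) (nat_lit 0) (nat_lit 0) (XT.lf (nat_lit 0) (nat_lit 7492732558857) (nat_lit 0) (nat_lit 0) (nat_lit 0) (nat_lit 0) (nat_lit 0) (nat_lit 0) (nat_lit 1) (nat_lit 0) (nat_lit 1) (nat_lit 0) (nat_lit 475) (nat_lit 334) (nat_lit 271)) (XT.lf (nat_lit 0) (nat_lit 8092139374469) (nat_lit 0) (nat_lit 0) (nat_lit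 0) (nat_lit 0) (nat_lit 0) (nat_lit 0) (nat_lit 1) (nat_lit 0) (nat_lit 1) (nat_lit 0) (nat_lit 476) (nat_lit 334) (nat_lit 270)))) (XT.nd (nat_lit 188) (nat_lit 0) (nat_lit 0) (XT.nd (nat_lit 94) (nat_lit 0) (nat_lit 0) (XT.lf (nat_lit 0) (nat_lit 8739498748319) (nat_lit 0) (nat_lit 0) (nat_lit 0) (nat_lit 0) (nat_lit 0) (nat_lit 0) (nat_lit 1) (nat_lit 0) (nat_lit 1) (nat_lit 0) (nat_lit 477) (nat_lit 334) (nat_lit 269)) (XT.lf (nat_lit 0) (nat_lit 9438646884104) (nat_lit 0) (nat_lit 0) (nat_lit 0) (nat_lit 0) (nat_lit 0) (nat_lit 0) (nat_lit 1) (nat_lit 0) (nat_lit 1) (nat_lit 0) (nat_lit 478) (nat_lit 334) (nat_lit 268))) (XT.nd (nat_lit 94) (nat_lit 0) (nat_lit 0) (XT.lf (nat_lit 0) (nat_lit 10193726881888) (nat_lit 0) (nat_lit 0) (nat_lit 0) (nat_lit 0) (nat_lit 0) (nat_lit 0) (nat_lit 1) (nat_lit 0) (nat_lit 1) (nat_lit 0) (nat_lit 479) (nat_lit 334)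 (nat_lit 267)) (XT.lf (nat_lit 0) (nat_lit 11009213289805) (nat_lit 0) (nat_lit 0) (nat_lit 0) (nat_lit 0) (nat_lit 0) (nat_lit 0) (nat_lit 1) (nat_lit 0) (nat_lit 1) (nat_lit 0) (nat_lit 480) (nat_lit 334) (nat_lit 266)))))) (XT.nd (nat_lit 658) (nat_lit 0) (nat_lit 0) (XT.nd (nat_lit 282) (nat_lit 0) (nat_lit 0) (XT.nd (nat_lit 94) (nat_lit 0) (nat_lit 0) (XT.lf (nat_lit 0) (nat_lit 11889938619904) (nat_lit 0) (nat_lit 0) (nat_lit 0) (nat_lit 0) (nat_lit 0) (nat_lit 0) (nat_lit 1) (nat_lit 0) (nat_lit 1) (nat_lit 0) (nat_lit 481) (nat_lit 334) (nat_lit 265)) (XT.nd (nat_lit 94) (nat_lit 0) (nat_lit 0) (XT.lf (nat_lit 0) (nat_lit 12841121985251) (nat_lit 0) (nat_lit 0) (nat_lit 0) (nat_lit 0) (nat_lit 0) (nat_lit 0) (nat_lit 1) (nat_lit 0) (nat_lit 1) (nat_lit 0) (nat_lit 482) (nat_lit 334) (nat_lit 264)) (XT.lf (nat_lit 0) (nat_lit 13868400028010) (nat_lit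 0) (nat_lit 0) (nat_lit 0) (nat_lit 0) (nat_lit 0) (nat_lit 0) (nat_lit 1) (nat_lit 0) (nat_lit 1) (nat_lit 0) (nat_lit 483) (nat_lit 334) (nat_lit 263)))) (XT.nd (nat_lit 188) (nat_lit 0) (nat_lit 0) (XT.nd (nat_lit 94) (nat_lit 0) (nat_lit 0) (XT.lf (nat_lit 0) (nat_lit 14977860321770) (nat_lit 0) (nat_lit 0) (nat_lit 0) (nat_lit 0) (nat_lit 0) (nat_lit 0) (nat_lit 1) (nat_lit 0) (nat_lit 1) (nat_lit 0) (nat_lit 484) (nat_lit 334) (nat_lit 262)) (XT.lf (nat_lit 0) (nat_lit 16176077446048) (nat_lit 0) (nat_lit 0) (nat_lit 0) (nat_lit 0) (nat_lit 0) (nat_lit 0) (nat_lit 1) (nat_lit 0) (nat_lit 1) (nat_lit 0) (nat_lit 485) (nat_lit 334) (nat_lit 261))) (XT.nd (nat_lit 94) (nat_lit 0) (nat_lit 0) (XT.lf (nat_lit 0) (nat_lit 17470151946766) (nat_lit 0) (nat_lit 0) (nat_lit 0) (nat_lit 0) (nat_lit 0) (nat_lit 0) (nat_lit 1) (nat_lit 0) (nat_lit 1) (nat_lit 0)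 (nat_lit 486) (nat_lit 334) (nat_lit 260)) (XT.lf (nat_lit 0) (nat_lit 18867752413558) (nat_lit 0) (nat_lit 0) (nat_lit 0) (nat_lit 0) (nat_lit 0) (nat_lit 0) (nat_lit 1) (nat_lit 0) (nat_lit 1) (nat_lit 0) (nat_lit 487) (nat_lit 334) (nat_lit 259))))) (XT.nd (nat_lit 376) (nat_lit 0) (nat_lit 0) (XT.nd (nat_lit 188) (nat_lit 0) (nat_lit 0) (XT.nd (nat_lit 94) (nat_lit 0) (nat_lit 0) (XT.lf (nat_lit 0) (nat_lit 20377160923264) (nat_lit 0) (nat_lit 0) (nat_lit 0) (nat_lit 0) (nat_lit 0) (nat_lit 0) (nat_lit 1) (nat_lit 0) (nat_lit 1) (nat_lit 0) (nat_lit 488) (nat_lit 334) (nat_lit 258)) (XT.lf (nat_lit 0) (nat_lit 22007322118905) (nat_lit 0) (nat_lit 0) (nat_lit 0) (nat_lit 0) (nat_lit 0) (nat_lit 0) (nat_lit 1) (nat_lit 0) (nat_lit 1) (nat_lit 0) (nat_lit 489) (nat_lit 334) (nat_lit 257))) (XT.nd (nat_lit 94) (nat_lit 0) (nat_lit 0) (XT.lf (nat_lit 0) (nat_lit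 23767896214973) (nat_lit 0) (nat_lit 0) (nat_lit 0) (nat_lit 0) (nat_lit 0) (nat_lit 0) (nat_lit 1) (nat_lit 0) (nat_lit 1) (nat_lit 0) (nat_lit 490) (nat_lit 334) (nat_lit 256)) (XT.lf (nat_lit 0) (nat_lit 25669316243149) (nat_lit 0) (nat_lit 0) (nat_lit 0) (nat_lit 0) (nat_lit 0) (nat_lit 0) (nat_lit 1) (nat_lit 0) (nat_lit 1) (nat_lit 0) (nat_lit 491) (nat_lit 334) (nat_lit 255)))) (XT.nd (nat_lit 188) (nat_lit 0) (nat_lit 0) (XT.nd (nat_lit 94) (nat_lit 0) (nat_lit 0) (XT.lf (nat_lit 0) (nat_lit 27722849877674) (nat_lit 0) (nat_lit 0) (nat_lit 0) (nat_lit 0) (nat_lit 0) (nat_lit 0) (nat_lit 1) (nat_lit 0) (nat_lit 1) (nat_lit 0) (nat_lit 492) (nat_lit 334) (nat_lit 254)) (XT.lf (nat_lit 0) (nat_lit 29940666206752) (nat_lit 0) (nat_lit 0) (nat_lit 0) (nat_lit 0) (nat_lit 0) (nat_lit 0) (nat_lit 1) (nat_lit 0) (nat_lit 1) (nat_lit 0) (nat_lit 493) (nat_lit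 334) (nat_lit 253))) (XT.nd (nat_lit 94) (nat_lit 0) (nat_lit 0) (XT.lf (nat_lit 0) (nat_lit 32335907845667) (nat_lit 0) (nat_lit 0) (nat_lit 0) (nat_lit 0) (nat_lit 0) (nat_lit 0) (nat_lit 1) (nat_lit 0) (nat_lit 1) (nat_lit 0) (nat_lit 494) (nat_lit 334) (nat_lit 252)) (XT.lf (nat_lit 0) (nat_lit 34922768818946) (nat_lit 0) (nat_lit 0) (nat_lit 0) (nat_lit 0) (nat_lit 0) (nat_lit 0) (nat_lit 1) (nat_lit 0) (nat_lit 1) (nat_lit 0) (nat_lit 495) (nat_lit 334) (nat_lit 251))))))))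
noncomputable def xc38 : XT := (XT.nd (nat_lit 61946) (nat_lit 0) (nat_lit 0) (XT.nd (nat_lit 60630) (nat_lit 0) (nat_lit 0) (XT.nd (nat_lit 59972) (nat_lit 0) (nat_lit 0) (XT.nd (nat_lit 282) (nat_lit 0) (nat_lit 0) (XT.nd (nat_lit 94) (nat_lit 0) (nat_lit 0) (XT.lf (nat_lit 0) (nat_lit 37716578673097) (nat_lit 0) (nat_lit 0) (nat_lit 0) (nat_lit 0) (nat_lit 0) (nat_lit 0) (nat_lit 1) (nat_lit 0) (nat_lit 1) (nat_lit 0) (nat_lit 496) (nat_lit 334) (nat_lit 250)) (XT.nd (nat_lit 94) (nat_lit 0) (nat_lit 0) (XT.lf (nat_lit 0) (nat_lit 40733893318366) (nat_lit 0) (nat_lit 0) (nat_lit 0) (nat_lit 0) (nat_lit 0) (nat_lit 0) (nat_lit 1) (nat_lit 0) (nat_lit 1) (nat_lit 0) (nat_lit 497) (nat_lit 334) (nat_lit 249)) (XT.lf (nat_lit 0) (nat_lit 43992593137838) (nat_lit 0) (nat_lit 0) (nat_lit 0) (nat_lit 0) (nat_lit 0) (nat_lit 0) (nat_lit 1) (nat_lit 0) (nat_lit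 1) (nat_lit 0) (nat_lit 498) (nat_lit 334) (nat_lit 248)))) (XT.nd (nat_lit 59502) (nat_lit 0) (nat_lit 0) (XT.nd (nat_lit 59408) (nat_lit 0) (nat_lit 0) (XT.lf (nat_lit 0) (nat_lit 47511988945257) (nat_lit 0) (nat_lit 0) (nat_lit 0) (nat_lit 0) (nat_lit 0) (nat_lit 0) (nat_lit 1) (nat_lit 0) (nat_lit 1) (nat_lit 0) (nat_lit 499) (nat_lit 334) (nat_lit 247)) (XT.lf (nat_lit 0) (nat_lit 25336897015) (nat_lit 0) (nat_lit 0) (nat_lit 0) (nat_lit 0) (nat_lit 0) (nat_lit 0) (nat_lit 1) (nat_lit 0) (nat_lit 1) (nat_lit 0) (nat_lit 410) (nat_lit 335) (nat_lit 335))) (XT.nd (nat_lit 94) (nat_lit 0) (nat_lit 0) (XT.lf (nat_lit 0) (nat_lit 54690998125) (nat_lit 0) (nat_lit 0) (nat_lit 0) (nat_lit 0) (nat_lit 0) (nat_lit 0) (nat_lit 1) (nat_lit 0) (nat_lit 1) (nat_lit 0) (nat_lit 411) (nat_lit 335) (nat_lit 334)) (XT.lf (nat_lit 0) (nat_lit 59031367924) (nat_lit 0) (nat_lit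 0) (nat_lit 0) (nat_lit 0) (nat_lit 0) (nat_lit 0) (nat_lit 1) (nat_lit 0) (nat_lit 1) (nat_lit 0) (nat_lit 412) (nat_lit 335) (nat_lit 333))))) (XT.nd (nat_lit 282) (nat_lit 0) (nat_lit 0) (XT.nd (nat_lit 94) (nat_lit 0) (nat_lit 0) (XT.lf (nat_lit 0) (nat_lit 63720624136) (nat_lit 0) (nat_lit 0) (nat_lit 0) (nat_lit 0) (nat_lit 0) (nat_lit 0) (nat_lit 1) (nat_lit 0) (nat_lit 1) (nat_lit 0) (nat_lit 413) (nat_lit 335) (nat_lit 332)) (XT.nd (nat_lit 94) (nat_lit 0) (nat_lit 0) (XT.lf (nat_lit 0) (nat_lit 68786554948) (nat_lit 0) (nat_lit 0) (nat_lit 0) (nat_lit 0) (nat_lit 0) (nat_lit 0) (nat_lit 1) (nat_lit 0) (nat_lit 1) (nat_lit 0) (nat_lit 414) (nat_lit 335) (nat_lit 331)) (XT.lf (nat_lit 0) (nat_lit 74259180690) (nat_lit 0) (nat_lit 0) (nat_lit 0) (nat_lit 0) (nat_lit 0) (nat_lit 0) (nat_lit 1) (nat_lit 0) (nat_lit 1) (nat_lit 0) (nat_lit 415) (nat_lit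 335) (nat_lit 330)))) (XT.nd (nat_lit 188) (nat_lit 0) (nat_lit 0) (XT.nd (nat_lit 94) (nat_lit 0) (nat_lit 0) (XT.lf (nat_lit 0) (nat_lit 80170931737) (nat_lit 0) (nat_lit 0) (nat_lit 0) (nat_lit 0) (nat_lit 0) (nat_lit 0) (nat_lit 1) (nat_lit 0) (nat_lit 1) (nat_lit 0) (nat_lit 416) (nat_lit 335) (nat_lit 329)) (XT.lf (nat_lit 0) (nat_lit 86556840687) (nat_lit 0) (nat_lit 0) (nat_lit 0) (nat_lit 0) (nat_lit 0) (nat_lit 0) (nat_lit 1) (nat_lit 0) (nat_lit 1) (nat_lit 0) (nat_lit 417) (nat_lit 335) (nat_lit 328))) (XT.nd (nat_lit 94) (nat_lit 0) (nat_lit 0) (XT.lf (nat_lit 0) (nat_lit 93454749963) (nat_lit 0) (nat_lit 0) (nat_lit 0) (nat_lit 0) (nat_lit 0) (nat_lit 0) (nat_lit 1) (nat_lit 0) (nat_lit 1) (nat_lit 0) (nat_lit 418) (nat_lit 335) (nat_lit 327)) (XT.lf (nat_lit 0) (nat_lit 100905536066) (nat_lit 0) (nat_lit 0) (nat_lit 0) (nat_lit 0) (nat_lit 0)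 (nat_lit 0) (nat_lit 1) (nat_lit 0) (nat_lit 1) (nat_lit 0) (nat_lit 419) (nat_lit 335) (nat_lit 326)))))) (XT.nd (nat_lit 658) (nat_lit 0) (nat_lit 0) (XT.nd (nat_lit 282) (nat_lit 0) (nat_lit 0) (XT.nd (nat_lit 94) (nat_lit 0) (nat_lit 0) (XT.lf (nat_lit 0) (nat_lit 108953351802) (nat_lit 0) (nat_lit 0) (nat_lit 0) (nat_lit 0) (nat_lit 0) (nat_lit 0) (nat_lit 1) (nat_lit 0) (nat_lit 1) (nat_lit 0) (nat_lit 420) (nat_lit 335) (nat_lit 325)) (XT.nd (nat_lit 94) (nat_lit 0) (nat_lit 0) (XT.lf (nat_lit 0) (nat_lit 117645887931) (nat_lit 0) (nat_lit 0) (nat_lit 0) (nat_lit 0) (nat_lit 0) (nat_lit 0) (nat_lit 1) (nat_lit 0) (nat_lit 1) (nat_lit 0) (nat_lit 421) (nat_lit 335) (nat_lit 324)) (XT.lf (nat_lit 0) (nat_lit 127034655777) (nat_lit 0) (nat_lit 0) (nat_lit 0) (nat_lit 0) (nat_lit 0) (nat_lit 0) (nat_lit 1) (nat_lit 0) (nat_lit 1) (nat_lit 0) (nat_lit 422)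 (nat_lit 335) (nat_lit 323)))) (XT.nd (nat_lit 188) (nat_lit 0) (nat_lit 0) (XT.nd (nat_lit 94) (nat_lit 0) (nat_lit 0) (XT.lf (nat_lit 0) (nat_lit 137175292484) (nat_lit 0) (nat_lit 0) (nat_lit 0) (nat_lit 0) (nat_lit 0) (nat_lit 0) (nat_lit 1) (nat_lit 0) (nat_lit 1) (nat_lit 0) (nat_lit 423) (nat_lit 335) (nat_lit 322)) (XT.lf (nat_lit 0) (nat_lit 148127890714) (nat_lit 0) (nat_lit 0) (nat_lit 0) (nat_lit 0) (nat_lit 0) (nat_lit 0) (nat_lit 1) (nat_lit 0) (nat_lit 1) (nat_lit 0) (nat_lit 424) (nat_lit 335) (nat_lit 321))) (XT.nd (nat_lit 94) (nat_lit 0) (nat_lit 0) (XT.lf (nat_lit 0) (nat_lit 159957354753) (nat_lit 0) (nat_lit 0) (nat_lit 0) (nat_lit 0) (nat_lit 0) (nat_lit 0) (nat_lit 1) (nat_lit 0) (nat_lit 1) (nat_lit 0) (nat_lit 425) (nat_lit 335) (nat_lit 320)) (XT.lf (nat_lit 0) (nat_lit 172733785127) (nat_lit 0) (nat_lit 0) (nat_lit 0) (nat_lit 0)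 (nat_lit 0) (nat_lit 0) (nat_lit 1) (nat_lit 0) (nat_lit 1) (nat_lit 0) (nat_lit 426) (nat_lit 335) (nat_lit 319))))) (XT.nd (nat_lit 282) (nat_lit 0) (nat_lit 0) (XT.nd (nat_lit 94) (nat_lit 0) (nat_lit 0) (XT.lf (nat_lit 0) (nat_lit 186532894018) (nat_lit 0) (nat_lit 0) (nat_lit 0) (nat_lit 0) (nat_lit 0) (nat_lit 0) (nat_lit 1) (nat_lit 0) (nat_lit 1) (nat_lit 0) (nat_lit 427) (nat_lit 335) (nat_lit 318)) (XT.nd (nat_lit 94) (nat_lit 0) (nat_lit 0) (XT.lf (nat_lit 0) (nat_lit 201436453922) (nat_lit 0) (nat_lit 0) (nat_lit 0) (nat_lit 0) (nat_lit 0) (nat_lit 0) (nat_lit 1) (nat_lit 0) (nat_lit 1) (nat_lit 0) (nat_lit 428) (nat_lit 335) (nat_lit 317)) (XT.lf (nat_lit 0) (nat_lit 217532782231) (nat_lit 0) (nat_lit 0) (nat_lit 0) (nat_lit 0) (nat_lit 0) (nat_lit 0) (nat_lit 1) (nat_lit 0) (nat_lit 1) (nat_lit 0) (nat_lit 429) (nat_lit 335) (nat_lit 316))))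 (XT.nd (nat_lit 188) (nat_lit 0) (nat_lit 0) (XT.nd (nat_lit 94) (nat_lit 0) (nat_lit 0) (XT.lf (nat_lit 0) (nat_lit 234917264594) (nat_lit 0) (nat_lit 0) (nat_lit 0) (nat_lit 0) (nat_lit 0) (nat_lit 0) (nat_lit 1) (nat_lit 0) (nat_lit 1) (nat_lit 0) (nat_lit 430) (nat_lit 335) (nat_lit 315)) (XT.lf (nat_lit 0) (nat_lit 253692920167) (nat_lit 0) (nat_lit 0) (nat_lit 0) (nat_lit 0) (nat_lit 0) (nat_lit 0) (nat_lit 1) (nat_lit 0) (nat_lit 1) (nat_lit 0) (nat_lit 431) (nat_lit 335) (nat_lit 314))) (XT.nd (nat_lit 94) (nat_lit 0) (nat_lit 0) (XT.lf (nat_lit 0) (nat_lit 273971012094) (nat_lit 0) (nat_lit 0) (nat_lit 0) (nat_lit 0) (nat_lit 0) (nat_lit 0) (nat_lit 1) (nat_lit 0) (nat_lit 1) (nat_lit 0) (nat_lit 432) (nat_lit 335) (nat_lit 313)) (XT.lf (nat_lit 0) (nat_lit 295871706844) (nat_lit 0) (nat_lit 0) (nat_lit 0) (nat_lit 0) (nat_lit 0) (nat_lit 0) (nat_lit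 1) (nat_lit 0) (nat_lit 1) (nat_lit 0) (nat_lit 433) (nat_lit 335) (nat_lit 312))))))) (XT.nd (nat_lit 1316) (nat_lit 0) (nat_lit 0) (XT.nd (nat_lit 658) (nat_lit 0) (nat_lit 0) (XT.nd (nat_lit 282) (nat_lit 0) (nat_lit 0) (XT.nd (nat_lit 94) (nat_lit 0) (nat_lit 0) (XT.lf (nat_lit 0) (nat_lit 319524786313) (nat_lit 0) (nat_lit 0) (nat_lit 0) (nat_lit 0) (nat_lit 0) (nat_lit 0) (nat_lit 1) (nat_lit 0) (nat_lit 1) (nat_lit 0) (nat_lit 434) (nat_lit 335) (nat_lit 311)) (XT.nd (nat_lit 94) (nat_lit 0) (nat_lit 0) (XT.lf (nat_lit 0) (nat_lit 345070416898) (nat_lit 0) (nat_lit 0) (nat_lit 0) (nat_lit 0) (nat_lit 0) (nat_lit 0) (nat_lit 1) (nat_lit 0) (nat_lit 1) (nat_lit 0) (nat_lit 435) (nat_lit 335) (nat_lit 310)) (XT.lf (nat_lit 0) (nat_lit 372659980114) (nat_lit 0) (nat_lit 0) (nat_lit 0) (nat_lit 0) (nat_lit 0) (nat_lit 0) (nat_lit 1) (nat_lit 0) (nat_lit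 1) (nat_lit 0) (nat_lit 436) (nat_lit 335) (nat_lit 309)))) (XT.nd (nat_lit 188) (nat_lit 0) (nat_lit 0) (XT.nd (nat_lit 94) (nat_lit 0) (nat_lit 0) (XT.lf (nat_lit 0) (nat_lit 402456969667) (nat_lit 0) (nat_lit 0) (nat_lit 0) (nat_lit 0) (nat_lit 0) (nat_lit 0) (nat_lit 1) (nat_lit 0) (nat_lit 1) (nat_lit 0) (nat_lit 437) (nat_lit 335) (nat_lit 308)) (XT.lf (nat_lit 0) (nat_lit 434637960312) (nat_lit 0) (nat_lit 0) (nat_lit 0) (nat_lit 0) (nat_lit 0) (nat_lit 0) (nat_lit 1) (nat_lit 0) (nat_lit 1) (nat_lit 0) (nat_lit 438) (nat_lit 335) (nat_lit 307))) (XT.nd (nat_lit 94) (nat_lit 0) (nat_lit 0) (XT.lf (nat_lit 0) (nat_lit 469393654215) (nat_lit 0) (nat_lit 0) (nat_lit 0) (nat_lit 0) (nat_lit 0) (nat_lit 0) (nat_lit 1) (nat_lit 0) (nat_lit 1) (nat_lit 0) (nat_lit 439) (nat_lit 335) (nat_lit 306)) (XT.lf (nat_lit 0) (nat_lit 506930011043) (nat_lit 0) (nat_lit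 0) (nat_lit 0) (nat_lit 0) (nat_lit 0) (nat_lit 0) (nat_lit 1) (nat_lit 0) (nat_lit 1) (nat_lit 0) (nat_lit 440) (nat_lit 335) (nat_lit 305))))) (XT.nd (nat_lit 282) (nat_lit 0) (nat_lit 0) (XT.nd (nat_lit 94) (nat_lit 0) (nat_lit 0) (XT.lf (nat_lit 0) (nat_lit 547469468467) (nat_lit 0) (nat_lit 0) (nat_lit 0) (nat_lit 0) (nat_lit 0) (nat_lit 0) (nat_lit 1) (nat_lit 0) (nat_lit 1) (nat_lit 0) (nat_lit 441) (nat_lit 335) (nat_lit 304)) (XT.nd (nat_lit 94) (nat_lit 0) (nat_lit 0) (XT.lf (nat_lit 0) (nat_lit 591252260308) (nat_lit 0) (nat_lit 0) (nat_lit 0) (nat_lit 0) (nat_lit 0) (nat_lit 0) (nat_lit 1) (nat_lit 0) (nat_lit 1) (nat_lit 0) (nat_lit 442) (nat_lit 335) (nat_lit 303)) (XT.lf (nat_lit 0) (nat_lit 638537840148) (nat_lit 0) (nat_lit 0) (nat_lit 0) (nat_lit 0) (nat_lit 0) (nat_lit 0) (nat_lit 1) (nat_lit 0) (nat_lit 1) (nat_lit 0) (nat_lit 443) (nat_lit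 335) (nat_lit 302)))) (XT.nd (nat_lit 188) (nat_lit 0) (nat_lit 0) (XT.nd (nat_lit 94) (nat_lit 0) (nat_lit 0) (XT.lf (nat_lit 0) (nat_lit 689606418831) (nat_lit 0) (nat_lit 0) (nat_lit 0) (nat_lit 0) (nat_lit 0) (nat_lit 0) (nat_lit 1) (nat_lit 0) (nat_lit 1) (nat_lit 0) (nat_lit 444) (nat_lit 335) (nat_lit 301)) (XT.lf (nat_lit 0) (nat_lit 744760624969) (nat_lit 0) (nat_lit 0) (nat_lit 0) (nat_lit 0) (nat_lit 0) (nat_lit 0) (nat_lit 1) (nat_lit 0) (nat_lit 1) (nat_lit 0) (nat_lit 445) (nat_lit 335) (nat_lit 300))) (XT.nd (nat_lit 94) (nat_lit 0) (nat_lit 0) (XT.lf (nat_lit 0) (nat_lit 804327298305) (nat_lit 0) (nat_lit 0) (nat_lit 0) (nat_lit 0) (nat_lit 0) (nat_lit 0) (nat_lit 1) (nat_lit 0) (nat_lit 1) (nat_lit 0) (nat_lit 446) (nat_lit 335) (nat_lit 299)) (XT.lf (nat_lit 0) (nat_lit 868659426531) (nat_lit 0) (nat_lit 0) (nat_lit 0) (nat_lit 0) (nat_lit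 0) (nat_lit 0) (nat_lit 1) (nat_lit 0) (nat_lit 1) (nat_lit 0) (nat_lit 447) (nat_lit 335) (nat_lit 298)))))) (XT.nd (nat_lit 658) (nat_lit 0) (nat_lit 0) (XT.nd (nat_lit 282) (nat_lit 0) (nat_lit 0) (XT.nd (nat_lit 94) (nat_lit 0) (nat_lit 0) (XT.lf (nat_lit 0) (nat_lit 938138237074) (nat_lit 0) (nat_lit 0) (nat_lit 0) (nat_lit 0) (nat_lit 0) (nat_lit 0) (nat_lit 1) (nat_lit 0) (nat_lit 1) (nat_lit 0) (nat_lit 448) (nat_lit 335) (nat_lit 297)) (XT.nd (nat_lit 94) (nat_lit 0) (nat_lit 0) (XT.lf (nat_lit 0) (nat_lit 1013175456218) (nat_lit 0) (nat_lit 0) (nat_lit 0) (nat_lit 0) (nat_lit 0) (nat_lit 0) (nat_lit 1) (nat_lit 0) (nat_lit 1) (nat_lit 0) (nat_lit 449) (nat_lit 335) (nat_lit 296)) (XT.lf (nat_lit 0) (nat_lit 1094215748967) (nat_lit 0) (nat_lit 0) (nat_lit 0) (nat_lit 0) (nat_lit 0) (nat_lit 0) (nat_lit 1) (nat_lit 0) (nat_lit 1) (nat_lit 0) (nat_lit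 450) (nat_lit 335) (nat_lit 295)))) (XT.nd (nat_lit 188) (nat_lit 0) (nat_lit 0) (XT.nd (nat_lit 94) (nat_lit 0) (nat_lit 0) (XT.lf (nat_lit 0) (nat_lit 1181739354092) (nat_lit 0) (nat_lit 0) (nat_lit 0) (nat_lit 0) (nat_lit 0) (nat_lit 0) (nat_lit 1) (nat_lit 0) (nat_lit 1) (nat_lit 0) (nat_lit 451) (nat_lit 335) (nat_lit 294)) (XT.lf (nat_lit 0) (nat_lit 1276264929993) (nat_lit 0) (nat_lit 0) (nat_lit 0) (nat_lit 0) (nat_lit 0) (nat_lit 0) (nat_lit 1) (nat_lit 0) (nat_lit 1) (nat_lit 0) (nat_lit 452) (nat_lit 335) (nat_lit 293))) (XT.nd (nat_lit 94) (nat_lit 0) (nat_lit 0) (XT.lf (nat_lit 0) (nat_lit 1378352628232) (nat_lit 0) (nat_lit 0) (nat_lit 0) (nat_lit 0) (nat_lit 0) (nat_lit 0) (nat_lit 1) (nat_lit 0) (nat_lit 1) (nat_lit 0) (nat_lit 453) (nat_lit 335) (nat_lit 292)) (XT.lf (nat_lit 0) (nat_lit 1488607412946) (nat_lit 0) (nat_lit 0) (nat_lit 0) (nat_lit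 0) (nat_lit 0) (nat_lit 0) (nat_lit 1) (nat_lit 0) (nat_lit 1) (nat_lit 0) (nat_lit 454) (nat_lit 335) (nat_lit 291))))) (XT.nd (nat_lit 376) (nat_lit 0) (nat_lit 0) (XT.nd (nat_lit 188) (nat_lit 0) (nat_lit 0) (XT.nd (nat_lit 94) (nat_lit 0) (nat_lit 0) (XT.lf (nat_lit 0) (nat_lit 1607682645823) (nat_lit 0) (nat_lit 0) (nat_lit 0) (nat_lit 0) (nat_lit 0) (nat_lit 0) (nat_lit 1) (nat_lit 0) (nat_lit 1) (nat_lit 0) (nat_lit 455) (nat_lit 335) (nat_lit 290)) (XT.lf (nat_lit 0) (nat_lit 1736283957872) (nat_lit 0) (nat_lit 0) (nat_lit 0) (nat_lit 0) (nat_lit 0) (nat_lit 0) (nat_lit 1) (nat_lit 0) (nat_lit 1) (nat_lit 0) (nat_lit 456) (nat_lit 335) (nat_lit 289))) (XT.nd (nat_lit 94) (nat_lit 0) (nat_lit 0) (XT.lf (nat_lit 0) (nat_lit 1875173430942) (nat_lit 0) (nat_lit 0) (nat_lit 0) (nat_lit 0) (nat_lit 0) (nat_lit 0) (nat_lit 1) (nat_lit 0) (nat_lit 1) (nat_lit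 0) (nat_lit 457) (nat_lit 335) (nat_lit 288)) (XT.lf (nat_lit 0) (nat_lit 2025174113762) (nat_lit 0) (nat_lit 0) (nat_lit 0) (nat_lit 0) (nat_lit 0) (nat_lit 0) (nat_lit 1) (nat_lit 0) (nat_lit 1) (nat_lit 0) (nat_lit 458) (nat_lit 335) (nat_lit 287)))) (XT.nd (nat_lit 188) (nat_lit 0) (nat_lit 0) (XT.nd (nat_lit 94) (nat_lit 0) (nat_lit 0) (XT.lf (nat_lit 0) (nat_lit 2187174899269) (nat_lit 0) (nat_lit 0) (nat_lit 0) (nat_lit 0) (nat_lit 0) (nat_lit 0) (nat_lit 1) (nat_lit 0) (nat_lit 1) (nat_lit 0) (nat_lit 459) (nat_lit 335) (nat_lit 286)) (XT.lf (nat_lit 0) (nat_lit 2362135792116) (nat_lit 0) (nat_lit 0) (nat_lit 0) (nat_lit 0) (nat_lit 0) (nat_lit 0) (nat_lit 1) (nat_lit 0) (nat_lit 1) (nat_lit 0) (nat_lit 460) (nat_lit 335) (nat_lit 285))) (XT.nd (nat_lit 94) (nat_lit 0) (nat_lit 0) (XT.lf (nat_lit 0) (nat_lit 2551093597595) (nat_lit 0) (nat_lit 0) (nat_lit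 0) (nat_lit 0) (nat_lit 0) (nat_lit 0) (nat_lit 1) (nat_lit 0) (nat_lit 1) (nat_lit 0) (nat_lit 461) (nat_lit 335) (nat_lit 284)) (XT.lf (nat_lit 0) (nat_lit 2755168065663) (nat_lit 0) (nat_lit 0) (nat_lit 0) (nat_lit 0) (nat_lit 0) (nat_lit 0) (nat_lit 1) (nat_lit 0) (nat_lit 1) (nat_lit 0) (nat_lit 462) (nat_lit 335) (nat_lit 283))))))))
noncomputable def xc39 : XT := (XT.nd (nat_lit 2632) (nat_lit 0) (nat_lit 0) (XT.nd (nat_lit 1316) (nat_lit 0) (nat_lit 0) (XT.nd (nat_lit 658) (nat_lit 0) (nat_lit 0) (XT.nd (nat_lit 282) (nat_lit 0) (nat_lit 0) (XT.nd (nat_lit 94) (nat_lit 0) (nat_lit 0) (XT.lf (nat_lit 0) (nat_lit 2975568526503) (nat_lit 0) (nat_lit 0) (nat_lit 0) (nat_lit 0) (nat_lit 0) (nat_lit 0) (nat_lit 1) (nat_lit 0) (nat_lit 1) (nat_lit 0) (nat_lit 463) (nat_lit 335) (nat_lit 282)) (XT.nd (nat_lit 94) (nat_lit 0) (nat_lit 0) (XT.lf (nat_lit 0)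 (nat_lit 3213601056919) (nat_lit 0) (nat_lit 0) (nat_lit 0) (nat_lit 0) (nat_lit 0) (nat_lit 0) (nat_lit 1) (nat_lit 0) (nat_lit 1) (nat_lit 0) (nat_lit 464) (nat_lit 335) (nat_lit 281)) (XT.lf (nat_lit 0) (nat_lit 3470676220055) (nat_lit 0) (nat_lit 0) (nat_lit 0) (nat_lit 0) (nat_lit 0) (nat_lit 0) (nat_lit 1) (nat_lit 0) (nat_lit 1) (nat_lit 0) (nat_lit 465) (nat_lit 335) (nat_lit 280)))) (XT.nd (nat_lit 188) (nat_lit 0) (nat_lit 0) (XT.nd (nat_lit 94) (nat_lit 0) (nat_lit 0) (XT.lf (nat_lit 0) (nat_lit 3748317424284) (nat_lit 0) (nat_lit 0) (nat_lit 0) (nat_lit 0) (nat_lit 0) (nat_lit 0) (nat_lit 1) (nat_lit 0) (nat_lit 1) (nat_lit 0) (nat_lit 466) (nat_lit 335) (nat_lit 279)) (XT.lf (nat_lit 0) (nat_lit 4048169950816) (nat_lit 0) (nat_lit 0) (nat_lit 0) (nat_lit 0) (nat_lit 0) (nat_lit 0) (nat_lit 1) (nat_lit 0) (nat_lit 1) (nat_lit 0) (nat_lit 467) (nat_lit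 335) (nat_lit 278))) (XT.nd (nat_lit 94) (nat_lit 0) (nat_lit 0) (XT.lf (nat_lit 0) (nat_lit 4372010703513) (nat_lit 0) (nat_lit 0) (nat_lit 0) (nat_lit 0) (nat_lit 0) (nat_lit 0) (nat_lit 1) (nat_lit 0) (nat_lit 1) (nat_lit 0) (nat_lit 468) (nat_lit 335) (nat_lit 277)) (XT.lf (nat_lit 0) (nat_lit 4721758738687) (nat_lit 0) (nat_lit 0) (nat_lit 0) (nat_lit 0) (nat_lit 0) (nat_lit 0) (nat_lit 1) (nat_lit 0) (nat_lit 1) (nat_lit 0) (nat_lit 469) (nat_lit 335) (nat_lit 276))))) (XT.nd (nat_lit 282) (nat_lit 0) (nat_lit 0) (XT.nd (nat_lit 94) (nat_lit 0) (nat_lit 0) (XT.lf (nat_lit 0) (nat_lit 5099486637288) (nat_lit 0) (nat_lit 0) (nat_lit 0) (nat_lit 0) (nat_lit 0) (nat_lit 0) (nat_lit 1) (nat_lit 0) (nat_lit 1) (nat_lit 0) (nat_lit 470) (nat_lit 335) (nat_lit 275)) (XT.nd (nat_lit 94) (nat_lit 0) (nat_lit 0) (XT.lf (nat_lit 0) (nat_lit 5507432786861) (nat_lit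 0) (nat_lit 0) (nat_lit 0) (nat_lit 0) (nat_lit 0) (nat_lit 0) (nat_lit 1) (nat_lit 0) (nat_lit 1) (nat_lit 0) (nat_lit 471) (nat_lit 335) (nat_lit 274)) (XT.lf (nat_lit 0) (nat_lit 5948014646072) (nat_lit 0) (nat_lit 0) (nat_lit 0) (nat_lit 0) (nat_lit 0) (nat_lit 0) (nat_lit 1) (nat_lit 0) (nat_lit 1) (nat_lit 0) (nat_lit 472) (nat_lit 335) (nat_lit 273)))) (XT.nd (nat_lit 188) (nat_lit 0) (nat_lit 0) (XT.nd (nat_lit 94) (nat_lit 0) (nat_lit 0) (XT.lf (nat_lit 0) (nat_lit 6423843070383) (nat_lit 0) (nat_lit 0) (nat_lit 0) (nat_lit 0) (nat_lit 0) (nat_lit 0) (nat_lit 1) (nat_lit 0) (nat_lit 1) (nat_lit 0) (nat_lit 473) (nat_lit 335) (nat_lit 272)) (XT.lf (nat_lit 0) (nat_lit 6937737783789) (nat_lit 0) (nat_lit 0) (nat_lit 0) (nat_lit 0) (nat_lit 0) (nat_lit 0) (nat_lit 1) (nat_lit 0) (nat_lit 1) (nat_lit 0) (nat_lit 474) (nat_lit 335) (nat_lit 271))) (XT.nd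 (nat_lit 94) (nat_lit 0) (nat_lit 0) (XT.lf (nat_lit 0) (nat_lit 7492744088296) (nat_lit 0) (nat_lit 0) (nat_lit 0) (nat_lit 0) (nat_lit 0) (nat_lit 0) (nat_lit 1) (nat_lit 0) (nat_lit 1) (nat_lit 0) (nat_lit 475) (nat_lit 335) (nat_lit 270)) (XT.lf (nat_lit 0) (nat_lit 8092150910152) (nat_lit 0) (nat_lit 0) (nat_lit 0) (nat_lit 0) (nat_lit 0) (nat_lit 0) (nat_lit 1) (nat_lit 0) (nat_lit 1) (nat_lit 0) (nat_lit 476) (nat_lit 335) (nat_lit 269)))))) (XT.nd (nat_lit 658) (nat_lit 0) (nat_lit 0) (XT.nd (nat_lit 282) (nat_lit 0) (nat_lit 0) (XT.nd (nat_lit 94) (nat_lit 0) (nat_lit 0) (XT.lf (nat_lit 0) (nat_lit 8739510289784) (nat_lit 0) (nat_lit 0) (nat_lit 0) (nat_lit 0) (nat_lit 0) (nat_lit 0) (nat_lit 1) (nat_lit 0) (nat_lit 1) (nat_lit 0) (nat_lit 477) (nat_lit 335) (nat_lit 268)) (XT.nd (nat_lit 94) (nat_lit 0) (nat_lit 0) (XT.lf (nat_lit 0) (nat_lit 9438658430923)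 (nat_lit 0) (nat_lit 0) (nat_lit 0) (nat_lit 0) (nat_lit 0) (nat_lit 0) (nat_lit 1) (nat_lit 0) (nat_lit 1) (nat_lit 0) (nat_lit 478) (nat_lit 335) (nat_lit 267)) (XT.lf (nat_lit 0) (nat_lit 10193738433664) (nat_lit 0) (nat_lit 0) (nat_lit 0) (nat_lit 0) (nat_lit 0) (nat_lit 0) (nat_lit 1) (nat_lit 0) (nat_lit 1) (nat_lit 0) (nat_lit 479) (nat_lit 335) (nat_lit 266)))) (XT.nd (nat_lit 188) (nat_lit 0) (nat_lit 0) (XT.nd (nat_lit 94) (nat_lit 0) (nat_lit 0) (XT.lf (nat_lit 0) (nat_lit 11009224846172) (nat_lit 0) (nat_lit 0) (nat_lit 0) (nat_lit 0) (nat_lit 0) (nat_lit 0) (nat_lit 1) (nat_lit 0) (nat_lit 1) (nat_lit 0) (nat_lit 480) (nat_lit 335) (nat_lit 265)) (XT.lf (nat_lit 0) (nat_lit 11889950180521) (nat_lit 0) (nat_lit 0) (nat_lit 0) (nat_lit 0) (nat_lit 0) (nat_lit 0) (nat_lit 1) (nat_lit 0) (nat_lit 1) (nat_lit 0) (nat_lit 481) (nat_lit 335) (nat_lit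 264))) (XT.nd (nat_lit 94) (nat_lit 0) (nat_lit 0) (XT.lf (nat_lit 0) (nat_lit 12841133549803) (nat_lit 0) (nat_lit 0) (nat_lit 0) (nat_lit 0) (nat_lit 0) (nat_lit 0) (nat_lit 1) (nat_lit 0) (nat_lit 1) (nat_lit 0) (nat_lit 482) (nat_lit 335) (nat_lit 263)) (XT.lf (nat_lit 0) (nat_lit 13868411596206) (nat_lit 0) (nat_lit 0) (nat_lit 0) (nat_lit 0) (nat_lit 0) (nat_lit 0) (nat_lit 1) (nat_lit 0) (nat_lit 1) (nat_lit 0) (nat_lit 483) (nat_lit 335) (nat_lit 262))))) (XT.nd (nat_lit 282) (nat_lit 0) (nat_lit 0) (XT.nd (nat_lit 94) (nat_lit 0) (nat_lit 0) (XT.lf (nat_lit 0) (nat_lit 14977871893340) (nat_lit 0) (nat_lit 0) (nat_lit 0) (nat_lit 0) (nat_lit 0) (nat_lit 0) (nat_lit 1) (nat_lit 0) (nat_lit 1) (nat_lit 0) (nat_lit 484) (nat_lit 335) (nat_lit 261)) (XT.nd (nat_lit 94) (nat_lit 0) (nat_lit 0) (XT.lf (nat_lit 0) (nat_lit 16176089020742) (nat_lit 0) (nat_lit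 0) (nat_lit 0) (nat_lit 0) (nat_lit 0) (nat_lit 0) (nat_lit 1) (nat_lit 0) (nat_lit 1) (nat_lit 0) (nat_lit 485) (nat_lit 335) (nat_lit 260)) (XT.lf (nat_lit 0) (nat_lit 17470163524352) (nat_lit 0) (nat_lit 0) (nat_lit 0) (nat_lit 0) (nat_lit 0) (nat_lit 0) (nat_lit 1) (nat_lit 0) (nat_lit 1) (nat_lit 0) (nat_lit 486) (nat_lit 335) (nat_lit 259)))) (XT.nd (nat_lit 188) (nat_lit 0) (nat_lit 0) (XT.nd (nat_lit 94) (nat_lit 0) (nat_lit 0) (XT.lf (nat_lit 0) (nat_lit 18867763993823) (nat_lit 0) (nat_lit 0) (nat_lit 0) (nat_lit 0) (nat_lit 0) (nat_lit 0) (nat_lit 1) (nat_lit 0) (nat_lit 1) (nat_lit 0) (nat_lit 487) (nat_lit 335) (nat_lit 258)) (XT.lf (nat_lit 0) (nat_lit 20377172506009) (nat_lit 0) (nat_lit 0) (nat_lit 0) (nat_lit 0) (nat_lit 0) (nat_lit 0) (nat_lit 1) (nat_lit 0) (nat_lit 1) (nat_lit 0) (nat_lit 488) (nat_lit 335) (nat_lit 257))) (XT.nd (nat_lit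 94) (nat_lit 0) (nat_lit 0) (XT.lf (nat_lit 0) (nat_lit 22007333703946) (nat_lit 0) (nat_lit 0) (nat_lit 0) (nat_lit 0) (nat_lit 0) (nat_lit 0) (nat_lit 1) (nat_lit 0) (nat_lit 1) (nat_lit 0) (nat_lit 489) (nat_lit 335) (nat_lit 256)) (XT.lf (nat_lit 0) (nat_lit 23767907802140) (nat_lit 0) (nat_lit 0) (nat_lit 0) (nat_lit 0) (nat_lit 0) (nat_lit 0) (nat_lit 1) (nat_lit 0) (nat_lit 1) (nat_lit 0) (nat_lit 490) (nat_lit 335) (nat_lit 255))))))) (XT.nd (nat_lit 60536) (nat_lit 0) (nat_lit 0) (XT.nd (nat_lit 658) (nat_lit 0) (nat_lit 0) (XT.nd (nat_lit 282) (nat_lit 0) (nat_lit 0) (XT.nd (nat_lit 94) (nat_lit 0) (nat_lit 0) (XT.lf (nat_lit 0) (nat_lit 25669327832285) (nat_lit 0) (nat_lit 0) (nat_lit 0) (nat_lit 0) (nat_lit 0) (nat_lit 0) (nat_lit 1) (nat_lit 0) (nat_lit 1) (nat_lit 0) (nat_lit 491) (nat_lit 335) (nat_lit 254)) (XT.nd (nat_lit 94) (nat_lit 0) (nat_lit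 0) (XT.lf (nat_lit 0) (nat_lit 27722861468632) (nat_lit 0) (nat_lit 0) (nat_lit 0) (nat_lit 0) (nat_lit 0) (nat_lit 0) (nat_lit 1) (nat_lit 0) (nat_lit 1) (nat_lit 0) (nat_lit 492) (nat_lit 335) (nat_lit 253)) (XT.lf (nat_lit 0) (nat_lit 29940677799398) (nat_lit 0) (nat_lit 0) (nat_lit 0) (nat_lit 0) (nat_lit 0) (nat_lit 0) (nat_lit 1) (nat_lit 0) (nat_lit 1) (nat_lit 0) (nat_lit 493) (nat_lit 335) (nat_lit 252)))) (XT.nd (nat_lit 188) (nat_lit 0) (nat_lit 0) (XT.nd (nat_lit 94) (nat_lit 0) (nat_lit 0) (XT.lf (nat_lit 0) (nat_lit 32335919439876) (nat_lit 0) (nat_lit 0) (nat_lit 0) (nat_lit 0) (nat_lit 0) (nat_lit 0) (nat_lit 1) (nat_lit 0) (nat_lit 1) (nat_lit 0) (nat_lit 494) (nat_lit 335) (nat_lit 251)) (XT.lf (nat_lit 0) (nat_lit 34922780414602) (nat_lit 0) (nat_lit 0) (nat_lit 0) (nat_lit 0) (nat_lit 0) (nat_lit 0) (nat_lit 1) (nat_lit 0) (nat_lit 1) (nat_lit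 0) (nat_lit 495) (nat_lit 335) (nat_lit 250))) (XT.nd (nat_lit 94) (nat_lit 0) (nat_lit 0) (XT.lf (nat_lit 0) (nat_lit 37716590270092) (nat_lit 0) (nat_lit 0) (nat_lit 0) (nat_lit 0) (nat_lit 0) (nat_lit 0) (nat_lit 1) (nat_lit 0) (nat_lit 1) (nat_lit 0) (nat_lit 496) (nat_lit 335) (nat_lit 249)) (XT.lf (nat_lit 0) (nat_lit 40733904916602) (nat_lit 0) (nat_lit 0) (nat_lit 0) (nat_lit 0) (nat_lit 0) (nat_lit 0) (nat_lit 1) (nat_lit 0) (nat_lit 1) (nat_lit 0) (nat_lit 497) (nat_lit 335) (nat_lit 248))))) (XT.nd (nat_lit 59502) (nat_lit 0) (nat_lit 0) (XT.nd (nat_lit 59314) (nat_lit 0) (nat_lit 0) (XT.lf (nat_lit 0) (nat_lit 43992604737223) (nat_lit 0) (nat_lit 0) (nat_lit 0) (nat_lit 0) (nat_lit 0) (nat_lit 0) (nat_lit 1) (nat_lit 0) (nat_lit 1) (nat_lit 0) (nat_lit 498) (nat_lit 335) (nat_lit 247)) (XT.nd (nat_lit 94) (nat_lit 0) (nat_lit 0) (XT.lf (nat_lit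 0) (nat_lit 21757215448) (nat_lit 0) (nat_lit 0) (nat_lit 0) (nat_lit 0) (nat_lit 0) (nat_lit 0) (nat_lit 1) (nat_lit 0) (nat_lit 1) (nat_lit 0) (nat_lit 408) (nat_lit 336) (nat_lit 336)) (XT.lf (nat_lit 0) (nat_lit 46955949987) (nat_lit 0) (nat_lit 0) (nat_lit 0) (nat_lit 0) (nat_lit 0) (nat_lit 0) (nat_lit 1) (nat_lit 0) (nat_lit 1) (nat_lit 0) (nat_lit 409) (nat_lit 336) (nat_lit 335)))) (XT.nd (nat_lit 188) (nat_lit 0) (nat_lit 0) (XT.nd (nat_lit 94) (nat_lit 0) (nat_lit 0) (XT.lf (nat_lit 0) (nat_lit 50674723130) (nat_lit 0) (nat_lit 0) (nat_lit 0) (nat_lit 0) (nat_lit 0) (nat_lit 0) (nat_lit 1) (nat_lit 0) (nat_lit 1) (nat_lit 0) (nat_lit 410) (nat_lit 336) (nat_lit 334)) (XT.lf (nat_lit 0) (nat_lit 54692787502) (nat_lit 0) (nat_lit 0) (nat_lit 0) (nat_lit 0) (nat_lit 0) (nat_lit 0) (nat_lit 1) (nat_lit 0) (nat_lit 1) (nat_lit 0) (nat_lit 411) (nat_lit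 336) (nat_lit 333))) (XT.nd (nat_lit 94) (nat_lit 0) (nat_lit 0) (XT.lf (nat_lit 0) (nat_lit 59033953853) (nat_lit 0) (nat_lit 0) (nat_lit 0) (nat_lit 0) (nat_lit 0) (nat_lit 0) (nat_lit 1) (nat_lit 0) (nat_lit 1) (nat_lit 0) (nat_lit 412) (nat_lit 336) (nat_lit 332)) (XT.lf (nat_lit 0) (nat_lit 63723947615) (nat_lit 0) (nat_lit 0) (nat_lit 0) (nat_lit 0) (nat_lit 0) (nat_lit 0) (nat_lit 1) (nat_lit 0) (nat_lit 1) (nat_lit 0) (nat_lit 413) (nat_lit 336) (nat_lit 331)))))) (XT.nd (nat_lit 658) (nat_lit 0) (nat_lit 0) (XT.nd (nat_lit 282) (nat_lit 0) (nat_lit 0) (XT.nd (nat_lit 94) (nat_lit 0) (nat_lit 0) (XT.lf (nat_lit 0) (nat_lit 68790561343) (nat_lit 0) (nat_lit 0) (nat_lit 0) (nat_lit 0) (nat_lit 0) (nat_lit 0) (nat_lit 1) (nat_lit 0) (nat_lit 1) (nat_lit 0) (nat_lit 414) (nat_lit 336) (nat_lit 330)) (XT.nd (nat_lit 94) (nat_lit 0) (nat_lit 0) (XT.lf (nat_lit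 0) (nat_lit 74263819414) (nat_lit 0) (nat_lit 0) (nat_lit 0) (nat_lit 0) (nat_lit 0) (nat_lit 0) (nat_lit 1) (nat_lit 0) (nat_lit 1) (nat_lit 0) (nat_lit 415) (nat_lit 336) (nat_lit 329)) (XT.lf (nat_lit 0) (nat_lit 80176155951) (nat_lit 0) (nat_lit 0) (nat_lit 0) (nat_lit 0) (nat_lit 0) (nat_lit 0) (nat_lit 1) (nat_lit 0) (nat_lit 1) (nat_lit 0) (nat_lit 416) (nat_lit 336) (nat_lit 328)))) (XT.nd (nat_lit 188) (nat_lit 0) (nat_lit 0) (XT.nd (nat_lit 94) (nat_lit 0) (nat_lit 0) (XT.lf (nat_lit 0) (nat_lit 86562607022) (nat_lit 0) (nat_lit 0) (nat_lit 0) (nat_lit 0) (nat_lit 0) (nat_lit 0) (nat_lit 1) (nat_lit 0) (nat_lit 1) (nat_lit 0) (nat_lit 417) (nat_lit 336) (nat_lit 327)) (XT.lf (nat_lit 0) (nat_lit 93461018262) (nat_lit 0) (nat_lit 0) (nat_lit 0) (nat_lit 0) (nat_lit 0) (nat_lit 0) (nat_lit 1) (nat_lit 0) (nat_lit 1) (nat_lit 0) (nat_lit 418) (nat_lit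 336) (nat_lit 326))) (XT.nd (nat_lit 94) (nat_lit 0) (nat_lit 0) (XT.lf (nat_lit 0) (nat_lit 100912269146) (nat_lit 0) (nat_lit 0) (nat_lit 0) (nat_lit 0) (nat_lit 0) (nat_lit 0) (nat_lit 1) (nat_lit 0) (nat_lit 1) (nat_lit 0) (nat_lit 419) (nat_lit 336) (nat_lit 325)) (XT.lf (nat_lit 0) (nat_lit 108960515234) (nat_lit 0) (nat_lit 0) (nat_lit 0) (nat_lit 0) (nat_lit 0) (nat_lit 0) (nat_lit 1) (nat_lit 0) (nat_lit 1) (nat_lit 0) (nat_lit 420) (nat_lit 336) (nat_lit 324))))) (XT.nd (nat_lit 376) (nat_lit 0) (nat_lit 0) (XT.nd (nat_lit 188) (nat_lit 0) (nat_lit 0) (XT.nd (nat_lit 94) (nat_lit 0) (nat_lit 0) (XT.lf (nat_lit 0) (nat_lit 117653449838) (nat_lit 0) (nat_lit 0) (nat_lit 0) (nat_lit 0) (nat_lit 0) (nat_lit 0) (nat_lit 1) (nat_lit 0) (nat_lit 1) (nat_lit 0) (nat_lit 421) (nat_lit 336) (nat_lit 323)) (XT.lf (nat_lit 0) (nat_lit 127042586642) (nat_lit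 0) (nat_lit 0) (nat_lit 0) (nat_lit 0) (nat_lit 0) (nat_lit 0) (nat_lit 1) (nat_lit 0) (nat_lit 1) (nat_lit 0) (nat_lit 422) (nat_lit 336) (nat_lit 322))) (XT.nd (nat_lit 94) (nat_lit 0) (nat_lit 0) (XT.lf (nat_lit 0) (nat_lit 137183564978) (nat_lit 0) (nat_lit 0) (nat_lit 0) (nat_lit 0) (nat_lit 0) (nat_lit 0) (nat_lit 1) (nat_lit 0) (nat_lit 1) (nat_lit 0) (nat_lit 423) (nat_lit 336) (nat_lit 321)) (XT.lf (nat_lit 0) (nat_lit 148136479530) (nat_lit 0) (nat_lit 0) (nat_lit 0) (nat_lit 0) (nat_lit 0) (nat_lit 0) (nat_lit 1) (nat_lit 0) (nat_lit 1) (nat_lit 0) (nat_lit 424) (nat_lit 336) (nat_lit 320)))) (XT.nd (nat_lit 188) (nat_lit 0) (nat_lit 0) (XT.nd (nat_lit 94) (nat_lit 0) (nat_lit 0) (XT.lf (nat_lit 0) (nat_lit 159966236459) (nat_lit 0) (nat_lit 0) (nat_lit 0) (nat_lit 0) (nat_lit 0) (nat_lit 0) (nat_lit 1) (nat_lit 0) (nat_lit 1) (nat_lit 0) (nat_lit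 425) (nat_lit 336) (nat_lit 319)) (XT.lf (nat_lit 0) (nat_lit 172742938029) (nat_lit 0) (nat_lit 0) (nat_lit 0) (nat_lit 0) (nat_lit 0) (nat_lit 0) (nat_lit 1) (nat_lit 0) (nat_lit 1) (nat_lit 0) (nat_lit 426) (nat_lit 336) (nat_lit 318))) (XT.nd (nat_lit 94) (nat_lit 0) (nat_lit 0) (XT.lf (nat_lit 0) (nat_lit 186542298026) (nat_lit 0) (nat_lit 0) (nat_lit 0) (nat_lit 0) (nat_lit 0) (nat_lit 0) (nat_lit 1) (nat_lit 0) (nat_lit 1) (nat_lit 0) (nat_lit 427) (nat_lit 336) (nat_lit 317)) (XT.lf (nat_lit 0) (nat_lit 201446090436) (nat_lit 0) (nat_lit 0) (nat_lit 0) (nat_lit 0) (nat_lit 0) (nat_lit 0) (nat_lit 1) (nat_lit 0) (nat_lit 1) (nat_lit 0) (nat_lit 428) (nat_lit 336) (nat_lit 316))))))))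
noncomputable def xc40 : XT := (XT.nd (nat_lit 2632) (nat_lit 0) (nat_lit 0) (XT.nd (nat_lit 1316) (nat_lit 0) (nat_lit 0) (XT.nd (nat_lit 658) (nat_lit 0) (nat_lit 0) (XT.nd (nat_lit 282) (nat_lit 0) (nat_lit 0) (XT.nd (nat_lit 94) (nat_lit 0) (nat_lit 0) (XT.lf (nat_lit 0) (nat_lit 217542634029) (nat_lit 0) (nat_lit 0) (nat_lit 0) (nat_lit 0) (nat_lit 0) (nat_lit 0) (nat_lit 1) (nat_lit 0) (nat_lit 1) (nat_lit 0) (nat_lit 429) (nat_lit 336) (nat_lit 315)) (XT.nd (nat_lit 94) (nat_lit 0) (nat_lit 0) (XT.lf (nat_lit 0) (nat_lit 234927315729) (nat_lit 0) (nat_lit 0) (nat_lit 0) (nat_lit 0) (nat_lit 0) (nat_lit 0) (nat_lit 1) (nat_lit 0) (nat_lit 1) (nat_lit 0) (nat_lit 430) (nat_lit 336) (nat_lit 314)) (XT.lf (nat_lit 0) (nat_lit 253703155873) (nat_lit 0) (nat_lit 0) (nat_lit 0) (nat_lit 0) (nat_lit 0) (nat_lit 0) (nat_lit 1) (nat_lit 0) (nat_lit 1) (nat_lit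 0) (nat_lit 431) (nat_lit 336) (nat_lit 313)))) (XT.nd (nat_lit 188) (nat_lit 0) (nat_lit 0) (XT.nd (nat_lit 94) (nat_lit 0) (nat_lit 0) (XT.lf (nat_lit 0) (nat_lit 273981418698) (nat_lit 0) (nat_lit 0) (nat_lit 0) (nat_lit 0) (nat_lit 0) (nat_lit 0) (nat_lit 1) (nat_lit 0) (nat_lit 1) (nat_lit 0) (nat_lit 432) (nat_lit 336) (nat_lit 312)) (XT.lf (nat_lit 0) (nat_lit 295882271689) (nat_lit 0) (nat_lit 0) (nat_lit 0) (nat_lit 0) (nat_lit 0) (nat_lit 0) (nat_lit 1) (nat_lit 0) (nat_lit 1) (nat_lit 0) (nat_lit 433) (nat_lit 336) (nat_lit 311))) (XT.nd (nat_lit 94) (nat_lit 0) (nat_lit 0) (XT.lf (nat_lit 0) (nat_lit 319535497676) (nat_lit 0) (nat_lit 0) (nat_lit 0) (nat_lit 0) (nat_lit 0) (nat_lit 0) (nat_lit 1) (nat_lit 0) (nat_lit 1) (nat_lit 0) (nat_lit 434) (nat_lit 336) (nat_lit 310)) (XT.lf (nat_lit 0) (nat_lit 345081263926) (nat_lit 0) (nat_lit 0) (nat_lit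 0) (nat_lit 0) (nat_lit 0) (nat_lit 0) (nat_lit 1) (nat_lit 0) (nat_lit 1) (nat_lit 0) (nat_lit 435) (nat_lit 336) (nat_lit 309))))) (XT.nd (nat_lit 282) (nat_lit 0) (nat_lit 0) (XT.nd (nat_lit 94) (nat_lit 0) (nat_lit 0) (XT.lf (nat_lit 0) (nat_lit 372670952758) (nat_lit 0) (nat_lit 0) (nat_lit 0) (nat_lit 0) (nat_lit 0) (nat_lit 0) (nat_lit 1) (nat_lit 0) (nat_lit 1) (nat_lit 0) (nat_lit 436) (nat_lit 336) (nat_lit 308)) (XT.nd (nat_lit 94) (nat_lit 0) (nat_lit 0) (XT.lf (nat_lit 0) (nat_lit 402468058622) (nat_lit 0) (nat_lit 0) (nat_lit 0) (nat_lit 0) (nat_lit 0) (nat_lit 0) (nat_lit 1) (nat_lit 0) (nat_lit 1) (nat_lit 0) (nat_lit 437) (nat_lit 336) (nat_lit 307)) (XT.lf (nat_lit 0) (nat_lit 434649156962) (nat_lit 0) (nat_lit 0) (nat_lit 0) (nat_lit 0) (nat_lit 0) (nat_lit 0) (nat_lit 1) (nat_lit 0) (nat_lit 1) (nat_lit 0) (nat_lit 438) (nat_lit 336) (nat_lit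 306)))) (XT.nd (nat_lit 188) (nat_lit 0) (nat_lit 0) (XT.nd (nat_lit 94) (nat_lit 0) (nat_lit 0) (XT.lf (nat_lit 0) (nat_lit 469404950583) (nat_lit 0) (nat_lit 0) (nat_lit 0) (nat_lit 0) (nat_lit 0) (nat_lit 0) (nat_lit 1) (nat_lit 0) (nat_lit 1) (nat_lit 0) (nat_lit 439) (nat_lit 336) (nat_lit 305)) (XT.lf (nat_lit 0) (nat_lit 506941399743) (nat_lit 0) (nat_lit 0) (nat_lit 0) (nat_lit 0) (nat_lit 0) (nat_lit 0) (nat_lit 1) (nat_lit 0) (nat_lit 1) (nat_lit 0) (nat_lit 440) (nat_lit 336) (nat_lit 304))) (XT.nd (nat_lit 94) (nat_lit 0) (nat_lit 0) (XT.lf (nat_lit 0) (nat_lit 547480942659) (nat_lit 0) (nat_lit 0) (nat_lit 0) (nat_lit 0) (nat_lit 0) (nat_lit 0) (nat_lit 1) (nat_lit 0) (nat_lit 1) (nat_lit 0) (nat_lit 441) (nat_lit 336) (nat_lit 303)) (XT.lf (nat_lit 0) (nat_lit 591263813659) (nat_lit 0) (nat_lit 0) (nat_lit 0) (nat_lit 0) (nat_lit 0) (nat_lit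 0) (nat_lit 1) (nat_lit 0) (nat_lit 1) (nat_lit 0) (nat_lit 442) (nat_lit 336) (nat_lit 302)))))) (XT.nd (nat_lit 658) (nat_lit 0) (nat_lit 0) (XT.nd (nat_lit 282) (nat_lit 0) (nat_lit 0) (XT.nd (nat_lit 94) (nat_lit 0) (nat_lit 0) (XT.lf (nat_lit 0) (nat_lit 638549466795) (nat_lit 0) (nat_lit 0) (nat_lit 0) (nat_lit 0) (nat_lit 0) (nat_lit 0) (nat_lit 1) (nat_lit 0) (nat_lit 1) (nat_lit 0) (nat_lit 443) (nat_lit 336) (nat_lit 301)) (XT.nd (nat_lit 94) (nat_lit 0) (nat_lit 0) (XT.lf (nat_lit 0) (nat_lit 689618113344) (nat_lit 0) (nat_lit 0) (nat_lit 0) (nat_lit 0) (nat_lit 0) (nat_lit 0) (nat_lit 1) (nat_lit 0) (nat_lit 1) (nat_lit 0) (nat_lit 444) (nat_lit 336) (nat_lit 300)) (XT.lf (nat_lit 0) (nat_lit 744772382322) (nat_lit 0) (nat_lit 0) (nat_lit 0) (nat_lit 0) (nat_lit 0) (nat_lit 0) (nat_lit 1) (nat_lit 0) (nat_lit 1) (nat_lit 0) (nat_lit 445) (nat_lit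 336) (nat_lit 299)))) (XT.nd (nat_lit 188) (nat_lit 0) (nat_lit 0) (XT.nd (nat_lit 94) (nat_lit 0) (nat_lit 0) (XT.lf (nat_lit 0) (nat_lit 804339113842) (nat_lit 0) (nat_lit 0) (nat_lit 0) (nat_lit 0) (nat_lit 0) (nat_lit 0) (nat_lit 1) (nat_lit 0) (nat_lit 1) (nat_lit 0) (nat_lit 446) (nat_lit 336) (nat_lit 298)) (XT.lf (nat_lit 0) (nat_lit 868671295942) (nat_lit 0) (nat_lit 0) (nat_lit 0) (nat_lit 0) (nat_lit 0) (nat_lit 0) (nat_lit 1) (nat_lit 0) (nat_lit 1) (nat_lit 0) (nat_lit 447) (nat_lit 336) (nat_lit 297))) (XT.nd (nat_lit 94) (nat_lit 0) (nat_lit 0) (XT.lf (nat_lit 0) (nat_lit 938150156369) (nat_lit 0) (nat_lit 0) (nat_lit 0) (nat_lit 0) (nat_lit 0) (nat_lit 0) (nat_lit 1) (nat_lit 0) (nat_lit 1) (nat_lit 0) (nat_lit 448) (nat_lit 336) (nat_lit 296)) (XT.lf (nat_lit 0) (nat_lit 1013187421702) (nat_lit 0) (nat_lit 0) (nat_lit 0) (nat_lit 0) (nat_lit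 0) (nat_lit 0) (nat_lit 1) (nat_lit 0) (nat_lit 1) (nat_lit 0) (nat_lit 449) (nat_lit 336) (nat_lit 295))))) (XT.nd (nat_lit 282) (nat_lit 0) (nat_lit 0) (XT.nd (nat_lit 94) (nat_lit 0) (nat_lit 0) (XT.lf (nat_lit 0) (nat_lit 1094227757218) (nat_lit 0) (nat_lit 0) (nat_lit 0) (nat_lit 0) (nat_lit 0) (nat_lit 0) (nat_lit 1) (nat_lit 0) (nat_lit 1) (nat_lit 0) (nat_lit 450) (nat_lit 336) (nat_lit 294)) (XT.nd (nat_lit 94) (nat_lit 0) (nat_lit 0) (XT.lf (nat_lit 0) (nat_lit 1181751401942) (nat_lit 0) (nat_lit 0) (nat_lit 0) (nat_lit 0) (nat_lit 0) (nat_lit 0) (nat_lit 1) (nat_lit 0) (nat_lit 1) (nat_lit 0) (nat_lit 451) (nat_lit 336) (nat_lit 293)) (XT.lf (nat_lit 0) (nat_lit 1276277014510) (nat_lit 0) (nat_lit 0) (nat_lit 0) (nat_lit 0) (nat_lit 0) (nat_lit 0) (nat_lit 1) (nat_lit 0) (nat_lit 1) (nat_lit 0) (nat_lit 452) (nat_lit 336) (nat_lit 292)))) (XT.nd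 (nat_lit 188) (nat_lit 0) (nat_lit 0) (XT.nd (nat_lit 94) (nat_lit 0) (nat_lit 0) (XT.lf (nat_lit 0) (nat_lit 1378364746699) (nat_lit 0) (nat_lit 0) (nat_lit 0) (nat_lit 0) (nat_lit 0) (nat_lit 0) (nat_lit 1) (nat_lit 0) (nat_lit 1) (nat_lit 0) (nat_lit 453) (nat_lit 336) (nat_lit 291)) (XT.lf (nat_lit 0) (nat_lit 1488619562848) (nat_lit 0) (nat_lit 0) (nat_lit 0) (nat_lit 0) (nat_lit 0) (nat_lit 0) (nat_lit 1) (nat_lit 0) (nat_lit 1) (nat_lit 0) (nat_lit 454) (nat_lit 336) (nat_lit 290))) (XT.nd (nat_lit 94) (nat_lit 0) (nat_lit 0) (XT.lf (nat_lit 0) (nat_lit 1607694824832) (nat_lit 0) (nat_lit 0) (nat_lit 0) (nat_lit 0) (nat_lit 0) (nat_lit 0) (nat_lit 1) (nat_lit 0) (nat_lit 1) (nat_lit 0) (nat_lit 455) (nat_lit 336) (nat_lit 289)) (XT.lf (nat_lit 0) (nat_lit 1736296163831) (nat_lit 0) (nat_lit 0) (nat_lit 0) (nat_lit 0) (nat_lit 0) (nat_lit 0) (nat_lit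 1) (nat_lit 0) (nat_lit 1) (nat_lit 0) (nat_lit 456) (nat_lit 336) (nat_lit 288))))))) (XT.nd (nat_lit 1316) (nat_lit 0) (nat_lit 0) (XT.nd (nat_lit 658) (nat_lit 0) (nat_lit 0) (XT.nd (nat_lit 282) (nat_lit 0) (nat_lit 0) (XT.nd (nat_lit 94) (nat_lit 0) (nat_lit 0) (XT.lf (nat_lit 0) (nat_lit 1875185661855) (nat_lit 0) (nat_lit 0) (nat_lit 0) (nat_lit 0) (nat_lit 0) (nat_lit 0) (nat_lit 1) (nat_lit 0) (nat_lit 1) (nat_lit 0) (nat_lit 457) (nat_lit 336) (nat_lit 287)) (XT.nd (nat_lit 94) (nat_lit 0) (nat_lit 0) (XT.lf (nat_lit 0) (nat_lit 2025186367782) (nat_lit 0) (nat_lit 0) (nat_lit 0) (nat_lit 0) (nat_lit 0) (nat_lit 0) (nat_lit 1) (nat_lit 0) (nat_lit 1) (nat_lit 0) (nat_lit 458) (nat_lit 336) (nat_lit 286)) (XT.lf (nat_lit 0) (nat_lit 2187187174683) (nat_lit 0) (nat_lit 0) (nat_lit 0) (nat_lit 0) (nat_lit 0) (nat_lit 0) (nat_lit 1) (nat_lit 0) (nat_lit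 1) (nat_lit 0) (nat_lit 459) (nat_lit 336) (nat_lit 285)))) (XT.nd (nat_lit 188) (nat_lit 0) (nat_lit 0) (XT.nd (nat_lit 94) (nat_lit 0) (nat_lit 0) (XT.lf (nat_lit 0) (nat_lit 2362148087339) (nat_lit 0) (nat_lit 0) (nat_lit 0) (nat_lit 0) (nat_lit 0) (nat_lit 0) (nat_lit 1) (nat_lit 0) (nat_lit 1) (nat_lit 0) (nat_lit 460) (nat_lit 336) (nat_lit 284)) (XT.lf (nat_lit 0) (nat_lit 2551105911160) (nat_lit 0) (nat_lit 0) (nat_lit 0) (nat_lit 0) (nat_lit 0) (nat_lit 0) (nat_lit 1) (nat_lit 0) (nat_lit 1) (nat_lit 0) (nat_lit 461) (nat_lit 336) (nat_lit 283))) (XT.nd (nat_lit 94) (nat_lit 0) (nat_lit 0) (XT.lf (nat_lit 0) (nat_lit 2755180396212) (nat_lit 0) (nat_lit 0) (nat_lit 0) (nat_lit 0) (nat_lit 0) (nat_lit 0) (nat_lit 1) (nat_lit 0) (nat_lit 1) (nat_lit 0) (nat_lit 462) (nat_lit 336) (nat_lit 282)) (XT.lf (nat_lit 0) (nat_lit 2975580872778) (nat_lit 0) (nat_lit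 0) (nat_lit 0) (nat_lit 0) (nat_lit 0) (nat_lit 0) (nat_lit 1) (nat_lit 0) (nat_lit 1) (nat_lit 0) (nat_lit 463) (nat_lit 336) (nat_lit 281))))) (XT.nd (nat_lit 282) (nat_lit 0) (nat_lit 0) (XT.nd (nat_lit 94) (nat_lit 0) (nat_lit 0) (XT.lf (nat_lit 0) (nat_lit 3213613417754) (nat_lit 0) (nat_lit 0) (nat_lit 0) (nat_lit 0) (nat_lit 0) (nat_lit 0) (nat_lit 1) (nat_lit 0) (nat_lit 1) (nat_lit 0) (nat_lit 464) (nat_lit 336) (nat_lit 280)) (XT.nd (nat_lit 94) (nat_lit 0) (nat_lit 0) (XT.lf (nat_lit 0) (nat_lit 3470688594372) (nat_lit 0) (nat_lit 0) (nat_lit 0) (nat_lit 0) (nat_lit 0) (nat_lit 0) (nat_lit 1) (nat_lit 0) (nat_lit 1) (nat_lit 0) (nat_lit 465) (nat_lit 336) (nat_lit 279)) (XT.lf (nat_lit 0) (nat_lit 3748329811084) (nat_lit 0) (nat_lit 0) (nat_lit 0) (nat_lit 0) (nat_lit 0) (nat_lit 0) (nat_lit 1) (nat_lit 0) (nat_lit 1) (nat_lit 0) (nat_lit 466) (nat_lit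 336) (nat_lit 278)))) (XT.nd (nat_lit 188) (nat_lit 0) (nat_lit 0) (XT.nd (nat_lit 94) (nat_lit 0) (nat_lit 0) (XT.lf (nat_lit 0) (nat_lit 4048182349175) (nat_lit 0) (nat_lit 0) (nat_lit 0) (nat_lit 0) (nat_lit 0) (nat_lit 0) (nat_lit 1) (nat_lit 0) (nat_lit 1) (nat_lit 0) (nat_lit 467) (nat_lit 336) (nat_lit 277)) (XT.lf (nat_lit 0) (nat_lit 4372023112575) (nat_lit 0) (nat_lit 0) (nat_lit 0) (nat_lit 0) (nat_lit 0) (nat_lit 0) (nat_lit 1) (nat_lit 0) (nat_lit 1) (nat_lit 0) (nat_lit 468) (nat_lit 336) (nat_lit 276))) (XT.nd (nat_lit 94) (nat_lit 0) (nat_lit 0) (XT.lf (nat_lit 0) (nat_lit 4721771157659) (nat_lit 0) (nat_lit 0) (nat_lit 0) (nat_lit 0) (nat_lit 0) (nat_lit 0) (nat_lit 1) (nat_lit 0) (nat_lit 1) (nat_lit 0) (nat_lit 469) (nat_lit 336) (nat_lit 275)) (XT.lf (nat_lit 0) (nat_lit 5099499065434) (nat_lit 0) (nat_lit 0) (nat_lit 0) (nat_lit 0) (nat_lit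 0) (nat_lit 0) (nat_lit 1) (nat_lit 0) (nat_lit 1) (nat_lit 0) (nat_lit 470) (nat_lit 336) (nat_lit 274)))))) (XT.nd (nat_lit 658) (nat_lit 0) (nat_lit 0) (XT.nd (nat_lit 282) (nat_lit 0) (nat_lit 0) (XT.nd (nat_lit 94) (nat_lit 0) (nat_lit 0) (XT.lf (nat_lit 0) (nat_lit 5507445223504) (nat_lit 0) (nat_lit 0) (nat_lit 0) (nat_lit 0) (nat_lit 0) (nat_lit 0) (nat_lit 1) (nat_lit 0) (nat_lit 1) (nat_lit 0) (nat_lit 471) (nat_lit 336) (nat_lit 273)) (XT.nd (nat_lit 94) (nat_lit 0) (nat_lit 0) (XT.lf (nat_lit 0) (nat_lit 5948027090582) (nat_lit 0) (nat_lit 0) (nat_lit 0) (nat_lit 0) (nat_lit 0) (nat_lit 0) (nat_lit 1) (nat_lit 0) (nat_lit 1) (nat_lit 0) (nat_lit 472) (nat_lit 336) (nat_lit 272)) (XT.lf (nat_lit 0) (nat_lit 6423855522176) (nat_lit 0) (nat_lit 0) (nat_lit 0) (nat_lit 0) (nat_lit 0) (nat_lit 0) (nat_lit 1) (nat_lit 0) (nat_lit 1) (nat_lit 0) (nat_lit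 473) (nat_lit 336) (nat_lit 271)))) (XT.nd (nat_lit 188) (nat_lit 0) (nat_lit 0) (XT.nd (nat_lit 94) (nat_lit 0) (nat_lit 0) (XT.lf (nat_lit 0) (nat_lit 6937750242327) (nat_lit 0) (nat_lit 0) (nat_lit 0) (nat_lit 0) (nat_lit 0) (nat_lit 0) (nat_lit 1) (nat_lit 0) (nat_lit 1) (nat_lit 0) (nat_lit 474) (nat_lit 336) (nat_lit 270)) (XT.lf (nat_lit 0) (nat_lit 7492756553078) (nat_lit 0) (nat_lit 0) (nat_lit 0) (nat_lit 0) (nat_lit 0) (nat_lit 0) (nat_lit 1) (nat_lit 0) (nat_lit 1) (nat_lit 0) (nat_lit 475) (nat_lit 336) (nat_lit 269))) (XT.nd (nat_lit 94) (nat_lit 0) (nat_lit 0) (XT.lf (nat_lit 0) (nat_lit 8092163380717) (nat_lit 0) (nat_lit 0) (nat_lit 0) (nat_lit 0) (nat_lit 0) (nat_lit 0) (nat_lit 1) (nat_lit 0) (nat_lit 1) (nat_lit 0) (nat_lit 476) (nat_lit 336) (nat_lit 268)) (XT.lf (nat_lit 0) (nat_lit 8739522765703) (nat_lit 0) (nat_lit 0) (nat_lit 0) (nat_lit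 0) (nat_lit 0) (nat_lit 0) (nat_lit 1) (nat_lit 0) (nat_lit 1) (nat_lit 0) (nat_lit 477) (nat_lit 336) (nat_lit 267))))) (XT.nd (nat_lit 282) (nat_lit 0) (nat_lit 0) (XT.nd (nat_lit 94) (nat_lit 0) (nat_lit 0) (XT.lf (nat_lit 0) (nat_lit 9438670911799) (nat_lit 0) (nat_lit 0) (nat_lit 0) (nat_lit 0) (nat_lit 0) (nat_lit 0) (nat_lit 1) (nat_lit 0) (nat_lit 1) (nat_lit 0) (nat_lit 478) (nat_lit 336) (nat_lit 266)) (XT.nd (nat_lit 94) (nat_lit 0) (nat_lit 0) (XT.lf (nat_lit 0) (nat_lit 10193750919130) (nat_lit 0) (nat_lit 0) (nat_lit 0) (nat_lit 0) (nat_lit 0) (nat_lit 0) (nat_lit 1) (nat_lit 0) (nat_lit 1) (nat_lit 0) (nat_lit 479) (nat_lit 336) (nat_lit 265)) (XT.lf (nat_lit 0) (nat_lit 11009237335888) (nat_lit 0) (nat_lit 0) (nat_lit 0) (nat_lit 0) (nat_lit 0) (nat_lit 0) (nat_lit 1) (nat_lit 0) (nat_lit 1) (nat_lit 0) (nat_lit 480) (nat_lit 336) (nat_lit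 264)))) (XT.nd (nat_lit 188) (nat_lit 0) (nat_lit 0) (XT.nd (nat_lit 94) (nat_lit 0) (nat_lit 0) (XT.lf (nat_lit 0) (nat_lit 11889962674172) (nat_lit 0) (nat_lit 0) (nat_lit 0) (nat_lit 0) (nat_lit 0) (nat_lit 0) (nat_lit 1) (nat_lit 0) (nat_lit 1) (nat_lit 0) (nat_lit 481) (nat_lit 336) (nat_lit 263)) (XT.lf (nat_lit 0) (nat_lit 12841146047098) (nat_lit 0) (nat_lit 0) (nat_lit 0) (nat_lit 0) (nat_lit 0) (nat_lit 0) (nat_lit 1) (nat_lit 0) (nat_lit 1) (nat_lit 0) (nat_lit 482) (nat_lit 336) (nat_lit 262))) (XT.nd (nat_lit 94) (nat_lit 0) (nat_lit 0) (XT.lf (nat_lit 0) (nat_lit 13868424096875) (nat_lit 0) (nat_lit 0) (nat_lit 0) (nat_lit 0) (nat_lit 0) (nat_lit 0) (nat_lit 1) (nat_lit 0) (nat_lit 1) (nat_lit 0) (nat_lit 483) (nat_lit 336) (nat_lit 261)) (XT.lf (nat_lit 0) (nat_lit 14977884397133) (nat_lit 0) (nat_lit 0) (nat_lit 0) (nat_lit 0) (nat_lit 0) (nat_lit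 0) (nat_lit 1) (nat_lit 0) (nat_lit 1) (nat_lit 0) (nat_lit 484) (nat_lit 336) (nat_lit 260))))))))
noncomputable def xc41 : XT := (XT.nd (nat_lit 61664) (nat_lit 0) (nat_lit 0) (XT.nd (nat_lit 60348) (nat_lit 0) (nat_lit 0) (XT.nd (nat_lit 658) (nat_lit 0) (nat_lit 0) (XT.nd (nat_lit 282) (nat_lit 0) (nat_lit 0) (XT.nd (nat_lit 94) (nat_lit 0) (nat_lit 0) (XT.lf (nat_lit 0) (nat_lit 16176101527427) (nat_lit 0) (nat_lit 0) (nat_lit 0) (nat_lit 0) (nat_lit 0) (nat_lit 0) (nat_lit 1) (nat_lit 0) (nat_lit 1) (nat_lit 0) (nat_lit 485) (nat_lit 336) (nat_lit 259)) (XT.nd (nat_lit 94) (nat_lit 0) (nat_lit 0) (XT.lf (nat_lit 0) (nat_lit 17470176033716) (nat_lit 0) (nat_lit 0) (nat_lit 0) (nat_lit 0) (nat_lit 0) (nat_lit 0) (nat_lit 1) (nat_lit 0) (nat_lit 1) (nat_lit 0) (nat_lit 486) (nat_lit 336) (nat_lit 258)) (XT.lf (nat_lit 0) (nat_lit 18867776505666) (nat_lit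 0) (nat_lit 0) (nat_lit 0) (nat_lit 0) (nat_lit 0) (nat_lit 0) (nat_lit 1) (nat_lit 0) (nat_lit 1) (nat_lit 0) (nat_lit 487) (nat_lit 336) (nat_lit 257)))) (XT.nd (nat_lit 188) (nat_lit 0) (nat_lit 0) (XT.nd (nat_lit 94) (nat_lit 0) (nat_lit 0) (XT.lf (nat_lit 0) (nat_lit 20377185020149) (nat_lit 0) (nat_lit 0) (nat_lit 0) (nat_lit 0) (nat_lit 0) (nat_lit 0) (nat_lit 1) (nat_lit 0) (nat_lit 1) (nat_lit 0) (nat_lit 488) (nat_lit 336) (nat_lit 256)) (XT.lf (nat_lit 0) (nat_lit 22007346220212) (nat_lit 0) (nat_lit 0) (nat_lit 0) (nat_lit 0) (nat_lit 0) (nat_lit 0) (nat_lit 1) (nat_lit 0) (nat_lit 1) (nat_lit 0) (nat_lit 489) (nat_lit 336) (nat_lit 255))) (XT.nd (nat_lit 94) (nat_lit 0) (nat_lit 0) (XT.lf (nat_lit 0) (nat_lit 23767920320375) (nat_lit 0) (nat_lit 0) (nat_lit 0) (nat_lit 0) (nat_lit 0) (nat_lit 0) (nat_lit 1) (nat_lit 0) (nat_lit 1) (nat_lit 0)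 (nat_lit 490) (nat_lit 336) (nat_lit 254)) (XT.lf (nat_lit 0) (nat_lit 25669340352342) (nat_lit 0) (nat_lit 0) (nat_lit 0) (nat_lit 0) (nat_lit 0) (nat_lit 0) (nat_lit 1) (nat_lit 0) (nat_lit 1) (nat_lit 0) (nat_lit 491) (nat_lit 336) (nat_lit 253))))) (XT.nd (nat_lit 282) (nat_lit 0) (nat_lit 0) (XT.nd (nat_lit 94) (nat_lit 0) (nat_lit 0) (XT.lf (nat_lit 0) (nat_lit 27722873990378) (nat_lit 0) (nat_lit 0) (nat_lit 0) (nat_lit 0) (nat_lit 0) (nat_lit 0) (nat_lit 1) (nat_lit 0) (nat_lit 1) (nat_lit 0) (nat_lit 492) (nat_lit 336) (nat_lit 252)) (XT.nd (nat_lit 94) (nat_lit 0) (nat_lit 0) (XT.lf (nat_lit 0) (nat_lit 29940690322706) (nat_lit 0) (nat_lit 0) (nat_lit 0) (nat_lit 0) (nat_lit 0) (nat_lit 0) (nat_lit 1) (nat_lit 0) (nat_lit 1) (nat_lit 0) (nat_lit 493) (nat_lit 336) (nat_lit 251)) (XT.lf (nat_lit 0) (nat_lit 32335931964631) (nat_lit 0) (nat_lit 0)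 (nat_lit 0) (nat_lit 0) (nat_lit 0) (nat_lit 0) (nat_lit 1) (nat_lit 0) (nat_lit 1) (nat_lit 0) (nat_lit 494) (nat_lit 336) (nat_lit 250)))) (XT.nd (nat_lit 188) (nat_lit 0) (nat_lit 0) (XT.nd (nat_lit 94) (nat_lit 0) (nat_lit 0) (XT.lf (nat_lit 0) (nat_lit 34922792940697) (nat_lit 0) (nat_lit 0) (nat_lit 0) (nat_lit 0) (nat_lit 0) (nat_lit 0) (nat_lit 1) (nat_lit 0) (nat_lit 1) (nat_lit 0) (nat_lit 495) (nat_lit 336) (nat_lit 249)) (XT.lf (nat_lit 0) (nat_lit 37716602797428) (nat_lit 0) (nat_lit 0) (nat_lit 0) (nat_lit 0) (nat_lit 0) (nat_lit 0) (nat_lit 1) (nat_lit 0) (nat_lit 1) (nat_lit 0) (nat_lit 496) (nat_lit 336) (nat_lit 248))) (XT.nd (nat_lit 94) (nat_lit 0) (nat_lit 0) (XT.lf (nat_lit 0) (nat_lit 40733917445087) (nat_lit 0) (nat_lit 0) (nat_lit 0) (nat_lit 0) (nat_lit 0) (nat_lit 0) (nat_lit 1) (nat_lit 0) (nat_lit 1) (nat_lit 0) (nat_lit 497) (nat_lit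 336) (nat_lit 247)) (XT.lf (nat_lit 0) (nat_lit 43992617266771) (nat_lit 0) (nat_lit 0) (nat_lit 0) (nat_lit 0) (nat_lit 0) (nat_lit 0) (nat_lit 1) (nat_lit 0) (nat_lit 1) (nat_lit 0) (nat_lit 498) (nat_lit 336) (nat_lit 246)))))) (XT.nd (nat_lit 658) (nat_lit 0) (nat_lit 0) (XT.nd (nat_lit 282) (nat_lit 0) (nat_lit 0) (XT.nd (nat_lit 94) (nat_lit 0) (nat_lit 0) (XT.lf (nat_lit 0) (nat_lit 18691008281) (nat_lit 0) (nat_lit 0) (nat_lit 0) (nat_lit 0) (nat_lit 0) (nat_lit 0) (nat_lit 1) (nat_lit 0) (nat_lit 1) (nat_lit 0) (nat_lit 406) (nat_lit 337) (nat_lit 337)) (XT.nd (nat_lit 94) (nat_lit 0) (nat_lit 0) (XT.lf (nat_lit 0) (nat_lit 40329771675) (nat_lit 0) (nat_lit 0) (nat_lit 0) (nat_lit 0) (nat_lit 0) (nat_lit 0) (nat_lit 1) (nat_lit 0) (nat_lit 1) (nat_lit 0) (nat_lit 407) (nat_lit 337) (nat_lit 336)) (XT.lf (nat_lit 0) (nat_lit 43515434325) (nat_lit 0)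 (nat_lit 0) (nat_lit 0) (nat_lit 0) (nat_lit 0) (nat_lit 0) (nat_lit 1) (nat_lit 0) (nat_lit 1) (nat_lit 0) (nat_lit 408) (nat_lit 337) (nat_lit 335)))) (XT.nd (nat_lit 188) (nat_lit 0) (nat_lit 0) (XT.nd (nat_lit 94) (nat_lit 0) (nat_lit 0) (XT.lf (nat_lit 0) (nat_lit 46957882513) (nat_lit 0) (nat_lit 0) (nat_lit 0) (nat_lit 0) (nat_lit 0) (nat_lit 0) (nat_lit 1) (nat_lit 0) (nat_lit 1) (nat_lit 0) (nat_lit 409) (nat_lit 337) (nat_lit 334)) (XT.lf (nat_lit 0) (nat_lit 50677515934) (nat_lit 0) (nat_lit 0) (nat_lit 0) (nat_lit 0) (nat_lit 0) (nat_lit 0) (nat_lit 1) (nat_lit 0) (nat_lit 1) (nat_lit 0) (nat_lit 410) (nat_lit 337) (nat_lit 333))) (XT.nd (nat_lit 94) (nat_lit 0) (nat_lit 0) (XT.lf (nat_lit 0) (nat_lit 54696376859) (nat_lit 0) (nat_lit 0) (nat_lit 0) (nat_lit 0) (nat_lit 0) (nat_lit 0) (nat_lit 1) (nat_lit 0) (nat_lit 1) (nat_lit 0) (nat_lit 411)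 (nat_lit 337) (nat_lit 332)) (XT.lf (nat_lit 0) (nat_lit 59038280760) (nat_lit 0) (nat_lit 0) (nat_lit 0) (nat_lit 0) (nat_lit 0) (nat_lit 0) (nat_lit 1) (nat_lit 0) (nat_lit 1) (nat_lit 0) (nat_lit 412) (nat_lit 337) (nat_lit 331))))) (XT.nd (nat_lit 282) (nat_lit 0) (nat_lit 0) (XT.nd (nat_lit 94) (nat_lit 0) (nat_lit 0) (XT.lf (nat_lit 0) (nat_lit 63728957437) (nat_lit 0) (nat_lit 0) (nat_lit 0) (nat_lit 0) (nat_lit 0) (nat_lit 0) (nat_lit 1) (nat_lit 0) (nat_lit 1) (nat_lit 0) (nat_lit 413) (nat_lit 337) (nat_lit 330)) (XT.nd (nat_lit 94) (nat_lit 0) (nat_lit 0) (XT.lf (nat_lit 0) (nat_lit 68796203495) (nat_lit 0) (nat_lit 0) (nat_lit 0) (nat_lit 0) (nat_lit 0) (nat_lit 0) (nat_lit 1) (nat_lit 0) (nat_lit 1) (nat_lit 0) (nat_lit 414) (nat_lit 337) (nat_lit 329)) (XT.lf (nat_lit 0) (nat_lit 74270047056) (nat_lit 0) (nat_lit 0) (nat_lit 0) (nat_lit 0) (nat_lit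 0) (nat_lit 0) (nat_lit 1) (nat_lit 0) (nat_lit 1) (nat_lit 0) (nat_lit 415) (nat_lit 337) (nat_lit 328)))) (XT.nd (nat_lit 188) (nat_lit 0) (nat_lit 0) (XT.nd (nat_lit 94) (nat_lit 0) (nat_lit 0) (XT.lf (nat_lit 0) (nat_lit 80182925713) (nat_lit 0) (nat_lit 0) (nat_lit 0) (nat_lit 0) (nat_lit 0) (nat_lit 0) (nat_lit 1) (nat_lit 0) (nat_lit 1) (nat_lit 0) (nat_lit 416) (nat_lit 337) (nat_lit 327)) (XT.lf (nat_lit 0) (nat_lit 86569878747) (nat_lit 0) (nat_lit 0) (nat_lit 0) (nat_lit 0) (nat_lit 0) (nat_lit 0) (nat_lit 1) (nat_lit 0) (nat_lit 1) (nat_lit 0) (nat_lit 417) (nat_lit 337) (nat_lit 326))) (XT.nd (nat_lit 94) (nat_lit 0) (nat_lit 0) (XT.lf (nat_lit 0) (nat_lit 93468754769) (nat_lit 0) (nat_lit 0) (nat_lit 0) (nat_lit 0) (nat_lit 0) (nat_lit 0) (nat_lit 1) (nat_lit 0) (nat_lit 1) (nat_lit 0) (nat_lit 418) (nat_lit 337) (nat_lit 325)) (XT.lf (nat_lit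 0) (nat_lit 100920436006) (nat_lit 0) (nat_lit 0) (nat_lit 0) (nat_lit 0) (nat_lit 0) (nat_lit 0) (nat_lit 1) (nat_lit 0) (nat_lit 1) (nat_lit 0) (nat_lit 419) (nat_lit 337) (nat_lit 324))))))) (XT.nd (nat_lit 1316) (nat_lit 0) (nat_lit 0) (XT.nd (nat_lit 658) (nat_lit 0) (nat_lit 0) (XT.nd (nat_lit 282) (nat_lit 0) (nat_lit 0) (XT.nd (nat_lit 94) (nat_lit 0) (nat_lit 0) (XT.lf (nat_lit 0) (nat_lit 108969080569) (nat_lit 0) (nat_lit 0) (nat_lit 0) (nat_lit 0) (nat_lit 0) (nat_lit 0) (nat_lit 1) (nat_lit 0) (nat_lit 1) (nat_lit 0) (nat_lit 420) (nat_lit 337) (nat_lit 323)) (XT.nd (nat_lit 94) (nat_lit 0) (nat_lit 0) (XT.lf (nat_lit 0) (nat_lit 117662384131) (nat_lit 0) (nat_lit 0) (nat_lit 0) (nat_lit 0) (nat_lit 0) (nat_lit 0) (nat_lit 1) (nat_lit 0) (nat_lit 1) (nat_lit 0) (nat_lit 421) (nat_lit 337) (nat_lit 322)) (XT.lf (nat_lit 0) (nat_lit 127051862563)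 (nat_lit 0) (nat_lit 0) (nat_lit 0) (nat_lit 0) (nat_lit 0) (nat_lit 0) (nat_lit 1) (nat_lit 0) (nat_lit 1) (nat_lit 0) (nat_lit 422) (nat_lit 337) (nat_lit 321)))) (XT.nd (nat_lit 188) (nat_lit 0) (nat_lit 0) (XT.nd (nat_lit 94) (nat_lit 0) (nat_lit 0) (XT.lf (nat_lit 0) (nat_lit 137193157220) (nat_lit 0) (nat_lit 0) (nat_lit 0) (nat_lit 0) (nat_lit 0) (nat_lit 0) (nat_lit 1) (nat_lit 0) (nat_lit 1) (nat_lit 0) (nat_lit 423) (nat_lit 337) (nat_lit 320)) (XT.lf (nat_lit 0) (nat_lit 148146364663) (nat_lit 0) (nat_lit 0) (nat_lit 0) (nat_lit 0) (nat_lit 0) (nat_lit 0) (nat_lit 1) (nat_lit 0) (nat_lit 1) (nat_lit 0) (nat_lit 424) (nat_lit 337) (nat_lit 319))) (XT.nd (nat_lit 94) (nat_lit 0) (nat_lit 0) (XT.lf (nat_lit 0) (nat_lit 159976392788) (nat_lit 0) (nat_lit 0) (nat_lit 0) (nat_lit 0) (nat_lit 0) (nat_lit 0) (nat_lit 1) (nat_lit 0) (nat_lit 1) (nat_lit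 0) (nat_lit 425) (nat_lit 337) (nat_lit 318)) (XT.lf (nat_lit 0) (nat_lit 172753345464) (nat_lit 0) (nat_lit 0) (nat_lit 0) (nat_lit 0) (nat_lit 0) (nat_lit 0) (nat_lit 1) (nat_lit 0) (nat_lit 1) (nat_lit 0) (nat_lit 426) (nat_lit 337) (nat_lit 317))))) (XT.nd (nat_lit 282) (nat_lit 0) (nat_lit 0) (XT.nd (nat_lit 94) (nat_lit 0) (nat_lit 0) (XT.lf (nat_lit 0) (nat_lit 186552937968) (nat_lit 0) (nat_lit 0) (nat_lit 0) (nat_lit 0) (nat_lit 0) (nat_lit 0) (nat_lit 1) (nat_lit 0) (nat_lit 1) (nat_lit 0) (nat_lit 427) (nat_lit 337) (nat_lit 316)) (XT.nd (nat_lit 94) (nat_lit 0) (nat_lit 0) (XT.lf (nat_lit 0) (nat_lit 201456945662) (nat_lit 0) (nat_lit 0) (nat_lit 0) (nat_lit 0) (nat_lit 0) (nat_lit 0) (nat_lit 1) (nat_lit 0) (nat_lit 1) (nat_lit 0) (nat_lit 428) (nat_lit 337) (nat_lit 315)) (XT.lf (nat_lit 0) (nat_lit 217553688591) (nat_lit 0) (nat_lit 0) (nat_lit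 0) (nat_lit 0) (nat_lit 0) (nat_lit 0) (nat_lit 1) (nat_lit 0) (nat_lit 1) (nat_lit 0) (nat_lit 429) (nat_lit 337) (nat_lit 314)))) (XT.nd (nat_lit 188) (nat_lit 0) (nat_lit 0) (XT.nd (nat_lit 94) (nat_lit 0) (nat_lit 0) (XT.lf (nat_lit 0) (nat_lit 234938554862) (nat_lit 0) (nat_lit 0) (nat_lit 0) (nat_lit 0) (nat_lit 0) (nat_lit 0) (nat_lit 1) (nat_lit 0) (nat_lit 1) (nat_lit 0) (nat_lit 430) (nat_lit 337) (nat_lit 313)) (XT.lf (nat_lit 0) (nat_lit 253714565905) (nat_lit 0) (nat_lit 0) (nat_lit 0) (nat_lit 0) (nat_lit 0) (nat_lit 0) (nat_lit 1) (nat_lit 0) (nat_lit 1) (nat_lit 0) (nat_lit 431) (nat_lit 337) (nat_lit 312))) (XT.nd (nat_lit 94) (nat_lit 0) (nat_lit 0) (XT.lf (nat_lit 0) (nat_lit 273992986970) (nat_lit 0) (nat_lit 0) (nat_lit 0) (nat_lit 0) (nat_lit 0) (nat_lit 0) (nat_lit 1) (nat_lit 0) (nat_lit 1) (nat_lit 0) (nat_lit 432) (nat_lit 337) (nat_lit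 311)) (XT.lf (nat_lit 0) (nat_lit 295893986479) (nat_lit 0) (nat_lit 0) (nat_lit 0) (nat_lit 0) (nat_lit 0) (nat_lit 0) (nat_lit 1) (nat_lit 0) (nat_lit 1) (nat_lit 0) (nat_lit 433) (nat_lit 337) (nat_lit 310)))))) (XT.nd (nat_lit 658) (nat_lit 0) (nat_lit 0) (XT.nd (nat_lit 282) (nat_lit 0) (nat_lit 0) (XT.nd (nat_lit 94) (nat_lit 0) (nat_lit 0) (XT.lf (nat_lit 0) (nat_lit 319547348132) (nat_lit 0) (nat_lit 0) (nat_lit 0) (nat_lit 0) (nat_lit 0) (nat_lit 0) (nat_lit 1) (nat_lit 0) (nat_lit 1) (nat_lit 0) (nat_lit 434) (nat_lit 337) (nat_lit 309)) (XT.nd (nat_lit 94) (nat_lit 0) (nat_lit 0) (XT.lf (nat_lit 0) (nat_lit 345093239998) (nat_lit 0) (nat_lit 0) (nat_lit 0) (nat_lit 0) (nat_lit 0) (nat_lit 0) (nat_lit 1) (nat_lit 0) (nat_lit 1) (nat_lit 0) (nat_lit 435) (nat_lit 337) (nat_lit 308)) (XT.lf (nat_lit 0) (nat_lit 372683045140) (nat_lit 0) (nat_lit 0)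 (nat_lit 0) (nat_lit 0) (nat_lit 0) (nat_lit 0) (nat_lit 1) (nat_lit 0) (nat_lit 1) (nat_lit 0) (nat_lit 436) (nat_lit 337) (nat_lit 307)))) (XT.nd (nat_lit 188) (nat_lit 0) (nat_lit 0) (XT.nd (nat_lit 94) (nat_lit 0) (nat_lit 0) (XT.lf (nat_lit 0) (nat_lit 402480258700) (nat_lit 0) (nat_lit 0) (nat_lit 0) (nat_lit 0) (nat_lit 0) (nat_lit 0) (nat_lit 1) (nat_lit 0) (nat_lit 1) (nat_lit 0) (nat_lit 437) (nat_lit 337) (nat_lit 306)) (XT.lf (nat_lit 0) (nat_lit 434661456758) (nat_lit 0) (nat_lit 0) (nat_lit 0) (nat_lit 0) (nat_lit 0) (nat_lit 0) (nat_lit 1) (nat_lit 0) (nat_lit 1) (nat_lit 0) (nat_lit 438) (nat_lit 337) (nat_lit 305))) (XT.nd (nat_lit 94) (nat_lit 0) (nat_lit 0) (XT.lf (nat_lit 0) (nat_lit 469417342710) (nat_lit 0) (nat_lit 0) (nat_lit 0) (nat_lit 0) (nat_lit 0) (nat_lit 0) (nat_lit 1) (nat_lit 0) (nat_lit 1) (nat_lit 0) (nat_lit 439) (nat_lit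 337) (nat_lit 304)) (XT.lf (nat_lit 0) (nat_lit 506953877362) (nat_lit 0) (nat_lit 0) (nat_lit 0) (nat_lit 0) (nat_lit 0) (nat_lit 0) (nat_lit 1) (nat_lit 0) (nat_lit 1) (nat_lit 0) (nat_lit 440) (nat_lit 337) (nat_lit 303))))) (XT.nd (nat_lit 376) (nat_lit 0) (nat_lit 0) (XT.nd (nat_lit 188) (nat_lit 0) (nat_lit 0) (XT.nd (nat_lit 94) (nat_lit 0) (nat_lit 0) (XT.lf (nat_lit 0) (nat_lit 547493499437) (nat_lit 0) (nat_lit 0) (nat_lit 0) (nat_lit 0) (nat_lit 0) (nat_lit 0) (nat_lit 1) (nat_lit 0) (nat_lit 1) (nat_lit 0) (nat_lit 441) (nat_lit 337) (nat_lit 302)) (XT.lf (nat_lit 0) (nat_lit 591276443734) (nat_lit 0) (nat_lit 0) (nat_lit 0) (nat_lit 0) (nat_lit 0) (nat_lit 0) (nat_lit 1) (nat_lit 0) (nat_lit 1) (nat_lit 0) (nat_lit 442) (nat_lit 337) (nat_lit 301))) (XT.nd (nat_lit 94) (nat_lit 0) (nat_lit 0) (XT.lf (nat_lit 0) (nat_lit 638562164736) (nat_lit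 0) (nat_lit 0) (nat_lit 0) (nat_lit 0) (nat_lit 0) (nat_lit 0) (nat_lit 1) (nat_lit 0) (nat_lit 1) (nat_lit 0) (nat_lit 443) (nat_lit 337) (nat_lit 300)) (XT.lf (nat_lit 0) (nat_lit 689630874123) (nat_lit 0) (nat_lit 0) (nat_lit 0) (nat_lit 0) (nat_lit 0) (nat_lit 0) (nat_lit 1) (nat_lit 0) (nat_lit 1) (nat_lit 0) (nat_lit 444) (nat_lit 337) (nat_lit 299)))) (XT.nd (nat_lit 188) (nat_lit 0) (nat_lit 0) (XT.nd (nat_lit 94) (nat_lit 0) (nat_lit 0) (XT.lf (nat_lit 0) (nat_lit 744785201286) (nat_lit 0) (nat_lit 0) (nat_lit 0) (nat_lit 0) (nat_lit 0) (nat_lit 0) (nat_lit 1) (nat_lit 0) (nat_lit 1) (nat_lit 0) (nat_lit 445) (nat_lit 337) (nat_lit 298)) (XT.lf (nat_lit 0) (nat_lit 804351986680) (nat_lit 0) (nat_lit 0) (nat_lit 0) (nat_lit 0) (nat_lit 0) (nat_lit 0) (nat_lit 1) (nat_lit 0) (nat_lit 1) (nat_lit 0) (nat_lit 446) (nat_lit 337) (nat_lit 297))) (XT.nd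 (nat_lit 94) (nat_lit 0) (nat_lit 0) (XT.lf (nat_lit 0) (nat_lit 868684218664) (nat_lit 0) (nat_lit 0) (nat_lit 0) (nat_lit 0) (nat_lit 0) (nat_lit 0) (nat_lit 1) (nat_lit 0) (nat_lit 1) (nat_lit 0) (nat_lit 447) (nat_lit 337) (nat_lit 296)) (XT.lf (nat_lit 0) (nat_lit 938163125280) (nat_lit 0) (nat_lit 0) (nat_lit 0) (nat_lit 0) (nat_lit 0) (nat_lit 0) (nat_lit 1) (nat_lit 0) (nat_lit 1) (nat_lit 0) (nat_lit 448) (nat_lit 337) (nat_lit 295))))))))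
noncomputable def xc42 : XT := (XT.nd (nat_lit 2632) (nat_lit 0) (nat_lit 0) (XT.nd (nat_lit 1316) (nat_lit 0) (nat_lit 0) (XT.nd (nat_lit 658) (nat_lit 0) (nat_lit 0) (XT.nd (nat_lit 282) (nat_lit 0) (nat_lit 0) (XT.nd (nat_lit 94) (nat_lit 0) (nat_lit 0) (XT.lf (nat_lit 0) (nat_lit 1013200433381) (nat_lit 0) (nat_lit 0) (nat_lit 0) (nat_lit 0) (nat_lit 0) (nat_lit 0) (nat_lit 1) (nat_lit 0) (nat_lit 1) (nat_lit 0) (nat_lit 449) (nat_lit 337) (nat_lit 294)) (XT.nd (nat_lit 94) (nat_lit 0) (nat_lit 0) (XT.lf (nat_lit 0) (nat_lit 1094240808496) (nat_lit 0) (nat_lit 0) (nat_lit 0) (nat_lit 0) (nat_lit 0) (nat_lit 0) (nat_lit 1) (nat_lit 0) (nat_lit 1) (nat_lit 0) (nat_lit 450) (nat_lit 337) (nat_lit 293)) (XT.lf (nat_lit 0) (nat_lit 1181764489886) (nat_lit 0) (nat_lit 0) (nat_lit 0) (nat_lit 0) (nat_lit 0) (nat_lit 0) (nat_lit 1) (nat_lit 0) (nat_lit 1) (nat_lit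 0) (nat_lit 451) (nat_lit 337) (nat_lit 292)))) (XT.nd (nat_lit 188) (nat_lit 0) (nat_lit 0) (XT.nd (nat_lit 94) (nat_lit 0) (nat_lit 0) (XT.lf (nat_lit 0) (nat_lit 1276290136404) (nat_lit 0) (nat_lit 0) (nat_lit 0) (nat_lit 0) (nat_lit 0) (nat_lit 0) (nat_lit 1) (nat_lit 0) (nat_lit 1) (nat_lit 0) (nat_lit 452) (nat_lit 337) (nat_lit 291)) (XT.lf (nat_lit 0) (nat_lit 1378377900028) (nat_lit 0) (nat_lit 0) (nat_lit 0) (nat_lit 0) (nat_lit 0) (nat_lit 0) (nat_lit 1) (nat_lit 0) (nat_lit 1) (nat_lit 0) (nat_lit 453) (nat_lit 337) (nat_lit 290))) (XT.nd (nat_lit 94) (nat_lit 0) (nat_lit 0) (XT.lf (nat_lit 0) (nat_lit 1488632745284) (nat_lit 0) (nat_lit 0) (nat_lit 0) (nat_lit 0) (nat_lit 0) (nat_lit 0) (nat_lit 1) (nat_lit 0) (nat_lit 1) (nat_lit 0) (nat_lit 454) (nat_lit 337) (nat_lit 289)) (XT.lf (nat_lit 0) (nat_lit 1607708034218) (nat_lit 0) (nat_lit 0) (nat_lit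 0) (nat_lit 0) (nat_lit 0) (nat_lit 0) (nat_lit 1) (nat_lit 0) (nat_lit 1) (nat_lit 0) (nat_lit 455) (nat_lit 337) (nat_lit 288))))) (XT.nd (nat_lit 282) (nat_lit 0) (nat_lit 0) (XT.nd (nat_lit 94) (nat_lit 0) (nat_lit 0) (XT.lf (nat_lit 0) (nat_lit 1736309398172) (nat_lit 0) (nat_lit 0) (nat_lit 0) (nat_lit 0) (nat_lit 0) (nat_lit 0) (nat_lit 1) (nat_lit 0) (nat_lit 1) (nat_lit 0) (nat_lit 456) (nat_lit 337) (nat_lit 287)) (XT.nd (nat_lit 94) (nat_lit 0) (nat_lit 0) (XT.lf (nat_lit 0) (nat_lit 1875198919302) (nat_lit 0) (nat_lit 0) (nat_lit 0) (nat_lit 0) (nat_lit 0) (nat_lit 0) (nat_lit 1) (nat_lit 0) (nat_lit 1) (nat_lit 0) (nat_lit 457) (nat_lit 337) (nat_lit 286)) (XT.lf (nat_lit 0) (nat_lit 2025199646623) (nat_lit 0) (nat_lit 0) (nat_lit 0) (nat_lit 0) (nat_lit 0) (nat_lit 0) (nat_lit 1) (nat_lit 0) (nat_lit 1) (nat_lit 0) (nat_lit 458) (nat_lit 337)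 (nat_lit 285)))) (XT.nd (nat_lit 188) (nat_lit 0) (nat_lit 0) (XT.nd (nat_lit 94) (nat_lit 0) (nat_lit 0) (XT.lf (nat_lit 0) (nat_lit 2187200473333) (nat_lit 0) (nat_lit 0) (nat_lit 0) (nat_lit 0) (nat_lit 0) (nat_lit 0) (nat_lit 1) (nat_lit 0) (nat_lit 1) (nat_lit 0) (nat_lit 459) (nat_lit 337) (nat_lit 284)) (XT.lf (nat_lit 0) (nat_lit 2362161404332) (nat_lit 0) (nat_lit 0) (nat_lit 0) (nat_lit 0) (nat_lit 0) (nat_lit 0) (nat_lit 1) (nat_lit 0) (nat_lit 1) (nat_lit 0) (nat_lit 460) (nat_lit 337) (nat_lit 283))) (XT.nd (nat_lit 94) (nat_lit 0) (nat_lit 0) (XT.lf (nat_lit 0) (nat_lit 2551119245136) (nat_lit 0) (nat_lit 0) (nat_lit 0) (nat_lit 0) (nat_lit 0) (nat_lit 0) (nat_lit 1) (nat_lit 0) (nat_lit 1) (nat_lit 0) (nat_lit 461) (nat_lit 337) (nat_lit 282)) (XT.lf (nat_lit 0) (nat_lit 2755193745914) (nat_lit 0) (nat_lit 0) (nat_lit 0) (nat_lit 0) (nat_lit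 0) (nat_lit 0) (nat_lit 1) (nat_lit 0) (nat_lit 1) (nat_lit 0) (nat_lit 462) (nat_lit 337) (nat_lit 281)))))) (XT.nd (nat_lit 658) (nat_lit 0) (nat_lit 0) (XT.nd (nat_lit 282) (nat_lit 0) (nat_lit 0) (XT.nd (nat_lit 94) (nat_lit 0) (nat_lit 0) (XT.lf (nat_lit 0) (nat_lit 2975594237040) (nat_lit 0) (nat_lit 0) (nat_lit 0) (nat_lit 0) (nat_lit 0) (nat_lit 0) (nat_lit 1) (nat_lit 0) (nat_lit 1) (nat_lit 0) (nat_lit 463) (nat_lit 337) (nat_lit 280)) (XT.nd (nat_lit 94) (nat_lit 0) (nat_lit 0) (XT.lf (nat_lit 0) (nat_lit 3213626795499) (nat_lit 0) (nat_lit 0) (nat_lit 0) (nat_lit 0) (nat_lit 0) (nat_lit 0) (nat_lit 1) (nat_lit 0) (nat_lit 1) (nat_lit 0) (nat_lit 464) (nat_lit 337) (nat_lit 279)) (XT.lf (nat_lit 0) (nat_lit 3470701984599) (nat_lit 0) (nat_lit 0) (nat_lit 0) (nat_lit 0) (nat_lit 0) (nat_lit 0) (nat_lit 1) (nat_lit 0) (nat_lit 1) (nat_lit 0) (nat_lit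 465) (nat_lit 337) (nat_lit 278)))) (XT.nd (nat_lit 188) (nat_lit 0) (nat_lit 0) (XT.nd (nat_lit 94) (nat_lit 0) (nat_lit 0) (XT.lf (nat_lit 0) (nat_lit 3748343212870) (nat_lit 0) (nat_lit 0) (nat_lit 0) (nat_lit 0) (nat_lit 0) (nat_lit 0) (nat_lit 1) (nat_lit 0) (nat_lit 1) (nat_lit 0) (nat_lit 466) (nat_lit 337) (nat_lit 277)) (XT.lf (nat_lit 0) (nat_lit 4048195761664) (nat_lit 0) (nat_lit 0) (nat_lit 0) (nat_lit 0) (nat_lit 0) (nat_lit 0) (nat_lit 1) (nat_lit 0) (nat_lit 1) (nat_lit 0) (nat_lit 467) (nat_lit 337) (nat_lit 276))) (XT.nd (nat_lit 94) (nat_lit 0) (nat_lit 0) (XT.lf (nat_lit 0) (nat_lit 4372036534973) (nat_lit 0) (nat_lit 0) (nat_lit 0) (nat_lit 0) (nat_lit 0) (nat_lit 0) (nat_lit 1) (nat_lit 0) (nat_lit 1) (nat_lit 0) (nat_lit 468) (nat_lit 337) (nat_lit 275)) (XT.lf (nat_lit 0) (nat_lit 4721784589233) (nat_lit 0) (nat_lit 0) (nat_lit 0) (nat_lit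 0) (nat_lit 0) (nat_lit 0) (nat_lit 1) (nat_lit 0) (nat_lit 1) (nat_lit 0) (nat_lit 469) (nat_lit 337) (nat_lit 274))))) (XT.nd (nat_lit 282) (nat_lit 0) (nat_lit 0) (XT.nd (nat_lit 94) (nat_lit 0) (nat_lit 0) (XT.lf (nat_lit 0) (nat_lit 5099512505505) (nat_lit 0) (nat_lit 0) (nat_lit 0) (nat_lit 0) (nat_lit 0) (nat_lit 0) (nat_lit 1) (nat_lit 0) (nat_lit 1) (nat_lit 0) (nat_lit 470) (nat_lit 337) (nat_lit 273)) (XT.nd (nat_lit 94) (nat_lit 0) (nat_lit 0) (XT.lf (nat_lit 0) (nat_lit 5507458671441) (nat_lit 0) (nat_lit 0) (nat_lit 0) (nat_lit 0) (nat_lit 0) (nat_lit 0) (nat_lit 1) (nat_lit 0) (nat_lit 1) (nat_lit 0) (nat_lit 471) (nat_lit 337) (nat_lit 272)) (XT.lf (nat_lit 0) (nat_lit 5948040545803) (nat_lit 0) (nat_lit 0) (nat_lit 0) (nat_lit 0) (nat_lit 0) (nat_lit 0) (nat_lit 1) (nat_lit 0) (nat_lit 1) (nat_lit 0) (nat_lit 472) (nat_lit 337) (nat_lit 271))))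 (XT.nd (nat_lit 188) (nat_lit 0) (nat_lit 0) (XT.nd (nat_lit 94) (nat_lit 0) (nat_lit 0) (XT.lf (nat_lit 0) (nat_lit 6423868984142) (nat_lit 0) (nat_lit 0) (nat_lit 0) (nat_lit 0) (nat_lit 0) (nat_lit 0) (nat_lit 1) (nat_lit 0) (nat_lit 1) (nat_lit 0) (nat_lit 473) (nat_lit 337) (nat_lit 270)) (XT.lf (nat_lit 0) (nat_lit 6937763710537) (nat_lit 0) (nat_lit 0) (nat_lit 0) (nat_lit 0) (nat_lit 0) (nat_lit 0) (nat_lit 1) (nat_lit 0) (nat_lit 1) (nat_lit 0) (nat_lit 474) (nat_lit 337) (nat_lit 269))) (XT.nd (nat_lit 94) (nat_lit 0) (nat_lit 0) (XT.lf (nat_lit 0) (nat_lit 7492770027071) (nat_lit 0) (nat_lit 0) (nat_lit 0) (nat_lit 0) (nat_lit 0) (nat_lit 0) (nat_lit 1) (nat_lit 0) (nat_lit 1) (nat_lit 0) (nat_lit 475) (nat_lit 337) (nat_lit 268)) (XT.lf (nat_lit 0) (nat_lit 8092176860063) (nat_lit 0) (nat_lit 0) (nat_lit 0) (nat_lit 0) (nat_lit 0) (nat_lit 0) (nat_lit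 1) (nat_lit 0) (nat_lit 1) (nat_lit 0) (nat_lit 476) (nat_lit 337) (nat_lit 267))))))) (XT.nd (nat_lit 1316) (nat_lit 0) (nat_lit 0) (XT.nd (nat_lit 658) (nat_lit 0) (nat_lit 0) (XT.nd (nat_lit 282) (nat_lit 0) (nat_lit 0) (XT.nd (nat_lit 94) (nat_lit 0) (nat_lit 0) (XT.lf (nat_lit 0) (nat_lit 8739536250007) (nat_lit 0) (nat_lit 0) (nat_lit 0) (nat_lit 0) (nat_lit 0) (nat_lit 0) (nat_lit 1) (nat_lit 0) (nat_lit 1) (nat_lit 0) (nat_lit 477) (nat_lit 337) (nat_lit 266)) (XT.nd (nat_lit 94) (nat_lit 0) (nat_lit 0) (XT.lf (nat_lit 0) (nat_lit 9438684400693) (nat_lit 0) (nat_lit 0) (nat_lit 0) (nat_lit 0) (nat_lit 0) (nat_lit 0) (nat_lit 1) (nat_lit 0) (nat_lit 1) (nat_lit 0) (nat_lit 478) (nat_lit 337) (nat_lit 265)) (XT.lf (nat_lit 0) (nat_lit 10193764412274) (nat_lit 0) (nat_lit 0) (nat_lit 0) (nat_lit 0) (nat_lit 0) (nat_lit 0) (nat_lit 1) (nat_lit 0) (nat_lit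 1) (nat_lit 0) (nat_lit 479) (nat_lit 337) (nat_lit 264)))) (XT.nd (nat_lit 188) (nat_lit 0) (nat_lit 0) (XT.nd (nat_lit 94) (nat_lit 0) (nat_lit 0) (XT.lf (nat_lit 0) (nat_lit 11009250832967) (nat_lit 0) (nat_lit 0) (nat_lit 0) (nat_lit 0) (nat_lit 0) (nat_lit 0) (nat_lit 1) (nat_lit 0) (nat_lit 1) (nat_lit 0) (nat_lit 480) (nat_lit 337) (nat_lit 263)) (XT.lf (nat_lit 0) (nat_lit 11889976174895) (nat_lit 0) (nat_lit 0) (nat_lit 0) (nat_lit 0) (nat_lit 0) (nat_lit 0) (nat_lit 1) (nat_lit 0) (nat_lit 1) (nat_lit 0) (nat_lit 481) (nat_lit 337) (nat_lit 262))) (XT.nd (nat_lit 94) (nat_lit 0) (nat_lit 0) (XT.lf (nat_lit 0) (nat_lit 12841159551195) (nat_lit 0) (nat_lit 0) (nat_lit 0) (nat_lit 0) (nat_lit 0) (nat_lit 0) (nat_lit 1) (nat_lit 0) (nat_lit 1) (nat_lit 0) (nat_lit 482) (nat_lit 337) (nat_lit 261)) (XT.lf (nat_lit 0) (nat_lit 13868437604096) (nat_lit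 0) (nat_lit 0) (nat_lit 0) (nat_lit 0) (nat_lit 0) (nat_lit 0) (nat_lit 1) (nat_lit 0) (nat_lit 1) (nat_lit 0) (nat_lit 483) (nat_lit 337) (nat_lit 260))))) (XT.nd (nat_lit 282) (nat_lit 0) (nat_lit 0) (XT.nd (nat_lit 94) (nat_lit 0) (nat_lit 0) (XT.lf (nat_lit 0) (nat_lit 14977897907246) (nat_lit 0) (nat_lit 0) (nat_lit 0) (nat_lit 0) (nat_lit 0) (nat_lit 0) (nat_lit 1) (nat_lit 0) (nat_lit 1) (nat_lit 0) (nat_lit 484) (nat_lit 337) (nat_lit 259)) (XT.nd (nat_lit 94) (nat_lit 0) (nat_lit 0) (XT.lf (nat_lit 0) (nat_lit 16176115040219) (nat_lit 0) (nat_lit 0) (nat_lit 0) (nat_lit 0) (nat_lit 0) (nat_lit 0) (nat_lit 1) (nat_lit 0) (nat_lit 1) (nat_lit 0) (nat_lit 485) (nat_lit 337) (nat_lit 258)) (XT.lf (nat_lit 0) (nat_lit 17470189548987) (nat_lit 0) (nat_lit 0) (nat_lit 0) (nat_lit 0) (nat_lit 0) (nat_lit 0) (nat_lit 1) (nat_lit 0) (nat_lit 1) (nat_lit 0)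 (nat_lit 486) (nat_lit 337) (nat_lit 257)))) (XT.nd (nat_lit 188) (nat_lit 0) (nat_lit 0) (XT.nd (nat_lit 94) (nat_lit 0) (nat_lit 0) (XT.lf (nat_lit 0) (nat_lit 18867790023234) (nat_lit 0) (nat_lit 0) (nat_lit 0) (nat_lit 0) (nat_lit 0) (nat_lit 0) (nat_lit 1) (nat_lit 0) (nat_lit 1) (nat_lit 0) (nat_lit 487) (nat_lit 337) (nat_lit 256)) (XT.lf (nat_lit 0) (nat_lit 20377198539842) (nat_lit 0) (nat_lit 0) (nat_lit 0) (nat_lit 0) (nat_lit 0) (nat_lit 0) (nat_lit 1) (nat_lit 0) (nat_lit 1) (nat_lit 0) (nat_lit 488) (nat_lit 337) (nat_lit 255))) (XT.nd (nat_lit 94) (nat_lit 0) (nat_lit 0) (XT.lf (nat_lit 0) (nat_lit 22007359741874) (nat_lit 0) (nat_lit 0) (nat_lit 0) (nat_lit 0) (nat_lit 0) (nat_lit 0) (nat_lit 1) (nat_lit 0) (nat_lit 1) (nat_lit 0) (nat_lit 489) (nat_lit 337) (nat_lit 254)) (XT.lf (nat_lit 0) (nat_lit 23767933843860) (nat_lit 0) (nat_lit 0)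 (nat_lit 0) (nat_lit 0) (nat_lit 0) (nat_lit 0) (nat_lit 1) (nat_lit 0) (nat_lit 1) (nat_lit 0) (nat_lit 490) (nat_lit 337) (nat_lit 253)))))) (XT.nd (nat_lit 658) (nat_lit 0) (nat_lit 0) (XT.nd (nat_lit 282) (nat_lit 0) (nat_lit 0) (XT.nd (nat_lit 94) (nat_lit 0) (nat_lit 0) (XT.lf (nat_lit 0) (nat_lit 25669353877515) (nat_lit 0) (nat_lit 0) (nat_lit 0) (nat_lit 0) (nat_lit 0) (nat_lit 0) (nat_lit 1) (nat_lit 0) (nat_lit 1) (nat_lit 0) (nat_lit 491) (nat_lit 337) (nat_lit 252)) (XT.nd (nat_lit 94) (nat_lit 0) (nat_lit 0) (XT.lf (nat_lit 0) (nat_lit 27722887517113) (nat_lit 0) (nat_lit 0) (nat_lit 0) (nat_lit 0) (nat_lit 0) (nat_lit 0) (nat_lit 1) (nat_lit 0) (nat_lit 1) (nat_lit 0) (nat_lit 492) (nat_lit 337) (nat_lit 251)) (XT.lf (nat_lit 0) (nat_lit 29940703850889) (nat_lit 0) (nat_lit 0) (nat_lit 0) (nat_lit 0) (nat_lit 0) (nat_lit 0) (nat_lit 1) (nat_lit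 0) (nat_lit 1) (nat_lit 0) (nat_lit 493) (nat_lit 337) (nat_lit 250)))) (XT.nd (nat_lit 188) (nat_lit 0) (nat_lit 0) (XT.nd (nat_lit 94) (nat_lit 0) (nat_lit 0) (XT.lf (nat_lit 0) (nat_lit 32335945494153) (nat_lit 0) (nat_lit 0) (nat_lit 0) (nat_lit 0) (nat_lit 0) (nat_lit 0) (nat_lit 1) (nat_lit 0) (nat_lit 1) (nat_lit 0) (nat_lit 494) (nat_lit 337) (nat_lit 249)) (XT.lf (nat_lit 0) (nat_lit 34922806471459) (nat_lit 0) (nat_lit 0) (nat_lit 0) (nat_lit 0) (nat_lit 0) (nat_lit 0) (nat_lit 1) (nat_lit 0) (nat_lit 1) (nat_lit 0) (nat_lit 495) (nat_lit 337) (nat_lit 248))) (XT.nd (nat_lit 94) (nat_lit 0) (nat_lit 0) (XT.lf (nat_lit 0) (nat_lit 37716616329339) (nat_lit 0) (nat_lit 0) (nat_lit 0) (nat_lit 0) (nat_lit 0) (nat_lit 0) (nat_lit 1) (nat_lit 0) (nat_lit 1) (nat_lit 0) (nat_lit 496) (nat_lit 337) (nat_lit 247)) (XT.lf (nat_lit 0) (nat_lit 40733930978062)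 (nat_lit 0) (nat_lit 0) (nat_lit 0) (nat_lit 0) (nat_lit 0) (nat_lit 0) (nat_lit 1) (nat_lit 0) (nat_lit 1) (nat_lit 0) (nat_lit 497) (nat_lit 337) (nat_lit 246))))) (XT.nd (nat_lit 59220) (nat_lit 0) (nat_lit 0) (XT.nd (nat_lit 59032) (nat_lit 0) (nat_lit 0) (XT.nd (nat_lit 58938) (nat_lit 0) (nat_lit 0) (XT.lf (nat_lit 0) (nat_lit 43992630800731) (nat_lit 0) (nat_lit 0) (nat_lit 0) (nat_lit 0) (nat_lit 0) (nat_lit 0) (nat_lit 1) (nat_lit 0) (nat_lit 1) (nat_lit 0) (nat_lit 498) (nat_lit 337) (nat_lit 245)) (XT.lf (nat_lit 0) (nat_lit 16065246074) (nat_lit 0) (nat_lit 0) (nat_lit 0) (nat_lit 0) (nat_lit 0) (nat_lit 0) (nat_lit 1) (nat_lit 0) (nat_lit 1) (nat_lit 0) (nat_lit 404) (nat_lit 338) (nat_lit 338))) (XT.nd (nat_lit 94) (nat_lit 0) (nat_lit 0) (XT.lf (nat_lit 0) (nat_lit 34654700810) (nat_lit 0) (nat_lit 0) (nat_lit 0) (nat_lit 0) (nat_lit 0) (nat_lit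 0) (nat_lit 1) (nat_lit 0) (nat_lit 1) (nat_lit 0) (nat_lit 405) (nat_lit 338) (nat_lit 337)) (XT.lf (nat_lit 0) (nat_lit 37383100264) (nat_lit 0) (nat_lit 0) (nat_lit 0) (nat_lit 0) (nat_lit 0) (nat_lit 0) (nat_lit 1) (nat_lit 0) (nat_lit 1) (nat_lit 0) (nat_lit 406) (nat_lit 338) (nat_lit 336)))) (XT.nd (nat_lit 188) (nat_lit 0) (nat_lit 0) (XT.nd (nat_lit 94) (nat_lit 0) (nat_lit 0) (XT.lf (nat_lit 0) (nat_lit 40331858804) (nat_lit 0) (nat_lit 0) (nat_lit 0) (nat_lit 0) (nat_lit 0) (nat_lit 0) (nat_lit 1) (nat_lit 0) (nat_lit 1) (nat_lit 0) (nat_lit 407) (nat_lit 338) (nat_lit 335)) (XT.lf (nat_lit 0) (nat_lit 43518450553) (nat_lit 0) (nat_lit 0) (nat_lit 0) (nat_lit 0) (nat_lit 0) (nat_lit 0) (nat_lit 1) (nat_lit 0) (nat_lit 1) (nat_lit 0) (nat_lit 408) (nat_lit 338) (nat_lit 334))) (XT.nd (nat_lit 94) (nat_lit 0) (nat_lit 0) (XT.lf (nat_lit 0) (nat_lit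 46961759019) (nat_lit 0) (nat_lit 0) (nat_lit 0) (nat_lit 0) (nat_lit 0) (nat_lit 0) (nat_lit 1) (nat_lit 0) (nat_lit 1) (nat_lit 0) (nat_lit 409) (nat_lit 338) (nat_lit 333)) (XT.lf (nat_lit 0) (nat_lit 50682188993) (nat_lit 0) (nat_lit 0) (nat_lit 0) (nat_lit 0) (nat_lit 0) (nat_lit 0) (nat_lit 1) (nat_lit 0) (nat_lit 1) (nat_lit 0) (nat_lit 410) (nat_lit 338) (nat_lit 332))))))))
noncomputable def xc43 : XT := (XT.nd (nat_lit 2632) (nat_lit 0) (nat_lit 0) (XT.nd (nat_lit 1316) (nat_lit 0) (nat_lit 0) (XT.nd (nat_lit 658) (nat_lit 0) (nat_lit 0) (XT.nd (nat_lit 282) (nat_lit 0) (nat_lit 0) (XT.nd (nat_lit 94) (nat_lit 0) (nat_lit 0) (XT.lf (nat_lit 0) (nat_lit 54701787467) (nat_lit 0) (nat_lit 0) (nat_lit 0) (nat_lit 0) (nat_lit 0) (nat_lit 0) (nat_lit 1) (nat_lit 0) (nat_lit 1) (nat_lit 0) (nat_lit 411) (nat_lit 338) (nat_lit 331)) (XT.nd (nat_lit 94) (nat_lit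 0) (nat_lit 0) (XT.lf (nat_lit 0) (nat_lit 59044374283) (nat_lit 0) (nat_lit 0) (nat_lit 0) (nat_lit 0) (nat_lit 0) (nat_lit 0) (nat_lit 1) (nat_lit 0) (nat_lit 1) (nat_lit 0) (nat_lit 412) (nat_lit 338) (nat_lit 330)) (XT.lf (nat_lit 0) (nat_lit 63735683290) (nat_lit 0) (nat_lit 0) (nat_lit 0) (nat_lit 0) (nat_lit 0) (nat_lit 0) (nat_lit 1) (nat_lit 0) (nat_lit 1) (nat_lit 0) (nat_lit 413) (nat_lit 338) (nat_lit 329)))) (XT.nd (nat_lit 188) (nat_lit 0) (nat_lit 0) (XT.nd (nat_lit 94) (nat_lit 0) (nat_lit 0) (XT.lf (nat_lit 0) (nat_lit 68803514838) (nat_lit 0) (nat_lit 0) (nat_lit 0) (nat_lit 0) (nat_lit 0) (nat_lit 0) (nat_lit 1) (nat_lit 0) (nat_lit 1) (nat_lit 0) (nat_lit 414) (nat_lit 338) (nat_lit 328)) (XT.lf (nat_lit 0) (nat_lit 74277900520) (nat_lit 0) (nat_lit 0) (nat_lit 0) (nat_lit 0) (nat_lit 0) (nat_lit 0) (nat_lit 1) (nat_lit 0) (nat_lit 1) (nat_lit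 0) (nat_lit 415) (nat_lit 338) (nat_lit 327))) (XT.nd (nat_lit 94) (nat_lit 0) (nat_lit 0) (XT.lf (nat_lit 0) (nat_lit 80191281141) (nat_lit 0) (nat_lit 0) (nat_lit 0) (nat_lit 0) (nat_lit 0) (nat_lit 0) (nat_lit 1) (nat_lit 0) (nat_lit 1) (nat_lit 0) (nat_lit 416) (nat_lit 338) (nat_lit 326)) (XT.lf (nat_lit 0) (nat_lit 86578698956) (nat_lit 0) (nat_lit 0) (nat_lit 0) (nat_lit 0) (nat_lit 0) (nat_lit 0) (nat_lit 1) (nat_lit 0) (nat_lit 1) (nat_lit 0) (nat_lit 417) (nat_lit 338) (nat_lit 325))))) (XT.nd (nat_lit 282) (nat_lit 0) (nat_lit 0) (XT.nd (nat_lit 94) (nat_lit 0) (nat_lit 0) (XT.lf (nat_lit 0) (nat_lit 93478005330) (nat_lit 0) (nat_lit 0) (nat_lit 0) (nat_lit 0) (nat_lit 0) (nat_lit 0) (nat_lit 1) (nat_lit 0) (nat_lit 1) (nat_lit 0) (nat_lit 418) (nat_lit 338) (nat_lit 324)) (XT.nd (nat_lit 94) (nat_lit 0) (nat_lit 0) (XT.lf (nat_lit 0) (nat_lit 100930085042)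 (nat_lit 0) (nat_lit 0) (nat_lit 0) (nat_lit 0) (nat_lit 0) (nat_lit 0) (nat_lit 1) (nat_lit 0) (nat_lit 1) (nat_lit 0) (nat_lit 419) (nat_lit 338) (nat_lit 323)) (XT.lf (nat_lit 0) (nat_lit 108979098563) (nat_lit 0) (nat_lit 0) (nat_lit 0) (nat_lit 0) (nat_lit 0) (nat_lit 0) (nat_lit 1) (nat_lit 0) (nat_lit 1) (nat_lit 0) (nat_lit 420) (nat_lit 338) (nat_lit 322)))) (XT.nd (nat_lit 188) (nat_lit 0) (nat_lit 0) (XT.nd (nat_lit 94) (nat_lit 0) (nat_lit 0) (XT.lf (nat_lit 0) (nat_lit 117672743753) (nat_lit 0) (nat_lit 0) (nat_lit 0) (nat_lit 0) (nat_lit 0) (nat_lit 0) (nat_lit 1) (nat_lit 0) (nat_lit 1) (nat_lit 0) (nat_lit 421) (nat_lit 338) (nat_lit 321)) (XT.lf (nat_lit 0) (nat_lit 127062538508) (nat_lit 0) (nat_lit 0) (nat_lit 0) (nat_lit 0) (nat_lit 0) (nat_lit 0) (nat_lit 1) (nat_lit 0) (nat_lit 1) (nat_lit 0) (nat_lit 422) (nat_lit 338) (nat_lit 320)))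 (XT.nd (nat_lit 94) (nat_lit 0) (nat_lit 0) (XT.lf (nat_lit 0) (nat_lit 137204126056) (nat_lit 0) (nat_lit 0) (nat_lit 0) (nat_lit 0) (nat_lit 0) (nat_lit 0) (nat_lit 1) (nat_lit 0) (nat_lit 1) (nat_lit 0) (nat_lit 423) (nat_lit 338) (nat_lit 319)) (XT.lf (nat_lit 0) (nat_lit 148157604694) (nat_lit 0) (nat_lit 0) (nat_lit 0) (nat_lit 0) (nat_lit 0) (nat_lit 0) (nat_lit 1) (nat_lit 0) (nat_lit 1) (nat_lit 0) (nat_lit 424) (nat_lit 338) (nat_lit 318)))))) (XT.nd (nat_lit 658) (nat_lit 0) (nat_lit 0) (XT.nd (nat_lit 282) (nat_lit 0) (nat_lit 0) (XT.nd (nat_lit 94) (nat_lit 0) (nat_lit 0) (XT.lf (nat_lit 0) (nat_lit 159987883925) (nat_lit 0) (nat_lit 0) (nat_lit 0) (nat_lit 0) (nat_lit 0) (nat_lit 0) (nat_lit 1) (nat_lit 0) (nat_lit 1) (nat_lit 0) (nat_lit 425) (nat_lit 338) (nat_lit 317)) (XT.nd (nat_lit 94) (nat_lit 0) (nat_lit 0) (XT.lf (nat_lit 0) (nat_lit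 172765069108) (nat_lit 0) (nat_lit 0) (nat_lit 0) (nat_lit 0) (nat_lit 0) (nat_lit 0) (nat_lit 1) (nat_lit 0) (nat_lit 1) (nat_lit 0) (nat_lit 426) (nat_lit 338) (nat_lit 316)) (XT.lf (nat_lit 0) (nat_lit 186564876895) (nat_lit 0) (nat_lit 0) (nat_lit 0) (nat_lit 0) (nat_lit 0) (nat_lit 0) (nat_lit 1) (nat_lit 0) (nat_lit 1) (nat_lit 0) (nat_lit 427) (nat_lit 338) (nat_lit 315)))) (XT.nd (nat_lit 188) (nat_lit 0) (nat_lit 0) (XT.nd (nat_lit 94) (nat_lit 0) (nat_lit 0) (XT.lf (nat_lit 0) (nat_lit 201469083925) (nat_lit 0) (nat_lit 0) (nat_lit 0) (nat_lit 0) (nat_lit 0) (nat_lit 0) (nat_lit 1) (nat_lit 0) (nat_lit 1) (nat_lit 0) (nat_lit 428) (nat_lit 338) (nat_lit 314)) (XT.lf (nat_lit 0) (nat_lit 217566011426) (nat_lit 0) (nat_lit 0) (nat_lit 0) (nat_lit 0) (nat_lit 0) (nat_lit 0) (nat_lit 1) (nat_lit 0) (nat_lit 1) (nat_lit 0) (nat_lit 429) (nat_lit 338)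 (nat_lit 313))) (XT.nd (nat_lit 94) (nat_lit 0) (nat_lit 0) (XT.lf (nat_lit 0) (nat_lit 234951048596) (nat_lit 0) (nat_lit 0) (nat_lit 0) (nat_lit 0) (nat_lit 0) (nat_lit 0) (nat_lit 1) (nat_lit 0) (nat_lit 1) (nat_lit 0) (nat_lit 430) (nat_lit 338) (nat_lit 312)) (XT.lf (nat_lit 0) (nat_lit 253727217879) (nat_lit 0) (nat_lit 0) (nat_lit 0) (nat_lit 0) (nat_lit 0) (nat_lit 0) (nat_lit 1) (nat_lit 0) (nat_lit 1) (nat_lit 0) (nat_lit 431) (nat_lit 338) (nat_lit 311))))) (XT.nd (nat_lit 282) (nat_lit 0) (nat_lit 0) (XT.nd (nat_lit 94) (nat_lit 0) (nat_lit 0) (XT.lf (nat_lit 0) (nat_lit 274005785462) (nat_lit 0) (nat_lit 0) (nat_lit 0) (nat_lit 0) (nat_lit 0) (nat_lit 0) (nat_lit 1) (nat_lit 0) (nat_lit 1) (nat_lit 0) (nat_lit 432) (nat_lit 338) (nat_lit 310)) (XT.nd (nat_lit 94) (nat_lit 0) (nat_lit 0) (XT.lf (nat_lit 0) (nat_lit 295906920636) (nat_lit 0) (nat_lit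 0) (nat_lit 0) (nat_lit 0) (nat_lit 0) (nat_lit 0) (nat_lit 1) (nat_lit 0) (nat_lit 1) (nat_lit 0) (nat_lit 433) (nat_lit 338) (nat_lit 309)) (XT.lf (nat_lit 0) (nat_lit 319560407905) (nat_lit 0) (nat_lit 0) (nat_lit 0) (nat_lit 0) (nat_lit 0) (nat_lit 0) (nat_lit 1) (nat_lit 0) (nat_lit 1) (nat_lit 0) (nat_lit 434) (nat_lit 338) (nat_lit 308)))) (XT.nd (nat_lit 188) (nat_lit 0) (nat_lit 0) (XT.nd (nat_lit 94) (nat_lit 0) (nat_lit 0) (XT.lf (nat_lit 0) (nat_lit 345106416082) (nat_lit 0) (nat_lit 0) (nat_lit 0) (nat_lit 0) (nat_lit 0) (nat_lit 0) (nat_lit 1) (nat_lit 0) (nat_lit 1) (nat_lit 0) (nat_lit 435) (nat_lit 338) (nat_lit 307)) (XT.lf (nat_lit 0) (nat_lit 372696328919) (nat_lit 0) (nat_lit 0) (nat_lit 0) (nat_lit 0) (nat_lit 0) (nat_lit 0) (nat_lit 1) (nat_lit 0) (nat_lit 1) (nat_lit 0) (nat_lit 436) (nat_lit 338) (nat_lit 306))) (XT.nd (nat_lit 94)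 (nat_lit 0) (nat_lit 0) (XT.lf (nat_lit 0) (nat_lit 402493642197) (nat_lit 0) (nat_lit 0) (nat_lit 0) (nat_lit 0) (nat_lit 0) (nat_lit 0) (nat_lit 1) (nat_lit 0) (nat_lit 1) (nat_lit 0) (nat_lit 437) (nat_lit 338) (nat_lit 305)) (XT.lf (nat_lit 0) (nat_lit 434674932587) (nat_lit 0) (nat_lit 0) (nat_lit 0) (nat_lit 0) (nat_lit 0) (nat_lit 0) (nat_lit 1) (nat_lit 0) (nat_lit 1) (nat_lit 0) (nat_lit 438) (nat_lit 338) (nat_lit 304))))))) (XT.nd (nat_lit 1316) (nat_lit 0) (nat_lit 0) (XT.nd (nat_lit 658) (nat_lit 0) (nat_lit 0) (XT.nd (nat_lit 282) (nat_lit 0) (nat_lit 0) (XT.nd (nat_lit 94) (nat_lit 0) (nat_lit 0) (XT.lf (nat_lit 0) (nat_lit 469430904031) (nat_lit 0) (nat_lit 0) (nat_lit 0) (nat_lit 0) (nat_lit 0) (nat_lit 0) (nat_lit 1) (nat_lit 0) (nat_lit 1) (nat_lit 0) (nat_lit 439) (nat_lit 338) (nat_lit 303)) (XT.nd (nat_lit 94) (nat_lit 0) (nat_lit 0)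 (XT.lf (nat_lit 0) (nat_lit 506967517842) (nat_lit 0) (nat_lit 0) (nat_lit 0) (nat_lit 0) (nat_lit 0) (nat_lit 0) (nat_lit 1) (nat_lit 0) (nat_lit 1) (nat_lit 0) (nat_lit 440) (nat_lit 338) (nat_lit 302)) (XT.lf (nat_lit 0) (nat_lit 547507213213) (nat_lit 0) (nat_lit 0) (nat_lit 0) (nat_lit 0) (nat_lit 0) (nat_lit 0) (nat_lit 1) (nat_lit 0) (nat_lit 1) (nat_lit 0) (nat_lit 441) (nat_lit 338) (nat_lit 301)))) (XT.nd (nat_lit 188) (nat_lit 0) (nat_lit 0) (XT.nd (nat_lit 94) (nat_lit 0) (nat_lit 0) (XT.lf (nat_lit 0) (nat_lit 591290225376) (nat_lit 0) (nat_lit 0) (nat_lit 0) (nat_lit 0) (nat_lit 0) (nat_lit 0) (nat_lit 1) (nat_lit 0) (nat_lit 1) (nat_lit 0) (nat_lit 442) (nat_lit 338) (nat_lit 300)) (XT.lf (nat_lit 0) (nat_lit 638576009217) (nat_lit 0) (nat_lit 0) (nat_lit 0) (nat_lit 0) (nat_lit 0) (nat_lit 0) (nat_lit 1) (nat_lit 0) (nat_lit 1) (nat_lit 0)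 (nat_lit 443) (nat_lit 338) (nat_lit 299))) (XT.nd (nat_lit 94) (nat_lit 0) (nat_lit 0) (XT.lf (nat_lit 0) (nat_lit 689644776789) (nat_lit 0) (nat_lit 0) (nat_lit 0) (nat_lit 0) (nat_lit 0) (nat_lit 0) (nat_lit 1) (nat_lit 0) (nat_lit 1) (nat_lit 0) (nat_lit 444) (nat_lit 338) (nat_lit 298)) (XT.lf (nat_lit 0) (nat_lit 744799157826) (nat_lit 0) (nat_lit 0) (nat_lit 0) (nat_lit 0) (nat_lit 0) (nat_lit 0) (nat_lit 1) (nat_lit 0) (nat_lit 1) (nat_lit 0) (nat_lit 445) (nat_lit 338) (nat_lit 297))))) (XT.nd (nat_lit 282) (nat_lit 0) (nat_lit 0) (XT.nd (nat_lit 94) (nat_lit 0) (nat_lit 0) (XT.lf (nat_lit 0) (nat_lit 804365993104) (nat_lit 0) (nat_lit 0) (nat_lit 0) (nat_lit 0) (nat_lit 0) (nat_lit 0) (nat_lit 1) (nat_lit 0) (nat_lit 1) (nat_lit 0) (nat_lit 446) (nat_lit 338) (nat_lit 296)) (XT.nd (nat_lit 94) (nat_lit 0) (nat_lit 0) (XT.lf (nat_lit 0) (nat_lit 868698271277)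 (nat_lit 0) (nat_lit 0) (nat_lit 0) (nat_lit 0) (nat_lit 0) (nat_lit 0) (nat_lit 1) (nat_lit 0) (nat_lit 1) (nat_lit 0) (nat_lit 447) (nat_lit 338) (nat_lit 295)) (XT.lf (nat_lit 0) (nat_lit 938177220660) (nat_lit 0) (nat_lit 0) (nat_lit 0) (nat_lit 0) (nat_lit 0) (nat_lit 0) (nat_lit 1) (nat_lit 0) (nat_lit 1) (nat_lit 0) (nat_lit 448) (nat_lit 338) (nat_lit 294)))) (XT.nd (nat_lit 188) (nat_lit 0) (nat_lit 0) (XT.nd (nat_lit 94) (nat_lit 0) (nat_lit 0) (XT.lf (nat_lit 0) (nat_lit 1013214568360) (nat_lit 0) (nat_lit 0) (nat_lit 0) (nat_lit 0) (nat_lit 0) (nat_lit 0) (nat_lit 1) (nat_lit 0) (nat_lit 1) (nat_lit 0) (nat_lit 449) (nat_lit 338) (nat_lit 293)) (XT.lf (nat_lit 0) (nat_lit 1094254980142) (nat_lit 0) (nat_lit 0) (nat_lit 0) (nat_lit 0) (nat_lit 0) (nat_lit 0) (nat_lit 1) (nat_lit 0) (nat_lit 1) (nat_lit 0) (nat_lit 450) (nat_lit 338) (nat_lit 292)))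 (XT.nd (nat_lit 94) (nat_lit 0) (nat_lit 0) (XT.lf (nat_lit 0) (nat_lit 1181778695482) (nat_lit 0) (nat_lit 0) (nat_lit 0) (nat_lit 0) (nat_lit 0) (nat_lit 0) (nat_lit 1) (nat_lit 0) (nat_lit 1) (nat_lit 0) (nat_lit 451) (nat_lit 338) (nat_lit 291)) (XT.lf (nat_lit 0) (nat_lit 1276304373435) (nat_lit 0) (nat_lit 0) (nat_lit 0) (nat_lit 0) (nat_lit 0) (nat_lit 0) (nat_lit 1) (nat_lit 0) (nat_lit 1) (nat_lit 0) (nat_lit 452) (nat_lit 338) (nat_lit 290)))))) (XT.nd (nat_lit 658) (nat_lit 0) (nat_lit 0) (XT.nd (nat_lit 282) (nat_lit 0) (nat_lit 0) (XT.nd (nat_lit 94) (nat_lit 0) (nat_lit 0) (XT.lf (nat_lit 0) (nat_lit 1378392166166) (nat_lit 0) (nat_lit 0) (nat_lit 0) (nat_lit 0) (nat_lit 0) (nat_lit 0) (nat_lit 1) (nat_lit 0) (nat_lit 1) (nat_lit 0) (nat_lit 453) (nat_lit 338) (nat_lit 289)) (XT.nd (nat_lit 94) (nat_lit 0) (nat_lit 0) (XT.lf (nat_lit 0) (nat_lit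 1488647038373) (nat_lit 0) (nat_lit 0) (nat_lit 0) (nat_lit 0) (nat_lit 0) (nat_lit 0) (nat_lit 1) (nat_lit 0) (nat_lit 1) (nat_lit 0) (nat_lit 454) (nat_lit 338) (nat_lit 288)) (XT.lf (nat_lit 0) (nat_lit 1607722352261) (nat_lit 0) (nat_lit 0) (nat_lit 0) (nat_lit 0) (nat_lit 0) (nat_lit 0) (nat_lit 1) (nat_lit 0) (nat_lit 1) (nat_lit 0) (nat_lit 455) (nat_lit 338) (nat_lit 287)))) (XT.nd (nat_lit 188) (nat_lit 0) (nat_lit 0) (XT.nd (nat_lit 94) (nat_lit 0) (nat_lit 0) (XT.lf (nat_lit 0) (nat_lit 1736323739320) (nat_lit 0) (nat_lit 0) (nat_lit 0) (nat_lit 0) (nat_lit 0) (nat_lit 0) (nat_lit 1) (nat_lit 0) (nat_lit 1) (nat_lit 0) (nat_lit 456) (nat_lit 338) (nat_lit 286)) (XT.lf (nat_lit 0) (nat_lit 1875213281845) (nat_lit 0) (nat_lit 0) (nat_lit 0) (nat_lit 0) (nat_lit 0) (nat_lit 0) (nat_lit 1) (nat_lit 0) (nat_lit 1) (nat_lit 0) (nat_lit 457) (nat_lit 338)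 (nat_lit 285))) (XT.nd (nat_lit 94) (nat_lit 0) (nat_lit 0) (XT.lf (nat_lit 0) (nat_lit 2025214028975) (nat_lit 0) (nat_lit 0) (nat_lit 0) (nat_lit 0) (nat_lit 0) (nat_lit 0) (nat_lit 1) (nat_lit 0) (nat_lit 1) (nat_lit 0) (nat_lit 458) (nat_lit 338) (nat_lit 284)) (XT.lf (nat_lit 0) (nat_lit 2187214874028) (nat_lit 0) (nat_lit 0) (nat_lit 0) (nat_lit 0) (nat_lit 0) (nat_lit 0) (nat_lit 1) (nat_lit 0) (nat_lit 1) (nat_lit 0) (nat_lit 459) (nat_lit 338) (nat_lit 283))))) (XT.nd (nat_lit 376) (nat_lit 0) (nat_lit 0) (XT.nd (nat_lit 188) (nat_lit 0) (nat_lit 0) (XT.nd (nat_lit 94) (nat_lit 0) (nat_lit 0) (XT.lf (nat_lit 0) (nat_lit 2362175822010) (nat_lit 0) (nat_lit 0) (nat_lit 0) (nat_lit 0) (nat_lit 0) (nat_lit 0) (nat_lit 1) (nat_lit 0) (nat_lit 1) (nat_lit 0) (nat_lit 460) (nat_lit 338) (nat_lit 282)) (XT.lf (nat_lit 0) (nat_lit 2551133678540) (nat_lit 0)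 (nat_lit 0) (nat_lit 0) (nat_lit 0) (nat_lit 0) (nat_lit 0) (nat_lit 1) (nat_lit 0) (nat_lit 1) (nat_lit 0) (nat_lit 461) (nat_lit 338) (nat_lit 281))) (XT.nd (nat_lit 94) (nat_lit 0) (nat_lit 0) (XT.lf (nat_lit 0) (nat_lit 2755208193878) (nat_lit 0) (nat_lit 0) (nat_lit 0) (nat_lit 0) (nat_lit 0) (nat_lit 0) (nat_lit 1) (nat_lit 0) (nat_lit 1) (nat_lit 0) (nat_lit 462) (nat_lit 338) (nat_lit 280)) (XT.lf (nat_lit 0) (nat_lit 2975608698486) (nat_lit 0) (nat_lit 0) (nat_lit 0) (nat_lit 0) (nat_lit 0) (nat_lit 0) (nat_lit 1) (nat_lit 0) (nat_lit 1) (nat_lit 0) (nat_lit 463) (nat_lit 338) (nat_lit 279)))) (XT.nd (nat_lit 188) (nat_lit 0) (nat_lit 0) (XT.nd (nat_lit 94) (nat_lit 0) (nat_lit 0) (XT.lf (nat_lit 0) (nat_lit 3213641269428) (nat_lit 0) (nat_lit 0) (nat_lit 0) (nat_lit 0) (nat_lit 0) (nat_lit 0) (nat_lit 1) (nat_lit 0) (nat_lit 1) (nat_lit 0) (nat_lit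 464) (nat_lit 338) (nat_lit 278)) (XT.lf (nat_lit 0) (nat_lit 3470716470088) (nat_lit 0) (nat_lit 0) (nat_lit 0) (nat_lit 0) (nat_lit 0) (nat_lit 0) (nat_lit 1) (nat_lit 0) (nat_lit 1) (nat_lit 0) (nat_lit 465) (nat_lit 338) (nat_lit 277))) (XT.nd (nat_lit 94) (nat_lit 0) (nat_lit 0) (XT.lf (nat_lit 0) (nat_lit 3748357709061) (nat_lit 0) (nat_lit 0) (nat_lit 0) (nat_lit 0) (nat_lit 0) (nat_lit 0) (nat_lit 1) (nat_lit 0) (nat_lit 1) (nat_lit 0) (nat_lit 466) (nat_lit 338) (nat_lit 276)) (XT.lf (nat_lit 0) (nat_lit 4048210267764) (nat_lit 0) (nat_lit 0) (nat_lit 0) (nat_lit 0) (nat_lit 0) (nat_lit 0) (nat_lit 1) (nat_lit 0) (nat_lit 1) (nat_lit 0) (nat_lit 467) (nat_lit 338) (nat_lit 275))))))))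
noncomputable def xc44 : XT := (XT.nd (nat_lit 2632) (nat_lit 0) (nat_lit 0) (XT.nd (nat_lit 1316) (nat_lit 0) (nat_lit 0) (XT.nd (nat_lit 658) (nat_lit 0) (nat_lit 0) (XT.nd (nat_lit 282) (nat_lit 0) (nat_lit 0) (XT.nd (nat_lit 94) (nat_lit 0) (nat_lit 0) (XT.lf (nat_lit 0) (nat_lit 4372051050249) (nat_lit 0) (nat_lit 0) (nat_lit 0) (nat_lit 0) (nat_lit 0) (nat_lit 0) (nat_lit 1) (nat_lit 0) (nat_lit 1) (nat_lit 0) (nat_lit 468) (nat_lit 338) (nat_lit 274)) (XT.nd (nat_lit 94) (nat_lit 0) (nat_lit 0) (XT.lf (nat_lit 0) (nat_lit 4721799113005) (nat_lit 0) (nat_lit 0) (nat_lit 0) (nat_lit 0) (nat_lit 0) (nat_lit 0) (nat_lit 1) (nat_lit 0) (nat_lit 1) (nat_lit 0) (nat_lit 469) (nat_lit 338) (nat_lit 273)) (XT.lf (nat_lit 0) (nat_lit 5099527037143) (nat_lit 0) (nat_lit 0) (nat_lit 0) (nat_lit 0) (nat_lit 0) (nat_lit 0) (nat_lit 1) (nat_lit 0) (nat_lit 1) (nat_lit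 0) (nat_lit 470) (nat_lit 338) (nat_lit 272)))) (XT.nd (nat_lit 188) (nat_lit 0) (nat_lit 0) (XT.nd (nat_lit 94) (nat_lit 0) (nat_lit 0) (XT.lf (nat_lit 0) (nat_lit 5507473210363) (nat_lit 0) (nat_lit 0) (nat_lit 0) (nat_lit 0) (nat_lit 0) (nat_lit 0) (nat_lit 1) (nat_lit 0) (nat_lit 1) (nat_lit 0) (nat_lit 471) (nat_lit 338) (nat_lit 271)) (XT.lf (nat_lit 0) (nat_lit 5948055091469) (nat_lit 0) (nat_lit 0) (nat_lit 0) (nat_lit 0) (nat_lit 0) (nat_lit 0) (nat_lit 1) (nat_lit 0) (nat_lit 1) (nat_lit 0) (nat_lit 472) (nat_lit 338) (nat_lit 270))) (XT.nd (nat_lit 94) (nat_lit 0) (nat_lit 0) (XT.lf (nat_lit 0) (nat_lit 6423883536053) (nat_lit 0) (nat_lit 0) (nat_lit 0) (nat_lit 0) (nat_lit 0) (nat_lit 0) (nat_lit 1) (nat_lit 0) (nat_lit 1) (nat_lit 0) (nat_lit 473) (nat_lit 338) (nat_lit 269)) (XT.lf (nat_lit 0) (nat_lit 6937778268231) (nat_lit 0) (nat_lit 0) (nat_lit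 0) (nat_lit 0) (nat_lit 0) (nat_lit 0) (nat_lit 1) (nat_lit 0) (nat_lit 1) (nat_lit 0) (nat_lit 474) (nat_lit 338) (nat_lit 268))))) (XT.nd (nat_lit 282) (nat_lit 0) (nat_lit 0) (XT.nd (nat_lit 94) (nat_lit 0) (nat_lit 0) (XT.lf (nat_lit 0) (nat_lit 7492784590118) (nat_lit 0) (nat_lit 0) (nat_lit 0) (nat_lit 0) (nat_lit 0) (nat_lit 0) (nat_lit 1) (nat_lit 0) (nat_lit 1) (nat_lit 0) (nat_lit 475) (nat_lit 338) (nat_lit 267)) (XT.nd (nat_lit 94) (nat_lit 0) (nat_lit 0) (XT.lf (nat_lit 0) (nat_lit 8092191428068) (nat_lit 0) (nat_lit 0) (nat_lit 0) (nat_lit 0) (nat_lit 0) (nat_lit 0) (nat_lit 1) (nat_lit 0) (nat_lit 1) (nat_lit 0) (nat_lit 476) (nat_lit 338) (nat_lit 266)) (XT.lf (nat_lit 0) (nat_lit 8739550822602) (nat_lit 0) (nat_lit 0) (nat_lit 0) (nat_lit 0) (nat_lit 0) (nat_lit 0) (nat_lit 1) (nat_lit 0) (nat_lit 1) (nat_lit 0) (nat_lit 477) (nat_lit 338)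 (nat_lit 265)))) (XT.nd (nat_lit 188) (nat_lit 0) (nat_lit 0) (XT.nd (nat_lit 94) (nat_lit 0) (nat_lit 0) (XT.lf (nat_lit 0) (nat_lit 9438698977538) (nat_lit 0) (nat_lit 0) (nat_lit 0) (nat_lit 0) (nat_lit 0) (nat_lit 0) (nat_lit 1) (nat_lit 0) (nat_lit 1) (nat_lit 0) (nat_lit 478) (nat_lit 338) (nat_lit 264)) (XT.lf (nat_lit 0) (nat_lit 10193778993055) (nat_lit 0) (nat_lit 0) (nat_lit 0) (nat_lit 0) (nat_lit 0) (nat_lit 0) (nat_lit 1) (nat_lit 0) (nat_lit 1) (nat_lit 0) (nat_lit 479) (nat_lit 338) (nat_lit 263))) (XT.nd (nat_lit 94) (nat_lit 0) (nat_lit 0) (XT.lf (nat_lit 0) (nat_lit 11009265417392) (nat_lit 0) (nat_lit 0) (nat_lit 0) (nat_lit 0) (nat_lit 0) (nat_lit 0) (nat_lit 1) (nat_lit 0) (nat_lit 1) (nat_lit 0) (nat_lit 480) (nat_lit 338) (nat_lit 262)) (XT.lf (nat_lit 0) (nat_lit 11889990762693) (nat_lit 0) (nat_lit 0) (nat_lit 0) (nat_lit 0) (nat_lit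 0) (nat_lit 0) (nat_lit 1) (nat_lit 0) (nat_lit 1) (nat_lit 0) (nat_lit 481) (nat_lit 338) (nat_lit 261)))))) (XT.nd (nat_lit 658) (nat_lit 0) (nat_lit 0) (XT.nd (nat_lit 282) (nat_lit 0) (nat_lit 0) (XT.nd (nat_lit 94) (nat_lit 0) (nat_lit 0) (XT.lf (nat_lit 0) (nat_lit 12841174142117) (nat_lit 0) (nat_lit 0) (nat_lit 0) (nat_lit 0) (nat_lit 0) (nat_lit 0) (nat_lit 1) (nat_lit 0) (nat_lit 1) (nat_lit 0) (nat_lit 482) (nat_lit 338) (nat_lit 260)) (XT.nd (nat_lit 94) (nat_lit 0) (nat_lit 0) (XT.lf (nat_lit 0) (nat_lit 13868452197911) (nat_lit 0) (nat_lit 0) (nat_lit 0) (nat_lit 0) (nat_lit 0) (nat_lit 0) (nat_lit 1) (nat_lit 0) (nat_lit 1) (nat_lit 0) (nat_lit 483) (nat_lit 338) (nat_lit 259)) (XT.lf (nat_lit 0) (nat_lit 14977912503739) (nat_lit 0) (nat_lit 0) (nat_lit 0) (nat_lit 0) (nat_lit 0) (nat_lit 0) (nat_lit 1) (nat_lit 0) (nat_lit 1) (nat_lit 0) (nat_lit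 484) (nat_lit 338) (nat_lit 258)))) (XT.nd (nat_lit 188) (nat_lit 0) (nat_lit 0) (XT.nd (nat_lit 94) (nat_lit 0) (nat_lit 0) (XT.lf (nat_lit 0) (nat_lit 16176129639192) (nat_lit 0) (nat_lit 0) (nat_lit 0) (nat_lit 0) (nat_lit 0) (nat_lit 0) (nat_lit 1) (nat_lit 0) (nat_lit 1) (nat_lit 0) (nat_lit 485) (nat_lit 338) (nat_lit 257)) (XT.lf (nat_lit 0) (nat_lit 17470204150256) (nat_lit 0) (nat_lit 0) (nat_lit 0) (nat_lit 0) (nat_lit 0) (nat_lit 0) (nat_lit 1) (nat_lit 0) (nat_lit 1) (nat_lit 0) (nat_lit 486) (nat_lit 338) (nat_lit 256))) (XT.nd (nat_lit 94) (nat_lit 0) (nat_lit 0) (XT.lf (nat_lit 0) (nat_lit 18867804626629) (nat_lit 0) (nat_lit 0) (nat_lit 0) (nat_lit 0) (nat_lit 0) (nat_lit 0) (nat_lit 1) (nat_lit 0) (nat_lit 1) (nat_lit 0) (nat_lit 487) (nat_lit 338) (nat_lit 255)) (XT.lf (nat_lit 0) (nat_lit 20377213145206) (nat_lit 0) (nat_lit 0) (nat_lit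 0) (nat_lit 0) (nat_lit 0) (nat_lit 0) (nat_lit 1) (nat_lit 0) (nat_lit 1) (nat_lit 0) (nat_lit 488) (nat_lit 338) (nat_lit 254))))) (XT.nd (nat_lit 282) (nat_lit 0) (nat_lit 0) (XT.nd (nat_lit 94) (nat_lit 0) (nat_lit 0) (XT.lf (nat_lit 0) (nat_lit 22007374349061) (nat_lit 0) (nat_lit 0) (nat_lit 0) (nat_lit 0) (nat_lit 0) (nat_lit 0) (nat_lit 1) (nat_lit 0) (nat_lit 1) (nat_lit 0) (nat_lit 489) (nat_lit 338) (nat_lit 253)) (XT.nd (nat_lit 94) (nat_lit 0) (nat_lit 0) (XT.lf (nat_lit 0) (nat_lit 23767948452734) (nat_lit 0) (nat_lit 0) (nat_lit 0) (nat_lit 0) (nat_lit 0) (nat_lit 0) (nat_lit 1) (nat_lit 0) (nat_lit 1) (nat_lit 0) (nat_lit 490) (nat_lit 338) (nat_lit 252)) (XT.lf (nat_lit 0) (nat_lit 25669368487952) (nat_lit 0) (nat_lit 0) (nat_lit 0) (nat_lit 0) (nat_lit 0) (nat_lit 0) (nat_lit 1) (nat_lit 0) (nat_lit 1) (nat_lit 0) (nat_lit 491) (nat_lit 338)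 (nat_lit 251)))) (XT.nd (nat_lit 188) (nat_lit 0) (nat_lit 0) (XT.nd (nat_lit 94) (nat_lit 0) (nat_lit 0) (XT.lf (nat_lit 0) (nat_lit 27722902128997) (nat_lit 0) (nat_lit 0) (nat_lit 0) (nat_lit 0) (nat_lit 0) (nat_lit 0) (nat_lit 1) (nat_lit 0) (nat_lit 1) (nat_lit 0) (nat_lit 492) (nat_lit 338) (nat_lit 250)) (XT.lf (nat_lit 0) (nat_lit 29940718464113) (nat_lit 0) (nat_lit 0) (nat_lit 0) (nat_lit 0) (nat_lit 0) (nat_lit 0) (nat_lit 1) (nat_lit 0) (nat_lit 1) (nat_lit 0) (nat_lit 493) (nat_lit 338) (nat_lit 249))) (XT.nd (nat_lit 94) (nat_lit 0) (nat_lit 0) (XT.lf (nat_lit 0) (nat_lit 32335960108618) (nat_lit 0) (nat_lit 0) (nat_lit 0) (nat_lit 0) (nat_lit 0) (nat_lit 0) (nat_lit 1) (nat_lit 0) (nat_lit 1) (nat_lit 0) (nat_lit 494) (nat_lit 338) (nat_lit 248)) (XT.lf (nat_lit 0) (nat_lit 34922821087073) (nat_lit 0) (nat_lit 0) (nat_lit 0) (nat_lit 0) (nat_lit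 0) (nat_lit 0) (nat_lit 1) (nat_lit 0) (nat_lit 1) (nat_lit 0) (nat_lit 495) (nat_lit 338) (nat_lit 247))))))) (XT.nd (nat_lit 59972) (nat_lit 0) (nat_lit 0) (XT.nd (nat_lit 59314) (nat_lit 0) (nat_lit 0) (XT.nd (nat_lit 58938) (nat_lit 0) (nat_lit 0) (XT.nd (nat_lit 94) (nat_lit 0) (nat_lit 0) (XT.lf (nat_lit 0) (nat_lit 37716630946016) (nat_lit 0) (nat_lit 0) (nat_lit 0) (nat_lit 0) (nat_lit 0) (nat_lit 0) (nat_lit 1) (nat_lit 0) (nat_lit 1) (nat_lit 0) (nat_lit 496) (nat_lit 338) (nat_lit 246)) (XT.nd (nat_lit 94) (nat_lit 0) (nat_lit 0) (XT.lf (nat_lit 0) (nat_lit 40733945595723) (nat_lit 0) (nat_lit 0) (nat_lit 0) (nat_lit 0) (nat_lit 0) (nat_lit 0) (nat_lit 1) (nat_lit 0) (nat_lit 1) (nat_lit 0) (nat_lit 497) (nat_lit 338) (nat_lit 245)) (XT.lf (nat_lit 0) (nat_lit 43992645419304) (nat_lit 0) (nat_lit 0) (nat_lit 0) (nat_lit 0) (nat_lit 0) (nat_lit 0)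 (nat_lit 1) (nat_lit 0) (nat_lit 1) (nat_lit 0) (nat_lit 498) (nat_lit 338) (nat_lit 244)))) (XT.nd (nat_lit 188) (nat_lit 252) (nat_lit 0) (XT.nd (nat_lit 94) (nat_lit 252) (nat_lit 0) (XT.lf (nat_lit 0) (nat_lit 4535222787) (nat_lit 168) (nat_lit 1195317448) (nat_lit 0) (nat_lit 4535222787) (nat_lit 6) (nat_lit 5) (nat_lit 8) (nat_lit 4) (nat_lit 6) (nat_lit 4) (nat_lit 402) (nat_lit 339) (nat_lit 339)) (XT.lf (nat_lit 0) (nat_lit 4837831927) (nat_lit 168) (nat_lit 11884946979) (nat_lit 0) (nat_lit 4607513432) (nat_lit 3) (nat_lit 5) (nat_lit 5) (nat_lit 4) (nat_lit 3) (nat_lit 4) (nat_lit 403) (nat_lit 339) (nat_lit 338))) (XT.nd (nat_lit 94) (nat_lit 168) (nat_lit 0) (XT.lf (nat_lit 0) (nat_lit 21705695164) (nat_lit 84) (nat_lit 457618482) (nat_lit 84) (nat_lit 14042122) (nat_lit 2) (nat_lit 4) (nat_lit 3) (nat_lit 5) (nat_lit 3) (nat_lit 4) (nat_lit 404)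 (nat_lit 339) (nat_lit 337)) (XT.lf (nat_lit 0) (nat_lit 34656954909) (nat_lit 0) (nat_lit 0) (nat_lit 0) (nat_lit 0) (nat_lit 0) (nat_lit 0) (nat_lit 1) (nat_lit 0) (nat_lit 1) (nat_lit 0) (nat_lit 405) (nat_lit 339) (nat_lit 336))))) (XT.nd (nat_lit 282) (nat_lit 0) (nat_lit 0) (XT.nd (nat_lit 94) (nat_lit 0) (nat_lit 0) (XT.lf (nat_lit 0) (nat_lit 37386357791) (nat_lit 0) (nat_lit 0) (nat_lit 0) (nat_lit 0) (nat_lit 0) (nat_lit 0) (nat_lit 1) (nat_lit 0) (nat_lit 1) (nat_lit 0) (nat_lit 406) (nat_lit 339) (nat_lit 335)) (XT.nd (nat_lit 94) (nat_lit 0) (nat_lit 0) (XT.lf (nat_lit 0) (nat_lit 40336045430) (nat_lit 0) (nat_lit 0) (nat_lit 0) (nat_lit 0) (nat_lit 0) (nat_lit 0) (nat_lit 1) (nat_lit 0) (nat_lit 1) (nat_lit 0) (nat_lit 407) (nat_lit 339) (nat_lit 334)) (XT.lf (nat_lit 0) (nat_lit 43523497456) (nat_lit 0) (nat_lit 0) (nat_lit 0) (nat_lit 0) (nat_lit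 0) (nat_lit 0) (nat_lit 1) (nat_lit 0) (nat_lit 1) (nat_lit 0) (nat_lit 408) (nat_lit 339) (nat_lit 333)))) (XT.nd (nat_lit 188) (nat_lit 0) (nat_lit 0) (XT.nd (nat_lit 94) (nat_lit 0) (nat_lit 0) (XT.lf (nat_lit 0) (nat_lit 46967602476) (nat_lit 0) (nat_lit 0) (nat_lit 0) (nat_lit 0) (nat_lit 0) (nat_lit 0) (nat_lit 1) (nat_lit 0) (nat_lit 1) (nat_lit 0) (nat_lit 409) (nat_lit 339) (nat_lit 332)) (XT.lf (nat_lit 0) (nat_lit 50688769998) (nat_lit 0) (nat_lit 0) (nat_lit 0) (nat_lit 0) (nat_lit 0) (nat_lit 0) (nat_lit 1) (nat_lit 0) (nat_lit 1) (nat_lit 0) (nat_lit 410) (nat_lit 339) (nat_lit 331))) (XT.nd (nat_lit 94) (nat_lit 0) (nat_lit 0) (XT.lf (nat_lit 0) (nat_lit 54709051388) (nat_lit 0) (nat_lit 0) (nat_lit 0) (nat_lit 0) (nat_lit 0) (nat_lit 0) (nat_lit 1) (nat_lit 0) (nat_lit 1) (nat_lit 0) (nat_lit 411) (nat_lit 339) (nat_lit 330)) (XT.lf (nat_lit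 0) (nat_lit 59052270534) (nat_lit 0) (nat_lit 0) (nat_lit 0) (nat_lit 0) (nat_lit 0) (nat_lit 0) (nat_lit 1) (nat_lit 0) (nat_lit 1) (nat_lit 0) (nat_lit 412) (nat_lit 339) (nat_lit 329)))))) (XT.nd (nat_lit 658) (nat_lit 0) (nat_lit 0) (XT.nd (nat_lit 282) (nat_lit 0) (nat_lit 0) (XT.nd (nat_lit 94) (nat_lit 0) (nat_lit 0) (XT.lf (nat_lit 0) (nat_lit 63744165032) (nat_lit 0) (nat_lit 0) (nat_lit 0) (nat_lit 0) (nat_lit 0) (nat_lit 0) (nat_lit 1) (nat_lit 0) (nat_lit 1) (nat_lit 0) (nat_lit 413) (nat_lit 339) (nat_lit 328)) (XT.nd (nat_lit 94) (nat_lit 0) (nat_lit 0) (XT.lf (nat_lit 0) (nat_lit 68812538700) (nat_lit 0) (nat_lit 0) (nat_lit 0) (nat_lit 0) (nat_lit 0) (nat_lit 0) (nat_lit 1) (nat_lit 0) (nat_lit 1) (nat_lit 0) (nat_lit 414) (nat_lit 339) (nat_lit 327)) (XT.lf (nat_lit 0) (nat_lit 74287426345) (nat_lit 0) (nat_lit 0) (nat_lit 0) (nat_lit 0) (nat_lit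 0) (nat_lit 0) (nat_lit 1) (nat_lit 0) (nat_lit 1) (nat_lit 0) (nat_lit 415) (nat_lit 339) (nat_lit 326)))) (XT.nd (nat_lit 188) (nat_lit 0) (nat_lit 0) (XT.nd (nat_lit 94) (nat_lit 0) (nat_lit 0) (XT.lf (nat_lit 0) (nat_lit 80201271747) (nat_lit 0) (nat_lit 0) (nat_lit 0) (nat_lit 0) (nat_lit 0) (nat_lit 0) (nat_lit 1) (nat_lit 0) (nat_lit 1) (nat_lit 0) (nat_lit 416) (nat_lit 339) (nat_lit 325)) (XT.lf (nat_lit 0) (nat_lit 86589119915) (nat_lit 0) (nat_lit 0) (nat_lit 0) (nat_lit 0) (nat_lit 0) (nat_lit 0) (nat_lit 1) (nat_lit 0) (nat_lit 1) (nat_lit 0) (nat_lit 417) (nat_lit 339) (nat_lit 324))) (XT.nd (nat_lit 94) (nat_lit 0) (nat_lit 0) (XT.lf (nat_lit 0) (nat_lit 93488824764) (nat_lit 0) (nat_lit 0) (nat_lit 0) (nat_lit 0) (nat_lit 0) (nat_lit 0) (nat_lit 1) (nat_lit 0) (nat_lit 1) (nat_lit 0) (nat_lit 418) (nat_lit 339) (nat_lit 323)) (XT.lf (nat_lit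 0) (nat_lit 100941273434) (nat_lit 0) (nat_lit 0) (nat_lit 0) (nat_lit 0) (nat_lit 0) (nat_lit 0) (nat_lit 1) (nat_lit 0) (nat_lit 1) (nat_lit 0) (nat_lit 419) (nat_lit 339) (nat_lit 322))))) (XT.nd (nat_lit 376) (nat_lit 0) (nat_lit 0) (XT.nd (nat_lit 188) (nat_lit 0) (nat_lit 0) (XT.nd (nat_lit 94) (nat_lit 0) (nat_lit 0) (XT.lf (nat_lit 0) (nat_lit 108990628583) (nat_lit 0) (nat_lit 0) (nat_lit 0) (nat_lit 0) (nat_lit 0) (nat_lit 0) (nat_lit 1) (nat_lit 0) (nat_lit 1) (nat_lit 0) (nat_lit 420) (nat_lit 339) (nat_lit 321)) (XT.lf (nat_lit 0) (nat_lit 117684590095) (nat_lit 0) (nat_lit 0) (nat_lit 0) (nat_lit 0) (nat_lit 0) (nat_lit 0) (nat_lit 1) (nat_lit 0) (nat_lit 1) (nat_lit 0) (nat_lit 421) (nat_lit 339) (nat_lit 320))) (XT.nd (nat_lit 94) (nat_lit 0) (nat_lit 0) (XT.lf (nat_lit 0) (nat_lit 127074677741) (nat_lit 0) (nat_lit 0) (nat_lit 0) (nat_lit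 0) (nat_lit 0) (nat_lit 0) (nat_lit 1) (nat_lit 0) (nat_lit 1) (nat_lit 0) (nat_lit 422) (nat_lit 339) (nat_lit 319)) (XT.lf (nat_lit 0) (nat_lit 137216536484) (nat_lit 0) (nat_lit 0) (nat_lit 0) (nat_lit 0) (nat_lit 0) (nat_lit 0) (nat_lit 1) (nat_lit 0) (nat_lit 1) (nat_lit 0) (nat_lit 423) (nat_lit 339) (nat_lit 318)))) (XT.nd (nat_lit 188) (nat_lit 0) (nat_lit 0) (XT.nd (nat_lit 94) (nat_lit 0) (nat_lit 0) (XT.lf (nat_lit 0) (nat_lit 148170266229) (nat_lit 0) (nat_lit 0) (nat_lit 0) (nat_lit 0) (nat_lit 0) (nat_lit 0) (nat_lit 1) (nat_lit 0) (nat_lit 1) (nat_lit 0) (nat_lit 424) (nat_lit 339) (nat_lit 317)) (XT.lf (nat_lit 0) (nat_lit 160000777967) (nat_lit 0) (nat_lit 0) (nat_lit 0) (nat_lit 0) (nat_lit 0) (nat_lit 0) (nat_lit 1) (nat_lit 0) (nat_lit 1) (nat_lit 0) (nat_lit 425) (nat_lit 339) (nat_lit 316))) (XT.nd (nat_lit 94) (nat_lit 0) (nat_lit 0)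 (XT.lf (nat_lit 0) (nat_lit 172778178433) (nat_lit 0) (nat_lit 0) (nat_lit 0) (nat_lit 0) (nat_lit 0) (nat_lit 0) (nat_lit 1) (nat_lit 0) (nat_lit 1) (nat_lit 0) (nat_lit 426) (nat_lit 339) (nat_lit 315)) (XT.lf (nat_lit 0) (nat_lit 186578185557) (nat_lit 0) (nat_lit 0) (nat_lit 0) (nat_lit 0) (nat_lit 0) (nat_lit 0) (nat_lit 1) (nat_lit 0) (nat_lit 1) (nat_lit 0) (nat_lit 427) (nat_lit 339) (nat_lit 314))))))))
noncomputable def xc45 : XT := (XT.nd (nat_lit 2632) (nat_lit 0) (nat_lit 0) (XT.nd (nat_lit 1316) (nat_lit 0) (nat_lit 0) (XT.nd (nat_lit 658) (nat_lit 0) (nat_lit 0) (XT.nd (nat_lit 282) (nat_lit 0) (nat_lit 0) (XT.nd (nat_lit 94) (nat_lit 0) (nat_lit 0) (XT.lf (nat_lit 0) (nat_lit 201482577158) (nat_lit 0) (nat_lit 0) (nat_lit 0) (nat_lit 0) (nat_lit 0) (nat_lit 0) (nat_lit 1) (nat_lit 0) (nat_lit 1) (nat_lit 0) (nat_lit 428) (nat_lit 339) (nat_lit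 313)) (XT.nd (nat_lit 94) (nat_lit 0) (nat_lit 0) (XT.lf (nat_lit 0) (nat_lit 217579675557) (nat_lit 0) (nat_lit 0) (nat_lit 0) (nat_lit 0) (nat_lit 0) (nat_lit 0) (nat_lit 1) (nat_lit 0) (nat_lit 1) (nat_lit 0) (nat_lit 429) (nat_lit 339) (nat_lit 312)) (XT.lf (nat_lit 0) (nat_lit 234964870967) (nat_lit 0) (nat_lit 0) (nat_lit 0) (nat_lit 0) (nat_lit 0) (nat_lit 0) (nat_lit 1) (nat_lit 0) (nat_lit 1) (nat_lit 0) (nat_lit 430) (nat_lit 339) (nat_lit 311)))) (XT.nd (nat_lit 188) (nat_lit 0) (nat_lit 0) (XT.nd (nat_lit 94) (nat_lit 0) (nat_lit 0) (XT.lf (nat_lit 0) (nat_lit 253741186768) (nat_lit 0) (nat_lit 0) (nat_lit 0) (nat_lit 0) (nat_lit 0) (nat_lit 0) (nat_lit 1) (nat_lit 0) (nat_lit 1) (nat_lit 0) (nat_lit 431) (nat_lit 339) (nat_lit 310)) (XT.lf (nat_lit 0) (nat_lit 274019890017) (nat_lit 0) (nat_lit 0) (nat_lit 0) (nat_lit 0) (nat_lit 0) (nat_lit 0)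 (nat_lit 1) (nat_lit 0) (nat_lit 1) (nat_lit 0) (nat_lit 432) (nat_lit 339) (nat_lit 309))) (XT.nd (nat_lit 94) (nat_lit 0) (nat_lit 0) (XT.lf (nat_lit 0) (nat_lit 295921150807) (nat_lit 0) (nat_lit 0) (nat_lit 0) (nat_lit 0) (nat_lit 0) (nat_lit 0) (nat_lit 1) (nat_lit 0) (nat_lit 1) (nat_lit 0) (nat_lit 433) (nat_lit 339) (nat_lit 308)) (XT.lf (nat_lit 0) (nat_lit 319574754386) (nat_lit 0) (nat_lit 0) (nat_lit 0) (nat_lit 0) (nat_lit 0) (nat_lit 0) (nat_lit 1) (nat_lit 0) (nat_lit 1) (nat_lit 0) (nat_lit 434) (nat_lit 339) (nat_lit 307))))) (XT.nd (nat_lit 282) (nat_lit 0) (nat_lit 0) (XT.nd (nat_lit 94) (nat_lit 0) (nat_lit 0) (XT.lf (nat_lit 0) (nat_lit 345120870259) (nat_lit 0) (nat_lit 0) (nat_lit 0) (nat_lit 0) (nat_lit 0) (nat_lit 0) (nat_lit 1) (nat_lit 0) (nat_lit 1) (nat_lit 0) (nat_lit 435) (nat_lit 339) (nat_lit 306)) (XT.nd (nat_lit 94) (nat_lit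 0) (nat_lit 0) (XT.lf (nat_lit 0) (nat_lit 372710882814) (nat_lit 0) (nat_lit 0) (nat_lit 0) (nat_lit 0) (nat_lit 0) (nat_lit 0) (nat_lit 1) (nat_lit 0) (nat_lit 1) (nat_lit 0) (nat_lit 436) (nat_lit 339) (nat_lit 305)) (XT.lf (nat_lit 0) (nat_lit 402508288424) (nat_lit 0) (nat_lit 0) (nat_lit 0) (nat_lit 0) (nat_lit 0) (nat_lit 0) (nat_lit 1) (nat_lit 0) (nat_lit 1) (nat_lit 0) (nat_lit 437) (nat_lit 339) (nat_lit 304)))) (XT.nd (nat_lit 188) (nat_lit 0) (nat_lit 0) (XT.nd (nat_lit 94) (nat_lit 0) (nat_lit 0) (XT.lf (nat_lit 0) (nat_lit 434689664305) (nat_lit 0) (nat_lit 0) (nat_lit 0) (nat_lit 0) (nat_lit 0) (nat_lit 0) (nat_lit 1) (nat_lit 0) (nat_lit 1) (nat_lit 0) (nat_lit 438) (nat_lit 339) (nat_lit 303)) (XT.lf (nat_lit 0) (nat_lit 469445714909) (nat_lit 0) (nat_lit 0) (nat_lit 0) (nat_lit 0) (nat_lit 0) (nat_lit 0) (nat_lit 1) (nat_lit 0) (nat_lit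 1) (nat_lit 0) (nat_lit 439) (nat_lit 339) (nat_lit 302))) (XT.nd (nat_lit 94) (nat_lit 0) (nat_lit 0) (XT.lf (nat_lit 0) (nat_lit 506982402016) (nat_lit 0) (nat_lit 0) (nat_lit 0) (nat_lit 0) (nat_lit 0) (nat_lit 0) (nat_lit 1) (nat_lit 0) (nat_lit 1) (nat_lit 0) (nat_lit 440) (nat_lit 339) (nat_lit 301)) (XT.lf (nat_lit 0) (nat_lit 547522165253) (nat_lit 0) (nat_lit 0) (nat_lit 0) (nat_lit 0) (nat_lit 0) (nat_lit 0) (nat_lit 1) (nat_lit 0) (nat_lit 1) (nat_lit 0) (nat_lit 441) (nat_lit 339) (nat_lit 300)))))) (XT.nd (nat_lit 658) (nat_lit 0) (nat_lit 0) (XT.nd (nat_lit 282) (nat_lit 0) (nat_lit 0) (XT.nd (nat_lit 94) (nat_lit 0) (nat_lit 0) (XT.lf (nat_lit 0) (nat_lit 591305240255) (nat_lit 0) (nat_lit 0) (nat_lit 0) (nat_lit 0) (nat_lit 0) (nat_lit 0) (nat_lit 1) (nat_lit 0) (nat_lit 1) (nat_lit 0) (nat_lit 442) (nat_lit 339) (nat_lit 299)) (XT.nd (nat_lit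 94) (nat_lit 0) (nat_lit 0) (XT.lf (nat_lit 0) (nat_lit 638591082280) (nat_lit 0) (nat_lit 0) (nat_lit 0) (nat_lit 0) (nat_lit 0) (nat_lit 0) (nat_lit 1) (nat_lit 0) (nat_lit 1) (nat_lit 0) (nat_lit 443) (nat_lit 339) (nat_lit 298)) (XT.lf (nat_lit 0) (nat_lit 689659903727) (nat_lit 0) (nat_lit 0) (nat_lit 0) (nat_lit 0) (nat_lit 0) (nat_lit 0) (nat_lit 1) (nat_lit 0) (nat_lit 1) (nat_lit 0) (nat_lit 444) (nat_lit 339) (nat_lit 297)))) (XT.nd (nat_lit 188) (nat_lit 0) (nat_lit 0) (XT.nd (nat_lit 94) (nat_lit 0) (nat_lit 0) (XT.lf (nat_lit 0) (nat_lit 744814334648) (nat_lit 0) (nat_lit 0) (nat_lit 0) (nat_lit 0) (nat_lit 0) (nat_lit 0) (nat_lit 1) (nat_lit 0) (nat_lit 1) (nat_lit 0) (nat_lit 445) (nat_lit 339) (nat_lit 296)) (XT.lf (nat_lit 0) (nat_lit 804381216115) (nat_lit 0) (nat_lit 0) (nat_lit 0) (nat_lit 0) (nat_lit 0) (nat_lit 0) (nat_lit 1) (nat_lit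 0) (nat_lit 1) (nat_lit 0) (nat_lit 446) (nat_lit 339) (nat_lit 295))) (XT.nd (nat_lit 94) (nat_lit 0) (nat_lit 0) (XT.lf (nat_lit 0) (nat_lit 868713537055) (nat_lit 0) (nat_lit 0) (nat_lit 0) (nat_lit 0) (nat_lit 0) (nat_lit 0) (nat_lit 1) (nat_lit 0) (nat_lit 1) (nat_lit 0) (nat_lit 447) (nat_lit 339) (nat_lit 294)) (XT.lf (nat_lit 0) (nat_lit 938192526037) (nat_lit 0) (nat_lit 0) (nat_lit 0) (nat_lit 0) (nat_lit 0) (nat_lit 0) (nat_lit 1) (nat_lit 0) (nat_lit 1) (nat_lit 0) (nat_lit 448) (nat_lit 339) (nat_lit 293))))) (XT.nd (nat_lit 282) (nat_lit 0) (nat_lit 0) (XT.nd (nat_lit 94) (nat_lit 0) (nat_lit 0) (XT.lf (nat_lit 0) (nat_lit 1013229910403) (nat_lit 0) (nat_lit 0) (nat_lit 0) (nat_lit 0) (nat_lit 0) (nat_lit 0) (nat_lit 1) (nat_lit 0) (nat_lit 1) (nat_lit 0) (nat_lit 449) (nat_lit 339) (nat_lit 292)) (XT.nd (nat_lit 94) (nat_lit 0) (nat_lit 0) (XT.lf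 (nat_lit 0) (nat_lit 1094270356135) (nat_lit 0) (nat_lit 0) (nat_lit 0) (nat_lit 0) (nat_lit 0) (nat_lit 0) (nat_lit 1) (nat_lit 0) (nat_lit 1) (nat_lit 0) (nat_lit 450) (nat_lit 339) (nat_lit 291)) (XT.lf (nat_lit 0) (nat_lit 1181794102911) (nat_lit 0) (nat_lit 0) (nat_lit 0) (nat_lit 0) (nat_lit 0) (nat_lit 0) (nat_lit 1) (nat_lit 0) (nat_lit 1) (nat_lit 0) (nat_lit 451) (nat_lit 339) (nat_lit 290)))) (XT.nd (nat_lit 188) (nat_lit 0) (nat_lit 0) (XT.nd (nat_lit 94) (nat_lit 0) (nat_lit 0) (XT.lf (nat_lit 0) (nat_lit 1276319809970) (nat_lit 0) (nat_lit 0) (nat_lit 0) (nat_lit 0) (nat_lit 0) (nat_lit 0) (nat_lit 1) (nat_lit 0) (nat_lit 1) (nat_lit 0) (nat_lit 452) (nat_lit 339) (nat_lit 289)) (XT.lf (nat_lit 0) (nat_lit 1378407629652) (nat_lit 0) (nat_lit 0) (nat_lit 0) (nat_lit 0) (nat_lit 0) (nat_lit 0) (nat_lit 1) (nat_lit 0) (nat_lit 1) (nat_lit 0) (nat_lit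 453) (nat_lit 339) (nat_lit 288))) (XT.nd (nat_lit 94) (nat_lit 0) (nat_lit 0) (XT.lf (nat_lit 0) (nat_lit 1488662526813) (nat_lit 0) (nat_lit 0) (nat_lit 0) (nat_lit 0) (nat_lit 0) (nat_lit 0) (nat_lit 1) (nat_lit 0) (nat_lit 1) (nat_lit 0) (nat_lit 454) (nat_lit 339) (nat_lit 287)) (XT.lf (nat_lit 0) (nat_lit 1607737863807) (nat_lit 0) (nat_lit 0) (nat_lit 0) (nat_lit 0) (nat_lit 0) (nat_lit 0) (nat_lit 1) (nat_lit 0) (nat_lit 1) (nat_lit 0) (nat_lit 455) (nat_lit 339) (nat_lit 286))))))) (XT.nd (nat_lit 1316) (nat_lit 0) (nat_lit 0) (XT.nd (nat_lit 658) (nat_lit 0) (nat_lit 0) (XT.nd (nat_lit 282) (nat_lit 0) (nat_lit 0) (XT.nd (nat_lit 94) (nat_lit 0) (nat_lit 0) (XT.lf (nat_lit 0) (nat_lit 1736339272261) (nat_lit 0) (nat_lit 0) (nat_lit 0) (nat_lit 0) (nat_lit 0) (nat_lit 0) (nat_lit 1) (nat_lit 0) (nat_lit 1) (nat_lit 0) (nat_lit 456) (nat_lit 339) (nat_lit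 285)) (XT.nd (nat_lit 94) (nat_lit 0) (nat_lit 0) (XT.lf (nat_lit 0) (nat_lit 1875228834595) (nat_lit 0) (nat_lit 0) (nat_lit 0) (nat_lit 0) (nat_lit 0) (nat_lit 0) (nat_lit 1) (nat_lit 0) (nat_lit 1) (nat_lit 0) (nat_lit 457) (nat_lit 339) (nat_lit 284)) (XT.lf (nat_lit 0) (nat_lit 2025229600067) (nat_lit 0) (nat_lit 0) (nat_lit 0) (nat_lit 0) (nat_lit 0) (nat_lit 0) (nat_lit 1) (nat_lit 0) (nat_lit 1) (nat_lit 0) (nat_lit 458) (nat_lit 339) (nat_lit 283)))) (XT.nd (nat_lit 188) (nat_lit 0) (nat_lit 0) (XT.nd (nat_lit 94) (nat_lit 0) (nat_lit 0) (XT.lf (nat_lit 0) (nat_lit 2187230462103) (nat_lit 0) (nat_lit 0) (nat_lit 0) (nat_lit 0) (nat_lit 0) (nat_lit 0) (nat_lit 1) (nat_lit 0) (nat_lit 1) (nat_lit 0) (nat_lit 459) (nat_lit 339) (nat_lit 282)) (XT.lf (nat_lit 0) (nat_lit 2362191425811) (nat_lit 0) (nat_lit 0) (nat_lit 0) (nat_lit 0) (nat_lit 0) (nat_lit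 0) (nat_lit 1) (nat_lit 0) (nat_lit 1) (nat_lit 0) (nat_lit 460) (nat_lit 339) (nat_lit 281))) (XT.nd (nat_lit 94) (nat_lit 0) (nat_lit 0) (XT.lf (nat_lit 0) (nat_lit 2551149296902) (nat_lit 0) (nat_lit 0) (nat_lit 0) (nat_lit 0) (nat_lit 0) (nat_lit 0) (nat_lit 1) (nat_lit 0) (nat_lit 1) (nat_lit 0) (nat_lit 461) (nat_lit 339) (nat_lit 280)) (XT.lf (nat_lit 0) (nat_lit 2755223825722) (nat_lit 0) (nat_lit 0) (nat_lit 0) (nat_lit 0) (nat_lit 0) (nat_lit 0) (nat_lit 1) (nat_lit 0) (nat_lit 1) (nat_lit 0) (nat_lit 462) (nat_lit 339) (nat_lit 279))))) (XT.nd (nat_lit 282) (nat_lit 0) (nat_lit 0) (XT.nd (nat_lit 94) (nat_lit 0) (nat_lit 0) (XT.lf (nat_lit 0) (nat_lit 2975624342813) (nat_lit 0) (nat_lit 0) (nat_lit 0) (nat_lit 0) (nat_lit 0) (nat_lit 0) (nat_lit 1) (nat_lit 0) (nat_lit 1) (nat_lit 0) (nat_lit 463) (nat_lit 339) (nat_lit 278)) (XT.nd (nat_lit 94)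 (nat_lit 0) (nat_lit 0) (XT.lf (nat_lit 0) (nat_lit 3213656925314) (nat_lit 0) (nat_lit 0) (nat_lit 0) (nat_lit 0) (nat_lit 0) (nat_lit 0) (nat_lit 1) (nat_lit 0) (nat_lit 1) (nat_lit 0) (nat_lit 464) (nat_lit 339) (nat_lit 277)) (XT.lf (nat_lit 0) (nat_lit 3470732136676) (nat_lit 0) (nat_lit 0) (nat_lit 0) (nat_lit 0) (nat_lit 0) (nat_lit 0) (nat_lit 1) (nat_lit 0) (nat_lit 1) (nat_lit 0) (nat_lit 465) (nat_lit 339) (nat_lit 276)))) (XT.nd (nat_lit 188) (nat_lit 0) (nat_lit 0) (XT.nd (nat_lit 94) (nat_lit 0) (nat_lit 0) (XT.lf (nat_lit 0) (nat_lit 3748373385559) (nat_lit 0) (nat_lit 0) (nat_lit 0) (nat_lit 0) (nat_lit 0) (nat_lit 0) (nat_lit 1) (nat_lit 0) (nat_lit 1) (nat_lit 0) (nat_lit 466) (nat_lit 339) (nat_lit 275)) (XT.lf (nat_lit 0) (nat_lit 4048225953438) (nat_lit 0) (nat_lit 0) (nat_lit 0) (nat_lit 0) (nat_lit 0) (nat_lit 0) (nat_lit 1) (nat_lit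 0) (nat_lit 1) (nat_lit 0) (nat_lit 467) (nat_lit 339) (nat_lit 274))) (XT.nd (nat_lit 94) (nat_lit 0) (nat_lit 0) (XT.lf (nat_lit 0) (nat_lit 4372066744419) (nat_lit 0) (nat_lit 0) (nat_lit 0) (nat_lit 0) (nat_lit 0) (nat_lit 0) (nat_lit 1) (nat_lit 0) (nat_lit 1) (nat_lit 0) (nat_lit 468) (nat_lit 339) (nat_lit 273)) (XT.lf (nat_lit 0) (nat_lit 4721814815041) (nat_lit 0) (nat_lit 0) (nat_lit 0) (nat_lit 0) (nat_lit 0) (nat_lit 0) (nat_lit 1) (nat_lit 0) (nat_lit 1) (nat_lit 0) (nat_lit 469) (nat_lit 339) (nat_lit 272)))))) (XT.nd (nat_lit 658) (nat_lit 0) (nat_lit 0) (XT.nd (nat_lit 282) (nat_lit 0) (nat_lit 0) (XT.nd (nat_lit 94) (nat_lit 0) (nat_lit 0) (XT.lf (nat_lit 0) (nat_lit 5099542746463) (nat_lit 0) (nat_lit 0) (nat_lit 0) (nat_lit 0) (nat_lit 0) (nat_lit 0) (nat_lit 1) (nat_lit 0) (nat_lit 1) (nat_lit 0) (nat_lit 470) (nat_lit 339) (nat_lit 271))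 (XT.nd (nat_lit 94) (nat_lit 0) (nat_lit 0) (XT.lf (nat_lit 0) (nat_lit 5507488926428) (nat_lit 0) (nat_lit 0) (nat_lit 0) (nat_lit 0) (nat_lit 0) (nat_lit 0) (nat_lit 1) (nat_lit 0) (nat_lit 1) (nat_lit 0) (nat_lit 471) (nat_lit 339) (nat_lit 270)) (XT.lf (nat_lit 0) (nat_lit 5948070813779) (nat_lit 0) (nat_lit 0) (nat_lit 0) (nat_lit 0) (nat_lit 0) (nat_lit 0) (nat_lit 1) (nat_lit 0) (nat_lit 1) (nat_lit 0) (nat_lit 472) (nat_lit 339) (nat_lit 269)))) (XT.nd (nat_lit 188) (nat_lit 0) (nat_lit 0) (XT.nd (nat_lit 94) (nat_lit 0) (nat_lit 0) (XT.lf (nat_lit 0) (nat_lit 6423899264145) (nat_lit 0) (nat_lit 0) (nat_lit 0) (nat_lit 0) (nat_lit 0) (nat_lit 0) (nat_lit 1) (nat_lit 0) (nat_lit 1) (nat_lit 0) (nat_lit 473) (nat_lit 339) (nat_lit 268)) (XT.lf (nat_lit 0) (nat_lit 6937794001676) (nat_lit 0) (nat_lit 0) (nat_lit 0) (nat_lit 0) (nat_lit 0) (nat_lit 0)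 (nat_lit 1) (nat_lit 0) (nat_lit 1) (nat_lit 0) (nat_lit 474) (nat_lit 339) (nat_lit 267))) (XT.nd (nat_lit 94) (nat_lit 0) (nat_lit 0) (XT.lf (nat_lit 0) (nat_lit 7492800328521) (nat_lit 0) (nat_lit 0) (nat_lit 0) (nat_lit 0) (nat_lit 0) (nat_lit 0) (nat_lit 1) (nat_lit 0) (nat_lit 1) (nat_lit 0) (nat_lit 475) (nat_lit 339) (nat_lit 266)) (XT.lf (nat_lit 0) (nat_lit 8092207171061) (nat_lit 0) (nat_lit 0) (nat_lit 0) (nat_lit 0) (nat_lit 0) (nat_lit 0) (nat_lit 1) (nat_lit 0) (nat_lit 1) (nat_lit 0) (nat_lit 476) (nat_lit 339) (nat_lit 265))))) (XT.nd (nat_lit 376) (nat_lit 0) (nat_lit 0) (XT.nd (nat_lit 188) (nat_lit 0) (nat_lit 0) (XT.nd (nat_lit 94) (nat_lit 0) (nat_lit 0) (XT.lf (nat_lit 0) (nat_lit 8739566569845) (nat_lit 0) (nat_lit 0) (nat_lit 0) (nat_lit 0) (nat_lit 0) (nat_lit 0) (nat_lit 1) (nat_lit 0) (nat_lit 1) (nat_lit 0) (nat_lit 477) (nat_lit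 339) (nat_lit 264)) (XT.lf (nat_lit 0) (nat_lit 9438714728716) (nat_lit 0) (nat_lit 0) (nat_lit 0) (nat_lit 0) (nat_lit 0) (nat_lit 0) (nat_lit 1) (nat_lit 0) (nat_lit 1) (nat_lit 0) (nat_lit 478) (nat_lit 339) (nat_lit 263))) (XT.nd (nat_lit 94) (nat_lit 0) (nat_lit 0) (XT.lf (nat_lit 0) (nat_lit 10193794747877) (nat_lit 0) (nat_lit 0) (nat_lit 0) (nat_lit 0) (nat_lit 0) (nat_lit 0) (nat_lit 1) (nat_lit 0) (nat_lit 1) (nat_lit 0) (nat_lit 479) (nat_lit 339) (nat_lit 262)) (XT.lf (nat_lit 0) (nat_lit 11009281175588) (nat_lit 0) (nat_lit 0) (nat_lit 0) (nat_lit 0) (nat_lit 0) (nat_lit 0) (nat_lit 1) (nat_lit 0) (nat_lit 1) (nat_lit 0) (nat_lit 480) (nat_lit 339) (nat_lit 261)))) (XT.nd (nat_lit 188) (nat_lit 0) (nat_lit 0) (XT.nd (nat_lit 94) (nat_lit 0) (nat_lit 0) (XT.lf (nat_lit 0) (nat_lit 11890006524013) (nat_lit 0) (nat_lit 0) (nat_lit 0) (nat_lit 0)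 (nat_lit 0) (nat_lit 0) (nat_lit 1) (nat_lit 0) (nat_lit 1) (nat_lit 0) (nat_lit 481) (nat_lit 339) (nat_lit 260)) (XT.lf (nat_lit 0) (nat_lit 12841189906329) (nat_lit 0) (nat_lit 0) (nat_lit 0) (nat_lit 0) (nat_lit 0) (nat_lit 0) (nat_lit 1) (nat_lit 0) (nat_lit 1) (nat_lit 0) (nat_lit 482) (nat_lit 339) (nat_lit 259))) (XT.nd (nat_lit 94) (nat_lit 0) (nat_lit 0) (XT.lf (nat_lit 0) (nat_lit 13868467964801) (nat_lit 0) (nat_lit 0) (nat_lit 0) (nat_lit 0) (nat_lit 0) (nat_lit 0) (nat_lit 1) (nat_lit 0) (nat_lit 1) (nat_lit 0) (nat_lit 483) (nat_lit 339) (nat_lit 258)) (XT.lf (nat_lit 0) (nat_lit 14977928273109) (nat_lit 0) (nat_lit 0) (nat_lit 0) (nat_lit 0) (nat_lit 0) (nat_lit 0) (nat_lit 1) (nat_lit 0) (nat_lit 1) (nat_lit 0) (nat_lit 484) (nat_lit 339) (nat_lit 257))))))))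
noncomputable def xc46 : XT := (XT.nd (nat_lit 61194) (nat_lit 0) (nat_lit 0) (XT.nd (nat_lit 59878) (nat_lit 0) (nat_lit 0) (XT.nd (nat_lit 658) (nat_lit 0) (nat_lit 0) (XT.nd (nat_lit 282) (nat_lit 0) (nat_lit 0) (XT.nd (nat_lit 94) (nat_lit 0) (nat_lit 0) (XT.lf (nat_lit 0) (nat_lit 16176145410858) (nat_lit 0) (nat_lit 0) (nat_lit 0) (nat_lit 0) (nat_lit 0) (nat_lit 0) (nat_lit 1) (nat_lit 0) (nat_lit 1) (nat_lit 0) (nat_lit 485) (nat_lit 339) (nat_lit 256)) (XT.nd (nat_lit 94) (nat_lit 0) (nat_lit 0) (XT.lf (nat_lit 0) (nat_lit 17470219924049) (nat_lit 0) (nat_lit 0) (nat_lit 0) (nat_lit 0) (nat_lit 0) (nat_lit 0) (nat_lit 1) (nat_lit 0) (nat_lit 1) (nat_lit 0) (nat_lit 486) (nat_lit 339) (nat_lit 255)) (XT.lf (nat_lit 0) (nat_lit 18867820402390) (nat_lit 0) (nat_lit 0) (nat_lit 0) (nat_lit 0) (nat_lit 0) (nat_lit 0) (nat_lit 1) (nat_lit 0) (nat_lit 1)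 (nat_lit 0) (nat_lit 487) (nat_lit 339) (nat_lit 254)))) (XT.nd (nat_lit 188) (nat_lit 0) (nat_lit 0) (XT.nd (nat_lit 94) (nat_lit 0) (nat_lit 0) (XT.lf (nat_lit 0) (nat_lit 20377228922790) (nat_lit 0) (nat_lit 0) (nat_lit 0) (nat_lit 0) (nat_lit 0) (nat_lit 0) (nat_lit 1) (nat_lit 0) (nat_lit 1) (nat_lit 0) (nat_lit 488) (nat_lit 339) (nat_lit 253)) (XT.lf (nat_lit 0) (nat_lit 22007390128333) (nat_lit 0) (nat_lit 0) (nat_lit 0) (nat_lit 0) (nat_lit 0) (nat_lit 0) (nat_lit 1) (nat_lit 0) (nat_lit 1) (nat_lit 0) (nat_lit 489) (nat_lit 339) (nat_lit 252))) (XT.nd (nat_lit 94) (nat_lit 0) (nat_lit 0) (XT.lf (nat_lit 0) (nat_lit 23767964233569) (nat_lit 0) (nat_lit 0) (nat_lit 0) (nat_lit 0) (nat_lit 0) (nat_lit 0) (nat_lit 1) (nat_lit 0) (nat_lit 1) (nat_lit 0) (nat_lit 490) (nat_lit 339) (nat_lit 251)) (XT.lf (nat_lit 0) (nat_lit 25669384270234) (nat_lit 0)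 (nat_lit 0) (nat_lit 0) (nat_lit 0) (nat_lit 0) (nat_lit 0) (nat_lit 1) (nat_lit 0) (nat_lit 1) (nat_lit 0) (nat_lit 491) (nat_lit 339) (nat_lit 250))))) (XT.nd (nat_lit 282) (nat_lit 0) (nat_lit 0) (XT.nd (nat_lit 94) (nat_lit 0) (nat_lit 0) (XT.lf (nat_lit 0) (nat_lit 27722917912619) (nat_lit 0) (nat_lit 0) (nat_lit 0) (nat_lit 0) (nat_lit 0) (nat_lit 0) (nat_lit 1) (nat_lit 0) (nat_lit 1) (nat_lit 0) (nat_lit 492) (nat_lit 339) (nat_lit 249)) (XT.nd (nat_lit 94) (nat_lit 0) (nat_lit 0) (XT.lf (nat_lit 0) (nat_lit 29940734248975) (nat_lit 0) (nat_lit 0) (nat_lit 0) (nat_lit 0) (nat_lit 0) (nat_lit 0) (nat_lit 1) (nat_lit 0) (nat_lit 1) (nat_lit 0) (nat_lit 493) (nat_lit 339) (nat_lit 248)) (XT.lf (nat_lit 0) (nat_lit 32335975894629) (nat_lit 0) (nat_lit 0) (nat_lit 0) (nat_lit 0) (nat_lit 0) (nat_lit 0) (nat_lit 1) (nat_lit 0) (nat_lit 1) (nat_lit 0) (nat_lit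 494) (nat_lit 339) (nat_lit 247)))) (XT.nd (nat_lit 188) (nat_lit 0) (nat_lit 0) (XT.nd (nat_lit 94) (nat_lit 0) (nat_lit 0) (XT.lf (nat_lit 0) (nat_lit 34922836874147) (nat_lit 0) (nat_lit 0) (nat_lit 0) (nat_lit 0) (nat_lit 0) (nat_lit 0) (nat_lit 1) (nat_lit 0) (nat_lit 1) (nat_lit 0) (nat_lit 495) (nat_lit 339) (nat_lit 246)) (XT.lf (nat_lit 0) (nat_lit 37716646734075) (nat_lit 0) (nat_lit 0) (nat_lit 0) (nat_lit 0) (nat_lit 0) (nat_lit 0) (nat_lit 1) (nat_lit 0) (nat_lit 1) (nat_lit 0) (nat_lit 496) (nat_lit 339) (nat_lit 245))) (XT.nd (nat_lit 58656) (nat_lit 0) (nat_lit 924) (XT.lf (nat_lit 0) (nat_lit 40733961384694) (nat_lit 0) (nat_lit 0) (nat_lit 0) (nat_lit 0) (nat_lit 0) (nat_lit 0) (nat_lit 1) (nat_lit 0) (nat_lit 1) (nat_lit 0) (nat_lit 497) (nat_lit 339) (nat_lit 244)) (XT.lf (nat_lit 0) (nat_lit 7234195966) (nat_lit 84) (nat_lit 1142357393)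 (nat_lit 84) (nat_lit 1142357393) (nat_lit 11) (nat_lit 4) (nat_lit 12) (nat_lit 5) (nat_lit 12) (nat_lit 4) (nat_lit 400) (nat_lit 340) (nat_lit 340)))))) (XT.nd (nat_lit 658) (nat_lit 0) (nat_lit 0) (XT.nd (nat_lit 282) (nat_lit 252) (nat_lit 0) (XT.nd (nat_lit 94) (nat_lit 420) (nat_lit 0) (XT.lf (nat_lit 0) (nat_lit 6155176565) (nat_lit 84) (nat_lit 6946265109) (nat_lit 84) (nat_lit 6672024877) (nat_lit 8) (nat_lit 4) (nat_lit 9) (nat_lit 5) (nat_lit 9) (nat_lit 4) (nat_lit 401) (nat_lit 340) (nat_lit 339)) (XT.nd (nat_lit 94) (nat_lit 252) (nat_lit 0) (XT.lf (nat_lit 0) (nat_lit 8924048669) (nat_lit 168) (nat_lit 3206823204) (nat_lit 0) (nat_lit 8421033076) (nat_lit 6) (nat_lit 5) (nat_lit 8) (nat_lit 4) (nat_lit 6) (nat_lit 4) (nat_lit 402) (nat_lit 340) (nat_lit 338)) (XT.lf (nat_lit 0) (nat_lit 4222985714) (nat_lit 168) (nat_lit 13619820755) (nat_lit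 0) (nat_lit 3530665379) (nat_lit 3) (nat_lit 5) (nat_lit 5) (nat_lit 4) (nat_lit 3) (nat_lit 4) (nat_lit 403) (nat_lit 340) (nat_lit 337)))) (XT.nd (nat_lit 188) (nat_lit 0) (nat_lit 0) (XT.nd (nat_lit 94) (nat_lit 168) (nat_lit 0) (XT.lf (nat_lit 0) (nat_lit 19115632533) (nat_lit 84) (nat_lit 2007963810) (nat_lit 84) (nat_lit 1118182489) (nat_lit 2) (nat_lit 4) (nat_lit 3) (nat_lit 5) (nat_lit 3) (nat_lit 4) (nat_lit 404) (nat_lit 340) (nat_lit 336)) (XT.lf (nat_lit 0) (nat_lit 34661476465) (nat_lit 0) (nat_lit 0) (nat_lit 0) (nat_lit 0) (nat_lit 0) (nat_lit 0) (nat_lit 1) (nat_lit 0) (nat_lit 1) (nat_lit 0) (nat_lit 405) (nat_lit 340) (nat_lit 335))) (XT.nd (nat_lit 94) (nat_lit 0) (nat_lit 0) (XT.lf (nat_lit 0) (nat_lit 37391808446) (nat_lit 0) (nat_lit 0) (nat_lit 0) (nat_lit 0) (nat_lit 0) (nat_lit 0) (nat_lit 1) (nat_lit 0) (nat_lit 1) (nat_lit 0) (nat_lit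 406) (nat_lit 340) (nat_lit 334)) (XT.lf (nat_lit 0) (nat_lit 40342356363) (nat_lit 0) (nat_lit 0) (nat_lit 0) (nat_lit 0) (nat_lit 0) (nat_lit 0) (nat_lit 1) (nat_lit 0) (nat_lit 1) (nat_lit 0) (nat_lit 407) (nat_lit 340) (nat_lit 333))))) (XT.nd (nat_lit 282) (nat_lit 0) (nat_lit 0) (XT.nd (nat_lit 94) (nat_lit 0) (nat_lit 0) (XT.lf (nat_lit 0) (nat_lit 43530604942) (nat_lit 0) (nat_lit 0) (nat_lit 0) (nat_lit 0) (nat_lit 0) (nat_lit 0) (nat_lit 1) (nat_lit 0) (nat_lit 1) (nat_lit 0) (nat_lit 408) (nat_lit 340) (nat_lit 332)) (XT.nd (nat_lit 94) (nat_lit 0) (nat_lit 0) (XT.lf (nat_lit 0) (nat_lit 46975447511) (nat_lit 0) (nat_lit 0) (nat_lit 0) (nat_lit 0) (nat_lit 0) (nat_lit 0) (nat_lit 1) (nat_lit 0) (nat_lit 1) (nat_lit 0) (nat_lit 409) (nat_lit 340) (nat_lit 331)) (XT.lf (nat_lit 0) (nat_lit 50697297949) (nat_lit 0) (nat_lit 0) (nat_lit 0) (nat_lit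 0) (nat_lit 0) (nat_lit 0) (nat_lit 1) (nat_lit 0) (nat_lit 1) (nat_lit 0) (nat_lit 410) (nat_lit 340) (nat_lit 330)))) (XT.nd (nat_lit 188) (nat_lit 0) (nat_lit 0) (XT.nd (nat_lit 94) (nat_lit 0) (nat_lit 0) (XT.lf (nat_lit 0) (nat_lit 54718211668) (nat_lit 0) (nat_lit 0) (nat_lit 0) (nat_lit 0) (nat_lit 0) (nat_lit 0) (nat_lit 1) (nat_lit 0) (nat_lit 1) (nat_lit 0) (nat_lit 411) (nat_lit 340) (nat_lit 329)) (XT.lf (nat_lit 0) (nat_lit 59062016305) (nat_lit 0) (nat_lit 0) (nat_lit 0) (nat_lit 0) (nat_lit 0) (nat_lit 0) (nat_lit 1) (nat_lit 0) (nat_lit 1) (nat_lit 0) (nat_lit 412) (nat_lit 340) (nat_lit 328))) (XT.nd (nat_lit 94) (nat_lit 0) (nat_lit 0) (XT.lf (nat_lit 0) (nat_lit 63754452923) (nat_lit 0) (nat_lit 0) (nat_lit 0) (nat_lit 0) (nat_lit 0) (nat_lit 0) (nat_lit 1) (nat_lit 0) (nat_lit 1) (nat_lit 0) (nat_lit 413) (nat_lit 340) (nat_lit 327)) (XT.lf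 (nat_lit 0) (nat_lit 68823328554) (nat_lit 0) (nat_lit 0) (nat_lit 0) (nat_lit 0) (nat_lit 0) (nat_lit 0) (nat_lit 1) (nat_lit 0) (nat_lit 1) (nat_lit 0) (nat_lit 414) (nat_lit 340) (nat_lit 326))))))) (XT.nd (nat_lit 1316) (nat_lit 0) (nat_lit 0) (XT.nd (nat_lit 658) (nat_lit 0) (nat_lit 0) (XT.nd (nat_lit 282) (nat_lit 0) (nat_lit 0) (XT.nd (nat_lit 94) (nat_lit 0) (nat_lit 0) (XT.lf (nat_lit 0) (nat_lit 74298680981) (nat_lit 0) (nat_lit 0) (nat_lit 0) (nat_lit 0) (nat_lit 0) (nat_lit 0) (nat_lit 1) (nat_lit 0) (nat_lit 1) (nat_lit 0) (nat_lit 415) (nat_lit 340) (nat_lit 325)) (XT.nd (nat_lit 94) (nat_lit 0) (nat_lit 0) (XT.lf (nat_lit 0) (nat_lit 80212956736) (nat_lit 0) (nat_lit 0) (nat_lit 0) (nat_lit 0) (nat_lit 0) (nat_lit 0) (nat_lit 1) (nat_lit 0) (nat_lit 1) (nat_lit 0) (nat_lit 416) (nat_lit 340) (nat_lit 324)) (XT.lf (nat_lit 0) (nat_lit 86601203378)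 (nat_lit 0) (nat_lit 0) (nat_lit 0) (nat_lit 0) (nat_lit 0) (nat_lit 0) (nat_lit 1) (nat_lit 0) (nat_lit 1) (nat_lit 0) (nat_lit 417) (nat_lit 340) (nat_lit 323)))) (XT.nd (nat_lit 188) (nat_lit 0) (nat_lit 0) (XT.nd (nat_lit 94) (nat_lit 0) (nat_lit 0) (XT.lf (nat_lit 0) (nat_lit 93501277186) (nat_lit 0) (nat_lit 0) (nat_lit 0) (nat_lit 0) (nat_lit 0) (nat_lit 0) (nat_lit 1) (nat_lit 0) (nat_lit 1) (nat_lit 0) (nat_lit 418) (nat_lit 340) (nat_lit 322)) (XT.lf (nat_lit 0) (nat_lit 100954067483) (nat_lit 0) (nat_lit 0) (nat_lit 0) (nat_lit 0) (nat_lit 0) (nat_lit 0) (nat_lit 1) (nat_lit 0) (nat_lit 1) (nat_lit 0) (nat_lit 419) (nat_lit 340) (nat_lit 321))) (XT.nd (nat_lit 94) (nat_lit 0) (nat_lit 0) (XT.lf (nat_lit 0) (nat_lit 109003738955) (nat_lit 0) (nat_lit 0) (nat_lit 0) (nat_lit 0) (nat_lit 0) (nat_lit 0) (nat_lit 1) (nat_lit 0) (nat_lit 1) (nat_lit 0)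 (nat_lit 420) (nat_lit 340) (nat_lit 320)) (XT.lf (nat_lit 0) (nat_lit 117697993358) (nat_lit 0) (nat_lit 0) (nat_lit 0) (nat_lit 0) (nat_lit 0) (nat_lit 0) (nat_lit 1) (nat_lit 0) (nat_lit 1) (nat_lit 0) (nat_lit 421) (nat_lit 340) (nat_lit 319))))) (XT.nd (nat_lit 282) (nat_lit 0) (nat_lit 0) (XT.nd (nat_lit 94) (nat_lit 0) (nat_lit 0) (XT.lf (nat_lit 0) (nat_lit 127088352199) (nat_lit 0) (nat_lit 0) (nat_lit 0) (nat_lit 0) (nat_lit 0) (nat_lit 0) (nat_lit 1) (nat_lit 0) (nat_lit 1) (nat_lit 0) (nat_lit 422) (nat_lit 340) (nat_lit 318)) (XT.nd (nat_lit 94) (nat_lit 0) (nat_lit 0) (XT.lf (nat_lit 0) (nat_lit 137230462049) (nat_lit 0) (nat_lit 0) (nat_lit 0) (nat_lit 0) (nat_lit 0) (nat_lit 0) (nat_lit 1) (nat_lit 0) (nat_lit 1) (nat_lit 0) (nat_lit 423) (nat_lit 340) (nat_lit 317)) (XT.lf (nat_lit 0) (nat_lit 148184424300) (nat_lit 0) (nat_lit 0) (nat_lit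 0) (nat_lit 0) (nat_lit 0) (nat_lit 0) (nat_lit 1) (nat_lit 0) (nat_lit 1) (nat_lit 0) (nat_lit 424) (nat_lit 340) (nat_lit 316)))) (XT.nd (nat_lit 188) (nat_lit 0) (nat_lit 0) (XT.nd (nat_lit 94) (nat_lit 0) (nat_lit 0) (XT.lf (nat_lit 0) (nat_lit 160015151321) (nat_lit 0) (nat_lit 0) (nat_lit 0) (nat_lit 0) (nat_lit 0) (nat_lit 0) (nat_lit 1) (nat_lit 0) (nat_lit 1) (nat_lit 0) (nat_lit 425) (nat_lit 340) (nat_lit 315)) (XT.lf (nat_lit 0) (nat_lit 172792751124) (nat_lit 0) (nat_lit 0) (nat_lit 0) (nat_lit 0) (nat_lit 0) (nat_lit 0) (nat_lit 1) (nat_lit 0) (nat_lit 1) (nat_lit 0) (nat_lit 426) (nat_lit 340) (nat_lit 314))) (XT.nd (nat_lit 94) (nat_lit 0) (nat_lit 0) (XT.lf (nat_lit 0) (nat_lit 186592942819) (nat_lit 0) (nat_lit 0) (nat_lit 0) (nat_lit 0) (nat_lit 0) (nat_lit 0) (nat_lit 1) (nat_lit 0) (nat_lit 1) (nat_lit 0) (nat_lit 427) (nat_lit 340) (nat_lit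 313)) (XT.lf (nat_lit 0) (nat_lit 201497505319) (nat_lit 0) (nat_lit 0) (nat_lit 0) (nat_lit 0) (nat_lit 0) (nat_lit 0) (nat_lit 1) (nat_lit 0) (nat_lit 1) (nat_lit 0) (nat_lit 428) (nat_lit 340) (nat_lit 312)))))) (XT.nd (nat_lit 658) (nat_lit 0) (nat_lit 0) (XT.nd (nat_lit 282) (nat_lit 0) (nat_lit 0) (XT.nd (nat_lit 94) (nat_lit 0) (nat_lit 0) (XT.lf (nat_lit 0) (nat_lit 217594761958) (nat_lit 0) (nat_lit 0) (nat_lit 0) (nat_lit 0) (nat_lit 0) (nat_lit 0) (nat_lit 1) (nat_lit 0) (nat_lit 1) (nat_lit 0) (nat_lit 429) (nat_lit 340) (nat_lit 311)) (XT.nd (nat_lit 94) (nat_lit 0) (nat_lit 0) (XT.lf (nat_lit 0) (nat_lit 234980103886) (nat_lit 0) (nat_lit 0) (nat_lit 0) (nat_lit 0) (nat_lit 0) (nat_lit 0) (nat_lit 1) (nat_lit 0) (nat_lit 1) (nat_lit 0) (nat_lit 430) (nat_lit 340) (nat_lit 310)) (XT.lf (nat_lit 0) (nat_lit 253756555353) (nat_lit 0) (nat_lit 0)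 (nat_lit 0) (nat_lit 0) (nat_lit 0) (nat_lit 0) (nat_lit 1) (nat_lit 0) (nat_lit 1) (nat_lit 0) (nat_lit 431) (nat_lit 340) (nat_lit 309)))) (XT.nd (nat_lit 188) (nat_lit 0) (nat_lit 0) (XT.nd (nat_lit 94) (nat_lit 0) (nat_lit 0) (XT.lf (nat_lit 0) (nat_lit 274035384217) (nat_lit 0) (nat_lit 0) (nat_lit 0) (nat_lit 0) (nat_lit 0) (nat_lit 0) (nat_lit 1) (nat_lit 0) (nat_lit 1) (nat_lit 0) (nat_lit 432) (nat_lit 340) (nat_lit 308)) (XT.lf (nat_lit 0) (nat_lit 295936761318) (nat_lit 0) (nat_lit 0) (nat_lit 0) (nat_lit 0) (nat_lit 0) (nat_lit 0) (nat_lit 1) (nat_lit 0) (nat_lit 1) (nat_lit 0) (nat_lit 433) (nat_lit 340) (nat_lit 307))) (XT.nd (nat_lit 94) (nat_lit 0) (nat_lit 0) (XT.lf (nat_lit 0) (nat_lit 319590472593) (nat_lit 0) (nat_lit 0) (nat_lit 0) (nat_lit 0) (nat_lit 0) (nat_lit 0) (nat_lit 1) (nat_lit 0) (nat_lit 1) (nat_lit 0) (nat_lit 434) (nat_lit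 340) (nat_lit 306)) (XT.lf (nat_lit 0) (nat_lit 345136688183) (nat_lit 0) (nat_lit 0) (nat_lit 0) (nat_lit 0) (nat_lit 0) (nat_lit 0) (nat_lit 1) (nat_lit 0) (nat_lit 1) (nat_lit 0) (nat_lit 435) (nat_lit 340) (nat_lit 305))))) (XT.nd (nat_lit 376) (nat_lit 0) (nat_lit 0) (XT.nd (nat_lit 188) (nat_lit 0) (nat_lit 0) (XT.nd (nat_lit 94) (nat_lit 0) (nat_lit 0) (XT.lf (nat_lit 0) (nat_lit 372726793070) (nat_lit 0) (nat_lit 0) (nat_lit 0) (nat_lit 0) (nat_lit 0) (nat_lit 0) (nat_lit 1) (nat_lit 0) (nat_lit 1) (nat_lit 0) (nat_lit 436) (nat_lit 340) (nat_lit 304)) (XT.lf (nat_lit 0) (nat_lit 402524284172) (nat_lit 0) (nat_lit 0) (nat_lit 0) (nat_lit 0) (nat_lit 0) (nat_lit 0) (nat_lit 1) (nat_lit 0) (nat_lit 1) (nat_lit 0) (nat_lit 437) (nat_lit 340) (nat_lit 303))) (XT.nd (nat_lit 94) (nat_lit 0) (nat_lit 0) (XT.lf (nat_lit 0) (nat_lit 434705739213) (nat_lit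 0) (nat_lit 0) (nat_lit 0) (nat_lit 0) (nat_lit 0) (nat_lit 0) (nat_lit 1) (nat_lit 0) (nat_lit 1) (nat_lit 0) (nat_lit 438) (nat_lit 340) (nat_lit 302)) (XT.lf (nat_lit 0) (nat_lit 469461863112) (nat_lit 0) (nat_lit 0) (nat_lit 0) (nat_lit 0) (nat_lit 0) (nat_lit 0) (nat_lit 1) (nat_lit 0) (nat_lit 1) (nat_lit 0) (nat_lit 439) (nat_lit 340) (nat_lit 301)))) (XT.nd (nat_lit 188) (nat_lit 0) (nat_lit 0) (XT.nd (nat_lit 94) (nat_lit 0) (nat_lit 0) (XT.lf (nat_lit 0) (nat_lit 506998618085) (nat_lit 0) (nat_lit 0) (nat_lit 0) (nat_lit 0) (nat_lit 0) (nat_lit 0) (nat_lit 1) (nat_lit 0) (nat_lit 1) (nat_lit 0) (nat_lit 440) (nat_lit 340) (nat_lit 300)) (XT.lf (nat_lit 0) (nat_lit 547538444161) (nat_lit 0) (nat_lit 0) (nat_lit 0) (nat_lit 0) (nat_lit 0) (nat_lit 0) (nat_lit 1) (nat_lit 0) (nat_lit 1) (nat_lit 0) (nat_lit 441) (nat_lit 340) (nat_lit 299))) (XT.nd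 (nat_lit 94) (nat_lit 0) (nat_lit 0) (XT.lf (nat_lit 0) (nat_lit 591321577348) (nat_lit 0) (nat_lit 0) (nat_lit 0) (nat_lit 0) (nat_lit 0) (nat_lit 0) (nat_lit 1) (nat_lit 0) (nat_lit 1) (nat_lit 0) (nat_lit 442) (nat_lit 340) (nat_lit 298)) (XT.lf (nat_lit 0) (nat_lit 638607473248) (nat_lit 0) (nat_lit 0) (nat_lit 0) (nat_lit 0) (nat_lit 0) (nat_lit 0) (nat_lit 1) (nat_lit 0) (nat_lit 1) (nat_lit 0) (nat_lit 443) (nat_lit 340) (nat_lit 297))))))))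
noncomputable def xc47 : XT := (XT.nd (nat_lit 2632) (nat_lit 0) (nat_lit 0) (XT.nd (nat_lit 1316) (nat_lit 0) (nat_lit 0) (XT.nd (nat_lit 658) (nat_lit 0) (nat_lit 0) (XT.nd (nat_lit 282) (nat_lit 0) (nat_lit 0) (XT.nd (nat_lit 94) (nat_lit 0) (nat_lit 0) (XT.lf (nat_lit 0) (nat_lit 689676344579) (nat_lit 0) (nat_lit 0) (nat_lit 0) (nat_lit 0) (nat_lit 0) (nat_lit 0) (nat_lit 1) (nat_lit 0) (nat_lit 1) (nat_lit 0) (nat_lit 444) (nat_lit 340) (nat_lit 296)) (XT.nd (nat_lit 94) (nat_lit 0) (nat_lit 0) (XT.lf (nat_lit 0) (nat_lit 744830821688) (nat_lit 0) (nat_lit 0) (nat_lit 0) (nat_lit 0) (nat_lit 0) (nat_lit 0) (nat_lit 1) (nat_lit 0) (nat_lit 1) (nat_lit 0) (nat_lit 445) (nat_lit 340) (nat_lit 295)) (XT.lf (nat_lit 0) (nat_lit 804397745922) (nat_lit 0) (nat_lit 0) (nat_lit 0) (nat_lit 0) (nat_lit 0) (nat_lit 0) (nat_lit 1) (nat_lit 0) (nat_lit 1) (nat_lit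 0) (nat_lit 446) (nat_lit 340) (nat_lit 294)))) (XT.nd (nat_lit 188) (nat_lit 0) (nat_lit 0) (XT.nd (nat_lit 94) (nat_lit 0) (nat_lit 0) (XT.lf (nat_lit 0) (nat_lit 868730106462) (nat_lit 0) (nat_lit 0) (nat_lit 0) (nat_lit 0) (nat_lit 0) (nat_lit 0) (nat_lit 1) (nat_lit 0) (nat_lit 1) (nat_lit 0) (nat_lit 447) (nat_lit 340) (nat_lit 293)) (XT.lf (nat_lit 0) (nat_lit 938209132110) (nat_lit 0) (nat_lit 0) (nat_lit 0) (nat_lit 0) (nat_lit 0) (nat_lit 0) (nat_lit 1) (nat_lit 0) (nat_lit 1) (nat_lit 0) (nat_lit 448) (nat_lit 340) (nat_lit 292))) (XT.nd (nat_lit 94) (nat_lit 0) (nat_lit 0) (XT.lf (nat_lit 0) (nat_lit 1013246550426) (nat_lit 0) (nat_lit 0) (nat_lit 0) (nat_lit 0) (nat_lit 0) (nat_lit 0) (nat_lit 1) (nat_lit 0) (nat_lit 1) (nat_lit 0) (nat_lit 449) (nat_lit 340) (nat_lit 291)) (XT.lf (nat_lit 0) (nat_lit 1094287027593) (nat_lit 0) (nat_lit 0) (nat_lit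 0) (nat_lit 0) (nat_lit 0) (nat_lit 0) (nat_lit 1) (nat_lit 0) (nat_lit 1) (nat_lit 0) (nat_lit 450) (nat_lit 340) (nat_lit 290))))) (XT.nd (nat_lit 282) (nat_lit 0) (nat_lit 0) (XT.nd (nat_lit 94) (nat_lit 0) (nat_lit 0) (XT.lf (nat_lit 0) (nat_lit 1181810803475) (nat_lit 0) (nat_lit 0) (nat_lit 0) (nat_lit 0) (nat_lit 0) (nat_lit 0) (nat_lit 1) (nat_lit 0) (nat_lit 1) (nat_lit 0) (nat_lit 451) (nat_lit 340) (nat_lit 289)) (XT.nd (nat_lit 94) (nat_lit 0) (nat_lit 0) (XT.lf (nat_lit 0) (nat_lit 1276336537486) (nat_lit 0) (nat_lit 0) (nat_lit 0) (nat_lit 0) (nat_lit 0) (nat_lit 0) (nat_lit 1) (nat_lit 0) (nat_lit 1) (nat_lit 0) (nat_lit 452) (nat_lit 340) (nat_lit 288)) (XT.lf (nat_lit 0) (nat_lit 1378424382121) (nat_lit 0) (nat_lit 0) (nat_lit 0) (nat_lit 0) (nat_lit 0) (nat_lit 0) (nat_lit 1) (nat_lit 0) (nat_lit 1) (nat_lit 0) (nat_lit 453) (nat_lit 340)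 (nat_lit 287)))) (XT.nd (nat_lit 188) (nat_lit 0) (nat_lit 0) (XT.nd (nat_lit 94) (nat_lit 0) (nat_lit 0) (XT.lf (nat_lit 0) (nat_lit 1488679302388) (nat_lit 0) (nat_lit 0) (nat_lit 0) (nat_lit 0) (nat_lit 0) (nat_lit 0) (nat_lit 1) (nat_lit 0) (nat_lit 1) (nat_lit 0) (nat_lit 454) (nat_lit 340) (nat_lit 286)) (XT.lf (nat_lit 0) (nat_lit 1607754660777) (nat_lit 0) (nat_lit 0) (nat_lit 0) (nat_lit 0) (nat_lit 0) (nat_lit 0) (nat_lit 1) (nat_lit 0) (nat_lit 1) (nat_lit 0) (nat_lit 455) (nat_lit 340) (nat_lit 285))) (XT.nd (nat_lit 94) (nat_lit 0) (nat_lit 0) (XT.lf (nat_lit 0) (nat_lit 1736356089040) (nat_lit 0) (nat_lit 0) (nat_lit 0) (nat_lit 0) (nat_lit 0) (nat_lit 0) (nat_lit 1) (nat_lit 0) (nat_lit 1) (nat_lit 0) (nat_lit 456) (nat_lit 340) (nat_lit 284)) (XT.lf (nat_lit 0) (nat_lit 1875245669717) (nat_lit 0) (nat_lit 0) (nat_lit 0) (nat_lit 0) (nat_lit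 0) (nat_lit 0) (nat_lit 1) (nat_lit 0) (nat_lit 1) (nat_lit 0) (nat_lit 457) (nat_lit 340) (nat_lit 283)))))) (XT.nd (nat_lit 658) (nat_lit 0) (nat_lit 0) (XT.nd (nat_lit 282) (nat_lit 0) (nat_lit 0) (XT.nd (nat_lit 94) (nat_lit 0) (nat_lit 0) (XT.lf (nat_lit 0) (nat_lit 2025246452173) (nat_lit 0) (nat_lit 0) (nat_lit 0) (nat_lit 0) (nat_lit 0) (nat_lit 0) (nat_lit 1) (nat_lit 0) (nat_lit 1) (nat_lit 0) (nat_lit 458) (nat_lit 340) (nat_lit 282)) (XT.nd (nat_lit 94) (nat_lit 0) (nat_lit 0) (XT.lf (nat_lit 0) (nat_lit 2187247329934) (nat_lit 0) (nat_lit 0) (nat_lit 0) (nat_lit 0) (nat_lit 0) (nat_lit 0) (nat_lit 1) (nat_lit 0) (nat_lit 1) (nat_lit 0) (nat_lit 459) (nat_lit 340) (nat_lit 281)) (XT.lf (nat_lit 0) (nat_lit 2362208308202) (nat_lit 0) (nat_lit 0) (nat_lit 0) (nat_lit 0) (nat_lit 0) (nat_lit 0) (nat_lit 1) (nat_lit 0) (nat_lit 1) (nat_lit 0) (nat_lit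 460) (nat_lit 340) (nat_lit 280)))) (XT.nd (nat_lit 188) (nat_lit 0) (nat_lit 0) (XT.nd (nat_lit 94) (nat_lit 0) (nat_lit 0) (XT.lf (nat_lit 0) (nat_lit 2551166192775) (nat_lit 0) (nat_lit 0) (nat_lit 0) (nat_lit 0) (nat_lit 0) (nat_lit 0) (nat_lit 1) (nat_lit 0) (nat_lit 1) (nat_lit 0) (nat_lit 461) (nat_lit 340) (nat_lit 279)) (XT.lf (nat_lit 0) (nat_lit 2755240734078) (nat_lit 0) (nat_lit 0) (nat_lit 0) (nat_lit 0) (nat_lit 0) (nat_lit 0) (nat_lit 1) (nat_lit 0) (nat_lit 1) (nat_lit 0) (nat_lit 462) (nat_lit 340) (nat_lit 278))) (XT.nd (nat_lit 94) (nat_lit 0) (nat_lit 0) (XT.lf (nat_lit 0) (nat_lit 2975641262728) (nat_lit 0) (nat_lit 0) (nat_lit 0) (nat_lit 0) (nat_lit 0) (nat_lit 0) (nat_lit 1) (nat_lit 0) (nat_lit 1) (nat_lit 0) (nat_lit 463) (nat_lit 340) (nat_lit 277)) (XT.lf (nat_lit 0) (nat_lit 3213673855932) (nat_lit 0) (nat_lit 0) (nat_lit 0) (nat_lit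 0) (nat_lit 0) (nat_lit 0) (nat_lit 1) (nat_lit 0) (nat_lit 1) (nat_lit 0) (nat_lit 464) (nat_lit 340) (nat_lit 276))))) (XT.nd (nat_lit 282) (nat_lit 0) (nat_lit 0) (XT.nd (nat_lit 94) (nat_lit 0) (nat_lit 0) (XT.lf (nat_lit 0) (nat_lit 3470749077203) (nat_lit 0) (nat_lit 0) (nat_lit 0) (nat_lit 0) (nat_lit 0) (nat_lit 0) (nat_lit 1) (nat_lit 0) (nat_lit 1) (nat_lit 0) (nat_lit 465) (nat_lit 340) (nat_lit 275)) (XT.nd (nat_lit 94) (nat_lit 0) (nat_lit 0) (XT.lf (nat_lit 0) (nat_lit 3748390335262) (nat_lit 0) (nat_lit 0) (nat_lit 0) (nat_lit 0) (nat_lit 0) (nat_lit 0) (nat_lit 1) (nat_lit 0) (nat_lit 1) (nat_lit 0) (nat_lit 466) (nat_lit 340) (nat_lit 274)) (XT.lf (nat_lit 0) (nat_lit 4048242911637) (nat_lit 0) (nat_lit 0) (nat_lit 0) (nat_lit 0) (nat_lit 0) (nat_lit 0) (nat_lit 1) (nat_lit 0) (nat_lit 1) (nat_lit 0) (nat_lit 467) (nat_lit 340) (nat_lit 273))))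 (XT.nd (nat_lit 188) (nat_lit 0) (nat_lit 0) (XT.nd (nat_lit 94) (nat_lit 0) (nat_lit 0) (XT.lf (nat_lit 0) (nat_lit 4372083710485) (nat_lit 0) (nat_lit 0) (nat_lit 0) (nat_lit 0) (nat_lit 0) (nat_lit 0) (nat_lit 1) (nat_lit 0) (nat_lit 1) (nat_lit 0) (nat_lit 468) (nat_lit 340) (nat_lit 272)) (XT.lf (nat_lit 0) (nat_lit 4721831788391) (nat_lit 0) (nat_lit 0) (nat_lit 0) (nat_lit 0) (nat_lit 0) (nat_lit 0) (nat_lit 1) (nat_lit 0) (nat_lit 1) (nat_lit 0) (nat_lit 469) (nat_lit 340) (nat_lit 271))) (XT.nd (nat_lit 94) (nat_lit 0) (nat_lit 0) (XT.lf (nat_lit 0) (nat_lit 5099559726557) (nat_lit 0) (nat_lit 0) (nat_lit 0) (nat_lit 0) (nat_lit 0) (nat_lit 0) (nat_lit 1) (nat_lit 0) (nat_lit 1) (nat_lit 0) (nat_lit 470) (nat_lit 340) (nat_lit 270)) (XT.lf (nat_lit 0) (nat_lit 5507505912767) (nat_lit 0) (nat_lit 0) (nat_lit 0) (nat_lit 0) (nat_lit 0) (nat_lit 0) (nat_lit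 1) (nat_lit 0) (nat_lit 1) (nat_lit 0) (nat_lit 471) (nat_lit 340) (nat_lit 269))))))) (XT.nd (nat_lit 1316) (nat_lit 0) (nat_lit 0) (XT.nd (nat_lit 658) (nat_lit 0) (nat_lit 0) (XT.nd (nat_lit 282) (nat_lit 0) (nat_lit 0) (XT.nd (nat_lit 94) (nat_lit 0) (nat_lit 0) (XT.lf (nat_lit 0) (nat_lit 5948087805900) (nat_lit 0) (nat_lit 0) (nat_lit 0) (nat_lit 0) (nat_lit 0) (nat_lit 0) (nat_lit 1) (nat_lit 0) (nat_lit 1) (nat_lit 0) (nat_lit 472) (nat_lit 340) (nat_lit 268)) (XT.nd (nat_lit 94) (nat_lit 0) (nat_lit 0) (XT.lf (nat_lit 0) (nat_lit 6423916261620) (nat_lit 0) (nat_lit 0) (nat_lit 0) (nat_lit 0) (nat_lit 0) (nat_lit 0) (nat_lit 1) (nat_lit 0) (nat_lit 1) (nat_lit 0) (nat_lit 473) (nat_lit 340) (nat_lit 267)) (XT.lf (nat_lit 0) (nat_lit 6937811004108) (nat_lit 0) (nat_lit 0) (nat_lit 0) (nat_lit 0) (nat_lit 0) (nat_lit 0) (nat_lit 1) (nat_lit 0) (nat_lit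 1) (nat_lit 0) (nat_lit 474) (nat_lit 340) (nat_lit 266)))) (XT.nd (nat_lit 188) (nat_lit 0) (nat_lit 0) (XT.nd (nat_lit 94) (nat_lit 0) (nat_lit 0) (XT.lf (nat_lit 0) (nat_lit 7492817335544) (nat_lit 0) (nat_lit 0) (nat_lit 0) (nat_lit 0) (nat_lit 0) (nat_lit 0) (nat_lit 1) (nat_lit 0) (nat_lit 1) (nat_lit 0) (nat_lit 475) (nat_lit 340) (nat_lit 265)) (XT.lf (nat_lit 0) (nat_lit 8092224182334) (nat_lit 0) (nat_lit 0) (nat_lit 0) (nat_lit 0) (nat_lit 0) (nat_lit 0) (nat_lit 1) (nat_lit 0) (nat_lit 1) (nat_lit 0) (nat_lit 476) (nat_lit 340) (nat_lit 264))) (XT.nd (nat_lit 94) (nat_lit 0) (nat_lit 0) (XT.lf (nat_lit 0) (nat_lit 8739583585053) (nat_lit 0) (nat_lit 0) (nat_lit 0) (nat_lit 0) (nat_lit 0) (nat_lit 0) (nat_lit 1) (nat_lit 0) (nat_lit 1) (nat_lit 0) (nat_lit 477) (nat_lit 340) (nat_lit 263)) (XT.lf (nat_lit 0) (nat_lit 9438731747568) (nat_lit 0) (nat_lit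 0) (nat_lit 0) (nat_lit 0) (nat_lit 0) (nat_lit 0) (nat_lit 1) (nat_lit 0) (nat_lit 1) (nat_lit 0) (nat_lit 478) (nat_lit 340) (nat_lit 262))))) (XT.nd (nat_lit 282) (nat_lit 0) (nat_lit 0) (XT.nd (nat_lit 94) (nat_lit 0) (nat_lit 0) (XT.lf (nat_lit 0) (nat_lit 10193811770102) (nat_lit 0) (nat_lit 0) (nat_lit 0) (nat_lit 0) (nat_lit 0) (nat_lit 0) (nat_lit 1) (nat_lit 0) (nat_lit 1) (nat_lit 0) (nat_lit 479) (nat_lit 340) (nat_lit 261)) (XT.nd (nat_lit 94) (nat_lit 0) (nat_lit 0) (XT.lf (nat_lit 0) (nat_lit 11009298200937) (nat_lit 0) (nat_lit 0) (nat_lit 0) (nat_lit 0) (nat_lit 0) (nat_lit 0) (nat_lit 1) (nat_lit 0) (nat_lit 1) (nat_lit 0) (nat_lit 480) (nat_lit 340) (nat_lit 260)) (XT.lf (nat_lit 0) (nat_lit 11890023552255) (nat_lit 0) (nat_lit 0) (nat_lit 0) (nat_lit 0) (nat_lit 0) (nat_lit 0) (nat_lit 1) (nat_lit 0) (nat_lit 1) (nat_lit 0) (nat_lit 481)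 (nat_lit 340) (nat_lit 259)))) (XT.nd (nat_lit 188) (nat_lit 0) (nat_lit 0) (XT.nd (nat_lit 94) (nat_lit 0) (nat_lit 0) (XT.lf (nat_lit 0) (nat_lit 12841206937249) (nat_lit 0) (nat_lit 0) (nat_lit 0) (nat_lit 0) (nat_lit 0) (nat_lit 0) (nat_lit 1) (nat_lit 0) (nat_lit 1) (nat_lit 0) (nat_lit 482) (nat_lit 340) (nat_lit 258)) (XT.lf (nat_lit 0) (nat_lit 13868484998201) (nat_lit 0) (nat_lit 0) (nat_lit 0) (nat_lit 0) (nat_lit 0) (nat_lit 0) (nat_lit 1) (nat_lit 0) (nat_lit 1) (nat_lit 0) (nat_lit 483) (nat_lit 340) (nat_lit 257))) (XT.nd (nat_lit 94) (nat_lit 0) (nat_lit 0) (XT.lf (nat_lit 0) (nat_lit 14977945308806) (nat_lit 0) (nat_lit 0) (nat_lit 0) (nat_lit 0) (nat_lit 0) (nat_lit 0) (nat_lit 1) (nat_lit 0) (nat_lit 1) (nat_lit 0) (nat_lit 484) (nat_lit 340) (nat_lit 256)) (XT.lf (nat_lit 0) (nat_lit 16176162448681) (nat_lit 0) (nat_lit 0) (nat_lit 0) (nat_lit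 0) (nat_lit 0) (nat_lit 0) (nat_lit 1) (nat_lit 0) (nat_lit 1) (nat_lit 0) (nat_lit 485) (nat_lit 340) (nat_lit 255)))))) (XT.nd (nat_lit 658) (nat_lit 0) (nat_lit 0) (XT.nd (nat_lit 282) (nat_lit 0) (nat_lit 0) (XT.nd (nat_lit 94) (nat_lit 0) (nat_lit 0) (XT.lf (nat_lit 0) (nat_lit 17470236963840) (nat_lit 0) (nat_lit 0) (nat_lit 0) (nat_lit 0) (nat_lit 0) (nat_lit 0) (nat_lit 1) (nat_lit 0) (nat_lit 1) (nat_lit 0) (nat_lit 486) (nat_lit 340) (nat_lit 254)) (XT.nd (nat_lit 94) (nat_lit 0) (nat_lit 0) (XT.lf (nat_lit 0) (nat_lit 18867837444004) (nat_lit 0) (nat_lit 0) (nat_lit 0) (nat_lit 0) (nat_lit 0) (nat_lit 0) (nat_lit 1) (nat_lit 0) (nat_lit 1) (nat_lit 0) (nat_lit 487) (nat_lit 340) (nat_lit 253)) (XT.lf (nat_lit 0) (nat_lit 20377245966092) (nat_lit 0) (nat_lit 0) (nat_lit 0) (nat_lit 0) (nat_lit 0) (nat_lit 0) (nat_lit 1) (nat_lit 0) (nat_lit 1) (nat_lit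 0) (nat_lit 488) (nat_lit 340) (nat_lit 252)))) (XT.nd (nat_lit 188) (nat_lit 0) (nat_lit 0) (XT.nd (nat_lit 94) (nat_lit 0) (nat_lit 0) (XT.lf (nat_lit 0) (nat_lit 22007407173197) (nat_lit 0) (nat_lit 0) (nat_lit 0) (nat_lit 0) (nat_lit 0) (nat_lit 0) (nat_lit 1) (nat_lit 0) (nat_lit 1) (nat_lit 0) (nat_lit 489) (nat_lit 340) (nat_lit 251)) (XT.lf (nat_lit 0) (nat_lit 23767981279880) (nat_lit 0) (nat_lit 0) (nat_lit 0) (nat_lit 0) (nat_lit 0) (nat_lit 0) (nat_lit 1) (nat_lit 0) (nat_lit 1) (nat_lit 0) (nat_lit 490) (nat_lit 340) (nat_lit 250))) (XT.nd (nat_lit 94) (nat_lit 0) (nat_lit 0) (XT.lf (nat_lit 0) (nat_lit 25669401317885) (nat_lit 0) (nat_lit 0) (nat_lit 0) (nat_lit 0) (nat_lit 0) (nat_lit 0) (nat_lit 1) (nat_lit 0) (nat_lit 1) (nat_lit 0) (nat_lit 491) (nat_lit 340) (nat_lit 249)) (XT.lf (nat_lit 0) (nat_lit 27722934961511) (nat_lit 0) (nat_lit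 0) (nat_lit 0) (nat_lit 0) (nat_lit 0) (nat_lit 0) (nat_lit 1) (nat_lit 0) (nat_lit 1) (nat_lit 0) (nat_lit 492) (nat_lit 340) (nat_lit 248))))) (XT.nd (nat_lit 376) (nat_lit 0) (nat_lit 0) (XT.nd (nat_lit 188) (nat_lit 0) (nat_lit 0) (XT.nd (nat_lit 94) (nat_lit 0) (nat_lit 0) (XT.lf (nat_lit 0) (nat_lit 29940751299015) (nat_lit 0) (nat_lit 0) (nat_lit 0) (nat_lit 0) (nat_lit 0) (nat_lit 0) (nat_lit 1) (nat_lit 0) (nat_lit 1) (nat_lit 0) (nat_lit 493) (nat_lit 340) (nat_lit 247)) (XT.lf (nat_lit 0) (nat_lit 32335992945733) (nat_lit 0) (nat_lit 0) (nat_lit 0) (nat_lit 0) (nat_lit 0) (nat_lit 0) (nat_lit 1) (nat_lit 0) (nat_lit 1) (nat_lit 0) (nat_lit 494) (nat_lit 340) (nat_lit 246))) (XT.nd (nat_lit 94) (nat_lit 0) (nat_lit 0) (XT.lf (nat_lit 0) (nat_lit 34922853926236) (nat_lit 0) (nat_lit 0) (nat_lit 0) (nat_lit 0) (nat_lit 0) (nat_lit 0) (nat_lit 1) (nat_lit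 0) (nat_lit 1) (nat_lit 0) (nat_lit 495) (nat_lit 340) (nat_lit 245)) (XT.lf (nat_lit 0) (nat_lit 37716663787076) (nat_lit 0) (nat_lit 0) (nat_lit 0) (nat_lit 0) (nat_lit 0) (nat_lit 0) (nat_lit 1) (nat_lit 0) (nat_lit 1) (nat_lit 0) (nat_lit 496) (nat_lit 340) (nat_lit 244)))) (XT.nd (nat_lit 58562) (nat_lit 0) (nat_lit 924) (XT.nd (nat_lit 58468) (nat_lit 0) (nat_lit 1260) (XT.lf (nat_lit 0) (nat_lit 40733978438539) (nat_lit 0) (nat_lit 0) (nat_lit 0) (nat_lit 0) (nat_lit 0) (nat_lit 0) (nat_lit 1) (nat_lit 0) (nat_lit 1) (nat_lit 0) (nat_lit 497) (nat_lit 340) (nat_lit 243)) (XT.lf (nat_lit 0) (nat_lit 2819507348) (nat_lit 168) (nat_lit 3188740348) (nat_lit 0) (nat_lit 2819507348) (nat_lit 15) (nat_lit 5) (nat_lit 17) (nat_lit 4) (nat_lit 15) (nat_lit 4) (nat_lit 398) (nat_lit 341) (nat_lit 341))) (XT.nd (nat_lit 94) (nat_lit 84) (nat_lit 0) (XT.lf (nat_lit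 0) (nat_lit 1885702223) (nat_lit 168) (nat_lit 14878465194) (nat_lit 0) (nat_lit 1574713801) (nat_lit 12) (nat_lit 5) (nat_lit 14) (nat_lit 4) (nat_lit 12) (nat_lit 4) (nat_lit 399) (nat_lit 341) (nat_lit 340)) (XT.lf (nat_lit 0) (nat_lit 13721195214) (nat_lit 84) (nat_lit 2967176562) (nat_lit 84) (nat_lit 2368235896) (nat_lit 11) (nat_lit 4) (nat_lit 12) (nat_lit 5) (nat_lit 12) (nat_lit 4) (nat_lit 400) (nat_lit 341) (nat_lit 339))))))))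
noncomputable def xc48 : XT := (XT.nd (nat_lit 2632) (nat_lit 0) (nat_lit 0) (XT.nd (nat_lit 1316) (nat_lit 0) (nat_lit 0) (XT.nd (nat_lit 658) (nat_lit 0) (nat_lit 0) (XT.nd (nat_lit 282) (nat_lit 252) (nat_lit 0) (XT.nd (nat_lit 94) (nat_lit 420) (nat_lit 0) (XT.lf (nat_lit 0) (nat_lit 4566373000) (nat_lit 84) (nat_lit 8035610624) (nat_lit 84) (nat_lit 7211264801) (nat_lit 8) (nat_lit 4) (nat_lit 9) (nat_lit 5) (nat_lit 9) (nat_lit 4) (nat_lit 401) (nat_lit 341) (nat_lit 338)) (XT.nd (nat_lit 94) (nat_lit 252) (nat_lit 0) (XT.lf (nat_lit 0) (nat_lit 7980974821) (nat_lit 168) (nat_lit 5660224801) (nat_lit 0) (nat_lit 6971962803) (nat_lit 6) (nat_lit 5) (nat_lit 8) (nat_lit 4) (nat_lit 6) (nat_lit 4) (nat_lit 402) (nat_lit 341) (nat_lit 337)) (XT.lf (nat_lit 0) (nat_lit 2759331260) (nat_lit 168) (nat_lit 17099849039) (nat_lit 0) (nat_lit 1600906446) (nat_lit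 3) (nat_lit 5) (nat_lit 5) (nat_lit 4) (nat_lit 3) (nat_lit 4) (nat_lit 403) (nat_lit 341) (nat_lit 336)))) (XT.nd (nat_lit 188) (nat_lit 0) (nat_lit 0) (XT.nd (nat_lit 94) (nat_lit 168) (nat_lit 0) (XT.lf (nat_lit 0) (nat_lit 14781810932) (nat_lit 84) (nat_lit 4454511418) (nat_lit 84) (nat_lit 3113252357) (nat_lit 2) (nat_lit 4) (nat_lit 3) (nat_lit 5) (nat_lit 3) (nat_lit 4) (nat_lit 404) (nat_lit 341) (nat_lit 335)) (XT.lf (nat_lit 0) (nat_lit 34668292273) (nat_lit 0) (nat_lit 0) (nat_lit 0) (nat_lit 0) (nat_lit 0) (nat_lit 0) (nat_lit 1) (nat_lit 0) (nat_lit 1) (nat_lit 0) (nat_lit 405) (nat_lit 341) (nat_lit 334))) (XT.nd (nat_lit 94) (nat_lit 0) (nat_lit 0) (XT.lf (nat_lit 0) (nat_lit 37399484531) (nat_lit 0) (nat_lit 0) (nat_lit 0) (nat_lit 0) (nat_lit 0) (nat_lit 0) (nat_lit 1) (nat_lit 0) (nat_lit 1) (nat_lit 0) (nat_lit 406) (nat_lit 341) (nat_lit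 333)) (XT.lf (nat_lit 0) (nat_lit 40350829001) (nat_lit 0) (nat_lit 0) (nat_lit 0) (nat_lit 0) (nat_lit 0) (nat_lit 0) (nat_lit 1) (nat_lit 0) (nat_lit 1) (nat_lit 0) (nat_lit 407) (nat_lit 341) (nat_lit 332))))) (XT.nd (nat_lit 282) (nat_lit 0) (nat_lit 0) (XT.nd (nat_lit 94) (nat_lit 0) (nat_lit 0) (XT.lf (nat_lit 0) (nat_lit 43539815129) (nat_lit 0) (nat_lit 0) (nat_lit 0) (nat_lit 0) (nat_lit 0) (nat_lit 0) (nat_lit 1) (nat_lit 0) (nat_lit 1) (nat_lit 0) (nat_lit 408) (nat_lit 341) (nat_lit 331)) (XT.nd (nat_lit 94) (nat_lit 0) (nat_lit 0) (XT.lf (nat_lit 0) (nat_lit 46985340614) (nat_lit 0) (nat_lit 0) (nat_lit 0) (nat_lit 0) (nat_lit 0) (nat_lit 0) (nat_lit 1) (nat_lit 0) (nat_lit 1) (nat_lit 0) (nat_lit 409) (nat_lit 341) (nat_lit 330)) (XT.lf (nat_lit 0) (nat_lit 50707823382) (nat_lit 0) (nat_lit 0) (nat_lit 0) (nat_lit 0) (nat_lit 0) (nat_lit 0) (nat_lit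 1) (nat_lit 0) (nat_lit 1) (nat_lit 0) (nat_lit 410) (nat_lit 341) (nat_lit 329)))) (XT.nd (nat_lit 188) (nat_lit 0) (nat_lit 0) (XT.nd (nat_lit 94) (nat_lit 0) (nat_lit 0) (XT.lf (nat_lit 0) (nat_lit 54729322591) (nat_lit 0) (nat_lit 0) (nat_lit 0) (nat_lit 0) (nat_lit 0) (nat_lit 0) (nat_lit 1) (nat_lit 0) (nat_lit 1) (nat_lit 0) (nat_lit 411) (nat_lit 341) (nat_lit 328)) (XT.lf (nat_lit 0) (nat_lit 59073669348) (nat_lit 0) (nat_lit 0) (nat_lit 0) (nat_lit 0) (nat_lit 0) (nat_lit 0) (nat_lit 1) (nat_lit 0) (nat_lit 1) (nat_lit 0) (nat_lit 412) (nat_lit 341) (nat_lit 327))) (XT.nd (nat_lit 94) (nat_lit 0) (nat_lit 0) (XT.lf (nat_lit 0) (nat_lit 63766607929) (nat_lit 0) (nat_lit 0) (nat_lit 0) (nat_lit 0) (nat_lit 0) (nat_lit 0) (nat_lit 1) (nat_lit 0) (nat_lit 1) (nat_lit 0) (nat_lit 413) (nat_lit 341) (nat_lit 326)) (XT.lf (nat_lit 0) (nat_lit 68835948342)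 (nat_lit 0) (nat_lit 0) (nat_lit 0) (nat_lit 0) (nat_lit 0) (nat_lit 0) (nat_lit 1) (nat_lit 0) (nat_lit 1) (nat_lit 0) (nat_lit 414) (nat_lit 341) (nat_lit 325)))))) (XT.nd (nat_lit 658) (nat_lit 0) (nat_lit 0) (XT.nd (nat_lit 282) (nat_lit 0) (nat_lit 0) (XT.nd (nat_lit 94) (nat_lit 0) (nat_lit 0) (XT.lf (nat_lit 0) (nat_lit 74311731122) (nat_lit 0) (nat_lit 0) (nat_lit 0) (nat_lit 0) (nat_lit 0) (nat_lit 0) (nat_lit 1) (nat_lit 0) (nat_lit 1) (nat_lit 0) (nat_lit 415) (nat_lit 341) (nat_lit 324)) (XT.nd (nat_lit 94) (nat_lit 0) (nat_lit 0) (XT.lf (nat_lit 0) (nat_lit 80226405351) (nat_lit 0) (nat_lit 0) (nat_lit 0) (nat_lit 0) (nat_lit 0) (nat_lit 0) (nat_lit 1) (nat_lit 0) (nat_lit 1) (nat_lit 0) (nat_lit 416) (nat_lit 341) (nat_lit 323)) (XT.lf (nat_lit 0) (nat_lit 86615020952) (nat_lit 0) (nat_lit 0) (nat_lit 0) (nat_lit 0) (nat_lit 0) (nat_lit 0) (nat_lit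 1) (nat_lit 0) (nat_lit 1) (nat_lit 0) (nat_lit 417) (nat_lit 341) (nat_lit 322)))) (XT.nd (nat_lit 188) (nat_lit 0) (nat_lit 0) (XT.nd (nat_lit 94) (nat_lit 0) (nat_lit 0) (XT.lf (nat_lit 0) (nat_lit 93515436387) (nat_lit 0) (nat_lit 0) (nat_lit 0) (nat_lit 0) (nat_lit 0) (nat_lit 0) (nat_lit 1) (nat_lit 0) (nat_lit 1) (nat_lit 0) (nat_lit 418) (nat_lit 341) (nat_lit 321)) (XT.lf (nat_lit 0) (nat_lit 100968543007) (nat_lit 0) (nat_lit 0) (nat_lit 0) (nat_lit 0) (nat_lit 0) (nat_lit 0) (nat_lit 1) (nat_lit 0) (nat_lit 1) (nat_lit 0) (nat_lit 419) (nat_lit 341) (nat_lit 320))) (XT.nd (nat_lit 94) (nat_lit 0) (nat_lit 0) (XT.lf (nat_lit 0) (nat_lit 109018507370) (nat_lit 0) (nat_lit 0) (nat_lit 0) (nat_lit 0) (nat_lit 0) (nat_lit 0) (nat_lit 1) (nat_lit 0) (nat_lit 1) (nat_lit 0) (nat_lit 420) (nat_lit 341) (nat_lit 319)) (XT.lf (nat_lit 0) (nat_lit 117713032967)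 (nat_lit 0) (nat_lit 0) (nat_lit 0) (nat_lit 0) (nat_lit 0) (nat_lit 0) (nat_lit 1) (nat_lit 0) (nat_lit 1) (nat_lit 0) (nat_lit 421) (nat_lit 341) (nat_lit 318))))) (XT.nd (nat_lit 282) (nat_lit 0) (nat_lit 0) (XT.nd (nat_lit 94) (nat_lit 0) (nat_lit 0) (XT.lf (nat_lit 0) (nat_lit 127103642915) (nat_lit 0) (nat_lit 0) (nat_lit 0) (nat_lit 0) (nat_lit 0) (nat_lit 0) (nat_lit 1) (nat_lit 0) (nat_lit 1) (nat_lit 0) (nat_lit 422) (nat_lit 341) (nat_lit 317)) (XT.nd (nat_lit 94) (nat_lit 0) (nat_lit 0) (XT.lf (nat_lit 0) (nat_lit 137245985272) (nat_lit 0) (nat_lit 0) (nat_lit 0) (nat_lit 0) (nat_lit 0) (nat_lit 0) (nat_lit 1) (nat_lit 0) (nat_lit 1) (nat_lit 0) (nat_lit 423) (nat_lit 341) (nat_lit 316)) (XT.lf (nat_lit 0) (nat_lit 148200162806) (nat_lit 0) (nat_lit 0) (nat_lit 0) (nat_lit 0) (nat_lit 0) (nat_lit 0) (nat_lit 1) (nat_lit 0) (nat_lit 1) (nat_lit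 0) (nat_lit 424) (nat_lit 341) (nat_lit 315)))) (XT.nd (nat_lit 188) (nat_lit 0) (nat_lit 0) (XT.nd (nat_lit 94) (nat_lit 0) (nat_lit 0) (XT.lf (nat_lit 0) (nat_lit 160031089164) (nat_lit 0) (nat_lit 0) (nat_lit 0) (nat_lit 0) (nat_lit 0) (nat_lit 0) (nat_lit 1) (nat_lit 0) (nat_lit 1) (nat_lit 0) (nat_lit 425) (nat_lit 341) (nat_lit 314)) (XT.lf (nat_lit 0) (nat_lit 172808873538) (nat_lit 0) (nat_lit 0) (nat_lit 0) (nat_lit 0) (nat_lit 0) (nat_lit 0) (nat_lit 1) (nat_lit 0) (nat_lit 1) (nat_lit 0) (nat_lit 426) (nat_lit 341) (nat_lit 313))) (XT.nd (nat_lit 94) (nat_lit 0) (nat_lit 0) (XT.lf (nat_lit 0) (nat_lit 186609236131) (nat_lit 0) (nat_lit 0) (nat_lit 0) (nat_lit 0) (nat_lit 0) (nat_lit 0) (nat_lit 1) (nat_lit 0) (nat_lit 1) (nat_lit 0) (nat_lit 427) (nat_lit 341) (nat_lit 312)) (XT.lf (nat_lit 0) (nat_lit 201513956872) (nat_lit 0) (nat_lit 0) (nat_lit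 0) (nat_lit 0) (nat_lit 0) (nat_lit 0) (nat_lit 1) (nat_lit 0) (nat_lit 1) (nat_lit 0) (nat_lit 428) (nat_lit 341) (nat_lit 311))))))) (XT.nd (nat_lit 1316) (nat_lit 0) (nat_lit 0) (XT.nd (nat_lit 658) (nat_lit 0) (nat_lit 0) (XT.nd (nat_lit 282) (nat_lit 0) (nat_lit 0) (XT.nd (nat_lit 94) (nat_lit 0) (nat_lit 0) (XT.lf (nat_lit 0) (nat_lit 217611360029) (nat_lit 0) (nat_lit 0) (nat_lit 0) (nat_lit 0) (nat_lit 0) (nat_lit 0) (nat_lit 1) (nat_lit 0) (nat_lit 1) (nat_lit 0) (nat_lit 429) (nat_lit 341) (nat_lit 310)) (XT.nd (nat_lit 94) (nat_lit 0) (nat_lit 0) (XT.lf (nat_lit 0) (nat_lit 234996837623) (nat_lit 0) (nat_lit 0) (nat_lit 0) (nat_lit 0) (nat_lit 0) (nat_lit 0) (nat_lit 1) (nat_lit 0) (nat_lit 1) (nat_lit 0) (nat_lit 430) (nat_lit 341) (nat_lit 309)) (XT.lf (nat_lit 0) (nat_lit 253773414705) (nat_lit 0) (nat_lit 0) (nat_lit 0) (nat_lit 0) (nat_lit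 0) (nat_lit 0) (nat_lit 1) (nat_lit 0) (nat_lit 1) (nat_lit 0) (nat_lit 431) (nat_lit 341) (nat_lit 308)))) (XT.nd (nat_lit 188) (nat_lit 0) (nat_lit 0) (XT.nd (nat_lit 94) (nat_lit 0) (nat_lit 0) (XT.lf (nat_lit 0) (nat_lit 274052359880) (nat_lit 0) (nat_lit 0) (nat_lit 0) (nat_lit 0) (nat_lit 0) (nat_lit 0) (nat_lit 1) (nat_lit 0) (nat_lit 1) (nat_lit 0) (nat_lit 432) (nat_lit 341) (nat_lit 307)) (XT.lf (nat_lit 0) (nat_lit 295953844676) (nat_lit 0) (nat_lit 0) (nat_lit 0) (nat_lit 0) (nat_lit 0) (nat_lit 0) (nat_lit 1) (nat_lit 0) (nat_lit 1) (nat_lit 0) (nat_lit 433) (nat_lit 341) (nat_lit 306))) (XT.nd (nat_lit 94) (nat_lit 0) (nat_lit 0) (XT.lf (nat_lit 0) (nat_lit 319607655669) (nat_lit 0) (nat_lit 0) (nat_lit 0) (nat_lit 0) (nat_lit 0) (nat_lit 0) (nat_lit 1) (nat_lit 0) (nat_lit 1) (nat_lit 0) (nat_lit 434) (nat_lit 341) (nat_lit 305)) (XT.lf (nat_lit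 0) (nat_lit 345153963591) (nat_lit 0) (nat_lit 0) (nat_lit 0) (nat_lit 0) (nat_lit 0) (nat_lit 0) (nat_lit 1) (nat_lit 0) (nat_lit 1) (nat_lit 0) (nat_lit 435) (nat_lit 341) (nat_lit 304))))) (XT.nd (nat_lit 282) (nat_lit 0) (nat_lit 0) (XT.nd (nat_lit 94) (nat_lit 0) (nat_lit 0) (XT.lf (nat_lit 0) (nat_lit 372744153970) (nat_lit 0) (nat_lit 0) (nat_lit 0) (nat_lit 0) (nat_lit 0) (nat_lit 0) (nat_lit 1) (nat_lit 0) (nat_lit 1) (nat_lit 0) (nat_lit 436) (nat_lit 341) (nat_lit 303)) (XT.nd (nat_lit 94) (nat_lit 0) (nat_lit 0) (XT.lf (nat_lit 0) (nat_lit 402541724231) (nat_lit 0) (nat_lit 0) (nat_lit 0) (nat_lit 0) (nat_lit 0) (nat_lit 0) (nat_lit 1) (nat_lit 0) (nat_lit 1) (nat_lit 0) (nat_lit 437) (nat_lit 341) (nat_lit 302)) (XT.lf (nat_lit 0) (nat_lit 434723252568) (nat_lit 0) (nat_lit 0) (nat_lit 0) (nat_lit 0) (nat_lit 0) (nat_lit 0) (nat_lit 1) (nat_lit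 0) (nat_lit 1) (nat_lit 0) (nat_lit 438) (nat_lit 341) (nat_lit 301)))) (XT.nd (nat_lit 188) (nat_lit 0) (nat_lit 0) (XT.nd (nat_lit 94) (nat_lit 0) (nat_lit 0) (XT.lf (nat_lit 0) (nat_lit 469479444333) (nat_lit 0) (nat_lit 0) (nat_lit 0) (nat_lit 0) (nat_lit 0) (nat_lit 0) (nat_lit 1) (nat_lit 0) (nat_lit 1) (nat_lit 0) (nat_lit 439) (nat_lit 341) (nat_lit 300)) (XT.lf (nat_lit 0) (nat_lit 507016262145) (nat_lit 0) (nat_lit 0) (nat_lit 0) (nat_lit 0) (nat_lit 0) (nat_lit 0) (nat_lit 1) (nat_lit 0) (nat_lit 1) (nat_lit 0) (nat_lit 440) (nat_lit 341) (nat_lit 299))) (XT.nd (nat_lit 94) (nat_lit 0) (nat_lit 0) (XT.lf (nat_lit 0) (nat_lit 547556146406) (nat_lit 0) (nat_lit 0) (nat_lit 0) (nat_lit 0) (nat_lit 0) (nat_lit 0) (nat_lit 1) (nat_lit 0) (nat_lit 1) (nat_lit 0) (nat_lit 441) (nat_lit 341) (nat_lit 298)) (XT.lf (nat_lit 0) (nat_lit 591339333467) (nat_lit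 0) (nat_lit 0) (nat_lit 0) (nat_lit 0) (nat_lit 0) (nat_lit 0) (nat_lit 1) (nat_lit 0) (nat_lit 1) (nat_lit 0) (nat_lit 442) (nat_lit 341) (nat_lit 297)))))) (XT.nd (nat_lit 658) (nat_lit 0) (nat_lit 0) (XT.nd (nat_lit 282) (nat_lit 0) (nat_lit 0) (XT.nd (nat_lit 94) (nat_lit 0) (nat_lit 0) (XT.lf (nat_lit 0) (nat_lit 638625279251) (nat_lit 0) (nat_lit 0) (nat_lit 0) (nat_lit 0) (nat_lit 0) (nat_lit 0) (nat_lit 1) (nat_lit 0) (nat_lit 1) (nat_lit 0) (nat_lit 443) (nat_lit 341) (nat_lit 296)) (XT.nd (nat_lit 94) (nat_lit 0) (nat_lit 0) (XT.lf (nat_lit 0) (nat_lit 689694196770) (nat_lit 0) (nat_lit 0) (nat_lit 0) (nat_lit 0) (nat_lit 0) (nat_lit 0) (nat_lit 1) (nat_lit 0) (nat_lit 1) (nat_lit 0) (nat_lit 444) (nat_lit 341) (nat_lit 295)) (XT.lf (nat_lit 0) (nat_lit 744848716647) (nat_lit 0) (nat_lit 0) (nat_lit 0) (nat_lit 0) (nat_lit 0) (nat_lit 0) (nat_lit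 1) (nat_lit 0) (nat_lit 1) (nat_lit 0) (nat_lit 445) (nat_lit 341) (nat_lit 294)))) (XT.nd (nat_lit 188) (nat_lit 0) (nat_lit 0) (XT.nd (nat_lit 94) (nat_lit 0) (nat_lit 0) (XT.lf (nat_lit 0) (nat_lit 804415680481) (nat_lit 0) (nat_lit 0) (nat_lit 0) (nat_lit 0) (nat_lit 0) (nat_lit 0) (nat_lit 1) (nat_lit 0) (nat_lit 1) (nat_lit 0) (nat_lit 446) (nat_lit 341) (nat_lit 293)) (XT.lf (nat_lit 0) (nat_lit 868748077686) (nat_lit 0) (nat_lit 0) (nat_lit 0) (nat_lit 0) (nat_lit 0) (nat_lit 0) (nat_lit 1) (nat_lit 0) (nat_lit 1) (nat_lit 0) (nat_lit 447) (nat_lit 341) (nat_lit 292))) (XT.nd (nat_lit 94) (nat_lit 0) (nat_lit 0) (XT.lf (nat_lit 0) (nat_lit 938227137285) (nat_lit 0) (nat_lit 0) (nat_lit 0) (nat_lit 0) (nat_lit 0) (nat_lit 0) (nat_lit 1) (nat_lit 0) (nat_lit 1) (nat_lit 0) (nat_lit 448) (nat_lit 341) (nat_lit 291)) (XT.lf (nat_lit 0) (nat_lit 1013264587036)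 (nat_lit 0) (nat_lit 0) (nat_lit 0) (nat_lit 0) (nat_lit 0) (nat_lit 0) (nat_lit 1) (nat_lit 0) (nat_lit 1) (nat_lit 0) (nat_lit 449) (nat_lit 341) (nat_lit 290))))) (XT.nd (nat_lit 282) (nat_lit 0) (nat_lit 0) (XT.nd (nat_lit 94) (nat_lit 0) (nat_lit 0) (XT.lf (nat_lit 0) (nat_lit 1094305093310) (nat_lit 0) (nat_lit 0) (nat_lit 0) (nat_lit 0) (nat_lit 0) (nat_lit 0) (nat_lit 1) (nat_lit 0) (nat_lit 1) (nat_lit 0) (nat_lit 450) (nat_lit 341) (nat_lit 289)) (XT.nd (nat_lit 94) (nat_lit 0) (nat_lit 0) (XT.lf (nat_lit 0) (nat_lit 1181828896143) (nat_lit 0) (nat_lit 0) (nat_lit 0) (nat_lit 0) (nat_lit 0) (nat_lit 0) (nat_lit 1) (nat_lit 0) (nat_lit 1) (nat_lit 0) (nat_lit 451) (nat_lit 341) (nat_lit 288)) (XT.lf (nat_lit 0) (nat_lit 1276354655107) (nat_lit 0) (nat_lit 0) (nat_lit 0) (nat_lit 0) (nat_lit 0) (nat_lit 0) (nat_lit 1) (nat_lit 0) (nat_lit 1) (nat_lit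 0) (nat_lit 452) (nat_lit 341) (nat_lit 287)))) (XT.nd (nat_lit 188) (nat_lit 0) (nat_lit 0) (XT.nd (nat_lit 94) (nat_lit 0) (nat_lit 0) (XT.lf (nat_lit 0) (nat_lit 1378442522849) (nat_lit 0) (nat_lit 0) (nat_lit 0) (nat_lit 0) (nat_lit 0) (nat_lit 0) (nat_lit 1) (nat_lit 0) (nat_lit 1) (nat_lit 0) (nat_lit 453) (nat_lit 341) (nat_lit 286)) (XT.lf (nat_lit 0) (nat_lit 1488697464510) (nat_lit 0) (nat_lit 0) (nat_lit 0) (nat_lit 0) (nat_lit 0) (nat_lit 0) (nat_lit 1) (nat_lit 0) (nat_lit 1) (nat_lit 0) (nat_lit 454) (nat_lit 341) (nat_lit 285))) (XT.nd (nat_lit 94) (nat_lit 0) (nat_lit 0) (XT.lf (nat_lit 0) (nat_lit 1607772842708) (nat_lit 0) (nat_lit 0) (nat_lit 0) (nat_lit 0) (nat_lit 0) (nat_lit 0) (nat_lit 1) (nat_lit 0) (nat_lit 1) (nat_lit 0) (nat_lit 455) (nat_lit 341) (nat_lit 284)) (XT.lf (nat_lit 0) (nat_lit 1736374289314) (nat_lit 0) (nat_lit 0) (nat_lit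 0) (nat_lit 0) (nat_lit 0) (nat_lit 0) (nat_lit 1) (nat_lit 0) (nat_lit 1) (nat_lit 0) (nat_lit 456) (nat_lit 341) (nat_lit 283))))))))
noncomputable def xc49 : XT := (XT.nd (nat_lit 2632) (nat_lit 0) (nat_lit 0) (XT.nd (nat_lit 1316) (nat_lit 0) (nat_lit 0) (XT.nd (nat_lit 658) (nat_lit 0) (nat_lit 0) (XT.nd (nat_lit 282) (nat_lit 0) (nat_lit 0) (XT.nd (nat_lit 94) (nat_lit 0) (nat_lit 0) (XT.lf (nat_lit 0) (nat_lit 1875263886974) (nat_lit 0) (nat_lit 0) (nat_lit 0) (nat_lit 0) (nat_lit 0) (nat_lit 0) (nat_lit 1) (nat_lit 0) (nat_lit 1) (nat_lit 0) (nat_lit 457) (nat_lit 341) (nat_lit 282)) (XT.nd (nat_lit 94) (nat_lit 0) (nat_lit 0) (XT.lf (nat_lit 0) (nat_lit 2025264685155) (nat_lit 0) (nat_lit 0) (nat_lit 0) (nat_lit 0) (nat_lit 0) (nat_lit 0) (nat_lit 1) (nat_lit 0) (nat_lit 1) (nat_lit 0) (nat_lit 458) (nat_lit 341) (nat_lit 281)) (XT.lf (nat_lit 0)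 (nat_lit 2187265577477) (nat_lit 0) (nat_lit 0) (nat_lit 0) (nat_lit 0) (nat_lit 0) (nat_lit 0) (nat_lit 1) (nat_lit 0) (nat_lit 1) (nat_lit 0) (nat_lit 459) (nat_lit 341) (nat_lit 280)))) (XT.nd (nat_lit 188) (nat_lit 0) (nat_lit 0) (XT.nd (nat_lit 94) (nat_lit 0) (nat_lit 0) (XT.lf (nat_lit 0) (nat_lit 2362226569227) (nat_lit 0) (nat_lit 0) (nat_lit 0) (nat_lit 0) (nat_lit 0) (nat_lit 0) (nat_lit 1) (nat_lit 0) (nat_lit 1) (nat_lit 0) (nat_lit 460) (nat_lit 341) (nat_lit 279)) (XT.lf (nat_lit 0) (nat_lit 2551184466283) (nat_lit 0) (nat_lit 0) (nat_lit 0) (nat_lit 0) (nat_lit 0) (nat_lit 0) (nat_lit 1) (nat_lit 0) (nat_lit 1) (nat_lit 0) (nat_lit 461) (nat_lit 341) (nat_lit 278))) (XT.nd (nat_lit 94) (nat_lit 0) (nat_lit 0) (XT.lf (nat_lit 0) (nat_lit 2755259019146) (nat_lit 0) (nat_lit 0) (nat_lit 0) (nat_lit 0) (nat_lit 0) (nat_lit 0) (nat_lit 1) (nat_lit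 0) (nat_lit 1) (nat_lit 0) (nat_lit 462) (nat_lit 341) (nat_lit 277)) (XT.lf (nat_lit 0) (nat_lit 2975659558498) (nat_lit 0) (nat_lit 0) (nat_lit 0) (nat_lit 0) (nat_lit 0) (nat_lit 0) (nat_lit 1) (nat_lit 0) (nat_lit 1) (nat_lit 0) (nat_lit 463) (nat_lit 341) (nat_lit 276))))) (XT.nd (nat_lit 282) (nat_lit 0) (nat_lit 0) (XT.nd (nat_lit 94) (nat_lit 0) (nat_lit 0) (XT.lf (nat_lit 0) (nat_lit 3213692161611) (nat_lit 0) (nat_lit 0) (nat_lit 0) (nat_lit 0) (nat_lit 0) (nat_lit 0) (nat_lit 1) (nat_lit 0) (nat_lit 1) (nat_lit 0) (nat_lit 464) (nat_lit 341) (nat_lit 275)) (XT.nd (nat_lit 94) (nat_lit 0) (nat_lit 0) (XT.lf (nat_lit 0) (nat_lit 3470767392058) (nat_lit 0) (nat_lit 0) (nat_lit 0) (nat_lit 0) (nat_lit 0) (nat_lit 0) (nat_lit 1) (nat_lit 0) (nat_lit 1) (nat_lit 0) (nat_lit 465) (nat_lit 341) (nat_lit 274)) (XT.lf (nat_lit 0) (nat_lit 3748408658613) (nat_lit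 0) (nat_lit 0) (nat_lit 0) (nat_lit 0) (nat_lit 0) (nat_lit 0) (nat_lit 1) (nat_lit 0) (nat_lit 1) (nat_lit 0) (nat_lit 466) (nat_lit 341) (nat_lit 273)))) (XT.nd (nat_lit 188) (nat_lit 0) (nat_lit 0) (XT.nd (nat_lit 94) (nat_lit 0) (nat_lit 0) (XT.lf (nat_lit 0) (nat_lit 4048261242855) (nat_lit 0) (nat_lit 0) (nat_lit 0) (nat_lit 0) (nat_lit 0) (nat_lit 0) (nat_lit 1) (nat_lit 0) (nat_lit 1) (nat_lit 0) (nat_lit 467) (nat_lit 341) (nat_lit 272)) (XT.lf (nat_lit 0) (nat_lit 4372102048986) (nat_lit 0) (nat_lit 0) (nat_lit 0) (nat_lit 0) (nat_lit 0) (nat_lit 0) (nat_lit 1) (nat_lit 0) (nat_lit 1) (nat_lit 0) (nat_lit 468) (nat_lit 341) (nat_lit 271))) (XT.nd (nat_lit 94) (nat_lit 0) (nat_lit 0) (XT.lf (nat_lit 0) (nat_lit 4721850133637) (nat_lit 0) (nat_lit 0) (nat_lit 0) (nat_lit 0) (nat_lit 0) (nat_lit 0) (nat_lit 1) (nat_lit 0) (nat_lit 1) (nat_lit 0) (nat_lit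 469) (nat_lit 341) (nat_lit 270)) (XT.lf (nat_lit 0) (nat_lit 5099578078048) (nat_lit 0) (nat_lit 0) (nat_lit 0) (nat_lit 0) (nat_lit 0) (nat_lit 0) (nat_lit 1) (nat_lit 0) (nat_lit 1) (nat_lit 0) (nat_lit 470) (nat_lit 341) (nat_lit 269)))))) (XT.nd (nat_lit 658) (nat_lit 0) (nat_lit 0) (XT.nd (nat_lit 282) (nat_lit 0) (nat_lit 0) (XT.nd (nat_lit 94) (nat_lit 0) (nat_lit 0) (XT.lf (nat_lit 0) (nat_lit 5507524270040) (nat_lit 0) (nat_lit 0) (nat_lit 0) (nat_lit 0) (nat_lit 0) (nat_lit 0) (nat_lit 1) (nat_lit 0) (nat_lit 1) (nat_lit 0) (nat_lit 471) (nat_lit 341) (nat_lit 268)) (XT.nd (nat_lit 94) (nat_lit 0) (nat_lit 0) (XT.lf (nat_lit 0) (nat_lit 5948106168527) (nat_lit 0) (nat_lit 0) (nat_lit 0) (nat_lit 0) (nat_lit 0) (nat_lit 0) (nat_lit 1) (nat_lit 0) (nat_lit 1) (nat_lit 0) (nat_lit 472) (nat_lit 341) (nat_lit 267)) (XT.lf (nat_lit 0) (nat_lit 6423934629204)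 (nat_lit 0) (nat_lit 0) (nat_lit 0) (nat_lit 0) (nat_lit 0) (nat_lit 0) (nat_lit 1) (nat_lit 0) (nat_lit 1) (nat_lit 0) (nat_lit 473) (nat_lit 341) (nat_lit 266)))) (XT.nd (nat_lit 188) (nat_lit 0) (nat_lit 0) (XT.nd (nat_lit 94) (nat_lit 0) (nat_lit 0) (XT.lf (nat_lit 0) (nat_lit 6937829376283) (nat_lit 0) (nat_lit 0) (nat_lit 0) (nat_lit 0) (nat_lit 0) (nat_lit 0) (nat_lit 1) (nat_lit 0) (nat_lit 1) (nat_lit 0) (nat_lit 474) (nat_lit 341) (nat_lit 265)) (XT.lf (nat_lit 0) (nat_lit 7492835711968) (nat_lit 0) (nat_lit 0) (nat_lit 0) (nat_lit 0) (nat_lit 0) (nat_lit 0) (nat_lit 1) (nat_lit 0) (nat_lit 1) (nat_lit 0) (nat_lit 475) (nat_lit 341) (nat_lit 264))) (XT.nd (nat_lit 94) (nat_lit 0) (nat_lit 0) (XT.lf (nat_lit 0) (nat_lit 8092242562693) (nat_lit 0) (nat_lit 0) (nat_lit 0) (nat_lit 0) (nat_lit 0) (nat_lit 0) (nat_lit 1) (nat_lit 0) (nat_lit 1) (nat_lit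 0) (nat_lit 476) (nat_lit 341) (nat_lit 263)) (XT.lf (nat_lit 0) (nat_lit 8739601969056) (nat_lit 0) (nat_lit 0) (nat_lit 0) (nat_lit 0) (nat_lit 0) (nat_lit 0) (nat_lit 1) (nat_lit 0) (nat_lit 1) (nat_lit 0) (nat_lit 477) (nat_lit 341) (nat_lit 262))))) (XT.nd (nat_lit 282) (nat_lit 0) (nat_lit 0) (XT.nd (nat_lit 94) (nat_lit 0) (nat_lit 0) (XT.lf (nat_lit 0) (nat_lit 9438750134945) (nat_lit 0) (nat_lit 0) (nat_lit 0) (nat_lit 0) (nat_lit 0) (nat_lit 0) (nat_lit 1) (nat_lit 0) (nat_lit 1) (nat_lit 0) (nat_lit 478) (nat_lit 341) (nat_lit 261)) (XT.nd (nat_lit 94) (nat_lit 0) (nat_lit 0) (XT.lf (nat_lit 0) (nat_lit 10193830160603) (nat_lit 0) (nat_lit 0) (nat_lit 0) (nat_lit 0) (nat_lit 0) (nat_lit 0) (nat_lit 1) (nat_lit 0) (nat_lit 1) (nat_lit 0) (nat_lit 479) (nat_lit 341) (nat_lit 260)) (XT.lf (nat_lit 0) (nat_lit 11009316594331) (nat_lit 0) (nat_lit 0)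 (nat_lit 0) (nat_lit 0) (nat_lit 0) (nat_lit 0) (nat_lit 1) (nat_lit 0) (nat_lit 1) (nat_lit 0) (nat_lit 480) (nat_lit 341) (nat_lit 259)))) (XT.nd (nat_lit 188) (nat_lit 0) (nat_lit 0) (XT.nd (nat_lit 94) (nat_lit 0) (nat_lit 0) (XT.lf (nat_lit 0) (nat_lit 11890041948327) (nat_lit 0) (nat_lit 0) (nat_lit 0) (nat_lit 0) (nat_lit 0) (nat_lit 0) (nat_lit 1) (nat_lit 0) (nat_lit 1) (nat_lit 0) (nat_lit 481) (nat_lit 341) (nat_lit 258)) (XT.lf (nat_lit 0) (nat_lit 12841225335801) (nat_lit 0) (nat_lit 0) (nat_lit 0) (nat_lit 0) (nat_lit 0) (nat_lit 0) (nat_lit 1) (nat_lit 0) (nat_lit 1) (nat_lit 0) (nat_lit 482) (nat_lit 341) (nat_lit 257))) (XT.nd (nat_lit 94) (nat_lit 0) (nat_lit 0) (XT.lf (nat_lit 0) (nat_lit 13868503399050) (nat_lit 0) (nat_lit 0) (nat_lit 0) (nat_lit 0) (nat_lit 0) (nat_lit 0) (nat_lit 1) (nat_lit 0) (nat_lit 1) (nat_lit 0) (nat_lit 483) (nat_lit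 341) (nat_lit 256)) (XT.lf (nat_lit 0) (nat_lit 14977963711780) (nat_lit 0) (nat_lit 0) (nat_lit 0) (nat_lit 0) (nat_lit 0) (nat_lit 0) (nat_lit 1) (nat_lit 0) (nat_lit 1) (nat_lit 0) (nat_lit 484) (nat_lit 341) (nat_lit 255))))))) (XT.nd (nat_lit 59502) (nat_lit 0) (nat_lit 0) (XT.nd (nat_lit 658) (nat_lit 0) (nat_lit 0) (XT.nd (nat_lit 282) (nat_lit 0) (nat_lit 0) (XT.nd (nat_lit 94) (nat_lit 0) (nat_lit 0) (XT.lf (nat_lit 0) (nat_lit 16176180853624) (nat_lit 0) (nat_lit 0) (nat_lit 0) (nat_lit 0) (nat_lit 0) (nat_lit 0) (nat_lit 1) (nat_lit 0) (nat_lit 1) (nat_lit 0) (nat_lit 485) (nat_lit 341) (nat_lit 254)) (XT.nd (nat_lit 94) (nat_lit 0) (nat_lit 0) (XT.lf (nat_lit 0) (nat_lit 17470255370606) (nat_lit 0) (nat_lit 0) (nat_lit 0) (nat_lit 0) (nat_lit 0) (nat_lit 0) (nat_lit 1) (nat_lit 0) (nat_lit 1) (nat_lit 0) (nat_lit 486) (nat_lit 341) (nat_lit 253))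 (XT.lf (nat_lit 0) (nat_lit 18867855852458) (nat_lit 0) (nat_lit 0) (nat_lit 0) (nat_lit 0) (nat_lit 0) (nat_lit 0) (nat_lit 1) (nat_lit 0) (nat_lit 1) (nat_lit 0) (nat_lit 487) (nat_lit 341) (nat_lit 252)))) (XT.nd (nat_lit 188) (nat_lit 0) (nat_lit 0) (XT.nd (nat_lit 94) (nat_lit 0) (nat_lit 0) (XT.lf (nat_lit 0) (nat_lit 20377264376108) (nat_lit 0) (nat_lit 0) (nat_lit 0) (nat_lit 0) (nat_lit 0) (nat_lit 0) (nat_lit 1) (nat_lit 0) (nat_lit 1) (nat_lit 0) (nat_lit 488) (nat_lit 341) (nat_lit 251)) (XT.lf (nat_lit 0) (nat_lit 22007425584660) (nat_lit 0) (nat_lit 0) (nat_lit 0) (nat_lit 0) (nat_lit 0) (nat_lit 0) (nat_lit 1) (nat_lit 0) (nat_lit 1) (nat_lit 0) (nat_lit 489) (nat_lit 341) (nat_lit 250))) (XT.nd (nat_lit 94) (nat_lit 0) (nat_lit 0) (XT.lf (nat_lit 0) (nat_lit 23767999692683) (nat_lit 0) (nat_lit 0) (nat_lit 0) (nat_lit 0) (nat_lit 0) (nat_lit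 0) (nat_lit 1) (nat_lit 0) (nat_lit 1) (nat_lit 0) (nat_lit 490) (nat_lit 341) (nat_lit 249)) (XT.lf (nat_lit 0) (nat_lit 25669419731929) (nat_lit 0) (nat_lit 0) (nat_lit 0) (nat_lit 0) (nat_lit 0) (nat_lit 0) (nat_lit 1) (nat_lit 0) (nat_lit 1) (nat_lit 0) (nat_lit 491) (nat_lit 341) (nat_lit 248))))) (XT.nd (nat_lit 282) (nat_lit 0) (nat_lit 0) (XT.nd (nat_lit 94) (nat_lit 0) (nat_lit 0) (XT.lf (nat_lit 0) (nat_lit 27722953376703) (nat_lit 0) (nat_lit 0) (nat_lit 0) (nat_lit 0) (nat_lit 0) (nat_lit 0) (nat_lit 1) (nat_lit 0) (nat_lit 1) (nat_lit 0) (nat_lit 492) (nat_lit 341) (nat_lit 247)) (XT.nd (nat_lit 94) (nat_lit 0) (nat_lit 0) (XT.lf (nat_lit 0) (nat_lit 29940769715271) (nat_lit 0) (nat_lit 0) (nat_lit 0) (nat_lit 0) (nat_lit 0) (nat_lit 0) (nat_lit 1) (nat_lit 0) (nat_lit 1) (nat_lit 0) (nat_lit 493) (nat_lit 341) (nat_lit 246)) (XT.lf (nat_lit 0)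 (nat_lit 32336011362973) (nat_lit 0) (nat_lit 0) (nat_lit 0) (nat_lit 0) (nat_lit 0) (nat_lit 0) (nat_lit 1) (nat_lit 0) (nat_lit 1) (nat_lit 0) (nat_lit 494) (nat_lit 341) (nat_lit 245)))) (XT.nd (nat_lit 188) (nat_lit 0) (nat_lit 0) (XT.nd (nat_lit 94) (nat_lit 0) (nat_lit 0) (XT.lf (nat_lit 0) (nat_lit 34922872344388) (nat_lit 0) (nat_lit 0) (nat_lit 0) (nat_lit 0) (nat_lit 0) (nat_lit 0) (nat_lit 1) (nat_lit 0) (nat_lit 1) (nat_lit 0) (nat_lit 495) (nat_lit 341) (nat_lit 244)) (XT.lf (nat_lit 0) (nat_lit 37716682206073) (nat_lit 0) (nat_lit 0) (nat_lit 0) (nat_lit 0) (nat_lit 0) (nat_lit 0) (nat_lit 1) (nat_lit 0) (nat_lit 1) (nat_lit 0) (nat_lit 496) (nat_lit 341) (nat_lit 243))) (XT.nd (nat_lit 58280) (nat_lit 0) (nat_lit 1680) (XT.lf (nat_lit 0) (nat_lit 40733996858318) (nat_lit 0) (nat_lit 0) (nat_lit 0) (nat_lit 0) (nat_lit 0) (nat_lit 0) (nat_lit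 1) (nat_lit 0) (nat_lit 1) (nat_lit 0) (nat_lit 497) (nat_lit 341) (nat_lit 242)) (XT.lf (nat_lit 0) (nat_lit 4329003657) (nat_lit 84) (nat_lit 1931213668) (nat_lit 84) (nat_lit 1931213668) (nat_lit 20) (nat_lit 4) (nat_lit 21) (nat_lit 5) (nat_lit 21) (nat_lit 4) (nat_lit 396) (nat_lit 342) (nat_lit 342)))))) (XT.nd (nat_lit 658) (nat_lit 336) (nat_lit 0) (XT.nd (nat_lit 282) (nat_lit 672) (nat_lit 0) (XT.nd (nat_lit 94) (nat_lit 420) (nat_lit 0) (XT.lf (nat_lit 0) (nat_lit 1169019835) (nat_lit 84) (nat_lit 8106184899) (nat_lit 84) (nat_lit 7735890984) (nat_lit 17) (nat_lit 4) (nat_lit 18) (nat_lit 5) (nat_lit 18) (nat_lit 4) (nat_lit 397) (nat_lit 342) (nat_lit 341)) (XT.nd (nat_lit 94) (nat_lit 252) (nat_lit 0) (XT.lf (nat_lit 0) (nat_lit 5633881562) (nat_lit 168) (nat_lit 7084835380) (nat_lit 0) (nat_lit 4954682846) (nat_lit 15) (nat_lit 5) (nat_lit 17)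 (nat_lit 4) (nat_lit 15) (nat_lit 4) (nat_lit 398) (nat_lit 342) (nat_lit 340)) (XT.lf (nat_lit 0) (nat_lit 1464330058) (nat_lit 168) (nat_lit 16382891248) (nat_lit 0) (nat_lit 529521895) (nat_lit 12) (nat_lit 5) (nat_lit 14) (nat_lit 4) (nat_lit 12) (nat_lit 4) (nat_lit 399) (nat_lit 342) (nat_lit 339)))) (XT.nd (nat_lit 188) (nat_lit 336) (nat_lit 0) (XT.nd (nat_lit 94) (nat_lit 252) (nat_lit 0) (XT.lf (nat_lit 0) (nat_lit 11475177228) (nat_lit 84) (nat_lit 4419665442) (nat_lit 84) (nat_lit 3218234832) (nat_lit 11) (nat_lit 4) (nat_lit 12) (nat_lit 5) (nat_lit 12) (nat_lit 4) (nat_lit 400) (nat_lit 342) (nat_lit 338)) (XT.lf (nat_lit 0) (nat_lit 1379350738) (nat_lit 84) (nat_lit 9946516803) (nat_lit 84) (nat_lit 8567180378) (nat_lit 8) (nat_lit 4) (nat_lit 9) (nat_lit 5) (nat_lit 9) (nat_lit 4) (nat_lit 401) (nat_lit 342) (nat_lit 337))) (XT.nd (nat_lit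 94) (nat_lit 168) (nat_lit 0) (XT.lf (nat_lit 0) (nat_lit 6235635445) (nat_lit 168) (nat_lit 9765378363) (nat_lit 0) (nat_lit 4714647671) (nat_lit 6) (nat_lit 5) (nat_lit 8) (nat_lit 4) (nat_lit 6) (nat_lit 4) (nat_lit 402) (nat_lit 342) (nat_lit 336)) (XT.lf (nat_lit 0) (nat_lit 469543422) (nat_lit 168) (nat_lit 750399716) (nat_lit 84) (nat_lit 20369139747) (nat_lit 4) (nat_lit 5) (nat_lit 6) (nat_lit 5) (nat_lit 5) (nat_lit 4) (nat_lit 403) (nat_lit 342) (nat_lit 335))))) (XT.nd (nat_lit 376) (nat_lit 0) (nat_lit 0) (XT.nd (nat_lit 188) (nat_lit 0) (nat_lit 0) (XT.nd (nat_lit 94) (nat_lit 168) (nat_lit 0) (XT.lf (nat_lit 0) (nat_lit 8678548456) (nat_lit 84) (nat_lit 7811759364) (nat_lit 84) (nat_lit 6011074362) (nat_lit 2) (nat_lit 4) (nat_lit 3) (nat_lit 5) (nat_lit 3) (nat_lit 4) (nat_lit 404) (nat_lit 342) (nat_lit 334)) (XT.lf (nat_lit 0) (nat_lit 34677442722)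 (nat_lit 0) (nat_lit 0) (nat_lit 0) (nat_lit 0) (nat_lit 0) (nat_lit 0) (nat_lit 1) (nat_lit 0) (nat_lit 1) (nat_lit 0) (nat_lit 405) (nat_lit 342) (nat_lit 333))) (XT.nd (nat_lit 94) (nat_lit 0) (nat_lit 0) (XT.lf (nat_lit 0) (nat_lit 37409431533) (nat_lit 0) (nat_lit 0) (nat_lit 0) (nat_lit 0) (nat_lit 0) (nat_lit 0) (nat_lit 1) (nat_lit 0) (nat_lit 1) (nat_lit 0) (nat_lit 406) (nat_lit 342) (nat_lit 332)) (XT.lf (nat_lit 0) (nat_lit 40361513552) (nat_lit 0) (nat_lit 0) (nat_lit 0) (nat_lit 0) (nat_lit 0) (nat_lit 0) (nat_lit 1) (nat_lit 0) (nat_lit 1) (nat_lit 0) (nat_lit 407) (nat_lit 342) (nat_lit 331)))) (XT.nd (nat_lit 188) (nat_lit 0) (nat_lit 0) (XT.nd (nat_lit 94) (nat_lit 0) (nat_lit 0) (XT.lf (nat_lit 0) (nat_lit 43551182596) (nat_lit 0) (nat_lit 0) (nat_lit 0) (nat_lit 0) (nat_lit 0) (nat_lit 0) (nat_lit 1) (nat_lit 0) (nat_lit 1) (nat_lit 0)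 (nat_lit 408) (nat_lit 342) (nat_lit 330)) (XT.lf (nat_lit 0) (nat_lit 46997340410) (nat_lit 0) (nat_lit 0) (nat_lit 0) (nat_lit 0) (nat_lit 0) (nat_lit 0) (nat_lit 1) (nat_lit 0) (nat_lit 1) (nat_lit 0) (nat_lit 409) (nat_lit 342) (nat_lit 329))) (XT.nd (nat_lit 94) (nat_lit 0) (nat_lit 0) (XT.lf (nat_lit 0) (nat_lit 50720408668) (nat_lit 0) (nat_lit 0) (nat_lit 0) (nat_lit 0) (nat_lit 0) (nat_lit 0) (nat_lit 1) (nat_lit 0) (nat_lit 1) (nat_lit 0) (nat_lit 410) (nat_lit 342) (nat_lit 328)) (XT.lf (nat_lit 0) (nat_lit 54742449998) (nat_lit 0) (nat_lit 0) (nat_lit 0) (nat_lit 0) (nat_lit 0) (nat_lit 0) (nat_lit 1) (nat_lit 0) (nat_lit 1) (nat_lit 0) (nat_lit 411) (nat_lit 342) (nat_lit 327))))))))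
noncomputable def xc50 : XT := (XT.nd (nat_lit 2632) (nat_lit 0) (nat_lit 0) (XT.nd (nat_lit 1316) (nat_lit 0) (nat_lit 0) (XT.nd (nat_lit 658) (nat_lit 0) (nat_lit 0) (XT.nd (nat_lit 282) (nat_lit 0) (nat_lit 0) (XT.nd (nat_lit 94) (nat_lit 0) (nat_lit 0) (XT.lf (nat_lit 0) (nat_lit 59087298719) (nat_lit 0) (nat_lit 0) (nat_lit 0) (nat_lit 0) (nat_lit 0) (nat_lit 0) (nat_lit 1) (nat_lit 0) (nat_lit 1) (nat_lit 0) (nat_lit 412) (nat_lit 342) (nat_lit 326)) (XT.nd (nat_lit 94) (nat_lit 0) (nat_lit 0) (XT.lf (nat_lit 0) (nat_lit 63780702081) (nat_lit 0) (nat_lit 0) (nat_lit 0) (nat_lit 0) (nat_lit 0) (nat_lit 0) (nat_lit 1) (nat_lit 0) (nat_lit 1) (nat_lit 0) (nat_lit 413) (nat_lit 342) (nat_lit 325)) (XT.lf (nat_lit 0) (nat_lit 68850472847) (nat_lit 0) (nat_lit 0) (nat_lit 0) (nat_lit 0) (nat_lit 0) (nat_lit 0) (nat_lit 1) (nat_lit 0) (nat_lit 1) (nat_lit 0)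 (nat_lit 414) (nat_lit 342) (nat_lit 324)))) (XT.nd (nat_lit 188) (nat_lit 0) (nat_lit 0) (XT.nd (nat_lit 94) (nat_lit 0) (nat_lit 0) (XT.lf (nat_lit 0) (nat_lit 74326654101) (nat_lit 0) (nat_lit 0) (nat_lit 0) (nat_lit 0) (nat_lit 0) (nat_lit 0) (nat_lit 1) (nat_lit 0) (nat_lit 1) (nat_lit 0) (nat_lit 415) (nat_lit 342) (nat_lit 323)) (XT.lf (nat_lit 0) (nat_lit 80241697289) (nat_lit 0) (nat_lit 0) (nat_lit 0) (nat_lit 0) (nat_lit 0) (nat_lit 0) (nat_lit 1) (nat_lit 0) (nat_lit 1) (nat_lit 0) (nat_lit 416) (nat_lit 342) (nat_lit 322))) (XT.nd (nat_lit 94) (nat_lit 0) (nat_lit 0) (XT.lf (nat_lit 0) (nat_lit 86630654518) (nat_lit 0) (nat_lit 0) (nat_lit 0) (nat_lit 0) (nat_lit 0) (nat_lit 0) (nat_lit 1) (nat_lit 0) (nat_lit 1) (nat_lit 0) (nat_lit 417) (nat_lit 342) (nat_lit 321)) (XT.lf (nat_lit 0) (nat_lit 93531386275) (nat_lit 0) (nat_lit 0) (nat_lit 0)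 (nat_lit 0) (nat_lit 0) (nat_lit 0) (nat_lit 1) (nat_lit 0) (nat_lit 1) (nat_lit 0) (nat_lit 418) (nat_lit 342) (nat_lit 320))))) (XT.nd (nat_lit 282) (nat_lit 0) (nat_lit 0) (XT.nd (nat_lit 94) (nat_lit 0) (nat_lit 0) (XT.lf (nat_lit 0) (nat_lit 100984785786) (nat_lit 0) (nat_lit 0) (nat_lit 0) (nat_lit 0) (nat_lit 0) (nat_lit 0) (nat_lit 1) (nat_lit 0) (nat_lit 1) (nat_lit 0) (nat_lit 419) (nat_lit 342) (nat_lit 319)) (XT.nd (nat_lit 94) (nat_lit 0) (nat_lit 0) (XT.lf (nat_lit 0) (nat_lit 109035021344) (nat_lit 0) (nat_lit 0) (nat_lit 0) (nat_lit 0) (nat_lit 0) (nat_lit 0) (nat_lit 1) (nat_lit 0) (nat_lit 1) (nat_lit 0) (nat_lit 420) (nat_lit 342) (nat_lit 318)) (XT.lf (nat_lit 0) (nat_lit 117729798048) (nat_lit 0) (nat_lit 0) (nat_lit 0) (nat_lit 0) (nat_lit 0) (nat_lit 0) (nat_lit 1) (nat_lit 0) (nat_lit 1) (nat_lit 0) (nat_lit 421) (nat_lit 342) (nat_lit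 317)))) (XT.nd (nat_lit 188) (nat_lit 0) (nat_lit 0) (XT.nd (nat_lit 94) (nat_lit 0) (nat_lit 0) (XT.lf (nat_lit 0) (nat_lit 127120640502) (nat_lit 0) (nat_lit 0) (nat_lit 0) (nat_lit 0) (nat_lit 0) (nat_lit 0) (nat_lit 1) (nat_lit 0) (nat_lit 1) (nat_lit 0) (nat_lit 422) (nat_lit 342) (nat_lit 316)) (XT.lf (nat_lit 0) (nat_lit 137263198142) (nat_lit 0) (nat_lit 0) (nat_lit 0) (nat_lit 0) (nat_lit 0) (nat_lit 0) (nat_lit 1) (nat_lit 0) (nat_lit 1) (nat_lit 0) (nat_lit 423) (nat_lit 342) (nat_lit 315))) (XT.nd (nat_lit 94) (nat_lit 0) (nat_lit 0) (XT.lf (nat_lit 0) (nat_lit 148217575013) (nat_lit 0) (nat_lit 0) (nat_lit 0) (nat_lit 0) (nat_lit 0) (nat_lit 0) (nat_lit 1) (nat_lit 0) (nat_lit 1) (nat_lit 0) (nat_lit 424) (nat_lit 342) (nat_lit 314)) (XT.lf (nat_lit 0) (nat_lit 160048685942) (nat_lit 0) (nat_lit 0) (nat_lit 0) (nat_lit 0) (nat_lit 0) (nat_lit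 0) (nat_lit 1) (nat_lit 0) (nat_lit 1) (nat_lit 0) (nat_lit 425) (nat_lit 342) (nat_lit 313)))))) (XT.nd (nat_lit 658) (nat_lit 0) (nat_lit 0) (XT.nd (nat_lit 282) (nat_lit 0) (nat_lit 0) (XT.nd (nat_lit 94) (nat_lit 0) (nat_lit 0) (XT.lf (nat_lit 0) (nat_lit 172826641215) (nat_lit 0) (nat_lit 0) (nat_lit 0) (nat_lit 0) (nat_lit 0) (nat_lit 0) (nat_lit 1) (nat_lit 0) (nat_lit 1) (nat_lit 0) (nat_lit 426) (nat_lit 342) (nat_lit 312)) (XT.nd (nat_lit 94) (nat_lit 0) (nat_lit 0) (XT.lf (nat_lit 0) (nat_lit 186627162048) (nat_lit 0) (nat_lit 0) (nat_lit 0) (nat_lit 0) (nat_lit 0) (nat_lit 0) (nat_lit 1) (nat_lit 0) (nat_lit 1) (nat_lit 0) (nat_lit 427) (nat_lit 342) (nat_lit 311)) (XT.lf (nat_lit 0) (nat_lit 201532029307) (nat_lit 0) (nat_lit 0) (nat_lit 0) (nat_lit 0) (nat_lit 0) (nat_lit 0) (nat_lit 1) (nat_lit 0) (nat_lit 1) (nat_lit 0) (nat_lit 428) (nat_lit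 342) (nat_lit 310)))) (XT.nd (nat_lit 188) (nat_lit 0) (nat_lit 0) (XT.nd (nat_lit 94) (nat_lit 0) (nat_lit 0) (XT.lf (nat_lit 0) (nat_lit 217629568129) (nat_lit 0) (nat_lit 0) (nat_lit 0) (nat_lit 0) (nat_lit 0) (nat_lit 0) (nat_lit 1) (nat_lit 0) (nat_lit 1) (nat_lit 0) (nat_lit 429) (nat_lit 342) (nat_lit 309)) (XT.lf (nat_lit 0) (nat_lit 235015171339) (nat_lit 0) (nat_lit 0) (nat_lit 0) (nat_lit 0) (nat_lit 0) (nat_lit 0) (nat_lit 1) (nat_lit 0) (nat_lit 1) (nat_lit 0) (nat_lit 430) (nat_lit 342) (nat_lit 308))) (XT.nd (nat_lit 94) (nat_lit 0) (nat_lit 0) (XT.lf (nat_lit 0) (nat_lit 253791864732) (nat_lit 0) (nat_lit 0) (nat_lit 0) (nat_lit 0) (nat_lit 0) (nat_lit 0) (nat_lit 1) (nat_lit 0) (nat_lit 1) (nat_lit 0) (nat_lit 431) (nat_lit 342) (nat_lit 307)) (XT.lf (nat_lit 0) (nat_lit 274070917603) (nat_lit 0) (nat_lit 0) (nat_lit 0) (nat_lit 0) (nat_lit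 0) (nat_lit 0) (nat_lit 1) (nat_lit 0) (nat_lit 1) (nat_lit 0) (nat_lit 432) (nat_lit 342) (nat_lit 306))))) (XT.nd (nat_lit 282) (nat_lit 0) (nat_lit 0) (XT.nd (nat_lit 94) (nat_lit 0) (nat_lit 0) (XT.lf (nat_lit 0) (nat_lit 295972502117) (nat_lit 0) (nat_lit 0) (nat_lit 0) (nat_lit 0) (nat_lit 0) (nat_lit 0) (nat_lit 1) (nat_lit 0) (nat_lit 1) (nat_lit 0) (nat_lit 433) (nat_lit 342) (nat_lit 305)) (XT.nd (nat_lit 94) (nat_lit 0) (nat_lit 0) (XT.lf (nat_lit 0) (nat_lit 319626405441) (nat_lit 0) (nat_lit 0) (nat_lit 0) (nat_lit 0) (nat_lit 0) (nat_lit 0) (nat_lit 1) (nat_lit 0) (nat_lit 1) (nat_lit 0) (nat_lit 434) (nat_lit 342) (nat_lit 304)) (XT.lf (nat_lit 0) (nat_lit 345172798855) (nat_lit 0) (nat_lit 0) (nat_lit 0) (nat_lit 0) (nat_lit 0) (nat_lit 0) (nat_lit 1) (nat_lit 0) (nat_lit 1) (nat_lit 0) (nat_lit 435) (nat_lit 342) (nat_lit 303)))) (XT.nd (nat_lit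 188) (nat_lit 0) (nat_lit 0) (XT.nd (nat_lit 94) (nat_lit 0) (nat_lit 0) (XT.lf (nat_lit 0) (nat_lit 372763068394) (nat_lit 0) (nat_lit 0) (nat_lit 0) (nat_lit 0) (nat_lit 0) (nat_lit 0) (nat_lit 1) (nat_lit 0) (nat_lit 1) (nat_lit 0) (nat_lit 436) (nat_lit 342) (nat_lit 302)) (XT.lf (nat_lit 0) (nat_lit 402560711950) (nat_lit 0) (nat_lit 0) (nat_lit 0) (nat_lit 0) (nat_lit 0) (nat_lit 0) (nat_lit 1) (nat_lit 0) (nat_lit 1) (nat_lit 0) (nat_lit 437) (nat_lit 342) (nat_lit 301))) (XT.nd (nat_lit 94) (nat_lit 0) (nat_lit 0) (XT.lf (nat_lit 0) (nat_lit 434742308153) (nat_lit 0) (nat_lit 0) (nat_lit 0) (nat_lit 0) (nat_lit 0) (nat_lit 0) (nat_lit 1) (nat_lit 0) (nat_lit 1) (nat_lit 0) (nat_lit 438) (nat_lit 342) (nat_lit 300)) (XT.lf (nat_lit 0) (nat_lit 469498562758) (nat_lit 0) (nat_lit 0) (nat_lit 0) (nat_lit 0) (nat_lit 0) (nat_lit 0) (nat_lit 1) (nat_lit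 0) (nat_lit 1) (nat_lit 0) (nat_lit 439) (nat_lit 342) (nat_lit 299))))))) (XT.nd (nat_lit 1316) (nat_lit 0) (nat_lit 0) (XT.nd (nat_lit 658) (nat_lit 0) (nat_lit 0) (XT.nd (nat_lit 282) (nat_lit 0) (nat_lit 0) (XT.nd (nat_lit 94) (nat_lit 0) (nat_lit 0) (XT.lf (nat_lit 0) (nat_lit 507035438754) (nat_lit 0) (nat_lit 0) (nat_lit 0) (nat_lit 0) (nat_lit 0) (nat_lit 0) (nat_lit 1) (nat_lit 0) (nat_lit 1) (nat_lit 0) (nat_lit 440) (nat_lit 342) (nat_lit 298)) (XT.nd (nat_lit 94) (nat_lit 0) (nat_lit 0) (XT.lf (nat_lit 0) (nat_lit 547575376890) (nat_lit 0) (nat_lit 0) (nat_lit 0) (nat_lit 0) (nat_lit 0) (nat_lit 0) (nat_lit 1) (nat_lit 0) (nat_lit 1) (nat_lit 0) (nat_lit 441) (nat_lit 342) (nat_lit 297)) (XT.lf (nat_lit 0) (nat_lit 591358613835) (nat_lit 0) (nat_lit 0) (nat_lit 0) (nat_lit 0) (nat_lit 0) (nat_lit 0) (nat_lit 1) (nat_lit 0) (nat_lit 1) (nat_lit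 0) (nat_lit 442) (nat_lit 342) (nat_lit 296)))) (XT.nd (nat_lit 188) (nat_lit 0) (nat_lit 0) (XT.nd (nat_lit 94) (nat_lit 0) (nat_lit 0) (XT.lf (nat_lit 0) (nat_lit 638644605807) (nat_lit 0) (nat_lit 0) (nat_lit 0) (nat_lit 0) (nat_lit 0) (nat_lit 0) (nat_lit 1) (nat_lit 0) (nat_lit 1) (nat_lit 0) (nat_lit 443) (nat_lit 342) (nat_lit 295)) (XT.lf (nat_lit 0) (nat_lit 689713566094) (nat_lit 0) (nat_lit 0) (nat_lit 0) (nat_lit 0) (nat_lit 0) (nat_lit 0) (nat_lit 1) (nat_lit 0) (nat_lit 1) (nat_lit 0) (nat_lit 444) (nat_lit 342) (nat_lit 294))) (XT.nd (nat_lit 94) (nat_lit 0) (nat_lit 0) (XT.lf (nat_lit 0) (nat_lit 744868125570) (nat_lit 0) (nat_lit 0) (nat_lit 0) (nat_lit 0) (nat_lit 0) (nat_lit 0) (nat_lit 1) (nat_lit 0) (nat_lit 1) (nat_lit 0) (nat_lit 445) (nat_lit 342) (nat_lit 293)) (XT.lf (nat_lit 0) (nat_lit 804435126070) (nat_lit 0) (nat_lit 0) (nat_lit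 0) (nat_lit 0) (nat_lit 0) (nat_lit 0) (nat_lit 1) (nat_lit 0) (nat_lit 1) (nat_lit 0) (nat_lit 446) (nat_lit 342) (nat_lit 292))))) (XT.nd (nat_lit 282) (nat_lit 0) (nat_lit 0) (XT.nd (nat_lit 94) (nat_lit 0) (nat_lit 0) (XT.lf (nat_lit 0) (nat_lit 868767557225) (nat_lit 0) (nat_lit 0) (nat_lit 0) (nat_lit 0) (nat_lit 0) (nat_lit 0) (nat_lit 1) (nat_lit 0) (nat_lit 1) (nat_lit 0) (nat_lit 447) (nat_lit 342) (nat_lit 291)) (XT.nd (nat_lit 94) (nat_lit 0) (nat_lit 0) (XT.lf (nat_lit 0) (nat_lit 938246648259) (nat_lit 0) (nat_lit 0) (nat_lit 0) (nat_lit 0) (nat_lit 0) (nat_lit 0) (nat_lit 1) (nat_lit 0) (nat_lit 1) (nat_lit 0) (nat_lit 448) (nat_lit 342) (nat_lit 290)) (XT.lf (nat_lit 0) (nat_lit 1013284127117) (nat_lit 0) (nat_lit 0) (nat_lit 0) (nat_lit 0) (nat_lit 0) (nat_lit 0) (nat_lit 1) (nat_lit 0) (nat_lit 1) (nat_lit 0) (nat_lit 449) (nat_lit 342) (nat_lit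 289)))) (XT.nd (nat_lit 188) (nat_lit 0) (nat_lit 0) (XT.nd (nat_lit 94) (nat_lit 0) (nat_lit 0) (XT.lf (nat_lit 0) (nat_lit 1094324660341) (nat_lit 0) (nat_lit 0) (nat_lit 0) (nat_lit 0) (nat_lit 0) (nat_lit 0) (nat_lit 1) (nat_lit 0) (nat_lit 1) (nat_lit 0) (nat_lit 450) (nat_lit 342) (nat_lit 288)) (XT.lf (nat_lit 0) (nat_lit 1181848488129) (nat_lit 0) (nat_lit 0) (nat_lit 0) (nat_lit 0) (nat_lit 0) (nat_lit 0) (nat_lit 1) (nat_lit 0) (nat_lit 1) (nat_lit 0) (nat_lit 451) (nat_lit 342) (nat_lit 287))) (XT.nd (nat_lit 94) (nat_lit 0) (nat_lit 0) (XT.lf (nat_lit 0) (nat_lit 1276374270199) (nat_lit 0) (nat_lit 0) (nat_lit 0) (nat_lit 0) (nat_lit 0) (nat_lit 0) (nat_lit 1) (nat_lit 0) (nat_lit 1) (nat_lit 0) (nat_lit 452) (nat_lit 342) (nat_lit 286)) (XT.lf (nat_lit 0) (nat_lit 1378462159335) (nat_lit 0) (nat_lit 0) (nat_lit 0) (nat_lit 0) (nat_lit 0) (nat_lit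 0) (nat_lit 1) (nat_lit 0) (nat_lit 1) (nat_lit 0) (nat_lit 453) (nat_lit 342) (nat_lit 285)))))) (XT.nd (nat_lit 658) (nat_lit 0) (nat_lit 0) (XT.nd (nat_lit 282) (nat_lit 0) (nat_lit 0) (XT.nd (nat_lit 94) (nat_lit 0) (nat_lit 0) (XT.lf (nat_lit 0) (nat_lit 1488717120806) (nat_lit 0) (nat_lit 0) (nat_lit 0) (nat_lit 0) (nat_lit 0) (nat_lit 0) (nat_lit 1) (nat_lit 0) (nat_lit 1) (nat_lit 0) (nat_lit 454) (nat_lit 342) (nat_lit 284)) (XT.nd (nat_lit 94) (nat_lit 0) (nat_lit 0) (XT.lf (nat_lit 0) (nat_lit 1607792517346) (nat_lit 0) (nat_lit 0) (nat_lit 0) (nat_lit 0) (nat_lit 0) (nat_lit 0) (nat_lit 1) (nat_lit 0) (nat_lit 1) (nat_lit 0) (nat_lit 455) (nat_lit 342) (nat_lit 283)) (XT.lf (nat_lit 0) (nat_lit 1736393980935) (nat_lit 0) (nat_lit 0) (nat_lit 0) (nat_lit 0) (nat_lit 0) (nat_lit 0) (nat_lit 1) (nat_lit 0) (nat_lit 1) (nat_lit 0) (nat_lit 456) (nat_lit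 342) (nat_lit 282)))) (XT.nd (nat_lit 188) (nat_lit 0) (nat_lit 0) (XT.nd (nat_lit 94) (nat_lit 0) (nat_lit 0) (XT.lf (nat_lit 0) (nat_lit 1875283594320) (nat_lit 0) (nat_lit 0) (nat_lit 0) (nat_lit 0) (nat_lit 0) (nat_lit 0) (nat_lit 1) (nat_lit 0) (nat_lit 1) (nat_lit 0) (nat_lit 457) (nat_lit 342) (nat_lit 281)) (XT.lf (nat_lit 0) (nat_lit 2025284407062) (nat_lit 0) (nat_lit 0) (nat_lit 0) (nat_lit 0) (nat_lit 0) (nat_lit 0) (nat_lit 1) (nat_lit 0) (nat_lit 1) (nat_lit 0) (nat_lit 458) (nat_lit 342) (nat_lit 280))) (XT.nd (nat_lit 94) (nat_lit 0) (nat_lit 0) (XT.lf (nat_lit 0) (nat_lit 2187285312866) (nat_lit 0) (nat_lit 0) (nat_lit 0) (nat_lit 0) (nat_lit 0) (nat_lit 0) (nat_lit 1) (nat_lit 0) (nat_lit 1) (nat_lit 0) (nat_lit 459) (nat_lit 342) (nat_lit 279)) (XT.lf (nat_lit 0) (nat_lit 2362246317100) (nat_lit 0) (nat_lit 0) (nat_lit 0) (nat_lit 0) (nat_lit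 0) (nat_lit 0) (nat_lit 1) (nat_lit 0) (nat_lit 1) (nat_lit 0) (nat_lit 460) (nat_lit 342) (nat_lit 278))))) (XT.nd (nat_lit 376) (nat_lit 0) (nat_lit 0) (XT.nd (nat_lit 188) (nat_lit 0) (nat_lit 0) (XT.nd (nat_lit 94) (nat_lit 0) (nat_lit 0) (XT.lf (nat_lit 0) (nat_lit 2551204225715) (nat_lit 0) (nat_lit 0) (nat_lit 0) (nat_lit 0) (nat_lit 0) (nat_lit 0) (nat_lit 1) (nat_lit 0) (nat_lit 1) (nat_lit 0) (nat_lit 461) (nat_lit 342) (nat_lit 277)) (XT.lf (nat_lit 0) (nat_lit 2755278789279) (nat_lit 0) (nat_lit 0) (nat_lit 0) (nat_lit 0) (nat_lit 0) (nat_lit 0) (nat_lit 1) (nat_lit 0) (nat_lit 1) (nat_lit 0) (nat_lit 462) (nat_lit 342) (nat_lit 276))) (XT.nd (nat_lit 94) (nat_lit 0) (nat_lit 0) (XT.lf (nat_lit 0) (nat_lit 2975679338542) (nat_lit 0) (nat_lit 0) (nat_lit 0) (nat_lit 0) (nat_lit 0) (nat_lit 0) (nat_lit 1) (nat_lit 0) (nat_lit 1) (nat_lit 0) (nat_lit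 463) (nat_lit 342) (nat_lit 275)) (XT.lf (nat_lit 0) (nat_lit 3213711950830) (nat_lit 0) (nat_lit 0) (nat_lit 0) (nat_lit 0) (nat_lit 0) (nat_lit 0) (nat_lit 1) (nat_lit 0) (nat_lit 1) (nat_lit 0) (nat_lit 464) (nat_lit 342) (nat_lit 274)))) (XT.nd (nat_lit 188) (nat_lit 0) (nat_lit 0) (XT.nd (nat_lit 94) (nat_lit 0) (nat_lit 0) (XT.lf (nat_lit 0) (nat_lit 3470787189773) (nat_lit 0) (nat_lit 0) (nat_lit 0) (nat_lit 0) (nat_lit 0) (nat_lit 0) (nat_lit 1) (nat_lit 0) (nat_lit 1) (nat_lit 0) (nat_lit 465) (nat_lit 342) (nat_lit 273)) (XT.lf (nat_lit 0) (nat_lit 3748428464195) (nat_lit 0) (nat_lit 0) (nat_lit 0) (nat_lit 0) (nat_lit 0) (nat_lit 0) (nat_lit 1) (nat_lit 0) (nat_lit 1) (nat_lit 0) (nat_lit 466) (nat_lit 342) (nat_lit 272))) (XT.nd (nat_lit 94) (nat_lit 0) (nat_lit 0) (XT.lf (nat_lit 0) (nat_lit 4048281055720) (nat_lit 0) (nat_lit 0) (nat_lit 0) (nat_lit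 0) (nat_lit 0) (nat_lit 0) (nat_lit 1) (nat_lit 0) (nat_lit 1) (nat_lit 0) (nat_lit 467) (nat_lit 342) (nat_lit 271)) (XT.lf (nat_lit 0) (nat_lit 4372121868596) (nat_lit 0) (nat_lit 0) (nat_lit 0) (nat_lit 0) (nat_lit 0) (nat_lit 0) (nat_lit 1) (nat_lit 0) (nat_lit 1) (nat_lit 0) (nat_lit 468) (nat_lit 342) (nat_lit 270))))))))
noncomputable def xc51 : XT := (XT.nd (nat_lit 2632) (nat_lit 0) (nat_lit 0) (XT.nd (nat_lit 1316) (nat_lit 0) (nat_lit 0) (XT.nd (nat_lit 658) (nat_lit 0) (nat_lit 0) (XT.nd (nat_lit 282) (nat_lit 0) (nat_lit 0) (XT.nd (nat_lit 94) (nat_lit 0) (nat_lit 0) (XT.lf (nat_lit 0) (nat_lit 4721869959491) (nat_lit 0) (nat_lit 0) (nat_lit 0) (nat_lit 0) (nat_lit 0) (nat_lit 0) (nat_lit 1) (nat_lit 0) (nat_lit 1) (nat_lit 0) (nat_lit 469) (nat_lit 342) (nat_lit 269)) (XT.nd (nat_lit 94) (nat_lit 0) (nat_lit 0) (XT.lf (nat_lit 0) (nat_lit 5099597909685)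 (nat_lit 0) (nat_lit 0) (nat_lit 0) (nat_lit 0) (nat_lit 0) (nat_lit 0) (nat_lit 1) (nat_lit 0) (nat_lit 1) (nat_lit 0) (nat_lit 470) (nat_lit 342) (nat_lit 268)) (XT.lf (nat_lit 0) (nat_lit 5507544107031) (nat_lit 0) (nat_lit 0) (nat_lit 0) (nat_lit 0) (nat_lit 0) (nat_lit 0) (nat_lit 1) (nat_lit 0) (nat_lit 1) (nat_lit 0) (nat_lit 471) (nat_lit 342) (nat_lit 267)))) (XT.nd (nat_lit 188) (nat_lit 0) (nat_lit 0) (XT.nd (nat_lit 94) (nat_lit 0) (nat_lit 0) (XT.lf (nat_lit 0) (nat_lit 5948126010475) (nat_lit 0) (nat_lit 0) (nat_lit 0) (nat_lit 0) (nat_lit 0) (nat_lit 0) (nat_lit 1) (nat_lit 0) (nat_lit 1) (nat_lit 0) (nat_lit 472) (nat_lit 342) (nat_lit 266)) (XT.lf (nat_lit 0) (nat_lit 6423954475742) (nat_lit 0) (nat_lit 0) (nat_lit 0) (nat_lit 0) (nat_lit 0) (nat_lit 0) (nat_lit 1) (nat_lit 0) (nat_lit 1) (nat_lit 0) (nat_lit 473) (nat_lit 342) (nat_lit 265)))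 (XT.nd (nat_lit 94) (nat_lit 0) (nat_lit 0) (XT.lf (nat_lit 0) (nat_lit 6937849227071) (nat_lit 0) (nat_lit 0) (nat_lit 0) (nat_lit 0) (nat_lit 0) (nat_lit 0) (nat_lit 1) (nat_lit 0) (nat_lit 1) (nat_lit 0) (nat_lit 474) (nat_lit 342) (nat_lit 264)) (XT.lf (nat_lit 0) (nat_lit 7492855566692) (nat_lit 0) (nat_lit 0) (nat_lit 0) (nat_lit 0) (nat_lit 0) (nat_lit 0) (nat_lit 1) (nat_lit 0) (nat_lit 1) (nat_lit 0) (nat_lit 475) (nat_lit 342) (nat_lit 263))))) (XT.nd (nat_lit 282) (nat_lit 0) (nat_lit 0) (XT.nd (nat_lit 94) (nat_lit 0) (nat_lit 0) (XT.lf (nat_lit 0) (nat_lit 8092262421061) (nat_lit 0) (nat_lit 0) (nat_lit 0) (nat_lit 0) (nat_lit 0) (nat_lit 0) (nat_lit 1) (nat_lit 0) (nat_lit 1) (nat_lit 0) (nat_lit 476) (nat_lit 342) (nat_lit 262)) (XT.nd (nat_lit 94) (nat_lit 0) (nat_lit 0) (XT.lf (nat_lit 0) (nat_lit 8739621830797) (nat_lit 0) (nat_lit 0) (nat_lit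 0) (nat_lit 0) (nat_lit 0) (nat_lit 0) (nat_lit 1) (nat_lit 0) (nat_lit 1) (nat_lit 0) (nat_lit 477) (nat_lit 342) (nat_lit 261)) (XT.lf (nat_lit 0) (nat_lit 9438769999811) (nat_lit 0) (nat_lit 0) (nat_lit 0) (nat_lit 0) (nat_lit 0) (nat_lit 0) (nat_lit 1) (nat_lit 0) (nat_lit 1) (nat_lit 0) (nat_lit 478) (nat_lit 342) (nat_lit 260)))) (XT.nd (nat_lit 188) (nat_lit 0) (nat_lit 0) (XT.nd (nat_lit 94) (nat_lit 0) (nat_lit 0) (XT.lf (nat_lit 0) (nat_lit 10193850028361) (nat_lit 0) (nat_lit 0) (nat_lit 0) (nat_lit 0) (nat_lit 0) (nat_lit 0) (nat_lit 1) (nat_lit 0) (nat_lit 1) (nat_lit 0) (nat_lit 479) (nat_lit 342) (nat_lit 259)) (XT.lf (nat_lit 0) (nat_lit 11009336464767) (nat_lit 0) (nat_lit 0) (nat_lit 0) (nat_lit 0) (nat_lit 0) (nat_lit 0) (nat_lit 1) (nat_lit 0) (nat_lit 1) (nat_lit 0) (nat_lit 480) (nat_lit 342) (nat_lit 258))) (XT.nd (nat_lit 94) (nat_lit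 0) (nat_lit 0) (XT.lf (nat_lit 0) (nat_lit 11890061821243) (nat_lit 0) (nat_lit 0) (nat_lit 0) (nat_lit 0) (nat_lit 0) (nat_lit 0) (nat_lit 1) (nat_lit 0) (nat_lit 1) (nat_lit 0) (nat_lit 481) (nat_lit 342) (nat_lit 257)) (XT.lf (nat_lit 0) (nat_lit 12841245211014) (nat_lit 0) (nat_lit 0) (nat_lit 0) (nat_lit 0) (nat_lit 0) (nat_lit 0) (nat_lit 1) (nat_lit 0) (nat_lit 1) (nat_lit 0) (nat_lit 482) (nat_lit 342) (nat_lit 256)))))) (XT.nd (nat_lit 658) (nat_lit 0) (nat_lit 0) (XT.nd (nat_lit 282) (nat_lit 0) (nat_lit 0) (XT.nd (nat_lit 94) (nat_lit 0) (nat_lit 0) (XT.lf (nat_lit 0) (nat_lit 13868523276388) (nat_lit 0) (nat_lit 0) (nat_lit 0) (nat_lit 0) (nat_lit 0) (nat_lit 0) (nat_lit 1) (nat_lit 0) (nat_lit 1) (nat_lit 0) (nat_lit 483) (nat_lit 342) (nat_lit 255)) (XT.nd (nat_lit 94) (nat_lit 0) (nat_lit 0) (XT.lf (nat_lit 0) (nat_lit 14977983591087) (nat_lit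 0) (nat_lit 0) (nat_lit 0) (nat_lit 0) (nat_lit 0) (nat_lit 0) (nat_lit 1) (nat_lit 0) (nat_lit 1) (nat_lit 0) (nat_lit 484) (nat_lit 342) (nat_lit 254)) (XT.lf (nat_lit 0) (nat_lit 16176200734753) (nat_lit 0) (nat_lit 0) (nat_lit 0) (nat_lit 0) (nat_lit 0) (nat_lit 0) (nat_lit 1) (nat_lit 0) (nat_lit 1) (nat_lit 0) (nat_lit 485) (nat_lit 342) (nat_lit 253)))) (XT.nd (nat_lit 188) (nat_lit 0) (nat_lit 0) (XT.nd (nat_lit 94) (nat_lit 0) (nat_lit 0) (XT.lf (nat_lit 0) (nat_lit 17470275253424) (nat_lit 0) (nat_lit 0) (nat_lit 0) (nat_lit 0) (nat_lit 0) (nat_lit 0) (nat_lit 1) (nat_lit 0) (nat_lit 1) (nat_lit 0) (nat_lit 486) (nat_lit 342) (nat_lit 252)) (XT.lf (nat_lit 0) (nat_lit 18867875736838) (nat_lit 0) (nat_lit 0) (nat_lit 0) (nat_lit 0) (nat_lit 0) (nat_lit 0) (nat_lit 1) (nat_lit 0) (nat_lit 1) (nat_lit 0) (nat_lit 487) (nat_lit 342) (nat_lit 251))) (XT.nd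 (nat_lit 94) (nat_lit 0) (nat_lit 0) (XT.lf (nat_lit 0) (nat_lit 20377284261935) (nat_lit 0) (nat_lit 0) (nat_lit 0) (nat_lit 0) (nat_lit 0) (nat_lit 0) (nat_lit 1) (nat_lit 0) (nat_lit 1) (nat_lit 0) (nat_lit 488) (nat_lit 342) (nat_lit 250)) (XT.lf (nat_lit 0) (nat_lit 22007445471827) (nat_lit 0) (nat_lit 0) (nat_lit 0) (nat_lit 0) (nat_lit 0) (nat_lit 0) (nat_lit 1) (nat_lit 0) (nat_lit 1) (nat_lit 0) (nat_lit 489) (nat_lit 342) (nat_lit 249))))) (XT.nd (nat_lit 282) (nat_lit 0) (nat_lit 0) (XT.nd (nat_lit 94) (nat_lit 0) (nat_lit 0) (XT.lf (nat_lit 0) (nat_lit 23768019581091) (nat_lit 0) (nat_lit 0) (nat_lit 0) (nat_lit 0) (nat_lit 0) (nat_lit 0) (nat_lit 1) (nat_lit 0) (nat_lit 1) (nat_lit 0) (nat_lit 490) (nat_lit 342) (nat_lit 248)) (XT.nd (nat_lit 94) (nat_lit 0) (nat_lit 0) (XT.lf (nat_lit 0) (nat_lit 25669439621485) (nat_lit 0) (nat_lit 0) (nat_lit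 0) (nat_lit 0) (nat_lit 0) (nat_lit 0) (nat_lit 1) (nat_lit 0) (nat_lit 1) (nat_lit 0) (nat_lit 491) (nat_lit 342) (nat_lit 247)) (XT.lf (nat_lit 0) (nat_lit 27722973267323) (nat_lit 0) (nat_lit 0) (nat_lit 0) (nat_lit 0) (nat_lit 0) (nat_lit 0) (nat_lit 1) (nat_lit 0) (nat_lit 1) (nat_lit 0) (nat_lit 492) (nat_lit 342) (nat_lit 246)))) (XT.nd (nat_lit 188) (nat_lit 0) (nat_lit 0) (XT.nd (nat_lit 94) (nat_lit 0) (nat_lit 0) (XT.lf (nat_lit 0) (nat_lit 29940789606876) (nat_lit 0) (nat_lit 0) (nat_lit 0) (nat_lit 0) (nat_lit 0) (nat_lit 0) (nat_lit 1) (nat_lit 0) (nat_lit 1) (nat_lit 0) (nat_lit 493) (nat_lit 342) (nat_lit 245)) (XT.lf (nat_lit 0) (nat_lit 32336031255490) (nat_lit 0) (nat_lit 0) (nat_lit 0) (nat_lit 0) (nat_lit 0) (nat_lit 0) (nat_lit 1) (nat_lit 0) (nat_lit 1) (nat_lit 0) (nat_lit 494) (nat_lit 342) (nat_lit 244))) (XT.nd (nat_lit 94) (nat_lit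 0) (nat_lit 0) (XT.lf (nat_lit 0) (nat_lit 34922892237749) (nat_lit 0) (nat_lit 0) (nat_lit 0) (nat_lit 0) (nat_lit 0) (nat_lit 0) (nat_lit 1) (nat_lit 0) (nat_lit 1) (nat_lit 0) (nat_lit 495) (nat_lit 342) (nat_lit 243)) (XT.lf (nat_lit 0) (nat_lit 37716702100215) (nat_lit 0) (nat_lit 0) (nat_lit 0) (nat_lit 0) (nat_lit 0) (nat_lit 0) (nat_lit 1) (nat_lit 0) (nat_lit 1) (nat_lit 0) (nat_lit 496) (nat_lit 342) (nat_lit 242))))))) (XT.nd (nat_lit 59314) (nat_lit 0) (nat_lit 0) (XT.nd (nat_lit 58656) (nat_lit 0) (nat_lit 0) (XT.nd (nat_lit 58280) (nat_lit 0) (nat_lit 1092) (XT.nd (nat_lit 58092) (nat_lit 0) (nat_lit 1932) (XT.lf (nat_lit 0) (nat_lit 40734016753184) (nat_lit 0) (nat_lit 0) (nat_lit 0) (nat_lit 0) (nat_lit 0) (nat_lit 0) (nat_lit 1) (nat_lit 0) (nat_lit 1) (nat_lit 0) (nat_lit 497) (nat_lit 342) (nat_lit 241)) (XT.nd (nat_lit 94) (nat_lit 84)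 (nat_lit 0) (XT.lf (nat_lit 0) (nat_lit 1629017393) (nat_lit 168) (nat_lit 4346941062) (nat_lit 0) (nat_lit 1629017393) (nat_lit 24) (nat_lit 5) (nat_lit 26) (nat_lit 4) (nat_lit 24) (nat_lit 4) (nat_lit 394) (nat_lit 343) (nat_lit 343)) (XT.lf (nat_lit 0) (nat_lit 15255552482) (nat_lit 84) (nat_lit 488512920) (nat_lit 84) (nat_lit 47603956) (nat_lit 23) (nat_lit 4) (nat_lit 24) (nat_lit 5) (nat_lit 24) (nat_lit 4) (nat_lit 395) (nat_lit 343) (nat_lit 342)))) (XT.nd (nat_lit 188) (nat_lit 420) (nat_lit 0) (XT.nd (nat_lit 94) (nat_lit 168) (nat_lit 0) (XT.lf (nat_lit 0) (nat_lit 8011402229) (nat_lit 84) (nat_lit 4598355587) (nat_lit 84) (nat_lit 3789633677) (nat_lit 20) (nat_lit 4) (nat_lit 21) (nat_lit 5) (nat_lit 21) (nat_lit 4) (nat_lit 396) (nat_lit 343) (nat_lit 341)) (XT.lf (nat_lit 0) (nat_lit 8979301663) (nat_lit 168) (nat_lit 200359496) (nat_lit 0)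 (nat_lit 7866225584) (nat_lit 18) (nat_lit 5) (nat_lit 20) (nat_lit 4) (nat_lit 18) (nat_lit 4) (nat_lit 397) (nat_lit 343) (nat_lit 340))) (XT.nd (nat_lit 94) (nat_lit 168) (nat_lit 0) (XT.lf (nat_lit 0) (nat_lit 4939253026) (nat_lit 168) (nat_lit 9211091162) (nat_lit 0) (nat_lit 3576830714) (nat_lit 15) (nat_lit 5) (nat_lit 17) (nat_lit 4) (nat_lit 15) (nat_lit 4) (nat_lit 398) (nat_lit 343) (nat_lit 339)) (XT.lf (nat_lit 0) (nat_lit 343491970) (nat_lit 168) (nat_lit 938217341) (nat_lit 84) (nat_lit 17169212639) (nat_lit 13) (nat_lit 5) (nat_lit 15) (nat_lit 5) (nat_lit 14) (nat_lit 4) (nat_lit 399) (nat_lit 343) (nat_lit 338))))) (XT.nd (nat_lit 282) (nat_lit 504) (nat_lit 0) (XT.nd (nat_lit 94) (nat_lit 420) (nat_lit 0) (XT.lf (nat_lit 0) (nat_lit 7717028237) (nat_lit 84) (nat_lit 6650788768) (nat_lit 84) (nat_lit 4839748625) (nat_lit 11) (nat_lit 4) (nat_lit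 12) (nat_lit 5) (nat_lit 12) (nat_lit 4) (nat_lit 400) (nat_lit 343) (nat_lit 337)) (XT.nd (nat_lit 94) (nat_lit 252) (nat_lit 0) (XT.lf (nat_lit 0) (nat_lit 9319001614) (nat_lit 168) (nat_lit 3315162048) (nat_lit 0) (nat_lit 7376500740) (nat_lit 9) (nat_lit 5) (nat_lit 11) (nat_lit 4) (nat_lit 9) (nat_lit 4) (nat_lit 401) (nat_lit 343) (nat_lit 336)) (XT.lf (nat_lit 0) (nat_lit 3677687790) (nat_lit 168) (nat_lit 15546610726) (nat_lit 0) (nat_lit 1635710999) (nat_lit 6) (nat_lit 5) (nat_lit 8) (nat_lit 4) (nat_lit 6) (nat_lit 4) (nat_lit 402) (nat_lit 343) (nat_lit 335)))) (XT.nd (nat_lit 188) (nat_lit 168) (nat_lit 0) (XT.nd (nat_lit 94) (nat_lit 252) (nat_lit 0) (XT.lf (nat_lit 0) (nat_lit 14254490173) (nat_lit 84) (nat_lit 4859588458) (nat_lit 84) (nat_lit 2639856149) (nat_lit 5) (nat_lit 4) (nat_lit 6) (nat_lit 5) (nat_lit 6) (nat_lit 4) (nat_lit 403)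 (nat_lit 343) (nat_lit 334)) (XT.lf (nat_lit 0) (nat_lit 769677624) (nat_lit 84) (nat_lit 12099602451) (nat_lit 84) (nat_lit 9828820783) (nat_lit 2) (nat_lit 4) (nat_lit 3) (nat_lit 5) (nat_lit 3) (nat_lit 4) (nat_lit 404) (nat_lit 343) (nat_lit 333))) (XT.nd (nat_lit 94) (nat_lit 0) (nat_lit 0) (XT.lf (nat_lit 0) (nat_lit 34688982037) (nat_lit 0) (nat_lit 0) (nat_lit 0) (nat_lit 0) (nat_lit 0) (nat_lit 0) (nat_lit 1) (nat_lit 0) (nat_lit 1) (nat_lit 0) (nat_lit 405) (nat_lit 343) (nat_lit 332)) (XT.lf (nat_lit 0) (nat_lit 37421708398) (nat_lit 0) (nat_lit 0) (nat_lit 0) (nat_lit 0) (nat_lit 0) (nat_lit 0) (nat_lit 1) (nat_lit 0) (nat_lit 1) (nat_lit 0) (nat_lit 406) (nat_lit 343) (nat_lit 331)))))) (XT.nd (nat_lit 658) (nat_lit 0) (nat_lit 0) (XT.nd (nat_lit 282) (nat_lit 0) (nat_lit 0) (XT.nd (nat_lit 94) (nat_lit 0) (nat_lit 0) (XT.lf (nat_lit 0) (nat_lit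 40374473332) (nat_lit 0) (nat_lit 0) (nat_lit 0) (nat_lit 0) (nat_lit 0) (nat_lit 0) (nat_lit 1) (nat_lit 0) (nat_lit 1) (nat_lit 0) (nat_lit 407) (nat_lit 343) (nat_lit 330)) (XT.nd (nat_lit 94) (nat_lit 0) (nat_lit 0) (XT.lf (nat_lit 0) (nat_lit 43564774706) (nat_lit 0) (nat_lit 0) (nat_lit 0) (nat_lit 0) (nat_lit 0) (nat_lit 0) (nat_lit 1) (nat_lit 0) (nat_lit 1) (nat_lit 0) (nat_lit 408) (nat_lit 343) (nat_lit 329)) (XT.lf (nat_lit 0) (nat_lit 47011518010) (nat_lit 0) (nat_lit 0) (nat_lit 0) (nat_lit 0) (nat_lit 0) (nat_lit 0) (nat_lit 1) (nat_lit 0) (nat_lit 1) (nat_lit 0) (nat_lit 409) (nat_lit 343) (nat_lit 328)))) (XT.nd (nat_lit 188) (nat_lit 0) (nat_lit 0) (XT.nd (nat_lit 94) (nat_lit 0) (nat_lit 0) (XT.lf (nat_lit 0) (nat_lit 50735128389) (nat_lit 0) (nat_lit 0) (nat_lit 0) (nat_lit 0) (nat_lit 0) (nat_lit 0) (nat_lit 1) (nat_lit 0) (nat_lit 1)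 (nat_lit 0) (nat_lit 410) (nat_lit 343) (nat_lit 327)) (XT.lf (nat_lit 0) (nat_lit 54757671682) (nat_lit 0) (nat_lit 0) (nat_lit 0) (nat_lit 0) (nat_lit 0) (nat_lit 0) (nat_lit 1) (nat_lit 0) (nat_lit 1) (nat_lit 0) (nat_lit 411) (nat_lit 343) (nat_lit 326))) (XT.nd (nat_lit 94) (nat_lit 0) (nat_lit 0) (XT.lf (nat_lit 0) (nat_lit 59102985184) (nat_lit 0) (nat_lit 0) (nat_lit 0) (nat_lit 0) (nat_lit 0) (nat_lit 0) (nat_lit 1) (nat_lit 0) (nat_lit 1) (nat_lit 0) (nat_lit 412) (nat_lit 343) (nat_lit 325)) (XT.lf (nat_lit 0) (nat_lit 63796818899) (nat_lit 0) (nat_lit 0) (nat_lit 0) (nat_lit 0) (nat_lit 0) (nat_lit 0) (nat_lit 1) (nat_lit 0) (nat_lit 1) (nat_lit 0) (nat_lit 413) (nat_lit 343) (nat_lit 324))))) (XT.nd (nat_lit 376) (nat_lit 0) (nat_lit 0) (XT.nd (nat_lit 188) (nat_lit 0) (nat_lit 0) (XT.nd (nat_lit 94) (nat_lit 0) (nat_lit 0) (XT.lf (nat_lit 0)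 (nat_lit 68866988139) (nat_lit 0) (nat_lit 0) (nat_lit 0) (nat_lit 0) (nat_lit 0) (nat_lit 0) (nat_lit 1) (nat_lit 0) (nat_lit 1) (nat_lit 0) (nat_lit 414) (nat_lit 343) (nat_lit 323)) (XT.lf (nat_lit 0) (nat_lit 74343538352) (nat_lit 0) (nat_lit 0) (nat_lit 0) (nat_lit 0) (nat_lit 0) (nat_lit 0) (nat_lit 1) (nat_lit 0) (nat_lit 1) (nat_lit 0) (nat_lit 415) (nat_lit 343) (nat_lit 322))) (XT.nd (nat_lit 94) (nat_lit 0) (nat_lit 0) (XT.lf (nat_lit 0) (nat_lit 80258923167) (nat_lit 0) (nat_lit 0) (nat_lit 0) (nat_lit 0) (nat_lit 0) (nat_lit 0) (nat_lit 1) (nat_lit 0) (nat_lit 1) (nat_lit 0) (nat_lit 416) (nat_lit 343) (nat_lit 321)) (XT.lf (nat_lit 0) (nat_lit 86648196718) (nat_lit 0) (nat_lit 0) (nat_lit 0) (nat_lit 0) (nat_lit 0) (nat_lit 0) (nat_lit 1) (nat_lit 0) (nat_lit 1) (nat_lit 0) (nat_lit 417) (nat_lit 343) (nat_lit 320)))) (XT.nd (nat_lit 188) (nat_lit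 0) (nat_lit 0) (XT.nd (nat_lit 94) (nat_lit 0) (nat_lit 0) (XT.lf (nat_lit 0) (nat_lit 93549221366) (nat_lit 0) (nat_lit 0) (nat_lit 0) (nat_lit 0) (nat_lit 0) (nat_lit 0) (nat_lit 1) (nat_lit 0) (nat_lit 1) (nat_lit 0) (nat_lit 418) (nat_lit 343) (nat_lit 319)) (XT.lf (nat_lit 0) (nat_lit 101002892073) (nat_lit 0) (nat_lit 0) (nat_lit 0) (nat_lit 0) (nat_lit 0) (nat_lit 0) (nat_lit 1) (nat_lit 0) (nat_lit 1) (nat_lit 0) (nat_lit 419) (nat_lit 343) (nat_lit 318))) (XT.nd (nat_lit 94) (nat_lit 0) (nat_lit 0) (XT.lf (nat_lit 0) (nat_lit 109053378737) (nat_lit 0) (nat_lit 0) (nat_lit 0) (nat_lit 0) (nat_lit 0) (nat_lit 0) (nat_lit 1) (nat_lit 0) (nat_lit 1) (nat_lit 0) (nat_lit 420) (nat_lit 343) (nat_lit 317)) (XT.lf (nat_lit 0) (nat_lit 117748387948) (nat_lit 0) (nat_lit 0) (nat_lit 0) (nat_lit 0) (nat_lit 0) (nat_lit 0) (nat_lit 1) (nat_lit 0) (nat_lit 1)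 (nat_lit 0) (nat_lit 421) (nat_lit 343) (nat_lit 316))))))))
noncomputable def xc52 : XT := (XT.nd (nat_lit 2632) (nat_lit 0) (nat_lit 0) (XT.nd (nat_lit 1316) (nat_lit 0) (nat_lit 0) (XT.nd (nat_lit 658) (nat_lit 0) (nat_lit 0) (XT.nd (nat_lit 282) (nat_lit 0) (nat_lit 0) (XT.nd (nat_lit 94) (nat_lit 0) (nat_lit 0) (XT.lf (nat_lit 0) (nat_lit 127139445685) (nat_lit 0) (nat_lit 0) (nat_lit 0) (nat_lit 0) (nat_lit 0) (nat_lit 0) (nat_lit 1) (nat_lit 0) (nat_lit 1) (nat_lit 0) (nat_lit 422) (nat_lit 343) (nat_lit 315)) (XT.nd (nat_lit 94) (nat_lit 0) (nat_lit 0) (XT.lf (nat_lit 0) (nat_lit 137282202662) (nat_lit 0) (nat_lit 0) (nat_lit 0) (nat_lit 0) (nat_lit 0) (nat_lit 0) (nat_lit 1) (nat_lit 0) (nat_lit 1) (nat_lit 0) (nat_lit 423) (nat_lit 343) (nat_lit 314)) (XT.lf (nat_lit 0) (nat_lit 148236764104) (nat_lit 0) (nat_lit 0) (nat_lit 0) (nat_lit 0) (nat_lit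 0) (nat_lit 0) (nat_lit 1) (nat_lit 0) (nat_lit 1) (nat_lit 0) (nat_lit 424) (nat_lit 343) (nat_lit 313)))) (XT.nd (nat_lit 188) (nat_lit 0) (nat_lit 0) (XT.nd (nat_lit 94) (nat_lit 0) (nat_lit 0) (XT.lf (nat_lit 0) (nat_lit 160068045932) (nat_lit 0) (nat_lit 0) (nat_lit 0) (nat_lit 0) (nat_lit 0) (nat_lit 0) (nat_lit 1) (nat_lit 0) (nat_lit 1) (nat_lit 0) (nat_lit 425) (nat_lit 343) (nat_lit 312)) (XT.lf (nat_lit 0) (nat_lit 172846159445) (nat_lit 0) (nat_lit 0) (nat_lit 0) (nat_lit 0) (nat_lit 0) (nat_lit 0) (nat_lit 1) (nat_lit 0) (nat_lit 1) (nat_lit 0) (nat_lit 426) (nat_lit 343) (nat_lit 311))) (XT.nd (nat_lit 94) (nat_lit 0) (nat_lit 0) (XT.lf (nat_lit 0) (nat_lit 186646826797) (nat_lit 0) (nat_lit 0) (nat_lit 0) (nat_lit 0) (nat_lit 0) (nat_lit 0) (nat_lit 1) (nat_lit 0) (nat_lit 1) (nat_lit 0) (nat_lit 427) (nat_lit 343) (nat_lit 310)) (XT.lf (nat_lit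 0) (nat_lit 201551829720) (nat_lit 0) (nat_lit 0) (nat_lit 0) (nat_lit 0) (nat_lit 0) (nat_lit 0) (nat_lit 1) (nat_lit 0) (nat_lit 1) (nat_lit 0) (nat_lit 428) (nat_lit 343) (nat_lit 309))))) (XT.nd (nat_lit 282) (nat_lit 0) (nat_lit 0) (XT.nd (nat_lit 94) (nat_lit 0) (nat_lit 0) (XT.lf (nat_lit 0) (nat_lit 217649494159) (nat_lit 0) (nat_lit 0) (nat_lit 0) (nat_lit 0) (nat_lit 0) (nat_lit 0) (nat_lit 1) (nat_lit 0) (nat_lit 1) (nat_lit 0) (nat_lit 429) (nat_lit 343) (nat_lit 308)) (XT.nd (nat_lit 94) (nat_lit 0) (nat_lit 0) (XT.lf (nat_lit 0) (nat_lit 235035213679) (nat_lit 0) (nat_lit 0) (nat_lit 0) (nat_lit 0) (nat_lit 0) (nat_lit 0) (nat_lit 1) (nat_lit 0) (nat_lit 1) (nat_lit 0) (nat_lit 430) (nat_lit 343) (nat_lit 307)) (XT.lf (nat_lit 0) (nat_lit 253812014768) (nat_lit 0) (nat_lit 0) (nat_lit 0) (nat_lit 0) (nat_lit 0) (nat_lit 0) (nat_lit 1) (nat_lit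 0) (nat_lit 1) (nat_lit 0) (nat_lit 431) (nat_lit 343) (nat_lit 306)))) (XT.nd (nat_lit 188) (nat_lit 0) (nat_lit 0) (XT.nd (nat_lit 94) (nat_lit 0) (nat_lit 0) (XT.lf (nat_lit 0) (nat_lit 274091167357) (nat_lit 0) (nat_lit 0) (nat_lit 0) (nat_lit 0) (nat_lit 0) (nat_lit 0) (nat_lit 1) (nat_lit 0) (nat_lit 1) (nat_lit 0) (nat_lit 432) (nat_lit 343) (nat_lit 305)) (XT.lf (nat_lit 0) (nat_lit 295992844202) (nat_lit 0) (nat_lit 0) (nat_lit 0) (nat_lit 0) (nat_lit 0) (nat_lit 0) (nat_lit 1) (nat_lit 0) (nat_lit 1) (nat_lit 0) (nat_lit 433) (nat_lit 343) (nat_lit 304))) (XT.nd (nat_lit 94) (nat_lit 0) (nat_lit 0) (XT.lf (nat_lit 0) (nat_lit 319646833019) (nat_lit 0) (nat_lit 0) (nat_lit 0) (nat_lit 0) (nat_lit 0) (nat_lit 0) (nat_lit 1) (nat_lit 0) (nat_lit 1) (nat_lit 0) (nat_lit 434) (nat_lit 343) (nat_lit 303)) (XT.lf (nat_lit 0) (nat_lit 345193305592) (nat_lit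 0) (nat_lit 0) (nat_lit 0) (nat_lit 0) (nat_lit 0) (nat_lit 0) (nat_lit 1) (nat_lit 0) (nat_lit 1) (nat_lit 0) (nat_lit 435) (nat_lit 343) (nat_lit 302)))))) (XT.nd (nat_lit 658) (nat_lit 0) (nat_lit 0) (XT.nd (nat_lit 282) (nat_lit 0) (nat_lit 0) (XT.nd (nat_lit 94) (nat_lit 0) (nat_lit 0) (XT.lf (nat_lit 0) (nat_lit 372783648426) (nat_lit 0) (nat_lit 0) (nat_lit 0) (nat_lit 0) (nat_lit 0) (nat_lit 0) (nat_lit 1) (nat_lit 0) (nat_lit 1) (nat_lit 0) (nat_lit 436) (nat_lit 343) (nat_lit 301)) (XT.nd (nat_lit 94) (nat_lit 0) (nat_lit 0) (XT.lf (nat_lit 0) (nat_lit 402581359848) (nat_lit 0) (nat_lit 0) (nat_lit 0) (nat_lit 0) (nat_lit 0) (nat_lit 0) (nat_lit 1) (nat_lit 0) (nat_lit 1) (nat_lit 0) (nat_lit 437) (nat_lit 343) (nat_lit 300)) (XT.lf (nat_lit 0) (nat_lit 434763018891) (nat_lit 0) (nat_lit 0) (nat_lit 0) (nat_lit 0) (nat_lit 0) (nat_lit 0) (nat_lit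 1) (nat_lit 0) (nat_lit 1) (nat_lit 0) (nat_lit 438) (nat_lit 343) (nat_lit 299)))) (XT.nd (nat_lit 188) (nat_lit 0) (nat_lit 0) (XT.nd (nat_lit 94) (nat_lit 0) (nat_lit 0) (XT.lf (nat_lit 0) (nat_lit 469519331680) (nat_lit 0) (nat_lit 0) (nat_lit 0) (nat_lit 0) (nat_lit 0) (nat_lit 0) (nat_lit 1) (nat_lit 0) (nat_lit 1) (nat_lit 0) (nat_lit 439) (nat_lit 343) (nat_lit 298)) (XT.lf (nat_lit 0) (nat_lit 507056261551) (nat_lit 0) (nat_lit 0) (nat_lit 0) (nat_lit 0) (nat_lit 0) (nat_lit 0) (nat_lit 1) (nat_lit 0) (nat_lit 1) (nat_lit 0) (nat_lit 440) (nat_lit 343) (nat_lit 297))) (XT.nd (nat_lit 94) (nat_lit 0) (nat_lit 0) (XT.lf (nat_lit 0) (nat_lit 547596249570) (nat_lit 0) (nat_lit 0) (nat_lit 0) (nat_lit 0) (nat_lit 0) (nat_lit 0) (nat_lit 1) (nat_lit 0) (nat_lit 1) (nat_lit 0) (nat_lit 441) (nat_lit 343) (nat_lit 296)) (XT.lf (nat_lit 0) (nat_lit 591379532704)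 (nat_lit 0) (nat_lit 0) (nat_lit 0) (nat_lit 0) (nat_lit 0) (nat_lit 0) (nat_lit 1) (nat_lit 0) (nat_lit 1) (nat_lit 0) (nat_lit 442) (nat_lit 343) (nat_lit 295))))) (XT.nd (nat_lit 282) (nat_lit 0) (nat_lit 0) (XT.nd (nat_lit 94) (nat_lit 0) (nat_lit 0) (XT.lf (nat_lit 0) (nat_lit 638665567444) (nat_lit 0) (nat_lit 0) (nat_lit 0) (nat_lit 0) (nat_lit 0) (nat_lit 0) (nat_lit 1) (nat_lit 0) (nat_lit 1) (nat_lit 0) (nat_lit 443) (nat_lit 343) (nat_lit 294)) (XT.nd (nat_lit 94) (nat_lit 0) (nat_lit 0) (XT.lf (nat_lit 0) (nat_lit 689734567330) (nat_lit 0) (nat_lit 0) (nat_lit 0) (nat_lit 0) (nat_lit 0) (nat_lit 0) (nat_lit 1) (nat_lit 0) (nat_lit 1) (nat_lit 0) (nat_lit 444) (nat_lit 343) (nat_lit 293)) (XT.lf (nat_lit 0) (nat_lit 744889163472) (nat_lit 0) (nat_lit 0) (nat_lit 0) (nat_lit 0) (nat_lit 0) (nat_lit 0) (nat_lit 1) (nat_lit 0) (nat_lit 1) (nat_lit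 0) (nat_lit 445) (nat_lit 343) (nat_lit 292)))) (XT.nd (nat_lit 188) (nat_lit 0) (nat_lit 0) (XT.nd (nat_lit 94) (nat_lit 0) (nat_lit 0) (XT.lf (nat_lit 0) (nat_lit 804456197922) (nat_lit 0) (nat_lit 0) (nat_lit 0) (nat_lit 0) (nat_lit 0) (nat_lit 0) (nat_lit 1) (nat_lit 0) (nat_lit 1) (nat_lit 0) (nat_lit 446) (nat_lit 343) (nat_lit 291)) (XT.lf (nat_lit 0) (nat_lit 868788660513) (nat_lit 0) (nat_lit 0) (nat_lit 0) (nat_lit 0) (nat_lit 0) (nat_lit 0) (nat_lit 1) (nat_lit 0) (nat_lit 1) (nat_lit 0) (nat_lit 447) (nat_lit 343) (nat_lit 290))) (XT.nd (nat_lit 94) (nat_lit 0) (nat_lit 0) (XT.lf (nat_lit 0) (nat_lit 938267780653) (nat_lit 0) (nat_lit 0) (nat_lit 0) (nat_lit 0) (nat_lit 0) (nat_lit 0) (nat_lit 1) (nat_lit 0) (nat_lit 1) (nat_lit 0) (nat_lit 448) (nat_lit 343) (nat_lit 289)) (XT.lf (nat_lit 0) (nat_lit 1013305286462) (nat_lit 0) (nat_lit 0) (nat_lit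 0) (nat_lit 0) (nat_lit 0) (nat_lit 0) (nat_lit 1) (nat_lit 0) (nat_lit 1) (nat_lit 0) (nat_lit 449) (nat_lit 343) (nat_lit 288))))))) (XT.nd (nat_lit 1316) (nat_lit 0) (nat_lit 0) (XT.nd (nat_lit 658) (nat_lit 0) (nat_lit 0) (XT.nd (nat_lit 282) (nat_lit 0) (nat_lit 0) (XT.nd (nat_lit 94) (nat_lit 0) (nat_lit 0) (XT.lf (nat_lit 0) (nat_lit 1094345844640) (nat_lit 0) (nat_lit 0) (nat_lit 0) (nat_lit 0) (nat_lit 0) (nat_lit 0) (nat_lit 1) (nat_lit 0) (nat_lit 1) (nat_lit 0) (nat_lit 450) (nat_lit 343) (nat_lit 287)) (XT.nd (nat_lit 94) (nat_lit 0) (nat_lit 0) (XT.lf (nat_lit 0) (nat_lit 1181869695533) (nat_lit 0) (nat_lit 0) (nat_lit 0) (nat_lit 0) (nat_lit 0) (nat_lit 0) (nat_lit 1) (nat_lit 0) (nat_lit 1) (nat_lit 0) (nat_lit 451) (nat_lit 343) (nat_lit 286)) (XT.lf (nat_lit 0) (nat_lit 1276395498998) (nat_lit 0) (nat_lit 0) (nat_lit 0) (nat_lit 0) (nat_lit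 0) (nat_lit 0) (nat_lit 1) (nat_lit 0) (nat_lit 1) (nat_lit 0) (nat_lit 452) (nat_lit 343) (nat_lit 285)))) (XT.nd (nat_lit 188) (nat_lit 0) (nat_lit 0) (XT.nd (nat_lit 94) (nat_lit 0) (nat_lit 0) (XT.lf (nat_lit 0) (nat_lit 1378483407944) (nat_lit 0) (nat_lit 0) (nat_lit 0) (nat_lit 0) (nat_lit 0) (nat_lit 0) (nat_lit 1) (nat_lit 0) (nat_lit 1) (nat_lit 0) (nat_lit 453) (nat_lit 343) (nat_lit 284)) (XT.lf (nat_lit 0) (nat_lit 1488738387757) (nat_lit 0) (nat_lit 0) (nat_lit 0) (nat_lit 0) (nat_lit 0) (nat_lit 0) (nat_lit 1) (nat_lit 0) (nat_lit 1) (nat_lit 0) (nat_lit 454) (nat_lit 343) (nat_lit 283))) (XT.nd (nat_lit 94) (nat_lit 0) (nat_lit 0) (XT.lf (nat_lit 0) (nat_lit 1607813801280) (nat_lit 0) (nat_lit 0) (nat_lit 0) (nat_lit 0) (nat_lit 0) (nat_lit 0) (nat_lit 1) (nat_lit 0) (nat_lit 1) (nat_lit 0) (nat_lit 455) (nat_lit 343) (nat_lit 282)) (XT.lf (nat_lit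 0) (nat_lit 1736415280595) (nat_lit 0) (nat_lit 0) (nat_lit 0) (nat_lit 0) (nat_lit 0) (nat_lit 0) (nat_lit 1) (nat_lit 0) (nat_lit 1) (nat_lit 0) (nat_lit 456) (nat_lit 343) (nat_lit 281))))) (XT.nd (nat_lit 282) (nat_lit 0) (nat_lit 0) (XT.nd (nat_lit 94) (nat_lit 0) (nat_lit 0) (XT.lf (nat_lit 0) (nat_lit 1875304908541) (nat_lit 0) (nat_lit 0) (nat_lit 0) (nat_lit 0) (nat_lit 0) (nat_lit 0) (nat_lit 1) (nat_lit 0) (nat_lit 1) (nat_lit 0) (nat_lit 457) (nat_lit 343) (nat_lit 280)) (XT.nd (nat_lit 94) (nat_lit 0) (nat_lit 0) (XT.lf (nat_lit 0) (nat_lit 2025305734765) (nat_lit 0) (nat_lit 0) (nat_lit 0) (nat_lit 0) (nat_lit 0) (nat_lit 0) (nat_lit 1) (nat_lit 0) (nat_lit 1) (nat_lit 0) (nat_lit 458) (nat_lit 343) (nat_lit 279)) (XT.lf (nat_lit 0) (nat_lit 2187306653052) (nat_lit 0) (nat_lit 0) (nat_lit 0) (nat_lit 0) (nat_lit 0) (nat_lit 0) (nat_lit 1) (nat_lit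 0) (nat_lit 1) (nat_lit 0) (nat_lit 459) (nat_lit 343) (nat_lit 278)))) (XT.nd (nat_lit 188) (nat_lit 0) (nat_lit 0) (XT.nd (nat_lit 94) (nat_lit 0) (nat_lit 0) (XT.lf (nat_lit 0) (nat_lit 2362267668845) (nat_lit 0) (nat_lit 0) (nat_lit 0) (nat_lit 0) (nat_lit 0) (nat_lit 0) (nat_lit 1) (nat_lit 0) (nat_lit 1) (nat_lit 0) (nat_lit 460) (nat_lit 343) (nat_lit 277)) (XT.lf (nat_lit 0) (nat_lit 2551225588162) (nat_lit 0) (nat_lit 0) (nat_lit 0) (nat_lit 0) (nat_lit 0) (nat_lit 0) (nat_lit 1) (nat_lit 0) (nat_lit 1) (nat_lit 0) (nat_lit 461) (nat_lit 343) (nat_lit 276))) (XT.nd (nat_lit 94) (nat_lit 0) (nat_lit 0) (XT.lf (nat_lit 0) (nat_lit 2755300161636) (nat_lit 0) (nat_lit 0) (nat_lit 0) (nat_lit 0) (nat_lit 0) (nat_lit 0) (nat_lit 1) (nat_lit 0) (nat_lit 1) (nat_lit 0) (nat_lit 462) (nat_lit 343) (nat_lit 275)) (XT.lf (nat_lit 0) (nat_lit 2975700720074) (nat_lit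 0) (nat_lit 0) (nat_lit 0) (nat_lit 0) (nat_lit 0) (nat_lit 0) (nat_lit 1) (nat_lit 0) (nat_lit 1) (nat_lit 0) (nat_lit 463) (nat_lit 343) (nat_lit 274)))))) (XT.nd (nat_lit 658) (nat_lit 0) (nat_lit 0) (XT.nd (nat_lit 282) (nat_lit 0) (nat_lit 0) (XT.nd (nat_lit 94) (nat_lit 0) (nat_lit 0) (XT.lf (nat_lit 0) (nat_lit 3213733340858) (nat_lit 0) (nat_lit 0) (nat_lit 0) (nat_lit 0) (nat_lit 0) (nat_lit 0) (nat_lit 1) (nat_lit 0) (nat_lit 1) (nat_lit 0) (nat_lit 464) (nat_lit 343) (nat_lit 273)) (XT.nd (nat_lit 94) (nat_lit 0) (nat_lit 0) (XT.lf (nat_lit 0) (nat_lit 3470808587668) (nat_lit 0) (nat_lit 0) (nat_lit 0) (nat_lit 0) (nat_lit 0) (nat_lit 0) (nat_lit 1) (nat_lit 0) (nat_lit 1) (nat_lit 0) (nat_lit 465) (nat_lit 343) (nat_lit 272)) (XT.lf (nat_lit 0) (nat_lit 3748449869374) (nat_lit 0) (nat_lit 0) (nat_lit 0) (nat_lit 0) (nat_lit 0) (nat_lit 0) (nat_lit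 1) (nat_lit 0) (nat_lit 1) (nat_lit 0) (nat_lit 466) (nat_lit 343) (nat_lit 271)))) (XT.nd (nat_lit 188) (nat_lit 0) (nat_lit 0) (XT.nd (nat_lit 94) (nat_lit 0) (nat_lit 0) (XT.lf (nat_lit 0) (nat_lit 4048302467644) (nat_lit 0) (nat_lit 0) (nat_lit 0) (nat_lit 0) (nat_lit 0) (nat_lit 0) (nat_lit 1) (nat_lit 0) (nat_lit 1) (nat_lit 0) (nat_lit 467) (nat_lit 343) (nat_lit 270)) (XT.lf (nat_lit 0) (nat_lit 4372143286764) (nat_lit 0) (nat_lit 0) (nat_lit 0) (nat_lit 0) (nat_lit 0) (nat_lit 0) (nat_lit 1) (nat_lit 0) (nat_lit 1) (nat_lit 0) (nat_lit 468) (nat_lit 343) (nat_lit 269))) (XT.nd (nat_lit 94) (nat_lit 0) (nat_lit 0) (XT.lf (nat_lit 0) (nat_lit 4721891383442) (nat_lit 0) (nat_lit 0) (nat_lit 0) (nat_lit 0) (nat_lit 0) (nat_lit 0) (nat_lit 1) (nat_lit 0) (nat_lit 1) (nat_lit 0) (nat_lit 469) (nat_lit 343) (nat_lit 268)) (XT.lf (nat_lit 0) (nat_lit 5099619338989)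 (nat_lit 0) (nat_lit 0) (nat_lit 0) (nat_lit 0) (nat_lit 0) (nat_lit 0) (nat_lit 1) (nat_lit 0) (nat_lit 1) (nat_lit 0) (nat_lit 470) (nat_lit 343) (nat_lit 267))))) (XT.nd (nat_lit 282) (nat_lit 0) (nat_lit 0) (XT.nd (nat_lit 94) (nat_lit 0) (nat_lit 0) (XT.lf (nat_lit 0) (nat_lit 5507565541292) (nat_lit 0) (nat_lit 0) (nat_lit 0) (nat_lit 0) (nat_lit 0) (nat_lit 0) (nat_lit 1) (nat_lit 0) (nat_lit 1) (nat_lit 0) (nat_lit 471) (nat_lit 343) (nat_lit 266)) (XT.nd (nat_lit 94) (nat_lit 0) (nat_lit 0) (XT.lf (nat_lit 0) (nat_lit 5948147449327) (nat_lit 0) (nat_lit 0) (nat_lit 0) (nat_lit 0) (nat_lit 0) (nat_lit 0) (nat_lit 1) (nat_lit 0) (nat_lit 1) (nat_lit 0) (nat_lit 472) (nat_lit 343) (nat_lit 265)) (XT.lf (nat_lit 0) (nat_lit 6423975918844) (nat_lit 0) (nat_lit 0) (nat_lit 0) (nat_lit 0) (nat_lit 0) (nat_lit 0) (nat_lit 1) (nat_lit 0) (nat_lit 1) (nat_lit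 0) (nat_lit 473) (nat_lit 343) (nat_lit 264)))) (XT.nd (nat_lit 188) (nat_lit 0) (nat_lit 0) (XT.nd (nat_lit 94) (nat_lit 0) (nat_lit 0) (XT.lf (nat_lit 0) (nat_lit 6937870674108) (nat_lit 0) (nat_lit 0) (nat_lit 0) (nat_lit 0) (nat_lit 0) (nat_lit 0) (nat_lit 1) (nat_lit 0) (nat_lit 1) (nat_lit 0) (nat_lit 474) (nat_lit 343) (nat_lit 263)) (XT.lf (nat_lit 0) (nat_lit 7492877017372) (nat_lit 0) (nat_lit 0) (nat_lit 0) (nat_lit 0) (nat_lit 0) (nat_lit 0) (nat_lit 1) (nat_lit 0) (nat_lit 1) (nat_lit 0) (nat_lit 475) (nat_lit 343) (nat_lit 262))) (XT.nd (nat_lit 94) (nat_lit 0) (nat_lit 0) (XT.lf (nat_lit 0) (nat_lit 8092283875116) (nat_lit 0) (nat_lit 0) (nat_lit 0) (nat_lit 0) (nat_lit 0) (nat_lit 0) (nat_lit 1) (nat_lit 0) (nat_lit 1) (nat_lit 0) (nat_lit 476) (nat_lit 343) (nat_lit 261)) (XT.lf (nat_lit 0) (nat_lit 8739643287976) (nat_lit 0) (nat_lit 0) (nat_lit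 0) (nat_lit 0) (nat_lit 0) (nat_lit 0) (nat_lit 1) (nat_lit 0) (nat_lit 1) (nat_lit 0) (nat_lit 477) (nat_lit 343) (nat_lit 260))))))))
noncomputable def xc53 : XT := (XT.nd (nat_lit 60536) (nat_lit 0) (nat_lit 0) (XT.nd (nat_lit 1316) (nat_lit 0) (nat_lit 0) (XT.nd (nat_lit 658) (nat_lit 0) (nat_lit 0) (XT.nd (nat_lit 282) (nat_lit 0) (nat_lit 0) (XT.nd (nat_lit 94) (nat_lit 0) (nat_lit 0) (XT.lf (nat_lit 0) (nat_lit 9438791459882) (nat_lit 0) (nat_lit 0) (nat_lit 0) (nat_lit 0) (nat_lit 0) (nat_lit 0) (nat_lit 1) (nat_lit 0) (nat_lit 1) (nat_lit 0) (nat_lit 478) (nat_lit 343) (nat_lit 259)) (XT.nd (nat_lit 94) (nat_lit 0) (nat_lit 0) (XT.lf (nat_lit 0) (nat_lit 10193871491111) (nat_lit 0) (nat_lit 0) (nat_lit 0) (nat_lit 0) (nat_lit 0) (nat_lit 0) (nat_lit 1) (nat_lit 0) (nat_lit 1) (nat_lit 0) (nat_lit 479) (nat_lit 343) (nat_lit 258)) (XT.lf (nat_lit 0)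 (nat_lit 11009357929996) (nat_lit 0) (nat_lit 0) (nat_lit 0) (nat_lit 0) (nat_lit 0) (nat_lit 0) (nat_lit 1) (nat_lit 0) (nat_lit 1) (nat_lit 0) (nat_lit 480) (nat_lit 343) (nat_lit 257)))) (XT.nd (nat_lit 188) (nat_lit 0) (nat_lit 0) (XT.nd (nat_lit 94) (nat_lit 0) (nat_lit 0) (XT.lf (nat_lit 0) (nat_lit 11890083288769) (nat_lit 0) (nat_lit 0) (nat_lit 0) (nat_lit 0) (nat_lit 0) (nat_lit 0) (nat_lit 1) (nat_lit 0) (nat_lit 1) (nat_lit 0) (nat_lit 481) (nat_lit 343) (nat_lit 256)) (XT.lf (nat_lit 0) (nat_lit 12841266680665) (nat_lit 0) (nat_lit 0) (nat_lit 0) (nat_lit 0) (nat_lit 0) (nat_lit 0) (nat_lit 1) (nat_lit 0) (nat_lit 1) (nat_lit 0) (nat_lit 482) (nat_lit 343) (nat_lit 255))) (XT.nd (nat_lit 94) (nat_lit 0) (nat_lit 0) (XT.lf (nat_lit 0) (nat_lit 13868544748008) (nat_lit 0) (nat_lit 0) (nat_lit 0) (nat_lit 0) (nat_lit 0) (nat_lit 0) (nat_lit 1) (nat_lit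 0) (nat_lit 1) (nat_lit 0) (nat_lit 483) (nat_lit 343) (nat_lit 254)) (XT.lf (nat_lit 0) (nat_lit 14978005064530) (nat_lit 0) (nat_lit 0) (nat_lit 0) (nat_lit 0) (nat_lit 0) (nat_lit 0) (nat_lit 1) (nat_lit 0) (nat_lit 1) (nat_lit 0) (nat_lit 484) (nat_lit 343) (nat_lit 253))))) (XT.nd (nat_lit 282) (nat_lit 0) (nat_lit 0) (XT.nd (nat_lit 94) (nat_lit 0) (nat_lit 0) (XT.lf (nat_lit 0) (nat_lit 16176222209884) (nat_lit 0) (nat_lit 0) (nat_lit 0) (nat_lit 0) (nat_lit 0) (nat_lit 0) (nat_lit 1) (nat_lit 0) (nat_lit 1) (nat_lit 0) (nat_lit 485) (nat_lit 343) (nat_lit 252)) (XT.nd (nat_lit 94) (nat_lit 0) (nat_lit 0) (XT.lf (nat_lit 0) (nat_lit 17470296730117) (nat_lit 0) (nat_lit 0) (nat_lit 0) (nat_lit 0) (nat_lit 0) (nat_lit 0) (nat_lit 1) (nat_lit 0) (nat_lit 1) (nat_lit 0) (nat_lit 486) (nat_lit 343) (nat_lit 251)) (XT.lf (nat_lit 0) (nat_lit 18867897214979)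 (nat_lit 0) (nat_lit 0) (nat_lit 0) (nat_lit 0) (nat_lit 0) (nat_lit 0) (nat_lit 1) (nat_lit 0) (nat_lit 1) (nat_lit 0) (nat_lit 487) (nat_lit 343) (nat_lit 250)))) (XT.nd (nat_lit 188) (nat_lit 0) (nat_lit 0) (XT.nd (nat_lit 94) (nat_lit 0) (nat_lit 0) (XT.lf (nat_lit 0) (nat_lit 20377305741416) (nat_lit 0) (nat_lit 0) (nat_lit 0) (nat_lit 0) (nat_lit 0) (nat_lit 0) (nat_lit 1) (nat_lit 0) (nat_lit 1) (nat_lit 0) (nat_lit 488) (nat_lit 343) (nat_lit 249)) (XT.lf (nat_lit 0) (nat_lit 22007466952548) (nat_lit 0) (nat_lit 0) (nat_lit 0) (nat_lit 0) (nat_lit 0) (nat_lit 0) (nat_lit 1) (nat_lit 0) (nat_lit 1) (nat_lit 0) (nat_lit 489) (nat_lit 343) (nat_lit 248))) (XT.nd (nat_lit 94) (nat_lit 0) (nat_lit 0) (XT.lf (nat_lit 0) (nat_lit 23768041062961) (nat_lit 0) (nat_lit 0) (nat_lit 0) (nat_lit 0) (nat_lit 0) (nat_lit 0) (nat_lit 1) (nat_lit 0) (nat_lit 1) (nat_lit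 0) (nat_lit 490) (nat_lit 343) (nat_lit 247)) (XT.lf (nat_lit 0) (nat_lit 25669461104418) (nat_lit 0) (nat_lit 0) (nat_lit 0) (nat_lit 0) (nat_lit 0) (nat_lit 0) (nat_lit 1) (nat_lit 0) (nat_lit 1) (nat_lit 0) (nat_lit 491) (nat_lit 343) (nat_lit 246)))))) (XT.nd (nat_lit 58562) (nat_lit 0) (nat_lit 924) (XT.nd (nat_lit 282) (nat_lit 0) (nat_lit 0) (XT.nd (nat_lit 94) (nat_lit 0) (nat_lit 0) (XT.lf (nat_lit 0) (nat_lit 27722994751241) (nat_lit 0) (nat_lit 0) (nat_lit 0) (nat_lit 0) (nat_lit 0) (nat_lit 0) (nat_lit 1) (nat_lit 0) (nat_lit 1) (nat_lit 0) (nat_lit 492) (nat_lit 343) (nat_lit 245)) (XT.nd (nat_lit 94) (nat_lit 0) (nat_lit 0) (XT.lf (nat_lit 0) (nat_lit 29940811091706) (nat_lit 0) (nat_lit 0) (nat_lit 0) (nat_lit 0) (nat_lit 0) (nat_lit 0) (nat_lit 1) (nat_lit 0) (nat_lit 1) (nat_lit 0) (nat_lit 493) (nat_lit 343) (nat_lit 244)) (XT.lf (nat_lit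 0) (nat_lit 32336052741164) (nat_lit 0) (nat_lit 0) (nat_lit 0) (nat_lit 0) (nat_lit 0) (nat_lit 0) (nat_lit 1) (nat_lit 0) (nat_lit 1) (nat_lit 0) (nat_lit 494) (nat_lit 343) (nat_lit 243)))) (XT.nd (nat_lit 58092) (nat_lit 0) (nat_lit 2268) (XT.nd (nat_lit 94) (nat_lit 0) (nat_lit 0) (XT.lf (nat_lit 0) (nat_lit 34922913724205) (nat_lit 0) (nat_lit 0) (nat_lit 0) (nat_lit 0) (nat_lit 0) (nat_lit 0) (nat_lit 1) (nat_lit 0) (nat_lit 1) (nat_lit 0) (nat_lit 495) (nat_lit 343) (nat_lit 242)) (XT.lf (nat_lit 0) (nat_lit 37716723587395) (nat_lit 0) (nat_lit 0) (nat_lit 0) (nat_lit 0) (nat_lit 0) (nat_lit 0) (nat_lit 1) (nat_lit 0) (nat_lit 1) (nat_lit 0) (nat_lit 496) (nat_lit 343) (nat_lit 241))) (XT.nd (nat_lit 94) (nat_lit 168) (nat_lit 0) (XT.lf (nat_lit 0) (nat_lit 2409263748) (nat_lit 168) (nat_lit 2327871530) (nat_lit 168) (nat_lit 2327871530) (nat_lit 29)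 (nat_lit 4) (nat_lit 31) (nat_lit 5) (nat_lit 31) (nat_lit 4) (nat_lit 392) (nat_lit 344) (nat_lit 344)) (XT.lf (nat_lit 0) (nat_lit 6628945941) (nat_lit 168) (nat_lit 1904628575) (nat_lit 0) (nat_lit 6128955175) (nat_lit 27) (nat_lit 5) (nat_lit 29) (nat_lit 4) (nat_lit 27) (nat_lit 4) (nat_lit 393) (nat_lit 344) (nat_lit 343))))) (XT.nd (nat_lit 282) (nat_lit 756) (nat_lit 0) (XT.nd (nat_lit 94) (nat_lit 336) (nat_lit 0) (XT.lf (nat_lit 0) (nat_lit 3418687669) (nat_lit 168) (nat_lit 9305443446) (nat_lit 0) (nat_lit 2501597023) (nat_lit 24) (nat_lit 5) (nat_lit 26) (nat_lit 4) (nat_lit 24) (nat_lit 4) (nat_lit 394) (nat_lit 344) (nat_lit 342)) (XT.nd (nat_lit 94) (nat_lit 252) (nat_lit 0) (XT.lf (nat_lit 0) (nat_lit 14038786568) (nat_lit 84) (nat_lit 1554778294) (nat_lit 84) (nat_lit 229438607) (nat_lit 23) (nat_lit 4) (nat_lit 24) (nat_lit 5) (nat_lit 24)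 (nat_lit 4) (nat_lit 395) (nat_lit 344) (nat_lit 341)) (XT.lf (nat_lit 0) (nat_lit 6067755242) (nat_lit 84) (nat_lit 6001779485) (nat_lit 84) (nat_lit 4379543239) (nat_lit 20) (nat_lit 4) (nat_lit 21) (nat_lit 5) (nat_lit 21) (nat_lit 4) (nat_lit 396) (nat_lit 344) (nat_lit 340)))) (XT.nd (nat_lit 188) (nat_lit 336) (nat_lit 0) (XT.nd (nat_lit 94) (nat_lit 252) (nat_lit 0) (XT.lf (nat_lit 0) (nat_lit 8052059615) (nat_lit 168) (nat_lit 2872179406) (nat_lit 0) (nat_lit 6189605366) (nat_lit 18) (nat_lit 5) (nat_lit 20) (nat_lit 4) (nat_lit 18) (nat_lit 4) (nat_lit 397) (nat_lit 344) (nat_lit 339)) (XT.lf (nat_lit 0) (nat_lit 3551012771) (nat_lit 168) (nat_lit 12768848077) (nat_lit 0) (nat_lit 1497293249) (nat_lit 15) (nat_lit 5) (nat_lit 17) (nat_lit 4) (nat_lit 15) (nat_lit 4) (nat_lit 398) (nat_lit 344) (nat_lit 338))) (XT.nd (nat_lit 94) (nat_lit 252) (nat_lit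 0) (XT.lf (nat_lit 0) (nat_lit 13263042014) (nat_lit 84) (nat_lit 3804297675) (nat_lit 84) (nat_lit 1491361884) (nat_lit 14) (nat_lit 4) (nat_lit 15) (nat_lit 5) (nat_lit 15) (nat_lit 4) (nat_lit 399) (nat_lit 344) (nat_lit 337)) (XT.lf (nat_lit 0) (nat_lit 2424477728) (nat_lit 84) (nat_lit 9673768011) (nat_lit 84) (nat_lit 7242386246) (nat_lit 11) (nat_lit 4) (nat_lit 12) (nat_lit 5) (nat_lit 12) (nat_lit 4) (nat_lit 400) (nat_lit 344) (nat_lit 336))))))) (XT.nd (nat_lit 1316) (nat_lit 0) (nat_lit 0) (XT.nd (nat_lit 658) (nat_lit 0) (nat_lit 0) (XT.nd (nat_lit 282) (nat_lit 420) (nat_lit 0) (XT.nd (nat_lit 94) (nat_lit 336) (nat_lit 0) (XT.lf (nat_lit 0) (nat_lit 6562933630) (nat_lit 168) (nat_lit 9558432019) (nat_lit 0) (nat_lit 4045757192) (nat_lit 9) (nat_lit 5) (nat_lit 11) (nat_lit 4) (nat_lit 9) (nat_lit 4) (nat_lit 401) (nat_lit 344) (nat_lit 335))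 (XT.nd (nat_lit 94) (nat_lit 168) (nat_lit 0) (XT.lf (nat_lit 0) (nat_lit 360488348) (nat_lit 168) (nat_lit 1964818618) (nat_lit 84) (nat_lit 18718329227) (nat_lit 7) (nat_lit 5) (nat_lit 9) (nat_lit 5) (nat_lit 8) (nat_lit 4) (nat_lit 402) (nat_lit 344) (nat_lit 334)) (XT.lf (nat_lit 0) (nat_lit 5941363848) (nat_lit 84) (nat_lit 9379818649) (nat_lit 84) (nat_lit 6640163795) (nat_lit 5) (nat_lit 4) (nat_lit 6) (nat_lit 5) (nat_lit 6) (nat_lit 4) (nat_lit 403) (nat_lit 344) (nat_lit 333)))) (XT.nd (nat_lit 188) (nat_lit 84) (nat_lit 0) (XT.nd (nat_lit 94) (nat_lit 168) (nat_lit 0) (XT.lf (nat_lit 0) (nat_lit 8492166324) (nat_lit 168) (nat_lit 8703879387) (nat_lit 0) (nat_lit 5737831505) (nat_lit 3) (nat_lit 5) (nat_lit 5) (nat_lit 4) (nat_lit 3) (nat_lit 4) (nat_lit 404) (nat_lit 344) (nat_lit 332)) (XT.lf (nat_lit 0) (nat_lit 865631255) (nat_lit 168) (nat_lit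 1114179374) (nat_lit 84) (nat_lit 21985374522) (nat_lit 1) (nat_lit 5) (nat_lit 3) (nat_lit 5) (nat_lit 2) (nat_lit 4) (nat_lit 405) (nat_lit 344) (nat_lit 331))) (XT.nd (nat_lit 94) (nat_lit 0) (nat_lit 0) (XT.lf (nat_lit 0) (nat_lit 37436387876) (nat_lit 0) (nat_lit 0) (nat_lit 0) (nat_lit 0) (nat_lit 0) (nat_lit 0) (nat_lit 1) (nat_lit 0) (nat_lit 1) (nat_lit 0) (nat_lit 406) (nat_lit 344) (nat_lit 330)) (XT.lf (nat_lit 0) (nat_lit 40389785139) (nat_lit 0) (nat_lit 0) (nat_lit 0) (nat_lit 0) (nat_lit 0) (nat_lit 0) (nat_lit 1) (nat_lit 0) (nat_lit 1) (nat_lit 0) (nat_lit 407) (nat_lit 344) (nat_lit 329))))) (XT.nd (nat_lit 282) (nat_lit 0) (nat_lit 0) (XT.nd (nat_lit 94) (nat_lit 0) (nat_lit 0) (XT.lf (nat_lit 0) (nat_lit 43580672004) (nat_lit 0) (nat_lit 0) (nat_lit 0) (nat_lit 0) (nat_lit 0) (nat_lit 0) (nat_lit 1) (nat_lit 0) (nat_lit 1) (nat_lit 0)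 (nat_lit 408) (nat_lit 344) (nat_lit 328)) (XT.nd (nat_lit 94) (nat_lit 0) (nat_lit 0) (XT.lf (nat_lit 0) (nat_lit 47027957428) (nat_lit 0) (nat_lit 0) (nat_lit 0) (nat_lit 0) (nat_lit 0) (nat_lit 0) (nat_lit 1) (nat_lit 0) (nat_lit 1) (nat_lit 0) (nat_lit 409) (nat_lit 344) (nat_lit 327)) (XT.lf (nat_lit 0) (nat_lit 50752069771) (nat_lit 0) (nat_lit 0) (nat_lit 0) (nat_lit 0) (nat_lit 0) (nat_lit 0) (nat_lit 1) (nat_lit 0) (nat_lit 1) (nat_lit 0) (nat_lit 410) (nat_lit 344) (nat_lit 326)))) (XT.nd (nat_lit 188) (nat_lit 0) (nat_lit 0) (XT.nd (nat_lit 94) (nat_lit 0) (nat_lit 0) (XT.lf (nat_lit 0) (nat_lit 54775077845) (nat_lit 0) (nat_lit 0) (nat_lit 0) (nat_lit 0) (nat_lit 0) (nat_lit 0) (nat_lit 1) (nat_lit 0) (nat_lit 1) (nat_lit 0) (nat_lit 411) (nat_lit 344) (nat_lit 325)) (XT.lf (nat_lit 0) (nat_lit 59120821699) (nat_lit 0) (nat_lit 0) (nat_lit 0) (nat_lit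 0) (nat_lit 0) (nat_lit 0) (nat_lit 1) (nat_lit 0) (nat_lit 1) (nat_lit 0) (nat_lit 412) (nat_lit 344) (nat_lit 324))) (XT.nd (nat_lit 94) (nat_lit 0) (nat_lit 0) (XT.lf (nat_lit 0) (nat_lit 63815053890) (nat_lit 0) (nat_lit 0) (nat_lit 0) (nat_lit 0) (nat_lit 0) (nat_lit 0) (nat_lit 1) (nat_lit 0) (nat_lit 1) (nat_lit 0) (nat_lit 413) (nat_lit 344) (nat_lit 323)) (XT.lf (nat_lit 0) (nat_lit 68885592088) (nat_lit 0) (nat_lit 0) (nat_lit 0) (nat_lit 0) (nat_lit 0) (nat_lit 0) (nat_lit 1) (nat_lit 0) (nat_lit 1) (nat_lit 0) (nat_lit 414) (nat_lit 344) (nat_lit 322)))))) (XT.nd (nat_lit 658) (nat_lit 0) (nat_lit 0) (XT.nd (nat_lit 282) (nat_lit 0) (nat_lit 0) (XT.nd (nat_lit 94) (nat_lit 0) (nat_lit 0) (XT.lf (nat_lit 0) (nat_lit 74362483929) (nat_lit 0) (nat_lit 0) (nat_lit 0) (nat_lit 0) (nat_lit 0) (nat_lit 0) (nat_lit 1) (nat_lit 0) (nat_lit 1) (nat_lit 0)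 (nat_lit 415) (nat_lit 344) (nat_lit 321)) (XT.nd (nat_lit 94) (nat_lit 0) (nat_lit 0) (XT.lf (nat_lit 0) (nat_lit 80278185066) (nat_lit 0) (nat_lit 0) (nat_lit 0) (nat_lit 0) (nat_lit 0) (nat_lit 0) (nat_lit 1) (nat_lit 0) (nat_lit 1) (nat_lit 0) (nat_lit 416) (nat_lit 344) (nat_lit 320)) (XT.lf (nat_lit 0) (nat_lit 86667751508) (nat_lit 0) (nat_lit 0) (nat_lit 0) (nat_lit 0) (nat_lit 0) (nat_lit 0) (nat_lit 1) (nat_lit 0) (nat_lit 1) (nat_lit 0) (nat_lit 417) (nat_lit 344) (nat_lit 319)))) (XT.nd (nat_lit 188) (nat_lit 0) (nat_lit 0) (XT.nd (nat_lit 94) (nat_lit 0) (nat_lit 0) (XT.lf (nat_lit 0) (nat_lit 93569047352) (nat_lit 0) (nat_lit 0) (nat_lit 0) (nat_lit 0) (nat_lit 0) (nat_lit 0) (nat_lit 1) (nat_lit 0) (nat_lit 1) (nat_lit 0) (nat_lit 418) (nat_lit 344) (nat_lit 318)) (XT.lf (nat_lit 0) (nat_lit 101022969165) (nat_lit 0) (nat_lit 0) (nat_lit 0)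 (nat_lit 0) (nat_lit 0) (nat_lit 0) (nat_lit 1) (nat_lit 0) (nat_lit 1) (nat_lit 0) (nat_lit 419) (nat_lit 344) (nat_lit 317))) (XT.nd (nat_lit 94) (nat_lit 0) (nat_lit 0) (XT.lf (nat_lit 0) (nat_lit 109073688336) (nat_lit 0) (nat_lit 0) (nat_lit 0) (nat_lit 0) (nat_lit 0) (nat_lit 0) (nat_lit 1) (nat_lit 0) (nat_lit 1) (nat_lit 0) (nat_lit 420) (nat_lit 344) (nat_lit 316)) (XT.lf (nat_lit 0) (nat_lit 117768912830) (nat_lit 0) (nat_lit 0) (nat_lit 0) (nat_lit 0) (nat_lit 0) (nat_lit 0) (nat_lit 1) (nat_lit 0) (nat_lit 1) (nat_lit 0) (nat_lit 421) (nat_lit 344) (nat_lit 315))))) (XT.nd (nat_lit 376) (nat_lit 0) (nat_lit 0) (XT.nd (nat_lit 188) (nat_lit 0) (nat_lit 0) (XT.nd (nat_lit 94) (nat_lit 0) (nat_lit 0) (XT.lf (nat_lit 0) (nat_lit 127160169904) (nat_lit 0) (nat_lit 0) (nat_lit 0) (nat_lit 0) (nat_lit 0) (nat_lit 0) (nat_lit 1) (nat_lit 0) (nat_lit 1)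 (nat_lit 0) (nat_lit 422) (nat_lit 344) (nat_lit 314)) (XT.lf (nat_lit 0) (nat_lit 137303111451) (nat_lit 0) (nat_lit 0) (nat_lit 0) (nat_lit 0) (nat_lit 0) (nat_lit 0) (nat_lit 1) (nat_lit 0) (nat_lit 1) (nat_lit 0) (nat_lit 423) (nat_lit 344) (nat_lit 313))) (XT.nd (nat_lit 94) (nat_lit 0) (nat_lit 0) (XT.lf (nat_lit 0) (nat_lit 148257843793) (nat_lit 0) (nat_lit 0) (nat_lit 0) (nat_lit 0) (nat_lit 0) (nat_lit 0) (nat_lit 1) (nat_lit 0) (nat_lit 1) (nat_lit 0) (nat_lit 424) (nat_lit 344) (nat_lit 312)) (XT.lf (nat_lit 0) (nat_lit 160089283860) (nat_lit 0) (nat_lit 0) (nat_lit 0) (nat_lit 0) (nat_lit 0) (nat_lit 0) (nat_lit 1) (nat_lit 0) (nat_lit 1) (nat_lit 0) (nat_lit 425) (nat_lit 344) (nat_lit 311)))) (XT.nd (nat_lit 188) (nat_lit 0) (nat_lit 0) (XT.nd (nat_lit 94) (nat_lit 0) (nat_lit 0) (XT.lf (nat_lit 0) (nat_lit 172867543891) (nat_lit 0) (nat_lit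 0) (nat_lit 0) (nat_lit 0) (nat_lit 0) (nat_lit 0) (nat_lit 1) (nat_lit 0) (nat_lit 1) (nat_lit 0) (nat_lit 426) (nat_lit 344) (nat_lit 310)) (XT.lf (nat_lit 0) (nat_lit 186668346908) (nat_lit 0) (nat_lit 0) (nat_lit 0) (nat_lit 0) (nat_lit 0) (nat_lit 0) (nat_lit 1) (nat_lit 0) (nat_lit 1) (nat_lit 0) (nat_lit 427) (nat_lit 344) (nat_lit 309))) (XT.nd (nat_lit 94) (nat_lit 0) (nat_lit 0) (XT.lf (nat_lit 0) (nat_lit 201573475448) (nat_lit 0) (nat_lit 0) (nat_lit 0) (nat_lit 0) (nat_lit 0) (nat_lit 0) (nat_lit 1) (nat_lit 0) (nat_lit 1) (nat_lit 0) (nat_lit 428) (nat_lit 344) (nat_lit 308)) (XT.lf (nat_lit 0) (nat_lit 217671256197) (nat_lit 0) (nat_lit 0) (nat_lit 0) (nat_lit 0) (nat_lit 0) (nat_lit 0) (nat_lit 1) (nat_lit 0) (nat_lit 1) (nat_lit 0) (nat_lit 429) (nat_lit 344) (nat_lit 307))))))))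
noncomputable def xc54 : XT := (XT.nd (nat_lit 2632) (nat_lit 0) (nat_lit 0) (XT.nd (nat_lit 1316) (nat_lit 0) (nat_lit 0) (XT.nd (nat_lit 658) (nat_lit 0) (nat_lit 0) (XT.nd (nat_lit 282) (nat_lit 0) (nat_lit 0) (XT.nd (nat_lit 94) (nat_lit 0) (nat_lit 0) (XT.lf (nat_lit 0) (nat_lit 235057083413) (nat_lit 0) (nat_lit 0) (nat_lit 0) (nat_lit 0) (nat_lit 0) (nat_lit 0) (nat_lit 1) (nat_lit 0) (nat_lit 1) (nat_lit 0) (nat_lit 430) (nat_lit 344) (nat_lit 306)) (XT.nd (nat_lit 94) (nat_lit 0) (nat_lit 0) (XT.lf (nat_lit 0) (nat_lit 253833984220) (nat_lit 0) (nat_lit 0) (nat_lit 0) (nat_lit 0) (nat_lit 0) (nat_lit 0) (nat_lit 1) (nat_lit 0) (nat_lit 1) (nat_lit 0) (nat_lit 431) (nat_lit 344) (nat_lit 305)) (XT.lf (nat_lit 0) (nat_lit 274113229140) (nat_lit 0) (nat_lit 0) (nat_lit 0) (nat_lit 0) (nat_lit 0) (nat_lit 0) (nat_lit 1) (nat_lit 0) (nat_lit 1) (nat_lit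 0) (nat_lit 432) (nat_lit 344) (nat_lit 304)))) (XT.nd (nat_lit 188) (nat_lit 0) (nat_lit 0) (XT.nd (nat_lit 94) (nat_lit 0) (nat_lit 0) (XT.lf (nat_lit 0) (nat_lit 296014991477) (nat_lit 0) (nat_lit 0) (nat_lit 0) (nat_lit 0) (nat_lit 0) (nat_lit 0) (nat_lit 1) (nat_lit 0) (nat_lit 1) (nat_lit 0) (nat_lit 433) (nat_lit 344) (nat_lit 303)) (XT.lf (nat_lit 0) (nat_lit 319669059453) (nat_lit 0) (nat_lit 0) (nat_lit 0) (nat_lit 0) (nat_lit 0) (nat_lit 0) (nat_lit 1) (nat_lit 0) (nat_lit 1) (nat_lit 0) (nat_lit 434) (nat_lit 344) (nat_lit 302))) (XT.nd (nat_lit 94) (nat_lit 0) (nat_lit 0) (XT.lf (nat_lit 0) (nat_lit 345215605322) (nat_lit 0) (nat_lit 0) (nat_lit 0) (nat_lit 0) (nat_lit 0) (nat_lit 0) (nat_lit 1) (nat_lit 0) (nat_lit 1) (nat_lit 0) (nat_lit 435) (nat_lit 344) (nat_lit 301)) (XT.lf (nat_lit 0) (nat_lit 372806016022) (nat_lit 0) (nat_lit 0) (nat_lit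 0) (nat_lit 0) (nat_lit 0) (nat_lit 0) (nat_lit 1) (nat_lit 0) (nat_lit 1) (nat_lit 0) (nat_lit 436) (nat_lit 344) (nat_lit 300))))) (XT.nd (nat_lit 282) (nat_lit 0) (nat_lit 0) (XT.nd (nat_lit 94) (nat_lit 0) (nat_lit 0) (XT.lf (nat_lit 0) (nat_lit 402603790284) (nat_lit 0) (nat_lit 0) (nat_lit 0) (nat_lit 0) (nat_lit 0) (nat_lit 0) (nat_lit 1) (nat_lit 0) (nat_lit 1) (nat_lit 0) (nat_lit 437) (nat_lit 344) (nat_lit 299)) (XT.nd (nat_lit 94) (nat_lit 0) (nat_lit 0) (XT.lf (nat_lit 0) (nat_lit 434785507511) (nat_lit 0) (nat_lit 0) (nat_lit 0) (nat_lit 0) (nat_lit 0) (nat_lit 0) (nat_lit 1) (nat_lit 0) (nat_lit 1) (nat_lit 0) (nat_lit 438) (nat_lit 344) (nat_lit 298)) (XT.lf (nat_lit 0) (nat_lit 469541874175) (nat_lit 0) (nat_lit 0) (nat_lit 0) (nat_lit 0) (nat_lit 0) (nat_lit 0) (nat_lit 1) (nat_lit 0) (nat_lit 1) (nat_lit 0) (nat_lit 439) (nat_lit 344) (nat_lit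 297)))) (XT.nd (nat_lit 188) (nat_lit 0) (nat_lit 0) (XT.nd (nat_lit 94) (nat_lit 0) (nat_lit 0) (XT.lf (nat_lit 0) (nat_lit 507078853930) (nat_lit 0) (nat_lit 0) (nat_lit 0) (nat_lit 0) (nat_lit 0) (nat_lit 0) (nat_lit 1) (nat_lit 0) (nat_lit 1) (nat_lit 0) (nat_lit 440) (nat_lit 344) (nat_lit 296)) (XT.lf (nat_lit 0) (nat_lit 547618888138) (nat_lit 0) (nat_lit 0) (nat_lit 0) (nat_lit 0) (nat_lit 0) (nat_lit 0) (nat_lit 1) (nat_lit 0) (nat_lit 1) (nat_lit 0) (nat_lit 441) (nat_lit 344) (nat_lit 295))) (XT.nd (nat_lit 94) (nat_lit 0) (nat_lit 0) (XT.lf (nat_lit 0) (nat_lit 591402214038) (nat_lit 0) (nat_lit 0) (nat_lit 0) (nat_lit 0) (nat_lit 0) (nat_lit 0) (nat_lit 1) (nat_lit 0) (nat_lit 1) (nat_lit 0) (nat_lit 442) (nat_lit 344) (nat_lit 294)) (XT.lf (nat_lit 0) (nat_lit 638688288378) (nat_lit 0) (nat_lit 0) (nat_lit 0) (nat_lit 0) (nat_lit 0) (nat_lit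 0) (nat_lit 1) (nat_lit 0) (nat_lit 1) (nat_lit 0) (nat_lit 443) (nat_lit 344) (nat_lit 293)))))) (XT.nd (nat_lit 658) (nat_lit 0) (nat_lit 0) (XT.nd (nat_lit 282) (nat_lit 0) (nat_lit 0) (XT.nd (nat_lit 94) (nat_lit 0) (nat_lit 0) (XT.lf (nat_lit 0) (nat_lit 689757324930) (nat_lit 0) (nat_lit 0) (nat_lit 0) (nat_lit 0) (nat_lit 0) (nat_lit 0) (nat_lit 1) (nat_lit 0) (nat_lit 1) (nat_lit 0) (nat_lit 444) (nat_lit 344) (nat_lit 292)) (XT.nd (nat_lit 94) (nat_lit 0) (nat_lit 0) (XT.lf (nat_lit 0) (nat_lit 744911955022) (nat_lit 0) (nat_lit 0) (nat_lit 0) (nat_lit 0) (nat_lit 0) (nat_lit 0) (nat_lit 1) (nat_lit 0) (nat_lit 1) (nat_lit 0) (nat_lit 445) (nat_lit 344) (nat_lit 291)) (XT.lf (nat_lit 0) (nat_lit 804479020907) (nat_lit 0) (nat_lit 0) (nat_lit 0) (nat_lit 0) (nat_lit 0) (nat_lit 0) (nat_lit 1) (nat_lit 0) (nat_lit 1) (nat_lit 0) (nat_lit 446) (nat_lit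 344) (nat_lit 290)))) (XT.nd (nat_lit 188) (nat_lit 0) (nat_lit 0) (XT.nd (nat_lit 94) (nat_lit 0) (nat_lit 0) (XT.lf (nat_lit 0) (nat_lit 868811512605) (nat_lit 0) (nat_lit 0) (nat_lit 0) (nat_lit 0) (nat_lit 0) (nat_lit 0) (nat_lit 1) (nat_lit 0) (nat_lit 1) (nat_lit 0) (nat_lit 447) (nat_lit 344) (nat_lit 289)) (XT.lf (nat_lit 0) (nat_lit 938290659696) (nat_lit 0) (nat_lit 0) (nat_lit 0) (nat_lit 0) (nat_lit 0) (nat_lit 0) (nat_lit 1) (nat_lit 0) (nat_lit 1) (nat_lit 0) (nat_lit 448) (nat_lit 344) (nat_lit 288))) (XT.nd (nat_lit 94) (nat_lit 0) (nat_lit 0) (XT.lf (nat_lit 0) (nat_lit 1013328190459) (nat_lit 0) (nat_lit 0) (nat_lit 0) (nat_lit 0) (nat_lit 0) (nat_lit 0) (nat_lit 1) (nat_lit 0) (nat_lit 1) (nat_lit 0) (nat_lit 449) (nat_lit 344) (nat_lit 287)) (XT.lf (nat_lit 0) (nat_lit 1094368771743) (nat_lit 0) (nat_lit 0) (nat_lit 0) (nat_lit 0) (nat_lit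 0) (nat_lit 0) (nat_lit 1) (nat_lit 0) (nat_lit 1) (nat_lit 0) (nat_lit 450) (nat_lit 344) (nat_lit 286))))) (XT.nd (nat_lit 282) (nat_lit 0) (nat_lit 0) (XT.nd (nat_lit 94) (nat_lit 0) (nat_lit 0) (XT.lf (nat_lit 0) (nat_lit 1181892644031) (nat_lit 0) (nat_lit 0) (nat_lit 0) (nat_lit 0) (nat_lit 0) (nat_lit 0) (nat_lit 1) (nat_lit 0) (nat_lit 1) (nat_lit 0) (nat_lit 451) (nat_lit 344) (nat_lit 285)) (XT.nd (nat_lit 94) (nat_lit 0) (nat_lit 0) (XT.lf (nat_lit 0) (nat_lit 1276418467305) (nat_lit 0) (nat_lit 0) (nat_lit 0) (nat_lit 0) (nat_lit 0) (nat_lit 0) (nat_lit 1) (nat_lit 0) (nat_lit 1) (nat_lit 0) (nat_lit 452) (nat_lit 344) (nat_lit 284)) (XT.lf (nat_lit 0) (nat_lit 1378506394593) (nat_lit 0) (nat_lit 0) (nat_lit 0) (nat_lit 0) (nat_lit 0) (nat_lit 0) (nat_lit 1) (nat_lit 0) (nat_lit 1) (nat_lit 0) (nat_lit 453) (nat_lit 344) (nat_lit 283)))) (XT.nd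 (nat_lit 188) (nat_lit 0) (nat_lit 0) (XT.nd (nat_lit 94) (nat_lit 0) (nat_lit 0) (XT.lf (nat_lit 0) (nat_lit 1488761391389) (nat_lit 0) (nat_lit 0) (nat_lit 0) (nat_lit 0) (nat_lit 0) (nat_lit 0) (nat_lit 1) (nat_lit 0) (nat_lit 1) (nat_lit 0) (nat_lit 454) (nat_lit 344) (nat_lit 282)) (XT.lf (nat_lit 0) (nat_lit 1607836820638) (nat_lit 0) (nat_lit 0) (nat_lit 0) (nat_lit 0) (nat_lit 0) (nat_lit 0) (nat_lit 1) (nat_lit 0) (nat_lit 1) (nat_lit 0) (nat_lit 455) (nat_lit 344) (nat_lit 281))) (XT.nd (nat_lit 94) (nat_lit 0) (nat_lit 0) (XT.lf (nat_lit 0) (nat_lit 1736438314513) (nat_lit 0) (nat_lit 0) (nat_lit 0) (nat_lit 0) (nat_lit 0) (nat_lit 0) (nat_lit 1) (nat_lit 0) (nat_lit 1) (nat_lit 0) (nat_lit 456) (nat_lit 344) (nat_lit 280)) (XT.lf (nat_lit 0) (nat_lit 1875327955941) (nat_lit 0) (nat_lit 0) (nat_lit 0) (nat_lit 0) (nat_lit 0) (nat_lit 0) (nat_lit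 1) (nat_lit 0) (nat_lit 1) (nat_lit 0) (nat_lit 457) (nat_lit 344) (nat_lit 279))))))) (XT.nd (nat_lit 1316) (nat_lit 0) (nat_lit 0) (XT.nd (nat_lit 658) (nat_lit 0) (nat_lit 0) (XT.nd (nat_lit 282) (nat_lit 0) (nat_lit 0) (XT.nd (nat_lit 94) (nat_lit 0) (nat_lit 0) (XT.lf (nat_lit 0) (nat_lit 2025328794649) (nat_lit 0) (nat_lit 0) (nat_lit 0) (nat_lit 0) (nat_lit 0) (nat_lit 0) (nat_lit 1) (nat_lit 0) (nat_lit 1) (nat_lit 0) (nat_lit 458) (nat_lit 344) (nat_lit 278)) (XT.nd (nat_lit 94) (nat_lit 0) (nat_lit 0) (XT.lf (nat_lit 0) (nat_lit 2187329724495) (nat_lit 0) (nat_lit 0) (nat_lit 0) (nat_lit 0) (nat_lit 0) (nat_lit 0) (nat_lit 1) (nat_lit 0) (nat_lit 1) (nat_lit 0) (nat_lit 459) (nat_lit 344) (nat_lit 277)) (XT.lf (nat_lit 0) (nat_lit 2362290750990) (nat_lit 0) (nat_lit 0) (nat_lit 0) (nat_lit 0) (nat_lit 0) (nat_lit 0) (nat_lit 1) (nat_lit 0) (nat_lit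 1) (nat_lit 0) (nat_lit 460) (nat_lit 344) (nat_lit 276)))) (XT.nd (nat_lit 188) (nat_lit 0) (nat_lit 0) (XT.nd (nat_lit 94) (nat_lit 0) (nat_lit 0) (XT.lf (nat_lit 0) (nat_lit 2551248680216) (nat_lit 0) (nat_lit 0) (nat_lit 0) (nat_lit 0) (nat_lit 0) (nat_lit 0) (nat_lit 1) (nat_lit 0) (nat_lit 1) (nat_lit 0) (nat_lit 461) (nat_lit 344) (nat_lit 275)) (XT.lf (nat_lit 0) (nat_lit 2755323262867) (nat_lit 0) (nat_lit 0) (nat_lit 0) (nat_lit 0) (nat_lit 0) (nat_lit 0) (nat_lit 1) (nat_lit 0) (nat_lit 1) (nat_lit 0) (nat_lit 462) (nat_lit 344) (nat_lit 274))) (XT.nd (nat_lit 94) (nat_lit 0) (nat_lit 0) (XT.lf (nat_lit 0) (nat_lit 2975723829800) (nat_lit 0) (nat_lit 0) (nat_lit 0) (nat_lit 0) (nat_lit 0) (nat_lit 0) (nat_lit 1) (nat_lit 0) (nat_lit 1) (nat_lit 0) (nat_lit 463) (nat_lit 344) (nat_lit 273)) (XT.lf (nat_lit 0) (nat_lit 3213756458452) (nat_lit 0) (nat_lit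 0) (nat_lit 0) (nat_lit 0) (nat_lit 0) (nat_lit 0) (nat_lit 1) (nat_lit 0) (nat_lit 1) (nat_lit 0) (nat_lit 464) (nat_lit 344) (nat_lit 272))))) (XT.nd (nat_lit 282) (nat_lit 0) (nat_lit 0) (XT.nd (nat_lit 94) (nat_lit 0) (nat_lit 0) (XT.lf (nat_lit 0) (nat_lit 3470831712545) (nat_lit 0) (nat_lit 0) (nat_lit 0) (nat_lit 0) (nat_lit 0) (nat_lit 0) (nat_lit 1) (nat_lit 0) (nat_lit 1) (nat_lit 0) (nat_lit 465) (nat_lit 344) (nat_lit 271)) (XT.nd (nat_lit 94) (nat_lit 0) (nat_lit 0) (XT.lf (nat_lit 0) (nat_lit 3748473000995) (nat_lit 0) (nat_lit 0) (nat_lit 0) (nat_lit 0) (nat_lit 0) (nat_lit 0) (nat_lit 1) (nat_lit 0) (nat_lit 1) (nat_lit 0) (nat_lit 466) (nat_lit 344) (nat_lit 270)) (XT.lf (nat_lit 0) (nat_lit 4048325605510) (nat_lit 0) (nat_lit 0) (nat_lit 0) (nat_lit 0) (nat_lit 0) (nat_lit 0) (nat_lit 1) (nat_lit 0) (nat_lit 1) (nat_lit 0) (nat_lit 467) (nat_lit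 344) (nat_lit 269)))) (XT.nd (nat_lit 188) (nat_lit 0) (nat_lit 0) (XT.nd (nat_lit 94) (nat_lit 0) (nat_lit 0) (XT.lf (nat_lit 0) (nat_lit 4372166430413) (nat_lit 0) (nat_lit 0) (nat_lit 0) (nat_lit 0) (nat_lit 0) (nat_lit 0) (nat_lit 1) (nat_lit 0) (nat_lit 1) (nat_lit 0) (nat_lit 468) (nat_lit 344) (nat_lit 268)) (XT.lf (nat_lit 0) (nat_lit 4721914532444) (nat_lit 0) (nat_lit 0) (nat_lit 0) (nat_lit 0) (nat_lit 0) (nat_lit 0) (nat_lit 1) (nat_lit 0) (nat_lit 1) (nat_lit 0) (nat_lit 469) (nat_lit 344) (nat_lit 267))) (XT.nd (nat_lit 94) (nat_lit 0) (nat_lit 0) (XT.lf (nat_lit 0) (nat_lit 5099642492949) (nat_lit 0) (nat_lit 0) (nat_lit 0) (nat_lit 0) (nat_lit 0) (nat_lit 0) (nat_lit 1) (nat_lit 0) (nat_lit 1) (nat_lit 0) (nat_lit 470) (nat_lit 344) (nat_lit 266)) (XT.lf (nat_lit 0) (nat_lit 5507588699842) (nat_lit 0) (nat_lit 0) (nat_lit 0) (nat_lit 0) (nat_lit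 0) (nat_lit 0) (nat_lit 1) (nat_lit 0) (nat_lit 1) (nat_lit 0) (nat_lit 471) (nat_lit 344) (nat_lit 265)))))) (XT.nd (nat_lit 658) (nat_lit 0) (nat_lit 0) (XT.nd (nat_lit 282) (nat_lit 0) (nat_lit 0) (XT.nd (nat_lit 94) (nat_lit 0) (nat_lit 0) (XT.lf (nat_lit 0) (nat_lit 5948170612126) (nat_lit 0) (nat_lit 0) (nat_lit 0) (nat_lit 0) (nat_lit 0) (nat_lit 0) (nat_lit 1) (nat_lit 0) (nat_lit 1) (nat_lit 0) (nat_lit 472) (nat_lit 344) (nat_lit 264)) (XT.nd (nat_lit 94) (nat_lit 0) (nat_lit 0) (XT.lf (nat_lit 0) (nat_lit 6423999085579) (nat_lit 0) (nat_lit 0) (nat_lit 0) (nat_lit 0) (nat_lit 0) (nat_lit 0) (nat_lit 1) (nat_lit 0) (nat_lit 1) (nat_lit 0) (nat_lit 473) (nat_lit 344) (nat_lit 263)) (XT.lf (nat_lit 0) (nat_lit 6937893844487) (nat_lit 0) (nat_lit 0) (nat_lit 0) (nat_lit 0) (nat_lit 0) (nat_lit 0) (nat_lit 1) (nat_lit 0) (nat_lit 1) (nat_lit 0) (nat_lit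 474) (nat_lit 344) (nat_lit 262)))) (XT.nd (nat_lit 188) (nat_lit 0) (nat_lit 0) (XT.nd (nat_lit 94) (nat_lit 0) (nat_lit 0) (XT.lf (nat_lit 0) (nat_lit 7492900191125) (nat_lit 0) (nat_lit 0) (nat_lit 0) (nat_lit 0) (nat_lit 0) (nat_lit 0) (nat_lit 1) (nat_lit 0) (nat_lit 1) (nat_lit 0) (nat_lit 475) (nat_lit 344) (nat_lit 261)) (XT.lf (nat_lit 0) (nat_lit 8092307051992) (nat_lit 0) (nat_lit 0) (nat_lit 0) (nat_lit 0) (nat_lit 0) (nat_lit 0) (nat_lit 1) (nat_lit 0) (nat_lit 1) (nat_lit 0) (nat_lit 476) (nat_lit 344) (nat_lit 260))) (XT.nd (nat_lit 94) (nat_lit 0) (nat_lit 0) (XT.lf (nat_lit 0) (nat_lit 8739666467745) (nat_lit 0) (nat_lit 0) (nat_lit 0) (nat_lit 0) (nat_lit 0) (nat_lit 0) (nat_lit 1) (nat_lit 0) (nat_lit 1) (nat_lit 0) (nat_lit 477) (nat_lit 344) (nat_lit 259)) (XT.lf (nat_lit 0) (nat_lit 9438814642329) (nat_lit 0) (nat_lit 0) (nat_lit 0) (nat_lit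 0) (nat_lit 0) (nat_lit 0) (nat_lit 1) (nat_lit 0) (nat_lit 1) (nat_lit 0) (nat_lit 478) (nat_lit 344) (nat_lit 258))))) (XT.nd (nat_lit 376) (nat_lit 0) (nat_lit 0) (XT.nd (nat_lit 188) (nat_lit 0) (nat_lit 0) (XT.nd (nat_lit 94) (nat_lit 0) (nat_lit 0) (XT.lf (nat_lit 0) (nat_lit 10193894676038) (nat_lit 0) (nat_lit 0) (nat_lit 0) (nat_lit 0) (nat_lit 0) (nat_lit 0) (nat_lit 1) (nat_lit 0) (nat_lit 1) (nat_lit 0) (nat_lit 479) (nat_lit 344) (nat_lit 257)) (XT.lf (nat_lit 0) (nat_lit 11009381117220) (nat_lit 0) (nat_lit 0) (nat_lit 0) (nat_lit 0) (nat_lit 0) (nat_lit 0) (nat_lit 1) (nat_lit 0) (nat_lit 1) (nat_lit 0) (nat_lit 480) (nat_lit 344) (nat_lit 256))) (XT.nd (nat_lit 94) (nat_lit 0) (nat_lit 0) (XT.lf (nat_lit 0) (nat_lit 11890106478118) (nat_lit 0) (nat_lit 0) (nat_lit 0) (nat_lit 0) (nat_lit 0) (nat_lit 0) (nat_lit 1) (nat_lit 0) (nat_lit 1) (nat_lit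 0) (nat_lit 481) (nat_lit 344) (nat_lit 255)) (XT.lf (nat_lit 0) (nat_lit 12841289871984) (nat_lit 0) (nat_lit 0) (nat_lit 0) (nat_lit 0) (nat_lit 0) (nat_lit 0) (nat_lit 1) (nat_lit 0) (nat_lit 1) (nat_lit 0) (nat_lit 482) (nat_lit 344) (nat_lit 254)))) (XT.nd (nat_lit 188) (nat_lit 0) (nat_lit 0) (XT.nd (nat_lit 94) (nat_lit 0) (nat_lit 0) (XT.lf (nat_lit 0) (nat_lit 13868567941149) (nat_lit 0) (nat_lit 0) (nat_lit 0) (nat_lit 0) (nat_lit 0) (nat_lit 0) (nat_lit 1) (nat_lit 0) (nat_lit 1) (nat_lit 0) (nat_lit 483) (nat_lit 344) (nat_lit 253)) (XT.lf (nat_lit 0) (nat_lit 14978028259359) (nat_lit 0) (nat_lit 0) (nat_lit 0) (nat_lit 0) (nat_lit 0) (nat_lit 0) (nat_lit 1) (nat_lit 0) (nat_lit 1) (nat_lit 0) (nat_lit 484) (nat_lit 344) (nat_lit 252))) (XT.nd (nat_lit 94) (nat_lit 0) (nat_lit 0) (XT.lf (nat_lit 0) (nat_lit 16176245406276) (nat_lit 0) (nat_lit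 0) (nat_lit 0) (nat_lit 0) (nat_lit 0) (nat_lit 0) (nat_lit 1) (nat_lit 0) (nat_lit 1) (nat_lit 0) (nat_lit 485) (nat_lit 344) (nat_lit 251)) (XT.lf (nat_lit 0) (nat_lit 17470319927956) (nat_lit 0) (nat_lit 0) (nat_lit 0) (nat_lit 0) (nat_lit 0) (nat_lit 0) (nat_lit 1) (nat_lit 0) (nat_lit 1) (nat_lit 0) (nat_lit 486) (nat_lit 344) (nat_lit 250))))))))
noncomputable def xc55 : XT := (XT.nd (nat_lit 60348) (nat_lit 0) (nat_lit 0) (XT.nd (nat_lit 59032) (nat_lit 0) (nat_lit 0) (XT.nd (nat_lit 658) (nat_lit 0) (nat_lit 0) (XT.nd (nat_lit 282) (nat_lit 0) (nat_lit 0) (XT.nd (nat_lit 94) (nat_lit 0) (nat_lit 0) (XT.lf (nat_lit 0) (nat_lit 18867920414157) (nat_lit 0) (nat_lit 0) (nat_lit 0) (nat_lit 0) (nat_lit 0) (nat_lit 0) (nat_lit 1) (nat_lit 0) (nat_lit 1) (nat_lit 0) (nat_lit 487) (nat_lit 344) (nat_lit 249)) (XT.nd (nat_lit 94) (nat_lit 0) (nat_lit 0) (XT.lf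 (nat_lit 0) (nat_lit 20377328941835) (nat_lit 0) (nat_lit 0) (nat_lit 0) (nat_lit 0) (nat_lit 0) (nat_lit 0) (nat_lit 1) (nat_lit 0) (nat_lit 1) (nat_lit 0) (nat_lit 488) (nat_lit 344) (nat_lit 248)) (XT.lf (nat_lit 0) (nat_lit 22007490154116) (nat_lit 0) (nat_lit 0) (nat_lit 0) (nat_lit 0) (nat_lit 0) (nat_lit 0) (nat_lit 1) (nat_lit 0) (nat_lit 1) (nat_lit 0) (nat_lit 489) (nat_lit 344) (nat_lit 247)))) (XT.nd (nat_lit 188) (nat_lit 0) (nat_lit 0) (XT.nd (nat_lit 94) (nat_lit 0) (nat_lit 0) (XT.lf (nat_lit 0) (nat_lit 23768064265592) (nat_lit 0) (nat_lit 0) (nat_lit 0) (nat_lit 0) (nat_lit 0) (nat_lit 0) (nat_lit 1) (nat_lit 0) (nat_lit 1) (nat_lit 0) (nat_lit 490) (nat_lit 344) (nat_lit 246)) (XT.lf (nat_lit 0) (nat_lit 25669484308034) (nat_lit 0) (nat_lit 0) (nat_lit 0) (nat_lit 0) (nat_lit 0) (nat_lit 0) (nat_lit 1) (nat_lit 0) (nat_lit 1) (nat_lit 0)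 (nat_lit 491) (nat_lit 344) (nat_lit 245))) (XT.nd (nat_lit 94) (nat_lit 0) (nat_lit 0) (XT.lf (nat_lit 0) (nat_lit 27723017955769) (nat_lit 0) (nat_lit 0) (nat_lit 0) (nat_lit 0) (nat_lit 0) (nat_lit 0) (nat_lit 1) (nat_lit 0) (nat_lit 1) (nat_lit 0) (nat_lit 492) (nat_lit 344) (nat_lit 244)) (XT.lf (nat_lit 0) (nat_lit 29940834297078) (nat_lit 0) (nat_lit 0) (nat_lit 0) (nat_lit 0) (nat_lit 0) (nat_lit 0) (nat_lit 1) (nat_lit 0) (nat_lit 1) (nat_lit 0) (nat_lit 493) (nat_lit 344) (nat_lit 243))))) (XT.nd (nat_lit 57998) (nat_lit 0) (nat_lit 2268) (XT.nd (nat_lit 94) (nat_lit 0) (nat_lit 0) (XT.lf (nat_lit 0) (nat_lit 32336075947318) (nat_lit 0) (nat_lit 0) (nat_lit 0) (nat_lit 0) (nat_lit 0) (nat_lit 0) (nat_lit 1) (nat_lit 0) (nat_lit 1) (nat_lit 0) (nat_lit 494) (nat_lit 344) (nat_lit 242)) (XT.nd (nat_lit 94) (nat_lit 0) (nat_lit 0) (XT.lf (nat_lit 0)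 (nat_lit 34922936931083) (nat_lit 0) (nat_lit 0) (nat_lit 0) (nat_lit 0) (nat_lit 0) (nat_lit 0) (nat_lit 1) (nat_lit 0) (nat_lit 1) (nat_lit 0) (nat_lit 495) (nat_lit 344) (nat_lit 241)) (XT.lf (nat_lit 0) (nat_lit 37716746794943) (nat_lit 0) (nat_lit 0) (nat_lit 0) (nat_lit 0) (nat_lit 0) (nat_lit 0) (nat_lit 1) (nat_lit 0) (nat_lit 1) (nat_lit 0) (nat_lit 496) (nat_lit 344) (nat_lit 240)))) (XT.nd (nat_lit 188) (nat_lit 504) (nat_lit 0) (XT.nd (nat_lit 94) (nat_lit 168) (nat_lit 0) (XT.lf (nat_lit 0) (nat_lit 897685299) (nat_lit 168) (nat_lit 4774349444) (nat_lit 0) (nat_lit 897685299) (nat_lit 35) (nat_lit 5) (nat_lit 37) (nat_lit 4) (nat_lit 35) (nat_lit 4) (nat_lit 390) (nat_lit 345) (nat_lit 345)) (XT.lf (nat_lit 0) (nat_lit 10840789896) (nat_lit 168) (nat_lit 1691661761) (nat_lit 168) (nat_lit 1096322757) (nat_lit 33) (nat_lit 4) (nat_lit 35) (nat_lit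 5) (nat_lit 35) (nat_lit 4) (nat_lit 391) (nat_lit 345) (nat_lit 344))) (XT.nd (nat_lit 94) (nat_lit 168) (nat_lit 0) (XT.lf (nat_lit 0) (nat_lit 4260787348) (nat_lit 168) (nat_lit 5487916945) (nat_lit 168) (nat_lit 4395937112) (nat_lit 29) (nat_lit 4) (nat_lit 31) (nat_lit 5) (nat_lit 31) (nat_lit 4) (nat_lit 392) (nat_lit 345) (nat_lit 343)) (XT.lf (nat_lit 0) (nat_lit 6570213477) (nat_lit 168) (nat_lit 3054974069) (nat_lit 0) (nat_lit 5067278271) (nat_lit 27) (nat_lit 5) (nat_lit 29) (nat_lit 4) (nat_lit 27) (nat_lit 4) (nat_lit 393) (nat_lit 345) (nat_lit 342)))))) (XT.nd (nat_lit 658) (nat_lit 1008) (nat_lit 0) (XT.nd (nat_lit 282) (nat_lit 672) (nat_lit 0) (XT.nd (nat_lit 94) (nat_lit 336) (nat_lit 0) (XT.lf (nat_lit 0) (nat_lit 2984507686) (nat_lit 168) (nat_lit 11143751480) (nat_lit 0) (nat_lit 1144891782) (nat_lit 24) (nat_lit 5) (nat_lit 26) (nat_lit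 4) (nat_lit 24) (nat_lit 4) (nat_lit 394) (nat_lit 345) (nat_lit 341)) (XT.nd (nat_lit 94) (nat_lit 252) (nat_lit 0) (XT.lf (nat_lit 0) (nat_lit 11598044276) (nat_lit 84) (nat_lit 3252718687) (nat_lit 84) (nat_lit 1035094412) (nat_lit 23) (nat_lit 4) (nat_lit 24) (nat_lit 5) (nat_lit 24) (nat_lit 4) (nat_lit 395) (nat_lit 345) (nat_lit 340)) (XT.lf (nat_lit 0) (nat_lit 2815548445) (nat_lit 84) (nat_lit 8081015617) (nat_lit 84) (nat_lit 5635651782) (nat_lit 20) (nat_lit 4) (nat_lit 21) (nat_lit 5) (nat_lit 21) (nat_lit 4) (nat_lit 396) (nat_lit 345) (nat_lit 339)))) (XT.nd (nat_lit 188) (nat_lit 252) (nat_lit 0) (XT.nd (nat_lit 94) (nat_lit 252) (nat_lit 0) (XT.lf (nat_lit 0) (nat_lit 6469732148) (nat_lit 168) (nat_lit 6899688835) (nat_lit 0) (nat_lit 3846862961) (nat_lit 18) (nat_lit 5) (nat_lit 20) (nat_lit 4) (nat_lit 18) (nat_lit 4) (nat_lit 397) (nat_lit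 345) (nat_lit 338)) (XT.lf (nat_lit 0) (nat_lit 142728788) (nat_lit 84) (nat_lit 1339112702) (nat_lit 168) (nat_lit 16460983727) (nat_lit 15) (nat_lit 5) (nat_lit 16) (nat_lit 5) (nat_lit 17) (nat_lit 4) (nat_lit 398) (nat_lit 345) (nat_lit 337))) (XT.nd (nat_lit 94) (nat_lit 168) (nat_lit 0) (XT.lf (nat_lit 0) (nat_lit 7549918523) (nat_lit 84) (nat_lit 7075155439) (nat_lit 84) (nat_lit 4077953454) (nat_lit 14) (nat_lit 4) (nat_lit 15) (nat_lit 5) (nat_lit 15) (nat_lit 4) (nat_lit 399) (nat_lit 345) (nat_lit 336)) (XT.lf (nat_lit 0) (nat_lit 9141904194) (nat_lit 168) (nat_lit 4291927067) (nat_lit 0) (nat_lit 6075772618) (nat_lit 12) (nat_lit 5) (nat_lit 14) (nat_lit 4) (nat_lit 12) (nat_lit 4) (nat_lit 400) (nat_lit 345) (nat_lit 335))))) (XT.nd (nat_lit 282) (nat_lit 504) (nat_lit 0) (XT.nd (nat_lit 94) (nat_lit 252) (nat_lit 0) (XT.lf (nat_lit 0) (nat_lit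 2931350082) (nat_lit 84) (nat_lit 89848511) (nat_lit 168) (nat_lit 17343158443) (nat_lit 9) (nat_lit 5) (nat_lit 10) (nat_lit 5) (nat_lit 11) (nat_lit 4) (nat_lit 401) (nat_lit 345) (nat_lit 334)) (XT.nd (nat_lit 94) (nat_lit 168) (nat_lit 0) (XT.lf (nat_lit 0) (nat_lit 10431565820) (nat_lit 84) (nat_lit 7054308996) (nat_lit 84) (nat_lit 3774722527) (nat_lit 8) (nat_lit 4) (nat_lit 9) (nat_lit 5) (nat_lit 9) (nat_lit 4) (nat_lit 402) (nat_lit 345) (nat_lit 333)) (XT.lf (nat_lit 0) (nat_lit 10738033710) (nat_lit 168) (nat_lit 4009436745) (nat_lit 0) (nat_lit 7462221319) (nat_lit 6) (nat_lit 5) (nat_lit 8) (nat_lit 4) (nat_lit 6) (nat_lit 4) (nat_lit 403) (nat_lit 345) (nat_lit 332)))) (XT.nd (nat_lit 188) (nat_lit 168) (nat_lit 0) (XT.nd (nat_lit 94) (nat_lit 84) (nat_lit 0) (XT.lf (nat_lit 0) (nat_lit 3212748587) (nat_lit 84) (nat_lit 21236309) (nat_lit 168)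 (nat_lit 19981075717) (nat_lit 3) (nat_lit 5) (nat_lit 4) (nat_lit 5) (nat_lit 5) (nat_lit 4) (nat_lit 404) (nat_lit 345) (nat_lit 331)) (XT.lf (nat_lit 0) (nat_lit 10691232563) (nat_lit 84) (nat_lit 8478055637) (nat_lit 84) (nat_lit 5099411766) (nat_lit 2) (nat_lit 4) (nat_lit 3) (nat_lit 5) (nat_lit 3) (nat_lit 4) (nat_lit 405) (nat_lit 345) (nat_lit 330))) (XT.nd (nat_lit 94) (nat_lit 0) (nat_lit 0) (XT.lf (nat_lit 0) (nat_lit 37453556958) (nat_lit 0) (nat_lit 0) (nat_lit 0) (nat_lit 0) (nat_lit 0) (nat_lit 0) (nat_lit 1) (nat_lit 0) (nat_lit 1) (nat_lit 0) (nat_lit 406) (nat_lit 345) (nat_lit 329)) (XT.lf (nat_lit 0) (nat_lit 40407539712) (nat_lit 0) (nat_lit 0) (nat_lit 0) (nat_lit 0) (nat_lit 0) (nat_lit 0) (nat_lit 1) (nat_lit 0) (nat_lit 1) (nat_lit 0) (nat_lit 407) (nat_lit 345) (nat_lit 328))))))) (XT.nd (nat_lit 1316) (nat_lit 0) (nat_lit 0) (XT.nd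 (nat_lit 658) (nat_lit 0) (nat_lit 0) (XT.nd (nat_lit 282) (nat_lit 0) (nat_lit 0) (XT.nd (nat_lit 94) (nat_lit 0) (nat_lit 0) (XT.lf (nat_lit 0) (nat_lit 43598968697) (nat_lit 0) (nat_lit 0) (nat_lit 0) (nat_lit 0) (nat_lit 0) (nat_lit 0) (nat_lit 1) (nat_lit 0) (nat_lit 1) (nat_lit 0) (nat_lit 408) (nat_lit 345) (nat_lit 327)) (XT.nd (nat_lit 94) (nat_lit 0) (nat_lit 0) (XT.lf (nat_lit 0) (nat_lit 47046756084) (nat_lit 0) (nat_lit 0) (nat_lit 0) (nat_lit 0) (nat_lit 0) (nat_lit 0) (nat_lit 1) (nat_lit 0) (nat_lit 1) (nat_lit 0) (nat_lit 409) (nat_lit 345) (nat_lit 326)) (XT.lf (nat_lit 0) (nat_lit 50771333208) (nat_lit 0) (nat_lit 0) (nat_lit 0) (nat_lit 0) (nat_lit 0) (nat_lit 0) (nat_lit 1) (nat_lit 0) (nat_lit 1) (nat_lit 0) (nat_lit 410) (nat_lit 345) (nat_lit 325)))) (XT.nd (nat_lit 188) (nat_lit 0) (nat_lit 0) (XT.nd (nat_lit 94) (nat_lit 0) (nat_lit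 0) (XT.lf (nat_lit 0) (nat_lit 54794771635) (nat_lit 0) (nat_lit 0) (nat_lit 0) (nat_lit 0) (nat_lit 0) (nat_lit 0) (nat_lit 1) (nat_lit 0) (nat_lit 1) (nat_lit 0) (nat_lit 411) (nat_lit 345) (nat_lit 324)) (XT.lf (nat_lit 0) (nat_lit 59140913964) (nat_lit 0) (nat_lit 0) (nat_lit 0) (nat_lit 0) (nat_lit 0) (nat_lit 0) (nat_lit 1) (nat_lit 0) (nat_lit 1) (nat_lit 0) (nat_lit 412) (nat_lit 345) (nat_lit 323))) (XT.nd (nat_lit 94) (nat_lit 0) (nat_lit 0) (XT.lf (nat_lit 0) (nat_lit 63835515113) (nat_lit 0) (nat_lit 0) (nat_lit 0) (nat_lit 0) (nat_lit 0) (nat_lit 0) (nat_lit 1) (nat_lit 0) (nat_lit 1) (nat_lit 0) (nat_lit 413) (nat_lit 345) (nat_lit 322)) (XT.lf (nat_lit 0) (nat_lit 68906394939) (nat_lit 0) (nat_lit 0) (nat_lit 0) (nat_lit 0) (nat_lit 0) (nat_lit 0) (nat_lit 1) (nat_lit 0) (nat_lit 1) (nat_lit 0) (nat_lit 414) (nat_lit 345) (nat_lit 321))))) (XT.nd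 (nat_lit 282) (nat_lit 0) (nat_lit 0) (XT.nd (nat_lit 94) (nat_lit 0) (nat_lit 0) (XT.lf (nat_lit 0) (nat_lit 74383603102) (nat_lit 0) (nat_lit 0) (nat_lit 0) (nat_lit 0) (nat_lit 0) (nat_lit 0) (nat_lit 1) (nat_lit 0) (nat_lit 1) (nat_lit 0) (nat_lit 415) (nat_lit 345) (nat_lit 320)) (XT.nd (nat_lit 94) (nat_lit 0) (nat_lit 0) (XT.lf (nat_lit 0) (nat_lit 80299597131) (nat_lit 0) (nat_lit 0) (nat_lit 0) (nat_lit 0) (nat_lit 0) (nat_lit 0) (nat_lit 1) (nat_lit 0) (nat_lit 1) (nat_lit 0) (nat_lit 416) (nat_lit 345) (nat_lit 319)) (XT.lf (nat_lit 0) (nat_lit 86689434768) (nat_lit 0) (nat_lit 0) (nat_lit 0) (nat_lit 0) (nat_lit 0) (nat_lit 0) (nat_lit 1) (nat_lit 0) (nat_lit 1) (nat_lit 0) (nat_lit 417) (nat_lit 345) (nat_lit 318)))) (XT.nd (nat_lit 188) (nat_lit 0) (nat_lit 0) (XT.nd (nat_lit 94) (nat_lit 0) (nat_lit 0) (XT.lf (nat_lit 0) (nat_lit 93590981718)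 (nat_lit 0) (nat_lit 0) (nat_lit 0) (nat_lit 0) (nat_lit 0) (nat_lit 0) (nat_lit 1) (nat_lit 0) (nat_lit 1) (nat_lit 0) (nat_lit 418) (nat_lit 345) (nat_lit 317)) (XT.lf (nat_lit 0) (nat_lit 101045136037) (nat_lit 0) (nat_lit 0) (nat_lit 0) (nat_lit 0) (nat_lit 0) (nat_lit 0) (nat_lit 1) (nat_lit 0) (nat_lit 1) (nat_lit 0) (nat_lit 419) (nat_lit 345) (nat_lit 316))) (XT.nd (nat_lit 94) (nat_lit 0) (nat_lit 0) (XT.lf (nat_lit 0) (nat_lit 109096070491) (nat_lit 0) (nat_lit 0) (nat_lit 0) (nat_lit 0) (nat_lit 0) (nat_lit 0) (nat_lit 1) (nat_lit 0) (nat_lit 1) (nat_lit 0) (nat_lit 420) (nat_lit 345) (nat_lit 315)) (XT.lf (nat_lit 0) (nat_lit 117791494322) (nat_lit 0) (nat_lit 0) (nat_lit 0) (nat_lit 0) (nat_lit 0) (nat_lit 0) (nat_lit 1) (nat_lit 0) (nat_lit 1) (nat_lit 0) (nat_lit 421) (nat_lit 345) (nat_lit 314)))))) (XT.nd (nat_lit 658) (nat_lit 0) (nat_lit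 0) (XT.nd (nat_lit 282) (nat_lit 0) (nat_lit 0) (XT.nd (nat_lit 94) (nat_lit 0) (nat_lit 0) (XT.lf (nat_lit 0) (nat_lit 127182935967) (nat_lit 0) (nat_lit 0) (nat_lit 0) (nat_lit 0) (nat_lit 0) (nat_lit 0) (nat_lit 1) (nat_lit 0) (nat_lit 1) (nat_lit 0) (nat_lit 422) (nat_lit 345) (nat_lit 313)) (XT.nd (nat_lit 94) (nat_lit 0) (nat_lit 0) (XT.lf (nat_lit 0) (nat_lit 137326048414) (nat_lit 0) (nat_lit 0) (nat_lit 0) (nat_lit 0) (nat_lit 0) (nat_lit 0) (nat_lit 1) (nat_lit 0) (nat_lit 1) (nat_lit 0) (nat_lit 423) (nat_lit 345) (nat_lit 312)) (XT.lf (nat_lit 0) (nat_lit 148280938995) (nat_lit 0) (nat_lit 0) (nat_lit 0) (nat_lit 0) (nat_lit 0) (nat_lit 0) (nat_lit 1) (nat_lit 0) (nat_lit 1) (nat_lit 0) (nat_lit 424) (nat_lit 345) (nat_lit 311)))) (XT.nd (nat_lit 188) (nat_lit 0) (nat_lit 0) (XT.nd (nat_lit 94) (nat_lit 0) (nat_lit 0) (XT.lf (nat_lit 0) (nat_lit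 160112525581) (nat_lit 0) (nat_lit 0) (nat_lit 0) (nat_lit 0) (nat_lit 0) (nat_lit 0) (nat_lit 1) (nat_lit 0) (nat_lit 1) (nat_lit 0) (nat_lit 425) (nat_lit 345) (nat_lit 310)) (XT.lf (nat_lit 0) (nat_lit 172890921277) (nat_lit 0) (nat_lit 0) (nat_lit 0) (nat_lit 0) (nat_lit 0) (nat_lit 0) (nat_lit 1) (nat_lit 0) (nat_lit 1) (nat_lit 0) (nat_lit 426) (nat_lit 345) (nat_lit 309))) (XT.nd (nat_lit 94) (nat_lit 0) (nat_lit 0) (XT.lf (nat_lit 0) (nat_lit 186691849910) (nat_lit 0) (nat_lit 0) (nat_lit 0) (nat_lit 0) (nat_lit 0) (nat_lit 0) (nat_lit 1) (nat_lit 0) (nat_lit 1) (nat_lit 0) (nat_lit 427) (nat_lit 345) (nat_lit 308)) (XT.lf (nat_lit 0) (nat_lit 201597094761) (nat_lit 0) (nat_lit 0) (nat_lit 0) (nat_lit 0) (nat_lit 0) (nat_lit 0) (nat_lit 1) (nat_lit 0) (nat_lit 1) (nat_lit 0) (nat_lit 428) (nat_lit 345) (nat_lit 307))))) (XT.nd (nat_lit 376) (nat_lit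 0) (nat_lit 0) (XT.nd (nat_lit 188) (nat_lit 0) (nat_lit 0) (XT.nd (nat_lit 94) (nat_lit 0) (nat_lit 0) (XT.lf (nat_lit 0) (nat_lit 217694983205) (nat_lit 0) (nat_lit 0) (nat_lit 0) (nat_lit 0) (nat_lit 0) (nat_lit 0) (nat_lit 1) (nat_lit 0) (nat_lit 1) (nat_lit 0) (nat_lit 429) (nat_lit 345) (nat_lit 306)) (XT.lf (nat_lit 0) (nat_lit 235080910139) (nat_lit 0) (nat_lit 0) (nat_lit 0) (nat_lit 0) (nat_lit 0) (nat_lit 0) (nat_lit 1) (nat_lit 0) (nat_lit 1) (nat_lit 0) (nat_lit 430) (nat_lit 345) (nat_lit 305))) (XT.nd (nat_lit 94) (nat_lit 0) (nat_lit 0) (XT.lf (nat_lit 0) (nat_lit 253857903277) (nat_lit 0) (nat_lit 0) (nat_lit 0) (nat_lit 0) (nat_lit 0) (nat_lit 0) (nat_lit 1) (nat_lit 0) (nat_lit 1) (nat_lit 0) (nat_lit 431) (nat_lit 345) (nat_lit 304)) (XT.lf (nat_lit 0) (nat_lit 274137233689) (nat_lit 0) (nat_lit 0) (nat_lit 0) (nat_lit 0) (nat_lit 0) (nat_lit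 0) (nat_lit 1) (nat_lit 0) (nat_lit 1) (nat_lit 0) (nat_lit 432) (nat_lit 345) (nat_lit 303)))) (XT.nd (nat_lit 188) (nat_lit 0) (nat_lit 0) (XT.nd (nat_lit 94) (nat_lit 0) (nat_lit 0) (XT.lf (nat_lit 0) (nat_lit 296039075186) (nat_lit 0) (nat_lit 0) (nat_lit 0) (nat_lit 0) (nat_lit 0) (nat_lit 0) (nat_lit 1) (nat_lit 0) (nat_lit 1) (nat_lit 0) (nat_lit 433) (nat_lit 345) (nat_lit 302)) (XT.lf (nat_lit 0) (nat_lit 319693216458) (nat_lit 0) (nat_lit 0) (nat_lit 0) (nat_lit 0) (nat_lit 0) (nat_lit 0) (nat_lit 1) (nat_lit 0) (nat_lit 1) (nat_lit 0) (nat_lit 434) (nat_lit 345) (nat_lit 301))) (XT.nd (nat_lit 94) (nat_lit 0) (nat_lit 0) (XT.lf (nat_lit 0) (nat_lit 345239830193) (nat_lit 0) (nat_lit 0) (nat_lit 0) (nat_lit 0) (nat_lit 0) (nat_lit 0) (nat_lit 1) (nat_lit 0) (nat_lit 1) (nat_lit 0) (nat_lit 435) (nat_lit 345) (nat_lit 300)) (XT.lf (nat_lit 0) (nat_lit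 372830303732) (nat_lit 0) (nat_lit 0) (nat_lit 0) (nat_lit 0) (nat_lit 0) (nat_lit 0) (nat_lit 1) (nat_lit 0) (nat_lit 1) (nat_lit 0) (nat_lit 436) (nat_lit 345) (nat_lit 299))))))))
noncomputable def xc56 : XT := (XT.nd (nat_lit 2632) (nat_lit 0) (nat_lit 0) (XT.nd (nat_lit 1316) (nat_lit 0) (nat_lit 0) (XT.nd (nat_lit 658) (nat_lit 0) (nat_lit 0) (XT.nd (nat_lit 282) (nat_lit 0) (nat_lit 0) (XT.nd (nat_lit 94) (nat_lit 0) (nat_lit 0) (XT.lf (nat_lit 0) (nat_lit 402628136179) (nat_lit 0) (nat_lit 0) (nat_lit 0) (nat_lit 0) (nat_lit 0) (nat_lit 0) (nat_lit 1) (nat_lit 0) (nat_lit 1) (nat_lit 0) (nat_lit 437) (nat_lit 345) (nat_lit 298)) (XT.nd (nat_lit 94) (nat_lit 0) (nat_lit 0) (XT.lf (nat_lit 0) (nat_lit 434809907280) (nat_lit 0) (nat_lit 0) (nat_lit 0) (nat_lit 0) (nat_lit 0) (nat_lit 0) (nat_lit 1) (nat_lit 0) (nat_lit 1) (nat_lit 0) (nat_lit 438) (nat_lit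 345) (nat_lit 297)) (XT.lf (nat_lit 0) (nat_lit 469566323828) (nat_lit 0) (nat_lit 0) (nat_lit 0) (nat_lit 0) (nat_lit 0) (nat_lit 0) (nat_lit 1) (nat_lit 0) (nat_lit 1) (nat_lit 0) (nat_lit 439) (nat_lit 345) (nat_lit 296)))) (XT.nd (nat_lit 188) (nat_lit 0) (nat_lit 0) (XT.nd (nat_lit 94) (nat_lit 0) (nat_lit 0) (XT.lf (nat_lit 0) (nat_lit 507103349771) (nat_lit 0) (nat_lit 0) (nat_lit 0) (nat_lit 0) (nat_lit 0) (nat_lit 0) (nat_lit 1) (nat_lit 0) (nat_lit 1) (nat_lit 0) (nat_lit 440) (nat_lit 345) (nat_lit 295)) (XT.lf (nat_lit 0) (nat_lit 547643426747) (nat_lit 0) (nat_lit 0) (nat_lit 0) (nat_lit 0) (nat_lit 0) (nat_lit 0) (nat_lit 1) (nat_lit 0) (nat_lit 1) (nat_lit 0) (nat_lit 441) (nat_lit 345) (nat_lit 294))) (XT.nd (nat_lit 94) (nat_lit 0) (nat_lit 0) (XT.lf (nat_lit 0) (nat_lit 591426792247) (nat_lit 0) (nat_lit 0) (nat_lit 0) (nat_lit 0) (nat_lit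 0) (nat_lit 0) (nat_lit 1) (nat_lit 0) (nat_lit 1) (nat_lit 0) (nat_lit 442) (nat_lit 345) (nat_lit 293)) (XT.lf (nat_lit 0) (nat_lit 638712903252) (nat_lit 0) (nat_lit 0) (nat_lit 0) (nat_lit 0) (nat_lit 0) (nat_lit 0) (nat_lit 1) (nat_lit 0) (nat_lit 1) (nat_lit 0) (nat_lit 443) (nat_lit 345) (nat_lit 292))))) (XT.nd (nat_lit 282) (nat_lit 0) (nat_lit 0) (XT.nd (nat_lit 94) (nat_lit 0) (nat_lit 0) (XT.lf (nat_lit 0) (nat_lit 689781973754) (nat_lit 0) (nat_lit 0) (nat_lit 0) (nat_lit 0) (nat_lit 0) (nat_lit 0) (nat_lit 1) (nat_lit 0) (nat_lit 1) (nat_lit 0) (nat_lit 444) (nat_lit 345) (nat_lit 291)) (XT.nd (nat_lit 94) (nat_lit 0) (nat_lit 0) (XT.lf (nat_lit 0) (nat_lit 744936635282) (nat_lit 0) (nat_lit 0) (nat_lit 0) (nat_lit 0) (nat_lit 0) (nat_lit 0) (nat_lit 1) (nat_lit 0) (nat_lit 1) (nat_lit 0) (nat_lit 445) (nat_lit 345) (nat_lit 290)) (XT.lf (nat_lit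 0) (nat_lit 804503730273) (nat_lit 0) (nat_lit 0) (nat_lit 0) (nat_lit 0) (nat_lit 0) (nat_lit 0) (nat_lit 1) (nat_lit 0) (nat_lit 1) (nat_lit 0) (nat_lit 446) (nat_lit 345) (nat_lit 289)))) (XT.nd (nat_lit 188) (nat_lit 0) (nat_lit 0) (XT.nd (nat_lit 94) (nat_lit 0) (nat_lit 0) (XT.lf (nat_lit 0) (nat_lit 868836248922) (nat_lit 0) (nat_lit 0) (nat_lit 0) (nat_lit 0) (nat_lit 0) (nat_lit 0) (nat_lit 1) (nat_lit 0) (nat_lit 1) (nat_lit 0) (nat_lit 447) (nat_lit 345) (nat_lit 288)) (XT.lf (nat_lit 0) (nat_lit 938315420967) (nat_lit 0) (nat_lit 0) (nat_lit 0) (nat_lit 0) (nat_lit 0) (nat_lit 0) (nat_lit 1) (nat_lit 0) (nat_lit 1) (nat_lit 0) (nat_lit 448) (nat_lit 345) (nat_lit 287))) (XT.nd (nat_lit 94) (nat_lit 0) (nat_lit 0) (XT.lf (nat_lit 0) (nat_lit 1013352974836) (nat_lit 0) (nat_lit 0) (nat_lit 0) (nat_lit 0) (nat_lit 0) (nat_lit 0) (nat_lit 1) (nat_lit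 0) (nat_lit 1) (nat_lit 0) (nat_lit 449) (nat_lit 345) (nat_lit 286)) (XT.lf (nat_lit 0) (nat_lit 1094393577515) (nat_lit 0) (nat_lit 0) (nat_lit 0) (nat_lit 0) (nat_lit 0) (nat_lit 0) (nat_lit 1) (nat_lit 0) (nat_lit 1) (nat_lit 0) (nat_lit 450) (nat_lit 345) (nat_lit 285)))))) (XT.nd (nat_lit 658) (nat_lit 0) (nat_lit 0) (XT.nd (nat_lit 282) (nat_lit 0) (nat_lit 0) (XT.nd (nat_lit 94) (nat_lit 0) (nat_lit 0) (XT.lf (nat_lit 0) (nat_lit 1181917469612) (nat_lit 0) (nat_lit 0) (nat_lit 0) (nat_lit 0) (nat_lit 0) (nat_lit 0) (nat_lit 1) (nat_lit 0) (nat_lit 1) (nat_lit 0) (nat_lit 451) (nat_lit 345) (nat_lit 284)) (XT.nd (nat_lit 94) (nat_lit 0) (nat_lit 0) (XT.lf (nat_lit 0) (nat_lit 1276443311228) (nat_lit 0) (nat_lit 0) (nat_lit 0) (nat_lit 0) (nat_lit 0) (nat_lit 0) (nat_lit 1) (nat_lit 0) (nat_lit 1) (nat_lit 0) (nat_lit 452) (nat_lit 345) (nat_lit 283))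 (XT.lf (nat_lit 0) (nat_lit 1378531255499) (nat_lit 0) (nat_lit 0) (nat_lit 0) (nat_lit 0) (nat_lit 0) (nat_lit 0) (nat_lit 1) (nat_lit 0) (nat_lit 1) (nat_lit 0) (nat_lit 453) (nat_lit 345) (nat_lit 282)))) (XT.nd (nat_lit 188) (nat_lit 0) (nat_lit 0) (XT.nd (nat_lit 94) (nat_lit 0) (nat_lit 0) (XT.lf (nat_lit 0) (nat_lit 1488786268021) (nat_lit 0) (nat_lit 0) (nat_lit 0) (nat_lit 0) (nat_lit 0) (nat_lit 0) (nat_lit 1) (nat_lit 0) (nat_lit 1) (nat_lit 0) (nat_lit 454) (nat_lit 345) (nat_lit 281)) (XT.lf (nat_lit 0) (nat_lit 1607861711831) (nat_lit 0) (nat_lit 0) (nat_lit 0) (nat_lit 0) (nat_lit 0) (nat_lit 0) (nat_lit 1) (nat_lit 0) (nat_lit 1) (nat_lit 0) (nat_lit 455) (nat_lit 345) (nat_lit 280))) (XT.nd (nat_lit 94) (nat_lit 0) (nat_lit 0) (XT.lf (nat_lit 0) (nat_lit 1736463219188) (nat_lit 0) (nat_lit 0) (nat_lit 0) (nat_lit 0) (nat_lit 0) (nat_lit 0)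 (nat_lit 1) (nat_lit 0) (nat_lit 1) (nat_lit 0) (nat_lit 456) (nat_lit 345) (nat_lit 279)) (XT.lf (nat_lit 0) (nat_lit 1875352873099) (nat_lit 0) (nat_lit 0) (nat_lit 0) (nat_lit 0) (nat_lit 0) (nat_lit 0) (nat_lit 1) (nat_lit 0) (nat_lit 1) (nat_lit 0) (nat_lit 457) (nat_lit 345) (nat_lit 278))))) (XT.nd (nat_lit 282) (nat_lit 0) (nat_lit 0) (XT.nd (nat_lit 94) (nat_lit 0) (nat_lit 0) (XT.lf (nat_lit 0) (nat_lit 2025353723365) (nat_lit 0) (nat_lit 0) (nat_lit 0) (nat_lit 0) (nat_lit 0) (nat_lit 0) (nat_lit 1) (nat_lit 0) (nat_lit 1) (nat_lit 0) (nat_lit 458) (nat_lit 345) (nat_lit 277)) (XT.nd (nat_lit 94) (nat_lit 0) (nat_lit 0) (XT.lf (nat_lit 0) (nat_lit 2187354663914) (nat_lit 0) (nat_lit 0) (nat_lit 0) (nat_lit 0) (nat_lit 0) (nat_lit 0) (nat_lit 1) (nat_lit 0) (nat_lit 1) (nat_lit 0) (nat_lit 459) (nat_lit 345) (nat_lit 276)) (XT.lf (nat_lit 0) (nat_lit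 2362315700319) (nat_lit 0) (nat_lit 0) (nat_lit 0) (nat_lit 0) (nat_lit 0) (nat_lit 0) (nat_lit 1) (nat_lit 0) (nat_lit 1) (nat_lit 0) (nat_lit 460) (nat_lit 345) (nat_lit 275)))) (XT.nd (nat_lit 188) (nat_lit 0) (nat_lit 0) (XT.nd (nat_lit 94) (nat_lit 0) (nat_lit 0) (XT.lf (nat_lit 0) (nat_lit 2551273638721) (nat_lit 0) (nat_lit 0) (nat_lit 0) (nat_lit 0) (nat_lit 0) (nat_lit 0) (nat_lit 1) (nat_lit 0) (nat_lit 1) (nat_lit 0) (nat_lit 461) (nat_lit 345) (nat_lit 274)) (XT.lf (nat_lit 0) (nat_lit 2755348229867) (nat_lit 0) (nat_lit 0) (nat_lit 0) (nat_lit 0) (nat_lit 0) (nat_lit 0) (nat_lit 1) (nat_lit 0) (nat_lit 1) (nat_lit 0) (nat_lit 462) (nat_lit 345) (nat_lit 273))) (XT.nd (nat_lit 94) (nat_lit 0) (nat_lit 0) (XT.lf (nat_lit 0) (nat_lit 2975748804668) (nat_lit 0) (nat_lit 0) (nat_lit 0) (nat_lit 0) (nat_lit 0) (nat_lit 0) (nat_lit 1) (nat_lit 0) (nat_lit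 1) (nat_lit 0) (nat_lit 463) (nat_lit 345) (nat_lit 272)) (XT.lf (nat_lit 0) (nat_lit 3213781440603) (nat_lit 0) (nat_lit 0) (nat_lit 0) (nat_lit 0) (nat_lit 0) (nat_lit 0) (nat_lit 1) (nat_lit 0) (nat_lit 1) (nat_lit 0) (nat_lit 464) (nat_lit 345) (nat_lit 271))))))) (XT.nd (nat_lit 1316) (nat_lit 0) (nat_lit 0) (XT.nd (nat_lit 658) (nat_lit 0) (nat_lit 0) (XT.nd (nat_lit 282) (nat_lit 0) (nat_lit 0) (XT.nd (nat_lit 94) (nat_lit 0) (nat_lit 0) (XT.lf (nat_lit 0) (nat_lit 3470856701441) (nat_lit 0) (nat_lit 0) (nat_lit 0) (nat_lit 0) (nat_lit 0) (nat_lit 0) (nat_lit 1) (nat_lit 0) (nat_lit 1) (nat_lit 0) (nat_lit 465) (nat_lit 345) (nat_lit 270)) (XT.nd (nat_lit 94) (nat_lit 0) (nat_lit 0) (XT.lf (nat_lit 0) (nat_lit 3748497996135) (nat_lit 0) (nat_lit 0) (nat_lit 0) (nat_lit 0) (nat_lit 0) (nat_lit 0) (nat_lit 1) (nat_lit 0) (nat_lit 1) (nat_lit 0) (nat_lit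 466) (nat_lit 345) (nat_lit 269)) (XT.lf (nat_lit 0) (nat_lit 4048350606432) (nat_lit 0) (nat_lit 0) (nat_lit 0) (nat_lit 0) (nat_lit 0) (nat_lit 0) (nat_lit 1) (nat_lit 0) (nat_lit 1) (nat_lit 0) (nat_lit 467) (nat_lit 345) (nat_lit 268)))) (XT.nd (nat_lit 188) (nat_lit 0) (nat_lit 0) (XT.nd (nat_lit 94) (nat_lit 0) (nat_lit 0) (XT.lf (nat_lit 0) (nat_lit 4372191436689) (nat_lit 0) (nat_lit 0) (nat_lit 0) (nat_lit 0) (nat_lit 0) (nat_lit 0) (nat_lit 1) (nat_lit 0) (nat_lit 1) (nat_lit 0) (nat_lit 468) (nat_lit 345) (nat_lit 267)) (XT.lf (nat_lit 0) (nat_lit 4721939543678) (nat_lit 0) (nat_lit 0) (nat_lit 0) (nat_lit 0) (nat_lit 0) (nat_lit 0) (nat_lit 1) (nat_lit 0) (nat_lit 1) (nat_lit 0) (nat_lit 469) (nat_lit 345) (nat_lit 266))) (XT.nd (nat_lit 94) (nat_lit 0) (nat_lit 0) (XT.lf (nat_lit 0) (nat_lit 5099667508773) (nat_lit 0) (nat_lit 0) (nat_lit 0) (nat_lit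 0) (nat_lit 0) (nat_lit 0) (nat_lit 1) (nat_lit 0) (nat_lit 1) (nat_lit 0) (nat_lit 470) (nat_lit 345) (nat_lit 265)) (XT.lf (nat_lit 0) (nat_lit 5507613719916) (nat_lit 0) (nat_lit 0) (nat_lit 0) (nat_lit 0) (nat_lit 0) (nat_lit 0) (nat_lit 1) (nat_lit 0) (nat_lit 1) (nat_lit 0) (nat_lit 471) (nat_lit 345) (nat_lit 264))))) (XT.nd (nat_lit 282) (nat_lit 0) (nat_lit 0) (XT.nd (nat_lit 94) (nat_lit 0) (nat_lit 0) (XT.lf (nat_lit 0) (nat_lit 5948195636136) (nat_lit 0) (nat_lit 0) (nat_lit 0) (nat_lit 0) (nat_lit 0) (nat_lit 0) (nat_lit 1) (nat_lit 0) (nat_lit 1) (nat_lit 0) (nat_lit 472) (nat_lit 345) (nat_lit 263)) (XT.nd (nat_lit 94) (nat_lit 0) (nat_lit 0) (XT.lf (nat_lit 0) (nat_lit 6424024113232) (nat_lit 0) (nat_lit 0) (nat_lit 0) (nat_lit 0) (nat_lit 0) (nat_lit 0) (nat_lit 1) (nat_lit 0) (nat_lit 1) (nat_lit 0) (nat_lit 473) (nat_lit 345) (nat_lit 262))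 (XT.lf (nat_lit 0) (nat_lit 6937918875514) (nat_lit 0) (nat_lit 0) (nat_lit 0) (nat_lit 0) (nat_lit 0) (nat_lit 0) (nat_lit 1) (nat_lit 0) (nat_lit 1) (nat_lit 0) (nat_lit 474) (nat_lit 345) (nat_lit 261)))) (XT.nd (nat_lit 188) (nat_lit 0) (nat_lit 0) (XT.nd (nat_lit 94) (nat_lit 0) (nat_lit 0) (XT.lf (nat_lit 0) (nat_lit 7492925225276) (nat_lit 0) (nat_lit 0) (nat_lit 0) (nat_lit 0) (nat_lit 0) (nat_lit 0) (nat_lit 1) (nat_lit 0) (nat_lit 1) (nat_lit 0) (nat_lit 475) (nat_lit 345) (nat_lit 260)) (XT.lf (nat_lit 0) (nat_lit 8092332089036) (nat_lit 0) (nat_lit 0) (nat_lit 0) (nat_lit 0) (nat_lit 0) (nat_lit 0) (nat_lit 1) (nat_lit 0) (nat_lit 1) (nat_lit 0) (nat_lit 476) (nat_lit 345) (nat_lit 259))) (XT.nd (nat_lit 94) (nat_lit 0) (nat_lit 0) (XT.lf (nat_lit 0) (nat_lit 8739691507467) (nat_lit 0) (nat_lit 0) (nat_lit 0) (nat_lit 0) (nat_lit 0) (nat_lit 0)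 (nat_lit 1) (nat_lit 0) (nat_lit 1) (nat_lit 0) (nat_lit 477) (nat_lit 345) (nat_lit 258)) (XT.lf (nat_lit 0) (nat_lit 9438839684531) (nat_lit 0) (nat_lit 0) (nat_lit 0) (nat_lit 0) (nat_lit 0) (nat_lit 0) (nat_lit 1) (nat_lit 0) (nat_lit 1) (nat_lit 0) (nat_lit 478) (nat_lit 345) (nat_lit 257)))))) (XT.nd (nat_lit 658) (nat_lit 0) (nat_lit 0) (XT.nd (nat_lit 282) (nat_lit 0) (nat_lit 0) (XT.nd (nat_lit 94) (nat_lit 0) (nat_lit 0) (XT.lf (nat_lit 0) (nat_lit 10193919720536) (nat_lit 0) (nat_lit 0) (nat_lit 0) (nat_lit 0) (nat_lit 0) (nat_lit 0) (nat_lit 1) (nat_lit 0) (nat_lit 1) (nat_lit 0) (nat_lit 479) (nat_lit 345) (nat_lit 256)) (XT.nd (nat_lit 94) (nat_lit 0) (nat_lit 0) (XT.lf (nat_lit 0) (nat_lit 11009406163844) (nat_lit 0) (nat_lit 0) (nat_lit 0) (nat_lit 0) (nat_lit 0) (nat_lit 0) (nat_lit 1) (nat_lit 0) (nat_lit 1) (nat_lit 0) (nat_lit 480) (nat_lit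 345) (nat_lit 255)) (XT.lf (nat_lit 0) (nat_lit 11890131526711) (nat_lit 0) (nat_lit 0) (nat_lit 0) (nat_lit 0) (nat_lit 0) (nat_lit 0) (nat_lit 1) (nat_lit 0) (nat_lit 1) (nat_lit 0) (nat_lit 481) (nat_lit 345) (nat_lit 254)))) (XT.nd (nat_lit 188) (nat_lit 0) (nat_lit 0) (XT.nd (nat_lit 94) (nat_lit 0) (nat_lit 0) (XT.lf (nat_lit 0) (nat_lit 12841314922399) (nat_lit 0) (nat_lit 0) (nat_lit 0) (nat_lit 0) (nat_lit 0) (nat_lit 0) (nat_lit 1) (nat_lit 0) (nat_lit 1) (nat_lit 0) (nat_lit 482) (nat_lit 345) (nat_lit 253)) (XT.lf (nat_lit 0) (nat_lit 13868592993252) (nat_lit 0) (nat_lit 0) (nat_lit 0) (nat_lit 0) (nat_lit 0) (nat_lit 0) (nat_lit 1) (nat_lit 0) (nat_lit 1) (nat_lit 0) (nat_lit 483) (nat_lit 345) (nat_lit 252))) (XT.nd (nat_lit 94) (nat_lit 0) (nat_lit 0) (XT.lf (nat_lit 0) (nat_lit 14978053313025) (nat_lit 0) (nat_lit 0) (nat_lit 0) (nat_lit 0)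 (nat_lit 0) (nat_lit 0) (nat_lit 1) (nat_lit 0) (nat_lit 1) (nat_lit 0) (nat_lit 484) (nat_lit 345) (nat_lit 251)) (XT.lf (nat_lit 0) (nat_lit 16176270461389) (nat_lit 0) (nat_lit 0) (nat_lit 0) (nat_lit 0) (nat_lit 0) (nat_lit 0) (nat_lit 1) (nat_lit 0) (nat_lit 1) (nat_lit 0) (nat_lit 485) (nat_lit 345) (nat_lit 250))))) (XT.nd (nat_lit 282) (nat_lit 0) (nat_lit 0) (XT.nd (nat_lit 94) (nat_lit 0) (nat_lit 0) (XT.lf (nat_lit 0) (nat_lit 17470344984409) (nat_lit 0) (nat_lit 0) (nat_lit 0) (nat_lit 0) (nat_lit 0) (nat_lit 0) (nat_lit 1) (nat_lit 0) (nat_lit 1) (nat_lit 0) (nat_lit 486) (nat_lit 345) (nat_lit 249)) (XT.nd (nat_lit 94) (nat_lit 0) (nat_lit 0) (XT.lf (nat_lit 0) (nat_lit 18867945471850) (nat_lit 0) (nat_lit 0) (nat_lit 0) (nat_lit 0) (nat_lit 0) (nat_lit 0) (nat_lit 1) (nat_lit 0) (nat_lit 1) (nat_lit 0) (nat_lit 487) (nat_lit 345) (nat_lit 248))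 (XT.lf (nat_lit 0) (nat_lit 20377354000677) (nat_lit 0) (nat_lit 0) (nat_lit 0) (nat_lit 0) (nat_lit 0) (nat_lit 0) (nat_lit 1) (nat_lit 0) (nat_lit 1) (nat_lit 0) (nat_lit 488) (nat_lit 345) (nat_lit 247)))) (XT.nd (nat_lit 188) (nat_lit 0) (nat_lit 0) (XT.nd (nat_lit 94) (nat_lit 0) (nat_lit 0) (XT.lf (nat_lit 0) (nat_lit 22007515214021) (nat_lit 0) (nat_lit 0) (nat_lit 0) (nat_lit 0) (nat_lit 0) (nat_lit 0) (nat_lit 1) (nat_lit 0) (nat_lit 1) (nat_lit 0) (nat_lit 489) (nat_lit 345) (nat_lit 246)) (XT.lf (nat_lit 0) (nat_lit 23768089326482) (nat_lit 0) (nat_lit 0) (nat_lit 0) (nat_lit 0) (nat_lit 0) (nat_lit 0) (nat_lit 1) (nat_lit 0) (nat_lit 1) (nat_lit 0) (nat_lit 490) (nat_lit 345) (nat_lit 245))) (XT.nd (nat_lit 94) (nat_lit 0) (nat_lit 0) (XT.lf (nat_lit 0) (nat_lit 25669509369836) (nat_lit 0) (nat_lit 0) (nat_lit 0) (nat_lit 0) (nat_lit 0) (nat_lit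 0) (nat_lit 1) (nat_lit 0) (nat_lit 1) (nat_lit 0) (nat_lit 491) (nat_lit 345) (nat_lit 244)) (XT.lf (nat_lit 0) (nat_lit 27723043018415) (nat_lit 0) (nat_lit 0) (nat_lit 0) (nat_lit 0) (nat_lit 0) (nat_lit 0) (nat_lit 1) (nat_lit 0) (nat_lit 1) (nat_lit 0) (nat_lit 492) (nat_lit 345) (nat_lit 243))))))))
noncomputable def xc57 : XT := (XT.nd (nat_lit 60160) (nat_lit 0) (nat_lit 0) (XT.nd (nat_lit 58844) (nat_lit 0) (nat_lit 0) (XT.nd (nat_lit 58186) (nat_lit 0) (nat_lit 1512) (XT.nd (nat_lit 282) (nat_lit 0) (nat_lit 0) (XT.nd (nat_lit 94) (nat_lit 0) (nat_lit 0) (XT.lf (nat_lit 0) (nat_lit 29940859360506) (nat_lit 0) (nat_lit 0) (nat_lit 0) (nat_lit 0) (nat_lit 0) (nat_lit 0) (nat_lit 1) (nat_lit 0) (nat_lit 1) (nat_lit 0) (nat_lit 493) (nat_lit 345) (nat_lit 242)) (XT.nd (nat_lit 94) (nat_lit 0) (nat_lit 0) (XT.lf (nat_lit 0) (nat_lit 32336101011470) (nat_lit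 0) (nat_lit 0) (nat_lit 0) (nat_lit 0) (nat_lit 0) (nat_lit 0) (nat_lit 1) (nat_lit 0) (nat_lit 1) (nat_lit 0) (nat_lit 494) (nat_lit 345) (nat_lit 241)) (XT.lf (nat_lit 0) (nat_lit 34922961995905) (nat_lit 0) (nat_lit 0) (nat_lit 0) (nat_lit 0) (nat_lit 0) (nat_lit 0) (nat_lit 1) (nat_lit 0) (nat_lit 1) (nat_lit 0) (nat_lit 495) (nat_lit 345) (nat_lit 240)))) (XT.nd (nat_lit 57716) (nat_lit 0) (nat_lit 2940) (XT.nd (nat_lit 57622) (nat_lit 0) (nat_lit 3444) (XT.lf (nat_lit 0) (nat_lit 37716771860386) (nat_lit 0) (nat_lit 0) (nat_lit 0) (nat_lit 0) (nat_lit 0) (nat_lit 0) (nat_lit 1) (nat_lit 0) (nat_lit 1) (nat_lit 0) (nat_lit 496) (nat_lit 345) (nat_lit 239)) (XT.lf (nat_lit 0) (nat_lit 1366964834) (nat_lit 168) (nat_lit 2373776296) (nat_lit 168) (nat_lit 2373776296) (nat_lit 41) (nat_lit 4) (nat_lit 43) (nat_lit 5) (nat_lit 43) (nat_lit 4) (nat_lit 388)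 (nat_lit 346) (nat_lit 346))) (XT.nd (nat_lit 94) (nat_lit 336) (nat_lit 0) (XT.lf (nat_lit 0) (nat_lit 4996007089) (nat_lit 168) (nat_lit 3360041515) (nat_lit 0) (nat_lit 4320892658) (nat_lit 39) (nat_lit 5) (nat_lit 41) (nat_lit 4) (nat_lit 39) (nat_lit 4) (nat_lit 389) (nat_lit 346) (nat_lit 345)) (XT.lf (nat_lit 0) (nat_lit 2158155396) (nat_lit 168) (nat_lit 10075443490) (nat_lit 0) (nat_lit 919850266) (nat_lit 35) (nat_lit 5) (nat_lit 37) (nat_lit 4) (nat_lit 35) (nat_lit 4) (nat_lit 390) (nat_lit 346) (nat_lit 344))))) (XT.nd (nat_lit 282) (nat_lit 756) (nat_lit 0) (XT.nd (nat_lit 94) (nat_lit 504) (nat_lit 0) (XT.lf (nat_lit 0) (nat_lit 9792775819) (nat_lit 168) (nat_lit 2826671046) (nat_lit 168) (nat_lit 1037126096) (nat_lit 33) (nat_lit 4) (nat_lit 35) (nat_lit 5) (nat_lit 35) (nat_lit 4) (nat_lit 391) (nat_lit 346) (nat_lit 343)) (XT.nd (nat_lit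 94) (nat_lit 168) (nat_lit 0) (XT.lf (nat_lit 0) (nat_lit 2584261777) (nat_lit 168) (nat_lit 6897390168) (nat_lit 168) (nat_lit 4706959512) (nat_lit 29) (nat_lit 4) (nat_lit 31) (nat_lit 5) (nat_lit 31) (nat_lit 4) (nat_lit 392) (nat_lit 346) (nat_lit 342)) (XT.lf (nat_lit 0) (nat_lit 5952409738) (nat_lit 168) (nat_lit 5362481918) (nat_lit 0) (nat_lit 3437623810) (nat_lit 27) (nat_lit 5) (nat_lit 29) (nat_lit 4) (nat_lit 27) (nat_lit 4) (nat_lit 393) (nat_lit 346) (nat_lit 341)))) (XT.nd (nat_lit 188) (nat_lit 420) (nat_lit 0) (XT.nd (nat_lit 94) (nat_lit 84) (nat_lit 0) (XT.lf (nat_lit 0) (nat_lit 1118912110) (nat_lit 84) (nat_lit 847237562) (nat_lit 168) (nat_lit 13385690092) (nat_lit 24) (nat_lit 5) (nat_lit 25) (nat_lit 5) (nat_lit 26) (nat_lit 4) (nat_lit 394) (nat_lit 346) (nat_lit 340)) (XT.lf (nat_lit 0) (nat_lit 7918861947) (nat_lit 84) (nat_lit 5592395968)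 (nat_lit 84) (nat_lit 2469345627) (nat_lit 23) (nat_lit 4) (nat_lit 24) (nat_lit 5) (nat_lit 24) (nat_lit 4) (nat_lit 395) (nat_lit 346) (nat_lit 339))) (XT.nd (nat_lit 94) (nat_lit 252) (nat_lit 0) (XT.lf (nat_lit 0) (nat_lit 9111443523) (nat_lit 168) (nat_lit 1708015783) (nat_lit 0) (nat_lit 5828461055) (nat_lit 21) (nat_lit 5) (nat_lit 23) (nat_lit 4) (nat_lit 21) (nat_lit 4) (nat_lit 396) (nat_lit 346) (nat_lit 338)) (XT.lf (nat_lit 0) (nat_lit 4222942505) (nat_lit 168) (nat_lit 12306754507) (nat_lit 0) (nat_lit 824115454) (nat_lit 18) (nat_lit 5) (nat_lit 20) (nat_lit 4) (nat_lit 18) (nat_lit 4) (nat_lit 397) (nat_lit 346) (nat_lit 337)))))) (XT.nd (nat_lit 658) (nat_lit 420) (nat_lit 0) (XT.nd (nat_lit 282) (nat_lit 588) (nat_lit 0) (XT.nd (nat_lit 94) (nat_lit 420) (nat_lit 0) (XT.lf (nat_lit 0) (nat_lit 12034055522) (nat_lit 84) (nat_lit 4857578910)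 (nat_lit 84) (nat_lit 1206736042) (nat_lit 17) (nat_lit 4) (nat_lit 18) (nat_lit 5) (nat_lit 18) (nat_lit 4) (nat_lit 398) (nat_lit 346) (nat_lit 336)) (XT.nd (nat_lit 94) (nat_lit 168) (nat_lit 0) (XT.lf (nat_lit 0) (nat_lit 345295793) (nat_lit 84) (nat_lit 11119482669) (nat_lit 84) (nat_lit 7420253291) (nat_lit 14) (nat_lit 4) (nat_lit 15) (nat_lit 5) (nat_lit 15) (nat_lit 4) (nat_lit 399) (nat_lit 346) (nat_lit 335)) (XT.lf (nat_lit 0) (nat_lit 5474571858) (nat_lit 168) (nat_lit 12485725037) (nat_lit 0) (nat_lit 1755520802) (nat_lit 12) (nat_lit 5) (nat_lit 14) (nat_lit 4) (nat_lit 12) (nat_lit 4) (nat_lit 400) (nat_lit 346) (nat_lit 334)))) (XT.nd (nat_lit 188) (nat_lit 252) (nat_lit 0) (XT.nd (nat_lit 94) (nat_lit 252) (nat_lit 0) (XT.lf (nat_lit 0) (nat_lit 14318981709) (nat_lit 84) (nat_lit 5087616602) (nat_lit 84) (nat_lit 1187106789) (nat_lit 11)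 (nat_lit 4) (nat_lit 12) (nat_lit 5) (nat_lit 12) (nat_lit 4) (nat_lit 401) (nat_lit 346) (nat_lit 333)) (XT.lf (nat_lit 0) (nat_lit 84724727) (nat_lit 84) (nat_lit 12654866904) (nat_lit 84) (nat_lit 8780079111) (nat_lit 8) (nat_lit 4) (nat_lit 9) (nat_lit 5) (nat_lit 9) (nat_lit 4) (nat_lit 402) (nat_lit 346) (nat_lit 332))) (XT.nd (nat_lit 94) (nat_lit 84) (nat_lit 0) (XT.lf (nat_lit 0) (nat_lit 5393754046) (nat_lit 168) (nat_lit 15541502899) (nat_lit 0) (nat_lit 1562371897) (nat_lit 6) (nat_lit 5) (nat_lit 8) (nat_lit 4) (nat_lit 6) (nat_lit 4) (nat_lit 403) (nat_lit 346) (nat_lit 331)) (XT.lf (nat_lit 0) (nat_lit 14012499143) (nat_lit 84) (nat_lit 6739138828) (nat_lit 84) (nat_lit 2777101067) (nat_lit 5) (nat_lit 4) (nat_lit 6) (nat_lit 5) (nat_lit 6) (nat_lit 4) (nat_lit 404) (nat_lit 346) (nat_lit 330))))) (XT.nd (nat_lit 282) (nat_lit 0) (nat_lit 0)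 (XT.nd (nat_lit 94) (nat_lit 252) (nat_lit 0) (XT.lf (nat_lit 0) (nat_lit 12594964556) (nat_lit 168) (nat_lit 3315809192) (nat_lit 0) (nat_lit 8706378671) (nat_lit 3) (nat_lit 5) (nat_lit 5) (nat_lit 4) (nat_lit 3) (nat_lit 4) (nat_lit 405) (nat_lit 346) (nat_lit 329)) (XT.nd (nat_lit 94) (nat_lit 0) (nat_lit 0) (XT.lf (nat_lit 0) (nat_lit 37473317386) (nat_lit 0) (nat_lit 0) (nat_lit 0) (nat_lit 0) (nat_lit 0) (nat_lit 0) (nat_lit 1) (nat_lit 0) (nat_lit 1) (nat_lit 0) (nat_lit 406) (nat_lit 346) (nat_lit 328)) (XT.lf (nat_lit 0) (nat_lit 40427842260) (nat_lit 0) (nat_lit 0) (nat_lit 0) (nat_lit 0) (nat_lit 0) (nat_lit 0) (nat_lit 1) (nat_lit 0) (nat_lit 1) (nat_lit 0) (nat_lit 407) (nat_lit 346) (nat_lit 327)))) (XT.nd (nat_lit 188) (nat_lit 0) (nat_lit 0) (XT.nd (nat_lit 94) (nat_lit 0) (nat_lit 0) (XT.lf (nat_lit 0) (nat_lit 43619773209) (nat_lit 0) (nat_lit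 0) (nat_lit 0) (nat_lit 0) (nat_lit 0) (nat_lit 0) (nat_lit 1) (nat_lit 0) (nat_lit 1) (nat_lit 0) (nat_lit 408) (nat_lit 346) (nat_lit 326)) (XT.lf (nat_lit 0) (nat_lit 47068025378) (nat_lit 0) (nat_lit 0) (nat_lit 0) (nat_lit 0) (nat_lit 0) (nat_lit 0) (nat_lit 1) (nat_lit 0) (nat_lit 1) (nat_lit 0) (nat_lit 409) (nat_lit 346) (nat_lit 325))) (XT.nd (nat_lit 94) (nat_lit 0) (nat_lit 0) (XT.lf (nat_lit 0) (nat_lit 50793032854) (nat_lit 0) (nat_lit 0) (nat_lit 0) (nat_lit 0) (nat_lit 0) (nat_lit 0) (nat_lit 1) (nat_lit 0) (nat_lit 1) (nat_lit 0) (nat_lit 410) (nat_lit 346) (nat_lit 324)) (XT.lf (nat_lit 0) (nat_lit 54816869756) (nat_lit 0) (nat_lit 0) (nat_lit 0) (nat_lit 0) (nat_lit 0) (nat_lit 0) (nat_lit 1) (nat_lit 0) (nat_lit 1) (nat_lit 0) (nat_lit 411) (nat_lit 346) (nat_lit 323))))))) (XT.nd (nat_lit 1316) (nat_lit 0) (nat_lit 0) (XT.nd (nat_lit 658)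 (nat_lit 0) (nat_lit 0) (XT.nd (nat_lit 282) (nat_lit 0) (nat_lit 0) (XT.nd (nat_lit 94) (nat_lit 0) (nat_lit 0) (XT.lf (nat_lit 0) (nat_lit 59163381043) (nat_lit 0) (nat_lit 0) (nat_lit 0) (nat_lit 0) (nat_lit 0) (nat_lit 0) (nat_lit 1) (nat_lit 0) (nat_lit 1) (nat_lit 0) (nat_lit 412) (nat_lit 346) (nat_lit 322)) (XT.nd (nat_lit 94) (nat_lit 0) (nat_lit 0) (XT.lf (nat_lit 0) (nat_lit 63858323820) (nat_lit 0) (nat_lit 0) (nat_lit 0) (nat_lit 0) (nat_lit 0) (nat_lit 0) (nat_lit 1) (nat_lit 0) (nat_lit 1) (nat_lit 0) (nat_lit 413) (nat_lit 346) (nat_lit 321)) (XT.lf (nat_lit 0) (nat_lit 68929519968) (nat_lit 0) (nat_lit 0) (nat_lit 0) (nat_lit 0) (nat_lit 0) (nat_lit 0) (nat_lit 1) (nat_lit 0) (nat_lit 1) (nat_lit 0) (nat_lit 414) (nat_lit 346) (nat_lit 320)))) (XT.nd (nat_lit 188) (nat_lit 0) (nat_lit 0) (XT.nd (nat_lit 94) (nat_lit 0) (nat_lit 0) (XT.lf (nat_lit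 0) (nat_lit 74407021022) (nat_lit 0) (nat_lit 0) (nat_lit 0) (nat_lit 0) (nat_lit 0) (nat_lit 0) (nat_lit 1) (nat_lit 0) (nat_lit 1) (nat_lit 0) (nat_lit 415) (nat_lit 346) (nat_lit 319)) (XT.lf (nat_lit 0) (nat_lit 80323286246) (nat_lit 0) (nat_lit 0) (nat_lit 0) (nat_lit 0) (nat_lit 0) (nat_lit 0) (nat_lit 1) (nat_lit 0) (nat_lit 1) (nat_lit 0) (nat_lit 416) (nat_lit 346) (nat_lit 318))) (XT.nd (nat_lit 94) (nat_lit 0) (nat_lit 0) (XT.lf (nat_lit 0) (nat_lit 86713374990) (nat_lit 0) (nat_lit 0) (nat_lit 0) (nat_lit 0) (nat_lit 0) (nat_lit 0) (nat_lit 1) (nat_lit 0) (nat_lit 1) (nat_lit 0) (nat_lit 417) (nat_lit 346) (nat_lit 317)) (XT.lf (nat_lit 0) (nat_lit 93615154446) (nat_lit 0) (nat_lit 0) (nat_lit 0) (nat_lit 0) (nat_lit 0) (nat_lit 0) (nat_lit 1) (nat_lit 0) (nat_lit 1) (nat_lit 0) (nat_lit 418) (nat_lit 346) (nat_lit 316))))) (XT.nd (nat_lit 282)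 (nat_lit 0) (nat_lit 0) (XT.nd (nat_lit 94) (nat_lit 0) (nat_lit 0) (XT.lf (nat_lit 0) (nat_lit 101069524049) (nat_lit 0) (nat_lit 0) (nat_lit 0) (nat_lit 0) (nat_lit 0) (nat_lit 0) (nat_lit 1) (nat_lit 0) (nat_lit 1) (nat_lit 0) (nat_lit 419) (nat_lit 346) (nat_lit 315)) (XT.nd (nat_lit 94) (nat_lit 0) (nat_lit 0) (XT.lf (nat_lit 0) (nat_lit 109120657840) (nat_lit 0) (nat_lit 0) (nat_lit 0) (nat_lit 0) (nat_lit 0) (nat_lit 0) (nat_lit 1) (nat_lit 0) (nat_lit 1) (nat_lit 0) (nat_lit 420) (nat_lit 346) (nat_lit 314)) (XT.lf (nat_lit 0) (nat_lit 117816266242) (nat_lit 0) (nat_lit 0) (nat_lit 0) (nat_lit 0) (nat_lit 0) (nat_lit 0) (nat_lit 1) (nat_lit 0) (nat_lit 1) (nat_lit 0) (nat_lit 421) (nat_lit 346) (nat_lit 313)))) (XT.nd (nat_lit 188) (nat_lit 0) (nat_lit 0) (XT.nd (nat_lit 94) (nat_lit 0) (nat_lit 0) (XT.lf (nat_lit 0) (nat_lit 127207878786) (nat_lit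 0) (nat_lit 0) (nat_lit 0) (nat_lit 0) (nat_lit 0) (nat_lit 0) (nat_lit 1) (nat_lit 0) (nat_lit 1) (nat_lit 0) (nat_lit 422) (nat_lit 346) (nat_lit 312)) (XT.lf (nat_lit 0) (nat_lit 137351149472) (nat_lit 0) (nat_lit 0) (nat_lit 0) (nat_lit 0) (nat_lit 0) (nat_lit 0) (nat_lit 1) (nat_lit 0) (nat_lit 1) (nat_lit 0) (nat_lit 423) (nat_lit 346) (nat_lit 311))) (XT.nd (nat_lit 94) (nat_lit 0) (nat_lit 0) (XT.lf (nat_lit 0) (nat_lit 148306186572) (nat_lit 0) (nat_lit 0) (nat_lit 0) (nat_lit 0) (nat_lit 0) (nat_lit 0) (nat_lit 1) (nat_lit 0) (nat_lit 1) (nat_lit 0) (nat_lit 424) (nat_lit 346) (nat_lit 310)) (XT.lf (nat_lit 0) (nat_lit 160137908823) (nat_lit 0) (nat_lit 0) (nat_lit 0) (nat_lit 0) (nat_lit 0) (nat_lit 0) (nat_lit 1) (nat_lit 0) (nat_lit 1) (nat_lit 0) (nat_lit 425) (nat_lit 346) (nat_lit 309)))))) (XT.nd (nat_lit 658) (nat_lit 0) (nat_lit 0) (XT.nd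 (nat_lit 282) (nat_lit 0) (nat_lit 0) (XT.nd (nat_lit 94) (nat_lit 0) (nat_lit 0) (XT.lf (nat_lit 0) (nat_lit 172916430135) (nat_lit 0) (nat_lit 0) (nat_lit 0) (nat_lit 0) (nat_lit 0) (nat_lit 0) (nat_lit 1) (nat_lit 0) (nat_lit 1) (nat_lit 0) (nat_lit 426) (nat_lit 346) (nat_lit 308)) (XT.nd (nat_lit 94) (nat_lit 0) (nat_lit 0) (XT.lf (nat_lit 0) (nat_lit 186717475079) (nat_lit 0) (nat_lit 0) (nat_lit 0) (nat_lit 0) (nat_lit 0) (nat_lit 0) (nat_lit 1) (nat_lit 0) (nat_lit 1) (nat_lit 0) (nat_lit 427) (nat_lit 346) (nat_lit 307)) (XT.lf (nat_lit 0) (nat_lit 201622827625) (nat_lit 0) (nat_lit 0) (nat_lit 0) (nat_lit 0) (nat_lit 0) (nat_lit 0) (nat_lit 1) (nat_lit 0) (nat_lit 1) (nat_lit 0) (nat_lit 428) (nat_lit 346) (nat_lit 306)))) (XT.nd (nat_lit 188) (nat_lit 0) (nat_lit 0) (XT.nd (nat_lit 94) (nat_lit 0) (nat_lit 0) (XT.lf (nat_lit 0) (nat_lit 217720815787)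 (nat_lit 0) (nat_lit 0) (nat_lit 0) (nat_lit 0) (nat_lit 0) (nat_lit 0) (nat_lit 1) (nat_lit 0) (nat_lit 1) (nat_lit 0) (nat_lit 429) (nat_lit 346) (nat_lit 305)) (XT.lf (nat_lit 0) (nat_lit 235106835053) (nat_lit 0) (nat_lit 0) (nat_lit 0) (nat_lit 0) (nat_lit 0) (nat_lit 0) (nat_lit 1) (nat_lit 0) (nat_lit 1) (nat_lit 0) (nat_lit 430) (nat_lit 346) (nat_lit 304))) (XT.nd (nat_lit 94) (nat_lit 0) (nat_lit 0) (XT.lf (nat_lit 0) (nat_lit 253883913683) (nat_lit 0) (nat_lit 0) (nat_lit 0) (nat_lit 0) (nat_lit 0) (nat_lit 0) (nat_lit 1) (nat_lit 0) (nat_lit 1) (nat_lit 0) (nat_lit 431) (nat_lit 346) (nat_lit 303)) (XT.lf (nat_lit 0) (nat_lit 274163323254) (nat_lit 0) (nat_lit 0) (nat_lit 0) (nat_lit 0) (nat_lit 0) (nat_lit 0) (nat_lit 1) (nat_lit 0) (nat_lit 1) (nat_lit 0) (nat_lit 432) (nat_lit 346) (nat_lit 302))))) (XT.nd (nat_lit 376) (nat_lit 0) (nat_lit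 0) (XT.nd (nat_lit 188) (nat_lit 0) (nat_lit 0) (XT.nd (nat_lit 94) (nat_lit 0) (nat_lit 0) (XT.lf (nat_lit 0) (nat_lit 296065238047) (nat_lit 0) (nat_lit 0) (nat_lit 0) (nat_lit 0) (nat_lit 0) (nat_lit 0) (nat_lit 1) (nat_lit 0) (nat_lit 1) (nat_lit 0) (nat_lit 433) (nat_lit 346) (nat_lit 301)) (XT.lf (nat_lit 0) (nat_lit 319719447185) (nat_lit 0) (nat_lit 0) (nat_lit 0) (nat_lit 0) (nat_lit 0) (nat_lit 0) (nat_lit 1) (nat_lit 0) (nat_lit 1) (nat_lit 0) (nat_lit 434) (nat_lit 346) (nat_lit 300))) (XT.nd (nat_lit 94) (nat_lit 0) (nat_lit 0) (XT.lf (nat_lit 0) (nat_lit 345266123759) (nat_lit 0) (nat_lit 0) (nat_lit 0) (nat_lit 0) (nat_lit 0) (nat_lit 0) (nat_lit 1) (nat_lit 0) (nat_lit 1) (nat_lit 0) (nat_lit 435) (nat_lit 346) (nat_lit 299)) (XT.lf (nat_lit 0) (nat_lit 372856655483) (nat_lit 0) (nat_lit 0) (nat_lit 0) (nat_lit 0) (nat_lit 0) (nat_lit 0) (nat_lit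 1) (nat_lit 0) (nat_lit 1) (nat_lit 0) (nat_lit 436) (nat_lit 346) (nat_lit 298)))) (XT.nd (nat_lit 188) (nat_lit 0) (nat_lit 0) (XT.nd (nat_lit 94) (nat_lit 0) (nat_lit 0) (XT.lf (nat_lit 0) (nat_lit 402654541804) (nat_lit 0) (nat_lit 0) (nat_lit 0) (nat_lit 0) (nat_lit 0) (nat_lit 0) (nat_lit 1) (nat_lit 0) (nat_lit 1) (nat_lit 0) (nat_lit 437) (nat_lit 346) (nat_lit 297)) (XT.lf (nat_lit 0) (nat_lit 434836362789) (nat_lit 0) (nat_lit 0) (nat_lit 0) (nat_lit 0) (nat_lit 0) (nat_lit 0) (nat_lit 1) (nat_lit 0) (nat_lit 1) (nat_lit 0) (nat_lit 438) (nat_lit 346) (nat_lit 296))) (XT.nd (nat_lit 94) (nat_lit 0) (nat_lit 0) (XT.lf (nat_lit 0) (nat_lit 469592825525) (nat_lit 0) (nat_lit 0) (nat_lit 0) (nat_lit 0) (nat_lit 0) (nat_lit 0) (nat_lit 1) (nat_lit 0) (nat_lit 1) (nat_lit 0) (nat_lit 439) (nat_lit 346) (nat_lit 295)) (XT.lf (nat_lit 0) (nat_lit 507129894236)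 (nat_lit 0) (nat_lit 0) (nat_lit 0) (nat_lit 0) (nat_lit 0) (nat_lit 0) (nat_lit 1) (nat_lit 0) (nat_lit 1) (nat_lit 0) (nat_lit 440) (nat_lit 346) (nat_lit 294))))))))
noncomputable def xc58 : XT := (XT.nd (nat_lit 2632) (nat_lit 0) (nat_lit 0) (XT.nd (nat_lit 1316) (nat_lit 0) (nat_lit 0) (XT.nd (nat_lit 658) (nat_lit 0) (nat_lit 0) (XT.nd (nat_lit 282) (nat_lit 0) (nat_lit 0) (XT.nd (nat_lit 94) (nat_lit 0) (nat_lit 0) (XT.lf (nat_lit 0) (nat_lit 547670010811) (nat_lit 0) (nat_lit 0) (nat_lit 0) (nat_lit 0) (nat_lit 0) (nat_lit 0) (nat_lit 1) (nat_lit 0) (nat_lit 1) (nat_lit 0) (nat_lit 441) (nat_lit 346) (nat_lit 293)) (XT.nd (nat_lit 94) (nat_lit 0) (nat_lit 0) (XT.lf (nat_lit 0) (nat_lit 591453412977) (nat_lit 0) (nat_lit 0) (nat_lit 0) (nat_lit 0) (nat_lit 0) (nat_lit 0) (nat_lit 1) (nat_lit 0) (nat_lit 1) (nat_lit 0) (nat_lit 442) (nat_lit 346) (nat_lit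 292)) (XT.lf (nat_lit 0) (nat_lit 638739557932) (nat_lit 0) (nat_lit 0) (nat_lit 0) (nat_lit 0) (nat_lit 0) (nat_lit 0) (nat_lit 1) (nat_lit 0) (nat_lit 1) (nat_lit 0) (nat_lit 443) (nat_lit 346) (nat_lit 291)))) (XT.nd (nat_lit 188) (nat_lit 0) (nat_lit 0) (XT.nd (nat_lit 94) (nat_lit 0) (nat_lit 0) (XT.lf (nat_lit 0) (nat_lit 689808659870) (nat_lit 0) (nat_lit 0) (nat_lit 0) (nat_lit 0) (nat_lit 0) (nat_lit 0) (nat_lit 1) (nat_lit 0) (nat_lit 1) (nat_lit 0) (nat_lit 444) (nat_lit 346) (nat_lit 290)) (XT.lf (nat_lit 0) (nat_lit 744963350504) (nat_lit 0) (nat_lit 0) (nat_lit 0) (nat_lit 0) (nat_lit 0) (nat_lit 0) (nat_lit 1) (nat_lit 0) (nat_lit 1) (nat_lit 0) (nat_lit 445) (nat_lit 346) (nat_lit 289))) (XT.nd (nat_lit 94) (nat_lit 0) (nat_lit 0) (XT.lf (nat_lit 0) (nat_lit 804530472446) (nat_lit 0) (nat_lit 0) (nat_lit 0) (nat_lit 0) (nat_lit 0) (nat_lit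 0) (nat_lit 1) (nat_lit 0) (nat_lit 1) (nat_lit 0) (nat_lit 446) (nat_lit 346) (nat_lit 288)) (XT.lf (nat_lit 0) (nat_lit 868863016049) (nat_lit 0) (nat_lit 0) (nat_lit 0) (nat_lit 0) (nat_lit 0) (nat_lit 0) (nat_lit 1) (nat_lit 0) (nat_lit 1) (nat_lit 0) (nat_lit 447) (nat_lit 346) (nat_lit 287))))) (XT.nd (nat_lit 282) (nat_lit 0) (nat_lit 0) (XT.nd (nat_lit 94) (nat_lit 0) (nat_lit 0) (XT.lf (nat_lit 0) (nat_lit 938342211200) (nat_lit 0) (nat_lit 0) (nat_lit 0) (nat_lit 0) (nat_lit 0) (nat_lit 0) (nat_lit 1) (nat_lit 0) (nat_lit 1) (nat_lit 0) (nat_lit 448) (nat_lit 346) (nat_lit 286)) (XT.nd (nat_lit 94) (nat_lit 0) (nat_lit 0) (XT.lf (nat_lit 0) (nat_lit 1013379786463) (nat_lit 0) (nat_lit 0) (nat_lit 0) (nat_lit 0) (nat_lit 0) (nat_lit 0) (nat_lit 1) (nat_lit 0) (nat_lit 1) (nat_lit 0) (nat_lit 449) (nat_lit 346) (nat_lit 285)) (XT.lf (nat_lit 0) (nat_lit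 1094420408952) (nat_lit 0) (nat_lit 0) (nat_lit 0) (nat_lit 0) (nat_lit 0) (nat_lit 0) (nat_lit 1) (nat_lit 0) (nat_lit 1) (nat_lit 0) (nat_lit 450) (nat_lit 346) (nat_lit 284)))) (XT.nd (nat_lit 188) (nat_lit 0) (nat_lit 0) (XT.nd (nat_lit 94) (nat_lit 0) (nat_lit 0) (XT.lf (nat_lit 0) (nat_lit 1181944319391) (nat_lit 0) (nat_lit 0) (nat_lit 0) (nat_lit 0) (nat_lit 0) (nat_lit 0) (nat_lit 1) (nat_lit 0) (nat_lit 1) (nat_lit 0) (nat_lit 451) (nat_lit 346) (nat_lit 283)) (XT.lf (nat_lit 0) (nat_lit 1276470177991) (nat_lit 0) (nat_lit 0) (nat_lit 0) (nat_lit 0) (nat_lit 0) (nat_lit 0) (nat_lit 1) (nat_lit 0) (nat_lit 1) (nat_lit 0) (nat_lit 452) (nat_lit 346) (nat_lit 282))) (XT.nd (nat_lit 94) (nat_lit 0) (nat_lit 0) (XT.lf (nat_lit 0) (nat_lit 1378558137987) (nat_lit 0) (nat_lit 0) (nat_lit 0) (nat_lit 0) (nat_lit 0) (nat_lit 0) (nat_lit 1) (nat_lit 0) (nat_lit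 1) (nat_lit 0) (nat_lit 453) (nat_lit 346) (nat_lit 281)) (XT.lf (nat_lit 0) (nat_lit 1488813165070) (nat_lit 0) (nat_lit 0) (nat_lit 0) (nat_lit 0) (nat_lit 0) (nat_lit 0) (nat_lit 1) (nat_lit 0) (nat_lit 1) (nat_lit 0) (nat_lit 454) (nat_lit 346) (nat_lit 280)))))) (XT.nd (nat_lit 658) (nat_lit 0) (nat_lit 0) (XT.nd (nat_lit 282) (nat_lit 0) (nat_lit 0) (XT.nd (nat_lit 94) (nat_lit 0) (nat_lit 0) (XT.lf (nat_lit 0) (nat_lit 1607888622362) (nat_lit 0) (nat_lit 0) (nat_lit 0) (nat_lit 0) (nat_lit 0) (nat_lit 0) (nat_lit 1) (nat_lit 0) (nat_lit 1) (nat_lit 0) (nat_lit 455) (nat_lit 346) (nat_lit 279)) (XT.nd (nat_lit 94) (nat_lit 0) (nat_lit 0) (XT.lf (nat_lit 0) (nat_lit 1736490142202) (nat_lit 0) (nat_lit 0) (nat_lit 0) (nat_lit 0) (nat_lit 0) (nat_lit 0) (nat_lit 1) (nat_lit 0) (nat_lit 1) (nat_lit 0) (nat_lit 456) (nat_lit 346) (nat_lit 278)) (XT.lf (nat_lit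 0) (nat_lit 1875379807672) (nat_lit 0) (nat_lit 0) (nat_lit 0) (nat_lit 0) (nat_lit 0) (nat_lit 0) (nat_lit 1) (nat_lit 0) (nat_lit 1) (nat_lit 0) (nat_lit 457) (nat_lit 346) (nat_lit 277)))) (XT.nd (nat_lit 188) (nat_lit 0) (nat_lit 0) (XT.nd (nat_lit 94) (nat_lit 0) (nat_lit 0) (XT.lf (nat_lit 0) (nat_lit 2025380668641) (nat_lit 0) (nat_lit 0) (nat_lit 0) (nat_lit 0) (nat_lit 0) (nat_lit 0) (nat_lit 1) (nat_lit 0) (nat_lit 1) (nat_lit 0) (nat_lit 458) (nat_lit 346) (nat_lit 276)) (XT.lf (nat_lit 0) (nat_lit 2187381619099) (nat_lit 0) (nat_lit 0) (nat_lit 0) (nat_lit 0) (nat_lit 0) (nat_lit 0) (nat_lit 1) (nat_lit 0) (nat_lit 1) (nat_lit 0) (nat_lit 459) (nat_lit 346) (nat_lit 275))) (XT.nd (nat_lit 94) (nat_lit 0) (nat_lit 0) (XT.lf (nat_lit 0) (nat_lit 2362342664679) (nat_lit 0) (nat_lit 0) (nat_lit 0) (nat_lit 0) (nat_lit 0) (nat_lit 0) (nat_lit 1) (nat_lit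 0) (nat_lit 1) (nat_lit 0) (nat_lit 460) (nat_lit 346) (nat_lit 274)) (XT.lf (nat_lit 0) (nat_lit 2551300611578) (nat_lit 0) (nat_lit 0) (nat_lit 0) (nat_lit 0) (nat_lit 0) (nat_lit 0) (nat_lit 1) (nat_lit 0) (nat_lit 1) (nat_lit 0) (nat_lit 461) (nat_lit 346) (nat_lit 273))))) (XT.nd (nat_lit 282) (nat_lit 0) (nat_lit 0) (XT.nd (nat_lit 94) (nat_lit 0) (nat_lit 0) (XT.lf (nat_lit 0) (nat_lit 2755375210590) (nat_lit 0) (nat_lit 0) (nat_lit 0) (nat_lit 0) (nat_lit 0) (nat_lit 0) (nat_lit 1) (nat_lit 0) (nat_lit 1) (nat_lit 0) (nat_lit 462) (nat_lit 346) (nat_lit 272)) (XT.nd (nat_lit 94) (nat_lit 0) (nat_lit 0) (XT.lf (nat_lit 0) (nat_lit 2975775792675) (nat_lit 0) (nat_lit 0) (nat_lit 0) (nat_lit 0) (nat_lit 0) (nat_lit 0) (nat_lit 1) (nat_lit 0) (nat_lit 1) (nat_lit 0) (nat_lit 463) (nat_lit 346) (nat_lit 271)) (XT.lf (nat_lit 0) (nat_lit 3213808435354) (nat_lit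 0) (nat_lit 0) (nat_lit 0) (nat_lit 0) (nat_lit 0) (nat_lit 0) (nat_lit 1) (nat_lit 0) (nat_lit 1) (nat_lit 0) (nat_lit 464) (nat_lit 346) (nat_lit 270)))) (XT.nd (nat_lit 188) (nat_lit 0) (nat_lit 0) (XT.nd (nat_lit 94) (nat_lit 0) (nat_lit 0) (XT.lf (nat_lit 0) (nat_lit 3470883702437) (nat_lit 0) (nat_lit 0) (nat_lit 0) (nat_lit 0) (nat_lit 0) (nat_lit 0) (nat_lit 1) (nat_lit 0) (nat_lit 1) (nat_lit 0) (nat_lit 465) (nat_lit 346) (nat_lit 269)) (XT.lf (nat_lit 0) (nat_lit 3748525002914) (nat_lit 0) (nat_lit 0) (nat_lit 0) (nat_lit 0) (nat_lit 0) (nat_lit 0) (nat_lit 1) (nat_lit 0) (nat_lit 1) (nat_lit 0) (nat_lit 466) (nat_lit 346) (nat_lit 268))) (XT.nd (nat_lit 94) (nat_lit 0) (nat_lit 0) (XT.lf (nat_lit 0) (nat_lit 4048377618565) (nat_lit 0) (nat_lit 0) (nat_lit 0) (nat_lit 0) (nat_lit 0) (nat_lit 0) (nat_lit 1) (nat_lit 0) (nat_lit 1) (nat_lit 0) (nat_lit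 467) (nat_lit 346) (nat_lit 267)) (XT.lf (nat_lit 0) (nat_lit 4372218453779) (nat_lit 0) (nat_lit 0) (nat_lit 0) (nat_lit 0) (nat_lit 0) (nat_lit 0) (nat_lit 1) (nat_lit 0) (nat_lit 1) (nat_lit 0) (nat_lit 468) (nat_lit 346) (nat_lit 266))))))) (XT.nd (nat_lit 1316) (nat_lit 0) (nat_lit 0) (XT.nd (nat_lit 658) (nat_lit 0) (nat_lit 0) (XT.nd (nat_lit 282) (nat_lit 0) (nat_lit 0) (XT.nd (nat_lit 94) (nat_lit 0) (nat_lit 0) (XT.lf (nat_lit 0) (nat_lit 4721966565358) (nat_lit 0) (nat_lit 0) (nat_lit 0) (nat_lit 0) (nat_lit 0) (nat_lit 0) (nat_lit 1) (nat_lit 0) (nat_lit 1) (nat_lit 0) (nat_lit 469) (nat_lit 346) (nat_lit 265)) (XT.nd (nat_lit 94) (nat_lit 0) (nat_lit 0) (XT.lf (nat_lit 0) (nat_lit 5099694534703) (nat_lit 0) (nat_lit 0) (nat_lit 0) (nat_lit 0) (nat_lit 0) (nat_lit 0) (nat_lit 1) (nat_lit 0) (nat_lit 1) (nat_lit 0) (nat_lit 470) (nat_lit 346) (nat_lit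 264)) (XT.lf (nat_lit 0) (nat_lit 5507640749781) (nat_lit 0) (nat_lit 0) (nat_lit 0) (nat_lit 0) (nat_lit 0) (nat_lit 0) (nat_lit 1) (nat_lit 0) (nat_lit 1) (nat_lit 0) (nat_lit 471) (nat_lit 346) (nat_lit 263)))) (XT.nd (nat_lit 188) (nat_lit 0) (nat_lit 0) (XT.nd (nat_lit 94) (nat_lit 0) (nat_lit 0) (XT.lf (nat_lit 0) (nat_lit 5948222669645) (nat_lit 0) (nat_lit 0) (nat_lit 0) (nat_lit 0) (nat_lit 0) (nat_lit 0) (nat_lit 1) (nat_lit 0) (nat_lit 1) (nat_lit 0) (nat_lit 472) (nat_lit 346) (nat_lit 262)) (XT.lf (nat_lit 0) (nat_lit 6424051150115) (nat_lit 0) (nat_lit 0) (nat_lit 0) (nat_lit 0) (nat_lit 0) (nat_lit 0) (nat_lit 1) (nat_lit 0) (nat_lit 1) (nat_lit 0) (nat_lit 473) (nat_lit 346) (nat_lit 261))) (XT.nd (nat_lit 94) (nat_lit 0) (nat_lit 0) (XT.lf (nat_lit 0) (nat_lit 6937945915521) (nat_lit 0) (nat_lit 0) (nat_lit 0) (nat_lit 0) (nat_lit 0) (nat_lit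 0) (nat_lit 1) (nat_lit 0) (nat_lit 1) (nat_lit 0) (nat_lit 474) (nat_lit 346) (nat_lit 260)) (XT.lf (nat_lit 0) (nat_lit 7492952268175) (nat_lit 0) (nat_lit 0) (nat_lit 0) (nat_lit 0) (nat_lit 0) (nat_lit 0) (nat_lit 1) (nat_lit 0) (nat_lit 1) (nat_lit 0) (nat_lit 475) (nat_lit 346) (nat_lit 259))))) (XT.nd (nat_lit 282) (nat_lit 0) (nat_lit 0) (XT.nd (nat_lit 94) (nat_lit 0) (nat_lit 0) (XT.lf (nat_lit 0) (nat_lit 8092359134613) (nat_lit 0) (nat_lit 0) (nat_lit 0) (nat_lit 0) (nat_lit 0) (nat_lit 0) (nat_lit 1) (nat_lit 0) (nat_lit 1) (nat_lit 0) (nat_lit 476) (nat_lit 346) (nat_lit 258)) (XT.nd (nat_lit 94) (nat_lit 0) (nat_lit 0) (XT.lf (nat_lit 0) (nat_lit 8739718555524) (nat_lit 0) (nat_lit 0) (nat_lit 0) (nat_lit 0) (nat_lit 0) (nat_lit 0) (nat_lit 1) (nat_lit 0) (nat_lit 1) (nat_lit 0) (nat_lit 477) (nat_lit 346) (nat_lit 257)) (XT.lf (nat_lit 0) (nat_lit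 9438866734885) (nat_lit 0) (nat_lit 0) (nat_lit 0) (nat_lit 0) (nat_lit 0) (nat_lit 0) (nat_lit 1) (nat_lit 0) (nat_lit 1) (nat_lit 0) (nat_lit 478) (nat_lit 346) (nat_lit 256)))) (XT.nd (nat_lit 188) (nat_lit 0) (nat_lit 0) (XT.nd (nat_lit 94) (nat_lit 0) (nat_lit 0) (XT.lf (nat_lit 0) (nat_lit 10193946773016) (nat_lit 0) (nat_lit 0) (nat_lit 0) (nat_lit 0) (nat_lit 0) (nat_lit 0) (nat_lit 1) (nat_lit 0) (nat_lit 1) (nat_lit 0) (nat_lit 479) (nat_lit 346) (nat_lit 255)) (XT.lf (nat_lit 0) (nat_lit 11009433218292) (nat_lit 0) (nat_lit 0) (nat_lit 0) (nat_lit 0) (nat_lit 0) (nat_lit 0) (nat_lit 1) (nat_lit 0) (nat_lit 1) (nat_lit 0) (nat_lit 480) (nat_lit 346) (nat_lit 254))) (XT.nd (nat_lit 94) (nat_lit 0) (nat_lit 0) (XT.lf (nat_lit 0) (nat_lit 11890158582982) (nat_lit 0) (nat_lit 0) (nat_lit 0) (nat_lit 0) (nat_lit 0) (nat_lit 0) (nat_lit 1) (nat_lit 0)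 (nat_lit 1) (nat_lit 0) (nat_lit 481) (nat_lit 346) (nat_lit 253)) (XT.lf (nat_lit 0) (nat_lit 12841341980358) (nat_lit 0) (nat_lit 0) (nat_lit 0) (nat_lit 0) (nat_lit 0) (nat_lit 0) (nat_lit 1) (nat_lit 0) (nat_lit 1) (nat_lit 0) (nat_lit 482) (nat_lit 346) (nat_lit 252)))))) (XT.nd (nat_lit 658) (nat_lit 0) (nat_lit 0) (XT.nd (nat_lit 282) (nat_lit 0) (nat_lit 0) (XT.nd (nat_lit 94) (nat_lit 0) (nat_lit 0) (XT.lf (nat_lit 0) (nat_lit 13868620052774) (nat_lit 0) (nat_lit 0) (nat_lit 0) (nat_lit 0) (nat_lit 0) (nat_lit 0) (nat_lit 1) (nat_lit 0) (nat_lit 1) (nat_lit 0) (nat_lit 483) (nat_lit 346) (nat_lit 251)) (XT.nd (nat_lit 94) (nat_lit 0) (nat_lit 0) (XT.lf (nat_lit 0) (nat_lit 14978080373994) (nat_lit 0) (nat_lit 0) (nat_lit 0) (nat_lit 0) (nat_lit 0) (nat_lit 0) (nat_lit 1) (nat_lit 0) (nat_lit 1) (nat_lit 0) (nat_lit 484) (nat_lit 346) (nat_lit 250))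 (XT.lf (nat_lit 0) (nat_lit 16176297523697) (nat_lit 0) (nat_lit 0) (nat_lit 0) (nat_lit 0) (nat_lit 0) (nat_lit 0) (nat_lit 1) (nat_lit 0) (nat_lit 1) (nat_lit 0) (nat_lit 485) (nat_lit 346) (nat_lit 249)))) (XT.nd (nat_lit 188) (nat_lit 0) (nat_lit 0) (XT.nd (nat_lit 94) (nat_lit 0) (nat_lit 0) (XT.lf (nat_lit 0) (nat_lit 17470372047958) (nat_lit 0) (nat_lit 0) (nat_lit 0) (nat_lit 0) (nat_lit 0) (nat_lit 0) (nat_lit 1) (nat_lit 0) (nat_lit 1) (nat_lit 0) (nat_lit 486) (nat_lit 346) (nat_lit 248)) (XT.lf (nat_lit 0) (nat_lit 18867972536548) (nat_lit 0) (nat_lit 0) (nat_lit 0) (nat_lit 0) (nat_lit 0) (nat_lit 0) (nat_lit 1) (nat_lit 0) (nat_lit 1) (nat_lit 0) (nat_lit 487) (nat_lit 346) (nat_lit 247))) (XT.nd (nat_lit 94) (nat_lit 0) (nat_lit 0) (XT.lf (nat_lit 0) (nat_lit 20377381066438) (nat_lit 0) (nat_lit 0) (nat_lit 0) (nat_lit 0) (nat_lit 0) (nat_lit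 0) (nat_lit 1) (nat_lit 0) (nat_lit 1) (nat_lit 0) (nat_lit 488) (nat_lit 346) (nat_lit 246)) (XT.lf (nat_lit 0) (nat_lit 22007542280768) (nat_lit 0) (nat_lit 0) (nat_lit 0) (nat_lit 0) (nat_lit 0) (nat_lit 0) (nat_lit 1) (nat_lit 0) (nat_lit 1) (nat_lit 0) (nat_lit 489) (nat_lit 346) (nat_lit 245))))) (XT.nd (nat_lit 376) (nat_lit 0) (nat_lit 0) (XT.nd (nat_lit 188) (nat_lit 0) (nat_lit 0) (XT.nd (nat_lit 94) (nat_lit 0) (nat_lit 0) (XT.lf (nat_lit 0) (nat_lit 23768116394140) (nat_lit 0) (nat_lit 0) (nat_lit 0) (nat_lit 0) (nat_lit 0) (nat_lit 0) (nat_lit 1) (nat_lit 0) (nat_lit 1) (nat_lit 0) (nat_lit 490) (nat_lit 346) (nat_lit 244)) (XT.lf (nat_lit 0) (nat_lit 25669536438339) (nat_lit 0) (nat_lit 0) (nat_lit 0) (nat_lit 0) (nat_lit 0) (nat_lit 0) (nat_lit 1) (nat_lit 0) (nat_lit 1) (nat_lit 0) (nat_lit 491) (nat_lit 346) (nat_lit 243))) (XT.nd (nat_lit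 94) (nat_lit 0) (nat_lit 0) (XT.lf (nat_lit 0) (nat_lit 27723070087699) (nat_lit 0) (nat_lit 0) (nat_lit 0) (nat_lit 0) (nat_lit 0) (nat_lit 0) (nat_lit 1) (nat_lit 0) (nat_lit 1) (nat_lit 0) (nat_lit 492) (nat_lit 346) (nat_lit 242)) (XT.lf (nat_lit 0) (nat_lit 29940886430514) (nat_lit 0) (nat_lit 0) (nat_lit 0) (nat_lit 0) (nat_lit 0) (nat_lit 0) (nat_lit 1) (nat_lit 0) (nat_lit 1) (nat_lit 0) (nat_lit 493) (nat_lit 346) (nat_lit 241)))) (XT.nd (nat_lit 188) (nat_lit 0) (nat_lit 0) (XT.nd (nat_lit 94) (nat_lit 0) (nat_lit 0) (XT.lf (nat_lit 0) (nat_lit 32336128082148) (nat_lit 0) (nat_lit 0) (nat_lit 0) (nat_lit 0) (nat_lit 0) (nat_lit 0) (nat_lit 1) (nat_lit 0) (nat_lit 1) (nat_lit 0) (nat_lit 494) (nat_lit 346) (nat_lit 240)) (XT.lf (nat_lit 0) (nat_lit 34922989067204) (nat_lit 0) (nat_lit 0) (nat_lit 0) (nat_lit 0) (nat_lit 0) (nat_lit 0) (nat_lit 1)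 (nat_lit 0) (nat_lit 1) (nat_lit 0) (nat_lit 495) (nat_lit 346) (nat_lit 239))) (XT.nd (nat_lit 57434) (nat_lit 0) (nat_lit 3948) (XT.lf (nat_lit 0) (nat_lit 37716798932260) (nat_lit 0) (nat_lit 0) (nat_lit 0) (nat_lit 0) (nat_lit 0) (nat_lit 0) (nat_lit 1) (nat_lit 0) (nat_lit 1) (nat_lit 0) (nat_lit 496) (nat_lit 346) (nat_lit 238)) (XT.lf (nat_lit 0) (nat_lit 584227431) (nat_lit 168) (nat_lit 4530963212) (nat_lit 0) (nat_lit 584227431) (nat_lit 47) (nat_lit 5) (nat_lit 49) (nat_lit 4) (nat_lit 47) (nat_lit 4) (nat_lit 386) (nat_lit 347) (nat_lit 347))))))))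
noncomputable def xc59 : XT := (XT.nd (nat_lit 2632) (nat_lit 0) (nat_lit 0) (XT.nd (nat_lit 1316) (nat_lit 1092) (nat_lit 0) (XT.nd (nat_lit 658) (nat_lit 1176) (nat_lit 0) (XT.nd (nat_lit 282) (nat_lit 1008) (nat_lit 0) (XT.nd (nat_lit 94) (nat_lit 504) (nat_lit 0) (XT.lf (nat_lit 0) (nat_lit 8292133883) (nat_lit 168) (nat_lit 2159780197) (nat_lit 168) (nat_lit 1355921444) (nat_lit 45) (nat_lit 4) (nat_lit 47) (nat_lit 5) (nat_lit 47) (nat_lit 4) (nat_lit 387) (nat_lit 347) (nat_lit 346)) (XT.nd (nat_lit 94) (nat_lit 168) (nat_lit 0) (XT.lf (nat_lit 0) (nat_lit 2255307040) (nat_lit 168) (nat_lit 5730617309) (nat_lit 168) (nat_lit 4256167390) (nat_lit 41) (nat_lit 4) (nat_lit 43) (nat_lit 5) (nat_lit 43) (nat_lit 4) (nat_lit 388) (nat_lit 347) (nat_lit 345)) (XT.lf (nat_lit 0) (nat_lit 5191890909) (nat_lit 168) (nat_lit 4349165404) (nat_lit 0) (nat_lit 3162546937)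 (nat_lit 39) (nat_lit 5) (nat_lit 41) (nat_lit 4) (nat_lit 39) (nat_lit 4) (nat_lit 389) (nat_lit 347) (nat_lit 344)))) (XT.nd (nat_lit 188) (nat_lit 504) (nat_lit 0) (XT.nd (nat_lit 94) (nat_lit 168) (nat_lit 0) (XT.lf (nat_lit 0) (nat_lit 1528740085) (nat_lit 84) (nat_lit 489253020) (nat_lit 168) (nat_lit 11177184330) (nat_lit 35) (nat_lit 5) (nat_lit 36) (nat_lit 5) (nat_lit 37) (nat_lit 4) (nat_lit 390) (nat_lit 347) (nat_lit 343)) (XT.lf (nat_lit 0) (nat_lit 7690537209) (nat_lit 168) (nat_lit 4508076590) (nat_lit 168) (nat_lit 1513720985) (nat_lit 33) (nat_lit 4) (nat_lit 35) (nat_lit 5) (nat_lit 35) (nat_lit 4) (nat_lit 391) (nat_lit 347) (nat_lit 342))) (XT.nd (nat_lit 94) (nat_lit 336) (nat_lit 0) (XT.lf (nat_lit 0) (nat_lit 8674981164) (nat_lit 168) (nat_lit 213911307) (nat_lit 0) (nat_lit 5373119354) (nat_lit 31) (nat_lit 5) (nat_lit 33) (nat_lit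 4) (nat_lit 31) (nat_lit 4) (nat_lit 392) (nat_lit 347) (nat_lit 341)) (XT.lf (nat_lit 0) (nat_lit 4771873665) (nat_lit 168) (nat_lit 8840826243) (nat_lit 0) (nat_lit 1230334579) (nat_lit 27) (nat_lit 5) (nat_lit 29) (nat_lit 4) (nat_lit 27) (nat_lit 4) (nat_lit 393) (nat_lit 347) (nat_lit 340))))) (XT.nd (nat_lit 282) (nat_lit 672) (nat_lit 0) (XT.nd (nat_lit 94) (nat_lit 336) (nat_lit 0) (XT.lf (nat_lit 0) (nat_lit 421839231) (nat_lit 168) (nat_lit 3044276801) (nat_lit 84) (nat_lit 11992931844) (nat_lit 25) (nat_lit 5) (nat_lit 27) (nat_lit 5) (nat_lit 26) (nat_lit 4) (nat_lit 394) (nat_lit 347) (nat_lit 339)) (XT.nd (nat_lit 94) (nat_lit 168) (nat_lit 0) (XT.lf (nat_lit 0) (nat_lit 2979437021) (nat_lit 84) (nat_lit 8587674891) (nat_lit 84) (nat_lit 4540691520) (nat_lit 23) (nat_lit 4) (nat_lit 24) (nat_lit 5) (nat_lit 24) (nat_lit 4) (nat_lit 395) (nat_lit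 347) (nat_lit 338)) (XT.lf (nat_lit 0) (nat_lit 6740996256) (nat_lit 168) (nat_lit 7453070396) (nat_lit 0) (nat_lit 2600940444) (nat_lit 21) (nat_lit 5) (nat_lit 23) (nat_lit 4) (nat_lit 21) (nat_lit 4) (nat_lit 396) (nat_lit 347) (nat_lit 337)))) (XT.nd (nat_lit 188) (nat_lit 336) (nat_lit 0) (XT.nd (nat_lit 94) (nat_lit 168) (nat_lit 0) (XT.lf (nat_lit 0) (nat_lit 1370812765) (nat_lit 168) (nat_lit 1594506249) (nat_lit 84) (nat_lit 14558304100) (nat_lit 19) (nat_lit 5) (nat_lit 21) (nat_lit 5) (nat_lit 20) (nat_lit 4) (nat_lit 397) (nat_lit 347) (nat_lit 336)) (XT.lf (nat_lit 0) (nat_lit 4539702608) (nat_lit 84) (nat_lit 9088654981) (nat_lit 84) (nat_lit 4660380889) (nat_lit 17) (nat_lit 4) (nat_lit 18) (nat_lit 5) (nat_lit 18) (nat_lit 4) (nat_lit 398) (nat_lit 347) (nat_lit 335))) (XT.nd (nat_lit 94) (nat_lit 168) (nat_lit 0) (XT.lf (nat_lit 0) (nat_lit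 7698771882) (nat_lit 168) (nat_lit 8124875172) (nat_lit 0) (nat_lit 3275593754) (nat_lit 15) (nat_lit 5) (nat_lit 17) (nat_lit 4) (nat_lit 15) (nat_lit 4) (nat_lit 399) (nat_lit 347) (nat_lit 334)) (XT.lf (nat_lit 0) (nat_lit 1127934311) (nat_lit 168) (nat_lit 2301444486) (nat_lit 84) (nat_lit 16528445755) (nat_lit 13) (nat_lit 5) (nat_lit 15) (nat_lit 5) (nat_lit 14) (nat_lit 4) (nat_lit 400) (nat_lit 347) (nat_lit 333)))))) (XT.nd (nat_lit 658) (nat_lit 0) (nat_lit 0) (XT.nd (nat_lit 282) (nat_lit 672) (nat_lit 0) (XT.nd (nat_lit 94) (nat_lit 252) (nat_lit 0) (XT.lf (nat_lit 0) (nat_lit 3761709702) (nat_lit 84) (nat_lit 10829727576) (nat_lit 84) (nat_lit 6267700851) (nat_lit 11) (nat_lit 4) (nat_lit 12) (nat_lit 5) (nat_lit 12) (nat_lit 4) (nat_lit 401) (nat_lit 347) (nat_lit 332)) (XT.nd (nat_lit 94) (nat_lit 84) (nat_lit 0) (XT.lf (nat_lit 0) (nat_lit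 7336976676) (nat_lit 168) (nat_lit 11632298937) (nat_lit 0) (nat_lit 2844025855) (nat_lit 9) (nat_lit 5) (nat_lit 11) (nat_lit 4) (nat_lit 9) (nat_lit 4) (nat_lit 402) (nat_lit 347) (nat_lit 331)) (XT.lf (nat_lit 0) (nat_lit 16838188396) (nat_lit 84) (nat_lit 5306938413) (nat_lit 84) (nat_lit 676799200) (nat_lit 8) (nat_lit 4) (nat_lit 9) (nat_lit 5) (nat_lit 9) (nat_lit 4) (nat_lit 403) (nat_lit 347) (nat_lit 330)))) (XT.nd (nat_lit 188) (nat_lit 252) (nat_lit 0) (XT.nd (nat_lit 94) (nat_lit 252) (nat_lit 0) (XT.lf (nat_lit 0) (nat_lit 14099131390) (nat_lit 168) (nat_lit 216116329) (nat_lit 0) (nat_lit 9568497578) (nat_lit 6) (nat_lit 5) (nat_lit 8) (nat_lit 4) (nat_lit 6) (nat_lit 4) (nat_lit 404) (nat_lit 347) (nat_lit 329)) (XT.lf (nat_lit 0) (nat_lit 5242958632) (nat_lit 168) (nat_lit 18941721996) (nat_lit 0) (nat_lit 821387260) (nat_lit 3) (nat_lit 5)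 (nat_lit 5) (nat_lit 4) (nat_lit 3) (nat_lit 4) (nat_lit 405) (nat_lit 347) (nat_lit 328))) (XT.nd (nat_lit 94) (nat_lit 168) (nat_lit 0) (XT.lf (nat_lit 0) (nat_lit 12496471548) (nat_lit 84) (nat_lit 9105223707) (nat_lit 84) (nat_lit 4584872681) (nat_lit 2) (nat_lit 4) (nat_lit 3) (nat_lit 5) (nat_lit 3) (nat_lit 4) (nat_lit 406) (nat_lit 347) (nat_lit 327)) (XT.lf (nat_lit 0) (nat_lit 40450813097) (nat_lit 0) (nat_lit 0) (nat_lit 0) (nat_lit 0) (nat_lit 0) (nat_lit 0) (nat_lit 1) (nat_lit 0) (nat_lit 1) (nat_lit 0) (nat_lit 407) (nat_lit 347) (nat_lit 326))))) (XT.nd (nat_lit 282) (nat_lit 0) (nat_lit 0) (XT.nd (nat_lit 94) (nat_lit 0) (nat_lit 0) (XT.lf (nat_lit 0) (nat_lit 43643208827) (nat_lit 0) (nat_lit 0) (nat_lit 0) (nat_lit 0) (nat_lit 0) (nat_lit 0) (nat_lit 1) (nat_lit 0) (nat_lit 1) (nat_lit 0) (nat_lit 408) (nat_lit 347) (nat_lit 325)) (XT.nd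 (nat_lit 94) (nat_lit 0) (nat_lit 0) (XT.lf (nat_lit 0) (nat_lit 47091891348) (nat_lit 0) (nat_lit 0) (nat_lit 0) (nat_lit 0) (nat_lit 0) (nat_lit 0) (nat_lit 1) (nat_lit 0) (nat_lit 1) (nat_lit 0) (nat_lit 409) (nat_lit 347) (nat_lit 324)) (XT.lf (nat_lit 0) (nat_lit 50817297300) (nat_lit 0) (nat_lit 0) (nat_lit 0) (nat_lit 0) (nat_lit 0) (nat_lit 0) (nat_lit 1) (nat_lit 0) (nat_lit 1) (nat_lit 0) (nat_lit 410) (nat_lit 347) (nat_lit 323)))) (XT.nd (nat_lit 188) (nat_lit 0) (nat_lit 0) (XT.nd (nat_lit 94) (nat_lit 0) (nat_lit 0) (XT.lf (nat_lit 0) (nat_lit 54841503160) (nat_lit 0) (nat_lit 0) (nat_lit 0) (nat_lit 0) (nat_lit 0) (nat_lit 0) (nat_lit 1) (nat_lit 0) (nat_lit 1) (nat_lit 0) (nat_lit 411) (nat_lit 347) (nat_lit 322)) (XT.lf (nat_lit 0) (nat_lit 59188356075) (nat_lit 0) (nat_lit 0) (nat_lit 0) (nat_lit 0) (nat_lit 0) (nat_lit 0) (nat_lit 1) (nat_lit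 0) (nat_lit 1) (nat_lit 0) (nat_lit 412) (nat_lit 347) (nat_lit 321))) (XT.nd (nat_lit 94) (nat_lit 0) (nat_lit 0) (XT.lf (nat_lit 0) (nat_lit 63883615174) (nat_lit 0) (nat_lit 0) (nat_lit 0) (nat_lit 0) (nat_lit 0) (nat_lit 0) (nat_lit 1) (nat_lit 0) (nat_lit 1) (nat_lit 0) (nat_lit 413) (nat_lit 347) (nat_lit 320)) (XT.lf (nat_lit 0) (nat_lit 68955104213) (nat_lit 0) (nat_lit 0) (nat_lit 0) (nat_lit 0) (nat_lit 0) (nat_lit 0) (nat_lit 1) (nat_lit 0) (nat_lit 1) (nat_lit 0) (nat_lit 414) (nat_lit 347) (nat_lit 319))))))) (XT.nd (nat_lit 1316) (nat_lit 0) (nat_lit 0) (XT.nd (nat_lit 658) (nat_lit 0) (nat_lit 0) (XT.nd (nat_lit 282) (nat_lit 0) (nat_lit 0) (XT.nd (nat_lit 94) (nat_lit 0) (nat_lit 0) (XT.lf (nat_lit 0) (nat_lit 74432876462) (nat_lit 0) (nat_lit 0) (nat_lit 0) (nat_lit 0) (nat_lit 0) (nat_lit 0) (nat_lit 1) (nat_lit 0) (nat_lit 1) (nat_lit 0)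 (nat_lit 415) (nat_lit 347) (nat_lit 318)) (XT.nd (nat_lit 94) (nat_lit 0) (nat_lit 0) (XT.lf (nat_lit 0) (nat_lit 80349392793) (nat_lit 0) (nat_lit 0) (nat_lit 0) (nat_lit 0) (nat_lit 0) (nat_lit 0) (nat_lit 1) (nat_lit 0) (nat_lit 1) (nat_lit 0) (nat_lit 416) (nat_lit 347) (nat_lit 317)) (XT.lf (nat_lit 0) (nat_lit 86739714043) (nat_lit 0) (nat_lit 0) (nat_lit 0) (nat_lit 0) (nat_lit 0) (nat_lit 0) (nat_lit 1) (nat_lit 0) (nat_lit 1) (nat_lit 0) (nat_lit 417) (nat_lit 347) (nat_lit 316)))) (XT.nd (nat_lit 188) (nat_lit 0) (nat_lit 0) (XT.nd (nat_lit 94) (nat_lit 0) (nat_lit 0) (XT.lf (nat_lit 0) (nat_lit 93641708783) (nat_lit 0) (nat_lit 0) (nat_lit 0) (nat_lit 0) (nat_lit 0) (nat_lit 0) (nat_lit 1) (nat_lit 0) (nat_lit 1) (nat_lit 0) (nat_lit 418) (nat_lit 347) (nat_lit 315)) (XT.lf (nat_lit 0) (nat_lit 101096277722) (nat_lit 0) (nat_lit 0) (nat_lit 0)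 (nat_lit 0) (nat_lit 0) (nat_lit 0) (nat_lit 1) (nat_lit 0) (nat_lit 1) (nat_lit 0) (nat_lit 419) (nat_lit 347) (nat_lit 314))) (XT.nd (nat_lit 94) (nat_lit 0) (nat_lit 0) (XT.lf (nat_lit 0) (nat_lit 109147596084) (nat_lit 0) (nat_lit 0) (nat_lit 0) (nat_lit 0) (nat_lit 0) (nat_lit 0) (nat_lit 1) (nat_lit 0) (nat_lit 1) (nat_lit 0) (nat_lit 420) (nat_lit 347) (nat_lit 313)) (XT.lf (nat_lit 0) (nat_lit 117843375385) (nat_lit 0) (nat_lit 0) (nat_lit 0) (nat_lit 0) (nat_lit 0) (nat_lit 0) (nat_lit 1) (nat_lit 0) (nat_lit 1) (nat_lit 0) (nat_lit 421) (nat_lit 347) (nat_lit 312))))) (XT.nd (nat_lit 282) (nat_lit 0) (nat_lit 0) (XT.nd (nat_lit 94) (nat_lit 0) (nat_lit 0) (XT.lf (nat_lit 0) (nat_lit 127235146169) (nat_lit 0) (nat_lit 0) (nat_lit 0) (nat_lit 0) (nat_lit 0) (nat_lit 0) (nat_lit 1) (nat_lit 0) (nat_lit 1) (nat_lit 0) (nat_lit 422) (nat_lit 347) (nat_lit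 311)) (XT.nd (nat_lit 94) (nat_lit 0) (nat_lit 0) (XT.lf (nat_lit 0) (nat_lit 137378563373) (nat_lit 0) (nat_lit 0) (nat_lit 0) (nat_lit 0) (nat_lit 0) (nat_lit 0) (nat_lit 1) (nat_lit 0) (nat_lit 1) (nat_lit 0) (nat_lit 423) (nat_lit 347) (nat_lit 310)) (XT.lf (nat_lit 0) (nat_lit 148333736138) (nat_lit 0) (nat_lit 0) (nat_lit 0) (nat_lit 0) (nat_lit 0) (nat_lit 0) (nat_lit 1) (nat_lit 0) (nat_lit 1) (nat_lit 0) (nat_lit 424) (nat_lit 347) (nat_lit 309)))) (XT.nd (nat_lit 188) (nat_lit 0) (nat_lit 0) (XT.nd (nat_lit 94) (nat_lit 0) (nat_lit 0) (XT.lf (nat_lit 0) (nat_lit 160165584005) (nat_lit 0) (nat_lit 0) (nat_lit 0) (nat_lit 0) (nat_lit 0) (nat_lit 0) (nat_lit 1) (nat_lit 0) (nat_lit 1) (nat_lit 0) (nat_lit 425) (nat_lit 347) (nat_lit 308)) (XT.lf (nat_lit 0) (nat_lit 172944221628) (nat_lit 0) (nat_lit 0) (nat_lit 0) (nat_lit 0) (nat_lit 0) (nat_lit 0)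 (nat_lit 1) (nat_lit 0) (nat_lit 1) (nat_lit 0) (nat_lit 426) (nat_lit 347) (nat_lit 307))) (XT.nd (nat_lit 94) (nat_lit 0) (nat_lit 0) (XT.lf (nat_lit 0) (nat_lit 186745374267) (nat_lit 0) (nat_lit 0) (nat_lit 0) (nat_lit 0) (nat_lit 0) (nat_lit 0) (nat_lit 1) (nat_lit 0) (nat_lit 1) (nat_lit 0) (nat_lit 427) (nat_lit 347) (nat_lit 306)) (XT.lf (nat_lit 0) (nat_lit 201650826531) (nat_lit 0) (nat_lit 0) (nat_lit 0) (nat_lit 0) (nat_lit 0) (nat_lit 0) (nat_lit 1) (nat_lit 0) (nat_lit 1) (nat_lit 0) (nat_lit 428) (nat_lit 347) (nat_lit 305)))))) (XT.nd (nat_lit 658) (nat_lit 0) (nat_lit 0) (XT.nd (nat_lit 282) (nat_lit 0) (nat_lit 0) (XT.nd (nat_lit 94) (nat_lit 0) (nat_lit 0) (XT.lf (nat_lit 0) (nat_lit 217748907025) (nat_lit 0) (nat_lit 0) (nat_lit 0) (nat_lit 0) (nat_lit 0) (nat_lit 0) (nat_lit 1) (nat_lit 0) (nat_lit 1) (nat_lit 0) (nat_lit 429) (nat_lit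 347) (nat_lit 304)) (XT.nd (nat_lit 94) (nat_lit 0) (nat_lit 0) (XT.lf (nat_lit 0) (nat_lit 235135011783) (nat_lit 0) (nat_lit 0) (nat_lit 0) (nat_lit 0) (nat_lit 0) (nat_lit 0) (nat_lit 1) (nat_lit 0) (nat_lit 1) (nat_lit 0) (nat_lit 430) (nat_lit 347) (nat_lit 303)) (XT.lf (nat_lit 0) (nat_lit 253912169572) (nat_lit 0) (nat_lit 0) (nat_lit 0) (nat_lit 0) (nat_lit 0) (nat_lit 0) (nat_lit 1) (nat_lit 0) (nat_lit 1) (nat_lit 0) (nat_lit 431) (nat_lit 347) (nat_lit 302)))) (XT.nd (nat_lit 188) (nat_lit 0) (nat_lit 0) (XT.nd (nat_lit 94) (nat_lit 0) (nat_lit 0) (XT.lf (nat_lit 0) (nat_lit 274191652439) (nat_lit 0) (nat_lit 0) (nat_lit 0) (nat_lit 0) (nat_lit 0) (nat_lit 0) (nat_lit 1) (nat_lit 0) (nat_lit 1) (nat_lit 0) (nat_lit 432) (nat_lit 347) (nat_lit 301)) (XT.lf (nat_lit 0) (nat_lit 296093635098) (nat_lit 0) (nat_lit 0) (nat_lit 0) (nat_lit 0) (nat_lit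 0) (nat_lit 0) (nat_lit 1) (nat_lit 0) (nat_lit 1) (nat_lit 0) (nat_lit 433) (nat_lit 347) (nat_lit 300))) (XT.nd (nat_lit 94) (nat_lit 0) (nat_lit 0) (XT.lf (nat_lit 0) (nat_lit 319747907075) (nat_lit 0) (nat_lit 0) (nat_lit 0) (nat_lit 0) (nat_lit 0) (nat_lit 0) (nat_lit 1) (nat_lit 0) (nat_lit 1) (nat_lit 0) (nat_lit 434) (nat_lit 347) (nat_lit 299)) (XT.lf (nat_lit 0) (nat_lit 345294641834) (nat_lit 0) (nat_lit 0) (nat_lit 0) (nat_lit 0) (nat_lit 0) (nat_lit 0) (nat_lit 1) (nat_lit 0) (nat_lit 1) (nat_lit 0) (nat_lit 435) (nat_lit 347) (nat_lit 298))))) (XT.nd (nat_lit 376) (nat_lit 0) (nat_lit 0) (XT.nd (nat_lit 188) (nat_lit 0) (nat_lit 0) (XT.nd (nat_lit 94) (nat_lit 0) (nat_lit 0) (XT.lf (nat_lit 0) (nat_lit 372885227433) (nat_lit 0) (nat_lit 0) (nat_lit 0) (nat_lit 0) (nat_lit 0) (nat_lit 0) (nat_lit 1) (nat_lit 0) (nat_lit 1) (nat_lit 0) (nat_lit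 436) (nat_lit 347) (nat_lit 297)) (XT.lf (nat_lit 0) (nat_lit 402683163637) (nat_lit 0) (nat_lit 0) (nat_lit 0) (nat_lit 0) (nat_lit 0) (nat_lit 0) (nat_lit 1) (nat_lit 0) (nat_lit 1) (nat_lit 0) (nat_lit 437) (nat_lit 347) (nat_lit 296))) (XT.nd (nat_lit 94) (nat_lit 0) (nat_lit 0) (XT.lf (nat_lit 0) (nat_lit 434865030811) (nat_lit 0) (nat_lit 0) (nat_lit 0) (nat_lit 0) (nat_lit 0) (nat_lit 0) (nat_lit 1) (nat_lit 0) (nat_lit 1) (nat_lit 0) (nat_lit 438) (nat_lit 347) (nat_lit 295)) (XT.lf (nat_lit 0) (nat_lit 469621536314) (nat_lit 0) (nat_lit 0) (nat_lit 0) (nat_lit 0) (nat_lit 0) (nat_lit 0) (nat_lit 1) (nat_lit 0) (nat_lit 1) (nat_lit 0) (nat_lit 439) (nat_lit 347) (nat_lit 294)))) (XT.nd (nat_lit 188) (nat_lit 0) (nat_lit 0) (XT.nd (nat_lit 94) (nat_lit 0) (nat_lit 0) (XT.lf (nat_lit 0) (nat_lit 507158644625) (nat_lit 0) (nat_lit 0) (nat_lit 0) (nat_lit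 0) (nat_lit 0) (nat_lit 0) (nat_lit 1) (nat_lit 0) (nat_lit 1) (nat_lit 0) (nat_lit 440) (nat_lit 347) (nat_lit 293)) (XT.lf (nat_lit 0) (nat_lit 547698797866) (nat_lit 0) (nat_lit 0) (nat_lit 0) (nat_lit 0) (nat_lit 0) (nat_lit 0) (nat_lit 1) (nat_lit 0) (nat_lit 1) (nat_lit 0) (nat_lit 441) (nat_lit 347) (nat_lit 292))) (XT.nd (nat_lit 94) (nat_lit 0) (nat_lit 0) (XT.lf (nat_lit 0) (nat_lit 591482233982) (nat_lit 0) (nat_lit 0) (nat_lit 0) (nat_lit 0) (nat_lit 0) (nat_lit 0) (nat_lit 1) (nat_lit 0) (nat_lit 1) (nat_lit 0) (nat_lit 442) (nat_lit 347) (nat_lit 291)) (XT.lf (nat_lit 0) (nat_lit 638768410373) (nat_lit 0) (nat_lit 0) (nat_lit 0) (nat_lit 0) (nat_lit 0) (nat_lit 0) (nat_lit 1) (nat_lit 0) (nat_lit 1) (nat_lit 0) (nat_lit 443) (nat_lit 347) (nat_lit 290))))))))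
noncomputable def xc60 : XT := (XT.nd (nat_lit 2632) (nat_lit 0) (nat_lit 0) (XT.nd (nat_lit 1316) (nat_lit 0) (nat_lit 0) (XT.nd (nat_lit 658) (nat_lit 0) (nat_lit 0) (XT.nd (nat_lit 282) (nat_lit 0) (nat_lit 0) (XT.nd (nat_lit 94) (nat_lit 0) (nat_lit 0) (XT.lf (nat_lit 0) (nat_lit 689837541417) (nat_lit 0) (nat_lit 0) (nat_lit 0) (nat_lit 0) (nat_lit 0) (nat_lit 0) (nat_lit 1) (nat_lit 0) (nat_lit 1) (nat_lit 0) (nat_lit 444) (nat_lit 347) (nat_lit 289)) (XT.nd (nat_lit 94) (nat_lit 0) (nat_lit 0) (XT.lf (nat_lit 0) (nat_lit 744992259001) (nat_lit 0) (nat_lit 0) (nat_lit 0) (nat_lit 0) (nat_lit 0) (nat_lit 0) (nat_lit 1) (nat_lit 0) (nat_lit 1) (nat_lit 0) (nat_lit 445) (nat_lit 347) (nat_lit 288)) (XT.lf (nat_lit 0) (nat_lit 804559405898) (nat_lit 0) (nat_lit 0) (nat_lit 0) (nat_lit 0) (nat_lit 0) (nat_lit 0) (nat_lit 1) (nat_lit 0) (nat_lit 1) (nat_lit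 0) (nat_lit 446) (nat_lit 347) (nat_lit 287)))) (XT.nd (nat_lit 188) (nat_lit 0) (nat_lit 0) (XT.nd (nat_lit 94) (nat_lit 0) (nat_lit 0) (XT.lf (nat_lit 0) (nat_lit 868891972607) (nat_lit 0) (nat_lit 0) (nat_lit 0) (nat_lit 0) (nat_lit 0) (nat_lit 0) (nat_lit 1) (nat_lit 0) (nat_lit 1) (nat_lit 0) (nat_lit 447) (nat_lit 347) (nat_lit 286)) (XT.lf (nat_lit 0) (nat_lit 938371189152) (nat_lit 0) (nat_lit 0) (nat_lit 0) (nat_lit 0) (nat_lit 0) (nat_lit 0) (nat_lit 1) (nat_lit 0) (nat_lit 1) (nat_lit 0) (nat_lit 448) (nat_lit 347) (nat_lit 285))) (XT.nd (nat_lit 94) (nat_lit 0) (nat_lit 0) (XT.lf (nat_lit 0) (nat_lit 1013408784225) (nat_lit 0) (nat_lit 0) (nat_lit 0) (nat_lit 0) (nat_lit 0) (nat_lit 0) (nat_lit 1) (nat_lit 0) (nat_lit 1) (nat_lit 0) (nat_lit 449) (nat_lit 347) (nat_lit 284)) (XT.lf (nat_lit 0) (nat_lit 1094449425055) (nat_lit 0) (nat_lit 0) (nat_lit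 0) (nat_lit 0) (nat_lit 0) (nat_lit 0) (nat_lit 1) (nat_lit 0) (nat_lit 1) (nat_lit 0) (nat_lit 450) (nat_lit 347) (nat_lit 283))))) (XT.nd (nat_lit 282) (nat_lit 0) (nat_lit 0) (XT.nd (nat_lit 94) (nat_lit 0) (nat_lit 0) (XT.lf (nat_lit 0) (nat_lit 1181973352478) (nat_lit 0) (nat_lit 0) (nat_lit 0) (nat_lit 0) (nat_lit 0) (nat_lit 0) (nat_lit 1) (nat_lit 0) (nat_lit 1) (nat_lit 0) (nat_lit 451) (nat_lit 347) (nat_lit 282)) (XT.nd (nat_lit 94) (nat_lit 0) (nat_lit 0) (XT.lf (nat_lit 0) (nat_lit 1276499226803) (nat_lit 0) (nat_lit 0) (nat_lit 0) (nat_lit 0) (nat_lit 0) (nat_lit 0) (nat_lit 1) (nat_lit 0) (nat_lit 1) (nat_lit 0) (nat_lit 452) (nat_lit 347) (nat_lit 281)) (XT.lf (nat_lit 0) (nat_lit 1378587201361) (nat_lit 0) (nat_lit 0) (nat_lit 0) (nat_lit 0) (nat_lit 0) (nat_lit 0) (nat_lit 1) (nat_lit 0) (nat_lit 1) (nat_lit 0) (nat_lit 453) (nat_lit 347)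 (nat_lit 280)))) (XT.nd (nat_lit 188) (nat_lit 0) (nat_lit 0) (XT.nd (nat_lit 94) (nat_lit 0) (nat_lit 0) (XT.lf (nat_lit 0) (nat_lit 1488842241925) (nat_lit 0) (nat_lit 0) (nat_lit 0) (nat_lit 0) (nat_lit 0) (nat_lit 0) (nat_lit 1) (nat_lit 0) (nat_lit 1) (nat_lit 0) (nat_lit 454) (nat_lit 347) (nat_lit 279)) (XT.lf (nat_lit 0) (nat_lit 1607917711700) (nat_lit 0) (nat_lit 0) (nat_lit 0) (nat_lit 0) (nat_lit 0) (nat_lit 0) (nat_lit 1) (nat_lit 0) (nat_lit 1) (nat_lit 0) (nat_lit 455) (nat_lit 347) (nat_lit 278))) (XT.nd (nat_lit 94) (nat_lit 0) (nat_lit 0) (XT.lf (nat_lit 0) (nat_lit 1736519243100) (nat_lit 0) (nat_lit 0) (nat_lit 0) (nat_lit 0) (nat_lit 0) (nat_lit 0) (nat_lit 1) (nat_lit 0) (nat_lit 1) (nat_lit 0) (nat_lit 456) (nat_lit 347) (nat_lit 277)) (XT.lf (nat_lit 0) (nat_lit 1875408919272) (nat_lit 0) (nat_lit 0) (nat_lit 0) (nat_lit 0) (nat_lit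 0) (nat_lit 0) (nat_lit 1) (nat_lit 0) (nat_lit 1) (nat_lit 0) (nat_lit 457) (nat_lit 347) (nat_lit 276)))))) (XT.nd (nat_lit 658) (nat_lit 0) (nat_lit 0) (XT.nd (nat_lit 282) (nat_lit 0) (nat_lit 0) (XT.nd (nat_lit 94) (nat_lit 0) (nat_lit 0) (XT.lf (nat_lit 0) (nat_lit 2025409790150) (nat_lit 0) (nat_lit 0) (nat_lit 0) (nat_lit 0) (nat_lit 0) (nat_lit 0) (nat_lit 1) (nat_lit 0) (nat_lit 1) (nat_lit 0) (nat_lit 458) (nat_lit 347) (nat_lit 275)) (XT.nd (nat_lit 94) (nat_lit 0) (nat_lit 0) (XT.lf (nat_lit 0) (nat_lit 2187410749784) (nat_lit 0) (nat_lit 0) (nat_lit 0) (nat_lit 0) (nat_lit 0) (nat_lit 0) (nat_lit 1) (nat_lit 0) (nat_lit 1) (nat_lit 0) (nat_lit 459) (nat_lit 347) (nat_lit 274)) (XT.lf (nat_lit 0) (nat_lit 2362371803860) (nat_lit 0) (nat_lit 0) (nat_lit 0) (nat_lit 0) (nat_lit 0) (nat_lit 0) (nat_lit 1) (nat_lit 0) (nat_lit 1) (nat_lit 0) (nat_lit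 460) (nat_lit 347) (nat_lit 273)))) (XT.nd (nat_lit 188) (nat_lit 0) (nat_lit 0) (XT.nd (nat_lit 94) (nat_lit 0) (nat_lit 0) (XT.lf (nat_lit 0) (nat_lit 2551329758625) (nat_lit 0) (nat_lit 0) (nat_lit 0) (nat_lit 0) (nat_lit 0) (nat_lit 0) (nat_lit 1) (nat_lit 0) (nat_lit 1) (nat_lit 0) (nat_lit 461) (nat_lit 347) (nat_lit 272)) (XT.lf (nat_lit 0) (nat_lit 2755404364922) (nat_lit 0) (nat_lit 0) (nat_lit 0) (nat_lit 0) (nat_lit 0) (nat_lit 0) (nat_lit 1) (nat_lit 0) (nat_lit 1) (nat_lit 0) (nat_lit 462) (nat_lit 347) (nat_lit 271))) (XT.nd (nat_lit 94) (nat_lit 0) (nat_lit 0) (XT.lf (nat_lit 0) (nat_lit 2975804953751) (nat_lit 0) (nat_lit 0) (nat_lit 0) (nat_lit 0) (nat_lit 0) (nat_lit 0) (nat_lit 1) (nat_lit 0) (nat_lit 1) (nat_lit 0) (nat_lit 463) (nat_lit 347) (nat_lit 270)) (XT.lf (nat_lit 0) (nat_lit 3213837602675) (nat_lit 0) (nat_lit 0) (nat_lit 0) (nat_lit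 0) (nat_lit 0) (nat_lit 0) (nat_lit 1) (nat_lit 0) (nat_lit 1) (nat_lit 0) (nat_lit 464) (nat_lit 347) (nat_lit 269))))) (XT.nd (nat_lit 282) (nat_lit 0) (nat_lit 0) (XT.nd (nat_lit 94) (nat_lit 0) (nat_lit 0) (XT.lf (nat_lit 0) (nat_lit 3470912875540) (nat_lit 0) (nat_lit 0) (nat_lit 0) (nat_lit 0) (nat_lit 0) (nat_lit 0) (nat_lit 1) (nat_lit 0) (nat_lit 1) (nat_lit 0) (nat_lit 465) (nat_lit 347) (nat_lit 268)) (XT.nd (nat_lit 94) (nat_lit 0) (nat_lit 0) (XT.lf (nat_lit 0) (nat_lit 3748554181371) (nat_lit 0) (nat_lit 0) (nat_lit 0) (nat_lit 0) (nat_lit 0) (nat_lit 0) (nat_lit 1) (nat_lit 0) (nat_lit 1) (nat_lit 0) (nat_lit 466) (nat_lit 347) (nat_lit 267)) (XT.lf (nat_lit 0) (nat_lit 4048406801979) (nat_lit 0) (nat_lit 0) (nat_lit 0) (nat_lit 0) (nat_lit 0) (nat_lit 0) (nat_lit 1) (nat_lit 0) (nat_lit 1) (nat_lit 0) (nat_lit 467) (nat_lit 347) (nat_lit 266))))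 (XT.nd (nat_lit 188) (nat_lit 0) (nat_lit 0) (XT.nd (nat_lit 94) (nat_lit 0) (nat_lit 0) (XT.lf (nat_lit 0) (nat_lit 4372247641783) (nat_lit 0) (nat_lit 0) (nat_lit 0) (nat_lit 0) (nat_lit 0) (nat_lit 0) (nat_lit 1) (nat_lit 0) (nat_lit 1) (nat_lit 0) (nat_lit 468) (nat_lit 347) (nat_lit 265)) (XT.lf (nat_lit 0) (nat_lit 4721995757612) (nat_lit 0) (nat_lit 0) (nat_lit 0) (nat_lit 0) (nat_lit 0) (nat_lit 0) (nat_lit 1) (nat_lit 0) (nat_lit 1) (nat_lit 0) (nat_lit 469) (nat_lit 347) (nat_lit 264))) (XT.nd (nat_lit 94) (nat_lit 0) (nat_lit 0) (XT.lf (nat_lit 0) (nat_lit 5099723730893) (nat_lit 0) (nat_lit 0) (nat_lit 0) (nat_lit 0) (nat_lit 0) (nat_lit 0) (nat_lit 1) (nat_lit 0) (nat_lit 1) (nat_lit 0) (nat_lit 470) (nat_lit 347) (nat_lit 263)) (XT.lf (nat_lit 0) (nat_lit 5507669949615) (nat_lit 0) (nat_lit 0) (nat_lit 0) (nat_lit 0) (nat_lit 0) (nat_lit 0) (nat_lit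 1) (nat_lit 0) (nat_lit 1) (nat_lit 0) (nat_lit 471) (nat_lit 347) (nat_lit 262))))))) (XT.nd (nat_lit 1316) (nat_lit 0) (nat_lit 0) (XT.nd (nat_lit 658) (nat_lit 0) (nat_lit 0) (XT.nd (nat_lit 282) (nat_lit 0) (nat_lit 0) (XT.nd (nat_lit 94) (nat_lit 0) (nat_lit 0) (XT.lf (nat_lit 0) (nat_lit 5948251872852) (nat_lit 0) (nat_lit 0) (nat_lit 0) (nat_lit 0) (nat_lit 0) (nat_lit 0) (nat_lit 1) (nat_lit 0) (nat_lit 1) (nat_lit 0) (nat_lit 472) (nat_lit 347) (nat_lit 261)) (XT.nd (nat_lit 94) (nat_lit 0) (nat_lit 0) (XT.lf (nat_lit 0) (nat_lit 6424080356446) (nat_lit 0) (nat_lit 0) (nat_lit 0) (nat_lit 0) (nat_lit 0) (nat_lit 0) (nat_lit 1) (nat_lit 0) (nat_lit 1) (nat_lit 0) (nat_lit 473) (nat_lit 347) (nat_lit 260)) (XT.lf (nat_lit 0) (nat_lit 6937975124745) (nat_lit 0) (nat_lit 0) (nat_lit 0) (nat_lit 0) (nat_lit 0) (nat_lit 0) (nat_lit 1) (nat_lit 0) (nat_lit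 1) (nat_lit 0) (nat_lit 474) (nat_lit 347) (nat_lit 259)))) (XT.nd (nat_lit 188) (nat_lit 0) (nat_lit 0) (XT.nd (nat_lit 94) (nat_lit 0) (nat_lit 0) (XT.lf (nat_lit 0) (nat_lit 7492981480078) (nat_lit 0) (nat_lit 0) (nat_lit 0) (nat_lit 0) (nat_lit 0) (nat_lit 0) (nat_lit 1) (nat_lit 0) (nat_lit 1) (nat_lit 0) (nat_lit 475) (nat_lit 347) (nat_lit 258)) (XT.lf (nat_lit 0) (nat_lit 8092388348995) (nat_lit 0) (nat_lit 0) (nat_lit 0) (nat_lit 0) (nat_lit 0) (nat_lit 0) (nat_lit 1) (nat_lit 0) (nat_lit 1) (nat_lit 0) (nat_lit 476) (nat_lit 347) (nat_lit 257))) (XT.nd (nat_lit 94) (nat_lit 0) (nat_lit 0) (XT.lf (nat_lit 0) (nat_lit 8739747772203) (nat_lit 0) (nat_lit 0) (nat_lit 0) (nat_lit 0) (nat_lit 0) (nat_lit 0) (nat_lit 1) (nat_lit 0) (nat_lit 1) (nat_lit 0) (nat_lit 477) (nat_lit 347) (nat_lit 256)) (XT.lf (nat_lit 0) (nat_lit 9438895953689) (nat_lit 0) (nat_lit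 0) (nat_lit 0) (nat_lit 0) (nat_lit 0) (nat_lit 0) (nat_lit 1) (nat_lit 0) (nat_lit 1) (nat_lit 0) (nat_lit 478) (nat_lit 347) (nat_lit 255))))) (XT.nd (nat_lit 282) (nat_lit 0) (nat_lit 0) (XT.nd (nat_lit 94) (nat_lit 0) (nat_lit 0) (XT.lf (nat_lit 0) (nat_lit 10193975993789) (nat_lit 0) (nat_lit 0) (nat_lit 0) (nat_lit 0) (nat_lit 0) (nat_lit 0) (nat_lit 1) (nat_lit 0) (nat_lit 1) (nat_lit 0) (nat_lit 479) (nat_lit 347) (nat_lit 254)) (XT.nd (nat_lit 94) (nat_lit 0) (nat_lit 0) (XT.lf (nat_lit 0) (nat_lit 11009462440888) (nat_lit 0) (nat_lit 0) (nat_lit 0) (nat_lit 0) (nat_lit 0) (nat_lit 0) (nat_lit 1) (nat_lit 0) (nat_lit 1) (nat_lit 0) (nat_lit 480) (nat_lit 347) (nat_lit 253)) (XT.lf (nat_lit 0) (nat_lit 11890187807266) (nat_lit 0) (nat_lit 0) (nat_lit 0) (nat_lit 0) (nat_lit 0) (nat_lit 0) (nat_lit 1) (nat_lit 0) (nat_lit 1) (nat_lit 0) (nat_lit 481)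 (nat_lit 347) (nat_lit 252)))) (XT.nd (nat_lit 188) (nat_lit 0) (nat_lit 0) (XT.nd (nat_lit 94) (nat_lit 0) (nat_lit 0) (XT.lf (nat_lit 0) (nat_lit 12841371206204) (nat_lit 0) (nat_lit 0) (nat_lit 0) (nat_lit 0) (nat_lit 0) (nat_lit 0) (nat_lit 1) (nat_lit 0) (nat_lit 1) (nat_lit 0) (nat_lit 482) (nat_lit 347) (nat_lit 251)) (XT.lf (nat_lit 0) (nat_lit 13868649280068) (nat_lit 0) (nat_lit 0) (nat_lit 0) (nat_lit 0) (nat_lit 0) (nat_lit 0) (nat_lit 1) (nat_lit 0) (nat_lit 1) (nat_lit 0) (nat_lit 483) (nat_lit 347) (nat_lit 250))) (XT.nd (nat_lit 94) (nat_lit 0) (nat_lit 0) (XT.lf (nat_lit 0) (nat_lit 14978109602627) (nat_lit 0) (nat_lit 0) (nat_lit 0) (nat_lit 0) (nat_lit 0) (nat_lit 0) (nat_lit 1) (nat_lit 0) (nat_lit 1) (nat_lit 0) (nat_lit 484) (nat_lit 347) (nat_lit 249)) (XT.lf (nat_lit 0) (nat_lit 16176326753571) (nat_lit 0) (nat_lit 0) (nat_lit 0) (nat_lit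 0) (nat_lit 0) (nat_lit 0) (nat_lit 1) (nat_lit 0) (nat_lit 1) (nat_lit 0) (nat_lit 485) (nat_lit 347) (nat_lit 248)))))) (XT.nd (nat_lit 658) (nat_lit 0) (nat_lit 0) (XT.nd (nat_lit 282) (nat_lit 0) (nat_lit 0) (XT.nd (nat_lit 94) (nat_lit 0) (nat_lit 0) (XT.lf (nat_lit 0) (nat_lit 17470401278980) (nat_lit 0) (nat_lit 0) (nat_lit 0) (nat_lit 0) (nat_lit 0) (nat_lit 0) (nat_lit 1) (nat_lit 0) (nat_lit 1) (nat_lit 0) (nat_lit 486) (nat_lit 347) (nat_lit 247)) (XT.nd (nat_lit 94) (nat_lit 0) (nat_lit 0) (XT.lf (nat_lit 0) (nat_lit 18868001768634) (nat_lit 0) (nat_lit 0) (nat_lit 0) (nat_lit 0) (nat_lit 0) (nat_lit 0) (nat_lit 1) (nat_lit 0) (nat_lit 1) (nat_lit 0) (nat_lit 487) (nat_lit 347) (nat_lit 246)) (XT.lf (nat_lit 0) (nat_lit 20377410299509) (nat_lit 0) (nat_lit 0) (nat_lit 0) (nat_lit 0) (nat_lit 0) (nat_lit 0) (nat_lit 1) (nat_lit 0) (nat_lit 1) (nat_lit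 0) (nat_lit 488) (nat_lit 347) (nat_lit 245)))) (XT.nd (nat_lit 188) (nat_lit 0) (nat_lit 0) (XT.nd (nat_lit 94) (nat_lit 0) (nat_lit 0) (XT.lf (nat_lit 0) (nat_lit 22007571514750) (nat_lit 0) (nat_lit 0) (nat_lit 0) (nat_lit 0) (nat_lit 0) (nat_lit 0) (nat_lit 1) (nat_lit 0) (nat_lit 1) (nat_lit 0) (nat_lit 489) (nat_lit 347) (nat_lit 244)) (XT.lf (nat_lit 0) (nat_lit 23768145628967) (nat_lit 0) (nat_lit 0) (nat_lit 0) (nat_lit 0) (nat_lit 0) (nat_lit 0) (nat_lit 1) (nat_lit 0) (nat_lit 1) (nat_lit 0) (nat_lit 490) (nat_lit 347) (nat_lit 243))) (XT.nd (nat_lit 94) (nat_lit 0) (nat_lit 0) (XT.lf (nat_lit 0) (nat_lit 25669565673947) (nat_lit 0) (nat_lit 0) (nat_lit 0) (nat_lit 0) (nat_lit 0) (nat_lit 0) (nat_lit 1) (nat_lit 0) (nat_lit 1) (nat_lit 0) (nat_lit 491) (nat_lit 347) (nat_lit 242)) (XT.lf (nat_lit 0) (nat_lit 27723099324032) (nat_lit 0) (nat_lit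 0) (nat_lit 0) (nat_lit 0) (nat_lit 0) (nat_lit 0) (nat_lit 1) (nat_lit 0) (nat_lit 1) (nat_lit 0) (nat_lit 492) (nat_lit 347) (nat_lit 241))))) (XT.nd (nat_lit 57622) (nat_lit 0) (nat_lit 3444) (XT.nd (nat_lit 188) (nat_lit 0) (nat_lit 0) (XT.nd (nat_lit 94) (nat_lit 0) (nat_lit 0) (XT.lf (nat_lit 0) (nat_lit 29940915667517) (nat_lit 0) (nat_lit 0) (nat_lit 0) (nat_lit 0) (nat_lit 0) (nat_lit 0) (nat_lit 1) (nat_lit 0) (nat_lit 1) (nat_lit 0) (nat_lit 493) (nat_lit 347) (nat_lit 240)) (XT.lf (nat_lit 0) (nat_lit 32336157319772) (nat_lit 0) (nat_lit 0) (nat_lit 0) (nat_lit 0) (nat_lit 0) (nat_lit 0) (nat_lit 1) (nat_lit 0) (nat_lit 1) (nat_lit 0) (nat_lit 494) (nat_lit 347) (nat_lit 239))) (XT.nd (nat_lit 57340) (nat_lit 0) (nat_lit 4536) (XT.lf (nat_lit 0) (nat_lit 34923018305402) (nat_lit 0) (nat_lit 0) (nat_lit 0) (nat_lit 0) (nat_lit 0) (nat_lit 0) (nat_lit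 1) (nat_lit 0) (nat_lit 1) (nat_lit 0) (nat_lit 495) (nat_lit 347) (nat_lit 238)) (XT.lf (nat_lit 0) (nat_lit 1143862081) (nat_lit 168) (nat_lit 2087969597) (nat_lit 168) (nat_lit 2087969597) (nat_lit 54) (nat_lit 4) (nat_lit 56) (nat_lit 5) (nat_lit 56) (nat_lit 4) (nat_lit 384) (nat_lit 348) (nat_lit 348)))) (XT.nd (nat_lit 188) (nat_lit 504) (nat_lit 0) (XT.nd (nat_lit 94) (nat_lit 336) (nat_lit 0) (XT.lf (nat_lit 0) (nat_lit 4286208586) (nat_lit 252) (nat_lit 3351631300) (nat_lit 0) (nat_lit 3374632759) (nat_lit 51) (nat_lit 5) (nat_lit 54) (nat_lit 4) (nat_lit 51) (nat_lit 4) (nat_lit 385) (nat_lit 348) (nat_lit 347)) (XT.lf (nat_lit 0) (nat_lit 1785263155) (nat_lit 168) (nat_lit 9512904002) (nat_lit 0) (nat_lit 113236948) (nat_lit 47) (nat_lit 5) (nat_lit 49) (nat_lit 4) (nat_lit 47) (nat_lit 4) (nat_lit 386) (nat_lit 348) (nat_lit 346))) (XT.nd (nat_lit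 94) (nat_lit 336) (nat_lit 0) (XT.lf (nat_lit 0) (nat_lit 7394866307) (nat_lit 168) (nat_lit 3427107243) (nat_lit 168) (nat_lit 1010767374) (nat_lit 45) (nat_lit 4) (nat_lit 47) (nat_lit 5) (nat_lit 47) (nat_lit 4) (nat_lit 387) (nat_lit 348) (nat_lit 345)) (XT.lf (nat_lit 0) (nat_lit 816602870) (nat_lit 168) (nat_lit 7211187106) (nat_lit 168) (nat_lit 4253549789) (nat_lit 41) (nat_lit 4) (nat_lit 43) (nat_lit 5) (nat_lit 43) (nat_lit 4) (nat_lit 388) (nat_lit 348) (nat_lit 344))))))))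
noncomputable def xc61 : XT := (XT.nd (nat_lit 2632) (nat_lit 0) (nat_lit 0) (XT.nd (nat_lit 1316) (nat_lit 840) (nat_lit 0) (XT.nd (nat_lit 658) (nat_lit 1176) (nat_lit 0) (XT.nd (nat_lit 282) (nat_lit 756) (nat_lit 0) (XT.nd (nat_lit 94) (nat_lit 504) (nat_lit 0) (XT.lf (nat_lit 0) (nat_lit 4909704911) (nat_lit 168) (nat_lit 6333274657) (nat_lit 0) (nat_lit 1514105655) (nat_lit 39) (nat_lit 5) (nat_lit 41) (nat_lit 4) (nat_lit 39) (nat_lit 4) (nat_lit 389) (nat_lit 348) (nat_lit 343)) (XT.nd (nat_lit 94) (nat_lit 252) (nat_lit 0) (XT.lf (nat_lit 0) (nat_lit 1406595669) (nat_lit 252) (nat_lit 1048005736) (nat_lit 84) (nat_lit 10808643688) (nat_lit 36) (nat_lit 5) (nat_lit 39) (nat_lit 5) (nat_lit 37) (nat_lit 4) (nat_lit 390) (nat_lit 348) (nat_lit 342)) (XT.lf (nat_lit 0) (nat_lit 4521616358) (nat_lit 168) (nat_lit 6745842279) (nat_lit 168) (nat_lit 2528931690)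 (nat_lit 33) (nat_lit 4) (nat_lit 35) (nat_lit 5) (nat_lit 35) (nat_lit 4) (nat_lit 391) (nat_lit 348) (nat_lit 341)))) (XT.nd (nat_lit 188) (nat_lit 252) (nat_lit 0) (XT.nd (nat_lit 94) (nat_lit 336) (nat_lit 0) (XT.lf (nat_lit 0) (nat_lit 7378670649) (nat_lit 168) (nat_lit 4038057782) (nat_lit 0) (nat_lit 2945811096) (nat_lit 31) (nat_lit 5) (nat_lit 33) (nat_lit 4) (nat_lit 31) (nat_lit 4) (nat_lit 392) (nat_lit 348) (nat_lit 340)) (XT.lf (nat_lit 0) (nat_lit 1427390593) (nat_lit 84) (nat_lit 1619503890) (nat_lit 168) (nat_lit 11916400559) (nat_lit 27) (nat_lit 5) (nat_lit 28) (nat_lit 5) (nat_lit 29) (nat_lit 4) (nat_lit 393) (nat_lit 348) (nat_lit 339))) (XT.nd (nat_lit 94) (nat_lit 168) (nat_lit 0) (XT.lf (nat_lit 0) (nat_lit 7177767657) (nat_lit 84) (nat_lit 6673691141) (nat_lit 84) (nat_lit 1744126686) (nat_lit 26) (nat_lit 4) (nat_lit 27) (nat_lit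 5) (nat_lit 27) (nat_lit 4) (nat_lit 394) (nat_lit 348) (nat_lit 338)) (XT.lf (nat_lit 0) (nat_lit 9057537907) (nat_lit 168) (nat_lit 3145496839) (nat_lit 0) (nat_lit 4062639383) (nat_lit 24) (nat_lit 5) (nat_lit 26) (nat_lit 4) (nat_lit 24) (nat_lit 4) (nat_lit 395) (nat_lit 348) (nat_lit 337))))) (XT.nd (nat_lit 282) (nat_lit 672) (nat_lit 0) (XT.nd (nat_lit 94) (nat_lit 252) (nat_lit 0) (XT.lf (nat_lit 0) (nat_lit 2410848233) (nat_lit 84) (nat_lit 1337246495) (nat_lit 168) (nat_lit 13227406963) (nat_lit 21) (nat_lit 5) (nat_lit 22) (nat_lit 5) (nat_lit 23) (nat_lit 4) (nat_lit 396) (nat_lit 348) (nat_lit 336)) (XT.nd (nat_lit 94) (nat_lit 168) (nat_lit 0) (XT.lf (nat_lit 0) (nat_lit 8219705735) (nat_lit 84) (nat_lit 7384687140) (nat_lit 84) (nat_lit 2118008942) (nat_lit 20) (nat_lit 4) (nat_lit 21) (nat_lit 5) (nat_lit 21) (nat_lit 4) (nat_lit 397) (nat_lit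 348) (nat_lit 335)) (XT.lf (nat_lit 0) (nat_lit 9732526308) (nat_lit 168) (nat_lit 4279804864) (nat_lit 0) (nat_lit 4500579367) (nat_lit 18) (nat_lit 5) (nat_lit 20) (nat_lit 4) (nat_lit 18) (nat_lit 4) (nat_lit 398) (nat_lit 348) (nat_lit 334)))) (XT.nd (nat_lit 188) (nat_lit 336) (nat_lit 0) (XT.nd (nat_lit 94) (nat_lit 84) (nat_lit 0) (XT.lf (nat_lit 0) (nat_lit 1199427821) (nat_lit 84) (nat_lit 2035417565) (nat_lit 168) (nat_lit 16115573171) (nat_lit 15) (nat_lit 5) (nat_lit 16) (nat_lit 5) (nat_lit 17) (nat_lit 4) (nat_lit 399) (nat_lit 348) (nat_lit 333)) (XT.lf (nat_lit 0) (nat_lit 6955889552) (nat_lit 84) (nat_lit 9311700618) (nat_lit 84) (nat_lit 3961944075) (nat_lit 14) (nat_lit 4) (nat_lit 15) (nat_lit 5) (nat_lit 15) (nat_lit 4) (nat_lit 400) (nat_lit 348) (nat_lit 332))) (XT.nd (nat_lit 94) (nat_lit 168) (nat_lit 0) (XT.lf (nat_lit 0) (nat_lit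 9101234395) (nat_lit 168) (nat_lit 8208406327) (nat_lit 0) (nat_lit 3850656526) (nat_lit 12) (nat_lit 5) (nat_lit 14) (nat_lit 4) (nat_lit 12) (nat_lit 4) (nat_lit 401) (nat_lit 348) (nat_lit 331)) (XT.lf (nat_lit 0) (nat_lit 1199796572) (nat_lit 168) (nat_lit 2935042706) (nat_lit 84) (nat_lit 18010701171) (nat_lit 10) (nat_lit 5) (nat_lit 12) (nat_lit 5) (nat_lit 11) (nat_lit 4) (nat_lit 402) (nat_lit 348) (nat_lit 330)))))) (XT.nd (nat_lit 658) (nat_lit 0) (nat_lit 0) (XT.nd (nat_lit 282) (nat_lit 420) (nat_lit 0) (XT.nd (nat_lit 94) (nat_lit 252) (nat_lit 0) (XT.lf (nat_lit 0) (nat_lit 2527921959) (nat_lit 84) (nat_lit 12958541123) (nat_lit 84) (nat_lit 7693776090) (nat_lit 8) (nat_lit 4) (nat_lit 9) (nat_lit 5) (nat_lit 9) (nat_lit 4) (nat_lit 403) (nat_lit 348) (nat_lit 329)) (XT.nd (nat_lit 94) (nat_lit 84) (nat_lit 0) (XT.lf (nat_lit 0) (nat_lit 6758022591)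 (nat_lit 168) (nat_lit 15885005027) (nat_lit 0) (nat_lit 1631944526) (nat_lit 6) (nat_lit 5) (nat_lit 8) (nat_lit 4) (nat_lit 6) (nat_lit 4) (nat_lit 404) (nat_lit 348) (nat_lit 328)) (XT.lf (nat_lit 0) (nat_lit 14433553766) (nat_lit 84) (nat_lit 8112372324) (nat_lit 84) (nat_lit 2882575622) (nat_lit 5) (nat_lit 4) (nat_lit 6) (nat_lit 5) (nat_lit 6) (nat_lit 4) (nat_lit 405) (nat_lit 348) (nat_lit 327)))) (XT.nd (nat_lit 188) (nat_lit 84) (nat_lit 0) (XT.nd (nat_lit 94) (nat_lit 168) (nat_lit 0) (XT.lf (nat_lit 0) (nat_lit 12888347724) (nat_lit 168) (nat_lit 5940781658) (nat_lit 0) (nat_lit 7816126317) (nat_lit 3) (nat_lit 5) (nat_lit 5) (nat_lit 4) (nat_lit 3) (nat_lit 4) (nat_lit 406) (nat_lit 348) (nat_lit 326)) (XT.lf (nat_lit 0) (nat_lit 2227546080) (nat_lit 168) (nat_lit 590439574) (nat_lit 84) (nat_lit 25116336961) (nat_lit 1) (nat_lit 5) (nat_lit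 3) (nat_lit 5) (nat_lit 2) (nat_lit 4) (nat_lit 407) (nat_lit 348) (nat_lit 325))) (XT.nd (nat_lit 94) (nat_lit 0) (nat_lit 0) (XT.lf (nat_lit 0) (nat_lit 43669414428) (nat_lit 0) (nat_lit 0) (nat_lit 0) (nat_lit 0) (nat_lit 0) (nat_lit 0) (nat_lit 1) (nat_lit 0) (nat_lit 1) (nat_lit 0) (nat_lit 408) (nat_lit 348) (nat_lit 324)) (XT.lf (nat_lit 0) (nat_lit 47118495424) (nat_lit 0) (nat_lit 0) (nat_lit 0) (nat_lit 0) (nat_lit 0) (nat_lit 0) (nat_lit 1) (nat_lit 0) (nat_lit 1) (nat_lit 0) (nat_lit 409) (nat_lit 348) (nat_lit 323))))) (XT.nd (nat_lit 282) (nat_lit 0) (nat_lit 0) (XT.nd (nat_lit 94) (nat_lit 0) (nat_lit 0) (XT.lf (nat_lit 0) (nat_lit 50844270334) (nat_lit 0) (nat_lit 0) (nat_lit 0) (nat_lit 0) (nat_lit 0) (nat_lit 0) (nat_lit 1) (nat_lit 0) (nat_lit 1) (nat_lit 0) (nat_lit 410) (nat_lit 348) (nat_lit 322)) (XT.nd (nat_lit 94) (nat_lit 0) (nat_lit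 0) (XT.lf (nat_lit 0) (nat_lit 54868817822) (nat_lit 0) (nat_lit 0) (nat_lit 0) (nat_lit 0) (nat_lit 0) (nat_lit 0) (nat_lit 1) (nat_lit 0) (nat_lit 1) (nat_lit 0) (nat_lit 411) (nat_lit 348) (nat_lit 321)) (XT.lf (nat_lit 0) (nat_lit 59215987059) (nat_lit 0) (nat_lit 0) (nat_lit 0) (nat_lit 0) (nat_lit 0) (nat_lit 0) (nat_lit 1) (nat_lit 0) (nat_lit 1) (nat_lit 0) (nat_lit 412) (nat_lit 348) (nat_lit 320)))) (XT.nd (nat_lit 188) (nat_lit 0) (nat_lit 0) (XT.nd (nat_lit 94) (nat_lit 0) (nat_lit 0) (XT.lf (nat_lit 0) (nat_lit 63911539049) (nat_lit 0) (nat_lit 0) (nat_lit 0) (nat_lit 0) (nat_lit 0) (nat_lit 0) (nat_lit 1) (nat_lit 0) (nat_lit 1) (nat_lit 0) (nat_lit 413) (nat_lit 348) (nat_lit 319)) (XT.lf (nat_lit 0) (nat_lit 68983299283) (nat_lit 0) (nat_lit 0) (nat_lit 0) (nat_lit 0) (nat_lit 0) (nat_lit 0) (nat_lit 1) (nat_lit 0) (nat_lit 1) (nat_lit 0) (nat_lit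 414) (nat_lit 348) (nat_lit 318))) (XT.nd (nat_lit 94) (nat_lit 0) (nat_lit 0) (XT.lf (nat_lit 0) (nat_lit 74461322639) (nat_lit 0) (nat_lit 0) (nat_lit 0) (nat_lit 0) (nat_lit 0) (nat_lit 0) (nat_lit 1) (nat_lit 0) (nat_lit 1) (nat_lit 0) (nat_lit 415) (nat_lit 348) (nat_lit 317)) (XT.lf (nat_lit 0) (nat_lit 80378071476) (nat_lit 0) (nat_lit 0) (nat_lit 0) (nat_lit 0) (nat_lit 0) (nat_lit 0) (nat_lit 1) (nat_lit 0) (nat_lit 1) (nat_lit 0) (nat_lit 416) (nat_lit 348) (nat_lit 316))))))) (XT.nd (nat_lit 1316) (nat_lit 0) (nat_lit 0) (XT.nd (nat_lit 658) (nat_lit 0) (nat_lit 0) (XT.nd (nat_lit 282) (nat_lit 0) (nat_lit 0) (XT.nd (nat_lit 94) (nat_lit 0) (nat_lit 0) (XT.lf (nat_lit 0) (nat_lit 86768608009) (nat_lit 0) (nat_lit 0) (nat_lit 0) (nat_lit 0) (nat_lit 0) (nat_lit 0) (nat_lit 1) (nat_lit 0) (nat_lit 1) (nat_lit 0) (nat_lit 417) (nat_lit 348) (nat_lit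 315)) (XT.nd (nat_lit 94) (nat_lit 0) (nat_lit 0) (XT.lf (nat_lit 0) (nat_lit 93670802086) (nat_lit 0) (nat_lit 0) (nat_lit 0) (nat_lit 0) (nat_lit 0) (nat_lit 0) (nat_lit 1) (nat_lit 0) (nat_lit 1) (nat_lit 0) (nat_lit 418) (nat_lit 348) (nat_lit 314)) (XT.lf (nat_lit 0) (nat_lit 101125555596) (nat_lit 0) (nat_lit 0) (nat_lit 0) (nat_lit 0) (nat_lit 0) (nat_lit 0) (nat_lit 1) (nat_lit 0) (nat_lit 1) (nat_lit 0) (nat_lit 419) (nat_lit 348) (nat_lit 313)))) (XT.nd (nat_lit 188) (nat_lit 0) (nat_lit 0) (XT.nd (nat_lit 94) (nat_lit 0) (nat_lit 0) (XT.lf (nat_lit 0) (nat_lit 109177044857) (nat_lit 0) (nat_lit 0) (nat_lit 0) (nat_lit 0) (nat_lit 0) (nat_lit 0) (nat_lit 1) (nat_lit 0) (nat_lit 1) (nat_lit 0) (nat_lit 420) (nat_lit 348) (nat_lit 312)) (XT.lf (nat_lit 0) (nat_lit 117872982398) (nat_lit 0) (nat_lit 0) (nat_lit 0) (nat_lit 0) (nat_lit 0) (nat_lit 0)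 (nat_lit 1) (nat_lit 0) (nat_lit 1) (nat_lit 0) (nat_lit 421) (nat_lit 348) (nat_lit 311))) (XT.nd (nat_lit 94) (nat_lit 0) (nat_lit 0) (XT.lf (nat_lit 0) (nat_lit 127264899700) (nat_lit 0) (nat_lit 0) (nat_lit 0) (nat_lit 0) (nat_lit 0) (nat_lit 0) (nat_lit 1) (nat_lit 0) (nat_lit 1) (nat_lit 0) (nat_lit 422) (nat_lit 348) (nat_lit 310)) (XT.lf (nat_lit 0) (nat_lit 137408452570) (nat_lit 0) (nat_lit 0) (nat_lit 0) (nat_lit 0) (nat_lit 0) (nat_lit 0) (nat_lit 1) (nat_lit 0) (nat_lit 1) (nat_lit 0) (nat_lit 423) (nat_lit 348) (nat_lit 309))))) (XT.nd (nat_lit 282) (nat_lit 0) (nat_lit 0) (XT.nd (nat_lit 94) (nat_lit 0) (nat_lit 0) (XT.lf (nat_lit 0) (nat_lit 148363750951) (nat_lit 0) (nat_lit 0) (nat_lit 0) (nat_lit 0) (nat_lit 0) (nat_lit 0) (nat_lit 1) (nat_lit 0) (nat_lit 1) (nat_lit 0) (nat_lit 424) (nat_lit 348) (nat_lit 308)) (XT.nd (nat_lit 94) (nat_lit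 0) (nat_lit 0) (XT.lf (nat_lit 0) (nat_lit 160195715129) (nat_lit 0) (nat_lit 0) (nat_lit 0) (nat_lit 0) (nat_lit 0) (nat_lit 0) (nat_lit 1) (nat_lit 0) (nat_lit 1) (nat_lit 0) (nat_lit 425) (nat_lit 348) (nat_lit 307)) (XT.lf (nat_lit 0) (nat_lit 172974460447) (nat_lit 0) (nat_lit 0) (nat_lit 0) (nat_lit 0) (nat_lit 0) (nat_lit 0) (nat_lit 1) (nat_lit 0) (nat_lit 1) (nat_lit 0) (nat_lit 426) (nat_lit 348) (nat_lit 306)))) (XT.nd (nat_lit 188) (nat_lit 0) (nat_lit 0) (XT.nd (nat_lit 94) (nat_lit 0) (nat_lit 0) (XT.lf (nat_lit 0) (nat_lit 186775712804) (nat_lit 0) (nat_lit 0) (nat_lit 0) (nat_lit 0) (nat_lit 0) (nat_lit 0) (nat_lit 1) (nat_lit 0) (nat_lit 1) (nat_lit 0) (nat_lit 427) (nat_lit 348) (nat_lit 305)) (XT.lf (nat_lit 0) (nat_lit 201681257400) (nat_lit 0) (nat_lit 0) (nat_lit 0) (nat_lit 0) (nat_lit 0) (nat_lit 0) (nat_lit 1) (nat_lit 0) (nat_lit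 1) (nat_lit 0) (nat_lit 428) (nat_lit 348) (nat_lit 304))) (XT.nd (nat_lit 94) (nat_lit 0) (nat_lit 0) (XT.lf (nat_lit 0) (nat_lit 217779423386) (nat_lit 0) (nat_lit 0) (nat_lit 0) (nat_lit 0) (nat_lit 0) (nat_lit 0) (nat_lit 1) (nat_lit 0) (nat_lit 1) (nat_lit 0) (nat_lit 429) (nat_lit 348) (nat_lit 303)) (XT.lf (nat_lit 0) (nat_lit 235165607302) (nat_lit 0) (nat_lit 0) (nat_lit 0) (nat_lit 0) (nat_lit 0) (nat_lit 0) (nat_lit 1) (nat_lit 0) (nat_lit 1) (nat_lit 0) (nat_lit 430) (nat_lit 348) (nat_lit 302)))))) (XT.nd (nat_lit 658) (nat_lit 0) (nat_lit 0) (XT.nd (nat_lit 282) (nat_lit 0) (nat_lit 0) (XT.nd (nat_lit 94) (nat_lit 0) (nat_lit 0) (XT.lf (nat_lit 0) (nat_lit 253942838387) (nat_lit 0) (nat_lit 0) (nat_lit 0) (nat_lit 0) (nat_lit 0) (nat_lit 0) (nat_lit 1) (nat_lit 0) (nat_lit 1) (nat_lit 0) (nat_lit 431) (nat_lit 348) (nat_lit 301)) (XT.nd (nat_lit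 94) (nat_lit 0) (nat_lit 0) (XT.lf (nat_lit 0) (nat_lit 274222389121) (nat_lit 0) (nat_lit 0) (nat_lit 0) (nat_lit 0) (nat_lit 0) (nat_lit 0) (nat_lit 1) (nat_lit 0) (nat_lit 1) (nat_lit 0) (nat_lit 432) (nat_lit 348) (nat_lit 300)) (XT.lf (nat_lit 0) (nat_lit 296124434619) (nat_lit 0) (nat_lit 0) (nat_lit 0) (nat_lit 0) (nat_lit 0) (nat_lit 0) (nat_lit 1) (nat_lit 0) (nat_lit 1) (nat_lit 0) (nat_lit 433) (nat_lit 348) (nat_lit 299)))) (XT.nd (nat_lit 188) (nat_lit 0) (nat_lit 0) (XT.nd (nat_lit 94) (nat_lit 0) (nat_lit 0) (XT.lf (nat_lit 0) (nat_lit 319778764781) (nat_lit 0) (nat_lit 0) (nat_lit 0) (nat_lit 0) (nat_lit 0) (nat_lit 0) (nat_lit 1) (nat_lit 0) (nat_lit 1) (nat_lit 0) (nat_lit 434) (nat_lit 348) (nat_lit 298)) (XT.lf (nat_lit 0) (nat_lit 345325553414) (nat_lit 0) (nat_lit 0) (nat_lit 0) (nat_lit 0) (nat_lit 0) (nat_lit 0) (nat_lit 1) (nat_lit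 0) (nat_lit 1) (nat_lit 0) (nat_lit 435) (nat_lit 348) (nat_lit 297))) (XT.nd (nat_lit 94) (nat_lit 0) (nat_lit 0) (XT.lf (nat_lit 0) (nat_lit 372916188896) (nat_lit 0) (nat_lit 0) (nat_lit 0) (nat_lit 0) (nat_lit 0) (nat_lit 0) (nat_lit 1) (nat_lit 0) (nat_lit 1) (nat_lit 0) (nat_lit 436) (nat_lit 348) (nat_lit 296)) (XT.lf (nat_lit 0) (nat_lit 402714171290) (nat_lit 0) (nat_lit 0) (nat_lit 0) (nat_lit 0) (nat_lit 0) (nat_lit 0) (nat_lit 1) (nat_lit 0) (nat_lit 1) (nat_lit 0) (nat_lit 437) (nat_lit 348) (nat_lit 295))))) (XT.nd (nat_lit 376) (nat_lit 0) (nat_lit 0) (XT.nd (nat_lit 188) (nat_lit 0) (nat_lit 0) (XT.nd (nat_lit 94) (nat_lit 0) (nat_lit 0) (XT.lf (nat_lit 0) (nat_lit 434896081231) (nat_lit 0) (nat_lit 0) (nat_lit 0) (nat_lit 0) (nat_lit 0) (nat_lit 0) (nat_lit 1) (nat_lit 0) (nat_lit 1) (nat_lit 0) (nat_lit 438) (nat_lit 348) (nat_lit 294)) (XT.lf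 (nat_lit 0) (nat_lit 469652626334) (nat_lit 0) (nat_lit 0) (nat_lit 0) (nat_lit 0) (nat_lit 0) (nat_lit 0) (nat_lit 1) (nat_lit 0) (nat_lit 1) (nat_lit 0) (nat_lit 439) (nat_lit 348) (nat_lit 293))) (XT.nd (nat_lit 94) (nat_lit 0) (nat_lit 0) (XT.lf (nat_lit 0) (nat_lit 507189771310) (nat_lit 0) (nat_lit 0) (nat_lit 0) (nat_lit 0) (nat_lit 0) (nat_lit 0) (nat_lit 1) (nat_lit 0) (nat_lit 1) (nat_lit 0) (nat_lit 440) (nat_lit 348) (nat_lit 292)) (XT.lf (nat_lit 0) (nat_lit 547729958501) (nat_lit 0) (nat_lit 0) (nat_lit 0) (nat_lit 0) (nat_lit 0) (nat_lit 0) (nat_lit 1) (nat_lit 0) (nat_lit 1) (nat_lit 0) (nat_lit 441) (nat_lit 348) (nat_lit 291)))) (XT.nd (nat_lit 188) (nat_lit 0) (nat_lit 0) (XT.nd (nat_lit 94) (nat_lit 0) (nat_lit 0) (XT.lf (nat_lit 0) (nat_lit 591513426052) (nat_lit 0) (nat_lit 0) (nat_lit 0) (nat_lit 0) (nat_lit 0) (nat_lit 0) (nat_lit 1)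 (nat_lit 0) (nat_lit 1) (nat_lit 0) (nat_lit 442) (nat_lit 348) (nat_lit 290)) (XT.lf (nat_lit 0) (nat_lit 638799631550) (nat_lit 0) (nat_lit 0) (nat_lit 0) (nat_lit 0) (nat_lit 0) (nat_lit 0) (nat_lit 1) (nat_lit 0) (nat_lit 1) (nat_lit 0) (nat_lit 443) (nat_lit 348) (nat_lit 289))) (XT.nd (nat_lit 94) (nat_lit 0) (nat_lit 0) (XT.lf (nat_lit 0) (nat_lit 689868789544) (nat_lit 0) (nat_lit 0) (nat_lit 0) (nat_lit 0) (nat_lit 0) (nat_lit 0) (nat_lit 1) (nat_lit 0) (nat_lit 1) (nat_lit 0) (nat_lit 444) (nat_lit 348) (nat_lit 288)) (XT.lf (nat_lit 0) (nat_lit 745023532084) (nat_lit 0) (nat_lit 0) (nat_lit 0) (nat_lit 0) (nat_lit 0) (nat_lit 0) (nat_lit 1) (nat_lit 0) (nat_lit 1) (nat_lit 0) (nat_lit 445) (nat_lit 348) (nat_lit 287))))))))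
noncomputable def xc62 : XT := (XT.nd (nat_lit 2632) (nat_lit 0) (nat_lit 0) (XT.nd (nat_lit 1316) (nat_lit 0) (nat_lit 0) (XT.nd (nat_lit 658) (nat_lit 0) (nat_lit 0) (XT.nd (nat_lit 282) (nat_lit 0) (nat_lit 0) (XT.nd (nat_lit 94) (nat_lit 0) (nat_lit 0) (XT.lf (nat_lit 0) (nat_lit 804590702086) (nat_lit 0) (nat_lit 0) (nat_lit 0) (nat_lit 0) (nat_lit 0) (nat_lit 0) (nat_lit 1) (nat_lit 0) (nat_lit 1) (nat_lit 0) (nat_lit 446) (nat_lit 348) (nat_lit 286)) (XT.nd (nat_lit 94) (nat_lit 0) (nat_lit 0) (XT.lf (nat_lit 0) (nat_lit 868923290189) (nat_lit 0) (nat_lit 0) (nat_lit 0) (nat_lit 0) (nat_lit 0) (nat_lit 0) (nat_lit 1) (nat_lit 0) (nat_lit 1) (nat_lit 0) (nat_lit 447) (nat_lit 348) (nat_lit 285)) (XT.lf (nat_lit 0) (nat_lit 938402526544) (nat_lit 0) (nat_lit 0) (nat_lit 0) (nat_lit 0) (nat_lit 0) (nat_lit 0) (nat_lit 1) (nat_lit 0) (nat_lit 1) (nat_lit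 0) (nat_lit 448) (nat_lit 348) (nat_lit 284)))) (XT.nd (nat_lit 188) (nat_lit 0) (nat_lit 0) (XT.nd (nat_lit 94) (nat_lit 0) (nat_lit 0) (XT.lf (nat_lit 0) (nat_lit 1013440139959) (nat_lit 0) (nat_lit 0) (nat_lit 0) (nat_lit 0) (nat_lit 0) (nat_lit 0) (nat_lit 1) (nat_lit 0) (nat_lit 1) (nat_lit 0) (nat_lit 449) (nat_lit 348) (nat_lit 283)) (XT.lf (nat_lit 0) (nat_lit 1094480797773) (nat_lit 0) (nat_lit 0) (nat_lit 0) (nat_lit 0) (nat_lit 0) (nat_lit 0) (nat_lit 1) (nat_lit 0) (nat_lit 1) (nat_lit 0) (nat_lit 450) (nat_lit 348) (nat_lit 282))) (XT.nd (nat_lit 94) (nat_lit 0) (nat_lit 0) (XT.lf (nat_lit 0) (nat_lit 1182004740921) (nat_lit 0) (nat_lit 0) (nat_lit 0) (nat_lit 0) (nat_lit 0) (nat_lit 0) (nat_lit 1) (nat_lit 0) (nat_lit 1) (nat_lit 0) (nat_lit 451) (nat_lit 348) (nat_lit 281)) (XT.lf (nat_lit 0) (nat_lit 1276530629807) (nat_lit 0) (nat_lit 0) (nat_lit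 0) (nat_lit 0) (nat_lit 0) (nat_lit 0) (nat_lit 1) (nat_lit 0) (nat_lit 1) (nat_lit 0) (nat_lit 452) (nat_lit 348) (nat_lit 280))))) (XT.nd (nat_lit 282) (nat_lit 0) (nat_lit 0) (XT.nd (nat_lit 94) (nat_lit 0) (nat_lit 0) (XT.lf (nat_lit 0) (nat_lit 1378618617846) (nat_lit 0) (nat_lit 0) (nat_lit 0) (nat_lit 0) (nat_lit 0) (nat_lit 0) (nat_lit 1) (nat_lit 0) (nat_lit 1) (nat_lit 0) (nat_lit 453) (nat_lit 348) (nat_lit 279)) (XT.nd (nat_lit 94) (nat_lit 0) (nat_lit 0) (XT.lf (nat_lit 0) (nat_lit 1488873670894) (nat_lit 0) (nat_lit 0) (nat_lit 0) (nat_lit 0) (nat_lit 0) (nat_lit 0) (nat_lit 1) (nat_lit 0) (nat_lit 1) (nat_lit 0) (nat_lit 454) (nat_lit 348) (nat_lit 278)) (XT.lf (nat_lit 0) (nat_lit 1607949152228) (nat_lit 0) (nat_lit 0) (nat_lit 0) (nat_lit 0) (nat_lit 0) (nat_lit 0) (nat_lit 1) (nat_lit 0) (nat_lit 1) (nat_lit 0) (nat_lit 455) (nat_lit 348)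 (nat_lit 277)))) (XT.nd (nat_lit 188) (nat_lit 0) (nat_lit 0) (XT.nd (nat_lit 94) (nat_lit 0) (nat_lit 0) (XT.lf (nat_lit 0) (nat_lit 1736550694330) (nat_lit 0) (nat_lit 0) (nat_lit 0) (nat_lit 0) (nat_lit 0) (nat_lit 0) (nat_lit 1) (nat_lit 0) (nat_lit 1) (nat_lit 0) (nat_lit 456) (nat_lit 348) (nat_lit 276)) (XT.lf (nat_lit 0) (nat_lit 1875440380412) (nat_lit 0) (nat_lit 0) (nat_lit 0) (nat_lit 0) (nat_lit 0) (nat_lit 0) (nat_lit 1) (nat_lit 0) (nat_lit 1) (nat_lit 0) (nat_lit 457) (nat_lit 348) (nat_lit 275))) (XT.nd (nat_lit 94) (nat_lit 0) (nat_lit 0) (XT.lf (nat_lit 0) (nat_lit 2025441260466) (nat_lit 0) (nat_lit 0) (nat_lit 0) (nat_lit 0) (nat_lit 0) (nat_lit 0) (nat_lit 1) (nat_lit 0) (nat_lit 1) (nat_lit 0) (nat_lit 458) (nat_lit 348) (nat_lit 274)) (XT.lf (nat_lit 0) (nat_lit 2187442228596) (nat_lit 0) (nat_lit 0) (nat_lit 0) (nat_lit 0) (nat_lit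 0) (nat_lit 0) (nat_lit 1) (nat_lit 0) (nat_lit 1) (nat_lit 0) (nat_lit 459) (nat_lit 348) (nat_lit 273)))))) (XT.nd (nat_lit 658) (nat_lit 0) (nat_lit 0) (XT.nd (nat_lit 282) (nat_lit 0) (nat_lit 0) (XT.nd (nat_lit 94) (nat_lit 0) (nat_lit 0) (XT.lf (nat_lit 0) (nat_lit 2362403290539) (nat_lit 0) (nat_lit 0) (nat_lit 0) (nat_lit 0) (nat_lit 0) (nat_lit 0) (nat_lit 1) (nat_lit 0) (nat_lit 1) (nat_lit 0) (nat_lit 460) (nat_lit 348) (nat_lit 272)) (XT.nd (nat_lit 94) (nat_lit 0) (nat_lit 0) (XT.lf (nat_lit 0) (nat_lit 2551361252587) (nat_lit 0) (nat_lit 0) (nat_lit 0) (nat_lit 0) (nat_lit 0) (nat_lit 0) (nat_lit 1) (nat_lit 0) (nat_lit 1) (nat_lit 0) (nat_lit 461) (nat_lit 348) (nat_lit 271)) (XT.lf (nat_lit 0) (nat_lit 2755435865629) (nat_lit 0) (nat_lit 0) (nat_lit 0) (nat_lit 0) (nat_lit 0) (nat_lit 0) (nat_lit 1) (nat_lit 0) (nat_lit 1) (nat_lit 0) (nat_lit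 462) (nat_lit 348) (nat_lit 270)))) (XT.nd (nat_lit 188) (nat_lit 0) (nat_lit 0) (XT.nd (nat_lit 94) (nat_lit 0) (nat_lit 0) (XT.lf (nat_lit 0) (nat_lit 2975836460702) (nat_lit 0) (nat_lit 0) (nat_lit 0) (nat_lit 0) (nat_lit 0) (nat_lit 0) (nat_lit 1) (nat_lit 0) (nat_lit 1) (nat_lit 0) (nat_lit 463) (nat_lit 348) (nat_lit 269)) (XT.lf (nat_lit 0) (nat_lit 3213869115409) (nat_lit 0) (nat_lit 0) (nat_lit 0) (nat_lit 0) (nat_lit 0) (nat_lit 0) (nat_lit 1) (nat_lit 0) (nat_lit 1) (nat_lit 0) (nat_lit 464) (nat_lit 348) (nat_lit 268))) (XT.nd (nat_lit 94) (nat_lit 0) (nat_lit 0) (XT.lf (nat_lit 0) (nat_lit 3470944393628) (nat_lit 0) (nat_lit 0) (nat_lit 0) (nat_lit 0) (nat_lit 0) (nat_lit 0) (nat_lit 1) (nat_lit 0) (nat_lit 1) (nat_lit 0) (nat_lit 465) (nat_lit 348) (nat_lit 267)) (XT.lf (nat_lit 0) (nat_lit 3748585704416) (nat_lit 0) (nat_lit 0) (nat_lit 0) (nat_lit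 0) (nat_lit 0) (nat_lit 0) (nat_lit 1) (nat_lit 0) (nat_lit 1) (nat_lit 0) (nat_lit 466) (nat_lit 348) (nat_lit 266))))) (XT.nd (nat_lit 282) (nat_lit 0) (nat_lit 0) (XT.nd (nat_lit 94) (nat_lit 0) (nat_lit 0) (XT.lf (nat_lit 0) (nat_lit 4048438329614) (nat_lit 0) (nat_lit 0) (nat_lit 0) (nat_lit 0) (nat_lit 0) (nat_lit 0) (nat_lit 1) (nat_lit 0) (nat_lit 1) (nat_lit 0) (nat_lit 467) (nat_lit 348) (nat_lit 265)) (XT.nd (nat_lit 94) (nat_lit 0) (nat_lit 0) (XT.lf (nat_lit 0) (nat_lit 4372279173668) (nat_lit 0) (nat_lit 0) (nat_lit 0) (nat_lit 0) (nat_lit 0) (nat_lit 0) (nat_lit 1) (nat_lit 0) (nat_lit 1) (nat_lit 0) (nat_lit 468) (nat_lit 348) (nat_lit 264)) (XT.lf (nat_lit 0) (nat_lit 4722027293432) (nat_lit 0) (nat_lit 0) (nat_lit 0) (nat_lit 0) (nat_lit 0) (nat_lit 0) (nat_lit 1) (nat_lit 0) (nat_lit 1) (nat_lit 0) (nat_lit 469) (nat_lit 348) (nat_lit 263))))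 (XT.nd (nat_lit 188) (nat_lit 0) (nat_lit 0) (XT.nd (nat_lit 94) (nat_lit 0) (nat_lit 0) (XT.lf (nat_lit 0) (nat_lit 5099755270357) (nat_lit 0) (nat_lit 0) (nat_lit 0) (nat_lit 0) (nat_lit 0) (nat_lit 0) (nat_lit 1) (nat_lit 0) (nat_lit 1) (nat_lit 0) (nat_lit 470) (nat_lit 348) (nat_lit 262)) (XT.lf (nat_lit 0) (nat_lit 5507701492453) (nat_lit 0) (nat_lit 0) (nat_lit 0) (nat_lit 0) (nat_lit 0) (nat_lit 0) (nat_lit 1) (nat_lit 0) (nat_lit 1) (nat_lit 0) (nat_lit 471) (nat_lit 348) (nat_lit 261))) (XT.nd (nat_lit 94) (nat_lit 0) (nat_lit 0) (XT.lf (nat_lit 0) (nat_lit 5948283418814) (nat_lit 0) (nat_lit 0) (nat_lit 0) (nat_lit 0) (nat_lit 0) (nat_lit 0) (nat_lit 1) (nat_lit 0) (nat_lit 1) (nat_lit 0) (nat_lit 472) (nat_lit 348) (nat_lit 260)) (XT.lf (nat_lit 0) (nat_lit 6424111905301) (nat_lit 0) (nat_lit 0) (nat_lit 0) (nat_lit 0) (nat_lit 0) (nat_lit 0) (nat_lit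 1) (nat_lit 0) (nat_lit 1) (nat_lit 0) (nat_lit 473) (nat_lit 348) (nat_lit 259))))))) (XT.nd (nat_lit 1316) (nat_lit 0) (nat_lit 0) (XT.nd (nat_lit 658) (nat_lit 0) (nat_lit 0) (XT.nd (nat_lit 282) (nat_lit 0) (nat_lit 0) (XT.nd (nat_lit 94) (nat_lit 0) (nat_lit 0) (XT.lf (nat_lit 0) (nat_lit 6938006676277) (nat_lit 0) (nat_lit 0) (nat_lit 0) (nat_lit 0) (nat_lit 0) (nat_lit 0) (nat_lit 1) (nat_lit 0) (nat_lit 1) (nat_lit 0) (nat_lit 474) (nat_lit 348) (nat_lit 258)) (XT.nd (nat_lit 94) (nat_lit 0) (nat_lit 0) (XT.lf (nat_lit 0) (nat_lit 7493013034090) (nat_lit 0) (nat_lit 0) (nat_lit 0) (nat_lit 0) (nat_lit 0) (nat_lit 0) (nat_lit 1) (nat_lit 0) (nat_lit 1) (nat_lit 0) (nat_lit 475) (nat_lit 348) (nat_lit 257)) (XT.lf (nat_lit 0) (nat_lit 8092419905304) (nat_lit 0) (nat_lit 0) (nat_lit 0) (nat_lit 0) (nat_lit 0) (nat_lit 0) (nat_lit 1) (nat_lit 0) (nat_lit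 1) (nat_lit 0) (nat_lit 476) (nat_lit 348) (nat_lit 256)))) (XT.nd (nat_lit 188) (nat_lit 0) (nat_lit 0) (XT.nd (nat_lit 94) (nat_lit 0) (nat_lit 0) (XT.lf (nat_lit 0) (nat_lit 8739779330638) (nat_lit 0) (nat_lit 0) (nat_lit 0) (nat_lit 0) (nat_lit 0) (nat_lit 0) (nat_lit 1) (nat_lit 0) (nat_lit 1) (nat_lit 0) (nat_lit 477) (nat_lit 348) (nat_lit 255)) (XT.lf (nat_lit 0) (nat_lit 9438927514092) (nat_lit 0) (nat_lit 0) (nat_lit 0) (nat_lit 0) (nat_lit 0) (nat_lit 0) (nat_lit 1) (nat_lit 0) (nat_lit 1) (nat_lit 0) (nat_lit 478) (nat_lit 348) (nat_lit 254))) (XT.nd (nat_lit 94) (nat_lit 0) (nat_lit 0) (XT.lf (nat_lit 0) (nat_lit 10194007556015) (nat_lit 0) (nat_lit 0) (nat_lit 0) (nat_lit 0) (nat_lit 0) (nat_lit 0) (nat_lit 1) (nat_lit 0) (nat_lit 1) (nat_lit 0) (nat_lit 479) (nat_lit 348) (nat_lit 253)) (XT.lf (nat_lit 0) (nat_lit 11009494004802) (nat_lit 0)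 (nat_lit 0) (nat_lit 0) (nat_lit 0) (nat_lit 0) (nat_lit 0) (nat_lit 1) (nat_lit 0) (nat_lit 1) (nat_lit 0) (nat_lit 480) (nat_lit 348) (nat_lit 252))))) (XT.nd (nat_lit 282) (nat_lit 0) (nat_lit 0) (XT.nd (nat_lit 94) (nat_lit 0) (nat_lit 0) (XT.lf (nat_lit 0) (nat_lit 11890219372743) (nat_lit 0) (nat_lit 0) (nat_lit 0) (nat_lit 0) (nat_lit 0) (nat_lit 0) (nat_lit 1) (nat_lit 0) (nat_lit 1) (nat_lit 0) (nat_lit 481) (nat_lit 348) (nat_lit 251)) (XT.nd (nat_lit 94) (nat_lit 0) (nat_lit 0) (XT.lf (nat_lit 0) (nat_lit 12841402773128) (nat_lit 0) (nat_lit 0) (nat_lit 0) (nat_lit 0) (nat_lit 0) (nat_lit 0) (nat_lit 1) (nat_lit 0) (nat_lit 1) (nat_lit 0) (nat_lit 482) (nat_lit 348) (nat_lit 250)) (XT.lf (nat_lit 0) (nat_lit 13868680848331) (nat_lit 0) (nat_lit 0) (nat_lit 0) (nat_lit 0) (nat_lit 0) (nat_lit 0) (nat_lit 1) (nat_lit 0) (nat_lit 1) (nat_lit 0) (nat_lit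 483) (nat_lit 348) (nat_lit 249)))) (XT.nd (nat_lit 188) (nat_lit 0) (nat_lit 0) (XT.nd (nat_lit 94) (nat_lit 0) (nat_lit 0) (XT.lf (nat_lit 0) (nat_lit 14978141172131) (nat_lit 0) (nat_lit 0) (nat_lit 0) (nat_lit 0) (nat_lit 0) (nat_lit 0) (nat_lit 1) (nat_lit 0) (nat_lit 1) (nat_lit 0) (nat_lit 484) (nat_lit 348) (nat_lit 248)) (XT.lf (nat_lit 0) (nat_lit 16176358324224) (nat_lit 0) (nat_lit 0) (nat_lit 0) (nat_lit 0) (nat_lit 0) (nat_lit 0) (nat_lit 1) (nat_lit 0) (nat_lit 1) (nat_lit 0) (nat_lit 485) (nat_lit 348) (nat_lit 247))) (XT.nd (nat_lit 94) (nat_lit 0) (nat_lit 0) (XT.lf (nat_lit 0) (nat_lit 17470432850697) (nat_lit 0) (nat_lit 0) (nat_lit 0) (nat_lit 0) (nat_lit 0) (nat_lit 0) (nat_lit 1) (nat_lit 0) (nat_lit 1) (nat_lit 0) (nat_lit 486) (nat_lit 348) (nat_lit 246)) (XT.lf (nat_lit 0) (nat_lit 18868033341335) (nat_lit 0) (nat_lit 0) (nat_lit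 0) (nat_lit 0) (nat_lit 0) (nat_lit 0) (nat_lit 1) (nat_lit 0) (nat_lit 1) (nat_lit 0) (nat_lit 487) (nat_lit 348) (nat_lit 245)))))) (XT.nd (nat_lit 57810) (nat_lit 0) (nat_lit 3276) (XT.nd (nat_lit 282) (nat_lit 0) (nat_lit 0) (XT.nd (nat_lit 94) (nat_lit 0) (nat_lit 0) (XT.lf (nat_lit 0) (nat_lit 20377441873122) (nat_lit 0) (nat_lit 0) (nat_lit 0) (nat_lit 0) (nat_lit 0) (nat_lit 0) (nat_lit 1) (nat_lit 0) (nat_lit 1) (nat_lit 0) (nat_lit 488) (nat_lit 348) (nat_lit 244)) (XT.nd (nat_lit 94) (nat_lit 0) (nat_lit 0) (XT.lf (nat_lit 0) (nat_lit 22007603089208) (nat_lit 0) (nat_lit 0) (nat_lit 0) (nat_lit 0) (nat_lit 0) (nat_lit 0) (nat_lit 1) (nat_lit 0) (nat_lit 1) (nat_lit 0) (nat_lit 489) (nat_lit 348) (nat_lit 243)) (XT.lf (nat_lit 0) (nat_lit 23768177204206) (nat_lit 0) (nat_lit 0) (nat_lit 0) (nat_lit 0) (nat_lit 0) (nat_lit 0) (nat_lit 1) (nat_lit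 0) (nat_lit 1) (nat_lit 0) (nat_lit 490) (nat_lit 348) (nat_lit 242)))) (XT.nd (nat_lit 188) (nat_lit 0) (nat_lit 0) (XT.nd (nat_lit 94) (nat_lit 0) (nat_lit 0) (XT.lf (nat_lit 0) (nat_lit 25669597249910) (nat_lit 0) (nat_lit 0) (nat_lit 0) (nat_lit 0) (nat_lit 0) (nat_lit 0) (nat_lit 1) (nat_lit 0) (nat_lit 1) (nat_lit 0) (nat_lit 491) (nat_lit 348) (nat_lit 241)) (XT.lf (nat_lit 0) (nat_lit 27723130900665) (nat_lit 0) (nat_lit 0) (nat_lit 0) (nat_lit 0) (nat_lit 0) (nat_lit 0) (nat_lit 1) (nat_lit 0) (nat_lit 1) (nat_lit 0) (nat_lit 492) (nat_lit 348) (nat_lit 240))) (XT.nd (nat_lit 94) (nat_lit 0) (nat_lit 0) (XT.lf (nat_lit 0) (nat_lit 29940947244771) (nat_lit 0) (nat_lit 0) (nat_lit 0) (nat_lit 0) (nat_lit 0) (nat_lit 0) (nat_lit 1) (nat_lit 0) (nat_lit 1) (nat_lit 0) (nat_lit 493) (nat_lit 348) (nat_lit 239)) (XT.lf (nat_lit 0) (nat_lit 32336188897600)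 (nat_lit 0) (nat_lit 0) (nat_lit 0) (nat_lit 0) (nat_lit 0) (nat_lit 0) (nat_lit 1) (nat_lit 0) (nat_lit 1) (nat_lit 0) (nat_lit 494) (nat_lit 348) (nat_lit 238))))) (XT.nd (nat_lit 376) (nat_lit 1008) (nat_lit 0) (XT.nd (nat_lit 188) (nat_lit 672) (nat_lit 0) (XT.nd (nat_lit 94) (nat_lit 168) (nat_lit 0) (XT.lf (nat_lit 0) (nat_lit 672299388) (nat_lit 252) (nat_lit 3631692502) (nat_lit 0) (nat_lit 672299388) (nat_lit 61) (nat_lit 5) (nat_lit 64) (nat_lit 4) (nat_lit 61) (nat_lit 4) (nat_lit 382) (nat_lit 349) (nat_lit 349)) (XT.lf (nat_lit 0) (nat_lit 7500668140) (nat_lit 168) (nat_lit 1937803399) (nat_lit 168) (nat_lit 852390062) (nat_lit 59) (nat_lit 4) (nat_lit 61) (nat_lit 5) (nat_lit 61) (nat_lit 4) (nat_lit 383) (nat_lit 349) (nat_lit 348))) (XT.nd (nat_lit 94) (nat_lit 252) (nat_lit 0) (XT.lf (nat_lit 0) (nat_lit 1880355252) (nat_lit 168) (nat_lit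 5380966176) (nat_lit 168) (nat_lit 3390084571) (nat_lit 54) (nat_lit 4) (nat_lit 56) (nat_lit 5) (nat_lit 56) (nat_lit 4) (nat_lit 384) (nat_lit 349) (nat_lit 347)) (XT.lf (nat_lit 0) (nat_lit 4790220753) (nat_lit 252) (nat_lit 4196185037) (nat_lit 0) (nat_lit 2050091342) (nat_lit 51) (nat_lit 5) (nat_lit 54) (nat_lit 4) (nat_lit 51) (nat_lit 4) (nat_lit 385) (nat_lit 349) (nat_lit 346)))) (XT.nd (nat_lit 188) (nat_lit 504) (nat_lit 0) (XT.nd (nat_lit 94) (nat_lit 168) (nat_lit 0) (XT.lf (nat_lit 0) (nat_lit 557189776) (nat_lit 84) (nat_lit 1432492433) (nat_lit 168) (nat_lit 9458381985) (nat_lit 47) (nat_lit 5) (nat_lit 48) (nat_lit 5) (nat_lit 49) (nat_lit 4) (nat_lit 386) (nat_lit 349) (nat_lit 345)) (XT.lf (nat_lit 0) (nat_lit 5595014013) (nat_lit 168) (nat_lit 5165412666) (nat_lit 168) (nat_lit 1122272632) (nat_lit 45) (nat_lit 4) (nat_lit 47) (nat_lit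 5) (nat_lit 47) (nat_lit 4) (nat_lit 387) (nat_lit 349) (nat_lit 344))) (XT.nd (nat_lit 94) (nat_lit 336) (nat_lit 0) (XT.lf (nat_lit 0) (nat_lit 7632162656) (nat_lit 168) (nat_lit 1539795888) (nat_lit 0) (nat_lit 3173811199) (nat_lit 43) (nat_lit 5) (nat_lit 45) (nat_lit 4) (nat_lit 43) (nat_lit 4) (nat_lit 388) (nat_lit 349) (nat_lit 343)) (XT.lf (nat_lit 0) (nat_lit 3502836675) (nat_lit 84) (nat_lit 655169233) (nat_lit 168) (nat_lit 8679186753) (nat_lit 39) (nat_lit 5) (nat_lit 40) (nat_lit 5) (nat_lit 41) (nat_lit 4) (nat_lit 389) (nat_lit 349) (nat_lit 342))))))))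
noncomputable def xc63 : XT := (XT.nd (nat_lit 2632) (nat_lit 0) (nat_lit 0) (XT.nd (nat_lit 1316) (nat_lit 756) (nat_lit 0) (XT.nd (nat_lit 658) (nat_lit 1092) (nat_lit 0) (XT.nd (nat_lit 282) (nat_lit 756) (nat_lit 0) (XT.nd (nat_lit 94) (nat_lit 420) (nat_lit 0) (XT.lf (nat_lit 0) (nat_lit 328949370) (nat_lit 252) (nat_lit 4603859659) (nat_lit 84) (nat_lit 8424815985) (nat_lit 36) (nat_lit 5) (nat_lit 39) (nat_lit 5) (nat_lit 37) (nat_lit 4) (nat_lit 390) (nat_lit 349) (nat_lit 341)) (XT.nd (nat_lit 94) (nat_lit 168) (nat_lit 0) (XT.lf (nat_lit 0) (nat_lit 267234474) (nat_lit 168) (nat_lit 9553228948) (nat_lit 168) (nat_lit 4088774273) (nat_lit 33) (nat_lit 4) (nat_lit 35) (nat_lit 5) (nat_lit 35) (nat_lit 4) (nat_lit 391) (nat_lit 349) (nat_lit 340)) (XT.lf (nat_lit 0) (nat_lit 5498486422) (nat_lit 84) (nat_lit 46937391) (nat_lit 168) (nat_lit 8947347205)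 (nat_lit 31) (nat_lit 5) (nat_lit 32) (nat_lit 5) (nat_lit 33) (nat_lit 4) (nat_lit 392) (nat_lit 349) (nat_lit 339)))) (XT.nd (nat_lit 188) (nat_lit 336) (nat_lit 0) (XT.nd (nat_lit 94) (nat_lit 168) (nat_lit 0) (XT.lf (nat_lit 0) (nat_lit 839619085) (nat_lit 252) (nat_lit 4226206547) (nat_lit 84) (nat_lit 10044565703) (nat_lit 28) (nat_lit 5) (nat_lit 31) (nat_lit 5) (nat_lit 29) (nat_lit 4) (nat_lit 393) (nat_lit 349) (nat_lit 338)) (XT.lf (nat_lit 0) (nat_lit 705296175) (nat_lit 84) (nat_lit 10518840919) (nat_lit 84) (nat_lit 4539546999) (nat_lit 26) (nat_lit 4) (nat_lit 27) (nat_lit 5) (nat_lit 27) (nat_lit 4) (nat_lit 394) (nat_lit 349) (nat_lit 337))) (XT.nd (nat_lit 94) (nat_lit 168) (nat_lit 0) (XT.lf (nat_lit 0) (nat_lit 5983856467) (nat_lit 168) (nat_lit 10459041699) (nat_lit 0) (nat_lit 11443390) (nat_lit 24) (nat_lit 5) (nat_lit 26) (nat_lit 4)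 (nat_lit 24) (nat_lit 4) (nat_lit 395) (nat_lit 349) (nat_lit 336)) (XT.lf (nat_lit 0) (nat_lit 239651096) (nat_lit 168) (nat_lit 5738394473) (nat_lit 84) (nat_lit 11206195785) (nat_lit 22) (nat_lit 5) (nat_lit 24) (nat_lit 5) (nat_lit 23) (nat_lit 4) (nat_lit 396) (nat_lit 349) (nat_lit 335))))) (XT.nd (nat_lit 282) (nat_lit 672) (nat_lit 0) (XT.nd (nat_lit 94) (nat_lit 336) (nat_lit 0) (XT.lf (nat_lit 0) (nat_lit 11614083034) (nat_lit 168) (nat_lit 886962644) (nat_lit 0) (nat_lit 5454189113) (nat_lit 21) (nat_lit 5) (nat_lit 23) (nat_lit 4) (nat_lit 21) (nat_lit 4) (nat_lit 397) (nat_lit 349) (nat_lit 334)) (XT.nd (nat_lit 94) (nat_lit 84) (nat_lit 0) (XT.lf (nat_lit 0) (nat_lit 4331247347) (nat_lit 84) (nat_lit 888851414) (nat_lit 168) (nat_lit 13550164089) (nat_lit 18) (nat_lit 5) (nat_lit 19) (nat_lit 5) (nat_lit 20) (nat_lit 4) (nat_lit 398) (nat_lit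 349) (nat_lit 333)) (XT.lf (nat_lit 0) (nat_lit 9728666622) (nat_lit 84) (nat_lit 8076225813) (nat_lit 84) (nat_lit 1824362745) (nat_lit 17) (nat_lit 4) (nat_lit 18) (nat_lit 5) (nat_lit 18) (nat_lit 4) (nat_lit 399) (nat_lit 349) (nat_lit 332)))) (XT.nd (nat_lit 188) (nat_lit 336) (nat_lit 0) (XT.nd (nat_lit 94) (nat_lit 168) (nat_lit 0) (XT.lf (nat_lit 0) (nat_lit 10722567351) (nat_lit 168) (nat_lit 5209376143) (nat_lit 0) (nat_lit 4605061830) (nat_lit 15) (nat_lit 5) (nat_lit 17) (nat_lit 4) (nat_lit 15) (nat_lit 4) (nat_lit 400) (nat_lit 349) (nat_lit 331)) (XT.lf (nat_lit 0) (nat_lit 2911500525) (nat_lit 168) (nat_lit 300179647) (nat_lit 84) (nat_lit 18286884663) (nat_lit 13) (nat_lit 5) (nat_lit 15) (nat_lit 5) (nat_lit 14) (nat_lit 4) (nat_lit 401) (nat_lit 349) (nat_lit 330))) (XT.nd (nat_lit 94) (nat_lit 168) (nat_lit 0) (XT.lf (nat_lit 0) (nat_lit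 4886403847) (nat_lit 84) (nat_lit 11862187706) (nat_lit 84) (nat_lit 5758566555) (nat_lit 11) (nat_lit 4) (nat_lit 12) (nat_lit 5) (nat_lit 12) (nat_lit 4) (nat_lit 402) (nat_lit 349) (nat_lit 329)) (XT.lf (nat_lit 0) (nat_lit 8139891262) (nat_lit 168) (nat_lit 13225785073) (nat_lit 0) (nat_lit 2209301803) (nat_lit 9) (nat_lit 5) (nat_lit 11) (nat_lit 4) (nat_lit 9) (nat_lit 4) (nat_lit 403) (nat_lit 349) (nat_lit 328)))))) (XT.nd (nat_lit 658) (nat_lit 0) (nat_lit 0) (XT.nd (nat_lit 282) (nat_lit 252) (nat_lit 0) (XT.nd (nat_lit 94) (nat_lit 420) (nat_lit 0) (XT.lf (nat_lit 0) (nat_lit 16024214748) (nat_lit 84) (nat_lit 7358534564) (nat_lit 84) (nat_lit 1319040535) (nat_lit 8) (nat_lit 4) (nat_lit 9) (nat_lit 5) (nat_lit 9) (nat_lit 4) (nat_lit 404) (nat_lit 349) (nat_lit 327)) (XT.nd (nat_lit 94) (nat_lit 252) (nat_lit 0) (XT.lf (nat_lit 0) (nat_lit 13866734735)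 (nat_lit 168) (nat_lit 4003031778) (nat_lit 0) (nat_lit 8018799885) (nat_lit 6) (nat_lit 5) (nat_lit 8) (nat_lit 4) (nat_lit 6) (nat_lit 4) (nat_lit 405) (nat_lit 349) (nat_lit 326)) (XT.lf (nat_lit 0) (nat_lit 998160298) (nat_lit 84) (nat_lit 2384774902) (nat_lit 168) (nat_lit 23762453143) (nat_lit 3) (nat_lit 5) (nat_lit 4) (nat_lit 5) (nat_lit 5) (nat_lit 4) (nat_lit 406) (nat_lit 349) (nat_lit 325)))) (XT.nd (nat_lit 188) (nat_lit 0) (nat_lit 0) (XT.nd (nat_lit 94) (nat_lit 168) (nat_lit 0) (XT.lf (nat_lit 0) (nat_lit 6228681245) (nat_lit 84) (nat_lit 13983070973) (nat_lit 84) (nat_lit 8250507103) (nat_lit 2) (nat_lit 4) (nat_lit 3) (nat_lit 5) (nat_lit 3) (nat_lit 4) (nat_lit 407) (nat_lit 349) (nat_lit 324)) (XT.lf (nat_lit 0) (nat_lit 43698545304) (nat_lit 0) (nat_lit 0) (nat_lit 0) (nat_lit 0) (nat_lit 0) (nat_lit 0) (nat_lit 1) (nat_lit 0) (nat_lit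 1) (nat_lit 0) (nat_lit 408) (nat_lit 349) (nat_lit 323))) (XT.nd (nat_lit 94) (nat_lit 0) (nat_lit 0) (XT.lf (nat_lit 0) (nat_lit 47147995259) (nat_lit 0) (nat_lit 0) (nat_lit 0) (nat_lit 0) (nat_lit 0) (nat_lit 0) (nat_lit 1) (nat_lit 0) (nat_lit 1) (nat_lit 0) (nat_lit 409) (nat_lit 349) (nat_lit 322)) (XT.lf (nat_lit 0) (nat_lit 50874111797) (nat_lit 0) (nat_lit 0) (nat_lit 0) (nat_lit 0) (nat_lit 0) (nat_lit 0) (nat_lit 1) (nat_lit 0) (nat_lit 1) (nat_lit 0) (nat_lit 410) (nat_lit 349) (nat_lit 321))))) (XT.nd (nat_lit 282) (nat_lit 0) (nat_lit 0) (XT.nd (nat_lit 94) (nat_lit 0) (nat_lit 0) (XT.lf (nat_lit 0) (nat_lit 54898975607) (nat_lit 0) (nat_lit 0) (nat_lit 0) (nat_lit 0) (nat_lit 0) (nat_lit 0) (nat_lit 1) (nat_lit 0) (nat_lit 1) (nat_lit 0) (nat_lit 411) (nat_lit 349) (nat_lit 320)) (XT.nd (nat_lit 94) (nat_lit 0) (nat_lit 0) (XT.lf (nat_lit 0)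 (nat_lit 59246437735) (nat_lit 0) (nat_lit 0) (nat_lit 0) (nat_lit 0) (nat_lit 0) (nat_lit 0) (nat_lit 1) (nat_lit 0) (nat_lit 1) (nat_lit 0) (nat_lit 412) (nat_lit 349) (nat_lit 319)) (XT.lf (nat_lit 0) (nat_lit 63942260920) (nat_lit 0) (nat_lit 0) (nat_lit 0) (nat_lit 0) (nat_lit 0) (nat_lit 0) (nat_lit 1) (nat_lit 0) (nat_lit 1) (nat_lit 0) (nat_lit 413) (nat_lit 349) (nat_lit 318)))) (XT.nd (nat_lit 188) (nat_lit 0) (nat_lit 0) (XT.nd (nat_lit 94) (nat_lit 0) (nat_lit 0) (XT.lf (nat_lit 0) (nat_lit 69014272261) (nat_lit 0) (nat_lit 0) (nat_lit 0) (nat_lit 0) (nat_lit 0) (nat_lit 0) (nat_lit 1) (nat_lit 0) (nat_lit 1) (nat_lit 0) (nat_lit 414) (nat_lit 349) (nat_lit 317)) (XT.lf (nat_lit 0) (nat_lit 74492528123) (nat_lit 0) (nat_lit 0) (nat_lit 0) (nat_lit 0) (nat_lit 0) (nat_lit 0) (nat_lit 1) (nat_lit 0) (nat_lit 1) (nat_lit 0) (nat_lit 415) (nat_lit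 349) (nat_lit 316))) (XT.nd (nat_lit 94) (nat_lit 0) (nat_lit 0) (XT.lf (nat_lit 0) (nat_lit 80409492244) (nat_lit 0) (nat_lit 0) (nat_lit 0) (nat_lit 0) (nat_lit 0) (nat_lit 0) (nat_lit 1) (nat_lit 0) (nat_lit 1) (nat_lit 0) (nat_lit 416) (nat_lit 349) (nat_lit 315)) (XT.lf (nat_lit 0) (nat_lit 86800228114) (nat_lit 0) (nat_lit 0) (nat_lit 0) (nat_lit 0) (nat_lit 0) (nat_lit 0) (nat_lit 1) (nat_lit 0) (nat_lit 1) (nat_lit 0) (nat_lit 417) (nat_lit 349) (nat_lit 314))))))) (XT.nd (nat_lit 1316) (nat_lit 0) (nat_lit 0) (XT.nd (nat_lit 658) (nat_lit 0) (nat_lit 0) (XT.nd (nat_lit 282) (nat_lit 0) (nat_lit 0) (XT.nd (nat_lit 94) (nat_lit 0) (nat_lit 0) (XT.lf (nat_lit 0) (nat_lit 93702606761) (nat_lit 0) (nat_lit 0) (nat_lit 0) (nat_lit 0) (nat_lit 0) (nat_lit 0) (nat_lit 1) (nat_lit 0) (nat_lit 1) (nat_lit 0) (nat_lit 418) (nat_lit 349) (nat_lit 313)) (XT.nd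 (nat_lit 94) (nat_lit 0) (nat_lit 0) (XT.lf (nat_lit 0) (nat_lit 101157531171) (nat_lit 0) (nat_lit 0) (nat_lit 0) (nat_lit 0) (nat_lit 0) (nat_lit 0) (nat_lit 1) (nat_lit 0) (nat_lit 1) (nat_lit 0) (nat_lit 419) (nat_lit 349) (nat_lit 312)) (XT.lf (nat_lit 0) (nat_lit 109209178671) (nat_lit 0) (nat_lit 0) (nat_lit 0) (nat_lit 0) (nat_lit 0) (nat_lit 0) (nat_lit 1) (nat_lit 0) (nat_lit 1) (nat_lit 0) (nat_lit 420) (nat_lit 349) (nat_lit 311)))) (XT.nd (nat_lit 188) (nat_lit 0) (nat_lit 0) (XT.nd (nat_lit 94) (nat_lit 0) (nat_lit 0) (XT.lf (nat_lit 0) (nat_lit 117905262731) (nat_lit 0) (nat_lit 0) (nat_lit 0) (nat_lit 0) (nat_lit 0) (nat_lit 0) (nat_lit 1) (nat_lit 0) (nat_lit 1) (nat_lit 0) (nat_lit 421) (nat_lit 349) (nat_lit 310)) (XT.lf (nat_lit 0) (nat_lit 127297315698) (nat_lit 0) (nat_lit 0) (nat_lit 0) (nat_lit 0) (nat_lit 0) (nat_lit 0) (nat_lit 1)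 (nat_lit 0) (nat_lit 1) (nat_lit 0) (nat_lit 422) (nat_lit 349) (nat_lit 309))) (XT.nd (nat_lit 94) (nat_lit 0) (nat_lit 0) (XT.lf (nat_lit 0) (nat_lit 137440994184) (nat_lit 0) (nat_lit 0) (nat_lit 0) (nat_lit 0) (nat_lit 0) (nat_lit 0) (nat_lit 1) (nat_lit 0) (nat_lit 1) (nat_lit 0) (nat_lit 423) (nat_lit 349) (nat_lit 308)) (XT.lf (nat_lit 0) (nat_lit 148396408875) (nat_lit 0) (nat_lit 0) (nat_lit 0) (nat_lit 0) (nat_lit 0) (nat_lit 0) (nat_lit 1) (nat_lit 0) (nat_lit 1) (nat_lit 0) (nat_lit 424) (nat_lit 349) (nat_lit 307))))) (XT.nd (nat_lit 282) (nat_lit 0) (nat_lit 0) (XT.nd (nat_lit 94) (nat_lit 0) (nat_lit 0) (XT.lf (nat_lit 0) (nat_lit 160228480749) (nat_lit 0) (nat_lit 0) (nat_lit 0) (nat_lit 0) (nat_lit 0) (nat_lit 0) (nat_lit 1) (nat_lit 0) (nat_lit 1) (nat_lit 0) (nat_lit 425) (nat_lit 349) (nat_lit 306)) (XT.nd (nat_lit 94) (nat_lit 0) (nat_lit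 0) (XT.lf (nat_lit 0) (nat_lit 173007325785) (nat_lit 0) (nat_lit 0) (nat_lit 0) (nat_lit 0) (nat_lit 0) (nat_lit 0) (nat_lit 1) (nat_lit 0) (nat_lit 1) (nat_lit 0) (nat_lit 426) (nat_lit 349) (nat_lit 305)) (XT.lf (nat_lit 0) (nat_lit 186808670474) (nat_lit 0) (nat_lit 0) (nat_lit 0) (nat_lit 0) (nat_lit 0) (nat_lit 0) (nat_lit 1) (nat_lit 0) (nat_lit 1) (nat_lit 0) (nat_lit 427) (nat_lit 349) (nat_lit 304)))) (XT.nd (nat_lit 188) (nat_lit 0) (nat_lit 0) (XT.nd (nat_lit 94) (nat_lit 0) (nat_lit 0) (XT.lf (nat_lit 0) (nat_lit 201714300561) (nat_lit 0) (nat_lit 0) (nat_lit 0) (nat_lit 0) (nat_lit 0) (nat_lit 0) (nat_lit 1) (nat_lit 0) (nat_lit 1) (nat_lit 0) (nat_lit 428) (nat_lit 349) (nat_lit 303)) (XT.lf (nat_lit 0) (nat_lit 217812545707) (nat_lit 0) (nat_lit 0) (nat_lit 0) (nat_lit 0) (nat_lit 0) (nat_lit 0) (nat_lit 1) (nat_lit 0) (nat_lit 1) (nat_lit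 0) (nat_lit 429) (nat_lit 349) (nat_lit 302))) (XT.nd (nat_lit 94) (nat_lit 0) (nat_lit 0) (XT.lf (nat_lit 0) (nat_lit 235198802919) (nat_lit 0) (nat_lit 0) (nat_lit 0) (nat_lit 0) (nat_lit 0) (nat_lit 0) (nat_lit 1) (nat_lit 0) (nat_lit 1) (nat_lit 0) (nat_lit 430) (nat_lit 349) (nat_lit 301)) (XT.lf (nat_lit 0) (nat_lit 253976101870) (nat_lit 0) (nat_lit 0) (nat_lit 0) (nat_lit 0) (nat_lit 0) (nat_lit 0) (nat_lit 1) (nat_lit 0) (nat_lit 1) (nat_lit 0) (nat_lit 431) (nat_lit 349) (nat_lit 300)))))) (XT.nd (nat_lit 658) (nat_lit 0) (nat_lit 0) (XT.nd (nat_lit 282) (nat_lit 0) (nat_lit 0) (XT.nd (nat_lit 94) (nat_lit 0) (nat_lit 0) (XT.lf (nat_lit 0) (nat_lit 274255715443) (nat_lit 0) (nat_lit 0) (nat_lit 0) (nat_lit 0) (nat_lit 0) (nat_lit 0) (nat_lit 1) (nat_lit 0) (nat_lit 1) (nat_lit 0) (nat_lit 432) (nat_lit 349) (nat_lit 299)) (XT.nd (nat_lit 94) (nat_lit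 0) (nat_lit 0) (XT.lf (nat_lit 0) (nat_lit 296157819125) (nat_lit 0) (nat_lit 0) (nat_lit 0) (nat_lit 0) (nat_lit 0) (nat_lit 0) (nat_lit 1) (nat_lit 0) (nat_lit 1) (nat_lit 0) (nat_lit 433) (nat_lit 349) (nat_lit 298)) (XT.lf (nat_lit 0) (nat_lit 319812203161) (nat_lit 0) (nat_lit 0) (nat_lit 0) (nat_lit 0) (nat_lit 0) (nat_lit 0) (nat_lit 1) (nat_lit 0) (nat_lit 1) (nat_lit 0) (nat_lit 434) (nat_lit 349) (nat_lit 297)))) (XT.nd (nat_lit 188) (nat_lit 0) (nat_lit 0) (XT.nd (nat_lit 94) (nat_lit 0) (nat_lit 0) (XT.lf (nat_lit 0) (nat_lit 345359041679) (nat_lit 0) (nat_lit 0) (nat_lit 0) (nat_lit 0) (nat_lit 0) (nat_lit 0) (nat_lit 1) (nat_lit 0) (nat_lit 1) (nat_lit 0) (nat_lit 435) (nat_lit 349) (nat_lit 296)) (XT.lf (nat_lit 0) (nat_lit 372949723350) (nat_lit 0) (nat_lit 0) (nat_lit 0) (nat_lit 0) (nat_lit 0) (nat_lit 0) (nat_lit 1) (nat_lit 0) (nat_lit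 1) (nat_lit 0) (nat_lit 436) (nat_lit 349) (nat_lit 295))) (XT.nd (nat_lit 94) (nat_lit 0) (nat_lit 0) (XT.lf (nat_lit 0) (nat_lit 402747748510) (nat_lit 0) (nat_lit 0) (nat_lit 0) (nat_lit 0) (nat_lit 0) (nat_lit 0) (nat_lit 1) (nat_lit 0) (nat_lit 1) (nat_lit 0) (nat_lit 437) (nat_lit 349) (nat_lit 294)) (XT.lf (nat_lit 0) (nat_lit 434929698051) (nat_lit 0) (nat_lit 0) (nat_lit 0) (nat_lit 0) (nat_lit 0) (nat_lit 0) (nat_lit 1) (nat_lit 0) (nat_lit 1) (nat_lit 0) (nat_lit 438) (nat_lit 349) (nat_lit 293))))) (XT.nd (nat_lit 376) (nat_lit 0) (nat_lit 0) (XT.nd (nat_lit 188) (nat_lit 0) (nat_lit 0) (XT.nd (nat_lit 94) (nat_lit 0) (nat_lit 0) (XT.lf (nat_lit 0) (nat_lit 469686279820) (nat_lit 0) (nat_lit 0) (nat_lit 0) (nat_lit 0) (nat_lit 0) (nat_lit 0) (nat_lit 1) (nat_lit 0) (nat_lit 1) (nat_lit 0) (nat_lit 439) (nat_lit 349) (nat_lit 292)) (XT.lf (nat_lit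 0) (nat_lit 507223458746) (nat_lit 0) (nat_lit 0) (nat_lit 0) (nat_lit 0) (nat_lit 0) (nat_lit 0) (nat_lit 1) (nat_lit 0) (nat_lit 1) (nat_lit 0) (nat_lit 440) (nat_lit 349) (nat_lit 291))) (XT.nd (nat_lit 94) (nat_lit 0) (nat_lit 0) (XT.lf (nat_lit 0) (nat_lit 547763677372) (nat_lit 0) (nat_lit 0) (nat_lit 0) (nat_lit 0) (nat_lit 0) (nat_lit 0) (nat_lit 1) (nat_lit 0) (nat_lit 1) (nat_lit 0) (nat_lit 441) (nat_lit 349) (nat_lit 290)) (XT.lf (nat_lit 0) (nat_lit 591547174030) (nat_lit 0) (nat_lit 0) (nat_lit 0) (nat_lit 0) (nat_lit 0) (nat_lit 0) (nat_lit 1) (nat_lit 0) (nat_lit 1) (nat_lit 0) (nat_lit 442) (nat_lit 349) (nat_lit 289)))) (XT.nd (nat_lit 188) (nat_lit 0) (nat_lit 0) (XT.nd (nat_lit 94) (nat_lit 0) (nat_lit 0) (XT.lf (nat_lit 0) (nat_lit 638833406479) (nat_lit 0) (nat_lit 0) (nat_lit 0) (nat_lit 0) (nat_lit 0) (nat_lit 0) (nat_lit 1) (nat_lit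 0) (nat_lit 1) (nat_lit 0) (nat_lit 443) (nat_lit 349) (nat_lit 288)) (XT.lf (nat_lit 0) (nat_lit 689902589428) (nat_lit 0) (nat_lit 0) (nat_lit 0) (nat_lit 0) (nat_lit 0) (nat_lit 0) (nat_lit 1) (nat_lit 0) (nat_lit 1) (nat_lit 0) (nat_lit 444) (nat_lit 349) (nat_lit 287))) (XT.nd (nat_lit 94) (nat_lit 0) (nat_lit 0) (XT.lf (nat_lit 0) (nat_lit 745057355073) (nat_lit 0) (nat_lit 0) (nat_lit 0) (nat_lit 0) (nat_lit 0) (nat_lit 0) (nat_lit 1) (nat_lit 0) (nat_lit 1) (nat_lit 0) (nat_lit 445) (nat_lit 349) (nat_lit 286)) (XT.lf (nat_lit 0) (nat_lit 804624546470) (nat_lit 0) (nat_lit 0) (nat_lit 0) (nat_lit 0) (nat_lit 0) (nat_lit 0) (nat_lit 1) (nat_lit 0) (nat_lit 1) (nat_lit 0) (nat_lit 446) (nat_lit 349) (nat_lit 285))))))))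
noncomputable def xc64 : XT := (XT.nd (nat_lit 2632) (nat_lit 0) (nat_lit 0) (XT.nd (nat_lit 1316) (nat_lit 0) (nat_lit 0) (XT.nd (nat_lit 658) (nat_lit 0) (nat_lit 0) (XT.nd (nat_lit 282) (nat_lit 0) (nat_lit 0) (XT.nd (nat_lit 94) (nat_lit 0) (nat_lit 0) (XT.lf (nat_lit 0) (nat_lit 868957154382) (nat_lit 0) (nat_lit 0) (nat_lit 0) (nat_lit 0) (nat_lit 0) (nat_lit 0) (nat_lit 1) (nat_lit 0) (nat_lit 1) (nat_lit 0) (nat_lit 447) (nat_lit 349) (nat_lit 284)) (XT.nd (nat_lit 94) (nat_lit 0) (nat_lit 0) (XT.lf (nat_lit 0) (nat_lit 938436409079) (nat_lit 0) (nat_lit 0) (nat_lit 0) (nat_lit 0) (nat_lit 0) (nat_lit 0) (nat_lit 1) (nat_lit 0) (nat_lit 1) (nat_lit 0) (nat_lit 448) (nat_lit 349) (nat_lit 283)) (XT.lf (nat_lit 0) (nat_lit 1013474039478) (nat_lit 0) (nat_lit 0) (nat_lit 0) (nat_lit 0) (nat_lit 0) (nat_lit 0) (nat_lit 1) (nat_lit 0) (nat_lit 1) (nat_lit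 0) (nat_lit 449) (nat_lit 349) (nat_lit 282)))) (XT.nd (nat_lit 188) (nat_lit 0) (nat_lit 0) (XT.nd (nat_lit 94) (nat_lit 0) (nat_lit 0) (XT.lf (nat_lit 0) (nat_lit 1094514713017) (nat_lit 0) (nat_lit 0) (nat_lit 0) (nat_lit 0) (nat_lit 0) (nat_lit 0) (nat_lit 1) (nat_lit 0) (nat_lit 1) (nat_lit 0) (nat_lit 450) (nat_lit 349) (nat_lit 281)) (XT.lf (nat_lit 0) (nat_lit 1182038670726) (nat_lit 0) (nat_lit 0) (nat_lit 0) (nat_lit 0) (nat_lit 0) (nat_lit 0) (nat_lit 1) (nat_lit 0) (nat_lit 1) (nat_lit 0) (nat_lit 451) (nat_lit 349) (nat_lit 280))) (XT.nd (nat_lit 94) (nat_lit 0) (nat_lit 0) (XT.lf (nat_lit 0) (nat_lit 1276564573094) (nat_lit 0) (nat_lit 0) (nat_lit 0) (nat_lit 0) (nat_lit 0) (nat_lit 0) (nat_lit 1) (nat_lit 0) (nat_lit 1) (nat_lit 0) (nat_lit 452) (nat_lit 349) (nat_lit 279)) (XT.lf (nat_lit 0) (nat_lit 1378652573616) (nat_lit 0) (nat_lit 0) (nat_lit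 0) (nat_lit 0) (nat_lit 0) (nat_lit 0) (nat_lit 1) (nat_lit 0) (nat_lit 1) (nat_lit 0) (nat_lit 453) (nat_lit 349) (nat_lit 278))))) (XT.nd (nat_lit 282) (nat_lit 0) (nat_lit 0) (XT.nd (nat_lit 94) (nat_lit 0) (nat_lit 0) (XT.lf (nat_lit 0) (nat_lit 1488907638223) (nat_lit 0) (nat_lit 0) (nat_lit 0) (nat_lit 0) (nat_lit 0) (nat_lit 0) (nat_lit 1) (nat_lit 0) (nat_lit 1) (nat_lit 0) (nat_lit 454) (nat_lit 349) (nat_lit 277)) (XT.nd (nat_lit 94) (nat_lit 0) (nat_lit 0) (XT.lf (nat_lit 0) (nat_lit 1607983130259) (nat_lit 0) (nat_lit 0) (nat_lit 0) (nat_lit 0) (nat_lit 0) (nat_lit 0) (nat_lit 1) (nat_lit 0) (nat_lit 1) (nat_lit 0) (nat_lit 455) (nat_lit 349) (nat_lit 276)) (XT.lf (nat_lit 0) (nat_lit 1736584682271) (nat_lit 0) (nat_lit 0) (nat_lit 0) (nat_lit 0) (nat_lit 0) (nat_lit 0) (nat_lit 1) (nat_lit 0) (nat_lit 1) (nat_lit 0) (nat_lit 456) (nat_lit 349)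 (nat_lit 275)))) (XT.nd (nat_lit 188) (nat_lit 0) (nat_lit 0) (XT.nd (nat_lit 94) (nat_lit 0) (nat_lit 0) (XT.lf (nat_lit 0) (nat_lit 1875474377528) (nat_lit 0) (nat_lit 0) (nat_lit 0) (nat_lit 0) (nat_lit 0) (nat_lit 0) (nat_lit 1) (nat_lit 0) (nat_lit 1) (nat_lit 0) (nat_lit 457) (nat_lit 349) (nat_lit 274)) (XT.lf (nat_lit 0) (nat_lit 2025475266078) (nat_lit 0) (nat_lit 0) (nat_lit 0) (nat_lit 0) (nat_lit 0) (nat_lit 0) (nat_lit 1) (nat_lit 0) (nat_lit 1) (nat_lit 0) (nat_lit 458) (nat_lit 349) (nat_lit 273))) (XT.nd (nat_lit 94) (nat_lit 0) (nat_lit 0) (XT.lf (nat_lit 0) (nat_lit 2187476242075) (nat_lit 0) (nat_lit 0) (nat_lit 0) (nat_lit 0) (nat_lit 0) (nat_lit 0) (nat_lit 1) (nat_lit 0) (nat_lit 1) (nat_lit 0) (nat_lit 459) (nat_lit 349) (nat_lit 272)) (XT.lf (nat_lit 0) (nat_lit 2362437311302) (nat_lit 0) (nat_lit 0) (nat_lit 0) (nat_lit 0) (nat_lit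 0) (nat_lit 0) (nat_lit 1) (nat_lit 0) (nat_lit 1) (nat_lit 0) (nat_lit 460) (nat_lit 349) (nat_lit 271)))))) (XT.nd (nat_lit 658) (nat_lit 0) (nat_lit 0) (XT.nd (nat_lit 282) (nat_lit 0) (nat_lit 0) (XT.nd (nat_lit 94) (nat_lit 0) (nat_lit 0) (XT.lf (nat_lit 0) (nat_lit 2551395280095) (nat_lit 0) (nat_lit 0) (nat_lit 0) (nat_lit 0) (nat_lit 0) (nat_lit 0) (nat_lit 1) (nat_lit 0) (nat_lit 1) (nat_lit 0) (nat_lit 461) (nat_lit 349) (nat_lit 270)) (XT.nd (nat_lit 94) (nat_lit 0) (nat_lit 0) (XT.lf (nat_lit 0) (nat_lit 2755469899381) (nat_lit 0) (nat_lit 0) (nat_lit 0) (nat_lit 0) (nat_lit 0) (nat_lit 0) (nat_lit 1) (nat_lit 0) (nat_lit 1) (nat_lit 0) (nat_lit 462) (nat_lit 349) (nat_lit 269)) (XT.lf (nat_lit 0) (nat_lit 2975870500237) (nat_lit 0) (nat_lit 0) (nat_lit 0) (nat_lit 0) (nat_lit 0) (nat_lit 0) (nat_lit 1) (nat_lit 0) (nat_lit 1) (nat_lit 0) (nat_lit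 463) (nat_lit 349) (nat_lit 268)))) (XT.nd (nat_lit 188) (nat_lit 0) (nat_lit 0) (XT.nd (nat_lit 94) (nat_lit 0) (nat_lit 0) (XT.lf (nat_lit 0) (nat_lit 3213903160297) (nat_lit 0) (nat_lit 0) (nat_lit 0) (nat_lit 0) (nat_lit 0) (nat_lit 0) (nat_lit 1) (nat_lit 0) (nat_lit 1) (nat_lit 0) (nat_lit 464) (nat_lit 349) (nat_lit 267)) (XT.lf (nat_lit 0) (nat_lit 3470978443473) (nat_lit 0) (nat_lit 0) (nat_lit 0) (nat_lit 0) (nat_lit 0) (nat_lit 0) (nat_lit 1) (nat_lit 0) (nat_lit 1) (nat_lit 0) (nat_lit 465) (nat_lit 349) (nat_lit 266))) (XT.nd (nat_lit 94) (nat_lit 0) (nat_lit 0) (XT.lf (nat_lit 0) (nat_lit 3748619758851) (nat_lit 0) (nat_lit 0) (nat_lit 0) (nat_lit 0) (nat_lit 0) (nat_lit 0) (nat_lit 1) (nat_lit 0) (nat_lit 1) (nat_lit 0) (nat_lit 466) (nat_lit 349) (nat_lit 265)) (XT.lf (nat_lit 0) (nat_lit 4048472388300) (nat_lit 0) (nat_lit 0) (nat_lit 0) (nat_lit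 0) (nat_lit 0) (nat_lit 0) (nat_lit 1) (nat_lit 0) (nat_lit 1) (nat_lit 0) (nat_lit 467) (nat_lit 349) (nat_lit 264))))) (XT.nd (nat_lit 282) (nat_lit 0) (nat_lit 0) (XT.nd (nat_lit 94) (nat_lit 0) (nat_lit 0) (XT.lf (nat_lit 0) (nat_lit 4372313236289) (nat_lit 0) (nat_lit 0) (nat_lit 0) (nat_lit 0) (nat_lit 0) (nat_lit 0) (nat_lit 1) (nat_lit 0) (nat_lit 1) (nat_lit 0) (nat_lit 468) (nat_lit 349) (nat_lit 263)) (XT.nd (nat_lit 94) (nat_lit 0) (nat_lit 0) (XT.lf (nat_lit 0) (nat_lit 4722061359697) (nat_lit 0) (nat_lit 0) (nat_lit 0) (nat_lit 0) (nat_lit 0) (nat_lit 0) (nat_lit 1) (nat_lit 0) (nat_lit 1) (nat_lit 0) (nat_lit 469) (nat_lit 349) (nat_lit 262)) (XT.lf (nat_lit 0) (nat_lit 5099789339995) (nat_lit 0) (nat_lit 0) (nat_lit 0) (nat_lit 0) (nat_lit 0) (nat_lit 0) (nat_lit 1) (nat_lit 0) (nat_lit 1) (nat_lit 0) (nat_lit 470) (nat_lit 349) (nat_lit 261))))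 (XT.nd (nat_lit 188) (nat_lit 0) (nat_lit 0) (XT.nd (nat_lit 94) (nat_lit 0) (nat_lit 0) (XT.lf (nat_lit 0) (nat_lit 5507735565215) (nat_lit 0) (nat_lit 0) (nat_lit 0) (nat_lit 0) (nat_lit 0) (nat_lit 0) (nat_lit 1) (nat_lit 0) (nat_lit 1) (nat_lit 0) (nat_lit 471) (nat_lit 349) (nat_lit 260)) (XT.lf (nat_lit 0) (nat_lit 5948317494469) (nat_lit 0) (nat_lit 0) (nat_lit 0) (nat_lit 0) (nat_lit 0) (nat_lit 0) (nat_lit 1) (nat_lit 0) (nat_lit 1) (nat_lit 0) (nat_lit 472) (nat_lit 349) (nat_lit 259))) (XT.nd (nat_lit 94) (nat_lit 0) (nat_lit 0) (XT.lf (nat_lit 0) (nat_lit 6424145983634) (nat_lit 0) (nat_lit 0) (nat_lit 0) (nat_lit 0) (nat_lit 0) (nat_lit 0) (nat_lit 1) (nat_lit 0) (nat_lit 1) (nat_lit 0) (nat_lit 473) (nat_lit 349) (nat_lit 258)) (XT.lf (nat_lit 0) (nat_lit 6938040757091) (nat_lit 0) (nat_lit 0) (nat_lit 0) (nat_lit 0) (nat_lit 0) (nat_lit 0) (nat_lit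 1) (nat_lit 0) (nat_lit 1) (nat_lit 0) (nat_lit 474) (nat_lit 349) (nat_lit 257))))))) (XT.nd (nat_lit 1316) (nat_lit 0) (nat_lit 0) (XT.nd (nat_lit 658) (nat_lit 0) (nat_lit 0) (XT.nd (nat_lit 282) (nat_lit 0) (nat_lit 0) (XT.nd (nat_lit 94) (nat_lit 0) (nat_lit 0) (XT.lf (nat_lit 0) (nat_lit 7493047117200) (nat_lit 0) (nat_lit 0) (nat_lit 0) (nat_lit 0) (nat_lit 0) (nat_lit 0) (nat_lit 1) (nat_lit 0) (nat_lit 1) (nat_lit 0) (nat_lit 475) (nat_lit 349) (nat_lit 256)) (XT.nd (nat_lit 94) (nat_lit 0) (nat_lit 0) (XT.lf (nat_lit 0) (nat_lit 8092453990540) (nat_lit 0) (nat_lit 0) (nat_lit 0) (nat_lit 0) (nat_lit 0) (nat_lit 0) (nat_lit 1) (nat_lit 0) (nat_lit 1) (nat_lit 0) (nat_lit 476) (nat_lit 349) (nat_lit 255)) (XT.lf (nat_lit 0) (nat_lit 8739813417842) (nat_lit 0) (nat_lit 0) (nat_lit 0) (nat_lit 0) (nat_lit 0) (nat_lit 0) (nat_lit 1) (nat_lit 0) (nat_lit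 1) (nat_lit 0) (nat_lit 477) (nat_lit 349) (nat_lit 254)))) (XT.nd (nat_lit 188) (nat_lit 0) (nat_lit 0) (XT.nd (nat_lit 94) (nat_lit 0) (nat_lit 0) (XT.lf (nat_lit 0) (nat_lit 9438961603120) (nat_lit 0) (nat_lit 0) (nat_lit 0) (nat_lit 0) (nat_lit 0) (nat_lit 0) (nat_lit 1) (nat_lit 0) (nat_lit 1) (nat_lit 0) (nat_lit 478) (nat_lit 349) (nat_lit 253)) (XT.lf (nat_lit 0) (nat_lit 10194041646730) (nat_lit 0) (nat_lit 0) (nat_lit 0) (nat_lit 0) (nat_lit 0) (nat_lit 0) (nat_lit 1) (nat_lit 0) (nat_lit 1) (nat_lit 0) (nat_lit 479) (nat_lit 349) (nat_lit 252))) (XT.nd (nat_lit 94) (nat_lit 0) (nat_lit 0) (XT.lf (nat_lit 0) (nat_lit 11009528097080) (nat_lit 0) (nat_lit 0) (nat_lit 0) (nat_lit 0) (nat_lit 0) (nat_lit 0) (nat_lit 1) (nat_lit 0) (nat_lit 1) (nat_lit 0) (nat_lit 480) (nat_lit 349) (nat_lit 251)) (XT.lf (nat_lit 0) (nat_lit 11890253466467) (nat_lit 0)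 (nat_lit 0) (nat_lit 0) (nat_lit 0) (nat_lit 0) (nat_lit 0) (nat_lit 1) (nat_lit 0) (nat_lit 1) (nat_lit 0) (nat_lit 481) (nat_lit 349) (nat_lit 250))))) (XT.nd (nat_lit 282) (nat_lit 0) (nat_lit 0) (XT.nd (nat_lit 94) (nat_lit 0) (nat_lit 0) (XT.lf (nat_lit 0) (nat_lit 12841436868193) (nat_lit 0) (nat_lit 0) (nat_lit 0) (nat_lit 0) (nat_lit 0) (nat_lit 0) (nat_lit 1) (nat_lit 0) (nat_lit 1) (nat_lit 0) (nat_lit 482) (nat_lit 349) (nat_lit 249)) (XT.nd (nat_lit 94) (nat_lit 0) (nat_lit 0) (XT.lf (nat_lit 0) (nat_lit 13868714944636) (nat_lit 0) (nat_lit 0) (nat_lit 0) (nat_lit 0) (nat_lit 0) (nat_lit 0) (nat_lit 1) (nat_lit 0) (nat_lit 1) (nat_lit 0) (nat_lit 483) (nat_lit 349) (nat_lit 248)) (XT.lf (nat_lit 0) (nat_lit 14978175269585) (nat_lit 0) (nat_lit 0) (nat_lit 0) (nat_lit 0) (nat_lit 0) (nat_lit 0) (nat_lit 1) (nat_lit 0) (nat_lit 1) (nat_lit 0) (nat_lit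 484) (nat_lit 349) (nat_lit 247)))) (XT.nd (nat_lit 188) (nat_lit 0) (nat_lit 0) (XT.nd (nat_lit 94) (nat_lit 0) (nat_lit 0) (XT.lf (nat_lit 0) (nat_lit 16176392422741) (nat_lit 0) (nat_lit 0) (nat_lit 0) (nat_lit 0) (nat_lit 0) (nat_lit 0) (nat_lit 1) (nat_lit 0) (nat_lit 1) (nat_lit 0) (nat_lit 485) (nat_lit 349) (nat_lit 246)) (XT.lf (nat_lit 0) (nat_lit 17470466950199) (nat_lit 0) (nat_lit 0) (nat_lit 0) (nat_lit 0) (nat_lit 0) (nat_lit 0) (nat_lit 1) (nat_lit 0) (nat_lit 1) (nat_lit 0) (nat_lit 486) (nat_lit 349) (nat_lit 245))) (XT.nd (nat_lit 94) (nat_lit 0) (nat_lit 0) (XT.lf (nat_lit 0) (nat_lit 18868067441749) (nat_lit 0) (nat_lit 0) (nat_lit 0) (nat_lit 0) (nat_lit 0) (nat_lit 0) (nat_lit 1) (nat_lit 0) (nat_lit 1) (nat_lit 0) (nat_lit 487) (nat_lit 349) (nat_lit 244)) (XT.lf (nat_lit 0) (nat_lit 20377475974380) (nat_lit 0) (nat_lit 0) (nat_lit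 0) (nat_lit 0) (nat_lit 0) (nat_lit 0) (nat_lit 1) (nat_lit 0) (nat_lit 1) (nat_lit 0) (nat_lit 488) (nat_lit 349) (nat_lit 243)))))) (XT.nd (nat_lit 57622) (nat_lit 0) (nat_lit 3780) (XT.nd (nat_lit 282) (nat_lit 0) (nat_lit 0) (XT.nd (nat_lit 94) (nat_lit 0) (nat_lit 0) (XT.lf (nat_lit 0) (nat_lit 22007637191248) (nat_lit 0) (nat_lit 0) (nat_lit 0) (nat_lit 0) (nat_lit 0) (nat_lit 0) (nat_lit 1) (nat_lit 0) (nat_lit 1) (nat_lit 0) (nat_lit 489) (nat_lit 349) (nat_lit 242)) (XT.nd (nat_lit 94) (nat_lit 0) (nat_lit 0) (XT.lf (nat_lit 0) (nat_lit 23768211306970) (nat_lit 0) (nat_lit 0) (nat_lit 0) (nat_lit 0) (nat_lit 0) (nat_lit 0) (nat_lit 1) (nat_lit 0) (nat_lit 1) (nat_lit 0) (nat_lit 490) (nat_lit 349) (nat_lit 241)) (XT.lf (nat_lit 0) (nat_lit 25669631353345) (nat_lit 0) (nat_lit 0) (nat_lit 0) (nat_lit 0) (nat_lit 0) (nat_lit 0) (nat_lit 1) (nat_lit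 0) (nat_lit 1) (nat_lit 0) (nat_lit 491) (nat_lit 349) (nat_lit 240)))) (XT.nd (nat_lit 188) (nat_lit 0) (nat_lit 0) (XT.nd (nat_lit 94) (nat_lit 0) (nat_lit 0) (XT.lf (nat_lit 0) (nat_lit 27723165004720) (nat_lit 0) (nat_lit 0) (nat_lit 0) (nat_lit 0) (nat_lit 0) (nat_lit 0) (nat_lit 1) (nat_lit 0) (nat_lit 1) (nat_lit 0) (nat_lit 492) (nat_lit 349) (nat_lit 239)) (XT.lf (nat_lit 0) (nat_lit 29940981349400) (nat_lit 0) (nat_lit 0) (nat_lit 0) (nat_lit 0) (nat_lit 0) (nat_lit 0) (nat_lit 1) (nat_lit 0) (nat_lit 1) (nat_lit 0) (nat_lit 493) (nat_lit 349) (nat_lit 238))) (XT.nd (nat_lit 57058) (nat_lit 0) (nat_lit 5880) (XT.lf (nat_lit 0) (nat_lit 32336223002762) (nat_lit 0) (nat_lit 0) (nat_lit 0) (nat_lit 0) (nat_lit 0) (nat_lit 0) (nat_lit 1) (nat_lit 0) (nat_lit 1) (nat_lit 0) (nat_lit 494) (nat_lit 349) (nat_lit 237)) (XT.lf (nat_lit 0) (nat_lit 1733250749)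 (nat_lit 252) (nat_lit 1466077027) (nat_lit 252) (nat_lit 1466077027) (nat_lit 70) (nat_lit 4) (nat_lit 73) (nat_lit 5) (nat_lit 73) (nat_lit 4) (nat_lit 380) (nat_lit 350) (nat_lit 350))))) (XT.nd (nat_lit 282) (nat_lit 1176) (nat_lit 0) (XT.nd (nat_lit 94) (nat_lit 672) (nat_lit 0) (XT.lf (nat_lit 0) (nat_lit 4482599333) (nat_lit 252) (nat_lit 1901541601) (nat_lit 0) (nat_lit 3251740609) (nat_lit 67) (nat_lit 5) (nat_lit 70) (nat_lit 4) (nat_lit 67) (nat_lit 4) (nat_lit 381) (nat_lit 350) (nat_lit 349)) (XT.nd (nat_lit 94) (nat_lit 168) (nat_lit 0) (XT.lf (nat_lit 0) (nat_lit 2287947844) (nat_lit 252) (nat_lit 7645791479) (nat_lit 0) (nat_lit 30288104) (nat_lit 61) (nat_lit 5) (nat_lit 64) (nat_lit 4) (nat_lit 61) (nat_lit 4) (nat_lit 382) (nat_lit 350) (nat_lit 348)) (XT.lf (nat_lit 0) (nat_lit 6739830026) (nat_lit 168) (nat_lit 3418169785) (nat_lit 168)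 (nat_lit 155497696) (nat_lit 59) (nat_lit 4) (nat_lit 61) (nat_lit 5) (nat_lit 61) (nat_lit 4) (nat_lit 383) (nat_lit 350) (nat_lit 347)))) (XT.nd (nat_lit 188) (nat_lit 504) (nat_lit 0) (XT.nd (nat_lit 94) (nat_lit 252) (nat_lit 0) (XT.lf (nat_lit 0) (nat_lit 655834484) (nat_lit 168) (nat_lit 7012306413) (nat_lit 168) (nat_lit 3018745385) (nat_lit 54) (nat_lit 4) (nat_lit 56) (nat_lit 5) (nat_lit 56) (nat_lit 4) (nat_lit 384) (nat_lit 350) (nat_lit 346)) (XT.lf (nat_lit 0) (nat_lit 4889655999) (nat_lit 252) (nat_lit 5890297272) (nat_lit 0) (nat_lit 304735200) (nat_lit 51) (nat_lit 5) (nat_lit 54) (nat_lit 4) (nat_lit 51) (nat_lit 4) (nat_lit 385) (nat_lit 350) (nat_lit 345))) (XT.nd (nat_lit 94) (nat_lit 252) (nat_lit 0) (XT.lf (nat_lit 0) (nat_lit 1795811659) (nat_lit 252) (nat_lit 1627145177) (nat_lit 84) (nat_lit 8085432412) (nat_lit 48) (nat_lit 5) (nat_lit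 51) (nat_lit 5) (nat_lit 49) (nat_lit 4) (nat_lit 386) (nat_lit 350) (nat_lit 344)) (XT.lf (nat_lit 0) (nat_lit 2881911209) (nat_lit 168) (nat_lit 7384997535) (nat_lit 168) (nat_lit 1691097988) (nat_lit 45) (nat_lit 4) (nat_lit 47) (nat_lit 5) (nat_lit 47) (nat_lit 4) (nat_lit 387) (nat_lit 350) (nat_lit 343))))))))
noncomputable def xc65 : XT := (XT.nd (nat_lit 2632) (nat_lit 0) (nat_lit 0) (XT.nd (nat_lit 1316) (nat_lit 1176) (nat_lit 0) (XT.nd (nat_lit 658) (nat_lit 1092) (nat_lit 0) (XT.nd (nat_lit 282) (nat_lit 840) (nat_lit 0) (XT.nd (nat_lit 94) (nat_lit 504) (nat_lit 0) (XT.lf (nat_lit 0) (nat_lit 6799810194) (nat_lit 168) (nat_lit 4821472934) (nat_lit 0) (nat_lit 814324738) (nat_lit 43) (nat_lit 5) (nat_lit 45) (nat_lit 4) (nat_lit 43) (nat_lit 4) (nat_lit 388) (nat_lit 350) (nat_lit 342)) (XT.nd (nat_lit 94) (nat_lit 252) (nat_lit 0) (XT.lf (nat_lit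 0) (nat_lit 2961753488) (nat_lit 252) (nat_lit 434931529) (nat_lit 84) (nat_lit 9546244553) (nat_lit 40) (nat_lit 5) (nat_lit 43) (nat_lit 5) (nat_lit 41) (nat_lit 4) (nat_lit 389) (nat_lit 350) (nat_lit 341)) (XT.lf (nat_lit 0) (nat_lit 4250159186) (nat_lit 168) (nat_lit 7942534823) (nat_lit 168) (nat_lit 1286371684) (nat_lit 37) (nat_lit 4) (nat_lit 39) (nat_lit 5) (nat_lit 39) (nat_lit 4) (nat_lit 390) (nat_lit 350) (nat_lit 340)))) (XT.nd (nat_lit 188) (nat_lit 420) (nat_lit 0) (XT.nd (nat_lit 94) (nat_lit 252) (nat_lit 0) (XT.lf (nat_lit 0) (nat_lit 7928644617) (nat_lit 168) (nat_lit 4934657529) (nat_lit 0) (nat_lit 1184263905) (nat_lit 35) (nat_lit 5) (nat_lit 37) (nat_lit 4) (nat_lit 35) (nat_lit 4) (nat_lit 391) (nat_lit 350) (nat_lit 339)) (XT.lf (nat_lit 0) (nat_lit 3228613402) (nat_lit 252) (nat_lit 500887796) (nat_lit 84) (nat_lit 10920765023)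 (nat_lit 32) (nat_lit 5) (nat_lit 35) (nat_lit 5) (nat_lit 33) (nat_lit 4) (nat_lit 392) (nat_lit 350) (nat_lit 338))) (XT.nd (nat_lit 94) (nat_lit 168) (nat_lit 0) (XT.lf (nat_lit 0) (nat_lit 4228496411) (nat_lit 168) (nat_lit 9084427612) (nat_lit 168) (nat_lit 1973075362) (nat_lit 29) (nat_lit 4) (nat_lit 31) (nat_lit 5) (nat_lit 31) (nat_lit 4) (nat_lit 393) (nat_lit 350) (nat_lit 337)) (XT.lf (nat_lit 0) (nat_lit 8107458967) (nat_lit 168) (nat_lit 6808727428) (nat_lit 0) (nat_lit 1043002730) (nat_lit 27) (nat_lit 5) (nat_lit 29) (nat_lit 4) (nat_lit 27) (nat_lit 4) (nat_lit 394) (nat_lit 350) (nat_lit 336))))) (XT.nd (nat_lit 282) (nat_lit 588) (nat_lit 0) (XT.nd (nat_lit 94) (nat_lit 336) (nat_lit 0) (XT.lf (nat_lit 0) (nat_lit 2396274637) (nat_lit 168) (nat_lit 2422222684) (nat_lit 84) (nat_lit 11853005351) (nat_lit 25) (nat_lit 5) (nat_lit 27) (nat_lit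 5) (nat_lit 26) (nat_lit 4) (nat_lit 395) (nat_lit 350) (nat_lit 335)) (XT.nd (nat_lit 94) (nat_lit 168) (nat_lit 0) (XT.lf (nat_lit 0) (nat_lit 2182011472) (nat_lit 84) (nat_lit 11232309358) (nat_lit 84) (nat_lit 4008780258) (nat_lit 23) (nat_lit 4) (nat_lit 24) (nat_lit 5) (nat_lit 24) (nat_lit 4) (nat_lit 396) (nat_lit 350) (nat_lit 334)) (XT.lf (nat_lit 0) (nat_lit 7076252370) (nat_lit 84) (nat_lit 6843105) (nat_lit 168) (nat_lit 11134671574) (nat_lit 21) (nat_lit 5) (nat_lit 22) (nat_lit 5) (nat_lit 23) (nat_lit 4) (nat_lit 397) (nat_lit 350) (nat_lit 333)))) (XT.nd (nat_lit 188) (nat_lit 336) (nat_lit 0) (XT.nd (nat_lit 94) (nat_lit 84) (nat_lit 0) (XT.lf (nat_lit 0) (nat_lit 176075878) (nat_lit 168) (nat_lit 6923158273) (nat_lit 84) (nat_lit 11957499253) (nat_lit 19) (nat_lit 5) (nat_lit 21) (nat_lit 5) (nat_lit 20) (nat_lit 4) (nat_lit 398) (nat_lit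 350) (nat_lit 332)) (XT.lf (nat_lit 0) (nat_lit 12235563701) (nat_lit 168) (nat_lit 2579632616) (nat_lit 0) (nat_lit 5126794709) (nat_lit 18) (nat_lit 5) (nat_lit 20) (nat_lit 4) (nat_lit 18) (nat_lit 4) (nat_lit 399) (nat_lit 350) (nat_lit 331))) (XT.nd (nat_lit 94) (nat_lit 84) (nat_lit 0) (XT.lf (nat_lit 0) (nat_lit 2050630166) (nat_lit 84) (nat_lit 2494839038) (nat_lit 168) (nat_lit 16333028560) (nat_lit 15) (nat_lit 5) (nat_lit 16) (nat_lit 5) (nat_lit 17) (nat_lit 4) (nat_lit 400) (nat_lit 350) (nat_lit 330)) (XT.lf (nat_lit 0) (nat_lit 6905748754) (nat_lit 84) (nat_lit 11009512715) (nat_lit 84) (nat_lit 3947959845) (nat_lit 14) (nat_lit 4) (nat_lit 15) (nat_lit 5) (nat_lit 15) (nat_lit 4) (nat_lit 401) (nat_lit 350) (nat_lit 329)))))) (XT.nd (nat_lit 658) (nat_lit 168) (nat_lit 0) (XT.nd (nat_lit 282) (nat_lit 588) (nat_lit 0) (XT.nd (nat_lit 94) (nat_lit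 252) (nat_lit 0) (XT.lf (nat_lit 0) (nat_lit 9421032551) (nat_lit 168) (nat_lit 10911340550) (nat_lit 0) (nat_lit 2572246322) (nat_lit 12) (nat_lit 5) (nat_lit 14) (nat_lit 4) (nat_lit 12) (nat_lit 4) (nat_lit 402) (nat_lit 350) (nat_lit 328)) (XT.nd (nat_lit 94) (nat_lit 84) (nat_lit 0) (XT.lf (nat_lit 0) (nat_lit 133796534) (nat_lit 168) (nat_lit 6688853131) (nat_lit 84) (nat_lit 17182236414) (nat_lit 10) (nat_lit 5) (nat_lit 12) (nat_lit 5) (nat_lit 11) (nat_lit 4) (nat_lit 403) (nat_lit 350) (nat_lit 327)) (XT.lf (nat_lit 0) (nat_lit 14763130401) (nat_lit 168) (nat_lit 2368508879) (nat_lit 0) (nat_lit 8030734717) (nat_lit 9) (nat_lit 5) (nat_lit 11) (nat_lit 4) (nat_lit 9) (nat_lit 4) (nat_lit 404) (nat_lit 350) (nat_lit 326)))) (XT.nd (nat_lit 188) (nat_lit 252) (nat_lit 0) (XT.nd (nat_lit 94) (nat_lit 84) (nat_lit 0) (XT.lf (nat_lit 0) (nat_lit 2313844170)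 (nat_lit 84) (nat_lit 2144501180) (nat_lit 168) (nat_lit 21928834046) (nat_lit 6) (nat_lit 5) (nat_lit 7) (nat_lit 5) (nat_lit 8) (nat_lit 4) (nat_lit 405) (nat_lit 350) (nat_lit 325)) (XT.lf (nat_lit 0) (nat_lit 7183010313) (nat_lit 84) (nat_lit 13536271797) (nat_lit 84) (nat_lit 6953209171) (nat_lit 5) (nat_lit 4) (nat_lit 6) (nat_lit 5) (nat_lit 6) (nat_lit 4) (nat_lit 406) (nat_lit 350) (nat_lit 324))) (XT.nd (nat_lit 94) (nat_lit 84) (nat_lit 0) (XT.lf (nat_lit 0) (nat_lit 9349552344) (nat_lit 168) (nat_lit 16675305055) (nat_lit 0) (nat_lit 3007362895) (nat_lit 3) (nat_lit 5) (nat_lit 5) (nat_lit 4) (nat_lit 3) (nat_lit 4) (nat_lit 407) (nat_lit 350) (nat_lit 323)) (XT.lf (nat_lit 0) (nat_lit 17749668504) (nat_lit 84) (nat_lit 9562409746) (nat_lit 84) (nat_lit 3152992525) (nat_lit 2) (nat_lit 4) (nat_lit 3) (nat_lit 5) (nat_lit 3) (nat_lit 4) (nat_lit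 408) (nat_lit 350) (nat_lit 322))))) (XT.nd (nat_lit 282) (nat_lit 0) (nat_lit 0) (XT.nd (nat_lit 94) (nat_lit 0) (nat_lit 0) (XT.lf (nat_lit 0) (nat_lit 47180565667) (nat_lit 0) (nat_lit 0) (nat_lit 0) (nat_lit 0) (nat_lit 0) (nat_lit 0) (nat_lit 1) (nat_lit 0) (nat_lit 1) (nat_lit 0) (nat_lit 409) (nat_lit 350) (nat_lit 321)) (XT.nd (nat_lit 94) (nat_lit 0) (nat_lit 0) (XT.lf (nat_lit 0) (nat_lit 50906998527) (nat_lit 0) (nat_lit 0) (nat_lit 0) (nat_lit 0) (nat_lit 0) (nat_lit 0) (nat_lit 1) (nat_lit 0) (nat_lit 1) (nat_lit 0) (nat_lit 410) (nat_lit 350) (nat_lit 320)) (XT.lf (nat_lit 0) (nat_lit 54932155228) (nat_lit 0) (nat_lit 0) (nat_lit 0) (nat_lit 0) (nat_lit 0) (nat_lit 0) (nat_lit 1) (nat_lit 0) (nat_lit 1) (nat_lit 0) (nat_lit 411) (nat_lit 350) (nat_lit 319)))) (XT.nd (nat_lit 188) (nat_lit 0) (nat_lit 0) (XT.nd (nat_lit 94) (nat_lit 0) (nat_lit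 0) (XT.lf (nat_lit 0) (nat_lit 59279888551) (nat_lit 0) (nat_lit 0) (nat_lit 0) (nat_lit 0) (nat_lit 0) (nat_lit 0) (nat_lit 1) (nat_lit 0) (nat_lit 1) (nat_lit 0) (nat_lit 412) (nat_lit 350) (nat_lit 318)) (XT.lf (nat_lit 0) (nat_lit 63975962843) (nat_lit 0) (nat_lit 0) (nat_lit 0) (nat_lit 0) (nat_lit 0) (nat_lit 0) (nat_lit 1) (nat_lit 0) (nat_lit 1) (nat_lit 0) (nat_lit 413) (nat_lit 350) (nat_lit 317))) (XT.nd (nat_lit 94) (nat_lit 0) (nat_lit 0) (XT.lf (nat_lit 0) (nat_lit 69048206690) (nat_lit 0) (nat_lit 0) (nat_lit 0) (nat_lit 0) (nat_lit 0) (nat_lit 0) (nat_lit 1) (nat_lit 0) (nat_lit 1) (nat_lit 0) (nat_lit 414) (nat_lit 350) (nat_lit 316)) (XT.lf (nat_lit 0) (nat_lit 74526677836) (nat_lit 0) (nat_lit 0) (nat_lit 0) (nat_lit 0) (nat_lit 0) (nat_lit 0) (nat_lit 1) (nat_lit 0) (nat_lit 1) (nat_lit 0) (nat_lit 415) (nat_lit 350) (nat_lit 315)))))))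 (XT.nd (nat_lit 1316) (nat_lit 0) (nat_lit 0) (XT.nd (nat_lit 658) (nat_lit 0) (nat_lit 0) (XT.nd (nat_lit 282) (nat_lit 0) (nat_lit 0) (XT.nd (nat_lit 94) (nat_lit 0) (nat_lit 0) (XT.lf (nat_lit 0) (nat_lit 80443841293) (nat_lit 0) (nat_lit 0) (nat_lit 0) (nat_lit 0) (nat_lit 0) (nat_lit 0) (nat_lit 1) (nat_lit 0) (nat_lit 1) (nat_lit 0) (nat_lit 416) (nat_lit 350) (nat_lit 314)) (XT.nd (nat_lit 94) (nat_lit 0) (nat_lit 0) (XT.lf (nat_lit 0) (nat_lit 86834761734) (nat_lit 0) (nat_lit 0) (nat_lit 0) (nat_lit 0) (nat_lit 0) (nat_lit 0) (nat_lit 1) (nat_lit 0) (nat_lit 1) (nat_lit 0) (nat_lit 417) (nat_lit 350) (nat_lit 313)) (XT.lf (nat_lit 0) (nat_lit 93737311281) (nat_lit 0) (nat_lit 0) (nat_lit 0) (nat_lit 0) (nat_lit 0) (nat_lit 0) (nat_lit 1) (nat_lit 0) (nat_lit 1) (nat_lit 0) (nat_lit 418) (nat_lit 350) (nat_lit 312)))) (XT.nd (nat_lit 188) (nat_lit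 0) (nat_lit 0) (XT.nd (nat_lit 94) (nat_lit 0) (nat_lit 0) (XT.lf (nat_lit 0) (nat_lit 101192393930) (nat_lit 0) (nat_lit 0) (nat_lit 0) (nat_lit 0) (nat_lit 0) (nat_lit 0) (nat_lit 1) (nat_lit 0) (nat_lit 1) (nat_lit 0) (nat_lit 419) (nat_lit 350) (nat_lit 311)) (XT.lf (nat_lit 0) (nat_lit 109244187949) (nat_lit 0) (nat_lit 0) (nat_lit 0) (nat_lit 0) (nat_lit 0) (nat_lit 0) (nat_lit 1) (nat_lit 0) (nat_lit 1) (nat_lit 0) (nat_lit 420) (nat_lit 350) (nat_lit 310))) (XT.nd (nat_lit 94) (nat_lit 0) (nat_lit 0) (XT.lf (nat_lit 0) (nat_lit 117940407673) (nat_lit 0) (nat_lit 0) (nat_lit 0) (nat_lit 0) (nat_lit 0) (nat_lit 0) (nat_lit 1) (nat_lit 0) (nat_lit 1) (nat_lit 0) (nat_lit 421) (nat_lit 350) (nat_lit 309)) (XT.lf (nat_lit 0) (nat_lit 127332586256) (nat_lit 0) (nat_lit 0) (nat_lit 0) (nat_lit 0) (nat_lit 0) (nat_lit 0) (nat_lit 1) (nat_lit 0) (nat_lit 1)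 (nat_lit 0) (nat_lit 422) (nat_lit 350) (nat_lit 308))))) (XT.nd (nat_lit 282) (nat_lit 0) (nat_lit 0) (XT.nd (nat_lit 94) (nat_lit 0) (nat_lit 0) (XT.lf (nat_lit 0) (nat_lit 137476381053) (nat_lit 0) (nat_lit 0) (nat_lit 0) (nat_lit 0) (nat_lit 0) (nat_lit 0) (nat_lit 1) (nat_lit 0) (nat_lit 1) (nat_lit 0) (nat_lit 423) (nat_lit 350) (nat_lit 307)) (XT.nd (nat_lit 94) (nat_lit 0) (nat_lit 0) (XT.lf (nat_lit 0) (nat_lit 148431903440) (nat_lit 0) (nat_lit 0) (nat_lit 0) (nat_lit 0) (nat_lit 0) (nat_lit 0) (nat_lit 1) (nat_lit 0) (nat_lit 1) (nat_lit 0) (nat_lit 424) (nat_lit 350) (nat_lit 306)) (XT.lf (nat_lit 0) (nat_lit 160264075031) (nat_lit 0) (nat_lit 0) (nat_lit 0) (nat_lit 0) (nat_lit 0) (nat_lit 0) (nat_lit 1) (nat_lit 0) (nat_lit 1) (nat_lit 0) (nat_lit 425) (nat_lit 350) (nat_lit 305)))) (XT.nd (nat_lit 188) (nat_lit 0) (nat_lit 0) (XT.nd (nat_lit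 94) (nat_lit 0) (nat_lit 0) (XT.lf (nat_lit 0) (nat_lit 173043012399) (nat_lit 0) (nat_lit 0) (nat_lit 0) (nat_lit 0) (nat_lit 0) (nat_lit 0) (nat_lit 1) (nat_lit 0) (nat_lit 1) (nat_lit 0) (nat_lit 426) (nat_lit 350) (nat_lit 304)) (XT.lf (nat_lit 0) (nat_lit 186844442580) (nat_lit 0) (nat_lit 0) (nat_lit 0) (nat_lit 0) (nat_lit 0) (nat_lit 0) (nat_lit 1) (nat_lit 0) (nat_lit 1) (nat_lit 0) (nat_lit 427) (nat_lit 350) (nat_lit 303))) (XT.nd (nat_lit 94) (nat_lit 0) (nat_lit 0) (XT.lf (nat_lit 0) (nat_lit 201750151827) (nat_lit 0) (nat_lit 0) (nat_lit 0) (nat_lit 0) (nat_lit 0) (nat_lit 0) (nat_lit 1) (nat_lit 0) (nat_lit 1) (nat_lit 0) (nat_lit 428) (nat_lit 350) (nat_lit 302)) (XT.lf (nat_lit 0) (nat_lit 217848470268) (nat_lit 0) (nat_lit 0) (nat_lit 0) (nat_lit 0) (nat_lit 0) (nat_lit 0) (nat_lit 1) (nat_lit 0) (nat_lit 1) (nat_lit 0) (nat_lit 429) (nat_lit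 350) (nat_lit 301)))))) (XT.nd (nat_lit 658) (nat_lit 0) (nat_lit 0) (XT.nd (nat_lit 282) (nat_lit 0) (nat_lit 0) (XT.nd (nat_lit 94) (nat_lit 0) (nat_lit 0) (XT.lf (nat_lit 0) (nat_lit 235234795347) (nat_lit 0) (nat_lit 0) (nat_lit 0) (nat_lit 0) (nat_lit 0) (nat_lit 0) (nat_lit 1) (nat_lit 0) (nat_lit 1) (nat_lit 0) (nat_lit 430) (nat_lit 350) (nat_lit 300)) (XT.nd (nat_lit 94) (nat_lit 0) (nat_lit 0) (XT.lf (nat_lit 0) (nat_lit 254012157137) (nat_lit 0) (nat_lit 0) (nat_lit 0) (nat_lit 0) (nat_lit 0) (nat_lit 0) (nat_lit 1) (nat_lit 0) (nat_lit 1) (nat_lit 0) (nat_lit 431) (nat_lit 350) (nat_lit 299)) (XT.lf (nat_lit 0) (nat_lit 274291828894) (nat_lit 0) (nat_lit 0) (nat_lit 0) (nat_lit 0) (nat_lit 0) (nat_lit 0) (nat_lit 1) (nat_lit 0) (nat_lit 1) (nat_lit 0) (nat_lit 432) (nat_lit 350) (nat_lit 298)))) (XT.nd (nat_lit 188) (nat_lit 0) (nat_lit 0) (XT.nd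 (nat_lit 94) (nat_lit 0) (nat_lit 0) (XT.lf (nat_lit 0) (nat_lit 296193986451) (nat_lit 0) (nat_lit 0) (nat_lit 0) (nat_lit 0) (nat_lit 0) (nat_lit 0) (nat_lit 1) (nat_lit 0) (nat_lit 1) (nat_lit 0) (nat_lit 433) (nat_lit 350) (nat_lit 297)) (XT.lf (nat_lit 0) (nat_lit 319848420371) (nat_lit 0) (nat_lit 0) (nat_lit 0) (nat_lit 0) (nat_lit 0) (nat_lit 0) (nat_lit 1) (nat_lit 0) (nat_lit 1) (nat_lit 0) (nat_lit 434) (nat_lit 350) (nat_lit 296))) (XT.nd (nat_lit 94) (nat_lit 0) (nat_lit 0) (XT.lf (nat_lit 0) (nat_lit 345395305077) (nat_lit 0) (nat_lit 0) (nat_lit 0) (nat_lit 0) (nat_lit 0) (nat_lit 0) (nat_lit 1) (nat_lit 0) (nat_lit 1) (nat_lit 0) (nat_lit 435) (nat_lit 350) (nat_lit 295)) (XT.lf (nat_lit 0) (nat_lit 372986029515) (nat_lit 0) (nat_lit 0) (nat_lit 0) (nat_lit 0) (nat_lit 0) (nat_lit 0) (nat_lit 1) (nat_lit 0) (nat_lit 1) (nat_lit 0) (nat_lit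 436) (nat_lit 350) (nat_lit 294))))) (XT.nd (nat_lit 376) (nat_lit 0) (nat_lit 0) (XT.nd (nat_lit 188) (nat_lit 0) (nat_lit 0) (XT.nd (nat_lit 94) (nat_lit 0) (nat_lit 0) (XT.lf (nat_lit 0) (nat_lit 402784094275) (nat_lit 0) (nat_lit 0) (nat_lit 0) (nat_lit 0) (nat_lit 0) (nat_lit 0) (nat_lit 1) (nat_lit 0) (nat_lit 1) (nat_lit 0) (nat_lit 437) (nat_lit 350) (nat_lit 293)) (XT.lf (nat_lit 0) (nat_lit 434966080482) (nat_lit 0) (nat_lit 0) (nat_lit 0) (nat_lit 0) (nat_lit 0) (nat_lit 0) (nat_lit 1) (nat_lit 0) (nat_lit 1) (nat_lit 0) (nat_lit 438) (nat_lit 350) (nat_lit 292))) (XT.nd (nat_lit 94) (nat_lit 0) (nat_lit 0) (XT.lf (nat_lit 0) (nat_lit 469722696201) (nat_lit 0) (nat_lit 0) (nat_lit 0) (nat_lit 0) (nat_lit 0) (nat_lit 0) (nat_lit 1) (nat_lit 0) (nat_lit 1) (nat_lit 0) (nat_lit 439) (nat_lit 350) (nat_lit 291)) (XT.lf (nat_lit 0) (nat_lit 507259906563)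 (nat_lit 0) (nat_lit 0) (nat_lit 0) (nat_lit 0) (nat_lit 0) (nat_lit 0) (nat_lit 1) (nat_lit 0) (nat_lit 1) (nat_lit 0) (nat_lit 440) (nat_lit 350) (nat_lit 290)))) (XT.nd (nat_lit 188) (nat_lit 0) (nat_lit 0) (XT.nd (nat_lit 94) (nat_lit 0) (nat_lit 0) (XT.lf (nat_lit 0) (nat_lit 547800154295) (nat_lit 0) (nat_lit 0) (nat_lit 0) (nat_lit 0) (nat_lit 0) (nat_lit 0) (nat_lit 1) (nat_lit 0) (nat_lit 1) (nat_lit 0) (nat_lit 441) (nat_lit 350) (nat_lit 289)) (XT.lf (nat_lit 0) (nat_lit 591583677904) (nat_lit 0) (nat_lit 0) (nat_lit 0) (nat_lit 0) (nat_lit 0) (nat_lit 0) (nat_lit 1) (nat_lit 0) (nat_lit 1) (nat_lit 0) (nat_lit 442) (nat_lit 350) (nat_lit 288))) (XT.nd (nat_lit 94) (nat_lit 0) (nat_lit 0) (XT.lf (nat_lit 0) (nat_lit 638869935307) (nat_lit 0) (nat_lit 0) (nat_lit 0) (nat_lit 0) (nat_lit 0) (nat_lit 0) (nat_lit 1) (nat_lit 0) (nat_lit 1) (nat_lit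 0) (nat_lit 443) (nat_lit 350) (nat_lit 287)) (XT.lf (nat_lit 0) (nat_lit 689939141362) (nat_lit 0) (nat_lit 0) (nat_lit 0) (nat_lit 0) (nat_lit 0) (nat_lit 0) (nat_lit 1) (nat_lit 0) (nat_lit 1) (nat_lit 0) (nat_lit 444) (nat_lit 350) (nat_lit 286))))))))
noncomputable def xc66 : XT := (XT.nd (nat_lit 2632) (nat_lit 0) (nat_lit 0) (XT.nd (nat_lit 1316) (nat_lit 0) (nat_lit 0) (XT.nd (nat_lit 658) (nat_lit 0) (nat_lit 0) (XT.nd (nat_lit 282) (nat_lit 0) (nat_lit 0) (XT.nd (nat_lit 94) (nat_lit 0) (nat_lit 0) (XT.lf (nat_lit 0) (nat_lit 745093928401) (nat_lit 0) (nat_lit 0) (nat_lit 0) (nat_lit 0) (nat_lit 0) (nat_lit 0) (nat_lit 1) (nat_lit 0) (nat_lit 1) (nat_lit 0) (nat_lit 445) (nat_lit 350) (nat_lit 285)) (XT.nd (nat_lit 94) (nat_lit 0) (nat_lit 0) (XT.lf (nat_lit 0) (nat_lit 804661139607) (nat_lit 0) (nat_lit 0) (nat_lit 0) (nat_lit 0) (nat_lit 0) (nat_lit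 0) (nat_lit 1) (nat_lit 0) (nat_lit 1) (nat_lit 0) (nat_lit 446) (nat_lit 350) (nat_lit 284)) (XT.lf (nat_lit 0) (nat_lit 868993765862) (nat_lit 0) (nat_lit 0) (nat_lit 0) (nat_lit 0) (nat_lit 0) (nat_lit 0) (nat_lit 1) (nat_lit 0) (nat_lit 1) (nat_lit 0) (nat_lit 447) (nat_lit 350) (nat_lit 283)))) (XT.nd (nat_lit 188) (nat_lit 0) (nat_lit 0) (XT.nd (nat_lit 94) (nat_lit 0) (nat_lit 0) (XT.lf (nat_lit 0) (nat_lit 938473037543) (nat_lit 0) (nat_lit 0) (nat_lit 0) (nat_lit 0) (nat_lit 0) (nat_lit 0) (nat_lit 1) (nat_lit 0) (nat_lit 1) (nat_lit 0) (nat_lit 448) (nat_lit 350) (nat_lit 282)) (XT.lf (nat_lit 0) (nat_lit 1013510683667) (nat_lit 0) (nat_lit 0) (nat_lit 0) (nat_lit 0) (nat_lit 0) (nat_lit 0) (nat_lit 1) (nat_lit 0) (nat_lit 1) (nat_lit 0) (nat_lit 449) (nat_lit 350) (nat_lit 281))) (XT.nd (nat_lit 94) (nat_lit 0) (nat_lit 0) (XT.lf (nat_lit 0) (nat_lit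 1094551371767) (nat_lit 0) (nat_lit 0) (nat_lit 0) (nat_lit 0) (nat_lit 0) (nat_lit 0) (nat_lit 1) (nat_lit 0) (nat_lit 1) (nat_lit 0) (nat_lit 450) (nat_lit 350) (nat_lit 280)) (XT.lf (nat_lit 0) (nat_lit 1182075342957) (nat_lit 0) (nat_lit 0) (nat_lit 0) (nat_lit 0) (nat_lit 0) (nat_lit 0) (nat_lit 1) (nat_lit 0) (nat_lit 1) (nat_lit 0) (nat_lit 451) (nat_lit 350) (nat_lit 279))))) (XT.nd (nat_lit 282) (nat_lit 0) (nat_lit 0) (XT.nd (nat_lit 94) (nat_lit 0) (nat_lit 0) (XT.lf (nat_lit 0) (nat_lit 1276601257808) (nat_lit 0) (nat_lit 0) (nat_lit 0) (nat_lit 0) (nat_lit 0) (nat_lit 0) (nat_lit 1) (nat_lit 0) (nat_lit 1) (nat_lit 0) (nat_lit 452) (nat_lit 350) (nat_lit 278)) (XT.nd (nat_lit 94) (nat_lit 0) (nat_lit 0) (XT.lf (nat_lit 0) (nat_lit 1378689269890) (nat_lit 0) (nat_lit 0) (nat_lit 0) (nat_lit 0) (nat_lit 0) (nat_lit 0) (nat_lit 1) (nat_lit 0) (nat_lit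 1) (nat_lit 0) (nat_lit 453) (nat_lit 350) (nat_lit 277)) (XT.lf (nat_lit 0) (nat_lit 1488944345199) (nat_lit 0) (nat_lit 0) (nat_lit 0) (nat_lit 0) (nat_lit 0) (nat_lit 0) (nat_lit 1) (nat_lit 0) (nat_lit 1) (nat_lit 0) (nat_lit 454) (nat_lit 350) (nat_lit 276)))) (XT.nd (nat_lit 188) (nat_lit 0) (nat_lit 0) (XT.nd (nat_lit 94) (nat_lit 0) (nat_lit 0) (XT.lf (nat_lit 0) (nat_lit 1608019847145) (nat_lit 0) (nat_lit 0) (nat_lit 0) (nat_lit 0) (nat_lit 0) (nat_lit 0) (nat_lit 1) (nat_lit 0) (nat_lit 1) (nat_lit 0) (nat_lit 455) (nat_lit 350) (nat_lit 275)) (XT.lf (nat_lit 0) (nat_lit 1736621408332) (nat_lit 0) (nat_lit 0) (nat_lit 0) (nat_lit 0) (nat_lit 0) (nat_lit 0) (nat_lit 1) (nat_lit 0) (nat_lit 1) (nat_lit 0) (nat_lit 456) (nat_lit 350) (nat_lit 274))) (XT.nd (nat_lit 94) (nat_lit 0) (nat_lit 0) (XT.lf (nat_lit 0) (nat_lit 1875511112086) (nat_lit 0) (nat_lit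 0) (nat_lit 0) (nat_lit 0) (nat_lit 0) (nat_lit 0) (nat_lit 1) (nat_lit 0) (nat_lit 1) (nat_lit 0) (nat_lit 457) (nat_lit 350) (nat_lit 273)) (XT.lf (nat_lit 0) (nat_lit 2025512008502) (nat_lit 0) (nat_lit 0) (nat_lit 0) (nat_lit 0) (nat_lit 0) (nat_lit 0) (nat_lit 1) (nat_lit 0) (nat_lit 1) (nat_lit 0) (nat_lit 458) (nat_lit 350) (nat_lit 272)))))) (XT.nd (nat_lit 658) (nat_lit 0) (nat_lit 0) (XT.nd (nat_lit 282) (nat_lit 0) (nat_lit 0) (XT.nd (nat_lit 94) (nat_lit 0) (nat_lit 0) (XT.lf (nat_lit 0) (nat_lit 2187512991783) (nat_lit 0) (nat_lit 0) (nat_lit 0) (nat_lit 0) (nat_lit 0) (nat_lit 0) (nat_lit 1) (nat_lit 0) (nat_lit 1) (nat_lit 0) (nat_lit 459) (nat_lit 350) (nat_lit 271)) (XT.nd (nat_lit 94) (nat_lit 0) (nat_lit 0) (XT.lf (nat_lit 0) (nat_lit 2362474067754) (nat_lit 0) (nat_lit 0) (nat_lit 0) (nat_lit 0) (nat_lit 0) (nat_lit 0) (nat_lit 1) (nat_lit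 0) (nat_lit 1) (nat_lit 0) (nat_lit 460) (nat_lit 350) (nat_lit 270)) (XT.lf (nat_lit 0) (nat_lit 2551432042792) (nat_lit 0) (nat_lit 0) (nat_lit 0) (nat_lit 0) (nat_lit 0) (nat_lit 0) (nat_lit 1) (nat_lit 0) (nat_lit 1) (nat_lit 0) (nat_lit 461) (nat_lit 350) (nat_lit 269)))) (XT.nd (nat_lit 188) (nat_lit 0) (nat_lit 0) (XT.nd (nat_lit 94) (nat_lit 0) (nat_lit 0) (XT.lf (nat_lit 0) (nat_lit 2755506667860) (nat_lit 0) (nat_lit 0) (nat_lit 0) (nat_lit 0) (nat_lit 0) (nat_lit 0) (nat_lit 1) (nat_lit 0) (nat_lit 1) (nat_lit 0) (nat_lit 462) (nat_lit 350) (nat_lit 268)) (XT.lf (nat_lit 0) (nat_lit 2975907274070) (nat_lit 0) (nat_lit 0) (nat_lit 0) (nat_lit 0) (nat_lit 0) (nat_lit 0) (nat_lit 1) (nat_lit 0) (nat_lit 1) (nat_lit 0) (nat_lit 463) (nat_lit 350) (nat_lit 267))) (XT.nd (nat_lit 94) (nat_lit 0) (nat_lit 0) (XT.lf (nat_lit 0) (nat_lit 3213939939088) (nat_lit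 0) (nat_lit 0) (nat_lit 0) (nat_lit 0) (nat_lit 0) (nat_lit 0) (nat_lit 1) (nat_lit 0) (nat_lit 1) (nat_lit 0) (nat_lit 464) (nat_lit 350) (nat_lit 266)) (XT.lf (nat_lit 0) (nat_lit 3471015226854) (nat_lit 0) (nat_lit 0) (nat_lit 0) (nat_lit 0) (nat_lit 0) (nat_lit 0) (nat_lit 1) (nat_lit 0) (nat_lit 1) (nat_lit 0) (nat_lit 465) (nat_lit 350) (nat_lit 265))))) (XT.nd (nat_lit 282) (nat_lit 0) (nat_lit 0) (XT.nd (nat_lit 94) (nat_lit 0) (nat_lit 0) (XT.lf (nat_lit 0) (nat_lit 3748656546482) (nat_lit 0) (nat_lit 0) (nat_lit 0) (nat_lit 0) (nat_lit 0) (nat_lit 0) (nat_lit 1) (nat_lit 0) (nat_lit 1) (nat_lit 0) (nat_lit 466) (nat_lit 350) (nat_lit 264)) (XT.nd (nat_lit 94) (nat_lit 0) (nat_lit 0) (XT.lf (nat_lit 0) (nat_lit 4048509179866) (nat_lit 0) (nat_lit 0) (nat_lit 0) (nat_lit 0) (nat_lit 0) (nat_lit 0) (nat_lit 1) (nat_lit 0) (nat_lit 1) (nat_lit 0) (nat_lit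 467) (nat_lit 350) (nat_lit 263)) (XT.lf (nat_lit 0) (nat_lit 4372350031499) (nat_lit 0) (nat_lit 0) (nat_lit 0) (nat_lit 0) (nat_lit 0) (nat_lit 0) (nat_lit 1) (nat_lit 0) (nat_lit 1) (nat_lit 0) (nat_lit 468) (nat_lit 350) (nat_lit 262)))) (XT.nd (nat_lit 188) (nat_lit 0) (nat_lit 0) (XT.nd (nat_lit 94) (nat_lit 0) (nat_lit 0) (XT.lf (nat_lit 0) (nat_lit 4722098158281) (nat_lit 0) (nat_lit 0) (nat_lit 0) (nat_lit 0) (nat_lit 0) (nat_lit 0) (nat_lit 1) (nat_lit 0) (nat_lit 1) (nat_lit 0) (nat_lit 469) (nat_lit 350) (nat_lit 261)) (XT.lf (nat_lit 0) (nat_lit 5099826141703) (nat_lit 0) (nat_lit 0) (nat_lit 0) (nat_lit 0) (nat_lit 0) (nat_lit 0) (nat_lit 1) (nat_lit 0) (nat_lit 1) (nat_lit 0) (nat_lit 470) (nat_lit 350) (nat_lit 260))) (XT.nd (nat_lit 94) (nat_lit 0) (nat_lit 0) (XT.lf (nat_lit 0) (nat_lit 5507772369816) (nat_lit 0) (nat_lit 0) (nat_lit 0) (nat_lit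 0) (nat_lit 0) (nat_lit 0) (nat_lit 1) (nat_lit 0) (nat_lit 1) (nat_lit 0) (nat_lit 471) (nat_lit 350) (nat_lit 259)) (XT.lf (nat_lit 0) (nat_lit 5948354301748) (nat_lit 0) (nat_lit 0) (nat_lit 0) (nat_lit 0) (nat_lit 0) (nat_lit 0) (nat_lit 1) (nat_lit 0) (nat_lit 1) (nat_lit 0) (nat_lit 472) (nat_lit 350) (nat_lit 258))))))) (XT.nd (nat_lit 1316) (nat_lit 0) (nat_lit 0) (XT.nd (nat_lit 658) (nat_lit 0) (nat_lit 0) (XT.nd (nat_lit 282) (nat_lit 0) (nat_lit 0) (XT.nd (nat_lit 94) (nat_lit 0) (nat_lit 0) (XT.lf (nat_lit 0) (nat_lit 6424182793393) (nat_lit 0) (nat_lit 0) (nat_lit 0) (nat_lit 0) (nat_lit 0) (nat_lit 0) (nat_lit 1) (nat_lit 0) (nat_lit 1) (nat_lit 0) (nat_lit 473) (nat_lit 350) (nat_lit 257)) (XT.nd (nat_lit 94) (nat_lit 0) (nat_lit 0) (XT.lf (nat_lit 0) (nat_lit 6938077569145) (nat_lit 0) (nat_lit 0) (nat_lit 0) (nat_lit 0) (nat_lit 0) (nat_lit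 0) (nat_lit 1) (nat_lit 0) (nat_lit 1) (nat_lit 0) (nat_lit 474) (nat_lit 350) (nat_lit 256)) (XT.lf (nat_lit 0) (nat_lit 7493083931381) (nat_lit 0) (nat_lit 0) (nat_lit 0) (nat_lit 0) (nat_lit 0) (nat_lit 0) (nat_lit 1) (nat_lit 0) (nat_lit 1) (nat_lit 0) (nat_lit 475) (nat_lit 350) (nat_lit 255)))) (XT.nd (nat_lit 188) (nat_lit 0) (nat_lit 0) (XT.nd (nat_lit 94) (nat_lit 0) (nat_lit 0) (XT.lf (nat_lit 0) (nat_lit 8092490806689) (nat_lit 0) (nat_lit 0) (nat_lit 0) (nat_lit 0) (nat_lit 0) (nat_lit 0) (nat_lit 1) (nat_lit 0) (nat_lit 1) (nat_lit 0) (nat_lit 476) (nat_lit 350) (nat_lit 254)) (XT.lf (nat_lit 0) (nat_lit 8739850235814) (nat_lit 0) (nat_lit 0) (nat_lit 0) (nat_lit 0) (nat_lit 0) (nat_lit 0) (nat_lit 1) (nat_lit 0) (nat_lit 1) (nat_lit 0) (nat_lit 477) (nat_lit 350) (nat_lit 253))) (XT.nd (nat_lit 94) (nat_lit 0) (nat_lit 0) (XT.lf (nat_lit 0) (nat_lit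 9438998422780) (nat_lit 0) (nat_lit 0) (nat_lit 0) (nat_lit 0) (nat_lit 0) (nat_lit 0) (nat_lit 1) (nat_lit 0) (nat_lit 1) (nat_lit 0) (nat_lit 478) (nat_lit 350) (nat_lit 252)) (XT.lf (nat_lit 0) (nat_lit 10194078467953) (nat_lit 0) (nat_lit 0) (nat_lit 0) (nat_lit 0) (nat_lit 0) (nat_lit 0) (nat_lit 1) (nat_lit 0) (nat_lit 1) (nat_lit 0) (nat_lit 479) (nat_lit 350) (nat_lit 251))))) (XT.nd (nat_lit 282) (nat_lit 0) (nat_lit 0) (XT.nd (nat_lit 94) (nat_lit 0) (nat_lit 0) (XT.lf (nat_lit 0) (nat_lit 11009564919749) (nat_lit 0) (nat_lit 0) (nat_lit 0) (nat_lit 0) (nat_lit 0) (nat_lit 0) (nat_lit 1) (nat_lit 0) (nat_lit 1) (nat_lit 0) (nat_lit 480) (nat_lit 350) (nat_lit 250)) (XT.nd (nat_lit 94) (nat_lit 0) (nat_lit 0) (XT.lf (nat_lit 0) (nat_lit 11890290290477) (nat_lit 0) (nat_lit 0) (nat_lit 0) (nat_lit 0) (nat_lit 0) (nat_lit 0) (nat_lit 1) (nat_lit 0)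 (nat_lit 1) (nat_lit 0) (nat_lit 481) (nat_lit 350) (nat_lit 249)) (XT.lf (nat_lit 0) (nat_lit 12841473693443) (nat_lit 0) (nat_lit 0) (nat_lit 0) (nat_lit 0) (nat_lit 0) (nat_lit 0) (nat_lit 1) (nat_lit 0) (nat_lit 1) (nat_lit 0) (nat_lit 482) (nat_lit 350) (nat_lit 248)))) (XT.nd (nat_lit 188) (nat_lit 0) (nat_lit 0) (XT.nd (nat_lit 94) (nat_lit 0) (nat_lit 0) (XT.lf (nat_lit 0) (nat_lit 13868751771035) (nat_lit 0) (nat_lit 0) (nat_lit 0) (nat_lit 0) (nat_lit 0) (nat_lit 0) (nat_lit 1) (nat_lit 0) (nat_lit 1) (nat_lit 0) (nat_lit 483) (nat_lit 350) (nat_lit 247)) (XT.lf (nat_lit 0) (nat_lit 14978212097047) (nat_lit 0) (nat_lit 0) (nat_lit 0) (nat_lit 0) (nat_lit 0) (nat_lit 0) (nat_lit 1) (nat_lit 0) (nat_lit 1) (nat_lit 0) (nat_lit 484) (nat_lit 350) (nat_lit 246))) (XT.nd (nat_lit 94) (nat_lit 0) (nat_lit 0) (XT.lf (nat_lit 0) (nat_lit 16176429251188)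 (nat_lit 0) (nat_lit 0) (nat_lit 0) (nat_lit 0) (nat_lit 0) (nat_lit 0) (nat_lit 1) (nat_lit 0) (nat_lit 1) (nat_lit 0) (nat_lit 485) (nat_lit 350) (nat_lit 245)) (XT.lf (nat_lit 0) (nat_lit 17470503779558) (nat_lit 0) (nat_lit 0) (nat_lit 0) (nat_lit 0) (nat_lit 0) (nat_lit 0) (nat_lit 1) (nat_lit 0) (nat_lit 1) (nat_lit 0) (nat_lit 486) (nat_lit 350) (nat_lit 244)))))) (XT.nd (nat_lit 658) (nat_lit 0) (nat_lit 0) (XT.nd (nat_lit 282) (nat_lit 0) (nat_lit 0) (XT.nd (nat_lit 94) (nat_lit 0) (nat_lit 0) (XT.lf (nat_lit 0) (nat_lit 18868104271953) (nat_lit 0) (nat_lit 0) (nat_lit 0) (nat_lit 0) (nat_lit 0) (nat_lit 0) (nat_lit 1) (nat_lit 0) (nat_lit 1) (nat_lit 0) (nat_lit 487) (nat_lit 350) (nat_lit 243)) (XT.nd (nat_lit 94) (nat_lit 0) (nat_lit 0) (XT.lf (nat_lit 0) (nat_lit 20377512805365) (nat_lit 0) (nat_lit 0) (nat_lit 0) (nat_lit 0) (nat_lit 0) (nat_lit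 0) (nat_lit 1) (nat_lit 0) (nat_lit 1) (nat_lit 0) (nat_lit 488) (nat_lit 350) (nat_lit 242)) (XT.lf (nat_lit 0) (nat_lit 22007674022957) (nat_lit 0) (nat_lit 0) (nat_lit 0) (nat_lit 0) (nat_lit 0) (nat_lit 0) (nat_lit 1) (nat_lit 0) (nat_lit 1) (nat_lit 0) (nat_lit 489) (nat_lit 350) (nat_lit 241)))) (XT.nd (nat_lit 188) (nat_lit 0) (nat_lit 0) (XT.nd (nat_lit 94) (nat_lit 0) (nat_lit 0) (XT.lf (nat_lit 0) (nat_lit 23768248139349) (nat_lit 0) (nat_lit 0) (nat_lit 0) (nat_lit 0) (nat_lit 0) (nat_lit 0) (nat_lit 1) (nat_lit 0) (nat_lit 1) (nat_lit 0) (nat_lit 490) (nat_lit 350) (nat_lit 240)) (XT.lf (nat_lit 0) (nat_lit 25669668186344) (nat_lit 0) (nat_lit 0) (nat_lit 0) (nat_lit 0) (nat_lit 0) (nat_lit 0) (nat_lit 1) (nat_lit 0) (nat_lit 1) (nat_lit 0) (nat_lit 491) (nat_lit 350) (nat_lit 239))) (XT.nd (nat_lit 94) (nat_lit 0) (nat_lit 0) (XT.lf (nat_lit 0)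 (nat_lit 27723201838294) (nat_lit 0) (nat_lit 0) (nat_lit 0) (nat_lit 0) (nat_lit 0) (nat_lit 0) (nat_lit 1) (nat_lit 0) (nat_lit 1) (nat_lit 0) (nat_lit 492) (nat_lit 350) (nat_lit 238)) (XT.lf (nat_lit 0) (nat_lit 29941018183507) (nat_lit 0) (nat_lit 0) (nat_lit 0) (nat_lit 0) (nat_lit 0) (nat_lit 0) (nat_lit 1) (nat_lit 0) (nat_lit 1) (nat_lit 0) (nat_lit 493) (nat_lit 350) (nat_lit 237))))) (XT.nd (nat_lit 57152) (nat_lit 0) (nat_lit 4704) (XT.nd (nat_lit 56964) (nat_lit 0) (nat_lit 5880) (XT.nd (nat_lit 56870) (nat_lit 0) (nat_lit 6720) (XT.lf (nat_lit 0) (nat_lit 32336259837361) (nat_lit 0) (nat_lit 0) (nat_lit 0) (nat_lit 0) (nat_lit 0) (nat_lit 0) (nat_lit 1) (nat_lit 0) (nat_lit 1) (nat_lit 0) (nat_lit 494) (nat_lit 350) (nat_lit 236)) (XT.lf (nat_lit 0) (nat_lit 1172155646) (nat_lit 336) (nat_lit 2042885544) (nat_lit 0) (nat_lit 1172155646) (nat_lit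 80) (nat_lit 5) (nat_lit 84) (nat_lit 4) (nat_lit 80) (nat_lit 4) (nat_lit 378) (nat_lit 351) (nat_lit 351))) (XT.nd (nat_lit 94) (nat_lit 504) (nat_lit 0) (XT.lf (nat_lit 0) (nat_lit 426991225) (nat_lit 336) (nat_lit 590251470) (nat_lit 84) (nat_lit 8031690095) (nat_lit 76) (nat_lit 5) (nat_lit 80) (nat_lit 5) (nat_lit 77) (nat_lit 4) (nat_lit 379) (nat_lit 351) (nat_lit 350)) (XT.lf (nat_lit 0) (nat_lit 3124379215) (nat_lit 252) (nat_lit 4452746025) (nat_lit 252) (nat_lit 1764550572) (nat_lit 70) (nat_lit 4) (nat_lit 73) (nat_lit 5) (nat_lit 73) (nat_lit 4) (nat_lit 380) (nat_lit 351) (nat_lit 349)))) (XT.nd (nat_lit 188) (nat_lit 420) (nat_lit 0) (XT.nd (nat_lit 94) (nat_lit 504) (nat_lit 0) (XT.lf (nat_lit 0) (nat_lit 5371617831) (nat_lit 252) (nat_lit 2614531477) (nat_lit 0) (nat_lit 1671747682) (nat_lit 67) (nat_lit 5) (nat_lit 70) (nat_lit 4) (nat_lit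 67) (nat_lit 4) (nat_lit 381) (nat_lit 351) (nat_lit 348)) (XT.lf (nat_lit 0) (nat_lit 1174992976) (nat_lit 168) (nat_lit 1717751458) (nat_lit 252) (nat_lit 7104344469) (nat_lit 61) (nat_lit 5) (nat_lit 63) (nat_lit 5) (nat_lit 64) (nat_lit 4) (nat_lit 382) (nat_lit 351) (nat_lit 347))) (XT.nd (nat_lit 94) (nat_lit 168) (nat_lit 0) (XT.lf (nat_lit 0) (nat_lit 151978340) (nat_lit 252) (nat_lit 5147709595) (nat_lit 84) (nat_lit 5059092961) (nat_lit 58) (nat_lit 5) (nat_lit 61) (nat_lit 5) (nat_lit 59) (nat_lit 4) (nat_lit 383) (nat_lit 351) (nat_lit 346)) (XT.lf (nat_lit 0) (nat_lit 7708282657) (nat_lit 252) (nat_lit 1348506834) (nat_lit 0) (nat_lit 1688376661) (nat_lit 56) (nat_lit 5) (nat_lit 59) (nat_lit 4) (nat_lit 56) (nat_lit 4) (nat_lit 384) (nat_lit 351) (nat_lit 345))))))))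
noncomputable def xc67 : XT := (XT.nd (nat_lit 2632) (nat_lit 0) (nat_lit 0) (XT.nd (nat_lit 1316) (nat_lit 1764) (nat_lit 0) (XT.nd (nat_lit 658) (nat_lit 1176) (nat_lit 0) (XT.nd (nat_lit 282) (nat_lit 1008) (nat_lit 0) (XT.nd (nat_lit 94) (nat_lit 336) (nat_lit 0) (XT.lf (nat_lit 0) (nat_lit 2681625578) (nat_lit 168) (nat_lit 1933667967) (nat_lit 252) (nat_lit 6540529199) (nat_lit 51) (nat_lit 5) (nat_lit 53) (nat_lit 5) (nat_lit 54) (nat_lit 4) (nat_lit 385) (nat_lit 351) (nat_lit 344)) (XT.nd (nat_lit 94) (nat_lit 84) (nat_lit 0) (XT.lf (nat_lit 0) (nat_lit 1197154823) (nat_lit 252) (nat_lit 4672750145) (nat_lit 84) (nat_lit 5723099171) (nat_lit 48) (nat_lit 5) (nat_lit 51) (nat_lit 5) (nat_lit 49) (nat_lit 4) (nat_lit 386) (nat_lit 351) (nat_lit 343)) (XT.lf (nat_lit 0) (nat_lit 9350369044) (nat_lit 168) (nat_lit 736178367) (nat_lit 0) (nat_lit 1971968355)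 (nat_lit 47) (nat_lit 5) (nat_lit 49) (nat_lit 4) (nat_lit 47) (nat_lit 4) (nat_lit 387) (nat_lit 351) (nat_lit 342)))) (XT.nd (nat_lit 188) (nat_lit 420) (nat_lit 0) (XT.nd (nat_lit 94) (nat_lit 252) (nat_lit 0) (XT.lf (nat_lit 0) (nat_lit 3443547992) (nat_lit 84) (nat_lit 2102325881) (nat_lit 168) (nat_lit 7004508951) (nat_lit 43) (nat_lit 5) (nat_lit 44) (nat_lit 5) (nat_lit 45) (nat_lit 4) (nat_lit 388) (nat_lit 351) (nat_lit 341)) (XT.lf (nat_lit 0) (nat_lit 1353135030) (nat_lit 252) (nat_lit 5256607302) (nat_lit 84) (nat_lit 6463216390) (nat_lit 40) (nat_lit 5) (nat_lit 43) (nat_lit 5) (nat_lit 41) (nat_lit 4) (nat_lit 389) (nat_lit 351) (nat_lit 340))) (XT.nd (nat_lit 94) (nat_lit 336) (nat_lit 0) (XT.lf (nat_lit 0) (nat_lit 10214032065) (nat_lit 168) (nat_lit 1273097228) (nat_lit 0) (nat_lit 2140467727) (nat_lit 39) (nat_lit 5) (nat_lit 41) (nat_lit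 4) (nat_lit 39) (nat_lit 4) (nat_lit 390) (nat_lit 351) (nat_lit 339)) (XT.lf (nat_lit 0) (nat_lit 2938160221) (nat_lit 84) (nat_lit 2625570190) (nat_lit 168) (nat_lit 8649317759) (nat_lit 35) (nat_lit 5) (nat_lit 36) (nat_lit 5) (nat_lit 37) (nat_lit 4) (nat_lit 391) (nat_lit 351) (nat_lit 338))))) (XT.nd (nat_lit 282) (nat_lit 504) (nat_lit 0) (XT.nd (nat_lit 94) (nat_lit 420) (nat_lit 0) (XT.lf (nat_lit 0) (nat_lit 463073154) (nat_lit 252) (nat_lit 7462348075) (nat_lit 84) (nat_lit 6908109060) (nat_lit 32) (nat_lit 5) (nat_lit 35) (nat_lit 5) (nat_lit 33) (nat_lit 4) (nat_lit 392) (nat_lit 351) (nat_lit 337)) (XT.nd (nat_lit 94) (nat_lit 336) (nat_lit 0) (XT.lf (nat_lit 0) (nat_lit 10136110200) (nat_lit 168) (nat_lit 3535026906) (nat_lit 0) (nat_lit 1818690026) (nat_lit 31) (nat_lit 5) (nat_lit 33) (nat_lit 4) (nat_lit 31) (nat_lit 4) (nat_lit 393) (nat_lit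 351) (nat_lit 336)) (XT.lf (nat_lit 0) (nat_lit 552355694) (nat_lit 84) (nat_lit 3912723229) (nat_lit 168) (nat_lit 11719074019) (nat_lit 27) (nat_lit 5) (nat_lit 28) (nat_lit 5) (nat_lit 29) (nat_lit 4) (nat_lit 394) (nat_lit 351) (nat_lit 335)))) (XT.nd (nat_lit 188) (nat_lit 252) (nat_lit 0) (XT.nd (nat_lit 94) (nat_lit 168) (nat_lit 0) (XT.lf (nat_lit 0) (nat_lit 4929494500) (nat_lit 84) (nat_lit 10214321794) (nat_lit 84) (nat_lit 1772719930) (nat_lit 26) (nat_lit 4) (nat_lit 27) (nat_lit 5) (nat_lit 27) (nat_lit 4) (nat_lit 395) (nat_lit 351) (nat_lit 334)) (XT.lf (nat_lit 0) (nat_lit 8869109847) (nat_lit 168) (nat_lit 8213131607) (nat_lit 0) (nat_lit 608924770) (nat_lit 24) (nat_lit 5) (nat_lit 26) (nat_lit 4) (nat_lit 24) (nat_lit 4) (nat_lit 396) (nat_lit 351) (nat_lit 333))) (XT.nd (nat_lit 94) (nat_lit 84) (nat_lit 0) (XT.lf (nat_lit 0) (nat_lit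 2025562027) (nat_lit 168) (nat_lit 4312009082) (nat_lit 84) (nat_lit 12171934124) (nat_lit 22) (nat_lit 5) (nat_lit 24) (nat_lit 5) (nat_lit 23) (nat_lit 4) (nat_lit 397) (nat_lit 351) (nat_lit 332)) (XT.lf (nat_lit 0) (nat_lit 13673773836) (nat_lit 168) (nat_lit 267876857) (nat_lit 0) (nat_lit 5432336183) (nat_lit 21) (nat_lit 5) (nat_lit 23) (nat_lit 4) (nat_lit 21) (nat_lit 4) (nat_lit 398) (nat_lit 351) (nat_lit 331)))))) (XT.nd (nat_lit 658) (nat_lit 672) (nat_lit 0) (XT.nd (nat_lit 282) (nat_lit 588) (nat_lit 0) (XT.nd (nat_lit 94) (nat_lit 252) (nat_lit 0) (XT.lf (nat_lit 0) (nat_lit 4101169043) (nat_lit 84) (nat_lit 2000957807) (nat_lit 168) (nat_lit 14183546981) (nat_lit 18) (nat_lit 5) (nat_lit 19) (nat_lit 5) (nat_lit 20) (nat_lit 4) (nat_lit 399) (nat_lit 351) (nat_lit 330)) (XT.nd (nat_lit 94) (nat_lit 168) (nat_lit 0) (XT.lf (nat_lit 0) (nat_lit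 8635372745) (nat_lit 84) (nat_lit 10383306892) (nat_lit 84) (nat_lit 2228457130) (nat_lit 17) (nat_lit 4) (nat_lit 18) (nat_lit 5) (nat_lit 18) (nat_lit 4) (nat_lit 400) (nat_lit 351) (nat_lit 329)) (XT.lf (nat_lit 0) (nat_lit 10632845344) (nat_lit 168) (nat_lit 8893096221) (nat_lit 0) (nat_lit 2736649091) (nat_lit 15) (nat_lit 5) (nat_lit 17) (nat_lit 4) (nat_lit 15) (nat_lit 4) (nat_lit 401) (nat_lit 351) (nat_lit 328)))) (XT.nd (nat_lit 188) (nat_lit 336) (nat_lit 0) (XT.nd (nat_lit 94) (nat_lit 84) (nat_lit 0) (XT.lf (nat_lit 0) (nat_lit 1471926409) (nat_lit 168) (nat_lit 4998814400) (nat_lit 84) (nat_lit 16864903954) (nat_lit 13) (nat_lit 5) (nat_lit 15) (nat_lit 5) (nat_lit 14) (nat_lit 4) (nat_lit 402) (nat_lit 351) (nat_lit 327)) (XT.lf (nat_lit 0) (nat_lit 15606883737) (nat_lit 168) (nat_lit 992029222) (nat_lit 0) (nat_lit 7866467589) (nat_lit 12)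 (nat_lit 5) (nat_lit 14) (nat_lit 4) (nat_lit 12) (nat_lit 4) (nat_lit 403) (nat_lit 351) (nat_lit 326))) (XT.nd (nat_lit 94) (nat_lit 84) (nat_lit 0) (XT.lf (nat_lit 0) (nat_lit 3381933815) (nat_lit 84) (nat_lit 2091425445) (nat_lit 168) (nat_lit 20185474755) (nat_lit 9) (nat_lit 5) (nat_lit 10) (nat_lit 5) (nat_lit 11) (nat_lit 4) (nat_lit 404) (nat_lit 351) (nat_lit 325)) (XT.lf (nat_lit 0) (nat_lit 7910684396) (nat_lit 84) (nat_lit 13277072838) (nat_lit 84) (nat_lit 5725427862) (nat_lit 8) (nat_lit 4) (nat_lit 9) (nat_lit 5) (nat_lit 9) (nat_lit 4) (nat_lit 405) (nat_lit 351) (nat_lit 324))))) (XT.nd (nat_lit 282) (nat_lit 252) (nat_lit 0) (XT.nd (nat_lit 94) (nat_lit 252) (nat_lit 0) (XT.lf (nat_lit 0) (nat_lit 9992798767) (nat_lit 168) (nat_lit 15521946054) (nat_lit 0) (nat_lit 2724519638) (nat_lit 6) (nat_lit 5) (nat_lit 8) (nat_lit 4) (nat_lit 6) (nat_lit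 4) (nat_lit 406) (nat_lit 351) (nat_lit 323)) (XT.nd (nat_lit 94) (nat_lit 168) (nat_lit 0) (XT.lf (nat_lit 0) (nat_lit 17744989622) (nat_lit 84) (nat_lit 9615493173) (nat_lit 84) (nat_lit 2276624882) (nat_lit 5) (nat_lit 4) (nat_lit 6) (nat_lit 5) (nat_lit 6) (nat_lit 4) (nat_lit 407) (nat_lit 351) (nat_lit 322)) (XT.lf (nat_lit 0) (nat_lit 15015378318) (nat_lit 168) (nat_lit 8129794503) (nat_lit 0) (nat_lit 7963732007) (nat_lit 3) (nat_lit 5) (nat_lit 5) (nat_lit 4) (nat_lit 3) (nat_lit 4) (nat_lit 408) (nat_lit 351) (nat_lit 321)))) (XT.nd (nat_lit 188) (nat_lit 0) (nat_lit 0) (XT.nd (nat_lit 94) (nat_lit 84) (nat_lit 0) (XT.lf (nat_lit 0) (nat_lit 1481943854) (nat_lit 168) (nat_lit 4071298389) (nat_lit 84) (nat_lit 27112783100) (nat_lit 1) (nat_lit 5) (nat_lit 3) (nat_lit 5) (nat_lit 2) (nat_lit 4) (nat_lit 409) (nat_lit 351) (nat_lit 320)) (XT.lf (nat_lit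 0) (nat_lit 50943125408) (nat_lit 0) (nat_lit 0) (nat_lit 0) (nat_lit 0) (nat_lit 0) (nat_lit 0) (nat_lit 1) (nat_lit 0) (nat_lit 1) (nat_lit 0) (nat_lit 410) (nat_lit 351) (nat_lit 319))) (XT.nd (nat_lit 94) (nat_lit 0) (nat_lit 0) (XT.lf (nat_lit 0) (nat_lit 54968553305) (nat_lit 0) (nat_lit 0) (nat_lit 0) (nat_lit 0) (nat_lit 0) (nat_lit 0) (nat_lit 1) (nat_lit 0) (nat_lit 1) (nat_lit 0) (nat_lit 411) (nat_lit 351) (nat_lit 318)) (XT.lf (nat_lit 0) (nat_lit 59316537735) (nat_lit 0) (nat_lit 0) (nat_lit 0) (nat_lit 0) (nat_lit 0) (nat_lit 0) (nat_lit 1) (nat_lit 0) (nat_lit 1) (nat_lit 0) (nat_lit 412) (nat_lit 351) (nat_lit 317))))))) (XT.nd (nat_lit 1316) (nat_lit 0) (nat_lit 0) (XT.nd (nat_lit 658) (nat_lit 0) (nat_lit 0) (XT.nd (nat_lit 282) (nat_lit 0) (nat_lit 0) (XT.nd (nat_lit 94) (nat_lit 0) (nat_lit 0) (XT.lf (nat_lit 0) (nat_lit 64012844532) (nat_lit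 0) (nat_lit 0) (nat_lit 0) (nat_lit 0) (nat_lit 0) (nat_lit 0) (nat_lit 1) (nat_lit 0) (nat_lit 1) (nat_lit 0) (nat_lit 413) (nat_lit 351) (nat_lit 316)) (XT.nd (nat_lit 94) (nat_lit 0) (nat_lit 0) (XT.lf (nat_lit 0) (nat_lit 69085303664) (nat_lit 0) (nat_lit 0) (nat_lit 0) (nat_lit 0) (nat_lit 0) (nat_lit 0) (nat_lit 1) (nat_lit 0) (nat_lit 1) (nat_lit 0) (nat_lit 414) (nat_lit 351) (nat_lit 315)) (XT.lf (nat_lit 0) (nat_lit 74563974146) (nat_lit 0) (nat_lit 0) (nat_lit 0) (nat_lit 0) (nat_lit 0) (nat_lit 0) (nat_lit 1) (nat_lit 0) (nat_lit 1) (nat_lit 0) (nat_lit 415) (nat_lit 351) (nat_lit 314)))) (XT.nd (nat_lit 188) (nat_lit 0) (nat_lit 0) (XT.nd (nat_lit 94) (nat_lit 0) (nat_lit 0) (XT.lf (nat_lit 0) (nat_lit 80481322174) (nat_lit 0) (nat_lit 0) (nat_lit 0) (nat_lit 0) (nat_lit 0) (nat_lit 0) (nat_lit 1) (nat_lit 0) (nat_lit 1) (nat_lit 0) (nat_lit 416)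 (nat_lit 351) (nat_lit 313)) (XT.lf (nat_lit 0) (nat_lit 86872413514) (nat_lit 0) (nat_lit 0) (nat_lit 0) (nat_lit 0) (nat_lit 0) (nat_lit 0) (nat_lit 1) (nat_lit 0) (nat_lit 1) (nat_lit 0) (nat_lit 417) (nat_lit 351) (nat_lit 312))) (XT.nd (nat_lit 94) (nat_lit 0) (nat_lit 0) (XT.lf (nat_lit 0) (nat_lit 93775121300) (nat_lit 0) (nat_lit 0) (nat_lit 0) (nat_lit 0) (nat_lit 0) (nat_lit 0) (nat_lit 1) (nat_lit 0) (nat_lit 1) (nat_lit 0) (nat_lit 418) (nat_lit 351) (nat_lit 311)) (XT.lf (nat_lit 0) (nat_lit 101230350468) (nat_lit 0) (nat_lit 0) (nat_lit 0) (nat_lit 0) (nat_lit 0) (nat_lit 0) (nat_lit 1) (nat_lit 0) (nat_lit 1) (nat_lit 0) (nat_lit 419) (nat_lit 351) (nat_lit 310))))) (XT.nd (nat_lit 282) (nat_lit 0) (nat_lit 0) (XT.nd (nat_lit 94) (nat_lit 0) (nat_lit 0) (XT.lf (nat_lit 0) (nat_lit 109282280152) (nat_lit 0) (nat_lit 0) (nat_lit 0) (nat_lit 0)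 (nat_lit 0) (nat_lit 0) (nat_lit 1) (nat_lit 0) (nat_lit 1) (nat_lit 0) (nat_lit 420) (nat_lit 351) (nat_lit 309)) (XT.nd (nat_lit 94) (nat_lit 0) (nat_lit 0) (XT.lf (nat_lit 0) (nat_lit 117978625492) (nat_lit 0) (nat_lit 0) (nat_lit 0) (nat_lit 0) (nat_lit 0) (nat_lit 0) (nat_lit 1) (nat_lit 0) (nat_lit 1) (nat_lit 0) (nat_lit 421) (nat_lit 351) (nat_lit 308)) (XT.lf (nat_lit 0) (nat_lit 127370920387) (nat_lit 0) (nat_lit 0) (nat_lit 0) (nat_lit 0) (nat_lit 0) (nat_lit 0) (nat_lit 1) (nat_lit 0) (nat_lit 1) (nat_lit 0) (nat_lit 422) (nat_lit 351) (nat_lit 307)))) (XT.nd (nat_lit 188) (nat_lit 0) (nat_lit 0) (XT.nd (nat_lit 94) (nat_lit 0) (nat_lit 0) (XT.lf (nat_lit 0) (nat_lit 137514822879) (nat_lit 0) (nat_lit 0) (nat_lit 0) (nat_lit 0) (nat_lit 0) (nat_lit 0) (nat_lit 1) (nat_lit 0) (nat_lit 1) (nat_lit 0) (nat_lit 423) (nat_lit 351) (nat_lit 306)) (XT.lf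 (nat_lit 0) (nat_lit 148470444984) (nat_lit 0) (nat_lit 0) (nat_lit 0) (nat_lit 0) (nat_lit 0) (nat_lit 0) (nat_lit 1) (nat_lit 0) (nat_lit 1) (nat_lit 0) (nat_lit 424) (nat_lit 351) (nat_lit 305))) (XT.nd (nat_lit 94) (nat_lit 0) (nat_lit 0) (XT.lf (nat_lit 0) (nat_lit 160302708906) (nat_lit 0) (nat_lit 0) (nat_lit 0) (nat_lit 0) (nat_lit 0) (nat_lit 0) (nat_lit 1) (nat_lit 0) (nat_lit 1) (nat_lit 0) (nat_lit 425) (nat_lit 351) (nat_lit 304)) (XT.lf (nat_lit 0) (nat_lit 173081731766) (nat_lit 0) (nat_lit 0) (nat_lit 0) (nat_lit 0) (nat_lit 0) (nat_lit 0) (nat_lit 1) (nat_lit 0) (nat_lit 1) (nat_lit 0) (nat_lit 426) (nat_lit 351) (nat_lit 303)))))) (XT.nd (nat_lit 658) (nat_lit 0) (nat_lit 0) (XT.nd (nat_lit 282) (nat_lit 0) (nat_lit 0) (XT.nd (nat_lit 94) (nat_lit 0) (nat_lit 0) (XT.lf (nat_lit 0) (nat_lit 186883241106) (nat_lit 0) (nat_lit 0) (nat_lit 0)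 (nat_lit 0) (nat_lit 0) (nat_lit 0) (nat_lit 1) (nat_lit 0) (nat_lit 1) (nat_lit 0) (nat_lit 427) (nat_lit 351) (nat_lit 302)) (XT.nd (nat_lit 94) (nat_lit 0) (nat_lit 0) (XT.lf (nat_lit 0) (nat_lit 201789023648) (nat_lit 0) (nat_lit 0) (nat_lit 0) (nat_lit 0) (nat_lit 0) (nat_lit 0) (nat_lit 1) (nat_lit 0) (nat_lit 1) (nat_lit 0) (nat_lit 428) (nat_lit 351) (nat_lit 301)) (XT.lf (nat_lit 0) (nat_lit 217887409956) (nat_lit 0) (nat_lit 0) (nat_lit 0) (nat_lit 0) (nat_lit 0) (nat_lit 0) (nat_lit 1) (nat_lit 0) (nat_lit 1) (nat_lit 0) (nat_lit 429) (nat_lit 351) (nat_lit 300)))) (XT.nd (nat_lit 188) (nat_lit 0) (nat_lit 0) (XT.nd (nat_lit 94) (nat_lit 0) (nat_lit 0) (XT.lf (nat_lit 0) (nat_lit 235273797874) (nat_lit 0) (nat_lit 0) (nat_lit 0) (nat_lit 0) (nat_lit 0) (nat_lit 0) (nat_lit 1) (nat_lit 0) (nat_lit 1) (nat_lit 0) (nat_lit 430) (nat_lit 351) (nat_lit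 299)) (XT.lf (nat_lit 0) (nat_lit 254051217849) (nat_lit 0) (nat_lit 0) (nat_lit 0) (nat_lit 0) (nat_lit 0) (nat_lit 0) (nat_lit 1) (nat_lit 0) (nat_lit 1) (nat_lit 0) (nat_lit 431) (nat_lit 351) (nat_lit 298))) (XT.nd (nat_lit 94) (nat_lit 0) (nat_lit 0) (XT.lf (nat_lit 0) (nat_lit 274330943481) (nat_lit 0) (nat_lit 0) (nat_lit 0) (nat_lit 0) (nat_lit 0) (nat_lit 0) (nat_lit 1) (nat_lit 0) (nat_lit 1) (nat_lit 0) (nat_lit 432) (nat_lit 351) (nat_lit 297)) (XT.lf (nat_lit 0) (nat_lit 296233150922) (nat_lit 0) (nat_lit 0) (nat_lit 0) (nat_lit 0) (nat_lit 0) (nat_lit 0) (nat_lit 1) (nat_lit 0) (nat_lit 1) (nat_lit 0) (nat_lit 433) (nat_lit 351) (nat_lit 296))))) (XT.nd (nat_lit 376) (nat_lit 0) (nat_lit 0) (XT.nd (nat_lit 188) (nat_lit 0) (nat_lit 0) (XT.nd (nat_lit 94) (nat_lit 0) (nat_lit 0) (XT.lf (nat_lit 0) (nat_lit 319887631030) (nat_lit 0) (nat_lit 0)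 (nat_lit 0) (nat_lit 0) (nat_lit 0) (nat_lit 0) (nat_lit 1) (nat_lit 0) (nat_lit 1) (nat_lit 0) (nat_lit 434) (nat_lit 351) (nat_lit 295)) (XT.lf (nat_lit 0) (nat_lit 345434558503) (nat_lit 0) (nat_lit 0) (nat_lit 0) (nat_lit 0) (nat_lit 0) (nat_lit 0) (nat_lit 1) (nat_lit 0) (nat_lit 1) (nat_lit 0) (nat_lit 435) (nat_lit 351) (nat_lit 294))) (XT.nd (nat_lit 94) (nat_lit 0) (nat_lit 0) (XT.lf (nat_lit 0) (nat_lit 373025322541) (nat_lit 0) (nat_lit 0) (nat_lit 0) (nat_lit 0) (nat_lit 0) (nat_lit 0) (nat_lit 1) (nat_lit 0) (nat_lit 1) (nat_lit 0) (nat_lit 436) (nat_lit 351) (nat_lit 293)) (XT.lf (nat_lit 0) (nat_lit 402823423967) (nat_lit 0) (nat_lit 0) (nat_lit 0) (nat_lit 0) (nat_lit 0) (nat_lit 0) (nat_lit 1) (nat_lit 0) (nat_lit 1) (nat_lit 0) (nat_lit 437) (nat_lit 351) (nat_lit 292)))) (XT.nd (nat_lit 188) (nat_lit 0) (nat_lit 0) (XT.nd (nat_lit 94) (nat_lit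 0) (nat_lit 0) (XT.lf (nat_lit 0) (nat_lit 435005444124) (nat_lit 0) (nat_lit 0) (nat_lit 0) (nat_lit 0) (nat_lit 0) (nat_lit 0) (nat_lit 1) (nat_lit 0) (nat_lit 1) (nat_lit 0) (nat_lit 438) (nat_lit 351) (nat_lit 291)) (XT.lf (nat_lit 0) (nat_lit 469762091278) (nat_lit 0) (nat_lit 0) (nat_lit 0) (nat_lit 0) (nat_lit 0) (nat_lit 0) (nat_lit 1) (nat_lit 0) (nat_lit 1) (nat_lit 0) (nat_lit 439) (nat_lit 351) (nat_lit 290))) (XT.nd (nat_lit 94) (nat_lit 0) (nat_lit 0) (XT.lf (nat_lit 0) (nat_lit 507299330746) (nat_lit 0) (nat_lit 0) (nat_lit 0) (nat_lit 0) (nat_lit 0) (nat_lit 0) (nat_lit 1) (nat_lit 0) (nat_lit 1) (nat_lit 0) (nat_lit 440) (nat_lit 351) (nat_lit 289)) (XT.lf (nat_lit 0) (nat_lit 547839605430) (nat_lit 0) (nat_lit 0) (nat_lit 0) (nat_lit 0) (nat_lit 0) (nat_lit 0) (nat_lit 1) (nat_lit 0) (nat_lit 1) (nat_lit 0) (nat_lit 441) (nat_lit 351) (nat_lit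 288))))))))
noncomputable def xc68 : XT := (XT.nd (nat_lit 2632) (nat_lit 0) (nat_lit 0) (XT.nd (nat_lit 1316) (nat_lit 0) (nat_lit 0) (XT.nd (nat_lit 658) (nat_lit 0) (nat_lit 0) (XT.nd (nat_lit 282) (nat_lit 0) (nat_lit 0) (XT.nd (nat_lit 94) (nat_lit 0) (nat_lit 0) (XT.lf (nat_lit 0) (nat_lit 591623153993) (nat_lit 0) (nat_lit 0) (nat_lit 0) (nat_lit 0) (nat_lit 0) (nat_lit 0) (nat_lit 1) (nat_lit 0) (nat_lit 1) (nat_lit 0) (nat_lit 442) (nat_lit 351) (nat_lit 287)) (XT.nd (nat_lit 94) (nat_lit 0) (nat_lit 0) (XT.lf (nat_lit 0) (nat_lit 638909434501) (nat_lit 0) (nat_lit 0) (nat_lit 0) (nat_lit 0) (nat_lit 0) (nat_lit 0) (nat_lit 1) (nat_lit 0) (nat_lit 1) (nat_lit 0) (nat_lit 443) (nat_lit 351) (nat_lit 286)) (XT.lf (nat_lit 0) (nat_lit 689978661950) (nat_lit 0) (nat_lit 0) (nat_lit 0) (nat_lit 0) (nat_lit 0) (nat_lit 0) (nat_lit 1) (nat_lit 0) (nat_lit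 1) (nat_lit 0) (nat_lit 444) (nat_lit 351) (nat_lit 285)))) (XT.nd (nat_lit 188) (nat_lit 0) (nat_lit 0) (XT.nd (nat_lit 94) (nat_lit 0) (nat_lit 0) (XT.lf (nat_lit 0) (nat_lit 745133468799) (nat_lit 0) (nat_lit 0) (nat_lit 0) (nat_lit 0) (nat_lit 0) (nat_lit 0) (nat_lit 1) (nat_lit 0) (nat_lit 1) (nat_lit 0) (nat_lit 445) (nat_lit 351) (nat_lit 284)) (XT.lf (nat_lit 0) (nat_lit 804700698348) (nat_lit 0) (nat_lit 0) (nat_lit 0) (nat_lit 0) (nat_lit 0) (nat_lit 0) (nat_lit 1) (nat_lit 0) (nat_lit 1) (nat_lit 0) (nat_lit 446) (nat_lit 351) (nat_lit 283))) (XT.nd (nat_lit 94) (nat_lit 0) (nat_lit 0) (XT.lf (nat_lit 0) (nat_lit 869033341586) (nat_lit 0) (nat_lit 0) (nat_lit 0) (nat_lit 0) (nat_lit 0) (nat_lit 0) (nat_lit 1) (nat_lit 0) (nat_lit 1) (nat_lit 0) (nat_lit 447) (nat_lit 351) (nat_lit 282)) (XT.lf (nat_lit 0) (nat_lit 938512628992) (nat_lit 0) (nat_lit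 0) (nat_lit 0) (nat_lit 0) (nat_lit 0) (nat_lit 0) (nat_lit 1) (nat_lit 0) (nat_lit 1) (nat_lit 0) (nat_lit 448) (nat_lit 351) (nat_lit 281))))) (XT.nd (nat_lit 282) (nat_lit 0) (nat_lit 0) (XT.nd (nat_lit 94) (nat_lit 0) (nat_lit 0) (XT.lf (nat_lit 0) (nat_lit 1013550289677) (nat_lit 0) (nat_lit 0) (nat_lit 0) (nat_lit 0) (nat_lit 0) (nat_lit 0) (nat_lit 1) (nat_lit 0) (nat_lit 1) (nat_lit 0) (nat_lit 449) (nat_lit 351) (nat_lit 280)) (XT.nd (nat_lit 94) (nat_lit 0) (nat_lit 0) (XT.lf (nat_lit 0) (nat_lit 1094590991259) (nat_lit 0) (nat_lit 0) (nat_lit 0) (nat_lit 0) (nat_lit 0) (nat_lit 0) (nat_lit 1) (nat_lit 0) (nat_lit 1) (nat_lit 0) (nat_lit 450) (nat_lit 351) (nat_lit 279)) (XT.lf (nat_lit 0) (nat_lit 1182114974933) (nat_lit 0) (nat_lit 0) (nat_lit 0) (nat_lit 0) (nat_lit 0) (nat_lit 0) (nat_lit 1) (nat_lit 0) (nat_lit 1) (nat_lit 0) (nat_lit 451) (nat_lit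 351) (nat_lit 278)))) (XT.nd (nat_lit 188) (nat_lit 0) (nat_lit 0) (XT.nd (nat_lit 94) (nat_lit 0) (nat_lit 0) (XT.lf (nat_lit 0) (nat_lit 1276640901343) (nat_lit 0) (nat_lit 0) (nat_lit 0) (nat_lit 0) (nat_lit 0) (nat_lit 0) (nat_lit 1) (nat_lit 0) (nat_lit 1) (nat_lit 0) (nat_lit 452) (nat_lit 351) (nat_lit 277)) (XT.lf (nat_lit 0) (nat_lit 1378728924127) (nat_lit 0) (nat_lit 0) (nat_lit 0) (nat_lit 0) (nat_lit 0) (nat_lit 0) (nat_lit 1) (nat_lit 0) (nat_lit 1) (nat_lit 0) (nat_lit 453) (nat_lit 351) (nat_lit 276))) (XT.nd (nat_lit 94) (nat_lit 0) (nat_lit 0) (XT.lf (nat_lit 0) (nat_lit 1488984009345) (nat_lit 0) (nat_lit 0) (nat_lit 0) (nat_lit 0) (nat_lit 0) (nat_lit 0) (nat_lit 1) (nat_lit 0) (nat_lit 1) (nat_lit 0) (nat_lit 454) (nat_lit 351) (nat_lit 275)) (XT.lf (nat_lit 0) (nat_lit 1608059520467) (nat_lit 0) (nat_lit 0) (nat_lit 0) (nat_lit 0) (nat_lit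 0) (nat_lit 0) (nat_lit 1) (nat_lit 0) (nat_lit 1) (nat_lit 0) (nat_lit 455) (nat_lit 351) (nat_lit 274)))))) (XT.nd (nat_lit 658) (nat_lit 0) (nat_lit 0) (XT.nd (nat_lit 282) (nat_lit 0) (nat_lit 0) (XT.nd (nat_lit 94) (nat_lit 0) (nat_lit 0) (XT.lf (nat_lit 0) (nat_lit 1736661090150) (nat_lit 0) (nat_lit 0) (nat_lit 0) (nat_lit 0) (nat_lit 0) (nat_lit 0) (nat_lit 1) (nat_lit 0) (nat_lit 1) (nat_lit 0) (nat_lit 456) (nat_lit 351) (nat_lit 273)) (XT.nd (nat_lit 94) (nat_lit 0) (nat_lit 0) (XT.lf (nat_lit 0) (nat_lit 1875550801770) (nat_lit 0) (nat_lit 0) (nat_lit 0) (nat_lit 0) (nat_lit 0) (nat_lit 0) (nat_lit 1) (nat_lit 0) (nat_lit 1) (nat_lit 0) (nat_lit 457) (nat_lit 351) (nat_lit 272)) (XT.lf (nat_lit 0) (nat_lit 2025551705471) (nat_lit 0) (nat_lit 0) (nat_lit 0) (nat_lit 0) (nat_lit 0) (nat_lit 0) (nat_lit 1) (nat_lit 0) (nat_lit 1) (nat_lit 0) (nat_lit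 458) (nat_lit 351) (nat_lit 271)))) (XT.nd (nat_lit 188) (nat_lit 0) (nat_lit 0) (XT.nd (nat_lit 94) (nat_lit 0) (nat_lit 0) (XT.lf (nat_lit 0) (nat_lit 2187552695496) (nat_lit 0) (nat_lit 0) (nat_lit 0) (nat_lit 0) (nat_lit 0) (nat_lit 0) (nat_lit 1) (nat_lit 0) (nat_lit 1) (nat_lit 0) (nat_lit 459) (nat_lit 351) (nat_lit 270)) (XT.lf (nat_lit 0) (nat_lit 2362513777712) (nat_lit 0) (nat_lit 0) (nat_lit 0) (nat_lit 0) (nat_lit 0) (nat_lit 0) (nat_lit 1) (nat_lit 0) (nat_lit 1) (nat_lit 0) (nat_lit 460) (nat_lit 351) (nat_lit 269))) (XT.nd (nat_lit 94) (nat_lit 0) (nat_lit 0) (XT.lf (nat_lit 0) (nat_lit 2551471758532) (nat_lit 0) (nat_lit 0) (nat_lit 0) (nat_lit 0) (nat_lit 0) (nat_lit 0) (nat_lit 1) (nat_lit 0) (nat_lit 1) (nat_lit 0) (nat_lit 461) (nat_lit 351) (nat_lit 268)) (XT.lf (nat_lit 0) (nat_lit 2755546388954) (nat_lit 0) (nat_lit 0) (nat_lit 0) (nat_lit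 0) (nat_lit 0) (nat_lit 0) (nat_lit 1) (nat_lit 0) (nat_lit 1) (nat_lit 0) (nat_lit 462) (nat_lit 351) (nat_lit 267))))) (XT.nd (nat_lit 282) (nat_lit 0) (nat_lit 0) (XT.nd (nat_lit 94) (nat_lit 0) (nat_lit 0) (XT.lf (nat_lit 0) (nat_lit 2975947000121) (nat_lit 0) (nat_lit 0) (nat_lit 0) (nat_lit 0) (nat_lit 0) (nat_lit 0) (nat_lit 1) (nat_lit 0) (nat_lit 1) (nat_lit 0) (nat_lit 463) (nat_lit 351) (nat_lit 266)) (XT.nd (nat_lit 94) (nat_lit 0) (nat_lit 0) (XT.lf (nat_lit 0) (nat_lit 3213979669729) (nat_lit 0) (nat_lit 0) (nat_lit 0) (nat_lit 0) (nat_lit 0) (nat_lit 0) (nat_lit 1) (nat_lit 0) (nat_lit 1) (nat_lit 0) (nat_lit 464) (nat_lit 351) (nat_lit 265)) (XT.lf (nat_lit 0) (nat_lit 3471054961745) (nat_lit 0) (nat_lit 0) (nat_lit 0) (nat_lit 0) (nat_lit 0) (nat_lit 0) (nat_lit 1) (nat_lit 0) (nat_lit 1) (nat_lit 0) (nat_lit 465) (nat_lit 351) (nat_lit 264))))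 (XT.nd (nat_lit 188) (nat_lit 0) (nat_lit 0) (XT.nd (nat_lit 94) (nat_lit 0) (nat_lit 0) (XT.lf (nat_lit 0) (nat_lit 3748696285309) (nat_lit 0) (nat_lit 0) (nat_lit 0) (nat_lit 0) (nat_lit 0) (nat_lit 0) (nat_lit 1) (nat_lit 0) (nat_lit 1) (nat_lit 0) (nat_lit 466) (nat_lit 351) (nat_lit 263)) (XT.lf (nat_lit 0) (nat_lit 4048548922336) (nat_lit 0) (nat_lit 0) (nat_lit 0) (nat_lit 0) (nat_lit 0) (nat_lit 0) (nat_lit 1) (nat_lit 0) (nat_lit 1) (nat_lit 0) (nat_lit 467) (nat_lit 351) (nat_lit 262))) (XT.nd (nat_lit 94) (nat_lit 0) (nat_lit 0) (XT.lf (nat_lit 0) (nat_lit 4372389777344) (nat_lit 0) (nat_lit 0) (nat_lit 0) (nat_lit 0) (nat_lit 0) (nat_lit 0) (nat_lit 1) (nat_lit 0) (nat_lit 1) (nat_lit 0) (nat_lit 468) (nat_lit 351) (nat_lit 261)) (XT.lf (nat_lit 0) (nat_lit 4722137907249) (nat_lit 0) (nat_lit 0) (nat_lit 0) (nat_lit 0) (nat_lit 0) (nat_lit 0) (nat_lit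 1) (nat_lit 0) (nat_lit 1) (nat_lit 0) (nat_lit 469) (nat_lit 351) (nat_lit 260))))))) (XT.nd (nat_lit 1316) (nat_lit 0) (nat_lit 0) (XT.nd (nat_lit 658) (nat_lit 0) (nat_lit 0) (XT.nd (nat_lit 282) (nat_lit 0) (nat_lit 0) (XT.nd (nat_lit 94) (nat_lit 0) (nat_lit 0) (XT.lf (nat_lit 0) (nat_lit 5099865893564) (nat_lit 0) (nat_lit 0) (nat_lit 0) (nat_lit 0) (nat_lit 0) (nat_lit 0) (nat_lit 1) (nat_lit 0) (nat_lit 1) (nat_lit 0) (nat_lit 470) (nat_lit 351) (nat_lit 259)) (XT.nd (nat_lit 94) (nat_lit 0) (nat_lit 0) (XT.lf (nat_lit 0) (nat_lit 5507812124355) (nat_lit 0) (nat_lit 0) (nat_lit 0) (nat_lit 0) (nat_lit 0) (nat_lit 0) (nat_lit 1) (nat_lit 0) (nat_lit 1) (nat_lit 0) (nat_lit 471) (nat_lit 351) (nat_lit 258)) (XT.lf (nat_lit 0) (nat_lit 5948394058767) (nat_lit 0) (nat_lit 0) (nat_lit 0) (nat_lit 0) (nat_lit 0) (nat_lit 0) (nat_lit 1) (nat_lit 0) (nat_lit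 1) (nat_lit 0) (nat_lit 472) (nat_lit 351) (nat_lit 257)))) (XT.nd (nat_lit 188) (nat_lit 0) (nat_lit 0) (XT.nd (nat_lit 94) (nat_lit 0) (nat_lit 0) (XT.lf (nat_lit 0) (nat_lit 6424222552708) (nat_lit 0) (nat_lit 0) (nat_lit 0) (nat_lit 0) (nat_lit 0) (nat_lit 0) (nat_lit 1) (nat_lit 0) (nat_lit 1) (nat_lit 0) (nat_lit 473) (nat_lit 351) (nat_lit 256)) (XT.lf (nat_lit 0) (nat_lit 6938117330587) (nat_lit 0) (nat_lit 0) (nat_lit 0) (nat_lit 0) (nat_lit 0) (nat_lit 0) (nat_lit 1) (nat_lit 0) (nat_lit 1) (nat_lit 0) (nat_lit 474) (nat_lit 351) (nat_lit 255))) (XT.nd (nat_lit 94) (nat_lit 0) (nat_lit 0) (XT.lf (nat_lit 0) (nat_lit 7493123694791) (nat_lit 0) (nat_lit 0) (nat_lit 0) (nat_lit 0) (nat_lit 0) (nat_lit 0) (nat_lit 1) (nat_lit 0) (nat_lit 1) (nat_lit 0) (nat_lit 475) (nat_lit 351) (nat_lit 254)) (XT.lf (nat_lit 0) (nat_lit 8092530571922) (nat_lit 0) (nat_lit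 0) (nat_lit 0) (nat_lit 0) (nat_lit 0) (nat_lit 0) (nat_lit 1) (nat_lit 0) (nat_lit 1) (nat_lit 0) (nat_lit 476) (nat_lit 351) (nat_lit 253))))) (XT.nd (nat_lit 282) (nat_lit 0) (nat_lit 0) (XT.nd (nat_lit 94) (nat_lit 0) (nat_lit 0) (XT.lf (nat_lit 0) (nat_lit 8739890002735) (nat_lit 0) (nat_lit 0) (nat_lit 0) (nat_lit 0) (nat_lit 0) (nat_lit 0) (nat_lit 1) (nat_lit 0) (nat_lit 1) (nat_lit 0) (nat_lit 477) (nat_lit 351) (nat_lit 252)) (XT.nd (nat_lit 94) (nat_lit 0) (nat_lit 0) (XT.lf (nat_lit 0) (nat_lit 9439038191263) (nat_lit 0) (nat_lit 0) (nat_lit 0) (nat_lit 0) (nat_lit 0) (nat_lit 0) (nat_lit 1) (nat_lit 0) (nat_lit 1) (nat_lit 0) (nat_lit 478) (nat_lit 351) (nat_lit 251)) (XT.lf (nat_lit 0) (nat_lit 10194118237883) (nat_lit 0) (nat_lit 0) (nat_lit 0) (nat_lit 0) (nat_lit 0) (nat_lit 0) (nat_lit 1) (nat_lit 0) (nat_lit 1) (nat_lit 0) (nat_lit 479)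 (nat_lit 351) (nat_lit 250)))) (XT.nd (nat_lit 188) (nat_lit 0) (nat_lit 0) (XT.nd (nat_lit 94) (nat_lit 0) (nat_lit 0) (XT.lf (nat_lit 0) (nat_lit 11009604691020) (nat_lit 0) (nat_lit 0) (nat_lit 0) (nat_lit 0) (nat_lit 0) (nat_lit 0) (nat_lit 1) (nat_lit 0) (nat_lit 1) (nat_lit 0) (nat_lit 480) (nat_lit 351) (nat_lit 249)) (XT.lf (nat_lit 0) (nat_lit 11890330062987) (nat_lit 0) (nat_lit 0) (nat_lit 0) (nat_lit 0) (nat_lit 0) (nat_lit 0) (nat_lit 1) (nat_lit 0) (nat_lit 1) (nat_lit 0) (nat_lit 481) (nat_lit 351) (nat_lit 248))) (XT.nd (nat_lit 94) (nat_lit 0) (nat_lit 0) (XT.lf (nat_lit 0) (nat_lit 12841513467102) (nat_lit 0) (nat_lit 0) (nat_lit 0) (nat_lit 0) (nat_lit 0) (nat_lit 0) (nat_lit 1) (nat_lit 0) (nat_lit 1) (nat_lit 0) (nat_lit 482) (nat_lit 351) (nat_lit 247)) (XT.lf (nat_lit 0) (nat_lit 13868791545758) (nat_lit 0) (nat_lit 0) (nat_lit 0) (nat_lit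 0) (nat_lit 0) (nat_lit 0) (nat_lit 1) (nat_lit 0) (nat_lit 1) (nat_lit 0) (nat_lit 483) (nat_lit 351) (nat_lit 246)))))) (XT.nd (nat_lit 658) (nat_lit 0) (nat_lit 0) (XT.nd (nat_lit 282) (nat_lit 0) (nat_lit 0) (XT.nd (nat_lit 94) (nat_lit 0) (nat_lit 0) (XT.lf (nat_lit 0) (nat_lit 14978251872755) (nat_lit 0) (nat_lit 0) (nat_lit 0) (nat_lit 0) (nat_lit 0) (nat_lit 0) (nat_lit 1) (nat_lit 0) (nat_lit 1) (nat_lit 0) (nat_lit 484) (nat_lit 351) (nat_lit 245)) (XT.nd (nat_lit 94) (nat_lit 0) (nat_lit 0) (XT.lf (nat_lit 0) (nat_lit 16176469027808) (nat_lit 0) (nat_lit 0) (nat_lit 0) (nat_lit 0) (nat_lit 0) (nat_lit 0) (nat_lit 1) (nat_lit 0) (nat_lit 1) (nat_lit 0) (nat_lit 485) (nat_lit 351) (nat_lit 244)) (XT.lf (nat_lit 0) (nat_lit 17470543557021) (nat_lit 0) (nat_lit 0) (nat_lit 0) (nat_lit 0) (nat_lit 0) (nat_lit 0) (nat_lit 1) (nat_lit 0) (nat_lit 1) (nat_lit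 0) (nat_lit 486) (nat_lit 351) (nat_lit 243)))) (XT.nd (nat_lit 188) (nat_lit 0) (nat_lit 0) (XT.nd (nat_lit 94) (nat_lit 0) (nat_lit 0) (XT.lf (nat_lit 0) (nat_lit 18868144050198) (nat_lit 0) (nat_lit 0) (nat_lit 0) (nat_lit 0) (nat_lit 0) (nat_lit 0) (nat_lit 1) (nat_lit 0) (nat_lit 1) (nat_lit 0) (nat_lit 487) (nat_lit 351) (nat_lit 242)) (XT.lf (nat_lit 0) (nat_lit 20377552584335) (nat_lit 0) (nat_lit 0) (nat_lit 0) (nat_lit 0) (nat_lit 0) (nat_lit 0) (nat_lit 1) (nat_lit 0) (nat_lit 1) (nat_lit 0) (nat_lit 488) (nat_lit 351) (nat_lit 241))) (XT.nd (nat_lit 94) (nat_lit 0) (nat_lit 0) (XT.lf (nat_lit 0) (nat_lit 22007713802596) (nat_lit 0) (nat_lit 0) (nat_lit 0) (nat_lit 0) (nat_lit 0) (nat_lit 0) (nat_lit 1) (nat_lit 0) (nat_lit 1) (nat_lit 0) (nat_lit 489) (nat_lit 351) (nat_lit 240)) (XT.lf (nat_lit 0) (nat_lit 23768287919610) (nat_lit 0) (nat_lit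 0) (nat_lit 0) (nat_lit 0) (nat_lit 0) (nat_lit 0) (nat_lit 1) (nat_lit 0) (nat_lit 1) (nat_lit 0) (nat_lit 490) (nat_lit 351) (nat_lit 239))))) (XT.nd (nat_lit 282) (nat_lit 0) (nat_lit 0) (XT.nd (nat_lit 94) (nat_lit 0) (nat_lit 0) (XT.lf (nat_lit 0) (nat_lit 25669707967179) (nat_lit 0) (nat_lit 0) (nat_lit 0) (nat_lit 0) (nat_lit 0) (nat_lit 0) (nat_lit 1) (nat_lit 0) (nat_lit 1) (nat_lit 0) (nat_lit 491) (nat_lit 351) (nat_lit 238)) (XT.nd (nat_lit 94) (nat_lit 0) (nat_lit 0) (XT.lf (nat_lit 0) (nat_lit 27723241619661) (nat_lit 0) (nat_lit 0) (nat_lit 0) (nat_lit 0) (nat_lit 0) (nat_lit 0) (nat_lit 1) (nat_lit 0) (nat_lit 1) (nat_lit 0) (nat_lit 492) (nat_lit 351) (nat_lit 237)) (XT.lf (nat_lit 0) (nat_lit 29941057965366) (nat_lit 0) (nat_lit 0) (nat_lit 0) (nat_lit 0) (nat_lit 0) (nat_lit 0) (nat_lit 1) (nat_lit 0) (nat_lit 1) (nat_lit 0) (nat_lit 493)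 (nat_lit 351) (nat_lit 236)))) (XT.nd (nat_lit 56776) (nat_lit 0) (nat_lit 6720) (XT.nd (nat_lit 56682) (nat_lit 0) (nat_lit 7728) (XT.lf (nat_lit 0) (nat_lit 32336299619676) (nat_lit 0) (nat_lit 0) (nat_lit 0) (nat_lit 0) (nat_lit 0) (nat_lit 0) (nat_lit 1) (nat_lit 0) (nat_lit 1) (nat_lit 0) (nat_lit 494) (nat_lit 351) (nat_lit 235)) (XT.lf (nat_lit 0) (nat_lit 3185032034) (nat_lit 336) (nat_lit 477749783) (nat_lit 336) (nat_lit 477749783) (nat_lit 92) (nat_lit 4) (nat_lit 96) (nat_lit 5) (nat_lit 96) (nat_lit 4) (nat_lit 376) (nat_lit 352) (nat_lit 352))) (XT.nd (nat_lit 94) (nat_lit 336) (nat_lit 0) (XT.lf (nat_lit 0) (nat_lit 1106682583) (nat_lit 336) (nat_lit 4538837446) (nat_lit 336) (nat_lit 2876865777) (nat_lit 84) (nat_lit 4) (nat_lit 88) (nat_lit 5) (nat_lit 88) (nat_lit 4) (nat_lit 377) (nat_lit 352) (nat_lit 351)) (XT.lf (nat_lit 0) (nat_lit 3714250720)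 (nat_lit 336) (nat_lit 4404950413) (nat_lit 0) (nat_lit 665837076) (nat_lit 80) (nat_lit 5) (nat_lit 84) (nat_lit 4) (nat_lit 80) (nat_lit 4) (nat_lit 378) (nat_lit 352) (nat_lit 350))))))))
noncomputable def xc69 : XT := (XT.nd (nat_lit 2632) (nat_lit 672) (nat_lit 0) (XT.nd (nat_lit 1316) (nat_lit 2268) (nat_lit 0) (XT.nd (nat_lit 658) (nat_lit 1512) (nat_lit 0) (XT.nd (nat_lit 282) (nat_lit 1176) (nat_lit 0) (XT.nd (nat_lit 94) (nat_lit 756) (nat_lit 0) (XT.lf (nat_lit 0) (nat_lit 1532350341) (nat_lit 336) (nat_lit 1264117185) (nat_lit 84) (nat_lit 6272570172) (nat_lit 76) (nat_lit 5) (nat_lit 80) (nat_lit 5) (nat_lit 77) (nat_lit 4) (nat_lit 379) (nat_lit 352) (nat_lit 349)) (XT.nd (nat_lit 94) (nat_lit 252) (nat_lit 0) (XT.lf (nat_lit 0) (nat_lit 2095984975) (nat_lit 252) (nat_lit 6335337399) (nat_lit 252) (nat_lit 943016446) (nat_lit 70) (nat_lit 4)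 (nat_lit 73) (nat_lit 5) (nat_lit 73) (nat_lit 4) (nat_lit 380) (nat_lit 352) (nat_lit 348)) (XT.lf (nat_lit 0) (nat_lit 5652804579) (nat_lit 168) (nat_lit 275562077) (nat_lit 252) (nat_lit 3773476573) (nat_lit 67) (nat_lit 5) (nat_lit 69) (nat_lit 5) (nat_lit 70) (nat_lit 4) (nat_lit 381) (nat_lit 352) (nat_lit 347)))) (XT.nd (nat_lit 188) (nat_lit 420) (nat_lit 0) (XT.nd (nat_lit 94) (nat_lit 420) (nat_lit 0) (XT.lf (nat_lit 0) (nat_lit 3153689990) (nat_lit 336) (nat_lit 702837589) (nat_lit 84) (nat_lit 6195879456) (nat_lit 63) (nat_lit 5) (nat_lit 67) (nat_lit 5) (nat_lit 64) (nat_lit 4) (nat_lit 382) (nat_lit 352) (nat_lit 346)) (XT.lf (nat_lit 0) (nat_lit 84181750) (nat_lit 252) (nat_lit 7515636912) (nat_lit 84) (nat_lit 2827461979) (nat_lit 58) (nat_lit 5) (nat_lit 61) (nat_lit 5) (nat_lit 59) (nat_lit 4) (nat_lit 383) (nat_lit 352) (nat_lit 345))) (XT.nd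 (nat_lit 94) (nat_lit 252) (nat_lit 0) (XT.lf (nat_lit 0) (nat_lit 6673057549) (nat_lit 168) (nat_lit 721614770) (nat_lit 252) (nat_lit 3431284264) (nat_lit 56) (nat_lit 5) (nat_lit 58) (nat_lit 5) (nat_lit 59) (nat_lit 4) (nat_lit 384) (nat_lit 352) (nat_lit 344)) (XT.lf (nat_lit 0) (nat_lit 3958046049) (nat_lit 252) (nat_lit 671467298) (nat_lit 84) (nat_lit 6621181215) (nat_lit 53) (nat_lit 5) (nat_lit 56) (nat_lit 5) (nat_lit 54) (nat_lit 4) (nat_lit 385) (nat_lit 352) (nat_lit 343))))) (XT.nd (nat_lit 282) (nat_lit 756) (nat_lit 0) (XT.nd (nat_lit 94) (nat_lit 336) (nat_lit 0) (XT.lf (nat_lit 0) (nat_lit 181464811) (nat_lit 252) (nat_lit 8615506707) (nat_lit 84) (nat_lit 2905873732) (nat_lit 48) (nat_lit 5) (nat_lit 51) (nat_lit 5) (nat_lit 49) (nat_lit 4) (nat_lit 386) (nat_lit 352) (nat_lit 342)) (XT.nd (nat_lit 94) (nat_lit 252) (nat_lit 0) (XT.lf (nat_lit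 0) (nat_lit 6982081572) (nat_lit 84) (nat_lit 1088181131) (nat_lit 168) (nat_lit 4111314992) (nat_lit 47) (nat_lit 5) (nat_lit 48) (nat_lit 5) (nat_lit 49) (nat_lit 4) (nat_lit 387) (nat_lit 352) (nat_lit 341)) (XT.lf (nat_lit 0) (nat_lit 3878039113) (nat_lit 252) (nat_lit 1663212873) (nat_lit 84) (nat_lit 7148766968) (nat_lit 44) (nat_lit 5) (nat_lit 47) (nat_lit 5) (nat_lit 45) (nat_lit 4) (nat_lit 388) (nat_lit 352) (nat_lit 340)))) (XT.nd (nat_lit 188) (nat_lit 336) (nat_lit 0) (XT.nd (nat_lit 94) (nat_lit 168) (nat_lit 0) (XT.lf (nat_lit 0) (nat_lit 2115510953) (nat_lit 168) (nat_lit 10358407091) (nat_lit 168) (nat_lit 756276693) (nat_lit 41) (nat_lit 4) (nat_lit 43) (nat_lit 5) (nat_lit 43) (nat_lit 4) (nat_lit 389) (nat_lit 352) (nat_lit 339)) (XT.lf (nat_lit 0) (nat_lit 6057381034) (nat_lit 84) (nat_lit 1783170359) (nat_lit 168) (nat_lit 5959285748)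 (nat_lit 39) (nat_lit 5) (nat_lit 40) (nat_lit 5) (nat_lit 41) (nat_lit 4) (nat_lit 390) (nat_lit 352) (nat_lit 338))) (XT.nd (nat_lit 94) (nat_lit 84) (nat_lit 0) (XT.lf (nat_lit 0) (nat_lit 2763132662) (nat_lit 252) (nat_lit 4239130241) (nat_lit 84) (nat_lit 7401830475) (nat_lit 36) (nat_lit 5) (nat_lit 39) (nat_lit 5) (nat_lit 37) (nat_lit 4) (nat_lit 391) (nat_lit 352) (nat_lit 337)) (XT.lf (nat_lit 0) (nat_lit 12107283548) (nat_lit 168) (nat_lit 584199811) (nat_lit 0) (nat_lit 2353685930) (nat_lit 35) (nat_lit 5) (nat_lit 37) (nat_lit 4) (nat_lit 35) (nat_lit 4) (nat_lit 392) (nat_lit 352) (nat_lit 336)))))) (XT.nd (nat_lit 658) (nat_lit 1008) (nat_lit 0) (XT.nd (nat_lit 282) (nat_lit 588) (nat_lit 0) (XT.nd (nat_lit 94) (nat_lit 336) (nat_lit 0) (XT.lf (nat_lit 0) (nat_lit 3289413799) (nat_lit 84) (nat_lit 3218307731) (nat_lit 168) (nat_lit 9212111056)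 (nat_lit 31) (nat_lit 5) (nat_lit 32) (nat_lit 5) (nat_lit 33) (nat_lit 4) (nat_lit 393) (nat_lit 352) (nat_lit 335)) (XT.nd (nat_lit 94) (nat_lit 84) (nat_lit 0) (XT.lf (nat_lit 0) (nat_lit 376730864) (nat_lit 252) (nat_lit 9063104099) (nat_lit 84) (nat_lit 6995007783) (nat_lit 28) (nat_lit 5) (nat_lit 31) (nat_lit 5) (nat_lit 29) (nat_lit 4) (nat_lit 394) (nat_lit 352) (nat_lit 334)) (XT.lf (nat_lit 0) (nat_lit 10599640489) (nat_lit 168) (nat_lit 5589378781) (nat_lit 0) (nat_lit 1000998145) (nat_lit 27) (nat_lit 5) (nat_lit 29) (nat_lit 4) (nat_lit 27) (nat_lit 4) (nat_lit 395) (nat_lit 352) (nat_lit 333)))) (XT.nd (nat_lit 188) (nat_lit 252) (nat_lit 0) (XT.nd (nat_lit 94) (nat_lit 168) (nat_lit 0) (XT.lf (nat_lit 0) (nat_lit 3816343505) (nat_lit 168) (nat_lit 1989575627) (nat_lit 84) (nat_lit 12181954362) (nat_lit 25) (nat_lit 5) (nat_lit 27) (nat_lit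 5) (nat_lit 26) (nat_lit 4) (nat_lit 396) (nat_lit 352) (nat_lit 332)) (XT.lf (nat_lit 0) (nat_lit 1832110726) (nat_lit 84) (nat_lit 13266616481) (nat_lit 84) (nat_lit 3731727885) (nat_lit 23) (nat_lit 4) (nat_lit 24) (nat_lit 5) (nat_lit 24) (nat_lit 4) (nat_lit 397) (nat_lit 352) (nat_lit 331))) (XT.nd (nat_lit 94) (nat_lit 84) (nat_lit 0) (XT.lf (nat_lit 0) (nat_lit 5888824462) (nat_lit 84) (nat_lit 1720348256) (nat_lit 168) (nat_lit 12110014646) (nat_lit 21) (nat_lit 5) (nat_lit 22) (nat_lit 5) (nat_lit 23) (nat_lit 4) (nat_lit 398) (nat_lit 352) (nat_lit 330)) (XT.lf (nat_lit 0) (nat_lit 10121088163) (nat_lit 84) (nat_lit 9969340450) (nat_lit 84) (nat_lit 567339570) (nat_lit 20) (nat_lit 4) (nat_lit 21) (nat_lit 5) (nat_lit 21) (nat_lit 4) (nat_lit 399) (nat_lit 352) (nat_lit 329))))) (XT.nd (nat_lit 282) (nat_lit 504) (nat_lit 0) (XT.nd (nat_lit 94)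 (nat_lit 336) (nat_lit 0) (XT.lf (nat_lit 0) (nat_lit 11806046520) (nat_lit 168) (nat_lit 7126090078) (nat_lit 0) (nat_lit 2715603664) (nat_lit 18) (nat_lit 5) (nat_lit 20) (nat_lit 4) (nat_lit 18) (nat_lit 4) (nat_lit 400) (nat_lit 352) (nat_lit 328)) (XT.nd (nat_lit 94) (nat_lit 168) (nat_lit 0) (XT.lf (nat_lit 0) (nat_lit 2767257546) (nat_lit 168) (nat_lit 3543635537) (nat_lit 84) (nat_lit 16383045381) (nat_lit 16) (nat_lit 5) (nat_lit 18) (nat_lit 5) (nat_lit 17) (nat_lit 4) (nat_lit 401) (nat_lit 352) (nat_lit 327)) (XT.lf (nat_lit 0) (nat_lit 173765646) (nat_lit 84) (nat_lit 16255669734) (nat_lit 84) (nat_lit 7366864408) (nat_lit 14) (nat_lit 4) (nat_lit 15) (nat_lit 5) (nat_lit 15) (nat_lit 4) (nat_lit 402) (nat_lit 352) (nat_lit 326)))) (XT.nd (nat_lit 188) (nat_lit 252) (nat_lit 0) (XT.nd (nat_lit 94) (nat_lit 84) (nat_lit 0) (XT.lf (nat_lit 0) (nat_lit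 4243871955) (nat_lit 84) (nat_lit 2212525911) (nat_lit 168) (nat_lit 18502762611) (nat_lit 12) (nat_lit 5) (nat_lit 13) (nat_lit 5) (nat_lit 14) (nat_lit 4) (nat_lit 403) (nat_lit 352) (nat_lit 325)) (XT.lf (nat_lit 0) (nat_lit 8451703678) (nat_lit 84) (nat_lit 13192894541) (nat_lit 84) (nat_lit 4538554582) (nat_lit 11) (nat_lit 4) (nat_lit 12) (nat_lit 5) (nat_lit 12) (nat_lit 4) (nat_lit 404) (nat_lit 352) (nat_lit 324))) (XT.nd (nat_lit 94) (nat_lit 84) (nat_lit 0) (XT.lf (nat_lit 0) (nat_lit 10616766866) (nat_lit 168) (nat_lit 14565006702) (nat_lit 0) (nat_lit 2294490224) (nat_lit 9) (nat_lit 5) (nat_lit 11) (nat_lit 4) (nat_lit 9) (nat_lit 4) (nat_lit 405) (nat_lit 352) (nat_lit 323)) (XT.lf (nat_lit 0) (nat_lit 17591252345) (nat_lit 84) (nat_lit 9822419071) (nat_lit 84) (nat_lit 1426023809) (nat_lit 8) (nat_lit 4) (nat_lit 9) (nat_lit 5) (nat_lit 9)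 (nat_lit 4) (nat_lit 406) (nat_lit 352) (nat_lit 322))))))) (XT.nd (nat_lit 1316) (nat_lit 0) (nat_lit 0) (XT.nd (nat_lit 658) (nat_lit 0) (nat_lit 0) (XT.nd (nat_lit 282) (nat_lit 252) (nat_lit 0) (XT.nd (nat_lit 94) (nat_lit 252) (nat_lit 0) (XT.lf (nat_lit 0) (nat_lit 15262340977) (nat_lit 168) (nat_lit 7812144997) (nat_lit 0) (nat_lit 7200413726) (nat_lit 6) (nat_lit 5) (nat_lit 8) (nat_lit 4) (nat_lit 6) (nat_lit 4) (nat_lit 407) (nat_lit 352) (nat_lit 321)) (XT.nd (nat_lit 94) (nat_lit 84) (nat_lit 0) (XT.lf (nat_lit 0) (nat_lit 1962668201) (nat_lit 168) (nat_lit 4098976267) (nat_lit 84) (nat_lit 25731214849) (nat_lit 4) (nat_lit 5) (nat_lit 6) (nat_lit 5) (nat_lit 5) (nat_lit 4) (nat_lit 408) (nat_lit 352) (nat_lit 320)) (XT.lf (nat_lit 0) (nat_lit 20432882406) (nat_lit 168) (nat_lit 310069219) (nat_lit 0) (nat_lit 12643851899) (nat_lit 3) (nat_lit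 5) (nat_lit 5) (nat_lit 4) (nat_lit 3) (nat_lit 4) (nat_lit 409) (nat_lit 352) (nat_lit 319)))) (XT.nd (nat_lit 188) (nat_lit 0) (nat_lit 0) (XT.nd (nat_lit 94) (nat_lit 0) (nat_lit 0) (XT.lf (nat_lit 0) (nat_lit 50982706526) (nat_lit 0) (nat_lit 0) (nat_lit 0) (nat_lit 0) (nat_lit 0) (nat_lit 0) (nat_lit 1) (nat_lit 0) (nat_lit 1) (nat_lit 0) (nat_lit 410) (nat_lit 352) (nat_lit 318)) (XT.lf (nat_lit 0) (nat_lit 55008385529) (nat_lit 0) (nat_lit 0) (nat_lit 0) (nat_lit 0) (nat_lit 0) (nat_lit 0) (nat_lit 1) (nat_lit 0) (nat_lit 1) (nat_lit 0) (nat_lit 411) (nat_lit 352) (nat_lit 317))) (XT.nd (nat_lit 94) (nat_lit 0) (nat_lit 0) (XT.lf (nat_lit 0) (nat_lit 59356602466) (nat_lit 0) (nat_lit 0) (nat_lit 0) (nat_lit 0) (nat_lit 0) (nat_lit 0) (nat_lit 1) (nat_lit 0) (nat_lit 1) (nat_lit 0) (nat_lit 412) (nat_lit 352) (nat_lit 316)) (XT.lf (nat_lit 0) (nat_lit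 64053124547) (nat_lit 0) (nat_lit 0) (nat_lit 0) (nat_lit 0) (nat_lit 0) (nat_lit 0) (nat_lit 1) (nat_lit 0) (nat_lit 1) (nat_lit 0) (nat_lit 413) (nat_lit 352) (nat_lit 315))))) (XT.nd (nat_lit 282) (nat_lit 0) (nat_lit 0) (XT.nd (nat_lit 94) (nat_lit 0) (nat_lit 0) (XT.lf (nat_lit 0) (nat_lit 69125783015) (nat_lit 0) (nat_lit 0) (nat_lit 0) (nat_lit 0) (nat_lit 0) (nat_lit 0) (nat_lit 1) (nat_lit 0) (nat_lit 1) (nat_lit 0) (nat_lit 414) (nat_lit 352) (nat_lit 314)) (XT.nd (nat_lit 94) (nat_lit 0) (nat_lit 0) (XT.lf (nat_lit 0) (nat_lit 74604638068) (nat_lit 0) (nat_lit 0) (nat_lit 0) (nat_lit 0) (nat_lit 0) (nat_lit 0) (nat_lit 1) (nat_lit 0) (nat_lit 1) (nat_lit 0) (nat_lit 415) (nat_lit 352) (nat_lit 313)) (XT.lf (nat_lit 0) (nat_lit 80522156995) (nat_lit 0) (nat_lit 0) (nat_lit 0) (nat_lit 0) (nat_lit 0) (nat_lit 0) (nat_lit 1) (nat_lit 0) (nat_lit 1)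 (nat_lit 0) (nat_lit 416) (nat_lit 352) (nat_lit 312)))) (XT.nd (nat_lit 188) (nat_lit 0) (nat_lit 0) (XT.nd (nat_lit 94) (nat_lit 0) (nat_lit 0) (XT.lf (nat_lit 0) (nat_lit 86913406575) (nat_lit 0) (nat_lit 0) (nat_lit 0) (nat_lit 0) (nat_lit 0) (nat_lit 0) (nat_lit 1) (nat_lit 0) (nat_lit 1) (nat_lit 0) (nat_lit 417) (nat_lit 352) (nat_lit 311)) (XT.lf (nat_lit 0) (nat_lit 93816260880) (nat_lit 0) (nat_lit 0) (nat_lit 0) (nat_lit 0) (nat_lit 0) (nat_lit 0) (nat_lit 1) (nat_lit 0) (nat_lit 1) (nat_lit 0) (nat_lit 418) (nat_lit 352) (nat_lit 310))) (XT.nd (nat_lit 94) (nat_lit 0) (nat_lit 0) (XT.lf (nat_lit 0) (nat_lit 101271625712) (nat_lit 0) (nat_lit 0) (nat_lit 0) (nat_lit 0) (nat_lit 0) (nat_lit 0) (nat_lit 1) (nat_lit 0) (nat_lit 1) (nat_lit 0) (nat_lit 419) (nat_lit 352) (nat_lit 309)) (XT.lf (nat_lit 0) (nat_lit 109323681013) (nat_lit 0) (nat_lit 0)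 (nat_lit 0) (nat_lit 0) (nat_lit 0) (nat_lit 0) (nat_lit 1) (nat_lit 0) (nat_lit 1) (nat_lit 0) (nat_lit 420) (nat_lit 352) (nat_lit 308)))))) (XT.nd (nat_lit 658) (nat_lit 0) (nat_lit 0) (XT.nd (nat_lit 282) (nat_lit 0) (nat_lit 0) (XT.nd (nat_lit 94) (nat_lit 0) (nat_lit 0) (XT.lf (nat_lit 0) (nat_lit 118020142664) (nat_lit 0) (nat_lit 0) (nat_lit 0) (nat_lit 0) (nat_lit 0) (nat_lit 0) (nat_lit 1) (nat_lit 0) (nat_lit 1) (nat_lit 0) (nat_lit 421) (nat_lit 352) (nat_lit 307)) (XT.nd (nat_lit 94) (nat_lit 0) (nat_lit 0) (XT.lf (nat_lit 0) (nat_lit 127412545253) (nat_lit 0) (nat_lit 0) (nat_lit 0) (nat_lit 0) (nat_lit 0) (nat_lit 0) (nat_lit 1) (nat_lit 0) (nat_lit 1) (nat_lit 0) (nat_lit 422) (nat_lit 352) (nat_lit 306)) (XT.lf (nat_lit 0) (nat_lit 137556547464) (nat_lit 0) (nat_lit 0) (nat_lit 0) (nat_lit 0) (nat_lit 0) (nat_lit 0) (nat_lit 1) (nat_lit 0)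 (nat_lit 1) (nat_lit 0) (nat_lit 423) (nat_lit 352) (nat_lit 305)))) (XT.nd (nat_lit 188) (nat_lit 0) (nat_lit 0) (XT.nd (nat_lit 94) (nat_lit 0) (nat_lit 0) (XT.lf (nat_lit 0) (nat_lit 148512261900) (nat_lit 0) (nat_lit 0) (nat_lit 0) (nat_lit 0) (nat_lit 0) (nat_lit 0) (nat_lit 1) (nat_lit 0) (nat_lit 1) (nat_lit 0) (nat_lit 424) (nat_lit 352) (nat_lit 304)) (XT.lf (nat_lit 0) (nat_lit 160344611315) (nat_lit 0) (nat_lit 0) (nat_lit 0) (nat_lit 0) (nat_lit 0) (nat_lit 0) (nat_lit 1) (nat_lit 0) (nat_lit 1) (nat_lit 0) (nat_lit 425) (nat_lit 352) (nat_lit 303))) (XT.nd (nat_lit 94) (nat_lit 0) (nat_lit 0) (XT.lf (nat_lit 0) (nat_lit 173123713334) (nat_lit 0) (nat_lit 0) (nat_lit 0) (nat_lit 0) (nat_lit 0) (nat_lit 0) (nat_lit 1) (nat_lit 0) (nat_lit 1) (nat_lit 0) (nat_lit 426) (nat_lit 352) (nat_lit 302)) (XT.lf (nat_lit 0) (nat_lit 186925295970) (nat_lit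 0) (nat_lit 0) (nat_lit 0) (nat_lit 0) (nat_lit 0) (nat_lit 0) (nat_lit 1) (nat_lit 0) (nat_lit 1) (nat_lit 0) (nat_lit 427) (nat_lit 352) (nat_lit 301))))) (XT.nd (nat_lit 376) (nat_lit 0) (nat_lit 0) (XT.nd (nat_lit 188) (nat_lit 0) (nat_lit 0) (XT.nd (nat_lit 94) (nat_lit 0) (nat_lit 0) (XT.lf (nat_lit 0) (nat_lit 201831146378) (nat_lit 0) (nat_lit 0) (nat_lit 0) (nat_lit 0) (nat_lit 0) (nat_lit 0) (nat_lit 1) (nat_lit 0) (nat_lit 1) (nat_lit 0) (nat_lit 428) (nat_lit 352) (nat_lit 300)) (XT.lf (nat_lit 0) (nat_lit 217929595525) (nat_lit 0) (nat_lit 0) (nat_lit 0) (nat_lit 0) (nat_lit 0) (nat_lit 0) (nat_lit 1) (nat_lit 0) (nat_lit 1) (nat_lit 0) (nat_lit 429) (nat_lit 352) (nat_lit 299))) (XT.nd (nat_lit 94) (nat_lit 0) (nat_lit 0) (XT.lf (nat_lit 0) (nat_lit 235316041627) (nat_lit 0) (nat_lit 0) (nat_lit 0) (nat_lit 0) (nat_lit 0) (nat_lit 0) (nat_lit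 1) (nat_lit 0) (nat_lit 1) (nat_lit 0) (nat_lit 430) (nat_lit 352) (nat_lit 298)) (XT.lf (nat_lit 0) (nat_lit 254093515477) (nat_lit 0) (nat_lit 0) (nat_lit 0) (nat_lit 0) (nat_lit 0) (nat_lit 0) (nat_lit 1) (nat_lit 0) (nat_lit 1) (nat_lit 0) (nat_lit 431) (nat_lit 352) (nat_lit 297)))) (XT.nd (nat_lit 188) (nat_lit 0) (nat_lit 0) (XT.nd (nat_lit 94) (nat_lit 0) (nat_lit 0) (XT.lf (nat_lit 0) (nat_lit 274373290992) (nat_lit 0) (nat_lit 0) (nat_lit 0) (nat_lit 0) (nat_lit 0) (nat_lit 0) (nat_lit 1) (nat_lit 0) (nat_lit 1) (nat_lit 0) (nat_lit 432) (nat_lit 352) (nat_lit 296)) (XT.lf (nat_lit 0) (nat_lit 296275544622) (nat_lit 0) (nat_lit 0) (nat_lit 0) (nat_lit 0) (nat_lit 0) (nat_lit 0) (nat_lit 1) (nat_lit 0) (nat_lit 1) (nat_lit 0) (nat_lit 433) (nat_lit 352) (nat_lit 295))) (XT.nd (nat_lit 94) (nat_lit 0) (nat_lit 0) (XT.lf (nat_lit 0) (nat_lit 319930067498)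 (nat_lit 0) (nat_lit 0) (nat_lit 0) (nat_lit 0) (nat_lit 0) (nat_lit 0) (nat_lit 1) (nat_lit 0) (nat_lit 1) (nat_lit 0) (nat_lit 434) (nat_lit 352) (nat_lit 294)) (XT.lf (nat_lit 0) (nat_lit 345477034570) (nat_lit 0) (nat_lit 0) (nat_lit 0) (nat_lit 0) (nat_lit 0) (nat_lit 0) (nat_lit 1) (nat_lit 0) (nat_lit 1) (nat_lit 0) (nat_lit 435) (nat_lit 352) (nat_lit 293))))))))
noncomputable def xc70 : XT := (XT.nd (nat_lit 2632) (nat_lit 0) (nat_lit 0) (XT.nd (nat_lit 1316) (nat_lit 0) (nat_lit 0) (XT.nd (nat_lit 658) (nat_lit 0) (nat_lit 0) (XT.nd (nat_lit 282) (nat_lit 0) (nat_lit 0) (XT.nd (nat_lit 94) (nat_lit 0) (nat_lit 0) (XT.lf (nat_lit 0) (nat_lit 373067835274) (nat_lit 0) (nat_lit 0) (nat_lit 0) (nat_lit 0) (nat_lit 0) (nat_lit 0) (nat_lit 1) (nat_lit 0) (nat_lit 1) (nat_lit 0) (nat_lit 436) (nat_lit 352) (nat_lit 292)) (XT.nd (nat_lit 94) (nat_lit 0)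 (nat_lit 0) (XT.lf (nat_lit 0) (nat_lit 402865970650) (nat_lit 0) (nat_lit 0) (nat_lit 0) (nat_lit 0) (nat_lit 0) (nat_lit 0) (nat_lit 1) (nat_lit 0) (nat_lit 1) (nat_lit 0) (nat_lit 437) (nat_lit 352) (nat_lit 291)) (XT.lf (nat_lit 0) (nat_lit 435048022242) (nat_lit 0) (nat_lit 0) (nat_lit 0) (nat_lit 0) (nat_lit 0) (nat_lit 0) (nat_lit 1) (nat_lit 0) (nat_lit 1) (nat_lit 0) (nat_lit 438) (nat_lit 352) (nat_lit 290)))) (XT.nd (nat_lit 188) (nat_lit 0) (nat_lit 0) (XT.nd (nat_lit 94) (nat_lit 0) (nat_lit 0) (XT.lf (nat_lit 0) (nat_lit 469804698503) (nat_lit 0) (nat_lit 0) (nat_lit 0) (nat_lit 0) (nat_lit 0) (nat_lit 0) (nat_lit 1) (nat_lit 0) (nat_lit 1) (nat_lit 0) (nat_lit 439) (nat_lit 352) (nat_lit 289)) (XT.lf (nat_lit 0) (nat_lit 507341964922) (nat_lit 0) (nat_lit 0) (nat_lit 0) (nat_lit 0) (nat_lit 0) (nat_lit 0) (nat_lit 1) (nat_lit 0) (nat_lit 1)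 (nat_lit 0) (nat_lit 440) (nat_lit 352) (nat_lit 288))) (XT.nd (nat_lit 94) (nat_lit 0) (nat_lit 0) (XT.lf (nat_lit 0) (nat_lit 547882264560) (nat_lit 0) (nat_lit 0) (nat_lit 0) (nat_lit 0) (nat_lit 0) (nat_lit 0) (nat_lit 1) (nat_lit 0) (nat_lit 1) (nat_lit 0) (nat_lit 441) (nat_lit 352) (nat_lit 287)) (XT.lf (nat_lit 0) (nat_lit 591665836229) (nat_lit 0) (nat_lit 0) (nat_lit 0) (nat_lit 0) (nat_lit 0) (nat_lit 0) (nat_lit 1) (nat_lit 0) (nat_lit 1) (nat_lit 0) (nat_lit 442) (nat_lit 352) (nat_lit 286))))) (XT.nd (nat_lit 282) (nat_lit 0) (nat_lit 0) (XT.nd (nat_lit 94) (nat_lit 0) (nat_lit 0) (XT.lf (nat_lit 0) (nat_lit 638952138132) (nat_lit 0) (nat_lit 0) (nat_lit 0) (nat_lit 0) (nat_lit 0) (nat_lit 0) (nat_lit 1) (nat_lit 0) (nat_lit 1) (nat_lit 0) (nat_lit 443) (nat_lit 352) (nat_lit 285)) (XT.nd (nat_lit 94) (nat_lit 0) (nat_lit 0) (XT.lf (nat_lit 0)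 (nat_lit 690021385390) (nat_lit 0) (nat_lit 0) (nat_lit 0) (nat_lit 0) (nat_lit 0) (nat_lit 0) (nat_lit 1) (nat_lit 0) (nat_lit 1) (nat_lit 0) (nat_lit 444) (nat_lit 352) (nat_lit 284)) (XT.lf (nat_lit 0) (nat_lit 745176210581) (nat_lit 0) (nat_lit 0) (nat_lit 0) (nat_lit 0) (nat_lit 0) (nat_lit 0) (nat_lit 1) (nat_lit 0) (nat_lit 1) (nat_lit 0) (nat_lit 445) (nat_lit 352) (nat_lit 283)))) (XT.nd (nat_lit 188) (nat_lit 0) (nat_lit 0) (XT.nd (nat_lit 94) (nat_lit 0) (nat_lit 0) (XT.lf (nat_lit 0) (nat_lit 804743457113) (nat_lit 0) (nat_lit 0) (nat_lit 0) (nat_lit 0) (nat_lit 0) (nat_lit 0) (nat_lit 1) (nat_lit 0) (nat_lit 1) (nat_lit 0) (nat_lit 446) (nat_lit 352) (nat_lit 282)) (XT.lf (nat_lit 0) (nat_lit 869076116077) (nat_lit 0) (nat_lit 0) (nat_lit 0) (nat_lit 0) (nat_lit 0) (nat_lit 0) (nat_lit 1) (nat_lit 0) (nat_lit 1) (nat_lit 0) (nat_lit 447) (nat_lit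 352) (nat_lit 281))) (XT.nd (nat_lit 94) (nat_lit 0) (nat_lit 0) (XT.lf (nat_lit 0) (nat_lit 938555418044) (nat_lit 0) (nat_lit 0) (nat_lit 0) (nat_lit 0) (nat_lit 0) (nat_lit 0) (nat_lit 1) (nat_lit 0) (nat_lit 1) (nat_lit 0) (nat_lit 448) (nat_lit 352) (nat_lit 280)) (XT.lf (nat_lit 0) (nat_lit 1013593092210) (nat_lit 0) (nat_lit 0) (nat_lit 0) (nat_lit 0) (nat_lit 0) (nat_lit 0) (nat_lit 1) (nat_lit 0) (nat_lit 1) (nat_lit 0) (nat_lit 449) (nat_lit 352) (nat_lit 279)))))) (XT.nd (nat_lit 658) (nat_lit 0) (nat_lit 0) (XT.nd (nat_lit 282) (nat_lit 0) (nat_lit 0) (XT.nd (nat_lit 94) (nat_lit 0) (nat_lit 0) (XT.lf (nat_lit 0) (nat_lit 1094633806276) (nat_lit 0) (nat_lit 0) (nat_lit 0) (nat_lit 0) (nat_lit 0) (nat_lit 0) (nat_lit 1) (nat_lit 0) (nat_lit 1) (nat_lit 0) (nat_lit 450) (nat_lit 352) (nat_lit 278)) (XT.nd (nat_lit 94) (nat_lit 0) (nat_lit 0) (XT.lf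 (nat_lit 0) (nat_lit 1182157801508) (nat_lit 0) (nat_lit 0) (nat_lit 0) (nat_lit 0) (nat_lit 0) (nat_lit 0) (nat_lit 1) (nat_lit 0) (nat_lit 1) (nat_lit 0) (nat_lit 451) (nat_lit 352) (nat_lit 277)) (XT.lf (nat_lit 0) (nat_lit 1276683738621) (nat_lit 0) (nat_lit 0) (nat_lit 0) (nat_lit 0) (nat_lit 0) (nat_lit 0) (nat_lit 1) (nat_lit 0) (nat_lit 1) (nat_lit 0) (nat_lit 452) (nat_lit 352) (nat_lit 276)))) (XT.nd (nat_lit 188) (nat_lit 0) (nat_lit 0) (XT.nd (nat_lit 94) (nat_lit 0) (nat_lit 0) (XT.lf (nat_lit 0) (nat_lit 1378771771314) (nat_lit 0) (nat_lit 0) (nat_lit 0) (nat_lit 0) (nat_lit 0) (nat_lit 0) (nat_lit 1) (nat_lit 0) (nat_lit 1) (nat_lit 0) (nat_lit 453) (nat_lit 352) (nat_lit 275)) (XT.lf (nat_lit 0) (nat_lit 1489026865709) (nat_lit 0) (nat_lit 0) (nat_lit 0) (nat_lit 0) (nat_lit 0) (nat_lit 0) (nat_lit 1) (nat_lit 0) (nat_lit 1) (nat_lit 0) (nat_lit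 454) (nat_lit 352) (nat_lit 274))) (XT.nd (nat_lit 94) (nat_lit 0) (nat_lit 0) (XT.lf (nat_lit 0) (nat_lit 1608102385327) (nat_lit 0) (nat_lit 0) (nat_lit 0) (nat_lit 0) (nat_lit 0) (nat_lit 0) (nat_lit 1) (nat_lit 0) (nat_lit 1) (nat_lit 0) (nat_lit 455) (nat_lit 352) (nat_lit 273)) (XT.lf (nat_lit 0) (nat_lit 1736703962876) (nat_lit 0) (nat_lit 0) (nat_lit 0) (nat_lit 0) (nat_lit 0) (nat_lit 0) (nat_lit 1) (nat_lit 0) (nat_lit 1) (nat_lit 0) (nat_lit 456) (nat_lit 352) (nat_lit 272))))) (XT.nd (nat_lit 282) (nat_lit 0) (nat_lit 0) (XT.nd (nat_lit 94) (nat_lit 0) (nat_lit 0) (XT.lf (nat_lit 0) (nat_lit 1875593681780) (nat_lit 0) (nat_lit 0) (nat_lit 0) (nat_lit 0) (nat_lit 0) (nat_lit 0) (nat_lit 1) (nat_lit 0) (nat_lit 1) (nat_lit 0) (nat_lit 457) (nat_lit 352) (nat_lit 271)) (XT.nd (nat_lit 94) (nat_lit 0) (nat_lit 0) (XT.lf (nat_lit 0) (nat_lit 2025594592225)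 (nat_lit 0) (nat_lit 0) (nat_lit 0) (nat_lit 0) (nat_lit 0) (nat_lit 0) (nat_lit 1) (nat_lit 0) (nat_lit 1) (nat_lit 0) (nat_lit 458) (nat_lit 352) (nat_lit 270)) (XT.lf (nat_lit 0) (nat_lit 2187595588495) (nat_lit 0) (nat_lit 0) (nat_lit 0) (nat_lit 0) (nat_lit 0) (nat_lit 0) (nat_lit 1) (nat_lit 0) (nat_lit 1) (nat_lit 0) (nat_lit 459) (nat_lit 352) (nat_lit 269)))) (XT.nd (nat_lit 188) (nat_lit 0) (nat_lit 0) (XT.nd (nat_lit 94) (nat_lit 0) (nat_lit 0) (XT.lf (nat_lit 0) (nat_lit 2362556676493) (nat_lit 0) (nat_lit 0) (nat_lit 0) (nat_lit 0) (nat_lit 0) (nat_lit 0) (nat_lit 1) (nat_lit 0) (nat_lit 1) (nat_lit 0) (nat_lit 460) (nat_lit 352) (nat_lit 268)) (XT.lf (nat_lit 0) (nat_lit 2551514662667) (nat_lit 0) (nat_lit 0) (nat_lit 0) (nat_lit 0) (nat_lit 0) (nat_lit 0) (nat_lit 1) (nat_lit 0) (nat_lit 1) (nat_lit 0) (nat_lit 461) (nat_lit 352) (nat_lit 267)))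 (XT.nd (nat_lit 94) (nat_lit 0) (nat_lit 0) (XT.lf (nat_lit 0) (nat_lit 2755589298047) (nat_lit 0) (nat_lit 0) (nat_lit 0) (nat_lit 0) (nat_lit 0) (nat_lit 0) (nat_lit 1) (nat_lit 0) (nat_lit 1) (nat_lit 0) (nat_lit 462) (nat_lit 352) (nat_lit 266)) (XT.lf (nat_lit 0) (nat_lit 2975989913804) (nat_lit 0) (nat_lit 0) (nat_lit 0) (nat_lit 0) (nat_lit 0) (nat_lit 0) (nat_lit 1) (nat_lit 0) (nat_lit 1) (nat_lit 0) (nat_lit 463) (nat_lit 352) (nat_lit 265))))))) (XT.nd (nat_lit 1316) (nat_lit 0) (nat_lit 0) (XT.nd (nat_lit 658) (nat_lit 0) (nat_lit 0) (XT.nd (nat_lit 282) (nat_lit 0) (nat_lit 0) (XT.nd (nat_lit 94) (nat_lit 0) (nat_lit 0) (XT.lf (nat_lit 0) (nat_lit 3214022587662) (nat_lit 0) (nat_lit 0) (nat_lit 0) (nat_lit 0) (nat_lit 0) (nat_lit 0) (nat_lit 1) (nat_lit 0) (nat_lit 1) (nat_lit 0) (nat_lit 464) (nat_lit 352) (nat_lit 264)) (XT.nd (nat_lit 94) (nat_lit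 0) (nat_lit 0) (XT.lf (nat_lit 0) (nat_lit 3471097883614) (nat_lit 0) (nat_lit 0) (nat_lit 0) (nat_lit 0) (nat_lit 0) (nat_lit 0) (nat_lit 1) (nat_lit 0) (nat_lit 1) (nat_lit 0) (nat_lit 465) (nat_lit 352) (nat_lit 263)) (XT.lf (nat_lit 0) (nat_lit 3748739210821) (nat_lit 0) (nat_lit 0) (nat_lit 0) (nat_lit 0) (nat_lit 0) (nat_lit 0) (nat_lit 1) (nat_lit 0) (nat_lit 1) (nat_lit 0) (nat_lit 466) (nat_lit 352) (nat_lit 262)))) (XT.nd (nat_lit 188) (nat_lit 0) (nat_lit 0) (XT.nd (nat_lit 94) (nat_lit 0) (nat_lit 0) (XT.lf (nat_lit 0) (nat_lit 4048591851222) (nat_lit 0) (nat_lit 0) (nat_lit 0) (nat_lit 0) (nat_lit 0) (nat_lit 0) (nat_lit 1) (nat_lit 0) (nat_lit 1) (nat_lit 0) (nat_lit 467) (nat_lit 352) (nat_lit 261)) (XT.lf (nat_lit 0) (nat_lit 4372432709353) (nat_lit 0) (nat_lit 0) (nat_lit 0) (nat_lit 0) (nat_lit 0) (nat_lit 0) (nat_lit 1) (nat_lit 0) (nat_lit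 1) (nat_lit 0) (nat_lit 468) (nat_lit 352) (nat_lit 260))) (XT.nd (nat_lit 94) (nat_lit 0) (nat_lit 0) (XT.lf (nat_lit 0) (nat_lit 4722180842152) (nat_lit 0) (nat_lit 0) (nat_lit 0) (nat_lit 0) (nat_lit 0) (nat_lit 0) (nat_lit 1) (nat_lit 0) (nat_lit 1) (nat_lit 0) (nat_lit 469) (nat_lit 352) (nat_lit 259)) (XT.lf (nat_lit 0) (nat_lit 5099908831145) (nat_lit 0) (nat_lit 0) (nat_lit 0) (nat_lit 0) (nat_lit 0) (nat_lit 0) (nat_lit 1) (nat_lit 0) (nat_lit 1) (nat_lit 0) (nat_lit 470) (nat_lit 352) (nat_lit 258))))) (XT.nd (nat_lit 282) (nat_lit 0) (nat_lit 0) (XT.nd (nat_lit 94) (nat_lit 0) (nat_lit 0) (XT.lf (nat_lit 0) (nat_lit 5507855064415) (nat_lit 0) (nat_lit 0) (nat_lit 0) (nat_lit 0) (nat_lit 0) (nat_lit 0) (nat_lit 1) (nat_lit 0) (nat_lit 1) (nat_lit 0) (nat_lit 471) (nat_lit 352) (nat_lit 257)) (XT.nd (nat_lit 94) (nat_lit 0) (nat_lit 0) (XT.lf (nat_lit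 0) (nat_lit 5948437001123) (nat_lit 0) (nat_lit 0) (nat_lit 0) (nat_lit 0) (nat_lit 0) (nat_lit 0) (nat_lit 1) (nat_lit 0) (nat_lit 1) (nat_lit 0) (nat_lit 472) (nat_lit 352) (nat_lit 256)) (XT.lf (nat_lit 0) (nat_lit 6424265497191) (nat_lit 0) (nat_lit 0) (nat_lit 0) (nat_lit 0) (nat_lit 0) (nat_lit 0) (nat_lit 1) (nat_lit 0) (nat_lit 1) (nat_lit 0) (nat_lit 473) (nat_lit 352) (nat_lit 255)))) (XT.nd (nat_lit 188) (nat_lit 0) (nat_lit 0) (XT.nd (nat_lit 94) (nat_lit 0) (nat_lit 0) (XT.lf (nat_lit 0) (nat_lit 6938160277038) (nat_lit 0) (nat_lit 0) (nat_lit 0) (nat_lit 0) (nat_lit 0) (nat_lit 0) (nat_lit 1) (nat_lit 0) (nat_lit 1) (nat_lit 0) (nat_lit 474) (nat_lit 352) (nat_lit 254)) (XT.lf (nat_lit 0) (nat_lit 7493166643065) (nat_lit 0) (nat_lit 0) (nat_lit 0) (nat_lit 0) (nat_lit 0) (nat_lit 0) (nat_lit 1) (nat_lit 0) (nat_lit 1) (nat_lit 0) (nat_lit 475)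 (nat_lit 352) (nat_lit 253))) (XT.nd (nat_lit 94) (nat_lit 0) (nat_lit 0) (XT.lf (nat_lit 0) (nat_lit 8092573521884) (nat_lit 0) (nat_lit 0) (nat_lit 0) (nat_lit 0) (nat_lit 0) (nat_lit 0) (nat_lit 1) (nat_lit 0) (nat_lit 1) (nat_lit 0) (nat_lit 476) (nat_lit 352) (nat_lit 252)) (XT.lf (nat_lit 0) (nat_lit 8739932954259) (nat_lit 0) (nat_lit 0) (nat_lit 0) (nat_lit 0) (nat_lit 0) (nat_lit 0) (nat_lit 1) (nat_lit 0) (nat_lit 1) (nat_lit 0) (nat_lit 477) (nat_lit 352) (nat_lit 251)))))) (XT.nd (nat_lit 658) (nat_lit 0) (nat_lit 0) (XT.nd (nat_lit 282) (nat_lit 0) (nat_lit 0) (XT.nd (nat_lit 94) (nat_lit 0) (nat_lit 0) (XT.lf (nat_lit 0) (nat_lit 9439081144234) (nat_lit 0) (nat_lit 0) (nat_lit 0) (nat_lit 0) (nat_lit 0) (nat_lit 0) (nat_lit 1) (nat_lit 0) (nat_lit 1) (nat_lit 0) (nat_lit 478) (nat_lit 352) (nat_lit 250)) (XT.nd (nat_lit 94) (nat_lit 0) (nat_lit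 0) (XT.lf (nat_lit 0) (nat_lit 10194161192194) (nat_lit 0) (nat_lit 0) (nat_lit 0) (nat_lit 0) (nat_lit 0) (nat_lit 0) (nat_lit 1) (nat_lit 0) (nat_lit 1) (nat_lit 0) (nat_lit 479) (nat_lit 352) (nat_lit 249)) (XT.lf (nat_lit 0) (nat_lit 11009647646572) (nat_lit 0) (nat_lit 0) (nat_lit 0) (nat_lit 0) (nat_lit 0) (nat_lit 0) (nat_lit 1) (nat_lit 0) (nat_lit 1) (nat_lit 0) (nat_lit 480) (nat_lit 352) (nat_lit 248)))) (XT.nd (nat_lit 188) (nat_lit 0) (nat_lit 0) (XT.nd (nat_lit 94) (nat_lit 0) (nat_lit 0) (XT.lf (nat_lit 0) (nat_lit 11890373019688) (nat_lit 0) (nat_lit 0) (nat_lit 0) (nat_lit 0) (nat_lit 0) (nat_lit 0) (nat_lit 1) (nat_lit 0) (nat_lit 1) (nat_lit 0) (nat_lit 481) (nat_lit 352) (nat_lit 247)) (XT.lf (nat_lit 0) (nat_lit 12841556424866) (nat_lit 0) (nat_lit 0) (nat_lit 0) (nat_lit 0) (nat_lit 0) (nat_lit 0) (nat_lit 1) (nat_lit 0) (nat_lit 1) (nat_lit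 0) (nat_lit 482) (nat_lit 352) (nat_lit 246))) (XT.nd (nat_lit 94) (nat_lit 0) (nat_lit 0) (XT.lf (nat_lit 0) (nat_lit 13868834504507) (nat_lit 0) (nat_lit 0) (nat_lit 0) (nat_lit 0) (nat_lit 0) (nat_lit 0) (nat_lit 1) (nat_lit 0) (nat_lit 1) (nat_lit 0) (nat_lit 483) (nat_lit 352) (nat_lit 245)) (XT.lf (nat_lit 0) (nat_lit 14978294832416) (nat_lit 0) (nat_lit 0) (nat_lit 0) (nat_lit 0) (nat_lit 0) (nat_lit 0) (nat_lit 1) (nat_lit 0) (nat_lit 1) (nat_lit 0) (nat_lit 484) (nat_lit 352) (nat_lit 244))))) (XT.nd (nat_lit 376) (nat_lit 0) (nat_lit 0) (XT.nd (nat_lit 188) (nat_lit 0) (nat_lit 0) (XT.nd (nat_lit 94) (nat_lit 0) (nat_lit 0) (XT.lf (nat_lit 0) (nat_lit 16176511988313) (nat_lit 0) (nat_lit 0) (nat_lit 0) (nat_lit 0) (nat_lit 0) (nat_lit 0) (nat_lit 1) (nat_lit 0) (nat_lit 1) (nat_lit 0) (nat_lit 485) (nat_lit 352) (nat_lit 243)) (XT.lf (nat_lit 0)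 (nat_lit 17470586518308) (nat_lit 0) (nat_lit 0) (nat_lit 0) (nat_lit 0) (nat_lit 0) (nat_lit 0) (nat_lit 1) (nat_lit 0) (nat_lit 1) (nat_lit 0) (nat_lit 486) (nat_lit 352) (nat_lit 242))) (XT.nd (nat_lit 94) (nat_lit 0) (nat_lit 0) (XT.lf (nat_lit 0) (nat_lit 18868187012209) (nat_lit 0) (nat_lit 0) (nat_lit 0) (nat_lit 0) (nat_lit 0) (nat_lit 0) (nat_lit 1) (nat_lit 0) (nat_lit 1) (nat_lit 0) (nat_lit 487) (nat_lit 352) (nat_lit 241)) (XT.lf (nat_lit 0) (nat_lit 20377595547016) (nat_lit 0) (nat_lit 0) (nat_lit 0) (nat_lit 0) (nat_lit 0) (nat_lit 0) (nat_lit 1) (nat_lit 0) (nat_lit 1) (nat_lit 0) (nat_lit 488) (nat_lit 352) (nat_lit 240)))) (XT.nd (nat_lit 188) (nat_lit 0) (nat_lit 0) (XT.nd (nat_lit 94) (nat_lit 0) (nat_lit 0) (XT.lf (nat_lit 0) (nat_lit 22007756765898) (nat_lit 0) (nat_lit 0) (nat_lit 0) (nat_lit 0) (nat_lit 0) (nat_lit 0) (nat_lit 1) (nat_lit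 0) (nat_lit 1) (nat_lit 0) (nat_lit 489) (nat_lit 352) (nat_lit 239)) (XT.lf (nat_lit 0) (nat_lit 23768330883486) (nat_lit 0) (nat_lit 0) (nat_lit 0) (nat_lit 0) (nat_lit 0) (nat_lit 0) (nat_lit 1) (nat_lit 0) (nat_lit 1) (nat_lit 0) (nat_lit 490) (nat_lit 352) (nat_lit 238))) (XT.nd (nat_lit 94) (nat_lit 0) (nat_lit 0) (XT.lf (nat_lit 0) (nat_lit 25669750931588) (nat_lit 0) (nat_lit 0) (nat_lit 0) (nat_lit 0) (nat_lit 0) (nat_lit 0) (nat_lit 1) (nat_lit 0) (nat_lit 1) (nat_lit 0) (nat_lit 491) (nat_lit 352) (nat_lit 237)) (XT.lf (nat_lit 0) (nat_lit 27723284584562) (nat_lit 0) (nat_lit 0) (nat_lit 0) (nat_lit 0) (nat_lit 0) (nat_lit 0) (nat_lit 1) (nat_lit 0) (nat_lit 1) (nat_lit 0) (nat_lit 492) (nat_lit 352) (nat_lit 236))))))))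
noncomputable def xc71 : XT := (XT.nd (nat_lit 59126) (nat_lit 0) (nat_lit 0) (XT.nd (nat_lit 57810) (nat_lit 0) (nat_lit 1596) (XT.nd (nat_lit 57152) (nat_lit 0) (nat_lit 4284) (XT.nd (nat_lit 56776) (nat_lit 0) (nat_lit 6384) (XT.nd (nat_lit 56588) (nat_lit 0) (nat_lit 8064) (XT.lf (nat_lit 0) (nat_lit 29941100930723) (nat_lit 0) (nat_lit 0) (nat_lit 0) (nat_lit 0) (nat_lit 0) (nat_lit 0) (nat_lit 1) (nat_lit 0) (nat_lit 1) (nat_lit 0) (nat_lit 493) (nat_lit 352) (nat_lit 235)) (XT.nd (nat_lit 94) (nat_lit 420) (nat_lit 0) (XT.lf (nat_lit 0) (nat_lit 335248344) (nat_lit 336) (nat_lit 1794086947) (nat_lit 336) (nat_lit 1794086947) (nat_lit 101) (nat_lit 4) (nat_lit 105) (nat_lit 5) (nat_lit 105) (nat_lit 4) (nat_lit 374) (nat_lit 353) (nat_lit 353)) (XT.lf (nat_lit 0) (nat_lit 2590800204) (nat_lit 420) (nat_lit 4761820336) (nat_lit 0) (nat_lit 706124332)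 (nat_lit 96) (nat_lit 5) (nat_lit 101) (nat_lit 4) (nat_lit 96) (nat_lit 4) (nat_lit 375) (nat_lit 353) (nat_lit 352)))) (XT.nd (nat_lit 188) (nat_lit 672) (nat_lit 0) (XT.nd (nat_lit 94) (nat_lit 588) (nat_lit 0) (XT.lf (nat_lit 0) (nat_lit 690913087) (nat_lit 420) (nat_lit 2213374295) (nat_lit 84) (nat_lit 5386476654) (nat_lit 91) (nat_lit 5) (nat_lit 96) (nat_lit 5) (nat_lit 92) (nat_lit 4) (nat_lit 376) (nat_lit 353) (nat_lit 351)) (XT.lf (nat_lit 0) (nat_lit 496411265) (nat_lit 336) (nat_lit 6521434233) (nat_lit 336) (nat_lit 1525670505) (nat_lit 84) (nat_lit 4) (nat_lit 88) (nat_lit 5) (nat_lit 88) (nat_lit 4) (nat_lit 377) (nat_lit 353) (nat_lit 350))) (XT.nd (nat_lit 94) (nat_lit 336) (nat_lit 0) (XT.lf (nat_lit 0) (nat_lit 3430111944) (nat_lit 252) (nat_lit 1375131227) (nat_lit 336) (nat_lit 4010718245) (nat_lit 80) (nat_lit 5) (nat_lit 83) (nat_lit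 5) (nat_lit 84) (nat_lit 4) (nat_lit 378) (nat_lit 353) (nat_lit 349)) (XT.lf (nat_lit 0) (nat_lit 2330943192) (nat_lit 336) (nat_lit 2592960028) (nat_lit 84) (nat_lit 4186607529) (nat_lit 76) (nat_lit 5) (nat_lit 80) (nat_lit 5) (nat_lit 77) (nat_lit 4) (nat_lit 379) (nat_lit 353) (nat_lit 348))))) (XT.nd (nat_lit 282) (nat_lit 1008) (nat_lit 0) (XT.nd (nat_lit 94) (nat_lit 588) (nat_lit 0) (XT.lf (nat_lit 0) (nat_lit 375224590) (nat_lit 252) (nat_lit 8591084274) (nat_lit 252) (nat_lit 462683326) (nat_lit 70) (nat_lit 4) (nat_lit 73) (nat_lit 5) (nat_lit 73) (nat_lit 4) (nat_lit 380) (nat_lit 353) (nat_lit 347)) (XT.nd (nat_lit 94) (nat_lit 336) (nat_lit 0) (XT.lf (nat_lit 0) (nat_lit 3524383238) (nat_lit 168) (nat_lit 2660365196) (nat_lit 252) (nat_lit 3581802081) (nat_lit 67) (nat_lit 5) (nat_lit 69) (nat_lit 5) (nat_lit 70) (nat_lit 4) (nat_lit 381) (nat_lit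 353) (nat_lit 346)) (XT.lf (nat_lit 0) (nat_lit 3090783678) (nat_lit 336) (nat_lit 3287040939) (nat_lit 84) (nat_lit 3751562377) (nat_lit 63) (nat_lit 5) (nat_lit 67) (nat_lit 5) (nat_lit 64) (nat_lit 4) (nat_lit 382) (nat_lit 353) (nat_lit 345)))) (XT.nd (nat_lit 188) (nat_lit 420) (nat_lit 0) (XT.nd (nat_lit 94) (nat_lit 420) (nat_lit 0) (XT.lf (nat_lit 0) (nat_lit 10155951344) (nat_lit 252) (nat_lit 169912171) (nat_lit 0) (nat_lit 193237776) (nat_lit 61) (nat_lit 5) (nat_lit 64) (nat_lit 4) (nat_lit 61) (nat_lit 4) (nat_lit 383) (nat_lit 353) (nat_lit 344)) (XT.lf (nat_lit 0) (nat_lit 3111404278) (nat_lit 168) (nat_lit 3626562514) (nat_lit 252) (nat_lit 4191143775) (nat_lit 56) (nat_lit 5) (nat_lit 58) (nat_lit 5) (nat_lit 59) (nat_lit 4) (nat_lit 384) (nat_lit 353) (nat_lit 343))) (XT.nd (nat_lit 94) (nat_lit 168) (nat_lit 0) (XT.lf (nat_lit 0) (nat_lit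 2953775222) (nat_lit 252) (nat_lit 4788019998) (nat_lit 84) (nat_lit 3626083081) (nat_lit 53) (nat_lit 5) (nat_lit 56) (nat_lit 5) (nat_lit 54) (nat_lit 4) (nat_lit 385) (nat_lit 353) (nat_lit 342)) (XT.lf (nat_lit 0) (nat_lit 10222220219) (nat_lit 168) (nat_lit 347852556) (nat_lit 252) (nat_lit 1265908199) (nat_lit 51) (nat_lit 5) (nat_lit 53) (nat_lit 5) (nat_lit 54) (nat_lit 4) (nat_lit 386) (nat_lit 353) (nat_lit 341)))))) (XT.nd (nat_lit 658) (nat_lit 1092) (nat_lit 0) (XT.nd (nat_lit 282) (nat_lit 924) (nat_lit 0) (XT.nd (nat_lit 94) (nat_lit 336) (nat_lit 0) (XT.lf (nat_lit 0) (nat_lit 1679738502) (nat_lit 84) (nat_lit 4716844506) (nat_lit 168) (nat_lit 5932459812) (nat_lit 47) (nat_lit 5) (nat_lit 48) (nat_lit 5) (nat_lit 49) (nat_lit 4) (nat_lit 387) (nat_lit 353) (nat_lit 340)) (XT.nd (nat_lit 94) (nat_lit 84) (nat_lit 0) (XT.lf (nat_lit 0) (nat_lit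 1815803779) (nat_lit 252) (nat_lit 7635461985) (nat_lit 84) (nat_lit 3402608900) (nat_lit 44) (nat_lit 5) (nat_lit 47) (nat_lit 5) (nat_lit 45) (nat_lit 4) (nat_lit 388) (nat_lit 353) (nat_lit 339)) (XT.lf (nat_lit 0) (nat_lit 8893125727) (nat_lit 84) (nat_lit 1197257361) (nat_lit 168) (nat_lit 3319732340) (nat_lit 43) (nat_lit 5) (nat_lit 44) (nat_lit 5) (nat_lit 45) (nat_lit 4) (nat_lit 389) (nat_lit 353) (nat_lit 338)))) (XT.nd (nat_lit 188) (nat_lit 420) (nat_lit 0) (XT.nd (nat_lit 94) (nat_lit 252) (nat_lit 0) (XT.lf (nat_lit 0) (nat_lit 5028430665) (nat_lit 252) (nat_lit 1305325819) (nat_lit 84) (nat_lit 7664538069) (nat_lit 40) (nat_lit 5) (nat_lit 43) (nat_lit 5) (nat_lit 41) (nat_lit 4) (nat_lit 390) (nat_lit 353) (nat_lit 337)) (XT.lf (nat_lit 0) (nat_lit 2163251642) (nat_lit 168) (nat_lit 11928831541) (nat_lit 168) (nat_lit 530526546) (nat_lit 37)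 (nat_lit 4) (nat_lit 39) (nat_lit 5) (nat_lit 39) (nat_lit 4) (nat_lit 391) (nat_lit 353) (nat_lit 336))) (XT.nd (nat_lit 94) (nat_lit 252) (nat_lit 0) (XT.lf (nat_lit 0) (nat_lit 5758895855) (nat_lit 84) (nat_lit 2763011197) (nat_lit 168) (nat_lit 6757627609) (nat_lit 35) (nat_lit 5) (nat_lit 36) (nat_lit 5) (nat_lit 37) (nat_lit 4) (nat_lit 392) (nat_lit 353) (nat_lit 335)) (XT.lf (nat_lit 0) (nat_lit 2433335516) (nat_lit 252) (nat_lit 6440765630) (nat_lit 84) (nat_lit 7101923644) (nat_lit 32) (nat_lit 5) (nat_lit 35) (nat_lit 5) (nat_lit 33) (nat_lit 4) (nat_lit 393) (nat_lit 353) (nat_lit 334))))) (XT.nd (nat_lit 282) (nat_lit 588) (nat_lit 0) (XT.nd (nat_lit 94) (nat_lit 420) (nat_lit 0) (XT.lf (nat_lit 0) (nat_lit 12309389116) (nat_lit 168) (nat_lit 3222620976) (nat_lit 0) (nat_lit 1181356608) (nat_lit 31) (nat_lit 5) (nat_lit 33) (nat_lit 4) (nat_lit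 31) (nat_lit 4) (nat_lit 394) (nat_lit 353) (nat_lit 333)) (XT.nd (nat_lit 94) (nat_lit 84) (nat_lit 0) (XT.lf (nat_lit 0) (nat_lit 92880079) (nat_lit 84) (nat_lit 5490569642) (nat_lit 168) (nat_lit 11907351425) (nat_lit 27) (nat_lit 5) (nat_lit 28) (nat_lit 5) (nat_lit 29) (nat_lit 4) (nat_lit 395) (nat_lit 353) (nat_lit 332)) (XT.lf (nat_lit 0) (nat_lit 3707464364) (nat_lit 84) (nat_lit 12807745704) (nat_lit 84) (nat_lit 1796628824) (nat_lit 26) (nat_lit 4) (nat_lit 27) (nat_lit 5) (nat_lit 27) (nat_lit 4) (nat_lit 396) (nat_lit 353) (nat_lit 331)))) (XT.nd (nat_lit 188) (nat_lit 252) (nat_lit 0) (XT.nd (nat_lit 94) (nat_lit 168) (nat_lit 0) (XT.lf (nat_lit 0) (nat_lit 7457696503) (nat_lit 84) (nat_lit 1641161521) (nat_lit 168) (nat_lit 10079184998) (nat_lit 24) (nat_lit 5) (nat_lit 25) (nat_lit 5) (nat_lit 26) (nat_lit 4) (nat_lit 397) (nat_lit 353) (nat_lit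 330)) (XT.lf (nat_lit 0) (nat_lit 1033565231) (nat_lit 168) (nat_lit 8705181582) (nat_lit 84) (nat_lit 10354548991) (nat_lit 22) (nat_lit 5) (nat_lit 24) (nat_lit 5) (nat_lit 23) (nat_lit 4) (nat_lit 398) (nat_lit 353) (nat_lit 329))) (XT.nd (nat_lit 94) (nat_lit 168) (nat_lit 0) (XT.lf (nat_lit 0) (nat_lit 12971059729) (nat_lit 168) (nat_lit 5568471553) (nat_lit 0) (nat_lit 2519533412) (nat_lit 21) (nat_lit 5) (nat_lit 23) (nat_lit 4) (nat_lit 21) (nat_lit 4) (nat_lit 399) (nat_lit 353) (nat_lit 328)) (XT.lf (nat_lit 0) (nat_lit 4049163025) (nat_lit 168) (nat_lit 2283116300) (nat_lit 84) (nat_lit 15746474699) (nat_lit 19) (nat_lit 5) (nat_lit 21) (nat_lit 5) (nat_lit 20) (nat_lit 4) (nat_lit 400) (nat_lit 353) (nat_lit 327))))))) (XT.nd (nat_lit 1316) (nat_lit 0) (nat_lit 0) (XT.nd (nat_lit 658) (nat_lit 588) (nat_lit 0) (XT.nd (nat_lit 282) (nat_lit 588)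 (nat_lit 0) (XT.nd (nat_lit 94) (nat_lit 252) (nat_lit 0) (XT.lf (nat_lit 0) (nat_lit 1189134938) (nat_lit 84) (nat_lit 16080552017) (nat_lit 84) (nat_lit 5883914692) (nat_lit 17) (nat_lit 4) (nat_lit 18) (nat_lit 5) (nat_lit 18) (nat_lit 4) (nat_lit 401) (nat_lit 353) (nat_lit 326)) (XT.nd (nat_lit 94) (nat_lit 84) (nat_lit 0) (XT.lf (nat_lit 0) (nat_lit 4938173746) (nat_lit 84) (nat_lit 2497385441) (nat_lit 168) (nat_lit 16851548302) (nat_lit 15) (nat_lit 5) (nat_lit 16) (nat_lit 5) (nat_lit 17) (nat_lit 4) (nat_lit 402) (nat_lit 353) (nat_lit 325)) (XT.lf (nat_lit 0) (nat_lit 8843256028) (nat_lit 84) (nat_lit 13273711829) (nat_lit 84) (nat_lit 3364377031) (nat_lit 14) (nat_lit 4) (nat_lit 15) (nat_lit 5) (nat_lit 15) (nat_lit 4) (nat_lit 403) (nat_lit 353) (nat_lit 324)))) (XT.nd (nat_lit 188) (nat_lit 336) (nat_lit 0) (XT.nd (nat_lit 94) (nat_lit 84) (nat_lit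 0) (XT.lf (nat_lit 0) (nat_lit 11247833027) (nat_lit 168) (nat_lit 13767993321) (nat_lit 0) (nat_lit 1726320801) (nat_lit 12) (nat_lit 5) (nat_lit 14) (nat_lit 4) (nat_lit 12) (nat_lit 4) (nat_lit 404) (nat_lit 353) (nat_lit 323)) (XT.lf (nat_lit 0) (nat_lit 17322730475) (nat_lit 84) (nat_lit 10174186882) (nat_lit 84) (nat_lit 574850105) (nat_lit 11) (nat_lit 4) (nat_lit 12) (nat_lit 5) (nat_lit 12) (nat_lit 4) (nat_lit 405) (nat_lit 353) (nat_lit 322))) (XT.nd (nat_lit 94) (nat_lit 168) (nat_lit 0) (XT.lf (nat_lit 0) (nat_lit 15530583626) (nat_lit 168) (nat_lit 7620827728) (nat_lit 0) (nat_lit 6319729771) (nat_lit 9) (nat_lit 5) (nat_lit 11) (nat_lit 4) (nat_lit 9) (nat_lit 4) (nat_lit 406) (nat_lit 353) (nat_lit 321)) (XT.lf (nat_lit 0) (nat_lit 2457378770) (nat_lit 168) (nat_lit 4236772144) (nat_lit 84) (nat_lit 24256512622) (nat_lit 7) (nat_lit 5) (nat_lit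 9) (nat_lit 5) (nat_lit 8) (nat_lit 4) (nat_lit 407) (nat_lit 353) (nat_lit 320))))) (XT.nd (nat_lit 282) (nat_lit 168) (nat_lit 0) (XT.nd (nat_lit 94) (nat_lit 336) (nat_lit 0) (XT.lf (nat_lit 0) (nat_lit 20315734212) (nat_lit 168) (nat_lit 762599501) (nat_lit 0) (nat_lit 11426937665) (nat_lit 6) (nat_lit 5) (nat_lit 8) (nat_lit 4) (nat_lit 6) (nat_lit 4) (nat_lit 408) (nat_lit 353) (nat_lit 319)) (XT.nd (nat_lit 94) (nat_lit 84) (nat_lit 0) (XT.lf (nat_lit 0) (nat_lit 3137626655) (nat_lit 84) (nat_lit 2754231073) (nat_lit 168) (nat_lit 28255821531) (nat_lit 3) (nat_lit 5) (nat_lit 4) (nat_lit 5) (nat_lit 5) (nat_lit 4) (nat_lit 409) (nat_lit 353) (nat_lit 318)) (XT.lf (nat_lit 0) (nat_lit 7155912248) (nat_lit 84) (nat_lit 18638099819) (nat_lit 84) (nat_lit 10077410785) (nat_lit 2) (nat_lit 4) (nat_lit 3) (nat_lit 5) (nat_lit 3) (nat_lit 4) (nat_lit 410)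 (nat_lit 353) (nat_lit 317)))) (XT.nd (nat_lit 188) (nat_lit 0) (nat_lit 0) (XT.nd (nat_lit 94) (nat_lit 0) (nat_lit 0) (XT.lf (nat_lit 0) (nat_lit 55051887945) (nat_lit 0) (nat_lit 0) (nat_lit 0) (nat_lit 0) (nat_lit 0) (nat_lit 0) (nat_lit 1) (nat_lit 0) (nat_lit 1) (nat_lit 0) (nat_lit 411) (nat_lit 353) (nat_lit 316)) (XT.lf (nat_lit 0) (nat_lit 59400320165) (nat_lit 0) (nat_lit 0) (nat_lit 0) (nat_lit 0) (nat_lit 0) (nat_lit 0) (nat_lit 1) (nat_lit 0) (nat_lit 1) (nat_lit 0) (nat_lit 412) (nat_lit 353) (nat_lit 315))) (XT.nd (nat_lit 94) (nat_lit 0) (nat_lit 0) (XT.lf (nat_lit 0) (nat_lit 64097041583) (nat_lit 0) (nat_lit 0) (nat_lit 0) (nat_lit 0) (nat_lit 0) (nat_lit 0) (nat_lit 1) (nat_lit 0) (nat_lit 1) (nat_lit 0) (nat_lit 413) (nat_lit 353) (nat_lit 314)) (XT.lf (nat_lit 0) (nat_lit 69169884622) (nat_lit 0) (nat_lit 0) (nat_lit 0) (nat_lit 0) (nat_lit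 0) (nat_lit 0) (nat_lit 1) (nat_lit 0) (nat_lit 1) (nat_lit 0) (nat_lit 414) (nat_lit 353) (nat_lit 313)))))) (XT.nd (nat_lit 658) (nat_lit 0) (nat_lit 0) (XT.nd (nat_lit 282) (nat_lit 0) (nat_lit 0) (XT.nd (nat_lit 94) (nat_lit 0) (nat_lit 0) (XT.lf (nat_lit 0) (nat_lit 74648910574) (nat_lit 0) (nat_lit 0) (nat_lit 0) (nat_lit 0) (nat_lit 0) (nat_lit 0) (nat_lit 1) (nat_lit 0) (nat_lit 1) (nat_lit 0) (nat_lit 415) (nat_lit 353) (nat_lit 312)) (XT.nd (nat_lit 94) (nat_lit 0) (nat_lit 0) (XT.lf (nat_lit 0) (nat_lit 80566587741) (nat_lit 0) (nat_lit 0) (nat_lit 0) (nat_lit 0) (nat_lit 0) (nat_lit 0) (nat_lit 1) (nat_lit 0) (nat_lit 1) (nat_lit 0) (nat_lit 416) (nat_lit 353) (nat_lit 311)) (XT.lf (nat_lit 0) (nat_lit 86957983839) (nat_lit 0) (nat_lit 0) (nat_lit 0) (nat_lit 0) (nat_lit 0) (nat_lit 0) (nat_lit 1) (nat_lit 0) (nat_lit 1) (nat_lit 0) (nat_lit 417)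 (nat_lit 353) (nat_lit 310)))) (XT.nd (nat_lit 188) (nat_lit 0) (nat_lit 0) (XT.nd (nat_lit 94) (nat_lit 0) (nat_lit 0) (XT.lf (nat_lit 0) (nat_lit 93860973809) (nat_lit 0) (nat_lit 0) (nat_lit 0) (nat_lit 0) (nat_lit 0) (nat_lit 0) (nat_lit 1) (nat_lit 0) (nat_lit 1) (nat_lit 0) (nat_lit 418) (nat_lit 353) (nat_lit 309)) (XT.lf (nat_lit 0) (nat_lit 101316464258) (nat_lit 0) (nat_lit 0) (nat_lit 0) (nat_lit 0) (nat_lit 0) (nat_lit 0) (nat_lit 1) (nat_lit 0) (nat_lit 1) (nat_lit 0) (nat_lit 419) (nat_lit 353) (nat_lit 308))) (XT.nd (nat_lit 94) (nat_lit 0) (nat_lit 0) (XT.lf (nat_lit 0) (nat_lit 109368635869) (nat_lit 0) (nat_lit 0) (nat_lit 0) (nat_lit 0) (nat_lit 0) (nat_lit 0) (nat_lit 1) (nat_lit 0) (nat_lit 1) (nat_lit 0) (nat_lit 420) (nat_lit 353) (nat_lit 307)) (XT.lf (nat_lit 0) (nat_lit 118065205215) (nat_lit 0) (nat_lit 0) (nat_lit 0) (nat_lit 0)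 (nat_lit 0) (nat_lit 0) (nat_lit 1) (nat_lit 0) (nat_lit 1) (nat_lit 0) (nat_lit 421) (nat_lit 353) (nat_lit 306))))) (XT.nd (nat_lit 376) (nat_lit 0) (nat_lit 0) (XT.nd (nat_lit 188) (nat_lit 0) (nat_lit 0) (XT.nd (nat_lit 94) (nat_lit 0) (nat_lit 0) (XT.lf (nat_lit 0) (nat_lit 127457707523) (nat_lit 0) (nat_lit 0) (nat_lit 0) (nat_lit 0) (nat_lit 0) (nat_lit 0) (nat_lit 1) (nat_lit 0) (nat_lit 1) (nat_lit 0) (nat_lit 422) (nat_lit 353) (nat_lit 305)) (XT.lf (nat_lit 0) (nat_lit 137601802065) (nat_lit 0) (nat_lit 0) (nat_lit 0) (nat_lit 0) (nat_lit 0) (nat_lit 0) (nat_lit 1) (nat_lit 0) (nat_lit 1) (nat_lit 0) (nat_lit 423) (nat_lit 353) (nat_lit 304))) (XT.nd (nat_lit 94) (nat_lit 0) (nat_lit 0) (XT.lf (nat_lit 0) (nat_lit 148557601993) (nat_lit 0) (nat_lit 0) (nat_lit 0) (nat_lit 0) (nat_lit 0) (nat_lit 0) (nat_lit 1) (nat_lit 0) (nat_lit 1) (nat_lit 0)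 (nat_lit 424) (nat_lit 353) (nat_lit 303)) (XT.lf (nat_lit 0) (nat_lit 160390030567) (nat_lit 0) (nat_lit 0) (nat_lit 0) (nat_lit 0) (nat_lit 0) (nat_lit 0) (nat_lit 1) (nat_lit 0) (nat_lit 1) (nat_lit 0) (nat_lit 425) (nat_lit 353) (nat_lit 302)))) (XT.nd (nat_lit 188) (nat_lit 0) (nat_lit 0) (XT.nd (nat_lit 94) (nat_lit 0) (nat_lit 0) (XT.lf (nat_lit 0) (nat_lit 173169205882) (nat_lit 0) (nat_lit 0) (nat_lit 0) (nat_lit 0) (nat_lit 0) (nat_lit 0) (nat_lit 1) (nat_lit 0) (nat_lit 1) (nat_lit 0) (nat_lit 426) (nat_lit 353) (nat_lit 301)) (XT.lf (nat_lit 0) (nat_lit 186970856384) (nat_lit 0) (nat_lit 0) (nat_lit 0) (nat_lit 0) (nat_lit 0) (nat_lit 0) (nat_lit 1) (nat_lit 0) (nat_lit 1) (nat_lit 0) (nat_lit 427) (nat_lit 353) (nat_lit 300))) (XT.nd (nat_lit 94) (nat_lit 0) (nat_lit 0) (XT.lf (nat_lit 0) (nat_lit 201876769632) (nat_lit 0) (nat_lit 0) (nat_lit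 0) (nat_lit 0) (nat_lit 0) (nat_lit 0) (nat_lit 1) (nat_lit 0) (nat_lit 1) (nat_lit 0) (nat_lit 428) (nat_lit 353) (nat_lit 299)) (XT.lf (nat_lit 0) (nat_lit 217975276963) (nat_lit 0) (nat_lit 0) (nat_lit 0) (nat_lit 0) (nat_lit 0) (nat_lit 0) (nat_lit 1) (nat_lit 0) (nat_lit 1) (nat_lit 0) (nat_lit 429) (nat_lit 353) (nat_lit 298))))))))
noncomputable def xc72 : XT := (XT.nd (nat_lit 2632) (nat_lit 0) (nat_lit 0) (XT.nd (nat_lit 1316) (nat_lit 0) (nat_lit 0) (XT.nd (nat_lit 658) (nat_lit 0) (nat_lit 0) (XT.nd (nat_lit 282) (nat_lit 0) (nat_lit 0) (XT.nd (nat_lit 94) (nat_lit 0) (nat_lit 0) (XT.lf (nat_lit 0) (nat_lit 235361776940) (nat_lit 0) (nat_lit 0) (nat_lit 0) (nat_lit 0) (nat_lit 0) (nat_lit 0) (nat_lit 1) (nat_lit 0) (nat_lit 1) (nat_lit 0) (nat_lit 430) (nat_lit 353) (nat_lit 297)) (XT.nd (nat_lit 94) (nat_lit 0) (nat_lit 0) (XT.lf (nat_lit 0) (nat_lit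 254139300673) (nat_lit 0) (nat_lit 0) (nat_lit 0) (nat_lit 0) (nat_lit 0) (nat_lit 0) (nat_lit 1) (nat_lit 0) (nat_lit 1) (nat_lit 0) (nat_lit 431) (nat_lit 353) (nat_lit 296)) (XT.lf (nat_lit 0) (nat_lit 274419122377) (nat_lit 0) (nat_lit 0) (nat_lit 0) (nat_lit 0) (nat_lit 0) (nat_lit 0) (nat_lit 1) (nat_lit 0) (nat_lit 1) (nat_lit 0) (nat_lit 432) (nat_lit 353) (nat_lit 295)))) (XT.nd (nat_lit 188) (nat_lit 0) (nat_lit 0) (XT.nd (nat_lit 94) (nat_lit 0) (nat_lit 0) (XT.lf (nat_lit 0) (nat_lit 296321418774) (nat_lit 0) (nat_lit 0) (nat_lit 0) (nat_lit 0) (nat_lit 0) (nat_lit 0) (nat_lit 1) (nat_lit 0) (nat_lit 1) (nat_lit 0) (nat_lit 433) (nat_lit 353) (nat_lit 294)) (XT.lf (nat_lit 0) (nat_lit 319975981249) (nat_lit 0) (nat_lit 0) (nat_lit 0) (nat_lit 0) (nat_lit 0) (nat_lit 0) (nat_lit 1) (nat_lit 0) (nat_lit 1) (nat_lit 0) (nat_lit 434) (nat_lit 353)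 (nat_lit 293))) (XT.nd (nat_lit 94) (nat_lit 0) (nat_lit 0) (XT.lf (nat_lit 0) (nat_lit 345522984988) (nat_lit 0) (nat_lit 0) (nat_lit 0) (nat_lit 0) (nat_lit 0) (nat_lit 0) (nat_lit 1) (nat_lit 0) (nat_lit 1) (nat_lit 0) (nat_lit 435) (nat_lit 353) (nat_lit 292)) (XT.lf (nat_lit 0) (nat_lit 373113819642) (nat_lit 0) (nat_lit 0) (nat_lit 0) (nat_lit 0) (nat_lit 0) (nat_lit 0) (nat_lit 1) (nat_lit 0) (nat_lit 1) (nat_lit 0) (nat_lit 436) (nat_lit 353) (nat_lit 291))))) (XT.nd (nat_lit 282) (nat_lit 0) (nat_lit 0) (XT.nd (nat_lit 94) (nat_lit 0) (nat_lit 0) (XT.lf (nat_lit 0) (nat_lit 402911986453) (nat_lit 0) (nat_lit 0) (nat_lit 0) (nat_lit 0) (nat_lit 0) (nat_lit 0) (nat_lit 1) (nat_lit 0) (nat_lit 1) (nat_lit 0) (nat_lit 437) (nat_lit 353) (nat_lit 290)) (XT.nd (nat_lit 94) (nat_lit 0) (nat_lit 0) (XT.lf (nat_lit 0) (nat_lit 435094067152) (nat_lit 0) (nat_lit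 0) (nat_lit 0) (nat_lit 0) (nat_lit 0) (nat_lit 0) (nat_lit 1) (nat_lit 0) (nat_lit 1) (nat_lit 0) (nat_lit 438) (nat_lit 353) (nat_lit 289)) (XT.lf (nat_lit 0) (nat_lit 469850770363) (nat_lit 0) (nat_lit 0) (nat_lit 0) (nat_lit 0) (nat_lit 0) (nat_lit 0) (nat_lit 1) (nat_lit 0) (nat_lit 1) (nat_lit 0) (nat_lit 439) (nat_lit 353) (nat_lit 288)))) (XT.nd (nat_lit 188) (nat_lit 0) (nat_lit 0) (XT.nd (nat_lit 94) (nat_lit 0) (nat_lit 0) (XT.lf (nat_lit 0) (nat_lit 507388061737) (nat_lit 0) (nat_lit 0) (nat_lit 0) (nat_lit 0) (nat_lit 0) (nat_lit 0) (nat_lit 1) (nat_lit 0) (nat_lit 1) (nat_lit 0) (nat_lit 440) (nat_lit 353) (nat_lit 287)) (XT.lf (nat_lit 0) (nat_lit 547928384481) (nat_lit 0) (nat_lit 0) (nat_lit 0) (nat_lit 0) (nat_lit 0) (nat_lit 0) (nat_lit 1) (nat_lit 0) (nat_lit 1) (nat_lit 0) (nat_lit 441) (nat_lit 353) (nat_lit 286))) (XT.nd (nat_lit 94)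 (nat_lit 0) (nat_lit 0) (XT.lf (nat_lit 0) (nat_lit 591711977544) (nat_lit 0) (nat_lit 0) (nat_lit 0) (nat_lit 0) (nat_lit 0) (nat_lit 0) (nat_lit 1) (nat_lit 0) (nat_lit 1) (nat_lit 0) (nat_lit 442) (nat_lit 353) (nat_lit 285)) (XT.lf (nat_lit 0) (nat_lit 638998299256) (nat_lit 0) (nat_lit 0) (nat_lit 0) (nat_lit 0) (nat_lit 0) (nat_lit 0) (nat_lit 1) (nat_lit 0) (nat_lit 1) (nat_lit 0) (nat_lit 443) (nat_lit 353) (nat_lit 284)))))) (XT.nd (nat_lit 658) (nat_lit 0) (nat_lit 0) (XT.nd (nat_lit 282) (nat_lit 0) (nat_lit 0) (XT.nd (nat_lit 94) (nat_lit 0) (nat_lit 0) (XT.lf (nat_lit 0) (nat_lit 690067564857) (nat_lit 0) (nat_lit 0) (nat_lit 0) (nat_lit 0) (nat_lit 0) (nat_lit 0) (nat_lit 1) (nat_lit 0) (nat_lit 1) (nat_lit 0) (nat_lit 444) (nat_lit 353) (nat_lit 283)) (XT.nd (nat_lit 94) (nat_lit 0) (nat_lit 0) (XT.lf (nat_lit 0) (nat_lit 745222407032) (nat_lit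 0) (nat_lit 0) (nat_lit 0) (nat_lit 0) (nat_lit 0) (nat_lit 0) (nat_lit 1) (nat_lit 0) (nat_lit 1) (nat_lit 0) (nat_lit 445) (nat_lit 353) (nat_lit 282)) (XT.lf (nat_lit 0) (nat_lit 804789669289) (nat_lit 0) (nat_lit 0) (nat_lit 0) (nat_lit 0) (nat_lit 0) (nat_lit 0) (nat_lit 1) (nat_lit 0) (nat_lit 1) (nat_lit 0) (nat_lit 446) (nat_lit 353) (nat_lit 281)))) (XT.nd (nat_lit 188) (nat_lit 0) (nat_lit 0) (XT.nd (nat_lit 94) (nat_lit 0) (nat_lit 0) (XT.lf (nat_lit 0) (nat_lit 869122342813) (nat_lit 0) (nat_lit 0) (nat_lit 0) (nat_lit 0) (nat_lit 0) (nat_lit 0) (nat_lit 1) (nat_lit 0) (nat_lit 1) (nat_lit 0) (nat_lit 447) (nat_lit 353) (nat_lit 280)) (XT.lf (nat_lit 0) (nat_lit 938601658262) (nat_lit 0) (nat_lit 0) (nat_lit 0) (nat_lit 0) (nat_lit 0) (nat_lit 0) (nat_lit 1) (nat_lit 0) (nat_lit 1) (nat_lit 0) (nat_lit 448) (nat_lit 353) (nat_lit 279))) (XT.nd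 (nat_lit 94) (nat_lit 0) (nat_lit 0) (XT.lf (nat_lit 0) (nat_lit 1013639344912) (nat_lit 0) (nat_lit 0) (nat_lit 0) (nat_lit 0) (nat_lit 0) (nat_lit 0) (nat_lit 1) (nat_lit 0) (nat_lit 1) (nat_lit 0) (nat_lit 449) (nat_lit 353) (nat_lit 278)) (XT.lf (nat_lit 0) (nat_lit 1094680070536) (nat_lit 0) (nat_lit 0) (nat_lit 0) (nat_lit 0) (nat_lit 0) (nat_lit 0) (nat_lit 1) (nat_lit 0) (nat_lit 1) (nat_lit 0) (nat_lit 450) (nat_lit 353) (nat_lit 277))))) (XT.nd (nat_lit 282) (nat_lit 0) (nat_lit 0) (XT.nd (nat_lit 94) (nat_lit 0) (nat_lit 0) (XT.lf (nat_lit 0) (nat_lit 1182204076471) (nat_lit 0) (nat_lit 0) (nat_lit 0) (nat_lit 0) (nat_lit 0) (nat_lit 0) (nat_lit 1) (nat_lit 0) (nat_lit 1) (nat_lit 0) (nat_lit 451) (nat_lit 353) (nat_lit 276)) (XT.nd (nat_lit 94) (nat_lit 0) (nat_lit 0) (XT.lf (nat_lit 0) (nat_lit 1276730023493) (nat_lit 0) (nat_lit 0) (nat_lit 0)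 (nat_lit 0) (nat_lit 0) (nat_lit 0) (nat_lit 1) (nat_lit 0) (nat_lit 1) (nat_lit 0) (nat_lit 452) (nat_lit 353) (nat_lit 275)) (XT.lf (nat_lit 0) (nat_lit 1378818065363) (nat_lit 0) (nat_lit 0) (nat_lit 0) (nat_lit 0) (nat_lit 0) (nat_lit 0) (nat_lit 1) (nat_lit 0) (nat_lit 1) (nat_lit 0) (nat_lit 453) (nat_lit 353) (nat_lit 274)))) (XT.nd (nat_lit 188) (nat_lit 0) (nat_lit 0) (XT.nd (nat_lit 94) (nat_lit 0) (nat_lit 0) (XT.lf (nat_lit 0) (nat_lit 1489073168253) (nat_lit 0) (nat_lit 0) (nat_lit 0) (nat_lit 0) (nat_lit 0) (nat_lit 0) (nat_lit 1) (nat_lit 0) (nat_lit 1) (nat_lit 0) (nat_lit 454) (nat_lit 353) (nat_lit 273)) (XT.lf (nat_lit 0) (nat_lit 1608148695737) (nat_lit 0) (nat_lit 0) (nat_lit 0) (nat_lit 0) (nat_lit 0) (nat_lit 0) (nat_lit 1) (nat_lit 0) (nat_lit 1) (nat_lit 0) (nat_lit 455) (nat_lit 353) (nat_lit 272))) (XT.nd (nat_lit 94) (nat_lit 0)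 (nat_lit 0) (XT.lf (nat_lit 0) (nat_lit 1736750280571) (nat_lit 0) (nat_lit 0) (nat_lit 0) (nat_lit 0) (nat_lit 0) (nat_lit 0) (nat_lit 1) (nat_lit 0) (nat_lit 1) (nat_lit 0) (nat_lit 456) (nat_lit 353) (nat_lit 271)) (XT.lf (nat_lit 0) (nat_lit 1875640006219) (nat_lit 0) (nat_lit 0) (nat_lit 0) (nat_lit 0) (nat_lit 0) (nat_lit 0) (nat_lit 1) (nat_lit 0) (nat_lit 1) (nat_lit 0) (nat_lit 457) (nat_lit 353) (nat_lit 270))))))) (XT.nd (nat_lit 1316) (nat_lit 0) (nat_lit 0) (XT.nd (nat_lit 658) (nat_lit 0) (nat_lit 0) (XT.nd (nat_lit 282) (nat_lit 0) (nat_lit 0) (XT.nd (nat_lit 94) (nat_lit 0) (nat_lit 0) (XT.lf (nat_lit 0) (nat_lit 2025640922909) (nat_lit 0) (nat_lit 0) (nat_lit 0) (nat_lit 0) (nat_lit 0) (nat_lit 0) (nat_lit 1) (nat_lit 0) (nat_lit 1) (nat_lit 0) (nat_lit 458) (nat_lit 353) (nat_lit 269)) (XT.nd (nat_lit 94) (nat_lit 0) (nat_lit 0) (XT.lf (nat_lit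 0) (nat_lit 2187641924961) (nat_lit 0) (nat_lit 0) (nat_lit 0) (nat_lit 0) (nat_lit 0) (nat_lit 0) (nat_lit 1) (nat_lit 0) (nat_lit 1) (nat_lit 0) (nat_lit 459) (nat_lit 353) (nat_lit 268)) (XT.lf (nat_lit 0) (nat_lit 2362603018313) (nat_lit 0) (nat_lit 0) (nat_lit 0) (nat_lit 0) (nat_lit 0) (nat_lit 0) (nat_lit 1) (nat_lit 0) (nat_lit 1) (nat_lit 0) (nat_lit 460) (nat_lit 353) (nat_lit 267)))) (XT.nd (nat_lit 188) (nat_lit 0) (nat_lit 0) (XT.nd (nat_lit 94) (nat_lit 0) (nat_lit 0) (XT.lf (nat_lit 0) (nat_lit 2551561009445) (nat_lit 0) (nat_lit 0) (nat_lit 0) (nat_lit 0) (nat_lit 0) (nat_lit 0) (nat_lit 1) (nat_lit 0) (nat_lit 1) (nat_lit 0) (nat_lit 461) (nat_lit 353) (nat_lit 266)) (XT.lf (nat_lit 0) (nat_lit 2755635649414) (nat_lit 0) (nat_lit 0) (nat_lit 0) (nat_lit 0) (nat_lit 0) (nat_lit 0) (nat_lit 1) (nat_lit 0) (nat_lit 1) (nat_lit 0) (nat_lit 462)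 (nat_lit 353) (nat_lit 265))) (XT.nd (nat_lit 94) (nat_lit 0) (nat_lit 0) (XT.lf (nat_lit 0) (nat_lit 2976036269421) (nat_lit 0) (nat_lit 0) (nat_lit 0) (nat_lit 0) (nat_lit 0) (nat_lit 0) (nat_lit 1) (nat_lit 0) (nat_lit 1) (nat_lit 0) (nat_lit 463) (nat_lit 353) (nat_lit 264)) (XT.lf (nat_lit 0) (nat_lit 3214068947214) (nat_lit 0) (nat_lit 0) (nat_lit 0) (nat_lit 0) (nat_lit 0) (nat_lit 0) (nat_lit 1) (nat_lit 0) (nat_lit 1) (nat_lit 0) (nat_lit 464) (nat_lit 353) (nat_lit 263))))) (XT.nd (nat_lit 282) (nat_lit 0) (nat_lit 0) (XT.nd (nat_lit 94) (nat_lit 0) (nat_lit 0) (XT.lf (nat_lit 0) (nat_lit 3471144246810) (nat_lit 0) (nat_lit 0) (nat_lit 0) (nat_lit 0) (nat_lit 0) (nat_lit 0) (nat_lit 1) (nat_lit 0) (nat_lit 1) (nat_lit 0) (nat_lit 465) (nat_lit 353) (nat_lit 262)) (XT.nd (nat_lit 94) (nat_lit 0) (nat_lit 0) (XT.lf (nat_lit 0) (nat_lit 3748785577391)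 (nat_lit 0) (nat_lit 0) (nat_lit 0) (nat_lit 0) (nat_lit 0) (nat_lit 0) (nat_lit 1) (nat_lit 0) (nat_lit 1) (nat_lit 0) (nat_lit 466) (nat_lit 353) (nat_lit 261)) (XT.lf (nat_lit 0) (nat_lit 4048638220916) (nat_lit 0) (nat_lit 0) (nat_lit 0) (nat_lit 0) (nat_lit 0) (nat_lit 0) (nat_lit 1) (nat_lit 0) (nat_lit 1) (nat_lit 0) (nat_lit 467) (nat_lit 353) (nat_lit 260)))) (XT.nd (nat_lit 188) (nat_lit 0) (nat_lit 0) (XT.nd (nat_lit 94) (nat_lit 0) (nat_lit 0) (XT.lf (nat_lit 0) (nat_lit 4372479081940) (nat_lit 0) (nat_lit 0) (nat_lit 0) (nat_lit 0) (nat_lit 0) (nat_lit 0) (nat_lit 1) (nat_lit 0) (nat_lit 1) (nat_lit 0) (nat_lit 468) (nat_lit 353) (nat_lit 259)) (XT.lf (nat_lit 0) (nat_lit 4722227217417) (nat_lit 0) (nat_lit 0) (nat_lit 0) (nat_lit 0) (nat_lit 0) (nat_lit 0) (nat_lit 1) (nat_lit 0) (nat_lit 1) (nat_lit 0) (nat_lit 469) (nat_lit 353) (nat_lit 258)))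 (XT.nd (nat_lit 94) (nat_lit 0) (nat_lit 0) (XT.lf (nat_lit 0) (nat_lit 5099955208890) (nat_lit 0) (nat_lit 0) (nat_lit 0) (nat_lit 0) (nat_lit 0) (nat_lit 0) (nat_lit 1) (nat_lit 0) (nat_lit 1) (nat_lit 0) (nat_lit 470) (nat_lit 353) (nat_lit 257)) (XT.lf (nat_lit 0) (nat_lit 5507901444456) (nat_lit 0) (nat_lit 0) (nat_lit 0) (nat_lit 0) (nat_lit 0) (nat_lit 0) (nat_lit 1) (nat_lit 0) (nat_lit 1) (nat_lit 0) (nat_lit 471) (nat_lit 353) (nat_lit 256)))))) (XT.nd (nat_lit 658) (nat_lit 0) (nat_lit 0) (XT.nd (nat_lit 282) (nat_lit 0) (nat_lit 0) (XT.nd (nat_lit 94) (nat_lit 0) (nat_lit 0) (XT.lf (nat_lit 0) (nat_lit 5948483383291) (nat_lit 0) (nat_lit 0) (nat_lit 0) (nat_lit 0) (nat_lit 0) (nat_lit 0) (nat_lit 1) (nat_lit 0) (nat_lit 1) (nat_lit 0) (nat_lit 472) (nat_lit 353) (nat_lit 255)) (XT.nd (nat_lit 94) (nat_lit 0) (nat_lit 0) (XT.lf (nat_lit 0) (nat_lit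 6424311881327) (nat_lit 0) (nat_lit 0) (nat_lit 0) (nat_lit 0) (nat_lit 0) (nat_lit 0) (nat_lit 1) (nat_lit 0) (nat_lit 1) (nat_lit 0) (nat_lit 473) (nat_lit 353) (nat_lit 254)) (XT.lf (nat_lit 0) (nat_lit 6938206662997) (nat_lit 0) (nat_lit 0) (nat_lit 0) (nat_lit 0) (nat_lit 0) (nat_lit 0) (nat_lit 1) (nat_lit 0) (nat_lit 1) (nat_lit 0) (nat_lit 474) (nat_lit 353) (nat_lit 253)))) (XT.nd (nat_lit 188) (nat_lit 0) (nat_lit 0) (XT.nd (nat_lit 94) (nat_lit 0) (nat_lit 0) (XT.lf (nat_lit 0) (nat_lit 7493213030711) (nat_lit 0) (nat_lit 0) (nat_lit 0) (nat_lit 0) (nat_lit 0) (nat_lit 0) (nat_lit 1) (nat_lit 0) (nat_lit 1) (nat_lit 0) (nat_lit 475) (nat_lit 353) (nat_lit 252)) (XT.lf (nat_lit 0) (nat_lit 8092619911093) (nat_lit 0) (nat_lit 0) (nat_lit 0) (nat_lit 0) (nat_lit 0) (nat_lit 0) (nat_lit 1) (nat_lit 0) (nat_lit 1) (nat_lit 0) (nat_lit 476) (nat_lit 353)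 (nat_lit 251))) (XT.nd (nat_lit 94) (nat_lit 0) (nat_lit 0) (XT.lf (nat_lit 0) (nat_lit 8739979344916) (nat_lit 0) (nat_lit 0) (nat_lit 0) (nat_lit 0) (nat_lit 0) (nat_lit 0) (nat_lit 1) (nat_lit 0) (nat_lit 1) (nat_lit 0) (nat_lit 477) (nat_lit 353) (nat_lit 250)) (XT.lf (nat_lit 0) (nat_lit 9439127536231) (nat_lit 0) (nat_lit 0) (nat_lit 0) (nat_lit 0) (nat_lit 0) (nat_lit 0) (nat_lit 1) (nat_lit 0) (nat_lit 1) (nat_lit 0) (nat_lit 478) (nat_lit 353) (nat_lit 249))))) (XT.nd (nat_lit 282) (nat_lit 0) (nat_lit 0) (XT.nd (nat_lit 94) (nat_lit 0) (nat_lit 0) (XT.lf (nat_lit 0) (nat_lit 10194207585431) (nat_lit 0) (nat_lit 0) (nat_lit 0) (nat_lit 0) (nat_lit 0) (nat_lit 0) (nat_lit 1) (nat_lit 0) (nat_lit 1) (nat_lit 0) (nat_lit 479) (nat_lit 353) (nat_lit 248)) (XT.nd (nat_lit 94) (nat_lit 0) (nat_lit 0) (XT.lf (nat_lit 0) (nat_lit 11009694040957) (nat_lit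 0) (nat_lit 0) (nat_lit 0) (nat_lit 0) (nat_lit 0) (nat_lit 0) (nat_lit 1) (nat_lit 0) (nat_lit 1) (nat_lit 0) (nat_lit 480) (nat_lit 353) (nat_lit 247)) (XT.lf (nat_lit 0) (nat_lit 11890419415137) (nat_lit 0) (nat_lit 0) (nat_lit 0) (nat_lit 0) (nat_lit 0) (nat_lit 0) (nat_lit 1) (nat_lit 0) (nat_lit 1) (nat_lit 0) (nat_lit 481) (nat_lit 353) (nat_lit 246)))) (XT.nd (nat_lit 188) (nat_lit 0) (nat_lit 0) (XT.nd (nat_lit 94) (nat_lit 0) (nat_lit 0) (XT.lf (nat_lit 0) (nat_lit 12841602821300) (nat_lit 0) (nat_lit 0) (nat_lit 0) (nat_lit 0) (nat_lit 0) (nat_lit 0) (nat_lit 1) (nat_lit 0) (nat_lit 1) (nat_lit 0) (nat_lit 482) (nat_lit 353) (nat_lit 245)) (XT.lf (nat_lit 0) (nat_lit 13868880901853) (nat_lit 0) (nat_lit 0) (nat_lit 0) (nat_lit 0) (nat_lit 0) (nat_lit 0) (nat_lit 1) (nat_lit 0) (nat_lit 1) (nat_lit 0) (nat_lit 483) (nat_lit 353) (nat_lit 244))) (XT.nd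 (nat_lit 94) (nat_lit 0) (nat_lit 0) (XT.lf (nat_lit 0) (nat_lit 14978341230606) (nat_lit 0) (nat_lit 0) (nat_lit 0) (nat_lit 0) (nat_lit 0) (nat_lit 0) (nat_lit 1) (nat_lit 0) (nat_lit 1) (nat_lit 0) (nat_lit 484) (nat_lit 353) (nat_lit 243)) (XT.lf (nat_lit 0) (nat_lit 16176558387285) (nat_lit 0) (nat_lit 0) (nat_lit 0) (nat_lit 0) (nat_lit 0) (nat_lit 0) (nat_lit 1) (nat_lit 0) (nat_lit 1) (nat_lit 0) (nat_lit 485) (nat_lit 353) (nat_lit 242))))))))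
noncomputable def xc73 : XT := (XT.nd (nat_lit 58938) (nat_lit 0) (nat_lit 0) (XT.nd (nat_lit 57622) (nat_lit 0) (nat_lit 3276) (XT.nd (nat_lit 658) (nat_lit 0) (nat_lit 0) (XT.nd (nat_lit 282) (nat_lit 0) (nat_lit 0) (XT.nd (nat_lit 94) (nat_lit 0) (nat_lit 0) (XT.lf (nat_lit 0) (nat_lit 17470632918004) (nat_lit 0) (nat_lit 0) (nat_lit 0) (nat_lit 0) (nat_lit 0) (nat_lit 0) (nat_lit 1) (nat_lit 0) (nat_lit 1) (nat_lit 0) (nat_lit 486) (nat_lit 353) (nat_lit 241)) (XT.nd (nat_lit 94) (nat_lit 0) (nat_lit 0) (XT.lf (nat_lit 0) (nat_lit 18868233412575) (nat_lit 0) (nat_lit 0) (nat_lit 0) (nat_lit 0) (nat_lit 0) (nat_lit 0) (nat_lit 1) (nat_lit 0) (nat_lit 1) (nat_lit 0) (nat_lit 487) (nat_lit 353) (nat_lit 240)) (XT.lf (nat_lit 0) (nat_lit 20377641948002) (nat_lit 0) (nat_lit 0) (nat_lit 0) (nat_lit 0) (nat_lit 0) (nat_lit 0) (nat_lit 1) (nat_lit 0) (nat_lit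 1) (nat_lit 0) (nat_lit 488) (nat_lit 353) (nat_lit 239)))) (XT.nd (nat_lit 188) (nat_lit 0) (nat_lit 0) (XT.nd (nat_lit 94) (nat_lit 0) (nat_lit 0) (XT.lf (nat_lit 0) (nat_lit 22007803167459) (nat_lit 0) (nat_lit 0) (nat_lit 0) (nat_lit 0) (nat_lit 0) (nat_lit 0) (nat_lit 1) (nat_lit 0) (nat_lit 1) (nat_lit 0) (nat_lit 489) (nat_lit 353) (nat_lit 238)) (XT.lf (nat_lit 0) (nat_lit 23768377285579) (nat_lit 0) (nat_lit 0) (nat_lit 0) (nat_lit 0) (nat_lit 0) (nat_lit 0) (nat_lit 1) (nat_lit 0) (nat_lit 1) (nat_lit 0) (nat_lit 490) (nat_lit 353) (nat_lit 237))) (XT.nd (nat_lit 94) (nat_lit 0) (nat_lit 0) (XT.lf (nat_lit 0) (nat_lit 25669797334173) (nat_lit 0) (nat_lit 0) (nat_lit 0) (nat_lit 0) (nat_lit 0) (nat_lit 0) (nat_lit 1) (nat_lit 0) (nat_lit 1) (nat_lit 0) (nat_lit 491) (nat_lit 353) (nat_lit 236)) (XT.lf (nat_lit 0) (nat_lit 27723330987604) (nat_lit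 0) (nat_lit 0) (nat_lit 0) (nat_lit 0) (nat_lit 0) (nat_lit 0) (nat_lit 1) (nat_lit 0) (nat_lit 1) (nat_lit 0) (nat_lit 492) (nat_lit 353) (nat_lit 235))))) (XT.nd (nat_lit 56588) (nat_lit 0) (nat_lit 7392) (XT.nd (nat_lit 56400) (nat_lit 0) (nat_lit 9156) (XT.lf (nat_lit 0) (nat_lit 29941147334188) (nat_lit 0) (nat_lit 0) (nat_lit 0) (nat_lit 0) (nat_lit 0) (nat_lit 0) (nat_lit 1) (nat_lit 0) (nat_lit 1) (nat_lit 0) (nat_lit 493) (nat_lit 353) (nat_lit 234)) (XT.nd (nat_lit 94) (nat_lit 504) (nat_lit 0) (XT.lf (nat_lit 0) (nat_lit 953154673) (nat_lit 504) (nat_lit 1829909185) (nat_lit 0) (nat_lit 953154673) (nat_lit 115) (nat_lit 5) (nat_lit 121) (nat_lit 4) (nat_lit 115) (nat_lit 4) (nat_lit 372) (nat_lit 354) (nat_lit 354)) (XT.lf (nat_lit 0) (nat_lit 264130525) (nat_lit 504) (nat_lit 1702615984) (nat_lit 84) (nat_lit 5688610984) (nat_lit 109) (nat_lit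 5) (nat_lit 115) (nat_lit 5) (nat_lit 110) (nat_lit 4) (nat_lit 373) (nat_lit 354) (nat_lit 353)))) (XT.nd (nat_lit 188) (nat_lit 672) (nat_lit 0) (XT.nd (nat_lit 94) (nat_lit 420) (nat_lit 0) (XT.lf (nat_lit 0) (nat_lit 402558769) (nat_lit 336) (nat_lit 5785407087) (nat_lit 336) (nat_lit 1669274981) (nat_lit 101) (nat_lit 4) (nat_lit 105) (nat_lit 5) (nat_lit 105) (nat_lit 4) (nat_lit 374) (nat_lit 354) (nat_lit 352)) (XT.lf (nat_lit 0) (nat_lit 2727418144) (nat_lit 336) (nat_lit 1504715521) (nat_lit 420) (nat_lit 3846317030) (nat_lit 96) (nat_lit 5) (nat_lit 100) (nat_lit 5) (nat_lit 101) (nat_lit 4) (nat_lit 375) (nat_lit 354) (nat_lit 351))) (XT.nd (nat_lit 94) (nat_lit 252) (nat_lit 0) (XT.lf (nat_lit 0) (nat_lit 2034408901) (nat_lit 420) (nat_lit 3110463608) (nat_lit 84) (nat_lit 3175642924) (nat_lit 91) (nat_lit 5) (nat_lit 96) (nat_lit 5) (nat_lit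 92) (nat_lit 4) (nat_lit 376) (nat_lit 354) (nat_lit 350)) (XT.lf (nat_lit 0) (nat_lit 7876828216) (nat_lit 252) (nat_lit 247048147) (nat_lit 336) (nat_lit 461264285) (nat_lit 88) (nat_lit 5) (nat_lit 91) (nat_lit 5) (nat_lit 92) (nat_lit 4) (nat_lit 377) (nat_lit 354) (nat_lit 349)))))) (XT.nd (nat_lit 658) (nat_lit 1596) (nat_lit 0) (XT.nd (nat_lit 282) (nat_lit 1260) (nat_lit 0) (XT.nd (nat_lit 94) (nat_lit 588) (nat_lit 0) (XT.lf (nat_lit 0) (nat_lit 1838871943) (nat_lit 252) (nat_lit 3779351935) (nat_lit 336) (nat_lit 3249399157) (nat_lit 80) (nat_lit 5) (nat_lit 83) (nat_lit 5) (nat_lit 84) (nat_lit 4) (nat_lit 378) (nat_lit 354) (nat_lit 348)) (XT.nd (nat_lit 94) (nat_lit 252) (nat_lit 0) (XT.lf (nat_lit 0) (nat_lit 2827502180) (nat_lit 336) (nat_lit 4584654624) (nat_lit 84) (nat_lit 1761440906) (nat_lit 76) (nat_lit 5) (nat_lit 80) (nat_lit 5) (nat_lit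 77) (nat_lit 4) (nat_lit 379) (nat_lit 354) (nat_lit 347)) (XT.lf (nat_lit 0) (nat_lit 7493101167) (nat_lit 252) (nat_lit 1751475843) (nat_lit 336) (nat_lit 258416681) (nat_lit 73) (nat_lit 5) (nat_lit 76) (nat_lit 5) (nat_lit 77) (nat_lit 4) (nat_lit 380) (nat_lit 354) (nat_lit 346)))) (XT.nd (nat_lit 188) (nat_lit 420) (nat_lit 0) (XT.nd (nat_lit 94) (nat_lit 336) (nat_lit 0) (XT.lf (nat_lit 0) (nat_lit 673800480) (nat_lit 168) (nat_lit 5441518312) (nat_lit 252) (nat_lit 3738431690) (nat_lit 67) (nat_lit 5) (nat_lit 69) (nat_lit 5) (nat_lit 70) (nat_lit 4) (nat_lit 381) (nat_lit 354) (nat_lit 345)) (XT.lf (nat_lit 0) (nat_lit 2685307789) (nat_lit 336) (nat_lit 6630537982) (nat_lit 84) (nat_lit 913556432) (nat_lit 63) (nat_lit 5) (nat_lit 67) (nat_lit 5) (nat_lit 64) (nat_lit 4) (nat_lit 382) (nat_lit 354) (nat_lit 344))) (XT.nd (nat_lit 94) (nat_lit 252)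 (nat_lit 0) (XT.lf (nat_lit 0) (nat_lit 6644305869) (nat_lit 168) (nat_lit 2894901254) (nat_lit 252) (nat_lit 1090472793) (nat_lit 61) (nat_lit 5) (nat_lit 63) (nat_lit 5) (nat_lit 64) (nat_lit 4) (nat_lit 383) (nat_lit 354) (nat_lit 343)) (XT.lf (nat_lit 0) (nat_lit 5727039687) (nat_lit 252) (nat_lit 1239819094) (nat_lit 84) (nat_lit 4088742345) (nat_lit 58) (nat_lit 5) (nat_lit 61) (nat_lit 5) (nat_lit 59) (nat_lit 4) (nat_lit 384) (nat_lit 354) (nat_lit 342))))) (XT.nd (nat_lit 282) (nat_lit 756) (nat_lit 0) (XT.nd (nat_lit 94) (nat_lit 420) (nat_lit 0) (XT.lf (nat_lit 0) (nat_lit 1554662139) (nat_lit 252) (nat_lit 9778255673) (nat_lit 84) (nat_lit 177243957) (nat_lit 53) (nat_lit 5) (nat_lit 56) (nat_lit 5) (nat_lit 54) (nat_lit 4) (nat_lit 385) (nat_lit 354) (nat_lit 341)) (XT.nd (nat_lit 94) (nat_lit 252) (nat_lit 0) (XT.lf (nat_lit 0) (nat_lit 4816647513)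 (nat_lit 168) (nat_lit 4129913997) (nat_lit 252) (nat_lit 3042922841) (nat_lit 51) (nat_lit 5) (nat_lit 53) (nat_lit 5) (nat_lit 54) (nat_lit 4) (nat_lit 386) (nat_lit 354) (nat_lit 340)) (XT.lf (nat_lit 0) (nat_lit 4359154970) (nat_lit 252) (nat_lit 4436041302) (nat_lit 84) (nat_lit 3704601581) (nat_lit 48) (nat_lit 5) (nat_lit 51) (nat_lit 5) (nat_lit 49) (nat_lit 4) (nat_lit 387) (nat_lit 354) (nat_lit 339)))) (XT.nd (nat_lit 188) (nat_lit 336) (nat_lit 0) (XT.nd (nat_lit 94) (nat_lit 336) (nat_lit 0) (XT.lf (nat_lit 0) (nat_lit 11495309894) (nat_lit 84) (nat_lit 857682180) (nat_lit 168) (nat_lit 690140051) (nat_lit 47) (nat_lit 5) (nat_lit 48) (nat_lit 5) (nat_lit 49) (nat_lit 4) (nat_lit 388) (nat_lit 354) (nat_lit 338)) (XT.lf (nat_lit 0) (nat_lit 1433623047) (nat_lit 84) (nat_lit 5886174418) (nat_lit 168) (nat_lit 6294450704) (nat_lit 43) (nat_lit 5)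 (nat_lit 44) (nat_lit 5) (nat_lit 45) (nat_lit 4) (nat_lit 389) (nat_lit 354) (nat_lit 337))) (XT.nd (nat_lit 94) (nat_lit 84) (nat_lit 0) (XT.lf (nat_lit 0) (nat_lit 1817305970) (nat_lit 252) (nat_lit 9554812187) (nat_lit 84) (nat_lit 2849212116) (nat_lit 40) (nat_lit 5) (nat_lit 43) (nat_lit 5) (nat_lit 41) (nat_lit 4) (nat_lit 390) (nat_lit 354) (nat_lit 336)) (XT.lf (nat_lit 0) (nat_lit 8007884856) (nat_lit 84) (nat_lit 2536758227) (nat_lit 168) (nat_lit 4317818136) (nat_lit 39) (nat_lit 5) (nat_lit 40) (nat_lit 5) (nat_lit 41) (nat_lit 4) (nat_lit 391) (nat_lit 354) (nat_lit 335))))))) (XT.nd (nat_lit 1316) (nat_lit 1008) (nat_lit 0) (XT.nd (nat_lit 658) (nat_lit 1008) (nat_lit 0) (XT.nd (nat_lit 282) (nat_lit 588) (nat_lit 0) (XT.nd (nat_lit 94) (nat_lit 420) (nat_lit 0) (XT.lf (nat_lit 0) (nat_lit 4489639603) (nat_lit 252) (nat_lit 4046387121) (nat_lit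 84) (nat_lit 7004625581) (nat_lit 36) (nat_lit 5) (nat_lit 39) (nat_lit 5) (nat_lit 37) (nat_lit 4) (nat_lit 392) (nat_lit 354) (nat_lit 334)) (XT.nd (nat_lit 94) (nat_lit 336) (nat_lit 0) (XT.lf (nat_lit 0) (nat_lit 14033364633) (nat_lit 168) (nat_lit 1068202476) (nat_lit 0) (nat_lit 1158845074) (nat_lit 35) (nat_lit 5) (nat_lit 37) (nat_lit 4) (nat_lit 35) (nat_lit 4) (nat_lit 393) (nat_lit 354) (nat_lit 333)) (XT.lf (nat_lit 0) (nat_lit 2034517740) (nat_lit 84) (nat_lit 5353508898) (nat_lit 168) (nat_lit 9628078921) (nat_lit 31) (nat_lit 5) (nat_lit 32) (nat_lit 5) (nat_lit 33) (nat_lit 4) (nat_lit 394) (nat_lit 354) (nat_lit 332)))) (XT.nd (nat_lit 188) (nat_lit 252) (nat_lit 0) (XT.nd (nat_lit 94) (nat_lit 84) (nat_lit 0) (XT.lf (nat_lit 0) (nat_lit 130666424) (nat_lit 252) (nat_lit 12427221245) (nat_lit 84) (nat_lit 5259524771) (nat_lit 28) (nat_lit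 5) (nat_lit 31) (nat_lit 5) (nat_lit 29) (nat_lit 4) (nat_lit 395) (nat_lit 354) (nat_lit 331)) (XT.lf (nat_lit 0) (nat_lit 8849172822) (nat_lit 84) (nat_lit 1754387217) (nat_lit 168) (nat_lit 8057833482) (nat_lit 27) (nat_lit 5) (nat_lit 28) (nat_lit 5) (nat_lit 29) (nat_lit 4) (nat_lit 396) (nat_lit 354) (nat_lit 330))) (XT.nd (nat_lit 94) (nat_lit 84) (nat_lit 0) (XT.lf (nat_lit 0) (nat_lit 2622458828) (nat_lit 168) (nat_lit 7068591788) (nat_lit 84) (nat_lit 9862214392) (nat_lit 25) (nat_lit 5) (nat_lit 27) (nat_lit 5) (nat_lit 26) (nat_lit 4) (nat_lit 397) (nat_lit 354) (nat_lit 329)) (XT.lf (nat_lit 0) (nat_lit 14158410886) (nat_lit 168) (nat_lit 4181025649) (nat_lit 0) (nat_lit 2156267717) (nat_lit 24) (nat_lit 5) (nat_lit 26) (nat_lit 4) (nat_lit 24) (nat_lit 4) (nat_lit 398) (nat_lit 354) (nat_lit 328))))) (XT.nd (nat_lit 282) (nat_lit 504) (nat_lit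 0) (XT.nd (nat_lit 94) (nat_lit 336) (nat_lit 0) (XT.lf (nat_lit 0) (nat_lit 5347078351) (nat_lit 168) (nat_lit 1179625443) (nat_lit 84) (nat_lit 14962514281) (nat_lit 22) (nat_lit 5) (nat_lit 24) (nat_lit 5) (nat_lit 23) (nat_lit 4) (nat_lit 399) (nat_lit 354) (nat_lit 327)) (XT.nd (nat_lit 94) (nat_lit 168) (nat_lit 0) (XT.lf (nat_lit 0) (nat_lit 2058903364) (nat_lit 84) (nat_lit 16081919014) (nat_lit 84) (nat_lit 4396363598) (nat_lit 20) (nat_lit 4) (nat_lit 21) (nat_lit 5) (nat_lit 21) (nat_lit 4) (nat_lit 400) (nat_lit 354) (nat_lit 326)) (XT.lf (nat_lit 0) (nat_lit 5500876123) (nat_lit 84) (nat_lit 2938109763) (nat_lit 168) (nat_lit 15202773969) (nat_lit 18) (nat_lit 5) (nat_lit 19) (nat_lit 5) (nat_lit 20) (nat_lit 4) (nat_lit 401) (nat_lit 354) (nat_lit 325)))) (XT.nd (nat_lit 188) (nat_lit 252) (nat_lit 0) (XT.nd (nat_lit 94) (nat_lit 168) (nat_lit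 0) (XT.lf (nat_lit 0) (nat_lit 9120156166) (nat_lit 84) (nat_lit 13511977321) (nat_lit 84) (nat_lit 2174712713) (nat_lit 17) (nat_lit 4) (nat_lit 18) (nat_lit 5) (nat_lit 18) (nat_lit 4) (nat_lit 402) (nat_lit 354) (nat_lit 324)) (XT.lf (nat_lit 0) (nat_lit 11912404223) (nat_lit 168) (nat_lit 13096815534) (nat_lit 0) (nat_lit 1026756317) (nat_lit 15) (nat_lit 5) (nat_lit 17) (nat_lit 4) (nat_lit 15) (nat_lit 4) (nat_lit 403) (nat_lit 354) (nat_lit 323))) (XT.nd (nat_lit 94) (nat_lit 84) (nat_lit 0) (XT.lf (nat_lit 0) (nat_lit 293527184) (nat_lit 168) (nat_lit 10365632956) (nat_lit 84) (nat_lit 16672990876) (nat_lit 13) (nat_lit 5) (nat_lit 15) (nat_lit 5) (nat_lit 14) (nat_lit 4) (nat_lit 404) (nat_lit 354) (nat_lit 322)) (XT.lf (nat_lit 0) (nat_lit 15844702330) (nat_lit 168) (nat_lit 7524430168) (nat_lit 0) (nat_lit 5327534290) (nat_lit 12) (nat_lit 5) (nat_lit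 14) (nat_lit 4) (nat_lit 12) (nat_lit 4) (nat_lit 405) (nat_lit 354) (nat_lit 321)))))) (XT.nd (nat_lit 658) (nat_lit 0) (nat_lit 0) (XT.nd (nat_lit 282) (nat_lit 504) (nat_lit 0) (XT.nd (nat_lit 94) (nat_lit 336) (nat_lit 0) (XT.lf (nat_lit 0) (nat_lit 2989828690) (nat_lit 168) (nat_lit 4454741232) (nat_lit 84) (nat_lit 22693883783) (nat_lit 10) (nat_lit 5) (nat_lit 12) (nat_lit 5) (nat_lit 11) (nat_lit 4) (nat_lit 406) (nat_lit 354) (nat_lit 320)) (XT.nd (nat_lit 94) (nat_lit 252) (nat_lit 0) (XT.lf (nat_lit 0) (nat_lit 20257662869) (nat_lit 168) (nat_lit 1278008084) (nat_lit 0) (nat_lit 10118929835) (nat_lit 9) (nat_lit 5) (nat_lit 11) (nat_lit 4) (nat_lit 9) (nat_lit 4) (nat_lit 407) (nat_lit 354) (nat_lit 319)) (XT.lf (nat_lit 0) (nat_lit 2258843824) (nat_lit 84) (nat_lit 3815329959) (nat_lit 168) (nat_lit 27181532600) (nat_lit 6) (nat_lit 5) (nat_lit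 7) (nat_lit 5) (nat_lit 8) (nat_lit 4) (nat_lit 408) (nat_lit 354) (nat_lit 318)))) (XT.nd (nat_lit 188) (nat_lit 252) (nat_lit 0) (XT.nd (nat_lit 94) (nat_lit 168) (nat_lit 0) (XT.lf (nat_lit 0) (nat_lit 5946375111) (nat_lit 84) (nat_lit 19373127820) (nat_lit 84) (nat_lit 9617264658) (nat_lit 5) (nat_lit 4) (nat_lit 6) (nat_lit 5) (nat_lit 6) (nat_lit 4) (nat_lit 409) (nat_lit 354) (nat_lit 317)) (XT.lf (nat_lit 0) (nat_lit 9663779077) (nat_lit 168) (nat_lit 26720569960) (nat_lit 0) (nat_lit 330115926) (nat_lit 3) (nat_lit 5) (nat_lit 5) (nat_lit 4) (nat_lit 3) (nat_lit 4) (nat_lit 410) (nat_lit 354) (nat_lit 316))) (XT.nd (nat_lit 94) (nat_lit 168) (nat_lit 0) (XT.lf (nat_lit 0) (nat_lit 14160020583) (nat_lit 84) (nat_lit 16897015430) (nat_lit 84) (nat_lit 7524125519) (nat_lit 2) (nat_lit 4) (nat_lit 3) (nat_lit 5) (nat_lit 3) (nat_lit 4) (nat_lit 411) (nat_lit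 354) (nat_lit 315)) (XT.lf (nat_lit 0) (nat_lit 59447949901) (nat_lit 0) (nat_lit 0) (nat_lit 0) (nat_lit 0) (nat_lit 0) (nat_lit 0) (nat_lit 1) (nat_lit 0) (nat_lit 1) (nat_lit 0) (nat_lit 412) (nat_lit 354) (nat_lit 314))))) (XT.nd (nat_lit 376) (nat_lit 0) (nat_lit 0) (XT.nd (nat_lit 188) (nat_lit 0) (nat_lit 0) (XT.nd (nat_lit 94) (nat_lit 0) (nat_lit 0) (XT.lf (nat_lit 0) (nat_lit 64144855890) (nat_lit 0) (nat_lit 0) (nat_lit 0) (nat_lit 0) (nat_lit 0) (nat_lit 0) (nat_lit 1) (nat_lit 0) (nat_lit 1) (nat_lit 0) (nat_lit 413) (nat_lit 354) (nat_lit 313)) (XT.lf (nat_lit 0) (nat_lit 69217869828) (nat_lit 0) (nat_lit 0) (nat_lit 0) (nat_lit 0) (nat_lit 0) (nat_lit 0) (nat_lit 1) (nat_lit 0) (nat_lit 1) (nat_lit 0) (nat_lit 414) (nat_lit 354) (nat_lit 312))) (XT.nd (nat_lit 94) (nat_lit 0) (nat_lit 0) (XT.lf (nat_lit 0) (nat_lit 74697054019) (nat_lit 0) (nat_lit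 0) (nat_lit 0) (nat_lit 0) (nat_lit 0) (nat_lit 0) (nat_lit 1) (nat_lit 0) (nat_lit 1) (nat_lit 0) (nat_lit 415) (nat_lit 354) (nat_lit 311)) (XT.lf (nat_lit 0) (nat_lit 80614877705) (nat_lit 0) (nat_lit 0) (nat_lit 0) (nat_lit 0) (nat_lit 0) (nat_lit 0) (nat_lit 1) (nat_lit 0) (nat_lit 1) (nat_lit 0) (nat_lit 416) (nat_lit 354) (nat_lit 310)))) (XT.nd (nat_lit 188) (nat_lit 0) (nat_lit 0) (XT.nd (nat_lit 94) (nat_lit 0) (nat_lit 0) (XT.lf (nat_lit 0) (nat_lit 87006409468) (nat_lit 0) (nat_lit 0) (nat_lit 0) (nat_lit 0) (nat_lit 0) (nat_lit 0) (nat_lit 1) (nat_lit 0) (nat_lit 1) (nat_lit 0) (nat_lit 417) (nat_lit 354) (nat_lit 309)) (XT.lf (nat_lit 0) (nat_lit 93909525054) (nat_lit 0) (nat_lit 0) (nat_lit 0) (nat_lit 0) (nat_lit 0) (nat_lit 0) (nat_lit 1) (nat_lit 0) (nat_lit 1) (nat_lit 0) (nat_lit 418) (nat_lit 354) (nat_lit 308))) (XT.nd (nat_lit 94) (nat_lit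 0) (nat_lit 0) (XT.lf (nat_lit 0) (nat_lit 101365131813) (nat_lit 0) (nat_lit 0) (nat_lit 0) (nat_lit 0) (nat_lit 0) (nat_lit 0) (nat_lit 1) (nat_lit 0) (nat_lit 1) (nat_lit 0) (nat_lit 419) (nat_lit 354) (nat_lit 307)) (XT.lf (nat_lit 0) (nat_lit 109417411120) (nat_lit 0) (nat_lit 0) (nat_lit 0) (nat_lit 0) (nat_lit 0) (nat_lit 0) (nat_lit 1) (nat_lit 0) (nat_lit 1) (nat_lit 0) (nat_lit 420) (nat_lit 354) (nat_lit 306))))))))
noncomputable def xc74 : XT := (XT.nd (nat_lit 2632) (nat_lit 0) (nat_lit 0) (XT.nd (nat_lit 1316) (nat_lit 0) (nat_lit 0) (XT.nd (nat_lit 658) (nat_lit 0) (nat_lit 0) (XT.nd (nat_lit 282) (nat_lit 0) (nat_lit 0) (XT.nd (nat_lit 94) (nat_lit 0) (nat_lit 0) (XT.lf (nat_lit 0) (nat_lit 118114080185) (nat_lit 0) (nat_lit 0) (nat_lit 0) (nat_lit 0) (nat_lit 0) (nat_lit 0) (nat_lit 1) (nat_lit 0) (nat_lit 1) (nat_lit 0) (nat_lit 421) (nat_lit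 354) (nat_lit 305)) (XT.nd (nat_lit 94) (nat_lit 0) (nat_lit 0) (XT.lf (nat_lit 0) (nat_lit 127506674824) (nat_lit 0) (nat_lit 0) (nat_lit 0) (nat_lit 0) (nat_lit 0) (nat_lit 0) (nat_lit 1) (nat_lit 0) (nat_lit 1) (nat_lit 0) (nat_lit 422) (nat_lit 354) (nat_lit 304)) (XT.lf (nat_lit 0) (nat_lit 137650854857) (nat_lit 0) (nat_lit 0) (nat_lit 0) (nat_lit 0) (nat_lit 0) (nat_lit 0) (nat_lit 1) (nat_lit 0) (nat_lit 1) (nat_lit 0) (nat_lit 423) (nat_lit 354) (nat_lit 303)))) (XT.nd (nat_lit 188) (nat_lit 0) (nat_lit 0) (XT.nd (nat_lit 94) (nat_lit 0) (nat_lit 0) (XT.lf (nat_lit 0) (nat_lit 148606733945) (nat_lit 0) (nat_lit 0) (nat_lit 0) (nat_lit 0) (nat_lit 0) (nat_lit 0) (nat_lit 1) (nat_lit 0) (nat_lit 1) (nat_lit 0) (nat_lit 424) (nat_lit 354) (nat_lit 302)) (XT.lf (nat_lit 0) (nat_lit 160439235814) (nat_lit 0) (nat_lit 0) (nat_lit 0) (nat_lit 0) (nat_lit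 0) (nat_lit 0) (nat_lit 1) (nat_lit 0) (nat_lit 1) (nat_lit 0) (nat_lit 425) (nat_lit 354) (nat_lit 301))) (XT.nd (nat_lit 94) (nat_lit 0) (nat_lit 0) (XT.lf (nat_lit 0) (nat_lit 173218478996) (nat_lit 0) (nat_lit 0) (nat_lit 0) (nat_lit 0) (nat_lit 0) (nat_lit 0) (nat_lit 1) (nat_lit 0) (nat_lit 1) (nat_lit 0) (nat_lit 426) (nat_lit 354) (nat_lit 300)) (XT.lf (nat_lit 0) (nat_lit 187020192337) (nat_lit 0) (nat_lit 0) (nat_lit 0) (nat_lit 0) (nat_lit 0) (nat_lit 0) (nat_lit 1) (nat_lit 0) (nat_lit 1) (nat_lit 0) (nat_lit 427) (nat_lit 354) (nat_lit 299))))) (XT.nd (nat_lit 282) (nat_lit 0) (nat_lit 0) (XT.nd (nat_lit 94) (nat_lit 0) (nat_lit 0) (XT.lf (nat_lit 0) (nat_lit 201926163769) (nat_lit 0) (nat_lit 0) (nat_lit 0) (nat_lit 0) (nat_lit 0) (nat_lit 0) (nat_lit 1) (nat_lit 0) (nat_lit 1) (nat_lit 0) (nat_lit 428) (nat_lit 354) (nat_lit 298)) (XT.nd (nat_lit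 94) (nat_lit 0) (nat_lit 0) (XT.lf (nat_lit 0) (nat_lit 218024724975) (nat_lit 0) (nat_lit 0) (nat_lit 0) (nat_lit 0) (nat_lit 0) (nat_lit 0) (nat_lit 1) (nat_lit 0) (nat_lit 1) (nat_lit 0) (nat_lit 429) (nat_lit 354) (nat_lit 297)) (XT.lf (nat_lit 0) (nat_lit 235411274836) (nat_lit 0) (nat_lit 0) (nat_lit 0) (nat_lit 0) (nat_lit 0) (nat_lit 0) (nat_lit 1) (nat_lit 0) (nat_lit 1) (nat_lit 0) (nat_lit 430) (nat_lit 354) (nat_lit 296)))) (XT.nd (nat_lit 188) (nat_lit 0) (nat_lit 0) (XT.nd (nat_lit 94) (nat_lit 0) (nat_lit 0) (XT.lf (nat_lit 0) (nat_lit 254188844758) (nat_lit 0) (nat_lit 0) (nat_lit 0) (nat_lit 0) (nat_lit 0) (nat_lit 0) (nat_lit 1) (nat_lit 0) (nat_lit 1) (nat_lit 0) (nat_lit 431) (nat_lit 354) (nat_lit 295)) (XT.lf (nat_lit 0) (nat_lit 274468709229) (nat_lit 0) (nat_lit 0) (nat_lit 0) (nat_lit 0) (nat_lit 0) (nat_lit 0) (nat_lit 1) (nat_lit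 0) (nat_lit 1) (nat_lit 0) (nat_lit 432) (nat_lit 354) (nat_lit 294))) (XT.nd (nat_lit 94) (nat_lit 0) (nat_lit 0) (XT.lf (nat_lit 0) (nat_lit 296371045225) (nat_lit 0) (nat_lit 0) (nat_lit 0) (nat_lit 0) (nat_lit 0) (nat_lit 0) (nat_lit 1) (nat_lit 0) (nat_lit 1) (nat_lit 0) (nat_lit 433) (nat_lit 354) (nat_lit 293)) (XT.lf (nat_lit 0) (nat_lit 320025644367) (nat_lit 0) (nat_lit 0) (nat_lit 0) (nat_lit 0) (nat_lit 0) (nat_lit 0) (nat_lit 1) (nat_lit 0) (nat_lit 1) (nat_lit 0) (nat_lit 434) (nat_lit 354) (nat_lit 292)))))) (XT.nd (nat_lit 658) (nat_lit 0) (nat_lit 0) (XT.nd (nat_lit 282) (nat_lit 0) (nat_lit 0) (XT.nd (nat_lit 94) (nat_lit 0) (nat_lit 0) (XT.lf (nat_lit 0) (nat_lit 345572682055) (nat_lit 0) (nat_lit 0) (nat_lit 0) (nat_lit 0) (nat_lit 0) (nat_lit 0) (nat_lit 1) (nat_lit 0) (nat_lit 1) (nat_lit 0) (nat_lit 435) (nat_lit 354) (nat_lit 291))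 (XT.nd (nat_lit 94) (nat_lit 0) (nat_lit 0) (XT.lf (nat_lit 0) (nat_lit 373163548145) (nat_lit 0) (nat_lit 0) (nat_lit 0) (nat_lit 0) (nat_lit 0) (nat_lit 0) (nat_lit 1) (nat_lit 0) (nat_lit 1) (nat_lit 0) (nat_lit 436) (nat_lit 354) (nat_lit 290)) (XT.lf (nat_lit 0) (nat_lit 402961744063) (nat_lit 0) (nat_lit 0) (nat_lit 0) (nat_lit 0) (nat_lit 0) (nat_lit 0) (nat_lit 1) (nat_lit 0) (nat_lit 1) (nat_lit 0) (nat_lit 437) (nat_lit 354) (nat_lit 289)))) (XT.nd (nat_lit 188) (nat_lit 0) (nat_lit 0) (XT.nd (nat_lit 94) (nat_lit 0) (nat_lit 0) (XT.lf (nat_lit 0) (nat_lit 435143851712) (nat_lit 0) (nat_lit 0) (nat_lit 0) (nat_lit 0) (nat_lit 0) (nat_lit 0) (nat_lit 1) (nat_lit 0) (nat_lit 1) (nat_lit 0) (nat_lit 438) (nat_lit 354) (nat_lit 288)) (XT.lf (nat_lit 0) (nat_lit 469900579878) (nat_lit 0) (nat_lit 0) (nat_lit 0) (nat_lit 0) (nat_lit 0) (nat_lit 0) (nat_lit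 1) (nat_lit 0) (nat_lit 1) (nat_lit 0) (nat_lit 439) (nat_lit 354) (nat_lit 287))) (XT.nd (nat_lit 94) (nat_lit 0) (nat_lit 0) (XT.lf (nat_lit 0) (nat_lit 507437894357) (nat_lit 0) (nat_lit 0) (nat_lit 0) (nat_lit 0) (nat_lit 0) (nat_lit 0) (nat_lit 1) (nat_lit 0) (nat_lit 1) (nat_lit 0) (nat_lit 440) (nat_lit 354) (nat_lit 286)) (XT.lf (nat_lit 0) (nat_lit 547978238495) (nat_lit 0) (nat_lit 0) (nat_lit 0) (nat_lit 0) (nat_lit 0) (nat_lit 0) (nat_lit 1) (nat_lit 0) (nat_lit 1) (nat_lit 0) (nat_lit 441) (nat_lit 354) (nat_lit 285))))) (XT.nd (nat_lit 282) (nat_lit 0) (nat_lit 0) (XT.nd (nat_lit 94) (nat_lit 0) (nat_lit 0) (XT.lf (nat_lit 0) (nat_lit 591761851368) (nat_lit 0) (nat_lit 0) (nat_lit 0) (nat_lit 0) (nat_lit 0) (nat_lit 0) (nat_lit 1) (nat_lit 0) (nat_lit 1) (nat_lit 0) (nat_lit 442) (nat_lit 354) (nat_lit 284)) (XT.nd (nat_lit 94) (nat_lit 0) (nat_lit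 0) (XT.lf (nat_lit 0) (nat_lit 639048191422) (nat_lit 0) (nat_lit 0) (nat_lit 0) (nat_lit 0) (nat_lit 0) (nat_lit 0) (nat_lit 1) (nat_lit 0) (nat_lit 1) (nat_lit 0) (nat_lit 443) (nat_lit 354) (nat_lit 283)) (XT.lf (nat_lit 0) (nat_lit 690117474007) (nat_lit 0) (nat_lit 0) (nat_lit 0) (nat_lit 0) (nat_lit 0) (nat_lit 0) (nat_lit 1) (nat_lit 0) (nat_lit 1) (nat_lit 0) (nat_lit 444) (nat_lit 354) (nat_lit 282)))) (XT.nd (nat_lit 188) (nat_lit 0) (nat_lit 0) (XT.nd (nat_lit 94) (nat_lit 0) (nat_lit 0) (XT.lf (nat_lit 0) (nat_lit 745272331907) (nat_lit 0) (nat_lit 0) (nat_lit 0) (nat_lit 0) (nat_lit 0) (nat_lit 0) (nat_lit 1) (nat_lit 0) (nat_lit 1) (nat_lit 0) (nat_lit 445) (nat_lit 354) (nat_lit 281)) (XT.lf (nat_lit 0) (nat_lit 804839608725) (nat_lit 0) (nat_lit 0) (nat_lit 0) (nat_lit 0) (nat_lit 0) (nat_lit 0) (nat_lit 1) (nat_lit 0) (nat_lit 1) (nat_lit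 0) (nat_lit 446) (nat_lit 354) (nat_lit 280))) (XT.nd (nat_lit 94) (nat_lit 0) (nat_lit 0) (XT.lf (nat_lit 0) (nat_lit 869172295731) (nat_lit 0) (nat_lit 0) (nat_lit 0) (nat_lit 0) (nat_lit 0) (nat_lit 0) (nat_lit 1) (nat_lit 0) (nat_lit 1) (nat_lit 0) (nat_lit 447) (nat_lit 354) (nat_lit 279)) (XT.lf (nat_lit 0) (nat_lit 938651623663) (nat_lit 0) (nat_lit 0) (nat_lit 0) (nat_lit 0) (nat_lit 0) (nat_lit 0) (nat_lit 1) (nat_lit 0) (nat_lit 1) (nat_lit 0) (nat_lit 448) (nat_lit 354) (nat_lit 278))))))) (XT.nd (nat_lit 1316) (nat_lit 0) (nat_lit 0) (XT.nd (nat_lit 658) (nat_lit 0) (nat_lit 0) (XT.nd (nat_lit 282) (nat_lit 0) (nat_lit 0) (XT.nd (nat_lit 94) (nat_lit 0) (nat_lit 0) (XT.lf (nat_lit 0) (nat_lit 1013689321872) (nat_lit 0) (nat_lit 0) (nat_lit 0) (nat_lit 0) (nat_lit 0) (nat_lit 0) (nat_lit 1) (nat_lit 0) (nat_lit 1) (nat_lit 0) (nat_lit 449) (nat_lit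 354) (nat_lit 277)) (XT.nd (nat_lit 94) (nat_lit 0) (nat_lit 0) (XT.lf (nat_lit 0) (nat_lit 1094730058198) (nat_lit 0) (nat_lit 0) (nat_lit 0) (nat_lit 0) (nat_lit 0) (nat_lit 0) (nat_lit 1) (nat_lit 0) (nat_lit 1) (nat_lit 0) (nat_lit 450) (nat_lit 354) (nat_lit 276)) (XT.lf (nat_lit 0) (nat_lit 1182254074043) (nat_lit 0) (nat_lit 0) (nat_lit 0) (nat_lit 0) (nat_lit 0) (nat_lit 0) (nat_lit 1) (nat_lit 0) (nat_lit 1) (nat_lit 0) (nat_lit 451) (nat_lit 354) (nat_lit 275)))) (XT.nd (nat_lit 188) (nat_lit 0) (nat_lit 0) (XT.nd (nat_lit 94) (nat_lit 0) (nat_lit 0) (XT.lf (nat_lit 0) (nat_lit 1276780030241) (nat_lit 0) (nat_lit 0) (nat_lit 0) (nat_lit 0) (nat_lit 0) (nat_lit 0) (nat_lit 1) (nat_lit 0) (nat_lit 1) (nat_lit 0) (nat_lit 452) (nat_lit 354) (nat_lit 274)) (XT.lf (nat_lit 0) (nat_lit 1378868080606) (nat_lit 0) (nat_lit 0) (nat_lit 0) (nat_lit 0) (nat_lit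 0) (nat_lit 0) (nat_lit 1) (nat_lit 0) (nat_lit 1) (nat_lit 0) (nat_lit 453) (nat_lit 354) (nat_lit 273))) (XT.nd (nat_lit 94) (nat_lit 0) (nat_lit 0) (XT.lf (nat_lit 0) (nat_lit 1489123191363) (nat_lit 0) (nat_lit 0) (nat_lit 0) (nat_lit 0) (nat_lit 0) (nat_lit 0) (nat_lit 1) (nat_lit 0) (nat_lit 1) (nat_lit 0) (nat_lit 454) (nat_lit 354) (nat_lit 272)) (XT.lf (nat_lit 0) (nat_lit 1608198726131) (nat_lit 0) (nat_lit 0) (nat_lit 0) (nat_lit 0) (nat_lit 0) (nat_lit 0) (nat_lit 1) (nat_lit 0) (nat_lit 1) (nat_lit 0) (nat_lit 455) (nat_lit 354) (nat_lit 271))))) (XT.nd (nat_lit 282) (nat_lit 0) (nat_lit 0) (XT.nd (nat_lit 94) (nat_lit 0) (nat_lit 0) (XT.lf (nat_lit 0) (nat_lit 1736800317709) (nat_lit 0) (nat_lit 0) (nat_lit 0) (nat_lit 0) (nat_lit 0) (nat_lit 0) (nat_lit 1) (nat_lit 0) (nat_lit 1) (nat_lit 0) (nat_lit 456) (nat_lit 354) (nat_lit 270)) (XT.nd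 (nat_lit 94) (nat_lit 0) (nat_lit 0) (XT.lf (nat_lit 0) (nat_lit 1875690049603) (nat_lit 0) (nat_lit 0) (nat_lit 0) (nat_lit 0) (nat_lit 0) (nat_lit 0) (nat_lit 1) (nat_lit 0) (nat_lit 1) (nat_lit 0) (nat_lit 457) (nat_lit 354) (nat_lit 269)) (XT.lf (nat_lit 0) (nat_lit 2025690972075) (nat_lit 0) (nat_lit 0) (nat_lit 0) (nat_lit 0) (nat_lit 0) (nat_lit 0) (nat_lit 1) (nat_lit 0) (nat_lit 1) (nat_lit 0) (nat_lit 458) (nat_lit 354) (nat_lit 268)))) (XT.nd (nat_lit 188) (nat_lit 0) (nat_lit 0) (XT.nd (nat_lit 94) (nat_lit 0) (nat_lit 0) (XT.lf (nat_lit 0) (nat_lit 2187691979481) (nat_lit 0) (nat_lit 0) (nat_lit 0) (nat_lit 0) (nat_lit 0) (nat_lit 0) (nat_lit 1) (nat_lit 0) (nat_lit 1) (nat_lit 0) (nat_lit 459) (nat_lit 354) (nat_lit 267)) (XT.lf (nat_lit 0) (nat_lit 2362653077790) (nat_lit 0) (nat_lit 0) (nat_lit 0) (nat_lit 0) (nat_lit 0) (nat_lit 0) (nat_lit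 1) (nat_lit 0) (nat_lit 1) (nat_lit 0) (nat_lit 460) (nat_lit 354) (nat_lit 266))) (XT.nd (nat_lit 94) (nat_lit 0) (nat_lit 0) (XT.lf (nat_lit 0) (nat_lit 2551611073512) (nat_lit 0) (nat_lit 0) (nat_lit 0) (nat_lit 0) (nat_lit 0) (nat_lit 0) (nat_lit 1) (nat_lit 0) (nat_lit 1) (nat_lit 0) (nat_lit 461) (nat_lit 354) (nat_lit 265)) (XT.lf (nat_lit 0) (nat_lit 2755685717731) (nat_lit 0) (nat_lit 0) (nat_lit 0) (nat_lit 0) (nat_lit 0) (nat_lit 0) (nat_lit 1) (nat_lit 0) (nat_lit 1) (nat_lit 0) (nat_lit 462) (nat_lit 354) (nat_lit 264)))))) (XT.nd (nat_lit 658) (nat_lit 0) (nat_lit 0) (XT.nd (nat_lit 282) (nat_lit 0) (nat_lit 0) (XT.nd (nat_lit 94) (nat_lit 0) (nat_lit 0) (XT.lf (nat_lit 0) (nat_lit 2976086341674) (nat_lit 0) (nat_lit 0) (nat_lit 0) (nat_lit 0) (nat_lit 0) (nat_lit 0) (nat_lit 1) (nat_lit 0) (nat_lit 1) (nat_lit 0) (nat_lit 463) (nat_lit 354)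 (nat_lit 263)) (XT.nd (nat_lit 94) (nat_lit 0) (nat_lit 0) (XT.lf (nat_lit 0) (nat_lit 3214119023111) (nat_lit 0) (nat_lit 0) (nat_lit 0) (nat_lit 0) (nat_lit 0) (nat_lit 0) (nat_lit 1) (nat_lit 0) (nat_lit 1) (nat_lit 0) (nat_lit 464) (nat_lit 354) (nat_lit 262)) (XT.lf (nat_lit 0) (nat_lit 3471194326080) (nat_lit 0) (nat_lit 0) (nat_lit 0) (nat_lit 0) (nat_lit 0) (nat_lit 0) (nat_lit 1) (nat_lit 0) (nat_lit 1) (nat_lit 0) (nat_lit 465) (nat_lit 354) (nat_lit 261)))) (XT.nd (nat_lit 188) (nat_lit 0) (nat_lit 0) (XT.nd (nat_lit 94) (nat_lit 0) (nat_lit 0) (XT.lf (nat_lit 0) (nat_lit 3748835659785) (nat_lit 0) (nat_lit 0) (nat_lit 0) (nat_lit 0) (nat_lit 0) (nat_lit 0) (nat_lit 1) (nat_lit 0) (nat_lit 1) (nat_lit 0) (nat_lit 466) (nat_lit 354) (nat_lit 260)) (XT.lf (nat_lit 0) (nat_lit 4048688306203) (nat_lit 0) (nat_lit 0) (nat_lit 0) (nat_lit 0) (nat_lit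 0) (nat_lit 0) (nat_lit 1) (nat_lit 0) (nat_lit 1) (nat_lit 0) (nat_lit 467) (nat_lit 354) (nat_lit 259))) (XT.nd (nat_lit 94) (nat_lit 0) (nat_lit 0) (XT.lf (nat_lit 0) (nat_lit 4372529169905) (nat_lit 0) (nat_lit 0) (nat_lit 0) (nat_lit 0) (nat_lit 0) (nat_lit 0) (nat_lit 1) (nat_lit 0) (nat_lit 1) (nat_lit 0) (nat_lit 468) (nat_lit 354) (nat_lit 258)) (XT.lf (nat_lit 0) (nat_lit 4722277307861) (nat_lit 0) (nat_lit 0) (nat_lit 0) (nat_lit 0) (nat_lit 0) (nat_lit 0) (nat_lit 1) (nat_lit 0) (nat_lit 1) (nat_lit 0) (nat_lit 469) (nat_lit 354) (nat_lit 257))))) (XT.nd (nat_lit 376) (nat_lit 0) (nat_lit 0) (XT.nd (nat_lit 188) (nat_lit 0) (nat_lit 0) (XT.nd (nat_lit 94) (nat_lit 0) (nat_lit 0) (XT.lf (nat_lit 0) (nat_lit 5100005301630) (nat_lit 0) (nat_lit 0) (nat_lit 0) (nat_lit 0) (nat_lit 0) (nat_lit 0) (nat_lit 1) (nat_lit 0) (nat_lit 1) (nat_lit 0) (nat_lit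 470) (nat_lit 354) (nat_lit 256)) (XT.lf (nat_lit 0) (nat_lit 5507951539323) (nat_lit 0) (nat_lit 0) (nat_lit 0) (nat_lit 0) (nat_lit 0) (nat_lit 0) (nat_lit 1) (nat_lit 0) (nat_lit 1) (nat_lit 0) (nat_lit 471) (nat_lit 354) (nat_lit 255))) (XT.nd (nat_lit 94) (nat_lit 0) (nat_lit 0) (XT.lf (nat_lit 0) (nat_lit 5948533480126) (nat_lit 0) (nat_lit 0) (nat_lit 0) (nat_lit 0) (nat_lit 0) (nat_lit 0) (nat_lit 1) (nat_lit 0) (nat_lit 1) (nat_lit 0) (nat_lit 472) (nat_lit 354) (nat_lit 254)) (XT.lf (nat_lit 0) (nat_lit 6424361979985) (nat_lit 0) (nat_lit 0) (nat_lit 0) (nat_lit 0) (nat_lit 0) (nat_lit 0) (nat_lit 1) (nat_lit 0) (nat_lit 1) (nat_lit 0) (nat_lit 473) (nat_lit 354) (nat_lit 253)))) (XT.nd (nat_lit 188) (nat_lit 0) (nat_lit 0) (XT.nd (nat_lit 94) (nat_lit 0) (nat_lit 0) (XT.lf (nat_lit 0) (nat_lit 6938256763343) (nat_lit 0) (nat_lit 0) (nat_lit 0) (nat_lit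 0) (nat_lit 0) (nat_lit 0) (nat_lit 1) (nat_lit 0) (nat_lit 1) (nat_lit 0) (nat_lit 474) (nat_lit 354) (nat_lit 252)) (XT.lf (nat_lit 0) (nat_lit 7493263132620) (nat_lit 0) (nat_lit 0) (nat_lit 0) (nat_lit 0) (nat_lit 0) (nat_lit 0) (nat_lit 1) (nat_lit 0) (nat_lit 1) (nat_lit 0) (nat_lit 475) (nat_lit 354) (nat_lit 251))) (XT.nd (nat_lit 94) (nat_lit 0) (nat_lit 0) (XT.lf (nat_lit 0) (nat_lit 8092670014449) (nat_lit 0) (nat_lit 0) (nat_lit 0) (nat_lit 0) (nat_lit 0) (nat_lit 0) (nat_lit 1) (nat_lit 0) (nat_lit 1) (nat_lit 0) (nat_lit 476) (nat_lit 354) (nat_lit 250)) (XT.lf (nat_lit 0) (nat_lit 8740029449611) (nat_lit 0) (nat_lit 0) (nat_lit 0) (nat_lit 0) (nat_lit 0) (nat_lit 0) (nat_lit 1) (nat_lit 0) (nat_lit 1) (nat_lit 0) (nat_lit 477) (nat_lit 354) (nat_lit 249))))))))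
noncomputable def xc75 : XT := (XT.nd (nat_lit 58750) (nat_lit 0) (nat_lit 420) (XT.nd (nat_lit 1316) (nat_lit 0) (nat_lit 0) (XT.nd (nat_lit 658) (nat_lit 0) (nat_lit 0) (XT.nd (nat_lit 282) (nat_lit 0) (nat_lit 0) (XT.nd (nat_lit 94) (nat_lit 0) (nat_lit 0) (XT.lf (nat_lit 0) (nat_lit 9439177642167) (nat_lit 0) (nat_lit 0) (nat_lit 0) (nat_lit 0) (nat_lit 0) (nat_lit 0) (nat_lit 1) (nat_lit 0) (nat_lit 1) (nat_lit 0) (nat_lit 478) (nat_lit 354) (nat_lit 248)) (XT.nd (nat_lit 94) (nat_lit 0) (nat_lit 0) (XT.lf (nat_lit 0) (nat_lit 10194257692516) (nat_lit 0) (nat_lit 0) (nat_lit 0) (nat_lit 0) (nat_lit 0) (nat_lit 0) (nat_lit 1) (nat_lit 0) (nat_lit 1) (nat_lit 0) (nat_lit 479) (nat_lit 354) (nat_lit 247)) (XT.lf (nat_lit 0) (nat_lit 11009744149105) (nat_lit 0) (nat_lit 0) (nat_lit 0) (nat_lit 0) (nat_lit 0) (nat_lit 0) (nat_lit 1) (nat_lit 0) (nat_lit 1)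 (nat_lit 0) (nat_lit 480) (nat_lit 354) (nat_lit 246)))) (XT.nd (nat_lit 188) (nat_lit 0) (nat_lit 0) (XT.nd (nat_lit 94) (nat_lit 0) (nat_lit 0) (XT.lf (nat_lit 0) (nat_lit 11890469524270) (nat_lit 0) (nat_lit 0) (nat_lit 0) (nat_lit 0) (nat_lit 0) (nat_lit 0) (nat_lit 1) (nat_lit 0) (nat_lit 1) (nat_lit 0) (nat_lit 481) (nat_lit 354) (nat_lit 245)) (XT.lf (nat_lit 0) (nat_lit 12841652931345) (nat_lit 0) (nat_lit 0) (nat_lit 0) (nat_lit 0) (nat_lit 0) (nat_lit 0) (nat_lit 1) (nat_lit 0) (nat_lit 1) (nat_lit 0) (nat_lit 482) (nat_lit 354) (nat_lit 244))) (XT.nd (nat_lit 94) (nat_lit 0) (nat_lit 0) (XT.lf (nat_lit 0) (nat_lit 13868931012742) (nat_lit 0) (nat_lit 0) (nat_lit 0) (nat_lit 0) (nat_lit 0) (nat_lit 0) (nat_lit 1) (nat_lit 0) (nat_lit 1) (nat_lit 0) (nat_lit 483) (nat_lit 354) (nat_lit 243)) (XT.lf (nat_lit 0) (nat_lit 14978391342277) (nat_lit 0)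 (nat_lit 0) (nat_lit 0) (nat_lit 0) (nat_lit 0) (nat_lit 0) (nat_lit 1) (nat_lit 0) (nat_lit 1) (nat_lit 0) (nat_lit 484) (nat_lit 354) (nat_lit 242))))) (XT.nd (nat_lit 282) (nat_lit 0) (nat_lit 0) (XT.nd (nat_lit 94) (nat_lit 0) (nat_lit 0) (XT.lf (nat_lit 0) (nat_lit 16176608499680) (nat_lit 0) (nat_lit 0) (nat_lit 0) (nat_lit 0) (nat_lit 0) (nat_lit 0) (nat_lit 1) (nat_lit 0) (nat_lit 1) (nat_lit 0) (nat_lit 485) (nat_lit 354) (nat_lit 241)) (XT.nd (nat_lit 94) (nat_lit 0) (nat_lit 0) (XT.lf (nat_lit 0) (nat_lit 17470683031069) (nat_lit 0) (nat_lit 0) (nat_lit 0) (nat_lit 0) (nat_lit 0) (nat_lit 0) (nat_lit 1) (nat_lit 0) (nat_lit 1) (nat_lit 0) (nat_lit 486) (nat_lit 354) (nat_lit 240)) (XT.lf (nat_lit 0) (nat_lit 18868283526261) (nat_lit 0) (nat_lit 0) (nat_lit 0) (nat_lit 0) (nat_lit 0) (nat_lit 0) (nat_lit 1) (nat_lit 0) (nat_lit 1) (nat_lit 0) (nat_lit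 487) (nat_lit 354) (nat_lit 239)))) (XT.nd (nat_lit 188) (nat_lit 0) (nat_lit 0) (XT.nd (nat_lit 94) (nat_lit 0) (nat_lit 0) (XT.lf (nat_lit 0) (nat_lit 20377692062263) (nat_lit 0) (nat_lit 0) (nat_lit 0) (nat_lit 0) (nat_lit 0) (nat_lit 0) (nat_lit 1) (nat_lit 0) (nat_lit 1) (nat_lit 0) (nat_lit 488) (nat_lit 354) (nat_lit 238)) (XT.lf (nat_lit 0) (nat_lit 22007853282252) (nat_lit 0) (nat_lit 0) (nat_lit 0) (nat_lit 0) (nat_lit 0) (nat_lit 0) (nat_lit 1) (nat_lit 0) (nat_lit 1) (nat_lit 0) (nat_lit 489) (nat_lit 354) (nat_lit 237))) (XT.nd (nat_lit 94) (nat_lit 0) (nat_lit 0) (XT.lf (nat_lit 0) (nat_lit 23768427400864) (nat_lit 0) (nat_lit 0) (nat_lit 0) (nat_lit 0) (nat_lit 0) (nat_lit 0) (nat_lit 1) (nat_lit 0) (nat_lit 1) (nat_lit 0) (nat_lit 490) (nat_lit 354) (nat_lit 236)) (XT.lf (nat_lit 0) (nat_lit 25669847449915) (nat_lit 0) (nat_lit 0) (nat_lit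 0) (nat_lit 0) (nat_lit 0) (nat_lit 0) (nat_lit 1) (nat_lit 0) (nat_lit 1) (nat_lit 0) (nat_lit 491) (nat_lit 354) (nat_lit 235)))))) (XT.nd (nat_lit 56776) (nat_lit 0) (nat_lit 5796) (XT.nd (nat_lit 56400) (nat_lit 0) (nat_lit 8820) (XT.nd (nat_lit 94) (nat_lit 0) (nat_lit 0) (XT.lf (nat_lit 0) (nat_lit 27723381103768) (nat_lit 0) (nat_lit 0) (nat_lit 0) (nat_lit 0) (nat_lit 0) (nat_lit 0) (nat_lit 1) (nat_lit 0) (nat_lit 1) (nat_lit 0) (nat_lit 492) (nat_lit 354) (nat_lit 234)) (XT.nd (nat_lit 56212) (nat_lit 0) (nat_lit 10668) (XT.lf (nat_lit 0) (nat_lit 29941197450742) (nat_lit 0) (nat_lit 0) (nat_lit 0) (nat_lit 0) (nat_lit 0) (nat_lit 0) (nat_lit 1) (nat_lit 0) (nat_lit 1) (nat_lit 0) (nat_lit 493) (nat_lit 354) (nat_lit 233)) (XT.lf (nat_lit 0) (nat_lit 84638617) (nat_lit 924) (nat_lit 3409828709) (nat_lit 0) (nat_lit 84638617) (nat_lit 127) (nat_lit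 5) (nat_lit 138) (nat_lit 4) (nat_lit 127) (nat_lit 4) (nat_lit 370) (nat_lit 355) (nat_lit 355)))) (XT.nd (nat_lit 188) (nat_lit 840) (nat_lit 0) (XT.nd (nat_lit 94) (nat_lit 504) (nat_lit 0) (XT.lf (nat_lit 0) (nat_lit 1855971393) (nat_lit 504) (nat_lit 3999322880) (nat_lit 504) (nat_lit 1454532121) (nat_lit 121) (nat_lit 4) (nat_lit 127) (nat_lit 5) (nat_lit 127) (nat_lit 4) (nat_lit 371) (nat_lit 355) (nat_lit 354)) (XT.lf (nat_lit 0) (nat_lit 3567708093) (nat_lit 420) (nat_lit 563407317) (nat_lit 504) (nat_lit 3351261862) (nat_lit 115) (nat_lit 5) (nat_lit 120) (nat_lit 5) (nat_lit 121) (nat_lit 4) (nat_lit 372) (nat_lit 355) (nat_lit 353))) (XT.nd (nat_lit 94) (nat_lit 336) (nat_lit 0) (XT.lf (nat_lit 0) (nat_lit 2196023779) (nat_lit 504) (nat_lit 2243700209) (nat_lit 84) (nat_lit 3234448854) (nat_lit 109) (nat_lit 5) (nat_lit 115) (nat_lit 5) (nat_lit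 110) (nat_lit 4) (nat_lit 373) (nat_lit 355) (nat_lit 352)) (XT.lf (nat_lit 0) (nat_lit 7491805587) (nat_lit 336) (nat_lit 391752704) (nat_lit 420) (nat_lit 4312935) (nat_lit 105) (nat_lit 5) (nat_lit 109) (nat_lit 5) (nat_lit 110) (nat_lit 4) (nat_lit 374) (nat_lit 355) (nat_lit 351))))) (XT.nd (nat_lit 282) (nat_lit 1512) (nat_lit 0) (XT.nd (nat_lit 94) (nat_lit 756) (nat_lit 0) (XT.lf (nat_lit 0) (nat_lit 1592960423) (nat_lit 336) (nat_lit 4039338409) (nat_lit 420) (nat_lit 2486057901) (nat_lit 96) (nat_lit 5) (nat_lit 100) (nat_lit 5) (nat_lit 101) (nat_lit 4) (nat_lit 375) (nat_lit 355) (nat_lit 350)) (XT.nd (nat_lit 94) (nat_lit 336) (nat_lit 0) (XT.lf (nat_lit 0) (nat_lit 3113531285) (nat_lit 420) (nat_lit 4592665130) (nat_lit 84) (nat_lit 665043181) (nat_lit 91) (nat_lit 5) (nat_lit 96) (nat_lit 5) (nat_lit 92) (nat_lit 4) (nat_lit 376) (nat_lit 355)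 (nat_lit 349)) (XT.lf (nat_lit 0) (nat_lit 352690959) (nat_lit 336) (nat_lit 2541666078) (nat_lit 84) (nat_lit 5750879604) (nat_lit 87) (nat_lit 5) (nat_lit 91) (nat_lit 5) (nat_lit 88) (nat_lit 5) (nat_lit 377) (nat_lit 355) (nat_lit 348)))) (XT.nd (nat_lit 188) (nat_lit 588) (nat_lit 0) (XT.nd (nat_lit 94) (nat_lit 588) (nat_lit 0) (XT.lf (nat_lit 0) (nat_lit 6153388066) (nat_lit 420) (nat_lit 379245918) (nat_lit 84) (nat_lit 2407926349) (nat_lit 83) (nat_lit 5) (nat_lit 88) (nat_lit 5) (nat_lit 84) (nat_lit 4) (nat_lit 378) (nat_lit 355) (nat_lit 347)) (XT.lf (nat_lit 0) (nat_lit 1990440335) (nat_lit 252) (nat_lit 1050937621) (nat_lit 336) (nat_lit 6216474067) (nat_lit 76) (nat_lit 5) (nat_lit 79) (nat_lit 5) (nat_lit 80) (nat_lit 5) (nat_lit 379) (nat_lit 355) (nat_lit 346))) (XT.nd (nat_lit 94) (nat_lit 336) (nat_lit 0) (XT.lf (nat_lit 0) (nat_lit 4501608102)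 (nat_lit 252) (nat_lit 4742904799) (nat_lit 336) (nat_lit 353432099) (nat_lit 73) (nat_lit 5) (nat_lit 76) (nat_lit 5) (nat_lit 77) (nat_lit 4) (nat_lit 380) (nat_lit 355) (nat_lit 345)) (XT.lf (nat_lit 0) (nat_lit 5765190668) (nat_lit 336) (nat_lit 2822511074) (nat_lit 84) (nat_lit 1373981912) (nat_lit 69) (nat_lit 5) (nat_lit 73) (nat_lit 5) (nat_lit 70) (nat_lit 4) (nat_lit 381) (nat_lit 355) (nat_lit 344))))))) (XT.nd (nat_lit 1316) (nat_lit 2184) (nat_lit 0) (XT.nd (nat_lit 658) (nat_lit 1344) (nat_lit 0) (XT.nd (nat_lit 282) (nat_lit 924) (nat_lit 0) (XT.nd (nat_lit 94) (nat_lit 672) (nat_lit 0) (XT.lf (nat_lit 0) (nat_lit 1979384102) (nat_lit 252) (nat_lit 425569067) (nat_lit 84) (nat_lit 7945865946) (nat_lit 66) (nat_lit 5) (nat_lit 69) (nat_lit 5) (nat_lit 67) (nat_lit 5) (nat_lit 382) (nat_lit 355) (nat_lit 343)) (XT.nd (nat_lit 94) (nat_lit 252)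 (nat_lit 0) (XT.lf (nat_lit 0) (nat_lit 2150105027) (nat_lit 168) (nat_lit 6429359990) (nat_lit 252) (nat_lit 2184322732) (nat_lit 61) (nat_lit 5) (nat_lit 63) (nat_lit 5) (nat_lit 64) (nat_lit 4) (nat_lit 383) (nat_lit 355) (nat_lit 342)) (XT.lf (nat_lit 0) (nat_lit 4397736286) (nat_lit 252) (nat_lit 6320633878) (nat_lit 84) (nat_lit 485715874) (nat_lit 58) (nat_lit 5) (nat_lit 61) (nat_lit 5) (nat_lit 59) (nat_lit 4) (nat_lit 384) (nat_lit 355) (nat_lit 341)))) (XT.nd (nat_lit 188) (nat_lit 504) (nat_lit 0) (XT.nd (nat_lit 94) (nat_lit 252) (nat_lit 0) (XT.lf (nat_lit 0) (nat_lit 7743151619) (nat_lit 168) (nat_lit 3801023959) (nat_lit 252) (nat_lit 127925003) (nat_lit 56) (nat_lit 5) (nat_lit 58) (nat_lit 5) (nat_lit 59) (nat_lit 4) (nat_lit 385) (nat_lit 355) (nat_lit 340)) (XT.lf (nat_lit 0) (nat_lit 6939482244) (nat_lit 252) (nat_lit 1455380653) (nat_lit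 84) (nat_lit 3773089456) (nat_lit 53) (nat_lit 5) (nat_lit 56) (nat_lit 5) (nat_lit 54) (nat_lit 4) (nat_lit 386) (nat_lit 355) (nat_lit 339))) (XT.nd (nat_lit 94) (nat_lit 84) (nat_lit 0) (XT.lf (nat_lit 0) (nat_lit 1221436500) (nat_lit 168) (nat_lit 705302007) (nat_lit 252) (nat_lit 10769074492) (nat_lit 48) (nat_lit 5) (nat_lit 50) (nat_lit 5) (nat_lit 51) (nat_lit 5) (nat_lit 387) (nat_lit 355) (nat_lit 338)) (XT.lf (nat_lit 0) (nat_lit 4014732744) (nat_lit 84) (nat_lit 5657254262) (nat_lit 168) (nat_lit 3579589694) (nat_lit 47) (nat_lit 5) (nat_lit 48) (nat_lit 5) (nat_lit 49) (nat_lit 4) (nat_lit 388) (nat_lit 355) (nat_lit 337))))) (XT.nd (nat_lit 282) (nat_lit 756) (nat_lit 0) (XT.nd (nat_lit 94) (nat_lit 336) (nat_lit 0) (XT.lf (nat_lit 0) (nat_lit 4177700069) (nat_lit 252) (nat_lit 6867905206) (nat_lit 84) (nat_lit 2796599499) (nat_lit 44) (nat_lit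 5) (nat_lit 47) (nat_lit 5) (nat_lit 45) (nat_lit 4) (nat_lit 389) (nat_lit 355) (nat_lit 336)) (XT.nd (nat_lit 94) (nat_lit 252) (nat_lit 0) (XT.lf (nat_lit 0) (nat_lit 10081047696) (nat_lit 84) (nat_lit 2532610492) (nat_lit 168) (nat_lit 1854315988) (nat_lit 43) (nat_lit 5) (nat_lit 44) (nat_lit 5) (nat_lit 45) (nat_lit 4) (nat_lit 390) (nat_lit 355) (nat_lit 335)) (XT.lf (nat_lit 0) (nat_lit 6582053818) (nat_lit 252) (nat_lit 1836480111) (nat_lit 84) (nat_lit 6709534597) (nat_lit 40) (nat_lit 5) (nat_lit 43) (nat_lit 5) (nat_lit 41) (nat_lit 4) (nat_lit 391) (nat_lit 355) (nat_lit 334)))) (XT.nd (nat_lit 188) (nat_lit 336) (nat_lit 0) (XT.nd (nat_lit 94) (nat_lit 168) (nat_lit 0) (XT.lf (nat_lit 0) (nat_lit 946460054) (nat_lit 168) (nat_lit 14875555218) (nat_lit 168) (nat_lit 7752808) (nat_lit 37) (nat_lit 4) (nat_lit 39) (nat_lit 5) (nat_lit 39) (nat_lit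 4) (nat_lit 392) (nat_lit 355) (nat_lit 333)) (XT.lf (nat_lit 0) (nat_lit 3811543569) (nat_lit 84) (nat_lit 5421424310) (nat_lit 168) (nat_lit 7331728755) (nat_lit 35) (nat_lit 5) (nat_lit 36) (nat_lit 5) (nat_lit 37) (nat_lit 4) (nat_lit 393) (nat_lit 355) (nat_lit 332))) (XT.nd (nat_lit 94) (nat_lit 84) (nat_lit 0) (XT.lf (nat_lit 0) (nat_lit 2030876286) (nat_lit 252) (nat_lit 10451837658) (nat_lit 84) (nat_lit 4862453526) (nat_lit 32) (nat_lit 5) (nat_lit 35) (nat_lit 5) (nat_lit 33) (nat_lit 4) (nat_lit 394) (nat_lit 355) (nat_lit 331)) (XT.lf (nat_lit 0) (nat_lit 10102408005) (nat_lit 84) (nat_lit 2053802622) (nat_lit 168) (nat_lit 6012326283) (nat_lit 31) (nat_lit 5) (nat_lit 32) (nat_lit 5) (nat_lit 33) (nat_lit 4) (nat_lit 395) (nat_lit 355) (nat_lit 330)))))) (XT.nd (nat_lit 658) (nat_lit 1092) (nat_lit 0) (XT.nd (nat_lit 282) (nat_lit 588) (nat_lit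 0) (XT.nd (nat_lit 94) (nat_lit 252) (nat_lit 0) (XT.lf (nat_lit 0) (nat_lit 4249304998) (nat_lit 252) (nat_lit 5579876625) (nat_lit 84) (nat_lit 9208214549) (nat_lit 28) (nat_lit 5) (nat_lit 31) (nat_lit 5) (nat_lit 29) (nat_lit 4) (nat_lit 396) (nat_lit 355) (nat_lit 329)) (XT.nd (nat_lit 94) (nat_lit 168) (nat_lit 0) (XT.lf (nat_lit 0) (nat_lit 15399135504) (nat_lit 168) (nat_lit 2926717758) (nat_lit 0) (nat_lit 1631087208) (nat_lit 27) (nat_lit 5) (nat_lit 29) (nat_lit 4) (nat_lit 27) (nat_lit 4) (nat_lit 397) (nat_lit 355) (nat_lit 328)) (XT.lf (nat_lit 0) (nat_lit 6690892664) (nat_lit 168) (nat_lit 197660872) (nat_lit 84) (nat_lit 14036040817) (nat_lit 25) (nat_lit 5) (nat_lit 27) (nat_lit 5) (nat_lit 26) (nat_lit 4) (nat_lit 398) (nat_lit 355) (nat_lit 327)))) (XT.nd (nat_lit 188) (nat_lit 252) (nat_lit 0) (XT.nd (nat_lit 94) (nat_lit 168) (nat_lit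 0) (XT.lf (nat_lit 0) (nat_lit 2818596988) (nat_lit 84) (nat_lit 16253904833) (nat_lit 84) (nat_lit 2873787867) (nat_lit 23) (nat_lit 4) (nat_lit 24) (nat_lit 5) (nat_lit 24) (nat_lit 4) (nat_lit 399) (nat_lit 355) (nat_lit 326)) (XT.lf (nat_lit 0) (nat_lit 5965967366) (nat_lit 84) (nat_lit 3529275723) (nat_lit 168) (nat_lit 13527092507) (nat_lit 21) (nat_lit 5) (nat_lit 22) (nat_lit 5) (nat_lit 23) (nat_lit 4) (nat_lit 400) (nat_lit 355) (nat_lit 325))) (XT.nd (nat_lit 94) (nat_lit 168) (nat_lit 0) (XT.lf (nat_lit 0) (nat_lit 9315265980) (nat_lit 84) (nat_lit 13902574119) (nat_lit 84) (nat_lit 941033158) (nat_lit 20) (nat_lit 4) (nat_lit 21) (nat_lit 5) (nat_lit 21) (nat_lit 4) (nat_lit 401) (nat_lit 355) (nat_lit 324)) (XT.lf (nat_lit 0) (nat_lit 12637277087) (nat_lit 168) (nat_lit 12519378271) (nat_lit 0) (nat_lit 200286669) (nat_lit 18) (nat_lit 5) (nat_lit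 20) (nat_lit 4) (nat_lit 18) (nat_lit 4) (nat_lit 402) (nat_lit 355) (nat_lit 323))))) (XT.nd (nat_lit 376) (nat_lit 588) (nat_lit 0) (XT.nd (nat_lit 188) (nat_lit 252) (nat_lit 0) (XT.nd (nat_lit 94) (nat_lit 84) (nat_lit 0) (XT.lf (nat_lit 0) (nat_lit 1195388843) (nat_lit 168) (nat_lit 10072244856) (nat_lit 84) (nat_lit 15352148388) (nat_lit 16) (nat_lit 5) (nat_lit 18) (nat_lit 5) (nat_lit 17) (nat_lit 4) (nat_lit 403) (nat_lit 355) (nat_lit 322)) (XT.lf (nat_lit 0) (nat_lit 16229689069) (nat_lit 168) (nat_lit 7493392713) (nat_lit 0) (nat_lit 4227557753) (nat_lit 15) (nat_lit 5) (nat_lit 17) (nat_lit 4) (nat_lit 15) (nat_lit 4) (nat_lit 404) (nat_lit 355) (nat_lit 321))) (XT.nd (nat_lit 94) (nat_lit 84) (nat_lit 0) (XT.lf (nat_lit 0) (nat_lit 3584120827) (nat_lit 168) (nat_lit 4724741728) (nat_lit 84) (nat_lit 21046504969) (nat_lit 13) (nat_lit 5) (nat_lit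 15) (nat_lit 5) (nat_lit 14) (nat_lit 4) (nat_lit 405) (nat_lit 355) (nat_lit 320)) (XT.lf (nat_lit 0) (nat_lit 20281896710) (nat_lit 168) (nat_lit 1829228701) (nat_lit 0) (nat_lit 8722793811) (nat_lit 12) (nat_lit 5) (nat_lit 14) (nat_lit 4) (nat_lit 12) (nat_lit 4) (nat_lit 406) (nat_lit 355) (nat_lit 319)))) (XT.nd (nat_lit 188) (nat_lit 252) (nat_lit 0) (XT.nd (nat_lit 94) (nat_lit 84) (nat_lit 0) (XT.lf (nat_lit 0) (nat_lit 1357610718) (nat_lit 84) (nat_lit 4971129274) (nat_lit 168) (nat_lit 26065803759) (nat_lit 9) (nat_lit 5) (nat_lit 10) (nat_lit 5) (nat_lit 11) (nat_lit 4) (nat_lit 407) (nat_lit 355) (nat_lit 318)) (XT.lf (nat_lit 0) (nat_lit 4731835586) (nat_lit 84) (nat_lit 20207828290) (nat_lit 84) (nat_lit 9094235577) (nat_lit 8) (nat_lit 4) (nat_lit 9) (nat_lit 5) (nat_lit 9) (nat_lit 4) (nat_lit 408) (nat_lit 355) (nat_lit 317))) (XT.nd (nat_lit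 94) (nat_lit 84) (nat_lit 0) (XT.lf (nat_lit 0) (nat_lit 8428793020) (nat_lit 84) (nat_lit 1126862119) (nat_lit 168) (nat_lit 26210730383) (nat_lit 6) (nat_lit 5) (nat_lit 7) (nat_lit 5) (nat_lit 8) (nat_lit 4) (nat_lit 409) (nat_lit 355) (nat_lit 316)) (XT.lf (nat_lit 0) (nat_lit 12249601200) (nat_lit 84) (nat_lit 18003378610) (nat_lit 84) (nat_lit 7333333354) (nat_lit 5) (nat_lit 4) (nat_lit 6) (nat_lit 5) (nat_lit 6) (nat_lit 4) (nat_lit 410) (nat_lit 355) (nat_lit 315))))))))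
noncomputable def xc76 : XT := (XT.nd (nat_lit 2632) (nat_lit 0) (nat_lit 0) (XT.nd (nat_lit 1316) (nat_lit 0) (nat_lit 0) (XT.nd (nat_lit 658) (nat_lit 0) (nat_lit 0) (XT.nd (nat_lit 282) (nat_lit 0) (nat_lit 0) (XT.nd (nat_lit 94) (nat_lit 252) (nat_lit 0) (XT.lf (nat_lit 0) (nat_lit 13306406520) (nat_lit 168) (nat_lit 23093601800) (nat_lit 0) (nat_lit 3108137584) (nat_lit 3) (nat_lit 5) (nat_lit 5) (nat_lit 4) (nat_lit 3) (nat_lit 4) (nat_lit 411) (nat_lit 355) (nat_lit 314)) (XT.nd (nat_lit 94) (nat_lit 168) (nat_lit 0) (XT.lf (nat_lit 0) (nat_lit 20806912897) (nat_lit 84) (nat_lit 15477744106) (nat_lit 84) (nat_lit 5245844545) (nat_lit 2) (nat_lit 4) (nat_lit 3) (nat_lit 5) (nat_lit 3) (nat_lit 4) (nat_lit 412) (nat_lit 355) (nat_lit 313)) (XT.lf (nat_lit 0) (nat_lit 64196850811) (nat_lit 0) (nat_lit 0) (nat_lit 0) (nat_lit 0) (nat_lit 0) (nat_lit 0)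 (nat_lit 1) (nat_lit 0) (nat_lit 1) (nat_lit 0) (nat_lit 413) (nat_lit 355) (nat_lit 312)))) (XT.nd (nat_lit 188) (nat_lit 0) (nat_lit 0) (XT.nd (nat_lit 94) (nat_lit 0) (nat_lit 0) (XT.lf (nat_lit 0) (nat_lit 69270022988) (nat_lit 0) (nat_lit 0) (nat_lit 0) (nat_lit 0) (nat_lit 0) (nat_lit 0) (nat_lit 1) (nat_lit 0) (nat_lit 1) (nat_lit 0) (nat_lit 414) (nat_lit 355) (nat_lit 311)) (XT.lf (nat_lit 0) (nat_lit 74749353698) (nat_lit 0) (nat_lit 0) (nat_lit 0) (nat_lit 0) (nat_lit 0) (nat_lit 0) (nat_lit 1) (nat_lit 0) (nat_lit 1) (nat_lit 0) (nat_lit 415) (nat_lit 355) (nat_lit 310))) (XT.nd (nat_lit 94) (nat_lit 0) (nat_lit 0) (XT.lf (nat_lit 0) (nat_lit 80667313049) (nat_lit 0) (nat_lit 0) (nat_lit 0) (nat_lit 0) (nat_lit 0) (nat_lit 0) (nat_lit 1) (nat_lit 0) (nat_lit 1) (nat_lit 0) (nat_lit 416) (nat_lit 355) (nat_lit 309)) (XT.lf (nat_lit 0) (nat_lit 87058970428)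 (nat_lit 0) (nat_lit 0) (nat_lit 0) (nat_lit 0) (nat_lit 0) (nat_lit 0) (nat_lit 1) (nat_lit 0) (nat_lit 1) (nat_lit 0) (nat_lit 417) (nat_lit 355) (nat_lit 308))))) (XT.nd (nat_lit 282) (nat_lit 0) (nat_lit 0) (XT.nd (nat_lit 94) (nat_lit 0) (nat_lit 0) (XT.lf (nat_lit 0) (nat_lit 93962202325) (nat_lit 0) (nat_lit 0) (nat_lit 0) (nat_lit 0) (nat_lit 0) (nat_lit 0) (nat_lit 1) (nat_lit 0) (nat_lit 1) (nat_lit 0) (nat_lit 418) (nat_lit 355) (nat_lit 307)) (XT.nd (nat_lit 94) (nat_lit 0) (nat_lit 0) (XT.lf (nat_lit 0) (nat_lit 101417916780) (nat_lit 0) (nat_lit 0) (nat_lit 0) (nat_lit 0) (nat_lit 0) (nat_lit 0) (nat_lit 1) (nat_lit 0) (nat_lit 1) (nat_lit 0) (nat_lit 419) (nat_lit 355) (nat_lit 306)) (XT.lf (nat_lit 0) (nat_lit 109470295805) (nat_lit 0) (nat_lit 0) (nat_lit 0) (nat_lit 0) (nat_lit 0) (nat_lit 0) (nat_lit 1) (nat_lit 0) (nat_lit 1) (nat_lit 0)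 (nat_lit 420) (nat_lit 355) (nat_lit 305)))) (XT.nd (nat_lit 188) (nat_lit 0) (nat_lit 0) (XT.nd (nat_lit 94) (nat_lit 0) (nat_lit 0) (XT.lf (nat_lit 0) (nat_lit 118167057201) (nat_lit 0) (nat_lit 0) (nat_lit 0) (nat_lit 0) (nat_lit 0) (nat_lit 0) (nat_lit 1) (nat_lit 0) (nat_lit 1) (nat_lit 0) (nat_lit 421) (nat_lit 355) (nat_lit 304)) (XT.lf (nat_lit 0) (nat_lit 127559737332) (nat_lit 0) (nat_lit 0) (nat_lit 0) (nat_lit 0) (nat_lit 0) (nat_lit 0) (nat_lit 1) (nat_lit 0) (nat_lit 1) (nat_lit 0) (nat_lit 422) (nat_lit 355) (nat_lit 303))) (XT.nd (nat_lit 94) (nat_lit 0) (nat_lit 0) (XT.lf (nat_lit 0) (nat_lit 137703996524) (nat_lit 0) (nat_lit 0) (nat_lit 0) (nat_lit 0) (nat_lit 0) (nat_lit 0) (nat_lit 1) (nat_lit 0) (nat_lit 1) (nat_lit 0) (nat_lit 423) (nat_lit 355) (nat_lit 302)) (XT.lf (nat_lit 0) (nat_lit 148659948908) (nat_lit 0) (nat_lit 0) (nat_lit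 0) (nat_lit 0) (nat_lit 0) (nat_lit 0) (nat_lit 1) (nat_lit 0) (nat_lit 1) (nat_lit 0) (nat_lit 424) (nat_lit 355) (nat_lit 301)))))) (XT.nd (nat_lit 658) (nat_lit 0) (nat_lit 0) (XT.nd (nat_lit 282) (nat_lit 0) (nat_lit 0) (XT.nd (nat_lit 94) (nat_lit 0) (nat_lit 0) (XT.lf (nat_lit 0) (nat_lit 160492518644) (nat_lit 0) (nat_lit 0) (nat_lit 0) (nat_lit 0) (nat_lit 0) (nat_lit 0) (nat_lit 1) (nat_lit 0) (nat_lit 1) (nat_lit 0) (nat_lit 425) (nat_lit 355) (nat_lit 300)) (XT.nd (nat_lit 94) (nat_lit 0) (nat_lit 0) (XT.lf (nat_lit 0) (nat_lit 173271824664) (nat_lit 0) (nat_lit 0) (nat_lit 0) (nat_lit 0) (nat_lit 0) (nat_lit 0) (nat_lit 1) (nat_lit 0) (nat_lit 1) (nat_lit 0) (nat_lit 426) (nat_lit 355) (nat_lit 299)) (XT.lf (nat_lit 0) (nat_lit 187073596190) (nat_lit 0) (nat_lit 0) (nat_lit 0) (nat_lit 0) (nat_lit 0) (nat_lit 0) (nat_lit 1) (nat_lit 0) (nat_lit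 1) (nat_lit 0) (nat_lit 427) (nat_lit 355) (nat_lit 298)))) (XT.nd (nat_lit 188) (nat_lit 0) (nat_lit 0) (XT.nd (nat_lit 94) (nat_lit 0) (nat_lit 0) (XT.lf (nat_lit 0) (nat_lit 201979621497) (nat_lit 0) (nat_lit 0) (nat_lit 0) (nat_lit 0) (nat_lit 0) (nat_lit 0) (nat_lit 1) (nat_lit 0) (nat_lit 1) (nat_lit 0) (nat_lit 428) (nat_lit 355) (nat_lit 297)) (XT.lf (nat_lit 0) (nat_lit 218078232586) (nat_lit 0) (nat_lit 0) (nat_lit 0) (nat_lit 0) (nat_lit 0) (nat_lit 0) (nat_lit 1) (nat_lit 0) (nat_lit 1) (nat_lit 0) (nat_lit 429) (nat_lit 355) (nat_lit 296))) (XT.nd (nat_lit 94) (nat_lit 0) (nat_lit 0) (XT.lf (nat_lit 0) (nat_lit 235464828636) (nat_lit 0) (nat_lit 0) (nat_lit 0) (nat_lit 0) (nat_lit 0) (nat_lit 0) (nat_lit 1) (nat_lit 0) (nat_lit 1) (nat_lit 0) (nat_lit 430) (nat_lit 355) (nat_lit 295)) (XT.lf (nat_lit 0) (nat_lit 254242441325) (nat_lit 0) (nat_lit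 0) (nat_lit 0) (nat_lit 0) (nat_lit 0) (nat_lit 0) (nat_lit 1) (nat_lit 0) (nat_lit 1) (nat_lit 0) (nat_lit 431) (nat_lit 355) (nat_lit 294))))) (XT.nd (nat_lit 282) (nat_lit 0) (nat_lit 0) (XT.nd (nat_lit 94) (nat_lit 0) (nat_lit 0) (XT.lf (nat_lit 0) (nat_lit 274522345396) (nat_lit 0) (nat_lit 0) (nat_lit 0) (nat_lit 0) (nat_lit 0) (nat_lit 0) (nat_lit 1) (nat_lit 0) (nat_lit 1) (nat_lit 0) (nat_lit 432) (nat_lit 355) (nat_lit 293)) (XT.nd (nat_lit 94) (nat_lit 0) (nat_lit 0) (XT.lf (nat_lit 0) (nat_lit 296424718058) (nat_lit 0) (nat_lit 0) (nat_lit 0) (nat_lit 0) (nat_lit 0) (nat_lit 0) (nat_lit 1) (nat_lit 0) (nat_lit 1) (nat_lit 0) (nat_lit 433) (nat_lit 355) (nat_lit 292)) (XT.lf (nat_lit 0) (nat_lit 320079351150) (nat_lit 0) (nat_lit 0) (nat_lit 0) (nat_lit 0) (nat_lit 0) (nat_lit 0) (nat_lit 1) (nat_lit 0) (nat_lit 1) (nat_lit 0) (nat_lit 434) (nat_lit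 355) (nat_lit 291)))) (XT.nd (nat_lit 188) (nat_lit 0) (nat_lit 0) (XT.nd (nat_lit 94) (nat_lit 0) (nat_lit 0) (XT.lf (nat_lit 0) (nat_lit 345626420274) (nat_lit 0) (nat_lit 0) (nat_lit 0) (nat_lit 0) (nat_lit 0) (nat_lit 0) (nat_lit 1) (nat_lit 0) (nat_lit 1) (nat_lit 0) (nat_lit 435) (nat_lit 355) (nat_lit 290)) (XT.lf (nat_lit 0) (nat_lit 373217315469) (nat_lit 0) (nat_lit 0) (nat_lit 0) (nat_lit 0) (nat_lit 0) (nat_lit 0) (nat_lit 1) (nat_lit 0) (nat_lit 1) (nat_lit 0) (nat_lit 436) (nat_lit 355) (nat_lit 289))) (XT.nd (nat_lit 94) (nat_lit 0) (nat_lit 0) (XT.lf (nat_lit 0) (nat_lit 403015538338) (nat_lit 0) (nat_lit 0) (nat_lit 0) (nat_lit 0) (nat_lit 0) (nat_lit 0) (nat_lit 1) (nat_lit 0) (nat_lit 1) (nat_lit 0) (nat_lit 437) (nat_lit 355) (nat_lit 288)) (XT.lf (nat_lit 0) (nat_lit 435197670942) (nat_lit 0) (nat_lit 0) (nat_lit 0) (nat_lit 0) (nat_lit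 0) (nat_lit 0) (nat_lit 1) (nat_lit 0) (nat_lit 1) (nat_lit 0) (nat_lit 438) (nat_lit 355) (nat_lit 287))))))) (XT.nd (nat_lit 1316) (nat_lit 0) (nat_lit 0) (XT.nd (nat_lit 658) (nat_lit 0) (nat_lit 0) (XT.nd (nat_lit 282) (nat_lit 0) (nat_lit 0) (XT.nd (nat_lit 94) (nat_lit 0) (nat_lit 0) (XT.lf (nat_lit 0) (nat_lit 469954422213) (nat_lit 0) (nat_lit 0) (nat_lit 0) (nat_lit 0) (nat_lit 0) (nat_lit 0) (nat_lit 1) (nat_lit 0) (nat_lit 1) (nat_lit 0) (nat_lit 439) (nat_lit 355) (nat_lit 286)) (XT.nd (nat_lit 94) (nat_lit 0) (nat_lit 0) (XT.lf (nat_lit 0) (nat_lit 507491758087) (nat_lit 0) (nat_lit 0) (nat_lit 0) (nat_lit 0) (nat_lit 0) (nat_lit 0) (nat_lit 1) (nat_lit 0) (nat_lit 1) (nat_lit 0) (nat_lit 440) (nat_lit 355) (nat_lit 285)) (XT.lf (nat_lit 0) (nat_lit 548032122035) (nat_lit 0) (nat_lit 0) (nat_lit 0) (nat_lit 0) (nat_lit 0) (nat_lit 0) (nat_lit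 1) (nat_lit 0) (nat_lit 1) (nat_lit 0) (nat_lit 441) (nat_lit 355) (nat_lit 284)))) (XT.nd (nat_lit 188) (nat_lit 0) (nat_lit 0) (XT.nd (nat_lit 94) (nat_lit 0) (nat_lit 0) (XT.lf (nat_lit 0) (nat_lit 591815753250) (nat_lit 0) (nat_lit 0) (nat_lit 0) (nat_lit 0) (nat_lit 0) (nat_lit 0) (nat_lit 1) (nat_lit 0) (nat_lit 1) (nat_lit 0) (nat_lit 442) (nat_lit 355) (nat_lit 283)) (XT.lf (nat_lit 0) (nat_lit 639102110287) (nat_lit 0) (nat_lit 0) (nat_lit 0) (nat_lit 0) (nat_lit 0) (nat_lit 0) (nat_lit 1) (nat_lit 0) (nat_lit 1) (nat_lit 0) (nat_lit 443) (nat_lit 355) (nat_lit 282))) (XT.nd (nat_lit 94) (nat_lit 0) (nat_lit 0) (XT.lf (nat_lit 0) (nat_lit 690171408597) (nat_lit 0) (nat_lit 0) (nat_lit 0) (nat_lit 0) (nat_lit 0) (nat_lit 0) (nat_lit 1) (nat_lit 0) (nat_lit 1) (nat_lit 0) (nat_lit 444) (nat_lit 355) (nat_lit 281)) (XT.lf (nat_lit 0) (nat_lit 745326281058)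 (nat_lit 0) (nat_lit 0) (nat_lit 0) (nat_lit 0) (nat_lit 0) (nat_lit 0) (nat_lit 1) (nat_lit 0) (nat_lit 1) (nat_lit 0) (nat_lit 445) (nat_lit 355) (nat_lit 280))))) (XT.nd (nat_lit 282) (nat_lit 0) (nat_lit 0) (XT.nd (nat_lit 94) (nat_lit 0) (nat_lit 0) (XT.lf (nat_lit 0) (nat_lit 804893571358) (nat_lit 0) (nat_lit 0) (nat_lit 0) (nat_lit 0) (nat_lit 0) (nat_lit 0) (nat_lit 1) (nat_lit 0) (nat_lit 1) (nat_lit 0) (nat_lit 446) (nat_lit 355) (nat_lit 279)) (XT.nd (nat_lit 94) (nat_lit 0) (nat_lit 0) (XT.lf (nat_lit 0) (nat_lit 869226270848) (nat_lit 0) (nat_lit 0) (nat_lit 0) (nat_lit 0) (nat_lit 0) (nat_lit 0) (nat_lit 1) (nat_lit 0) (nat_lit 1) (nat_lit 0) (nat_lit 447) (nat_lit 355) (nat_lit 278)) (XT.lf (nat_lit 0) (nat_lit 938705610338) (nat_lit 0) (nat_lit 0) (nat_lit 0) (nat_lit 0) (nat_lit 0) (nat_lit 0) (nat_lit 1) (nat_lit 0) (nat_lit 1) (nat_lit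 0) (nat_lit 448) (nat_lit 355) (nat_lit 277)))) (XT.nd (nat_lit 188) (nat_lit 0) (nat_lit 0) (XT.nd (nat_lit 94) (nat_lit 0) (nat_lit 0) (XT.lf (nat_lit 0) (nat_lit 1013743319249) (nat_lit 0) (nat_lit 0) (nat_lit 0) (nat_lit 0) (nat_lit 0) (nat_lit 0) (nat_lit 1) (nat_lit 0) (nat_lit 1) (nat_lit 0) (nat_lit 449) (nat_lit 355) (nat_lit 276)) (XT.lf (nat_lit 0) (nat_lit 1094784065486) (nat_lit 0) (nat_lit 0) (nat_lit 0) (nat_lit 0) (nat_lit 0) (nat_lit 0) (nat_lit 1) (nat_lit 0) (nat_lit 1) (nat_lit 0) (nat_lit 450) (nat_lit 355) (nat_lit 275))) (XT.nd (nat_lit 94) (nat_lit 0) (nat_lit 0) (XT.lf (nat_lit 0) (nat_lit 1182308090506) (nat_lit 0) (nat_lit 0) (nat_lit 0) (nat_lit 0) (nat_lit 0) (nat_lit 0) (nat_lit 1) (nat_lit 0) (nat_lit 1) (nat_lit 0) (nat_lit 451) (nat_lit 355) (nat_lit 274)) (XT.lf (nat_lit 0) (nat_lit 1276834055200) (nat_lit 0) (nat_lit 0) (nat_lit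 0) (nat_lit 0) (nat_lit 0) (nat_lit 0) (nat_lit 1) (nat_lit 0) (nat_lit 1) (nat_lit 0) (nat_lit 452) (nat_lit 355) (nat_lit 273)))))) (XT.nd (nat_lit 658) (nat_lit 0) (nat_lit 0) (XT.nd (nat_lit 282) (nat_lit 0) (nat_lit 0) (XT.nd (nat_lit 94) (nat_lit 0) (nat_lit 0) (XT.lf (nat_lit 0) (nat_lit 1378922113432) (nat_lit 0) (nat_lit 0) (nat_lit 0) (nat_lit 0) (nat_lit 0) (nat_lit 0) (nat_lit 1) (nat_lit 0) (nat_lit 1) (nat_lit 0) (nat_lit 453) (nat_lit 355) (nat_lit 272)) (XT.nd (nat_lit 94) (nat_lit 0) (nat_lit 0) (XT.lf (nat_lit 0) (nat_lit 1489177231473) (nat_lit 0) (nat_lit 0) (nat_lit 0) (nat_lit 0) (nat_lit 0) (nat_lit 0) (nat_lit 1) (nat_lit 0) (nat_lit 1) (nat_lit 0) (nat_lit 454) (nat_lit 355) (nat_lit 271)) (XT.lf (nat_lit 0) (nat_lit 1608252772986) (nat_lit 0) (nat_lit 0) (nat_lit 0) (nat_lit 0) (nat_lit 0) (nat_lit 0) (nat_lit 1) (nat_lit 0) (nat_lit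 1) (nat_lit 0) (nat_lit 455) (nat_lit 355) (nat_lit 270)))) (XT.nd (nat_lit 188) (nat_lit 0) (nat_lit 0) (XT.nd (nat_lit 94) (nat_lit 0) (nat_lit 0) (XT.lf (nat_lit 0) (nat_lit 1736854370808) (nat_lit 0) (nat_lit 0) (nat_lit 0) (nat_lit 0) (nat_lit 0) (nat_lit 0) (nat_lit 1) (nat_lit 0) (nat_lit 1) (nat_lit 0) (nat_lit 456) (nat_lit 355) (nat_lit 269)) (XT.lf (nat_lit 0) (nat_lit 1875744108484) (nat_lit 0) (nat_lit 0) (nat_lit 0) (nat_lit 0) (nat_lit 0) (nat_lit 0) (nat_lit 1) (nat_lit 0) (nat_lit 1) (nat_lit 0) (nat_lit 457) (nat_lit 355) (nat_lit 268))) (XT.nd (nat_lit 94) (nat_lit 0) (nat_lit 0) (XT.lf (nat_lit 0) (nat_lit 2025745036310) (nat_lit 0) (nat_lit 0) (nat_lit 0) (nat_lit 0) (nat_lit 0) (nat_lit 0) (nat_lit 1) (nat_lit 0) (nat_lit 1) (nat_lit 0) (nat_lit 458) (nat_lit 355) (nat_lit 267)) (XT.lf (nat_lit 0) (nat_lit 2187746048673) (nat_lit 0) (nat_lit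 0) (nat_lit 0) (nat_lit 0) (nat_lit 0) (nat_lit 0) (nat_lit 1) (nat_lit 0) (nat_lit 1) (nat_lit 0) (nat_lit 459) (nat_lit 355) (nat_lit 266))))) (XT.nd (nat_lit 376) (nat_lit 0) (nat_lit 0) (XT.nd (nat_lit 188) (nat_lit 0) (nat_lit 0) (XT.nd (nat_lit 94) (nat_lit 0) (nat_lit 0) (XT.lf (nat_lit 0) (nat_lit 2362707151572) (nat_lit 0) (nat_lit 0) (nat_lit 0) (nat_lit 0) (nat_lit 0) (nat_lit 0) (nat_lit 1) (nat_lit 0) (nat_lit 1) (nat_lit 0) (nat_lit 460) (nat_lit 355) (nat_lit 265)) (XT.lf (nat_lit 0) (nat_lit 2551665151544) (nat_lit 0) (nat_lit 0) (nat_lit 0) (nat_lit 0) (nat_lit 0) (nat_lit 0) (nat_lit 1) (nat_lit 0) (nat_lit 1) (nat_lit 0) (nat_lit 461) (nat_lit 355) (nat_lit 264))) (XT.nd (nat_lit 94) (nat_lit 0) (nat_lit 0) (XT.lf (nat_lit 0) (nat_lit 2755739799699) (nat_lit 0) (nat_lit 0) (nat_lit 0) (nat_lit 0) (nat_lit 0) (nat_lit 0) (nat_lit 1) (nat_lit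 0) (nat_lit 1) (nat_lit 0) (nat_lit 462) (nat_lit 355) (nat_lit 263)) (XT.lf (nat_lit 0) (nat_lit 2976140427285) (nat_lit 0) (nat_lit 0) (nat_lit 0) (nat_lit 0) (nat_lit 0) (nat_lit 0) (nat_lit 1) (nat_lit 0) (nat_lit 1) (nat_lit 0) (nat_lit 463) (nat_lit 355) (nat_lit 262)))) (XT.nd (nat_lit 188) (nat_lit 0) (nat_lit 0) (XT.nd (nat_lit 94) (nat_lit 0) (nat_lit 0) (XT.lf (nat_lit 0) (nat_lit 3214173112096) (nat_lit 0) (nat_lit 0) (nat_lit 0) (nat_lit 0) (nat_lit 0) (nat_lit 0) (nat_lit 1) (nat_lit 0) (nat_lit 1) (nat_lit 0) (nat_lit 464) (nat_lit 355) (nat_lit 261)) (XT.lf (nat_lit 0) (nat_lit 3471248418189) (nat_lit 0) (nat_lit 0) (nat_lit 0) (nat_lit 0) (nat_lit 0) (nat_lit 0) (nat_lit 1) (nat_lit 0) (nat_lit 1) (nat_lit 0) (nat_lit 465) (nat_lit 355) (nat_lit 260))) (XT.nd (nat_lit 94) (nat_lit 0) (nat_lit 0) (XT.lf (nat_lit 0) (nat_lit 3748889754787) (nat_lit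 0) (nat_lit 0) (nat_lit 0) (nat_lit 0) (nat_lit 0) (nat_lit 0) (nat_lit 1) (nat_lit 0) (nat_lit 1) (nat_lit 0) (nat_lit 466) (nat_lit 355) (nat_lit 259)) (XT.lf (nat_lit 0) (nat_lit 4048742403883) (nat_lit 0) (nat_lit 0) (nat_lit 0) (nat_lit 0) (nat_lit 0) (nat_lit 0) (nat_lit 1) (nat_lit 0) (nat_lit 1) (nat_lit 0) (nat_lit 467) (nat_lit 355) (nat_lit 258))))))))
noncomputable def xc77 : XT := (XT.nd (nat_lit 58562) (nat_lit 0) (nat_lit 2184) (XT.nd (nat_lit 1316) (nat_lit 0) (nat_lit 0) (XT.nd (nat_lit 658) (nat_lit 0) (nat_lit 0) (XT.nd (nat_lit 282) (nat_lit 0) (nat_lit 0) (XT.nd (nat_lit 94) (nat_lit 0) (nat_lit 0) (XT.lf (nat_lit 0) (nat_lit 4372583270065) (nat_lit 0) (nat_lit 0) (nat_lit 0) (nat_lit 0) (nat_lit 0) (nat_lit 0) (nat_lit 1) (nat_lit 0) (nat_lit 1) (nat_lit 0) (nat_lit 468) (nat_lit 355) (nat_lit 257)) (XT.nd (nat_lit 94) (nat_lit 0) (nat_lit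 0) (XT.lf (nat_lit 0) (nat_lit 4722331410318) (nat_lit 0) (nat_lit 0) (nat_lit 0) (nat_lit 0) (nat_lit 0) (nat_lit 0) (nat_lit 1) (nat_lit 0) (nat_lit 1) (nat_lit 0) (nat_lit 469) (nat_lit 355) (nat_lit 256)) (XT.lf (nat_lit 0) (nat_lit 5100059406213) (nat_lit 0) (nat_lit 0) (nat_lit 0) (nat_lit 0) (nat_lit 0) (nat_lit 0) (nat_lit 1) (nat_lit 0) (nat_lit 1) (nat_lit 0) (nat_lit 470) (nat_lit 355) (nat_lit 255)))) (XT.nd (nat_lit 188) (nat_lit 0) (nat_lit 0) (XT.nd (nat_lit 94) (nat_lit 0) (nat_lit 0) (XT.lf (nat_lit 0) (nat_lit 5508005645874) (nat_lit 0) (nat_lit 0) (nat_lit 0) (nat_lit 0) (nat_lit 0) (nat_lit 0) (nat_lit 1) (nat_lit 0) (nat_lit 1) (nat_lit 0) (nat_lit 471) (nat_lit 355) (nat_lit 254)) (XT.lf (nat_lit 0) (nat_lit 5948587588500) (nat_lit 0) (nat_lit 0) (nat_lit 0) (nat_lit 0) (nat_lit 0) (nat_lit 0) (nat_lit 1) (nat_lit 0) (nat_lit 1) (nat_lit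 0) (nat_lit 472) (nat_lit 355) (nat_lit 253))) (XT.nd (nat_lit 94) (nat_lit 0) (nat_lit 0) (XT.lf (nat_lit 0) (nat_lit 6424416090047) (nat_lit 0) (nat_lit 0) (nat_lit 0) (nat_lit 0) (nat_lit 0) (nat_lit 0) (nat_lit 1) (nat_lit 0) (nat_lit 1) (nat_lit 0) (nat_lit 473) (nat_lit 355) (nat_lit 252)) (XT.lf (nat_lit 0) (nat_lit 6938310874967) (nat_lit 0) (nat_lit 0) (nat_lit 0) (nat_lit 0) (nat_lit 0) (nat_lit 0) (nat_lit 1) (nat_lit 0) (nat_lit 1) (nat_lit 0) (nat_lit 474) (nat_lit 355) (nat_lit 251))))) (XT.nd (nat_lit 282) (nat_lit 0) (nat_lit 0) (XT.nd (nat_lit 94) (nat_lit 0) (nat_lit 0) (XT.lf (nat_lit 0) (nat_lit 7493317245692) (nat_lit 0) (nat_lit 0) (nat_lit 0) (nat_lit 0) (nat_lit 0) (nat_lit 0) (nat_lit 1) (nat_lit 0) (nat_lit 1) (nat_lit 0) (nat_lit 475) (nat_lit 355) (nat_lit 250)) (XT.nd (nat_lit 94) (nat_lit 0) (nat_lit 0) (XT.lf (nat_lit 0) (nat_lit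 8092724128860) (nat_lit 0) (nat_lit 0) (nat_lit 0) (nat_lit 0) (nat_lit 0) (nat_lit 0) (nat_lit 1) (nat_lit 0) (nat_lit 1) (nat_lit 0) (nat_lit 476) (nat_lit 355) (nat_lit 249)) (XT.lf (nat_lit 0) (nat_lit 8740083565263) (nat_lit 0) (nat_lit 0) (nat_lit 0) (nat_lit 0) (nat_lit 0) (nat_lit 0) (nat_lit 1) (nat_lit 0) (nat_lit 1) (nat_lit 0) (nat_lit 477) (nat_lit 355) (nat_lit 248)))) (XT.nd (nat_lit 188) (nat_lit 0) (nat_lit 0) (XT.nd (nat_lit 94) (nat_lit 0) (nat_lit 0) (XT.lf (nat_lit 0) (nat_lit 9439231758967) (nat_lit 0) (nat_lit 0) (nat_lit 0) (nat_lit 0) (nat_lit 0) (nat_lit 0) (nat_lit 1) (nat_lit 0) (nat_lit 1) (nat_lit 0) (nat_lit 478) (nat_lit 355) (nat_lit 247)) (XT.lf (nat_lit 0) (nat_lit 10194311810380) (nat_lit 0) (nat_lit 0) (nat_lit 0) (nat_lit 0) (nat_lit 0) (nat_lit 0) (nat_lit 1) (nat_lit 0) (nat_lit 1) (nat_lit 0) (nat_lit 479) (nat_lit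 355) (nat_lit 246))) (XT.nd (nat_lit 94) (nat_lit 0) (nat_lit 0) (XT.lf (nat_lit 0) (nat_lit 11009798267954) (nat_lit 0) (nat_lit 0) (nat_lit 0) (nat_lit 0) (nat_lit 0) (nat_lit 0) (nat_lit 1) (nat_lit 0) (nat_lit 1) (nat_lit 0) (nat_lit 480) (nat_lit 355) (nat_lit 245)) (XT.lf (nat_lit 0) (nat_lit 11890523644031) (nat_lit 0) (nat_lit 0) (nat_lit 0) (nat_lit 0) (nat_lit 0) (nat_lit 0) (nat_lit 1) (nat_lit 0) (nat_lit 1) (nat_lit 0) (nat_lit 481) (nat_lit 355) (nat_lit 244)))))) (XT.nd (nat_lit 658) (nat_lit 0) (nat_lit 0) (XT.nd (nat_lit 282) (nat_lit 0) (nat_lit 0) (XT.nd (nat_lit 94) (nat_lit 0) (nat_lit 0) (XT.lf (nat_lit 0) (nat_lit 12841707051950) (nat_lit 0) (nat_lit 0) (nat_lit 0) (nat_lit 0) (nat_lit 0) (nat_lit 0) (nat_lit 1) (nat_lit 0) (nat_lit 1) (nat_lit 0) (nat_lit 482) (nat_lit 355) (nat_lit 243)) (XT.nd (nat_lit 94) (nat_lit 0) (nat_lit 0)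 (XT.lf (nat_lit 0) (nat_lit 13868985134129) (nat_lit 0) (nat_lit 0) (nat_lit 0) (nat_lit 0) (nat_lit 0) (nat_lit 0) (nat_lit 1) (nat_lit 0) (nat_lit 1) (nat_lit 0) (nat_lit 483) (nat_lit 355) (nat_lit 242)) (XT.lf (nat_lit 0) (nat_lit 14978445464387) (nat_lit 0) (nat_lit 0) (nat_lit 0) (nat_lit 0) (nat_lit 0) (nat_lit 0) (nat_lit 1) (nat_lit 0) (nat_lit 1) (nat_lit 0) (nat_lit 484) (nat_lit 355) (nat_lit 241)))) (XT.nd (nat_lit 188) (nat_lit 0) (nat_lit 0) (XT.nd (nat_lit 94) (nat_lit 0) (nat_lit 0) (XT.lf (nat_lit 0) (nat_lit 16176662622461) (nat_lit 0) (nat_lit 0) (nat_lit 0) (nat_lit 0) (nat_lit 0) (nat_lit 0) (nat_lit 1) (nat_lit 0) (nat_lit 1) (nat_lit 0) (nat_lit 485) (nat_lit 355) (nat_lit 240)) (XT.lf (nat_lit 0) (nat_lit 17470737154471) (nat_lit 0) (nat_lit 0) (nat_lit 0) (nat_lit 0) (nat_lit 0) (nat_lit 0) (nat_lit 1) (nat_lit 0) (nat_lit 1) (nat_lit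 0) (nat_lit 486) (nat_lit 355) (nat_lit 239))) (XT.nd (nat_lit 94) (nat_lit 0) (nat_lit 0) (XT.lf (nat_lit 0) (nat_lit 18868337650237) (nat_lit 0) (nat_lit 0) (nat_lit 0) (nat_lit 0) (nat_lit 0) (nat_lit 0) (nat_lit 1) (nat_lit 0) (nat_lit 1) (nat_lit 0) (nat_lit 487) (nat_lit 355) (nat_lit 238)) (XT.lf (nat_lit 0) (nat_lit 20377746186771) (nat_lit 0) (nat_lit 0) (nat_lit 0) (nat_lit 0) (nat_lit 0) (nat_lit 0) (nat_lit 1) (nat_lit 0) (nat_lit 1) (nat_lit 0) (nat_lit 488) (nat_lit 355) (nat_lit 237))))) (XT.nd (nat_lit 282) (nat_lit 0) (nat_lit 0) (XT.nd (nat_lit 94) (nat_lit 0) (nat_lit 0) (XT.lf (nat_lit 0) (nat_lit 22007907407252) (nat_lit 0) (nat_lit 0) (nat_lit 0) (nat_lit 0) (nat_lit 0) (nat_lit 0) (nat_lit 1) (nat_lit 0) (nat_lit 1) (nat_lit 0) (nat_lit 489) (nat_lit 355) (nat_lit 236)) (XT.nd (nat_lit 94) (nat_lit 0) (nat_lit 0) (XT.lf (nat_lit 0) (nat_lit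 23768481526321) (nat_lit 0) (nat_lit 0) (nat_lit 0) (nat_lit 0) (nat_lit 0) (nat_lit 0) (nat_lit 1) (nat_lit 0) (nat_lit 1) (nat_lit 0) (nat_lit 490) (nat_lit 355) (nat_lit 235)) (XT.lf (nat_lit 0) (nat_lit 25669901575794) (nat_lit 0) (nat_lit 0) (nat_lit 0) (nat_lit 0) (nat_lit 0) (nat_lit 0) (nat_lit 1) (nat_lit 0) (nat_lit 1) (nat_lit 0) (nat_lit 491) (nat_lit 355) (nat_lit 234)))) (XT.nd (nat_lit 56118) (nat_lit 0) (nat_lit 12348) (XT.nd (nat_lit 94) (nat_lit 0) (nat_lit 0) (XT.lf (nat_lit 0) (nat_lit 27723435230038) (nat_lit 0) (nat_lit 0) (nat_lit 0) (nat_lit 0) (nat_lit 0) (nat_lit 0) (nat_lit 1) (nat_lit 0) (nat_lit 1) (nat_lit 0) (nat_lit 492) (nat_lit 355) (nat_lit 233)) (XT.lf (nat_lit 0) (nat_lit 29941251577375) (nat_lit 0) (nat_lit 0) (nat_lit 0) (nat_lit 0) (nat_lit 0) (nat_lit 0) (nat_lit 1) (nat_lit 0) (nat_lit 1) (nat_lit 0) (nat_lit 493)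 (nat_lit 355) (nat_lit 232))) (XT.nd (nat_lit 94) (nat_lit 756) (nat_lit 0) (XT.lf (nat_lit 0) (nat_lit 2479213061) (nat_lit 588) (nat_lit 485215995) (nat_lit 588) (nat_lit 485215995) (nat_lit 156) (nat_lit 4) (nat_lit 163) (nat_lit 5) (nat_lit 163) (nat_lit 4) (nat_lit 368) (nat_lit 356) (nat_lit 356)) (XT.lf (nat_lit 0) (nat_lit 4445813111) (nat_lit 756) (nat_lit 1017368416) (nat_lit 0) (nat_lit 1560020390) (nat_lit 147) (nat_lit 5) (nat_lit 156) (nat_lit 4) (nat_lit 147) (nat_lit 4) (nat_lit 369) (nat_lit 356) (nat_lit 355))))))) (XT.nd (nat_lit 1316) (nat_lit 3108) (nat_lit 0) (XT.nd (nat_lit 658) (nat_lit 2352) (nat_lit 0) (XT.nd (nat_lit 282) (nat_lit 2016) (nat_lit 0) (XT.nd (nat_lit 94) (nat_lit 1008) (nat_lit 0) (XT.lf (nat_lit 0) (nat_lit 73404364) (nat_lit 840) (nat_lit 2673535821) (nat_lit 924) (nat_lit 4419807254) (nat_lit 127) (nat_lit 5) (nat_lit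 137) (nat_lit 5) (nat_lit 138) (nat_lit 4) (nat_lit 370) (nat_lit 356) (nat_lit 354)) (XT.nd (nat_lit 94) (nat_lit 420) (nat_lit 0) (XT.lf (nat_lit 0) (nat_lit 829232446) (nat_lit 588) (nat_lit 5949526003) (nat_lit 84) (nat_lit 551217841) (nat_lit 120) (nat_lit 5) (nat_lit 127) (nat_lit 5) (nat_lit 121) (nat_lit 4) (nat_lit 371) (nat_lit 356) (nat_lit 353)) (XT.lf (nat_lit 0) (nat_lit 2813530497) (nat_lit 420) (nat_lit 3354630928) (nat_lit 504) (nat_lit 1343238500) (nat_lit 115) (nat_lit 5) (nat_lit 120) (nat_lit 5) (nat_lit 121) (nat_lit 4) (nat_lit 372) (nat_lit 356) (nat_lit 352)))) (XT.nd (nat_lit 188) (nat_lit 1092) (nat_lit 0) (XT.nd (nat_lit 94) (nat_lit 420) (nat_lit 0) (XT.lf (nat_lit 0) (nat_lit 3898999672) (nat_lit 504) (nat_lit 3294038650) (nat_lit 84) (nat_lit 520628539) (nat_lit 109) (nat_lit 5) (nat_lit 115) (nat_lit 5) (nat_lit 110) (nat_lit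 4) (nat_lit 373) (nat_lit 356) (nat_lit 351)) (XT.lf (nat_lit 0) (nat_lit 1411943904) (nat_lit 420) (nat_lit 1767236901) (nat_lit 84) (nat_lit 4756595289) (nat_lit 104) (nat_lit 5) (nat_lit 109) (nat_lit 5) (nat_lit 105) (nat_lit 5) (nat_lit 374) (nat_lit 356) (nat_lit 350))) (XT.nd (nat_lit 94) (nat_lit 756) (nat_lit 0) (XT.lf (nat_lit 0) (nat_lit 6789784095) (nat_lit 420) (nat_lit 97973337) (nat_lit 84) (nat_lit 1291432479) (nat_lit 100) (nat_lit 5) (nat_lit 105) (nat_lit 5) (nat_lit 101) (nat_lit 4) (nat_lit 375) (nat_lit 356) (nat_lit 349)) (XT.lf (nat_lit 0) (nat_lit 1737890801) (nat_lit 336) (nat_lit 2231626176) (nat_lit 420) (nat_lit 4471978041) (nat_lit 91) (nat_lit 5) (nat_lit 95) (nat_lit 5) (nat_lit 96) (nat_lit 5) (nat_lit 376) (nat_lit 356) (nat_lit 348))))) (XT.nd (nat_lit 282) (nat_lit 1344) (nat_lit 0) (XT.nd (nat_lit 94) (nat_lit 672) (nat_lit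 0) (XT.lf (nat_lit 0) (nat_lit 884572900) (nat_lit 336) (nat_lit 4995080938) (nat_lit 84) (nat_lit 2846659854) (nat_lit 87) (nat_lit 5) (nat_lit 91) (nat_lit 5) (nat_lit 88) (nat_lit 5) (nat_lit 377) (nat_lit 356) (nat_lit 347)) (XT.nd (nat_lit 94) (nat_lit 336) (nat_lit 0) (XT.lf (nat_lit 0) (nat_lit 5853432932) (nat_lit 336) (nat_lit 602629181) (nat_lit 420) (nat_lit 2577035666) (nat_lit 83) (nat_lit 5) (nat_lit 87) (nat_lit 5) (nat_lit 88) (nat_lit 5) (nat_lit 378) (nat_lit 356) (nat_lit 346)) (XT.lf (nat_lit 0) (nat_lit 3012197297) (nat_lit 336) (nat_lit 1270127042) (nat_lit 84) (nat_lit 5079530667) (nat_lit 79) (nat_lit 5) (nat_lit 83) (nat_lit 5) (nat_lit 80) (nat_lit 5) (nat_lit 379) (nat_lit 356) (nat_lit 345)))) (XT.nd (nat_lit 188) (nat_lit 504) (nat_lit 0) (XT.nd (nat_lit 94) (nat_lit 336) (nat_lit 0) (XT.lf (nat_lit 0) (nat_lit 814384765) (nat_lit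 252) (nat_lit 8132452925) (nat_lit 336) (nat_lit 768535020) (nat_lit 73) (nat_lit 5) (nat_lit 76) (nat_lit 5) (nat_lit 77) (nat_lit 4) (nat_lit 380) (nat_lit 356) (nat_lit 344)) (XT.lf (nat_lit 0) (nat_lit 3024195197) (nat_lit 252) (nat_lit 2117754698) (nat_lit 336) (nat_lit 4948556702) (nat_lit 69) (nat_lit 5) (nat_lit 72) (nat_lit 5) (nat_lit 73) (nat_lit 5) (nat_lit 381) (nat_lit 356) (nat_lit 343))) (XT.nd (nat_lit 94) (nat_lit 252) (nat_lit 0) (XT.lf (nat_lit 0) (nat_lit 1014415937) (nat_lit 252) (nat_lit 5111075865) (nat_lit 84) (nat_lit 4366586107) (nat_lit 66) (nat_lit 5) (nat_lit 69) (nat_lit 5) (nat_lit 67) (nat_lit 5) (nat_lit 382) (nat_lit 356) (nat_lit 342)) (XT.lf (nat_lit 0) (nat_lit 7317207002) (nat_lit 336) (nat_lit 3055736676) (nat_lit 84) (nat_lit 546967357) (nat_lit 63) (nat_lit 5) (nat_lit 67) (nat_lit 5) (nat_lit 64) (nat_lit 4) (nat_lit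 383) (nat_lit 356) (nat_lit 341)))))) (XT.nd (nat_lit 658) (nat_lit 1428) (nat_lit 0) (XT.nd (nat_lit 282) (nat_lit 840) (nat_lit 0) (XT.nd (nat_lit 94) (nat_lit 588) (nat_lit 0) (XT.lf (nat_lit 0) (nat_lit 2766015892) (nat_lit 252) (nat_lit 913232375) (nat_lit 84) (nat_lit 7695005110) (nat_lit 60) (nat_lit 5) (nat_lit 63) (nat_lit 5) (nat_lit 61) (nat_lit 5) (nat_lit 384) (nat_lit 356) (nat_lit 340)) (XT.nd (nat_lit 94) (nat_lit 252) (nat_lit 0) (XT.lf (nat_lit 0) (nat_lit 1398405560) (nat_lit 168) (nat_lit 8223057121) (nat_lit 252) (nat_lit 2235354865) (nat_lit 56) (nat_lit 5) (nat_lit 58) (nat_lit 5) (nat_lit 59) (nat_lit 4) (nat_lit 385) (nat_lit 356) (nat_lit 339)) (XT.lf (nat_lit 0) (nat_lit 3861967882) (nat_lit 168) (nat_lit 753184848) (nat_lit 252) (nat_lit 7753379261) (nat_lit 53) (nat_lit 5) (nat_lit 55) (nat_lit 5) (nat_lit 56) (nat_lit 5) (nat_lit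 386) (nat_lit 356) (nat_lit 338)))) (XT.nd (nat_lit 188) (nat_lit 420) (nat_lit 0) (XT.nd (nat_lit 94) (nat_lit 252) (nat_lit 0) (XT.lf (nat_lit 0) (nat_lit 6440511591) (nat_lit 168) (nat_lit 5664669208) (nat_lit 252) (nat_lit 805680744) (nat_lit 51) (nat_lit 5) (nat_lit 53) (nat_lit 5) (nat_lit 54) (nat_lit 4) (nat_lit 387) (nat_lit 356) (nat_lit 337)) (XT.lf (nat_lit 0) (nat_lit 6607335287) (nat_lit 252) (nat_lit 4346025763) (nat_lit 84) (nat_lit 2531794105) (nat_lit 48) (nat_lit 5) (nat_lit 51) (nat_lit 5) (nat_lit 49) (nat_lit 4) (nat_lit 388) (nat_lit 356) (nat_lit 336))) (XT.nd (nat_lit 94) (nat_lit 252) (nat_lit 0) (XT.lf (nat_lit 0) (nat_lit 650797498) (nat_lit 168) (nat_lit 2084937396) (nat_lit 84) (nat_lit 11359334882) (nat_lit 46) (nat_lit 5) (nat_lit 48) (nat_lit 5) (nat_lit 47) (nat_lit 5) (nat_lit 389) (nat_lit 356) (nat_lit 335)) (XT.lf (nat_lit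 0) (nat_lit 238092072) (nat_lit 84) (nat_lit 8513705196) (nat_lit 168) (nat_lit 5985789828) (nat_lit 43) (nat_lit 5) (nat_lit 44) (nat_lit 5) (nat_lit 45) (nat_lit 4) (nat_lit 390) (nat_lit 356) (nat_lit 334))))) (XT.nd (nat_lit 376) (nat_lit 756) (nat_lit 0) (XT.nd (nat_lit 188) (nat_lit 336) (nat_lit 0) (XT.nd (nat_lit 94) (nat_lit 84) (nat_lit 0) (XT.lf (nat_lit 0) (nat_lit 2218250092) (nat_lit 252) (nat_lit 12594177333) (nat_lit 84) (nat_lit 606707358) (nat_lit 40) (nat_lit 5) (nat_lit 43) (nat_lit 5) (nat_lit 41) (nat_lit 4) (nat_lit 391) (nat_lit 356) (nat_lit 333)) (XT.lf (nat_lit 0) (nat_lit 5464047760) (nat_lit 84) (nat_lit 5690239004) (nat_lit 168) (nat_lit 4981743812) (nat_lit 39) (nat_lit 5) (nat_lit 40) (nat_lit 5) (nat_lit 41) (nat_lit 4) (nat_lit 392) (nat_lit 356) (nat_lit 332))) (XT.nd (nat_lit 94) (nat_lit 84) (nat_lit 0) (XT.lf (nat_lit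 0) (nat_lit 3996198874) (nat_lit 252) (nat_lit 8611204476) (nat_lit 84) (nat_lit 4288537516) (nat_lit 36) (nat_lit 5) (nat_lit 39) (nat_lit 5) (nat_lit 37) (nat_lit 4) (nat_lit 393) (nat_lit 356) (nat_lit 331)) (XT.lf (nat_lit 0) (nat_lit 11254787390) (nat_lit 84) (nat_lit 2535955918) (nat_lit 168) (nat_lit 3908172156) (nat_lit 35) (nat_lit 5) (nat_lit 36) (nat_lit 5) (nat_lit 37) (nat_lit 4) (nat_lit 394) (nat_lit 356) (nat_lit 330)))) (XT.nd (nat_lit 188) (nat_lit 420) (nat_lit 0) (XT.nd (nat_lit 94) (nat_lit 84) (nat_lit 0) (XT.lf (nat_lit 0) (nat_lit 5946791428) (nat_lit 252) (nat_lit 4202692677) (nat_lit 84) (nat_lit 8395624511) (nat_lit 32) (nat_lit 5) (nat_lit 35) (nat_lit 5) (nat_lit 33) (nat_lit 4) (nat_lit 395) (nat_lit 356) (nat_lit 329)) (XT.lf (nat_lit 0) (nat_lit 16725203314) (nat_lit 168) (nat_lit 1770254050) (nat_lit 0) (nat_lit 946737708)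 (nat_lit 31) (nat_lit 5) (nat_lit 33) (nat_lit 4) (nat_lit 31) (nat_lit 4) (nat_lit 396) (nat_lit 356) (nat_lit 328))) (XT.nd (nat_lit 94) (nat_lit 84) (nat_lit 0) (XT.lf (nat_lit 0) (nat_lit 719606645) (nat_lit 84) (nat_lit 7402984533) (nat_lit 168) (nat_lit 12261129598) (nat_lit 27) (nat_lit 5) (nat_lit 28) (nat_lit 5) (nat_lit 29) (nat_lit 4) (nat_lit 397) (nat_lit 356) (nat_lit 327)) (XT.lf (nat_lit 0) (nat_lit 3502071831) (nat_lit 84) (nat_lit 16593199133) (nat_lit 84) (nat_lit 1285014513) (nat_lit 26) (nat_lit 4) (nat_lit 27) (nat_lit 5) (nat_lit 27) (nat_lit 4) (nat_lit 398) (nat_lit 356) (nat_lit 326))))))))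
noncomputable def xc78 : XT := (XT.nd (nat_lit 2632) (nat_lit 0) (nat_lit 0) (XT.nd (nat_lit 1316) (nat_lit 252) (nat_lit 0) (XT.nd (nat_lit 658) (nat_lit 1008) (nat_lit 0) (XT.nd (nat_lit 282) (nat_lit 504) (nat_lit 0) (XT.nd (nat_lit 94) (nat_lit 252) (nat_lit 0) (XT.lf (nat_lit 0) (nat_lit 6365801726) (nat_lit 84) (nat_lit 4267909761) (nat_lit 168) (nat_lit 11794473043) (nat_lit 24) (nat_lit 5) (nat_lit 25) (nat_lit 5) (nat_lit 26) (nat_lit 4) (nat_lit 399) (nat_lit 356) (nat_lit 325)) (XT.nd (nat_lit 94) (nat_lit 84) (nat_lit 0) (XT.lf (nat_lit 0) (nat_lit 354214188) (nat_lit 168) (nat_lit 14082585405) (nat_lit 84) (nat_lit 9099687758) (nat_lit 22) (nat_lit 5) (nat_lit 24) (nat_lit 5) (nat_lit 23) (nat_lit 4) (nat_lit 400) (nat_lit 356) (nat_lit 324)) (XT.lf (nat_lit 0) (nat_lit 12686460539) (nat_lit 84) (nat_lit 775660902) (nat_lit 168) (nat_lit 11241638058)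 (nat_lit 21) (nat_lit 5) (nat_lit 22) (nat_lit 5) (nat_lit 23) (nat_lit 4) (nat_lit 401) (nat_lit 356) (nat_lit 323)))) (XT.nd (nat_lit 188) (nat_lit 252) (nat_lit 0) (XT.nd (nat_lit 94) (nat_lit 84) (nat_lit 0) (XT.lf (nat_lit 0) (nat_lit 2175669507) (nat_lit 168) (nat_lit 9830815267) (nat_lit 84) (nat_lit 13927918878) (nat_lit 19) (nat_lit 5) (nat_lit 21) (nat_lit 5) (nat_lit 20) (nat_lit 4) (nat_lit 402) (nat_lit 356) (nat_lit 322)) (XT.lf (nat_lit 0) (nat_lit 16711285855) (nat_lit 168) (nat_lit 7499637156) (nat_lit 0) (nat_lit 3021423048) (nat_lit 18) (nat_lit 5) (nat_lit 20) (nat_lit 4) (nat_lit 18) (nat_lit 4) (nat_lit 403) (nat_lit 356) (nat_lit 321))) (XT.nd (nat_lit 94) (nat_lit 84) (nat_lit 0) (XT.lf (nat_lit 0) (nat_lit 4265047586) (nat_lit 168) (nat_lit 5020076268) (nat_lit 84) (nat_lit 19315539417) (nat_lit 16) (nat_lit 5) (nat_lit 18) (nat_lit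 5) (nat_lit 17) (nat_lit 4) (nat_lit 404) (nat_lit 356) (nat_lit 320)) (XT.lf (nat_lit 0) (nat_lit 20412402764) (nat_lit 168) (nat_lit 2390559549) (nat_lit 0) (nat_lit 7239511457) (nat_lit 15) (nat_lit 5) (nat_lit 17) (nat_lit 4) (nat_lit 15) (nat_lit 4) (nat_lit 405) (nat_lit 356) (nat_lit 319))))) (XT.nd (nat_lit 282) (nat_lit 504) (nat_lit 0) (XT.nd (nat_lit 94) (nat_lit 252) (nat_lit 0) (XT.lf (nat_lit 0) (nat_lit 459076026) (nat_lit 84) (nat_lit 6219963422) (nat_lit 168) (nat_lit 24884348031) (nat_lit 12) (nat_lit 5) (nat_lit 13) (nat_lit 5) (nat_lit 14) (nat_lit 4) (nat_lit 406) (nat_lit 356) (nat_lit 318)) (XT.nd (nat_lit 94) (nat_lit 168) (nat_lit 0) (XT.lf (nat_lit 0) (nat_lit 3536416612) (nat_lit 84) (nat_lit 21140681930) (nat_lit 84) (nat_lit 8484901712) (nat_lit 11) (nat_lit 4) (nat_lit 12) (nat_lit 5) (nat_lit 12) (nat_lit 4) (nat_lit 407) (nat_lit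 356) (nat_lit 317)) (XT.lf (nat_lit 0) (nat_lit 6891295555) (nat_lit 84) (nat_lit 2667786611) (nat_lit 168) (nat_lit 25290822937) (nat_lit 9) (nat_lit 5) (nat_lit 10) (nat_lit 5) (nat_lit 11) (nat_lit 4) (nat_lit 408) (nat_lit 356) (nat_lit 316)))) (XT.nd (nat_lit 188) (nat_lit 252) (nat_lit 0) (XT.nd (nat_lit 94) (nat_lit 168) (nat_lit 0) (XT.lf (nat_lit 0) (nat_lit 10389636182) (nat_lit 84) (nat_lit 19188933702) (nat_lit 84) (nat_lit 7045854879) (nat_lit 8) (nat_lit 4) (nat_lit 9) (nat_lit 5) (nat_lit 9) (nat_lit 4) (nat_lit 409) (nat_lit 356) (nat_lit 315)) (XT.lf (nat_lit 0) (nat_lit 12909377695) (nat_lit 168) (nat_lit 24282451568) (nat_lit 0) (nat_lit 1306403593) (nat_lit 6) (nat_lit 5) (nat_lit 8) (nat_lit 4) (nat_lit 6) (nat_lit 4) (nat_lit 410) (nat_lit 356) (nat_lit 314))) (XT.nd (nat_lit 94) (nat_lit 168) (nat_lit 0) (XT.lf (nat_lit 0) (nat_lit 18225725057)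 (nat_lit 84) (nat_lit 16940562963) (nat_lit 84) (nat_lit 5302276706) (nat_lit 5) (nat_lit 4) (nat_lit 6) (nat_lit 5) (nat_lit 6) (nat_lit 4) (nat_lit 411) (nat_lit 356) (nat_lit 313)) (XT.lf (nat_lit 0) (nat_lit 16831074321) (nat_lit 168) (nat_lit 19998862787) (nat_lit 0) (nat_lit 5715852705) (nat_lit 3) (nat_lit 5) (nat_lit 5) (nat_lit 4) (nat_lit 3) (nat_lit 4) (nat_lit 412) (nat_lit 356) (nat_lit 312)))))) (XT.nd (nat_lit 658) (nat_lit 0) (nat_lit 0) (XT.nd (nat_lit 282) (nat_lit 0) (nat_lit 0) (XT.nd (nat_lit 94) (nat_lit 168) (nat_lit 0) (XT.lf (nat_lit 0) (nat_lit 27198909917) (nat_lit 84) (nat_lit 14340249851) (nat_lit 84) (nat_lit 3196195395) (nat_lit 2) (nat_lit 4) (nat_lit 3) (nat_lit 5) (nat_lit 3) (nat_lit 4) (nat_lit 413) (nat_lit 356) (nat_lit 311)) (XT.nd (nat_lit 94) (nat_lit 0) (nat_lit 0) (XT.lf (nat_lit 0) (nat_lit 69326653160) (nat_lit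 0) (nat_lit 0) (nat_lit 0) (nat_lit 0) (nat_lit 0) (nat_lit 0) (nat_lit 1) (nat_lit 0) (nat_lit 1) (nat_lit 0) (nat_lit 414) (nat_lit 356) (nat_lit 310)) (XT.lf (nat_lit 0) (nat_lit 74806119536) (nat_lit 0) (nat_lit 0) (nat_lit 0) (nat_lit 0) (nat_lit 0) (nat_lit 0) (nat_lit 1) (nat_lit 0) (nat_lit 1) (nat_lit 0) (nat_lit 415) (nat_lit 356) (nat_lit 309)))) (XT.nd (nat_lit 188) (nat_lit 0) (nat_lit 0) (XT.nd (nat_lit 94) (nat_lit 0) (nat_lit 0) (XT.lf (nat_lit 0) (nat_lit 80724204502) (nat_lit 0) (nat_lit 0) (nat_lit 0) (nat_lit 0) (nat_lit 0) (nat_lit 0) (nat_lit 1) (nat_lit 0) (nat_lit 1) (nat_lit 0) (nat_lit 416) (nat_lit 356) (nat_lit 308)) (XT.lf (nat_lit 0) (nat_lit 87115978192) (nat_lit 0) (nat_lit 0) (nat_lit 0) (nat_lit 0) (nat_lit 0) (nat_lit 0) (nat_lit 1) (nat_lit 0) (nat_lit 1) (nat_lit 0) (nat_lit 417) (nat_lit 356) (nat_lit 307))) (XT.nd (nat_lit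 94) (nat_lit 0) (nat_lit 0) (XT.lf (nat_lit 0) (nat_lit 94019317784) (nat_lit 0) (nat_lit 0) (nat_lit 0) (nat_lit 0) (nat_lit 0) (nat_lit 0) (nat_lit 1) (nat_lit 0) (nat_lit 1) (nat_lit 0) (nat_lit 418) (nat_lit 356) (nat_lit 306)) (XT.lf (nat_lit 0) (nat_lit 101475131957) (nat_lit 0) (nat_lit 0) (nat_lit 0) (nat_lit 0) (nat_lit 0) (nat_lit 0) (nat_lit 1) (nat_lit 0) (nat_lit 1) (nat_lit 0) (nat_lit 419) (nat_lit 356) (nat_lit 305))))) (XT.nd (nat_lit 282) (nat_lit 0) (nat_lit 0) (XT.nd (nat_lit 94) (nat_lit 0) (nat_lit 0) (XT.lf (nat_lit 0) (nat_lit 109527603313) (nat_lit 0) (nat_lit 0) (nat_lit 0) (nat_lit 0) (nat_lit 0) (nat_lit 0) (nat_lit 1) (nat_lit 0) (nat_lit 1) (nat_lit 0) (nat_lit 420) (nat_lit 356) (nat_lit 304)) (XT.nd (nat_lit 94) (nat_lit 0) (nat_lit 0) (XT.lf (nat_lit 0) (nat_lit 118224450201) (nat_lit 0) (nat_lit 0) (nat_lit 0) (nat_lit 0)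 (nat_lit 0) (nat_lit 0) (nat_lit 1) (nat_lit 0) (nat_lit 1) (nat_lit 0) (nat_lit 421) (nat_lit 356) (nat_lit 303)) (XT.lf (nat_lit 0) (nat_lit 127617209492) (nat_lit 0) (nat_lit 0) (nat_lit 0) (nat_lit 0) (nat_lit 0) (nat_lit 0) (nat_lit 1) (nat_lit 0) (nat_lit 1) (nat_lit 0) (nat_lit 422) (nat_lit 356) (nat_lit 302)))) (XT.nd (nat_lit 188) (nat_lit 0) (nat_lit 0) (XT.nd (nat_lit 94) (nat_lit 0) (nat_lit 0) (XT.lf (nat_lit 0) (nat_lit 137761541980) (nat_lit 0) (nat_lit 0) (nat_lit 0) (nat_lit 0) (nat_lit 0) (nat_lit 0) (nat_lit 1) (nat_lit 0) (nat_lit 1) (nat_lit 0) (nat_lit 423) (nat_lit 356) (nat_lit 301)) (XT.lf (nat_lit 0) (nat_lit 148717562230) (nat_lit 0) (nat_lit 0) (nat_lit 0) (nat_lit 0) (nat_lit 0) (nat_lit 0) (nat_lit 1) (nat_lit 0) (nat_lit 1) (nat_lit 0) (nat_lit 424) (nat_lit 356) (nat_lit 300))) (XT.nd (nat_lit 94) (nat_lit 0) (nat_lit 0) (XT.lf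 (nat_lit 0) (nat_lit 160550194805) (nat_lit 0) (nat_lit 0) (nat_lit 0) (nat_lit 0) (nat_lit 0) (nat_lit 0) (nat_lit 1) (nat_lit 0) (nat_lit 1) (nat_lit 0) (nat_lit 425) (nat_lit 356) (nat_lit 299)) (XT.lf (nat_lit 0) (nat_lit 173329559010) (nat_lit 0) (nat_lit 0) (nat_lit 0) (nat_lit 0) (nat_lit 0) (nat_lit 0) (nat_lit 1) (nat_lit 0) (nat_lit 1) (nat_lit 0) (nat_lit 426) (nat_lit 356) (nat_lit 298))))))) (XT.nd (nat_lit 1316) (nat_lit 0) (nat_lit 0) (XT.nd (nat_lit 658) (nat_lit 0) (nat_lit 0) (XT.nd (nat_lit 282) (nat_lit 0) (nat_lit 0) (XT.nd (nat_lit 94) (nat_lit 0) (nat_lit 0) (XT.lf (nat_lit 0) (nat_lit 187131384410) (nat_lit 0) (nat_lit 0) (nat_lit 0) (nat_lit 0) (nat_lit 0) (nat_lit 0) (nat_lit 1) (nat_lit 0) (nat_lit 1) (nat_lit 0) (nat_lit 427) (nat_lit 356) (nat_lit 297)) (XT.nd (nat_lit 94) (nat_lit 0) (nat_lit 0) (XT.lf (nat_lit 0) (nat_lit 202037459601)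 (nat_lit 0) (nat_lit 0) (nat_lit 0) (nat_lit 0) (nat_lit 0) (nat_lit 0) (nat_lit 1) (nat_lit 0) (nat_lit 1) (nat_lit 0) (nat_lit 428) (nat_lit 356) (nat_lit 296)) (XT.lf (nat_lit 0) (nat_lit 218136116879) (nat_lit 0) (nat_lit 0) (nat_lit 0) (nat_lit 0) (nat_lit 0) (nat_lit 0) (nat_lit 1) (nat_lit 0) (nat_lit 1) (nat_lit 0) (nat_lit 429) (nat_lit 356) (nat_lit 295)))) (XT.nd (nat_lit 188) (nat_lit 0) (nat_lit 0) (XT.nd (nat_lit 94) (nat_lit 0) (nat_lit 0) (XT.lf (nat_lit 0) (nat_lit 235522755696) (nat_lit 0) (nat_lit 0) (nat_lit 0) (nat_lit 0) (nat_lit 0) (nat_lit 0) (nat_lit 1) (nat_lit 0) (nat_lit 1) (nat_lit 0) (nat_lit 430) (nat_lit 356) (nat_lit 294)) (XT.lf (nat_lit 0) (nat_lit 254300407984) (nat_lit 0) (nat_lit 0) (nat_lit 0) (nat_lit 0) (nat_lit 0) (nat_lit 0) (nat_lit 1) (nat_lit 0) (nat_lit 1) (nat_lit 0) (nat_lit 431) (nat_lit 356) (nat_lit 293)))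 (XT.nd (nat_lit 94) (nat_lit 0) (nat_lit 0) (XT.lf (nat_lit 0) (nat_lit 274580348722) (nat_lit 0) (nat_lit 0) (nat_lit 0) (nat_lit 0) (nat_lit 0) (nat_lit 0) (nat_lit 1) (nat_lit 0) (nat_lit 1) (nat_lit 0) (nat_lit 432) (nat_lit 356) (nat_lit 292)) (XT.lf (nat_lit 0) (nat_lit 296482755334) (nat_lit 0) (nat_lit 0) (nat_lit 0) (nat_lit 0) (nat_lit 0) (nat_lit 0) (nat_lit 1) (nat_lit 0) (nat_lit 1) (nat_lit 0) (nat_lit 433) (nat_lit 356) (nat_lit 291))))) (XT.nd (nat_lit 282) (nat_lit 0) (nat_lit 0) (XT.nd (nat_lit 94) (nat_lit 0) (nat_lit 0) (XT.lf (nat_lit 0) (nat_lit 320137419860) (nat_lit 0) (nat_lit 0) (nat_lit 0) (nat_lit 0) (nat_lit 0) (nat_lit 0) (nat_lit 1) (nat_lit 0) (nat_lit 1) (nat_lit 0) (nat_lit 434) (nat_lit 356) (nat_lit 290)) (XT.nd (nat_lit 94) (nat_lit 0) (nat_lit 0) (XT.lf (nat_lit 0) (nat_lit 345684518091) (nat_lit 0) (nat_lit 0) (nat_lit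 0) (nat_lit 0) (nat_lit 0) (nat_lit 0) (nat_lit 1) (nat_lit 0) (nat_lit 1) (nat_lit 0) (nat_lit 435) (nat_lit 356) (nat_lit 289)) (XT.lf (nat_lit 0) (nat_lit 373275440238) (nat_lit 0) (nat_lit 0) (nat_lit 0) (nat_lit 0) (nat_lit 0) (nat_lit 0) (nat_lit 1) (nat_lit 0) (nat_lit 1) (nat_lit 0) (nat_lit 436) (nat_lit 356) (nat_lit 288)))) (XT.nd (nat_lit 188) (nat_lit 0) (nat_lit 0) (XT.nd (nat_lit 94) (nat_lit 0) (nat_lit 0) (XT.lf (nat_lit 0) (nat_lit 403073688061) (nat_lit 0) (nat_lit 0) (nat_lit 0) (nat_lit 0) (nat_lit 0) (nat_lit 0) (nat_lit 1) (nat_lit 0) (nat_lit 1) (nat_lit 0) (nat_lit 437) (nat_lit 356) (nat_lit 287)) (XT.lf (nat_lit 0) (nat_lit 435255843770) (nat_lit 0) (nat_lit 0) (nat_lit 0) (nat_lit 0) (nat_lit 0) (nat_lit 0) (nat_lit 1) (nat_lit 0) (nat_lit 1) (nat_lit 0) (nat_lit 438) (nat_lit 356) (nat_lit 286))) (XT.nd (nat_lit 94) (nat_lit 0)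 (nat_lit 0) (XT.lf (nat_lit 0) (nat_lit 470012616436) (nat_lit 0) (nat_lit 0) (nat_lit 0) (nat_lit 0) (nat_lit 0) (nat_lit 0) (nat_lit 1) (nat_lit 0) (nat_lit 1) (nat_lit 0) (nat_lit 439) (nat_lit 356) (nat_lit 285)) (XT.lf (nat_lit 0) (nat_lit 507549972119) (nat_lit 0) (nat_lit 0) (nat_lit 0) (nat_lit 0) (nat_lit 0) (nat_lit 0) (nat_lit 1) (nat_lit 0) (nat_lit 1) (nat_lit 0) (nat_lit 440) (nat_lit 356) (nat_lit 284)))))) (XT.nd (nat_lit 658) (nat_lit 0) (nat_lit 0) (XT.nd (nat_lit 282) (nat_lit 0) (nat_lit 0) (XT.nd (nat_lit 94) (nat_lit 0) (nat_lit 0) (XT.lf (nat_lit 0) (nat_lit 548090354409) (nat_lit 0) (nat_lit 0) (nat_lit 0) (nat_lit 0) (nat_lit 0) (nat_lit 0) (nat_lit 1) (nat_lit 0) (nat_lit 1) (nat_lit 0) (nat_lit 441) (nat_lit 356) (nat_lit 283)) (XT.nd (nat_lit 94) (nat_lit 0) (nat_lit 0) (XT.lf (nat_lit 0) (nat_lit 591874002607) (nat_lit 0) (nat_lit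 0) (nat_lit 0) (nat_lit 0) (nat_lit 0) (nat_lit 0) (nat_lit 1) (nat_lit 0) (nat_lit 1) (nat_lit 0) (nat_lit 442) (nat_lit 356) (nat_lit 282)) (XT.lf (nat_lit 0) (nat_lit 639160375371) (nat_lit 0) (nat_lit 0) (nat_lit 0) (nat_lit 0) (nat_lit 0) (nat_lit 0) (nat_lit 1) (nat_lit 0) (nat_lit 1) (nat_lit 0) (nat_lit 443) (nat_lit 356) (nat_lit 281)))) (XT.nd (nat_lit 188) (nat_lit 0) (nat_lit 0) (XT.nd (nat_lit 94) (nat_lit 0) (nat_lit 0) (XT.lf (nat_lit 0) (nat_lit 690229688241) (nat_lit 0) (nat_lit 0) (nat_lit 0) (nat_lit 0) (nat_lit 0) (nat_lit 0) (nat_lit 1) (nat_lit 0) (nat_lit 1) (nat_lit 0) (nat_lit 444) (nat_lit 356) (nat_lit 280)) (XT.lf (nat_lit 0) (nat_lit 745384574184) (nat_lit 0) (nat_lit 0) (nat_lit 0) (nat_lit 0) (nat_lit 0) (nat_lit 0) (nat_lit 1) (nat_lit 0) (nat_lit 1) (nat_lit 0) (nat_lit 445) (nat_lit 356) (nat_lit 279))) (XT.nd (nat_lit 94)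 (nat_lit 0) (nat_lit 0) (XT.lf (nat_lit 0) (nat_lit 804951876967) (nat_lit 0) (nat_lit 0) (nat_lit 0) (nat_lit 0) (nat_lit 0) (nat_lit 0) (nat_lit 1) (nat_lit 0) (nat_lit 1) (nat_lit 0) (nat_lit 446) (nat_lit 356) (nat_lit 278)) (XT.lf (nat_lit 0) (nat_lit 869284588016) (nat_lit 0) (nat_lit 0) (nat_lit 0) (nat_lit 0) (nat_lit 0) (nat_lit 0) (nat_lit 1) (nat_lit 0) (nat_lit 1) (nat_lit 0) (nat_lit 447) (nat_lit 356) (nat_lit 277))))) (XT.nd (nat_lit 376) (nat_lit 0) (nat_lit 0) (XT.nd (nat_lit 188) (nat_lit 0) (nat_lit 0) (XT.nd (nat_lit 94) (nat_lit 0) (nat_lit 0) (XT.lf (nat_lit 0) (nat_lit 938763938209) (nat_lit 0) (nat_lit 0) (nat_lit 0) (nat_lit 0) (nat_lit 0) (nat_lit 0) (nat_lit 1) (nat_lit 0) (nat_lit 1) (nat_lit 0) (nat_lit 448) (nat_lit 356) (nat_lit 276)) (XT.lf (nat_lit 0) (nat_lit 1013801657030) (nat_lit 0) (nat_lit 0) (nat_lit 0) (nat_lit 0) (nat_lit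 0) (nat_lit 0) (nat_lit 1) (nat_lit 0) (nat_lit 1) (nat_lit 0) (nat_lit 449) (nat_lit 356) (nat_lit 275))) (XT.nd (nat_lit 94) (nat_lit 0) (nat_lit 0) (XT.lf (nat_lit 0) (nat_lit 1094842412442) (nat_lit 0) (nat_lit 0) (nat_lit 0) (nat_lit 0) (nat_lit 0) (nat_lit 0) (nat_lit 1) (nat_lit 0) (nat_lit 1) (nat_lit 0) (nat_lit 450) (nat_lit 356) (nat_lit 274)) (XT.lf (nat_lit 0) (nat_lit 1182366445958) (nat_lit 0) (nat_lit 0) (nat_lit 0) (nat_lit 0) (nat_lit 0) (nat_lit 0) (nat_lit 1) (nat_lit 0) (nat_lit 1) (nat_lit 0) (nat_lit 451) (nat_lit 356) (nat_lit 273)))) (XT.nd (nat_lit 188) (nat_lit 0) (nat_lit 0) (XT.nd (nat_lit 94) (nat_lit 0) (nat_lit 0) (XT.lf (nat_lit 0) (nat_lit 1276892418518) (nat_lit 0) (nat_lit 0) (nat_lit 0) (nat_lit 0) (nat_lit 0) (nat_lit 0) (nat_lit 1) (nat_lit 0) (nat_lit 1) (nat_lit 0) (nat_lit 452) (nat_lit 356) (nat_lit 272)) (XT.lf (nat_lit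 0) (nat_lit 1378980484034) (nat_lit 0) (nat_lit 0) (nat_lit 0) (nat_lit 0) (nat_lit 0) (nat_lit 0) (nat_lit 1) (nat_lit 0) (nat_lit 1) (nat_lit 0) (nat_lit 453) (nat_lit 356) (nat_lit 271))) (XT.nd (nat_lit 94) (nat_lit 0) (nat_lit 0) (XT.lf (nat_lit 0) (nat_lit 1489235608820) (nat_lit 0) (nat_lit 0) (nat_lit 0) (nat_lit 0) (nat_lit 0) (nat_lit 0) (nat_lit 1) (nat_lit 0) (nat_lit 1) (nat_lit 0) (nat_lit 454) (nat_lit 356) (nat_lit 270)) (XT.lf (nat_lit 0) (nat_lit 1608311156577) (nat_lit 0) (nat_lit 0) (nat_lit 0) (nat_lit 0) (nat_lit 0) (nat_lit 0) (nat_lit 1) (nat_lit 0) (nat_lit 1) (nat_lit 0) (nat_lit 455) (nat_lit 356) (nat_lit 269))))))))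
noncomputable def xc79 : XT := (XT.nd (nat_lit 2632) (nat_lit 0) (nat_lit 0) (XT.nd (nat_lit 1316) (nat_lit 0) (nat_lit 0) (XT.nd (nat_lit 658) (nat_lit 0) (nat_lit 0) (XT.nd (nat_lit 282) (nat_lit 0) (nat_lit 0) (XT.nd (nat_lit 94) (nat_lit 0) (nat_lit 0) (XT.lf (nat_lit 0) (nat_lit 1736912760182) (nat_lit 0) (nat_lit 0) (nat_lit 0) (nat_lit 0) (nat_lit 0) (nat_lit 0) (nat_lit 1) (nat_lit 0) (nat_lit 1) (nat_lit 0) (nat_lit 456) (nat_lit 356) (nat_lit 268)) (XT.nd (nat_lit 94) (nat_lit 0) (nat_lit 0) (XT.lf (nat_lit 0) (nat_lit 1875802503212) (nat_lit 0) (nat_lit 0) (nat_lit 0) (nat_lit 0) (nat_lit 0) (nat_lit 0) (nat_lit 1) (nat_lit 0) (nat_lit 1) (nat_lit 0) (nat_lit 457) (nat_lit 356) (nat_lit 267)) (XT.lf (nat_lit 0) (nat_lit 2025803435995) (nat_lit 0) (nat_lit 0) (nat_lit 0) (nat_lit 0) (nat_lit 0) (nat_lit 0) (nat_lit 1) (nat_lit 0) (nat_lit 1) (nat_lit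 0) (nat_lit 458) (nat_lit 356) (nat_lit 266)))) (XT.nd (nat_lit 188) (nat_lit 0) (nat_lit 0) (XT.nd (nat_lit 94) (nat_lit 0) (nat_lit 0) (XT.lf (nat_lit 0) (nat_lit 2187804452948) (nat_lit 0) (nat_lit 0) (nat_lit 0) (nat_lit 0) (nat_lit 0) (nat_lit 0) (nat_lit 1) (nat_lit 0) (nat_lit 1) (nat_lit 0) (nat_lit 459) (nat_lit 356) (nat_lit 265)) (XT.lf (nat_lit 0) (nat_lit 2362765560098) (nat_lit 0) (nat_lit 0) (nat_lit 0) (nat_lit 0) (nat_lit 0) (nat_lit 0) (nat_lit 1) (nat_lit 0) (nat_lit 1) (nat_lit 0) (nat_lit 460) (nat_lit 356) (nat_lit 264))) (XT.nd (nat_lit 94) (nat_lit 0) (nat_lit 0) (XT.lf (nat_lit 0) (nat_lit 2551723564005) (nat_lit 0) (nat_lit 0) (nat_lit 0) (nat_lit 0) (nat_lit 0) (nat_lit 0) (nat_lit 1) (nat_lit 0) (nat_lit 1) (nat_lit 0) (nat_lit 461) (nat_lit 356) (nat_lit 263)) (XT.lf (nat_lit 0) (nat_lit 2755798215803) (nat_lit 0) (nat_lit 0) (nat_lit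 0) (nat_lit 0) (nat_lit 0) (nat_lit 0) (nat_lit 1) (nat_lit 0) (nat_lit 1) (nat_lit 0) (nat_lit 462) (nat_lit 356) (nat_lit 262))))) (XT.nd (nat_lit 282) (nat_lit 0) (nat_lit 0) (XT.nd (nat_lit 94) (nat_lit 0) (nat_lit 0) (XT.lf (nat_lit 0) (nat_lit 2976198846763) (nat_lit 0) (nat_lit 0) (nat_lit 0) (nat_lit 0) (nat_lit 0) (nat_lit 0) (nat_lit 1) (nat_lit 0) (nat_lit 1) (nat_lit 0) (nat_lit 463) (nat_lit 356) (nat_lit 261)) (XT.nd (nat_lit 94) (nat_lit 0) (nat_lit 0) (XT.lf (nat_lit 0) (nat_lit 3214231534698) (nat_lit 0) (nat_lit 0) (nat_lit 0) (nat_lit 0) (nat_lit 0) (nat_lit 0) (nat_lit 1) (nat_lit 0) (nat_lit 1) (nat_lit 0) (nat_lit 464) (nat_lit 356) (nat_lit 260)) (XT.lf (nat_lit 0) (nat_lit 3471306843684) (nat_lit 0) (nat_lit 0) (nat_lit 0) (nat_lit 0) (nat_lit 0) (nat_lit 0) (nat_lit 1) (nat_lit 0) (nat_lit 1) (nat_lit 0) (nat_lit 465) (nat_lit 356)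 (nat_lit 259)))) (XT.nd (nat_lit 188) (nat_lit 0) (nat_lit 0) (XT.nd (nat_lit 94) (nat_lit 0) (nat_lit 0) (XT.lf (nat_lit 0) (nat_lit 3748948182960) (nat_lit 0) (nat_lit 0) (nat_lit 0) (nat_lit 0) (nat_lit 0) (nat_lit 0) (nat_lit 1) (nat_lit 0) (nat_lit 1) (nat_lit 0) (nat_lit 466) (nat_lit 356) (nat_lit 258)) (XT.lf (nat_lit 0) (nat_lit 4048800834536) (nat_lit 0) (nat_lit 0) (nat_lit 0) (nat_lit 0) (nat_lit 0) (nat_lit 0) (nat_lit 1) (nat_lit 0) (nat_lit 1) (nat_lit 0) (nat_lit 467) (nat_lit 356) (nat_lit 257))) (XT.nd (nat_lit 94) (nat_lit 0) (nat_lit 0) (XT.lf (nat_lit 0) (nat_lit 4372641703014) (nat_lit 0) (nat_lit 0) (nat_lit 0) (nat_lit 0) (nat_lit 0) (nat_lit 0) (nat_lit 1) (nat_lit 0) (nat_lit 1) (nat_lit 0) (nat_lit 468) (nat_lit 356) (nat_lit 256)) (XT.lf (nat_lit 0) (nat_lit 4722389845393) (nat_lit 0) (nat_lit 0) (nat_lit 0) (nat_lit 0) (nat_lit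 0) (nat_lit 0) (nat_lit 1) (nat_lit 0) (nat_lit 1) (nat_lit 0) (nat_lit 469) (nat_lit 356) (nat_lit 255)))))) (XT.nd (nat_lit 658) (nat_lit 0) (nat_lit 0) (XT.nd (nat_lit 282) (nat_lit 0) (nat_lit 0) (XT.nd (nat_lit 94) (nat_lit 0) (nat_lit 0) (XT.lf (nat_lit 0) (nat_lit 5100117843257) (nat_lit 0) (nat_lit 0) (nat_lit 0) (nat_lit 0) (nat_lit 0) (nat_lit 0) (nat_lit 1) (nat_lit 0) (nat_lit 1) (nat_lit 0) (nat_lit 470) (nat_lit 356) (nat_lit 254)) (XT.nd (nat_lit 94) (nat_lit 0) (nat_lit 0) (XT.lf (nat_lit 0) (nat_lit 5508064084741) (nat_lit 0) (nat_lit 0) (nat_lit 0) (nat_lit 0) (nat_lit 0) (nat_lit 0) (nat_lit 1) (nat_lit 0) (nat_lit 1) (nat_lit 0) (nat_lit 471) (nat_lit 356) (nat_lit 253)) (XT.lf (nat_lit 0) (nat_lit 5948646029055) (nat_lit 0) (nat_lit 0) (nat_lit 0) (nat_lit 0) (nat_lit 0) (nat_lit 0) (nat_lit 1) (nat_lit 0) (nat_lit 1) (nat_lit 0) (nat_lit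 472) (nat_lit 356) (nat_lit 252)))) (XT.nd (nat_lit 188) (nat_lit 0) (nat_lit 0) (XT.nd (nat_lit 94) (nat_lit 0) (nat_lit 0) (XT.lf (nat_lit 0) (nat_lit 6424474532164) (nat_lit 0) (nat_lit 0) (nat_lit 0) (nat_lit 0) (nat_lit 0) (nat_lit 0) (nat_lit 1) (nat_lit 0) (nat_lit 1) (nat_lit 0) (nat_lit 473) (nat_lit 356) (nat_lit 251)) (XT.lf (nat_lit 0) (nat_lit 6938369318531) (nat_lit 0) (nat_lit 0) (nat_lit 0) (nat_lit 0) (nat_lit 0) (nat_lit 0) (nat_lit 1) (nat_lit 0) (nat_lit 1) (nat_lit 0) (nat_lit 474) (nat_lit 356) (nat_lit 250))) (XT.nd (nat_lit 94) (nat_lit 0) (nat_lit 0) (XT.lf (nat_lit 0) (nat_lit 7493375690595) (nat_lit 0) (nat_lit 0) (nat_lit 0) (nat_lit 0) (nat_lit 0) (nat_lit 0) (nat_lit 1) (nat_lit 0) (nat_lit 1) (nat_lit 0) (nat_lit 475) (nat_lit 356) (nat_lit 249)) (XT.lf (nat_lit 0) (nat_lit 8092782575005) (nat_lit 0) (nat_lit 0) (nat_lit 0) (nat_lit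 0) (nat_lit 0) (nat_lit 0) (nat_lit 1) (nat_lit 0) (nat_lit 1) (nat_lit 0) (nat_lit 476) (nat_lit 356) (nat_lit 248))))) (XT.nd (nat_lit 282) (nat_lit 0) (nat_lit 0) (XT.nd (nat_lit 94) (nat_lit 0) (nat_lit 0) (XT.lf (nat_lit 0) (nat_lit 8740142012556) (nat_lit 0) (nat_lit 0) (nat_lit 0) (nat_lit 0) (nat_lit 0) (nat_lit 0) (nat_lit 1) (nat_lit 0) (nat_lit 1) (nat_lit 0) (nat_lit 477) (nat_lit 356) (nat_lit 247)) (XT.nd (nat_lit 94) (nat_lit 0) (nat_lit 0) (XT.lf (nat_lit 0) (nat_lit 9439290207324) (nat_lit 0) (nat_lit 0) (nat_lit 0) (nat_lit 0) (nat_lit 0) (nat_lit 0) (nat_lit 1) (nat_lit 0) (nat_lit 1) (nat_lit 0) (nat_lit 478) (nat_lit 356) (nat_lit 246)) (XT.lf (nat_lit 0) (nat_lit 10194370259722) (nat_lit 0) (nat_lit 0) (nat_lit 0) (nat_lit 0) (nat_lit 0) (nat_lit 0) (nat_lit 1) (nat_lit 0) (nat_lit 1) (nat_lit 0) (nat_lit 479) (nat_lit 356) (nat_lit 245))))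 (XT.nd (nat_lit 188) (nat_lit 0) (nat_lit 0) (XT.nd (nat_lit 94) (nat_lit 0) (nat_lit 0) (XT.lf (nat_lit 0) (nat_lit 11009856718208) (nat_lit 0) (nat_lit 0) (nat_lit 0) (nat_lit 0) (nat_lit 0) (nat_lit 0) (nat_lit 1) (nat_lit 0) (nat_lit 1) (nat_lit 0) (nat_lit 480) (nat_lit 356) (nat_lit 244)) (XT.lf (nat_lit 0) (nat_lit 11890582095129) (nat_lit 0) (nat_lit 0) (nat_lit 0) (nat_lit 0) (nat_lit 0) (nat_lit 0) (nat_lit 1) (nat_lit 0) (nat_lit 1) (nat_lit 0) (nat_lit 481) (nat_lit 356) (nat_lit 243))) (XT.nd (nat_lit 94) (nat_lit 0) (nat_lit 0) (XT.lf (nat_lit 0) (nat_lit 12841765503829) (nat_lit 0) (nat_lit 0) (nat_lit 0) (nat_lit 0) (nat_lit 0) (nat_lit 0) (nat_lit 1) (nat_lit 0) (nat_lit 1) (nat_lit 0) (nat_lit 482) (nat_lit 356) (nat_lit 242)) (XT.lf (nat_lit 0) (nat_lit 13869043586732) (nat_lit 0) (nat_lit 0) (nat_lit 0) (nat_lit 0) (nat_lit 0) (nat_lit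 0) (nat_lit 1) (nat_lit 0) (nat_lit 1) (nat_lit 0) (nat_lit 483) (nat_lit 356) (nat_lit 241))))))) (XT.nd (nat_lit 57058) (nat_lit 0) (nat_lit 5040) (XT.nd (nat_lit 658) (nat_lit 0) (nat_lit 0) (XT.nd (nat_lit 282) (nat_lit 0) (nat_lit 0) (XT.nd (nat_lit 94) (nat_lit 0) (nat_lit 0) (XT.lf (nat_lit 0) (nat_lit 14978503917661) (nat_lit 0) (nat_lit 0) (nat_lit 0) (nat_lit 0) (nat_lit 0) (nat_lit 0) (nat_lit 1) (nat_lit 0) (nat_lit 1) (nat_lit 0) (nat_lit 484) (nat_lit 356) (nat_lit 240)) (XT.nd (nat_lit 94) (nat_lit 0) (nat_lit 0) (XT.lf (nat_lit 0) (nat_lit 16176721076355) (nat_lit 0) (nat_lit 0) (nat_lit 0) (nat_lit 0) (nat_lit 0) (nat_lit 0) (nat_lit 1) (nat_lit 0) (nat_lit 1) (nat_lit 0) (nat_lit 485) (nat_lit 356) (nat_lit 239)) (XT.lf (nat_lit 0) (nat_lit 17470795608939) (nat_lit 0) (nat_lit 0) (nat_lit 0) (nat_lit 0) (nat_lit 0) (nat_lit 0) (nat_lit 1)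 (nat_lit 0) (nat_lit 1) (nat_lit 0) (nat_lit 486) (nat_lit 356) (nat_lit 238)))) (XT.nd (nat_lit 188) (nat_lit 0) (nat_lit 0) (XT.nd (nat_lit 94) (nat_lit 0) (nat_lit 0) (XT.lf (nat_lit 0) (nat_lit 18868396105238) (nat_lit 0) (nat_lit 0) (nat_lit 0) (nat_lit 0) (nat_lit 0) (nat_lit 0) (nat_lit 1) (nat_lit 0) (nat_lit 1) (nat_lit 0) (nat_lit 487) (nat_lit 356) (nat_lit 237)) (XT.lf (nat_lit 0) (nat_lit 20377804642264) (nat_lit 0) (nat_lit 0) (nat_lit 0) (nat_lit 0) (nat_lit 0) (nat_lit 0) (nat_lit 1) (nat_lit 0) (nat_lit 1) (nat_lit 0) (nat_lit 488) (nat_lit 356) (nat_lit 236))) (XT.nd (nat_lit 94) (nat_lit 0) (nat_lit 0) (XT.lf (nat_lit 0) (nat_lit 22007965863202) (nat_lit 0) (nat_lit 0) (nat_lit 0) (nat_lit 0) (nat_lit 0) (nat_lit 0) (nat_lit 1) (nat_lit 0) (nat_lit 1) (nat_lit 0) (nat_lit 489) (nat_lit 356) (nat_lit 235)) (XT.lf (nat_lit 0) (nat_lit 23768539982693)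 (nat_lit 0) (nat_lit 0) (nat_lit 0) (nat_lit 0) (nat_lit 0) (nat_lit 0) (nat_lit 1) (nat_lit 0) (nat_lit 1) (nat_lit 0) (nat_lit 490) (nat_lit 356) (nat_lit 234))))) (XT.nd (nat_lit 56024) (nat_lit 0) (nat_lit 12264) (XT.nd (nat_lit 94) (nat_lit 0) (nat_lit 0) (XT.lf (nat_lit 0) (nat_lit 25669960032557) (nat_lit 0) (nat_lit 0) (nat_lit 0) (nat_lit 0) (nat_lit 0) (nat_lit 0) (nat_lit 1) (nat_lit 0) (nat_lit 1) (nat_lit 0) (nat_lit 491) (nat_lit 356) (nat_lit 233)) (XT.nd (nat_lit 94) (nat_lit 0) (nat_lit 0) (XT.lf (nat_lit 0) (nat_lit 27723493687163) (nat_lit 0) (nat_lit 0) (nat_lit 0) (nat_lit 0) (nat_lit 0) (nat_lit 0) (nat_lit 1) (nat_lit 0) (nat_lit 1) (nat_lit 0) (nat_lit 492) (nat_lit 356) (nat_lit 232)) (XT.lf (nat_lit 0) (nat_lit 29941310034835) (nat_lit 0) (nat_lit 0) (nat_lit 0) (nat_lit 0) (nat_lit 0) (nat_lit 0) (nat_lit 1) (nat_lit 0) (nat_lit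 1) (nat_lit 0) (nat_lit 493) (nat_lit 356) (nat_lit 231)))) (XT.nd (nat_lit 188) (nat_lit 1428) (nat_lit 0) (XT.nd (nat_lit 94) (nat_lit 588) (nat_lit 0) (XT.lf (nat_lit 0) (nat_lit 1798208122) (nat_lit 420) (nat_lit 775508272) (nat_lit 420) (nat_lit 775508272) (nat_lit 170) (nat_lit 4) (nat_lit 175) (nat_lit 5) (nat_lit 175) (nat_lit 4) (nat_lit 366) (nat_lit 357) (nat_lit 357)) (XT.lf (nat_lit 0) (nat_lit 3676455216) (nat_lit 588) (nat_lit 2713600065) (nat_lit 0) (nat_lit 403966271) (nat_lit 163) (nat_lit 5) (nat_lit 170) (nat_lit 4) (nat_lit 163) (nat_lit 4) (nat_lit 367) (nat_lit 357) (nat_lit 356))) (XT.nd (nat_lit 94) (nat_lit 756) (nat_lit 0) (XT.lf (nat_lit 0) (nat_lit 2012965569) (nat_lit 672) (nat_lit 2175991883) (nat_lit 84) (nat_lit 2719306131) (nat_lit 155) (nat_lit 5) (nat_lit 163) (nat_lit 5) (nat_lit 156) (nat_lit 4) (nat_lit 368) (nat_lit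 357) (nat_lit 355)) (XT.lf (nat_lit 0) (nat_lit 119570135) (nat_lit 756) (nat_lit 1461758954) (nat_lit 84) (nat_lit 5461573718) (nat_lit 146) (nat_lit 5) (nat_lit 155) (nat_lit 5) (nat_lit 147) (nat_lit 5) (nat_lit 369) (nat_lit 357) (nat_lit 354)))))) (XT.nd (nat_lit 658) (nat_lit 2940) (nat_lit 0) (XT.nd (nat_lit 282) (nat_lit 1596) (nat_lit 0) (XT.nd (nat_lit 94) (nat_lit 1932) (nat_lit 0) (XT.lf (nat_lit 0) (nat_lit 5134905356) (nat_lit 840) (nat_lit 622025302) (nat_lit 84) (nat_lit 1438830721) (nat_lit 137) (nat_lit 5) (nat_lit 147) (nat_lit 5) (nat_lit 138) (nat_lit 4) (nat_lit 370) (nat_lit 357) (nat_lit 353)) (XT.nd (nat_lit 94) (nat_lit 504) (nat_lit 0) (XT.lf (nat_lit 0) (nat_lit 379271581) (nat_lit 504) (nat_lit 2513541179) (nat_lit 588) (nat_lit 4475329464) (nat_lit 120) (nat_lit 5) (nat_lit 126) (nat_lit 5) (nat_lit 127) (nat_lit 5) (nat_lit 371)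 (nat_lit 357) (nat_lit 352)) (XT.lf (nat_lit 0) (nat_lit 423552923) (nat_lit 504) (nat_lit 5990144878) (nat_lit 84) (nat_lit 1147174977) (nat_lit 114) (nat_lit 5) (nat_lit 120) (nat_lit 5) (nat_lit 115) (nat_lit 5) (nat_lit 372) (nat_lit 357) (nat_lit 351)))) (XT.nd (nat_lit 188) (nat_lit 756) (nat_lit 0) (XT.nd (nat_lit 94) (nat_lit 420) (nat_lit 0) (XT.lf (nat_lit 0) (nat_lit 2872405496) (nat_lit 420) (nat_lit 2550565895) (nat_lit 504) (nat_lit 2349111120) (nat_lit 109) (nat_lit 5) (nat_lit 114) (nat_lit 5) (nat_lit 115) (nat_lit 5) (nat_lit 373) (nat_lit 357) (nat_lit 350)) (XT.lf (nat_lit 0) (nat_lit 2600650897) (nat_lit 420) (nat_lit 3672140729) (nat_lit 84) (nat_lit 1731753154) (nat_lit 104) (nat_lit 5) (nat_lit 109) (nat_lit 5) (nat_lit 105) (nat_lit 5) (nat_lit 374) (nat_lit 357) (nat_lit 349))) (XT.nd (nat_lit 94) (nat_lit 420) (nat_lit 0) (XT.lf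 (nat_lit 0) (nat_lit 5940227379) (nat_lit 336) (nat_lit 1832000374) (nat_lit 420) (nat_lit 486044012) (nat_lit 100) (nat_lit 5) (nat_lit 104) (nat_lit 5) (nat_lit 105) (nat_lit 5) (nat_lit 375) (nat_lit 357) (nat_lit 348)) (XT.lf (nat_lit 0) (nat_lit 4602578081) (nat_lit 420) (nat_lit 875227321) (nat_lit 84) (nat_lit 3054135642) (nat_lit 95) (nat_lit 5) (nat_lit 100) (nat_lit 5) (nat_lit 96) (nat_lit 5) (nat_lit 376) (nat_lit 357) (nat_lit 347))))) (XT.nd (nat_lit 376) (nat_lit 1344) (nat_lit 0) (XT.nd (nat_lit 188) (nat_lit 588) (nat_lit 0) (XT.nd (nat_lit 94) (nat_lit 336) (nat_lit 0) (XT.lf (nat_lit 0) (nat_lit 746561305) (nat_lit 252) (nat_lit 412170599) (nat_lit 336) (nat_lit 7670158677) (nat_lit 87) (nat_lit 5) (nat_lit 90) (nat_lit 5) (nat_lit 91) (nat_lit 5) (nat_lit 377) (nat_lit 357) (nat_lit 346)) (XT.lf (nat_lit 0) (nat_lit 2472490202) (nat_lit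 336) (nat_lit 4061976387) (nat_lit 420) (nat_lit 2610995805) (nat_lit 83) (nat_lit 5) (nat_lit 87) (nat_lit 5) (nat_lit 88) (nat_lit 5) (nat_lit 378) (nat_lit 357) (nat_lit 345))) (XT.nd (nat_lit 94) (nat_lit 252) (nat_lit 0) (XT.lf (nat_lit 0) (nat_lit 2732678148) (nat_lit 336) (nat_lit 5138582601) (nat_lit 84) (nat_lit 1615317682) (nat_lit 79) (nat_lit 5) (nat_lit 83) (nat_lit 5) (nat_lit 80) (nat_lit 5) (nat_lit 379) (nat_lit 357) (nat_lit 344)) (XT.lf (nat_lit 0) (nat_lit 6343318484) (nat_lit 252) (nat_lit 2095237935) (nat_lit 336) (nat_lit 1412977822) (nat_lit 76) (nat_lit 5) (nat_lit 79) (nat_lit 5) (nat_lit 80) (nat_lit 5) (nat_lit 380) (nat_lit 357) (nat_lit 343)))) (XT.nd (nat_lit 188) (nat_lit 588) (nat_lit 0) (XT.nd (nat_lit 94) (nat_lit 420) (nat_lit 0) (XT.lf (nat_lit 0) (nat_lit 4256014046) (nat_lit 336) (nat_lit 1798731777) (nat_lit 84) (nat_lit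 4185531344) (nat_lit 72) (nat_lit 5) (nat_lit 76) (nat_lit 5) (nat_lit 73) (nat_lit 5) (nat_lit 381) (nat_lit 357) (nat_lit 342)) (XT.lf (nat_lit 0) (nat_lit 67090304) (nat_lit 168) (nat_lit 10294300533) (nat_lit 252) (nat_lit 295952040) (nat_lit 67) (nat_lit 5) (nat_lit 69) (nat_lit 5) (nat_lit 70) (nat_lit 4) (nat_lit 382) (nat_lit 357) (nat_lit 341))) (XT.nd (nat_lit 94) (nat_lit 252) (nat_lit 0) (XT.lf (nat_lit 0) (nat_lit 2027383421) (nat_lit 252) (nat_lit 3773657162) (nat_lit 336) (nat_lit 5295129991) (nat_lit 63) (nat_lit 5) (nat_lit 66) (nat_lit 5) (nat_lit 67) (nat_lit 5) (nat_lit 383) (nat_lit 357) (nat_lit 340)) (XT.lf (nat_lit 0) (nat_lit 855048416) (nat_lit 252) (nat_lit 7409865782) (nat_lit 84) (nat_lit 3300555378) (nat_lit 60) (nat_lit 5) (nat_lit 63) (nat_lit 5) (nat_lit 61) (nat_lit 5) (nat_lit 384) (nat_lit 357) (nat_lit 339))))))))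
noncomputable def xc80 : XT := (XT.nd (nat_lit 2632) (nat_lit 420) (nat_lit 0) (XT.nd (nat_lit 1316) (nat_lit 1848) (nat_lit 0) (XT.nd (nat_lit 658) (nat_lit 1344) (nat_lit 0) (XT.nd (nat_lit 282) (nat_lit 840) (nat_lit 0) (XT.nd (nat_lit 94) (nat_lit 420) (nat_lit 0) (XT.lf (nat_lit 0) (nat_lit 6378981646) (nat_lit 168) (nat_lit 1037109845) (nat_lit 252) (nat_lit 4646662440) (nat_lit 58) (nat_lit 5) (nat_lit 60) (nat_lit 5) (nat_lit 61) (nat_lit 5) (nat_lit 385) (nat_lit 357) (nat_lit 338)) (XT.nd (nat_lit 94) (nat_lit 168) (nat_lit 0) (XT.lf (nat_lit 0) (nat_lit 2004376094) (nat_lit 252) (nat_lit 3868995906) (nat_lit 84) (nat_lit 6716811037) (nat_lit 55) (nat_lit 5) (nat_lit 58) (nat_lit 5) (nat_lit 56) (nat_lit 5) (nat_lit 386) (nat_lit 357) (nat_lit 337)) (XT.lf (nat_lit 0) (nat_lit 9147577414) (nat_lit 252) (nat_lit 1946439068) (nat_lit 84) (nat_lit 2055837445)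 (nat_lit 53) (nat_lit 5) (nat_lit 56) (nat_lit 5) (nat_lit 54) (nat_lit 4) (nat_lit 387) (nat_lit 357) (nat_lit 336)))) (XT.nd (nat_lit 188) (nat_lit 336) (nat_lit 0) (XT.nd (nat_lit 94) (nat_lit 84) (nat_lit 0) (XT.lf (nat_lit 0) (nat_lit 75423797) (nat_lit 168) (nat_lit 3123154545) (nat_lit 252) (nat_lit 10543788198) (nat_lit 48) (nat_lit 5) (nat_lit 50) (nat_lit 5) (nat_lit 51) (nat_lit 5) (nat_lit 388) (nat_lit 357) (nat_lit 335)) (XT.lf (nat_lit 0) (nat_lit 2267062356) (nat_lit 84) (nat_lit 8795158910) (nat_lit 168) (nat_lit 3305431343) (nat_lit 47) (nat_lit 5) (nat_lit 48) (nat_lit 5) (nat_lit 49) (nat_lit 4) (nat_lit 389) (nat_lit 357) (nat_lit 334))) (XT.nd (nat_lit 94) (nat_lit 84) (nat_lit 0) (XT.lf (nat_lit 0) (nat_lit 4542192155) (nat_lit 252) (nat_lit 10422646363) (nat_lit 84) (nat_lit 65870299) (nat_lit 44) (nat_lit 5) (nat_lit 47) (nat_lit 5)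 (nat_lit 45) (nat_lit 4) (nat_lit 390) (nat_lit 357) (nat_lit 333)) (XT.lf (nat_lit 0) (nat_lit 7030699430) (nat_lit 84) (nat_lit 6158823643) (nat_lit 168) (nat_lit 2540191891) (nat_lit 43) (nat_lit 5) (nat_lit 44) (nat_lit 5) (nat_lit 45) (nat_lit 4) (nat_lit 391) (nat_lit 357) (nat_lit 332))))) (XT.nd (nat_lit 282) (nat_lit 756) (nat_lit 0) (XT.nd (nat_lit 94) (nat_lit 336) (nat_lit 0) (XT.lf (nat_lit 0) (nat_lit 6062709676) (nat_lit 252) (nat_lit 6867857233) (nat_lit 84) (nat_lit 3538748678) (nat_lit 40) (nat_lit 5) (nat_lit 43) (nat_lit 5) (nat_lit 41) (nat_lit 4) (nat_lit 392) (nat_lit 357) (nat_lit 331)) (XT.nd (nat_lit 94) (nat_lit 252) (nat_lit 0) (XT.lf (nat_lit 0) (nat_lit 12342380767) (nat_lit 84) (nat_lit 3200184244) (nat_lit 168) (nat_lit 1709551246) (nat_lit 39) (nat_lit 5) (nat_lit 40) (nat_lit 5) (nat_lit 41) (nat_lit 4) (nat_lit 393) (nat_lit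 357) (nat_lit 330)) (XT.lf (nat_lit 0) (nat_lit 7748939982) (nat_lit 252) (nat_lit 2902092033) (nat_lit 84) (nat_lit 7424931861) (nat_lit 36) (nat_lit 5) (nat_lit 39) (nat_lit 5) (nat_lit 37) (nat_lit 4) (nat_lit 394) (nat_lit 357) (nat_lit 329)))) (XT.nd (nat_lit 188) (nat_lit 336) (nat_lit 0) (XT.nd (nat_lit 94) (nat_lit 336) (nat_lit 0) (XT.lf (nat_lit 0) (nat_lit 18169965979) (nat_lit 168) (nat_lit 677652361) (nat_lit 0) (nat_lit 103412202) (nat_lit 35) (nat_lit 5) (nat_lit 37) (nat_lit 4) (nat_lit 35) (nat_lit 4) (nat_lit 395) (nat_lit 357) (nat_lit 328)) (XT.lf (nat_lit 0) (nat_lit 1586361255) (nat_lit 84) (nat_lit 8078915174) (nat_lit 168) (nat_lit 10201303791) (nat_lit 31) (nat_lit 5) (nat_lit 32) (nat_lit 5) (nat_lit 33) (nat_lit 4) (nat_lit 396) (nat_lit 357) (nat_lit 327))) (XT.nd (nat_lit 94) (nat_lit 84) (nat_lit 0) (XT.lf (nat_lit 0) (nat_lit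 389434169) (nat_lit 252) (nat_lit 16703029889) (nat_lit 84) (nat_lit 3745903906) (nat_lit 28) (nat_lit 5) (nat_lit 31) (nat_lit 5) (nat_lit 29) (nat_lit 4) (nat_lit 397) (nat_lit 357) (nat_lit 326)) (XT.lf (nat_lit 0) (nat_lit 6731503877) (nat_lit 84) (nat_lit 5153497160) (nat_lit 168) (nat_lit 9973787273) (nat_lit 27) (nat_lit 5) (nat_lit 28) (nat_lit 5) (nat_lit 29) (nat_lit 4) (nat_lit 398) (nat_lit 357) (nat_lit 325)))))) (XT.nd (nat_lit 658) (nat_lit 924) (nat_lit 0) (XT.nd (nat_lit 282) (nat_lit 504) (nat_lit 0) (XT.nd (nat_lit 94) (nat_lit 252) (nat_lit 0) (XT.lf (nat_lit 0) (nat_lit 1719713653) (nat_lit 168) (nat_lit 13383534474) (nat_lit 84) (nat_lit 7835388044) (nat_lit 25) (nat_lit 5) (nat_lit 27) (nat_lit 5) (nat_lit 26) (nat_lit 4) (nat_lit 399) (nat_lit 357) (nat_lit 324)) (XT.nd (nat_lit 94) (nat_lit 168) (nat_lit 0) (XT.lf (nat_lit 0) (nat_lit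 12521785578) (nat_lit 84) (nat_lit 1886997429) (nat_lit 168) (nat_lit 9667437555) (nat_lit 24) (nat_lit 5) (nat_lit 25) (nat_lit 5) (nat_lit 26) (nat_lit 4) (nat_lit 400) (nat_lit 357) (nat_lit 323)) (XT.lf (nat_lit 0) (nat_lit 3261981701) (nat_lit 168) (nat_lit 9613457155) (nat_lit 84) (nat_lit 12399995963) (nat_lit 22) (nat_lit 5) (nat_lit 24) (nat_lit 5) (nat_lit 23) (nat_lit 4) (nat_lit 401) (nat_lit 357) (nat_lit 322)))) (XT.nd (nat_lit 188) (nat_lit 252) (nat_lit 0) (XT.nd (nat_lit 94) (nat_lit 168) (nat_lit 0) (XT.lf (nat_lit 0) (nat_lit 17316357347) (nat_lit 168) (nat_lit 7516204870) (nat_lit 0) (nat_lit 1708634733) (nat_lit 21) (nat_lit 5) (nat_lit 23) (nat_lit 4) (nat_lit 21) (nat_lit 4) (nat_lit 402) (nat_lit 357) (nat_lit 321)) (XT.lf (nat_lit 0) (nat_lit 5058448089) (nat_lit 168) (nat_lit 5315143095) (nat_lit 84) (nat_lit 17500128509) (nat_lit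 19) (nat_lit 5) (nat_lit 21) (nat_lit 5) (nat_lit 20) (nat_lit 4) (nat_lit 403) (nat_lit 357) (nat_lit 320))) (XT.nd (nat_lit 94) (nat_lit 168) (nat_lit 0) (XT.lf (nat_lit 0) (nat_lit 20674240336) (nat_lit 168) (nat_lit 2937321283) (nat_lit 0) (nat_lit 5668069544) (nat_lit 18) (nat_lit 5) (nat_lit 20) (nat_lit 4) (nat_lit 18) (nat_lit 4) (nat_lit 404) (nat_lit 357) (nat_lit 319)) (XT.lf (nat_lit 0) (nat_lit 7156000738) (nat_lit 168) (nat_lit 399435991) (nat_lit 84) (nat_lit 23205792137) (nat_lit 16) (nat_lit 5) (nat_lit 18) (nat_lit 5) (nat_lit 17) (nat_lit 4) (nat_lit 405) (nat_lit 357) (nat_lit 318))))) (XT.nd (nat_lit 282) (nat_lit 504) (nat_lit 0) (XT.nd (nat_lit 94) (nat_lit 252) (nat_lit 0) (XT.lf (nat_lit 0) (nat_lit 2383282699) (nat_lit 84) (nat_lit 22172177434) (nat_lit 84) (nat_lit 7764908280) (nat_lit 14) (nat_lit 4) (nat_lit 15) (nat_lit 5) (nat_lit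 15) (nat_lit 4) (nat_lit 406) (nat_lit 357) (nat_lit 317)) (XT.nd (nat_lit 94) (nat_lit 84) (nat_lit 0) (XT.lf (nat_lit 0) (nat_lit 5408796018) (nat_lit 84) (nat_lit 4282696651) (nat_lit 168) (nat_lit 24273059305) (nat_lit 12) (nat_lit 5) (nat_lit 13) (nat_lit 5) (nat_lit 14) (nat_lit 4) (nat_lit 407) (nat_lit 357) (nat_lit 316)) (XT.lf (nat_lit 0) (nat_lit 8600969840) (nat_lit 84) (nat_lit 20454715380) (nat_lit 84) (nat_lit 6639054116) (nat_lit 11) (nat_lit 4) (nat_lit 12) (nat_lit 5) (nat_lit 12) (nat_lit 4) (nat_lit 408) (nat_lit 357) (nat_lit 315)))) (XT.nd (nat_lit 188) (nat_lit 252) (nat_lit 0) (XT.nd (nat_lit 94) (nat_lit 84) (nat_lit 0) (XT.lf (nat_lit 0) (nat_lit 12093727439) (nat_lit 84) (nat_lit 565509090) (nat_lit 168) (nat_lit 24861889593) (nat_lit 9) (nat_lit 5) (nat_lit 10) (nat_lit 5) (nat_lit 11) (nat_lit 4) (nat_lit 409) (nat_lit 357) (nat_lit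 314)) (XT.lf (nat_lit 0) (nat_lit 15746916259) (nat_lit 84) (nat_lit 18464514061) (nat_lit 84) (nat_lit 5229619682) (nat_lit 8) (nat_lit 4) (nat_lit 9) (nat_lit 5) (nat_lit 9) (nat_lit 4) (nat_lit 410) (nat_lit 357) (nat_lit 313))) (XT.nd (nat_lit 94) (nat_lit 84) (nat_lit 0) (XT.lf (nat_lit 0) (nat_lit 16178299978) (nat_lit 168) (nat_lit 21747040679) (nat_lit 0) (nat_lit 3540942224) (nat_lit 6) (nat_lit 5) (nat_lit 8) (nat_lit 4) (nat_lit 6) (nat_lit 4) (nat_lit 411) (nat_lit 357) (nat_lit 312)) (XT.lf (nat_lit 0) (nat_lit 23967181348) (nat_lit 84) (nat_lit 16149815257) (nat_lit 84) (nat_lit 3482183022) (nat_lit 5) (nat_lit 4) (nat_lit 6) (nat_lit 5) (nat_lit 6) (nat_lit 4) (nat_lit 412) (nat_lit 357) (nat_lit 311))))))) (XT.nd (nat_lit 1316) (nat_lit 0) (nat_lit 0) (XT.nd (nat_lit 658) (nat_lit 0) (nat_lit 0) (XT.nd (nat_lit 282) (nat_lit 0) (nat_lit 0)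 (XT.nd (nat_lit 94) (nat_lit 252) (nat_lit 0) (XT.lf (nat_lit 0) (nat_lit 20286746892) (nat_lit 168) (nat_lit 17361608609) (nat_lit 0) (nat_lit 8195638166) (nat_lit 3) (nat_lit 5) (nat_lit 5) (nat_lit 4) (nat_lit 3) (nat_lit 4) (nat_lit 413) (nat_lit 357) (nat_lit 310)) (XT.nd (nat_lit 94) (nat_lit 168) (nat_lit 0) (XT.lf (nat_lit 0) (nat_lit 33427843962) (nat_lit 84) (nat_lit 13450678186) (nat_lit 84) (nat_lit 1334849948) (nat_lit 2) (nat_lit 4) (nat_lit 3) (nat_lit 5) (nat_lit 3) (nat_lit 4) (nat_lit 414) (nat_lit 357) (nat_lit 309)) (XT.lf (nat_lit 0) (nat_lit 74867687921) (nat_lit 0) (nat_lit 0) (nat_lit 0) (nat_lit 0) (nat_lit 0) (nat_lit 0) (nat_lit 1) (nat_lit 0) (nat_lit 1) (nat_lit 0) (nat_lit 415) (nat_lit 357) (nat_lit 308)))) (XT.nd (nat_lit 188) (nat_lit 0) (nat_lit 0) (XT.nd (nat_lit 94) (nat_lit 0) (nat_lit 0) (XT.lf (nat_lit 0) (nat_lit 80785889198)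 (nat_lit 0) (nat_lit 0) (nat_lit 0) (nat_lit 0) (nat_lit 0) (nat_lit 0) (nat_lit 1) (nat_lit 0) (nat_lit 1) (nat_lit 0) (nat_lit 416) (nat_lit 357) (nat_lit 307)) (XT.lf (nat_lit 0) (nat_lit 87177770584) (nat_lit 0) (nat_lit 0) (nat_lit 0) (nat_lit 0) (nat_lit 0) (nat_lit 0) (nat_lit 1) (nat_lit 0) (nat_lit 1) (nat_lit 0) (nat_lit 417) (nat_lit 357) (nat_lit 306))) (XT.nd (nat_lit 94) (nat_lit 0) (nat_lit 0) (XT.lf (nat_lit 0) (nat_lit 94081209894) (nat_lit 0) (nat_lit 0) (nat_lit 0) (nat_lit 0) (nat_lit 0) (nat_lit 0) (nat_lit 1) (nat_lit 0) (nat_lit 1) (nat_lit 0) (nat_lit 418) (nat_lit 357) (nat_lit 305)) (XT.lf (nat_lit 0) (nat_lit 101537116398) (nat_lit 0) (nat_lit 0) (nat_lit 0) (nat_lit 0) (nat_lit 0) (nat_lit 0) (nat_lit 1) (nat_lit 0) (nat_lit 1) (nat_lit 0) (nat_lit 419) (nat_lit 357) (nat_lit 304))))) (XT.nd (nat_lit 282) (nat_lit 0) (nat_lit 0)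 (XT.nd (nat_lit 94) (nat_lit 0) (nat_lit 0) (XT.lf (nat_lit 0) (nat_lit 109589673246) (nat_lit 0) (nat_lit 0) (nat_lit 0) (nat_lit 0) (nat_lit 0) (nat_lit 0) (nat_lit 1) (nat_lit 0) (nat_lit 1) (nat_lit 0) (nat_lit 420) (nat_lit 357) (nat_lit 303)) (XT.nd (nat_lit 94) (nat_lit 0) (nat_lit 0) (XT.lf (nat_lit 0) (nat_lit 118286599293) (nat_lit 0) (nat_lit 0) (nat_lit 0) (nat_lit 0) (nat_lit 0) (nat_lit 0) (nat_lit 1) (nat_lit 0) (nat_lit 1) (nat_lit 0) (nat_lit 421) (nat_lit 357) (nat_lit 302)) (XT.lf (nat_lit 0) (nat_lit 127679431879) (nat_lit 0) (nat_lit 0) (nat_lit 0) (nat_lit 0) (nat_lit 0) (nat_lit 0) (nat_lit 1) (nat_lit 0) (nat_lit 1) (nat_lit 0) (nat_lit 422) (nat_lit 357) (nat_lit 301)))) (XT.nd (nat_lit 188) (nat_lit 0) (nat_lit 0) (XT.nd (nat_lit 94) (nat_lit 0) (nat_lit 0) (XT.lf (nat_lit 0) (nat_lit 137823832234) (nat_lit 0) (nat_lit 0) (nat_lit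 0) (nat_lit 0) (nat_lit 0) (nat_lit 0) (nat_lit 1) (nat_lit 0) (nat_lit 1) (nat_lit 0) (nat_lit 423) (nat_lit 357) (nat_lit 300)) (XT.lf (nat_lit 0) (nat_lit 148779915323) (nat_lit 0) (nat_lit 0) (nat_lit 0) (nat_lit 0) (nat_lit 0) (nat_lit 0) (nat_lit 1) (nat_lit 0) (nat_lit 1) (nat_lit 0) (nat_lit 424) (nat_lit 357) (nat_lit 299))) (XT.nd (nat_lit 94) (nat_lit 0) (nat_lit 0) (XT.lf (nat_lit 0) (nat_lit 160612606083) (nat_lit 0) (nat_lit 0) (nat_lit 0) (nat_lit 0) (nat_lit 0) (nat_lit 0) (nat_lit 1) (nat_lit 0) (nat_lit 1) (nat_lit 0) (nat_lit 425) (nat_lit 357) (nat_lit 298)) (XT.lf (nat_lit 0) (nat_lit 173392024162) (nat_lit 0) (nat_lit 0) (nat_lit 0) (nat_lit 0) (nat_lit 0) (nat_lit 0) (nat_lit 1) (nat_lit 0) (nat_lit 1) (nat_lit 0) (nat_lit 426) (nat_lit 357) (nat_lit 297)))))) (XT.nd (nat_lit 658) (nat_lit 0) (nat_lit 0) (XT.nd (nat_lit 282) (nat_lit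 0) (nat_lit 0) (XT.nd (nat_lit 94) (nat_lit 0) (nat_lit 0) (XT.lf (nat_lit 0) (nat_lit 187193899446) (nat_lit 0) (nat_lit 0) (nat_lit 0) (nat_lit 0) (nat_lit 0) (nat_lit 0) (nat_lit 1) (nat_lit 0) (nat_lit 1) (nat_lit 0) (nat_lit 427) (nat_lit 357) (nat_lit 296)) (XT.nd (nat_lit 94) (nat_lit 0) (nat_lit 0) (XT.lf (nat_lit 0) (nat_lit 202100020826) (nat_lit 0) (nat_lit 0) (nat_lit 0) (nat_lit 0) (nat_lit 0) (nat_lit 0) (nat_lit 1) (nat_lit 0) (nat_lit 1) (nat_lit 0) (nat_lit 428) (nat_lit 357) (nat_lit 295)) (XT.lf (nat_lit 0) (nat_lit 218198720871) (nat_lit 0) (nat_lit 0) (nat_lit 0) (nat_lit 0) (nat_lit 0) (nat_lit 0) (nat_lit 1) (nat_lit 0) (nat_lit 1) (nat_lit 0) (nat_lit 429) (nat_lit 357) (nat_lit 294)))) (XT.nd (nat_lit 188) (nat_lit 0) (nat_lit 0) (XT.nd (nat_lit 94) (nat_lit 0) (nat_lit 0) (XT.lf (nat_lit 0) (nat_lit 235585399287) (nat_lit 0) (nat_lit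 0) (nat_lit 0) (nat_lit 0) (nat_lit 0) (nat_lit 0) (nat_lit 1) (nat_lit 0) (nat_lit 1) (nat_lit 0) (nat_lit 430) (nat_lit 357) (nat_lit 293)) (XT.lf (nat_lit 0) (nat_lit 254363088242) (nat_lit 0) (nat_lit 0) (nat_lit 0) (nat_lit 0) (nat_lit 0) (nat_lit 0) (nat_lit 1) (nat_lit 0) (nat_lit 1) (nat_lit 0) (nat_lit 431) (nat_lit 357) (nat_lit 292))) (XT.nd (nat_lit 94) (nat_lit 0) (nat_lit 0) (XT.lf (nat_lit 0) (nat_lit 274643062929) (nat_lit 0) (nat_lit 0) (nat_lit 0) (nat_lit 0) (nat_lit 0) (nat_lit 0) (nat_lit 1) (nat_lit 0) (nat_lit 1) (nat_lit 0) (nat_lit 432) (nat_lit 357) (nat_lit 291)) (XT.lf (nat_lit 0) (nat_lit 296545500977) (nat_lit 0) (nat_lit 0) (nat_lit 0) (nat_lit 0) (nat_lit 0) (nat_lit 0) (nat_lit 1) (nat_lit 0) (nat_lit 1) (nat_lit 0) (nat_lit 433) (nat_lit 357) (nat_lit 290))))) (XT.nd (nat_lit 282) (nat_lit 0) (nat_lit 0) (XT.nd (nat_lit 94)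 (nat_lit 0) (nat_lit 0) (XT.lf (nat_lit 0) (nat_lit 320200194610) (nat_lit 0) (nat_lit 0) (nat_lit 0) (nat_lit 0) (nat_lit 0) (nat_lit 0) (nat_lit 1) (nat_lit 0) (nat_lit 1) (nat_lit 0) (nat_lit 434) (nat_lit 357) (nat_lit 289)) (XT.nd (nat_lit 94) (nat_lit 0) (nat_lit 0) (XT.lf (nat_lit 0) (nat_lit 345747319791) (nat_lit 0) (nat_lit 0) (nat_lit 0) (nat_lit 0) (nat_lit 0) (nat_lit 0) (nat_lit 1) (nat_lit 0) (nat_lit 1) (nat_lit 0) (nat_lit 435) (nat_lit 357) (nat_lit 288)) (XT.lf (nat_lit 0) (nat_lit 373338266892) (nat_lit 0) (nat_lit 0) (nat_lit 0) (nat_lit 0) (nat_lit 0) (nat_lit 0) (nat_lit 1) (nat_lit 0) (nat_lit 1) (nat_lit 0) (nat_lit 436) (nat_lit 357) (nat_lit 287)))) (XT.nd (nat_lit 188) (nat_lit 0) (nat_lit 0) (XT.nd (nat_lit 94) (nat_lit 0) (nat_lit 0) (XT.lf (nat_lit 0) (nat_lit 403136537821) (nat_lit 0) (nat_lit 0) (nat_lit 0) (nat_lit 0) (nat_lit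 0) (nat_lit 0) (nat_lit 1) (nat_lit 0) (nat_lit 1) (nat_lit 0) (nat_lit 437) (nat_lit 357) (nat_lit 286)) (XT.lf (nat_lit 0) (nat_lit 435318714925) (nat_lit 0) (nat_lit 0) (nat_lit 0) (nat_lit 0) (nat_lit 0) (nat_lit 0) (nat_lit 1) (nat_lit 0) (nat_lit 1) (nat_lit 0) (nat_lit 438) (nat_lit 357) (nat_lit 285))) (XT.nd (nat_lit 94) (nat_lit 0) (nat_lit 0) (XT.lf (nat_lit 0) (nat_lit 470075507400) (nat_lit 0) (nat_lit 0) (nat_lit 0) (nat_lit 0) (nat_lit 0) (nat_lit 0) (nat_lit 1) (nat_lit 0) (nat_lit 1) (nat_lit 0) (nat_lit 439) (nat_lit 357) (nat_lit 284)) (XT.lf (nat_lit 0) (nat_lit 507612881426) (nat_lit 0) (nat_lit 0) (nat_lit 0) (nat_lit 0) (nat_lit 0) (nat_lit 0) (nat_lit 1) (nat_lit 0) (nat_lit 1) (nat_lit 0) (nat_lit 440) (nat_lit 357) (nat_lit 283))))))))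
noncomputable def xc81 : XT := (XT.nd (nat_lit 2632) (nat_lit 0) (nat_lit 0) (XT.nd (nat_lit 1316) (nat_lit 0) (nat_lit 0) (XT.nd (nat_lit 658) (nat_lit 0) (nat_lit 0) (XT.nd (nat_lit 282) (nat_lit 0) (nat_lit 0) (XT.nd (nat_lit 94) (nat_lit 0) (nat_lit 0) (XT.lf (nat_lit 0) (nat_lit 548153280699) (nat_lit 0) (nat_lit 0) (nat_lit 0) (nat_lit 0) (nat_lit 0) (nat_lit 0) (nat_lit 1) (nat_lit 0) (nat_lit 1) (nat_lit 0) (nat_lit 441) (nat_lit 357) (nat_lit 282)) (XT.nd (nat_lit 94) (nat_lit 0) (nat_lit 0) (XT.lf (nat_lit 0) (nat_lit 591936944623) (nat_lit 0) (nat_lit 0) (nat_lit 0) (nat_lit 0) (nat_lit 0) (nat_lit 0) (nat_lit 1) (nat_lit 0) (nat_lit 1) (nat_lit 0) (nat_lit 442) (nat_lit 357) (nat_lit 281)) (XT.lf (nat_lit 0) (nat_lit 639223331947) (nat_lit 0) (nat_lit 0) (nat_lit 0) (nat_lit 0) (nat_lit 0) (nat_lit 0) (nat_lit 1) (nat_lit 0) (nat_lit 1) (nat_lit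 0) (nat_lit 443) (nat_lit 357) (nat_lit 280)))) (XT.nd (nat_lit 188) (nat_lit 0) (nat_lit 0) (XT.nd (nat_lit 94) (nat_lit 0) (nat_lit 0) (XT.lf (nat_lit 0) (nat_lit 690292658299) (nat_lit 0) (nat_lit 0) (nat_lit 0) (nat_lit 0) (nat_lit 0) (nat_lit 0) (nat_lit 1) (nat_lit 0) (nat_lit 1) (nat_lit 0) (nat_lit 444) (nat_lit 357) (nat_lit 279)) (XT.lf (nat_lit 0) (nat_lit 745447556725) (nat_lit 0) (nat_lit 0) (nat_lit 0) (nat_lit 0) (nat_lit 0) (nat_lit 0) (nat_lit 1) (nat_lit 0) (nat_lit 1) (nat_lit 0) (nat_lit 445) (nat_lit 357) (nat_lit 278))) (XT.nd (nat_lit 94) (nat_lit 0) (nat_lit 0) (XT.lf (nat_lit 0) (nat_lit 805014871067) (nat_lit 0) (nat_lit 0) (nat_lit 0) (nat_lit 0) (nat_lit 0) (nat_lit 0) (nat_lit 1) (nat_lit 0) (nat_lit 1) (nat_lit 0) (nat_lit 446) (nat_lit 357) (nat_lit 277)) (XT.lf (nat_lit 0) (nat_lit 869347592818) (nat_lit 0) (nat_lit 0) (nat_lit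 0) (nat_lit 0) (nat_lit 0) (nat_lit 0) (nat_lit 1) (nat_lit 0) (nat_lit 1) (nat_lit 0) (nat_lit 447) (nat_lit 357) (nat_lit 276))))) (XT.nd (nat_lit 282) (nat_lit 0) (nat_lit 0) (XT.nd (nat_lit 94) (nat_lit 0) (nat_lit 0) (XT.lf (nat_lit 0) (nat_lit 938826952921) (nat_lit 0) (nat_lit 0) (nat_lit 0) (nat_lit 0) (nat_lit 0) (nat_lit 0) (nat_lit 1) (nat_lit 0) (nat_lit 1) (nat_lit 0) (nat_lit 448) (nat_lit 357) (nat_lit 275)) (XT.nd (nat_lit 94) (nat_lit 0) (nat_lit 0) (XT.lf (nat_lit 0) (nat_lit 1013864680918) (nat_lit 0) (nat_lit 0) (nat_lit 0) (nat_lit 0) (nat_lit 0) (nat_lit 0) (nat_lit 1) (nat_lit 0) (nat_lit 1) (nat_lit 0) (nat_lit 449) (nat_lit 357) (nat_lit 274)) (XT.lf (nat_lit 0) (nat_lit 1094905444826) (nat_lit 0) (nat_lit 0) (nat_lit 0) (nat_lit 0) (nat_lit 0) (nat_lit 0) (nat_lit 1) (nat_lit 0) (nat_lit 1) (nat_lit 0) (nat_lit 450) (nat_lit 357)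 (nat_lit 273)))) (XT.nd (nat_lit 188) (nat_lit 0) (nat_lit 0) (XT.nd (nat_lit 94) (nat_lit 0) (nat_lit 0) (XT.lf (nat_lit 0) (nat_lit 1182429486209) (nat_lit 0) (nat_lit 0) (nat_lit 0) (nat_lit 0) (nat_lit 0) (nat_lit 0) (nat_lit 1) (nat_lit 0) (nat_lit 1) (nat_lit 0) (nat_lit 451) (nat_lit 357) (nat_lit 272)) (XT.lf (nat_lit 0) (nat_lit 1276955466053) (nat_lit 0) (nat_lit 0) (nat_lit 0) (nat_lit 0) (nat_lit 0) (nat_lit 0) (nat_lit 1) (nat_lit 0) (nat_lit 1) (nat_lit 0) (nat_lit 452) (nat_lit 357) (nat_lit 271))) (XT.nd (nat_lit 94) (nat_lit 0) (nat_lit 0) (XT.lf (nat_lit 0) (nat_lit 1379043538313) (nat_lit 0) (nat_lit 0) (nat_lit 0) (nat_lit 0) (nat_lit 0) (nat_lit 0) (nat_lit 1) (nat_lit 0) (nat_lit 1) (nat_lit 0) (nat_lit 453) (nat_lit 357) (nat_lit 270)) (XT.lf (nat_lit 0) (nat_lit 1489298669343) (nat_lit 0) (nat_lit 0) (nat_lit 0) (nat_lit 0) (nat_lit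 0) (nat_lit 0) (nat_lit 1) (nat_lit 0) (nat_lit 1) (nat_lit 0) (nat_lit 454) (nat_lit 357) (nat_lit 269)))))) (XT.nd (nat_lit 658) (nat_lit 0) (nat_lit 0) (XT.nd (nat_lit 282) (nat_lit 0) (nat_lit 0) (XT.nd (nat_lit 94) (nat_lit 0) (nat_lit 0) (XT.lf (nat_lit 0) (nat_lit 1608374222883) (nat_lit 0) (nat_lit 0) (nat_lit 0) (nat_lit 0) (nat_lit 0) (nat_lit 0) (nat_lit 1) (nat_lit 0) (nat_lit 1) (nat_lit 0) (nat_lit 455) (nat_lit 357) (nat_lit 268)) (XT.nd (nat_lit 94) (nat_lit 0) (nat_lit 0) (XT.lf (nat_lit 0) (nat_lit 1736975831842) (nat_lit 0) (nat_lit 0) (nat_lit 0) (nat_lit 0) (nat_lit 0) (nat_lit 0) (nat_lit 1) (nat_lit 0) (nat_lit 1) (nat_lit 0) (nat_lit 456) (nat_lit 357) (nat_lit 267)) (XT.lf (nat_lit 0) (nat_lit 1875865579829) (nat_lit 0) (nat_lit 0) (nat_lit 0) (nat_lit 0) (nat_lit 0) (nat_lit 0) (nat_lit 1) (nat_lit 0) (nat_lit 1) (nat_lit 0) (nat_lit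 457) (nat_lit 357) (nat_lit 266)))) (XT.nd (nat_lit 188) (nat_lit 0) (nat_lit 0) (XT.nd (nat_lit 94) (nat_lit 0) (nat_lit 0) (XT.lf (nat_lit 0) (nat_lit 2025866517202) (nat_lit 0) (nat_lit 0) (nat_lit 0) (nat_lit 0) (nat_lit 0) (nat_lit 0) (nat_lit 1) (nat_lit 0) (nat_lit 1) (nat_lit 0) (nat_lit 458) (nat_lit 357) (nat_lit 265)) (XT.lf (nat_lit 0) (nat_lit 2187867538405) (nat_lit 0) (nat_lit 0) (nat_lit 0) (nat_lit 0) (nat_lit 0) (nat_lit 0) (nat_lit 1) (nat_lit 0) (nat_lit 1) (nat_lit 0) (nat_lit 459) (nat_lit 357) (nat_lit 264))) (XT.nd (nat_lit 94) (nat_lit 0) (nat_lit 0) (XT.lf (nat_lit 0) (nat_lit 2362828649490) (nat_lit 0) (nat_lit 0) (nat_lit 0) (nat_lit 0) (nat_lit 0) (nat_lit 0) (nat_lit 1) (nat_lit 0) (nat_lit 1) (nat_lit 0) (nat_lit 460) (nat_lit 357) (nat_lit 263)) (XT.lf (nat_lit 0) (nat_lit 2551786657041) (nat_lit 0) (nat_lit 0) (nat_lit 0) (nat_lit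 0) (nat_lit 0) (nat_lit 0) (nat_lit 1) (nat_lit 0) (nat_lit 1) (nat_lit 0) (nat_lit 461) (nat_lit 357) (nat_lit 262))))) (XT.nd (nat_lit 282) (nat_lit 0) (nat_lit 0) (XT.nd (nat_lit 94) (nat_lit 0) (nat_lit 0) (XT.lf (nat_lit 0) (nat_lit 2755861312213) (nat_lit 0) (nat_lit 0) (nat_lit 0) (nat_lit 0) (nat_lit 0) (nat_lit 0) (nat_lit 1) (nat_lit 0) (nat_lit 1) (nat_lit 0) (nat_lit 462) (nat_lit 357) (nat_lit 261)) (XT.nd (nat_lit 94) (nat_lit 0) (nat_lit 0) (XT.lf (nat_lit 0) (nat_lit 2976261946297) (nat_lit 0) (nat_lit 0) (nat_lit 0) (nat_lit 0) (nat_lit 0) (nat_lit 0) (nat_lit 1) (nat_lit 0) (nat_lit 1) (nat_lit 0) (nat_lit 463) (nat_lit 357) (nat_lit 260)) (XT.lf (nat_lit 0) (nat_lit 3214294637125) (nat_lit 0) (nat_lit 0) (nat_lit 0) (nat_lit 0) (nat_lit 0) (nat_lit 0) (nat_lit 1) (nat_lit 0) (nat_lit 1) (nat_lit 0) (nat_lit 464) (nat_lit 357) (nat_lit 259))))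 (XT.nd (nat_lit 188) (nat_lit 0) (nat_lit 0) (XT.nd (nat_lit 94) (nat_lit 0) (nat_lit 0) (XT.lf (nat_lit 0) (nat_lit 3471369948789) (nat_lit 0) (nat_lit 0) (nat_lit 0) (nat_lit 0) (nat_lit 0) (nat_lit 0) (nat_lit 1) (nat_lit 0) (nat_lit 1) (nat_lit 0) (nat_lit 465) (nat_lit 357) (nat_lit 258)) (XT.lf (nat_lit 0) (nat_lit 3749011290545) (nat_lit 0) (nat_lit 0) (nat_lit 0) (nat_lit 0) (nat_lit 0) (nat_lit 0) (nat_lit 1) (nat_lit 0) (nat_lit 1) (nat_lit 0) (nat_lit 466) (nat_lit 357) (nat_lit 257))) (XT.nd (nat_lit 94) (nat_lit 0) (nat_lit 0) (XT.lf (nat_lit 0) (nat_lit 4048863944417) (nat_lit 0) (nat_lit 0) (nat_lit 0) (nat_lit 0) (nat_lit 0) (nat_lit 0) (nat_lit 1) (nat_lit 0) (nat_lit 1) (nat_lit 0) (nat_lit 467) (nat_lit 357) (nat_lit 256)) (XT.lf (nat_lit 0) (nat_lit 4372704815021) (nat_lit 0) (nat_lit 0) (nat_lit 0) (nat_lit 0) (nat_lit 0) (nat_lit 0) (nat_lit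 1) (nat_lit 0) (nat_lit 1) (nat_lit 0) (nat_lit 468) (nat_lit 357) (nat_lit 255))))))) (XT.nd (nat_lit 1316) (nat_lit 0) (nat_lit 0) (XT.nd (nat_lit 658) (nat_lit 0) (nat_lit 0) (XT.nd (nat_lit 282) (nat_lit 0) (nat_lit 0) (XT.nd (nat_lit 94) (nat_lit 0) (nat_lit 0) (XT.lf (nat_lit 0) (nat_lit 4722452959369) (nat_lit 0) (nat_lit 0) (nat_lit 0) (nat_lit 0) (nat_lit 0) (nat_lit 0) (nat_lit 1) (nat_lit 0) (nat_lit 1) (nat_lit 0) (nat_lit 469) (nat_lit 357) (nat_lit 254)) (XT.nd (nat_lit 94) (nat_lit 0) (nat_lit 0) (XT.lf (nat_lit 0) (nat_lit 5100180959055) (nat_lit 0) (nat_lit 0) (nat_lit 0) (nat_lit 0) (nat_lit 0) (nat_lit 0) (nat_lit 1) (nat_lit 0) (nat_lit 1) (nat_lit 0) (nat_lit 470) (nat_lit 357) (nat_lit 253)) (XT.lf (nat_lit 0) (nat_lit 5508127202227) (nat_lit 0) (nat_lit 0) (nat_lit 0) (nat_lit 0) (nat_lit 0) (nat_lit 0) (nat_lit 1) (nat_lit 0) (nat_lit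 1) (nat_lit 0) (nat_lit 471) (nat_lit 357) (nat_lit 252)))) (XT.nd (nat_lit 188) (nat_lit 0) (nat_lit 0) (XT.nd (nat_lit 94) (nat_lit 0) (nat_lit 0) (XT.lf (nat_lit 0) (nat_lit 5948709148104) (nat_lit 0) (nat_lit 0) (nat_lit 0) (nat_lit 0) (nat_lit 0) (nat_lit 0) (nat_lit 1) (nat_lit 0) (nat_lit 1) (nat_lit 0) (nat_lit 472) (nat_lit 357) (nat_lit 251)) (XT.lf (nat_lit 0) (nat_lit 6424537652660) (nat_lit 0) (nat_lit 0) (nat_lit 0) (nat_lit 0) (nat_lit 0) (nat_lit 0) (nat_lit 1) (nat_lit 0) (nat_lit 1) (nat_lit 0) (nat_lit 473) (nat_lit 357) (nat_lit 250))) (XT.nd (nat_lit 94) (nat_lit 0) (nat_lit 0) (XT.lf (nat_lit 0) (nat_lit 6938432440367) (nat_lit 0) (nat_lit 0) (nat_lit 0) (nat_lit 0) (nat_lit 0) (nat_lit 0) (nat_lit 1) (nat_lit 0) (nat_lit 1) (nat_lit 0) (nat_lit 474) (nat_lit 357) (nat_lit 249)) (XT.lf (nat_lit 0) (nat_lit 7493438813672) (nat_lit 0) (nat_lit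 0) (nat_lit 0) (nat_lit 0) (nat_lit 0) (nat_lit 0) (nat_lit 1) (nat_lit 0) (nat_lit 1) (nat_lit 0) (nat_lit 475) (nat_lit 357) (nat_lit 248))))) (XT.nd (nat_lit 282) (nat_lit 0) (nat_lit 0) (XT.nd (nat_lit 94) (nat_lit 0) (nat_lit 0) (XT.lf (nat_lit 0) (nat_lit 8092845699230) (nat_lit 0) (nat_lit 0) (nat_lit 0) (nat_lit 0) (nat_lit 0) (nat_lit 0) (nat_lit 1) (nat_lit 0) (nat_lit 1) (nat_lit 0) (nat_lit 476) (nat_lit 357) (nat_lit 247)) (XT.nd (nat_lit 94) (nat_lit 0) (nat_lit 0) (XT.lf (nat_lit 0) (nat_lit 8740205137845) (nat_lit 0) (nat_lit 0) (nat_lit 0) (nat_lit 0) (nat_lit 0) (nat_lit 0) (nat_lit 1) (nat_lit 0) (nat_lit 1) (nat_lit 0) (nat_lit 477) (nat_lit 357) (nat_lit 246)) (XT.lf (nat_lit 0) (nat_lit 9439353333598) (nat_lit 0) (nat_lit 0) (nat_lit 0) (nat_lit 0) (nat_lit 0) (nat_lit 0) (nat_lit 1) (nat_lit 0) (nat_lit 1) (nat_lit 0) (nat_lit 478) (nat_lit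 357) (nat_lit 245)))) (XT.nd (nat_lit 188) (nat_lit 0) (nat_lit 0) (XT.nd (nat_lit 94) (nat_lit 0) (nat_lit 0) (XT.lf (nat_lit 0) (nat_lit 10194433386907) (nat_lit 0) (nat_lit 0) (nat_lit 0) (nat_lit 0) (nat_lit 0) (nat_lit 0) (nat_lit 1) (nat_lit 0) (nat_lit 1) (nat_lit 0) (nat_lit 479) (nat_lit 357) (nat_lit 244)) (XT.lf (nat_lit 0) (nat_lit 11009919846237) (nat_lit 0) (nat_lit 0) (nat_lit 0) (nat_lit 0) (nat_lit 0) (nat_lit 0) (nat_lit 1) (nat_lit 0) (nat_lit 1) (nat_lit 0) (nat_lit 480) (nat_lit 357) (nat_lit 243))) (XT.nd (nat_lit 94) (nat_lit 0) (nat_lit 0) (XT.lf (nat_lit 0) (nat_lit 11890645223940) (nat_lit 0) (nat_lit 0) (nat_lit 0) (nat_lit 0) (nat_lit 0) (nat_lit 0) (nat_lit 1) (nat_lit 0) (nat_lit 1) (nat_lit 0) (nat_lit 481) (nat_lit 357) (nat_lit 242)) (XT.lf (nat_lit 0) (nat_lit 12841828633365) (nat_lit 0) (nat_lit 0) (nat_lit 0) (nat_lit 0)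 (nat_lit 0) (nat_lit 0) (nat_lit 1) (nat_lit 0) (nat_lit 1) (nat_lit 0) (nat_lit 482) (nat_lit 357) (nat_lit 241)))))) (XT.nd (nat_lit 658) (nat_lit 0) (nat_lit 0) (XT.nd (nat_lit 282) (nat_lit 0) (nat_lit 0) (XT.nd (nat_lit 94) (nat_lit 0) (nat_lit 0) (XT.lf (nat_lit 0) (nat_lit 13869106716938) (nat_lit 0) (nat_lit 0) (nat_lit 0) (nat_lit 0) (nat_lit 0) (nat_lit 0) (nat_lit 1) (nat_lit 0) (nat_lit 1) (nat_lit 0) (nat_lit 483) (nat_lit 357) (nat_lit 240)) (XT.nd (nat_lit 94) (nat_lit 0) (nat_lit 0) (XT.lf (nat_lit 0) (nat_lit 14978567048487) (nat_lit 0) (nat_lit 0) (nat_lit 0) (nat_lit 0) (nat_lit 0) (nat_lit 0) (nat_lit 1) (nat_lit 0) (nat_lit 1) (nat_lit 0) (nat_lit 484) (nat_lit 357) (nat_lit 239)) (XT.lf (nat_lit 0) (nat_lit 16176784207756) (nat_lit 0) (nat_lit 0) (nat_lit 0) (nat_lit 0) (nat_lit 0) (nat_lit 0) (nat_lit 1) (nat_lit 0) (nat_lit 1) (nat_lit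 0) (nat_lit 485) (nat_lit 357) (nat_lit 238)))) (XT.nd (nat_lit 188) (nat_lit 0) (nat_lit 0) (XT.nd (nat_lit 94) (nat_lit 0) (nat_lit 0) (XT.lf (nat_lit 0) (nat_lit 17470858740872) (nat_lit 0) (nat_lit 0) (nat_lit 0) (nat_lit 0) (nat_lit 0) (nat_lit 0) (nat_lit 1) (nat_lit 0) (nat_lit 1) (nat_lit 0) (nat_lit 486) (nat_lit 357) (nat_lit 237)) (XT.lf (nat_lit 0) (nat_lit 18868459237663) (nat_lit 0) (nat_lit 0) (nat_lit 0) (nat_lit 0) (nat_lit 0) (nat_lit 0) (nat_lit 1) (nat_lit 0) (nat_lit 1) (nat_lit 0) (nat_lit 487) (nat_lit 357) (nat_lit 236))) (XT.nd (nat_lit 94) (nat_lit 0) (nat_lit 0) (XT.lf (nat_lit 0) (nat_lit 20377867775146) (nat_lit 0) (nat_lit 0) (nat_lit 0) (nat_lit 0) (nat_lit 0) (nat_lit 0) (nat_lit 1) (nat_lit 0) (nat_lit 1) (nat_lit 0) (nat_lit 488) (nat_lit 357) (nat_lit 235)) (XT.lf (nat_lit 0) (nat_lit 22008028996506) (nat_lit 0) (nat_lit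 0) (nat_lit 0) (nat_lit 0) (nat_lit 0) (nat_lit 0) (nat_lit 1) (nat_lit 0) (nat_lit 1) (nat_lit 0) (nat_lit 489) (nat_lit 357) (nat_lit 234))))) (XT.nd (nat_lit 376) (nat_lit 0) (nat_lit 0) (XT.nd (nat_lit 188) (nat_lit 0) (nat_lit 0) (XT.nd (nat_lit 94) (nat_lit 0) (nat_lit 0) (XT.lf (nat_lit 0) (nat_lit 23768603116388) (nat_lit 0) (nat_lit 0) (nat_lit 0) (nat_lit 0) (nat_lit 0) (nat_lit 0) (nat_lit 1) (nat_lit 0) (nat_lit 1) (nat_lit 0) (nat_lit 490) (nat_lit 357) (nat_lit 233)) (XT.lf (nat_lit 0) (nat_lit 25670023166614) (nat_lit 0) (nat_lit 0) (nat_lit 0) (nat_lit 0) (nat_lit 0) (nat_lit 0) (nat_lit 1) (nat_lit 0) (nat_lit 1) (nat_lit 0) (nat_lit 491) (nat_lit 357) (nat_lit 232))) (XT.nd (nat_lit 94) (nat_lit 0) (nat_lit 0) (XT.lf (nat_lit 0) (nat_lit 27723556821556) (nat_lit 0) (nat_lit 0) (nat_lit 0) (nat_lit 0) (nat_lit 0) (nat_lit 0) (nat_lit 1) (nat_lit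 0) (nat_lit 1) (nat_lit 0) (nat_lit 492) (nat_lit 357) (nat_lit 231)) (XT.lf (nat_lit 0) (nat_lit 29941373169538) (nat_lit 0) (nat_lit 0) (nat_lit 0) (nat_lit 0) (nat_lit 0) (nat_lit 0) (nat_lit 1) (nat_lit 0) (nat_lit 1) (nat_lit 0) (nat_lit 493) (nat_lit 357) (nat_lit 230)))) (XT.nd (nat_lit 55648) (nat_lit 0) (nat_lit 14196) (XT.nd (nat_lit 55554) (nat_lit 0) (nat_lit 15120) (XT.lf (nat_lit 0) (nat_lit 32336614825957) (nat_lit 0) (nat_lit 0) (nat_lit 0) (nat_lit 0) (nat_lit 0) (nat_lit 0) (nat_lit 1) (nat_lit 0) (nat_lit 1) (nat_lit 0) (nat_lit 494) (nat_lit 357) (nat_lit 229)) (XT.lf (nat_lit 0) (nat_lit 1694184972) (nat_lit 252) (nat_lit 791741109) (nat_lit 252) (nat_lit 791741109) (nat_lit 180) (nat_lit 4) (nat_lit 183) (nat_lit 5) (nat_lit 183) (nat_lit 4) (nat_lit 364) (nat_lit 358) (nat_lit 358))) (XT.nd (nat_lit 94) (nat_lit 504) (nat_lit 0) (XT.lf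 (nat_lit 0) (nat_lit 3303257196) (nat_lit 336) (nat_lit 208845136) (nat_lit 420) (nat_lit 3110223319) (nat_lit 175) (nat_lit 5) (nat_lit 179) (nat_lit 5) (nat_lit 180) (nat_lit 4) (nat_lit 365) (nat_lit 358) (nat_lit 357)) (XT.lf (nat_lit 0) (nat_lit 1867565854) (nat_lit 504) (nat_lit 3318605853) (nat_lit 84) (nat_lit 1521755806) (nat_lit 169) (nat_lit 5) (nat_lit 175) (nat_lit 5) (nat_lit 170) (nat_lit 4) (nat_lit 366) (nat_lit 358) (nat_lit 356))))))))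
noncomputable def xc82 : XT := (XT.nd (nat_lit 2632) (nat_lit 3024) (nat_lit 0) (XT.nd (nat_lit 1316) (nat_lit 3360) (nat_lit 0) (XT.nd (nat_lit 658) (nat_lit 2772) (nat_lit 0) (XT.nd (nat_lit 282) (nat_lit 3108) (nat_lit 0) (XT.nd (nat_lit 94) (nat_lit 1344) (nat_lit 0) (XT.lf (nat_lit 0) (nat_lit 11843743) (nat_lit 588) (nat_lit 3149863938) (nat_lit 84) (nat_lit 3651565575) (nat_lit 162) (nat_lit 5) (nat_lit 169) (nat_lit 5) (nat_lit 163) (nat_lit 5) (nat_lit 367) (nat_lit 358) (nat_lit 355)) (XT.nd (nat_lit 94) (nat_lit 756) (nat_lit 0) (XT.lf (nat_lit 0) (nat_lit 4096475302) (nat_lit 588) (nat_lit 701095027) (nat_lit 672) (nat_lit 2139762448) (nat_lit 155) (nat_lit 5) (nat_lit 162) (nat_lit 5) (nat_lit 163) (nat_lit 5) (nat_lit 368) (nat_lit 358) (nat_lit 354)) (XT.lf (nat_lit 0) (nat_lit 2574558431) (nat_lit 756) (nat_lit 2392828811) (nat_lit 84) (nat_lit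 2113051323) (nat_lit 146) (nat_lit 5) (nat_lit 155) (nat_lit 5) (nat_lit 147) (nat_lit 5) (nat_lit 369) (nat_lit 358) (nat_lit 353)))) (XT.nd (nat_lit 188) (nat_lit 1428) (nat_lit 0) (XT.nd (nat_lit 94) (nat_lit 840) (nat_lit 0) (XT.lf (nat_lit 0) (nat_lit 124271404) (nat_lit 840) (nat_lit 1784695863) (nat_lit 84) (nat_lit 5335097085) (nat_lit 136) (nat_lit 5) (nat_lit 146) (nat_lit 5) (nat_lit 137) (nat_lit 5) (nat_lit 370) (nat_lit 358) (nat_lit 352)) (XT.lf (nat_lit 0) (nat_lit 4785892963) (nat_lit 924) (nat_lit 1066761259) (nat_lit 84) (nat_lit 1573486538) (nat_lit 126) (nat_lit 5) (nat_lit 137) (nat_lit 5) (nat_lit 127) (nat_lit 5) (nat_lit 371) (nat_lit 358) (nat_lit 351))) (XT.nd (nat_lit 94) (nat_lit 840) (nat_lit 0) (XT.lf (nat_lit 0) (nat_lit 1975116174) (nat_lit 588) (nat_lit 208281632) (nat_lit 84) (nat_lit 5445280186) (nat_lit 119) (nat_lit 5)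 (nat_lit 126) (nat_lit 5) (nat_lit 120) (nat_lit 5) (nat_lit 372) (nat_lit 358) (nat_lit 350)) (XT.lf (nat_lit 0) (nat_lit 807909180) (nat_lit 420) (nat_lit 5942133639) (nat_lit 504) (nat_lit 1101069499) (nat_lit 109) (nat_lit 5) (nat_lit 114) (nat_lit 5) (nat_lit 115) (nat_lit 5) (nat_lit 373) (nat_lit 358) (nat_lit 349))))) (XT.nd (nat_lit 282) (nat_lit 1596) (nat_lit 0) (XT.nd (nat_lit 94) (nat_lit 756) (nat_lit 0) (XT.lf (nat_lit 0) (nat_lit 1945554254) (nat_lit 336) (nat_lit 1649184409) (nat_lit 420) (nat_lit 4498562087) (nat_lit 104) (nat_lit 5) (nat_lit 108) (nat_lit 5) (nat_lit 109) (nat_lit 5) (nat_lit 374) (nat_lit 358) (nat_lit 348)) (XT.nd (nat_lit 94) (nat_lit 336) (nat_lit 0) (XT.lf (nat_lit 0) (nat_lit 193937952) (nat_lit 420) (nat_lit 5131744034) (nat_lit 84) (nat_lit 3031614936) (nat_lit 99) (nat_lit 5) (nat_lit 104) (nat_lit 5) (nat_lit 100)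 (nat_lit 5) (nat_lit 375) (nat_lit 358) (nat_lit 347)) (XT.lf (nat_lit 0) (nat_lit 4616575648) (nat_lit 336) (nat_lit 418082199) (nat_lit 420) (nat_lit 3607546217) (nat_lit 95) (nat_lit 5) (nat_lit 99) (nat_lit 5) (nat_lit 100) (nat_lit 5) (nat_lit 376) (nat_lit 358) (nat_lit 346)))) (XT.nd (nat_lit 188) (nat_lit 924) (nat_lit 0) (XT.nd (nat_lit 94) (nat_lit 252) (nat_lit 0) (XT.lf (nat_lit 0) (nat_lit 1267571672) (nat_lit 420) (nat_lit 2822332122) (nat_lit 84) (nat_lit 4859132427) (nat_lit 90) (nat_lit 5) (nat_lit 95) (nat_lit 5) (nat_lit 91) (nat_lit 5) (nat_lit 377) (nat_lit 358) (nat_lit 345)) (XT.lf (nat_lit 0) (nat_lit 6374596579) (nat_lit 336) (nat_lit 1510815217) (nat_lit 84) (nat_lit 1393631726) (nat_lit 87) (nat_lit 5) (nat_lit 91) (nat_lit 5) (nat_lit 88) (nat_lit 5) (nat_lit 378) (nat_lit 358) (nat_lit 344))) (XT.nd (nat_lit 94) (nat_lit 504) (nat_lit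 0) (XT.lf (nat_lit 0) (nat_lit 2207815114) (nat_lit 420) (nat_lit 101767203) (nat_lit 84) (nat_lit 7322846529) (nat_lit 82) (nat_lit 5) (nat_lit 87) (nat_lit 5) (nat_lit 83) (nat_lit 5) (nat_lit 379) (nat_lit 358) (nat_lit 343)) (XT.lf (nat_lit 0) (nat_lit 1452399882) (nat_lit 252) (nat_lit 6231148512) (nat_lit 336) (nat_lit 2325343512) (nat_lit 76) (nat_lit 5) (nat_lit 79) (nat_lit 5) (nat_lit 80) (nat_lit 5) (nat_lit 380) (nat_lit 358) (nat_lit 342)))))) (XT.nd (nat_lit 658) (nat_lit 1428) (nat_lit 0) (XT.nd (nat_lit 282) (nat_lit 1092) (nat_lit 0) (XT.nd (nat_lit 94) (nat_lit 504) (nat_lit 0) (XT.lf (nat_lit 0) (nat_lit 3110074631) (nat_lit 336) (nat_lit 7273209477) (nat_lit 84) (nat_lit 28201710) (nat_lit 72) (nat_lit 5) (nat_lit 76) (nat_lit 5) (nat_lit 73) (nat_lit 5) (nat_lit 381) (nat_lit 358) (nat_lit 341)) (XT.nd (nat_lit 94) (nat_lit 252) (nat_lit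 0) (XT.lf (nat_lit 0) (nat_lit 4902709764) (nat_lit 252) (nat_lit 4108007154) (nat_lit 336) (nat_lit 1828071335) (nat_lit 69) (nat_lit 5) (nat_lit 72) (nat_lit 5) (nat_lit 73) (nat_lit 5) (nat_lit 382) (nat_lit 358) (nat_lit 340)) (XT.lf (nat_lit 0) (nat_lit 4018211370) (nat_lit 252) (nat_lit 4504282094) (nat_lit 84) (nat_lit 2771305884) (nat_lit 66) (nat_lit 5) (nat_lit 69) (nat_lit 5) (nat_lit 67) (nat_lit 5) (nat_lit 383) (nat_lit 358) (nat_lit 339)))) (XT.nd (nat_lit 188) (nat_lit 588) (nat_lit 0) (XT.nd (nat_lit 94) (nat_lit 252) (nat_lit 0) (XT.lf (nat_lit 0) (nat_lit 8816683343) (nat_lit 252) (nat_lit 1558954046) (nat_lit 336) (nat_lit 1402701154) (nat_lit 63) (nat_lit 5) (nat_lit 66) (nat_lit 5) (nat_lit 67) (nat_lit 5) (nat_lit 384) (nat_lit 358) (nat_lit 338)) (XT.lf (nat_lit 0) (nat_lit 4931971315) (nat_lit 252) (nat_lit 1372001932) (nat_lit 84)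 (nat_lit 5986307944) (nat_lit 60) (nat_lit 5) (nat_lit 63) (nat_lit 5) (nat_lit 61) (nat_lit 5) (nat_lit 385) (nat_lit 358) (nat_lit 337))) (XT.nd (nat_lit 94) (nat_lit 252) (nat_lit 0) (XT.lf (nat_lit 0) (nat_lit 384824379) (nat_lit 168) (nat_lit 11463220531) (nat_lit 252) (nat_lit 987796030) (nat_lit 56) (nat_lit 5) (nat_lit 58) (nat_lit 5) (nat_lit 59) (nat_lit 4) (nat_lit 386) (nat_lit 358) (nat_lit 336)) (XT.lf (nat_lit 0) (nat_lit 2227125814) (nat_lit 168) (nat_lit 3694328841) (nat_lit 252) (nat_lit 7488106602) (nat_lit 53) (nat_lit 5) (nat_lit 55) (nat_lit 5) (nat_lit 56) (nat_lit 5) (nat_lit 387) (nat_lit 358) (nat_lit 335))))) (XT.nd (nat_lit 282) (nat_lit 840) (nat_lit 0) (XT.nd (nat_lit 94) (nat_lit 420) (nat_lit 0) (XT.lf (nat_lit 0) (nat_lit 4230035571) (nat_lit 168) (nat_lit 9295562675) (nat_lit 252) (nat_lit 493933264) (nat_lit 51) (nat_lit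 5) (nat_lit 53) (nat_lit 5) (nat_lit 54) (nat_lit 4) (nat_lit 388) (nat_lit 358) (nat_lit 334)) (XT.nd (nat_lit 94) (nat_lit 168) (nat_lit 0) (XT.lf (nat_lit 0) (nat_lit 6323245609) (nat_lit 168) (nat_lit 692050610) (nat_lit 252) (nat_lit 7648418063) (nat_lit 48) (nat_lit 5) (nat_lit 50) (nat_lit 5) (nat_lit 51) (nat_lit 5) (nat_lit 389) (nat_lit 358) (nat_lit 333)) (XT.lf (nat_lit 0) (nat_lit 31712749) (nat_lit 168) (nat_lit 6796801948) (nat_lit 84) (nat_lit 8516970872) (nat_lit 46) (nat_lit 5) (nat_lit 48) (nat_lit 5) (nat_lit 47) (nat_lit 5) (nat_lit 390) (nat_lit 358) (nat_lit 332)))) (XT.nd (nat_lit 188) (nat_lit 504) (nat_lit 0) (XT.nd (nat_lit 94) (nat_lit 168) (nat_lit 0) (XT.lf (nat_lit 0) (nat_lit 8268371017) (nat_lit 252) (nat_lit 5185380506) (nat_lit 84) (nat_lit 2611273825) (nat_lit 44) (nat_lit 5) (nat_lit 47) (nat_lit 5) (nat_lit 45) (nat_lit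 4) (nat_lit 391) (nat_lit 358) (nat_lit 331)) (XT.lf (nat_lit 0) (nat_lit 601303808) (nat_lit 168) (nat_lit 3437180584) (nat_lit 84) (nat_lit 12788904138) (nat_lit 42) (nat_lit 5) (nat_lit 44) (nat_lit 5) (nat_lit 43) (nat_lit 5) (nat_lit 392) (nat_lit 358) (nat_lit 330))) (XT.nd (nat_lit 94) (nat_lit 336) (nat_lit 0) (XT.lf (nat_lit 0) (nat_lit 9691587541) (nat_lit 252) (nat_lit 1644091122) (nat_lit 84) (nat_lit 6293989116) (nat_lit 40) (nat_lit 5) (nat_lit 43) (nat_lit 5) (nat_lit 41) (nat_lit 4) (nat_lit 393) (nat_lit 358) (nat_lit 329)) (XT.lf (nat_lit 0) (nat_lit 360886749) (nat_lit 168) (nat_lit 903861472) (nat_lit 252) (nat_lit 17216380146) (nat_lit 36) (nat_lit 5) (nat_lit 38) (nat_lit 5) (nat_lit 39) (nat_lit 5) (nat_lit 394) (nat_lit 358) (nat_lit 328))))))) (XT.nd (nat_lit 1316) (nat_lit 1008) (nat_lit 0) (XT.nd (nat_lit 658) (nat_lit 1008) (nat_lit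 0) (XT.nd (nat_lit 282) (nat_lit 588) (nat_lit 0) (XT.nd (nat_lit 94) (nat_lit 336) (nat_lit 0) (XT.lf (nat_lit 0) (nat_lit 2428736662) (nat_lit 84) (nat_lit 8921320823) (nat_lit 168) (nat_lit 8022923385) (nat_lit 35) (nat_lit 5) (nat_lit 36) (nat_lit 5) (nat_lit 37) (nat_lit 4) (nat_lit 395) (nat_lit 358) (nat_lit 327)) (XT.nd (nat_lit 94) (nat_lit 84) (nat_lit 0) (XT.lf (nat_lit 0) (nat_lit 2151057038) (nat_lit 252) (nat_lit 15585869587) (nat_lit 84) (nat_lit 2582464473) (nat_lit 32) (nat_lit 5) (nat_lit 35) (nat_lit 5) (nat_lit 33) (nat_lit 4) (nat_lit 396) (nat_lit 358) (nat_lit 326)) (XT.lf (nat_lit 0) (nat_lit 7093368018) (nat_lit 84) (nat_lit 6188023086) (nat_lit 168) (nat_lit 8032370906) (nat_lit 31) (nat_lit 5) (nat_lit 32) (nat_lit 5) (nat_lit 33) (nat_lit 4) (nat_lit 397) (nat_lit 358) (nat_lit 325)))) (XT.nd (nat_lit 188) (nat_lit 252) (nat_lit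 0) (XT.nd (nat_lit 94) (nat_lit 84) (nat_lit 0) (XT.lf (nat_lit 0) (nat_lit 3216550761) (nat_lit 252) (nat_lit 12702463950) (nat_lit 84) (nat_lit 6446624597) (nat_lit 28) (nat_lit 5) (nat_lit 31) (nat_lit 5) (nat_lit 29) (nat_lit 4) (nat_lit 398) (nat_lit 358) (nat_lit 324)) (XT.lf (nat_lit 0) (nat_lit 12374901331) (nat_lit 84) (nat_lit 3129454801) (nat_lit 168) (nat_lit 7969707493) (nat_lit 27) (nat_lit 5) (nat_lit 28) (nat_lit 5) (nat_lit 29) (nat_lit 4) (nat_lit 399) (nat_lit 358) (nat_lit 323))) (XT.nd (nat_lit 94) (nat_lit 84) (nat_lit 0) (XT.lf (nat_lit 0) (nat_lit 4483414340) (nat_lit 168) (nat_lit 9393115918) (nat_lit 84) (nat_lit 10765890628) (nat_lit 25) (nat_lit 5) (nat_lit 27) (nat_lit 5) (nat_lit 26) (nat_lit 4) (nat_lit 400) (nat_lit 358) (nat_lit 322)) (XT.lf (nat_lit 0) (nat_lit 18073287141) (nat_lit 168) (nat_lit 7516900394) (nat_lit 0) (nat_lit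 286540597) (nat_lit 24) (nat_lit 5) (nat_lit 26) (nat_lit 4) (nat_lit 24) (nat_lit 4) (nat_lit 401) (nat_lit 358) (nat_lit 321))))) (XT.nd (nat_lit 282) (nat_lit 588) (nat_lit 0) (XT.nd (nat_lit 94) (nat_lit 252) (nat_lit 0) (XT.lf (nat_lit 0) (nat_lit 5991587682) (nat_lit 168) (nat_lit 5585092814) (nat_lit 84) (nat_lit 15597356737) (nat_lit 22) (nat_lit 5) (nat_lit 24) (nat_lit 5) (nat_lit 23) (nat_lit 4) (nat_lit 402) (nat_lit 358) (nat_lit 320)) (XT.nd (nat_lit 94) (nat_lit 168) (nat_lit 0) (XT.lf (nat_lit 0) (nat_lit 21093937239) (nat_lit 168) (nat_lit 3445519993) (nat_lit 0) (nat_lit 4005421908) (nat_lit 21) (nat_lit 5) (nat_lit 23) (nat_lit 4) (nat_lit 21) (nat_lit 4) (nat_lit 403) (nat_lit 358) (nat_lit 319)) (XT.lf (nat_lit 0) (nat_lit 7785419051) (nat_lit 168) (nat_lit 1194626325) (nat_lit 84) (nat_lit 21007457137) (nat_lit 19) (nat_lit 5) (nat_lit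 21) (nat_lit 5) (nat_lit 20) (nat_lit 4) (nat_lit 404) (nat_lit 358) (nat_lit 318)))) (XT.nd (nat_lit 188) (nat_lit 252) (nat_lit 0) (XT.nd (nat_lit 94) (nat_lit 168) (nat_lit 0) (XT.lf (nat_lit 0) (nat_lit 1294969024) (nat_lit 84) (nat_lit 23304844626) (nat_lit 84) (nat_lit 6908606302) (nat_lit 17) (nat_lit 4) (nat_lit 18) (nat_lit 5) (nat_lit 18) (nat_lit 4) (nat_lit 405) (nat_lit 358) (nat_lit 317)) (XT.lf (nat_lit 0) (nat_lit 4002480279) (nat_lit 84) (nat_lit 5974489547) (nat_lit 168) (nat_lit 23132732898) (nat_lit 15) (nat_lit 5) (nat_lit 16) (nat_lit 5) (nat_lit 17) (nat_lit 4) (nat_lit 406) (nat_lit 358) (nat_lit 316))) (XT.nd (nat_lit 94) (nat_lit 168) (nat_lit 0) (XT.lf (nat_lit 0) (nat_lit 6903894838) (nat_lit 84) (nat_lit 21803679706) (nat_lit 84) (nat_lit 6089039462) (nat_lit 14) (nat_lit 4) (nat_lit 15) (nat_lit 5) (nat_lit 15) (nat_lit 4) (nat_lit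 407) (nat_lit 358) (nat_lit 315)) (XT.lf (nat_lit 0) (nat_lit 10053600102) (nat_lit 84) (nat_lit 2537809087) (nat_lit 168) (nat_lit 23984077088) (nat_lit 12) (nat_lit 5) (nat_lit 13) (nat_lit 5) (nat_lit 14) (nat_lit 4) (nat_lit 408) (nat_lit 358) (nat_lit 314)))))) (XT.nd (nat_lit 658) (nat_lit 84) (nat_lit 0) (XT.nd (nat_lit 282) (nat_lit 588) (nat_lit 0) (XT.nd (nat_lit 94) (nat_lit 252) (nat_lit 0) (XT.lf (nat_lit 0) (nat_lit 13388532937) (nat_lit 84) (nat_lit 20053008672) (nat_lit 84) (nat_lit 5005706795) (nat_lit 11) (nat_lit 4) (nat_lit 12) (nat_lit 5) (nat_lit 12) (nat_lit 4) (nat_lit 409) (nat_lit 358) (nat_lit 313)) (XT.nd (nat_lit 94) (nat_lit 84) (nat_lit 0) (XT.lf (nat_lit 0) (nat_lit 15695689562) (nat_lit 168) (nat_lit 23395346337) (nat_lit 0) (nat_lit 1330594607) (nat_lit 9) (nat_lit 5) (nat_lit 11) (nat_lit 4) (nat_lit 9) (nat_lit 4) (nat_lit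 410) (nat_lit 358) (nat_lit 312)) (XT.lf (nat_lit 0) (nat_lit 20887078666) (nat_lit 84) (nat_lit 18004488683) (nat_lit 84) (nat_lit 3607605523) (nat_lit 8) (nat_lit 4) (nat_lit 9) (nat_lit 5) (nat_lit 9) (nat_lit 4) (nat_lit 411) (nat_lit 358) (nat_lit 311)))) (XT.nd (nat_lit 188) (nat_lit 336) (nat_lit 0) (XT.nd (nat_lit 94) (nat_lit 84) (nat_lit 0) (XT.lf (nat_lit 0) (nat_lit 19389721098) (nat_lit 168) (nat_lit 19647634683) (nat_lit 0) (nat_lit 5650371875) (nat_lit 6) (nat_lit 5) (nat_lit 8) (nat_lit 4) (nat_lit 6) (nat_lit 4) (nat_lit 412) (nat_lit 358) (nat_lit 310)) (XT.lf (nat_lit 0) (nat_lit 29556879490) (nat_lit 84) (nat_lit 15601957591) (nat_lit 84) (nat_lit 1836652880) (nat_lit 5) (nat_lit 4) (nat_lit 6) (nat_lit 5) (nat_lit 6) (nat_lit 4) (nat_lit 413) (nat_lit 358) (nat_lit 309))) (XT.nd (nat_lit 94) (nat_lit 168) (nat_lit 0) (XT.lf (nat_lit 0)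 (nat_lit 23717974216) (nat_lit 168) (nat_lit 15117852797) (nat_lit 0) (nat_lit 10585271768) (nat_lit 3) (nat_lit 5) (nat_lit 5) (nat_lit 4) (nat_lit 3) (nat_lit 4) (nat_lit 414) (nat_lit 358) (nat_lit 308)) (XT.lf (nat_lit 0) (nat_lit 361432951) (nat_lit 168) (nat_lit 12412957895) (nat_lit 84) (nat_lit 39209329945) (nat_lit 1) (nat_lit 5) (nat_lit 3) (nat_lit 5) (nat_lit 2) (nat_lit 4) (nat_lit 415) (nat_lit 358) (nat_lit 307))))) (XT.nd (nat_lit 376) (nat_lit 0) (nat_lit 0) (XT.nd (nat_lit 188) (nat_lit 0) (nat_lit 0) (XT.nd (nat_lit 94) (nat_lit 0) (nat_lit 0) (XT.lf (nat_lit 0) (nat_lit 80852732676) (nat_lit 0) (nat_lit 0) (nat_lit 0) (nat_lit 0) (nat_lit 0) (nat_lit 0) (nat_lit 1) (nat_lit 0) (nat_lit 1) (nat_lit 0) (nat_lit 416) (nat_lit 358) (nat_lit 306)) (XT.lf (nat_lit 0) (nat_lit 87244713780) (nat_lit 0) (nat_lit 0) (nat_lit 0) (nat_lit 0) (nat_lit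 0) (nat_lit 0) (nat_lit 1) (nat_lit 0) (nat_lit 1) (nat_lit 0) (nat_lit 417) (nat_lit 358) (nat_lit 305))) (XT.nd (nat_lit 94) (nat_lit 0) (nat_lit 0) (XT.lf (nat_lit 0) (nat_lit 94148245421) (nat_lit 0) (nat_lit 0) (nat_lit 0) (nat_lit 0) (nat_lit 0) (nat_lit 0) (nat_lit 1) (nat_lit 0) (nat_lit 1) (nat_lit 0) (nat_lit 418) (nat_lit 358) (nat_lit 304)) (XT.lf (nat_lit 0) (nat_lit 101604237418) (nat_lit 0) (nat_lit 0) (nat_lit 0) (nat_lit 0) (nat_lit 0) (nat_lit 0) (nat_lit 1) (nat_lit 0) (nat_lit 1) (nat_lit 0) (nat_lit 419) (nat_lit 358) (nat_lit 303)))) (XT.nd (nat_lit 188) (nat_lit 0) (nat_lit 0) (XT.nd (nat_lit 94) (nat_lit 0) (nat_lit 0) (XT.lf (nat_lit 0) (nat_lit 109656873425) (nat_lit 0) (nat_lit 0) (nat_lit 0) (nat_lit 0) (nat_lit 0) (nat_lit 0) (nat_lit 1) (nat_lit 0) (nat_lit 1) (nat_lit 0) (nat_lit 420) (nat_lit 358) (nat_lit 302)) (XT.lf (nat_lit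 0) (nat_lit 118353872768) (nat_lit 0) (nat_lit 0) (nat_lit 0) (nat_lit 0) (nat_lit 0) (nat_lit 0) (nat_lit 1) (nat_lit 0) (nat_lit 1) (nat_lit 0) (nat_lit 421) (nat_lit 358) (nat_lit 301))) (XT.nd (nat_lit 94) (nat_lit 0) (nat_lit 0) (XT.lf (nat_lit 0) (nat_lit 127746773220) (nat_lit 0) (nat_lit 0) (nat_lit 0) (nat_lit 0) (nat_lit 0) (nat_lit 0) (nat_lit 1) (nat_lit 0) (nat_lit 1) (nat_lit 0) (nat_lit 422) (nat_lit 358) (nat_lit 300)) (XT.lf (nat_lit 0) (nat_lit 137891236414) (nat_lit 0) (nat_lit 0) (nat_lit 0) (nat_lit 0) (nat_lit 0) (nat_lit 0) (nat_lit 1) (nat_lit 0) (nat_lit 1) (nat_lit 0) (nat_lit 423) (nat_lit 358) (nat_lit 299))))))))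
noncomputable def xc83 : XT := (XT.nd (nat_lit 2632) (nat_lit 0) (nat_lit 0) (XT.nd (nat_lit 1316) (nat_lit 0) (nat_lit 0) (XT.nd (nat_lit 658) (nat_lit 0) (nat_lit 0) (XT.nd (nat_lit 282) (nat_lit 0) (nat_lit 0) (XT.nd (nat_lit 94) (nat_lit 0) (nat_lit 0) (XT.lf (nat_lit 0) (nat_lit 148847377688) (nat_lit 0) (nat_lit 0) (nat_lit 0) (nat_lit 0) (nat_lit 0) (nat_lit 0) (nat_lit 1) (nat_lit 0) (nat_lit 1) (nat_lit 0) (nat_lit 424) (nat_lit 358) (nat_lit 298)) (XT.nd (nat_lit 94) (nat_lit 0) (nat_lit 0) (XT.lf (nat_lit 0) (nat_lit 160680122322) (nat_lit 0) (nat_lit 0) (nat_lit 0) (nat_lit 0) (nat_lit 0) (nat_lit 0) (nat_lit 1) (nat_lit 0) (nat_lit 1) (nat_lit 0) (nat_lit 425) (nat_lit 358) (nat_lit 297)) (XT.lf (nat_lit 0) (nat_lit 173459590285) (nat_lit 0) (nat_lit 0) (nat_lit 0) (nat_lit 0) (nat_lit 0) (nat_lit 0) (nat_lit 1) (nat_lit 0) (nat_lit 1) (nat_lit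 0) (nat_lit 426) (nat_lit 358) (nat_lit 296)))) (XT.nd (nat_lit 188) (nat_lit 0) (nat_lit 0) (XT.nd (nat_lit 94) (nat_lit 0) (nat_lit 0) (XT.lf (nat_lit 0) (nat_lit 187261511758) (nat_lit 0) (nat_lit 0) (nat_lit 0) (nat_lit 0) (nat_lit 0) (nat_lit 0) (nat_lit 1) (nat_lit 0) (nat_lit 1) (nat_lit 0) (nat_lit 427) (nat_lit 358) (nat_lit 295)) (XT.lf (nat_lit 0) (nat_lit 202167675905) (nat_lit 0) (nat_lit 0) (nat_lit 0) (nat_lit 0) (nat_lit 0) (nat_lit 0) (nat_lit 1) (nat_lit 0) (nat_lit 1) (nat_lit 0) (nat_lit 428) (nat_lit 358) (nat_lit 294))) (XT.nd (nat_lit 94) (nat_lit 0) (nat_lit 0) (XT.lf (nat_lit 0) (nat_lit 218266415550) (nat_lit 0) (nat_lit 0) (nat_lit 0) (nat_lit 0) (nat_lit 0) (nat_lit 0) (nat_lit 1) (nat_lit 0) (nat_lit 1) (nat_lit 0) (nat_lit 429) (nat_lit 358) (nat_lit 293)) (XT.lf (nat_lit 0) (nat_lit 235653130632) (nat_lit 0) (nat_lit 0) (nat_lit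 0) (nat_lit 0) (nat_lit 0) (nat_lit 0) (nat_lit 1) (nat_lit 0) (nat_lit 1) (nat_lit 0) (nat_lit 430) (nat_lit 358) (nat_lit 292))))) (XT.nd (nat_lit 282) (nat_lit 0) (nat_lit 0) (XT.nd (nat_lit 94) (nat_lit 0) (nat_lit 0) (XT.lf (nat_lit 0) (nat_lit 254430853536) (nat_lit 0) (nat_lit 0) (nat_lit 0) (nat_lit 0) (nat_lit 0) (nat_lit 0) (nat_lit 1) (nat_lit 0) (nat_lit 1) (nat_lit 0) (nat_lit 431) (nat_lit 358) (nat_lit 291)) (XT.nd (nat_lit 94) (nat_lit 0) (nat_lit 0) (XT.lf (nat_lit 0) (nat_lit 274710859659) (nat_lit 0) (nat_lit 0) (nat_lit 0) (nat_lit 0) (nat_lit 0) (nat_lit 0) (nat_lit 1) (nat_lit 0) (nat_lit 1) (nat_lit 0) (nat_lit 432) (nat_lit 358) (nat_lit 290)) (XT.lf (nat_lit 0) (nat_lit 296613326813) (nat_lit 0) (nat_lit 0) (nat_lit 0) (nat_lit 0) (nat_lit 0) (nat_lit 0) (nat_lit 1) (nat_lit 0) (nat_lit 1) (nat_lit 0) (nat_lit 433) (nat_lit 358) (nat_lit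 289)))) (XT.nd (nat_lit 188) (nat_lit 0) (nat_lit 0) (XT.nd (nat_lit 94) (nat_lit 0) (nat_lit 0) (XT.lf (nat_lit 0) (nat_lit 320268047397) (nat_lit 0) (nat_lit 0) (nat_lit 0) (nat_lit 0) (nat_lit 0) (nat_lit 0) (nat_lit 1) (nat_lit 0) (nat_lit 1) (nat_lit 0) (nat_lit 434) (nat_lit 358) (nat_lit 288)) (XT.lf (nat_lit 0) (nat_lit 345815197533) (nat_lit 0) (nat_lit 0) (nat_lit 0) (nat_lit 0) (nat_lit 0) (nat_lit 0) (nat_lit 1) (nat_lit 0) (nat_lit 1) (nat_lit 0) (nat_lit 435) (nat_lit 358) (nat_lit 287))) (XT.nd (nat_lit 94) (nat_lit 0) (nat_lit 0) (XT.lf (nat_lit 0) (nat_lit 373406167739) (nat_lit 0) (nat_lit 0) (nat_lit 0) (nat_lit 0) (nat_lit 0) (nat_lit 0) (nat_lit 1) (nat_lit 0) (nat_lit 1) (nat_lit 0) (nat_lit 436) (nat_lit 358) (nat_lit 286)) (XT.lf (nat_lit 0) (nat_lit 403204460063) (nat_lit 0) (nat_lit 0) (nat_lit 0) (nat_lit 0) (nat_lit 0) (nat_lit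 0) (nat_lit 1) (nat_lit 0) (nat_lit 1) (nat_lit 0) (nat_lit 437) (nat_lit 358) (nat_lit 285)))))) (XT.nd (nat_lit 658) (nat_lit 0) (nat_lit 0) (XT.nd (nat_lit 282) (nat_lit 0) (nat_lit 0) (XT.nd (nat_lit 94) (nat_lit 0) (nat_lit 0) (XT.lf (nat_lit 0) (nat_lit 435386656976) (nat_lit 0) (nat_lit 0) (nat_lit 0) (nat_lit 0) (nat_lit 0) (nat_lit 0) (nat_lit 1) (nat_lit 0) (nat_lit 1) (nat_lit 0) (nat_lit 438) (nat_lit 358) (nat_lit 284)) (XT.nd (nat_lit 94) (nat_lit 0) (nat_lit 0) (XT.lf (nat_lit 0) (nat_lit 470143467794) (nat_lit 0) (nat_lit 0) (nat_lit 0) (nat_lit 0) (nat_lit 0) (nat_lit 0) (nat_lit 1) (nat_lit 0) (nat_lit 1) (nat_lit 0) (nat_lit 439) (nat_lit 358) (nat_lit 283)) (XT.lf (nat_lit 0) (nat_lit 507680858803) (nat_lit 0) (nat_lit 0) (nat_lit 0) (nat_lit 0) (nat_lit 0) (nat_lit 0) (nat_lit 1) (nat_lit 0) (nat_lit 1) (nat_lit 0) (nat_lit 440) (nat_lit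 358) (nat_lit 282)))) (XT.nd (nat_lit 188) (nat_lit 0) (nat_lit 0) (XT.nd (nat_lit 94) (nat_lit 0) (nat_lit 0) (XT.lf (nat_lit 0) (nat_lit 548221273801) (nat_lit 0) (nat_lit 0) (nat_lit 0) (nat_lit 0) (nat_lit 0) (nat_lit 0) (nat_lit 1) (nat_lit 0) (nat_lit 1) (nat_lit 0) (nat_lit 441) (nat_lit 358) (nat_lit 281)) (XT.lf (nat_lit 0) (nat_lit 592004952286) (nat_lit 0) (nat_lit 0) (nat_lit 0) (nat_lit 0) (nat_lit 0) (nat_lit 0) (nat_lit 1) (nat_lit 0) (nat_lit 1) (nat_lit 0) (nat_lit 442) (nat_lit 358) (nat_lit 280))) (XT.nd (nat_lit 94) (nat_lit 0) (nat_lit 0) (XT.lf (nat_lit 0) (nat_lit 639291353092) (nat_lit 0) (nat_lit 0) (nat_lit 0) (nat_lit 0) (nat_lit 0) (nat_lit 0) (nat_lit 1) (nat_lit 0) (nat_lit 1) (nat_lit 0) (nat_lit 443) (nat_lit 358) (nat_lit 279)) (XT.lf (nat_lit 0) (nat_lit 690360691927) (nat_lit 0) (nat_lit 0) (nat_lit 0) (nat_lit 0) (nat_lit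 0) (nat_lit 0) (nat_lit 1) (nat_lit 0) (nat_lit 1) (nat_lit 0) (nat_lit 444) (nat_lit 358) (nat_lit 278))))) (XT.nd (nat_lit 282) (nat_lit 0) (nat_lit 0) (XT.nd (nat_lit 94) (nat_lit 0) (nat_lit 0) (XT.lf (nat_lit 0) (nat_lit 745515601912) (nat_lit 0) (nat_lit 0) (nat_lit 0) (nat_lit 0) (nat_lit 0) (nat_lit 0) (nat_lit 1) (nat_lit 0) (nat_lit 1) (nat_lit 0) (nat_lit 445) (nat_lit 358) (nat_lit 277)) (XT.nd (nat_lit 94) (nat_lit 0) (nat_lit 0) (XT.lf (nat_lit 0) (nat_lit 805082926957) (nat_lit 0) (nat_lit 0) (nat_lit 0) (nat_lit 0) (nat_lit 0) (nat_lit 0) (nat_lit 1) (nat_lit 0) (nat_lit 1) (nat_lit 0) (nat_lit 446) (nat_lit 358) (nat_lit 276)) (XT.lf (nat_lit 0) (nat_lit 869415658617) (nat_lit 0) (nat_lit 0) (nat_lit 0) (nat_lit 0) (nat_lit 0) (nat_lit 0) (nat_lit 1) (nat_lit 0) (nat_lit 1) (nat_lit 0) (nat_lit 447) (nat_lit 358) (nat_lit 275)))) (XT.nd (nat_lit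 188) (nat_lit 0) (nat_lit 0) (XT.nd (nat_lit 94) (nat_lit 0) (nat_lit 0) (XT.lf (nat_lit 0) (nat_lit 938895027896) (nat_lit 0) (nat_lit 0) (nat_lit 0) (nat_lit 0) (nat_lit 0) (nat_lit 0) (nat_lit 1) (nat_lit 0) (nat_lit 1) (nat_lit 0) (nat_lit 448) (nat_lit 358) (nat_lit 274)) (XT.lf (nat_lit 0) (nat_lit 1013932764388) (nat_lit 0) (nat_lit 0) (nat_lit 0) (nat_lit 0) (nat_lit 0) (nat_lit 0) (nat_lit 1) (nat_lit 0) (nat_lit 1) (nat_lit 0) (nat_lit 449) (nat_lit 358) (nat_lit 273))) (XT.nd (nat_lit 94) (nat_lit 0) (nat_lit 0) (XT.lf (nat_lit 0) (nat_lit 1094973536163) (nat_lit 0) (nat_lit 0) (nat_lit 0) (nat_lit 0) (nat_lit 0) (nat_lit 0) (nat_lit 1) (nat_lit 0) (nat_lit 1) (nat_lit 0) (nat_lit 450) (nat_lit 358) (nat_lit 272)) (XT.lf (nat_lit 0) (nat_lit 1182497584830) (nat_lit 0) (nat_lit 0) (nat_lit 0) (nat_lit 0) (nat_lit 0) (nat_lit 0) (nat_lit 1) (nat_lit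 0) (nat_lit 1) (nat_lit 0) (nat_lit 451) (nat_lit 358) (nat_lit 271))))))) (XT.nd (nat_lit 1316) (nat_lit 0) (nat_lit 0) (XT.nd (nat_lit 658) (nat_lit 0) (nat_lit 0) (XT.nd (nat_lit 282) (nat_lit 0) (nat_lit 0) (XT.nd (nat_lit 94) (nat_lit 0) (nat_lit 0) (XT.lf (nat_lit 0) (nat_lit 1277023571419) (nat_lit 0) (nat_lit 0) (nat_lit 0) (nat_lit 0) (nat_lit 0) (nat_lit 0) (nat_lit 1) (nat_lit 0) (nat_lit 1) (nat_lit 0) (nat_lit 452) (nat_lit 358) (nat_lit 270)) (XT.nd (nat_lit 94) (nat_lit 0) (nat_lit 0) (XT.lf (nat_lit 0) (nat_lit 1379111649924) (nat_lit 0) (nat_lit 0) (nat_lit 0) (nat_lit 0) (nat_lit 0) (nat_lit 0) (nat_lit 1) (nat_lit 0) (nat_lit 1) (nat_lit 0) (nat_lit 453) (nat_lit 358) (nat_lit 269)) (XT.lf (nat_lit 0) (nat_lit 1489366786736) (nat_lit 0) (nat_lit 0) (nat_lit 0) (nat_lit 0) (nat_lit 0) (nat_lit 0) (nat_lit 1) (nat_lit 0) (nat_lit 1) (nat_lit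 0) (nat_lit 454) (nat_lit 358) (nat_lit 268)))) (XT.nd (nat_lit 188) (nat_lit 0) (nat_lit 0) (XT.nd (nat_lit 94) (nat_lit 0) (nat_lit 0) (XT.lf (nat_lit 0) (nat_lit 1608442345629) (nat_lit 0) (nat_lit 0) (nat_lit 0) (nat_lit 0) (nat_lit 0) (nat_lit 0) (nat_lit 1) (nat_lit 0) (nat_lit 1) (nat_lit 0) (nat_lit 455) (nat_lit 358) (nat_lit 267)) (XT.lf (nat_lit 0) (nat_lit 1737043959546) (nat_lit 0) (nat_lit 0) (nat_lit 0) (nat_lit 0) (nat_lit 0) (nat_lit 0) (nat_lit 1) (nat_lit 0) (nat_lit 1) (nat_lit 0) (nat_lit 456) (nat_lit 358) (nat_lit 266))) (XT.nd (nat_lit 94) (nat_lit 0) (nat_lit 0) (XT.lf (nat_lit 0) (nat_lit 1875933712123) (nat_lit 0) (nat_lit 0) (nat_lit 0) (nat_lit 0) (nat_lit 0) (nat_lit 0) (nat_lit 1) (nat_lit 0) (nat_lit 1) (nat_lit 0) (nat_lit 457) (nat_lit 358) (nat_lit 265)) (XT.lf (nat_lit 0) (nat_lit 2025934653746) (nat_lit 0) (nat_lit 0) (nat_lit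 0) (nat_lit 0) (nat_lit 0) (nat_lit 0) (nat_lit 1) (nat_lit 0) (nat_lit 1) (nat_lit 0) (nat_lit 458) (nat_lit 358) (nat_lit 264))))) (XT.nd (nat_lit 282) (nat_lit 0) (nat_lit 0) (XT.nd (nat_lit 94) (nat_lit 0) (nat_lit 0) (XT.lf (nat_lit 0) (nat_lit 2187935678884) (nat_lit 0) (nat_lit 0) (nat_lit 0) (nat_lit 0) (nat_lit 0) (nat_lit 0) (nat_lit 1) (nat_lit 0) (nat_lit 1) (nat_lit 0) (nat_lit 459) (nat_lit 358) (nat_lit 263)) (XT.nd (nat_lit 94) (nat_lit 0) (nat_lit 0) (XT.lf (nat_lit 0) (nat_lit 2362896793613) (nat_lit 0) (nat_lit 0) (nat_lit 0) (nat_lit 0) (nat_lit 0) (nat_lit 0) (nat_lit 1) (nat_lit 0) (nat_lit 1) (nat_lit 0) (nat_lit 460) (nat_lit 358) (nat_lit 262)) (XT.lf (nat_lit 0) (nat_lit 2551854804538) (nat_lit 0) (nat_lit 0) (nat_lit 0) (nat_lit 0) (nat_lit 0) (nat_lit 0) (nat_lit 1) (nat_lit 0) (nat_lit 1) (nat_lit 0) (nat_lit 461) (nat_lit 358)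 (nat_lit 261)))) (XT.nd (nat_lit 188) (nat_lit 0) (nat_lit 0) (XT.nd (nat_lit 94) (nat_lit 0) (nat_lit 0) (XT.lf (nat_lit 0) (nat_lit 2755929462834) (nat_lit 0) (nat_lit 0) (nat_lit 0) (nat_lit 0) (nat_lit 0) (nat_lit 0) (nat_lit 1) (nat_lit 0) (nat_lit 1) (nat_lit 0) (nat_lit 462) (nat_lit 358) (nat_lit 260)) (XT.lf (nat_lit 0) (nat_lit 2976330099811) (nat_lit 0) (nat_lit 0) (nat_lit 0) (nat_lit 0) (nat_lit 0) (nat_lit 0) (nat_lit 1) (nat_lit 0) (nat_lit 1) (nat_lit 0) (nat_lit 463) (nat_lit 358) (nat_lit 259))) (XT.nd (nat_lit 94) (nat_lit 0) (nat_lit 0) (XT.lf (nat_lit 0) (nat_lit 3214362793317) (nat_lit 0) (nat_lit 0) (nat_lit 0) (nat_lit 0) (nat_lit 0) (nat_lit 0) (nat_lit 1) (nat_lit 0) (nat_lit 1) (nat_lit 0) (nat_lit 464) (nat_lit 358) (nat_lit 258)) (XT.lf (nat_lit 0) (nat_lit 3471438107461) (nat_lit 0) (nat_lit 0) (nat_lit 0) (nat_lit 0) (nat_lit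 0) (nat_lit 0) (nat_lit 1) (nat_lit 0) (nat_lit 1) (nat_lit 0) (nat_lit 465) (nat_lit 358) (nat_lit 257)))))) (XT.nd (nat_lit 658) (nat_lit 0) (nat_lit 0) (XT.nd (nat_lit 282) (nat_lit 0) (nat_lit 0) (XT.nd (nat_lit 94) (nat_lit 0) (nat_lit 0) (XT.lf (nat_lit 0) (nat_lit 3749079451513) (nat_lit 0) (nat_lit 0) (nat_lit 0) (nat_lit 0) (nat_lit 0) (nat_lit 0) (nat_lit 1) (nat_lit 0) (nat_lit 1) (nat_lit 0) (nat_lit 466) (nat_lit 358) (nat_lit 256)) (XT.nd (nat_lit 94) (nat_lit 0) (nat_lit 0) (XT.lf (nat_lit 0) (nat_lit 4048932107511) (nat_lit 0) (nat_lit 0) (nat_lit 0) (nat_lit 0) (nat_lit 0) (nat_lit 0) (nat_lit 1) (nat_lit 0) (nat_lit 1) (nat_lit 0) (nat_lit 467) (nat_lit 358) (nat_lit 255)) (XT.lf (nat_lit 0) (nat_lit 4372772980084) (nat_lit 0) (nat_lit 0) (nat_lit 0) (nat_lit 0) (nat_lit 0) (nat_lit 0) (nat_lit 1) (nat_lit 0) (nat_lit 1) (nat_lit 0) (nat_lit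 468) (nat_lit 358) (nat_lit 254)))) (XT.nd (nat_lit 188) (nat_lit 0) (nat_lit 0) (XT.nd (nat_lit 94) (nat_lit 0) (nat_lit 0) (XT.lf (nat_lit 0) (nat_lit 4722521126254) (nat_lit 0) (nat_lit 0) (nat_lit 0) (nat_lit 0) (nat_lit 0) (nat_lit 0) (nat_lit 1) (nat_lit 0) (nat_lit 1) (nat_lit 0) (nat_lit 469) (nat_lit 358) (nat_lit 253)) (XT.lf (nat_lit 0) (nat_lit 5100249127628) (nat_lit 0) (nat_lit 0) (nat_lit 0) (nat_lit 0) (nat_lit 0) (nat_lit 0) (nat_lit 1) (nat_lit 0) (nat_lit 1) (nat_lit 0) (nat_lit 470) (nat_lit 358) (nat_lit 252))) (XT.nd (nat_lit 94) (nat_lit 0) (nat_lit 0) (XT.lf (nat_lit 0) (nat_lit 5508195372363) (nat_lit 0) (nat_lit 0) (nat_lit 0) (nat_lit 0) (nat_lit 0) (nat_lit 0) (nat_lit 1) (nat_lit 0) (nat_lit 1) (nat_lit 0) (nat_lit 471) (nat_lit 358) (nat_lit 251)) (XT.lf (nat_lit 0) (nat_lit 5948777319687) (nat_lit 0) (nat_lit 0) (nat_lit 0) (nat_lit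 0) (nat_lit 0) (nat_lit 0) (nat_lit 1) (nat_lit 0) (nat_lit 1) (nat_lit 0) (nat_lit 472) (nat_lit 358) (nat_lit 250))))) (XT.nd (nat_lit 376) (nat_lit 0) (nat_lit 0) (XT.nd (nat_lit 188) (nat_lit 0) (nat_lit 0) (XT.nd (nat_lit 94) (nat_lit 0) (nat_lit 0) (XT.lf (nat_lit 0) (nat_lit 6424605825583) (nat_lit 0) (nat_lit 0) (nat_lit 0) (nat_lit 0) (nat_lit 0) (nat_lit 0) (nat_lit 1) (nat_lit 0) (nat_lit 1) (nat_lit 0) (nat_lit 473) (nat_lit 358) (nat_lit 249)) (XT.lf (nat_lit 0) (nat_lit 6938500614531) (nat_lit 0) (nat_lit 0) (nat_lit 0) (nat_lit 0) (nat_lit 0) (nat_lit 0) (nat_lit 1) (nat_lit 0) (nat_lit 1) (nat_lit 0) (nat_lit 474) (nat_lit 358) (nat_lit 248))) (XT.nd (nat_lit 94) (nat_lit 0) (nat_lit 0) (XT.lf (nat_lit 0) (nat_lit 7493506988984) (nat_lit 0) (nat_lit 0) (nat_lit 0) (nat_lit 0) (nat_lit 0) (nat_lit 0) (nat_lit 1) (nat_lit 0) (nat_lit 1) (nat_lit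 0) (nat_lit 475) (nat_lit 358) (nat_lit 247)) (XT.lf (nat_lit 0) (nat_lit 8092913875605) (nat_lit 0) (nat_lit 0) (nat_lit 0) (nat_lit 0) (nat_lit 0) (nat_lit 0) (nat_lit 1) (nat_lit 0) (nat_lit 1) (nat_lit 0) (nat_lit 476) (nat_lit 358) (nat_lit 246)))) (XT.nd (nat_lit 188) (nat_lit 0) (nat_lit 0) (XT.nd (nat_lit 94) (nat_lit 0) (nat_lit 0) (XT.lf (nat_lit 0) (nat_lit 8740273315205) (nat_lit 0) (nat_lit 0) (nat_lit 0) (nat_lit 0) (nat_lit 0) (nat_lit 0) (nat_lit 1) (nat_lit 0) (nat_lit 1) (nat_lit 0) (nat_lit 477) (nat_lit 358) (nat_lit 245)) (XT.lf (nat_lit 0) (nat_lit 9439421511870) (nat_lit 0) (nat_lit 0) (nat_lit 0) (nat_lit 0) (nat_lit 0) (nat_lit 0) (nat_lit 1) (nat_lit 0) (nat_lit 1) (nat_lit 0) (nat_lit 478) (nat_lit 358) (nat_lit 244))) (XT.nd (nat_lit 94) (nat_lit 0) (nat_lit 0) (XT.lf (nat_lit 0) (nat_lit 10194501566023) (nat_lit 0) (nat_lit 0)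 (nat_lit 0) (nat_lit 0) (nat_lit 0) (nat_lit 0) (nat_lit 1) (nat_lit 0) (nat_lit 1) (nat_lit 0) (nat_lit 479) (nat_lit 358) (nat_lit 243)) (XT.lf (nat_lit 0) (nat_lit 11009988026136) (nat_lit 0) (nat_lit 0) (nat_lit 0) (nat_lit 0) (nat_lit 0) (nat_lit 0) (nat_lit 1) (nat_lit 0) (nat_lit 1) (nat_lit 0) (nat_lit 480) (nat_lit 358) (nat_lit 242))))))))
noncomputable def xc84 : XT := (XT.nd (nat_lit 57904) (nat_lit 0) (nat_lit 1848) (XT.nd (nat_lit 56588) (nat_lit 0) (nat_lit 8652) (XT.nd (nat_lit 658) (nat_lit 0) (nat_lit 0) (XT.nd (nat_lit 282) (nat_lit 0) (nat_lit 0) (XT.nd (nat_lit 94) (nat_lit 0) (nat_lit 0) (XT.lf (nat_lit 0) (nat_lit 11890713404562) (nat_lit 0) (nat_lit 0) (nat_lit 0) (nat_lit 0) (nat_lit 0) (nat_lit 0) (nat_lit 1) (nat_lit 0) (nat_lit 1) (nat_lit 0) (nat_lit 481) (nat_lit 358) (nat_lit 241)) (XT.nd (nat_lit 94) (nat_lit 0) (nat_lit 0)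 (XT.lf (nat_lit 0) (nat_lit 12841896814657) (nat_lit 0) (nat_lit 0) (nat_lit 0) (nat_lit 0) (nat_lit 0) (nat_lit 0) (nat_lit 1) (nat_lit 0) (nat_lit 1) (nat_lit 0) (nat_lit 482) (nat_lit 358) (nat_lit 240)) (XT.lf (nat_lit 0) (nat_lit 13869174898850) (nat_lit 0) (nat_lit 0) (nat_lit 0) (nat_lit 0) (nat_lit 0) (nat_lit 0) (nat_lit 1) (nat_lit 0) (nat_lit 1) (nat_lit 0) (nat_lit 483) (nat_lit 358) (nat_lit 239)))) (XT.nd (nat_lit 188) (nat_lit 0) (nat_lit 0) (XT.nd (nat_lit 94) (nat_lit 0) (nat_lit 0) (XT.lf (nat_lit 0) (nat_lit 14978635230975) (nat_lit 0) (nat_lit 0) (nat_lit 0) (nat_lit 0) (nat_lit 0) (nat_lit 0) (nat_lit 1) (nat_lit 0) (nat_lit 1) (nat_lit 0) (nat_lit 484) (nat_lit 358) (nat_lit 238)) (XT.lf (nat_lit 0) (nat_lit 16176852390775) (nat_lit 0) (nat_lit 0) (nat_lit 0) (nat_lit 0) (nat_lit 0) (nat_lit 0) (nat_lit 1) (nat_lit 0) (nat_lit 1) (nat_lit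 0) (nat_lit 485) (nat_lit 358) (nat_lit 237))) (XT.nd (nat_lit 94) (nat_lit 0) (nat_lit 0) (XT.lf (nat_lit 0) (nat_lit 17470926924385) (nat_lit 0) (nat_lit 0) (nat_lit 0) (nat_lit 0) (nat_lit 0) (nat_lit 0) (nat_lit 1) (nat_lit 0) (nat_lit 1) (nat_lit 0) (nat_lit 486) (nat_lit 358) (nat_lit 236)) (XT.lf (nat_lit 0) (nat_lit 18868527421631) (nat_lit 0) (nat_lit 0) (nat_lit 0) (nat_lit 0) (nat_lit 0) (nat_lit 0) (nat_lit 1) (nat_lit 0) (nat_lit 1) (nat_lit 0) (nat_lit 487) (nat_lit 358) (nat_lit 235))))) (XT.nd (nat_lit 282) (nat_lit 0) (nat_lit 0) (XT.nd (nat_lit 94) (nat_lit 0) (nat_lit 0) (XT.lf (nat_lit 0) (nat_lit 20377935959537) (nat_lit 0) (nat_lit 0) (nat_lit 0) (nat_lit 0) (nat_lit 0) (nat_lit 0) (nat_lit 1) (nat_lit 0) (nat_lit 1) (nat_lit 0) (nat_lit 488) (nat_lit 358) (nat_lit 234)) (XT.nd (nat_lit 94) (nat_lit 0) (nat_lit 0) (XT.lf (nat_lit 0) (nat_lit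 22008097181288) (nat_lit 0) (nat_lit 0) (nat_lit 0) (nat_lit 0) (nat_lit 0) (nat_lit 0) (nat_lit 1) (nat_lit 0) (nat_lit 1) (nat_lit 0) (nat_lit 489) (nat_lit 358) (nat_lit 233)) (XT.lf (nat_lit 0) (nat_lit 23768671301532) (nat_lit 0) (nat_lit 0) (nat_lit 0) (nat_lit 0) (nat_lit 0) (nat_lit 0) (nat_lit 1) (nat_lit 0) (nat_lit 1) (nat_lit 0) (nat_lit 490) (nat_lit 358) (nat_lit 232)))) (XT.nd (nat_lit 188) (nat_lit 0) (nat_lit 0) (XT.nd (nat_lit 94) (nat_lit 0) (nat_lit 0) (XT.lf (nat_lit 0) (nat_lit 25670091352093) (nat_lit 0) (nat_lit 0) (nat_lit 0) (nat_lit 0) (nat_lit 0) (nat_lit 0) (nat_lit 1) (nat_lit 0) (nat_lit 1) (nat_lit 0) (nat_lit 491) (nat_lit 358) (nat_lit 231)) (XT.lf (nat_lit 0) (nat_lit 27723625007345) (nat_lit 0) (nat_lit 0) (nat_lit 0) (nat_lit 0) (nat_lit 0) (nat_lit 0) (nat_lit 1) (nat_lit 0) (nat_lit 1) (nat_lit 0) (nat_lit 492) (nat_lit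 358) (nat_lit 230))) (XT.nd (nat_lit 94) (nat_lit 0) (nat_lit 0) (XT.lf (nat_lit 0) (nat_lit 29941441355615) (nat_lit 0) (nat_lit 0) (nat_lit 0) (nat_lit 0) (nat_lit 0) (nat_lit 0) (nat_lit 1) (nat_lit 0) (nat_lit 1) (nat_lit 0) (nat_lit 493) (nat_lit 358) (nat_lit 229)) (XT.lf (nat_lit 0) (nat_lit 32336683012300) (nat_lit 0) (nat_lit 0) (nat_lit 0) (nat_lit 0) (nat_lit 0) (nat_lit 0) (nat_lit 1) (nat_lit 0) (nat_lit 1) (nat_lit 0) (nat_lit 494) (nat_lit 358) (nat_lit 228)))))) (XT.nd (nat_lit 658) (nat_lit 4284) (nat_lit 0) (XT.nd (nat_lit 282) (nat_lit 2100) (nat_lit 0) (XT.nd (nat_lit 94) (nat_lit 588) (nat_lit 0) (XT.lf (nat_lit 0) (nat_lit 2166199083) (nat_lit 84) (nat_lit 534350120) (nat_lit 84) (nat_lit 534350120) (nat_lit 186) (nat_lit 4) (nat_lit 187) (nat_lit 5) (nat_lit 187) (nat_lit 4) (nat_lit 362) (nat_lit 359) (nat_lit 359)) (XT.nd (nat_lit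 94) (nat_lit 336) (nat_lit 0) (XT.lf (nat_lit 0) (nat_lit 3670534281) (nat_lit 168) (nat_lit 275429091) (nat_lit 252) (nat_lit 2561912324) (nat_lit 183) (nat_lit 5) (nat_lit 185) (nat_lit 5) (nat_lit 186) (nat_lit 4) (nat_lit 363) (nat_lit 359) (nat_lit 358)) (XT.lf (nat_lit 0) (nat_lit 2308138178) (nat_lit 336) (nat_lit 3373146115) (nat_lit 84) (nat_lit 883633396) (nat_lit 179) (nat_lit 5) (nat_lit 183) (nat_lit 5) (nat_lit 180) (nat_lit 4) (nat_lit 364) (nat_lit 359) (nat_lit 357)))) (XT.nd (nat_lit 188) (nat_lit 1260) (nat_lit 0) (XT.nd (nat_lit 94) (nat_lit 420) (nat_lit 0) (XT.lf (nat_lit 0) (nat_lit 474010479) (nat_lit 420) (nat_lit 3742702056) (nat_lit 84) (nat_lit 2424658275) (nat_lit 174) (nat_lit 5) (nat_lit 179) (nat_lit 5) (nat_lit 175) (nat_lit 5) (nat_lit 365) (nat_lit 359) (nat_lit 356)) (XT.lf (nat_lit 0) (nat_lit 2769129198) (nat_lit 420)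 (nat_lit 2343445537) (nat_lit 504) (nat_lit 1623953890) (nat_lit 169) (nat_lit 5) (nat_lit 174) (nat_lit 5) (nat_lit 175) (nat_lit 5) (nat_lit 366) (nat_lit 359) (nat_lit 355))) (XT.nd (nat_lit 94) (nat_lit 672) (nat_lit 0) (XT.lf (nat_lit 0) (nat_lit 2819399602) (nat_lit 504) (nat_lit 62518376) (nat_lit 588) (nat_lit 3969614953) (nat_lit 162) (nat_lit 5) (nat_lit 168) (nat_lit 5) (nat_lit 169) (nat_lit 5) (nat_lit 367) (nat_lit 359) (nat_lit 354)) (XT.lf (nat_lit 0) (nat_lit 466375271) (nat_lit 672) (nat_lit 3968228587) (nat_lit 84) (nat_lit 2550624692) (nat_lit 154) (nat_lit 5) (nat_lit 162) (nat_lit 5) (nat_lit 155) (nat_lit 5) (nat_lit 368) (nat_lit 359) (nat_lit 353))))) (XT.nd (nat_lit 282) (nat_lit 1932) (nat_lit 0) (XT.nd (nat_lit 94) (nat_lit 1680) (nat_lit 0) (XT.lf (nat_lit 0) (nat_lit 3364146089) (nat_lit 672) (nat_lit 1518606199) (nat_lit 756)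 (nat_lit 2255384570) (nat_lit 146) (nat_lit 5) (nat_lit 154) (nat_lit 5) (nat_lit 155) (nat_lit 5) (nat_lit 369) (nat_lit 359) (nat_lit 352)) (XT.nd (nat_lit 94) (nat_lit 840) (nat_lit 0) (XT.lf (nat_lit 0) (nat_lit 2087810391) (nat_lit 840) (nat_lit 3448801663) (nat_lit 84) (nat_lit 1774140099) (nat_lit 136) (nat_lit 5) (nat_lit 146) (nat_lit 5) (nat_lit 137) (nat_lit 5) (nat_lit 370) (nat_lit 359) (nat_lit 351)) (XT.lf (nat_lit 0) (nat_lit 4506771114) (nat_lit 840) (nat_lit 2031853632) (nat_lit 924) (nat_lit 964744173) (nat_lit 126) (nat_lit 5) (nat_lit 136) (nat_lit 5) (nat_lit 137) (nat_lit 5) (nat_lit 371) (nat_lit 359) (nat_lit 350)))) (XT.nd (nat_lit 188) (nat_lit 924) (nat_lit 0) (XT.nd (nat_lit 94) (nat_lit 420) (nat_lit 0) (XT.lf (nat_lit 0) (nat_lit 3381812474) (nat_lit 588) (nat_lit 2440388122) (nat_lit 84) (nat_lit 1893156628) (nat_lit 119) (nat_lit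 5) (nat_lit 126) (nat_lit 5) (nat_lit 120) (nat_lit 5) (nat_lit 372) (nat_lit 359) (nat_lit 349)) (XT.lf (nat_lit 0) (nat_lit 6201452953) (nat_lit 420) (nat_lit 1733033689) (nat_lit 504) (nat_lit 14417530) (nat_lit 114) (nat_lit 5) (nat_lit 119) (nat_lit 5) (nat_lit 120) (nat_lit 5) (nat_lit 373) (nat_lit 359) (nat_lit 348))) (XT.nd (nat_lit 94) (nat_lit 420) (nat_lit 0) (XT.lf (nat_lit 0) (nat_lit 4423166436) (nat_lit 504) (nat_lit 981310715) (nat_lit 84) (nat_lit 2796939399) (nat_lit 108) (nat_lit 5) (nat_lit 114) (nat_lit 5) (nat_lit 109) (nat_lit 5) (nat_lit 374) (nat_lit 359) (nat_lit 347)) (XT.lf (nat_lit 0) (nat_lit 643303916) (nat_lit 420) (nat_lit 67281153) (nat_lit 84) (nat_lit 7766659924) (nat_lit 103) (nat_lit 5) (nat_lit 108) (nat_lit 5) (nat_lit 104) (nat_lit 5) (nat_lit 375) (nat_lit 359) (nat_lit 346))))))) (XT.nd (nat_lit 1316) (nat_lit 2352)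 (nat_lit 0) (XT.nd (nat_lit 658) (nat_lit 1848) (nat_lit 0) (XT.nd (nat_lit 282) (nat_lit 1260) (nat_lit 0) (XT.nd (nat_lit 94) (nat_lit 672) (nat_lit 0) (XT.lf (nat_lit 0) (nat_lit 935920583) (nat_lit 336) (nat_lit 4353613951) (nat_lit 420) (nat_lit 3482342065) (nat_lit 95) (nat_lit 5) (nat_lit 99) (nat_lit 5) (nat_lit 100) (nat_lit 5) (nat_lit 376) (nat_lit 359) (nat_lit 345)) (XT.nd (nat_lit 94) (nat_lit 252) (nat_lit 0) (XT.lf (nat_lit 0) (nat_lit 1141852437) (nat_lit 420) (nat_lit 6997527253) (nat_lit 84) (nat_lit 951577130) (nat_lit 90) (nat_lit 5) (nat_lit 95) (nat_lit 5) (nat_lit 91) (nat_lit 5) (nat_lit 377) (nat_lit 359) (nat_lit 344)) (XT.lf (nat_lit 0) (nat_lit 3319192963) (nat_lit 252) (nat_lit 2723480673) (nat_lit 336) (nat_lit 3388600670) (nat_lit 87) (nat_lit 5) (nat_lit 90) (nat_lit 5) (nat_lit 91) (nat_lit 5) (nat_lit 378) (nat_lit 359) (nat_lit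 343)))) (XT.nd (nat_lit 188) (nat_lit 588) (nat_lit 0) (XT.nd (nat_lit 94) (nat_lit 252) (nat_lit 0) (XT.lf (nat_lit 0) (nat_lit 1508546605) (nat_lit 420) (nat_lit 5120929982) (nat_lit 84) (nat_lit 3167091530) (nat_lit 82) (nat_lit 5) (nat_lit 87) (nat_lit 5) (nat_lit 83) (nat_lit 5) (nat_lit 379) (nat_lit 359) (nat_lit 342)) (XT.lf (nat_lit 0) (nat_lit 6140303113) (nat_lit 252) (nat_lit 573060927) (nat_lit 336) (nat_lit 3473212928) (nat_lit 79) (nat_lit 5) (nat_lit 82) (nat_lit 5) (nat_lit 83) (nat_lit 5) (nat_lit 380) (nat_lit 359) (nat_lit 341))) (XT.nd (nat_lit 94) (nat_lit 252) (nat_lit 0) (XT.lf (nat_lit 0) (nat_lit 1770665065) (nat_lit 336) (nat_lit 2902411241) (nat_lit 84) (nat_lit 5928404603) (nat_lit 75) (nat_lit 5) (nat_lit 79) (nat_lit 5) (nat_lit 76) (nat_lit 5) (nat_lit 381) (nat_lit 359) (nat_lit 340)) (XT.lf (nat_lit 0) (nat_lit 7375247925)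 (nat_lit 336) (nat_lit 1662082204) (nat_lit 84) (nat_lit 2006256188) (nat_lit 72) (nat_lit 5) (nat_lit 76) (nat_lit 5) (nat_lit 73) (nat_lit 5) (nat_lit 382) (nat_lit 359) (nat_lit 339))))) (XT.nd (nat_lit 282) (nat_lit 840) (nat_lit 0) (XT.nd (nat_lit 94) (nat_lit 672) (nat_lit 0) (XT.lf (nat_lit 0) (nat_lit 1962700970) (nat_lit 336) (nat_lit 328209421) (nat_lit 84) (nat_lit 9222830778) (nat_lit 68) (nat_lit 5) (nat_lit 72) (nat_lit 5) (nat_lit 69) (nat_lit 5) (nat_lit 383) (nat_lit 359) (nat_lit 338)) (XT.nd (nat_lit 94) (nat_lit 252) (nat_lit 0) (XT.lf (nat_lit 0) (nat_lit 1110741144) (nat_lit 252) (nat_lit 6956496521) (nat_lit 336) (nat_lit 3943687163) (nat_lit 63) (nat_lit 5) (nat_lit 66) (nat_lit 5) (nat_lit 67) (nat_lit 5) (nat_lit 384) (nat_lit 359) (nat_lit 337)) (XT.lf (nat_lit 0) (nat_lit 2166438580) (nat_lit 252) (nat_lit 9837254221) (nat_lit 84)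 (nat_lit 536451978) (nat_lit 60) (nat_lit 5) (nat_lit 63) (nat_lit 5) (nat_lit 61) (nat_lit 5) (nat_lit 385) (nat_lit 359) (nat_lit 336)))) (XT.nd (nat_lit 188) (nat_lit 420) (nat_lit 0) (XT.nd (nat_lit 94) (nat_lit 252) (nat_lit 0) (XT.lf (nat_lit 0) (nat_lit 4341922878) (nat_lit 168) (nat_lit 4489054698) (nat_lit 252) (nat_lit 4267303683) (nat_lit 58) (nat_lit 5) (nat_lit 60) (nat_lit 5) (nat_lit 61) (nat_lit 5) (nat_lit 386) (nat_lit 359) (nat_lit 335)) (XT.lf (nat_lit 0) (nat_lit 2413581474) (nat_lit 252) (nat_lit 7565294194) (nat_lit 84) (nat_lit 3712352535) (nat_lit 55) (nat_lit 5) (nat_lit 58) (nat_lit 5) (nat_lit 56) (nat_lit 5) (nat_lit 387) (nat_lit 359) (nat_lit 334))) (XT.nd (nat_lit 94) (nat_lit 252) (nat_lit 0) (XT.lf (nat_lit 0) (nat_lit 8015551357) (nat_lit 168) (nat_lit 1658189531) (nat_lit 252) (nat_lit 4644656777) (nat_lit 53) (nat_lit 5)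 (nat_lit 55) (nat_lit 5) (nat_lit 56) (nat_lit 5) (nat_lit 388) (nat_lit 359) (nat_lit 333)) (XT.lf (nat_lit 0) (nat_lit 2690458895) (nat_lit 252) (nat_lit 4969871705) (nat_lit 84) (nat_lit 7320838203) (nat_lit 50) (nat_lit 5) (nat_lit 53) (nat_lit 5) (nat_lit 51) (nat_lit 5) (nat_lit 389) (nat_lit 359) (nat_lit 332)))))) (XT.nd (nat_lit 658) (nat_lit 1092) (nat_lit 0) (XT.nd (nat_lit 282) (nat_lit 756) (nat_lit 0) (XT.nd (nat_lit 94) (nat_lit 336) (nat_lit 0) (XT.lf (nat_lit 0) (nat_lit 10653575690) (nat_lit 252) (nat_lit 3527953727) (nat_lit 84) (nat_lit 1501429220) (nat_lit 48) (nat_lit 5) (nat_lit 51) (nat_lit 5) (nat_lit 49) (nat_lit 4) (nat_lit 390) (nat_lit 359) (nat_lit 331)) (XT.nd (nat_lit 94) (nat_lit 168) (nat_lit 0) (XT.lf (nat_lit 0) (nat_lit 3024065097) (nat_lit 168) (nat_lit 2011242336) (nat_lit 84) (nat_lit 11388326215) (nat_lit 46) (nat_lit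 5) (nat_lit 48) (nat_lit 5) (nat_lit 47) (nat_lit 5) (nat_lit 391) (nat_lit 359) (nat_lit 330)) (XT.lf (nat_lit 0) (nat_lit 11812902675) (nat_lit 252) (nat_lit 395240469) (nat_lit 84) (nat_lit 4997931133) (nat_lit 44) (nat_lit 5) (nat_lit 47) (nat_lit 5) (nat_lit 45) (nat_lit 4) (nat_lit 392) (nat_lit 359) (nat_lit 329)))) (XT.nd (nat_lit 188) (nat_lit 336) (nat_lit 0) (XT.nd (nat_lit 94) (nat_lit 84) (nat_lit 0) (XT.lf (nat_lit 0) (nat_lit 1403871517) (nat_lit 168) (nat_lit 2059725957) (nat_lit 252) (nat_lit 14569272670) (nat_lit 40) (nat_lit 5) (nat_lit 42) (nat_lit 5) (nat_lit 43) (nat_lit 5) (nat_lit 393) (nat_lit 359) (nat_lit 328)) (XT.lf (nat_lit 0) (nat_lit 3278911146) (nat_lit 84) (nat_lit 9934550549) (nat_lit 168) (nat_lit 5689252149) (nat_lit 39) (nat_lit 5) (nat_lit 40) (nat_lit 5) (nat_lit 41) (nat_lit 4) (nat_lit 394) (nat_lit 359) (nat_lit 327)))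 (XT.nd (nat_lit 94) (nat_lit 84) (nat_lit 0) (XT.lf (nat_lit 0) (nat_lit 4075949287) (nat_lit 252) (nat_lit 14475674529) (nat_lit 84) (nat_lit 1272493761) (nat_lit 36) (nat_lit 5) (nat_lit 39) (nat_lit 5) (nat_lit 37) (nat_lit 4) (nat_lit 395) (nat_lit 359) (nat_lit 326)) (XT.lf (nat_lit 0) (nat_lit 7481256470) (nat_lit 84) (nat_lit 7376046763) (nat_lit 168) (nat_lit 5935554049) (nat_lit 35) (nat_lit 5) (nat_lit 36) (nat_lit 5) (nat_lit 37) (nat_lit 4) (nat_lit 396) (nat_lit 359) (nat_lit 325))))) (XT.nd (nat_lit 282) (nat_lit 504) (nat_lit 0) (XT.nd (nat_lit 94) (nat_lit 336) (nat_lit 0) (XT.lf (nat_lit 0) (nat_lit 4877673226) (nat_lit 252) (nat_lit 12010608477) (nat_lit 84) (nat_lit 4928934102) (nat_lit 32) (nat_lit 5) (nat_lit 35) (nat_lit 5) (nat_lit 33) (nat_lit 4) (nat_lit 397) (nat_lit 359) (nat_lit 324)) (XT.nd (nat_lit 94) (nat_lit 252) (nat_lit 0)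 (XT.lf (nat_lit 0) (nat_lit 12273404214) (nat_lit 84) (nat_lit 4507820332) (nat_lit 168) (nat_lit 6115772317) (nat_lit 31) (nat_lit 5) (nat_lit 32) (nat_lit 5) (nat_lit 33) (nat_lit 4) (nat_lit 398) (nat_lit 359) (nat_lit 323)) (XT.lf (nat_lit 0) (nat_lit 5870961463) (nat_lit 252) (nat_lit 9143208109) (nat_lit 84) (nat_lit 9020866549) (nat_lit 28) (nat_lit 5) (nat_lit 31) (nat_lit 5) (nat_lit 29) (nat_lit 4) (nat_lit 399) (nat_lit 359) (nat_lit 322)))) (XT.nd (nat_lit 188) (nat_lit 252) (nat_lit 0) (XT.nd (nat_lit 94) (nat_lit 168) (nat_lit 0) (XT.lf (nat_lit 0) (nat_lit 17741502785) (nat_lit 84) (nat_lit 1291057642) (nat_lit 168) (nat_lit 6205035497) (nat_lit 27) (nat_lit 5) (nat_lit 28) (nat_lit 5) (nat_lit 29) (nat_lit 4) (nat_lit 400) (nat_lit 359) (nat_lit 321)) (XT.lf (nat_lit 0) (nat_lit 7093565191) (nat_lit 168) (nat_lit 5805486562) (nat_lit 84) (nat_lit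 13602188918) (nat_lit 25) (nat_lit 5) (nat_lit 27) (nat_lit 5) (nat_lit 26) (nat_lit 4) (nat_lit 401) (nat_lit 359) (nat_lit 320))) (XT.nd (nat_lit 94) (nat_lit 168) (nat_lit 0) (XT.lf (nat_lit 0) (nat_lit 21699894040) (nat_lit 168) (nat_lit 3891511029) (nat_lit 0) (nat_lit 2246424118) (nat_lit 24) (nat_lit 5) (nat_lit 26) (nat_lit 4) (nat_lit 24) (nat_lit 4) (nat_lit 402) (nat_lit 359) (nat_lit 319)) (XT.lf (nat_lit 0) (nat_lit 8587381984) (nat_lit 168) (nat_lit 1918867905) (nat_lit 84) (nat_lit 18735886958) (nat_lit 22) (nat_lit 5) (nat_lit 24) (nat_lit 5) (nat_lit 23) (nat_lit 4) (nat_lit 403) (nat_lit 359) (nat_lit 318))))))))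
noncomputable def xc85 : XT := (XT.nd (nat_lit 2632) (nat_lit 0) (nat_lit 0) (XT.nd (nat_lit 1316) (nat_lit 0) (nat_lit 0) (XT.nd (nat_lit 658) (nat_lit 924) (nat_lit 0) (XT.nd (nat_lit 282) (nat_lit 504) (nat_lit 0) (XT.nd (nat_lit 94) (nat_lit 252) (nat_lit 0) (XT.lf (nat_lit 0) (nat_lit 293709863) (nat_lit 84) (nat_lit 24543315048) (nat_lit 84) (nat_lit 5888665927) (nat_lit 20) (nat_lit 4) (nat_lit 21) (nat_lit 5) (nat_lit 21) (nat_lit 4) (nat_lit 404) (nat_lit 359) (nat_lit 317)) (XT.nd (nat_lit 94) (nat_lit 84) (nat_lit 0) (XT.lf (nat_lit 0) (nat_lit 2693233115) (nat_lit 84) (nat_lit 7748062130) (nat_lit 168) (nat_lit 21843555336) (nat_lit 18) (nat_lit 5) (nat_lit 19) (nat_lit 5) (nat_lit 20) (nat_lit 4) (nat_lit 405) (nat_lit 359) (nat_lit 316)) (XT.lf (nat_lit 0) (nat_lit 5318462641) (nat_lit 84) (nat_lit 23240762995) (nat_lit 84) (nat_lit 5370296567)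 (nat_lit 17) (nat_lit 4) (nat_lit 18) (nat_lit 5) (nat_lit 18) (nat_lit 4) (nat_lit 406) (nat_lit 359) (nat_lit 315)))) (XT.nd (nat_lit 188) (nat_lit 252) (nat_lit 0) (XT.nd (nat_lit 94) (nat_lit 84) (nat_lit 0) (XT.lf (nat_lit 0) (nat_lit 8136237413) (nat_lit 84) (nat_lit 4572572224) (nat_lit 168) (nat_lit 22952985194) (nat_lit 15) (nat_lit 5) (nat_lit 16) (nat_lit 5) (nat_lit 17) (nat_lit 4) (nat_lit 407) (nat_lit 359) (nat_lit 314)) (XT.lf (nat_lit 0) (nat_lit 11168440241) (nat_lit 84) (nat_lit 21711321201) (nat_lit 84) (nat_lit 4606802639) (nat_lit 14) (nat_lit 4) (nat_lit 15) (nat_lit 5) (nat_lit 15) (nat_lit 4) (nat_lit 408) (nat_lit 359) (nat_lit 313))) (XT.nd (nat_lit 94) (nat_lit 84) (nat_lit 0) (XT.lf (nat_lit 0) (nat_lit 14469085300) (nat_lit 84) (nat_lit 951136201) (nat_lit 168) (nat_lit 23990228699) (nat_lit 12) (nat_lit 5) (nat_lit 13) (nat_lit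 5) (nat_lit 14) (nat_lit 4) (nat_lit 409) (nat_lit 359) (nat_lit 312)) (XT.lf (nat_lit 0) (nat_lit 17974263643) (nat_lit 84) (nat_lit 19909920887) (nat_lit 84) (nat_lit 3550477768) (nat_lit 11) (nat_lit 4) (nat_lit 12) (nat_lit 5) (nat_lit 12) (nat_lit 4) (nat_lit 410) (nat_lit 359) (nat_lit 311))))) (XT.nd (nat_lit 282) (nat_lit 504) (nat_lit 0) (XT.nd (nat_lit 94) (nat_lit 252) (nat_lit 0) (XT.lf (nat_lit 0) (nat_lit 18694528562) (nat_lit 168) (nat_lit 21789000172) (nat_lit 0) (nat_lit 3084673020) (nat_lit 9) (nat_lit 5) (nat_lit 11) (nat_lit 4) (nat_lit 9) (nat_lit 4) (nat_lit 411) (nat_lit 359) (nat_lit 310)) (XT.nd (nat_lit 94) (nat_lit 168) (nat_lit 0) (XT.lf (nat_lit 0) (nat_lit 25884870326) (nat_lit 84) (nat_lit 17784022587) (nat_lit 84) (nat_lit 2146913782) (nat_lit 8) (nat_lit 4) (nat_lit 9) (nat_lit 5) (nat_lit 9) (nat_lit 4) (nat_lit 412) (nat_lit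 359) (nat_lit 309)) (XT.lf (nat_lit 0) (nat_lit 22584552011) (nat_lit 168) (nat_lit 17927976621) (nat_lit 0) (nat_lit 7668034575) (nat_lit 6) (nat_lit 5) (nat_lit 8) (nat_lit 4) (nat_lit 6) (nat_lit 4) (nat_lit 413) (nat_lit 359) (nat_lit 308)))) (XT.nd (nat_lit 188) (nat_lit 252) (nat_lit 0) (XT.nd (nat_lit 94) (nat_lit 168) (nat_lit 0) (XT.lf (nat_lit 0) (nat_lit 35069855461) (nat_lit 84) (nat_lit 15272745468) (nat_lit 84) (nat_lit 333975385) (nat_lit 5) (nat_lit 4) (nat_lit 6) (nat_lit 5) (nat_lit 6) (nat_lit 4) (nat_lit 414) (nat_lit 359) (nat_lit 307)) (XT.lf (nat_lit 0) (nat_lit 27165727288) (nat_lit 168) (nat_lit 13212839577) (nat_lit 0) (nat_lit 12918704062) (nat_lit 3) (nat_lit 5) (nat_lit 5) (nat_lit 4) (nat_lit 3) (nat_lit 4) (nat_lit 415) (nat_lit 359) (nat_lit 306))) (XT.nd (nat_lit 94) (nat_lit 84) (nat_lit 0) (XT.lf (nat_lit 0) (nat_lit 1896631433)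 (nat_lit 168) (nat_lit 10377098366) (nat_lit 84) (nat_lit 43793374463) (nat_lit 1) (nat_lit 5) (nat_lit 3) (nat_lit 5) (nat_lit 2) (nat_lit 4) (nat_lit 416) (nat_lit 359) (nat_lit 305)) (XT.lf (nat_lit 0) (nat_lit 87317204481) (nat_lit 0) (nat_lit 0) (nat_lit 0) (nat_lit 0) (nat_lit 0) (nat_lit 0) (nat_lit 1) (nat_lit 0) (nat_lit 1) (nat_lit 0) (nat_lit 417) (nat_lit 359) (nat_lit 304)))))) (XT.nd (nat_lit 658) (nat_lit 0) (nat_lit 0) (XT.nd (nat_lit 282) (nat_lit 0) (nat_lit 0) (XT.nd (nat_lit 94) (nat_lit 0) (nat_lit 0) (XT.lf (nat_lit 0) (nat_lit 94220821614) (nat_lit 0) (nat_lit 0) (nat_lit 0) (nat_lit 0) (nat_lit 0) (nat_lit 0) (nat_lit 1) (nat_lit 0) (nat_lit 1) (nat_lit 0) (nat_lit 418) (nat_lit 359) (nat_lit 303)) (XT.nd (nat_lit 94) (nat_lit 0) (nat_lit 0) (XT.lf (nat_lit 0) (nat_lit 101676892770) (nat_lit 0) (nat_lit 0) (nat_lit 0) (nat_lit 0) (nat_lit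 0) (nat_lit 0) (nat_lit 1) (nat_lit 0) (nat_lit 1) (nat_lit 0) (nat_lit 419) (nat_lit 359) (nat_lit 302)) (XT.lf (nat_lit 0) (nat_lit 109729602073) (nat_lit 0) (nat_lit 0) (nat_lit 0) (nat_lit 0) (nat_lit 0) (nat_lit 0) (nat_lit 1) (nat_lit 0) (nat_lit 1) (nat_lit 0) (nat_lit 420) (nat_lit 359) (nat_lit 301)))) (XT.nd (nat_lit 188) (nat_lit 0) (nat_lit 0) (XT.nd (nat_lit 94) (nat_lit 0) (nat_lit 0) (XT.lf (nat_lit 0) (nat_lit 118426669282) (nat_lit 0) (nat_lit 0) (nat_lit 0) (nat_lit 0) (nat_lit 0) (nat_lit 0) (nat_lit 1) (nat_lit 0) (nat_lit 1) (nat_lit 0) (nat_lit 421) (nat_lit 359) (nat_lit 300)) (XT.lf (nat_lit 0) (nat_lit 127819632574) (nat_lit 0) (nat_lit 0) (nat_lit 0) (nat_lit 0) (nat_lit 0) (nat_lit 0) (nat_lit 1) (nat_lit 0) (nat_lit 1) (nat_lit 0) (nat_lit 422) (nat_lit 359) (nat_lit 299))) (XT.nd (nat_lit 94) (nat_lit 0) (nat_lit 0) (XT.lf (nat_lit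 0) (nat_lit 137964153953) (nat_lit 0) (nat_lit 0) (nat_lit 0) (nat_lit 0) (nat_lit 0) (nat_lit 0) (nat_lit 1) (nat_lit 0) (nat_lit 1) (nat_lit 0) (nat_lit 423) (nat_lit 359) (nat_lit 298)) (XT.lf (nat_lit 0) (nat_lit 148920349100) (nat_lit 0) (nat_lit 0) (nat_lit 0) (nat_lit 0) (nat_lit 0) (nat_lit 0) (nat_lit 1) (nat_lit 0) (nat_lit 1) (nat_lit 0) (nat_lit 424) (nat_lit 359) (nat_lit 297))))) (XT.nd (nat_lit 282) (nat_lit 0) (nat_lit 0) (XT.nd (nat_lit 94) (nat_lit 0) (nat_lit 0) (XT.lf (nat_lit 0) (nat_lit 160753143618) (nat_lit 0) (nat_lit 0) (nat_lit 0) (nat_lit 0) (nat_lit 0) (nat_lit 0) (nat_lit 1) (nat_lit 0) (nat_lit 1) (nat_lit 0) (nat_lit 425) (nat_lit 359) (nat_lit 296)) (XT.nd (nat_lit 94) (nat_lit 0) (nat_lit 0) (XT.lf (nat_lit 0) (nat_lit 173532657770) (nat_lit 0) (nat_lit 0) (nat_lit 0) (nat_lit 0) (nat_lit 0) (nat_lit 0) (nat_lit 1) (nat_lit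 0) (nat_lit 1) (nat_lit 0) (nat_lit 426) (nat_lit 359) (nat_lit 295)) (XT.lf (nat_lit 0) (nat_lit 187334622010) (nat_lit 0) (nat_lit 0) (nat_lit 0) (nat_lit 0) (nat_lit 0) (nat_lit 0) (nat_lit 1) (nat_lit 0) (nat_lit 1) (nat_lit 0) (nat_lit 427) (nat_lit 359) (nat_lit 294)))) (XT.nd (nat_lit 188) (nat_lit 0) (nat_lit 0) (XT.nd (nat_lit 94) (nat_lit 0) (nat_lit 0) (XT.lf (nat_lit 0) (nat_lit 202240825756) (nat_lit 0) (nat_lit 0) (nat_lit 0) (nat_lit 0) (nat_lit 0) (nat_lit 0) (nat_lit 1) (nat_lit 0) (nat_lit 1) (nat_lit 0) (nat_lit 428) (nat_lit 359) (nat_lit 293)) (XT.lf (nat_lit 0) (nat_lit 218339602067) (nat_lit 0) (nat_lit 0) (nat_lit 0) (nat_lit 0) (nat_lit 0) (nat_lit 0) (nat_lit 1) (nat_lit 0) (nat_lit 1) (nat_lit 0) (nat_lit 429) (nat_lit 359) (nat_lit 292))) (XT.nd (nat_lit 94) (nat_lit 0) (nat_lit 0) (XT.lf (nat_lit 0) (nat_lit 235726351100) (nat_lit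 0) (nat_lit 0) (nat_lit 0) (nat_lit 0) (nat_lit 0) (nat_lit 0) (nat_lit 1) (nat_lit 0) (nat_lit 1) (nat_lit 0) (nat_lit 430) (nat_lit 359) (nat_lit 291)) (XT.lf (nat_lit 0) (nat_lit 254504105440) (nat_lit 0) (nat_lit 0) (nat_lit 0) (nat_lit 0) (nat_lit 0) (nat_lit 0) (nat_lit 1) (nat_lit 0) (nat_lit 1) (nat_lit 0) (nat_lit 431) (nat_lit 359) (nat_lit 290))))))) (XT.nd (nat_lit 1316) (nat_lit 0) (nat_lit 0) (XT.nd (nat_lit 658) (nat_lit 0) (nat_lit 0) (XT.nd (nat_lit 282) (nat_lit 0) (nat_lit 0) (XT.nd (nat_lit 94) (nat_lit 0) (nat_lit 0) (XT.lf (nat_lit 0) (nat_lit 274784140669) (nat_lit 0) (nat_lit 0) (nat_lit 0) (nat_lit 0) (nat_lit 0) (nat_lit 0) (nat_lit 1) (nat_lit 0) (nat_lit 1) (nat_lit 0) (nat_lit 432) (nat_lit 359) (nat_lit 289)) (XT.nd (nat_lit 94) (nat_lit 0) (nat_lit 0) (XT.lf (nat_lit 0) (nat_lit 296686634774) (nat_lit 0) (nat_lit 0) (nat_lit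 0) (nat_lit 0) (nat_lit 0) (nat_lit 0) (nat_lit 1) (nat_lit 0) (nat_lit 1) (nat_lit 0) (nat_lit 433) (nat_lit 359) (nat_lit 288)) (XT.lf (nat_lit 0) (nat_lit 320341380312) (nat_lit 0) (nat_lit 0) (nat_lit 0) (nat_lit 0) (nat_lit 0) (nat_lit 0) (nat_lit 1) (nat_lit 0) (nat_lit 1) (nat_lit 0) (nat_lit 434) (nat_lit 359) (nat_lit 287)))) (XT.nd (nat_lit 188) (nat_lit 0) (nat_lit 0) (XT.nd (nat_lit 94) (nat_lit 0) (nat_lit 0) (XT.lf (nat_lit 0) (nat_lit 345888553553) (nat_lit 0) (nat_lit 0) (nat_lit 0) (nat_lit 0) (nat_lit 0) (nat_lit 0) (nat_lit 1) (nat_lit 0) (nat_lit 1) (nat_lit 0) (nat_lit 435) (nat_lit 359) (nat_lit 286)) (XT.lf (nat_lit 0) (nat_lit 373479545154) (nat_lit 0) (nat_lit 0) (nat_lit 0) (nat_lit 0) (nat_lit 0) (nat_lit 0) (nat_lit 1) (nat_lit 0) (nat_lit 1) (nat_lit 0) (nat_lit 436) (nat_lit 359) (nat_lit 285))) (XT.nd (nat_lit 94) (nat_lit 0)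 (nat_lit 0) (XT.lf (nat_lit 0) (nat_lit 403277857287) (nat_lit 0) (nat_lit 0) (nat_lit 0) (nat_lit 0) (nat_lit 0) (nat_lit 0) (nat_lit 1) (nat_lit 0) (nat_lit 1) (nat_lit 0) (nat_lit 437) (nat_lit 359) (nat_lit 284)) (XT.lf (nat_lit 0) (nat_lit 435460072543) (nat_lit 0) (nat_lit 0) (nat_lit 0) (nat_lit 0) (nat_lit 0) (nat_lit 0) (nat_lit 1) (nat_lit 0) (nat_lit 1) (nat_lit 0) (nat_lit 438) (nat_lit 359) (nat_lit 283))))) (XT.nd (nat_lit 282) (nat_lit 0) (nat_lit 0) (XT.nd (nat_lit 94) (nat_lit 0) (nat_lit 0) (XT.lf (nat_lit 0) (nat_lit 470216900344) (nat_lit 0) (nat_lit 0) (nat_lit 0) (nat_lit 0) (nat_lit 0) (nat_lit 0) (nat_lit 1) (nat_lit 0) (nat_lit 1) (nat_lit 0) (nat_lit 439) (nat_lit 359) (nat_lit 282)) (XT.nd (nat_lit 94) (nat_lit 0) (nat_lit 0) (XT.lf (nat_lit 0) (nat_lit 507754307078) (nat_lit 0) (nat_lit 0) (nat_lit 0) (nat_lit 0) (nat_lit 0) (nat_lit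 0) (nat_lit 1) (nat_lit 0) (nat_lit 1) (nat_lit 0) (nat_lit 440) (nat_lit 359) (nat_lit 281)) (XT.lf (nat_lit 0) (nat_lit 548294736637) (nat_lit 0) (nat_lit 0) (nat_lit 0) (nat_lit 0) (nat_lit 0) (nat_lit 0) (nat_lit 1) (nat_lit 0) (nat_lit 1) (nat_lit 0) (nat_lit 441) (nat_lit 359) (nat_lit 280)))) (XT.nd (nat_lit 188) (nat_lit 0) (nat_lit 0) (XT.nd (nat_lit 94) (nat_lit 0) (nat_lit 0) (XT.lf (nat_lit 0) (nat_lit 592078428604) (nat_lit 0) (nat_lit 0) (nat_lit 0) (nat_lit 0) (nat_lit 0) (nat_lit 0) (nat_lit 1) (nat_lit 0) (nat_lit 1) (nat_lit 0) (nat_lit 442) (nat_lit 359) (nat_lit 279)) (XT.lf (nat_lit 0) (nat_lit 639364841893) (nat_lit 0) (nat_lit 0) (nat_lit 0) (nat_lit 0) (nat_lit 0) (nat_lit 0) (nat_lit 1) (nat_lit 0) (nat_lit 1) (nat_lit 0) (nat_lit 443) (nat_lit 359) (nat_lit 278))) (XT.nd (nat_lit 94) (nat_lit 0) (nat_lit 0) (XT.lf (nat_lit 0) (nat_lit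 690434192288) (nat_lit 0) (nat_lit 0) (nat_lit 0) (nat_lit 0) (nat_lit 0) (nat_lit 0) (nat_lit 1) (nat_lit 0) (nat_lit 1) (nat_lit 0) (nat_lit 444) (nat_lit 359) (nat_lit 277)) (XT.lf (nat_lit 0) (nat_lit 745589112975) (nat_lit 0) (nat_lit 0) (nat_lit 0) (nat_lit 0) (nat_lit 0) (nat_lit 0) (nat_lit 1) (nat_lit 0) (nat_lit 1) (nat_lit 0) (nat_lit 445) (nat_lit 359) (nat_lit 276)))))) (XT.nd (nat_lit 658) (nat_lit 0) (nat_lit 0) (XT.nd (nat_lit 282) (nat_lit 0) (nat_lit 0) (XT.nd (nat_lit 94) (nat_lit 0) (nat_lit 0) (XT.lf (nat_lit 0) (nat_lit 805156447929) (nat_lit 0) (nat_lit 0) (nat_lit 0) (nat_lit 0) (nat_lit 0) (nat_lit 0) (nat_lit 1) (nat_lit 0) (nat_lit 1) (nat_lit 0) (nat_lit 446) (nat_lit 359) (nat_lit 275)) (XT.nd (nat_lit 94) (nat_lit 0) (nat_lit 0) (XT.lf (nat_lit 0) (nat_lit 869489188765) (nat_lit 0) (nat_lit 0) (nat_lit 0) (nat_lit 0) (nat_lit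 0) (nat_lit 0) (nat_lit 1) (nat_lit 0) (nat_lit 1) (nat_lit 0) (nat_lit 447) (nat_lit 359) (nat_lit 274)) (XT.lf (nat_lit 0) (nat_lit 938968566540) (nat_lit 0) (nat_lit 0) (nat_lit 0) (nat_lit 0) (nat_lit 0) (nat_lit 0) (nat_lit 1) (nat_lit 0) (nat_lit 1) (nat_lit 0) (nat_lit 448) (nat_lit 359) (nat_lit 273)))) (XT.nd (nat_lit 188) (nat_lit 0) (nat_lit 0) (XT.nd (nat_lit 94) (nat_lit 0) (nat_lit 0) (XT.lf (nat_lit 0) (nat_lit 1014006310899) (nat_lit 0) (nat_lit 0) (nat_lit 0) (nat_lit 0) (nat_lit 0) (nat_lit 0) (nat_lit 1) (nat_lit 0) (nat_lit 1) (nat_lit 0) (nat_lit 449) (nat_lit 359) (nat_lit 272)) (XT.lf (nat_lit 0) (nat_lit 1095047089958) (nat_lit 0) (nat_lit 0) (nat_lit 0) (nat_lit 0) (nat_lit 0) (nat_lit 0) (nat_lit 1) (nat_lit 0) (nat_lit 1) (nat_lit 0) (nat_lit 450) (nat_lit 359) (nat_lit 271))) (XT.nd (nat_lit 94) (nat_lit 0) (nat_lit 0) (XT.lf (nat_lit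 0) (nat_lit 1182571145369) (nat_lit 0) (nat_lit 0) (nat_lit 0) (nat_lit 0) (nat_lit 0) (nat_lit 0) (nat_lit 1) (nat_lit 0) (nat_lit 1) (nat_lit 0) (nat_lit 451) (nat_lit 359) (nat_lit 270)) (XT.lf (nat_lit 0) (nat_lit 1277097138203) (nat_lit 0) (nat_lit 0) (nat_lit 0) (nat_lit 0) (nat_lit 0) (nat_lit 0) (nat_lit 1) (nat_lit 0) (nat_lit 1) (nat_lit 0) (nat_lit 452) (nat_lit 359) (nat_lit 269))))) (XT.nd (nat_lit 376) (nat_lit 0) (nat_lit 0) (XT.nd (nat_lit 188) (nat_lit 0) (nat_lit 0) (XT.nd (nat_lit 94) (nat_lit 0) (nat_lit 0) (XT.lf (nat_lit 0) (nat_lit 1379185222490) (nat_lit 0) (nat_lit 0) (nat_lit 0) (nat_lit 0) (nat_lit 0) (nat_lit 0) (nat_lit 1) (nat_lit 0) (nat_lit 1) (nat_lit 0) (nat_lit 453) (nat_lit 359) (nat_lit 268)) (XT.lf (nat_lit 0) (nat_lit 1489440364656) (nat_lit 0) (nat_lit 0) (nat_lit 0) (nat_lit 0) (nat_lit 0) (nat_lit 0) (nat_lit 1) (nat_lit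 0) (nat_lit 1) (nat_lit 0) (nat_lit 454) (nat_lit 359) (nat_lit 267))) (XT.nd (nat_lit 94) (nat_lit 0) (nat_lit 0) (XT.lf (nat_lit 0) (nat_lit 1608515928507) (nat_lit 0) (nat_lit 0) (nat_lit 0) (nat_lit 0) (nat_lit 0) (nat_lit 0) (nat_lit 1) (nat_lit 0) (nat_lit 1) (nat_lit 0) (nat_lit 455) (nat_lit 359) (nat_lit 266)) (XT.lf (nat_lit 0) (nat_lit 1737117547013) (nat_lit 0) (nat_lit 0) (nat_lit 0) (nat_lit 0) (nat_lit 0) (nat_lit 0) (nat_lit 1) (nat_lit 0) (nat_lit 1) (nat_lit 0) (nat_lit 456) (nat_lit 359) (nat_lit 265)))) (XT.nd (nat_lit 188) (nat_lit 0) (nat_lit 0) (XT.nd (nat_lit 94) (nat_lit 0) (nat_lit 0) (XT.lf (nat_lit 0) (nat_lit 1876007303840) (nat_lit 0) (nat_lit 0) (nat_lit 0) (nat_lit 0) (nat_lit 0) (nat_lit 0) (nat_lit 1) (nat_lit 0) (nat_lit 1) (nat_lit 0) (nat_lit 457) (nat_lit 359) (nat_lit 264)) (XT.lf (nat_lit 0) (nat_lit 2026008249399) (nat_lit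 0) (nat_lit 0) (nat_lit 0) (nat_lit 0) (nat_lit 0) (nat_lit 0) (nat_lit 1) (nat_lit 0) (nat_lit 1) (nat_lit 0) (nat_lit 458) (nat_lit 359) (nat_lit 263))) (XT.nd (nat_lit 94) (nat_lit 0) (nat_lit 0) (XT.lf (nat_lit 0) (nat_lit 2188009278181) (nat_lit 0) (nat_lit 0) (nat_lit 0) (nat_lit 0) (nat_lit 0) (nat_lit 0) (nat_lit 1) (nat_lit 0) (nat_lit 1) (nat_lit 0) (nat_lit 459) (nat_lit 359) (nat_lit 262)) (XT.lf (nat_lit 0) (nat_lit 2362970396284) (nat_lit 0) (nat_lit 0) (nat_lit 0) (nat_lit 0) (nat_lit 0) (nat_lit 0) (nat_lit 1) (nat_lit 0) (nat_lit 1) (nat_lit 0) (nat_lit 460) (nat_lit 359) (nat_lit 261))))))))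
noncomputable def xc86 : XT := (XT.nd (nat_lit 2632) (nat_lit 0) (nat_lit 0) (XT.nd (nat_lit 1316) (nat_lit 0) (nat_lit 0) (XT.nd (nat_lit 658) (nat_lit 0) (nat_lit 0) (XT.nd (nat_lit 282) (nat_lit 0) (nat_lit 0) (XT.nd (nat_lit 94) (nat_lit 0) (nat_lit 0) (XT.lf (nat_lit 0) (nat_lit 2551928410332) (nat_lit 0) (nat_lit 0) (nat_lit 0) (nat_lit 0) (nat_lit 0) (nat_lit 0) (nat_lit 1) (nat_lit 0) (nat_lit 1) (nat_lit 0) (nat_lit 461) (nat_lit 359) (nat_lit 260)) (XT.nd (nat_lit 94) (nat_lit 0) (nat_lit 0) (XT.lf (nat_lit 0) (nat_lit 2756003071521) (nat_lit 0) (nat_lit 0) (nat_lit 0) (nat_lit 0) (nat_lit 0) (nat_lit 0) (nat_lit 1) (nat_lit 0) (nat_lit 1) (nat_lit 0) (nat_lit 462) (nat_lit 359) (nat_lit 259)) (XT.lf (nat_lit 0) (nat_lit 2976403711176) (nat_lit 0) (nat_lit 0) (nat_lit 0) (nat_lit 0) (nat_lit 0) (nat_lit 0) (nat_lit 1) (nat_lit 0) (nat_lit 1) (nat_lit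 0) (nat_lit 463) (nat_lit 359) (nat_lit 258)))) (XT.nd (nat_lit 188) (nat_lit 0) (nat_lit 0) (XT.nd (nat_lit 94) (nat_lit 0) (nat_lit 0) (XT.lf (nat_lit 0) (nat_lit 3214436407162) (nat_lit 0) (nat_lit 0) (nat_lit 0) (nat_lit 0) (nat_lit 0) (nat_lit 0) (nat_lit 1) (nat_lit 0) (nat_lit 1) (nat_lit 0) (nat_lit 464) (nat_lit 359) (nat_lit 257)) (XT.lf (nat_lit 0) (nat_lit 3471511723602) (nat_lit 0) (nat_lit 0) (nat_lit 0) (nat_lit 0) (nat_lit 0) (nat_lit 0) (nat_lit 1) (nat_lit 0) (nat_lit 1) (nat_lit 0) (nat_lit 465) (nat_lit 359) (nat_lit 256))) (XT.nd (nat_lit 94) (nat_lit 0) (nat_lit 0) (XT.lf (nat_lit 0) (nat_lit 3749153069780) (nat_lit 0) (nat_lit 0) (nat_lit 0) (nat_lit 0) (nat_lit 0) (nat_lit 0) (nat_lit 1) (nat_lit 0) (nat_lit 1) (nat_lit 0) (nat_lit 466) (nat_lit 359) (nat_lit 255)) (XT.lf (nat_lit 0) (nat_lit 4049005727747) (nat_lit 0) (nat_lit 0) (nat_lit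 0) (nat_lit 0) (nat_lit 0) (nat_lit 0) (nat_lit 1) (nat_lit 0) (nat_lit 1) (nat_lit 0) (nat_lit 467) (nat_lit 359) (nat_lit 254))))) (XT.nd (nat_lit 282) (nat_lit 0) (nat_lit 0) (XT.nd (nat_lit 94) (nat_lit 0) (nat_lit 0) (XT.lf (nat_lit 0) (nat_lit 4372846602143) (nat_lit 0) (nat_lit 0) (nat_lit 0) (nat_lit 0) (nat_lit 0) (nat_lit 0) (nat_lit 1) (nat_lit 0) (nat_lit 1) (nat_lit 0) (nat_lit 468) (nat_lit 359) (nat_lit 253)) (XT.nd (nat_lit 94) (nat_lit 0) (nat_lit 0) (XT.lf (nat_lit 0) (nat_lit 4722594750001) (nat_lit 0) (nat_lit 0) (nat_lit 0) (nat_lit 0) (nat_lit 0) (nat_lit 0) (nat_lit 1) (nat_lit 0) (nat_lit 1) (nat_lit 0) (nat_lit 469) (nat_lit 359) (nat_lit 252)) (XT.lf (nat_lit 0) (nat_lit 5100322752938) (nat_lit 0) (nat_lit 0) (nat_lit 0) (nat_lit 0) (nat_lit 0) (nat_lit 0) (nat_lit 1) (nat_lit 0) (nat_lit 1) (nat_lit 0) (nat_lit 470) (nat_lit 359)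 (nat_lit 251)))) (XT.nd (nat_lit 188) (nat_lit 0) (nat_lit 0) (XT.nd (nat_lit 94) (nat_lit 0) (nat_lit 0) (XT.lf (nat_lit 0) (nat_lit 5508268999120) (nat_lit 0) (nat_lit 0) (nat_lit 0) (nat_lit 0) (nat_lit 0) (nat_lit 0) (nat_lit 1) (nat_lit 0) (nat_lit 1) (nat_lit 0) (nat_lit 471) (nat_lit 359) (nat_lit 250)) (XT.lf (nat_lit 0) (nat_lit 5948850947783) (nat_lit 0) (nat_lit 0) (nat_lit 0) (nat_lit 0) (nat_lit 0) (nat_lit 0) (nat_lit 1) (nat_lit 0) (nat_lit 1) (nat_lit 0) (nat_lit 472) (nat_lit 359) (nat_lit 249))) (XT.nd (nat_lit 94) (nat_lit 0) (nat_lit 0) (XT.lf (nat_lit 0) (nat_lit 6424679454919) (nat_lit 0) (nat_lit 0) (nat_lit 0) (nat_lit 0) (nat_lit 0) (nat_lit 0) (nat_lit 1) (nat_lit 0) (nat_lit 1) (nat_lit 0) (nat_lit 473) (nat_lit 359) (nat_lit 248)) (XT.lf (nat_lit 0) (nat_lit 6938574245016) (nat_lit 0) (nat_lit 0) (nat_lit 0) (nat_lit 0) (nat_lit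 0) (nat_lit 0) (nat_lit 1) (nat_lit 0) (nat_lit 1) (nat_lit 0) (nat_lit 474) (nat_lit 359) (nat_lit 247)))))) (XT.nd (nat_lit 658) (nat_lit 0) (nat_lit 0) (XT.nd (nat_lit 282) (nat_lit 0) (nat_lit 0) (XT.nd (nat_lit 94) (nat_lit 0) (nat_lit 0) (XT.lf (nat_lit 0) (nat_lit 7493580620533) (nat_lit 0) (nat_lit 0) (nat_lit 0) (nat_lit 0) (nat_lit 0) (nat_lit 0) (nat_lit 1) (nat_lit 0) (nat_lit 1) (nat_lit 0) (nat_lit 475) (nat_lit 359) (nat_lit 246)) (XT.nd (nat_lit 94) (nat_lit 0) (nat_lit 0) (XT.lf (nat_lit 0) (nat_lit 8092987508139) (nat_lit 0) (nat_lit 0) (nat_lit 0) (nat_lit 0) (nat_lit 0) (nat_lit 0) (nat_lit 1) (nat_lit 0) (nat_lit 1) (nat_lit 0) (nat_lit 476) (nat_lit 359) (nat_lit 245)) (XT.lf (nat_lit 0) (nat_lit 8740346948651) (nat_lit 0) (nat_lit 0) (nat_lit 0) (nat_lit 0) (nat_lit 0) (nat_lit 0) (nat_lit 1) (nat_lit 0) (nat_lit 1) (nat_lit 0) (nat_lit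 477) (nat_lit 359) (nat_lit 244)))) (XT.nd (nat_lit 188) (nat_lit 0) (nat_lit 0) (XT.nd (nat_lit 94) (nat_lit 0) (nat_lit 0) (XT.lf (nat_lit 0) (nat_lit 9439495146160) (nat_lit 0) (nat_lit 0) (nat_lit 0) (nat_lit 0) (nat_lit 0) (nat_lit 0) (nat_lit 1) (nat_lit 0) (nat_lit 1) (nat_lit 0) (nat_lit 478) (nat_lit 359) (nat_lit 243)) (XT.lf (nat_lit 0) (nat_lit 10194575201095) (nat_lit 0) (nat_lit 0) (nat_lit 0) (nat_lit 0) (nat_lit 0) (nat_lit 0) (nat_lit 1) (nat_lit 0) (nat_lit 1) (nat_lit 0) (nat_lit 479) (nat_lit 359) (nat_lit 242))) (XT.nd (nat_lit 94) (nat_lit 0) (nat_lit 0) (XT.lf (nat_lit 0) (nat_lit 11010061661931) (nat_lit 0) (nat_lit 0) (nat_lit 0) (nat_lit 0) (nat_lit 0) (nat_lit 0) (nat_lit 1) (nat_lit 0) (nat_lit 1) (nat_lit 0) (nat_lit 480) (nat_lit 359) (nat_lit 241)) (XT.lf (nat_lit 0) (nat_lit 11890787041028) (nat_lit 0) (nat_lit 0) (nat_lit 0)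 (nat_lit 0) (nat_lit 0) (nat_lit 0) (nat_lit 1) (nat_lit 0) (nat_lit 1) (nat_lit 0) (nat_lit 481) (nat_lit 359) (nat_lit 240))))) (XT.nd (nat_lit 282) (nat_lit 0) (nat_lit 0) (XT.nd (nat_lit 94) (nat_lit 0) (nat_lit 0) (XT.lf (nat_lit 0) (nat_lit 12841970451744) (nat_lit 0) (nat_lit 0) (nat_lit 0) (nat_lit 0) (nat_lit 0) (nat_lit 0) (nat_lit 1) (nat_lit 0) (nat_lit 1) (nat_lit 0) (nat_lit 482) (nat_lit 359) (nat_lit 239)) (XT.nd (nat_lit 94) (nat_lit 0) (nat_lit 0) (XT.lf (nat_lit 0) (nat_lit 13869248536512) (nat_lit 0) (nat_lit 0) (nat_lit 0) (nat_lit 0) (nat_lit 0) (nat_lit 0) (nat_lit 1) (nat_lit 0) (nat_lit 1) (nat_lit 0) (nat_lit 483) (nat_lit 359) (nat_lit 238)) (XT.lf (nat_lit 0) (nat_lit 14978708869168) (nat_lit 0) (nat_lit 0) (nat_lit 0) (nat_lit 0) (nat_lit 0) (nat_lit 0) (nat_lit 1) (nat_lit 0) (nat_lit 1) (nat_lit 0) (nat_lit 484) (nat_lit 359)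 (nat_lit 237)))) (XT.nd (nat_lit 188) (nat_lit 0) (nat_lit 0) (XT.nd (nat_lit 94) (nat_lit 0) (nat_lit 0) (XT.lf (nat_lit 0) (nat_lit 16176926029461) (nat_lit 0) (nat_lit 0) (nat_lit 0) (nat_lit 0) (nat_lit 0) (nat_lit 0) (nat_lit 1) (nat_lit 0) (nat_lit 1) (nat_lit 0) (nat_lit 485) (nat_lit 359) (nat_lit 236)) (XT.lf (nat_lit 0) (nat_lit 17471000563527) (nat_lit 0) (nat_lit 0) (nat_lit 0) (nat_lit 0) (nat_lit 0) (nat_lit 0) (nat_lit 1) (nat_lit 0) (nat_lit 1) (nat_lit 0) (nat_lit 486) (nat_lit 359) (nat_lit 235))) (XT.nd (nat_lit 94) (nat_lit 0) (nat_lit 0) (XT.lf (nat_lit 0) (nat_lit 18868601061196) (nat_lit 0) (nat_lit 0) (nat_lit 0) (nat_lit 0) (nat_lit 0) (nat_lit 0) (nat_lit 1) (nat_lit 0) (nat_lit 1) (nat_lit 0) (nat_lit 487) (nat_lit 359) (nat_lit 234)) (XT.lf (nat_lit 0) (nat_lit 20378009599492) (nat_lit 0) (nat_lit 0) (nat_lit 0) (nat_lit 0) (nat_lit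 0) (nat_lit 0) (nat_lit 1) (nat_lit 0) (nat_lit 1) (nat_lit 0) (nat_lit 488) (nat_lit 359) (nat_lit 233))))))) (XT.nd (nat_lit 56306) (nat_lit 0) (nat_lit 6300) (XT.nd (nat_lit 55648) (nat_lit 0) (nat_lit 14112) (XT.nd (nat_lit 282) (nat_lit 0) (nat_lit 0) (XT.nd (nat_lit 94) (nat_lit 0) (nat_lit 0) (XT.lf (nat_lit 0) (nat_lit 22008170821605) (nat_lit 0) (nat_lit 0) (nat_lit 0) (nat_lit 0) (nat_lit 0) (nat_lit 0) (nat_lit 1) (nat_lit 0) (nat_lit 1) (nat_lit 0) (nat_lit 489) (nat_lit 359) (nat_lit 232)) (XT.nd (nat_lit 94) (nat_lit 0) (nat_lit 0) (XT.lf (nat_lit 0) (nat_lit 23768744942185) (nat_lit 0) (nat_lit 0) (nat_lit 0) (nat_lit 0) (nat_lit 0) (nat_lit 0) (nat_lit 1) (nat_lit 0) (nat_lit 1) (nat_lit 0) (nat_lit 490) (nat_lit 359) (nat_lit 231)) (XT.lf (nat_lit 0) (nat_lit 25670164993057) (nat_lit 0) (nat_lit 0) (nat_lit 0) (nat_lit 0) (nat_lit 0) (nat_lit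 0) (nat_lit 1) (nat_lit 0) (nat_lit 1) (nat_lit 0) (nat_lit 491) (nat_lit 359) (nat_lit 230)))) (XT.nd (nat_lit 188) (nat_lit 0) (nat_lit 0) (XT.nd (nat_lit 94) (nat_lit 0) (nat_lit 0) (XT.lf (nat_lit 0) (nat_lit 27723698648596) (nat_lit 0) (nat_lit 0) (nat_lit 0) (nat_lit 0) (nat_lit 0) (nat_lit 0) (nat_lit 1) (nat_lit 0) (nat_lit 1) (nat_lit 0) (nat_lit 492) (nat_lit 359) (nat_lit 229)) (XT.lf (nat_lit 0) (nat_lit 29941514997132) (nat_lit 0) (nat_lit 0) (nat_lit 0) (nat_lit 0) (nat_lit 0) (nat_lit 0) (nat_lit 1) (nat_lit 0) (nat_lit 1) (nat_lit 0) (nat_lit 493) (nat_lit 359) (nat_lit 228))) (XT.nd (nat_lit 94) (nat_lit 0) (nat_lit 0) (XT.lf (nat_lit 0) (nat_lit 32336756654064) (nat_lit 0) (nat_lit 0) (nat_lit 0) (nat_lit 0) (nat_lit 0) (nat_lit 0) (nat_lit 1) (nat_lit 0) (nat_lit 1) (nat_lit 0) (nat_lit 494) (nat_lit 359) (nat_lit 227)) (XT.lf (nat_lit 0)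 (nat_lit 34923617644025) (nat_lit 0) (nat_lit 0) (nat_lit 0) (nat_lit 0) (nat_lit 0) (nat_lit 0) (nat_lit 1) (nat_lit 0) (nat_lit 1) (nat_lit 0) (nat_lit 495) (nat_lit 359) (nat_lit 226))))) (XT.nd (nat_lit 282) (nat_lit 1428) (nat_lit 0) (XT.nd (nat_lit 94) (nat_lit 252) (nat_lit 0) (XT.lf (nat_lit 0) (nat_lit 1073741823) (nat_lit 0) (nat_lit 0) (nat_lit 0) (nat_lit 0) (nat_lit 188) (nat_lit 0) (nat_lit 1) (nat_lit 0) (nat_lit 1) (nat_lit 0) (nat_lit 360) (nat_lit 360) (nat_lit 360)) (XT.nd (nat_lit 94) (nat_lit 168) (nat_lit 0) (XT.lf (nat_lit 0) (nat_lit 4981849133) (nat_lit 84) (nat_lit 1259544143) (nat_lit 0) (nat_lit 209663248) (nat_lit 187) (nat_lit 5) (nat_lit 188) (nat_lit 0) (nat_lit 187) (nat_lit 4) (nat_lit 361) (nat_lit 360) (nat_lit 359)) (XT.lf (nat_lit 0) (nat_lit 3341271051) (nat_lit 168) (nat_lit 2341270862) (nat_lit 84) (nat_lit 796549640)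 (nat_lit 185) (nat_lit 5) (nat_lit 187) (nat_lit 5) (nat_lit 186) (nat_lit 4) (nat_lit 362) (nat_lit 360) (nat_lit 358)))) (XT.nd (nat_lit 188) (nat_lit 924) (nat_lit 0) (XT.nd (nat_lit 94) (nat_lit 252) (nat_lit 0) (XT.lf (nat_lit 0) (nat_lit 1512450366) (nat_lit 252) (nat_lit 3249312669) (nat_lit 84) (nat_lit 1764919981) (nat_lit 182) (nat_lit 5) (nat_lit 185) (nat_lit 5) (nat_lit 183) (nat_lit 5) (nat_lit 363) (nat_lit 360) (nat_lit 357)) (XT.lf (nat_lit 0) (nat_lit 2598868827) (nat_lit 252) (nat_lit 3463498392) (nat_lit 336) (nat_lit 531264680) (nat_lit 179) (nat_lit 5) (nat_lit 182) (nat_lit 5) (nat_lit 183) (nat_lit 5) (nat_lit 364) (nat_lit 360) (nat_lit 356))) (XT.nd (nat_lit 94) (nat_lit 504) (nat_lit 0) (XT.lf (nat_lit 0) (nat_lit 2080716936) (nat_lit 336) (nat_lit 1757697264) (nat_lit 420) (nat_lit 2840856104) (nat_lit 174) (nat_lit 5) (nat_lit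 178) (nat_lit 5) (nat_lit 179) (nat_lit 5) (nat_lit 365) (nat_lit 360) (nat_lit 355)) (XT.lf (nat_lit 0) (nat_lit 1411289037) (nat_lit 504) (nat_lit 5041951787) (nat_lit 84) (nat_lit 331696669) (nat_lit 168) (nat_lit 5) (nat_lit 174) (nat_lit 5) (nat_lit 169) (nat_lit 5) (nat_lit 366) (nat_lit 360) (nat_lit 354)))))) (XT.nd (nat_lit 658) (nat_lit 3192) (nat_lit 0) (XT.nd (nat_lit 282) (nat_lit 2772) (nat_lit 0) (XT.nd (nat_lit 94) (nat_lit 1344) (nat_lit 0) (XT.lf (nat_lit 0) (nat_lit 1536869410) (nat_lit 504) (nat_lit 4127461191) (nat_lit 588) (nat_lit 1244386155) (nat_lit 162) (nat_lit 5) (nat_lit 168) (nat_lit 5) (nat_lit 169) (nat_lit 5) (nat_lit 367) (nat_lit 360) (nat_lit 353)) (XT.nd (nat_lit 94) (nat_lit 672) (nat_lit 0) (XT.lf (nat_lit 0) (nat_lit 1486443954) (nat_lit 588) (nat_lit 1379897224) (nat_lit 672) (nat_lit 4185845702) (nat_lit 154) (nat_lit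 5) (nat_lit 161) (nat_lit 5) (nat_lit 162) (nat_lit 5) (nat_lit 368) (nat_lit 360) (nat_lit 352)) (XT.lf (nat_lit 0) (nat_lit 1587835801) (nat_lit 672) (nat_lit 5484350579) (nat_lit 756) (nat_lit 143435400) (nat_lit 146) (nat_lit 5) (nat_lit 154) (nat_lit 5) (nat_lit 155) (nat_lit 5) (nat_lit 369) (nat_lit 360) (nat_lit 351)))) (XT.nd (nat_lit 188) (nat_lit 1008) (nat_lit 0) (XT.nd (nat_lit 94) (nat_lit 924) (nat_lit 0) (XT.lf (nat_lit 0) (nat_lit 1795795205) (nat_lit 756) (nat_lit 2121090559) (nat_lit 840) (nat_lit 3480466549) (nat_lit 136) (nat_lit 5) (nat_lit 145) (nat_lit 5) (nat_lit 146) (nat_lit 5) (nat_lit 370) (nat_lit 360) (nat_lit 350)) (XT.lf (nat_lit 0) (nat_lit 535183609) (nat_lit 924) (nat_lit 5440527510) (nat_lit 84) (nat_lit 1624533592) (nat_lit 125) (nat_lit 5) (nat_lit 136) (nat_lit 5) (nat_lit 126) (nat_lit 5) (nat_lit 371) (nat_lit 360)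 (nat_lit 349))) (XT.nd (nat_lit 94) (nat_lit 504) (nat_lit 0) (XT.lf (nat_lit 0) (nat_lit 2620190102) (nat_lit 504) (nat_lit 2019995885) (nat_lit 588) (nat_lit 3181827732) (nat_lit 119) (nat_lit 5) (nat_lit 125) (nat_lit 5) (nat_lit 126) (nat_lit 5) (nat_lit 372) (nat_lit 360) (nat_lit 348)) (XT.lf (nat_lit 0) (nat_lit 889466023) (nat_lit 504) (nat_lit 4845818236) (nat_lit 84) (nat_lit 2329960226) (nat_lit 113) (nat_lit 5) (nat_lit 119) (nat_lit 5) (nat_lit 114) (nat_lit 5) (nat_lit 373) (nat_lit 360) (nat_lit 347))))) (XT.nd (nat_lit 376) (nat_lit 1596) (nat_lit 0) (XT.nd (nat_lit 188) (nat_lit 756) (nat_lit 0) (XT.nd (nat_lit 94) (nat_lit 420) (nat_lit 0) (XT.lf (nat_lit 0) (nat_lit 3921747061) (nat_lit 420) (nat_lit 1182840104) (nat_lit 504) (nat_lit 3224258510) (nat_lit 108) (nat_lit 5) (nat_lit 113) (nat_lit 5) (nat_lit 114) (nat_lit 5) (nat_lit 374)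 (nat_lit 360) (nat_lit 346)) (XT.lf (nat_lit 0) (nat_lit 982949438) (nat_lit 420) (nat_lit 3874040029) (nat_lit 84) (nat_lit 3757082928) (nat_lit 103) (nat_lit 5) (nat_lit 108) (nat_lit 5) (nat_lit 104) (nat_lit 5) (nat_lit 375) (nat_lit 360) (nat_lit 345))) (XT.nd (nat_lit 94) (nat_lit 420) (nat_lit 0) (XT.lf (nat_lit 0) (nat_lit 5371844521) (nat_lit 420) (nat_lit 3247947677) (nat_lit 84) (nat_lit 301778580) (nat_lit 99) (nat_lit 5) (nat_lit 104) (nat_lit 5) (nat_lit 100) (nat_lit 5) (nat_lit 376) (nat_lit 360) (nat_lit 344)) (XT.lf (nat_lit 0) (nat_lit 864089441) (nat_lit 420) (nat_lit 2544044179) (nat_lit 84) (nat_lit 5843196757) (nat_lit 94) (nat_lit 5) (nat_lit 99) (nat_lit 5) (nat_lit 95) (nat_lit 5) (nat_lit 377) (nat_lit 360) (nat_lit 343)))) (XT.nd (nat_lit 188) (nat_lit 924) (nat_lit 0) (XT.nd (nat_lit 94) (nat_lit 336) (nat_lit 0) (XT.lf (nat_lit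 0) (nat_lit 5512713897) (nat_lit 420) (nat_lit 1760036144) (nat_lit 84) (nat_lit 2331507661) (nat_lit 90) (nat_lit 5) (nat_lit 95) (nat_lit 5) (nat_lit 91) (nat_lit 5) (nat_lit 378) (nat_lit 360) (nat_lit 342)) (XT.lf (nat_lit 0) (nat_lit 572913444) (nat_lit 336) (nat_lit 862483866) (nat_lit 84) (nat_lit 8547462378) (nat_lit 86) (nat_lit 5) (nat_lit 90) (nat_lit 5) (nat_lit 87) (nat_lit 5) (nat_lit 379) (nat_lit 360) (nat_lit 341))) (XT.nd (nat_lit 94) (nat_lit 336) (nat_lit 0) (XT.lf (nat_lit 0) (nat_lit 77126794) (nat_lit 252) (nat_lit 5472804350) (nat_lit 336) (nat_lit 4834327381) (nat_lit 79) (nat_lit 5) (nat_lit 82) (nat_lit 5) (nat_lit 83) (nat_lit 5) (nat_lit 380) (nat_lit 360) (nat_lit 340)) (XT.lf (nat_lit 0) (nat_lit 178108589) (nat_lit 336) (nat_lit 9617342085) (nat_lit 84) (nat_lit 1018524643) (nat_lit 75) (nat_lit 5) (nat_lit 79) (nat_lit 5) (nat_lit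 76) (nat_lit 5) (nat_lit 381) (nat_lit 360) (nat_lit 339))))))))
noncomputable def xc87 : XT := (XT.nd (nat_lit 2632) (nat_lit 1176) (nat_lit 0) (XT.nd (nat_lit 1316) (nat_lit 2100) (nat_lit 0) (XT.nd (nat_lit 658) (nat_lit 1344) (nat_lit 0) (XT.nd (nat_lit 282) (nat_lit 924) (nat_lit 0) (XT.nd (nat_lit 94) (nat_lit 504) (nat_lit 0) (XT.lf (nat_lit 0) (nat_lit 2341035732) (nat_lit 252) (nat_lit 3210075897) (nat_lit 336) (nat_lit 5716548086) (nat_lit 72) (nat_lit 5) (nat_lit 75) (nat_lit 5) (nat_lit 76) (nat_lit 5) (nat_lit 382) (nat_lit 360) (nat_lit 338)) (XT.nd (nat_lit 94) (nat_lit 252) (nat_lit 0) (XT.lf (nat_lit 0) (nat_lit 3630639996) (nat_lit 252) (nat_lit 7834699852) (nat_lit 336) (nat_lit 286729770) (nat_lit 69) (nat_lit 5) (nat_lit 72) (nat_lit 5) (nat_lit 73) (nat_lit 5) (nat_lit 383) (nat_lit 360) (nat_lit 337)) (XT.lf (nat_lit 0) (nat_lit 4993925787)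 (nat_lit 168) (nat_lit 524943168) (nat_lit 252) (nat_lit 6746013911) (nat_lit 66) (nat_lit 5) (nat_lit 68) (nat_lit 5) (nat_lit 69) (nat_lit 5) (nat_lit 384) (nat_lit 360) (nat_lit 336)))) (XT.nd (nat_lit 188) (nat_lit 420) (nat_lit 0) (XT.nd (nat_lit 94) (nat_lit 252) (nat_lit 0) (XT.lf (nat_lit 0) (nat_lit 6460413421) (nat_lit 252) (nat_lit 5515261447) (nat_lit 336) (nat_lit 832971036) (nat_lit 63) (nat_lit 5) (nat_lit 66) (nat_lit 5) (nat_lit 67) (nat_lit 5) (nat_lit 385) (nat_lit 360) (nat_lit 335)) (XT.lf (nat_lit 0) (nat_lit 5521845308) (nat_lit 252) (nat_lit 5360608339) (nat_lit 84) (nat_lit 2501798134) (nat_lit 60) (nat_lit 5) (nat_lit 63) (nat_lit 5) (nat_lit 61) (nat_lit 5) (nat_lit 386) (nat_lit 360) (nat_lit 334))) (XT.nd (nat_lit 94) (nat_lit 252) (nat_lit 0) (XT.lf (nat_lit 0) (nat_lit 9724152147) (nat_lit 168) (nat_lit 2838293300) (nat_lit 252)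 (nat_lit 1432448830) (nat_lit 58) (nat_lit 5) (nat_lit 60) (nat_lit 5) (nat_lit 61) (nat_lit 5) (nat_lit 387) (nat_lit 360) (nat_lit 333)) (XT.lf (nat_lit 0) (nat_lit 5561277298) (nat_lit 252) (nat_lit 3142098965) (nat_lit 84) (nat_lit 5935419732) (nat_lit 55) (nat_lit 5) (nat_lit 58) (nat_lit 5) (nat_lit 56) (nat_lit 5) (nat_lit 388) (nat_lit 360) (nat_lit 332))))) (XT.nd (nat_lit 282) (nat_lit 672) (nat_lit 0) (XT.nd (nat_lit 94) (nat_lit 504) (nat_lit 0) (XT.lf (nat_lit 0) (nat_lit 13261735961) (nat_lit 252) (nat_lit 1859892523) (nat_lit 84) (nat_lit 201536205) (nat_lit 53) (nat_lit 5) (nat_lit 56) (nat_lit 5) (nat_lit 54) (nat_lit 4) (nat_lit 389) (nat_lit 360) (nat_lit 331)) (XT.nd (nat_lit 94) (nat_lit 252) (nat_lit 0) (XT.lf (nat_lit 0) (nat_lit 5655038161) (nat_lit 252) (nat_lit 571117742) (nat_lit 84) (nat_lit 9816039277) (nat_lit 50) (nat_lit 5)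 (nat_lit 53) (nat_lit 5) (nat_lit 51) (nat_lit 5) (nat_lit 390) (nat_lit 360) (nat_lit 330)) (XT.lf (nat_lit 0) (nat_lit 906834339) (nat_lit 84) (nat_lit 13261269488) (nat_lit 168) (nat_lit 2636379397) (nat_lit 47) (nat_lit 5) (nat_lit 48) (nat_lit 5) (nat_lit 49) (nat_lit 4) (nat_lit 391) (nat_lit 360) (nat_lit 329)))) (XT.nd (nat_lit 188) (nat_lit 336) (nat_lit 0) (XT.nd (nat_lit 94) (nat_lit 84) (nat_lit 0) (XT.lf (nat_lit 0) (nat_lit 2476128869) (nat_lit 168) (nat_lit 3391805493) (nat_lit 252) (nat_lit 11739492776) (nat_lit 44) (nat_lit 5) (nat_lit 46) (nat_lit 5) (nat_lit 47) (nat_lit 5) (nat_lit 392) (nat_lit 360) (nat_lit 328)) (XT.lf (nat_lit 0) (nat_lit 4168997498) (nat_lit 84) (nat_lit 11125788079) (nat_lit 168) (nat_lit 3160932108) (nat_lit 43) (nat_lit 5) (nat_lit 44) (nat_lit 5) (nat_lit 45) (nat_lit 4) (nat_lit 393) (nat_lit 360) (nat_lit 327)))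 (XT.nd (nat_lit 94) (nat_lit 84) (nat_lit 0) (XT.lf (nat_lit 0) (nat_lit 6007579695) (nat_lit 168) (nat_lit 197151213) (nat_lit 252) (nat_lit 13147566566) (nat_lit 40) (nat_lit 5) (nat_lit 42) (nat_lit 5) (nat_lit 43) (nat_lit 5) (nat_lit 394) (nat_lit 360) (nat_lit 326)) (XT.lf (nat_lit 0) (nat_lit 7925002778) (nat_lit 84) (nat_lit 8724810680) (nat_lit 168) (nat_lit 3646153753) (nat_lit 39) (nat_lit 5) (nat_lit 40) (nat_lit 5) (nat_lit 41) (nat_lit 4) (nat_lit 395) (nat_lit 360) (nat_lit 325)))))) (XT.nd (nat_lit 658) (nat_lit 924) (nat_lit 0) (XT.nd (nat_lit 282) (nat_lit 588) (nat_lit 0) (XT.nd (nat_lit 94) (nat_lit 336) (nat_lit 0) (XT.lf (nat_lit 0) (nat_lit 6738498106) (nat_lit 252) (nat_lit 11279351206) (nat_lit 84) (nat_lit 3275374027) (nat_lit 36) (nat_lit 5) (nat_lit 39) (nat_lit 5) (nat_lit 37) (nat_lit 4) (nat_lit 396) (nat_lit 360) (nat_lit 324))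 (XT.nd (nat_lit 94) (nat_lit 252) (nat_lit 0) (XT.lf (nat_lit 0) (nat_lit 12244898342) (nat_lit 84) (nat_lit 6029419490) (nat_lit 168) (nat_lit 4070546516) (nat_lit 35) (nat_lit 5) (nat_lit 36) (nat_lit 5) (nat_lit 37) (nat_lit 4) (nat_lit 397) (nat_lit 360) (nat_lit 323)) (XT.lf (nat_lit 0) (nat_lit 7457986214) (nat_lit 252) (nat_lit 8837257329) (nat_lit 84) (nat_lit 7157844570) (nat_lit 32) (nat_lit 5) (nat_lit 35) (nat_lit 5) (nat_lit 33) (nat_lit 4) (nat_lit 398) (nat_lit 360) (nat_lit 322)))) (XT.nd (nat_lit 188) (nat_lit 252) (nat_lit 0) (XT.nd (nat_lit 94) (nat_lit 252) (nat_lit 0) (XT.lf (nat_lit 0) (nat_lit 17209809091) (nat_lit 84) (nat_lit 3003524319) (nat_lit 168) (nat_lit 4410942658) (nat_lit 31) (nat_lit 5) (nat_lit 32) (nat_lit 5) (nat_lit 33) (nat_lit 4) (nat_lit 399) (nat_lit 360) (nat_lit 321)) (XT.lf (nat_lit 0) (nat_lit 8395753814) (nat_lit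 252) (nat_lit 5951951316) (nat_lit 84) (nat_lit 11507378110) (nat_lit 28) (nat_lit 5) (nat_lit 31) (nat_lit 5) (nat_lit 29) (nat_lit 4) (nat_lit 400) (nat_lit 360) (nat_lit 320))) (XT.nd (nat_lit 94) (nat_lit 168) (nat_lit 0) (XT.lf (nat_lit 0) (nat_lit 22522822199) (nat_lit 168) (nat_lit 4251659457) (nat_lit 0) (nat_lit 383739096) (nat_lit 27) (nat_lit 5) (nat_lit 29) (nat_lit 4) (nat_lit 27) (nat_lit 4) (nat_lit 401) (nat_lit 360) (nat_lit 319)) (XT.lf (nat_lit 0) (nat_lit 9591329645) (nat_lit 168) (nat_lit 2549864933) (nat_lit 84) (nat_lit 16383631385) (nat_lit 25) (nat_lit 5) (nat_lit 27) (nat_lit 5) (nat_lit 26) (nat_lit 4) (nat_lit 402) (nat_lit 360) (nat_lit 318))))) (XT.nd (nat_lit 282) (nat_lit 504) (nat_lit 0) (XT.nd (nat_lit 94) (nat_lit 336) (nat_lit 0) (XT.lf (nat_lit 0) (nat_lit 25305521989) (nat_lit 168) (nat_lit 579082428) (nat_lit 0) (nat_lit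 4086769284) (nat_lit 24) (nat_lit 5) (nat_lit 26) (nat_lit 4) (nat_lit 24) (nat_lit 4) (nat_lit 403) (nat_lit 360) (nat_lit 317)) (XT.nd (nat_lit 94) (nat_lit 84) (nat_lit 0) (XT.lf (nat_lit 0) (nat_lit 1501956952) (nat_lit 84) (nat_lit 9610394914) (nat_lit 168) (nat_lit 20377256962) (nat_lit 21) (nat_lit 5) (nat_lit 22) (nat_lit 5) (nat_lit 23) (nat_lit 4) (nat_lit 404) (nat_lit 360) (nat_lit 316)) (XT.lf (nat_lit 0) (nat_lit 3864797413) (nat_lit 84) (nat_lit 24772968149) (nat_lit 84) (nat_lit 4455291610) (nat_lit 20) (nat_lit 4) (nat_lit 21) (nat_lit 5) (nat_lit 21) (nat_lit 4) (nat_lit 405) (nat_lit 360) (nat_lit 315)))) (XT.nd (nat_lit 188) (nat_lit 252) (nat_lit 0) (XT.nd (nat_lit 94) (nat_lit 84) (nat_lit 0) (XT.lf (nat_lit 0) (nat_lit 6360414387) (nat_lit 84) (nat_lit 6677031778) (nat_lit 168) (nat_lit 21742150098) (nat_lit 18) (nat_lit 5) (nat_lit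 19) (nat_lit 5) (nat_lit 20) (nat_lit 4) (nat_lit 406) (nat_lit 360) (nat_lit 314)) (XT.lf (nat_lit 0) (nat_lit 9104618747) (nat_lit 84) (nat_lit 23446672524) (nat_lit 84) (nat_lit 4007226329) (nat_lit 17) (nat_lit 4) (nat_lit 18) (nat_lit 5) (nat_lit 18) (nat_lit 4) (nat_lit 407) (nat_lit 360) (nat_lit 313))) (XT.nd (nat_lit 94) (nat_lit 84) (nat_lit 0) (XT.lf (nat_lit 0) (nat_lit 12056648333) (nat_lit 84) (nat_lit 3326686913) (nat_lit 168) (nat_lit 23048512130) (nat_lit 15) (nat_lit 5) (nat_lit 16) (nat_lit 5) (nat_lit 17) (nat_lit 4) (nat_lit 408) (nat_lit 360) (nat_lit 312)) (XT.lf (nat_lit 0) (nat_lit 15244557620) (nat_lit 84) (nat_lit 21873593082) (nat_lit 84) (nat_lit 3286938088) (nat_lit 14) (nat_lit 4) (nat_lit 15) (nat_lit 5) (nat_lit 15) (nat_lit 4) (nat_lit 409) (nat_lit 360) (nat_lit 311))))))) (XT.nd (nat_lit 1316) (nat_lit 0) (nat_lit 0) (XT.nd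 (nat_lit 658) (nat_lit 252) (nat_lit 0) (XT.nd (nat_lit 282) (nat_lit 504) (nat_lit 0) (XT.nd (nat_lit 94) (nat_lit 252) (nat_lit 0) (XT.lf (nat_lit 0) (nat_lit 18223399555) (nat_lit 168) (nat_lit 23770490473) (nat_lit 0) (nat_lit 490918171) (nat_lit 12) (nat_lit 5) (nat_lit 14) (nat_lit 4) (nat_lit 12) (nat_lit 4) (nat_lit 410) (nat_lit 360) (nat_lit 310)) (XT.nd (nat_lit 94) (nat_lit 168) (nat_lit 0) (XT.lf (nat_lit 0) (nat_lit 22425448965) (nat_lit 84) (nat_lit 20004662021) (nat_lit 84) (nat_lit 2243564710) (nat_lit 11) (nat_lit 4) (nat_lit 12) (nat_lit 5) (nat_lit 12) (nat_lit 4) (nat_lit 411) (nat_lit 360) (nat_lit 309)) (XT.lf (nat_lit 0) (nat_lit 21684590021) (nat_lit 168) (nat_lit 20550318170) (nat_lit 0) (nat_lit 4744024746) (nat_lit 9) (nat_lit 5) (nat_lit 11) (nat_lit 4) (nat_lit 9) (nat_lit 4) (nat_lit 412) (nat_lit 360) (nat_lit 308)))) (XT.nd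 (nat_lit 188) (nat_lit 252) (nat_lit 0) (XT.nd (nat_lit 94) (nat_lit 168) (nat_lit 0) (XT.lf (nat_lit 0) (nat_lit 30807876486) (nat_lit 84) (nat_lit 17782854483) (nat_lit 84) (nat_lit 818923929) (nat_lit 8) (nat_lit 4) (nat_lit 9) (nat_lit 5) (nat_lit 9) (nat_lit 4) (nat_lit 413) (nat_lit 360) (nat_lit 307)) (XT.lf (nat_lit 0) (nat_lit 25800483889) (nat_lit 168) (nat_lit 16540310742) (nat_lit 0) (nat_lit 9623755248) (nat_lit 6) (nat_lit 5) (nat_lit 8) (nat_lit 4) (nat_lit 6) (nat_lit 4) (nat_lit 414) (nat_lit 360) (nat_lit 306))) (XT.nd (nat_lit 94) (nat_lit 84) (nat_lit 0) (XT.lf (nat_lit 0) (nat_lit 1019859867) (nat_lit 168) (nat_lit 14105093972) (nat_lit 84) (nat_lit 39537579710) (nat_lit 4) (nat_lit 5) (nat_lit 6) (nat_lit 5) (nat_lit 5) (nat_lit 4) (nat_lit 415) (nat_lit 360) (nat_lit 305)) (XT.lf (nat_lit 0) (nat_lit 30668130819) (nat_lit 168) (nat_lit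 11599735190) (nat_lit 0) (nat_lit 15226729325) (nat_lit 3) (nat_lit 5) (nat_lit 5) (nat_lit 4) (nat_lit 3) (nat_lit 4) (nat_lit 416) (nat_lit 360) (nat_lit 304))))) (XT.nd (nat_lit 282) (nat_lit 0) (nat_lit 0) (XT.nd (nat_lit 94) (nat_lit 84) (nat_lit 0) (XT.lf (nat_lit 0) (nat_lit 3339757563) (nat_lit 168) (nat_lit 8610475974) (nat_lit 84) (nat_lit 48537669284) (nat_lit 1) (nat_lit 5) (nat_lit 3) (nat_lit 5) (nat_lit 2) (nat_lit 4) (nat_lit 417) (nat_lit 360) (nat_lit 303)) (XT.nd (nat_lit 94) (nat_lit 0) (nat_lit 0) (XT.lf (nat_lit 0) (nat_lit 94299368554) (nat_lit 0) (nat_lit 0) (nat_lit 0) (nat_lit 0) (nat_lit 0) (nat_lit 0) (nat_lit 1) (nat_lit 0) (nat_lit 1) (nat_lit 0) (nat_lit 418) (nat_lit 360) (nat_lit 302)) (XT.lf (nat_lit 0) (nat_lit 101755513006) (nat_lit 0) (nat_lit 0) (nat_lit 0) (nat_lit 0) (nat_lit 0) (nat_lit 0) (nat_lit 1) (nat_lit 0) (nat_lit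 1) (nat_lit 0) (nat_lit 419) (nat_lit 360) (nat_lit 301)))) (XT.nd (nat_lit 188) (nat_lit 0) (nat_lit 0) (XT.nd (nat_lit 94) (nat_lit 0) (nat_lit 0) (XT.lf (nat_lit 0) (nat_lit 109808290175) (nat_lit 0) (nat_lit 0) (nat_lit 0) (nat_lit 0) (nat_lit 0) (nat_lit 0) (nat_lit 1) (nat_lit 0) (nat_lit 1) (nat_lit 0) (nat_lit 420) (nat_lit 360) (nat_lit 300)) (XT.lf (nat_lit 0) (nat_lit 118505420224) (nat_lit 0) (nat_lit 0) (nat_lit 0) (nat_lit 0) (nat_lit 0) (nat_lit 0) (nat_lit 1) (nat_lit 0) (nat_lit 1) (nat_lit 0) (nat_lit 421) (nat_lit 360) (nat_lit 299))) (XT.nd (nat_lit 94) (nat_lit 0) (nat_lit 0) (XT.lf (nat_lit 0) (nat_lit 127898441700) (nat_lit 0) (nat_lit 0) (nat_lit 0) (nat_lit 0) (nat_lit 0) (nat_lit 0) (nat_lit 1) (nat_lit 0) (nat_lit 1) (nat_lit 0) (nat_lit 422) (nat_lit 360) (nat_lit 298)) (XT.lf (nat_lit 0) (nat_lit 138043016953) (nat_lit 0) (nat_lit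 0) (nat_lit 0) (nat_lit 0) (nat_lit 0) (nat_lit 0) (nat_lit 1) (nat_lit 0) (nat_lit 1) (nat_lit 0) (nat_lit 423) (nat_lit 360) (nat_lit 297)))))) (XT.nd (nat_lit 658) (nat_lit 0) (nat_lit 0) (XT.nd (nat_lit 282) (nat_lit 0) (nat_lit 0) (XT.nd (nat_lit 94) (nat_lit 0) (nat_lit 0) (XT.lf (nat_lit 0) (nat_lit 148999261984) (nat_lit 0) (nat_lit 0) (nat_lit 0) (nat_lit 0) (nat_lit 0) (nat_lit 0) (nat_lit 1) (nat_lit 0) (nat_lit 1) (nat_lit 0) (nat_lit 424) (nat_lit 360) (nat_lit 296)) (XT.nd (nat_lit 94) (nat_lit 0) (nat_lit 0) (XT.lf (nat_lit 0) (nat_lit 160832102691) (nat_lit 0) (nat_lit 0) (nat_lit 0) (nat_lit 0) (nat_lit 0) (nat_lit 0) (nat_lit 1) (nat_lit 0) (nat_lit 1) (nat_lit 0) (nat_lit 425) (nat_lit 360) (nat_lit 295)) (XT.lf (nat_lit 0) (nat_lit 173611659610) (nat_lit 0) (nat_lit 0) (nat_lit 0) (nat_lit 0) (nat_lit 0) (nat_lit 0) (nat_lit 1) (nat_lit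 0) (nat_lit 1) (nat_lit 0) (nat_lit 426) (nat_lit 360) (nat_lit 294)))) (XT.nd (nat_lit 188) (nat_lit 0) (nat_lit 0) (XT.nd (nat_lit 94) (nat_lit 0) (nat_lit 0) (XT.lf (nat_lit 0) (nat_lit 187413663450) (nat_lit 0) (nat_lit 0) (nat_lit 0) (nat_lit 0) (nat_lit 0) (nat_lit 0) (nat_lit 1) (nat_lit 0) (nat_lit 1) (nat_lit 0) (nat_lit 427) (nat_lit 360) (nat_lit 293)) (XT.lf (nat_lit 0) (nat_lit 202319903862) (nat_lit 0) (nat_lit 0) (nat_lit 0) (nat_lit 0) (nat_lit 0) (nat_lit 0) (nat_lit 1) (nat_lit 0) (nat_lit 1) (nat_lit 0) (nat_lit 428) (nat_lit 360) (nat_lit 292))) (XT.nd (nat_lit 94) (nat_lit 0) (nat_lit 0) (XT.lf (nat_lit 0) (nat_lit 218418714123) (nat_lit 0) (nat_lit 0) (nat_lit 0) (nat_lit 0) (nat_lit 0) (nat_lit 0) (nat_lit 1) (nat_lit 0) (nat_lit 1) (nat_lit 0) (nat_lit 429) (nat_lit 360) (nat_lit 291)) (XT.lf (nat_lit 0) (nat_lit 235805494590) (nat_lit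 0) (nat_lit 0) (nat_lit 0) (nat_lit 0) (nat_lit 0) (nat_lit 0) (nat_lit 1) (nat_lit 0) (nat_lit 1) (nat_lit 0) (nat_lit 430) (nat_lit 360) (nat_lit 290))))) (XT.nd (nat_lit 376) (nat_lit 0) (nat_lit 0) (XT.nd (nat_lit 188) (nat_lit 0) (nat_lit 0) (XT.nd (nat_lit 94) (nat_lit 0) (nat_lit 0) (XT.lf (nat_lit 0) (nat_lit 254583278037) (nat_lit 0) (nat_lit 0) (nat_lit 0) (nat_lit 0) (nat_lit 0) (nat_lit 0) (nat_lit 1) (nat_lit 0) (nat_lit 1) (nat_lit 0) (nat_lit 431) (nat_lit 360) (nat_lit 289)) (XT.lf (nat_lit 0) (nat_lit 274863340217) (nat_lit 0) (nat_lit 0) (nat_lit 0) (nat_lit 0) (nat_lit 0) (nat_lit 0) (nat_lit 1) (nat_lit 0) (nat_lit 1) (nat_lit 0) (nat_lit 432) (nat_lit 360) (nat_lit 288))) (XT.nd (nat_lit 94) (nat_lit 0) (nat_lit 0) (XT.lf (nat_lit 0) (nat_lit 296765859276) (nat_lit 0) (nat_lit 0) (nat_lit 0) (nat_lit 0) (nat_lit 0) (nat_lit 0) (nat_lit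 1) (nat_lit 0) (nat_lit 1) (nat_lit 0) (nat_lit 433) (nat_lit 360) (nat_lit 287)) (XT.lf (nat_lit 0) (nat_lit 320420627920) (nat_lit 0) (nat_lit 0) (nat_lit 0) (nat_lit 0) (nat_lit 0) (nat_lit 0) (nat_lit 1) (nat_lit 0) (nat_lit 1) (nat_lit 0) (nat_lit 434) (nat_lit 360) (nat_lit 286)))) (XT.nd (nat_lit 188) (nat_lit 0) (nat_lit 0) (XT.nd (nat_lit 94) (nat_lit 0) (nat_lit 0) (XT.lf (nat_lit 0) (nat_lit 345967822556) (nat_lit 0) (nat_lit 0) (nat_lit 0) (nat_lit 0) (nat_lit 0) (nat_lit 0) (nat_lit 1) (nat_lit 0) (nat_lit 1) (nat_lit 0) (nat_lit 435) (nat_lit 360) (nat_lit 285)) (XT.lf (nat_lit 0) (nat_lit 373558833967) (nat_lit 0) (nat_lit 0) (nat_lit 0) (nat_lit 0) (nat_lit 0) (nat_lit 0) (nat_lit 1) (nat_lit 0) (nat_lit 1) (nat_lit 0) (nat_lit 436) (nat_lit 360) (nat_lit 284))) (XT.nd (nat_lit 94) (nat_lit 0) (nat_lit 0) (XT.lf (nat_lit 0) (nat_lit 403357164442)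 (nat_lit 0) (nat_lit 0) (nat_lit 0) (nat_lit 0) (nat_lit 0) (nat_lit 0) (nat_lit 1) (nat_lit 0) (nat_lit 1) (nat_lit 0) (nat_lit 437) (nat_lit 360) (nat_lit 283)) (XT.lf (nat_lit 0) (nat_lit 435539396680) (nat_lit 0) (nat_lit 0) (nat_lit 0) (nat_lit 0) (nat_lit 0) (nat_lit 0) (nat_lit 1) (nat_lit 0) (nat_lit 1) (nat_lit 0) (nat_lit 438) (nat_lit 360) (nat_lit 282))))))))
noncomputable def xc88 : XT := (XT.nd (nat_lit 2632) (nat_lit 0) (nat_lit 0) (XT.nd (nat_lit 1316) (nat_lit 0) (nat_lit 0) (XT.nd (nat_lit 658) (nat_lit 0) (nat_lit 0) (XT.nd (nat_lit 282) (nat_lit 0) (nat_lit 0) (XT.nd (nat_lit 94) (nat_lit 0) (nat_lit 0) (XT.lf (nat_lit 0) (nat_lit 470296240207) (nat_lit 0) (nat_lit 0) (nat_lit 0) (nat_lit 0) (nat_lit 0) (nat_lit 0) (nat_lit 1) (nat_lit 0) (nat_lit 1) (nat_lit 0) (nat_lit 439) (nat_lit 360) (nat_lit 281)) (XT.nd (nat_lit 94) (nat_lit 0)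 (nat_lit 0) (XT.lf (nat_lit 0) (nat_lit 507833661502) (nat_lit 0) (nat_lit 0) (nat_lit 0) (nat_lit 0) (nat_lit 0) (nat_lit 0) (nat_lit 1) (nat_lit 0) (nat_lit 1) (nat_lit 0) (nat_lit 440) (nat_lit 360) (nat_lit 280)) (XT.lf (nat_lit 0) (nat_lit 548374104543) (nat_lit 0) (nat_lit 0) (nat_lit 0) (nat_lit 0) (nat_lit 0) (nat_lit 0) (nat_lit 1) (nat_lit 0) (nat_lit 1) (nat_lit 0) (nat_lit 441) (nat_lit 360) (nat_lit 279)))) (XT.nd (nat_lit 188) (nat_lit 0) (nat_lit 0) (XT.nd (nat_lit 94) (nat_lit 0) (nat_lit 0) (XT.lf (nat_lit 0) (nat_lit 592157808993) (nat_lit 0) (nat_lit 0) (nat_lit 0) (nat_lit 0) (nat_lit 0) (nat_lit 0) (nat_lit 1) (nat_lit 0) (nat_lit 1) (nat_lit 0) (nat_lit 442) (nat_lit 360) (nat_lit 278)) (XT.lf (nat_lit 0) (nat_lit 639444233841) (nat_lit 0) (nat_lit 0) (nat_lit 0) (nat_lit 0) (nat_lit 0) (nat_lit 0) (nat_lit 1) (nat_lit 0) (nat_lit 1)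 (nat_lit 0) (nat_lit 443) (nat_lit 360) (nat_lit 277))) (XT.nd (nat_lit 94) (nat_lit 0) (nat_lit 0) (XT.lf (nat_lit 0) (nat_lit 690513594938) (nat_lit 0) (nat_lit 0) (nat_lit 0) (nat_lit 0) (nat_lit 0) (nat_lit 0) (nat_lit 1) (nat_lit 0) (nat_lit 1) (nat_lit 0) (nat_lit 444) (nat_lit 360) (nat_lit 276)) (XT.lf (nat_lit 0) (nat_lit 745668525535) (nat_lit 0) (nat_lit 0) (nat_lit 0) (nat_lit 0) (nat_lit 0) (nat_lit 0) (nat_lit 1) (nat_lit 0) (nat_lit 1) (nat_lit 0) (nat_lit 445) (nat_lit 360) (nat_lit 275))))) (XT.nd (nat_lit 282) (nat_lit 0) (nat_lit 0) (XT.nd (nat_lit 94) (nat_lit 0) (nat_lit 0) (XT.lf (nat_lit 0) (nat_lit 805235869665) (nat_lit 0) (nat_lit 0) (nat_lit 0) (nat_lit 0) (nat_lit 0) (nat_lit 0) (nat_lit 1) (nat_lit 0) (nat_lit 1) (nat_lit 0) (nat_lit 446) (nat_lit 360) (nat_lit 274)) (XT.nd (nat_lit 94) (nat_lit 0) (nat_lit 0) (XT.lf (nat_lit 0)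 (nat_lit 869568618997) (nat_lit 0) (nat_lit 0) (nat_lit 0) (nat_lit 0) (nat_lit 0) (nat_lit 0) (nat_lit 1) (nat_lit 0) (nat_lit 1) (nat_lit 0) (nat_lit 447) (nat_lit 360) (nat_lit 273)) (XT.lf (nat_lit 0) (nat_lit 939048004638) (nat_lit 0) (nat_lit 0) (nat_lit 0) (nat_lit 0) (nat_lit 0) (nat_lit 0) (nat_lit 1) (nat_lit 0) (nat_lit 1) (nat_lit 0) (nat_lit 448) (nat_lit 360) (nat_lit 272)))) (XT.nd (nat_lit 188) (nat_lit 0) (nat_lit 0) (XT.nd (nat_lit 94) (nat_lit 0) (nat_lit 0) (XT.lf (nat_lit 0) (nat_lit 1014085756281) (nat_lit 0) (nat_lit 0) (nat_lit 0) (nat_lit 0) (nat_lit 0) (nat_lit 0) (nat_lit 1) (nat_lit 0) (nat_lit 1) (nat_lit 0) (nat_lit 449) (nat_lit 360) (nat_lit 271)) (XT.lf (nat_lit 0) (nat_lit 1095126542084) (nat_lit 0) (nat_lit 0) (nat_lit 0) (nat_lit 0) (nat_lit 0) (nat_lit 0) (nat_lit 1) (nat_lit 0) (nat_lit 1) (nat_lit 0) (nat_lit 450) (nat_lit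 360) (nat_lit 270))) (XT.nd (nat_lit 94) (nat_lit 0) (nat_lit 0) (XT.lf (nat_lit 0) (nat_lit 1182650603740) (nat_lit 0) (nat_lit 0) (nat_lit 0) (nat_lit 0) (nat_lit 0) (nat_lit 0) (nat_lit 1) (nat_lit 0) (nat_lit 1) (nat_lit 0) (nat_lit 451) (nat_lit 360) (nat_lit 269)) (XT.lf (nat_lit 0) (nat_lit 1277176602356) (nat_lit 0) (nat_lit 0) (nat_lit 0) (nat_lit 0) (nat_lit 0) (nat_lit 0) (nat_lit 1) (nat_lit 0) (nat_lit 1) (nat_lit 0) (nat_lit 452) (nat_lit 360) (nat_lit 268)))))) (XT.nd (nat_lit 658) (nat_lit 0) (nat_lit 0) (XT.nd (nat_lit 282) (nat_lit 0) (nat_lit 0) (XT.nd (nat_lit 94) (nat_lit 0) (nat_lit 0) (XT.lf (nat_lit 0) (nat_lit 1379264691997) (nat_lit 0) (nat_lit 0) (nat_lit 0) (nat_lit 0) (nat_lit 0) (nat_lit 0) (nat_lit 1) (nat_lit 0) (nat_lit 1) (nat_lit 0) (nat_lit 453) (nat_lit 360) (nat_lit 267)) (XT.nd (nat_lit 94) (nat_lit 0) (nat_lit 0) (XT.lf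 (nat_lit 0) (nat_lit 1489519839121) (nat_lit 0) (nat_lit 0) (nat_lit 0) (nat_lit 0) (nat_lit 0) (nat_lit 0) (nat_lit 1) (nat_lit 0) (nat_lit 1) (nat_lit 0) (nat_lit 454) (nat_lit 360) (nat_lit 266)) (XT.lf (nat_lit 0) (nat_lit 1608595407562) (nat_lit 0) (nat_lit 0) (nat_lit 0) (nat_lit 0) (nat_lit 0) (nat_lit 0) (nat_lit 1) (nat_lit 0) (nat_lit 1) (nat_lit 0) (nat_lit 455) (nat_lit 360) (nat_lit 265)))) (XT.nd (nat_lit 188) (nat_lit 0) (nat_lit 0) (XT.nd (nat_lit 94) (nat_lit 0) (nat_lit 0) (XT.lf (nat_lit 0) (nat_lit 1737197030318) (nat_lit 0) (nat_lit 0) (nat_lit 0) (nat_lit 0) (nat_lit 0) (nat_lit 0) (nat_lit 1) (nat_lit 0) (nat_lit 1) (nat_lit 0) (nat_lit 456) (nat_lit 360) (nat_lit 264)) (XT.lf (nat_lit 0) (nat_lit 1876086791081) (nat_lit 0) (nat_lit 0) (nat_lit 0) (nat_lit 0) (nat_lit 0) (nat_lit 0) (nat_lit 1) (nat_lit 0) (nat_lit 1) (nat_lit 0) (nat_lit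 457) (nat_lit 360) (nat_lit 263))) (XT.nd (nat_lit 94) (nat_lit 0) (nat_lit 0) (XT.lf (nat_lit 0) (nat_lit 2026087740283) (nat_lit 0) (nat_lit 0) (nat_lit 0) (nat_lit 0) (nat_lit 0) (nat_lit 0) (nat_lit 1) (nat_lit 0) (nat_lit 1) (nat_lit 0) (nat_lit 458) (nat_lit 360) (nat_lit 262)) (XT.lf (nat_lit 0) (nat_lit 2188088772439) (nat_lit 0) (nat_lit 0) (nat_lit 0) (nat_lit 0) (nat_lit 0) (nat_lit 0) (nat_lit 1) (nat_lit 0) (nat_lit 1) (nat_lit 0) (nat_lit 459) (nat_lit 360) (nat_lit 261))))) (XT.nd (nat_lit 282) (nat_lit 0) (nat_lit 0) (XT.nd (nat_lit 94) (nat_lit 0) (nat_lit 0) (XT.lf (nat_lit 0) (nat_lit 2363049893666) (nat_lit 0) (nat_lit 0) (nat_lit 0) (nat_lit 0) (nat_lit 0) (nat_lit 0) (nat_lit 1) (nat_lit 0) (nat_lit 1) (nat_lit 0) (nat_lit 460) (nat_lit 360) (nat_lit 260)) (XT.nd (nat_lit 94) (nat_lit 0) (nat_lit 0) (XT.lf (nat_lit 0) (nat_lit 2552007910607)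 (nat_lit 0) (nat_lit 0) (nat_lit 0) (nat_lit 0) (nat_lit 0) (nat_lit 0) (nat_lit 1) (nat_lit 0) (nat_lit 1) (nat_lit 0) (nat_lit 461) (nat_lit 360) (nat_lit 259)) (XT.lf (nat_lit 0) (nat_lit 2756082574474) (nat_lit 0) (nat_lit 0) (nat_lit 0) (nat_lit 0) (nat_lit 0) (nat_lit 0) (nat_lit 1) (nat_lit 0) (nat_lit 1) (nat_lit 0) (nat_lit 462) (nat_lit 360) (nat_lit 258)))) (XT.nd (nat_lit 188) (nat_lit 0) (nat_lit 0) (XT.nd (nat_lit 94) (nat_lit 0) (nat_lit 0) (XT.lf (nat_lit 0) (nat_lit 2976483216609) (nat_lit 0) (nat_lit 0) (nat_lit 0) (nat_lit 0) (nat_lit 0) (nat_lit 0) (nat_lit 1) (nat_lit 0) (nat_lit 1) (nat_lit 0) (nat_lit 463) (nat_lit 360) (nat_lit 257)) (XT.lf (nat_lit 0) (nat_lit 3214515914891) (nat_lit 0) (nat_lit 0) (nat_lit 0) (nat_lit 0) (nat_lit 0) (nat_lit 0) (nat_lit 1) (nat_lit 0) (nat_lit 1) (nat_lit 0) (nat_lit 464) (nat_lit 360) (nat_lit 256)))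 (XT.nd (nat_lit 94) (nat_lit 0) (nat_lit 0) (XT.lf (nat_lit 0) (nat_lit 3471591233457) (nat_lit 0) (nat_lit 0) (nat_lit 0) (nat_lit 0) (nat_lit 0) (nat_lit 0) (nat_lit 1) (nat_lit 0) (nat_lit 1) (nat_lit 0) (nat_lit 465) (nat_lit 360) (nat_lit 255)) (XT.lf (nat_lit 0) (nat_lit 3749232581604) (nat_lit 0) (nat_lit 0) (nat_lit 0) (nat_lit 0) (nat_lit 0) (nat_lit 0) (nat_lit 1) (nat_lit 0) (nat_lit 1) (nat_lit 0) (nat_lit 466) (nat_lit 360) (nat_lit 254))))))) (XT.nd (nat_lit 1316) (nat_lit 0) (nat_lit 0) (XT.nd (nat_lit 658) (nat_lit 0) (nat_lit 0) (XT.nd (nat_lit 282) (nat_lit 0) (nat_lit 0) (XT.nd (nat_lit 94) (nat_lit 0) (nat_lit 0) (XT.lf (nat_lit 0) (nat_lit 4049085241394) (nat_lit 0) (nat_lit 0) (nat_lit 0) (nat_lit 0) (nat_lit 0) (nat_lit 0) (nat_lit 1) (nat_lit 0) (nat_lit 1) (nat_lit 0) (nat_lit 467) (nat_lit 360) (nat_lit 253)) (XT.nd (nat_lit 94) (nat_lit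 0) (nat_lit 0) (XT.lf (nat_lit 0) (nat_lit 4372926117477) (nat_lit 0) (nat_lit 0) (nat_lit 0) (nat_lit 0) (nat_lit 0) (nat_lit 0) (nat_lit 1) (nat_lit 0) (nat_lit 1) (nat_lit 0) (nat_lit 468) (nat_lit 360) (nat_lit 252)) (XT.lf (nat_lit 0) (nat_lit 4722674266898) (nat_lit 0) (nat_lit 0) (nat_lit 0) (nat_lit 0) (nat_lit 0) (nat_lit 0) (nat_lit 1) (nat_lit 0) (nat_lit 1) (nat_lit 0) (nat_lit 469) (nat_lit 360) (nat_lit 251)))) (XT.nd (nat_lit 188) (nat_lit 0) (nat_lit 0) (XT.nd (nat_lit 94) (nat_lit 0) (nat_lit 0) (XT.lf (nat_lit 0) (nat_lit 5100402271282) (nat_lit 0) (nat_lit 0) (nat_lit 0) (nat_lit 0) (nat_lit 0) (nat_lit 0) (nat_lit 1) (nat_lit 0) (nat_lit 1) (nat_lit 0) (nat_lit 470) (nat_lit 360) (nat_lit 250)) (XT.lf (nat_lit 0) (nat_lit 5508348518803) (nat_lit 0) (nat_lit 0) (nat_lit 0) (nat_lit 0) (nat_lit 0) (nat_lit 0) (nat_lit 1) (nat_lit 0) (nat_lit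 1) (nat_lit 0) (nat_lit 471) (nat_lit 360) (nat_lit 249))) (XT.nd (nat_lit 94) (nat_lit 0) (nat_lit 0) (XT.lf (nat_lit 0) (nat_lit 5948930468707) (nat_lit 0) (nat_lit 0) (nat_lit 0) (nat_lit 0) (nat_lit 0) (nat_lit 0) (nat_lit 1) (nat_lit 0) (nat_lit 1) (nat_lit 0) (nat_lit 472) (nat_lit 360) (nat_lit 248)) (XT.lf (nat_lit 0) (nat_lit 6424758976992) (nat_lit 0) (nat_lit 0) (nat_lit 0) (nat_lit 0) (nat_lit 0) (nat_lit 0) (nat_lit 1) (nat_lit 0) (nat_lit 1) (nat_lit 0) (nat_lit 473) (nat_lit 360) (nat_lit 247))))) (XT.nd (nat_lit 282) (nat_lit 0) (nat_lit 0) (XT.nd (nat_lit 94) (nat_lit 0) (nat_lit 0) (XT.lf (nat_lit 0) (nat_lit 6938653768153) (nat_lit 0) (nat_lit 0) (nat_lit 0) (nat_lit 0) (nat_lit 0) (nat_lit 0) (nat_lit 1) (nat_lit 0) (nat_lit 1) (nat_lit 0) (nat_lit 474) (nat_lit 360) (nat_lit 246)) (XT.nd (nat_lit 94) (nat_lit 0) (nat_lit 0) (XT.lf (nat_lit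 0) (nat_lit 7493660144654) (nat_lit 0) (nat_lit 0) (nat_lit 0) (nat_lit 0) (nat_lit 0) (nat_lit 0) (nat_lit 1) (nat_lit 0) (nat_lit 1) (nat_lit 0) (nat_lit 475) (nat_lit 360) (nat_lit 245)) (XT.lf (nat_lit 0) (nat_lit 8093067033173) (nat_lit 0) (nat_lit 0) (nat_lit 0) (nat_lit 0) (nat_lit 0) (nat_lit 0) (nat_lit 1) (nat_lit 0) (nat_lit 1) (nat_lit 0) (nat_lit 476) (nat_lit 360) (nat_lit 244)))) (XT.nd (nat_lit 188) (nat_lit 0) (nat_lit 0) (XT.nd (nat_lit 94) (nat_lit 0) (nat_lit 0) (XT.lf (nat_lit 0) (nat_lit 8740426474529) (nat_lit 0) (nat_lit 0) (nat_lit 0) (nat_lit 0) (nat_lit 0) (nat_lit 0) (nat_lit 1) (nat_lit 0) (nat_lit 1) (nat_lit 0) (nat_lit 477) (nat_lit 360) (nat_lit 243)) (XT.lf (nat_lit 0) (nat_lit 9439574672819) (nat_lit 0) (nat_lit 0) (nat_lit 0) (nat_lit 0) (nat_lit 0) (nat_lit 0) (nat_lit 1) (nat_lit 0) (nat_lit 1) (nat_lit 0) (nat_lit 478)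 (nat_lit 360) (nat_lit 242))) (XT.nd (nat_lit 94) (nat_lit 0) (nat_lit 0) (XT.lf (nat_lit 0) (nat_lit 10194654728478) (nat_lit 0) (nat_lit 0) (nat_lit 0) (nat_lit 0) (nat_lit 0) (nat_lit 0) (nat_lit 1) (nat_lit 0) (nat_lit 1) (nat_lit 0) (nat_lit 479) (nat_lit 360) (nat_lit 241)) (XT.lf (nat_lit 0) (nat_lit 11010141189985) (nat_lit 0) (nat_lit 0) (nat_lit 0) (nat_lit 0) (nat_lit 0) (nat_lit 0) (nat_lit 1) (nat_lit 0) (nat_lit 1) (nat_lit 0) (nat_lit 480) (nat_lit 360) (nat_lit 240)))))) (XT.nd (nat_lit 658) (nat_lit 0) (nat_lit 0) (XT.nd (nat_lit 282) (nat_lit 0) (nat_lit 0) (XT.nd (nat_lit 94) (nat_lit 0) (nat_lit 0) (XT.lf (nat_lit 0) (nat_lit 11890866569702) (nat_lit 0) (nat_lit 0) (nat_lit 0) (nat_lit 0) (nat_lit 0) (nat_lit 0) (nat_lit 1) (nat_lit 0) (nat_lit 1) (nat_lit 0) (nat_lit 481) (nat_lit 360) (nat_lit 239)) (XT.nd (nat_lit 94) (nat_lit 0) (nat_lit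 0) (XT.lf (nat_lit 0) (nat_lit 12842049980992) (nat_lit 0) (nat_lit 0) (nat_lit 0) (nat_lit 0) (nat_lit 0) (nat_lit 0) (nat_lit 1) (nat_lit 0) (nat_lit 1) (nat_lit 0) (nat_lit 482) (nat_lit 360) (nat_lit 238)) (XT.lf (nat_lit 0) (nat_lit 13869328066292) (nat_lit 0) (nat_lit 0) (nat_lit 0) (nat_lit 0) (nat_lit 0) (nat_lit 0) (nat_lit 1) (nat_lit 0) (nat_lit 1) (nat_lit 0) (nat_lit 483) (nat_lit 360) (nat_lit 237)))) (XT.nd (nat_lit 188) (nat_lit 0) (nat_lit 0) (XT.nd (nat_lit 94) (nat_lit 0) (nat_lit 0) (XT.lf (nat_lit 0) (nat_lit 14978788399441) (nat_lit 0) (nat_lit 0) (nat_lit 0) (nat_lit 0) (nat_lit 0) (nat_lit 0) (nat_lit 1) (nat_lit 0) (nat_lit 1) (nat_lit 0) (nat_lit 484) (nat_lit 360) (nat_lit 236)) (XT.lf (nat_lit 0) (nat_lit 16177005560191) (nat_lit 0) (nat_lit 0) (nat_lit 0) (nat_lit 0) (nat_lit 0) (nat_lit 0) (nat_lit 1) (nat_lit 0) (nat_lit 1) (nat_lit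 0) (nat_lit 485) (nat_lit 360) (nat_lit 235))) (XT.nd (nat_lit 94) (nat_lit 0) (nat_lit 0) (XT.lf (nat_lit 0) (nat_lit 17471080094678) (nat_lit 0) (nat_lit 0) (nat_lit 0) (nat_lit 0) (nat_lit 0) (nat_lit 0) (nat_lit 1) (nat_lit 0) (nat_lit 1) (nat_lit 0) (nat_lit 486) (nat_lit 360) (nat_lit 234)) (XT.lf (nat_lit 0) (nat_lit 18868680592739) (nat_lit 0) (nat_lit 0) (nat_lit 0) (nat_lit 0) (nat_lit 0) (nat_lit 0) (nat_lit 1) (nat_lit 0) (nat_lit 1) (nat_lit 0) (nat_lit 487) (nat_lit 360) (nat_lit 233))))) (XT.nd (nat_lit 282) (nat_lit 0) (nat_lit 0) (XT.nd (nat_lit 94) (nat_lit 0) (nat_lit 0) (XT.lf (nat_lit 0) (nat_lit 20378089131397) (nat_lit 0) (nat_lit 0) (nat_lit 0) (nat_lit 0) (nat_lit 0) (nat_lit 0) (nat_lit 1) (nat_lit 0) (nat_lit 1) (nat_lit 0) (nat_lit 488) (nat_lit 360) (nat_lit 232)) (XT.nd (nat_lit 94) (nat_lit 0) (nat_lit 0) (XT.lf (nat_lit 0) (nat_lit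 22008250353846) (nat_lit 0) (nat_lit 0) (nat_lit 0) (nat_lit 0) (nat_lit 0) (nat_lit 0) (nat_lit 1) (nat_lit 0) (nat_lit 1) (nat_lit 0) (nat_lit 489) (nat_lit 360) (nat_lit 231)) (XT.lf (nat_lit 0) (nat_lit 23768824474736) (nat_lit 0) (nat_lit 0) (nat_lit 0) (nat_lit 0) (nat_lit 0) (nat_lit 0) (nat_lit 1) (nat_lit 0) (nat_lit 1) (nat_lit 0) (nat_lit 490) (nat_lit 360) (nat_lit 230)))) (XT.nd (nat_lit 188) (nat_lit 0) (nat_lit 0) (XT.nd (nat_lit 94) (nat_lit 0) (nat_lit 0) (XT.lf (nat_lit 0) (nat_lit 25670244525895) (nat_lit 0) (nat_lit 0) (nat_lit 0) (nat_lit 0) (nat_lit 0) (nat_lit 0) (nat_lit 1) (nat_lit 0) (nat_lit 1) (nat_lit 0) (nat_lit 491) (nat_lit 360) (nat_lit 229)) (XT.lf (nat_lit 0) (nat_lit 27723778181700) (nat_lit 0) (nat_lit 0) (nat_lit 0) (nat_lit 0) (nat_lit 0) (nat_lit 0) (nat_lit 1) (nat_lit 0) (nat_lit 1) (nat_lit 0) (nat_lit 492) (nat_lit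 360) (nat_lit 228))) (XT.nd (nat_lit 94) (nat_lit 0) (nat_lit 0) (XT.lf (nat_lit 0) (nat_lit 29941594530483) (nat_lit 0) (nat_lit 0) (nat_lit 0) (nat_lit 0) (nat_lit 0) (nat_lit 0) (nat_lit 1) (nat_lit 0) (nat_lit 1) (nat_lit 0) (nat_lit 493) (nat_lit 360) (nat_lit 227)) (XT.lf (nat_lit 0) (nat_lit 32336836187643) (nat_lit 0) (nat_lit 0) (nat_lit 0) (nat_lit 0) (nat_lit 0) (nat_lit 0) (nat_lit 1) (nat_lit 0) (nat_lit 1) (nat_lit 0) (nat_lit 494) (nat_lit 360) (nat_lit 226))))))))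
noncomputable def xc89 : XT := (XT.nd (nat_lit 57622) (nat_lit 0) (nat_lit 504) (XT.nd (nat_lit 56306) (nat_lit 0) (nat_lit 5208) (XT.nd (nat_lit 55648) (nat_lit 0) (nat_lit 10500) (XT.nd (nat_lit 55272) (nat_lit 0) (nat_lit 14532) (XT.nd (nat_lit 94) (nat_lit 0) (nat_lit 0) (XT.lf (nat_lit 0) (nat_lit 34923697177815) (nat_lit 0) (nat_lit 0) (nat_lit 0) (nat_lit 0) (nat_lit 0) (nat_lit 0) (nat_lit 1) (nat_lit 0) (nat_lit 1) (nat_lit 0) (nat_lit 495) (nat_lit 360) (nat_lit 225)) (XT.nd (nat_lit 55084) (nat_lit 0) (nat_lit 15456) (XT.lf (nat_lit 0) (nat_lit 37717507047608) (nat_lit 0) (nat_lit 0) (nat_lit 0) (nat_lit 0) (nat_lit 0) (nat_lit 0) (nat_lit 1) (nat_lit 0) (nat_lit 1) (nat_lit 0) (nat_lit 496) (nat_lit 360) (nat_lit 224)) (XT.lf (nat_lit 0) (nat_lit 1570810371) (nat_lit 252) (nat_lit 831954797) (nat_lit 252) (nat_lit 831954797) (nat_lit 184) (nat_lit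 3) (nat_lit 187) (nat_lit 3) (nat_lit 187) (nat_lit 5) (nat_lit 361) (nat_lit 361) (nat_lit 358)))) (XT.nd (nat_lit 188) (nat_lit 672) (nat_lit 0) (XT.nd (nat_lit 94) (nat_lit 0) (nat_lit 0) (XT.lf (nat_lit 0) (nat_lit 1116037247) (nat_lit 252) (nat_lit 2942409296) (nat_lit 336) (nat_lit 2449162840) (nat_lit 181) (nat_lit 5) (nat_lit 184) (nat_lit 3) (nat_lit 185) (nat_lit 5) (nat_lit 362) (nat_lit 361) (nat_lit 357)) (XT.lf (nat_lit 84) (nat_lit 2497924692) (nat_lit 0) (nat_lit 2926024778) (nat_lit 336) (nat_lit 1140898308) (nat_lit 182) (nat_lit 5) (nat_lit 181) (nat_lit 5) (nat_lit 185) (nat_lit 5) (nat_lit 363) (nat_lit 361) (nat_lit 356))) (XT.nd (nat_lit 94) (nat_lit 336) (nat_lit 0) (XT.lf (nat_lit 84) (nat_lit 1597680626) (nat_lit 0) (nat_lit 1396297002) (nat_lit 420) (nat_lit 3647266326) (nat_lit 178) (nat_lit 5) (nat_lit 177) (nat_lit 5) (nat_lit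 182) (nat_lit 5) (nat_lit 364) (nat_lit 361) (nat_lit 355)) (XT.lf (nat_lit 0) (nat_lit 367289289) (nat_lit 420) (nat_lit 5863952724) (nat_lit 84) (nat_lit 506393778) (nat_lit 173) (nat_lit 5) (nat_lit 178) (nat_lit 5) (nat_lit 174) (nat_lit 5) (nat_lit 365) (nat_lit 361) (nat_lit 354))))) (XT.nd (nat_lit 282) (nat_lit 3024) (nat_lit 0) (XT.nd (nat_lit 94) (nat_lit 588) (nat_lit 0) (XT.lf (nat_lit 0) (nat_lit 263828750) (nat_lit 420) (nat_lit 4056596818) (nat_lit 504) (nat_lit 2531063911) (nat_lit 168) (nat_lit 5) (nat_lit 173) (nat_lit 5) (nat_lit 174) (nat_lit 5) (nat_lit 366) (nat_lit 361) (nat_lit 353)) (XT.nd (nat_lit 94) (nat_lit 504) (nat_lit 0) (XT.lf (nat_lit 0) (nat_lit 1311981627) (nat_lit 504) (nat_lit 170434059) (nat_lit 84) (nat_lit 5503358661) (nat_lit 167) (nat_lit 5) (nat_lit 173) (nat_lit 5) (nat_lit 168) (nat_lit 5) (nat_lit 367) (nat_lit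 361) (nat_lit 352)) (XT.lf (nat_lit 0) (nat_lit 5174170946) (nat_lit 588) (nat_lit 478170380) (nat_lit 84) (nat_lit 1486367222) (nat_lit 161) (nat_lit 5) (nat_lit 168) (nat_lit 5) (nat_lit 162) (nat_lit 5) (nat_lit 368) (nat_lit 361) (nat_lit 351)))) (XT.nd (nat_lit 188) (nat_lit 1680) (nat_lit 0) (XT.nd (nat_lit 94) (nat_lit 672) (nat_lit 0) (XT.lf (nat_lit 0) (nat_lit 1798207304) (nat_lit 672) (nat_lit 664268984) (nat_lit 84) (nat_lit 4848703113) (nat_lit 153) (nat_lit 5) (nat_lit 161) (nat_lit 5) (nat_lit 154) (nat_lit 5) (nat_lit 369) (nat_lit 361) (nat_lit 350)) (XT.lf (nat_lit 0) (nat_lit 5634031568) (nat_lit 756) (nat_lit 727258171) (nat_lit 84) (nat_lit 1142503527) (nat_lit 145) (nat_lit 5) (nat_lit 154) (nat_lit 5) (nat_lit 146) (nat_lit 5) (nat_lit 370) (nat_lit 361) (nat_lit 349))) (XT.nd (nat_lit 94) (nat_lit 840) (nat_lit 0) (XT.lf (nat_lit 0)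 (nat_lit 1885923680) (nat_lit 840) (nat_lit 692428992) (nat_lit 84) (nat_lit 5137496220) (nat_lit 135) (nat_lit 5) (nat_lit 145) (nat_lit 5) (nat_lit 136) (nat_lit 5) (nat_lit 371) (nat_lit 361) (nat_lit 348)) (XT.lf (nat_lit 0) (nat_lit 5770454890) (nat_lit 924) (nat_lit 545782732) (nat_lit 84) (nat_lit 1632403836) (nat_lit 125) (nat_lit 5) (nat_lit 136) (nat_lit 5) (nat_lit 126) (nat_lit 5) (nat_lit 372) (nat_lit 361) (nat_lit 347)))))) (XT.nd (nat_lit 658) (nat_lit 2100) (nat_lit 0) (XT.nd (nat_lit 282) (nat_lit 1344) (nat_lit 0) (XT.nd (nat_lit 94) (nat_lit 1260) (nat_lit 0) (XT.lf (nat_lit 0) (nat_lit 1641163019) (nat_lit 588) (nat_lit 301716151) (nat_lit 84) (nat_lit 6259200640) (nat_lit 118) (nat_lit 5) (nat_lit 125) (nat_lit 5) (nat_lit 119) (nat_lit 5) (nat_lit 373) (nat_lit 361) (nat_lit 346)) (XT.nd (nat_lit 94) (nat_lit 420) (nat_lit 0) (XT.lf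 (nat_lit 0) (nat_lit 29718286) (nat_lit 420) (nat_lit 5615100736) (nat_lit 504) (nat_lit 2831435236) (nat_lit 108) (nat_lit 5) (nat_lit 113) (nat_lit 5) (nat_lit 114) (nat_lit 5) (nat_lit 374) (nat_lit 361) (nat_lit 345)) (XT.lf (nat_lit 0) (nat_lit 492405856) (nat_lit 336) (nat_lit 632294746) (nat_lit 420) (nat_lit 7648398688) (nat_lit 103) (nat_lit 5) (nat_lit 107) (nat_lit 5) (nat_lit 108) (nat_lit 5) (nat_lit 375) (nat_lit 361) (nat_lit 344)))) (XT.nd (nat_lit 188) (nat_lit 588) (nat_lit 0) (XT.nd (nat_lit 94) (nat_lit 420) (nat_lit 0) (XT.lf (nat_lit 0) (nat_lit 1005288735) (nat_lit 336) (nat_lit 4316017908) (nat_lit 420) (nat_lit 3768905482) (nat_lit 99) (nat_lit 5) (nat_lit 103) (nat_lit 5) (nat_lit 104) (nat_lit 5) (nat_lit 376) (nat_lit 361) (nat_lit 343)) (XT.lf (nat_lit 0) (nat_lit 402461663) (nat_lit 420) (nat_lit 7775119156) (nat_lit 84) (nat_lit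 1255035188) (nat_lit 94) (nat_lit 5) (nat_lit 99) (nat_lit 5) (nat_lit 95) (nat_lit 5) (nat_lit 377) (nat_lit 361) (nat_lit 342))) (XT.nd (nat_lit 94) (nat_lit 252) (nat_lit 0) (XT.lf (nat_lit 0) (nat_lit 2351768792) (nat_lit 336) (nat_lit 2480173088) (nat_lit 420) (nat_lit 4964558663) (nat_lit 90) (nat_lit 5) (nat_lit 94) (nat_lit 5) (nat_lit 95) (nat_lit 5) (nat_lit 378) (nat_lit 361) (nat_lit 341)) (XT.lf (nat_lit 0) (nat_lit 3170893963) (nat_lit 252) (nat_lit 6501336442) (nat_lit 336) (nat_lit 514442943) (nat_lit 87) (nat_lit 5) (nat_lit 90) (nat_lit 5) (nat_lit 91) (nat_lit 5) (nat_lit 379) (nat_lit 361) (nat_lit 340))))) (XT.nd (nat_lit 282) (nat_lit 1092) (nat_lit 0) (XT.nd (nat_lit 94) (nat_lit 588) (nat_lit 0) (XT.lf (nat_lit 0) (nat_lit 4069679642) (nat_lit 336) (nat_lit 140957553) (nat_lit 420) (nat_lit 6391256733) (nat_lit 82) (nat_lit 5) (nat_lit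 86) (nat_lit 5) (nat_lit 87) (nat_lit 5) (nat_lit 380) (nat_lit 361) (nat_lit 339)) (XT.nd (nat_lit 94) (nat_lit 336) (nat_lit 0) (XT.lf (nat_lit 0) (nat_lit 5047801338) (nat_lit 252) (nat_lit 4383970755) (nat_lit 336) (nat_lit 1611334792) (nat_lit 79) (nat_lit 5) (nat_lit 82) (nat_lit 5) (nat_lit 83) (nat_lit 5) (nat_lit 381) (nat_lit 361) (nat_lit 338)) (XT.lf (nat_lit 0) (nat_lit 3527767674) (nat_lit 336) (nat_lit 5386070091) (nat_lit 84) (nat_lit 2598485058) (nat_lit 75) (nat_lit 5) (nat_lit 79) (nat_lit 5) (nat_lit 76) (nat_lit 5) (nat_lit 382) (nat_lit 361) (nat_lit 337)))) (XT.nd (nat_lit 188) (nat_lit 504) (nat_lit 0) (XT.nd (nat_lit 94) (nat_lit 336) (nat_lit 0) (XT.lf (nat_lit 0) (nat_lit 7311655390) (nat_lit 252) (nat_lit 1846569423) (nat_lit 336) (nat_lit 2852696466) (nat_lit 72) (nat_lit 5) (nat_lit 75) (nat_lit 5) (nat_lit 76) (nat_lit 5) (nat_lit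 383) (nat_lit 361) (nat_lit 336)) (XT.lf (nat_lit 0) (nat_lit 2775412357) (nat_lit 336) (nat_lit 3962091474) (nat_lit 84) (nat_lit 5801214636) (nat_lit 68) (nat_lit 5) (nat_lit 72) (nat_lit 5) (nat_lit 69) (nat_lit 5) (nat_lit 384) (nat_lit 361) (nat_lit 335))) (XT.nd (nat_lit 94) (nat_lit 336) (nat_lit 0) (XT.lf (nat_lit 0) (nat_lit 8896825263) (nat_lit 252) (nat_lit 3128565372) (nat_lit 84) (nat_lit 1073860521) (nat_lit 66) (nat_lit 5) (nat_lit 69) (nat_lit 5) (nat_lit 67) (nat_lit 5) (nat_lit 385) (nat_lit 361) (nat_lit 334)) (XT.lf (nat_lit 0) (nat_lit 1972592254) (nat_lit 336) (nat_lit 2237730564) (nat_lit 84) (nat_lit 9481546635) (nat_lit 62) (nat_lit 5) (nat_lit 66) (nat_lit 5) (nat_lit 63) (nat_lit 5) (nat_lit 386) (nat_lit 361) (nat_lit 333))))))) (XT.nd (nat_lit 1316) (nat_lit 2100) (nat_lit 0) (XT.nd (nat_lit 658) (nat_lit 1092) (nat_lit 0) (XT.nd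 (nat_lit 282) (nat_lit 756) (nat_lit 0) (XT.nd (nat_lit 94) (nat_lit 588) (nat_lit 0) (XT.lf (nat_lit 0) (nat_lit 8691723626) (nat_lit 252) (nat_lit 1276745912) (nat_lit 84) (nat_lit 4350115850) (nat_lit 60) (nat_lit 5) (nat_lit 63) (nat_lit 5) (nat_lit 61) (nat_lit 5) (nat_lit 387) (nat_lit 361) (nat_lit 332)) (XT.nd (nat_lit 94) (nat_lit 336) (nat_lit 0) (XT.lf (nat_lit 0) (nat_lit 1138426854) (nat_lit 252) (nat_lit 184497001) (nat_lit 84) (nat_lit 13660971824) (nat_lit 57) (nat_lit 5) (nat_lit 60) (nat_lit 5) (nat_lit 58) (nat_lit 5) (nat_lit 388) (nat_lit 361) (nat_lit 331)) (XT.lf (nat_lit 0) (nat_lit 947931455) (nat_lit 168) (nat_lit 7606149149) (nat_lit 252) (nat_lit 7128424013) (nat_lit 53) (nat_lit 5) (nat_lit 55) (nat_lit 5) (nat_lit 56) (nat_lit 5) (nat_lit 389) (nat_lit 361) (nat_lit 330)))) (XT.nd (nat_lit 188) (nat_lit 336) (nat_lit 0) (XT.nd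 (nat_lit 94) (nat_lit 168) (nat_lit 0) (XT.lf (nat_lit 0) (nat_lit 357672160) (nat_lit 252) (nat_lit 14149388305) (nat_lit 84) (nat_lit 1918057455) (nat_lit 50) (nat_lit 5) (nat_lit 53) (nat_lit 5) (nat_lit 51) (nat_lit 5) (nat_lit 390) (nat_lit 361) (nat_lit 329)) (XT.lf (nat_lit 0) (nat_lit 3610854378) (nat_lit 168) (nat_lit 4910080495) (nat_lit 252) (nat_lit 8683961239) (nat_lit 48) (nat_lit 5) (nat_lit 50) (nat_lit 5) (nat_lit 51) (nat_lit 5) (nat_lit 391) (nat_lit 361) (nat_lit 328))) (XT.nd (nat_lit 94) (nat_lit 252) (nat_lit 0) (XT.lf (nat_lit 0) (nat_lit 5131478526) (nat_lit 84) (nat_lit 12505204573) (nat_lit 168) (nat_lit 395402234) (nat_lit 47) (nat_lit 5) (nat_lit 48) (nat_lit 5) (nat_lit 49) (nat_lit 4) (nat_lit 392) (nat_lit 361) (nat_lit 327)) (XT.lf (nat_lit 0) (nat_lit 6720936778) (nat_lit 168) (nat_lit 1877216456) (nat_lit 252) (nat_lit 10304828869)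 (nat_lit 44) (nat_lit 5) (nat_lit 46) (nat_lit 5) (nat_lit 47) (nat_lit 5) (nat_lit 393) (nat_lit 361) (nat_lit 326))))) (XT.nd (nat_lit 282) (nat_lit 672) (nat_lit 0) (XT.nd (nat_lit 94) (nat_lit 336) (nat_lit 0) (XT.lf (nat_lit 0) (nat_lit 8454824495) (nat_lit 84) (nat_lit 10244387140) (nat_lit 168) (nat_lit 1123921304) (nat_lit 43) (nat_lit 5) (nat_lit 44) (nat_lit 5) (nat_lit 45) (nat_lit 4) (nat_lit 394) (nat_lit 361) (nat_lit 325)) (XT.nd (nat_lit 94) (nat_lit 84) (nat_lit 0) (XT.lf (nat_lit 0) (nat_lit 8837444084) (nat_lit 252) (nat_lit 10479831573) (nat_lit 84) (nat_lit 1476388879) (nat_lit 40) (nat_lit 5) (nat_lit 43) (nat_lit 5) (nat_lit 41) (nat_lit 4) (nat_lit 395) (nat_lit 361) (nat_lit 324)) (XT.lf (nat_lit 0) (nat_lit 12317386694) (nat_lit 84) (nat_lit 7704256513) (nat_lit 168) (nat_lit 1796009147) (nat_lit 39) (nat_lit 5) (nat_lit 40) (nat_lit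 5) (nat_lit 41) (nat_lit 4) (nat_lit 396) (nat_lit 361) (nat_lit 323)))) (XT.nd (nat_lit 188) (nat_lit 336) (nat_lit 0) (XT.nd (nat_lit 94) (nat_lit 84) (nat_lit 0) (XT.lf (nat_lit 0) (nat_lit 9280726854) (nat_lit 252) (nat_lit 8448522619) (nat_lit 84) (nat_lit 5167274289) (nat_lit 36) (nat_lit 5) (nat_lit 39) (nat_lit 5) (nat_lit 37) (nat_lit 4) (nat_lit 397) (nat_lit 361) (nat_lit 322)) (XT.lf (nat_lit 0) (nat_lit 16795427585) (nat_lit 84) (nat_lit 4851355514) (nat_lit 168) (nat_lit 2390144406) (nat_lit 35) (nat_lit 5) (nat_lit 36) (nat_lit 5) (nat_lit 37) (nat_lit 4) (nat_lit 398) (nat_lit 361) (nat_lit 321))) (XT.nd (nat_lit 94) (nat_lit 84) (nat_lit 0) (XT.lf (nat_lit 0) (nat_lit 9932282115) (nat_lit 252) (nat_lit 5999827914) (nat_lit 84) (nat_lit 9303342283) (nat_lit 32) (nat_lit 5) (nat_lit 35) (nat_lit 5) (nat_lit 33) (nat_lit 4) (nat_lit 399) (nat_lit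 361) (nat_lit 320)) (XT.lf (nat_lit 0) (nat_lit 21976968080) (nat_lit 84) (nat_lit 1644936546) (nat_lit 168) (nat_lit 2882738299) (nat_lit 31) (nat_lit 5) (nat_lit 32) (nat_lit 5) (nat_lit 33) (nat_lit 4) (nat_lit 400) (nat_lit 361) (nat_lit 319)))))) (XT.nd (nat_lit 658) (nat_lit 1008) (nat_lit 0) (XT.nd (nat_lit 282) (nat_lit 504) (nat_lit 0) (XT.nd (nat_lit 94) (nat_lit 336) (nat_lit 0) (XT.lf (nat_lit 0) (nat_lit 10829344360) (nat_lit 252) (nat_lit 3065012908) (nat_lit 84) (nat_lit 13941036119) (nat_lit 28) (nat_lit 5) (nat_lit 31) (nat_lit 5) (nat_lit 29) (nat_lit 4) (nat_lit 401) (nat_lit 361) (nat_lit 318)) (XT.nd (nat_lit 94) (nat_lit 252) (nat_lit 0) (XT.lf (nat_lit 0) (nat_lit 26030260568) (nat_lit 168) (nat_lit 1314741849) (nat_lit 0) (nat_lit 1900595366) (nat_lit 27) (nat_lit 5) (nat_lit 29) (nat_lit 4) (nat_lit 27) (nat_lit 4) (nat_lit 402) (nat_lit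 361) (nat_lit 317)) (XT.lf (nat_lit 0) (nat_lit 449897735) (nat_lit 84) (nat_lit 11570665772) (nat_lit 168) (nat_lit 18703152160) (nat_lit 24) (nat_lit 5) (nat_lit 25) (nat_lit 5) (nat_lit 26) (nat_lit 4) (nat_lit 403) (nat_lit 361) (nat_lit 316)))) (XT.nd (nat_lit 188) (nat_lit 252) (nat_lit 0) (XT.nd (nat_lit 94) (nat_lit 168) (nat_lit 0) (XT.lf (nat_lit 0) (nat_lit 2563417451) (nat_lit 84) (nat_lit 26409480315) (nat_lit 84) (nat_lit 3314039130) (nat_lit 23) (nat_lit 4) (nat_lit 24) (nat_lit 5) (nat_lit 24) (nat_lit 4) (nat_lit 404) (nat_lit 361) (nat_lit 315)) (XT.lf (nat_lit 0) (nat_lit 4745275756) (nat_lit 84) (nat_lit 8860492214) (nat_lit 168) (nat_lit 20322788168) (nat_lit 21) (nat_lit 5) (nat_lit 22) (nat_lit 5) (nat_lit 23) (nat_lit 4) (nat_lit 405) (nat_lit 361) (nat_lit 314))) (XT.nd (nat_lit 94) (nat_lit 168) (nat_lit 0) (XT.lf (nat_lit 0) (nat_lit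 7215468485) (nat_lit 84) (nat_lit 25268341178) (nat_lit 84) (nat_lit 3178940940) (nat_lit 20) (nat_lit 4) (nat_lit 21) (nat_lit 5) (nat_lit 21) (nat_lit 4) (nat_lit 406) (nat_lit 361) (nat_lit 313)) (XT.lf (nat_lit 0) (nat_lit 9828543339) (nat_lit 84) (nat_lit 5761541265) (nat_lit 168) (nat_lit 21896397221) (nat_lit 18) (nat_lit 5) (nat_lit 19) (nat_lit 5) (nat_lit 20) (nat_lit 4) (nat_lit 407) (nat_lit 361) (nat_lit 312))))) (XT.nd (nat_lit 376) (nat_lit 504) (nat_lit 0) (XT.nd (nat_lit 188) (nat_lit 252) (nat_lit 0) (XT.nd (nat_lit 94) (nat_lit 168) (nat_lit 0) (XT.lf (nat_lit 0) (nat_lit 12714228897) (nat_lit 84) (nat_lit 23904923893) (nat_lit 84) (nat_lit 2790858308) (nat_lit 17) (nat_lit 4) (nat_lit 18) (nat_lit 5) (nat_lit 18) (nat_lit 4) (nat_lit 408) (nat_lit 361) (nat_lit 311)) (XT.lf (nat_lit 0) (nat_lit 15824259698) (nat_lit 84) (nat_lit 2211056529)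 (nat_lit 168) (nat_lit 23400013232) (nat_lit 15) (nat_lit 5) (nat_lit 16) (nat_lit 5) (nat_lit 17) (nat_lit 4) (nat_lit 409) (nat_lit 361) (nat_lit 310))) (XT.nd (nat_lit 94) (nat_lit 168) (nat_lit 0) (XT.lf (nat_lit 0) (nat_lit 19192724905) (nat_lit 84) (nat_lit 22273485830) (nat_lit 84) (nat_lit 2102354758) (nat_lit 14) (nat_lit 4) (nat_lit 15) (nat_lit 5) (nat_lit 15) (nat_lit 4) (nat_lit 410) (nat_lit 361) (nat_lit 309)) (XT.lf (nat_lit 0) (nat_lit 21040666433) (nat_lit 168) (nat_lit 22971387492) (nat_lit 0) (nat_lit 1803569185) (nat_lit 12) (nat_lit 5) (nat_lit 14) (nat_lit 4) (nat_lit 12) (nat_lit 4) (nat_lit 411) (nat_lit 361) (nat_lit 308)))) (XT.nd (nat_lit 188) (nat_lit 252) (nat_lit 0) (XT.nd (nat_lit 94) (nat_lit 168) (nat_lit 0) (XT.lf (nat_lit 0) (nat_lit 26802856136) (nat_lit 84) (nat_lit 20320696388) (nat_lit 84) (nat_lit 1059065595) (nat_lit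 11) (nat_lit 4) (nat_lit 12) (nat_lit 5) (nat_lit 12) (nat_lit 4) (nat_lit 412) (nat_lit 361) (nat_lit 307)) (XT.lf (nat_lit 0) (nat_lit 24700649381) (nat_lit 168) (nat_lit 19637929001) (nat_lit 0) (nat_lit 6334604583) (nat_lit 9) (nat_lit 5) (nat_lit 11) (nat_lit 4) (nat_lit 9) (nat_lit 4) (nat_lit 413) (nat_lit 361) (nat_lit 306))) (XT.nd (nat_lit 94) (nat_lit 84) (nat_lit 0) (XT.lf (nat_lit 0) (nat_lit 388504305) (nat_lit 168) (nat_lit 17589642932) (nat_lit 84) (nat_lit 35322738750) (nat_lit 7) (nat_lit 5) (nat_lit 9) (nat_lit 5) (nat_lit 8) (nat_lit 4) (nat_lit 414) (nat_lit 361) (nat_lit 305)) (XT.lf (nat_lit 0) (nat_lit 29072656788) (nat_lit 168) (nat_lit 15444207747) (nat_lit 0) (nat_lit 11544442624) (nat_lit 6) (nat_lit 5) (nat_lit 8) (nat_lit 4) (nat_lit 6) (nat_lit 4) (nat_lit 415) (nat_lit 361) (nat_lit 304))))))))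
noncomputable def xc90 : XT := (XT.nd (nat_lit 2632) (nat_lit 0) (nat_lit 0) (XT.nd (nat_lit 1316) (nat_lit 0) (nat_lit 0) (XT.nd (nat_lit 658) (nat_lit 0) (nat_lit 0) (XT.nd (nat_lit 282) (nat_lit 84) (nat_lit 0) (XT.nd (nat_lit 94) (nat_lit 252) (nat_lit 0) (XT.lf (nat_lit 0) (nat_lit 2275153081) (nat_lit 168) (nat_lit 12880506707) (nat_lit 84) (nat_lit 43821191224) (nat_lit 4) (nat_lit 5) (nat_lit 6) (nat_lit 5) (nat_lit 5) (nat_lit 4) (nat_lit 416) (nat_lit 361) (nat_lit 303)) (XT.nd (nat_lit 94) (nat_lit 168) (nat_lit 0) (XT.lf (nat_lit 0) (nat_lit 34261109190) (nat_lit 168) (nat_lit 10238506569) (nat_lit 0) (nat_lit 17537570807) (nat_lit 3) (nat_lit 5) (nat_lit 5) (nat_lit 4) (nat_lit 3) (nat_lit 4) (nat_lit 417) (nat_lit 361) (nat_lit 302)) (XT.lf (nat_lit 0) (nat_lit 4714101762) (nat_lit 168) (nat_lit 7072984953) (nat_lit 84) (nat_lit 53484490153)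 (nat_lit 1) (nat_lit 5) (nat_lit 3) (nat_lit 5) (nat_lit 2) (nat_lit 4) (nat_lit 418) (nat_lit 361) (nat_lit 301)))) (XT.nd (nat_lit 188) (nat_lit 0) (nat_lit 0) (XT.nd (nat_lit 94) (nat_lit 0) (nat_lit 0) (XT.lf (nat_lit 0) (nat_lit 101840564022) (nat_lit 0) (nat_lit 0) (nat_lit 0) (nat_lit 0) (nat_lit 0) (nat_lit 0) (nat_lit 1) (nat_lit 0) (nat_lit 1) (nat_lit 0) (nat_lit 419) (nat_lit 361) (nat_lit 300)) (XT.lf (nat_lit 0) (nat_lit 109893404031) (nat_lit 0) (nat_lit 0) (nat_lit 0) (nat_lit 0) (nat_lit 0) (nat_lit 0) (nat_lit 1) (nat_lit 0) (nat_lit 1) (nat_lit 0) (nat_lit 420) (nat_lit 361) (nat_lit 299))) (XT.nd (nat_lit 94) (nat_lit 0) (nat_lit 0) (XT.lf (nat_lit 0) (nat_lit 118590592264) (nat_lit 0) (nat_lit 0) (nat_lit 0) (nat_lit 0) (nat_lit 0) (nat_lit 0) (nat_lit 1) (nat_lit 0) (nat_lit 1) (nat_lit 0) (nat_lit 421) (nat_lit 361) (nat_lit 298)) (XT.lf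 (nat_lit 0) (nat_lit 127983667614) (nat_lit 0) (nat_lit 0) (nat_lit 0) (nat_lit 0) (nat_lit 0) (nat_lit 0) (nat_lit 1) (nat_lit 0) (nat_lit 1) (nat_lit 0) (nat_lit 422) (nat_lit 361) (nat_lit 297))))) (XT.nd (nat_lit 282) (nat_lit 0) (nat_lit 0) (XT.nd (nat_lit 94) (nat_lit 0) (nat_lit 0) (XT.lf (nat_lit 0) (nat_lit 138128292751) (nat_lit 0) (nat_lit 0) (nat_lit 0) (nat_lit 0) (nat_lit 0) (nat_lit 0) (nat_lit 1) (nat_lit 0) (nat_lit 1) (nat_lit 0) (nat_lit 423) (nat_lit 361) (nat_lit 296)) (XT.nd (nat_lit 94) (nat_lit 0) (nat_lit 0) (XT.lf (nat_lit 0) (nat_lit 149084583972) (nat_lit 0) (nat_lit 0) (nat_lit 0) (nat_lit 0) (nat_lit 0) (nat_lit 0) (nat_lit 1) (nat_lit 0) (nat_lit 1) (nat_lit 0) (nat_lit 424) (nat_lit 361) (nat_lit 295)) (XT.lf (nat_lit 0) (nat_lit 160917467446) (nat_lit 0) (nat_lit 0) (nat_lit 0) (nat_lit 0) (nat_lit 0) (nat_lit 0) (nat_lit 1)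 (nat_lit 0) (nat_lit 1) (nat_lit 0) (nat_lit 425) (nat_lit 361) (nat_lit 294)))) (XT.nd (nat_lit 188) (nat_lit 0) (nat_lit 0) (XT.nd (nat_lit 94) (nat_lit 0) (nat_lit 0) (XT.lf (nat_lit 0) (nat_lit 173697063964) (nat_lit 0) (nat_lit 0) (nat_lit 0) (nat_lit 0) (nat_lit 0) (nat_lit 0) (nat_lit 1) (nat_lit 0) (nat_lit 1) (nat_lit 0) (nat_lit 426) (nat_lit 361) (nat_lit 293)) (XT.lf (nat_lit 0) (nat_lit 187499104470) (nat_lit 0) (nat_lit 0) (nat_lit 0) (nat_lit 0) (nat_lit 0) (nat_lit 0) (nat_lit 1) (nat_lit 0) (nat_lit 1) (nat_lit 0) (nat_lit 427) (nat_lit 361) (nat_lit 292))) (XT.nd (nat_lit 94) (nat_lit 0) (nat_lit 0) (XT.lf (nat_lit 0) (nat_lit 202405378832) (nat_lit 0) (nat_lit 0) (nat_lit 0) (nat_lit 0) (nat_lit 0) (nat_lit 0) (nat_lit 1) (nat_lit 0) (nat_lit 1) (nat_lit 0) (nat_lit 428) (nat_lit 361) (nat_lit 291)) (XT.lf (nat_lit 0) (nat_lit 218504220528)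 (nat_lit 0) (nat_lit 0) (nat_lit 0) (nat_lit 0) (nat_lit 0) (nat_lit 0) (nat_lit 1) (nat_lit 0) (nat_lit 1) (nat_lit 0) (nat_lit 429) (nat_lit 361) (nat_lit 290)))))) (XT.nd (nat_lit 658) (nat_lit 0) (nat_lit 0) (XT.nd (nat_lit 282) (nat_lit 0) (nat_lit 0) (XT.nd (nat_lit 94) (nat_lit 0) (nat_lit 0) (XT.lf (nat_lit 0) (nat_lit 235891030102) (nat_lit 0) (nat_lit 0) (nat_lit 0) (nat_lit 0) (nat_lit 0) (nat_lit 0) (nat_lit 1) (nat_lit 0) (nat_lit 1) (nat_lit 0) (nat_lit 430) (nat_lit 361) (nat_lit 289)) (XT.nd (nat_lit 94) (nat_lit 0) (nat_lit 0) (XT.lf (nat_lit 0) (nat_lit 254668840500) (nat_lit 0) (nat_lit 0) (nat_lit 0) (nat_lit 0) (nat_lit 0) (nat_lit 0) (nat_lit 1) (nat_lit 0) (nat_lit 1) (nat_lit 0) (nat_lit 431) (nat_lit 361) (nat_lit 288)) (XT.lf (nat_lit 0) (nat_lit 274948927634) (nat_lit 0) (nat_lit 0) (nat_lit 0) (nat_lit 0) (nat_lit 0) (nat_lit 0)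 (nat_lit 1) (nat_lit 0) (nat_lit 1) (nat_lit 0) (nat_lit 432) (nat_lit 361) (nat_lit 287)))) (XT.nd (nat_lit 188) (nat_lit 0) (nat_lit 0) (XT.nd (nat_lit 94) (nat_lit 0) (nat_lit 0) (XT.lf (nat_lit 0) (nat_lit 296851469799) (nat_lit 0) (nat_lit 0) (nat_lit 0) (nat_lit 0) (nat_lit 0) (nat_lit 0) (nat_lit 1) (nat_lit 0) (nat_lit 1) (nat_lit 0) (nat_lit 433) (nat_lit 361) (nat_lit 286)) (XT.lf (nat_lit 0) (nat_lit 320506259837) (nat_lit 0) (nat_lit 0) (nat_lit 0) (nat_lit 0) (nat_lit 0) (nat_lit 0) (nat_lit 1) (nat_lit 0) (nat_lit 1) (nat_lit 0) (nat_lit 434) (nat_lit 361) (nat_lit 285))) (XT.nd (nat_lit 94) (nat_lit 0) (nat_lit 0) (XT.lf (nat_lit 0) (nat_lit 346053474283) (nat_lit 0) (nat_lit 0) (nat_lit 0) (nat_lit 0) (nat_lit 0) (nat_lit 0) (nat_lit 1) (nat_lit 0) (nat_lit 1) (nat_lit 0) (nat_lit 435) (nat_lit 361) (nat_lit 284)) (XT.lf (nat_lit 0) (nat_lit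 373644504035) (nat_lit 0) (nat_lit 0) (nat_lit 0) (nat_lit 0) (nat_lit 0) (nat_lit 0) (nat_lit 1) (nat_lit 0) (nat_lit 1) (nat_lit 0) (nat_lit 436) (nat_lit 361) (nat_lit 283))))) (XT.nd (nat_lit 282) (nat_lit 0) (nat_lit 0) (XT.nd (nat_lit 94) (nat_lit 0) (nat_lit 0) (XT.lf (nat_lit 0) (nat_lit 403442851494) (nat_lit 0) (nat_lit 0) (nat_lit 0) (nat_lit 0) (nat_lit 0) (nat_lit 0) (nat_lit 1) (nat_lit 0) (nat_lit 1) (nat_lit 0) (nat_lit 437) (nat_lit 361) (nat_lit 282)) (XT.nd (nat_lit 94) (nat_lit 0) (nat_lit 0) (XT.lf (nat_lit 0) (nat_lit 435625099458) (nat_lit 0) (nat_lit 0) (nat_lit 0) (nat_lit 0) (nat_lit 0) (nat_lit 0) (nat_lit 1) (nat_lit 0) (nat_lit 1) (nat_lit 0) (nat_lit 438) (nat_lit 361) (nat_lit 281)) (XT.lf (nat_lit 0) (nat_lit 470381957545) (nat_lit 0) (nat_lit 0) (nat_lit 0) (nat_lit 0) (nat_lit 0) (nat_lit 0) (nat_lit 1) (nat_lit 0) (nat_lit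 1) (nat_lit 0) (nat_lit 439) (nat_lit 361) (nat_lit 280)))) (XT.nd (nat_lit 188) (nat_lit 0) (nat_lit 0) (XT.nd (nat_lit 94) (nat_lit 0) (nat_lit 0) (XT.lf (nat_lit 0) (nat_lit 507919392323) (nat_lit 0) (nat_lit 0) (nat_lit 0) (nat_lit 0) (nat_lit 0) (nat_lit 0) (nat_lit 1) (nat_lit 0) (nat_lit 1) (nat_lit 0) (nat_lit 440) (nat_lit 361) (nat_lit 279)) (XT.lf (nat_lit 0) (nat_lit 548459847847) (nat_lit 0) (nat_lit 0) (nat_lit 0) (nat_lit 0) (nat_lit 0) (nat_lit 0) (nat_lit 1) (nat_lit 0) (nat_lit 1) (nat_lit 0) (nat_lit 441) (nat_lit 361) (nat_lit 278))) (XT.nd (nat_lit 94) (nat_lit 0) (nat_lit 0) (XT.lf (nat_lit 0) (nat_lit 592243563856) (nat_lit 0) (nat_lit 0) (nat_lit 0) (nat_lit 0) (nat_lit 0) (nat_lit 0) (nat_lit 1) (nat_lit 0) (nat_lit 1) (nat_lit 0) (nat_lit 442) (nat_lit 361) (nat_lit 277)) (XT.lf (nat_lit 0) (nat_lit 639529999406) (nat_lit 0) (nat_lit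 0) (nat_lit 0) (nat_lit 0) (nat_lit 0) (nat_lit 0) (nat_lit 1) (nat_lit 0) (nat_lit 1) (nat_lit 0) (nat_lit 443) (nat_lit 361) (nat_lit 276))))))) (XT.nd (nat_lit 1316) (nat_lit 0) (nat_lit 0) (XT.nd (nat_lit 658) (nat_lit 0) (nat_lit 0) (XT.nd (nat_lit 282) (nat_lit 0) (nat_lit 0) (XT.nd (nat_lit 94) (nat_lit 0) (nat_lit 0) (XT.lf (nat_lit 0) (nat_lit 690599370413) (nat_lit 0) (nat_lit 0) (nat_lit 0) (nat_lit 0) (nat_lit 0) (nat_lit 0) (nat_lit 1) (nat_lit 0) (nat_lit 1) (nat_lit 0) (nat_lit 444) (nat_lit 361) (nat_lit 275)) (XT.nd (nat_lit 94) (nat_lit 0) (nat_lit 0) (XT.lf (nat_lit 0) (nat_lit 745754310185) (nat_lit 0) (nat_lit 0) (nat_lit 0) (nat_lit 0) (nat_lit 0) (nat_lit 0) (nat_lit 1) (nat_lit 0) (nat_lit 1) (nat_lit 0) (nat_lit 445) (nat_lit 361) (nat_lit 274)) (XT.lf (nat_lit 0) (nat_lit 805321662811) (nat_lit 0) (nat_lit 0) (nat_lit 0) (nat_lit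 0) (nat_lit 0) (nat_lit 0) (nat_lit 1) (nat_lit 0) (nat_lit 1) (nat_lit 0) (nat_lit 446) (nat_lit 361) (nat_lit 273)))) (XT.nd (nat_lit 188) (nat_lit 0) (nat_lit 0) (XT.nd (nat_lit 94) (nat_lit 0) (nat_lit 0) (XT.lf (nat_lit 0) (nat_lit 869654420010) (nat_lit 0) (nat_lit 0) (nat_lit 0) (nat_lit 0) (nat_lit 0) (nat_lit 0) (nat_lit 1) (nat_lit 0) (nat_lit 1) (nat_lit 0) (nat_lit 447) (nat_lit 361) (nat_lit 272)) (XT.lf (nat_lit 0) (nat_lit 939133812935) (nat_lit 0) (nat_lit 0) (nat_lit 0) (nat_lit 0) (nat_lit 0) (nat_lit 0) (nat_lit 1) (nat_lit 0) (nat_lit 1) (nat_lit 0) (nat_lit 448) (nat_lit 361) (nat_lit 271))) (XT.nd (nat_lit 94) (nat_lit 0) (nat_lit 0) (XT.lf (nat_lit 0) (nat_lit 1014171571323) (nat_lit 0) (nat_lit 0) (nat_lit 0) (nat_lit 0) (nat_lit 0) (nat_lit 0) (nat_lit 1) (nat_lit 0) (nat_lit 1) (nat_lit 0) (nat_lit 449) (nat_lit 361) (nat_lit 270))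 (XT.lf (nat_lit 0) (nat_lit 1095212363370) (nat_lit 0) (nat_lit 0) (nat_lit 0) (nat_lit 0) (nat_lit 0) (nat_lit 0) (nat_lit 1) (nat_lit 0) (nat_lit 1) (nat_lit 0) (nat_lit 450) (nat_lit 361) (nat_lit 269))))) (XT.nd (nat_lit 282) (nat_lit 0) (nat_lit 0) (XT.nd (nat_lit 94) (nat_lit 0) (nat_lit 0) (XT.lf (nat_lit 0) (nat_lit 1182736430809) (nat_lit 0) (nat_lit 0) (nat_lit 0) (nat_lit 0) (nat_lit 0) (nat_lit 0) (nat_lit 1) (nat_lit 0) (nat_lit 1) (nat_lit 0) (nat_lit 451) (nat_lit 361) (nat_lit 268)) (XT.nd (nat_lit 94) (nat_lit 0) (nat_lit 0) (XT.lf (nat_lit 0) (nat_lit 1277262434778) (nat_lit 0) (nat_lit 0) (nat_lit 0) (nat_lit 0) (nat_lit 0) (nat_lit 0) (nat_lit 1) (nat_lit 0) (nat_lit 1) (nat_lit 0) (nat_lit 452) (nat_lit 361) (nat_lit 267)) (XT.lf (nat_lit 0) (nat_lit 1379350529377) (nat_lit 0) (nat_lit 0) (nat_lit 0) (nat_lit 0) (nat_lit 0) (nat_lit 0)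 (nat_lit 1) (nat_lit 0) (nat_lit 1) (nat_lit 0) (nat_lit 453) (nat_lit 361) (nat_lit 266)))) (XT.nd (nat_lit 188) (nat_lit 0) (nat_lit 0) (XT.nd (nat_lit 94) (nat_lit 0) (nat_lit 0) (XT.lf (nat_lit 0) (nat_lit 1489605681091) (nat_lit 0) (nat_lit 0) (nat_lit 0) (nat_lit 0) (nat_lit 0) (nat_lit 0) (nat_lit 1) (nat_lit 0) (nat_lit 1) (nat_lit 0) (nat_lit 454) (nat_lit 361) (nat_lit 265)) (XT.lf (nat_lit 0) (nat_lit 1608681253782) (nat_lit 0) (nat_lit 0) (nat_lit 0) (nat_lit 0) (nat_lit 0) (nat_lit 0) (nat_lit 1) (nat_lit 0) (nat_lit 1) (nat_lit 0) (nat_lit 455) (nat_lit 361) (nat_lit 264))) (XT.nd (nat_lit 94) (nat_lit 0) (nat_lit 0) (XT.lf (nat_lit 0) (nat_lit 1737282880473) (nat_lit 0) (nat_lit 0) (nat_lit 0) (nat_lit 0) (nat_lit 0) (nat_lit 0) (nat_lit 1) (nat_lit 0) (nat_lit 1) (nat_lit 0) (nat_lit 456) (nat_lit 361) (nat_lit 263)) (XT.lf (nat_lit 0) (nat_lit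 1876172644879) (nat_lit 0) (nat_lit 0) (nat_lit 0) (nat_lit 0) (nat_lit 0) (nat_lit 0) (nat_lit 1) (nat_lit 0) (nat_lit 1) (nat_lit 0) (nat_lit 457) (nat_lit 361) (nat_lit 262)))))) (XT.nd (nat_lit 658) (nat_lit 0) (nat_lit 0) (XT.nd (nat_lit 282) (nat_lit 0) (nat_lit 0) (XT.nd (nat_lit 94) (nat_lit 0) (nat_lit 0) (XT.lf (nat_lit 0) (nat_lit 2026173597456) (nat_lit 0) (nat_lit 0) (nat_lit 0) (nat_lit 0) (nat_lit 0) (nat_lit 0) (nat_lit 1) (nat_lit 0) (nat_lit 1) (nat_lit 0) (nat_lit 458) (nat_lit 361) (nat_lit 261)) (XT.nd (nat_lit 94) (nat_lit 0) (nat_lit 0) (XT.lf (nat_lit 0) (nat_lit 2188174632736) (nat_lit 0) (nat_lit 0) (nat_lit 0) (nat_lit 0) (nat_lit 0) (nat_lit 0) (nat_lit 1) (nat_lit 0) (nat_lit 1) (nat_lit 0) (nat_lit 459) (nat_lit 361) (nat_lit 260)) (XT.lf (nat_lit 0) (nat_lit 2363135756855) (nat_lit 0) (nat_lit 0) (nat_lit 0) (nat_lit 0) (nat_lit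 0) (nat_lit 0) (nat_lit 1) (nat_lit 0) (nat_lit 1) (nat_lit 0) (nat_lit 460) (nat_lit 361) (nat_lit 259)))) (XT.nd (nat_lit 188) (nat_lit 0) (nat_lit 0) (XT.nd (nat_lit 94) (nat_lit 0) (nat_lit 0) (XT.lf (nat_lit 0) (nat_lit 2552093776474) (nat_lit 0) (nat_lit 0) (nat_lit 0) (nat_lit 0) (nat_lit 0) (nat_lit 0) (nat_lit 1) (nat_lit 0) (nat_lit 1) (nat_lit 0) (nat_lit 461) (nat_lit 361) (nat_lit 258)) (XT.lf (nat_lit 0) (nat_lit 2756168442821) (nat_lit 0) (nat_lit 0) (nat_lit 0) (nat_lit 0) (nat_lit 0) (nat_lit 0) (nat_lit 1) (nat_lit 0) (nat_lit 1) (nat_lit 0) (nat_lit 462) (nat_lit 361) (nat_lit 257))) (XT.nd (nat_lit 94) (nat_lit 0) (nat_lit 0) (XT.lf (nat_lit 0) (nat_lit 2976569087252) (nat_lit 0) (nat_lit 0) (nat_lit 0) (nat_lit 0) (nat_lit 0) (nat_lit 0) (nat_lit 1) (nat_lit 0) (nat_lit 1) (nat_lit 0) (nat_lit 463) (nat_lit 361) (nat_lit 256)) (XT.lf (nat_lit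 0) (nat_lit 3214601787660) (nat_lit 0) (nat_lit 0) (nat_lit 0) (nat_lit 0) (nat_lit 0) (nat_lit 0) (nat_lit 1) (nat_lit 0) (nat_lit 1) (nat_lit 0) (nat_lit 464) (nat_lit 361) (nat_lit 255))))) (XT.nd (nat_lit 376) (nat_lit 0) (nat_lit 0) (XT.nd (nat_lit 188) (nat_lit 0) (nat_lit 0) (XT.nd (nat_lit 94) (nat_lit 0) (nat_lit 0) (XT.lf (nat_lit 0) (nat_lit 3471677108195) (nat_lit 0) (nat_lit 0) (nat_lit 0) (nat_lit 0) (nat_lit 0) (nat_lit 0) (nat_lit 1) (nat_lit 0) (nat_lit 1) (nat_lit 0) (nat_lit 465) (nat_lit 361) (nat_lit 254)) (XT.lf (nat_lit 0) (nat_lit 3749318458165) (nat_lit 0) (nat_lit 0) (nat_lit 0) (nat_lit 0) (nat_lit 0) (nat_lit 0) (nat_lit 1) (nat_lit 0) (nat_lit 1) (nat_lit 0) (nat_lit 466) (nat_lit 361) (nat_lit 253))) (XT.nd (nat_lit 94) (nat_lit 0) (nat_lit 0) (XT.lf (nat_lit 0) (nat_lit 4049171119642) (nat_lit 0) (nat_lit 0) (nat_lit 0) (nat_lit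 0) (nat_lit 0) (nat_lit 0) (nat_lit 1) (nat_lit 0) (nat_lit 1) (nat_lit 0) (nat_lit 467) (nat_lit 361) (nat_lit 252)) (XT.lf (nat_lit 0) (nat_lit 4373011997289) (nat_lit 0) (nat_lit 0) (nat_lit 0) (nat_lit 0) (nat_lit 0) (nat_lit 0) (nat_lit 1) (nat_lit 0) (nat_lit 1) (nat_lit 0) (nat_lit 468) (nat_lit 361) (nat_lit 251)))) (XT.nd (nat_lit 188) (nat_lit 0) (nat_lit 0) (XT.nd (nat_lit 94) (nat_lit 0) (nat_lit 0) (XT.lf (nat_lit 0) (nat_lit 4722760148156) (nat_lit 0) (nat_lit 0) (nat_lit 0) (nat_lit 0) (nat_lit 0) (nat_lit 0) (nat_lit 1) (nat_lit 0) (nat_lit 1) (nat_lit 0) (nat_lit 469) (nat_lit 361) (nat_lit 250)) (XT.lf (nat_lit 0) (nat_lit 5100488153880) (nat_lit 0) (nat_lit 0) (nat_lit 0) (nat_lit 0) (nat_lit 0) (nat_lit 0) (nat_lit 1) (nat_lit 0) (nat_lit 1) (nat_lit 0) (nat_lit 470) (nat_lit 361) (nat_lit 249))) (XT.nd (nat_lit 94) (nat_lit 0) (nat_lit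 0) (XT.lf (nat_lit 0) (nat_lit 5508434402642) (nat_lit 0) (nat_lit 0) (nat_lit 0) (nat_lit 0) (nat_lit 0) (nat_lit 0) (nat_lit 1) (nat_lit 0) (nat_lit 1) (nat_lit 0) (nat_lit 471) (nat_lit 361) (nat_lit 248)) (XT.lf (nat_lit 0) (nat_lit 5949016353695) (nat_lit 0) (nat_lit 0) (nat_lit 0) (nat_lit 0) (nat_lit 0) (nat_lit 0) (nat_lit 1) (nat_lit 0) (nat_lit 1) (nat_lit 0) (nat_lit 472) (nat_lit 361) (nat_lit 247))))))))
noncomputable def xc91 : XT := (XT.nd (nat_lit 57622) (nat_lit 0) (nat_lit 3864) (XT.nd (nat_lit 1316) (nat_lit 0) (nat_lit 0) (XT.nd (nat_lit 658) (nat_lit 0) (nat_lit 0) (XT.nd (nat_lit 282) (nat_lit 0) (nat_lit 0) (XT.nd (nat_lit 94) (nat_lit 0) (nat_lit 0) (XT.lf (nat_lit 0) (nat_lit 6424844863044) (nat_lit 0) (nat_lit 0) (nat_lit 0) (nat_lit 0) (nat_lit 0) (nat_lit 0) (nat_lit 1) (nat_lit 0) (nat_lit 1) (nat_lit 0) (nat_lit 473) (nat_lit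 361) (nat_lit 246)) (XT.nd (nat_lit 94) (nat_lit 0) (nat_lit 0) (XT.lf (nat_lit 0) (nat_lit 6938739655189) (nat_lit 0) (nat_lit 0) (nat_lit 0) (nat_lit 0) (nat_lit 0) (nat_lit 0) (nat_lit 1) (nat_lit 0) (nat_lit 1) (nat_lit 0) (nat_lit 474) (nat_lit 361) (nat_lit 245)) (XT.lf (nat_lit 0) (nat_lit 7493746032602) (nat_lit 0) (nat_lit 0) (nat_lit 0) (nat_lit 0) (nat_lit 0) (nat_lit 0) (nat_lit 1) (nat_lit 0) (nat_lit 1) (nat_lit 0) (nat_lit 475) (nat_lit 361) (nat_lit 244)))) (XT.nd (nat_lit 188) (nat_lit 0) (nat_lit 0) (XT.nd (nat_lit 94) (nat_lit 0) (nat_lit 0) (XT.lf (nat_lit 0) (nat_lit 8093152921965) (nat_lit 0) (nat_lit 0) (nat_lit 0) (nat_lit 0) (nat_lit 0) (nat_lit 0) (nat_lit 1) (nat_lit 0) (nat_lit 1) (nat_lit 0) (nat_lit 476) (nat_lit 361) (nat_lit 243)) (XT.lf (nat_lit 0) (nat_lit 8740512364102) (nat_lit 0) (nat_lit 0) (nat_lit 0) (nat_lit 0) (nat_lit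 0) (nat_lit 0) (nat_lit 1) (nat_lit 0) (nat_lit 1) (nat_lit 0) (nat_lit 477) (nat_lit 361) (nat_lit 242))) (XT.nd (nat_lit 94) (nat_lit 0) (nat_lit 0) (XT.lf (nat_lit 0) (nat_lit 9439660563117) (nat_lit 0) (nat_lit 0) (nat_lit 0) (nat_lit 0) (nat_lit 0) (nat_lit 0) (nat_lit 1) (nat_lit 0) (nat_lit 1) (nat_lit 0) (nat_lit 478) (nat_lit 361) (nat_lit 241)) (XT.lf (nat_lit 0) (nat_lit 10194740619446) (nat_lit 0) (nat_lit 0) (nat_lit 0) (nat_lit 0) (nat_lit 0) (nat_lit 0) (nat_lit 1) (nat_lit 0) (nat_lit 1) (nat_lit 0) (nat_lit 479) (nat_lit 361) (nat_lit 240))))) (XT.nd (nat_lit 282) (nat_lit 0) (nat_lit 0) (XT.nd (nat_lit 94) (nat_lit 0) (nat_lit 0) (XT.lf (nat_lit 0) (nat_lit 11010227081573) (nat_lit 0) (nat_lit 0) (nat_lit 0) (nat_lit 0) (nat_lit 0) (nat_lit 0) (nat_lit 1) (nat_lit 0) (nat_lit 1) (nat_lit 0) (nat_lit 480) (nat_lit 361) (nat_lit 239)) (XT.nd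 (nat_lit 94) (nat_lit 0) (nat_lit 0) (XT.lf (nat_lit 0) (nat_lit 11890952461865) (nat_lit 0) (nat_lit 0) (nat_lit 0) (nat_lit 0) (nat_lit 0) (nat_lit 0) (nat_lit 1) (nat_lit 0) (nat_lit 1) (nat_lit 0) (nat_lit 481) (nat_lit 361) (nat_lit 238)) (XT.lf (nat_lit 0) (nat_lit 12842135873687) (nat_lit 0) (nat_lit 0) (nat_lit 0) (nat_lit 0) (nat_lit 0) (nat_lit 0) (nat_lit 1) (nat_lit 0) (nat_lit 1) (nat_lit 0) (nat_lit 482) (nat_lit 361) (nat_lit 237)))) (XT.nd (nat_lit 188) (nat_lit 0) (nat_lit 0) (XT.nd (nat_lit 94) (nat_lit 0) (nat_lit 0) (XT.lf (nat_lit 0) (nat_lit 13869413959480) (nat_lit 0) (nat_lit 0) (nat_lit 0) (nat_lit 0) (nat_lit 0) (nat_lit 0) (nat_lit 1) (nat_lit 0) (nat_lit 1) (nat_lit 0) (nat_lit 483) (nat_lit 361) (nat_lit 236)) (XT.lf (nat_lit 0) (nat_lit 14978874293085) (nat_lit 0) (nat_lit 0) (nat_lit 0) (nat_lit 0) (nat_lit 0) (nat_lit 0) (nat_lit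 1) (nat_lit 0) (nat_lit 1) (nat_lit 0) (nat_lit 484) (nat_lit 361) (nat_lit 235))) (XT.nd (nat_lit 94) (nat_lit 0) (nat_lit 0) (XT.lf (nat_lit 0) (nat_lit 16177091454257) (nat_lit 0) (nat_lit 0) (nat_lit 0) (nat_lit 0) (nat_lit 0) (nat_lit 0) (nat_lit 1) (nat_lit 0) (nat_lit 1) (nat_lit 0) (nat_lit 485) (nat_lit 361) (nat_lit 234)) (XT.lf (nat_lit 0) (nat_lit 17471165989136) (nat_lit 0) (nat_lit 0) (nat_lit 0) (nat_lit 0) (nat_lit 0) (nat_lit 0) (nat_lit 1) (nat_lit 0) (nat_lit 1) (nat_lit 0) (nat_lit 486) (nat_lit 361) (nat_lit 233)))))) (XT.nd (nat_lit 658) (nat_lit 0) (nat_lit 0) (XT.nd (nat_lit 282) (nat_lit 0) (nat_lit 0) (XT.nd (nat_lit 94) (nat_lit 0) (nat_lit 0) (XT.lf (nat_lit 0) (nat_lit 18868766487558) (nat_lit 0) (nat_lit 0) (nat_lit 0) (nat_lit 0) (nat_lit 0) (nat_lit 0) (nat_lit 1) (nat_lit 0) (nat_lit 1) (nat_lit 0) (nat_lit 487) (nat_lit 361)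 (nat_lit 232)) (XT.nd (nat_lit 94) (nat_lit 0) (nat_lit 0) (XT.lf (nat_lit 0) (nat_lit 20378175026552) (nat_lit 0) (nat_lit 0) (nat_lit 0) (nat_lit 0) (nat_lit 0) (nat_lit 0) (nat_lit 1) (nat_lit 0) (nat_lit 1) (nat_lit 0) (nat_lit 488) (nat_lit 361) (nat_lit 231)) (XT.lf (nat_lit 0) (nat_lit 22008336249311) (nat_lit 0) (nat_lit 0) (nat_lit 0) (nat_lit 0) (nat_lit 0) (nat_lit 0) (nat_lit 1) (nat_lit 0) (nat_lit 1) (nat_lit 0) (nat_lit 489) (nat_lit 361) (nat_lit 230)))) (XT.nd (nat_lit 188) (nat_lit 0) (nat_lit 0) (XT.nd (nat_lit 94) (nat_lit 0) (nat_lit 0) (XT.lf (nat_lit 0) (nat_lit 23768910370488) (nat_lit 0) (nat_lit 0) (nat_lit 0) (nat_lit 0) (nat_lit 0) (nat_lit 0) (nat_lit 1) (nat_lit 0) (nat_lit 1) (nat_lit 0) (nat_lit 490) (nat_lit 361) (nat_lit 229)) (XT.lf (nat_lit 0) (nat_lit 25670330421914) (nat_lit 0) (nat_lit 0) (nat_lit 0) (nat_lit 0) (nat_lit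 0) (nat_lit 0) (nat_lit 1) (nat_lit 0) (nat_lit 1) (nat_lit 0) (nat_lit 491) (nat_lit 361) (nat_lit 228))) (XT.nd (nat_lit 94) (nat_lit 0) (nat_lit 0) (XT.lf (nat_lit 0) (nat_lit 27723864077966) (nat_lit 0) (nat_lit 0) (nat_lit 0) (nat_lit 0) (nat_lit 0) (nat_lit 0) (nat_lit 1) (nat_lit 0) (nat_lit 1) (nat_lit 0) (nat_lit 492) (nat_lit 361) (nat_lit 227)) (XT.lf (nat_lit 0) (nat_lit 29941680426977) (nat_lit 0) (nat_lit 0) (nat_lit 0) (nat_lit 0) (nat_lit 0) (nat_lit 0) (nat_lit 1) (nat_lit 0) (nat_lit 1) (nat_lit 0) (nat_lit 493) (nat_lit 361) (nat_lit 226))))) (XT.nd (nat_lit 282) (nat_lit 0) (nat_lit 0) (XT.nd (nat_lit 94) (nat_lit 0) (nat_lit 0) (XT.lf (nat_lit 0) (nat_lit 32336922084348) (nat_lit 0) (nat_lit 0) (nat_lit 0) (nat_lit 0) (nat_lit 0) (nat_lit 0) (nat_lit 1) (nat_lit 0) (nat_lit 1) (nat_lit 0) (nat_lit 494) (nat_lit 361) (nat_lit 225)) (XT.nd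 (nat_lit 94) (nat_lit 0) (nat_lit 0) (XT.lf (nat_lit 0) (nat_lit 34923783074715) (nat_lit 0) (nat_lit 0) (nat_lit 0) (nat_lit 0) (nat_lit 0) (nat_lit 0) (nat_lit 1) (nat_lit 0) (nat_lit 1) (nat_lit 0) (nat_lit 495) (nat_lit 361) (nat_lit 224)) (XT.lf (nat_lit 0) (nat_lit 37717592944689) (nat_lit 0) (nat_lit 0) (nat_lit 0) (nat_lit 0) (nat_lit 0) (nat_lit 0) (nat_lit 1) (nat_lit 0) (nat_lit 1) (nat_lit 0) (nat_lit 496) (nat_lit 361) (nat_lit 223)))) (XT.nd (nat_lit 55178) (nat_lit 0) (nat_lit 14784) (XT.nd (nat_lit 55084) (nat_lit 0) (nat_lit 15204) (XT.lf (nat_lit 0) (nat_lit 40734907604610) (nat_lit 0) (nat_lit 0) (nat_lit 0) (nat_lit 0) (nat_lit 0) (nat_lit 0) (nat_lit 1) (nat_lit 0) (nat_lit 1) (nat_lit 0) (nat_lit 497) (nat_lit 361) (nat_lit 222)) (XT.lf (nat_lit 0) (nat_lit 1302911646) (nat_lit 0) (nat_lit 1302911646) (nat_lit 252) (nat_lit 671810613)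 (nat_lit 181) (nat_lit 5) (nat_lit 181) (nat_lit 3) (nat_lit 184) (nat_lit 3) (nat_lit 362) (nat_lit 362) (nat_lit 356))) (XT.nd (nat_lit 94) (nat_lit 0) (nat_lit 84) (XT.lf (nat_lit 84) (nat_lit 1320822697) (nat_lit 0) (nat_lit 1252434066) (nat_lit 420) (nat_lit 4049017681) (nat_lit 177) (nat_lit 5) (nat_lit 176) (nat_lit 3) (nat_lit 181) (nat_lit 5) (nat_lit 363) (nat_lit 362) (nat_lit 355)) (XT.lf (nat_lit 84) (nat_lit 207687306) (nat_lit 0) (nat_lit 6234606208) (nat_lit 420) (nat_lit 266952641) (nat_lit 178) (nat_lit 5) (nat_lit 177) (nat_lit 5) (nat_lit 182) (nat_lit 5) (nat_lit 364) (nat_lit 362) (nat_lit 354))))))) (XT.nd (nat_lit 1316) (nat_lit 4032) (nat_lit 0) (XT.nd (nat_lit 658) (nat_lit 3444) (nat_lit 0) (XT.nd (nat_lit 282) (nat_lit 2604) (nat_lit 0) (XT.nd (nat_lit 94) (nat_lit 504) (nat_lit 0) (XT.lf (nat_lit 0) (nat_lit 3438767311) (nat_lit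 420) (nat_lit 770478114) (nat_lit 504) (nat_lit 2603785983) (nat_lit 172) (nat_lit 5) (nat_lit 177) (nat_lit 5) (nat_lit 178) (nat_lit 5) (nat_lit 365) (nat_lit 362) (nat_lit 353)) (XT.nd (nat_lit 94) (nat_lit 0) (nat_lit 84) (XT.lf (nat_lit 0) (nat_lit 225964771) (nat_lit 504) (nat_lit 1574212241) (nat_lit 588) (nat_lit 5137553584) (nat_lit 166) (nat_lit 5) (nat_lit 172) (nat_lit 5) (nat_lit 173) (nat_lit 5) (nat_lit 366) (nat_lit 362) (nat_lit 352)) (XT.lf (nat_lit 0) (nat_lit 3775835216) (nat_lit 504) (nat_lit 2277188116) (nat_lit 84) (nat_lit 1027624544) (nat_lit 167) (nat_lit 5) (nat_lit 173) (nat_lit 5) (nat_lit 168) (nat_lit 5) (nat_lit 367) (nat_lit 362) (nat_lit 351)))) (XT.nd (nat_lit 188) (nat_lit 1512) (nat_lit 0) (XT.nd (nat_lit 94) (nat_lit 588) (nat_lit 0) (XT.lf (nat_lit 0) (nat_lit 181868237) (nat_lit 588) (nat_lit 2850552148) (nat_lit 84)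 (nat_lit 4211327444) (nat_lit 160) (nat_lit 5) (nat_lit 167) (nat_lit 5) (nat_lit 161) (nat_lit 5) (nat_lit 368) (nat_lit 362) (nat_lit 350)) (XT.lf (nat_lit 0) (nat_lit 3654620354) (nat_lit 672) (nat_lit 3325132513) (nat_lit 84) (nat_lit 446287984) (nat_lit 153) (nat_lit 5) (nat_lit 161) (nat_lit 5) (nat_lit 154) (nat_lit 5) (nat_lit 369) (nat_lit 362) (nat_lit 349))) (XT.nd (nat_lit 94) (nat_lit 840) (nat_lit 0) (XT.lf (nat_lit 0) (nat_lit 3931884610) (nat_lit 672) (nat_lit 3364973741) (nat_lit 756) (nat_lit 331475678) (nat_lit 145) (nat_lit 5) (nat_lit 153) (nat_lit 5) (nat_lit 154) (nat_lit 5) (nat_lit 370) (nat_lit 362) (nat_lit 348)) (XT.lf (nat_lit 0) (nat_lit 3147708407) (nat_lit 840) (nat_lit 3978324535) (nat_lit 84) (nat_lit 724519192) (nat_lit 135) (nat_lit 5) (nat_lit 145) (nat_lit 5) (nat_lit 136) (nat_lit 5) (nat_lit 371) (nat_lit 362) (nat_lit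 347))))) (XT.nd (nat_lit 282) (nat_lit 1596) (nat_lit 0) (XT.nd (nat_lit 94) (nat_lit 1008) (nat_lit 0) (XT.lf (nat_lit 0) (nat_lit 3920317359) (nat_lit 840) (nat_lit 2914072090) (nat_lit 924) (nat_lit 1258847760) (nat_lit 125) (nat_lit 5) (nat_lit 135) (nat_lit 5) (nat_lit 136) (nat_lit 5) (nat_lit 372) (nat_lit 362) (nat_lit 346)) (XT.nd (nat_lit 94) (nat_lit 420) (nat_lit 0) (XT.lf (nat_lit 0) (nat_lit 2312773048) (nat_lit 588) (nat_lit 4284279588) (nat_lit 84) (nat_lit 1759820463) (nat_lit 118) (nat_lit 5) (nat_lit 125) (nat_lit 5) (nat_lit 119) (nat_lit 5) (nat_lit 373) (nat_lit 362) (nat_lit 345)) (XT.lf (nat_lit 0) (nat_lit 4324386871) (nat_lit 420) (nat_lit 1774459768) (nat_lit 504) (nat_lit 2543080028) (nat_lit 113) (nat_lit 5) (nat_lit 118) (nat_lit 5) (nat_lit 119) (nat_lit 5) (nat_lit 374) (nat_lit 362) (nat_lit 344)))) (XT.nd (nat_lit 188) (nat_lit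 756) (nat_lit 0) (XT.nd (nat_lit 94) (nat_lit 336) (nat_lit 0) (XT.lf (nat_lit 0) (nat_lit 1195256626) (nat_lit 504) (nat_lit 4276418078) (nat_lit 84) (nat_lit 3477300394) (nat_lit 107) (nat_lit 5) (nat_lit 113) (nat_lit 5) (nat_lit 108) (nat_lit 5) (nat_lit 375) (nat_lit 362) (nat_lit 343)) (XT.lf (nat_lit 0) (nat_lit 5121376453) (nat_lit 336) (nat_lit 12487100) (nat_lit 420) (nat_lit 4145124336) (nat_lit 103) (nat_lit 5) (nat_lit 107) (nat_lit 5) (nat_lit 108) (nat_lit 5) (nat_lit 376) (nat_lit 362) (nat_lit 342))) (XT.nd (nat_lit 94) (nat_lit 420) (nat_lit 0) (XT.lf (nat_lit 0) (nat_lit 5653263864) (nat_lit 336) (nat_lit 3803627735) (nat_lit 420) (nat_lit 175043474) (nat_lit 99) (nat_lit 5) (nat_lit 103) (nat_lit 5) (nat_lit 104) (nat_lit 5) (nat_lit 377) (nat_lit 362) (nat_lit 341)) (XT.lf (nat_lit 0) (nat_lit 4010591542) (nat_lit 420) (nat_lit 3745216449)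 (nat_lit 84) (nat_lit 2252620649) (nat_lit 94) (nat_lit 5) (nat_lit 99) (nat_lit 5) (nat_lit 95) (nat_lit 5) (nat_lit 378) (nat_lit 362) (nat_lit 340)))))) (XT.nd (nat_lit 658) (nat_lit 1848) (nat_lit 0) (XT.nd (nat_lit 282) (nat_lit 1176) (nat_lit 0) (XT.nd (nat_lit 94) (nat_lit 672) (nat_lit 0) (XT.lf (nat_lit 0) (nat_lit 6989656098) (nat_lit 336) (nat_lit 1609363159) (nat_lit 420) (nat_lit 1812175229) (nat_lit 90) (nat_lit 5) (nat_lit 94) (nat_lit 5) (nat_lit 95) (nat_lit 5) (nat_lit 379) (nat_lit 362) (nat_lit 339)) (XT.nd (nat_lit 94) (nat_lit 336) (nat_lit 0) (XT.lf (nat_lit 0) (nat_lit 2729176435) (nat_lit 336) (nat_lit 3058268165) (nat_lit 84) (nat_lit 5051246729) (nat_lit 86) (nat_lit 5) (nat_lit 90) (nat_lit 5) (nat_lit 87) (nat_lit 5) (nat_lit 380) (nat_lit 362) (nat_lit 338)) (XT.lf (nat_lit 0) (nat_lit 7656534176) (nat_lit 420) (nat_lit 2602776428)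 (nat_lit 84) (nat_lit 1035282539) (nat_lit 82) (nat_lit 5) (nat_lit 87) (nat_lit 5) (nat_lit 83) (nat_lit 5) (nat_lit 381) (nat_lit 362) (nat_lit 337)))) (XT.nd (nat_lit 188) (nat_lit 588) (nat_lit 0) (XT.nd (nat_lit 94) (nat_lit 252) (nat_lit 0) (XT.lf (nat_lit 0) (nat_lit 1311174269) (nat_lit 336) (nat_lit 2092445655) (nat_lit 84) (nat_lit 8374508152) (nat_lit 78) (nat_lit 5) (nat_lit 82) (nat_lit 5) (nat_lit 79) (nat_lit 5) (nat_lit 382) (nat_lit 362) (nat_lit 336)) (XT.lf (nat_lit 0) (nat_lit 6669565904) (nat_lit 336) (nat_lit 1529696301) (nat_lit 84) (nat_lit 4091067603) (nat_lit 75) (nat_lit 5) (nat_lit 79) (nat_lit 5) (nat_lit 76) (nat_lit 5) (nat_lit 383) (nat_lit 362) (nat_lit 335))) (XT.nd (nat_lit 94) (nat_lit 336) (nat_lit 0) (XT.lf (nat_lit 0) (nat_lit 11997528150) (nat_lit 252) (nat_lit 605138131) (nat_lit 336) (nat_lit 233539527) (nat_lit 72)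 (nat_lit 5) (nat_lit 75) (nat_lit 5) (nat_lit 76) (nat_lit 5) (nat_lit 384) (nat_lit 362) (nat_lit 334)) (XT.lf (nat_lit 0) (nat_lit 5633907276) (nat_lit 336) (nat_lit 160216430) (nat_lit 84) (nat_lit 7615869142) (nat_lit 68) (nat_lit 5) (nat_lit 72) (nat_lit 5) (nat_lit 69) (nat_lit 5) (nat_lit 385) (nat_lit 362) (nat_lit 333))))) (XT.nd (nat_lit 376) (nat_lit 756) (nat_lit 0) (XT.nd (nat_lit 188) (nat_lit 420) (nat_lit 0) (XT.nd (nat_lit 94) (nat_lit 252) (nat_lit 0) (XT.lf (nat_lit 0) (nat_lit 685632299) (nat_lit 252) (nat_lit 11458762190) (nat_lit 336) (nat_lit 1876005599) (nat_lit 63) (nat_lit 5) (nat_lit 66) (nat_lit 5) (nat_lit 67) (nat_lit 5) (nat_lit 386) (nat_lit 362) (nat_lit 332)) (XT.lf (nat_lit 0) (nat_lit 1581321224) (nat_lit 168) (nat_lit 3011531220) (nat_lit 252) (nat_lit 10071243925) (nat_lit 60) (nat_lit 5) (nat_lit 62) (nat_lit 5) (nat_lit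 63) (nat_lit 5) (nat_lit 387) (nat_lit 362) (nat_lit 331))) (XT.nd (nat_lit 94) (nat_lit 252) (nat_lit 0) (XT.lf (nat_lit 0) (nat_lit 2572368682) (nat_lit 168) (nat_lit 9193787068) (nat_lit 252) (nat_lit 3578961758) (nat_lit 58) (nat_lit 5) (nat_lit 60) (nat_lit 5) (nat_lit 61) (nat_lit 5) (nat_lit 388) (nat_lit 362) (nat_lit 330)) (XT.lf (nat_lit 0) (nat_lit 3549391712) (nat_lit 252) (nat_lit 12374532581) (nat_lit 84) (nat_lit 142688505) (nat_lit 55) (nat_lit 5) (nat_lit 58) (nat_lit 5) (nat_lit 56) (nat_lit 5) (nat_lit 389) (nat_lit 362) (nat_lit 329)))) (XT.nd (nat_lit 188) (nat_lit 336) (nat_lit 0) (XT.nd (nat_lit 94) (nat_lit 252) (nat_lit 0) (XT.lf (nat_lit 0) (nat_lit 4842011581) (nat_lit 168) (nat_lit 6627735030) (nat_lit 252) (nat_lit 5355791399) (nat_lit 53) (nat_lit 5) (nat_lit 55) (nat_lit 5) (nat_lit 56) (nat_lit 5) (nat_lit 390) (nat_lit 362)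 (nat_lit 328)) (XT.lf (nat_lit 0) (nat_lit 2568802694) (nat_lit 252) (nat_lit 11473847102) (nat_lit 84) (nat_lit 3587351720) (nat_lit 50) (nat_lit 5) (nat_lit 53) (nat_lit 5) (nat_lit 51) (nat_lit 5) (nat_lit 391) (nat_lit 362) (nat_lit 327))) (XT.nd (nat_lit 94) (nat_lit 168) (nat_lit 0) (XT.lf (nat_lit 0) (nat_lit 7541746022) (nat_lit 168) (nat_lit 3738574685) (nat_lit 252) (nat_lit 7197081542) (nat_lit 48) (nat_lit 5) (nat_lit 50) (nat_lit 5) (nat_lit 51) (nat_lit 5) (nat_lit 392) (nat_lit 362) (nat_lit 326)) (XT.lf (nat_lit 0) (nat_lit 1621451429) (nat_lit 168) (nat_lit 10298953552) (nat_lit 84) (nat_lit 7452839636) (nat_lit 46) (nat_lit 5) (nat_lit 48) (nat_lit 5) (nat_lit 47) (nat_lit 5) (nat_lit 393) (nat_lit 362) (nat_lit 325))))))))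
noncomputable def xc92 : XT := (XT.nd (nat_lit 2632) (nat_lit 0) (nat_lit 0) (XT.nd (nat_lit 1316) (nat_lit 1680) (nat_lit 0) (XT.nd (nat_lit 658) (nat_lit 1008) (nat_lit 0) (XT.nd (nat_lit 282) (nat_lit 672) (nat_lit 0) (XT.nd (nat_lit 94) (nat_lit 336) (nat_lit 0) (XT.lf (nat_lit 0) (nat_lit 10728019813) (nat_lit 168) (nat_lit 496243673) (nat_lit 252) (nat_lit 9094044285) (nat_lit 44) (nat_lit 5) (nat_lit 46) (nat_lit 5) (nat_lit 47) (nat_lit 5) (nat_lit 394) (nat_lit 362) (nat_lit 324)) (XT.nd (nat_lit 94) (nat_lit 168) (nat_lit 0) (XT.lf (nat_lit 0) (nat_lit 725388011) (nat_lit 168) (nat_lit 8807520460) (nat_lit 84) (nat_lit 11782004036) (nat_lit 42) (nat_lit 5) (nat_lit 44) (nat_lit 5) (nat_lit 43) (nat_lit 5) (nat_lit 395) (nat_lit 362) (nat_lit 323)) (XT.lf (nat_lit 0) (nat_lit 11378852362) (nat_lit 252) (nat_lit 7949614448) (nat_lit 84) (nat_lit 3036970253)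 (nat_lit 40) (nat_lit 5) (nat_lit 43) (nat_lit 5) (nat_lit 41) (nat_lit 4) (nat_lit 396) (nat_lit 362) (nat_lit 322)))) (XT.nd (nat_lit 188) (nat_lit 336) (nat_lit 0) (XT.nd (nat_lit 94) (nat_lit 252) (nat_lit 0) (XT.lf (nat_lit 0) (nat_lit 16524985871) (nat_lit 84) (nat_lit 6847226818) (nat_lit 168) (nat_lit 103409952) (nat_lit 39) (nat_lit 5) (nat_lit 40) (nat_lit 5) (nat_lit 41) (nat_lit 4) (nat_lit 397) (nat_lit 362) (nat_lit 321)) (XT.lf (nat_lit 0) (nat_lit 11740562316) (nat_lit 252) (nat_lit 5923807134) (nat_lit 84) (nat_lit 6978007347) (nat_lit 36) (nat_lit 5) (nat_lit 39) (nat_lit 5) (nat_lit 37) (nat_lit 4) (nat_lit 398) (nat_lit 362) (nat_lit 320))) (XT.nd (nat_lit 94) (nat_lit 252) (nat_lit 0) (XT.lf (nat_lit 0) (nat_lit 21200565028) (nat_lit 84) (nat_lit 3815923544) (nat_lit 168) (nat_lit 861494992) (nat_lit 35) (nat_lit 5) (nat_lit 36) (nat_lit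 5) (nat_lit 37) (nat_lit 4) (nat_lit 399) (nat_lit 362) (nat_lit 319)) (XT.lf (nat_lit 0) (nat_lit 12336652925) (nat_lit 252) (nat_lit 3441053857) (nat_lit 84) (nat_lit 11396092303) (nat_lit 32) (nat_lit 5) (nat_lit 35) (nat_lit 5) (nat_lit 33) (nat_lit 4) (nat_lit 400) (nat_lit 362) (nat_lit 318))))) (XT.nd (nat_lit 282) (nat_lit 504) (nat_lit 0) (XT.nd (nat_lit 94) (nat_lit 420) (nat_lit 0) (XT.lf (nat_lit 0) (nat_lit 26641824997) (nat_lit 84) (nat_lit 405758392) (nat_lit 168) (nat_lit 1500634651) (nat_lit 31) (nat_lit 5) (nat_lit 32) (nat_lit 5) (nat_lit 33) (nat_lit 4) (nat_lit 401) (nat_lit 362) (nat_lit 317)) (XT.nd (nat_lit 94) (nat_lit 168) (nat_lit 0) (XT.lf (nat_lit 0) (nat_lit 13206263103) (nat_lit 252) (nat_lit 426902458) (nat_lit 84) (nat_lit 16353530738) (nat_lit 28) (nat_lit 5) (nat_lit 31) (nat_lit 5) (nat_lit 29) (nat_lit 4) (nat_lit 402)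 (nat_lit 362) (nat_lit 316)) (XT.lf (nat_lit 0) (nat_lit 1435568451) (nat_lit 84) (nat_lit 28161814096) (nat_lit 84) (nat_lit 1913628002) (nat_lit 26) (nat_lit 4) (nat_lit 27) (nat_lit 5) (nat_lit 27) (nat_lit 4) (nat_lit 403) (nat_lit 362) (nat_lit 315)))) (XT.nd (nat_lit 188) (nat_lit 252) (nat_lit 0) (XT.nd (nat_lit 94) (nat_lit 84) (nat_lit 0) (XT.lf (nat_lit 0) (nat_lit 3310655258) (nat_lit 84) (nat_lit 11134468703) (nat_lit 168) (nat_lit 18663343190) (nat_lit 24) (nat_lit 5) (nat_lit 25) (nat_lit 5) (nat_lit 26) (nat_lit 4) (nat_lit 404) (nat_lit 362) (nat_lit 314)) (XT.lf (nat_lit 0) (nat_lit 5520124353) (nat_lit 84) (nat_lit 27187804533) (nat_lit 84) (nat_lit 2091102998) (nat_lit 23) (nat_lit 4) (nat_lit 24) (nat_lit 5) (nat_lit 24) (nat_lit 4) (nat_lit 405) (nat_lit 362) (nat_lit 313))) (XT.nd (nat_lit 94) (nat_lit 84) (nat_lit 0) (XT.lf (nat_lit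 0) (nat_lit 7802506053) (nat_lit 84) (nat_lit 8267261724) (nat_lit 168) (nat_lit 20504295933) (nat_lit 21) (nat_lit 5) (nat_lit 22) (nat_lit 5) (nat_lit 23) (nat_lit 4) (nat_lit 406) (nat_lit 362) (nat_lit 312)) (XT.lf (nat_lit 0) (nat_lit 10400291079) (nat_lit 84) (nat_lit 26015404817) (nat_lit 84) (nat_lit 2033415682) (nat_lit 20) (nat_lit 4) (nat_lit 21) (nat_lit 5) (nat_lit 21) (nat_lit 4) (nat_lit 407) (nat_lit 362) (nat_lit 311)))))) (XT.nd (nat_lit 658) (nat_lit 756) (nat_lit 0) (XT.nd (nat_lit 282) (nat_lit 504) (nat_lit 0) (XT.nd (nat_lit 94) (nat_lit 252) (nat_lit 0) (XT.lf (nat_lit 0) (nat_lit 13151945978) (nat_lit 84) (nat_lit 4979620726) (nat_lit 168) (nat_lit 22289119901) (nat_lit 18) (nat_lit 5) (nat_lit 19) (nat_lit 5) (nat_lit 20) (nat_lit 4) (nat_lit 408) (nat_lit 362) (nat_lit 310)) (XT.nd (nat_lit 94) (nat_lit 168) (nat_lit 0) (XT.lf (nat_lit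 0) (nat_lit 16201566669) (nat_lit 84) (nat_lit 24602055087) (nat_lit 84) (nat_lit 1696443393) (nat_lit 17) (nat_lit 4) (nat_lit 18) (nat_lit 5) (nat_lit 18) (nat_lit 4) (nat_lit 409) (nat_lit 362) (nat_lit 309)) (XT.lf (nat_lit 0) (nat_lit 19493389344) (nat_lit 84) (nat_lit 1203299987) (nat_lit 168) (nat_lit 23992539094) (nat_lit 15) (nat_lit 5) (nat_lit 16) (nat_lit 5) (nat_lit 17) (nat_lit 4) (nat_lit 410) (nat_lit 362) (nat_lit 308)))) (XT.nd (nat_lit 188) (nat_lit 252) (nat_lit 0) (XT.nd (nat_lit 94) (nat_lit 168) (nat_lit 0) (XT.lf (nat_lit 0) (nat_lit 23067479896) (nat_lit 84) (nat_lit 22897961835) (nat_lit 84) (nat_lit 1029512295) (nat_lit 14) (nat_lit 4) (nat_lit 15) (nat_lit 5) (nat_lit 15) (nat_lit 4) (nat_lit 411) (nat_lit 362) (nat_lit 307)) (XT.lf (nat_lit 0) (nat_lit 23889381780) (nat_lit 168) (nat_lit 22493647342) (nat_lit 0) (nat_lit 3039570735)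 (nat_lit 12) (nat_lit 5) (nat_lit 14) (nat_lit 4) (nat_lit 12) (nat_lit 4) (nat_lit 412) (nat_lit 362) (nat_lit 306))) (XT.nd (nat_lit 94) (nat_lit 84) (nat_lit 0) (XT.lf (nat_lit 0) (nat_lit 24786294) (nat_lit 168) (nat_lit 20820032701) (nat_lit 84) (nat_lit 31136703029) (nat_lit 10) (nat_lit 5) (nat_lit 12) (nat_lit 5) (nat_lit 11) (nat_lit 4) (nat_lit 413) (nat_lit 362) (nat_lit 305)) (XT.lf (nat_lit 0) (nat_lit 27775202838) (nat_lit 168) (nat_lit 19017249824) (nat_lit 0) (nat_lit 7879659864) (nat_lit 9) (nat_lit 5) (nat_lit 11) (nat_lit 4) (nat_lit 9) (nat_lit 4) (nat_lit 414) (nat_lit 362) (nat_lit 304))))) (XT.nd (nat_lit 282) (nat_lit 336) (nat_lit 0) (XT.nd (nat_lit 94) (nat_lit 252) (nat_lit 0) (XT.lf (nat_lit 0) (nat_lit 1486658222) (nat_lit 168) (nat_lit 16865067796) (nat_lit 84) (nat_lit 39159877170) (nat_lit 7) (nat_lit 5) (nat_lit 9) (nat_lit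 5) (nat_lit 8) (nat_lit 4) (nat_lit 415) (nat_lit 362) (nat_lit 303)) (XT.nd (nat_lit 94) (nat_lit 168) (nat_lit 0) (XT.lf (nat_lit 0) (nat_lit 32434249671) (nat_lit 168) (nat_lit 14605560678) (nat_lit 0) (nat_lit 13454612366) (nat_lit 6) (nat_lit 5) (nat_lit 8) (nat_lit 4) (nat_lit 6) (nat_lit 4) (nat_lit 416) (nat_lit 362) (nat_lit 302)) (XT.lf (nat_lit 0) (nat_lit 3463427695) (nat_lit 168) (nat_lit 11893633472) (nat_lit 84) (nat_lit 48287624808) (nat_lit 4) (nat_lit 5) (nat_lit 6) (nat_lit 5) (nat_lit 5) (nat_lit 4) (nat_lit 417) (nat_lit 362) (nat_lit 301)))) (XT.nd (nat_lit 188) (nat_lit 84) (nat_lit 0) (XT.nd (nat_lit 94) (nat_lit 168) (nat_lit 0) (XT.lf (nat_lit 0) (nat_lit 37978959435) (nat_lit 168) (nat_lit 9094960692) (nat_lit 0) (nat_lit 19877393289) (nat_lit 3) (nat_lit 5) (nat_lit 5) (nat_lit 4) (nat_lit 3) (nat_lit 4) (nat_lit 418) (nat_lit 362)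 (nat_lit 300)) (XT.lf (nat_lit 0) (nat_lit 6040444232) (nat_lit 168) (nat_lit 5730105386) (nat_lit 84) (nat_lit 58675292683) (nat_lit 1) (nat_lit 5) (nat_lit 3) (nat_lit 5) (nat_lit 2) (nat_lit 4) (nat_lit 419) (nat_lit 362) (nat_lit 299))) (XT.nd (nat_lit 94) (nat_lit 0) (nat_lit 0) (XT.lf (nat_lit 0) (nat_lit 109985448019) (nat_lit 0) (nat_lit 0) (nat_lit 0) (nat_lit 0) (nat_lit 0) (nat_lit 0) (nat_lit 1) (nat_lit 0) (nat_lit 1) (nat_lit 0) (nat_lit 420) (nat_lit 362) (nat_lit 298)) (XT.lf (nat_lit 0) (nat_lit 118682690126) (nat_lit 0) (nat_lit 0) (nat_lit 0) (nat_lit 0) (nat_lit 0) (nat_lit 0) (nat_lit 1) (nat_lit 0) (nat_lit 1) (nat_lit 0) (nat_lit 421) (nat_lit 362) (nat_lit 297))))))) (XT.nd (nat_lit 1316) (nat_lit 0) (nat_lit 0) (XT.nd (nat_lit 658) (nat_lit 0) (nat_lit 0) (XT.nd (nat_lit 282) (nat_lit 0) (nat_lit 0) (XT.nd (nat_lit 94) (nat_lit 0)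 (nat_lit 0) (XT.lf (nat_lit 0) (nat_lit 128075815360) (nat_lit 0) (nat_lit 0) (nat_lit 0) (nat_lit 0) (nat_lit 0) (nat_lit 0) (nat_lit 1) (nat_lit 0) (nat_lit 1) (nat_lit 0) (nat_lit 422) (nat_lit 362) (nat_lit 296)) (XT.nd (nat_lit 94) (nat_lit 0) (nat_lit 0) (XT.lf (nat_lit 0) (nat_lit 138220486686) (nat_lit 0) (nat_lit 0) (nat_lit 0) (nat_lit 0) (nat_lit 0) (nat_lit 0) (nat_lit 1) (nat_lit 0) (nat_lit 1) (nat_lit 0) (nat_lit 423) (nat_lit 362) (nat_lit 295)) (XT.lf (nat_lit 0) (nat_lit 149176820674) (nat_lit 0) (nat_lit 0) (nat_lit 0) (nat_lit 0) (nat_lit 0) (nat_lit 0) (nat_lit 1) (nat_lit 0) (nat_lit 1) (nat_lit 0) (nat_lit 424) (nat_lit 362) (nat_lit 294)))) (XT.nd (nat_lit 188) (nat_lit 0) (nat_lit 0) (XT.nd (nat_lit 94) (nat_lit 0) (nat_lit 0) (XT.lf (nat_lit 0) (nat_lit 161009743747) (nat_lit 0) (nat_lit 0) (nat_lit 0) (nat_lit 0) (nat_lit 0) (nat_lit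 0) (nat_lit 1) (nat_lit 0) (nat_lit 1) (nat_lit 0) (nat_lit 425) (nat_lit 362) (nat_lit 293)) (XT.lf (nat_lit 0) (nat_lit 173789376932) (nat_lit 0) (nat_lit 0) (nat_lit 0) (nat_lit 0) (nat_lit 0) (nat_lit 0) (nat_lit 1) (nat_lit 0) (nat_lit 1) (nat_lit 0) (nat_lit 426) (nat_lit 362) (nat_lit 292))) (XT.nd (nat_lit 94) (nat_lit 0) (nat_lit 0) (XT.lf (nat_lit 0) (nat_lit 187591451387) (nat_lit 0) (nat_lit 0) (nat_lit 0) (nat_lit 0) (nat_lit 0) (nat_lit 0) (nat_lit 1) (nat_lit 0) (nat_lit 1) (nat_lit 0) (nat_lit 427) (nat_lit 362) (nat_lit 291)) (XT.lf (nat_lit 0) (nat_lit 202497757185) (nat_lit 0) (nat_lit 0) (nat_lit 0) (nat_lit 0) (nat_lit 0) (nat_lit 0) (nat_lit 1) (nat_lit 0) (nat_lit 1) (nat_lit 0) (nat_lit 428) (nat_lit 362) (nat_lit 290))))) (XT.nd (nat_lit 282) (nat_lit 0) (nat_lit 0) (XT.nd (nat_lit 94) (nat_lit 0) (nat_lit 0) (XT.lf (nat_lit 0) (nat_lit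 218596627988) (nat_lit 0) (nat_lit 0) (nat_lit 0) (nat_lit 0) (nat_lit 0) (nat_lit 0) (nat_lit 1) (nat_lit 0) (nat_lit 1) (nat_lit 0) (nat_lit 429) (nat_lit 362) (nat_lit 289)) (XT.nd (nat_lit 94) (nat_lit 0) (nat_lit 0) (XT.lf (nat_lit 0) (nat_lit 235983464513) (nat_lit 0) (nat_lit 0) (nat_lit 0) (nat_lit 0) (nat_lit 0) (nat_lit 0) (nat_lit 1) (nat_lit 0) (nat_lit 1) (nat_lit 0) (nat_lit 430) (nat_lit 362) (nat_lit 288)) (XT.lf (nat_lit 0) (nat_lit 254761299864) (nat_lit 0) (nat_lit 0) (nat_lit 0) (nat_lit 0) (nat_lit 0) (nat_lit 0) (nat_lit 1) (nat_lit 0) (nat_lit 1) (nat_lit 0) (nat_lit 431) (nat_lit 362) (nat_lit 287)))) (XT.nd (nat_lit 188) (nat_lit 0) (nat_lit 0) (XT.nd (nat_lit 94) (nat_lit 0) (nat_lit 0) (XT.lf (nat_lit 0) (nat_lit 275041410104) (nat_lit 0) (nat_lit 0) (nat_lit 0) (nat_lit 0) (nat_lit 0) (nat_lit 0) (nat_lit 1) (nat_lit 0) (nat_lit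 1) (nat_lit 0) (nat_lit 432) (nat_lit 362) (nat_lit 286)) (XT.lf (nat_lit 0) (nat_lit 296943973664) (nat_lit 0) (nat_lit 0) (nat_lit 0) (nat_lit 0) (nat_lit 0) (nat_lit 0) (nat_lit 1) (nat_lit 0) (nat_lit 1) (nat_lit 0) (nat_lit 433) (nat_lit 362) (nat_lit 285))) (XT.nd (nat_lit 94) (nat_lit 0) (nat_lit 0) (XT.lf (nat_lit 0) (nat_lit 320598783512) (nat_lit 0) (nat_lit 0) (nat_lit 0) (nat_lit 0) (nat_lit 0) (nat_lit 0) (nat_lit 1) (nat_lit 0) (nat_lit 1) (nat_lit 0) (nat_lit 434) (nat_lit 362) (nat_lit 284)) (XT.lf (nat_lit 0) (nat_lit 346146016299) (nat_lit 0) (nat_lit 0) (nat_lit 0) (nat_lit 0) (nat_lit 0) (nat_lit 0) (nat_lit 1) (nat_lit 0) (nat_lit 1) (nat_lit 0) (nat_lit 435) (nat_lit 362) (nat_lit 283)))))) (XT.nd (nat_lit 658) (nat_lit 0) (nat_lit 0) (XT.nd (nat_lit 282) (nat_lit 0) (nat_lit 0) (XT.nd (nat_lit 94) (nat_lit 0) (nat_lit 0) (XT.lf (nat_lit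 0) (nat_lit 373737063035) (nat_lit 0) (nat_lit 0) (nat_lit 0) (nat_lit 0) (nat_lit 0) (nat_lit 0) (nat_lit 1) (nat_lit 0) (nat_lit 1) (nat_lit 0) (nat_lit 436) (nat_lit 362) (nat_lit 282)) (XT.nd (nat_lit 94) (nat_lit 0) (nat_lit 0) (XT.lf (nat_lit 0) (nat_lit 403535426219) (nat_lit 0) (nat_lit 0) (nat_lit 0) (nat_lit 0) (nat_lit 0) (nat_lit 0) (nat_lit 1) (nat_lit 0) (nat_lit 1) (nat_lit 0) (nat_lit 437) (nat_lit 362) (nat_lit 281)) (XT.lf (nat_lit 0) (nat_lit 435717688744) (nat_lit 0) (nat_lit 0) (nat_lit 0) (nat_lit 0) (nat_lit 0) (nat_lit 0) (nat_lit 1) (nat_lit 0) (nat_lit 1) (nat_lit 0) (nat_lit 438) (nat_lit 362) (nat_lit 280)))) (XT.nd (nat_lit 188) (nat_lit 0) (nat_lit 0) (XT.nd (nat_lit 94) (nat_lit 0) (nat_lit 0) (XT.lf (nat_lit 0) (nat_lit 470474560314) (nat_lit 0) (nat_lit 0) (nat_lit 0) (nat_lit 0) (nat_lit 0) (nat_lit 0) (nat_lit 1) (nat_lit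 0) (nat_lit 1) (nat_lit 0) (nat_lit 439) (nat_lit 362) (nat_lit 279)) (XT.lf (nat_lit 0) (nat_lit 508012007574) (nat_lit 0) (nat_lit 0) (nat_lit 0) (nat_lit 0) (nat_lit 0) (nat_lit 0) (nat_lit 1) (nat_lit 0) (nat_lit 1) (nat_lit 0) (nat_lit 440) (nat_lit 362) (nat_lit 278))) (XT.nd (nat_lit 94) (nat_lit 0) (nat_lit 0) (XT.lf (nat_lit 0) (nat_lit 548552474657) (nat_lit 0) (nat_lit 0) (nat_lit 0) (nat_lit 0) (nat_lit 0) (nat_lit 0) (nat_lit 1) (nat_lit 0) (nat_lit 1) (nat_lit 0) (nat_lit 441) (nat_lit 362) (nat_lit 277)) (XT.lf (nat_lit 0) (nat_lit 592336201368) (nat_lit 0) (nat_lit 0) (nat_lit 0) (nat_lit 0) (nat_lit 0) (nat_lit 0) (nat_lit 1) (nat_lit 0) (nat_lit 1) (nat_lit 0) (nat_lit 442) (nat_lit 362) (nat_lit 276))))) (XT.nd (nat_lit 376) (nat_lit 0) (nat_lit 0) (XT.nd (nat_lit 188) (nat_lit 0) (nat_lit 0) (XT.nd (nat_lit 94) (nat_lit 0) (nat_lit 0) (XT.lf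 (nat_lit 0) (nat_lit 639622646828) (nat_lit 0) (nat_lit 0) (nat_lit 0) (nat_lit 0) (nat_lit 0) (nat_lit 0) (nat_lit 1) (nat_lit 0) (nat_lit 1) (nat_lit 0) (nat_lit 443) (nat_lit 362) (nat_lit 275)) (XT.lf (nat_lit 0) (nat_lit 690692027011) (nat_lit 0) (nat_lit 0) (nat_lit 0) (nat_lit 0) (nat_lit 0) (nat_lit 0) (nat_lit 1) (nat_lit 0) (nat_lit 1) (nat_lit 0) (nat_lit 444) (nat_lit 362) (nat_lit 274))) (XT.nd (nat_lit 94) (nat_lit 0) (nat_lit 0) (XT.lf (nat_lit 0) (nat_lit 745846975279) (nat_lit 0) (nat_lit 0) (nat_lit 0) (nat_lit 0) (nat_lit 0) (nat_lit 0) (nat_lit 1) (nat_lit 0) (nat_lit 1) (nat_lit 0) (nat_lit 445) (nat_lit 362) (nat_lit 273)) (XT.lf (nat_lit 0) (nat_lit 805414335772) (nat_lit 0) (nat_lit 0) (nat_lit 0) (nat_lit 0) (nat_lit 0) (nat_lit 0) (nat_lit 1) (nat_lit 0) (nat_lit 1) (nat_lit 0) (nat_lit 446) (nat_lit 362) (nat_lit 272)))) (XT.nd (nat_lit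 188) (nat_lit 0) (nat_lit 0) (XT.nd (nat_lit 94) (nat_lit 0) (nat_lit 0) (XT.lf (nat_lit 0) (nat_lit 869747100255) (nat_lit 0) (nat_lit 0) (nat_lit 0) (nat_lit 0) (nat_lit 0) (nat_lit 0) (nat_lit 1) (nat_lit 0) (nat_lit 1) (nat_lit 0) (nat_lit 447) (nat_lit 362) (nat_lit 271)) (XT.lf (nat_lit 0) (nat_lit 939226499924) (nat_lit 0) (nat_lit 0) (nat_lit 0) (nat_lit 0) (nat_lit 0) (nat_lit 0) (nat_lit 1) (nat_lit 0) (nat_lit 1) (nat_lit 0) (nat_lit 448) (nat_lit 362) (nat_lit 270))) (XT.nd (nat_lit 94) (nat_lit 0) (nat_lit 0) (XT.lf (nat_lit 0) (nat_lit 1014264264556) (nat_lit 0) (nat_lit 0) (nat_lit 0) (nat_lit 0) (nat_lit 0) (nat_lit 0) (nat_lit 1) (nat_lit 0) (nat_lit 1) (nat_lit 0) (nat_lit 449) (nat_lit 362) (nat_lit 269)) (XT.lf (nat_lit 0) (nat_lit 1095305062386) (nat_lit 0) (nat_lit 0) (nat_lit 0) (nat_lit 0) (nat_lit 0) (nat_lit 0) (nat_lit 1) (nat_lit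 0) (nat_lit 1) (nat_lit 0) (nat_lit 450) (nat_lit 362) (nat_lit 268))))))))
noncomputable def xc93 : XT := (XT.nd (nat_lit 2632) (nat_lit 0) (nat_lit 0) (XT.nd (nat_lit 1316) (nat_lit 0) (nat_lit 0) (XT.nd (nat_lit 658) (nat_lit 0) (nat_lit 0) (XT.nd (nat_lit 282) (nat_lit 0) (nat_lit 0) (XT.nd (nat_lit 94) (nat_lit 0) (nat_lit 0) (XT.lf (nat_lit 0) (nat_lit 1182829135178) (nat_lit 0) (nat_lit 0) (nat_lit 0) (nat_lit 0) (nat_lit 0) (nat_lit 0) (nat_lit 1) (nat_lit 0) (nat_lit 1) (nat_lit 0) (nat_lit 451) (nat_lit 362) (nat_lit 267)) (XT.nd (nat_lit 94) (nat_lit 0) (nat_lit 0) (XT.lf (nat_lit 0) (nat_lit 1277355144105) (nat_lit 0) (nat_lit 0) (nat_lit 0) (nat_lit 0) (nat_lit 0) (nat_lit 0) (nat_lit 1) (nat_lit 0) (nat_lit 1) (nat_lit 0) (nat_lit 452) (nat_lit 362) (nat_lit 266)) (XT.lf (nat_lit 0) (nat_lit 1379443243294) (nat_lit 0) (nat_lit 0) (nat_lit 0)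 (nat_lit 0) (nat_lit 0) (nat_lit 0) (nat_lit 1) (nat_lit 0) (nat_lit 1) (nat_lit 0) (nat_lit 453) (nat_lit 362) (nat_lit 265)))) (XT.nd (nat_lit 188) (nat_lit 0) (nat_lit 0) (XT.nd (nat_lit 94) (nat_lit 0) (nat_lit 0) (XT.lf (nat_lit 0) (nat_lit 1489698399258) (nat_lit 0) (nat_lit 0) (nat_lit 0) (nat_lit 0) (nat_lit 0) (nat_lit 0) (nat_lit 1) (nat_lit 0) (nat_lit 1) (nat_lit 0) (nat_lit 454) (nat_lit 362) (nat_lit 264)) (XT.lf (nat_lit 0) (nat_lit 1608773975884) (nat_lit 0) (nat_lit 0) (nat_lit 0) (nat_lit 0) (nat_lit 0) (nat_lit 0) (nat_lit 1) (nat_lit 0) (nat_lit 1) (nat_lit 0) (nat_lit 455) (nat_lit 362) (nat_lit 263))) (XT.nd (nat_lit 94) (nat_lit 0) (nat_lit 0) (XT.lf (nat_lit 0) (nat_lit 1737375606220) (nat_lit 0) (nat_lit 0) (nat_lit 0) (nat_lit 0) (nat_lit 0) (nat_lit 0) (nat_lit 1) (nat_lit 0) (nat_lit 1) (nat_lit 0) (nat_lit 456) (nat_lit 362) (nat_lit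 262)) (XT.lf (nat_lit 0) (nat_lit 1876265374000) (nat_lit 0) (nat_lit 0) (nat_lit 0) (nat_lit 0) (nat_lit 0) (nat_lit 0) (nat_lit 1) (nat_lit 0) (nat_lit 1) (nat_lit 0) (nat_lit 457) (nat_lit 362) (nat_lit 261))))) (XT.nd (nat_lit 282) (nat_lit 0) (nat_lit 0) (XT.nd (nat_lit 94) (nat_lit 0) (nat_lit 0) (XT.lf (nat_lit 0) (nat_lit 2026266329700) (nat_lit 0) (nat_lit 0) (nat_lit 0) (nat_lit 0) (nat_lit 0) (nat_lit 0) (nat_lit 1) (nat_lit 0) (nat_lit 1) (nat_lit 0) (nat_lit 458) (nat_lit 362) (nat_lit 260)) (XT.nd (nat_lit 94) (nat_lit 0) (nat_lit 0) (XT.lf (nat_lit 0) (nat_lit 2188267367872) (nat_lit 0) (nat_lit 0) (nat_lit 0) (nat_lit 0) (nat_lit 0) (nat_lit 0) (nat_lit 1) (nat_lit 0) (nat_lit 1) (nat_lit 0) (nat_lit 459) (nat_lit 362) (nat_lit 259)) (XT.lf (nat_lit 0) (nat_lit 2363228494670) (nat_lit 0) (nat_lit 0) (nat_lit 0) (nat_lit 0) (nat_lit 0) (nat_lit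 0) (nat_lit 1) (nat_lit 0) (nat_lit 1) (nat_lit 0) (nat_lit 460) (nat_lit 362) (nat_lit 258)))) (XT.nd (nat_lit 188) (nat_lit 0) (nat_lit 0) (XT.nd (nat_lit 94) (nat_lit 0) (nat_lit 0) (XT.lf (nat_lit 0) (nat_lit 2552186516769) (nat_lit 0) (nat_lit 0) (nat_lit 0) (nat_lit 0) (nat_lit 0) (nat_lit 0) (nat_lit 1) (nat_lit 0) (nat_lit 1) (nat_lit 0) (nat_lit 461) (nat_lit 362) (nat_lit 257)) (XT.lf (nat_lit 0) (nat_lit 2756261185413) (nat_lit 0) (nat_lit 0) (nat_lit 0) (nat_lit 0) (nat_lit 0) (nat_lit 0) (nat_lit 1) (nat_lit 0) (nat_lit 1) (nat_lit 0) (nat_lit 462) (nat_lit 362) (nat_lit 256))) (XT.nd (nat_lit 94) (nat_lit 0) (nat_lit 0) (XT.lf (nat_lit 0) (nat_lit 2976661831970) (nat_lit 0) (nat_lit 0) (nat_lit 0) (nat_lit 0) (nat_lit 0) (nat_lit 0) (nat_lit 1) (nat_lit 0) (nat_lit 1) (nat_lit 0) (nat_lit 463) (nat_lit 362) (nat_lit 255)) (XT.lf (nat_lit 0) (nat_lit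 3214694534346) (nat_lit 0) (nat_lit 0) (nat_lit 0) (nat_lit 0) (nat_lit 0) (nat_lit 0) (nat_lit 1) (nat_lit 0) (nat_lit 1) (nat_lit 0) (nat_lit 464) (nat_lit 362) (nat_lit 254)))))) (XT.nd (nat_lit 658) (nat_lit 0) (nat_lit 0) (XT.nd (nat_lit 282) (nat_lit 0) (nat_lit 0) (XT.nd (nat_lit 94) (nat_lit 0) (nat_lit 0) (XT.lf (nat_lit 0) (nat_lit 3471769856704) (nat_lit 0) (nat_lit 0) (nat_lit 0) (nat_lit 0) (nat_lit 0) (nat_lit 0) (nat_lit 1) (nat_lit 0) (nat_lit 1) (nat_lit 0) (nat_lit 465) (nat_lit 362) (nat_lit 253)) (XT.nd (nat_lit 94) (nat_lit 0) (nat_lit 0) (XT.lf (nat_lit 0) (nat_lit 3749411208361) (nat_lit 0) (nat_lit 0) (nat_lit 0) (nat_lit 0) (nat_lit 0) (nat_lit 0) (nat_lit 1) (nat_lit 0) (nat_lit 1) (nat_lit 0) (nat_lit 466) (nat_lit 362) (nat_lit 252)) (XT.lf (nat_lit 0) (nat_lit 4049263871401) (nat_lit 0) (nat_lit 0) (nat_lit 0) (nat_lit 0) (nat_lit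 0) (nat_lit 0) (nat_lit 1) (nat_lit 0) (nat_lit 1) (nat_lit 0) (nat_lit 467) (nat_lit 362) (nat_lit 251)))) (XT.nd (nat_lit 188) (nat_lit 0) (nat_lit 0) (XT.nd (nat_lit 94) (nat_lit 0) (nat_lit 0) (XT.lf (nat_lit 0) (nat_lit 4373104750495) (nat_lit 0) (nat_lit 0) (nat_lit 0) (nat_lit 0) (nat_lit 0) (nat_lit 0) (nat_lit 1) (nat_lit 0) (nat_lit 1) (nat_lit 0) (nat_lit 468) (nat_lit 362) (nat_lit 250)) (XT.lf (nat_lit 0) (nat_lit 4722852902702) (nat_lit 0) (nat_lit 0) (nat_lit 0) (nat_lit 0) (nat_lit 0) (nat_lit 0) (nat_lit 1) (nat_lit 0) (nat_lit 1) (nat_lit 0) (nat_lit 469) (nat_lit 362) (nat_lit 249))) (XT.nd (nat_lit 94) (nat_lit 0) (nat_lit 0) (XT.lf (nat_lit 0) (nat_lit 5100580909667) (nat_lit 0) (nat_lit 0) (nat_lit 0) (nat_lit 0) (nat_lit 0) (nat_lit 0) (nat_lit 1) (nat_lit 0) (nat_lit 1) (nat_lit 0) (nat_lit 470) (nat_lit 362) (nat_lit 248)) (XT.lf (nat_lit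 0) (nat_lit 5508527159578) (nat_lit 0) (nat_lit 0) (nat_lit 0) (nat_lit 0) (nat_lit 0) (nat_lit 0) (nat_lit 1) (nat_lit 0) (nat_lit 1) (nat_lit 0) (nat_lit 471) (nat_lit 362) (nat_lit 247))))) (XT.nd (nat_lit 282) (nat_lit 0) (nat_lit 0) (XT.nd (nat_lit 94) (nat_lit 0) (nat_lit 0) (XT.lf (nat_lit 0) (nat_lit 5949109111693) (nat_lit 0) (nat_lit 0) (nat_lit 0) (nat_lit 0) (nat_lit 0) (nat_lit 0) (nat_lit 1) (nat_lit 0) (nat_lit 1) (nat_lit 0) (nat_lit 472) (nat_lit 362) (nat_lit 246)) (XT.nd (nat_lit 94) (nat_lit 0) (nat_lit 0) (XT.lf (nat_lit 0) (nat_lit 6424937622027) (nat_lit 0) (nat_lit 0) (nat_lit 0) (nat_lit 0) (nat_lit 0) (nat_lit 0) (nat_lit 1) (nat_lit 0) (nat_lit 1) (nat_lit 0) (nat_lit 473) (nat_lit 362) (nat_lit 245)) (XT.lf (nat_lit 0) (nat_lit 6938832415084) (nat_lit 0) (nat_lit 0) (nat_lit 0) (nat_lit 0) (nat_lit 0) (nat_lit 0) (nat_lit 1) (nat_lit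 0) (nat_lit 1) (nat_lit 0) (nat_lit 474) (nat_lit 362) (nat_lit 244)))) (XT.nd (nat_lit 188) (nat_lit 0) (nat_lit 0) (XT.nd (nat_lit 94) (nat_lit 0) (nat_lit 0) (XT.lf (nat_lit 0) (nat_lit 7493838793342) (nat_lit 0) (nat_lit 0) (nat_lit 0) (nat_lit 0) (nat_lit 0) (nat_lit 0) (nat_lit 1) (nat_lit 0) (nat_lit 1) (nat_lit 0) (nat_lit 475) (nat_lit 362) (nat_lit 243)) (XT.lf (nat_lit 0) (nat_lit 8093245683486) (nat_lit 0) (nat_lit 0) (nat_lit 0) (nat_lit 0) (nat_lit 0) (nat_lit 0) (nat_lit 1) (nat_lit 0) (nat_lit 1) (nat_lit 0) (nat_lit 476) (nat_lit 362) (nat_lit 242))) (XT.nd (nat_lit 94) (nat_lit 0) (nat_lit 0) (XT.lf (nat_lit 0) (nat_lit 8740605126348) (nat_lit 0) (nat_lit 0) (nat_lit 0) (nat_lit 0) (nat_lit 0) (nat_lit 0) (nat_lit 1) (nat_lit 0) (nat_lit 1) (nat_lit 0) (nat_lit 477) (nat_lit 362) (nat_lit 241)) (XT.lf (nat_lit 0) (nat_lit 9439753326032) (nat_lit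 0) (nat_lit 0) (nat_lit 0) (nat_lit 0) (nat_lit 0) (nat_lit 0) (nat_lit 1) (nat_lit 0) (nat_lit 1) (nat_lit 0) (nat_lit 478) (nat_lit 362) (nat_lit 240))))))) (XT.nd (nat_lit 1316) (nat_lit 0) (nat_lit 0) (XT.nd (nat_lit 658) (nat_lit 0) (nat_lit 0) (XT.nd (nat_lit 282) (nat_lit 0) (nat_lit 0) (XT.nd (nat_lit 94) (nat_lit 0) (nat_lit 0) (XT.lf (nat_lit 0) (nat_lit 10194833382983) (nat_lit 0) (nat_lit 0) (nat_lit 0) (nat_lit 0) (nat_lit 0) (nat_lit 0) (nat_lit 1) (nat_lit 0) (nat_lit 1) (nat_lit 0) (nat_lit 479) (nat_lit 362) (nat_lit 239)) (XT.nd (nat_lit 94) (nat_lit 0) (nat_lit 0) (XT.lf (nat_lit 0) (nat_lit 11010319845684) (nat_lit 0) (nat_lit 0) (nat_lit 0) (nat_lit 0) (nat_lit 0) (nat_lit 0) (nat_lit 1) (nat_lit 0) (nat_lit 1) (nat_lit 0) (nat_lit 480) (nat_lit 362) (nat_lit 238)) (XT.lf (nat_lit 0) (nat_lit 11891045226508) (nat_lit 0) (nat_lit 0) (nat_lit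 0) (nat_lit 0) (nat_lit 0) (nat_lit 0) (nat_lit 1) (nat_lit 0) (nat_lit 1) (nat_lit 0) (nat_lit 481) (nat_lit 362) (nat_lit 237)))) (XT.nd (nat_lit 188) (nat_lit 0) (nat_lit 0) (XT.nd (nat_lit 94) (nat_lit 0) (nat_lit 0) (XT.lf (nat_lit 0) (nat_lit 12842228638823) (nat_lit 0) (nat_lit 0) (nat_lit 0) (nat_lit 0) (nat_lit 0) (nat_lit 0) (nat_lit 1) (nat_lit 0) (nat_lit 1) (nat_lit 0) (nat_lit 482) (nat_lit 362) (nat_lit 236)) (XT.lf (nat_lit 0) (nat_lit 13869506725072) (nat_lit 0) (nat_lit 0) (nat_lit 0) (nat_lit 0) (nat_lit 0) (nat_lit 0) (nat_lit 1) (nat_lit 0) (nat_lit 1) (nat_lit 0) (nat_lit 483) (nat_lit 362) (nat_lit 235))) (XT.nd (nat_lit 94) (nat_lit 0) (nat_lit 0) (XT.lf (nat_lit 0) (nat_lit 14978967059099) (nat_lit 0) (nat_lit 0) (nat_lit 0) (nat_lit 0) (nat_lit 0) (nat_lit 0) (nat_lit 1) (nat_lit 0) (nat_lit 1) (nat_lit 0) (nat_lit 484) (nat_lit 362)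 (nat_lit 234)) (XT.lf (nat_lit 0) (nat_lit 16177184220662) (nat_lit 0) (nat_lit 0) (nat_lit 0) (nat_lit 0) (nat_lit 0) (nat_lit 0) (nat_lit 1) (nat_lit 0) (nat_lit 1) (nat_lit 0) (nat_lit 485) (nat_lit 362) (nat_lit 233))))) (XT.nd (nat_lit 282) (nat_lit 0) (nat_lit 0) (XT.nd (nat_lit 94) (nat_lit 0) (nat_lit 0) (XT.lf (nat_lit 0) (nat_lit 17471258755903) (nat_lit 0) (nat_lit 0) (nat_lit 0) (nat_lit 0) (nat_lit 0) (nat_lit 0) (nat_lit 1) (nat_lit 0) (nat_lit 1) (nat_lit 0) (nat_lit 486) (nat_lit 362) (nat_lit 232)) (XT.nd (nat_lit 94) (nat_lit 0) (nat_lit 0) (XT.lf (nat_lit 0) (nat_lit 18868859254661) (nat_lit 0) (nat_lit 0) (nat_lit 0) (nat_lit 0) (nat_lit 0) (nat_lit 0) (nat_lit 1) (nat_lit 0) (nat_lit 1) (nat_lit 0) (nat_lit 487) (nat_lit 362) (nat_lit 231)) (XT.lf (nat_lit 0) (nat_lit 20378267793965) (nat_lit 0) (nat_lit 0) (nat_lit 0) (nat_lit 0) (nat_lit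 0) (nat_lit 0) (nat_lit 1) (nat_lit 0) (nat_lit 1) (nat_lit 0) (nat_lit 488) (nat_lit 362) (nat_lit 230)))) (XT.nd (nat_lit 188) (nat_lit 0) (nat_lit 0) (XT.nd (nat_lit 94) (nat_lit 0) (nat_lit 0) (XT.lf (nat_lit 0) (nat_lit 22008429017011) (nat_lit 0) (nat_lit 0) (nat_lit 0) (nat_lit 0) (nat_lit 0) (nat_lit 0) (nat_lit 1) (nat_lit 0) (nat_lit 1) (nat_lit 0) (nat_lit 489) (nat_lit 362) (nat_lit 229)) (XT.lf (nat_lit 0) (nat_lit 23769003138455) (nat_lit 0) (nat_lit 0) (nat_lit 0) (nat_lit 0) (nat_lit 0) (nat_lit 0) (nat_lit 1) (nat_lit 0) (nat_lit 1) (nat_lit 0) (nat_lit 490) (nat_lit 362) (nat_lit 228))) (XT.nd (nat_lit 94) (nat_lit 0) (nat_lit 0) (XT.lf (nat_lit 0) (nat_lit 25670423190127) (nat_lit 0) (nat_lit 0) (nat_lit 0) (nat_lit 0) (nat_lit 0) (nat_lit 0) (nat_lit 1) (nat_lit 0) (nat_lit 1) (nat_lit 0) (nat_lit 491) (nat_lit 362) (nat_lit 227)) (XT.lf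 (nat_lit 0) (nat_lit 27723956846407) (nat_lit 0) (nat_lit 0) (nat_lit 0) (nat_lit 0) (nat_lit 0) (nat_lit 0) (nat_lit 1) (nat_lit 0) (nat_lit 1) (nat_lit 0) (nat_lit 492) (nat_lit 362) (nat_lit 226)))))) (XT.nd (nat_lit 55648) (nat_lit 0) (nat_lit 11340) (XT.nd (nat_lit 282) (nat_lit 0) (nat_lit 0) (XT.nd (nat_lit 94) (nat_lit 0) (nat_lit 0) (XT.lf (nat_lit 0) (nat_lit 29941773195629) (nat_lit 0) (nat_lit 0) (nat_lit 0) (nat_lit 0) (nat_lit 0) (nat_lit 0) (nat_lit 1) (nat_lit 0) (nat_lit 1) (nat_lit 0) (nat_lit 493) (nat_lit 362) (nat_lit 225)) (XT.nd (nat_lit 94) (nat_lit 0) (nat_lit 0) (XT.lf (nat_lit 0) (nat_lit 32337014853196) (nat_lit 0) (nat_lit 0) (nat_lit 0) (nat_lit 0) (nat_lit 0) (nat_lit 0) (nat_lit 1) (nat_lit 0) (nat_lit 1) (nat_lit 0) (nat_lit 494) (nat_lit 362) (nat_lit 224)) (XT.lf (nat_lit 0) (nat_lit 34923875843745) (nat_lit 0) (nat_lit 0)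 (nat_lit 0) (nat_lit 0) (nat_lit 0) (nat_lit 0) (nat_lit 1) (nat_lit 0) (nat_lit 1) (nat_lit 0) (nat_lit 495) (nat_lit 362) (nat_lit 223)))) (XT.nd (nat_lit 188) (nat_lit 0) (nat_lit 0) (XT.nd (nat_lit 94) (nat_lit 0) (nat_lit 0) (XT.lf (nat_lit 0) (nat_lit 37717685713886) (nat_lit 0) (nat_lit 0) (nat_lit 0) (nat_lit 0) (nat_lit 0) (nat_lit 0) (nat_lit 1) (nat_lit 0) (nat_lit 1) (nat_lit 0) (nat_lit 496) (nat_lit 362) (nat_lit 222)) (XT.lf (nat_lit 0) (nat_lit 40735000373962) (nat_lit 0) (nat_lit 0) (nat_lit 0) (nat_lit 0) (nat_lit 0) (nat_lit 0) (nat_lit 1) (nat_lit 0) (nat_lit 1) (nat_lit 0) (nat_lit 497) (nat_lit 362) (nat_lit 221))) (XT.nd (nat_lit 55084) (nat_lit 0) (nat_lit 14784) (XT.lf (nat_lit 0) (nat_lit 43993700207144) (nat_lit 0) (nat_lit 0) (nat_lit 0) (nat_lit 0) (nat_lit 0) (nat_lit 0) (nat_lit 1) (nat_lit 0) (nat_lit 1) (nat_lit 0) (nat_lit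 498) (nat_lit 362) (nat_lit 220)) (XT.lf (nat_lit 0) (nat_lit 3109021499) (nat_lit 420) (nat_lit 120410891) (nat_lit 420) (nat_lit 120410891) (nat_lit 176) (nat_lit 3) (nat_lit 181) (nat_lit 3) (nat_lit 181) (nat_lit 5) (nat_lit 363) (nat_lit 363) (nat_lit 354))))) (XT.nd (nat_lit 376) (nat_lit 2604) (nat_lit 0) (XT.nd (nat_lit 188) (nat_lit 420) (nat_lit 0) (XT.nd (nat_lit 94) (nat_lit 0) (nat_lit 0) (XT.lf (nat_lit 0) (nat_lit 3001538047) (nat_lit 420) (nat_lit 1590084570) (nat_lit 504) (nat_lit 2202121685) (nat_lit 171) (nat_lit 5) (nat_lit 176) (nat_lit 3) (nat_lit 177) (nat_lit 5) (nat_lit 364) (nat_lit 363) (nat_lit 353)) (XT.lf (nat_lit 84) (nat_lit 4128087266) (nat_lit 0) (nat_lit 2344002851) (nat_lit 504) (nat_lit 436562231) (nat_lit 172) (nat_lit 5) (nat_lit 171) (nat_lit 5) (nat_lit 177) (nat_lit 5) (nat_lit 365) (nat_lit 363) (nat_lit 352))) (XT.nd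 (nat_lit 94) (nat_lit 0) (nat_lit 0) (XT.lf (nat_lit 0) (nat_lit 2842774655) (nat_lit 504) (nat_lit 3862670298) (nat_lit 588) (nat_lit 336956653) (nat_lit 166) (nat_lit 5) (nat_lit 172) (nat_lit 5) (nat_lit 173) (nat_lit 5) (nat_lit 366) (nat_lit 363) (nat_lit 351)) (XT.lf (nat_lit 84) (nat_lit 2355413056) (nat_lit 0) (nat_lit 3836499613) (nat_lit 588) (nat_lit 1003442838) (nat_lit 167) (nat_lit 5) (nat_lit 166) (nat_lit 5) (nat_lit 173) (nat_lit 5) (nat_lit 367) (nat_lit 363) (nat_lit 350)))) (XT.nd (nat_lit 188) (nat_lit 1512) (nat_lit 0) (XT.nd (nat_lit 94) (nat_lit 504) (nat_lit 0) (XT.lf (nat_lit 84) (nat_lit 1660848640) (nat_lit 0) (nat_lit 515304659) (nat_lit 672) (nat_lit 5192176948) (nat_lit 160) (nat_lit 5) (nat_lit 159) (nat_lit 5) (nat_lit 167) (nat_lit 5) (nat_lit 368) (nat_lit 363) (nat_lit 349)) (XT.lf (nat_lit 0) (nat_lit 1060869390) (nat_lit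 588) (nat_lit 4395987780) (nat_lit 672) (nat_lit 2103368511) (nat_lit 153) (nat_lit 5) (nat_lit 160) (nat_lit 5) (nat_lit 161) (nat_lit 5) (nat_lit 369) (nat_lit 363) (nat_lit 348))) (XT.nd (nat_lit 94) (nat_lit 756) (nat_lit 0) (XT.lf (nat_lit 0) (nat_lit 591612638) (nat_lit 672) (nat_lit 464310655) (nat_lit 756) (nat_lit 6717445893) (nat_lit 144) (nat_lit 5) (nat_lit 152) (nat_lit 5) (nat_lit 153) (nat_lit 5) (nat_lit 370) (nat_lit 363) (nat_lit 347)) (XT.lf (nat_lit 0) (nat_lit 180165129) (nat_lit 756) (nat_lit 4152328452) (nat_lit 840) (nat_lit 3672435171) (nat_lit 135) (nat_lit 5) (nat_lit 144) (nat_lit 5) (nat_lit 145) (nat_lit 5) (nat_lit 371) (nat_lit 363) (nat_lit 346))))))))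
noncomputable def xc94 : XT := (XT.nd (nat_lit 2632) (nat_lit 3024) (nat_lit 0) (XT.nd (nat_lit 1316) (nat_lit 2688) (nat_lit 0) (XT.nd (nat_lit 658) (nat_lit 2520) (nat_lit 0) (XT.nd (nat_lit 282) (nat_lit 1680) (nat_lit 0) (XT.nd (nat_lit 94) (nat_lit 1428) (nat_lit 0) (XT.lf (nat_lit 0) (nat_lit 7785066501) (nat_lit 840) (nat_lit 90418245) (nat_lit 84) (nat_lit 383834488) (nat_lit 135) (nat_lit 5) (nat_lit 145) (nat_lit 5) (nat_lit 136) (nat_lit 5) (nat_lit 372) (nat_lit 363) (nat_lit 345)) (XT.nd (nat_lit 94) (nat_lit 504) (nat_lit 0) (XT.lf (nat_lit 0) (nat_lit 2875059786) (nat_lit 924) (nat_lit 323573103) (nat_lit 84) (nat_lit 5333569566) (nat_lit 124) (nat_lit 5) (nat_lit 135) (nat_lit 5) (nat_lit 125) (nat_lit 5) (nat_lit 373) (nat_lit 363) (nat_lit 344)) (XT.lf (nat_lit 0) (nat_lit 6441197466) (nat_lit 588) (nat_lit 449398873) (nat_lit 84) (nat_lit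 1937656479) (nat_lit 118) (nat_lit 5) (nat_lit 125) (nat_lit 5) (nat_lit 119) (nat_lit 5) (nat_lit 374) (nat_lit 363) (nat_lit 343)))) (XT.nd (nat_lit 188) (nat_lit 756) (nat_lit 0) (XT.nd (nat_lit 94) (nat_lit 420) (nat_lit 0) (XT.lf (nat_lit 0) (nat_lit 1115948217) (nat_lit 504) (nat_lit 499189045) (nat_lit 84) (nat_lit 7531559154) (nat_lit 112) (nat_lit 5) (nat_lit 118) (nat_lit 5) (nat_lit 113) (nat_lit 5) (nat_lit 375) (nat_lit 363) (nat_lit 342)) (XT.lf (nat_lit 0) (nat_lit 4853405606) (nat_lit 504) (nat_lit 504936186) (nat_lit 84) (nat_lit 4128424892) (nat_lit 107) (nat_lit 5) (nat_lit 113) (nat_lit 5) (nat_lit 108) (nat_lit 5) (nat_lit 376) (nat_lit 363) (nat_lit 341))) (XT.nd (nat_lit 94) (nat_lit 420) (nat_lit 0) (XT.lf (nat_lit 0) (nat_lit 8913406654) (nat_lit 420) (nat_lit 396156240) (nat_lit 84) (nat_lit 543302325) (nat_lit 103) (nat_lit 5) (nat_lit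 108) (nat_lit 5) (nat_lit 104) (nat_lit 5) (nat_lit 377) (nat_lit 363) (nat_lit 340)) (XT.lf (nat_lit 0) (nat_lit 3049769622) (nat_lit 420) (nat_lit 271183845) (nat_lit 84) (nat_lit 6920045696) (nat_lit 98) (nat_lit 5) (nat_lit 103) (nat_lit 5) (nat_lit 99) (nat_lit 5) (nat_lit 378) (nat_lit 363) (nat_lit 339))))) (XT.nd (nat_lit 282) (nat_lit 1176) (nat_lit 0) (XT.nd (nat_lit 94) (nat_lit 1008) (nat_lit 0) (XT.lf (nat_lit 0) (nat_lit 7397224999) (nat_lit 420) (nat_lit 56568814) (nat_lit 84) (nat_lit 3202019811) (nat_lit 94) (nat_lit 5) (nat_lit 99) (nat_lit 5) (nat_lit 95) (nat_lit 5) (nat_lit 379) (nat_lit 363) (nat_lit 338)) (XT.nd (nat_lit 94) (nat_lit 336) (nat_lit 0) (XT.lf (nat_lit 0) (nat_lit 255823178) (nat_lit 252) (nat_lit 799427796) (nat_lit 336) (nat_lit 10042878939) (nat_lit 86) (nat_lit 5) (nat_lit 89) (nat_lit 5) (nat_lit 90) (nat_lit 5) (nat_lit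 380) (nat_lit 363) (nat_lit 337)) (XT.lf (nat_lit 0) (nat_lit 582393679) (nat_lit 336) (nat_lit 5175128904) (nat_lit 420) (nat_lit 5807763451) (nat_lit 82) (nat_lit 5) (nat_lit 86) (nat_lit 5) (nat_lit 87) (nat_lit 5) (nat_lit 381) (nat_lit 363) (nat_lit 336)))) (XT.nd (nat_lit 188) (nat_lit 588) (nat_lit 0) (XT.nd (nat_lit 94) (nat_lit 336) (nat_lit 0) (XT.lf (nat_lit 0) (nat_lit 1037040804) (nat_lit 252) (nat_lit 9915750777) (nat_lit 336) (nat_lit 1111182279) (nat_lit 79) (nat_lit 5) (nat_lit 82) (nat_lit 5) (nat_lit 83) (nat_lit 5) (nat_lit 382) (nat_lit 363) (nat_lit 335)) (XT.lf (nat_lit 0) (nat_lit 1522880388) (nat_lit 252) (nat_lit 2485308943) (nat_lit 336) (nat_lit 8582582936) (nat_lit 75) (nat_lit 5) (nat_lit 78) (nat_lit 5) (nat_lit 79) (nat_lit 5) (nat_lit 383) (nat_lit 363) (nat_lit 334))) (XT.nd (nat_lit 94) (nat_lit 336) (nat_lit 0) (XT.lf (nat_lit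 0) (nat_lit 2090470004) (nat_lit 252) (nat_lit 7596925481) (nat_lit 336) (nat_lit 3461947492) (nat_lit 72) (nat_lit 5) (nat_lit 75) (nat_lit 5) (nat_lit 76) (nat_lit 5) (nat_lit 384) (nat_lit 363) (nat_lit 333)) (XT.lf (nat_lit 0) (nat_lit 2171966011) (nat_lit 336) (nat_lit 10971429455) (nat_lit 84) (nat_lit 599097902) (nat_lit 68) (nat_lit 5) (nat_lit 72) (nat_lit 5) (nat_lit 69) (nat_lit 5) (nat_lit 385) (nat_lit 363) (nat_lit 332)))))) (XT.nd (nat_lit 658) (nat_lit 1176) (nat_lit 0) (XT.nd (nat_lit 282) (nat_lit 840) (nat_lit 0) (XT.nd (nat_lit 94) (nat_lit 504) (nat_lit 0) (XT.lf (nat_lit 0) (nat_lit 3469247284) (nat_lit 168) (nat_lit 4929878406) (nat_lit 252) (nat_lit 5967941294) (nat_lit 66) (nat_lit 5) (nat_lit 68) (nat_lit 5) (nat_lit 69) (nat_lit 5) (nat_lit 386) (nat_lit 363) (nat_lit 331)) (XT.nd (nat_lit 94) (nat_lit 168) (nat_lit 0) (XT.lf (nat_lit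 0) (nat_lit 295950206) (nat_lit 336) (nat_lit 10714862553) (nat_lit 84) (nat_lit 4019941538) (nat_lit 62) (nat_lit 5) (nat_lit 66) (nat_lit 5) (nat_lit 63) (nat_lit 5) (nat_lit 387) (nat_lit 363) (nat_lit 330)) (XT.lf (nat_lit 0) (nat_lit 5204036517) (nat_lit 168) (nat_lit 1900819426) (nat_lit 252) (nat_lit 8625139371) (nat_lit 60) (nat_lit 5) (nat_lit 62) (nat_lit 5) (nat_lit 63) (nat_lit 5) (nat_lit 388) (nat_lit 363) (nat_lit 329)))) (XT.nd (nat_lit 188) (nat_lit 420) (nat_lit 0) (XT.nd (nat_lit 94) (nat_lit 252) (nat_lit 0) (XT.lf (nat_lit 0) (nat_lit 6204809799) (nat_lit 168) (nat_lit 8561395547) (nat_lit 252) (nat_lit 1703583704) (nat_lit 58) (nat_lit 5) (nat_lit 60) (nat_lit 5) (nat_lit 61) (nat_lit 5) (nat_lit 389) (nat_lit 363) (nat_lit 328)) (XT.lf (nat_lit 0) (nat_lit 5844200496) (nat_lit 252) (nat_lit 9942237868) (nat_lit 84) (nat_lit 1464960585)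 (nat_lit 55) (nat_lit 5) (nat_lit 58) (nat_lit 5) (nat_lit 56) (nat_lit 5) (nat_lit 390) (nat_lit 363) (nat_lit 327))) (XT.nd (nat_lit 94) (nat_lit 252) (nat_lit 0) (XT.lf (nat_lit 0) (nat_lit 8502902694) (nat_lit 168) (nat_lit 5797437670) (nat_lit 252) (nat_lit 3775589985) (nat_lit 53) (nat_lit 5) (nat_lit 55) (nat_lit 5) (nat_lit 56) (nat_lit 5) (nat_lit 391) (nat_lit 363) (nat_lit 326)) (XT.lf (nat_lit 0) (nat_lit 4645463256) (nat_lit 252) (nat_lit 9127443940) (nat_lit 84) (nat_lit 5173936624) (nat_lit 50) (nat_lit 5) (nat_lit 53) (nat_lit 5) (nat_lit 51) (nat_lit 5) (nat_lit 392) (nat_lit 363) (nat_lit 325))))) (XT.nd (nat_lit 282) (nat_lit 672) (nat_lit 0) (XT.nd (nat_lit 94) (nat_lit 336) (nat_lit 0) (XT.lf (nat_lit 0) (nat_lit 11267533658) (nat_lit 168) (nat_lit 2696515040) (nat_lit 252) (nat_lit 5902480614) (nat_lit 48) (nat_lit 5) (nat_lit 50) (nat_lit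 5) (nat_lit 51) (nat_lit 5) (nat_lit 393) (nat_lit 363) (nat_lit 324)) (XT.nd (nat_lit 94) (nat_lit 168) (nat_lit 0) (XT.lf (nat_lit 0) (nat_lit 3495696071) (nat_lit 168) (nat_lit 8013272274) (nat_lit 84) (nat_lit 9326909415) (nat_lit 46) (nat_lit 5) (nat_lit 48) (nat_lit 5) (nat_lit 47) (nat_lit 5) (nat_lit 394) (nat_lit 363) (nat_lit 323)) (XT.lf (nat_lit 0) (nat_lit 13796075962) (nat_lit 252) (nat_lit 7312093139) (nat_lit 84) (nat_lit 751909722) (nat_lit 44) (nat_lit 5) (nat_lit 47) (nat_lit 5) (nat_lit 45) (nat_lit 4) (nat_lit 395) (nat_lit 363) (nat_lit 322)))) (XT.nd (nat_lit 188) (nat_lit 336) (nat_lit 0) (XT.nd (nat_lit 94) (nat_lit 168) (nat_lit 0) (XT.lf (nat_lit 0) (nat_lit 2412682357) (nat_lit 168) (nat_lit 6553187516) (nat_lit 84) (nat_lit 13972772469) (nat_lit 42) (nat_lit 5) (nat_lit 44) (nat_lit 5) (nat_lit 43) (nat_lit 5) (nat_lit 396) (nat_lit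 363) (nat_lit 321)) (XT.lf (nat_lit 0) (nat_lit 13861873814) (nat_lit 252) (nat_lit 5697548923) (nat_lit 84) (nat_lit 4516613627) (nat_lit 40) (nat_lit 5) (nat_lit 43) (nat_lit 5) (nat_lit 41) (nat_lit 4) (nat_lit 397) (nat_lit 363) (nat_lit 320))) (XT.nd (nat_lit 94) (nat_lit 168) (nat_lit 0) (XT.lf (nat_lit 0) (nat_lit 1415817981) (nat_lit 168) (nat_lit 4692031936) (nat_lit 84) (nat_lit 19169713410) (nat_lit 38) (nat_lit 5) (nat_lit 40) (nat_lit 5) (nat_lit 39) (nat_lit 5) (nat_lit 398) (nat_lit 363) (nat_lit 319)) (XT.lf (nat_lit 0) (nat_lit 14152181542) (nat_lit 252) (nat_lit 3653715396) (nat_lit 84) (nat_lit 8734251291) (nat_lit 36) (nat_lit 5) (nat_lit 39) (nat_lit 5) (nat_lit 37) (nat_lit 4) (nat_lit 399) (nat_lit 363) (nat_lit 318))))))) (XT.nd (nat_lit 1316) (nat_lit 1008) (nat_lit 0) (XT.nd (nat_lit 658) (nat_lit 924) (nat_lit 0) (XT.nd (nat_lit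 282) (nat_lit 504) (nat_lit 0) (XT.nd (nat_lit 94) (nat_lit 420) (nat_lit 0) (XT.lf (nat_lit 0) (nat_lit 526674734) (nat_lit 168) (nat_lit 2365146744) (nat_lit 84) (nat_lit 24985761577) (nat_lit 34) (nat_lit 5) (nat_lit 36) (nat_lit 5) (nat_lit 35) (nat_lit 5) (nat_lit 400) (nat_lit 363) (nat_lit 317)) (XT.nd (nat_lit 94) (nat_lit 252) (nat_lit 0) (XT.lf (nat_lit 0) (nat_lit 14703719111) (nat_lit 252) (nat_lit 1111091004) (nat_lit 84) (nat_lit 13463886200) (nat_lit 32) (nat_lit 5) (nat_lit 35) (nat_lit 5) (nat_lit 33) (nat_lit 4) (nat_lit 401) (nat_lit 363) (nat_lit 316)) (XT.lf (nat_lit 0) (nat_lit 503573156) (nat_lit 168) (nat_lit 30043995016) (nat_lit 168) (nat_lit 217698406) (nat_lit 29) (nat_lit 4) (nat_lit 31) (nat_lit 5) (nat_lit 31) (nat_lit 4) (nat_lit 402) (nat_lit 363) (nat_lit 315)))) (XT.nd (nat_lit 188) (nat_lit 252) (nat_lit 0) (XT.nd (nat_lit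 94) (nat_lit 84) (nat_lit 0) (XT.lf (nat_lit 0) (nat_lit 2077410314) (nat_lit 84) (nat_lit 13512859359) (nat_lit 168) (nat_lit 16728987053) (nat_lit 27) (nat_lit 5) (nat_lit 28) (nat_lit 5) (nat_lit 29) (nat_lit 4) (nat_lit 403) (nat_lit 363) (nat_lit 314)) (XT.lf (nat_lit 0) (nat_lit 4038787260) (nat_lit 84) (nat_lit 29218912544) (nat_lit 84) (nat_lit 709565255) (nat_lit 26) (nat_lit 4) (nat_lit 27) (nat_lit 5) (nat_lit 27) (nat_lit 4) (nat_lit 404) (nat_lit 363) (nat_lit 313))) (XT.nd (nat_lit 94) (nat_lit 84) (nat_lit 0) (XT.lf (nat_lit 0) (nat_lit 5997288975) (nat_lit 84) (nat_lit 10857659043) (nat_lit 168) (nat_lit 18839485797) (nat_lit 24) (nat_lit 5) (nat_lit 25) (nat_lit 5) (nat_lit 26) (nat_lit 4) (nat_lit 405) (nat_lit 363) (nat_lit 312)) (XT.lf (nat_lit 0) (nat_lit 8320816525) (nat_lit 84) (nat_lit 28218766646) (nat_lit 84) (nat_lit 982620265) (nat_lit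 23) (nat_lit 4) (nat_lit 24) (nat_lit 5) (nat_lit 24) (nat_lit 4) (nat_lit 406) (nat_lit 363) (nat_lit 311))))) (XT.nd (nat_lit 282) (nat_lit 504) (nat_lit 0) (XT.nd (nat_lit 94) (nat_lit 252) (nat_lit 0) (XT.lf (nat_lit 0) (nat_lit 10722324024) (nat_lit 84) (nat_lit 7812327619) (nat_lit 168) (nat_lit 20906372043) (nat_lit 21) (nat_lit 5) (nat_lit 22) (nat_lit 5) (nat_lit 23) (nat_lit 4) (nat_lit 407) (nat_lit 363) (nat_lit 310)) (XT.nd (nat_lit 94) (nat_lit 168) (nat_lit 0) (XT.lf (nat_lit 0) (nat_lit 13467898312) (nat_lit 84) (nat_lit 27004041477) (nat_lit 84) (nat_lit 995951305) (nat_lit 20) (nat_lit 4) (nat_lit 21) (nat_lit 5) (nat_lit 21) (nat_lit 4) (nat_lit 408) (nat_lit 363) (nat_lit 309)) (XT.lf (nat_lit 0) (nat_lit 16379272414) (nat_lit 84) (nat_lit 4312452113) (nat_lit 168) (nat_lit 22907135383) (nat_lit 18) (nat_lit 5) (nat_lit 19) (nat_lit 5)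 (nat_lit 20) (nat_lit 4) (nat_lit 409) (nat_lit 363) (nat_lit 308)))) (XT.nd (nat_lit 188) (nat_lit 252) (nat_lit 0) (XT.nd (nat_lit 94) (nat_lit 168) (nat_lit 0) (XT.lf (nat_lit 0) (nat_lit 19615489893) (nat_lit 84) (nat_lit 25528327590) (nat_lit 84) (nat_lit 702457578) (nat_lit 17) (nat_lit 4) (nat_lit 18) (nat_lit 5) (nat_lit 18) (nat_lit 4) (nat_lit 410) (nat_lit 363) (nat_lit 307)) (XT.lf (nat_lit 0) (nat_lit 23113207602) (nat_lit 84) (nat_lit 283925213) (nat_lit 168) (nat_lit 24814998466) (nat_lit 15) (nat_lit 5) (nat_lit 16) (nat_lit 5) (nat_lit 17) (nat_lit 4) (nat_lit 411) (nat_lit 363) (nat_lit 306))) (XT.nd (nat_lit 94) (nat_lit 168) (nat_lit 0) (XT.lf (nat_lit 0) (nat_lit 26918482711) (nat_lit 84) (nat_lit 23737512378) (nat_lit 84) (nat_lit 47889359) (nat_lit 14) (nat_lit 4) (nat_lit 15) (nat_lit 5) (nat_lit 15) (nat_lit 4) (nat_lit 412) (nat_lit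 363) (nat_lit 305)) (XT.lf (nat_lit 0) (nat_lit 26799728165) (nat_lit 168) (nat_lit 22308012974) (nat_lit 0) (nat_lit 4218706914) (nat_lit 12) (nat_lit 5) (nat_lit 14) (nat_lit 4) (nat_lit 12) (nat_lit 4) (nat_lit 413) (nat_lit 363) (nat_lit 304)))))) (XT.nd (nat_lit 658) (nat_lit 84) (nat_lit 0) (XT.nd (nat_lit 282) (nat_lit 504) (nat_lit 0) (XT.nd (nat_lit 94) (nat_lit 252) (nat_lit 0) (XT.lf (nat_lit 0) (nat_lit 997249896) (nat_lit 168) (nat_lit 20554691850) (nat_lit 84) (nat_lit 34539578004) (nat_lit 10) (nat_lit 5) (nat_lit 12) (nat_lit 5) (nat_lit 11) (nat_lit 4) (nat_lit 414) (nat_lit 363) (nat_lit 303)) (XT.nd (nat_lit 94) (nat_lit 168) (nat_lit 0) (XT.lf (nat_lit 0) (nat_lit 30939007052) (nat_lit 168) (nat_lit 18659588745) (nat_lit 0) (nat_lit 9400196332) (nat_lit 9) (nat_lit 5) (nat_lit 11) (nat_lit 4) (nat_lit 9) (nat_lit 4) (nat_lit 415) (nat_lit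 363) (nat_lit 302)) (XT.lf (nat_lit 0) (nat_lit 2520434477) (nat_lit 168) (nat_lit 16386644130) (nat_lit 84) (nat_lit 43159710656) (nat_lit 7) (nat_lit 5) (nat_lit 9) (nat_lit 5) (nat_lit 8) (nat_lit 4) (nat_lit 416) (nat_lit 363) (nat_lit 301)))) (XT.nd (nat_lit 188) (nat_lit 252) (nat_lit 0) (XT.nd (nat_lit 94) (nat_lit 168) (nat_lit 0) (XT.lf (nat_lit 0) (nat_lit 35917004339) (nat_lit 168) (nat_lit 13995727336) (nat_lit 0) (nat_lit 15376844123) (nat_lit 6) (nat_lit 5) (nat_lit 8) (nat_lit 4) (nat_lit 6) (nat_lit 4) (nat_lit 417) (nat_lit 363) (nat_lit 300)) (XT.lf (nat_lit 0) (nat_lit 4603209701) (nat_lit 168) (nat_lit 11115602741) (nat_lit 84) (nat_lit 52974313021) (nat_lit 4) (nat_lit 5) (nat_lit 6) (nat_lit 5) (nat_lit 5) (nat_lit 4) (nat_lit 418) (nat_lit 363) (nat_lit 299))) (XT.nd (nat_lit 94) (nat_lit 168) (nat_lit 0) (XT.lf (nat_lit 0) (nat_lit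 41854863218) (nat_lit 168) (nat_lit 8139921743) (nat_lit 0) (nat_lit 22270754177) (nat_lit 3) (nat_lit 5) (nat_lit 5) (nat_lit 4) (nat_lit 3) (nat_lit 4) (nat_lit 419) (nat_lit 363) (nat_lit 298)) (XT.lf (nat_lit 0) (nat_lit 7337478064) (nat_lit 168) (nat_lit 4552095467) (nat_lit 84) (nat_lit 64151246240) (nat_lit 1) (nat_lit 5) (nat_lit 3) (nat_lit 5) (nat_lit 2) (nat_lit 4) (nat_lit 420) (nat_lit 363) (nat_lit 297))))) (XT.nd (nat_lit 376) (nat_lit 0) (nat_lit 0) (XT.nd (nat_lit 188) (nat_lit 0) (nat_lit 0) (XT.nd (nat_lit 94) (nat_lit 0) (nat_lit 0) (XT.lf (nat_lit 0) (nat_lit 118782259576) (nat_lit 0) (nat_lit 0) (nat_lit 0) (nat_lit 0) (nat_lit 0) (nat_lit 0) (nat_lit 1) (nat_lit 0) (nat_lit 1) (nat_lit 0) (nat_lit 421) (nat_lit 363) (nat_lit 296)) (XT.lf (nat_lit 0) (nat_lit 128175430999) (nat_lit 0) (nat_lit 0) (nat_lit 0) (nat_lit 0) (nat_lit 0) (nat_lit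 0) (nat_lit 1) (nat_lit 0) (nat_lit 1) (nat_lit 0) (nat_lit 422) (nat_lit 363) (nat_lit 295))) (XT.nd (nat_lit 94) (nat_lit 0) (nat_lit 0) (XT.lf (nat_lit 0) (nat_lit 138320145092) (nat_lit 0) (nat_lit 0) (nat_lit 0) (nat_lit 0) (nat_lit 0) (nat_lit 0) (nat_lit 1) (nat_lit 0) (nat_lit 1) (nat_lit 0) (nat_lit 423) (nat_lit 363) (nat_lit 294)) (XT.lf (nat_lit 0) (nat_lit 149276518679) (nat_lit 0) (nat_lit 0) (nat_lit 0) (nat_lit 0) (nat_lit 0) (nat_lit 0) (nat_lit 1) (nat_lit 0) (nat_lit 1) (nat_lit 0) (nat_lit 424) (nat_lit 363) (nat_lit 293)))) (XT.nd (nat_lit 188) (nat_lit 0) (nat_lit 0) (XT.nd (nat_lit 94) (nat_lit 0) (nat_lit 0) (XT.lf (nat_lit 0) (nat_lit 161109478418) (nat_lit 0) (nat_lit 0) (nat_lit 0) (nat_lit 0) (nat_lit 0) (nat_lit 0) (nat_lit 1) (nat_lit 0) (nat_lit 1) (nat_lit 0) (nat_lit 425) (nat_lit 363) (nat_lit 292)) (XT.lf (nat_lit 0) (nat_lit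 173889145553) (nat_lit 0) (nat_lit 0) (nat_lit 0) (nat_lit 0) (nat_lit 0) (nat_lit 0) (nat_lit 1) (nat_lit 0) (nat_lit 1) (nat_lit 0) (nat_lit 426) (nat_lit 363) (nat_lit 291))) (XT.nd (nat_lit 94) (nat_lit 0) (nat_lit 0) (XT.lf (nat_lit 0) (nat_lit 187691251444) (nat_lit 0) (nat_lit 0) (nat_lit 0) (nat_lit 0) (nat_lit 0) (nat_lit 0) (nat_lit 1) (nat_lit 0) (nat_lit 1) (nat_lit 0) (nat_lit 427) (nat_lit 363) (nat_lit 290)) (XT.lf (nat_lit 0) (nat_lit 202597586348) (nat_lit 0) (nat_lit 0) (nat_lit 0) (nat_lit 0) (nat_lit 0) (nat_lit 0) (nat_lit 1) (nat_lit 0) (nat_lit 1) (nat_lit 0) (nat_lit 428) (nat_lit 363) (nat_lit 289))))))))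
noncomputable def xc95 : XT := (XT.nd (nat_lit 2632) (nat_lit 0) (nat_lit 0) (XT.nd (nat_lit 1316) (nat_lit 0) (nat_lit 0) (XT.nd (nat_lit 658) (nat_lit 0) (nat_lit 0) (XT.nd (nat_lit 282) (nat_lit 0) (nat_lit 0) (XT.nd (nat_lit 94) (nat_lit 0) (nat_lit 0) (XT.lf (nat_lit 0) (nat_lit 218696484102) (nat_lit 0) (nat_lit 0) (nat_lit 0) (nat_lit 0) (nat_lit 0) (nat_lit 0) (nat_lit 1) (nat_lit 0) (nat_lit 1) (nat_lit 0) (nat_lit 429) (nat_lit 363) (nat_lit 288)) (XT.nd (nat_lit 94) (nat_lit 0) (nat_lit 0) (XT.lf (nat_lit 0) (nat_lit 236083345581) (nat_lit 0) (nat_lit 0) (nat_lit 0) (nat_lit 0) (nat_lit 0) (nat_lit 0) (nat_lit 1) (nat_lit 0) (nat_lit 1) (nat_lit 0) (nat_lit 430) (nat_lit 363) (nat_lit 287)) (XT.lf (nat_lit 0) (nat_lit 254861204038) (nat_lit 0) (nat_lit 0) (nat_lit 0) (nat_lit 0) (nat_lit 0) (nat_lit 0) (nat_lit 1) (nat_lit 0) (nat_lit 1) (nat_lit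 0) (nat_lit 431) (nat_lit 363) (nat_lit 286)))) (XT.nd (nat_lit 188) (nat_lit 0) (nat_lit 0) (XT.nd (nat_lit 94) (nat_lit 0) (nat_lit 0) (XT.lf (nat_lit 0) (nat_lit 275141335673) (nat_lit 0) (nat_lit 0) (nat_lit 0) (nat_lit 0) (nat_lit 0) (nat_lit 0) (nat_lit 1) (nat_lit 0) (nat_lit 1) (nat_lit 0) (nat_lit 432) (nat_lit 363) (nat_lit 285)) (XT.lf (nat_lit 0) (nat_lit 297043919041) (nat_lit 0) (nat_lit 0) (nat_lit 0) (nat_lit 0) (nat_lit 0) (nat_lit 0) (nat_lit 1) (nat_lit 0) (nat_lit 1) (nat_lit 0) (nat_lit 433) (nat_lit 363) (nat_lit 284))) (XT.nd (nat_lit 94) (nat_lit 0) (nat_lit 0) (XT.lf (nat_lit 0) (nat_lit 320698747232) (nat_lit 0) (nat_lit 0) (nat_lit 0) (nat_lit 0) (nat_lit 0) (nat_lit 0) (nat_lit 1) (nat_lit 0) (nat_lit 1) (nat_lit 0) (nat_lit 434) (nat_lit 363) (nat_lit 283)) (XT.lf (nat_lit 0) (nat_lit 346245997003) (nat_lit 0) (nat_lit 0) (nat_lit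 0) (nat_lit 0) (nat_lit 0) (nat_lit 0) (nat_lit 1) (nat_lit 0) (nat_lit 1) (nat_lit 0) (nat_lit 435) (nat_lit 363) (nat_lit 282))))) (XT.nd (nat_lit 282) (nat_lit 0) (nat_lit 0) (XT.nd (nat_lit 94) (nat_lit 0) (nat_lit 0) (XT.lf (nat_lit 0) (nat_lit 373837059464) (nat_lit 0) (nat_lit 0) (nat_lit 0) (nat_lit 0) (nat_lit 0) (nat_lit 0) (nat_lit 1) (nat_lit 0) (nat_lit 1) (nat_lit 0) (nat_lit 436) (nat_lit 363) (nat_lit 281)) (XT.nd (nat_lit 94) (nat_lit 0) (nat_lit 0) (XT.lf (nat_lit 0) (nat_lit 403635437209) (nat_lit 0) (nat_lit 0) (nat_lit 0) (nat_lit 0) (nat_lit 0) (nat_lit 0) (nat_lit 1) (nat_lit 0) (nat_lit 1) (nat_lit 0) (nat_lit 437) (nat_lit 363) (nat_lit 280)) (XT.lf (nat_lit 0) (nat_lit 435817713216) (nat_lit 0) (nat_lit 0) (nat_lit 0) (nat_lit 0) (nat_lit 0) (nat_lit 0) (nat_lit 1) (nat_lit 0) (nat_lit 1) (nat_lit 0) (nat_lit 438) (nat_lit 363) (nat_lit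 279)))) (XT.nd (nat_lit 188) (nat_lit 0) (nat_lit 0) (XT.nd (nat_lit 94) (nat_lit 0) (nat_lit 0) (XT.lf (nat_lit 0) (nat_lit 470574597269) (nat_lit 0) (nat_lit 0) (nat_lit 0) (nat_lit 0) (nat_lit 0) (nat_lit 0) (nat_lit 1) (nat_lit 0) (nat_lit 1) (nat_lit 0) (nat_lit 439) (nat_lit 363) (nat_lit 278)) (XT.lf (nat_lit 0) (nat_lit 508112056088) (nat_lit 0) (nat_lit 0) (nat_lit 0) (nat_lit 0) (nat_lit 0) (nat_lit 0) (nat_lit 1) (nat_lit 0) (nat_lit 1) (nat_lit 0) (nat_lit 440) (nat_lit 363) (nat_lit 277))) (XT.nd (nat_lit 94) (nat_lit 0) (nat_lit 0) (XT.lf (nat_lit 0) (nat_lit 548652533873) (nat_lit 0) (nat_lit 0) (nat_lit 0) (nat_lit 0) (nat_lit 0) (nat_lit 0) (nat_lit 1) (nat_lit 0) (nat_lit 1) (nat_lit 0) (nat_lit 441) (nat_lit 363) (nat_lit 276)) (XT.lf (nat_lit 0) (nat_lit 592436270494) (nat_lit 0) (nat_lit 0) (nat_lit 0) (nat_lit 0) (nat_lit 0) (nat_lit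 0) (nat_lit 1) (nat_lit 0) (nat_lit 1) (nat_lit 0) (nat_lit 442) (nat_lit 363) (nat_lit 275)))))) (XT.nd (nat_lit 658) (nat_lit 0) (nat_lit 0) (XT.nd (nat_lit 282) (nat_lit 0) (nat_lit 0) (XT.nd (nat_lit 94) (nat_lit 0) (nat_lit 0) (XT.lf (nat_lit 0) (nat_lit 639722725130) (nat_lit 0) (nat_lit 0) (nat_lit 0) (nat_lit 0) (nat_lit 0) (nat_lit 0) (nat_lit 1) (nat_lit 0) (nat_lit 1) (nat_lit 0) (nat_lit 443) (nat_lit 363) (nat_lit 274)) (XT.nd (nat_lit 94) (nat_lit 0) (nat_lit 0) (XT.lf (nat_lit 0) (nat_lit 690792113808) (nat_lit 0) (nat_lit 0) (nat_lit 0) (nat_lit 0) (nat_lit 0) (nat_lit 0) (nat_lit 1) (nat_lit 0) (nat_lit 1) (nat_lit 0) (nat_lit 444) (nat_lit 363) (nat_lit 273)) (XT.lf (nat_lit 0) (nat_lit 745947069943) (nat_lit 0) (nat_lit 0) (nat_lit 0) (nat_lit 0) (nat_lit 0) (nat_lit 0) (nat_lit 1) (nat_lit 0) (nat_lit 1) (nat_lit 0) (nat_lit 445) (nat_lit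 363) (nat_lit 272)))) (XT.nd (nat_lit 188) (nat_lit 0) (nat_lit 0) (XT.nd (nat_lit 94) (nat_lit 0) (nat_lit 0) (XT.lf (nat_lit 0) (nat_lit 805514437720) (nat_lit 0) (nat_lit 0) (nat_lit 0) (nat_lit 0) (nat_lit 0) (nat_lit 0) (nat_lit 1) (nat_lit 0) (nat_lit 1) (nat_lit 0) (nat_lit 446) (nat_lit 363) (nat_lit 271)) (XT.lf (nat_lit 0) (nat_lit 869847208947) (nat_lit 0) (nat_lit 0) (nat_lit 0) (nat_lit 0) (nat_lit 0) (nat_lit 0) (nat_lit 1) (nat_lit 0) (nat_lit 1) (nat_lit 0) (nat_lit 447) (nat_lit 363) (nat_lit 270))) (XT.nd (nat_lit 94) (nat_lit 0) (nat_lit 0) (XT.lf (nat_lit 0) (nat_lit 939326614861) (nat_lit 0) (nat_lit 0) (nat_lit 0) (nat_lit 0) (nat_lit 0) (nat_lit 0) (nat_lit 1) (nat_lit 0) (nat_lit 1) (nat_lit 0) (nat_lit 448) (nat_lit 363) (nat_lit 269)) (XT.lf (nat_lit 0) (nat_lit 1014364385276) (nat_lit 0) (nat_lit 0) (nat_lit 0) (nat_lit 0) (nat_lit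 0) (nat_lit 0) (nat_lit 1) (nat_lit 0) (nat_lit 1) (nat_lit 0) (nat_lit 449) (nat_lit 363) (nat_lit 268))))) (XT.nd (nat_lit 282) (nat_lit 0) (nat_lit 0) (XT.nd (nat_lit 94) (nat_lit 0) (nat_lit 0) (XT.lf (nat_lit 0) (nat_lit 1095405188459) (nat_lit 0) (nat_lit 0) (nat_lit 0) (nat_lit 0) (nat_lit 0) (nat_lit 0) (nat_lit 1) (nat_lit 0) (nat_lit 1) (nat_lit 0) (nat_lit 450) (nat_lit 363) (nat_lit 267)) (XT.nd (nat_lit 94) (nat_lit 0) (nat_lit 0) (XT.lf (nat_lit 0) (nat_lit 1182929266209) (nat_lit 0) (nat_lit 0) (nat_lit 0) (nat_lit 0) (nat_lit 0) (nat_lit 0) (nat_lit 1) (nat_lit 0) (nat_lit 1) (nat_lit 0) (nat_lit 451) (nat_lit 363) (nat_lit 266)) (XT.lf (nat_lit 0) (nat_lit 1277455279726) (nat_lit 0) (nat_lit 0) (nat_lit 0) (nat_lit 0) (nat_lit 0) (nat_lit 0) (nat_lit 1) (nat_lit 0) (nat_lit 1) (nat_lit 0) (nat_lit 452) (nat_lit 363) (nat_lit 265)))) (XT.nd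 (nat_lit 188) (nat_lit 0) (nat_lit 0) (XT.nd (nat_lit 94) (nat_lit 0) (nat_lit 0) (XT.lf (nat_lit 0) (nat_lit 1379543383165) (nat_lit 0) (nat_lit 0) (nat_lit 0) (nat_lit 0) (nat_lit 0) (nat_lit 0) (nat_lit 1) (nat_lit 0) (nat_lit 1) (nat_lit 0) (nat_lit 453) (nat_lit 363) (nat_lit 264)) (XT.lf (nat_lit 0) (nat_lit 1489798543064) (nat_lit 0) (nat_lit 0) (nat_lit 0) (nat_lit 0) (nat_lit 0) (nat_lit 0) (nat_lit 1) (nat_lit 0) (nat_lit 1) (nat_lit 0) (nat_lit 454) (nat_lit 363) (nat_lit 263))) (XT.nd (nat_lit 94) (nat_lit 0) (nat_lit 0) (XT.lf (nat_lit 0) (nat_lit 1608874123334) (nat_lit 0) (nat_lit 0) (nat_lit 0) (nat_lit 0) (nat_lit 0) (nat_lit 0) (nat_lit 1) (nat_lit 0) (nat_lit 1) (nat_lit 0) (nat_lit 455) (nat_lit 363) (nat_lit 262)) (XT.lf (nat_lit 0) (nat_lit 1737475757043) (nat_lit 0) (nat_lit 0) (nat_lit 0) (nat_lit 0) (nat_lit 0) (nat_lit 0) (nat_lit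 1) (nat_lit 0) (nat_lit 1) (nat_lit 0) (nat_lit 456) (nat_lit 363) (nat_lit 261))))))) (XT.nd (nat_lit 1316) (nat_lit 0) (nat_lit 0) (XT.nd (nat_lit 658) (nat_lit 0) (nat_lit 0) (XT.nd (nat_lit 282) (nat_lit 0) (nat_lit 0) (XT.nd (nat_lit 94) (nat_lit 0) (nat_lit 0) (XT.lf (nat_lit 0) (nat_lit 1876365527947) (nat_lit 0) (nat_lit 0) (nat_lit 0) (nat_lit 0) (nat_lit 0) (nat_lit 0) (nat_lit 1) (nat_lit 0) (nat_lit 1) (nat_lit 0) (nat_lit 457) (nat_lit 363) (nat_lit 260)) (XT.nd (nat_lit 94) (nat_lit 0) (nat_lit 0) (XT.lf (nat_lit 0) (nat_lit 2026366486540) (nat_lit 0) (nat_lit 0) (nat_lit 0) (nat_lit 0) (nat_lit 0) (nat_lit 0) (nat_lit 1) (nat_lit 0) (nat_lit 1) (nat_lit 0) (nat_lit 458) (nat_lit 363) (nat_lit 259)) (XT.lf (nat_lit 0) (nat_lit 2188367527391) (nat_lit 0) (nat_lit 0) (nat_lit 0) (nat_lit 0) (nat_lit 0) (nat_lit 0) (nat_lit 1) (nat_lit 0) (nat_lit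 1) (nat_lit 0) (nat_lit 459) (nat_lit 363) (nat_lit 258)))) (XT.nd (nat_lit 188) (nat_lit 0) (nat_lit 0) (XT.nd (nat_lit 94) (nat_lit 0) (nat_lit 0) (XT.lf (nat_lit 0) (nat_lit 2363328656668) (nat_lit 0) (nat_lit 0) (nat_lit 0) (nat_lit 0) (nat_lit 0) (nat_lit 0) (nat_lit 1) (nat_lit 0) (nat_lit 1) (nat_lit 0) (nat_lit 460) (nat_lit 363) (nat_lit 257)) (XT.lf (nat_lit 0) (nat_lit 2552286681064) (nat_lit 0) (nat_lit 0) (nat_lit 0) (nat_lit 0) (nat_lit 0) (nat_lit 0) (nat_lit 1) (nat_lit 0) (nat_lit 1) (nat_lit 0) (nat_lit 461) (nat_lit 363) (nat_lit 256))) (XT.nd (nat_lit 94) (nat_lit 0) (nat_lit 0) (XT.lf (nat_lit 0) (nat_lit 2756361351833) (nat_lit 0) (nat_lit 0) (nat_lit 0) (nat_lit 0) (nat_lit 0) (nat_lit 0) (nat_lit 1) (nat_lit 0) (nat_lit 1) (nat_lit 0) (nat_lit 462) (nat_lit 363) (nat_lit 255)) (XT.lf (nat_lit 0) (nat_lit 2976762000359) (nat_lit 0) (nat_lit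 0) (nat_lit 0) (nat_lit 0) (nat_lit 0) (nat_lit 0) (nat_lit 1) (nat_lit 0) (nat_lit 1) (nat_lit 0) (nat_lit 463) (nat_lit 363) (nat_lit 254))))) (XT.nd (nat_lit 282) (nat_lit 0) (nat_lit 0) (XT.nd (nat_lit 94) (nat_lit 0) (nat_lit 0) (XT.lf (nat_lit 0) (nat_lit 3214794704558) (nat_lit 0) (nat_lit 0) (nat_lit 0) (nat_lit 0) (nat_lit 0) (nat_lit 0) (nat_lit 1) (nat_lit 0) (nat_lit 1) (nat_lit 0) (nat_lit 464) (nat_lit 363) (nat_lit 253)) (XT.nd (nat_lit 94) (nat_lit 0) (nat_lit 0) (XT.lf (nat_lit 0) (nat_lit 3471870028604) (nat_lit 0) (nat_lit 0) (nat_lit 0) (nat_lit 0) (nat_lit 0) (nat_lit 0) (nat_lit 1) (nat_lit 0) (nat_lit 1) (nat_lit 0) (nat_lit 465) (nat_lit 363) (nat_lit 252)) (XT.lf (nat_lit 0) (nat_lit 3749511381824) (nat_lit 0) (nat_lit 0) (nat_lit 0) (nat_lit 0) (nat_lit 0) (nat_lit 0) (nat_lit 1) (nat_lit 0) (nat_lit 1) (nat_lit 0) (nat_lit 466) (nat_lit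 363) (nat_lit 251)))) (XT.nd (nat_lit 188) (nat_lit 0) (nat_lit 0) (XT.nd (nat_lit 94) (nat_lit 0) (nat_lit 0) (XT.lf (nat_lit 0) (nat_lit 4049364046311) (nat_lit 0) (nat_lit 0) (nat_lit 0) (nat_lit 0) (nat_lit 0) (nat_lit 0) (nat_lit 1) (nat_lit 0) (nat_lit 1) (nat_lit 0) (nat_lit 467) (nat_lit 363) (nat_lit 250)) (XT.lf (nat_lit 0) (nat_lit 4373204926744) (nat_lit 0) (nat_lit 0) (nat_lit 0) (nat_lit 0) (nat_lit 0) (nat_lit 0) (nat_lit 1) (nat_lit 0) (nat_lit 1) (nat_lit 0) (nat_lit 468) (nat_lit 363) (nat_lit 249))) (XT.nd (nat_lit 94) (nat_lit 0) (nat_lit 0) (XT.lf (nat_lit 0) (nat_lit 4722953080192) (nat_lit 0) (nat_lit 0) (nat_lit 0) (nat_lit 0) (nat_lit 0) (nat_lit 0) (nat_lit 1) (nat_lit 0) (nat_lit 1) (nat_lit 0) (nat_lit 469) (nat_lit 363) (nat_lit 248)) (XT.lf (nat_lit 0) (nat_lit 5100681088305) (nat_lit 0) (nat_lit 0) (nat_lit 0) (nat_lit 0) (nat_lit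 0) (nat_lit 0) (nat_lit 1) (nat_lit 0) (nat_lit 1) (nat_lit 0) (nat_lit 470) (nat_lit 363) (nat_lit 247)))))) (XT.nd (nat_lit 658) (nat_lit 0) (nat_lit 0) (XT.nd (nat_lit 282) (nat_lit 0) (nat_lit 0) (XT.nd (nat_lit 94) (nat_lit 0) (nat_lit 0) (XT.lf (nat_lit 0) (nat_lit 5508627339280) (nat_lit 0) (nat_lit 0) (nat_lit 0) (nat_lit 0) (nat_lit 0) (nat_lit 0) (nat_lit 1) (nat_lit 0) (nat_lit 1) (nat_lit 0) (nat_lit 471) (nat_lit 363) (nat_lit 246)) (XT.nd (nat_lit 94) (nat_lit 0) (nat_lit 0) (XT.lf (nat_lit 0) (nat_lit 5949209292381) (nat_lit 0) (nat_lit 0) (nat_lit 0) (nat_lit 0) (nat_lit 0) (nat_lit 0) (nat_lit 1) (nat_lit 0) (nat_lit 1) (nat_lit 0) (nat_lit 472) (nat_lit 363) (nat_lit 245)) (XT.lf (nat_lit 0) (nat_lit 6425037803626) (nat_lit 0) (nat_lit 0) (nat_lit 0) (nat_lit 0) (nat_lit 0) (nat_lit 0) (nat_lit 1) (nat_lit 0) (nat_lit 1) (nat_lit 0) (nat_lit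 473) (nat_lit 363) (nat_lit 244)))) (XT.nd (nat_lit 188) (nat_lit 0) (nat_lit 0) (XT.nd (nat_lit 94) (nat_lit 0) (nat_lit 0) (XT.lf (nat_lit 0) (nat_lit 6938932597527) (nat_lit 0) (nat_lit 0) (nat_lit 0) (nat_lit 0) (nat_lit 0) (nat_lit 0) (nat_lit 1) (nat_lit 0) (nat_lit 1) (nat_lit 0) (nat_lit 474) (nat_lit 363) (nat_lit 243)) (XT.lf (nat_lit 0) (nat_lit 7493938976567) (nat_lit 0) (nat_lit 0) (nat_lit 0) (nat_lit 0) (nat_lit 0) (nat_lit 0) (nat_lit 1) (nat_lit 0) (nat_lit 1) (nat_lit 0) (nat_lit 475) (nat_lit 363) (nat_lit 242))) (XT.nd (nat_lit 94) (nat_lit 0) (nat_lit 0) (XT.lf (nat_lit 0) (nat_lit 8093345867435) (nat_lit 0) (nat_lit 0) (nat_lit 0) (nat_lit 0) (nat_lit 0) (nat_lit 0) (nat_lit 1) (nat_lit 0) (nat_lit 1) (nat_lit 0) (nat_lit 476) (nat_lit 363) (nat_lit 241)) (XT.lf (nat_lit 0) (nat_lit 8740705310967) (nat_lit 0) (nat_lit 0) (nat_lit 0) (nat_lit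 0) (nat_lit 0) (nat_lit 0) (nat_lit 1) (nat_lit 0) (nat_lit 1) (nat_lit 0) (nat_lit 477) (nat_lit 363) (nat_lit 240))))) (XT.nd (nat_lit 376) (nat_lit 0) (nat_lit 0) (XT.nd (nat_lit 188) (nat_lit 0) (nat_lit 0) (XT.nd (nat_lit 94) (nat_lit 0) (nat_lit 0) (XT.lf (nat_lit 0) (nat_lit 9439853511272) (nat_lit 0) (nat_lit 0) (nat_lit 0) (nat_lit 0) (nat_lit 0) (nat_lit 0) (nat_lit 1) (nat_lit 0) (nat_lit 1) (nat_lit 0) (nat_lit 478) (nat_lit 363) (nat_lit 239)) (XT.lf (nat_lit 0) (nat_lit 10194933568797) (nat_lit 0) (nat_lit 0) (nat_lit 0) (nat_lit 0) (nat_lit 0) (nat_lit 0) (nat_lit 1) (nat_lit 0) (nat_lit 1) (nat_lit 0) (nat_lit 479) (nat_lit 363) (nat_lit 238))) (XT.nd (nat_lit 94) (nat_lit 0) (nat_lit 0) (XT.lf (nat_lit 0) (nat_lit 11010420032030) (nat_lit 0) (nat_lit 0) (nat_lit 0) (nat_lit 0) (nat_lit 0) (nat_lit 0) (nat_lit 1) (nat_lit 0) (nat_lit 1) (nat_lit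 0) (nat_lit 480) (nat_lit 363) (nat_lit 237)) (XT.lf (nat_lit 0) (nat_lit 11891145413347) (nat_lit 0) (nat_lit 0) (nat_lit 0) (nat_lit 0) (nat_lit 0) (nat_lit 0) (nat_lit 1) (nat_lit 0) (nat_lit 1) (nat_lit 0) (nat_lit 481) (nat_lit 363) (nat_lit 236)))) (XT.nd (nat_lit 188) (nat_lit 0) (nat_lit 0) (XT.nd (nat_lit 94) (nat_lit 0) (nat_lit 0) (XT.lf (nat_lit 0) (nat_lit 12842328826118) (nat_lit 0) (nat_lit 0) (nat_lit 0) (nat_lit 0) (nat_lit 0) (nat_lit 0) (nat_lit 1) (nat_lit 0) (nat_lit 1) (nat_lit 0) (nat_lit 482) (nat_lit 363) (nat_lit 235)) (XT.lf (nat_lit 0) (nat_lit 13869606912789) (nat_lit 0) (nat_lit 0) (nat_lit 0) (nat_lit 0) (nat_lit 0) (nat_lit 0) (nat_lit 1) (nat_lit 0) (nat_lit 1) (nat_lit 0) (nat_lit 483) (nat_lit 363) (nat_lit 234))) (XT.nd (nat_lit 94) (nat_lit 0) (nat_lit 0) (XT.lf (nat_lit 0) (nat_lit 14979067247208) (nat_lit 0) (nat_lit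 0) (nat_lit 0) (nat_lit 0) (nat_lit 0) (nat_lit 0) (nat_lit 1) (nat_lit 0) (nat_lit 1) (nat_lit 0) (nat_lit 484) (nat_lit 363) (nat_lit 233)) (XT.lf (nat_lit 0) (nat_lit 16177284409133) (nat_lit 0) (nat_lit 0) (nat_lit 0) (nat_lit 0) (nat_lit 0) (nat_lit 0) (nat_lit 1) (nat_lit 0) (nat_lit 1) (nat_lit 0) (nat_lit 485) (nat_lit 363) (nat_lit 232))))))))
noncomputable def xc96 : XT := (XT.nd (nat_lit 57716) (nat_lit 0) (nat_lit 2016) (XT.nd (nat_lit 56400) (nat_lit 0) (nat_lit 8232) (XT.nd (nat_lit 658) (nat_lit 0) (nat_lit 0) (XT.nd (nat_lit 282) (nat_lit 0) (nat_lit 0) (XT.nd (nat_lit 94) (nat_lit 0) (nat_lit 0) (XT.lf (nat_lit 0) (nat_lit 17471358944709) (nat_lit 0) (nat_lit 0) (nat_lit 0) (nat_lit 0) (nat_lit 0) (nat_lit 0) (nat_lit 1) (nat_lit 0) (nat_lit 1) (nat_lit 0) (nat_lit 486) (nat_lit 363) (nat_lit 231)) (XT.nd (nat_lit 94) (nat_lit 0) (nat_lit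 0) (XT.lf (nat_lit 0) (nat_lit 18868959443777) (nat_lit 0) (nat_lit 0) (nat_lit 0) (nat_lit 0) (nat_lit 0) (nat_lit 0) (nat_lit 1) (nat_lit 0) (nat_lit 1) (nat_lit 0) (nat_lit 487) (nat_lit 363) (nat_lit 230)) (XT.lf (nat_lit 0) (nat_lit 20378367983369) (nat_lit 0) (nat_lit 0) (nat_lit 0) (nat_lit 0) (nat_lit 0) (nat_lit 0) (nat_lit 1) (nat_lit 0) (nat_lit 1) (nat_lit 0) (nat_lit 488) (nat_lit 363) (nat_lit 229)))) (XT.nd (nat_lit 188) (nat_lit 0) (nat_lit 0) (XT.nd (nat_lit 94) (nat_lit 0) (nat_lit 0) (XT.lf (nat_lit 0) (nat_lit 22008529206681) (nat_lit 0) (nat_lit 0) (nat_lit 0) (nat_lit 0) (nat_lit 0) (nat_lit 0) (nat_lit 1) (nat_lit 0) (nat_lit 1) (nat_lit 0) (nat_lit 489) (nat_lit 363) (nat_lit 228)) (XT.lf (nat_lit 0) (nat_lit 23769103328372) (nat_lit 0) (nat_lit 0) (nat_lit 0) (nat_lit 0) (nat_lit 0) (nat_lit 0) (nat_lit 1) (nat_lit 0) (nat_lit 1) (nat_lit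 0) (nat_lit 490) (nat_lit 363) (nat_lit 227))) (XT.nd (nat_lit 94) (nat_lit 0) (nat_lit 0) (XT.lf (nat_lit 0) (nat_lit 25670523380271) (nat_lit 0) (nat_lit 0) (nat_lit 0) (nat_lit 0) (nat_lit 0) (nat_lit 0) (nat_lit 1) (nat_lit 0) (nat_lit 1) (nat_lit 0) (nat_lit 491) (nat_lit 363) (nat_lit 226)) (XT.lf (nat_lit 0) (nat_lit 27724057036763) (nat_lit 0) (nat_lit 0) (nat_lit 0) (nat_lit 0) (nat_lit 0) (nat_lit 0) (nat_lit 1) (nat_lit 0) (nat_lit 1) (nat_lit 0) (nat_lit 492) (nat_lit 363) (nat_lit 225))))) (XT.nd (nat_lit 282) (nat_lit 0) (nat_lit 0) (XT.nd (nat_lit 94) (nat_lit 0) (nat_lit 0) (XT.lf (nat_lit 0) (nat_lit 29941873386181) (nat_lit 0) (nat_lit 0) (nat_lit 0) (nat_lit 0) (nat_lit 0) (nat_lit 0) (nat_lit 1) (nat_lit 0) (nat_lit 1) (nat_lit 0) (nat_lit 493) (nat_lit 363) (nat_lit 224)) (XT.nd (nat_lit 94) (nat_lit 0) (nat_lit 0) (XT.lf (nat_lit 0) (nat_lit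 32337115043929) (nat_lit 0) (nat_lit 0) (nat_lit 0) (nat_lit 0) (nat_lit 0) (nat_lit 0) (nat_lit 1) (nat_lit 0) (nat_lit 1) (nat_lit 0) (nat_lit 494) (nat_lit 363) (nat_lit 223)) (XT.lf (nat_lit 0) (nat_lit 34923976034645) (nat_lit 0) (nat_lit 0) (nat_lit 0) (nat_lit 0) (nat_lit 0) (nat_lit 0) (nat_lit 1) (nat_lit 0) (nat_lit 1) (nat_lit 0) (nat_lit 495) (nat_lit 363) (nat_lit 222)))) (XT.nd (nat_lit 188) (nat_lit 0) (nat_lit 0) (XT.nd (nat_lit 94) (nat_lit 0) (nat_lit 0) (XT.lf (nat_lit 0) (nat_lit 37717785904942) (nat_lit 0) (nat_lit 0) (nat_lit 0) (nat_lit 0) (nat_lit 0) (nat_lit 0) (nat_lit 1) (nat_lit 0) (nat_lit 1) (nat_lit 0) (nat_lit 496) (nat_lit 363) (nat_lit 221)) (XT.lf (nat_lit 0) (nat_lit 40735100565162) (nat_lit 0) (nat_lit 0) (nat_lit 0) (nat_lit 0) (nat_lit 0) (nat_lit 0) (nat_lit 1) (nat_lit 0) (nat_lit 1) (nat_lit 0) (nat_lit 497) (nat_lit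 363) (nat_lit 220))) (XT.nd (nat_lit 55178) (nat_lit 0) (nat_lit 14364) (XT.lf (nat_lit 0) (nat_lit 43993800398476) (nat_lit 0) (nat_lit 0) (nat_lit 0) (nat_lit 0) (nat_lit 0) (nat_lit 0) (nat_lit 1) (nat_lit 0) (nat_lit 1) (nat_lit 0) (nat_lit 498) (nat_lit 363) (nat_lit 219)) (XT.lf (nat_lit 0) (nat_lit 1559886044) (nat_lit 0) (nat_lit 1559886044) (nat_lit 420) (nat_lit 329684932) (nat_lit 171) (nat_lit 5) (nat_lit 171) (nat_lit 3) (nat_lit 176) (nat_lit 3) (nat_lit 364) (nat_lit 364) (nat_lit 352)))))) (XT.nd (nat_lit 658) (nat_lit 3864) (nat_lit 0) (XT.nd (nat_lit 282) (nat_lit 1176) (nat_lit 0) (XT.nd (nat_lit 94) (nat_lit 504) (nat_lit 0) (XT.lf (nat_lit 84) (nat_lit 1778253561) (nat_lit 0) (nat_lit 599733082) (nat_lit 588) (nat_lit 4645330121) (nat_lit 165) (nat_lit 5) (nat_lit 164) (nat_lit 3) (nat_lit 171) (nat_lit 5) (nat_lit 365) (nat_lit 364) (nat_lit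 351)) (XT.nd (nat_lit 94) (nat_lit 588) (nat_lit 0) (XT.lf (nat_lit 84) (nat_lit 552214346) (nat_lit 0) (nat_lit 4890079089) (nat_lit 588) (nat_lit 1724484657) (nat_lit 166) (nat_lit 5) (nat_lit 165) (nat_lit 5) (nat_lit 172) (nat_lit 5) (nat_lit 366) (nat_lit 364) (nat_lit 350)) (XT.lf (nat_lit 0) (nat_lit 1200362821) (nat_lit 588) (nat_lit 533079270) (nat_lit 672) (nat_lit 5596352688) (nat_lit 158) (nat_lit 5) (nat_lit 165) (nat_lit 5) (nat_lit 166) (nat_lit 5) (nat_lit 367) (nat_lit 364) (nat_lit 349)))) (XT.nd (nat_lit 188) (nat_lit 1260) (nat_lit 0) (XT.nd (nat_lit 94) (nat_lit 0) (nat_lit 0) (XT.lf (nat_lit 0) (nat_lit 4157798842) (nat_lit 588) (nat_lit 1512870662) (nat_lit 672) (nat_lit 1840818870) (nat_lit 159) (nat_lit 5) (nat_lit 166) (nat_lit 5) (nat_lit 167) (nat_lit 5) (nat_lit 368) (nat_lit 364) (nat_lit 348)) (XT.lf (nat_lit 84) (nat_lit 5330381630)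 (nat_lit 0) (nat_lit 1896221331) (nat_lit 672) (nat_lit 487375836) (nat_lit 160) (nat_lit 5) (nat_lit 159) (nat_lit 5) (nat_lit 167) (nat_lit 5) (nat_lit 369) (nat_lit 364) (nat_lit 347))) (XT.nd (nat_lit 94) (nat_lit 672) (nat_lit 0) (XT.lf (nat_lit 0) (nat_lit 2428250519) (nat_lit 672) (nat_lit 3194647492) (nat_lit 84) (nat_lit 2312559962) (nat_lit 152) (nat_lit 5) (nat_lit 160) (nat_lit 5) (nat_lit 153) (nat_lit 5) (nat_lit 370) (nat_lit 364) (nat_lit 346)) (XT.lf (nat_lit 0) (nat_lit 4263458709) (nat_lit 672) (nat_lit 1217955011) (nat_lit 756) (nat_lit 2696774173) (nat_lit 144) (nat_lit 5) (nat_lit 152) (nat_lit 5) (nat_lit 153) (nat_lit 5) (nat_lit 371) (nat_lit 364) (nat_lit 345))))) (XT.nd (nat_lit 282) (nat_lit 1680) (nat_lit 0) (XT.nd (nat_lit 94) (nat_lit 1344) (nat_lit 0) (XT.lf (nat_lit 0) (nat_lit 294020372) (nat_lit 840) (nat_lit 4566836538)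 (nat_lit 84) (nat_lit 3580897030) (nat_lit 134) (nat_lit 5) (nat_lit 144) (nat_lit 5) (nat_lit 135) (nat_lit 5) (nat_lit 372) (nat_lit 364) (nat_lit 344)) (XT.nd (nat_lit 94) (nat_lit 504) (nat_lit 0) (XT.lf (nat_lit 0) (nat_lit 3383248738) (nat_lit 924) (nat_lit 5159340464) (nat_lit 84) (nat_lit 183922993) (nat_lit 124) (nat_lit 5) (nat_lit 135) (nat_lit 5) (nat_lit 125) (nat_lit 5) (nat_lit 373) (nat_lit 364) (nat_lit 343)) (XT.lf (nat_lit 0) (nat_lit 3325171931) (nat_lit 504) (nat_lit 3425001561) (nat_lit 588) (nat_lit 2282349713) (nat_lit 118) (nat_lit 5) (nat_lit 124) (nat_lit 5) (nat_lit 125) (nat_lit 5) (nat_lit 374) (nat_lit 364) (nat_lit 342)))) (XT.nd (nat_lit 188) (nat_lit 756) (nat_lit 0) (XT.nd (nat_lit 94) (nat_lit 420) (nat_lit 0) (XT.lf (nat_lit 0) (nat_lit 991507353) (nat_lit 504) (nat_lit 6180301572) (nat_lit 84) (nat_lit 2190365904) (nat_lit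 112) (nat_lit 5) (nat_lit 118) (nat_lit 5) (nat_lit 113) (nat_lit 5) (nat_lit 375) (nat_lit 364) (nat_lit 341)) (XT.lf (nat_lit 0) (nat_lit 3092850731) (nat_lit 420) (nat_lit 1396745644) (nat_lit 504) (nat_lit 5224617139) (nat_lit 107) (nat_lit 5) (nat_lit 112) (nat_lit 5) (nat_lit 113) (nat_lit 5) (nat_lit 376) (nat_lit 364) (nat_lit 340))) (XT.nd (nat_lit 94) (nat_lit 420) (nat_lit 0) (XT.lf (nat_lit 0) (nat_lit 3079992901) (nat_lit 336) (nat_lit 5264066412) (nat_lit 420) (nat_lit 1746529642) (nat_lit 103) (nat_lit 5) (nat_lit 107) (nat_lit 5) (nat_lit 108) (nat_lit 5) (nat_lit 377) (nat_lit 364) (nat_lit 339)) (XT.lf (nat_lit 0) (nat_lit 2004146611) (nat_lit 420) (nat_lit 7342638575) (nat_lit 84) (nat_lit 1145786908) (nat_lit 98) (nat_lit 5) (nat_lit 103) (nat_lit 5) (nat_lit 99) (nat_lit 5) (nat_lit 378) (nat_lit 364) (nat_lit 338))))))) (XT.nd (nat_lit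 1316) (nat_lit 2436) (nat_lit 0) (XT.nd (nat_lit 658) (nat_lit 1596) (nat_lit 0) (XT.nd (nat_lit 282) (nat_lit 1176) (nat_lit 0) (XT.nd (nat_lit 94) (nat_lit 672) (nat_lit 0) (XT.lf (nat_lit 0) (nat_lit 3260402596) (nat_lit 336) (nat_lit 2855828313) (nat_lit 420) (nat_lit 4802924200) (nat_lit 94) (nat_lit 5) (nat_lit 98) (nat_lit 5) (nat_lit 99) (nat_lit 5) (nat_lit 379) (nat_lit 364) (nat_lit 337)) (XT.nd (nat_lit 94) (nat_lit 336) (nat_lit 0) (XT.lf (nat_lit 0) (nat_lit 3469237307) (nat_lit 336) (nat_lit 7202347675) (nat_lit 420) (nat_lit 702564633) (nat_lit 90) (nat_lit 5) (nat_lit 94) (nat_lit 5) (nat_lit 95) (nat_lit 5) (nat_lit 380) (nat_lit 364) (nat_lit 336)) (XT.lf (nat_lit 0) (nat_lit 3719634976) (nat_lit 336) (nat_lit 8115949366) (nat_lit 84) (nat_lit 21397767) (nat_lit 86) (nat_lit 5) (nat_lit 90) (nat_lit 5) (nat_lit 87) (nat_lit 5) (nat_lit 381)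 (nat_lit 364) (nat_lit 335)))) (XT.nd (nat_lit 188) (nat_lit 504) (nat_lit 0) (XT.nd (nat_lit 94) (nat_lit 336) (nat_lit 0) (XT.lf (nat_lit 0) (nat_lit 4053653440) (nat_lit 336) (nat_lit 4619276411) (nat_lit 420) (nat_lit 3694838791) (nat_lit 82) (nat_lit 5) (nat_lit 86) (nat_lit 5) (nat_lit 87) (nat_lit 5) (nat_lit 382) (nat_lit 364) (nat_lit 334)) (XT.lf (nat_lit 0) (nat_lit 1216430027) (nat_lit 336) (nat_lit 8432962237) (nat_lit 84) (nat_lit 3261731487) (nat_lit 78) (nat_lit 5) (nat_lit 82) (nat_lit 5) (nat_lit 79) (nat_lit 5) (nat_lit 383) (nat_lit 364) (nat_lit 333))) (XT.nd (nat_lit 94) (nat_lit 252) (nat_lit 0) (XT.lf (nat_lit 0) (nat_lit 4951845812) (nat_lit 252) (nat_lit 1630573917) (nat_lit 336) (nat_lit 6902935556) (nat_lit 75) (nat_lit 5) (nat_lit 78) (nat_lit 5) (nat_lit 79) (nat_lit 5) (nat_lit 384) (nat_lit 364) (nat_lit 332)) (XT.lf (nat_lit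 0) (nat_lit 5513166256) (nat_lit 252) (nat_lit 7101922028) (nat_lit 336) (nat_lit 1478567075) (nat_lit 72) (nat_lit 5) (nat_lit 75) (nat_lit 5) (nat_lit 76) (nat_lit 5) (nat_lit 385) (nat_lit 364) (nat_lit 331))))) (XT.nd (nat_lit 282) (nat_lit 756) (nat_lit 0) (XT.nd (nat_lit 94) (nat_lit 504) (nat_lit 0) (XT.lf (nat_lit 0) (nat_lit 4438631774) (nat_lit 336) (nat_lit 8579473950) (nat_lit 84) (nat_lit 1719141690) (nat_lit 68) (nat_lit 5) (nat_lit 72) (nat_lit 5) (nat_lit 69) (nat_lit 5) (nat_lit 386) (nat_lit 364) (nat_lit 330)) (XT.nd (nat_lit 94) (nat_lit 336) (nat_lit 0) (XT.lf (nat_lit 0) (nat_lit 6874361062) (nat_lit 168) (nat_lit 4183403103) (nat_lit 252) (nat_lit 4359332757) (nat_lit 66) (nat_lit 5) (nat_lit 68) (nat_lit 5) (nat_lit 69) (nat_lit 5) (nat_lit 387) (nat_lit 364) (nat_lit 329)) (XT.lf (nat_lit 0) (nat_lit 2254801845) (nat_lit 336) (nat_lit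 8438432063) (nat_lit 84) (nat_lit 5443221951) (nat_lit 62) (nat_lit 5) (nat_lit 66) (nat_lit 5) (nat_lit 63) (nat_lit 5) (nat_lit 388) (nat_lit 364) (nat_lit 328)))) (XT.nd (nat_lit 188) (nat_lit 336) (nat_lit 0) (XT.nd (nat_lit 94) (nat_lit 252) (nat_lit 0) (XT.lf (nat_lit 0) (nat_lit 8617795648) (nat_lit 168) (nat_lit 894076431) (nat_lit 252) (nat_lit 7384591477) (nat_lit 60) (nat_lit 5) (nat_lit 62) (nat_lit 5) (nat_lit 63) (nat_lit 5) (nat_lit 389) (nat_lit 364) (nat_lit 327)) (XT.lf (nat_lit 0) (nat_lit 13004642) (nat_lit 252) (nat_lit 8060333264) (nat_lit 84) (nat_lit 9625771161) (nat_lit 57) (nat_lit 5) (nat_lit 60) (nat_lit 5) (nat_lit 58) (nat_lit 5) (nat_lit 390) (nat_lit 364) (nat_lit 326))) (XT.nd (nat_lit 94) (nat_lit 168) (nat_lit 0) (XT.lf (nat_lit 0) (nat_lit 8035722688) (nat_lit 252) (nat_lit 7803582845) (nat_lit 84) (nat_lit 2706006025) (nat_lit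 55) (nat_lit 5) (nat_lit 58) (nat_lit 5) (nat_lit 56) (nat_lit 5) (nat_lit 391) (nat_lit 364) (nat_lit 325)) (XT.lf (nat_lit 0) (nat_lit 11989659418) (nat_lit 168) (nat_lit 5094809362) (nat_lit 252) (nat_lit 2355530938) (nat_lit 53) (nat_lit 5) (nat_lit 55) (nat_lit 5) (nat_lit 56) (nat_lit 5) (nat_lit 392) (nat_lit 364) (nat_lit 324)))))) (XT.nd (nat_lit 658) (nat_lit 1176) (nat_lit 0) (XT.nd (nat_lit 282) (nat_lit 672) (nat_lit 0) (XT.nd (nat_lit 94) (nat_lit 336) (nat_lit 0) (XT.lf (nat_lit 0) (nat_lit 6621315290) (nat_lit 252) (nat_lit 7059018974) (nat_lit 84) (nat_lit 6702046313) (nat_lit 50) (nat_lit 5) (nat_lit 53) (nat_lit 5) (nat_lit 51) (nat_lit 5) (nat_lit 393) (nat_lit 364) (nat_lit 323)) (XT.nd (nat_lit 94) (nat_lit 168) (nat_lit 0) (XT.lf (nat_lit 0) (nat_lit 14845932197) (nat_lit 168) (nat_lit 1762420040) (nat_lit 252) (nat_lit 4771140438) (nat_lit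 48) (nat_lit 5) (nat_lit 50) (nat_lit 5) (nat_lit 51) (nat_lit 5) (nat_lit 394) (nat_lit 364) (nat_lit 322)) (XT.lf (nat_lit 0) (nat_lit 5271003786) (nat_lit 168) (nat_lit 5988355351) (nat_lit 84) (nat_lit 11168606242) (nat_lit 46) (nat_lit 5) (nat_lit 48) (nat_lit 5) (nat_lit 47) (nat_lit 5) (nat_lit 395) (nat_lit 364) (nat_lit 321)))) (XT.nd (nat_lit 188) (nat_lit 336) (nat_lit 0) (XT.nd (nat_lit 94) (nat_lit 168) (nat_lit 0) (XT.lf (nat_lit 0) (nat_lit 16342010815) (nat_lit 252) (nat_lit 5293279484) (nat_lit 84) (nat_lit 1901482390) (nat_lit 44) (nat_lit 5) (nat_lit 47) (nat_lit 5) (nat_lit 45) (nat_lit 4) (nat_lit 396) (nat_lit 364) (nat_lit 320)) (XT.lf (nat_lit 0) (nat_lit 4002527626) (nat_lit 168) (nat_lit 4540633035) (nat_lit 84) (nat_lit 16160731534) (nat_lit 42) (nat_lit 5) (nat_lit 44) (nat_lit 5) (nat_lit 43) (nat_lit 5) (nat_lit 397) (nat_lit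 364) (nat_lit 319))) (XT.nd (nat_lit 94) (nat_lit 168) (nat_lit 0) (XT.lf (nat_lit 0) (nat_lit 16319171853) (nat_lit 252) (nat_lit 3677328590) (nat_lit 84) (nat_lit 5938201423) (nat_lit 40) (nat_lit 5) (nat_lit 43) (nat_lit 5) (nat_lit 41) (nat_lit 4) (nat_lit 398) (nat_lit 364) (nat_lit 318)) (XT.lf (nat_lit 0) (nat_lit 2835604497) (nat_lit 168) (nat_lit 2655775754) (nat_lit 84) (nat_lit 21743062089) (nat_lit 38) (nat_lit 5) (nat_lit 40) (nat_lit 5) (nat_lit 39) (nat_lit 5) (nat_lit 399) (nat_lit 364) (nat_lit 317))))) (XT.nd (nat_lit 282) (nat_lit 588) (nat_lit 0) (XT.nd (nat_lit 94) (nat_lit 420) (nat_lit 0) (XT.lf (nat_lit 0) (nat_lit 16546679660) (nat_lit 252) (nat_lit 1593478069) (nat_lit 84) (nat_lit 10460086178) (nat_lit 36) (nat_lit 5) (nat_lit 39) (nat_lit 5) (nat_lit 37) (nat_lit 4) (nat_lit 400) (nat_lit 364) (nat_lit 316)) (XT.nd (nat_lit 94)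 (nat_lit 252) (nat_lit 0) (XT.lf (nat_lit 0) (nat_lit 1792497199) (nat_lit 168) (nat_lit 263601543) (nat_lit 84) (nat_lit 27990506534) (nat_lit 34) (nat_lit 5) (nat_lit 36) (nat_lit 5) (nat_lit 35) (nat_lit 5) (nat_lit 401) (nat_lit 364) (nat_lit 315)) (XT.lf (nat_lit 0) (nat_lit 1067776768) (nat_lit 84) (nat_lit 16012153273) (nat_lit 168) (nat_lit 14481066309) (nat_lit 31) (nat_lit 5) (nat_lit 32) (nat_lit 5) (nat_lit 33) (nat_lit 4) (nat_lit 402) (nat_lit 364) (nat_lit 314)))) (XT.nd (nat_lit 188) (nat_lit 252) (nat_lit 0) (XT.nd (nat_lit 94) (nat_lit 84) (nat_lit 0) (XT.lf (nat_lit 0) (nat_lit 971550963) (nat_lit 252) (nat_lit 30390092487) (nat_lit 84) (nat_lit 1805070988) (nat_lit 28) (nat_lit 5) (nat_lit 31) (nat_lit 5) (nat_lit 29) (nat_lit 4) (nat_lit 403) (nat_lit 364) (nat_lit 313)) (XT.lf (nat_lit 0) (nat_lit 4432997445) (nat_lit 84) (nat_lit 13548991306)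 (nat_lit 168) (nat_lit 16865583638) (nat_lit 27) (nat_lit 5) (nat_lit 28) (nat_lit 5) (nat_lit 29) (nat_lit 4) (nat_lit 404) (nat_lit 364) (nat_lit 312))) (XT.nd (nat_lit 94) (nat_lit 84) (nat_lit 0) (XT.lf (nat_lit 0) (nat_lit 384496280) (nat_lit 168) (nat_lit 30140171855) (nat_lit 84) (nat_lit 6104261388) (nat_lit 25) (nat_lit 5) (nat_lit 27) (nat_lit 5) (nat_lit 26) (nat_lit 4) (nat_lit 405) (nat_lit 364) (nat_lit 311)) (XT.lf (nat_lit 0) (nat_lit 8553359214) (nat_lit 84) (nat_lit 10725271118) (nat_lit 168) (nat_lit 19217593866) (nat_lit 24) (nat_lit 5) (nat_lit 25) (nat_lit 5) (nat_lit 26) (nat_lit 4) (nat_lit 406) (nat_lit 364) (nat_lit 310))))))))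
noncomputable def xc97 : XT := (XT.nd (nat_lit 2632) (nat_lit 0) (nat_lit 0) (XT.nd (nat_lit 1316) (nat_lit 252) (nat_lit 0) (XT.nd (nat_lit 658) (nat_lit 840) (nat_lit 0) (XT.nd (nat_lit 282) (nat_lit 588) (nat_lit 0) (XT.nd (nat_lit 94) (nat_lit 168) (nat_lit 0) (XT.lf (nat_lit 0) (nat_lit 31496671) (nat_lit 168) (nat_lit 29463388915) (nat_lit 84) (nat_lit 10976984534) (nat_lit 22) (nat_lit 5) (nat_lit 24) (nat_lit 5) (nat_lit 23) (nat_lit 4) (nat_lit 407) (nat_lit 364) (nat_lit 309)) (XT.nd (nat_lit 94) (nat_lit 84) (nat_lit 0) (XT.lf (nat_lit 0) (nat_lit 13548231934) (nat_lit 84) (nat_lit 7480253605) (nat_lit 168) (nat_lit 21517266953) (nat_lit 21) (nat_lit 5) (nat_lit 22) (nat_lit 5) (nat_lit 23) (nat_lit 4) (nat_lit 408) (nat_lit 364) (nat_lit 308)) (XT.lf (nat_lit 0) (nat_lit 16461983080) (nat_lit 84) (nat_lit 28227640064) (nat_lit 84) (nat_lit 46702828)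 (nat_lit 20) (nat_lit 4) (nat_lit 21) (nat_lit 5) (nat_lit 21) (nat_lit 4) (nat_lit 409) (nat_lit 364) (nat_lit 307)))) (XT.nd (nat_lit 188) (nat_lit 252) (nat_lit 0) (XT.nd (nat_lit 94) (nat_lit 168) (nat_lit 0) (XT.lf (nat_lit 0) (nat_lit 19554472538) (nat_lit 84) (nat_lit 3743920958) (nat_lit 168) (nat_lit 23740808657) (nat_lit 18) (nat_lit 5) (nat_lit 19) (nat_lit 5) (nat_lit 20) (nat_lit 4) (nat_lit 410) (nat_lit 364) (nat_lit 306)) (XT.lf (nat_lit 0) (nat_lit 203165029) (nat_lit 168) (nat_lit 26470733693) (nat_lit 84) (nat_lit 22793793703) (nat_lit 16) (nat_lit 5) (nat_lit 18) (nat_lit 5) (nat_lit 17) (nat_lit 4) (nat_lit 411) (nat_lit 364) (nat_lit 305))) (XT.nd (nat_lit 94) (nat_lit 168) (nat_lit 0) (XT.lf (nat_lit 0) (nat_lit 26173379752) (nat_lit 168) (nat_lit 25304445858) (nat_lit 0) (nat_lit 546052359) (nat_lit 15) (nat_lit 5) (nat_lit 17) (nat_lit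 4) (nat_lit 15) (nat_lit 4) (nat_lit 412) (nat_lit 364) (nat_lit 304)) (XT.lf (nat_lit 0) (nat_lit 832933661) (nat_lit 168) (nat_lit 23938747917) (nat_lit 84) (nat_lit 29944404061) (nat_lit 13) (nat_lit 5) (nat_lit 15) (nat_lit 5) (nat_lit 14) (nat_lit 4) (nat_lit 413) (nat_lit 364) (nat_lit 303))))) (XT.nd (nat_lit 282) (nat_lit 504) (nat_lit 0) (XT.nd (nat_lit 94) (nat_lit 252) (nat_lit 0) (XT.lf (nat_lit 0) (nat_lit 29800355804) (nat_lit 168) (nat_lit 22390728295) (nat_lit 0) (nat_lit 5358647330) (nat_lit 12) (nat_lit 5) (nat_lit 14) (nat_lit 4) (nat_lit 12) (nat_lit 4) (nat_lit 414) (nat_lit 364) (nat_lit 302)) (XT.nd (nat_lit 94) (nat_lit 84) (nat_lit 0) (XT.lf (nat_lit 0) (nat_lit 1909060665) (nat_lit 168) (nat_lit 20543594404) (nat_lit 84) (nat_lit 38084584723) (nat_lit 10) (nat_lit 5) (nat_lit 12) (nat_lit 5) (nat_lit 11) (nat_lit 4) (nat_lit 415)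 (nat_lit 364) (nat_lit 301)) (XT.lf (nat_lit 0) (nat_lit 34221559017) (nat_lit 168) (nat_lit 18541380996) (nat_lit 0) (nat_lit 10915383916) (nat_lit 9) (nat_lit 5) (nat_lit 11) (nat_lit 4) (nat_lit 9) (nat_lit 4) (nat_lit 416) (nat_lit 364) (nat_lit 300)))) (XT.nd (nat_lit 188) (nat_lit 252) (nat_lit 0) (XT.nd (nat_lit 94) (nat_lit 84) (nat_lit 0) (XT.lf (nat_lit 0) (nat_lit 3506400167) (nat_lit 168) (nat_lit 16130678292) (nat_lit 84) (nat_lit 47355837399) (nat_lit 7) (nat_lit 5) (nat_lit 9) (nat_lit 5) (nat_lit 8) (nat_lit 4) (nat_lit 417) (nat_lit 364) (nat_lit 299)) (XT.lf (nat_lit 0) (nat_lit 39551694157) (nat_lit 168) (nat_lit 13590798591) (nat_lit 0) (nat_lit 17332182640) (nat_lit 6) (nat_lit 5) (nat_lit 8) (nat_lit 4) (nat_lit 6) (nat_lit 4) (nat_lit 418) (nat_lit 364) (nat_lit 298))) (XT.nd (nat_lit 94) (nat_lit 84) (nat_lit 0) (XT.lf (nat_lit 0) (nat_lit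 5711099357) (nat_lit 168) (nat_lit 10522065116) (nat_lit 84) (nat_lit 57918429384) (nat_lit 4) (nat_lit 5) (nat_lit 6) (nat_lit 5) (nat_lit 5) (nat_lit 4) (nat_lit 419) (nat_lit 364) (nat_lit 297)) (XT.lf (nat_lit 0) (nat_lit 45921348150) (nat_lit 168) (nat_lit 7348526487) (nat_lit 0) (nat_lit 24741002838) (nat_lit 3) (nat_lit 5) (nat_lit 5) (nat_lit 4) (nat_lit 3) (nat_lit 4) (nat_lit 420) (nat_lit 364) (nat_lit 296)))))) (XT.nd (nat_lit 658) (nat_lit 0) (nat_lit 0) (XT.nd (nat_lit 282) (nat_lit 0) (nat_lit 0) (XT.nd (nat_lit 94) (nat_lit 84) (nat_lit 0) (XT.lf (nat_lit 0) (nat_lit 8622177178) (nat_lit 168) (nat_lit 3513298126) (nat_lit 84) (nat_lit 69953725005) (nat_lit 1) (nat_lit 5) (nat_lit 3) (nat_lit 5) (nat_lit 2) (nat_lit 4) (nat_lit 421) (nat_lit 364) (nat_lit 295)) (XT.nd (nat_lit 94) (nat_lit 0) (nat_lit 0) (XT.lf (nat_lit 0) (nat_lit 128283104844)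 (nat_lit 0) (nat_lit 0) (nat_lit 0) (nat_lit 0) (nat_lit 0) (nat_lit 0) (nat_lit 1) (nat_lit 0) (nat_lit 1) (nat_lit 0) (nat_lit 422) (nat_lit 364) (nat_lit 294)) (XT.lf (nat_lit 0) (nat_lit 138427858536) (nat_lit 0) (nat_lit 0) (nat_lit 0) (nat_lit 0) (nat_lit 0) (nat_lit 0) (nat_lit 1) (nat_lit 0) (nat_lit 1) (nat_lit 0) (nat_lit 423) (nat_lit 364) (nat_lit 293)))) (XT.nd (nat_lit 188) (nat_lit 0) (nat_lit 0) (XT.nd (nat_lit 94) (nat_lit 0) (nat_lit 0) (XT.lf (nat_lit 0) (nat_lit 149384268790) (nat_lit 0) (nat_lit 0) (nat_lit 0) (nat_lit 0) (nat_lit 0) (nat_lit 0) (nat_lit 1) (nat_lit 0) (nat_lit 1) (nat_lit 0) (nat_lit 424) (nat_lit 364) (nat_lit 292)) (XT.lf (nat_lit 0) (nat_lit 161217262479) (nat_lit 0) (nat_lit 0) (nat_lit 0) (nat_lit 0) (nat_lit 0) (nat_lit 0) (nat_lit 1) (nat_lit 0) (nat_lit 1) (nat_lit 0) (nat_lit 425) (nat_lit 364) (nat_lit 291)))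 (XT.nd (nat_lit 94) (nat_lit 0) (nat_lit 0) (XT.lf (nat_lit 0) (nat_lit 173996961049) (nat_lit 0) (nat_lit 0) (nat_lit 0) (nat_lit 0) (nat_lit 0) (nat_lit 0) (nat_lit 1) (nat_lit 0) (nat_lit 1) (nat_lit 0) (nat_lit 426) (nat_lit 364) (nat_lit 290)) (XT.lf (nat_lit 0) (nat_lit 187799096047) (nat_lit 0) (nat_lit 0) (nat_lit 0) (nat_lit 0) (nat_lit 0) (nat_lit 0) (nat_lit 1) (nat_lit 0) (nat_lit 1) (nat_lit 0) (nat_lit 427) (nat_lit 364) (nat_lit 289))))) (XT.nd (nat_lit 282) (nat_lit 0) (nat_lit 0) (XT.nd (nat_lit 94) (nat_lit 0) (nat_lit 0) (XT.lf (nat_lit 0) (nat_lit 202705457901) (nat_lit 0) (nat_lit 0) (nat_lit 0) (nat_lit 0) (nat_lit 0) (nat_lit 0) (nat_lit 1) (nat_lit 0) (nat_lit 1) (nat_lit 0) (nat_lit 428) (nat_lit 364) (nat_lit 288)) (XT.nd (nat_lit 94) (nat_lit 0) (nat_lit 0) (XT.lf (nat_lit 0) (nat_lit 218804380609) (nat_lit 0) (nat_lit 0) (nat_lit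 0) (nat_lit 0) (nat_lit 0) (nat_lit 0) (nat_lit 1) (nat_lit 0) (nat_lit 1) (nat_lit 0) (nat_lit 429) (nat_lit 364) (nat_lit 287)) (XT.lf (nat_lit 0) (nat_lit 236191265194) (nat_lit 0) (nat_lit 0) (nat_lit 0) (nat_lit 0) (nat_lit 0) (nat_lit 0) (nat_lit 1) (nat_lit 0) (nat_lit 1) (nat_lit 0) (nat_lit 430) (nat_lit 364) (nat_lit 286)))) (XT.nd (nat_lit 188) (nat_lit 0) (nat_lit 0) (XT.nd (nat_lit 94) (nat_lit 0) (nat_lit 0) (XT.lf (nat_lit 0) (nat_lit 254969145046) (nat_lit 0) (nat_lit 0) (nat_lit 0) (nat_lit 0) (nat_lit 0) (nat_lit 0) (nat_lit 1) (nat_lit 0) (nat_lit 1) (nat_lit 0) (nat_lit 431) (nat_lit 364) (nat_lit 285)) (XT.lf (nat_lit 0) (nat_lit 275249296490) (nat_lit 0) (nat_lit 0) (nat_lit 0) (nat_lit 0) (nat_lit 0) (nat_lit 0) (nat_lit 1) (nat_lit 0) (nat_lit 1) (nat_lit 0) (nat_lit 432) (nat_lit 364) (nat_lit 284))) (XT.nd (nat_lit 94) (nat_lit 0)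 (nat_lit 0) (XT.lf (nat_lit 0) (nat_lit 297151898201) (nat_lit 0) (nat_lit 0) (nat_lit 0) (nat_lit 0) (nat_lit 0) (nat_lit 0) (nat_lit 1) (nat_lit 0) (nat_lit 1) (nat_lit 0) (nat_lit 433) (nat_lit 364) (nat_lit 283)) (XT.lf (nat_lit 0) (nat_lit 320806743375) (nat_lit 0) (nat_lit 0) (nat_lit 0) (nat_lit 0) (nat_lit 0) (nat_lit 0) (nat_lit 1) (nat_lit 0) (nat_lit 1) (nat_lit 0) (nat_lit 434) (nat_lit 364) (nat_lit 282))))))) (XT.nd (nat_lit 1316) (nat_lit 0) (nat_lit 0) (XT.nd (nat_lit 658) (nat_lit 0) (nat_lit 0) (XT.nd (nat_lit 282) (nat_lit 0) (nat_lit 0) (XT.nd (nat_lit 94) (nat_lit 0) (nat_lit 0) (XT.lf (nat_lit 0) (nat_lit 346354008871) (nat_lit 0) (nat_lit 0) (nat_lit 0) (nat_lit 0) (nat_lit 0) (nat_lit 0) (nat_lit 1) (nat_lit 0) (nat_lit 1) (nat_lit 0) (nat_lit 435) (nat_lit 364) (nat_lit 281)) (XT.nd (nat_lit 94) (nat_lit 0) (nat_lit 0) (XT.lf (nat_lit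 0) (nat_lit 373945085894) (nat_lit 0) (nat_lit 0) (nat_lit 0) (nat_lit 0) (nat_lit 0) (nat_lit 0) (nat_lit 1) (nat_lit 0) (nat_lit 1) (nat_lit 0) (nat_lit 436) (nat_lit 364) (nat_lit 280)) (XT.lf (nat_lit 0) (nat_lit 403743477120) (nat_lit 0) (nat_lit 0) (nat_lit 0) (nat_lit 0) (nat_lit 0) (nat_lit 0) (nat_lit 1) (nat_lit 0) (nat_lit 1) (nat_lit 0) (nat_lit 437) (nat_lit 364) (nat_lit 279)))) (XT.nd (nat_lit 188) (nat_lit 0) (nat_lit 0) (XT.nd (nat_lit 94) (nat_lit 0) (nat_lit 0) (XT.lf (nat_lit 0) (nat_lit 435925765610) (nat_lit 0) (nat_lit 0) (nat_lit 0) (nat_lit 0) (nat_lit 0) (nat_lit 0) (nat_lit 1) (nat_lit 0) (nat_lit 1) (nat_lit 0) (nat_lit 438) (nat_lit 364) (nat_lit 278)) (XT.lf (nat_lit 0) (nat_lit 470682661222) (nat_lit 0) (nat_lit 0) (nat_lit 0) (nat_lit 0) (nat_lit 0) (nat_lit 0) (nat_lit 1) (nat_lit 0) (nat_lit 1) (nat_lit 0) (nat_lit 439) (nat_lit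 364) (nat_lit 277))) (XT.nd (nat_lit 94) (nat_lit 0) (nat_lit 0) (XT.lf (nat_lit 0) (nat_lit 508220130743) (nat_lit 0) (nat_lit 0) (nat_lit 0) (nat_lit 0) (nat_lit 0) (nat_lit 0) (nat_lit 1) (nat_lit 0) (nat_lit 1) (nat_lit 0) (nat_lit 440) (nat_lit 364) (nat_lit 276)) (XT.lf (nat_lit 0) (nat_lit 548760618439) (nat_lit 0) (nat_lit 0) (nat_lit 0) (nat_lit 0) (nat_lit 0) (nat_lit 0) (nat_lit 1) (nat_lit 0) (nat_lit 1) (nat_lit 0) (nat_lit 441) (nat_lit 364) (nat_lit 275))))) (XT.nd (nat_lit 282) (nat_lit 0) (nat_lit 0) (XT.nd (nat_lit 94) (nat_lit 0) (nat_lit 0) (XT.lf (nat_lit 0) (nat_lit 592544364235) (nat_lit 0) (nat_lit 0) (nat_lit 0) (nat_lit 0) (nat_lit 0) (nat_lit 0) (nat_lit 1) (nat_lit 0) (nat_lit 1) (nat_lit 0) (nat_lit 442) (nat_lit 364) (nat_lit 274)) (XT.nd (nat_lit 94) (nat_lit 0) (nat_lit 0) (XT.lf (nat_lit 0) (nat_lit 639830827367) (nat_lit 0)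 (nat_lit 0) (nat_lit 0) (nat_lit 0) (nat_lit 0) (nat_lit 0) (nat_lit 1) (nat_lit 0) (nat_lit 1) (nat_lit 0) (nat_lit 443) (nat_lit 364) (nat_lit 273)) (XT.lf (nat_lit 0) (nat_lit 690900223912) (nat_lit 0) (nat_lit 0) (nat_lit 0) (nat_lit 0) (nat_lit 0) (nat_lit 0) (nat_lit 1) (nat_lit 0) (nat_lit 1) (nat_lit 0) (nat_lit 444) (nat_lit 364) (nat_lit 272)))) (XT.nd (nat_lit 188) (nat_lit 0) (nat_lit 0) (XT.nd (nat_lit 94) (nat_lit 0) (nat_lit 0) (XT.lf (nat_lit 0) (nat_lit 746055187331) (nat_lit 0) (nat_lit 0) (nat_lit 0) (nat_lit 0) (nat_lit 0) (nat_lit 0) (nat_lit 1) (nat_lit 0) (nat_lit 1) (nat_lit 0) (nat_lit 445) (nat_lit 364) (nat_lit 271)) (XT.lf (nat_lit 0) (nat_lit 805622561852) (nat_lit 0) (nat_lit 0) (nat_lit 0) (nat_lit 0) (nat_lit 0) (nat_lit 0) (nat_lit 1) (nat_lit 0) (nat_lit 1) (nat_lit 0) (nat_lit 446) (nat_lit 364) (nat_lit 270))) (XT.nd (nat_lit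 94) (nat_lit 0) (nat_lit 0) (XT.lf (nat_lit 0) (nat_lit 869955339324) (nat_lit 0) (nat_lit 0) (nat_lit 0) (nat_lit 0) (nat_lit 0) (nat_lit 0) (nat_lit 1) (nat_lit 0) (nat_lit 1) (nat_lit 0) (nat_lit 447) (nat_lit 364) (nat_lit 269)) (XT.lf (nat_lit 0) (nat_lit 939434751020) (nat_lit 0) (nat_lit 0) (nat_lit 0) (nat_lit 0) (nat_lit 0) (nat_lit 0) (nat_lit 1) (nat_lit 0) (nat_lit 1) (nat_lit 0) (nat_lit 448) (nat_lit 364) (nat_lit 268)))))) (XT.nd (nat_lit 658) (nat_lit 0) (nat_lit 0) (XT.nd (nat_lit 282) (nat_lit 0) (nat_lit 0) (XT.nd (nat_lit 94) (nat_lit 0) (nat_lit 0) (XT.lf (nat_lit 0) (nat_lit 1014472526789) (nat_lit 0) (nat_lit 0) (nat_lit 0) (nat_lit 0) (nat_lit 0) (nat_lit 0) (nat_lit 1) (nat_lit 0) (nat_lit 1) (nat_lit 0) (nat_lit 449) (nat_lit 364) (nat_lit 267)) (XT.nd (nat_lit 94) (nat_lit 0) (nat_lit 0) (XT.lf (nat_lit 0) (nat_lit 1095513334930)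 (nat_lit 0) (nat_lit 0) (nat_lit 0) (nat_lit 0) (nat_lit 0) (nat_lit 0) (nat_lit 1) (nat_lit 0) (nat_lit 1) (nat_lit 0) (nat_lit 450) (nat_lit 364) (nat_lit 266)) (XT.lf (nat_lit 0) (nat_lit 1183037417270) (nat_lit 0) (nat_lit 0) (nat_lit 0) (nat_lit 0) (nat_lit 0) (nat_lit 0) (nat_lit 1) (nat_lit 0) (nat_lit 1) (nat_lit 0) (nat_lit 451) (nat_lit 364) (nat_lit 265)))) (XT.nd (nat_lit 188) (nat_lit 0) (nat_lit 0) (XT.nd (nat_lit 94) (nat_lit 0) (nat_lit 0) (XT.lf (nat_lit 0) (nat_lit 1277563435037) (nat_lit 0) (nat_lit 0) (nat_lit 0) (nat_lit 0) (nat_lit 0) (nat_lit 0) (nat_lit 1) (nat_lit 0) (nat_lit 1) (nat_lit 0) (nat_lit 452) (nat_lit 364) (nat_lit 264)) (XT.lf (nat_lit 0) (nat_lit 1379651542411) (nat_lit 0) (nat_lit 0) (nat_lit 0) (nat_lit 0) (nat_lit 0) (nat_lit 0) (nat_lit 1) (nat_lit 0) (nat_lit 1) (nat_lit 0) (nat_lit 453) (nat_lit 364) (nat_lit 263)))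 (XT.nd (nat_lit 94) (nat_lit 0) (nat_lit 0) (XT.lf (nat_lit 0) (nat_lit 1489906705954) (nat_lit 0) (nat_lit 0) (nat_lit 0) (nat_lit 0) (nat_lit 0) (nat_lit 0) (nat_lit 1) (nat_lit 0) (nat_lit 1) (nat_lit 0) (nat_lit 454) (nat_lit 364) (nat_lit 262)) (XT.lf (nat_lit 0) (nat_lit 1608982289598) (nat_lit 0) (nat_lit 0) (nat_lit 0) (nat_lit 0) (nat_lit 0) (nat_lit 0) (nat_lit 1) (nat_lit 0) (nat_lit 1) (nat_lit 0) (nat_lit 455) (nat_lit 364) (nat_lit 261))))) (XT.nd (nat_lit 376) (nat_lit 0) (nat_lit 0) (XT.nd (nat_lit 188) (nat_lit 0) (nat_lit 0) (XT.nd (nat_lit 94) (nat_lit 0) (nat_lit 0) (XT.lf (nat_lit 0) (nat_lit 1737583926431) (nat_lit 0) (nat_lit 0) (nat_lit 0) (nat_lit 0) (nat_lit 0) (nat_lit 0) (nat_lit 1) (nat_lit 0) (nat_lit 1) (nat_lit 0) (nat_lit 456) (nat_lit 364) (nat_lit 260)) (XT.lf (nat_lit 0) (nat_lit 1876473700227) (nat_lit 0) (nat_lit 0) (nat_lit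 0) (nat_lit 0) (nat_lit 0) (nat_lit 0) (nat_lit 1) (nat_lit 0) (nat_lit 1) (nat_lit 0) (nat_lit 457) (nat_lit 364) (nat_lit 259))) (XT.nd (nat_lit 94) (nat_lit 0) (nat_lit 0) (XT.lf (nat_lit 0) (nat_lit 2026474661498) (nat_lit 0) (nat_lit 0) (nat_lit 0) (nat_lit 0) (nat_lit 0) (nat_lit 0) (nat_lit 1) (nat_lit 0) (nat_lit 1) (nat_lit 0) (nat_lit 458) (nat_lit 364) (nat_lit 258)) (XT.lf (nat_lit 0) (nat_lit 2188475704829) (nat_lit 0) (nat_lit 0) (nat_lit 0) (nat_lit 0) (nat_lit 0) (nat_lit 0) (nat_lit 1) (nat_lit 0) (nat_lit 1) (nat_lit 0) (nat_lit 459) (nat_lit 364) (nat_lit 257)))) (XT.nd (nat_lit 188) (nat_lit 0) (nat_lit 0) (XT.nd (nat_lit 94) (nat_lit 0) (nat_lit 0) (XT.lf (nat_lit 0) (nat_lit 2363436836403) (nat_lit 0) (nat_lit 0) (nat_lit 0) (nat_lit 0) (nat_lit 0) (nat_lit 0) (nat_lit 1) (nat_lit 0) (nat_lit 1) (nat_lit 0) (nat_lit 460) (nat_lit 364)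 (nat_lit 256)) (XT.lf (nat_lit 0) (nat_lit 2552394862924) (nat_lit 0) (nat_lit 0) (nat_lit 0) (nat_lit 0) (nat_lit 0) (nat_lit 0) (nat_lit 1) (nat_lit 0) (nat_lit 1) (nat_lit 0) (nat_lit 461) (nat_lit 364) (nat_lit 255))) (XT.nd (nat_lit 94) (nat_lit 0) (nat_lit 0) (XT.lf (nat_lit 0) (nat_lit 2756469535662) (nat_lit 0) (nat_lit 0) (nat_lit 0) (nat_lit 0) (nat_lit 0) (nat_lit 0) (nat_lit 1) (nat_lit 0) (nat_lit 1) (nat_lit 0) (nat_lit 462) (nat_lit 364) (nat_lit 254)) (XT.lf (nat_lit 0) (nat_lit 2976870186011) (nat_lit 0) (nat_lit 0) (nat_lit 0) (nat_lit 0) (nat_lit 0) (nat_lit 0) (nat_lit 1) (nat_lit 0) (nat_lit 1) (nat_lit 0) (nat_lit 463) (nat_lit 364) (nat_lit 253))))))))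
noncomputable def xc98 : XT := (XT.nd (nat_lit 2632) (nat_lit 0) (nat_lit 0) (XT.nd (nat_lit 1316) (nat_lit 0) (nat_lit 0) (XT.nd (nat_lit 658) (nat_lit 0) (nat_lit 0) (XT.nd (nat_lit 282) (nat_lit 0) (nat_lit 0) (XT.nd (nat_lit 94) (nat_lit 0) (nat_lit 0) (XT.lf (nat_lit 0) (nat_lit 3214902891898) (nat_lit 0) (nat_lit 0) (nat_lit 0) (nat_lit 0) (nat_lit 0) (nat_lit 0) (nat_lit 1) (nat_lit 0) (nat_lit 1) (nat_lit 0) (nat_lit 464) (nat_lit 364) (nat_lit 252)) (XT.nd (nat_lit 94) (nat_lit 0) (nat_lit 0) (XT.lf (nat_lit 0) (nat_lit 3471978217506) (nat_lit 0) (nat_lit 0) (nat_lit 0) (nat_lit 0) (nat_lit 0) (nat_lit 0) (nat_lit 1) (nat_lit 0) (nat_lit 1) (nat_lit 0) (nat_lit 465) (nat_lit 364) (nat_lit 251)) (XT.lf (nat_lit 0) (nat_lit 3749619572173) (nat_lit 0) (nat_lit 0) (nat_lit 0) (nat_lit 0) (nat_lit 0) (nat_lit 0) (nat_lit 1) (nat_lit 0) (nat_lit 1) (nat_lit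 0) (nat_lit 466) (nat_lit 364) (nat_lit 250)))) (XT.nd (nat_lit 188) (nat_lit 0) (nat_lit 0) (XT.nd (nat_lit 94) (nat_lit 0) (nat_lit 0) (XT.lf (nat_lit 0) (nat_lit 4049472238000) (nat_lit 0) (nat_lit 0) (nat_lit 0) (nat_lit 0) (nat_lit 0) (nat_lit 0) (nat_lit 1) (nat_lit 0) (nat_lit 1) (nat_lit 0) (nat_lit 467) (nat_lit 364) (nat_lit 249)) (XT.lf (nat_lit 0) (nat_lit 4373313119674) (nat_lit 0) (nat_lit 0) (nat_lit 0) (nat_lit 0) (nat_lit 0) (nat_lit 0) (nat_lit 1) (nat_lit 0) (nat_lit 1) (nat_lit 0) (nat_lit 468) (nat_lit 364) (nat_lit 248))) (XT.nd (nat_lit 94) (nat_lit 0) (nat_lit 0) (XT.lf (nat_lit 0) (nat_lit 4723061274271) (nat_lit 0) (nat_lit 0) (nat_lit 0) (nat_lit 0) (nat_lit 0) (nat_lit 0) (nat_lit 1) (nat_lit 0) (nat_lit 1) (nat_lit 0) (nat_lit 469) (nat_lit 364) (nat_lit 247)) (XT.lf (nat_lit 0) (nat_lit 5100789283447) (nat_lit 0) (nat_lit 0) (nat_lit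 0) (nat_lit 0) (nat_lit 0) (nat_lit 0) (nat_lit 1) (nat_lit 0) (nat_lit 1) (nat_lit 0) (nat_lit 470) (nat_lit 364) (nat_lit 246))))) (XT.nd (nat_lit 282) (nat_lit 0) (nat_lit 0) (XT.nd (nat_lit 94) (nat_lit 0) (nat_lit 0) (XT.lf (nat_lit 0) (nat_lit 5508735535407) (nat_lit 0) (nat_lit 0) (nat_lit 0) (nat_lit 0) (nat_lit 0) (nat_lit 0) (nat_lit 1) (nat_lit 0) (nat_lit 1) (nat_lit 0) (nat_lit 471) (nat_lit 364) (nat_lit 245)) (XT.nd (nat_lit 94) (nat_lit 0) (nat_lit 0) (XT.lf (nat_lit 0) (nat_lit 5949317489419) (nat_lit 0) (nat_lit 0) (nat_lit 0) (nat_lit 0) (nat_lit 0) (nat_lit 0) (nat_lit 1) (nat_lit 0) (nat_lit 1) (nat_lit 0) (nat_lit 472) (nat_lit 364) (nat_lit 244)) (XT.lf (nat_lit 0) (nat_lit 6425146001509) (nat_lit 0) (nat_lit 0) (nat_lit 0) (nat_lit 0) (nat_lit 0) (nat_lit 0) (nat_lit 1) (nat_lit 0) (nat_lit 1) (nat_lit 0) (nat_lit 473) (nat_lit 364)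 (nat_lit 243)))) (XT.nd (nat_lit 188) (nat_lit 0) (nat_lit 0) (XT.nd (nat_lit 94) (nat_lit 0) (nat_lit 0) (XT.lf (nat_lit 0) (nat_lit 6939040796192) (nat_lit 0) (nat_lit 0) (nat_lit 0) (nat_lit 0) (nat_lit 0) (nat_lit 0) (nat_lit 1) (nat_lit 0) (nat_lit 1) (nat_lit 0) (nat_lit 474) (nat_lit 364) (nat_lit 242)) (XT.lf (nat_lit 0) (nat_lit 7494047175955) (nat_lit 0) (nat_lit 0) (nat_lit 0) (nat_lit 0) (nat_lit 0) (nat_lit 0) (nat_lit 1) (nat_lit 0) (nat_lit 1) (nat_lit 0) (nat_lit 475) (nat_lit 364) (nat_lit 241))) (XT.nd (nat_lit 94) (nat_lit 0) (nat_lit 0) (XT.lf (nat_lit 0) (nat_lit 8093454067494) (nat_lit 0) (nat_lit 0) (nat_lit 0) (nat_lit 0) (nat_lit 0) (nat_lit 0) (nat_lit 1) (nat_lit 0) (nat_lit 1) (nat_lit 0) (nat_lit 476) (nat_lit 364) (nat_lit 240)) (XT.lf (nat_lit 0) (nat_lit 8740813511646) (nat_lit 0) (nat_lit 0) (nat_lit 0) (nat_lit 0) (nat_lit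 0) (nat_lit 0) (nat_lit 1) (nat_lit 0) (nat_lit 1) (nat_lit 0) (nat_lit 477) (nat_lit 364) (nat_lit 239)))))) (XT.nd (nat_lit 658) (nat_lit 0) (nat_lit 0) (XT.nd (nat_lit 282) (nat_lit 0) (nat_lit 0) (XT.nd (nat_lit 94) (nat_lit 0) (nat_lit 0) (XT.lf (nat_lit 0) (nat_lit 9439961712526) (nat_lit 0) (nat_lit 0) (nat_lit 0) (nat_lit 0) (nat_lit 0) (nat_lit 0) (nat_lit 1) (nat_lit 0) (nat_lit 1) (nat_lit 0) (nat_lit 478) (nat_lit 364) (nat_lit 238)) (XT.nd (nat_lit 94) (nat_lit 0) (nat_lit 0) (XT.lf (nat_lit 0) (nat_lit 10195041770583) (nat_lit 0) (nat_lit 0) (nat_lit 0) (nat_lit 0) (nat_lit 0) (nat_lit 0) (nat_lit 1) (nat_lit 0) (nat_lit 1) (nat_lit 0) (nat_lit 479) (nat_lit 364) (nat_lit 237)) (XT.lf (nat_lit 0) (nat_lit 11010528234309) (nat_lit 0) (nat_lit 0) (nat_lit 0) (nat_lit 0) (nat_lit 0) (nat_lit 0) (nat_lit 1) (nat_lit 0) (nat_lit 1) (nat_lit 0) (nat_lit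 480) (nat_lit 364) (nat_lit 236)))) (XT.nd (nat_lit 188) (nat_lit 0) (nat_lit 0) (XT.nd (nat_lit 94) (nat_lit 0) (nat_lit 0) (XT.lf (nat_lit 0) (nat_lit 11891253616082) (nat_lit 0) (nat_lit 0) (nat_lit 0) (nat_lit 0) (nat_lit 0) (nat_lit 0) (nat_lit 1) (nat_lit 0) (nat_lit 1) (nat_lit 0) (nat_lit 481) (nat_lit 364) (nat_lit 235)) (XT.lf (nat_lit 0) (nat_lit 12842437029275) (nat_lit 0) (nat_lit 0) (nat_lit 0) (nat_lit 0) (nat_lit 0) (nat_lit 0) (nat_lit 1) (nat_lit 0) (nat_lit 1) (nat_lit 0) (nat_lit 482) (nat_lit 364) (nat_lit 234))) (XT.nd (nat_lit 94) (nat_lit 0) (nat_lit 0) (XT.lf (nat_lit 0) (nat_lit 13869715116338) (nat_lit 0) (nat_lit 0) (nat_lit 0) (nat_lit 0) (nat_lit 0) (nat_lit 0) (nat_lit 1) (nat_lit 0) (nat_lit 1) (nat_lit 0) (nat_lit 483) (nat_lit 364) (nat_lit 233)) (XT.lf (nat_lit 0) (nat_lit 14979175451118) (nat_lit 0) (nat_lit 0) (nat_lit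 0) (nat_lit 0) (nat_lit 0) (nat_lit 0) (nat_lit 1) (nat_lit 0) (nat_lit 1) (nat_lit 0) (nat_lit 484) (nat_lit 364) (nat_lit 232))))) (XT.nd (nat_lit 282) (nat_lit 0) (nat_lit 0) (XT.nd (nat_lit 94) (nat_lit 0) (nat_lit 0) (XT.lf (nat_lit 0) (nat_lit 16177392613378) (nat_lit 0) (nat_lit 0) (nat_lit 0) (nat_lit 0) (nat_lit 0) (nat_lit 0) (nat_lit 1) (nat_lit 0) (nat_lit 1) (nat_lit 0) (nat_lit 485) (nat_lit 364) (nat_lit 231)) (XT.nd (nat_lit 94) (nat_lit 0) (nat_lit 0) (XT.lf (nat_lit 0) (nat_lit 17471467149265) (nat_lit 0) (nat_lit 0) (nat_lit 0) (nat_lit 0) (nat_lit 0) (nat_lit 0) (nat_lit 1) (nat_lit 0) (nat_lit 1) (nat_lit 0) (nat_lit 486) (nat_lit 364) (nat_lit 230)) (XT.lf (nat_lit 0) (nat_lit 18869067648621) (nat_lit 0) (nat_lit 0) (nat_lit 0) (nat_lit 0) (nat_lit 0) (nat_lit 0) (nat_lit 1) (nat_lit 0) (nat_lit 1) (nat_lit 0) (nat_lit 487) (nat_lit 364)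 (nat_lit 229)))) (XT.nd (nat_lit 188) (nat_lit 0) (nat_lit 0) (XT.nd (nat_lit 94) (nat_lit 0) (nat_lit 0) (XT.lf (nat_lit 0) (nat_lit 20378476188479) (nat_lit 0) (nat_lit 0) (nat_lit 0) (nat_lit 0) (nat_lit 0) (nat_lit 0) (nat_lit 1) (nat_lit 0) (nat_lit 1) (nat_lit 0) (nat_lit 488) (nat_lit 364) (nat_lit 228)) (XT.lf (nat_lit 0) (nat_lit 22008637412038) (nat_lit 0) (nat_lit 0) (nat_lit 0) (nat_lit 0) (nat_lit 0) (nat_lit 0) (nat_lit 1) (nat_lit 0) (nat_lit 1) (nat_lit 0) (nat_lit 489) (nat_lit 364) (nat_lit 227))) (XT.nd (nat_lit 94) (nat_lit 0) (nat_lit 0) (XT.lf (nat_lit 0) (nat_lit 23769211533956) (nat_lit 0) (nat_lit 0) (nat_lit 0) (nat_lit 0) (nat_lit 0) (nat_lit 0) (nat_lit 1) (nat_lit 0) (nat_lit 1) (nat_lit 0) (nat_lit 490) (nat_lit 364) (nat_lit 226)) (XT.lf (nat_lit 0) (nat_lit 25670631586067) (nat_lit 0) (nat_lit 0) (nat_lit 0) (nat_lit 0) (nat_lit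 0) (nat_lit 0) (nat_lit 1) (nat_lit 0) (nat_lit 1) (nat_lit 0) (nat_lit 491) (nat_lit 364) (nat_lit 225))))))) (XT.nd (nat_lit 56400) (nat_lit 0) (nat_lit 6300) (XT.nd (nat_lit 658) (nat_lit 0) (nat_lit 0) (XT.nd (nat_lit 282) (nat_lit 0) (nat_lit 0) (XT.nd (nat_lit 94) (nat_lit 0) (nat_lit 0) (XT.lf (nat_lit 0) (nat_lit 27724165242754) (nat_lit 0) (nat_lit 0) (nat_lit 0) (nat_lit 0) (nat_lit 0) (nat_lit 0) (nat_lit 1) (nat_lit 0) (nat_lit 1) (nat_lit 0) (nat_lit 492) (nat_lit 364) (nat_lit 224)) (XT.nd (nat_lit 94) (nat_lit 0) (nat_lit 0) (XT.lf (nat_lit 0) (nat_lit 29941981592353) (nat_lit 0) (nat_lit 0) (nat_lit 0) (nat_lit 0) (nat_lit 0) (nat_lit 0) (nat_lit 1) (nat_lit 0) (nat_lit 1) (nat_lit 0) (nat_lit 493) (nat_lit 364) (nat_lit 223)) (XT.lf (nat_lit 0) (nat_lit 32337223250269) (nat_lit 0) (nat_lit 0) (nat_lit 0) (nat_lit 0) (nat_lit 0) (nat_lit 0)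 (nat_lit 1) (nat_lit 0) (nat_lit 1) (nat_lit 0) (nat_lit 494) (nat_lit 364) (nat_lit 222)))) (XT.nd (nat_lit 188) (nat_lit 0) (nat_lit 0) (XT.nd (nat_lit 94) (nat_lit 0) (nat_lit 0) (XT.lf (nat_lit 0) (nat_lit 34924084241141) (nat_lit 0) (nat_lit 0) (nat_lit 0) (nat_lit 0) (nat_lit 0) (nat_lit 0) (nat_lit 1) (nat_lit 0) (nat_lit 1) (nat_lit 0) (nat_lit 495) (nat_lit 364) (nat_lit 221)) (XT.lf (nat_lit 0) (nat_lit 37717894111581) (nat_lit 0) (nat_lit 0) (nat_lit 0) (nat_lit 0) (nat_lit 0) (nat_lit 0) (nat_lit 1) (nat_lit 0) (nat_lit 1) (nat_lit 0) (nat_lit 496) (nat_lit 364) (nat_lit 220))) (XT.nd (nat_lit 94) (nat_lit 0) (nat_lit 0) (XT.lf (nat_lit 0) (nat_lit 40735208771934) (nat_lit 0) (nat_lit 0) (nat_lit 0) (nat_lit 0) (nat_lit 0) (nat_lit 0) (nat_lit 1) (nat_lit 0) (nat_lit 1) (nat_lit 0) (nat_lit 497) (nat_lit 364) (nat_lit 219)) (XT.lf (nat_lit 0) (nat_lit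 43993908605372) (nat_lit 0) (nat_lit 0) (nat_lit 0) (nat_lit 0) (nat_lit 0) (nat_lit 0) (nat_lit 1) (nat_lit 0) (nat_lit 1) (nat_lit 0) (nat_lit 498) (nat_lit 364) (nat_lit 218))))) (XT.nd (nat_lit 55366) (nat_lit 0) (nat_lit 12684) (XT.nd (nat_lit 55178) (nat_lit 0) (nat_lit 13188) (XT.lf (nat_lit 0) (nat_lit 47513304425722) (nat_lit 0) (nat_lit 0) (nat_lit 0) (nat_lit 0) (nat_lit 0) (nat_lit 0) (nat_lit 1) (nat_lit 0) (nat_lit 1) (nat_lit 0) (nat_lit 499) (nat_lit 364) (nat_lit 217)) (XT.nd (nat_lit 94) (nat_lit 588) (nat_lit 0) (XT.lf (nat_lit 0) (nat_lit 2596868832) (nat_lit 588) (nat_lit 490873042) (nat_lit 588) (nat_lit 490873042) (nat_lit 164) (nat_lit 3) (nat_lit 171) (nat_lit 3) (nat_lit 171) (nat_lit 5) (nat_lit 365) (nat_lit 365) (nat_lit 350)) (XT.lf (nat_lit 0) (nat_lit 727081734) (nat_lit 588) (nat_lit 2447343101) (nat_lit 672) (nat_lit 4135500491)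 (nat_lit 157) (nat_lit 5) (nat_lit 164) (nat_lit 3) (nat_lit 165) (nat_lit 5) (nat_lit 366) (nat_lit 365) (nat_lit 349)))) (XT.nd (nat_lit 188) (nat_lit 588) (nat_lit 0) (XT.nd (nat_lit 94) (nat_lit 0) (nat_lit 0) (XT.lf (nat_lit 0) (nat_lit 3379349989) (nat_lit 588) (nat_lit 3816664329) (nat_lit 672) (nat_lit 286450739) (nat_lit 158) (nat_lit 5) (nat_lit 165) (nat_lit 5) (nat_lit 166) (nat_lit 5) (nat_lit 367) (nat_lit 365) (nat_lit 348)) (XT.lf (nat_lit 84) (nat_lit 2559898378) (nat_lit 0) (nat_lit 3574778803) (nat_lit 672) (nat_lit 1539586913) (nat_lit 159) (nat_lit 5) (nat_lit 158) (nat_lit 5) (nat_lit 166) (nat_lit 5) (nat_lit 368) (nat_lit 365) (nat_lit 347))) (XT.nd (nat_lit 94) (nat_lit 0) (nat_lit 0) (XT.lf (nat_lit 0) (nat_lit 1056320704) (nat_lit 672) (nat_lit 6318239784) (nat_lit 756) (nat_lit 512555460) (nat_lit 151) (nat_lit 5) (nat_lit 159)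 (nat_lit 5) (nat_lit 160) (nat_lit 5) (nat_lit 369) (nat_lit 365) (nat_lit 346)) (XT.lf (nat_lit 84) (nat_lit 626607352) (nat_lit 0) (nat_lit 3122883246) (nat_lit 756) (nat_lit 4369066930) (nat_lit 152) (nat_lit 5) (nat_lit 151) (nat_lit 5) (nat_lit 160) (nat_lit 5) (nat_lit 370) (nat_lit 365) (nat_lit 345)))))) (XT.nd (nat_lit 658) (nat_lit 2688) (nat_lit 0) (XT.nd (nat_lit 282) (nat_lit 2268) (nat_lit 0) (XT.nd (nat_lit 94) (nat_lit 1512) (nat_lit 0) (XT.lf (nat_lit 0) (nat_lit 6589573241) (nat_lit 672) (nat_lit 201599033) (nat_lit 84) (nat_lit 1580769202) (nat_lit 152) (nat_lit 5) (nat_lit 160) (nat_lit 5) (nat_lit 153) (nat_lit 5) (nat_lit 371) (nat_lit 365) (nat_lit 344)) (XT.nd (nat_lit 94) (nat_lit 756) (nat_lit 0) (XT.lf (nat_lit 0) (nat_lit 963436452) (nat_lit 756) (nat_lit 949921536) (nat_lit 84) (nat_lit 6732221871) (nat_lit 143) (nat_lit 5) (nat_lit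 152) (nat_lit 5) (nat_lit 144) (nat_lit 5) (nat_lit 372) (nat_lit 365) (nat_lit 343)) (XT.lf (nat_lit 0) (nat_lit 3861185888) (nat_lit 840) (nat_lit 1655448027) (nat_lit 84) (nat_lit 3423278146) (nat_lit 134) (nat_lit 5) (nat_lit 144) (nat_lit 5) (nat_lit 135) (nat_lit 5) (nat_lit 373) (nat_lit 365) (nat_lit 342)))) (XT.nd (nat_lit 188) (nat_lit 840) (nat_lit 0) (XT.nd (nat_lit 94) (nat_lit 588) (nat_lit 0) (XT.lf (nat_lit 0) (nat_lit 6980939814) (nat_lit 924) (nat_lit 2268194540) (nat_lit 84) (nat_lit 9147258) (nat_lit 124) (nat_lit 5) (nat_lit 135) (nat_lit 5) (nat_lit 125) (nat_lit 5) (nat_lit 374) (nat_lit 365) (nat_lit 341)) (XT.lf (nat_lit 0) (nat_lit 795191686) (nat_lit 588) (nat_lit 2859958772) (nat_lit 84) (nat_lit 5942837034) (nat_lit 117) (nat_lit 5) (nat_lit 124) (nat_lit 5) (nat_lit 118) (nat_lit 5) (nat_lit 375) (nat_lit 365) (nat_lit 340)))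 (XT.nd (nat_lit 94) (nat_lit 420) (nat_lit 0) (XT.lf (nat_lit 0) (nat_lit 4067202232) (nat_lit 504) (nat_lit 3403443881) (nat_lit 84) (nat_lit 2490683988) (nat_lit 112) (nat_lit 5) (nat_lit 118) (nat_lit 5) (nat_lit 113) (nat_lit 5) (nat_lit 376) (nat_lit 365) (nat_lit 339)) (XT.lf (nat_lit 0) (nat_lit 6469394685) (nat_lit 420) (nat_lit 1202644308) (nat_lit 504) (nat_lit 2678147857) (nat_lit 107) (nat_lit 5) (nat_lit 112) (nat_lit 5) (nat_lit 113) (nat_lit 5) (nat_lit 377) (nat_lit 365) (nat_lit 338))))) (XT.nd (nat_lit 376) (nat_lit 1176) (nat_lit 0) (XT.nd (nat_lit 188) (nat_lit 756) (nat_lit 0) (XT.nd (nat_lit 94) (nat_lit 336) (nat_lit 0) (XT.lf (nat_lit 0) (nat_lit 885179348) (nat_lit 420) (nat_lit 4328764433) (nat_lit 84) (nat_lit 5549811799) (nat_lit 102) (nat_lit 5) (nat_lit 107) (nat_lit 5) (nat_lit 103) (nat_lit 5) (nat_lit 378) (nat_lit 365) (nat_lit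 337)) (XT.lf (nat_lit 0) (nat_lit 4730752133) (nat_lit 420) (nat_lit 4736597896) (nat_lit 84) (nat_lit 1736314143) (nat_lit 98) (nat_lit 5) (nat_lit 103) (nat_lit 5) (nat_lit 99) (nat_lit 5) (nat_lit 379) (nat_lit 365) (nat_lit 336))) (XT.nd (nat_lit 94) (nat_lit 420) (nat_lit 0) (XT.lf (nat_lit 0) (nat_lit 6575903047) (nat_lit 336) (nat_lit 2453497706) (nat_lit 420) (nat_lit 2642093198) (nat_lit 94) (nat_lit 5) (nat_lit 98) (nat_lit 5) (nat_lit 99) (nat_lit 5) (nat_lit 380) (nat_lit 365) (nat_lit 335)) (XT.lf (nat_lit 0) (nat_lit 1603958884) (nat_lit 420) (nat_lit 5419717050) (nat_lit 84) (nat_lit 5144075812) (nat_lit 89) (nat_lit 5) (nat_lit 94) (nat_lit 5) (nat_lit 90) (nat_lit 5) (nat_lit 381) (nat_lit 365) (nat_lit 334)))) (XT.nd (nat_lit 188) (nat_lit 588) (nat_lit 0) (XT.nd (nat_lit 94) (nat_lit 336) (nat_lit 0) (XT.lf (nat_lit 0) (nat_lit 6240665768)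 (nat_lit 336) (nat_lit 5695727635) (nat_lit 84) (nat_lit 757974276) (nat_lit 86) (nat_lit 5) (nat_lit 90) (nat_lit 5) (nat_lit 87) (nat_lit 5) (nat_lit 382) (nat_lit 365) (nat_lit 333)) (XT.lf (nat_lit 0) (nat_lit 7314046768) (nat_lit 336) (nat_lit 4157317491) (nat_lit 420) (nat_lit 1780595874) (nat_lit 82) (nat_lit 5) (nat_lit 86) (nat_lit 5) (nat_lit 87) (nat_lit 5) (nat_lit 383) (nat_lit 365) (nat_lit 332))) (XT.nd (nat_lit 94) (nat_lit 252) (nat_lit 0) (XT.lf (nat_lit 0) (nat_lit 3352579250) (nat_lit 336) (nat_lit 6143445495) (nat_lit 84) (nat_lit 4346047166) (nat_lit 78) (nat_lit 5) (nat_lit 82) (nat_lit 5) (nat_lit 79) (nat_lit 5) (nat_lit 384) (nat_lit 365) (nat_lit 331)) (XT.lf (nat_lit 0) (nat_lit 8183328690) (nat_lit 252) (nat_lit 857762165) (nat_lit 336) (nat_lit 5426488975) (nat_lit 75) (nat_lit 5) (nat_lit 78) (nat_lit 5) (nat_lit 79) (nat_lit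 5) (nat_lit 385) (nat_lit 365) (nat_lit 330))))))))
noncomputable def xc99 : XT := (XT.nd (nat_lit 2632) (nat_lit 1260) (nat_lit 0) (XT.nd (nat_lit 1316) (nat_lit 2100) (nat_lit 0) (XT.nd (nat_lit 658) (nat_lit 1260) (nat_lit 0) (XT.nd (nat_lit 282) (nat_lit 924) (nat_lit 0) (XT.nd (nat_lit 94) (nat_lit 420) (nat_lit 0) (XT.lf (nat_lit 0) (nat_lit 330106725) (nat_lit 336) (nat_lit 6388941740) (nat_lit 84) (nat_lit 8409553393) (nat_lit 71) (nat_lit 5) (nat_lit 75) (nat_lit 5) (nat_lit 72) (nat_lit 5) (nat_lit 386) (nat_lit 365) (nat_lit 329)) (XT.nd (nat_lit 94) (nat_lit 168) (nat_lit 0) (XT.lf (nat_lit 0) (nat_lit 6588054005) (nat_lit 336) (nat_lit 6462616963) (nat_lit 84) (nat_lit 2775839654) (nat_lit 68) (nat_lit 5) (nat_lit 72) (nat_lit 5) (nat_lit 69) (nat_lit 5) (nat_lit 387) (nat_lit 365) (nat_lit 328)) (XT.lf (nat_lit 0) (nat_lit 10105700546) (nat_lit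 168) (nat_lit 3539967005) (nat_lit 252) (nat_lit 2919633013) (nat_lit 66) (nat_lit 5) (nat_lit 68) (nat_lit 5) (nat_lit 69) (nat_lit 5) (nat_lit 388) (nat_lit 365) (nat_lit 327)))) (XT.nd (nat_lit 188) (nat_lit 420) (nat_lit 0) (XT.nd (nat_lit 94) (nat_lit 168) (nat_lit 0) (XT.lf (nat_lit 0) (nat_lit 4094287179) (nat_lit 336) (nat_lit 6426932988) (nat_lit 84) (nat_lit 6823197102) (nat_lit 62) (nat_lit 5) (nat_lit 66) (nat_lit 5) (nat_lit 63) (nat_lit 5) (nat_lit 389) (nat_lit 365) (nat_lit 326)) (XT.lf (nat_lit 0) (nat_lit 11849584140) (nat_lit 252) (nat_lit 6292761999) (nat_lit 84) (nat_lit 26996386) (nat_lit 60) (nat_lit 5) (nat_lit 63) (nat_lit 5) (nat_lit 61) (nat_lit 5) (nat_lit 390) (nat_lit 365) (nat_lit 325))) (XT.nd (nat_lit 94) (nat_lit 168) (nat_lit 0) (XT.lf (nat_lit 0) (nat_lit 1552100312) (nat_lit 252) (nat_lit 6135613633) (nat_lit 84) (nat_lit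 11350421082) (nat_lit 57) (nat_lit 5) (nat_lit 60) (nat_lit 5) (nat_lit 58) (nat_lit 5) (nat_lit 391) (nat_lit 365) (nat_lit 324)) (XT.lf (nat_lit 0) (nat_lit 10156620756) (nat_lit 252) (nat_lit 5912408179) (nat_lit 84) (nat_lit 3886005535) (nat_lit 55) (nat_lit 5) (nat_lit 58) (nat_lit 5) (nat_lit 56) (nat_lit 5) (nat_lit 392) (nat_lit 365) (nat_lit 323))))) (XT.nd (nat_lit 282) (nat_lit 672) (nat_lit 0) (XT.nd (nat_lit 94) (nat_lit 420) (nat_lit 0) (XT.lf (nat_lit 0) (nat_lit 15354974582) (nat_lit 168) (nat_lit 4502374116) (nat_lit 252) (nat_lit 1067544876) (nat_lit 53) (nat_lit 5) (nat_lit 55) (nat_lit 5) (nat_lit 56) (nat_lit 5) (nat_lit 393) (nat_lit 365) (nat_lit 322)) (XT.nd (nat_lit 94) (nat_lit 168) (nat_lit 0) (XT.lf (nat_lit 0) (nat_lit 8526376287) (nat_lit 252) (nat_lit 5224374510) (nat_lit 84) (nat_lit 8193452438) (nat_lit 50) (nat_lit 5) (nat_lit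 53) (nat_lit 5) (nat_lit 51) (nat_lit 5) (nat_lit 394) (nat_lit 365) (nat_lit 321)) (XT.lf (nat_lit 0) (nat_lit 18328699233) (nat_lit 168) (nat_lit 917631577) (nat_lit 252) (nat_lit 3778055760) (nat_lit 48) (nat_lit 5) (nat_lit 50) (nat_lit 5) (nat_lit 51) (nat_lit 5) (nat_lit 395) (nat_lit 365) (nat_lit 320)))) (XT.nd (nat_lit 188) (nat_lit 336) (nat_lit 0) (XT.nd (nat_lit 94) (nat_lit 168) (nat_lit 0) (XT.lf (nat_lit 0) (nat_lit 6974964636) (nat_lit 168) (nat_lit 4181776741) (nat_lit 84) (nat_lit 13001347205) (nat_lit 46) (nat_lit 5) (nat_lit 48) (nat_lit 5) (nat_lit 47) (nat_lit 5) (nat_lit 396) (nat_lit 365) (nat_lit 319)) (XT.lf (nat_lit 0) (nat_lit 18885867545) (nat_lit 252) (nat_lit 3484419222) (nat_lit 84) (nat_lit 2987602945) (nat_lit 44) (nat_lit 5) (nat_lit 47) (nat_lit 5) (nat_lit 45) (nat_lit 4) (nat_lit 397) (nat_lit 365) (nat_lit 318))) (XT.nd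 (nat_lit 94) (nat_lit 168) (nat_lit 0) (XT.lf (nat_lit 0) (nat_lit 5520287003) (nat_lit 168) (nat_lit 2728978429) (nat_lit 84) (nat_lit 18371060280) (nat_lit 42) (nat_lit 5) (nat_lit 44) (nat_lit 5) (nat_lit 43) (nat_lit 5) (nat_lit 398) (nat_lit 365) (nat_lit 317)) (XT.lf (nat_lit 0) (nat_lit 18780696800) (nat_lit 252) (nat_lit 1848723171) (nat_lit 84) (nat_lit 7322258485) (nat_lit 40) (nat_lit 5) (nat_lit 43) (nat_lit 5) (nat_lit 41) (nat_lit 4) (nat_lit 399) (nat_lit 365) (nat_lit 316)))))) (XT.nd (nat_lit 658) (nat_lit 840) (nat_lit 0) (XT.nd (nat_lit 282) (nat_lit 588) (nat_lit 0) (XT.nd (nat_lit 94) (nat_lit 504) (nat_lit 0) (XT.lf (nat_lit 0) (nat_lit 4182584095) (nat_lit 168) (nat_lit 800663452) (nat_lit 84) (nat_lit 24373943618) (nat_lit 38) (nat_lit 5) (nat_lit 40) (nat_lit 5) (nat_lit 39) (nat_lit 5) (nat_lit 400) (nat_lit 365) (nat_lit 315)) (XT.nd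 (nat_lit 94) (nat_lit 252) (nat_lit 0) (XT.lf (nat_lit 0) (nat_lit 305748757) (nat_lit 84) (nat_lit 18651677892) (nat_lit 168) (nat_lit 11876486141) (nat_lit 35) (nat_lit 5) (nat_lit 36) (nat_lit 5) (nat_lit 37) (nat_lit 4) (nat_lit 401) (nat_lit 365) (nat_lit 314)) (XT.lf (nat_lit 0) (nat_lit 1734789276) (nat_lit 168) (nat_lit 1277308262) (nat_lit 252) (nat_lit 29384426131) (nat_lit 32) (nat_lit 5) (nat_lit 34) (nat_lit 5) (nat_lit 35) (nat_lit 5) (nat_lit 402) (nat_lit 365) (nat_lit 313)))) (XT.nd (nat_lit 188) (nat_lit 252) (nat_lit 0) (XT.nd (nat_lit 94) (nat_lit 252) (nat_lit 0) (XT.lf (nat_lit 0) (nat_lit 3131449728) (nat_lit 84) (nat_lit 16360200411) (nat_lit 168) (nat_lit 14541959635) (nat_lit 31) (nat_lit 5) (nat_lit 32) (nat_lit 5) (nat_lit 33) (nat_lit 4) (nat_lit 403) (nat_lit 365) (nat_lit 312)) (XT.lf (nat_lit 0) (nat_lit 2077344412) (nat_lit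 252) (nat_lit 30858966539) (nat_lit 84) (nat_lit 2832337173) (nat_lit 28) (nat_lit 5) (nat_lit 31) (nat_lit 5) (nat_lit 29) (nat_lit 4) (nat_lit 404) (nat_lit 365) (nat_lit 311))) (XT.nd (nat_lit 94) (nat_lit 168) (nat_lit 0) (XT.lf (nat_lit 0) (nat_lit 6664689972) (nat_lit 84) (nat_lit 13737080018) (nat_lit 168) (nat_lit 17184547083) (nat_lit 27) (nat_lit 5) (nat_lit 28) (nat_lit 5) (nat_lit 29) (nat_lit 4) (nat_lit 405) (nat_lit 365) (nat_lit 310)) (XT.lf (nat_lit 0) (nat_lit 1380876178) (nat_lit 168) (nat_lit 30690429154) (nat_lit 84) (nat_lit 7439657543) (nat_lit 25) (nat_lit 5) (nat_lit 27) (nat_lit 5) (nat_lit 26) (nat_lit 4) (nat_lit 406) (nat_lit 365) (nat_lit 309))))) (XT.nd (nat_lit 282) (nat_lit 504) (nat_lit 0) (XT.nd (nat_lit 94) (nat_lit 252) (nat_lit 0) (XT.lf (nat_lit 0) (nat_lit 11017709501) (nat_lit 84) (nat_lit 10725096093) (nat_lit 168)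 (nat_lit 19787022298) (nat_lit 24) (nat_lit 5) (nat_lit 25) (nat_lit 5) (nat_lit 26) (nat_lit 4) (nat_lit 407) (nat_lit 365) (nat_lit 308)) (XT.nd (nat_lit 94) (nat_lit 84) (nat_lit 0) (XT.lf (nat_lit 0) (nat_lit 941732947) (nat_lit 168) (nat_lit 30056450960) (nat_lit 84) (nat_lit 12666049996) (nat_lit 22) (nat_lit 5) (nat_lit 24) (nat_lit 5) (nat_lit 23) (nat_lit 4) (nat_lit 408) (nat_lit 365) (nat_lit 307)) (XT.lf (nat_lit 0) (nat_lit 16319437872) (nat_lit 84) (nat_lit 7258149011) (nat_lit 168) (nat_lit 22328484683) (nat_lit 21) (nat_lit 5) (nat_lit 22) (nat_lit 5) (nat_lit 23) (nat_lit 4) (nat_lit 409) (nat_lit 365) (nat_lit 306)))) (XT.nd (nat_lit 188) (nat_lit 252) (nat_lit 0) (XT.nd (nat_lit 94) (nat_lit 84) (nat_lit 0) (XT.lf (nat_lit 0) (nat_lit 805078404) (nat_lit 168) (nat_lit 28864047997) (nat_lit 84) (nat_lit 18603449869) (nat_lit 19) (nat_lit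 5) (nat_lit 21) (nat_lit 5) (nat_lit 20) (nat_lit 4) (nat_lit 410) (nat_lit 365) (nat_lit 305)) (XT.lf (nat_lit 0) (nat_lit 22717645783) (nat_lit 84) (nat_lit 3260232195) (nat_lit 168) (nat_lit 24783679696) (nat_lit 18) (nat_lit 5) (nat_lit 19) (nat_lit 5) (nat_lit 20) (nat_lit 4) (nat_lit 411) (nat_lit 365) (nat_lit 304))) (XT.nd (nat_lit 94) (nat_lit 84) (nat_lit 0) (XT.lf (nat_lit 0) (nat_lit 1023205562) (nat_lit 168) (nat_lit 27005170878) (nat_lit 84) (nat_lit 25356542013) (nat_lit 16) (nat_lit 5) (nat_lit 18) (nat_lit 5) (nat_lit 17) (nat_lit 4) (nat_lit 412) (nat_lit 365) (nat_lit 303)) (XT.lf (nat_lit 0) (nat_lit 29046797293) (nat_lit 168) (nat_lit 25787645647) (nat_lit 0) (nat_lit 1312367909) (nat_lit 15) (nat_lit 5) (nat_lit 17) (nat_lit 4) (nat_lit 15) (nat_lit 4) (nat_lit 413) (nat_lit 365) (nat_lit 302))))))) (XT.nd (nat_lit 1316) (nat_lit 0) (nat_lit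 0) (XT.nd (nat_lit 658) (nat_lit 336) (nat_lit 0) (XT.nd (nat_lit 282) (nat_lit 504) (nat_lit 0) (XT.nd (nat_lit 94) (nat_lit 252) (nat_lit 0) (XT.lf (nat_lit 0) (nat_lit 1656597496) (nat_lit 168) (nat_lit 24354637825) (nat_lit 84) (nat_lit 33044285713) (nat_lit 13) (nat_lit 5) (nat_lit 15) (nat_lit 5) (nat_lit 14) (nat_lit 4) (nat_lit 414) (nat_lit 365) (nat_lit 301)) (XT.nd (nat_lit 94) (nat_lit 168) (nat_lit 0) (XT.lf (nat_lit 0) (nat_lit 32918823042) (nat_lit 168) (nat_lit 22722859572) (nat_lit 0) (nat_lit 6475305390) (nat_lit 12) (nat_lit 5) (nat_lit 14) (nat_lit 4) (nat_lit 12) (nat_lit 4) (nat_lit 415) (nat_lit 365) (nat_lit 300)) (XT.lf (nat_lit 0) (nat_lit 2775117804) (nat_lit 168) (nat_lit 20767780864) (nat_lit 84) (nat_lit 41801653694) (nat_lit 10) (nat_lit 5) (nat_lit 12) (nat_lit 5) (nat_lit 11) (nat_lit 4) (nat_lit 416) (nat_lit 365) (nat_lit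 299)))) (XT.nd (nat_lit 188) (nat_lit 252) (nat_lit 0) (XT.nd (nat_lit 94) (nat_lit 168) (nat_lit 0) (XT.lf (nat_lit 0) (nat_lit 37651526024) (nat_lit 168) (nat_lit 18643540199) (nat_lit 0) (nat_lit 12442911507) (nat_lit 9) (nat_lit 5) (nat_lit 11) (nat_lit 4) (nat_lit 9) (nat_lit 4) (nat_lit 417) (nat_lit 365) (nat_lit 298)) (XT.lf (nat_lit 0) (nat_lit 4459349535) (nat_lit 168) (nat_lit 16077770614) (nat_lit 84) (nat_lit 51781607109) (nat_lit 7) (nat_lit 5) (nat_lit 9) (nat_lit 5) (nat_lit 8) (nat_lit 4) (nat_lit 418) (nat_lit 365) (nat_lit 297))) (XT.nd (nat_lit 94) (nat_lit 168) (nat_lit 0) (XT.lf (nat_lit 0) (nat_lit 43368547000) (nat_lit 168) (nat_lit 13370974918) (nat_lit 0) (nat_lit 19340491637) (nat_lit 6) (nat_lit 5) (nat_lit 8) (nat_lit 4) (nat_lit 6) (nat_lit 4) (nat_lit 419) (nat_lit 365) (nat_lit 296)) (XT.lf (nat_lit 0) (nat_lit 6802103286) (nat_lit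 168) (nat_lit 10092580458) (nat_lit 84) (nat_lit 63157331821) (nat_lit 4) (nat_lit 5) (nat_lit 6) (nat_lit 5) (nat_lit 5) (nat_lit 4) (nat_lit 420) (nat_lit 365) (nat_lit 295))))) (XT.nd (nat_lit 282) (nat_lit 0) (nat_lit 0) (XT.nd (nat_lit 94) (nat_lit 252) (nat_lit 0) (XT.lf (nat_lit 0) (nat_lit 50210707472) (nat_lit 168) (nat_lit 6699621058) (nat_lit 0) (nat_lit 27310636570) (nat_lit 3) (nat_lit 5) (nat_lit 5) (nat_lit 4) (nat_lit 3) (nat_lit 4) (nat_lit 421) (nat_lit 365) (nat_lit 294)) (XT.nd (nat_lit 94) (nat_lit 84) (nat_lit 0) (XT.lf (nat_lit 0) (nat_lit 9910117392) (nat_lit 168) (nat_lit 2591545638) (nat_lit 84) (nat_lit 76124765002) (nat_lit 1) (nat_lit 5) (nat_lit 3) (nat_lit 5) (nat_lit 2) (nat_lit 4) (nat_lit 422) (nat_lit 365) (nat_lit 293)) (XT.lf (nat_lit 0) (nat_lit 138544265322) (nat_lit 0) (nat_lit 0) (nat_lit 0) (nat_lit 0) (nat_lit 0)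 (nat_lit 0) (nat_lit 1) (nat_lit 0) (nat_lit 1) (nat_lit 0) (nat_lit 423) (nat_lit 365) (nat_lit 292)))) (XT.nd (nat_lit 188) (nat_lit 0) (nat_lit 0) (XT.nd (nat_lit 94) (nat_lit 0) (nat_lit 0) (XT.lf (nat_lit 0) (nat_lit 149500709525) (nat_lit 0) (nat_lit 0) (nat_lit 0) (nat_lit 0) (nat_lit 0) (nat_lit 0) (nat_lit 1) (nat_lit 0) (nat_lit 1) (nat_lit 0) (nat_lit 424) (nat_lit 365) (nat_lit 291)) (XT.lf (nat_lit 0) (nat_lit 161333734650) (nat_lit 0) (nat_lit 0) (nat_lit 0) (nat_lit 0) (nat_lit 0) (nat_lit 0) (nat_lit 1) (nat_lit 0) (nat_lit 1) (nat_lit 0) (nat_lit 425) (nat_lit 365) (nat_lit 290))) (XT.nd (nat_lit 94) (nat_lit 0) (nat_lit 0) (XT.lf (nat_lit 0) (nat_lit 174113462327) (nat_lit 0) (nat_lit 0) (nat_lit 0) (nat_lit 0) (nat_lit 0) (nat_lit 0) (nat_lit 1) (nat_lit 0) (nat_lit 1) (nat_lit 0) (nat_lit 426) (nat_lit 365) (nat_lit 289)) (XT.lf (nat_lit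 0) (nat_lit 187915624275) (nat_lit 0) (nat_lit 0) (nat_lit 0) (nat_lit 0) (nat_lit 0) (nat_lit 0) (nat_lit 1) (nat_lit 0) (nat_lit 1) (nat_lit 0) (nat_lit 427) (nat_lit 365) (nat_lit 288)))))) (XT.nd (nat_lit 658) (nat_lit 0) (nat_lit 0) (XT.nd (nat_lit 282) (nat_lit 0) (nat_lit 0) (XT.nd (nat_lit 94) (nat_lit 0) (nat_lit 0) (XT.lf (nat_lit 0) (nat_lit 202822011084) (nat_lit 0) (nat_lit 0) (nat_lit 0) (nat_lit 0) (nat_lit 0) (nat_lit 0) (nat_lit 1) (nat_lit 0) (nat_lit 1) (nat_lit 0) (nat_lit 428) (nat_lit 365) (nat_lit 287)) (XT.nd (nat_lit 94) (nat_lit 0) (nat_lit 0) (XT.lf (nat_lit 0) (nat_lit 218920956898) (nat_lit 0) (nat_lit 0) (nat_lit 0) (nat_lit 0) (nat_lit 0) (nat_lit 0) (nat_lit 1) (nat_lit 0) (nat_lit 1) (nat_lit 0) (nat_lit 429) (nat_lit 365) (nat_lit 286)) (XT.lf (nat_lit 0) (nat_lit 236307862877) (nat_lit 0) (nat_lit 0) (nat_lit 0) (nat_lit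 0) (nat_lit 0) (nat_lit 0) (nat_lit 1) (nat_lit 0) (nat_lit 1) (nat_lit 0) (nat_lit 430) (nat_lit 365) (nat_lit 285)))) (XT.nd (nat_lit 188) (nat_lit 0) (nat_lit 0) (XT.nd (nat_lit 94) (nat_lit 0) (nat_lit 0) (XT.lf (nat_lit 0) (nat_lit 255085762539) (nat_lit 0) (nat_lit 0) (nat_lit 0) (nat_lit 0) (nat_lit 0) (nat_lit 0) (nat_lit 1) (nat_lit 0) (nat_lit 1) (nat_lit 0) (nat_lit 431) (nat_lit 365) (nat_lit 284)) (XT.lf (nat_lit 0) (nat_lit 275365932325) (nat_lit 0) (nat_lit 0) (nat_lit 0) (nat_lit 0) (nat_lit 0) (nat_lit 0) (nat_lit 1) (nat_lit 0) (nat_lit 1) (nat_lit 0) (nat_lit 432) (nat_lit 365) (nat_lit 283))) (XT.nd (nat_lit 94) (nat_lit 0) (nat_lit 0) (XT.lf (nat_lit 0) (nat_lit 297268551019) (nat_lit 0) (nat_lit 0) (nat_lit 0) (nat_lit 0) (nat_lit 0) (nat_lit 0) (nat_lit 1) (nat_lit 0) (nat_lit 1) (nat_lit 0) (nat_lit 433) (nat_lit 365) (nat_lit 282))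 (XT.lf (nat_lit 0) (nat_lit 320923411918) (nat_lit 0) (nat_lit 0) (nat_lit 0) (nat_lit 0) (nat_lit 0) (nat_lit 0) (nat_lit 1) (nat_lit 0) (nat_lit 1) (nat_lit 0) (nat_lit 434) (nat_lit 365) (nat_lit 281))))) (XT.nd (nat_lit 376) (nat_lit 0) (nat_lit 0) (XT.nd (nat_lit 188) (nat_lit 0) (nat_lit 0) (XT.nd (nat_lit 94) (nat_lit 0) (nat_lit 0) (XT.lf (nat_lit 0) (nat_lit 346470691976) (nat_lit 0) (nat_lit 0) (nat_lit 0) (nat_lit 0) (nat_lit 0) (nat_lit 0) (nat_lit 1) (nat_lit 0) (nat_lit 1) (nat_lit 0) (nat_lit 435) (nat_lit 365) (nat_lit 280)) (XT.lf (nat_lit 0) (nat_lit 374061782480) (nat_lit 0) (nat_lit 0) (nat_lit 0) (nat_lit 0) (nat_lit 0) (nat_lit 0) (nat_lit 1) (nat_lit 0) (nat_lit 1) (nat_lit 0) (nat_lit 436) (nat_lit 365) (nat_lit 279))) (XT.nd (nat_lit 94) (nat_lit 0) (nat_lit 0) (XT.lf (nat_lit 0) (nat_lit 403860186190) (nat_lit 0) (nat_lit 0) (nat_lit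 0) (nat_lit 0) (nat_lit 0) (nat_lit 0) (nat_lit 1) (nat_lit 0) (nat_lit 1) (nat_lit 0) (nat_lit 437) (nat_lit 365) (nat_lit 278)) (XT.lf (nat_lit 0) (nat_lit 436042486239) (nat_lit 0) (nat_lit 0) (nat_lit 0) (nat_lit 0) (nat_lit 0) (nat_lit 0) (nat_lit 1) (nat_lit 0) (nat_lit 1) (nat_lit 0) (nat_lit 438) (nat_lit 365) (nat_lit 277)))) (XT.nd (nat_lit 188) (nat_lit 0) (nat_lit 0) (XT.nd (nat_lit 94) (nat_lit 0) (nat_lit 0) (XT.lf (nat_lit 0) (nat_lit 470799392553) (nat_lit 0) (nat_lit 0) (nat_lit 0) (nat_lit 0) (nat_lit 0) (nat_lit 0) (nat_lit 1) (nat_lit 0) (nat_lit 1) (nat_lit 0) (nat_lit 439) (nat_lit 365) (nat_lit 276)) (XT.lf (nat_lit 0) (nat_lit 508336871984) (nat_lit 0) (nat_lit 0) (nat_lit 0) (nat_lit 0) (nat_lit 0) (nat_lit 0) (nat_lit 1) (nat_lit 0) (nat_lit 1) (nat_lit 0) (nat_lit 440) (nat_lit 365) (nat_lit 275))) (XT.nd (nat_lit 94) (nat_lit 0)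 (nat_lit 0) (XT.lf (nat_lit 0) (nat_lit 548877368855) (nat_lit 0) (nat_lit 0) (nat_lit 0) (nat_lit 0) (nat_lit 0) (nat_lit 0) (nat_lit 1) (nat_lit 0) (nat_lit 1) (nat_lit 0) (nat_lit 441) (nat_lit 365) (nat_lit 274)) (XT.lf (nat_lit 0) (nat_lit 592661123147) (nat_lit 0) (nat_lit 0) (nat_lit 0) (nat_lit 0) (nat_lit 0) (nat_lit 0) (nat_lit 1) (nat_lit 0) (nat_lit 1) (nat_lit 0) (nat_lit 442) (nat_lit 365) (nat_lit 273))))))))
noncomputable def xc100 : XT := (XT.nd (nat_lit 2632) (nat_lit 0) (nat_lit 0) (XT.nd (nat_lit 1316) (nat_lit 0) (nat_lit 0) (XT.nd (nat_lit 658) (nat_lit 0) (nat_lit 0) (XT.nd (nat_lit 282) (nat_lit 0) (nat_lit 0) (XT.nd (nat_lit 94) (nat_lit 0) (nat_lit 0) (XT.lf (nat_lit 0) (nat_lit 639947594146) (nat_lit 0) (nat_lit 0) (nat_lit 0) (nat_lit 0) (nat_lit 0) (nat_lit 0) (nat_lit 1) (nat_lit 0) (nat_lit 1) (nat_lit 0) (nat_lit 443) (nat_lit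 365) (nat_lit 272)) (XT.nd (nat_lit 94) (nat_lit 0) (nat_lit 0) (XT.lf (nat_lit 0) (nat_lit 691016997975) (nat_lit 0) (nat_lit 0) (nat_lit 0) (nat_lit 0) (nat_lit 0) (nat_lit 0) (nat_lit 1) (nat_lit 0) (nat_lit 1) (nat_lit 0) (nat_lit 444) (nat_lit 365) (nat_lit 271)) (XT.lf (nat_lit 0) (nat_lit 746171968138) (nat_lit 0) (nat_lit 0) (nat_lit 0) (nat_lit 0) (nat_lit 0) (nat_lit 0) (nat_lit 1) (nat_lit 0) (nat_lit 1) (nat_lit 0) (nat_lit 445) (nat_lit 365) (nat_lit 270)))) (XT.nd (nat_lit 188) (nat_lit 0) (nat_lit 0) (XT.nd (nat_lit 94) (nat_lit 0) (nat_lit 0) (XT.lf (nat_lit 0) (nat_lit 805739348904) (nat_lit 0) (nat_lit 0) (nat_lit 0) (nat_lit 0) (nat_lit 0) (nat_lit 0) (nat_lit 1) (nat_lit 0) (nat_lit 1) (nat_lit 0) (nat_lit 446) (nat_lit 365) (nat_lit 269)) (XT.lf (nat_lit 0) (nat_lit 870072132158) (nat_lit 0) (nat_lit 0) (nat_lit 0) (nat_lit 0) (nat_lit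 0) (nat_lit 0) (nat_lit 1) (nat_lit 0) (nat_lit 1) (nat_lit 0) (nat_lit 447) (nat_lit 365) (nat_lit 268))) (XT.nd (nat_lit 94) (nat_lit 0) (nat_lit 0) (XT.lf (nat_lit 0) (nat_lit 939551549208) (nat_lit 0) (nat_lit 0) (nat_lit 0) (nat_lit 0) (nat_lit 0) (nat_lit 0) (nat_lit 1) (nat_lit 0) (nat_lit 1) (nat_lit 0) (nat_lit 448) (nat_lit 365) (nat_lit 267)) (XT.lf (nat_lit 0) (nat_lit 1014589329934) (nat_lit 0) (nat_lit 0) (nat_lit 0) (nat_lit 0) (nat_lit 0) (nat_lit 0) (nat_lit 1) (nat_lit 0) (nat_lit 1) (nat_lit 0) (nat_lit 449) (nat_lit 365) (nat_lit 266))))) (XT.nd (nat_lit 282) (nat_lit 0) (nat_lit 0) (XT.nd (nat_lit 94) (nat_lit 0) (nat_lit 0) (XT.lf (nat_lit 0) (nat_lit 1095630142665) (nat_lit 0) (nat_lit 0) (nat_lit 0) (nat_lit 0) (nat_lit 0) (nat_lit 0) (nat_lit 1) (nat_lit 0) (nat_lit 1) (nat_lit 0) (nat_lit 450) (nat_lit 365) (nat_lit 265)) (XT.nd (nat_lit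 94) (nat_lit 0) (nat_lit 0) (XT.lf (nat_lit 0) (nat_lit 1183154229255) (nat_lit 0) (nat_lit 0) (nat_lit 0) (nat_lit 0) (nat_lit 0) (nat_lit 0) (nat_lit 1) (nat_lit 0) (nat_lit 1) (nat_lit 0) (nat_lit 451) (nat_lit 365) (nat_lit 264)) (XT.lf (nat_lit 0) (nat_lit 1277680250958) (nat_lit 0) (nat_lit 0) (nat_lit 0) (nat_lit 0) (nat_lit 0) (nat_lit 0) (nat_lit 1) (nat_lit 0) (nat_lit 1) (nat_lit 0) (nat_lit 452) (nat_lit 365) (nat_lit 263)))) (XT.nd (nat_lit 188) (nat_lit 0) (nat_lit 0) (XT.nd (nat_lit 94) (nat_lit 0) (nat_lit 0) (XT.lf (nat_lit 0) (nat_lit 1379768361975) (nat_lit 0) (nat_lit 0) (nat_lit 0) (nat_lit 0) (nat_lit 0) (nat_lit 0) (nat_lit 1) (nat_lit 0) (nat_lit 1) (nat_lit 0) (nat_lit 453) (nat_lit 365) (nat_lit 262)) (XT.lf (nat_lit 0) (nat_lit 1490023528892) (nat_lit 0) (nat_lit 0) (nat_lit 0) (nat_lit 0) (nat_lit 0) (nat_lit 0) (nat_lit 1) (nat_lit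 0) (nat_lit 1) (nat_lit 0) (nat_lit 454) (nat_lit 365) (nat_lit 261))) (XT.nd (nat_lit 94) (nat_lit 0) (nat_lit 0) (XT.lf (nat_lit 0) (nat_lit 1609099115660) (nat_lit 0) (nat_lit 0) (nat_lit 0) (nat_lit 0) (nat_lit 0) (nat_lit 0) (nat_lit 1) (nat_lit 0) (nat_lit 1) (nat_lit 0) (nat_lit 455) (nat_lit 365) (nat_lit 260)) (XT.lf (nat_lit 0) (nat_lit 1737700755386) (nat_lit 0) (nat_lit 0) (nat_lit 0) (nat_lit 0) (nat_lit 0) (nat_lit 0) (nat_lit 1) (nat_lit 0) (nat_lit 1) (nat_lit 0) (nat_lit 456) (nat_lit 365) (nat_lit 259)))))) (XT.nd (nat_lit 658) (nat_lit 0) (nat_lit 0) (XT.nd (nat_lit 282) (nat_lit 0) (nat_lit 0) (XT.nd (nat_lit 94) (nat_lit 0) (nat_lit 0) (XT.lf (nat_lit 0) (nat_lit 1876590531861) (nat_lit 0) (nat_lit 0) (nat_lit 0) (nat_lit 0) (nat_lit 0) (nat_lit 0) (nat_lit 1) (nat_lit 0) (nat_lit 1) (nat_lit 0) (nat_lit 457) (nat_lit 365) (nat_lit 258))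 (XT.nd (nat_lit 94) (nat_lit 0) (nat_lit 0) (XT.lf (nat_lit 0) (nat_lit 2026591495611) (nat_lit 0) (nat_lit 0) (nat_lit 0) (nat_lit 0) (nat_lit 0) (nat_lit 0) (nat_lit 1) (nat_lit 0) (nat_lit 1) (nat_lit 0) (nat_lit 458) (nat_lit 365) (nat_lit 257)) (XT.lf (nat_lit 0) (nat_lit 2188592541239) (nat_lit 0) (nat_lit 0) (nat_lit 0) (nat_lit 0) (nat_lit 0) (nat_lit 0) (nat_lit 1) (nat_lit 0) (nat_lit 1) (nat_lit 0) (nat_lit 459) (nat_lit 365) (nat_lit 256)))) (XT.nd (nat_lit 188) (nat_lit 0) (nat_lit 0) (XT.nd (nat_lit 94) (nat_lit 0) (nat_lit 0) (XT.lf (nat_lit 0) (nat_lit 2363553674938) (nat_lit 0) (nat_lit 0) (nat_lit 0) (nat_lit 0) (nat_lit 0) (nat_lit 0) (nat_lit 1) (nat_lit 0) (nat_lit 1) (nat_lit 0) (nat_lit 460) (nat_lit 365) (nat_lit 255)) (XT.lf (nat_lit 0) (nat_lit 2552511703428) (nat_lit 0) (nat_lit 0) (nat_lit 0) (nat_lit 0) (nat_lit 0) (nat_lit 0)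 (nat_lit 1) (nat_lit 0) (nat_lit 1) (nat_lit 0) (nat_lit 461) (nat_lit 365) (nat_lit 254))) (XT.nd (nat_lit 94) (nat_lit 0) (nat_lit 0) (XT.lf (nat_lit 0) (nat_lit 2756586377989) (nat_lit 0) (nat_lit 0) (nat_lit 0) (nat_lit 0) (nat_lit 0) (nat_lit 0) (nat_lit 1) (nat_lit 0) (nat_lit 1) (nat_lit 0) (nat_lit 462) (nat_lit 365) (nat_lit 253)) (XT.lf (nat_lit 0) (nat_lit 2976987030026) (nat_lit 0) (nat_lit 0) (nat_lit 0) (nat_lit 0) (nat_lit 0) (nat_lit 0) (nat_lit 1) (nat_lit 0) (nat_lit 1) (nat_lit 0) (nat_lit 463) (nat_lit 365) (nat_lit 252))))) (XT.nd (nat_lit 282) (nat_lit 0) (nat_lit 0) (XT.nd (nat_lit 94) (nat_lit 0) (nat_lit 0) (XT.lf (nat_lit 0) (nat_lit 3215019737475) (nat_lit 0) (nat_lit 0) (nat_lit 0) (nat_lit 0) (nat_lit 0) (nat_lit 0) (nat_lit 1) (nat_lit 0) (nat_lit 1) (nat_lit 0) (nat_lit 464) (nat_lit 365) (nat_lit 251)) (XT.nd (nat_lit 94) (nat_lit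 0) (nat_lit 0) (XT.lf (nat_lit 0) (nat_lit 3472095064531) (nat_lit 0) (nat_lit 0) (nat_lit 0) (nat_lit 0) (nat_lit 0) (nat_lit 0) (nat_lit 1) (nat_lit 0) (nat_lit 1) (nat_lit 0) (nat_lit 465) (nat_lit 365) (nat_lit 250)) (XT.lf (nat_lit 0) (nat_lit 3749736420537) (nat_lit 0) (nat_lit 0) (nat_lit 0) (nat_lit 0) (nat_lit 0) (nat_lit 0) (nat_lit 1) (nat_lit 0) (nat_lit 1) (nat_lit 0) (nat_lit 466) (nat_lit 365) (nat_lit 249)))) (XT.nd (nat_lit 188) (nat_lit 0) (nat_lit 0) (XT.nd (nat_lit 94) (nat_lit 0) (nat_lit 0) (XT.lf (nat_lit 0) (nat_lit 4049589087605) (nat_lit 0) (nat_lit 0) (nat_lit 0) (nat_lit 0) (nat_lit 0) (nat_lit 0) (nat_lit 1) (nat_lit 0) (nat_lit 1) (nat_lit 0) (nat_lit 467) (nat_lit 365) (nat_lit 248)) (XT.lf (nat_lit 0) (nat_lit 4373429970427) (nat_lit 0) (nat_lit 0) (nat_lit 0) (nat_lit 0) (nat_lit 0) (nat_lit 0) (nat_lit 1) (nat_lit 0) (nat_lit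 1) (nat_lit 0) (nat_lit 468) (nat_lit 365) (nat_lit 247))) (XT.nd (nat_lit 94) (nat_lit 0) (nat_lit 0) (XT.lf (nat_lit 0) (nat_lit 4723178126088) (nat_lit 0) (nat_lit 0) (nat_lit 0) (nat_lit 0) (nat_lit 0) (nat_lit 0) (nat_lit 1) (nat_lit 0) (nat_lit 1) (nat_lit 0) (nat_lit 469) (nat_lit 365) (nat_lit 246)) (XT.lf (nat_lit 0) (nat_lit 5100906136249) (nat_lit 0) (nat_lit 0) (nat_lit 0) (nat_lit 0) (nat_lit 0) (nat_lit 0) (nat_lit 1) (nat_lit 0) (nat_lit 1) (nat_lit 0) (nat_lit 470) (nat_lit 365) (nat_lit 245))))))) (XT.nd (nat_lit 1316) (nat_lit 0) (nat_lit 0) (XT.nd (nat_lit 658) (nat_lit 0) (nat_lit 0) (XT.nd (nat_lit 282) (nat_lit 0) (nat_lit 0) (XT.nd (nat_lit 94) (nat_lit 0) (nat_lit 0) (XT.lf (nat_lit 0) (nat_lit 5508852389120) (nat_lit 0) (nat_lit 0) (nat_lit 0) (nat_lit 0) (nat_lit 0) (nat_lit 0) (nat_lit 1) (nat_lit 0) (nat_lit 1) (nat_lit 0) (nat_lit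 471) (nat_lit 365) (nat_lit 244)) (XT.nd (nat_lit 94) (nat_lit 0) (nat_lit 0) (XT.lf (nat_lit 0) (nat_lit 5949434343977) (nat_lit 0) (nat_lit 0) (nat_lit 0) (nat_lit 0) (nat_lit 0) (nat_lit 0) (nat_lit 1) (nat_lit 0) (nat_lit 1) (nat_lit 0) (nat_lit 472) (nat_lit 365) (nat_lit 243)) (XT.lf (nat_lit 0) (nat_lit 6425262856849) (nat_lit 0) (nat_lit 0) (nat_lit 0) (nat_lit 0) (nat_lit 0) (nat_lit 0) (nat_lit 1) (nat_lit 0) (nat_lit 1) (nat_lit 0) (nat_lit 473) (nat_lit 365) (nat_lit 242)))) (XT.nd (nat_lit 188) (nat_lit 0) (nat_lit 0) (XT.nd (nat_lit 94) (nat_lit 0) (nat_lit 0) (XT.lf (nat_lit 0) (nat_lit 6939157652256) (nat_lit 0) (nat_lit 0) (nat_lit 0) (nat_lit 0) (nat_lit 0) (nat_lit 0) (nat_lit 1) (nat_lit 0) (nat_lit 1) (nat_lit 0) (nat_lit 474) (nat_lit 365) (nat_lit 241)) (XT.lf (nat_lit 0) (nat_lit 7494164032689) (nat_lit 0) (nat_lit 0) (nat_lit 0) (nat_lit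 0) (nat_lit 0) (nat_lit 0) (nat_lit 1) (nat_lit 0) (nat_lit 1) (nat_lit 0) (nat_lit 475) (nat_lit 365) (nat_lit 240))) (XT.nd (nat_lit 94) (nat_lit 0) (nat_lit 0) (XT.lf (nat_lit 0) (nat_lit 8093570924848) (nat_lit 0) (nat_lit 0) (nat_lit 0) (nat_lit 0) (nat_lit 0) (nat_lit 0) (nat_lit 1) (nat_lit 0) (nat_lit 1) (nat_lit 0) (nat_lit 476) (nat_lit 365) (nat_lit 239)) (XT.lf (nat_lit 0) (nat_lit 8740930369575) (nat_lit 0) (nat_lit 0) (nat_lit 0) (nat_lit 0) (nat_lit 0) (nat_lit 0) (nat_lit 1) (nat_lit 0) (nat_lit 1) (nat_lit 0) (nat_lit 477) (nat_lit 365) (nat_lit 238))))) (XT.nd (nat_lit 282) (nat_lit 0) (nat_lit 0) (XT.nd (nat_lit 94) (nat_lit 0) (nat_lit 0) (XT.lf (nat_lit 0) (nat_lit 9440078570987) (nat_lit 0) (nat_lit 0) (nat_lit 0) (nat_lit 0) (nat_lit 0) (nat_lit 0) (nat_lit 1) (nat_lit 0) (nat_lit 1) (nat_lit 0) (nat_lit 478) (nat_lit 365) (nat_lit 237))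 (XT.nd (nat_lit 94) (nat_lit 0) (nat_lit 0) (XT.lf (nat_lit 0) (nat_lit 10195158629537) (nat_lit 0) (nat_lit 0) (nat_lit 0) (nat_lit 0) (nat_lit 0) (nat_lit 0) (nat_lit 1) (nat_lit 0) (nat_lit 1) (nat_lit 0) (nat_lit 479) (nat_lit 365) (nat_lit 236)) (XT.lf (nat_lit 0) (nat_lit 11010645093719) (nat_lit 0) (nat_lit 0) (nat_lit 0) (nat_lit 0) (nat_lit 0) (nat_lit 0) (nat_lit 1) (nat_lit 0) (nat_lit 1) (nat_lit 0) (nat_lit 480) (nat_lit 365) (nat_lit 235)))) (XT.nd (nat_lit 188) (nat_lit 0) (nat_lit 0) (XT.nd (nat_lit 94) (nat_lit 0) (nat_lit 0) (XT.lf (nat_lit 0) (nat_lit 11891370475914) (nat_lit 0) (nat_lit 0) (nat_lit 0) (nat_lit 0) (nat_lit 0) (nat_lit 0) (nat_lit 1) (nat_lit 0) (nat_lit 1) (nat_lit 0) (nat_lit 481) (nat_lit 365) (nat_lit 234)) (XT.lf (nat_lit 0) (nat_lit 12842553889499) (nat_lit 0) (nat_lit 0) (nat_lit 0) (nat_lit 0) (nat_lit 0) (nat_lit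 0) (nat_lit 1) (nat_lit 0) (nat_lit 1) (nat_lit 0) (nat_lit 482) (nat_lit 365) (nat_lit 233))) (XT.nd (nat_lit 94) (nat_lit 0) (nat_lit 0) (XT.lf (nat_lit 0) (nat_lit 13869831976923) (nat_lit 0) (nat_lit 0) (nat_lit 0) (nat_lit 0) (nat_lit 0) (nat_lit 0) (nat_lit 1) (nat_lit 0) (nat_lit 1) (nat_lit 0) (nat_lit 483) (nat_lit 365) (nat_lit 232)) (XT.lf (nat_lit 0) (nat_lit 14979292312039) (nat_lit 0) (nat_lit 0) (nat_lit 0) (nat_lit 0) (nat_lit 0) (nat_lit 0) (nat_lit 1) (nat_lit 0) (nat_lit 1) (nat_lit 0) (nat_lit 484) (nat_lit 365) (nat_lit 231)))))) (XT.nd (nat_lit 658) (nat_lit 0) (nat_lit 0) (XT.nd (nat_lit 282) (nat_lit 0) (nat_lit 0) (XT.nd (nat_lit 94) (nat_lit 0) (nat_lit 0) (XT.lf (nat_lit 0) (nat_lit 16177509474610) (nat_lit 0) (nat_lit 0) (nat_lit 0) (nat_lit 0) (nat_lit 0) (nat_lit 0) (nat_lit 1) (nat_lit 0) (nat_lit 1) (nat_lit 0) (nat_lit 485)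 (nat_lit 365) (nat_lit 230)) (XT.nd (nat_lit 94) (nat_lit 0) (nat_lit 0) (XT.lf (nat_lit 0) (nat_lit 17471584010784) (nat_lit 0) (nat_lit 0) (nat_lit 0) (nat_lit 0) (nat_lit 0) (nat_lit 0) (nat_lit 1) (nat_lit 0) (nat_lit 1) (nat_lit 0) (nat_lit 486) (nat_lit 365) (nat_lit 229)) (XT.lf (nat_lit 0) (nat_lit 18869184510406) (nat_lit 0) (nat_lit 0) (nat_lit 0) (nat_lit 0) (nat_lit 0) (nat_lit 0) (nat_lit 1) (nat_lit 0) (nat_lit 1) (nat_lit 0) (nat_lit 487) (nat_lit 365) (nat_lit 228)))) (XT.nd (nat_lit 188) (nat_lit 0) (nat_lit 0) (XT.nd (nat_lit 94) (nat_lit 0) (nat_lit 0) (XT.lf (nat_lit 0) (nat_lit 20378593050510) (nat_lit 0) (nat_lit 0) (nat_lit 0) (nat_lit 0) (nat_lit 0) (nat_lit 0) (nat_lit 1) (nat_lit 0) (nat_lit 1) (nat_lit 0) (nat_lit 488) (nat_lit 365) (nat_lit 227)) (XT.lf (nat_lit 0) (nat_lit 22008754274297) (nat_lit 0) (nat_lit 0) (nat_lit 0) (nat_lit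 0) (nat_lit 0) (nat_lit 0) (nat_lit 1) (nat_lit 0) (nat_lit 1) (nat_lit 0) (nat_lit 489) (nat_lit 365) (nat_lit 226))) (XT.nd (nat_lit 94) (nat_lit 0) (nat_lit 0) (XT.lf (nat_lit 0) (nat_lit 23769328396427) (nat_lit 0) (nat_lit 0) (nat_lit 0) (nat_lit 0) (nat_lit 0) (nat_lit 0) (nat_lit 1) (nat_lit 0) (nat_lit 1) (nat_lit 0) (nat_lit 490) (nat_lit 365) (nat_lit 225)) (XT.lf (nat_lit 0) (nat_lit 25670748448734) (nat_lit 0) (nat_lit 0) (nat_lit 0) (nat_lit 0) (nat_lit 0) (nat_lit 0) (nat_lit 1) (nat_lit 0) (nat_lit 1) (nat_lit 0) (nat_lit 491) (nat_lit 365) (nat_lit 224))))) (XT.nd (nat_lit 282) (nat_lit 0) (nat_lit 0) (XT.nd (nat_lit 94) (nat_lit 0) (nat_lit 0) (XT.lf (nat_lit 0) (nat_lit 27724282105602) (nat_lit 0) (nat_lit 0) (nat_lit 0) (nat_lit 0) (nat_lit 0) (nat_lit 0) (nat_lit 1) (nat_lit 0) (nat_lit 1) (nat_lit 0) (nat_lit 492) (nat_lit 365) (nat_lit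 223)) (XT.nd (nat_lit 94) (nat_lit 0) (nat_lit 0) (XT.lf (nat_lit 0) (nat_lit 29942098455368) (nat_lit 0) (nat_lit 0) (nat_lit 0) (nat_lit 0) (nat_lit 0) (nat_lit 0) (nat_lit 1) (nat_lit 0) (nat_lit 1) (nat_lit 0) (nat_lit 493) (nat_lit 365) (nat_lit 222)) (XT.lf (nat_lit 0) (nat_lit 32337340113439) (nat_lit 0) (nat_lit 0) (nat_lit 0) (nat_lit 0) (nat_lit 0) (nat_lit 0) (nat_lit 1) (nat_lit 0) (nat_lit 1) (nat_lit 0) (nat_lit 494) (nat_lit 365) (nat_lit 221)))) (XT.nd (nat_lit 188) (nat_lit 0) (nat_lit 0) (XT.nd (nat_lit 94) (nat_lit 0) (nat_lit 0) (XT.lf (nat_lit 0) (nat_lit 34924201104455) (nat_lit 0) (nat_lit 0) (nat_lit 0) (nat_lit 0) (nat_lit 0) (nat_lit 0) (nat_lit 1) (nat_lit 0) (nat_lit 1) (nat_lit 0) (nat_lit 495) (nat_lit 365) (nat_lit 220)) (XT.lf (nat_lit 0) (nat_lit 37718010975029) (nat_lit 0) (nat_lit 0) (nat_lit 0) (nat_lit 0) (nat_lit 0) (nat_lit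 0) (nat_lit 1) (nat_lit 0) (nat_lit 1) (nat_lit 0) (nat_lit 496) (nat_lit 365) (nat_lit 219))) (XT.nd (nat_lit 94) (nat_lit 0) (nat_lit 0) (XT.lf (nat_lit 0) (nat_lit 40735325635505) (nat_lit 0) (nat_lit 0) (nat_lit 0) (nat_lit 0) (nat_lit 0) (nat_lit 0) (nat_lit 1) (nat_lit 0) (nat_lit 1) (nat_lit 0) (nat_lit 497) (nat_lit 365) (nat_lit 218)) (XT.lf (nat_lit 0) (nat_lit 43994025469057) (nat_lit 0) (nat_lit 0) (nat_lit 0) (nat_lit 0) (nat_lit 0) (nat_lit 0) (nat_lit 1) (nat_lit 0) (nat_lit 1) (nat_lit 0) (nat_lit 498) (nat_lit 365) (nat_lit 217))))))))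
noncomputable def xc101 : XT := (XT.nd (nat_lit 57716) (nat_lit 0) (nat_lit 504) (XT.nd (nat_lit 56400) (nat_lit 0) (nat_lit 5040) (XT.nd (nat_lit 55742) (nat_lit 0) (nat_lit 9408) (XT.nd (nat_lit 55366) (nat_lit 0) (nat_lit 12516) (XT.nd (nat_lit 94) (nat_lit 0) (nat_lit 0) (XT.lf (nat_lit 0) (nat_lit 47513421289513) (nat_lit 0) (nat_lit 0) (nat_lit 0) (nat_lit 0) (nat_lit 0) (nat_lit 0) (nat_lit 1) (nat_lit 0) (nat_lit 1) (nat_lit 0) (nat_lit 499) (nat_lit 365) (nat_lit 216)) (XT.nd (nat_lit 55178) (nat_lit 0) (nat_lit 13188) (XT.lf (nat_lit 0) (nat_lit 51314368775808) (nat_lit 0) (nat_lit 0) (nat_lit 0) (nat_lit 0) (nat_lit 0) (nat_lit 0) (nat_lit 1) (nat_lit 0) (nat_lit 1) (nat_lit 0) (nat_lit 500) (nat_lit 365) (nat_lit 215)) (XT.lf (nat_lit 0) (nat_lit 781045310) (nat_lit 0) (nat_lit 781045310) (nat_lit 588) (nat_lit 2174219158) (nat_lit 157) (nat_lit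 5) (nat_lit 157) (nat_lit 3) (nat_lit 164) (nat_lit 3) (nat_lit 366) (nat_lit 366) (nat_lit 348)))) (XT.nd (nat_lit 188) (nat_lit 0) (nat_lit 84) (XT.nd (nat_lit 94) (nat_lit 672) (nat_lit 0) (XT.lf (nat_lit 84) (nat_lit 49641773) (nat_lit 0) (nat_lit 5523302263) (nat_lit 672) (nat_lit 2082390528) (nat_lit 158) (nat_lit 5) (nat_lit 157) (nat_lit 5) (nat_lit 165) (nat_lit 5) (nat_lit 367) (nat_lit 366) (nat_lit 347)) (XT.lf (nat_lit 0) (nat_lit 251240459) (nat_lit 672) (nat_lit 1323205786) (nat_lit 756) (nat_lit 6283036648) (nat_lit 149) (nat_lit 5) (nat_lit 157) (nat_lit 5) (nat_lit 158) (nat_lit 5) (nat_lit 368) (nat_lit 366) (nat_lit 346))) (XT.nd (nat_lit 94) (nat_lit 0) (nat_lit 0) (XT.lf (nat_lit 0) (nat_lit 2614606970) (nat_lit 672) (nat_lit 2653272953) (nat_lit 756) (nat_lit 2810416195) (nat_lit 150) (nat_lit 5) (nat_lit 158) (nat_lit 5) (nat_lit 159)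 (nat_lit 5) (nat_lit 369) (nat_lit 366) (nat_lit 345)) (XT.lf (nat_lit 84) (nat_lit 4424433816) (nat_lit 0) (nat_lit 661184382) (nat_lit 756) (nat_lit 3235227433) (nat_lit 151) (nat_lit 5) (nat_lit 150) (nat_lit 5) (nat_lit 159) (nat_lit 5) (nat_lit 370) (nat_lit 366) (nat_lit 344))))) (XT.nd (nat_lit 282) (nat_lit 1848) (nat_lit 0) (XT.nd (nat_lit 94) (nat_lit 1428) (nat_lit 0) (XT.lf (nat_lit 84) (nat_lit 3486681077) (nat_lit 0) (nat_lit 4249666644) (nat_lit 756) (nat_lit 847349516) (nat_lit 152) (nat_lit 5) (nat_lit 151) (nat_lit 5) (nat_lit 160) (nat_lit 5) (nat_lit 371) (nat_lit 366) (nat_lit 343)) (XT.nd (nat_lit 94) (nat_lit 756) (nat_lit 0) (XT.lf (nat_lit 0) (nat_lit 1635615025) (nat_lit 756) (nat_lit 6243618816) (nat_lit 84) (nat_lit 989017549) (nat_lit 143) (nat_lit 5) (nat_lit 152) (nat_lit 5) (nat_lit 144) (nat_lit 5) (nat_lit 372) (nat_lit 366)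 (nat_lit 342)) (XT.lf (nat_lit 0) (nat_lit 1803156265) (nat_lit 756) (nat_lit 2508592007) (nat_lit 840) (nat_lit 4861916130) (nat_lit 134) (nat_lit 5) (nat_lit 143) (nat_lit 5) (nat_lit 144) (nat_lit 5) (nat_lit 373) (nat_lit 366) (nat_lit 341)))) (XT.nd (nat_lit 188) (nat_lit 420) (nat_lit 0) (XT.nd (nat_lit 94) (nat_lit 588) (nat_lit 0) (XT.lf (nat_lit 0) (nat_lit 1055160342) (nat_lit 840) (nat_lit 6169497895) (nat_lit 924) (nat_lit 2277717914) (nat_lit 124) (nat_lit 5) (nat_lit 134) (nat_lit 5) (nat_lit 135) (nat_lit 5) (nat_lit 374) (nat_lit 366) (nat_lit 340)) (XT.lf (nat_lit 0) (nat_lit 384345547) (nat_lit 504) (nat_lit 142501112) (nat_lit 588) (nat_lit 9328634713) (nat_lit 117) (nat_lit 5) (nat_lit 123) (nat_lit 5) (nat_lit 124) (nat_lit 5) (nat_lit 375) (nat_lit 366) (nat_lit 339))) (XT.nd (nat_lit 94) (nat_lit 420) (nat_lit 0) (XT.lf (nat_lit 0) (nat_lit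 3586204120) (nat_lit 588) (nat_lit 289118969) (nat_lit 84) (nat_lit 6354133547) (nat_lit 117) (nat_lit 5) (nat_lit 124) (nat_lit 5) (nat_lit 118) (nat_lit 5) (nat_lit 376) (nat_lit 366) (nat_lit 338)) (XT.lf (nat_lit 0) (nat_lit 6961486410) (nat_lit 504) (nat_lit 871122497) (nat_lit 84) (nat_lit 2797182202) (nat_lit 112) (nat_lit 5) (nat_lit 118) (nat_lit 5) (nat_lit 113) (nat_lit 5) (nat_lit 377) (nat_lit 366) (nat_lit 337)))))) (XT.nd (nat_lit 658) (nat_lit 1848) (nat_lit 0) (XT.nd (nat_lit 282) (nat_lit 1344) (nat_lit 0) (XT.nd (nat_lit 94) (nat_lit 756) (nat_lit 0) (XT.lf (nat_lit 0) (nat_lit 9669658791) (nat_lit 420) (nat_lit 1036646501) (nat_lit 504) (nat_lit 350871348) (nat_lit 107) (nat_lit 5) (nat_lit 112) (nat_lit 5) (nat_lit 113) (nat_lit 5) (nat_lit 378) (nat_lit 366) (nat_lit 336)) (XT.nd (nat_lit 94) (nat_lit 336) (nat_lit 0) (XT.lf (nat_lit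 0) (nat_lit 3280290265) (nat_lit 420) (nat_lit 1920239090) (nat_lit 84) (nat_lit 6308111843) (nat_lit 102) (nat_lit 5) (nat_lit 107) (nat_lit 5) (nat_lit 103) (nat_lit 5) (nat_lit 379) (nat_lit 366) (nat_lit 335)) (XT.lf (nat_lit 0) (nat_lit 7309378450) (nat_lit 420) (nat_lit 2377655560) (nat_lit 84) (nat_lit 2302914989) (nat_lit 98) (nat_lit 5) (nat_lit 103) (nat_lit 5) (nat_lit 99) (nat_lit 5) (nat_lit 380) (nat_lit 366) (nat_lit 334)))) (XT.nd (nat_lit 188) (nat_lit 588) (nat_lit 0) (XT.nd (nat_lit 94) (nat_lit 420) (nat_lit 0) (XT.lf (nat_lit 0) (nat_lit 9720860958) (nat_lit 336) (nat_lit 2108970876) (nat_lit 420) (nat_lit 671477682) (nat_lit 94) (nat_lit 5) (nat_lit 98) (nat_lit 5) (nat_lit 99) (nat_lit 5) (nat_lit 381) (nat_lit 366) (nat_lit 333)) (XT.lf (nat_lit 0) (nat_lit 3737113829) (nat_lit 420) (nat_lit 3190621471) (nat_lit 84) (nat_lit 6113194674)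 (nat_lit 89) (nat_lit 5) (nat_lit 94) (nat_lit 5) (nat_lit 90) (nat_lit 5) (nat_lit 382) (nat_lit 366) (nat_lit 332))) (XT.nd (nat_lit 94) (nat_lit 336) (nat_lit 0) (XT.lf (nat_lit 0) (nat_lit 8646177598) (nat_lit 336) (nat_lit 3519786325) (nat_lit 84) (nat_lit 1448640242) (nat_lit 86) (nat_lit 5) (nat_lit 90) (nat_lit 5) (nat_lit 87) (nat_lit 5) (nat_lit 383) (nat_lit 366) (nat_lit 331)) (XT.lf (nat_lit 0) (nat_lit 10416403922) (nat_lit 336) (nat_lit 3777024776) (nat_lit 420) (nat_lit 28470482) (nat_lit 82) (nat_lit 5) (nat_lit 86) (nat_lit 5) (nat_lit 87) (nat_lit 5) (nat_lit 384) (nat_lit 366) (nat_lit 330))))) (XT.nd (nat_lit 282) (nat_lit 924) (nat_lit 0) (XT.nd (nat_lit 94) (nat_lit 588) (nat_lit 0) (XT.lf (nat_lit 0) (nat_lit 5368757830) (nat_lit 336) (nat_lit 4093637079) (nat_lit 84) (nat_lit 5399644143) (nat_lit 78) (nat_lit 5) (nat_lit 82) (nat_lit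 5) (nat_lit 79) (nat_lit 5) (nat_lit 385) (nat_lit 366) (nat_lit 329)) (XT.nd (nat_lit 94) (nat_lit 336) (nat_lit 0) (XT.lf (nat_lit 0) (nat_lit 11268837932) (nat_lit 252) (nat_lit 151985277) (nat_lit 336) (nat_lit 4121340753) (nat_lit 75) (nat_lit 5) (nat_lit 78) (nat_lit 5) (nat_lit 79) (nat_lit 5) (nat_lit 386) (nat_lit 366) (nat_lit 328)) (XT.lf (nat_lit 0) (nat_lit 1964754217) (nat_lit 336) (nat_lit 4454022143) (nat_lit 84) (nat_lit 9839701699) (nat_lit 71) (nat_lit 5) (nat_lit 75) (nat_lit 5) (nat_lit 72) (nat_lit 5) (nat_lit 387) (nat_lit 366) (nat_lit 327)))) (XT.nd (nat_lit 188) (nat_lit 504) (nat_lit 0) (XT.nd (nat_lit 94) (nat_lit 168) (nat_lit 0) (XT.lf (nat_lit 0) (nat_lit 8653448539) (nat_lit 336) (nat_lit 4576321363) (nat_lit 84) (nat_lit 3785944060) (nat_lit 68) (nat_lit 5) (nat_lit 72) (nat_lit 5) (nat_lit 69) (nat_lit 5) (nat_lit 388) (nat_lit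 366) (nat_lit 326)) (XT.lf (nat_lit 0) (nat_lit 13213016842) (nat_lit 168) (nat_lit 2984594110) (nat_lit 252) (nat_lit 1619899157) (nat_lit 66) (nat_lit 5) (nat_lit 68) (nat_lit 5) (nat_lit 69) (nat_lit 5) (nat_lit 389) (nat_lit 366) (nat_lit 325))) (XT.nd (nat_lit 94) (nat_lit 168) (nat_lit 0) (XT.lf (nat_lit 0) (nat_lit 5844242007) (nat_lit 336) (nat_lit 4637783752) (nat_lit 84) (nat_lit 8178824299) (nat_lit 62) (nat_lit 5) (nat_lit 66) (nat_lit 5) (nat_lit 63) (nat_lit 5) (nat_lit 390) (nat_lit 366) (nat_lit 324)) (XT.lf (nat_lit 0) (nat_lit 14162295433) (nat_lit 252) (nat_lit 4538703896) (nat_lit 84) (nat_lit 853653371) (nat_lit 60) (nat_lit 5) (nat_lit 63) (nat_lit 5) (nat_lit 61) (nat_lit 5) (nat_lit 391) (nat_lit 366) (nat_lit 323))))))) (XT.nd (nat_lit 1316) (nat_lit 1848) (nat_lit 0) (XT.nd (nat_lit 658) (nat_lit 1344) (nat_lit 0) (XT.nd (nat_lit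 282) (nat_lit 672) (nat_lit 0) (XT.nd (nat_lit 94) (nat_lit 420) (nat_lit 0) (XT.lf (nat_lit 0) (nat_lit 2994902853) (nat_lit 252) (nat_lit 4423490937) (nat_lit 84) (nat_lit 13076860314) (nat_lit 57) (nat_lit 5) (nat_lit 60) (nat_lit 5) (nat_lit 58) (nat_lit 5) (nat_lit 392) (nat_lit 366) (nat_lit 322)) (XT.nd (nat_lit 94) (nat_lit 252) (nat_lit 0) (XT.lf (nat_lit 0) (nat_lit 12236331704) (nat_lit 252) (nat_lit 4228798216) (nat_lit 84) (nat_lit 5022948244) (nat_lit 55) (nat_lit 5) (nat_lit 58) (nat_lit 5) (nat_lit 56) (nat_lit 5) (nat_lit 393) (nat_lit 366) (nat_lit 321)) (XT.lf (nat_lit 0) (nat_lit 109239095) (nat_lit 252) (nat_lit 3894118971) (nat_lit 84) (nat_lit 18535162732) (nat_lit 52) (nat_lit 5) (nat_lit 55) (nat_lit 5) (nat_lit 53) (nat_lit 5) (nat_lit 394) (nat_lit 366) (nat_lit 320)))) (XT.nd (nat_lit 188) (nat_lit 336) (nat_lit 0) (XT.nd (nat_lit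 94) (nat_lit 168) (nat_lit 0) (XT.lf (nat_lit 0) (nat_lit 10387632286) (nat_lit 252) (nat_lit 3585254871) (nat_lit 84) (nat_lit 9667895042) (nat_lit 50) (nat_lit 5) (nat_lit 53) (nat_lit 5) (nat_lit 51) (nat_lit 5) (nat_lit 395) (nat_lit 366) (nat_lit 319)) (XT.lf (nat_lit 0) (nat_lit 21762667034) (nat_lit 168) (nat_lit 145892868) (nat_lit 252) (nat_lit 2901651461) (nat_lit 48) (nat_lit 5) (nat_lit 50) (nat_lit 5) (nat_lit 51) (nat_lit 5) (nat_lit 396) (nat_lit 366) (nat_lit 318))) (XT.nd (nat_lit 94) (nat_lit 168) (nat_lit 0) (XT.lf (nat_lit 0) (nat_lit 8632310698) (nat_lit 168) (nat_lit 2556744945) (nat_lit 84) (nat_lit 14846712581) (nat_lit 46) (nat_lit 5) (nat_lit 48) (nat_lit 5) (nat_lit 47) (nat_lit 5) (nat_lit 397) (nat_lit 366) (nat_lit 317)) (XT.lf (nat_lit 0) (nat_lit 21456832854) (nat_lit 252) (nat_lit 1849315917) (nat_lit 84) (nat_lit 4027367323)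 (nat_lit 44) (nat_lit 5) (nat_lit 47) (nat_lit 5) (nat_lit 45) (nat_lit 4) (nat_lit 398) (nat_lit 366) (nat_lit 316))))) (XT.nd (nat_lit 282) (nat_lit 672) (nat_lit 0) (XT.nd (nat_lit 94) (nat_lit 504) (nat_lit 0) (XT.lf (nat_lit 0) (nat_lit 6988622213) (nat_lit 168) (nat_lit 1082666003) (nat_lit 84) (nat_lit 20627327941) (nat_lit 42) (nat_lit 5) (nat_lit 44) (nat_lit 5) (nat_lit 43) (nat_lit 5) (nat_lit 399) (nat_lit 366) (nat_lit 315)) (XT.nd (nat_lit 94) (nat_lit 336) (nat_lit 0) (XT.lf (nat_lit 0) (nat_lit 21274228675) (nat_lit 252) (nat_lit 176669288) (nat_lit 84) (nat_lit 8687360964) (nat_lit 40) (nat_lit 5) (nat_lit 43) (nat_lit 5) (nat_lit 41) (nat_lit 4) (nat_lit 400) (nat_lit 366) (nat_lit 314)) (XT.lf (nat_lit 0) (nat_lit 937914353) (nat_lit 168) (nat_lit 4554251936) (nat_lit 252) (nat_lit 26164851396) (nat_lit 36) (nat_lit 5) (nat_lit 38) (nat_lit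 5) (nat_lit 39) (nat_lit 5) (nat_lit 401) (nat_lit 366) (nat_lit 313)))) (XT.nd (nat_lit 188) (nat_lit 336) (nat_lit 0) (XT.nd (nat_lit 94) (nat_lit 252) (nat_lit 0) (XT.lf (nat_lit 0) (nat_lit 2116566391) (nat_lit 84) (nat_lit 19313189967) (nat_lit 168) (nat_lit 11823082677) (nat_lit 35) (nat_lit 5) (nat_lit 36) (nat_lit 5) (nat_lit 37) (nat_lit 4) (nat_lit 402) (nat_lit 366) (nat_lit 312)) (XT.lf (nat_lit 0) (nat_lit 3613020353) (nat_lit 168) (nat_lit 566650214) (nat_lit 252) (nat_lit 30762244736) (nat_lit 32) (nat_lit 5) (nat_lit 34) (nat_lit 5) (nat_lit 35) (nat_lit 5) (nat_lit 403) (nat_lit 366) (nat_lit 311))) (XT.nd (nat_lit 94) (nat_lit 252) (nat_lit 0) (XT.lf (nat_lit 0) (nat_lit 5077996929) (nat_lit 84) (nat_lit 16869183518) (nat_lit 168) (nat_lit 14764308193) (nat_lit 31) (nat_lit 5) (nat_lit 32) (nat_lit 5) (nat_lit 33) (nat_lit 4) (nat_lit 404)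 (nat_lit 366) (nat_lit 310)) (XT.lf (nat_lit 0) (nat_lit 3124935749) (nat_lit 252) (nat_lit 31645299305) (nat_lit 84) (nat_lit 3815834732) (nat_lit 28) (nat_lit 5) (nat_lit 31) (nat_lit 5) (nat_lit 29) (nat_lit 4) (nat_lit 405) (nat_lit 366) (nat_lit 309)))))) (XT.nd (nat_lit 658) (nat_lit 1008) (nat_lit 0) (XT.nd (nat_lit 282) (nat_lit 504) (nat_lit 0) (XT.nd (nat_lit 94) (nat_lit 252) (nat_lit 0) (XT.lf (nat_lit 0) (nat_lit 8807135344) (nat_lit 84) (nat_lit 14068016077) (nat_lit 168) (nat_lit 17676009027) (nat_lit 27) (nat_lit 5) (nat_lit 28) (nat_lit 5) (nat_lit 29) (nat_lit 4) (nat_lit 406) (nat_lit 366) (nat_lit 308)) (XT.nd (nat_lit 94) (nat_lit 84) (nat_lit 0) (XT.lf (nat_lit 0) (nat_lit 2319209952) (nat_lit 168) (nat_lit 31550193279) (nat_lit 84) (nat_lit 8761043491) (nat_lit 25) (nat_lit 5) (nat_lit 27) (nat_lit 5) (nat_lit 26) (nat_lit 4) (nat_lit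 407) (nat_lit 366) (nat_lit 307)) (XT.lf (nat_lit 0) (nat_lit 13425259277) (nat_lit 84) (nat_lit 10847338421) (nat_lit 168) (nat_lit 20540098042) (nat_lit 24) (nat_lit 5) (nat_lit 25) (nat_lit 5) (nat_lit 26) (nat_lit 4) (nat_lit 408) (nat_lit 366) (nat_lit 306)))) (XT.nd (nat_lit 188) (nat_lit 252) (nat_lit 0) (XT.nd (nat_lit 94) (nat_lit 84) (nat_lit 0) (XT.lf (nat_lit 0) (nat_lit 1795292212) (nat_lit 168) (nat_lit 30948613584) (nat_lit 84) (nat_lit 14374555788) (nat_lit 22) (nat_lit 5) (nat_lit 24) (nat_lit 5) (nat_lit 23) (nat_lit 4) (nat_lit 409) (nat_lit 366) (nat_lit 305)) (XT.lf (nat_lit 0) (nat_lit 19071621317) (nat_lit 84) (nat_lit 7135333098) (nat_lit 168) (nat_lit 23334444848) (nat_lit 21) (nat_lit 5) (nat_lit 22) (nat_lit 5) (nat_lit 23) (nat_lit 4) (nat_lit 410) (nat_lit 366) (nat_lit 304))) (XT.nd (nat_lit 94) (nat_lit 84) (nat_lit 0) (XT.lf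 (nat_lit 0) (nat_lit 1601568948) (nat_lit 168) (nat_lit 29740168723) (nat_lit 84) (nat_lit 20756040487) (nat_lit 19) (nat_lit 5) (nat_lit 21) (nat_lit 5) (nat_lit 20) (nat_lit 4) (nat_lit 411) (nat_lit 366) (nat_lit 303)) (XT.lf (nat_lit 0) (nat_lit 25905783990) (nat_lit 84) (nat_lit 2849580916) (nat_lit 168) (nat_lit 26032154548) (nat_lit 18) (nat_lit 5) (nat_lit 19) (nat_lit 5) (nat_lit 20) (nat_lit 4) (nat_lit 412) (nat_lit 366) (nat_lit 302))))) (XT.nd (nat_lit 376) (nat_lit 504) (nat_lit 0) (XT.nd (nat_lit 188) (nat_lit 252) (nat_lit 0) (XT.nd (nat_lit 94) (nat_lit 84) (nat_lit 0) (XT.lf (nat_lit 0) (nat_lit 1794180089) (nat_lit 168) (nat_lit 27808227285) (nat_lit 84) (nat_lit 28018848651) (nat_lit 16) (nat_lit 5) (nat_lit 18) (nat_lit 5) (nat_lit 17) (nat_lit 4) (nat_lit 413) (nat_lit 366) (nat_lit 301)) (XT.lf (nat_lit 0) (nat_lit 32038877120) (nat_lit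 168) (nat_lit 26529364535) (nat_lit 0) (nat_lit 2036897260) (nat_lit 15) (nat_lit 5) (nat_lit 17) (nat_lit 4) (nat_lit 15) (nat_lit 4) (nat_lit 414) (nat_lit 366) (nat_lit 300))) (XT.nd (nat_lit 94) (nat_lit 84) (nat_lit 0) (XT.lf (nat_lit 0) (nat_lit 2438155767) (nat_lit 168) (nat_lit 25017677982) (nat_lit 84) (nat_lit 36291677444) (nat_lit 13) (nat_lit 5) (nat_lit 15) (nat_lit 5) (nat_lit 14) (nat_lit 4) (nat_lit 415) (nat_lit 366) (nat_lit 299)) (XT.lf (nat_lit 0) (nat_lit 36181991758) (nat_lit 168) (nat_lit 23289722129) (nat_lit 0) (nat_lit 7583150015) (nat_lit 12) (nat_lit 5) (nat_lit 14) (nat_lit 4) (nat_lit 12) (nat_lit 4) (nat_lit 416) (nat_lit 366) (nat_lit 298)))) (XT.nd (nat_lit 188) (nat_lit 252) (nat_lit 0) (XT.nd (nat_lit 94) (nat_lit 84) (nat_lit 0) (XT.lf (nat_lit 0) (nat_lit 3608694688) (nat_lit 168) (nat_lit 21212381409) (nat_lit 84) (nat_lit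 45720462081) (nat_lit 10) (nat_lit 5) (nat_lit 12) (nat_lit 5) (nat_lit 11) (nat_lit 4) (nat_lit 417) (nat_lit 366) (nat_lit 297)) (XT.lf (nat_lit 0) (nat_lit 41257134290) (nat_lit 168) (nat_lit 18950908809) (nat_lit 0) (nat_lit 13999298540) (nat_lit 9) (nat_lit 5) (nat_lit 11) (nat_lit 4) (nat_lit 9) (nat_lit 4) (nat_lit 418) (nat_lit 366) (nat_lit 296))) (XT.nd (nat_lit 94) (nat_lit 84) (nat_lit 0) (XT.lf (nat_lit 0) (nat_lit 5392604146) (nat_lit 168) (nat_lit 16212275922) (nat_lit 84) (nat_lit 56470520039) (nat_lit 7) (nat_lit 5) (nat_lit 9) (nat_lit 5) (nat_lit 8) (nat_lit 4) (nat_lit 419) (nat_lit 366) (nat_lit 295)) (XT.lf (nat_lit 0) (nat_lit 47397630648) (nat_lit 168) (nat_lit 13320036003) (nat_lit 0) (nat_lit 21420767992) (nat_lit 6) (nat_lit 5) (nat_lit 8) (nat_lit 4) (nat_lit 6) (nat_lit 4) (nat_lit 420) (nat_lit 366) (nat_lit 294))))))))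
noncomputable def xc102 : XT := (XT.nd (nat_lit 2632) (nat_lit 0) (nat_lit 0) (XT.nd (nat_lit 1316) (nat_lit 0) (nat_lit 0) (XT.nd (nat_lit 658) (nat_lit 0) (nat_lit 0) (XT.nd (nat_lit 282) (nat_lit 84) (nat_lit 0) (XT.nd (nat_lit 94) (nat_lit 252) (nat_lit 0) (XT.lf (nat_lit 0) (nat_lit 7889923795) (nat_lit 168) (nat_lit 9810095034) (nat_lit 84) (nat_lit 68728975369) (nat_lit 4) (nat_lit 5) (nat_lit 6) (nat_lit 5) (nat_lit 5) (nat_lit 4) (nat_lit 421) (nat_lit 366) (nat_lit 293)) (XT.nd (nat_lit 94) (nat_lit 168) (nat_lit 0) (XT.lf (nat_lit 0) (nat_lit 54755385975) (nat_lit 168) (nat_lit 6175244765) (nat_lit 0) (nat_lit 30001620472) (nat_lit 3) (nat_lit 5) (nat_lit 5) (nat_lit 4) (nat_lit 3) (nat_lit 4) (nat_lit 422) (nat_lit 366) (nat_lit 292)) (XT.lf (nat_lit 0) (nat_lit 11215757750) (nat_lit 168) (nat_lit 1767648148) (nat_lit 84) (nat_lit 82707494828)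 (nat_lit 1) (nat_lit 5) (nat_lit 3) (nat_lit 5) (nat_lit 2) (nat_lit 4) (nat_lit 423) (nat_lit 366) (nat_lit 291)))) (XT.nd (nat_lit 188) (nat_lit 0) (nat_lit 0) (XT.nd (nat_lit 94) (nat_lit 0) (nat_lit 0) (XT.lf (nat_lit 0) (nat_lit 149626530906) (nat_lit 0) (nat_lit 0) (nat_lit 0) (nat_lit 0) (nat_lit 0) (nat_lit 0) (nat_lit 1) (nat_lit 0) (nat_lit 1) (nat_lit 0) (nat_lit 424) (nat_lit 366) (nat_lit 290)) (XT.lf (nat_lit 0) (nat_lit 161459585137) (nat_lit 0) (nat_lit 0) (nat_lit 0) (nat_lit 0) (nat_lit 0) (nat_lit 0) (nat_lit 1) (nat_lit 0) (nat_lit 1) (nat_lit 0) (nat_lit 425) (nat_lit 366) (nat_lit 289))) (XT.nd (nat_lit 94) (nat_lit 0) (nat_lit 0) (XT.lf (nat_lit 0) (nat_lit 174239339764) (nat_lit 0) (nat_lit 0) (nat_lit 0) (nat_lit 0) (nat_lit 0) (nat_lit 0) (nat_lit 1) (nat_lit 0) (nat_lit 1) (nat_lit 0) (nat_lit 426) (nat_lit 366) (nat_lit 288)) (XT.lf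 (nat_lit 0) (nat_lit 188041526667) (nat_lit 0) (nat_lit 0) (nat_lit 0) (nat_lit 0) (nat_lit 0) (nat_lit 0) (nat_lit 1) (nat_lit 0) (nat_lit 1) (nat_lit 0) (nat_lit 427) (nat_lit 366) (nat_lit 287))))) (XT.nd (nat_lit 282) (nat_lit 0) (nat_lit 0) (XT.nd (nat_lit 94) (nat_lit 0) (nat_lit 0) (XT.lf (nat_lit 0) (nat_lit 202947936582) (nat_lit 0) (nat_lit 0) (nat_lit 0) (nat_lit 0) (nat_lit 0) (nat_lit 0) (nat_lit 1) (nat_lit 0) (nat_lit 1) (nat_lit 0) (nat_lit 428) (nat_lit 366) (nat_lit 286)) (XT.nd (nat_lit 94) (nat_lit 0) (nat_lit 0) (XT.lf (nat_lit 0) (nat_lit 219046903790) (nat_lit 0) (nat_lit 0) (nat_lit 0) (nat_lit 0) (nat_lit 0) (nat_lit 0) (nat_lit 1) (nat_lit 0) (nat_lit 1) (nat_lit 0) (nat_lit 429) (nat_lit 366) (nat_lit 285)) (XT.lf (nat_lit 0) (nat_lit 236433829579) (nat_lit 0) (nat_lit 0) (nat_lit 0) (nat_lit 0) (nat_lit 0) (nat_lit 0) (nat_lit 1)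 (nat_lit 0) (nat_lit 1) (nat_lit 0) (nat_lit 430) (nat_lit 366) (nat_lit 284)))) (XT.nd (nat_lit 188) (nat_lit 0) (nat_lit 0) (XT.nd (nat_lit 94) (nat_lit 0) (nat_lit 0) (XT.lf (nat_lit 0) (nat_lit 255211747582) (nat_lit 0) (nat_lit 0) (nat_lit 0) (nat_lit 0) (nat_lit 0) (nat_lit 0) (nat_lit 1) (nat_lit 0) (nat_lit 1) (nat_lit 0) (nat_lit 431) (nat_lit 366) (nat_lit 283)) (XT.lf (nat_lit 0) (nat_lit 275491934352) (nat_lit 0) (nat_lit 0) (nat_lit 0) (nat_lit 0) (nat_lit 0) (nat_lit 0) (nat_lit 1) (nat_lit 0) (nat_lit 1) (nat_lit 0) (nat_lit 432) (nat_lit 366) (nat_lit 282))) (XT.nd (nat_lit 94) (nat_lit 0) (nat_lit 0) (XT.lf (nat_lit 0) (nat_lit 297394568772) (nat_lit 0) (nat_lit 0) (nat_lit 0) (nat_lit 0) (nat_lit 0) (nat_lit 0) (nat_lit 1) (nat_lit 0) (nat_lit 1) (nat_lit 0) (nat_lit 433) (nat_lit 366) (nat_lit 281)) (XT.lf (nat_lit 0) (nat_lit 321049444232)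 (nat_lit 0) (nat_lit 0) (nat_lit 0) (nat_lit 0) (nat_lit 0) (nat_lit 0) (nat_lit 1) (nat_lit 0) (nat_lit 1) (nat_lit 0) (nat_lit 434) (nat_lit 366) (nat_lit 280)))))) (XT.nd (nat_lit 658) (nat_lit 0) (nat_lit 0) (XT.nd (nat_lit 282) (nat_lit 0) (nat_lit 0) (XT.nd (nat_lit 94) (nat_lit 0) (nat_lit 0) (XT.lf (nat_lit 0) (nat_lit 346596737771) (nat_lit 0) (nat_lit 0) (nat_lit 0) (nat_lit 0) (nat_lit 0) (nat_lit 0) (nat_lit 1) (nat_lit 0) (nat_lit 1) (nat_lit 0) (nat_lit 435) (nat_lit 366) (nat_lit 279)) (XT.nd (nat_lit 94) (nat_lit 0) (nat_lit 0) (XT.lf (nat_lit 0) (nat_lit 374187840758) (nat_lit 0) (nat_lit 0) (nat_lit 0) (nat_lit 0) (nat_lit 0) (nat_lit 0) (nat_lit 1) (nat_lit 0) (nat_lit 1) (nat_lit 0) (nat_lit 436) (nat_lit 366) (nat_lit 278)) (XT.lf (nat_lit 0) (nat_lit 403986256027) (nat_lit 0) (nat_lit 0) (nat_lit 0) (nat_lit 0) (nat_lit 0) (nat_lit 0)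 (nat_lit 1) (nat_lit 0) (nat_lit 1) (nat_lit 0) (nat_lit 437) (nat_lit 366) (nat_lit 277)))) (XT.nd (nat_lit 188) (nat_lit 0) (nat_lit 0) (XT.nd (nat_lit 94) (nat_lit 0) (nat_lit 0) (XT.lf (nat_lit 0) (nat_lit 436168566778) (nat_lit 0) (nat_lit 0) (nat_lit 0) (nat_lit 0) (nat_lit 0) (nat_lit 0) (nat_lit 1) (nat_lit 0) (nat_lit 1) (nat_lit 0) (nat_lit 438) (nat_lit 366) (nat_lit 276)) (XT.lf (nat_lit 0) (nat_lit 470925483002) (nat_lit 0) (nat_lit 0) (nat_lit 0) (nat_lit 0) (nat_lit 0) (nat_lit 0) (nat_lit 1) (nat_lit 0) (nat_lit 1) (nat_lit 0) (nat_lit 439) (nat_lit 366) (nat_lit 275))) (XT.nd (nat_lit 94) (nat_lit 0) (nat_lit 0) (XT.lf (nat_lit 0) (nat_lit 508462971609) (nat_lit 0) (nat_lit 0) (nat_lit 0) (nat_lit 0) (nat_lit 0) (nat_lit 0) (nat_lit 1) (nat_lit 0) (nat_lit 1) (nat_lit 0) (nat_lit 440) (nat_lit 366) (nat_lit 274)) (XT.lf (nat_lit 0) (nat_lit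 549003476976) (nat_lit 0) (nat_lit 0) (nat_lit 0) (nat_lit 0) (nat_lit 0) (nat_lit 0) (nat_lit 1) (nat_lit 0) (nat_lit 1) (nat_lit 0) (nat_lit 441) (nat_lit 366) (nat_lit 273))))) (XT.nd (nat_lit 282) (nat_lit 0) (nat_lit 0) (XT.nd (nat_lit 94) (nat_lit 0) (nat_lit 0) (XT.lf (nat_lit 0) (nat_lit 592787239135) (nat_lit 0) (nat_lit 0) (nat_lit 0) (nat_lit 0) (nat_lit 0) (nat_lit 0) (nat_lit 1) (nat_lit 0) (nat_lit 1) (nat_lit 0) (nat_lit 442) (nat_lit 366) (nat_lit 272)) (XT.nd (nat_lit 94) (nat_lit 0) (nat_lit 0) (XT.lf (nat_lit 0) (nat_lit 640073717418) (nat_lit 0) (nat_lit 0) (nat_lit 0) (nat_lit 0) (nat_lit 0) (nat_lit 0) (nat_lit 1) (nat_lit 0) (nat_lit 1) (nat_lit 0) (nat_lit 443) (nat_lit 366) (nat_lit 271)) (XT.lf (nat_lit 0) (nat_lit 691143127991) (nat_lit 0) (nat_lit 0) (nat_lit 0) (nat_lit 0) (nat_lit 0) (nat_lit 0) (nat_lit 1) (nat_lit 0) (nat_lit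 1) (nat_lit 0) (nat_lit 444) (nat_lit 366) (nat_lit 270)))) (XT.nd (nat_lit 188) (nat_lit 0) (nat_lit 0) (XT.nd (nat_lit 94) (nat_lit 0) (nat_lit 0) (XT.lf (nat_lit 0) (nat_lit 746298104399) (nat_lit 0) (nat_lit 0) (nat_lit 0) (nat_lit 0) (nat_lit 0) (nat_lit 0) (nat_lit 1) (nat_lit 0) (nat_lit 1) (nat_lit 0) (nat_lit 445) (nat_lit 366) (nat_lit 269)) (XT.lf (nat_lit 0) (nat_lit 805865490947) (nat_lit 0) (nat_lit 0) (nat_lit 0) (nat_lit 0) (nat_lit 0) (nat_lit 0) (nat_lit 1) (nat_lit 0) (nat_lit 1) (nat_lit 0) (nat_lit 446) (nat_lit 366) (nat_lit 268))) (XT.nd (nat_lit 94) (nat_lit 0) (nat_lit 0) (XT.lf (nat_lit 0) (nat_lit 870198279555) (nat_lit 0) (nat_lit 0) (nat_lit 0) (nat_lit 0) (nat_lit 0) (nat_lit 0) (nat_lit 1) (nat_lit 0) (nat_lit 1) (nat_lit 0) (nat_lit 447) (nat_lit 366) (nat_lit 267)) (XT.lf (nat_lit 0) (nat_lit 939677701563) (nat_lit 0) (nat_lit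 0) (nat_lit 0) (nat_lit 0) (nat_lit 0) (nat_lit 0) (nat_lit 1) (nat_lit 0) (nat_lit 1) (nat_lit 0) (nat_lit 448) (nat_lit 366) (nat_lit 266))))))) (XT.nd (nat_lit 1316) (nat_lit 0) (nat_lit 0) (XT.nd (nat_lit 658) (nat_lit 0) (nat_lit 0) (XT.nd (nat_lit 282) (nat_lit 0) (nat_lit 0) (XT.nd (nat_lit 94) (nat_lit 0) (nat_lit 0) (XT.lf (nat_lit 0) (nat_lit 1014715486878) (nat_lit 0) (nat_lit 0) (nat_lit 0) (nat_lit 0) (nat_lit 0) (nat_lit 0) (nat_lit 1) (nat_lit 0) (nat_lit 1) (nat_lit 0) (nat_lit 449) (nat_lit 366) (nat_lit 265)) (XT.nd (nat_lit 94) (nat_lit 0) (nat_lit 0) (XT.lf (nat_lit 0) (nat_lit 1095756303860) (nat_lit 0) (nat_lit 0) (nat_lit 0) (nat_lit 0) (nat_lit 0) (nat_lit 0) (nat_lit 1) (nat_lit 0) (nat_lit 1) (nat_lit 0) (nat_lit 450) (nat_lit 366) (nat_lit 264)) (XT.lf (nat_lit 0) (nat_lit 1183280394385) (nat_lit 0) (nat_lit 0) (nat_lit 0) (nat_lit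 0) (nat_lit 0) (nat_lit 0) (nat_lit 1) (nat_lit 0) (nat_lit 1) (nat_lit 0) (nat_lit 451) (nat_lit 366) (nat_lit 263)))) (XT.nd (nat_lit 188) (nat_lit 0) (nat_lit 0) (XT.nd (nat_lit 94) (nat_lit 0) (nat_lit 0) (XT.lf (nat_lit 0) (nat_lit 1277806419731) (nat_lit 0) (nat_lit 0) (nat_lit 0) (nat_lit 0) (nat_lit 0) (nat_lit 0) (nat_lit 1) (nat_lit 0) (nat_lit 1) (nat_lit 0) (nat_lit 452) (nat_lit 366) (nat_lit 262)) (XT.lf (nat_lit 0) (nat_lit 1379894534123) (nat_lit 0) (nat_lit 0) (nat_lit 0) (nat_lit 0) (nat_lit 0) (nat_lit 0) (nat_lit 1) (nat_lit 0) (nat_lit 1) (nat_lit 0) (nat_lit 453) (nat_lit 366) (nat_lit 261))) (XT.nd (nat_lit 94) (nat_lit 0) (nat_lit 0) (XT.lf (nat_lit 0) (nat_lit 1490149704163) (nat_lit 0) (nat_lit 0) (nat_lit 0) (nat_lit 0) (nat_lit 0) (nat_lit 0) (nat_lit 1) (nat_lit 0) (nat_lit 1) (nat_lit 0) (nat_lit 454) (nat_lit 366) (nat_lit 260))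 (XT.lf (nat_lit 0) (nat_lit 1609225293824) (nat_lit 0) (nat_lit 0) (nat_lit 0) (nat_lit 0) (nat_lit 0) (nat_lit 0) (nat_lit 1) (nat_lit 0) (nat_lit 1) (nat_lit 0) (nat_lit 455) (nat_lit 366) (nat_lit 259))))) (XT.nd (nat_lit 282) (nat_lit 0) (nat_lit 0) (XT.nd (nat_lit 94) (nat_lit 0) (nat_lit 0) (XT.lf (nat_lit 0) (nat_lit 1737826936228) (nat_lit 0) (nat_lit 0) (nat_lit 0) (nat_lit 0) (nat_lit 0) (nat_lit 0) (nat_lit 1) (nat_lit 0) (nat_lit 1) (nat_lit 0) (nat_lit 456) (nat_lit 366) (nat_lit 258)) (XT.nd (nat_lit 94) (nat_lit 0) (nat_lit 0) (XT.lf (nat_lit 0) (nat_lit 1876716715183) (nat_lit 0) (nat_lit 0) (nat_lit 0) (nat_lit 0) (nat_lit 0) (nat_lit 0) (nat_lit 1) (nat_lit 0) (nat_lit 1) (nat_lit 0) (nat_lit 457) (nat_lit 366) (nat_lit 257)) (XT.lf (nat_lit 0) (nat_lit 2026717681230) (nat_lit 0) (nat_lit 0) (nat_lit 0) (nat_lit 0) (nat_lit 0) (nat_lit 0)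 (nat_lit 1) (nat_lit 0) (nat_lit 1) (nat_lit 0) (nat_lit 458) (nat_lit 366) (nat_lit 256)))) (XT.nd (nat_lit 188) (nat_lit 0) (nat_lit 0) (XT.nd (nat_lit 94) (nat_lit 0) (nat_lit 0) (XT.lf (nat_lit 0) (nat_lit 2188718728983) (nat_lit 0) (nat_lit 0) (nat_lit 0) (nat_lit 0) (nat_lit 0) (nat_lit 0) (nat_lit 1) (nat_lit 0) (nat_lit 1) (nat_lit 0) (nat_lit 459) (nat_lit 366) (nat_lit 255)) (XT.lf (nat_lit 0) (nat_lit 2363679864651) (nat_lit 0) (nat_lit 0) (nat_lit 0) (nat_lit 0) (nat_lit 0) (nat_lit 0) (nat_lit 1) (nat_lit 0) (nat_lit 1) (nat_lit 0) (nat_lit 460) (nat_lit 366) (nat_lit 254))) (XT.nd (nat_lit 94) (nat_lit 0) (nat_lit 0) (XT.lf (nat_lit 0) (nat_lit 2552637894964) (nat_lit 0) (nat_lit 0) (nat_lit 0) (nat_lit 0) (nat_lit 0) (nat_lit 0) (nat_lit 1) (nat_lit 0) (nat_lit 1) (nat_lit 0) (nat_lit 461) (nat_lit 366) (nat_lit 253)) (XT.lf (nat_lit 0) (nat_lit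 2756712571213) (nat_lit 0) (nat_lit 0) (nat_lit 0) (nat_lit 0) (nat_lit 0) (nat_lit 0) (nat_lit 1) (nat_lit 0) (nat_lit 1) (nat_lit 0) (nat_lit 462) (nat_lit 366) (nat_lit 252)))))) (XT.nd (nat_lit 658) (nat_lit 0) (nat_lit 0) (XT.nd (nat_lit 282) (nat_lit 0) (nat_lit 0) (XT.nd (nat_lit 94) (nat_lit 0) (nat_lit 0) (XT.lf (nat_lit 0) (nat_lit 2977113224812) (nat_lit 0) (nat_lit 0) (nat_lit 0) (nat_lit 0) (nat_lit 0) (nat_lit 0) (nat_lit 1) (nat_lit 0) (nat_lit 1) (nat_lit 0) (nat_lit 463) (nat_lit 366) (nat_lit 251)) (XT.nd (nat_lit 94) (nat_lit 0) (nat_lit 0) (XT.lf (nat_lit 0) (nat_lit 3215145933709) (nat_lit 0) (nat_lit 0) (nat_lit 0) (nat_lit 0) (nat_lit 0) (nat_lit 0) (nat_lit 1) (nat_lit 0) (nat_lit 1) (nat_lit 0) (nat_lit 464) (nat_lit 366) (nat_lit 250)) (XT.lf (nat_lit 0) (nat_lit 3472221262104) (nat_lit 0) (nat_lit 0) (nat_lit 0) (nat_lit 0) (nat_lit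 0) (nat_lit 0) (nat_lit 1) (nat_lit 0) (nat_lit 1) (nat_lit 0) (nat_lit 465) (nat_lit 366) (nat_lit 249)))) (XT.nd (nat_lit 188) (nat_lit 0) (nat_lit 0) (XT.nd (nat_lit 94) (nat_lit 0) (nat_lit 0) (XT.lf (nat_lit 0) (nat_lit 3749862619351) (nat_lit 0) (nat_lit 0) (nat_lit 0) (nat_lit 0) (nat_lit 0) (nat_lit 0) (nat_lit 1) (nat_lit 0) (nat_lit 1) (nat_lit 0) (nat_lit 466) (nat_lit 366) (nat_lit 248)) (XT.lf (nat_lit 0) (nat_lit 4049715287567) (nat_lit 0) (nat_lit 0) (nat_lit 0) (nat_lit 0) (nat_lit 0) (nat_lit 0) (nat_lit 1) (nat_lit 0) (nat_lit 1) (nat_lit 0) (nat_lit 467) (nat_lit 366) (nat_lit 247))) (XT.nd (nat_lit 94) (nat_lit 0) (nat_lit 0) (XT.lf (nat_lit 0) (nat_lit 4373556171453) (nat_lit 0) (nat_lit 0) (nat_lit 0) (nat_lit 0) (nat_lit 0) (nat_lit 0) (nat_lit 1) (nat_lit 0) (nat_lit 1) (nat_lit 0) (nat_lit 468) (nat_lit 366) (nat_lit 246)) (XT.lf (nat_lit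 0) (nat_lit 4723304328098) (nat_lit 0) (nat_lit 0) (nat_lit 0) (nat_lit 0) (nat_lit 0) (nat_lit 0) (nat_lit 1) (nat_lit 0) (nat_lit 1) (nat_lit 0) (nat_lit 469) (nat_lit 366) (nat_lit 245))))) (XT.nd (nat_lit 376) (nat_lit 0) (nat_lit 0) (XT.nd (nat_lit 188) (nat_lit 0) (nat_lit 0) (XT.nd (nat_lit 94) (nat_lit 0) (nat_lit 0) (XT.lf (nat_lit 0) (nat_lit 5101032339172) (nat_lit 0) (nat_lit 0) (nat_lit 0) (nat_lit 0) (nat_lit 0) (nat_lit 0) (nat_lit 1) (nat_lit 0) (nat_lit 1) (nat_lit 0) (nat_lit 470) (nat_lit 366) (nat_lit 244)) (XT.lf (nat_lit 0) (nat_lit 5508978592887) (nat_lit 0) (nat_lit 0) (nat_lit 0) (nat_lit 0) (nat_lit 0) (nat_lit 0) (nat_lit 1) (nat_lit 0) (nat_lit 1) (nat_lit 0) (nat_lit 471) (nat_lit 366) (nat_lit 243))) (XT.nd (nat_lit 94) (nat_lit 0) (nat_lit 0) (XT.lf (nat_lit 0) (nat_lit 5949560548526) (nat_lit 0) (nat_lit 0) (nat_lit 0) (nat_lit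 0) (nat_lit 0) (nat_lit 0) (nat_lit 1) (nat_lit 0) (nat_lit 1) (nat_lit 0) (nat_lit 472) (nat_lit 366) (nat_lit 242)) (XT.lf (nat_lit 0) (nat_lit 6425389062121) (nat_lit 0) (nat_lit 0) (nat_lit 0) (nat_lit 0) (nat_lit 0) (nat_lit 0) (nat_lit 1) (nat_lit 0) (nat_lit 1) (nat_lit 0) (nat_lit 473) (nat_lit 366) (nat_lit 241)))) (XT.nd (nat_lit 188) (nat_lit 0) (nat_lit 0) (XT.nd (nat_lit 94) (nat_lit 0) (nat_lit 0) (XT.lf (nat_lit 0) (nat_lit 6939283858198) (nat_lit 0) (nat_lit 0) (nat_lit 0) (nat_lit 0) (nat_lit 0) (nat_lit 0) (nat_lit 1) (nat_lit 0) (nat_lit 1) (nat_lit 0) (nat_lit 474) (nat_lit 366) (nat_lit 240)) (XT.lf (nat_lit 0) (nat_lit 7494290239253) (nat_lit 0) (nat_lit 0) (nat_lit 0) (nat_lit 0) (nat_lit 0) (nat_lit 0) (nat_lit 1) (nat_lit 0) (nat_lit 1) (nat_lit 0) (nat_lit 475) (nat_lit 366) (nat_lit 239))) (XT.nd (nat_lit 94) (nat_lit 0) (nat_lit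 0) (XT.lf (nat_lit 0) (nat_lit 8093697131986) (nat_lit 0) (nat_lit 0) (nat_lit 0) (nat_lit 0) (nat_lit 0) (nat_lit 0) (nat_lit 1) (nat_lit 0) (nat_lit 1) (nat_lit 0) (nat_lit 476) (nat_lit 366) (nat_lit 238)) (XT.lf (nat_lit 0) (nat_lit 8741056577245) (nat_lit 0) (nat_lit 0) (nat_lit 0) (nat_lit 0) (nat_lit 0) (nat_lit 0) (nat_lit 1) (nat_lit 0) (nat_lit 1) (nat_lit 0) (nat_lit 477) (nat_lit 366) (nat_lit 237))))))))
noncomputable def xc103 : XT := (XT.nd (nat_lit 57716) (nat_lit 0) (nat_lit 3696) (XT.nd (nat_lit 1316) (nat_lit 0) (nat_lit 0) (XT.nd (nat_lit 658) (nat_lit 0) (nat_lit 0) (XT.nd (nat_lit 282) (nat_lit 0) (nat_lit 0) (XT.nd (nat_lit 94) (nat_lit 0) (nat_lit 0) (XT.lf (nat_lit 0) (nat_lit 9440204779150) (nat_lit 0) (nat_lit 0) (nat_lit 0) (nat_lit 0) (nat_lit 0) (nat_lit 0) (nat_lit 1) (nat_lit 0) (nat_lit 1) (nat_lit 0) (nat_lit 478) (nat_lit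 366) (nat_lit 236)) (XT.nd (nat_lit 94) (nat_lit 0) (nat_lit 0) (XT.lf (nat_lit 0) (nat_lit 10195284838156) (nat_lit 0) (nat_lit 0) (nat_lit 0) (nat_lit 0) (nat_lit 0) (nat_lit 0) (nat_lit 1) (nat_lit 0) (nat_lit 1) (nat_lit 0) (nat_lit 479) (nat_lit 366) (nat_lit 235)) (XT.lf (nat_lit 0) (nat_lit 11010771302760) (nat_lit 0) (nat_lit 0) (nat_lit 0) (nat_lit 0) (nat_lit 0) (nat_lit 0) (nat_lit 1) (nat_lit 0) (nat_lit 1) (nat_lit 0) (nat_lit 480) (nat_lit 366) (nat_lit 234)))) (XT.nd (nat_lit 188) (nat_lit 0) (nat_lit 0) (XT.nd (nat_lit 94) (nat_lit 0) (nat_lit 0) (XT.lf (nat_lit 0) (nat_lit 11891496685347) (nat_lit 0) (nat_lit 0) (nat_lit 0) (nat_lit 0) (nat_lit 0) (nat_lit 0) (nat_lit 1) (nat_lit 0) (nat_lit 1) (nat_lit 0) (nat_lit 481) (nat_lit 366) (nat_lit 233)) (XT.lf (nat_lit 0) (nat_lit 12842680099293) (nat_lit 0) (nat_lit 0) (nat_lit 0) (nat_lit 0)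 (nat_lit 0) (nat_lit 0) (nat_lit 1) (nat_lit 0) (nat_lit 1) (nat_lit 0) (nat_lit 482) (nat_lit 366) (nat_lit 232))) (XT.nd (nat_lit 94) (nat_lit 0) (nat_lit 0) (XT.lf (nat_lit 0) (nat_lit 13869958187053) (nat_lit 0) (nat_lit 0) (nat_lit 0) (nat_lit 0) (nat_lit 0) (nat_lit 0) (nat_lit 1) (nat_lit 0) (nat_lit 1) (nat_lit 0) (nat_lit 483) (nat_lit 366) (nat_lit 231)) (XT.lf (nat_lit 0) (nat_lit 14979418522479) (nat_lit 0) (nat_lit 0) (nat_lit 0) (nat_lit 0) (nat_lit 0) (nat_lit 0) (nat_lit 1) (nat_lit 0) (nat_lit 1) (nat_lit 0) (nat_lit 484) (nat_lit 366) (nat_lit 230))))) (XT.nd (nat_lit 282) (nat_lit 0) (nat_lit 0) (XT.nd (nat_lit 94) (nat_lit 0) (nat_lit 0) (XT.lf (nat_lit 0) (nat_lit 16177635685337) (nat_lit 0) (nat_lit 0) (nat_lit 0) (nat_lit 0) (nat_lit 0) (nat_lit 0) (nat_lit 1) (nat_lit 0) (nat_lit 1) (nat_lit 0) (nat_lit 485) (nat_lit 366) (nat_lit 229))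 (XT.nd (nat_lit 94) (nat_lit 0) (nat_lit 0) (XT.lf (nat_lit 0) (nat_lit 17471710221778) (nat_lit 0) (nat_lit 0) (nat_lit 0) (nat_lit 0) (nat_lit 0) (nat_lit 0) (nat_lit 1) (nat_lit 0) (nat_lit 1) (nat_lit 0) (nat_lit 486) (nat_lit 366) (nat_lit 228)) (XT.lf (nat_lit 0) (nat_lit 18869310721646) (nat_lit 0) (nat_lit 0) (nat_lit 0) (nat_lit 0) (nat_lit 0) (nat_lit 0) (nat_lit 1) (nat_lit 0) (nat_lit 1) (nat_lit 0) (nat_lit 487) (nat_lit 366) (nat_lit 227)))) (XT.nd (nat_lit 188) (nat_lit 0) (nat_lit 0) (XT.nd (nat_lit 94) (nat_lit 0) (nat_lit 0) (XT.lf (nat_lit 0) (nat_lit 20378719261978) (nat_lit 0) (nat_lit 0) (nat_lit 0) (nat_lit 0) (nat_lit 0) (nat_lit 0) (nat_lit 1) (nat_lit 0) (nat_lit 1) (nat_lit 0) (nat_lit 488) (nat_lit 366) (nat_lit 226)) (XT.lf (nat_lit 0) (nat_lit 22008880485977) (nat_lit 0) (nat_lit 0) (nat_lit 0) (nat_lit 0) (nat_lit 0) (nat_lit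 0) (nat_lit 1) (nat_lit 0) (nat_lit 1) (nat_lit 0) (nat_lit 489) (nat_lit 366) (nat_lit 225))) (XT.nd (nat_lit 94) (nat_lit 0) (nat_lit 0) (XT.lf (nat_lit 0) (nat_lit 23769454608302) (nat_lit 0) (nat_lit 0) (nat_lit 0) (nat_lit 0) (nat_lit 0) (nat_lit 0) (nat_lit 1) (nat_lit 0) (nat_lit 1) (nat_lit 0) (nat_lit 490) (nat_lit 366) (nat_lit 224)) (XT.lf (nat_lit 0) (nat_lit 25670874660790) (nat_lit 0) (nat_lit 0) (nat_lit 0) (nat_lit 0) (nat_lit 0) (nat_lit 0) (nat_lit 1) (nat_lit 0) (nat_lit 1) (nat_lit 0) (nat_lit 491) (nat_lit 366) (nat_lit 223)))))) (XT.nd (nat_lit 658) (nat_lit 0) (nat_lit 0) (XT.nd (nat_lit 282) (nat_lit 0) (nat_lit 0) (XT.nd (nat_lit 94) (nat_lit 0) (nat_lit 0) (XT.lf (nat_lit 0) (nat_lit 27724408317826) (nat_lit 0) (nat_lit 0) (nat_lit 0) (nat_lit 0) (nat_lit 0) (nat_lit 0) (nat_lit 1) (nat_lit 0) (nat_lit 1) (nat_lit 0) (nat_lit 492)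 (nat_lit 366) (nat_lit 222)) (XT.nd (nat_lit 94) (nat_lit 0) (nat_lit 0) (XT.lf (nat_lit 0) (nat_lit 29942224667748) (nat_lit 0) (nat_lit 0) (nat_lit 0) (nat_lit 0) (nat_lit 0) (nat_lit 0) (nat_lit 1) (nat_lit 0) (nat_lit 1) (nat_lit 0) (nat_lit 493) (nat_lit 366) (nat_lit 221)) (XT.lf (nat_lit 0) (nat_lit 32337466325963) (nat_lit 0) (nat_lit 0) (nat_lit 0) (nat_lit 0) (nat_lit 0) (nat_lit 0) (nat_lit 1) (nat_lit 0) (nat_lit 1) (nat_lit 0) (nat_lit 494) (nat_lit 366) (nat_lit 220)))) (XT.nd (nat_lit 188) (nat_lit 0) (nat_lit 0) (XT.nd (nat_lit 94) (nat_lit 0) (nat_lit 0) (XT.lf (nat_lit 0) (nat_lit 34924327317111) (nat_lit 0) (nat_lit 0) (nat_lit 0) (nat_lit 0) (nat_lit 0) (nat_lit 0) (nat_lit 1) (nat_lit 0) (nat_lit 1) (nat_lit 0) (nat_lit 495) (nat_lit 366) (nat_lit 219)) (XT.lf (nat_lit 0) (nat_lit 37718137187809) (nat_lit 0) (nat_lit 0) (nat_lit 0) (nat_lit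 0) (nat_lit 0) (nat_lit 0) (nat_lit 1) (nat_lit 0) (nat_lit 1) (nat_lit 0) (nat_lit 496) (nat_lit 366) (nat_lit 218))) (XT.nd (nat_lit 94) (nat_lit 0) (nat_lit 0) (XT.lf (nat_lit 0) (nat_lit 40735451848399) (nat_lit 0) (nat_lit 0) (nat_lit 0) (nat_lit 0) (nat_lit 0) (nat_lit 0) (nat_lit 1) (nat_lit 0) (nat_lit 1) (nat_lit 0) (nat_lit 497) (nat_lit 366) (nat_lit 217)) (XT.lf (nat_lit 0) (nat_lit 43994151682056) (nat_lit 0) (nat_lit 0) (nat_lit 0) (nat_lit 0) (nat_lit 0) (nat_lit 0) (nat_lit 1) (nat_lit 0) (nat_lit 1) (nat_lit 0) (nat_lit 498) (nat_lit 366) (nat_lit 216))))) (XT.nd (nat_lit 55366) (nat_lit 0) (nat_lit 12516) (XT.nd (nat_lit 94) (nat_lit 0) (nat_lit 0) (XT.lf (nat_lit 0) (nat_lit 47513547502610) (nat_lit 0) (nat_lit 0) (nat_lit 0) (nat_lit 0) (nat_lit 0) (nat_lit 0) (nat_lit 1) (nat_lit 0) (nat_lit 1) (nat_lit 0) (nat_lit 499) (nat_lit 366) (nat_lit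 215)) (XT.nd (nat_lit 94) (nat_lit 0) (nat_lit 0) (XT.lf (nat_lit 0) (nat_lit 51314494988997) (nat_lit 0) (nat_lit 0) (nat_lit 0) (nat_lit 0) (nat_lit 0) (nat_lit 0) (nat_lit 1) (nat_lit 0) (nat_lit 1) (nat_lit 0) (nat_lit 500) (nat_lit 366) (nat_lit 214)) (XT.lf (nat_lit 0) (nat_lit 55419518274468) (nat_lit 0) (nat_lit 0) (nat_lit 0) (nat_lit 0) (nat_lit 0) (nat_lit 0) (nat_lit 1) (nat_lit 0) (nat_lit 1) (nat_lit 0) (nat_lit 501) (nat_lit 366) (nat_lit 213)))) (XT.nd (nat_lit 188) (nat_lit 0) (nat_lit 0) (XT.nd (nat_lit 94) (nat_lit 672) (nat_lit 0) (XT.lf (nat_lit 0) (nat_lit 1960330637) (nat_lit 0) (nat_lit 1960330637) (nat_lit 588) (nat_lit 2873117) (nat_lit 157) (nat_lit 5) (nat_lit 157) (nat_lit 3) (nat_lit 164) (nat_lit 3) (nat_lit 367) (nat_lit 367) (nat_lit 346)) (XT.lf (nat_lit 0) (nat_lit 2032115422) (nat_lit 672) (nat_lit 5656318560) (nat_lit 756)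 (nat_lit 370627206) (nat_lit 149) (nat_lit 5) (nat_lit 157) (nat_lit 5) (nat_lit 158) (nat_lit 5) (nat_lit 368) (nat_lit 367) (nat_lit 345))) (XT.nd (nat_lit 94) (nat_lit 0) (nat_lit 84) (XT.lf (nat_lit 84) (nat_lit 936769049) (nat_lit 0) (nat_lit 3246525616) (nat_lit 756) (nat_lit 4107189111) (nat_lit 150) (nat_lit 5) (nat_lit 149) (nat_lit 5) (nat_lit 158) (nat_lit 5) (nat_lit 369) (nat_lit 367) (nat_lit 344)) (XT.lf (nat_lit 0) (nat_lit 6445296729) (nat_lit 672) (nat_lit 427021610) (nat_lit 756) (nat_lit 1671165409) (nat_lit 150) (nat_lit 5) (nat_lit 158) (nat_lit 5) (nat_lit 159) (nat_lit 5) (nat_lit 370) (nat_lit 367) (nat_lit 343))))))) (XT.nd (nat_lit 1316) (nat_lit 3528) (nat_lit 0) (XT.nd (nat_lit 658) (nat_lit 2184) (nat_lit 0) (XT.nd (nat_lit 282) (nat_lit 2436) (nat_lit 0) (XT.nd (nat_lit 94) (nat_lit 0) (nat_lit 84) (XT.lf (nat_lit 0) (nat_lit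 63031973) (nat_lit 756) (nat_lit 1707119146) (nat_lit 840) (nat_lit 7046827439) (nat_lit 141) (nat_lit 5) (nat_lit 150) (nat_lit 5) (nat_lit 151) (nat_lit 5) (nat_lit 371) (nat_lit 367) (nat_lit 342)) (XT.nd (nat_lit 94) (nat_lit 0) (nat_lit 84) (XT.lf (nat_lit 0) (nat_lit 2326891683) (nat_lit 756) (nat_lit 2975186882) (nat_lit 840) (nat_lit 3808391891) (nat_lit 142) (nat_lit 5) (nat_lit 151) (nat_lit 5) (nat_lit 152) (nat_lit 5) (nat_lit 372) (nat_lit 367) (nat_lit 341)) (XT.lf (nat_lit 0) (nat_lit 4769320321) (nat_lit 756) (nat_lit 4177034930) (nat_lit 84) (nat_lit 481213447) (nat_lit 143) (nat_lit 5) (nat_lit 152) (nat_lit 5) (nat_lit 144) (nat_lit 5) (nat_lit 373) (nat_lit 367) (nat_lit 340)))) (XT.nd (nat_lit 188) (nat_lit 924) (nat_lit 0) (XT.nd (nat_lit 94) (nat_lit 924) (nat_lit 0) (XT.lf (nat_lit 0) (nat_lit 4401963736) (nat_lit 756) (nat_lit 3073469189)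 (nat_lit 840) (nat_lit 2291187390) (nat_lit 134) (nat_lit 5) (nat_lit 143) (nat_lit 5) (nat_lit 144) (nat_lit 5) (nat_lit 374) (nat_lit 367) (nat_lit 339)) (XT.lf (nat_lit 0) (nat_lit 305665307) (nat_lit 924) (nat_lit 6507612424) (nat_lit 84) (nat_lit 3316865469) (nat_lit 123) (nat_lit 5) (nat_lit 134) (nat_lit 5) (nat_lit 124) (nat_lit 5) (nat_lit 375) (nat_lit 367) (nat_lit 338))) (XT.nd (nat_lit 94) (nat_lit 420) (nat_lit 0) (XT.lf (nat_lit 0) (nat_lit 2880075200) (nat_lit 504) (nat_lit 215244619) (nat_lit 588) (nat_lit 7422283791) (nat_lit 117) (nat_lit 5) (nat_lit 123) (nat_lit 5) (nat_lit 124) (nat_lit 5) (nat_lit 376) (nat_lit 367) (nat_lit 337)) (XT.lf (nat_lit 0) (nat_lit 2157026903) (nat_lit 420) (nat_lit 4088054193) (nat_lit 504) (nat_lit 4684133039) (nat_lit 112) (nat_lit 5) (nat_lit 117) (nat_lit 5) (nat_lit 118) (nat_lit 5) (nat_lit 377) (nat_lit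 367) (nat_lit 336))))) (XT.nd (nat_lit 282) (nat_lit 1008) (nat_lit 0) (XT.nd (nat_lit 94) (nat_lit 756) (nat_lit 0) (XT.lf (nat_lit 0) (nat_lit 1512073282) (nat_lit 420) (nat_lit 8232364296) (nat_lit 504) (nat_lit 1624435207) (nat_lit 107) (nat_lit 5) (nat_lit 112) (nat_lit 5) (nat_lit 113) (nat_lit 5) (nat_lit 378) (nat_lit 367) (nat_lit 335)) (XT.nd (nat_lit 94) (nat_lit 336) (nat_lit 0) (XT.lf (nat_lit 0) (nat_lit 906132588) (nat_lit 336) (nat_lit 850412974) (nat_lit 420) (nat_lit 10079333118) (nat_lit 102) (nat_lit 5) (nat_lit 106) (nat_lit 5) (nat_lit 107) (nat_lit 5) (nat_lit 379) (nat_lit 367) (nat_lit 334)) (XT.lf (nat_lit 0) (nat_lit 297482788) (nat_lit 336) (nat_lit 5242584916) (nat_lit 420) (nat_lit 6789397079) (nat_lit 98) (nat_lit 5) (nat_lit 102) (nat_lit 5) (nat_lit 103) (nat_lit 5) (nat_lit 380) (nat_lit 367) (nat_lit 333)))) (XT.nd (nat_lit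 188) (nat_lit 588) (nat_lit 0) (XT.nd (nat_lit 94) (nat_lit 420) (nat_lit 0) (XT.lf (nat_lit 0) (nat_lit 9780416574) (nat_lit 420) (nat_lit 220585624) (nat_lit 84) (nat_lit 2853828328) (nat_lit 98) (nat_lit 5) (nat_lit 103) (nat_lit 5) (nat_lit 99) (nat_lit 5) (nat_lit 381) (nat_lit 367) (nat_lit 332)) (XT.lf (nat_lit 0) (nat_lit 1108839566) (nat_lit 420) (nat_lit 686415713) (nat_lit 84) (nat_lit 11616183882) (nat_lit 93) (nat_lit 5) (nat_lit 98) (nat_lit 5) (nat_lit 94) (nat_lit 5) (nat_lit 382) (nat_lit 367) (nat_lit 331))) (XT.nd (nat_lit 94) (nat_lit 252) (nat_lit 0) (XT.lf (nat_lit 0) (nat_lit 5754908582) (nat_lit 420) (nat_lit 1163058309) (nat_lit 84) (nat_lit 7080296199) (nat_lit 89) (nat_lit 5) (nat_lit 94) (nat_lit 5) (nat_lit 90) (nat_lit 5) (nat_lit 383) (nat_lit 367) (nat_lit 330)) (XT.lf (nat_lit 0) (nat_lit 10972181278) (nat_lit 336) (nat_lit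 1545196802) (nat_lit 84) (nat_lit 2104678945) (nat_lit 86) (nat_lit 5) (nat_lit 90) (nat_lit 5) (nat_lit 87) (nat_lit 5) (nat_lit 384) (nat_lit 367) (nat_lit 329)))))) (XT.nd (nat_lit 658) (nat_lit 1512) (nat_lit 0) (XT.nd (nat_lit 282) (nat_lit 1092) (nat_lit 0) (XT.nd (nat_lit 94) (nat_lit 504) (nat_lit 0) (XT.lf (nat_lit 0) (nat_lit 1542539588) (nat_lit 420) (nat_lit 1899345433) (nat_lit 84) (nat_lit 11839174917) (nat_lit 81) (nat_lit 5) (nat_lit 86) (nat_lit 5) (nat_lit 82) (nat_lit 5) (nat_lit 385) (nat_lit 367) (nat_lit 328)) (XT.nd (nat_lit 94) (nat_lit 252) (nat_lit 0) (XT.lf (nat_lit 0) (nat_lit 7296862914) (nat_lit 336) (nat_lit 2242386571) (nat_lit 84) (nat_lit 6436822467) (nat_lit 78) (nat_lit 5) (nat_lit 82) (nat_lit 5) (nat_lit 79) (nat_lit 5) (nat_lit 386) (nat_lit 367) (nat_lit 327)) (XT.lf (nat_lit 0) (nat_lit 13762426666) (nat_lit 336) (nat_lit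 2467932278) (nat_lit 84) (nat_lit 483781255) (nat_lit 75) (nat_lit 5) (nat_lit 79) (nat_lit 5) (nat_lit 76) (nat_lit 5) (nat_lit 387) (nat_lit 367) (nat_lit 326)))) (XT.nd (nat_lit 188) (nat_lit 504) (nat_lit 0) (XT.nd (nat_lit 94) (nat_lit 252) (nat_lit 0) (XT.lf (nat_lit 0) (nat_lit 3500740242) (nat_lit 336) (nat_lit 2713263207) (nat_lit 84) (nat_lit 11276212570) (nat_lit 71) (nat_lit 5) (nat_lit 75) (nat_lit 5) (nat_lit 72) (nat_lit 5) (nat_lit 388) (nat_lit 367) (nat_lit 325)) (XT.lf (nat_lit 0) (nat_lit 10664611780) (nat_lit 336) (nat_lit 2881980435) (nat_lit 84) (nat_lit 4764434496) (nat_lit 68) (nat_lit 5) (nat_lit 72) (nat_lit 5) (nat_lit 69) (nat_lit 5) (nat_lit 389) (nat_lit 367) (nat_lit 324))) (XT.nd (nat_lit 94) (nat_lit 336) (nat_lit 0) (XT.lf (nat_lit 0) (nat_lit 16240960327) (nat_lit 168) (nat_lit 2504422805) (nat_lit 252) (nat_lit 434929621)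 (nat_lit 66) (nat_lit 5) (nat_lit 68) (nat_lit 5) (nat_lit 69) (nat_lit 5) (nat_lit 390) (nat_lit 367) (nat_lit 323)) (XT.lf (nat_lit 0) (nat_lit 7531270268) (nat_lit 336) (nat_lit 3034094625) (nat_lit 84) (nat_lit 9527378725) (nat_lit 62) (nat_lit 5) (nat_lit 66) (nat_lit 5) (nat_lit 63) (nat_lit 5) (nat_lit 391) (nat_lit 367) (nat_lit 322))))) (XT.nd (nat_lit 376) (nat_lit 672) (nat_lit 0) (XT.nd (nat_lit 188) (nat_lit 420) (nat_lit 0) (XT.nd (nat_lit 94) (nat_lit 252) (nat_lit 0) (XT.lf (nat_lit 0) (nat_lit 16465327560) (nat_lit 252) (nat_lit 2966375770) (nat_lit 84) (nat_lit 1628819161) (nat_lit 60) (nat_lit 5) (nat_lit 63) (nat_lit 5) (nat_lit 61) (nat_lit 5) (nat_lit 392) (nat_lit 367) (nat_lit 321)) (XT.lf (nat_lit 0) (nat_lit 4365011641) (nat_lit 252) (nat_lit 2888676979) (nat_lit 84) (nat_lit 14824659984) (nat_lit 57) (nat_lit 5) (nat_lit 60) (nat_lit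 5) (nat_lit 58) (nat_lit 5) (nat_lit 393) (nat_lit 367) (nat_lit 320))) (XT.nd (nat_lit 94) (nat_lit 252) (nat_lit 0) (XT.lf (nat_lit 0) (nat_lit 14301641950) (nat_lit 252) (nat_lit 2718162929) (nat_lit 84) (nat_lit 6132999352) (nat_lit 55) (nat_lit 5) (nat_lit 58) (nat_lit 5) (nat_lit 56) (nat_lit 5) (nat_lit 394) (nat_lit 367) (nat_lit 319)) (XT.lf (nat_lit 0) (nat_lit 1168463487) (nat_lit 252) (nat_lit 2402328199) (nat_lit 84) (nat_lit 20718286513) (nat_lit 52) (nat_lit 5) (nat_lit 55) (nat_lit 5) (nat_lit 53) (nat_lit 5) (nat_lit 395) (nat_lit 367) (nat_lit 318)))) (XT.nd (nat_lit 188) (nat_lit 336) (nat_lit 0) (XT.nd (nat_lit 94) (nat_lit 168) (nat_lit 0) (XT.lf (nat_lit 0) (nat_lit 12229570421) (nat_lit 252) (nat_lit 2108469636) (nat_lit 84) (nat_lit 11143458341) (nat_lit 50) (nat_lit 5) (nat_lit 53) (nat_lit 5) (nat_lit 51) (nat_lit 5) (nat_lit 396)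 (nat_lit 367) (nat_lit 317)) (XT.lf (nat_lit 0) (nat_lit 24632479613) (nat_lit 252) (nat_lit 1565119985) (nat_lit 84) (nat_lit 548866929) (nat_lit 48) (nat_lit 5) (nat_lit 51) (nat_lit 5) (nat_lit 49) (nat_lit 4) (nat_lit 397) (nat_lit 367) (nat_lit 316))) (XT.nd (nat_lit 94) (nat_lit 168) (nat_lit 0) (XT.lf (nat_lit 0) (nat_lit 10265410036) (nat_lit 168) (nat_lit 1081265734) (nat_lit 84) (nat_lit 16724828188) (nat_lit 46) (nat_lit 5) (nat_lit 48) (nat_lit 5) (nat_lit 47) (nat_lit 5) (nat_lit 398) (nat_lit 367) (nat_lit 315)) (XT.lf (nat_lit 0) (nat_lit 24082240855) (nat_lit 252) (nat_lit 356437422) (nat_lit 84) (nat_lit 5036076035) (nat_lit 44) (nat_lit 5) (nat_lit 47) (nat_lit 5) (nat_lit 45) (nat_lit 4) (nat_lit 399) (nat_lit 367) (nat_lit 314))))))))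
noncomputable def xc104 : XT := (XT.nd (nat_lit 2632) (nat_lit 0) (nat_lit 0) (XT.nd (nat_lit 1316) (nat_lit 1512) (nat_lit 0) (XT.nd (nat_lit 658) (nat_lit 840) (nat_lit 0) (XT.nd (nat_lit 282) (nat_lit 672) (nat_lit 0) (XT.nd (nat_lit 94) (nat_lit 336) (nat_lit 0) (XT.lf (nat_lit 0) (nat_lit 443536953) (nat_lit 168) (nat_lit 7991340160) (nat_lit 252) (nat_lit 22515270081) (nat_lit 40) (nat_lit 5) (nat_lit 42) (nat_lit 5) (nat_lit 43) (nat_lit 5) (nat_lit 400) (nat_lit 367) (nat_lit 313)) (XT.nd (nat_lit 94) (nat_lit 252) (nat_lit 0) (XT.lf (nat_lit 0) (nat_lit 1414794710) (nat_lit 84) (nat_lit 22433149210) (nat_lit 168) (nat_lit 8657786874) (nat_lit 39) (nat_lit 5) (nat_lit 40) (nat_lit 5) (nat_lit 41) (nat_lit 4) (nat_lit 401) (nat_lit 367) (nat_lit 312)) (XT.lf (nat_lit 0) (nat_lit 2582925481) (nat_lit 168) (nat_lit 4196455767) (nat_lit 252) (nat_lit 27367805770)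 (nat_lit 36) (nat_lit 5) (nat_lit 38) (nat_lit 5) (nat_lit 39) (nat_lit 5) (nat_lit 402) (nat_lit 367) (nat_lit 311)))) (XT.nd (nat_lit 188) (nat_lit 336) (nat_lit 0) (XT.nd (nat_lit 94) (nat_lit 252) (nat_lit 0) (XT.lf (nat_lit 0) (nat_lit 3817405534) (nat_lit 84) (nat_lit 20146120544) (nat_lit 168) (nat_lit 11908570619) (nat_lit 35) (nat_lit 5) (nat_lit 36) (nat_lit 5) (nat_lit 37) (nat_lit 4) (nat_lit 403) (nat_lit 367) (nat_lit 310)) (XT.lf (nat_lit 0) (nat_lit 5309784359) (nat_lit 252) (nat_lit 32305515092) (nat_lit 84) (nat_lit 82182068) (nat_lit 32) (nat_lit 5) (nat_lit 35) (nat_lit 5) (nat_lit 33) (nat_lit 4) (nat_lit 404) (nat_lit 367) (nat_lit 309))) (XT.nd (nat_lit 94) (nat_lit 252) (nat_lit 0) (XT.lf (nat_lit 0) (nat_lit 6938310091) (nat_lit 84) (nat_lit 17532990383) (nat_lit 168) (nat_lit 15138689978) (nat_lit 31) (nat_lit 5) (nat_lit 32) (nat_lit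 5) (nat_lit 33) (nat_lit 4) (nat_lit 405) (nat_lit 367) (nat_lit 308)) (XT.lf (nat_lit 0) (nat_lit 4130592288) (nat_lit 252) (nat_lit 32734549658) (nat_lit 84) (nat_lit 4770030338) (nat_lit 28) (nat_lit 5) (nat_lit 31) (nat_lit 5) (nat_lit 29) (nat_lit 4) (nat_lit 406) (nat_lit 367) (nat_lit 307))))) (XT.nd (nat_lit 282) (nat_lit 504) (nat_lit 0) (XT.nd (nat_lit 94) (nat_lit 252) (nat_lit 0) (XT.lf (nat_lit 0) (nat_lit 10891395964) (nat_lit 84) (nat_lit 14534995135) (nat_lit 168) (nat_lit 18332800806) (nat_lit 27) (nat_lit 5) (nat_lit 28) (nat_lit 5) (nat_lit 29) (nat_lit 4) (nat_lit 407) (nat_lit 367) (nat_lit 306)) (XT.nd (nat_lit 94) (nat_lit 84) (nat_lit 0) (XT.lf (nat_lit 0) (nat_lit 3214506418) (nat_lit 168) (nat_lit 32706350196) (nat_lit 84) (nat_lit 10084537861) (nat_lit 25) (nat_lit 5) (nat_lit 27) (nat_lit 5) (nat_lit 26) (nat_lit 4) (nat_lit 408)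 (nat_lit 367) (nat_lit 305)) (XT.lf (nat_lit 0) (nat_lit 15807693099) (nat_lit 84) (nat_lit 11084325290) (nat_lit 168) (nat_lit 21471812367) (nat_lit 24) (nat_lit 5) (nat_lit 25) (nat_lit 5) (nat_lit 26) (nat_lit 4) (nat_lit 409) (nat_lit 367) (nat_lit 304)))) (XT.nd (nat_lit 188) (nat_lit 252) (nat_lit 0) (XT.nd (nat_lit 94) (nat_lit 84) (nat_lit 0) (XT.lf (nat_lit 0) (nat_lit 2606114345) (nat_lit 168) (nat_lit 32127903345) (nat_lit 84) (nat_lit 16120560882) (nat_lit 22) (nat_lit 5) (nat_lit 24) (nat_lit 5) (nat_lit 23) (nat_lit 4) (nat_lit 410) (nat_lit 367) (nat_lit 303)) (XT.lf (nat_lit 0) (nat_lit 21837601721) (nat_lit 84) (nat_lit 7103049462) (nat_lit 168) (nat_lit 24532203000) (nat_lit 21) (nat_lit 5) (nat_lit 22) (nat_lit 5) (nat_lit 23) (nat_lit 4) (nat_lit 411) (nat_lit 367) (nat_lit 302))) (XT.nd (nat_lit 94) (nat_lit 84) (nat_lit 0) (XT.lf (nat_lit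 0) (nat_lit 2357338729) (nat_lit 168) (nat_lit 30890813022) (nat_lit 84) (nat_lit 22986066446) (nat_lit 19) (nat_lit 5) (nat_lit 21) (nat_lit 5) (nat_lit 20) (nat_lit 4) (nat_lit 412) (nat_lit 367) (nat_lit 301)) (XT.lf (nat_lit 0) (nat_lit 29153423788) (nat_lit 84) (nat_lit 2501870216) (nat_lit 168) (nat_lit 27485252011) (nat_lit 18) (nat_lit 5) (nat_lit 19) (nat_lit 5) (nat_lit 20) (nat_lit 4) (nat_lit 413) (nat_lit 367) (nat_lit 300)))))) (XT.nd (nat_lit 658) (nat_lit 588) (nat_lit 0) (XT.nd (nat_lit 282) (nat_lit 504) (nat_lit 0) (XT.nd (nat_lit 94) (nat_lit 252) (nat_lit 0) (XT.lf (nat_lit 0) (nat_lit 2528522179) (nat_lit 168) (nat_lit 28869170394) (nat_lit 84) (nat_lit 30803723550) (nat_lit 16) (nat_lit 5) (nat_lit 18) (nat_lit 5) (nat_lit 17) (nat_lit 4) (nat_lit 414) (nat_lit 367) (nat_lit 299)) (XT.nd (nat_lit 94) (nat_lit 168) (nat_lit 0) (XT.lf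 (nat_lit 0) (nat_lit 35174977724) (nat_lit 168) (nat_lit 27518918118) (nat_lit 0) (nat_lit 2731004664) (nat_lit 15) (nat_lit 5) (nat_lit 17) (nat_lit 4) (nat_lit 15) (nat_lit 4) (nat_lit 415) (nat_lit 367) (nat_lit 298)) (XT.lf (nat_lit 0) (nat_lit 3189647247) (nat_lit 168) (nat_lit 25917128169) (nat_lit 84) (nat_lit 39712714721) (nat_lit 13) (nat_lit 5) (nat_lit 15) (nat_lit 5) (nat_lit 14) (nat_lit 4) (nat_lit 416) (nat_lit 367) (nat_lit 297)))) (XT.nd (nat_lit 188) (nat_lit 252) (nat_lit 0) (XT.nd (nat_lit 94) (nat_lit 168) (nat_lit 0) (XT.lf (nat_lit 0) (nat_lit 39616385522) (nat_lit 168) (nat_lit 24080398005) (nat_lit 0) (nat_lit 8695477765) (nat_lit 12) (nat_lit 5) (nat_lit 14) (nat_lit 4) (nat_lit 12) (nat_lit 4) (nat_lit 417) (nat_lit 367) (nat_lit 296)) (XT.lf (nat_lit 0) (nat_lit 4421710788) (nat_lit 168) (nat_lit 21866143248) (nat_lit 84) (nat_lit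 49870791169) (nat_lit 10) (nat_lit 5) (nat_lit 12) (nat_lit 5) (nat_lit 11) (nat_lit 4) (nat_lit 418) (nat_lit 367) (nat_lit 295))) (XT.nd (nat_lit 94) (nat_lit 168) (nat_lit 0) (XT.lf (nat_lit 0) (nat_lit 45066523778) (nat_lit 168) (nat_lit 19451794094) (nat_lit 0) (nat_lit 15600170161) (nat_lit 9) (nat_lit 5) (nat_lit 11) (nat_lit 4) (nat_lit 9) (nat_lit 4) (nat_lit 419) (nat_lit 367) (nat_lit 294)) (XT.lf (nat_lit 0) (nat_lit 6318274008) (nat_lit 168) (nat_lit 16521846866) (nat_lit 84) (nat_lit 61456598165) (nat_lit 7) (nat_lit 5) (nat_lit 9) (nat_lit 5) (nat_lit 8) (nat_lit 4) (nat_lit 420) (nat_lit 367) (nat_lit 293))))) (XT.nd (nat_lit 282) (nat_lit 252) (nat_lit 0) (XT.nd (nat_lit 94) (nat_lit 252) (nat_lit 0) (XT.lf (nat_lit 0) (nat_lit 51669207808) (nat_lit 168) (nat_lit 13424890506) (nat_lit 0) (nat_lit 23591422766) (nat_lit 6) (nat_lit 5) (nat_lit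 8) (nat_lit 4) (nat_lit 6) (nat_lit 4) (nat_lit 421) (nat_lit 367) (nat_lit 292)) (XT.nd (nat_lit 94) (nat_lit 84) (nat_lit 0) (XT.lf (nat_lit 0) (nat_lit 8987211874) (nat_lit 168) (nat_lit 9660496034) (nat_lit 84) (nat_lit 74672301117) (nat_lit 4) (nat_lit 5) (nat_lit 6) (nat_lit 5) (nat_lit 5) (nat_lit 4) (nat_lit 422) (nat_lit 367) (nat_lit 291)) (XT.lf (nat_lit 0) (nat_lit 59588339062) (nat_lit 168) (nat_lit 5760188577) (nat_lit 0) (nat_lit 32835677559) (nat_lit 3) (nat_lit 5) (nat_lit 5) (nat_lit 4) (nat_lit 3) (nat_lit 4) (nat_lit 423) (nat_lit 367) (nat_lit 290)))) (XT.nd (nat_lit 188) (nat_lit 0) (nat_lit 0) (XT.nd (nat_lit 94) (nat_lit 84) (nat_lit 0) (XT.lf (nat_lit 0) (nat_lit 12552688266) (nat_lit 168) (nat_lit 1024954083) (nat_lit 84) (nat_lit 89746546940) (nat_lit 1) (nat_lit 5) (nat_lit 3) (nat_lit 5) (nat_lit 2) (nat_lit 4) (nat_lit 424) (nat_lit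 367) (nat_lit 289)) (XT.lf (nat_lit 0) (nat_lit 161595559720) (nat_lit 0) (nat_lit 0) (nat_lit 0) (nat_lit 0) (nat_lit 0) (nat_lit 0) (nat_lit 1) (nat_lit 0) (nat_lit 1) (nat_lit 0) (nat_lit 425) (nat_lit 367) (nat_lit 288))) (XT.nd (nat_lit 94) (nat_lit 0) (nat_lit 0) (XT.lf (nat_lit 0) (nat_lit 174375339302) (nat_lit 0) (nat_lit 0) (nat_lit 0) (nat_lit 0) (nat_lit 0) (nat_lit 0) (nat_lit 1) (nat_lit 0) (nat_lit 1) (nat_lit 0) (nat_lit 426) (nat_lit 367) (nat_lit 287)) (XT.lf (nat_lit 0) (nat_lit 188177549310) (nat_lit 0) (nat_lit 0) (nat_lit 0) (nat_lit 0) (nat_lit 0) (nat_lit 0) (nat_lit 1) (nat_lit 0) (nat_lit 1) (nat_lit 0) (nat_lit 427) (nat_lit 367) (nat_lit 286))))))) (XT.nd (nat_lit 1316) (nat_lit 0) (nat_lit 0) (XT.nd (nat_lit 658) (nat_lit 0) (nat_lit 0) (XT.nd (nat_lit 282) (nat_lit 0) (nat_lit 0) (XT.nd (nat_lit 94) (nat_lit 0) (nat_lit 0) (XT.lf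 (nat_lit 0) (nat_lit 203083980619) (nat_lit 0) (nat_lit 0) (nat_lit 0) (nat_lit 0) (nat_lit 0) (nat_lit 0) (nat_lit 1) (nat_lit 0) (nat_lit 1) (nat_lit 0) (nat_lit 428) (nat_lit 367) (nat_lit 285)) (XT.nd (nat_lit 94) (nat_lit 0) (nat_lit 0) (XT.lf (nat_lit 0) (nat_lit 219182967637) (nat_lit 0) (nat_lit 0) (nat_lit 0) (nat_lit 0) (nat_lit 0) (nat_lit 0) (nat_lit 1) (nat_lit 0) (nat_lit 1) (nat_lit 0) (nat_lit 429) (nat_lit 367) (nat_lit 284)) (XT.lf (nat_lit 0) (nat_lit 236569911768) (nat_lit 0) (nat_lit 0) (nat_lit 0) (nat_lit 0) (nat_lit 0) (nat_lit 0) (nat_lit 1) (nat_lit 0) (nat_lit 1) (nat_lit 0) (nat_lit 430) (nat_lit 367) (nat_lit 283)))) (XT.nd (nat_lit 188) (nat_lit 0) (nat_lit 0) (XT.nd (nat_lit 94) (nat_lit 0) (nat_lit 0) (XT.lf (nat_lit 0) (nat_lit 255347846755) (nat_lit 0) (nat_lit 0) (nat_lit 0) (nat_lit 0) (nat_lit 0) (nat_lit 0) (nat_lit 1)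 (nat_lit 0) (nat_lit 1) (nat_lit 0) (nat_lit 431) (nat_lit 367) (nat_lit 282)) (XT.lf (nat_lit 0) (nat_lit 275628049250) (nat_lit 0) (nat_lit 0) (nat_lit 0) (nat_lit 0) (nat_lit 0) (nat_lit 0) (nat_lit 1) (nat_lit 0) (nat_lit 1) (nat_lit 0) (nat_lit 432) (nat_lit 367) (nat_lit 281))) (XT.nd (nat_lit 94) (nat_lit 0) (nat_lit 0) (XT.lf (nat_lit 0) (nat_lit 297530698231) (nat_lit 0) (nat_lit 0) (nat_lit 0) (nat_lit 0) (nat_lit 0) (nat_lit 0) (nat_lit 1) (nat_lit 0) (nat_lit 1) (nat_lit 0) (nat_lit 433) (nat_lit 367) (nat_lit 280)) (XT.lf (nat_lit 0) (nat_lit 321185587173) (nat_lit 0) (nat_lit 0) (nat_lit 0) (nat_lit 0) (nat_lit 0) (nat_lit 0) (nat_lit 1) (nat_lit 0) (nat_lit 1) (nat_lit 0) (nat_lit 434) (nat_lit 367) (nat_lit 279))))) (XT.nd (nat_lit 282) (nat_lit 0) (nat_lit 0) (XT.nd (nat_lit 94) (nat_lit 0) (nat_lit 0) (XT.lf (nat_lit 0) (nat_lit 346732893195)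 (nat_lit 0) (nat_lit 0) (nat_lit 0) (nat_lit 0) (nat_lit 0) (nat_lit 0) (nat_lit 1) (nat_lit 0) (nat_lit 1) (nat_lit 0) (nat_lit 435) (nat_lit 367) (nat_lit 278)) (XT.nd (nat_lit 94) (nat_lit 0) (nat_lit 0) (XT.lf (nat_lit 0) (nat_lit 374324007741) (nat_lit 0) (nat_lit 0) (nat_lit 0) (nat_lit 0) (nat_lit 0) (nat_lit 0) (nat_lit 1) (nat_lit 0) (nat_lit 1) (nat_lit 0) (nat_lit 436) (nat_lit 367) (nat_lit 277)) (XT.lf (nat_lit 0) (nat_lit 404122433713) (nat_lit 0) (nat_lit 0) (nat_lit 0) (nat_lit 0) (nat_lit 0) (nat_lit 0) (nat_lit 1) (nat_lit 0) (nat_lit 1) (nat_lit 0) (nat_lit 437) (nat_lit 367) (nat_lit 276)))) (XT.nd (nat_lit 188) (nat_lit 0) (nat_lit 0) (XT.nd (nat_lit 94) (nat_lit 0) (nat_lit 0) (XT.lf (nat_lit 0) (nat_lit 436304754374) (nat_lit 0) (nat_lit 0) (nat_lit 0) (nat_lit 0) (nat_lit 0) (nat_lit 0) (nat_lit 1) (nat_lit 0) (nat_lit 1) (nat_lit 0)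 (nat_lit 438) (nat_lit 367) (nat_lit 275)) (XT.lf (nat_lit 0) (nat_lit 471061679773) (nat_lit 0) (nat_lit 0) (nat_lit 0) (nat_lit 0) (nat_lit 0) (nat_lit 0) (nat_lit 1) (nat_lit 0) (nat_lit 1) (nat_lit 0) (nat_lit 439) (nat_lit 367) (nat_lit 274))) (XT.nd (nat_lit 94) (nat_lit 0) (nat_lit 0) (XT.lf (nat_lit 0) (nat_lit 508599176876) (nat_lit 0) (nat_lit 0) (nat_lit 0) (nat_lit 0) (nat_lit 0) (nat_lit 0) (nat_lit 1) (nat_lit 0) (nat_lit 1) (nat_lit 0) (nat_lit 440) (nat_lit 367) (nat_lit 273)) (XT.lf (nat_lit 0) (nat_lit 549139690109) (nat_lit 0) (nat_lit 0) (nat_lit 0) (nat_lit 0) (nat_lit 0) (nat_lit 0) (nat_lit 1) (nat_lit 0) (nat_lit 1) (nat_lit 0) (nat_lit 441) (nat_lit 367) (nat_lit 272)))))) (XT.nd (nat_lit 658) (nat_lit 0) (nat_lit 0) (XT.nd (nat_lit 282) (nat_lit 0) (nat_lit 0) (XT.nd (nat_lit 94) (nat_lit 0) (nat_lit 0) (XT.lf (nat_lit 0) (nat_lit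 592923459552) (nat_lit 0) (nat_lit 0) (nat_lit 0) (nat_lit 0) (nat_lit 0) (nat_lit 0) (nat_lit 1) (nat_lit 0) (nat_lit 1) (nat_lit 0) (nat_lit 442) (nat_lit 367) (nat_lit 271)) (XT.nd (nat_lit 94) (nat_lit 0) (nat_lit 0) (XT.lf (nat_lit 0) (nat_lit 640209944579) (nat_lit 0) (nat_lit 0) (nat_lit 0) (nat_lit 0) (nat_lit 0) (nat_lit 0) (nat_lit 1) (nat_lit 0) (nat_lit 1) (nat_lit 0) (nat_lit 443) (nat_lit 367) (nat_lit 270)) (XT.lf (nat_lit 0) (nat_lit 691279361397) (nat_lit 0) (nat_lit 0) (nat_lit 0) (nat_lit 0) (nat_lit 0) (nat_lit 0) (nat_lit 1) (nat_lit 0) (nat_lit 1) (nat_lit 0) (nat_lit 444) (nat_lit 367) (nat_lit 269)))) (XT.nd (nat_lit 188) (nat_lit 0) (nat_lit 0) (XT.nd (nat_lit 94) (nat_lit 0) (nat_lit 0) (XT.lf (nat_lit 0) (nat_lit 746434343588) (nat_lit 0) (nat_lit 0) (nat_lit 0) (nat_lit 0) (nat_lit 0) (nat_lit 0) (nat_lit 1) (nat_lit 0) (nat_lit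 1) (nat_lit 0) (nat_lit 445) (nat_lit 367) (nat_lit 268)) (XT.lf (nat_lit 0) (nat_lit 806001735490) (nat_lit 0) (nat_lit 0) (nat_lit 0) (nat_lit 0) (nat_lit 0) (nat_lit 0) (nat_lit 1) (nat_lit 0) (nat_lit 1) (nat_lit 0) (nat_lit 446) (nat_lit 367) (nat_lit 267))) (XT.nd (nat_lit 94) (nat_lit 0) (nat_lit 0) (XT.lf (nat_lit 0) (nat_lit 870334529055) (nat_lit 0) (nat_lit 0) (nat_lit 0) (nat_lit 0) (nat_lit 0) (nat_lit 0) (nat_lit 1) (nat_lit 0) (nat_lit 1) (nat_lit 0) (nat_lit 447) (nat_lit 367) (nat_lit 266)) (XT.lf (nat_lit 0) (nat_lit 939813955653) (nat_lit 0) (nat_lit 0) (nat_lit 0) (nat_lit 0) (nat_lit 0) (nat_lit 0) (nat_lit 1) (nat_lit 0) (nat_lit 1) (nat_lit 0) (nat_lit 448) (nat_lit 367) (nat_lit 265))))) (XT.nd (nat_lit 282) (nat_lit 0) (nat_lit 0) (XT.nd (nat_lit 94) (nat_lit 0) (nat_lit 0) (XT.lf (nat_lit 0) (nat_lit 1014851745219) (nat_lit 0) (nat_lit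 0) (nat_lit 0) (nat_lit 0) (nat_lit 0) (nat_lit 0) (nat_lit 1) (nat_lit 0) (nat_lit 1) (nat_lit 0) (nat_lit 449) (nat_lit 367) (nat_lit 264)) (XT.nd (nat_lit 94) (nat_lit 0) (nat_lit 0) (XT.lf (nat_lit 0) (nat_lit 1095892566135) (nat_lit 0) (nat_lit 0) (nat_lit 0) (nat_lit 0) (nat_lit 0) (nat_lit 0) (nat_lit 1) (nat_lit 0) (nat_lit 1) (nat_lit 0) (nat_lit 450) (nat_lit 367) (nat_lit 263)) (XT.lf (nat_lit 0) (nat_lit 1183416660304) (nat_lit 0) (nat_lit 0) (nat_lit 0) (nat_lit 0) (nat_lit 0) (nat_lit 0) (nat_lit 1) (nat_lit 0) (nat_lit 1) (nat_lit 0) (nat_lit 451) (nat_lit 367) (nat_lit 262)))) (XT.nd (nat_lit 188) (nat_lit 0) (nat_lit 0) (XT.nd (nat_lit 94) (nat_lit 0) (nat_lit 0) (XT.lf (nat_lit 0) (nat_lit 1277942689024) (nat_lit 0) (nat_lit 0) (nat_lit 0) (nat_lit 0) (nat_lit 0) (nat_lit 0) (nat_lit 1) (nat_lit 0) (nat_lit 1) (nat_lit 0) (nat_lit 452) (nat_lit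 367) (nat_lit 261)) (XT.lf (nat_lit 0) (nat_lit 1380030806540) (nat_lit 0) (nat_lit 0) (nat_lit 0) (nat_lit 0) (nat_lit 0) (nat_lit 0) (nat_lit 1) (nat_lit 0) (nat_lit 1) (nat_lit 0) (nat_lit 453) (nat_lit 367) (nat_lit 260))) (XT.nd (nat_lit 94) (nat_lit 0) (nat_lit 0) (XT.lf (nat_lit 0) (nat_lit 1490285979473) (nat_lit 0) (nat_lit 0) (nat_lit 0) (nat_lit 0) (nat_lit 0) (nat_lit 0) (nat_lit 1) (nat_lit 0) (nat_lit 1) (nat_lit 0) (nat_lit 454) (nat_lit 367) (nat_lit 259)) (XT.lf (nat_lit 0) (nat_lit 1609361571812) (nat_lit 0) (nat_lit 0) (nat_lit 0) (nat_lit 0) (nat_lit 0) (nat_lit 0) (nat_lit 1) (nat_lit 0) (nat_lit 1) (nat_lit 0) (nat_lit 455) (nat_lit 367) (nat_lit 258))))))))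
noncomputable def xc105 : XT := (XT.nd (nat_lit 2632) (nat_lit 0) (nat_lit 0) (XT.nd (nat_lit 1316) (nat_lit 0) (nat_lit 0) (XT.nd (nat_lit 658) (nat_lit 0) (nat_lit 0) (XT.nd (nat_lit 282) (nat_lit 0) (nat_lit 0) (XT.nd (nat_lit 94) (nat_lit 0) (nat_lit 0) (XT.lf (nat_lit 0) (nat_lit 1737963216696) (nat_lit 0) (nat_lit 0) (nat_lit 0) (nat_lit 0) (nat_lit 0) (nat_lit 0) (nat_lit 1) (nat_lit 0) (nat_lit 1) (nat_lit 0) (nat_lit 456) (nat_lit 367) (nat_lit 257)) (XT.nd (nat_lit 94) (nat_lit 0) (nat_lit 0) (XT.lf (nat_lit 0) (nat_lit 1876852997947) (nat_lit 0) (nat_lit 0) (nat_lit 0) (nat_lit 0) (nat_lit 0) (nat_lit 0) (nat_lit 1) (nat_lit 0) (nat_lit 1) (nat_lit 0) (nat_lit 457) (nat_lit 367) (nat_lit 256)) (XT.lf (nat_lit 0) (nat_lit 2026853966120) (nat_lit 0) (nat_lit 0) (nat_lit 0) (nat_lit 0) (nat_lit 0) (nat_lit 0) (nat_lit 1) (nat_lit 0) (nat_lit 1) (nat_lit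 0) (nat_lit 458) (nat_lit 367) (nat_lit 255)))) (XT.nd (nat_lit 188) (nat_lit 0) (nat_lit 0) (XT.nd (nat_lit 94) (nat_lit 0) (nat_lit 0) (XT.lf (nat_lit 0) (nat_lit 2188855015842) (nat_lit 0) (nat_lit 0) (nat_lit 0) (nat_lit 0) (nat_lit 0) (nat_lit 0) (nat_lit 1) (nat_lit 0) (nat_lit 1) (nat_lit 0) (nat_lit 459) (nat_lit 367) (nat_lit 254)) (XT.lf (nat_lit 0) (nat_lit 2363816153333) (nat_lit 0) (nat_lit 0) (nat_lit 0) (nat_lit 0) (nat_lit 0) (nat_lit 0) (nat_lit 1) (nat_lit 0) (nat_lit 1) (nat_lit 0) (nat_lit 460) (nat_lit 367) (nat_lit 253))) (XT.nd (nat_lit 94) (nat_lit 0) (nat_lit 0) (XT.lf (nat_lit 0) (nat_lit 2552774185333) (nat_lit 0) (nat_lit 0) (nat_lit 0) (nat_lit 0) (nat_lit 0) (nat_lit 0) (nat_lit 1) (nat_lit 0) (nat_lit 1) (nat_lit 0) (nat_lit 461) (nat_lit 367) (nat_lit 252)) (XT.lf (nat_lit 0) (nat_lit 2756848863145) (nat_lit 0) (nat_lit 0) (nat_lit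 0) (nat_lit 0) (nat_lit 0) (nat_lit 0) (nat_lit 1) (nat_lit 0) (nat_lit 1) (nat_lit 0) (nat_lit 462) (nat_lit 367) (nat_lit 251))))) (XT.nd (nat_lit 282) (nat_lit 0) (nat_lit 0) (XT.nd (nat_lit 94) (nat_lit 0) (nat_lit 0) (XT.lf (nat_lit 0) (nat_lit 2977249518191) (nat_lit 0) (nat_lit 0) (nat_lit 0) (nat_lit 0) (nat_lit 0) (nat_lit 0) (nat_lit 1) (nat_lit 0) (nat_lit 1) (nat_lit 0) (nat_lit 463) (nat_lit 367) (nat_lit 250)) (XT.nd (nat_lit 94) (nat_lit 0) (nat_lit 0) (XT.lf (nat_lit 0) (nat_lit 3215282228427) (nat_lit 0) (nat_lit 0) (nat_lit 0) (nat_lit 0) (nat_lit 0) (nat_lit 0) (nat_lit 1) (nat_lit 0) (nat_lit 1) (nat_lit 0) (nat_lit 464) (nat_lit 367) (nat_lit 249)) (XT.lf (nat_lit 0) (nat_lit 3472357558063) (nat_lit 0) (nat_lit 0) (nat_lit 0) (nat_lit 0) (nat_lit 0) (nat_lit 0) (nat_lit 1) (nat_lit 0) (nat_lit 1) (nat_lit 0) (nat_lit 465) (nat_lit 367)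 (nat_lit 248)))) (XT.nd (nat_lit 188) (nat_lit 0) (nat_lit 0) (XT.nd (nat_lit 94) (nat_lit 0) (nat_lit 0) (XT.lf (nat_lit 0) (nat_lit 3749998916459) (nat_lit 0) (nat_lit 0) (nat_lit 0) (nat_lit 0) (nat_lit 0) (nat_lit 0) (nat_lit 1) (nat_lit 0) (nat_lit 1) (nat_lit 0) (nat_lit 466) (nat_lit 367) (nat_lit 247)) (XT.lf (nat_lit 0) (nat_lit 4049851585739) (nat_lit 0) (nat_lit 0) (nat_lit 0) (nat_lit 0) (nat_lit 0) (nat_lit 0) (nat_lit 1) (nat_lit 0) (nat_lit 1) (nat_lit 0) (nat_lit 467) (nat_lit 367) (nat_lit 246))) (XT.nd (nat_lit 94) (nat_lit 0) (nat_lit 0) (XT.lf (nat_lit 0) (nat_lit 4373692470610) (nat_lit 0) (nat_lit 0) (nat_lit 0) (nat_lit 0) (nat_lit 0) (nat_lit 0) (nat_lit 1) (nat_lit 0) (nat_lit 1) (nat_lit 0) (nat_lit 468) (nat_lit 367) (nat_lit 245)) (XT.lf (nat_lit 0) (nat_lit 4723440628167) (nat_lit 0) (nat_lit 0) (nat_lit 0) (nat_lit 0) (nat_lit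 0) (nat_lit 0) (nat_lit 1) (nat_lit 0) (nat_lit 1) (nat_lit 0) (nat_lit 469) (nat_lit 367) (nat_lit 244)))))) (XT.nd (nat_lit 658) (nat_lit 0) (nat_lit 0) (XT.nd (nat_lit 282) (nat_lit 0) (nat_lit 0) (XT.nd (nat_lit 94) (nat_lit 0) (nat_lit 0) (XT.lf (nat_lit 0) (nat_lit 5101168640084) (nat_lit 0) (nat_lit 0) (nat_lit 0) (nat_lit 0) (nat_lit 0) (nat_lit 0) (nat_lit 1) (nat_lit 0) (nat_lit 1) (nat_lit 0) (nat_lit 470) (nat_lit 367) (nat_lit 243)) (XT.nd (nat_lit 94) (nat_lit 0) (nat_lit 0) (XT.lf (nat_lit 0) (nat_lit 5509114894582) (nat_lit 0) (nat_lit 0) (nat_lit 0) (nat_lit 0) (nat_lit 0) (nat_lit 0) (nat_lit 1) (nat_lit 0) (nat_lit 1) (nat_lit 0) (nat_lit 471) (nat_lit 367) (nat_lit 242)) (XT.lf (nat_lit 0) (nat_lit 5949696850944) (nat_lit 0) (nat_lit 0) (nat_lit 0) (nat_lit 0) (nat_lit 0) (nat_lit 0) (nat_lit 1) (nat_lit 0) (nat_lit 1) (nat_lit 0) (nat_lit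 472) (nat_lit 367) (nat_lit 241)))) (XT.nd (nat_lit 188) (nat_lit 0) (nat_lit 0) (XT.nd (nat_lit 94) (nat_lit 0) (nat_lit 0) (XT.lf (nat_lit 0) (nat_lit 6425525365210) (nat_lit 0) (nat_lit 0) (nat_lit 0) (nat_lit 0) (nat_lit 0) (nat_lit 0) (nat_lit 1) (nat_lit 0) (nat_lit 1) (nat_lit 0) (nat_lit 473) (nat_lit 367) (nat_lit 240)) (XT.lf (nat_lit 0) (nat_lit 6939420161907) (nat_lit 0) (nat_lit 0) (nat_lit 0) (nat_lit 0) (nat_lit 0) (nat_lit 0) (nat_lit 1) (nat_lit 0) (nat_lit 1) (nat_lit 0) (nat_lit 474) (nat_lit 367) (nat_lit 239))) (XT.nd (nat_lit 94) (nat_lit 0) (nat_lit 0) (XT.lf (nat_lit 0) (nat_lit 7494426543536) (nat_lit 0) (nat_lit 0) (nat_lit 0) (nat_lit 0) (nat_lit 0) (nat_lit 0) (nat_lit 1) (nat_lit 0) (nat_lit 1) (nat_lit 0) (nat_lit 475) (nat_lit 367) (nat_lit 238)) (XT.lf (nat_lit 0) (nat_lit 8093833436802) (nat_lit 0) (nat_lit 0) (nat_lit 0) (nat_lit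 0) (nat_lit 0) (nat_lit 0) (nat_lit 1) (nat_lit 0) (nat_lit 1) (nat_lit 0) (nat_lit 476) (nat_lit 367) (nat_lit 237))))) (XT.nd (nat_lit 282) (nat_lit 0) (nat_lit 0) (XT.nd (nat_lit 94) (nat_lit 0) (nat_lit 0) (XT.lf (nat_lit 0) (nat_lit 8741192882554) (nat_lit 0) (nat_lit 0) (nat_lit 0) (nat_lit 0) (nat_lit 0) (nat_lit 0) (nat_lit 1) (nat_lit 0) (nat_lit 1) (nat_lit 0) (nat_lit 477) (nat_lit 367) (nat_lit 236)) (XT.nd (nat_lit 94) (nat_lit 0) (nat_lit 0) (XT.lf (nat_lit 0) (nat_lit 9440341084914) (nat_lit 0) (nat_lit 0) (nat_lit 0) (nat_lit 0) (nat_lit 0) (nat_lit 0) (nat_lit 1) (nat_lit 0) (nat_lit 1) (nat_lit 0) (nat_lit 478) (nat_lit 367) (nat_lit 235)) (XT.lf (nat_lit 0) (nat_lit 10195421144342) (nat_lit 0) (nat_lit 0) (nat_lit 0) (nat_lit 0) (nat_lit 0) (nat_lit 0) (nat_lit 1) (nat_lit 0) (nat_lit 1) (nat_lit 0) (nat_lit 479) (nat_lit 367) (nat_lit 234))))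 (XT.nd (nat_lit 188) (nat_lit 0) (nat_lit 0) (XT.nd (nat_lit 94) (nat_lit 0) (nat_lit 0) (XT.lf (nat_lit 0) (nat_lit 11010907609338) (nat_lit 0) (nat_lit 0) (nat_lit 0) (nat_lit 0) (nat_lit 0) (nat_lit 0) (nat_lit 1) (nat_lit 0) (nat_lit 1) (nat_lit 0) (nat_lit 480) (nat_lit 367) (nat_lit 233)) (XT.lf (nat_lit 0) (nat_lit 11891632992287) (nat_lit 0) (nat_lit 0) (nat_lit 0) (nat_lit 0) (nat_lit 0) (nat_lit 0) (nat_lit 1) (nat_lit 0) (nat_lit 1) (nat_lit 0) (nat_lit 481) (nat_lit 367) (nat_lit 232))) (XT.nd (nat_lit 94) (nat_lit 0) (nat_lit 0) (XT.lf (nat_lit 0) (nat_lit 12842816406569) (nat_lit 0) (nat_lit 0) (nat_lit 0) (nat_lit 0) (nat_lit 0) (nat_lit 0) (nat_lit 1) (nat_lit 0) (nat_lit 1) (nat_lit 0) (nat_lit 482) (nat_lit 367) (nat_lit 231)) (XT.lf (nat_lit 0) (nat_lit 13870094494639) (nat_lit 0) (nat_lit 0) (nat_lit 0) (nat_lit 0) (nat_lit 0) (nat_lit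 0) (nat_lit 1) (nat_lit 0) (nat_lit 1) (nat_lit 0) (nat_lit 483) (nat_lit 367) (nat_lit 230))))))) (XT.nd (nat_lit 1316) (nat_lit 0) (nat_lit 0) (XT.nd (nat_lit 658) (nat_lit 0) (nat_lit 0) (XT.nd (nat_lit 282) (nat_lit 0) (nat_lit 0) (XT.nd (nat_lit 94) (nat_lit 0) (nat_lit 0) (XT.lf (nat_lit 0) (nat_lit 14979554830352) (nat_lit 0) (nat_lit 0) (nat_lit 0) (nat_lit 0) (nat_lit 0) (nat_lit 0) (nat_lit 1) (nat_lit 0) (nat_lit 1) (nat_lit 0) (nat_lit 484) (nat_lit 367) (nat_lit 229)) (XT.nd (nat_lit 94) (nat_lit 0) (nat_lit 0) (XT.lf (nat_lit 0) (nat_lit 16177771993477) (nat_lit 0) (nat_lit 0) (nat_lit 0) (nat_lit 0) (nat_lit 0) (nat_lit 0) (nat_lit 1) (nat_lit 0) (nat_lit 1) (nat_lit 0) (nat_lit 485) (nat_lit 367) (nat_lit 228)) (XT.lf (nat_lit 0) (nat_lit 17471846530163) (nat_lit 0) (nat_lit 0) (nat_lit 0) (nat_lit 0) (nat_lit 0) (nat_lit 0) (nat_lit 1) (nat_lit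 0) (nat_lit 1) (nat_lit 0) (nat_lit 486) (nat_lit 367) (nat_lit 227)))) (XT.nd (nat_lit 188) (nat_lit 0) (nat_lit 0) (XT.nd (nat_lit 94) (nat_lit 0) (nat_lit 0) (XT.lf (nat_lit 0) (nat_lit 18869447030260) (nat_lit 0) (nat_lit 0) (nat_lit 0) (nat_lit 0) (nat_lit 0) (nat_lit 0) (nat_lit 1) (nat_lit 0) (nat_lit 1) (nat_lit 0) (nat_lit 487) (nat_lit 367) (nat_lit 226)) (XT.lf (nat_lit 0) (nat_lit 20378855570804) (nat_lit 0) (nat_lit 0) (nat_lit 0) (nat_lit 0) (nat_lit 0) (nat_lit 0) (nat_lit 1) (nat_lit 0) (nat_lit 1) (nat_lit 0) (nat_lit 488) (nat_lit 367) (nat_lit 225))) (XT.nd (nat_lit 94) (nat_lit 0) (nat_lit 0) (XT.lf (nat_lit 0) (nat_lit 22009016794998) (nat_lit 0) (nat_lit 0) (nat_lit 0) (nat_lit 0) (nat_lit 0) (nat_lit 0) (nat_lit 1) (nat_lit 0) (nat_lit 1) (nat_lit 0) (nat_lit 489) (nat_lit 367) (nat_lit 224)) (XT.lf (nat_lit 0) (nat_lit 23769590917504)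 (nat_lit 0) (nat_lit 0) (nat_lit 0) (nat_lit 0) (nat_lit 0) (nat_lit 0) (nat_lit 1) (nat_lit 0) (nat_lit 1) (nat_lit 0) (nat_lit 490) (nat_lit 367) (nat_lit 223))))) (XT.nd (nat_lit 282) (nat_lit 0) (nat_lit 0) (XT.nd (nat_lit 94) (nat_lit 0) (nat_lit 0) (XT.lf (nat_lit 0) (nat_lit 25671010970160) (nat_lit 0) (nat_lit 0) (nat_lit 0) (nat_lit 0) (nat_lit 0) (nat_lit 0) (nat_lit 1) (nat_lit 0) (nat_lit 1) (nat_lit 0) (nat_lit 491) (nat_lit 367) (nat_lit 222)) (XT.nd (nat_lit 94) (nat_lit 0) (nat_lit 0) (XT.lf (nat_lit 0) (nat_lit 27724544627351) (nat_lit 0) (nat_lit 0) (nat_lit 0) (nat_lit 0) (nat_lit 0) (nat_lit 0) (nat_lit 1) (nat_lit 0) (nat_lit 1) (nat_lit 0) (nat_lit 492) (nat_lit 367) (nat_lit 221)) (XT.lf (nat_lit 0) (nat_lit 29942360977417) (nat_lit 0) (nat_lit 0) (nat_lit 0) (nat_lit 0) (nat_lit 0) (nat_lit 0) (nat_lit 1) (nat_lit 0) (nat_lit 1) (nat_lit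 0) (nat_lit 493) (nat_lit 367) (nat_lit 220)))) (XT.nd (nat_lit 188) (nat_lit 0) (nat_lit 0) (XT.nd (nat_lit 94) (nat_lit 0) (nat_lit 0) (XT.lf (nat_lit 0) (nat_lit 32337602635765) (nat_lit 0) (nat_lit 0) (nat_lit 0) (nat_lit 0) (nat_lit 0) (nat_lit 0) (nat_lit 1) (nat_lit 0) (nat_lit 1) (nat_lit 0) (nat_lit 494) (nat_lit 367) (nat_lit 219)) (XT.lf (nat_lit 0) (nat_lit 34924463627037) (nat_lit 0) (nat_lit 0) (nat_lit 0) (nat_lit 0) (nat_lit 0) (nat_lit 0) (nat_lit 1) (nat_lit 0) (nat_lit 1) (nat_lit 0) (nat_lit 495) (nat_lit 367) (nat_lit 218))) (XT.nd (nat_lit 94) (nat_lit 0) (nat_lit 0) (XT.lf (nat_lit 0) (nat_lit 37718273497848) (nat_lit 0) (nat_lit 0) (nat_lit 0) (nat_lit 0) (nat_lit 0) (nat_lit 0) (nat_lit 1) (nat_lit 0) (nat_lit 1) (nat_lit 0) (nat_lit 496) (nat_lit 367) (nat_lit 217)) (XT.lf (nat_lit 0) (nat_lit 40735588158544) (nat_lit 0) (nat_lit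 0) (nat_lit 0) (nat_lit 0) (nat_lit 0) (nat_lit 0) (nat_lit 1) (nat_lit 0) (nat_lit 1) (nat_lit 0) (nat_lit 497) (nat_lit 367) (nat_lit 216)))))) (XT.nd (nat_lit 55742) (nat_lit 0) (nat_lit 9828) (XT.nd (nat_lit 282) (nat_lit 0) (nat_lit 0) (XT.nd (nat_lit 94) (nat_lit 0) (nat_lit 0) (XT.lf (nat_lit 0) (nat_lit 43994287992300) (nat_lit 0) (nat_lit 0) (nat_lit 0) (nat_lit 0) (nat_lit 0) (nat_lit 0) (nat_lit 1) (nat_lit 0) (nat_lit 1) (nat_lit 0) (nat_lit 498) (nat_lit 367) (nat_lit 215)) (XT.nd (nat_lit 94) (nat_lit 0) (nat_lit 0) (XT.lf (nat_lit 0) (nat_lit 47513683812944) (nat_lit 0) (nat_lit 0) (nat_lit 0) (nat_lit 0) (nat_lit 0) (nat_lit 0) (nat_lit 1) (nat_lit 0) (nat_lit 1) (nat_lit 0) (nat_lit 499) (nat_lit 367) (nat_lit 214)) (XT.lf (nat_lit 0) (nat_lit 51314631299414) (nat_lit 0) (nat_lit 0) (nat_lit 0) (nat_lit 0) (nat_lit 0) (nat_lit 0) (nat_lit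 1) (nat_lit 0) (nat_lit 1) (nat_lit 0) (nat_lit 500) (nat_lit 367) (nat_lit 213)))) (XT.nd (nat_lit 55272) (nat_lit 0) (nat_lit 12432) (XT.nd (nat_lit 94) (nat_lit 0) (nat_lit 0) (XT.lf (nat_lit 0) (nat_lit 55419654584964) (nat_lit 0) (nat_lit 0) (nat_lit 0) (nat_lit 0) (nat_lit 0) (nat_lit 0) (nat_lit 1) (nat_lit 0) (nat_lit 1) (nat_lit 0) (nat_lit 501) (nat_lit 367) (nat_lit 212)) (XT.lf (nat_lit 0) (nat_lit 59853079733507) (nat_lit 0) (nat_lit 0) (nat_lit 0) (nat_lit 0) (nat_lit 0) (nat_lit 0) (nat_lit 1) (nat_lit 0) (nat_lit 1) (nat_lit 0) (nat_lit 502) (nat_lit 367) (nat_lit 211))) (XT.nd (nat_lit 94) (nat_lit 0) (nat_lit 0) (XT.lf (nat_lit 0) (nat_lit 1943343957) (nat_lit 756) (nat_lit 1098379114) (nat_lit 756) (nat_lit 1098379114) (nat_lit 148) (nat_lit 3) (nat_lit 157) (nat_lit 3) (nat_lit 157) (nat_lit 5) (nat_lit 368) (nat_lit 368) (nat_lit 344))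 (XT.lf (nat_lit 84) (nat_lit 4556590731) (nat_lit 0) (nat_lit 1266505947) (nat_lit 756) (nat_lit 2699268804) (nat_lit 149) (nat_lit 5) (nat_lit 148) (nat_lit 3) (nat_lit 157) (nat_lit 5) (nat_lit 369) (nat_lit 368) (nat_lit 343))))) (XT.nd (nat_lit 376) (nat_lit 2016) (nat_lit 0) (XT.nd (nat_lit 188) (nat_lit 0) (nat_lit 0) (XT.nd (nat_lit 94) (nat_lit 672) (nat_lit 0) (XT.lf (nat_lit 84) (nat_lit 3080539921) (nat_lit 0) (nat_lit 4811050315) (nat_lit 756) (nat_lit 893450642) (nat_lit 150) (nat_lit 5) (nat_lit 149) (nat_lit 5) (nat_lit 158) (nat_lit 5) (nat_lit 370) (nat_lit 368) (nat_lit 342)) (XT.lf (nat_lit 0) (nat_lit 988968020) (nat_lit 756) (nat_lit 7403030333) (nat_lit 840) (nat_lit 677608932) (nat_lit 141) (nat_lit 5) (nat_lit 150) (nat_lit 5) (nat_lit 151) (nat_lit 5) (nat_lit 371) (nat_lit 368) (nat_lit 341))) (XT.nd (nat_lit 94) (nat_lit 0) (nat_lit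 84) (XT.lf (nat_lit 84) (nat_lit 262141269) (nat_lit 0) (nat_lit 2763769438) (nat_lit 840) (nat_lit 6348534327) (nat_lit 142) (nat_lit 5) (nat_lit 141) (nat_lit 5) (nat_lit 151) (nat_lit 5) (nat_lit 372) (nat_lit 368) (nat_lit 340)) (XT.lf (nat_lit 0) (nat_lit 5267448922) (nat_lit 756) (nat_lit 1056735174) (nat_lit 840) (nat_lit 3377403702) (nat_lit 142) (nat_lit 5) (nat_lit 151) (nat_lit 5) (nat_lit 152) (nat_lit 5) (nat_lit 373) (nat_lit 368) (nat_lit 339)))) (XT.nd (nat_lit 188) (nat_lit 1344) (nat_lit 0) (XT.nd (nat_lit 94) (nat_lit 840) (nat_lit 0) (XT.lf (nat_lit 0) (nat_lit 7725331048) (nat_lit 756) (nat_lit 2311203389) (nat_lit 84) (nat_lit 16516501) (nat_lit 143) (nat_lit 5) (nat_lit 152) (nat_lit 5) (nat_lit 144) (nat_lit 5) (nat_lit 374) (nat_lit 368) (nat_lit 338)) (XT.lf (nat_lit 0) (nat_lit 60952552) (nat_lit 840) (nat_lit 3569595983) (nat_lit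 84) (nat_lit 6796521284) (nat_lit 133) (nat_lit 5) (nat_lit 143) (nat_lit 5) (nat_lit 134) (nat_lit 5) (nat_lit 375) (nat_lit 368) (nat_lit 337))) (XT.nd (nat_lit 94) (nat_lit 504) (nat_lit 0) (XT.lf (nat_lit 0) (nat_lit 2633674226) (nat_lit 924) (nat_lit 4818881426) (nat_lit 84) (nat_lit 3372821218) (nat_lit 123) (nat_lit 5) (nat_lit 134) (nat_lit 5) (nat_lit 124) (nat_lit 5) (nat_lit 376) (nat_lit 368) (nat_lit 336)) (XT.lf (nat_lit 0) (nat_lit 5223805984) (nat_lit 504) (nat_lit 285056283) (nat_lit 588) (nat_lit 5741853790) (nat_lit 117) (nat_lit 5) (nat_lit 123) (nat_lit 5) (nat_lit 124) (nat_lit 5) (nat_lit 377) (nat_lit 368) (nat_lit 335))))))))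
noncomputable def xc106 : XT := (XT.nd (nat_lit 2632) (nat_lit 2688) (nat_lit 0) (XT.nd (nat_lit 1316) (nat_lit 2772) (nat_lit 0) (XT.nd (nat_lit 658) (nat_lit 1764) (nat_lit 0) (XT.nd (nat_lit 282) (nat_lit 1344) (nat_lit 0) (XT.nd (nat_lit 94) (nat_lit 840) (nat_lit 0) (XT.lf (nat_lit 0) (nat_lit 4455446167) (nat_lit 420) (nat_lit 4327150292) (nat_lit 504) (nat_lit 2919059362) (nat_lit 112) (nat_lit 5) (nat_lit 117) (nat_lit 5) (nat_lit 118) (nat_lit 5) (nat_lit 378) (nat_lit 368) (nat_lit 334)) (XT.nd (nat_lit 94) (nat_lit 336) (nat_lit 0) (XT.lf (nat_lit 0) (nat_lit 254734440) (nat_lit 504) (nat_lit 8423754711) (nat_lit 84) (nat_lit 3503614354) (nat_lit 106) (nat_lit 5) (nat_lit 112) (nat_lit 5) (nat_lit 107) (nat_lit 5) (nat_lit 379) (nat_lit 368) (nat_lit 333)) (XT.lf (nat_lit 0) (nat_lit 3077463841) (nat_lit 336) (nat_lit 660682510) (nat_lit 420) (nat_lit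 8952548767) (nat_lit 102) (nat_lit 5) (nat_lit 106) (nat_lit 5) (nat_lit 107) (nat_lit 5) (nat_lit 380) (nat_lit 368) (nat_lit 332)))) (XT.nd (nat_lit 188) (nat_lit 672) (nat_lit 0) (XT.nd (nat_lit 94) (nat_lit 336) (nat_lit 0) (XT.lf (nat_lit 0) (nat_lit 2413112794) (nat_lit 336) (nat_lit 5311247042) (nat_lit 420) (nat_lit 5504407794) (nat_lit 98) (nat_lit 5) (nat_lit 102) (nat_lit 5) (nat_lit 103) (nat_lit 5) (nat_lit 381) (nat_lit 368) (nat_lit 331)) (XT.lf (nat_lit 0) (nat_lit 1832846362) (nat_lit 336) (nat_lit 10375807205) (nat_lit 420) (nat_lit 1592273219) (nat_lit 94) (nat_lit 5) (nat_lit 98) (nat_lit 5) (nat_lit 99) (nat_lit 5) (nat_lit 382) (nat_lit 368) (nat_lit 330))) (XT.nd (nat_lit 94) (nat_lit 252) (nat_lit 0) (XT.lf (nat_lit 0) (nat_lit 1275795954) (nat_lit 336) (nat_lit 1494159810) (nat_lit 420) (nat_lit 11635778079) (nat_lit 89) (nat_lit 5)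 (nat_lit 93) (nat_lit 5) (nat_lit 94) (nat_lit 5) (nat_lit 383) (nat_lit 368) (nat_lit 329)) (XT.lf (nat_lit 0) (nat_lit 724220712) (nat_lit 252) (nat_lit 6976003622) (nat_lit 336) (nat_lit 7343653649) (nat_lit 86) (nat_lit 5) (nat_lit 89) (nat_lit 5) (nat_lit 90) (nat_lit 5) (nat_lit 384) (nat_lit 368) (nat_lit 328))))) (XT.nd (nat_lit 282) (nat_lit 1092) (nat_lit 0) (XT.nd (nat_lit 94) (nat_lit 336) (nat_lit 0) (XT.lf (nat_lit 0) (nat_lit 274270014) (nat_lit 336) (nat_lit 12981124843) (nat_lit 420) (nat_lit 2466154775) (nat_lit 82) (nat_lit 5) (nat_lit 86) (nat_lit 5) (nat_lit 87) (nat_lit 5) (nat_lit 385) (nat_lit 368) (nat_lit 327)) (XT.nd (nat_lit 94) (nat_lit 252) (nat_lit 0) (XT.lf (nat_lit 0) (nat_lit 3013939650) (nat_lit 420) (nat_lit 156480498) (nat_lit 84) (nat_lit 13265724741) (nat_lit 81) (nat_lit 5) (nat_lit 86) (nat_lit 5) (nat_lit 82) (nat_lit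 5) (nat_lit 386) (nat_lit 368) (nat_lit 326)) (XT.lf (nat_lit 0) (nat_lit 9165423726) (nat_lit 336) (nat_lit 553857852) (nat_lit 84) (nat_lit 7470635542) (nat_lit 78) (nat_lit 5) (nat_lit 82) (nat_lit 5) (nat_lit 79) (nat_lit 5) (nat_lit 387) (nat_lit 368) (nat_lit 325)))) (XT.nd (nat_lit 188) (nat_lit 504) (nat_lit 0) (XT.nd (nat_lit 94) (nat_lit 336) (nat_lit 0) (XT.lf (nat_lit 0) (nat_lit 16089844281) (nat_lit 336) (nat_lit 826634792) (nat_lit 84) (nat_lit 1073471169) (nat_lit 75) (nat_lit 5) (nat_lit 79) (nat_lit 5) (nat_lit 76) (nat_lit 5) (nat_lit 388) (nat_lit 368) (nat_lit 324)) (XT.lf (nat_lit 0) (nat_lit 4962903103) (nat_lit 336) (nat_lit 1132415565) (nat_lit 84) (nat_lit 12735009451) (nat_lit 71) (nat_lit 5) (nat_lit 75) (nat_lit 5) (nat_lit 72) (nat_lit 5) (nat_lit 389) (nat_lit 368) (nat_lit 323))) (XT.nd (nat_lit 94) (nat_lit 252) (nat_lit 0)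 (XT.lf (nat_lit 0) (nat_lit 12648514053) (nat_lit 336) (nat_lit 1346037980) (nat_lit 84) (nat_lit 5724820148) (nat_lit 68) (nat_lit 5) (nat_lit 72) (nat_lit 5) (nat_lit 69) (nat_lit 5) (nat_lit 390) (nat_lit 368) (nat_lit 322)) (XT.lf (nat_lit 0) (nat_lit 636262863) (nat_lit 252) (nat_lit 1441364174) (nat_lit 84) (nat_lit 18582929783) (nat_lit 65) (nat_lit 5) (nat_lit 68) (nat_lit 5) (nat_lit 66) (nat_lit 5) (nat_lit 391) (nat_lit 368) (nat_lit 321)))))) (XT.nd (nat_lit 658) (nat_lit 1344) (nat_lit 0) (XT.nd (nat_lit 282) (nat_lit 756) (nat_lit 0) (XT.nd (nat_lit 94) (nat_lit 420) (nat_lit 0) (XT.lf (nat_lit 0) (nat_lit 9179287065) (nat_lit 336) (nat_lit 1583825086) (nat_lit 84) (nat_lit 10884775198) (nat_lit 62) (nat_lit 5) (nat_lit 66) (nat_lit 5) (nat_lit 63) (nat_lit 5) (nat_lit 392) (nat_lit 368) (nat_lit 320)) (XT.nd (nat_lit 94) (nat_lit 252) (nat_lit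 0) (XT.lf (nat_lit 0) (nat_lit 18785681759) (nat_lit 252) (nat_lit 1544371328) (nat_lit 84) (nat_lit 2365154804) (nat_lit 60) (nat_lit 5) (nat_lit 63) (nat_lit 5) (nat_lit 61) (nat_lit 5) (nat_lit 393) (nat_lit 368) (nat_lit 319)) (XT.lf (nat_lit 0) (nat_lit 5683448306) (nat_lit 252) (nat_lit 1500521109) (nat_lit 84) (nat_lit 16612185291) (nat_lit 57) (nat_lit 5) (nat_lit 60) (nat_lit 5) (nat_lit 58) (nat_lit 5) (nat_lit 394) (nat_lit 368) (nat_lit 318)))) (XT.nd (nat_lit 188) (nat_lit 336) (nat_lit 0) (XT.nd (nat_lit 94) (nat_lit 252) (nat_lit 0) (XT.lf (nat_lit 0) (nat_lit 16377189381) (nat_lit 252) (nat_lit 1350448659) (nat_lit 84) (nat_lit 7230819726) (nat_lit 55) (nat_lit 5) (nat_lit 58) (nat_lit 5) (nat_lit 56) (nat_lit 5) (nat_lit 395) (nat_lit 368) (nat_lit 317)) (XT.lf (nat_lit 0) (nat_lit 2162562362) (nat_lit 252) (nat_lit 1048457966) (nat_lit 84)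 (nat_lit 22976153037) (nat_lit 52) (nat_lit 5) (nat_lit 55) (nat_lit 5) (nat_lit 53) (nat_lit 5) (nat_lit 396) (nat_lit 368) (nat_lit 316))) (XT.nd (nat_lit 94) (nat_lit 168) (nat_lit 0) (XT.lf (nat_lit 0) (nat_lit 14074643489) (nat_lit 252) (nat_lit 765139641) (nat_lit 84) (nat_lit 12636899768) (nat_lit 50) (nat_lit 5) (nat_lit 53) (nat_lit 5) (nat_lit 51) (nat_lit 5) (nat_lit 397) (nat_lit 368) (nat_lit 315)) (XT.lf (nat_lit 0) (nat_lit 27437864451) (nat_lit 252) (nat_lit 212476470) (nat_lit 84) (nat_lit 1194103604) (nat_lit 48) (nat_lit 5) (nat_lit 51) (nat_lit 5) (nat_lit 49) (nat_lit 4) (nat_lit 398) (nat_lit 368) (nat_lit 314))))) (XT.nd (nat_lit 282) (nat_lit 672) (nat_lit 0) (XT.nd (nat_lit 94) (nat_lit 336) (nat_lit 0) (XT.lf (nat_lit 0) (nat_lit 281591018) (nat_lit 168) (nat_lit 11617502498) (nat_lit 252) (nat_lit 18377508224) (nat_lit 44) (nat_lit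 5) (nat_lit 46) (nat_lit 5) (nat_lit 47) (nat_lit 5) (nat_lit 399) (nat_lit 368) (nat_lit 313)) (XT.nd (nat_lit 94) (nat_lit 252) (nat_lit 0) (XT.lf (nat_lit 0) (nat_lit 1055574471) (nat_lit 84) (nat_lit 25748928265) (nat_lit 168) (nat_lit 4988447791) (nat_lit 43) (nat_lit 5) (nat_lit 44) (nat_lit 5) (nat_lit 45) (nat_lit 4) (nat_lit 400) (nat_lit 368) (nat_lit 312)) (XT.lf (nat_lit 0) (nat_lit 1894896016) (nat_lit 168) (nat_lit 7991541214) (nat_lit 252) (nat_lit 23500883243) (nat_lit 40) (nat_lit 5) (nat_lit 42) (nat_lit 5) (nat_lit 43) (nat_lit 5) (nat_lit 401) (nat_lit 368) (nat_lit 311)))) (XT.nd (nat_lit 188) (nat_lit 336) (nat_lit 0) (XT.nd (nat_lit 94) (nat_lit 252) (nat_lit 0) (XT.lf (nat_lit 0) (nat_lit 2909928171) (nat_lit 84) (nat_lit 23595897915) (nat_lit 168) (nat_lit 8562860838) (nat_lit 39) (nat_lit 5) (nat_lit 40) (nat_lit 5) (nat_lit 41) (nat_lit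 4) (nat_lit 402) (nat_lit 368) (nat_lit 310)) (XT.lf (nat_lit 0) (nat_lit 4135562589) (nat_lit 168) (nat_lit 3913056724) (nat_lit 252) (nat_lit 28793998288) (nat_lit 36) (nat_lit 5) (nat_lit 38) (nat_lit 5) (nat_lit 39) (nat_lit 5) (nat_lit 403) (nat_lit 368) (nat_lit 309))) (XT.nd (nat_lit 94) (nat_lit 252) (nat_lit 0) (XT.lf (nat_lit 0) (nat_lit 5435824239) (nat_lit 84) (nat_lit 21147278105) (nat_lit 168) (nat_lit 12123637380) (nat_lit 35) (nat_lit 5) (nat_lit 36) (nat_lit 5) (nat_lit 37) (nat_lit 4) (nat_lit 404) (nat_lit 368) (nat_lit 308)) (XT.lf (nat_lit 0) (nat_lit 6424977692) (nat_lit 252) (nat_lit 33586684098) (nat_lit 84) (nat_lit 667097722) (nat_lit 32) (nat_lit 5) (nat_lit 35) (nat_lit 5) (nat_lit 33) (nat_lit 4) (nat_lit 405) (nat_lit 368) (nat_lit 307))))))) (XT.nd (nat_lit 1316) (nat_lit 840) (nat_lit 0) (XT.nd (nat_lit 658) (nat_lit 924) (nat_lit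 0) (XT.nd (nat_lit 282) (nat_lit 504) (nat_lit 0) (XT.nd (nat_lit 94) (nat_lit 336) (nat_lit 0) (XT.lf (nat_lit 0) (nat_lit 8740008479) (nat_lit 84) (nat_lit 18347728537) (nat_lit 168) (nat_lit 15658116048) (nat_lit 31) (nat_lit 5) (nat_lit 32) (nat_lit 5) (nat_lit 33) (nat_lit 4) (nat_lit 406) (nat_lit 368) (nat_lit 306)) (XT.nd (nat_lit 94) (nat_lit 84) (nat_lit 0) (XT.lf (nat_lit 0) (nat_lit 5108897765) (nat_lit 252) (nat_lit 34116710758) (nat_lit 84) (nat_lit 5707984641) (nat_lit 28) (nat_lit 5) (nat_lit 31) (nat_lit 5) (nat_lit 29) (nat_lit 4) (nat_lit 407) (nat_lit 368) (nat_lit 305)) (XT.lf (nat_lit 0) (nat_lit 12945569261) (nat_lit 84) (nat_lit 15133269516) (nat_lit 168) (nat_lit 19150171661) (nat_lit 27) (nat_lit 5) (nat_lit 28) (nat_lit 5) (nat_lit 29) (nat_lit 4) (nat_lit 408) (nat_lit 368) (nat_lit 304)))) (XT.nd (nat_lit 188) (nat_lit 252) (nat_lit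 0) (XT.nd (nat_lit 94) (nat_lit 84) (nat_lit 0) (XT.lf (nat_lit 0) (nat_lit 4080171450) (nat_lit 168) (nat_lit 34150139980) (nat_lit 84) (nat_lit 11425089378) (nat_lit 25) (nat_lit 5) (nat_lit 27) (nat_lit 5) (nat_lit 26) (nat_lit 4) (nat_lit 409) (nat_lit 368) (nat_lit 303)) (XT.lf (nat_lit 0) (nat_lit 18194061873) (nat_lit 84) (nat_lit 11430261810) (nat_lit 168) (nat_lit 22579566342) (nat_lit 24) (nat_lit 5) (nat_lit 25) (nat_lit 5) (nat_lit 26) (nat_lit 4) (nat_lit 410) (nat_lit 368) (nat_lit 302))) (XT.nd (nat_lit 94) (nat_lit 84) (nat_lit 0) (XT.lf (nat_lit 0) (nat_lit 3386618887) (nat_lit 168) (nat_lit 33586510677) (nat_lit 84) (nat_lit 17921214525) (nat_lit 22) (nat_lit 5) (nat_lit 24) (nat_lit 5) (nat_lit 23) (nat_lit 4) (nat_lit 411) (nat_lit 368) (nat_lit 301)) (XT.lf (nat_lit 0) (nat_lit 24647924929) (nat_lit 84) (nat_lit 7154223560) (nat_lit 168)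 (nat_lit 25921221768) (nat_lit 21) (nat_lit 5) (nat_lit 22) (nat_lit 5) (nat_lit 23) (nat_lit 4) (nat_lit 412) (nat_lit 368) (nat_lit 300))))) (XT.nd (nat_lit 282) (nat_lit 504) (nat_lit 0) (XT.nd (nat_lit 94) (nat_lit 252) (nat_lit 0) (XT.lf (nat_lit 0) (nat_lit 3084029622) (nat_lit 168) (nat_lit 32308777997) (nat_lit 84) (nat_lit 25313242845) (nat_lit 19) (nat_lit 5) (nat_lit 21) (nat_lit 5) (nat_lit 20) (nat_lit 4) (nat_lit 413) (nat_lit 368) (nat_lit 299)) (XT.nd (nat_lit 94) (nat_lit 168) (nat_lit 0) (XT.lf (nat_lit 0) (nat_lit 32493222621) (nat_lit 84) (nat_lit 2208469445) (nat_lit 168) (nat_lit 29144398903) (nat_lit 18) (nat_lit 5) (nat_lit 19) (nat_lit 5) (nat_lit 20) (nat_lit 4) (nat_lit 414) (nat_lit 368) (nat_lit 298)) (XT.lf (nat_lit 0) (nat_lit 3237326316) (nat_lit 168) (nat_lit 30181005916) (nat_lit 84) (nat_lit 33733871062) (nat_lit 16) (nat_lit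 5) (nat_lit 18) (nat_lit 5) (nat_lit 17) (nat_lit 4) (nat_lit 415) (nat_lit 368) (nat_lit 297)))) (XT.nd (nat_lit 188) (nat_lit 252) (nat_lit 0) (XT.nd (nat_lit 94) (nat_lit 168) (nat_lit 0) (XT.lf (nat_lit 0) (nat_lit 38480222885) (nat_lit 168) (nat_lit 28749241941) (nat_lit 0) (nat_lit 3404865372) (nat_lit 15) (nat_lit 5) (nat_lit 17) (nat_lit 4) (nat_lit 15) (nat_lit 4) (nat_lit 416) (nat_lit 368) (nat_lit 296)) (XT.lf (nat_lit 0) (nat_lit 3921875798) (nat_lit 168) (nat_lit 27045741863) (nat_lit 84) (nat_lit 43333578849) (nat_lit 13) (nat_lit 5) (nat_lit 15) (nat_lit 5) (nat_lit 14) (nat_lit 4) (nat_lit 417) (nat_lit 368) (nat_lit 295))) (XT.nd (nat_lit 94) (nat_lit 168) (nat_lit 0) (XT.lf (nat_lit 0) (nat_lit 43248517372) (nat_lit 168) (nat_lit 25087332337) (nat_lit 0) (nat_lit 9824651437) (nat_lit 12) (nat_lit 5) (nat_lit 14) (nat_lit 4) (nat_lit 12)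 (nat_lit 4) (nat_lit 418) (nat_lit 368) (nat_lit 294)) (XT.lf (nat_lit 0) (nat_lit 5224967991) (nat_lit 168) (nat_lit 22721034268) (nat_lit 84) (nat_lit 54282858546) (nat_lit 10) (nat_lit 5) (nat_lit 12) (nat_lit 5) (nat_lit 11) (nat_lit 4) (nat_lit 419) (nat_lit 368) (nat_lit 293)))))) (XT.nd (nat_lit 658) (nat_lit 0) (nat_lit 0) (XT.nd (nat_lit 282) (nat_lit 504) (nat_lit 0) (XT.nd (nat_lit 94) (nat_lit 252) (nat_lit 0) (XT.lf (nat_lit 0) (nat_lit 49108075742) (nat_lit 168) (nat_lit 20137578037) (nat_lit 0) (nat_lit 17260501793) (nat_lit 9) (nat_lit 5) (nat_lit 11) (nat_lit 4) (nat_lit 9) (nat_lit 4) (nat_lit 420) (nat_lit 368) (nat_lit 292)) (XT.nd (nat_lit 94) (nat_lit 84) (nat_lit 0) (XT.lf (nat_lit 0) (nat_lit 7247485526) (nat_lit 168) (nat_lit 16997048722) (nat_lit 84) (nat_lit 66774734835) (nat_lit 7) (nat_lit 5) (nat_lit 9) (nat_lit 5) (nat_lit 8)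 (nat_lit 4) (nat_lit 421) (nat_lit 368) (nat_lit 291)) (XT.lf (nat_lit 0) (nat_lit 56214067057) (nat_lit 168) (nat_lit 13675194866) (nat_lit 0) (nat_lit 25870534713) (nat_lit 6) (nat_lit 5) (nat_lit 8) (nat_lit 4) (nat_lit 6) (nat_lit 4) (nat_lit 422) (nat_lit 368) (nat_lit 290)))) (XT.nd (nat_lit 188) (nat_lit 252) (nat_lit 0) (XT.nd (nat_lit 94) (nat_lit 84) (nat_lit 0) (XT.lf (nat_lit 0) (nat_lit 10105789455) (nat_lit 168) (nat_lit 9632232663) (nat_lit 84) (nat_lit 81027607598) (nat_lit 4) (nat_lit 5) (nat_lit 6) (nat_lit 5) (nat_lit 5) (nat_lit 4) (nat_lit 423) (nat_lit 368) (nat_lit 289)) (XT.lf (nat_lit 0) (nat_lit 64743371045) (nat_lit 168) (nat_lit 5441617716) (nat_lit 0) (nat_lit 35834554612) (nat_lit 3) (nat_lit 5) (nat_lit 5) (nat_lit 4) (nat_lit 3) (nat_lit 4) (nat_lit 424) (nat_lit 368) (nat_lit 288))) (XT.nd (nat_lit 94) (nat_lit 84) (nat_lit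 0) (XT.lf (nat_lit 0) (nat_lit 13933849398) (nat_lit 168) (nat_lit 348972086) (nat_lit 84) (nat_lit 97288455645) (nat_lit 1) (nat_lit 5) (nat_lit 3) (nat_lit 5) (nat_lit 2) (nat_lit 4) (nat_lit 425) (nat_lit 368) (nat_lit 287)) (XT.lf (nat_lit 0) (nat_lit 174522266862) (nat_lit 0) (nat_lit 0) (nat_lit 0) (nat_lit 0) (nat_lit 0) (nat_lit 0) (nat_lit 1) (nat_lit 0) (nat_lit 1) (nat_lit 0) (nat_lit 426) (nat_lit 368) (nat_lit 286))))) (XT.nd (nat_lit 376) (nat_lit 0) (nat_lit 0) (XT.nd (nat_lit 188) (nat_lit 0) (nat_lit 0) (XT.nd (nat_lit 94) (nat_lit 0) (nat_lit 0) (XT.lf (nat_lit 0) (nat_lit 188324498265) (nat_lit 0) (nat_lit 0) (nat_lit 0) (nat_lit 0) (nat_lit 0) (nat_lit 0) (nat_lit 1) (nat_lit 0) (nat_lit 1) (nat_lit 0) (nat_lit 427) (nat_lit 368) (nat_lit 285)) (XT.lf (nat_lit 0) (nat_lit 203230949384) (nat_lit 0) (nat_lit 0) (nat_lit 0) (nat_lit 0) (nat_lit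 0) (nat_lit 0) (nat_lit 1) (nat_lit 0) (nat_lit 1) (nat_lit 0) (nat_lit 428) (nat_lit 368) (nat_lit 284))) (XT.nd (nat_lit 94) (nat_lit 0) (nat_lit 0) (XT.lf (nat_lit 0) (nat_lit 219329954744) (nat_lit 0) (nat_lit 0) (nat_lit 0) (nat_lit 0) (nat_lit 0) (nat_lit 0) (nat_lit 1) (nat_lit 0) (nat_lit 1) (nat_lit 0) (nat_lit 429) (nat_lit 368) (nat_lit 283)) (XT.lf (nat_lit 0) (nat_lit 236716915858) (nat_lit 0) (nat_lit 0) (nat_lit 0) (nat_lit 0) (nat_lit 0) (nat_lit 0) (nat_lit 1) (nat_lit 0) (nat_lit 1) (nat_lit 0) (nat_lit 430) (nat_lit 368) (nat_lit 282)))) (XT.nd (nat_lit 188) (nat_lit 0) (nat_lit 0) (XT.nd (nat_lit 94) (nat_lit 0) (nat_lit 0) (XT.lf (nat_lit 0) (nat_lit 255494866571) (nat_lit 0) (nat_lit 0) (nat_lit 0) (nat_lit 0) (nat_lit 0) (nat_lit 0) (nat_lit 1) (nat_lit 0) (nat_lit 1) (nat_lit 0) (nat_lit 431) (nat_lit 368) (nat_lit 281)) (XT.lf (nat_lit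 0) (nat_lit 275775083626) (nat_lit 0) (nat_lit 0) (nat_lit 0) (nat_lit 0) (nat_lit 0) (nat_lit 0) (nat_lit 1) (nat_lit 0) (nat_lit 1) (nat_lit 0) (nat_lit 432) (nat_lit 368) (nat_lit 280))) (XT.nd (nat_lit 94) (nat_lit 0) (nat_lit 0) (XT.lf (nat_lit 0) (nat_lit 297677746089) (nat_lit 0) (nat_lit 0) (nat_lit 0) (nat_lit 0) (nat_lit 0) (nat_lit 0) (nat_lit 1) (nat_lit 0) (nat_lit 1) (nat_lit 0) (nat_lit 433) (nat_lit 368) (nat_lit 279)) (XT.lf (nat_lit 0) (nat_lit 321332647514) (nat_lit 0) (nat_lit 0) (nat_lit 0) (nat_lit 0) (nat_lit 0) (nat_lit 0) (nat_lit 1) (nat_lit 0) (nat_lit 1) (nat_lit 0) (nat_lit 434) (nat_lit 368) (nat_lit 278))))))))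
noncomputable def xc107 : XT := (XT.nd (nat_lit 2632) (nat_lit 0) (nat_lit 0) (XT.nd (nat_lit 1316) (nat_lit 0) (nat_lit 0) (XT.nd (nat_lit 658) (nat_lit 0) (nat_lit 0) (XT.nd (nat_lit 282) (nat_lit 0) (nat_lit 0) (XT.nd (nat_lit 94) (nat_lit 0) (nat_lit 0) (XT.lf (nat_lit 0) (nat_lit 346879965095) (nat_lit 0) (nat_lit 0) (nat_lit 0) (nat_lit 0) (nat_lit 0) (nat_lit 0) (nat_lit 1) (nat_lit 0) (nat_lit 1) (nat_lit 0) (nat_lit 435) (nat_lit 368) (nat_lit 277)) (XT.nd (nat_lit 94) (nat_lit 0) (nat_lit 0) (XT.lf (nat_lit 0) (nat_lit 374471090344) (nat_lit 0) (nat_lit 0) (nat_lit 0) (nat_lit 0) (nat_lit 0) (nat_lit 0) (nat_lit 1) (nat_lit 0) (nat_lit 1) (nat_lit 0) (nat_lit 436) (nat_lit 368) (nat_lit 276)) (XT.lf (nat_lit 0) (nat_lit 404269526225) (nat_lit 0) (nat_lit 0) (nat_lit 0) (nat_lit 0) (nat_lit 0) (nat_lit 0) (nat_lit 1) (nat_lit 0) (nat_lit 1) (nat_lit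 0) (nat_lit 437) (nat_lit 368) (nat_lit 275)))) (XT.nd (nat_lit 188) (nat_lit 0) (nat_lit 0) (XT.nd (nat_lit 94) (nat_lit 0) (nat_lit 0) (XT.lf (nat_lit 0) (nat_lit 436451856062) (nat_lit 0) (nat_lit 0) (nat_lit 0) (nat_lit 0) (nat_lit 0) (nat_lit 0) (nat_lit 1) (nat_lit 0) (nat_lit 1) (nat_lit 0) (nat_lit 438) (nat_lit 368) (nat_lit 274)) (XT.lf (nat_lit 0) (nat_lit 471208789957) (nat_lit 0) (nat_lit 0) (nat_lit 0) (nat_lit 0) (nat_lit 0) (nat_lit 0) (nat_lit 1) (nat_lit 0) (nat_lit 1) (nat_lit 0) (nat_lit 439) (nat_lit 368) (nat_lit 273))) (XT.nd (nat_lit 94) (nat_lit 0) (nat_lit 0) (XT.lf (nat_lit 0) (nat_lit 508746294926) (nat_lit 0) (nat_lit 0) (nat_lit 0) (nat_lit 0) (nat_lit 0) (nat_lit 0) (nat_lit 1) (nat_lit 0) (nat_lit 1) (nat_lit 0) (nat_lit 440) (nat_lit 368) (nat_lit 272)) (XT.lf (nat_lit 0) (nat_lit 549286815444) (nat_lit 0) (nat_lit 0) (nat_lit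 0) (nat_lit 0) (nat_lit 0) (nat_lit 0) (nat_lit 1) (nat_lit 0) (nat_lit 1) (nat_lit 0) (nat_lit 441) (nat_lit 368) (nat_lit 271))))) (XT.nd (nat_lit 282) (nat_lit 0) (nat_lit 0) (XT.nd (nat_lit 94) (nat_lit 0) (nat_lit 0) (XT.lf (nat_lit 0) (nat_lit 593070591631) (nat_lit 0) (nat_lit 0) (nat_lit 0) (nat_lit 0) (nat_lit 0) (nat_lit 0) (nat_lit 1) (nat_lit 0) (nat_lit 1) (nat_lit 0) (nat_lit 442) (nat_lit 368) (nat_lit 270)) (XT.nd (nat_lit 94) (nat_lit 0) (nat_lit 0) (XT.lf (nat_lit 0) (nat_lit 640357082903) (nat_lit 0) (nat_lit 0) (nat_lit 0) (nat_lit 0) (nat_lit 0) (nat_lit 0) (nat_lit 1) (nat_lit 0) (nat_lit 1) (nat_lit 0) (nat_lit 443) (nat_lit 368) (nat_lit 269)) (XT.lf (nat_lit 0) (nat_lit 691426505503) (nat_lit 0) (nat_lit 0) (nat_lit 0) (nat_lit 0) (nat_lit 0) (nat_lit 0) (nat_lit 1) (nat_lit 0) (nat_lit 1) (nat_lit 0) (nat_lit 444) (nat_lit 368) (nat_lit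 268)))) (XT.nd (nat_lit 188) (nat_lit 0) (nat_lit 0) (XT.nd (nat_lit 94) (nat_lit 0) (nat_lit 0) (XT.lf (nat_lit 0) (nat_lit 746581493048) (nat_lit 0) (nat_lit 0) (nat_lit 0) (nat_lit 0) (nat_lit 0) (nat_lit 0) (nat_lit 1) (nat_lit 0) (nat_lit 1) (nat_lit 0) (nat_lit 445) (nat_lit 368) (nat_lit 267)) (XT.lf (nat_lit 0) (nat_lit 806148889907) (nat_lit 0) (nat_lit 0) (nat_lit 0) (nat_lit 0) (nat_lit 0) (nat_lit 0) (nat_lit 1) (nat_lit 0) (nat_lit 1) (nat_lit 0) (nat_lit 446) (nat_lit 368) (nat_lit 266))) (XT.nd (nat_lit 94) (nat_lit 0) (nat_lit 0) (XT.lf (nat_lit 0) (nat_lit 870481688062) (nat_lit 0) (nat_lit 0) (nat_lit 0) (nat_lit 0) (nat_lit 0) (nat_lit 0) (nat_lit 1) (nat_lit 0) (nat_lit 1) (nat_lit 0) (nat_lit 447) (nat_lit 368) (nat_lit 265)) (XT.lf (nat_lit 0) (nat_lit 939961118910) (nat_lit 0) (nat_lit 0) (nat_lit 0) (nat_lit 0) (nat_lit 0) (nat_lit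 0) (nat_lit 1) (nat_lit 0) (nat_lit 1) (nat_lit 0) (nat_lit 448) (nat_lit 368) (nat_lit 264)))))) (XT.nd (nat_lit 658) (nat_lit 0) (nat_lit 0) (XT.nd (nat_lit 282) (nat_lit 0) (nat_lit 0) (XT.nd (nat_lit 94) (nat_lit 0) (nat_lit 0) (XT.lf (nat_lit 0) (nat_lit 1014998912411) (nat_lit 0) (nat_lit 0) (nat_lit 0) (nat_lit 0) (nat_lit 0) (nat_lit 0) (nat_lit 1) (nat_lit 0) (nat_lit 1) (nat_lit 0) (nat_lit 449) (nat_lit 368) (nat_lit 263)) (XT.nd (nat_lit 94) (nat_lit 0) (nat_lit 0) (XT.lf (nat_lit 0) (nat_lit 1096039736972) (nat_lit 0) (nat_lit 0) (nat_lit 0) (nat_lit 0) (nat_lit 0) (nat_lit 0) (nat_lit 1) (nat_lit 0) (nat_lit 1) (nat_lit 0) (nat_lit 450) (nat_lit 368) (nat_lit 262)) (XT.lf (nat_lit 0) (nat_lit 1183563834514) (nat_lit 0) (nat_lit 0) (nat_lit 0) (nat_lit 0) (nat_lit 0) (nat_lit 0) (nat_lit 1) (nat_lit 0) (nat_lit 1) (nat_lit 0) (nat_lit 451) (nat_lit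 368) (nat_lit 261)))) (XT.nd (nat_lit 188) (nat_lit 0) (nat_lit 0) (XT.nd (nat_lit 94) (nat_lit 0) (nat_lit 0) (XT.lf (nat_lit 0) (nat_lit 1278089866358) (nat_lit 0) (nat_lit 0) (nat_lit 0) (nat_lit 0) (nat_lit 0) (nat_lit 0) (nat_lit 1) (nat_lit 0) (nat_lit 1) (nat_lit 0) (nat_lit 452) (nat_lit 368) (nat_lit 260)) (XT.lf (nat_lit 0) (nat_lit 1380177986766) (nat_lit 0) (nat_lit 0) (nat_lit 0) (nat_lit 0) (nat_lit 0) (nat_lit 0) (nat_lit 1) (nat_lit 0) (nat_lit 1) (nat_lit 0) (nat_lit 453) (nat_lit 368) (nat_lit 259))) (XT.nd (nat_lit 94) (nat_lit 0) (nat_lit 0) (XT.lf (nat_lit 0) (nat_lit 1490433162378) (nat_lit 0) (nat_lit 0) (nat_lit 0) (nat_lit 0) (nat_lit 0) (nat_lit 0) (nat_lit 1) (nat_lit 0) (nat_lit 1) (nat_lit 0) (nat_lit 454) (nat_lit 368) (nat_lit 258)) (XT.lf (nat_lit 0) (nat_lit 1609508757197) (nat_lit 0) (nat_lit 0) (nat_lit 0) (nat_lit 0) (nat_lit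 0) (nat_lit 0) (nat_lit 1) (nat_lit 0) (nat_lit 1) (nat_lit 0) (nat_lit 455) (nat_lit 368) (nat_lit 257))))) (XT.nd (nat_lit 282) (nat_lit 0) (nat_lit 0) (XT.nd (nat_lit 94) (nat_lit 0) (nat_lit 0) (XT.lf (nat_lit 0) (nat_lit 1738110404377) (nat_lit 0) (nat_lit 0) (nat_lit 0) (nat_lit 0) (nat_lit 0) (nat_lit 0) (nat_lit 1) (nat_lit 0) (nat_lit 1) (nat_lit 0) (nat_lit 456) (nat_lit 368) (nat_lit 256)) (XT.nd (nat_lit 94) (nat_lit 0) (nat_lit 0) (XT.lf (nat_lit 0) (nat_lit 1877000187754) (nat_lit 0) (nat_lit 0) (nat_lit 0) (nat_lit 0) (nat_lit 0) (nat_lit 0) (nat_lit 1) (nat_lit 0) (nat_lit 1) (nat_lit 0) (nat_lit 457) (nat_lit 368) (nat_lit 255)) (XT.lf (nat_lit 0) (nat_lit 2027001157896) (nat_lit 0) (nat_lit 0) (nat_lit 0) (nat_lit 0) (nat_lit 0) (nat_lit 0) (nat_lit 1) (nat_lit 0) (nat_lit 1) (nat_lit 0) (nat_lit 458) (nat_lit 368) (nat_lit 254)))) (XT.nd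 (nat_lit 188) (nat_lit 0) (nat_lit 0) (XT.nd (nat_lit 94) (nat_lit 0) (nat_lit 0) (XT.lf (nat_lit 0) (nat_lit 2189002209440) (nat_lit 0) (nat_lit 0) (nat_lit 0) (nat_lit 0) (nat_lit 0) (nat_lit 0) (nat_lit 1) (nat_lit 0) (nat_lit 1) (nat_lit 0) (nat_lit 459) (nat_lit 368) (nat_lit 253)) (XT.lf (nat_lit 0) (nat_lit 2363963348619) (nat_lit 0) (nat_lit 0) (nat_lit 0) (nat_lit 0) (nat_lit 0) (nat_lit 0) (nat_lit 1) (nat_lit 0) (nat_lit 1) (nat_lit 0) (nat_lit 460) (nat_lit 368) (nat_lit 252))) (XT.nd (nat_lit 94) (nat_lit 0) (nat_lit 0) (XT.lf (nat_lit 0) (nat_lit 2552921382183) (nat_lit 0) (nat_lit 0) (nat_lit 0) (nat_lit 0) (nat_lit 0) (nat_lit 0) (nat_lit 1) (nat_lit 0) (nat_lit 1) (nat_lit 0) (nat_lit 461) (nat_lit 368) (nat_lit 251)) (XT.lf (nat_lit 0) (nat_lit 2756996061441) (nat_lit 0) (nat_lit 0) (nat_lit 0) (nat_lit 0) (nat_lit 0) (nat_lit 0) (nat_lit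 1) (nat_lit 0) (nat_lit 1) (nat_lit 0) (nat_lit 462) (nat_lit 368) (nat_lit 250))))))) (XT.nd (nat_lit 1316) (nat_lit 0) (nat_lit 0) (XT.nd (nat_lit 658) (nat_lit 0) (nat_lit 0) (XT.nd (nat_lit 282) (nat_lit 0) (nat_lit 0) (XT.nd (nat_lit 94) (nat_lit 0) (nat_lit 0) (XT.lf (nat_lit 0) (nat_lit 2977396717827) (nat_lit 0) (nat_lit 0) (nat_lit 0) (nat_lit 0) (nat_lit 0) (nat_lit 0) (nat_lit 1) (nat_lit 0) (nat_lit 1) (nat_lit 0) (nat_lit 463) (nat_lit 368) (nat_lit 249)) (XT.nd (nat_lit 94) (nat_lit 0) (nat_lit 0) (XT.lf (nat_lit 0) (nat_lit 3215429429304) (nat_lit 0) (nat_lit 0) (nat_lit 0) (nat_lit 0) (nat_lit 0) (nat_lit 0) (nat_lit 1) (nat_lit 0) (nat_lit 1) (nat_lit 0) (nat_lit 464) (nat_lit 368) (nat_lit 248)) (XT.lf (nat_lit 0) (nat_lit 3472504760089) (nat_lit 0) (nat_lit 0) (nat_lit 0) (nat_lit 0) (nat_lit 0) (nat_lit 0) (nat_lit 1) (nat_lit 0) (nat_lit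 1) (nat_lit 0) (nat_lit 465) (nat_lit 368) (nat_lit 247)))) (XT.nd (nat_lit 188) (nat_lit 0) (nat_lit 0) (XT.nd (nat_lit 94) (nat_lit 0) (nat_lit 0) (XT.lf (nat_lit 0) (nat_lit 3750146119548) (nat_lit 0) (nat_lit 0) (nat_lit 0) (nat_lit 0) (nat_lit 0) (nat_lit 0) (nat_lit 1) (nat_lit 0) (nat_lit 1) (nat_lit 0) (nat_lit 466) (nat_lit 368) (nat_lit 246)) (XT.lf (nat_lit 0) (nat_lit 4049998789813) (nat_lit 0) (nat_lit 0) (nat_lit 0) (nat_lit 0) (nat_lit 0) (nat_lit 0) (nat_lit 1) (nat_lit 0) (nat_lit 1) (nat_lit 0) (nat_lit 467) (nat_lit 368) (nat_lit 245))) (XT.nd (nat_lit 94) (nat_lit 0) (nat_lit 0) (XT.lf (nat_lit 0) (nat_lit 4373839675595) (nat_lit 0) (nat_lit 0) (nat_lit 0) (nat_lit 0) (nat_lit 0) (nat_lit 0) (nat_lit 1) (nat_lit 0) (nat_lit 1) (nat_lit 0) (nat_lit 468) (nat_lit 368) (nat_lit 244)) (XT.lf (nat_lit 0) (nat_lit 4723587833997) (nat_lit 0) (nat_lit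 0) (nat_lit 0) (nat_lit 0) (nat_lit 0) (nat_lit 0) (nat_lit 1) (nat_lit 0) (nat_lit 1) (nat_lit 0) (nat_lit 469) (nat_lit 368) (nat_lit 243))))) (XT.nd (nat_lit 282) (nat_lit 0) (nat_lit 0) (XT.nd (nat_lit 94) (nat_lit 0) (nat_lit 0) (XT.lf (nat_lit 0) (nat_lit 5101315846696) (nat_lit 0) (nat_lit 0) (nat_lit 0) (nat_lit 0) (nat_lit 0) (nat_lit 0) (nat_lit 1) (nat_lit 0) (nat_lit 1) (nat_lit 0) (nat_lit 470) (nat_lit 368) (nat_lit 242)) (XT.nd (nat_lit 94) (nat_lit 0) (nat_lit 0) (XT.lf (nat_lit 0) (nat_lit 5509262101917) (nat_lit 0) (nat_lit 0) (nat_lit 0) (nat_lit 0) (nat_lit 0) (nat_lit 0) (nat_lit 1) (nat_lit 0) (nat_lit 1) (nat_lit 0) (nat_lit 471) (nat_lit 368) (nat_lit 241)) (XT.lf (nat_lit 0) (nat_lit 5949844058950) (nat_lit 0) (nat_lit 0) (nat_lit 0) (nat_lit 0) (nat_lit 0) (nat_lit 0) (nat_lit 1) (nat_lit 0) (nat_lit 1) (nat_lit 0) (nat_lit 472) (nat_lit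 368) (nat_lit 240)))) (XT.nd (nat_lit 188) (nat_lit 0) (nat_lit 0) (XT.nd (nat_lit 94) (nat_lit 0) (nat_lit 0) (XT.lf (nat_lit 0) (nat_lit 6425672573836) (nat_lit 0) (nat_lit 0) (nat_lit 0) (nat_lit 0) (nat_lit 0) (nat_lit 0) (nat_lit 1) (nat_lit 0) (nat_lit 1) (nat_lit 0) (nat_lit 473) (nat_lit 368) (nat_lit 239)) (XT.lf (nat_lit 0) (nat_lit 6939567371108) (nat_lit 0) (nat_lit 0) (nat_lit 0) (nat_lit 0) (nat_lit 0) (nat_lit 0) (nat_lit 1) (nat_lit 0) (nat_lit 1) (nat_lit 0) (nat_lit 474) (nat_lit 368) (nat_lit 238))) (XT.nd (nat_lit 94) (nat_lit 0) (nat_lit 0) (XT.lf (nat_lit 0) (nat_lit 7494573753269) (nat_lit 0) (nat_lit 0) (nat_lit 0) (nat_lit 0) (nat_lit 0) (nat_lit 0) (nat_lit 1) (nat_lit 0) (nat_lit 1) (nat_lit 0) (nat_lit 475) (nat_lit 368) (nat_lit 237)) (XT.lf (nat_lit 0) (nat_lit 8093980647028) (nat_lit 0) (nat_lit 0) (nat_lit 0) (nat_lit 0) (nat_lit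 0) (nat_lit 0) (nat_lit 1) (nat_lit 0) (nat_lit 1) (nat_lit 0) (nat_lit 476) (nat_lit 368) (nat_lit 236)))))) (XT.nd (nat_lit 658) (nat_lit 0) (nat_lit 0) (XT.nd (nat_lit 282) (nat_lit 0) (nat_lit 0) (XT.nd (nat_lit 94) (nat_lit 0) (nat_lit 0) (XT.lf (nat_lit 0) (nat_lit 8741340093236) (nat_lit 0) (nat_lit 0) (nat_lit 0) (nat_lit 0) (nat_lit 0) (nat_lit 0) (nat_lit 1) (nat_lit 0) (nat_lit 1) (nat_lit 0) (nat_lit 477) (nat_lit 368) (nat_lit 235)) (XT.nd (nat_lit 94) (nat_lit 0) (nat_lit 0) (XT.lf (nat_lit 0) (nat_lit 9440488296019) (nat_lit 0) (nat_lit 0) (nat_lit 0) (nat_lit 0) (nat_lit 0) (nat_lit 0) (nat_lit 1) (nat_lit 0) (nat_lit 1) (nat_lit 0) (nat_lit 478) (nat_lit 368) (nat_lit 234)) (XT.lf (nat_lit 0) (nat_lit 10195568355838) (nat_lit 0) (nat_lit 0) (nat_lit 0) (nat_lit 0) (nat_lit 0) (nat_lit 0) (nat_lit 1) (nat_lit 0) (nat_lit 1) (nat_lit 0) (nat_lit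 479) (nat_lit 368) (nat_lit 233)))) (XT.nd (nat_lit 188) (nat_lit 0) (nat_lit 0) (XT.nd (nat_lit 94) (nat_lit 0) (nat_lit 0) (XT.lf (nat_lit 0) (nat_lit 11011054821195) (nat_lit 0) (nat_lit 0) (nat_lit 0) (nat_lit 0) (nat_lit 0) (nat_lit 0) (nat_lit 1) (nat_lit 0) (nat_lit 1) (nat_lit 0) (nat_lit 480) (nat_lit 368) (nat_lit 232)) (XT.lf (nat_lit 0) (nat_lit 11891780204479) (nat_lit 0) (nat_lit 0) (nat_lit 0) (nat_lit 0) (nat_lit 0) (nat_lit 0) (nat_lit 1) (nat_lit 0) (nat_lit 1) (nat_lit 0) (nat_lit 481) (nat_lit 368) (nat_lit 231))) (XT.nd (nat_lit 94) (nat_lit 0) (nat_lit 0) (XT.lf (nat_lit 0) (nat_lit 12842963619072) (nat_lit 0) (nat_lit 0) (nat_lit 0) (nat_lit 0) (nat_lit 0) (nat_lit 0) (nat_lit 1) (nat_lit 0) (nat_lit 1) (nat_lit 0) (nat_lit 482) (nat_lit 368) (nat_lit 230)) (XT.lf (nat_lit 0) (nat_lit 13870241707429) (nat_lit 0) (nat_lit 0) (nat_lit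 0) (nat_lit 0) (nat_lit 0) (nat_lit 0) (nat_lit 1) (nat_lit 0) (nat_lit 1) (nat_lit 0) (nat_lit 483) (nat_lit 368) (nat_lit 229))))) (XT.nd (nat_lit 376) (nat_lit 0) (nat_lit 0) (XT.nd (nat_lit 188) (nat_lit 0) (nat_lit 0) (XT.nd (nat_lit 94) (nat_lit 0) (nat_lit 0) (XT.lf (nat_lit 0) (nat_lit 14979702043409) (nat_lit 0) (nat_lit 0) (nat_lit 0) (nat_lit 0) (nat_lit 0) (nat_lit 0) (nat_lit 1) (nat_lit 0) (nat_lit 1) (nat_lit 0) (nat_lit 484) (nat_lit 368) (nat_lit 228)) (XT.lf (nat_lit 0) (nat_lit 16177919206780) (nat_lit 0) (nat_lit 0) (nat_lit 0) (nat_lit 0) (nat_lit 0) (nat_lit 0) (nat_lit 1) (nat_lit 0) (nat_lit 1) (nat_lit 0) (nat_lit 485) (nat_lit 368) (nat_lit 227))) (XT.nd (nat_lit 94) (nat_lit 0) (nat_lit 0) (XT.lf (nat_lit 0) (nat_lit 17471993743695) (nat_lit 0) (nat_lit 0) (nat_lit 0) (nat_lit 0) (nat_lit 0) (nat_lit 0) (nat_lit 1) (nat_lit 0) (nat_lit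 1) (nat_lit 0) (nat_lit 486) (nat_lit 368) (nat_lit 226)) (XT.lf (nat_lit 0) (nat_lit 18869594244003) (nat_lit 0) (nat_lit 0) (nat_lit 0) (nat_lit 0) (nat_lit 0) (nat_lit 0) (nat_lit 1) (nat_lit 0) (nat_lit 1) (nat_lit 0) (nat_lit 487) (nat_lit 368) (nat_lit 225)))) (XT.nd (nat_lit 188) (nat_lit 0) (nat_lit 0) (XT.nd (nat_lit 94) (nat_lit 0) (nat_lit 0) (XT.lf (nat_lit 0) (nat_lit 20379002784742) (nat_lit 0) (nat_lit 0) (nat_lit 0) (nat_lit 0) (nat_lit 0) (nat_lit 0) (nat_lit 1) (nat_lit 0) (nat_lit 1) (nat_lit 0) (nat_lit 488) (nat_lit 368) (nat_lit 224)) (XT.lf (nat_lit 0) (nat_lit 22009164009117) (nat_lit 0) (nat_lit 0) (nat_lit 0) (nat_lit 0) (nat_lit 0) (nat_lit 0) (nat_lit 1) (nat_lit 0) (nat_lit 1) (nat_lit 0) (nat_lit 489) (nat_lit 368) (nat_lit 223))) (XT.nd (nat_lit 94) (nat_lit 0) (nat_lit 0) (XT.lf (nat_lit 0) (nat_lit 23769738131791) (nat_lit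 0) (nat_lit 0) (nat_lit 0) (nat_lit 0) (nat_lit 0) (nat_lit 0) (nat_lit 1) (nat_lit 0) (nat_lit 1) (nat_lit 0) (nat_lit 490) (nat_lit 368) (nat_lit 222)) (XT.lf (nat_lit 0) (nat_lit 25671158184602) (nat_lit 0) (nat_lit 0) (nat_lit 0) (nat_lit 0) (nat_lit 0) (nat_lit 0) (nat_lit 1) (nat_lit 0) (nat_lit 1) (nat_lit 0) (nat_lit 491) (nat_lit 368) (nat_lit 221))))))))
noncomputable def xc108 : XT := (XT.nd (nat_lit 57810) (nat_lit 0) (nat_lit 1596) (XT.nd (nat_lit 56494) (nat_lit 0) (nat_lit 7224) (XT.nd (nat_lit 658) (nat_lit 0) (nat_lit 0) (XT.nd (nat_lit 282) (nat_lit 0) (nat_lit 0) (XT.nd (nat_lit 94) (nat_lit 0) (nat_lit 0) (XT.lf (nat_lit 0) (nat_lit 27724691841937) (nat_lit 0) (nat_lit 0) (nat_lit 0) (nat_lit 0) (nat_lit 0) (nat_lit 0) (nat_lit 1) (nat_lit 0) (nat_lit 1) (nat_lit 0) (nat_lit 492) (nat_lit 368) (nat_lit 220)) (XT.nd (nat_lit 94) (nat_lit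 0) (nat_lit 0) (XT.lf (nat_lit 0) (nat_lit 29942508192136) (nat_lit 0) (nat_lit 0) (nat_lit 0) (nat_lit 0) (nat_lit 0) (nat_lit 0) (nat_lit 1) (nat_lit 0) (nat_lit 1) (nat_lit 0) (nat_lit 493) (nat_lit 368) (nat_lit 219)) (XT.lf (nat_lit 0) (nat_lit 32337749850607) (nat_lit 0) (nat_lit 0) (nat_lit 0) (nat_lit 0) (nat_lit 0) (nat_lit 0) (nat_lit 1) (nat_lit 0) (nat_lit 1) (nat_lit 0) (nat_lit 494) (nat_lit 368) (nat_lit 218)))) (XT.nd (nat_lit 188) (nat_lit 0) (nat_lit 0) (XT.nd (nat_lit 94) (nat_lit 0) (nat_lit 0) (XT.lf (nat_lit 0) (nat_lit 34924610841994) (nat_lit 0) (nat_lit 0) (nat_lit 0) (nat_lit 0) (nat_lit 0) (nat_lit 0) (nat_lit 1) (nat_lit 0) (nat_lit 1) (nat_lit 0) (nat_lit 495) (nat_lit 368) (nat_lit 217)) (XT.lf (nat_lit 0) (nat_lit 37718420712911) (nat_lit 0) (nat_lit 0) (nat_lit 0) (nat_lit 0) (nat_lit 0) (nat_lit 0) (nat_lit 1) (nat_lit 0) (nat_lit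 1) (nat_lit 0) (nat_lit 496) (nat_lit 368) (nat_lit 216))) (XT.nd (nat_lit 94) (nat_lit 0) (nat_lit 0) (XT.lf (nat_lit 0) (nat_lit 40735735373705) (nat_lit 0) (nat_lit 0) (nat_lit 0) (nat_lit 0) (nat_lit 0) (nat_lit 0) (nat_lit 1) (nat_lit 0) (nat_lit 1) (nat_lit 0) (nat_lit 497) (nat_lit 368) (nat_lit 215)) (XT.lf (nat_lit 0) (nat_lit 43994435207551) (nat_lit 0) (nat_lit 0) (nat_lit 0) (nat_lit 0) (nat_lit 0) (nat_lit 0) (nat_lit 1) (nat_lit 0) (nat_lit 1) (nat_lit 0) (nat_lit 498) (nat_lit 368) (nat_lit 214))))) (XT.nd (nat_lit 282) (nat_lit 0) (nat_lit 0) (XT.nd (nat_lit 94) (nat_lit 0) (nat_lit 0) (XT.lf (nat_lit 0) (nat_lit 47513831028279) (nat_lit 0) (nat_lit 0) (nat_lit 0) (nat_lit 0) (nat_lit 0) (nat_lit 0) (nat_lit 1) (nat_lit 0) (nat_lit 1) (nat_lit 0) (nat_lit 499) (nat_lit 368) (nat_lit 213)) (XT.nd (nat_lit 94) (nat_lit 0) (nat_lit 0) (XT.lf (nat_lit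 0) (nat_lit 51314778514827) (nat_lit 0) (nat_lit 0) (nat_lit 0) (nat_lit 0) (nat_lit 0) (nat_lit 0) (nat_lit 1) (nat_lit 0) (nat_lit 1) (nat_lit 0) (nat_lit 500) (nat_lit 368) (nat_lit 212)) (XT.lf (nat_lit 0) (nat_lit 55419801800448) (nat_lit 0) (nat_lit 0) (nat_lit 0) (nat_lit 0) (nat_lit 0) (nat_lit 0) (nat_lit 1) (nat_lit 0) (nat_lit 1) (nat_lit 0) (nat_lit 501) (nat_lit 368) (nat_lit 211)))) (XT.nd (nat_lit 55366) (nat_lit 0) (nat_lit 11676) (XT.nd (nat_lit 55272) (nat_lit 0) (nat_lit 12432) (XT.lf (nat_lit 0) (nat_lit 59853226949058) (nat_lit 0) (nat_lit 0) (nat_lit 0) (nat_lit 0) (nat_lit 0) (nat_lit 0) (nat_lit 1) (nat_lit 0) (nat_lit 1) (nat_lit 0) (nat_lit 502) (nat_lit 368) (nat_lit 210)) (XT.lf (nat_lit 0) (nat_lit 3767490837) (nat_lit 756) (nat_lit 310192777) (nat_lit 756) (nat_lit 310192777) (nat_lit 148) (nat_lit 3) (nat_lit 157) (nat_lit 3)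 (nat_lit 157) (nat_lit 5) (nat_lit 369) (nat_lit 369) (nat_lit 342))) (XT.nd (nat_lit 94) (nat_lit 0) (nat_lit 84) (XT.lf (nat_lit 0) (nat_lit 345495271) (nat_lit 756) (nat_lit 2456824938) (nat_lit 840) (nat_lit 6245740210) (nat_lit 139) (nat_lit 5) (nat_lit 148) (nat_lit 3) (nat_lit 149) (nat_lit 5) (nat_lit 370) (nat_lit 369) (nat_lit 341)) (XT.lf (nat_lit 0) (nat_lit 2005718166) (nat_lit 756) (nat_lit 4274906331) (nat_lit 840) (nat_lit 3060984854) (nat_lit 140) (nat_lit 5) (nat_lit 149) (nat_lit 5) (nat_lit 150) (nat_lit 5) (nat_lit 371) (nat_lit 369) (nat_lit 340)))))) (XT.nd (nat_lit 658) (nat_lit 2604) (nat_lit 0) (XT.nd (nat_lit 282) (nat_lit 1932) (nat_lit 0) (XT.nd (nat_lit 94) (nat_lit 0) (nat_lit 84) (XT.lf (nat_lit 84) (nat_lit 3601879712) (nat_lit 0) (nat_lit 204343737) (nat_lit 840) (nat_lit 5852045521) (nat_lit 141) (nat_lit 5) (nat_lit 140)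 (nat_lit 5) (nat_lit 150) (nat_lit 5) (nat_lit 372) (nat_lit 369) (nat_lit 339)) (XT.nd (nat_lit 94) (nat_lit 0) (nat_lit 84) (XT.lf (nat_lit 84) (nat_lit 2140786287) (nat_lit 0) (nat_lit 3688559667) (nat_lit 840) (nat_lit 4166986564) (nat_lit 142) (nat_lit 5) (nat_lit 141) (nat_lit 5) (nat_lit 151) (nat_lit 5) (nat_lit 373) (nat_lit 369) (nat_lit 338)) (XT.lf (nat_lit 84) (nat_lit 730943344) (nat_lit 0) (nat_lit 7330772674) (nat_lit 840) (nat_lit 2297355244) (nat_lit 143) (nat_lit 5) (nat_lit 142) (nat_lit 5) (nat_lit 152) (nat_lit 5) (nat_lit 374) (nat_lit 369) (nat_lit 337)))) (XT.nd (nat_lit 188) (nat_lit 1344) (nat_lit 0) (XT.nd (nat_lit 94) (nat_lit 756) (nat_lit 0) (XT.lf (nat_lit 84) (nat_lit 10129972451) (nat_lit 0) (nat_lit 427244437) (nat_lit 840) (nat_lit 189385159) (nat_lit 143) (nat_lit 5) (nat_lit 142) (nat_lit 5) (nat_lit 152) (nat_lit 5) (nat_lit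 375) (nat_lit 369) (nat_lit 336)) (XT.lf (nat_lit 0) (nat_lit 2171655269) (nat_lit 840) (nat_lit 1981364349) (nat_lit 84) (nat_lit 7002924461) (nat_lit 133) (nat_lit 5) (nat_lit 143) (nat_lit 5) (nat_lit 134) (nat_lit 5) (nat_lit 376) (nat_lit 369) (nat_lit 335))) (XT.nd (nat_lit 94) (nat_lit 504) (nat_lit 0) (XT.lf (nat_lit 0) (nat_lit 4819295886) (nat_lit 924) (nat_lit 3310238999) (nat_lit 84) (nat_lit 3463125750) (nat_lit 123) (nat_lit 5) (nat_lit 134) (nat_lit 5) (nat_lit 124) (nat_lit 5) (nat_lit 377) (nat_lit 369) (nat_lit 334)) (XT.lf (nat_lit 0) (nat_lit 7453545826) (nat_lit 504) (nat_lit 352950029) (nat_lit 588) (nat_lit 4251431256) (nat_lit 117) (nat_lit 5) (nat_lit 123) (nat_lit 5) (nat_lit 124) (nat_lit 5) (nat_lit 378) (nat_lit 369) (nat_lit 333))))) (XT.nd (nat_lit 282) (nat_lit 1344) (nat_lit 0) (XT.nd (nat_lit 94) (nat_lit 840) (nat_lit 0)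 (XT.lf (nat_lit 0) (nat_lit 6634461689) (nat_lit 420) (nat_lit 4597920878) (nat_lit 504) (nat_lit 1318046800) (nat_lit 112) (nat_lit 5) (nat_lit 117) (nat_lit 5) (nat_lit 118) (nat_lit 5) (nat_lit 379) (nat_lit 369) (nat_lit 332)) (XT.nd (nat_lit 94) (nat_lit 336) (nat_lit 0) (XT.lf (nat_lit 0) (nat_lit 1949472787) (nat_lit 504) (nat_lit 7216484127) (nat_lit 84) (nat_lit 3906996891) (nat_lit 106) (nat_lit 5) (nat_lit 112) (nat_lit 5) (nat_lit 107) (nat_lit 5) (nat_lit 380) (nat_lit 369) (nat_lit 331)) (XT.lf (nat_lit 0) (nat_lit 5123078511) (nat_lit 336) (nat_lit 492546454) (nat_lit 420) (nat_lit 8011404417) (nat_lit 102) (nat_lit 5) (nat_lit 106) (nat_lit 5) (nat_lit 107) (nat_lit 5) (nat_lit 381) (nat_lit 369) (nat_lit 330)))) (XT.nd (nat_lit 188) (nat_lit 672) (nat_lit 0) (XT.nd (nat_lit 94) (nat_lit 336) (nat_lit 0) (XT.lf (nat_lit 0) (nat_lit 4399570068)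 (nat_lit 336) (nat_lit 5435439786) (nat_lit 420) (nat_lit 4377424126) (nat_lit 98) (nat_lit 5) (nat_lit 102) (nat_lit 5) (nat_lit 103) (nat_lit 5) (nat_lit 382) (nat_lit 369) (nat_lit 329)) (XT.lf (nat_lit 0) (nat_lit 3761843651) (nat_lit 336) (nat_lit 10837807865) (nat_lit 420) (nat_lit 234634129) (nat_lit 94) (nat_lit 5) (nat_lit 98) (nat_lit 5) (nat_lit 99) (nat_lit 5) (nat_lit 383) (nat_lit 369) (nat_lit 328))) (XT.nd (nat_lit 94) (nat_lit 252) (nat_lit 0) (XT.lf (nat_lit 0) (nat_lit 3128233951) (nat_lit 336) (nat_lit 1221656709) (nat_lit 420) (nat_lit 11140384967) (nat_lit 89) (nat_lit 5) (nat_lit 93) (nat_lit 5) (nat_lit 94) (nat_lit 5) (nat_lit 384) (nat_lit 369) (nat_lit 327)) (XT.lf (nat_lit 0) (nat_lit 2515574114) (nat_lit 252) (nat_lit 7091119808) (nat_lit 336) (nat_lit 6576171719) (nat_lit 86) (nat_lit 5) (nat_lit 89) (nat_lit 5) (nat_lit 90) (nat_lit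 5) (nat_lit 385) (nat_lit 369) (nat_lit 326))))))) (XT.nd (nat_lit 1316) (nat_lit 2352) (nat_lit 0) (XT.nd (nat_lit 658) (nat_lit 1512) (nat_lit 0) (XT.nd (nat_lit 282) (nat_lit 840) (nat_lit 0) (XT.nd (nat_lit 94) (nat_lit 588) (nat_lit 0) (XT.lf (nat_lit 0) (nat_lit 2009398379) (nat_lit 336) (nat_lit 13534441964) (nat_lit 420) (nat_lit 1374032565) (nat_lit 82) (nat_lit 5) (nat_lit 86) (nat_lit 5) (nat_lit 87) (nat_lit 5) (nat_lit 386) (nat_lit 369) (nat_lit 325)) (XT.nd (nat_lit 94) (nat_lit 252) (nat_lit 0) (XT.lf (nat_lit 0) (nat_lit 1503622752) (nat_lit 252) (nat_lit 2930597901) (nat_lit 336) (nat_lit 13257857535) (nat_lit 78) (nat_lit 5) (nat_lit 81) (nat_lit 5) (nat_lit 82) (nat_lit 5) (nat_lit 387) (nat_lit 369) (nat_lit 324)) (XT.lf (nat_lit 0) (nat_lit 1036446298) (nat_lit 252) (nat_lit 9979912172) (nat_lit 336) (nat_lit 7492866978) (nat_lit 75)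 (nat_lit 5) (nat_lit 78) (nat_lit 5) (nat_lit 79) (nat_lit 5) (nat_lit 388) (nat_lit 369) (nat_lit 323)))) (XT.nd (nat_lit 188) (nat_lit 252) (nat_lit 0) (XT.nd (nat_lit 94) (nat_lit 336) (nat_lit 0) (XT.lf (nat_lit 0) (nat_lit 706255390) (nat_lit 252) (nat_lit 17733263520) (nat_lit 336) (nat_lit 936502997) (nat_lit 72) (nat_lit 5) (nat_lit 75) (nat_lit 5) (nat_lit 76) (nat_lit 5) (nat_lit 389) (nat_lit 369) (nat_lit 322)) (XT.lf (nat_lit 0) (nat_lit 328936122) (nat_lit 252) (nat_lit 6049598185) (nat_lit 336) (nat_lit 13907290113) (nat_lit 68) (nat_lit 5) (nat_lit 71) (nat_lit 5) (nat_lit 72) (nat_lit 5) (nat_lit 390) (nat_lit 369) (nat_lit 321))) (XT.nd (nat_lit 94) (nat_lit 84) (nat_lit 0) (XT.lf (nat_lit 0) (nat_lit 62778059) (nat_lit 168) (nat_lit 14568018840) (nat_lit 252) (nat_lit 6617604971) (nat_lit 66) (nat_lit 5) (nat_lit 68) (nat_lit 5) (nat_lit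 69) (nat_lit 5) (nat_lit 391) (nat_lit 369) (nat_lit 320)) (XT.lf (nat_lit 0) (nat_lit 1622480039) (nat_lit 252) (nat_lit 77075625) (nat_lit 84) (nat_lit 20567079895) (nat_lit 65) (nat_lit 5) (nat_lit 68) (nat_lit 5) (nat_lit 66) (nat_lit 5) (nat_lit 392) (nat_lit 369) (nat_lit 319))))) (XT.nd (nat_lit 282) (nat_lit 840) (nat_lit 0) (XT.nd (nat_lit 94) (nat_lit 420) (nat_lit 0) (XT.lf (nat_lit 0) (nat_lit 10809990777) (nat_lit 336) (nat_lit 259058949) (nat_lit 84) (nat_lit 12265850573) (nat_lit 62) (nat_lit 5) (nat_lit 66) (nat_lit 5) (nat_lit 63) (nat_lit 5) (nat_lit 393) (nat_lit 369) (nat_lit 318)) (XT.nd (nat_lit 94) (nat_lit 252) (nat_lit 0) (XT.lf (nat_lit 0) (nat_lit 21148556871) (nat_lit 252) (nat_lit 245326295) (nat_lit 84) (nat_lit 3073940327) (nat_lit 60) (nat_lit 5) (nat_lit 63) (nat_lit 5) (nat_lit 61) (nat_lit 5) (nat_lit 394) (nat_lit 369) (nat_lit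 317)) (XT.lf (nat_lit 0) (nat_lit 6969087591) (nat_lit 252) (nat_lit 232316889) (nat_lit 84) (nat_lit 18456894431) (nat_lit 57) (nat_lit 5) (nat_lit 60) (nat_lit 5) (nat_lit 58) (nat_lit 5) (nat_lit 395) (nat_lit 369) (nat_lit 316)))) (XT.nd (nat_lit 188) (nat_lit 252) (nat_lit 0) (XT.nd (nat_lit 94) (nat_lit 420) (nat_lit 0) (XT.lf (nat_lit 0) (nat_lit 18485903691) (nat_lit 252) (nat_lit 99459084) (nat_lit 84) (nat_lit 8329844654) (nat_lit 55) (nat_lit 5) (nat_lit 58) (nat_lit 5) (nat_lit 56) (nat_lit 5) (nat_lit 396) (nat_lit 369) (nat_lit 315)) (XT.lf (nat_lit 0) (nat_lit 199546373) (nat_lit 168) (nat_lit 2911274485) (nat_lit 252) (nat_lit 25132563702) (nat_lit 50) (nat_lit 5) (nat_lit 52) (nat_lit 5) (nat_lit 53) (nat_lit 5) (nat_lit 397) (nat_lit 369) (nat_lit 314))) (XT.nd (nat_lit 94) (nat_lit 84) (nat_lit 0) (XT.lf (nat_lit 0) (nat_lit 485490703) (nat_lit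 168) (nat_lit 15465766064) (nat_lit 252) (nat_lit 13686028672) (nat_lit 48) (nat_lit 5) (nat_lit 50) (nat_lit 5) (nat_lit 51) (nat_lit 5) (nat_lit 398) (nat_lit 369) (nat_lit 313)) (XT.lf (nat_lit 0) (nat_lit 1071852222) (nat_lit 84) (nat_lit 29293470849) (nat_lit 168) (nat_lit 750055543) (nat_lit 47) (nat_lit 5) (nat_lit 48) (nat_lit 5) (nat_lit 49) (nat_lit 4) (nat_lit 399) (nat_lit 369) (nat_lit 312)))))) (XT.nd (nat_lit 658) (nat_lit 1092) (nat_lit 0) (XT.nd (nat_lit 282) (nat_lit 672) (nat_lit 0) (XT.nd (nat_lit 94) (nat_lit 336) (nat_lit 0) (XT.lf (nat_lit 0) (nat_lit 1579812456) (nat_lit 168) (nat_lit 11983901984) (nat_lit 252) (nat_lit 19099380769) (nat_lit 44) (nat_lit 5) (nat_lit 46) (nat_lit 5) (nat_lit 47) (nat_lit 5) (nat_lit 400) (nat_lit 369) (nat_lit 311)) (XT.nd (nat_lit 94) (nat_lit 252) (nat_lit 0) (XT.lf (nat_lit 0) (nat_lit 2385952489)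 (nat_lit 84) (nat_lit 27250403199) (nat_lit 168) (nat_lit 4665656245) (nat_lit 43) (nat_lit 5) (nat_lit 44) (nat_lit 5) (nat_lit 45) (nat_lit 4) (nat_lit 401) (nat_lit 369) (nat_lit 310)) (XT.lf (nat_lit 0) (nat_lit 3260373248) (nat_lit 168) (nat_lit 8082933990) (nat_lit 252) (nat_lit 24681701120) (nat_lit 40) (nat_lit 5) (nat_lit 42) (nat_lit 5) (nat_lit 43) (nat_lit 5) (nat_lit 402) (nat_lit 369) (nat_lit 309)))) (XT.nd (nat_lit 188) (nat_lit 336) (nat_lit 0) (XT.nd (nat_lit 94) (nat_lit 252) (nat_lit 0) (XT.lf (nat_lit 0) (nat_lit 4327521708) (nat_lit 84) (nat_lit 24941814578) (nat_lit 168) (nat_lit 8572693387) (nat_lit 39) (nat_lit 5) (nat_lit 40) (nat_lit 5) (nat_lit 41) (nat_lit 4) (nat_lit 403) (nat_lit 369) (nat_lit 308)) (XT.lf (nat_lit 0) (nat_lit 5620388279) (nat_lit 168) (nat_lit 3695309506) (nat_lit 252) (nat_lit 30443169777) (nat_lit 36) (nat_lit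 5) (nat_lit 38) (nat_lit 5) (nat_lit 39) (nat_lit 5) (nat_lit 404) (nat_lit 369) (nat_lit 307))) (XT.nd (nat_lit 94) (nat_lit 252) (nat_lit 0) (XT.lf (nat_lit 0) (nat_lit 6996398564) (nat_lit 84) (nat_lit 22315627499) (nat_lit 168) (nat_lit 12461139062) (nat_lit 35) (nat_lit 5) (nat_lit 36) (nat_lit 5) (nat_lit 37) (nat_lit 4) (nat_lit 405) (nat_lit 369) (nat_lit 306)) (XT.lf (nat_lit 0) (nat_lit 7530891702) (nat_lit 252) (nat_lit 35156272974) (nat_lit 84) (nat_lit 1216299807) (nat_lit 32) (nat_lit 5) (nat_lit 35) (nat_lit 5) (nat_lit 33) (nat_lit 4) (nat_lit 406) (nat_lit 369) (nat_lit 305))))) (XT.nd (nat_lit 376) (nat_lit 504) (nat_lit 0) (XT.nd (nat_lit 188) (nat_lit 252) (nat_lit 0) (XT.nd (nat_lit 94) (nat_lit 252) (nat_lit 0) (XT.lf (nat_lit 0) (nat_lit 10507996520) (nat_lit 84) (nat_lit 19311516404) (nat_lit 168) (nat_lit 16317770538) (nat_lit 31)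 (nat_lit 5) (nat_lit 32) (nat_lit 5) (nat_lit 33) (nat_lit 4) (nat_lit 407) (nat_lit 369) (nat_lit 304)) (XT.lf (nat_lit 0) (nat_lit 6073043479) (nat_lit 252) (nat_lit 35785859970) (nat_lit 84) (nat_lit 6641605473) (nat_lit 28) (nat_lit 5) (nat_lit 31) (nat_lit 5) (nat_lit 29) (nat_lit 4) (nat_lit 408) (nat_lit 369) (nat_lit 303))) (XT.nd (nat_lit 94) (nat_lit 168) (nat_lit 0) (XT.lf (nat_lit 0) (nat_lit 14995327987) (nat_lit 84) (nat_lit 15859941683) (nat_lit 168) (nat_lit 20125555414) (nat_lit 27) (nat_lit 5) (nat_lit 28) (nat_lit 5) (nat_lit 29) (nat_lit 4) (nat_lit 409) (nat_lit 369) (nat_lit 302)) (XT.lf (nat_lit 0) (nat_lit 4928279712) (nat_lit 168) (nat_lit 35876734314) (nat_lit 84) (nat_lit 12796734120) (nat_lit 25) (nat_lit 5) (nat_lit 27) (nat_lit 5) (nat_lit 26) (nat_lit 4) (nat_lit 410) (nat_lit 369) (nat_lit 301)))) (XT.nd (nat_lit 188) (nat_lit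 252) (nat_lit 0) (XT.nd (nat_lit 94) (nat_lit 168) (nat_lit 0) (XT.lf (nat_lit 0) (nat_lit 20611309497) (nat_lit 84) (nat_lit 11881025773) (nat_lit 168) (nat_lit 23862962674) (nat_lit 24) (nat_lit 5) (nat_lit 25) (nat_lit 5) (nat_lit 26) (nat_lit 4) (nat_lit 411) (nat_lit 369) (nat_lit 300)) (XT.lf (nat_lit 0) (nat_lit 4147959402) (nat_lit 168) (nat_lit 35320392319) (nat_lit 84) (nat_lit 19793019344) (nat_lit 22) (nat_lit 5) (nat_lit 24) (nat_lit 5) (nat_lit 23) (nat_lit 4) (nat_lit 412) (nat_lit 369) (nat_lit 299))) (XT.nd (nat_lit 94) (nat_lit 168) (nat_lit 0) (XT.lf (nat_lit 0) (nat_lit 27531380212) (nat_lit 84) (nat_lit 7283257382) (nat_lit 168) (nat_lit 27503186422) (nat_lit 21) (nat_lit 5) (nat_lit 22) (nat_lit 5) (nat_lit 23) (nat_lit 4) (nat_lit 413) (nat_lit 369) (nat_lit 298)) (XT.lf (nat_lit 0) (nat_lit 3792089264) (nat_lit 168) (nat_lit 33990445199)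 (nat_lit 84) (nat_lit 27756933175) (nat_lit 19) (nat_lit 5) (nat_lit 21) (nat_lit 5) (nat_lit 20) (nat_lit 4) (nat_lit 414) (nat_lit 369) (nat_lit 297))))))))
noncomputable def xc109 : XT := (XT.nd (nat_lit 2632) (nat_lit 0) (nat_lit 0) (XT.nd (nat_lit 1316) (nat_lit 0) (nat_lit 0) (XT.nd (nat_lit 658) (nat_lit 756) (nat_lit 0) (XT.nd (nat_lit 282) (nat_lit 504) (nat_lit 0) (XT.nd (nat_lit 94) (nat_lit 252) (nat_lit 0) (XT.lf (nat_lit 0) (nat_lit 35956470666) (nat_lit 84) (nat_lit 1962007092) (nat_lit 168) (nat_lit 31013267972) (nat_lit 18) (nat_lit 5) (nat_lit 19) (nat_lit 5) (nat_lit 20) (nat_lit 4) (nat_lit 415) (nat_lit 369) (nat_lit 296)) (XT.nd (nat_lit 94) (nat_lit 84) (nat_lit 0) (XT.lf (nat_lit 0) (nat_lit 3930573706) (nat_lit 168) (nat_lit 31740121070) (nat_lit 84) (nat_lit 36831971718) (nat_lit 16) (nat_lit 5) (nat_lit 18) (nat_lit 5) (nat_lit 17)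 (nat_lit 4) (nat_lit 416) (nat_lit 369) (nat_lit 295)) (XT.lf (nat_lit 0) (nat_lit 41979805791) (nat_lit 168) (nat_lit 30216542729) (nat_lit 0) (nat_lit 4067669842) (nat_lit 15) (nat_lit 5) (nat_lit 17) (nat_lit 4) (nat_lit 15) (nat_lit 4) (nat_lit 417) (nat_lit 369) (nat_lit 294)))) (XT.nd (nat_lit 188) (nat_lit 252) (nat_lit 0) (XT.nd (nat_lit 94) (nat_lit 84) (nat_lit 0) (XT.lf (nat_lit 0) (nat_lit 4644625152) (nat_lit 168) (nat_lit 28399424738) (nat_lit 84) (nat_lit 47180792376) (nat_lit 13) (nat_lit 5) (nat_lit 15) (nat_lit 5) (nat_lit 14) (nat_lit 4) (nat_lit 418) (nat_lit 369) (nat_lit 293)) (XT.lf (nat_lit 0) (nat_lit 47105193178) (nat_lit 168) (nat_lit 26305998014) (nat_lit 0) (nat_lit 10982310323) (nat_lit 12) (nat_lit 5) (nat_lit 14) (nat_lit 4) (nat_lit 12) (nat_lit 4) (nat_lit 419) (nat_lit 369) (nat_lit 292))) (XT.nd (nat_lit 94) (nat_lit 84)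 (nat_lit 0) (XT.lf (nat_lit 0) (nat_lit 6028356668) (nat_lit 168) (nat_lit 23771912792) (nat_lit 84) (nat_lit 58987630648) (nat_lit 10) (nat_lit 5) (nat_lit 12) (nat_lit 5) (nat_lit 11) (nat_lit 4) (nat_lit 420) (nat_lit 369) (nat_lit 291)) (XT.lf (nat_lit 0) (nat_lit 53410718769) (nat_lit 168) (nat_lit 21002391220) (nat_lit 0) (nat_lit 18994838181) (nat_lit 9) (nat_lit 5) (nat_lit 11) (nat_lit 4) (nat_lit 9) (nat_lit 4) (nat_lit 421) (nat_lit 369) (nat_lit 290))))) (XT.nd (nat_lit 282) (nat_lit 336) (nat_lit 0) (XT.nd (nat_lit 94) (nat_lit 252) (nat_lit 0) (XT.lf (nat_lit 0) (nat_lit 8190581348) (nat_lit 168) (nat_lit 17631035962) (nat_lit 84) (nat_lit 72461028450) (nat_lit 7) (nat_lit 5) (nat_lit 9) (nat_lit 5) (nat_lit 8) (nat_lit 4) (nat_lit 422) (nat_lit 369) (nat_lit 289)) (XT.nd (nat_lit 94) (nat_lit 168) (nat_lit 0) (XT.lf (nat_lit 0) (nat_lit 61063835275)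 (nat_lit 168) (nat_lit 14063031717) (nat_lit 0) (nat_lit 28276081232) (nat_lit 6) (nat_lit 5) (nat_lit 8) (nat_lit 4) (nat_lit 6) (nat_lit 4) (nat_lit 423) (nat_lit 369) (nat_lit 288)) (XT.lf (nat_lit 0) (nat_lit 11256845745) (nat_lit 168) (nat_lit 9715994529) (nat_lit 84) (nat_lit 87836910163) (nat_lit 4) (nat_lit 5) (nat_lit 6) (nat_lit 5) (nat_lit 5) (nat_lit 4) (nat_lit 424) (nat_lit 369) (nat_lit 287)))) (XT.nd (nat_lit 188) (nat_lit 0) (nat_lit 0) (XT.nd (nat_lit 94) (nat_lit 252) (nat_lit 0) (XT.lf (nat_lit 0) (nat_lit 70255458061) (nat_lit 168) (nat_lit 5208749305) (nat_lit 0) (nat_lit 39020268610) (nat_lit 3) (nat_lit 5) (nat_lit 5) (nat_lit 4) (nat_lit 3) (nat_lit 4) (nat_lit 425) (nat_lit 369) (nat_lit 286)) (XT.lf (nat_lit 0) (nat_lit 174680993128) (nat_lit 0) (nat_lit 0) (nat_lit 0) (nat_lit 0) (nat_lit 0) (nat_lit 0) (nat_lit 1) (nat_lit 0) (nat_lit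 1) (nat_lit 0) (nat_lit 426) (nat_lit 369) (nat_lit 285))) (XT.nd (nat_lit 94) (nat_lit 0) (nat_lit 0) (XT.lf (nat_lit 0) (nat_lit 188483244340) (nat_lit 0) (nat_lit 0) (nat_lit 0) (nat_lit 0) (nat_lit 0) (nat_lit 0) (nat_lit 1) (nat_lit 0) (nat_lit 1) (nat_lit 0) (nat_lit 427) (nat_lit 369) (nat_lit 284)) (XT.lf (nat_lit 0) (nat_lit 203389713801) (nat_lit 0) (nat_lit 0) (nat_lit 0) (nat_lit 0) (nat_lit 0) (nat_lit 0) (nat_lit 1) (nat_lit 0) (nat_lit 1) (nat_lit 0) (nat_lit 428) (nat_lit 369) (nat_lit 283)))))) (XT.nd (nat_lit 658) (nat_lit 0) (nat_lit 0) (XT.nd (nat_lit 282) (nat_lit 0) (nat_lit 0) (XT.nd (nat_lit 94) (nat_lit 0) (nat_lit 0) (XT.lf (nat_lit 0) (nat_lit 219488736145) (nat_lit 0) (nat_lit 0) (nat_lit 0) (nat_lit 0) (nat_lit 0) (nat_lit 0) (nat_lit 1) (nat_lit 0) (nat_lit 1) (nat_lit 0) (nat_lit 429) (nat_lit 369) (nat_lit 282)) (XT.nd (nat_lit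 94) (nat_lit 0) (nat_lit 0) (XT.lf (nat_lit 0) (nat_lit 236875712984) (nat_lit 0) (nat_lit 0) (nat_lit 0) (nat_lit 0) (nat_lit 0) (nat_lit 0) (nat_lit 1) (nat_lit 0) (nat_lit 1) (nat_lit 0) (nat_lit 430) (nat_lit 369) (nat_lit 281)) (XT.lf (nat_lit 0) (nat_lit 255653678258) (nat_lit 0) (nat_lit 0) (nat_lit 0) (nat_lit 0) (nat_lit 0) (nat_lit 0) (nat_lit 1) (nat_lit 0) (nat_lit 1) (nat_lit 0) (nat_lit 431) (nat_lit 369) (nat_lit 280)))) (XT.nd (nat_lit 188) (nat_lit 0) (nat_lit 0) (XT.nd (nat_lit 94) (nat_lit 0) (nat_lit 0) (XT.lf (nat_lit 0) (nat_lit 275933908795) (nat_lit 0) (nat_lit 0) (nat_lit 0) (nat_lit 0) (nat_lit 0) (nat_lit 0) (nat_lit 1) (nat_lit 0) (nat_lit 1) (nat_lit 0) (nat_lit 432) (nat_lit 369) (nat_lit 279)) (XT.lf (nat_lit 0) (nat_lit 297836583741) (nat_lit 0) (nat_lit 0) (nat_lit 0) (nat_lit 0) (nat_lit 0) (nat_lit 0) (nat_lit 1) (nat_lit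 0) (nat_lit 1) (nat_lit 0) (nat_lit 433) (nat_lit 369) (nat_lit 278))) (XT.nd (nat_lit 94) (nat_lit 0) (nat_lit 0) (XT.lf (nat_lit 0) (nat_lit 321491496725) (nat_lit 0) (nat_lit 0) (nat_lit 0) (nat_lit 0) (nat_lit 0) (nat_lit 0) (nat_lit 1) (nat_lit 0) (nat_lit 1) (nat_lit 0) (nat_lit 434) (nat_lit 369) (nat_lit 277)) (XT.lf (nat_lit 0) (nat_lit 347038825009) (nat_lit 0) (nat_lit 0) (nat_lit 0) (nat_lit 0) (nat_lit 0) (nat_lit 0) (nat_lit 1) (nat_lit 0) (nat_lit 1) (nat_lit 0) (nat_lit 435) (nat_lit 369) (nat_lit 276))))) (XT.nd (nat_lit 282) (nat_lit 0) (nat_lit 0) (XT.nd (nat_lit 94) (nat_lit 0) (nat_lit 0) (XT.lf (nat_lit 0) (nat_lit 374629960167) (nat_lit 0) (nat_lit 0) (nat_lit 0) (nat_lit 0) (nat_lit 0) (nat_lit 0) (nat_lit 1) (nat_lit 0) (nat_lit 1) (nat_lit 0) (nat_lit 436) (nat_lit 369) (nat_lit 275)) (XT.nd (nat_lit 94) (nat_lit 0) (nat_lit 0) (XT.lf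 (nat_lit 0) (nat_lit 404428405224) (nat_lit 0) (nat_lit 0) (nat_lit 0) (nat_lit 0) (nat_lit 0) (nat_lit 0) (nat_lit 1) (nat_lit 0) (nat_lit 1) (nat_lit 0) (nat_lit 437) (nat_lit 369) (nat_lit 274)) (XT.lf (nat_lit 0) (nat_lit 436610743556) (nat_lit 0) (nat_lit 0) (nat_lit 0) (nat_lit 0) (nat_lit 0) (nat_lit 0) (nat_lit 1) (nat_lit 0) (nat_lit 1) (nat_lit 0) (nat_lit 438) (nat_lit 369) (nat_lit 273)))) (XT.nd (nat_lit 188) (nat_lit 0) (nat_lit 0) (XT.nd (nat_lit 94) (nat_lit 0) (nat_lit 0) (XT.lf (nat_lit 0) (nat_lit 471367685318) (nat_lit 0) (nat_lit 0) (nat_lit 0) (nat_lit 0) (nat_lit 0) (nat_lit 0) (nat_lit 1) (nat_lit 0) (nat_lit 1) (nat_lit 0) (nat_lit 439) (nat_lit 369) (nat_lit 272)) (XT.lf (nat_lit 0) (nat_lit 508905197572) (nat_lit 0) (nat_lit 0) (nat_lit 0) (nat_lit 0) (nat_lit 0) (nat_lit 0) (nat_lit 1) (nat_lit 0) (nat_lit 1) (nat_lit 0) (nat_lit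 440) (nat_lit 369) (nat_lit 271))) (XT.nd (nat_lit 94) (nat_lit 0) (nat_lit 0) (XT.lf (nat_lit 0) (nat_lit 549445724834) (nat_lit 0) (nat_lit 0) (nat_lit 0) (nat_lit 0) (nat_lit 0) (nat_lit 0) (nat_lit 1) (nat_lit 0) (nat_lit 1) (nat_lit 0) (nat_lit 441) (nat_lit 369) (nat_lit 270)) (XT.lf (nat_lit 0) (nat_lit 593229507266) (nat_lit 0) (nat_lit 0) (nat_lit 0) (nat_lit 0) (nat_lit 0) (nat_lit 0) (nat_lit 1) (nat_lit 0) (nat_lit 1) (nat_lit 0) (nat_lit 442) (nat_lit 369) (nat_lit 269))))))) (XT.nd (nat_lit 1316) (nat_lit 0) (nat_lit 0) (XT.nd (nat_lit 658) (nat_lit 0) (nat_lit 0) (XT.nd (nat_lit 282) (nat_lit 0) (nat_lit 0) (XT.nd (nat_lit 94) (nat_lit 0) (nat_lit 0) (XT.lf (nat_lit 0) (nat_lit 640516004320) (nat_lit 0) (nat_lit 0) (nat_lit 0) (nat_lit 0) (nat_lit 0) (nat_lit 0) (nat_lit 1) (nat_lit 0) (nat_lit 1) (nat_lit 0) (nat_lit 443) (nat_lit 369) (nat_lit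 268)) (XT.nd (nat_lit 94) (nat_lit 0) (nat_lit 0) (XT.lf (nat_lit 0) (nat_lit 691585432274) (nat_lit 0) (nat_lit 0) (nat_lit 0) (nat_lit 0) (nat_lit 0) (nat_lit 0) (nat_lit 1) (nat_lit 0) (nat_lit 1) (nat_lit 0) (nat_lit 444) (nat_lit 369) (nat_lit 267)) (XT.lf (nat_lit 0) (nat_lit 746740424776) (nat_lit 0) (nat_lit 0) (nat_lit 0) (nat_lit 0) (nat_lit 0) (nat_lit 0) (nat_lit 1) (nat_lit 0) (nat_lit 1) (nat_lit 0) (nat_lit 445) (nat_lit 369) (nat_lit 266)))) (XT.nd (nat_lit 188) (nat_lit 0) (nat_lit 0) (XT.nd (nat_lit 94) (nat_lit 0) (nat_lit 0) (XT.lf (nat_lit 0) (nat_lit 806307826225) (nat_lit 0) (nat_lit 0) (nat_lit 0) (nat_lit 0) (nat_lit 0) (nat_lit 0) (nat_lit 1) (nat_lit 0) (nat_lit 1) (nat_lit 0) (nat_lit 446) (nat_lit 369) (nat_lit 265)) (XT.lf (nat_lit 0) (nat_lit 870640628630) (nat_lit 0) (nat_lit 0) (nat_lit 0) (nat_lit 0) (nat_lit 0) (nat_lit 0)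 (nat_lit 1) (nat_lit 0) (nat_lit 1) (nat_lit 0) (nat_lit 447) (nat_lit 369) (nat_lit 264))) (XT.nd (nat_lit 94) (nat_lit 0) (nat_lit 0) (XT.lf (nat_lit 0) (nat_lit 940120063413) (nat_lit 0) (nat_lit 0) (nat_lit 0) (nat_lit 0) (nat_lit 0) (nat_lit 0) (nat_lit 1) (nat_lit 0) (nat_lit 1) (nat_lit 0) (nat_lit 448) (nat_lit 369) (nat_lit 263)) (XT.lf (nat_lit 0) (nat_lit 1015157860558) (nat_lit 0) (nat_lit 0) (nat_lit 0) (nat_lit 0) (nat_lit 0) (nat_lit 0) (nat_lit 1) (nat_lit 0) (nat_lit 1) (nat_lit 0) (nat_lit 449) (nat_lit 369) (nat_lit 262))))) (XT.nd (nat_lit 282) (nat_lit 0) (nat_lit 0) (XT.nd (nat_lit 94) (nat_lit 0) (nat_lit 0) (XT.lf (nat_lit 0) (nat_lit 1096198688493) (nat_lit 0) (nat_lit 0) (nat_lit 0) (nat_lit 0) (nat_lit 0) (nat_lit 0) (nat_lit 1) (nat_lit 0) (nat_lit 1) (nat_lit 0) (nat_lit 450) (nat_lit 369) (nat_lit 261)) (XT.nd (nat_lit 94) (nat_lit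 0) (nat_lit 0) (XT.lf (nat_lit 0) (nat_lit 1183722789159) (nat_lit 0) (nat_lit 0) (nat_lit 0) (nat_lit 0) (nat_lit 0) (nat_lit 0) (nat_lit 1) (nat_lit 0) (nat_lit 1) (nat_lit 0) (nat_lit 451) (nat_lit 369) (nat_lit 260)) (XT.lf (nat_lit 0) (nat_lit 1278248823896) (nat_lit 0) (nat_lit 0) (nat_lit 0) (nat_lit 0) (nat_lit 0) (nat_lit 0) (nat_lit 1) (nat_lit 0) (nat_lit 1) (nat_lit 0) (nat_lit 452) (nat_lit 369) (nat_lit 259)))) (XT.nd (nat_lit 188) (nat_lit 0) (nat_lit 0) (XT.nd (nat_lit 94) (nat_lit 0) (nat_lit 0) (XT.lf (nat_lit 0) (nat_lit 1380336946982) (nat_lit 0) (nat_lit 0) (nat_lit 0) (nat_lit 0) (nat_lit 0) (nat_lit 0) (nat_lit 1) (nat_lit 0) (nat_lit 1) (nat_lit 0) (nat_lit 453) (nat_lit 369) (nat_lit 258)) (XT.lf (nat_lit 0) (nat_lit 1490592125074) (nat_lit 0) (nat_lit 0) (nat_lit 0) (nat_lit 0) (nat_lit 0) (nat_lit 0) (nat_lit 1) (nat_lit 0) (nat_lit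 1) (nat_lit 0) (nat_lit 454) (nat_lit 369) (nat_lit 257))) (XT.nd (nat_lit 94) (nat_lit 0) (nat_lit 0) (XT.lf (nat_lit 0) (nat_lit 1609667722189) (nat_lit 0) (nat_lit 0) (nat_lit 0) (nat_lit 0) (nat_lit 0) (nat_lit 0) (nat_lit 1) (nat_lit 0) (nat_lit 1) (nat_lit 0) (nat_lit 455) (nat_lit 369) (nat_lit 256)) (XT.lf (nat_lit 0) (nat_lit 1738269371495) (nat_lit 0) (nat_lit 0) (nat_lit 0) (nat_lit 0) (nat_lit 0) (nat_lit 0) (nat_lit 1) (nat_lit 0) (nat_lit 1) (nat_lit 0) (nat_lit 456) (nat_lit 369) (nat_lit 255)))))) (XT.nd (nat_lit 658) (nat_lit 0) (nat_lit 0) (XT.nd (nat_lit 282) (nat_lit 0) (nat_lit 0) (XT.nd (nat_lit 94) (nat_lit 0) (nat_lit 0) (XT.lf (nat_lit 0) (nat_lit 1877159156841) (nat_lit 0) (nat_lit 0) (nat_lit 0) (nat_lit 0) (nat_lit 0) (nat_lit 0) (nat_lit 1) (nat_lit 0) (nat_lit 1) (nat_lit 0) (nat_lit 457) (nat_lit 369) (nat_lit 254)) (XT.nd (nat_lit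 94) (nat_lit 0) (nat_lit 0) (XT.lf (nat_lit 0) (nat_lit 2027160128805) (nat_lit 0) (nat_lit 0) (nat_lit 0) (nat_lit 0) (nat_lit 0) (nat_lit 0) (nat_lit 1) (nat_lit 0) (nat_lit 1) (nat_lit 0) (nat_lit 458) (nat_lit 369) (nat_lit 253)) (XT.lf (nat_lit 0) (nat_lit 2189161182038) (nat_lit 0) (nat_lit 0) (nat_lit 0) (nat_lit 0) (nat_lit 0) (nat_lit 0) (nat_lit 1) (nat_lit 0) (nat_lit 1) (nat_lit 0) (nat_lit 459) (nat_lit 369) (nat_lit 252)))) (XT.nd (nat_lit 188) (nat_lit 0) (nat_lit 0) (XT.nd (nat_lit 94) (nat_lit 0) (nat_lit 0) (XT.lf (nat_lit 0) (nat_lit 2364122322779) (nat_lit 0) (nat_lit 0) (nat_lit 0) (nat_lit 0) (nat_lit 0) (nat_lit 0) (nat_lit 1) (nat_lit 0) (nat_lit 1) (nat_lit 0) (nat_lit 460) (nat_lit 369) (nat_lit 251)) (XT.lf (nat_lit 0) (nat_lit 2553080357790) (nat_lit 0) (nat_lit 0) (nat_lit 0) (nat_lit 0) (nat_lit 0) (nat_lit 0) (nat_lit 1) (nat_lit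 0) (nat_lit 1) (nat_lit 0) (nat_lit 461) (nat_lit 369) (nat_lit 250))) (XT.nd (nat_lit 94) (nat_lit 0) (nat_lit 0) (XT.lf (nat_lit 0) (nat_lit 2757155038388) (nat_lit 0) (nat_lit 0) (nat_lit 0) (nat_lit 0) (nat_lit 0) (nat_lit 0) (nat_lit 1) (nat_lit 0) (nat_lit 1) (nat_lit 0) (nat_lit 462) (nat_lit 369) (nat_lit 249)) (XT.lf (nat_lit 0) (nat_lit 2977555696014) (nat_lit 0) (nat_lit 0) (nat_lit 0) (nat_lit 0) (nat_lit 0) (nat_lit 0) (nat_lit 1) (nat_lit 0) (nat_lit 1) (nat_lit 0) (nat_lit 463) (nat_lit 369) (nat_lit 248))))) (XT.nd (nat_lit 376) (nat_lit 0) (nat_lit 0) (XT.nd (nat_lit 188) (nat_lit 0) (nat_lit 0) (XT.nd (nat_lit 94) (nat_lit 0) (nat_lit 0) (XT.lf (nat_lit 0) (nat_lit 3215588408640) (nat_lit 0) (nat_lit 0) (nat_lit 0) (nat_lit 0) (nat_lit 0) (nat_lit 0) (nat_lit 1) (nat_lit 0) (nat_lit 1) (nat_lit 0) (nat_lit 464) (nat_lit 369) (nat_lit 247))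 (XT.lf (nat_lit 0) (nat_lit 3472663740488) (nat_lit 0) (nat_lit 0) (nat_lit 0) (nat_lit 0) (nat_lit 0) (nat_lit 0) (nat_lit 1) (nat_lit 0) (nat_lit 1) (nat_lit 0) (nat_lit 465) (nat_lit 369) (nat_lit 246))) (XT.nd (nat_lit 94) (nat_lit 0) (nat_lit 0) (XT.lf (nat_lit 0) (nat_lit 3750305100932) (nat_lit 0) (nat_lit 0) (nat_lit 0) (nat_lit 0) (nat_lit 0) (nat_lit 0) (nat_lit 1) (nat_lit 0) (nat_lit 1) (nat_lit 0) (nat_lit 466) (nat_lit 369) (nat_lit 245)) (XT.lf (nat_lit 0) (nat_lit 4050157772109) (nat_lit 0) (nat_lit 0) (nat_lit 0) (nat_lit 0) (nat_lit 0) (nat_lit 0) (nat_lit 1) (nat_lit 0) (nat_lit 1) (nat_lit 0) (nat_lit 467) (nat_lit 369) (nat_lit 244)))) (XT.nd (nat_lit 188) (nat_lit 0) (nat_lit 0) (XT.nd (nat_lit 94) (nat_lit 0) (nat_lit 0) (XT.lf (nat_lit 0) (nat_lit 4373998658736) (nat_lit 0) (nat_lit 0) (nat_lit 0) (nat_lit 0) (nat_lit 0) (nat_lit 0)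 (nat_lit 1) (nat_lit 0) (nat_lit 1) (nat_lit 0) (nat_lit 468) (nat_lit 369) (nat_lit 243)) (XT.lf (nat_lit 0) (nat_lit 4723746817919) (nat_lit 0) (nat_lit 0) (nat_lit 0) (nat_lit 0) (nat_lit 0) (nat_lit 0) (nat_lit 1) (nat_lit 0) (nat_lit 1) (nat_lit 0) (nat_lit 469) (nat_lit 369) (nat_lit 242))) (XT.nd (nat_lit 94) (nat_lit 0) (nat_lit 0) (XT.lf (nat_lit 0) (nat_lit 5101474831342) (nat_lit 0) (nat_lit 0) (nat_lit 0) (nat_lit 0) (nat_lit 0) (nat_lit 0) (nat_lit 1) (nat_lit 0) (nat_lit 1) (nat_lit 0) (nat_lit 470) (nat_lit 369) (nat_lit 241)) (XT.lf (nat_lit 0) (nat_lit 5509421087233) (nat_lit 0) (nat_lit 0) (nat_lit 0) (nat_lit 0) (nat_lit 0) (nat_lit 0) (nat_lit 1) (nat_lit 0) (nat_lit 1) (nat_lit 0) (nat_lit 471) (nat_lit 369) (nat_lit 240))))))))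
noncomputable def xc110 : XT := (XT.nd (nat_lit 2632) (nat_lit 0) (nat_lit 0) (XT.nd (nat_lit 1316) (nat_lit 0) (nat_lit 0) (XT.nd (nat_lit 658) (nat_lit 0) (nat_lit 0) (XT.nd (nat_lit 282) (nat_lit 0) (nat_lit 0) (XT.nd (nat_lit 94) (nat_lit 0) (nat_lit 0) (XT.lf (nat_lit 0) (nat_lit 5950003044887) (nat_lit 0) (nat_lit 0) (nat_lit 0) (nat_lit 0) (nat_lit 0) (nat_lit 0) (nat_lit 1) (nat_lit 0) (nat_lit 1) (nat_lit 0) (nat_lit 472) (nat_lit 369) (nat_lit 239)) (XT.nd (nat_lit 94) (nat_lit 0) (nat_lit 0) (XT.lf (nat_lit 0) (nat_lit 6425831560348) (nat_lit 0) (nat_lit 0) (nat_lit 0) (nat_lit 0) (nat_lit 0) (nat_lit 0) (nat_lit 1) (nat_lit 0) (nat_lit 1) (nat_lit 0) (nat_lit 473) (nat_lit 369) (nat_lit 238)) (XT.lf (nat_lit 0) (nat_lit 6939726358152) (nat_lit 0) (nat_lit 0) (nat_lit 0) (nat_lit 0) (nat_lit 0) (nat_lit 0) (nat_lit 1) (nat_lit 0) (nat_lit 1) (nat_lit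 0) (nat_lit 474) (nat_lit 369) (nat_lit 237)))) (XT.nd (nat_lit 188) (nat_lit 0) (nat_lit 0) (XT.nd (nat_lit 94) (nat_lit 0) (nat_lit 0) (XT.lf (nat_lit 0) (nat_lit 7494732740806) (nat_lit 0) (nat_lit 0) (nat_lit 0) (nat_lit 0) (nat_lit 0) (nat_lit 0) (nat_lit 1) (nat_lit 0) (nat_lit 1) (nat_lit 0) (nat_lit 475) (nat_lit 369) (nat_lit 236)) (XT.lf (nat_lit 0) (nat_lit 8094139635020) (nat_lit 0) (nat_lit 0) (nat_lit 0) (nat_lit 0) (nat_lit 0) (nat_lit 0) (nat_lit 1) (nat_lit 0) (nat_lit 1) (nat_lit 0) (nat_lit 476) (nat_lit 369) (nat_lit 235))) (XT.nd (nat_lit 94) (nat_lit 0) (nat_lit 0) (XT.lf (nat_lit 0) (nat_lit 8741499081650) (nat_lit 0) (nat_lit 0) (nat_lit 0) (nat_lit 0) (nat_lit 0) (nat_lit 0) (nat_lit 1) (nat_lit 0) (nat_lit 1) (nat_lit 0) (nat_lit 477) (nat_lit 369) (nat_lit 234)) (XT.lf (nat_lit 0) (nat_lit 9440647284824) (nat_lit 0) (nat_lit 0) (nat_lit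 0) (nat_lit 0) (nat_lit 0) (nat_lit 0) (nat_lit 1) (nat_lit 0) (nat_lit 1) (nat_lit 0) (nat_lit 478) (nat_lit 369) (nat_lit 233))))) (XT.nd (nat_lit 282) (nat_lit 0) (nat_lit 0) (XT.nd (nat_lit 94) (nat_lit 0) (nat_lit 0) (XT.lf (nat_lit 0) (nat_lit 10195727345006) (nat_lit 0) (nat_lit 0) (nat_lit 0) (nat_lit 0) (nat_lit 0) (nat_lit 0) (nat_lit 1) (nat_lit 0) (nat_lit 1) (nat_lit 0) (nat_lit 479) (nat_lit 369) (nat_lit 232)) (XT.nd (nat_lit 94) (nat_lit 0) (nat_lit 0) (XT.lf (nat_lit 0) (nat_lit 11011213810699) (nat_lit 0) (nat_lit 0) (nat_lit 0) (nat_lit 0) (nat_lit 0) (nat_lit 0) (nat_lit 1) (nat_lit 0) (nat_lit 1) (nat_lit 0) (nat_lit 480) (nat_lit 369) (nat_lit 231)) (XT.lf (nat_lit 0) (nat_lit 11891939194293) (nat_lit 0) (nat_lit 0) (nat_lit 0) (nat_lit 0) (nat_lit 0) (nat_lit 0) (nat_lit 1) (nat_lit 0) (nat_lit 1) (nat_lit 0) (nat_lit 481) (nat_lit 369)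 (nat_lit 230)))) (XT.nd (nat_lit 188) (nat_lit 0) (nat_lit 0) (XT.nd (nat_lit 94) (nat_lit 0) (nat_lit 0) (XT.lf (nat_lit 0) (nat_lit 12843122609173) (nat_lit 0) (nat_lit 0) (nat_lit 0) (nat_lit 0) (nat_lit 0) (nat_lit 0) (nat_lit 1) (nat_lit 0) (nat_lit 1) (nat_lit 0) (nat_lit 482) (nat_lit 369) (nat_lit 229)) (XT.lf (nat_lit 0) (nat_lit 13870400697797) (nat_lit 0) (nat_lit 0) (nat_lit 0) (nat_lit 0) (nat_lit 0) (nat_lit 0) (nat_lit 1) (nat_lit 0) (nat_lit 1) (nat_lit 0) (nat_lit 483) (nat_lit 369) (nat_lit 228))) (XT.nd (nat_lit 94) (nat_lit 0) (nat_lit 0) (XT.lf (nat_lit 0) (nat_lit 14979861034023) (nat_lit 0) (nat_lit 0) (nat_lit 0) (nat_lit 0) (nat_lit 0) (nat_lit 0) (nat_lit 1) (nat_lit 0) (nat_lit 1) (nat_lit 0) (nat_lit 484) (nat_lit 369) (nat_lit 227)) (XT.lf (nat_lit 0) (nat_lit 16178078197622) (nat_lit 0) (nat_lit 0) (nat_lit 0) (nat_lit 0) (nat_lit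 0) (nat_lit 0) (nat_lit 1) (nat_lit 0) (nat_lit 1) (nat_lit 0) (nat_lit 485) (nat_lit 369) (nat_lit 226)))))) (XT.nd (nat_lit 658) (nat_lit 0) (nat_lit 0) (XT.nd (nat_lit 282) (nat_lit 0) (nat_lit 0) (XT.nd (nat_lit 94) (nat_lit 0) (nat_lit 0) (XT.lf (nat_lit 0) (nat_lit 17472152734748) (nat_lit 0) (nat_lit 0) (nat_lit 0) (nat_lit 0) (nat_lit 0) (nat_lit 0) (nat_lit 1) (nat_lit 0) (nat_lit 1) (nat_lit 0) (nat_lit 486) (nat_lit 369) (nat_lit 225)) (XT.nd (nat_lit 94) (nat_lit 0) (nat_lit 0) (XT.lf (nat_lit 0) (nat_lit 18869753235252) (nat_lit 0) (nat_lit 0) (nat_lit 0) (nat_lit 0) (nat_lit 0) (nat_lit 0) (nat_lit 1) (nat_lit 0) (nat_lit 1) (nat_lit 0) (nat_lit 487) (nat_lit 369) (nat_lit 224)) (XT.lf (nat_lit 0) (nat_lit 20379161776172) (nat_lit 0) (nat_lit 0) (nat_lit 0) (nat_lit 0) (nat_lit 0) (nat_lit 0) (nat_lit 1) (nat_lit 0) (nat_lit 1) (nat_lit 0) (nat_lit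 488) (nat_lit 369) (nat_lit 223)))) (XT.nd (nat_lit 188) (nat_lit 0) (nat_lit 0) (XT.nd (nat_lit 94) (nat_lit 0) (nat_lit 0) (XT.lf (nat_lit 0) (nat_lit 22009323000715) (nat_lit 0) (nat_lit 0) (nat_lit 0) (nat_lit 0) (nat_lit 0) (nat_lit 0) (nat_lit 1) (nat_lit 0) (nat_lit 1) (nat_lit 0) (nat_lit 489) (nat_lit 369) (nat_lit 222)) (XT.lf (nat_lit 0) (nat_lit 23769897123544) (nat_lit 0) (nat_lit 0) (nat_lit 0) (nat_lit 0) (nat_lit 0) (nat_lit 0) (nat_lit 1) (nat_lit 0) (nat_lit 1) (nat_lit 0) (nat_lit 490) (nat_lit 369) (nat_lit 221))) (XT.nd (nat_lit 94) (nat_lit 0) (nat_lit 0) (XT.lf (nat_lit 0) (nat_lit 25671317176499) (nat_lit 0) (nat_lit 0) (nat_lit 0) (nat_lit 0) (nat_lit 0) (nat_lit 0) (nat_lit 1) (nat_lit 0) (nat_lit 1) (nat_lit 0) (nat_lit 491) (nat_lit 369) (nat_lit 220)) (XT.lf (nat_lit 0) (nat_lit 27724850833967) (nat_lit 0) (nat_lit 0) (nat_lit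 0) (nat_lit 0) (nat_lit 0) (nat_lit 0) (nat_lit 1) (nat_lit 0) (nat_lit 1) (nat_lit 0) (nat_lit 492) (nat_lit 369) (nat_lit 219))))) (XT.nd (nat_lit 282) (nat_lit 0) (nat_lit 0) (XT.nd (nat_lit 94) (nat_lit 0) (nat_lit 0) (XT.lf (nat_lit 0) (nat_lit 29942667184290) (nat_lit 0) (nat_lit 0) (nat_lit 0) (nat_lit 0) (nat_lit 0) (nat_lit 0) (nat_lit 1) (nat_lit 0) (nat_lit 1) (nat_lit 0) (nat_lit 493) (nat_lit 369) (nat_lit 218)) (XT.nd (nat_lit 94) (nat_lit 0) (nat_lit 0) (XT.lf (nat_lit 0) (nat_lit 32337908842875) (nat_lit 0) (nat_lit 0) (nat_lit 0) (nat_lit 0) (nat_lit 0) (nat_lit 0) (nat_lit 1) (nat_lit 0) (nat_lit 1) (nat_lit 0) (nat_lit 494) (nat_lit 369) (nat_lit 217)) (XT.lf (nat_lit 0) (nat_lit 34924769834367) (nat_lit 0) (nat_lit 0) (nat_lit 0) (nat_lit 0) (nat_lit 0) (nat_lit 0) (nat_lit 1) (nat_lit 0) (nat_lit 1) (nat_lit 0) (nat_lit 495) (nat_lit 369)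 (nat_lit 216)))) (XT.nd (nat_lit 188) (nat_lit 0) (nat_lit 0) (XT.nd (nat_lit 94) (nat_lit 0) (nat_lit 0) (XT.lf (nat_lit 0) (nat_lit 37718579705382) (nat_lit 0) (nat_lit 0) (nat_lit 0) (nat_lit 0) (nat_lit 0) (nat_lit 0) (nat_lit 1) (nat_lit 0) (nat_lit 1) (nat_lit 0) (nat_lit 496) (nat_lit 369) (nat_lit 215)) (XT.lf (nat_lit 0) (nat_lit 40735894366266) (nat_lit 0) (nat_lit 0) (nat_lit 0) (nat_lit 0) (nat_lit 0) (nat_lit 0) (nat_lit 1) (nat_lit 0) (nat_lit 1) (nat_lit 0) (nat_lit 497) (nat_lit 369) (nat_lit 214))) (XT.nd (nat_lit 94) (nat_lit 0) (nat_lit 0) (XT.lf (nat_lit 0) (nat_lit 43994594200196) (nat_lit 0) (nat_lit 0) (nat_lit 0) (nat_lit 0) (nat_lit 0) (nat_lit 0) (nat_lit 1) (nat_lit 0) (nat_lit 1) (nat_lit 0) (nat_lit 498) (nat_lit 369) (nat_lit 213)) (XT.lf (nat_lit 0) (nat_lit 47513990021002) (nat_lit 0) (nat_lit 0) (nat_lit 0) (nat_lit 0) (nat_lit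 0) (nat_lit 0) (nat_lit 1) (nat_lit 0) (nat_lit 1) (nat_lit 0) (nat_lit 499) (nat_lit 369) (nat_lit 212))))))) (XT.nd (nat_lit 56494) (nat_lit 0) (nat_lit 5040) (XT.nd (nat_lit 55836) (nat_lit 0) (nat_lit 9828) (XT.nd (nat_lit 282) (nat_lit 0) (nat_lit 0) (XT.nd (nat_lit 94) (nat_lit 0) (nat_lit 0) (XT.lf (nat_lit 0) (nat_lit 51314937507622) (nat_lit 0) (nat_lit 0) (nat_lit 0) (nat_lit 0) (nat_lit 0) (nat_lit 0) (nat_lit 1) (nat_lit 0) (nat_lit 1) (nat_lit 0) (nat_lit 500) (nat_lit 369) (nat_lit 211)) (XT.nd (nat_lit 94) (nat_lit 0) (nat_lit 0) (XT.lf (nat_lit 0) (nat_lit 55419960793310) (nat_lit 0) (nat_lit 0) (nat_lit 0) (nat_lit 0) (nat_lit 0) (nat_lit 0) (nat_lit 1) (nat_lit 0) (nat_lit 1) (nat_lit 0) (nat_lit 501) (nat_lit 369) (nat_lit 210)) (XT.lf (nat_lit 0) (nat_lit 59853385941981) (nat_lit 0) (nat_lit 0) (nat_lit 0) (nat_lit 0) (nat_lit 0) (nat_lit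 0) (nat_lit 1) (nat_lit 0) (nat_lit 1) (nat_lit 0) (nat_lit 502) (nat_lit 369) (nat_lit 209)))) (XT.nd (nat_lit 55366) (nat_lit 0) (nat_lit 11676) (XT.nd (nat_lit 55272) (nat_lit 0) (nat_lit 11676) (XT.lf (nat_lit 0) (nat_lit 64641485102665) (nat_lit 0) (nat_lit 0) (nat_lit 0) (nat_lit 0) (nat_lit 0) (nat_lit 0) (nat_lit 1) (nat_lit 0) (nat_lit 1) (nat_lit 0) (nat_lit 503) (nat_lit 369) (nat_lit 208)) (XT.lf (nat_lit 0) (nat_lit 409358395) (nat_lit 0) (nat_lit 409358395) (nat_lit 756) (nat_lit 3847348329) (nat_lit 139) (nat_lit 5) (nat_lit 139) (nat_lit 3) (nat_lit 148) (nat_lit 3) (nat_lit 370) (nat_lit 370) (nat_lit 340))) (XT.nd (nat_lit 94) (nat_lit 0) (nat_lit 84) (XT.lf (nat_lit 0) (nat_lit 3088670424) (nat_lit 756) (nat_lit 1126710103) (nat_lit 840) (nat_lit 5420747948) (nat_lit 139) (nat_lit 5) (nat_lit 148) (nat_lit 3) (nat_lit 149) (nat_lit 5) (nat_lit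 371) (nat_lit 370) (nat_lit 339)) (XT.lf (nat_lit 0) (nat_lit 4686547001) (nat_lit 756) (nat_lit 3012912646) (nat_lit 840) (nat_lit 2263459882) (nat_lit 140) (nat_lit 5) (nat_lit 149) (nat_lit 5) (nat_lit 150) (nat_lit 5) (nat_lit 372) (nat_lit 370) (nat_lit 338))))) (XT.nd (nat_lit 282) (nat_lit 1932) (nat_lit 0) (XT.nd (nat_lit 94) (nat_lit 0) (nat_lit 84) (XT.lf (nat_lit 84) (nat_lit 5424308995) (nat_lit 0) (nat_lit 1044043928) (nat_lit 840) (nat_lit 3844695984) (nat_lit 141) (nat_lit 5) (nat_lit 140) (nat_lit 5) (nat_lit 150) (nat_lit 5) (nat_lit 373) (nat_lit 370) (nat_lit 337)) (XT.nd (nat_lit 94) (nat_lit 0) (nat_lit 84) (XT.lf (nat_lit 84) (nat_lit 3904704982) (nat_lit 0) (nat_lit 4586944058) (nat_lit 840) (nat_lit 2194592309) (nat_lit 142) (nat_lit 5) (nat_lit 141) (nat_lit 5) (nat_lit 151) (nat_lit 5) (nat_lit 374) (nat_lit 370) (nat_lit 336)) (XT.lf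 (nat_lit 84) (nat_lit 2426895668) (nat_lit 0) (nat_lit 8329893800) (nat_lit 840) (nat_lit 328500687) (nat_lit 143) (nat_lit 5) (nat_lit 142) (nat_lit 5) (nat_lit 152) (nat_lit 5) (nat_lit 375) (nat_lit 370) (nat_lit 335)))) (XT.nd (nat_lit 188) (nat_lit 1260) (nat_lit 0) (XT.nd (nat_lit 94) (nat_lit 0) (nat_lit 84) (XT.lf (nat_lit 84) (nat_lit 947537261) (nat_lit 0) (nat_lit 798660387) (nat_lit 924) (nat_lit 9763082871) (nat_lit 133) (nat_lit 5) (nat_lit 132) (nat_lit 5) (nat_lit 143) (nat_lit 5) (nat_lit 376) (nat_lit 370) (nat_lit 334)) (XT.lf (nat_lit 0) (nat_lit 4150794508) (nat_lit 840) (nat_lit 533392605) (nat_lit 84) (nat_lit 7273962151) (nat_lit 133) (nat_lit 5) (nat_lit 143) (nat_lit 5) (nat_lit 134) (nat_lit 5) (nat_lit 377) (nat_lit 370) (nat_lit 333))) (XT.nd (nat_lit 94) (nat_lit 504) (nat_lit 0) (XT.lf (nat_lit 0) (nat_lit 6898021760) (nat_lit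 924) (nat_lit 1951127270) (nat_lit 84) (nat_lit 3586265346) (nat_lit 123) (nat_lit 5) (nat_lit 134) (nat_lit 5) (nat_lit 124) (nat_lit 5) (nat_lit 378) (nat_lit 370) (nat_lit 332)) (XT.lf (nat_lit 0) (nat_lit 9603186285) (nat_lit 504) (nat_lit 419842790) (nat_lit 588) (nat_lit 2919931527) (nat_lit 117) (nat_lit 5) (nat_lit 123) (nat_lit 5) (nat_lit 124) (nat_lit 5) (nat_lit 379) (nat_lit 370) (nat_lit 331)))))) (XT.nd (nat_lit 658) (nat_lit 2184) (nat_lit 0) (XT.nd (nat_lit 282) (nat_lit 1344) (nat_lit 0) (XT.nd (nat_lit 94) (nat_lit 756) (nat_lit 0) (XT.lf (nat_lit 0) (nat_lit 144550032) (nat_lit 504) (nat_lit 4754111913) (nat_lit 84) (nat_lit 8580789008) (nat_lit 111) (nat_lit 5) (nat_lit 117) (nat_lit 5) (nat_lit 112) (nat_lit 5) (nat_lit 380) (nat_lit 370) (nat_lit 330)) (XT.nd (nat_lit 94) (nat_lit 336) (nat_lit 0) (XT.lf (nat_lit 0) (nat_lit 3540924087)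 (nat_lit 504) (nat_lit 6181001965) (nat_lit 84) (nat_lit 4325089383) (nat_lit 106) (nat_lit 5) (nat_lit 112) (nat_lit 5) (nat_lit 107) (nat_lit 5) (nat_lit 381) (nat_lit 370) (nat_lit 329)) (XT.lf (nat_lit 0) (nat_lit 7075635323) (nat_lit 336) (nat_lit 342486302) (nat_lit 420) (nat_lit 7231407775) (nat_lit 102) (nat_lit 5) (nat_lit 106) (nat_lit 5) (nat_lit 107) (nat_lit 5) (nat_lit 382) (nat_lit 370) (nat_lit 328)))) (XT.nd (nat_lit 188) (nat_lit 588) (nat_lit 0) (XT.nd (nat_lit 94) (nat_lit 420) (nat_lit 0) (XT.lf (nat_lit 0) (nat_lit 6289094187) (nat_lit 336) (nat_lit 5612467167) (nat_lit 420) (nat_lit 3383879808) (nat_lit 98) (nat_lit 5) (nat_lit 102) (nat_lit 5) (nat_lit 103) (nat_lit 5) (nat_lit 383) (nat_lit 370) (nat_lit 327)) (XT.lf (nat_lit 0) (nat_lit 987122518) (nat_lit 420) (nat_lit 10385437094) (nat_lit 84) (nat_lit 4587045860) (nat_lit 93) (nat_lit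 5) (nat_lit 98) (nat_lit 5) (nat_lit 94) (nat_lit 5) (nat_lit 384) (nat_lit 370) (nat_lit 326))) (XT.nd (nat_lit 94) (nat_lit 252) (nat_lit 0) (XT.lf (nat_lit 0) (nat_lit 4879156523) (nat_lit 336) (nat_lit 983281663) (nat_lit 420) (nat_lit 10808831678) (nat_lit 89) (nat_lit 5) (nat_lit 93) (nat_lit 5) (nat_lit 94) (nat_lit 5) (nat_lit 385) (nat_lit 370) (nat_lit 325)) (XT.lf (nat_lit 0) (nat_lit 4202944652) (nat_lit 252) (nat_lit 7278639069) (nat_lit 336) (nat_lit 5940593456) (nat_lit 86) (nat_lit 5) (nat_lit 89) (nat_lit 5) (nat_lit 90) (nat_lit 5) (nat_lit 386) (nat_lit 370) (nat_lit 324))))) (XT.nd (nat_lit 376) (nat_lit 1008) (nat_lit 0) (XT.nd (nat_lit 188) (nat_lit 504) (nat_lit 0) (XT.nd (nat_lit 94) (nat_lit 336) (nat_lit 0) (XT.lf (nat_lit 0) (nat_lit 3638931768) (nat_lit 336) (nat_lit 14201239789) (nat_lit 420) (nat_lit 378489985) (nat_lit 82) (nat_lit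 5) (nat_lit 86) (nat_lit 5) (nat_lit 87) (nat_lit 5) (nat_lit 387) (nat_lit 370) (nat_lit 323)) (XT.lf (nat_lit 0) (nat_lit 3062706777) (nat_lit 252) (nat_lit 2739533098) (nat_lit 336) (nat_lit 13254540491) (nat_lit 78) (nat_lit 5) (nat_lit 81) (nat_lit 5) (nat_lit 82) (nat_lit 5) (nat_lit 388) (nat_lit 370) (nat_lit 322))) (XT.nd (nat_lit 94) (nat_lit 252) (nat_lit 0) (XT.lf (nat_lit 0) (nat_lit 2537735514) (nat_lit 252) (nat_lit 10326451431) (nat_lit 336) (nat_lit 7077450548) (nat_lit 75) (nat_lit 5) (nat_lit 78) (nat_lit 5) (nat_lit 79) (nat_lit 5) (nat_lit 389) (nat_lit 370) (nat_lit 321)) (XT.lf (nat_lit 0) (nat_lit 2158966236) (nat_lit 252) (nat_lit 18678970815) (nat_lit 336) (nat_lit 42003777) (nat_lit 72) (nat_lit 5) (nat_lit 75) (nat_lit 5) (nat_lit 76) (nat_lit 5) (nat_lit 390) (nat_lit 370) (nat_lit 320)))) (XT.nd (nat_lit 188) (nat_lit 504) (nat_lit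 0) (XT.nd (nat_lit 94) (nat_lit 168) (nat_lit 0) (XT.lf (nat_lit 0) (nat_lit 1720462884) (nat_lit 252) (nat_lit 6058550417) (nat_lit 336) (nat_lit 14085167261) (nat_lit 68) (nat_lit 5) (nat_lit 71) (nat_lit 5) (nat_lit 72) (nat_lit 5) (nat_lit 391) (nat_lit 370) (nat_lit 319)) (XT.lf (nat_lit 0) (nat_lit 1409163181) (nat_lit 168) (nat_lit 15244162657) (nat_lit 252) (nat_lit 6252344922) (nat_lit 66) (nat_lit 5) (nat_lit 68) (nat_lit 5) (nat_lit 69) (nat_lit 5) (nat_lit 392) (nat_lit 370) (nat_lit 318))) (XT.nd (nat_lit 94) (nat_lit 168) (nat_lit 0) (XT.lf (nat_lit 0) (nat_lit 1224465396) (nat_lit 252) (nat_lit 1348813224) (nat_lit 336) (nat_lit 21433637775) (nat_lit 62) (nat_lit 5) (nat_lit 65) (nat_lit 5) (nat_lit 66) (nat_lit 5) (nat_lit 393) (nat_lit 370) (nat_lit 317)) (XT.lf (nat_lit 0) (nat_lit 996514434) (nat_lit 168) (nat_lit 11462318853) (nat_lit 252)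 (nat_lit 12703656874) (nat_lit 60) (nat_lit 5) (nat_lit 62) (nat_lit 5) (nat_lit 63) (nat_lit 5) (nat_lit 394) (nat_lit 370) (nat_lit 316))))))))
noncomputable def xc111 : XT := (XT.nd (nat_lit 2632) (nat_lit 756) (nat_lit 0) (XT.nd (nat_lit 1316) (nat_lit 1848) (nat_lit 0) (XT.nd (nat_lit 658) (nat_lit 1092) (nat_lit 0) (XT.nd (nat_lit 282) (nat_lit 756) (nat_lit 0) (XT.nd (nat_lit 94) (nat_lit 420) (nat_lit 0) (XT.lf (nat_lit 0) (nat_lit 986259768) (nat_lit 168) (nat_lit 22606908954) (nat_lit 252) (nat_lit 2794444287) (nat_lit 58) (nat_lit 5) (nat_lit 60) (nat_lit 5) (nat_lit 61) (nat_lit 5) (nat_lit 395) (nat_lit 370) (nat_lit 315)) (XT.nd (nat_lit 94) (nat_lit 168) (nat_lit 0) (XT.lf (nat_lit 0) (nat_lit 970352199) (nat_lit 168) (nat_lit 7283829515) (nat_lit 252) (nat_lit 19420402755) (nat_lit 55) (nat_lit 5) (nat_lit 57) (nat_lit 5) (nat_lit 58) (nat_lit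 5) (nat_lit 396) (nat_lit 370) (nat_lit 314)) (XT.lf (nat_lit 0) (nat_lit 1092702792) (nat_lit 168) (nat_lit 19573751968) (nat_lit 252) (nat_lit 8366885326) (nat_lit 53) (nat_lit 5) (nat_lit 55) (nat_lit 5) (nat_lit 56) (nat_lit 5) (nat_lit 397) (nat_lit 370) (nat_lit 313)))) (XT.nd (nat_lit 188) (nat_lit 336) (nat_lit 0) (XT.nd (nat_lit 94) (nat_lit 168) (nat_lit 0) (XT.lf (nat_lit 0) (nat_lit 1389482195) (nat_lit 168) (nat_lit 2650517232) (nat_lit 252) (nat_lit 26428840252) (nat_lit 50) (nat_lit 5) (nat_lit 52) (nat_lit 5) (nat_lit 53) (nat_lit 5) (nat_lit 398) (nat_lit 370) (nat_lit 312)) (XT.lf (nat_lit 0) (nat_lit 1672447593) (nat_lit 168) (nat_lit 16209890888) (nat_lit 252) (nat_lit 14093180735) (nat_lit 48) (nat_lit 5) (nat_lit 50) (nat_lit 5) (nat_lit 51) (nat_lit 5) (nat_lit 399) (nat_lit 370) (nat_lit 311))) (XT.nd (nat_lit 94) (nat_lit 252) (nat_lit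 0) (XT.lf (nat_lit 0) (nat_lit 2279783421) (nat_lit 84) (nat_lit 31145878894) (nat_lit 168) (nat_lit 147390919) (nat_lit 47) (nat_lit 5) (nat_lit 48) (nat_lit 5) (nat_lit 49) (nat_lit 4) (nat_lit 400) (nat_lit 370) (nat_lit 310)) (XT.lf (nat_lit 0) (nat_lit 2799899574) (nat_lit 168) (nat_lit 12459931775) (nat_lit 252) (nat_lit 19985760488) (nat_lit 44) (nat_lit 5) (nat_lit 46) (nat_lit 5) (nat_lit 47) (nat_lit 5) (nat_lit 401) (nat_lit 370) (nat_lit 309))))) (XT.nd (nat_lit 282) (nat_lit 672) (nat_lit 0) (XT.nd (nat_lit 94) (nat_lit 336) (nat_lit 0) (XT.lf (nat_lit 0) (nat_lit 3645014610) (nat_lit 84) (nat_lit 28951663741) (nat_lit 168) (nat_lit 4420023826) (nat_lit 43) (nat_lit 5) (nat_lit 44) (nat_lit 5) (nat_lit 45) (nat_lit 4) (nat_lit 402) (nat_lit 370) (nat_lit 308)) (XT.nd (nat_lit 94) (nat_lit 84) (nat_lit 0) (XT.lf (nat_lit 0) (nat_lit 4561914315)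 (nat_lit 168) (nat_lit 8259806603) (nat_lit 252) (nat_lit 26056740655) (nat_lit 40) (nat_lit 5) (nat_lit 42) (nat_lit 5) (nat_lit 43) (nat_lit 5) (nat_lit 403) (nat_lit 370) (nat_lit 307)) (XT.lf (nat_lit 0) (nat_lit 5689497865) (nat_lit 84) (nat_lit 26472692005) (nat_lit 168) (nat_lit 8679636843) (nat_lit 39) (nat_lit 5) (nat_lit 40) (nat_lit 5) (nat_lit 41) (nat_lit 4) (nat_lit 404) (nat_lit 370) (nat_lit 306)))) (XT.nd (nat_lit 188) (nat_lit 336) (nat_lit 0) (XT.nd (nat_lit 94) (nat_lit 84) (nat_lit 0) (XT.lf (nat_lit 0) (nat_lit 7059371779) (nat_lit 168) (nat_lit 3535865889) (nat_lit 252) (nat_lit 32317625096) (nat_lit 36) (nat_lit 5) (nat_lit 38) (nat_lit 5) (nat_lit 39) (nat_lit 5) (nat_lit 405) (nat_lit 370) (nat_lit 305)) (XT.lf (nat_lit 0) (nat_lit 8521223949) (nat_lit 84) (nat_lit 23652118392) (nat_lit 168) (nat_lit 12915858283) (nat_lit 35) (nat_lit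 5) (nat_lit 36) (nat_lit 5) (nat_lit 37) (nat_lit 4) (nat_lit 406) (nat_lit 370) (nat_lit 304))) (XT.nd (nat_lit 94) (nat_lit 84) (nat_lit 0) (XT.lf (nat_lit 0) (nat_lit 8640835428) (nat_lit 252) (nat_lit 37010830837) (nat_lit 84) (nat_lit 1738701757) (nat_lit 32) (nat_lit 5) (nat_lit 35) (nat_lit 5) (nat_lit 33) (nat_lit 4) (nat_lit 407) (nat_lit 370) (nat_lit 303)) (XT.lf (nat_lit 0) (nat_lit 12264949139) (nat_lit 84) (nat_lit 20424312874) (nat_lit 168) (nat_lit 17114794723) (nat_lit 31) (nat_lit 5) (nat_lit 32) (nat_lit 5) (nat_lit 33) (nat_lit 4) (nat_lit 408) (nat_lit 370) (nat_lit 302)))))) (XT.nd (nat_lit 658) (nat_lit 840) (nat_lit 0) (XT.nd (nat_lit 282) (nat_lit 504) (nat_lit 0) (XT.nd (nat_lit 94) (nat_lit 252) (nat_lit 0) (XT.lf (nat_lit 0) (nat_lit 7035081996) (nat_lit 252) (nat_lit 37739788740) (nat_lit 84) (nat_lit 7581869148) (nat_lit 28) (nat_lit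 5) (nat_lit 31) (nat_lit 5) (nat_lit 29) (nat_lit 4) (nat_lit 409) (nat_lit 370) (nat_lit 301)) (XT.nd (nat_lit 94) (nat_lit 168) (nat_lit 0) (XT.lf (nat_lit 0) (nat_lit 17064392828) (nat_lit 84) (nat_lit 16713794121) (nat_lit 168) (nat_lit 21258379357) (nat_lit 27) (nat_lit 5) (nat_lit 28) (nat_lit 5) (nat_lit 29) (nat_lit 4) (nat_lit 410) (nat_lit 370) (nat_lit 300)) (XT.lf (nat_lit 0) (nat_lit 5769811076) (nat_lit 168) (nat_lit 37884890150) (nat_lit 84) (nat_lit 14212823323) (nat_lit 25) (nat_lit 5) (nat_lit 27) (nat_lit 5) (nat_lit 26) (nat_lit 4) (nat_lit 411) (nat_lit 370) (nat_lit 299)))) (XT.nd (nat_lit 188) (nat_lit 252) (nat_lit 0) (XT.nd (nat_lit 94) (nat_lit 168) (nat_lit 0) (XT.lf (nat_lit 0) (nat_lit 23084736439) (nat_lit 84) (nat_lit 12433996705) (nat_lit 168) (nat_lit 25323638083) (nat_lit 24) (nat_lit 5) (nat_lit 25) (nat_lit 5) (nat_lit 26)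 (nat_lit 4) (nat_lit 412) (nat_lit 370) (nat_lit 298)) (XT.lf (nat_lit 0) (nat_lit 4900244545) (nat_lit 168) (nat_lit 37328946192) (nat_lit 84) (nat_lit 21752067594) (nat_lit 22) (nat_lit 5) (nat_lit 24) (nat_lit 5) (nat_lit 23) (nat_lit 4) (nat_lit 413) (nat_lit 370) (nat_lit 297))) (XT.nd (nat_lit 94) (nat_lit 168) (nat_lit 0) (XT.lf (nat_lit 0) (nat_lit 30515458950) (nat_lit 84) (nat_lit 7485856190) (nat_lit 168) (nat_lit 29281859471) (nat_lit 21) (nat_lit 5) (nat_lit 22) (nat_lit 5) (nat_lit 23) (nat_lit 4) (nat_lit 414) (nat_lit 370) (nat_lit 296)) (XT.lf (nat_lit 0) (nat_lit 4490978757) (nat_lit 168) (nat_lit 35935473821) (nat_lit 84) (nat_lit 30336396352) (nat_lit 19) (nat_lit 5) (nat_lit 21) (nat_lit 5) (nat_lit 20) (nat_lit 4) (nat_lit 415) (nat_lit 370) (nat_lit 295))))) (XT.nd (nat_lit 282) (nat_lit 504) (nat_lit 0) (XT.nd (nat_lit 94) (nat_lit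 252) (nat_lit 0) (XT.lf (nat_lit 0) (nat_lit 39573549221) (nat_lit 84) (nat_lit 1756193390) (nat_lit 168) (nat_lit 33097653447) (nat_lit 18) (nat_lit 5) (nat_lit 19) (nat_lit 5) (nat_lit 20) (nat_lit 4) (nat_lit 416) (nat_lit 370) (nat_lit 294)) (XT.nd (nat_lit 94) (nat_lit 84) (nat_lit 0) (XT.lf (nat_lit 0) (nat_lit 4617328660) (nat_lit 168) (nat_lit 33545992861) (nat_lit 84) (nat_lit 40120942840) (nat_lit 16) (nat_lit 5) (nat_lit 18) (nat_lit 5) (nat_lit 17) (nat_lit 4) (nat_lit 417) (nat_lit 370) (nat_lit 293)) (XT.lf (nat_lit 0) (nat_lit 45699271423) (nat_lit 168) (nat_lit 31920012779) (nat_lit 0) (nat_lit 4727801570) (nat_lit 15) (nat_lit 5) (nat_lit 17) (nat_lit 4) (nat_lit 15) (nat_lit 4) (nat_lit 418) (nat_lit 370) (nat_lit 292)))) (XT.nd (nat_lit 188) (nat_lit 252) (nat_lit 0) (XT.nd (nat_lit 94) (nat_lit 84) (nat_lit 0) (XT.lf (nat_lit 0) (nat_lit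 5366846133) (nat_lit 168) (nat_lit 29976954442) (nat_lit 84) (nat_lit 51281496524) (nat_lit 13) (nat_lit 5) (nat_lit 15) (nat_lit 5) (nat_lit 14) (nat_lit 4) (nat_lit 419) (nat_lit 370) (nat_lit 291)) (XT.lf (nat_lit 0) (nat_lit 51213795890) (nat_lit 168) (nat_lit 27734619737) (nat_lit 0) (nat_lit 12179556648) (nat_lit 12) (nat_lit 5) (nat_lit 14) (nat_lit 4) (nat_lit 12) (nat_lit 4) (nat_lit 420) (nat_lit 370) (nat_lit 290))) (XT.nd (nat_lit 94) (nat_lit 84) (nat_lit 0) (XT.lf (nat_lit 0) (nat_lit 6841036071) (nat_lit 168) (nat_lit 25016254791) (nat_lit 84) (nat_lit 64017120710) (nat_lit 10) (nat_lit 5) (nat_lit 12) (nat_lit 5) (nat_lit 11) (nat_lit 4) (nat_lit 421) (nat_lit 370) (nat_lit 289)) (XT.lf (nat_lit 0) (nat_lit 58004218389) (nat_lit 168) (nat_lit 22042842240) (nat_lit 0) (nat_lit 20817491288) (nat_lit 9) (nat_lit 5) (nat_lit 11) (nat_lit 4) (nat_lit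 9) (nat_lit 4) (nat_lit 422) (nat_lit 370) (nat_lit 288))))))) (XT.nd (nat_lit 1316) (nat_lit 0) (nat_lit 0) (XT.nd (nat_lit 658) (nat_lit 0) (nat_lit 0) (XT.nd (nat_lit 282) (nat_lit 336) (nat_lit 0) (XT.nd (nat_lit 94) (nat_lit 252) (nat_lit 0) (XT.lf (nat_lit 0) (nat_lit 9157296460) (nat_lit 168) (nat_lit 18419282336) (nat_lit 84) (nat_lit 78553105195) (nat_lit 7) (nat_lit 5) (nat_lit 9) (nat_lit 5) (nat_lit 8) (nat_lit 4) (nat_lit 423) (nat_lit 370) (nat_lit 287)) (XT.nd (nat_lit 94) (nat_lit 168) (nat_lit 0) (XT.lf (nat_lit 0) (nat_lit 66251276504) (nat_lit 168) (nat_lit 14582639808) (nat_lit 0) (nat_lit 30826151050) (nat_lit 6) (nat_lit 5) (nat_lit 8) (nat_lit 4) (nat_lit 6) (nat_lit 4) (nat_lit 424) (nat_lit 370) (nat_lit 286)) (XT.lf (nat_lit 0) (nat_lit 12451111798) (nat_lit 168) (nat_lit 9904439431) (nat_lit 84) (nat_lit 95144293323) (nat_lit 4)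 (nat_lit 5) (nat_lit 6) (nat_lit 5) (nat_lit 5) (nat_lit 4) (nat_lit 425) (nat_lit 370) (nat_lit 285)))) (XT.nd (nat_lit 188) (nat_lit 0) (nat_lit 0) (XT.nd (nat_lit 94) (nat_lit 252) (nat_lit 0) (XT.lf (nat_lit 0) (nat_lit 76161060458) (nat_lit 168) (nat_lit 5052577311) (nat_lit 0) (nat_lit 42415337997) (nat_lit 3) (nat_lit 5) (nat_lit 5) (nat_lit 4) (nat_lit 3) (nat_lit 4) (nat_lit 426) (nat_lit 370) (nat_lit 284)) (XT.lf (nat_lit 0) (nat_lit 188654728253) (nat_lit 0) (nat_lit 0) (nat_lit 0) (nat_lit 0) (nat_lit 0) (nat_lit 0) (nat_lit 1) (nat_lit 0) (nat_lit 1) (nat_lit 0) (nat_lit 427) (nat_lit 370) (nat_lit 283))) (XT.nd (nat_lit 94) (nat_lit 0) (nat_lit 0) (XT.lf (nat_lit 0) (nat_lit 203561214698) (nat_lit 0) (nat_lit 0) (nat_lit 0) (nat_lit 0) (nat_lit 0) (nat_lit 0) (nat_lit 1) (nat_lit 0) (nat_lit 1) (nat_lit 0) (nat_lit 428) (nat_lit 370) (nat_lit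 282)) (XT.lf (nat_lit 0) (nat_lit 219660252766) (nat_lit 0) (nat_lit 0) (nat_lit 0) (nat_lit 0) (nat_lit 0) (nat_lit 0) (nat_lit 1) (nat_lit 0) (nat_lit 1) (nat_lit 0) (nat_lit 429) (nat_lit 370) (nat_lit 281))))) (XT.nd (nat_lit 282) (nat_lit 0) (nat_lit 0) (XT.nd (nat_lit 94) (nat_lit 0) (nat_lit 0) (XT.lf (nat_lit 0) (nat_lit 237047244167) (nat_lit 0) (nat_lit 0) (nat_lit 0) (nat_lit 0) (nat_lit 0) (nat_lit 0) (nat_lit 1) (nat_lit 0) (nat_lit 1) (nat_lit 0) (nat_lit 430) (nat_lit 370) (nat_lit 280)) (XT.nd (nat_lit 94) (nat_lit 0) (nat_lit 0) (XT.lf (nat_lit 0) (nat_lit 255825222922) (nat_lit 0) (nat_lit 0) (nat_lit 0) (nat_lit 0) (nat_lit 0) (nat_lit 0) (nat_lit 1) (nat_lit 0) (nat_lit 1) (nat_lit 0) (nat_lit 431) (nat_lit 370) (nat_lit 279)) (XT.lf (nat_lit 0) (nat_lit 276105465943) (nat_lit 0) (nat_lit 0) (nat_lit 0) (nat_lit 0) (nat_lit 0) (nat_lit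 0) (nat_lit 1) (nat_lit 0) (nat_lit 1) (nat_lit 0) (nat_lit 432) (nat_lit 370) (nat_lit 278)))) (XT.nd (nat_lit 188) (nat_lit 0) (nat_lit 0) (XT.nd (nat_lit 94) (nat_lit 0) (nat_lit 0) (XT.lf (nat_lit 0) (nat_lit 298008152448) (nat_lit 0) (nat_lit 0) (nat_lit 0) (nat_lit 0) (nat_lit 0) (nat_lit 0) (nat_lit 1) (nat_lit 0) (nat_lit 1) (nat_lit 0) (nat_lit 433) (nat_lit 370) (nat_lit 277)) (XT.lf (nat_lit 0) (nat_lit 321663076134) (nat_lit 0) (nat_lit 0) (nat_lit 0) (nat_lit 0) (nat_lit 0) (nat_lit 0) (nat_lit 1) (nat_lit 0) (nat_lit 1) (nat_lit 0) (nat_lit 434) (nat_lit 370) (nat_lit 276))) (XT.nd (nat_lit 94) (nat_lit 0) (nat_lit 0) (XT.lf (nat_lit 0) (nat_lit 347210414327) (nat_lit 0) (nat_lit 0) (nat_lit 0) (nat_lit 0) (nat_lit 0) (nat_lit 0) (nat_lit 1) (nat_lit 0) (nat_lit 1) (nat_lit 0) (nat_lit 435) (nat_lit 370) (nat_lit 275)) (XT.lf (nat_lit 0) (nat_lit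 374801558662) (nat_lit 0) (nat_lit 0) (nat_lit 0) (nat_lit 0) (nat_lit 0) (nat_lit 0) (nat_lit 1) (nat_lit 0) (nat_lit 1) (nat_lit 0) (nat_lit 436) (nat_lit 370) (nat_lit 274)))))) (XT.nd (nat_lit 658) (nat_lit 0) (nat_lit 0) (XT.nd (nat_lit 282) (nat_lit 0) (nat_lit 0) (XT.nd (nat_lit 94) (nat_lit 0) (nat_lit 0) (XT.lf (nat_lit 0) (nat_lit 404600012214) (nat_lit 0) (nat_lit 0) (nat_lit 0) (nat_lit 0) (nat_lit 0) (nat_lit 0) (nat_lit 1) (nat_lit 0) (nat_lit 1) (nat_lit 0) (nat_lit 437) (nat_lit 370) (nat_lit 273)) (XT.nd (nat_lit 94) (nat_lit 0) (nat_lit 0) (XT.lf (nat_lit 0) (nat_lit 436782358413) (nat_lit 0) (nat_lit 0) (nat_lit 0) (nat_lit 0) (nat_lit 0) (nat_lit 0) (nat_lit 1) (nat_lit 0) (nat_lit 1) (nat_lit 0) (nat_lit 438) (nat_lit 370) (nat_lit 272)) (XT.lf (nat_lit 0) (nat_lit 471539307459) (nat_lit 0) (nat_lit 0) (nat_lit 0) (nat_lit 0) (nat_lit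 0) (nat_lit 0) (nat_lit 1) (nat_lit 0) (nat_lit 1) (nat_lit 0) (nat_lit 439) (nat_lit 370) (nat_lit 271)))) (XT.nd (nat_lit 188) (nat_lit 0) (nat_lit 0) (XT.nd (nat_lit 94) (nat_lit 0) (nat_lit 0) (XT.lf (nat_lit 0) (nat_lit 509076826457) (nat_lit 0) (nat_lit 0) (nat_lit 0) (nat_lit 0) (nat_lit 0) (nat_lit 0) (nat_lit 1) (nat_lit 0) (nat_lit 1) (nat_lit 0) (nat_lit 440) (nat_lit 370) (nat_lit 270)) (XT.lf (nat_lit 0) (nat_lit 549617359964) (nat_lit 0) (nat_lit 0) (nat_lit 0) (nat_lit 0) (nat_lit 0) (nat_lit 0) (nat_lit 1) (nat_lit 0) (nat_lit 1) (nat_lit 0) (nat_lit 441) (nat_lit 370) (nat_lit 269))) (XT.nd (nat_lit 94) (nat_lit 0) (nat_lit 0) (XT.lf (nat_lit 0) (nat_lit 593401148178) (nat_lit 0) (nat_lit 0) (nat_lit 0) (nat_lit 0) (nat_lit 0) (nat_lit 0) (nat_lit 1) (nat_lit 0) (nat_lit 1) (nat_lit 0) (nat_lit 442) (nat_lit 370) (nat_lit 268)) (XT.lf (nat_lit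 0) (nat_lit 640687650586) (nat_lit 0) (nat_lit 0) (nat_lit 0) (nat_lit 0) (nat_lit 0) (nat_lit 0) (nat_lit 1) (nat_lit 0) (nat_lit 1) (nat_lit 0) (nat_lit 443) (nat_lit 370) (nat_lit 267))))) (XT.nd (nat_lit 376) (nat_lit 0) (nat_lit 0) (XT.nd (nat_lit 188) (nat_lit 0) (nat_lit 0) (XT.nd (nat_lit 94) (nat_lit 0) (nat_lit 0) (XT.lf (nat_lit 0) (nat_lit 691757083497) (nat_lit 0) (nat_lit 0) (nat_lit 0) (nat_lit 0) (nat_lit 0) (nat_lit 0) (nat_lit 1) (nat_lit 0) (nat_lit 1) (nat_lit 0) (nat_lit 444) (nat_lit 370) (nat_lit 266)) (XT.lf (nat_lit 0) (nat_lit 746912080589) (nat_lit 0) (nat_lit 0) (nat_lit 0) (nat_lit 0) (nat_lit 0) (nat_lit 0) (nat_lit 1) (nat_lit 0) (nat_lit 1) (nat_lit 0) (nat_lit 445) (nat_lit 370) (nat_lit 265))) (XT.nd (nat_lit 94) (nat_lit 0) (nat_lit 0) (XT.lf (nat_lit 0) (nat_lit 806479486289) (nat_lit 0) (nat_lit 0) (nat_lit 0) (nat_lit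 0) (nat_lit 0) (nat_lit 0) (nat_lit 1) (nat_lit 0) (nat_lit 1) (nat_lit 0) (nat_lit 446) (nat_lit 370) (nat_lit 264)) (XT.lf (nat_lit 0) (nat_lit 870812292629) (nat_lit 0) (nat_lit 0) (nat_lit 0) (nat_lit 0) (nat_lit 0) (nat_lit 0) (nat_lit 1) (nat_lit 0) (nat_lit 1) (nat_lit 0) (nat_lit 447) (nat_lit 370) (nat_lit 263)))) (XT.nd (nat_lit 188) (nat_lit 0) (nat_lit 0) (XT.nd (nat_lit 94) (nat_lit 0) (nat_lit 0) (XT.lf (nat_lit 0) (nat_lit 940291731056) (nat_lit 0) (nat_lit 0) (nat_lit 0) (nat_lit 0) (nat_lit 0) (nat_lit 0) (nat_lit 1) (nat_lit 0) (nat_lit 1) (nat_lit 0) (nat_lit 448) (nat_lit 370) (nat_lit 262)) (XT.lf (nat_lit 0) (nat_lit 1015329531575) (nat_lit 0) (nat_lit 0) (nat_lit 0) (nat_lit 0) (nat_lit 0) (nat_lit 0) (nat_lit 1) (nat_lit 0) (nat_lit 1) (nat_lit 0) (nat_lit 449) (nat_lit 370) (nat_lit 261))) (XT.nd (nat_lit 94) (nat_lit 0) (nat_lit 0)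 (XT.lf (nat_lit 0) (nat_lit 1096370362633) (nat_lit 0) (nat_lit 0) (nat_lit 0) (nat_lit 0) (nat_lit 0) (nat_lit 0) (nat_lit 1) (nat_lit 0) (nat_lit 1) (nat_lit 0) (nat_lit 450) (nat_lit 370) (nat_lit 260)) (XT.lf (nat_lit 0) (nat_lit 1183894466192) (nat_lit 0) (nat_lit 0) (nat_lit 0) (nat_lit 0) (nat_lit 0) (nat_lit 0) (nat_lit 1) (nat_lit 0) (nat_lit 1) (nat_lit 0) (nat_lit 451) (nat_lit 370) (nat_lit 259))))))))
noncomputable def xc112 : XT := (XT.nd (nat_lit 2632) (nat_lit 0) (nat_lit 0) (XT.nd (nat_lit 1316) (nat_lit 0) (nat_lit 0) (XT.nd (nat_lit 658) (nat_lit 0) (nat_lit 0) (XT.nd (nat_lit 282) (nat_lit 0) (nat_lit 0) (XT.nd (nat_lit 94) (nat_lit 0) (nat_lit 0) (XT.lf (nat_lit 0) (nat_lit 1278420503607) (nat_lit 0) (nat_lit 0) (nat_lit 0) (nat_lit 0) (nat_lit 0) (nat_lit 0) (nat_lit 1) (nat_lit 0) (nat_lit 1) (nat_lit 0) (nat_lit 452) (nat_lit 370) (nat_lit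 258)) (XT.nd (nat_lit 94) (nat_lit 0) (nat_lit 0) (XT.lf (nat_lit 0) (nat_lit 1380508629174) (nat_lit 0) (nat_lit 0) (nat_lit 0) (nat_lit 0) (nat_lit 0) (nat_lit 0) (nat_lit 1) (nat_lit 0) (nat_lit 1) (nat_lit 0) (nat_lit 453) (nat_lit 370) (nat_lit 257)) (XT.lf (nat_lit 0) (nat_lit 1490763809561) (nat_lit 0) (nat_lit 0) (nat_lit 0) (nat_lit 0) (nat_lit 0) (nat_lit 0) (nat_lit 1) (nat_lit 0) (nat_lit 1) (nat_lit 0) (nat_lit 454) (nat_lit 370) (nat_lit 256)))) (XT.nd (nat_lit 188) (nat_lit 0) (nat_lit 0) (XT.nd (nat_lit 94) (nat_lit 0) (nat_lit 0) (XT.lf (nat_lit 0) (nat_lit 1609839408802) (nat_lit 0) (nat_lit 0) (nat_lit 0) (nat_lit 0) (nat_lit 0) (nat_lit 0) (nat_lit 1) (nat_lit 0) (nat_lit 1) (nat_lit 0) (nat_lit 455) (nat_lit 370) (nat_lit 255)) (XT.lf (nat_lit 0) (nat_lit 1738441060077) (nat_lit 0) (nat_lit 0) (nat_lit 0) (nat_lit 0) (nat_lit 0) (nat_lit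 0) (nat_lit 1) (nat_lit 0) (nat_lit 1) (nat_lit 0) (nat_lit 456) (nat_lit 370) (nat_lit 254))) (XT.nd (nat_lit 94) (nat_lit 0) (nat_lit 0) (XT.lf (nat_lit 0) (nat_lit 1877330847246) (nat_lit 0) (nat_lit 0) (nat_lit 0) (nat_lit 0) (nat_lit 0) (nat_lit 0) (nat_lit 1) (nat_lit 0) (nat_lit 1) (nat_lit 0) (nat_lit 457) (nat_lit 370) (nat_lit 253)) (XT.lf (nat_lit 0) (nat_lit 2027331820898) (nat_lit 0) (nat_lit 0) (nat_lit 0) (nat_lit 0) (nat_lit 0) (nat_lit 0) (nat_lit 1) (nat_lit 0) (nat_lit 1) (nat_lit 0) (nat_lit 458) (nat_lit 370) (nat_lit 252))))) (XT.nd (nat_lit 282) (nat_lit 0) (nat_lit 0) (XT.nd (nat_lit 94) (nat_lit 0) (nat_lit 0) (XT.lf (nat_lit 0) (nat_lit 2189332875693) (nat_lit 0) (nat_lit 0) (nat_lit 0) (nat_lit 0) (nat_lit 0) (nat_lit 0) (nat_lit 1) (nat_lit 0) (nat_lit 1) (nat_lit 0) (nat_lit 459) (nat_lit 370) (nat_lit 251)) (XT.nd (nat_lit 94)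 (nat_lit 0) (nat_lit 0) (XT.lf (nat_lit 0) (nat_lit 2364294017882) (nat_lit 0) (nat_lit 0) (nat_lit 0) (nat_lit 0) (nat_lit 0) (nat_lit 0) (nat_lit 1) (nat_lit 0) (nat_lit 1) (nat_lit 0) (nat_lit 460) (nat_lit 370) (nat_lit 250)) (XT.lf (nat_lit 0) (nat_lit 2553252054232) (nat_lit 0) (nat_lit 0) (nat_lit 0) (nat_lit 0) (nat_lit 0) (nat_lit 0) (nat_lit 1) (nat_lit 0) (nat_lit 1) (nat_lit 0) (nat_lit 461) (nat_lit 370) (nat_lit 249)))) (XT.nd (nat_lit 188) (nat_lit 0) (nat_lit 0) (XT.nd (nat_lit 94) (nat_lit 0) (nat_lit 0) (XT.lf (nat_lit 0) (nat_lit 2757326736071) (nat_lit 0) (nat_lit 0) (nat_lit 0) (nat_lit 0) (nat_lit 0) (nat_lit 0) (nat_lit 1) (nat_lit 0) (nat_lit 1) (nat_lit 0) (nat_lit 462) (nat_lit 370) (nat_lit 248)) (XT.lf (nat_lit 0) (nat_lit 2977727394846) (nat_lit 0) (nat_lit 0) (nat_lit 0) (nat_lit 0) (nat_lit 0) (nat_lit 0) (nat_lit 1) (nat_lit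 0) (nat_lit 1) (nat_lit 0) (nat_lit 463) (nat_lit 370) (nat_lit 247))) (XT.nd (nat_lit 94) (nat_lit 0) (nat_lit 0) (XT.lf (nat_lit 0) (nat_lit 3215760108535) (nat_lit 0) (nat_lit 0) (nat_lit 0) (nat_lit 0) (nat_lit 0) (nat_lit 0) (nat_lit 1) (nat_lit 0) (nat_lit 1) (nat_lit 0) (nat_lit 464) (nat_lit 370) (nat_lit 246)) (XT.lf (nat_lit 0) (nat_lit 3472835441368) (nat_lit 0) (nat_lit 0) (nat_lit 0) (nat_lit 0) (nat_lit 0) (nat_lit 0) (nat_lit 1) (nat_lit 0) (nat_lit 1) (nat_lit 0) (nat_lit 465) (nat_lit 370) (nat_lit 245)))))) (XT.nd (nat_lit 658) (nat_lit 0) (nat_lit 0) (XT.nd (nat_lit 282) (nat_lit 0) (nat_lit 0) (XT.nd (nat_lit 94) (nat_lit 0) (nat_lit 0) (XT.lf (nat_lit 0) (nat_lit 3750476802724) (nat_lit 0) (nat_lit 0) (nat_lit 0) (nat_lit 0) (nat_lit 0) (nat_lit 0) (nat_lit 1) (nat_lit 0) (nat_lit 1) (nat_lit 0) (nat_lit 466) (nat_lit 370) (nat_lit 244))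 (XT.nd (nat_lit 94) (nat_lit 0) (nat_lit 0) (XT.lf (nat_lit 0) (nat_lit 4050329474745) (nat_lit 0) (nat_lit 0) (nat_lit 0) (nat_lit 0) (nat_lit 0) (nat_lit 0) (nat_lit 1) (nat_lit 0) (nat_lit 1) (nat_lit 0) (nat_lit 467) (nat_lit 370) (nat_lit 243)) (XT.lf (nat_lit 0) (nat_lit 4374170362154) (nat_lit 0) (nat_lit 0) (nat_lit 0) (nat_lit 0) (nat_lit 0) (nat_lit 0) (nat_lit 1) (nat_lit 0) (nat_lit 1) (nat_lit 0) (nat_lit 468) (nat_lit 370) (nat_lit 242)))) (XT.nd (nat_lit 188) (nat_lit 0) (nat_lit 0) (XT.nd (nat_lit 94) (nat_lit 0) (nat_lit 0) (XT.lf (nat_lit 0) (nat_lit 4723918522061) (nat_lit 0) (nat_lit 0) (nat_lit 0) (nat_lit 0) (nat_lit 0) (nat_lit 0) (nat_lit 1) (nat_lit 0) (nat_lit 1) (nat_lit 0) (nat_lit 469) (nat_lit 370) (nat_lit 241)) (XT.lf (nat_lit 0) (nat_lit 5101646536154) (nat_lit 0) (nat_lit 0) (nat_lit 0) (nat_lit 0) (nat_lit 0) (nat_lit 0)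 (nat_lit 1) (nat_lit 0) (nat_lit 1) (nat_lit 0) (nat_lit 470) (nat_lit 370) (nat_lit 240))) (XT.nd (nat_lit 94) (nat_lit 0) (nat_lit 0) (XT.lf (nat_lit 0) (nat_lit 5509592792666) (nat_lit 0) (nat_lit 0) (nat_lit 0) (nat_lit 0) (nat_lit 0) (nat_lit 0) (nat_lit 1) (nat_lit 0) (nat_lit 1) (nat_lit 0) (nat_lit 471) (nat_lit 370) (nat_lit 239)) (XT.lf (nat_lit 0) (nat_lit 5950174750894) (nat_lit 0) (nat_lit 0) (nat_lit 0) (nat_lit 0) (nat_lit 0) (nat_lit 0) (nat_lit 1) (nat_lit 0) (nat_lit 1) (nat_lit 0) (nat_lit 472) (nat_lit 370) (nat_lit 238))))) (XT.nd (nat_lit 282) (nat_lit 0) (nat_lit 0) (XT.nd (nat_lit 94) (nat_lit 0) (nat_lit 0) (XT.lf (nat_lit 0) (nat_lit 6426003266887) (nat_lit 0) (nat_lit 0) (nat_lit 0) (nat_lit 0) (nat_lit 0) (nat_lit 0) (nat_lit 1) (nat_lit 0) (nat_lit 1) (nat_lit 0) (nat_lit 473) (nat_lit 370) (nat_lit 237)) (XT.nd (nat_lit 94) (nat_lit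 0) (nat_lit 0) (XT.lf (nat_lit 0) (nat_lit 6939898065184) (nat_lit 0) (nat_lit 0) (nat_lit 0) (nat_lit 0) (nat_lit 0) (nat_lit 0) (nat_lit 1) (nat_lit 0) (nat_lit 1) (nat_lit 0) (nat_lit 474) (nat_lit 370) (nat_lit 236)) (XT.lf (nat_lit 0) (nat_lit 7494904448294) (nat_lit 0) (nat_lit 0) (nat_lit 0) (nat_lit 0) (nat_lit 0) (nat_lit 0) (nat_lit 1) (nat_lit 0) (nat_lit 1) (nat_lit 0) (nat_lit 475) (nat_lit 370) (nat_lit 235)))) (XT.nd (nat_lit 188) (nat_lit 0) (nat_lit 0) (XT.nd (nat_lit 94) (nat_lit 0) (nat_lit 0) (XT.lf (nat_lit 0) (nat_lit 8094311342931) (nat_lit 0) (nat_lit 0) (nat_lit 0) (nat_lit 0) (nat_lit 0) (nat_lit 0) (nat_lit 1) (nat_lit 0) (nat_lit 1) (nat_lit 0) (nat_lit 476) (nat_lit 370) (nat_lit 234)) (XT.lf (nat_lit 0) (nat_lit 8741670789952) (nat_lit 0) (nat_lit 0) (nat_lit 0) (nat_lit 0) (nat_lit 0) (nat_lit 0) (nat_lit 1) (nat_lit 0) (nat_lit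 1) (nat_lit 0) (nat_lit 477) (nat_lit 370) (nat_lit 233))) (XT.nd (nat_lit 94) (nat_lit 0) (nat_lit 0) (XT.lf (nat_lit 0) (nat_lit 9440818993488) (nat_lit 0) (nat_lit 0) (nat_lit 0) (nat_lit 0) (nat_lit 0) (nat_lit 0) (nat_lit 1) (nat_lit 0) (nat_lit 1) (nat_lit 0) (nat_lit 478) (nat_lit 370) (nat_lit 232)) (XT.lf (nat_lit 0) (nat_lit 10195899054005) (nat_lit 0) (nat_lit 0) (nat_lit 0) (nat_lit 0) (nat_lit 0) (nat_lit 0) (nat_lit 1) (nat_lit 0) (nat_lit 1) (nat_lit 0) (nat_lit 479) (nat_lit 370) (nat_lit 231))))))) (XT.nd (nat_lit 1316) (nat_lit 0) (nat_lit 0) (XT.nd (nat_lit 658) (nat_lit 0) (nat_lit 0) (XT.nd (nat_lit 282) (nat_lit 0) (nat_lit 0) (XT.nd (nat_lit 94) (nat_lit 0) (nat_lit 0) (XT.lf (nat_lit 0) (nat_lit 11011385520008) (nat_lit 0) (nat_lit 0) (nat_lit 0) (nat_lit 0) (nat_lit 0) (nat_lit 0) (nat_lit 1) (nat_lit 0) (nat_lit 1) (nat_lit 0) (nat_lit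 480) (nat_lit 370) (nat_lit 230)) (XT.nd (nat_lit 94) (nat_lit 0) (nat_lit 0) (XT.lf (nat_lit 0) (nat_lit 11892110903890) (nat_lit 0) (nat_lit 0) (nat_lit 0) (nat_lit 0) (nat_lit 0) (nat_lit 0) (nat_lit 1) (nat_lit 0) (nat_lit 1) (nat_lit 0) (nat_lit 481) (nat_lit 370) (nat_lit 229)) (XT.lf (nat_lit 0) (nat_lit 12843294319036) (nat_lit 0) (nat_lit 0) (nat_lit 0) (nat_lit 0) (nat_lit 0) (nat_lit 0) (nat_lit 1) (nat_lit 0) (nat_lit 1) (nat_lit 0) (nat_lit 482) (nat_lit 370) (nat_lit 228)))) (XT.nd (nat_lit 188) (nat_lit 0) (nat_lit 0) (XT.nd (nat_lit 94) (nat_lit 0) (nat_lit 0) (XT.lf (nat_lit 0) (nat_lit 13870572407906) (nat_lit 0) (nat_lit 0) (nat_lit 0) (nat_lit 0) (nat_lit 0) (nat_lit 0) (nat_lit 1) (nat_lit 0) (nat_lit 1) (nat_lit 0) (nat_lit 483) (nat_lit 370) (nat_lit 227)) (XT.lf (nat_lit 0) (nat_lit 14980032744360) (nat_lit 0) (nat_lit 0) (nat_lit 0)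 (nat_lit 0) (nat_lit 0) (nat_lit 0) (nat_lit 1) (nat_lit 0) (nat_lit 1) (nat_lit 0) (nat_lit 484) (nat_lit 370) (nat_lit 226))) (XT.nd (nat_lit 94) (nat_lit 0) (nat_lit 0) (XT.lf (nat_lit 0) (nat_lit 16178249908171) (nat_lit 0) (nat_lit 0) (nat_lit 0) (nat_lit 0) (nat_lit 0) (nat_lit 0) (nat_lit 1) (nat_lit 0) (nat_lit 1) (nat_lit 0) (nat_lit 485) (nat_lit 370) (nat_lit 225)) (XT.lf (nat_lit 0) (nat_lit 17472324445493) (nat_lit 0) (nat_lit 0) (nat_lit 0) (nat_lit 0) (nat_lit 0) (nat_lit 0) (nat_lit 1) (nat_lit 0) (nat_lit 1) (nat_lit 0) (nat_lit 486) (nat_lit 370) (nat_lit 224))))) (XT.nd (nat_lit 282) (nat_lit 0) (nat_lit 0) (XT.nd (nat_lit 94) (nat_lit 0) (nat_lit 0) (XT.lf (nat_lit 0) (nat_lit 18869924946177) (nat_lit 0) (nat_lit 0) (nat_lit 0) (nat_lit 0) (nat_lit 0) (nat_lit 0) (nat_lit 1) (nat_lit 0) (nat_lit 1) (nat_lit 0) (nat_lit 487) (nat_lit 370)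 (nat_lit 223)) (XT.nd (nat_lit 94) (nat_lit 0) (nat_lit 0) (XT.lf (nat_lit 0) (nat_lit 20379333487265) (nat_lit 0) (nat_lit 0) (nat_lit 0) (nat_lit 0) (nat_lit 0) (nat_lit 0) (nat_lit 1) (nat_lit 0) (nat_lit 1) (nat_lit 0) (nat_lit 488) (nat_lit 370) (nat_lit 222)) (XT.lf (nat_lit 0) (nat_lit 22009494711964) (nat_lit 0) (nat_lit 0) (nat_lit 0) (nat_lit 0) (nat_lit 0) (nat_lit 0) (nat_lit 1) (nat_lit 0) (nat_lit 1) (nat_lit 0) (nat_lit 489) (nat_lit 370) (nat_lit 221)))) (XT.nd (nat_lit 188) (nat_lit 0) (nat_lit 0) (XT.nd (nat_lit 94) (nat_lit 0) (nat_lit 0) (XT.lf (nat_lit 0) (nat_lit 23770068834937) (nat_lit 0) (nat_lit 0) (nat_lit 0) (nat_lit 0) (nat_lit 0) (nat_lit 0) (nat_lit 1) (nat_lit 0) (nat_lit 1) (nat_lit 0) (nat_lit 490) (nat_lit 370) (nat_lit 220)) (XT.lf (nat_lit 0) (nat_lit 25671488888025) (nat_lit 0) (nat_lit 0) (nat_lit 0) (nat_lit 0) (nat_lit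 0) (nat_lit 0) (nat_lit 1) (nat_lit 0) (nat_lit 1) (nat_lit 0) (nat_lit 491) (nat_lit 370) (nat_lit 219))) (XT.nd (nat_lit 94) (nat_lit 0) (nat_lit 0) (XT.lf (nat_lit 0) (nat_lit 27725022545616) (nat_lit 0) (nat_lit 0) (nat_lit 0) (nat_lit 0) (nat_lit 0) (nat_lit 0) (nat_lit 1) (nat_lit 0) (nat_lit 1) (nat_lit 0) (nat_lit 492) (nat_lit 370) (nat_lit 218)) (XT.lf (nat_lit 0) (nat_lit 29942838896053) (nat_lit 0) (nat_lit 0) (nat_lit 0) (nat_lit 0) (nat_lit 0) (nat_lit 0) (nat_lit 1) (nat_lit 0) (nat_lit 1) (nat_lit 0) (nat_lit 493) (nat_lit 370) (nat_lit 217)))))) (XT.nd (nat_lit 658) (nat_lit 0) (nat_lit 0) (XT.nd (nat_lit 282) (nat_lit 0) (nat_lit 0) (XT.nd (nat_lit 94) (nat_lit 0) (nat_lit 0) (XT.lf (nat_lit 0) (nat_lit 32338080554744) (nat_lit 0) (nat_lit 0) (nat_lit 0) (nat_lit 0) (nat_lit 0) (nat_lit 0) (nat_lit 1) (nat_lit 0) (nat_lit 1) (nat_lit 0) (nat_lit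 494) (nat_lit 370) (nat_lit 216)) (XT.nd (nat_lit 94) (nat_lit 0) (nat_lit 0) (XT.lf (nat_lit 0) (nat_lit 34924941546333) (nat_lit 0) (nat_lit 0) (nat_lit 0) (nat_lit 0) (nat_lit 0) (nat_lit 0) (nat_lit 1) (nat_lit 0) (nat_lit 1) (nat_lit 0) (nat_lit 495) (nat_lit 370) (nat_lit 215)) (XT.lf (nat_lit 0) (nat_lit 37718751417439) (nat_lit 0) (nat_lit 0) (nat_lit 0) (nat_lit 0) (nat_lit 0) (nat_lit 0) (nat_lit 1) (nat_lit 0) (nat_lit 1) (nat_lit 0) (nat_lit 496) (nat_lit 370) (nat_lit 214)))) (XT.nd (nat_lit 188) (nat_lit 0) (nat_lit 0) (XT.nd (nat_lit 94) (nat_lit 0) (nat_lit 0) (XT.lf (nat_lit 0) (nat_lit 40736066078407) (nat_lit 0) (nat_lit 0) (nat_lit 0) (nat_lit 0) (nat_lit 0) (nat_lit 0) (nat_lit 1) (nat_lit 0) (nat_lit 1) (nat_lit 0) (nat_lit 497) (nat_lit 370) (nat_lit 213)) (XT.lf (nat_lit 0) (nat_lit 43994765912415) (nat_lit 0) (nat_lit 0) (nat_lit 0)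 (nat_lit 0) (nat_lit 0) (nat_lit 0) (nat_lit 1) (nat_lit 0) (nat_lit 1) (nat_lit 0) (nat_lit 498) (nat_lit 370) (nat_lit 212))) (XT.nd (nat_lit 94) (nat_lit 0) (nat_lit 0) (XT.lf (nat_lit 0) (nat_lit 47514161733293) (nat_lit 0) (nat_lit 0) (nat_lit 0) (nat_lit 0) (nat_lit 0) (nat_lit 0) (nat_lit 1) (nat_lit 0) (nat_lit 1) (nat_lit 0) (nat_lit 499) (nat_lit 370) (nat_lit 211)) (XT.lf (nat_lit 0) (nat_lit 51315109219979) (nat_lit 0) (nat_lit 0) (nat_lit 0) (nat_lit 0) (nat_lit 0) (nat_lit 0) (nat_lit 1) (nat_lit 0) (nat_lit 1) (nat_lit 0) (nat_lit 500) (nat_lit 370) (nat_lit 210))))) (XT.nd (nat_lit 55554) (nat_lit 0) (nat_lit 11676) (XT.nd (nat_lit 94) (nat_lit 0) (nat_lit 0) (XT.lf (nat_lit 0) (nat_lit 55420132505729) (nat_lit 0) (nat_lit 0) (nat_lit 0) (nat_lit 0) (nat_lit 0) (nat_lit 0) (nat_lit 1) (nat_lit 0) (nat_lit 1) (nat_lit 0) (nat_lit 501) (nat_lit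 370) (nat_lit 209)) (XT.nd (nat_lit 94) (nat_lit 0) (nat_lit 0) (XT.lf (nat_lit 0) (nat_lit 59853557654457) (nat_lit 0) (nat_lit 0) (nat_lit 0) (nat_lit 0) (nat_lit 0) (nat_lit 0) (nat_lit 1) (nat_lit 0) (nat_lit 1) (nat_lit 0) (nat_lit 502) (nat_lit 370) (nat_lit 208)) (XT.lf (nat_lit 0) (nat_lit 64641656815194) (nat_lit 0) (nat_lit 0) (nat_lit 0) (nat_lit 0) (nat_lit 0) (nat_lit 0) (nat_lit 1) (nat_lit 0) (nat_lit 1) (nat_lit 0) (nat_lit 503) (nat_lit 370) (nat_lit 207)))) (XT.nd (nat_lit 188) (nat_lit 0) (nat_lit 84) (XT.nd (nat_lit 94) (nat_lit 0) (nat_lit 0) (XT.lf (nat_lit 0) (nat_lit 1075648937) (nat_lit 0) (nat_lit 1075648937) (nat_lit 756) (nat_lit 2824698269) (nat_lit 139) (nat_lit 5) (nat_lit 139) (nat_lit 3) (nat_lit 148) (nat_lit 3) (nat_lit 371) (nat_lit 371) (nat_lit 338)) (XT.lf (nat_lit 84) (nat_lit 95061235) (nat_lit 0) (nat_lit 5570321024)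 (nat_lit 840) (nat_lit 4625155584) (nat_lit 140) (nat_lit 5) (nat_lit 139) (nat_lit 5) (nat_lit 149) (nat_lit 5) (nat_lit 372) (nat_lit 371) (nat_lit 337))) (XT.nd (nat_lit 94) (nat_lit 0) (nat_lit 0) (XT.lf (nat_lit 0) (nat_lit 7222282989) (nat_lit 756) (nat_lit 1878786029) (nat_lit 840) (nat_lit 1550843464) (nat_lit 140) (nat_lit 5) (nat_lit 149) (nat_lit 5) (nat_lit 150) (nat_lit 5) (nat_lit 373) (nat_lit 371) (nat_lit 336)) (XT.lf (nat_lit 84) (nat_lit 7173650582) (nat_lit 0) (nat_lit 1833459669) (nat_lit 840) (nat_lit 2029918114) (nat_lit 141) (nat_lit 5) (nat_lit 140) (nat_lit 5) (nat_lit 150) (nat_lit 5) (nat_lit 374) (nat_lit 371) (nat_lit 335))))))))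
noncomputable def xc113 : XT := (XT.nd (nat_lit 2632) (nat_lit 3696) (nat_lit 0) (XT.nd (nat_lit 1316) (nat_lit 3108) (nat_lit 0) (XT.nd (nat_lit 658) (nat_lit 2520) (nat_lit 0) (XT.nd (nat_lit 282) (nat_lit 1764) (nat_lit 0) (XT.nd (nat_lit 94) (nat_lit 756) (nat_lit 0) (XT.lf (nat_lit 84) (nat_lit 5582527018) (nat_lit 0) (nat_lit 5471131765) (nat_lit 840) (nat_lit 393347983) (nat_lit 142) (nat_lit 5) (nat_lit 141) (nat_lit 5) (nat_lit 151) (nat_lit 5) (nat_lit 375) (nat_lit 371) (nat_lit 334)) (XT.nd (nat_lit 94) (nat_lit 0) (nat_lit 0) (XT.lf (nat_lit 0) (nat_lit 1443049902) (nat_lit 840) (nat_lit 7882585502) (nat_lit 924) (nat_lit 2557431147) (nat_lit 132) (nat_lit 5) (nat_lit 142) (nat_lit 5) (nat_lit 143) (nat_lit 5) (nat_lit 376) (nat_lit 371) (nat_lit 333)) (XT.lf (nat_lit 84) (nat_lit 2422704013) (nat_lit 0) (nat_lit 1139181367) (nat_lit 924) (nat_lit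 8784337985) (nat_lit 133) (nat_lit 5) (nat_lit 132) (nat_lit 5) (nat_lit 143) (nat_lit 5) (nat_lit 377) (nat_lit 371) (nat_lit 332)))) (XT.nd (nat_lit 188) (nat_lit 1008) (nat_lit 0) (XT.nd (nat_lit 94) (nat_lit 0) (nat_lit 0) (XT.lf (nat_lit 0) (nat_lit 827726847) (nat_lit 840) (nat_lit 5215899709) (nat_lit 924) (nat_lit 6793136225) (nat_lit 123) (nat_lit 5) (nat_lit 133) (nat_lit 5) (nat_lit 134) (nat_lit 5) (nat_lit 378) (nat_lit 371) (nat_lit 331)) (XT.lf (nat_lit 0) (nat_lit 8901494334) (nat_lit 924) (nat_lit 714958494) (nat_lit 84) (nat_lit 3741213157) (nat_lit 123) (nat_lit 5) (nat_lit 134) (nat_lit 5) (nat_lit 124) (nat_lit 5) (nat_lit 379) (nat_lit 371) (nat_lit 330))) (XT.nd (nat_lit 94) (nat_lit 504) (nat_lit 0) (XT.lf (nat_lit 0) (nat_lit 11703194269) (nat_lit 504) (nat_lit 486572153) (nat_lit 588) (nat_lit 1720386278) (nat_lit 117) (nat_lit 5)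 (nat_lit 123) (nat_lit 5) (nat_lit 124) (nat_lit 5) (nat_lit 380) (nat_lit 371) (nat_lit 329)) (XT.lf (nat_lit 0) (nat_lit 1461395233) (nat_lit 504) (nat_lit 3751631791) (nat_lit 84) (nat_lit 9279515945) (nat_lit 111) (nat_lit 5) (nat_lit 117) (nat_lit 5) (nat_lit 112) (nat_lit 5) (nat_lit 381) (nat_lit 371) (nat_lit 328))))) (XT.nd (nat_lit 282) (nat_lit 1428) (nat_lit 0) (XT.nd (nat_lit 94) (nat_lit 672) (nat_lit 0) (XT.lf (nat_lit 0) (nat_lit 5054902299) (nat_lit 504) (nat_lit 5292765308) (nat_lit 84) (nat_lit 4761573850) (nat_lit 106) (nat_lit 5) (nat_lit 112) (nat_lit 5) (nat_lit 107) (nat_lit 5) (nat_lit 382) (nat_lit 371) (nat_lit 327)) (XT.nd (nat_lit 94) (nat_lit 336) (nat_lit 0) (XT.lf (nat_lit 0) (nat_lit 8964311775) (nat_lit 336) (nat_lit 207450476) (nat_lit 420) (nat_lit 6591719956) (nat_lit 102) (nat_lit 5) (nat_lit 106) (nat_lit 5) (nat_lit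 107) (nat_lit 5) (nat_lit 383) (nat_lit 371) (nat_lit 326)) (XT.lf (nat_lit 0) (nat_lit 8110430324) (nat_lit 336) (nat_lit 5840435904) (nat_lit 420) (nat_lit 2502551229) (nat_lit 98) (nat_lit 5) (nat_lit 102) (nat_lit 5) (nat_lit 103) (nat_lit 5) (nat_lit 384) (nat_lit 371) (nat_lit 325)))) (XT.nd (nat_lit 188) (nat_lit 672) (nat_lit 0) (XT.nd (nat_lit 94) (nat_lit 336) (nat_lit 0) (XT.lf (nat_lit 0) (nat_lit 2122691119) (nat_lit 420) (nat_lit 9871241283) (nat_lit 84) (nat_lit 5189611567) (nat_lit 93) (nat_lit 5) (nat_lit 98) (nat_lit 5) (nat_lit 94) (nat_lit 5) (nat_lit 385) (nat_lit 371) (nat_lit 324)) (XT.lf (nat_lit 0) (nat_lit 6556066425) (nat_lit 336) (nat_lit 773786117) (nat_lit 420) (nat_lit 10625197947) (nat_lit 89) (nat_lit 5) (nat_lit 93) (nat_lit 5) (nat_lit 94) (nat_lit 5) (nat_lit 386) (nat_lit 371) (nat_lit 323))) (XT.nd (nat_lit 94) (nat_lit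 420) (nat_lit 0) (XT.lf (nat_lit 0) (nat_lit 5813292543) (nat_lit 252) (nat_lit 7535338354) (nat_lit 336) (nat_lit 5419894430) (nat_lit 86) (nat_lit 5) (nat_lit 89) (nat_lit 5) (nat_lit 90) (nat_lit 5) (nat_lit 387) (nat_lit 371) (nat_lit 322)) (XT.lf (nat_lit 0) (nat_lit 521738018) (nat_lit 420) (nat_lit 14450148527) (nat_lit 84) (nat_lit 4658715820) (nat_lit 81) (nat_lit 5) (nat_lit 86) (nat_lit 5) (nat_lit 82) (nat_lit 5) (nat_lit 388) (nat_lit 371) (nat_lit 321)))))) (XT.nd (nat_lit 658) (nat_lit 1344) (nat_lit 0) (XT.nd (nat_lit 282) (nat_lit 924) (nat_lit 0) (XT.nd (nat_lit 94) (nat_lit 588) (nat_lit 0) (XT.lf (nat_lit 0) (nat_lit 4541257445) (nat_lit 252) (nat_lit 2593887245) (nat_lit 336) (nat_lit 13402741824) (nat_lit 78) (nat_lit 5) (nat_lit 81) (nat_lit 5) (nat_lit 82) (nat_lit 5) (nat_lit 389) (nat_lit 371) (nat_lit 320)) (XT.nd (nat_lit 94) (nat_lit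 336) (nat_lit 0) (XT.lf (nat_lit 0) (nat_lit 3956781028) (nat_lit 252) (nat_lit 10765175816) (nat_lit 336) (nat_lit 6773579902) (nat_lit 75) (nat_lit 5) (nat_lit 78) (nat_lit 5) (nat_lit 79) (nat_lit 5) (nat_lit 390) (nat_lit 371) (nat_lit 319)) (XT.lf (nat_lit 0) (nat_lit 760607729) (nat_lit 336) (nat_lit 18994317849) (nat_lit 84) (nat_lit 2755219936) (nat_lit 71) (nat_lit 5) (nat_lit 75) (nat_lit 5) (nat_lit 72) (nat_lit 5) (nat_lit 391) (nat_lit 371) (nat_lit 318)))) (XT.nd (nat_lit 188) (nat_lit 504) (nat_lit 0) (XT.nd (nat_lit 94) (nat_lit 168) (nat_lit 0) (XT.lf (nat_lit 0) (nat_lit 3028549051) (nat_lit 252) (nat_lit 6135985116) (nat_lit 336) (nat_lit 14410620849) (nat_lit 68) (nat_lit 5) (nat_lit 71) (nat_lit 5) (nat_lit 72) (nat_lit 5) (nat_lit 392) (nat_lit 371) (nat_lit 317)) (XT.lf (nat_lit 0) (nat_lit 2671898703) (nat_lit 168) (nat_lit 16044201765)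 (nat_lit 252) (nat_lit 5985498525) (nat_lit 66) (nat_lit 5) (nat_lit 68) (nat_lit 5) (nat_lit 69) (nat_lit 5) (nat_lit 393) (nat_lit 371) (nat_lit 316))) (XT.nd (nat_lit 94) (nat_lit 168) (nat_lit 0) (XT.lf (nat_lit 0) (nat_lit 2445930360) (nat_lit 252) (nat_lit 1038236944) (nat_lit 336) (nat_lit 22408051083) (nat_lit 62) (nat_lit 5) (nat_lit 65) (nat_lit 5) (nat_lit 66) (nat_lit 5) (nat_lit 394) (nat_lit 371) (nat_lit 315)) (XT.lf (nat_lit 0) (nat_lit 2178386663) (nat_lit 168) (nat_lit 11953212862) (nat_lit 252) (nat_lit 13010086870) (nat_lit 60) (nat_lit 5) (nat_lit 62) (nat_lit 5) (nat_lit 63) (nat_lit 5) (nat_lit 395) (nat_lit 371) (nat_lit 314))))) (XT.nd (nat_lit 282) (nat_lit 756) (nat_lit 0) (XT.nd (nat_lit 94) (nat_lit 420) (nat_lit 0) (XT.lf (nat_lit 0) (nat_lit 2145384049) (nat_lit 168) (nat_lit 23984244280) (nat_lit 252) (nat_lit 2336543414) (nat_lit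 58) (nat_lit 5) (nat_lit 60) (nat_lit 5) (nat_lit 61) (nat_lit 5) (nat_lit 396) (nat_lit 371) (nat_lit 313)) (XT.nd (nat_lit 94) (nat_lit 168) (nat_lit 0) (XT.lf (nat_lit 0) (nat_lit 2102121665) (nat_lit 168) (nat_lit 7439635607) (nat_lit 252) (nat_lit 20315431904) (nat_lit 55) (nat_lit 5) (nat_lit 57) (nat_lit 5) (nat_lit 58) (nat_lit 5) (nat_lit 397) (nat_lit 371) (nat_lit 312)) (XT.lf (nat_lit 0) (nat_lit 2212072252) (nat_lit 168) (nat_lit 20710760690) (nat_lit 252) (nat_lit 8403021259) (nat_lit 53) (nat_lit 5) (nat_lit 55) (nat_lit 5) (nat_lit 56) (nat_lit 5) (nat_lit 398) (nat_lit 371) (nat_lit 311)))) (XT.nd (nat_lit 188) (nat_lit 336) (nat_lit 0) (XT.nd (nat_lit 94) (nat_lit 168) (nat_lit 0) (XT.lf (nat_lit 0) (nat_lit 2507132637) (nat_lit 168) (nat_lit 2439325404) (nat_lit 252) (nat_lit 27930725879) (nat_lit 50) (nat_lit 5) (nat_lit 52) (nat_lit 5)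 (nat_lit 53) (nat_lit 5) (nat_lit 399) (nat_lit 371) (nat_lit 310)) (XT.lf (nat_lit 0) (nat_lit 2790569217) (nat_lit 168) (nat_lit 17083897128) (nat_lit 252) (nat_lit 14631017370) (nat_lit 48) (nat_lit 5) (nat_lit 50) (nat_lit 5) (nat_lit 51) (nat_lit 5) (nat_lit 400) (nat_lit 371) (nat_lit 309))) (XT.nd (nat_lit 94) (nat_lit 168) (nat_lit 0) (XT.lf (nat_lit 0) (nat_lit 395860778) (nat_lit 168) (nat_lit 32813971281) (nat_lit 84) (nat_lit 3021692290) (nat_lit 46) (nat_lit 5) (nat_lit 48) (nat_lit 5) (nat_lit 47) (nat_lit 5) (nat_lit 401) (nat_lit 371) (nat_lit 308)) (XT.lf (nat_lit 0) (nat_lit 3961564828) (nat_lit 168) (nat_lit 13042903985) (nat_lit 252) (nat_lit 21034577824) (nat_lit 44) (nat_lit 5) (nat_lit 46) (nat_lit 5) (nat_lit 47) (nat_lit 5) (nat_lit 402) (nat_lit 371) (nat_lit 307))))))) (XT.nd (nat_lit 1316) (nat_lit 1596) (nat_lit 0) (XT.nd (nat_lit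 658) (nat_lit 1008) (nat_lit 0) (XT.nd (nat_lit 282) (nat_lit 672) (nat_lit 0) (XT.nd (nat_lit 94) (nat_lit 336) (nat_lit 0) (XT.lf (nat_lit 0) (nat_lit 4852413037) (nat_lit 84) (nat_lit 30857327264) (nat_lit 168) (nat_lit 4243031667) (nat_lit 43) (nat_lit 5) (nat_lit 44) (nat_lit 5) (nat_lit 45) (nat_lit 4) (nat_lit 403) (nat_lit 371) (nat_lit 306)) (XT.nd (nat_lit 94) (nat_lit 84) (nat_lit 0) (XT.lf (nat_lit 0) (nat_lit 5819109578) (nat_lit 168) (nat_lit 8517845841) (nat_lit 252) (nat_lit 27627308238) (nat_lit 40) (nat_lit 5) (nat_lit 42) (nat_lit 5) (nat_lit 43) (nat_lit 5) (nat_lit 404) (nat_lit 371) (nat_lit 305)) (XT.lf (nat_lit 0) (nat_lit 7015520537) (nat_lit 84) (nat_lit 28192301142) (nat_lit 168) (nat_lit 8877718340) (nat_lit 39) (nat_lit 5) (nat_lit 40) (nat_lit 5) (nat_lit 41) (nat_lit 4) (nat_lit 405) (nat_lit 371) (nat_lit 304)))) (XT.nd (nat_lit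 188) (nat_lit 336) (nat_lit 0) (XT.nd (nat_lit 94) (nat_lit 84) (nat_lit 0) (XT.lf (nat_lit 0) (nat_lit 8472331774) (nat_lit 168) (nat_lit 3428587374) (nat_lit 252) (nat_lit 34422069515) (nat_lit 36) (nat_lit 5) (nat_lit 38) (nat_lit 5) (nat_lit 39) (nat_lit 5) (nat_lit 406) (nat_lit 371) (nat_lit 303)) (XT.lf (nat_lit 0) (nat_lit 10030351135) (nat_lit 84) (nat_lit 25159549089) (nat_lit 168) (nat_lit 13484301926) (nat_lit 35) (nat_lit 5) (nat_lit 36) (nat_lit 5) (nat_lit 37) (nat_lit 4) (nat_lit 407) (nat_lit 371) (nat_lit 302))) (XT.nd (nat_lit 94) (nat_lit 84) (nat_lit 0) (XT.lf (nat_lit 0) (nat_lit 9767178043) (nat_lit 252) (nat_lit 39150414747) (nat_lit 84) (nat_lit 2242250886) (nat_lit 32) (nat_lit 5) (nat_lit 35) (nat_lit 5) (nat_lit 33) (nat_lit 4) (nat_lit 408) (nat_lit 371) (nat_lit 301)) (XT.lf (nat_lit 0) (nat_lit 14031735688) (nat_lit 84) (nat_lit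 21687780501) (nat_lit 168) (nat_lit 18048109425) (nat_lit 31) (nat_lit 5) (nat_lit 32) (nat_lit 5) (nat_lit 33) (nat_lit 4) (nat_lit 409) (nat_lit 371) (nat_lit 300))))) (XT.nd (nat_lit 282) (nat_lit 504) (nat_lit 0) (XT.nd (nat_lit 94) (nat_lit 252) (nat_lit 0) (XT.lf (nat_lit 0) (nat_lit 8006149049) (nat_lit 252) (nat_lit 39979702268) (nat_lit 84) (nat_lit 8539014733) (nat_lit 28) (nat_lit 5) (nat_lit 31) (nat_lit 5) (nat_lit 29) (nat_lit 4) (nat_lit 410) (nat_lit 371) (nat_lit 299)) (XT.nd (nat_lit 94) (nat_lit 168) (nat_lit 0) (XT.lf (nat_lit 0) (nat_lit 19174947720) (nat_lit 84) (nat_lit 17695150997) (nat_lit 168) (nat_lit 22549910053) (nat_lit 27) (nat_lit 5) (nat_lit 28) (nat_lit 5) (nat_lit 29) (nat_lit 4) (nat_lit 411) (nat_lit 371) (nat_lit 298)) (XT.lf (nat_lit 0) (nat_lit 6614857027) (nat_lit 168) (nat_lit 40176669952) (nat_lit 84) (nat_lit 15686226481)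 (nat_lit 25) (nat_lit 5) (nat_lit 27) (nat_lit 5) (nat_lit 26) (nat_lit 4) (nat_lit 412) (nat_lit 371) (nat_lit 297)))) (XT.nd (nat_lit 188) (nat_lit 252) (nat_lit 0) (XT.nd (nat_lit 94) (nat_lit 168) (nat_lit 0) (XT.lf (nat_lit 0) (nat_lit 25638410229) (nat_lit 84) (nat_lit 13087914718) (nat_lit 168) (nat_lit 26965131320) (nat_lit 24) (nat_lit 5) (nat_lit 25) (nat_lit 5) (nat_lit 26) (nat_lit 4) (nat_lit 413) (nat_lit 371) (nat_lit 296)) (XT.lf (nat_lit 0) (nat_lit 5652730837) (nat_lit 168) (nat_lit 39614749616) (nat_lit 84) (nat_lit 23814255209) (nat_lit 22) (nat_lit 5) (nat_lit 24) (nat_lit 5) (nat_lit 23) (nat_lit 4) (nat_lit 414) (nat_lit 371) (nat_lit 295))) (XT.nd (nat_lit 94) (nat_lit 168) (nat_lit 0) (XT.lf (nat_lit 0) (nat_lit 33626764527) (nat_lit 84) (nat_lit 7758882965) (nat_lit 168) (nat_lit 31262969731) (nat_lit 21) (nat_lit 5) (nat_lit 22)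 (nat_lit 5) (nat_lit 23) (nat_lit 4) (nat_lit 415) (nat_lit 371) (nat_lit 294)) (XT.lf (nat_lit 0) (nat_lit 5189353725) (nat_lit 168) (nat_lit 38146554016) (nat_lit 84) (nat_lit 33071014270) (nat_lit 19) (nat_lit 5) (nat_lit 21) (nat_lit 5) (nat_lit 20) (nat_lit 4) (nat_lit 416) (nat_lit 371) (nat_lit 293)))))) (XT.nd (nat_lit 658) (nat_lit 756) (nat_lit 0) (XT.nd (nat_lit 282) (nat_lit 504) (nat_lit 0) (XT.nd (nat_lit 94) (nat_lit 252) (nat_lit 0) (XT.lf (nat_lit 0) (nat_lit 43374344768) (nat_lit 84) (nat_lit 1585668397) (nat_lit 168) (nat_lit 35405380020) (nat_lit 18) (nat_lit 5) (nat_lit 19) (nat_lit 5) (nat_lit 20) (nat_lit 4) (nat_lit 417) (nat_lit 371) (nat_lit 292)) (XT.nd (nat_lit 94) (nat_lit 84) (nat_lit 0) (XT.lf (nat_lit 0) (nat_lit 5305909961) (nat_lit 168) (nat_lit 35600953245) (nat_lit 84) (nat_lit 43624182554) (nat_lit 16) (nat_lit 5) (nat_lit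 18) (nat_lit 5) (nat_lit 17) (nat_lit 4) (nat_lit 418) (nat_lit 371) (nat_lit 291)) (XT.lf (nat_lit 0) (nat_lit 49664782040) (nat_lit 168) (nat_lit 33861599597) (nat_lit 0) (nat_lit 5392992551) (nat_lit 15) (nat_lit 5) (nat_lit 17) (nat_lit 4) (nat_lit 15) (nat_lit 4) (nat_lit 419) (nat_lit 371) (nat_lit 290)))) (XT.nd (nat_lit 188) (nat_lit 252) (nat_lit 0) (XT.nd (nat_lit 94) (nat_lit 84) (nat_lit 0) (XT.lf (nat_lit 0) (nat_lit 6096820512) (nat_lit 168) (nat_lit 31779753909) (nat_lit 84) (nat_lit 55663715113) (nat_lit 13) (nat_lit 5) (nat_lit 15) (nat_lit 5) (nat_lit 14) (nat_lit 4) (nat_lit 420) (nat_lit 371) (nat_lit 289)) (XT.lf (nat_lit 0) (nat_lit 55602555303) (nat_lit 168) (nat_lit 29373949914) (nat_lit 0) (nat_lit 13427122052) (nat_lit 12) (nat_lit 5) (nat_lit 14) (nat_lit 4) (nat_lit 12) (nat_lit 4) (nat_lit 421) (nat_lit 371) (nat_lit 288))) (XT.nd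 (nat_lit 94) (nat_lit 84) (nat_lit 0) (XT.lf (nat_lit 0) (nat_lit 7671593021) (nat_lit 168) (nat_lit 26453931183) (nat_lit 84) (nat_lit 69404676591) (nat_lit 10) (nat_lit 5) (nat_lit 12) (nat_lit 5) (nat_lit 11) (nat_lit 4) (nat_lit 422) (nat_lit 371) (nat_lit 287)) (XT.lf (nat_lit 0) (nat_lit 62919454796) (nat_lit 168) (nat_lit 23257795445) (nat_lit 0) (nat_lit 22742720883) (nat_lit 9) (nat_lit 5) (nat_lit 11) (nat_lit 4) (nat_lit 9) (nat_lit 4) (nat_lit 423) (nat_lit 371) (nat_lit 286))))) (XT.nd (nat_lit 376) (nat_lit 252) (nat_lit 0) (XT.nd (nat_lit 188) (nat_lit 252) (nat_lit 0) (XT.nd (nat_lit 94) (nat_lit 84) (nat_lit 0) (XT.lf (nat_lit 0) (nat_lit 10156914302) (nat_lit 168) (nat_lit 19359357413) (nat_lit 84) (nat_lit 85090435289) (nat_lit 7) (nat_lit 5) (nat_lit 9) (nat_lit 5) (nat_lit 8) (nat_lit 4) (nat_lit 424) (nat_lit 371) (nat_lit 285)) (XT.lf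 (nat_lit 0) (nat_lit 71810581649) (nat_lit 168) (nat_lit 15230188538) (nat_lit 0) (nat_lit 33539142412) (nat_lit 6) (nat_lit 5) (nat_lit 8) (nat_lit 4) (nat_lit 6) (nat_lit 4) (nat_lit 425) (nat_lit 371) (nat_lit 284))) (XT.nd (nat_lit 94) (nat_lit 84) (nat_lit 0) (XT.lf (nat_lit 0) (nat_lit 13699016922) (nat_lit 168) (nat_lit 10191963773) (nat_lit 84) (nat_lit 102996260613) (nat_lit 4) (nat_lit 5) (nat_lit 6) (nat_lit 5) (nat_lit 5) (nat_lit 4) (nat_lit 426) (nat_lit 371) (nat_lit 283)) (XT.lf (nat_lit 0) (nat_lit 82498428964) (nat_lit 168) (nat_lit 4965638144) (nat_lit 0) (nat_lit 46043002536) (nat_lit 3) (nat_lit 5) (nat_lit 5) (nat_lit 4) (nat_lit 3) (nat_lit 4) (nat_lit 427) (nat_lit 371) (nat_lit 282)))) (XT.nd (nat_lit 188) (nat_lit 0) (nat_lit 0) (XT.nd (nat_lit 94) (nat_lit 0) (nat_lit 0) (XT.lf (nat_lit 0) (nat_lit 203746468374) (nat_lit 0) (nat_lit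 0) (nat_lit 0) (nat_lit 0) (nat_lit 0) (nat_lit 0) (nat_lit 1) (nat_lit 0) (nat_lit 1) (nat_lit 0) (nat_lit 428) (nat_lit 371) (nat_lit 281)) (XT.lf (nat_lit 0) (nat_lit 219845521004) (nat_lit 0) (nat_lit 0) (nat_lit 0) (nat_lit 0) (nat_lit 0) (nat_lit 0) (nat_lit 1) (nat_lit 0) (nat_lit 1) (nat_lit 0) (nat_lit 429) (nat_lit 371) (nat_lit 280))) (XT.nd (nat_lit 94) (nat_lit 0) (nat_lit 0) (XT.lf (nat_lit 0) (nat_lit 237232525887) (nat_lit 0) (nat_lit 0) (nat_lit 0) (nat_lit 0) (nat_lit 0) (nat_lit 0) (nat_lit 1) (nat_lit 0) (nat_lit 1) (nat_lit 0) (nat_lit 430) (nat_lit 371) (nat_lit 279)) (XT.lf (nat_lit 0) (nat_lit 256010517125) (nat_lit 0) (nat_lit 0) (nat_lit 0) (nat_lit 0) (nat_lit 0) (nat_lit 0) (nat_lit 1) (nat_lit 0) (nat_lit 1) (nat_lit 0) (nat_lit 431) (nat_lit 371) (nat_lit 278))))))))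
noncomputable def xc114 : XT := (XT.nd (nat_lit 2632) (nat_lit 0) (nat_lit 0) (XT.nd (nat_lit 1316) (nat_lit 0) (nat_lit 0) (XT.nd (nat_lit 658) (nat_lit 0) (nat_lit 0) (XT.nd (nat_lit 282) (nat_lit 0) (nat_lit 0) (XT.nd (nat_lit 94) (nat_lit 0) (nat_lit 0) (XT.lf (nat_lit 0) (nat_lit 276290771705) (nat_lit 0) (nat_lit 0) (nat_lit 0) (nat_lit 0) (nat_lit 0) (nat_lit 0) (nat_lit 1) (nat_lit 0) (nat_lit 1) (nat_lit 0) (nat_lit 432) (nat_lit 371) (nat_lit 277)) (XT.nd (nat_lit 94) (nat_lit 0) (nat_lit 0) (XT.lf (nat_lit 0) (nat_lit 298193468912) (nat_lit 0) (nat_lit 0) (nat_lit 0) (nat_lit 0) (nat_lit 0) (nat_lit 0) (nat_lit 1) (nat_lit 0) (nat_lit 1) (nat_lit 0) (nat_lit 433) (nat_lit 371) (nat_lit 276)) (XT.lf (nat_lit 0) (nat_lit 321848402508) (nat_lit 0) (nat_lit 0) (nat_lit 0) (nat_lit 0) (nat_lit 0) (nat_lit 0) (nat_lit 1) (nat_lit 0) (nat_lit 1) (nat_lit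 0) (nat_lit 434) (nat_lit 371) (nat_lit 275)))) (XT.nd (nat_lit 188) (nat_lit 0) (nat_lit 0) (XT.nd (nat_lit 94) (nat_lit 0) (nat_lit 0) (XT.lf (nat_lit 0) (nat_lit 347395749877) (nat_lit 0) (nat_lit 0) (nat_lit 0) (nat_lit 0) (nat_lit 0) (nat_lit 0) (nat_lit 1) (nat_lit 0) (nat_lit 1) (nat_lit 0) (nat_lit 435) (nat_lit 371) (nat_lit 274)) (XT.lf (nat_lit 0) (nat_lit 374986902707) (nat_lit 0) (nat_lit 0) (nat_lit 0) (nat_lit 0) (nat_lit 0) (nat_lit 0) (nat_lit 1) (nat_lit 0) (nat_lit 1) (nat_lit 0) (nat_lit 436) (nat_lit 371) (nat_lit 273))) (XT.nd (nat_lit 94) (nat_lit 0) (nat_lit 0) (XT.lf (nat_lit 0) (nat_lit 404785364126) (nat_lit 0) (nat_lit 0) (nat_lit 0) (nat_lit 0) (nat_lit 0) (nat_lit 0) (nat_lit 1) (nat_lit 0) (nat_lit 1) (nat_lit 0) (nat_lit 437) (nat_lit 371) (nat_lit 272)) (XT.lf (nat_lit 0) (nat_lit 436967717609) (nat_lit 0) (nat_lit 0) (nat_lit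 0) (nat_lit 0) (nat_lit 0) (nat_lit 0) (nat_lit 1) (nat_lit 0) (nat_lit 1) (nat_lit 0) (nat_lit 438) (nat_lit 371) (nat_lit 271))))) (XT.nd (nat_lit 282) (nat_lit 0) (nat_lit 0) (XT.nd (nat_lit 94) (nat_lit 0) (nat_lit 0) (XT.lf (nat_lit 0) (nat_lit 471724673400) (nat_lit 0) (nat_lit 0) (nat_lit 0) (nat_lit 0) (nat_lit 0) (nat_lit 0) (nat_lit 1) (nat_lit 0) (nat_lit 1) (nat_lit 0) (nat_lit 439) (nat_lit 371) (nat_lit 270)) (XT.nd (nat_lit 94) (nat_lit 0) (nat_lit 0) (XT.lf (nat_lit 0) (nat_lit 509262198642) (nat_lit 0) (nat_lit 0) (nat_lit 0) (nat_lit 0) (nat_lit 0) (nat_lit 0) (nat_lit 1) (nat_lit 0) (nat_lit 1) (nat_lit 0) (nat_lit 440) (nat_lit 371) (nat_lit 269)) (XT.lf (nat_lit 0) (nat_lit 549802737931) (nat_lit 0) (nat_lit 0) (nat_lit 0) (nat_lit 0) (nat_lit 0) (nat_lit 0) (nat_lit 1) (nat_lit 0) (nat_lit 1) (nat_lit 0) (nat_lit 441) (nat_lit 371) (nat_lit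 268)))) (XT.nd (nat_lit 188) (nat_lit 0) (nat_lit 0) (XT.nd (nat_lit 94) (nat_lit 0) (nat_lit 0) (XT.lf (nat_lit 0) (nat_lit 593586531500) (nat_lit 0) (nat_lit 0) (nat_lit 0) (nat_lit 0) (nat_lit 0) (nat_lit 0) (nat_lit 1) (nat_lit 0) (nat_lit 1) (nat_lit 0) (nat_lit 442) (nat_lit 371) (nat_lit 267)) (XT.lf (nat_lit 0) (nat_lit 640873038865) (nat_lit 0) (nat_lit 0) (nat_lit 0) (nat_lit 0) (nat_lit 0) (nat_lit 0) (nat_lit 1) (nat_lit 0) (nat_lit 1) (nat_lit 0) (nat_lit 443) (nat_lit 371) (nat_lit 266))) (XT.nd (nat_lit 94) (nat_lit 0) (nat_lit 0) (XT.lf (nat_lit 0) (nat_lit 691942476366) (nat_lit 0) (nat_lit 0) (nat_lit 0) (nat_lit 0) (nat_lit 0) (nat_lit 0) (nat_lit 1) (nat_lit 0) (nat_lit 1) (nat_lit 0) (nat_lit 444) (nat_lit 371) (nat_lit 265)) (XT.lf (nat_lit 0) (nat_lit 747097477708) (nat_lit 0) (nat_lit 0) (nat_lit 0) (nat_lit 0) (nat_lit 0) (nat_lit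 0) (nat_lit 1) (nat_lit 0) (nat_lit 1) (nat_lit 0) (nat_lit 445) (nat_lit 371) (nat_lit 264)))))) (XT.nd (nat_lit 658) (nat_lit 0) (nat_lit 0) (XT.nd (nat_lit 282) (nat_lit 0) (nat_lit 0) (XT.nd (nat_lit 94) (nat_lit 0) (nat_lit 0) (XT.lf (nat_lit 0) (nat_lit 806664887343) (nat_lit 0) (nat_lit 0) (nat_lit 0) (nat_lit 0) (nat_lit 0) (nat_lit 0) (nat_lit 1) (nat_lit 0) (nat_lit 1) (nat_lit 0) (nat_lit 446) (nat_lit 371) (nat_lit 263)) (XT.nd (nat_lit 94) (nat_lit 0) (nat_lit 0) (XT.lf (nat_lit 0) (nat_lit 870997697327) (nat_lit 0) (nat_lit 0) (nat_lit 0) (nat_lit 0) (nat_lit 0) (nat_lit 0) (nat_lit 1) (nat_lit 0) (nat_lit 1) (nat_lit 0) (nat_lit 447) (nat_lit 371) (nat_lit 262)) (XT.lf (nat_lit 0) (nat_lit 940477139128) (nat_lit 0) (nat_lit 0) (nat_lit 0) (nat_lit 0) (nat_lit 0) (nat_lit 0) (nat_lit 1) (nat_lit 0) (nat_lit 1) (nat_lit 0) (nat_lit 448) (nat_lit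 371) (nat_lit 261)))) (XT.nd (nat_lit 188) (nat_lit 0) (nat_lit 0) (XT.nd (nat_lit 94) (nat_lit 0) (nat_lit 0) (XT.lf (nat_lit 0) (nat_lit 1015514942771) (nat_lit 0) (nat_lit 0) (nat_lit 0) (nat_lit 0) (nat_lit 0) (nat_lit 0) (nat_lit 1) (nat_lit 0) (nat_lit 1) (nat_lit 0) (nat_lit 449) (nat_lit 371) (nat_lit 260)) (XT.lf (nat_lit 0) (nat_lit 1096555776722) (nat_lit 0) (nat_lit 0) (nat_lit 0) (nat_lit 0) (nat_lit 0) (nat_lit 0) (nat_lit 1) (nat_lit 0) (nat_lit 1) (nat_lit 0) (nat_lit 450) (nat_lit 371) (nat_lit 259))) (XT.nd (nat_lit 94) (nat_lit 0) (nat_lit 0) (XT.lf (nat_lit 0) (nat_lit 1184079882959) (nat_lit 0) (nat_lit 0) (nat_lit 0) (nat_lit 0) (nat_lit 0) (nat_lit 0) (nat_lit 1) (nat_lit 0) (nat_lit 1) (nat_lit 0) (nat_lit 451) (nat_lit 371) (nat_lit 258)) (XT.lf (nat_lit 0) (nat_lit 1278605922854) (nat_lit 0) (nat_lit 0) (nat_lit 0) (nat_lit 0) (nat_lit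 0) (nat_lit 0) (nat_lit 1) (nat_lit 0) (nat_lit 1) (nat_lit 0) (nat_lit 452) (nat_lit 371) (nat_lit 257))))) (XT.nd (nat_lit 282) (nat_lit 0) (nat_lit 0) (XT.nd (nat_lit 94) (nat_lit 0) (nat_lit 0) (XT.lf (nat_lit 0) (nat_lit 1380694050716) (nat_lit 0) (nat_lit 0) (nat_lit 0) (nat_lit 0) (nat_lit 0) (nat_lit 0) (nat_lit 1) (nat_lit 0) (nat_lit 1) (nat_lit 0) (nat_lit 453) (nat_lit 371) (nat_lit 256)) (XT.nd (nat_lit 94) (nat_lit 0) (nat_lit 0) (XT.lf (nat_lit 0) (nat_lit 1490949233230) (nat_lit 0) (nat_lit 0) (nat_lit 0) (nat_lit 0) (nat_lit 0) (nat_lit 0) (nat_lit 1) (nat_lit 0) (nat_lit 1) (nat_lit 0) (nat_lit 454) (nat_lit 371) (nat_lit 255)) (XT.lf (nat_lit 0) (nat_lit 1610024834440) (nat_lit 0) (nat_lit 0) (nat_lit 0) (nat_lit 0) (nat_lit 0) (nat_lit 0) (nat_lit 1) (nat_lit 0) (nat_lit 1) (nat_lit 0) (nat_lit 455) (nat_lit 371) (nat_lit 254)))) (XT.nd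 (nat_lit 188) (nat_lit 0) (nat_lit 0) (XT.nd (nat_lit 94) (nat_lit 0) (nat_lit 0) (XT.lf (nat_lit 0) (nat_lit 1738626487537) (nat_lit 0) (nat_lit 0) (nat_lit 0) (nat_lit 0) (nat_lit 0) (nat_lit 0) (nat_lit 1) (nat_lit 0) (nat_lit 1) (nat_lit 0) (nat_lit 456) (nat_lit 371) (nat_lit 253)) (XT.lf (nat_lit 0) (nat_lit 1877516276394) (nat_lit 0) (nat_lit 0) (nat_lit 0) (nat_lit 0) (nat_lit 0) (nat_lit 0) (nat_lit 1) (nat_lit 0) (nat_lit 1) (nat_lit 0) (nat_lit 457) (nat_lit 371) (nat_lit 252))) (XT.nd (nat_lit 94) (nat_lit 0) (nat_lit 0) (XT.lf (nat_lit 0) (nat_lit 2027517251609) (nat_lit 0) (nat_lit 0) (nat_lit 0) (nat_lit 0) (nat_lit 0) (nat_lit 0) (nat_lit 1) (nat_lit 0) (nat_lit 1) (nat_lit 0) (nat_lit 458) (nat_lit 371) (nat_lit 251)) (XT.lf (nat_lit 0) (nat_lit 2189518307851) (nat_lit 0) (nat_lit 0) (nat_lit 0) (nat_lit 0) (nat_lit 0) (nat_lit 0) (nat_lit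 1) (nat_lit 0) (nat_lit 1) (nat_lit 0) (nat_lit 459) (nat_lit 371) (nat_lit 250))))))) (XT.nd (nat_lit 1316) (nat_lit 0) (nat_lit 0) (XT.nd (nat_lit 658) (nat_lit 0) (nat_lit 0) (XT.nd (nat_lit 282) (nat_lit 0) (nat_lit 0) (XT.nd (nat_lit 94) (nat_lit 0) (nat_lit 0) (XT.lf (nat_lit 0) (nat_lit 2364479451379) (nat_lit 0) (nat_lit 0) (nat_lit 0) (nat_lit 0) (nat_lit 0) (nat_lit 0) (nat_lit 1) (nat_lit 0) (nat_lit 1) (nat_lit 0) (nat_lit 460) (nat_lit 371) (nat_lit 249)) (XT.nd (nat_lit 94) (nat_lit 0) (nat_lit 0) (XT.lf (nat_lit 0) (nat_lit 2553437488970) (nat_lit 0) (nat_lit 0) (nat_lit 0) (nat_lit 0) (nat_lit 0) (nat_lit 0) (nat_lit 1) (nat_lit 0) (nat_lit 1) (nat_lit 0) (nat_lit 461) (nat_lit 371) (nat_lit 248)) (XT.lf (nat_lit 0) (nat_lit 2757512171957) (nat_lit 0) (nat_lit 0) (nat_lit 0) (nat_lit 0) (nat_lit 0) (nat_lit 0) (nat_lit 1) (nat_lit 0) (nat_lit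 1) (nat_lit 0) (nat_lit 462) (nat_lit 371) (nat_lit 247)))) (XT.nd (nat_lit 188) (nat_lit 0) (nat_lit 0) (XT.nd (nat_lit 94) (nat_lit 0) (nat_lit 0) (XT.lf (nat_lit 0) (nat_lit 2977912831796) (nat_lit 0) (nat_lit 0) (nat_lit 0) (nat_lit 0) (nat_lit 0) (nat_lit 0) (nat_lit 1) (nat_lit 0) (nat_lit 1) (nat_lit 0) (nat_lit 463) (nat_lit 371) (nat_lit 246)) (XT.lf (nat_lit 0) (nat_lit 3215945546470) (nat_lit 0) (nat_lit 0) (nat_lit 0) (nat_lit 0) (nat_lit 0) (nat_lit 0) (nat_lit 1) (nat_lit 0) (nat_lit 1) (nat_lit 0) (nat_lit 464) (nat_lit 371) (nat_lit 245))) (XT.nd (nat_lit 94) (nat_lit 0) (nat_lit 0) (XT.lf (nat_lit 0) (nat_lit 3473020880215) (nat_lit 0) (nat_lit 0) (nat_lit 0) (nat_lit 0) (nat_lit 0) (nat_lit 0) (nat_lit 1) (nat_lit 0) (nat_lit 1) (nat_lit 0) (nat_lit 465) (nat_lit 371) (nat_lit 244)) (XT.lf (nat_lit 0) (nat_lit 3750662242416) (nat_lit 0) (nat_lit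 0) (nat_lit 0) (nat_lit 0) (nat_lit 0) (nat_lit 0) (nat_lit 1) (nat_lit 0) (nat_lit 1) (nat_lit 0) (nat_lit 466) (nat_lit 371) (nat_lit 243))))) (XT.nd (nat_lit 282) (nat_lit 0) (nat_lit 0) (XT.nd (nat_lit 94) (nat_lit 0) (nat_lit 0) (XT.lf (nat_lit 0) (nat_lit 4050514915218) (nat_lit 0) (nat_lit 0) (nat_lit 0) (nat_lit 0) (nat_lit 0) (nat_lit 0) (nat_lit 1) (nat_lit 0) (nat_lit 1) (nat_lit 0) (nat_lit 467) (nat_lit 371) (nat_lit 242)) (XT.nd (nat_lit 94) (nat_lit 0) (nat_lit 0) (XT.lf (nat_lit 0) (nat_lit 4374355803351) (nat_lit 0) (nat_lit 0) (nat_lit 0) (nat_lit 0) (nat_lit 0) (nat_lit 0) (nat_lit 1) (nat_lit 0) (nat_lit 1) (nat_lit 0) (nat_lit 468) (nat_lit 371) (nat_lit 241)) (XT.lf (nat_lit 0) (nat_lit 4724103963928) (nat_lit 0) (nat_lit 0) (nat_lit 0) (nat_lit 0) (nat_lit 0) (nat_lit 0) (nat_lit 1) (nat_lit 0) (nat_lit 1) (nat_lit 0) (nat_lit 469) (nat_lit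 371) (nat_lit 240)))) (XT.nd (nat_lit 188) (nat_lit 0) (nat_lit 0) (XT.nd (nat_lit 94) (nat_lit 0) (nat_lit 0) (XT.lf (nat_lit 0) (nat_lit 5101831978642) (nat_lit 0) (nat_lit 0) (nat_lit 0) (nat_lit 0) (nat_lit 0) (nat_lit 0) (nat_lit 1) (nat_lit 0) (nat_lit 1) (nat_lit 0) (nat_lit 470) (nat_lit 371) (nat_lit 239)) (XT.lf (nat_lit 0) (nat_lit 5509778235728) (nat_lit 0) (nat_lit 0) (nat_lit 0) (nat_lit 0) (nat_lit 0) (nat_lit 0) (nat_lit 1) (nat_lit 0) (nat_lit 1) (nat_lit 0) (nat_lit 471) (nat_lit 371) (nat_lit 238))) (XT.nd (nat_lit 94) (nat_lit 0) (nat_lit 0) (XT.lf (nat_lit 0) (nat_lit 5950360194488) (nat_lit 0) (nat_lit 0) (nat_lit 0) (nat_lit 0) (nat_lit 0) (nat_lit 0) (nat_lit 1) (nat_lit 0) (nat_lit 1) (nat_lit 0) (nat_lit 472) (nat_lit 371) (nat_lit 237)) (XT.lf (nat_lit 0) (nat_lit 6426188710974) (nat_lit 0) (nat_lit 0) (nat_lit 0) (nat_lit 0) (nat_lit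 0) (nat_lit 0) (nat_lit 1) (nat_lit 0) (nat_lit 1) (nat_lit 0) (nat_lit 473) (nat_lit 371) (nat_lit 236)))))) (XT.nd (nat_lit 658) (nat_lit 0) (nat_lit 0) (XT.nd (nat_lit 282) (nat_lit 0) (nat_lit 0) (XT.nd (nat_lit 94) (nat_lit 0) (nat_lit 0) (XT.lf (nat_lit 0) (nat_lit 6940083509727) (nat_lit 0) (nat_lit 0) (nat_lit 0) (nat_lit 0) (nat_lit 0) (nat_lit 0) (nat_lit 1) (nat_lit 0) (nat_lit 1) (nat_lit 0) (nat_lit 474) (nat_lit 371) (nat_lit 235)) (XT.nd (nat_lit 94) (nat_lit 0) (nat_lit 0) (XT.lf (nat_lit 0) (nat_lit 7495089893259) (nat_lit 0) (nat_lit 0) (nat_lit 0) (nat_lit 0) (nat_lit 0) (nat_lit 0) (nat_lit 1) (nat_lit 0) (nat_lit 1) (nat_lit 0) (nat_lit 475) (nat_lit 371) (nat_lit 234)) (XT.lf (nat_lit 0) (nat_lit 8094496788287) (nat_lit 0) (nat_lit 0) (nat_lit 0) (nat_lit 0) (nat_lit 0) (nat_lit 0) (nat_lit 1) (nat_lit 0) (nat_lit 1) (nat_lit 0) (nat_lit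 476) (nat_lit 371) (nat_lit 233)))) (XT.nd (nat_lit 188) (nat_lit 0) (nat_lit 0) (XT.nd (nat_lit 94) (nat_lit 0) (nat_lit 0) (XT.lf (nat_lit 0) (nat_lit 8741856235671) (nat_lit 0) (nat_lit 0) (nat_lit 0) (nat_lit 0) (nat_lit 0) (nat_lit 0) (nat_lit 1) (nat_lit 0) (nat_lit 1) (nat_lit 0) (nat_lit 477) (nat_lit 371) (nat_lit 232)) (XT.lf (nat_lit 0) (nat_lit 9441004439542) (nat_lit 0) (nat_lit 0) (nat_lit 0) (nat_lit 0) (nat_lit 0) (nat_lit 0) (nat_lit 1) (nat_lit 0) (nat_lit 1) (nat_lit 0) (nat_lit 478) (nat_lit 371) (nat_lit 231))) (XT.nd (nat_lit 94) (nat_lit 0) (nat_lit 0) (XT.lf (nat_lit 0) (nat_lit 10196084500369) (nat_lit 0) (nat_lit 0) (nat_lit 0) (nat_lit 0) (nat_lit 0) (nat_lit 0) (nat_lit 1) (nat_lit 0) (nat_lit 1) (nat_lit 0) (nat_lit 479) (nat_lit 371) (nat_lit 230)) (XT.lf (nat_lit 0) (nat_lit 11011570966660) (nat_lit 0) (nat_lit 0) (nat_lit 0)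 (nat_lit 0) (nat_lit 0) (nat_lit 0) (nat_lit 1) (nat_lit 0) (nat_lit 1) (nat_lit 0) (nat_lit 480) (nat_lit 371) (nat_lit 229))))) (XT.nd (nat_lit 376) (nat_lit 0) (nat_lit 0) (XT.nd (nat_lit 188) (nat_lit 0) (nat_lit 0) (XT.nd (nat_lit 94) (nat_lit 0) (nat_lit 0) (XT.lf (nat_lit 0) (nat_lit 11892296350808) (nat_lit 0) (nat_lit 0) (nat_lit 0) (nat_lit 0) (nat_lit 0) (nat_lit 0) (nat_lit 1) (nat_lit 0) (nat_lit 1) (nat_lit 0) (nat_lit 481) (nat_lit 371) (nat_lit 228)) (XT.lf (nat_lit 0) (nat_lit 12843479766200) (nat_lit 0) (nat_lit 0) (nat_lit 0) (nat_lit 0) (nat_lit 0) (nat_lit 0) (nat_lit 1) (nat_lit 0) (nat_lit 1) (nat_lit 0) (nat_lit 482) (nat_lit 371) (nat_lit 227))) (XT.nd (nat_lit 94) (nat_lit 0) (nat_lit 0) (XT.lf (nat_lit 0) (nat_lit 13870757855299) (nat_lit 0) (nat_lit 0) (nat_lit 0) (nat_lit 0) (nat_lit 0) (nat_lit 0) (nat_lit 1) (nat_lit 0) (nat_lit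 1) (nat_lit 0) (nat_lit 483) (nat_lit 371) (nat_lit 226)) (XT.lf (nat_lit 0) (nat_lit 14980218191964) (nat_lit 0) (nat_lit 0) (nat_lit 0) (nat_lit 0) (nat_lit 0) (nat_lit 0) (nat_lit 1) (nat_lit 0) (nat_lit 1) (nat_lit 0) (nat_lit 484) (nat_lit 371) (nat_lit 225)))) (XT.nd (nat_lit 188) (nat_lit 0) (nat_lit 0) (XT.nd (nat_lit 94) (nat_lit 0) (nat_lit 0) (XT.lf (nat_lit 0) (nat_lit 16178435355970) (nat_lit 0) (nat_lit 0) (nat_lit 0) (nat_lit 0) (nat_lit 0) (nat_lit 0) (nat_lit 1) (nat_lit 0) (nat_lit 1) (nat_lit 0) (nat_lit 485) (nat_lit 371) (nat_lit 224)) (XT.lf (nat_lit 0) (nat_lit 17472509893473) (nat_lit 0) (nat_lit 0) (nat_lit 0) (nat_lit 0) (nat_lit 0) (nat_lit 0) (nat_lit 1) (nat_lit 0) (nat_lit 1) (nat_lit 0) (nat_lit 486) (nat_lit 371) (nat_lit 223))) (XT.nd (nat_lit 94) (nat_lit 0) (nat_lit 0) (XT.lf (nat_lit 0) (nat_lit 18870110394326) (nat_lit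 0) (nat_lit 0) (nat_lit 0) (nat_lit 0) (nat_lit 0) (nat_lit 0) (nat_lit 1) (nat_lit 0) (nat_lit 1) (nat_lit 0) (nat_lit 487) (nat_lit 371) (nat_lit 222)) (XT.lf (nat_lit 0) (nat_lit 20379518935569) (nat_lit 0) (nat_lit 0) (nat_lit 0) (nat_lit 0) (nat_lit 0) (nat_lit 0) (nat_lit 1) (nat_lit 0) (nat_lit 1) (nat_lit 0) (nat_lit 488) (nat_lit 371) (nat_lit 221))))))))
noncomputable def xc115 : XT := (XT.nd (nat_lit 57904) (nat_lit 0) (nat_lit 2268) (XT.nd (nat_lit 1316) (nat_lit 0) (nat_lit 0) (XT.nd (nat_lit 658) (nat_lit 0) (nat_lit 0) (XT.nd (nat_lit 282) (nat_lit 0) (nat_lit 0) (XT.nd (nat_lit 94) (nat_lit 0) (nat_lit 0) (XT.lf (nat_lit 0) (nat_lit 22009680160411) (nat_lit 0) (nat_lit 0) (nat_lit 0) (nat_lit 0) (nat_lit 0) (nat_lit 0) (nat_lit 1) (nat_lit 0) (nat_lit 1) (nat_lit 0) (nat_lit 489) (nat_lit 371) (nat_lit 220)) (XT.nd (nat_lit 94) (nat_lit 0)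 (nat_lit 0) (XT.lf (nat_lit 0) (nat_lit 23770254283518) (nat_lit 0) (nat_lit 0) (nat_lit 0) (nat_lit 0) (nat_lit 0) (nat_lit 0) (nat_lit 1) (nat_lit 0) (nat_lit 1) (nat_lit 0) (nat_lit 490) (nat_lit 371) (nat_lit 219)) (XT.lf (nat_lit 0) (nat_lit 25671674336729) (nat_lit 0) (nat_lit 0) (nat_lit 0) (nat_lit 0) (nat_lit 0) (nat_lit 0) (nat_lit 1) (nat_lit 0) (nat_lit 1) (nat_lit 0) (nat_lit 491) (nat_lit 371) (nat_lit 218)))) (XT.nd (nat_lit 188) (nat_lit 0) (nat_lit 0) (XT.nd (nat_lit 94) (nat_lit 0) (nat_lit 0) (XT.lf (nat_lit 0) (nat_lit 27725207994435) (nat_lit 0) (nat_lit 0) (nat_lit 0) (nat_lit 0) (nat_lit 0) (nat_lit 0) (nat_lit 1) (nat_lit 0) (nat_lit 1) (nat_lit 0) (nat_lit 492) (nat_lit 371) (nat_lit 217)) (XT.lf (nat_lit 0) (nat_lit 29943024344977) (nat_lit 0) (nat_lit 0) (nat_lit 0) (nat_lit 0) (nat_lit 0) (nat_lit 0) (nat_lit 1) (nat_lit 0) (nat_lit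 1) (nat_lit 0) (nat_lit 493) (nat_lit 371) (nat_lit 216))) (XT.nd (nat_lit 94) (nat_lit 0) (nat_lit 0) (XT.lf (nat_lit 0) (nat_lit 32338266003765) (nat_lit 0) (nat_lit 0) (nat_lit 0) (nat_lit 0) (nat_lit 0) (nat_lit 0) (nat_lit 1) (nat_lit 0) (nat_lit 1) (nat_lit 0) (nat_lit 494) (nat_lit 371) (nat_lit 215)) (XT.lf (nat_lit 0) (nat_lit 34925126995446) (nat_lit 0) (nat_lit 0) (nat_lit 0) (nat_lit 0) (nat_lit 0) (nat_lit 0) (nat_lit 1) (nat_lit 0) (nat_lit 1) (nat_lit 0) (nat_lit 495) (nat_lit 371) (nat_lit 214))))) (XT.nd (nat_lit 282) (nat_lit 0) (nat_lit 0) (XT.nd (nat_lit 94) (nat_lit 0) (nat_lit 0) (XT.lf (nat_lit 0) (nat_lit 37718936866635) (nat_lit 0) (nat_lit 0) (nat_lit 0) (nat_lit 0) (nat_lit 0) (nat_lit 0) (nat_lit 1) (nat_lit 0) (nat_lit 1) (nat_lit 0) (nat_lit 496) (nat_lit 371) (nat_lit 213)) (XT.nd (nat_lit 94) (nat_lit 0) (nat_lit 0) (XT.lf (nat_lit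 0) (nat_lit 40736251527681) (nat_lit 0) (nat_lit 0) (nat_lit 0) (nat_lit 0) (nat_lit 0) (nat_lit 0) (nat_lit 1) (nat_lit 0) (nat_lit 1) (nat_lit 0) (nat_lit 497) (nat_lit 371) (nat_lit 212)) (XT.lf (nat_lit 0) (nat_lit 43994951361761) (nat_lit 0) (nat_lit 0) (nat_lit 0) (nat_lit 0) (nat_lit 0) (nat_lit 0) (nat_lit 1) (nat_lit 0) (nat_lit 1) (nat_lit 0) (nat_lit 498) (nat_lit 371) (nat_lit 211)))) (XT.nd (nat_lit 188) (nat_lit 0) (nat_lit 0) (XT.nd (nat_lit 94) (nat_lit 0) (nat_lit 0) (XT.lf (nat_lit 0) (nat_lit 47514347182705) (nat_lit 0) (nat_lit 0) (nat_lit 0) (nat_lit 0) (nat_lit 0) (nat_lit 0) (nat_lit 1) (nat_lit 0) (nat_lit 1) (nat_lit 0) (nat_lit 499) (nat_lit 371) (nat_lit 210)) (XT.lf (nat_lit 0) (nat_lit 51315294669454) (nat_lit 0) (nat_lit 0) (nat_lit 0) (nat_lit 0) (nat_lit 0) (nat_lit 0) (nat_lit 1) (nat_lit 0) (nat_lit 1) (nat_lit 0) (nat_lit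 500) (nat_lit 371) (nat_lit 209))) (XT.nd (nat_lit 94) (nat_lit 0) (nat_lit 0) (XT.lf (nat_lit 0) (nat_lit 55420317955260) (nat_lit 0) (nat_lit 0) (nat_lit 0) (nat_lit 0) (nat_lit 0) (nat_lit 0) (nat_lit 1) (nat_lit 0) (nat_lit 1) (nat_lit 0) (nat_lit 501) (nat_lit 371) (nat_lit 208)) (XT.lf (nat_lit 0) (nat_lit 59853743104042) (nat_lit 0) (nat_lit 0) (nat_lit 0) (nat_lit 0) (nat_lit 0) (nat_lit 0) (nat_lit 1) (nat_lit 0) (nat_lit 1) (nat_lit 0) (nat_lit 502) (nat_lit 371) (nat_lit 207)))))) (XT.nd (nat_lit 55930) (nat_lit 0) (nat_lit 8904) (XT.nd (nat_lit 55554) (nat_lit 0) (nat_lit 11004) (XT.nd (nat_lit 94) (nat_lit 0) (nat_lit 0) (XT.lf (nat_lit 0) (nat_lit 64641842264827) (nat_lit 0) (nat_lit 0) (nat_lit 0) (nat_lit 0) (nat_lit 0) (nat_lit 0) (nat_lit 1) (nat_lit 0) (nat_lit 1) (nat_lit 0) (nat_lit 503) (nat_lit 371) (nat_lit 206)) (XT.nd (nat_lit 55366)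 (nat_lit 0) (nat_lit 11676) (XT.lf (nat_lit 0) (nat_lit 69812989358570) (nat_lit 0) (nat_lit 0) (nat_lit 0) (nat_lit 0) (nat_lit 0) (nat_lit 0) (nat_lit 1) (nat_lit 0) (nat_lit 1) (nat_lit 0) (nat_lit 504) (nat_lit 371) (nat_lit 205)) (XT.lf (nat_lit 0) (nat_lit 1704860891) (nat_lit 0) (nat_lit 1704860891) (nat_lit 756) (nat_lit 1910038048) (nat_lit 139) (nat_lit 5) (nat_lit 139) (nat_lit 3) (nat_lit 148) (nat_lit 3) (nat_lit 372) (nat_lit 372) (nat_lit 336)))) (XT.nd (nat_lit 188) (nat_lit 672) (nat_lit 0) (XT.nd (nat_lit 94) (nat_lit 0) (nat_lit 84) (XT.lf (nat_lit 84) (nat_lit 1261910477) (nat_lit 0) (nat_lit 6870801098) (nat_lit 840) (nat_lit 2880364359) (nat_lit 140) (nat_lit 5) (nat_lit 139) (nat_lit 5) (nat_lit 149) (nat_lit 5) (nat_lit 373) (nat_lit 372) (nat_lit 335)) (XT.lf (nat_lit 0) (nat_lit 9652613834) (nat_lit 756) (nat_lit 850111177) (nat_lit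 840) (nat_lit 908713059) (nat_lit 140) (nat_lit 5) (nat_lit 149) (nat_lit 5) (nat_lit 150) (nat_lit 5) (nat_lit 374) (nat_lit 372) (nat_lit 334))) (XT.nd (nat_lit 94) (nat_lit 756) (nat_lit 0) (XT.lf (nat_lit 84) (nat_lit 8875283427) (nat_lit 0) (nat_lit 2585325251) (nat_lit 840) (nat_lit 372735476) (nat_lit 141) (nat_lit 5) (nat_lit 140) (nat_lit 5) (nat_lit 150) (nat_lit 5) (nat_lit 375) (nat_lit 372) (nat_lit 333)) (XT.lf (nat_lit 0) (nat_lit 1229334255) (nat_lit 840) (nat_lit 5102111909) (nat_lit 924) (nat_lit 5949625106) (nat_lit 131) (nat_lit 5) (nat_lit 141) (nat_lit 5) (nat_lit 142) (nat_lit 5) (nat_lit 376) (nat_lit 372) (nat_lit 332))))) (XT.nd (nat_lit 282) (nat_lit 1428) (nat_lit 0) (XT.nd (nat_lit 94) (nat_lit 756) (nat_lit 0) (XT.lf (nat_lit 0) (nat_lit 3090108644) (nat_lit 840) (nat_lit 7258955870) (nat_lit 924) (nat_lit 2408066624) (nat_lit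 132) (nat_lit 5) (nat_lit 142) (nat_lit 5) (nat_lit 143) (nat_lit 5) (nat_lit 377) (nat_lit 372) (nat_lit 331)) (XT.nd (nat_lit 94) (nat_lit 756) (nat_lit 0) (XT.lf (nat_lit 84) (nat_lit 3816249218) (nat_lit 0) (nat_lit 1467479928) (nat_lit 924) (nat_lit 7978347441) (nat_lit 133) (nat_lit 5) (nat_lit 132) (nat_lit 5) (nat_lit 143) (nat_lit 5) (nat_lit 378) (nat_lit 372) (nat_lit 330)) (XT.lf (nat_lit 0) (nat_lit 2113799367) (nat_lit 840) (nat_lit 5759390567) (nat_lit 924) (nat_lit 5923210207) (nat_lit 123) (nat_lit 5) (nat_lit 133) (nat_lit 5) (nat_lit 134) (nat_lit 5) (nat_lit 379) (nat_lit 372) (nat_lit 329)))) (XT.nd (nat_lit 188) (nat_lit 924) (nat_lit 0) (XT.nd (nat_lit 94) (nat_lit 0) (nat_lit 0) (XT.lf (nat_lit 0) (nat_lit 435418593) (nat_lit 504) (nat_lit 10429532857) (nat_lit 588) (nat_lit 3498760935) (nat_lit 117) (nat_lit 5) (nat_lit 123) (nat_lit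 5) (nat_lit 124) (nat_lit 5) (nat_lit 380) (nat_lit 372) (nat_lit 328)) (XT.lf (nat_lit 0) (nat_lit 13781213425) (nat_lit 504) (nat_lit 553911798) (nat_lit 588) (nat_lit 629330819) (nat_lit 117) (nat_lit 5) (nat_lit 123) (nat_lit 5) (nat_lit 124) (nat_lit 5) (nat_lit 381) (nat_lit 372) (nat_lit 327))) (XT.nd (nat_lit 94) (nat_lit 420) (nat_lit 0) (XT.lf (nat_lit 0) (nat_lit 2697375094) (nat_lit 504) (nat_lit 2866226434) (nat_lit 84) (nat_lit 10032391466) (nat_lit 111) (nat_lit 5) (nat_lit 117) (nat_lit 5) (nat_lit 112) (nat_lit 5) (nat_lit 382) (nat_lit 372) (nat_lit 326)) (XT.lf (nat_lit 0) (nat_lit 6514425042) (nat_lit 504) (nat_lit 4530729731) (nat_lit 84) (nat_lit 5220069473) (nat_lit 106) (nat_lit 5) (nat_lit 112) (nat_lit 5) (nat_lit 107) (nat_lit 5) (nat_lit 383) (nat_lit 372) (nat_lit 325))))))) (XT.nd (nat_lit 1316) (nat_lit 2604) (nat_lit 0) (XT.nd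 (nat_lit 658) (nat_lit 1680) (nat_lit 0) (XT.nd (nat_lit 282) (nat_lit 1260) (nat_lit 0) (XT.nd (nat_lit 94) (nat_lit 756) (nat_lit 0) (XT.lf (nat_lit 0) (nat_lit 10815395012) (nat_lit 336) (nat_lit 84784915) (nat_lit 420) (nat_lit 6074647023) (nat_lit 102) (nat_lit 5) (nat_lit 106) (nat_lit 5) (nat_lit 107) (nat_lit 5) (nat_lit 384) (nat_lit 372) (nat_lit 324)) (XT.nd (nat_lit 94) (nat_lit 420) (nat_lit 0) (XT.lf (nat_lit 0) (nat_lit 9889416157) (nat_lit 336) (nat_lit 6118174346) (nat_lit 420) (nat_lit 1715067601) (nat_lit 98) (nat_lit 5) (nat_lit 102) (nat_lit 5) (nat_lit 103) (nat_lit 5) (nat_lit 385) (nat_lit 372) (nat_lit 323)) (XT.lf (nat_lit 0) (nat_lit 3198369577) (nat_lit 420) (nat_lit 9507793486) (nat_lit 84) (nat_lit 5806771266) (nat_lit 93) (nat_lit 5) (nat_lit 98) (nat_lit 5) (nat_lit 94) (nat_lit 5) (nat_lit 386) (nat_lit 372) (nat_lit 322))))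 (XT.nd (nat_lit 188) (nat_lit 672) (nat_lit 0) (XT.nd (nat_lit 94) (nat_lit 252) (nat_lit 0) (XT.lf (nat_lit 0) (nat_lit 8183584472) (nat_lit 336) (nat_lit 588639899) (nat_lit 420) (nat_lit 10576430976) (nat_lit 89) (nat_lit 5) (nat_lit 93) (nat_lit 5) (nat_lit 94) (nat_lit 5) (nat_lit 387) (nat_lit 372) (nat_lit 321)) (XT.lf (nat_lit 0) (nat_lit 7370701900) (nat_lit 252) (nat_lit 7859022898) (nat_lit 336) (nat_lit 4999622384) (nat_lit 86) (nat_lit 5) (nat_lit 89) (nat_lit 5) (nat_lit 90) (nat_lit 5) (nat_lit 388) (nat_lit 372) (nat_lit 320))) (XT.nd (nat_lit 94) (nat_lit 252) (nat_lit 0) (XT.lf (nat_lit 0) (nat_lit 1350020300) (nat_lit 420) (nat_lit 14500555474) (nat_lit 84) (nat_lit 5311147618) (nat_lit 81) (nat_lit 5) (nat_lit 86) (nat_lit 5) (nat_lit 82) (nat_lit 5) (nat_lit 389) (nat_lit 372) (nat_lit 319)) (XT.lf (nat_lit 0) (nat_lit 5962114732) (nat_lit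 252) (nat_lit 2488633734) (nat_lit 336) (nat_lit 13692929358) (nat_lit 78) (nat_lit 5) (nat_lit 81) (nat_lit 5) (nat_lit 82) (nat_lit 5) (nat_lit 390) (nat_lit 372) (nat_lit 318))))) (XT.nd (nat_lit 282) (nat_lit 840) (nat_lit 0) (XT.nd (nat_lit 94) (nat_lit 588) (nat_lit 0) (XT.lf (nat_lit 0) (nat_lit 5315870384) (nat_lit 252) (nat_lit 11294263912) (nat_lit 336) (nat_lit 6569524344) (nat_lit 75) (nat_lit 5) (nat_lit 78) (nat_lit 5) (nat_lit 79) (nat_lit 5) (nat_lit 391) (nat_lit 372) (nat_lit 317)) (XT.nd (nat_lit 94) (nat_lit 252) (nat_lit 0) (XT.lf (nat_lit 0) (nat_lit 1511202469) (nat_lit 336) (nat_lit 19464800819) (nat_lit 84) (nat_lit 3300466561) (nat_lit 71) (nat_lit 5) (nat_lit 75) (nat_lit 5) (nat_lit 72) (nat_lit 5) (nat_lit 392) (nat_lit 372) (nat_lit 316)) (XT.lf (nat_lit 0) (nat_lit 4274304457) (nat_lit 252) (nat_lit 6277713262) (nat_lit 336)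 (nat_lit 14876433659) (nat_lit 68) (nat_lit 5) (nat_lit 71) (nat_lit 5) (nat_lit 72) (nat_lit 5) (nat_lit 393) (nat_lit 372) (nat_lit 315)))) (XT.nd (nat_lit 188) (nat_lit 336) (nat_lit 0) (XT.nd (nat_lit 94) (nat_lit 336) (nat_lit 0) (XT.lf (nat_lit 0) (nat_lit 3871592357) (nat_lit 168) (nat_lit 16968089497) (nat_lit 252) (nat_lit 5806730390) (nat_lit 66) (nat_lit 5) (nat_lit 68) (nat_lit 5) (nat_lit 69) (nat_lit 5) (nat_lit 394) (nat_lit 372) (nat_lit 314)) (XT.lf (nat_lit 0) (nat_lit 3604831581) (nat_lit 252) (nat_lit 762515604) (nat_lit 336) (nat_lit 23566026348) (nat_lit 62) (nat_lit 5) (nat_lit 65) (nat_lit 5) (nat_lit 66) (nat_lit 5) (nat_lit 395) (nat_lit 372) (nat_lit 313))) (XT.nd (nat_lit 94) (nat_lit 168) (nat_lit 0) (XT.lf (nat_lit 0) (nat_lit 3297574497) (nat_lit 168) (nat_lit 12544165108) (nat_lit 252) (nat_lit 13442301096) (nat_lit 60) (nat_lit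 5) (nat_lit 62) (nat_lit 5) (nat_lit 63) (nat_lit 5) (nat_lit 396) (nat_lit 372) (nat_lit 312)) (XT.lf (nat_lit 0) (nat_lit 3243132314) (nat_lit 168) (nat_lit 25533284414) (nat_lit 252) (nat_lit 1939227848) (nat_lit 58) (nat_lit 5) (nat_lit 60) (nat_lit 5) (nat_lit 61) (nat_lit 5) (nat_lit 397) (nat_lit 372) (nat_lit 311)))))) (XT.nd (nat_lit 658) (nat_lit 1344) (nat_lit 0) (XT.nd (nat_lit 282) (nat_lit 588) (nat_lit 0) (XT.nd (nat_lit 94) (nat_lit 420) (nat_lit 0) (XT.lf (nat_lit 0) (nat_lit 3174047649) (nat_lit 168) (nat_lit 7668808281) (nat_lit 252) (nat_lit 21376020476) (nat_lit 55) (nat_lit 5) (nat_lit 57) (nat_lit 5) (nat_lit 58) (nat_lit 5) (nat_lit 398) (nat_lit 372) (nat_lit 310)) (XT.nd (nat_lit 94) (nat_lit 252) (nat_lit 0) (XT.lf (nat_lit 0) (nat_lit 3273771604) (nat_lit 168) (nat_lit 21999916269) (nat_lit 252) (nat_lit 8532383251) (nat_lit 53)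 (nat_lit 5) (nat_lit 55) (nat_lit 5) (nat_lit 56) (nat_lit 5) (nat_lit 399) (nat_lit 372) (nat_lit 309)) (XT.lf (nat_lit 0) (nat_lit 3570607798) (nat_lit 168) (nat_lit 2271617179) (nat_lit 252) (nat_lit 29640131143) (nat_lit 50) (nat_lit 5) (nat_lit 52) (nat_lit 5) (nat_lit 53) (nat_lit 5) (nat_lit 400) (nat_lit 372) (nat_lit 308)))) (XT.nd (nat_lit 188) (nat_lit 252) (nat_lit 0) (XT.nd (nat_lit 94) (nat_lit 168) (nat_lit 0) (XT.lf (nat_lit 0) (nat_lit 3857715489) (nat_lit 168) (nat_lit 18088138878) (nat_lit 252) (nat_lit 15295996509) (nat_lit 48) (nat_lit 5) (nat_lit 50) (nat_lit 5) (nat_lit 51) (nat_lit 5) (nat_lit 401) (nat_lit 372) (nat_lit 307)) (XT.lf (nat_lit 0) (nat_lit 899021537) (nat_lit 168) (nat_lit 34598661311) (nat_lit 84) (nat_lit 3608788855) (nat_lit 46) (nat_lit 5) (nat_lit 48) (nat_lit 5) (nat_lit 47) (nat_lit 5) (nat_lit 402) (nat_lit 372)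 (nat_lit 306))) (XT.nd (nat_lit 94) (nat_lit 84) (nat_lit 0) (XT.lf (nat_lit 0) (nat_lit 5082393724) (nat_lit 168) (nat_lit 13731550354) (nat_lit 252) (nat_lit 22245770402) (nat_lit 44) (nat_lit 5) (nat_lit 46) (nat_lit 5) (nat_lit 47) (nat_lit 5) (nat_lit 403) (nat_lit 372) (nat_lit 305)) (XT.lf (nat_lit 0) (nat_lit 6025754621) (nat_lit 84) (nat_lit 32974001943) (nat_lit 168) (nat_lit 4127575309) (nat_lit 43) (nat_lit 5) (nat_lit 44) (nat_lit 5) (nat_lit 45) (nat_lit 4) (nat_lit 404) (nat_lit 372) (nat_lit 304))))) (XT.nd (nat_lit 376) (nat_lit 672) (nat_lit 0) (XT.nd (nat_lit 188) (nat_lit 336) (nat_lit 0) (XT.nd (nat_lit 94) (nat_lit 84) (nat_lit 0) (XT.lf (nat_lit 0) (nat_lit 7049592149) (nat_lit 168) (nat_lit 8853984337) (nat_lit 252) (nat_lit 29396845032) (nat_lit 40) (nat_lit 5) (nat_lit 42) (nat_lit 5) (nat_lit 43) (nat_lit 5) (nat_lit 405) (nat_lit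 372) (nat_lit 303)) (XT.lf (nat_lit 0) (nat_lit 8323386702) (nat_lit 84) (nat_lit 30106287579) (nat_lit 168) (nat_lit 9162447595) (nat_lit 39) (nat_lit 5) (nat_lit 40) (nat_lit 5) (nat_lit 41) (nat_lit 4) (nat_lit 406) (nat_lit 372) (nat_lit 302))) (XT.nd (nat_lit 94) (nat_lit 84) (nat_lit 0) (XT.lf (nat_lit 0) (nat_lit 9877321892) (nat_lit 168) (nat_lit 3368385521) (nat_lit 252) (nat_lit 36763484606) (nat_lit 36) (nat_lit 5) (nat_lit 38) (nat_lit 5) (nat_lit 39) (nat_lit 5) (nat_lit 407) (nat_lit 372) (nat_lit 301)) (XT.lf (nat_lit 0) (nat_lit 11542166459) (nat_lit 84) (nat_lit 26842461530) (nat_lit 168) (nat_lit 14164533546) (nat_lit 35) (nat_lit 5) (nat_lit 36) (nat_lit 5) (nat_lit 37) (nat_lit 4) (nat_lit 408) (nat_lit 372) (nat_lit 300)))) (XT.nd (nat_lit 188) (nat_lit 336) (nat_lit 0) (XT.nd (nat_lit 94) (nat_lit 84) (nat_lit 0) (XT.lf (nat_lit 0) (nat_lit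 10921559642) (nat_lit 252) (nat_lit 41578330508) (nat_lit 84) (nat_lit 2734090652) (nat_lit 32) (nat_lit 5) (nat_lit 35) (nat_lit 5) (nat_lit 33) (nat_lit 4) (nat_lit 409) (nat_lit 372) (nat_lit 299)) (XT.lf (nat_lit 0) (nat_lit 15827791877) (nat_lit 84) (nat_lit 23105178282) (nat_lit 168) (nat_lit 19118270871) (nat_lit 31) (nat_lit 5) (nat_lit 32) (nat_lit 5) (nat_lit 33) (nat_lit 4) (nat_lit 410) (nat_lit 372) (nat_lit 298))) (XT.nd (nat_lit 94) (nat_lit 84) (nat_lit 0) (XT.lf (nat_lit 0) (nat_lit 8996658542) (nat_lit 252) (nat_lit 42509980394) (nat_lit 84) (nat_lit 9522715519) (nat_lit 28) (nat_lit 5) (nat_lit 31) (nat_lit 5) (nat_lit 29) (nat_lit 4) (nat_lit 411) (nat_lit 372) (nat_lit 297)) (XT.lf (nat_lit 0) (nat_lit 21348006865) (nat_lit 84) (nat_lit 18805767661) (nat_lit 168) (nat_lit 24003131550) (nat_lit 27) (nat_lit 5) (nat_lit 28) (nat_lit 5) (nat_lit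 29) (nat_lit 4) (nat_lit 412) (nat_lit 372) (nat_lit 296))))))))
noncomputable def xc116 : XT := (XT.nd (nat_lit 2632) (nat_lit 0) (nat_lit 0) (XT.nd (nat_lit 1316) (nat_lit 504) (nat_lit 0) (XT.nd (nat_lit 658) (nat_lit 840) (nat_lit 0) (XT.nd (nat_lit 282) (nat_lit 504) (nat_lit 0) (XT.nd (nat_lit 94) (nat_lit 252) (nat_lit 0) (XT.lf (nat_lit 0) (nat_lit 7472801646) (nat_lit 168) (nat_lit 42757220377) (nat_lit 84) (nat_lit 17229513910) (nat_lit 25) (nat_lit 5) (nat_lit 27) (nat_lit 5) (nat_lit 26) (nat_lit 4) (nat_lit 413) (nat_lit 372) (nat_lit 295)) (XT.nd (nat_lit 94) (nat_lit 168) (nat_lit 0) (XT.lf (nat_lit 0) (nat_lit 28295531465) (nat_lit 84) (nat_lit 13842765348) (nat_lit 168) (nat_lit 28792782661) (nat_lit 24) (nat_lit 5) (nat_lit 25) (nat_lit 5) (nat_lit 26) (nat_lit 4) (nat_lit 414) (nat_lit 372) (nat_lit 294)) (XT.lf (nat_lit 0) (nat_lit 6413991423)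 (nat_lit 168) (nat_lit 42183353221) (nat_lit 84) (nat_lit 25995477765) (nat_lit 22) (nat_lit 5) (nat_lit 24) (nat_lit 5) (nat_lit 23) (nat_lit 4) (nat_lit 415) (nat_lit 372) (nat_lit 293)))) (XT.nd (nat_lit 188) (nat_lit 252) (nat_lit 0) (XT.nd (nat_lit 94) (nat_lit 168) (nat_lit 0) (XT.lf (nat_lit 0) (nat_lit 36891381737) (nat_lit 84) (nat_lit 8100236847) (nat_lit 168) (nat_lit 33454132053) (nat_lit 21) (nat_lit 5) (nat_lit 22) (nat_lit 5) (nat_lit 23) (nat_lit 4) (nat_lit 416) (nat_lit 372) (nat_lit 292)) (XT.lf (nat_lit 0) (nat_lit 5895222760) (nat_lit 168) (nat_lit 40629213085) (nat_lit 84) (nat_lit 35980503891) (nat_lit 19) (nat_lit 5) (nat_lit 21) (nat_lit 5) (nat_lit 20) (nat_lit 4) (nat_lit 417) (nat_lit 372) (nat_lit 291))) (XT.nd (nat_lit 94) (nat_lit 168) (nat_lit 0) (XT.lf (nat_lit 0) (nat_lit 47388626720) (nat_lit 84) (nat_lit 1445871951) (nat_lit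 168) (nat_lit 37946241747) (nat_lit 18) (nat_lit 5) (nat_lit 19) (nat_lit 5) (nat_lit 20) (nat_lit 4) (nat_lit 418) (nat_lit 372) (nat_lit 290)) (XT.lf (nat_lit 0) (nat_lit 6004041029) (nat_lit 168) (nat_lit 37910004260) (nat_lit 84) (nat_lit 47365801217) (nat_lit 16) (nat_lit 5) (nat_lit 18) (nat_lit 5) (nat_lit 17) (nat_lit 4) (nat_lit 419) (nat_lit 372) (nat_lit 289))))) (XT.nd (nat_lit 282) (nat_lit 504) (nat_lit 0) (XT.nd (nat_lit 94) (nat_lit 252) (nat_lit 0) (XT.lf (nat_lit 0) (nat_lit 53903370042) (nat_lit 168) (nat_lit 36045824029) (nat_lit 0) (nat_lit 6070459781) (nat_lit 15) (nat_lit 5) (nat_lit 17) (nat_lit 4) (nat_lit 15) (nat_lit 4) (nat_lit 420) (nat_lit 372) (nat_lit 288)) (XT.nd (nat_lit 94) (nat_lit 84) (nat_lit 0) (XT.lf (nat_lit 0) (nat_lit 6842305082) (nat_lit 168) (nat_lit 33811711649) (nat_lit 84) (nat_lit 60356609018) (nat_lit 13) (nat_lit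 5) (nat_lit 15) (nat_lit 5) (nat_lit 14) (nat_lit 4) (nat_lit 421) (nat_lit 372) (nat_lit 287)) (XT.lf (nat_lit 0) (nat_lit 60300807517) (nat_lit 168) (nat_lit 31227090014) (nat_lit 0) (nat_lit 14735517531) (nat_lit 12) (nat_lit 5) (nat_lit 14) (nat_lit 4) (nat_lit 12) (nat_lit 4) (nat_lit 422) (nat_lit 372) (nat_lit 286)))) (XT.nd (nat_lit 188) (nat_lit 252) (nat_lit 0) (XT.nd (nat_lit 94) (nat_lit 84) (nat_lit 0) (XT.lf (nat_lit 0) (nat_lit 8528182316) (nat_lit 168) (nat_lit 28087028950) (nat_lit 84) (nat_lit 75185262501) (nat_lit 10) (nat_lit 5) (nat_lit 12) (nat_lit 5) (nat_lit 11) (nat_lit 4) (nat_lit 423) (nat_lit 372) (nat_lit 285)) (XT.lf (nat_lit 0) (nat_lit 68188692709) (nat_lit 168) (nat_lit 24648190879) (nat_lit 0) (nat_lit 24784901150) (nat_lit 9) (nat_lit 5) (nat_lit 11) (nat_lit 4) (nat_lit 9) (nat_lit 4) (nat_lit 424) (nat_lit 372) (nat_lit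 284))) (XT.nd (nat_lit 94) (nat_lit 84) (nat_lit 0) (XT.lf (nat_lit 0) (nat_lit 11198406168) (nat_lit 168) (nat_lit 20450743601) (nat_lit 84) (nat_lit 92114646859) (nat_lit 7) (nat_lit 5) (nat_lit 9) (nat_lit 5) (nat_lit 8) (nat_lit 4) (nat_lit 425) (nat_lit 372) (nat_lit 283)) (XT.lf (nat_lit 0) (nat_lit 77777652996) (nat_lit 168) (nat_lit 16003591229) (nat_lit 0) (nat_lit 36433950142) (nat_lit 6) (nat_lit 5) (nat_lit 8) (nat_lit 4) (nat_lit 6) (nat_lit 4) (nat_lit 426) (nat_lit 372) (nat_lit 282)))))) (XT.nd (nat_lit 658) (nat_lit 0) (nat_lit 0) (XT.nd (nat_lit 282) (nat_lit 0) (nat_lit 0) (XT.nd (nat_lit 94) (nat_lit 336) (nat_lit 0) (XT.lf (nat_lit 0) (nat_lit 15010830063) (nat_lit 168) (nat_lit 10574509822) (nat_lit 84) (nat_lit 111442086139) (nat_lit 4) (nat_lit 5) (nat_lit 6) (nat_lit 5) (nat_lit 5) (nat_lit 4) (nat_lit 427) (nat_lit 372) (nat_lit 281))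 (XT.nd (nat_lit 94) (nat_lit 252) (nat_lit 0) (XT.lf (nat_lit 0) (nat_lit 89307908622) (nat_lit 168) (nat_lit 4941811219) (nat_lit 0) (nat_lit 49927435108) (nat_lit 3) (nat_lit 5) (nat_lit 5) (nat_lit 4) (nat_lit 3) (nat_lit 4) (nat_lit 428) (nat_lit 372) (nat_lit 280)) (XT.lf (nat_lit 0) (nat_lit 220045638743) (nat_lit 0) (nat_lit 0) (nat_lit 0) (nat_lit 0) (nat_lit 0) (nat_lit 0) (nat_lit 1) (nat_lit 0) (nat_lit 1) (nat_lit 0) (nat_lit 429) (nat_lit 372) (nat_lit 279)))) (XT.nd (nat_lit 188) (nat_lit 0) (nat_lit 0) (XT.nd (nat_lit 94) (nat_lit 0) (nat_lit 0) (XT.lf (nat_lit 0) (nat_lit 237432656109) (nat_lit 0) (nat_lit 0) (nat_lit 0) (nat_lit 0) (nat_lit 0) (nat_lit 0) (nat_lit 1) (nat_lit 0) (nat_lit 1) (nat_lit 0) (nat_lit 430) (nat_lit 372) (nat_lit 278)) (XT.lf (nat_lit 0) (nat_lit 256210658906) (nat_lit 0) (nat_lit 0) (nat_lit 0) (nat_lit 0) (nat_lit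 0) (nat_lit 0) (nat_lit 1) (nat_lit 0) (nat_lit 1) (nat_lit 0) (nat_lit 431) (nat_lit 372) (nat_lit 277))) (XT.nd (nat_lit 94) (nat_lit 0) (nat_lit 0) (XT.lf (nat_lit 0) (nat_lit 276490924189) (nat_lit 0) (nat_lit 0) (nat_lit 0) (nat_lit 0) (nat_lit 0) (nat_lit 0) (nat_lit 1) (nat_lit 0) (nat_lit 1) (nat_lit 0) (nat_lit 432) (nat_lit 372) (nat_lit 276)) (XT.lf (nat_lit 0) (nat_lit 298393631305) (nat_lit 0) (nat_lit 0) (nat_lit 0) (nat_lit 0) (nat_lit 0) (nat_lit 0) (nat_lit 1) (nat_lit 0) (nat_lit 1) (nat_lit 0) (nat_lit 433) (nat_lit 372) (nat_lit 275))))) (XT.nd (nat_lit 282) (nat_lit 0) (nat_lit 0) (XT.nd (nat_lit 94) (nat_lit 0) (nat_lit 0) (XT.lf (nat_lit 0) (nat_lit 322048574077) (nat_lit 0) (nat_lit 0) (nat_lit 0) (nat_lit 0) (nat_lit 0) (nat_lit 0) (nat_lit 1) (nat_lit 0) (nat_lit 1) (nat_lit 0) (nat_lit 434) (nat_lit 372) (nat_lit 274)) (XT.nd (nat_lit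 94) (nat_lit 0) (nat_lit 0) (XT.lf (nat_lit 0) (nat_lit 347595929942) (nat_lit 0) (nat_lit 0) (nat_lit 0) (nat_lit 0) (nat_lit 0) (nat_lit 0) (nat_lit 1) (nat_lit 0) (nat_lit 1) (nat_lit 0) (nat_lit 435) (nat_lit 372) (nat_lit 273)) (XT.lf (nat_lit 0) (nat_lit 375187090639) (nat_lit 0) (nat_lit 0) (nat_lit 0) (nat_lit 0) (nat_lit 0) (nat_lit 0) (nat_lit 1) (nat_lit 0) (nat_lit 1) (nat_lit 0) (nat_lit 436) (nat_lit 372) (nat_lit 272)))) (XT.nd (nat_lit 188) (nat_lit 0) (nat_lit 0) (XT.nd (nat_lit 94) (nat_lit 0) (nat_lit 0) (XT.lf (nat_lit 0) (nat_lit 404985559342) (nat_lit 0) (nat_lit 0) (nat_lit 0) (nat_lit 0) (nat_lit 0) (nat_lit 0) (nat_lit 1) (nat_lit 0) (nat_lit 1) (nat_lit 0) (nat_lit 437) (nat_lit 372) (nat_lit 271)) (XT.lf (nat_lit 0) (nat_lit 437167919569) (nat_lit 0) (nat_lit 0) (nat_lit 0) (nat_lit 0) (nat_lit 0) (nat_lit 0) (nat_lit 1) (nat_lit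 0) (nat_lit 1) (nat_lit 0) (nat_lit 438) (nat_lit 372) (nat_lit 270))) (XT.nd (nat_lit 94) (nat_lit 0) (nat_lit 0) (XT.lf (nat_lit 0) (nat_lit 471924881604) (nat_lit 0) (nat_lit 0) (nat_lit 0) (nat_lit 0) (nat_lit 0) (nat_lit 0) (nat_lit 1) (nat_lit 0) (nat_lit 1) (nat_lit 0) (nat_lit 439) (nat_lit 372) (nat_lit 269)) (XT.lf (nat_lit 0) (nat_lit 509462412629) (nat_lit 0) (nat_lit 0) (nat_lit 0) (nat_lit 0) (nat_lit 0) (nat_lit 0) (nat_lit 1) (nat_lit 0) (nat_lit 1) (nat_lit 0) (nat_lit 440) (nat_lit 372) (nat_lit 268))))))) (XT.nd (nat_lit 1316) (nat_lit 0) (nat_lit 0) (XT.nd (nat_lit 658) (nat_lit 0) (nat_lit 0) (XT.nd (nat_lit 282) (nat_lit 0) (nat_lit 0) (XT.nd (nat_lit 94) (nat_lit 0) (nat_lit 0) (XT.lf (nat_lit 0) (nat_lit 550002957272) (nat_lit 0) (nat_lit 0) (nat_lit 0) (nat_lit 0) (nat_lit 0) (nat_lit 0) (nat_lit 1) (nat_lit 0) (nat_lit 1) (nat_lit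 0) (nat_lit 441) (nat_lit 372) (nat_lit 267)) (XT.nd (nat_lit 94) (nat_lit 0) (nat_lit 0) (XT.lf (nat_lit 0) (nat_lit 593786755798) (nat_lit 0) (nat_lit 0) (nat_lit 0) (nat_lit 0) (nat_lit 0) (nat_lit 0) (nat_lit 1) (nat_lit 0) (nat_lit 1) (nat_lit 0) (nat_lit 442) (nat_lit 372) (nat_lit 266)) (XT.lf (nat_lit 0) (nat_lit 641073267753) (nat_lit 0) (nat_lit 0) (nat_lit 0) (nat_lit 0) (nat_lit 0) (nat_lit 0) (nat_lit 1) (nat_lit 0) (nat_lit 1) (nat_lit 0) (nat_lit 443) (nat_lit 372) (nat_lit 265)))) (XT.nd (nat_lit 188) (nat_lit 0) (nat_lit 0) (XT.nd (nat_lit 94) (nat_lit 0) (nat_lit 0) (XT.lf (nat_lit 0) (nat_lit 692142709505) (nat_lit 0) (nat_lit 0) (nat_lit 0) (nat_lit 0) (nat_lit 0) (nat_lit 0) (nat_lit 1) (nat_lit 0) (nat_lit 1) (nat_lit 0) (nat_lit 444) (nat_lit 372) (nat_lit 264)) (XT.lf (nat_lit 0) (nat_lit 747297714782) (nat_lit 0) (nat_lit 0) (nat_lit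 0) (nat_lit 0) (nat_lit 0) (nat_lit 0) (nat_lit 1) (nat_lit 0) (nat_lit 1) (nat_lit 0) (nat_lit 445) (nat_lit 372) (nat_lit 263))) (XT.nd (nat_lit 94) (nat_lit 0) (nat_lit 0) (XT.lf (nat_lit 0) (nat_lit 806865128060) (nat_lit 0) (nat_lit 0) (nat_lit 0) (nat_lit 0) (nat_lit 0) (nat_lit 0) (nat_lit 1) (nat_lit 0) (nat_lit 1) (nat_lit 0) (nat_lit 446) (nat_lit 372) (nat_lit 262)) (XT.lf (nat_lit 0) (nat_lit 871197941419) (nat_lit 0) (nat_lit 0) (nat_lit 0) (nat_lit 0) (nat_lit 0) (nat_lit 0) (nat_lit 1) (nat_lit 0) (nat_lit 1) (nat_lit 0) (nat_lit 447) (nat_lit 372) (nat_lit 261))))) (XT.nd (nat_lit 282) (nat_lit 0) (nat_lit 0) (XT.nd (nat_lit 94) (nat_lit 0) (nat_lit 0) (XT.lf (nat_lit 0) (nat_lit 940677386343) (nat_lit 0) (nat_lit 0) (nat_lit 0) (nat_lit 0) (nat_lit 0) (nat_lit 0) (nat_lit 1) (nat_lit 0) (nat_lit 1) (nat_lit 0) (nat_lit 448) (nat_lit 372) (nat_lit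 260)) (XT.nd (nat_lit 94) (nat_lit 0) (nat_lit 0) (XT.lf (nat_lit 0) (nat_lit 1015715192879) (nat_lit 0) (nat_lit 0) (nat_lit 0) (nat_lit 0) (nat_lit 0) (nat_lit 0) (nat_lit 1) (nat_lit 0) (nat_lit 1) (nat_lit 0) (nat_lit 449) (nat_lit 372) (nat_lit 259)) (XT.lf (nat_lit 0) (nat_lit 1096756029508) (nat_lit 0) (nat_lit 0) (nat_lit 0) (nat_lit 0) (nat_lit 0) (nat_lit 0) (nat_lit 1) (nat_lit 0) (nat_lit 1) (nat_lit 0) (nat_lit 450) (nat_lit 372) (nat_lit 258)))) (XT.nd (nat_lit 188) (nat_lit 0) (nat_lit 0) (XT.nd (nat_lit 94) (nat_lit 0) (nat_lit 0) (XT.lf (nat_lit 0) (nat_lit 1184280138225) (nat_lit 0) (nat_lit 0) (nat_lit 0) (nat_lit 0) (nat_lit 0) (nat_lit 0) (nat_lit 1) (nat_lit 0) (nat_lit 1) (nat_lit 0) (nat_lit 451) (nat_lit 372) (nat_lit 257)) (XT.lf (nat_lit 0) (nat_lit 1278806180416) (nat_lit 0) (nat_lit 0) (nat_lit 0) (nat_lit 0) (nat_lit 0) (nat_lit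 0) (nat_lit 1) (nat_lit 0) (nat_lit 1) (nat_lit 0) (nat_lit 452) (nat_lit 372) (nat_lit 256))) (XT.nd (nat_lit 94) (nat_lit 0) (nat_lit 0) (XT.lf (nat_lit 0) (nat_lit 1380894310405) (nat_lit 0) (nat_lit 0) (nat_lit 0) (nat_lit 0) (nat_lit 0) (nat_lit 0) (nat_lit 1) (nat_lit 0) (nat_lit 1) (nat_lit 0) (nat_lit 453) (nat_lit 372) (nat_lit 255)) (XT.lf (nat_lit 0) (nat_lit 1491149494887) (nat_lit 0) (nat_lit 0) (nat_lit 0) (nat_lit 0) (nat_lit 0) (nat_lit 0) (nat_lit 1) (nat_lit 0) (nat_lit 1) (nat_lit 0) (nat_lit 454) (nat_lit 372) (nat_lit 254)))))) (XT.nd (nat_lit 658) (nat_lit 0) (nat_lit 0) (XT.nd (nat_lit 282) (nat_lit 0) (nat_lit 0) (XT.nd (nat_lit 94) (nat_lit 0) (nat_lit 0) (XT.lf (nat_lit 0) (nat_lit 1610225097919) (nat_lit 0) (nat_lit 0) (nat_lit 0) (nat_lit 0) (nat_lit 0) (nat_lit 0) (nat_lit 1) (nat_lit 0) (nat_lit 1) (nat_lit 0) (nat_lit 455) (nat_lit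 372) (nat_lit 253)) (XT.nd (nat_lit 94) (nat_lit 0) (nat_lit 0) (XT.lf (nat_lit 0) (nat_lit 1738826752705) (nat_lit 0) (nat_lit 0) (nat_lit 0) (nat_lit 0) (nat_lit 0) (nat_lit 0) (nat_lit 1) (nat_lit 0) (nat_lit 1) (nat_lit 0) (nat_lit 456) (nat_lit 372) (nat_lit 252)) (XT.lf (nat_lit 0) (nat_lit 1877716543124) (nat_lit 0) (nat_lit 0) (nat_lit 0) (nat_lit 0) (nat_lit 0) (nat_lit 0) (nat_lit 1) (nat_lit 0) (nat_lit 1) (nat_lit 0) (nat_lit 457) (nat_lit 372) (nat_lit 251)))) (XT.nd (nat_lit 188) (nat_lit 0) (nat_lit 0) (XT.nd (nat_lit 94) (nat_lit 0) (nat_lit 0) (XT.lf (nat_lit 0) (nat_lit 2027717519786) (nat_lit 0) (nat_lit 0) (nat_lit 0) (nat_lit 0) (nat_lit 0) (nat_lit 0) (nat_lit 1) (nat_lit 0) (nat_lit 1) (nat_lit 0) (nat_lit 458) (nat_lit 372) (nat_lit 250)) (XT.lf (nat_lit 0) (nat_lit 2189718577368) (nat_lit 0) (nat_lit 0) (nat_lit 0) (nat_lit 0) (nat_lit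 0) (nat_lit 0) (nat_lit 1) (nat_lit 0) (nat_lit 1) (nat_lit 0) (nat_lit 459) (nat_lit 372) (nat_lit 249))) (XT.nd (nat_lit 94) (nat_lit 0) (nat_lit 0) (XT.lf (nat_lit 0) (nat_lit 2364679722137) (nat_lit 0) (nat_lit 0) (nat_lit 0) (nat_lit 0) (nat_lit 0) (nat_lit 0) (nat_lit 1) (nat_lit 0) (nat_lit 1) (nat_lit 0) (nat_lit 460) (nat_lit 372) (nat_lit 248)) (XT.lf (nat_lit 0) (nat_lit 2553637760876) (nat_lit 0) (nat_lit 0) (nat_lit 0) (nat_lit 0) (nat_lit 0) (nat_lit 0) (nat_lit 1) (nat_lit 0) (nat_lit 1) (nat_lit 0) (nat_lit 461) (nat_lit 372) (nat_lit 247))))) (XT.nd (nat_lit 376) (nat_lit 0) (nat_lit 0) (XT.nd (nat_lit 188) (nat_lit 0) (nat_lit 0) (XT.nd (nat_lit 94) (nat_lit 0) (nat_lit 0) (XT.lf (nat_lit 0) (nat_lit 2757712444927) (nat_lit 0) (nat_lit 0) (nat_lit 0) (nat_lit 0) (nat_lit 0) (nat_lit 0) (nat_lit 1) (nat_lit 0) (nat_lit 1) (nat_lit 0) (nat_lit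 462) (nat_lit 372) (nat_lit 246)) (XT.lf (nat_lit 0) (nat_lit 2978113105751) (nat_lit 0) (nat_lit 0) (nat_lit 0) (nat_lit 0) (nat_lit 0) (nat_lit 0) (nat_lit 1) (nat_lit 0) (nat_lit 1) (nat_lit 0) (nat_lit 463) (nat_lit 372) (nat_lit 245))) (XT.nd (nat_lit 94) (nat_lit 0) (nat_lit 0) (XT.lf (nat_lit 0) (nat_lit 3216145821337) (nat_lit 0) (nat_lit 0) (nat_lit 0) (nat_lit 0) (nat_lit 0) (nat_lit 0) (nat_lit 1) (nat_lit 0) (nat_lit 1) (nat_lit 0) (nat_lit 464) (nat_lit 372) (nat_lit 244)) (XT.lf (nat_lit 0) (nat_lit 3473221155926) (nat_lit 0) (nat_lit 0) (nat_lit 0) (nat_lit 0) (nat_lit 0) (nat_lit 0) (nat_lit 1) (nat_lit 0) (nat_lit 1) (nat_lit 0) (nat_lit 465) (nat_lit 372) (nat_lit 243)))) (XT.nd (nat_lit 188) (nat_lit 0) (nat_lit 0) (XT.nd (nat_lit 94) (nat_lit 0) (nat_lit 0) (XT.lf (nat_lit 0) (nat_lit 3750862518908) (nat_lit 0) (nat_lit 0) (nat_lit 0) (nat_lit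 0) (nat_lit 0) (nat_lit 0) (nat_lit 1) (nat_lit 0) (nat_lit 1) (nat_lit 0) (nat_lit 466) (nat_lit 372) (nat_lit 242)) (XT.lf (nat_lit 0) (nat_lit 4050715192435) (nat_lit 0) (nat_lit 0) (nat_lit 0) (nat_lit 0) (nat_lit 0) (nat_lit 0) (nat_lit 1) (nat_lit 0) (nat_lit 1) (nat_lit 0) (nat_lit 467) (nat_lit 372) (nat_lit 241))) (XT.nd (nat_lit 94) (nat_lit 0) (nat_lit 0) (XT.lf (nat_lit 0) (nat_lit 4374556081237) (nat_lit 0) (nat_lit 0) (nat_lit 0) (nat_lit 0) (nat_lit 0) (nat_lit 0) (nat_lit 1) (nat_lit 0) (nat_lit 1) (nat_lit 0) (nat_lit 468) (nat_lit 372) (nat_lit 240)) (XT.lf (nat_lit 0) (nat_lit 4724304242435) (nat_lit 0) (nat_lit 0) (nat_lit 0) (nat_lit 0) (nat_lit 0) (nat_lit 0) (nat_lit 1) (nat_lit 0) (nat_lit 1) (nat_lit 0) (nat_lit 469) (nat_lit 372) (nat_lit 239))))))))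
noncomputable def xc117 : XT := (XT.nd (nat_lit 2632) (nat_lit 0) (nat_lit 0) (XT.nd (nat_lit 1316) (nat_lit 0) (nat_lit 0) (XT.nd (nat_lit 658) (nat_lit 0) (nat_lit 0) (XT.nd (nat_lit 282) (nat_lit 0) (nat_lit 0) (XT.nd (nat_lit 94) (nat_lit 0) (nat_lit 0) (XT.lf (nat_lit 0) (nat_lit 5102032257724) (nat_lit 0) (nat_lit 0) (nat_lit 0) (nat_lit 0) (nat_lit 0) (nat_lit 0) (nat_lit 1) (nat_lit 0) (nat_lit 1) (nat_lit 0) (nat_lit 470) (nat_lit 372) (nat_lit 238)) (XT.nd (nat_lit 94) (nat_lit 0) (nat_lit 0) (XT.lf (nat_lit 0) (nat_lit 5509978515342) (nat_lit 0) (nat_lit 0) (nat_lit 0) (nat_lit 0) (nat_lit 0) (nat_lit 0) (nat_lit 1) (nat_lit 0) (nat_lit 1) (nat_lit 0) (nat_lit 471) (nat_lit 372) (nat_lit 237)) (XT.lf (nat_lit 0) (nat_lit 5950560474595) (nat_lit 0) (nat_lit 0) (nat_lit 0) (nat_lit 0) (nat_lit 0) (nat_lit 0) (nat_lit 1) (nat_lit 0) (nat_lit 1) (nat_lit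 0) (nat_lit 472) (nat_lit 372) (nat_lit 236)))) (XT.nd (nat_lit 188) (nat_lit 0) (nat_lit 0) (XT.nd (nat_lit 94) (nat_lit 0) (nat_lit 0) (XT.lf (nat_lit 0) (nat_lit 6426388991537) (nat_lit 0) (nat_lit 0) (nat_lit 0) (nat_lit 0) (nat_lit 0) (nat_lit 0) (nat_lit 1) (nat_lit 0) (nat_lit 1) (nat_lit 0) (nat_lit 473) (nat_lit 372) (nat_lit 235)) (XT.lf (nat_lit 0) (nat_lit 6940283790712) (nat_lit 0) (nat_lit 0) (nat_lit 0) (nat_lit 0) (nat_lit 0) (nat_lit 0) (nat_lit 1) (nat_lit 0) (nat_lit 1) (nat_lit 0) (nat_lit 474) (nat_lit 372) (nat_lit 234))) (XT.nd (nat_lit 94) (nat_lit 0) (nat_lit 0) (XT.lf (nat_lit 0) (nat_lit 7495290174636) (nat_lit 0) (nat_lit 0) (nat_lit 0) (nat_lit 0) (nat_lit 0) (nat_lit 0) (nat_lit 1) (nat_lit 0) (nat_lit 1) (nat_lit 0) (nat_lit 475) (nat_lit 372) (nat_lit 233)) (XT.lf (nat_lit 0) (nat_lit 8094697070026) (nat_lit 0) (nat_lit 0) (nat_lit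 0) (nat_lit 0) (nat_lit 0) (nat_lit 0) (nat_lit 1) (nat_lit 0) (nat_lit 1) (nat_lit 0) (nat_lit 476) (nat_lit 372) (nat_lit 232))))) (XT.nd (nat_lit 282) (nat_lit 0) (nat_lit 0) (XT.nd (nat_lit 94) (nat_lit 0) (nat_lit 0) (XT.lf (nat_lit 0) (nat_lit 8742056517744) (nat_lit 0) (nat_lit 0) (nat_lit 0) (nat_lit 0) (nat_lit 0) (nat_lit 0) (nat_lit 1) (nat_lit 0) (nat_lit 1) (nat_lit 0) (nat_lit 477) (nat_lit 372) (nat_lit 231)) (XT.nd (nat_lit 94) (nat_lit 0) (nat_lit 0) (XT.lf (nat_lit 0) (nat_lit 9441204721926) (nat_lit 0) (nat_lit 0) (nat_lit 0) (nat_lit 0) (nat_lit 0) (nat_lit 0) (nat_lit 1) (nat_lit 0) (nat_lit 1) (nat_lit 0) (nat_lit 478) (nat_lit 372) (nat_lit 230)) (XT.lf (nat_lit 0) (nat_lit 10196284783041) (nat_lit 0) (nat_lit 0) (nat_lit 0) (nat_lit 0) (nat_lit 0) (nat_lit 0) (nat_lit 1) (nat_lit 0) (nat_lit 1) (nat_lit 0) (nat_lit 479) (nat_lit 372)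 (nat_lit 229)))) (XT.nd (nat_lit 188) (nat_lit 0) (nat_lit 0) (XT.nd (nat_lit 94) (nat_lit 0) (nat_lit 0) (XT.lf (nat_lit 0) (nat_lit 11011771249598) (nat_lit 0) (nat_lit 0) (nat_lit 0) (nat_lit 0) (nat_lit 0) (nat_lit 0) (nat_lit 1) (nat_lit 0) (nat_lit 1) (nat_lit 0) (nat_lit 480) (nat_lit 372) (nat_lit 228)) (XT.lf (nat_lit 0) (nat_lit 11892496633992) (nat_lit 0) (nat_lit 0) (nat_lit 0) (nat_lit 0) (nat_lit 0) (nat_lit 0) (nat_lit 1) (nat_lit 0) (nat_lit 1) (nat_lit 0) (nat_lit 481) (nat_lit 372) (nat_lit 227))) (XT.nd (nat_lit 94) (nat_lit 0) (nat_lit 0) (XT.lf (nat_lit 0) (nat_lit 12843680049613) (nat_lit 0) (nat_lit 0) (nat_lit 0) (nat_lit 0) (nat_lit 0) (nat_lit 0) (nat_lit 1) (nat_lit 0) (nat_lit 1) (nat_lit 0) (nat_lit 482) (nat_lit 372) (nat_lit 226)) (XT.lf (nat_lit 0) (nat_lit 13870958138922) (nat_lit 0) (nat_lit 0) (nat_lit 0) (nat_lit 0) (nat_lit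 0) (nat_lit 0) (nat_lit 1) (nat_lit 0) (nat_lit 1) (nat_lit 0) (nat_lit 483) (nat_lit 372) (nat_lit 225)))))) (XT.nd (nat_lit 658) (nat_lit 0) (nat_lit 0) (XT.nd (nat_lit 282) (nat_lit 0) (nat_lit 0) (XT.nd (nat_lit 94) (nat_lit 0) (nat_lit 0) (XT.lf (nat_lit 0) (nat_lit 14980418475784) (nat_lit 0) (nat_lit 0) (nat_lit 0) (nat_lit 0) (nat_lit 0) (nat_lit 0) (nat_lit 1) (nat_lit 0) (nat_lit 1) (nat_lit 0) (nat_lit 484) (nat_lit 372) (nat_lit 224)) (XT.nd (nat_lit 94) (nat_lit 0) (nat_lit 0) (XT.lf (nat_lit 0) (nat_lit 16178635639971) (nat_lit 0) (nat_lit 0) (nat_lit 0) (nat_lit 0) (nat_lit 0) (nat_lit 0) (nat_lit 1) (nat_lit 0) (nat_lit 1) (nat_lit 0) (nat_lit 485) (nat_lit 372) (nat_lit 223)) (XT.lf (nat_lit 0) (nat_lit 17472710177642) (nat_lit 0) (nat_lit 0) (nat_lit 0) (nat_lit 0) (nat_lit 0) (nat_lit 0) (nat_lit 1) (nat_lit 0) (nat_lit 1) (nat_lit 0) (nat_lit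 486) (nat_lit 372) (nat_lit 222)))) (XT.nd (nat_lit 188) (nat_lit 0) (nat_lit 0) (XT.nd (nat_lit 94) (nat_lit 0) (nat_lit 0) (XT.lf (nat_lit 0) (nat_lit 18870310678649) (nat_lit 0) (nat_lit 0) (nat_lit 0) (nat_lit 0) (nat_lit 0) (nat_lit 0) (nat_lit 1) (nat_lit 0) (nat_lit 1) (nat_lit 0) (nat_lit 487) (nat_lit 372) (nat_lit 221)) (XT.lf (nat_lit 0) (nat_lit 20379719220037) (nat_lit 0) (nat_lit 0) (nat_lit 0) (nat_lit 0) (nat_lit 0) (nat_lit 0) (nat_lit 1) (nat_lit 0) (nat_lit 1) (nat_lit 0) (nat_lit 488) (nat_lit 372) (nat_lit 220))) (XT.nd (nat_lit 94) (nat_lit 0) (nat_lit 0) (XT.lf (nat_lit 0) (nat_lit 22009880445012) (nat_lit 0) (nat_lit 0) (nat_lit 0) (nat_lit 0) (nat_lit 0) (nat_lit 0) (nat_lit 1) (nat_lit 0) (nat_lit 1) (nat_lit 0) (nat_lit 489) (nat_lit 372) (nat_lit 219)) (XT.lf (nat_lit 0) (nat_lit 23770454568241) (nat_lit 0) (nat_lit 0) (nat_lit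 0) (nat_lit 0) (nat_lit 0) (nat_lit 0) (nat_lit 1) (nat_lit 0) (nat_lit 1) (nat_lit 0) (nat_lit 490) (nat_lit 372) (nat_lit 218))))) (XT.nd (nat_lit 282) (nat_lit 0) (nat_lit 0) (XT.nd (nat_lit 94) (nat_lit 0) (nat_lit 0) (XT.lf (nat_lit 0) (nat_lit 25671874621567) (nat_lit 0) (nat_lit 0) (nat_lit 0) (nat_lit 0) (nat_lit 0) (nat_lit 0) (nat_lit 1) (nat_lit 0) (nat_lit 1) (nat_lit 0) (nat_lit 491) (nat_lit 372) (nat_lit 217)) (XT.nd (nat_lit 94) (nat_lit 0) (nat_lit 0) (XT.lf (nat_lit 0) (nat_lit 27725408279378) (nat_lit 0) (nat_lit 0) (nat_lit 0) (nat_lit 0) (nat_lit 0) (nat_lit 0) (nat_lit 1) (nat_lit 0) (nat_lit 1) (nat_lit 0) (nat_lit 492) (nat_lit 372) (nat_lit 216)) (XT.lf (nat_lit 0) (nat_lit 29943224630018) (nat_lit 0) (nat_lit 0) (nat_lit 0) (nat_lit 0) (nat_lit 0) (nat_lit 0) (nat_lit 1) (nat_lit 0) (nat_lit 1) (nat_lit 0) (nat_lit 493) (nat_lit 372)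 (nat_lit 215)))) (XT.nd (nat_lit 188) (nat_lit 0) (nat_lit 0) (XT.nd (nat_lit 94) (nat_lit 0) (nat_lit 0) (XT.lf (nat_lit 0) (nat_lit 32338466288897) (nat_lit 0) (nat_lit 0) (nat_lit 0) (nat_lit 0) (nat_lit 0) (nat_lit 0) (nat_lit 1) (nat_lit 0) (nat_lit 1) (nat_lit 0) (nat_lit 494) (nat_lit 372) (nat_lit 214)) (XT.lf (nat_lit 0) (nat_lit 34925327280662) (nat_lit 0) (nat_lit 0) (nat_lit 0) (nat_lit 0) (nat_lit 0) (nat_lit 0) (nat_lit 1) (nat_lit 0) (nat_lit 1) (nat_lit 0) (nat_lit 495) (nat_lit 372) (nat_lit 213))) (XT.nd (nat_lit 94) (nat_lit 0) (nat_lit 0) (XT.lf (nat_lit 0) (nat_lit 37719137151929) (nat_lit 0) (nat_lit 0) (nat_lit 0) (nat_lit 0) (nat_lit 0) (nat_lit 0) (nat_lit 1) (nat_lit 0) (nat_lit 1) (nat_lit 0) (nat_lit 496) (nat_lit 372) (nat_lit 212)) (XT.lf (nat_lit 0) (nat_lit 40736451813047) (nat_lit 0) (nat_lit 0) (nat_lit 0) (nat_lit 0) (nat_lit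 0) (nat_lit 0) (nat_lit 1) (nat_lit 0) (nat_lit 1) (nat_lit 0) (nat_lit 497) (nat_lit 372) (nat_lit 211))))))) (XT.nd (nat_lit 56682) (nat_lit 0) (nat_lit 5712) (XT.nd (nat_lit 56024) (nat_lit 0) (nat_lit 10920) (XT.nd (nat_lit 282) (nat_lit 0) (nat_lit 0) (XT.nd (nat_lit 94) (nat_lit 0) (nat_lit 0) (XT.lf (nat_lit 0) (nat_lit 43995151647193) (nat_lit 0) (nat_lit 0) (nat_lit 0) (nat_lit 0) (nat_lit 0) (nat_lit 0) (nat_lit 1) (nat_lit 0) (nat_lit 1) (nat_lit 0) (nat_lit 498) (nat_lit 372) (nat_lit 210)) (XT.nd (nat_lit 94) (nat_lit 0) (nat_lit 0) (XT.lf (nat_lit 0) (nat_lit 47514547468199) (nat_lit 0) (nat_lit 0) (nat_lit 0) (nat_lit 0) (nat_lit 0) (nat_lit 0) (nat_lit 1) (nat_lit 0) (nat_lit 1) (nat_lit 0) (nat_lit 499) (nat_lit 372) (nat_lit 209)) (XT.lf (nat_lit 0) (nat_lit 51315494955004) (nat_lit 0) (nat_lit 0) (nat_lit 0) (nat_lit 0) (nat_lit 0) (nat_lit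 0) (nat_lit 1) (nat_lit 0) (nat_lit 1) (nat_lit 0) (nat_lit 500) (nat_lit 372) (nat_lit 208)))) (XT.nd (nat_lit 188) (nat_lit 0) (nat_lit 0) (XT.nd (nat_lit 94) (nat_lit 0) (nat_lit 0) (XT.lf (nat_lit 0) (nat_lit 55420518240864) (nat_lit 0) (nat_lit 0) (nat_lit 0) (nat_lit 0) (nat_lit 0) (nat_lit 0) (nat_lit 1) (nat_lit 0) (nat_lit 1) (nat_lit 0) (nat_lit 501) (nat_lit 372) (nat_lit 207)) (XT.lf (nat_lit 0) (nat_lit 59853943389694) (nat_lit 0) (nat_lit 0) (nat_lit 0) (nat_lit 0) (nat_lit 0) (nat_lit 0) (nat_lit 1) (nat_lit 0) (nat_lit 1) (nat_lit 0) (nat_lit 502) (nat_lit 372) (nat_lit 206))) (XT.nd (nat_lit 94) (nat_lit 0) (nat_lit 0) (XT.lf (nat_lit 0) (nat_lit 64642042550526) (nat_lit 0) (nat_lit 0) (nat_lit 0) (nat_lit 0) (nat_lit 0) (nat_lit 0) (nat_lit 1) (nat_lit 0) (nat_lit 1) (nat_lit 0) (nat_lit 503) (nat_lit 372) (nat_lit 205)) (XT.lf (nat_lit 0)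 (nat_lit 69813189644310) (nat_lit 0) (nat_lit 0) (nat_lit 0) (nat_lit 0) (nat_lit 0) (nat_lit 0) (nat_lit 1) (nat_lit 0) (nat_lit 1) (nat_lit 0) (nat_lit 504) (nat_lit 372) (nat_lit 204))))) (XT.nd (nat_lit 282) (nat_lit 756) (nat_lit 0) (XT.nd (nat_lit 94) (nat_lit 0) (nat_lit 0) (XT.lf (nat_lit 0) (nat_lit 2306921950) (nat_lit 0) (nat_lit 2306921950) (nat_lit 756) (nat_lit 1084929498) (nat_lit 139) (nat_lit 5) (nat_lit 139) (nat_lit 3) (nat_lit 148) (nat_lit 3) (nat_lit 373) (nat_lit 373) (nat_lit 334)) (XT.nd (nat_lit 94) (nat_lit 0) (nat_lit 84) (XT.lf (nat_lit 84) (nat_lit 2356728493) (nat_lit 0) (nat_lit 8153365042) (nat_lit 840) (nat_lit 1297690223) (nat_lit 140) (nat_lit 5) (nat_lit 139) (nat_lit 5) (nat_lit 149) (nat_lit 5) (nat_lit 374) (nat_lit 373) (nat_lit 333)) (XT.lf (nat_lit 84) (nat_lit 95727175) (nat_lit 0) (nat_lit 11918851828) (nat_lit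 840) (nat_lit 230286309) (nat_lit 141) (nat_lit 5) (nat_lit 140) (nat_lit 5) (nat_lit 150) (nat_lit 5) (nat_lit 375) (nat_lit 373) (nat_lit 332)))) (XT.nd (nat_lit 188) (nat_lit 0) (nat_lit 168) (XT.nd (nat_lit 94) (nat_lit 0) (nat_lit 84) (XT.lf (nat_lit 0) (nat_lit 1120393629) (nat_lit 840) (nat_lit 2171635094) (nat_lit 924) (nat_lit 9412794030) (nat_lit 130) (nat_lit 5) (nat_lit 140) (nat_lit 5) (nat_lit 141) (nat_lit 5) (nat_lit 376) (nat_lit 373) (nat_lit 331)) (XT.lf (nat_lit 0) (nat_lit 2734191042) (nat_lit 840) (nat_lit 4460131981) (nat_lit 924) (nat_lit 5998908445) (nat_lit 131) (nat_lit 5) (nat_lit 141) (nat_lit 5) (nat_lit 142) (nat_lit 5) (nat_lit 377) (nat_lit 373) (nat_lit 330))) (XT.nd (nat_lit 94) (nat_lit 0) (nat_lit 0) (XT.lf (nat_lit 0) (nat_lit 4650430119) (nat_lit 840) (nat_lit 6764366721) (nat_lit 924) (nat_lit 2297249150) (nat_lit 132)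 (nat_lit 5) (nat_lit 142) (nat_lit 5) (nat_lit 143) (nat_lit 5) (nat_lit 378) (nat_lit 373) (nat_lit 329)) (XT.lf (nat_lit 84) (nat_lit 5150123302) (nat_lit 0) (nat_lit 1788208271) (nat_lit 924) (nat_lit 7323115937) (nat_lit 133) (nat_lit 5) (nat_lit 132) (nat_lit 5) (nat_lit 143) (nat_lit 5) (nat_lit 379) (nat_lit 373) (nat_lit 328)))))) (XT.nd (nat_lit 658) (nat_lit 2520) (nat_lit 0) (XT.nd (nat_lit 282) (nat_lit 1512) (nat_lit 0) (XT.nd (nat_lit 94) (nat_lit 588) (nat_lit 0) (XT.lf (nat_lit 0) (nat_lit 3328731824) (nat_lit 840) (nat_lit 6328354159) (nat_lit 924) (nat_lit 5185324126) (nat_lit 123) (nat_lit 5) (nat_lit 133) (nat_lit 5) (nat_lit 134) (nat_lit 5) (nat_lit 380) (nat_lit 373) (nat_lit 327)) (XT.nd (nat_lit 94) (nat_lit 84) (nat_lit 0) (XT.lf (nat_lit 0) (nat_lit 1527440613) (nat_lit 504) (nat_lit 11290204626) (nat_lit 588) (nat_lit 2640989253)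 (nat_lit 117) (nat_lit 5) (nat_lit 123) (nat_lit 5) (nat_lit 124) (nat_lit 5) (nat_lit 381) (nat_lit 373) (nat_lit 326)) (XT.lf (nat_lit 0) (nat_lit 361761752) (nat_lit 588) (nat_lit 254696694) (nat_lit 84) (nat_lit 15494700407) (nat_lit 116) (nat_lit 5) (nat_lit 123) (nat_lit 5) (nat_lit 117) (nat_lit 5) (nat_lit 382) (nat_lit 373) (nat_lit 325)))) (XT.nd (nat_lit 188) (nat_lit 672) (nat_lit 0) (XT.nd (nat_lit 94) (nat_lit 420) (nat_lit 0) (XT.lf (nat_lit 0) (nat_lit 3872585749) (nat_lit 504) (nat_lit 2079118599) (nat_lit 84) (nat_lit 10843997054) (nat_lit 111) (nat_lit 5) (nat_lit 117) (nat_lit 5) (nat_lit 112) (nat_lit 5) (nat_lit 383) (nat_lit 373) (nat_lit 324)) (XT.lf (nat_lit 0) (nat_lit 7940183434) (nat_lit 504) (nat_lit 3876849973) (nat_lit 84) (nat_lit 5704178559) (nat_lit 106) (nat_lit 5) (nat_lit 112) (nat_lit 5) (nat_lit 107) (nat_lit 5) (nat_lit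 384) (nat_lit 373) (nat_lit 323))) (XT.nd (nat_lit 94) (nat_lit 336) (nat_lit 0) (XT.lf (nat_lit 0) (nat_lit 12625403717) (nat_lit 420) (nat_lit 5637812879) (nat_lit 84) (nat_lit 26936040) (nat_lit 102) (nat_lit 5) (nat_lit 107) (nat_lit 5) (nat_lit 103) (nat_lit 5) (nat_lit 385) (nat_lit 373) (nat_lit 322)) (XT.lf (nat_lit 0) (nat_lit 11649492125) (nat_lit 336) (nat_lit 6445165648) (nat_lit 420) (nat_lit 1005489979) (nat_lit 98) (nat_lit 5) (nat_lit 102) (nat_lit 5) (nat_lit 103) (nat_lit 5) (nat_lit 386) (nat_lit 373) (nat_lit 321))))) (XT.nd (nat_lit 376) (nat_lit 1092) (nat_lit 0) (XT.nd (nat_lit 188) (nat_lit 672) (nat_lit 0) (XT.nd (nat_lit 94) (nat_lit 336) (nat_lit 0) (XT.lf (nat_lit 0) (nat_lit 4230870804) (nat_lit 420) (nat_lit 9279779190) (nat_lit 84) (nat_lit 6444487499) (nat_lit 93) (nat_lit 5) (nat_lit 98) (nat_lit 5) (nat_lit 94) (nat_lit 5)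 (nat_lit 387) (nat_lit 373) (nat_lit 320)) (XT.lf (nat_lit 0) (nat_lit 9783944011) (nat_lit 336) (nat_lit 423926300) (nat_lit 420) (nat_lit 10651984063) (nat_lit 89) (nat_lit 5) (nat_lit 93) (nat_lit 5) (nat_lit 94) (nat_lit 5) (nat_lit 388) (nat_lit 373) (nat_lit 319))) (XT.nd (nat_lit 94) (nat_lit 420) (nat_lit 0) (XT.lf (nat_lit 0) (nat_lit 8896868642) (nat_lit 252) (nat_lit 8248425007) (nat_lit 336) (nat_lit 4667541764) (nat_lit 86) (nat_lit 5) (nat_lit 89) (nat_lit 5) (nat_lit 90) (nat_lit 5) (nat_lit 389) (nat_lit 373) (nat_lit 318)) (XT.lf (nat_lit 0) (nat_lit 2132355978) (nat_lit 420) (nat_lit 14712721881) (nat_lit 84) (nat_lit 5975866702) (nat_lit 81) (nat_lit 5) (nat_lit 86) (nat_lit 5) (nat_lit 82) (nat_lit 5) (nat_lit 390) (nat_lit 373) (nat_lit 317)))) (XT.nd (nat_lit 188) (nat_lit 588) (nat_lit 0) (XT.nd (nat_lit 94) (nat_lit 252) (nat_lit 0)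 (XT.lf (nat_lit 0) (nat_lit 7345768318) (nat_lit 252) (nat_lit 2419579294) (nat_lit 336) (nat_lit 14117897475) (nat_lit 78) (nat_lit 5) (nat_lit 81) (nat_lit 5) (nat_lit 82) (nat_lit 5) (nat_lit 391) (nat_lit 373) (nat_lit 316)) (XT.lf (nat_lit 0) (nat_lit 6634955922) (nat_lit 252) (nat_lit 11913060538) (nat_lit 336) (nat_lit 6455561300) (nat_lit 75) (nat_lit 5) (nat_lit 78) (nat_lit 5) (nat_lit 79) (nat_lit 5) (nat_lit 392) (nat_lit 373) (nat_lit 315))) (XT.nd (nat_lit 94) (nat_lit 252) (nat_lit 0) (XT.lf (nat_lit 0) (nat_lit 2223444792) (nat_lit 336) (nat_lit 20122582915) (nat_lit 84) (nat_lit 3842992424) (nat_lit 71) (nat_lit 5) (nat_lit 75) (nat_lit 5) (nat_lit 72) (nat_lit 5) (nat_lit 393) (nat_lit 373) (nat_lit 314)) (XT.lf (nat_lit 0) (nat_lit 5476563869) (nat_lit 252) (nat_lit 6480589905) (nat_lit 336) (nat_lit 15477524981) (nat_lit 68) (nat_lit 5)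 (nat_lit 71) (nat_lit 5) (nat_lit 72) (nat_lit 5) (nat_lit 394) (nat_lit 373) (nat_lit 313))))))))
noncomputable def xc118 : XT := (XT.nd (nat_lit 2632) (nat_lit 1092) (nat_lit 0) (XT.nd (nat_lit 1316) (nat_lit 1932) (nat_lit 0) (XT.nd (nat_lit 658) (nat_lit 1176) (nat_lit 0) (XT.nd (nat_lit 282) (nat_lit 840) (nat_lit 0) (XT.nd (nat_lit 94) (nat_lit 504) (nat_lit 0) (XT.lf (nat_lit 0) (nat_lit 5026605890) (nat_lit 168) (nat_lit 18017196114) (nat_lit 252) (nat_lit 5707475940) (nat_lit 66) (nat_lit 5) (nat_lit 68) (nat_lit 5) (nat_lit 69) (nat_lit 5) (nat_lit 395) (nat_lit 373) (nat_lit 312)) (XT.nd (nat_lit 94) (nat_lit 168) (nat_lit 0) (XT.lf (nat_lit 0) (nat_lit 4719029830) (nat_lit 252) (nat_lit 515920576) (nat_lit 336) (nat_lit 24907182237) (nat_lit 62) (nat_lit 5) (nat_lit 65) (nat_lit 5) (nat_lit 66) (nat_lit 5) (nat_lit 396) (nat_lit 373) (nat_lit 311))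 (XT.lf (nat_lit 0) (nat_lit 4371494398) (nat_lit 168) (nat_lit 13234508345) (nat_lit 252) (nat_lit 13995915015) (nat_lit 60) (nat_lit 5) (nat_lit 62) (nat_lit 5) (nat_lit 63) (nat_lit 5) (nat_lit 397) (nat_lit 373) (nat_lit 310)))) (XT.nd (nat_lit 188) (nat_lit 420) (nat_lit 0) (XT.nd (nat_lit 94) (nat_lit 252) (nat_lit 0) (XT.lf (nat_lit 0) (nat_lit 4296579420) (nat_lit 168) (nat_lit 27258989513) (nat_lit 252) (nat_lit 1593475267) (nat_lit 58) (nat_lit 5) (nat_lit 60) (nat_lit 5) (nat_lit 61) (nat_lit 5) (nat_lit 398) (nat_lit 373) (nat_lit 309)) (XT.lf (nat_lit 0) (nat_lit 4202796779) (nat_lit 168) (nat_lit 7968528501) (nat_lit 252) (nat_lit 22602009195) (nat_lit 55) (nat_lit 5) (nat_lit 57) (nat_lit 5) (nat_lit 58) (nat_lit 5) (nat_lit 399) (nat_lit 373) (nat_lit 308))) (XT.nd (nat_lit 94) (nat_lit 252) (nat_lit 0) (XT.lf (nat_lit 0) (nat_lit 4294189768)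 (nat_lit 168) (nat_lit 23444661563) (nat_lit 252) (nat_lit 8749542062) (nat_lit 53) (nat_lit 5) (nat_lit 55) (nat_lit 5) (nat_lit 56) (nat_lit 5) (nat_lit 400) (nat_lit 373) (nat_lit 307)) (XT.lf (nat_lit 0) (nat_lit 4596057990) (nat_lit 168) (nat_lit 2142257512) (nat_lit 252) (nat_lit 31561193480) (nat_lit 50) (nat_lit 5) (nat_lit 52) (nat_lit 5) (nat_lit 53) (nat_lit 5) (nat_lit 401) (nat_lit 373) (nat_lit 306))))) (XT.nd (nat_lit 282) (nat_lit 672) (nat_lit 0) (XT.nd (nat_lit 94) (nat_lit 336) (nat_lit 0) (XT.lf (nat_lit 0) (nat_lit 4889841588) (nat_lit 168) (nat_lit 19224430368) (nat_lit 252) (nat_lit 16086289528) (nat_lit 48) (nat_lit 5) (nat_lit 50) (nat_lit 5) (nat_lit 51) (nat_lit 5) (nat_lit 402) (nat_lit 373) (nat_lit 305)) (XT.nd (nat_lit 94) (nat_lit 168) (nat_lit 0) (XT.lf (nat_lit 0) (nat_lit 1375171565) (nat_lit 168) (nat_lit 36646022946) (nat_lit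 84) (nat_lit 4193583512) (nat_lit 46) (nat_lit 5) (nat_lit 48) (nat_lit 5) (nat_lit 47) (nat_lit 5) (nat_lit 403) (nat_lit 373) (nat_lit 304)) (XT.lf (nat_lit 0) (nat_lit 6178203080) (nat_lit 168) (nat_lit 14525902615) (nat_lit 252) (nat_lit 23621133639) (nat_lit 44) (nat_lit 5) (nat_lit 46) (nat_lit 5) (nat_lit 47) (nat_lit 5) (nat_lit 404) (nat_lit 373) (nat_lit 303)))) (XT.nd (nat_lit 188) (nat_lit 336) (nat_lit 0) (XT.nd (nat_lit 94) (nat_lit 252) (nat_lit 0) (XT.lf (nat_lit 0) (nat_lit 7180953314) (nat_lit 84) (nat_lit 35310214706) (nat_lit 168) (nat_lit 4067778856) (nat_lit 43) (nat_lit 5) (nat_lit 44) (nat_lit 5) (nat_lit 45) (nat_lit 4) (nat_lit 405) (nat_lit 373) (nat_lit 302)) (XT.lf (nat_lit 0) (nat_lit 8269384114) (nat_lit 168) (nat_lit 9266273272) (nat_lit 252) (nat_lit 31370808114) (nat_lit 40) (nat_lit 5) (nat_lit 42) (nat_lit 5) (nat_lit 43)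 (nat_lit 5) (nat_lit 406) (nat_lit 373) (nat_lit 301))) (XT.nd (nat_lit 94) (nat_lit 252) (nat_lit 0) (XT.lf (nat_lit 0) (nat_lit 9629367825) (nat_lit 84) (nat_lit 32222097124) (nat_lit 168) (nat_lit 9530655842) (nat_lit 39) (nat_lit 5) (nat_lit 40) (nat_lit 5) (nat_lit 41) (nat_lit 4) (nat_lit 407) (nat_lit 373) (nat_lit 300)) (XT.lf (nat_lit 0) (nat_lit 11290967500) (nat_lit 168) (nat_lit 3351086093) (nat_lit 252) (nat_lit 39351039309) (nat_lit 36) (nat_lit 5) (nat_lit 38) (nat_lit 5) (nat_lit 39) (nat_lit 5) (nat_lit 408) (nat_lit 373) (nat_lit 299)))))) (XT.nd (nat_lit 658) (nat_lit 924) (nat_lit 0) (XT.nd (nat_lit 282) (nat_lit 588) (nat_lit 0) (XT.nd (nat_lit 94) (nat_lit 336) (nat_lit 0) (XT.lf (nat_lit 0) (nat_lit 13073724990) (nat_lit 84) (nat_lit 28707063968) (nat_lit 168) (nat_lit 14956035964) (nat_lit 35) (nat_lit 5) (nat_lit 36) (nat_lit 5) (nat_lit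 37) (nat_lit 4) (nat_lit 409) (nat_lit 373) (nat_lit 298)) (XT.nd (nat_lit 94) (nat_lit 84) (nat_lit 0) (XT.lf (nat_lit 0) (nat_lit 12115078100) (nat_lit 252) (nat_lit 44300929751) (nat_lit 84) (nat_lit 3220701730) (nat_lit 32) (nat_lit 5) (nat_lit 35) (nat_lit 5) (nat_lit 33) (nat_lit 4) (nat_lit 410) (nat_lit 373) (nat_lit 297)) (XT.lf (nat_lit 0) (nat_lit 17671447783) (nat_lit 84) (nat_lit 24681280594) (nat_lit 168) (nat_lit 20327355904) (nat_lit 31) (nat_lit 5) (nat_lit 32) (nat_lit 5) (nat_lit 33) (nat_lit 4) (nat_lit 411) (nat_lit 373) (nat_lit 296)))) (XT.nd (nat_lit 188) (nat_lit 252) (nat_lit 0) (XT.nd (nat_lit 94) (nat_lit 84) (nat_lit 0) (XT.lf (nat_lit 0) (nat_lit 10016474875) (nat_lit 252) (nat_lit 45337992427) (nat_lit 84) (nat_lit 10542231327) (nat_lit 28) (nat_lit 5) (nat_lit 31) (nat_lit 5) (nat_lit 29) (nat_lit 4) (nat_lit 412) (nat_lit 373)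 (nat_lit 295)) (XT.lf (nat_lit 0) (nat_lit 23603741214) (nat_lit 84) (nat_lit 20048744664) (nat_lit 168) (nat_lit 25622652216) (nat_lit 27) (nat_lit 5) (nat_lit 28) (nat_lit 5) (nat_lit 29) (nat_lit 4) (nat_lit 413) (nat_lit 373) (nat_lit 294))) (XT.nd (nat_lit 94) (nat_lit 84) (nat_lit 0) (XT.lf (nat_lit 0) (nat_lit 8352481108) (nat_lit 168) (nat_lit 45634602559) (nat_lit 84) (nat_lit 18855122374) (nat_lit 25) (nat_lit 5) (nat_lit 27) (nat_lit 5) (nat_lit 26) (nat_lit 4) (nat_lit 414) (nat_lit 373) (nat_lit 293)) (XT.lf (nat_lit 0) (nat_lit 31078762819) (nat_lit 84) (nat_lit 14699687136) (nat_lit 168) (nat_lit 30813661408) (nat_lit 24) (nat_lit 5) (nat_lit 25) (nat_lit 5) (nat_lit 26) (nat_lit 4) (nat_lit 415) (nat_lit 373) (nat_lit 292))))) (XT.nd (nat_lit 282) (nat_lit 504) (nat_lit 0) (XT.nd (nat_lit 94) (nat_lit 252) (nat_lit 0) (XT.lf (nat_lit 0) (nat_lit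 7192064543) (nat_lit 168) (nat_lit 45043124047) (nat_lit 84) (nat_lit 28311811921) (nat_lit 22) (nat_lit 5) (nat_lit 24) (nat_lit 5) (nat_lit 23) (nat_lit 4) (nat_lit 416) (nat_lit 373) (nat_lit 291)) (XT.nd (nat_lit 94) (nat_lit 168) (nat_lit 0) (XT.lf (nat_lit 0) (nat_lit 40335212892) (nat_lit 84) (nat_lit 8508752403) (nat_lit 168) (nat_lit 35864794531) (nat_lit 21) (nat_lit 5) (nat_lit 22) (nat_lit 5) (nat_lit 23) (nat_lit 4) (nat_lit 417) (nat_lit 373) (nat_lit 290)) (XT.lf (nat_lit 0) (nat_lit 6616086754) (nat_lit 168) (nat_lit 43391668400) (nat_lit 84) (nat_lit 39085117453) (nat_lit 19) (nat_lit 5) (nat_lit 21) (nat_lit 5) (nat_lit 20) (nat_lit 4) (nat_lit 418) (nat_lit 373) (nat_lit 289)))) (XT.nd (nat_lit 188) (nat_lit 252) (nat_lit 0) (XT.nd (nat_lit 94) (nat_lit 168) (nat_lit 0) (XT.lf (nat_lit 0) (nat_lit 51646395844) (nat_lit 84) (nat_lit 1332932381)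 (nat_lit 168) (nat_lit 40731967943) (nat_lit 18) (nat_lit 5) (nat_lit 19) (nat_lit 5) (nat_lit 20) (nat_lit 4) (nat_lit 419) (nat_lit 373) (nat_lit 288)) (XT.lf (nat_lit 0) (nat_lit 6718982171) (nat_lit 168) (nat_lit 40480677334) (nat_lit 84) (nat_lit 51370843829) (nat_lit 16) (nat_lit 5) (nat_lit 18) (nat_lit 5) (nat_lit 17) (nat_lit 4) (nat_lit 420) (nat_lit 373) (nat_lit 287))) (XT.nd (nat_lit 94) (nat_lit 168) (nat_lit 0) (XT.lf (nat_lit 0) (nat_lit 58443182030) (nat_lit 168) (nat_lit 38479641242) (nat_lit 0) (nat_lit 6767025770) (nat_lit 15) (nat_lit 5) (nat_lit 17) (nat_lit 4) (nat_lit 15) (nat_lit 4) (nat_lit 421) (nat_lit 373) (nat_lit 286)) (XT.lf (nat_lit 0) (nat_lit 7610659079) (nat_lit 168) (nat_lit 36079043495) (nat_lit 84) (nat_lit 65390724756) (nat_lit 13) (nat_lit 5) (nat_lit 15) (nat_lit 5) (nat_lit 14) (nat_lit 4) (nat_lit 422) (nat_lit 373)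 (nat_lit 285))))))) (XT.nd (nat_lit 1316) (nat_lit 0) (nat_lit 0) (XT.nd (nat_lit 658) (nat_lit 252) (nat_lit 0) (XT.nd (nat_lit 282) (nat_lit 504) (nat_lit 0) (XT.nd (nat_lit 94) (nat_lit 252) (nat_lit 0) (XT.lf (nat_lit 0) (nat_lit 65339247795) (nat_lit 168) (nat_lit 33299351957) (nat_lit 0) (nat_lit 16115169730) (nat_lit 12) (nat_lit 5) (nat_lit 14) (nat_lit 4) (nat_lit 12) (nat_lit 4) (nat_lit 423) (nat_lit 373) (nat_lit 284)) (XT.nd (nat_lit 94) (nat_lit 84) (nat_lit 0) (XT.lf (nat_lit 0) (nat_lit 9418651795) (nat_lit 168) (nat_lit 29919710806) (nat_lit 84) (nat_lit 81395738321) (nat_lit 10) (nat_lit 5) (nat_lit 12) (nat_lit 5) (nat_lit 11) (nat_lit 4) (nat_lit 424) (nat_lit 373) (nat_lit 283)) (XT.lf (nat_lit 0) (nat_lit 73845847050) (nat_lit 168) (nat_lit 26216901257) (nat_lit 0) (nat_lit 26958676264) (nat_lit 9) (nat_lit 5) (nat_lit 11) (nat_lit 4)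 (nat_lit 9) (nat_lit 4) (nat_lit 425) (nat_lit 373) (nat_lit 282)))) (XT.nd (nat_lit 188) (nat_lit 252) (nat_lit 0) (XT.nd (nat_lit 94) (nat_lit 84) (nat_lit 0) (XT.lf (nat_lit 0) (nat_lit 12290556716) (nat_lit 168) (nat_lit 21694688544) (nat_lit 84) (nat_lit 99669841197) (nat_lit 7) (nat_lit 5) (nat_lit 9) (nat_lit 5) (nat_lit 8) (nat_lit 4) (nat_lit 426) (nat_lit 373) (nat_lit 281)) (XT.lf (nat_lit 0) (nat_lit 84190387197) (nat_lit 168) (nat_lit 16902352128) (nat_lit 0) (nat_lit 39530144494) (nat_lit 6) (nat_lit 5) (nat_lit 8) (nat_lit 4) (nat_lit 6) (nat_lit 4) (nat_lit 427) (nat_lit 373) (nat_lit 280))) (XT.nd (nat_lit 94) (nat_lit 84) (nat_lit 0) (XT.lf (nat_lit 0) (nat_lit 16396788878) (nat_lit 168) (nat_lit 11049404889) (nat_lit 84) (nat_lit 120534171717) (nat_lit 4) (nat_lit 5) (nat_lit 6) (nat_lit 5) (nat_lit 5) (nat_lit 4) (nat_lit 428) (nat_lit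 373) (nat_lit 279)) (XT.lf (nat_lit 0) (nat_lit 96632244107) (nat_lit 168) (nat_lit 4976149621) (nat_lit 0) (nat_lit 54093948477) (nat_lit 3) (nat_lit 5) (nat_lit 5) (nat_lit 4) (nat_lit 3) (nat_lit 4) (nat_lit 429) (nat_lit 373) (nat_lit 278))))) (XT.nd (nat_lit 282) (nat_lit 0) (nat_lit 0) (XT.nd (nat_lit 94) (nat_lit 0) (nat_lit 0) (XT.lf (nat_lit 0) (nat_lit 237648820792) (nat_lit 0) (nat_lit 0) (nat_lit 0) (nat_lit 0) (nat_lit 0) (nat_lit 0) (nat_lit 1) (nat_lit 0) (nat_lit 1) (nat_lit 0) (nat_lit 430) (nat_lit 373) (nat_lit 277)) (XT.nd (nat_lit 94) (nat_lit 0) (nat_lit 0) (XT.lf (nat_lit 0) (nat_lit 256426834291) (nat_lit 0) (nat_lit 0) (nat_lit 0) (nat_lit 0) (nat_lit 0) (nat_lit 0) (nat_lit 1) (nat_lit 0) (nat_lit 1) (nat_lit 0) (nat_lit 431) (nat_lit 373) (nat_lit 276)) (XT.lf (nat_lit 0) (nat_lit 276707109483) (nat_lit 0) (nat_lit 0) (nat_lit 0)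 (nat_lit 0) (nat_lit 0) (nat_lit 0) (nat_lit 1) (nat_lit 0) (nat_lit 1) (nat_lit 0) (nat_lit 432) (nat_lit 373) (nat_lit 275)))) (XT.nd (nat_lit 188) (nat_lit 0) (nat_lit 0) (XT.nd (nat_lit 94) (nat_lit 0) (nat_lit 0) (XT.lf (nat_lit 0) (nat_lit 298609825776) (nat_lit 0) (nat_lit 0) (nat_lit 0) (nat_lit 0) (nat_lit 0) (nat_lit 0) (nat_lit 1) (nat_lit 0) (nat_lit 1) (nat_lit 0) (nat_lit 433) (nat_lit 373) (nat_lit 274)) (XT.lf (nat_lit 0) (nat_lit 322264777043) (nat_lit 0) (nat_lit 0) (nat_lit 0) (nat_lit 0) (nat_lit 0) (nat_lit 0) (nat_lit 1) (nat_lit 0) (nat_lit 1) (nat_lit 0) (nat_lit 434) (nat_lit 373) (nat_lit 273))) (XT.nd (nat_lit 94) (nat_lit 0) (nat_lit 0) (XT.lf (nat_lit 0) (nat_lit 347812140775) (nat_lit 0) (nat_lit 0) (nat_lit 0) (nat_lit 0) (nat_lit 0) (nat_lit 0) (nat_lit 1) (nat_lit 0) (nat_lit 1) (nat_lit 0) (nat_lit 435) (nat_lit 373) (nat_lit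 272)) (XT.lf (nat_lit 0) (nat_lit 375403308756) (nat_lit 0) (nat_lit 0) (nat_lit 0) (nat_lit 0) (nat_lit 0) (nat_lit 0) (nat_lit 1) (nat_lit 0) (nat_lit 1) (nat_lit 0) (nat_lit 436) (nat_lit 373) (nat_lit 271)))))) (XT.nd (nat_lit 658) (nat_lit 0) (nat_lit 0) (XT.nd (nat_lit 282) (nat_lit 0) (nat_lit 0) (XT.nd (nat_lit 94) (nat_lit 0) (nat_lit 0) (XT.lf (nat_lit 0) (nat_lit 405201784203) (nat_lit 0) (nat_lit 0) (nat_lit 0) (nat_lit 0) (nat_lit 0) (nat_lit 0) (nat_lit 1) (nat_lit 0) (nat_lit 1) (nat_lit 0) (nat_lit 437) (nat_lit 373) (nat_lit 270)) (XT.nd (nat_lit 94) (nat_lit 0) (nat_lit 0) (XT.lf (nat_lit 0) (nat_lit 437384150676) (nat_lit 0) (nat_lit 0) (nat_lit 0) (nat_lit 0) (nat_lit 0) (nat_lit 0) (nat_lit 1) (nat_lit 0) (nat_lit 1) (nat_lit 0) (nat_lit 438) (nat_lit 373) (nat_lit 269)) (XT.lf (nat_lit 0) (nat_lit 472141118493) (nat_lit 0) (nat_lit 0)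 (nat_lit 0) (nat_lit 0) (nat_lit 0) (nat_lit 0) (nat_lit 1) (nat_lit 0) (nat_lit 1) (nat_lit 0) (nat_lit 439) (nat_lit 373) (nat_lit 268)))) (XT.nd (nat_lit 188) (nat_lit 0) (nat_lit 0) (XT.nd (nat_lit 94) (nat_lit 0) (nat_lit 0) (XT.lf (nat_lit 0) (nat_lit 509678654871) (nat_lit 0) (nat_lit 0) (nat_lit 0) (nat_lit 0) (nat_lit 0) (nat_lit 0) (nat_lit 1) (nat_lit 0) (nat_lit 1) (nat_lit 0) (nat_lit 440) (nat_lit 373) (nat_lit 267)) (XT.lf (nat_lit 0) (nat_lit 550219204472) (nat_lit 0) (nat_lit 0) (nat_lit 0) (nat_lit 0) (nat_lit 0) (nat_lit 0) (nat_lit 1) (nat_lit 0) (nat_lit 1) (nat_lit 0) (nat_lit 441) (nat_lit 373) (nat_lit 266))) (XT.nd (nat_lit 94) (nat_lit 0) (nat_lit 0) (XT.lf (nat_lit 0) (nat_lit 594003007587) (nat_lit 0) (nat_lit 0) (nat_lit 0) (nat_lit 0) (nat_lit 0) (nat_lit 0) (nat_lit 1) (nat_lit 0) (nat_lit 1) (nat_lit 0) (nat_lit 442) (nat_lit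 373) (nat_lit 265)) (XT.lf (nat_lit 0) (nat_lit 641289523793) (nat_lit 0) (nat_lit 0) (nat_lit 0) (nat_lit 0) (nat_lit 0) (nat_lit 0) (nat_lit 1) (nat_lit 0) (nat_lit 1) (nat_lit 0) (nat_lit 443) (nat_lit 373) (nat_lit 264))))) (XT.nd (nat_lit 376) (nat_lit 0) (nat_lit 0) (XT.nd (nat_lit 188) (nat_lit 0) (nat_lit 0) (XT.nd (nat_lit 94) (nat_lit 0) (nat_lit 0) (XT.lf (nat_lit 0) (nat_lit 692358969480) (nat_lit 0) (nat_lit 0) (nat_lit 0) (nat_lit 0) (nat_lit 0) (nat_lit 0) (nat_lit 1) (nat_lit 0) (nat_lit 1) (nat_lit 0) (nat_lit 444) (nat_lit 373) (nat_lit 263)) (XT.lf (nat_lit 0) (nat_lit 747513978401) (nat_lit 0) (nat_lit 0) (nat_lit 0) (nat_lit 0) (nat_lit 0) (nat_lit 0) (nat_lit 1) (nat_lit 0) (nat_lit 1) (nat_lit 0) (nat_lit 445) (nat_lit 373) (nat_lit 262))) (XT.nd (nat_lit 94) (nat_lit 0) (nat_lit 0) (XT.lf (nat_lit 0) (nat_lit 807081395053) (nat_lit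 0) (nat_lit 0) (nat_lit 0) (nat_lit 0) (nat_lit 0) (nat_lit 0) (nat_lit 1) (nat_lit 0) (nat_lit 1) (nat_lit 0) (nat_lit 446) (nat_lit 373) (nat_lit 261)) (XT.lf (nat_lit 0) (nat_lit 871414211535) (nat_lit 0) (nat_lit 0) (nat_lit 0) (nat_lit 0) (nat_lit 0) (nat_lit 0) (nat_lit 1) (nat_lit 0) (nat_lit 1) (nat_lit 0) (nat_lit 447) (nat_lit 373) (nat_lit 260)))) (XT.nd (nat_lit 188) (nat_lit 0) (nat_lit 0) (XT.nd (nat_lit 94) (nat_lit 0) (nat_lit 0) (XT.lf (nat_lit 0) (nat_lit 940893659353) (nat_lit 0) (nat_lit 0) (nat_lit 0) (nat_lit 0) (nat_lit 0) (nat_lit 0) (nat_lit 1) (nat_lit 0) (nat_lit 1) (nat_lit 0) (nat_lit 448) (nat_lit 373) (nat_lit 259)) (XT.lf (nat_lit 0) (nat_lit 1015931468566) (nat_lit 0) (nat_lit 0) (nat_lit 0) (nat_lit 0) (nat_lit 0) (nat_lit 0) (nat_lit 1) (nat_lit 0) (nat_lit 1) (nat_lit 0) (nat_lit 449) (nat_lit 373) (nat_lit 258))) (XT.nd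 (nat_lit 94) (nat_lit 0) (nat_lit 0) (XT.lf (nat_lit 0) (nat_lit 1096972307675) (nat_lit 0) (nat_lit 0) (nat_lit 0) (nat_lit 0) (nat_lit 0) (nat_lit 0) (nat_lit 1) (nat_lit 0) (nat_lit 1) (nat_lit 0) (nat_lit 450) (nat_lit 373) (nat_lit 257)) (XT.lf (nat_lit 0) (nat_lit 1184496418689) (nat_lit 0) (nat_lit 0) (nat_lit 0) (nat_lit 0) (nat_lit 0) (nat_lit 0) (nat_lit 1) (nat_lit 0) (nat_lit 1) (nat_lit 0) (nat_lit 451) (nat_lit 373) (nat_lit 256))))))))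
noncomputable def xc119 : XT := (XT.nd (nat_lit 2632) (nat_lit 0) (nat_lit 0) (XT.nd (nat_lit 1316) (nat_lit 0) (nat_lit 0) (XT.nd (nat_lit 658) (nat_lit 0) (nat_lit 0) (XT.nd (nat_lit 282) (nat_lit 0) (nat_lit 0) (XT.nd (nat_lit 94) (nat_lit 0) (nat_lit 0) (XT.lf (nat_lit 0) (nat_lit 1279022463006) (nat_lit 0) (nat_lit 0) (nat_lit 0) (nat_lit 0) (nat_lit 0) (nat_lit 0) (nat_lit 1) (nat_lit 0) (nat_lit 1) (nat_lit 0) (nat_lit 452) (nat_lit 373) (nat_lit 255)) (XT.nd (nat_lit 94) (nat_lit 0) (nat_lit 0) (XT.lf (nat_lit 0) (nat_lit 1381110594963) (nat_lit 0) (nat_lit 0) (nat_lit 0) (nat_lit 0) (nat_lit 0) (nat_lit 0) (nat_lit 1) (nat_lit 0) (nat_lit 1) (nat_lit 0) (nat_lit 453) (nat_lit 373) (nat_lit 254)) (XT.lf (nat_lit 0) (nat_lit 1491365781268) (nat_lit 0) (nat_lit 0) (nat_lit 0) (nat_lit 0) (nat_lit 0) (nat_lit 0) (nat_lit 1) (nat_lit 0) (nat_lit 1) (nat_lit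 0) (nat_lit 454) (nat_lit 373) (nat_lit 253)))) (XT.nd (nat_lit 188) (nat_lit 0) (nat_lit 0) (XT.nd (nat_lit 94) (nat_lit 0) (nat_lit 0) (XT.lf (nat_lit 0) (nat_lit 1610441385988) (nat_lit 0) (nat_lit 0) (nat_lit 0) (nat_lit 0) (nat_lit 0) (nat_lit 0) (nat_lit 1) (nat_lit 0) (nat_lit 1) (nat_lit 0) (nat_lit 455) (nat_lit 373) (nat_lit 252)) (XT.lf (nat_lit 0) (nat_lit 1739043042336) (nat_lit 0) (nat_lit 0) (nat_lit 0) (nat_lit 0) (nat_lit 0) (nat_lit 0) (nat_lit 1) (nat_lit 0) (nat_lit 1) (nat_lit 0) (nat_lit 456) (nat_lit 373) (nat_lit 251))) (XT.nd (nat_lit 94) (nat_lit 0) (nat_lit 0) (XT.lf (nat_lit 0) (nat_lit 1877932834202) (nat_lit 0) (nat_lit 0) (nat_lit 0) (nat_lit 0) (nat_lit 0) (nat_lit 0) (nat_lit 1) (nat_lit 0) (nat_lit 1) (nat_lit 0) (nat_lit 457) (nat_lit 373) (nat_lit 250)) (XT.lf (nat_lit 0) (nat_lit 2027933812204) (nat_lit 0) (nat_lit 0) (nat_lit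 0) (nat_lit 0) (nat_lit 0) (nat_lit 0) (nat_lit 1) (nat_lit 0) (nat_lit 1) (nat_lit 0) (nat_lit 458) (nat_lit 373) (nat_lit 249))))) (XT.nd (nat_lit 282) (nat_lit 0) (nat_lit 0) (XT.nd (nat_lit 94) (nat_lit 0) (nat_lit 0) (XT.lf (nat_lit 0) (nat_lit 2189934871027) (nat_lit 0) (nat_lit 0) (nat_lit 0) (nat_lit 0) (nat_lit 0) (nat_lit 0) (nat_lit 1) (nat_lit 0) (nat_lit 1) (nat_lit 0) (nat_lit 459) (nat_lit 373) (nat_lit 248)) (XT.nd (nat_lit 94) (nat_lit 0) (nat_lit 0) (XT.lf (nat_lit 0) (nat_lit 2364896016944) (nat_lit 0) (nat_lit 0) (nat_lit 0) (nat_lit 0) (nat_lit 0) (nat_lit 0) (nat_lit 1) (nat_lit 0) (nat_lit 1) (nat_lit 0) (nat_lit 460) (nat_lit 373) (nat_lit 247)) (XT.lf (nat_lit 0) (nat_lit 2553854056748) (nat_lit 0) (nat_lit 0) (nat_lit 0) (nat_lit 0) (nat_lit 0) (nat_lit 0) (nat_lit 1) (nat_lit 0) (nat_lit 1) (nat_lit 0) (nat_lit 461) (nat_lit 373)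 (nat_lit 246)))) (XT.nd (nat_lit 188) (nat_lit 0) (nat_lit 0) (XT.nd (nat_lit 94) (nat_lit 0) (nat_lit 0) (XT.lf (nat_lit 0) (nat_lit 2757928741783) (nat_lit 0) (nat_lit 0) (nat_lit 0) (nat_lit 0) (nat_lit 0) (nat_lit 0) (nat_lit 1) (nat_lit 0) (nat_lit 1) (nat_lit 0) (nat_lit 462) (nat_lit 373) (nat_lit 245)) (XT.lf (nat_lit 0) (nat_lit 2978329403519) (nat_lit 0) (nat_lit 0) (nat_lit 0) (nat_lit 0) (nat_lit 0) (nat_lit 0) (nat_lit 1) (nat_lit 0) (nat_lit 1) (nat_lit 0) (nat_lit 463) (nat_lit 373) (nat_lit 244))) (XT.nd (nat_lit 94) (nat_lit 0) (nat_lit 0) (XT.lf (nat_lit 0) (nat_lit 3216362119949) (nat_lit 0) (nat_lit 0) (nat_lit 0) (nat_lit 0) (nat_lit 0) (nat_lit 0) (nat_lit 1) (nat_lit 0) (nat_lit 1) (nat_lit 0) (nat_lit 464) (nat_lit 373) (nat_lit 243)) (XT.lf (nat_lit 0) (nat_lit 3473437455320) (nat_lit 0) (nat_lit 0) (nat_lit 0) (nat_lit 0) (nat_lit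 0) (nat_lit 0) (nat_lit 1) (nat_lit 0) (nat_lit 1) (nat_lit 0) (nat_lit 465) (nat_lit 373) (nat_lit 242)))))) (XT.nd (nat_lit 658) (nat_lit 0) (nat_lit 0) (XT.nd (nat_lit 282) (nat_lit 0) (nat_lit 0) (XT.nd (nat_lit 94) (nat_lit 0) (nat_lit 0) (XT.lf (nat_lit 0) (nat_lit 3751078819026) (nat_lit 0) (nat_lit 0) (nat_lit 0) (nat_lit 0) (nat_lit 0) (nat_lit 0) (nat_lit 1) (nat_lit 0) (nat_lit 1) (nat_lit 0) (nat_lit 466) (nat_lit 373) (nat_lit 241)) (XT.nd (nat_lit 94) (nat_lit 0) (nat_lit 0) (XT.lf (nat_lit 0) (nat_lit 4050931493223) (nat_lit 0) (nat_lit 0) (nat_lit 0) (nat_lit 0) (nat_lit 0) (nat_lit 0) (nat_lit 1) (nat_lit 0) (nat_lit 1) (nat_lit 0) (nat_lit 467) (nat_lit 373) (nat_lit 240)) (XT.lf (nat_lit 0) (nat_lit 4374772382646) (nat_lit 0) (nat_lit 0) (nat_lit 0) (nat_lit 0) (nat_lit 0) (nat_lit 0) (nat_lit 1) (nat_lit 0) (nat_lit 1) (nat_lit 0) (nat_lit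 468) (nat_lit 373) (nat_lit 239)))) (XT.nd (nat_lit 188) (nat_lit 0) (nat_lit 0) (XT.nd (nat_lit 94) (nat_lit 0) (nat_lit 0) (XT.lf (nat_lit 0) (nat_lit 4724520544418) (nat_lit 0) (nat_lit 0) (nat_lit 0) (nat_lit 0) (nat_lit 0) (nat_lit 0) (nat_lit 1) (nat_lit 0) (nat_lit 1) (nat_lit 0) (nat_lit 469) (nat_lit 373) (nat_lit 238)) (XT.lf (nat_lit 0) (nat_lit 5102248560239) (nat_lit 0) (nat_lit 0) (nat_lit 0) (nat_lit 0) (nat_lit 0) (nat_lit 0) (nat_lit 1) (nat_lit 0) (nat_lit 1) (nat_lit 0) (nat_lit 470) (nat_lit 373) (nat_lit 237))) (XT.nd (nat_lit 94) (nat_lit 0) (nat_lit 0) (XT.lf (nat_lit 0) (nat_lit 5510194818350) (nat_lit 0) (nat_lit 0) (nat_lit 0) (nat_lit 0) (nat_lit 0) (nat_lit 0) (nat_lit 1) (nat_lit 0) (nat_lit 1) (nat_lit 0) (nat_lit 471) (nat_lit 373) (nat_lit 236)) (XT.lf (nat_lit 0) (nat_lit 5950776778059) (nat_lit 0) (nat_lit 0) (nat_lit 0) (nat_lit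 0) (nat_lit 0) (nat_lit 0) (nat_lit 1) (nat_lit 0) (nat_lit 1) (nat_lit 0) (nat_lit 472) (nat_lit 373) (nat_lit 235))))) (XT.nd (nat_lit 282) (nat_lit 0) (nat_lit 0) (XT.nd (nat_lit 94) (nat_lit 0) (nat_lit 0) (XT.lf (nat_lit 0) (nat_lit 6426605295423) (nat_lit 0) (nat_lit 0) (nat_lit 0) (nat_lit 0) (nat_lit 0) (nat_lit 0) (nat_lit 1) (nat_lit 0) (nat_lit 1) (nat_lit 0) (nat_lit 473) (nat_lit 373) (nat_lit 234)) (XT.nd (nat_lit 94) (nat_lit 0) (nat_lit 0) (XT.lf (nat_lit 0) (nat_lit 6940500094990) (nat_lit 0) (nat_lit 0) (nat_lit 0) (nat_lit 0) (nat_lit 0) (nat_lit 0) (nat_lit 1) (nat_lit 0) (nat_lit 1) (nat_lit 0) (nat_lit 474) (nat_lit 373) (nat_lit 233)) (XT.lf (nat_lit 0) (nat_lit 7495506479275) (nat_lit 0) (nat_lit 0) (nat_lit 0) (nat_lit 0) (nat_lit 0) (nat_lit 0) (nat_lit 1) (nat_lit 0) (nat_lit 1) (nat_lit 0) (nat_lit 475) (nat_lit 373) (nat_lit 232))))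 (XT.nd (nat_lit 188) (nat_lit 0) (nat_lit 0) (XT.nd (nat_lit 94) (nat_lit 0) (nat_lit 0) (XT.lf (nat_lit 0) (nat_lit 8094913375001) (nat_lit 0) (nat_lit 0) (nat_lit 0) (nat_lit 0) (nat_lit 0) (nat_lit 0) (nat_lit 1) (nat_lit 0) (nat_lit 1) (nat_lit 0) (nat_lit 476) (nat_lit 373) (nat_lit 231)) (XT.lf (nat_lit 0) (nat_lit 8742272823030) (nat_lit 0) (nat_lit 0) (nat_lit 0) (nat_lit 0) (nat_lit 0) (nat_lit 0) (nat_lit 1) (nat_lit 0) (nat_lit 1) (nat_lit 0) (nat_lit 477) (nat_lit 373) (nat_lit 230))) (XT.nd (nat_lit 94) (nat_lit 0) (nat_lit 0) (XT.lf (nat_lit 0) (nat_lit 9441421027499) (nat_lit 0) (nat_lit 0) (nat_lit 0) (nat_lit 0) (nat_lit 0) (nat_lit 0) (nat_lit 1) (nat_lit 0) (nat_lit 1) (nat_lit 0) (nat_lit 478) (nat_lit 373) (nat_lit 229)) (XT.lf (nat_lit 0) (nat_lit 10196501088880) (nat_lit 0) (nat_lit 0) (nat_lit 0) (nat_lit 0) (nat_lit 0) (nat_lit 0)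 (nat_lit 1) (nat_lit 0) (nat_lit 1) (nat_lit 0) (nat_lit 479) (nat_lit 373) (nat_lit 228))))))) (XT.nd (nat_lit 1316) (nat_lit 0) (nat_lit 0) (XT.nd (nat_lit 658) (nat_lit 0) (nat_lit 0) (XT.nd (nat_lit 282) (nat_lit 0) (nat_lit 0) (XT.nd (nat_lit 94) (nat_lit 0) (nat_lit 0) (XT.lf (nat_lit 0) (nat_lit 11011987555683) (nat_lit 0) (nat_lit 0) (nat_lit 0) (nat_lit 0) (nat_lit 0) (nat_lit 0) (nat_lit 1) (nat_lit 0) (nat_lit 1) (nat_lit 0) (nat_lit 480) (nat_lit 373) (nat_lit 227)) (XT.nd (nat_lit 94) (nat_lit 0) (nat_lit 0) (XT.lf (nat_lit 0) (nat_lit 11892712940306) (nat_lit 0) (nat_lit 0) (nat_lit 0) (nat_lit 0) (nat_lit 0) (nat_lit 0) (nat_lit 1) (nat_lit 0) (nat_lit 1) (nat_lit 0) (nat_lit 481) (nat_lit 373) (nat_lit 226)) (XT.lf (nat_lit 0) (nat_lit 12843896356138) (nat_lit 0) (nat_lit 0) (nat_lit 0) (nat_lit 0) (nat_lit 0) (nat_lit 0) (nat_lit 1) (nat_lit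 0) (nat_lit 1) (nat_lit 0) (nat_lit 482) (nat_lit 373) (nat_lit 225)))) (XT.nd (nat_lit 188) (nat_lit 0) (nat_lit 0) (XT.nd (nat_lit 94) (nat_lit 0) (nat_lit 0) (XT.lf (nat_lit 0) (nat_lit 13871174445643) (nat_lit 0) (nat_lit 0) (nat_lit 0) (nat_lit 0) (nat_lit 0) (nat_lit 0) (nat_lit 1) (nat_lit 0) (nat_lit 1) (nat_lit 0) (nat_lit 483) (nat_lit 373) (nat_lit 224)) (XT.lf (nat_lit 0) (nat_lit 14980634782685) (nat_lit 0) (nat_lit 0) (nat_lit 0) (nat_lit 0) (nat_lit 0) (nat_lit 0) (nat_lit 1) (nat_lit 0) (nat_lit 1) (nat_lit 0) (nat_lit 484) (nat_lit 373) (nat_lit 223))) (XT.nd (nat_lit 94) (nat_lit 0) (nat_lit 0) (XT.lf (nat_lit 0) (nat_lit 16178851947040) (nat_lit 0) (nat_lit 0) (nat_lit 0) (nat_lit 0) (nat_lit 0) (nat_lit 0) (nat_lit 1) (nat_lit 0) (nat_lit 1) (nat_lit 0) (nat_lit 485) (nat_lit 373) (nat_lit 222)) (XT.lf (nat_lit 0) (nat_lit 17472926484866)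 (nat_lit 0) (nat_lit 0) (nat_lit 0) (nat_lit 0) (nat_lit 0) (nat_lit 0) (nat_lit 1) (nat_lit 0) (nat_lit 1) (nat_lit 0) (nat_lit 486) (nat_lit 373) (nat_lit 221))))) (XT.nd (nat_lit 282) (nat_lit 0) (nat_lit 0) (XT.nd (nat_lit 94) (nat_lit 0) (nat_lit 0) (XT.lf (nat_lit 0) (nat_lit 18870526986018) (nat_lit 0) (nat_lit 0) (nat_lit 0) (nat_lit 0) (nat_lit 0) (nat_lit 0) (nat_lit 1) (nat_lit 0) (nat_lit 1) (nat_lit 0) (nat_lit 487) (nat_lit 373) (nat_lit 220)) (XT.nd (nat_lit 94) (nat_lit 0) (nat_lit 0) (XT.lf (nat_lit 0) (nat_lit 20379935527538) (nat_lit 0) (nat_lit 0) (nat_lit 0) (nat_lit 0) (nat_lit 0) (nat_lit 0) (nat_lit 1) (nat_lit 0) (nat_lit 1) (nat_lit 0) (nat_lit 488) (nat_lit 373) (nat_lit 219)) (XT.lf (nat_lit 0) (nat_lit 22010096752637) (nat_lit 0) (nat_lit 0) (nat_lit 0) (nat_lit 0) (nat_lit 0) (nat_lit 0) (nat_lit 1) (nat_lit 0) (nat_lit 1) (nat_lit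 0) (nat_lit 489) (nat_lit 373) (nat_lit 218)))) (XT.nd (nat_lit 188) (nat_lit 0) (nat_lit 0) (XT.nd (nat_lit 94) (nat_lit 0) (nat_lit 0) (XT.lf (nat_lit 0) (nat_lit 23770670875980) (nat_lit 0) (nat_lit 0) (nat_lit 0) (nat_lit 0) (nat_lit 0) (nat_lit 0) (nat_lit 1) (nat_lit 0) (nat_lit 1) (nat_lit 0) (nat_lit 490) (nat_lit 373) (nat_lit 217)) (XT.lf (nat_lit 0) (nat_lit 25672090929412) (nat_lit 0) (nat_lit 0) (nat_lit 0) (nat_lit 0) (nat_lit 0) (nat_lit 0) (nat_lit 1) (nat_lit 0) (nat_lit 1) (nat_lit 0) (nat_lit 491) (nat_lit 373) (nat_lit 216))) (XT.nd (nat_lit 94) (nat_lit 0) (nat_lit 0) (XT.lf (nat_lit 0) (nat_lit 27725624587321) (nat_lit 0) (nat_lit 0) (nat_lit 0) (nat_lit 0) (nat_lit 0) (nat_lit 0) (nat_lit 1) (nat_lit 0) (nat_lit 1) (nat_lit 0) (nat_lit 492) (nat_lit 373) (nat_lit 215)) (XT.lf (nat_lit 0) (nat_lit 29943440938051) (nat_lit 0) (nat_lit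 0) (nat_lit 0) (nat_lit 0) (nat_lit 0) (nat_lit 0) (nat_lit 1) (nat_lit 0) (nat_lit 1) (nat_lit 0) (nat_lit 493) (nat_lit 373) (nat_lit 214)))))) (XT.nd (nat_lit 658) (nat_lit 0) (nat_lit 0) (XT.nd (nat_lit 282) (nat_lit 0) (nat_lit 0) (XT.nd (nat_lit 94) (nat_lit 0) (nat_lit 0) (XT.lf (nat_lit 0) (nat_lit 32338682597015) (nat_lit 0) (nat_lit 0) (nat_lit 0) (nat_lit 0) (nat_lit 0) (nat_lit 0) (nat_lit 1) (nat_lit 0) (nat_lit 1) (nat_lit 0) (nat_lit 494) (nat_lit 373) (nat_lit 213)) (XT.nd (nat_lit 94) (nat_lit 0) (nat_lit 0) (XT.lf (nat_lit 0) (nat_lit 34925543588857) (nat_lit 0) (nat_lit 0) (nat_lit 0) (nat_lit 0) (nat_lit 0) (nat_lit 0) (nat_lit 1) (nat_lit 0) (nat_lit 1) (nat_lit 0) (nat_lit 495) (nat_lit 373) (nat_lit 212)) (XT.lf (nat_lit 0) (nat_lit 37719353460196) (nat_lit 0) (nat_lit 0) (nat_lit 0) (nat_lit 0) (nat_lit 0) (nat_lit 0) (nat_lit 1) (nat_lit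 0) (nat_lit 1) (nat_lit 0) (nat_lit 496) (nat_lit 373) (nat_lit 211)))) (XT.nd (nat_lit 188) (nat_lit 0) (nat_lit 0) (XT.nd (nat_lit 94) (nat_lit 0) (nat_lit 0) (XT.lf (nat_lit 0) (nat_lit 40736668121380) (nat_lit 0) (nat_lit 0) (nat_lit 0) (nat_lit 0) (nat_lit 0) (nat_lit 0) (nat_lit 1) (nat_lit 0) (nat_lit 1) (nat_lit 0) (nat_lit 497) (nat_lit 373) (nat_lit 210)) (XT.lf (nat_lit 0) (nat_lit 43995367955588) (nat_lit 0) (nat_lit 0) (nat_lit 0) (nat_lit 0) (nat_lit 0) (nat_lit 0) (nat_lit 1) (nat_lit 0) (nat_lit 1) (nat_lit 0) (nat_lit 498) (nat_lit 373) (nat_lit 209))) (XT.nd (nat_lit 94) (nat_lit 0) (nat_lit 0) (XT.lf (nat_lit 0) (nat_lit 47514763776651) (nat_lit 0) (nat_lit 0) (nat_lit 0) (nat_lit 0) (nat_lit 0) (nat_lit 0) (nat_lit 1) (nat_lit 0) (nat_lit 1) (nat_lit 0) (nat_lit 499) (nat_lit 373) (nat_lit 208)) (XT.lf (nat_lit 0) (nat_lit 51315711263510)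 (nat_lit 0) (nat_lit 0) (nat_lit 0) (nat_lit 0) (nat_lit 0) (nat_lit 0) (nat_lit 1) (nat_lit 0) (nat_lit 1) (nat_lit 0) (nat_lit 500) (nat_lit 373) (nat_lit 207))))) (XT.nd (nat_lit 55836) (nat_lit 0) (nat_lit 10836) (XT.nd (nat_lit 188) (nat_lit 0) (nat_lit 0) (XT.nd (nat_lit 94) (nat_lit 0) (nat_lit 0) (XT.lf (nat_lit 0) (nat_lit 55420734549418) (nat_lit 0) (nat_lit 0) (nat_lit 0) (nat_lit 0) (nat_lit 0) (nat_lit 0) (nat_lit 1) (nat_lit 0) (nat_lit 1) (nat_lit 0) (nat_lit 501) (nat_lit 373) (nat_lit 206)) (XT.lf (nat_lit 0) (nat_lit 59854159698294) (nat_lit 0) (nat_lit 0) (nat_lit 0) (nat_lit 0) (nat_lit 0) (nat_lit 0) (nat_lit 1) (nat_lit 0) (nat_lit 1) (nat_lit 0) (nat_lit 502) (nat_lit 373) (nat_lit 205))) (XT.nd (nat_lit 94) (nat_lit 0) (nat_lit 0) (XT.lf (nat_lit 0) (nat_lit 64642258859167) (nat_lit 0) (nat_lit 0) (nat_lit 0) (nat_lit 0) (nat_lit 0)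 (nat_lit 0) (nat_lit 1) (nat_lit 0) (nat_lit 1) (nat_lit 0) (nat_lit 503) (nat_lit 373) (nat_lit 204)) (XT.lf (nat_lit 0) (nat_lit 69813405952990) (nat_lit 0) (nat_lit 0) (nat_lit 0) (nat_lit 0) (nat_lit 0) (nat_lit 0) (nat_lit 1) (nat_lit 0) (nat_lit 1) (nat_lit 0) (nat_lit 504) (nat_lit 373) (nat_lit 203)))) (XT.nd (nat_lit 188) (nat_lit 0) (nat_lit 0) (XT.nd (nat_lit 94) (nat_lit 840) (nat_lit 0) (XT.lf (nat_lit 0) (nat_lit 2890714550) (nat_lit 0) (nat_lit 2890714550) (nat_lit 756) (nat_lit 333322286) (nat_lit 139) (nat_lit 5) (nat_lit 139) (nat_lit 3) (nat_lit 148) (nat_lit 3) (nat_lit 374) (nat_lit 374) (nat_lit 332)) (XT.lf (nat_lit 0) (nat_lit 148043406) (nat_lit 840) (nat_lit 9283427149) (nat_lit 924) (nat_lit 3246795378) (nat_lit 129) (nat_lit 5) (nat_lit 139) (nat_lit 5) (nat_lit 140) (nat_lit 5) (nat_lit 375) (nat_lit 374) (nat_lit 331))) (XT.nd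 (nat_lit 94) (nat_lit 0) (nat_lit 84) (XT.lf (nat_lit 84) (nat_lit 975998308) (nat_lit 0) (nat_lit 184337877) (nat_lit 924) (nat_lit 11994258246) (nat_lit 130) (nat_lit 5) (nat_lit 129) (nat_lit 5) (nat_lit 140) (nat_lit 5) (nat_lit 376) (nat_lit 374) (nat_lit 330)) (XT.lf (nat_lit 0) (nat_lit 2504661342) (nat_lit 840) (nat_lit 1473636228) (nat_lit 924) (nat_lit 9678179191) (nat_lit 130) (nat_lit 5) (nat_lit 140) (nat_lit 5) (nat_lit 141) (nat_lit 5) (nat_lit 377) (nat_lit 374) (nat_lit 329))))))))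
noncomputable def xc120 : XT := (XT.nd (nat_lit 2632) (nat_lit 3696) (nat_lit 0) (XT.nd (nat_lit 1316) (nat_lit 3108) (nat_lit 0) (XT.nd (nat_lit 658) (nat_lit 2520) (nat_lit 0) (XT.nd (nat_lit 282) (nat_lit 1680) (nat_lit 0) (XT.nd (nat_lit 94) (nat_lit 0) (nat_lit 84) (XT.lf (nat_lit 0) (nat_lit 4158781990) (nat_lit 840) (nat_lit 3916609137) (nat_lit 924) (nat_lit 6113006076) (nat_lit 131) (nat_lit 5) (nat_lit 141) (nat_lit 5) (nat_lit 142) (nat_lit 5) (nat_lit 378) (nat_lit 374) (nat_lit 328)) (XT.nd (nat_lit 94) (nat_lit 0) (nat_lit 0) (XT.lf (nat_lit 0) (nat_lit 6148247092) (nat_lit 840) (nat_lit 6383614808) (nat_lit 924) (nat_lit 2220858640) (nat_lit 132) (nat_lit 5) (nat_lit 142) (nat_lit 5) (nat_lit 143) (nat_lit 5) (nat_lit 379) (nat_lit 374) (nat_lit 327)) (XT.lf (nat_lit 84) (nat_lit 6443969712) (nat_lit 0) (nat_lit 2105587590) (nat_lit 924) (nat_lit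 6799998048) (nat_lit 133) (nat_lit 5) (nat_lit 132) (nat_lit 5) (nat_lit 143) (nat_lit 5) (nat_lit 380) (nat_lit 374) (nat_lit 326)))) (XT.nd (nat_lit 188) (nat_lit 504) (nat_lit 0) (XT.nd (nat_lit 94) (nat_lit 504) (nat_lit 0) (XT.lf (nat_lit 0) (nat_lit 4491659749) (nat_lit 840) (nat_lit 6927397138) (nat_lit 924) (nat_lit 4561275830) (nat_lit 123) (nat_lit 5) (nat_lit 133) (nat_lit 5) (nat_lit 134) (nat_lit 5) (nat_lit 381) (nat_lit 374) (nat_lit 325)) (XT.lf (nat_lit 0) (nat_lit 2556004631) (nat_lit 504) (nat_lit 12215976844) (nat_lit 588) (nat_lit 1876897546) (nat_lit 117) (nat_lit 5) (nat_lit 123) (nat_lit 5) (nat_lit 124) (nat_lit 5) (nat_lit 382) (nat_lit 374) (nat_lit 324))) (XT.nd (nat_lit 94) (nat_lit 0) (nat_lit 0) (XT.lf (nat_lit 0) (nat_lit 612672784) (nat_lit 420) (nat_lit 661811085) (nat_lit 504) (nat_lit 16081378633) (nat_lit 111) (nat_lit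 5) (nat_lit 116) (nat_lit 5) (nat_lit 117) (nat_lit 5) (nat_lit 383) (nat_lit 374) (nat_lit 323)) (XT.lf (nat_lit 0) (nat_lit 5004941174) (nat_lit 504) (nat_lit 1374043808) (nat_lit 84) (nat_lit 11719245103) (nat_lit 111) (nat_lit 5) (nat_lit 117) (nat_lit 5) (nat_lit 112) (nat_lit 5) (nat_lit 384) (nat_lit 374) (nat_lit 322))))) (XT.nd (nat_lit 282) (nat_lit 1428) (nat_lit 0) (XT.nd (nat_lit 94) (nat_lit 672) (nat_lit 0) (XT.lf (nat_lit 0) (nat_lit 9350950568) (nat_lit 504) (nat_lit 3315651832) (nat_lit 84) (nat_lit 6217528900) (nat_lit 106) (nat_lit 5) (nat_lit 112) (nat_lit 5) (nat_lit 107) (nat_lit 5) (nat_lit 385) (nat_lit 374) (nat_lit 321)) (XT.nd (nat_lit 94) (nat_lit 336) (nat_lit 0) (XT.lf (nat_lit 0) (nat_lit 14368151228) (nat_lit 420) (nat_lit 5220401707) (nat_lit 84) (nat_lit 128176151) (nat_lit 102) (nat_lit 5) (nat_lit 107) (nat_lit 5) (nat_lit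 103) (nat_lit 5) (nat_lit 386) (nat_lit 374) (nat_lit 320)) (XT.lf (nat_lit 0) (nat_lit 13412146518) (nat_lit 336) (nat_lit 6821493367) (nat_lit 420) (nat_lit 359949213) (nat_lit 98) (nat_lit 5) (nat_lit 102) (nat_lit 5) (nat_lit 103) (nat_lit 5) (nat_lit 387) (nat_lit 374) (nat_lit 319)))) (XT.nd (nat_lit 188) (nat_lit 672) (nat_lit 0) (XT.nd (nat_lit 94) (nat_lit 336) (nat_lit 0) (XT.lf (nat_lit 0) (nat_lit 5235176940) (nat_lit 420) (nat_lit 9174563981) (nat_lit 84) (nat_lit 7108515748) (nat_lit 93) (nat_lit 5) (nat_lit 98) (nat_lit 5) (nat_lit 94) (nat_lit 5) (nat_lit 388) (nat_lit 374) (nat_lit 318)) (XT.lf (nat_lit 0) (nat_lit 11377421519) (nat_lit 336) (nat_lit 276251935) (nat_lit 420) (nat_lit 10843510594) (nat_lit 89) (nat_lit 5) (nat_lit 93) (nat_lit 5) (nat_lit 94) (nat_lit 5) (nat_lit 389) (nat_lit 374) (nat_lit 317))) (XT.nd (nat_lit 94) (nat_lit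 420) (nat_lit 0) (XT.lf (nat_lit 0) (nat_lit 10411525018) (nat_lit 252) (nat_lit 8703120919) (nat_lit 336) (nat_lit 4413329869) (nat_lit 86) (nat_lit 5) (nat_lit 89) (nat_lit 5) (nat_lit 90) (nat_lit 5) (nat_lit 390) (nat_lit 374) (nat_lit 316)) (XT.lf (nat_lit 0) (nat_lit 2881077219) (nat_lit 420) (nat_lit 15077086999) (nat_lit 84) (nat_lit 6659549270) (nat_lit 81) (nat_lit 5) (nat_lit 86) (nat_lit 5) (nat_lit 82) (nat_lit 5) (nat_lit 391) (nat_lit 374) (nat_lit 315)))))) (XT.nd (nat_lit 658) (nat_lit 1344) (nat_lit 0) (XT.nd (nat_lit 282) (nat_lit 924) (nat_lit 0) (XT.nd (nat_lit 94) (nat_lit 588) (nat_lit 0) (XT.lf (nat_lit 0) (nat_lit 8710765523) (nat_lit 252) (nat_lit 2383254401) (nat_lit 336) (nat_lit 14672512545) (nat_lit 78) (nat_lit 5) (nat_lit 81) (nat_lit 5) (nat_lit 82) (nat_lit 5) (nat_lit 392) (nat_lit 374) (nat_lit 314)) (XT.nd (nat_lit 94)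 (nat_lit 336) (nat_lit 0) (XT.lf (nat_lit 0) (nat_lit 7932055471) (nat_lit 252) (nat_lit 12621982879) (nat_lit 336) (nat_lit 6423716603) (nat_lit 75) (nat_lit 5) (nat_lit 78) (nat_lit 5) (nat_lit 79) (nat_lit 5) (nat_lit 393) (nat_lit 374) (nat_lit 313)) (XT.lf (nat_lit 0) (nat_lit 2908304365) (nat_lit 336) (nat_lit 20961297325) (nat_lit 84) (nat_lit 4389190852) (nat_lit 71) (nat_lit 5) (nat_lit 75) (nat_lit 5) (nat_lit 72) (nat_lit 5) (nat_lit 394) (nat_lit 374) (nat_lit 312)))) (XT.nd (nat_lit 188) (nat_lit 504) (nat_lit 0) (XT.nd (nat_lit 94) (nat_lit 168) (nat_lit 0) (XT.lf (nat_lit 0) (nat_lit 6652270474) (nat_lit 252) (nat_lit 6742400937) (nat_lit 336) (nat_lit 16210734379) (nat_lit 68) (nat_lit 5) (nat_lit 71) (nat_lit 5) (nat_lit 72) (nat_lit 5) (nat_lit 395) (nat_lit 374) (nat_lit 311)) (XT.lf (nat_lit 0) (nat_lit 6153430987) (nat_lit 168) (nat_lit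 19194219486) (nat_lit 252) (nat_lit 5680712491) (nat_lit 66) (nat_lit 5) (nat_lit 68) (nat_lit 5) (nat_lit 69) (nat_lit 5) (nat_lit 396) (nat_lit 374) (nat_lit 310))) (XT.nd (nat_lit 94) (nat_lit 168) (nat_lit 0) (XT.lf (nat_lit 0) (nat_lit 5804552665) (nat_lit 252) (nat_lit 293479994) (nat_lit 336) (nat_lit 26433256285) (nat_lit 62) (nat_lit 5) (nat_lit 65) (nat_lit 5) (nat_lit 66) (nat_lit 5) (nat_lit 397) (nat_lit 374) (nat_lit 309)) (XT.lf (nat_lit 0) (nat_lit 5415756081) (nat_lit 168) (nat_lit 14024759092) (nat_lit 252) (nat_lit 14668254396) (nat_lit 60) (nat_lit 5) (nat_lit 62) (nat_lit 5) (nat_lit 63) (nat_lit 5) (nat_lit 398) (nat_lit 374) (nat_lit 308))))) (XT.nd (nat_lit 282) (nat_lit 756) (nat_lit 0) (XT.nd (nat_lit 94) (nat_lit 420) (nat_lit 0) (XT.lf (nat_lit 0) (nat_lit 5321029813) (nat_lit 168) (nat_lit 29167968572) (nat_lit 252) (nat_lit 1291520154)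 (nat_lit 58) (nat_lit 5) (nat_lit 60) (nat_lit 5) (nat_lit 61) (nat_lit 5) (nat_lit 399) (nat_lit 374) (nat_lit 307)) (XT.nd (nat_lit 94) (nat_lit 168) (nat_lit 0) (XT.lf (nat_lit 0) (nat_lit 5203308345) (nat_lit 168) (nat_lit 8336991197) (nat_lit 252) (nat_lit 23995138279) (nat_lit 55) (nat_lit 5) (nat_lit 57) (nat_lit 5) (nat_lit 58) (nat_lit 5) (nat_lit 400) (nat_lit 374) (nat_lit 306)) (XT.lf (nat_lit 0) (nat_lit 5288030536) (nat_lit 168) (nat_lit 25049960132) (nat_lit 252) (nat_lit 9050472634) (nat_lit 53) (nat_lit 5) (nat_lit 55) (nat_lit 5) (nat_lit 56) (nat_lit 5) (nat_lit 401) (nat_lit 374) (nat_lit 305)))) (XT.nd (nat_lit 188) (nat_lit 336) (nat_lit 0) (XT.nd (nat_lit 94) (nat_lit 168) (nat_lit 0) (XT.lf (nat_lit 0) (nat_lit 5598003233) (nat_lit 168) (nat_lit 2046929402) (nat_lit 252) (nat_lit 33700159472) (nat_lit 50) (nat_lit 5) (nat_lit 52) (nat_lit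 5) (nat_lit 53) (nat_lit 5) (nat_lit 402) (nat_lit 374) (nat_lit 304)) (XT.lf (nat_lit 0) (nat_lit 5901321148) (nat_lit 168) (nat_lit 20495958512) (nat_lit 252) (nat_lit 17001633445) (nat_lit 48) (nat_lit 5) (nat_lit 50) (nat_lit 5) (nat_lit 51) (nat_lit 5) (nat_lit 403) (nat_lit 374) (nat_lit 303))) (XT.nd (nat_lit 94) (nat_lit 168) (nat_lit 0) (XT.lf (nat_lit 0) (nat_lit 1831745910) (nat_lit 168) (nat_lit 38959965354) (nat_lit 84) (nat_lit 4782920971) (nat_lit 46) (nat_lit 5) (nat_lit 48) (nat_lit 5) (nat_lit 47) (nat_lit 5) (nat_lit 404) (nat_lit 374) (nat_lit 302)) (XT.lf (nat_lit 0) (nat_lit 7263352553) (nat_lit 168) (nat_lit 15427196559) (nat_lit 252) (nat_lit 25164203621) (nat_lit 44) (nat_lit 5) (nat_lit 46) (nat_lit 5) (nat_lit 47) (nat_lit 5) (nat_lit 405) (nat_lit 374) (nat_lit 301))))))) (XT.nd (nat_lit 1316) (nat_lit 1596) (nat_lit 0) (XT.nd (nat_lit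 658) (nat_lit 1008) (nat_lit 0) (XT.nd (nat_lit 282) (nat_lit 672) (nat_lit 0) (XT.nd (nat_lit 94) (nat_lit 336) (nat_lit 0) (XT.lf (nat_lit 0) (nat_lit 8332537196) (nat_lit 84) (nat_lit 37876366423) (nat_lit 168) (nat_lit 4058836900) (nat_lit 43) (nat_lit 5) (nat_lit 44) (nat_lit 5) (nat_lit 45) (nat_lit 4) (nat_lit 406) (nat_lit 374) (nat_lit 300)) (XT.nd (nat_lit 94) (nat_lit 84) (nat_lit 0) (XT.lf (nat_lit 0) (nat_lit 9493198726) (nat_lit 168) (nat_lit 9753777285) (nat_lit 252) (nat_lit 33556583428) (nat_lit 40) (nat_lit 5) (nat_lit 42) (nat_lit 5) (nat_lit 43) (nat_lit 5) (nat_lit 407) (nat_lit 374) (nat_lit 299)) (XT.lf (nat_lit 0) (nat_lit 10948508564) (nat_lit 84) (nat_lit 34548927426) (nat_lit 168) (nat_lit 9980361771) (nat_lit 39) (nat_lit 5) (nat_lit 40) (nat_lit 5) (nat_lit 41) (nat_lit 4) (nat_lit 408) (nat_lit 374) (nat_lit 298)))) (XT.nd (nat_lit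 188) (nat_lit 336) (nat_lit 0) (XT.nd (nat_lit 94) (nat_lit 84) (nat_lit 0) (XT.lf (nat_lit 0) (nat_lit 12728761238) (nat_lit 168) (nat_lit 3373313695) (nat_lit 252) (nat_lit 42196032548) (nat_lit 36) (nat_lit 5) (nat_lit 38) (nat_lit 5) (nat_lit 39) (nat_lit 5) (nat_lit 409) (nat_lit 374) (nat_lit 297)) (XT.lf (nat_lit 0) (nat_lit 14641043784) (nat_lit 84) (nat_lit 30761178395) (nat_lit 168) (nat_lit 15859600231) (nat_lit 35) (nat_lit 5) (nat_lit 36) (nat_lit 5) (nat_lit 37) (nat_lit 4) (nat_lit 410) (nat_lit 374) (nat_lit 296))) (XT.nd (nat_lit 94) (nat_lit 84) (nat_lit 0) (XT.lf (nat_lit 0) (nat_lit 13358455890) (nat_lit 252) (nat_lit 47327456809) (nat_lit 84) (nat_lit 3708025072) (nat_lit 32) (nat_lit 5) (nat_lit 35) (nat_lit 5) (nat_lit 33) (nat_lit 4) (nat_lit 411) (nat_lit 374) (nat_lit 295)) (XT.lf (nat_lit 0) (nat_lit 19580218953) (nat_lit 84) (nat_lit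 26422319435) (nat_lit 168) (nat_lit 21678873050) (nat_lit 31) (nat_lit 5) (nat_lit 32) (nat_lit 5) (nat_lit 33) (nat_lit 4) (nat_lit 412) (nat_lit 374) (nat_lit 294))))) (XT.nd (nat_lit 282) (nat_lit 504) (nat_lit 0) (XT.nd (nat_lit 94) (nat_lit 252) (nat_lit 0) (XT.lf (nat_lit 0) (nat_lit 11075066228) (nat_lit 252) (nat_lit 48473959807) (nat_lit 84) (nat_lit 11606544817) (nat_lit 28) (nat_lit 5) (nat_lit 31) (nat_lit 5) (nat_lit 29) (nat_lit 4) (nat_lit 413) (nat_lit 374) (nat_lit 293)) (XT.nd (nat_lit 94) (nat_lit 168) (nat_lit 0) (XT.lf (nat_lit 0) (nat_lit 25961771134) (nat_lit 84) (nat_lit 21428463501) (nat_lit 168) (nat_lit 27414637011) (nat_lit 27) (nat_lit 5) (nat_lit 28) (nat_lit 5) (nat_lit 29) (nat_lit 4) (nat_lit 414) (nat_lit 374) (nat_lit 292)) (XT.lf (nat_lit 0) (nat_lit 9262325114) (nat_lit 168) (nat_lit 48819668219) (nat_lit 84) (nat_lit 20575506916)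 (nat_lit 25) (nat_lit 5) (nat_lit 27) (nat_lit 5) (nat_lit 26) (nat_lit 4) (nat_lit 415) (nat_lit 374) (nat_lit 291)))) (XT.nd (nat_lit 188) (nat_lit 252) (nat_lit 0) (XT.nd (nat_lit 94) (nat_lit 168) (nat_lit 0) (XT.lf (nat_lit 0) (nat_lit 34010527524) (nat_lit 84) (nat_lit 15660899212) (nat_lit 168) (nat_lit 33036518497) (nat_lit 24) (nat_lit 5) (nat_lit 25) (nat_lit 5) (nat_lit 26) (nat_lit 4) (nat_lit 416) (nat_lit 374) (nat_lit 290)) (XT.lf (nat_lit 0) (nat_lit 7994584889) (nat_lit 168) (nat_lit 48205132415) (nat_lit 84) (nat_lit 30779685489) (nat_lit 22) (nat_lit 5) (nat_lit 24) (nat_lit 5) (nat_lit 23) (nat_lit 4) (nat_lit 417) (nat_lit 374) (nat_lit 289))) (XT.nd (nat_lit 94) (nat_lit 168) (nat_lit 0) (XT.lf (nat_lit 0) (nat_lit 43984286968) (nat_lit 84) (nat_lit 8984117040) (nat_lit 168) (nat_lit 38506210530) (nat_lit 21) (nat_lit 5) (nat_lit 22)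 (nat_lit 5) (nat_lit 23) (nat_lit 4) (nat_lit 418) (nat_lit 374) (nat_lit 288)) (XT.lf (nat_lit 0) (nat_lit 7359062115) (nat_lit 168) (nat_lit 46444721923) (nat_lit 84) (nat_lit 42405833957) (nat_lit 19) (nat_lit 5) (nat_lit 21) (nat_lit 5) (nat_lit 20) (nat_lit 4) (nat_lit 419) (nat_lit 374) (nat_lit 287)))))) (XT.nd (nat_lit 658) (nat_lit 756) (nat_lit 0) (XT.nd (nat_lit 282) (nat_lit 504) (nat_lit 0) (XT.nd (nat_lit 94) (nat_lit 252) (nat_lit 0) (XT.lf (nat_lit 0) (nat_lit 56178209524) (nat_lit 84) (nat_lit 1243571322) (nat_lit 168) (nat_lit 43776213698) (nat_lit 18) (nat_lit 5) (nat_lit 19) (nat_lit 5) (nat_lit 20) (nat_lit 4) (nat_lit 420) (nat_lit 374) (nat_lit 286)) (XT.nd (nat_lit 94) (nat_lit 84) (nat_lit 0) (XT.lf (nat_lit 0) (nat_lit 7457647744) (nat_lit 168) (nat_lit 43322931875) (nat_lit 84) (nat_lit 55665506632) (nat_lit 16) (nat_lit 5) (nat_lit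 18) (nat_lit 5) (nat_lit 17) (nat_lit 4) (nat_lit 421) (nat_lit 374) (nat_lit 285)) (XT.lf (nat_lit 0) (nat_lit 63313717513) (nat_lit 168) (nat_lit 41172339778) (nat_lit 0) (nat_lit 7489225628) (nat_lit 15) (nat_lit 5) (nat_lit 17) (nat_lit 4) (nat_lit 15) (nat_lit 4) (nat_lit 422) (nat_lit 374) (nat_lit 284)))) (XT.nd (nat_lit 188) (nat_lit 252) (nat_lit 0) (XT.nd (nat_lit 94) (nat_lit 84) (nat_lit 0) (XT.lf (nat_lit 0) (nat_lit 8408957613) (nat_lit 168) (nat_lit 38590191146) (nat_lit 84) (nat_lit 70798240467) (nat_lit 13) (nat_lit 5) (nat_lit 15) (nat_lit 5) (nat_lit 14) (nat_lit 4) (nat_lit 423) (nat_lit 374) (nat_lit 283)) (XT.lf (nat_lit 0) (nat_lit 70750180209) (nat_lit 168) (nat_lit 35598155002) (nat_lit 0) (nat_lit 17576546201) (nat_lit 12) (nat_lit 5) (nat_lit 14) (nat_lit 4) (nat_lit 12) (nat_lit 4) (nat_lit 424) (nat_lit 374) (nat_lit 282))) (XT.nd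 (nat_lit 94) (nat_lit 84) (nat_lit 0) (XT.lf (nat_lit 0) (nat_lit 10350654651) (nat_lit 168) (nat_lit 31958108951) (nat_lit 84) (nat_lit 88075139860) (nat_lit 10) (nat_lit 5) (nat_lit 12) (nat_lit 5) (nat_lit 11) (nat_lit 4) (nat_lit 425) (nat_lit 374) (nat_lit 281)) (XT.lf (nat_lit 0) (nat_lit 79926747774) (nat_lit 168) (nat_lit 27968621591) (nat_lit 0) (nat_lit 29279107524) (nat_lit 9) (nat_lit 5) (nat_lit 11) (nat_lit 4) (nat_lit 9) (nat_lit 4) (nat_lit 426) (nat_lit 374) (nat_lit 280))))) (XT.nd (nat_lit 282) (nat_lit 336) (nat_lit 0) (XT.nd (nat_lit 94) (nat_lit 252) (nat_lit 0) (XT.lf (nat_lit 0) (nat_lit 13442078048) (nat_lit 168) (nat_lit 23094088606) (nat_lit 84) (nat_lit 107802912879) (nat_lit 7) (nat_lit 5) (nat_lit 9) (nat_lit 5) (nat_lit 8) (nat_lit 4) (nat_lit 427) (nat_lit 374) (nat_lit 279)) (XT.nd (nat_lit 94) (nat_lit 168) (nat_lit 0) (XT.lf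 (nat_lit 0) (nat_lit 91088960046) (nat_lit 168) (nat_lit 17927442905) (nat_lit 0) (nat_lit 42848144480) (nat_lit 6) (nat_lit 5) (nat_lit 8) (nat_lit 4) (nat_lit 6) (nat_lit 4) (nat_lit 428) (nat_lit 374) (nat_lit 278)) (XT.lf (nat_lit 0) (nat_lit 17867218896) (nat_lit 168) (nat_lit 11615228236) (nat_lit 84) (nat_lit 130328413246) (nat_lit 4) (nat_lit 5) (nat_lit 6) (nat_lit 5) (nat_lit 5) (nat_lit 4) (nat_lit 429) (nat_lit 374) (nat_lit 277)))) (XT.nd (nat_lit 188) (nat_lit 0) (nat_lit 0) (XT.nd (nat_lit 94) (nat_lit 252) (nat_lit 0) (XT.lf (nat_lit 0) (nat_lit 104516889819) (nat_lit 168) (nat_lit 5064736707) (nat_lit 0) (nat_lit 58569199747) (nat_lit 3) (nat_lit 5) (nat_lit 5) (nat_lit 4) (nat_lit 3) (nat_lit 4) (nat_lit 430) (nat_lit 374) (nat_lit 276)) (XT.lf (nat_lit 0) (nat_lit 256660324319) (nat_lit 0) (nat_lit 0) (nat_lit 0) (nat_lit 0) (nat_lit 0)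 (nat_lit 0) (nat_lit 1) (nat_lit 0) (nat_lit 1) (nat_lit 0) (nat_lit 431) (nat_lit 374) (nat_lit 275))) (XT.nd (nat_lit 94) (nat_lit 0) (nat_lit 0) (XT.lf (nat_lit 0) (nat_lit 276940608687) (nat_lit 0) (nat_lit 0) (nat_lit 0) (nat_lit 0) (nat_lit 0) (nat_lit 0) (nat_lit 1) (nat_lit 0) (nat_lit 1) (nat_lit 0) (nat_lit 432) (nat_lit 374) (nat_lit 274)) (XT.lf (nat_lit 0) (nat_lit 298843333475) (nat_lit 0) (nat_lit 0) (nat_lit 0) (nat_lit 0) (nat_lit 0) (nat_lit 0) (nat_lit 1) (nat_lit 0) (nat_lit 1) (nat_lit 0) (nat_lit 433) (nat_lit 374) (nat_lit 273))))))))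
noncomputable def xc121 : XT := (XT.nd (nat_lit 2632) (nat_lit 0) (nat_lit 0) (XT.nd (nat_lit 1316) (nat_lit 0) (nat_lit 0) (XT.nd (nat_lit 658) (nat_lit 0) (nat_lit 0) (XT.nd (nat_lit 282) (nat_lit 0) (nat_lit 0) (XT.nd (nat_lit 94) (nat_lit 0) (nat_lit 0) (XT.lf (nat_lit 0) (nat_lit 322498292610) (nat_lit 0) (nat_lit 0) (nat_lit 0) (nat_lit 0) (nat_lit 0) (nat_lit 0) (nat_lit 1) (nat_lit 0) (nat_lit 1) (nat_lit 0) (nat_lit 434) (nat_lit 374) (nat_lit 272)) (XT.nd (nat_lit 94) (nat_lit 0) (nat_lit 0) (XT.lf (nat_lit 0) (nat_lit 348045663625) (nat_lit 0) (nat_lit 0) (nat_lit 0) (nat_lit 0) (nat_lit 0) (nat_lit 0) (nat_lit 1) (nat_lit 0) (nat_lit 1) (nat_lit 0) (nat_lit 435) (nat_lit 374) (nat_lit 271)) (XT.lf (nat_lit 0) (nat_lit 375636838350) (nat_lit 0) (nat_lit 0) (nat_lit 0) (nat_lit 0) (nat_lit 0) (nat_lit 0) (nat_lit 1) (nat_lit 0) (nat_lit 1) (nat_lit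 0) (nat_lit 436) (nat_lit 374) (nat_lit 270)))) (XT.nd (nat_lit 188) (nat_lit 0) (nat_lit 0) (XT.nd (nat_lit 94) (nat_lit 0) (nat_lit 0) (XT.lf (nat_lit 0) (nat_lit 405435320042) (nat_lit 0) (nat_lit 0) (nat_lit 0) (nat_lit 0) (nat_lit 0) (nat_lit 0) (nat_lit 1) (nat_lit 0) (nat_lit 1) (nat_lit 0) (nat_lit 437) (nat_lit 374) (nat_lit 269)) (XT.lf (nat_lit 0) (nat_lit 437617692297) (nat_lit 0) (nat_lit 0) (nat_lit 0) (nat_lit 0) (nat_lit 0) (nat_lit 0) (nat_lit 1) (nat_lit 0) (nat_lit 1) (nat_lit 0) (nat_lit 438) (nat_lit 374) (nat_lit 268))) (XT.nd (nat_lit 94) (nat_lit 0) (nat_lit 0) (XT.lf (nat_lit 0) (nat_lit 472374665468) (nat_lit 0) (nat_lit 0) (nat_lit 0) (nat_lit 0) (nat_lit 0) (nat_lit 0) (nat_lit 1) (nat_lit 0) (nat_lit 1) (nat_lit 0) (nat_lit 439) (nat_lit 374) (nat_lit 267)) (XT.lf (nat_lit 0) (nat_lit 509912206804) (nat_lit 0) (nat_lit 0) (nat_lit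 0) (nat_lit 0) (nat_lit 0) (nat_lit 0) (nat_lit 1) (nat_lit 0) (nat_lit 1) (nat_lit 0) (nat_lit 440) (nat_lit 374) (nat_lit 266))))) (XT.nd (nat_lit 282) (nat_lit 0) (nat_lit 0) (XT.nd (nat_lit 94) (nat_lit 0) (nat_lit 0) (XT.lf (nat_lit 0) (nat_lit 550452760995) (nat_lit 0) (nat_lit 0) (nat_lit 0) (nat_lit 0) (nat_lit 0) (nat_lit 0) (nat_lit 1) (nat_lit 0) (nat_lit 1) (nat_lit 0) (nat_lit 441) (nat_lit 374) (nat_lit 265)) (XT.nd (nat_lit 94) (nat_lit 0) (nat_lit 0) (XT.lf (nat_lit 0) (nat_lit 594236568360) (nat_lit 0) (nat_lit 0) (nat_lit 0) (nat_lit 0) (nat_lit 0) (nat_lit 0) (nat_lit 1) (nat_lit 0) (nat_lit 1) (nat_lit 0) (nat_lit 442) (nat_lit 374) (nat_lit 264)) (XT.lf (nat_lit 0) (nat_lit 641523088501) (nat_lit 0) (nat_lit 0) (nat_lit 0) (nat_lit 0) (nat_lit 0) (nat_lit 0) (nat_lit 1) (nat_lit 0) (nat_lit 1) (nat_lit 0) (nat_lit 443) (nat_lit 374) (nat_lit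 263)))) (XT.nd (nat_lit 188) (nat_lit 0) (nat_lit 0) (XT.nd (nat_lit 94) (nat_lit 0) (nat_lit 0) (XT.lf (nat_lit 0) (nat_lit 692592537832) (nat_lit 0) (nat_lit 0) (nat_lit 0) (nat_lit 0) (nat_lit 0) (nat_lit 0) (nat_lit 1) (nat_lit 0) (nat_lit 1) (nat_lit 0) (nat_lit 444) (nat_lit 374) (nat_lit 262)) (XT.lf (nat_lit 0) (nat_lit 747747550126) (nat_lit 0) (nat_lit 0) (nat_lit 0) (nat_lit 0) (nat_lit 0) (nat_lit 0) (nat_lit 1) (nat_lit 0) (nat_lit 1) (nat_lit 0) (nat_lit 445) (nat_lit 374) (nat_lit 261))) (XT.nd (nat_lit 94) (nat_lit 0) (nat_lit 0) (XT.lf (nat_lit 0) (nat_lit 807314969903) (nat_lit 0) (nat_lit 0) (nat_lit 0) (nat_lit 0) (nat_lit 0) (nat_lit 0) (nat_lit 1) (nat_lit 0) (nat_lit 1) (nat_lit 0) (nat_lit 446) (nat_lit 374) (nat_lit 260)) (XT.lf (nat_lit 0) (nat_lit 871647789278) (nat_lit 0) (nat_lit 0) (nat_lit 0) (nat_lit 0) (nat_lit 0) (nat_lit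 0) (nat_lit 1) (nat_lit 0) (nat_lit 1) (nat_lit 0) (nat_lit 447) (nat_lit 374) (nat_lit 259)))))) (XT.nd (nat_lit 658) (nat_lit 0) (nat_lit 0) (XT.nd (nat_lit 282) (nat_lit 0) (nat_lit 0) (XT.nd (nat_lit 94) (nat_lit 0) (nat_lit 0) (XT.lf (nat_lit 0) (nat_lit 941127239773) (nat_lit 0) (nat_lit 0) (nat_lit 0) (nat_lit 0) (nat_lit 0) (nat_lit 0) (nat_lit 1) (nat_lit 0) (nat_lit 1) (nat_lit 0) (nat_lit 448) (nat_lit 374) (nat_lit 258)) (XT.nd (nat_lit 94) (nat_lit 0) (nat_lit 0) (XT.lf (nat_lit 0) (nat_lit 1016165051467) (nat_lit 0) (nat_lit 0) (nat_lit 0) (nat_lit 0) (nat_lit 0) (nat_lit 0) (nat_lit 1) (nat_lit 0) (nat_lit 1) (nat_lit 0) (nat_lit 449) (nat_lit 374) (nat_lit 257)) (XT.lf (nat_lit 0) (nat_lit 1097205892872) (nat_lit 0) (nat_lit 0) (nat_lit 0) (nat_lit 0) (nat_lit 0) (nat_lit 0) (nat_lit 1) (nat_lit 0) (nat_lit 1) (nat_lit 0) (nat_lit 450) (nat_lit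 374) (nat_lit 256)))) (XT.nd (nat_lit 188) (nat_lit 0) (nat_lit 0) (XT.nd (nat_lit 94) (nat_lit 0) (nat_lit 0) (XT.lf (nat_lit 0) (nat_lit 1184730006012) (nat_lit 0) (nat_lit 0) (nat_lit 0) (nat_lit 0) (nat_lit 0) (nat_lit 0) (nat_lit 1) (nat_lit 0) (nat_lit 1) (nat_lit 0) (nat_lit 451) (nat_lit 374) (nat_lit 255)) (XT.lf (nat_lit 0) (nat_lit 1279256052297) (nat_lit 0) (nat_lit 0) (nat_lit 0) (nat_lit 0) (nat_lit 0) (nat_lit 0) (nat_lit 1) (nat_lit 0) (nat_lit 1) (nat_lit 0) (nat_lit 452) (nat_lit 374) (nat_lit 254))) (XT.nd (nat_lit 94) (nat_lit 0) (nat_lit 0) (XT.lf (nat_lit 0) (nat_lit 1381344186077) (nat_lit 0) (nat_lit 0) (nat_lit 0) (nat_lit 0) (nat_lit 0) (nat_lit 0) (nat_lit 1) (nat_lit 0) (nat_lit 1) (nat_lit 0) (nat_lit 453) (nat_lit 374) (nat_lit 253)) (XT.lf (nat_lit 0) (nat_lit 1491599374070) (nat_lit 0) (nat_lit 0) (nat_lit 0) (nat_lit 0) (nat_lit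 0) (nat_lit 0) (nat_lit 1) (nat_lit 0) (nat_lit 1) (nat_lit 0) (nat_lit 454) (nat_lit 374) (nat_lit 252))))) (XT.nd (nat_lit 282) (nat_lit 0) (nat_lit 0) (XT.nd (nat_lit 94) (nat_lit 0) (nat_lit 0) (XT.lf (nat_lit 0) (nat_lit 1610674980353) (nat_lit 0) (nat_lit 0) (nat_lit 0) (nat_lit 0) (nat_lit 0) (nat_lit 0) (nat_lit 1) (nat_lit 0) (nat_lit 1) (nat_lit 0) (nat_lit 455) (nat_lit 374) (nat_lit 251)) (XT.nd (nat_lit 94) (nat_lit 0) (nat_lit 0) (XT.lf (nat_lit 0) (nat_lit 1739276638148) (nat_lit 0) (nat_lit 0) (nat_lit 0) (nat_lit 0) (nat_lit 0) (nat_lit 0) (nat_lit 1) (nat_lit 0) (nat_lit 1) (nat_lit 0) (nat_lit 456) (nat_lit 374) (nat_lit 250)) (XT.lf (nat_lit 0) (nat_lit 1878166431354) (nat_lit 0) (nat_lit 0) (nat_lit 0) (nat_lit 0) (nat_lit 0) (nat_lit 0) (nat_lit 1) (nat_lit 0) (nat_lit 1) (nat_lit 0) (nat_lit 457) (nat_lit 374) (nat_lit 249)))) (XT.nd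 (nat_lit 188) (nat_lit 0) (nat_lit 0) (XT.nd (nat_lit 94) (nat_lit 0) (nat_lit 0) (XT.lf (nat_lit 0) (nat_lit 2028167410597) (nat_lit 0) (nat_lit 0) (nat_lit 0) (nat_lit 0) (nat_lit 0) (nat_lit 0) (nat_lit 1) (nat_lit 0) (nat_lit 1) (nat_lit 0) (nat_lit 458) (nat_lit 374) (nat_lit 248)) (XT.lf (nat_lit 0) (nat_lit 2190168470568) (nat_lit 0) (nat_lit 0) (nat_lit 0) (nat_lit 0) (nat_lit 0) (nat_lit 0) (nat_lit 1) (nat_lit 0) (nat_lit 1) (nat_lit 0) (nat_lit 459) (nat_lit 374) (nat_lit 247))) (XT.nd (nat_lit 94) (nat_lit 0) (nat_lit 0) (XT.lf (nat_lit 0) (nat_lit 2365129617549) (nat_lit 0) (nat_lit 0) (nat_lit 0) (nat_lit 0) (nat_lit 0) (nat_lit 0) (nat_lit 1) (nat_lit 0) (nat_lit 1) (nat_lit 0) (nat_lit 460) (nat_lit 374) (nat_lit 246)) (XT.lf (nat_lit 0) (nat_lit 2554087658337) (nat_lit 0) (nat_lit 0) (nat_lit 0) (nat_lit 0) (nat_lit 0) (nat_lit 0) (nat_lit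 1) (nat_lit 0) (nat_lit 1) (nat_lit 0) (nat_lit 461) (nat_lit 374) (nat_lit 245))))))) (XT.nd (nat_lit 1316) (nat_lit 0) (nat_lit 0) (XT.nd (nat_lit 658) (nat_lit 0) (nat_lit 0) (XT.nd (nat_lit 282) (nat_lit 0) (nat_lit 0) (XT.nd (nat_lit 94) (nat_lit 0) (nat_lit 0) (XT.lf (nat_lit 0) (nat_lit 2758162344284) (nat_lit 0) (nat_lit 0) (nat_lit 0) (nat_lit 0) (nat_lit 0) (nat_lit 0) (nat_lit 1) (nat_lit 0) (nat_lit 1) (nat_lit 0) (nat_lit 462) (nat_lit 374) (nat_lit 244)) (XT.nd (nat_lit 94) (nat_lit 0) (nat_lit 0) (XT.lf (nat_lit 0) (nat_lit 2978563006864) (nat_lit 0) (nat_lit 0) (nat_lit 0) (nat_lit 0) (nat_lit 0) (nat_lit 0) (nat_lit 1) (nat_lit 0) (nat_lit 1) (nat_lit 0) (nat_lit 463) (nat_lit 374) (nat_lit 243)) (XT.lf (nat_lit 0) (nat_lit 3216595724076) (nat_lit 0) (nat_lit 0) (nat_lit 0) (nat_lit 0) (nat_lit 0) (nat_lit 0) (nat_lit 1) (nat_lit 0) (nat_lit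 1) (nat_lit 0) (nat_lit 464) (nat_lit 374) (nat_lit 242)))) (XT.nd (nat_lit 188) (nat_lit 0) (nat_lit 0) (XT.nd (nat_lit 94) (nat_lit 0) (nat_lit 0) (XT.lf (nat_lit 0) (nat_lit 3473671060171) (nat_lit 0) (nat_lit 0) (nat_lit 0) (nat_lit 0) (nat_lit 0) (nat_lit 0) (nat_lit 1) (nat_lit 0) (nat_lit 1) (nat_lit 0) (nat_lit 465) (nat_lit 374) (nat_lit 241)) (XT.lf (nat_lit 0) (nat_lit 3751312424547) (nat_lit 0) (nat_lit 0) (nat_lit 0) (nat_lit 0) (nat_lit 0) (nat_lit 0) (nat_lit 1) (nat_lit 0) (nat_lit 1) (nat_lit 0) (nat_lit 466) (nat_lit 374) (nat_lit 240))) (XT.nd (nat_lit 94) (nat_lit 0) (nat_lit 0) (XT.lf (nat_lit 0) (nat_lit 4051165099365) (nat_lit 0) (nat_lit 0) (nat_lit 0) (nat_lit 0) (nat_lit 0) (nat_lit 0) (nat_lit 1) (nat_lit 0) (nat_lit 1) (nat_lit 0) (nat_lit 467) (nat_lit 374) (nat_lit 239)) (XT.lf (nat_lit 0) (nat_lit 4375005989362) (nat_lit 0) (nat_lit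 0) (nat_lit 0) (nat_lit 0) (nat_lit 0) (nat_lit 0) (nat_lit 1) (nat_lit 0) (nat_lit 1) (nat_lit 0) (nat_lit 468) (nat_lit 374) (nat_lit 238))))) (XT.nd (nat_lit 282) (nat_lit 0) (nat_lit 0) (XT.nd (nat_lit 94) (nat_lit 0) (nat_lit 0) (XT.lf (nat_lit 0) (nat_lit 4724754151667) (nat_lit 0) (nat_lit 0) (nat_lit 0) (nat_lit 0) (nat_lit 0) (nat_lit 0) (nat_lit 1) (nat_lit 0) (nat_lit 1) (nat_lit 0) (nat_lit 469) (nat_lit 374) (nat_lit 237)) (XT.nd (nat_lit 94) (nat_lit 0) (nat_lit 0) (XT.lf (nat_lit 0) (nat_lit 5102482167980) (nat_lit 0) (nat_lit 0) (nat_lit 0) (nat_lit 0) (nat_lit 0) (nat_lit 0) (nat_lit 1) (nat_lit 0) (nat_lit 1) (nat_lit 0) (nat_lit 470) (nat_lit 374) (nat_lit 236)) (XT.lf (nat_lit 0) (nat_lit 5510428426548) (nat_lit 0) (nat_lit 0) (nat_lit 0) (nat_lit 0) (nat_lit 0) (nat_lit 0) (nat_lit 1) (nat_lit 0) (nat_lit 1) (nat_lit 0) (nat_lit 471) (nat_lit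 374) (nat_lit 235)))) (XT.nd (nat_lit 188) (nat_lit 0) (nat_lit 0) (XT.nd (nat_lit 94) (nat_lit 0) (nat_lit 0) (XT.lf (nat_lit 0) (nat_lit 5951010386679) (nat_lit 0) (nat_lit 0) (nat_lit 0) (nat_lit 0) (nat_lit 0) (nat_lit 0) (nat_lit 1) (nat_lit 0) (nat_lit 1) (nat_lit 0) (nat_lit 472) (nat_lit 374) (nat_lit 234)) (XT.lf (nat_lit 0) (nat_lit 6426838904434) (nat_lit 0) (nat_lit 0) (nat_lit 0) (nat_lit 0) (nat_lit 0) (nat_lit 0) (nat_lit 1) (nat_lit 0) (nat_lit 1) (nat_lit 0) (nat_lit 473) (nat_lit 374) (nat_lit 233))) (XT.nd (nat_lit 94) (nat_lit 0) (nat_lit 0) (XT.lf (nat_lit 0) (nat_lit 6940733704363) (nat_lit 0) (nat_lit 0) (nat_lit 0) (nat_lit 0) (nat_lit 0) (nat_lit 0) (nat_lit 1) (nat_lit 0) (nat_lit 1) (nat_lit 0) (nat_lit 474) (nat_lit 374) (nat_lit 232)) (XT.lf (nat_lit 0) (nat_lit 7495740088983) (nat_lit 0) (nat_lit 0) (nat_lit 0) (nat_lit 0) (nat_lit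 0) (nat_lit 0) (nat_lit 1) (nat_lit 0) (nat_lit 1) (nat_lit 0) (nat_lit 475) (nat_lit 374) (nat_lit 231)))))) (XT.nd (nat_lit 658) (nat_lit 0) (nat_lit 0) (XT.nd (nat_lit 282) (nat_lit 0) (nat_lit 0) (XT.nd (nat_lit 94) (nat_lit 0) (nat_lit 0) (XT.lf (nat_lit 0) (nat_lit 8095146985019) (nat_lit 0) (nat_lit 0) (nat_lit 0) (nat_lit 0) (nat_lit 0) (nat_lit 0) (nat_lit 1) (nat_lit 0) (nat_lit 1) (nat_lit 0) (nat_lit 476) (nat_lit 374) (nat_lit 230)) (XT.nd (nat_lit 94) (nat_lit 0) (nat_lit 0) (XT.lf (nat_lit 0) (nat_lit 8742506433336) (nat_lit 0) (nat_lit 0) (nat_lit 0) (nat_lit 0) (nat_lit 0) (nat_lit 0) (nat_lit 1) (nat_lit 0) (nat_lit 1) (nat_lit 0) (nat_lit 477) (nat_lit 374) (nat_lit 229)) (XT.lf (nat_lit 0) (nat_lit 9441654638071) (nat_lit 0) (nat_lit 0) (nat_lit 0) (nat_lit 0) (nat_lit 0) (nat_lit 0) (nat_lit 1) (nat_lit 0) (nat_lit 1) (nat_lit 0) (nat_lit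 478) (nat_lit 374) (nat_lit 228)))) (XT.nd (nat_lit 188) (nat_lit 0) (nat_lit 0) (XT.nd (nat_lit 94) (nat_lit 0) (nat_lit 0) (XT.lf (nat_lit 0) (nat_lit 10196734699698) (nat_lit 0) (nat_lit 0) (nat_lit 0) (nat_lit 0) (nat_lit 0) (nat_lit 0) (nat_lit 1) (nat_lit 0) (nat_lit 1) (nat_lit 0) (nat_lit 479) (nat_lit 374) (nat_lit 227)) (XT.lf (nat_lit 0) (nat_lit 11012221166730) (nat_lit 0) (nat_lit 0) (nat_lit 0) (nat_lit 0) (nat_lit 0) (nat_lit 0) (nat_lit 1) (nat_lit 0) (nat_lit 1) (nat_lit 0) (nat_lit 480) (nat_lit 374) (nat_lit 226))) (XT.nd (nat_lit 94) (nat_lit 0) (nat_lit 0) (XT.lf (nat_lit 0) (nat_lit 11892946551564) (nat_lit 0) (nat_lit 0) (nat_lit 0) (nat_lit 0) (nat_lit 0) (nat_lit 0) (nat_lit 1) (nat_lit 0) (nat_lit 1) (nat_lit 0) (nat_lit 481) (nat_lit 374) (nat_lit 225)) (XT.lf (nat_lit 0) (nat_lit 12844129967591) (nat_lit 0) (nat_lit 0) (nat_lit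 0) (nat_lit 0) (nat_lit 0) (nat_lit 0) (nat_lit 1) (nat_lit 0) (nat_lit 1) (nat_lit 0) (nat_lit 482) (nat_lit 374) (nat_lit 224))))) (XT.nd (nat_lit 376) (nat_lit 0) (nat_lit 0) (XT.nd (nat_lit 188) (nat_lit 0) (nat_lit 0) (XT.nd (nat_lit 94) (nat_lit 0) (nat_lit 0) (XT.lf (nat_lit 0) (nat_lit 13871408057278) (nat_lit 0) (nat_lit 0) (nat_lit 0) (nat_lit 0) (nat_lit 0) (nat_lit 0) (nat_lit 1) (nat_lit 0) (nat_lit 1) (nat_lit 0) (nat_lit 483) (nat_lit 374) (nat_lit 223)) (XT.lf (nat_lit 0) (nat_lit 14980868394488) (nat_lit 0) (nat_lit 0) (nat_lit 0) (nat_lit 0) (nat_lit 0) (nat_lit 0) (nat_lit 1) (nat_lit 0) (nat_lit 1) (nat_lit 0) (nat_lit 484) (nat_lit 374) (nat_lit 222))) (XT.nd (nat_lit 94) (nat_lit 0) (nat_lit 0) (XT.lf (nat_lit 0) (nat_lit 16179085558998) (nat_lit 0) (nat_lit 0) (nat_lit 0) (nat_lit 0) (nat_lit 0) (nat_lit 0) (nat_lit 1) (nat_lit 0) (nat_lit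 1) (nat_lit 0) (nat_lit 485) (nat_lit 374) (nat_lit 221)) (XT.lf (nat_lit 0) (nat_lit 17473160096968) (nat_lit 0) (nat_lit 0) (nat_lit 0) (nat_lit 0) (nat_lit 0) (nat_lit 0) (nat_lit 1) (nat_lit 0) (nat_lit 1) (nat_lit 0) (nat_lit 486) (nat_lit 374) (nat_lit 220)))) (XT.nd (nat_lit 188) (nat_lit 0) (nat_lit 0) (XT.nd (nat_lit 94) (nat_lit 0) (nat_lit 0) (XT.lf (nat_lit 0) (nat_lit 18870760598253) (nat_lit 0) (nat_lit 0) (nat_lit 0) (nat_lit 0) (nat_lit 0) (nat_lit 0) (nat_lit 1) (nat_lit 0) (nat_lit 1) (nat_lit 0) (nat_lit 487) (nat_lit 374) (nat_lit 219)) (XT.lf (nat_lit 0) (nat_lit 20380169139896) (nat_lit 0) (nat_lit 0) (nat_lit 0) (nat_lit 0) (nat_lit 0) (nat_lit 0) (nat_lit 1) (nat_lit 0) (nat_lit 1) (nat_lit 0) (nat_lit 488) (nat_lit 374) (nat_lit 218))) (XT.nd (nat_lit 94) (nat_lit 0) (nat_lit 0) (XT.lf (nat_lit 0) (nat_lit 22010330365109) (nat_lit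 0) (nat_lit 0) (nat_lit 0) (nat_lit 0) (nat_lit 0) (nat_lit 0) (nat_lit 1) (nat_lit 0) (nat_lit 1) (nat_lit 0) (nat_lit 489) (nat_lit 374) (nat_lit 217)) (XT.lf (nat_lit 0) (nat_lit 23770904488558) (nat_lit 0) (nat_lit 0) (nat_lit 0) (nat_lit 0) (nat_lit 0) (nat_lit 0) (nat_lit 1) (nat_lit 0) (nat_lit 1) (nat_lit 0) (nat_lit 490) (nat_lit 374) (nat_lit 216))))))))
noncomputable def xc122 : XT := (XT.nd (nat_lit 58186) (nat_lit 0) (nat_lit 2016) (XT.nd (nat_lit 56870) (nat_lit 0) (nat_lit 8148) (XT.nd (nat_lit 658) (nat_lit 0) (nat_lit 0) (XT.nd (nat_lit 282) (nat_lit 0) (nat_lit 0) (XT.nd (nat_lit 94) (nat_lit 0) (nat_lit 0) (XT.lf (nat_lit 0) (nat_lit 25672324542087) (nat_lit 0) (nat_lit 0) (nat_lit 0) (nat_lit 0) (nat_lit 0) (nat_lit 0) (nat_lit 1) (nat_lit 0) (nat_lit 1) (nat_lit 0) (nat_lit 491) (nat_lit 374) (nat_lit 215)) (XT.nd (nat_lit 94) (nat_lit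 0) (nat_lit 0) (XT.lf (nat_lit 0) (nat_lit 27725858200087) (nat_lit 0) (nat_lit 0) (nat_lit 0) (nat_lit 0) (nat_lit 0) (nat_lit 0) (nat_lit 1) (nat_lit 0) (nat_lit 1) (nat_lit 0) (nat_lit 492) (nat_lit 374) (nat_lit 214)) (XT.lf (nat_lit 0) (nat_lit 29943674550902) (nat_lit 0) (nat_lit 0) (nat_lit 0) (nat_lit 0) (nat_lit 0) (nat_lit 0) (nat_lit 1) (nat_lit 0) (nat_lit 1) (nat_lit 0) (nat_lit 493) (nat_lit 374) (nat_lit 213)))) (XT.nd (nat_lit 188) (nat_lit 0) (nat_lit 0) (XT.nd (nat_lit 94) (nat_lit 0) (nat_lit 0) (XT.lf (nat_lit 0) (nat_lit 32338916209943) (nat_lit 0) (nat_lit 0) (nat_lit 0) (nat_lit 0) (nat_lit 0) (nat_lit 0) (nat_lit 1) (nat_lit 0) (nat_lit 1) (nat_lit 0) (nat_lit 494) (nat_lit 374) (nat_lit 212)) (XT.lf (nat_lit 0) (nat_lit 34925777201857) (nat_lit 0) (nat_lit 0) (nat_lit 0) (nat_lit 0) (nat_lit 0) (nat_lit 0) (nat_lit 1) (nat_lit 0) (nat_lit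 1) (nat_lit 0) (nat_lit 495) (nat_lit 374) (nat_lit 211))) (XT.nd (nat_lit 94) (nat_lit 0) (nat_lit 0) (XT.lf (nat_lit 0) (nat_lit 37719587073262) (nat_lit 0) (nat_lit 0) (nat_lit 0) (nat_lit 0) (nat_lit 0) (nat_lit 0) (nat_lit 1) (nat_lit 0) (nat_lit 1) (nat_lit 0) (nat_lit 496) (nat_lit 374) (nat_lit 210)) (XT.lf (nat_lit 0) (nat_lit 40736901734509) (nat_lit 0) (nat_lit 0) (nat_lit 0) (nat_lit 0) (nat_lit 0) (nat_lit 0) (nat_lit 1) (nat_lit 0) (nat_lit 1) (nat_lit 0) (nat_lit 497) (nat_lit 374) (nat_lit 209))))) (XT.nd (nat_lit 282) (nat_lit 0) (nat_lit 0) (XT.nd (nat_lit 94) (nat_lit 0) (nat_lit 0) (XT.lf (nat_lit 0) (nat_lit 43995601568774) (nat_lit 0) (nat_lit 0) (nat_lit 0) (nat_lit 0) (nat_lit 0) (nat_lit 0) (nat_lit 1) (nat_lit 0) (nat_lit 1) (nat_lit 0) (nat_lit 498) (nat_lit 374) (nat_lit 208)) (XT.nd (nat_lit 94) (nat_lit 0) (nat_lit 0) (XT.lf (nat_lit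 0) (nat_lit 47514997389890) (nat_lit 0) (nat_lit 0) (nat_lit 0) (nat_lit 0) (nat_lit 0) (nat_lit 0) (nat_lit 1) (nat_lit 0) (nat_lit 1) (nat_lit 0) (nat_lit 499) (nat_lit 374) (nat_lit 207)) (XT.lf (nat_lit 0) (nat_lit 51315944876797) (nat_lit 0) (nat_lit 0) (nat_lit 0) (nat_lit 0) (nat_lit 0) (nat_lit 0) (nat_lit 1) (nat_lit 0) (nat_lit 1) (nat_lit 0) (nat_lit 500) (nat_lit 374) (nat_lit 206)))) (XT.nd (nat_lit 188) (nat_lit 0) (nat_lit 0) (XT.nd (nat_lit 94) (nat_lit 0) (nat_lit 0) (XT.lf (nat_lit 0) (nat_lit 55420968162751) (nat_lit 0) (nat_lit 0) (nat_lit 0) (nat_lit 0) (nat_lit 0) (nat_lit 0) (nat_lit 1) (nat_lit 0) (nat_lit 1) (nat_lit 0) (nat_lit 501) (nat_lit 374) (nat_lit 205)) (XT.lf (nat_lit 0) (nat_lit 59854393311668) (nat_lit 0) (nat_lit 0) (nat_lit 0) (nat_lit 0) (nat_lit 0) (nat_lit 0) (nat_lit 1) (nat_lit 0) (nat_lit 1) (nat_lit 0) (nat_lit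 502) (nat_lit 374) (nat_lit 204))) (XT.nd (nat_lit 94) (nat_lit 0) (nat_lit 0) (XT.lf (nat_lit 0) (nat_lit 64642492472580) (nat_lit 0) (nat_lit 0) (nat_lit 0) (nat_lit 0) (nat_lit 0) (nat_lit 0) (nat_lit 1) (nat_lit 0) (nat_lit 1) (nat_lit 0) (nat_lit 503) (nat_lit 374) (nat_lit 203)) (XT.lf (nat_lit 0) (nat_lit 69813639566440) (nat_lit 0) (nat_lit 0) (nat_lit 0) (nat_lit 0) (nat_lit 0) (nat_lit 0) (nat_lit 1) (nat_lit 0) (nat_lit 1) (nat_lit 0) (nat_lit 504) (nat_lit 374) (nat_lit 202)))))) (XT.nd (nat_lit 658) (nat_lit 2604) (nat_lit 0) (XT.nd (nat_lit 282) (nat_lit 0) (nat_lit 168) (XT.nd (nat_lit 94) (nat_lit 0) (nat_lit 84) (XT.lf (nat_lit 0) (nat_lit 347322107) (nat_lit 924) (nat_lit 3111050497) (nat_lit 924) (nat_lit 3111050497) (nat_lit 128) (nat_lit 3) (nat_lit 139) (nat_lit 3) (nat_lit 139) (nat_lit 5) (nat_lit 375) (nat_lit 375) (nat_lit 330)) (XT.nd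 (nat_lit 94) (nat_lit 0) (nat_lit 0) (XT.lf (nat_lit 0) (nat_lit 1449917676) (nat_lit 840) (nat_lit 9252926502) (nat_lit 924) (nat_lit 2925181491) (nat_lit 129) (nat_lit 5) (nat_lit 139) (nat_lit 5) (nat_lit 140) (nat_lit 5) (nat_lit 376) (nat_lit 375) (nat_lit 329)) (XT.lf (nat_lit 84) (nat_lit 1793651757) (nat_lit 0) (nat_lit 665531099) (nat_lit 924) (nat_lit 11687478141) (nat_lit 130) (nat_lit 5) (nat_lit 129) (nat_lit 5) (nat_lit 140) (nat_lit 5) (nat_lit 377) (nat_lit 375) (nat_lit 328)))) (XT.nd (nat_lit 188) (nat_lit 0) (nat_lit 168) (XT.nd (nat_lit 94) (nat_lit 0) (nat_lit 84) (XT.lf (nat_lit 0) (nat_lit 3814976142) (nat_lit 840) (nat_lit 844159436) (nat_lit 924) (nat_lit 10034362229) (nat_lit 130) (nat_lit 5) (nat_lit 140) (nat_lit 5) (nat_lit 141) (nat_lit 5) (nat_lit 378) (nat_lit 375) (nat_lit 327)) (XT.lf (nat_lit 0) (nat_lit 5525311422) (nat_lit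 840) (nat_lit 3458047092) (nat_lit 924) (nat_lit 6288419122) (nat_lit 131) (nat_lit 5) (nat_lit 141) (nat_lit 5) (nat_lit 142) (nat_lit 5) (nat_lit 379) (nat_lit 375) (nat_lit 326))) (XT.nd (nat_lit 94) (nat_lit 0) (nat_lit 0) (XT.lf (nat_lit 0) (nat_lit 7605283956) (nat_lit 840) (nat_lit 6103922263) (nat_lit 924) (nat_lit 2175473111) (nat_lit 132) (nat_lit 5) (nat_lit 142) (nat_lit 5) (nat_lit 143) (nat_lit 5) (nat_lit 380) (nat_lit 375) (nat_lit 325)) (XT.lf (nat_lit 84) (nat_lit 7715519993) (nat_lit 0) (nat_lit 2423488179) (nat_lit 924) (nat_lit 6393237293) (nat_lit 133) (nat_lit 5) (nat_lit 132) (nat_lit 5) (nat_lit 143) (nat_lit 5) (nat_lit 381) (nat_lit 375) (nat_lit 324))))) (XT.nd (nat_lit 282) (nat_lit 1176) (nat_lit 0) (XT.nd (nat_lit 94) (nat_lit 1008) (nat_lit 0) (XT.lf (nat_lit 0) (nat_lit 5619707703) (nat_lit 840) (nat_lit 7561128214) (nat_lit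 924) (nat_lit 4035510693) (nat_lit 123) (nat_lit 5) (nat_lit 133) (nat_lit 5) (nat_lit 134) (nat_lit 5) (nat_lit 382) (nat_lit 375) (nat_lit 323)) (XT.nd (nat_lit 94) (nat_lit 504) (nat_lit 0) (XT.lf (nat_lit 0) (nat_lit 3537550133) (nat_lit 504) (nat_lit 13212592995) (nat_lit 588) (nat_lit 1190826058) (nat_lit 117) (nat_lit 5) (nat_lit 123) (nat_lit 5) (nat_lit 124) (nat_lit 5) (nat_lit 383) (nat_lit 375) (nat_lit 322)) (XT.lf (nat_lit 0) (nat_lit 1430582655) (nat_lit 420) (nat_lit 707363550) (nat_lit 504) (nat_lit 16568310116) (nat_lit 111) (nat_lit 5) (nat_lit 116) (nat_lit 5) (nat_lit 117) (nat_lit 5) (nat_lit 384) (nat_lit 375) (nat_lit 321)))) (XT.nd (nat_lit 188) (nat_lit 756) (nat_lit 0) (XT.nd (nat_lit 94) (nat_lit 420) (nat_lit 0) (XT.lf (nat_lit 0) (nat_lit 6110539285) (nat_lit 504) (nat_lit 736878597) (nat_lit 84) (nat_lit 12663410469) (nat_lit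 111) (nat_lit 5) (nat_lit 117) (nat_lit 5) (nat_lit 112) (nat_lit 5) (nat_lit 385) (nat_lit 375) (nat_lit 320)) (XT.lf (nat_lit 0) (nat_lit 10763937845) (nat_lit 504) (nat_lit 2833865107) (nat_lit 84) (nat_lit 6763813290) (nat_lit 106) (nat_lit 5) (nat_lit 112) (nat_lit 5) (nat_lit 107) (nat_lit 5) (nat_lit 386) (nat_lit 375) (nat_lit 319))) (XT.nd (nat_lit 94) (nat_lit 420) (nat_lit 0) (XT.lf (nat_lit 0) (nat_lit 16145788523) (nat_lit 420) (nat_lit 4893489775) (nat_lit 84) (nat_lit 223379855) (nat_lit 102) (nat_lit 5) (nat_lit 107) (nat_lit 5) (nat_lit 103) (nat_lit 5) (nat_lit 387) (nat_lit 375) (nat_lit 318)) (XT.lf (nat_lit 0) (nat_lit 226186895) (nat_lit 420) (nat_lit 7017780462) (nat_lit 84) (nat_lit 14967287850) (nat_lit 97) (nat_lit 5) (nat_lit 102) (nat_lit 5) (nat_lit 98) (nat_lit 5) (nat_lit 388) (nat_lit 375) (nat_lit 317))))))) (XT.nd (nat_lit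 1316) (nat_lit 2436) (nat_lit 0) (XT.nd (nat_lit 658) (nat_lit 1512) (nat_lit 0) (XT.nd (nat_lit 282) (nat_lit 1260) (nat_lit 0) (XT.nd (nat_lit 94) (nat_lit 588) (nat_lit 0) (XT.lf (nat_lit 0) (nat_lit 6224838550) (nat_lit 420) (nat_lit 9181850821) (nat_lit 84) (nat_lit 7804485458) (nat_lit 93) (nat_lit 5) (nat_lit 98) (nat_lit 5) (nat_lit 94) (nat_lit 5) (nat_lit 389) (nat_lit 375) (nat_lit 316)) (XT.nd (nat_lit 94) (nat_lit 252) (nat_lit 0) (XT.lf (nat_lit 0) (nat_lit 12982712967) (nat_lit 336) (nat_lit 142669246) (nat_lit 420) (nat_lit 11144605816) (nat_lit 89) (nat_lit 5) (nat_lit 93) (nat_lit 5) (nat_lit 94) (nat_lit 5) (nat_lit 390) (nat_lit 375) (nat_lit 315)) (XT.lf (nat_lit 0) (nat_lit 11932810261) (nat_lit 252) (nat_lit 9223463452) (nat_lit 336) (nat_lit 4228317353) (nat_lit 86) (nat_lit 5) (nat_lit 89) (nat_lit 5) (nat_lit 90) (nat_lit 5) (nat_lit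 391) (nat_lit 375) (nat_lit 314)))) (XT.nd (nat_lit 188) (nat_lit 588) (nat_lit 0) (XT.nd (nat_lit 94) (nat_lit 252) (nat_lit 0) (XT.lf (nat_lit 0) (nat_lit 3607219057) (nat_lit 420) (nat_lit 15586535309) (nat_lit 84) (nat_lit 7368593418) (nat_lit 81) (nat_lit 5) (nat_lit 86) (nat_lit 5) (nat_lit 82) (nat_lit 5) (nat_lit 392) (nat_lit 375) (nat_lit 313)) (XT.lf (nat_lit 0) (nat_lit 10074066871) (nat_lit 252) (nat_lit 2376820071) (nat_lit 336) (nat_lit 15353500854) (nat_lit 78) (nat_lit 5) (nat_lit 81) (nat_lit 5) (nat_lit 82) (nat_lit 5) (nat_lit 393) (nat_lit 375) (nat_lit 312))) (XT.nd (nat_lit 94) (nat_lit 336) (nat_lit 0) (XT.lf (nat_lit 0) (nat_lit 9223601283) (nat_lit 252) (nat_lit 13422445812) (nat_lit 336) (nat_lit 6467543971) (nat_lit 75) (nat_lit 5) (nat_lit 78) (nat_lit 5) (nat_lit 79) (nat_lit 5) (nat_lit 394) (nat_lit 375) (nat_lit 311)) (XT.lf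 (nat_lit 0) (nat_lit 3575625770) (nat_lit 336) (nat_lit 21977113814) (nat_lit 84) (nat_lit 4945023509) (nat_lit 71) (nat_lit 5) (nat_lit 75) (nat_lit 5) (nat_lit 72) (nat_lit 5) (nat_lit 395) (nat_lit 375) (nat_lit 310))))) (XT.nd (nat_lit 282) (nat_lit 756) (nat_lit 0) (XT.nd (nat_lit 94) (nat_lit 504) (nat_lit 0) (XT.lf (nat_lit 0) (nat_lit 7816809361) (nat_lit 252) (nat_lit 7061768868) (nat_lit 336) (nat_lit 17074643368) (nat_lit 68) (nat_lit 5) (nat_lit 71) (nat_lit 5) (nat_lit 72) (nat_lit 5) (nat_lit 396) (nat_lit 375) (nat_lit 309)) (XT.nd (nat_lit 94) (nat_lit 336) (nat_lit 0) (XT.lf (nat_lit 0) (nat_lit 7267016016) (nat_lit 168) (nat_lit 20503117541) (nat_lit 252) (nat_lit 5720764892) (nat_lit 66) (nat_lit 5) (nat_lit 68) (nat_lit 5) (nat_lit 69) (nat_lit 5) (nat_lit 397) (nat_lit 375) (nat_lit 308)) (XT.lf (nat_lit 0) (nat_lit 6875913147) (nat_lit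 252) (nat_lit 90865949) (nat_lit 336) (nat_lit 28147967774) (nat_lit 62) (nat_lit 5) (nat_lit 65) (nat_lit 5) (nat_lit 66) (nat_lit 5) (nat_lit 398) (nat_lit 375) (nat_lit 307)))) (XT.nd (nat_lit 188) (nat_lit 420) (nat_lit 0) (XT.nd (nat_lit 94) (nat_lit 168) (nat_lit 0) (XT.lf (nat_lit 0) (nat_lit 6444474498) (nat_lit 168) (nat_lit 14916535841) (nat_lit 252) (nat_lit 15458198098) (nat_lit 60) (nat_lit 5) (nat_lit 62) (nat_lit 5) (nat_lit 63) (nat_lit 5) (nat_lit 399) (nat_lit 375) (nat_lit 306)) (XT.lf (nat_lit 0) (nat_lit 6330323344) (nat_lit 168) (nat_lit 31268432719) (nat_lit 252) (nat_lit 1026672068) (nat_lit 58) (nat_lit 5) (nat_lit 60) (nat_lit 5) (nat_lit 61) (nat_lit 5) (nat_lit 400) (nat_lit 375) (nat_lit 305))) (XT.nd (nat_lit 94) (nat_lit 168) (nat_lit 0) (XT.lf (nat_lit 0) (nat_lit 6189092752) (nat_lit 168) (nat_lit 8773309560) (nat_lit 252)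 (nat_lit 25558926594) (nat_lit 55) (nat_lit 5) (nat_lit 57) (nat_lit 5) (nat_lit 58) (nat_lit 5) (nat_lit 401) (nat_lit 375) (nat_lit 304)) (XT.lf (nat_lit 0) (nat_lit 6268605203) (nat_lit 168) (nat_lit 26822240246) (nat_lit 252) (nat_lit 9432404141) (nat_lit 53) (nat_lit 5) (nat_lit 55) (nat_lit 5) (nat_lit 56) (nat_lit 5) (nat_lit 402) (nat_lit 375) (nat_lit 303)))))) (XT.nd (nat_lit 658) (nat_lit 1260) (nat_lit 0) (XT.nd (nat_lit 282) (nat_lit 588) (nat_lit 0) (XT.nd (nat_lit 94) (nat_lit 336) (nat_lit 0) (XT.lf (nat_lit 0) (nat_lit 6589619730) (nat_lit 168) (nat_lit 1982024022) (nat_lit 252) (nat_lit 36065299899) (nat_lit 50) (nat_lit 5) (nat_lit 52) (nat_lit 5) (nat_lit 53) (nat_lit 5) (nat_lit 403) (nat_lit 375) (nat_lit 302)) (XT.nd (nat_lit 94) (nat_lit 168) (nat_lit 0) (XT.lf (nat_lit 0) (nat_lit 6905227451) (nat_lit 168) (nat_lit 21907217596) (nat_lit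 252) (nat_lit 18043211957) (nat_lit 48) (nat_lit 5) (nat_lit 50) (nat_lit 5) (nat_lit 51) (nat_lit 5) (nat_lit 404) (nat_lit 375) (nat_lit 301)) (XT.lf (nat_lit 0) (nat_lit 2275405454) (nat_lit 168) (nat_lit 41547150589) (nat_lit 84) (nat_lit 5383190776) (nat_lit 46) (nat_lit 5) (nat_lit 48) (nat_lit 5) (nat_lit 47) (nat_lit 5) (nat_lit 405) (nat_lit 375) (nat_lit 300)))) (XT.nd (nat_lit 188) (nat_lit 336) (nat_lit 0) (XT.nd (nat_lit 94) (nat_lit 84) (nat_lit 0) (XT.lf (nat_lit 0) (nat_lit 8351016458) (nat_lit 168) (nat_lit 16437796954) (nat_lit 252) (nat_lit 26880168521) (nat_lit 44) (nat_lit 5) (nat_lit 46) (nat_lit 5) (nat_lit 47) (nat_lit 5) (nat_lit 406) (nat_lit 375) (nat_lit 299)) (XT.lf (nat_lit 0) (nat_lit 9493916935) (nat_lit 84) (nat_lit 40684711797) (nat_lit 168) (nat_lit 4096880388) (nat_lit 43) (nat_lit 5) (nat_lit 44) (nat_lit 5) (nat_lit 45)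 (nat_lit 4) (nat_lit 407) (nat_lit 375) (nat_lit 298))) (XT.nd (nat_lit 94) (nat_lit 84) (nat_lit 0) (XT.lf (nat_lit 0) (nat_lit 10734705278) (nat_lit 168) (nat_lit 10316488719) (nat_lit 252) (nat_lit 35963427202) (nat_lit 40) (nat_lit 5) (nat_lit 42) (nat_lit 5) (nat_lit 43) (nat_lit 5) (nat_lit 408) (nat_lit 375) (nat_lit 297)) (XT.lf (nat_lit 0) (nat_lit 12294889346) (nat_lit 84) (nat_lit 37097703188) (nat_lit 168) (nat_lit 10510660965) (nat_lit 39) (nat_lit 5) (nat_lit 40) (nat_lit 5) (nat_lit 41) (nat_lit 4) (nat_lit 409) (nat_lit 375) (nat_lit 296))))) (XT.nd (nat_lit 376) (nat_lit 588) (nat_lit 0) (XT.nd (nat_lit 188) (nat_lit 336) (nat_lit 0) (XT.nd (nat_lit 94) (nat_lit 84) (nat_lit 0) (XT.lf (nat_lit 0) (nat_lit 14205323744) (nat_lit 168) (nat_lit 3432394082) (nat_lit 252) (nat_lit 45311864409) (nat_lit 36) (nat_lit 5) (nat_lit 38) (nat_lit 5) (nat_lit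 39) (nat_lit 5) (nat_lit 410) (nat_lit 375) (nat_lit 295)) (XT.lf (nat_lit 0) (nat_lit 16259361575) (nat_lit 84) (nat_lit 33014210278) (nat_lit 168) (nat_lit 16877237755) (nat_lit 35) (nat_lit 5) (nat_lit 36) (nat_lit 5) (nat_lit 37) (nat_lit 4) (nat_lit 411) (nat_lit 375) (nat_lit 294))) (XT.nd (nat_lit 94) (nat_lit 84) (nat_lit 0) (XT.lf (nat_lit 0) (nat_lit 14662190267) (nat_lit 252) (nat_lit 50669939943) (nat_lit 84) (nat_lit 4201569688) (nat_lit 32) (nat_lit 5) (nat_lit 35) (nat_lit 5) (nat_lit 33) (nat_lit 4) (nat_lit 412) (nat_lit 375) (nat_lit 293)) (XT.lf (nat_lit 0) (nat_lit 21571066636) (nat_lit 84) (nat_lit 28335947577) (nat_lit 168) (nat_lit 23177696502) (nat_lit 31) (nat_lit 5) (nat_lit 32) (nat_lit 5) (nat_lit 33) (nat_lit 4) (nat_lit 413) (nat_lit 375) (nat_lit 292)))) (XT.nd (nat_lit 188) (nat_lit 252) (nat_lit 0) (XT.nd (nat_lit 94) (nat_lit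 84) (nat_lit 0) (XT.lf (nat_lit 0) (nat_lit 12181641967) (nat_lit 252) (nat_lit 51930861489) (nat_lit 84) (nat_lit 12724484542) (nat_lit 28) (nat_lit 5) (nat_lit 31) (nat_lit 5) (nat_lit 29) (nat_lit 4) (nat_lit 414) (nat_lit 375) (nat_lit 291)) (XT.lf (nat_lit 0) (nat_lit 28441431124) (nat_lit 84) (nat_lit 22950541733) (nat_lit 168) (nat_lit 29386762548) (nat_lit 27) (nat_lit 5) (nat_lit 28) (nat_lit 5) (nat_lit 29) (nat_lit 4) (nat_lit 415) (nat_lit 375) (nat_lit 290))) (XT.nd (nat_lit 94) (nat_lit 84) (nat_lit 0) (XT.lf (nat_lit 0) (nat_lit 10210483205) (nat_lit 168) (nat_lit 52325976806) (nat_lit 84) (nat_lit 22403281654) (nat_lit 25) (nat_lit 5) (nat_lit 27) (nat_lit 5) (nat_lit 26) (nat_lit 4) (nat_lit 416) (nat_lit 375) (nat_lit 289)) (XT.lf (nat_lit 0) (nat_lit 37113283031) (nat_lit 84) (nat_lit 16729646582) (nat_lit 168) (nat_lit 35471761801) (nat_lit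 24) (nat_lit 5) (nat_lit 25) (nat_lit 5) (nat_lit 26) (nat_lit 4) (nat_lit 417) (nat_lit 375) (nat_lit 288))))))))
noncomputable def xc123 : XT := (XT.nd (nat_lit 2632) (nat_lit 0) (nat_lit 0) (XT.nd (nat_lit 1316) (nat_lit 252) (nat_lit 0) (XT.nd (nat_lit 658) (nat_lit 840) (nat_lit 0) (XT.nd (nat_lit 282) (nat_lit 504) (nat_lit 0) (XT.nd (nat_lit 94) (nat_lit 252) (nat_lit 0) (XT.lf (nat_lit 0) (nat_lit 8828900638) (nat_lit 168) (nat_lit 51683078025) (nat_lit 84) (nat_lit 33416038907) (nat_lit 22) (nat_lit 5) (nat_lit 24) (nat_lit 5) (nat_lit 23) (nat_lit 4) (nat_lit 418) (nat_lit 375) (nat_lit 287)) (XT.nd (nat_lit 94) (nat_lit 168) (nat_lit 0) (XT.lf (nat_lit 0) (nat_lit 47865047282) (nat_lit 84) (nat_lit 9526804261) (nat_lit 168) (nat_lit 41391433398) (nat_lit 21) (nat_lit 5) (nat_lit 22) (nat_lit 5) (nat_lit 23) (nat_lit 4) (nat_lit 419) (nat_lit 375)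 (nat_lit 286)) (XT.lf (nat_lit 0) (nat_lit 8130990462) (nat_lit 168) (nat_lit 49801692039) (nat_lit 84) (nat_lit 45964544764) (nat_lit 19) (nat_lit 5) (nat_lit 21) (nat_lit 5) (nat_lit 20) (nat_lit 4) (nat_lit 420) (nat_lit 375) (nat_lit 285)))) (XT.nd (nat_lit 188) (nat_lit 252) (nat_lit 0) (XT.nd (nat_lit 94) (nat_lit 168) (nat_lit 0) (XT.lf (nat_lit 0) (nat_lit 61015489273) (nat_lit 84) (nat_lit 1175022348) (nat_lit 168) (nat_lit 47094573071) (nat_lit 18) (nat_lit 5) (nat_lit 19) (nat_lit 5) (nat_lit 20) (nat_lit 4) (nat_lit 421) (nat_lit 375) (nat_lit 284)) (XT.lf (nat_lit 0) (nat_lit 8226710695) (nat_lit 168) (nat_lit 46449089088) (nat_lit 84) (nat_lit 60277350813) (nat_lit 16) (nat_lit 5) (nat_lit 18) (nat_lit 5) (nat_lit 17) (nat_lit 4) (nat_lit 422) (nat_lit 375) (nat_lit 283))) (XT.nd (nat_lit 94) (nat_lit 168) (nat_lit 0) (XT.lf (nat_lit 0) (nat_lit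 68546065360) (nat_lit 168) (nat_lit 44135474729) (nat_lit 0) (nat_lit 8243402941) (nat_lit 15) (nat_lit 5) (nat_lit 17) (nat_lit 4) (nat_lit 15) (nat_lit 4) (nat_lit 423) (nat_lit 375) (nat_lit 282)) (XT.lf (nat_lit 0) (nat_lit 9244093468) (nat_lit 168) (nat_lit 41355753636) (nat_lit 84) (nat_lit 76613212299) (nat_lit 13) (nat_lit 5) (nat_lit 15) (nat_lit 5) (nat_lit 14) (nat_lit 4) (nat_lit 424) (nat_lit 375) (nat_lit 281))))) (XT.nd (nat_lit 282) (nat_lit 504) (nat_lit 0) (XT.nd (nat_lit 94) (nat_lit 252) (nat_lit 0) (XT.lf (nat_lit 0) (nat_lit 76567767148) (nat_lit 168) (nat_lit 38132954323) (nat_lit 0) (nat_lit 19130271828) (nat_lit 12) (nat_lit 5) (nat_lit 14) (nat_lit 4) (nat_lit 12) (nat_lit 4) (nat_lit 425) (nat_lit 375) (nat_lit 280)) (XT.nd (nat_lit 94) (nat_lit 84) (nat_lit 0) (XT.lf (nat_lit 0) (nat_lit 11331751186) (nat_lit 168) (nat_lit 34210249162)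 (nat_lit 84) (nat_lit 95264963183) (nat_lit 10) (nat_lit 5) (nat_lit 12) (nat_lit 5) (nat_lit 11) (nat_lit 4) (nat_lit 426) (nat_lit 375) (nat_lit 279)) (XT.lf (nat_lit 0) (nat_lit 86469406937) (nat_lit 168) (nat_lit 29909787788) (nat_lit 0) (nat_lit 31761814348) (nat_lit 9) (nat_lit 5) (nat_lit 11) (nat_lit 4) (nat_lit 9) (nat_lit 4) (nat_lit 427) (nat_lit 375) (nat_lit 278)))) (XT.nd (nat_lit 188) (nat_lit 252) (nat_lit 0) (XT.nd (nat_lit 94) (nat_lit 84) (nat_lit 0) (XT.lf (nat_lit 0) (nat_lit 14661714521) (nat_lit 168) (nat_lit 24653399798) (nat_lit 84) (nat_lit 116563878065) (nat_lit 7) (nat_lit 5) (nat_lit 9) (nat_lit 5) (nat_lit 8) (nat_lit 4) (nat_lit 428) (nat_lit 375) (nat_lit 277)) (XT.lf (nat_lit 0) (nat_lit 98516116178) (nat_lit 168) (nat_lit 19081205044) (nat_lit 0) (nat_lit 46409388036) (nat_lit 6) (nat_lit 5) (nat_lit 8) (nat_lit 4) (nat_lit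 6) (nat_lit 4) (nat_lit 429) (nat_lit 375) (nat_lit 276))) (XT.nd (nat_lit 94) (nat_lit 84) (nat_lit 0) (XT.lf (nat_lit 0) (nat_lit 19432644855) (nat_lit 168) (nat_lit 12271702114) (nat_lit 84) (nat_lit 140884579816) (nat_lit 4) (nat_lit 5) (nat_lit 6) (nat_lit 5) (nat_lit 5) (nat_lit 4) (nat_lit 430) (nat_lit 375) (nat_lit 275)) (XT.lf (nat_lit 0) (nat_lit 113010327923) (nat_lit 168) (nat_lit 5204565093) (nat_lit 0) (nat_lit 63381395012) (nat_lit 3) (nat_lit 5) (nat_lit 5) (nat_lit 4) (nat_lit 3) (nat_lit 4) (nat_lit 431) (nat_lit 375) (nat_lit 274)))))) (XT.nd (nat_lit 658) (nat_lit 0) (nat_lit 0) (XT.nd (nat_lit 282) (nat_lit 0) (nat_lit 0) (XT.nd (nat_lit 94) (nat_lit 0) (nat_lit 0) (XT.lf (nat_lit 0) (nat_lit 277192805498) (nat_lit 0) (nat_lit 0) (nat_lit 0) (nat_lit 0) (nat_lit 0) (nat_lit 0) (nat_lit 1) (nat_lit 0) (nat_lit 1) (nat_lit 0) (nat_lit 432)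 (nat_lit 375) (nat_lit 273)) (XT.nd (nat_lit 94) (nat_lit 0) (nat_lit 0) (XT.lf (nat_lit 0) (nat_lit 299095538153) (nat_lit 0) (nat_lit 0) (nat_lit 0) (nat_lit 0) (nat_lit 0) (nat_lit 0) (nat_lit 1) (nat_lit 0) (nat_lit 1) (nat_lit 0) (nat_lit 433) (nat_lit 375) (nat_lit 272)) (XT.lf (nat_lit 0) (nat_lit 322750504572) (nat_lit 0) (nat_lit 0) (nat_lit 0) (nat_lit 0) (nat_lit 0) (nat_lit 0) (nat_lit 1) (nat_lit 0) (nat_lit 1) (nat_lit 0) (nat_lit 434) (nat_lit 375) (nat_lit 271)))) (XT.nd (nat_lit 188) (nat_lit 0) (nat_lit 0) (XT.nd (nat_lit 94) (nat_lit 0) (nat_lit 0) (XT.lf (nat_lit 0) (nat_lit 348297882332) (nat_lit 0) (nat_lit 0) (nat_lit 0) (nat_lit 0) (nat_lit 0) (nat_lit 0) (nat_lit 1) (nat_lit 0) (nat_lit 1) (nat_lit 0) (nat_lit 435) (nat_lit 375) (nat_lit 270)) (XT.lf (nat_lit 0) (nat_lit 375889063301) (nat_lit 0) (nat_lit 0) (nat_lit 0) (nat_lit 0)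 (nat_lit 0) (nat_lit 0) (nat_lit 1) (nat_lit 0) (nat_lit 1) (nat_lit 0) (nat_lit 436) (nat_lit 375) (nat_lit 269))) (XT.nd (nat_lit 94) (nat_lit 0) (nat_lit 0) (XT.lf (nat_lit 0) (nat_lit 405687550776) (nat_lit 0) (nat_lit 0) (nat_lit 0) (nat_lit 0) (nat_lit 0) (nat_lit 0) (nat_lit 1) (nat_lit 0) (nat_lit 1) (nat_lit 0) (nat_lit 437) (nat_lit 375) (nat_lit 268)) (XT.lf (nat_lit 0) (nat_lit 437869928384) (nat_lit 0) (nat_lit 0) (nat_lit 0) (nat_lit 0) (nat_lit 0) (nat_lit 0) (nat_lit 1) (nat_lit 0) (nat_lit 1) (nat_lit 0) (nat_lit 438) (nat_lit 375) (nat_lit 267))))) (XT.nd (nat_lit 282) (nat_lit 0) (nat_lit 0) (XT.nd (nat_lit 94) (nat_lit 0) (nat_lit 0) (XT.lf (nat_lit 0) (nat_lit 472626906513) (nat_lit 0) (nat_lit 0) (nat_lit 0) (nat_lit 0) (nat_lit 0) (nat_lit 0) (nat_lit 1) (nat_lit 0) (nat_lit 1) (nat_lit 0) (nat_lit 439) (nat_lit 375) (nat_lit 266)) (XT.nd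 (nat_lit 94) (nat_lit 0) (nat_lit 0) (XT.lf (nat_lit 0) (nat_lit 510164452439) (nat_lit 0) (nat_lit 0) (nat_lit 0) (nat_lit 0) (nat_lit 0) (nat_lit 0) (nat_lit 1) (nat_lit 0) (nat_lit 1) (nat_lit 0) (nat_lit 440) (nat_lit 375) (nat_lit 265)) (XT.lf (nat_lit 0) (nat_lit 550705010879) (nat_lit 0) (nat_lit 0) (nat_lit 0) (nat_lit 0) (nat_lit 0) (nat_lit 0) (nat_lit 1) (nat_lit 0) (nat_lit 1) (nat_lit 0) (nat_lit 441) (nat_lit 375) (nat_lit 264)))) (XT.nd (nat_lit 188) (nat_lit 0) (nat_lit 0) (XT.nd (nat_lit 94) (nat_lit 0) (nat_lit 0) (XT.lf (nat_lit 0) (nat_lit 594488822181) (nat_lit 0) (nat_lit 0) (nat_lit 0) (nat_lit 0) (nat_lit 0) (nat_lit 0) (nat_lit 1) (nat_lit 0) (nat_lit 1) (nat_lit 0) (nat_lit 442) (nat_lit 375) (nat_lit 263)) (XT.lf (nat_lit 0) (nat_lit 641775345965) (nat_lit 0) (nat_lit 0) (nat_lit 0) (nat_lit 0) (nat_lit 0) (nat_lit 0) (nat_lit 1)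 (nat_lit 0) (nat_lit 1) (nat_lit 0) (nat_lit 443) (nat_lit 375) (nat_lit 262))) (XT.nd (nat_lit 94) (nat_lit 0) (nat_lit 0) (XT.lf (nat_lit 0) (nat_lit 692844798669) (nat_lit 0) (nat_lit 0) (nat_lit 0) (nat_lit 0) (nat_lit 0) (nat_lit 0) (nat_lit 1) (nat_lit 0) (nat_lit 1) (nat_lit 0) (nat_lit 444) (nat_lit 375) (nat_lit 261)) (XT.lf (nat_lit 0) (nat_lit 747999814088) (nat_lit 0) (nat_lit 0) (nat_lit 0) (nat_lit 0) (nat_lit 0) (nat_lit 0) (nat_lit 1) (nat_lit 0) (nat_lit 1) (nat_lit 0) (nat_lit 445) (nat_lit 375) (nat_lit 260))))))) (XT.nd (nat_lit 1316) (nat_lit 0) (nat_lit 0) (XT.nd (nat_lit 658) (nat_lit 0) (nat_lit 0) (XT.nd (nat_lit 282) (nat_lit 0) (nat_lit 0) (XT.nd (nat_lit 94) (nat_lit 0) (nat_lit 0) (XT.lf (nat_lit 0) (nat_lit 807567236757) (nat_lit 0) (nat_lit 0) (nat_lit 0) (nat_lit 0) (nat_lit 0) (nat_lit 0) (nat_lit 1) (nat_lit 0) (nat_lit 1)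 (nat_lit 0) (nat_lit 446) (nat_lit 375) (nat_lit 259)) (XT.nd (nat_lit 94) (nat_lit 0) (nat_lit 0) (XT.lf (nat_lit 0) (nat_lit 871900058810) (nat_lit 0) (nat_lit 0) (nat_lit 0) (nat_lit 0) (nat_lit 0) (nat_lit 0) (nat_lit 1) (nat_lit 0) (nat_lit 1) (nat_lit 0) (nat_lit 447) (nat_lit 375) (nat_lit 258)) (XT.lf (nat_lit 0) (nat_lit 941379511786) (nat_lit 0) (nat_lit 0) (nat_lit 0) (nat_lit 0) (nat_lit 0) (nat_lit 0) (nat_lit 1) (nat_lit 0) (nat_lit 1) (nat_lit 0) (nat_lit 448) (nat_lit 375) (nat_lit 257)))) (XT.nd (nat_lit 188) (nat_lit 0) (nat_lit 0) (XT.nd (nat_lit 94) (nat_lit 0) (nat_lit 0) (XT.lf (nat_lit 0) (nat_lit 1016417325775) (nat_lit 0) (nat_lit 0) (nat_lit 0) (nat_lit 0) (nat_lit 0) (nat_lit 0) (nat_lit 1) (nat_lit 0) (nat_lit 1) (nat_lit 0) (nat_lit 449) (nat_lit 375) (nat_lit 256)) (XT.lf (nat_lit 0) (nat_lit 1097458169307) (nat_lit 0) (nat_lit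 0) (nat_lit 0) (nat_lit 0) (nat_lit 0) (nat_lit 0) (nat_lit 1) (nat_lit 0) (nat_lit 1) (nat_lit 0) (nat_lit 450) (nat_lit 375) (nat_lit 255))) (XT.nd (nat_lit 94) (nat_lit 0) (nat_lit 0) (XT.lf (nat_lit 0) (nat_lit 1184982284415) (nat_lit 0) (nat_lit 0) (nat_lit 0) (nat_lit 0) (nat_lit 0) (nat_lit 0) (nat_lit 1) (nat_lit 0) (nat_lit 1) (nat_lit 0) (nat_lit 451) (nat_lit 375) (nat_lit 254)) (XT.lf (nat_lit 0) (nat_lit 1279508332523) (nat_lit 0) (nat_lit 0) (nat_lit 0) (nat_lit 0) (nat_lit 0) (nat_lit 0) (nat_lit 1) (nat_lit 0) (nat_lit 1) (nat_lit 0) (nat_lit 452) (nat_lit 375) (nat_lit 253))))) (XT.nd (nat_lit 282) (nat_lit 0) (nat_lit 0) (XT.nd (nat_lit 94) (nat_lit 0) (nat_lit 0) (XT.lf (nat_lit 0) (nat_lit 1381596467991) (nat_lit 0) (nat_lit 0) (nat_lit 0) (nat_lit 0) (nat_lit 0) (nat_lit 0) (nat_lit 1) (nat_lit 0) (nat_lit 1) (nat_lit 0) (nat_lit 453)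 (nat_lit 375) (nat_lit 252)) (XT.nd (nat_lit 94) (nat_lit 0) (nat_lit 0) (XT.lf (nat_lit 0) (nat_lit 1491851657547) (nat_lit 0) (nat_lit 0) (nat_lit 0) (nat_lit 0) (nat_lit 0) (nat_lit 0) (nat_lit 1) (nat_lit 0) (nat_lit 1) (nat_lit 0) (nat_lit 454) (nat_lit 375) (nat_lit 251)) (XT.lf (nat_lit 0) (nat_lit 1610927265277) (nat_lit 0) (nat_lit 0) (nat_lit 0) (nat_lit 0) (nat_lit 0) (nat_lit 0) (nat_lit 1) (nat_lit 0) (nat_lit 1) (nat_lit 0) (nat_lit 455) (nat_lit 375) (nat_lit 250)))) (XT.nd (nat_lit 188) (nat_lit 0) (nat_lit 0) (XT.nd (nat_lit 94) (nat_lit 0) (nat_lit 0) (XT.lf (nat_lit 0) (nat_lit 1739528924412) (nat_lit 0) (nat_lit 0) (nat_lit 0) (nat_lit 0) (nat_lit 0) (nat_lit 0) (nat_lit 1) (nat_lit 0) (nat_lit 1) (nat_lit 0) (nat_lit 456) (nat_lit 375) (nat_lit 249)) (XT.lf (nat_lit 0) (nat_lit 1878418718858) (nat_lit 0) (nat_lit 0) (nat_lit 0) (nat_lit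 0) (nat_lit 0) (nat_lit 0) (nat_lit 1) (nat_lit 0) (nat_lit 1) (nat_lit 0) (nat_lit 457) (nat_lit 375) (nat_lit 248))) (XT.nd (nat_lit 94) (nat_lit 0) (nat_lit 0) (XT.lf (nat_lit 0) (nat_lit 2028419699249) (nat_lit 0) (nat_lit 0) (nat_lit 0) (nat_lit 0) (nat_lit 0) (nat_lit 0) (nat_lit 1) (nat_lit 0) (nat_lit 1) (nat_lit 0) (nat_lit 458) (nat_lit 375) (nat_lit 247)) (XT.lf (nat_lit 0) (nat_lit 2190420760284) (nat_lit 0) (nat_lit 0) (nat_lit 0) (nat_lit 0) (nat_lit 0) (nat_lit 0) (nat_lit 1) (nat_lit 0) (nat_lit 1) (nat_lit 0) (nat_lit 459) (nat_lit 375) (nat_lit 246)))))) (XT.nd (nat_lit 658) (nat_lit 0) (nat_lit 0) (XT.nd (nat_lit 282) (nat_lit 0) (nat_lit 0) (XT.nd (nat_lit 94) (nat_lit 0) (nat_lit 0) (XT.lf (nat_lit 0) (nat_lit 2365381908250) (nat_lit 0) (nat_lit 0) (nat_lit 0) (nat_lit 0) (nat_lit 0) (nat_lit 0) (nat_lit 1) (nat_lit 0) (nat_lit 1) (nat_lit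 0) (nat_lit 460) (nat_lit 375) (nat_lit 245)) (XT.nd (nat_lit 94) (nat_lit 0) (nat_lit 0) (XT.lf (nat_lit 0) (nat_lit 2554339949950) (nat_lit 0) (nat_lit 0) (nat_lit 0) (nat_lit 0) (nat_lit 0) (nat_lit 0) (nat_lit 1) (nat_lit 0) (nat_lit 1) (nat_lit 0) (nat_lit 461) (nat_lit 375) (nat_lit 244)) (XT.lf (nat_lit 0) (nat_lit 2758414636742) (nat_lit 0) (nat_lit 0) (nat_lit 0) (nat_lit 0) (nat_lit 0) (nat_lit 0) (nat_lit 1) (nat_lit 0) (nat_lit 1) (nat_lit 0) (nat_lit 462) (nat_lit 375) (nat_lit 243)))) (XT.nd (nat_lit 188) (nat_lit 0) (nat_lit 0) (XT.nd (nat_lit 94) (nat_lit 0) (nat_lit 0) (XT.lf (nat_lit 0) (nat_lit 2978815300103) (nat_lit 0) (nat_lit 0) (nat_lit 0) (nat_lit 0) (nat_lit 0) (nat_lit 0) (nat_lit 1) (nat_lit 0) (nat_lit 1) (nat_lit 0) (nat_lit 463) (nat_lit 375) (nat_lit 242)) (XT.lf (nat_lit 0) (nat_lit 3216848018039) (nat_lit 0) (nat_lit 0) (nat_lit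 0) (nat_lit 0) (nat_lit 0) (nat_lit 0) (nat_lit 1) (nat_lit 0) (nat_lit 1) (nat_lit 0) (nat_lit 464) (nat_lit 375) (nat_lit 241))) (XT.nd (nat_lit 94) (nat_lit 0) (nat_lit 0) (XT.lf (nat_lit 0) (nat_lit 3473923354804) (nat_lit 0) (nat_lit 0) (nat_lit 0) (nat_lit 0) (nat_lit 0) (nat_lit 0) (nat_lit 1) (nat_lit 0) (nat_lit 1) (nat_lit 0) (nat_lit 465) (nat_lit 375) (nat_lit 240)) (XT.lf (nat_lit 0) (nat_lit 3751564719801) (nat_lit 0) (nat_lit 0) (nat_lit 0) (nat_lit 0) (nat_lit 0) (nat_lit 0) (nat_lit 1) (nat_lit 0) (nat_lit 1) (nat_lit 0) (nat_lit 466) (nat_lit 375) (nat_lit 239))))) (XT.nd (nat_lit 376) (nat_lit 0) (nat_lit 0) (XT.nd (nat_lit 188) (nat_lit 0) (nat_lit 0) (XT.nd (nat_lit 94) (nat_lit 0) (nat_lit 0) (XT.lf (nat_lit 0) (nat_lit 4051417395193) (nat_lit 0) (nat_lit 0) (nat_lit 0) (nat_lit 0) (nat_lit 0) (nat_lit 0) (nat_lit 1) (nat_lit 0) (nat_lit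 1) (nat_lit 0) (nat_lit 467) (nat_lit 375) (nat_lit 238)) (XT.lf (nat_lit 0) (nat_lit 4375258285723) (nat_lit 0) (nat_lit 0) (nat_lit 0) (nat_lit 0) (nat_lit 0) (nat_lit 0) (nat_lit 1) (nat_lit 0) (nat_lit 1) (nat_lit 0) (nat_lit 468) (nat_lit 375) (nat_lit 237))) (XT.nd (nat_lit 94) (nat_lit 0) (nat_lit 0) (XT.lf (nat_lit 0) (nat_lit 4725006448520) (nat_lit 0) (nat_lit 0) (nat_lit 0) (nat_lit 0) (nat_lit 0) (nat_lit 0) (nat_lit 1) (nat_lit 0) (nat_lit 1) (nat_lit 0) (nat_lit 469) (nat_lit 375) (nat_lit 236)) (XT.lf (nat_lit 0) (nat_lit 5102734465290) (nat_lit 0) (nat_lit 0) (nat_lit 0) (nat_lit 0) (nat_lit 0) (nat_lit 0) (nat_lit 1) (nat_lit 0) (nat_lit 1) (nat_lit 0) (nat_lit 470) (nat_lit 375) (nat_lit 235)))) (XT.nd (nat_lit 188) (nat_lit 0) (nat_lit 0) (XT.nd (nat_lit 94) (nat_lit 0) (nat_lit 0) (XT.lf (nat_lit 0) (nat_lit 5510680724279) (nat_lit 0) (nat_lit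 0) (nat_lit 0) (nat_lit 0) (nat_lit 0) (nat_lit 0) (nat_lit 1) (nat_lit 0) (nat_lit 1) (nat_lit 0) (nat_lit 471) (nat_lit 375) (nat_lit 234)) (XT.lf (nat_lit 0) (nat_lit 5951262684802) (nat_lit 0) (nat_lit 0) (nat_lit 0) (nat_lit 0) (nat_lit 0) (nat_lit 0) (nat_lit 1) (nat_lit 0) (nat_lit 1) (nat_lit 0) (nat_lit 472) (nat_lit 375) (nat_lit 233))) (XT.nd (nat_lit 94) (nat_lit 0) (nat_lit 0) (XT.lf (nat_lit 0) (nat_lit 6427091202919) (nat_lit 0) (nat_lit 0) (nat_lit 0) (nat_lit 0) (nat_lit 0) (nat_lit 0) (nat_lit 1) (nat_lit 0) (nat_lit 1) (nat_lit 0) (nat_lit 473) (nat_lit 375) (nat_lit 232)) (XT.lf (nat_lit 0) (nat_lit 6940986003183) (nat_lit 0) (nat_lit 0) (nat_lit 0) (nat_lit 0) (nat_lit 0) (nat_lit 0) (nat_lit 1) (nat_lit 0) (nat_lit 1) (nat_lit 0) (nat_lit 474) (nat_lit 375) (nat_lit 231))))))))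
noncomputable def xc124 : XT := (XT.nd (nat_lit 2632) (nat_lit 0) (nat_lit 0) (XT.nd (nat_lit 1316) (nat_lit 0) (nat_lit 0) (XT.nd (nat_lit 658) (nat_lit 0) (nat_lit 0) (XT.nd (nat_lit 282) (nat_lit 0) (nat_lit 0) (XT.nd (nat_lit 94) (nat_lit 0) (nat_lit 0) (XT.lf (nat_lit 0) (nat_lit 7495992388114) (nat_lit 0) (nat_lit 0) (nat_lit 0) (nat_lit 0) (nat_lit 0) (nat_lit 0) (nat_lit 1) (nat_lit 0) (nat_lit 1) (nat_lit 0) (nat_lit 475) (nat_lit 375) (nat_lit 230)) (XT.nd (nat_lit 94) (nat_lit 0) (nat_lit 0) (XT.lf (nat_lit 0) (nat_lit 8095399284437) (nat_lit 0) (nat_lit 0) (nat_lit 0) (nat_lit 0) (nat_lit 0) (nat_lit 0) (nat_lit 1) (nat_lit 0) (nat_lit 1) (nat_lit 0) (nat_lit 476) (nat_lit 375) (nat_lit 229)) (XT.lf (nat_lit 0) (nat_lit 8742758733020) (nat_lit 0) (nat_lit 0) (nat_lit 0) (nat_lit 0) (nat_lit 0) (nat_lit 0) (nat_lit 1) (nat_lit 0) (nat_lit 1) (nat_lit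 0) (nat_lit 477) (nat_lit 375) (nat_lit 228)))) (XT.nd (nat_lit 188) (nat_lit 0) (nat_lit 0) (XT.nd (nat_lit 94) (nat_lit 0) (nat_lit 0) (XT.lf (nat_lit 0) (nat_lit 9441906938002) (nat_lit 0) (nat_lit 0) (nat_lit 0) (nat_lit 0) (nat_lit 0) (nat_lit 0) (nat_lit 1) (nat_lit 0) (nat_lit 1) (nat_lit 0) (nat_lit 478) (nat_lit 375) (nat_lit 227)) (XT.lf (nat_lit 0) (nat_lit 10196986999857) (nat_lit 0) (nat_lit 0) (nat_lit 0) (nat_lit 0) (nat_lit 0) (nat_lit 0) (nat_lit 1) (nat_lit 0) (nat_lit 1) (nat_lit 0) (nat_lit 479) (nat_lit 375) (nat_lit 226))) (XT.nd (nat_lit 94) (nat_lit 0) (nat_lit 0) (XT.lf (nat_lit 0) (nat_lit 11012473467100) (nat_lit 0) (nat_lit 0) (nat_lit 0) (nat_lit 0) (nat_lit 0) (nat_lit 0) (nat_lit 1) (nat_lit 0) (nat_lit 1) (nat_lit 0) (nat_lit 480) (nat_lit 375) (nat_lit 225)) (XT.lf (nat_lit 0) (nat_lit 11893198852130) (nat_lit 0) (nat_lit 0)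 (nat_lit 0) (nat_lit 0) (nat_lit 0) (nat_lit 0) (nat_lit 1) (nat_lit 0) (nat_lit 1) (nat_lit 0) (nat_lit 481) (nat_lit 375) (nat_lit 224))))) (XT.nd (nat_lit 282) (nat_lit 0) (nat_lit 0) (XT.nd (nat_lit 94) (nat_lit 0) (nat_lit 0) (XT.lf (nat_lit 0) (nat_lit 12844382268338) (nat_lit 0) (nat_lit 0) (nat_lit 0) (nat_lit 0) (nat_lit 0) (nat_lit 0) (nat_lit 1) (nat_lit 0) (nat_lit 1) (nat_lit 0) (nat_lit 482) (nat_lit 375) (nat_lit 223)) (XT.nd (nat_lit 94) (nat_lit 0) (nat_lit 0) (XT.lf (nat_lit 0) (nat_lit 13871660358192) (nat_lit 0) (nat_lit 0) (nat_lit 0) (nat_lit 0) (nat_lit 0) (nat_lit 0) (nat_lit 1) (nat_lit 0) (nat_lit 1) (nat_lit 0) (nat_lit 483) (nat_lit 375) (nat_lit 222)) (XT.lf (nat_lit 0) (nat_lit 14981120695558) (nat_lit 0) (nat_lit 0) (nat_lit 0) (nat_lit 0) (nat_lit 0) (nat_lit 0) (nat_lit 1) (nat_lit 0) (nat_lit 1) (nat_lit 0) (nat_lit 484) (nat_lit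 375) (nat_lit 221)))) (XT.nd (nat_lit 188) (nat_lit 0) (nat_lit 0) (XT.nd (nat_lit 94) (nat_lit 0) (nat_lit 0) (XT.lf (nat_lit 0) (nat_lit 16179337860212) (nat_lit 0) (nat_lit 0) (nat_lit 0) (nat_lit 0) (nat_lit 0) (nat_lit 0) (nat_lit 1) (nat_lit 0) (nat_lit 1) (nat_lit 0) (nat_lit 485) (nat_lit 375) (nat_lit 220)) (XT.lf (nat_lit 0) (nat_lit 17473412398315) (nat_lit 0) (nat_lit 0) (nat_lit 0) (nat_lit 0) (nat_lit 0) (nat_lit 0) (nat_lit 1) (nat_lit 0) (nat_lit 1) (nat_lit 0) (nat_lit 486) (nat_lit 375) (nat_lit 219))) (XT.nd (nat_lit 94) (nat_lit 0) (nat_lit 0) (XT.lf (nat_lit 0) (nat_lit 18871012899723) (nat_lit 0) (nat_lit 0) (nat_lit 0) (nat_lit 0) (nat_lit 0) (nat_lit 0) (nat_lit 1) (nat_lit 0) (nat_lit 1) (nat_lit 0) (nat_lit 487) (nat_lit 375) (nat_lit 218)) (XT.lf (nat_lit 0) (nat_lit 20380421441481) (nat_lit 0) (nat_lit 0) (nat_lit 0) (nat_lit 0)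 (nat_lit 0) (nat_lit 0) (nat_lit 1) (nat_lit 0) (nat_lit 1) (nat_lit 0) (nat_lit 488) (nat_lit 375) (nat_lit 217)))))) (XT.nd (nat_lit 658) (nat_lit 0) (nat_lit 0) (XT.nd (nat_lit 282) (nat_lit 0) (nat_lit 0) (XT.nd (nat_lit 94) (nat_lit 0) (nat_lit 0) (XT.lf (nat_lit 0) (nat_lit 22010582666799) (nat_lit 0) (nat_lit 0) (nat_lit 0) (nat_lit 0) (nat_lit 0) (nat_lit 0) (nat_lit 1) (nat_lit 0) (nat_lit 1) (nat_lit 0) (nat_lit 489) (nat_lit 375) (nat_lit 216)) (XT.nd (nat_lit 94) (nat_lit 0) (nat_lit 0) (XT.lf (nat_lit 0) (nat_lit 23771156790346) (nat_lit 0) (nat_lit 0) (nat_lit 0) (nat_lit 0) (nat_lit 0) (nat_lit 0) (nat_lit 1) (nat_lit 0) (nat_lit 1) (nat_lit 0) (nat_lit 490) (nat_lit 375) (nat_lit 215)) (XT.lf (nat_lit 0) (nat_lit 25672576843966) (nat_lit 0) (nat_lit 0) (nat_lit 0) (nat_lit 0) (nat_lit 0) (nat_lit 0) (nat_lit 1) (nat_lit 0) (nat_lit 1) (nat_lit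 0) (nat_lit 491) (nat_lit 375) (nat_lit 214)))) (XT.nd (nat_lit 188) (nat_lit 0) (nat_lit 0) (XT.nd (nat_lit 94) (nat_lit 0) (nat_lit 0) (XT.lf (nat_lit 0) (nat_lit 27726110502050) (nat_lit 0) (nat_lit 0) (nat_lit 0) (nat_lit 0) (nat_lit 0) (nat_lit 0) (nat_lit 1) (nat_lit 0) (nat_lit 1) (nat_lit 0) (nat_lit 492) (nat_lit 375) (nat_lit 213)) (XT.lf (nat_lit 0) (nat_lit 29943926852942) (nat_lit 0) (nat_lit 0) (nat_lit 0) (nat_lit 0) (nat_lit 0) (nat_lit 0) (nat_lit 1) (nat_lit 0) (nat_lit 1) (nat_lit 0) (nat_lit 493) (nat_lit 375) (nat_lit 212))) (XT.nd (nat_lit 94) (nat_lit 0) (nat_lit 0) (XT.lf (nat_lit 0) (nat_lit 32339168512055) (nat_lit 0) (nat_lit 0) (nat_lit 0) (nat_lit 0) (nat_lit 0) (nat_lit 0) (nat_lit 1) (nat_lit 0) (nat_lit 1) (nat_lit 0) (nat_lit 494) (nat_lit 375) (nat_lit 211)) (XT.lf (nat_lit 0) (nat_lit 34926029504035) (nat_lit 0) (nat_lit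 0) (nat_lit 0) (nat_lit 0) (nat_lit 0) (nat_lit 0) (nat_lit 1) (nat_lit 0) (nat_lit 1) (nat_lit 0) (nat_lit 495) (nat_lit 375) (nat_lit 210))))) (XT.nd (nat_lit 282) (nat_lit 0) (nat_lit 0) (XT.nd (nat_lit 94) (nat_lit 0) (nat_lit 0) (XT.lf (nat_lit 0) (nat_lit 37719839375503) (nat_lit 0) (nat_lit 0) (nat_lit 0) (nat_lit 0) (nat_lit 0) (nat_lit 0) (nat_lit 1) (nat_lit 0) (nat_lit 1) (nat_lit 0) (nat_lit 496) (nat_lit 375) (nat_lit 209)) (XT.nd (nat_lit 94) (nat_lit 0) (nat_lit 0) (XT.lf (nat_lit 0) (nat_lit 40737154036806) (nat_lit 0) (nat_lit 0) (nat_lit 0) (nat_lit 0) (nat_lit 0) (nat_lit 0) (nat_lit 1) (nat_lit 0) (nat_lit 1) (nat_lit 0) (nat_lit 497) (nat_lit 375) (nat_lit 208)) (XT.lf (nat_lit 0) (nat_lit 43995853871124) (nat_lit 0) (nat_lit 0) (nat_lit 0) (nat_lit 0) (nat_lit 0) (nat_lit 0) (nat_lit 1) (nat_lit 0) (nat_lit 1) (nat_lit 0) (nat_lit 498)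 (nat_lit 375) (nat_lit 207)))) (XT.nd (nat_lit 188) (nat_lit 0) (nat_lit 0) (XT.nd (nat_lit 94) (nat_lit 0) (nat_lit 0) (XT.lf (nat_lit 0) (nat_lit 47515249692289) (nat_lit 0) (nat_lit 0) (nat_lit 0) (nat_lit 0) (nat_lit 0) (nat_lit 0) (nat_lit 1) (nat_lit 0) (nat_lit 1) (nat_lit 0) (nat_lit 499) (nat_lit 375) (nat_lit 206)) (XT.lf (nat_lit 0) (nat_lit 51316197179241) (nat_lit 0) (nat_lit 0) (nat_lit 0) (nat_lit 0) (nat_lit 0) (nat_lit 0) (nat_lit 1) (nat_lit 0) (nat_lit 1) (nat_lit 0) (nat_lit 500) (nat_lit 375) (nat_lit 205))) (XT.nd (nat_lit 94) (nat_lit 0) (nat_lit 0) (XT.lf (nat_lit 0) (nat_lit 55421220465237) (nat_lit 0) (nat_lit 0) (nat_lit 0) (nat_lit 0) (nat_lit 0) (nat_lit 0) (nat_lit 1) (nat_lit 0) (nat_lit 1) (nat_lit 0) (nat_lit 501) (nat_lit 375) (nat_lit 204)) (XT.lf (nat_lit 0) (nat_lit 59854645614194) (nat_lit 0) (nat_lit 0) (nat_lit 0) (nat_lit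 0) (nat_lit 0) (nat_lit 0) (nat_lit 1) (nat_lit 0) (nat_lit 1) (nat_lit 0) (nat_lit 502) (nat_lit 375) (nat_lit 203))))))) (XT.nd (nat_lit 56964) (nat_lit 0) (nat_lit 4620) (XT.nd (nat_lit 56306) (nat_lit 0) (nat_lit 8904) (XT.nd (nat_lit 55930) (nat_lit 0) (nat_lit 10836) (XT.nd (nat_lit 94) (nat_lit 0) (nat_lit 0) (XT.lf (nat_lit 0) (nat_lit 64642744775142) (nat_lit 0) (nat_lit 0) (nat_lit 0) (nat_lit 0) (nat_lit 0) (nat_lit 0) (nat_lit 1) (nat_lit 0) (nat_lit 1) (nat_lit 0) (nat_lit 503) (nat_lit 375) (nat_lit 202)) (XT.nd (nat_lit 55742) (nat_lit 0) (nat_lit 10752) (XT.lf (nat_lit 0) (nat_lit 69813891869035) (nat_lit 0) (nat_lit 0) (nat_lit 0) (nat_lit 0) (nat_lit 0) (nat_lit 0) (nat_lit 1) (nat_lit 0) (nat_lit 1) (nat_lit 0) (nat_lit 504) (nat_lit 375) (nat_lit 201)) (XT.lf (nat_lit 0) (nat_lit 971634206) (nat_lit 924) (nat_lit 3046758214) (nat_lit 924)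 (nat_lit 3046758214) (nat_lit 128) (nat_lit 3) (nat_lit 139) (nat_lit 3) (nat_lit 139) (nat_lit 5) (nat_lit 376) (nat_lit 376) (nat_lit 328)))) (XT.nd (nat_lit 188) (nat_lit 0) (nat_lit 84) (XT.nd (nat_lit 94) (nat_lit 0) (nat_lit 0) (XT.lf (nat_lit 0) (nat_lit 2671904571) (nat_lit 840) (nat_lit 9330287834) (nat_lit 924) (nat_lit 2660775643) (nat_lit 129) (nat_lit 5) (nat_lit 139) (nat_lit 5) (nat_lit 140) (nat_lit 5) (nat_lit 377) (nat_lit 376) (nat_lit 327)) (XT.lf (nat_lit 84) (nat_lit 2571209042) (nat_lit 0) (nat_lit 1118676016) (nat_lit 924) (nat_lit 11536810441) (nat_lit 130) (nat_lit 5) (nat_lit 129) (nat_lit 5) (nat_lit 140) (nat_lit 5) (nat_lit 378) (nat_lit 376) (nat_lit 326))) (XT.nd (nat_lit 94) (nat_lit 0) (nat_lit 84) (XT.lf (nat_lit 0) (nat_lit 5071770507) (nat_lit 840) (nat_lit 270944857) (nat_lit 924) (nat_lit 10478682455) (nat_lit 130) (nat_lit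 5) (nat_lit 140) (nat_lit 5) (nat_lit 141) (nat_lit 5) (nat_lit 379) (nat_lit 376) (nat_lit 325)) (XT.lf (nat_lit 0) (nat_lit 6853676247) (nat_lit 840) (nat_lit 3072918931) (nat_lit 924) (nat_lit 6522607673) (nat_lit 131) (nat_lit 5) (nat_lit 141) (nat_lit 5) (nat_lit 142) (nat_lit 5) (nat_lit 380) (nat_lit 376) (nat_lit 324))))) (XT.nd (nat_lit 282) (nat_lit 1428) (nat_lit 0) (XT.nd (nat_lit 94) (nat_lit 756) (nat_lit 0) (XT.lf (nat_lit 0) (nat_lit 9041190465) (nat_lit 840) (nat_lit 5914611103) (nat_lit 924) (nat_lit 2158277918) (nat_lit 132) (nat_lit 5) (nat_lit 142) (nat_lit 5) (nat_lit 143) (nat_lit 5) (nat_lit 381) (nat_lit 376) (nat_lit 323)) (XT.nd (nat_lit 94) (nat_lit 756) (nat_lit 0) (XT.lf (nat_lit 84) (nat_lit 8980937778) (nat_lit 0) (nat_lit 2745499591) (nat_lit 924) (nat_lit 6089572305) (nat_lit 133) (nat_lit 5) (nat_lit 132) (nat_lit 5) (nat_lit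 143) (nat_lit 5) (nat_lit 382) (nat_lit 376) (nat_lit 322)) (XT.lf (nat_lit 0) (nat_lit 6728333680) (nat_lit 840) (nat_lit 8234210606) (nat_lit 924) (nat_lit 3594747978) (nat_lit 123) (nat_lit 5) (nat_lit 133) (nat_lit 5) (nat_lit 134) (nat_lit 5) (nat_lit 383) (nat_lit 376) (nat_lit 321)))) (XT.nd (nat_lit 188) (nat_lit 420) (nat_lit 0) (XT.nd (nat_lit 94) (nat_lit 504) (nat_lit 0) (XT.lf (nat_lit 0) (nat_lit 4486762246) (nat_lit 504) (nat_lit 14286179656) (nat_lit 588) (nat_lit 569165452) (nat_lit 117) (nat_lit 5) (nat_lit 123) (nat_lit 5) (nat_lit 124) (nat_lit 5) (nat_lit 384) (nat_lit 376) (nat_lit 320)) (XT.lf (nat_lit 0) (nat_lit 2204233699) (nat_lit 420) (nat_lit 757614823) (nat_lit 504) (nat_lit 17208264974) (nat_lit 111) (nat_lit 5) (nat_lit 116) (nat_lit 5) (nat_lit 117) (nat_lit 5) (nat_lit 385) (nat_lit 376) (nat_lit 319))) (XT.nd (nat_lit 94)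 (nat_lit 420) (nat_lit 0) (XT.lf (nat_lit 0) (nat_lit 7203980179) (nat_lit 504) (nat_lit 155320726) (nat_lit 84) (nat_lit 13682163826) (nat_lit 111) (nat_lit 5) (nat_lit 117) (nat_lit 5) (nat_lit 112) (nat_lit 5) (nat_lit 386) (nat_lit 376) (nat_lit 318)) (XT.lf (nat_lit 0) (nat_lit 12195107082) (nat_lit 504) (nat_lit 2420108892) (nat_lit 84) (nat_lit 7346826857) (nat_lit 106) (nat_lit 5) (nat_lit 112) (nat_lit 5) (nat_lit 107) (nat_lit 5) (nat_lit 387) (nat_lit 376) (nat_lit 317)))))) (XT.nd (nat_lit 658) (nat_lit 1932) (nat_lit 0) (XT.nd (nat_lit 282) (nat_lit 1260) (nat_lit 0) (XT.nd (nat_lit 94) (nat_lit 756) (nat_lit 0) (XT.lf (nat_lit 0) (nat_lit 17976019160) (nat_lit 420) (nat_lit 4646642423) (nat_lit 84) (nat_lit 314080844) (nat_lit 102) (nat_lit 5) (nat_lit 107) (nat_lit 5) (nat_lit 103) (nat_lit 5) (nat_lit 388) (nat_lit 376) (nat_lit 316)) (XT.nd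 (nat_lit 94) (nat_lit 336) (nat_lit 0) (XT.lf (nat_lit 0) (nat_lit 760819718) (nat_lit 420) (nat_lit 6951538183) (nat_lit 84) (nat_lit 16249970829) (nat_lit 97) (nat_lit 5) (nat_lit 102) (nat_lit 5) (nat_lit 98) (nat_lit 5) (nat_lit 389) (nat_lit 376) (nat_lit 315)) (XT.lf (nat_lit 0) (nat_lit 7212235318) (nat_lit 420) (nat_lit 9293389390) (nat_lit 84) (nat_lit 8537973625) (nat_lit 93) (nat_lit 5) (nat_lit 98) (nat_lit 5) (nat_lit 94) (nat_lit 5) (nat_lit 390) (nat_lit 376) (nat_lit 314)))) (XT.nd (nat_lit 188) (nat_lit 672) (nat_lit 0) (XT.nd (nat_lit 94) (nat_lit 252) (nat_lit 0) (XT.lf (nat_lit 0) (nat_lit 14617264268) (nat_lit 336) (nat_lit 20609840) (nat_lit 420) (nat_lit 11550589897) (nat_lit 89) (nat_lit 5) (nat_lit 93) (nat_lit 5) (nat_lit 94) (nat_lit 5) (nat_lit 391) (nat_lit 376) (nat_lit 313)) (XT.lf (nat_lit 0) (nat_lit 13477595612) (nat_lit 252)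 (nat_lit 9810528508) (nat_lit 336) (nat_lit 4105266807) (nat_lit 86) (nat_lit 5) (nat_lit 89) (nat_lit 5) (nat_lit 90) (nat_lit 5) (nat_lit 392) (nat_lit 376) (nat_lit 312))) (XT.nd (nat_lit 94) (nat_lit 252) (nat_lit 0) (XT.lf (nat_lit 0) (nat_lit 4320741421) (nat_lit 420) (nat_lit 16236134189) (nat_lit 84) (nat_lit 8109212755) (nat_lit 81) (nat_lit 5) (nat_lit 86) (nat_lit 5) (nat_lit 82) (nat_lit 5) (nat_lit 393) (nat_lit 376) (nat_lit 311)) (XT.lf (nat_lit 0) (nat_lit 11451357195) (nat_lit 252) (nat_lit 2397988755) (nat_lit 336) (nat_lit 16159273467) (nat_lit 78) (nat_lit 5) (nat_lit 81) (nat_lit 5) (nat_lit 82) (nat_lit 5) (nat_lit 394) (nat_lit 376) (nat_lit 310))))) (XT.nd (nat_lit 376) (nat_lit 924) (nat_lit 0) (XT.nd (nat_lit 188) (nat_lit 420) (nat_lit 0) (XT.nd (nat_lit 94) (nat_lit 336) (nat_lit 0) (XT.lf (nat_lit 0) (nat_lit 10524745022) (nat_lit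 252) (nat_lit 14316804150) (nat_lit 336) (nat_lit 6581938263) (nat_lit 75) (nat_lit 5) (nat_lit 78) (nat_lit 5) (nat_lit 79) (nat_lit 5) (nat_lit 395) (nat_lit 376) (nat_lit 309)) (XT.lf (nat_lit 0) (nat_lit 4234324199) (nat_lit 336) (nat_lit 23168507115) (nat_lit 84) (nat_lit 5516120408) (nat_lit 71) (nat_lit 5) (nat_lit 75) (nat_lit 5) (nat_lit 72) (nat_lit 5) (nat_lit 396) (nat_lit 376) (nat_lit 308))) (XT.nd (nat_lit 94) (nat_lit 168) (nat_lit 0) (XT.lf (nat_lit 0) (nat_lit 8984298528) (nat_lit 252) (nat_lit 7438075138) (nat_lit 336) (nat_lit 18069430200) (nat_lit 68) (nat_lit 5) (nat_lit 71) (nat_lit 5) (nat_lit 72) (nat_lit 5) (nat_lit 397) (nat_lit 376) (nat_lit 307)) (XT.lf (nat_lit 0) (nat_lit 8381050951) (nat_lit 168) (nat_lit 21949060100) (nat_lit 252) (nat_lit 5823140934) (nat_lit 66) (nat_lit 5) (nat_lit 68) (nat_lit 5) (nat_lit 69) (nat_lit 5)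 (nat_lit 398) (nat_lit 376) (nat_lit 306)))) (XT.nd (nat_lit 188) (nat_lit 420) (nat_lit 0) (XT.nd (nat_lit 94) (nat_lit 168) (nat_lit 0) (XT.lf (nat_lit 0) (nat_lit 7852179244) (nat_lit 336) (nat_lit 29962704960) (nat_lit 84) (nat_lit 92639524) (nat_lit 62) (nat_lit 5) (nat_lit 66) (nat_lit 5) (nat_lit 63) (nat_lit 5) (nat_lit 399) (nat_lit 376) (nat_lit 305)) (XT.lf (nat_lit 0) (nat_lit 7470541658) (nat_lit 168) (nat_lit 15912495901) (nat_lit 252) (nat_lit 16366050233) (nat_lit 60) (nat_lit 5) (nat_lit 62) (nat_lit 5) (nat_lit 63) (nat_lit 5) (nat_lit 400) (nat_lit 376) (nat_lit 304))) (XT.nd (nat_lit 94) (nat_lit 252) (nat_lit 0) (XT.lf (nat_lit 0) (nat_lit 7337101702) (nat_lit 168) (nat_lit 33570170250) (nat_lit 252) (nat_lit 793159660) (nat_lit 58) (nat_lit 5) (nat_lit 60) (nat_lit 5) (nat_lit 61) (nat_lit 5) (nat_lit 401) (nat_lit 376) (nat_lit 303))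 (XT.lf (nat_lit 0) (nat_lit 7172491553) (nat_lit 168) (nat_lit 9277436900) (nat_lit 252) (nat_lit 27298580068) (nat_lit 55) (nat_lit 5) (nat_lit 57) (nat_lit 5) (nat_lit 58) (nat_lit 5) (nat_lit 402) (nat_lit 376) (nat_lit 302))))))))
noncomputable def xc125 : XT := (XT.nd (nat_lit 2632) (nat_lit 504) (nat_lit 0) (XT.nd (nat_lit 1316) (nat_lit 1764) (nat_lit 0) (XT.nd (nat_lit 658) (nat_lit 1092) (nat_lit 0) (XT.nd (nat_lit 282) (nat_lit 672) (nat_lit 0) (XT.nd (nat_lit 94) (nat_lit 420) (nat_lit 0) (XT.lf (nat_lit 0) (nat_lit 7248087639) (nat_lit 168) (nat_lit 28769359746) (nat_lit 252) (nat_lit 9893695458) (nat_lit 53) (nat_lit 5) (nat_lit 55) (nat_lit 5) (nat_lit 56) (nat_lit 5) (nat_lit 403) (nat_lit 376) (nat_lit 301)) (XT.nd (nat_lit 94) (nat_lit 168) (nat_lit 0) (XT.lf (nat_lit 0) (nat_lit 7582989787) (nat_lit 168) (nat_lit 1944547079) (nat_lit 252)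 (nat_lit 38666854197) (nat_lit 50) (nat_lit 5) (nat_lit 52) (nat_lit 5) (nat_lit 53) (nat_lit 5) (nat_lit 404) (nat_lit 376) (nat_lit 300)) (XT.lf (nat_lit 0) (nat_lit 7913578956) (nat_lit 168) (nat_lit 23463963730) (nat_lit 252) (nat_lit 19213561776) (nat_lit 48) (nat_lit 5) (nat_lit 50) (nat_lit 5) (nat_lit 51) (nat_lit 5) (nat_lit 405) (nat_lit 376) (nat_lit 299)))) (XT.nd (nat_lit 188) (nat_lit 336) (nat_lit 0) (XT.nd (nat_lit 94) (nat_lit 168) (nat_lit 0) (XT.lf (nat_lit 0) (nat_lit 2712170292) (nat_lit 168) (nat_lit 44416865715) (nat_lit 84) (nat_lit 6000433939) (nat_lit 46) (nat_lit 5) (nat_lit 48) (nat_lit 5) (nat_lit 47) (nat_lit 5) (nat_lit 406) (nat_lit 376) (nat_lit 298)) (XT.lf (nat_lit 0) (nat_lit 9453421935) (nat_lit 168) (nat_lit 17561140901) (nat_lit 252) (nat_lit 28775805434) (nat_lit 44) (nat_lit 5) (nat_lit 46) (nat_lit 5) (nat_lit 47)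 (nat_lit 5) (nat_lit 407) (nat_lit 376) (nat_lit 297))) (XT.nd (nat_lit 94) (nat_lit 252) (nat_lit 0) (XT.lf (nat_lit 0) (nat_lit 10677621616) (nat_lit 84) (nat_lit 43749361905) (nat_lit 168) (nat_lit 4178863103) (nat_lit 43) (nat_lit 5) (nat_lit 44) (nat_lit 5) (nat_lit 45) (nat_lit 4) (nat_lit 408) (nat_lit 376) (nat_lit 296)) (XT.lf (nat_lit 0) (nat_lit 12006762439) (nat_lit 168) (nat_lit 10955258821) (nat_lit 252) (nat_lit 38602433048) (nat_lit 40) (nat_lit 5) (nat_lit 42) (nat_lit 5) (nat_lit 43) (nat_lit 5) (nat_lit 409) (nat_lit 376) (nat_lit 295))))) (XT.nd (nat_lit 282) (nat_lit 672) (nat_lit 0) (XT.nd (nat_lit 94) (nat_lit 336) (nat_lit 0) (XT.lf (nat_lit 0) (nat_lit 13681858492) (nat_lit 84) (nat_lit 39881072914) (nat_lit 168) (nat_lit 11121635801) (nat_lit 39) (nat_lit 5) (nat_lit 40) (nat_lit 5) (nat_lit 41) (nat_lit 4) (nat_lit 410) (nat_lit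 376) (nat_lit 294)) (XT.nd (nat_lit 94) (nat_lit 84) (nat_lit 0) (XT.lf (nat_lit 0) (nat_lit 15734635109) (nat_lit 168) (nat_lit 3526271694) (nat_lit 252) (nat_lit 48714033433) (nat_lit 36) (nat_lit 5) (nat_lit 38) (nat_lit 5) (nat_lit 39) (nat_lit 5) (nat_lit 411) (nat_lit 376) (nat_lit 293)) (XT.lf (nat_lit 0) (nat_lit 17943370350) (nat_lit 84) (nat_lit 35477138606) (nat_lit 168) (nat_lit 18012112853) (nat_lit 35) (nat_lit 5) (nat_lit 36) (nat_lit 5) (nat_lit 37) (nat_lit 4) (nat_lit 412) (nat_lit 376) (nat_lit 292)))) (XT.nd (nat_lit 188) (nat_lit 336) (nat_lit 0) (XT.nd (nat_lit 94) (nat_lit 84) (nat_lit 0) (XT.lf (nat_lit 0) (nat_lit 16036689757) (nat_lit 252) (nat_lit 54343122406) (nat_lit 84) (nat_lit 4706507514) (nat_lit 32) (nat_lit 5) (nat_lit 35) (nat_lit 5) (nat_lit 33) (nat_lit 4) (nat_lit 413) (nat_lit 376) (nat_lit 291)) (XT.lf (nat_lit 0) (nat_lit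 23660632425) (nat_lit 84) (nat_lit 30431220662) (nat_lit 168) (nat_lit 24830020597) (nat_lit 31) (nat_lit 5) (nat_lit 32) (nat_lit 5) (nat_lit 33) (nat_lit 4) (nat_lit 414) (nat_lit 376) (nat_lit 290))) (XT.nd (nat_lit 94) (nat_lit 84) (nat_lit 0) (XT.lf (nat_lit 0) (nat_lit 13345276926) (nat_lit 252) (nat_lit 55724377818) (nat_lit 84) (nat_lit 13904837114) (nat_lit 28) (nat_lit 5) (nat_lit 31) (nat_lit 5) (nat_lit 29) (nat_lit 4) (nat_lit 415) (nat_lit 376) (nat_lit 289)) (XT.lf (nat_lit 0) (nat_lit 31062011645) (nat_lit 84) (nat_lit 24621805539) (nat_lit 168) (nat_lit 31548192729) (nat_lit 27) (nat_lit 5) (nat_lit 28) (nat_lit 5) (nat_lit 29) (nat_lit 4) (nat_lit 416) (nat_lit 376) (nat_lit 288)))))) (XT.nd (nat_lit 658) (nat_lit 840) (nat_lit 0) (XT.nd (nat_lit 282) (nat_lit 504) (nat_lit 0) (XT.nd (nat_lit 94) (nat_lit 252) (nat_lit 0) (XT.lf (nat_lit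 0) (nat_lit 11204938529) (nat_lit 168) (nat_lit 56169749678) (nat_lit 84) (nat_lit 24351351957) (nat_lit 25) (nat_lit 5) (nat_lit 27) (nat_lit 5) (nat_lit 26) (nat_lit 4) (nat_lit 417) (nat_lit 376) (nat_lit 287)) (XT.nd (nat_lit 94) (nat_lit 168) (nat_lit 0) (XT.lf (nat_lit 0) (nat_lit 40409774777) (nat_lit 84) (nat_lit 17910161170) (nat_lit 168) (nat_lit 38131452183) (nat_lit 24) (nat_lit 5) (nat_lit 25) (nat_lit 5) (nat_lit 26) (nat_lit 4) (nat_lit 418) (nat_lit 376) (nat_lit 286)) (XT.lf (nat_lit 0) (nat_lit 9702178530) (nat_lit 168) (nat_lit 55493251544) (nat_lit 84) (nat_lit 36238480609) (nat_lit 22) (nat_lit 5) (nat_lit 24) (nat_lit 5) (nat_lit 23) (nat_lit 4) (nat_lit 419) (nat_lit 376) (nat_lit 285)))) (XT.nd (nat_lit 188) (nat_lit 252) (nat_lit 0) (XT.nd (nat_lit 94) (nat_lit 168) (nat_lit 0) (XT.lf (nat_lit 0) (nat_lit 52004622598) (nat_lit 84)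 (nat_lit 10138020838) (nat_lit 168) (nat_lit 44535332111) (nat_lit 21) (nat_lit 5) (nat_lit 22) (nat_lit 5) (nat_lit 23) (nat_lit 4) (nat_lit 420) (nat_lit 376) (nat_lit 284)) (XT.lf (nat_lit 0) (nat_lit 8938537067) (nat_lit 168) (nat_lit 53478379153) (nat_lit 84) (nat_lit 49784235858) (nat_lit 19) (nat_lit 5) (nat_lit 21) (nat_lit 5) (nat_lit 20) (nat_lit 4) (nat_lit 421) (nat_lit 376) (nat_lit 283))) (XT.nd (nat_lit 94) (nat_lit 168) (nat_lit 0) (XT.lf (nat_lit 0) (nat_lit 66190815338) (nat_lit 84) (nat_lit 1124961482) (nat_lit 168) (nat_lit 50704613434) (nat_lit 18) (nat_lit 5) (nat_lit 19) (nat_lit 5) (nat_lit 20) (nat_lit 4) (nat_lit 422) (nat_lit 376) (nat_lit 282)) (XT.lf (nat_lit 0) (nat_lit 9032696600) (nat_lit 168) (nat_lit 49873797647) (nat_lit 84) (nat_lit 65235515944) (nat_lit 16) (nat_lit 5) (nat_lit 18) (nat_lit 5) (nat_lit 17) (nat_lit 4) (nat_lit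 423) (nat_lit 376) (nat_lit 281))))) (XT.nd (nat_lit 282) (nat_lit 504) (nat_lit 0) (XT.nd (nat_lit 94) (nat_lit 252) (nat_lit 0) (XT.lf (nat_lit 0) (nat_lit 74173140889) (nat_lit 168) (nat_lit 47382831713) (nat_lit 0) (nat_lit 9035796355) (nat_lit 15) (nat_lit 5) (nat_lit 17) (nat_lit 4) (nat_lit 15) (nat_lit 4) (nat_lit 424) (nat_lit 376) (nat_lit 280)) (XT.nd (nat_lit 94) (nat_lit 84) (nat_lit 0) (XT.lf (nat_lit 0) (nat_lit 10122869269) (nat_lit 168) (nat_lit 44388448493) (nat_lit 84) (nat_lit 82871823976) (nat_lit 13) (nat_lit 5) (nat_lit 15) (nat_lit 5) (nat_lit 14) (nat_lit 4) (nat_lit 425) (nat_lit 376) (nat_lit 279)) (XT.lf (nat_lit 0) (nat_lit 82828281561) (nat_lit 168) (nat_lit 40915198111) (nat_lit 0) (nat_lit 20787238440) (nat_lit 12) (nat_lit 5) (nat_lit 14) (nat_lit 4) (nat_lit 12) (nat_lit 4) (nat_lit 426) (nat_lit 376) (nat_lit 278)))) (XT.nd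 (nat_lit 188) (nat_lit 252) (nat_lit 0) (XT.nd (nat_lit 94) (nat_lit 84) (nat_lit 0) (XT.lf (nat_lit 0) (nat_lit 12369501983) (nat_lit 168) (nat_lit 36686002132) (nat_lit 84) (nat_lit 103009455963) (nat_lit 10) (nat_lit 5) (nat_lit 12) (nat_lit 5) (nat_lit 11) (nat_lit 4) (nat_lit 427) (nat_lit 376) (nat_lit 277)) (XT.lf (nat_lit 0) (nat_lit 93514290889) (nat_lit 168) (nat_lit 32048521145) (nat_lit 0) (nat_lit 34423111195) (nat_lit 9) (nat_lit 5) (nat_lit 11) (nat_lit 4) (nat_lit 9) (nat_lit 4) (nat_lit 428) (nat_lit 376) (nat_lit 276))) (XT.nd (nat_lit 94) (nat_lit 84) (nat_lit 0) (XT.lf (nat_lit 0) (nat_lit 15958340151) (nat_lit 168) (nat_lit 26378573106) (nat_lit 84) (nat_lit 126006214095) (nat_lit 7) (nat_lit 5) (nat_lit 9) (nat_lit 5) (nat_lit 8) (nat_lit 4) (nat_lit 429) (nat_lit 376) (nat_lit 275)) (XT.lf (nat_lit 0) (nat_lit 106517466625) (nat_lit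 168) (nat_lit 20367275099) (nat_lit 0) (nat_lit 50236501217) (nat_lit 6) (nat_lit 5) (nat_lit 8) (nat_lit 4) (nat_lit 6) (nat_lit 4) (nat_lit 430) (nat_lit 376) (nat_lit 274))))))) (XT.nd (nat_lit 1316) (nat_lit 0) (nat_lit 0) (XT.nd (nat_lit 658) (nat_lit 0) (nat_lit 0) (XT.nd (nat_lit 282) (nat_lit 0) (nat_lit 0) (XT.nd (nat_lit 94) (nat_lit 336) (nat_lit 0) (XT.lf (nat_lit 0) (nat_lit 21103896059) (nat_lit 168) (nat_lit 13019603939) (nat_lit 84) (nat_lit 152266708951) (nat_lit 4) (nat_lit 5) (nat_lit 6) (nat_lit 5) (nat_lit 5) (nat_lit 4) (nat_lit 431) (nat_lit 376) (nat_lit 273)) (XT.nd (nat_lit 94) (nat_lit 252) (nat_lit 0) (XT.lf (nat_lit 0) (nat_lit 122164397401) (nat_lit 168) (nat_lit 5393434972) (nat_lit 0) (nat_lit 68560496536) (nat_lit 3) (nat_lit 5) (nat_lit 5) (nat_lit 4) (nat_lit 3) (nat_lit 4) (nat_lit 432) (nat_lit 376) (nat_lit 272)) (XT.lf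 (nat_lit 0) (nat_lit 299367934356) (nat_lit 0) (nat_lit 0) (nat_lit 0) (nat_lit 0) (nat_lit 0) (nat_lit 0) (nat_lit 1) (nat_lit 0) (nat_lit 1) (nat_lit 0) (nat_lit 433) (nat_lit 376) (nat_lit 271)))) (XT.nd (nat_lit 188) (nat_lit 0) (nat_lit 0) (XT.nd (nat_lit 94) (nat_lit 0) (nat_lit 0) (XT.lf (nat_lit 0) (nat_lit 323022907519) (nat_lit 0) (nat_lit 0) (nat_lit 0) (nat_lit 0) (nat_lit 0) (nat_lit 0) (nat_lit 1) (nat_lit 0) (nat_lit 1) (nat_lit 0) (nat_lit 434) (nat_lit 376) (nat_lit 270)) (XT.lf (nat_lit 0) (nat_lit 348570291524) (nat_lit 0) (nat_lit 0) (nat_lit 0) (nat_lit 0) (nat_lit 0) (nat_lit 0) (nat_lit 1) (nat_lit 0) (nat_lit 1) (nat_lit 0) (nat_lit 435) (nat_lit 376) (nat_lit 269))) (XT.nd (nat_lit 94) (nat_lit 0) (nat_lit 0) (XT.lf (nat_lit 0) (nat_lit 376161478276) (nat_lit 0) (nat_lit 0) (nat_lit 0) (nat_lit 0) (nat_lit 0) (nat_lit 0) (nat_lit 1)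 (nat_lit 0) (nat_lit 1) (nat_lit 0) (nat_lit 436) (nat_lit 376) (nat_lit 268)) (XT.lf (nat_lit 0) (nat_lit 405959971104) (nat_lit 0) (nat_lit 0) (nat_lit 0) (nat_lit 0) (nat_lit 0) (nat_lit 0) (nat_lit 1) (nat_lit 0) (nat_lit 1) (nat_lit 0) (nat_lit 437) (nat_lit 376) (nat_lit 267))))) (XT.nd (nat_lit 282) (nat_lit 0) (nat_lit 0) (XT.nd (nat_lit 94) (nat_lit 0) (nat_lit 0) (XT.lf (nat_lit 0) (nat_lit 438142353670) (nat_lit 0) (nat_lit 0) (nat_lit 0) (nat_lit 0) (nat_lit 0) (nat_lit 0) (nat_lit 1) (nat_lit 0) (nat_lit 1) (nat_lit 0) (nat_lit 438) (nat_lit 376) (nat_lit 266)) (XT.nd (nat_lit 94) (nat_lit 0) (nat_lit 0) (XT.lf (nat_lit 0) (nat_lit 472899336389) (nat_lit 0) (nat_lit 0) (nat_lit 0) (nat_lit 0) (nat_lit 0) (nat_lit 0) (nat_lit 1) (nat_lit 0) (nat_lit 1) (nat_lit 0) (nat_lit 439) (nat_lit 376) (nat_lit 265)) (XT.lf (nat_lit 0) (nat_lit 510436886565)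 (nat_lit 0) (nat_lit 0) (nat_lit 0) (nat_lit 0) (nat_lit 0) (nat_lit 0) (nat_lit 1) (nat_lit 0) (nat_lit 1) (nat_lit 0) (nat_lit 440) (nat_lit 376) (nat_lit 264)))) (XT.nd (nat_lit 188) (nat_lit 0) (nat_lit 0) (XT.nd (nat_lit 94) (nat_lit 0) (nat_lit 0) (XT.lf (nat_lit 0) (nat_lit 550977448941) (nat_lit 0) (nat_lit 0) (nat_lit 0) (nat_lit 0) (nat_lit 0) (nat_lit 0) (nat_lit 1) (nat_lit 0) (nat_lit 1) (nat_lit 0) (nat_lit 441) (nat_lit 376) (nat_lit 263)) (XT.lf (nat_lit 0) (nat_lit 594761263885) (nat_lit 0) (nat_lit 0) (nat_lit 0) (nat_lit 0) (nat_lit 0) (nat_lit 0) (nat_lit 1) (nat_lit 0) (nat_lit 1) (nat_lit 0) (nat_lit 442) (nat_lit 376) (nat_lit 262))) (XT.nd (nat_lit 94) (nat_lit 0) (nat_lit 0) (XT.lf (nat_lit 0) (nat_lit 642047791043) (nat_lit 0) (nat_lit 0) (nat_lit 0) (nat_lit 0) (nat_lit 0) (nat_lit 0) (nat_lit 1) (nat_lit 0) (nat_lit 1) (nat_lit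 0) (nat_lit 443) (nat_lit 376) (nat_lit 261)) (XT.lf (nat_lit 0) (nat_lit 693117246872) (nat_lit 0) (nat_lit 0) (nat_lit 0) (nat_lit 0) (nat_lit 0) (nat_lit 0) (nat_lit 1) (nat_lit 0) (nat_lit 1) (nat_lit 0) (nat_lit 444) (nat_lit 376) (nat_lit 260)))))) (XT.nd (nat_lit 658) (nat_lit 0) (nat_lit 0) (XT.nd (nat_lit 282) (nat_lit 0) (nat_lit 0) (XT.nd (nat_lit 94) (nat_lit 0) (nat_lit 0) (XT.lf (nat_lit 0) (nat_lit 748272265183) (nat_lit 0) (nat_lit 0) (nat_lit 0) (nat_lit 0) (nat_lit 0) (nat_lit 0) (nat_lit 1) (nat_lit 0) (nat_lit 1) (nat_lit 0) (nat_lit 445) (nat_lit 376) (nat_lit 259)) (XT.nd (nat_lit 94) (nat_lit 0) (nat_lit 0) (XT.lf (nat_lit 0) (nat_lit 807839690530) (nat_lit 0) (nat_lit 0) (nat_lit 0) (nat_lit 0) (nat_lit 0) (nat_lit 0) (nat_lit 1) (nat_lit 0) (nat_lit 1) (nat_lit 0) (nat_lit 446) (nat_lit 376) (nat_lit 258)) (XT.lf (nat_lit 0) (nat_lit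 872172515063) (nat_lit 0) (nat_lit 0) (nat_lit 0) (nat_lit 0) (nat_lit 0) (nat_lit 0) (nat_lit 1) (nat_lit 0) (nat_lit 1) (nat_lit 0) (nat_lit 447) (nat_lit 376) (nat_lit 257)))) (XT.nd (nat_lit 188) (nat_lit 0) (nat_lit 0) (XT.nd (nat_lit 94) (nat_lit 0) (nat_lit 0) (XT.lf (nat_lit 0) (nat_lit 941651970335) (nat_lit 0) (nat_lit 0) (nat_lit 0) (nat_lit 0) (nat_lit 0) (nat_lit 0) (nat_lit 1) (nat_lit 0) (nat_lit 1) (nat_lit 0) (nat_lit 448) (nat_lit 376) (nat_lit 256)) (XT.lf (nat_lit 0) (nat_lit 1016689786451) (nat_lit 0) (nat_lit 0) (nat_lit 0) (nat_lit 0) (nat_lit 0) (nat_lit 0) (nat_lit 1) (nat_lit 0) (nat_lit 1) (nat_lit 0) (nat_lit 449) (nat_lit 376) (nat_lit 255))) (XT.nd (nat_lit 94) (nat_lit 0) (nat_lit 0) (XT.lf (nat_lit 0) (nat_lit 1097730631951) (nat_lit 0) (nat_lit 0) (nat_lit 0) (nat_lit 0) (nat_lit 0) (nat_lit 0) (nat_lit 1) (nat_lit 0) (nat_lit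 1) (nat_lit 0) (nat_lit 450) (nat_lit 376) (nat_lit 254)) (XT.lf (nat_lit 0) (nat_lit 1185254748882) (nat_lit 0) (nat_lit 0) (nat_lit 0) (nat_lit 0) (nat_lit 0) (nat_lit 0) (nat_lit 1) (nat_lit 0) (nat_lit 1) (nat_lit 0) (nat_lit 451) (nat_lit 376) (nat_lit 253))))) (XT.nd (nat_lit 376) (nat_lit 0) (nat_lit 0) (XT.nd (nat_lit 188) (nat_lit 0) (nat_lit 0) (XT.nd (nat_lit 94) (nat_lit 0) (nat_lit 0) (XT.lf (nat_lit 0) (nat_lit 1279780798678) (nat_lit 0) (nat_lit 0) (nat_lit 0) (nat_lit 0) (nat_lit 0) (nat_lit 0) (nat_lit 1) (nat_lit 0) (nat_lit 1) (nat_lit 0) (nat_lit 452) (nat_lit 376) (nat_lit 252)) (XT.lf (nat_lit 0) (nat_lit 1381868935709) (nat_lit 0) (nat_lit 0) (nat_lit 0) (nat_lit 0) (nat_lit 0) (nat_lit 0) (nat_lit 1) (nat_lit 0) (nat_lit 1) (nat_lit 0) (nat_lit 453) (nat_lit 376) (nat_lit 251))) (XT.nd (nat_lit 94) (nat_lit 0) (nat_lit 0) (XT.lf (nat_lit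 0) (nat_lit 1492124126711) (nat_lit 0) (nat_lit 0) (nat_lit 0) (nat_lit 0) (nat_lit 0) (nat_lit 0) (nat_lit 1) (nat_lit 0) (nat_lit 1) (nat_lit 0) (nat_lit 454) (nat_lit 376) (nat_lit 250)) (XT.lf (nat_lit 0) (nat_lit 1611199735781) (nat_lit 0) (nat_lit 0) (nat_lit 0) (nat_lit 0) (nat_lit 0) (nat_lit 0) (nat_lit 1) (nat_lit 0) (nat_lit 1) (nat_lit 0) (nat_lit 455) (nat_lit 376) (nat_lit 249)))) (XT.nd (nat_lit 188) (nat_lit 0) (nat_lit 0) (XT.nd (nat_lit 94) (nat_lit 0) (nat_lit 0) (XT.lf (nat_lit 0) (nat_lit 1739801396157) (nat_lit 0) (nat_lit 0) (nat_lit 0) (nat_lit 0) (nat_lit 0) (nat_lit 0) (nat_lit 1) (nat_lit 0) (nat_lit 1) (nat_lit 0) (nat_lit 456) (nat_lit 376) (nat_lit 248)) (XT.lf (nat_lit 0) (nat_lit 1878691191752) (nat_lit 0) (nat_lit 0) (nat_lit 0) (nat_lit 0) (nat_lit 0) (nat_lit 0) (nat_lit 1) (nat_lit 0) (nat_lit 1) (nat_lit 0) (nat_lit 457)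 (nat_lit 376) (nat_lit 247))) (XT.nd (nat_lit 94) (nat_lit 0) (nat_lit 0) (XT.lf (nat_lit 0) (nat_lit 2028692173207) (nat_lit 0) (nat_lit 0) (nat_lit 0) (nat_lit 0) (nat_lit 0) (nat_lit 0) (nat_lit 1) (nat_lit 0) (nat_lit 1) (nat_lit 0) (nat_lit 458) (nat_lit 376) (nat_lit 246)) (XT.lf (nat_lit 0) (nat_lit 2190693235226) (nat_lit 0) (nat_lit 0) (nat_lit 0) (nat_lit 0) (nat_lit 0) (nat_lit 0) (nat_lit 1) (nat_lit 0) (nat_lit 1) (nat_lit 0) (nat_lit 459) (nat_lit 376) (nat_lit 245))))))))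
noncomputable def xc126 : XT := (XT.nd (nat_lit 2632) (nat_lit 0) (nat_lit 0) (XT.nd (nat_lit 1316) (nat_lit 0) (nat_lit 0) (XT.nd (nat_lit 658) (nat_lit 0) (nat_lit 0) (XT.nd (nat_lit 282) (nat_lit 0) (nat_lit 0) (XT.nd (nat_lit 94) (nat_lit 0) (nat_lit 0) (XT.lf (nat_lit 0) (nat_lit 2365654384104) (nat_lit 0) (nat_lit 0) (nat_lit 0) (nat_lit 0) (nat_lit 0) (nat_lit 0) (nat_lit 1) (nat_lit 0) (nat_lit 1) (nat_lit 0) (nat_lit 460) (nat_lit 376) (nat_lit 244)) (XT.nd (nat_lit 94) (nat_lit 0) (nat_lit 0) (XT.lf (nat_lit 0) (nat_lit 2554612426648) (nat_lit 0) (nat_lit 0) (nat_lit 0) (nat_lit 0) (nat_lit 0) (nat_lit 0) (nat_lit 1) (nat_lit 0) (nat_lit 1) (nat_lit 0) (nat_lit 461) (nat_lit 376) (nat_lit 243)) (XT.lf (nat_lit 0) (nat_lit 2758687114222) (nat_lit 0) (nat_lit 0) (nat_lit 0) (nat_lit 0) (nat_lit 0) (nat_lit 0) (nat_lit 1) (nat_lit 0) (nat_lit 1) (nat_lit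 0) (nat_lit 462) (nat_lit 376) (nat_lit 242)))) (XT.nd (nat_lit 188) (nat_lit 0) (nat_lit 0) (XT.nd (nat_lit 94) (nat_lit 0) (nat_lit 0) (XT.lf (nat_lit 0) (nat_lit 2979087778307) (nat_lit 0) (nat_lit 0) (nat_lit 0) (nat_lit 0) (nat_lit 0) (nat_lit 0) (nat_lit 1) (nat_lit 0) (nat_lit 1) (nat_lit 0) (nat_lit 463) (nat_lit 376) (nat_lit 241)) (XT.lf (nat_lit 0) (nat_lit 3217120496913) (nat_lit 0) (nat_lit 0) (nat_lit 0) (nat_lit 0) (nat_lit 0) (nat_lit 0) (nat_lit 1) (nat_lit 0) (nat_lit 1) (nat_lit 0) (nat_lit 464) (nat_lit 376) (nat_lit 240))) (XT.nd (nat_lit 94) (nat_lit 0) (nat_lit 0) (XT.lf (nat_lit 0) (nat_lit 3474195834299) (nat_lit 0) (nat_lit 0) (nat_lit 0) (nat_lit 0) (nat_lit 0) (nat_lit 0) (nat_lit 1) (nat_lit 0) (nat_lit 1) (nat_lit 0) (nat_lit 465) (nat_lit 376) (nat_lit 239)) (XT.lf (nat_lit 0) (nat_lit 3751837199870) (nat_lit 0) (nat_lit 0) (nat_lit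 0) (nat_lit 0) (nat_lit 0) (nat_lit 0) (nat_lit 1) (nat_lit 0) (nat_lit 1) (nat_lit 0) (nat_lit 466) (nat_lit 376) (nat_lit 238))))) (XT.nd (nat_lit 282) (nat_lit 0) (nat_lit 0) (XT.nd (nat_lit 94) (nat_lit 0) (nat_lit 0) (XT.lf (nat_lit 0) (nat_lit 4051689875794) (nat_lit 0) (nat_lit 0) (nat_lit 0) (nat_lit 0) (nat_lit 0) (nat_lit 0) (nat_lit 1) (nat_lit 0) (nat_lit 1) (nat_lit 0) (nat_lit 467) (nat_lit 376) (nat_lit 237)) (XT.nd (nat_lit 94) (nat_lit 0) (nat_lit 0) (XT.lf (nat_lit 0) (nat_lit 4375530766817) (nat_lit 0) (nat_lit 0) (nat_lit 0) (nat_lit 0) (nat_lit 0) (nat_lit 0) (nat_lit 1) (nat_lit 0) (nat_lit 1) (nat_lit 0) (nat_lit 468) (nat_lit 376) (nat_lit 236)) (XT.lf (nat_lit 0) (nat_lit 4725278930070) (nat_lit 0) (nat_lit 0) (nat_lit 0) (nat_lit 0) (nat_lit 0) (nat_lit 0) (nat_lit 1) (nat_lit 0) (nat_lit 1) (nat_lit 0) (nat_lit 469) (nat_lit 376)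 (nat_lit 235)))) (XT.nd (nat_lit 188) (nat_lit 0) (nat_lit 0) (XT.nd (nat_lit 94) (nat_lit 0) (nat_lit 0) (XT.lf (nat_lit 0) (nat_lit 5103006947262) (nat_lit 0) (nat_lit 0) (nat_lit 0) (nat_lit 0) (nat_lit 0) (nat_lit 0) (nat_lit 1) (nat_lit 0) (nat_lit 1) (nat_lit 0) (nat_lit 470) (nat_lit 376) (nat_lit 234)) (XT.lf (nat_lit 0) (nat_lit 5510953206643) (nat_lit 0) (nat_lit 0) (nat_lit 0) (nat_lit 0) (nat_lit 0) (nat_lit 0) (nat_lit 1) (nat_lit 0) (nat_lit 1) (nat_lit 0) (nat_lit 471) (nat_lit 376) (nat_lit 233))) (XT.nd (nat_lit 94) (nat_lit 0) (nat_lit 0) (XT.lf (nat_lit 0) (nat_lit 5951535167527) (nat_lit 0) (nat_lit 0) (nat_lit 0) (nat_lit 0) (nat_lit 0) (nat_lit 0) (nat_lit 1) (nat_lit 0) (nat_lit 1) (nat_lit 0) (nat_lit 472) (nat_lit 376) (nat_lit 232)) (XT.lf (nat_lit 0) (nat_lit 6427363685980) (nat_lit 0) (nat_lit 0) (nat_lit 0) (nat_lit 0) (nat_lit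 0) (nat_lit 0) (nat_lit 1) (nat_lit 0) (nat_lit 1) (nat_lit 0) (nat_lit 473) (nat_lit 376) (nat_lit 231)))))) (XT.nd (nat_lit 658) (nat_lit 0) (nat_lit 0) (XT.nd (nat_lit 282) (nat_lit 0) (nat_lit 0) (XT.nd (nat_lit 94) (nat_lit 0) (nat_lit 0) (XT.lf (nat_lit 0) (nat_lit 6941258486554) (nat_lit 0) (nat_lit 0) (nat_lit 0) (nat_lit 0) (nat_lit 0) (nat_lit 0) (nat_lit 1) (nat_lit 0) (nat_lit 1) (nat_lit 0) (nat_lit 474) (nat_lit 376) (nat_lit 230)) (XT.nd (nat_lit 94) (nat_lit 0) (nat_lit 0) (XT.lf (nat_lit 0) (nat_lit 7496264871773) (nat_lit 0) (nat_lit 0) (nat_lit 0) (nat_lit 0) (nat_lit 0) (nat_lit 0) (nat_lit 1) (nat_lit 0) (nat_lit 1) (nat_lit 0) (nat_lit 475) (nat_lit 376) (nat_lit 229)) (XT.lf (nat_lit 0) (nat_lit 8095671768362) (nat_lit 0) (nat_lit 0) (nat_lit 0) (nat_lit 0) (nat_lit 0) (nat_lit 0) (nat_lit 1) (nat_lit 0) (nat_lit 1) (nat_lit 0) (nat_lit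 476) (nat_lit 376) (nat_lit 228)))) (XT.nd (nat_lit 188) (nat_lit 0) (nat_lit 0) (XT.nd (nat_lit 94) (nat_lit 0) (nat_lit 0) (XT.lf (nat_lit 0) (nat_lit 8743031217191) (nat_lit 0) (nat_lit 0) (nat_lit 0) (nat_lit 0) (nat_lit 0) (nat_lit 0) (nat_lit 1) (nat_lit 0) (nat_lit 1) (nat_lit 0) (nat_lit 477) (nat_lit 376) (nat_lit 227)) (XT.lf (nat_lit 0) (nat_lit 9442179422402) (nat_lit 0) (nat_lit 0) (nat_lit 0) (nat_lit 0) (nat_lit 0) (nat_lit 0) (nat_lit 1) (nat_lit 0) (nat_lit 1) (nat_lit 0) (nat_lit 478) (nat_lit 376) (nat_lit 226))) (XT.nd (nat_lit 94) (nat_lit 0) (nat_lit 0) (XT.lf (nat_lit 0) (nat_lit 10197259484468) (nat_lit 0) (nat_lit 0) (nat_lit 0) (nat_lit 0) (nat_lit 0) (nat_lit 0) (nat_lit 1) (nat_lit 0) (nat_lit 1) (nat_lit 0) (nat_lit 479) (nat_lit 376) (nat_lit 225)) (XT.lf (nat_lit 0) (nat_lit 11012745951907) (nat_lit 0) (nat_lit 0) (nat_lit 0)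 (nat_lit 0) (nat_lit 0) (nat_lit 0) (nat_lit 1) (nat_lit 0) (nat_lit 1) (nat_lit 0) (nat_lit 480) (nat_lit 376) (nat_lit 224))))) (XT.nd (nat_lit 282) (nat_lit 0) (nat_lit 0) (XT.nd (nat_lit 94) (nat_lit 0) (nat_lit 0) (XT.lf (nat_lit 0) (nat_lit 11893471337117) (nat_lit 0) (nat_lit 0) (nat_lit 0) (nat_lit 0) (nat_lit 0) (nat_lit 0) (nat_lit 1) (nat_lit 0) (nat_lit 1) (nat_lit 0) (nat_lit 481) (nat_lit 376) (nat_lit 223)) (XT.nd (nat_lit 94) (nat_lit 0) (nat_lit 0) (XT.lf (nat_lit 0) (nat_lit 12844654753494) (nat_lit 0) (nat_lit 0) (nat_lit 0) (nat_lit 0) (nat_lit 0) (nat_lit 0) (nat_lit 1) (nat_lit 0) (nat_lit 1) (nat_lit 0) (nat_lit 482) (nat_lit 376) (nat_lit 222)) (XT.lf (nat_lit 0) (nat_lit 13871932843503) (nat_lit 0) (nat_lit 0) (nat_lit 0) (nat_lit 0) (nat_lit 0) (nat_lit 0) (nat_lit 1) (nat_lit 0) (nat_lit 1) (nat_lit 0) (nat_lit 483) (nat_lit 376)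 (nat_lit 221)))) (XT.nd (nat_lit 188) (nat_lit 0) (nat_lit 0) (XT.nd (nat_lit 94) (nat_lit 0) (nat_lit 0) (XT.lf (nat_lit 0) (nat_lit 14981393181012) (nat_lit 0) (nat_lit 0) (nat_lit 0) (nat_lit 0) (nat_lit 0) (nat_lit 0) (nat_lit 1) (nat_lit 0) (nat_lit 1) (nat_lit 0) (nat_lit 484) (nat_lit 376) (nat_lit 220)) (XT.lf (nat_lit 0) (nat_lit 16179610345800) (nat_lit 0) (nat_lit 0) (nat_lit 0) (nat_lit 0) (nat_lit 0) (nat_lit 0) (nat_lit 1) (nat_lit 0) (nat_lit 1) (nat_lit 0) (nat_lit 485) (nat_lit 376) (nat_lit 219))) (XT.nd (nat_lit 94) (nat_lit 0) (nat_lit 0) (XT.lf (nat_lit 0) (nat_lit 17473684884026) (nat_lit 0) (nat_lit 0) (nat_lit 0) (nat_lit 0) (nat_lit 0) (nat_lit 0) (nat_lit 1) (nat_lit 0) (nat_lit 1) (nat_lit 0) (nat_lit 486) (nat_lit 376) (nat_lit 218)) (XT.lf (nat_lit 0) (nat_lit 18871285385548) (nat_lit 0) (nat_lit 0) (nat_lit 0) (nat_lit 0) (nat_lit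 0) (nat_lit 0) (nat_lit 1) (nat_lit 0) (nat_lit 1) (nat_lit 0) (nat_lit 487) (nat_lit 376) (nat_lit 217))))))) (XT.nd (nat_lit 1316) (nat_lit 0) (nat_lit 0) (XT.nd (nat_lit 658) (nat_lit 0) (nat_lit 0) (XT.nd (nat_lit 282) (nat_lit 0) (nat_lit 0) (XT.nd (nat_lit 94) (nat_lit 0) (nat_lit 0) (XT.lf (nat_lit 0) (nat_lit 20380693927411) (nat_lit 0) (nat_lit 0) (nat_lit 0) (nat_lit 0) (nat_lit 0) (nat_lit 0) (nat_lit 1) (nat_lit 0) (nat_lit 1) (nat_lit 0) (nat_lit 488) (nat_lit 376) (nat_lit 216)) (XT.nd (nat_lit 94) (nat_lit 0) (nat_lit 0) (XT.lf (nat_lit 0) (nat_lit 22010855152828) (nat_lit 0) (nat_lit 0) (nat_lit 0) (nat_lit 0) (nat_lit 0) (nat_lit 0) (nat_lit 1) (nat_lit 0) (nat_lit 1) (nat_lit 0) (nat_lit 489) (nat_lit 376) (nat_lit 215)) (XT.lf (nat_lit 0) (nat_lit 23771429276466) (nat_lit 0) (nat_lit 0) (nat_lit 0) (nat_lit 0) (nat_lit 0) (nat_lit 0) (nat_lit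 1) (nat_lit 0) (nat_lit 1) (nat_lit 0) (nat_lit 490) (nat_lit 376) (nat_lit 214)))) (XT.nd (nat_lit 188) (nat_lit 0) (nat_lit 0) (XT.nd (nat_lit 94) (nat_lit 0) (nat_lit 0) (XT.lf (nat_lit 0) (nat_lit 25672849330169) (nat_lit 0) (nat_lit 0) (nat_lit 0) (nat_lit 0) (nat_lit 0) (nat_lit 0) (nat_lit 1) (nat_lit 0) (nat_lit 1) (nat_lit 0) (nat_lit 491) (nat_lit 376) (nat_lit 213)) (XT.lf (nat_lit 0) (nat_lit 27726382988331) (nat_lit 0) (nat_lit 0) (nat_lit 0) (nat_lit 0) (nat_lit 0) (nat_lit 0) (nat_lit 1) (nat_lit 0) (nat_lit 1) (nat_lit 0) (nat_lit 492) (nat_lit 376) (nat_lit 212))) (XT.nd (nat_lit 94) (nat_lit 0) (nat_lit 0) (XT.lf (nat_lit 0) (nat_lit 29944199339295) (nat_lit 0) (nat_lit 0) (nat_lit 0) (nat_lit 0) (nat_lit 0) (nat_lit 0) (nat_lit 1) (nat_lit 0) (nat_lit 1) (nat_lit 0) (nat_lit 493) (nat_lit 376) (nat_lit 211)) (XT.lf (nat_lit 0) (nat_lit 32339440998474)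 (nat_lit 0) (nat_lit 0) (nat_lit 0) (nat_lit 0) (nat_lit 0) (nat_lit 0) (nat_lit 1) (nat_lit 0) (nat_lit 1) (nat_lit 0) (nat_lit 494) (nat_lit 376) (nat_lit 210))))) (XT.nd (nat_lit 282) (nat_lit 0) (nat_lit 0) (XT.nd (nat_lit 94) (nat_lit 0) (nat_lit 0) (XT.lf (nat_lit 0) (nat_lit 34926301990516) (nat_lit 0) (nat_lit 0) (nat_lit 0) (nat_lit 0) (nat_lit 0) (nat_lit 0) (nat_lit 1) (nat_lit 0) (nat_lit 1) (nat_lit 0) (nat_lit 495) (nat_lit 376) (nat_lit 209)) (XT.nd (nat_lit 94) (nat_lit 0) (nat_lit 0) (XT.lf (nat_lit 0) (nat_lit 37720111862041) (nat_lit 0) (nat_lit 0) (nat_lit 0) (nat_lit 0) (nat_lit 0) (nat_lit 0) (nat_lit 1) (nat_lit 0) (nat_lit 1) (nat_lit 0) (nat_lit 496) (nat_lit 376) (nat_lit 208)) (XT.lf (nat_lit 0) (nat_lit 40737426523397) (nat_lit 0) (nat_lit 0) (nat_lit 0) (nat_lit 0) (nat_lit 0) (nat_lit 0) (nat_lit 1) (nat_lit 0) (nat_lit 1) (nat_lit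 0) (nat_lit 497) (nat_lit 376) (nat_lit 207)))) (XT.nd (nat_lit 188) (nat_lit 0) (nat_lit 0) (XT.nd (nat_lit 94) (nat_lit 0) (nat_lit 0) (XT.lf (nat_lit 0) (nat_lit 43996126357764) (nat_lit 0) (nat_lit 0) (nat_lit 0) (nat_lit 0) (nat_lit 0) (nat_lit 0) (nat_lit 1) (nat_lit 0) (nat_lit 1) (nat_lit 0) (nat_lit 498) (nat_lit 376) (nat_lit 206)) (XT.lf (nat_lit 0) (nat_lit 47515522178974) (nat_lit 0) (nat_lit 0) (nat_lit 0) (nat_lit 0) (nat_lit 0) (nat_lit 0) (nat_lit 1) (nat_lit 0) (nat_lit 1) (nat_lit 0) (nat_lit 499) (nat_lit 376) (nat_lit 205))) (XT.nd (nat_lit 94) (nat_lit 0) (nat_lit 0) (XT.lf (nat_lit 0) (nat_lit 51316469665969) (nat_lit 0) (nat_lit 0) (nat_lit 0) (nat_lit 0) (nat_lit 0) (nat_lit 0) (nat_lit 1) (nat_lit 0) (nat_lit 1) (nat_lit 0) (nat_lit 500) (nat_lit 376) (nat_lit 204)) (XT.lf (nat_lit 0) (nat_lit 55421492952003) (nat_lit 0) (nat_lit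 0) (nat_lit 0) (nat_lit 0) (nat_lit 0) (nat_lit 0) (nat_lit 1) (nat_lit 0) (nat_lit 1) (nat_lit 0) (nat_lit 501) (nat_lit 376) (nat_lit 203)))))) (XT.nd (nat_lit 56400) (nat_lit 0) (nat_lit 8904) (XT.nd (nat_lit 56024) (nat_lit 0) (nat_lit 10752) (XT.nd (nat_lit 94) (nat_lit 0) (nat_lit 0) (XT.lf (nat_lit 0) (nat_lit 59854918100996) (nat_lit 0) (nat_lit 0) (nat_lit 0) (nat_lit 0) (nat_lit 0) (nat_lit 0) (nat_lit 1) (nat_lit 0) (nat_lit 1) (nat_lit 0) (nat_lit 502) (nat_lit 376) (nat_lit 202)) (XT.nd (nat_lit 94) (nat_lit 0) (nat_lit 0) (XT.lf (nat_lit 0) (nat_lit 64643017261977) (nat_lit 0) (nat_lit 0) (nat_lit 0) (nat_lit 0) (nat_lit 0) (nat_lit 0) (nat_lit 1) (nat_lit 0) (nat_lit 1) (nat_lit 0) (nat_lit 503) (nat_lit 376) (nat_lit 201)) (XT.lf (nat_lit 0) (nat_lit 69814164355901) (nat_lit 0) (nat_lit 0) (nat_lit 0) (nat_lit 0) (nat_lit 0) (nat_lit 0) (nat_lit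 1) (nat_lit 0) (nat_lit 1) (nat_lit 0) (nat_lit 504) (nat_lit 376) (nat_lit 200)))) (XT.nd (nat_lit 188) (nat_lit 0) (nat_lit 84) (XT.nd (nat_lit 94) (nat_lit 0) (nat_lit 84) (XT.lf (nat_lit 0) (nat_lit 1560790122) (nat_lit 924) (nat_lit 3022000652) (nat_lit 924) (nat_lit 3022000652) (nat_lit 128) (nat_lit 3) (nat_lit 139) (nat_lit 3) (nat_lit 139) (nat_lit 5) (nat_lit 377) (nat_lit 377) (nat_lit 326)) (XT.lf (nat_lit 0) (nat_lit 3833868084) (nat_lit 840) (nat_lit 9508404287) (nat_lit 924) (nat_lit 2446322564) (nat_lit 129) (nat_lit 5) (nat_lit 139) (nat_lit 5) (nat_lit 140) (nat_lit 5) (nat_lit 378) (nat_lit 377) (nat_lit 325))) (XT.nd (nat_lit 94) (nat_lit 0) (nat_lit 84) (XT.lf (nat_lit 84) (nat_lit 3320514428) (nat_lit 0) (nat_lit 1551021973) (nat_lit 924) (nat_lit 11528971711) (nat_lit 130) (nat_lit 5) (nat_lit 129) (nat_lit 5) (nat_lit 140) (nat_lit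 5) (nat_lit 379) (nat_lit 377) (nat_lit 324)) (XT.lf (nat_lit 84) (nat_lit 265205343) (nat_lit 0) (nat_lit 6032287828) (nat_lit 924) (nat_lit 10748617422) (nat_lit 131) (nat_lit 5) (nat_lit 130) (nat_lit 5) (nat_lit 141) (nat_lit 5) (nat_lit 380) (nat_lit 377) (nat_lit 323))))) (XT.nd (nat_lit 376) (nat_lit 1428) (nat_lit 0) (XT.nd (nat_lit 188) (nat_lit 672) (nat_lit 0) (XT.nd (nat_lit 94) (nat_lit 0) (nat_lit 84) (XT.lf (nat_lit 0) (nat_lit 8161863961) (nat_lit 840) (nat_lit 2751389681) (nat_lit 924) (nat_lit 6813890757) (nat_lit 131) (nat_lit 5) (nat_lit 141) (nat_lit 5) (nat_lit 142) (nat_lit 5) (nat_lit 381) (nat_lit 377) (nat_lit 322)) (XT.lf (nat_lit 0) (nat_lit 10473919680) (nat_lit 840) (nat_lit 5806825825) (nat_lit 924) (nat_lit 2166988641) (nat_lit 132) (nat_lit 5) (nat_lit 142) (nat_lit 5) (nat_lit 143) (nat_lit 5) (nat_lit 382) (nat_lit 377) (nat_lit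 321))) (XT.nd (nat_lit 94) (nat_lit 756) (nat_lit 0) (XT.lf (nat_lit 84) (nat_lit 10255119407) (nat_lit 0) (nat_lit 3074992402) (nat_lit 924) (nat_lit 5877900666) (nat_lit 133) (nat_lit 5) (nat_lit 132) (nat_lit 5) (nat_lit 143) (nat_lit 5) (nat_lit 383) (nat_lit 377) (nat_lit 320)) (XT.lf (nat_lit 0) (nat_lit 7831628976) (nat_lit 840) (nat_lit 8951411218) (nat_lit 924) (nat_lit 3227660833) (nat_lit 123) (nat_lit 5) (nat_lit 133) (nat_lit 5) (nat_lit 134) (nat_lit 5) (nat_lit 384) (nat_lit 377) (nat_lit 319)))) (XT.nd (nat_lit 188) (nat_lit 420) (nat_lit 0) (XT.nd (nat_lit 94) (nat_lit 504) (nat_lit 0) (XT.lf (nat_lit 0) (nat_lit 5416869295) (nat_lit 504) (nat_lit 15443288038) (nat_lit 588) (nat_lit 49606) (nat_lit 117) (nat_lit 5) (nat_lit 123) (nat_lit 5) (nat_lit 124) (nat_lit 5) (nat_lit 385) (nat_lit 377) (nat_lit 318)) (XT.lf (nat_lit 0) (nat_lit 2945733944)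 (nat_lit 420) (nat_lit 812790357) (nat_lit 504) (nat_lit 17997211879) (nat_lit 111) (nat_lit 5) (nat_lit 116) (nat_lit 5) (nat_lit 117) (nat_lit 5) (nat_lit 386) (nat_lit 377) (nat_lit 317))) (XT.nd (nat_lit 94) (nat_lit 0) (nat_lit 0) (XT.lf (nat_lit 0) (nat_lit 393996471) (nat_lit 420) (nat_lit 7910798634) (nat_lit 504) (nat_lit 14393761980) (nat_lit 106) (nat_lit 5) (nat_lit 111) (nat_lit 5) (nat_lit 112) (nat_lit 5) (nat_lit 387) (nat_lit 377) (nat_lit 316)) (XT.lf (nat_lit 0) (nat_lit 13659445253) (nat_lit 504) (nat_lit 2064621732) (nat_lit 84) (nat_lit 7970502792) (nat_lit 106) (nat_lit 5) (nat_lit 112) (nat_lit 5) (nat_lit 107) (nat_lit 5) (nat_lit 388) (nat_lit 377) (nat_lit 315))))))))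
noncomputable def xc127 : XT := (XT.nd (nat_lit 2632) (nat_lit 2352) (nat_lit 0) (XT.nd (nat_lit 1316) (nat_lit 2520) (nat_lit 0) (XT.nd (nat_lit 658) (nat_lit 1680) (nat_lit 0) (XT.nd (nat_lit 282) (nat_lit 1260) (nat_lit 0) (XT.nd (nat_lit 94) (nat_lit 756) (nat_lit 0) (XT.lf (nat_lit 0) (nat_lit 19875835565) (nat_lit 420) (nat_lit 4471111700) (nat_lit 84) (nat_lit 401647813) (nat_lit 102) (nat_lit 5) (nat_lit 107) (nat_lit 5) (nat_lit 103) (nat_lit 5) (nat_lit 389) (nat_lit 377) (nat_lit 314)) (XT.nd (nat_lit 94) (nat_lit 336) (nat_lit 0) (XT.lf (nat_lit 0) (nat_lit 1264533264) (nat_lit 420) (nat_lit 6969539912) (nat_lit 84) (nat_lit 17623099454) (nat_lit 97) (nat_lit 5) (nat_lit 102) (nat_lit 5) (nat_lit 98) (nat_lit 5) (nat_lit 390) (nat_lit 377) (nat_lit 313)) (XT.lf (nat_lit 0) (nat_lit 8208804064) (nat_lit 420) (nat_lit 9502730313) (nat_lit 84) (nat_lit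 9314572326) (nat_lit 93) (nat_lit 5) (nat_lit 98) (nat_lit 5) (nat_lit 94) (nat_lit 5) (nat_lit 391) (nat_lit 377) (nat_lit 312)))) (XT.nd (nat_lit 188) (nat_lit 672) (nat_lit 0) (XT.nd (nat_lit 94) (nat_lit 252) (nat_lit 0) (XT.lf (nat_lit 0) (nat_lit 16206829157) (nat_lit 420) (nat_lit 11967592913) (nat_lit 84) (nat_lit 89222801) (nat_lit 89) (nat_lit 5) (nat_lit 94) (nat_lit 5) (nat_lit 90) (nat_lit 5) (nat_lit 392) (nat_lit 377) (nat_lit 311)) (XT.lf (nat_lit 0) (nat_lit 15061770793) (nat_lit 252) (nat_lit 10466073789) (nat_lit 336) (nat_lit 4038184092) (nat_lit 86) (nat_lit 5) (nat_lit 89) (nat_lit 5) (nat_lit 90) (nat_lit 5) (nat_lit 393) (nat_lit 377) (nat_lit 310))) (XT.nd (nat_lit 94) (nat_lit 252) (nat_lit 0) (XT.lf (nat_lit 0) (nat_lit 5030722442) (nat_lit 420) (nat_lit 17022915918) (nat_lit 84) (nat_lit 8887520990) (nat_lit 81) (nat_lit 5) (nat_lit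 86) (nat_lit 5) (nat_lit 82) (nat_lit 5) (nat_lit 394) (nat_lit 377) (nat_lit 309)) (XT.lf (nat_lit 0) (nat_lit 12857319143) (nat_lit 252) (nat_lit 2444957380) (nat_lit 336) (nat_lit 17089783302) (nat_lit 78) (nat_lit 5) (nat_lit 81) (nat_lit 5) (nat_lit 82) (nat_lit 5) (nat_lit 395) (nat_lit 377) (nat_lit 308))))) (XT.nd (nat_lit 282) (nat_lit 840) (nat_lit 0) (XT.nd (nat_lit 94) (nat_lit 588) (nat_lit 0) (XT.lf (nat_lit 0) (nat_lit 11849625547) (nat_lit 252) (nat_lit 15308309896) (nat_lit 336) (nat_lit 6762977871) (nat_lit 75) (nat_lit 5) (nat_lit 78) (nat_lit 5) (nat_lit 79) (nat_lit 5) (nat_lit 396) (nat_lit 377) (nat_lit 307)) (XT.nd (nat_lit 94) (nat_lit 252) (nat_lit 0) (XT.lf (nat_lit 0) (nat_lit 4892556047) (nat_lit 336) (nat_lit 24536068785) (nat_lit 84) (nat_lit 6107868732) (nat_lit 71) (nat_lit 5) (nat_lit 75) (nat_lit 5) (nat_lit 72) (nat_lit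 5) (nat_lit 397) (nat_lit 377) (nat_lit 306)) (XT.lf (nat_lit 0) (nat_lit 10167843866) (nat_lit 252) (nat_lit 7871396835) (nat_lit 336) (nat_lit 19196753617) (nat_lit 68) (nat_lit 5) (nat_lit 71) (nat_lit 5) (nat_lit 72) (nat_lit 5) (nat_lit 398) (nat_lit 377) (nat_lit 305)))) (XT.nd (nat_lit 188) (nat_lit 336) (nat_lit 0) (XT.nd (nat_lit 94) (nat_lit 336) (nat_lit 0) (XT.lf (nat_lit 0) (nat_lit 9508216830) (nat_lit 168) (nat_lit 23538398107) (nat_lit 252) (nat_lit 5984392458) (nat_lit 66) (nat_lit 5) (nat_lit 68) (nat_lit 5) (nat_lit 69) (nat_lit 5) (nat_lit 399) (nat_lit 377) (nat_lit 304)) (XT.lf (nat_lit 0) (nat_lit 8762923874) (nat_lit 336) (nat_lit 31902156803) (nat_lit 84) (nat_lit 260916434) (nat_lit 62) (nat_lit 5) (nat_lit 66) (nat_lit 5) (nat_lit 63) (nat_lit 5) (nat_lit 400) (nat_lit 377) (nat_lit 303))) (XT.nd (nat_lit 94) (nat_lit 168) (nat_lit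 0) (XT.lf (nat_lit 0) (nat_lit 8505864347) (nat_lit 168) (nat_lit 17016288777) (nat_lit 252) (nat_lit 17393438065) (nat_lit 60) (nat_lit 5) (nat_lit 62) (nat_lit 5) (nat_lit 63) (nat_lit 5) (nat_lit 401) (nat_lit 377) (nat_lit 302)) (XT.lf (nat_lit 0) (nat_lit 8353041452) (nat_lit 168) (nat_lit 36084541512) (nat_lit 252) (nat_lit 585996714) (nat_lit 58) (nat_lit 5) (nat_lit 60) (nat_lit 5) (nat_lit 61) (nat_lit 5) (nat_lit 402) (nat_lit 377) (nat_lit 301)))))) (XT.nd (nat_lit 658) (nat_lit 1260) (nat_lit 0) (XT.nd (nat_lit 282) (nat_lit 588) (nat_lit 0) (XT.nd (nat_lit 94) (nat_lit 420) (nat_lit 0) (XT.lf (nat_lit 0) (nat_lit 8164904888) (nat_lit 168) (nat_lit 9850103881) (nat_lit 252) (nat_lit 29220926132) (nat_lit 55) (nat_lit 5) (nat_lit 57) (nat_lit 5) (nat_lit 58) (nat_lit 5) (nat_lit 403) (nat_lit 377) (nat_lit 300)) (XT.nd (nat_lit 94) (nat_lit 252)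 (nat_lit 0) (XT.lf (nat_lit 0) (nat_lit 8237737479) (nat_lit 168) (nat_lit 30900589836) (nat_lit 252) (nat_lit 10433732748) (nat_lit 53) (nat_lit 5) (nat_lit 55) (nat_lit 5) (nat_lit 56) (nat_lit 5) (nat_lit 404) (nat_lit 377) (nat_lit 299)) (XT.lf (nat_lit 0) (nat_lit 8589320738) (nat_lit 168) (nat_lit 1932039116) (nat_lit 252) (nat_lit 41517001492) (nat_lit 50) (nat_lit 5) (nat_lit 52) (nat_lit 5) (nat_lit 53) (nat_lit 5) (nat_lit 405) (nat_lit 377) (nat_lit 298)))) (XT.nd (nat_lit 188) (nat_lit 252) (nat_lit 0) (XT.nd (nat_lit 94) (nat_lit 168) (nat_lit 0) (XT.lf (nat_lit 0) (nat_lit 8937554597) (nat_lit 168) (nat_lit 25173187076) (nat_lit 252) (nat_lit 20516501368) (nat_lit 48) (nat_lit 5) (nat_lit 50) (nat_lit 5) (nat_lit 51) (nat_lit 5) (nat_lit 406) (nat_lit 377) (nat_lit 297)) (XT.lf (nat_lit 0) (nat_lit 3147535891) (nat_lit 168) (nat_lit 47580934347)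 (nat_lit 84) (nat_lit 6640437704) (nat_lit 46) (nat_lit 5) (nat_lit 48) (nat_lit 5) (nat_lit 47) (nat_lit 5) (nat_lit 407) (nat_lit 377) (nat_lit 296))) (XT.nd (nat_lit 94) (nat_lit 84) (nat_lit 0) (XT.lf (nat_lit 0) (nat_lit 10582058654) (nat_lit 168) (nat_lit 18801697632) (nat_lit 252) (nat_lit 30859440025) (nat_lit 44) (nat_lit 5) (nat_lit 46) (nat_lit 5) (nat_lit 47) (nat_lit 5) (nat_lit 408) (nat_lit 377) (nat_lit 295)) (XT.lf (nat_lit 0) (nat_lit 11895507037) (nat_lit 84) (nat_lit 47086307742) (nat_lit 168) (nat_lit 4302465947) (nat_lit 43) (nat_lit 5) (nat_lit 44) (nat_lit 5) (nat_lit 45) (nat_lit 4) (nat_lit 409) (nat_lit 377) (nat_lit 294))))) (XT.nd (nat_lit 282) (nat_lit 672) (nat_lit 0) (XT.nd (nat_lit 94) (nat_lit 336) (nat_lit 0) (XT.lf (nat_lit 0) (nat_lit 13321625055) (nat_lit 168) (nat_lit 11671743831) (nat_lit 252) (nat_lit 41486522470) (nat_lit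 40) (nat_lit 5) (nat_lit 42) (nat_lit 5) (nat_lit 43) (nat_lit 5) (nat_lit 410) (nat_lit 377) (nat_lit 293)) (XT.nd (nat_lit 94) (nat_lit 252) (nat_lit 0) (XT.lf (nat_lit 0) (nat_lit 15122238788) (nat_lit 84) (nat_lit 42913425577) (nat_lit 168) (nat_lit 11814283296) (nat_lit 39) (nat_lit 5) (nat_lit 40) (nat_lit 5) (nat_lit 41) (nat_lit 4) (nat_lit 411) (nat_lit 377) (nat_lit 292)) (XT.lf (nat_lit 0) (nat_lit 17330241879) (nat_lit 168) (nat_lit 3653440376) (nat_lit 252) (nat_lit 52420158055) (nat_lit 36) (nat_lit 5) (nat_lit 38) (nat_lit 5) (nat_lit 39) (nat_lit 5) (nat_lit 412) (nat_lit 377) (nat_lit 291)))) (XT.nd (nat_lit 188) (nat_lit 336) (nat_lit 0) (XT.nd (nat_lit 94) (nat_lit 252) (nat_lit 0) (XT.lf (nat_lit 0) (nat_lit 19707423526) (nat_lit 84) (nat_lit 38162524634) (nat_lit 168) (nat_lit 19268493470) (nat_lit 35) (nat_lit 5) (nat_lit 36) (nat_lit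 5) (nat_lit 37) (nat_lit 4) (nat_lit 413) (nat_lit 377) (nat_lit 290)) (XT.lf (nat_lit 0) (nat_lit 17492399516) (nat_lit 252) (nat_lit 58364429595) (nat_lit 84) (nat_lit 5227757411) (nat_lit 32) (nat_lit 5) (nat_lit 35) (nat_lit 5) (nat_lit 33) (nat_lit 4) (nat_lit 414) (nat_lit 377) (nat_lit 289))) (XT.nd (nat_lit 94) (nat_lit 252) (nat_lit 0) (XT.lf (nat_lit 0) (nat_lit 25865451863) (nat_lit 84) (nat_lit 32718596642) (nat_lit 168) (nat_lit 26643332717) (nat_lit 31) (nat_lit 5) (nat_lit 32) (nat_lit 5) (nat_lit 33) (nat_lit 4) (nat_lit 415) (nat_lit 377) (nat_lit 288)) (XT.lf (nat_lit 0) (nat_lit 14575024939) (nat_lit 252) (nat_lit 59872869375) (nat_lit 84) (nat_lit 15156450600) (nat_lit 28) (nat_lit 5) (nat_lit 31) (nat_lit 5) (nat_lit 29) (nat_lit 4) (nat_lit 416) (nat_lit 377) (nat_lit 287))))))) (XT.nd (nat_lit 1316) (nat_lit 588) (nat_lit 0) (XT.nd (nat_lit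 658) (nat_lit 924) (nat_lit 0) (XT.nd (nat_lit 282) (nat_lit 504) (nat_lit 0) (XT.nd (nat_lit 94) (nat_lit 252) (nat_lit 0) (XT.lf (nat_lit 0) (nat_lit 33842982548) (nat_lit 84) (nat_lit 26450278091) (nat_lit 168) (nat_lit 33909573162) (nat_lit 27) (nat_lit 5) (nat_lit 28) (nat_lit 5) (nat_lit 29) (nat_lit 4) (nat_lit 417) (nat_lit 377) (nat_lit 286)) (XT.nd (nat_lit 94) (nat_lit 84) (nat_lit 0) (XT.lf (nat_lit 0) (nat_lit 12253611277) (nat_lit 168) (nat_lit 60369858053) (nat_lit 84) (nat_lit 26433040164) (nat_lit 25) (nat_lit 5) (nat_lit 27) (nat_lit 5) (nat_lit 26) (nat_lit 4) (nat_lit 418) (nat_lit 377) (nat_lit 285)) (XT.lf (nat_lit 0) (nat_lit 43923274440) (nat_lit 84) (nat_lit 19207637011) (nat_lit 168) (nat_lit 41029318698) (nat_lit 24) (nat_lit 5) (nat_lit 25) (nat_lit 5) (nat_lit 26) (nat_lit 4) (nat_lit 419) (nat_lit 377) (nat_lit 284)))) (XT.nd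 (nat_lit 188) (nat_lit 252) (nat_lit 0) (XT.nd (nat_lit 94) (nat_lit 84) (nat_lit 0) (XT.lf (nat_lit 0) (nat_lit 10621499109) (nat_lit 168) (nat_lit 59654528607) (nat_lit 84) (nat_lit 39265438506) (nat_lit 22) (nat_lit 5) (nat_lit 24) (nat_lit 5) (nat_lit 23) (nat_lit 4) (nat_lit 420) (nat_lit 377) (nat_lit 283)) (XT.lf (nat_lit 0) (nat_lit 56431085970) (nat_lit 84) (nat_lit 10819666275) (nat_lit 168) (nat_lit 47954626479) (nat_lit 21) (nat_lit 5) (nat_lit 22) (nat_lit 5) (nat_lit 23) (nat_lit 4) (nat_lit 421) (nat_lit 377) (nat_lit 282))) (XT.nd (nat_lit 94) (nat_lit 84) (nat_lit 0) (XT.lf (nat_lit 0) (nat_lit 9788279985) (nat_lit 168) (nat_lit 57493062166) (nat_lit 84) (nat_lit 53889169096) (nat_lit 19) (nat_lit 5) (nat_lit 21) (nat_lit 5) (nat_lit 20) (nat_lit 4) (nat_lit 422) (nat_lit 377) (nat_lit 281)) (XT.lf (nat_lit 0) (nat_lit 71738212700) (nat_lit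 84) (nat_lit 1091447895) (nat_lit 168) (nat_lit 54625929797) (nat_lit 18) (nat_lit 5) (nat_lit 19) (nat_lit 5) (nat_lit 20) (nat_lit 4) (nat_lit 423) (nat_lit 377) (nat_lit 280))))) (XT.nd (nat_lit 282) (nat_lit 504) (nat_lit 0) (XT.nd (nat_lit 94) (nat_lit 252) (nat_lit 0) (XT.lf (nat_lit 0) (nat_lit 9882069057) (nat_lit 168) (nat_lit 53614028476) (nat_lit 84) (nat_lit 70570935636) (nat_lit 16) (nat_lit 5) (nat_lit 18) (nat_lit 5) (nat_lit 17) (nat_lit 4) (nat_lit 424) (nat_lit 377) (nat_lit 279)) (XT.nd (nat_lit 94) (nat_lit 168) (nat_lit 0) (XT.lf (nat_lit 0) (nat_lit 80229926230) (nat_lit 168) (nat_lit 50930418990) (nat_lit 0) (nat_lit 9872618551) (nat_lit 15) (nat_lit 5) (nat_lit 17) (nat_lit 4) (nat_lit 15) (nat_lit 4) (nat_lit 425) (nat_lit 377) (nat_lit 278)) (XT.lf (nat_lit 0) (nat_lit 11052081805) (nat_lit 168) (nat_lit 47703099961) (nat_lit 84)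 (nat_lit 89612642162) (nat_lit 13) (nat_lit 5) (nat_lit 15) (nat_lit 5) (nat_lit 14) (nat_lit 4) (nat_lit 426) (nat_lit 377) (nat_lit 277)))) (XT.nd (nat_lit 188) (nat_lit 252) (nat_lit 0) (XT.nd (nat_lit 94) (nat_lit 168) (nat_lit 0) (XT.lf (nat_lit 0) (nat_lit 89570364593) (nat_lit 168) (nat_lit 43958310601) (nat_lit 0) (nat_lit 22558709340) (nat_lit 12) (nat_lit 5) (nat_lit 14) (nat_lit 4) (nat_lit 12) (nat_lit 4) (nat_lit 427) (nat_lit 377) (nat_lit 276)) (XT.lf (nat_lit 0) (nat_lit 13471554171) (nat_lit 168) (nat_lit 39397059461) (nat_lit 84) (nat_lit 111355918651) (nat_lit 10) (nat_lit 5) (nat_lit 12) (nat_lit 5) (nat_lit 11) (nat_lit 4) (nat_lit 428) (nat_lit 377) (nat_lit 275))) (XT.nd (nat_lit 94) (nat_lit 168) (nat_lit 0) (XT.lf (nat_lit 0) (nat_lit 101104600310) (nat_lit 168) (nat_lit 34394596196) (nat_lit 0) (nat_lit 37280142274) (nat_lit 9) (nat_lit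 5) (nat_lit 11) (nat_lit 4) (nat_lit 9) (nat_lit 4) (nat_lit 429) (nat_lit 377) (nat_lit 274)) (XT.lf (nat_lit 0) (nat_lit 17341050289) (nat_lit 168) (nat_lit 28277011666) (nat_lit 84) (nat_lit 136187213439) (nat_lit 7) (nat_lit 5) (nat_lit 9) (nat_lit 5) (nat_lit 8) (nat_lit 4) (nat_lit 430) (nat_lit 377) (nat_lit 273)))))) (XT.nd (nat_lit 658) (nat_lit 0) (nat_lit 0) (XT.nd (nat_lit 282) (nat_lit 252) (nat_lit 0) (XT.nd (nat_lit 94) (nat_lit 252) (nat_lit 0) (XT.lf (nat_lit 0) (nat_lit 115141797043) (nat_lit 168) (nat_lit 21790530265) (nat_lit 0) (nat_lit 54353468415) (nat_lit 6) (nat_lit 5) (nat_lit 8) (nat_lit 4) (nat_lit 6) (nat_lit 4) (nat_lit 431) (nat_lit 377) (nat_lit 272)) (XT.nd (nat_lit 94) (nat_lit 84) (nat_lit 0) (XT.lf (nat_lit 0) (nat_lit 22892207413) (nat_lit 168) (nat_lit 13860696992) (nat_lit 84) (nat_lit 164543521275) (nat_lit 4) (nat_lit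 5) (nat_lit 6) (nat_lit 5) (nat_lit 5) (nat_lit 4) (nat_lit 432) (nat_lit 377) (nat_lit 271)) (XT.lf (nat_lit 0) (nat_lit 132034637022) (nat_lit 168) (nat_lit 5629869193) (nat_lit 0) (nat_lit 74138434616) (nat_lit 3) (nat_lit 5) (nat_lit 5) (nat_lit 4) (nat_lit 3) (nat_lit 4) (nat_lit 433) (nat_lit 377) (nat_lit 270)))) (XT.nd (nat_lit 188) (nat_lit 0) (nat_lit 0) (XT.nd (nat_lit 94) (nat_lit 0) (nat_lit 0) (XT.lf (nat_lit 0) (nat_lit 323317115691) (nat_lit 0) (nat_lit 0) (nat_lit 0) (nat_lit 0) (nat_lit 0) (nat_lit 0) (nat_lit 1) (nat_lit 0) (nat_lit 1) (nat_lit 0) (nat_lit 434) (nat_lit 377) (nat_lit 269)) (XT.lf (nat_lit 0) (nat_lit 348864505478) (nat_lit 0) (nat_lit 0) (nat_lit 0) (nat_lit 0) (nat_lit 0) (nat_lit 0) (nat_lit 1) (nat_lit 0) (nat_lit 1) (nat_lit 0) (nat_lit 435) (nat_lit 377) (nat_lit 268))) (XT.nd (nat_lit 94) (nat_lit 0) (nat_lit 0) (XT.lf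 (nat_lit 0) (nat_lit 376455697584) (nat_lit 0) (nat_lit 0) (nat_lit 0) (nat_lit 0) (nat_lit 0) (nat_lit 0) (nat_lit 1) (nat_lit 0) (nat_lit 1) (nat_lit 0) (nat_lit 436) (nat_lit 377) (nat_lit 267)) (XT.lf (nat_lit 0) (nat_lit 406254195370) (nat_lit 0) (nat_lit 0) (nat_lit 0) (nat_lit 0) (nat_lit 0) (nat_lit 0) (nat_lit 1) (nat_lit 0) (nat_lit 1) (nat_lit 0) (nat_lit 437) (nat_lit 377) (nat_lit 266))))) (XT.nd (nat_lit 376) (nat_lit 0) (nat_lit 0) (XT.nd (nat_lit 188) (nat_lit 0) (nat_lit 0) (XT.nd (nat_lit 94) (nat_lit 0) (nat_lit 0) (XT.lf (nat_lit 0) (nat_lit 438436582526) (nat_lit 0) (nat_lit 0) (nat_lit 0) (nat_lit 0) (nat_lit 0) (nat_lit 0) (nat_lit 1) (nat_lit 0) (nat_lit 1) (nat_lit 0) (nat_lit 438) (nat_lit 377) (nat_lit 265)) (XT.lf (nat_lit 0) (nat_lit 473193569494) (nat_lit 0) (nat_lit 0) (nat_lit 0) (nat_lit 0) (nat_lit 0) (nat_lit 0) (nat_lit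 1) (nat_lit 0) (nat_lit 1) (nat_lit 0) (nat_lit 439) (nat_lit 377) (nat_lit 264))) (XT.nd (nat_lit 94) (nat_lit 0) (nat_lit 0) (XT.lf (nat_lit 0) (nat_lit 510731123606) (nat_lit 0) (nat_lit 0) (nat_lit 0) (nat_lit 0) (nat_lit 0) (nat_lit 0) (nat_lit 1) (nat_lit 0) (nat_lit 1) (nat_lit 0) (nat_lit 440) (nat_lit 377) (nat_lit 263)) (XT.lf (nat_lit 0) (nat_lit 551271689626) (nat_lit 0) (nat_lit 0) (nat_lit 0) (nat_lit 0) (nat_lit 0) (nat_lit 0) (nat_lit 1) (nat_lit 0) (nat_lit 1) (nat_lit 0) (nat_lit 441) (nat_lit 377) (nat_lit 262)))) (XT.nd (nat_lit 188) (nat_lit 0) (nat_lit 0) (XT.nd (nat_lit 94) (nat_lit 0) (nat_lit 0) (XT.lf (nat_lit 0) (nat_lit 595055507944) (nat_lit 0) (nat_lit 0) (nat_lit 0) (nat_lit 0) (nat_lit 0) (nat_lit 0) (nat_lit 1) (nat_lit 0) (nat_lit 1) (nat_lit 0) (nat_lit 442) (nat_lit 377) (nat_lit 261)) (XT.lf (nat_lit 0) (nat_lit 642342038226)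 (nat_lit 0) (nat_lit 0) (nat_lit 0) (nat_lit 0) (nat_lit 0) (nat_lit 0) (nat_lit 1) (nat_lit 0) (nat_lit 1) (nat_lit 0) (nat_lit 443) (nat_lit 377) (nat_lit 260))) (XT.nd (nat_lit 94) (nat_lit 0) (nat_lit 0) (XT.lf (nat_lit 0) (nat_lit 693411496947) (nat_lit 0) (nat_lit 0) (nat_lit 0) (nat_lit 0) (nat_lit 0) (nat_lit 0) (nat_lit 1) (nat_lit 0) (nat_lit 1) (nat_lit 0) (nat_lit 444) (nat_lit 377) (nat_lit 259)) (XT.lf (nat_lit 0) (nat_lit 748566517937) (nat_lit 0) (nat_lit 0) (nat_lit 0) (nat_lit 0) (nat_lit 0) (nat_lit 0) (nat_lit 1) (nat_lit 0) (nat_lit 1) (nat_lit 0) (nat_lit 445) (nat_lit 377) (nat_lit 258))))))))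
noncomputable def xc128 : XT := (XT.nd (nat_lit 2632) (nat_lit 0) (nat_lit 0) (XT.nd (nat_lit 1316) (nat_lit 0) (nat_lit 0) (XT.nd (nat_lit 658) (nat_lit 0) (nat_lit 0) (XT.nd (nat_lit 282) (nat_lit 0) (nat_lit 0) (XT.nd (nat_lit 94) (nat_lit 0) (nat_lit 0) (XT.lf (nat_lit 0) (nat_lit 808133945764) (nat_lit 0) (nat_lit 0) (nat_lit 0) (nat_lit 0) (nat_lit 0) (nat_lit 0) (nat_lit 1) (nat_lit 0) (nat_lit 1) (nat_lit 0) (nat_lit 446) (nat_lit 377) (nat_lit 257)) (XT.nd (nat_lit 94) (nat_lit 0) (nat_lit 0) (XT.lf (nat_lit 0) (nat_lit 872466772593) (nat_lit 0) (nat_lit 0) (nat_lit 0) (nat_lit 0) (nat_lit 0) (nat_lit 0) (nat_lit 1) (nat_lit 0) (nat_lit 1) (nat_lit 0) (nat_lit 447) (nat_lit 377) (nat_lit 256)) (XT.lf (nat_lit 0) (nat_lit 941946229991) (nat_lit 0) (nat_lit 0) (nat_lit 0) (nat_lit 0) (nat_lit 0) (nat_lit 0) (nat_lit 1) (nat_lit 0) (nat_lit 1) (nat_lit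 0) (nat_lit 448) (nat_lit 377) (nat_lit 255)))) (XT.nd (nat_lit 188) (nat_lit 0) (nat_lit 0) (XT.nd (nat_lit 94) (nat_lit 0) (nat_lit 0) (XT.lf (nat_lit 0) (nat_lit 1016984048076) (nat_lit 0) (nat_lit 0) (nat_lit 0) (nat_lit 0) (nat_lit 0) (nat_lit 0) (nat_lit 1) (nat_lit 0) (nat_lit 1) (nat_lit 0) (nat_lit 449) (nat_lit 377) (nat_lit 254)) (XT.lf (nat_lit 0) (nat_lit 1098024895398) (nat_lit 0) (nat_lit 0) (nat_lit 0) (nat_lit 0) (nat_lit 0) (nat_lit 0) (nat_lit 1) (nat_lit 0) (nat_lit 1) (nat_lit 0) (nat_lit 450) (nat_lit 377) (nat_lit 253))) (XT.nd (nat_lit 94) (nat_lit 0) (nat_lit 0) (XT.lf (nat_lit 0) (nat_lit 1185549014017) (nat_lit 0) (nat_lit 0) (nat_lit 0) (nat_lit 0) (nat_lit 0) (nat_lit 0) (nat_lit 1) (nat_lit 0) (nat_lit 1) (nat_lit 0) (nat_lit 451) (nat_lit 377) (nat_lit 252)) (XT.lf (nat_lit 0) (nat_lit 1280075065376) (nat_lit 0) (nat_lit 0) (nat_lit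 0) (nat_lit 0) (nat_lit 0) (nat_lit 0) (nat_lit 1) (nat_lit 0) (nat_lit 1) (nat_lit 0) (nat_lit 452) (nat_lit 377) (nat_lit 251))))) (XT.nd (nat_lit 282) (nat_lit 0) (nat_lit 0) (XT.nd (nat_lit 94) (nat_lit 0) (nat_lit 0) (XT.lf (nat_lit 0) (nat_lit 1382163203854) (nat_lit 0) (nat_lit 0) (nat_lit 0) (nat_lit 0) (nat_lit 0) (nat_lit 0) (nat_lit 1) (nat_lit 0) (nat_lit 1) (nat_lit 0) (nat_lit 453) (nat_lit 377) (nat_lit 250)) (XT.nd (nat_lit 94) (nat_lit 0) (nat_lit 0) (XT.lf (nat_lit 0) (nat_lit 1492418396196) (nat_lit 0) (nat_lit 0) (nat_lit 0) (nat_lit 0) (nat_lit 0) (nat_lit 0) (nat_lit 1) (nat_lit 0) (nat_lit 1) (nat_lit 0) (nat_lit 454) (nat_lit 377) (nat_lit 249)) (XT.lf (nat_lit 0) (nat_lit 1611494006506) (nat_lit 0) (nat_lit 0) (nat_lit 0) (nat_lit 0) (nat_lit 0) (nat_lit 0) (nat_lit 1) (nat_lit 0) (nat_lit 1) (nat_lit 0) (nat_lit 455) (nat_lit 377)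 (nat_lit 248)))) (XT.nd (nat_lit 188) (nat_lit 0) (nat_lit 0) (XT.nd (nat_lit 94) (nat_lit 0) (nat_lit 0) (XT.lf (nat_lit 0) (nat_lit 1740095668031) (nat_lit 0) (nat_lit 0) (nat_lit 0) (nat_lit 0) (nat_lit 0) (nat_lit 0) (nat_lit 1) (nat_lit 0) (nat_lit 1) (nat_lit 0) (nat_lit 456) (nat_lit 377) (nat_lit 247)) (XT.lf (nat_lit 0) (nat_lit 1878985464689) (nat_lit 0) (nat_lit 0) (nat_lit 0) (nat_lit 0) (nat_lit 0) (nat_lit 0) (nat_lit 1) (nat_lit 0) (nat_lit 1) (nat_lit 0) (nat_lit 457) (nat_lit 377) (nat_lit 246))) (XT.nd (nat_lit 94) (nat_lit 0) (nat_lit 0) (XT.lf (nat_lit 0) (nat_lit 2028986447129) (nat_lit 0) (nat_lit 0) (nat_lit 0) (nat_lit 0) (nat_lit 0) (nat_lit 0) (nat_lit 1) (nat_lit 0) (nat_lit 1) (nat_lit 0) (nat_lit 458) (nat_lit 377) (nat_lit 245)) (XT.lf (nat_lit 0) (nat_lit 2190987510060) (nat_lit 0) (nat_lit 0) (nat_lit 0) (nat_lit 0) (nat_lit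 0) (nat_lit 0) (nat_lit 1) (nat_lit 0) (nat_lit 1) (nat_lit 0) (nat_lit 459) (nat_lit 377) (nat_lit 244)))))) (XT.nd (nat_lit 658) (nat_lit 0) (nat_lit 0) (XT.nd (nat_lit 282) (nat_lit 0) (nat_lit 0) (XT.nd (nat_lit 94) (nat_lit 0) (nat_lit 0) (XT.lf (nat_lit 0) (nat_lit 2365948659782) (nat_lit 0) (nat_lit 0) (nat_lit 0) (nat_lit 0) (nat_lit 0) (nat_lit 0) (nat_lit 1) (nat_lit 0) (nat_lit 1) (nat_lit 0) (nat_lit 460) (nat_lit 377) (nat_lit 243)) (XT.nd (nat_lit 94) (nat_lit 0) (nat_lit 0) (XT.lf (nat_lit 0) (nat_lit 2554906703108) (nat_lit 0) (nat_lit 0) (nat_lit 0) (nat_lit 0) (nat_lit 0) (nat_lit 0) (nat_lit 1) (nat_lit 0) (nat_lit 1) (nat_lit 0) (nat_lit 461) (nat_lit 377) (nat_lit 242)) (XT.lf (nat_lit 0) (nat_lit 2758981391406) (nat_lit 0) (nat_lit 0) (nat_lit 0) (nat_lit 0) (nat_lit 0) (nat_lit 0) (nat_lit 1) (nat_lit 0) (nat_lit 1) (nat_lit 0) (nat_lit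 462) (nat_lit 377) (nat_lit 241)))) (XT.nd (nat_lit 188) (nat_lit 0) (nat_lit 0) (XT.nd (nat_lit 94) (nat_lit 0) (nat_lit 0) (XT.lf (nat_lit 0) (nat_lit 2979382056161) (nat_lit 0) (nat_lit 0) (nat_lit 0) (nat_lit 0) (nat_lit 0) (nat_lit 0) (nat_lit 1) (nat_lit 0) (nat_lit 1) (nat_lit 0) (nat_lit 463) (nat_lit 377) (nat_lit 240)) (XT.lf (nat_lit 0) (nat_lit 3217414775388) (nat_lit 0) (nat_lit 0) (nat_lit 0) (nat_lit 0) (nat_lit 0) (nat_lit 0) (nat_lit 1) (nat_lit 0) (nat_lit 1) (nat_lit 0) (nat_lit 464) (nat_lit 377) (nat_lit 239))) (XT.nd (nat_lit 94) (nat_lit 0) (nat_lit 0) (XT.lf (nat_lit 0) (nat_lit 3474490113348) (nat_lit 0) (nat_lit 0) (nat_lit 0) (nat_lit 0) (nat_lit 0) (nat_lit 0) (nat_lit 1) (nat_lit 0) (nat_lit 1) (nat_lit 0) (nat_lit 465) (nat_lit 377) (nat_lit 238)) (XT.lf (nat_lit 0) (nat_lit 3752131479452) (nat_lit 0) (nat_lit 0) (nat_lit 0) (nat_lit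 0) (nat_lit 0) (nat_lit 0) (nat_lit 1) (nat_lit 0) (nat_lit 1) (nat_lit 0) (nat_lit 466) (nat_lit 377) (nat_lit 237))))) (XT.nd (nat_lit 282) (nat_lit 0) (nat_lit 0) (XT.nd (nat_lit 94) (nat_lit 0) (nat_lit 0) (XT.lf (nat_lit 0) (nat_lit 4051984155868) (nat_lit 0) (nat_lit 0) (nat_lit 0) (nat_lit 0) (nat_lit 0) (nat_lit 0) (nat_lit 1) (nat_lit 0) (nat_lit 1) (nat_lit 0) (nat_lit 467) (nat_lit 377) (nat_lit 236)) (XT.nd (nat_lit 94) (nat_lit 0) (nat_lit 0) (XT.lf (nat_lit 0) (nat_lit 4375825047347) (nat_lit 0) (nat_lit 0) (nat_lit 0) (nat_lit 0) (nat_lit 0) (nat_lit 0) (nat_lit 1) (nat_lit 0) (nat_lit 1) (nat_lit 0) (nat_lit 468) (nat_lit 377) (nat_lit 235)) (XT.lf (nat_lit 0) (nat_lit 4725573211023) (nat_lit 0) (nat_lit 0) (nat_lit 0) (nat_lit 0) (nat_lit 0) (nat_lit 0) (nat_lit 1) (nat_lit 0) (nat_lit 1) (nat_lit 0) (nat_lit 469) (nat_lit 377) (nat_lit 234))))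 (XT.nd (nat_lit 188) (nat_lit 0) (nat_lit 0) (XT.nd (nat_lit 94) (nat_lit 0) (nat_lit 0) (XT.lf (nat_lit 0) (nat_lit 5103301228606) (nat_lit 0) (nat_lit 0) (nat_lit 0) (nat_lit 0) (nat_lit 0) (nat_lit 0) (nat_lit 1) (nat_lit 0) (nat_lit 1) (nat_lit 0) (nat_lit 470) (nat_lit 377) (nat_lit 233)) (XT.lf (nat_lit 0) (nat_lit 5511247488349) (nat_lit 0) (nat_lit 0) (nat_lit 0) (nat_lit 0) (nat_lit 0) (nat_lit 0) (nat_lit 1) (nat_lit 0) (nat_lit 1) (nat_lit 0) (nat_lit 471) (nat_lit 377) (nat_lit 232))) (XT.nd (nat_lit 94) (nat_lit 0) (nat_lit 0) (XT.lf (nat_lit 0) (nat_lit 5951829449568) (nat_lit 0) (nat_lit 0) (nat_lit 0) (nat_lit 0) (nat_lit 0) (nat_lit 0) (nat_lit 1) (nat_lit 0) (nat_lit 1) (nat_lit 0) (nat_lit 472) (nat_lit 377) (nat_lit 231)) (XT.lf (nat_lit 0) (nat_lit 6427657968331) (nat_lit 0) (nat_lit 0) (nat_lit 0) (nat_lit 0) (nat_lit 0) (nat_lit 0) (nat_lit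 1) (nat_lit 0) (nat_lit 1) (nat_lit 0) (nat_lit 473) (nat_lit 377) (nat_lit 230))))))) (XT.nd (nat_lit 1316) (nat_lit 0) (nat_lit 0) (XT.nd (nat_lit 658) (nat_lit 0) (nat_lit 0) (XT.nd (nat_lit 282) (nat_lit 0) (nat_lit 0) (XT.nd (nat_lit 94) (nat_lit 0) (nat_lit 0) (XT.lf (nat_lit 0) (nat_lit 6941552769193) (nat_lit 0) (nat_lit 0) (nat_lit 0) (nat_lit 0) (nat_lit 0) (nat_lit 0) (nat_lit 1) (nat_lit 0) (nat_lit 1) (nat_lit 0) (nat_lit 474) (nat_lit 377) (nat_lit 229)) (XT.nd (nat_lit 94) (nat_lit 0) (nat_lit 0) (XT.lf (nat_lit 0) (nat_lit 7496559154678) (nat_lit 0) (nat_lit 0) (nat_lit 0) (nat_lit 0) (nat_lit 0) (nat_lit 0) (nat_lit 1) (nat_lit 0) (nat_lit 1) (nat_lit 0) (nat_lit 475) (nat_lit 377) (nat_lit 228)) (XT.lf (nat_lit 0) (nat_lit 8095966051514) (nat_lit 0) (nat_lit 0) (nat_lit 0) (nat_lit 0) (nat_lit 0) (nat_lit 0) (nat_lit 1) (nat_lit 0) (nat_lit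 1) (nat_lit 0) (nat_lit 476) (nat_lit 377) (nat_lit 227)))) (XT.nd (nat_lit 188) (nat_lit 0) (nat_lit 0) (XT.nd (nat_lit 94) (nat_lit 0) (nat_lit 0) (XT.lf (nat_lit 0) (nat_lit 8743325500571) (nat_lit 0) (nat_lit 0) (nat_lit 0) (nat_lit 0) (nat_lit 0) (nat_lit 0) (nat_lit 1) (nat_lit 0) (nat_lit 1) (nat_lit 0) (nat_lit 477) (nat_lit 377) (nat_lit 226)) (XT.lf (nat_lit 0) (nat_lit 9442473705993) (nat_lit 0) (nat_lit 0) (nat_lit 0) (nat_lit 0) (nat_lit 0) (nat_lit 0) (nat_lit 1) (nat_lit 0) (nat_lit 1) (nat_lit 0) (nat_lit 478) (nat_lit 377) (nat_lit 225))) (XT.nd (nat_lit 94) (nat_lit 0) (nat_lit 0) (XT.lf (nat_lit 0) (nat_lit 10197553768255) (nat_lit 0) (nat_lit 0) (nat_lit 0) (nat_lit 0) (nat_lit 0) (nat_lit 0) (nat_lit 1) (nat_lit 0) (nat_lit 1) (nat_lit 0) (nat_lit 479) (nat_lit 377) (nat_lit 224)) (XT.lf (nat_lit 0) (nat_lit 11013040235875) (nat_lit 0)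 (nat_lit 0) (nat_lit 0) (nat_lit 0) (nat_lit 0) (nat_lit 0) (nat_lit 1) (nat_lit 0) (nat_lit 1) (nat_lit 0) (nat_lit 480) (nat_lit 377) (nat_lit 223))))) (XT.nd (nat_lit 282) (nat_lit 0) (nat_lit 0) (XT.nd (nat_lit 94) (nat_lit 0) (nat_lit 0) (XT.lf (nat_lit 0) (nat_lit 11893765621253) (nat_lit 0) (nat_lit 0) (nat_lit 0) (nat_lit 0) (nat_lit 0) (nat_lit 0) (nat_lit 1) (nat_lit 0) (nat_lit 1) (nat_lit 0) (nat_lit 481) (nat_lit 377) (nat_lit 222)) (XT.nd (nat_lit 94) (nat_lit 0) (nat_lit 0) (XT.lf (nat_lit 0) (nat_lit 12844949037785) (nat_lit 0) (nat_lit 0) (nat_lit 0) (nat_lit 0) (nat_lit 0) (nat_lit 0) (nat_lit 1) (nat_lit 0) (nat_lit 1) (nat_lit 0) (nat_lit 482) (nat_lit 377) (nat_lit 221)) (XT.lf (nat_lit 0) (nat_lit 13872227127938) (nat_lit 0) (nat_lit 0) (nat_lit 0) (nat_lit 0) (nat_lit 0) (nat_lit 0) (nat_lit 1) (nat_lit 0) (nat_lit 1) (nat_lit 0) (nat_lit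 483) (nat_lit 377) (nat_lit 220)))) (XT.nd (nat_lit 188) (nat_lit 0) (nat_lit 0) (XT.nd (nat_lit 94) (nat_lit 0) (nat_lit 0) (XT.lf (nat_lit 0) (nat_lit 14981687465580) (nat_lit 0) (nat_lit 0) (nat_lit 0) (nat_lit 0) (nat_lit 0) (nat_lit 0) (nat_lit 1) (nat_lit 0) (nat_lit 1) (nat_lit 0) (nat_lit 484) (nat_lit 377) (nat_lit 219)) (XT.lf (nat_lit 0) (nat_lit 16179904630491) (nat_lit 0) (nat_lit 0) (nat_lit 0) (nat_lit 0) (nat_lit 0) (nat_lit 0) (nat_lit 1) (nat_lit 0) (nat_lit 1) (nat_lit 0) (nat_lit 485) (nat_lit 377) (nat_lit 218))) (XT.nd (nat_lit 94) (nat_lit 0) (nat_lit 0) (XT.lf (nat_lit 0) (nat_lit 17473979168831) (nat_lit 0) (nat_lit 0) (nat_lit 0) (nat_lit 0) (nat_lit 0) (nat_lit 0) (nat_lit 1) (nat_lit 0) (nat_lit 1) (nat_lit 0) (nat_lit 486) (nat_lit 377) (nat_lit 217)) (XT.lf (nat_lit 0) (nat_lit 18871579670459) (nat_lit 0) (nat_lit 0) (nat_lit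 0) (nat_lit 0) (nat_lit 0) (nat_lit 0) (nat_lit 1) (nat_lit 0) (nat_lit 1) (nat_lit 0) (nat_lit 487) (nat_lit 377) (nat_lit 216)))))) (XT.nd (nat_lit 658) (nat_lit 0) (nat_lit 0) (XT.nd (nat_lit 282) (nat_lit 0) (nat_lit 0) (XT.nd (nat_lit 94) (nat_lit 0) (nat_lit 0) (XT.lf (nat_lit 0) (nat_lit 20380988212420) (nat_lit 0) (nat_lit 0) (nat_lit 0) (nat_lit 0) (nat_lit 0) (nat_lit 0) (nat_lit 1) (nat_lit 0) (nat_lit 1) (nat_lit 0) (nat_lit 488) (nat_lit 377) (nat_lit 215)) (XT.nd (nat_lit 94) (nat_lit 0) (nat_lit 0) (XT.lf (nat_lit 0) (nat_lit 22011149437927) (nat_lit 0) (nat_lit 0) (nat_lit 0) (nat_lit 0) (nat_lit 0) (nat_lit 0) (nat_lit 1) (nat_lit 0) (nat_lit 1) (nat_lit 0) (nat_lit 489) (nat_lit 377) (nat_lit 214)) (XT.lf (nat_lit 0) (nat_lit 23771723561649) (nat_lit 0) (nat_lit 0) (nat_lit 0) (nat_lit 0) (nat_lit 0) (nat_lit 0) (nat_lit 1) (nat_lit 0) (nat_lit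 1) (nat_lit 0) (nat_lit 490) (nat_lit 377) (nat_lit 213)))) (XT.nd (nat_lit 188) (nat_lit 0) (nat_lit 0) (XT.nd (nat_lit 94) (nat_lit 0) (nat_lit 0) (XT.lf (nat_lit 0) (nat_lit 25673143615430) (nat_lit 0) (nat_lit 0) (nat_lit 0) (nat_lit 0) (nat_lit 0) (nat_lit 0) (nat_lit 1) (nat_lit 0) (nat_lit 1) (nat_lit 0) (nat_lit 491) (nat_lit 377) (nat_lit 212)) (XT.lf (nat_lit 0) (nat_lit 27726677273664) (nat_lit 0) (nat_lit 0) (nat_lit 0) (nat_lit 0) (nat_lit 0) (nat_lit 0) (nat_lit 1) (nat_lit 0) (nat_lit 1) (nat_lit 0) (nat_lit 492) (nat_lit 377) (nat_lit 211))) (XT.nd (nat_lit 94) (nat_lit 0) (nat_lit 0) (XT.lf (nat_lit 0) (nat_lit 29944493624694) (nat_lit 0) (nat_lit 0) (nat_lit 0) (nat_lit 0) (nat_lit 0) (nat_lit 0) (nat_lit 1) (nat_lit 0) (nat_lit 1) (nat_lit 0) (nat_lit 493) (nat_lit 377) (nat_lit 210)) (XT.lf (nat_lit 0) (nat_lit 32339735283935) (nat_lit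 0) (nat_lit 0) (nat_lit 0) (nat_lit 0) (nat_lit 0) (nat_lit 0) (nat_lit 1) (nat_lit 0) (nat_lit 1) (nat_lit 0) (nat_lit 494) (nat_lit 377) (nat_lit 209))))) (XT.nd (nat_lit 282) (nat_lit 0) (nat_lit 0) (XT.nd (nat_lit 94) (nat_lit 0) (nat_lit 0) (XT.lf (nat_lit 0) (nat_lit 34926596276035) (nat_lit 0) (nat_lit 0) (nat_lit 0) (nat_lit 0) (nat_lit 0) (nat_lit 0) (nat_lit 1) (nat_lit 0) (nat_lit 1) (nat_lit 0) (nat_lit 495) (nat_lit 377) (nat_lit 208)) (XT.nd (nat_lit 94) (nat_lit 0) (nat_lit 0) (XT.lf (nat_lit 0) (nat_lit 37720406147612) (nat_lit 0) (nat_lit 0) (nat_lit 0) (nat_lit 0) (nat_lit 0) (nat_lit 0) (nat_lit 1) (nat_lit 0) (nat_lit 1) (nat_lit 0) (nat_lit 496) (nat_lit 377) (nat_lit 207)) (XT.lf (nat_lit 0) (nat_lit 40737720809017) (nat_lit 0) (nat_lit 0) (nat_lit 0) (nat_lit 0) (nat_lit 0) (nat_lit 0) (nat_lit 1) (nat_lit 0) (nat_lit 1) (nat_lit 0)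 (nat_lit 497) (nat_lit 377) (nat_lit 206)))) (XT.nd (nat_lit 188) (nat_lit 0) (nat_lit 0) (XT.nd (nat_lit 94) (nat_lit 0) (nat_lit 0) (XT.lf (nat_lit 0) (nat_lit 43996420643429) (nat_lit 0) (nat_lit 0) (nat_lit 0) (nat_lit 0) (nat_lit 0) (nat_lit 0) (nat_lit 1) (nat_lit 0) (nat_lit 1) (nat_lit 0) (nat_lit 498) (nat_lit 377) (nat_lit 205)) (XT.lf (nat_lit 0) (nat_lit 47515816464682) (nat_lit 0) (nat_lit 0) (nat_lit 0) (nat_lit 0) (nat_lit 0) (nat_lit 0) (nat_lit 1) (nat_lit 0) (nat_lit 1) (nat_lit 0) (nat_lit 499) (nat_lit 377) (nat_lit 204))) (XT.nd (nat_lit 94) (nat_lit 0) (nat_lit 0) (XT.lf (nat_lit 0) (nat_lit 51316763951715) (nat_lit 0) (nat_lit 0) (nat_lit 0) (nat_lit 0) (nat_lit 0) (nat_lit 0) (nat_lit 1) (nat_lit 0) (nat_lit 1) (nat_lit 0) (nat_lit 500) (nat_lit 377) (nat_lit 203)) (XT.lf (nat_lit 0) (nat_lit 55421787237786) (nat_lit 0) (nat_lit 0)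 (nat_lit 0) (nat_lit 0) (nat_lit 0) (nat_lit 0) (nat_lit 1) (nat_lit 0) (nat_lit 1) (nat_lit 0) (nat_lit 501) (nat_lit 377) (nat_lit 202))))))))
noncomputable def xc129 : XT := (XT.nd (nat_lit 58468) (nat_lit 0) (nat_lit 588) (XT.nd (nat_lit 57152) (nat_lit 0) (nat_lit 5040) (XT.nd (nat_lit 56494) (nat_lit 0) (nat_lit 8904) (XT.nd (nat_lit 56118) (nat_lit 0) (nat_lit 10752) (XT.nd (nat_lit 94) (nat_lit 0) (nat_lit 0) (XT.lf (nat_lit 0) (nat_lit 59855212386812) (nat_lit 0) (nat_lit 0) (nat_lit 0) (nat_lit 0) (nat_lit 0) (nat_lit 0) (nat_lit 1) (nat_lit 0) (nat_lit 1) (nat_lit 0) (nat_lit 502) (nat_lit 377) (nat_lit 201)) (XT.nd (nat_lit 94) (nat_lit 0) (nat_lit 0) (XT.lf (nat_lit 0) (nat_lit 64643311547824) (nat_lit 0) (nat_lit 0) (nat_lit 0) (nat_lit 0) (nat_lit 0) (nat_lit 0) (nat_lit 1) (nat_lit 0) (nat_lit 1) (nat_lit 0) (nat_lit 503) (nat_lit 377) (nat_lit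 200)) (XT.lf (nat_lit 0) (nat_lit 69814458641776) (nat_lit 0) (nat_lit 0) (nat_lit 0) (nat_lit 0) (nat_lit 0) (nat_lit 0) (nat_lit 1) (nat_lit 0) (nat_lit 1) (nat_lit 0) (nat_lit 504) (nat_lit 377) (nat_lit 199)))) (XT.nd (nat_lit 188) (nat_lit 0) (nat_lit 84) (XT.nd (nat_lit 94) (nat_lit 0) (nat_lit 84) (XT.lf (nat_lit 0) (nat_lit 2124117992) (nat_lit 924) (nat_lit 3033566757) (nat_lit 924) (nat_lit 3033566757) (nat_lit 128) (nat_lit 3) (nat_lit 139) (nat_lit 3) (nat_lit 139) (nat_lit 5) (nat_lit 378) (nat_lit 378) (nat_lit 324)) (XT.lf (nat_lit 0) (nat_lit 4953515756) (nat_lit 840) (nat_lit 9781845343) (nat_lit 924) (nat_lit 2275674519) (nat_lit 129) (nat_lit 5) (nat_lit 139) (nat_lit 5) (nat_lit 140) (nat_lit 5) (nat_lit 379) (nat_lit 378) (nat_lit 323))) (XT.nd (nat_lit 94) (nat_lit 0) (nat_lit 84) (XT.lf (nat_lit 84) (nat_lit 4052212391) (nat_lit 0) (nat_lit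 1969043954) (nat_lit 924) (nat_lit 11653292564) (nat_lit 130) (nat_lit 5) (nat_lit 129) (nat_lit 5) (nat_lit 140) (nat_lit 5) (nat_lit 380) (nat_lit 378) (nat_lit 322)) (XT.lf (nat_lit 84) (nat_lit 772962532) (nat_lit 0) (nat_lit 6735378026) (nat_lit 924) (nat_lit 10866106486) (nat_lit 131) (nat_lit 5) (nat_lit 130) (nat_lit 5) (nat_lit 141) (nat_lit 5) (nat_lit 381) (nat_lit 378) (nat_lit 321))))) (XT.nd (nat_lit 282) (nat_lit 2100) (nat_lit 0) (XT.nd (nat_lit 94) (nat_lit 0) (nat_lit 84) (XT.lf (nat_lit 0) (nat_lit 9466299373) (nat_lit 840) (nat_lit 2485078733) (nat_lit 924) (nat_lit 7161363531) (nat_lit 131) (nat_lit 5) (nat_lit 141) (nat_lit 5) (nat_lit 142) (nat_lit 5) (nat_lit 382) (nat_lit 378) (nat_lit 320)) (XT.nd (nat_lit 94) (nat_lit 0) (nat_lit 0) (XT.lf (nat_lit 0) (nat_lit 11920058545) (nat_lit 840) (nat_lit 5773297331) (nat_lit 924) (nat_lit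 2199785738) (nat_lit 132) (nat_lit 5) (nat_lit 142) (nat_lit 5) (nat_lit 143) (nat_lit 5) (nat_lit 383) (nat_lit 378) (nat_lit 319)) (XT.lf (nat_lit 84) (nat_lit 11551957807) (nat_lit 0) (nat_lit 3415172902) (nat_lit 924) (nat_lit 5748992267) (nat_lit 133) (nat_lit 5) (nat_lit 132) (nat_lit 5) (nat_lit 143) (nat_lit 5) (nat_lit 384) (nat_lit 378) (nat_lit 318)))) (XT.nd (nat_lit 188) (nat_lit 840) (nat_lit 0) (XT.nd (nat_lit 94) (nat_lit 588) (nat_lit 0) (XT.lf (nat_lit 0) (nat_lit 8942580249) (nat_lit 840) (nat_lit 9717647370) (nat_lit 924) (nat_lit 2924602280) (nat_lit 123) (nat_lit 5) (nat_lit 133) (nat_lit 5) (nat_lit 134) (nat_lit 5) (nat_lit 385) (nat_lit 378) (nat_lit 317)) (XT.lf (nat_lit 0) (nat_lit 510044568) (nat_lit 588) (nat_lit 16172254884) (nat_lit 84) (nat_lit 5821219263) (nat_lit 116) (nat_lit 5) (nat_lit 123) (nat_lit 5) (nat_lit 117) (nat_lit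 5) (nat_lit 386) (nat_lit 378) (nat_lit 316))) (XT.nd (nat_lit 94) (nat_lit 420) (nat_lit 0) (XT.lf (nat_lit 0) (nat_lit 3665927596) (nat_lit 420) (nat_lit 873155106) (nat_lit 504) (nat_lit 18933118551) (nat_lit 111) (nat_lit 5) (nat_lit 116) (nat_lit 5) (nat_lit 117) (nat_lit 5) (nat_lit 387) (nat_lit 378) (nat_lit 315)) (XT.lf (nat_lit 0) (nat_lit 911875337) (nat_lit 420) (nat_lit 8509294202) (nat_lit 504) (nat_lit 15070672572) (nat_lit 106) (nat_lit 5) (nat_lit 111) (nat_lit 5) (nat_lit 112) (nat_lit 5) (nat_lit 388) (nat_lit 378) (nat_lit 314)))))) (XT.nd (nat_lit 658) (nat_lit 1764) (nat_lit 0) (XT.nd (nat_lit 282) (nat_lit 1344) (nat_lit 0) (XT.nd (nat_lit 94) (nat_lit 756) (nat_lit 0) (XT.lf (nat_lit 0) (nat_lit 15171207736) (nat_lit 504) (nat_lit 1759030264) (nat_lit 84) (nat_lit 8638947017) (nat_lit 106) (nat_lit 5) (nat_lit 112) (nat_lit 5) (nat_lit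 107) (nat_lit 5) (nat_lit 389) (nat_lit 378) (nat_lit 313)) (XT.nd (nat_lit 94) (nat_lit 420) (nat_lit 0) (XT.lf (nat_lit 0) (nat_lit 21861765641) (nat_lit 420) (nat_lit 4359611578) (nat_lit 84) (nat_lit 487312304) (nat_lit 102) (nat_lit 5) (nat_lit 107) (nat_lit 5) (nat_lit 103) (nat_lit 5) (nat_lit 390) (nat_lit 378) (nat_lit 312)) (XT.lf (nat_lit 0) (nat_lit 1745366681) (nat_lit 420) (nat_lit 7065750802) (nat_lit 84) (nat_lit 19095645420) (nat_lit 97) (nat_lit 5) (nat_lit 102) (nat_lit 5) (nat_lit 98) (nat_lit 5) (nat_lit 391) (nat_lit 378) (nat_lit 311)))) (XT.nd (nat_lit 188) (nat_lit 672) (nat_lit 0) (XT.nd (nat_lit 94) (nat_lit 336) (nat_lit 0) (XT.lf (nat_lit 0) (nat_lit 9225239117) (nat_lit 420) (nat_lit 9805018159) (nat_lit 84) (nat_lit 10139951427) (nat_lit 93) (nat_lit 5) (nat_lit 98) (nat_lit 5) (nat_lit 94) (nat_lit 5) (nat_lit 392) (nat_lit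 378) (nat_lit 310)) (XT.lf (nat_lit 0) (nat_lit 17844830083) (nat_lit 420) (nat_lit 12471506447) (nat_lit 84) (nat_lit 191327200) (nat_lit 89) (nat_lit 5) (nat_lit 94) (nat_lit 5) (nat_lit 90) (nat_lit 5) (nat_lit 393) (nat_lit 378) (nat_lit 309))) (XT.nd (nat_lit 94) (nat_lit 420) (nat_lit 0) (XT.lf (nat_lit 0) (nat_lit 16700498063) (nat_lit 252) (nat_lit 11192508355) (nat_lit 336) (nat_lit 4022157836) (nat_lit 86) (nat_lit 5) (nat_lit 89) (nat_lit 5) (nat_lit 90) (nat_lit 5) (nat_lit 394) (nat_lit 378) (nat_lit 308)) (XT.lf (nat_lit 0) (nat_lit 5745527380) (nat_lit 420) (nat_lit 17945698260) (nat_lit 84) (nat_lit 9709609100) (nat_lit 81) (nat_lit 5) (nat_lit 86) (nat_lit 5) (nat_lit 82) (nat_lit 5) (nat_lit 395) (nat_lit 378) (nat_lit 307))))) (XT.nd (nat_lit 282) (nat_lit 924) (nat_lit 0) (XT.nd (nat_lit 94) (nat_lit 588) (nat_lit 0) (XT.lf (nat_lit 0)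 (nat_lit 14305874988) (nat_lit 252) (nat_lit 2516350888) (nat_lit 336) (nat_lit 18146410373) (nat_lit 78) (nat_lit 5) (nat_lit 81) (nat_lit 5) (nat_lit 82) (nat_lit 5) (nat_lit 396) (nat_lit 378) (nat_lit 306)) (XT.nd (nat_lit 94) (nat_lit 336) (nat_lit 0) (XT.lf (nat_lit 0) (nat_lit 13211605298) (nat_lit 252) (nat_lit 16401082896) (nat_lit 336) (nat_lit 7007792289) (nat_lit 75) (nat_lit 5) (nat_lit 78) (nat_lit 5) (nat_lit 79) (nat_lit 5) (nat_lit 397) (nat_lit 378) (nat_lit 305)) (XT.lf (nat_lit 0) (nat_lit 5557868205) (nat_lit 336) (nat_lit 26082357153) (nat_lit 84) (nat_lit 6725492308) (nat_lit 71) (nat_lit 5) (nat_lit 75) (nat_lit 5) (nat_lit 72) (nat_lit 5) (nat_lit 398) (nat_lit 378) (nat_lit 304)))) (XT.nd (nat_lit 188) (nat_lit 504) (nat_lit 0) (XT.nd (nat_lit 94) (nat_lit 168) (nat_lit 0) (XT.lf (nat_lit 0) (nat_lit 11379763707) (nat_lit 252) (nat_lit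 8362456050) (nat_lit 336) (nat_lit 20459662117) (nat_lit 68) (nat_lit 5) (nat_lit 71) (nat_lit 5) (nat_lit 72) (nat_lit 5) (nat_lit 399) (nat_lit 378) (nat_lit 303)) (XT.lf (nat_lit 0) (nat_lit 10660405213) (nat_lit 168) (nat_lit 25278648624) (nat_lit 252) (nat_lit 6201998663) (nat_lit 66) (nat_lit 5) (nat_lit 68) (nat_lit 5) (nat_lit 69) (nat_lit 5) (nat_lit 400) (nat_lit 378) (nat_lit 302))) (XT.nd (nat_lit 94) (nat_lit 168) (nat_lit 0) (XT.lf (nat_lit 0) (nat_lit 9706216263) (nat_lit 336) (nat_lit 34062041493) (nat_lit 84) (nat_lit 419706200) (nat_lit 62) (nat_lit 5) (nat_lit 66) (nat_lit 5) (nat_lit 63) (nat_lit 5) (nat_lit 401) (nat_lit 378) (nat_lit 301)) (XT.lf (nat_lit 0) (nat_lit 9561572997) (nat_lit 168) (nat_lit 18232524323) (nat_lit 252) (nat_lit 18543232566) (nat_lit 60) (nat_lit 5) (nat_lit 62) (nat_lit 5) (nat_lit 63) (nat_lit 5) (nat_lit 402)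 (nat_lit 378) (nat_lit 300))))))) (XT.nd (nat_lit 1316) (nat_lit 2016) (nat_lit 0) (XT.nd (nat_lit 658) (nat_lit 1092) (nat_lit 0) (XT.nd (nat_lit 282) (nat_lit 756) (nat_lit 0) (XT.nd (nat_lit 94) (nat_lit 420) (nat_lit 0) (XT.lf (nat_lit 0) (nat_lit 9389058786) (nat_lit 168) (nat_lit 38824492111) (nat_lit 252) (nat_lit 400867091) (nat_lit 58) (nat_lit 5) (nat_lit 60) (nat_lit 5) (nat_lit 61) (nat_lit 5) (nat_lit 403) (nat_lit 378) (nat_lit 299)) (XT.nd (nat_lit 94) (nat_lit 168) (nat_lit 0) (XT.lf (nat_lit 0) (nat_lit 9176991320) (nat_lit 168) (nat_lit 10492769281) (nat_lit 252) (nat_lit 31334371535) (nat_lit 55) (nat_lit 5) (nat_lit 57) (nat_lit 5) (nat_lit 58) (nat_lit 5) (nat_lit 404) (nat_lit 378) (nat_lit 298)) (XT.lf (nat_lit 0) (nat_lit 9248096351) (nat_lit 168) (nat_lit 33226616199) (nat_lit 252) (nat_lit 11052846366) (nat_lit 53) (nat_lit 5) (nat_lit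 55) (nat_lit 5) (nat_lit 56) (nat_lit 5) (nat_lit 405) (nat_lit 378) (nat_lit 297)))) (XT.nd (nat_lit 188) (nat_lit 336) (nat_lit 0) (XT.nd (nat_lit 94) (nat_lit 168) (nat_lit 0) (XT.lf (nat_lit 0) (nat_lit 9619137666) (nat_lit 168) (nat_lit 1942507827) (nat_lit 252) (nat_lit 44629855918) (nat_lit 50) (nat_lit 5) (nat_lit 52) (nat_lit 5) (nat_lit 53) (nat_lit 5) (nat_lit 406) (nat_lit 378) (nat_lit 296)) (XT.lf (nat_lit 0) (nat_lit 9987683557) (nat_lit 168) (nat_lit 27043100210) (nat_lit 252) (nat_lit 21957079579) (nat_lit 48) (nat_lit 5) (nat_lit 50) (nat_lit 5) (nat_lit 51) (nat_lit 5) (nat_lit 407) (nat_lit 378) (nat_lit 295))) (XT.nd (nat_lit 94) (nat_lit 168) (nat_lit 0) (XT.lf (nat_lit 0) (nat_lit 3586574681) (nat_lit 168) (nat_lit 51053663703) (nat_lit 84) (nat_lit 7308820398) (nat_lit 46) (nat_lit 5) (nat_lit 48) (nat_lit 5) (nat_lit 47) (nat_lit 5)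 (nat_lit 408) (nat_lit 378) (nat_lit 294)) (XT.lf (nat_lit 0) (nat_lit 11747864570) (nat_lit 168) (nat_lit 20164943061) (nat_lit 252) (nat_lit 33140926843) (nat_lit 44) (nat_lit 5) (nat_lit 46) (nat_lit 5) (nat_lit 47) (nat_lit 5) (nat_lit 409) (nat_lit 378) (nat_lit 293))))) (XT.nd (nat_lit 282) (nat_lit 672) (nat_lit 0) (XT.nd (nat_lit 94) (nat_lit 336) (nat_lit 0) (XT.lf (nat_lit 0) (nat_lit 13158940888) (nat_lit 84) (nat_lit 50713463462) (nat_lit 168) (nat_lit 4466016615) (nat_lit 43) (nat_lit 5) (nat_lit 44) (nat_lit 5) (nat_lit 45) (nat_lit 4) (nat_lit 410) (nat_lit 378) (nat_lit 292)) (XT.nd (nat_lit 94) (nat_lit 84) (nat_lit 0) (XT.lf (nat_lit 0) (nat_lit 14691128740) (nat_lit 168) (nat_lit 12468364257) (nat_lit 252) (nat_lit 44630456938) (nat_lit 40) (nat_lit 5) (nat_lit 42) (nat_lit 5) (nat_lit 43) (nat_lit 5) (nat_lit 411) (nat_lit 378) (nat_lit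 291)) (XT.lf (nat_lit 0) (nat_lit 16628512761) (nat_lit 84) (nat_lit 46210925918) (nat_lit 168) (nat_lit 12590458736) (nat_lit 39) (nat_lit 5) (nat_lit 40) (nat_lit 5) (nat_lit 41) (nat_lit 4) (nat_lit 412) (nat_lit 378) (nat_lit 290)))) (XT.nd (nat_lit 188) (nat_lit 336) (nat_lit 0) (XT.nd (nat_lit 94) (nat_lit 84) (nat_lit 0) (XT.lf (nat_lit 0) (nat_lit 19005443775) (nat_lit 168) (nat_lit 3812885484) (nat_lit 252) (nat_lit 56450020654) (nat_lit 36) (nat_lit 5) (nat_lit 38) (nat_lit 5) (nat_lit 39) (nat_lit 5) (nat_lit 413) (nat_lit 378) (nat_lit 289)) (XT.lf (nat_lit 0) (nat_lit 21565724839) (nat_lit 84) (nat_lit 41084538041) (nat_lit 168) (nat_lit 20651718138) (nat_lit 35) (nat_lit 5) (nat_lit 36) (nat_lit 5) (nat_lit 37) (nat_lit 4) (nat_lit 414) (nat_lit 378) (nat_lit 288))) (XT.nd (nat_lit 94) (nat_lit 84) (nat_lit 0) (XT.lf (nat_lit 0) (nat_lit 19039917830)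 (nat_lit 252) (nat_lit 62753969248) (nat_lit 84) (nat_lit 5770060048) (nat_lit 32) (nat_lit 5) (nat_lit 35) (nat_lit 5) (nat_lit 33) (nat_lit 4) (nat_lit 415) (nat_lit 378) (nat_lit 287)) (XT.lf (nat_lit 0) (nat_lit 28202151012) (nat_lit 84) (nat_lit 35209951251) (nat_lit 168) (nat_lit 28626402963) (nat_lit 31) (nat_lit 5) (nat_lit 32) (nat_lit 5) (nat_lit 33) (nat_lit 4) (nat_lit 416) (nat_lit 378) (nat_lit 286)))))) (XT.nd (nat_lit 658) (nat_lit 1008) (nat_lit 0) (XT.nd (nat_lit 282) (nat_lit 504) (nat_lit 0) (XT.nd (nat_lit 94) (nat_lit 252) (nat_lit 0) (XT.lf (nat_lit 0) (nat_lit 15880023726) (nat_lit 252) (nat_lit 64397387995) (nat_lit 84) (nat_lit 16488330945) (nat_lit 28) (nat_lit 5) (nat_lit 31) (nat_lit 5) (nat_lit 29) (nat_lit 4) (nat_lit 417) (nat_lit 378) (nat_lit 285)) (XT.nd (nat_lit 94) (nat_lit 168) (nat_lit 0) (XT.lf (nat_lit 0) (nat_lit 36804201992)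 (nat_lit 84) (nat_lit 28445182462) (nat_lit 168) (nat_lit 36483042903) (nat_lit 27) (nat_lit 5) (nat_lit 28) (nat_lit 5) (nat_lit 29) (nat_lit 4) (nat_lit 418) (nat_lit 378) (nat_lit 284)) (XT.lf (nat_lit 0) (nat_lit 13364453732) (nat_lit 168) (nat_lit 64947842103) (nat_lit 84) (nat_lit 28662206741) (nat_lit 25) (nat_lit 5) (nat_lit 27) (nat_lit 5) (nat_lit 26) (nat_lit 4) (nat_lit 419) (nat_lit 378) (nat_lit 283)))) (XT.nd (nat_lit 188) (nat_lit 252) (nat_lit 0) (XT.nd (nat_lit 94) (nat_lit 168) (nat_lit 0) (XT.lf (nat_lit 0) (nat_lit 47677806560) (nat_lit 84) (nat_lit 20628218262) (nat_lit 168) (nat_lit 44180791716) (nat_lit 24) (nat_lit 5) (nat_lit 25) (nat_lit 5) (nat_lit 26) (nat_lit 4) (nat_lit 420) (nat_lit 378) (nat_lit 282)) (XT.lf (nat_lit 0) (nat_lit 11593943915) (nat_lit 168) (nat_lit 64188393758) (nat_lit 84) (nat_lit 42516309603) (nat_lit 22)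 (nat_lit 5) (nat_lit 24) (nat_lit 5) (nat_lit 23) (nat_lit 4) (nat_lit 421) (nat_lit 378) (nat_lit 281))) (XT.nd (nat_lit 94) (nat_lit 168) (nat_lit 0) (XT.lf (nat_lit 0) (nat_lit 61173705190) (nat_lit 84) (nat_lit 11574303166) (nat_lit 168) (nat_lit 51667940870) (nat_lit 21) (nat_lit 5) (nat_lit 22) (nat_lit 5) (nat_lit 23) (nat_lit 4) (nat_lit 422) (nat_lit 378) (nat_lit 280)) (XT.lf (nat_lit 0) (nat_lit 10686791588) (nat_lit 168) (nat_lit 61866523497) (nat_lit 84) (nat_lit 58305064601) (nat_lit 19) (nat_lit 5) (nat_lit 21) (nat_lit 5) (nat_lit 20) (nat_lit 4) (nat_lit 423) (nat_lit 378) (nat_lit 279))))) (XT.nd (nat_lit 376) (nat_lit 504) (nat_lit 0) (XT.nd (nat_lit 188) (nat_lit 252) (nat_lit 0) (XT.nd (nat_lit 94) (nat_lit 168) (nat_lit 0) (XT.lf (nat_lit 0) (nat_lit 77693432384) (nat_lit 84) (nat_lit 1072873376) (nat_lit 168) (nat_lit 58880218249) (nat_lit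 18) (nat_lit 5) (nat_lit 19) (nat_lit 5) (nat_lit 20) (nat_lit 4) (nat_lit 424) (nat_lit 378) (nat_lit 278)) (XT.lf (nat_lit 0) (nat_lit 10781308046) (nat_lit 168) (nat_lit 57689096413) (nat_lit 84) (nat_lit 76316557690) (nat_lit 16) (nat_lit 5) (nat_lit 18) (nat_lit 5) (nat_lit 17) (nat_lit 4) (nat_lit 425) (nat_lit 378) (nat_lit 277))) (XT.nd (nat_lit 94) (nat_lit 168) (nat_lit 0) (XT.lf (nat_lit 0) (nat_lit 86753716480) (nat_lit 168) (nat_lit 54796485516) (nat_lit 0) (nat_lit 10760129069) (nat_lit 15) (nat_lit 5) (nat_lit 17) (nat_lit 4) (nat_lit 15) (nat_lit 4) (nat_lit 426) (nat_lit 378) (nat_lit 276)) (XT.lf (nat_lit 0) (nat_lit 12038600024) (nat_lit 168) (nat_lit 51316652131) (nat_lit 84) (nat_lit 96876880103) (nat_lit 13) (nat_lit 5) (nat_lit 15) (nat_lit 5) (nat_lit 14) (nat_lit 4) (nat_lit 427) (nat_lit 378) (nat_lit 275)))) (XT.nd (nat_lit 188)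 (nat_lit 252) (nat_lit 0) (XT.nd (nat_lit 94) (nat_lit 168) (nat_lit 0) (XT.lf (nat_lit 0) (nat_lit 96835291178) (nat_lit 168) (nat_lit 47277698907) (nat_lit 0) (nat_lit 24456420341) (nat_lit 12) (nat_lit 5) (nat_lit 14) (nat_lit 4) (nat_lit 12) (nat_lit 4) (nat_lit 428) (nat_lit 378) (nat_lit 274)) (XT.lf (nat_lit 0) (nat_lit 14645722287) (nat_lit 168) (nat_lit 42356932207) (nat_lit 84) (nat_lit 120355018182) (nat_lit 10) (nat_lit 5) (nat_lit 12) (nat_lit 5) (nat_lit 11) (nat_lit 4) (nat_lit 429) (nat_lit 378) (nat_lit 273))) (XT.nd (nat_lit 94) (nat_lit 168) (nat_lit 0) (XT.lf (nat_lit 0) (nat_lit 109286560713) (nat_lit 168) (nat_lit 36959429803) (nat_lit 0) (nat_lit 40351015748) (nat_lit 9) (nat_lit 5) (nat_lit 11) (nat_lit 4) (nat_lit 9) (nat_lit 4) (nat_lit 430) (nat_lit 378) (nat_lit 272)) (XT.lf (nat_lit 0) (nat_lit 18819249028) (nat_lit 168) (nat_lit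 30357547696) (nat_lit 84) (nat_lit 147168354966) (nat_lit 7) (nat_lit 5) (nat_lit 9) (nat_lit 5) (nat_lit 8) (nat_lit 4) (nat_lit 431) (nat_lit 378) (nat_lit 271))))))))
noncomputable def xc130 : XT := (XT.nd (nat_lit 2632) (nat_lit 0) (nat_lit 0) (XT.nd (nat_lit 1316) (nat_lit 0) (nat_lit 0) (XT.nd (nat_lit 658) (nat_lit 0) (nat_lit 0) (XT.nd (nat_lit 282) (nat_lit 252) (nat_lit 0) (XT.nd (nat_lit 94) (nat_lit 252) (nat_lit 0) (XT.lf (nat_lit 0) (nat_lit 124441389338) (nat_lit 168) (nat_lit 23357052142) (nat_lit 0) (nat_lit 58785805473) (nat_lit 6) (nat_lit 5) (nat_lit 8) (nat_lit 4) (nat_lit 6) (nat_lit 4) (nat_lit 432) (nat_lit 378) (nat_lit 270)) (XT.nd (nat_lit 94) (nat_lit 84) (nat_lit 0) (XT.lf (nat_lit 0) (nat_lit 24809317605) (nat_lit 168) (nat_lit 14797677527) (nat_lit 84) (nat_lit 177788857922) (nat_lit 4) (nat_lit 5) (nat_lit 6) (nat_lit 5) (nat_lit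 5) (nat_lit 4) (nat_lit 433) (nat_lit 378) (nat_lit 269)) (XT.lf (nat_lit 0) (nat_lit 142680645148) (nat_lit 168) (nat_lit 5913042870) (nat_lit 0) (nat_lit 80149326220) (nat_lit 3) (nat_lit 5) (nat_lit 5) (nat_lit 4) (nat_lit 3) (nat_lit 4) (nat_lit 434) (nat_lit 378) (nat_lit 268)))) (XT.nd (nat_lit 188) (nat_lit 0) (nat_lit 0) (XT.nd (nat_lit 94) (nat_lit 0) (nat_lit 0) (XT.lf (nat_lit 0) (nat_lit 349182267685) (nat_lit 0) (nat_lit 0) (nat_lit 0) (nat_lit 0) (nat_lit 0) (nat_lit 0) (nat_lit 1) (nat_lit 0) (nat_lit 1) (nat_lit 0) (nat_lit 435) (nat_lit 378) (nat_lit 267)) (XT.lf (nat_lit 0) (nat_lit 376773464748) (nat_lit 0) (nat_lit 0) (nat_lit 0) (nat_lit 0) (nat_lit 0) (nat_lit 0) (nat_lit 1) (nat_lit 0) (nat_lit 1) (nat_lit 0) (nat_lit 436) (nat_lit 378) (nat_lit 266))) (XT.nd (nat_lit 94) (nat_lit 0) (nat_lit 0) (XT.lf (nat_lit 0) (nat_lit 406571967124)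 (nat_lit 0) (nat_lit 0) (nat_lit 0) (nat_lit 0) (nat_lit 0) (nat_lit 0) (nat_lit 1) (nat_lit 0) (nat_lit 1) (nat_lit 0) (nat_lit 437) (nat_lit 378) (nat_lit 265)) (XT.lf (nat_lit 0) (nat_lit 438754358530) (nat_lit 0) (nat_lit 0) (nat_lit 0) (nat_lit 0) (nat_lit 0) (nat_lit 0) (nat_lit 1) (nat_lit 0) (nat_lit 1) (nat_lit 0) (nat_lit 438) (nat_lit 378) (nat_lit 264))))) (XT.nd (nat_lit 282) (nat_lit 0) (nat_lit 0) (XT.nd (nat_lit 94) (nat_lit 0) (nat_lit 0) (XT.lf (nat_lit 0) (nat_lit 473511349434) (nat_lit 0) (nat_lit 0) (nat_lit 0) (nat_lit 0) (nat_lit 0) (nat_lit 0) (nat_lit 1) (nat_lit 0) (nat_lit 1) (nat_lit 0) (nat_lit 439) (nat_lit 378) (nat_lit 263)) (XT.nd (nat_lit 94) (nat_lit 0) (nat_lit 0) (XT.lf (nat_lit 0) (nat_lit 511048907190) (nat_lit 0) (nat_lit 0) (nat_lit 0) (nat_lit 0) (nat_lit 0) (nat_lit 0) (nat_lit 1) (nat_lit 0) (nat_lit 1) (nat_lit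 0) (nat_lit 440) (nat_lit 378) (nat_lit 262)) (XT.lf (nat_lit 0) (nat_lit 551589476583) (nat_lit 0) (nat_lit 0) (nat_lit 0) (nat_lit 0) (nat_lit 0) (nat_lit 0) (nat_lit 1) (nat_lit 0) (nat_lit 1) (nat_lit 0) (nat_lit 441) (nat_lit 378) (nat_lit 261)))) (XT.nd (nat_lit 188) (nat_lit 0) (nat_lit 0) (XT.nd (nat_lit 94) (nat_lit 0) (nat_lit 0) (XT.lf (nat_lit 0) (nat_lit 595373298026) (nat_lit 0) (nat_lit 0) (nat_lit 0) (nat_lit 0) (nat_lit 0) (nat_lit 0) (nat_lit 1) (nat_lit 0) (nat_lit 1) (nat_lit 0) (nat_lit 442) (nat_lit 378) (nat_lit 260)) (XT.lf (nat_lit 0) (nat_lit 642659831200) (nat_lit 0) (nat_lit 0) (nat_lit 0) (nat_lit 0) (nat_lit 0) (nat_lit 0) (nat_lit 1) (nat_lit 0) (nat_lit 1) (nat_lit 0) (nat_lit 443) (nat_lit 378) (nat_lit 259))) (XT.nd (nat_lit 94) (nat_lit 0) (nat_lit 0) (XT.lf (nat_lit 0) (nat_lit 693729292600) (nat_lit 0) (nat_lit 0) (nat_lit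 0) (nat_lit 0) (nat_lit 0) (nat_lit 0) (nat_lit 1) (nat_lit 0) (nat_lit 1) (nat_lit 0) (nat_lit 444) (nat_lit 378) (nat_lit 258)) (XT.lf (nat_lit 0) (nat_lit 748884316069) (nat_lit 0) (nat_lit 0) (nat_lit 0) (nat_lit 0) (nat_lit 0) (nat_lit 0) (nat_lit 1) (nat_lit 0) (nat_lit 1) (nat_lit 0) (nat_lit 445) (nat_lit 378) (nat_lit 257)))))) (XT.nd (nat_lit 658) (nat_lit 0) (nat_lit 0) (XT.nd (nat_lit 282) (nat_lit 0) (nat_lit 0) (XT.nd (nat_lit 94) (nat_lit 0) (nat_lit 0) (XT.lf (nat_lit 0) (nat_lit 808451746192) (nat_lit 0) (nat_lit 0) (nat_lit 0) (nat_lit 0) (nat_lit 0) (nat_lit 0) (nat_lit 1) (nat_lit 0) (nat_lit 1) (nat_lit 0) (nat_lit 446) (nat_lit 378) (nat_lit 256)) (XT.nd (nat_lit 94) (nat_lit 0) (nat_lit 0) (XT.lf (nat_lit 0) (nat_lit 872784575148) (nat_lit 0) (nat_lit 0) (nat_lit 0) (nat_lit 0) (nat_lit 0) (nat_lit 0) (nat_lit 1) (nat_lit 0) (nat_lit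 1) (nat_lit 0) (nat_lit 447) (nat_lit 378) (nat_lit 255)) (XT.lf (nat_lit 0) (nat_lit 942264034514) (nat_lit 0) (nat_lit 0) (nat_lit 0) (nat_lit 0) (nat_lit 0) (nat_lit 0) (nat_lit 1) (nat_lit 0) (nat_lit 1) (nat_lit 0) (nat_lit 448) (nat_lit 378) (nat_lit 254)))) (XT.nd (nat_lit 188) (nat_lit 0) (nat_lit 0) (XT.nd (nat_lit 94) (nat_lit 0) (nat_lit 0) (XT.lf (nat_lit 0) (nat_lit 1017301854421) (nat_lit 0) (nat_lit 0) (nat_lit 0) (nat_lit 0) (nat_lit 0) (nat_lit 0) (nat_lit 1) (nat_lit 0) (nat_lit 1) (nat_lit 0) (nat_lit 449) (nat_lit 378) (nat_lit 253)) (XT.lf (nat_lit 0) (nat_lit 1098342703432) (nat_lit 0) (nat_lit 0) (nat_lit 0) (nat_lit 0) (nat_lit 0) (nat_lit 0) (nat_lit 1) (nat_lit 0) (nat_lit 1) (nat_lit 0) (nat_lit 450) (nat_lit 378) (nat_lit 252))) (XT.nd (nat_lit 94) (nat_lit 0) (nat_lit 0) (XT.lf (nat_lit 0) (nat_lit 1185866823613) (nat_lit 0) (nat_lit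 0) (nat_lit 0) (nat_lit 0) (nat_lit 0) (nat_lit 0) (nat_lit 1) (nat_lit 0) (nat_lit 1) (nat_lit 0) (nat_lit 451) (nat_lit 378) (nat_lit 251)) (XT.lf (nat_lit 0) (nat_lit 1280392876419) (nat_lit 0) (nat_lit 0) (nat_lit 0) (nat_lit 0) (nat_lit 0) (nat_lit 0) (nat_lit 1) (nat_lit 0) (nat_lit 1) (nat_lit 0) (nat_lit 452) (nat_lit 378) (nat_lit 250))))) (XT.nd (nat_lit 282) (nat_lit 0) (nat_lit 0) (XT.nd (nat_lit 94) (nat_lit 0) (nat_lit 0) (XT.lf (nat_lit 0) (nat_lit 1382481016237) (nat_lit 0) (nat_lit 0) (nat_lit 0) (nat_lit 0) (nat_lit 0) (nat_lit 0) (nat_lit 1) (nat_lit 0) (nat_lit 1) (nat_lit 0) (nat_lit 453) (nat_lit 378) (nat_lit 249)) (XT.nd (nat_lit 94) (nat_lit 0) (nat_lit 0) (XT.lf (nat_lit 0) (nat_lit 1492736209820) (nat_lit 0) (nat_lit 0) (nat_lit 0) (nat_lit 0) (nat_lit 0) (nat_lit 0) (nat_lit 1) (nat_lit 0) (nat_lit 1) (nat_lit 0) (nat_lit 454) (nat_lit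 378) (nat_lit 248)) (XT.lf (nat_lit 0) (nat_lit 1611811821279) (nat_lit 0) (nat_lit 0) (nat_lit 0) (nat_lit 0) (nat_lit 0) (nat_lit 0) (nat_lit 1) (nat_lit 0) (nat_lit 1) (nat_lit 0) (nat_lit 455) (nat_lit 378) (nat_lit 247)))) (XT.nd (nat_lit 188) (nat_lit 0) (nat_lit 0) (XT.nd (nat_lit 94) (nat_lit 0) (nat_lit 0) (XT.lf (nat_lit 0) (nat_lit 1740413483867) (nat_lit 0) (nat_lit 0) (nat_lit 0) (nat_lit 0) (nat_lit 0) (nat_lit 0) (nat_lit 1) (nat_lit 0) (nat_lit 1) (nat_lit 0) (nat_lit 456) (nat_lit 378) (nat_lit 246)) (XT.lf (nat_lit 0) (nat_lit 1879303281510) (nat_lit 0) (nat_lit 0) (nat_lit 0) (nat_lit 0) (nat_lit 0) (nat_lit 0) (nat_lit 1) (nat_lit 0) (nat_lit 1) (nat_lit 0) (nat_lit 457) (nat_lit 378) (nat_lit 245))) (XT.nd (nat_lit 94) (nat_lit 0) (nat_lit 0) (XT.lf (nat_lit 0) (nat_lit 2029304264861) (nat_lit 0) (nat_lit 0) (nat_lit 0) (nat_lit 0) (nat_lit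 0) (nat_lit 0) (nat_lit 1) (nat_lit 0) (nat_lit 1) (nat_lit 0) (nat_lit 458) (nat_lit 378) (nat_lit 244)) (XT.lf (nat_lit 0) (nat_lit 2191305328637) (nat_lit 0) (nat_lit 0) (nat_lit 0) (nat_lit 0) (nat_lit 0) (nat_lit 0) (nat_lit 1) (nat_lit 0) (nat_lit 1) (nat_lit 0) (nat_lit 459) (nat_lit 378) (nat_lit 243))))))) (XT.nd (nat_lit 1316) (nat_lit 0) (nat_lit 0) (XT.nd (nat_lit 658) (nat_lit 0) (nat_lit 0) (XT.nd (nat_lit 282) (nat_lit 0) (nat_lit 0) (XT.nd (nat_lit 94) (nat_lit 0) (nat_lit 0) (XT.lf (nat_lit 0) (nat_lit 2366266479141) (nat_lit 0) (nat_lit 0) (nat_lit 0) (nat_lit 0) (nat_lit 0) (nat_lit 0) (nat_lit 1) (nat_lit 0) (nat_lit 1) (nat_lit 0) (nat_lit 460) (nat_lit 378) (nat_lit 242)) (XT.nd (nat_lit 94) (nat_lit 0) (nat_lit 0) (XT.lf (nat_lit 0) (nat_lit 2555224523191) (nat_lit 0) (nat_lit 0) (nat_lit 0) (nat_lit 0) (nat_lit 0) (nat_lit 0) (nat_lit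 1) (nat_lit 0) (nat_lit 1) (nat_lit 0) (nat_lit 461) (nat_lit 378) (nat_lit 241)) (XT.lf (nat_lit 0) (nat_lit 2759299212159) (nat_lit 0) (nat_lit 0) (nat_lit 0) (nat_lit 0) (nat_lit 0) (nat_lit 0) (nat_lit 1) (nat_lit 0) (nat_lit 1) (nat_lit 0) (nat_lit 462) (nat_lit 378) (nat_lit 240)))) (XT.nd (nat_lit 188) (nat_lit 0) (nat_lit 0) (XT.nd (nat_lit 94) (nat_lit 0) (nat_lit 0) (XT.lf (nat_lit 0) (nat_lit 2979699877535) (nat_lit 0) (nat_lit 0) (nat_lit 0) (nat_lit 0) (nat_lit 0) (nat_lit 0) (nat_lit 1) (nat_lit 0) (nat_lit 1) (nat_lit 0) (nat_lit 463) (nat_lit 378) (nat_lit 239)) (XT.lf (nat_lit 0) (nat_lit 3217732597336) (nat_lit 0) (nat_lit 0) (nat_lit 0) (nat_lit 0) (nat_lit 0) (nat_lit 0) (nat_lit 1) (nat_lit 0) (nat_lit 1) (nat_lit 0) (nat_lit 464) (nat_lit 378) (nat_lit 238))) (XT.nd (nat_lit 94) (nat_lit 0) (nat_lit 0) (XT.lf (nat_lit 0) (nat_lit 3474807935828)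 (nat_lit 0) (nat_lit 0) (nat_lit 0) (nat_lit 0) (nat_lit 0) (nat_lit 0) (nat_lit 1) (nat_lit 0) (nat_lit 1) (nat_lit 0) (nat_lit 465) (nat_lit 378) (nat_lit 237)) (XT.lf (nat_lit 0) (nat_lit 3752449302425) (nat_lit 0) (nat_lit 0) (nat_lit 0) (nat_lit 0) (nat_lit 0) (nat_lit 0) (nat_lit 1) (nat_lit 0) (nat_lit 1) (nat_lit 0) (nat_lit 466) (nat_lit 378) (nat_lit 236))))) (XT.nd (nat_lit 282) (nat_lit 0) (nat_lit 0) (XT.nd (nat_lit 94) (nat_lit 0) (nat_lit 0) (XT.lf (nat_lit 0) (nat_lit 4052301979297) (nat_lit 0) (nat_lit 0) (nat_lit 0) (nat_lit 0) (nat_lit 0) (nat_lit 0) (nat_lit 1) (nat_lit 0) (nat_lit 1) (nat_lit 0) (nat_lit 467) (nat_lit 378) (nat_lit 235)) (XT.nd (nat_lit 94) (nat_lit 0) (nat_lit 0) (XT.lf (nat_lit 0) (nat_lit 4376142871198) (nat_lit 0) (nat_lit 0) (nat_lit 0) (nat_lit 0) (nat_lit 0) (nat_lit 0) (nat_lit 1) (nat_lit 0) (nat_lit 1) (nat_lit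 0) (nat_lit 468) (nat_lit 378) (nat_lit 234)) (XT.lf (nat_lit 0) (nat_lit 4725891035265) (nat_lit 0) (nat_lit 0) (nat_lit 0) (nat_lit 0) (nat_lit 0) (nat_lit 0) (nat_lit 1) (nat_lit 0) (nat_lit 1) (nat_lit 0) (nat_lit 469) (nat_lit 378) (nat_lit 233)))) (XT.nd (nat_lit 188) (nat_lit 0) (nat_lit 0) (XT.nd (nat_lit 94) (nat_lit 0) (nat_lit 0) (XT.lf (nat_lit 0) (nat_lit 5103619053210) (nat_lit 0) (nat_lit 0) (nat_lit 0) (nat_lit 0) (nat_lit 0) (nat_lit 0) (nat_lit 1) (nat_lit 0) (nat_lit 1) (nat_lit 0) (nat_lit 470) (nat_lit 378) (nat_lit 232)) (XT.lf (nat_lit 0) (nat_lit 5511565313288) (nat_lit 0) (nat_lit 0) (nat_lit 0) (nat_lit 0) (nat_lit 0) (nat_lit 0) (nat_lit 1) (nat_lit 0) (nat_lit 1) (nat_lit 0) (nat_lit 471) (nat_lit 378) (nat_lit 231))) (XT.nd (nat_lit 94) (nat_lit 0) (nat_lit 0) (XT.lf (nat_lit 0) (nat_lit 5952147274819) (nat_lit 0) (nat_lit 0) (nat_lit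 0) (nat_lit 0) (nat_lit 0) (nat_lit 0) (nat_lit 1) (nat_lit 0) (nat_lit 1) (nat_lit 0) (nat_lit 472) (nat_lit 378) (nat_lit 230)) (XT.lf (nat_lit 0) (nat_lit 6427975793869) (nat_lit 0) (nat_lit 0) (nat_lit 0) (nat_lit 0) (nat_lit 0) (nat_lit 0) (nat_lit 1) (nat_lit 0) (nat_lit 1) (nat_lit 0) (nat_lit 473) (nat_lit 378) (nat_lit 229)))))) (XT.nd (nat_lit 658) (nat_lit 0) (nat_lit 0) (XT.nd (nat_lit 282) (nat_lit 0) (nat_lit 0) (XT.nd (nat_lit 94) (nat_lit 0) (nat_lit 0) (XT.lf (nat_lit 0) (nat_lit 6941870594997) (nat_lit 0) (nat_lit 0) (nat_lit 0) (nat_lit 0) (nat_lit 0) (nat_lit 0) (nat_lit 1) (nat_lit 0) (nat_lit 1) (nat_lit 0) (nat_lit 474) (nat_lit 378) (nat_lit 228)) (XT.nd (nat_lit 94) (nat_lit 0) (nat_lit 0) (XT.lf (nat_lit 0) (nat_lit 7496876980728) (nat_lit 0) (nat_lit 0) (nat_lit 0) (nat_lit 0) (nat_lit 0) (nat_lit 0) (nat_lit 1) (nat_lit 0) (nat_lit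 1) (nat_lit 0) (nat_lit 475) (nat_lit 378) (nat_lit 227)) (XT.lf (nat_lit 0) (nat_lit 8096283877792) (nat_lit 0) (nat_lit 0) (nat_lit 0) (nat_lit 0) (nat_lit 0) (nat_lit 0) (nat_lit 1) (nat_lit 0) (nat_lit 1) (nat_lit 0) (nat_lit 476) (nat_lit 378) (nat_lit 226)))) (XT.nd (nat_lit 188) (nat_lit 0) (nat_lit 0) (XT.nd (nat_lit 94) (nat_lit 0) (nat_lit 0) (XT.lf (nat_lit 0) (nat_lit 8743643327061) (nat_lit 0) (nat_lit 0) (nat_lit 0) (nat_lit 0) (nat_lit 0) (nat_lit 0) (nat_lit 1) (nat_lit 0) (nat_lit 1) (nat_lit 0) (nat_lit 477) (nat_lit 378) (nat_lit 225)) (XT.lf (nat_lit 0) (nat_lit 9442791532678) (nat_lit 0) (nat_lit 0) (nat_lit 0) (nat_lit 0) (nat_lit 0) (nat_lit 0) (nat_lit 1) (nat_lit 0) (nat_lit 1) (nat_lit 0) (nat_lit 478) (nat_lit 378) (nat_lit 224))) (XT.nd (nat_lit 94) (nat_lit 0) (nat_lit 0) (XT.lf (nat_lit 0) (nat_lit 10197871595121) (nat_lit 0)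 (nat_lit 0) (nat_lit 0) (nat_lit 0) (nat_lit 0) (nat_lit 0) (nat_lit 1) (nat_lit 0) (nat_lit 1) (nat_lit 0) (nat_lit 479) (nat_lit 378) (nat_lit 223)) (XT.lf (nat_lit 0) (nat_lit 11013358062909) (nat_lit 0) (nat_lit 0) (nat_lit 0) (nat_lit 0) (nat_lit 0) (nat_lit 0) (nat_lit 1) (nat_lit 0) (nat_lit 1) (nat_lit 0) (nat_lit 480) (nat_lit 378) (nat_lit 222))))) (XT.nd (nat_lit 376) (nat_lit 0) (nat_lit 0) (XT.nd (nat_lit 188) (nat_lit 0) (nat_lit 0) (XT.nd (nat_lit 94) (nat_lit 0) (nat_lit 0) (XT.lf (nat_lit 0) (nat_lit 11894083448443) (nat_lit 0) (nat_lit 0) (nat_lit 0) (nat_lit 0) (nat_lit 0) (nat_lit 0) (nat_lit 1) (nat_lit 0) (nat_lit 1) (nat_lit 0) (nat_lit 481) (nat_lit 378) (nat_lit 221)) (XT.lf (nat_lit 0) (nat_lit 12845266865118) (nat_lit 0) (nat_lit 0) (nat_lit 0) (nat_lit 0) (nat_lit 0) (nat_lit 0) (nat_lit 1) (nat_lit 0) (nat_lit 1) (nat_lit 0) (nat_lit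 482) (nat_lit 378) (nat_lit 220))) (XT.nd (nat_lit 94) (nat_lit 0) (nat_lit 0) (XT.lf (nat_lit 0) (nat_lit 13872544955404) (nat_lit 0) (nat_lit 0) (nat_lit 0) (nat_lit 0) (nat_lit 0) (nat_lit 0) (nat_lit 1) (nat_lit 0) (nat_lit 1) (nat_lit 0) (nat_lit 483) (nat_lit 378) (nat_lit 219)) (XT.lf (nat_lit 0) (nat_lit 14982005293170) (nat_lit 0) (nat_lit 0) (nat_lit 0) (nat_lit 0) (nat_lit 0) (nat_lit 0) (nat_lit 1) (nat_lit 0) (nat_lit 1) (nat_lit 0) (nat_lit 484) (nat_lit 378) (nat_lit 218)))) (XT.nd (nat_lit 188) (nat_lit 0) (nat_lit 0) (XT.nd (nat_lit 94) (nat_lit 0) (nat_lit 0) (XT.lf (nat_lit 0) (nat_lit 16180222458195) (nat_lit 0) (nat_lit 0) (nat_lit 0) (nat_lit 0) (nat_lit 0) (nat_lit 0) (nat_lit 1) (nat_lit 0) (nat_lit 1) (nat_lit 0) (nat_lit 485) (nat_lit 378) (nat_lit 217)) (XT.lf (nat_lit 0) (nat_lit 17474296996641) (nat_lit 0) (nat_lit 0) (nat_lit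 0) (nat_lit 0) (nat_lit 0) (nat_lit 0) (nat_lit 1) (nat_lit 0) (nat_lit 1) (nat_lit 0) (nat_lit 486) (nat_lit 378) (nat_lit 216))) (XT.nd (nat_lit 94) (nat_lit 0) (nat_lit 0) (XT.lf (nat_lit 0) (nat_lit 18871897498366) (nat_lit 0) (nat_lit 0) (nat_lit 0) (nat_lit 0) (nat_lit 0) (nat_lit 0) (nat_lit 1) (nat_lit 0) (nat_lit 1) (nat_lit 0) (nat_lit 487) (nat_lit 378) (nat_lit 215)) (XT.lf (nat_lit 0) (nat_lit 20381306040418) (nat_lit 0) (nat_lit 0) (nat_lit 0) (nat_lit 0) (nat_lit 0) (nat_lit 0) (nat_lit 1) (nat_lit 0) (nat_lit 1) (nat_lit 0) (nat_lit 488) (nat_lit 378) (nat_lit 214))))))))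
noncomputable def xc131 : XT := (XT.nd (nat_lit 58562) (nat_lit 0) (nat_lit 2268) (XT.nd (nat_lit 1316) (nat_lit 0) (nat_lit 0) (XT.nd (nat_lit 658) (nat_lit 0) (nat_lit 0) (XT.nd (nat_lit 282) (nat_lit 0) (nat_lit 0) (XT.nd (nat_lit 94) (nat_lit 0) (nat_lit 0) (XT.lf (nat_lit 0) (nat_lit 22011467266009) (nat_lit 0) (nat_lit 0) (nat_lit 0) (nat_lit 0) (nat_lit 0) (nat_lit 0) (nat_lit 1) (nat_lit 0) (nat_lit 1) (nat_lit 0) (nat_lit 489) (nat_lit 378) (nat_lit 213)) (XT.nd (nat_lit 94) (nat_lit 0) (nat_lit 0) (XT.lf (nat_lit 0) (nat_lit 23772041389809) (nat_lit 0) (nat_lit 0) (nat_lit 0) (nat_lit 0) (nat_lit 0) (nat_lit 0) (nat_lit 1) (nat_lit 0) (nat_lit 1) (nat_lit 0) (nat_lit 490) (nat_lit 378) (nat_lit 212)) (XT.lf (nat_lit 0) (nat_lit 25673461443662) (nat_lit 0) (nat_lit 0) (nat_lit 0) (nat_lit 0) (nat_lit 0) (nat_lit 0) (nat_lit 1) (nat_lit 0) (nat_lit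 1) (nat_lit 0) (nat_lit 491) (nat_lit 378) (nat_lit 211)))) (XT.nd (nat_lit 188) (nat_lit 0) (nat_lit 0) (XT.nd (nat_lit 94) (nat_lit 0) (nat_lit 0) (XT.lf (nat_lit 0) (nat_lit 27726995101962) (nat_lit 0) (nat_lit 0) (nat_lit 0) (nat_lit 0) (nat_lit 0) (nat_lit 0) (nat_lit 1) (nat_lit 0) (nat_lit 1) (nat_lit 0) (nat_lit 492) (nat_lit 378) (nat_lit 210)) (XT.lf (nat_lit 0) (nat_lit 29944811453054) (nat_lit 0) (nat_lit 0) (nat_lit 0) (nat_lit 0) (nat_lit 0) (nat_lit 0) (nat_lit 1) (nat_lit 0) (nat_lit 1) (nat_lit 0) (nat_lit 493) (nat_lit 378) (nat_lit 209))) (XT.nd (nat_lit 94) (nat_lit 0) (nat_lit 0) (XT.lf (nat_lit 0) (nat_lit 32340053112352) (nat_lit 0) (nat_lit 0) (nat_lit 0) (nat_lit 0) (nat_lit 0) (nat_lit 0) (nat_lit 1) (nat_lit 0) (nat_lit 1) (nat_lit 0) (nat_lit 494) (nat_lit 378) (nat_lit 208)) (XT.lf (nat_lit 0) (nat_lit 34926914104505) (nat_lit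 0) (nat_lit 0) (nat_lit 0) (nat_lit 0) (nat_lit 0) (nat_lit 0) (nat_lit 1) (nat_lit 0) (nat_lit 1) (nat_lit 0) (nat_lit 495) (nat_lit 378) (nat_lit 207))))) (XT.nd (nat_lit 282) (nat_lit 0) (nat_lit 0) (XT.nd (nat_lit 94) (nat_lit 0) (nat_lit 0) (XT.lf (nat_lit 0) (nat_lit 37720723976131) (nat_lit 0) (nat_lit 0) (nat_lit 0) (nat_lit 0) (nat_lit 0) (nat_lit 0) (nat_lit 1) (nat_lit 0) (nat_lit 1) (nat_lit 0) (nat_lit 496) (nat_lit 378) (nat_lit 206)) (XT.nd (nat_lit 94) (nat_lit 0) (nat_lit 0) (XT.lf (nat_lit 0) (nat_lit 40738038637582) (nat_lit 0) (nat_lit 0) (nat_lit 0) (nat_lit 0) (nat_lit 0) (nat_lit 0) (nat_lit 1) (nat_lit 0) (nat_lit 1) (nat_lit 0) (nat_lit 497) (nat_lit 378) (nat_lit 205)) (XT.lf (nat_lit 0) (nat_lit 43996738472036) (nat_lit 0) (nat_lit 0) (nat_lit 0) (nat_lit 0) (nat_lit 0) (nat_lit 0) (nat_lit 1) (nat_lit 0) (nat_lit 1) (nat_lit 0)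 (nat_lit 498) (nat_lit 378) (nat_lit 204)))) (XT.nd (nat_lit 188) (nat_lit 0) (nat_lit 0) (XT.nd (nat_lit 94) (nat_lit 0) (nat_lit 0) (XT.lf (nat_lit 0) (nat_lit 47516134293327) (nat_lit 0) (nat_lit 0) (nat_lit 0) (nat_lit 0) (nat_lit 0) (nat_lit 0) (nat_lit 1) (nat_lit 0) (nat_lit 1) (nat_lit 0) (nat_lit 499) (nat_lit 378) (nat_lit 203)) (XT.lf (nat_lit 0) (nat_lit 51317081780396) (nat_lit 0) (nat_lit 0) (nat_lit 0) (nat_lit 0) (nat_lit 0) (nat_lit 0) (nat_lit 1) (nat_lit 0) (nat_lit 1) (nat_lit 0) (nat_lit 500) (nat_lit 378) (nat_lit 202))) (XT.nd (nat_lit 94) (nat_lit 0) (nat_lit 0) (XT.lf (nat_lit 0) (nat_lit 55422105066500) (nat_lit 0) (nat_lit 0) (nat_lit 0) (nat_lit 0) (nat_lit 0) (nat_lit 0) (nat_lit 1) (nat_lit 0) (nat_lit 1) (nat_lit 0) (nat_lit 501) (nat_lit 378) (nat_lit 201)) (XT.lf (nat_lit 0) (nat_lit 59855530215557) (nat_lit 0) (nat_lit 0)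 (nat_lit 0) (nat_lit 0) (nat_lit 0) (nat_lit 0) (nat_lit 1) (nat_lit 0) (nat_lit 1) (nat_lit 0) (nat_lit 502) (nat_lit 378) (nat_lit 200)))))) (XT.nd (nat_lit 56588) (nat_lit 0) (nat_lit 8904) (XT.nd (nat_lit 56212) (nat_lit 0) (nat_lit 10836) (XT.nd (nat_lit 94) (nat_lit 0) (nat_lit 0) (XT.lf (nat_lit 0) (nat_lit 64643629376597) (nat_lit 0) (nat_lit 0) (nat_lit 0) (nat_lit 0) (nat_lit 0) (nat_lit 0) (nat_lit 1) (nat_lit 0) (nat_lit 1) (nat_lit 0) (nat_lit 503) (nat_lit 378) (nat_lit 199)) (XT.nd (nat_lit 56024) (nat_lit 0) (nat_lit 10752) (XT.lf (nat_lit 0) (nat_lit 69814776470576) (nat_lit 0) (nat_lit 0) (nat_lit 0) (nat_lit 0) (nat_lit 0) (nat_lit 0) (nat_lit 1) (nat_lit 0) (nat_lit 1) (nat_lit 0) (nat_lit 504) (nat_lit 378) (nat_lit 198)) (XT.lf (nat_lit 0) (nat_lit 2669960206) (nat_lit 924) (nat_lit 3078897891) (nat_lit 924) (nat_lit 3078897891) (nat_lit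 128) (nat_lit 3) (nat_lit 139) (nat_lit 3) (nat_lit 139) (nat_lit 5) (nat_lit 379) (nat_lit 379) (nat_lit 322)))) (XT.nd (nat_lit 188) (nat_lit 0) (nat_lit 84) (XT.nd (nat_lit 94) (nat_lit 0) (nat_lit 0) (XT.lf (nat_lit 0) (nat_lit 6046760516) (nat_lit 840) (nat_lit 10146670673) (nat_lit 924) (nat_lit 2143639103) (nat_lit 129) (nat_lit 5) (nat_lit 139) (nat_lit 5) (nat_lit 140) (nat_lit 5) (nat_lit 380) (nat_lit 379) (nat_lit 321)) (XT.lf (nat_lit 84) (nat_lit 4775957978) (nat_lit 0) (nat_lit 2378573834) (nat_lit 924) (nat_lit 11901402262) (nat_lit 130) (nat_lit 5) (nat_lit 129) (nat_lit 5) (nat_lit 140) (nat_lit 5) (nat_lit 381) (nat_lit 379) (nat_lit 320))) (XT.nd (nat_lit 94) (nat_lit 0) (nat_lit 84) (XT.lf (nat_lit 84) (nat_lit 1251929817) (nat_lit 0) (nat_lit 7463257627) (nat_lit 924) (nat_lit 11098906382) (nat_lit 131) (nat_lit 5) (nat_lit 130) (nat_lit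 5) (nat_lit 141) (nat_lit 5) (nat_lit 382) (nat_lit 379) (nat_lit 319)) (XT.lf (nat_lit 0) (nat_lit 10782147814) (nat_lit 840) (nat_lit 2266856463) (nat_lit 924) (nat_lit 7564829466) (nat_lit 131) (nat_lit 5) (nat_lit 141) (nat_lit 5) (nat_lit 142) (nat_lit 5) (nat_lit 383) (nat_lit 379) (nat_lit 318))))) (XT.nd (nat_lit 282) (nat_lit 1428) (nat_lit 0) (XT.nd (nat_lit 94) (nat_lit 756) (nat_lit 0) (XT.lf (nat_lit 0) (nat_lit 13395118382) (nat_lit 840) (nat_lit 5808142462) (nat_lit 924) (nat_lit 2255259342) (nat_lit 132) (nat_lit 5) (nat_lit 142) (nat_lit 5) (nat_lit 143) (nat_lit 5) (nat_lit 384) (nat_lit 379) (nat_lit 317)) (XT.nd (nat_lit 94) (nat_lit 756) (nat_lit 0) (XT.lf (nat_lit 84) (nat_lit 12884575377) (nat_lit 0) (nat_lit 3769131854) (nat_lit 924) (nat_lit 5695245280) (nat_lit 133) (nat_lit 5) (nat_lit 132) (nat_lit 5) (nat_lit 143) (nat_lit 5) (nat_lit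 385) (nat_lit 379) (nat_lit 316)) (XT.lf (nat_lit 0) (nat_lit 10073299559) (nat_lit 840) (nat_lit 10538031772) (nat_lit 924) (nat_lit 2677370686) (nat_lit 123) (nat_lit 5) (nat_lit 133) (nat_lit 5) (nat_lit 134) (nat_lit 5) (nat_lit 386) (nat_lit 379) (nat_lit 315)))) (XT.nd (nat_lit 188) (nat_lit 420) (nat_lit 0) (XT.nd (nat_lit 94) (nat_lit 420) (nat_lit 0) (XT.lf (nat_lit 0) (nat_lit 988173603) (nat_lit 588) (nat_lit 17031751208) (nat_lit 84) (nat_lit 6262009127) (nat_lit 116) (nat_lit 5) (nat_lit 123) (nat_lit 5) (nat_lit 117) (nat_lit 5) (nat_lit 387) (nat_lit 379) (nat_lit 314)) (XT.lf (nat_lit 0) (nat_lit 4374612414) (nat_lit 420) (nat_lit 939013618) (nat_lit 504) (nat_lit 20015780485) (nat_lit 111) (nat_lit 5) (nat_lit 116) (nat_lit 5) (nat_lit 117) (nat_lit 5) (nat_lit 388) (nat_lit 379) (nat_lit 313))) (XT.nd (nat_lit 94) (nat_lit 0) (nat_lit 0)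 (XT.lf (nat_lit 0) (nat_lit 1401799941) (nat_lit 420) (nat_lit 9160572442) (nat_lit 504) (nat_lit 15869441632) (nat_lit 106) (nat_lit 5) (nat_lit 111) (nat_lit 5) (nat_lit 112) (nat_lit 5) (nat_lit 389) (nat_lit 379) (nat_lit 312)) (XT.lf (nat_lit 0) (nat_lit 16744135204) (nat_lit 504) (nat_lit 1496150828) (nat_lit 84) (nat_lit 9356472244) (nat_lit 106) (nat_lit 5) (nat_lit 112) (nat_lit 5) (nat_lit 107) (nat_lit 5) (nat_lit 390) (nat_lit 379) (nat_lit 311))))))) (XT.nd (nat_lit 1316) (nat_lit 2604) (nat_lit 0) (XT.nd (nat_lit 658) (nat_lit 1680) (nat_lit 0) (XT.nd (nat_lit 282) (nat_lit 1260) (nat_lit 0) (XT.nd (nat_lit 94) (nat_lit 756) (nat_lit 0) (XT.lf (nat_lit 0) (nat_lit 23950095808) (nat_lit 420) (nat_lit 4306126511) (nat_lit 84) (nat_lit 572192920) (nat_lit 102) (nat_lit 5) (nat_lit 107) (nat_lit 5) (nat_lit 103) (nat_lit 5) (nat_lit 391) (nat_lit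 379) (nat_lit 310)) (XT.nd (nat_lit 94) (nat_lit 336) (nat_lit 0) (XT.lf (nat_lit 0) (nat_lit 2210502493) (nat_lit 420) (nat_lit 7235475626) (nat_lit 84) (nat_lit 20677050491) (nat_lit 97) (nat_lit 5) (nat_lit 102) (nat_lit 5) (nat_lit 98) (nat_lit 5) (nat_lit 392) (nat_lit 379) (nat_lit 309)) (XT.lf (nat_lit 0) (nat_lit 10271669364) (nat_lit 420) (nat_lit 10196817949) (nat_lit 84) (nat_lit 11019917530) (nat_lit 93) (nat_lit 5) (nat_lit 98) (nat_lit 5) (nat_lit 94) (nat_lit 5) (nat_lit 393) (nat_lit 379) (nat_lit 308)))) (XT.nd (nat_lit 188) (nat_lit 672) (nat_lit 0) (XT.nd (nat_lit 94) (nat_lit 252) (nat_lit 0) (XT.lf (nat_lit 0) (nat_lit 19565158768) (nat_lit 420) (nat_lit 13080429038) (nat_lit 84) (nat_lit 288051909) (nat_lit 89) (nat_lit 5) (nat_lit 94) (nat_lit 5) (nat_lit 90) (nat_lit 5) (nat_lit 394) (nat_lit 379) (nat_lit 307)) (XT.lf (nat_lit 0) (nat_lit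 18408439149) (nat_lit 252) (nat_lit 11992871869) (nat_lit 336) (nat_lit 4053223173) (nat_lit 86) (nat_lit 5) (nat_lit 89) (nat_lit 5) (nat_lit 90) (nat_lit 5) (nat_lit 395) (nat_lit 379) (nat_lit 306))) (XT.nd (nat_lit 94) (nat_lit 252) (nat_lit 0) (XT.lf (nat_lit 0) (nat_lit 6472956901) (nat_lit 420) (nat_lit 19004938713) (nat_lit 84) (nat_lit 10581616539) (nat_lit 81) (nat_lit 5) (nat_lit 86) (nat_lit 5) (nat_lit 82) (nat_lit 5) (nat_lit 396) (nat_lit 379) (nat_lit 305)) (XT.lf (nat_lit 0) (nat_lit 15810401840) (nat_lit 252) (nat_lit 2611174836) (nat_lit 336) (nat_lit 19331871838) (nat_lit 78) (nat_lit 5) (nat_lit 81) (nat_lit 5) (nat_lit 82) (nat_lit 5) (nat_lit 397) (nat_lit 379) (nat_lit 304))))) (XT.nd (nat_lit 282) (nat_lit 840) (nat_lit 0) (XT.nd (nat_lit 94) (nat_lit 588) (nat_lit 0) (XT.lf (nat_lit 0) (nat_lit 14623480316) (nat_lit 252) (nat_lit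 17600093574) (nat_lit 336) (nat_lit 7314451499) (nat_lit 75) (nat_lit 5) (nat_lit 78) (nat_lit 5) (nat_lit 79) (nat_lit 5) (nat_lit 398) (nat_lit 379) (nat_lit 303)) (XT.nd (nat_lit 94) (nat_lit 252) (nat_lit 0) (XT.lf (nat_lit 0) (nat_lit 6237329345) (nat_lit 336) (nat_lit 27811780828) (nat_lit 84) (nat_lit 7374123322) (nat_lit 71) (nat_lit 5) (nat_lit 75) (nat_lit 5) (nat_lit 72) (nat_lit 5) (nat_lit 399) (nat_lit 379) (nat_lit 302)) (XT.lf (nat_lit 0) (nat_lit 12631787750) (nat_lit 252) (nat_lit 8912580335) (nat_lit 336) (nat_lit 21862525802) (nat_lit 68) (nat_lit 5) (nat_lit 71) (nat_lit 5) (nat_lit 72) (nat_lit 5) (nat_lit 400) (nat_lit 379) (nat_lit 301)))) (XT.nd (nat_lit 188) (nat_lit 336) (nat_lit 0) (XT.nd (nat_lit 94) (nat_lit 336) (nat_lit 0) (XT.lf (nat_lit 0) (nat_lit 11848912388) (nat_lit 168) (nat_lit 27178494242) (nat_lit 252) (nat_lit 6474268646)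 (nat_lit 66) (nat_lit 5) (nat_lit 68) (nat_lit 5) (nat_lit 69) (nat_lit 5) (nat_lit 401) (nat_lit 379) (nat_lit 300)) (XT.lf (nat_lit 0) (nat_lit 10690411163) (nat_lit 336) (nat_lit 36450681206) (nat_lit 84) (nat_lit 571523824) (nat_lit 62) (nat_lit 5) (nat_lit 66) (nat_lit 5) (nat_lit 63) (nat_lit 5) (nat_lit 402) (nat_lit 379) (nat_lit 299))) (XT.nd (nat_lit 94) (nat_lit 168) (nat_lit 0) (XT.lf (nat_lit 0) (nat_lit 10648206229) (nat_lit 168) (nat_lit 19566754222) (nat_lit 252) (nat_lit 19819489059) (nat_lit 60) (nat_lit 5) (nat_lit 62) (nat_lit 5) (nat_lit 63) (nat_lit 5) (nat_lit 403) (nat_lit 379) (nat_lit 298)) (XT.lf (nat_lit 0) (nat_lit 10455490432) (nat_lit 168) (nat_lit 41804583234) (nat_lit 252) (nat_lit 234025826) (nat_lit 58) (nat_lit 5) (nat_lit 60) (nat_lit 5) (nat_lit 61) (nat_lit 5) (nat_lit 404) (nat_lit 379) (nat_lit 297)))))) (XT.nd (nat_lit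 658) (nat_lit 1344) (nat_lit 0) (XT.nd (nat_lit 282) (nat_lit 588) (nat_lit 0) (XT.nd (nat_lit 94) (nat_lit 420) (nat_lit 0) (XT.lf (nat_lit 0) (nat_lit 10218844420) (nat_lit 168) (nat_lit 11207582705) (nat_lit 252) (nat_lit 33648881300) (nat_lit 55) (nat_lit 5) (nat_lit 57) (nat_lit 5) (nat_lit 58) (nat_lit 5) (nat_lit 405) (nat_lit 379) (nat_lit 296)) (XT.nd (nat_lit 94) (nat_lit 252) (nat_lit 0) (XT.lf (nat_lit 0) (nat_lit 10289161372) (nat_lit 168) (nat_lit 35759556173) (nat_lit 252) (nat_lit 11752244685) (nat_lit 53) (nat_lit 5) (nat_lit 55) (nat_lit 5) (nat_lit 56) (nat_lit 5) (nat_lit 406) (nat_lit 379) (nat_lit 295)) (XT.lf (nat_lit 0) (nat_lit 10682454061) (nat_lit 168) (nat_lit 1974370715) (nat_lit 252) (nat_lit 48021484366) (nat_lit 50) (nat_lit 5) (nat_lit 52) (nat_lit 5) (nat_lit 53) (nat_lit 5) (nat_lit 407) (nat_lit 379) (nat_lit 294)))) (XT.nd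 (nat_lit 188) (nat_lit 252) (nat_lit 0) (XT.nd (nat_lit 94) (nat_lit 168) (nat_lit 0) (XT.lf (nat_lit 0) (nat_lit 11074013565) (nat_lit 168) (nat_lit 29083141306) (nat_lit 252) (nat_lit 23541542123) (nat_lit 48) (nat_lit 5) (nat_lit 50) (nat_lit 5) (nat_lit 51) (nat_lit 5) (nat_lit 408) (nat_lit 379) (nat_lit 293)) (XT.lf (nat_lit 0) (nat_lit 4034025277) (nat_lit 168) (nat_lit 54851823919) (nat_lit 84) (nat_lit 8011108057) (nat_lit 46) (nat_lit 5) (nat_lit 48) (nat_lit 5) (nat_lit 47) (nat_lit 5) (nat_lit 409) (nat_lit 379) (nat_lit 292))) (XT.nd (nat_lit 94) (nat_lit 84) (nat_lit 0) (XT.lf (nat_lit 0) (nat_lit 12961391630) (nat_lit 168) (nat_lit 21657347711) (nat_lit 252) (nat_lit 35631648536) (nat_lit 44) (nat_lit 5) (nat_lit 46) (nat_lit 5) (nat_lit 47) (nat_lit 5) (nat_lit 410) (nat_lit 379) (nat_lit 291)) (XT.lf (nat_lit 0) (nat_lit 14478968649) (nat_lit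 84) (nat_lit 54650728382) (nat_lit 168) (nat_lit 4668422594) (nat_lit 43) (nat_lit 5) (nat_lit 44) (nat_lit 5) (nat_lit 45) (nat_lit 4) (nat_lit 411) (nat_lit 379) (nat_lit 290))))) (XT.nd (nat_lit 376) (nat_lit 672) (nat_lit 0) (XT.nd (nat_lit 188) (nat_lit 336) (nat_lit 0) (XT.nd (nat_lit 94) (nat_lit 84) (nat_lit 0) (XT.lf (nat_lit 0) (nat_lit 16126856008) (nat_lit 168) (nat_lit 13348275886) (nat_lit 252) (nat_lit 48050870062) (nat_lit 40) (nat_lit 5) (nat_lit 42) (nat_lit 5) (nat_lit 43) (nat_lit 5) (nat_lit 412) (nat_lit 379) (nat_lit 289)) (XT.lf (nat_lit 0) (nat_lit 18212990345) (nat_lit 84) (nat_lit 49791567390) (nat_lit 168) (nat_lit 13452833276) (nat_lit 39) (nat_lit 5) (nat_lit 40) (nat_lit 5) (nat_lit 41) (nat_lit 4) (nat_lit 413) (nat_lit 379) (nat_lit 288))) (XT.nd (nat_lit 94) (nat_lit 84) (nat_lit 0) (XT.lf (nat_lit 0) (nat_lit 20773463764)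 (nat_lit 168) (nat_lit 4004035904) (nat_lit 252) (nat_lit 60825633036) (nat_lit 36) (nat_lit 5) (nat_lit 38) (nat_lit 5) (nat_lit 39) (nat_lit 5) (nat_lit 414) (nat_lit 379) (nat_lit 287)) (XT.lf (nat_lit 0) (nat_lit 23532501542) (nat_lit 84) (nat_lit 44258999503) (nat_lit 168) (nat_lit 22168177596) (nat_lit 35) (nat_lit 5) (nat_lit 36) (nat_lit 5) (nat_lit 37) (nat_lit 4) (nat_lit 415) (nat_lit 379) (nat_lit 286)))) (XT.nd (nat_lit 188) (nat_lit 336) (nat_lit 0) (XT.nd (nat_lit 94) (nat_lit 84) (nat_lit 0) (XT.lf (nat_lit 0) (nat_lit 20690105729) (nat_lit 252) (nat_lit 67534562238) (nat_lit 84) (nat_lit 6338045205) (nat_lit 32) (nat_lit 5) (nat_lit 35) (nat_lit 5) (nat_lit 33) (nat_lit 4) (nat_lit 416) (nat_lit 379) (nat_lit 285)) (XT.lf (nat_lit 0) (nat_lit 30687629505) (nat_lit 84) (nat_lit 37918608529) (nat_lit 168) (nat_lit 30789289230) (nat_lit 31) (nat_lit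 5) (nat_lit 32) (nat_lit 5) (nat_lit 33) (nat_lit 4) (nat_lit 417) (nat_lit 379) (nat_lit 284))) (XT.nd (nat_lit 94) (nat_lit 84) (nat_lit 0) (XT.lf (nat_lit 0) (nat_lit 17269592971) (nat_lit 252) (nat_lit 69321717675) (nat_lit 84) (nat_lit 17909733067) (nat_lit 28) (nat_lit 5) (nat_lit 31) (nat_lit 5) (nat_lit 29) (nat_lit 4) (nat_lit 418) (nat_lit 379) (nat_lit 283)) (XT.lf (nat_lit 0) (nat_lit 39966114318) (nat_lit 84) (nat_lit 30616958003) (nat_lit 168) (nat_lit 39282262371) (nat_lit 27) (nat_lit 5) (nat_lit 28) (nat_lit 5) (nat_lit 29) (nat_lit 4) (nat_lit 419) (nat_lit 379) (nat_lit 282))))))))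
noncomputable def xc132 : XT := (XT.nd (nat_lit 2632) (nat_lit 0) (nat_lit 0) (XT.nd (nat_lit 1316) (nat_lit 504) (nat_lit 0) (XT.nd (nat_lit 658) (nat_lit 840) (nat_lit 0) (XT.nd (nat_lit 282) (nat_lit 504) (nat_lit 0) (XT.nd (nat_lit 94) (nat_lit 252) (nat_lit 0) (XT.lf (nat_lit 0) (nat_lit 14545538661) (nat_lit 168) (nat_lit 69927959086) (nat_lit 84) (nat_lit 31053368605) (nat_lit 25) (nat_lit 5) (nat_lit 27) (nat_lit 5) (nat_lit 26) (nat_lit 4) (nat_lit 420) (nat_lit 379) (nat_lit 281)) (XT.nd (nat_lit 94) (nat_lit 168) (nat_lit 0) (XT.lf (nat_lit 0) (nat_lit 51698366961) (nat_lit 84) (nat_lit 22178998949) (nat_lit 168) (nat_lit 47603052996) (nat_lit 24) (nat_lit 5) (nat_lit 25) (nat_lit 5) (nat_lit 26) (nat_lit 4) (nat_lit 421) (nat_lit 379) (nat_lit 280)) (XT.lf (nat_lit 0) (nat_lit 12626676230) (nat_lit 168) (nat_lit 69118992404) (nat_lit 84) (nat_lit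 46011609584) (nat_lit 22) (nat_lit 5) (nat_lit 24) (nat_lit 5) (nat_lit 23) (nat_lit 4) (nat_lit 422) (nat_lit 379) (nat_lit 279)))) (XT.nd (nat_lit 188) (nat_lit 252) (nat_lit 0) (XT.nd (nat_lit 94) (nat_lit 168) (nat_lit 0) (XT.lf (nat_lit 0) (nat_lit 66263188318) (nat_lit 84) (nat_lit 12405137327) (nat_lit 168) (nat_lit 55695875687) (nat_lit 21) (nat_lit 5) (nat_lit 22) (nat_lit 5) (nat_lit 23) (nat_lit 4) (nat_lit 423) (nat_lit 379) (nat_lit 278)) (XT.lf (nat_lit 0) (nat_lit 11640714000) (nat_lit 168) (nat_lit 66622100829) (nat_lit 84) (nat_lit 63059286279) (nat_lit 19) (nat_lit 5) (nat_lit 21) (nat_lit 5) (nat_lit 20) (nat_lit 4) (nat_lit 424) (nat_lit 379) (nat_lit 277))) (XT.nd (nat_lit 94) (nat_lit 168) (nat_lit 0) (XT.lf (nat_lit 0) (nat_lit 84094231621) (nat_lit 84) (nat_lit 1067919337) (nat_lit 168) (nat_lit 63491367934) (nat_lit 18) (nat_lit 5)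 (nat_lit 19) (nat_lit 5) (nat_lit 20) (nat_lit 4) (nat_lit 425) (nat_lit 379) (nat_lit 276)) (XT.lf (nat_lit 0) (nat_lit 11736982670) (nat_lit 168) (nat_lit 62120707030) (nat_lit 84) (nat_lit 82507570922) (nat_lit 16) (nat_lit 5) (nat_lit 18) (nat_lit 5) (nat_lit 17) (nat_lit 4) (nat_lit 426) (nat_lit 379) (nat_lit 275))))) (XT.nd (nat_lit 282) (nat_lit 504) (nat_lit 0) (XT.nd (nat_lit 94) (nat_lit 252) (nat_lit 0) (XT.lf (nat_lit 0) (nat_lit 93784374010) (nat_lit 168) (nat_lit 59001563245) (nat_lit 0) (nat_lit 11704702285) (nat_lit 15) (nat_lit 5) (nat_lit 17) (nat_lit 4) (nat_lit 15) (nat_lit 4) (nat_lit 427) (nat_lit 379) (nat_lit 274)) (XT.nd (nat_lit 94) (nat_lit 84) (nat_lit 0) (XT.lf (nat_lit 0) (nat_lit 13089438091) (nat_lit 168) (nat_lit 55248205301) (nat_lit 84) (nat_lit 104708671944) (nat_lit 13) (nat_lit 5) (nat_lit 15) (nat_lit 5) (nat_lit 14)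 (nat_lit 4) (nat_lit 428) (nat_lit 379) (nat_lit 273)) (XT.lf (nat_lit 0) (nat_lit 104667246004) (nat_lit 168) (nat_lit 50890781982) (nat_lit 0) (nat_lit 26492678699) (nat_lit 12) (nat_lit 5) (nat_lit 14) (nat_lit 4) (nat_lit 12) (nat_lit 4) (nat_lit 429) (nat_lit 379) (nat_lit 272)))) (XT.nd (nat_lit 188) (nat_lit 252) (nat_lit 0) (XT.nd (nat_lit 94) (nat_lit 84) (nat_lit 0) (XT.lf (nat_lit 0) (nat_lit 15900065070) (nat_lit 168) (nat_lit 45580970313) (nat_lit 84) (nat_lit 130061116858) (nat_lit 10) (nat_lit 5) (nat_lit 12) (nat_lit 5) (nat_lit 11) (nat_lit 4) (nat_lit 430) (nat_lit 379) (nat_lit 271)) (XT.lf (nat_lit 0) (nat_lit 118109725948) (nat_lit 168) (nat_lit 39756089804) (nat_lit 0) (nat_lit 43654938994) (nat_lit 9) (nat_lit 5) (nat_lit 11) (nat_lit 4) (nat_lit 9) (nat_lit 4) (nat_lit 431) (nat_lit 379) (nat_lit 270))) (XT.nd (nat_lit 94) (nat_lit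 84) (nat_lit 0) (XT.lf (nat_lit 0) (nat_lit 20402733666) (nat_lit 168) (nat_lit 32630437430) (nat_lit 84) (nat_lit 159015695493) (nat_lit 7) (nat_lit 5) (nat_lit 9) (nat_lit 5) (nat_lit 8) (nat_lit 4) (nat_lit 432) (nat_lit 379) (nat_lit 269)) (XT.lf (nat_lit 0) (nat_lit 134472359377) (nat_lit 168) (nat_lit 25074106931) (nat_lit 0) (nat_lit 63560737457) (nat_lit 6) (nat_lit 5) (nat_lit 8) (nat_lit 4) (nat_lit 6) (nat_lit 4) (nat_lit 433) (nat_lit 379) (nat_lit 268)))))) (XT.nd (nat_lit 658) (nat_lit 0) (nat_lit 0) (XT.nd (nat_lit 282) (nat_lit 0) (nat_lit 0) (XT.nd (nat_lit 94) (nat_lit 336) (nat_lit 0) (XT.lf (nat_lit 0) (nat_lit 26867565756) (nat_lit 168) (nat_lit 15834136428) (nat_lit 84) (nat_lit 192082143978) (nat_lit 4) (nat_lit 5) (nat_lit 6) (nat_lit 5) (nat_lit 5) (nat_lit 4) (nat_lit 434) (nat_lit 379) (nat_lit 267)) (XT.nd (nat_lit 94) (nat_lit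 252) (nat_lit 0) (XT.lf (nat_lit 0) (nat_lit 154166459213) (nat_lit 168) (nat_lit 6242725653) (nat_lit 0) (nat_lit 86629702389) (nat_lit 3) (nat_lit 5) (nat_lit 5) (nat_lit 4) (nat_lit 3) (nat_lit 4) (nat_lit 435) (nat_lit 379) (nat_lit 266)) (XT.lf (nat_lit 0) (nat_lit 377116662833) (nat_lit 0) (nat_lit 0) (nat_lit 0) (nat_lit 0) (nat_lit 0) (nat_lit 0) (nat_lit 1) (nat_lit 0) (nat_lit 1) (nat_lit 0) (nat_lit 436) (nat_lit 379) (nat_lit 265)))) (XT.nd (nat_lit 188) (nat_lit 0) (nat_lit 0) (XT.nd (nat_lit 94) (nat_lit 0) (nat_lit 0) (XT.lf (nat_lit 0) (nat_lit 406915169459) (nat_lit 0) (nat_lit 0) (nat_lit 0) (nat_lit 0) (nat_lit 0) (nat_lit 0) (nat_lit 1) (nat_lit 0) (nat_lit 1) (nat_lit 0) (nat_lit 437) (nat_lit 379) (nat_lit 264)) (XT.lf (nat_lit 0) (nat_lit 439097564801) (nat_lit 0) (nat_lit 0) (nat_lit 0) (nat_lit 0) (nat_lit 0) (nat_lit 0) (nat_lit 1)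 (nat_lit 0) (nat_lit 1) (nat_lit 0) (nat_lit 438) (nat_lit 379) (nat_lit 263))) (XT.nd (nat_lit 94) (nat_lit 0) (nat_lit 0) (XT.lf (nat_lit 0) (nat_lit 473854559348) (nat_lit 0) (nat_lit 0) (nat_lit 0) (nat_lit 0) (nat_lit 0) (nat_lit 0) (nat_lit 1) (nat_lit 0) (nat_lit 1) (nat_lit 0) (nat_lit 439) (nat_lit 379) (nat_lit 262)) (XT.lf (nat_lit 0) (nat_lit 511392120478) (nat_lit 0) (nat_lit 0) (nat_lit 0) (nat_lit 0) (nat_lit 0) (nat_lit 0) (nat_lit 1) (nat_lit 0) (nat_lit 1) (nat_lit 0) (nat_lit 440) (nat_lit 379) (nat_lit 261))))) (XT.nd (nat_lit 282) (nat_lit 0) (nat_lit 0) (XT.nd (nat_lit 94) (nat_lit 0) (nat_lit 0) (XT.lf (nat_lit 0) (nat_lit 551932692995) (nat_lit 0) (nat_lit 0) (nat_lit 0) (nat_lit 0) (nat_lit 0) (nat_lit 0) (nat_lit 1) (nat_lit 0) (nat_lit 1) (nat_lit 0) (nat_lit 441) (nat_lit 379) (nat_lit 260)) (XT.nd (nat_lit 94) (nat_lit 0) (nat_lit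 0) (XT.lf (nat_lit 0) (nat_lit 595716517330) (nat_lit 0) (nat_lit 0) (nat_lit 0) (nat_lit 0) (nat_lit 0) (nat_lit 0) (nat_lit 1) (nat_lit 0) (nat_lit 1) (nat_lit 0) (nat_lit 442) (nat_lit 379) (nat_lit 259)) (XT.lf (nat_lit 0) (nat_lit 643003053183) (nat_lit 0) (nat_lit 0) (nat_lit 0) (nat_lit 0) (nat_lit 0) (nat_lit 0) (nat_lit 1) (nat_lit 0) (nat_lit 1) (nat_lit 0) (nat_lit 443) (nat_lit 379) (nat_lit 258)))) (XT.nd (nat_lit 188) (nat_lit 0) (nat_lit 0) (XT.nd (nat_lit 94) (nat_lit 0) (nat_lit 0) (XT.lf (nat_lit 0) (nat_lit 694072517062) (nat_lit 0) (nat_lit 0) (nat_lit 0) (nat_lit 0) (nat_lit 0) (nat_lit 0) (nat_lit 1) (nat_lit 0) (nat_lit 1) (nat_lit 0) (nat_lit 444) (nat_lit 379) (nat_lit 257)) (XT.lf (nat_lit 0) (nat_lit 749227542828) (nat_lit 0) (nat_lit 0) (nat_lit 0) (nat_lit 0) (nat_lit 0) (nat_lit 0) (nat_lit 1) (nat_lit 0) (nat_lit 1) (nat_lit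 0) (nat_lit 445) (nat_lit 379) (nat_lit 256))) (XT.nd (nat_lit 94) (nat_lit 0) (nat_lit 0) (XT.lf (nat_lit 0) (nat_lit 808794975077) (nat_lit 0) (nat_lit 0) (nat_lit 0) (nat_lit 0) (nat_lit 0) (nat_lit 0) (nat_lit 1) (nat_lit 0) (nat_lit 1) (nat_lit 0) (nat_lit 446) (nat_lit 379) (nat_lit 255)) (XT.lf (nat_lit 0) (nat_lit 873127806001) (nat_lit 0) (nat_lit 0) (nat_lit 0) (nat_lit 0) (nat_lit 0) (nat_lit 0) (nat_lit 1) (nat_lit 0) (nat_lit 1) (nat_lit 0) (nat_lit 447) (nat_lit 379) (nat_lit 254))))))) (XT.nd (nat_lit 1316) (nat_lit 0) (nat_lit 0) (XT.nd (nat_lit 658) (nat_lit 0) (nat_lit 0) (XT.nd (nat_lit 282) (nat_lit 0) (nat_lit 0) (XT.nd (nat_lit 94) (nat_lit 0) (nat_lit 0) (XT.lf (nat_lit 0) (nat_lit 942607267190) (nat_lit 0) (nat_lit 0) (nat_lit 0) (nat_lit 0) (nat_lit 0) (nat_lit 0) (nat_lit 1) (nat_lit 0) (nat_lit 1) (nat_lit 0) (nat_lit 448) (nat_lit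 379) (nat_lit 253)) (XT.nd (nat_lit 94) (nat_lit 0) (nat_lit 0) (XT.lf (nat_lit 0) (nat_lit 1017645088785) (nat_lit 0) (nat_lit 0) (nat_lit 0) (nat_lit 0) (nat_lit 0) (nat_lit 0) (nat_lit 1) (nat_lit 0) (nat_lit 1) (nat_lit 0) (nat_lit 449) (nat_lit 379) (nat_lit 252)) (XT.lf (nat_lit 0) (nat_lit 1098685939359) (nat_lit 0) (nat_lit 0) (nat_lit 0) (nat_lit 0) (nat_lit 0) (nat_lit 0) (nat_lit 1) (nat_lit 0) (nat_lit 1) (nat_lit 0) (nat_lit 450) (nat_lit 379) (nat_lit 251)))) (XT.nd (nat_lit 188) (nat_lit 0) (nat_lit 0) (XT.nd (nat_lit 94) (nat_lit 0) (nat_lit 0) (XT.lf (nat_lit 0) (nat_lit 1186210060987) (nat_lit 0) (nat_lit 0) (nat_lit 0) (nat_lit 0) (nat_lit 0) (nat_lit 0) (nat_lit 1) (nat_lit 0) (nat_lit 1) (nat_lit 0) (nat_lit 451) (nat_lit 379) (nat_lit 250)) (XT.lf (nat_lit 0) (nat_lit 1280736115133) (nat_lit 0) (nat_lit 0) (nat_lit 0) (nat_lit 0) (nat_lit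 0) (nat_lit 0) (nat_lit 1) (nat_lit 0) (nat_lit 1) (nat_lit 0) (nat_lit 452) (nat_lit 379) (nat_lit 249))) (XT.nd (nat_lit 94) (nat_lit 0) (nat_lit 0) (XT.lf (nat_lit 0) (nat_lit 1382824256191) (nat_lit 0) (nat_lit 0) (nat_lit 0) (nat_lit 0) (nat_lit 0) (nat_lit 0) (nat_lit 1) (nat_lit 0) (nat_lit 1) (nat_lit 0) (nat_lit 453) (nat_lit 379) (nat_lit 248)) (XT.lf (nat_lit 0) (nat_lit 1493079450923) (nat_lit 0) (nat_lit 0) (nat_lit 0) (nat_lit 0) (nat_lit 0) (nat_lit 0) (nat_lit 1) (nat_lit 0) (nat_lit 1) (nat_lit 0) (nat_lit 454) (nat_lit 379) (nat_lit 247))))) (XT.nd (nat_lit 282) (nat_lit 0) (nat_lit 0) (XT.nd (nat_lit 94) (nat_lit 0) (nat_lit 0) (XT.lf (nat_lit 0) (nat_lit 1612155063445) (nat_lit 0) (nat_lit 0) (nat_lit 0) (nat_lit 0) (nat_lit 0) (nat_lit 0) (nat_lit 1) (nat_lit 0) (nat_lit 1) (nat_lit 0) (nat_lit 455) (nat_lit 379) (nat_lit 246)) (XT.nd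 (nat_lit 94) (nat_lit 0) (nat_lit 0) (XT.lf (nat_lit 0) (nat_lit 1740756727018) (nat_lit 0) (nat_lit 0) (nat_lit 0) (nat_lit 0) (nat_lit 0) (nat_lit 0) (nat_lit 1) (nat_lit 0) (nat_lit 1) (nat_lit 0) (nat_lit 456) (nat_lit 379) (nat_lit 245)) (XT.lf (nat_lit 0) (nat_lit 1879646525573) (nat_lit 0) (nat_lit 0) (nat_lit 0) (nat_lit 0) (nat_lit 0) (nat_lit 0) (nat_lit 1) (nat_lit 0) (nat_lit 1) (nat_lit 0) (nat_lit 457) (nat_lit 379) (nat_lit 244)))) (XT.nd (nat_lit 188) (nat_lit 0) (nat_lit 0) (XT.nd (nat_lit 94) (nat_lit 0) (nat_lit 0) (XT.lf (nat_lit 0) (nat_lit 2029647509769) (nat_lit 0) (nat_lit 0) (nat_lit 0) (nat_lit 0) (nat_lit 0) (nat_lit 0) (nat_lit 1) (nat_lit 0) (nat_lit 1) (nat_lit 0) (nat_lit 458) (nat_lit 379) (nat_lit 243)) (XT.lf (nat_lit 0) (nat_lit 2191648574326) (nat_lit 0) (nat_lit 0) (nat_lit 0) (nat_lit 0) (nat_lit 0) (nat_lit 0) (nat_lit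 1) (nat_lit 0) (nat_lit 1) (nat_lit 0) (nat_lit 459) (nat_lit 379) (nat_lit 242))) (XT.nd (nat_lit 94) (nat_lit 0) (nat_lit 0) (XT.lf (nat_lit 0) (nat_lit 2366609725554) (nat_lit 0) (nat_lit 0) (nat_lit 0) (nat_lit 0) (nat_lit 0) (nat_lit 0) (nat_lit 1) (nat_lit 0) (nat_lit 1) (nat_lit 0) (nat_lit 460) (nat_lit 379) (nat_lit 241)) (XT.lf (nat_lit 0) (nat_lit 2555567770274) (nat_lit 0) (nat_lit 0) (nat_lit 0) (nat_lit 0) (nat_lit 0) (nat_lit 0) (nat_lit 1) (nat_lit 0) (nat_lit 1) (nat_lit 0) (nat_lit 461) (nat_lit 379) (nat_lit 240)))))) (XT.nd (nat_lit 658) (nat_lit 0) (nat_lit 0) (XT.nd (nat_lit 282) (nat_lit 0) (nat_lit 0) (XT.nd (nat_lit 94) (nat_lit 0) (nat_lit 0) (XT.lf (nat_lit 0) (nat_lit 2759642459862) (nat_lit 0) (nat_lit 0) (nat_lit 0) (nat_lit 0) (nat_lit 0) (nat_lit 0) (nat_lit 1) (nat_lit 0) (nat_lit 1) (nat_lit 0) (nat_lit 462) (nat_lit 379)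 (nat_lit 239)) (XT.nd (nat_lit 94) (nat_lit 0) (nat_lit 0) (XT.lf (nat_lit 0) (nat_lit 2980043125813) (nat_lit 0) (nat_lit 0) (nat_lit 0) (nat_lit 0) (nat_lit 0) (nat_lit 0) (nat_lit 1) (nat_lit 0) (nat_lit 1) (nat_lit 0) (nat_lit 463) (nat_lit 379) (nat_lit 238)) (XT.lf (nat_lit 0) (nat_lit 3218075846147) (nat_lit 0) (nat_lit 0) (nat_lit 0) (nat_lit 0) (nat_lit 0) (nat_lit 0) (nat_lit 1) (nat_lit 0) (nat_lit 1) (nat_lit 0) (nat_lit 464) (nat_lit 379) (nat_lit 237)))) (XT.nd (nat_lit 188) (nat_lit 0) (nat_lit 0) (XT.nd (nat_lit 94) (nat_lit 0) (nat_lit 0) (XT.lf (nat_lit 0) (nat_lit 3475151185132) (nat_lit 0) (nat_lit 0) (nat_lit 0) (nat_lit 0) (nat_lit 0) (nat_lit 0) (nat_lit 1) (nat_lit 0) (nat_lit 1) (nat_lit 0) (nat_lit 465) (nat_lit 379) (nat_lit 236)) (XT.lf (nat_lit 0) (nat_lit 3752792552184) (nat_lit 0) (nat_lit 0) (nat_lit 0) (nat_lit 0) (nat_lit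 0) (nat_lit 0) (nat_lit 1) (nat_lit 0) (nat_lit 1) (nat_lit 0) (nat_lit 466) (nat_lit 379) (nat_lit 235))) (XT.nd (nat_lit 94) (nat_lit 0) (nat_lit 0) (XT.lf (nat_lit 0) (nat_lit 4052645229479) (nat_lit 0) (nat_lit 0) (nat_lit 0) (nat_lit 0) (nat_lit 0) (nat_lit 0) (nat_lit 1) (nat_lit 0) (nat_lit 1) (nat_lit 0) (nat_lit 467) (nat_lit 379) (nat_lit 234)) (XT.lf (nat_lit 0) (nat_lit 4376486121771) (nat_lit 0) (nat_lit 0) (nat_lit 0) (nat_lit 0) (nat_lit 0) (nat_lit 0) (nat_lit 1) (nat_lit 0) (nat_lit 1) (nat_lit 0) (nat_lit 468) (nat_lit 379) (nat_lit 233))))) (XT.nd (nat_lit 282) (nat_lit 0) (nat_lit 0) (XT.nd (nat_lit 94) (nat_lit 0) (nat_lit 0) (XT.lf (nat_lit 0) (nat_lit 4726234286200) (nat_lit 0) (nat_lit 0) (nat_lit 0) (nat_lit 0) (nat_lit 0) (nat_lit 0) (nat_lit 1) (nat_lit 0) (nat_lit 1) (nat_lit 0) (nat_lit 469) (nat_lit 379) (nat_lit 232)) (XT.nd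 (nat_lit 94) (nat_lit 0) (nat_lit 0) (XT.lf (nat_lit 0) (nat_lit 5103962304480) (nat_lit 0) (nat_lit 0) (nat_lit 0) (nat_lit 0) (nat_lit 0) (nat_lit 0) (nat_lit 1) (nat_lit 0) (nat_lit 1) (nat_lit 0) (nat_lit 470) (nat_lit 379) (nat_lit 231)) (XT.lf (nat_lit 0) (nat_lit 5511908564869) (nat_lit 0) (nat_lit 0) (nat_lit 0) (nat_lit 0) (nat_lit 0) (nat_lit 0) (nat_lit 1) (nat_lit 0) (nat_lit 1) (nat_lit 0) (nat_lit 471) (nat_lit 379) (nat_lit 230)))) (XT.nd (nat_lit 188) (nat_lit 0) (nat_lit 0) (XT.nd (nat_lit 94) (nat_lit 0) (nat_lit 0) (XT.lf (nat_lit 0) (nat_lit 5952490526687) (nat_lit 0) (nat_lit 0) (nat_lit 0) (nat_lit 0) (nat_lit 0) (nat_lit 0) (nat_lit 1) (nat_lit 0) (nat_lit 1) (nat_lit 0) (nat_lit 472) (nat_lit 379) (nat_lit 229)) (XT.lf (nat_lit 0) (nat_lit 6428319046003) (nat_lit 0) (nat_lit 0) (nat_lit 0) (nat_lit 0) (nat_lit 0) (nat_lit 0) (nat_lit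 1) (nat_lit 0) (nat_lit 1) (nat_lit 0) (nat_lit 473) (nat_lit 379) (nat_lit 228))) (XT.nd (nat_lit 94) (nat_lit 0) (nat_lit 0) (XT.lf (nat_lit 0) (nat_lit 6942213847378) (nat_lit 0) (nat_lit 0) (nat_lit 0) (nat_lit 0) (nat_lit 0) (nat_lit 0) (nat_lit 1) (nat_lit 0) (nat_lit 1) (nat_lit 0) (nat_lit 474) (nat_lit 379) (nat_lit 227)) (XT.lf (nat_lit 0) (nat_lit 7497220233337) (nat_lit 0) (nat_lit 0) (nat_lit 0) (nat_lit 0) (nat_lit 0) (nat_lit 0) (nat_lit 1) (nat_lit 0) (nat_lit 1) (nat_lit 0) (nat_lit 475) (nat_lit 379) (nat_lit 226))))))))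
noncomputable def xc133 : XT := (XT.nd (nat_lit 2632) (nat_lit 0) (nat_lit 0) (XT.nd (nat_lit 1316) (nat_lit 0) (nat_lit 0) (XT.nd (nat_lit 658) (nat_lit 0) (nat_lit 0) (XT.nd (nat_lit 282) (nat_lit 0) (nat_lit 0) (XT.nd (nat_lit 94) (nat_lit 0) (nat_lit 0) (XT.lf (nat_lit 0) (nat_lit 8096627130612) (nat_lit 0) (nat_lit 0) (nat_lit 0) (nat_lit 0) (nat_lit 0) (nat_lit 0) (nat_lit 1) (nat_lit 0) (nat_lit 1) (nat_lit 0) (nat_lit 476) (nat_lit 379) (nat_lit 225)) (XT.nd (nat_lit 94) (nat_lit 0) (nat_lit 0) (XT.lf (nat_lit 0) (nat_lit 8743986580077) (nat_lit 0) (nat_lit 0) (nat_lit 0) (nat_lit 0) (nat_lit 0) (nat_lit 0) (nat_lit 1) (nat_lit 0) (nat_lit 1) (nat_lit 0) (nat_lit 477) (nat_lit 379) (nat_lit 224)) (XT.lf (nat_lit 0) (nat_lit 9443134785875) (nat_lit 0) (nat_lit 0) (nat_lit 0) (nat_lit 0) (nat_lit 0) (nat_lit 0) (nat_lit 1) (nat_lit 0) (nat_lit 1) (nat_lit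 0) (nat_lit 478) (nat_lit 379) (nat_lit 223)))) (XT.nd (nat_lit 188) (nat_lit 0) (nat_lit 0) (XT.nd (nat_lit 94) (nat_lit 0) (nat_lit 0) (XT.lf (nat_lit 0) (nat_lit 10198214848486) (nat_lit 0) (nat_lit 0) (nat_lit 0) (nat_lit 0) (nat_lit 0) (nat_lit 0) (nat_lit 1) (nat_lit 0) (nat_lit 1) (nat_lit 0) (nat_lit 479) (nat_lit 379) (nat_lit 222)) (XT.lf (nat_lit 0) (nat_lit 11013701316429) (nat_lit 0) (nat_lit 0) (nat_lit 0) (nat_lit 0) (nat_lit 0) (nat_lit 0) (nat_lit 1) (nat_lit 0) (nat_lit 1) (nat_lit 0) (nat_lit 480) (nat_lit 379) (nat_lit 221))) (XT.nd (nat_lit 94) (nat_lit 0) (nat_lit 0) (XT.lf (nat_lit 0) (nat_lit 11894426702106) (nat_lit 0) (nat_lit 0) (nat_lit 0) (nat_lit 0) (nat_lit 0) (nat_lit 0) (nat_lit 1) (nat_lit 0) (nat_lit 1) (nat_lit 0) (nat_lit 481) (nat_lit 379) (nat_lit 220)) (XT.lf (nat_lit 0) (nat_lit 12845610118915) (nat_lit 0) (nat_lit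 0) (nat_lit 0) (nat_lit 0) (nat_lit 0) (nat_lit 0) (nat_lit 1) (nat_lit 0) (nat_lit 1) (nat_lit 0) (nat_lit 482) (nat_lit 379) (nat_lit 219))))) (XT.nd (nat_lit 282) (nat_lit 0) (nat_lit 0) (XT.nd (nat_lit 94) (nat_lit 0) (nat_lit 0) (XT.lf (nat_lit 0) (nat_lit 13872888209325) (nat_lit 0) (nat_lit 0) (nat_lit 0) (nat_lit 0) (nat_lit 0) (nat_lit 0) (nat_lit 1) (nat_lit 0) (nat_lit 1) (nat_lit 0) (nat_lit 483) (nat_lit 379) (nat_lit 218)) (XT.nd (nat_lit 94) (nat_lit 0) (nat_lit 0) (XT.lf (nat_lit 0) (nat_lit 14982348547204) (nat_lit 0) (nat_lit 0) (nat_lit 0) (nat_lit 0) (nat_lit 0) (nat_lit 0) (nat_lit 1) (nat_lit 0) (nat_lit 1) (nat_lit 0) (nat_lit 484) (nat_lit 379) (nat_lit 217)) (XT.lf (nat_lit 0) (nat_lit 16180565712335) (nat_lit 0) (nat_lit 0) (nat_lit 0) (nat_lit 0) (nat_lit 0) (nat_lit 0) (nat_lit 1) (nat_lit 0) (nat_lit 1) (nat_lit 0) (nat_lit 485)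 (nat_lit 379) (nat_lit 216)))) (XT.nd (nat_lit 188) (nat_lit 0) (nat_lit 0) (XT.nd (nat_lit 94) (nat_lit 0) (nat_lit 0) (XT.lf (nat_lit 0) (nat_lit 17474640250879) (nat_lit 0) (nat_lit 0) (nat_lit 0) (nat_lit 0) (nat_lit 0) (nat_lit 0) (nat_lit 1) (nat_lit 0) (nat_lit 1) (nat_lit 0) (nat_lit 486) (nat_lit 379) (nat_lit 215)) (XT.lf (nat_lit 0) (nat_lit 18872240752695) (nat_lit 0) (nat_lit 0) (nat_lit 0) (nat_lit 0) (nat_lit 0) (nat_lit 0) (nat_lit 1) (nat_lit 0) (nat_lit 1) (nat_lit 0) (nat_lit 487) (nat_lit 379) (nat_lit 214))) (XT.nd (nat_lit 94) (nat_lit 0) (nat_lit 0) (XT.lf (nat_lit 0) (nat_lit 20381649294831) (nat_lit 0) (nat_lit 0) (nat_lit 0) (nat_lit 0) (nat_lit 0) (nat_lit 0) (nat_lit 1) (nat_lit 0) (nat_lit 1) (nat_lit 0) (nat_lit 488) (nat_lit 379) (nat_lit 213)) (XT.lf (nat_lit 0) (nat_lit 22011810520499) (nat_lit 0) (nat_lit 0) (nat_lit 0) (nat_lit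 0) (nat_lit 0) (nat_lit 0) (nat_lit 1) (nat_lit 0) (nat_lit 1) (nat_lit 0) (nat_lit 489) (nat_lit 379) (nat_lit 212)))))) (XT.nd (nat_lit 658) (nat_lit 0) (nat_lit 0) (XT.nd (nat_lit 282) (nat_lit 0) (nat_lit 0) (XT.nd (nat_lit 94) (nat_lit 0) (nat_lit 0) (XT.lf (nat_lit 0) (nat_lit 23772384644371) (nat_lit 0) (nat_lit 0) (nat_lit 0) (nat_lit 0) (nat_lit 0) (nat_lit 0) (nat_lit 1) (nat_lit 0) (nat_lit 1) (nat_lit 0) (nat_lit 490) (nat_lit 379) (nat_lit 211)) (XT.nd (nat_lit 94) (nat_lit 0) (nat_lit 0) (XT.lf (nat_lit 0) (nat_lit 25673804698291) (nat_lit 0) (nat_lit 0) (nat_lit 0) (nat_lit 0) (nat_lit 0) (nat_lit 0) (nat_lit 1) (nat_lit 0) (nat_lit 1) (nat_lit 0) (nat_lit 491) (nat_lit 379) (nat_lit 210)) (XT.lf (nat_lit 0) (nat_lit 27727338356652) (nat_lit 0) (nat_lit 0) (nat_lit 0) (nat_lit 0) (nat_lit 0) (nat_lit 0) (nat_lit 1) (nat_lit 0) (nat_lit 1) (nat_lit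 0) (nat_lit 492) (nat_lit 379) (nat_lit 209)))) (XT.nd (nat_lit 188) (nat_lit 0) (nat_lit 0) (XT.nd (nat_lit 94) (nat_lit 0) (nat_lit 0) (XT.lf (nat_lit 0) (nat_lit 29945154707802) (nat_lit 0) (nat_lit 0) (nat_lit 0) (nat_lit 0) (nat_lit 0) (nat_lit 0) (nat_lit 1) (nat_lit 0) (nat_lit 1) (nat_lit 0) (nat_lit 493) (nat_lit 379) (nat_lit 208)) (XT.lf (nat_lit 0) (nat_lit 32340396367153) (nat_lit 0) (nat_lit 0) (nat_lit 0) (nat_lit 0) (nat_lit 0) (nat_lit 0) (nat_lit 1) (nat_lit 0) (nat_lit 1) (nat_lit 0) (nat_lit 494) (nat_lit 379) (nat_lit 207))) (XT.nd (nat_lit 94) (nat_lit 0) (nat_lit 0) (XT.lf (nat_lit 0) (nat_lit 34927257359354) (nat_lit 0) (nat_lit 0) (nat_lit 0) (nat_lit 0) (nat_lit 0) (nat_lit 0) (nat_lit 1) (nat_lit 0) (nat_lit 1) (nat_lit 0) (nat_lit 495) (nat_lit 379) (nat_lit 206)) (XT.lf (nat_lit 0) (nat_lit 37721067231026) (nat_lit 0) (nat_lit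 0) (nat_lit 0) (nat_lit 0) (nat_lit 0) (nat_lit 0) (nat_lit 1) (nat_lit 0) (nat_lit 1) (nat_lit 0) (nat_lit 496) (nat_lit 379) (nat_lit 205))))) (XT.nd (nat_lit 282) (nat_lit 0) (nat_lit 0) (XT.nd (nat_lit 94) (nat_lit 0) (nat_lit 0) (XT.lf (nat_lit 0) (nat_lit 40738381892518) (nat_lit 0) (nat_lit 0) (nat_lit 0) (nat_lit 0) (nat_lit 0) (nat_lit 0) (nat_lit 1) (nat_lit 0) (nat_lit 1) (nat_lit 0) (nat_lit 497) (nat_lit 379) (nat_lit 204)) (XT.nd (nat_lit 94) (nat_lit 0) (nat_lit 0) (XT.lf (nat_lit 0) (nat_lit 43997081727011) (nat_lit 0) (nat_lit 0) (nat_lit 0) (nat_lit 0) (nat_lit 0) (nat_lit 0) (nat_lit 1) (nat_lit 0) (nat_lit 1) (nat_lit 0) (nat_lit 498) (nat_lit 379) (nat_lit 203)) (XT.lf (nat_lit 0) (nat_lit 47516477548338) (nat_lit 0) (nat_lit 0) (nat_lit 0) (nat_lit 0) (nat_lit 0) (nat_lit 0) (nat_lit 1) (nat_lit 0) (nat_lit 1) (nat_lit 0) (nat_lit 499)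 (nat_lit 379) (nat_lit 202)))) (XT.nd (nat_lit 188) (nat_lit 0) (nat_lit 0) (XT.nd (nat_lit 94) (nat_lit 0) (nat_lit 0) (XT.lf (nat_lit 0) (nat_lit 51317425035441) (nat_lit 0) (nat_lit 0) (nat_lit 0) (nat_lit 0) (nat_lit 0) (nat_lit 0) (nat_lit 1) (nat_lit 0) (nat_lit 1) (nat_lit 0) (nat_lit 500) (nat_lit 379) (nat_lit 201)) (XT.lf (nat_lit 0) (nat_lit 55422448321576) (nat_lit 0) (nat_lit 0) (nat_lit 0) (nat_lit 0) (nat_lit 0) (nat_lit 0) (nat_lit 1) (nat_lit 0) (nat_lit 1) (nat_lit 0) (nat_lit 501) (nat_lit 379) (nat_lit 200))) (XT.nd (nat_lit 94) (nat_lit 0) (nat_lit 0) (XT.lf (nat_lit 0) (nat_lit 59855873470661) (nat_lit 0) (nat_lit 0) (nat_lit 0) (nat_lit 0) (nat_lit 0) (nat_lit 0) (nat_lit 1) (nat_lit 0) (nat_lit 1) (nat_lit 0) (nat_lit 502) (nat_lit 379) (nat_lit 199)) (XT.lf (nat_lit 0) (nat_lit 64643972631728) (nat_lit 0) (nat_lit 0) (nat_lit 0) (nat_lit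 0) (nat_lit 0) (nat_lit 0) (nat_lit 1) (nat_lit 0) (nat_lit 1) (nat_lit 0) (nat_lit 503) (nat_lit 379) (nat_lit 198))))))) (XT.nd (nat_lit 57340) (nat_lit 0) (nat_lit 4452) (XT.nd (nat_lit 56682) (nat_lit 0) (nat_lit 8568) (XT.nd (nat_lit 56306) (nat_lit 0) (nat_lit 10836) (XT.nd (nat_lit 56118) (nat_lit 0) (nat_lit 10752) (XT.lf (nat_lit 0) (nat_lit 69815119725731) (nat_lit 0) (nat_lit 0) (nat_lit 0) (nat_lit 0) (nat_lit 0) (nat_lit 0) (nat_lit 1) (nat_lit 0) (nat_lit 1) (nat_lit 0) (nat_lit 504) (nat_lit 379) (nat_lit 197)) (XT.nd (nat_lit 94) (nat_lit 0) (nat_lit 84) (XT.lf (nat_lit 0) (nat_lit 3205841637) (nat_lit 924) (nat_lit 3156010300) (nat_lit 924) (nat_lit 3156010300) (nat_lit 128) (nat_lit 3) (nat_lit 139) (nat_lit 3) (nat_lit 139) (nat_lit 5) (nat_lit 380) (nat_lit 380) (nat_lit 320)) (XT.lf (nat_lit 0) (nat_lit 7128035222) (nat_lit 840) (nat_lit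 10600274786) (nat_lit 924) (nat_lit 2045849216) (nat_lit 129) (nat_lit 5) (nat_lit 139) (nat_lit 5) (nat_lit 140) (nat_lit 5) (nat_lit 381) (nat_lit 380) (nat_lit 319)))) (XT.nd (nat_lit 188) (nat_lit 0) (nat_lit 168) (XT.nd (nat_lit 94) (nat_lit 0) (nat_lit 84) (XT.lf (nat_lit 84) (nat_lit 5500600284) (nat_lit 0) (nat_lit 2784914580) (nat_lit 924) (nat_lit 12266962911) (nat_lit 130) (nat_lit 5) (nat_lit 129) (nat_lit 5) (nat_lit 140) (nat_lit 5) (nat_lit 382) (nat_lit 380) (nat_lit 318)) (XT.lf (nat_lit 84) (nat_lit 1709706186) (nat_lit 0) (nat_lit 8222397591) (nat_lit 924) (nat_lit 11441132487) (nat_lit 131) (nat_lit 5) (nat_lit 130) (nat_lit 5) (nat_lit 141) (nat_lit 5) (nat_lit 383) (nat_lit 380) (nat_lit 317))) (XT.nd (nat_lit 94) (nat_lit 0) (nat_lit 84) (XT.lf (nat_lit 0) (nat_lit 12123581514) (nat_lit 840) (nat_lit 2090670198) (nat_lit 924) (nat_lit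 8024745636) (nat_lit 131) (nat_lit 5) (nat_lit 141) (nat_lit 5) (nat_lit 142) (nat_lit 5) (nat_lit 384) (nat_lit 380) (nat_lit 316)) (XT.lf (nat_lit 0) (nat_lit 14913791598) (nat_lit 840) (nat_lit 5906694188) (nat_lit 924) (nat_lit 2332362827) (nat_lit 132) (nat_lit 5) (nat_lit 142) (nat_lit 5) (nat_lit 143) (nat_lit 5) (nat_lit 385) (nat_lit 380) (nat_lit 315))))) (XT.nd (nat_lit 282) (nat_lit 1176) (nat_lit 0) (XT.nd (nat_lit 94) (nat_lit 1344) (nat_lit 0) (XT.lf (nat_lit 84) (nat_lit 14265530832) (nat_lit 0) (nat_lit 4139888329) (nat_lit 924) (nat_lit 5710478784) (nat_lit 133) (nat_lit 5) (nat_lit 132) (nat_lit 5) (nat_lit 143) (nat_lit 5) (nat_lit 386) (nat_lit 380) (nat_lit 314)) (XT.nd (nat_lit 94) (nat_lit 588) (nat_lit 0) (XT.lf (nat_lit 0) (nat_lit 11235227386) (nat_lit 840) (nat_lit 11417916402) (nat_lit 924) (nat_lit 2479009092) (nat_lit 123) (nat_lit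 5) (nat_lit 133) (nat_lit 5) (nat_lit 134) (nat_lit 5) (nat_lit 387) (nat_lit 380) (nat_lit 313)) (XT.lf (nat_lit 0) (nat_lit 1442163594) (nat_lit 588) (nat_lit 18021962716) (nat_lit 84) (nat_lit 6741615539) (nat_lit 116) (nat_lit 5) (nat_lit 123) (nat_lit 5) (nat_lit 117) (nat_lit 5) (nat_lit 388) (nat_lit 380) (nat_lit 312)))) (XT.nd (nat_lit 188) (nat_lit 336) (nat_lit 0) (XT.nd (nat_lit 94) (nat_lit 420) (nat_lit 0) (XT.lf (nat_lit 0) (nat_lit 5080729050) (nat_lit 420) (nat_lit 1010710586) (nat_lit 504) (nat_lit 21246683227) (nat_lit 111) (nat_lit 5) (nat_lit 116) (nat_lit 5) (nat_lit 117) (nat_lit 5) (nat_lit 389) (nat_lit 380) (nat_lit 311)) (XT.lf (nat_lit 0) (nat_lit 1871432429) (nat_lit 420) (nat_lit 9868156494) (nat_lit 504) (nat_lit 16790158876) (nat_lit 106) (nat_lit 5) (nat_lit 111) (nat_lit 5) (nat_lit 112) (nat_lit 5) (nat_lit 390) (nat_lit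 380) (nat_lit 310))) (XT.nd (nat_lit 94) (nat_lit 336) (nat_lit 0) (XT.lf (nat_lit 0) (nat_lit 18391648572) (nat_lit 504) (nat_lit 1269819354) (nat_lit 84) (nat_lit 10127631884) (nat_lit 106) (nat_lit 5) (nat_lit 112) (nat_lit 5) (nat_lit 107) (nat_lit 5) (nat_lit 391) (nat_lit 380) (nat_lit 309)) (XT.lf (nat_lit 0) (nat_lit 26157074765) (nat_lit 420) (nat_lit 4305748667) (nat_lit 84) (nat_lit 657316461) (nat_lit 102) (nat_lit 5) (nat_lit 107) (nat_lit 5) (nat_lit 103) (nat_lit 5) (nat_lit 392) (nat_lit 380) (nat_lit 308)))))) (XT.nd (nat_lit 658) (nat_lit 1848) (nat_lit 0) (XT.nd (nat_lit 282) (nat_lit 1176) (nat_lit 0) (XT.nd (nat_lit 94) (nat_lit 672) (nat_lit 0) (XT.lf (nat_lit 0) (nat_lit 2666412033) (nat_lit 420) (nat_lit 7475205961) (nat_lit 84) (nat_lit 22377299440) (nat_lit 97) (nat_lit 5) (nat_lit 102) (nat_lit 5) (nat_lit 98) (nat_lit 5) (nat_lit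 393) (nat_lit 380) (nat_lit 307)) (XT.nd (nat_lit 94) (nat_lit 336) (nat_lit 0) (XT.lf (nat_lit 0) (nat_lit 11357815737) (nat_lit 420) (nat_lit 10675970738) (nat_lit 84) (nat_lit 11960470114) (nat_lit 93) (nat_lit 5) (nat_lit 98) (nat_lit 5) (nat_lit 94) (nat_lit 5) (nat_lit 394) (nat_lit 380) (nat_lit 306)) (XT.lf (nat_lit 0) (nat_lit 21381350790) (nat_lit 420) (nat_lit 13793531807) (nat_lit 84) (nat_lit 380899330) (nat_lit 89) (nat_lit 5) (nat_lit 94) (nat_lit 5) (nat_lit 90) (nat_lit 5) (nat_lit 395) (nat_lit 380) (nat_lit 305)))) (XT.nd (nat_lit 188) (nat_lit 504) (nat_lit 0) (XT.nd (nat_lit 94) (nat_lit 420) (nat_lit 0) (XT.lf (nat_lit 0) (nat_lit 20199959652) (nat_lit 252) (nat_lit 12870822577) (nat_lit 336) (nat_lit 4128246381) (nat_lit 86) (nat_lit 5) (nat_lit 89) (nat_lit 5) (nat_lit 90) (nat_lit 5) (nat_lit 396) (nat_lit 380) (nat_lit 304)) (XT.lf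 (nat_lit 0) (nat_lit 7220377927) (nat_lit 420) (nat_lit 20202618269) (nat_lit 84) (nat_lit 11509797705) (nat_lit 81) (nat_lit 5) (nat_lit 86) (nat_lit 5) (nat_lit 82) (nat_lit 5) (nat_lit 397) (nat_lit 380) (nat_lit 303))) (XT.nd (nat_lit 94) (nat_lit 252) (nat_lit 0) (XT.lf (nat_lit 0) (nat_lit 17383924704) (nat_lit 252) (nat_lit 2728775849) (nat_lit 336) (nat_lit 20650153954) (nat_lit 78) (nat_lit 5) (nat_lit 81) (nat_lit 5) (nat_lit 82) (nat_lit 5) (nat_lit 398) (nat_lit 380) (nat_lit 302)) (XT.lf (nat_lit 0) (nat_lit 16097668236) (nat_lit 252) (nat_lit 18911156656) (nat_lit 336) (nat_lit 7681874274) (nat_lit 75) (nat_lit 5) (nat_lit 78) (nat_lit 5) (nat_lit 79) (nat_lit 5) (nat_lit 399) (nat_lit 380) (nat_lit 301))))) (XT.nd (nat_lit 376) (nat_lit 756) (nat_lit 0) (XT.nd (nat_lit 188) (nat_lit 504) (nat_lit 0) (XT.nd (nat_lit 94) (nat_lit 252) (nat_lit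 0) (XT.lf (nat_lit 0) (nat_lit 6937646010) (nat_lit 336) (nat_lit 29730511963) (nat_lit 84) (nat_lit 8058867685) (nat_lit 71) (nat_lit 5) (nat_lit 75) (nat_lit 5) (nat_lit 72) (nat_lit 5) (nat_lit 400) (nat_lit 380) (nat_lit 300)) (XT.lf (nat_lit 0) (nat_lit 13935234530) (nat_lit 252) (nat_lit 9523673012) (nat_lit 336) (nat_lit 23410988357) (nat_lit 68) (nat_lit 5) (nat_lit 71) (nat_lit 5) (nat_lit 72) (nat_lit 5) (nat_lit 401) (nat_lit 380) (nat_lit 299))) (XT.nd (nat_lit 94) (nat_lit 336) (nat_lit 0) (XT.lf (nat_lit 0) (nat_lit 13084612380) (nat_lit 168) (nat_lit 29247795839) (nat_lit 252) (nat_lit 6800260626) (nat_lit 66) (nat_lit 5) (nat_lit 68) (nat_lit 5) (nat_lit 69) (nat_lit 5) (nat_lit 402) (nat_lit 380) (nat_lit 298)) (XT.lf (nat_lit 0) (nat_lit 11723711270) (nat_lit 336) (nat_lit 39078392419) (nat_lit 84) (nat_lit 718618439) (nat_lit 62) (nat_lit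 5) (nat_lit 66) (nat_lit 5) (nat_lit 63) (nat_lit 5) (nat_lit 403) (nat_lit 380) (nat_lit 297)))) (XT.nd (nat_lit 188) (nat_lit 420) (nat_lit 0) (XT.nd (nat_lit 94) (nat_lit 168) (nat_lit 0) (XT.lf (nat_lit 0) (nat_lit 11775874963) (nat_lit 168) (nat_lit 21025465576) (nat_lit 252) (nat_lit 21227405768) (nat_lit 60) (nat_lit 5) (nat_lit 62) (nat_lit 5) (nat_lit 63) (nat_lit 5) (nat_lit 404) (nat_lit 380) (nat_lit 296)) (XT.lf (nat_lit 0) (nat_lit 11562254548) (nat_lit 168) (nat_lit 45041038160) (nat_lit 252) (nat_lit 82214086) (nat_lit 58) (nat_lit 5) (nat_lit 60) (nat_lit 5) (nat_lit 61) (nat_lit 5) (nat_lit 405) (nat_lit 380) (nat_lit 295))) (XT.nd (nat_lit 94) (nat_lit 168) (nat_lit 0) (XT.lf (nat_lit 0) (nat_lit 11300149808) (nat_lit 168) (nat_lit 11997357943) (nat_lit 252) (nat_lit 36175977025) (nat_lit 55) (nat_lit 5) (nat_lit 57) (nat_lit 5) (nat_lit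 58) (nat_lit 5) (nat_lit 406) (nat_lit 380) (nat_lit 294)) (XT.lf (nat_lit 0) (nat_lit 11370539577) (nat_lit 168) (nat_lit 38512991002) (nat_lit 252) (nat_lit 12533962847) (nat_lit 53) (nat_lit 5) (nat_lit 55) (nat_lit 5) (nat_lit 56) (nat_lit 5) (nat_lit 407) (nat_lit 380) (nat_lit 293))))))))
noncomputable def xc134 : XT := (XT.nd (nat_lit 2632) (nat_lit 336) (nat_lit 0) (XT.nd (nat_lit 1316) (nat_lit 1764) (nat_lit 0) (XT.nd (nat_lit 658) (nat_lit 1176) (nat_lit 0) (XT.nd (nat_lit 282) (nat_lit 588) (nat_lit 0) (XT.nd (nat_lit 94) (nat_lit 336) (nat_lit 0) (XT.lf (nat_lit 0) (nat_lit 11788923998) (nat_lit 168) (nat_lit 2026406673) (nat_lit 252) (nat_lit 51709945206) (nat_lit 50) (nat_lit 5) (nat_lit 52) (nat_lit 5) (nat_lit 53) (nat_lit 5) (nat_lit 408) (nat_lit 380) (nat_lit 292)) (XT.nd (nat_lit 94) (nat_lit 168) (nat_lit 0) (XT.lf (nat_lit 0) (nat_lit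 12206261230) (nat_lit 168) (nat_lit 31303991067) (nat_lit 252) (nat_lit 25277314205) (nat_lit 48) (nat_lit 5) (nat_lit 50) (nat_lit 5) (nat_lit 51) (nat_lit 5) (nat_lit 409) (nat_lit 380) (nat_lit 291)) (XT.lf (nat_lit 0) (nat_lit 4494371290) (nat_lit 168) (nat_lit 58994657006) (nat_lit 84) (nat_lit 8752804338) (nat_lit 46) (nat_lit 5) (nat_lit 48) (nat_lit 5) (nat_lit 47) (nat_lit 5) (nat_lit 410) (nat_lit 380) (nat_lit 290)))) (XT.nd (nat_lit 188) (nat_lit 336) (nat_lit 0) (XT.nd (nat_lit 94) (nat_lit 84) (nat_lit 0) (XT.lf (nat_lit 0) (nat_lit 14232954790) (nat_lit 168) (nat_lit 23286376892) (nat_lit 252) (nat_lit 38344532566) (nat_lit 44) (nat_lit 5) (nat_lit 46) (nat_lit 5) (nat_lit 47) (nat_lit 5) (nat_lit 411) (nat_lit 380) (nat_lit 289)) (XT.lf (nat_lit 0) (nat_lit 15866463515) (nat_lit 84) (nat_lit 58920067040) (nat_lit 168) (nat_lit 4909115751) (nat_lit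 43) (nat_lit 5) (nat_lit 44) (nat_lit 5) (nat_lit 45) (nat_lit 4) (nat_lit 412) (nat_lit 380) (nat_lit 288))) (XT.nd (nat_lit 94) (nat_lit 84) (nat_lit 0) (XT.lf (nat_lit 0) (nat_lit 17640287213) (nat_lit 168) (nat_lit 14315351339) (nat_lit 252) (nat_lit 51766318756) (nat_lit 40) (nat_lit 5) (nat_lit 42) (nat_lit 5) (nat_lit 43) (nat_lit 5) (nat_lit 413) (nat_lit 380) (nat_lit 287)) (XT.lf (nat_lit 0) (nat_lit 19887962153) (nat_lit 84) (nat_lit 53675242061) (nat_lit 168) (nat_lit 14404863985) (nat_lit 39) (nat_lit 5) (nat_lit 40) (nat_lit 5) (nat_lit 41) (nat_lit 4) (nat_lit 414) (nat_lit 380) (nat_lit 286))))) (XT.nd (nat_lit 282) (nat_lit 588) (nat_lit 0) (XT.nd (nat_lit 94) (nat_lit 336) (nat_lit 0) (XT.lf (nat_lit 0) (nat_lit 22647604657) (nat_lit 168) (nat_lit 4226724671) (nat_lit 252) (nat_lit 65571322507) (nat_lit 36) (nat_lit 5) (nat_lit 38) (nat_lit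 5) (nat_lit 39) (nat_lit 5) (nat_lit 415) (nat_lit 380) (nat_lit 285)) (XT.nd (nat_lit 94) (nat_lit 252) (nat_lit 0) (XT.lf (nat_lit 0) (nat_lit 25622165037) (nat_lit 84) (nat_lit 47703438959) (nat_lit 168) (nat_lit 23825309794) (nat_lit 35) (nat_lit 5) (nat_lit 36) (nat_lit 5) (nat_lit 37) (nat_lit 4) (nat_lit 416) (nat_lit 380) (nat_lit 284)) (XT.lf (nat_lit 0) (nat_lit 22454191479) (nat_lit 252) (nat_lit 72731802055) (nat_lit 84) (nat_lit 6936292827) (nat_lit 32) (nat_lit 5) (nat_lit 35) (nat_lit 5) (nat_lit 33) (nat_lit 4) (nat_lit 417) (nat_lit 380) (nat_lit 283)))) (XT.nd (nat_lit 188) (nat_lit 252) (nat_lit 0) (XT.nd (nat_lit 94) (nat_lit 252) (nat_lit 0) (XT.lf (nat_lit 0) (nat_lit 33339233155) (nat_lit 84) (nat_lit 40859385601) (nat_lit 168) (nat_lit 33143356605) (nat_lit 31) (nat_lit 5) (nat_lit 32) (nat_lit 5) (nat_lit 33) (nat_lit 4) (nat_lit 418)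 (nat_lit 380) (nat_lit 282)) (XT.lf (nat_lit 0) (nat_lit 18753327200) (nat_lit 252) (nat_lit 74672443636) (nat_lit 84) (nat_lit 19430248035) (nat_lit 28) (nat_lit 5) (nat_lit 31) (nat_lit 5) (nat_lit 29) (nat_lit 4) (nat_lit 419) (nat_lit 380) (nat_lit 281))) (XT.nd (nat_lit 94) (nat_lit 168) (nat_lit 0) (XT.lf (nat_lit 0) (nat_lit 43349939957) (nat_lit 84) (nat_lit 32977289388) (nat_lit 168) (nat_lit 42322456560) (nat_lit 27) (nat_lit 5) (nat_lit 28) (nat_lit 5) (nat_lit 29) (nat_lit 4) (nat_lit 420) (nat_lit 380) (nat_lit 280)) (XT.lf (nat_lit 0) (nat_lit 15805142513) (nat_lit 168) (nat_lit 75337258925) (nat_lit 84) (nat_lit 33621816184) (nat_lit 25) (nat_lit 5) (nat_lit 27) (nat_lit 5) (nat_lit 26) (nat_lit 4) (nat_lit 421) (nat_lit 380) (nat_lit 279)))))) (XT.nd (nat_lit 658) (nat_lit 924) (nat_lit 0) (XT.nd (nat_lit 282) (nat_lit 504) (nat_lit 0) (XT.nd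 (nat_lit 94) (nat_lit 252) (nat_lit 0) (XT.lf (nat_lit 0) (nat_lit 56011136074) (nat_lit 84) (nat_lit 23868033564) (nat_lit 168) (nat_lit 51315102058) (nat_lit 24) (nat_lit 5) (nat_lit 25) (nat_lit 5) (nat_lit 26) (nat_lit 4) (nat_lit 422) (nat_lit 380) (nat_lit 278)) (XT.nd (nat_lit 94) (nat_lit 84) (nat_lit 0) (XT.lf (nat_lit 0) (nat_lit 13727016777) (nat_lit 168) (nat_lit 74473209281) (nat_lit 84) (nat_lit 49773124095) (nat_lit 22) (nat_lit 5) (nat_lit 24) (nat_lit 5) (nat_lit 23) (nat_lit 4) (nat_lit 423) (nat_lit 380) (nat_lit 277)) (XT.lf (nat_lit 0) (nat_lit 71731927466) (nat_lit 84) (nat_lit 13316006740) (nat_lit 168) (nat_lit 60061096109) (nat_lit 21) (nat_lit 5) (nat_lit 22) (nat_lit 5) (nat_lit 23) (nat_lit 4) (nat_lit 424) (nat_lit 380) (nat_lit 276)))) (XT.nd (nat_lit 188) (nat_lit 252) (nat_lit 0) (XT.nd (nat_lit 94) (nat_lit 84) (nat_lit 0)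 (XT.lf (nat_lit 0) (nat_lit 12656829732) (nat_lit 168) (nat_lit 71785764173) (nat_lit 84) (nat_lit 68181032361) (nat_lit 19) (nat_lit 5) (nat_lit 21) (nat_lit 5) (nat_lit 20) (nat_lit 4) (nat_lit 425) (nat_lit 380) (nat_lit 275)) (XT.lf (nat_lit 0) (nat_lit 90980656165) (nat_lit 84) (nat_lit 1075520315) (nat_lit 168) (nat_lit 68485571252) (nat_lit 18) (nat_lit 5) (nat_lit 19) (nat_lit 5) (nat_lit 20) (nat_lit 4) (nat_lit 426) (nat_lit 380) (nat_lit 274))) (XT.nd (nat_lit 94) (nat_lit 84) (nat_lit 0) (XT.lf (nat_lit 0) (nat_lit 12755819525) (nat_lit 168) (nat_lit 66933027262) (nat_lit 84) (nat_lit 89181640774) (nat_lit 16) (nat_lit 5) (nat_lit 18) (nat_lit 5) (nat_lit 17) (nat_lit 4) (nat_lit 427) (nat_lit 380) (nat_lit 273)) (XT.lf (nat_lit 0) (nat_lit 101364593249) (nat_lit 168) (nat_lit 63568532344) (nat_lit 0) (nat_lit 12712891645) (nat_lit 15) (nat_lit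 5) (nat_lit 17) (nat_lit 4) (nat_lit 15) (nat_lit 4) (nat_lit 428) (nat_lit 380) (nat_lit 272))))) (XT.nd (nat_lit 282) (nat_lit 504) (nat_lit 0) (XT.nd (nat_lit 94) (nat_lit 252) (nat_lit 0) (XT.lf (nat_lit 0) (nat_lit 14211824675) (nat_lit 168) (nat_lit 59519074242) (nat_lit 84) (nat_lit 113155360069) (nat_lit 13) (nat_lit 5) (nat_lit 15) (nat_lit 5) (nat_lit 14) (nat_lit 4) (nat_lit 429) (nat_lit 380) (nat_lit 271)) (XT.nd (nat_lit 94) (nat_lit 168) (nat_lit 0) (XT.lf (nat_lit 0) (nat_lit 113113612250) (nat_lit 168) (nat_lit 54817040393) (nat_lit 0) (nat_lit 28680461248) (nat_lit 12) (nat_lit 5) (nat_lit 14) (nat_lit 4) (nat_lit 12) (nat_lit 4) (nat_lit 430) (nat_lit 380) (nat_lit 270)) (XT.lf (nat_lit 0) (nat_lit 17242959335) (nat_lit 168) (nat_lit 49086401581) (nat_lit 84) (nat_lit 140532619051) (nat_lit 10) (nat_lit 5) (nat_lit 12) (nat_lit 5) (nat_lit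 11) (nat_lit 4) (nat_lit 431) (nat_lit 380) (nat_lit 269)))) (XT.nd (nat_lit 188) (nat_lit 252) (nat_lit 0) (XT.nd (nat_lit 94) (nat_lit 168) (nat_lit 0) (XT.lf (nat_lit 0) (nat_lit 127627297216) (nat_lit 168) (nat_lit 42799321858) (nat_lit 0) (nat_lit 47212356392) (nat_lit 9) (nat_lit 5) (nat_lit 11) (nat_lit 4) (nat_lit 9) (nat_lit 4) (nat_lit 432) (nat_lit 380) (nat_lit 268)) (XT.lf (nat_lit 0) (nat_lit 22101777390) (nat_lit 168) (nat_lit 35107372699) (nat_lit 84) (nat_lit 171800284576) (nat_lit 7) (nat_lit 5) (nat_lit 9) (nat_lit 5) (nat_lit 8) (nat_lit 4) (nat_lit 433) (nat_lit 380) (nat_lit 267))) (XT.nd (nat_lit 94) (nat_lit 168) (nat_lit 0) (XT.lf (nat_lit 0) (nat_lit 145295013432) (nat_lit 168) (nat_lit 26950140611) (nat_lit 0) (nat_lit 68707382759) (nat_lit 6) (nat_lit 5) (nat_lit 8) (nat_lit 4) (nat_lit 6) (nat_lit 4) (nat_lit 434) (nat_lit 380)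 (nat_lit 266)) (XT.lf (nat_lit 0) (nat_lit 29079987772) (nat_lit 168) (nat_lit 16974533921) (nat_lit 84) (nat_lit 207508881325) (nat_lit 4) (nat_lit 5) (nat_lit 6) (nat_lit 5) (nat_lit 5) (nat_lit 4) (nat_lit 435) (nat_lit 380) (nat_lit 265))))))) (XT.nd (nat_lit 1316) (nat_lit 0) (nat_lit 0) (XT.nd (nat_lit 658) (nat_lit 0) (nat_lit 0) (XT.nd (nat_lit 282) (nat_lit 0) (nat_lit 0) (XT.nd (nat_lit 94) (nat_lit 252) (nat_lit 0) (XT.lf (nat_lit 0) (nat_lit 166560957751) (nat_lit 168) (nat_lit 6619235058) (nat_lit 0) (nat_lit 93618746336) (nat_lit 3) (nat_lit 5) (nat_lit 5) (nat_lit 4) (nat_lit 3) (nat_lit 4) (nat_lit 436) (nat_lit 380) (nat_lit 264)) (XT.nd (nat_lit 94) (nat_lit 0) (nat_lit 0) (XT.lf (nat_lit 0) (nat_lit 407285836166) (nat_lit 0) (nat_lit 0) (nat_lit 0) (nat_lit 0) (nat_lit 0) (nat_lit 0) (nat_lit 1) (nat_lit 0) (nat_lit 1) (nat_lit 0) (nat_lit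 437) (nat_lit 380) (nat_lit 263)) (XT.lf (nat_lit 0) (nat_lit 439468235152) (nat_lit 0) (nat_lit 0) (nat_lit 0) (nat_lit 0) (nat_lit 0) (nat_lit 0) (nat_lit 1) (nat_lit 0) (nat_lit 1) (nat_lit 0) (nat_lit 438) (nat_lit 380) (nat_lit 262)))) (XT.nd (nat_lit 188) (nat_lit 0) (nat_lit 0) (XT.nd (nat_lit 94) (nat_lit 0) (nat_lit 0) (XT.lf (nat_lit 0) (nat_lit 474225233073) (nat_lit 0) (nat_lit 0) (nat_lit 0) (nat_lit 0) (nat_lit 0) (nat_lit 0) (nat_lit 1) (nat_lit 0) (nat_lit 1) (nat_lit 0) (nat_lit 439) (nat_lit 380) (nat_lit 261)) (XT.lf (nat_lit 0) (nat_lit 511762797326) (nat_lit 0) (nat_lit 0) (nat_lit 0) (nat_lit 0) (nat_lit 0) (nat_lit 0) (nat_lit 1) (nat_lit 0) (nat_lit 1) (nat_lit 0) (nat_lit 440) (nat_lit 380) (nat_lit 260))) (XT.nd (nat_lit 94) (nat_lit 0) (nat_lit 0) (XT.lf (nat_lit 0) (nat_lit 552303372736) (nat_lit 0) (nat_lit 0) (nat_lit 0) (nat_lit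 0) (nat_lit 0) (nat_lit 0) (nat_lit 1) (nat_lit 0) (nat_lit 1) (nat_lit 0) (nat_lit 441) (nat_lit 380) (nat_lit 259)) (XT.lf (nat_lit 0) (nat_lit 596087199750) (nat_lit 0) (nat_lit 0) (nat_lit 0) (nat_lit 0) (nat_lit 0) (nat_lit 0) (nat_lit 1) (nat_lit 0) (nat_lit 1) (nat_lit 0) (nat_lit 442) (nat_lit 380) (nat_lit 258))))) (XT.nd (nat_lit 282) (nat_lit 0) (nat_lit 0) (XT.nd (nat_lit 94) (nat_lit 0) (nat_lit 0) (XT.lf (nat_lit 0) (nat_lit 643373738082) (nat_lit 0) (nat_lit 0) (nat_lit 0) (nat_lit 0) (nat_lit 0) (nat_lit 0) (nat_lit 1) (nat_lit 0) (nat_lit 1) (nat_lit 0) (nat_lit 443) (nat_lit 380) (nat_lit 257)) (XT.nd (nat_lit 94) (nat_lit 0) (nat_lit 0) (XT.lf (nat_lit 0) (nat_lit 694443204258) (nat_lit 0) (nat_lit 0) (nat_lit 0) (nat_lit 0) (nat_lit 0) (nat_lit 0) (nat_lit 1) (nat_lit 0) (nat_lit 1) (nat_lit 0) (nat_lit 444) (nat_lit 380) (nat_lit 256))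 (XT.lf (nat_lit 0) (nat_lit 749598232150) (nat_lit 0) (nat_lit 0) (nat_lit 0) (nat_lit 0) (nat_lit 0) (nat_lit 0) (nat_lit 1) (nat_lit 0) (nat_lit 1) (nat_lit 0) (nat_lit 445) (nat_lit 380) (nat_lit 255)))) (XT.nd (nat_lit 188) (nat_lit 0) (nat_lit 0) (XT.nd (nat_lit 94) (nat_lit 0) (nat_lit 0) (XT.lf (nat_lit 0) (nat_lit 809165666368) (nat_lit 0) (nat_lit 0) (nat_lit 0) (nat_lit 0) (nat_lit 0) (nat_lit 0) (nat_lit 1) (nat_lit 0) (nat_lit 1) (nat_lit 0) (nat_lit 446) (nat_lit 380) (nat_lit 254)) (XT.lf (nat_lit 0) (nat_lit 873498499114) (nat_lit 0) (nat_lit 0) (nat_lit 0) (nat_lit 0) (nat_lit 0) (nat_lit 0) (nat_lit 1) (nat_lit 0) (nat_lit 1) (nat_lit 0) (nat_lit 447) (nat_lit 380) (nat_lit 253))) (XT.nd (nat_lit 94) (nat_lit 0) (nat_lit 0) (XT.lf (nat_lit 0) (nat_lit 942977961991) (nat_lit 0) (nat_lit 0) (nat_lit 0) (nat_lit 0) (nat_lit 0) (nat_lit 0) (nat_lit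 1) (nat_lit 0) (nat_lit 1) (nat_lit 0) (nat_lit 448) (nat_lit 380) (nat_lit 252)) (XT.lf (nat_lit 0) (nat_lit 1018015785149) (nat_lit 0) (nat_lit 0) (nat_lit 0) (nat_lit 0) (nat_lit 0) (nat_lit 0) (nat_lit 1) (nat_lit 0) (nat_lit 1) (nat_lit 0) (nat_lit 449) (nat_lit 380) (nat_lit 251)))))) (XT.nd (nat_lit 658) (nat_lit 0) (nat_lit 0) (XT.nd (nat_lit 282) (nat_lit 0) (nat_lit 0) (XT.nd (nat_lit 94) (nat_lit 0) (nat_lit 0) (XT.lf (nat_lit 0) (nat_lit 1099056637169) (nat_lit 0) (nat_lit 0) (nat_lit 0) (nat_lit 0) (nat_lit 0) (nat_lit 0) (nat_lit 1) (nat_lit 0) (nat_lit 1) (nat_lit 0) (nat_lit 450) (nat_lit 380) (nat_lit 250)) (XT.nd (nat_lit 94) (nat_lit 0) (nat_lit 0) (XT.lf (nat_lit 0) (nat_lit 1186580760138) (nat_lit 0) (nat_lit 0) (nat_lit 0) (nat_lit 0) (nat_lit 0) (nat_lit 0) (nat_lit 1) (nat_lit 0) (nat_lit 1) (nat_lit 0) (nat_lit 451) (nat_lit 380) (nat_lit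 249)) (XT.lf (nat_lit 0) (nat_lit 1281106815524) (nat_lit 0) (nat_lit 0) (nat_lit 0) (nat_lit 0) (nat_lit 0) (nat_lit 0) (nat_lit 1) (nat_lit 0) (nat_lit 1) (nat_lit 0) (nat_lit 452) (nat_lit 380) (nat_lit 248)))) (XT.nd (nat_lit 188) (nat_lit 0) (nat_lit 0) (XT.nd (nat_lit 94) (nat_lit 0) (nat_lit 0) (XT.lf (nat_lit 0) (nat_lit 1383194957731) (nat_lit 0) (nat_lit 0) (nat_lit 0) (nat_lit 0) (nat_lit 0) (nat_lit 0) (nat_lit 1) (nat_lit 0) (nat_lit 1) (nat_lit 0) (nat_lit 453) (nat_lit 380) (nat_lit 247)) (XT.lf (nat_lit 0) (nat_lit 1493450153526) (nat_lit 0) (nat_lit 0) (nat_lit 0) (nat_lit 0) (nat_lit 0) (nat_lit 0) (nat_lit 1) (nat_lit 0) (nat_lit 1) (nat_lit 0) (nat_lit 454) (nat_lit 380) (nat_lit 246))) (XT.nd (nat_lit 94) (nat_lit 0) (nat_lit 0) (XT.lf (nat_lit 0) (nat_lit 1612525767033) (nat_lit 0) (nat_lit 0) (nat_lit 0) (nat_lit 0) (nat_lit 0) (nat_lit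 0) (nat_lit 1) (nat_lit 0) (nat_lit 1) (nat_lit 0) (nat_lit 455) (nat_lit 380) (nat_lit 245)) (XT.lf (nat_lit 0) (nat_lit 1741127431518) (nat_lit 0) (nat_lit 0) (nat_lit 0) (nat_lit 0) (nat_lit 0) (nat_lit 0) (nat_lit 1) (nat_lit 0) (nat_lit 1) (nat_lit 0) (nat_lit 456) (nat_lit 380) (nat_lit 244))))) (XT.nd (nat_lit 376) (nat_lit 0) (nat_lit 0) (XT.nd (nat_lit 188) (nat_lit 0) (nat_lit 0) (XT.nd (nat_lit 94) (nat_lit 0) (nat_lit 0) (XT.lf (nat_lit 0) (nat_lit 1880017230917) (nat_lit 0) (nat_lit 0) (nat_lit 0) (nat_lit 0) (nat_lit 0) (nat_lit 0) (nat_lit 1) (nat_lit 0) (nat_lit 1) (nat_lit 0) (nat_lit 457) (nat_lit 380) (nat_lit 243)) (XT.lf (nat_lit 0) (nat_lit 2030018215895) (nat_lit 0) (nat_lit 0) (nat_lit 0) (nat_lit 0) (nat_lit 0) (nat_lit 0) (nat_lit 1) (nat_lit 0) (nat_lit 1) (nat_lit 0) (nat_lit 458) (nat_lit 380) (nat_lit 242))) (XT.nd (nat_lit 94)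 (nat_lit 0) (nat_lit 0) (XT.lf (nat_lit 0) (nat_lit 2192019281176) (nat_lit 0) (nat_lit 0) (nat_lit 0) (nat_lit 0) (nat_lit 0) (nat_lit 0) (nat_lit 1) (nat_lit 0) (nat_lit 1) (nat_lit 0) (nat_lit 459) (nat_lit 380) (nat_lit 241)) (XT.lf (nat_lit 0) (nat_lit 2366980433074) (nat_lit 0) (nat_lit 0) (nat_lit 0) (nat_lit 0) (nat_lit 0) (nat_lit 0) (nat_lit 1) (nat_lit 0) (nat_lit 1) (nat_lit 0) (nat_lit 460) (nat_lit 380) (nat_lit 240)))) (XT.nd (nat_lit 188) (nat_lit 0) (nat_lit 0) (XT.nd (nat_lit 94) (nat_lit 0) (nat_lit 0) (XT.lf (nat_lit 0) (nat_lit 2555938478415) (nat_lit 0) (nat_lit 0) (nat_lit 0) (nat_lit 0) (nat_lit 0) (nat_lit 0) (nat_lit 1) (nat_lit 0) (nat_lit 1) (nat_lit 0) (nat_lit 461) (nat_lit 380) (nat_lit 239)) (XT.lf (nat_lit 0) (nat_lit 2760013168578) (nat_lit 0) (nat_lit 0) (nat_lit 0) (nat_lit 0) (nat_lit 0) (nat_lit 0) (nat_lit 1) (nat_lit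 0) (nat_lit 1) (nat_lit 0) (nat_lit 462) (nat_lit 380) (nat_lit 238))) (XT.nd (nat_lit 94) (nat_lit 0) (nat_lit 0) (XT.lf (nat_lit 0) (nat_lit 2980413835061) (nat_lit 0) (nat_lit 0) (nat_lit 0) (nat_lit 0) (nat_lit 0) (nat_lit 0) (nat_lit 1) (nat_lit 0) (nat_lit 1) (nat_lit 0) (nat_lit 463) (nat_lit 380) (nat_lit 237)) (XT.lf (nat_lit 0) (nat_lit 3218446555887) (nat_lit 0) (nat_lit 0) (nat_lit 0) (nat_lit 0) (nat_lit 0) (nat_lit 0) (nat_lit 1) (nat_lit 0) (nat_lit 1) (nat_lit 0) (nat_lit 464) (nat_lit 380) (nat_lit 236))))))))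
noncomputable def xc135 : XT := (XT.nd (nat_lit 2632) (nat_lit 0) (nat_lit 0) (XT.nd (nat_lit 1316) (nat_lit 0) (nat_lit 0) (XT.nd (nat_lit 658) (nat_lit 0) (nat_lit 0) (XT.nd (nat_lit 282) (nat_lit 0) (nat_lit 0) (XT.nd (nat_lit 94) (nat_lit 0) (nat_lit 0) (XT.lf (nat_lit 0) (nat_lit 3475521895328) (nat_lit 0) (nat_lit 0) (nat_lit 0) (nat_lit 0) (nat_lit 0) (nat_lit 0) (nat_lit 1) (nat_lit 0) (nat_lit 1) (nat_lit 0) (nat_lit 465) (nat_lit 380) (nat_lit 235)) (XT.nd (nat_lit 94) (nat_lit 0) (nat_lit 0) (XT.lf (nat_lit 0) (nat_lit 3753163262803) (nat_lit 0) (nat_lit 0) (nat_lit 0) (nat_lit 0) (nat_lit 0) (nat_lit 0) (nat_lit 1) (nat_lit 0) (nat_lit 1) (nat_lit 0) (nat_lit 466) (nat_lit 380) (nat_lit 234)) (XT.lf (nat_lit 0) (nat_lit 4053015940489) (nat_lit 0) (nat_lit 0) (nat_lit 0) (nat_lit 0) (nat_lit 0) (nat_lit 0) (nat_lit 1) (nat_lit 0) (nat_lit 1) (nat_lit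 0) (nat_lit 467) (nat_lit 380) (nat_lit 233)))) (XT.nd (nat_lit 188) (nat_lit 0) (nat_lit 0) (XT.nd (nat_lit 94) (nat_lit 0) (nat_lit 0) (XT.lf (nat_lit 0) (nat_lit 4376856833143) (nat_lit 0) (nat_lit 0) (nat_lit 0) (nat_lit 0) (nat_lit 0) (nat_lit 0) (nat_lit 1) (nat_lit 0) (nat_lit 1) (nat_lit 0) (nat_lit 468) (nat_lit 380) (nat_lit 232)) (XT.lf (nat_lit 0) (nat_lit 4726604997907) (nat_lit 0) (nat_lit 0) (nat_lit 0) (nat_lit 0) (nat_lit 0) (nat_lit 0) (nat_lit 1) (nat_lit 0) (nat_lit 1) (nat_lit 0) (nat_lit 469) (nat_lit 380) (nat_lit 231))) (XT.nd (nat_lit 94) (nat_lit 0) (nat_lit 0) (XT.lf (nat_lit 0) (nat_lit 5104333016498) (nat_lit 0) (nat_lit 0) (nat_lit 0) (nat_lit 0) (nat_lit 0) (nat_lit 0) (nat_lit 1) (nat_lit 0) (nat_lit 1) (nat_lit 0) (nat_lit 470) (nat_lit 380) (nat_lit 230)) (XT.lf (nat_lit 0) (nat_lit 5512279277174) (nat_lit 0) (nat_lit 0) (nat_lit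 0) (nat_lit 0) (nat_lit 0) (nat_lit 0) (nat_lit 1) (nat_lit 0) (nat_lit 1) (nat_lit 0) (nat_lit 471) (nat_lit 380) (nat_lit 229))))) (XT.nd (nat_lit 282) (nat_lit 0) (nat_lit 0) (XT.nd (nat_lit 94) (nat_lit 0) (nat_lit 0) (XT.lf (nat_lit 0) (nat_lit 5952861239258) (nat_lit 0) (nat_lit 0) (nat_lit 0) (nat_lit 0) (nat_lit 0) (nat_lit 0) (nat_lit 1) (nat_lit 0) (nat_lit 1) (nat_lit 0) (nat_lit 472) (nat_lit 380) (nat_lit 228)) (XT.nd (nat_lit 94) (nat_lit 0) (nat_lit 0) (XT.lf (nat_lit 0) (nat_lit 6428689758821) (nat_lit 0) (nat_lit 0) (nat_lit 0) (nat_lit 0) (nat_lit 0) (nat_lit 0) (nat_lit 1) (nat_lit 0) (nat_lit 1) (nat_lit 0) (nat_lit 473) (nat_lit 380) (nat_lit 227)) (XT.lf (nat_lit 0) (nat_lit 6942584560424) (nat_lit 0) (nat_lit 0) (nat_lit 0) (nat_lit 0) (nat_lit 0) (nat_lit 0) (nat_lit 1) (nat_lit 0) (nat_lit 1) (nat_lit 0) (nat_lit 474) (nat_lit 380)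 (nat_lit 226)))) (XT.nd (nat_lit 188) (nat_lit 0) (nat_lit 0) (XT.nd (nat_lit 94) (nat_lit 0) (nat_lit 0) (XT.lf (nat_lit 0) (nat_lit 7497590946594) (nat_lit 0) (nat_lit 0) (nat_lit 0) (nat_lit 0) (nat_lit 0) (nat_lit 0) (nat_lit 1) (nat_lit 0) (nat_lit 1) (nat_lit 0) (nat_lit 475) (nat_lit 380) (nat_lit 225)) (XT.lf (nat_lit 0) (nat_lit 8096997844065) (nat_lit 0) (nat_lit 0) (nat_lit 0) (nat_lit 0) (nat_lit 0) (nat_lit 0) (nat_lit 1) (nat_lit 0) (nat_lit 1) (nat_lit 0) (nat_lit 476) (nat_lit 380) (nat_lit 224))) (XT.nd (nat_lit 94) (nat_lit 0) (nat_lit 0) (XT.lf (nat_lit 0) (nat_lit 8744357293711) (nat_lit 0) (nat_lit 0) (nat_lit 0) (nat_lit 0) (nat_lit 0) (nat_lit 0) (nat_lit 1) (nat_lit 0) (nat_lit 1) (nat_lit 0) (nat_lit 477) (nat_lit 380) (nat_lit 223)) (XT.lf (nat_lit 0) (nat_lit 9443505499677) (nat_lit 0) (nat_lit 0) (nat_lit 0) (nat_lit 0) (nat_lit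 0) (nat_lit 0) (nat_lit 1) (nat_lit 0) (nat_lit 1) (nat_lit 0) (nat_lit 478) (nat_lit 380) (nat_lit 222)))))) (XT.nd (nat_lit 658) (nat_lit 0) (nat_lit 0) (XT.nd (nat_lit 282) (nat_lit 0) (nat_lit 0) (XT.nd (nat_lit 94) (nat_lit 0) (nat_lit 0) (XT.lf (nat_lit 0) (nat_lit 10198585562443) (nat_lit 0) (nat_lit 0) (nat_lit 0) (nat_lit 0) (nat_lit 0) (nat_lit 0) (nat_lit 1) (nat_lit 0) (nat_lit 1) (nat_lit 0) (nat_lit 479) (nat_lit 380) (nat_lit 221)) (XT.nd (nat_lit 94) (nat_lit 0) (nat_lit 0) (XT.lf (nat_lit 0) (nat_lit 11014072030530) (nat_lit 0) (nat_lit 0) (nat_lit 0) (nat_lit 0) (nat_lit 0) (nat_lit 0) (nat_lit 1) (nat_lit 0) (nat_lit 1) (nat_lit 0) (nat_lit 480) (nat_lit 380) (nat_lit 220)) (XT.lf (nat_lit 0) (nat_lit 11894797416340) (nat_lit 0) (nat_lit 0) (nat_lit 0) (nat_lit 0) (nat_lit 0) (nat_lit 0) (nat_lit 1) (nat_lit 0) (nat_lit 1) (nat_lit 0) (nat_lit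 481) (nat_lit 380) (nat_lit 219)))) (XT.nd (nat_lit 188) (nat_lit 0) (nat_lit 0) (XT.nd (nat_lit 94) (nat_lit 0) (nat_lit 0) (XT.lf (nat_lit 0) (nat_lit 12845980833272) (nat_lit 0) (nat_lit 0) (nat_lit 0) (nat_lit 0) (nat_lit 0) (nat_lit 0) (nat_lit 1) (nat_lit 0) (nat_lit 1) (nat_lit 0) (nat_lit 482) (nat_lit 380) (nat_lit 218)) (XT.lf (nat_lit 0) (nat_lit 13873258923796) (nat_lit 0) (nat_lit 0) (nat_lit 0) (nat_lit 0) (nat_lit 0) (nat_lit 0) (nat_lit 1) (nat_lit 0) (nat_lit 1) (nat_lit 0) (nat_lit 483) (nat_lit 380) (nat_lit 217))) (XT.nd (nat_lit 94) (nat_lit 0) (nat_lit 0) (XT.lf (nat_lit 0) (nat_lit 14982719261781) (nat_lit 0) (nat_lit 0) (nat_lit 0) (nat_lit 0) (nat_lit 0) (nat_lit 0) (nat_lit 1) (nat_lit 0) (nat_lit 1) (nat_lit 0) (nat_lit 484) (nat_lit 380) (nat_lit 216)) (XT.lf (nat_lit 0) (nat_lit 16180936427009) (nat_lit 0) (nat_lit 0) (nat_lit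 0) (nat_lit 0) (nat_lit 0) (nat_lit 0) (nat_lit 1) (nat_lit 0) (nat_lit 1) (nat_lit 0) (nat_lit 485) (nat_lit 380) (nat_lit 215))))) (XT.nd (nat_lit 282) (nat_lit 0) (nat_lit 0) (XT.nd (nat_lit 94) (nat_lit 0) (nat_lit 0) (XT.lf (nat_lit 0) (nat_lit 17475010965644) (nat_lit 0) (nat_lit 0) (nat_lit 0) (nat_lit 0) (nat_lit 0) (nat_lit 0) (nat_lit 1) (nat_lit 0) (nat_lit 1) (nat_lit 0) (nat_lit 486) (nat_lit 380) (nat_lit 214)) (XT.nd (nat_lit 94) (nat_lit 0) (nat_lit 0) (XT.lf (nat_lit 0) (nat_lit 18872611467544) (nat_lit 0) (nat_lit 0) (nat_lit 0) (nat_lit 0) (nat_lit 0) (nat_lit 0) (nat_lit 1) (nat_lit 0) (nat_lit 1) (nat_lit 0) (nat_lit 487) (nat_lit 380) (nat_lit 213)) (XT.lf (nat_lit 0) (nat_lit 20382020009758) (nat_lit 0) (nat_lit 0) (nat_lit 0) (nat_lit 0) (nat_lit 0) (nat_lit 0) (nat_lit 1) (nat_lit 0) (nat_lit 1) (nat_lit 0) (nat_lit 488) (nat_lit 380)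 (nat_lit 212)))) (XT.nd (nat_lit 188) (nat_lit 0) (nat_lit 0) (XT.nd (nat_lit 94) (nat_lit 0) (nat_lit 0) (XT.lf (nat_lit 0) (nat_lit 22012181235498) (nat_lit 0) (nat_lit 0) (nat_lit 0) (nat_lit 0) (nat_lit 0) (nat_lit 0) (nat_lit 1) (nat_lit 0) (nat_lit 1) (nat_lit 0) (nat_lit 489) (nat_lit 380) (nat_lit 211)) (XT.lf (nat_lit 0) (nat_lit 23772755359436) (nat_lit 0) (nat_lit 0) (nat_lit 0) (nat_lit 0) (nat_lit 0) (nat_lit 0) (nat_lit 1) (nat_lit 0) (nat_lit 1) (nat_lit 0) (nat_lit 490) (nat_lit 380) (nat_lit 210))) (XT.nd (nat_lit 94) (nat_lit 0) (nat_lit 0) (XT.lf (nat_lit 0) (nat_lit 25674175413418) (nat_lit 0) (nat_lit 0) (nat_lit 0) (nat_lit 0) (nat_lit 0) (nat_lit 0) (nat_lit 1) (nat_lit 0) (nat_lit 1) (nat_lit 0) (nat_lit 491) (nat_lit 380) (nat_lit 209)) (XT.lf (nat_lit 0) (nat_lit 27727709071837) (nat_lit 0) (nat_lit 0) (nat_lit 0) (nat_lit 0) (nat_lit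 0) (nat_lit 0) (nat_lit 1) (nat_lit 0) (nat_lit 1) (nat_lit 0) (nat_lit 492) (nat_lit 380) (nat_lit 208))))))) (XT.nd (nat_lit 57434) (nat_lit 0) (nat_lit 7224) (XT.nd (nat_lit 658) (nat_lit 0) (nat_lit 0) (XT.nd (nat_lit 282) (nat_lit 0) (nat_lit 0) (XT.nd (nat_lit 94) (nat_lit 0) (nat_lit 0) (XT.lf (nat_lit 0) (nat_lit 29945525423039) (nat_lit 0) (nat_lit 0) (nat_lit 0) (nat_lit 0) (nat_lit 0) (nat_lit 0) (nat_lit 1) (nat_lit 0) (nat_lit 1) (nat_lit 0) (nat_lit 493) (nat_lit 380) (nat_lit 207)) (XT.nd (nat_lit 94) (nat_lit 0) (nat_lit 0) (XT.lf (nat_lit 0) (nat_lit 32340767082439) (nat_lit 0) (nat_lit 0) (nat_lit 0) (nat_lit 0) (nat_lit 0) (nat_lit 0) (nat_lit 1) (nat_lit 0) (nat_lit 1) (nat_lit 0) (nat_lit 494) (nat_lit 380) (nat_lit 206)) (XT.lf (nat_lit 0) (nat_lit 34927628074685) (nat_lit 0) (nat_lit 0) (nat_lit 0) (nat_lit 0) (nat_lit 0) (nat_lit 0)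 (nat_lit 1) (nat_lit 0) (nat_lit 1) (nat_lit 0) (nat_lit 495) (nat_lit 380) (nat_lit 205)))) (XT.nd (nat_lit 188) (nat_lit 0) (nat_lit 0) (XT.nd (nat_lit 94) (nat_lit 0) (nat_lit 0) (XT.lf (nat_lit 0) (nat_lit 37721437946399) (nat_lit 0) (nat_lit 0) (nat_lit 0) (nat_lit 0) (nat_lit 0) (nat_lit 0) (nat_lit 1) (nat_lit 0) (nat_lit 1) (nat_lit 0) (nat_lit 496) (nat_lit 380) (nat_lit 204)) (XT.lf (nat_lit 0) (nat_lit 40738752607930) (nat_lit 0) (nat_lit 0) (nat_lit 0) (nat_lit 0) (nat_lit 0) (nat_lit 0) (nat_lit 1) (nat_lit 0) (nat_lit 1) (nat_lit 0) (nat_lit 497) (nat_lit 380) (nat_lit 203))) (XT.nd (nat_lit 94) (nat_lit 0) (nat_lit 0) (XT.lf (nat_lit 0) (nat_lit 43997452442459) (nat_lit 0) (nat_lit 0) (nat_lit 0) (nat_lit 0) (nat_lit 0) (nat_lit 0) (nat_lit 1) (nat_lit 0) (nat_lit 1) (nat_lit 0) (nat_lit 498) (nat_lit 380) (nat_lit 202)) (XT.lf (nat_lit 0) (nat_lit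 47516848263820) (nat_lit 0) (nat_lit 0) (nat_lit 0) (nat_lit 0) (nat_lit 0) (nat_lit 0) (nat_lit 1) (nat_lit 0) (nat_lit 1) (nat_lit 0) (nat_lit 499) (nat_lit 380) (nat_lit 201))))) (XT.nd (nat_lit 282) (nat_lit 0) (nat_lit 0) (XT.nd (nat_lit 94) (nat_lit 0) (nat_lit 0) (XT.lf (nat_lit 0) (nat_lit 51317795750953) (nat_lit 0) (nat_lit 0) (nat_lit 0) (nat_lit 0) (nat_lit 0) (nat_lit 0) (nat_lit 1) (nat_lit 0) (nat_lit 1) (nat_lit 0) (nat_lit 500) (nat_lit 380) (nat_lit 200)) (XT.nd (nat_lit 94) (nat_lit 0) (nat_lit 0) (XT.lf (nat_lit 0) (nat_lit 55422819037117) (nat_lit 0) (nat_lit 0) (nat_lit 0) (nat_lit 0) (nat_lit 0) (nat_lit 0) (nat_lit 1) (nat_lit 0) (nat_lit 1) (nat_lit 0) (nat_lit 501) (nat_lit 380) (nat_lit 199)) (XT.lf (nat_lit 0) (nat_lit 59856244186229) (nat_lit 0) (nat_lit 0) (nat_lit 0) (nat_lit 0) (nat_lit 0) (nat_lit 0) (nat_lit 1) (nat_lit 0)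 (nat_lit 1) (nat_lit 0) (nat_lit 502) (nat_lit 380) (nat_lit 198)))) (XT.nd (nat_lit 56306) (nat_lit 0) (nat_lit 10752) (XT.nd (nat_lit 94) (nat_lit 0) (nat_lit 0) (XT.lf (nat_lit 0) (nat_lit 64644343347320) (nat_lit 0) (nat_lit 0) (nat_lit 0) (nat_lit 0) (nat_lit 0) (nat_lit 0) (nat_lit 1) (nat_lit 0) (nat_lit 1) (nat_lit 0) (nat_lit 503) (nat_lit 380) (nat_lit 197)) (XT.lf (nat_lit 0) (nat_lit 69815490441346) (nat_lit 0) (nat_lit 0) (nat_lit 0) (nat_lit 0) (nat_lit 0) (nat_lit 0) (nat_lit 1) (nat_lit 0) (nat_lit 1) (nat_lit 0) (nat_lit 504) (nat_lit 380) (nat_lit 196))) (XT.nd (nat_lit 94) (nat_lit 0) (nat_lit 84) (XT.lf (nat_lit 0) (nat_lit 3738616079) (nat_lit 924) (nat_lit 3263429891) (nat_lit 924) (nat_lit 3263429891) (nat_lit 128) (nat_lit 3) (nat_lit 139) (nat_lit 3) (nat_lit 139) (nat_lit 5) (nat_lit 381) (nat_lit 381) (nat_lit 318)) (XT.lf (nat_lit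 0) (nat_lit 8210567018) (nat_lit 840) (nat_lit 11141258410) (nat_lit 924) (nat_lit 1978652084) (nat_lit 129) (nat_lit 5) (nat_lit 139) (nat_lit 5) (nat_lit 140) (nat_lit 5) (nat_lit 382) (nat_lit 381) (nat_lit 317)))))) (XT.nd (nat_lit 658) (nat_lit 2520) (nat_lit 0) (XT.nd (nat_lit 282) (nat_lit 1092) (nat_lit 0) (XT.nd (nat_lit 94) (nat_lit 0) (nat_lit 84) (XT.lf (nat_lit 84) (nat_lit 6234343153) (nat_lit 0) (nat_lit 3192939947) (nat_lit 924) (nat_lit 12745446545) (nat_lit 130) (nat_lit 5) (nat_lit 129) (nat_lit 5) (nat_lit 140) (nat_lit 5) (nat_lit 383) (nat_lit 381) (nat_lit 316)) (XT.nd (nat_lit 94) (nat_lit 0) (nat_lit 84) (XT.lf (nat_lit 84) (nat_lit 2153085891) (nat_lit 0) (nat_lit 9019146321) (nat_lit 924) (nat_lit 11888584948) (nat_lit 131) (nat_lit 5) (nat_lit 130) (nat_lit 5) (nat_lit 141) (nat_lit 5) (nat_lit 384) (nat_lit 381) (nat_lit 315))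 (XT.lf (nat_lit 0) (nat_lit 13504014911) (nat_lit 840) (nat_lit 1951395366) (nat_lit 924) (nat_lit 8542179516) (nat_lit 131) (nat_lit 5) (nat_lit 141) (nat_lit 5) (nat_lit 142) (nat_lit 5) (nat_lit 385) (nat_lit 381) (nat_lit 314)))) (XT.nd (nat_lit 188) (nat_lit 1344) (nat_lit 0) (XT.nd (nat_lit 94) (nat_lit 0) (nat_lit 0) (XT.lf (nat_lit 0) (nat_lit 16490180030) (nat_lit 840) (nat_lit 6065358263) (nat_lit 924) (nat_lit 2430373954) (nat_lit 132) (nat_lit 5) (nat_lit 142) (nat_lit 5) (nat_lit 143) (nat_lit 5) (nat_lit 386) (nat_lit 381) (nat_lit 313)) (XT.lf (nat_lit 84) (nat_lit 15707004287) (nat_lit 0) (nat_lit 4530429469) (nat_lit 924) (nat_lit 5789756972) (nat_lit 133) (nat_lit 5) (nat_lit 132) (nat_lit 5) (nat_lit 143) (nat_lit 5) (nat_lit 387) (nat_lit 381) (nat_lit 312))) (XT.nd (nat_lit 94) (nat_lit 588) (nat_lit 0) (XT.lf (nat_lit 0) (nat_lit 12439312949)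 (nat_lit 840) (nat_lit 12362935866) (nat_lit 924) (nat_lit 2323633619) (nat_lit 123) (nat_lit 5) (nat_lit 133) (nat_lit 5) (nat_lit 134) (nat_lit 5) (nat_lit 388) (nat_lit 381) (nat_lit 311)) (XT.lf (nat_lit 0) (nat_lit 1878983957) (nat_lit 588) (nat_lit 19144507979) (nat_lit 84) (nat_lit 7262636896) (nat_lit 116) (nat_lit 5) (nat_lit 123) (nat_lit 5) (nat_lit 117) (nat_lit 5) (nat_lit 389) (nat_lit 381) (nat_lit 310))))) (XT.nd (nat_lit 376) (nat_lit 1344) (nat_lit 0) (XT.nd (nat_lit 188) (nat_lit 336) (nat_lit 0) (XT.nd (nat_lit 94) (nat_lit 420) (nat_lit 0) (XT.lf (nat_lit 0) (nat_lit 5792526573) (nat_lit 420) (nat_lit 1088631800) (nat_lit 504) (nat_lit 22628894140) (nat_lit 111) (nat_lit 5) (nat_lit 116) (nat_lit 5) (nat_lit 117) (nat_lit 5) (nat_lit 390) (nat_lit 381) (nat_lit 309)) (XT.lf (nat_lit 0) (nat_lit 2327635786) (nat_lit 420) (nat_lit 10635951141)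 (nat_lit 504) (nat_lit 17834299151) (nat_lit 106) (nat_lit 5) (nat_lit 111) (nat_lit 5) (nat_lit 112) (nat_lit 5) (nat_lit 391) (nat_lit 381) (nat_lit 308))) (XT.nd (nat_lit 94) (nat_lit 336) (nat_lit 0) (XT.lf (nat_lit 0) (nat_lit 20127025856) (nat_lit 504) (nat_lit 1074745489) (nat_lit 84) (nat_lit 10957254181) (nat_lit 106) (nat_lit 5) (nat_lit 112) (nat_lit 5) (nat_lit 107) (nat_lit 5) (nat_lit 392) (nat_lit 381) (nat_lit 307)) (XT.lf (nat_lit 0) (nat_lit 28499101731) (nat_lit 420) (nat_lit 4354539867) (nat_lit 84) (nat_lit 743636438) (nat_lit 102) (nat_lit 5) (nat_lit 107) (nat_lit 5) (nat_lit 103) (nat_lit 5) (nat_lit 393) (nat_lit 381) (nat_lit 306)))) (XT.nd (nat_lit 188) (nat_lit 588) (nat_lit 0) (XT.nd (nat_lit 94) (nat_lit 336) (nat_lit 0) (XT.lf (nat_lit 0) (nat_lit 3118981974) (nat_lit 420) (nat_lit 7782492229) (nat_lit 84) (nat_lit 24206993776)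 (nat_lit 97) (nat_lit 5) (nat_lit 102) (nat_lit 5) (nat_lit 98) (nat_lit 5) (nat_lit 394) (nat_lit 381) (nat_lit 305)) (XT.lf (nat_lit 0) (nat_lit 12493132375) (nat_lit 420) (nat_lit 11241474455) (nat_lit 84) (nat_lit 12967855718) (nat_lit 93) (nat_lit 5) (nat_lit 98) (nat_lit 5) (nat_lit 94) (nat_lit 5) (nat_lit 395) (nat_lit 381) (nat_lit 304))) (XT.nd (nat_lit 94) (nat_lit 252) (nat_lit 0) (XT.lf (nat_lit 0) (nat_lit 23307033167) (nat_lit 420) (nat_lit 14611236270) (nat_lit 84) (nat_lit 471216328) (nat_lit 89) (nat_lit 5) (nat_lit 94) (nat_lit 5) (nat_lit 90) (nat_lit 5) (nat_lit 396) (nat_lit 381) (nat_lit 303)) (XT.lf (nat_lit 0) (nat_lit 22089314938) (nat_lit 252) (nat_lit 13830633237) (nat_lit 336) (nat_lit 4244827555) (nat_lit 86) (nat_lit 5) (nat_lit 89) (nat_lit 5) (nat_lit 90) (nat_lit 5) (nat_lit 397) (nat_lit 381) (nat_lit 302))))))))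
noncomputable def xc136 : XT := (XT.nd (nat_lit 2632) (nat_lit 1764) (nat_lit 0) (XT.nd (nat_lit 1316) (nat_lit 2100) (nat_lit 0) (XT.nd (nat_lit 658) (nat_lit 1344) (nat_lit 0) (XT.nd (nat_lit 282) (nat_lit 1092) (nat_lit 0) (XT.nd (nat_lit 94) (nat_lit 504) (nat_lit 0) (XT.lf (nat_lit 0) (nat_lit 7994839844) (nat_lit 420) (nat_lit 21542151169) (nat_lit 84) (nat_lit 12500584817) (nat_lit 81) (nat_lit 5) (nat_lit 86) (nat_lit 5) (nat_lit 82) (nat_lit 5) (nat_lit 398) (nat_lit 381) (nat_lit 301)) (XT.nd (nat_lit 94) (nat_lit 252) (nat_lit 0) (XT.lf (nat_lit 0) (nat_lit 19039291216) (nat_lit 252) (nat_lit 2868808907) (nat_lit 336) (nat_lit 22106463568) (nat_lit 78) (nat_lit 5) (nat_lit 81) (nat_lit 5) (nat_lit 82) (nat_lit 5) (nat_lit 399) (nat_lit 381) (nat_lit 300)) (XT.lf (nat_lit 0) (nat_lit 17646378038) (nat_lit 252) (nat_lit 20340934987) (nat_lit 336)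 (nat_lit 8109752967) (nat_lit 75) (nat_lit 5) (nat_lit 78) (nat_lit 5) (nat_lit 79) (nat_lit 5) (nat_lit 400) (nat_lit 381) (nat_lit 299)))) (XT.nd (nat_lit 188) (nat_lit 504) (nat_lit 0) (XT.nd (nat_lit 94) (nat_lit 252) (nat_lit 0) (XT.lf (nat_lit 0) (nat_lit 7665265988) (nat_lit 336) (nat_lit 31846426059) (nat_lit 84) (nat_lit 8784865250) (nat_lit 71) (nat_lit 5) (nat_lit 75) (nat_lit 5) (nat_lit 72) (nat_lit 5) (nat_lit 401) (nat_lit 381) (nat_lit 298)) (XT.lf (nat_lit 0) (nat_lit 15301171056) (nat_lit 252) (nat_lit 10198192238) (nat_lit 336) (nat_lit 25111937118) (nat_lit 68) (nat_lit 5) (nat_lit 71) (nat_lit 5) (nat_lit 72) (nat_lit 5) (nat_lit 402) (nat_lit 381) (nat_lit 297))) (XT.nd (nat_lit 94) (nat_lit 336) (nat_lit 0) (XT.lf (nat_lit 0) (nat_lit 14378112339) (nat_lit 168) (nat_lit 31497617841) (nat_lit 252) (nat_lit 7179715708) (nat_lit 66) (nat_lit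 5) (nat_lit 68) (nat_lit 5) (nat_lit 69) (nat_lit 5) (nat_lit 403) (nat_lit 381) (nat_lit 296)) (XT.lf (nat_lit 0) (nat_lit 12814272107) (nat_lit 336) (nat_lit 41957455922) (nat_lit 84) (nat_lit 863018672) (nat_lit 62) (nat_lit 5) (nat_lit 66) (nat_lit 5) (nat_lit 63) (nat_lit 5) (nat_lit 404) (nat_lit 381) (nat_lit 295))))) (XT.nd (nat_lit 282) (nat_lit 756) (nat_lit 0) (XT.nd (nat_lit 94) (nat_lit 420) (nat_lit 0) (XT.lf (nat_lit 0) (nat_lit 12954409497) (nat_lit 168) (nat_lit 22616085655) (nat_lit 252) (nat_lit 22773298492) (nat_lit 60) (nat_lit 5) (nat_lit 62) (nat_lit 5) (nat_lit 63) (nat_lit 5) (nat_lit 405) (nat_lit 381) (nat_lit 294)) (XT.nd (nat_lit 94) (nat_lit 168) (nat_lit 0) (XT.lf (nat_lit 0) (nat_lit 55576431) (nat_lit 252) (nat_lit 48495286650) (nat_lit 84) (nat_lit 12662477283) (nat_lit 57) (nat_lit 5) (nat_lit 60) (nat_lit 5) (nat_lit 58)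 (nat_lit 5) (nat_lit 406) (nat_lit 381) (nat_lit 293)) (XT.lf (nat_lit 0) (nat_lit 12430325917) (nat_lit 168) (nat_lit 12865555891) (nat_lit 252) (nat_lit 38928753078) (nat_lit 55) (nat_lit 5) (nat_lit 57) (nat_lit 5) (nat_lit 58) (nat_lit 5) (nat_lit 407) (nat_lit 381) (nat_lit 292)))) (XT.nd (nat_lit 188) (nat_lit 336) (nat_lit 0) (XT.nd (nat_lit 94) (nat_lit 252) (nat_lit 0) (XT.lf (nat_lit 0) (nat_lit 12501586461) (nat_lit 168) (nat_lit 41502012394) (nat_lit 252) (nat_lit 13400824755) (nat_lit 53) (nat_lit 5) (nat_lit 55) (nat_lit 5) (nat_lit 56) (nat_lit 5) (nat_lit 408) (nat_lit 381) (nat_lit 291)) (XT.lf (nat_lit 0) (nat_lit 12947978943) (nat_lit 168) (nat_lit 2097715281) (nat_lit 252) (nat_lit 55715346868) (nat_lit 50) (nat_lit 5) (nat_lit 52) (nat_lit 5) (nat_lit 53) (nat_lit 5) (nat_lit 409) (nat_lit 381) (nat_lit 290))) (XT.nd (nat_lit 94) (nat_lit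 168) (nat_lit 0) (XT.lf (nat_lit 0) (nat_lit 13393947468) (nat_lit 168) (nat_lit 33717602581) (nat_lit 252) (nat_lit 27172997894) (nat_lit 48) (nat_lit 5) (nat_lit 50) (nat_lit 5) (nat_lit 51) (nat_lit 5) (nat_lit 410) (nat_lit 381) (nat_lit 289)) (XT.lf (nat_lit 0) (nat_lit 4971911382) (nat_lit 168) (nat_lit 63503913358) (nat_lit 84) (nat_lit 9539454986) (nat_lit 46) (nat_lit 5) (nat_lit 48) (nat_lit 5) (nat_lit 47) (nat_lit 5) (nat_lit 411) (nat_lit 381) (nat_lit 288)))))) (XT.nd (nat_lit 658) (nat_lit 924) (nat_lit 0) (XT.nd (nat_lit 282) (nat_lit 672) (nat_lit 0) (XT.nd (nat_lit 94) (nat_lit 336) (nat_lit 0) (XT.lf (nat_lit 0) (nat_lit 15572767296) (nat_lit 168) (nat_lit 25060502203) (nat_lit 252) (nat_lit 41294084324) (nat_lit 44) (nat_lit 5) (nat_lit 46) (nat_lit 5) (nat_lit 47) (nat_lit 5) (nat_lit 412) (nat_lit 381) (nat_lit 287)) (XT.nd (nat_lit 94)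 (nat_lit 252) (nat_lit 0) (XT.lf (nat_lit 0) (nat_lit 17332263257) (nat_lit 84) (nat_lit 63545606891) (nat_lit 168) (nat_lit 5188007006) (nat_lit 43) (nat_lit 5) (nat_lit 44) (nat_lit 5) (nat_lit 45) (nat_lit 4) (nat_lit 413) (nat_lit 381) (nat_lit 286)) (XT.lf (nat_lit 0) (nat_lit 19242939137) (nat_lit 168) (nat_lit 15374171166) (nat_lit 252) (nat_lit 55797352556) (nat_lit 40) (nat_lit 5) (nat_lit 42) (nat_lit 5) (nat_lit 43) (nat_lit 5) (nat_lit 414) (nat_lit 381) (nat_lit 285)))) (XT.nd (nat_lit 188) (nat_lit 336) (nat_lit 0) (XT.nd (nat_lit 94) (nat_lit 252) (nat_lit 0) (XT.lf (nat_lit 0) (nat_lit 21665841188) (nat_lit 84) (nat_lit 57883826994) (nat_lit 168) (nat_lit 15450775091) (nat_lit 39) (nat_lit 5) (nat_lit 40) (nat_lit 5) (nat_lit 41) (nat_lit 4) (nat_lit 415) (nat_lit 381) (nat_lit 284)) (XT.lf (nat_lit 0) (nat_lit 24641395018) (nat_lit 168) (nat_lit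 4481157137) (nat_lit 252) (nat_lit 70713838003) (nat_lit 36) (nat_lit 5) (nat_lit 38) (nat_lit 5) (nat_lit 39) (nat_lit 5) (nat_lit 416) (nat_lit 381) (nat_lit 283))) (XT.nd (nat_lit 94) (nat_lit 252) (nat_lit 0) (XT.lf (nat_lit 0) (nat_lit 27849461706) (nat_lit 84) (nat_lit 51437169061) (nat_lit 168) (nat_lit 25631607203) (nat_lit 35) (nat_lit 5) (nat_lit 36) (nat_lit 5) (nat_lit 37) (nat_lit 4) (nat_lit 417) (nat_lit 381) (nat_lit 282)) (XT.lf (nat_lit 0) (nat_lit 24343871526) (nat_lit 252) (nat_lit 78374141519) (nat_lit 84) (nat_lit 7569388989) (nat_lit 32) (nat_lit 5) (nat_lit 35) (nat_lit 5) (nat_lit 33) (nat_lit 4) (nat_lit 418) (nat_lit 381) (nat_lit 281))))) (XT.nd (nat_lit 282) (nat_lit 504) (nat_lit 0) (XT.nd (nat_lit 94) (nat_lit 336) (nat_lit 0) (XT.lf (nat_lit 0) (nat_lit 36174918867) (nat_lit 84) (nat_lit 44048651186) (nat_lit 168) (nat_lit 35701310248)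 (nat_lit 31) (nat_lit 5) (nat_lit 32) (nat_lit 5) (nat_lit 33) (nat_lit 4) (nat_lit 419) (nat_lit 381) (nat_lit 280)) (XT.nd (nat_lit 94) (nat_lit 84) (nat_lit 0) (XT.lf (nat_lit 0) (nat_lit 20341184933) (nat_lit 252) (nat_lit 80479048237) (nat_lit 84) (nat_lit 21059887632) (nat_lit 28) (nat_lit 5) (nat_lit 31) (nat_lit 5) (nat_lit 29) (nat_lit 4) (nat_lit 420) (nat_lit 381) (nat_lit 279)) (XT.lf (nat_lit 0) (nat_lit 46977860131) (nat_lit 84) (nat_lit 35539147732) (nat_lit 168) (nat_lit 45620472906) (nat_lit 27) (nat_lit 5) (nat_lit 28) (nat_lit 5) (nat_lit 29) (nat_lit 4) (nat_lit 421) (nat_lit 381) (nat_lit 278)))) (XT.nd (nat_lit 188) (nat_lit 252) (nat_lit 0) (XT.nd (nat_lit 94) (nat_lit 84) (nat_lit 0) (XT.lf (nat_lit 0) (nat_lit 17151824798) (nat_lit 168) (nat_lit 81205686065) (nat_lit 84) (nat_lit 36383730624) (nat_lit 25) (nat_lit 5) (nat_lit 27) (nat_lit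 5) (nat_lit 26) (nat_lit 4) (nat_lit 422) (nat_lit 381) (nat_lit 277)) (XT.lf (nat_lit 0) (nat_lit 60643689988) (nat_lit 84) (nat_lit 25704357851) (nat_lit 168) (nat_lit 55337838361) (nat_lit 24) (nat_lit 5) (nat_lit 25) (nat_lit 5) (nat_lit 26) (nat_lit 4) (nat_lit 423) (nat_lit 381) (nat_lit 276))) (XT.nd (nat_lit 94) (nat_lit 84) (nat_lit 0) (XT.lf (nat_lit 0) (nat_lit 14902515610) (nat_lit 168) (nat_lit 80280772371) (nat_lit 84) (nat_lit 53824063310) (nat_lit 22) (nat_lit 5) (nat_lit 24) (nat_lit 5) (nat_lit 23) (nat_lit 4) (nat_lit 424) (nat_lit 381) (nat_lit 275)) (XT.lf (nat_lit 0) (nat_lit 77614243736) (nat_lit 84) (nat_lit 14311378522) (nat_lit 168) (nat_lit 64788437816) (nat_lit 21) (nat_lit 5) (nat_lit 22) (nat_lit 5) (nat_lit 23) (nat_lit 4) (nat_lit 425) (nat_lit 381) (nat_lit 274))))))) (XT.nd (nat_lit 1316) (nat_lit 0) (nat_lit 0) (XT.nd (nat_lit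 658) (nat_lit 840) (nat_lit 0) (XT.nd (nat_lit 282) (nat_lit 504) (nat_lit 0) (XT.nd (nat_lit 94) (nat_lit 252) (nat_lit 0) (XT.lf (nat_lit 0) (nat_lit 13742128692) (nat_lit 168) (nat_lit 77386217279) (nat_lit 84) (nat_lit 73701532766) (nat_lit 19) (nat_lit 5) (nat_lit 21) (nat_lit 5) (nat_lit 20) (nat_lit 4) (nat_lit 426) (nat_lit 381) (nat_lit 273)) (XT.nd (nat_lit 94) (nat_lit 168) (nat_lit 0) (XT.lf (nat_lit 0) (nat_lit 98395327806) (nat_lit 84) (nat_lit 1094833057) (nat_lit 168) (nat_lit 73891452174) (nat_lit 18) (nat_lit 5) (nat_lit 19) (nat_lit 5) (nat_lit 20) (nat_lit 4) (nat_lit 427) (nat_lit 381) (nat_lit 272)) (XT.lf (nat_lit 0) (nat_lit 13844767804) (nat_lit 168) (nat_lit 72152778899) (nat_lit 84) (nat_lit 96379155727) (nat_lit 16) (nat_lit 5) (nat_lit 18) (nat_lit 5) (nat_lit 17) (nat_lit 4) (nat_lit 428) (nat_lit 381) (nat_lit 271)))) (XT.nd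 (nat_lit 188) (nat_lit 252) (nat_lit 0) (XT.nd (nat_lit 94) (nat_lit 168) (nat_lit 0) (XT.lf (nat_lit 0) (nat_lit 109540178162) (nat_lit 168) (nat_lit 68522708381) (nat_lit 0) (nat_lit 13791491201) (nat_lit 15) (nat_lit 5) (nat_lit 17) (nat_lit 4) (nat_lit 15) (nat_lit 4) (nat_lit 429) (nat_lit 381) (nat_lit 270)) (XT.lf (nat_lit 0) (nat_lit 15413269566) (nat_lit 168) (nat_lit 64152867428) (nat_lit 84) (nat_lit 122267797765) (nat_lit 13) (nat_lit 5) (nat_lit 15) (nat_lit 5) (nat_lit 14) (nat_lit 4) (nat_lit 430) (nat_lit 381) (nat_lit 269))) (XT.nd (nat_lit 94) (nat_lit 168) (nat_lit 0) (XT.lf (nat_lit 0) (nat_lit 122225275447) (nat_lit 168) (nat_lit 59078085939) (nat_lit 0) (nat_lit 31033512906) (nat_lit 12) (nat_lit 5) (nat_lit 14) (nat_lit 4) (nat_lit 12) (nat_lit 4) (nat_lit 431) (nat_lit 381) (nat_lit 268)) (XT.lf (nat_lit 0) (nat_lit 18683172025) (nat_lit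 168) (nat_lit 52892389191) (nat_lit 84) (nat_lit 151832338352) (nat_lit 10) (nat_lit 5) (nat_lit 12) (nat_lit 5) (nat_lit 11) (nat_lit 4) (nat_lit 432) (nat_lit 381) (nat_lit 267))))) (XT.nd (nat_lit 282) (nat_lit 504) (nat_lit 0) (XT.nd (nat_lit 94) (nat_lit 252) (nat_lit 0) (XT.lf (nat_lit 0) (nat_lit 137896460067) (nat_lit 168) (nat_lit 46105593456) (nat_lit 0) (nat_lit 51045091026) (nat_lit 9) (nat_lit 5) (nat_lit 11) (nat_lit 4) (nat_lit 9) (nat_lit 4) (nat_lit 433) (nat_lit 381) (nat_lit 266)) (XT.nd (nat_lit 94) (nat_lit 84) (nat_lit 0) (XT.lf (nat_lit 0) (nat_lit 23927211274) (nat_lit 168) (nat_lit 37801508017) (nat_lit 84) (nat_lit 185598605563) (nat_lit 7) (nat_lit 5) (nat_lit 9) (nat_lit 5) (nat_lit 8) (nat_lit 4) (nat_lit 434) (nat_lit 381) (nat_lit 265)) (XT.lf (nat_lit 0) (nat_lit 156974226051) (nat_lit 168) (nat_lit 28994787940) (nat_lit 0)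 (nat_lit 74256945177) (nat_lit 6) (nat_lit 5) (nat_lit 8) (nat_lit 4) (nat_lit 6) (nat_lit 4) (nat_lit 435) (nat_lit 381) (nat_lit 264)))) (XT.nd (nat_lit 188) (nat_lit 252) (nat_lit 0) (XT.nd (nat_lit 94) (nat_lit 84) (nat_lit 0) (XT.lf (nat_lit 0) (nat_lit 31460413503) (nat_lit 168) (nat_lit 18224186089) (nat_lit 84) (nat_lit 224161174331) (nat_lit 4) (nat_lit 5) (nat_lit 6) (nat_lit 5) (nat_lit 5) (nat_lit 4) (nat_lit 436) (nat_lit 381) (nat_lit 263)) (XT.lf (nat_lit 0) (nat_lit 179938287904) (nat_lit 168) (nat_lit 7043399508) (nat_lit 0) (nat_lit 101158544189) (nat_lit 3) (nat_lit 5) (nat_lit 5) (nat_lit 4) (nat_lit 3) (nat_lit 4) (nat_lit 437) (nat_lit 381) (nat_lit 262))) (XT.nd (nat_lit 94) (nat_lit 0) (nat_lit 0) (XT.lf (nat_lit 0) (nat_lit 439868566148) (nat_lit 0) (nat_lit 0) (nat_lit 0) (nat_lit 0) (nat_lit 0) (nat_lit 0) (nat_lit 1) (nat_lit 0)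 (nat_lit 1) (nat_lit 0) (nat_lit 438) (nat_lit 381) (nat_lit 261)) (XT.lf (nat_lit 0) (nat_lit 474625567194) (nat_lit 0) (nat_lit 0) (nat_lit 0) (nat_lit 0) (nat_lit 0) (nat_lit 0) (nat_lit 1) (nat_lit 0) (nat_lit 1) (nat_lit 0) (nat_lit 439) (nat_lit 381) (nat_lit 260)))))) (XT.nd (nat_lit 658) (nat_lit 0) (nat_lit 0) (XT.nd (nat_lit 282) (nat_lit 0) (nat_lit 0) (XT.nd (nat_lit 94) (nat_lit 0) (nat_lit 0) (XT.lf (nat_lit 0) (nat_lit 512163134339) (nat_lit 0) (nat_lit 0) (nat_lit 0) (nat_lit 0) (nat_lit 0) (nat_lit 0) (nat_lit 1) (nat_lit 0) (nat_lit 1) (nat_lit 0) (nat_lit 440) (nat_lit 381) (nat_lit 259)) (XT.nd (nat_lit 94) (nat_lit 0) (nat_lit 0) (XT.lf (nat_lit 0) (nat_lit 552703712428) (nat_lit 0) (nat_lit 0) (nat_lit 0) (nat_lit 0) (nat_lit 0) (nat_lit 0) (nat_lit 1) (nat_lit 0) (nat_lit 1) (nat_lit 0) (nat_lit 441) (nat_lit 381) (nat_lit 258)) (XT.lf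 (nat_lit 0) (nat_lit 596487541921) (nat_lit 0) (nat_lit 0) (nat_lit 0) (nat_lit 0) (nat_lit 0) (nat_lit 0) (nat_lit 1) (nat_lit 0) (nat_lit 1) (nat_lit 0) (nat_lit 442) (nat_lit 381) (nat_lit 257)))) (XT.nd (nat_lit 188) (nat_lit 0) (nat_lit 0) (XT.nd (nat_lit 94) (nat_lit 0) (nat_lit 0) (XT.lf (nat_lit 0) (nat_lit 643774082550) (nat_lit 0) (nat_lit 0) (nat_lit 0) (nat_lit 0) (nat_lit 0) (nat_lit 0) (nat_lit 1) (nat_lit 0) (nat_lit 1) (nat_lit 0) (nat_lit 443) (nat_lit 381) (nat_lit 256)) (XT.lf (nat_lit 0) (nat_lit 694843550852) (nat_lit 0) (nat_lit 0) (nat_lit 0) (nat_lit 0) (nat_lit 0) (nat_lit 0) (nat_lit 1) (nat_lit 0) (nat_lit 1) (nat_lit 0) (nat_lit 444) (nat_lit 381) (nat_lit 255))) (XT.nd (nat_lit 94) (nat_lit 0) (nat_lit 0) (XT.lf (nat_lit 0) (nat_lit 749998580712) (nat_lit 0) (nat_lit 0) (nat_lit 0) (nat_lit 0) (nat_lit 0) (nat_lit 0) (nat_lit 1)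 (nat_lit 0) (nat_lit 1) (nat_lit 0) (nat_lit 445) (nat_lit 381) (nat_lit 254)) (XT.lf (nat_lit 0) (nat_lit 809566016753) (nat_lit 0) (nat_lit 0) (nat_lit 0) (nat_lit 0) (nat_lit 0) (nat_lit 0) (nat_lit 1) (nat_lit 0) (nat_lit 1) (nat_lit 0) (nat_lit 446) (nat_lit 381) (nat_lit 253))))) (XT.nd (nat_lit 282) (nat_lit 0) (nat_lit 0) (XT.nd (nat_lit 94) (nat_lit 0) (nat_lit 0) (XT.lf (nat_lit 0) (nat_lit 873898851187) (nat_lit 0) (nat_lit 0) (nat_lit 0) (nat_lit 0) (nat_lit 0) (nat_lit 0) (nat_lit 1) (nat_lit 0) (nat_lit 1) (nat_lit 0) (nat_lit 447) (nat_lit 381) (nat_lit 252)) (XT.nd (nat_lit 94) (nat_lit 0) (nat_lit 0) (XT.lf (nat_lit 0) (nat_lit 943378315627) (nat_lit 0) (nat_lit 0) (nat_lit 0) (nat_lit 0) (nat_lit 0) (nat_lit 0) (nat_lit 1) (nat_lit 0) (nat_lit 1) (nat_lit 0) (nat_lit 448) (nat_lit 381) (nat_lit 251)) (XT.lf (nat_lit 0) (nat_lit 1018416140232)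 (nat_lit 0) (nat_lit 0) (nat_lit 0) (nat_lit 0) (nat_lit 0) (nat_lit 0) (nat_lit 1) (nat_lit 0) (nat_lit 1) (nat_lit 0) (nat_lit 449) (nat_lit 381) (nat_lit 250)))) (XT.nd (nat_lit 188) (nat_lit 0) (nat_lit 0) (XT.nd (nat_lit 94) (nat_lit 0) (nat_lit 0) (XT.lf (nat_lit 0) (nat_lit 1099456993592) (nat_lit 0) (nat_lit 0) (nat_lit 0) (nat_lit 0) (nat_lit 0) (nat_lit 0) (nat_lit 1) (nat_lit 0) (nat_lit 1) (nat_lit 0) (nat_lit 450) (nat_lit 381) (nat_lit 249)) (XT.lf (nat_lit 0) (nat_lit 1186981117801) (nat_lit 0) (nat_lit 0) (nat_lit 0) (nat_lit 0) (nat_lit 0) (nat_lit 0) (nat_lit 1) (nat_lit 0) (nat_lit 1) (nat_lit 0) (nat_lit 451) (nat_lit 381) (nat_lit 248))) (XT.nd (nat_lit 94) (nat_lit 0) (nat_lit 0) (XT.lf (nat_lit 0) (nat_lit 1281507174336) (nat_lit 0) (nat_lit 0) (nat_lit 0) (nat_lit 0) (nat_lit 0) (nat_lit 0) (nat_lit 1) (nat_lit 0) (nat_lit 1) (nat_lit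 0) (nat_lit 452) (nat_lit 381) (nat_lit 247)) (XT.lf (nat_lit 0) (nat_lit 1383595317606) (nat_lit 0) (nat_lit 0) (nat_lit 0) (nat_lit 0) (nat_lit 0) (nat_lit 0) (nat_lit 1) (nat_lit 0) (nat_lit 1) (nat_lit 0) (nat_lit 453) (nat_lit 381) (nat_lit 246))))))))
noncomputable def xc137 : XT := (XT.nd (nat_lit 2632) (nat_lit 0) (nat_lit 0) (XT.nd (nat_lit 1316) (nat_lit 0) (nat_lit 0) (XT.nd (nat_lit 658) (nat_lit 0) (nat_lit 0) (XT.nd (nat_lit 282) (nat_lit 0) (nat_lit 0) (XT.nd (nat_lit 94) (nat_lit 0) (nat_lit 0) (XT.lf (nat_lit 0) (nat_lit 1493850514386) (nat_lit 0) (nat_lit 0) (nat_lit 0) (nat_lit 0) (nat_lit 0) (nat_lit 0) (nat_lit 1) (nat_lit 0) (nat_lit 1) (nat_lit 0) (nat_lit 454) (nat_lit 381) (nat_lit 245)) (XT.nd (nat_lit 94) (nat_lit 0) (nat_lit 0) (XT.lf (nat_lit 0) (nat_lit 1612926128805) (nat_lit 0) (nat_lit 0) (nat_lit 0) (nat_lit 0) (nat_lit 0)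 (nat_lit 0) (nat_lit 1) (nat_lit 0) (nat_lit 1) (nat_lit 0) (nat_lit 455) (nat_lit 381) (nat_lit 244)) (XT.lf (nat_lit 0) (nat_lit 1741527794134) (nat_lit 0) (nat_lit 0) (nat_lit 0) (nat_lit 0) (nat_lit 0) (nat_lit 0) (nat_lit 1) (nat_lit 0) (nat_lit 1) (nat_lit 0) (nat_lit 456) (nat_lit 381) (nat_lit 243)))) (XT.nd (nat_lit 188) (nat_lit 0) (nat_lit 0) (XT.nd (nat_lit 94) (nat_lit 0) (nat_lit 0) (XT.lf (nat_lit 0) (nat_lit 1880417594315) (nat_lit 0) (nat_lit 0) (nat_lit 0) (nat_lit 0) (nat_lit 0) (nat_lit 0) (nat_lit 1) (nat_lit 0) (nat_lit 1) (nat_lit 0) (nat_lit 457) (nat_lit 381) (nat_lit 242)) (XT.lf (nat_lit 0) (nat_lit 2030418580017) (nat_lit 0) (nat_lit 0) (nat_lit 0) (nat_lit 0) (nat_lit 0) (nat_lit 0) (nat_lit 1) (nat_lit 0) (nat_lit 1) (nat_lit 0) (nat_lit 458) (nat_lit 381) (nat_lit 241))) (XT.nd (nat_lit 94) (nat_lit 0) (nat_lit 0) (XT.lf (nat_lit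 0) (nat_lit 2192419645968) (nat_lit 0) (nat_lit 0) (nat_lit 0) (nat_lit 0) (nat_lit 0) (nat_lit 0) (nat_lit 1) (nat_lit 0) (nat_lit 1) (nat_lit 0) (nat_lit 459) (nat_lit 381) (nat_lit 240)) (XT.lf (nat_lit 0) (nat_lit 2367380798487) (nat_lit 0) (nat_lit 0) (nat_lit 0) (nat_lit 0) (nat_lit 0) (nat_lit 0) (nat_lit 1) (nat_lit 0) (nat_lit 1) (nat_lit 0) (nat_lit 460) (nat_lit 381) (nat_lit 239))))) (XT.nd (nat_lit 282) (nat_lit 0) (nat_lit 0) (XT.nd (nat_lit 94) (nat_lit 0) (nat_lit 0) (XT.lf (nat_lit 0) (nat_lit 2556338844402) (nat_lit 0) (nat_lit 0) (nat_lit 0) (nat_lit 0) (nat_lit 0) (nat_lit 0) (nat_lit 1) (nat_lit 0) (nat_lit 1) (nat_lit 0) (nat_lit 461) (nat_lit 381) (nat_lit 238)) (XT.nd (nat_lit 94) (nat_lit 0) (nat_lit 0) (XT.lf (nat_lit 0) (nat_lit 2760413535097) (nat_lit 0) (nat_lit 0) (nat_lit 0) (nat_lit 0) (nat_lit 0) (nat_lit 0) (nat_lit 1) (nat_lit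 0) (nat_lit 1) (nat_lit 0) (nat_lit 462) (nat_lit 381) (nat_lit 237)) (XT.lf (nat_lit 0) (nat_lit 2980814202073) (nat_lit 0) (nat_lit 0) (nat_lit 0) (nat_lit 0) (nat_lit 0) (nat_lit 0) (nat_lit 1) (nat_lit 0) (nat_lit 1) (nat_lit 0) (nat_lit 463) (nat_lit 381) (nat_lit 236)))) (XT.nd (nat_lit 188) (nat_lit 0) (nat_lit 0) (XT.nd (nat_lit 94) (nat_lit 0) (nat_lit 0) (XT.lf (nat_lit 0) (nat_lit 3218846923355) (nat_lit 0) (nat_lit 0) (nat_lit 0) (nat_lit 0) (nat_lit 0) (nat_lit 0) (nat_lit 1) (nat_lit 0) (nat_lit 1) (nat_lit 0) (nat_lit 464) (nat_lit 381) (nat_lit 235)) (XT.lf (nat_lit 0) (nat_lit 3475922263218) (nat_lit 0) (nat_lit 0) (nat_lit 0) (nat_lit 0) (nat_lit 0) (nat_lit 0) (nat_lit 1) (nat_lit 0) (nat_lit 1) (nat_lit 0) (nat_lit 465) (nat_lit 381) (nat_lit 234))) (XT.nd (nat_lit 94) (nat_lit 0) (nat_lit 0) (XT.lf (nat_lit 0) (nat_lit 3753563631084) (nat_lit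 0) (nat_lit 0) (nat_lit 0) (nat_lit 0) (nat_lit 0) (nat_lit 0) (nat_lit 1) (nat_lit 0) (nat_lit 1) (nat_lit 0) (nat_lit 466) (nat_lit 381) (nat_lit 233)) (XT.lf (nat_lit 0) (nat_lit 4053416309132) (nat_lit 0) (nat_lit 0) (nat_lit 0) (nat_lit 0) (nat_lit 0) (nat_lit 0) (nat_lit 1) (nat_lit 0) (nat_lit 1) (nat_lit 0) (nat_lit 467) (nat_lit 381) (nat_lit 232)))))) (XT.nd (nat_lit 658) (nat_lit 0) (nat_lit 0) (XT.nd (nat_lit 282) (nat_lit 0) (nat_lit 0) (XT.nd (nat_lit 94) (nat_lit 0) (nat_lit 0) (XT.lf (nat_lit 0) (nat_lit 4377257202122) (nat_lit 0) (nat_lit 0) (nat_lit 0) (nat_lit 0) (nat_lit 0) (nat_lit 0) (nat_lit 1) (nat_lit 0) (nat_lit 1) (nat_lit 0) (nat_lit 468) (nat_lit 381) (nat_lit 231)) (XT.nd (nat_lit 94) (nat_lit 0) (nat_lit 0) (XT.lf (nat_lit 0) (nat_lit 4727005367196) (nat_lit 0) (nat_lit 0) (nat_lit 0) (nat_lit 0) (nat_lit 0) (nat_lit 0) (nat_lit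 1) (nat_lit 0) (nat_lit 1) (nat_lit 0) (nat_lit 469) (nat_lit 381) (nat_lit 230)) (XT.lf (nat_lit 0) (nat_lit 5104733386075) (nat_lit 0) (nat_lit 0) (nat_lit 0) (nat_lit 0) (nat_lit 0) (nat_lit 0) (nat_lit 1) (nat_lit 0) (nat_lit 1) (nat_lit 0) (nat_lit 470) (nat_lit 381) (nat_lit 229)))) (XT.nd (nat_lit 188) (nat_lit 0) (nat_lit 0) (XT.nd (nat_lit 94) (nat_lit 0) (nat_lit 0) (XT.lf (nat_lit 0) (nat_lit 5512679647017) (nat_lit 0) (nat_lit 0) (nat_lit 0) (nat_lit 0) (nat_lit 0) (nat_lit 0) (nat_lit 1) (nat_lit 0) (nat_lit 1) (nat_lit 0) (nat_lit 471) (nat_lit 381) (nat_lit 228)) (XT.lf (nat_lit 0) (nat_lit 5953261609347) (nat_lit 0) (nat_lit 0) (nat_lit 0) (nat_lit 0) (nat_lit 0) (nat_lit 0) (nat_lit 1) (nat_lit 0) (nat_lit 1) (nat_lit 0) (nat_lit 472) (nat_lit 381) (nat_lit 227))) (XT.nd (nat_lit 94) (nat_lit 0) (nat_lit 0) (XT.lf (nat_lit 0) (nat_lit 6429090129139)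 (nat_lit 0) (nat_lit 0) (nat_lit 0) (nat_lit 0) (nat_lit 0) (nat_lit 0) (nat_lit 1) (nat_lit 0) (nat_lit 1) (nat_lit 0) (nat_lit 473) (nat_lit 381) (nat_lit 226)) (XT.lf (nat_lit 0) (nat_lit 6942984930953) (nat_lit 0) (nat_lit 0) (nat_lit 0) (nat_lit 0) (nat_lit 0) (nat_lit 0) (nat_lit 1) (nat_lit 0) (nat_lit 1) (nat_lit 0) (nat_lit 474) (nat_lit 381) (nat_lit 225))))) (XT.nd (nat_lit 282) (nat_lit 0) (nat_lit 0) (XT.nd (nat_lit 94) (nat_lit 0) (nat_lit 0) (XT.lf (nat_lit 0) (nat_lit 7497991317319) (nat_lit 0) (nat_lit 0) (nat_lit 0) (nat_lit 0) (nat_lit 0) (nat_lit 0) (nat_lit 1) (nat_lit 0) (nat_lit 1) (nat_lit 0) (nat_lit 475) (nat_lit 381) (nat_lit 224)) (XT.nd (nat_lit 94) (nat_lit 0) (nat_lit 0) (XT.lf (nat_lit 0) (nat_lit 8097398214971) (nat_lit 0) (nat_lit 0) (nat_lit 0) (nat_lit 0) (nat_lit 0) (nat_lit 0) (nat_lit 1) (nat_lit 0) (nat_lit 1) (nat_lit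 0) (nat_lit 476) (nat_lit 381) (nat_lit 223)) (XT.lf (nat_lit 0) (nat_lit 8744757664784) (nat_lit 0) (nat_lit 0) (nat_lit 0) (nat_lit 0) (nat_lit 0) (nat_lit 0) (nat_lit 1) (nat_lit 0) (nat_lit 1) (nat_lit 0) (nat_lit 477) (nat_lit 381) (nat_lit 222)))) (XT.nd (nat_lit 188) (nat_lit 0) (nat_lit 0) (XT.nd (nat_lit 94) (nat_lit 0) (nat_lit 0) (XT.lf (nat_lit 0) (nat_lit 9443905870905) (nat_lit 0) (nat_lit 0) (nat_lit 0) (nat_lit 0) (nat_lit 0) (nat_lit 0) (nat_lit 1) (nat_lit 0) (nat_lit 1) (nat_lit 0) (nat_lit 478) (nat_lit 381) (nat_lit 221)) (XT.lf (nat_lit 0) (nat_lit 10198985933815) (nat_lit 0) (nat_lit 0) (nat_lit 0) (nat_lit 0) (nat_lit 0) (nat_lit 0) (nat_lit 1) (nat_lit 0) (nat_lit 1) (nat_lit 0) (nat_lit 479) (nat_lit 381) (nat_lit 220))) (XT.nd (nat_lit 94) (nat_lit 0) (nat_lit 0) (XT.lf (nat_lit 0) (nat_lit 11014472402035) (nat_lit 0) (nat_lit 0)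 (nat_lit 0) (nat_lit 0) (nat_lit 0) (nat_lit 0) (nat_lit 1) (nat_lit 0) (nat_lit 1) (nat_lit 0) (nat_lit 480) (nat_lit 381) (nat_lit 219)) (XT.lf (nat_lit 0) (nat_lit 11895197787969) (nat_lit 0) (nat_lit 0) (nat_lit 0) (nat_lit 0) (nat_lit 0) (nat_lit 0) (nat_lit 1) (nat_lit 0) (nat_lit 1) (nat_lit 0) (nat_lit 481) (nat_lit 381) (nat_lit 218))))))) (XT.nd (nat_lit 1316) (nat_lit 0) (nat_lit 0) (XT.nd (nat_lit 658) (nat_lit 0) (nat_lit 0) (XT.nd (nat_lit 282) (nat_lit 0) (nat_lit 0) (XT.nd (nat_lit 94) (nat_lit 0) (nat_lit 0) (XT.lf (nat_lit 0) (nat_lit 12846381205015) (nat_lit 0) (nat_lit 0) (nat_lit 0) (nat_lit 0) (nat_lit 0) (nat_lit 0) (nat_lit 1) (nat_lit 0) (nat_lit 1) (nat_lit 0) (nat_lit 482) (nat_lit 381) (nat_lit 217)) (XT.nd (nat_lit 94) (nat_lit 0) (nat_lit 0) (XT.lf (nat_lit 0) (nat_lit 13873659295645) (nat_lit 0) (nat_lit 0) (nat_lit 0) (nat_lit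 0) (nat_lit 0) (nat_lit 0) (nat_lit 1) (nat_lit 0) (nat_lit 1) (nat_lit 0) (nat_lit 483) (nat_lit 381) (nat_lit 216)) (XT.lf (nat_lit 0) (nat_lit 14983119633728) (nat_lit 0) (nat_lit 0) (nat_lit 0) (nat_lit 0) (nat_lit 0) (nat_lit 0) (nat_lit 1) (nat_lit 0) (nat_lit 1) (nat_lit 0) (nat_lit 484) (nat_lit 381) (nat_lit 215)))) (XT.nd (nat_lit 188) (nat_lit 0) (nat_lit 0) (XT.nd (nat_lit 94) (nat_lit 0) (nat_lit 0) (XT.lf (nat_lit 0) (nat_lit 16181336799047) (nat_lit 0) (nat_lit 0) (nat_lit 0) (nat_lit 0) (nat_lit 0) (nat_lit 0) (nat_lit 1) (nat_lit 0) (nat_lit 1) (nat_lit 0) (nat_lit 485) (nat_lit 381) (nat_lit 214)) (XT.lf (nat_lit 0) (nat_lit 17475411337765) (nat_lit 0) (nat_lit 0) (nat_lit 0) (nat_lit 0) (nat_lit 0) (nat_lit 0) (nat_lit 1) (nat_lit 0) (nat_lit 1) (nat_lit 0) (nat_lit 486) (nat_lit 381) (nat_lit 213))) (XT.nd (nat_lit 94) (nat_lit 0) (nat_lit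 0) (XT.lf (nat_lit 0) (nat_lit 18873011839743) (nat_lit 0) (nat_lit 0) (nat_lit 0) (nat_lit 0) (nat_lit 0) (nat_lit 0) (nat_lit 1) (nat_lit 0) (nat_lit 1) (nat_lit 0) (nat_lit 487) (nat_lit 381) (nat_lit 212)) (XT.lf (nat_lit 0) (nat_lit 20382420382029) (nat_lit 0) (nat_lit 0) (nat_lit 0) (nat_lit 0) (nat_lit 0) (nat_lit 0) (nat_lit 1) (nat_lit 0) (nat_lit 1) (nat_lit 0) (nat_lit 488) (nat_lit 381) (nat_lit 211))))) (XT.nd (nat_lit 282) (nat_lit 0) (nat_lit 0) (XT.nd (nat_lit 94) (nat_lit 0) (nat_lit 0) (XT.lf (nat_lit 0) (nat_lit 22012581607836) (nat_lit 0) (nat_lit 0) (nat_lit 0) (nat_lit 0) (nat_lit 0) (nat_lit 0) (nat_lit 1) (nat_lit 0) (nat_lit 1) (nat_lit 0) (nat_lit 489) (nat_lit 381) (nat_lit 210)) (XT.nd (nat_lit 94) (nat_lit 0) (nat_lit 0) (XT.lf (nat_lit 0) (nat_lit 23773155731835) (nat_lit 0) (nat_lit 0) (nat_lit 0) (nat_lit 0) (nat_lit 0) (nat_lit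 0) (nat_lit 1) (nat_lit 0) (nat_lit 1) (nat_lit 0) (nat_lit 490) (nat_lit 381) (nat_lit 209)) (XT.lf (nat_lit 0) (nat_lit 25674575785874) (nat_lit 0) (nat_lit 0) (nat_lit 0) (nat_lit 0) (nat_lit 0) (nat_lit 0) (nat_lit 1) (nat_lit 0) (nat_lit 1) (nat_lit 0) (nat_lit 491) (nat_lit 381) (nat_lit 208)))) (XT.nd (nat_lit 188) (nat_lit 0) (nat_lit 0) (XT.nd (nat_lit 94) (nat_lit 0) (nat_lit 0) (XT.lf (nat_lit 0) (nat_lit 27728109444346) (nat_lit 0) (nat_lit 0) (nat_lit 0) (nat_lit 0) (nat_lit 0) (nat_lit 0) (nat_lit 1) (nat_lit 0) (nat_lit 1) (nat_lit 0) (nat_lit 492) (nat_lit 381) (nat_lit 207)) (XT.lf (nat_lit 0) (nat_lit 29945925795597) (nat_lit 0) (nat_lit 0) (nat_lit 0) (nat_lit 0) (nat_lit 0) (nat_lit 0) (nat_lit 1) (nat_lit 0) (nat_lit 1) (nat_lit 0) (nat_lit 493) (nat_lit 381) (nat_lit 206))) (XT.nd (nat_lit 94) (nat_lit 0) (nat_lit 0) (XT.lf (nat_lit 0)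 (nat_lit 32341167455042) (nat_lit 0) (nat_lit 0) (nat_lit 0) (nat_lit 0) (nat_lit 0) (nat_lit 0) (nat_lit 1) (nat_lit 0) (nat_lit 1) (nat_lit 0) (nat_lit 494) (nat_lit 381) (nat_lit 205)) (XT.lf (nat_lit 0) (nat_lit 34928028447331) (nat_lit 0) (nat_lit 0) (nat_lit 0) (nat_lit 0) (nat_lit 0) (nat_lit 0) (nat_lit 1) (nat_lit 0) (nat_lit 1) (nat_lit 0) (nat_lit 495) (nat_lit 381) (nat_lit 204)))))) (XT.nd (nat_lit 658) (nat_lit 0) (nat_lit 0) (XT.nd (nat_lit 282) (nat_lit 0) (nat_lit 0) (XT.nd (nat_lit 94) (nat_lit 0) (nat_lit 0) (XT.lf (nat_lit 0) (nat_lit 37721838319083) (nat_lit 0) (nat_lit 0) (nat_lit 0) (nat_lit 0) (nat_lit 0) (nat_lit 0) (nat_lit 1) (nat_lit 0) (nat_lit 1) (nat_lit 0) (nat_lit 496) (nat_lit 381) (nat_lit 203)) (XT.nd (nat_lit 94) (nat_lit 0) (nat_lit 0) (XT.lf (nat_lit 0) (nat_lit 40739152980651) (nat_lit 0) (nat_lit 0) (nat_lit 0) (nat_lit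 0) (nat_lit 0) (nat_lit 0) (nat_lit 1) (nat_lit 0) (nat_lit 1) (nat_lit 0) (nat_lit 497) (nat_lit 381) (nat_lit 202)) (XT.lf (nat_lit 0) (nat_lit 43997852815213) (nat_lit 0) (nat_lit 0) (nat_lit 0) (nat_lit 0) (nat_lit 0) (nat_lit 0) (nat_lit 1) (nat_lit 0) (nat_lit 1) (nat_lit 0) (nat_lit 498) (nat_lit 381) (nat_lit 201)))) (XT.nd (nat_lit 188) (nat_lit 0) (nat_lit 0) (XT.nd (nat_lit 94) (nat_lit 0) (nat_lit 0) (XT.lf (nat_lit 0) (nat_lit 47517248636604) (nat_lit 0) (nat_lit 0) (nat_lit 0) (nat_lit 0) (nat_lit 0) (nat_lit 0) (nat_lit 1) (nat_lit 0) (nat_lit 1) (nat_lit 0) (nat_lit 499) (nat_lit 381) (nat_lit 200)) (XT.lf (nat_lit 0) (nat_lit 51318196123766) (nat_lit 0) (nat_lit 0) (nat_lit 0) (nat_lit 0) (nat_lit 0) (nat_lit 0) (nat_lit 1) (nat_lit 0) (nat_lit 1) (nat_lit 0) (nat_lit 500) (nat_lit 381) (nat_lit 199))) (XT.nd (nat_lit 94) (nat_lit 0) (nat_lit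 0) (XT.lf (nat_lit 0) (nat_lit 55423219409956) (nat_lit 0) (nat_lit 0) (nat_lit 0) (nat_lit 0) (nat_lit 0) (nat_lit 0) (nat_lit 1) (nat_lit 0) (nat_lit 1) (nat_lit 0) (nat_lit 501) (nat_lit 381) (nat_lit 198)) (XT.lf (nat_lit 0) (nat_lit 59856644559092) (nat_lit 0) (nat_lit 0) (nat_lit 0) (nat_lit 0) (nat_lit 0) (nat_lit 0) (nat_lit 1) (nat_lit 0) (nat_lit 1) (nat_lit 0) (nat_lit 502) (nat_lit 381) (nat_lit 197))))) (XT.nd (nat_lit 56588) (nat_lit 0) (nat_lit 10836) (XT.nd (nat_lit 56400) (nat_lit 0) (nat_lit 10752) (XT.nd (nat_lit 94) (nat_lit 0) (nat_lit 0) (XT.lf (nat_lit 0) (nat_lit 64644743720207) (nat_lit 0) (nat_lit 0) (nat_lit 0) (nat_lit 0) (nat_lit 0) (nat_lit 0) (nat_lit 1) (nat_lit 0) (nat_lit 1) (nat_lit 0) (nat_lit 503) (nat_lit 381) (nat_lit 196)) (XT.lf (nat_lit 0) (nat_lit 69815890814254) (nat_lit 0) (nat_lit 0) (nat_lit 0) (nat_lit 0) (nat_lit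 0) (nat_lit 0) (nat_lit 1) (nat_lit 0) (nat_lit 1) (nat_lit 0) (nat_lit 504) (nat_lit 381) (nat_lit 195))) (XT.nd (nat_lit 94) (nat_lit 0) (nat_lit 84) (XT.lf (nat_lit 0) (nat_lit 4274594178) (nat_lit 924) (nat_lit 3400137655) (nat_lit 924) (nat_lit 3400137655) (nat_lit 128) (nat_lit 3) (nat_lit 139) (nat_lit 3) (nat_lit 139) (nat_lit 5) (nat_lit 382) (nat_lit 382) (nat_lit 316)) (XT.lf (nat_lit 0) (nat_lit 9306617608) (nat_lit 840) (nat_lit 11769323179) (nat_lit 924) (nat_lit 1939014665) (nat_lit 129) (nat_lit 5) (nat_lit 139) (nat_lit 5) (nat_lit 140) (nat_lit 5) (nat_lit 383) (nat_lit 382) (nat_lit 315)))) (XT.nd (nat_lit 188) (nat_lit 0) (nat_lit 168) (XT.nd (nat_lit 94) (nat_lit 0) (nat_lit 84) (XT.lf (nat_lit 84) (nat_lit 6984886597) (nat_lit 0) (nat_lit 3607181899) (nat_lit 924) (nat_lit 13333949382) (nat_lit 130) (nat_lit 5) (nat_lit 129) (nat_lit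 5) (nat_lit 140) (nat_lit 5) (nat_lit 384) (nat_lit 382) (nat_lit 314)) (XT.lf (nat_lit 84) (nat_lit 2588195597) (nat_lit 0) (nat_lit 9859811190) (nat_lit 924) (nat_lit 12438575945) (nat_lit 131) (nat_lit 5) (nat_lit 130) (nat_lit 5) (nat_lit 141) (nat_lit 5) (nat_lit 385) (nat_lit 382) (nat_lit 313))) (XT.nd (nat_lit 94) (nat_lit 0) (nat_lit 84) (XT.lf (nat_lit 0) (nat_lit 14936313877) (nat_lit 840) (nat_lit 1844708258) (nat_lit 924) (nat_lit 9118775952) (nat_lit 131) (nat_lit 5) (nat_lit 141) (nat_lit 5) (nat_lit 142) (nat_lit 5) (nat_lit 386) (nat_lit 382) (nat_lit 312)) (XT.lf (nat_lit 0) (nat_lit 18137999631) (nat_lit 840) (nat_lit 6281492737) (nat_lit 924) (nat_lit 2548862598) (nat_lit 132) (nat_lit 5) (nat_lit 142) (nat_lit 5) (nat_lit 143) (nat_lit 5) (nat_lit 387) (nat_lit 382) (nat_lit 311))))))))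
noncomputable def xc138 : XT := (XT.nd (nat_lit 2632) (nat_lit 3360) (nat_lit 0) (XT.nd (nat_lit 1316) (nat_lit 2940) (nat_lit 0) (XT.nd (nat_lit 658) (nat_lit 2268) (nat_lit 0) (XT.nd (nat_lit 282) (nat_lit 1176) (nat_lit 0) (XT.nd (nat_lit 94) (nat_lit 1344) (nat_lit 0) (XT.lf (nat_lit 84) (nat_lit 17220964311) (nat_lit 0) (nat_lit 4943746948) (nat_lit 924) (nat_lit 5929240586) (nat_lit 133) (nat_lit 5) (nat_lit 132) (nat_lit 5) (nat_lit 143) (nat_lit 5) (nat_lit 388) (nat_lit 382) (nat_lit 310)) (XT.nd (nat_lit 94) (nat_lit 588) (nat_lit 0) (XT.lf (nat_lit 0) (nat_lit 13696175554) (nat_lit 840) (nat_lit 13379050770) (nat_lit 924) (nat_lit 2206286825) (nat_lit 123) (nat_lit 5) (nat_lit 133) (nat_lit 5) (nat_lit 134) (nat_lit 5) (nat_lit 389) (nat_lit 382) (nat_lit 309)) (XT.lf (nat_lit 0) (nat_lit 2304891902) (nat_lit 588) (nat_lit 20402395989) (nat_lit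 84) (nat_lit 7827951786) (nat_lit 116) (nat_lit 5) (nat_lit 123) (nat_lit 5) (nat_lit 117) (nat_lit 5) (nat_lit 390) (nat_lit 382) (nat_lit 308)))) (XT.nd (nat_lit 188) (nat_lit 336) (nat_lit 0) (XT.nd (nat_lit 94) (nat_lit 420) (nat_lit 0) (XT.lf (nat_lit 0) (nat_lit 6517707849) (nat_lit 420) (nat_lit 1173205512) (nat_lit 504) (nat_lit 24166980237) (nat_lit 111) (nat_lit 5) (nat_lit 116) (nat_lit 5) (nat_lit 117) (nat_lit 5) (nat_lit 391) (nat_lit 382) (nat_lit 307)) (XT.lf (nat_lit 0) (nat_lit 2776611363) (nat_lit 420) (nat_lit 11468259098) (nat_lit 504) (nat_lit 19004636676) (nat_lit 106) (nat_lit 5) (nat_lit 111) (nat_lit 5) (nat_lit 112) (nat_lit 5) (nat_lit 392) (nat_lit 382) (nat_lit 306))) (XT.nd (nat_lit 94) (nat_lit 336) (nat_lit 0) (XT.lf (nat_lit 0) (nat_lit 21963564295) (nat_lit 504) (nat_lit 906387496) (nat_lit 84) (nat_lit 11850476959) (nat_lit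 106) (nat_lit 5) (nat_lit 112) (nat_lit 5) (nat_lit 107) (nat_lit 5) (nat_lit 393) (nat_lit 382) (nat_lit 305)) (XT.lf (nat_lit 0) (nat_lit 30992902456) (nat_lit 420) (nat_lit 4449414807) (nat_lit 84) (nat_lit 832049387) (nat_lit 102) (nat_lit 5) (nat_lit 107) (nat_lit 5) (nat_lit 103) (nat_lit 5) (nat_lit 394) (nat_lit 382) (nat_lit 304))))) (XT.nd (nat_lit 282) (nat_lit 1176) (nat_lit 0) (XT.nd (nat_lit 94) (nat_lit 672) (nat_lit 0) (XT.lf (nat_lit 0) (nat_lit 3573624827) (nat_lit 420) (nat_lit 8155837313) (nat_lit 84) (nat_lit 26177427062) (nat_lit 97) (nat_lit 5) (nat_lit 102) (nat_lit 5) (nat_lit 98) (nat_lit 5) (nat_lit 395) (nat_lit 382) (nat_lit 303)) (XT.nd (nat_lit 94) (nat_lit 336) (nat_lit 0) (XT.lf (nat_lit 0) (nat_lit 13686934284) (nat_lit 420) (nat_lit 11893386768) (nat_lit 84) (nat_lit 14048620934) (nat_lit 93) (nat_lit 5) (nat_lit 98) (nat_lit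 5) (nat_lit 94) (nat_lit 5) (nat_lit 396) (nat_lit 382) (nat_lit 302)) (XT.lf (nat_lit 0) (nat_lit 25356073113) (nat_lit 420) (nat_lit 15535126529) (nat_lit 84) (nat_lit 560221120) (nat_lit 89) (nat_lit 5) (nat_lit 94) (nat_lit 5) (nat_lit 90) (nat_lit 5) (nat_lit 397) (nat_lit 382) (nat_lit 301)))) (XT.nd (nat_lit 188) (nat_lit 504) (nat_lit 0) (XT.nd (nat_lit 94) (nat_lit 420) (nat_lit 0) (XT.lf (nat_lit 0) (nat_lit 24090820999) (nat_lit 252) (nat_lit 14877194368) (nat_lit 336) (nat_lit 4401218855) (nat_lit 86) (nat_lit 5) (nat_lit 89) (nat_lit 5) (nat_lit 90) (nat_lit 5) (nat_lit 398) (nat_lit 382) (nat_lit 300)) (XT.lf (nat_lit 0) (nat_lit 8803178474) (nat_lit 420) (nat_lit 23028317706) (nat_lit 84) (nat_lit 13560648145) (nat_lit 81) (nat_lit 5) (nat_lit 86) (nat_lit 5) (nat_lit 82) (nat_lit 5) (nat_lit 399) (nat_lit 382) (nat_lit 299))) (XT.nd (nat_lit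 94) (nat_lit 252) (nat_lit 0) (XT.lf (nat_lit 0) (nat_lit 20789331406) (nat_lit 252) (nat_lit 3031210559) (nat_lit 336) (nat_lit 23707197131) (nat_lit 78) (nat_lit 5) (nat_lit 81) (nat_lit 5) (nat_lit 82) (nat_lit 5) (nat_lit 400) (nat_lit 382) (nat_lit 298)) (XT.lf (nat_lit 0) (nat_lit 19281764844) (nat_lit 252) (nat_lit 21896952755) (nat_lit 336) (nat_lit 8598492697) (nat_lit 75) (nat_lit 5) (nat_lit 78) (nat_lit 5) (nat_lit 79) (nat_lit 5) (nat_lit 401) (nat_lit 382) (nat_lit 297)))))) (XT.nd (nat_lit 658) (nat_lit 1260) (nat_lit 0) (XT.nd (nat_lit 282) (nat_lit 924) (nat_lit 0) (XT.nd (nat_lit 94) (nat_lit 420) (nat_lit 0) (XT.lf (nat_lit 0) (nat_lit 8426471061) (nat_lit 336) (nat_lit 34169065674) (nat_lit 84) (nat_lit 9557345956) (nat_lit 71) (nat_lit 5) (nat_lit 75) (nat_lit 5) (nat_lit 72) (nat_lit 5) (nat_lit 402) (nat_lit 382) (nat_lit 296)) (XT.nd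 (nat_lit 94) (nat_lit 168) (nat_lit 0) (XT.lf (nat_lit 0) (nat_lit 16740557748) (nat_lit 252) (nat_lit 10939137968) (nat_lit 336) (nat_lit 26973489561) (nat_lit 68) (nat_lit 5) (nat_lit 71) (nat_lit 5) (nat_lit 72) (nat_lit 5) (nat_lit 403) (nat_lit 382) (nat_lit 295)) (XT.lf (nat_lit 0) (nat_lit 15739893363) (nat_lit 168) (nat_lit 33940265347) (nat_lit 252) (nat_lit 7613004344) (nat_lit 66) (nat_lit 5) (nat_lit 68) (nat_lit 5) (nat_lit 69) (nat_lit 5) (nat_lit 404) (nat_lit 382) (nat_lit 294)))) (XT.nd (nat_lit 188) (nat_lit 420) (nat_lit 0) (XT.nd (nat_lit 94) (nat_lit 168) (nat_lit 0) (XT.lf (nat_lit 0) (nat_lit 13970298594) (nat_lit 336) (nat_lit 45102111474) (nat_lit 84) (nat_lit 1006572134) (nat_lit 62) (nat_lit 5) (nat_lit 66) (nat_lit 5) (nat_lit 63) (nat_lit 5) (nat_lit 405) (nat_lit 382) (nat_lit 293)) (XT.lf (nat_lit 0) (nat_lit 14193492484) (nat_lit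 168) (nat_lit 24346997022) (nat_lit 252) (nat_lit 24464589893) (nat_lit 60) (nat_lit 5) (nat_lit 62) (nat_lit 5) (nat_lit 63) (nat_lit 5) (nat_lit 406) (nat_lit 382) (nat_lit 292))) (XT.nd (nat_lit 94) (nat_lit 168) (nat_lit 0) (XT.lf (nat_lit 0) (nat_lit 181358083) (nat_lit 252) (nat_lit 52172200823) (nat_lit 84) (nat_lit 13750781910) (nat_lit 57) (nat_lit 5) (nat_lit 60) (nat_lit 5) (nat_lit 58) (nat_lit 5) (nat_lit 407) (nat_lit 382) (nat_lit 291)) (XT.lf (nat_lit 0) (nat_lit 13618651274) (nat_lit 168) (nat_lit 13816276110) (nat_lit 252) (nat_lit 41921909542) (nat_lit 55) (nat_lit 5) (nat_lit 57) (nat_lit 5) (nat_lit 58) (nat_lit 5) (nat_lit 408) (nat_lit 382) (nat_lit 290))))) (XT.nd (nat_lit 282) (nat_lit 672) (nat_lit 0) (XT.nd (nat_lit 94) (nat_lit 420) (nat_lit 0) (XT.lf (nat_lit 0) (nat_lit 13691531379) (nat_lit 168) (nat_lit 44743282877) (nat_lit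 252) (nat_lit 14356416867) (nat_lit 53) (nat_lit 5) (nat_lit 55) (nat_lit 5) (nat_lit 56) (nat_lit 5) (nat_lit 409) (nat_lit 382) (nat_lit 289)) (XT.nd (nat_lit 94) (nat_lit 168) (nat_lit 0) (XT.lf (nat_lit 0) (nat_lit 14168951883) (nat_lit 168) (nat_lit 2187682773) (nat_lit 252) (nat_lit 60059925479) (nat_lit 50) (nat_lit 5) (nat_lit 52) (nat_lit 5) (nat_lit 53) (nat_lit 5) (nat_lit 410) (nat_lit 382) (nat_lit 288)) (XT.lf (nat_lit 0) (nat_lit 14646520655) (nat_lit 168) (nat_lit 36337243495) (nat_lit 252) (nat_lit 29238383124) (nat_lit 48) (nat_lit 5) (nat_lit 50) (nat_lit 5) (nat_lit 51) (nat_lit 5) (nat_lit 411) (nat_lit 382) (nat_lit 287)))) (XT.nd (nat_lit 188) (nat_lit 336) (nat_lit 0) (XT.nd (nat_lit 94) (nat_lit 168) (nat_lit 0) (XT.lf (nat_lit 0) (nat_lit 5470822034) (nat_lit 168) (nat_lit 68403914176) (nat_lit 84) (nat_lit 10376708007) (nat_lit 46)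 (nat_lit 5) (nat_lit 48) (nat_lit 5) (nat_lit 47) (nat_lit 5) (nat_lit 412) (nat_lit 382) (nat_lit 286)) (XT.lf (nat_lit 0) (nat_lit 16991064780) (nat_lit 168) (nat_lit 26989223690) (nat_lit 252) (nat_lit 44496435789) (nat_lit 44) (nat_lit 5) (nat_lit 46) (nat_lit 5) (nat_lit 47) (nat_lit 5) (nat_lit 413) (nat_lit 382) (nat_lit 285))) (XT.nd (nat_lit 94) (nat_lit 252) (nat_lit 0) (XT.lf (nat_lit 0) (nat_lit 18887296529) (nat_lit 84) (nat_lit 68553753460) (nat_lit 168) (nat_lit 5505449825) (nat_lit 43) (nat_lit 5) (nat_lit 44) (nat_lit 5) (nat_lit 45) (nat_lit 4) (nat_lit 414) (nat_lit 382) (nat_lit 284)) (XT.lf (nat_lit 0) (nat_lit 20946493735) (nat_lit 168) (nat_lit 16530023687) (nat_lit 252) (nat_lit 60166600551) (nat_lit 40) (nat_lit 5) (nat_lit 42) (nat_lit 5) (nat_lit 43) (nat_lit 5) (nat_lit 415) (nat_lit 382) (nat_lit 283))))))) (XT.nd (nat_lit 1316)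 (nat_lit 1344) (nat_lit 0) (XT.nd (nat_lit 658) (nat_lit 924) (nat_lit 0) (XT.nd (nat_lit 282) (nat_lit 672) (nat_lit 0) (XT.nd (nat_lit 94) (nat_lit 336) (nat_lit 0) (XT.lf (nat_lit 0) (nat_lit 23559295435) (nat_lit 84) (nat_lit 62441286899) (nat_lit 168) (nat_lit 16595549366) (nat_lit 39) (nat_lit 5) (nat_lit 40) (nat_lit 5) (nat_lit 41) (nat_lit 4) (nat_lit 416) (nat_lit 382) (nat_lit 282)) (XT.nd (nat_lit 94) (nat_lit 84) (nat_lit 0) (XT.lf (nat_lit 0) (nat_lit 26768726844) (nat_lit 168) (nat_lit 4767885726) (nat_lit 252) (nat_lit 76282475989) (nat_lit 36) (nat_lit 5) (nat_lit 38) (nat_lit 5) (nat_lit 39) (nat_lit 5) (nat_lit 417) (nat_lit 382) (nat_lit 281)) (XT.lf (nat_lit 0) (nat_lit 30229616402) (nat_lit 84) (nat_lit 55481373541) (nat_lit 168) (nat_lit 27596635629) (nat_lit 35) (nat_lit 5) (nat_lit 36) (nat_lit 5) (nat_lit 37) (nat_lit 4) (nat_lit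 418) (nat_lit 382) (nat_lit 280)))) (XT.nd (nat_lit 188) (nat_lit 336) (nat_lit 0) (XT.nd (nat_lit 94) (nat_lit 84) (nat_lit 0) (XT.lf (nat_lit 0) (nat_lit 26371409308) (nat_lit 252) (nat_lit 84493005710) (nat_lit 84) (nat_lit 8241977776) (nat_lit 32) (nat_lit 5) (nat_lit 35) (nat_lit 5) (nat_lit 33) (nat_lit 4) (nat_lit 419) (nat_lit 382) (nat_lit 279)) (XT.lf (nat_lit 0) (nat_lit 39213414313) (nat_lit 84) (nat_lit 47504397480) (nat_lit 168) (nat_lit 38477241126) (nat_lit 31) (nat_lit 5) (nat_lit 32) (nat_lit 5) (nat_lit 33) (nat_lit 4) (nat_lit 420) (nat_lit 382) (nat_lit 278))) (XT.nd (nat_lit 94) (nat_lit 84) (nat_lit 0) (XT.lf (nat_lit 0) (nat_lit 22043575370) (nat_lit 252) (nat_lit 86774032856) (nat_lit 84) (nat_lit 22809167459) (nat_lit 28) (nat_lit 5) (nat_lit 31) (nat_lit 5) (nat_lit 29) (nat_lit 4) (nat_lit 421) (nat_lit 382) (nat_lit 277)) (XT.lf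 (nat_lit 0) (nat_lit 50873198832) (nat_lit 84) (nat_lit 38316843331) (nat_lit 168) (nat_lit 49194853383) (nat_lit 27) (nat_lit 5) (nat_lit 28) (nat_lit 5) (nat_lit 29) (nat_lit 4) (nat_lit 422) (nat_lit 382) (nat_lit 276))))) (XT.nd (nat_lit 282) (nat_lit 504) (nat_lit 0) (XT.nd (nat_lit 94) (nat_lit 252) (nat_lit 0) (XT.lf (nat_lit 0) (nat_lit 18594504805) (nat_lit 168) (nat_lit 87566206817) (nat_lit 84) (nat_lit 39356302484) (nat_lit 25) (nat_lit 5) (nat_lit 27) (nat_lit 5) (nat_lit 26) (nat_lit 4) (nat_lit 423) (nat_lit 382) (nat_lit 275)) (XT.nd (nat_lit 94) (nat_lit 168) (nat_lit 0) (XT.lf (nat_lit 0) (nat_lit 65625211789) (nat_lit 84) (nat_lit 27698019237) (nat_lit 168) (nat_lit 59694159102) (nat_lit 24) (nat_lit 5) (nat_lit 25) (nat_lit 5) (nat_lit 26) (nat_lit 4) (nat_lit 424) (nat_lit 382) (nat_lit 274)) (XT.lf (nat_lit 0) (nat_lit 16161021291) (nat_lit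 168) (nat_lit 86574381579) (nat_lit 84) (nat_lit 58189221303) (nat_lit 22) (nat_lit 5) (nat_lit 24) (nat_lit 5) (nat_lit 23) (nat_lit 4) (nat_lit 425) (nat_lit 382) (nat_lit 273)))) (XT.nd (nat_lit 188) (nat_lit 252) (nat_lit 0) (XT.nd (nat_lit 94) (nat_lit 168) (nat_lit 0) (XT.lf (nat_lit 0) (nat_lit 83946636041) (nat_lit 84) (nat_lit 15396353312) (nat_lit 168) (nat_lit 69905029660) (nat_lit 21) (nat_lit 5) (nat_lit 22) (nat_lit 5) (nat_lit 23) (nat_lit 4) (nat_lit 426) (nat_lit 382) (nat_lit 272)) (XT.lf (nat_lit 0) (nat_lit 14903872601) (nat_lit 168) (nat_lit 83455022732) (nat_lit 84) (nat_lit 79654255024) (nat_lit 19) (nat_lit 5) (nat_lit 21) (nat_lit 5) (nat_lit 20) (nat_lit 4) (nat_lit 427) (nat_lit 382) (nat_lit 271))) (XT.nd (nat_lit 94) (nat_lit 168) (nat_lit 0) (XT.lf (nat_lit 0) (nat_lit 106383739994) (nat_lit 84) (nat_lit 1125210440) (nat_lit 168)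 (nat_lit 79740212812) (nat_lit 18) (nat_lit 5) (nat_lit 19) (nat_lit 5) (nat_lit 20) (nat_lit 4) (nat_lit 428) (nat_lit 382) (nat_lit 270)) (XT.lf (nat_lit 0) (nat_lit 15011062120) (nat_lit 168) (nat_lit 77809354311) (nat_lit 84) (nat_lit 104143486549) (nat_lit 16) (nat_lit 5) (nat_lit 18) (nat_lit 5) (nat_lit 17) (nat_lit 4) (nat_lit 429) (nat_lit 382) (nat_lit 269)))))) (XT.nd (nat_lit 658) (nat_lit 504) (nat_lit 0) (XT.nd (nat_lit 282) (nat_lit 504) (nat_lit 0) (XT.nd (nat_lit 94) (nat_lit 252) (nat_lit 0) (XT.lf (nat_lit 0) (nat_lit 118360334676) (nat_lit 168) (nat_lit 73891950848) (nat_lit 0) (nat_lit 14947595326) (nat_lit 15) (nat_lit 5) (nat_lit 17) (nat_lit 4) (nat_lit 15) (nat_lit 4) (nat_lit 430) (nat_lit 382) (nat_lit 268)) (XT.nd (nat_lit 94) (nat_lit 84) (nat_lit 0) (XT.lf (nat_lit 0) (nat_lit 16701628556) (nat_lit 168) (nat_lit 69175586575) (nat_lit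 84) (nat_lit 132100669538) (nat_lit 13) (nat_lit 5) (nat_lit 15) (nat_lit 5) (nat_lit 14) (nat_lit 4) (nat_lit 431) (nat_lit 382) (nat_lit 267)) (XT.lf (nat_lit 0) (nat_lit 132056944788) (nat_lit 168) (nat_lit 63697750437) (nat_lit 0) (nat_lit 33566446645) (nat_lit 12) (nat_lit 5) (nat_lit 14) (nat_lit 4) (nat_lit 12) (nat_lit 4) (nat_lit 432) (nat_lit 382) (nat_lit 266)))) (XT.nd (nat_lit 188) (nat_lit 252) (nat_lit 0) (XT.nd (nat_lit 94) (nat_lit 84) (nat_lit 0) (XT.lf (nat_lit 0) (nat_lit 20229931362) (nat_lit 168) (nat_lit 57020107043) (nat_lit 84) (nat_lit 164027887849) (nat_lit 10) (nat_lit 5) (nat_lit 12) (nat_lit 5) (nat_lit 11) (nat_lit 4) (nat_lit 433) (nat_lit 382) (nat_lit 265)) (XT.lf (nat_lit 0) (nat_lit 148978741922) (nat_lit 168) (nat_lit 49693154315) (nat_lit 0) (nat_lit 55176491624) (nat_lit 9) (nat_lit 5) (nat_lit 11) (nat_lit 4) (nat_lit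 9) (nat_lit 4) (nat_lit 434) (nat_lit 382) (nat_lit 264))) (XT.nd (nat_lit 94) (nat_lit 84) (nat_lit 0) (XT.lf (nat_lit 0) (nat_lit 25890506569) (nat_lit 168) (nat_lit 40727502374) (nat_lit 84) (nat_lit 200493045980) (nat_lit 7) (nat_lit 5) (nat_lit 9) (nat_lit 5) (nat_lit 8) (nat_lit 4) (nat_lit 435) (nat_lit 382) (nat_lit 263)) (XT.lf (nat_lit 0) (nat_lit 169579842071) (nat_lit 168) (nat_lit 31218894365) (nat_lit 0) (nat_lit 80242915570) (nat_lit 6) (nat_lit 5) (nat_lit 8) (nat_lit 4) (nat_lit 6) (nat_lit 4) (nat_lit 436) (nat_lit 382) (nat_lit 262))))) (XT.nd (nat_lit 376) (nat_lit 0) (nat_lit 0) (XT.nd (nat_lit 188) (nat_lit 252) (nat_lit 0) (XT.nd (nat_lit 94) (nat_lit 84) (nat_lit 0) (XT.lf (nat_lit 0) (nat_lit 34023565780) (nat_lit 168) (nat_lit 19589262141) (nat_lit 84) (nat_lit 242138291958) (nat_lit 4) (nat_lit 5) (nat_lit 6) (nat_lit 5) (nat_lit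 5) (nat_lit 4) (nat_lit 437) (nat_lit 382) (nat_lit 261)) (XT.lf (nat_lit 0) (nat_lit 194378321386) (nat_lit 168) (nat_lit 7516529944) (nat_lit 0) (nat_lit 109294350276) (nat_lit 3) (nat_lit 5) (nat_lit 5) (nat_lit 4) (nat_lit 3) (nat_lit 4) (nat_lit 438) (nat_lit 382) (nat_lit 260))) (XT.nd (nat_lit 94) (nat_lit 0) (nat_lit 0) (XT.lf (nat_lit 0) (nat_lit 475057934061) (nat_lit 0) (nat_lit 0) (nat_lit 0) (nat_lit 0) (nat_lit 0) (nat_lit 0) (nat_lit 1) (nat_lit 0) (nat_lit 1) (nat_lit 0) (nat_lit 439) (nat_lit 382) (nat_lit 259)) (XT.lf (nat_lit 0) (nat_lit 512595503884) (nat_lit 0) (nat_lit 0) (nat_lit 0) (nat_lit 0) (nat_lit 0) (nat_lit 0) (nat_lit 1) (nat_lit 0) (nat_lit 1) (nat_lit 0) (nat_lit 440) (nat_lit 382) (nat_lit 258)))) (XT.nd (nat_lit 188) (nat_lit 0) (nat_lit 0) (XT.nd (nat_lit 94) (nat_lit 0) (nat_lit 0) (XT.lf (nat_lit 0) (nat_lit 553136084453)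 (nat_lit 0) (nat_lit 0) (nat_lit 0) (nat_lit 0) (nat_lit 0) (nat_lit 0) (nat_lit 1) (nat_lit 0) (nat_lit 1) (nat_lit 0) (nat_lit 441) (nat_lit 382) (nat_lit 257)) (XT.lf (nat_lit 0) (nat_lit 596919916242) (nat_lit 0) (nat_lit 0) (nat_lit 0) (nat_lit 0) (nat_lit 0) (nat_lit 0) (nat_lit 1) (nat_lit 0) (nat_lit 1) (nat_lit 0) (nat_lit 442) (nat_lit 382) (nat_lit 256))) (XT.nd (nat_lit 94) (nat_lit 0) (nat_lit 0) (XT.lf (nat_lit 0) (nat_lit 644206458997) (nat_lit 0) (nat_lit 0) (nat_lit 0) (nat_lit 0) (nat_lit 0) (nat_lit 0) (nat_lit 1) (nat_lit 0) (nat_lit 1) (nat_lit 0) (nat_lit 443) (nat_lit 382) (nat_lit 255)) (XT.lf (nat_lit 0) (nat_lit 695275929267) (nat_lit 0) (nat_lit 0) (nat_lit 0) (nat_lit 0) (nat_lit 0) (nat_lit 0) (nat_lit 1) (nat_lit 0) (nat_lit 1) (nat_lit 0) (nat_lit 444) (nat_lit 382) (nat_lit 254))))))))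
noncomputable def xc139 : XT := (XT.nd (nat_lit 2632) (nat_lit 0) (nat_lit 0) (XT.nd (nat_lit 1316) (nat_lit 0) (nat_lit 0) (XT.nd (nat_lit 658) (nat_lit 0) (nat_lit 0) (XT.nd (nat_lit 282) (nat_lit 0) (nat_lit 0) (XT.nd (nat_lit 94) (nat_lit 0) (nat_lit 0) (XT.lf (nat_lit 0) (nat_lit 750430960951) (nat_lit 0) (nat_lit 0) (nat_lit 0) (nat_lit 0) (nat_lit 0) (nat_lit 0) (nat_lit 1) (nat_lit 0) (nat_lit 1) (nat_lit 0) (nat_lit 445) (nat_lit 382) (nat_lit 253)) (XT.nd (nat_lit 94) (nat_lit 0) (nat_lit 0) (XT.lf (nat_lit 0) (nat_lit 809998398679) (nat_lit 0) (nat_lit 0) (nat_lit 0) (nat_lit 0) (nat_lit 0) (nat_lit 0) (nat_lit 1) (nat_lit 0) (nat_lit 1) (nat_lit 0) (nat_lit 446) (nat_lit 382) (nat_lit 252)) (XT.lf (nat_lit 0) (nat_lit 874331234676) (nat_lit 0) (nat_lit 0) (nat_lit 0) (nat_lit 0) (nat_lit 0) (nat_lit 0) (nat_lit 1) (nat_lit 0) (nat_lit 1) (nat_lit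 0) (nat_lit 447) (nat_lit 382) (nat_lit 251)))) (XT.nd (nat_lit 188) (nat_lit 0) (nat_lit 0) (XT.nd (nat_lit 94) (nat_lit 0) (nat_lit 0) (XT.lf (nat_lit 0) (nat_lit 943810700563) (nat_lit 0) (nat_lit 0) (nat_lit 0) (nat_lit 0) (nat_lit 0) (nat_lit 0) (nat_lit 1) (nat_lit 0) (nat_lit 1) (nat_lit 0) (nat_lit 448) (nat_lit 382) (nat_lit 250)) (XT.lf (nat_lit 0) (nat_lit 1018848526508) (nat_lit 0) (nat_lit 0) (nat_lit 0) (nat_lit 0) (nat_lit 0) (nat_lit 0) (nat_lit 1) (nat_lit 0) (nat_lit 1) (nat_lit 0) (nat_lit 449) (nat_lit 382) (nat_lit 249))) (XT.nd (nat_lit 94) (nat_lit 0) (nat_lit 0) (XT.lf (nat_lit 0) (nat_lit 1099889381108) (nat_lit 0) (nat_lit 0) (nat_lit 0) (nat_lit 0) (nat_lit 0) (nat_lit 0) (nat_lit 1) (nat_lit 0) (nat_lit 1) (nat_lit 0) (nat_lit 450) (nat_lit 382) (nat_lit 248)) (XT.lf (nat_lit 0) (nat_lit 1187413506466) (nat_lit 0) (nat_lit 0) (nat_lit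 0) (nat_lit 0) (nat_lit 0) (nat_lit 0) (nat_lit 1) (nat_lit 0) (nat_lit 1) (nat_lit 0) (nat_lit 451) (nat_lit 382) (nat_lit 247))))) (XT.nd (nat_lit 282) (nat_lit 0) (nat_lit 0) (XT.nd (nat_lit 94) (nat_lit 0) (nat_lit 0) (XT.lf (nat_lit 0) (nat_lit 1281939564065) (nat_lit 0) (nat_lit 0) (nat_lit 0) (nat_lit 0) (nat_lit 0) (nat_lit 0) (nat_lit 1) (nat_lit 0) (nat_lit 1) (nat_lit 0) (nat_lit 452) (nat_lit 382) (nat_lit 246)) (XT.nd (nat_lit 94) (nat_lit 0) (nat_lit 0) (XT.lf (nat_lit 0) (nat_lit 1384027708320) (nat_lit 0) (nat_lit 0) (nat_lit 0) (nat_lit 0) (nat_lit 0) (nat_lit 0) (nat_lit 1) (nat_lit 0) (nat_lit 1) (nat_lit 0) (nat_lit 453) (nat_lit 382) (nat_lit 245)) (XT.lf (nat_lit 0) (nat_lit 1494282906012) (nat_lit 0) (nat_lit 0) (nat_lit 0) (nat_lit 0) (nat_lit 0) (nat_lit 0) (nat_lit 1) (nat_lit 0) (nat_lit 1) (nat_lit 0) (nat_lit 454) (nat_lit 382)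 (nat_lit 244)))) (XT.nd (nat_lit 188) (nat_lit 0) (nat_lit 0) (XT.nd (nat_lit 94) (nat_lit 0) (nat_lit 0) (XT.lf (nat_lit 0) (nat_lit 1613358521275) (nat_lit 0) (nat_lit 0) (nat_lit 0) (nat_lit 0) (nat_lit 0) (nat_lit 0) (nat_lit 1) (nat_lit 0) (nat_lit 1) (nat_lit 0) (nat_lit 455) (nat_lit 382) (nat_lit 243)) (XT.lf (nat_lit 0) (nat_lit 1741960187386) (nat_lit 0) (nat_lit 0) (nat_lit 0) (nat_lit 0) (nat_lit 0) (nat_lit 0) (nat_lit 1) (nat_lit 0) (nat_lit 1) (nat_lit 0) (nat_lit 456) (nat_lit 382) (nat_lit 242))) (XT.nd (nat_lit 94) (nat_lit 0) (nat_lit 0) (XT.lf (nat_lit 0) (nat_lit 1880849988291) (nat_lit 0) (nat_lit 0) (nat_lit 0) (nat_lit 0) (nat_lit 0) (nat_lit 0) (nat_lit 1) (nat_lit 0) (nat_lit 1) (nat_lit 0) (nat_lit 457) (nat_lit 382) (nat_lit 241)) (XT.lf (nat_lit 0) (nat_lit 2030850974662) (nat_lit 0) (nat_lit 0) (nat_lit 0) (nat_lit 0) (nat_lit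 0) (nat_lit 0) (nat_lit 1) (nat_lit 0) (nat_lit 1) (nat_lit 0) (nat_lit 458) (nat_lit 382) (nat_lit 240)))))) (XT.nd (nat_lit 658) (nat_lit 0) (nat_lit 0) (XT.nd (nat_lit 282) (nat_lit 0) (nat_lit 0) (XT.nd (nat_lit 94) (nat_lit 0) (nat_lit 0) (XT.lf (nat_lit 0) (nat_lit 2192852041235) (nat_lit 0) (nat_lit 0) (nat_lit 0) (nat_lit 0) (nat_lit 0) (nat_lit 0) (nat_lit 1) (nat_lit 0) (nat_lit 1) (nat_lit 0) (nat_lit 459) (nat_lit 382) (nat_lit 239)) (XT.nd (nat_lit 94) (nat_lit 0) (nat_lit 0) (XT.lf (nat_lit 0) (nat_lit 2367813194328) (nat_lit 0) (nat_lit 0) (nat_lit 0) (nat_lit 0) (nat_lit 0) (nat_lit 0) (nat_lit 1) (nat_lit 0) (nat_lit 1) (nat_lit 0) (nat_lit 460) (nat_lit 382) (nat_lit 238)) (XT.lf (nat_lit 0) (nat_lit 2556771240775) (nat_lit 0) (nat_lit 0) (nat_lit 0) (nat_lit 0) (nat_lit 0) (nat_lit 0) (nat_lit 1) (nat_lit 0) (nat_lit 1) (nat_lit 0) (nat_lit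 461) (nat_lit 382) (nat_lit 237)))) (XT.nd (nat_lit 188) (nat_lit 0) (nat_lit 0) (XT.nd (nat_lit 94) (nat_lit 0) (nat_lit 0) (XT.lf (nat_lit 0) (nat_lit 2760845931963) (nat_lit 0) (nat_lit 0) (nat_lit 0) (nat_lit 0) (nat_lit 0) (nat_lit 0) (nat_lit 1) (nat_lit 0) (nat_lit 1) (nat_lit 0) (nat_lit 462) (nat_lit 382) (nat_lit 236)) (XT.lf (nat_lit 0) (nat_lit 2981246599394) (nat_lit 0) (nat_lit 0) (nat_lit 0) (nat_lit 0) (nat_lit 0) (nat_lit 0) (nat_lit 1) (nat_lit 0) (nat_lit 1) (nat_lit 0) (nat_lit 463) (nat_lit 382) (nat_lit 235))) (XT.nd (nat_lit 94) (nat_lit 0) (nat_lit 0) (XT.lf (nat_lit 0) (nat_lit 3219279321099) (nat_lit 0) (nat_lit 0) (nat_lit 0) (nat_lit 0) (nat_lit 0) (nat_lit 0) (nat_lit 1) (nat_lit 0) (nat_lit 1) (nat_lit 0) (nat_lit 464) (nat_lit 382) (nat_lit 234)) (XT.lf (nat_lit 0) (nat_lit 3476354661353) (nat_lit 0) (nat_lit 0) (nat_lit 0) (nat_lit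 0) (nat_lit 0) (nat_lit 0) (nat_lit 1) (nat_lit 0) (nat_lit 1) (nat_lit 0) (nat_lit 465) (nat_lit 382) (nat_lit 233))))) (XT.nd (nat_lit 282) (nat_lit 0) (nat_lit 0) (XT.nd (nat_lit 94) (nat_lit 0) (nat_lit 0) (XT.lf (nat_lit 0) (nat_lit 3753996029581) (nat_lit 0) (nat_lit 0) (nat_lit 0) (nat_lit 0) (nat_lit 0) (nat_lit 0) (nat_lit 1) (nat_lit 0) (nat_lit 1) (nat_lit 0) (nat_lit 466) (nat_lit 382) (nat_lit 232)) (XT.nd (nat_lit 94) (nat_lit 0) (nat_lit 0) (XT.lf (nat_lit 0) (nat_lit 4053848707965) (nat_lit 0) (nat_lit 0) (nat_lit 0) (nat_lit 0) (nat_lit 0) (nat_lit 0) (nat_lit 1) (nat_lit 0) (nat_lit 1) (nat_lit 0) (nat_lit 467) (nat_lit 382) (nat_lit 231)) (XT.lf (nat_lit 0) (nat_lit 4377689601265) (nat_lit 0) (nat_lit 0) (nat_lit 0) (nat_lit 0) (nat_lit 0) (nat_lit 0) (nat_lit 1) (nat_lit 0) (nat_lit 1) (nat_lit 0) (nat_lit 468) (nat_lit 382) (nat_lit 230))))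 (XT.nd (nat_lit 188) (nat_lit 0) (nat_lit 0) (XT.nd (nat_lit 94) (nat_lit 0) (nat_lit 0) (XT.lf (nat_lit 0) (nat_lit 4727437766627) (nat_lit 0) (nat_lit 0) (nat_lit 0) (nat_lit 0) (nat_lit 0) (nat_lit 0) (nat_lit 1) (nat_lit 0) (nat_lit 1) (nat_lit 0) (nat_lit 469) (nat_lit 382) (nat_lit 229)) (XT.lf (nat_lit 0) (nat_lit 5105165785771) (nat_lit 0) (nat_lit 0) (nat_lit 0) (nat_lit 0) (nat_lit 0) (nat_lit 0) (nat_lit 1) (nat_lit 0) (nat_lit 1) (nat_lit 0) (nat_lit 470) (nat_lit 382) (nat_lit 228))) (XT.nd (nat_lit 94) (nat_lit 0) (nat_lit 0) (XT.lf (nat_lit 0) (nat_lit 5513112046960) (nat_lit 0) (nat_lit 0) (nat_lit 0) (nat_lit 0) (nat_lit 0) (nat_lit 0) (nat_lit 1) (nat_lit 0) (nat_lit 1) (nat_lit 0) (nat_lit 471) (nat_lit 382) (nat_lit 227)) (XT.lf (nat_lit 0) (nat_lit 5953694009519) (nat_lit 0) (nat_lit 0) (nat_lit 0) (nat_lit 0) (nat_lit 0) (nat_lit 0) (nat_lit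 1) (nat_lit 0) (nat_lit 1) (nat_lit 0) (nat_lit 472) (nat_lit 382) (nat_lit 226))))))) (XT.nd (nat_lit 1316) (nat_lit 0) (nat_lit 0) (XT.nd (nat_lit 658) (nat_lit 0) (nat_lit 0) (XT.nd (nat_lit 282) (nat_lit 0) (nat_lit 0) (XT.nd (nat_lit 94) (nat_lit 0) (nat_lit 0) (XT.lf (nat_lit 0) (nat_lit 6429522529521) (nat_lit 0) (nat_lit 0) (nat_lit 0) (nat_lit 0) (nat_lit 0) (nat_lit 0) (nat_lit 1) (nat_lit 0) (nat_lit 1) (nat_lit 0) (nat_lit 473) (nat_lit 382) (nat_lit 225)) (XT.nd (nat_lit 94) (nat_lit 0) (nat_lit 0) (XT.lf (nat_lit 0) (nat_lit 6943417331531) (nat_lit 0) (nat_lit 0) (nat_lit 0) (nat_lit 0) (nat_lit 0) (nat_lit 0) (nat_lit 1) (nat_lit 0) (nat_lit 1) (nat_lit 0) (nat_lit 474) (nat_lit 382) (nat_lit 224)) (XT.lf (nat_lit 0) (nat_lit 7498423718078) (nat_lit 0) (nat_lit 0) (nat_lit 0) (nat_lit 0) (nat_lit 0) (nat_lit 0) (nat_lit 1) (nat_lit 0) (nat_lit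 1) (nat_lit 0) (nat_lit 475) (nat_lit 382) (nat_lit 223)))) (XT.nd (nat_lit 188) (nat_lit 0) (nat_lit 0) (XT.nd (nat_lit 94) (nat_lit 0) (nat_lit 0) (XT.lf (nat_lit 0) (nat_lit 8097830615898) (nat_lit 0) (nat_lit 0) (nat_lit 0) (nat_lit 0) (nat_lit 0) (nat_lit 0) (nat_lit 1) (nat_lit 0) (nat_lit 1) (nat_lit 0) (nat_lit 476) (nat_lit 382) (nat_lit 222)) (XT.lf (nat_lit 0) (nat_lit 8745190065866) (nat_lit 0) (nat_lit 0) (nat_lit 0) (nat_lit 0) (nat_lit 0) (nat_lit 0) (nat_lit 1) (nat_lit 0) (nat_lit 1) (nat_lit 0) (nat_lit 477) (nat_lit 382) (nat_lit 221))) (XT.nd (nat_lit 94) (nat_lit 0) (nat_lit 0) (XT.lf (nat_lit 0) (nat_lit 9444338272131) (nat_lit 0) (nat_lit 0) (nat_lit 0) (nat_lit 0) (nat_lit 0) (nat_lit 0) (nat_lit 1) (nat_lit 0) (nat_lit 1) (nat_lit 0) (nat_lit 478) (nat_lit 382) (nat_lit 220)) (XT.lf (nat_lit 0) (nat_lit 10199418335175) (nat_lit 0)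 (nat_lit 0) (nat_lit 0) (nat_lit 0) (nat_lit 0) (nat_lit 0) (nat_lit 1) (nat_lit 0) (nat_lit 1) (nat_lit 0) (nat_lit 479) (nat_lit 382) (nat_lit 219))))) (XT.nd (nat_lit 282) (nat_lit 0) (nat_lit 0) (XT.nd (nat_lit 94) (nat_lit 0) (nat_lit 0) (XT.lf (nat_lit 0) (nat_lit 11014904803518) (nat_lit 0) (nat_lit 0) (nat_lit 0) (nat_lit 0) (nat_lit 0) (nat_lit 0) (nat_lit 1) (nat_lit 0) (nat_lit 1) (nat_lit 0) (nat_lit 480) (nat_lit 382) (nat_lit 218)) (XT.nd (nat_lit 94) (nat_lit 0) (nat_lit 0) (XT.lf (nat_lit 0) (nat_lit 11895630189566) (nat_lit 0) (nat_lit 0) (nat_lit 0) (nat_lit 0) (nat_lit 0) (nat_lit 0) (nat_lit 1) (nat_lit 0) (nat_lit 1) (nat_lit 0) (nat_lit 481) (nat_lit 382) (nat_lit 217)) (XT.lf (nat_lit 0) (nat_lit 12846813606718) (nat_lit 0) (nat_lit 0) (nat_lit 0) (nat_lit 0) (nat_lit 0) (nat_lit 0) (nat_lit 1) (nat_lit 0) (nat_lit 1) (nat_lit 0) (nat_lit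 482) (nat_lit 382) (nat_lit 216)))) (XT.nd (nat_lit 188) (nat_lit 0) (nat_lit 0) (XT.nd (nat_lit 94) (nat_lit 0) (nat_lit 0) (XT.lf (nat_lit 0) (nat_lit 13874091697445) (nat_lit 0) (nat_lit 0) (nat_lit 0) (nat_lit 0) (nat_lit 0) (nat_lit 0) (nat_lit 1) (nat_lit 0) (nat_lit 1) (nat_lit 0) (nat_lit 483) (nat_lit 382) (nat_lit 215)) (XT.lf (nat_lit 0) (nat_lit 14983552035619) (nat_lit 0) (nat_lit 0) (nat_lit 0) (nat_lit 0) (nat_lit 0) (nat_lit 0) (nat_lit 1) (nat_lit 0) (nat_lit 1) (nat_lit 0) (nat_lit 484) (nat_lit 382) (nat_lit 214))) (XT.nd (nat_lit 94) (nat_lit 0) (nat_lit 0) (XT.lf (nat_lit 0) (nat_lit 16181769201022) (nat_lit 0) (nat_lit 0) (nat_lit 0) (nat_lit 0) (nat_lit 0) (nat_lit 0) (nat_lit 1) (nat_lit 0) (nat_lit 1) (nat_lit 0) (nat_lit 485) (nat_lit 382) (nat_lit 213)) (XT.lf (nat_lit 0) (nat_lit 17475843739818) (nat_lit 0) (nat_lit 0) (nat_lit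 0) (nat_lit 0) (nat_lit 0) (nat_lit 0) (nat_lit 1) (nat_lit 0) (nat_lit 1) (nat_lit 0) (nat_lit 486) (nat_lit 382) (nat_lit 212)))))) (XT.nd (nat_lit 658) (nat_lit 0) (nat_lit 0) (XT.nd (nat_lit 282) (nat_lit 0) (nat_lit 0) (XT.nd (nat_lit 94) (nat_lit 0) (nat_lit 0) (XT.lf (nat_lit 0) (nat_lit 18873444241868) (nat_lit 0) (nat_lit 0) (nat_lit 0) (nat_lit 0) (nat_lit 0) (nat_lit 0) (nat_lit 1) (nat_lit 0) (nat_lit 1) (nat_lit 0) (nat_lit 487) (nat_lit 382) (nat_lit 211)) (XT.nd (nat_lit 94) (nat_lit 0) (nat_lit 0) (XT.lf (nat_lit 0) (nat_lit 20382852784220) (nat_lit 0) (nat_lit 0) (nat_lit 0) (nat_lit 0) (nat_lit 0) (nat_lit 0) (nat_lit 1) (nat_lit 0) (nat_lit 1) (nat_lit 0) (nat_lit 488) (nat_lit 382) (nat_lit 210)) (XT.lf (nat_lit 0) (nat_lit 22013014010088) (nat_lit 0) (nat_lit 0) (nat_lit 0) (nat_lit 0) (nat_lit 0) (nat_lit 0) (nat_lit 1) (nat_lit 0) (nat_lit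 1) (nat_lit 0) (nat_lit 489) (nat_lit 382) (nat_lit 209)))) (XT.nd (nat_lit 188) (nat_lit 0) (nat_lit 0) (XT.nd (nat_lit 94) (nat_lit 0) (nat_lit 0) (XT.lf (nat_lit 0) (nat_lit 23773588134145) (nat_lit 0) (nat_lit 0) (nat_lit 0) (nat_lit 0) (nat_lit 0) (nat_lit 0) (nat_lit 1) (nat_lit 0) (nat_lit 1) (nat_lit 0) (nat_lit 490) (nat_lit 382) (nat_lit 208)) (XT.lf (nat_lit 0) (nat_lit 25675008188237) (nat_lit 0) (nat_lit 0) (nat_lit 0) (nat_lit 0) (nat_lit 0) (nat_lit 0) (nat_lit 1) (nat_lit 0) (nat_lit 1) (nat_lit 0) (nat_lit 491) (nat_lit 382) (nat_lit 207))) (XT.nd (nat_lit 94) (nat_lit 0) (nat_lit 0) (XT.lf (nat_lit 0) (nat_lit 27728541846757) (nat_lit 0) (nat_lit 0) (nat_lit 0) (nat_lit 0) (nat_lit 0) (nat_lit 0) (nat_lit 1) (nat_lit 0) (nat_lit 1) (nat_lit 0) (nat_lit 492) (nat_lit 382) (nat_lit 206)) (XT.lf (nat_lit 0) (nat_lit 29946358198054) (nat_lit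 0) (nat_lit 0) (nat_lit 0) (nat_lit 0) (nat_lit 0) (nat_lit 0) (nat_lit 1) (nat_lit 0) (nat_lit 1) (nat_lit 0) (nat_lit 493) (nat_lit 382) (nat_lit 205))))) (XT.nd (nat_lit 376) (nat_lit 0) (nat_lit 0) (XT.nd (nat_lit 188) (nat_lit 0) (nat_lit 0) (XT.nd (nat_lit 94) (nat_lit 0) (nat_lit 0) (XT.lf (nat_lit 0) (nat_lit 32341599857541) (nat_lit 0) (nat_lit 0) (nat_lit 0) (nat_lit 0) (nat_lit 0) (nat_lit 0) (nat_lit 1) (nat_lit 0) (nat_lit 1) (nat_lit 0) (nat_lit 494) (nat_lit 382) (nat_lit 204)) (XT.lf (nat_lit 0) (nat_lit 34928460849869) (nat_lit 0) (nat_lit 0) (nat_lit 0) (nat_lit 0) (nat_lit 0) (nat_lit 0) (nat_lit 1) (nat_lit 0) (nat_lit 1) (nat_lit 0) (nat_lit 495) (nat_lit 382) (nat_lit 203))) (XT.nd (nat_lit 94) (nat_lit 0) (nat_lit 0) (XT.lf (nat_lit 0) (nat_lit 37722270721657) (nat_lit 0) (nat_lit 0) (nat_lit 0) (nat_lit 0) (nat_lit 0) (nat_lit 0) (nat_lit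 1) (nat_lit 0) (nat_lit 1) (nat_lit 0) (nat_lit 496) (nat_lit 382) (nat_lit 202)) (XT.lf (nat_lit 0) (nat_lit 40739585383258) (nat_lit 0) (nat_lit 0) (nat_lit 0) (nat_lit 0) (nat_lit 0) (nat_lit 0) (nat_lit 1) (nat_lit 0) (nat_lit 1) (nat_lit 0) (nat_lit 497) (nat_lit 382) (nat_lit 201)))) (XT.nd (nat_lit 188) (nat_lit 0) (nat_lit 0) (XT.nd (nat_lit 94) (nat_lit 0) (nat_lit 0) (XT.lf (nat_lit 0) (nat_lit 43998285217851) (nat_lit 0) (nat_lit 0) (nat_lit 0) (nat_lit 0) (nat_lit 0) (nat_lit 0) (nat_lit 1) (nat_lit 0) (nat_lit 1) (nat_lit 0) (nat_lit 498) (nat_lit 382) (nat_lit 200)) (XT.lf (nat_lit 0) (nat_lit 47517681039271) (nat_lit 0) (nat_lit 0) (nat_lit 0) (nat_lit 0) (nat_lit 0) (nat_lit 0) (nat_lit 1) (nat_lit 0) (nat_lit 1) (nat_lit 0) (nat_lit 499) (nat_lit 382) (nat_lit 199))) (XT.nd (nat_lit 94) (nat_lit 0) (nat_lit 0) (XT.lf (nat_lit 0) (nat_lit 51318628526459)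 (nat_lit 0) (nat_lit 0) (nat_lit 0) (nat_lit 0) (nat_lit 0) (nat_lit 0) (nat_lit 1) (nat_lit 0) (nat_lit 1) (nat_lit 0) (nat_lit 500) (nat_lit 382) (nat_lit 198)) (XT.lf (nat_lit 0) (nat_lit 55423651812674) (nat_lit 0) (nat_lit 0) (nat_lit 0) (nat_lit 0) (nat_lit 0) (nat_lit 0) (nat_lit 1) (nat_lit 0) (nat_lit 1) (nat_lit 0) (nat_lit 501) (nat_lit 382) (nat_lit 197))))))))
noncomputable def xc140 : XT := (XT.nd (nat_lit 58938) (nat_lit 0) (nat_lit 588) (XT.nd (nat_lit 57622) (nat_lit 0) (nat_lit 5040) (XT.nd (nat_lit 56964) (nat_lit 0) (nat_lit 8904) (XT.nd (nat_lit 56588) (nat_lit 0) (nat_lit 10752) (XT.nd (nat_lit 94) (nat_lit 0) (nat_lit 0) (XT.lf (nat_lit 0) (nat_lit 59857076961833) (nat_lit 0) (nat_lit 0) (nat_lit 0) (nat_lit 0) (nat_lit 0) (nat_lit 0) (nat_lit 1) (nat_lit 0) (nat_lit 1) (nat_lit 0) (nat_lit 502) (nat_lit 382) (nat_lit 196)) (XT.nd (nat_lit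 94) (nat_lit 0) (nat_lit 0) (XT.lf (nat_lit 0) (nat_lit 64645176122968) (nat_lit 0) (nat_lit 0) (nat_lit 0) (nat_lit 0) (nat_lit 0) (nat_lit 0) (nat_lit 1) (nat_lit 0) (nat_lit 1) (nat_lit 0) (nat_lit 503) (nat_lit 382) (nat_lit 195)) (XT.lf (nat_lit 0) (nat_lit 69816323217034) (nat_lit 0) (nat_lit 0) (nat_lit 0) (nat_lit 0) (nat_lit 0) (nat_lit 0) (nat_lit 1) (nat_lit 0) (nat_lit 1) (nat_lit 0) (nat_lit 504) (nat_lit 382) (nat_lit 194)))) (XT.nd (nat_lit 188) (nat_lit 0) (nat_lit 84) (XT.nd (nat_lit 94) (nat_lit 0) (nat_lit 84) (XT.lf (nat_lit 0) (nat_lit 4819655688) (nat_lit 924) (nat_lit 3565524331) (nat_lit 924) (nat_lit 3565524331) (nat_lit 128) (nat_lit 3) (nat_lit 139) (nat_lit 3) (nat_lit 139) (nat_lit 5) (nat_lit 383) (nat_lit 383) (nat_lit 314)) (XT.lf (nat_lit 0) (nat_lit 10427694709) (nat_lit 840) (nat_lit 12485186673) (nat_lit 924) (nat_lit 1924443121)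 (nat_lit 129) (nat_lit 5) (nat_lit 139) (nat_lit 5) (nat_lit 140) (nat_lit 5) (nat_lit 384) (nat_lit 383) (nat_lit 313))) (XT.nd (nat_lit 94) (nat_lit 0) (nat_lit 84) (XT.lf (nat_lit 84) (nat_lit 7759552005) (nat_lit 0) (nat_lit 4031907648) (nat_lit 924) (nat_lit 14031038372) (nat_lit 130) (nat_lit 5) (nat_lit 129) (nat_lit 5) (nat_lit 140) (nat_lit 5) (nat_lit 385) (nat_lit 383) (nat_lit 312)) (XT.lf (nat_lit 84) (nat_lit 3020613757) (nat_lit 0) (nat_lit 10750733572) (nat_lit 924) (nat_lit 13089787023) (nat_lit 131) (nat_lit 5) (nat_lit 130) (nat_lit 5) (nat_lit 141) (nat_lit 5) (nat_lit 386) (nat_lit 383) (nat_lit 311))))) (XT.nd (nat_lit 282) (nat_lit 2100) (nat_lit 0) (XT.nd (nat_lit 94) (nat_lit 0) (nat_lit 84) (XT.lf (nat_lit 0) (nat_lit 16432983197) (nat_lit 840) (nat_lit 1766977359) (nat_lit 924) (nat_lit 9756733169) (nat_lit 131) (nat_lit 5) (nat_lit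 141) (nat_lit 5) (nat_lit 142) (nat_lit 5) (nat_lit 387) (nat_lit 383) (nat_lit 310)) (XT.nd (nat_lit 94) (nat_lit 0) (nat_lit 0) (XT.lf (nat_lit 0) (nat_lit 19870765596) (nat_lit 840) (nat_lit 6553307264) (nat_lit 924) (nat_lit 2687664205) (nat_lit 132) (nat_lit 5) (nat_lit 142) (nat_lit 5) (nat_lit 143) (nat_lit 5) (nat_lit 388) (nat_lit 383) (nat_lit 309)) (XT.lf (nat_lit 84) (nat_lit 18819320196) (nat_lit 0) (nat_lit 5382870780) (nat_lit 924) (nat_lit 6126061877) (nat_lit 133) (nat_lit 5) (nat_lit 132) (nat_lit 5) (nat_lit 143) (nat_lit 5) (nat_lit 389) (nat_lit 383) (nat_lit 308)))) (XT.nd (nat_lit 188) (nat_lit 840) (nat_lit 0) (XT.nd (nat_lit 94) (nat_lit 588) (nat_lit 0) (XT.lf (nat_lit 0) (nat_lit 15016250230) (nat_lit 840) (nat_lit 14472591597) (nat_lit 924) (nat_lit 2122812504) (nat_lit 123) (nat_lit 5) (nat_lit 133) (nat_lit 5) (nat_lit 134) (nat_lit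 5) (nat_lit 390) (nat_lit 383) (nat_lit 307)) (XT.lf (nat_lit 0) (nat_lit 2725556598) (nat_lit 588) (nat_lit 21799957500) (nat_lit 84) (nat_lit 8440731086) (nat_lit 116) (nat_lit 5) (nat_lit 123) (nat_lit 5) (nat_lit 117) (nat_lit 5) (nat_lit 391) (nat_lit 383) (nat_lit 306))) (XT.nd (nat_lit 94) (nat_lit 420) (nat_lit 0) (XT.lf (nat_lit 0) (nat_lit 7263557904) (nat_lit 420) (nat_lit 1264904176) (nat_lit 504) (nat_lit 25866949225) (nat_lit 111) (nat_lit 5) (nat_lit 116) (nat_lit 5) (nat_lit 117) (nat_lit 5) (nat_lit 392) (nat_lit 383) (nat_lit 305)) (XT.lf (nat_lit 0) (nat_lit 3224018663) (nat_lit 420) (nat_lit 12369800642) (nat_lit 504) (nat_lit 20305180442) (nat_lit 106) (nat_lit 5) (nat_lit 111) (nat_lit 5) (nat_lit 112) (nat_lit 5) (nat_lit 393) (nat_lit 383) (nat_lit 304)))))) (XT.nd (nat_lit 658) (nat_lit 1764) (nat_lit 0) (XT.nd (nat_lit 282) (nat_lit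 1344) (nat_lit 0) (XT.nd (nat_lit 94) (nat_lit 756) (nat_lit 0) (XT.lf (nat_lit 0) (nat_lit 23914730688) (nat_lit 504) (nat_lit 760844970) (nat_lit 84) (nat_lit 12812783328) (nat_lit 106) (nat_lit 5) (nat_lit 112) (nat_lit 5) (nat_lit 107) (nat_lit 5) (nat_lit 394) (nat_lit 383) (nat_lit 303)) (XT.nd (nat_lit 94) (nat_lit 420) (nat_lit 0) (XT.lf (nat_lit 0) (nat_lit 33655695923) (nat_lit 420) (nat_lit 4588042676) (nat_lit 84) (nat_lit 923409320) (nat_lit 102) (nat_lit 5) (nat_lit 107) (nat_lit 5) (nat_lit 103) (nat_lit 5) (nat_lit 395) (nat_lit 383) (nat_lit 302)) (XT.lf (nat_lit 0) (nat_lit 4035375835) (nat_lit 420) (nat_lit 8594608916) (nat_lit 84) (nat_lit 28300662537) (nat_lit 97) (nat_lit 5) (nat_lit 102) (nat_lit 5) (nat_lit 98) (nat_lit 5) (nat_lit 396) (nat_lit 383) (nat_lit 301)))) (XT.nd (nat_lit 188) (nat_lit 672) (nat_lit 0) (XT.nd (nat_lit 94)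 (nat_lit 336) (nat_lit 0) (XT.lf (nat_lit 0) (nat_lit 14948513957) (nat_lit 420) (nat_lit 12632747247) (nat_lit 84) (nat_lit 15209664894) (nat_lit 93) (nat_lit 5) (nat_lit 98) (nat_lit 5) (nat_lit 94) (nat_lit 5) (nat_lit 397) (nat_lit 383) (nat_lit 300)) (XT.lf (nat_lit 0) (nat_lit 27542718506) (nat_lit 420) (nat_lit 16567881230) (nat_lit 84) (nat_lit 649026709) (nat_lit 89) (nat_lit 5) (nat_lit 94) (nat_lit 5) (nat_lit 90) (nat_lit 5) (nat_lit 398) (nat_lit 383) (nat_lit 299))) (XT.nd (nat_lit 94) (nat_lit 420) (nat_lit 0) (XT.lf (nat_lit 0) (nat_lit 26219013348) (nat_lit 252) (nat_lit 16016024300) (nat_lit 336) (nat_lit 4596256260) (nat_lit 86) (nat_lit 5) (nat_lit 89) (nat_lit 5) (nat_lit 90) (nat_lit 5) (nat_lit 399) (nat_lit 383) (nat_lit 298)) (XT.lf (nat_lit 0) (nat_lit 9652109914) (nat_lit 420) (nat_lit 24667217590) (nat_lit 84) (nat_lit 14696954508)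 (nat_lit 81) (nat_lit 5) (nat_lit 86) (nat_lit 5) (nat_lit 82) (nat_lit 5) (nat_lit 400) (nat_lit 383) (nat_lit 297))))) (XT.nd (nat_lit 282) (nat_lit 924) (nat_lit 0) (XT.nd (nat_lit 94) (nat_lit 588) (nat_lit 0) (XT.lf (nat_lit 0) (nat_lit 22647005432) (nat_lit 252) (nat_lit 3216177345) (nat_lit 336) (nat_lit 25459925573) (nat_lit 78) (nat_lit 5) (nat_lit 81) (nat_lit 5) (nat_lit 82) (nat_lit 5) (nat_lit 401) (nat_lit 383) (nat_lit 296)) (XT.nd (nat_lit 94) (nat_lit 336) (nat_lit 0) (XT.lf (nat_lit 0) (nat_lit 21016072632) (nat_lit 252) (nat_lit 23587617556) (nat_lit 336) (nat_lit 9149163172) (nat_lit 75) (nat_lit 5) (nat_lit 78) (nat_lit 5) (nat_lit 79) (nat_lit 5) (nat_lit 402) (nat_lit 383) (nat_lit 295)) (XT.lf (nat_lit 0) (nat_lit 9227460997) (nat_lit 336) (nat_lit 36709625848) (nat_lit 84) (nat_lit 10381682849) (nat_lit 71) (nat_lit 5) (nat_lit 75)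 (nat_lit 5) (nat_lit 72) (nat_lit 5) (nat_lit 403) (nat_lit 383) (nat_lit 294)))) (XT.nd (nat_lit 188) (nat_lit 504) (nat_lit 0) (XT.nd (nat_lit 94) (nat_lit 168) (nat_lit 0) (XT.lf (nat_lit 0) (nat_lit 18264381421) (nat_lit 252) (nat_lit 11750046056) (nat_lit 336) (nat_lit 29004994818) (nat_lit 68) (nat_lit 5) (nat_lit 71) (nat_lit 5) (nat_lit 72) (nat_lit 5) (nat_lit 404) (nat_lit 383) (nat_lit 293)) (XT.lf (nat_lit 0) (nat_lit 17180439459) (nat_lit 168) (nat_lit 36589332664) (nat_lit 252) (nat_lit 8101083939) (nat_lit 66) (nat_lit 5) (nat_lit 68) (nat_lit 5) (nat_lit 69) (nat_lit 5) (nat_lit 405) (nat_lit 383) (nat_lit 292))) (XT.nd (nat_lit 94) (nat_lit 168) (nat_lit 0) (XT.lf (nat_lit 0) (nat_lit 15200135032) (nat_lit 336) (nat_lit 48528575212) (nat_lit 84) (nat_lit 1150979906) (nat_lit 62) (nat_lit 5) (nat_lit 66) (nat_lit 5) (nat_lit 63) (nat_lit 5)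 (nat_lit 406) (nat_lit 383) (nat_lit 291)) (XT.lf (nat_lit 0) (nat_lit 15502780377) (nat_lit 168) (nat_lit 26227562436) (nat_lit 252) (nat_lit 26309812230) (nat_lit 60) (nat_lit 5) (nat_lit 62) (nat_lit 5) (nat_lit 63) (nat_lit 5) (nat_lit 407) (nat_lit 383) (nat_lit 290))))))) (XT.nd (nat_lit 1316) (nat_lit 2016) (nat_lit 0) (XT.nd (nat_lit 658) (nat_lit 1092) (nat_lit 0) (XT.nd (nat_lit 282) (nat_lit 756) (nat_lit 0) (XT.nd (nat_lit 94) (nat_lit 336) (nat_lit 0) (XT.lf (nat_lit 0) (nat_lit 299892396) (nat_lit 252) (nat_lit 56172186800) (nat_lit 84) (nat_lit 14915407601) (nat_lit 57) (nat_lit 5) (nat_lit 60) (nat_lit 5) (nat_lit 58) (nat_lit 5) (nat_lit 408) (nat_lit 383) (nat_lit 289)) (XT.nd (nat_lit 94) (nat_lit 168) (nat_lit 0) (XT.lf (nat_lit 0) (nat_lit 14874380759) (nat_lit 168) (nat_lit 14854256309) (nat_lit 252) (nat_lit 45171801037) (nat_lit 55)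 (nat_lit 5) (nat_lit 57) (nat_lit 5) (nat_lit 58) (nat_lit 5) (nat_lit 409) (nat_lit 383) (nat_lit 288)) (XT.lf (nat_lit 0) (nat_lit 14949592231) (nat_lit 168) (nat_lit 48255109612) (nat_lit 252) (nat_lit 15405072647) (nat_lit 53) (nat_lit 5) (nat_lit 55) (nat_lit 5) (nat_lit 56) (nat_lit 5) (nat_lit 410) (nat_lit 383) (nat_lit 287)))) (XT.nd (nat_lit 188) (nat_lit 336) (nat_lit 0) (XT.nd (nat_lit 94) (nat_lit 168) (nat_lit 0) (XT.lf (nat_lit 0) (nat_lit 15461191134) (nat_lit 168) (nat_lit 2295953799) (nat_lit 252) (nat_lit 64768141038) (nat_lit 50) (nat_lit 5) (nat_lit 52) (nat_lit 5) (nat_lit 53) (nat_lit 5) (nat_lit 411) (nat_lit 383) (nat_lit 286)) (XT.lf (nat_lit 0) (nat_lit 15973469837) (nat_lit 168) (nat_lit 39177550055) (nat_lit 252) (nat_lit 31484471434) (nat_lit 48) (nat_lit 5) (nat_lit 50) (nat_lit 5) (nat_lit 51) (nat_lit 5) (nat_lit 412) (nat_lit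 383) (nat_lit 285))) (XT.nd (nat_lit 94) (nat_lit 168) (nat_lit 0) (XT.lf (nat_lit 0) (nat_lit 5995214255) (nat_lit 168) (nat_lit 73721638618) (nat_lit 84) (nat_lit 11270370559) (nat_lit 46) (nat_lit 5) (nat_lit 48) (nat_lit 5) (nat_lit 47) (nat_lit 5) (nat_lit 413) (nat_lit 383) (nat_lit 284)) (XT.lf (nat_lit 0) (nat_lit 18498220418) (nat_lit 168) (nat_lit 29083102078) (nat_lit 252) (nat_lit 47969409156) (nat_lit 44) (nat_lit 5) (nat_lit 46) (nat_lit 5) (nat_lit 47) (nat_lit 5) (nat_lit 414) (nat_lit 383) (nat_lit 283))))) (XT.nd (nat_lit 282) (nat_lit 672) (nat_lit 0) (XT.nd (nat_lit 94) (nat_lit 336) (nat_lit 0) (XT.lf (nat_lit 0) (nat_lit 20542700873) (nat_lit 84) (nat_lit 73973322957) (nat_lit 168) (nat_lit 5862211478) (nat_lit 43) (nat_lit 5) (nat_lit 44) (nat_lit 5) (nat_lit 45) (nat_lit 4) (nat_lit 415) (nat_lit 383) (nat_lit 282)) (XT.nd (nat_lit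 94) (nat_lit 84) (nat_lit 0) (XT.lf (nat_lit 0) (nat_lit 22762919225) (nat_lit 168) (nat_lit 17788912916) (nat_lit 252) (nat_lit 64898875604) (nat_lit 40) (nat_lit 5) (nat_lit 42) (nat_lit 5) (nat_lit 43) (nat_lit 5) (nat_lit 416) (nat_lit 383) (nat_lit 281)) (XT.lf (nat_lit 0) (nat_lit 25581373564) (nat_lit 84) (nat_lit 67373792993) (nat_lit 168) (nat_lit 17844928797) (nat_lit 39) (nat_lit 5) (nat_lit 40) (nat_lit 5) (nat_lit 41) (nat_lit 4) (nat_lit 417) (nat_lit 383) (nat_lit 280)))) (XT.nd (nat_lit 188) (nat_lit 336) (nat_lit 0) (XT.nd (nat_lit 94) (nat_lit 84) (nat_lit 0) (XT.lf (nat_lit 0) (nat_lit 29043987186) (nat_lit 168) (nat_lit 5087790537) (nat_lit 252) (nat_lit 82309226114) (nat_lit 36) (nat_lit 5) (nat_lit 38) (nat_lit 5) (nat_lit 39) (nat_lit 5) (nat_lit 418) (nat_lit 383) (nat_lit 279)) (XT.lf (nat_lit 0) (nat_lit 32778470762) (nat_lit 84)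 (nat_lit 59859210374) (nat_lit 168) (nat_lit 29731063882) (nat_lit 35) (nat_lit 5) (nat_lit 36) (nat_lit 5) (nat_lit 37) (nat_lit 4) (nat_lit 419) (nat_lit 383) (nat_lit 278))) (XT.nd (nat_lit 94) (nat_lit 84) (nat_lit 0) (XT.lf (nat_lit 0) (nat_lit 28549733215) (nat_lit 252) (nat_lit 91122930452) (nat_lit 84) (nat_lit 8958809992) (nat_lit 32) (nat_lit 5) (nat_lit 35) (nat_lit 5) (nat_lit 33) (nat_lit 4) (nat_lit 420) (nat_lit 383) (nat_lit 277)) (XT.lf (nat_lit 0) (nat_lit 42474374578) (nat_lit 84) (nat_lit 51246325237) (nat_lit 168) (nat_lit 41486684183) (nat_lit 31) (nat_lit 5) (nat_lit 32) (nat_lit 5) (nat_lit 33) (nat_lit 4) (nat_lit 421) (nat_lit 383) (nat_lit 276)))))) (XT.nd (nat_lit 658) (nat_lit 1008) (nat_lit 0) (XT.nd (nat_lit 282) (nat_lit 504) (nat_lit 0) (XT.nd (nat_lit 94) (nat_lit 252) (nat_lit 0) (XT.lf (nat_lit 0) (nat_lit 23871443809) (nat_lit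 252) (nat_lit 93593065189) (nat_lit 84) (nat_lit 24689189621) (nat_lit 28) (nat_lit 5) (nat_lit 31) (nat_lit 5) (nat_lit 29) (nat_lit 4) (nat_lit 422) (nat_lit 383) (nat_lit 275)) (XT.nd (nat_lit 94) (nat_lit 168) (nat_lit 0) (XT.lf (nat_lit 0) (nat_lit 55060604372) (nat_lit 84) (nat_lit 41326089786) (nat_lit 168) (nat_lit 53065920602) (nat_lit 27) (nat_lit 5) (nat_lit 28) (nat_lit 5) (nat_lit 29) (nat_lit 4) (nat_lit 423) (nat_lit 383) (nat_lit 274)) (XT.lf (nat_lit 0) (nat_lit 20142536745) (nat_lit 168) (nat_lit 94454961753) (nat_lit 84) (nat_lit 42557853158) (nat_lit 25) (nat_lit 5) (nat_lit 27) (nat_lit 5) (nat_lit 26) (nat_lit 4) (nat_lit 424) (nat_lit 383) (nat_lit 273)))) (XT.nd (nat_lit 188) (nat_lit 252) (nat_lit 0) (XT.nd (nat_lit 94) (nat_lit 168) (nat_lit 0) (XT.lf (nat_lit 0) (nat_lit 70986705585) (nat_lit 84) (nat_lit 29860116570) (nat_lit 168)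 (nat_lit 64409072551) (nat_lit 24) (nat_lit 5) (nat_lit 25) (nat_lit 5) (nat_lit 26) (nat_lit 4) (nat_lit 425) (nat_lit 383) (nat_lit 272)) (XT.lf (nat_lit 0) (nat_lit 17510748359) (nat_lit 168) (nat_lit 93389861784) (nat_lit 84) (nat_lit 62895141696) (nat_lit 22) (nat_lit 5) (nat_lit 24) (nat_lit 5) (nat_lit 23) (nat_lit 4) (nat_lit 426) (nat_lit 383) (nat_lit 271))) (XT.nd (nat_lit 94) (nat_lit 168) (nat_lit 0) (XT.lf (nat_lit 0) (nat_lit 90768036340) (nat_lit 84) (nat_lit 16576676554) (nat_lit 168) (nat_lit 75440433421) (nat_lit 21) (nat_lit 5) (nat_lit 22) (nat_lit 5) (nat_lit 23) (nat_lit 4) (nat_lit 427) (nat_lit 383) (nat_lit 270)) (XT.lf (nat_lit 0) (nat_lit 16149657728) (nat_lit 168) (nat_lit 90026750399) (nat_lit 84) (nat_lit 86075120491) (nat_lit 19) (nat_lit 5) (nat_lit 21) (nat_lit 5) (nat_lit 20) (nat_lit 4) (nat_lit 428) (nat_lit 383) (nat_lit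 269))))) (XT.nd (nat_lit 376) (nat_lit 504) (nat_lit 0) (XT.nd (nat_lit 188) (nat_lit 252) (nat_lit 0) (XT.nd (nat_lit 94) (nat_lit 168) (nat_lit 0) (XT.lf (nat_lit 0) (nat_lit 114994564333) (nat_lit 84) (nat_lit 1166179554) (nat_lit 168) (nat_lit 86065798547) (nat_lit 18) (nat_lit 5) (nat_lit 19) (nat_lit 5) (nat_lit 20) (nat_lit 4) (nat_lit 429) (nat_lit 383) (nat_lit 268)) (XT.lf (nat_lit 0) (nat_lit 16262283930) (nat_lit 168) (nat_lit 83934954079) (nat_lit 84) (nat_lit 112521260367) (nat_lit 16) (nat_lit 5) (nat_lit 18) (nat_lit 5) (nat_lit 17) (nat_lit 4) (nat_lit 430) (nat_lit 383) (nat_lit 267))) (XT.nd (nat_lit 94) (nat_lit 168) (nat_lit 0) (XT.lf (nat_lit 0) (nat_lit 127877980261) (nat_lit 168) (nat_lit 79706792682) (nat_lit 0) (nat_lit 16188657435) (nat_lit 15) (nat_lit 5) (nat_lit 17) (nat_lit 4) (nat_lit 15) (nat_lit 4) (nat_lit 431) (nat_lit 383)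 (nat_lit 266)) (XT.lf (nat_lit 0) (nat_lit 18085167470) (nat_lit 168) (nat_lit 74615746114) (nat_lit 84) (nat_lit 142712831427) (nat_lit 13) (nat_lit 5) (nat_lit 15) (nat_lit 5) (nat_lit 14) (nat_lit 4) (nat_lit 432) (nat_lit 383) (nat_lit 265)))) (XT.nd (nat_lit 188) (nat_lit 252) (nat_lit 0) (XT.nd (nat_lit 94) (nat_lit 168) (nat_lit 0) (XT.lf (nat_lit 0) (nat_lit 142667494288) (nat_lit 168) (nat_lit 68702193262) (nat_lit 0) (nat_lit 36294845974) (nat_lit 12) (nat_lit 5) (nat_lit 14) (nat_lit 4) (nat_lit 12) (nat_lit 4) (nat_lit 433) (nat_lit 383) (nat_lit 264)) (XT.lf (nat_lit 0) (nat_lit 21892998003) (nat_lit 168) (nat_lit 61492832477) (nat_lit 84) (nat_lit 177192096268) (nat_lit 10) (nat_lit 5) (nat_lit 12) (nat_lit 5) (nat_lit 11) (nat_lit 4) (nat_lit 434) (nat_lit 383) (nat_lit 263))) (XT.nd (nat_lit 94) (nat_lit 168) (nat_lit 0) (XT.lf (nat_lit 0)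 (nat_lit 160940392656) (nat_lit 168) (nat_lit 53582112646) (nat_lit 0) (nat_lit 59631586019) (nat_lit 9) (nat_lit 5) (nat_lit 11) (nat_lit 4) (nat_lit 9) (nat_lit 4) (nat_lit 435) (nat_lit 383) (nat_lit 262)) (XT.lf (nat_lit 0) (nat_lit 28003858199) (nat_lit 168) (nat_lit 43901575091) (nat_lit 84) (nat_lit 216572400471) (nat_lit 7) (nat_lit 5) (nat_lit 9) (nat_lit 5) (nat_lit 8) (nat_lit 4) (nat_lit 436) (nat_lit 383) (nat_lit 261))))))))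
noncomputable def xc141 : XT := (XT.nd (nat_lit 2632) (nat_lit 0) (nat_lit 0) (XT.nd (nat_lit 1316) (nat_lit 0) (nat_lit 0) (XT.nd (nat_lit 658) (nat_lit 0) (nat_lit 0) (XT.nd (nat_lit 282) (nat_lit 252) (nat_lit 0) (XT.nd (nat_lit 94) (nat_lit 252) (nat_lit 0) (XT.lf (nat_lit 0) (nat_lit 183187105582) (nat_lit 168) (nat_lit 33634550109) (nat_lit 0) (nat_lit 86701284668) (nat_lit 6) (nat_lit 5) (nat_lit 8) (nat_lit 4) (nat_lit 6) (nat_lit 4) (nat_lit 437) (nat_lit 383) (nat_lit 260)) (XT.nd (nat_lit 94) (nat_lit 84) (nat_lit 0) (XT.lf (nat_lit 0) (nat_lit 36785162287) (nat_lit 168) (nat_lit 21076791627) (nat_lit 84) (nat_lit 261547269992) (nat_lit 4) (nat_lit 5) (nat_lit 6) (nat_lit 5) (nat_lit 5) (nat_lit 4) (nat_lit 438) (nat_lit 383) (nat_lit 259)) (XT.lf (nat_lit 0) (nat_lit 209967142010) (nat_lit 168) (nat_lit 8040399043) (nat_lit 0) (nat_lit 118074868936)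 (nat_lit 3) (nat_lit 5) (nat_lit 5) (nat_lit 4) (nat_lit 3) (nat_lit 4) (nat_lit 439) (nat_lit 383) (nat_lit 258)))) (XT.nd (nat_lit 188) (nat_lit 0) (nat_lit 0) (XT.nd (nat_lit 94) (nat_lit 0) (nat_lit 0) (XT.lf (nat_lit 0) (nat_lit 513062468151) (nat_lit 0) (nat_lit 0) (nat_lit 0) (nat_lit 0) (nat_lit 0) (nat_lit 0) (nat_lit 1) (nat_lit 0) (nat_lit 1) (nat_lit 0) (nat_lit 440) (nat_lit 383) (nat_lit 257)) (XT.lf (nat_lit 0) (nat_lit 553603051016) (nat_lit 0) (nat_lit 0) (nat_lit 0) (nat_lit 0) (nat_lit 0) (nat_lit 0) (nat_lit 1) (nat_lit 0) (nat_lit 1) (nat_lit 0) (nat_lit 441) (nat_lit 383) (nat_lit 256))) (XT.nd (nat_lit 94) (nat_lit 0) (nat_lit 0) (XT.lf (nat_lit 0) (nat_lit 597386884931) (nat_lit 0) (nat_lit 0) (nat_lit 0) (nat_lit 0) (nat_lit 0) (nat_lit 0) (nat_lit 1) (nat_lit 0) (nat_lit 1) (nat_lit 0) (nat_lit 442) (nat_lit 383) (nat_lit 255)) (XT.lf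 (nat_lit 0) (nat_lit 644673429655) (nat_lit 0) (nat_lit 0) (nat_lit 0) (nat_lit 0) (nat_lit 0) (nat_lit 0) (nat_lit 1) (nat_lit 0) (nat_lit 1) (nat_lit 0) (nat_lit 443) (nat_lit 383) (nat_lit 254))))) (XT.nd (nat_lit 282) (nat_lit 0) (nat_lit 0) (XT.nd (nat_lit 94) (nat_lit 0) (nat_lit 0) (XT.lf (nat_lit 0) (nat_lit 695742901748) (nat_lit 0) (nat_lit 0) (nat_lit 0) (nat_lit 0) (nat_lit 0) (nat_lit 0) (nat_lit 1) (nat_lit 0) (nat_lit 1) (nat_lit 0) (nat_lit 444) (nat_lit 383) (nat_lit 253)) (XT.nd (nat_lit 94) (nat_lit 0) (nat_lit 0) (XT.lf (nat_lit 0) (nat_lit 750897935119) (nat_lit 0) (nat_lit 0) (nat_lit 0) (nat_lit 0) (nat_lit 0) (nat_lit 0) (nat_lit 1) (nat_lit 0) (nat_lit 1) (nat_lit 0) (nat_lit 445) (nat_lit 383) (nat_lit 252)) (XT.lf (nat_lit 0) (nat_lit 810465374410) (nat_lit 0) (nat_lit 0) (nat_lit 0) (nat_lit 0) (nat_lit 0) (nat_lit 0) (nat_lit 1)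 (nat_lit 0) (nat_lit 1) (nat_lit 0) (nat_lit 446) (nat_lit 383) (nat_lit 251)))) (XT.nd (nat_lit 188) (nat_lit 0) (nat_lit 0) (XT.nd (nat_lit 94) (nat_lit 0) (nat_lit 0) (XT.lf (nat_lit 0) (nat_lit 874798211855) (nat_lit 0) (nat_lit 0) (nat_lit 0) (nat_lit 0) (nat_lit 0) (nat_lit 0) (nat_lit 1) (nat_lit 0) (nat_lit 1) (nat_lit 0) (nat_lit 447) (nat_lit 383) (nat_lit 250)) (XT.lf (nat_lit 0) (nat_lit 944277679081) (nat_lit 0) (nat_lit 0) (nat_lit 0) (nat_lit 0) (nat_lit 0) (nat_lit 0) (nat_lit 1) (nat_lit 0) (nat_lit 1) (nat_lit 0) (nat_lit 448) (nat_lit 383) (nat_lit 249))) (XT.nd (nat_lit 94) (nat_lit 0) (nat_lit 0) (XT.lf (nat_lit 0) (nat_lit 1019315506266) (nat_lit 0) (nat_lit 0) (nat_lit 0) (nat_lit 0) (nat_lit 0) (nat_lit 0) (nat_lit 1) (nat_lit 0) (nat_lit 1) (nat_lit 0) (nat_lit 449) (nat_lit 383) (nat_lit 248)) (XT.lf (nat_lit 0) (nat_lit 1100356362015)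 (nat_lit 0) (nat_lit 0) (nat_lit 0) (nat_lit 0) (nat_lit 0) (nat_lit 0) (nat_lit 1) (nat_lit 0) (nat_lit 1) (nat_lit 0) (nat_lit 450) (nat_lit 383) (nat_lit 247)))))) (XT.nd (nat_lit 658) (nat_lit 0) (nat_lit 0) (XT.nd (nat_lit 282) (nat_lit 0) (nat_lit 0) (XT.nd (nat_lit 94) (nat_lit 0) (nat_lit 0) (XT.lf (nat_lit 0) (nat_lit 1187880488437) (nat_lit 0) (nat_lit 0) (nat_lit 0) (nat_lit 0) (nat_lit 0) (nat_lit 0) (nat_lit 1) (nat_lit 0) (nat_lit 1) (nat_lit 0) (nat_lit 451) (nat_lit 383) (nat_lit 246)) (XT.nd (nat_lit 94) (nat_lit 0) (nat_lit 0) (XT.lf (nat_lit 0) (nat_lit 1282406547020) (nat_lit 0) (nat_lit 0) (nat_lit 0) (nat_lit 0) (nat_lit 0) (nat_lit 0) (nat_lit 1) (nat_lit 0) (nat_lit 1) (nat_lit 0) (nat_lit 452) (nat_lit 383) (nat_lit 245)) (XT.lf (nat_lit 0) (nat_lit 1384494692187) (nat_lit 0) (nat_lit 0) (nat_lit 0) (nat_lit 0) (nat_lit 0) (nat_lit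 0) (nat_lit 1) (nat_lit 0) (nat_lit 1) (nat_lit 0) (nat_lit 453) (nat_lit 383) (nat_lit 244)))) (XT.nd (nat_lit 188) (nat_lit 0) (nat_lit 0) (XT.nd (nat_lit 94) (nat_lit 0) (nat_lit 0) (XT.lf (nat_lit 0) (nat_lit 1494749890723) (nat_lit 0) (nat_lit 0) (nat_lit 0) (nat_lit 0) (nat_lit 0) (nat_lit 0) (nat_lit 1) (nat_lit 0) (nat_lit 1) (nat_lit 0) (nat_lit 454) (nat_lit 383) (nat_lit 243)) (XT.lf (nat_lit 0) (nat_lit 1613825506768) (nat_lit 0) (nat_lit 0) (nat_lit 0) (nat_lit 0) (nat_lit 0) (nat_lit 0) (nat_lit 1) (nat_lit 0) (nat_lit 1) (nat_lit 0) (nat_lit 455) (nat_lit 383) (nat_lit 242))) (XT.nd (nat_lit 94) (nat_lit 0) (nat_lit 0) (XT.lf (nat_lit 0) (nat_lit 1742427173603) (nat_lit 0) (nat_lit 0) (nat_lit 0) (nat_lit 0) (nat_lit 0) (nat_lit 0) (nat_lit 1) (nat_lit 0) (nat_lit 1) (nat_lit 0) (nat_lit 456) (nat_lit 383) (nat_lit 241)) (XT.lf (nat_lit 0) (nat_lit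 1881316975178) (nat_lit 0) (nat_lit 0) (nat_lit 0) (nat_lit 0) (nat_lit 0) (nat_lit 0) (nat_lit 1) (nat_lit 0) (nat_lit 1) (nat_lit 0) (nat_lit 457) (nat_lit 383) (nat_lit 240))))) (XT.nd (nat_lit 282) (nat_lit 0) (nat_lit 0) (XT.nd (nat_lit 94) (nat_lit 0) (nat_lit 0) (XT.lf (nat_lit 0) (nat_lit 2031317962170) (nat_lit 0) (nat_lit 0) (nat_lit 0) (nat_lit 0) (nat_lit 0) (nat_lit 0) (nat_lit 1) (nat_lit 0) (nat_lit 1) (nat_lit 0) (nat_lit 458) (nat_lit 383) (nat_lit 239)) (XT.nd (nat_lit 94) (nat_lit 0) (nat_lit 0) (XT.lf (nat_lit 0) (nat_lit 2193319029317) (nat_lit 0) (nat_lit 0) (nat_lit 0) (nat_lit 0) (nat_lit 0) (nat_lit 0) (nat_lit 1) (nat_lit 0) (nat_lit 1) (nat_lit 0) (nat_lit 459) (nat_lit 383) (nat_lit 238)) (XT.lf (nat_lit 0) (nat_lit 2368280182942) (nat_lit 0) (nat_lit 0) (nat_lit 0) (nat_lit 0) (nat_lit 0) (nat_lit 0) (nat_lit 1) (nat_lit 0) (nat_lit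 1) (nat_lit 0) (nat_lit 460) (nat_lit 383) (nat_lit 237)))) (XT.nd (nat_lit 188) (nat_lit 0) (nat_lit 0) (XT.nd (nat_lit 94) (nat_lit 0) (nat_lit 0) (XT.lf (nat_lit 0) (nat_lit 2557238229882) (nat_lit 0) (nat_lit 0) (nat_lit 0) (nat_lit 0) (nat_lit 0) (nat_lit 0) (nat_lit 1) (nat_lit 0) (nat_lit 1) (nat_lit 0) (nat_lit 461) (nat_lit 383) (nat_lit 236)) (XT.lf (nat_lit 0) (nat_lit 2761312921526) (nat_lit 0) (nat_lit 0) (nat_lit 0) (nat_lit 0) (nat_lit 0) (nat_lit 0) (nat_lit 1) (nat_lit 0) (nat_lit 1) (nat_lit 0) (nat_lit 462) (nat_lit 383) (nat_lit 235))) (XT.nd (nat_lit 94) (nat_lit 0) (nat_lit 0) (XT.lf (nat_lit 0) (nat_lit 2981713589380) (nat_lit 0) (nat_lit 0) (nat_lit 0) (nat_lit 0) (nat_lit 0) (nat_lit 0) (nat_lit 1) (nat_lit 0) (nat_lit 1) (nat_lit 0) (nat_lit 463) (nat_lit 383) (nat_lit 234)) (XT.lf (nat_lit 0) (nat_lit 3219746311476) (nat_lit 0) (nat_lit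 0) (nat_lit 0) (nat_lit 0) (nat_lit 0) (nat_lit 0) (nat_lit 1) (nat_lit 0) (nat_lit 1) (nat_lit 0) (nat_lit 464) (nat_lit 383) (nat_lit 233))))))) (XT.nd (nat_lit 1316) (nat_lit 0) (nat_lit 0) (XT.nd (nat_lit 658) (nat_lit 0) (nat_lit 0) (XT.nd (nat_lit 282) (nat_lit 0) (nat_lit 0) (XT.nd (nat_lit 94) (nat_lit 0) (nat_lit 0) (XT.lf (nat_lit 0) (nat_lit 3476821652093) (nat_lit 0) (nat_lit 0) (nat_lit 0) (nat_lit 0) (nat_lit 0) (nat_lit 0) (nat_lit 1) (nat_lit 0) (nat_lit 1) (nat_lit 0) (nat_lit 465) (nat_lit 383) (nat_lit 232)) (XT.nd (nat_lit 94) (nat_lit 0) (nat_lit 0) (XT.lf (nat_lit 0) (nat_lit 3754463020656) (nat_lit 0) (nat_lit 0) (nat_lit 0) (nat_lit 0) (nat_lit 0) (nat_lit 0) (nat_lit 1) (nat_lit 0) (nat_lit 1) (nat_lit 0) (nat_lit 466) (nat_lit 383) (nat_lit 231)) (XT.lf (nat_lit 0) (nat_lit 4054315699350) (nat_lit 0) (nat_lit 0) (nat_lit 0) (nat_lit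 0) (nat_lit 0) (nat_lit 0) (nat_lit 1) (nat_lit 0) (nat_lit 1) (nat_lit 0) (nat_lit 467) (nat_lit 383) (nat_lit 230)))) (XT.nd (nat_lit 188) (nat_lit 0) (nat_lit 0) (XT.nd (nat_lit 94) (nat_lit 0) (nat_lit 0) (XT.lf (nat_lit 0) (nat_lit 4378156592937) (nat_lit 0) (nat_lit 0) (nat_lit 0) (nat_lit 0) (nat_lit 0) (nat_lit 0) (nat_lit 1) (nat_lit 0) (nat_lit 1) (nat_lit 0) (nat_lit 468) (nat_lit 383) (nat_lit 229)) (XT.lf (nat_lit 0) (nat_lit 4727904758565) (nat_lit 0) (nat_lit 0) (nat_lit 0) (nat_lit 0) (nat_lit 0) (nat_lit 0) (nat_lit 1) (nat_lit 0) (nat_lit 1) (nat_lit 0) (nat_lit 469) (nat_lit 383) (nat_lit 228))) (XT.nd (nat_lit 94) (nat_lit 0) (nat_lit 0) (XT.lf (nat_lit 0) (nat_lit 5105632777956) (nat_lit 0) (nat_lit 0) (nat_lit 0) (nat_lit 0) (nat_lit 0) (nat_lit 0) (nat_lit 1) (nat_lit 0) (nat_lit 1) (nat_lit 0) (nat_lit 470) (nat_lit 383) (nat_lit 227))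 (XT.lf (nat_lit 0) (nat_lit 5513579039373) (nat_lit 0) (nat_lit 0) (nat_lit 0) (nat_lit 0) (nat_lit 0) (nat_lit 0) (nat_lit 1) (nat_lit 0) (nat_lit 1) (nat_lit 0) (nat_lit 471) (nat_lit 383) (nat_lit 226))))) (XT.nd (nat_lit 282) (nat_lit 0) (nat_lit 0) (XT.nd (nat_lit 94) (nat_lit 0) (nat_lit 0) (XT.lf (nat_lit 0) (nat_lit 5954161002143) (nat_lit 0) (nat_lit 0) (nat_lit 0) (nat_lit 0) (nat_lit 0) (nat_lit 0) (nat_lit 1) (nat_lit 0) (nat_lit 1) (nat_lit 0) (nat_lit 472) (nat_lit 383) (nat_lit 225)) (XT.nd (nat_lit 94) (nat_lit 0) (nat_lit 0) (XT.lf (nat_lit 0) (nat_lit 6429989522341) (nat_lit 0) (nat_lit 0) (nat_lit 0) (nat_lit 0) (nat_lit 0) (nat_lit 0) (nat_lit 1) (nat_lit 0) (nat_lit 1) (nat_lit 0) (nat_lit 473) (nat_lit 383) (nat_lit 224)) (XT.lf (nat_lit 0) (nat_lit 6943884324532) (nat_lit 0) (nat_lit 0) (nat_lit 0) (nat_lit 0) (nat_lit 0) (nat_lit 0)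 (nat_lit 1) (nat_lit 0) (nat_lit 1) (nat_lit 0) (nat_lit 474) (nat_lit 383) (nat_lit 223)))) (XT.nd (nat_lit 188) (nat_lit 0) (nat_lit 0) (XT.nd (nat_lit 94) (nat_lit 0) (nat_lit 0) (XT.lf (nat_lit 0) (nat_lit 7498890711247) (nat_lit 0) (nat_lit 0) (nat_lit 0) (nat_lit 0) (nat_lit 0) (nat_lit 0) (nat_lit 1) (nat_lit 0) (nat_lit 1) (nat_lit 0) (nat_lit 475) (nat_lit 383) (nat_lit 222)) (XT.lf (nat_lit 0) (nat_lit 8098297609222) (nat_lit 0) (nat_lit 0) (nat_lit 0) (nat_lit 0) (nat_lit 0) (nat_lit 0) (nat_lit 1) (nat_lit 0) (nat_lit 1) (nat_lit 0) (nat_lit 476) (nat_lit 383) (nat_lit 221))) (XT.nd (nat_lit 94) (nat_lit 0) (nat_lit 0) (XT.lf (nat_lit 0) (nat_lit 8745657059334) (nat_lit 0) (nat_lit 0) (nat_lit 0) (nat_lit 0) (nat_lit 0) (nat_lit 0) (nat_lit 1) (nat_lit 0) (nat_lit 1) (nat_lit 0) (nat_lit 477) (nat_lit 383) (nat_lit 220)) (XT.lf (nat_lit 0) (nat_lit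 9444805265733) (nat_lit 0) (nat_lit 0) (nat_lit 0) (nat_lit 0) (nat_lit 0) (nat_lit 0) (nat_lit 1) (nat_lit 0) (nat_lit 1) (nat_lit 0) (nat_lit 478) (nat_lit 383) (nat_lit 219)))))) (XT.nd (nat_lit 658) (nat_lit 0) (nat_lit 0) (XT.nd (nat_lit 282) (nat_lit 0) (nat_lit 0) (XT.nd (nat_lit 94) (nat_lit 0) (nat_lit 0) (XT.lf (nat_lit 0) (nat_lit 10199885328899) (nat_lit 0) (nat_lit 0) (nat_lit 0) (nat_lit 0) (nat_lit 0) (nat_lit 0) (nat_lit 1) (nat_lit 0) (nat_lit 1) (nat_lit 0) (nat_lit 479) (nat_lit 383) (nat_lit 218)) (XT.nd (nat_lit 94) (nat_lit 0) (nat_lit 0) (XT.lf (nat_lit 0) (nat_lit 11015371797356) (nat_lit 0) (nat_lit 0) (nat_lit 0) (nat_lit 0) (nat_lit 0) (nat_lit 0) (nat_lit 1) (nat_lit 0) (nat_lit 1) (nat_lit 0) (nat_lit 480) (nat_lit 383) (nat_lit 217)) (XT.lf (nat_lit 0) (nat_lit 11896097183510) (nat_lit 0) (nat_lit 0) (nat_lit 0) (nat_lit 0) (nat_lit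 0) (nat_lit 0) (nat_lit 1) (nat_lit 0) (nat_lit 1) (nat_lit 0) (nat_lit 481) (nat_lit 383) (nat_lit 216)))) (XT.nd (nat_lit 188) (nat_lit 0) (nat_lit 0) (XT.nd (nat_lit 94) (nat_lit 0) (nat_lit 0) (XT.lf (nat_lit 0) (nat_lit 12847280600760) (nat_lit 0) (nat_lit 0) (nat_lit 0) (nat_lit 0) (nat_lit 0) (nat_lit 0) (nat_lit 1) (nat_lit 0) (nat_lit 1) (nat_lit 0) (nat_lit 482) (nat_lit 383) (nat_lit 215)) (XT.lf (nat_lit 0) (nat_lit 13874558691578) (nat_lit 0) (nat_lit 0) (nat_lit 0) (nat_lit 0) (nat_lit 0) (nat_lit 0) (nat_lit 1) (nat_lit 0) (nat_lit 1) (nat_lit 0) (nat_lit 483) (nat_lit 383) (nat_lit 214))) (XT.nd (nat_lit 94) (nat_lit 0) (nat_lit 0) (XT.lf (nat_lit 0) (nat_lit 14984019029836) (nat_lit 0) (nat_lit 0) (nat_lit 0) (nat_lit 0) (nat_lit 0) (nat_lit 0) (nat_lit 1) (nat_lit 0) (nat_lit 1) (nat_lit 0) (nat_lit 484) (nat_lit 383) (nat_lit 213)) (XT.lf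 (nat_lit 0) (nat_lit 16182236195316) (nat_lit 0) (nat_lit 0) (nat_lit 0) (nat_lit 0) (nat_lit 0) (nat_lit 0) (nat_lit 1) (nat_lit 0) (nat_lit 1) (nat_lit 0) (nat_lit 485) (nat_lit 383) (nat_lit 212))))) (XT.nd (nat_lit 376) (nat_lit 0) (nat_lit 0) (XT.nd (nat_lit 188) (nat_lit 0) (nat_lit 0) (XT.nd (nat_lit 94) (nat_lit 0) (nat_lit 0) (XT.lf (nat_lit 0) (nat_lit 17476310734184) (nat_lit 0) (nat_lit 0) (nat_lit 0) (nat_lit 0) (nat_lit 0) (nat_lit 0) (nat_lit 1) (nat_lit 0) (nat_lit 1) (nat_lit 0) (nat_lit 486) (nat_lit 383) (nat_lit 211)) (XT.lf (nat_lit 0) (nat_lit 18873911236300) (nat_lit 0) (nat_lit 0) (nat_lit 0) (nat_lit 0) (nat_lit 0) (nat_lit 0) (nat_lit 1) (nat_lit 0) (nat_lit 1) (nat_lit 0) (nat_lit 487) (nat_lit 383) (nat_lit 210))) (XT.nd (nat_lit 94) (nat_lit 0) (nat_lit 0) (XT.lf (nat_lit 0) (nat_lit 20383319778714) (nat_lit 0) (nat_lit 0) (nat_lit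 0) (nat_lit 0) (nat_lit 0) (nat_lit 0) (nat_lit 1) (nat_lit 0) (nat_lit 1) (nat_lit 0) (nat_lit 488) (nat_lit 383) (nat_lit 209)) (XT.lf (nat_lit 0) (nat_lit 22013481004640) (nat_lit 0) (nat_lit 0) (nat_lit 0) (nat_lit 0) (nat_lit 0) (nat_lit 0) (nat_lit 1) (nat_lit 0) (nat_lit 1) (nat_lit 0) (nat_lit 489) (nat_lit 383) (nat_lit 208)))) (XT.nd (nat_lit 188) (nat_lit 0) (nat_lit 0) (XT.nd (nat_lit 94) (nat_lit 0) (nat_lit 0) (XT.lf (nat_lit 0) (nat_lit 23774055128750) (nat_lit 0) (nat_lit 0) (nat_lit 0) (nat_lit 0) (nat_lit 0) (nat_lit 0) (nat_lit 1) (nat_lit 0) (nat_lit 1) (nat_lit 0) (nat_lit 490) (nat_lit 383) (nat_lit 207)) (XT.lf (nat_lit 0) (nat_lit 25675475182890) (nat_lit 0) (nat_lit 0) (nat_lit 0) (nat_lit 0) (nat_lit 0) (nat_lit 0) (nat_lit 1) (nat_lit 0) (nat_lit 1) (nat_lit 0) (nat_lit 491) (nat_lit 383) (nat_lit 206))) (XT.nd (nat_lit 94) (nat_lit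 0) (nat_lit 0) (XT.lf (nat_lit 0) (nat_lit 27729008841456) (nat_lit 0) (nat_lit 0) (nat_lit 0) (nat_lit 0) (nat_lit 0) (nat_lit 0) (nat_lit 1) (nat_lit 0) (nat_lit 1) (nat_lit 0) (nat_lit 492) (nat_lit 383) (nat_lit 205)) (XT.lf (nat_lit 0) (nat_lit 29946825192795) (nat_lit 0) (nat_lit 0) (nat_lit 0) (nat_lit 0) (nat_lit 0) (nat_lit 0) (nat_lit 1) (nat_lit 0) (nat_lit 1) (nat_lit 0) (nat_lit 493) (nat_lit 383) (nat_lit 204))))))))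
noncomputable def xc142 : XT := (XT.nd (nat_lit 59032) (nat_lit 0) (nat_lit 1596) (XT.nd (nat_lit 57716) (nat_lit 0) (nat_lit 7224) (XT.nd (nat_lit 658) (nat_lit 0) (nat_lit 0) (XT.nd (nat_lit 282) (nat_lit 0) (nat_lit 0) (XT.nd (nat_lit 94) (nat_lit 0) (nat_lit 0) (XT.lf (nat_lit 0) (nat_lit 32342066852321) (nat_lit 0) (nat_lit 0) (nat_lit 0) (nat_lit 0) (nat_lit 0) (nat_lit 0) (nat_lit 1) (nat_lit 0) (nat_lit 1) (nat_lit 0) (nat_lit 494) (nat_lit 383) (nat_lit 203)) (XT.nd (nat_lit 94) (nat_lit 0) (nat_lit 0) (XT.lf (nat_lit 0) (nat_lit 34928927844684) (nat_lit 0) (nat_lit 0) (nat_lit 0) (nat_lit 0) (nat_lit 0) (nat_lit 0) (nat_lit 1) (nat_lit 0) (nat_lit 1) (nat_lit 0) (nat_lit 495) (nat_lit 383) (nat_lit 202)) (XT.lf (nat_lit 0) (nat_lit 37722737716506) (nat_lit 0) (nat_lit 0) (nat_lit 0) (nat_lit 0) (nat_lit 0) (nat_lit 0) (nat_lit 1) (nat_lit 0) (nat_lit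 1) (nat_lit 0) (nat_lit 496) (nat_lit 383) (nat_lit 201)))) (XT.nd (nat_lit 188) (nat_lit 0) (nat_lit 0) (XT.nd (nat_lit 94) (nat_lit 0) (nat_lit 0) (XT.lf (nat_lit 0) (nat_lit 40740052378138) (nat_lit 0) (nat_lit 0) (nat_lit 0) (nat_lit 0) (nat_lit 0) (nat_lit 0) (nat_lit 1) (nat_lit 0) (nat_lit 1) (nat_lit 0) (nat_lit 497) (nat_lit 383) (nat_lit 200)) (XT.lf (nat_lit 0) (nat_lit 43998752212759) (nat_lit 0) (nat_lit 0) (nat_lit 0) (nat_lit 0) (nat_lit 0) (nat_lit 0) (nat_lit 1) (nat_lit 0) (nat_lit 1) (nat_lit 0) (nat_lit 498) (nat_lit 383) (nat_lit 199))) (XT.nd (nat_lit 94) (nat_lit 0) (nat_lit 0) (XT.lf (nat_lit 0) (nat_lit 47518148034206) (nat_lit 0) (nat_lit 0) (nat_lit 0) (nat_lit 0) (nat_lit 0) (nat_lit 0) (nat_lit 1) (nat_lit 0) (nat_lit 1) (nat_lit 0) (nat_lit 499) (nat_lit 383) (nat_lit 198)) (XT.lf (nat_lit 0) (nat_lit 51319095521419) (nat_lit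 0) (nat_lit 0) (nat_lit 0) (nat_lit 0) (nat_lit 0) (nat_lit 0) (nat_lit 1) (nat_lit 0) (nat_lit 1) (nat_lit 0) (nat_lit 500) (nat_lit 383) (nat_lit 197))))) (XT.nd (nat_lit 282) (nat_lit 0) (nat_lit 0) (XT.nd (nat_lit 94) (nat_lit 0) (nat_lit 0) (XT.lf (nat_lit 0) (nat_lit 55424118807656) (nat_lit 0) (nat_lit 0) (nat_lit 0) (nat_lit 0) (nat_lit 0) (nat_lit 0) (nat_lit 1) (nat_lit 0) (nat_lit 1) (nat_lit 0) (nat_lit 501) (nat_lit 383) (nat_lit 196)) (XT.nd (nat_lit 94) (nat_lit 0) (nat_lit 0) (XT.lf (nat_lit 0) (nat_lit 59857543956836) (nat_lit 0) (nat_lit 0) (nat_lit 0) (nat_lit 0) (nat_lit 0) (nat_lit 0) (nat_lit 1) (nat_lit 0) (nat_lit 1) (nat_lit 0) (nat_lit 502) (nat_lit 383) (nat_lit 195)) (XT.lf (nat_lit 0) (nat_lit 64645643117990) (nat_lit 0) (nat_lit 0) (nat_lit 0) (nat_lit 0) (nat_lit 0) (nat_lit 0) (nat_lit 1) (nat_lit 0) (nat_lit 1) (nat_lit 0)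 (nat_lit 503) (nat_lit 383) (nat_lit 194)))) (XT.nd (nat_lit 56588) (nat_lit 0) (nat_lit 10836) (XT.nd (nat_lit 56494) (nat_lit 0) (nat_lit 10752) (XT.lf (nat_lit 0) (nat_lit 69816790212075) (nat_lit 0) (nat_lit 0) (nat_lit 0) (nat_lit 0) (nat_lit 0) (nat_lit 0) (nat_lit 1) (nat_lit 0) (nat_lit 1) (nat_lit 0) (nat_lit 504) (nat_lit 383) (nat_lit 193)) (XT.lf (nat_lit 0) (nat_lit 5379348492) (nat_lit 924) (nat_lit 3759353094) (nat_lit 924) (nat_lit 3759353094) (nat_lit 128) (nat_lit 3) (nat_lit 139) (nat_lit 3) (nat_lit 139) (nat_lit 5) (nat_lit 384) (nat_lit 384) (nat_lit 312))) (XT.nd (nat_lit 94) (nat_lit 0) (nat_lit 0) (XT.lf (nat_lit 0) (nat_lit 11584739241) (nat_lit 840) (nat_lit 13290515360) (nat_lit 924) (nat_lit 1932914416) (nat_lit 129) (nat_lit 5) (nat_lit 139) (nat_lit 5) (nat_lit 140) (nat_lit 5) (nat_lit 385) (nat_lit 384) (nat_lit 311)) (XT.lf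 (nat_lit 84) (nat_lit 8565393736) (nat_lit 0) (nat_lit 4471187967) (nat_lit 924) (nat_lit 14836625900) (nat_lit 130) (nat_lit 5) (nat_lit 129) (nat_lit 5) (nat_lit 140) (nat_lit 5) (nat_lit 386) (nat_lit 384) (nat_lit 310)))))) (XT.nd (nat_lit 658) (nat_lit 2100) (nat_lit 0) (XT.nd (nat_lit 282) (nat_lit 1596) (nat_lit 0) (XT.nd (nat_lit 94) (nat_lit 0) (nat_lit 84) (XT.lf (nat_lit 84) (nat_lit 3455474888) (nat_lit 0) (nat_lit 11698358690) (nat_lit 924) (nat_lit 13842152599) (nat_lit 131) (nat_lit 5) (nat_lit 130) (nat_lit 5) (nat_lit 141) (nat_lit 5) (nat_lit 387) (nat_lit 384) (nat_lit 309)) (XT.nd (nat_lit 94) (nat_lit 0) (nat_lit 84) (XT.lf (nat_lit 0) (nat_lit 18006336024) (nat_lit 840) (nat_lit 1715170630) (nat_lit 924) (nat_lit 10458786860) (nat_lit 131) (nat_lit 5) (nat_lit 141) (nat_lit 5) (nat_lit 142) (nat_lit 5) (nat_lit 388) (nat_lit 384) (nat_lit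 308)) (XT.lf (nat_lit 0) (nat_lit 21701961474) (nat_lit 840) (nat_lit 6879779584) (nat_lit 924) (nat_lit 2846858240) (nat_lit 132) (nat_lit 5) (nat_lit 142) (nat_lit 5) (nat_lit 143) (nat_lit 5) (nat_lit 389) (nat_lit 384) (nat_lit 307)))) (XT.nd (nat_lit 188) (nat_lit 1008) (nat_lit 0) (XT.nd (nat_lit 94) (nat_lit 756) (nat_lit 0) (XT.lf (nat_lit 84) (nat_lit 20514062261) (nat_lit 0) (nat_lit 5850901056) (nat_lit 924) (nat_lit 6378219910) (nat_lit 133) (nat_lit 5) (nat_lit 132) (nat_lit 5) (nat_lit 143) (nat_lit 5) (nat_lit 390) (nat_lit 384) (nat_lit 306)) (XT.lf (nat_lit 0) (nat_lit 16409920475) (nat_lit 840) (nat_lit 15650303559) (nat_lit 924) (nat_lit 2069748901) (nat_lit 123) (nat_lit 5) (nat_lit 133) (nat_lit 5) (nat_lit 134) (nat_lit 5) (nat_lit 391) (nat_lit 384) (nat_lit 305))) (XT.nd (nat_lit 94) (nat_lit 420) (nat_lit 0) (XT.lf (nat_lit 0) (nat_lit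 3146167436) (nat_lit 588) (nat_lit 23342796549) (nat_lit 84) (nat_lit 9104452500) (nat_lit 116) (nat_lit 5) (nat_lit 123) (nat_lit 5) (nat_lit 117) (nat_lit 5) (nat_lit 392) (nat_lit 384) (nat_lit 304)) (XT.lf (nat_lit 0) (nat_lit 8037058026) (nat_lit 420) (nat_lit 1364246563) (nat_lit 504) (nat_lit 27736211342) (nat_lit 111) (nat_lit 5) (nat_lit 116) (nat_lit 5) (nat_lit 117) (nat_lit 5) (nat_lit 393) (nat_lit 384) (nat_lit 303))))) (XT.nd (nat_lit 282) (nat_lit 1344) (nat_lit 0) (XT.nd (nat_lit 94) (nat_lit 336) (nat_lit 0) (XT.lf (nat_lit 0) (nat_lit 3675080065) (nat_lit 420) (nat_lit 13345736560) (nat_lit 504) (nat_lit 21741128513) (nat_lit 106) (nat_lit 5) (nat_lit 111) (nat_lit 5) (nat_lit 112) (nat_lit 5) (nat_lit 394) (nat_lit 384) (nat_lit 302)) (XT.nd (nat_lit 94) (nat_lit 336) (nat_lit 0) (XT.lf (nat_lit 0) (nat_lit 25994302533) (nat_lit 504) (nat_lit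 634766816) (nat_lit 84) (nat_lit 13850038687) (nat_lit 106) (nat_lit 5) (nat_lit 112) (nat_lit 5) (nat_lit 107) (nat_lit 5) (nat_lit 395) (nat_lit 384) (nat_lit 301)) (XT.lf (nat_lit 0) (nat_lit 36505354333) (nat_lit 420) (nat_lit 4768764659) (nat_lit 84) (nat_lit 1018540624) (nat_lit 102) (nat_lit 5) (nat_lit 107) (nat_lit 5) (nat_lit 103) (nat_lit 5) (nat_lit 396) (nat_lit 384) (nat_lit 300)))) (XT.nd (nat_lit 188) (nat_lit 588) (nat_lit 0) (XT.nd (nat_lit 94) (nat_lit 336) (nat_lit 0) (XT.lf (nat_lit 0) (nat_lit 4508978382) (nat_lit 420) (nat_lit 9098968282) (nat_lit 84) (nat_lit 30589613783) (nat_lit 97) (nat_lit 5) (nat_lit 102) (nat_lit 5) (nat_lit 98) (nat_lit 5) (nat_lit 397) (nat_lit 384) (nat_lit 299)) (XT.lf (nat_lit 0) (nat_lit 16287249095) (nat_lit 420) (nat_lit 13461516493) (nat_lit 84) (nat_lit 16458291897) (nat_lit 93) (nat_lit 5) (nat_lit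 98) (nat_lit 5) (nat_lit 94) (nat_lit 5) (nat_lit 398) (nat_lit 384) (nat_lit 298))) (XT.nd (nat_lit 94) (nat_lit 252) (nat_lit 0) (XT.lf (nat_lit 0) (nat_lit 29881732304) (nat_lit 420) (nat_lit 17713223062) (nat_lit 84) (nat_lit 738661379) (nat_lit 89) (nat_lit 5) (nat_lit 94) (nat_lit 5) (nat_lit 90) (nat_lit 5) (nat_lit 399) (nat_lit 384) (nat_lit 297)) (XT.lf (nat_lit 0) (nat_lit 28488796648) (nat_lit 252) (nat_lit 17253285653) (nat_lit 336) (nat_lit 4829303037) (nat_lit 86) (nat_lit 5) (nat_lit 89) (nat_lit 5) (nat_lit 90) (nat_lit 5) (nat_lit 400) (nat_lit 384) (nat_lit 296))))))) (XT.nd (nat_lit 1316) (nat_lit 2268) (nat_lit 0) (XT.nd (nat_lit 658) (nat_lit 1344) (nat_lit 0) (XT.nd (nat_lit 282) (nat_lit 1092) (nat_lit 0) (XT.nd (nat_lit 94) (nat_lit 504) (nat_lit 0) (XT.lf (nat_lit 0) (nat_lit 10548316055) (nat_lit 420) (nat_lit 26466241831) (nat_lit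 84) (nat_lit 15916824819) (nat_lit 81) (nat_lit 5) (nat_lit 86) (nat_lit 5) (nat_lit 82) (nat_lit 5) (nat_lit 401) (nat_lit 384) (nat_lit 295)) (XT.nd (nat_lit 94) (nat_lit 252) (nat_lit 0) (XT.lf (nat_lit 0) (nat_lit 24625541857) (nat_lit 252) (nat_lit 3424148780) (nat_lit 336) (nat_lit 27373393720) (nat_lit 78) (nat_lit 5) (nat_lit 81) (nat_lit 5) (nat_lit 82) (nat_lit 5) (nat_lit 402) (nat_lit 384) (nat_lit 294)) (XT.lf (nat_lit 0) (nat_lit 22861767394) (nat_lit 252) (nat_lit 25422250916) (nat_lit 336) (nat_lit 9763461675) (nat_lit 75) (nat_lit 5) (nat_lit 78) (nat_lit 5) (nat_lit 79) (nat_lit 5) (nat_lit 403) (nat_lit 384) (nat_lit 293)))) (XT.nd (nat_lit 188) (nat_lit 504) (nat_lit 0) (XT.nd (nat_lit 94) (nat_lit 252) (nat_lit 0) (XT.lf (nat_lit 0) (nat_lit 10074430383) (nat_lit 336) (nat_lit 39480959461) (nat_lit 84) (nat_lit 11263442800) (nat_lit 71)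 (nat_lit 5) (nat_lit 75) (nat_lit 5) (nat_lit 72) (nat_lit 5) (nat_lit 404) (nat_lit 384) (nat_lit 292)) (XT.lf (nat_lit 0) (nat_lit 19883778722) (nat_lit 252) (nat_lit 12634988912) (nat_lit 336) (nat_lit 31217049146) (nat_lit 68) (nat_lit 5) (nat_lit 71) (nat_lit 5) (nat_lit 72) (nat_lit 5) (nat_lit 405) (nat_lit 384) (nat_lit 291))) (XT.nd (nat_lit 94) (nat_lit 336) (nat_lit 0) (XT.lf (nat_lit 0) (nat_lit 18710356977) (nat_lit 168) (nat_lit 39459762961) (nat_lit 252) (nat_lit 8645466306) (nat_lit 66) (nat_lit 5) (nat_lit 68) (nat_lit 5) (nat_lit 69) (nat_lit 5) (nat_lit 406) (nat_lit 384) (nat_lit 290)) (XT.lf (nat_lit 0) (nat_lit 16512350010) (nat_lit 336) (nat_lit 52255078325) (nat_lit 84) (nat_lit 1297826819) (nat_lit 62) (nat_lit 5) (nat_lit 66) (nat_lit 5) (nat_lit 63) (nat_lit 5) (nat_lit 407) (nat_lit 384) (nat_lit 289))))) (XT.nd (nat_lit 282) (nat_lit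 756) (nat_lit 0) (XT.nd (nat_lit 94) (nat_lit 420) (nat_lit 0) (XT.lf (nat_lit 0) (nat_lit 16892015576) (nat_lit 168) (nat_lit 28268159109) (nat_lit 252) (nat_lit 28318622539) (nat_lit 60) (nat_lit 5) (nat_lit 62) (nat_lit 5) (nat_lit 63) (nat_lit 5) (nat_lit 408) (nat_lit 384) (nat_lit 288)) (XT.nd (nat_lit 94) (nat_lit 168) (nat_lit 0) (XT.lf (nat_lit 0) (nat_lit 413069031) (nat_lit 252) (nat_lit 60516964755) (nat_lit 84) (nat_lit 16163992694) (nat_lit 57) (nat_lit 5) (nat_lit 60) (nat_lit 5) (nat_lit 58) (nat_lit 5) (nat_lit 409) (nat_lit 384) (nat_lit 287)) (XT.lf (nat_lit 0) (nat_lit 16206852982) (nat_lit 168) (nat_lit 15984879144) (nat_lit 252) (nat_lit 48696500823) (nat_lit 55) (nat_lit 5) (nat_lit 57) (nat_lit 5) (nat_lit 58) (nat_lit 5) (nat_lit 410) (nat_lit 384) (nat_lit 286)))) (XT.nd (nat_lit 188) (nat_lit 336) (nat_lit 0) (XT.nd (nat_lit 94)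 (nat_lit 252) (nat_lit 0) (XT.lf (nat_lit 0) (nat_lit 16285081508) (nat_lit 168) (nat_lit 52057531503) (nat_lit 252) (nat_lit 16551866689) (nat_lit 53) (nat_lit 5) (nat_lit 55) (nat_lit 5) (nat_lit 56) (nat_lit 5) (nat_lit 411) (nat_lit 384) (nat_lit 285)) (XT.lf (nat_lit 0) (nat_lit 16834165900) (nat_lit 168) (nat_lit 2422408227) (nat_lit 252) (nat_lit 69866791841) (nat_lit 50) (nat_lit 5) (nat_lit 52) (nat_lit 5) (nat_lit 53) (nat_lit 5) (nat_lit 412) (nat_lit 384) (nat_lit 284))) (XT.nd (nat_lit 94) (nat_lit 168) (nat_lit 0) (XT.lf (nat_lit 0) (nat_lit 17384430010) (nat_lit 168) (nat_lit 42254592778) (nat_lit 252) (nat_lit 33923511779) (nat_lit 48) (nat_lit 5) (nat_lit 50) (nat_lit 5) (nat_lit 51) (nat_lit 5) (nat_lit 413) (nat_lit 384) (nat_lit 283)) (XT.lf (nat_lit 0) (nat_lit 6549185355) (nat_lit 168) (nat_lit 79486834820) (nat_lit 84) (nat_lit 12226463433)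 (nat_lit 46) (nat_lit 5) (nat_lit 48) (nat_lit 5) (nat_lit 47) (nat_lit 5) (nat_lit 414) (nat_lit 384) (nat_lit 282)))))) (XT.nd (nat_lit 658) (nat_lit 1092) (nat_lit 0) (XT.nd (nat_lit 282) (nat_lit 672) (nat_lit 0) (XT.nd (nat_lit 94) (nat_lit 336) (nat_lit 0) (XT.lf (nat_lit 0) (nat_lit 20104853134) (nat_lit 168) (nat_lit 31353800735) (nat_lit 252) (nat_lit 51732595036) (nat_lit 44) (nat_lit 5) (nat_lit 46) (nat_lit 5) (nat_lit 47) (nat_lit 5) (nat_lit 415) (nat_lit 384) (nat_lit 281)) (XT.nd (nat_lit 94) (nat_lit 252) (nat_lit 0) (XT.lf (nat_lit 0) (nat_lit 22309934347) (nat_lit 84) (nat_lit 79835692583) (nat_lit 168) (nat_lit 6259451143) (nat_lit 43) (nat_lit 5) (nat_lit 44) (nat_lit 5) (nat_lit 45) (nat_lit 4) (nat_lit 416) (nat_lit 384) (nat_lit 280)) (XT.lf (nat_lit 0) (nat_lit 24704585471) (nat_lit 168) (nat_lit 19157574076) (nat_lit 252) (nat_lit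 70021295776) (nat_lit 40) (nat_lit 5) (nat_lit 42) (nat_lit 5) (nat_lit 43) (nat_lit 5) (nat_lit 417) (nat_lit 384) (nat_lit 279)))) (XT.nd (nat_lit 188) (nat_lit 336) (nat_lit 0) (XT.nd (nat_lit 94) (nat_lit 252) (nat_lit 0) (XT.lf (nat_lit 0) (nat_lit 27745625641) (nat_lit 84) (nat_lit 72709858249) (nat_lit 168) (nat_lit 19205423892) (nat_lit 39) (nat_lit 5) (nat_lit 40) (nat_lit 5) (nat_lit 41) (nat_lit 4) (nat_lit 418) (nat_lit 384) (nat_lit 278)) (XT.lf (nat_lit 0) (nat_lit 31482185683) (nat_lit 168) (nat_lit 5442065111) (nat_lit 252) (nat_lit 88828936807) (nat_lit 36) (nat_lit 5) (nat_lit 38) (nat_lit 5) (nat_lit 39) (nat_lit 5) (nat_lit 419) (nat_lit 384) (nat_lit 277))) (XT.nd (nat_lit 94) (nat_lit 252) (nat_lit 0) (XT.lf (nat_lit 0) (nat_lit 35512618320) (nat_lit 84) (nat_lit 64595929843) (nat_lit 168) (nat_lit 32046703830) (nat_lit 35) (nat_lit 5)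 (nat_lit 36) (nat_lit 5) (nat_lit 37) (nat_lit 4) (nat_lit 420) (nat_lit 384) (nat_lit 276)) (XT.lf (nat_lit 0) (nat_lit 30892534885) (nat_lit 252) (nat_lit 98301726038) (nat_lit 84) (nat_lit 9724789479) (nat_lit 32) (nat_lit 5) (nat_lit 35) (nat_lit 5) (nat_lit 33) (nat_lit 4) (nat_lit 421) (nat_lit 384) (nat_lit 275))))) (XT.nd (nat_lit 376) (nat_lit 504) (nat_lit 0) (XT.nd (nat_lit 188) (nat_lit 252) (nat_lit 0) (XT.nd (nat_lit 94) (nat_lit 252) (nat_lit 0) (XT.lf (nat_lit 0) (nat_lit 45978537781) (nat_lit 84) (nat_lit 55295942058) (nat_lit 168) (nat_lit 44746688676) (nat_lit 31) (nat_lit 5) (nat_lit 32) (nat_lit 5) (nat_lit 33) (nat_lit 4) (nat_lit 422) (nat_lit 384) (nat_lit 274)) (XT.lf (nat_lit 0) (nat_lit 25836356852) (nat_lit 252) (nat_lit 100975151784) (nat_lit 84) (nat_lit 26711725996) (nat_lit 28) (nat_lit 5) (nat_lit 31) (nat_lit 5) (nat_lit 29)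 (nat_lit 4) (nat_lit 423) (nat_lit 384) (nat_lit 273))) (XT.nd (nat_lit 94) (nat_lit 168) (nat_lit 0) (XT.lf (nat_lit 0) (nat_lit 59566232585) (nat_lit 84) (nat_lit 44584079394) (nat_lit 168) (nat_lit 57255877847) (nat_lit 27) (nat_lit 5) (nat_lit 28) (nat_lit 5) (nat_lit 29) (nat_lit 4) (nat_lit 424) (nat_lit 384) (nat_lit 272)) (XT.lf (nat_lit 0) (nat_lit 21805784297) (nat_lit 168) (nat_lit 101911443047) (nat_lit 84) (nat_lit 46007960214) (nat_lit 25) (nat_lit 5) (nat_lit 27) (nat_lit 5) (nat_lit 26) (nat_lit 4) (nat_lit 425) (nat_lit 384) (nat_lit 271)))) (XT.nd (nat_lit 188) (nat_lit 252) (nat_lit 0) (XT.nd (nat_lit 94) (nat_lit 168) (nat_lit 0) (XT.lf (nat_lit 0) (nat_lit 76761215466) (nat_lit 84) (nat_lit 32202848902) (nat_lit 168) (nat_lit 69509827093) (nat_lit 24) (nat_lit 5) (nat_lit 25) (nat_lit 5) (nat_lit 26) (nat_lit 4) (nat_lit 426) (nat_lit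 384) (nat_lit 270)) (XT.lf (nat_lit 0) (nat_lit 18960343965) (nat_lit 168) (nat_lit 100766340232) (nat_lit 84) (nat_lit 67970291002) (nat_lit 22) (nat_lit 5) (nat_lit 24) (nat_lit 5) (nat_lit 23) (nat_lit 4) (nat_lit 427) (nat_lit 384) (nat_lit 269))) (XT.nd (nat_lit 94) (nat_lit 168) (nat_lit 0) (XT.lf (nat_lit 0) (nat_lit 98120073739) (nat_lit 84) (nat_lit 17858756303) (nat_lit 168) (nat_lit 81426800973) (nat_lit 21) (nat_lit 5) (nat_lit 22) (nat_lit 5) (nat_lit 23) (nat_lit 4) (nat_lit 428) (nat_lit 384) (nat_lit 268)) (XT.lf (nat_lit 0) (nat_lit 17487476814) (nat_lit 168) (nat_lit 97139149218) (nat_lit 84) (nat_lit 93002732553) (nat_lit 19) (nat_lit 5) (nat_lit 21) (nat_lit 5) (nat_lit 20) (nat_lit 4) (nat_lit 429) (nat_lit 384) (nat_lit 267))))))))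
noncomputable def xc143 : XT := (XT.nd (nat_lit 2632) (nat_lit 0) (nat_lit 0) (XT.nd (nat_lit 1316) (nat_lit 0) (nat_lit 0) (XT.nd (nat_lit 658) (nat_lit 756) (nat_lit 0) (XT.nd (nat_lit 282) (nat_lit 504) (nat_lit 0) (XT.nd (nat_lit 94) (nat_lit 252) (nat_lit 0) (XT.lf (nat_lit 0) (nat_lit 124279970649) (nat_lit 84) (nat_lit 1217423403) (nat_lit 168) (nat_lit 92905082244) (nat_lit 18) (nat_lit 5) (nat_lit 19) (nat_lit 5) (nat_lit 20) (nat_lit 4) (nat_lit 430) (nat_lit 384) (nat_lit 266)) (XT.nd (nat_lit 94) (nat_lit 84) (nat_lit 0) (XT.lf (nat_lit 0) (nat_lit 17606422373) (nat_lit 168) (nat_lit 90564746482) (nat_lit 84) (nat_lit 121562651605) (nat_lit 16) (nat_lit 5) (nat_lit 18) (nat_lit 5) (nat_lit 17) (nat_lit 4) (nat_lit 431) (nat_lit 384) (nat_lit 265)) (XT.lf (nat_lit 0) (nat_lit 138150072943) (nat_lit 168) (nat_lit 86000590697) (nat_lit 0) (nat_lit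 17522548455) (nat_lit 15) (nat_lit 5) (nat_lit 17) (nat_lit 4) (nat_lit 15) (nat_lit 4) (nat_lit 432) (nat_lit 384) (nat_lit 264)))) (XT.nd (nat_lit 188) (nat_lit 252) (nat_lit 0) (XT.nd (nat_lit 94) (nat_lit 84) (nat_lit 0) (XT.lf (nat_lit 0) (nat_lit 19572626127) (nat_lit 168) (nat_lit 80504512502) (nat_lit 84) (nat_lit 154167673721) (nat_lit 13) (nat_lit 5) (nat_lit 15) (nat_lit 5) (nat_lit 14) (nat_lit 4) (nat_lit 433) (nat_lit 384) (nat_lit 263)) (XT.lf (nat_lit 0) (nat_lit 154120326202) (nat_lit 168) (nat_lit 74120027494) (nat_lit 0) (nat_lit 39235370892) (nat_lit 12) (nat_lit 5) (nat_lit 14) (nat_lit 4) (nat_lit 12) (nat_lit 4) (nat_lit 434) (nat_lit 384) (nat_lit 262))) (XT.nd (nat_lit 94) (nat_lit 84) (nat_lit 0) (XT.lf (nat_lit 0) (nat_lit 23682736997) (nat_lit 168) (nat_lit 66336056117) (nat_lit 84) (nat_lit 191403452816) (nat_lit 10) (nat_lit 5)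 (nat_lit 12) (nat_lit 5) (nat_lit 11) (nat_lit 4) (nat_lit 435) (nat_lit 384) (nat_lit 261)) (XT.lf (nat_lit 0) (nat_lit 173852790890) (nat_lit 168) (nat_lit 57794526982) (nat_lit 0) (nat_lit 64437242415) (nat_lit 9) (nat_lit 5) (nat_lit 11) (nat_lit 4) (nat_lit 9) (nat_lit 4) (nat_lit 436) (nat_lit 384) (nat_lit 260))))) (XT.nd (nat_lit 282) (nat_lit 336) (nat_lit 0) (XT.nd (nat_lit 94) (nat_lit 252) (nat_lit 0) (XT.lf (nat_lit 0) (nat_lit 30280270340) (nat_lit 168) (nat_lit 47341575350) (nat_lit 84) (nat_lit 233932409598) (nat_lit 7) (nat_lit 5) (nat_lit 9) (nat_lit 5) (nat_lit 8) (nat_lit 4) (nat_lit 437) (nat_lit 384) (nat_lit 259)) (XT.nd (nat_lit 94) (nat_lit 168) (nat_lit 0) (XT.lf (nat_lit 0) (nat_lit 197877118734) (nat_lit 168) (nat_lit 36255135958) (nat_lit 0) (nat_lit 93670768659) (nat_lit 6) (nat_lit 5) (nat_lit 8) (nat_lit 4) (nat_lit 6) (nat_lit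 4) (nat_lit 438) (nat_lit 384) (nat_lit 258)) (XT.lf (nat_lit 0) (nat_lit 39762021262) (nat_lit 168) (nat_lit 22694680941) (nat_lit 84) (nat_lit 282503557316) (nat_lit 4) (nat_lit 5) (nat_lit 6) (nat_lit 5) (nat_lit 5) (nat_lit 4) (nat_lit 439) (nat_lit 384) (nat_lit 257)))) (XT.nd (nat_lit 188) (nat_lit 0) (nat_lit 0) (XT.nd (nat_lit 94) (nat_lit 252) (nat_lit 0) (XT.lf (nat_lit 0) (nat_lit 226797567994) (nat_lit 168) (nat_lit 8617227249) (nat_lit 0) (nat_lit 127552554815) (nat_lit 3) (nat_lit 5) (nat_lit 5) (nat_lit 4) (nat_lit 3) (nat_lit 4) (nat_lit 440) (nat_lit 384) (nat_lit 256)) (XT.lf (nat_lit 0) (nat_lit 554107379326) (nat_lit 0) (nat_lit 0) (nat_lit 0) (nat_lit 0) (nat_lit 0) (nat_lit 0) (nat_lit 1) (nat_lit 0) (nat_lit 1) (nat_lit 0) (nat_lit 441) (nat_lit 384) (nat_lit 255))) (XT.nd (nat_lit 94) (nat_lit 0) (nat_lit 0) (XT.lf (nat_lit 0) (nat_lit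 597891215210) (nat_lit 0) (nat_lit 0) (nat_lit 0) (nat_lit 0) (nat_lit 0) (nat_lit 0) (nat_lit 1) (nat_lit 0) (nat_lit 1) (nat_lit 0) (nat_lit 442) (nat_lit 384) (nat_lit 254)) (XT.lf (nat_lit 0) (nat_lit 645177761757) (nat_lit 0) (nat_lit 0) (nat_lit 0) (nat_lit 0) (nat_lit 0) (nat_lit 0) (nat_lit 1) (nat_lit 0) (nat_lit 1) (nat_lit 0) (nat_lit 443) (nat_lit 384) (nat_lit 253)))))) (XT.nd (nat_lit 658) (nat_lit 0) (nat_lit 0) (XT.nd (nat_lit 282) (nat_lit 0) (nat_lit 0) (XT.nd (nat_lit 94) (nat_lit 0) (nat_lit 0) (XT.lf (nat_lit 0) (nat_lit 696247235538) (nat_lit 0) (nat_lit 0) (nat_lit 0) (nat_lit 0) (nat_lit 0) (nat_lit 0) (nat_lit 1) (nat_lit 0) (nat_lit 1) (nat_lit 0) (nat_lit 444) (nat_lit 384) (nat_lit 252)) (XT.nd (nat_lit 94) (nat_lit 0) (nat_lit 0) (XT.lf (nat_lit 0) (nat_lit 751402270471) (nat_lit 0) (nat_lit 0) (nat_lit 0) (nat_lit 0) (nat_lit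 0) (nat_lit 0) (nat_lit 1) (nat_lit 0) (nat_lit 1) (nat_lit 0) (nat_lit 445) (nat_lit 384) (nat_lit 251)) (XT.lf (nat_lit 0) (nat_lit 810969711210) (nat_lit 0) (nat_lit 0) (nat_lit 0) (nat_lit 0) (nat_lit 0) (nat_lit 0) (nat_lit 1) (nat_lit 0) (nat_lit 1) (nat_lit 0) (nat_lit 446) (nat_lit 384) (nat_lit 250)))) (XT.nd (nat_lit 188) (nat_lit 0) (nat_lit 0) (XT.nd (nat_lit 94) (nat_lit 0) (nat_lit 0) (XT.lf (nat_lit 0) (nat_lit 875302549994) (nat_lit 0) (nat_lit 0) (nat_lit 0) (nat_lit 0) (nat_lit 0) (nat_lit 0) (nat_lit 1) (nat_lit 0) (nat_lit 1) (nat_lit 0) (nat_lit 447) (nat_lit 384) (nat_lit 249)) (XT.lf (nat_lit 0) (nat_lit 944782018461) (nat_lit 0) (nat_lit 0) (nat_lit 0) (nat_lit 0) (nat_lit 0) (nat_lit 0) (nat_lit 1) (nat_lit 0) (nat_lit 1) (nat_lit 0) (nat_lit 448) (nat_lit 384) (nat_lit 248))) (XT.nd (nat_lit 94) (nat_lit 0) (nat_lit 0) (XT.lf (nat_lit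 0) (nat_lit 1019819846795) (nat_lit 0) (nat_lit 0) (nat_lit 0) (nat_lit 0) (nat_lit 0) (nat_lit 0) (nat_lit 1) (nat_lit 0) (nat_lit 1) (nat_lit 0) (nat_lit 449) (nat_lit 384) (nat_lit 247)) (XT.lf (nat_lit 0) (nat_lit 1100860703607) (nat_lit 0) (nat_lit 0) (nat_lit 0) (nat_lit 0) (nat_lit 0) (nat_lit 0) (nat_lit 1) (nat_lit 0) (nat_lit 1) (nat_lit 0) (nat_lit 450) (nat_lit 384) (nat_lit 246))))) (XT.nd (nat_lit 282) (nat_lit 0) (nat_lit 0) (XT.nd (nat_lit 94) (nat_lit 0) (nat_lit 0) (XT.lf (nat_lit 0) (nat_lit 1188384831014) (nat_lit 0) (nat_lit 0) (nat_lit 0) (nat_lit 0) (nat_lit 0) (nat_lit 0) (nat_lit 1) (nat_lit 0) (nat_lit 1) (nat_lit 0) (nat_lit 451) (nat_lit 384) (nat_lit 245)) (XT.nd (nat_lit 94) (nat_lit 0) (nat_lit 0) (XT.lf (nat_lit 0) (nat_lit 1282910890509) (nat_lit 0) (nat_lit 0) (nat_lit 0) (nat_lit 0) (nat_lit 0) (nat_lit 0) (nat_lit 1) (nat_lit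 0) (nat_lit 1) (nat_lit 0) (nat_lit 452) (nat_lit 384) (nat_lit 244)) (XT.lf (nat_lit 0) (nat_lit 1384999036520) (nat_lit 0) (nat_lit 0) (nat_lit 0) (nat_lit 0) (nat_lit 0) (nat_lit 0) (nat_lit 1) (nat_lit 0) (nat_lit 1) (nat_lit 0) (nat_lit 453) (nat_lit 384) (nat_lit 243)))) (XT.nd (nat_lit 188) (nat_lit 0) (nat_lit 0) (XT.nd (nat_lit 94) (nat_lit 0) (nat_lit 0) (XT.lf (nat_lit 0) (nat_lit 1495254235838) (nat_lit 0) (nat_lit 0) (nat_lit 0) (nat_lit 0) (nat_lit 0) (nat_lit 0) (nat_lit 1) (nat_lit 0) (nat_lit 1) (nat_lit 0) (nat_lit 454) (nat_lit 384) (nat_lit 242)) (XT.lf (nat_lit 0) (nat_lit 1614329852607) (nat_lit 0) (nat_lit 0) (nat_lit 0) (nat_lit 0) (nat_lit 0) (nat_lit 0) (nat_lit 1) (nat_lit 0) (nat_lit 1) (nat_lit 0) (nat_lit 455) (nat_lit 384) (nat_lit 241))) (XT.nd (nat_lit 94) (nat_lit 0) (nat_lit 0) (XT.lf (nat_lit 0) (nat_lit 1742931520112) (nat_lit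 0) (nat_lit 0) (nat_lit 0) (nat_lit 0) (nat_lit 0) (nat_lit 0) (nat_lit 1) (nat_lit 0) (nat_lit 1) (nat_lit 0) (nat_lit 456) (nat_lit 384) (nat_lit 240)) (XT.lf (nat_lit 0) (nat_lit 1881821322308) (nat_lit 0) (nat_lit 0) (nat_lit 0) (nat_lit 0) (nat_lit 0) (nat_lit 0) (nat_lit 1) (nat_lit 0) (nat_lit 1) (nat_lit 0) (nat_lit 457) (nat_lit 384) (nat_lit 239))))))) (XT.nd (nat_lit 1316) (nat_lit 0) (nat_lit 0) (XT.nd (nat_lit 658) (nat_lit 0) (nat_lit 0) (XT.nd (nat_lit 282) (nat_lit 0) (nat_lit 0) (XT.nd (nat_lit 94) (nat_lit 0) (nat_lit 0) (XT.lf (nat_lit 0) (nat_lit 2031822309874) (nat_lit 0) (nat_lit 0) (nat_lit 0) (nat_lit 0) (nat_lit 0) (nat_lit 0) (nat_lit 1) (nat_lit 0) (nat_lit 1) (nat_lit 0) (nat_lit 458) (nat_lit 384) (nat_lit 238)) (XT.nd (nat_lit 94) (nat_lit 0) (nat_lit 0) (XT.lf (nat_lit 0) (nat_lit 2193823377553) (nat_lit 0) (nat_lit 0) (nat_lit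 0) (nat_lit 0) (nat_lit 0) (nat_lit 0) (nat_lit 1) (nat_lit 0) (nat_lit 1) (nat_lit 0) (nat_lit 459) (nat_lit 384) (nat_lit 237)) (XT.lf (nat_lit 0) (nat_lit 2368784531671) (nat_lit 0) (nat_lit 0) (nat_lit 0) (nat_lit 0) (nat_lit 0) (nat_lit 0) (nat_lit 1) (nat_lit 0) (nat_lit 1) (nat_lit 0) (nat_lit 460) (nat_lit 384) (nat_lit 236)))) (XT.nd (nat_lit 188) (nat_lit 0) (nat_lit 0) (XT.nd (nat_lit 94) (nat_lit 0) (nat_lit 0) (XT.lf (nat_lit 0) (nat_lit 2557742579067) (nat_lit 0) (nat_lit 0) (nat_lit 0) (nat_lit 0) (nat_lit 0) (nat_lit 0) (nat_lit 1) (nat_lit 0) (nat_lit 1) (nat_lit 0) (nat_lit 461) (nat_lit 384) (nat_lit 235)) (XT.lf (nat_lit 0) (nat_lit 2761817271134) (nat_lit 0) (nat_lit 0) (nat_lit 0) (nat_lit 0) (nat_lit 0) (nat_lit 0) (nat_lit 1) (nat_lit 0) (nat_lit 1) (nat_lit 0) (nat_lit 462) (nat_lit 384) (nat_lit 234))) (XT.nd (nat_lit 94) (nat_lit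 0) (nat_lit 0) (XT.lf (nat_lit 0) (nat_lit 2982217939379) (nat_lit 0) (nat_lit 0) (nat_lit 0) (nat_lit 0) (nat_lit 0) (nat_lit 0) (nat_lit 1) (nat_lit 0) (nat_lit 1) (nat_lit 0) (nat_lit 463) (nat_lit 384) (nat_lit 233)) (XT.lf (nat_lit 0) (nat_lit 3220250661836) (nat_lit 0) (nat_lit 0) (nat_lit 0) (nat_lit 0) (nat_lit 0) (nat_lit 0) (nat_lit 1) (nat_lit 0) (nat_lit 1) (nat_lit 0) (nat_lit 464) (nat_lit 384) (nat_lit 232))))) (XT.nd (nat_lit 282) (nat_lit 0) (nat_lit 0) (XT.nd (nat_lit 94) (nat_lit 0) (nat_lit 0) (XT.lf (nat_lit 0) (nat_lit 3477326002788) (nat_lit 0) (nat_lit 0) (nat_lit 0) (nat_lit 0) (nat_lit 0) (nat_lit 0) (nat_lit 1) (nat_lit 0) (nat_lit 1) (nat_lit 0) (nat_lit 465) (nat_lit 384) (nat_lit 231)) (XT.nd (nat_lit 94) (nat_lit 0) (nat_lit 0) (XT.lf (nat_lit 0) (nat_lit 3754967371662) (nat_lit 0) (nat_lit 0) (nat_lit 0) (nat_lit 0) (nat_lit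 0) (nat_lit 0) (nat_lit 1) (nat_lit 0) (nat_lit 1) (nat_lit 0) (nat_lit 466) (nat_lit 384) (nat_lit 230)) (XT.lf (nat_lit 0) (nat_lit 4054820050643) (nat_lit 0) (nat_lit 0) (nat_lit 0) (nat_lit 0) (nat_lit 0) (nat_lit 0) (nat_lit 1) (nat_lit 0) (nat_lit 1) (nat_lit 0) (nat_lit 467) (nat_lit 384) (nat_lit 229)))) (XT.nd (nat_lit 188) (nat_lit 0) (nat_lit 0) (XT.nd (nat_lit 94) (nat_lit 0) (nat_lit 0) (XT.lf (nat_lit 0) (nat_lit 4378660944497) (nat_lit 0) (nat_lit 0) (nat_lit 0) (nat_lit 0) (nat_lit 0) (nat_lit 0) (nat_lit 1) (nat_lit 0) (nat_lit 1) (nat_lit 0) (nat_lit 468) (nat_lit 384) (nat_lit 228)) (XT.lf (nat_lit 0) (nat_lit 4728409110372) (nat_lit 0) (nat_lit 0) (nat_lit 0) (nat_lit 0) (nat_lit 0) (nat_lit 0) (nat_lit 1) (nat_lit 0) (nat_lit 1) (nat_lit 0) (nat_lit 469) (nat_lit 384) (nat_lit 227))) (XT.nd (nat_lit 94) (nat_lit 0) (nat_lit 0) (XT.lf (nat_lit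 0) (nat_lit 5106137129991) (nat_lit 0) (nat_lit 0) (nat_lit 0) (nat_lit 0) (nat_lit 0) (nat_lit 0) (nat_lit 1) (nat_lit 0) (nat_lit 1) (nat_lit 0) (nat_lit 470) (nat_lit 384) (nat_lit 226)) (XT.lf (nat_lit 0) (nat_lit 5514083391619) (nat_lit 0) (nat_lit 0) (nat_lit 0) (nat_lit 0) (nat_lit 0) (nat_lit 0) (nat_lit 1) (nat_lit 0) (nat_lit 1) (nat_lit 0) (nat_lit 471) (nat_lit 384) (nat_lit 225)))))) (XT.nd (nat_lit 658) (nat_lit 0) (nat_lit 0) (XT.nd (nat_lit 282) (nat_lit 0) (nat_lit 0) (XT.nd (nat_lit 94) (nat_lit 0) (nat_lit 0) (XT.lf (nat_lit 0) (nat_lit 5954665354584) (nat_lit 0) (nat_lit 0) (nat_lit 0) (nat_lit 0) (nat_lit 0) (nat_lit 0) (nat_lit 1) (nat_lit 0) (nat_lit 1) (nat_lit 0) (nat_lit 472) (nat_lit 384) (nat_lit 224)) (XT.nd (nat_lit 94) (nat_lit 0) (nat_lit 0) (XT.lf (nat_lit 0) (nat_lit 6430493874964) (nat_lit 0) (nat_lit 0) (nat_lit 0) (nat_lit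 0) (nat_lit 0) (nat_lit 0) (nat_lit 1) (nat_lit 0) (nat_lit 1) (nat_lit 0) (nat_lit 473) (nat_lit 384) (nat_lit 223)) (XT.lf (nat_lit 0) (nat_lit 6944388677322) (nat_lit 0) (nat_lit 0) (nat_lit 0) (nat_lit 0) (nat_lit 0) (nat_lit 0) (nat_lit 1) (nat_lit 0) (nat_lit 1) (nat_lit 0) (nat_lit 474) (nat_lit 384) (nat_lit 222)))) (XT.nd (nat_lit 188) (nat_lit 0) (nat_lit 0) (XT.nd (nat_lit 94) (nat_lit 0) (nat_lit 0) (XT.lf (nat_lit 0) (nat_lit 7499395064192) (nat_lit 0) (nat_lit 0) (nat_lit 0) (nat_lit 0) (nat_lit 0) (nat_lit 0) (nat_lit 1) (nat_lit 0) (nat_lit 1) (nat_lit 0) (nat_lit 475) (nat_lit 384) (nat_lit 221)) (XT.lf (nat_lit 0) (nat_lit 8098801962311) (nat_lit 0) (nat_lit 0) (nat_lit 0) (nat_lit 0) (nat_lit 0) (nat_lit 0) (nat_lit 1) (nat_lit 0) (nat_lit 1) (nat_lit 0) (nat_lit 476) (nat_lit 384) (nat_lit 220))) (XT.nd (nat_lit 94) (nat_lit 0) (nat_lit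 0) (XT.lf (nat_lit 0) (nat_lit 8746161412557) (nat_lit 0) (nat_lit 0) (nat_lit 0) (nat_lit 0) (nat_lit 0) (nat_lit 0) (nat_lit 1) (nat_lit 0) (nat_lit 1) (nat_lit 0) (nat_lit 477) (nat_lit 384) (nat_lit 219)) (XT.lf (nat_lit 0) (nat_lit 9445309619078) (nat_lit 0) (nat_lit 0) (nat_lit 0) (nat_lit 0) (nat_lit 0) (nat_lit 0) (nat_lit 1) (nat_lit 0) (nat_lit 1) (nat_lit 0) (nat_lit 478) (nat_lit 384) (nat_lit 218))))) (XT.nd (nat_lit 376) (nat_lit 0) (nat_lit 0) (XT.nd (nat_lit 188) (nat_lit 0) (nat_lit 0) (XT.nd (nat_lit 94) (nat_lit 0) (nat_lit 0) (XT.lf (nat_lit 0) (nat_lit 10200389682359) (nat_lit 0) (nat_lit 0) (nat_lit 0) (nat_lit 0) (nat_lit 0) (nat_lit 0) (nat_lit 1) (nat_lit 0) (nat_lit 1) (nat_lit 0) (nat_lit 479) (nat_lit 384) (nat_lit 217)) (XT.lf (nat_lit 0) (nat_lit 11015876150922) (nat_lit 0) (nat_lit 0) (nat_lit 0) (nat_lit 0) (nat_lit 0) (nat_lit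 0) (nat_lit 1) (nat_lit 0) (nat_lit 1) (nat_lit 0) (nat_lit 480) (nat_lit 384) (nat_lit 216))) (XT.nd (nat_lit 94) (nat_lit 0) (nat_lit 0) (XT.lf (nat_lit 0) (nat_lit 11896601537174) (nat_lit 0) (nat_lit 0) (nat_lit 0) (nat_lit 0) (nat_lit 0) (nat_lit 0) (nat_lit 1) (nat_lit 0) (nat_lit 1) (nat_lit 0) (nat_lit 481) (nat_lit 384) (nat_lit 215)) (XT.lf (nat_lit 0) (nat_lit 12847784954514) (nat_lit 0) (nat_lit 0) (nat_lit 0) (nat_lit 0) (nat_lit 0) (nat_lit 0) (nat_lit 1) (nat_lit 0) (nat_lit 1) (nat_lit 0) (nat_lit 482) (nat_lit 384) (nat_lit 214)))) (XT.nd (nat_lit 188) (nat_lit 0) (nat_lit 0) (XT.nd (nat_lit 94) (nat_lit 0) (nat_lit 0) (XT.lf (nat_lit 0) (nat_lit 13875063045416) (nat_lit 0) (nat_lit 0) (nat_lit 0) (nat_lit 0) (nat_lit 0) (nat_lit 0) (nat_lit 1) (nat_lit 0) (nat_lit 1) (nat_lit 0) (nat_lit 483) (nat_lit 384) (nat_lit 213)) (XT.lf (nat_lit 0)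 (nat_lit 14984523383751) (nat_lit 0) (nat_lit 0) (nat_lit 0) (nat_lit 0) (nat_lit 0) (nat_lit 0) (nat_lit 1) (nat_lit 0) (nat_lit 1) (nat_lit 0) (nat_lit 484) (nat_lit 384) (nat_lit 212))) (XT.nd (nat_lit 94) (nat_lit 0) (nat_lit 0) (XT.lf (nat_lit 0) (nat_lit 16182740549304) (nat_lit 0) (nat_lit 0) (nat_lit 0) (nat_lit 0) (nat_lit 0) (nat_lit 0) (nat_lit 1) (nat_lit 0) (nat_lit 1) (nat_lit 0) (nat_lit 485) (nat_lit 384) (nat_lit 211)) (XT.lf (nat_lit 0) (nat_lit 17476815088238) (nat_lit 0) (nat_lit 0) (nat_lit 0) (nat_lit 0) (nat_lit 0) (nat_lit 0) (nat_lit 1) (nat_lit 0) (nat_lit 1) (nat_lit 0) (nat_lit 486) (nat_lit 384) (nat_lit 210))))))))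
noncomputable def xc144 : XT := (XT.nd (nat_lit 59126) (nat_lit 0) (nat_lit 2688) (XT.nd (nat_lit 1316) (nat_lit 0) (nat_lit 0) (XT.nd (nat_lit 658) (nat_lit 0) (nat_lit 0) (XT.nd (nat_lit 282) (nat_lit 0) (nat_lit 0) (XT.nd (nat_lit 94) (nat_lit 0) (nat_lit 0) (XT.lf (nat_lit 0) (nat_lit 18874415590416) (nat_lit 0) (nat_lit 0) (nat_lit 0) (nat_lit 0) (nat_lit 0) (nat_lit 0) (nat_lit 1) (nat_lit 0) (nat_lit 1) (nat_lit 0) (nat_lit 487) (nat_lit 384) (nat_lit 209)) (XT.nd (nat_lit 94) (nat_lit 0) (nat_lit 0) (XT.lf (nat_lit 0) (nat_lit 20383824132887) (nat_lit 0) (nat_lit 0) (nat_lit 0) (nat_lit 0) (nat_lit 0) (nat_lit 0) (nat_lit 1) (nat_lit 0) (nat_lit 1) (nat_lit 0) (nat_lit 488) (nat_lit 384) (nat_lit 208)) (XT.lf (nat_lit 0) (nat_lit 22013985358866) (nat_lit 0) (nat_lit 0) (nat_lit 0) (nat_lit 0) (nat_lit 0) (nat_lit 0) (nat_lit 1) (nat_lit 0) (nat_lit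 1) (nat_lit 0) (nat_lit 489) (nat_lit 384) (nat_lit 207)))) (XT.nd (nat_lit 188) (nat_lit 0) (nat_lit 0) (XT.nd (nat_lit 94) (nat_lit 0) (nat_lit 0) (XT.lf (nat_lit 0) (nat_lit 23774559483025) (nat_lit 0) (nat_lit 0) (nat_lit 0) (nat_lit 0) (nat_lit 0) (nat_lit 0) (nat_lit 1) (nat_lit 0) (nat_lit 1) (nat_lit 0) (nat_lit 490) (nat_lit 384) (nat_lit 206)) (XT.lf (nat_lit 0) (nat_lit 25675979537210) (nat_lit 0) (nat_lit 0) (nat_lit 0) (nat_lit 0) (nat_lit 0) (nat_lit 0) (nat_lit 1) (nat_lit 0) (nat_lit 1) (nat_lit 0) (nat_lit 491) (nat_lit 384) (nat_lit 205))) (XT.nd (nat_lit 94) (nat_lit 0) (nat_lit 0) (XT.lf (nat_lit 0) (nat_lit 27729513195818) (nat_lit 0) (nat_lit 0) (nat_lit 0) (nat_lit 0) (nat_lit 0) (nat_lit 0) (nat_lit 1) (nat_lit 0) (nat_lit 1) (nat_lit 0) (nat_lit 492) (nat_lit 384) (nat_lit 204)) (XT.lf (nat_lit 0) (nat_lit 29947329547196) (nat_lit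 0) (nat_lit 0) (nat_lit 0) (nat_lit 0) (nat_lit 0) (nat_lit 0) (nat_lit 1) (nat_lit 0) (nat_lit 1) (nat_lit 0) (nat_lit 493) (nat_lit 384) (nat_lit 203))))) (XT.nd (nat_lit 282) (nat_lit 0) (nat_lit 0) (XT.nd (nat_lit 94) (nat_lit 0) (nat_lit 0) (XT.lf (nat_lit 0) (nat_lit 32342571206758) (nat_lit 0) (nat_lit 0) (nat_lit 0) (nat_lit 0) (nat_lit 0) (nat_lit 0) (nat_lit 1) (nat_lit 0) (nat_lit 1) (nat_lit 0) (nat_lit 494) (nat_lit 384) (nat_lit 202)) (XT.nd (nat_lit 94) (nat_lit 0) (nat_lit 0) (XT.lf (nat_lit 0) (nat_lit 34929432199155) (nat_lit 0) (nat_lit 0) (nat_lit 0) (nat_lit 0) (nat_lit 0) (nat_lit 0) (nat_lit 1) (nat_lit 0) (nat_lit 1) (nat_lit 0) (nat_lit 495) (nat_lit 384) (nat_lit 201)) (XT.lf (nat_lit 0) (nat_lit 37723242071007) (nat_lit 0) (nat_lit 0) (nat_lit 0) (nat_lit 0) (nat_lit 0) (nat_lit 0) (nat_lit 1) (nat_lit 0) (nat_lit 1) (nat_lit 0)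 (nat_lit 496) (nat_lit 384) (nat_lit 200)))) (XT.nd (nat_lit 188) (nat_lit 0) (nat_lit 0) (XT.nd (nat_lit 94) (nat_lit 0) (nat_lit 0) (XT.lf (nat_lit 0) (nat_lit 40740556732667) (nat_lit 0) (nat_lit 0) (nat_lit 0) (nat_lit 0) (nat_lit 0) (nat_lit 0) (nat_lit 1) (nat_lit 0) (nat_lit 1) (nat_lit 0) (nat_lit 497) (nat_lit 384) (nat_lit 199)) (XT.lf (nat_lit 0) (nat_lit 43999256567315) (nat_lit 0) (nat_lit 0) (nat_lit 0) (nat_lit 0) (nat_lit 0) (nat_lit 0) (nat_lit 1) (nat_lit 0) (nat_lit 1) (nat_lit 0) (nat_lit 498) (nat_lit 384) (nat_lit 198))) (XT.nd (nat_lit 94) (nat_lit 0) (nat_lit 0) (XT.lf (nat_lit 0) (nat_lit 47518652388786) (nat_lit 0) (nat_lit 0) (nat_lit 0) (nat_lit 0) (nat_lit 0) (nat_lit 0) (nat_lit 1) (nat_lit 0) (nat_lit 1) (nat_lit 0) (nat_lit 499) (nat_lit 384) (nat_lit 197)) (XT.lf (nat_lit 0) (nat_lit 51319599876022) (nat_lit 0) (nat_lit 0)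 (nat_lit 0) (nat_lit 0) (nat_lit 0) (nat_lit 0) (nat_lit 1) (nat_lit 0) (nat_lit 1) (nat_lit 0) (nat_lit 500) (nat_lit 384) (nat_lit 196)))))) (XT.nd (nat_lit 57152) (nat_lit 0) (nat_lit 9324) (XT.nd (nat_lit 282) (nat_lit 0) (nat_lit 0) (XT.nd (nat_lit 94) (nat_lit 0) (nat_lit 0) (XT.lf (nat_lit 0) (nat_lit 55424623162280) (nat_lit 0) (nat_lit 0) (nat_lit 0) (nat_lit 0) (nat_lit 0) (nat_lit 0) (nat_lit 1) (nat_lit 0) (nat_lit 1) (nat_lit 0) (nat_lit 501) (nat_lit 384) (nat_lit 195)) (XT.nd (nat_lit 94) (nat_lit 0) (nat_lit 0) (XT.lf (nat_lit 0) (nat_lit 59858048311479) (nat_lit 0) (nat_lit 0) (nat_lit 0) (nat_lit 0) (nat_lit 0) (nat_lit 0) (nat_lit 1) (nat_lit 0) (nat_lit 1) (nat_lit 0) (nat_lit 502) (nat_lit 384) (nat_lit 194)) (XT.lf (nat_lit 0) (nat_lit 64646147472652) (nat_lit 0) (nat_lit 0) (nat_lit 0) (nat_lit 0) (nat_lit 0) (nat_lit 0) (nat_lit 1)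 (nat_lit 0) (nat_lit 1) (nat_lit 0) (nat_lit 503) (nat_lit 384) (nat_lit 193)))) (XT.nd (nat_lit 56682) (nat_lit 0) (nat_lit 10836) (XT.nd (nat_lit 56588) (nat_lit 0) (nat_lit 10752) (XT.lf (nat_lit 0) (nat_lit 69817294566753) (nat_lit 0) (nat_lit 0) (nat_lit 0) (nat_lit 0) (nat_lit 0) (nat_lit 0) (nat_lit 1) (nat_lit 0) (nat_lit 1) (nat_lit 0) (nat_lit 504) (nat_lit 384) (nat_lit 192)) (XT.lf (nat_lit 0) (nat_lit 5958976507) (nat_lit 924) (nat_lit 3981729270) (nat_lit 924) (nat_lit 3981729270) (nat_lit 128) (nat_lit 3) (nat_lit 139) (nat_lit 3) (nat_lit 139) (nat_lit 5) (nat_lit 385) (nat_lit 385) (nat_lit 310))) (XT.nd (nat_lit 94) (nat_lit 0) (nat_lit 0) (XT.lf (nat_lit 0) (nat_lit 12788292175) (nat_lit 840) (nat_lit 14187873317) (nat_lit 924) (nat_lit 1962818357) (nat_lit 129) (nat_lit 5) (nat_lit 139) (nat_lit 5) (nat_lit 140) (nat_lit 5) (nat_lit 386)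 (nat_lit 385) (nat_lit 309)) (XT.lf (nat_lit 84) (nat_lit 9409299422) (nat_lit 0) (nat_lit 4928958199) (nat_lit 924) (nat_lit 15751869122) (nat_lit 130) (nat_lit 5) (nat_lit 129) (nat_lit 5) (nat_lit 140) (nat_lit 5) (nat_lit 387) (nat_lit 385) (nat_lit 308))))) (XT.nd (nat_lit 282) (nat_lit 1596) (nat_lit 0) (XT.nd (nat_lit 94) (nat_lit 0) (nat_lit 84) (XT.lf (nat_lit 84) (nat_lit 3897561053) (nat_lit 0) (nat_lit 12709301486) (nat_lit 924) (nat_lit 14696766418) (nat_lit 131) (nat_lit 5) (nat_lit 130) (nat_lit 5) (nat_lit 141) (nat_lit 5) (nat_lit 388) (nat_lit 385) (nat_lit 307)) (XT.nd (nat_lit 94) (nat_lit 0) (nat_lit 84) (XT.lf (nat_lit 0) (nat_lit 19668648608) (nat_lit 840) (nat_lit 1686776498) (nat_lit 924) (nat_lit 11228201604) (nat_lit 131) (nat_lit 5) (nat_lit 141) (nat_lit 5) (nat_lit 142) (nat_lit 5) (nat_lit 389) (nat_lit 385) (nat_lit 306)) (XT.lf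 (nat_lit 0) (nat_lit 23645195408) (nat_lit 840) (nat_lit 7260586967) (nat_lit 924) (nat_lit 3026751016) (nat_lit 132) (nat_lit 5) (nat_lit 142) (nat_lit 5) (nat_lit 143) (nat_lit 5) (nat_lit 390) (nat_lit 385) (nat_lit 305)))) (XT.nd (nat_lit 188) (nat_lit 1008) (nat_lit 0) (XT.nd (nat_lit 94) (nat_lit 756) (nat_lit 0) (XT.lf (nat_lit 84) (nat_lit 22317392704) (nat_lit 0) (nat_lit 6351038139) (nat_lit 924) (nat_lit 6684493521) (nat_lit 133) (nat_lit 5) (nat_lit 132) (nat_lit 5) (nat_lit 143) (nat_lit 5) (nat_lit 391) (nat_lit 385) (nat_lit 304)) (XT.lf (nat_lit 0) (nat_lit 17887640575) (nat_lit 840) (nat_lit 16919392859) (nat_lit 924) (nat_lit 2044237762) (nat_lit 123) (nat_lit 5) (nat_lit 133) (nat_lit 5) (nat_lit 134) (nat_lit 5) (nat_lit 392) (nat_lit 385) (nat_lit 303))) (XT.nd (nat_lit 94) (nat_lit 420) (nat_lit 0) (XT.lf (nat_lit 0) (nat_lit 3571528792)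 (nat_lit 588) (nat_lit 25037760095) (nat_lit 84) (nat_lit 9822917519) (nat_lit 116) (nat_lit 5) (nat_lit 123) (nat_lit 5) (nat_lit 117) (nat_lit 5) (nat_lit 393) (nat_lit 385) (nat_lit 302)) (XT.lf (nat_lit 0) (nat_lit 8844987937) (nat_lit 420) (nat_lit 1471800257) (nat_lit 504) (nat_lit 29783560050) (nat_lit 111) (nat_lit 5) (nat_lit 116) (nat_lit 5) (nat_lit 117) (nat_lit 5) (nat_lit 394) (nat_lit 385) (nat_lit 301))))))) (XT.nd (nat_lit 1316) (nat_lit 2520) (nat_lit 0) (XT.nd (nat_lit 658) (nat_lit 2016) (nat_lit 0) (XT.nd (nat_lit 282) (nat_lit 1344) (nat_lit 0) (XT.nd (nat_lit 94) (nat_lit 336) (nat_lit 0) (XT.lf (nat_lit 0) (nat_lit 4134672812) (nat_lit 420) (nat_lit 14401694410) (nat_lit 504) (nat_lit 23318839264) (nat_lit 106) (nat_lit 5) (nat_lit 111) (nat_lit 5) (nat_lit 112) (nat_lit 5) (nat_lit 395) (nat_lit 385) (nat_lit 300)) (XT.nd (nat_lit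 94) (nat_lit 336) (nat_lit 0) (XT.lf (nat_lit 0) (nat_lit 28216502249) (nat_lit 504) (nat_lit 525272310) (nat_lit 84) (nat_lit 14968529345) (nat_lit 106) (nat_lit 5) (nat_lit 112) (nat_lit 5) (nat_lit 107) (nat_lit 5) (nat_lit 396) (nat_lit 385) (nat_lit 299)) (XT.lf (nat_lit 0) (nat_lit 39560558687) (nat_lit 420) (nat_lit 4990525237) (nat_lit 84) (nat_lit 1118249661) (nat_lit 102) (nat_lit 5) (nat_lit 107) (nat_lit 5) (nat_lit 103) (nat_lit 5) (nat_lit 397) (nat_lit 385) (nat_lit 298)))) (XT.nd (nat_lit 188) (nat_lit 588) (nat_lit 0) (XT.nd (nat_lit 94) (nat_lit 336) (nat_lit 0) (XT.lf (nat_lit 0) (nat_lit 4998959754) (nat_lit 420) (nat_lit 9669813259) (nat_lit 84) (nat_lit 33058129115) (nat_lit 97) (nat_lit 5) (nat_lit 102) (nat_lit 5) (nat_lit 98) (nat_lit 5) (nat_lit 398) (nat_lit 385) (nat_lit 297)) (XT.lf (nat_lit 0) (nat_lit 17712703321) (nat_lit 420)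 (nat_lit 14382530291) (nat_lit 84) (nat_lit 17802264758) (nat_lit 93) (nat_lit 5) (nat_lit 98) (nat_lit 5) (nat_lit 94) (nat_lit 5) (nat_lit 399) (nat_lit 385) (nat_lit 296))) (XT.nd (nat_lit 94) (nat_lit 252) (nat_lit 0) (XT.lf (nat_lit 0) (nat_lit 32388522874) (nat_lit 420) (nat_lit 18975883901) (nat_lit 84) (nat_lit 830086709) (nat_lit 89) (nat_lit 5) (nat_lit 94) (nat_lit 5) (nat_lit 90) (nat_lit 5) (nat_lit 400) (nat_lit 385) (nat_lit 295)) (XT.lf (nat_lit 0) (nat_lit 30915587480) (nat_lit 252) (nat_lit 18595807944) (nat_lit 336) (nat_lit 5100203415) (nat_lit 86) (nat_lit 5) (nat_lit 89) (nat_lit 5) (nat_lit 90) (nat_lit 5) (nat_lit 401) (nat_lit 385) (nat_lit 294))))) (XT.nd (nat_lit 282) (nat_lit 1092) (nat_lit 0) (XT.nd (nat_lit 94) (nat_lit 504) (nat_lit 0) (XT.lf (nat_lit 0) (nat_lit 11498523373) (nat_lit 420) (nat_lit 28434061440) (nat_lit 84) (nat_lit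 17227991407) (nat_lit 81) (nat_lit 5) (nat_lit 86) (nat_lit 5) (nat_lit 82) (nat_lit 5) (nat_lit 402) (nat_lit 385) (nat_lit 293)) (XT.nd (nat_lit 94) (nat_lit 252) (nat_lit 0) (XT.lf (nat_lit 0) (nat_lit 26738568735) (nat_lit 252) (nat_lit 3655794372) (nat_lit 336) (nat_lit 29457533138) (nat_lit 78) (nat_lit 5) (nat_lit 81) (nat_lit 5) (nat_lit 82) (nat_lit 5) (nat_lit 403) (nat_lit 385) (nat_lit 292)) (XT.lf (nat_lit 0) (nat_lit 24831662962) (nat_lit 252) (nat_lit 27411126972) (nat_lit 336) (nat_lit 10443685941) (nat_lit 75) (nat_lit 5) (nat_lit 78) (nat_lit 5) (nat_lit 79) (nat_lit 5) (nat_lit 404) (nat_lit 385) (nat_lit 291)))) (XT.nd (nat_lit 188) (nat_lit 504) (nat_lit 0) (XT.nd (nat_lit 94) (nat_lit 252) (nat_lit 0) (XT.lf (nat_lit 0) (nat_lit 10973639706) (nat_lit 336) (nat_lit 42497601123) (nat_lit 84) (nat_lit 12208435682) (nat_lit 71) (nat_lit 5)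 (nat_lit 75) (nat_lit 5) (nat_lit 72) (nat_lit 5) (nat_lit 405) (nat_lit 385) (nat_lit 290)) (XT.lf (nat_lit 0) (nat_lit 21610152134) (nat_lit 252) (nat_lit 13598582239) (nat_lit 336) (nat_lit 33621524483) (nat_lit 68) (nat_lit 5) (nat_lit 71) (nat_lit 5) (nat_lit 72) (nat_lit 5) (nat_lit 406) (nat_lit 385) (nat_lit 289))) (XT.nd (nat_lit 94) (nat_lit 336) (nat_lit 0) (XT.lf (nat_lit 0) (nat_lit 20340486600) (nat_lit 168) (nat_lit 42567918899) (nat_lit 252) (nat_lit 9248193847) (nat_lit 66) (nat_lit 5) (nat_lit 68) (nat_lit 5) (nat_lit 69) (nat_lit 5) (nat_lit 407) (nat_lit 385) (nat_lit 288)) (XT.lf (nat_lit 0) (nat_lit 17915817585) (nat_lit 336) (nat_lit 56301925860) (nat_lit 84) (nat_lit 1448608143) (nat_lit 62) (nat_lit 5) (nat_lit 66) (nat_lit 5) (nat_lit 63) (nat_lit 5) (nat_lit 408) (nat_lit 385) (nat_lit 287)))))) (XT.nd (nat_lit 658) (nat_lit 1176)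 (nat_lit 0) (XT.nd (nat_lit 282) (nat_lit 756) (nat_lit 0) (XT.nd (nat_lit 94) (nat_lit 420) (nat_lit 0) (XT.lf (nat_lit 0) (nat_lit 18371131254) (nat_lit 168) (nat_lit 30480221987) (nat_lit 252) (nat_lit 30501829533) (nat_lit 60) (nat_lit 5) (nat_lit 62) (nat_lit 5) (nat_lit 63) (nat_lit 5) (nat_lit 409) (nat_lit 385) (nat_lit 286)) (XT.nd (nat_lit 94) (nat_lit 168) (nat_lit 0) (XT.lf (nat_lit 0) (nat_lit 522576524) (nat_lit 252) (nat_lit 65230581032) (nat_lit 84) (nat_lit 17504567943) (nat_lit 57) (nat_lit 5) (nat_lit 60) (nat_lit 5) (nat_lit 58) (nat_lit 5) (nat_lit 410) (nat_lit 385) (nat_lit 285)) (XT.lf (nat_lit 0) (nat_lit 17625590660) (nat_lit 168) (nat_lit 17214185877) (nat_lit 252) (nat_lit 52515879757) (nat_lit 55) (nat_lit 5) (nat_lit 57) (nat_lit 5) (nat_lit 58) (nat_lit 5) (nat_lit 411) (nat_lit 385) (nat_lit 284)))) (XT.nd (nat_lit 188) (nat_lit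 336) (nat_lit 0) (XT.nd (nat_lit 94) (nat_lit 252) (nat_lit 0) (XT.lf (nat_lit 0) (nat_lit 17707505568) (nat_lit 168) (nat_lit 56172419621) (nat_lit 252) (nat_lit 17802617730) (nat_lit 53) (nat_lit 5) (nat_lit 55) (nat_lit 5) (nat_lit 56) (nat_lit 5) (nat_lit 412) (nat_lit 385) (nat_lit 283)) (XT.lf (nat_lit 0) (nat_lit 18297565390) (nat_lit 168) (nat_lit 2567142349) (nat_lit 252) (nat_lit 75385147123) (nat_lit 50) (nat_lit 5) (nat_lit 52) (nat_lit 5) (nat_lit 53) (nat_lit 5) (nat_lit 413) (nat_lit 385) (nat_lit 282))) (XT.nd (nat_lit 94) (nat_lit 168) (nat_lit 0) (XT.lf (nat_lit 0) (nat_lit 18889281279) (nat_lit 168) (nat_lit 45585953614) (nat_lit 252) (nat_lit 36569047925) (nat_lit 48) (nat_lit 5) (nat_lit 50) (nat_lit 5) (nat_lit 51) (nat_lit 5) (nat_lit 414) (nat_lit 385) (nat_lit 281)) (XT.lf (nat_lit 0) (nat_lit 7136866719) (nat_lit 168) (nat_lit 85732154302)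 (nat_lit 84) (nat_lit 13251273949) (nat_lit 46) (nat_lit 5) (nat_lit 48) (nat_lit 5) (nat_lit 47) (nat_lit 5) (nat_lit 415) (nat_lit 385) (nat_lit 280))))) (XT.nd (nat_lit 282) (nat_lit 672) (nat_lit 0) (XT.nd (nat_lit 94) (nat_lit 336) (nat_lit 0) (XT.lf (nat_lit 0) (nat_lit 21821930584) (nat_lit 168) (nat_lit 33814137108) (nat_lit 252) (nat_lit 55807445050) (nat_lit 44) (nat_lit 5) (nat_lit 46) (nat_lit 5) (nat_lit 47) (nat_lit 5) (nat_lit 416) (nat_lit 385) (nat_lit 279)) (XT.nd (nat_lit 94) (nat_lit 252) (nat_lit 0) (XT.lf (nat_lit 0) (nat_lit 24200882562) (nat_lit 84) (nat_lit 86174968934) (nat_lit 168) (nat_lit 6698704102) (nat_lit 43) (nat_lit 5) (nat_lit 44) (nat_lit 5) (nat_lit 45) (nat_lit 4) (nat_lit 417) (nat_lit 385) (nat_lit 278)) (XT.lf (nat_lit 0) (nat_lit 26784375413) (nat_lit 168) (nat_lit 20643496297) (nat_lit 252) (nat_lit 75563423070)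 (nat_lit 40) (nat_lit 5) (nat_lit 42) (nat_lit 5) (nat_lit 43) (nat_lit 5) (nat_lit 418) (nat_lit 385) (nat_lit 277)))) (XT.nd (nat_lit 188) (nat_lit 336) (nat_lit 0) (XT.nd (nat_lit 94) (nat_lit 252) (nat_lit 0) (XT.lf (nat_lit 0) (nat_lit 30066220645) (nat_lit 84) (nat_lit 78480489344) (nat_lit 168) (nat_lit 20684331047) (nat_lit 39) (nat_lit 5) (nat_lit 40) (nat_lit 5) (nat_lit 41) (nat_lit 4) (nat_lit 419) (nat_lit 385) (nat_lit 276)) (XT.lf (nat_lit 0) (nat_lit 34099079744) (nat_lit 168) (nat_lit 5832206838) (nat_lit 252) (nat_lit 95879501240) (nat_lit 36) (nat_lit 5) (nat_lit 38) (nat_lit 5) (nat_lit 39) (nat_lit 5) (nat_lit 420) (nat_lit 385) (nat_lit 275))) (XT.nd (nat_lit 94) (nat_lit 252) (nat_lit 0) (XT.lf (nat_lit 0) (nat_lit 38449538191) (nat_lit 84) (nat_lit 69719007728) (nat_lit 168) (nat_lit 34556560539) (nat_lit 35) (nat_lit 5) (nat_lit 36)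 (nat_lit 5) (nat_lit 37) (nat_lit 4) (nat_lit 421) (nat_lit 385) (nat_lit 274)) (XT.lf (nat_lit 0) (nat_lit 33414368928) (nat_lit 252) (nat_lit 106070666204) (nat_lit 84) (nat_lit 10545017739) (nat_lit 32) (nat_lit 5) (nat_lit 35) (nat_lit 5) (nat_lit 33) (nat_lit 4) (nat_lit 422) (nat_lit 385) (nat_lit 273))))))))
noncomputable def xc145 : XT := (XT.nd (nat_lit 2632) (nat_lit 0) (nat_lit 0) (XT.nd (nat_lit 1316) (nat_lit 840) (nat_lit 0) (XT.nd (nat_lit 658) (nat_lit 924) (nat_lit 0) (XT.nd (nat_lit 282) (nat_lit 504) (nat_lit 0) (XT.nd (nat_lit 94) (nat_lit 336) (nat_lit 0) (XT.lf (nat_lit 0) (nat_lit 49747881535) (nat_lit 84) (nat_lit 59676674009) (nat_lit 168) (nat_lit 48275900587) (nat_lit 31) (nat_lit 5) (nat_lit 32) (nat_lit 5) (nat_lit 33) (nat_lit 4) (nat_lit 423) (nat_lit 385) (nat_lit 272)) (XT.nd (nat_lit 94) (nat_lit 84) (nat_lit 0) (XT.lf (nat_lit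 0) (nat_lit 27950588393) (nat_lit 252) (nat_lit 108962835891) (nat_lit 84) (nat_lit 28889302968) (nat_lit 28) (nat_lit 5) (nat_lit 31) (nat_lit 5) (nat_lit 29) (nat_lit 4) (nat_lit 424) (nat_lit 385) (nat_lit 271)) (XT.lf (nat_lit 0) (nat_lit 64417933681) (nat_lit 84) (nat_lit 48109569828) (nat_lit 168) (nat_lit 61788923176) (nat_lit 27) (nat_lit 5) (nat_lit 28) (nat_lit 5) (nat_lit 29) (nat_lit 4) (nat_lit 425) (nat_lit 385) (nat_lit 270)))) (XT.nd (nat_lit 188) (nat_lit 252) (nat_lit 0) (XT.nd (nat_lit 94) (nat_lit 84) (nat_lit 0) (XT.lf (nat_lit 0) (nat_lit 23594695440) (nat_lit 168) (nat_lit 109978696928) (nat_lit 84) (nat_lit 49727587775) (nat_lit 25) (nat_lit 5) (nat_lit 27) (nat_lit 5) (nat_lit 26) (nat_lit 4) (nat_lit 426) (nat_lit 385) (nat_lit 269)) (XT.lf (nat_lit 0) (nat_lit 82984051519) (nat_lit 84) (nat_lit 34739573218) (nat_lit 168) (nat_lit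 75026056280) (nat_lit 24) (nat_lit 5) (nat_lit 25) (nat_lit 5) (nat_lit 26) (nat_lit 4) (nat_lit 427) (nat_lit 385) (nat_lit 268))) (XT.nd (nat_lit 94) (nat_lit 84) (nat_lit 0) (XT.lf (nat_lit 0) (nat_lit 20518954522) (nat_lit 168) (nat_lit 108746448467) (nat_lit 84) (nat_lit 73445241075) (nat_lit 22) (nat_lit 5) (nat_lit 24) (nat_lit 5) (nat_lit 23) (nat_lit 4) (nat_lit 428) (nat_lit 385) (nat_lit 267)) (XT.lf (nat_lit 0) (nat_lit 106047349813) (nat_lit 84) (nat_lit 19249687281) (nat_lit 168) (nat_lit 87899049369) (nat_lit 21) (nat_lit 5) (nat_lit 22) (nat_lit 5) (nat_lit 23) (nat_lit 4) (nat_lit 429) (nat_lit 385) (nat_lit 266))))) (XT.nd (nat_lit 282) (nat_lit 504) (nat_lit 0) (XT.nd (nat_lit 94) (nat_lit 252) (nat_lit 0) (XT.lf (nat_lit 0) (nat_lit 18925780916) (nat_lit 168) (nat_lit 104833342530) (nat_lit 84) (nat_lit 100478618528) (nat_lit 19) (nat_lit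 5) (nat_lit 21) (nat_lit 5) (nat_lit 20) (nat_lit 4) (nat_lit 430) (nat_lit 385) (nat_lit 265)) (XT.nd (nat_lit 94) (nat_lit 168) (nat_lit 0) (XT.lf (nat_lit 0) (nat_lit 134295963268) (nat_lit 84) (nat_lit 1278765736) (nat_lit 168) (nat_lit 100298068224) (nat_lit 18) (nat_lit 5) (nat_lit 19) (nat_lit 5) (nat_lit 20) (nat_lit 4) (nat_lit 431) (nat_lit 385) (nat_lit 264)) (XT.lf (nat_lit 0) (nat_lit 19051935244) (nat_lit 168) (nat_lit 97737049036) (nat_lit 84) (nat_lit 131321691862) (nat_lit 16) (nat_lit 5) (nat_lit 18) (nat_lit 5) (nat_lit 17) (nat_lit 4) (nat_lit 432) (nat_lit 385) (nat_lit 263)))) (XT.nd (nat_lit 188) (nat_lit 252) (nat_lit 0) (XT.nd (nat_lit 94) (nat_lit 168) (nat_lit 0) (XT.lf (nat_lit 0) (nat_lit 149237962062) (nat_lit 168) (nat_lit 92809697109) (nat_lit 0) (nat_lit 18957615727) (nat_lit 15) (nat_lit 5) (nat_lit 17) (nat_lit 4) (nat_lit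 15) (nat_lit 4) (nat_lit 433) (nat_lit 385) (nat_lit 262)) (XT.lf (nat_lit 0) (nat_lit 21173282975) (nat_lit 168) (nat_lit 86875863470) (nat_lit 84) (nat_lit 166533508555) (nat_lit 13) (nat_lit 5) (nat_lit 15) (nat_lit 5) (nat_lit 14) (nat_lit 4) (nat_lit 434) (nat_lit 385) (nat_lit 261))) (XT.nd (nat_lit 94) (nat_lit 168) (nat_lit 0) (XT.lf (nat_lit 0) (nat_lit 166483759200) (nat_lit 168) (nat_lit 79982464717) (nat_lit 0) (nat_lit 42405868293) (nat_lit 12) (nat_lit 5) (nat_lit 14) (nat_lit 4) (nat_lit 12) (nat_lit 4) (nat_lit 435) (nat_lit 385) (nat_lit 260)) (XT.lf (nat_lit 0) (nat_lit 25610191307) (nat_lit 168) (nat_lit 71577608853) (nat_lit 84) (nat_lit 206746583677) (nat_lit 10) (nat_lit 5) (nat_lit 12) (nat_lit 5) (nat_lit 11) (nat_lit 4) (nat_lit 436) (nat_lit 385) (nat_lit 259)))))) (XT.nd (nat_lit 658) (nat_lit 0) (nat_lit 0) (XT.nd (nat_lit 282)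 (nat_lit 504) (nat_lit 0) (XT.nd (nat_lit 94) (nat_lit 252) (nat_lit 0) (XT.lf (nat_lit 0) (nat_lit 187792878719) (nat_lit 168) (nat_lit 62354513458) (nat_lit 0) (nat_lit 69622339704) (nat_lit 9) (nat_lit 5) (nat_lit 11) (nat_lit 4) (nat_lit 9) (nat_lit 4) (nat_lit 437) (nat_lit 385) (nat_lit 258)) (XT.nd (nat_lit 94) (nat_lit 84) (nat_lit 0) (XT.lf (nat_lit 0) (nat_lit 32733644886) (nat_lit 168) (nat_lit 51067065174) (nat_lit 84) (nat_lit 252676338005) (nat_lit 7) (nat_lit 5) (nat_lit 9) (nat_lit 5) (nat_lit 8) (nat_lit 4) (nat_lit 438) (nat_lit 385) (nat_lit 257)) (XT.lf (nat_lit 0) (nat_lit 213737333420) (nat_lit 168) (nat_lit 39095380375) (nat_lit 0) (nat_lit 101193049166) (nat_lit 6) (nat_lit 5) (nat_lit 8) (nat_lit 4) (nat_lit 6) (nat_lit 4) (nat_lit 439) (nat_lit 385) (nat_lit 256)))) (XT.nd (nat_lit 188) (nat_lit 252) (nat_lit 0) (XT.nd (nat_lit 94)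 (nat_lit 84) (nat_lit 0) (XT.lf (nat_lit 0) (nat_lit 42972171913) (nat_lit 168) (nat_lit 24451738599) (nat_lit 84) (nat_lit 305131710322) (nat_lit 4) (nat_lit 5) (nat_lit 6) (nat_lit 5) (nat_lit 5) (nat_lit 4) (nat_lit 440) (nat_lit 385) (nat_lit 255)) (XT.lf (nat_lit 0) (nat_lit 244969712445) (nat_lit 168) (nat_lit 9249674943) (nat_lit 0) (nat_lit 137783933723) (nat_lit 3) (nat_lit 5) (nat_lit 5) (nat_lit 4) (nat_lit 3) (nat_lit 4) (nat_lit 441) (nat_lit 385) (nat_lit 254))) (XT.nd (nat_lit 94) (nat_lit 0) (nat_lit 0) (XT.lf (nat_lit 0) (nat_lit 598435895703) (nat_lit 0) (nat_lit 0) (nat_lit 0) (nat_lit 0) (nat_lit 0) (nat_lit 0) (nat_lit 1) (nat_lit 0) (nat_lit 1) (nat_lit 0) (nat_lit 442) (nat_lit 385) (nat_lit 253)) (XT.lf (nat_lit 0) (nat_lit 645722443937) (nat_lit 0) (nat_lit 0) (nat_lit 0) (nat_lit 0) (nat_lit 0) (nat_lit 0) (nat_lit 1) (nat_lit 0)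 (nat_lit 1) (nat_lit 0) (nat_lit 443) (nat_lit 385) (nat_lit 252))))) (XT.nd (nat_lit 282) (nat_lit 0) (nat_lit 0) (XT.nd (nat_lit 94) (nat_lit 0) (nat_lit 0) (XT.lf (nat_lit 0) (nat_lit 696791919281) (nat_lit 0) (nat_lit 0) (nat_lit 0) (nat_lit 0) (nat_lit 0) (nat_lit 0) (nat_lit 1) (nat_lit 0) (nat_lit 1) (nat_lit 0) (nat_lit 444) (nat_lit 385) (nat_lit 251)) (XT.nd (nat_lit 94) (nat_lit 0) (nat_lit 0) (XT.lf (nat_lit 0) (nat_lit 751946955662) (nat_lit 0) (nat_lit 0) (nat_lit 0) (nat_lit 0) (nat_lit 0) (nat_lit 0) (nat_lit 1) (nat_lit 0) (nat_lit 1) (nat_lit 0) (nat_lit 445) (nat_lit 385) (nat_lit 250)) (XT.lf (nat_lit 0) (nat_lit 811514397740) (nat_lit 0) (nat_lit 0) (nat_lit 0) (nat_lit 0) (nat_lit 0) (nat_lit 0) (nat_lit 1) (nat_lit 0) (nat_lit 1) (nat_lit 0) (nat_lit 446) (nat_lit 385) (nat_lit 249)))) (XT.nd (nat_lit 188) (nat_lit 0) (nat_lit 0) (XT.nd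 (nat_lit 94) (nat_lit 0) (nat_lit 0) (XT.lf (nat_lit 0) (nat_lit 875847237764) (nat_lit 0) (nat_lit 0) (nat_lit 0) (nat_lit 0) (nat_lit 0) (nat_lit 0) (nat_lit 1) (nat_lit 0) (nat_lit 1) (nat_lit 0) (nat_lit 447) (nat_lit 385) (nat_lit 248)) (XT.lf (nat_lit 0) (nat_lit 945326707380) (nat_lit 0) (nat_lit 0) (nat_lit 0) (nat_lit 0) (nat_lit 0) (nat_lit 0) (nat_lit 1) (nat_lit 0) (nat_lit 1) (nat_lit 0) (nat_lit 448) (nat_lit 385) (nat_lit 247))) (XT.nd (nat_lit 94) (nat_lit 0) (nat_lit 0) (XT.lf (nat_lit 0) (nat_lit 1020364536777) (nat_lit 0) (nat_lit 0) (nat_lit 0) (nat_lit 0) (nat_lit 0) (nat_lit 0) (nat_lit 1) (nat_lit 0) (nat_lit 1) (nat_lit 0) (nat_lit 449) (nat_lit 385) (nat_lit 246)) (XT.lf (nat_lit 0) (nat_lit 1101405394575) (nat_lit 0) (nat_lit 0) (nat_lit 0) (nat_lit 0) (nat_lit 0) (nat_lit 0) (nat_lit 1) (nat_lit 0) (nat_lit 1) (nat_lit 0) (nat_lit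 450) (nat_lit 385) (nat_lit 245))))))) (XT.nd (nat_lit 1316) (nat_lit 0) (nat_lit 0) (XT.nd (nat_lit 658) (nat_lit 0) (nat_lit 0) (XT.nd (nat_lit 282) (nat_lit 0) (nat_lit 0) (XT.nd (nat_lit 94) (nat_lit 0) (nat_lit 0) (XT.lf (nat_lit 0) (nat_lit 1188929522893) (nat_lit 0) (nat_lit 0) (nat_lit 0) (nat_lit 0) (nat_lit 0) (nat_lit 0) (nat_lit 1) (nat_lit 0) (nat_lit 1) (nat_lit 0) (nat_lit 451) (nat_lit 385) (nat_lit 244)) (XT.nd (nat_lit 94) (nat_lit 0) (nat_lit 0) (XT.lf (nat_lit 0) (nat_lit 1283455583233) (nat_lit 0) (nat_lit 0) (nat_lit 0) (nat_lit 0) (nat_lit 0) (nat_lit 0) (nat_lit 1) (nat_lit 0) (nat_lit 1) (nat_lit 0) (nat_lit 452) (nat_lit 385) (nat_lit 243)) (XT.lf (nat_lit 0) (nat_lit 1385543730025) (nat_lit 0) (nat_lit 0) (nat_lit 0) (nat_lit 0) (nat_lit 0) (nat_lit 0) (nat_lit 1) (nat_lit 0) (nat_lit 1) (nat_lit 0) (nat_lit 453) (nat_lit 385) (nat_lit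 242)))) (XT.nd (nat_lit 188) (nat_lit 0) (nat_lit 0) (XT.nd (nat_lit 94) (nat_lit 0) (nat_lit 0) (XT.lf (nat_lit 0) (nat_lit 1495798930067) (nat_lit 0) (nat_lit 0) (nat_lit 0) (nat_lit 0) (nat_lit 0) (nat_lit 0) (nat_lit 1) (nat_lit 0) (nat_lit 1) (nat_lit 0) (nat_lit 454) (nat_lit 385) (nat_lit 241)) (XT.lf (nat_lit 0) (nat_lit 1614874547507) (nat_lit 0) (nat_lit 0) (nat_lit 0) (nat_lit 0) (nat_lit 0) (nat_lit 0) (nat_lit 1) (nat_lit 0) (nat_lit 1) (nat_lit 0) (nat_lit 455) (nat_lit 385) (nat_lit 240))) (XT.nd (nat_lit 94) (nat_lit 0) (nat_lit 0) (XT.lf (nat_lit 0) (nat_lit 1743476215632) (nat_lit 0) (nat_lit 0) (nat_lit 0) (nat_lit 0) (nat_lit 0) (nat_lit 0) (nat_lit 1) (nat_lit 0) (nat_lit 1) (nat_lit 0) (nat_lit 456) (nat_lit 385) (nat_lit 239)) (XT.lf (nat_lit 0) (nat_lit 1882366018403) (nat_lit 0) (nat_lit 0) (nat_lit 0) (nat_lit 0) (nat_lit 0) (nat_lit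 0) (nat_lit 1) (nat_lit 0) (nat_lit 1) (nat_lit 0) (nat_lit 457) (nat_lit 385) (nat_lit 238))))) (XT.nd (nat_lit 282) (nat_lit 0) (nat_lit 0) (XT.nd (nat_lit 94) (nat_lit 0) (nat_lit 0) (XT.lf (nat_lit 0) (nat_lit 2032367006501) (nat_lit 0) (nat_lit 0) (nat_lit 0) (nat_lit 0) (nat_lit 0) (nat_lit 0) (nat_lit 1) (nat_lit 0) (nat_lit 1) (nat_lit 0) (nat_lit 458) (nat_lit 385) (nat_lit 237)) (XT.nd (nat_lit 94) (nat_lit 0) (nat_lit 0) (XT.lf (nat_lit 0) (nat_lit 2194368074673) (nat_lit 0) (nat_lit 0) (nat_lit 0) (nat_lit 0) (nat_lit 0) (nat_lit 0) (nat_lit 1) (nat_lit 0) (nat_lit 1) (nat_lit 0) (nat_lit 459) (nat_lit 385) (nat_lit 236)) (XT.lf (nat_lit 0) (nat_lit 2369329229247) (nat_lit 0) (nat_lit 0) (nat_lit 0) (nat_lit 0) (nat_lit 0) (nat_lit 0) (nat_lit 1) (nat_lit 0) (nat_lit 1) (nat_lit 0) (nat_lit 460) (nat_lit 385) (nat_lit 235)))) (XT.nd (nat_lit 188)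 (nat_lit 0) (nat_lit 0) (XT.nd (nat_lit 94) (nat_lit 0) (nat_lit 0) (XT.lf (nat_lit 0) (nat_lit 2558287277065) (nat_lit 0) (nat_lit 0) (nat_lit 0) (nat_lit 0) (nat_lit 0) (nat_lit 0) (nat_lit 1) (nat_lit 0) (nat_lit 1) (nat_lit 0) (nat_lit 461) (nat_lit 385) (nat_lit 234)) (XT.lf (nat_lit 0) (nat_lit 2762361969523) (nat_lit 0) (nat_lit 0) (nat_lit 0) (nat_lit 0) (nat_lit 0) (nat_lit 0) (nat_lit 1) (nat_lit 0) (nat_lit 1) (nat_lit 0) (nat_lit 462) (nat_lit 385) (nat_lit 233))) (XT.nd (nat_lit 94) (nat_lit 0) (nat_lit 0) (XT.lf (nat_lit 0) (nat_lit 2982762638130) (nat_lit 0) (nat_lit 0) (nat_lit 0) (nat_lit 0) (nat_lit 0) (nat_lit 0) (nat_lit 1) (nat_lit 0) (nat_lit 1) (nat_lit 0) (nat_lit 463) (nat_lit 385) (nat_lit 232)) (XT.lf (nat_lit 0) (nat_lit 3220795360923) (nat_lit 0) (nat_lit 0) (nat_lit 0) (nat_lit 0) (nat_lit 0) (nat_lit 0) (nat_lit 1) (nat_lit 0)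 (nat_lit 1) (nat_lit 0) (nat_lit 464) (nat_lit 385) (nat_lit 231)))))) (XT.nd (nat_lit 658) (nat_lit 0) (nat_lit 0) (XT.nd (nat_lit 282) (nat_lit 0) (nat_lit 0) (XT.nd (nat_lit 94) (nat_lit 0) (nat_lit 0) (XT.lf (nat_lit 0) (nat_lit 3477870702185) (nat_lit 0) (nat_lit 0) (nat_lit 0) (nat_lit 0) (nat_lit 0) (nat_lit 0) (nat_lit 1) (nat_lit 0) (nat_lit 1) (nat_lit 0) (nat_lit 465) (nat_lit 385) (nat_lit 230)) (XT.nd (nat_lit 94) (nat_lit 0) (nat_lit 0) (XT.lf (nat_lit 0) (nat_lit 3755512071346) (nat_lit 0) (nat_lit 0) (nat_lit 0) (nat_lit 0) (nat_lit 0) (nat_lit 0) (nat_lit 1) (nat_lit 0) (nat_lit 1) (nat_lit 0) (nat_lit 466) (nat_lit 385) (nat_lit 229)) (XT.lf (nat_lit 0) (nat_lit 4055364750594) (nat_lit 0) (nat_lit 0) (nat_lit 0) (nat_lit 0) (nat_lit 0) (nat_lit 0) (nat_lit 1) (nat_lit 0) (nat_lit 1) (nat_lit 0) (nat_lit 467) (nat_lit 385) (nat_lit 228))))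 (XT.nd (nat_lit 188) (nat_lit 0) (nat_lit 0) (XT.nd (nat_lit 94) (nat_lit 0) (nat_lit 0) (XT.lf (nat_lit 0) (nat_lit 4379205644694) (nat_lit 0) (nat_lit 0) (nat_lit 0) (nat_lit 0) (nat_lit 0) (nat_lit 0) (nat_lit 1) (nat_lit 0) (nat_lit 1) (nat_lit 0) (nat_lit 468) (nat_lit 385) (nat_lit 227)) (XT.lf (nat_lit 0) (nat_lit 4728953810797) (nat_lit 0) (nat_lit 0) (nat_lit 0) (nat_lit 0) (nat_lit 0) (nat_lit 0) (nat_lit 1) (nat_lit 0) (nat_lit 1) (nat_lit 0) (nat_lit 469) (nat_lit 385) (nat_lit 226))) (XT.nd (nat_lit 94) (nat_lit 0) (nat_lit 0) (XT.lf (nat_lit 0) (nat_lit 5106681830627) (nat_lit 0) (nat_lit 0) (nat_lit 0) (nat_lit 0) (nat_lit 0) (nat_lit 0) (nat_lit 1) (nat_lit 0) (nat_lit 1) (nat_lit 0) (nat_lit 470) (nat_lit 385) (nat_lit 225)) (XT.lf (nat_lit 0) (nat_lit 5514628092451) (nat_lit 0) (nat_lit 0) (nat_lit 0) (nat_lit 0) (nat_lit 0) (nat_lit 0) (nat_lit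 1) (nat_lit 0) (nat_lit 1) (nat_lit 0) (nat_lit 471) (nat_lit 385) (nat_lit 224))))) (XT.nd (nat_lit 376) (nat_lit 0) (nat_lit 0) (XT.nd (nat_lit 188) (nat_lit 0) (nat_lit 0) (XT.nd (nat_lit 94) (nat_lit 0) (nat_lit 0) (XT.lf (nat_lit 0) (nat_lit 5955210055598) (nat_lit 0) (nat_lit 0) (nat_lit 0) (nat_lit 0) (nat_lit 0) (nat_lit 0) (nat_lit 1) (nat_lit 0) (nat_lit 1) (nat_lit 0) (nat_lit 472) (nat_lit 385) (nat_lit 223)) (XT.lf (nat_lit 0) (nat_lit 6431038576145) (nat_lit 0) (nat_lit 0) (nat_lit 0) (nat_lit 0) (nat_lit 0) (nat_lit 0) (nat_lit 1) (nat_lit 0) (nat_lit 1) (nat_lit 0) (nat_lit 473) (nat_lit 385) (nat_lit 222))) (XT.nd (nat_lit 94) (nat_lit 0) (nat_lit 0) (XT.lf (nat_lit 0) (nat_lit 6944933378659) (nat_lit 0) (nat_lit 0) (nat_lit 0) (nat_lit 0) (nat_lit 0) (nat_lit 0) (nat_lit 1) (nat_lit 0) (nat_lit 1) (nat_lit 0) (nat_lit 474) (nat_lit 385) (nat_lit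 221)) (XT.lf (nat_lit 0) (nat_lit 7499939765673) (nat_lit 0) (nat_lit 0) (nat_lit 0) (nat_lit 0) (nat_lit 0) (nat_lit 0) (nat_lit 1) (nat_lit 0) (nat_lit 1) (nat_lit 0) (nat_lit 475) (nat_lit 385) (nat_lit 220)))) (XT.nd (nat_lit 188) (nat_lit 0) (nat_lit 0) (XT.nd (nat_lit 94) (nat_lit 0) (nat_lit 0) (XT.lf (nat_lit 0) (nat_lit 8099346663925) (nat_lit 0) (nat_lit 0) (nat_lit 0) (nat_lit 0) (nat_lit 0) (nat_lit 0) (nat_lit 1) (nat_lit 0) (nat_lit 1) (nat_lit 0) (nat_lit 476) (nat_lit 385) (nat_lit 219)) (XT.lf (nat_lit 0) (nat_lit 8746706114293) (nat_lit 0) (nat_lit 0) (nat_lit 0) (nat_lit 0) (nat_lit 0) (nat_lit 0) (nat_lit 1) (nat_lit 0) (nat_lit 1) (nat_lit 0) (nat_lit 477) (nat_lit 385) (nat_lit 218))) (XT.nd (nat_lit 94) (nat_lit 0) (nat_lit 0) (XT.lf (nat_lit 0) (nat_lit 9445854320929) (nat_lit 0) (nat_lit 0) (nat_lit 0) (nat_lit 0) (nat_lit 0) (nat_lit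 0) (nat_lit 1) (nat_lit 0) (nat_lit 1) (nat_lit 0) (nat_lit 478) (nat_lit 385) (nat_lit 217)) (XT.lf (nat_lit 0) (nat_lit 10200934384315) (nat_lit 0) (nat_lit 0) (nat_lit 0) (nat_lit 0) (nat_lit 0) (nat_lit 0) (nat_lit 1) (nat_lit 0) (nat_lit 1) (nat_lit 0) (nat_lit 479) (nat_lit 385) (nat_lit 216))))))))
noncomputable def xc146 : XT := (XT.nd (nat_lit 59220) (nat_lit 0) (nat_lit 3696) (XT.nd (nat_lit 1316) (nat_lit 0) (nat_lit 0) (XT.nd (nat_lit 658) (nat_lit 0) (nat_lit 0) (XT.nd (nat_lit 282) (nat_lit 0) (nat_lit 0) (XT.nd (nat_lit 94) (nat_lit 0) (nat_lit 0) (XT.lf (nat_lit 0) (nat_lit 11016420852976) (nat_lit 0) (nat_lit 0) (nat_lit 0) (nat_lit 0) (nat_lit 0) (nat_lit 0) (nat_lit 1) (nat_lit 0) (nat_lit 1) (nat_lit 0) (nat_lit 480) (nat_lit 385) (nat_lit 215)) (XT.nd (nat_lit 94) (nat_lit 0) (nat_lit 0) (XT.lf (nat_lit 0) (nat_lit 11897146239319) (nat_lit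 0) (nat_lit 0) (nat_lit 0) (nat_lit 0) (nat_lit 0) (nat_lit 0) (nat_lit 1) (nat_lit 0) (nat_lit 1) (nat_lit 0) (nat_lit 481) (nat_lit 385) (nat_lit 214)) (XT.lf (nat_lit 0) (nat_lit 12848329656743) (nat_lit 0) (nat_lit 0) (nat_lit 0) (nat_lit 0) (nat_lit 0) (nat_lit 0) (nat_lit 1) (nat_lit 0) (nat_lit 1) (nat_lit 0) (nat_lit 482) (nat_lit 385) (nat_lit 213)))) (XT.nd (nat_lit 188) (nat_lit 0) (nat_lit 0) (XT.nd (nat_lit 94) (nat_lit 0) (nat_lit 0) (XT.lf (nat_lit 0) (nat_lit 13875607747722) (nat_lit 0) (nat_lit 0) (nat_lit 0) (nat_lit 0) (nat_lit 0) (nat_lit 0) (nat_lit 1) (nat_lit 0) (nat_lit 1) (nat_lit 0) (nat_lit 483) (nat_lit 385) (nat_lit 212)) (XT.lf (nat_lit 0) (nat_lit 14985068086130) (nat_lit 0) (nat_lit 0) (nat_lit 0) (nat_lit 0) (nat_lit 0) (nat_lit 0) (nat_lit 1) (nat_lit 0) (nat_lit 1) (nat_lit 0) (nat_lit 484) (nat_lit 385) (nat_lit 211))) (XT.nd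 (nat_lit 94) (nat_lit 0) (nat_lit 0) (XT.lf (nat_lit 0) (nat_lit 16183285251749) (nat_lit 0) (nat_lit 0) (nat_lit 0) (nat_lit 0) (nat_lit 0) (nat_lit 0) (nat_lit 1) (nat_lit 0) (nat_lit 1) (nat_lit 0) (nat_lit 485) (nat_lit 385) (nat_lit 210)) (XT.lf (nat_lit 0) (nat_lit 17477359790745) (nat_lit 0) (nat_lit 0) (nat_lit 0) (nat_lit 0) (nat_lit 0) (nat_lit 0) (nat_lit 1) (nat_lit 0) (nat_lit 1) (nat_lit 0) (nat_lit 486) (nat_lit 385) (nat_lit 209))))) (XT.nd (nat_lit 282) (nat_lit 0) (nat_lit 0) (XT.nd (nat_lit 94) (nat_lit 0) (nat_lit 0) (XT.lf (nat_lit 0) (nat_lit 18874960292980) (nat_lit 0) (nat_lit 0) (nat_lit 0) (nat_lit 0) (nat_lit 0) (nat_lit 0) (nat_lit 1) (nat_lit 0) (nat_lit 1) (nat_lit 0) (nat_lit 487) (nat_lit 385) (nat_lit 208)) (XT.nd (nat_lit 94) (nat_lit 0) (nat_lit 0) (XT.lf (nat_lit 0) (nat_lit 20384368835504) (nat_lit 0) (nat_lit 0) (nat_lit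 0) (nat_lit 0) (nat_lit 0) (nat_lit 0) (nat_lit 1) (nat_lit 0) (nat_lit 1) (nat_lit 0) (nat_lit 488) (nat_lit 385) (nat_lit 207)) (XT.lf (nat_lit 0) (nat_lit 22014530061532) (nat_lit 0) (nat_lit 0) (nat_lit 0) (nat_lit 0) (nat_lit 0) (nat_lit 0) (nat_lit 1) (nat_lit 0) (nat_lit 1) (nat_lit 0) (nat_lit 489) (nat_lit 385) (nat_lit 206)))) (XT.nd (nat_lit 188) (nat_lit 0) (nat_lit 0) (XT.nd (nat_lit 94) (nat_lit 0) (nat_lit 0) (XT.lf (nat_lit 0) (nat_lit 23775104185736) (nat_lit 0) (nat_lit 0) (nat_lit 0) (nat_lit 0) (nat_lit 0) (nat_lit 0) (nat_lit 1) (nat_lit 0) (nat_lit 1) (nat_lit 0) (nat_lit 490) (nat_lit 385) (nat_lit 205)) (XT.lf (nat_lit 0) (nat_lit 25676524239963) (nat_lit 0) (nat_lit 0) (nat_lit 0) (nat_lit 0) (nat_lit 0) (nat_lit 0) (nat_lit 1) (nat_lit 0) (nat_lit 1) (nat_lit 0) (nat_lit 491) (nat_lit 385) (nat_lit 204))) (XT.nd (nat_lit 94) (nat_lit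 0) (nat_lit 0) (XT.lf (nat_lit 0) (nat_lit 27730057898610) (nat_lit 0) (nat_lit 0) (nat_lit 0) (nat_lit 0) (nat_lit 0) (nat_lit 0) (nat_lit 1) (nat_lit 0) (nat_lit 1) (nat_lit 0) (nat_lit 492) (nat_lit 385) (nat_lit 203)) (XT.lf (nat_lit 0) (nat_lit 29947874250023) (nat_lit 0) (nat_lit 0) (nat_lit 0) (nat_lit 0) (nat_lit 0) (nat_lit 0) (nat_lit 1) (nat_lit 0) (nat_lit 1) (nat_lit 0) (nat_lit 493) (nat_lit 385) (nat_lit 202)))))) (XT.nd (nat_lit 658) (nat_lit 0) (nat_lit 0) (XT.nd (nat_lit 282) (nat_lit 0) (nat_lit 0) (XT.nd (nat_lit 94) (nat_lit 0) (nat_lit 0) (XT.lf (nat_lit 0) (nat_lit 32343115909619) (nat_lit 0) (nat_lit 0) (nat_lit 0) (nat_lit 0) (nat_lit 0) (nat_lit 0) (nat_lit 1) (nat_lit 0) (nat_lit 1) (nat_lit 0) (nat_lit 494) (nat_lit 385) (nat_lit 201)) (XT.nd (nat_lit 94) (nat_lit 0) (nat_lit 0) (XT.lf (nat_lit 0) (nat_lit 34929976902047) (nat_lit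 0) (nat_lit 0) (nat_lit 0) (nat_lit 0) (nat_lit 0) (nat_lit 0) (nat_lit 1) (nat_lit 0) (nat_lit 1) (nat_lit 0) (nat_lit 495) (nat_lit 385) (nat_lit 200)) (XT.lf (nat_lit 0) (nat_lit 37723786773928) (nat_lit 0) (nat_lit 0) (nat_lit 0) (nat_lit 0) (nat_lit 0) (nat_lit 0) (nat_lit 1) (nat_lit 0) (nat_lit 1) (nat_lit 0) (nat_lit 496) (nat_lit 385) (nat_lit 199)))) (XT.nd (nat_lit 188) (nat_lit 0) (nat_lit 0) (XT.nd (nat_lit 94) (nat_lit 0) (nat_lit 0) (XT.lf (nat_lit 0) (nat_lit 40741101435614) (nat_lit 0) (nat_lit 0) (nat_lit 0) (nat_lit 0) (nat_lit 0) (nat_lit 0) (nat_lit 1) (nat_lit 0) (nat_lit 1) (nat_lit 0) (nat_lit 497) (nat_lit 385) (nat_lit 198)) (XT.lf (nat_lit 0) (nat_lit 43999801270287) (nat_lit 0) (nat_lit 0) (nat_lit 0) (nat_lit 0) (nat_lit 0) (nat_lit 0) (nat_lit 1) (nat_lit 0) (nat_lit 1) (nat_lit 0) (nat_lit 498) (nat_lit 385) (nat_lit 197))) (XT.nd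 (nat_lit 94) (nat_lit 0) (nat_lit 0) (XT.lf (nat_lit 0) (nat_lit 47519197091780) (nat_lit 0) (nat_lit 0) (nat_lit 0) (nat_lit 0) (nat_lit 0) (nat_lit 0) (nat_lit 1) (nat_lit 0) (nat_lit 1) (nat_lit 0) (nat_lit 499) (nat_lit 385) (nat_lit 196)) (XT.lf (nat_lit 0) (nat_lit 51320144579037) (nat_lit 0) (nat_lit 0) (nat_lit 0) (nat_lit 0) (nat_lit 0) (nat_lit 0) (nat_lit 1) (nat_lit 0) (nat_lit 1) (nat_lit 0) (nat_lit 500) (nat_lit 385) (nat_lit 195))))) (XT.nd (nat_lit 282) (nat_lit 0) (nat_lit 0) (XT.nd (nat_lit 94) (nat_lit 0) (nat_lit 0) (XT.lf (nat_lit 0) (nat_lit 55425167865315) (nat_lit 0) (nat_lit 0) (nat_lit 0) (nat_lit 0) (nat_lit 0) (nat_lit 0) (nat_lit 1) (nat_lit 0) (nat_lit 1) (nat_lit 0) (nat_lit 501) (nat_lit 385) (nat_lit 194)) (XT.nd (nat_lit 94) (nat_lit 0) (nat_lit 0) (XT.lf (nat_lit 0) (nat_lit 59858593014532) (nat_lit 0) (nat_lit 0) (nat_lit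 0) (nat_lit 0) (nat_lit 0) (nat_lit 0) (nat_lit 1) (nat_lit 0) (nat_lit 1) (nat_lit 0) (nat_lit 502) (nat_lit 385) (nat_lit 193)) (XT.lf (nat_lit 0) (nat_lit 64646692175721) (nat_lit 0) (nat_lit 0) (nat_lit 0) (nat_lit 0) (nat_lit 0) (nat_lit 0) (nat_lit 1) (nat_lit 0) (nat_lit 1) (nat_lit 0) (nat_lit 503) (nat_lit 385) (nat_lit 192)))) (XT.nd (nat_lit 56776) (nat_lit 0) (nat_lit 10836) (XT.nd (nat_lit 56682) (nat_lit 0) (nat_lit 10752) (XT.lf (nat_lit 0) (nat_lit 69817839269838) (nat_lit 0) (nat_lit 0) (nat_lit 0) (nat_lit 0) (nat_lit 0) (nat_lit 0) (nat_lit 1) (nat_lit 0) (nat_lit 1) (nat_lit 0) (nat_lit 504) (nat_lit 385) (nat_lit 191)) (XT.lf (nat_lit 0) (nat_lit 6563678282) (nat_lit 924) (nat_lit 4233076193) (nat_lit 924) (nat_lit 4233076193) (nat_lit 128) (nat_lit 3) (nat_lit 139) (nat_lit 3) (nat_lit 139) (nat_lit 5) (nat_lit 386) (nat_lit 386) (nat_lit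 308))) (XT.nd (nat_lit 94) (nat_lit 0) (nat_lit 0) (XT.lf (nat_lit 0) (nat_lit 14048644468) (nat_lit 840) (nat_lit 15180685014) (nat_lit 924) (nat_lit 2012908629) (nat_lit 129) (nat_lit 5) (nat_lit 139) (nat_lit 5) (nat_lit 140) (nat_lit 5) (nat_lit 387) (nat_lit 386) (nat_lit 307)) (XT.lf (nat_lit 84) (nat_lit 10298080916) (nat_lit 0) (nat_lit 5409073204) (nat_lit 924) (nat_lit 16779090968) (nat_lit 130) (nat_lit 5) (nat_lit 129) (nat_lit 5) (nat_lit 140) (nat_lit 5) (nat_lit 388) (nat_lit 386) (nat_lit 306))))))) (XT.nd (nat_lit 1316) (nat_lit 3528) (nat_lit 0) (XT.nd (nat_lit 658) (nat_lit 2100) (nat_lit 0) (XT.nd (nat_lit 282) (nat_lit 1596) (nat_lit 0) (XT.nd (nat_lit 94) (nat_lit 0) (nat_lit 84) (XT.lf (nat_lit 84) (nat_lit 4351382547) (nat_lit 0) (nat_lit 13790409547) (nat_lit 924) (nat_lit 15655808152) (nat_lit 131) (nat_lit 5) (nat_lit 130) (nat_lit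 5) (nat_lit 141) (nat_lit 5) (nat_lit 389) (nat_lit 386) (nat_lit 305)) (XT.nd (nat_lit 94) (nat_lit 0) (nat_lit 84) (XT.lf (nat_lit 0) (nat_lit 21432303136) (nat_lit 840) (nat_lit 1679736637) (nat_lit 924) (nat_lit 12068768942) (nat_lit 131) (nat_lit 5) (nat_lit 141) (nat_lit 5) (nat_lit 142) (nat_lit 5) (nat_lit 390) (nat_lit 386) (nat_lit 304)) (XT.lf (nat_lit 0) (nat_lit 25714346205) (nat_lit 840) (nat_lit 7696050709) (nat_lit 924) (nat_lit 3227862391) (nat_lit 132) (nat_lit 5) (nat_lit 142) (nat_lit 5) (nat_lit 143) (nat_lit 5) (nat_lit 391) (nat_lit 386) (nat_lit 303)))) (XT.nd (nat_lit 188) (nat_lit 1008) (nat_lit 0) (XT.nd (nat_lit 94) (nat_lit 756) (nat_lit 0) (XT.lf (nat_lit 84) (nat_lit 24241849159) (nat_lit 0) (nat_lit 6886611758) (nat_lit 924) (nat_lit 7044369616) (nat_lit 133) (nat_lit 5) (nat_lit 132) (nat_lit 5) (nat_lit 143) (nat_lit 5) (nat_lit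 392) (nat_lit 386) (nat_lit 302)) (XT.lf (nat_lit 0) (nat_lit 19460049680) (nat_lit 840) (nat_lit 18287574788) (nat_lit 924) (nat_lit 2043947006) (nat_lit 123) (nat_lit 5) (nat_lit 133) (nat_lit 5) (nat_lit 134) (nat_lit 5) (nat_lit 393) (nat_lit 386) (nat_lit 301))) (XT.nd (nat_lit 94) (nat_lit 420) (nat_lit 0) (XT.lf (nat_lit 0) (nat_lit 4006143380) (nat_lit 588) (nat_lit 26892924097) (nat_lit 84) (nat_lit 10600270827) (nat_lit 116) (nat_lit 5) (nat_lit 123) (nat_lit 5) (nat_lit 117) (nat_lit 5) (nat_lit 394) (nat_lit 386) (nat_lit 300)) (XT.lf (nat_lit 0) (nat_lit 9694018101) (nat_lit 420) (nat_lit 1588184512) (nat_lit 504) (nat_lit 32019169923) (nat_lit 111) (nat_lit 5) (nat_lit 116) (nat_lit 5) (nat_lit 117) (nat_lit 5) (nat_lit 395) (nat_lit 386) (nat_lit 299))))) (XT.nd (nat_lit 282) (nat_lit 1344) (nat_lit 0) (XT.nd (nat_lit 94) (nat_lit 336) (nat_lit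 0) (XT.lf (nat_lit 0) (nat_lit 4607410236) (nat_lit 420) (nat_lit 15543798178) (nat_lit 504) (nat_lit 25045818001) (nat_lit 106) (nat_lit 5) (nat_lit 111) (nat_lit 5) (nat_lit 112) (nat_lit 5) (nat_lit 396) (nat_lit 386) (nat_lit 298)) (XT.nd (nat_lit 94) (nat_lit 336) (nat_lit 0) (XT.lf (nat_lit 0) (nat_lit 30596126538) (nat_lit 504) (nat_lit 429883387) (nat_lit 84) (nat_lit 16175003086) (nat_lit 106) (nat_lit 5) (nat_lit 112) (nat_lit 5) (nat_lit 107) (nat_lit 5) (nat_lit 397) (nat_lit 386) (nat_lit 297)) (XT.lf (nat_lit 0) (nat_lit 42840952086) (nat_lit 420) (nat_lit 5252815442) (nat_lit 84) (nat_lit 1223335308) (nat_lit 102) (nat_lit 5) (nat_lit 107) (nat_lit 5) (nat_lit 103) (nat_lit 5) (nat_lit 398) (nat_lit 386) (nat_lit 296)))) (XT.nd (nat_lit 188) (nat_lit 588) (nat_lit 0) (XT.nd (nat_lit 94) (nat_lit 336) (nat_lit 0) (XT.lf (nat_lit 0) (nat_lit 5509698809)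 (nat_lit 420) (nat_lit 10308733980) (nat_lit 84) (nat_lit 35721080396) (nat_lit 97) (nat_lit 5) (nat_lit 102) (nat_lit 5) (nat_lit 98) (nat_lit 5) (nat_lit 399) (nat_lit 386) (nat_lit 295)) (XT.lf (nat_lit 0) (nat_lit 19234721557) (nat_lit 420) (nat_lit 15399467143) (nat_lit 84) (nat_lit 19249859440) (nat_lit 93) (nat_lit 5) (nat_lit 98) (nat_lit 5) (nat_lit 94) (nat_lit 5) (nat_lit 400) (nat_lit 386) (nat_lit 294))) (XT.nd (nat_lit 94) (nat_lit 252) (nat_lit 0) (XT.lf (nat_lit 0) (nat_lit 35079272046) (nat_lit 420) (nat_lit 20361584067) (nat_lit 84) (nat_lit 924213484) (nat_lit 89) (nat_lit 5) (nat_lit 94) (nat_lit 5) (nat_lit 90) (nat_lit 5) (nat_lit 401) (nat_lit 386) (nat_lit 293)) (XT.lf (nat_lit 0) (nat_lit 33515452362) (nat_lit 252) (nat_lit 20051116131) (nat_lit 336) (nat_lit 5409245181) (nat_lit 86) (nat_lit 5) (nat_lit 89) (nat_lit 5) (nat_lit 90)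 (nat_lit 5) (nat_lit 402) (nat_lit 386) (nat_lit 292)))))) (XT.nd (nat_lit 658) (nat_lit 1512) (nat_lit 0) (XT.nd (nat_lit 282) (nat_lit 1092) (nat_lit 0) (XT.nd (nat_lit 94) (nat_lit 504) (nat_lit 0) (XT.lf (nat_lit 0) (nat_lit 12509576397) (nat_lit 420) (nat_lit 30580631574) (nat_lit 84) (nat_lit 18638655790) (nat_lit 81) (nat_lit 5) (nat_lit 86) (nat_lit 5) (nat_lit 82) (nat_lit 5) (nat_lit 403) (nat_lit 386) (nat_lit 291)) (XT.nd (nat_lit 94) (nat_lit 252) (nat_lit 0) (XT.lf (nat_lit 0) (nat_lit 29000239565) (nat_lit 252) (nat_lit 3912004226) (nat_lit 336) (nat_lit 31723487572) (nat_lit 78) (nat_lit 5) (nat_lit 81) (nat_lit 5) (nat_lit 82) (nat_lit 5) (nat_lit 404) (nat_lit 386) (nat_lit 290)) (XT.lf (nat_lit 0) (nat_lit 26939041486) (nat_lit 252) (nat_lit 29565519173) (nat_lit 336) (nat_lit 11192715910) (nat_lit 75) (nat_lit 5) (nat_lit 78) (nat_lit 5)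 (nat_lit 79) (nat_lit 5) (nat_lit 405) (nat_lit 386) (nat_lit 289)))) (XT.nd (nat_lit 188) (nat_lit 504) (nat_lit 0) (XT.nd (nat_lit 94) (nat_lit 252) (nat_lit 0) (XT.lf (nat_lit 0) (nat_lit 11931481922) (nat_lit 336) (nat_lit 45775808481) (nat_lit 84) (nat_lit 13222762678) (nat_lit 71) (nat_lit 5) (nat_lit 75) (nat_lit 5) (nat_lit 72) (nat_lit 5) (nat_lit 406) (nat_lit 386) (nat_lit 288)) (XT.lf (nat_lit 0) (nat_lit 23455280418) (nat_lit 252) (nat_lit 14645997466) (nat_lit 336) (nat_lit 36231609443) (nat_lit 68) (nat_lit 5) (nat_lit 71) (nat_lit 5) (nat_lit 72) (nat_lit 5) (nat_lit 407) (nat_lit 386) (nat_lit 287))) (XT.nd (nat_lit 94) (nat_lit 336) (nat_lit 0) (XT.lf (nat_lit 0) (nat_lit 22082009706) (nat_lit 168) (nat_lit 45931664226) (nat_lit 252) (nat_lit 9911823563) (nat_lit 66) (nat_lit 5) (nat_lit 68) (nat_lit 5) (nat_lit 69) (nat_lit 5) (nat_lit 408)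 (nat_lit 386) (nat_lit 286)) (XT.lf (nat_lit 0) (nat_lit 19419795932) (nat_lit 336) (nat_lit 60691574843) (nat_lit 84) (nat_lit 1604753292) (nat_lit 62) (nat_lit 5) (nat_lit 66) (nat_lit 5) (nat_lit 63) (nat_lit 5) (nat_lit 409) (nat_lit 386) (nat_lit 285))))) (XT.nd (nat_lit 376) (nat_lit 756) (nat_lit 0) (XT.nd (nat_lit 188) (nat_lit 336) (nat_lit 0) (XT.nd (nat_lit 94) (nat_lit 252) (nat_lit 0) (XT.lf (nat_lit 0) (nat_lit 19950350588) (nat_lit 168) (nat_lit 32876295909) (nat_lit 252) (nat_lit 32871431648) (nat_lit 60) (nat_lit 5) (nat_lit 62) (nat_lit 5) (nat_lit 63) (nat_lit 5) (nat_lit 410) (nat_lit 386) (nat_lit 284)) (XT.lf (nat_lit 0) (nat_lit 629936461) (nat_lit 252) (nat_lit 70339510279) (nat_lit 84) (nat_lit 18945619108) (nat_lit 57) (nat_lit 5) (nat_lit 60) (nat_lit 5) (nat_lit 58) (nat_lit 5) (nat_lit 411) (nat_lit 386) (nat_lit 283))) (XT.nd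 (nat_lit 94) (nat_lit 168) (nat_lit 0) (XT.lf (nat_lit 0) (nat_lit 19140395662) (nat_lit 168) (nat_lit 18548896537) (nat_lit 252) (nat_lit 56651699921) (nat_lit 55) (nat_lit 5) (nat_lit 57) (nat_lit 5) (nat_lit 58) (nat_lit 5) (nat_lit 412) (nat_lit 386) (nat_lit 282)) (XT.lf (nat_lit 0) (nat_lit 19226658773) (nat_lit 168) (nat_lit 60623591104) (nat_lit 252) (nat_lit 19163899941) (nat_lit 53) (nat_lit 5) (nat_lit 55) (nat_lit 5) (nat_lit 56) (nat_lit 5) (nat_lit 413) (nat_lit 386) (nat_lit 281)))) (XT.nd (nat_lit 188) (nat_lit 336) (nat_lit 0) (XT.nd (nat_lit 94) (nat_lit 168) (nat_lit 0) (XT.lf (nat_lit 0) (nat_lit 19861393098) (nat_lit 168) (nat_lit 2730453950) (nat_lit 252) (nat_lit 81355098069) (nat_lit 50) (nat_lit 5) (nat_lit 52) (nat_lit 5) (nat_lit 53) (nat_lit 5) (nat_lit 414) (nat_lit 386) (nat_lit 280)) (XT.lf (nat_lit 0) (nat_lit 20498243455) (nat_lit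 168) (nat_lit 49190814654) (nat_lit 252) (nat_lit 39435977112) (nat_lit 48) (nat_lit 5) (nat_lit 50) (nat_lit 5) (nat_lit 51) (nat_lit 5) (nat_lit 415) (nat_lit 386) (nat_lit 279))) (XT.nd (nat_lit 94) (nat_lit 168) (nat_lit 0) (XT.lf (nat_lit 0) (nat_lit 7762468437) (nat_lit 168) (nat_lit 92493309548) (nat_lit 84) (nat_lit 14351407964) (nat_lit 46) (nat_lit 5) (nat_lit 48) (nat_lit 5) (nat_lit 47) (nat_lit 5) (nat_lit 416) (nat_lit 386) (nat_lit 278)) (XT.lf (nat_lit 0) (nat_lit 23660868501) (nat_lit 168) (nat_lit 36478143517) (nat_lit 252) (nat_lit 60217378798) (nat_lit 44) (nat_lit 5) (nat_lit 46) (nat_lit 5) (nat_lit 47) (nat_lit 5) (nat_lit 417) (nat_lit 386) (nat_lit 277))))))))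
noncomputable def xc147 : XT := (XT.nd (nat_lit 2632) (nat_lit 0) (nat_lit 0) (XT.nd (nat_lit 1316) (nat_lit 1596) (nat_lit 0) (XT.nd (nat_lit 658) (nat_lit 1008) (nat_lit 0) (XT.nd (nat_lit 282) (nat_lit 672) (nat_lit 0) (XT.nd (nat_lit 94) (nat_lit 336) (nat_lit 0) (XT.lf (nat_lit 0) (nat_lit 26227962656) (nat_lit 84) (nat_lit 93028175077) (nat_lit 168) (nat_lit 7181871407) (nat_lit 43) (nat_lit 5) (nat_lit 44) (nat_lit 5) (nat_lit 45) (nat_lit 4) (nat_lit 418) (nat_lit 386) (nat_lit 276)) (XT.nd (nat_lit 94) (nat_lit 84) (nat_lit 0) (XT.lf (nat_lit 0) (nat_lit 29015794087) (nat_lit 168) (nat_lit 22254952248) (nat_lit 252) (nat_lit 81557419782) (nat_lit 40) (nat_lit 5) (nat_lit 42) (nat_lit 5) (nat_lit 43) (nat_lit 5) (nat_lit 419) (nat_lit 386) (nat_lit 275)) (XT.lf (nat_lit 0) (nat_lit 32558062323) (nat_lit 84) (nat_lit 84719355819) (nat_lit 168) (nat_lit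 22289757609) (nat_lit 39) (nat_lit 5) (nat_lit 40) (nat_lit 5) (nat_lit 41) (nat_lit 4) (nat_lit 420) (nat_lit 386) (nat_lit 274)))) (XT.nd (nat_lit 188) (nat_lit 336) (nat_lit 0) (XT.nd (nat_lit 94) (nat_lit 84) (nat_lit 0) (XT.lf (nat_lit 0) (nat_lit 36911298995) (nat_lit 168) (nat_lit 6260011539) (nat_lit 252) (nat_lit 103502064262) (nat_lit 36) (nat_lit 5) (nat_lit 38) (nat_lit 5) (nat_lit 39) (nat_lit 5) (nat_lit 421) (nat_lit 386) (nat_lit 273)) (XT.lf (nat_lit 0) (nat_lit 41607728960) (nat_lit 84) (nat_lit 75258294033) (nat_lit 168) (nat_lit 37274892311) (nat_lit 35) (nat_lit 5) (nat_lit 36) (nat_lit 5) (nat_lit 37) (nat_lit 4) (nat_lit 422) (nat_lit 386) (nat_lit 272))) (XT.nd (nat_lit 94) (nat_lit 84) (nat_lit 0) (XT.lf (nat_lit 0) (nat_lit 36130755113) (nat_lit 252) (nat_lit 114474702631) (nat_lit 84) (nat_lit 11424837524) (nat_lit 32) (nat_lit 5)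 (nat_lit 35) (nat_lit 5) (nat_lit 33) (nat_lit 4) (nat_lit 423) (nat_lit 386) (nat_lit 271)) (XT.lf (nat_lit 0) (nat_lit 53805781958) (nat_lit 84) (nat_lit 64413990873) (nat_lit 168) (nat_lit 52094657148) (nat_lit 31) (nat_lit 5) (nat_lit 32) (nat_lit 5) (nat_lit 33) (nat_lit 4) (nat_lit 424) (nat_lit 386) (nat_lit 270))))) (XT.nd (nat_lit 282) (nat_lit 504) (nat_lit 0) (XT.nd (nat_lit 94) (nat_lit 252) (nat_lit 0) (XT.lf (nat_lit 0) (nat_lit 30227207304) (nat_lit 252) (nat_lit 117602421031) (nat_lit 84) (nat_lit 31235288506) (nat_lit 28) (nat_lit 5) (nat_lit 31) (nat_lit 5) (nat_lit 29) (nat_lit 4) (nat_lit 425) (nat_lit 386) (nat_lit 269)) (XT.nd (nat_lit 94) (nat_lit 168) (nat_lit 0) (XT.lf (nat_lit 0) (nat_lit 69645444583) (nat_lit 84) (nat_lit 51922982260) (nat_lit 168) (nat_lit 66691377822) (nat_lit 27) (nat_lit 5) (nat_lit 28) (nat_lit 5) (nat_lit 29)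 (nat_lit 4) (nat_lit 426) (nat_lit 386) (nat_lit 268)) (XT.lf (nat_lit 0) (nat_lit 25520378413) (nat_lit 168) (nat_lit 118703551700) (nat_lit 84) (nat_lit 53739223075) (nat_lit 25) (nat_lit 5) (nat_lit 27) (nat_lit 5) (nat_lit 26) (nat_lit 4) (nat_lit 427) (nat_lit 386) (nat_lit 267)))) (XT.nd (nat_lit 188) (nat_lit 252) (nat_lit 0) (XT.nd (nat_lit 94) (nat_lit 168) (nat_lit 0) (XT.lf (nat_lit 0) (nat_lit 89693024967) (nat_lit 84) (nat_lit 37484871109) (nat_lit 168) (nat_lit 80989940353) (nat_lit 24) (nat_lit 5) (nat_lit 25) (nat_lit 5) (nat_lit 26) (nat_lit 4) (nat_lit 428) (nat_lit 386) (nat_lit 266)) (XT.lf (nat_lit 0) (nat_lit 22196293105) (nat_lit 168) (nat_lit 117376549304) (nat_lit 84) (nat_lit 79352862068) (nat_lit 22) (nat_lit 5) (nat_lit 24) (nat_lit 5) (nat_lit 23) (nat_lit 4) (nat_lit 429) (nat_lit 386) (nat_lit 265))) (XT.nd (nat_lit 94) (nat_lit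 168) (nat_lit 0) (XT.lf (nat_lit 0) (nat_lit 114597727455) (nat_lit 84) (nat_lit 20757280983) (nat_lit 168) (nat_lit 94895054525) (nat_lit 21) (nat_lit 5) (nat_lit 22) (nat_lit 5) (nat_lit 23) (nat_lit 4) (nat_lit 430) (nat_lit 386) (nat_lit 264)) (XT.lf (nat_lit 0) (nat_lit 20473541911) (nat_lit 168) (nat_lit 113154047462) (nat_lit 84) (nat_lit 108547487033) (nat_lit 19) (nat_lit 5) (nat_lit 21) (nat_lit 5) (nat_lit 20) (nat_lit 4) (nat_lit 431) (nat_lit 386) (nat_lit 263)))))) (XT.nd (nat_lit 658) (nat_lit 756) (nat_lit 0) (XT.nd (nat_lit 282) (nat_lit 504) (nat_lit 0) (XT.nd (nat_lit 94) (nat_lit 252) (nat_lit 0) (XT.lf (nat_lit 0) (nat_lit 145102736152) (nat_lit 84) (nat_lit 1350158611) (nat_lit 168) (nat_lit 108288116872) (nat_lit 18) (nat_lit 5) (nat_lit 19) (nat_lit 5) (nat_lit 20) (nat_lit 4) (nat_lit 432) (nat_lit 386) (nat_lit 262)) (XT.nd (nat_lit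 94) (nat_lit 84) (nat_lit 0) (XT.lf (nat_lit 0) (nat_lit 20607810812) (nat_lit 168) (nat_lit 105493532538) (nat_lit 84) (nat_lit 141856600847) (nat_lit 16) (nat_lit 5) (nat_lit 18) (nat_lit 5) (nat_lit 17) (nat_lit 4) (nat_lit 433) (nat_lit 386) (nat_lit 261)) (XT.lf (nat_lit 0) (nat_lit 161207763159) (nat_lit 168) (nat_lit 100173652539) (nat_lit 0) (nat_lit 20502742986) (nat_lit 15) (nat_lit 5) (nat_lit 17) (nat_lit 4) (nat_lit 15) (nat_lit 4) (nat_lit 434) (nat_lit 386) (nat_lit 260)))) (XT.nd (nat_lit 188) (nat_lit 252) (nat_lit 0) (XT.nd (nat_lit 94) (nat_lit 84) (nat_lit 0) (XT.lf (nat_lit 0) (nat_lit 22897021091) (nat_lit 168) (nat_lit 93766767568) (nat_lit 84) (nat_lit 179883984967) (nat_lit 13) (nat_lit 5) (nat_lit 15) (nat_lit 5) (nat_lit 14) (nat_lit 4) (nat_lit 435) (nat_lit 386) (nat_lit 259)) (XT.lf (nat_lit 0) (nat_lit 179831443906) (nat_lit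 168) (nat_lit 86323478752) (nat_lit 0) (nat_lit 45825487730) (nat_lit 12) (nat_lit 5) (nat_lit 14) (nat_lit 4) (nat_lit 12) (nat_lit 4) (nat_lit 436) (nat_lit 386) (nat_lit 258))) (XT.nd (nat_lit 94) (nat_lit 84) (nat_lit 0) (XT.lf (nat_lit 0) (nat_lit 27687157633) (nat_lit 168) (nat_lit 77247806112) (nat_lit 84) (nat_lit 223312763248) (nat_lit 10) (nat_lit 5) (nat_lit 12) (nat_lit 5) (nat_lit 11) (nat_lit 4) (nat_lit 437) (nat_lit 386) (nat_lit 257)) (XT.lf (nat_lit 0) (nat_lit 202843627740) (nat_lit 168) (nat_lit 67288368635) (nat_lit 0) (nat_lit 75217948121) (nat_lit 9) (nat_lit 5) (nat_lit 11) (nat_lit 4) (nat_lit 9) (nat_lit 4) (nat_lit 438) (nat_lit 386) (nat_lit 256))))) (XT.nd (nat_lit 282) (nat_lit 336) (nat_lit 0) (XT.nd (nat_lit 94) (nat_lit 252) (nat_lit 0) (XT.lf (nat_lit 0) (nat_lit 35378873616) (nat_lit 168) (nat_lit 55099415810) (nat_lit 84)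 (nat_lit 272915595628) (nat_lit 7) (nat_lit 5) (nat_lit 9) (nat_lit 5) (nat_lit 8) (nat_lit 4) (nat_lit 439) (nat_lit 386) (nat_lit 255)) (XT.nd (nat_lit 94) (nat_lit 168) (nat_lit 0) (XT.lf (nat_lit 0) (nat_lit 230862078999) (nat_lit 168) (nat_lit 42171427763) (nat_lit 0) (nat_lit 109313029291) (nat_lit 6) (nat_lit 5) (nat_lit 8) (nat_lit 4) (nat_lit 6) (nat_lit 4) (nat_lit 440) (nat_lit 386) (nat_lit 254)) (XT.lf (nat_lit 0) (nat_lit 46434970486) (nat_lit 168) (nat_lit 26357708947) (nat_lit 84) (nat_lit 329566139826) (nat_lit 4) (nat_lit 5) (nat_lit 6) (nat_lit 5) (nat_lit 5) (nat_lit 4) (nat_lit 441) (nat_lit 386) (nat_lit 253)))) (XT.nd (nat_lit 188) (nat_lit 0) (nat_lit 0) (XT.nd (nat_lit 94) (nat_lit 252) (nat_lit 0) (XT.lf (nat_lit 0) (nat_lit 264591585576) (nat_lit 168) (nat_lit 9940840224) (nat_lit 0) (nat_lit 148829946194) (nat_lit 3) (nat_lit 5)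 (nat_lit 5) (nat_lit 4) (nat_lit 3) (nat_lit 4) (nat_lit 442) (nat_lit 386) (nat_lit 252)) (XT.lf (nat_lit 0) (nat_lit 646310703943) (nat_lit 0) (nat_lit 0) (nat_lit 0) (nat_lit 0) (nat_lit 0) (nat_lit 0) (nat_lit 1) (nat_lit 0) (nat_lit 1) (nat_lit 0) (nat_lit 443) (nat_lit 386) (nat_lit 251))) (XT.nd (nat_lit 94) (nat_lit 0) (nat_lit 0) (XT.lf (nat_lit 0) (nat_lit 697380180733) (nat_lit 0) (nat_lit 0) (nat_lit 0) (nat_lit 0) (nat_lit 0) (nat_lit 0) (nat_lit 1) (nat_lit 0) (nat_lit 1) (nat_lit 0) (nat_lit 444) (nat_lit 386) (nat_lit 250)) (XT.lf (nat_lit 0) (nat_lit 752535218454) (nat_lit 0) (nat_lit 0) (nat_lit 0) (nat_lit 0) (nat_lit 0) (nat_lit 0) (nat_lit 1) (nat_lit 0) (nat_lit 1) (nat_lit 0) (nat_lit 445) (nat_lit 386) (nat_lit 249))))))) (XT.nd (nat_lit 1316) (nat_lit 0) (nat_lit 0) (XT.nd (nat_lit 658) (nat_lit 0) (nat_lit 0) (XT.nd (nat_lit 282)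 (nat_lit 0) (nat_lit 0) (XT.nd (nat_lit 94) (nat_lit 0) (nat_lit 0) (XT.lf (nat_lit 0) (nat_lit 812102661772) (nat_lit 0) (nat_lit 0) (nat_lit 0) (nat_lit 0) (nat_lit 0) (nat_lit 0) (nat_lit 1) (nat_lit 0) (nat_lit 1) (nat_lit 0) (nat_lit 446) (nat_lit 386) (nat_lit 248)) (XT.nd (nat_lit 94) (nat_lit 0) (nat_lit 0) (XT.lf (nat_lit 0) (nat_lit 876435502946) (nat_lit 0) (nat_lit 0) (nat_lit 0) (nat_lit 0) (nat_lit 0) (nat_lit 0) (nat_lit 1) (nat_lit 0) (nat_lit 1) (nat_lit 0) (nat_lit 447) (nat_lit 386) (nat_lit 247)) (XT.lf (nat_lit 0) (nat_lit 945914973625) (nat_lit 0) (nat_lit 0) (nat_lit 0) (nat_lit 0) (nat_lit 0) (nat_lit 0) (nat_lit 1) (nat_lit 0) (nat_lit 1) (nat_lit 0) (nat_lit 448) (nat_lit 386) (nat_lit 246)))) (XT.nd (nat_lit 188) (nat_lit 0) (nat_lit 0) (XT.nd (nat_lit 94) (nat_lit 0) (nat_lit 0) (XT.lf (nat_lit 0) (nat_lit 1020952804007) (nat_lit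 0) (nat_lit 0) (nat_lit 0) (nat_lit 0) (nat_lit 0) (nat_lit 0) (nat_lit 1) (nat_lit 0) (nat_lit 1) (nat_lit 0) (nat_lit 449) (nat_lit 386) (nat_lit 245)) (XT.lf (nat_lit 0) (nat_lit 1101993662717) (nat_lit 0) (nat_lit 0) (nat_lit 0) (nat_lit 0) (nat_lit 0) (nat_lit 0) (nat_lit 1) (nat_lit 0) (nat_lit 1) (nat_lit 0) (nat_lit 450) (nat_lit 386) (nat_lit 244))) (XT.nd (nat_lit 94) (nat_lit 0) (nat_lit 0) (XT.lf (nat_lit 0) (nat_lit 1189517791879) (nat_lit 0) (nat_lit 0) (nat_lit 0) (nat_lit 0) (nat_lit 0) (nat_lit 0) (nat_lit 1) (nat_lit 0) (nat_lit 1) (nat_lit 0) (nat_lit 451) (nat_lit 386) (nat_lit 243)) (XT.lf (nat_lit 0) (nat_lit 1284043853000) (nat_lit 0) (nat_lit 0) (nat_lit 0) (nat_lit 0) (nat_lit 0) (nat_lit 0) (nat_lit 1) (nat_lit 0) (nat_lit 1) (nat_lit 0) (nat_lit 452) (nat_lit 386) (nat_lit 242))))) (XT.nd (nat_lit 282) (nat_lit 0) (nat_lit 0) (XT.nd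 (nat_lit 94) (nat_lit 0) (nat_lit 0) (XT.lf (nat_lit 0) (nat_lit 1386132000517) (nat_lit 0) (nat_lit 0) (nat_lit 0) (nat_lit 0) (nat_lit 0) (nat_lit 0) (nat_lit 1) (nat_lit 0) (nat_lit 1) (nat_lit 0) (nat_lit 453) (nat_lit 386) (nat_lit 241)) (XT.nd (nat_lit 94) (nat_lit 0) (nat_lit 0) (XT.lf (nat_lit 0) (nat_lit 1496387201229) (nat_lit 0) (nat_lit 0) (nat_lit 0) (nat_lit 0) (nat_lit 0) (nat_lit 0) (nat_lit 1) (nat_lit 0) (nat_lit 1) (nat_lit 0) (nat_lit 454) (nat_lit 386) (nat_lit 240)) (XT.lf (nat_lit 0) (nat_lit 1615462819289) (nat_lit 0) (nat_lit 0) (nat_lit 0) (nat_lit 0) (nat_lit 0) (nat_lit 0) (nat_lit 1) (nat_lit 0) (nat_lit 1) (nat_lit 0) (nat_lit 455) (nat_lit 386) (nat_lit 239)))) (XT.nd (nat_lit 188) (nat_lit 0) (nat_lit 0) (XT.nd (nat_lit 94) (nat_lit 0) (nat_lit 0) (XT.lf (nat_lit 0) (nat_lit 1744064487989) (nat_lit 0) (nat_lit 0) (nat_lit 0)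 (nat_lit 0) (nat_lit 0) (nat_lit 0) (nat_lit 1) (nat_lit 0) (nat_lit 1) (nat_lit 0) (nat_lit 456) (nat_lit 386) (nat_lit 238)) (XT.lf (nat_lit 0) (nat_lit 1882954291292) (nat_lit 0) (nat_lit 0) (nat_lit 0) (nat_lit 0) (nat_lit 0) (nat_lit 0) (nat_lit 1) (nat_lit 0) (nat_lit 1) (nat_lit 0) (nat_lit 457) (nat_lit 386) (nat_lit 237))) (XT.nd (nat_lit 94) (nat_lit 0) (nat_lit 0) (XT.lf (nat_lit 0) (nat_lit 2032955279883) (nat_lit 0) (nat_lit 0) (nat_lit 0) (nat_lit 0) (nat_lit 0) (nat_lit 0) (nat_lit 1) (nat_lit 0) (nat_lit 1) (nat_lit 0) (nat_lit 458) (nat_lit 386) (nat_lit 236)) (XT.lf (nat_lit 0) (nat_lit 2194956348511) (nat_lit 0) (nat_lit 0) (nat_lit 0) (nat_lit 0) (nat_lit 0) (nat_lit 0) (nat_lit 1) (nat_lit 0) (nat_lit 1) (nat_lit 0) (nat_lit 459) (nat_lit 386) (nat_lit 235)))))) (XT.nd (nat_lit 658) (nat_lit 0) (nat_lit 0) (XT.nd (nat_lit 282) (nat_lit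 0) (nat_lit 0) (XT.nd (nat_lit 94) (nat_lit 0) (nat_lit 0) (XT.lf (nat_lit 0) (nat_lit 2369917503507) (nat_lit 0) (nat_lit 0) (nat_lit 0) (nat_lit 0) (nat_lit 0) (nat_lit 0) (nat_lit 1) (nat_lit 0) (nat_lit 1) (nat_lit 0) (nat_lit 460) (nat_lit 386) (nat_lit 234)) (XT.nd (nat_lit 94) (nat_lit 0) (nat_lit 0) (XT.lf (nat_lit 0) (nat_lit 2558875551717) (nat_lit 0) (nat_lit 0) (nat_lit 0) (nat_lit 0) (nat_lit 0) (nat_lit 0) (nat_lit 1) (nat_lit 0) (nat_lit 1) (nat_lit 0) (nat_lit 461) (nat_lit 386) (nat_lit 233)) (XT.lf (nat_lit 0) (nat_lit 2762950244536) (nat_lit 0) (nat_lit 0) (nat_lit 0) (nat_lit 0) (nat_lit 0) (nat_lit 0) (nat_lit 1) (nat_lit 0) (nat_lit 1) (nat_lit 0) (nat_lit 462) (nat_lit 386) (nat_lit 232)))) (XT.nd (nat_lit 188) (nat_lit 0) (nat_lit 0) (XT.nd (nat_lit 94) (nat_lit 0) (nat_lit 0) (XT.lf (nat_lit 0) (nat_lit 2983350913479) (nat_lit 0) (nat_lit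 0) (nat_lit 0) (nat_lit 0) (nat_lit 0) (nat_lit 0) (nat_lit 1) (nat_lit 0) (nat_lit 1) (nat_lit 0) (nat_lit 463) (nat_lit 386) (nat_lit 231)) (XT.lf (nat_lit 0) (nat_lit 3221383636582) (nat_lit 0) (nat_lit 0) (nat_lit 0) (nat_lit 0) (nat_lit 0) (nat_lit 0) (nat_lit 1) (nat_lit 0) (nat_lit 1) (nat_lit 0) (nat_lit 464) (nat_lit 386) (nat_lit 230))) (XT.nd (nat_lit 94) (nat_lit 0) (nat_lit 0) (XT.lf (nat_lit 0) (nat_lit 3478458978132) (nat_lit 0) (nat_lit 0) (nat_lit 0) (nat_lit 0) (nat_lit 0) (nat_lit 0) (nat_lit 1) (nat_lit 0) (nat_lit 1) (nat_lit 0) (nat_lit 465) (nat_lit 386) (nat_lit 229)) (XT.lf (nat_lit 0) (nat_lit 3756100347559) (nat_lit 0) (nat_lit 0) (nat_lit 0) (nat_lit 0) (nat_lit 0) (nat_lit 0) (nat_lit 1) (nat_lit 0) (nat_lit 1) (nat_lit 0) (nat_lit 466) (nat_lit 386) (nat_lit 228))))) (XT.nd (nat_lit 376) (nat_lit 0) (nat_lit 0) (XT.nd (nat_lit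 188) (nat_lit 0) (nat_lit 0) (XT.nd (nat_lit 94) (nat_lit 0) (nat_lit 0) (XT.lf (nat_lit 0) (nat_lit 4055953027053) (nat_lit 0) (nat_lit 0) (nat_lit 0) (nat_lit 0) (nat_lit 0) (nat_lit 0) (nat_lit 1) (nat_lit 0) (nat_lit 1) (nat_lit 0) (nat_lit 467) (nat_lit 386) (nat_lit 227)) (XT.lf (nat_lit 0) (nat_lit 4379793921382) (nat_lit 0) (nat_lit 0) (nat_lit 0) (nat_lit 0) (nat_lit 0) (nat_lit 0) (nat_lit 1) (nat_lit 0) (nat_lit 1) (nat_lit 0) (nat_lit 468) (nat_lit 386) (nat_lit 226))) (XT.nd (nat_lit 94) (nat_lit 0) (nat_lit 0) (XT.lf (nat_lit 0) (nat_lit 4729542087696) (nat_lit 0) (nat_lit 0) (nat_lit 0) (nat_lit 0) (nat_lit 0) (nat_lit 0) (nat_lit 1) (nat_lit 0) (nat_lit 1) (nat_lit 0) (nat_lit 469) (nat_lit 386) (nat_lit 225)) (XT.lf (nat_lit 0) (nat_lit 5107270107722) (nat_lit 0) (nat_lit 0) (nat_lit 0) (nat_lit 0) (nat_lit 0) (nat_lit 0) (nat_lit 1) (nat_lit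 0) (nat_lit 1) (nat_lit 0) (nat_lit 470) (nat_lit 386) (nat_lit 224)))) (XT.nd (nat_lit 188) (nat_lit 0) (nat_lit 0) (XT.nd (nat_lit 94) (nat_lit 0) (nat_lit 0) (XT.lf (nat_lit 0) (nat_lit 5515216369727) (nat_lit 0) (nat_lit 0) (nat_lit 0) (nat_lit 0) (nat_lit 0) (nat_lit 0) (nat_lit 1) (nat_lit 0) (nat_lit 1) (nat_lit 0) (nat_lit 471) (nat_lit 386) (nat_lit 223)) (XT.lf (nat_lit 0) (nat_lit 5955798333041) (nat_lit 0) (nat_lit 0) (nat_lit 0) (nat_lit 0) (nat_lit 0) (nat_lit 0) (nat_lit 1) (nat_lit 0) (nat_lit 1) (nat_lit 0) (nat_lit 472) (nat_lit 386) (nat_lit 222))) (XT.nd (nat_lit 94) (nat_lit 0) (nat_lit 0) (XT.lf (nat_lit 0) (nat_lit 6431626853743) (nat_lit 0) (nat_lit 0) (nat_lit 0) (nat_lit 0) (nat_lit 0) (nat_lit 0) (nat_lit 1) (nat_lit 0) (nat_lit 1) (nat_lit 0) (nat_lit 473) (nat_lit 386) (nat_lit 221)) (XT.lf (nat_lit 0) (nat_lit 6945521656401) (nat_lit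 0) (nat_lit 0) (nat_lit 0) (nat_lit 0) (nat_lit 0) (nat_lit 0) (nat_lit 1) (nat_lit 0) (nat_lit 1) (nat_lit 0) (nat_lit 474) (nat_lit 386) (nat_lit 220))))))))
noncomputable def xc148 : XT := (XT.nd (nat_lit 2632) (nat_lit 0) (nat_lit 0) (XT.nd (nat_lit 1316) (nat_lit 0) (nat_lit 0) (XT.nd (nat_lit 658) (nat_lit 0) (nat_lit 0) (XT.nd (nat_lit 282) (nat_lit 0) (nat_lit 0) (XT.nd (nat_lit 94) (nat_lit 0) (nat_lit 0) (XT.lf (nat_lit 0) (nat_lit 7500528043548) (nat_lit 0) (nat_lit 0) (nat_lit 0) (nat_lit 0) (nat_lit 0) (nat_lit 0) (nat_lit 1) (nat_lit 0) (nat_lit 1) (nat_lit 0) (nat_lit 475) (nat_lit 386) (nat_lit 219)) (XT.nd (nat_lit 94) (nat_lit 0) (nat_lit 0) (XT.lf (nat_lit 0) (nat_lit 8099934941924) (nat_lit 0) (nat_lit 0) (nat_lit 0) (nat_lit 0) (nat_lit 0) (nat_lit 0) (nat_lit 1) (nat_lit 0) (nat_lit 1) (nat_lit 0) (nat_lit 476) (nat_lit 386) (nat_lit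 218)) (XT.lf (nat_lit 0) (nat_lit 8747294392406) (nat_lit 0) (nat_lit 0) (nat_lit 0) (nat_lit 0) (nat_lit 0) (nat_lit 0) (nat_lit 1) (nat_lit 0) (nat_lit 1) (nat_lit 0) (nat_lit 477) (nat_lit 386) (nat_lit 217)))) (XT.nd (nat_lit 188) (nat_lit 0) (nat_lit 0) (XT.nd (nat_lit 94) (nat_lit 0) (nat_lit 0) (XT.lf (nat_lit 0) (nat_lit 9446442599148) (nat_lit 0) (nat_lit 0) (nat_lit 0) (nat_lit 0) (nat_lit 0) (nat_lit 0) (nat_lit 1) (nat_lit 0) (nat_lit 1) (nat_lit 0) (nat_lit 478) (nat_lit 386) (nat_lit 216)) (XT.lf (nat_lit 0) (nat_lit 10201522662632) (nat_lit 0) (nat_lit 0) (nat_lit 0) (nat_lit 0) (nat_lit 0) (nat_lit 0) (nat_lit 1) (nat_lit 0) (nat_lit 1) (nat_lit 0) (nat_lit 479) (nat_lit 386) (nat_lit 215))) (XT.nd (nat_lit 94) (nat_lit 0) (nat_lit 0) (XT.lf (nat_lit 0) (nat_lit 11017009131384) (nat_lit 0) (nat_lit 0) (nat_lit 0) (nat_lit 0) (nat_lit 0) (nat_lit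 0) (nat_lit 1) (nat_lit 0) (nat_lit 1) (nat_lit 0) (nat_lit 480) (nat_lit 386) (nat_lit 214)) (XT.lf (nat_lit 0) (nat_lit 11897734517810) (nat_lit 0) (nat_lit 0) (nat_lit 0) (nat_lit 0) (nat_lit 0) (nat_lit 0) (nat_lit 1) (nat_lit 0) (nat_lit 1) (nat_lit 0) (nat_lit 481) (nat_lit 386) (nat_lit 213))))) (XT.nd (nat_lit 282) (nat_lit 0) (nat_lit 0) (XT.nd (nat_lit 94) (nat_lit 0) (nat_lit 0) (XT.lf (nat_lit 0) (nat_lit 12848917935311) (nat_lit 0) (nat_lit 0) (nat_lit 0) (nat_lit 0) (nat_lit 0) (nat_lit 0) (nat_lit 1) (nat_lit 0) (nat_lit 1) (nat_lit 0) (nat_lit 482) (nat_lit 386) (nat_lit 212)) (XT.nd (nat_lit 94) (nat_lit 0) (nat_lit 0) (XT.lf (nat_lit 0) (nat_lit 13876196026363) (nat_lit 0) (nat_lit 0) (nat_lit 0) (nat_lit 0) (nat_lit 0) (nat_lit 0) (nat_lit 1) (nat_lit 0) (nat_lit 1) (nat_lit 0) (nat_lit 483) (nat_lit 386) (nat_lit 211)) (XT.lf (nat_lit 0)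 (nat_lit 14985656364837) (nat_lit 0) (nat_lit 0) (nat_lit 0) (nat_lit 0) (nat_lit 0) (nat_lit 0) (nat_lit 1) (nat_lit 0) (nat_lit 1) (nat_lit 0) (nat_lit 484) (nat_lit 386) (nat_lit 210)))) (XT.nd (nat_lit 188) (nat_lit 0) (nat_lit 0) (XT.nd (nat_lit 94) (nat_lit 0) (nat_lit 0) (XT.lf (nat_lit 0) (nat_lit 16183873530518) (nat_lit 0) (nat_lit 0) (nat_lit 0) (nat_lit 0) (nat_lit 0) (nat_lit 0) (nat_lit 1) (nat_lit 0) (nat_lit 1) (nat_lit 0) (nat_lit 485) (nat_lit 386) (nat_lit 209)) (XT.lf (nat_lit 0) (nat_lit 17477948069571) (nat_lit 0) (nat_lit 0) (nat_lit 0) (nat_lit 0) (nat_lit 0) (nat_lit 0) (nat_lit 1) (nat_lit 0) (nat_lit 1) (nat_lit 0) (nat_lit 486) (nat_lit 386) (nat_lit 208))) (XT.nd (nat_lit 94) (nat_lit 0) (nat_lit 0) (XT.lf (nat_lit 0) (nat_lit 18875548571859) (nat_lit 0) (nat_lit 0) (nat_lit 0) (nat_lit 0) (nat_lit 0) (nat_lit 0) (nat_lit 1) (nat_lit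 0) (nat_lit 1) (nat_lit 0) (nat_lit 487) (nat_lit 386) (nat_lit 207)) (XT.lf (nat_lit 0) (nat_lit 20384957114432) (nat_lit 0) (nat_lit 0) (nat_lit 0) (nat_lit 0) (nat_lit 0) (nat_lit 0) (nat_lit 1) (nat_lit 0) (nat_lit 1) (nat_lit 0) (nat_lit 488) (nat_lit 386) (nat_lit 206)))))) (XT.nd (nat_lit 658) (nat_lit 0) (nat_lit 0) (XT.nd (nat_lit 282) (nat_lit 0) (nat_lit 0) (XT.nd (nat_lit 94) (nat_lit 0) (nat_lit 0) (XT.lf (nat_lit 0) (nat_lit 22015118340505) (nat_lit 0) (nat_lit 0) (nat_lit 0) (nat_lit 0) (nat_lit 0) (nat_lit 0) (nat_lit 1) (nat_lit 0) (nat_lit 1) (nat_lit 0) (nat_lit 489) (nat_lit 386) (nat_lit 205)) (XT.nd (nat_lit 94) (nat_lit 0) (nat_lit 0) (XT.lf (nat_lit 0) (nat_lit 23775692464751) (nat_lit 0) (nat_lit 0) (nat_lit 0) (nat_lit 0) (nat_lit 0) (nat_lit 0) (nat_lit 1) (nat_lit 0) (nat_lit 1) (nat_lit 0) (nat_lit 490) (nat_lit 386) (nat_lit 204))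 (XT.lf (nat_lit 0) (nat_lit 25677112519017) (nat_lit 0) (nat_lit 0) (nat_lit 0) (nat_lit 0) (nat_lit 0) (nat_lit 0) (nat_lit 1) (nat_lit 0) (nat_lit 1) (nat_lit 0) (nat_lit 491) (nat_lit 386) (nat_lit 203)))) (XT.nd (nat_lit 188) (nat_lit 0) (nat_lit 0) (XT.nd (nat_lit 94) (nat_lit 0) (nat_lit 0) (XT.lf (nat_lit 0) (nat_lit 27730646177700) (nat_lit 0) (nat_lit 0) (nat_lit 0) (nat_lit 0) (nat_lit 0) (nat_lit 0) (nat_lit 1) (nat_lit 0) (nat_lit 1) (nat_lit 0) (nat_lit 492) (nat_lit 386) (nat_lit 202)) (XT.lf (nat_lit 0) (nat_lit 29948462529147) (nat_lit 0) (nat_lit 0) (nat_lit 0) (nat_lit 0) (nat_lit 0) (nat_lit 0) (nat_lit 1) (nat_lit 0) (nat_lit 1) (nat_lit 0) (nat_lit 493) (nat_lit 386) (nat_lit 201))) (XT.nd (nat_lit 94) (nat_lit 0) (nat_lit 0) (XT.lf (nat_lit 0) (nat_lit 32343704188773) (nat_lit 0) (nat_lit 0) (nat_lit 0) (nat_lit 0) (nat_lit 0) (nat_lit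 0) (nat_lit 1) (nat_lit 0) (nat_lit 1) (nat_lit 0) (nat_lit 494) (nat_lit 386) (nat_lit 200)) (XT.lf (nat_lit 0) (nat_lit 34930565181229) (nat_lit 0) (nat_lit 0) (nat_lit 0) (nat_lit 0) (nat_lit 0) (nat_lit 0) (nat_lit 1) (nat_lit 0) (nat_lit 1) (nat_lit 0) (nat_lit 495) (nat_lit 386) (nat_lit 199))))) (XT.nd (nat_lit 282) (nat_lit 0) (nat_lit 0) (XT.nd (nat_lit 94) (nat_lit 0) (nat_lit 0) (XT.lf (nat_lit 0) (nat_lit 37724375053137) (nat_lit 0) (nat_lit 0) (nat_lit 0) (nat_lit 0) (nat_lit 0) (nat_lit 0) (nat_lit 1) (nat_lit 0) (nat_lit 1) (nat_lit 0) (nat_lit 496) (nat_lit 386) (nat_lit 198)) (XT.nd (nat_lit 94) (nat_lit 0) (nat_lit 0) (XT.lf (nat_lit 0) (nat_lit 40741689714848) (nat_lit 0) (nat_lit 0) (nat_lit 0) (nat_lit 0) (nat_lit 0) (nat_lit 0) (nat_lit 1) (nat_lit 0) (nat_lit 1) (nat_lit 0) (nat_lit 497) (nat_lit 386) (nat_lit 197)) (XT.lf (nat_lit 0)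 (nat_lit 44000389549543) (nat_lit 0) (nat_lit 0) (nat_lit 0) (nat_lit 0) (nat_lit 0) (nat_lit 0) (nat_lit 1) (nat_lit 0) (nat_lit 1) (nat_lit 0) (nat_lit 498) (nat_lit 386) (nat_lit 196)))) (XT.nd (nat_lit 188) (nat_lit 0) (nat_lit 0) (XT.nd (nat_lit 94) (nat_lit 0) (nat_lit 0) (XT.lf (nat_lit 0) (nat_lit 47519785371058) (nat_lit 0) (nat_lit 0) (nat_lit 0) (nat_lit 0) (nat_lit 0) (nat_lit 0) (nat_lit 1) (nat_lit 0) (nat_lit 1) (nat_lit 0) (nat_lit 499) (nat_lit 386) (nat_lit 195)) (XT.lf (nat_lit 0) (nat_lit 51320732858334) (nat_lit 0) (nat_lit 0) (nat_lit 0) (nat_lit 0) (nat_lit 0) (nat_lit 0) (nat_lit 1) (nat_lit 0) (nat_lit 1) (nat_lit 0) (nat_lit 500) (nat_lit 386) (nat_lit 194))) (XT.nd (nat_lit 94) (nat_lit 0) (nat_lit 0) (XT.lf (nat_lit 0) (nat_lit 55425756144630) (nat_lit 0) (nat_lit 0) (nat_lit 0) (nat_lit 0) (nat_lit 0) (nat_lit 0) (nat_lit 1) (nat_lit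 0) (nat_lit 1) (nat_lit 0) (nat_lit 501) (nat_lit 386) (nat_lit 193)) (XT.lf (nat_lit 0) (nat_lit 59859181293864) (nat_lit 0) (nat_lit 0) (nat_lit 0) (nat_lit 0) (nat_lit 0) (nat_lit 0) (nat_lit 1) (nat_lit 0) (nat_lit 1) (nat_lit 0) (nat_lit 502) (nat_lit 386) (nat_lit 192))))))) (XT.nd (nat_lit 57998) (nat_lit 0) (nat_lit 4788) (XT.nd (nat_lit 57340) (nat_lit 0) (nat_lit 8904) (XT.nd (nat_lit 56964) (nat_lit 0) (nat_lit 10836) (XT.nd (nat_lit 94) (nat_lit 0) (nat_lit 0) (XT.lf (nat_lit 0) (nat_lit 64647280455068) (nat_lit 0) (nat_lit 0) (nat_lit 0) (nat_lit 0) (nat_lit 0) (nat_lit 0) (nat_lit 1) (nat_lit 0) (nat_lit 1) (nat_lit 0) (nat_lit 503) (nat_lit 386) (nat_lit 191)) (XT.nd (nat_lit 56776) (nat_lit 0) (nat_lit 10752) (XT.lf (nat_lit 0) (nat_lit 69818427549199) (nat_lit 0) (nat_lit 0) (nat_lit 0) (nat_lit 0) (nat_lit 0) (nat_lit 0) (nat_lit 1) (nat_lit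 0) (nat_lit 1) (nat_lit 0) (nat_lit 504) (nat_lit 386) (nat_lit 190)) (XT.lf (nat_lit 0) (nat_lit 7198497900) (nat_lit 924) (nat_lit 4514116477) (nat_lit 924) (nat_lit 4514116477) (nat_lit 128) (nat_lit 3) (nat_lit 139) (nat_lit 3) (nat_lit 139) (nat_lit 5) (nat_lit 387) (nat_lit 387) (nat_lit 306)))) (XT.nd (nat_lit 188) (nat_lit 0) (nat_lit 84) (XT.nd (nat_lit 94) (nat_lit 0) (nat_lit 0) (XT.lf (nat_lit 0) (nat_lit 15375973027) (nat_lit 840) (nat_lit 16273210658) (nat_lit 924) (nat_lit 2082261624) (nat_lit 129) (nat_lit 5) (nat_lit 139) (nat_lit 5) (nat_lit 140) (nat_lit 5) (nat_lit 388) (nat_lit 387) (nat_lit 305)) (XT.lf (nat_lit 84) (nat_lit 11238557653) (nat_lit 0) (nat_lit 5915357315) (nat_lit 924) (nat_lit 17921720300) (nat_lit 130) (nat_lit 5) (nat_lit 129) (nat_lit 5) (nat_lit 140) (nat_lit 5) (nat_lit 389) (nat_lit 387) (nat_lit 304))) (XT.nd (nat_lit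 94) (nat_lit 0) (nat_lit 84) (XT.lf (nat_lit 84) (nat_lit 4821249504) (nat_lit 0) (nat_lit 14948824016) (nat_lit 924) (nat_lit 16722487842) (nat_lit 131) (nat_lit 5) (nat_lit 130) (nat_lit 5) (nat_lit 141) (nat_lit 5) (nat_lit 390) (nat_lit 387) (nat_lit 303)) (XT.lf (nat_lit 0) (nat_lit 23309921199) (nat_lit 840) (nat_lit 1692388904) (nat_lit 924) (nat_lit 12984811618) (nat_lit 131) (nat_lit 5) (nat_lit 141) (nat_lit 5) (nat_lit 142) (nat_lit 5) (nat_lit 391) (nat_lit 387) (nat_lit 302))))) (XT.nd (nat_lit 282) (nat_lit 1428) (nat_lit 0) (XT.nd (nat_lit 94) (nat_lit 756) (nat_lit 0) (XT.lf (nat_lit 0) (nat_lit 27923701690) (nat_lit 840) (nat_lit 8187092090) (nat_lit 924) (nat_lit 3450915880) (nat_lit 132) (nat_lit 5) (nat_lit 142) (nat_lit 5) (nat_lit 143) (nat_lit 5) (nat_lit 392) (nat_lit 387) (nat_lit 301)) (XT.nd (nat_lit 94) (nat_lit 756) (nat_lit 0)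 (XT.lf (nat_lit 84) (nat_lit 26300422948) (nat_lit 0) (nat_lit 7461109429) (nat_lit 924) (nat_lit 7457984868) (nat_lit 133) (nat_lit 5) (nat_lit 132) (nat_lit 5) (nat_lit 143) (nat_lit 5) (nat_lit 393) (nat_lit 387) (nat_lit 300)) (XT.lf (nat_lit 0) (nat_lit 21138079528) (nat_lit 840) (nat_lit 19763124067) (nat_lit 924) (nat_lit 2067005138) (nat_lit 123) (nat_lit 5) (nat_lit 133) (nat_lit 5) (nat_lit 134) (nat_lit 5) (nat_lit 394) (nat_lit 387) (nat_lit 299)))) (XT.nd (nat_lit 188) (nat_lit 420) (nat_lit 0) (XT.nd (nat_lit 94) (nat_lit 420) (nat_lit 0) (XT.lf (nat_lit 0) (nat_lit 4454285987) (nat_lit 588) (nat_lit 28917594645) (nat_lit 84) (nat_lit 11441022179) (nat_lit 116) (nat_lit 5) (nat_lit 123) (nat_lit 5) (nat_lit 117) (nat_lit 5) (nat_lit 395) (nat_lit 387) (nat_lit 298)) (XT.lf (nat_lit 0) (nat_lit 10590793946) (nat_lit 420) (nat_lit 1714073493) (nat_lit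 504) (nat_lit 34454610469) (nat_lit 111) (nat_lit 5) (nat_lit 116) (nat_lit 5) (nat_lit 117) (nat_lit 5) (nat_lit 396) (nat_lit 387) (nat_lit 297))) (XT.nd (nat_lit 94) (nat_lit 0) (nat_lit 0) (XT.lf (nat_lit 0) (nat_lit 5097713959) (nat_lit 420) (nat_lit 16778701393) (nat_lit 504) (nat_lit 26930717663) (nat_lit 106) (nat_lit 5) (nat_lit 111) (nat_lit 5) (nat_lit 112) (nat_lit 5) (nat_lit 397) (nat_lit 387) (nat_lit 296)) (XT.lf (nat_lit 0) (nat_lit 33148672721) (nat_lit 504) (nat_lit 346466523) (nat_lit 84) (nat_lit 17476712005) (nat_lit 106) (nat_lit 5) (nat_lit 112) (nat_lit 5) (nat_lit 107) (nat_lit 5) (nat_lit 398) (nat_lit 387) (nat_lit 295)))))) (XT.nd (nat_lit 658) (nat_lit 1764) (nat_lit 0) (XT.nd (nat_lit 282) (nat_lit 1260) (nat_lit 0) (XT.nd (nat_lit 94) (nat_lit 756) (nat_lit 0) (XT.lf (nat_lit 0) (nat_lit 46367292642) (nat_lit 420) (nat_lit 5555626571)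 (nat_lit 84) (nat_lit 1334598630) (nat_lit 102) (nat_lit 5) (nat_lit 107) (nat_lit 5) (nat_lit 103) (nat_lit 5) (nat_lit 399) (nat_lit 387) (nat_lit 294)) (XT.nd (nat_lit 94) (nat_lit 336) (nat_lit 0) (XT.lf (nat_lit 0) (nat_lit 6045486951) (nat_lit 420) (nat_lit 11017979733) (nat_lit 84) (nat_lit 38594456943) (nat_lit 97) (nat_lit 5) (nat_lit 102) (nat_lit 5) (nat_lit 98) (nat_lit 5) (nat_lit 400) (nat_lit 387) (nat_lit 293)) (XT.lf (nat_lit 0) (nat_lit 20863521547) (nat_lit 420) (nat_lit 16516827832) (nat_lit 84) (nat_lit 20809921500) (nat_lit 93) (nat_lit 5) (nat_lit 98) (nat_lit 5) (nat_lit 94) (nat_lit 5) (nat_lit 401) (nat_lit 387) (nat_lit 292)))) (XT.nd (nat_lit 188) (nat_lit 672) (nat_lit 0) (XT.nd (nat_lit 94) (nat_lit 252) (nat_lit 0) (XT.lf (nat_lit 0) (nat_lit 37971062490) (nat_lit 420) (nat_lit 21877024385) (nat_lit 84) (nat_lit 1021915856) (nat_lit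 89) (nat_lit 5) (nat_lit 94) (nat_lit 5) (nat_lit 90) (nat_lit 5) (nat_lit 402) (nat_lit 387) (nat_lit 291)) (XT.lf (nat_lit 0) (nat_lit 36305242978) (nat_lit 252) (nat_lit 21627464982) (nat_lit 336) (nat_lit 5757130109) (nat_lit 86) (nat_lit 5) (nat_lit 89) (nat_lit 5) (nat_lit 90) (nat_lit 5) (nat_lit 403) (nat_lit 387) (nat_lit 290))) (XT.nd (nat_lit 94) (nat_lit 252) (nat_lit 0) (XT.lf (nat_lit 0) (nat_lit 13588507078) (nat_lit 420) (nat_lit 32917210031) (nat_lit 84) (nat_lit 20157547525) (nat_lit 81) (nat_lit 5) (nat_lit 86) (nat_lit 5) (nat_lit 82) (nat_lit 5) (nat_lit 404) (nat_lit 387) (nat_lit 289)) (XT.lf (nat_lit 0) (nat_lit 31425355893) (nat_lit 252) (nat_lit 4193882863) (nat_lit 336) (nat_lit 34183650342) (nat_lit 78) (nat_lit 5) (nat_lit 81) (nat_lit 5) (nat_lit 82) (nat_lit 5) (nat_lit 405) (nat_lit 387) (nat_lit 288))))) (XT.nd (nat_lit 282)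 (nat_lit 924) (nat_lit 0) (XT.nd (nat_lit 94) (nat_lit 588) (nat_lit 0) (XT.lf (nat_lit 0) (nat_lit 29197770332) (nat_lit 252) (nat_lit 31897754914) (nat_lit 336) (nat_lit 12014003461) (nat_lit 75) (nat_lit 5) (nat_lit 78) (nat_lit 5) (nat_lit 79) (nat_lit 5) (nat_lit 406) (nat_lit 387) (nat_lit 287)) (XT.nd (nat_lit 94) (nat_lit 252) (nat_lit 0) (XT.lf (nat_lit 0) (nat_lit 12954545605) (nat_lit 336) (nat_lit 49333620130) (nat_lit 84) (nat_lit 14312864335) (nat_lit 71) (nat_lit 5) (nat_lit 75) (nat_lit 5) (nat_lit 72) (nat_lit 5) (nat_lit 407) (nat_lit 387) (nat_lit 286)) (XT.lf (nat_lit 0) (nat_lit 25431425171) (nat_lit 252) (nat_lit 15782979602) (nat_lit 336) (nat_lit 39061862308) (nat_lit 68) (nat_lit 5) (nat_lit 71) (nat_lit 5) (nat_lit 72) (nat_lit 5) (nat_lit 408) (nat_lit 387) (nat_lit 285)))) (XT.nd (nat_lit 188) (nat_lit 420) (nat_lit 0) (XT.nd (nat_lit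 94) (nat_lit 336) (nat_lit 0) (XT.lf (nat_lit 0) (nat_lit 23946550744) (nat_lit 168) (nat_lit 49570456464) (nat_lit 252) (nat_lit 10639418117) (nat_lit 66) (nat_lit 5) (nat_lit 68) (nat_lit 5) (nat_lit 69) (nat_lit 5) (nat_lit 409) (nat_lit 387) (nat_lit 284)) (XT.lf (nat_lit 0) (nat_lit 21034004556) (nat_lit 336) (nat_lit 65448731176) (nat_lit 84) (nat_lit 1767647014) (nat_lit 62) (nat_lit 5) (nat_lit 66) (nat_lit 5) (nat_lit 63) (nat_lit 5) (nat_lit 410) (nat_lit 387) (nat_lit 283))) (XT.nd (nat_lit 94) (nat_lit 252) (nat_lit 0) (XT.lf (nat_lit 0) (nat_lit 21640281957) (nat_lit 168) (nat_lit 35470096567) (nat_lit 252) (nat_lit 35440665858) (nat_lit 60) (nat_lit 5) (nat_lit 62) (nat_lit 5) (nat_lit 63) (nat_lit 5) (nat_lit 411) (nat_lit 387) (nat_lit 282)) (XT.lf (nat_lit 0) (nat_lit 736533209) (nat_lit 252) (nat_lit 75872777725) (nat_lit 84) (nat_lit 20496150091)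 (nat_lit 57) (nat_lit 5) (nat_lit 60) (nat_lit 5) (nat_lit 58) (nat_lit 5) (nat_lit 412) (nat_lit 387) (nat_lit 281))))))))
noncomputable def xc149 : XT := (XT.nd (nat_lit 2632) (nat_lit 588) (nat_lit 0) (XT.nd (nat_lit 1316) (nat_lit 1764) (nat_lit 0) (XT.nd (nat_lit 658) (nat_lit 1260) (nat_lit 0) (XT.nd (nat_lit 282) (nat_lit 588) (nat_lit 0) (XT.nd (nat_lit 94) (nat_lit 420) (nat_lit 0) (XT.lf (nat_lit 0) (nat_lit 20761440201) (nat_lit 168) (nat_lit 19996436338) (nat_lit 252) (nat_lit 61127722903) (nat_lit 55) (nat_lit 5) (nat_lit 57) (nat_lit 5) (nat_lit 58) (nat_lit 5) (nat_lit 413) (nat_lit 387) (nat_lit 280)) (XT.nd (nat_lit 94) (nat_lit 252) (nat_lit 0) (XT.lf (nat_lit 0) (nat_lit 20852713937) (nat_lit 168) (nat_lit 65436936823) (nat_lit 252) (nat_lit 20643061999) (nat_lit 53) (nat_lit 5) (nat_lit 55) (nat_lit 5) (nat_lit 56) (nat_lit 5) (nat_lit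 414) (nat_lit 387) (nat_lit 279)) (XT.lf (nat_lit 0) (nat_lit 21536057698) (nat_lit 168) (nat_lit 2912830778) (nat_lit 252) (nat_lit 87811327567) (nat_lit 50) (nat_lit 5) (nat_lit 52) (nat_lit 5) (nat_lit 53) (nat_lit 5) (nat_lit 415) (nat_lit 387) (nat_lit 278)))) (XT.nd (nat_lit 188) (nat_lit 252) (nat_lit 0) (XT.nd (nat_lit 94) (nat_lit 168) (nat_lit 0) (XT.lf (nat_lit 0) (nat_lit 22221967536) (nat_lit 168) (nat_lit 53090058523) (nat_lit 252) (nat_lit 42540619816) (nat_lit 48) (nat_lit 5) (nat_lit 50) (nat_lit 5) (nat_lit 51) (nat_lit 5) (nat_lit 416) (nat_lit 387) (nat_lit 277)) (XT.lf (nat_lit 0) (nat_lit 8430321519) (nat_lit 168) (nat_lit 99809254852) (nat_lit 84) (nat_lit 15533841674) (nat_lit 46) (nat_lit 5) (nat_lit 48) (nat_lit 5) (nat_lit 47) (nat_lit 5) (nat_lit 417) (nat_lit 387) (nat_lit 276))) (XT.nd (nat_lit 94) (nat_lit 84) (nat_lit 0) (XT.lf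 (nat_lit 0) (nat_lit 25633627788) (nat_lit 168) (nat_lit 39361137317) (nat_lit 252) (nat_lit 64987905371) (nat_lit 44) (nat_lit 5) (nat_lit 46) (nat_lit 5) (nat_lit 47) (nat_lit 5) (nat_lit 418) (nat_lit 387) (nat_lit 275)) (XT.lf (nat_lit 0) (nat_lit 28404225636) (nat_lit 84) (nat_lit 100435457057) (nat_lit 168) (nat_lit 7711214482) (nat_lit 43) (nat_lit 5) (nat_lit 44) (nat_lit 5) (nat_lit 45) (nat_lit 4) (nat_lit 419) (nat_lit 387) (nat_lit 274))))) (XT.nd (nat_lit 282) (nat_lit 672) (nat_lit 0) (XT.nd (nat_lit 94) (nat_lit 336) (nat_lit 0) (XT.lf (nat_lit 0) (nat_lit 31413076683) (nat_lit 168) (nat_lit 24001034512) (nat_lit 252) (nat_lit 88038222955) (nat_lit 40) (nat_lit 5) (nat_lit 42) (nat_lit 5) (nat_lit 43) (nat_lit 5) (nat_lit 420) (nat_lit 387) (nat_lit 273)) (XT.nd (nat_lit 94) (nat_lit 252) (nat_lit 0) (XT.lf (nat_lit 0) (nat_lit 35236904862)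 (nat_lit 84) (nat_lit 91462977097) (nat_lit 168) (nat_lit 24030654334) (nat_lit 39) (nat_lit 5) (nat_lit 40) (nat_lit 5) (nat_lit 41) (nat_lit 4) (nat_lit 421) (nat_lit 387) (nat_lit 272)) (XT.lf (nat_lit 0) (nat_lit 39936470467) (nat_lit 168) (nat_lit 6727571853) (nat_lit 252) (nat_lit 111741251114) (nat_lit 36) (nat_lit 5) (nat_lit 38) (nat_lit 5) (nat_lit 39) (nat_lit 5) (nat_lit 422) (nat_lit 387) (nat_lit 271)))) (XT.nd (nat_lit 188) (nat_lit 336) (nat_lit 0) (XT.nd (nat_lit 94) (nat_lit 252) (nat_lit 0) (XT.lf (nat_lit 0) (nat_lit 45006844287) (nat_lit 84) (nat_lit 81246177795) (nat_lit 168) (nat_lit 40217280584) (nat_lit 35) (nat_lit 5) (nat_lit 36) (nat_lit 5) (nat_lit 37) (nat_lit 4) (nat_lit 423) (nat_lit 387) (nat_lit 270)) (XT.lf (nat_lit 0) (nat_lit 39058283998) (nat_lit 252) (nat_lit 123562705530) (nat_lit 84) (nat_lit 12369875937) (nat_lit 32)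 (nat_lit 5) (nat_lit 35) (nat_lit 5) (nat_lit 33) (nat_lit 4) (nat_lit 424) (nat_lit 387) (nat_lit 269))) (XT.nd (nat_lit 94) (nat_lit 252) (nat_lit 0) (XT.lf (nat_lit 0) (nat_lit 58177176871) (nat_lit 84) (nat_lit 69535545452) (nat_lit 168) (nat_lit 56225093672) (nat_lit 31) (nat_lit 5) (nat_lit 32) (nat_lit 5) (nat_lit 33) (nat_lit 4) (nat_lit 425) (nat_lit 387) (nat_lit 268)) (XT.lf (nat_lit 0) (nat_lit 32680167700) (nat_lit 252) (nat_lit 126944220911) (nat_lit 84) (nat_lit 33763982387) (nat_lit 28) (nat_lit 5) (nat_lit 31) (nat_lit 5) (nat_lit 29) (nat_lit 4) (nat_lit 426) (nat_lit 387) (nat_lit 267)))))) (XT.nd (nat_lit 658) (nat_lit 924) (nat_lit 0) (XT.nd (nat_lit 282) (nat_lit 504) (nat_lit 0) (XT.nd (nat_lit 94) (nat_lit 252) (nat_lit 0) (XT.lf (nat_lit 0) (nat_lit 75280588559) (nat_lit 84) (nat_lit 56046511210) (nat_lit 168) (nat_lit 71991829331)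 (nat_lit 27) (nat_lit 5) (nat_lit 28) (nat_lit 5) (nat_lit 29) (nat_lit 4) (nat_lit 427) (nat_lit 387) (nat_lit 266)) (XT.nd (nat_lit 94) (nat_lit 84) (nat_lit 0) (XT.lf (nat_lit 0) (nat_lit 27594679586) (nat_lit 168) (nat_lit 128136872030) (nat_lit 84) (nat_lit 58067020281) (nat_lit 25) (nat_lit 5) (nat_lit 27) (nat_lit 5) (nat_lit 26) (nat_lit 4) (nat_lit 428) (nat_lit 387) (nat_lit 265)) (XT.lf (nat_lit 0) (nat_lit 96928694440) (nat_lit 84) (nat_lit 40454624476) (nat_lit 168) (nat_lit 87436384871) (nat_lit 24) (nat_lit 5) (nat_lit 25) (nat_lit 5) (nat_lit 26) (nat_lit 4) (nat_lit 429) (nat_lit 387) (nat_lit 264)))) (XT.nd (nat_lit 188) (nat_lit 252) (nat_lit 0) (XT.nd (nat_lit 94) (nat_lit 84) (nat_lit 0) (XT.lf (nat_lit 0) (nat_lit 24002708335) (nat_lit 168) (nat_lit 126706989571) (nat_lit 84) (nat_lit 85728527341) (nat_lit 22) (nat_lit 5) (nat_lit 24)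 (nat_lit 5) (nat_lit 23) (nat_lit 4) (nat_lit 430) (nat_lit 387) (nat_lit 263)) (XT.lf (nat_lit 0) (nat_lit 123822635548) (nat_lit 84) (nat_lit 22390101732) (nat_lit 168) (nat_lit 102455864311) (nat_lit 21) (nat_lit 5) (nat_lit 22) (nat_lit 5) (nat_lit 23) (nat_lit 4) (nat_lit 431) (nat_lit 387) (nat_lit 262))) (XT.nd (nat_lit 94) (nat_lit 84) (nat_lit 0) (XT.lf (nat_lit 0) (nat_lit 22140316315) (nat_lit 168) (nat_lit 122149819072) (nat_lit 84) (nat_lit 117257502579) (nat_lit 19) (nat_lit 5) (nat_lit 21) (nat_lit 5) (nat_lit 20) (nat_lit 4) (nat_lit 432) (nat_lit 387) (nat_lit 261)) (XT.lf (nat_lit 0) (nat_lit 156765049542) (nat_lit 84) (nat_lit 1431672342) (nat_lit 168) (nat_lit 116922190905) (nat_lit 18) (nat_lit 5) (nat_lit 19) (nat_lit 5) (nat_lit 20) (nat_lit 4) (nat_lit 433) (nat_lit 387) (nat_lit 260))))) (XT.nd (nat_lit 282) (nat_lit 504) (nat_lit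 0) (XT.nd (nat_lit 94) (nat_lit 252) (nat_lit 0) (XT.lf (nat_lit 0) (nat_lit 22283631106) (nat_lit 168) (nat_lit 113879448250) (nat_lit 84) (nat_lit 153230140605) (nat_lit 16) (nat_lit 5) (nat_lit 18) (nat_lit 5) (nat_lit 17) (nat_lit 4) (nat_lit 434) (nat_lit 387) (nat_lit 259)) (XT.nd (nat_lit 94) (nat_lit 168) (nat_lit 0) (XT.lf (nat_lit 0) (nat_lit 174130759496) (nat_lit 168) (nat_lit 108135401104) (nat_lit 0) (nat_lit 22167412014) (nat_lit 15) (nat_lit 5) (nat_lit 17) (nat_lit 4) (nat_lit 15) (nat_lit 4) (nat_lit 435) (nat_lit 387) (nat_lit 258)) (XT.lf (nat_lit 0) (nat_lit 24754396186) (nat_lit 168) (nat_lit 101217384540) (nat_lit 84) (nat_lit 194298534120) (nat_lit 13) (nat_lit 5) (nat_lit 15) (nat_lit 5) (nat_lit 14) (nat_lit 4) (nat_lit 436) (nat_lit 387) (nat_lit 257)))) (XT.nd (nat_lit 188) (nat_lit 252) (nat_lit 0) (XT.nd (nat_lit 94) (nat_lit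 168) (nat_lit 0) (XT.lf (nat_lit 0) (nat_lit 194242808501) (nat_lit 168) (nat_lit 93179988789) (nat_lit 0) (nat_lit 49514803475) (nat_lit 12) (nat_lit 5) (nat_lit 14) (nat_lit 4) (nat_lit 12) (nat_lit 4) (nat_lit 437) (nat_lit 387) (nat_lit 256)) (XT.lf (nat_lit 0) (nat_lit 29926265207) (nat_lit 168) (nat_lit 83379609812) (nat_lit 84) (nat_lit 241200463387) (nat_lit 10) (nat_lit 5) (nat_lit 12) (nat_lit 5) (nat_lit 11) (nat_lit 4) (nat_lit 438) (nat_lit 387) (nat_lit 255))) (XT.nd (nat_lit 94) (nat_lit 168) (nat_lit 0) (XT.lf (nat_lit 0) (nat_lit 219094539361) (nat_lit 168) (nat_lit 72624708101) (nat_lit 0) (nat_lit 81257521524) (nat_lit 9) (nat_lit 5) (nat_lit 11) (nat_lit 4) (nat_lit 9) (nat_lit 4) (nat_lit 439) (nat_lit 387) (nat_lit 254)) (XT.lf (nat_lit 0) (nat_lit 38231934825) (nat_lit 168) (nat_lit 59461917619) (nat_lit 84) (nat_lit 294770405848) (nat_lit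 7) (nat_lit 5) (nat_lit 9) (nat_lit 5) (nat_lit 8) (nat_lit 4) (nat_lit 440) (nat_lit 387) (nat_lit 253))))))) (XT.nd (nat_lit 1316) (nat_lit 0) (nat_lit 0) (XT.nd (nat_lit 658) (nat_lit 0) (nat_lit 0) (XT.nd (nat_lit 282) (nat_lit 252) (nat_lit 0) (XT.nd (nat_lit 94) (nat_lit 252) (nat_lit 0) (XT.lf (nat_lit 0) (nat_lit 249353129428) (nat_lit 168) (nat_lit 45500917839) (nat_lit 0) (nat_lit 118079107464) (nat_lit 6) (nat_lit 5) (nat_lit 8) (nat_lit 4) (nat_lit 6) (nat_lit 4) (nat_lit 441) (nat_lit 387) (nat_lit 252)) (XT.nd (nat_lit 94) (nat_lit 84) (nat_lit 0) (XT.lf (nat_lit 0) (nat_lit 50171222875) (nat_lit 168) (nat_lit 28423314055) (nat_lit 84) (nat_lit 355951915132) (nat_lit 4) (nat_lit 5) (nat_lit 6) (nat_lit 5) (nat_lit 5) (nat_lit 4) (nat_lit 442) (nat_lit 387) (nat_lit 251)) (XT.lf (nat_lit 0) (nat_lit 285779742441) (nat_lit 168) (nat_lit 10694261836)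 (nat_lit 0) (nat_lit 160756315975) (nat_lit 3) (nat_lit 5) (nat_lit 5) (nat_lit 4) (nat_lit 3) (nat_lit 4) (nat_lit 443) (nat_lit 387) (nat_lit 250)))) (XT.nd (nat_lit 188) (nat_lit 0) (nat_lit 0) (XT.nd (nat_lit 94) (nat_lit 0) (nat_lit 0) (XT.lf (nat_lit 0) (nat_lit 698015505889) (nat_lit 0) (nat_lit 0) (nat_lit 0) (nat_lit 0) (nat_lit 0) (nat_lit 0) (nat_lit 1) (nat_lit 0) (nat_lit 1) (nat_lit 0) (nat_lit 444) (nat_lit 387) (nat_lit 249)) (XT.lf (nat_lit 0) (nat_lit 753170544850) (nat_lit 0) (nat_lit 0) (nat_lit 0) (nat_lit 0) (nat_lit 0) (nat_lit 0) (nat_lit 1) (nat_lit 0) (nat_lit 1) (nat_lit 0) (nat_lit 445) (nat_lit 387) (nat_lit 248))) (XT.nd (nat_lit 94) (nat_lit 0) (nat_lit 0) (XT.lf (nat_lit 0) (nat_lit 812737989317) (nat_lit 0) (nat_lit 0) (nat_lit 0) (nat_lit 0) (nat_lit 0) (nat_lit 0) (nat_lit 1) (nat_lit 0) (nat_lit 1) (nat_lit 0) (nat_lit 446)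 (nat_lit 387) (nat_lit 247)) (XT.lf (nat_lit 0) (nat_lit 877070831554) (nat_lit 0) (nat_lit 0) (nat_lit 0) (nat_lit 0) (nat_lit 0) (nat_lit 0) (nat_lit 1) (nat_lit 0) (nat_lit 1) (nat_lit 0) (nat_lit 447) (nat_lit 387) (nat_lit 246))))) (XT.nd (nat_lit 282) (nat_lit 0) (nat_lit 0) (XT.nd (nat_lit 94) (nat_lit 0) (nat_lit 0) (XT.lf (nat_lit 0) (nat_lit 946550303218) (nat_lit 0) (nat_lit 0) (nat_lit 0) (nat_lit 0) (nat_lit 0) (nat_lit 0) (nat_lit 1) (nat_lit 0) (nat_lit 1) (nat_lit 0) (nat_lit 448) (nat_lit 387) (nat_lit 245)) (XT.nd (nat_lit 94) (nat_lit 0) (nat_lit 0) (XT.lf (nat_lit 0) (nat_lit 1021588134512) (nat_lit 0) (nat_lit 0) (nat_lit 0) (nat_lit 0) (nat_lit 0) (nat_lit 0) (nat_lit 1) (nat_lit 0) (nat_lit 1) (nat_lit 0) (nat_lit 449) (nat_lit 387) (nat_lit 244)) (XT.lf (nat_lit 0) (nat_lit 1102628994066) (nat_lit 0) (nat_lit 0) (nat_lit 0) (nat_lit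 0) (nat_lit 0) (nat_lit 0) (nat_lit 1) (nat_lit 0) (nat_lit 1) (nat_lit 0) (nat_lit 450) (nat_lit 387) (nat_lit 243)))) (XT.nd (nat_lit 188) (nat_lit 0) (nat_lit 0) (XT.nd (nat_lit 94) (nat_lit 0) (nat_lit 0) (XT.lf (nat_lit 0) (nat_lit 1190153124010) (nat_lit 0) (nat_lit 0) (nat_lit 0) (nat_lit 0) (nat_lit 0) (nat_lit 0) (nat_lit 1) (nat_lit 0) (nat_lit 1) (nat_lit 0) (nat_lit 451) (nat_lit 387) (nat_lit 242)) (XT.lf (nat_lit 0) (nat_lit 1284679185855) (nat_lit 0) (nat_lit 0) (nat_lit 0) (nat_lit 0) (nat_lit 0) (nat_lit 0) (nat_lit 1) (nat_lit 0) (nat_lit 1) (nat_lit 0) (nat_lit 452) (nat_lit 387) (nat_lit 241))) (XT.nd (nat_lit 94) (nat_lit 0) (nat_lit 0) (XT.lf (nat_lit 0) (nat_lit 1386767334042) (nat_lit 0) (nat_lit 0) (nat_lit 0) (nat_lit 0) (nat_lit 0) (nat_lit 0) (nat_lit 1) (nat_lit 0) (nat_lit 1) (nat_lit 0) (nat_lit 453) (nat_lit 387) (nat_lit 240))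 (XT.lf (nat_lit 0) (nat_lit 1497022535375) (nat_lit 0) (nat_lit 0) (nat_lit 0) (nat_lit 0) (nat_lit 0) (nat_lit 0) (nat_lit 1) (nat_lit 0) (nat_lit 1) (nat_lit 0) (nat_lit 454) (nat_lit 387) (nat_lit 239)))))) (XT.nd (nat_lit 658) (nat_lit 0) (nat_lit 0) (XT.nd (nat_lit 282) (nat_lit 0) (nat_lit 0) (XT.nd (nat_lit 94) (nat_lit 0) (nat_lit 0) (XT.lf (nat_lit 0) (nat_lit 1616098154010) (nat_lit 0) (nat_lit 0) (nat_lit 0) (nat_lit 0) (nat_lit 0) (nat_lit 0) (nat_lit 1) (nat_lit 0) (nat_lit 1) (nat_lit 0) (nat_lit 455) (nat_lit 387) (nat_lit 238)) (XT.nd (nat_lit 94) (nat_lit 0) (nat_lit 0) (XT.lf (nat_lit 0) (nat_lit 1744699823242) (nat_lit 0) (nat_lit 0) (nat_lit 0) (nat_lit 0) (nat_lit 0) (nat_lit 0) (nat_lit 1) (nat_lit 0) (nat_lit 1) (nat_lit 0) (nat_lit 456) (nat_lit 387) (nat_lit 237)) (XT.lf (nat_lit 0) (nat_lit 1883589627037) (nat_lit 0) (nat_lit 0) (nat_lit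 0) (nat_lit 0) (nat_lit 0) (nat_lit 0) (nat_lit 1) (nat_lit 0) (nat_lit 1) (nat_lit 0) (nat_lit 457) (nat_lit 387) (nat_lit 236)))) (XT.nd (nat_lit 188) (nat_lit 0) (nat_lit 0) (XT.nd (nat_lit 94) (nat_lit 0) (nat_lit 0) (XT.lf (nat_lit 0) (nat_lit 2033590616084) (nat_lit 0) (nat_lit 0) (nat_lit 0) (nat_lit 0) (nat_lit 0) (nat_lit 0) (nat_lit 1) (nat_lit 0) (nat_lit 1) (nat_lit 0) (nat_lit 458) (nat_lit 387) (nat_lit 235)) (XT.lf (nat_lit 0) (nat_lit 2195591685134) (nat_lit 0) (nat_lit 0) (nat_lit 0) (nat_lit 0) (nat_lit 0) (nat_lit 0) (nat_lit 1) (nat_lit 0) (nat_lit 1) (nat_lit 0) (nat_lit 459) (nat_lit 387) (nat_lit 234))) (XT.nd (nat_lit 94) (nat_lit 0) (nat_lit 0) (XT.lf (nat_lit 0) (nat_lit 2370552840522) (nat_lit 0) (nat_lit 0) (nat_lit 0) (nat_lit 0) (nat_lit 0) (nat_lit 0) (nat_lit 1) (nat_lit 0) (nat_lit 1) (nat_lit 0) (nat_lit 460) (nat_lit 387)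 (nat_lit 233)) (XT.lf (nat_lit 0) (nat_lit 2559510889094) (nat_lit 0) (nat_lit 0) (nat_lit 0) (nat_lit 0) (nat_lit 0) (nat_lit 0) (nat_lit 1) (nat_lit 0) (nat_lit 1) (nat_lit 0) (nat_lit 461) (nat_lit 387) (nat_lit 232))))) (XT.nd (nat_lit 376) (nat_lit 0) (nat_lit 0) (XT.nd (nat_lit 188) (nat_lit 0) (nat_lit 0) (XT.nd (nat_lit 94) (nat_lit 0) (nat_lit 0) (XT.lf (nat_lit 0) (nat_lit 2763585582248) (nat_lit 0) (nat_lit 0) (nat_lit 0) (nat_lit 0) (nat_lit 0) (nat_lit 0) (nat_lit 1) (nat_lit 0) (nat_lit 1) (nat_lit 0) (nat_lit 462) (nat_lit 387) (nat_lit 231)) (XT.lf (nat_lit 0) (nat_lit 2983986251501) (nat_lit 0) (nat_lit 0) (nat_lit 0) (nat_lit 0) (nat_lit 0) (nat_lit 0) (nat_lit 1) (nat_lit 0) (nat_lit 1) (nat_lit 0) (nat_lit 463) (nat_lit 387) (nat_lit 230))) (XT.nd (nat_lit 94) (nat_lit 0) (nat_lit 0) (XT.lf (nat_lit 0) (nat_lit 3222018974892) (nat_lit 0)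 (nat_lit 0) (nat_lit 0) (nat_lit 0) (nat_lit 0) (nat_lit 0) (nat_lit 1) (nat_lit 0) (nat_lit 1) (nat_lit 0) (nat_lit 464) (nat_lit 387) (nat_lit 229)) (XT.lf (nat_lit 0) (nat_lit 3479094316708) (nat_lit 0) (nat_lit 0) (nat_lit 0) (nat_lit 0) (nat_lit 0) (nat_lit 0) (nat_lit 1) (nat_lit 0) (nat_lit 1) (nat_lit 0) (nat_lit 465) (nat_lit 387) (nat_lit 228)))) (XT.nd (nat_lit 188) (nat_lit 0) (nat_lit 0) (XT.nd (nat_lit 94) (nat_lit 0) (nat_lit 0) (XT.lf (nat_lit 0) (nat_lit 3756735686382) (nat_lit 0) (nat_lit 0) (nat_lit 0) (nat_lit 0) (nat_lit 0) (nat_lit 0) (nat_lit 1) (nat_lit 0) (nat_lit 1) (nat_lit 0) (nat_lit 466) (nat_lit 387) (nat_lit 227)) (XT.lf (nat_lit 0) (nat_lit 4056588366104) (nat_lit 0) (nat_lit 0) (nat_lit 0) (nat_lit 0) (nat_lit 0) (nat_lit 0) (nat_lit 1) (nat_lit 0) (nat_lit 1) (nat_lit 0) (nat_lit 467) (nat_lit 387) (nat_lit 226))) (XT.nd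 (nat_lit 94) (nat_lit 0) (nat_lit 0) (XT.lf (nat_lit 0) (nat_lit 4380429260644) (nat_lit 0) (nat_lit 0) (nat_lit 0) (nat_lit 0) (nat_lit 0) (nat_lit 0) (nat_lit 1) (nat_lit 0) (nat_lit 1) (nat_lit 0) (nat_lit 468) (nat_lit 387) (nat_lit 225)) (XT.lf (nat_lit 0) (nat_lit 4730177427153) (nat_lit 0) (nat_lit 0) (nat_lit 0) (nat_lit 0) (nat_lit 0) (nat_lit 0) (nat_lit 1) (nat_lit 0) (nat_lit 1) (nat_lit 0) (nat_lit 469) (nat_lit 387) (nat_lit 224))))))))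
noncomputable def xc150 : XT := (XT.nd (nat_lit 2632) (nat_lit 0) (nat_lit 0) (XT.nd (nat_lit 1316) (nat_lit 0) (nat_lit 0) (XT.nd (nat_lit 658) (nat_lit 0) (nat_lit 0) (XT.nd (nat_lit 282) (nat_lit 0) (nat_lit 0) (XT.nd (nat_lit 94) (nat_lit 0) (nat_lit 0) (XT.lf (nat_lit 0) (nat_lit 5107905447361) (nat_lit 0) (nat_lit 0) (nat_lit 0) (nat_lit 0) (nat_lit 0) (nat_lit 0) (nat_lit 1) (nat_lit 0) (nat_lit 1) (nat_lit 0) (nat_lit 470) (nat_lit 387) (nat_lit 223)) (XT.nd (nat_lit 94) (nat_lit 0) (nat_lit 0) (XT.lf (nat_lit 0) (nat_lit 5515851709533) (nat_lit 0) (nat_lit 0) (nat_lit 0) (nat_lit 0) (nat_lit 0) (nat_lit 0) (nat_lit 1) (nat_lit 0) (nat_lit 1) (nat_lit 0) (nat_lit 471) (nat_lit 387) (nat_lit 222)) (XT.lf (nat_lit 0) (nat_lit 5956433673003) (nat_lit 0) (nat_lit 0) (nat_lit 0) (nat_lit 0) (nat_lit 0) (nat_lit 0) (nat_lit 1) (nat_lit 0) (nat_lit 1) (nat_lit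 0) (nat_lit 472) (nat_lit 387) (nat_lit 221)))) (XT.nd (nat_lit 188) (nat_lit 0) (nat_lit 0) (XT.nd (nat_lit 94) (nat_lit 0) (nat_lit 0) (XT.lf (nat_lit 0) (nat_lit 6432262193849) (nat_lit 0) (nat_lit 0) (nat_lit 0) (nat_lit 0) (nat_lit 0) (nat_lit 0) (nat_lit 1) (nat_lit 0) (nat_lit 1) (nat_lit 0) (nat_lit 473) (nat_lit 387) (nat_lit 220)) (XT.lf (nat_lit 0) (nat_lit 6946156996640) (nat_lit 0) (nat_lit 0) (nat_lit 0) (nat_lit 0) (nat_lit 0) (nat_lit 0) (nat_lit 1) (nat_lit 0) (nat_lit 1) (nat_lit 0) (nat_lit 474) (nat_lit 387) (nat_lit 219))) (XT.nd (nat_lit 94) (nat_lit 0) (nat_lit 0) (XT.lf (nat_lit 0) (nat_lit 7501163383910) (nat_lit 0) (nat_lit 0) (nat_lit 0) (nat_lit 0) (nat_lit 0) (nat_lit 0) (nat_lit 1) (nat_lit 0) (nat_lit 1) (nat_lit 0) (nat_lit 475) (nat_lit 387) (nat_lit 218)) (XT.lf (nat_lit 0) (nat_lit 8100570282400) (nat_lit 0) (nat_lit 0) (nat_lit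 0) (nat_lit 0) (nat_lit 0) (nat_lit 0) (nat_lit 1) (nat_lit 0) (nat_lit 1) (nat_lit 0) (nat_lit 476) (nat_lit 387) (nat_lit 217))))) (XT.nd (nat_lit 282) (nat_lit 0) (nat_lit 0) (XT.nd (nat_lit 94) (nat_lit 0) (nat_lit 0) (XT.lf (nat_lit 0) (nat_lit 8747929732988) (nat_lit 0) (nat_lit 0) (nat_lit 0) (nat_lit 0) (nat_lit 0) (nat_lit 0) (nat_lit 1) (nat_lit 0) (nat_lit 1) (nat_lit 0) (nat_lit 477) (nat_lit 387) (nat_lit 216)) (XT.nd (nat_lit 94) (nat_lit 0) (nat_lit 0) (XT.lf (nat_lit 0) (nat_lit 9447077939828) (nat_lit 0) (nat_lit 0) (nat_lit 0) (nat_lit 0) (nat_lit 0) (nat_lit 0) (nat_lit 1) (nat_lit 0) (nat_lit 1) (nat_lit 0) (nat_lit 478) (nat_lit 387) (nat_lit 215)) (XT.lf (nat_lit 0) (nat_lit 10202158003402) (nat_lit 0) (nat_lit 0) (nat_lit 0) (nat_lit 0) (nat_lit 0) (nat_lit 0) (nat_lit 1) (nat_lit 0) (nat_lit 1) (nat_lit 0) (nat_lit 479) (nat_lit 387)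 (nat_lit 214)))) (XT.nd (nat_lit 188) (nat_lit 0) (nat_lit 0) (XT.nd (nat_lit 94) (nat_lit 0) (nat_lit 0) (XT.lf (nat_lit 0) (nat_lit 11017644472238) (nat_lit 0) (nat_lit 0) (nat_lit 0) (nat_lit 0) (nat_lit 0) (nat_lit 0) (nat_lit 1) (nat_lit 0) (nat_lit 1) (nat_lit 0) (nat_lit 480) (nat_lit 387) (nat_lit 213)) (XT.lf (nat_lit 0) (nat_lit 11898369858742) (nat_lit 0) (nat_lit 0) (nat_lit 0) (nat_lit 0) (nat_lit 0) (nat_lit 0) (nat_lit 1) (nat_lit 0) (nat_lit 1) (nat_lit 0) (nat_lit 481) (nat_lit 387) (nat_lit 212))) (XT.nd (nat_lit 94) (nat_lit 0) (nat_lit 0) (XT.lf (nat_lit 0) (nat_lit 12849553276315) (nat_lit 0) (nat_lit 0) (nat_lit 0) (nat_lit 0) (nat_lit 0) (nat_lit 0) (nat_lit 1) (nat_lit 0) (nat_lit 1) (nat_lit 0) (nat_lit 482) (nat_lit 387) (nat_lit 211)) (XT.lf (nat_lit 0) (nat_lit 13876831367433) (nat_lit 0) (nat_lit 0) (nat_lit 0) (nat_lit 0) (nat_lit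 0) (nat_lit 0) (nat_lit 1) (nat_lit 0) (nat_lit 1) (nat_lit 0) (nat_lit 483) (nat_lit 387) (nat_lit 210)))))) (XT.nd (nat_lit 658) (nat_lit 0) (nat_lit 0) (XT.nd (nat_lit 282) (nat_lit 0) (nat_lit 0) (XT.nd (nat_lit 94) (nat_lit 0) (nat_lit 0) (XT.lf (nat_lit 0) (nat_lit 14986291705969) (nat_lit 0) (nat_lit 0) (nat_lit 0) (nat_lit 0) (nat_lit 0) (nat_lit 0) (nat_lit 1) (nat_lit 0) (nat_lit 1) (nat_lit 0) (nat_lit 484) (nat_lit 387) (nat_lit 209)) (XT.nd (nat_lit 94) (nat_lit 0) (nat_lit 0) (XT.lf (nat_lit 0) (nat_lit 16184508871707) (nat_lit 0) (nat_lit 0) (nat_lit 0) (nat_lit 0) (nat_lit 0) (nat_lit 0) (nat_lit 1) (nat_lit 0) (nat_lit 1) (nat_lit 0) (nat_lit 485) (nat_lit 387) (nat_lit 208)) (XT.lf (nat_lit 0) (nat_lit 17478583410813) (nat_lit 0) (nat_lit 0) (nat_lit 0) (nat_lit 0) (nat_lit 0) (nat_lit 0) (nat_lit 1) (nat_lit 0) (nat_lit 1) (nat_lit 0) (nat_lit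 486) (nat_lit 387) (nat_lit 207)))) (XT.nd (nat_lit 188) (nat_lit 0) (nat_lit 0) (XT.nd (nat_lit 94) (nat_lit 0) (nat_lit 0) (XT.lf (nat_lit 0) (nat_lit 18876183913150) (nat_lit 0) (nat_lit 0) (nat_lit 0) (nat_lit 0) (nat_lit 0) (nat_lit 0) (nat_lit 1) (nat_lit 0) (nat_lit 1) (nat_lit 0) (nat_lit 487) (nat_lit 387) (nat_lit 206)) (XT.lf (nat_lit 0) (nat_lit 20385592455768) (nat_lit 0) (nat_lit 0) (nat_lit 0) (nat_lit 0) (nat_lit 0) (nat_lit 0) (nat_lit 1) (nat_lit 0) (nat_lit 1) (nat_lit 0) (nat_lit 488) (nat_lit 387) (nat_lit 205))) (XT.nd (nat_lit 94) (nat_lit 0) (nat_lit 0) (XT.lf (nat_lit 0) (nat_lit 22015753681883) (nat_lit 0) (nat_lit 0) (nat_lit 0) (nat_lit 0) (nat_lit 0) (nat_lit 0) (nat_lit 1) (nat_lit 0) (nat_lit 1) (nat_lit 0) (nat_lit 489) (nat_lit 387) (nat_lit 204)) (XT.lf (nat_lit 0) (nat_lit 23776327806168) (nat_lit 0) (nat_lit 0) (nat_lit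 0) (nat_lit 0) (nat_lit 0) (nat_lit 0) (nat_lit 1) (nat_lit 0) (nat_lit 1) (nat_lit 0) (nat_lit 490) (nat_lit 387) (nat_lit 203))))) (XT.nd (nat_lit 282) (nat_lit 0) (nat_lit 0) (XT.nd (nat_lit 94) (nat_lit 0) (nat_lit 0) (XT.lf (nat_lit 0) (nat_lit 25677747860471) (nat_lit 0) (nat_lit 0) (nat_lit 0) (nat_lit 0) (nat_lit 0) (nat_lit 0) (nat_lit 1) (nat_lit 0) (nat_lit 1) (nat_lit 0) (nat_lit 491) (nat_lit 387) (nat_lit 202)) (XT.nd (nat_lit 94) (nat_lit 0) (nat_lit 0) (XT.lf (nat_lit 0) (nat_lit 27731281519187) (nat_lit 0) (nat_lit 0) (nat_lit 0) (nat_lit 0) (nat_lit 0) (nat_lit 0) (nat_lit 1) (nat_lit 0) (nat_lit 1) (nat_lit 0) (nat_lit 492) (nat_lit 387) (nat_lit 201)) (XT.lf (nat_lit 0) (nat_lit 29949097870664) (nat_lit 0) (nat_lit 0) (nat_lit 0) (nat_lit 0) (nat_lit 0) (nat_lit 0) (nat_lit 1) (nat_lit 0) (nat_lit 1) (nat_lit 0) (nat_lit 493) (nat_lit 387)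 (nat_lit 200)))) (XT.nd (nat_lit 188) (nat_lit 0) (nat_lit 0) (XT.nd (nat_lit 94) (nat_lit 0) (nat_lit 0) (XT.lf (nat_lit 0) (nat_lit 32344339530319) (nat_lit 0) (nat_lit 0) (nat_lit 0) (nat_lit 0) (nat_lit 0) (nat_lit 0) (nat_lit 1) (nat_lit 0) (nat_lit 1) (nat_lit 0) (nat_lit 494) (nat_lit 387) (nat_lit 199)) (XT.lf (nat_lit 0) (nat_lit 34931200522802) (nat_lit 0) (nat_lit 0) (nat_lit 0) (nat_lit 0) (nat_lit 0) (nat_lit 0) (nat_lit 1) (nat_lit 0) (nat_lit 1) (nat_lit 0) (nat_lit 495) (nat_lit 387) (nat_lit 198))) (XT.nd (nat_lit 94) (nat_lit 0) (nat_lit 0) (XT.lf (nat_lit 0) (nat_lit 37725010394734) (nat_lit 0) (nat_lit 0) (nat_lit 0) (nat_lit 0) (nat_lit 0) (nat_lit 0) (nat_lit 1) (nat_lit 0) (nat_lit 1) (nat_lit 0) (nat_lit 496) (nat_lit 387) (nat_lit 197)) (XT.lf (nat_lit 0) (nat_lit 40742325056468) (nat_lit 0) (nat_lit 0) (nat_lit 0) (nat_lit 0) (nat_lit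 0) (nat_lit 0) (nat_lit 1) (nat_lit 0) (nat_lit 1) (nat_lit 0) (nat_lit 497) (nat_lit 387) (nat_lit 196))))))) (XT.nd (nat_lit 58092) (nat_lit 0) (nat_lit 5712) (XT.nd (nat_lit 57434) (nat_lit 0) (nat_lit 10752) (XT.nd (nat_lit 282) (nat_lit 0) (nat_lit 0) (XT.nd (nat_lit 94) (nat_lit 0) (nat_lit 0) (XT.lf (nat_lit 0) (nat_lit 44001024891184) (nat_lit 0) (nat_lit 0) (nat_lit 0) (nat_lit 0) (nat_lit 0) (nat_lit 0) (nat_lit 1) (nat_lit 0) (nat_lit 1) (nat_lit 0) (nat_lit 498) (nat_lit 387) (nat_lit 195)) (XT.nd (nat_lit 94) (nat_lit 0) (nat_lit 0) (XT.lf (nat_lit 0) (nat_lit 47520420712718) (nat_lit 0) (nat_lit 0) (nat_lit 0) (nat_lit 0) (nat_lit 0) (nat_lit 0) (nat_lit 1) (nat_lit 0) (nat_lit 1) (nat_lit 0) (nat_lit 499) (nat_lit 387) (nat_lit 194)) (XT.lf (nat_lit 0) (nat_lit 51321368200012) (nat_lit 0) (nat_lit 0) (nat_lit 0) (nat_lit 0) (nat_lit 0) (nat_lit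 0) (nat_lit 1) (nat_lit 0) (nat_lit 1) (nat_lit 0) (nat_lit 500) (nat_lit 387) (nat_lit 193)))) (XT.nd (nat_lit 188) (nat_lit 0) (nat_lit 0) (XT.nd (nat_lit 94) (nat_lit 0) (nat_lit 0) (XT.lf (nat_lit 0) (nat_lit 55426391486324) (nat_lit 0) (nat_lit 0) (nat_lit 0) (nat_lit 0) (nat_lit 0) (nat_lit 0) (nat_lit 1) (nat_lit 0) (nat_lit 1) (nat_lit 0) (nat_lit 501) (nat_lit 387) (nat_lit 192)) (XT.lf (nat_lit 0) (nat_lit 59859816635574) (nat_lit 0) (nat_lit 0) (nat_lit 0) (nat_lit 0) (nat_lit 0) (nat_lit 0) (nat_lit 1) (nat_lit 0) (nat_lit 1) (nat_lit 0) (nat_lit 502) (nat_lit 387) (nat_lit 191))) (XT.nd (nat_lit 94) (nat_lit 0) (nat_lit 0) (XT.lf (nat_lit 0) (nat_lit 64647915796793) (nat_lit 0) (nat_lit 0) (nat_lit 0) (nat_lit 0) (nat_lit 0) (nat_lit 0) (nat_lit 1) (nat_lit 0) (nat_lit 1) (nat_lit 0) (nat_lit 503) (nat_lit 387) (nat_lit 190)) (XT.lf (nat_lit 0)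 (nat_lit 69819062890937) (nat_lit 0) (nat_lit 0) (nat_lit 0) (nat_lit 0) (nat_lit 0) (nat_lit 0) (nat_lit 1) (nat_lit 0) (nat_lit 1) (nat_lit 0) (nat_lit 504) (nat_lit 387) (nat_lit 189))))) (XT.nd (nat_lit 282) (nat_lit 0) (nat_lit 168) (XT.nd (nat_lit 94) (nat_lit 0) (nat_lit 84) (XT.lf (nat_lit 0) (nat_lit 7868449539) (nat_lit 924) (nat_lit 4825858097) (nat_lit 924) (nat_lit 4825858097) (nat_lit 128) (nat_lit 3) (nat_lit 139) (nat_lit 3) (nat_lit 139) (nat_lit 5) (nat_lit 388) (nat_lit 388) (nat_lit 304)) (XT.nd (nat_lit 94) (nat_lit 0) (nat_lit 0) (XT.lf (nat_lit 0) (nat_lit 16780465308) (nat_lit 840) (nat_lit 17470532912) (nat_lit 924) (nat_lit 2170241992) (nat_lit 129) (nat_lit 5) (nat_lit 139) (nat_lit 5) (nat_lit 140) (nat_lit 5) (nat_lit 389) (nat_lit 388) (nat_lit 303)) (XT.lf (nat_lit 84) (nat_lit 12237633918) (nat_lit 0) (nat_lit 6451650249) (nat_lit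 924) (nat_lit 19184249123) (nat_lit 130) (nat_lit 5) (nat_lit 129) (nat_lit 5) (nat_lit 140) (nat_lit 5) (nat_lit 390) (nat_lit 388) (nat_lit 302)))) (XT.nd (nat_lit 188) (nat_lit 0) (nat_lit 168) (XT.nd (nat_lit 94) (nat_lit 0) (nat_lit 84) (XT.lf (nat_lit 84) (nat_lit 5311335913) (nat_lit 0) (nat_lit 16192039356) (nat_lit 924) (nat_lit 17901006210) (nat_lit 131) (nat_lit 5) (nat_lit 130) (nat_lit 5) (nat_lit 141) (nat_lit 5) (nat_lit 391) (nat_lit 388) (nat_lit 301)) (XT.lf (nat_lit 0) (nat_lit 25314490112) (nat_lit 840) (nat_lit 1723419022) (nat_lit 924) (nat_lit 13981193565) (nat_lit 131) (nat_lit 5) (nat_lit 141) (nat_lit 5) (nat_lit 142) (nat_lit 5) (nat_lit 392) (nat_lit 388) (nat_lit 300))) (XT.nd (nat_lit 94) (nat_lit 0) (nat_lit 0) (XT.lf (nat_lit 0) (nat_lit 30288091471) (nat_lit 840) (nat_lit 8735198454) (nat_lit 924) (nat_lit 3696831826) (nat_lit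 132) (nat_lit 5) (nat_lit 142) (nat_lit 5) (nat_lit 143) (nat_lit 5) (nat_lit 393) (nat_lit 388) (nat_lit 299)) (XT.lf (nat_lit 84) (nat_lit 28506673739) (nat_lit 0) (nat_lit 8078204571) (nat_lit 924) (nat_lit 7926079148) (nat_lit 133) (nat_lit 5) (nat_lit 132) (nat_lit 5) (nat_lit 143) (nat_lit 5) (nat_lit 394) (nat_lit 388) (nat_lit 298)))))) (XT.nd (nat_lit 658) (nat_lit 2436) (nat_lit 0) (XT.nd (nat_lit 282) (nat_lit 1176) (nat_lit 0) (XT.nd (nat_lit 94) (nat_lit 1008) (nat_lit 0) (XT.lf (nat_lit 0) (nat_lit 22933057538) (nat_lit 840) (nat_lit 21354927847) (nat_lit 924) (nat_lit 2111945773) (nat_lit 123) (nat_lit 5) (nat_lit 133) (nat_lit 5) (nat_lit 134) (nat_lit 5) (nat_lit 395) (nat_lit 388) (nat_lit 297)) (XT.nd (nat_lit 94) (nat_lit 420) (nat_lit 0) (XT.lf (nat_lit 0) (nat_lit 4920069140) (nat_lit 588) (nat_lit 31122323051) (nat_lit 84) (nat_lit 12350070832)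 (nat_lit 116) (nat_lit 5) (nat_lit 123) (nat_lit 5) (nat_lit 117) (nat_lit 5) (nat_lit 396) (nat_lit 388) (nat_lit 296)) (XT.lf (nat_lit 0) (nat_lit 11542013564) (nat_lit 420) (nat_lit 1850199904) (nat_lit 504) (nat_lit 37102874841) (nat_lit 111) (nat_lit 5) (nat_lit 116) (nat_lit 5) (nat_lit 117) (nat_lit 5) (nat_lit 397) (nat_lit 388) (nat_lit 295)))) (XT.nd (nat_lit 188) (nat_lit 756) (nat_lit 0) (XT.nd (nat_lit 94) (nat_lit 0) (nat_lit 0) (XT.lf (nat_lit 0) (nat_lit 5609878559) (nat_lit 420) (nat_lit 18113623842) (nat_lit 504) (nat_lit 28983352563) (nat_lit 106) (nat_lit 5) (nat_lit 111) (nat_lit 5) (nat_lit 112) (nat_lit 5) (nat_lit 398) (nat_lit 388) (nat_lit 294)) (XT.lf (nat_lit 0) (nat_lit 35890463710) (nat_lit 504) (nat_lit 273182872) (nat_lit 84) (nat_lit 18881457908) (nat_lit 106) (nat_lit 5) (nat_lit 112) (nat_lit 5) (nat_lit 107) (nat_lit 5)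 (nat_lit 399) (nat_lit 388) (nat_lit 293))) (XT.nd (nat_lit 94) (nat_lit 420) (nat_lit 0) (XT.lf (nat_lit 0) (nat_lit 50161607800) (nat_lit 420) (nat_lit 5899413026) (nat_lit 84) (nat_lit 1452851858) (nat_lit 102) (nat_lit 5) (nat_lit 107) (nat_lit 5) (nat_lit 103) (nat_lit 5) (nat_lit 400) (nat_lit 388) (nat_lit 292)) (XT.lf (nat_lit 0) (nat_lit 6610583587) (nat_lit 420) (nat_lit 11800435802) (nat_lit 84) (nat_lit 41695465244) (nat_lit 97) (nat_lit 5) (nat_lit 102) (nat_lit 5) (nat_lit 98) (nat_lit 5) (nat_lit 401) (nat_lit 388) (nat_lit 291))))) (XT.nd (nat_lit 376) (nat_lit 1092) (nat_lit 0) (XT.nd (nat_lit 188) (nat_lit 672) (nat_lit 0) (XT.nd (nat_lit 94) (nat_lit 336) (nat_lit 0) (XT.lf (nat_lit 0) (nat_lit 22609782853) (nat_lit 420) (nat_lit 17739925873) (nat_lit 84) (nat_lit 22491924843) (nat_lit 93) (nat_lit 5) (nat_lit 98) (nat_lit 5) (nat_lit 94)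 (nat_lit 5) (nat_lit 402) (nat_lit 388) (nat_lit 290)) (XT.lf (nat_lit 0) (nat_lit 41082005960) (nat_lit 420) (nat_lit 23529890032) (nat_lit 84) (nat_lit 1124044033) (nat_lit 89) (nat_lit 5) (nat_lit 94) (nat_lit 5) (nat_lit 90) (nat_lit 5) (nat_lit 403) (nat_lit 388) (nat_lit 289))) (XT.nd (nat_lit 94) (nat_lit 420) (nat_lit 0) (XT.lf (nat_lit 0) (nat_lit 39302730341) (nat_lit 252) (nat_lit 23333879225) (nat_lit 336) (nat_lit 6144951300) (nat_lit 86) (nat_lit 5) (nat_lit 89) (nat_lit 5) (nat_lit 90) (nat_lit 5) (nat_lit 404) (nat_lit 388) (nat_lit 288)) (XT.lf (nat_lit 0) (nat_lit 14742601163) (nat_lit 420) (nat_lit 35456389243) (nat_lit 84) (nat_lit 21793984722) (nat_lit 81) (nat_lit 5) (nat_lit 86) (nat_lit 5) (nat_lit 82) (nat_lit 5) (nat_lit 405) (nat_lit 388) (nat_lit 287)))) (XT.nd (nat_lit 188) (nat_lit 588) (nat_lit 0) (XT.nd (nat_lit 94) (nat_lit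 252) (nat_lit 0) (XT.lf (nat_lit 0) (nat_lit 34029488243) (nat_lit 252) (nat_lit 4502745944) (nat_lit 336) (nat_lit 36851713224) (nat_lit 78) (nat_lit 5) (nat_lit 81) (nat_lit 5) (nat_lit 82) (nat_lit 5) (nat_lit 406) (nat_lit 388) (nat_lit 286)) (XT.lf (nat_lit 0) (nat_lit 31622416999) (nat_lit 252) (nat_lit 34421278160) (nat_lit 336) (nat_lit 12911569451) (nat_lit 75) (nat_lit 5) (nat_lit 78) (nat_lit 5) (nat_lit 79) (nat_lit 5) (nat_lit 407) (nat_lit 388) (nat_lit 285))) (XT.nd (nat_lit 94) (nat_lit 252) (nat_lit 0) (XT.lf (nat_lit 0) (nat_lit 14049675654) (nat_lit 336) (nat_lit 53190929572) (nat_lit 84) (nat_lit 15485568929) (nat_lit 71) (nat_lit 5) (nat_lit 75) (nat_lit 5) (nat_lit 72) (nat_lit 5) (nat_lit 408) (nat_lit 388) (nat_lit 284)) (XT.lf (nat_lit 0) (nat_lit 27551435000) (nat_lit 252) (nat_lit 17015870318) (nat_lit 336) (nat_lit 42128275722)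 (nat_lit 68) (nat_lit 5) (nat_lit 71) (nat_lit 5) (nat_lit 72) (nat_lit 5) (nat_lit 409) (nat_lit 388) (nat_lit 283))))))))
noncomputable def xc151 : XT := (XT.nd (nat_lit 2632) (nat_lit 1092) (nat_lit 0) (XT.nd (nat_lit 1316) (nat_lit 1932) (nat_lit 0) (XT.nd (nat_lit 658) (nat_lit 1176) (nat_lit 0) (XT.nd (nat_lit 282) (nat_lit 840) (nat_lit 0) (XT.nd (nat_lit 94) (nat_lit 504) (nat_lit 0) (XT.lf (nat_lit 0) (nat_lit 25946277086) (nat_lit 168) (nat_lit 53505450921) (nat_lit 252) (nat_lit 11434543334) (nat_lit 66) (nat_lit 5) (nat_lit 68) (nat_lit 5) (nat_lit 69) (nat_lit 5) (nat_lit 410) (nat_lit 388) (nat_lit 282)) (XT.nd (nat_lit 94) (nat_lit 168) (nat_lit 0) (XT.lf (nat_lit 0) (nat_lit 22768701043) (nat_lit 336) (nat_lit 70600465014) (nat_lit 84) (nat_lit 1938648502) (nat_lit 62) (nat_lit 5) (nat_lit 66) (nat_lit 5) (nat_lit 63) (nat_lit 5) (nat_lit 411)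 (nat_lit 388) (nat_lit 281)) (XT.lf (nat_lit 0) (nat_lit 23452011476) (nat_lit 168) (nat_lit 38276580309) (nat_lit 252) (nat_lit 38224067000) (nat_lit 60) (nat_lit 5) (nat_lit 62) (nat_lit 5) (nat_lit 63) (nat_lit 5) (nat_lit 412) (nat_lit 388) (nat_lit 280)))) (XT.nd (nat_lit 188) (nat_lit 420) (nat_lit 0) (XT.nd (nat_lit 94) (nat_lit 168) (nat_lit 0) (XT.lf (nat_lit 0) (nat_lit 843639877) (nat_lit 252) (nat_lit 81862101505) (nat_lit 84) (nat_lit 22165747324) (nat_lit 57) (nat_lit 5) (nat_lit 60) (nat_lit 5) (nat_lit 58) (nat_lit 5) (nat_lit 413) (nat_lit 388) (nat_lit 279)) (XT.lf (nat_lit 0) (nat_lit 22499355490) (nat_lit 168) (nat_lit 21564968184) (nat_lit 252) (nat_lit 65969832872) (nat_lit 55) (nat_lit 5) (nat_lit 57) (nat_lit 5) (nat_lit 58) (nat_lit 5) (nat_lit 414) (nat_lit 388) (nat_lit 278))) (XT.nd (nat_lit 94) (nat_lit 252) (nat_lit 0) (XT.lf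 (nat_lit 0) (nat_lit 22596310393) (nat_lit 168) (nat_lit 70640563263) (nat_lit 252) (nat_lit 22248253584) (nat_lit 53) (nat_lit 5) (nat_lit 55) (nat_lit 5) (nat_lit 56) (nat_lit 5) (nat_lit 415) (nat_lit 388) (nat_lit 277)) (XT.lf (nat_lit 0) (nat_lit 23332461820) (nat_lit 168) (nat_lit 3114942041) (nat_lit 252) (nat_lit 94791499249) (nat_lit 50) (nat_lit 5) (nat_lit 52) (nat_lit 5) (nat_lit 53) (nat_lit 5) (nat_lit 416) (nat_lit 388) (nat_lit 276))))) (XT.nd (nat_lit 282) (nat_lit 672) (nat_lit 0) (XT.nd (nat_lit 94) (nat_lit 336) (nat_lit 0) (XT.lf (nat_lit 0) (nat_lit 24071625319) (nat_lit 168) (nat_lit 57306380743) (nat_lit 252) (nat_lit 45900800587) (nat_lit 48) (nat_lit 5) (nat_lit 50) (nat_lit 5) (nat_lit 51) (nat_lit 5) (nat_lit 417) (nat_lit 388) (nat_lit 275)) (XT.nd (nat_lit 94) (nat_lit 168) (nat_lit 0) (XT.lf (nat_lit 0) (nat_lit 9144918371) (nat_lit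 168) (nat_lit 107722390764) (nat_lit 84) (nat_lit 16805973797) (nat_lit 46) (nat_lit 5) (nat_lit 48) (nat_lit 5) (nat_lit 47) (nat_lit 5) (nat_lit 418) (nat_lit 388) (nat_lit 274)) (XT.lf (nat_lit 0) (nat_lit 27752810643) (nat_lit 168) (nat_lit 42479800523) (nat_lit 252) (nat_lit 70146759705) (nat_lit 44) (nat_lit 5) (nat_lit 46) (nat_lit 5) (nat_lit 47) (nat_lit 5) (nat_lit 419) (nat_lit 388) (nat_lit 273)))) (XT.nd (nat_lit 188) (nat_lit 336) (nat_lit 0) (XT.nd (nat_lit 94) (nat_lit 252) (nat_lit 0) (XT.lf (nat_lit 0) (nat_lit 30743458378) (nat_lit 84) (nat_lit 108440310746) (nat_lit 168) (nat_lit 8289354234) (nat_lit 43) (nat_lit 5) (nat_lit 44) (nat_lit 5) (nat_lit 45) (nat_lit 4) (nat_lit 420) (nat_lit 388) (nat_lit 272)) (XT.lf (nat_lit 0) (nat_lit 33991296916) (nat_lit 168) (nat_lit 25891698620) (nat_lit 252) (nat_lit 95043737573) (nat_lit 40) (nat_lit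 5) (nat_lit 42) (nat_lit 5) (nat_lit 43) (nat_lit 5) (nat_lit 421) (nat_lit 388) (nat_lit 271))) (XT.nd (nat_lit 94) (nat_lit 252) (nat_lit 0) (XT.lf (nat_lit 0) (nat_lit 38119469694) (nat_lit 84) (nat_lit 98750928169) (nat_lit 168) (nat_lit 25916855066) (nat_lit 39) (nat_lit 5) (nat_lit 40) (nat_lit 5) (nat_lit 41) (nat_lit 4) (nat_lit 422) (nat_lit 388) (nat_lit 270)) (XT.lf (nat_lit 0) (nat_lit 43193345882) (nat_lit 168) (nat_lit 7237279137) (nat_lit 252) (nat_lit 120645418924) (nat_lit 36) (nat_lit 5) (nat_lit 38) (nat_lit 5) (nat_lit 39) (nat_lit 5) (nat_lit 423) (nat_lit 388) (nat_lit 269)))))) (XT.nd (nat_lit 658) (nat_lit 924) (nat_lit 0) (XT.nd (nat_lit 282) (nat_lit 588) (nat_lit 0) (XT.nd (nat_lit 94) (nat_lit 336) (nat_lit 0) (XT.lf (nat_lit 0) (nat_lit 48667831655) (nat_lit 84) (nat_lit 87717768657) (nat_lit 168) (nat_lit 43400709745) (nat_lit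 35) (nat_lit 5) (nat_lit 36) (nat_lit 5) (nat_lit 37) (nat_lit 4) (nat_lit 424) (nat_lit 388) (nat_lit 268)) (XT.nd (nat_lit 94) (nat_lit 84) (nat_lit 0) (XT.lf (nat_lit 0) (nat_lit 42214726961) (nat_lit 252) (nat_lit 133387731137) (nat_lit 84) (nat_lit 13386087592) (nat_lit 32) (nat_lit 5) (nat_lit 35) (nat_lit 5) (nat_lit 33) (nat_lit 4) (nat_lit 425) (nat_lit 388) (nat_lit 267)) (XT.lf (nat_lit 0) (nat_lit 62888734727) (nat_lit 84) (nat_lit 75071327453) (nat_lit 168) (nat_lit 60691262991) (nat_lit 31) (nat_lit 5) (nat_lit 32) (nat_lit 5) (nat_lit 33) (nat_lit 4) (nat_lit 426) (nat_lit 388) (nat_lit 266)))) (XT.nd (nat_lit 188) (nat_lit 252) (nat_lit 0) (XT.nd (nat_lit 94) (nat_lit 84) (nat_lit 0) (XT.lf (nat_lit 0) (nat_lit 35324402629) (nat_lit 252) (nat_lit 137042836600) (nat_lit 84) (nat_lit 36490710374) (nat_lit 28) (nat_lit 5) (nat_lit 31) (nat_lit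 5) (nat_lit 29) (nat_lit 4) (nat_lit 427) (nat_lit 388) (nat_lit 265)) (XT.lf (nat_lit 0) (nat_lit 81357483868) (nat_lit 84) (nat_lit 60504246484) (nat_lit 168) (nat_lit 77721289947) (nat_lit 27) (nat_lit 5) (nat_lit 28) (nat_lit 5) (nat_lit 29) (nat_lit 4) (nat_lit 428) (nat_lit 388) (nat_lit 264))) (XT.nd (nat_lit 94) (nat_lit 84) (nat_lit 0) (XT.lf (nat_lit 0) (nat_lit 29830263984) (nat_lit 168) (nat_lit 138333840478) (nat_lit 84) (nat_lit 62736952686) (nat_lit 25) (nat_lit 5) (nat_lit 27) (nat_lit 5) (nat_lit 26) (nat_lit 4) (nat_lit 429) (nat_lit 388) (nat_lit 263)) (XT.lf (nat_lit 0) (nat_lit 104734625348) (nat_lit 84) (nat_lit 43666100468) (nat_lit 168) (nat_lit 94403217205) (nat_lit 24) (nat_lit 5) (nat_lit 25) (nat_lit 5) (nat_lit 26) (nat_lit 4) (nat_lit 430) (nat_lit 388) (nat_lit 262))))) (XT.nd (nat_lit 282) (nat_lit 504) (nat_lit 0) (XT.nd (nat_lit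 94) (nat_lit 252) (nat_lit 0) (XT.lf (nat_lit 0) (nat_lit 25949255405) (nat_lit 168) (nat_lit 136792379604) (nat_lit 84) (nat_lit 92610331739) (nat_lit 22) (nat_lit 5) (nat_lit 24) (nat_lit 5) (nat_lit 23) (nat_lit 4) (nat_lit 431) (nat_lit 388) (nat_lit 261)) (XT.nd (nat_lit 94) (nat_lit 168) (nat_lit 0) (XT.lf (nat_lit 0) (nat_lit 133777391777) (nat_lit 84) (nat_lit 24157508663) (nat_lit 168) (nat_lit 110625932070) (nat_lit 21) (nat_lit 5) (nat_lit 22) (nat_lit 5) (nat_lit 23) (nat_lit 4) (nat_lit 432) (nat_lit 388) (nat_lit 260)) (XT.lf (nat_lit 0) (nat_lit 23936311041) (nat_lit 168) (nat_lit 131873320212) (nat_lit 84) (nat_lit 126660579279) (nat_lit 19) (nat_lit 5) (nat_lit 21) (nat_lit 5) (nat_lit 20) (nat_lit 4) (nat_lit 433) (nat_lit 388) (nat_lit 259)))) (XT.nd (nat_lit 188) (nat_lit 252) (nat_lit 0) (XT.nd (nat_lit 94) (nat_lit 168) (nat_lit 0) (XT.lf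 (nat_lit 0) (nat_lit 169352630818) (nat_lit 84) (nat_lit 1523487544) (nat_lit 168) (nat_lit 126251124513) (nat_lit 18) (nat_lit 5) (nat_lit 19) (nat_lit 5) (nat_lit 20) (nat_lit 4) (nat_lit 434) (nat_lit 388) (nat_lit 258)) (XT.lf (nat_lit 0) (nat_lit 24089637292) (nat_lit 168) (nat_lit 122943879135) (nat_lit 84) (nat_lit 165509995347) (nat_lit 16) (nat_lit 5) (nat_lit 18) (nat_lit 5) (nat_lit 17) (nat_lit 4) (nat_lit 435) (nat_lit 388) (nat_lit 257))) (XT.nd (nat_lit 94) (nat_lit 168) (nat_lit 0) (XT.lf (nat_lit 0) (nat_lit 188083832811) (nat_lit 168) (nat_lit 116741528427) (nat_lit 0) (nat_lit 23961766557) (nat_lit 15) (nat_lit 5) (nat_lit 17) (nat_lit 4) (nat_lit 15) (nat_lit 4) (nat_lit 436) (nat_lit 388) (nat_lit 256)) (XT.lf (nat_lit 0) (nat_lit 26756707249) (nat_lit 168) (nat_lit 109271287277) (nat_lit 84) (nat_lit 209862847539) (nat_lit 13) (nat_lit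 5) (nat_lit 15) (nat_lit 5) (nat_lit 14) (nat_lit 4) (nat_lit 437) (nat_lit 388) (nat_lit 255))))))) (XT.nd (nat_lit 1316) (nat_lit 0) (nat_lit 0) (XT.nd (nat_lit 658) (nat_lit 252) (nat_lit 0) (XT.nd (nat_lit 282) (nat_lit 504) (nat_lit 0) (XT.nd (nat_lit 94) (nat_lit 252) (nat_lit 0) (XT.lf (nat_lit 0) (nat_lit 209803537264) (nat_lit 168) (nat_lit 100592062564) (nat_lit 0) (nat_lit 53495943795) (nat_lit 12) (nat_lit 5) (nat_lit 14) (nat_lit 4) (nat_lit 12) (nat_lit 4) (nat_lit 438) (nat_lit 388) (nat_lit 254)) (XT.nd (nat_lit 94) (nat_lit 84) (nat_lit 0) (XT.lf (nat_lit 0) (nat_lit 32341058264) (nat_lit 168) (nat_lit 90008808509) (nat_lit 84) (nat_lit 260515944112) (nat_lit 10) (nat_lit 5) (nat_lit 12) (nat_lit 5) (nat_lit 11) (nat_lit 4) (nat_lit 439) (nat_lit 388) (nat_lit 253)) (XT.lf (nat_lit 0) (nat_lit 236642182587) (nat_lit 168) (nat_lit 78394621285)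 (nat_lit 0) (nat_lit 87777102629) (nat_lit 9) (nat_lit 5) (nat_lit 11) (nat_lit 4) (nat_lit 9) (nat_lit 4) (nat_lit 440) (nat_lit 388) (nat_lit 252)))) (XT.nd (nat_lit 188) (nat_lit 252) (nat_lit 0) (XT.nd (nat_lit 94) (nat_lit 84) (nat_lit 0) (XT.lf (nat_lit 0) (nat_lit 41309995200) (nat_lit 168) (nat_lit 64179903731) (nat_lit 84) (nat_lit 318370524745) (nat_lit 7) (nat_lit 5) (nat_lit 9) (nat_lit 5) (nat_lit 8) (nat_lit 4) (nat_lit 441) (nat_lit 388) (nat_lit 251)) (XT.lf (nat_lit 0) (nat_lit 269320313347) (nat_lit 168) (nat_lit 49103076190) (nat_lit 0) (nat_lit 127543470895) (nat_lit 6) (nat_lit 5) (nat_lit 8) (nat_lit 4) (nat_lit 6) (nat_lit 4) (nat_lit 442) (nat_lit 388) (nat_lit 250))) (XT.nd (nat_lit 94) (nat_lit 84) (nat_lit 0) (XT.lf (nat_lit 0) (nat_lit 54203314695) (nat_lit 168) (nat_lit 30660303658) (nat_lit 84) (nat_lit 384445630175) (nat_lit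 4) (nat_lit 5) (nat_lit 6) (nat_lit 5) (nat_lit 5) (nat_lit 4) (nat_lit 443) (nat_lit 388) (nat_lit 249)) (XT.lf (nat_lit 0) (nat_lit 308659980221) (nat_lit 168) (nat_lit 11513926920) (nat_lit 0) (nat_lit 173633945812) (nat_lit 3) (nat_lit 5) (nat_lit 5) (nat_lit 4) (nat_lit 3) (nat_lit 4) (nat_lit 444) (nat_lit 388) (nat_lit 248))))) (XT.nd (nat_lit 282) (nat_lit 0) (nat_lit 0) (XT.nd (nat_lit 94) (nat_lit 0) (nat_lit 0) (XT.lf (nat_lit 0) (nat_lit 753856699747) (nat_lit 0) (nat_lit 0) (nat_lit 0) (nat_lit 0) (nat_lit 0) (nat_lit 0) (nat_lit 1) (nat_lit 0) (nat_lit 1) (nat_lit 0) (nat_lit 445) (nat_lit 388) (nat_lit 247)) (XT.nd (nat_lit 94) (nat_lit 0) (nat_lit 0) (XT.lf (nat_lit 0) (nat_lit 813424145278) (nat_lit 0) (nat_lit 0) (nat_lit 0) (nat_lit 0) (nat_lit 0) (nat_lit 0) (nat_lit 1) (nat_lit 0) (nat_lit 1) (nat_lit 0) (nat_lit 446) (nat_lit 388) (nat_lit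 246)) (XT.lf (nat_lit 0) (nat_lit 877756988499) (nat_lit 0) (nat_lit 0) (nat_lit 0) (nat_lit 0) (nat_lit 0) (nat_lit 0) (nat_lit 1) (nat_lit 0) (nat_lit 1) (nat_lit 0) (nat_lit 447) (nat_lit 388) (nat_lit 245)))) (XT.nd (nat_lit 188) (nat_lit 0) (nat_lit 0) (XT.nd (nat_lit 94) (nat_lit 0) (nat_lit 0) (XT.lf (nat_lit 0) (nat_lit 947236461076) (nat_lit 0) (nat_lit 0) (nat_lit 0) (nat_lit 0) (nat_lit 0) (nat_lit 0) (nat_lit 1) (nat_lit 0) (nat_lit 1) (nat_lit 0) (nat_lit 448) (nat_lit 388) (nat_lit 244)) (XT.lf (nat_lit 0) (nat_lit 1022274293214) (nat_lit 0) (nat_lit 0) (nat_lit 0) (nat_lit 0) (nat_lit 0) (nat_lit 0) (nat_lit 1) (nat_lit 0) (nat_lit 1) (nat_lit 0) (nat_lit 449) (nat_lit 388) (nat_lit 243))) (XT.nd (nat_lit 94) (nat_lit 0) (nat_lit 0) (XT.lf (nat_lit 0) (nat_lit 1103315153549) (nat_lit 0) (nat_lit 0) (nat_lit 0) (nat_lit 0) (nat_lit 0) (nat_lit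 0) (nat_lit 1) (nat_lit 0) (nat_lit 1) (nat_lit 0) (nat_lit 450) (nat_lit 388) (nat_lit 242)) (XT.lf (nat_lit 0) (nat_lit 1190839284217) (nat_lit 0) (nat_lit 0) (nat_lit 0) (nat_lit 0) (nat_lit 0) (nat_lit 0) (nat_lit 1) (nat_lit 0) (nat_lit 1) (nat_lit 0) (nat_lit 451) (nat_lit 388) (nat_lit 241)))))) (XT.nd (nat_lit 658) (nat_lit 0) (nat_lit 0) (XT.nd (nat_lit 282) (nat_lit 0) (nat_lit 0) (XT.nd (nat_lit 94) (nat_lit 0) (nat_lit 0) (XT.lf (nat_lit 0) (nat_lit 1285365346733) (nat_lit 0) (nat_lit 0) (nat_lit 0) (nat_lit 0) (nat_lit 0) (nat_lit 0) (nat_lit 1) (nat_lit 0) (nat_lit 1) (nat_lit 0) (nat_lit 452) (nat_lit 388) (nat_lit 240)) (XT.nd (nat_lit 94) (nat_lit 0) (nat_lit 0) (XT.lf (nat_lit 0) (nat_lit 1387453495540) (nat_lit 0) (nat_lit 0) (nat_lit 0) (nat_lit 0) (nat_lit 0) (nat_lit 0) (nat_lit 1) (nat_lit 0) (nat_lit 1) (nat_lit 0) (nat_lit 453) (nat_lit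 388) (nat_lit 239)) (XT.lf (nat_lit 0) (nat_lit 1497708697448) (nat_lit 0) (nat_lit 0) (nat_lit 0) (nat_lit 0) (nat_lit 0) (nat_lit 0) (nat_lit 1) (nat_lit 0) (nat_lit 1) (nat_lit 0) (nat_lit 454) (nat_lit 388) (nat_lit 238)))) (XT.nd (nat_lit 188) (nat_lit 0) (nat_lit 0) (XT.nd (nat_lit 94) (nat_lit 0) (nat_lit 0) (XT.lf (nat_lit 0) (nat_lit 1616784316614) (nat_lit 0) (nat_lit 0) (nat_lit 0) (nat_lit 0) (nat_lit 0) (nat_lit 0) (nat_lit 1) (nat_lit 0) (nat_lit 1) (nat_lit 0) (nat_lit 455) (nat_lit 388) (nat_lit 237)) (XT.lf (nat_lit 0) (nat_lit 1745385986339) (nat_lit 0) (nat_lit 0) (nat_lit 0) (nat_lit 0) (nat_lit 0) (nat_lit 0) (nat_lit 1) (nat_lit 0) (nat_lit 1) (nat_lit 0) (nat_lit 456) (nat_lit 388) (nat_lit 236))) (XT.nd (nat_lit 94) (nat_lit 0) (nat_lit 0) (XT.lf (nat_lit 0) (nat_lit 1884275790590) (nat_lit 0) (nat_lit 0) (nat_lit 0) (nat_lit 0) (nat_lit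 0) (nat_lit 0) (nat_lit 1) (nat_lit 0) (nat_lit 1) (nat_lit 0) (nat_lit 457) (nat_lit 388) (nat_lit 235)) (XT.lf (nat_lit 0) (nat_lit 2034276780060) (nat_lit 0) (nat_lit 0) (nat_lit 0) (nat_lit 0) (nat_lit 0) (nat_lit 0) (nat_lit 1) (nat_lit 0) (nat_lit 1) (nat_lit 0) (nat_lit 458) (nat_lit 388) (nat_lit 234))))) (XT.nd (nat_lit 376) (nat_lit 0) (nat_lit 0) (XT.nd (nat_lit 188) (nat_lit 0) (nat_lit 0) (XT.nd (nat_lit 94) (nat_lit 0) (nat_lit 0) (XT.lf (nat_lit 0) (nat_lit 2196277849501) (nat_lit 0) (nat_lit 0) (nat_lit 0) (nat_lit 0) (nat_lit 0) (nat_lit 0) (nat_lit 1) (nat_lit 0) (nat_lit 1) (nat_lit 0) (nat_lit 459) (nat_lit 388) (nat_lit 233)) (XT.lf (nat_lit 0) (nat_lit 2371239005251) (nat_lit 0) (nat_lit 0) (nat_lit 0) (nat_lit 0) (nat_lit 0) (nat_lit 0) (nat_lit 1) (nat_lit 0) (nat_lit 1) (nat_lit 0) (nat_lit 460) (nat_lit 388) (nat_lit 232))) (XT.nd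 (nat_lit 94) (nat_lit 0) (nat_lit 0) (XT.lf (nat_lit 0) (nat_lit 2560197054158) (nat_lit 0) (nat_lit 0) (nat_lit 0) (nat_lit 0) (nat_lit 0) (nat_lit 0) (nat_lit 1) (nat_lit 0) (nat_lit 1) (nat_lit 0) (nat_lit 461) (nat_lit 388) (nat_lit 231)) (XT.lf (nat_lit 0) (nat_lit 2764271747623) (nat_lit 0) (nat_lit 0) (nat_lit 0) (nat_lit 0) (nat_lit 0) (nat_lit 0) (nat_lit 1) (nat_lit 0) (nat_lit 1) (nat_lit 0) (nat_lit 462) (nat_lit 388) (nat_lit 230)))) (XT.nd (nat_lit 188) (nat_lit 0) (nat_lit 0) (XT.nd (nat_lit 94) (nat_lit 0) (nat_lit 0) (XT.lf (nat_lit 0) (nat_lit 2984672417163) (nat_lit 0) (nat_lit 0) (nat_lit 0) (nat_lit 0) (nat_lit 0) (nat_lit 0) (nat_lit 1) (nat_lit 0) (nat_lit 1) (nat_lit 0) (nat_lit 463) (nat_lit 388) (nat_lit 229)) (XT.lf (nat_lit 0) (nat_lit 3222705140820) (nat_lit 0) (nat_lit 0) (nat_lit 0) (nat_lit 0) (nat_lit 0) (nat_lit 0) (nat_lit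 1) (nat_lit 0) (nat_lit 1) (nat_lit 0) (nat_lit 464) (nat_lit 388) (nat_lit 228))) (XT.nd (nat_lit 94) (nat_lit 0) (nat_lit 0) (XT.lf (nat_lit 0) (nat_lit 3479780482883) (nat_lit 0) (nat_lit 0) (nat_lit 0) (nat_lit 0) (nat_lit 0) (nat_lit 0) (nat_lit 1) (nat_lit 0) (nat_lit 1) (nat_lit 0) (nat_lit 465) (nat_lit 388) (nat_lit 227)) (XT.lf (nat_lit 0) (nat_lit 3757421852785) (nat_lit 0) (nat_lit 0) (nat_lit 0) (nat_lit 0) (nat_lit 0) (nat_lit 0) (nat_lit 1) (nat_lit 0) (nat_lit 1) (nat_lit 0) (nat_lit 466) (nat_lit 388) (nat_lit 226))))))))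
noncomputable def xc152 : XT := (XT.nd (nat_lit 2632) (nat_lit 0) (nat_lit 0) (XT.nd (nat_lit 1316) (nat_lit 0) (nat_lit 0) (XT.nd (nat_lit 658) (nat_lit 0) (nat_lit 0) (XT.nd (nat_lit 282) (nat_lit 0) (nat_lit 0) (XT.nd (nat_lit 94) (nat_lit 0) (nat_lit 0) (XT.lf (nat_lit 0) (nat_lit 4057274532718) (nat_lit 0) (nat_lit 0) (nat_lit 0) (nat_lit 0) (nat_lit 0) (nat_lit 0) (nat_lit 1) (nat_lit 0) (nat_lit 1) (nat_lit 0) (nat_lit 467) (nat_lit 388) (nat_lit 225)) (XT.nd (nat_lit 94) (nat_lit 0) (nat_lit 0) (XT.lf (nat_lit 0) (nat_lit 4381115427454) (nat_lit 0) (nat_lit 0) (nat_lit 0) (nat_lit 0) (nat_lit 0) (nat_lit 0) (nat_lit 1) (nat_lit 0) (nat_lit 1) (nat_lit 0) (nat_lit 468) (nat_lit 388) (nat_lit 224)) (XT.lf (nat_lit 0) (nat_lit 4730863594144) (nat_lit 0) (nat_lit 0) (nat_lit 0) (nat_lit 0) (nat_lit 0) (nat_lit 0) (nat_lit 1) (nat_lit 0) (nat_lit 1) (nat_lit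 0) (nat_lit 469) (nat_lit 388) (nat_lit 223)))) (XT.nd (nat_lit 188) (nat_lit 0) (nat_lit 0) (XT.nd (nat_lit 94) (nat_lit 0) (nat_lit 0) (XT.lf (nat_lit 0) (nat_lit 5108591614519) (nat_lit 0) (nat_lit 0) (nat_lit 0) (nat_lit 0) (nat_lit 0) (nat_lit 0) (nat_lit 1) (nat_lit 0) (nat_lit 1) (nat_lit 0) (nat_lit 470) (nat_lit 388) (nat_lit 222)) (XT.lf (nat_lit 0) (nat_lit 5516537876847) (nat_lit 0) (nat_lit 0) (nat_lit 0) (nat_lit 0) (nat_lit 0) (nat_lit 0) (nat_lit 1) (nat_lit 0) (nat_lit 1) (nat_lit 0) (nat_lit 471) (nat_lit 388) (nat_lit 221))) (XT.nd (nat_lit 94) (nat_lit 0) (nat_lit 0) (XT.lf (nat_lit 0) (nat_lit 5957119840461) (nat_lit 0) (nat_lit 0) (nat_lit 0) (nat_lit 0) (nat_lit 0) (nat_lit 0) (nat_lit 1) (nat_lit 0) (nat_lit 1) (nat_lit 0) (nat_lit 472) (nat_lit 388) (nat_lit 220)) (XT.lf (nat_lit 0) (nat_lit 6432948361440) (nat_lit 0) (nat_lit 0) (nat_lit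 0) (nat_lit 0) (nat_lit 0) (nat_lit 0) (nat_lit 1) (nat_lit 0) (nat_lit 1) (nat_lit 0) (nat_lit 473) (nat_lit 388) (nat_lit 219))))) (XT.nd (nat_lit 282) (nat_lit 0) (nat_lit 0) (XT.nd (nat_lit 94) (nat_lit 0) (nat_lit 0) (XT.lf (nat_lit 0) (nat_lit 6946843164354) (nat_lit 0) (nat_lit 0) (nat_lit 0) (nat_lit 0) (nat_lit 0) (nat_lit 0) (nat_lit 1) (nat_lit 0) (nat_lit 1) (nat_lit 0) (nat_lit 474) (nat_lit 388) (nat_lit 218)) (XT.nd (nat_lit 94) (nat_lit 0) (nat_lit 0) (XT.lf (nat_lit 0) (nat_lit 7501849551739) (nat_lit 0) (nat_lit 0) (nat_lit 0) (nat_lit 0) (nat_lit 0) (nat_lit 0) (nat_lit 1) (nat_lit 0) (nat_lit 1) (nat_lit 0) (nat_lit 475) (nat_lit 388) (nat_lit 217)) (XT.lf (nat_lit 0) (nat_lit 8101256450334) (nat_lit 0) (nat_lit 0) (nat_lit 0) (nat_lit 0) (nat_lit 0) (nat_lit 0) (nat_lit 1) (nat_lit 0) (nat_lit 1) (nat_lit 0) (nat_lit 476) (nat_lit 388)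 (nat_lit 216)))) (XT.nd (nat_lit 188) (nat_lit 0) (nat_lit 0) (XT.nd (nat_lit 94) (nat_lit 0) (nat_lit 0) (XT.lf (nat_lit 0) (nat_lit 8748615901020) (nat_lit 0) (nat_lit 0) (nat_lit 0) (nat_lit 0) (nat_lit 0) (nat_lit 0) (nat_lit 1) (nat_lit 0) (nat_lit 1) (nat_lit 0) (nat_lit 477) (nat_lit 388) (nat_lit 215)) (XT.lf (nat_lit 0) (nat_lit 9447764107950) (nat_lit 0) (nat_lit 0) (nat_lit 0) (nat_lit 0) (nat_lit 0) (nat_lit 0) (nat_lit 1) (nat_lit 0) (nat_lit 1) (nat_lit 0) (nat_lit 478) (nat_lit 388) (nat_lit 214))) (XT.nd (nat_lit 94) (nat_lit 0) (nat_lit 0) (XT.lf (nat_lit 0) (nat_lit 10202844171609) (nat_lit 0) (nat_lit 0) (nat_lit 0) (nat_lit 0) (nat_lit 0) (nat_lit 0) (nat_lit 1) (nat_lit 0) (nat_lit 1) (nat_lit 0) (nat_lit 479) (nat_lit 388) (nat_lit 213)) (XT.lf (nat_lit 0) (nat_lit 11018330640522) (nat_lit 0) (nat_lit 0) (nat_lit 0) (nat_lit 0) (nat_lit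 0) (nat_lit 0) (nat_lit 1) (nat_lit 0) (nat_lit 1) (nat_lit 0) (nat_lit 480) (nat_lit 388) (nat_lit 212)))))) (XT.nd (nat_lit 658) (nat_lit 0) (nat_lit 0) (XT.nd (nat_lit 282) (nat_lit 0) (nat_lit 0) (XT.nd (nat_lit 94) (nat_lit 0) (nat_lit 0) (XT.lf (nat_lit 0) (nat_lit 11899056027098) (nat_lit 0) (nat_lit 0) (nat_lit 0) (nat_lit 0) (nat_lit 0) (nat_lit 0) (nat_lit 1) (nat_lit 0) (nat_lit 1) (nat_lit 0) (nat_lit 481) (nat_lit 388) (nat_lit 211)) (XT.nd (nat_lit 94) (nat_lit 0) (nat_lit 0) (XT.lf (nat_lit 0) (nat_lit 12850239444738) (nat_lit 0) (nat_lit 0) (nat_lit 0) (nat_lit 0) (nat_lit 0) (nat_lit 0) (nat_lit 1) (nat_lit 0) (nat_lit 1) (nat_lit 0) (nat_lit 482) (nat_lit 388) (nat_lit 210)) (XT.lf (nat_lit 0) (nat_lit 13877517535918) (nat_lit 0) (nat_lit 0) (nat_lit 0) (nat_lit 0) (nat_lit 0) (nat_lit 0) (nat_lit 1) (nat_lit 0) (nat_lit 1) (nat_lit 0) (nat_lit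 483) (nat_lit 388) (nat_lit 209)))) (XT.nd (nat_lit 188) (nat_lit 0) (nat_lit 0) (XT.nd (nat_lit 94) (nat_lit 0) (nat_lit 0) (XT.lf (nat_lit 0) (nat_lit 14986977874511) (nat_lit 0) (nat_lit 0) (nat_lit 0) (nat_lit 0) (nat_lit 0) (nat_lit 0) (nat_lit 1) (nat_lit 0) (nat_lit 1) (nat_lit 0) (nat_lit 484) (nat_lit 388) (nat_lit 208)) (XT.lf (nat_lit 0) (nat_lit 16185195040301) (nat_lit 0) (nat_lit 0) (nat_lit 0) (nat_lit 0) (nat_lit 0) (nat_lit 0) (nat_lit 1) (nat_lit 0) (nat_lit 1) (nat_lit 0) (nat_lit 485) (nat_lit 388) (nat_lit 207))) (XT.nd (nat_lit 94) (nat_lit 0) (nat_lit 0) (XT.lf (nat_lit 0) (nat_lit 17479269579457) (nat_lit 0) (nat_lit 0) (nat_lit 0) (nat_lit 0) (nat_lit 0) (nat_lit 0) (nat_lit 1) (nat_lit 0) (nat_lit 1) (nat_lit 0) (nat_lit 486) (nat_lit 388) (nat_lit 206)) (XT.lf (nat_lit 0) (nat_lit 18876870081839) (nat_lit 0) (nat_lit 0) (nat_lit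 0) (nat_lit 0) (nat_lit 0) (nat_lit 0) (nat_lit 1) (nat_lit 0) (nat_lit 1) (nat_lit 0) (nat_lit 487) (nat_lit 388) (nat_lit 205))))) (XT.nd (nat_lit 282) (nat_lit 0) (nat_lit 0) (XT.nd (nat_lit 94) (nat_lit 0) (nat_lit 0) (XT.lf (nat_lit 0) (nat_lit 20386278624499) (nat_lit 0) (nat_lit 0) (nat_lit 0) (nat_lit 0) (nat_lit 0) (nat_lit 0) (nat_lit 1) (nat_lit 0) (nat_lit 1) (nat_lit 0) (nat_lit 488) (nat_lit 388) (nat_lit 204)) (XT.nd (nat_lit 94) (nat_lit 0) (nat_lit 0) (XT.lf (nat_lit 0) (nat_lit 22016439850653) (nat_lit 0) (nat_lit 0) (nat_lit 0) (nat_lit 0) (nat_lit 0) (nat_lit 0) (nat_lit 1) (nat_lit 0) (nat_lit 1) (nat_lit 0) (nat_lit 489) (nat_lit 388) (nat_lit 203)) (XT.lf (nat_lit 0) (nat_lit 23777013974974) (nat_lit 0) (nat_lit 0) (nat_lit 0) (nat_lit 0) (nat_lit 0) (nat_lit 0) (nat_lit 1) (nat_lit 0) (nat_lit 1) (nat_lit 0) (nat_lit 490) (nat_lit 388)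 (nat_lit 202)))) (XT.nd (nat_lit 188) (nat_lit 0) (nat_lit 0) (XT.nd (nat_lit 94) (nat_lit 0) (nat_lit 0) (XT.lf (nat_lit 0) (nat_lit 25678434029310) (nat_lit 0) (nat_lit 0) (nat_lit 0) (nat_lit 0) (nat_lit 0) (nat_lit 0) (nat_lit 1) (nat_lit 0) (nat_lit 1) (nat_lit 0) (nat_lit 491) (nat_lit 388) (nat_lit 201)) (XT.lf (nat_lit 0) (nat_lit 27731967688056) (nat_lit 0) (nat_lit 0) (nat_lit 0) (nat_lit 0) (nat_lit 0) (nat_lit 0) (nat_lit 1) (nat_lit 0) (nat_lit 1) (nat_lit 0) (nat_lit 492) (nat_lit 388) (nat_lit 200))) (XT.nd (nat_lit 94) (nat_lit 0) (nat_lit 0) (XT.lf (nat_lit 0) (nat_lit 29949784039563) (nat_lit 0) (nat_lit 0) (nat_lit 0) (nat_lit 0) (nat_lit 0) (nat_lit 0) (nat_lit 1) (nat_lit 0) (nat_lit 1) (nat_lit 0) (nat_lit 493) (nat_lit 388) (nat_lit 199)) (XT.lf (nat_lit 0) (nat_lit 32345025699244) (nat_lit 0) (nat_lit 0) (nat_lit 0) (nat_lit 0) (nat_lit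 0) (nat_lit 0) (nat_lit 1) (nat_lit 0) (nat_lit 1) (nat_lit 0) (nat_lit 494) (nat_lit 388) (nat_lit 198))))))) (XT.nd (nat_lit 58186) (nat_lit 0) (nat_lit 6804) (XT.nd (nat_lit 658) (nat_lit 0) (nat_lit 0) (XT.nd (nat_lit 282) (nat_lit 0) (nat_lit 0) (XT.nd (nat_lit 94) (nat_lit 0) (nat_lit 0) (XT.lf (nat_lit 0) (nat_lit 34931886691751) (nat_lit 0) (nat_lit 0) (nat_lit 0) (nat_lit 0) (nat_lit 0) (nat_lit 0) (nat_lit 1) (nat_lit 0) (nat_lit 1) (nat_lit 0) (nat_lit 495) (nat_lit 388) (nat_lit 197)) (XT.nd (nat_lit 94) (nat_lit 0) (nat_lit 0) (XT.lf (nat_lit 0) (nat_lit 37725696563706) (nat_lit 0) (nat_lit 0) (nat_lit 0) (nat_lit 0) (nat_lit 0) (nat_lit 0) (nat_lit 1) (nat_lit 0) (nat_lit 1) (nat_lit 0) (nat_lit 496) (nat_lit 388) (nat_lit 196)) (XT.lf (nat_lit 0) (nat_lit 40743011225461) (nat_lit 0) (nat_lit 0) (nat_lit 0) (nat_lit 0) (nat_lit 0) (nat_lit 0)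 (nat_lit 1) (nat_lit 0) (nat_lit 1) (nat_lit 0) (nat_lit 497) (nat_lit 388) (nat_lit 195)))) (XT.nd (nat_lit 188) (nat_lit 0) (nat_lit 0) (XT.nd (nat_lit 94) (nat_lit 0) (nat_lit 0) (XT.lf (nat_lit 0) (nat_lit 44001711060196) (nat_lit 0) (nat_lit 0) (nat_lit 0) (nat_lit 0) (nat_lit 0) (nat_lit 0) (nat_lit 1) (nat_lit 0) (nat_lit 1) (nat_lit 0) (nat_lit 498) (nat_lit 388) (nat_lit 194)) (XT.lf (nat_lit 0) (nat_lit 47521106881748) (nat_lit 0) (nat_lit 0) (nat_lit 0) (nat_lit 0) (nat_lit 0) (nat_lit 0) (nat_lit 1) (nat_lit 0) (nat_lit 1) (nat_lit 0) (nat_lit 499) (nat_lit 388) (nat_lit 193))) (XT.nd (nat_lit 94) (nat_lit 0) (nat_lit 0) (XT.lf (nat_lit 0) (nat_lit 51322054369059) (nat_lit 0) (nat_lit 0) (nat_lit 0) (nat_lit 0) (nat_lit 0) (nat_lit 0) (nat_lit 1) (nat_lit 0) (nat_lit 1) (nat_lit 0) (nat_lit 500) (nat_lit 388) (nat_lit 192)) (XT.lf (nat_lit 0) (nat_lit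 55427077655387) (nat_lit 0) (nat_lit 0) (nat_lit 0) (nat_lit 0) (nat_lit 0) (nat_lit 0) (nat_lit 1) (nat_lit 0) (nat_lit 1) (nat_lit 0) (nat_lit 501) (nat_lit 388) (nat_lit 191))))) (XT.nd (nat_lit 57152) (nat_lit 0) (nat_lit 10752) (XT.nd (nat_lit 94) (nat_lit 0) (nat_lit 0) (XT.lf (nat_lit 0) (nat_lit 59860502804650) (nat_lit 0) (nat_lit 0) (nat_lit 0) (nat_lit 0) (nat_lit 0) (nat_lit 0) (nat_lit 1) (nat_lit 0) (nat_lit 1) (nat_lit 0) (nat_lit 502) (nat_lit 388) (nat_lit 190)) (XT.nd (nat_lit 94) (nat_lit 0) (nat_lit 0) (XT.lf (nat_lit 0) (nat_lit 64648601965883) (nat_lit 0) (nat_lit 0) (nat_lit 0) (nat_lit 0) (nat_lit 0) (nat_lit 0) (nat_lit 1) (nat_lit 0) (nat_lit 1) (nat_lit 0) (nat_lit 503) (nat_lit 388) (nat_lit 189)) (XT.lf (nat_lit 0) (nat_lit 69819749060039) (nat_lit 0) (nat_lit 0) (nat_lit 0) (nat_lit 0) (nat_lit 0) (nat_lit 0) (nat_lit 1) (nat_lit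 0) (nat_lit 1) (nat_lit 0) (nat_lit 504) (nat_lit 388) (nat_lit 188)))) (XT.nd (nat_lit 188) (nat_lit 0) (nat_lit 84) (XT.nd (nat_lit 94) (nat_lit 0) (nat_lit 84) (XT.lf (nat_lit 0) (nat_lit 8578576914) (nat_lit 924) (nat_lit 5169584753) (nat_lit 924) (nat_lit 5169584753) (nat_lit 128) (nat_lit 3) (nat_lit 139) (nat_lit 3) (nat_lit 139) (nat_lit 5) (nat_lit 389) (nat_lit 389) (nat_lit 302)) (XT.lf (nat_lit 0) (nat_lit 18272434802) (nat_lit 840) (nat_lit 18778553975) (nat_lit 924) (nat_lit 2276474038) (nat_lit 129) (nat_lit 5) (nat_lit 139) (nat_lit 5) (nat_lit 140) (nat_lit 5) (nat_lit 390) (nat_lit 389) (nat_lit 301))) (XT.nd (nat_lit 94) (nat_lit 0) (nat_lit 84) (XT.lf (nat_lit 84) (nat_lit 13302371358) (nat_lit 0) (nat_lit 7021849782) (nat_lit 924) (nat_lit 20572205102) (nat_lit 130) (nat_lit 5) (nat_lit 129) (nat_lit 5) (nat_lit 140) (nat_lit 5) (nat_lit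 391) (nat_lit 389) (nat_lit 300)) (XT.lf (nat_lit 84) (nat_lit 5825737340) (nat_lit 0) (nat_lit 17527962705) (nat_lit 924) (nat_lit 19196529214) (nat_lit 131) (nat_lit 5) (nat_lit 130) (nat_lit 5) (nat_lit 141) (nat_lit 5) (nat_lit 392) (nat_lit 389) (nat_lit 299)))))) (XT.nd (nat_lit 658) (nat_lit 2100) (nat_lit 0) (XT.nd (nat_lit 282) (nat_lit 2100) (nat_lit 0) (XT.nd (nat_lit 94) (nat_lit 0) (nat_lit 84) (XT.lf (nat_lit 0) (nat_lit 27459484041) (nat_lit 840) (nat_lit 1771819812) (nat_lit 924) (nat_lit 15063335327) (nat_lit 131) (nat_lit 5) (nat_lit 141) (nat_lit 5) (nat_lit 142) (nat_lit 5) (nat_lit 393) (nat_lit 389) (nat_lit 298)) (XT.nd (nat_lit 94) (nat_lit 0) (nat_lit 0) (XT.lf (nat_lit 0) (nat_lit 32823016057) (nat_lit 840) (nat_lit 9342398243) (nat_lit 924) (nat_lit 3966723328) (nat_lit 132) (nat_lit 5) (nat_lit 142) (nat_lit 5) (nat_lit 143) (nat_lit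 5) (nat_lit 394) (nat_lit 389) (nat_lit 297)) (XT.lf (nat_lit 84) (nat_lit 30874842202) (nat_lit 0) (nat_lit 8741784658) (nat_lit 924) (nat_lit 8449959281) (nat_lit 133) (nat_lit 5) (nat_lit 132) (nat_lit 5) (nat_lit 143) (nat_lit 5) (nat_lit 395) (nat_lit 389) (nat_lit 296)))) (XT.nd (nat_lit 188) (nat_lit 840) (nat_lit 0) (XT.nd (nat_lit 94) (nat_lit 588) (nat_lit 0) (XT.lf (nat_lit 0) (nat_lit 24856806777) (nat_lit 840) (nat_lit 23072541771) (nat_lit 924) (nat_lit 2177660885) (nat_lit 123) (nat_lit 5) (nat_lit 133) (nat_lit 5) (nat_lit 134) (nat_lit 5) (nat_lit 396) (nat_lit 389) (nat_lit 295)) (XT.lf (nat_lit 0) (nat_lit 5407502067) (nat_lit 588) (nat_lit 33518934027) (nat_lit 84) (nat_lit 13332732601) (nat_lit 116) (nat_lit 5) (nat_lit 123) (nat_lit 5) (nat_lit 117) (nat_lit 5) (nat_lit 397) (nat_lit 389) (nat_lit 294))) (XT.nd (nat_lit 94) (nat_lit 420)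 (nat_lit 0) (XT.lf (nat_lit 0) (nat_lit 12554500251) (nat_lit 420) (nat_lit 1997359013) (nat_lit 504) (nat_lit 39978422674) (nat_lit 111) (nat_lit 5) (nat_lit 116) (nat_lit 5) (nat_lit 117) (nat_lit 5) (nat_lit 398) (nat_lit 389) (nat_lit 293)) (XT.lf (nat_lit 0) (nat_lit 6148129992) (nat_lit 420) (nat_lit 19556392023) (nat_lit 504) (nat_lit 31214724376) (nat_lit 106) (nat_lit 5) (nat_lit 111) (nat_lit 5) (nat_lit 112) (nat_lit 5) (nat_lit 399) (nat_lit 389) (nat_lit 292))))) (XT.nd (nat_lit 282) (nat_lit 1344) (nat_lit 0) (XT.nd (nat_lit 94) (nat_lit 756) (nat_lit 0) (XT.lf (nat_lit 0) (nat_lit 38838773142) (nat_lit 504) (nat_lit 208445446) (nat_lit 84) (nat_lit 20397640645) (nat_lit 106) (nat_lit 5) (nat_lit 112) (nat_lit 5) (nat_lit 107) (nat_lit 5) (nat_lit 400) (nat_lit 389) (nat_lit 291)) (XT.nd (nat_lit 94) (nat_lit 420) (nat_lit 0) (XT.lf (nat_lit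 0) (nat_lit 54247351707) (nat_lit 420) (nat_lit 6285063195) (nat_lit 84) (nat_lit 1578926833) (nat_lit 102) (nat_lit 5) (nat_lit 107) (nat_lit 5) (nat_lit 103) (nat_lit 5) (nat_lit 401) (nat_lit 389) (nat_lit 290)) (XT.lf (nat_lit 0) (nat_lit 7209267106) (nat_lit 420) (nat_lit 12659609289) (nat_lit 84) (nat_lit 45042635168) (nat_lit 97) (nat_lit 5) (nat_lit 102) (nat_lit 5) (nat_lit 98) (nat_lit 5) (nat_lit 402) (nat_lit 389) (nat_lit 289)))) (XT.nd (nat_lit 188) (nat_lit 672) (nat_lit 0) (XT.nd (nat_lit 94) (nat_lit 336) (nat_lit 0) (XT.lf (nat_lit 0) (nat_lit 24484734534) (nat_lit 420) (nat_lit 19074887960) (nat_lit 84) (nat_lit 24306033308) (nat_lit 93) (nat_lit 5) (nat_lit 98) (nat_lit 5) (nat_lit 94) (nat_lit 5) (nat_lit 403) (nat_lit 389) (nat_lit 288)) (XT.lf (nat_lit 0) (nat_lit 44431373768) (nat_lit 420) (nat_lit 25328865337) (nat_lit 84) (nat_lit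 1231435756) (nat_lit 89) (nat_lit 5) (nat_lit 94) (nat_lit 5) (nat_lit 90) (nat_lit 5) (nat_lit 404) (nat_lit 389) (nat_lit 287))) (XT.nd (nat_lit 94) (nat_lit 420) (nat_lit 0) (XT.lf (nat_lit 0) (nat_lit 42526739512) (nat_lit 252) (nat_lit 25180199511) (nat_lit 336) (nat_lit 6574176676) (nat_lit 86) (nat_lit 5) (nat_lit 89) (nat_lit 5) (nat_lit 90) (nat_lit 5) (nat_lit 405) (nat_lit 389) (nat_lit 286)) (XT.lf (nat_lit 0) (nat_lit 15979462548) (nat_lit 420) (nat_lit 38212141131) (nat_lit 84) (nat_lit 23557936794) (nat_lit 81) (nat_lit 5) (nat_lit 86) (nat_lit 5) (nat_lit 82) (nat_lit 5) (nat_lit 406) (nat_lit 389) (nat_lit 285))))))))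
noncomputable def xc153 : XT := (XT.nd (nat_lit 2632) (nat_lit 1596) (nat_lit 0) (XT.nd (nat_lit 1316) (nat_lit 2100) (nat_lit 0) (XT.nd (nat_lit 658) (nat_lit 1344) (nat_lit 0) (XT.nd (nat_lit 282) (nat_lit 924) (nat_lit 0) (XT.nd (nat_lit 94) (nat_lit 588) (nat_lit 0) (XT.lf (nat_lit 0) (nat_lit 36829096855) (nat_lit 252) (nat_lit 4840119642) (nat_lit 336) (nat_lit 39742726528) (nat_lit 78) (nat_lit 5) (nat_lit 81) (nat_lit 5) (nat_lit 82) (nat_lit 5) (nat_lit 407) (nat_lit 389) (nat_lit 284)) (XT.nd (nat_lit 94) (nat_lit 336) (nat_lit 0) (XT.lf (nat_lit 0) (nat_lit 34228363515) (nat_lit 252) (nat_lit 37150720170) (nat_lit 336) (nat_lit 13890007449) (nat_lit 75) (nat_lit 5) (nat_lit 78) (nat_lit 5) (nat_lit 79) (nat_lit 5) (nat_lit 408) (nat_lit 389) (nat_lit 283)) (XT.lf (nat_lit 0) (nat_lit 15224032423) (nat_lit 336) (nat_lit 57369574850) (nat_lit 84)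 (nat_lit 16748141680) (nat_lit 71) (nat_lit 5) (nat_lit 75) (nat_lit 5) (nat_lit 72) (nat_lit 5) (nat_lit 409) (nat_lit 389) (nat_lit 282)))) (XT.nd (nat_lit 188) (nat_lit 504) (nat_lit 0) (XT.nd (nat_lit 94) (nat_lit 168) (nat_lit 0) (XT.lf (nat_lit 0) (nat_lit 29828848682) (nat_lit 252) (nat_lit 18351636126) (nat_lit 336) (nat_lit 45448352962) (nat_lit 68) (nat_lit 5) (nat_lit 71) (nat_lit 5) (nat_lit 72) (nat_lit 5) (nat_lit 410) (nat_lit 389) (nat_lit 281)) (XT.lf (nat_lit 0) (nat_lit 28093997671) (nat_lit 168) (nat_lit 57759616367) (nat_lit 252) (nat_lit 12301271622) (nat_lit 66) (nat_lit 5) (nat_lit 68) (nat_lit 5) (nat_lit 69) (nat_lit 5) (nat_lit 411) (nat_lit 389) (nat_lit 280))) (XT.nd (nat_lit 94) (nat_lit 168) (nat_lit 0) (XT.lf (nat_lit 0) (nat_lit 24634758274) (nat_lit 336) (nat_lit 76176344589) (nat_lit 84) (nat_lit 2119108804) (nat_lit 62)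 (nat_lit 5) (nat_lit 66) (nat_lit 5) (nat_lit 63) (nat_lit 5) (nat_lit 412) (nat_lit 389) (nat_lit 279)) (XT.lf (nat_lit 0) (nat_lit 25397194138) (nat_lit 168) (nat_lit 41312022934) (nat_lit 252) (nat_lit 41237537518) (nat_lit 60) (nat_lit 5) (nat_lit 62) (nat_lit 5) (nat_lit 63) (nat_lit 5) (nat_lit 413) (nat_lit 389) (nat_lit 278))))) (XT.nd (nat_lit 282) (nat_lit 756) (nat_lit 0) (XT.nd (nat_lit 94) (nat_lit 336) (nat_lit 0) (XT.lf (nat_lit 0) (nat_lit 952441091) (nat_lit 252) (nat_lit 88342055191) (nat_lit 84) (nat_lit 23964646020) (nat_lit 57) (nat_lit 5) (nat_lit 60) (nat_lit 5) (nat_lit 58) (nat_lit 5) (nat_lit 414) (nat_lit 389) (nat_lit 277)) (XT.nd (nat_lit 94) (nat_lit 168) (nat_lit 0) (XT.lf (nat_lit 0) (nat_lit 24365319081) (nat_lit 168) (nat_lit 23263431190) (nat_lit 252) (nat_lit 71206174764) (nat_lit 55) (nat_lit 5) (nat_lit 57) (nat_lit 5)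 (nat_lit 58) (nat_lit 5) (nat_lit 415) (nat_lit 389) (nat_lit 276)) (XT.lf (nat_lit 0) (nat_lit 24468640859) (nat_lit 168) (nat_lit 76264949179) (nat_lit 252) (nat_lit 23988459056) (nat_lit 53) (nat_lit 5) (nat_lit 55) (nat_lit 5) (nat_lit 56) (nat_lit 5) (nat_lit 416) (nat_lit 389) (nat_lit 275)))) (XT.nd (nat_lit 188) (nat_lit 336) (nat_lit 0) (XT.nd (nat_lit 94) (nat_lit 168) (nat_lit 0) (XT.lf (nat_lit 0) (nat_lit 25262089893) (nat_lit 168) (nat_lit 3337632604) (nat_lit 252) (nat_lit 102336466546) (nat_lit 50) (nat_lit 5) (nat_lit 52) (nat_lit 5) (nat_lit 53) (nat_lit 5) (nat_lit 417) (nat_lit 389) (nat_lit 274)) (XT.lf (nat_lit 0) (nat_lit 26058998332) (nat_lit 168) (nat_lit 61864414469) (nat_lit 252) (nat_lit 49535940068) (nat_lit 48) (nat_lit 5) (nat_lit 50) (nat_lit 5) (nat_lit 51) (nat_lit 5) (nat_lit 418) (nat_lit 389) (nat_lit 273))) (XT.nd (nat_lit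 94) (nat_lit 168) (nat_lit 0) (XT.lf (nat_lit 0) (nat_lit 9910952110) (nat_lit 168) (nat_lit 116278792729) (nat_lit 84) (nat_lit 18175678714) (nat_lit 46) (nat_lit 5) (nat_lit 48) (nat_lit 5) (nat_lit 47) (nat_lit 5) (nat_lit 419) (nat_lit 389) (nat_lit 272)) (XT.lf (nat_lit 0) (nat_lit 30031756887) (nat_lit 168) (nat_lit 45852269117) (nat_lit 252) (nat_lit 75724054240) (nat_lit 44) (nat_lit 5) (nat_lit 46) (nat_lit 5) (nat_lit 47) (nat_lit 5) (nat_lit 420) (nat_lit 389) (nat_lit 271)))))) (XT.nd (nat_lit 658) (nat_lit 1008) (nat_lit 0) (XT.nd (nat_lit 282) (nat_lit 672) (nat_lit 0) (XT.nd (nat_lit 94) (nat_lit 336) (nat_lit 0) (XT.lf (nat_lit 0) (nat_lit 33260286464) (nat_lit 84) (nat_lit 117089830122) (nat_lit 168) (nat_lit 8919274344) (nat_lit 43) (nat_lit 5) (nat_lit 44) (nat_lit 5) (nat_lit 45) (nat_lit 4) (nat_lit 421) (nat_lit 389) (nat_lit 270)) (XT.nd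 (nat_lit 94) (nat_lit 84) (nat_lit 0) (XT.lf (nat_lit 0) (nat_lit 36766476955) (nat_lit 168) (nat_lit 27937812756) (nat_lit 252) (nat_lit 102615049321) (nat_lit 40) (nat_lit 5) (nat_lit 42) (nat_lit 5) (nat_lit 43) (nat_lit 5) (nat_lit 422) (nat_lit 389) (nat_lit 269)) (XT.lf (nat_lit 0) (nat_lit 41223564686) (nat_lit 84) (nat_lit 106626064927) (nat_lit 168) (nat_lit 27959123555) (nat_lit 39) (nat_lit 5) (nat_lit 40) (nat_lit 5) (nat_lit 41) (nat_lit 4) (nat_lit 423) (nat_lit 389) (nat_lit 268)))) (XT.nd (nat_lit 188) (nat_lit 336) (nat_lit 0) (XT.nd (nat_lit 94) (nat_lit 84) (nat_lit 0) (XT.lf (nat_lit 0) (nat_lit 46701932360) (nat_lit 168) (nat_lit 7791828628) (nat_lit 252) (nat_lit 130266932172) (nat_lit 36) (nat_lit 5) (nat_lit 38) (nat_lit 5) (nat_lit 39) (nat_lit 5) (nat_lit 424) (nat_lit 389) (nat_lit 267)) (XT.lf (nat_lit 0) (nat_lit 52613075595) (nat_lit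 84) (nat_lit 94711096047) (nat_lit 168) (nat_lit 46843657054) (nat_lit 35) (nat_lit 5) (nat_lit 36) (nat_lit 5) (nat_lit 37) (nat_lit 4) (nat_lit 425) (nat_lit 389) (nat_lit 266))) (XT.nd (nat_lit 94) (nat_lit 84) (nat_lit 0) (XT.lf (nat_lit 0) (nat_lit 45619151555) (nat_lit 252) (nat_lit 144007317156) (nat_lit 84) (nat_lit 14479798313) (nat_lit 32) (nat_lit 5) (nat_lit 35) (nat_lit 5) (nat_lit 33) (nat_lit 4) (nat_lit 426) (nat_lit 389) (nat_lit 265)) (XT.lf (nat_lit 0) (nat_lit 67969030786) (nat_lit 84) (nat_lit 81053832659) (nat_lit 168) (nat_lit 65519267926) (nat_lit 31) (nat_lit 5) (nat_lit 32) (nat_lit 5) (nat_lit 33) (nat_lit 4) (nat_lit 427) (nat_lit 389) (nat_lit 264))))) (XT.nd (nat_lit 282) (nat_lit 504) (nat_lit 0) (XT.nd (nat_lit 94) (nat_lit 252) (nat_lit 0) (XT.lf (nat_lit 0) (nat_lit 38175921980) (nat_lit 252) (nat_lit 147957462101) (nat_lit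 84) (nat_lit 39431923133) (nat_lit 28) (nat_lit 5) (nat_lit 31) (nat_lit 5) (nat_lit 29) (nat_lit 4) (nat_lit 428) (nat_lit 389) (nat_lit 263)) (XT.nd (nat_lit 94) (nat_lit 168) (nat_lit 0) (XT.lf (nat_lit 0) (nat_lit 87912763153) (nat_lit 84) (nat_lit 65322307719) (nat_lit 168) (nat_lit 83913370945) (nat_lit 27) (nat_lit 5) (nat_lit 28) (nat_lit 5) (nat_lit 29) (nat_lit 4) (nat_lit 429) (nat_lit 389) (nat_lit 262)) (XT.lf (nat_lit 0) (nat_lit 32240699189) (nat_lit 168) (nat_lit 149354267440) (nat_lit 84) (nat_lit 67776974386) (nat_lit 25) (nat_lit 5) (nat_lit 27) (nat_lit 5) (nat_lit 26) (nat_lit 4) (nat_lit 430) (nat_lit 389) (nat_lit 261)))) (XT.nd (nat_lit 188) (nat_lit 252) (nat_lit 0) (XT.nd (nat_lit 94) (nat_lit 168) (nat_lit 0) (XT.lf (nat_lit 0) (nat_lit 113157664368) (nat_lit 84) (nat_lit 47138045942) (nat_lit 168) (nat_lit 101931401831) (nat_lit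 24) (nat_lit 5) (nat_lit 25) (nat_lit 5) (nat_lit 26) (nat_lit 4) (nat_lit 431) (nat_lit 389) (nat_lit 260)) (XT.lf (nat_lit 0) (nat_lit 28047769913) (nat_lit 168) (nat_lit 147691900687) (nat_lit 84) (nat_lit 100039324782) (nat_lit 22) (nat_lit 5) (nat_lit 24) (nat_lit 5) (nat_lit 23) (nat_lit 4) (nat_lit 432) (nat_lit 389) (nat_lit 259))) (XT.nd (nat_lit 94) (nat_lit 168) (nat_lit 0) (XT.lf (nat_lit 0) (nat_lit 144521545898) (nat_lit 84) (nat_lit 26069703656) (nat_lit 168) (nat_lit 119453371703) (nat_lit 21) (nat_lit 5) (nat_lit 22) (nat_lit 5) (nat_lit 23) (nat_lit 4) (nat_lit 433) (nat_lit 389) (nat_lit 258)) (XT.lf (nat_lit 0) (nat_lit 25872451709) (nat_lit 168) (nat_lit 142381618284) (nat_lit 84) (nat_lit 136812695593) (nat_lit 19) (nat_lit 5) (nat_lit 21) (nat_lit 5) (nat_lit 20) (nat_lit 4) (nat_lit 434) (nat_lit 389) (nat_lit 257))))))) (XT.nd (nat_lit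 1316) (nat_lit 0) (nat_lit 0) (XT.nd (nat_lit 658) (nat_lit 756) (nat_lit 0) (XT.nd (nat_lit 282) (nat_lit 504) (nat_lit 0) (XT.nd (nat_lit 94) (nat_lit 252) (nat_lit 0) (XT.lf (nat_lit 0) (nat_lit 182940602354) (nat_lit 84) (nat_lit 1625889023) (nat_lit 168) (nat_lit 136329916751) (nat_lit 18) (nat_lit 5) (nat_lit 19) (nat_lit 5) (nat_lit 20) (nat_lit 4) (nat_lit 435) (nat_lit 389) (nat_lit 256)) (XT.nd (nat_lit 94) (nat_lit 84) (nat_lit 0) (XT.lf (nat_lit 0) (nat_lit 26036797727) (nat_lit 168) (nat_lit 132740016201) (nat_lit 84) (nat_lit 178769179314) (nat_lit 16) (nat_lit 5) (nat_lit 18) (nat_lit 5) (nat_lit 17) (nat_lit 4) (nat_lit 436) (nat_lit 389) (nat_lit 255)) (XT.lf (nat_lit 0) (nat_lit 203149926058) (nat_lit 168) (nat_lit 126042523571) (nat_lit 0) (nat_lit 25896679060) (nat_lit 15) (nat_lit 5) (nat_lit 17) (nat_lit 4) (nat_lit 15) (nat_lit 4) (nat_lit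 437) (nat_lit 389) (nat_lit 254)))) (XT.nd (nat_lit 188) (nat_lit 252) (nat_lit 0) (XT.nd (nat_lit 94) (nat_lit 84) (nat_lit 0) (XT.lf (nat_lit 0) (nat_lit 28916070448) (nat_lit 168) (nat_lit 117975706286) (nat_lit 84) (nat_lit 226669391365) (nat_lit 13) (nat_lit 5) (nat_lit 15) (nat_lit 5) (nat_lit 14) (nat_lit 4) (nat_lit 438) (nat_lit 389) (nat_lit 253)) (XT.lf (nat_lit 0) (nat_lit 226606085062) (nat_lit 168) (nat_lit 108603140422) (nat_lit 0) (nat_lit 57792728387) (nat_lit 12) (nat_lit 5) (nat_lit 14) (nat_lit 4) (nat_lit 12) (nat_lit 4) (nat_lit 439) (nat_lit 389) (nat_lit 252))) (XT.nd (nat_lit 94) (nat_lit 84) (nat_lit 0) (XT.lf (nat_lit 0) (nat_lit 34946082844) (nat_lit 168) (nat_lit 97174216476) (nat_lit 84) (nat_lit 281373889440) (nat_lit 10) (nat_lit 5) (nat_lit 12) (nat_lit 5) (nat_lit 11) (nat_lit 4) (nat_lit 440) (nat_lit 389) (nat_lit 251))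 (XT.lf (nat_lit 0) (nat_lit 255590772623) (nat_lit 168) (nat_lit 84631843025) (nat_lit 0) (nat_lit 94815542601) (nat_lit 9) (nat_lit 5) (nat_lit 11) (nat_lit 4) (nat_lit 9) (nat_lit 4) (nat_lit 441) (nat_lit 389) (nat_lit 250))))) (XT.nd (nat_lit 282) (nat_lit 336) (nat_lit 0) (XT.nd (nat_lit 94) (nat_lit 252) (nat_lit 0) (XT.lf (nat_lit 0) (nat_lit 44631517716) (nat_lit 168) (nat_lit 69280887853) (nat_lit 84) (nat_lit 343856015858) (nat_lit 7) (nat_lit 5) (nat_lit 9) (nat_lit 5) (nat_lit 8) (nat_lit 4) (nat_lit 442) (nat_lit 389) (nat_lit 249)) (XT.nd (nat_lit 94) (nat_lit 168) (nat_lit 0) (XT.lf (nat_lit 0) (nat_lit 290882170894) (nat_lit 168) (nat_lit 52998816219) (nat_lit 0) (nat_lit 137762410529) (nat_lit 6) (nat_lit 5) (nat_lit 8) (nat_lit 4) (nat_lit 6) (nat_lit 4) (nat_lit 443) (nat_lit 389) (nat_lit 248)) (XT.lf (nat_lit 0) (nat_lit 58555349752) (nat_lit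 168) (nat_lit 33081513135) (nat_lit 84) (nat_lit 415216337029) (nat_lit 4) (nat_lit 5) (nat_lit 6) (nat_lit 5) (nat_lit 5) (nat_lit 4) (nat_lit 444) (nat_lit 389) (nat_lit 247)))) (XT.nd (nat_lit 188) (nat_lit 0) (nat_lit 0) (XT.nd (nat_lit 94) (nat_lit 252) (nat_lit 0) (XT.lf (nat_lit 0) (nat_lit 333368089325) (nat_lit 168) (nat_lit 12404283304) (nat_lit 0) (nat_lit 187539343026) (nat_lit 3) (nat_lit 5) (nat_lit 5) (nat_lit 4) (nat_lit 3) (nat_lit 4) (nat_lit 445) (nat_lit 389) (nat_lit 246)) (XT.lf (nat_lit 0) (nat_lit 814165195763) (nat_lit 0) (nat_lit 0) (nat_lit 0) (nat_lit 0) (nat_lit 0) (nat_lit 0) (nat_lit 1) (nat_lit 0) (nat_lit 1) (nat_lit 0) (nat_lit 446) (nat_lit 389) (nat_lit 245))) (XT.nd (nat_lit 94) (nat_lit 0) (nat_lit 0) (XT.lf (nat_lit 0) (nat_lit 878498039897) (nat_lit 0) (nat_lit 0) (nat_lit 0) (nat_lit 0) (nat_lit 0) (nat_lit 0) (nat_lit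 1) (nat_lit 0) (nat_lit 1) (nat_lit 0) (nat_lit 447) (nat_lit 389) (nat_lit 244)) (XT.lf (nat_lit 0) (nat_lit 947977513317) (nat_lit 0) (nat_lit 0) (nat_lit 0) (nat_lit 0) (nat_lit 0) (nat_lit 0) (nat_lit 1) (nat_lit 0) (nat_lit 1) (nat_lit 0) (nat_lit 448) (nat_lit 389) (nat_lit 243)))))) (XT.nd (nat_lit 658) (nat_lit 0) (nat_lit 0) (XT.nd (nat_lit 282) (nat_lit 0) (nat_lit 0) (XT.nd (nat_lit 94) (nat_lit 0) (nat_lit 0) (XT.lf (nat_lit 0) (nat_lit 1023015346238) (nat_lit 0) (nat_lit 0) (nat_lit 0) (nat_lit 0) (nat_lit 0) (nat_lit 0) (nat_lit 1) (nat_lit 0) (nat_lit 1) (nat_lit 0) (nat_lit 449) (nat_lit 389) (nat_lit 242)) (XT.nd (nat_lit 94) (nat_lit 0) (nat_lit 0) (XT.lf (nat_lit 0) (nat_lit 1104056207297) (nat_lit 0) (nat_lit 0) (nat_lit 0) (nat_lit 0) (nat_lit 0) (nat_lit 0) (nat_lit 1) (nat_lit 0) (nat_lit 1) (nat_lit 0) (nat_lit 450) (nat_lit 389) (nat_lit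 241)) (XT.lf (nat_lit 0) (nat_lit 1191580338635) (nat_lit 0) (nat_lit 0) (nat_lit 0) (nat_lit 0) (nat_lit 0) (nat_lit 0) (nat_lit 1) (nat_lit 0) (nat_lit 1) (nat_lit 0) (nat_lit 451) (nat_lit 389) (nat_lit 240)))) (XT.nd (nat_lit 188) (nat_lit 0) (nat_lit 0) (XT.nd (nat_lit 94) (nat_lit 0) (nat_lit 0) (XT.lf (nat_lit 0) (nat_lit 1286106401771) (nat_lit 0) (nat_lit 0) (nat_lit 0) (nat_lit 0) (nat_lit 0) (nat_lit 0) (nat_lit 1) (nat_lit 0) (nat_lit 1) (nat_lit 0) (nat_lit 452) (nat_lit 389) (nat_lit 239)) (XT.lf (nat_lit 0) (nat_lit 1388194551153) (nat_lit 0) (nat_lit 0) (nat_lit 0) (nat_lit 0) (nat_lit 0) (nat_lit 0) (nat_lit 1) (nat_lit 0) (nat_lit 1) (nat_lit 0) (nat_lit 453) (nat_lit 389) (nat_lit 238))) (XT.nd (nat_lit 94) (nat_lit 0) (nat_lit 0) (XT.lf (nat_lit 0) (nat_lit 1498449753593) (nat_lit 0) (nat_lit 0) (nat_lit 0) (nat_lit 0) (nat_lit 0) (nat_lit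 0) (nat_lit 1) (nat_lit 0) (nat_lit 1) (nat_lit 0) (nat_lit 454) (nat_lit 389) (nat_lit 237)) (XT.lf (nat_lit 0) (nat_lit 1617525373252) (nat_lit 0) (nat_lit 0) (nat_lit 0) (nat_lit 0) (nat_lit 0) (nat_lit 0) (nat_lit 1) (nat_lit 0) (nat_lit 1) (nat_lit 0) (nat_lit 455) (nat_lit 389) (nat_lit 236))))) (XT.nd (nat_lit 376) (nat_lit 0) (nat_lit 0) (XT.nd (nat_lit 188) (nat_lit 0) (nat_lit 0) (XT.nd (nat_lit 94) (nat_lit 0) (nat_lit 0) (XT.lf (nat_lit 0) (nat_lit 1746127043433) (nat_lit 0) (nat_lit 0) (nat_lit 0) (nat_lit 0) (nat_lit 0) (nat_lit 0) (nat_lit 1) (nat_lit 0) (nat_lit 1) (nat_lit 0) (nat_lit 456) (nat_lit 389) (nat_lit 235)) (XT.lf (nat_lit 0) (nat_lit 1885016848106) (nat_lit 0) (nat_lit 0) (nat_lit 0) (nat_lit 0) (nat_lit 0) (nat_lit 0) (nat_lit 1) (nat_lit 0) (nat_lit 1) (nat_lit 0) (nat_lit 457) (nat_lit 389) (nat_lit 234))) (XT.nd (nat_lit 94)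 (nat_lit 0) (nat_lit 0) (XT.lf (nat_lit 0) (nat_lit 2035017837968) (nat_lit 0) (nat_lit 0) (nat_lit 0) (nat_lit 0) (nat_lit 0) (nat_lit 0) (nat_lit 1) (nat_lit 0) (nat_lit 1) (nat_lit 0) (nat_lit 458) (nat_lit 389) (nat_lit 233)) (XT.lf (nat_lit 0) (nat_lit 2197018907771) (nat_lit 0) (nat_lit 0) (nat_lit 0) (nat_lit 0) (nat_lit 0) (nat_lit 0) (nat_lit 1) (nat_lit 0) (nat_lit 1) (nat_lit 0) (nat_lit 459) (nat_lit 389) (nat_lit 232)))) (XT.nd (nat_lit 188) (nat_lit 0) (nat_lit 0) (XT.nd (nat_lit 94) (nat_lit 0) (nat_lit 0) (XT.lf (nat_lit 0) (nat_lit 2371980063856) (nat_lit 0) (nat_lit 0) (nat_lit 0) (nat_lit 0) (nat_lit 0) (nat_lit 0) (nat_lit 1) (nat_lit 0) (nat_lit 1) (nat_lit 0) (nat_lit 460) (nat_lit 389) (nat_lit 231)) (XT.lf (nat_lit 0) (nat_lit 2560938113073) (nat_lit 0) (nat_lit 0) (nat_lit 0) (nat_lit 0) (nat_lit 0) (nat_lit 0) (nat_lit 1) (nat_lit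 0) (nat_lit 1) (nat_lit 0) (nat_lit 461) (nat_lit 389) (nat_lit 230))) (XT.nd (nat_lit 94) (nat_lit 0) (nat_lit 0) (XT.lf (nat_lit 0) (nat_lit 2765012806826) (nat_lit 0) (nat_lit 0) (nat_lit 0) (nat_lit 0) (nat_lit 0) (nat_lit 0) (nat_lit 1) (nat_lit 0) (nat_lit 1) (nat_lit 0) (nat_lit 462) (nat_lit 389) (nat_lit 229)) (XT.lf (nat_lit 0) (nat_lit 2985413476632) (nat_lit 0) (nat_lit 0) (nat_lit 0) (nat_lit 0) (nat_lit 0) (nat_lit 0) (nat_lit 1) (nat_lit 0) (nat_lit 1) (nat_lit 0) (nat_lit 463) (nat_lit 389) (nat_lit 228))))))))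
noncomputable def xc154 : XT := (XT.nd (nat_lit 2632) (nat_lit 0) (nat_lit 0) (XT.nd (nat_lit 1316) (nat_lit 0) (nat_lit 0) (XT.nd (nat_lit 658) (nat_lit 0) (nat_lit 0) (XT.nd (nat_lit 282) (nat_lit 0) (nat_lit 0) (XT.nd (nat_lit 94) (nat_lit 0) (nat_lit 0) (XT.lf (nat_lit 0) (nat_lit 3223446200536) (nat_lit 0) (nat_lit 0) (nat_lit 0) (nat_lit 0) (nat_lit 0) (nat_lit 0) (nat_lit 1) (nat_lit 0) (nat_lit 1) (nat_lit 0) (nat_lit 464) (nat_lit 389) (nat_lit 227)) (XT.nd (nat_lit 94) (nat_lit 0) (nat_lit 0) (XT.lf (nat_lit 0) (nat_lit 3480521542826) (nat_lit 0) (nat_lit 0) (nat_lit 0) (nat_lit 0) (nat_lit 0) (nat_lit 0) (nat_lit 1) (nat_lit 0) (nat_lit 1) (nat_lit 0) (nat_lit 465) (nat_lit 389) (nat_lit 226)) (XT.lf (nat_lit 0) (nat_lit 3758162912939) (nat_lit 0) (nat_lit 0) (nat_lit 0) (nat_lit 0) (nat_lit 0) (nat_lit 0) (nat_lit 1) (nat_lit 0) (nat_lit 1) (nat_lit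 0) (nat_lit 466) (nat_lit 389) (nat_lit 225)))) (XT.nd (nat_lit 188) (nat_lit 0) (nat_lit 0) (XT.nd (nat_lit 94) (nat_lit 0) (nat_lit 0) (XT.lf (nat_lit 0) (nat_lit 4058015593069) (nat_lit 0) (nat_lit 0) (nat_lit 0) (nat_lit 0) (nat_lit 0) (nat_lit 0) (nat_lit 1) (nat_lit 0) (nat_lit 1) (nat_lit 0) (nat_lit 467) (nat_lit 389) (nat_lit 224)) (XT.lf (nat_lit 0) (nat_lit 4381856487985) (nat_lit 0) (nat_lit 0) (nat_lit 0) (nat_lit 0) (nat_lit 0) (nat_lit 0) (nat_lit 1) (nat_lit 0) (nat_lit 1) (nat_lit 0) (nat_lit 468) (nat_lit 389) (nat_lit 223))) (XT.nd (nat_lit 94) (nat_lit 0) (nat_lit 0) (XT.lf (nat_lit 0) (nat_lit 4731604654844) (nat_lit 0) (nat_lit 0) (nat_lit 0) (nat_lit 0) (nat_lit 0) (nat_lit 0) (nat_lit 1) (nat_lit 0) (nat_lit 1) (nat_lit 0) (nat_lit 469) (nat_lit 389) (nat_lit 222)) (XT.lf (nat_lit 0) (nat_lit 5109332675374) (nat_lit 0) (nat_lit 0) (nat_lit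 0) (nat_lit 0) (nat_lit 0) (nat_lit 0) (nat_lit 1) (nat_lit 0) (nat_lit 1) (nat_lit 0) (nat_lit 470) (nat_lit 389) (nat_lit 221))))) (XT.nd (nat_lit 282) (nat_lit 0) (nat_lit 0) (XT.nd (nat_lit 94) (nat_lit 0) (nat_lit 0) (XT.lf (nat_lit 0) (nat_lit 5517278937846) (nat_lit 0) (nat_lit 0) (nat_lit 0) (nat_lit 0) (nat_lit 0) (nat_lit 0) (nat_lit 1) (nat_lit 0) (nat_lit 1) (nat_lit 0) (nat_lit 471) (nat_lit 389) (nat_lit 220)) (XT.nd (nat_lit 94) (nat_lit 0) (nat_lit 0) (XT.lf (nat_lit 0) (nat_lit 5957860901592) (nat_lit 0) (nat_lit 0) (nat_lit 0) (nat_lit 0) (nat_lit 0) (nat_lit 0) (nat_lit 1) (nat_lit 0) (nat_lit 1) (nat_lit 0) (nat_lit 472) (nat_lit 389) (nat_lit 219)) (XT.lf (nat_lit 0) (nat_lit 6433689422695) (nat_lit 0) (nat_lit 0) (nat_lit 0) (nat_lit 0) (nat_lit 0) (nat_lit 0) (nat_lit 1) (nat_lit 0) (nat_lit 1) (nat_lit 0) (nat_lit 473) (nat_lit 389)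 (nat_lit 218)))) (XT.nd (nat_lit 188) (nat_lit 0) (nat_lit 0) (XT.nd (nat_lit 94) (nat_lit 0) (nat_lit 0) (XT.lf (nat_lit 0) (nat_lit 6947584225723) (nat_lit 0) (nat_lit 0) (nat_lit 0) (nat_lit 0) (nat_lit 0) (nat_lit 0) (nat_lit 1) (nat_lit 0) (nat_lit 1) (nat_lit 0) (nat_lit 474) (nat_lit 389) (nat_lit 217)) (XT.lf (nat_lit 0) (nat_lit 7502590613213) (nat_lit 0) (nat_lit 0) (nat_lit 0) (nat_lit 0) (nat_lit 0) (nat_lit 0) (nat_lit 1) (nat_lit 0) (nat_lit 1) (nat_lit 0) (nat_lit 475) (nat_lit 389) (nat_lit 216))) (XT.nd (nat_lit 94) (nat_lit 0) (nat_lit 0) (XT.lf (nat_lit 0) (nat_lit 8101997511906) (nat_lit 0) (nat_lit 0) (nat_lit 0) (nat_lit 0) (nat_lit 0) (nat_lit 0) (nat_lit 1) (nat_lit 0) (nat_lit 1) (nat_lit 0) (nat_lit 476) (nat_lit 389) (nat_lit 215)) (XT.lf (nat_lit 0) (nat_lit 8749356962683) (nat_lit 0) (nat_lit 0) (nat_lit 0) (nat_lit 0) (nat_lit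 0) (nat_lit 0) (nat_lit 1) (nat_lit 0) (nat_lit 1) (nat_lit 0) (nat_lit 477) (nat_lit 389) (nat_lit 214)))))) (XT.nd (nat_lit 658) (nat_lit 0) (nat_lit 0) (XT.nd (nat_lit 282) (nat_lit 0) (nat_lit 0) (XT.nd (nat_lit 94) (nat_lit 0) (nat_lit 0) (XT.lf (nat_lit 0) (nat_lit 9448505169697) (nat_lit 0) (nat_lit 0) (nat_lit 0) (nat_lit 0) (nat_lit 0) (nat_lit 0) (nat_lit 1) (nat_lit 0) (nat_lit 1) (nat_lit 0) (nat_lit 478) (nat_lit 389) (nat_lit 213)) (XT.nd (nat_lit 94) (nat_lit 0) (nat_lit 0) (XT.lf (nat_lit 0) (nat_lit 10203585233434) (nat_lit 0) (nat_lit 0) (nat_lit 0) (nat_lit 0) (nat_lit 0) (nat_lit 0) (nat_lit 1) (nat_lit 0) (nat_lit 1) (nat_lit 0) (nat_lit 479) (nat_lit 389) (nat_lit 212)) (XT.lf (nat_lit 0) (nat_lit 11019071702419) (nat_lit 0) (nat_lit 0) (nat_lit 0) (nat_lit 0) (nat_lit 0) (nat_lit 0) (nat_lit 1) (nat_lit 0) (nat_lit 1) (nat_lit 0) (nat_lit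 480) (nat_lit 389) (nat_lit 211)))) (XT.nd (nat_lit 188) (nat_lit 0) (nat_lit 0) (XT.nd (nat_lit 94) (nat_lit 0) (nat_lit 0) (XT.lf (nat_lit 0) (nat_lit 11899797089061) (nat_lit 0) (nat_lit 0) (nat_lit 0) (nat_lit 0) (nat_lit 0) (nat_lit 0) (nat_lit 1) (nat_lit 0) (nat_lit 1) (nat_lit 0) (nat_lit 481) (nat_lit 389) (nat_lit 210)) (XT.lf (nat_lit 0) (nat_lit 12850980506763) (nat_lit 0) (nat_lit 0) (nat_lit 0) (nat_lit 0) (nat_lit 0) (nat_lit 0) (nat_lit 1) (nat_lit 0) (nat_lit 1) (nat_lit 0) (nat_lit 482) (nat_lit 389) (nat_lit 209))) (XT.nd (nat_lit 94) (nat_lit 0) (nat_lit 0) (XT.lf (nat_lit 0) (nat_lit 13878258598000) (nat_lit 0) (nat_lit 0) (nat_lit 0) (nat_lit 0) (nat_lit 0) (nat_lit 0) (nat_lit 1) (nat_lit 0) (nat_lit 1) (nat_lit 0) (nat_lit 483) (nat_lit 389) (nat_lit 208)) (XT.lf (nat_lit 0) (nat_lit 14987718936646) (nat_lit 0) (nat_lit 0) (nat_lit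 0) (nat_lit 0) (nat_lit 0) (nat_lit 0) (nat_lit 1) (nat_lit 0) (nat_lit 1) (nat_lit 0) (nat_lit 484) (nat_lit 389) (nat_lit 207))))) (XT.nd (nat_lit 282) (nat_lit 0) (nat_lit 0) (XT.nd (nat_lit 94) (nat_lit 0) (nat_lit 0) (XT.lf (nat_lit 0) (nat_lit 16185936102485) (nat_lit 0) (nat_lit 0) (nat_lit 0) (nat_lit 0) (nat_lit 0) (nat_lit 0) (nat_lit 1) (nat_lit 0) (nat_lit 1) (nat_lit 0) (nat_lit 485) (nat_lit 389) (nat_lit 206)) (XT.nd (nat_lit 94) (nat_lit 0) (nat_lit 0) (XT.lf (nat_lit 0) (nat_lit 17480010641686) (nat_lit 0) (nat_lit 0) (nat_lit 0) (nat_lit 0) (nat_lit 0) (nat_lit 0) (nat_lit 1) (nat_lit 0) (nat_lit 1) (nat_lit 0) (nat_lit 486) (nat_lit 389) (nat_lit 205)) (XT.lf (nat_lit 0) (nat_lit 18877611144110) (nat_lit 0) (nat_lit 0) (nat_lit 0) (nat_lit 0) (nat_lit 0) (nat_lit 0) (nat_lit 1) (nat_lit 0) (nat_lit 1) (nat_lit 0) (nat_lit 487) (nat_lit 389)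 (nat_lit 204)))) (XT.nd (nat_lit 188) (nat_lit 0) (nat_lit 0) (XT.nd (nat_lit 94) (nat_lit 0) (nat_lit 0) (XT.lf (nat_lit 0) (nat_lit 20387019686809) (nat_lit 0) (nat_lit 0) (nat_lit 0) (nat_lit 0) (nat_lit 0) (nat_lit 0) (nat_lit 1) (nat_lit 0) (nat_lit 1) (nat_lit 0) (nat_lit 488) (nat_lit 389) (nat_lit 203)) (XT.lf (nat_lit 0) (nat_lit 22017180912999) (nat_lit 0) (nat_lit 0) (nat_lit 0) (nat_lit 0) (nat_lit 0) (nat_lit 0) (nat_lit 1) (nat_lit 0) (nat_lit 1) (nat_lit 0) (nat_lit 489) (nat_lit 389) (nat_lit 202))) (XT.nd (nat_lit 94) (nat_lit 0) (nat_lit 0) (XT.lf (nat_lit 0) (nat_lit 23777755037353) (nat_lit 0) (nat_lit 0) (nat_lit 0) (nat_lit 0) (nat_lit 0) (nat_lit 0) (nat_lit 1) (nat_lit 0) (nat_lit 1) (nat_lit 0) (nat_lit 490) (nat_lit 389) (nat_lit 201)) (XT.lf (nat_lit 0) (nat_lit 25679175091720) (nat_lit 0) (nat_lit 0) (nat_lit 0) (nat_lit 0) (nat_lit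 0) (nat_lit 0) (nat_lit 1) (nat_lit 0) (nat_lit 1) (nat_lit 0) (nat_lit 491) (nat_lit 389) (nat_lit 200))))))) (XT.nd (nat_lit 58280) (nat_lit 0) (nat_lit 7476) (XT.nd (nat_lit 658) (nat_lit 0) (nat_lit 0) (XT.nd (nat_lit 282) (nat_lit 0) (nat_lit 0) (XT.nd (nat_lit 94) (nat_lit 0) (nat_lit 0) (XT.lf (nat_lit 0) (nat_lit 27732708750495) (nat_lit 0) (nat_lit 0) (nat_lit 0) (nat_lit 0) (nat_lit 0) (nat_lit 0) (nat_lit 1) (nat_lit 0) (nat_lit 1) (nat_lit 0) (nat_lit 492) (nat_lit 389) (nat_lit 199)) (XT.nd (nat_lit 94) (nat_lit 0) (nat_lit 0) (XT.lf (nat_lit 0) (nat_lit 29950525102028) (nat_lit 0) (nat_lit 0) (nat_lit 0) (nat_lit 0) (nat_lit 0) (nat_lit 0) (nat_lit 1) (nat_lit 0) (nat_lit 1) (nat_lit 0) (nat_lit 493) (nat_lit 389) (nat_lit 198)) (XT.lf (nat_lit 0) (nat_lit 32345766761734) (nat_lit 0) (nat_lit 0) (nat_lit 0) (nat_lit 0) (nat_lit 0) (nat_lit 0)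 (nat_lit 1) (nat_lit 0) (nat_lit 1) (nat_lit 0) (nat_lit 494) (nat_lit 389) (nat_lit 197)))) (XT.nd (nat_lit 188) (nat_lit 0) (nat_lit 0) (XT.nd (nat_lit 94) (nat_lit 0) (nat_lit 0) (XT.lf (nat_lit 0) (nat_lit 34932627754263) (nat_lit 0) (nat_lit 0) (nat_lit 0) (nat_lit 0) (nat_lit 0) (nat_lit 0) (nat_lit 1) (nat_lit 0) (nat_lit 1) (nat_lit 0) (nat_lit 495) (nat_lit 389) (nat_lit 196)) (XT.lf (nat_lit 0) (nat_lit 37726437626239) (nat_lit 0) (nat_lit 0) (nat_lit 0) (nat_lit 0) (nat_lit 0) (nat_lit 0) (nat_lit 1) (nat_lit 0) (nat_lit 1) (nat_lit 0) (nat_lit 496) (nat_lit 389) (nat_lit 195))) (XT.nd (nat_lit 94) (nat_lit 0) (nat_lit 0) (XT.lf (nat_lit 0) (nat_lit 40743752288013) (nat_lit 0) (nat_lit 0) (nat_lit 0) (nat_lit 0) (nat_lit 0) (nat_lit 0) (nat_lit 1) (nat_lit 0) (nat_lit 1) (nat_lit 0) (nat_lit 497) (nat_lit 389) (nat_lit 194)) (XT.lf (nat_lit 0) (nat_lit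 44002452122767) (nat_lit 0) (nat_lit 0) (nat_lit 0) (nat_lit 0) (nat_lit 0) (nat_lit 0) (nat_lit 1) (nat_lit 0) (nat_lit 1) (nat_lit 0) (nat_lit 498) (nat_lit 389) (nat_lit 193))))) (XT.nd (nat_lit 282) (nat_lit 0) (nat_lit 0) (XT.nd (nat_lit 94) (nat_lit 0) (nat_lit 0) (XT.lf (nat_lit 0) (nat_lit 47521847944336) (nat_lit 0) (nat_lit 0) (nat_lit 0) (nat_lit 0) (nat_lit 0) (nat_lit 0) (nat_lit 1) (nat_lit 0) (nat_lit 1) (nat_lit 0) (nat_lit 499) (nat_lit 389) (nat_lit 192)) (XT.nd (nat_lit 94) (nat_lit 0) (nat_lit 0) (XT.lf (nat_lit 0) (nat_lit 51322795431662) (nat_lit 0) (nat_lit 0) (nat_lit 0) (nat_lit 0) (nat_lit 0) (nat_lit 0) (nat_lit 1) (nat_lit 0) (nat_lit 1) (nat_lit 0) (nat_lit 500) (nat_lit 389) (nat_lit 191)) (XT.lf (nat_lit 0) (nat_lit 55427818718004) (nat_lit 0) (nat_lit 0) (nat_lit 0) (nat_lit 0) (nat_lit 0) (nat_lit 0) (nat_lit 1) (nat_lit 0)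 (nat_lit 1) (nat_lit 0) (nat_lit 501) (nat_lit 389) (nat_lit 190)))) (XT.nd (nat_lit 188) (nat_lit 0) (nat_lit 0) (XT.nd (nat_lit 94) (nat_lit 0) (nat_lit 0) (XT.lf (nat_lit 0) (nat_lit 59861243867281) (nat_lit 0) (nat_lit 0) (nat_lit 0) (nat_lit 0) (nat_lit 0) (nat_lit 0) (nat_lit 1) (nat_lit 0) (nat_lit 1) (nat_lit 0) (nat_lit 502) (nat_lit 389) (nat_lit 189)) (XT.lf (nat_lit 0) (nat_lit 64649343028525) (nat_lit 0) (nat_lit 0) (nat_lit 0) (nat_lit 0) (nat_lit 0) (nat_lit 0) (nat_lit 1) (nat_lit 0) (nat_lit 1) (nat_lit 0) (nat_lit 503) (nat_lit 389) (nat_lit 188))) (XT.nd (nat_lit 57058) (nat_lit 0) (nat_lit 10752) (XT.lf (nat_lit 0) (nat_lit 69820490122693) (nat_lit 0) (nat_lit 0) (nat_lit 0) (nat_lit 0) (nat_lit 0) (nat_lit 0) (nat_lit 1) (nat_lit 0) (nat_lit 1) (nat_lit 0) (nat_lit 504) (nat_lit 389) (nat_lit 187)) (XT.lf (nat_lit 0) (nat_lit 9334008653)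 (nat_lit 924) (nat_lit 5546850101) (nat_lit 924) (nat_lit 5546850101) (nat_lit 128) (nat_lit 3) (nat_lit 139) (nat_lit 3) (nat_lit 139) (nat_lit 5) (nat_lit 390) (nat_lit 390) (nat_lit 300)))))) (XT.nd (nat_lit 658) (nat_lit 2856) (nat_lit 0) (XT.nd (nat_lit 282) (nat_lit 504) (nat_lit 0) (XT.nd (nat_lit 94) (nat_lit 0) (nat_lit 0) (XT.lf (nat_lit 0) (nat_lit 19862429406) (nat_lit 840) (nat_lit 20204002242) (nat_lit 924) (nat_lit 2400818202) (nat_lit 129) (nat_lit 5) (nat_lit 139) (nat_lit 5) (nat_lit 140) (nat_lit 5) (nat_lit 391) (nat_lit 390) (nat_lit 299)) (XT.nd (nat_lit 94) (nat_lit 0) (nat_lit 84) (XT.lf (nat_lit 84) (nat_lit 14440057916) (nat_lit 0) (nat_lit 7629951943) (nat_lit 924) (nat_lit 22092137930) (nat_lit 130) (nat_lit 5) (nat_lit 129) (nat_lit 5) (nat_lit 140) (nat_lit 5) (nat_lit 392) (nat_lit 390) (nat_lit 298)) (XT.lf (nat_lit 84) (nat_lit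 6368523483) (nat_lit 0) (nat_lit 18964973557) (nat_lit 924) (nat_lit 20615175511) (nat_lit 131) (nat_lit 5) (nat_lit 130) (nat_lit 5) (nat_lit 141) (nat_lit 5) (nat_lit 393) (nat_lit 390) (nat_lit 297)))) (XT.nd (nat_lit 188) (nat_lit 672) (nat_lit 0) (XT.nd (nat_lit 94) (nat_lit 0) (nat_lit 84) (XT.lf (nat_lit 0) (nat_lit 29758981721) (nat_lit 840) (nat_lit 1836856951) (nat_lit 924) (nat_lit 16237234694) (nat_lit 131) (nat_lit 5) (nat_lit 141) (nat_lit 5) (nat_lit 142) (nat_lit 5) (nat_lit 394) (nat_lit 390) (nat_lit 296)) (XT.lf (nat_lit 0) (nat_lit 35544774067) (nat_lit 840) (nat_lit 10011244074) (nat_lit 924) (nat_lit 4261894660) (nat_lit 132) (nat_lit 5) (nat_lit 142) (nat_lit 5) (nat_lit 143) (nat_lit 5) (nat_lit 395) (nat_lit 390) (nat_lit 295))) (XT.nd (nat_lit 94) (nat_lit 756) (nat_lit 0) (XT.lf (nat_lit 84) (nat_lit 33419962091) (nat_lit 0) (nat_lit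 9455979729) (nat_lit 924) (nat_lit 9031471971) (nat_lit 133) (nat_lit 5) (nat_lit 132) (nat_lit 5) (nat_lit 143) (nat_lit 5) (nat_lit 396) (nat_lit 390) (nat_lit 294)) (XT.lf (nat_lit 0) (nat_lit 26921744183) (nat_lit 840) (nat_lit 24926249517) (nat_lit 924) (nat_lit 2263361625) (nat_lit 123) (nat_lit 5) (nat_lit 133) (nat_lit 5) (nat_lit 134) (nat_lit 5) (nat_lit 397) (nat_lit 390) (nat_lit 293))))) (XT.nd (nat_lit 376) (nat_lit 1428) (nat_lit 0) (XT.nd (nat_lit 188) (nat_lit 420) (nat_lit 0) (XT.nd (nat_lit 94) (nat_lit 420) (nat_lit 0) (XT.lf (nat_lit 0) (nat_lit 5920544101) (nat_lit 588) (nat_lit 36120566318) (nat_lit 84) (nat_lit 14394769678) (nat_lit 116) (nat_lit 5) (nat_lit 123) (nat_lit 5) (nat_lit 117) (nat_lit 5) (nat_lit 398) (nat_lit 390) (nat_lit 292)) (XT.lf (nat_lit 0) (nat_lit 13635271109) (nat_lit 420) (nat_lit 2156413095) (nat_lit 504) (nat_lit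 43097236479) (nat_lit 111) (nat_lit 5) (nat_lit 116) (nat_lit 5) (nat_lit 117) (nat_lit 5) (nat_lit 399) (nat_lit 390) (nat_lit 291))) (XT.nd (nat_lit 94) (nat_lit 0) (nat_lit 0) (XT.lf (nat_lit 0) (nat_lit 6716678907) (nat_lit 420) (nat_lit 21115483523) (nat_lit 504) (nat_lit 33637059740) (nat_lit 106) (nat_lit 5) (nat_lit 111) (nat_lit 5) (nat_lit 112) (nat_lit 5) (nat_lit 400) (nat_lit 390) (nat_lit 290)) (XT.lf (nat_lit 0) (nat_lit 42011952098) (nat_lit 504) (nat_lit 150882352) (nat_lit 84) (nat_lit 22034309667) (nat_lit 106) (nat_lit 5) (nat_lit 112) (nat_lit 5) (nat_lit 107) (nat_lit 5) (nat_lit 401) (nat_lit 390) (nat_lit 289)))) (XT.nd (nat_lit 188) (nat_lit 672) (nat_lit 0) (XT.nd (nat_lit 94) (nat_lit 420) (nat_lit 0) (XT.lf (nat_lit 0) (nat_lit 58649567213) (nat_lit 420) (nat_lit 6713877447) (nat_lit 84) (nat_lit 1713683045) (nat_lit 102) (nat_lit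 5) (nat_lit 107) (nat_lit 5) (nat_lit 103) (nat_lit 5) (nat_lit 402) (nat_lit 390) (nat_lit 288)) (XT.lf (nat_lit 0) (nat_lit 7845882301) (nat_lit 420) (nat_lit 13599623080) (nat_lit 84) (nat_lit 48655933416) (nat_lit 97) (nat_lit 5) (nat_lit 102) (nat_lit 5) (nat_lit 98) (nat_lit 5) (nat_lit 403) (nat_lit 390) (nat_lit 287))) (XT.nd (nat_lit 94) (nat_lit 336) (nat_lit 0) (XT.lf (nat_lit 0) (nat_lit 26500242594) (nat_lit 420) (nat_lit 20528663648) (nat_lit 84) (nat_lit 26263165560) (nat_lit 93) (nat_lit 5) (nat_lit 98) (nat_lit 5) (nat_lit 94) (nat_lit 5) (nat_lit 404) (nat_lit 390) (nat_lit 286)) (XT.lf (nat_lit 0) (nat_lit 48039730833) (nat_lit 420) (nat_lit 27283658877) (nat_lit 84) (nat_lit 1344926783) (nat_lit 89) (nat_lit 5) (nat_lit 94) (nat_lit 5) (nat_lit 90) (nat_lit 5) (nat_lit 405) (nat_lit 390) (nat_lit 285))))))))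
noncomputable def xc155 : XT := (XT.nd (nat_lit 2632) (nat_lit 1848) (nat_lit 0) (XT.nd (nat_lit 1316) (nat_lit 2184) (nat_lit 0) (XT.nd (nat_lit 658) (nat_lit 1512) (nat_lit 0) (XT.nd (nat_lit 282) (nat_lit 1008) (nat_lit 0) (XT.nd (nat_lit 94) (nat_lit 672) (nat_lit 0) (XT.lf (nat_lit 0) (nat_lit 45997286376) (nat_lit 252) (nat_lit 27177134290) (nat_lit 336) (nat_lit 7046637964) (nat_lit 86) (nat_lit 5) (nat_lit 89) (nat_lit 5) (nat_lit 90) (nat_lit 5) (nat_lit 406) (nat_lit 390) (nat_lit 284)) (XT.nd (nat_lit 94) (nat_lit 252) (nat_lit 0) (XT.lf (nat_lit 0) (nat_lit 17307076490) (nat_lit 420) (nat_lit 41199874381) (nat_lit 84) (nat_lit 25460089994) (nat_lit 81) (nat_lit 5) (nat_lit 86) (nat_lit 5) (nat_lit 82) (nat_lit 5) (nat_lit 407) (nat_lit 390) (nat_lit 283)) (XT.lf (nat_lit 0) (nat_lit 39841653643) (nat_lit 252) (nat_lit 5207742469) (nat_lit 336)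 (nat_lit 42873170240) (nat_lit 78) (nat_lit 5) (nat_lit 81) (nat_lit 5) (nat_lit 82) (nat_lit 5) (nat_lit 408) (nat_lit 390) (nat_lit 282)))) (XT.nd (nat_lit 188) (nat_lit 420) (nat_lit 0) (XT.nd (nat_lit 94) (nat_lit 336) (nat_lit 0) (XT.lf (nat_lit 0) (nat_lit 37031921653) (nat_lit 252) (nat_lit 40101978535) (nat_lit 336) (nat_lit 14954493746) (nat_lit 75) (nat_lit 5) (nat_lit 78) (nat_lit 5) (nat_lit 79) (nat_lit 5) (nat_lit 409) (nat_lit 390) (nat_lit 281)) (XT.lf (nat_lit 0) (nat_lit 16485150076) (nat_lit 336) (nat_lit 61893443745) (nat_lit 84) (nat_lit 18108335295) (nat_lit 71) (nat_lit 5) (nat_lit 75) (nat_lit 5) (nat_lit 72) (nat_lit 5) (nat_lit 410) (nat_lit 390) (nat_lit 280))) (XT.nd (nat_lit 94) (nat_lit 168) (nat_lit 0) (XT.lf (nat_lit 0) (nat_lit 32277998553) (nat_lit 252) (nat_lit 19797901604) (nat_lit 336) (nat_lit 49041195806) (nat_lit 68)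 (nat_lit 5) (nat_lit 71) (nat_lit 5) (nat_lit 72) (nat_lit 5) (nat_lit 411) (nat_lit 390) (nat_lit 279)) (XT.lf (nat_lit 0) (nat_lit 30403261670) (nat_lit 168) (nat_lit 62357862847) (nat_lit 252) (nat_lit 13244190928) (nat_lit 66) (nat_lit 5) (nat_lit 68) (nat_lit 5) (nat_lit 69) (nat_lit 5) (nat_lit 412) (nat_lit 390) (nat_lit 278))))) (XT.nd (nat_lit 282) (nat_lit 756) (nat_lit 0) (XT.nd (nat_lit 94) (nat_lit 420) (nat_lit 0) (XT.lf (nat_lit 0) (nat_lit 26643742938) (nat_lit 336) (nat_lit 82208588621) (nat_lit 84) (nat_lit 2310386842) (nat_lit 62) (nat_lit 5) (nat_lit 66) (nat_lit 5) (nat_lit 63) (nat_lit 5) (nat_lit 413) (nat_lit 390) (nat_lit 277)) (XT.nd (nat_lit 94) (nat_lit 252) (nat_lit 0) (XT.lf (nat_lit 0) (nat_lit 27488144690) (nat_lit 168) (nat_lit 44594107711) (nat_lit 252) (nat_lit 44498427658) (nat_lit 60) (nat_lit 5) (nat_lit 62) (nat_lit 5)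 (nat_lit 63) (nat_lit 5) (nat_lit 414) (nat_lit 390) (nat_lit 276)) (XT.lf (nat_lit 0) (nat_lit 1064053065) (nat_lit 252) (nat_lit 95350250852) (nat_lit 84) (nat_lit 25903798935) (nat_lit 57) (nat_lit 5) (nat_lit 60) (nat_lit 5) (nat_lit 58) (nat_lit 5) (nat_lit 415) (nat_lit 390) (nat_lit 275)))) (XT.nd (nat_lit 188) (nat_lit 420) (nat_lit 0) (XT.nd (nat_lit 94) (nat_lit 168) (nat_lit 0) (XT.lf (nat_lit 0) (nat_lit 26371141960) (nat_lit 168) (nat_lit 25101585205) (nat_lit 252) (nat_lit 76867308029) (nat_lit 55) (nat_lit 5) (nat_lit 57) (nat_lit 5) (nat_lit 58) (nat_lit 5) (nat_lit 416) (nat_lit 390) (nat_lit 274)) (XT.lf (nat_lit 0) (nat_lit 26481538193) (nat_lit 168) (nat_lit 82343117727) (nat_lit 252) (nat_lit 25873538168) (nat_lit 53) (nat_lit 5) (nat_lit 55) (nat_lit 5) (nat_lit 56) (nat_lit 5) (nat_lit 417) (nat_lit 390) (nat_lit 273))) (XT.nd (nat_lit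 94) (nat_lit 168) (nat_lit 0) (XT.lf (nat_lit 0) (nat_lit 27337096116) (nat_lit 168) (nat_lit 3581919618) (nat_lit 252) (nat_lit 110490502661) (nat_lit 50) (nat_lit 5) (nat_lit 52) (nat_lit 5) (nat_lit 53) (nat_lit 5) (nat_lit 418) (nat_lit 390) (nat_lit 272)) (XT.lf (nat_lit 0) (nat_lit 28196567125) (nat_lit 168) (nat_lit 66790868095) (nat_lit 252) (nat_lit 53467158409) (nat_lit 48) (nat_lit 5) (nat_lit 50) (nat_lit 5) (nat_lit 51) (nat_lit 5) (nat_lit 419) (nat_lit 390) (nat_lit 271)))))) (XT.nd (nat_lit 658) (nat_lit 1092) (nat_lit 0) (XT.nd (nat_lit 282) (nat_lit 672) (nat_lit 0) (XT.nd (nat_lit 94) (nat_lit 252) (nat_lit 0) (XT.lf (nat_lit 0) (nat_lit 10733355260) (nat_lit 168) (nat_lit 125528464720) (nat_lit 84) (nat_lit 19651361109) (nat_lit 46) (nat_lit 5) (nat_lit 48) (nat_lit 5) (nat_lit 47) (nat_lit 5) (nat_lit 420) (nat_lit 390) (nat_lit 270))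 (XT.nd (nat_lit 94) (nat_lit 84) (nat_lit 0) (XT.lf (nat_lit 0) (nat_lit 32484641567) (nat_lit 168) (nat_lit 49498232327) (nat_lit 252) (nat_lit 81752446479) (nat_lit 44) (nat_lit 5) (nat_lit 46) (nat_lit 5) (nat_lit 47) (nat_lit 5) (nat_lit 421) (nat_lit 390) (nat_lit 269)) (XT.lf (nat_lit 0) (nat_lit 35970278976) (nat_lit 84) (nat_lit 126434978223) (nat_lit 168) (nat_lit 9604328441) (nat_lit 43) (nat_lit 5) (nat_lit 44) (nat_lit 5) (nat_lit 45) (nat_lit 4) (nat_lit 422) (nat_lit 390) (nat_lit 268)))) (XT.nd (nat_lit 188) (nat_lit 336) (nat_lit 0) (XT.nd (nat_lit 94) (nat_lit 84) (nat_lit 0) (XT.lf (nat_lit 0) (nat_lit 39755700019) (nat_lit 168) (nat_lit 30151214188) (nat_lit 252) (nat_lit 110796657881) (nat_lit 40) (nat_lit 5) (nat_lit 42) (nat_lit 5) (nat_lit 43) (nat_lit 5) (nat_lit 423) (nat_lit 390) (nat_lit 267)) (XT.lf (nat_lit 0) (nat_lit 44568206906)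 (nat_lit 84) (nat_lit 115134770237) (nat_lit 168) (nat_lit 30169207420) (nat_lit 39) (nat_lit 5) (nat_lit 40) (nat_lit 5) (nat_lit 41) (nat_lit 4) (nat_lit 424) (nat_lit 390) (nat_lit 266))) (XT.nd (nat_lit 94) (nat_lit 84) (nat_lit 0) (XT.lf (nat_lit 0) (nat_lit 50483627765) (nat_lit 168) (nat_lit 8394227697) (nat_lit 252) (nat_lit 140662463472) (nat_lit 36) (nat_lit 5) (nat_lit 38) (nat_lit 5) (nat_lit 39) (nat_lit 5) (nat_lit 425) (nat_lit 390) (nat_lit 265)) (XT.lf (nat_lit 0) (nat_lit 56866546718) (nat_lit 84) (nat_lit 102267326921) (nat_lit 168) (nat_lit 50566192940) (nat_lit 35) (nat_lit 5) (nat_lit 36) (nat_lit 5) (nat_lit 37) (nat_lit 4) (nat_lit 426) (nat_lit 390) (nat_lit 264))))) (XT.nd (nat_lit 282) (nat_lit 504) (nat_lit 0) (XT.nd (nat_lit 94) (nat_lit 336) (nat_lit 0) (XT.lf (nat_lit 0) (nat_lit 49292043107) (nat_lit 252) (nat_lit 155483807473)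 (nat_lit 84) (nat_lit 15657749835) (nat_lit 32) (nat_lit 5) (nat_lit 35) (nat_lit 5) (nat_lit 33) (nat_lit 4) (nat_lit 427) (nat_lit 390) (nat_lit 263)) (XT.nd (nat_lit 94) (nat_lit 252) (nat_lit 0) (XT.lf (nat_lit 0) (nat_lit 73448731986) (nat_lit 84) (nat_lit 87518248161) (nat_lit 168) (nat_lit 70737407351) (nat_lit 31) (nat_lit 5) (nat_lit 32) (nat_lit 5) (nat_lit 33) (nat_lit 4) (nat_lit 428) (nat_lit 390) (nat_lit 262)) (XT.lf (nat_lit 0) (nat_lit 41251915440) (nat_lit 252) (nat_lit 159752219711) (nat_lit 84) (nat_lit 42605300654) (nat_lit 28) (nat_lit 5) (nat_lit 31) (nat_lit 5) (nat_lit 29) (nat_lit 4) (nat_lit 429) (nat_lit 390) (nat_lit 261)))) (XT.nd (nat_lit 188) (nat_lit 252) (nat_lit 0) (XT.nd (nat_lit 94) (nat_lit 168) (nat_lit 0) (XT.lf (nat_lit 0) (nat_lit 94985805276) (nat_lit 84) (nat_lit 70528992128) (nat_lit 168) (nat_lit 90604473716) (nat_lit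 27) (nat_lit 5) (nat_lit 28) (nat_lit 5) (nat_lit 29) (nat_lit 4) (nat_lit 430) (nat_lit 390) (nat_lit 260)) (XT.lf (nat_lit 0) (nat_lit 34840543333) (nat_lit 168) (nat_lit 161262930957) (nat_lit 84) (nat_lit 73217192596) (nat_lit 25) (nat_lit 5) (nat_lit 27) (nat_lit 5) (nat_lit 26) (nat_lit 4) (nat_lit 431) (nat_lit 390) (nat_lit 259))) (XT.nd (nat_lit 94) (nat_lit 168) (nat_lit 0) (XT.lf (nat_lit 0) (nat_lit 122248231043) (nat_lit 84) (nat_lit 50890791809) (nat_lit 168) (nat_lit 110065275475) (nat_lit 24) (nat_lit 5) (nat_lit 25) (nat_lit 5) (nat_lit 26) (nat_lit 4) (nat_lit 432) (nat_lit 390) (nat_lit 258)) (XT.lf (nat_lit 0) (nat_lit 30310945138) (nat_lit 168) (nat_lit 159469641902) (nat_lit 84) (nat_lit 108059760292) (nat_lit 22) (nat_lit 5) (nat_lit 24) (nat_lit 5) (nat_lit 23) (nat_lit 4) (nat_lit 433) (nat_lit 390) (nat_lit 257))))))) (XT.nd (nat_lit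 1316) (nat_lit 0) (nat_lit 0) (XT.nd (nat_lit 658) (nat_lit 1008) (nat_lit 0) (XT.nd (nat_lit 282) (nat_lit 504) (nat_lit 0) (XT.nd (nat_lit 94) (nat_lit 252) (nat_lit 0) (XT.lf (nat_lit 0) (nat_lit 156119245889) (nat_lit 84) (nat_lit 28137785350) (nat_lit 168) (nat_lit 128990235632) (nat_lit 21) (nat_lit 5) (nat_lit 22) (nat_lit 5) (nat_lit 23) (nat_lit 4) (nat_lit 434) (nat_lit 390) (nat_lit 256)) (XT.nd (nat_lit 94) (nat_lit 84) (nat_lit 0) (XT.lf (nat_lit 0) (nat_lit 27960454109) (nat_lit 168) (nat_lit 153736510276) (nat_lit 84) (nat_lit 147774232135) (nat_lit 19) (nat_lit 5) (nat_lit 21) (nat_lit 5) (nat_lit 20) (nat_lit 4) (nat_lit 435) (nat_lit 390) (nat_lit 255)) (XT.lf (nat_lit 0) (nat_lit 197609939252) (nat_lit 84) (nat_lit 1739261307) (nat_lit 168) (nat_lit 147218050726) (nat_lit 18) (nat_lit 5) (nat_lit 19) (nat_lit 5) (nat_lit 20) (nat_lit 4)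 (nat_lit 436) (nat_lit 390) (nat_lit 254)))) (XT.nd (nat_lit 188) (nat_lit 252) (nat_lit 0) (XT.nd (nat_lit 94) (nat_lit 84) (nat_lit 0) (XT.lf (nat_lit 0) (nat_lit 28136879279) (nat_lit 168) (nat_lit 143325461270) (nat_lit 84) (nat_lit 193086475267) (nat_lit 16) (nat_lit 5) (nat_lit 18) (nat_lit 5) (nat_lit 17) (nat_lit 4) (nat_lit 437) (nat_lit 390) (nat_lit 253)) (XT.lf (nat_lit 0) (nat_lit 219418541045) (nat_lit 168) (nat_lit 136093066120) (nat_lit 0) (nat_lit 27983820773) (nat_lit 15) (nat_lit 5) (nat_lit 17) (nat_lit 4) (nat_lit 15) (nat_lit 4) (nat_lit 438) (nat_lit 390) (nat_lit 252))) (XT.nd (nat_lit 94) (nat_lit 84) (nat_lit 0) (XT.lf (nat_lit 0) (nat_lit 31245496875) (nat_lit 168) (nat_lit 127381797791) (nat_lit 84) (nat_lit 244817959841) (nat_lit 13) (nat_lit 5) (nat_lit 15) (nat_lit 5) (nat_lit 14) (nat_lit 4) (nat_lit 439) (nat_lit 390) (nat_lit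 251)) (XT.lf (nat_lit 0) (nat_lit 244750231004) (nat_lit 168) (nat_lit 117260281276) (nat_lit 0) (nat_lit 62430814944) (nat_lit 12) (nat_lit 5) (nat_lit 14) (nat_lit 4) (nat_lit 12) (nat_lit 4) (nat_lit 440) (nat_lit 390) (nat_lit 250))))) (XT.nd (nat_lit 282) (nat_lit 588) (nat_lit 0) (XT.nd (nat_lit 94) (nat_lit 252) (nat_lit 0) (XT.lf (nat_lit 0) (nat_lit 37756978592) (nat_lit 168) (nat_lit 104917892552) (nat_lit 84) (nat_lit 303898092262) (nat_lit 10) (nat_lit 5) (nat_lit 12) (nat_lit 5) (nat_lit 11) (nat_lit 4) (nat_lit 441) (nat_lit 390) (nat_lit 249)) (XT.nd (nat_lit 94) (nat_lit 168) (nat_lit 0) (XT.lf (nat_lit 0) (nat_lit 276052793889) (nat_lit 168) (nat_lit 91372942625) (nat_lit 0) (nat_lit 102414736423) (nat_lit 9) (nat_lit 5) (nat_lit 11) (nat_lit 4) (nat_lit 9) (nat_lit 4) (nat_lit 442) (nat_lit 390) (nat_lit 248)) (XT.lf (nat_lit 0) (nat_lit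 48216376323) (nat_lit 168) (nat_lit 74794716754) (nat_lit 84) (nat_lit 371378085203) (nat_lit 7) (nat_lit 5) (nat_lit 9) (nat_lit 5) (nat_lit 8) (nat_lit 4) (nat_lit 443) (nat_lit 390) (nat_lit 247)))) (XT.nd (nat_lit 188) (nat_lit 336) (nat_lit 0) (XT.nd (nat_lit 94) (nat_lit 168) (nat_lit 0) (XT.lf (nat_lit 0) (nat_lit 314166661301) (nat_lit 168) (nat_lit 57210852804) (nat_lit 0) (nat_lit 148796659513) (nat_lit 6) (nat_lit 5) (nat_lit 8) (nat_lit 4) (nat_lit 6) (nat_lit 4) (nat_lit 444) (nat_lit 390) (nat_lit 246)) (XT.lf (nat_lit 0) (nat_lit 63253297864) (nat_lit 168) (nat_lit 35700929577) (nat_lit 84) (nat_lit 448446552462) (nat_lit 4) (nat_lit 5) (nat_lit 6) (nat_lit 5) (nat_lit 5) (nat_lit 4) (nat_lit 445) (nat_lit 390) (nat_lit 245))) (XT.nd (nat_lit 94) (nat_lit 252) (nat_lit 0) (XT.lf (nat_lit 0) (nat_lit 360050662917) (nat_lit 168) (nat_lit 13370256138)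 (nat_lit 0) (nat_lit 202555077530) (nat_lit 3) (nat_lit 5) (nat_lit 5) (nat_lit 4) (nat_lit 3) (nat_lit 4) (nat_lit 446) (nat_lit 390) (nat_lit 244)) (XT.lf (nat_lit 0) (nat_lit 879298377163) (nat_lit 0) (nat_lit 0) (nat_lit 0) (nat_lit 0) (nat_lit 0) (nat_lit 0) (nat_lit 1) (nat_lit 0) (nat_lit 1) (nat_lit 0) (nat_lit 447) (nat_lit 390) (nat_lit 243)))))) (XT.nd (nat_lit 658) (nat_lit 0) (nat_lit 0) (XT.nd (nat_lit 282) (nat_lit 0) (nat_lit 0) (XT.nd (nat_lit 94) (nat_lit 0) (nat_lit 0) (XT.lf (nat_lit 0) (nat_lit 948777851365) (nat_lit 0) (nat_lit 0) (nat_lit 0) (nat_lit 0) (nat_lit 0) (nat_lit 0) (nat_lit 1) (nat_lit 0) (nat_lit 1) (nat_lit 0) (nat_lit 448) (nat_lit 390) (nat_lit 242)) (XT.nd (nat_lit 94) (nat_lit 0) (nat_lit 0) (XT.lf (nat_lit 0) (nat_lit 1023815685009) (nat_lit 0) (nat_lit 0) (nat_lit 0) (nat_lit 0) (nat_lit 0) (nat_lit 0) (nat_lit 1)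 (nat_lit 0) (nat_lit 1) (nat_lit 0) (nat_lit 449) (nat_lit 390) (nat_lit 241)) (XT.lf (nat_lit 0) (nat_lit 1104856546738) (nat_lit 0) (nat_lit 0) (nat_lit 0) (nat_lit 0) (nat_lit 0) (nat_lit 0) (nat_lit 1) (nat_lit 0) (nat_lit 1) (nat_lit 0) (nat_lit 450) (nat_lit 390) (nat_lit 240)))) (XT.nd (nat_lit 188) (nat_lit 0) (nat_lit 0) (XT.nd (nat_lit 94) (nat_lit 0) (nat_lit 0) (XT.lf (nat_lit 0) (nat_lit 1192380678697) (nat_lit 0) (nat_lit 0) (nat_lit 0) (nat_lit 0) (nat_lit 0) (nat_lit 0) (nat_lit 1) (nat_lit 0) (nat_lit 1) (nat_lit 0) (nat_lit 451) (nat_lit 390) (nat_lit 239)) (XT.lf (nat_lit 0) (nat_lit 1286906742408) (nat_lit 0) (nat_lit 0) (nat_lit 0) (nat_lit 0) (nat_lit 0) (nat_lit 0) (nat_lit 1) (nat_lit 0) (nat_lit 1) (nat_lit 0) (nat_lit 452) (nat_lit 390) (nat_lit 238))) (XT.nd (nat_lit 94) (nat_lit 0) (nat_lit 0) (XT.lf (nat_lit 0) (nat_lit 1388994892322)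 (nat_lit 0) (nat_lit 0) (nat_lit 0) (nat_lit 0) (nat_lit 0) (nat_lit 0) (nat_lit 1) (nat_lit 0) (nat_lit 1) (nat_lit 0) (nat_lit 453) (nat_lit 390) (nat_lit 237)) (XT.lf (nat_lit 0) (nat_lit 1499250095254) (nat_lit 0) (nat_lit 0) (nat_lit 0) (nat_lit 0) (nat_lit 0) (nat_lit 0) (nat_lit 1) (nat_lit 0) (nat_lit 1) (nat_lit 0) (nat_lit 454) (nat_lit 390) (nat_lit 236))))) (XT.nd (nat_lit 376) (nat_lit 0) (nat_lit 0) (XT.nd (nat_lit 188) (nat_lit 0) (nat_lit 0) (XT.nd (nat_lit 94) (nat_lit 0) (nat_lit 0) (XT.lf (nat_lit 0) (nat_lit 1618325715369) (nat_lit 0) (nat_lit 0) (nat_lit 0) (nat_lit 0) (nat_lit 0) (nat_lit 0) (nat_lit 1) (nat_lit 0) (nat_lit 1) (nat_lit 0) (nat_lit 455) (nat_lit 390) (nat_lit 235)) (XT.lf (nat_lit 0) (nat_lit 1746927385973) (nat_lit 0) (nat_lit 0) (nat_lit 0) (nat_lit 0) (nat_lit 0) (nat_lit 0) (nat_lit 1) (nat_lit 0) (nat_lit 1) (nat_lit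 0) (nat_lit 456) (nat_lit 390) (nat_lit 234))) (XT.nd (nat_lit 94) (nat_lit 0) (nat_lit 0) (XT.lf (nat_lit 0) (nat_lit 1885817191037) (nat_lit 0) (nat_lit 0) (nat_lit 0) (nat_lit 0) (nat_lit 0) (nat_lit 0) (nat_lit 1) (nat_lit 0) (nat_lit 1) (nat_lit 0) (nat_lit 457) (nat_lit 390) (nat_lit 233)) (XT.lf (nat_lit 0) (nat_lit 2035818181261) (nat_lit 0) (nat_lit 0) (nat_lit 0) (nat_lit 0) (nat_lit 0) (nat_lit 0) (nat_lit 1) (nat_lit 0) (nat_lit 1) (nat_lit 0) (nat_lit 458) (nat_lit 390) (nat_lit 232)))) (XT.nd (nat_lit 188) (nat_lit 0) (nat_lit 0) (XT.nd (nat_lit 94) (nat_lit 0) (nat_lit 0) (XT.lf (nat_lit 0) (nat_lit 2197819251399) (nat_lit 0) (nat_lit 0) (nat_lit 0) (nat_lit 0) (nat_lit 0) (nat_lit 0) (nat_lit 1) (nat_lit 0) (nat_lit 1) (nat_lit 0) (nat_lit 459) (nat_lit 390) (nat_lit 231)) (XT.lf (nat_lit 0) (nat_lit 2372780407794) (nat_lit 0) (nat_lit 0) (nat_lit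 0) (nat_lit 0) (nat_lit 0) (nat_lit 0) (nat_lit 1) (nat_lit 0) (nat_lit 1) (nat_lit 0) (nat_lit 460) (nat_lit 390) (nat_lit 230))) (XT.nd (nat_lit 94) (nat_lit 0) (nat_lit 0) (XT.lf (nat_lit 0) (nat_lit 2561738457299) (nat_lit 0) (nat_lit 0) (nat_lit 0) (nat_lit 0) (nat_lit 0) (nat_lit 0) (nat_lit 1) (nat_lit 0) (nat_lit 1) (nat_lit 0) (nat_lit 461) (nat_lit 390) (nat_lit 229)) (XT.lf (nat_lit 0) (nat_lit 2765813151318) (nat_lit 0) (nat_lit 0) (nat_lit 0) (nat_lit 0) (nat_lit 0) (nat_lit 0) (nat_lit 1) (nat_lit 0) (nat_lit 1) (nat_lit 0) (nat_lit 462) (nat_lit 390) (nat_lit 228))))))))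
noncomputable def xc156 : XT := (XT.nd (nat_lit 2632) (nat_lit 0) (nat_lit 0) (XT.nd (nat_lit 1316) (nat_lit 0) (nat_lit 0) (XT.nd (nat_lit 658) (nat_lit 0) (nat_lit 0) (XT.nd (nat_lit 282) (nat_lit 0) (nat_lit 0) (XT.nd (nat_lit 94) (nat_lit 0) (nat_lit 0) (XT.lf (nat_lit 0) (nat_lit 2986213821371) (nat_lit 0) (nat_lit 0) (nat_lit 0) (nat_lit 0) (nat_lit 0) (nat_lit 0) (nat_lit 1) (nat_lit 0) (nat_lit 1) (nat_lit 0) (nat_lit 463) (nat_lit 390) (nat_lit 227)) (XT.nd (nat_lit 94) (nat_lit 0) (nat_lit 0) (XT.lf (nat_lit 0) (nat_lit 3224246545503) (nat_lit 0) (nat_lit 0) (nat_lit 0) (nat_lit 0) (nat_lit 0) (nat_lit 0) (nat_lit 1) (nat_lit 0) (nat_lit 1) (nat_lit 0) (nat_lit 464) (nat_lit 390) (nat_lit 226)) (XT.lf (nat_lit 0) (nat_lit 3481321888005) (nat_lit 0) (nat_lit 0) (nat_lit 0) (nat_lit 0) (nat_lit 0) (nat_lit 0) (nat_lit 1) (nat_lit 0) (nat_lit 1) (nat_lit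 0) (nat_lit 465) (nat_lit 390) (nat_lit 225)))) (XT.nd (nat_lit 188) (nat_lit 0) (nat_lit 0) (XT.nd (nat_lit 94) (nat_lit 0) (nat_lit 0) (XT.lf (nat_lit 0) (nat_lit 3758963258313) (nat_lit 0) (nat_lit 0) (nat_lit 0) (nat_lit 0) (nat_lit 0) (nat_lit 0) (nat_lit 1) (nat_lit 0) (nat_lit 1) (nat_lit 0) (nat_lit 466) (nat_lit 390) (nat_lit 224)) (XT.lf (nat_lit 0) (nat_lit 4058815938624) (nat_lit 0) (nat_lit 0) (nat_lit 0) (nat_lit 0) (nat_lit 0) (nat_lit 0) (nat_lit 1) (nat_lit 0) (nat_lit 1) (nat_lit 0) (nat_lit 467) (nat_lit 390) (nat_lit 223))) (XT.nd (nat_lit 94) (nat_lit 0) (nat_lit 0) (XT.lf (nat_lit 0) (nat_lit 4382656833708) (nat_lit 0) (nat_lit 0) (nat_lit 0) (nat_lit 0) (nat_lit 0) (nat_lit 0) (nat_lit 1) (nat_lit 0) (nat_lit 1) (nat_lit 0) (nat_lit 468) (nat_lit 390) (nat_lit 222)) (XT.lf (nat_lit 0) (nat_lit 4732405000722) (nat_lit 0) (nat_lit 0) (nat_lit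 0) (nat_lit 0) (nat_lit 0) (nat_lit 0) (nat_lit 1) (nat_lit 0) (nat_lit 1) (nat_lit 0) (nat_lit 469) (nat_lit 390) (nat_lit 221))))) (XT.nd (nat_lit 282) (nat_lit 0) (nat_lit 0) (XT.nd (nat_lit 94) (nat_lit 0) (nat_lit 0) (XT.lf (nat_lit 0) (nat_lit 5110133021396) (nat_lit 0) (nat_lit 0) (nat_lit 0) (nat_lit 0) (nat_lit 0) (nat_lit 0) (nat_lit 1) (nat_lit 0) (nat_lit 1) (nat_lit 0) (nat_lit 470) (nat_lit 390) (nat_lit 220)) (XT.nd (nat_lit 94) (nat_lit 0) (nat_lit 0) (XT.lf (nat_lit 0) (nat_lit 5518079284001) (nat_lit 0) (nat_lit 0) (nat_lit 0) (nat_lit 0) (nat_lit 0) (nat_lit 0) (nat_lit 1) (nat_lit 0) (nat_lit 1) (nat_lit 0) (nat_lit 471) (nat_lit 390) (nat_lit 219)) (XT.lf (nat_lit 0) (nat_lit 5958661247870) (nat_lit 0) (nat_lit 0) (nat_lit 0) (nat_lit 0) (nat_lit 0) (nat_lit 0) (nat_lit 1) (nat_lit 0) (nat_lit 1) (nat_lit 0) (nat_lit 472) (nat_lit 390)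 (nat_lit 218)))) (XT.nd (nat_lit 188) (nat_lit 0) (nat_lit 0) (XT.nd (nat_lit 94) (nat_lit 0) (nat_lit 0) (XT.lf (nat_lit 0) (nat_lit 6434489769087) (nat_lit 0) (nat_lit 0) (nat_lit 0) (nat_lit 0) (nat_lit 0) (nat_lit 0) (nat_lit 1) (nat_lit 0) (nat_lit 1) (nat_lit 0) (nat_lit 473) (nat_lit 390) (nat_lit 217)) (XT.lf (nat_lit 0) (nat_lit 6948384572221) (nat_lit 0) (nat_lit 0) (nat_lit 0) (nat_lit 0) (nat_lit 0) (nat_lit 0) (nat_lit 1) (nat_lit 0) (nat_lit 1) (nat_lit 0) (nat_lit 474) (nat_lit 390) (nat_lit 216))) (XT.nd (nat_lit 94) (nat_lit 0) (nat_lit 0) (XT.lf (nat_lit 0) (nat_lit 7503390959809) (nat_lit 0) (nat_lit 0) (nat_lit 0) (nat_lit 0) (nat_lit 0) (nat_lit 0) (nat_lit 1) (nat_lit 0) (nat_lit 1) (nat_lit 0) (nat_lit 475) (nat_lit 390) (nat_lit 215)) (XT.lf (nat_lit 0) (nat_lit 8102797858593) (nat_lit 0) (nat_lit 0) (nat_lit 0) (nat_lit 0) (nat_lit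 0) (nat_lit 0) (nat_lit 1) (nat_lit 0) (nat_lit 1) (nat_lit 0) (nat_lit 476) (nat_lit 390) (nat_lit 214)))))) (XT.nd (nat_lit 658) (nat_lit 0) (nat_lit 0) (XT.nd (nat_lit 282) (nat_lit 0) (nat_lit 0) (XT.nd (nat_lit 94) (nat_lit 0) (nat_lit 0) (XT.lf (nat_lit 0) (nat_lit 8750157309454) (nat_lit 0) (nat_lit 0) (nat_lit 0) (nat_lit 0) (nat_lit 0) (nat_lit 0) (nat_lit 1) (nat_lit 0) (nat_lit 1) (nat_lit 0) (nat_lit 477) (nat_lit 390) (nat_lit 213)) (XT.nd (nat_lit 94) (nat_lit 0) (nat_lit 0) (XT.lf (nat_lit 0) (nat_lit 9449305516545) (nat_lit 0) (nat_lit 0) (nat_lit 0) (nat_lit 0) (nat_lit 0) (nat_lit 0) (nat_lit 1) (nat_lit 0) (nat_lit 1) (nat_lit 0) (nat_lit 478) (nat_lit 390) (nat_lit 212)) (XT.lf (nat_lit 0) (nat_lit 10204385580354) (nat_lit 0) (nat_lit 0) (nat_lit 0) (nat_lit 0) (nat_lit 0) (nat_lit 0) (nat_lit 1) (nat_lit 0) (nat_lit 1) (nat_lit 0) (nat_lit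 479) (nat_lit 390) (nat_lit 211)))) (XT.nd (nat_lit 188) (nat_lit 0) (nat_lit 0) (XT.nd (nat_lit 94) (nat_lit 0) (nat_lit 0) (XT.lf (nat_lit 0) (nat_lit 11019872049405) (nat_lit 0) (nat_lit 0) (nat_lit 0) (nat_lit 0) (nat_lit 0) (nat_lit 0) (nat_lit 1) (nat_lit 0) (nat_lit 1) (nat_lit 0) (nat_lit 480) (nat_lit 390) (nat_lit 210)) (XT.lf (nat_lit 0) (nat_lit 11900597436109) (nat_lit 0) (nat_lit 0) (nat_lit 0) (nat_lit 0) (nat_lit 0) (nat_lit 0) (nat_lit 1) (nat_lit 0) (nat_lit 1) (nat_lit 0) (nat_lit 481) (nat_lit 390) (nat_lit 209))) (XT.nd (nat_lit 94) (nat_lit 0) (nat_lit 0) (XT.lf (nat_lit 0) (nat_lit 12851780853869) (nat_lit 0) (nat_lit 0) (nat_lit 0) (nat_lit 0) (nat_lit 0) (nat_lit 0) (nat_lit 1) (nat_lit 0) (nat_lit 1) (nat_lit 0) (nat_lit 482) (nat_lit 390) (nat_lit 208)) (XT.lf (nat_lit 0) (nat_lit 13879058945158) (nat_lit 0) (nat_lit 0) (nat_lit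 0) (nat_lit 0) (nat_lit 0) (nat_lit 0) (nat_lit 1) (nat_lit 0) (nat_lit 1) (nat_lit 0) (nat_lit 483) (nat_lit 390) (nat_lit 207))))) (XT.nd (nat_lit 282) (nat_lit 0) (nat_lit 0) (XT.nd (nat_lit 94) (nat_lit 0) (nat_lit 0) (XT.lf (nat_lit 0) (nat_lit 14988519283853) (nat_lit 0) (nat_lit 0) (nat_lit 0) (nat_lit 0) (nat_lit 0) (nat_lit 0) (nat_lit 1) (nat_lit 0) (nat_lit 1) (nat_lit 0) (nat_lit 484) (nat_lit 390) (nat_lit 206)) (XT.nd (nat_lit 94) (nat_lit 0) (nat_lit 0) (XT.lf (nat_lit 0) (nat_lit 16186736449738) (nat_lit 0) (nat_lit 0) (nat_lit 0) (nat_lit 0) (nat_lit 0) (nat_lit 0) (nat_lit 1) (nat_lit 0) (nat_lit 1) (nat_lit 0) (nat_lit 485) (nat_lit 390) (nat_lit 205)) (XT.lf (nat_lit 0) (nat_lit 17480810988981) (nat_lit 0) (nat_lit 0) (nat_lit 0) (nat_lit 0) (nat_lit 0) (nat_lit 0) (nat_lit 1) (nat_lit 0) (nat_lit 1) (nat_lit 0) (nat_lit 486) (nat_lit 390)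 (nat_lit 204)))) (XT.nd (nat_lit 188) (nat_lit 0) (nat_lit 0) (XT.nd (nat_lit 94) (nat_lit 0) (nat_lit 0) (XT.lf (nat_lit 0) (nat_lit 18878411491444) (nat_lit 0) (nat_lit 0) (nat_lit 0) (nat_lit 0) (nat_lit 0) (nat_lit 0) (nat_lit 1) (nat_lit 0) (nat_lit 1) (nat_lit 0) (nat_lit 487) (nat_lit 390) (nat_lit 203)) (XT.lf (nat_lit 0) (nat_lit 20387820034179) (nat_lit 0) (nat_lit 0) (nat_lit 0) (nat_lit 0) (nat_lit 0) (nat_lit 0) (nat_lit 1) (nat_lit 0) (nat_lit 1) (nat_lit 0) (nat_lit 488) (nat_lit 390) (nat_lit 202))) (XT.nd (nat_lit 94) (nat_lit 0) (nat_lit 0) (XT.lf (nat_lit 0) (nat_lit 22017981260402) (nat_lit 0) (nat_lit 0) (nat_lit 0) (nat_lit 0) (nat_lit 0) (nat_lit 0) (nat_lit 1) (nat_lit 0) (nat_lit 1) (nat_lit 0) (nat_lit 489) (nat_lit 390) (nat_lit 201)) (XT.lf (nat_lit 0) (nat_lit 23778555384787) (nat_lit 0) (nat_lit 0) (nat_lit 0) (nat_lit 0) (nat_lit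 0) (nat_lit 0) (nat_lit 1) (nat_lit 0) (nat_lit 1) (nat_lit 0) (nat_lit 490) (nat_lit 390) (nat_lit 200))))))) (XT.nd (nat_lit 58374) (nat_lit 0) (nat_lit 7812) (XT.nd (nat_lit 658) (nat_lit 0) (nat_lit 0) (XT.nd (nat_lit 282) (nat_lit 0) (nat_lit 0) (XT.nd (nat_lit 94) (nat_lit 0) (nat_lit 0) (XT.lf (nat_lit 0) (nat_lit 25679975439182) (nat_lit 0) (nat_lit 0) (nat_lit 0) (nat_lit 0) (nat_lit 0) (nat_lit 0) (nat_lit 1) (nat_lit 0) (nat_lit 1) (nat_lit 0) (nat_lit 491) (nat_lit 390) (nat_lit 199)) (XT.nd (nat_lit 94) (nat_lit 0) (nat_lit 0) (XT.lf (nat_lit 0) (nat_lit 27733509097984) (nat_lit 0) (nat_lit 0) (nat_lit 0) (nat_lit 0) (nat_lit 0) (nat_lit 0) (nat_lit 1) (nat_lit 0) (nat_lit 1) (nat_lit 0) (nat_lit 492) (nat_lit 390) (nat_lit 198)) (XT.lf (nat_lit 0) (nat_lit 29951325449541) (nat_lit 0) (nat_lit 0) (nat_lit 0) (nat_lit 0) (nat_lit 0) (nat_lit 0)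 (nat_lit 1) (nat_lit 0) (nat_lit 1) (nat_lit 0) (nat_lit 493) (nat_lit 390) (nat_lit 197)))) (XT.nd (nat_lit 188) (nat_lit 0) (nat_lit 0) (XT.nd (nat_lit 94) (nat_lit 0) (nat_lit 0) (XT.lf (nat_lit 0) (nat_lit 32346567109270) (nat_lit 0) (nat_lit 0) (nat_lit 0) (nat_lit 0) (nat_lit 0) (nat_lit 0) (nat_lit 1) (nat_lit 0) (nat_lit 1) (nat_lit 0) (nat_lit 494) (nat_lit 390) (nat_lit 196)) (XT.lf (nat_lit 0) (nat_lit 34933428101820) (nat_lit 0) (nat_lit 0) (nat_lit 0) (nat_lit 0) (nat_lit 0) (nat_lit 0) (nat_lit 1) (nat_lit 0) (nat_lit 1) (nat_lit 0) (nat_lit 495) (nat_lit 390) (nat_lit 195))) (XT.nd (nat_lit 94) (nat_lit 0) (nat_lit 0) (XT.lf (nat_lit 0) (nat_lit 37727237973816) (nat_lit 0) (nat_lit 0) (nat_lit 0) (nat_lit 0) (nat_lit 0) (nat_lit 0) (nat_lit 1) (nat_lit 0) (nat_lit 1) (nat_lit 0) (nat_lit 496) (nat_lit 390) (nat_lit 194)) (XT.lf (nat_lit 0) (nat_lit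 40744552635608) (nat_lit 0) (nat_lit 0) (nat_lit 0) (nat_lit 0) (nat_lit 0) (nat_lit 0) (nat_lit 1) (nat_lit 0) (nat_lit 1) (nat_lit 0) (nat_lit 497) (nat_lit 390) (nat_lit 193))))) (XT.nd (nat_lit 282) (nat_lit 0) (nat_lit 0) (XT.nd (nat_lit 94) (nat_lit 0) (nat_lit 0) (XT.lf (nat_lit 0) (nat_lit 44003252470378) (nat_lit 0) (nat_lit 0) (nat_lit 0) (nat_lit 0) (nat_lit 0) (nat_lit 0) (nat_lit 1) (nat_lit 0) (nat_lit 1) (nat_lit 0) (nat_lit 498) (nat_lit 390) (nat_lit 192)) (XT.nd (nat_lit 94) (nat_lit 0) (nat_lit 0) (XT.lf (nat_lit 0) (nat_lit 47522648291962) (nat_lit 0) (nat_lit 0) (nat_lit 0) (nat_lit 0) (nat_lit 0) (nat_lit 0) (nat_lit 1) (nat_lit 0) (nat_lit 1) (nat_lit 0) (nat_lit 499) (nat_lit 390) (nat_lit 191)) (XT.lf (nat_lit 0) (nat_lit 51323595779303) (nat_lit 0) (nat_lit 0) (nat_lit 0) (nat_lit 0) (nat_lit 0) (nat_lit 0) (nat_lit 1) (nat_lit 0)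 (nat_lit 1) (nat_lit 0) (nat_lit 500) (nat_lit 390) (nat_lit 190)))) (XT.nd (nat_lit 188) (nat_lit 0) (nat_lit 0) (XT.nd (nat_lit 94) (nat_lit 0) (nat_lit 0) (XT.lf (nat_lit 0) (nat_lit 55428619065658) (nat_lit 0) (nat_lit 0) (nat_lit 0) (nat_lit 0) (nat_lit 0) (nat_lit 0) (nat_lit 1) (nat_lit 0) (nat_lit 1) (nat_lit 0) (nat_lit 501) (nat_lit 390) (nat_lit 189)) (XT.lf (nat_lit 0) (nat_lit 59862044214947) (nat_lit 0) (nat_lit 0) (nat_lit 0) (nat_lit 0) (nat_lit 0) (nat_lit 0) (nat_lit 1) (nat_lit 0) (nat_lit 1) (nat_lit 0) (nat_lit 502) (nat_lit 390) (nat_lit 188))) (XT.nd (nat_lit 94) (nat_lit 0) (nat_lit 0) (XT.lf (nat_lit 0) (nat_lit 64650143376203) (nat_lit 0) (nat_lit 0) (nat_lit 0) (nat_lit 0) (nat_lit 0) (nat_lit 0) (nat_lit 1) (nat_lit 0) (nat_lit 1) (nat_lit 0) (nat_lit 503) (nat_lit 390) (nat_lit 187)) (XT.lf (nat_lit 0) (nat_lit 69821290470381)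 (nat_lit 0) (nat_lit 0) (nat_lit 0) (nat_lit 0) (nat_lit 0) (nat_lit 0) (nat_lit 1) (nat_lit 0) (nat_lit 1) (nat_lit 0) (nat_lit 504) (nat_lit 390) (nat_lit 186)))))) (XT.nd (nat_lit 658) (nat_lit 2940) (nat_lit 0) (XT.nd (nat_lit 282) (nat_lit 0) (nat_lit 168) (XT.nd (nat_lit 94) (nat_lit 0) (nat_lit 84) (XT.lf (nat_lit 0) (nat_lit 10140010541) (nat_lit 924) (nat_lit 5959475481) (nat_lit 924) (nat_lit 5959475481) (nat_lit 128) (nat_lit 3) (nat_lit 139) (nat_lit 3) (nat_lit 139) (nat_lit 5) (nat_lit 391) (nat_lit 391) (nat_lit 298)) (XT.nd (nat_lit 94) (nat_lit 0) (nat_lit 0) (XT.lf (nat_lit 0) (nat_lit 21561334441) (nat_lit 840) (nat_lit 21754447892) (nat_lit 924) (nat_lit 2543351972) (nat_lit 129) (nat_lit 5) (nat_lit 139) (nat_lit 5) (nat_lit 140) (nat_lit 5) (nat_lit 392) (nat_lit 391) (nat_lit 297)) (XT.lf (nat_lit 84) (nat_lit 15658274252) (nat_lit 0)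 (nat_lit 8280089335) (nat_lit 924) (nat_lit 23751618379) (nat_lit 130) (nat_lit 5) (nat_lit 129) (nat_lit 5) (nat_lit 140) (nat_lit 5) (nat_lit 393) (nat_lit 391) (nat_lit 296)))) (XT.nd (nat_lit 188) (nat_lit 0) (nat_lit 168) (XT.nd (nat_lit 94) (nat_lit 0) (nat_lit 84) (XT.lf (nat_lit 84) (nat_lit 6943786531) (nat_lit 0) (nat_lit 20511984400) (nat_lit 924) (nat_lit 22164015717) (nat_lit 131) (nat_lit 5) (nat_lit 130) (nat_lit 5) (nat_lit 141) (nat_lit 5) (nat_lit 394) (nat_lit 391) (nat_lit 295)) (XT.lf (nat_lit 0) (nat_lit 32227782355) (nat_lit 840) (nat_lit 1918040378) (nat_lit 924) (nat_lit 17509492398) (nat_lit 131) (nat_lit 5) (nat_lit 141) (nat_lit 5) (nat_lit 142) (nat_lit 5) (nat_lit 395) (nat_lit 391) (nat_lit 294))) (XT.nd (nat_lit 94) (nat_lit 0) (nat_lit 0) (XT.lf (nat_lit 0) (nat_lit 38470589124) (nat_lit 840) (nat_lit 10744803041) (nat_lit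 924) (nat_lit 4583842004) (nat_lit 132) (nat_lit 5) (nat_lit 142) (nat_lit 5) (nat_lit 143) (nat_lit 5) (nat_lit 396) (nat_lit 391) (nat_lit 293)) (XT.lf (nat_lit 84) (nat_lit 36157973079) (nat_lit 0) (nat_lit 10225191559) (nat_lit 924) (nat_lit 9672984883) (nat_lit 133) (nat_lit 5) (nat_lit 132) (nat_lit 5) (nat_lit 143) (nat_lit 5) (nat_lit 397) (nat_lit 391) (nat_lit 292))))) (XT.nd (nat_lit 376) (nat_lit 1092) (nat_lit 0) (XT.nd (nat_lit 188) (nat_lit 840) (nat_lit 0) (XT.nd (nat_lit 94) (nat_lit 588) (nat_lit 0) (XT.lf (nat_lit 0) (nat_lit 29140978285) (nat_lit 840) (nat_lit 26927126231) (nat_lit 924) (nat_lit 2368545669) (nat_lit 123) (nat_lit 5) (nat_lit 133) (nat_lit 5) (nat_lit 134) (nat_lit 5) (nat_lit 398) (nat_lit 391) (nat_lit 291)) (XT.lf (nat_lit 0) (nat_lit 6463153566) (nat_lit 588) (nat_lit 38941725314) (nat_lit 84) (nat_lit 15542423329) (nat_lit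 116) (nat_lit 5) (nat_lit 123) (nat_lit 5) (nat_lit 117) (nat_lit 5) (nat_lit 399) (nat_lit 391) (nat_lit 290))) (XT.nd (nat_lit 94) (nat_lit 420) (nat_lit 0) (XT.lf (nat_lit 0) (nat_lit 14791602776) (nat_lit 420) (nat_lit 2328296308) (nat_lit 504) (nat_lit 46476891247) (nat_lit 111) (nat_lit 5) (nat_lit 116) (nat_lit 5) (nat_lit 117) (nat_lit 5) (nat_lit 400) (nat_lit 391) (nat_lit 289)) (XT.lf (nat_lit 0) (nat_lit 7319769834) (nat_lit 420) (nat_lit 22800075547) (nat_lit 504) (nat_lit 36263859064) (nat_lit 106) (nat_lit 5) (nat_lit 111) (nat_lit 5) (nat_lit 112) (nat_lit 5) (nat_lit 401) (nat_lit 391) (nat_lit 288)))) (XT.nd (nat_lit 188) (nat_lit 756) (nat_lit 0) (XT.nd (nat_lit 94) (nat_lit 336) (nat_lit 0) (XT.lf (nat_lit 0) (nat_lit 45429558732) (nat_lit 504) (nat_lit 99305195) (nat_lit 84) (nat_lit 23801219196) (nat_lit 106) (nat_lit 5) (nat_lit 112)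 (nat_lit 5) (nat_lit 107) (nat_lit 5) (nat_lit 402) (nat_lit 391) (nat_lit 287)) (XT.lf (nat_lit 0) (nat_lit 63395053997) (nat_lit 420) (nat_lit 7187552454) (nat_lit 84) (nat_lit 1858015400) (nat_lit 102) (nat_lit 5) (nat_lit 107) (nat_lit 5) (nat_lit 103) (nat_lit 5) (nat_lit 403) (nat_lit 391) (nat_lit 286))) (XT.nd (nat_lit 94) (nat_lit 336) (nat_lit 0) (XT.lf (nat_lit 0) (nat_lit 8524885041) (nat_lit 420) (nat_lit 14625217281) (nat_lit 84) (nat_lit 52556884971) (nat_lit 97) (nat_lit 5) (nat_lit 102) (nat_lit 5) (nat_lit 98) (nat_lit 5) (nat_lit 404) (nat_lit 391) (nat_lit 285)) (XT.lf (nat_lit 0) (nat_lit 28668898231) (nat_lit 420) (nat_lit 22109043718) (nat_lit 84) (nat_lit 28375063786) (nat_lit 93) (nat_lit 5) (nat_lit 98) (nat_lit 5) (nat_lit 94) (nat_lit 5) (nat_lit 405) (nat_lit 391) (nat_lit 284))))))))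
noncomputable def xc157 : XT := (XT.nd (nat_lit 2632) (nat_lit 2016) (nat_lit 0) (XT.nd (nat_lit 1316) (nat_lit 2184) (nat_lit 0) (XT.nd (nat_lit 658) (nat_lit 1512) (nat_lit 0) (XT.nd (nat_lit 282) (nat_lit 1092) (nat_lit 0) (XT.nd (nat_lit 94) (nat_lit 672) (nat_lit 0) (XT.lf (nat_lit 0) (nat_lit 51929074563) (nat_lit 420) (nat_lit 29405038412) (nat_lit 84) (nat_lit 1465360574) (nat_lit 89) (nat_lit 5) (nat_lit 94) (nat_lit 5) (nat_lit 90) (nat_lit 5) (nat_lit 406) (nat_lit 391) (nat_lit 283)) (XT.nd (nat_lit 94) (nat_lit 420) (nat_lit 0) (XT.lf (nat_lit 0) (nat_lit 49735717866) (nat_lit 252) (nat_lit 29336317737) (nat_lit 336) (nat_lit 7564524654) (nat_lit 86) (nat_lit 5) (nat_lit 89) (nat_lit 5) (nat_lit 90) (nat_lit 5) (nat_lit 407) (nat_lit 391) (nat_lit 282)) (XT.lf (nat_lit 0) (nat_lit 18733872493) (nat_lit 420) (nat_lit 44436503871) (nat_lit 84) (nat_lit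 27511916275) (nat_lit 81) (nat_lit 5) (nat_lit 86) (nat_lit 5) (nat_lit 82) (nat_lit 5) (nat_lit 408) (nat_lit 391) (nat_lit 281)))) (XT.nd (nat_lit 188) (nat_lit 588) (nat_lit 0) (XT.nd (nat_lit 94) (nat_lit 252) (nat_lit 0) (XT.lf (nat_lit 0) (nat_lit 43085766662) (nat_lit 252) (nat_lit 5607569391) (nat_lit 336) (nat_lit 46261036195) (nat_lit 78) (nat_lit 5) (nat_lit 81) (nat_lit 5) (nat_lit 82) (nat_lit 5) (nat_lit 409) (nat_lit 391) (nat_lit 280)) (XT.lf (nat_lit 0) (nat_lit 40050450228) (nat_lit 252) (nat_lit 43292304815) (nat_lit 336) (nat_lit 16110803264) (nat_lit 75) (nat_lit 5) (nat_lit 78) (nat_lit 5) (nat_lit 79) (nat_lit 5) (nat_lit 410) (nat_lit 391) (nat_lit 279))) (XT.nd (nat_lit 94) (nat_lit 252) (nat_lit 0) (XT.lf (nat_lit 0) (nat_lit 17840994883) (nat_lit 336) (nat_lit 66788594578) (nat_lit 84) (nat_lit 19574442345) (nat_lit 71) (nat_lit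 5) (nat_lit 75) (nat_lit 5) (nat_lit 72) (nat_lit 5) (nat_lit 411) (nat_lit 391) (nat_lit 278)) (XT.lf (nat_lit 0) (nat_lit 34914115303) (nat_lit 252) (nat_lit 21362987665) (nat_lit 336) (nat_lit 52927604132) (nat_lit 68) (nat_lit 5) (nat_lit 71) (nat_lit 5) (nat_lit 72) (nat_lit 5) (nat_lit 412) (nat_lit 391) (nat_lit 277))))) (XT.nd (nat_lit 282) (nat_lit 840) (nat_lit 0) (XT.nd (nat_lit 94) (nat_lit 504) (nat_lit 0) (XT.lf (nat_lit 0) (nat_lit 32888458290) (nat_lit 168) (nat_lit 67327182178) (nat_lit 252) (nat_lit 14268418912) (nat_lit 66) (nat_lit 5) (nat_lit 68) (nat_lit 5) (nat_lit 69) (nat_lit 5) (nat_lit 413) (nat_lit 391) (nat_lit 276)) (XT.nd (nat_lit 94) (nat_lit 168) (nat_lit 0) (XT.lf (nat_lit 0) (nat_lit 28807996147) (nat_lit 336) (nat_lit 88732237701) (nat_lit 84) (nat_lit 2513864337) (nat_lit 62) (nat_lit 5) (nat_lit 66) (nat_lit 5) (nat_lit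 63) (nat_lit 5) (nat_lit 414) (nat_lit 391) (nat_lit 275)) (XT.lf (nat_lit 0) (nat_lit 29737929308) (nat_lit 168) (nat_lit 48142022939) (nat_lit 252) (nat_lit 48025626234) (nat_lit 60) (nat_lit 5) (nat_lit 62) (nat_lit 5) (nat_lit 63) (nat_lit 5) (nat_lit 415) (nat_lit 391) (nat_lit 274)))) (XT.nd (nat_lit 188) (nat_lit 420) (nat_lit 0) (XT.nd (nat_lit 94) (nat_lit 168) (nat_lit 0) (XT.lf (nat_lit 0) (nat_lit 1179541411) (nat_lit 252) (nat_lit 102927543250) (nat_lit 84) (nat_lit 27994948214) (nat_lit 57) (nat_lit 5) (nat_lit 60) (nat_lit 5) (nat_lit 58) (nat_lit 5) (nat_lit 416) (nat_lit 391) (nat_lit 273)) (XT.lf (nat_lit 0) (nat_lit 28529356424) (nat_lit 168) (nat_lit 27090061403) (nat_lit 252) (nat_lit 82986376558) (nat_lit 55) (nat_lit 5) (nat_lit 57) (nat_lit 5) (nat_lit 58) (nat_lit 5) (nat_lit 417) (nat_lit 391) (nat_lit 272))) (XT.nd (nat_lit 94) (nat_lit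 252) (nat_lit 0) (XT.lf (nat_lit 0) (nat_lit 28647563019) (nat_lit 168) (nat_lit 88910824872) (nat_lit 252) (nat_lit 27914273749) (nat_lit 53) (nat_lit 5) (nat_lit 55) (nat_lit 5) (nat_lit 56) (nat_lit 5) (nat_lit 418) (nat_lit 391) (nat_lit 271)) (XT.lf (nat_lit 0) (nat_lit 29570393566) (nat_lit 168) (nat_lit 3848991368) (nat_lit 252) (nat_lit 119301552536) (nat_lit 50) (nat_lit 5) (nat_lit 52) (nat_lit 5) (nat_lit 53) (nat_lit 5) (nat_lit 419) (nat_lit 391) (nat_lit 270)))))) (XT.nd (nat_lit 658) (nat_lit 1008) (nat_lit 0) (XT.nd (nat_lit 282) (nat_lit 672) (nat_lit 0) (XT.nd (nat_lit 94) (nat_lit 336) (nat_lit 0) (XT.lf (nat_lit 0) (nat_lit 30497601931) (nat_lit 168) (nat_lit 72114676353) (nat_lit 252) (nat_lit 57717390423) (nat_lit 48) (nat_lit 5) (nat_lit 50) (nat_lit 5) (nat_lit 51) (nat_lit 5) (nat_lit 420) (nat_lit 391) (nat_lit 269)) (XT.nd (nat_lit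 94) (nat_lit 168) (nat_lit 0) (XT.lf (nat_lit 0) (nat_lit 11617338307) (nat_lit 168) (nat_lit 135525618932) (nat_lit 84) (nat_lit 21242012605) (nat_lit 46) (nat_lit 5) (nat_lit 48) (nat_lit 5) (nat_lit 47) (nat_lit 5) (nat_lit 421) (nat_lit 391) (nat_lit 268)) (XT.lf (nat_lit 0) (nat_lit 35126574869) (nat_lit 168) (nat_lit 53439042285) (nat_lit 252) (nat_lit 88267323181) (nat_lit 44) (nat_lit 5) (nat_lit 46) (nat_lit 5) (nat_lit 47) (nat_lit 5) (nat_lit 422) (nat_lit 391) (nat_lit 267)))) (XT.nd (nat_lit 188) (nat_lit 336) (nat_lit 0) (XT.nd (nat_lit 94) (nat_lit 252) (nat_lit 0) (XT.lf (nat_lit 0) (nat_lit 38890056297) (nat_lit 84) (nat_lit 136530882183) (nat_lit 168) (nat_lit 10348250977) (nat_lit 43) (nat_lit 5) (nat_lit 44) (nat_lit 5) (nat_lit 45) (nat_lit 4) (nat_lit 423) (nat_lit 391) (nat_lit 266)) (XT.lf (nat_lit 0) (nat_lit 42977226758) (nat_lit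 168) (nat_lit 32544772582) (nat_lit 252) (nat_lit 119636731916) (nat_lit 40) (nat_lit 5) (nat_lit 42) (nat_lit 5) (nat_lit 43) (nat_lit 5) (nat_lit 424) (nat_lit 391) (nat_lit 265))) (XT.nd (nat_lit 94) (nat_lit 252) (nat_lit 0) (XT.lf (nat_lit 0) (nat_lit 48173750088) (nat_lit 84) (nat_lit 124327222052) (nat_lit 168) (nat_lit 32559899347) (nat_lit 39) (nat_lit 5) (nat_lit 40) (nat_lit 5) (nat_lit 41) (nat_lit 4) (nat_lit 425) (nat_lit 391) (nat_lit 264)) (XT.lf (nat_lit 0) (nat_lit 54561361896) (nat_lit 168) (nat_lit 9047807046) (nat_lit 252) (nat_lit 151893321255) (nat_lit 36) (nat_lit 5) (nat_lit 38) (nat_lit 5) (nat_lit 39) (nat_lit 5) (nat_lit 426) (nat_lit 391) (nat_lit 263))))) (XT.nd (nat_lit 282) (nat_lit 588) (nat_lit 0) (XT.nd (nat_lit 94) (nat_lit 336) (nat_lit 0) (XT.lf (nat_lit 0) (nat_lit 61453957796) (nat_lit 84) (nat_lit 110431003190) (nat_lit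 168) (nat_lit 54590092045) (nat_lit 35) (nat_lit 5) (nat_lit 36) (nat_lit 5) (nat_lit 37) (nat_lit 4) (nat_lit 427) (nat_lit 391) (nat_lit 262)) (XT.nd (nat_lit 94) (nat_lit 84) (nat_lit 0) (XT.lf (nat_lit 0) (nat_lit 53255433500) (nat_lit 252) (nat_lit 167884707668) (nat_lit 84) (nat_lit 16927145933) (nat_lit 32) (nat_lit 5) (nat_lit 35) (nat_lit 5) (nat_lit 33) (nat_lit 4) (nat_lit 428) (nat_lit 391) (nat_lit 261)) (XT.lf (nat_lit 0) (nat_lit 79360792015) (nat_lit 84) (nat_lit 94502654594) (nat_lit 168) (nat_lit 76376336488) (nat_lit 31) (nat_lit 5) (nat_lit 32) (nat_lit 5) (nat_lit 33) (nat_lit 4) (nat_lit 429) (nat_lit 391) (nat_lit 260)))) (XT.nd (nat_lit 188) (nat_lit 252) (nat_lit 0) (XT.nd (nat_lit 94) (nat_lit 84) (nat_lit 0) (XT.lf (nat_lit 0) (nat_lit 44570861287) (nat_lit 252) (nat_lit 172496526783) (nat_lit 84) (nat_lit 46029862970) (nat_lit 28)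 (nat_lit 5) (nat_lit 31) (nat_lit 5) (nat_lit 29) (nat_lit 4) (nat_lit 430) (nat_lit 391) (nat_lit 259)) (XT.lf (nat_lit 0) (nat_lit 102618981315) (nat_lit 84) (nat_lit 76154936148) (nat_lit 168) (nat_lit 97833998533) (nat_lit 27) (nat_lit 5) (nat_lit 28) (nat_lit 5) (nat_lit 29) (nat_lit 4) (nat_lit 431) (nat_lit 391) (nat_lit 258))) (XT.nd (nat_lit 94) (nat_lit 84) (nat_lit 0) (XT.lf (nat_lit 0) (nat_lit 37645437871) (nat_lit 168) (nat_lit 174129948049) (nat_lit 84) (nat_lit 79090051764) (nat_lit 25) (nat_lit 5) (nat_lit 27) (nat_lit 5) (nat_lit 26) (nat_lit 4) (nat_lit 432) (nat_lit 391) (nat_lit 257)) (XT.lf (nat_lit 0) (nat_lit 132060628557) (nat_lit 84) (nat_lit 54946367732) (nat_lit 168) (nat_lit 118852803323) (nat_lit 24) (nat_lit 5) (nat_lit 25) (nat_lit 5) (nat_lit 26) (nat_lit 4) (nat_lit 433) (nat_lit 391) (nat_lit 256))))))) (XT.nd (nat_lit 1316)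 (nat_lit 252) (nat_lit 0) (XT.nd (nat_lit 658) (nat_lit 840) (nat_lit 0) (XT.nd (nat_lit 282) (nat_lit 504) (nat_lit 0) (XT.nd (nat_lit 94) (nat_lit 252) (nat_lit 0) (XT.lf (nat_lit 0) (nat_lit 32752413369) (nat_lit 168) (nat_lit 172194968021) (nat_lit 84) (nat_lit 116719364098) (nat_lit 22) (nat_lit 5) (nat_lit 24) (nat_lit 5) (nat_lit 23) (nat_lit 4) (nat_lit 434) (nat_lit 391) (nat_lit 255)) (XT.nd (nat_lit 94) (nat_lit 168) (nat_lit 0) (XT.lf (nat_lit 0) (nat_lit 168639629456) (nat_lit 84) (nat_lit 30373809380) (nat_lit 168) (nat_lit 139292817131) (nat_lit 21) (nat_lit 5) (nat_lit 22) (nat_lit 5) (nat_lit 23) (nat_lit 4) (nat_lit 435) (nat_lit 391) (nat_lit 254)) (XT.lf (nat_lit 0) (nat_lit 30212899374) (nat_lit 168) (nat_lit 166004877711) (nat_lit 84) (nat_lit 159610334710) (nat_lit 19) (nat_lit 5) (nat_lit 21) (nat_lit 5) (nat_lit 20) (nat_lit 4) (nat_lit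 436) (nat_lit 391) (nat_lit 253)))) (XT.nd (nat_lit 188) (nat_lit 252) (nat_lit 0) (XT.nd (nat_lit 94) (nat_lit 168) (nat_lit 0) (XT.lf (nat_lit 0) (nat_lit 213447959966) (nat_lit 84) (nat_lit 1864085649) (nat_lit 168) (nat_lit 158979840322) (nat_lit 18) (nat_lit 5) (nat_lit 19) (nat_lit 5) (nat_lit 20) (nat_lit 4) (nat_lit 437) (nat_lit 391) (nat_lit 252)) (XT.lf (nat_lit 0) (nat_lit 30402522465) (nat_lit 168) (nat_lit 154762557647) (nat_lit 84) (nat_lit 208546906326) (nat_lit 16) (nat_lit 5) (nat_lit 18) (nat_lit 5) (nat_lit 17) (nat_lit 4) (nat_lit 438) (nat_lit 391) (nat_lit 251))) (XT.nd (nat_lit 94) (nat_lit 168) (nat_lit 0) (XT.lf (nat_lit 0) (nat_lit 236986274075) (nat_lit 168) (nat_lit 146952339825) (nat_lit 0) (nat_lit 30235735787) (nat_lit 15) (nat_lit 5) (nat_lit 17) (nat_lit 4) (nat_lit 15) (nat_lit 4) (nat_lit 439) (nat_lit 391) (nat_lit 250))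 (XT.lf (nat_lit 0) (nat_lit 33758974752) (nat_lit 168) (nat_lit 137544936781) (nat_lit 84) (nat_lit 264416271428) (nat_lit 13) (nat_lit 5) (nat_lit 15) (nat_lit 5) (nat_lit 14) (nat_lit 4) (nat_lit 440) (nat_lit 391) (nat_lit 249))))) (XT.nd (nat_lit 282) (nat_lit 504) (nat_lit 0) (XT.nd (nat_lit 94) (nat_lit 252) (nat_lit 0) (XT.lf (nat_lit 0) (nat_lit 264343674671) (nat_lit 168) (nat_lit 126614431641) (nat_lit 0) (nat_lit 67437855831) (nat_lit 12) (nat_lit 5) (nat_lit 14) (nat_lit 4) (nat_lit 12) (nat_lit 4) (nat_lit 441) (nat_lit 391) (nat_lit 248)) (XT.nd (nat_lit 94) (nat_lit 84) (nat_lit 0) (XT.lf (nat_lit 0) (nat_lit 40790576249) (nat_lit 168) (nat_lit 113285379817) (nat_lit 84) (nat_lit 328222192443) (nat_lit 10) (nat_lit 5) (nat_lit 12) (nat_lit 5) (nat_lit 11) (nat_lit 4) (nat_lit 442) (nat_lit 391) (nat_lit 247)) (XT.lf (nat_lit 0) (nat_lit 298149671255)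 (nat_lit 168) (nat_lit 98657531257) (nat_lit 0) (nat_lit 110619875567) (nat_lit 9) (nat_lit 5) (nat_lit 11) (nat_lit 4) (nat_lit 9) (nat_lit 4) (nat_lit 443) (nat_lit 391) (nat_lit 246)))) (XT.nd (nat_lit 188) (nat_lit 252) (nat_lit 0) (XT.nd (nat_lit 94) (nat_lit 84) (nat_lit 0) (XT.lf (nat_lit 0) (nat_lit 52085978259) (nat_lit 168) (nat_lit 80753738087) (nat_lit 84) (nat_lit 401099981605) (nat_lit 7) (nat_lit 5) (nat_lit 9) (nat_lit 5) (nat_lit 8) (nat_lit 4) (nat_lit 444) (nat_lit 391) (nat_lit 245)) (XT.lf (nat_lit 0) (nat_lit 339311925562) (nat_lit 168) (nat_lit 61763828099) (nat_lit 0) (nat_lit 160711757278) (nat_lit 6) (nat_lit 5) (nat_lit 8) (nat_lit 4) (nat_lit 6) (nat_lit 4) (nat_lit 445) (nat_lit 391) (nat_lit 244))) (XT.nd (nat_lit 94) (nat_lit 84) (nat_lit 0) (XT.lf (nat_lit 0) (nat_lit 68325153027) (nat_lit 168) (nat_lit 38533766109) (nat_lit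 84) (nat_lit 484333343592) (nat_lit 4) (nat_lit 5) (nat_lit 6) (nat_lit 5) (nat_lit 5) (nat_lit 4) (nat_lit 446) (nat_lit 391) (nat_lit 243)) (XT.lf (nat_lit 0) (nat_lit 388865969762) (nat_lit 168) (nat_lit 14417268751) (nat_lit 0) (nat_lit 218770275109) (nat_lit 3) (nat_lit 5) (nat_lit 5) (nat_lit 4) (nat_lit 3) (nat_lit 4) (nat_lit 447) (nat_lit 391) (nat_lit 242)))))) (XT.nd (nat_lit 658) (nat_lit 0) (nat_lit 0) (XT.nd (nat_lit 282) (nat_lit 0) (nat_lit 0) (XT.nd (nat_lit 94) (nat_lit 0) (nat_lit 0) (XT.lf (nat_lit 0) (nat_lit 949642217962) (nat_lit 0) (nat_lit 0) (nat_lit 0) (nat_lit 0) (nat_lit 0) (nat_lit 0) (nat_lit 1) (nat_lit 0) (nat_lit 1) (nat_lit 0) (nat_lit 448) (nat_lit 391) (nat_lit 241)) (XT.nd (nat_lit 94) (nat_lit 0) (nat_lit 0) (XT.lf (nat_lit 0) (nat_lit 1024680052276) (nat_lit 0) (nat_lit 0) (nat_lit 0) (nat_lit 0) (nat_lit 0) (nat_lit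 0) (nat_lit 1) (nat_lit 0) (nat_lit 1) (nat_lit 0) (nat_lit 449) (nat_lit 391) (nat_lit 240)) (XT.lf (nat_lit 0) (nat_lit 1105720914626) (nat_lit 0) (nat_lit 0) (nat_lit 0) (nat_lit 0) (nat_lit 0) (nat_lit 0) (nat_lit 1) (nat_lit 0) (nat_lit 1) (nat_lit 0) (nat_lit 450) (nat_lit 391) (nat_lit 239)))) (XT.nd (nat_lit 188) (nat_lit 0) (nat_lit 0) (XT.nd (nat_lit 94) (nat_lit 0) (nat_lit 0) (XT.lf (nat_lit 0) (nat_lit 1193245047159) (nat_lit 0) (nat_lit 0) (nat_lit 0) (nat_lit 0) (nat_lit 0) (nat_lit 0) (nat_lit 1) (nat_lit 0) (nat_lit 1) (nat_lit 0) (nat_lit 451) (nat_lit 391) (nat_lit 238)) (XT.lf (nat_lit 0) (nat_lit 1287771111402) (nat_lit 0) (nat_lit 0) (nat_lit 0) (nat_lit 0) (nat_lit 0) (nat_lit 0) (nat_lit 1) (nat_lit 0) (nat_lit 1) (nat_lit 0) (nat_lit 452) (nat_lit 391) (nat_lit 237))) (XT.nd (nat_lit 94) (nat_lit 0) (nat_lit 0) (XT.lf (nat_lit 0) (nat_lit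 1389859261809) (nat_lit 0) (nat_lit 0) (nat_lit 0) (nat_lit 0) (nat_lit 0) (nat_lit 0) (nat_lit 1) (nat_lit 0) (nat_lit 1) (nat_lit 0) (nat_lit 453) (nat_lit 391) (nat_lit 236)) (XT.lf (nat_lit 0) (nat_lit 1500114465197) (nat_lit 0) (nat_lit 0) (nat_lit 0) (nat_lit 0) (nat_lit 0) (nat_lit 0) (nat_lit 1) (nat_lit 0) (nat_lit 1) (nat_lit 0) (nat_lit 454) (nat_lit 391) (nat_lit 235))))) (XT.nd (nat_lit 376) (nat_lit 0) (nat_lit 0) (XT.nd (nat_lit 188) (nat_lit 0) (nat_lit 0) (XT.nd (nat_lit 94) (nat_lit 0) (nat_lit 0) (XT.lf (nat_lit 0) (nat_lit 1619190085735) (nat_lit 0) (nat_lit 0) (nat_lit 0) (nat_lit 0) (nat_lit 0) (nat_lit 0) (nat_lit 1) (nat_lit 0) (nat_lit 1) (nat_lit 0) (nat_lit 455) (nat_lit 391) (nat_lit 234)) (XT.lf (nat_lit 0) (nat_lit 1747791756729) (nat_lit 0) (nat_lit 0) (nat_lit 0) (nat_lit 0) (nat_lit 0) (nat_lit 0) (nat_lit 1) (nat_lit 0) (nat_lit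 1) (nat_lit 0) (nat_lit 456) (nat_lit 391) (nat_lit 233))) (XT.nd (nat_lit 94) (nat_lit 0) (nat_lit 0) (XT.lf (nat_lit 0) (nat_lit 1886681562156) (nat_lit 0) (nat_lit 0) (nat_lit 0) (nat_lit 0) (nat_lit 0) (nat_lit 0) (nat_lit 1) (nat_lit 0) (nat_lit 1) (nat_lit 0) (nat_lit 457) (nat_lit 391) (nat_lit 232)) (XT.lf (nat_lit 0) (nat_lit 2036682552715) (nat_lit 0) (nat_lit 0) (nat_lit 0) (nat_lit 0) (nat_lit 0) (nat_lit 0) (nat_lit 1) (nat_lit 0) (nat_lit 1) (nat_lit 0) (nat_lit 458) (nat_lit 391) (nat_lit 231)))) (XT.nd (nat_lit 188) (nat_lit 0) (nat_lit 0) (XT.nd (nat_lit 94) (nat_lit 0) (nat_lit 0) (XT.lf (nat_lit 0) (nat_lit 2198683623163) (nat_lit 0) (nat_lit 0) (nat_lit 0) (nat_lit 0) (nat_lit 0) (nat_lit 0) (nat_lit 1) (nat_lit 0) (nat_lit 1) (nat_lit 0) (nat_lit 459) (nat_lit 391) (nat_lit 230)) (XT.lf (nat_lit 0) (nat_lit 2373644779846) (nat_lit 0) (nat_lit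 0) (nat_lit 0) (nat_lit 0) (nat_lit 0) (nat_lit 0) (nat_lit 1) (nat_lit 0) (nat_lit 1) (nat_lit 0) (nat_lit 460) (nat_lit 391) (nat_lit 229))) (XT.nd (nat_lit 94) (nat_lit 0) (nat_lit 0) (XT.lf (nat_lit 0) (nat_lit 2562602829617) (nat_lit 0) (nat_lit 0) (nat_lit 0) (nat_lit 0) (nat_lit 0) (nat_lit 0) (nat_lit 1) (nat_lit 0) (nat_lit 1) (nat_lit 0) (nat_lit 461) (nat_lit 391) (nat_lit 228)) (XT.lf (nat_lit 0) (nat_lit 2766677523882) (nat_lit 0) (nat_lit 0) (nat_lit 0) (nat_lit 0) (nat_lit 0) (nat_lit 0) (nat_lit 1) (nat_lit 0) (nat_lit 1) (nat_lit 0) (nat_lit 462) (nat_lit 391) (nat_lit 227))))))))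
noncomputable def xc158 : XT := (XT.nd (nat_lit 2632) (nat_lit 0) (nat_lit 0) (XT.nd (nat_lit 1316) (nat_lit 0) (nat_lit 0) (XT.nd (nat_lit 658) (nat_lit 0) (nat_lit 0) (XT.nd (nat_lit 282) (nat_lit 0) (nat_lit 0) (XT.nd (nat_lit 94) (nat_lit 0) (nat_lit 0) (XT.lf (nat_lit 0) (nat_lit 2987078194164) (nat_lit 0) (nat_lit 0) (nat_lit 0) (nat_lit 0) (nat_lit 0) (nat_lit 0) (nat_lit 1) (nat_lit 0) (nat_lit 1) (nat_lit 0) (nat_lit 463) (nat_lit 391) (nat_lit 226)) (XT.nd (nat_lit 94) (nat_lit 0) (nat_lit 0) (XT.lf (nat_lit 0) (nat_lit 3225110918507) (nat_lit 0) (nat_lit 0) (nat_lit 0) (nat_lit 0) (nat_lit 0) (nat_lit 0) (nat_lit 1) (nat_lit 0) (nat_lit 1) (nat_lit 0) (nat_lit 464) (nat_lit 391) (nat_lit 225)) (XT.lf (nat_lit 0) (nat_lit 3482186261204) (nat_lit 0) (nat_lit 0) (nat_lit 0) (nat_lit 0) (nat_lit 0) (nat_lit 0) (nat_lit 1) (nat_lit 0) (nat_lit 1) (nat_lit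 0) (nat_lit 465) (nat_lit 391) (nat_lit 224)))) (XT.nd (nat_lit 188) (nat_lit 0) (nat_lit 0) (XT.nd (nat_lit 94) (nat_lit 0) (nat_lit 0) (XT.lf (nat_lit 0) (nat_lit 3759827631694) (nat_lit 0) (nat_lit 0) (nat_lit 0) (nat_lit 0) (nat_lit 0) (nat_lit 0) (nat_lit 1) (nat_lit 0) (nat_lit 1) (nat_lit 0) (nat_lit 466) (nat_lit 391) (nat_lit 223)) (XT.lf (nat_lit 0) (nat_lit 4059680312172) (nat_lit 0) (nat_lit 0) (nat_lit 0) (nat_lit 0) (nat_lit 0) (nat_lit 0) (nat_lit 1) (nat_lit 0) (nat_lit 1) (nat_lit 0) (nat_lit 467) (nat_lit 391) (nat_lit 222))) (XT.nd (nat_lit 94) (nat_lit 0) (nat_lit 0) (XT.lf (nat_lit 0) (nat_lit 4383521207412) (nat_lit 0) (nat_lit 0) (nat_lit 0) (nat_lit 0) (nat_lit 0) (nat_lit 0) (nat_lit 1) (nat_lit 0) (nat_lit 1) (nat_lit 0) (nat_lit 468) (nat_lit 391) (nat_lit 221)) (XT.lf (nat_lit 0) (nat_lit 4733269374569) (nat_lit 0) (nat_lit 0) (nat_lit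 0) (nat_lit 0) (nat_lit 0) (nat_lit 0) (nat_lit 1) (nat_lit 0) (nat_lit 1) (nat_lit 0) (nat_lit 469) (nat_lit 391) (nat_lit 220))))) (XT.nd (nat_lit 282) (nat_lit 0) (nat_lit 0) (XT.nd (nat_lit 94) (nat_lit 0) (nat_lit 0) (XT.lf (nat_lit 0) (nat_lit 5110997395376) (nat_lit 0) (nat_lit 0) (nat_lit 0) (nat_lit 0) (nat_lit 0) (nat_lit 0) (nat_lit 1) (nat_lit 0) (nat_lit 1) (nat_lit 0) (nat_lit 470) (nat_lit 391) (nat_lit 219)) (XT.nd (nat_lit 94) (nat_lit 0) (nat_lit 0) (XT.lf (nat_lit 0) (nat_lit 5518943658105) (nat_lit 0) (nat_lit 0) (nat_lit 0) (nat_lit 0) (nat_lit 0) (nat_lit 0) (nat_lit 1) (nat_lit 0) (nat_lit 1) (nat_lit 0) (nat_lit 471) (nat_lit 391) (nat_lit 218)) (XT.lf (nat_lit 0) (nat_lit 5959525622088) (nat_lit 0) (nat_lit 0) (nat_lit 0) (nat_lit 0) (nat_lit 0) (nat_lit 0) (nat_lit 1) (nat_lit 0) (nat_lit 1) (nat_lit 0) (nat_lit 472) (nat_lit 391)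 (nat_lit 217)))) (XT.nd (nat_lit 188) (nat_lit 0) (nat_lit 0) (XT.nd (nat_lit 94) (nat_lit 0) (nat_lit 0) (XT.lf (nat_lit 0) (nat_lit 6435354143411) (nat_lit 0) (nat_lit 0) (nat_lit 0) (nat_lit 0) (nat_lit 0) (nat_lit 0) (nat_lit 1) (nat_lit 0) (nat_lit 1) (nat_lit 0) (nat_lit 473) (nat_lit 391) (nat_lit 216)) (XT.lf (nat_lit 0) (nat_lit 6949248946643) (nat_lit 0) (nat_lit 0) (nat_lit 0) (nat_lit 0) (nat_lit 0) (nat_lit 0) (nat_lit 1) (nat_lit 0) (nat_lit 1) (nat_lit 0) (nat_lit 474) (nat_lit 391) (nat_lit 215))) (XT.nd (nat_lit 94) (nat_lit 0) (nat_lit 0) (XT.lf (nat_lit 0) (nat_lit 7504255334322) (nat_lit 0) (nat_lit 0) (nat_lit 0) (nat_lit 0) (nat_lit 0) (nat_lit 0) (nat_lit 1) (nat_lit 0) (nat_lit 1) (nat_lit 0) (nat_lit 475) (nat_lit 391) (nat_lit 214)) (XT.lf (nat_lit 0) (nat_lit 8103662233189) (nat_lit 0) (nat_lit 0) (nat_lit 0) (nat_lit 0) (nat_lit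 0) (nat_lit 0) (nat_lit 1) (nat_lit 0) (nat_lit 1) (nat_lit 0) (nat_lit 476) (nat_lit 391) (nat_lit 213)))))) (XT.nd (nat_lit 658) (nat_lit 0) (nat_lit 0) (XT.nd (nat_lit 282) (nat_lit 0) (nat_lit 0) (XT.nd (nat_lit 94) (nat_lit 0) (nat_lit 0) (XT.lf (nat_lit 0) (nat_lit 8751021684128) (nat_lit 0) (nat_lit 0) (nat_lit 0) (nat_lit 0) (nat_lit 0) (nat_lit 0) (nat_lit 1) (nat_lit 0) (nat_lit 1) (nat_lit 0) (nat_lit 477) (nat_lit 391) (nat_lit 212)) (XT.nd (nat_lit 94) (nat_lit 0) (nat_lit 0) (XT.lf (nat_lit 0) (nat_lit 9450169891291) (nat_lit 0) (nat_lit 0) (nat_lit 0) (nat_lit 0) (nat_lit 0) (nat_lit 0) (nat_lit 1) (nat_lit 0) (nat_lit 1) (nat_lit 0) (nat_lit 478) (nat_lit 391) (nat_lit 211)) (XT.lf (nat_lit 0) (nat_lit 10205249955166) (nat_lit 0) (nat_lit 0) (nat_lit 0) (nat_lit 0) (nat_lit 0) (nat_lit 0) (nat_lit 1) (nat_lit 0) (nat_lit 1) (nat_lit 0) (nat_lit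 479) (nat_lit 391) (nat_lit 210)))) (XT.nd (nat_lit 188) (nat_lit 0) (nat_lit 0) (XT.nd (nat_lit 94) (nat_lit 0) (nat_lit 0) (XT.lf (nat_lit 0) (nat_lit 11020736424280) (nat_lit 0) (nat_lit 0) (nat_lit 0) (nat_lit 0) (nat_lit 0) (nat_lit 0) (nat_lit 1) (nat_lit 0) (nat_lit 1) (nat_lit 0) (nat_lit 480) (nat_lit 391) (nat_lit 209)) (XT.lf (nat_lit 0) (nat_lit 11901461811041) (nat_lit 0) (nat_lit 0) (nat_lit 0) (nat_lit 0) (nat_lit 0) (nat_lit 0) (nat_lit 1) (nat_lit 0) (nat_lit 1) (nat_lit 0) (nat_lit 481) (nat_lit 391) (nat_lit 208))) (XT.nd (nat_lit 94) (nat_lit 0) (nat_lit 0) (XT.lf (nat_lit 0) (nat_lit 12852645228853) (nat_lit 0) (nat_lit 0) (nat_lit 0) (nat_lit 0) (nat_lit 0) (nat_lit 0) (nat_lit 1) (nat_lit 0) (nat_lit 1) (nat_lit 0) (nat_lit 482) (nat_lit 391) (nat_lit 207)) (XT.lf (nat_lit 0) (nat_lit 13879923320191) (nat_lit 0) (nat_lit 0) (nat_lit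 0) (nat_lit 0) (nat_lit 0) (nat_lit 0) (nat_lit 1) (nat_lit 0) (nat_lit 1) (nat_lit 0) (nat_lit 483) (nat_lit 391) (nat_lit 206))))) (XT.nd (nat_lit 282) (nat_lit 0) (nat_lit 0) (XT.nd (nat_lit 94) (nat_lit 0) (nat_lit 0) (XT.lf (nat_lit 0) (nat_lit 14989383658932) (nat_lit 0) (nat_lit 0) (nat_lit 0) (nat_lit 0) (nat_lit 0) (nat_lit 0) (nat_lit 1) (nat_lit 0) (nat_lit 1) (nat_lit 0) (nat_lit 484) (nat_lit 391) (nat_lit 205)) (XT.nd (nat_lit 94) (nat_lit 0) (nat_lit 0) (XT.lf (nat_lit 0) (nat_lit 16187600824858) (nat_lit 0) (nat_lit 0) (nat_lit 0) (nat_lit 0) (nat_lit 0) (nat_lit 0) (nat_lit 1) (nat_lit 0) (nat_lit 1) (nat_lit 0) (nat_lit 485) (nat_lit 391) (nat_lit 204)) (XT.lf (nat_lit 0) (nat_lit 17481675364140) (nat_lit 0) (nat_lit 0) (nat_lit 0) (nat_lit 0) (nat_lit 0) (nat_lit 0) (nat_lit 1) (nat_lit 0) (nat_lit 1) (nat_lit 0) (nat_lit 486) (nat_lit 391)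 (nat_lit 203)))) (XT.nd (nat_lit 188) (nat_lit 0) (nat_lit 0) (XT.nd (nat_lit 94) (nat_lit 0) (nat_lit 0) (XT.lf (nat_lit 0) (nat_lit 18879275866639) (nat_lit 0) (nat_lit 0) (nat_lit 0) (nat_lit 0) (nat_lit 0) (nat_lit 0) (nat_lit 1) (nat_lit 0) (nat_lit 1) (nat_lit 0) (nat_lit 487) (nat_lit 391) (nat_lit 202)) (XT.lf (nat_lit 0) (nat_lit 20388684409407) (nat_lit 0) (nat_lit 0) (nat_lit 0) (nat_lit 0) (nat_lit 0) (nat_lit 0) (nat_lit 1) (nat_lit 0) (nat_lit 1) (nat_lit 0) (nat_lit 488) (nat_lit 391) (nat_lit 201))) (XT.nd (nat_lit 94) (nat_lit 0) (nat_lit 0) (XT.lf (nat_lit 0) (nat_lit 22018845635661) (nat_lit 0) (nat_lit 0) (nat_lit 0) (nat_lit 0) (nat_lit 0) (nat_lit 0) (nat_lit 1) (nat_lit 0) (nat_lit 1) (nat_lit 0) (nat_lit 489) (nat_lit 391) (nat_lit 200)) (XT.lf (nat_lit 0) (nat_lit 23779419760075) (nat_lit 0) (nat_lit 0) (nat_lit 0) (nat_lit 0) (nat_lit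 0) (nat_lit 0) (nat_lit 1) (nat_lit 0) (nat_lit 1) (nat_lit 0) (nat_lit 490) (nat_lit 391) (nat_lit 199))))))) (XT.nd (nat_lit 58468) (nat_lit 0) (nat_lit 7812) (XT.nd (nat_lit 658) (nat_lit 0) (nat_lit 0) (XT.nd (nat_lit 282) (nat_lit 0) (nat_lit 0) (XT.nd (nat_lit 94) (nat_lit 0) (nat_lit 0) (XT.lf (nat_lit 0) (nat_lit 25680839814496) (nat_lit 0) (nat_lit 0) (nat_lit 0) (nat_lit 0) (nat_lit 0) (nat_lit 0) (nat_lit 1) (nat_lit 0) (nat_lit 1) (nat_lit 0) (nat_lit 491) (nat_lit 391) (nat_lit 198)) (XT.nd (nat_lit 94) (nat_lit 0) (nat_lit 0) (XT.lf (nat_lit 0) (nat_lit 27734373473323) (nat_lit 0) (nat_lit 0) (nat_lit 0) (nat_lit 0) (nat_lit 0) (nat_lit 0) (nat_lit 1) (nat_lit 0) (nat_lit 1) (nat_lit 0) (nat_lit 492) (nat_lit 391) (nat_lit 197)) (XT.lf (nat_lit 0) (nat_lit 29952189824902) (nat_lit 0) (nat_lit 0) (nat_lit 0) (nat_lit 0) (nat_lit 0) (nat_lit 0)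 (nat_lit 1) (nat_lit 0) (nat_lit 1) (nat_lit 0) (nat_lit 493) (nat_lit 391) (nat_lit 196)))) (XT.nd (nat_lit 188) (nat_lit 0) (nat_lit 0) (XT.nd (nat_lit 94) (nat_lit 0) (nat_lit 0) (XT.lf (nat_lit 0) (nat_lit 32347431484652) (nat_lit 0) (nat_lit 0) (nat_lit 0) (nat_lit 0) (nat_lit 0) (nat_lit 0) (nat_lit 1) (nat_lit 0) (nat_lit 1) (nat_lit 0) (nat_lit 494) (nat_lit 391) (nat_lit 195)) (XT.lf (nat_lit 0) (nat_lit 34934292477222) (nat_lit 0) (nat_lit 0) (nat_lit 0) (nat_lit 0) (nat_lit 0) (nat_lit 0) (nat_lit 1) (nat_lit 0) (nat_lit 1) (nat_lit 0) (nat_lit 495) (nat_lit 391) (nat_lit 194))) (XT.nd (nat_lit 94) (nat_lit 0) (nat_lit 0) (XT.lf (nat_lit 0) (nat_lit 37728102349236) (nat_lit 0) (nat_lit 0) (nat_lit 0) (nat_lit 0) (nat_lit 0) (nat_lit 0) (nat_lit 1) (nat_lit 0) (nat_lit 1) (nat_lit 0) (nat_lit 496) (nat_lit 391) (nat_lit 193)) (XT.lf (nat_lit 0) (nat_lit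 40745417011044) (nat_lit 0) (nat_lit 0) (nat_lit 0) (nat_lit 0) (nat_lit 0) (nat_lit 0) (nat_lit 1) (nat_lit 0) (nat_lit 1) (nat_lit 0) (nat_lit 497) (nat_lit 391) (nat_lit 192))))) (XT.nd (nat_lit 282) (nat_lit 0) (nat_lit 0) (XT.nd (nat_lit 94) (nat_lit 0) (nat_lit 0) (XT.lf (nat_lit 0) (nat_lit 44004116845830) (nat_lit 0) (nat_lit 0) (nat_lit 0) (nat_lit 0) (nat_lit 0) (nat_lit 0) (nat_lit 1) (nat_lit 0) (nat_lit 1) (nat_lit 0) (nat_lit 498) (nat_lit 391) (nat_lit 191)) (XT.nd (nat_lit 94) (nat_lit 0) (nat_lit 0) (XT.lf (nat_lit 0) (nat_lit 47523512667429) (nat_lit 0) (nat_lit 0) (nat_lit 0) (nat_lit 0) (nat_lit 0) (nat_lit 0) (nat_lit 1) (nat_lit 0) (nat_lit 1) (nat_lit 0) (nat_lit 499) (nat_lit 391) (nat_lit 190)) (XT.lf (nat_lit 0) (nat_lit 51324460154782) (nat_lit 0) (nat_lit 0) (nat_lit 0) (nat_lit 0) (nat_lit 0) (nat_lit 0) (nat_lit 1) (nat_lit 0)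 (nat_lit 1) (nat_lit 0) (nat_lit 500) (nat_lit 391) (nat_lit 189)))) (XT.nd (nat_lit 188) (nat_lit 0) (nat_lit 0) (XT.nd (nat_lit 94) (nat_lit 0) (nat_lit 0) (XT.lf (nat_lit 0) (nat_lit 55429483441150) (nat_lit 0) (nat_lit 0) (nat_lit 0) (nat_lit 0) (nat_lit 0) (nat_lit 0) (nat_lit 1) (nat_lit 0) (nat_lit 1) (nat_lit 0) (nat_lit 501) (nat_lit 391) (nat_lit 188)) (XT.lf (nat_lit 0) (nat_lit 59862908590450) (nat_lit 0) (nat_lit 0) (nat_lit 0) (nat_lit 0) (nat_lit 0) (nat_lit 0) (nat_lit 1) (nat_lit 0) (nat_lit 1) (nat_lit 0) (nat_lit 502) (nat_lit 391) (nat_lit 187))) (XT.nd (nat_lit 94) (nat_lit 0) (nat_lit 0) (XT.lf (nat_lit 0) (nat_lit 64651007751717) (nat_lit 0) (nat_lit 0) (nat_lit 0) (nat_lit 0) (nat_lit 0) (nat_lit 0) (nat_lit 1) (nat_lit 0) (nat_lit 1) (nat_lit 0) (nat_lit 503) (nat_lit 391) (nat_lit 186)) (XT.lf (nat_lit 0) (nat_lit 69822154845905)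 (nat_lit 0) (nat_lit 0) (nat_lit 0) (nat_lit 0) (nat_lit 0) (nat_lit 0) (nat_lit 1) (nat_lit 0) (nat_lit 1) (nat_lit 0) (nat_lit 504) (nat_lit 391) (nat_lit 185)))))) (XT.nd (nat_lit 658) (nat_lit 2940) (nat_lit 0) (XT.nd (nat_lit 282) (nat_lit 0) (nat_lit 168) (XT.nd (nat_lit 94) (nat_lit 0) (nat_lit 84) (XT.lf (nat_lit 0) (nat_lit 11002035455) (nat_lit 924) (nat_lit 6409550883) (nat_lit 924) (nat_lit 6409550883) (nat_lit 128) (nat_lit 3) (nat_lit 139) (nat_lit 3) (nat_lit 139) (nat_lit 5) (nat_lit 392) (nat_lit 392) (nat_lit 296)) (XT.nd (nat_lit 94) (nat_lit 0) (nat_lit 0) (XT.lf (nat_lit 0) (nat_lit 23380471890) (nat_lit 840) (nat_lit 23438326932) (nat_lit 924) (nat_lit 2704354692) (nat_lit 129) (nat_lit 5) (nat_lit 139) (nat_lit 5) (nat_lit 140) (nat_lit 5) (nat_lit 393) (nat_lit 392) (nat_lit 295)) (XT.lf (nat_lit 84) (nat_lit 16964958571) (nat_lit 0)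 (nat_lit 8976568187) (nat_lit 924) (nat_lit 25559249061) (nat_lit 130) (nat_lit 5) (nat_lit 129) (nat_lit 5) (nat_lit 140) (nat_lit 5) (nat_lit 394) (nat_lit 392) (nat_lit 294)))) (XT.nd (nat_lit 188) (nat_lit 0) (nat_lit 168) (XT.nd (nat_lit 94) (nat_lit 0) (nat_lit 84) (XT.lf (nat_lit 84) (nat_lit 7555686203) (nat_lit 0) (nat_lit 22178502959) (nat_lit 924) (nat_lit 23851082590) (nat_lit 131) (nat_lit 5) (nat_lit 130) (nat_lit 5) (nat_lit 141) (nat_lit 5) (nat_lit 395) (nat_lit 392) (nat_lit 293)) (XT.lf (nat_lit 0) (nat_lit 34881521143) (nat_lit 840) (nat_lit 2015100610) (nat_lit 924) (nat_lit 18887342778) (nat_lit 131) (nat_lit 5) (nat_lit 141) (nat_lit 5) (nat_lit 142) (nat_lit 5) (nat_lit 396) (nat_lit 392) (nat_lit 292))) (XT.nd (nat_lit 94) (nat_lit 0) (nat_lit 0) (XT.lf (nat_lit 0) (nat_lit 41618737911) (nat_lit 840) (nat_lit 11546653609) (nat_lit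 924) (nat_lit 4934256300) (nat_lit 132) (nat_lit 5) (nat_lit 142) (nat_lit 5) (nat_lit 143) (nat_lit 5) (nat_lit 397) (nat_lit 392) (nat_lit 291)) (XT.lf (nat_lit 84) (nat_lit 39105835566) (nat_lit 0) (nat_lit 11054123766) (nat_lit 924) (nat_lit 10377375075) (nat_lit 133) (nat_lit 5) (nat_lit 132) (nat_lit 5) (nat_lit 143) (nat_lit 5) (nat_lit 398) (nat_lit 392) (nat_lit 290))))) (XT.nd (nat_lit 376) (nat_lit 1092) (nat_lit 0) (XT.nd (nat_lit 188) (nat_lit 840) (nat_lit 0) (XT.nd (nat_lit 94) (nat_lit 588) (nat_lit 0) (XT.lf (nat_lit 0) (nat_lit 31528407583) (nat_lit 840) (nat_lit 29087106302) (nat_lit 924) (nat_lit 2492970264) (nat_lit 123) (nat_lit 5) (nat_lit 133) (nat_lit 5) (nat_lit 134) (nat_lit 5) (nat_lit 399) (nat_lit 392) (nat_lit 289)) (XT.lf (nat_lit 0) (nat_lit 7039333026) (nat_lit 588) (nat_lit 41998347367) (nat_lit 84) (nat_lit 16782449633)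 (nat_lit 116) (nat_lit 5) (nat_lit 123) (nat_lit 5) (nat_lit 117) (nat_lit 5) (nat_lit 400) (nat_lit 392) (nat_lit 288))) (XT.nd (nat_lit 94) (nat_lit 420) (nat_lit 0) (XT.lf (nat_lit 0) (nat_lit 16031095245) (nat_lit 420) (nat_lit 2514020031) (nat_lit 504) (nat_lit 50136637068) (nat_lit 111) (nat_lit 5) (nat_lit 116) (nat_lit 5) (nat_lit 117) (nat_lit 5) (nat_lit 401) (nat_lit 392) (nat_lit 287)) (XT.lf (nat_lit 0) (nat_lit 7961727119) (nat_lit 420) (nat_lit 24620097831) (nat_lit 504) (nat_lit 39109956254) (nat_lit 106) (nat_lit 5) (nat_lit 111) (nat_lit 5) (nat_lit 112) (nat_lit 5) (nat_lit 402) (nat_lit 392) (nat_lit 286)))) (XT.nd (nat_lit 188) (nat_lit 756) (nat_lit 0) (XT.nd (nat_lit 94) (nat_lit 336) (nat_lit 0) (XT.lf (nat_lit 0) (nat_lit 49112492075) (nat_lit 504) (nat_lit 52681927) (nat_lit 84) (nat_lit 25708887338) (nat_lit 106) (nat_lit 5) (nat_lit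 112) (nat_lit 5) (nat_lit 107) (nat_lit 5) (nat_lit 403) (nat_lit 392) (nat_lit 285)) (XT.lf (nat_lit 0) (nat_lit 68512544297) (nat_lit 420) (nat_lit 7708171201) (nat_lit 84) (nat_lit 2012861802) (nat_lit 102) (nat_lit 5) (nat_lit 107) (nat_lit 5) (nat_lit 103) (nat_lit 5) (nat_lit 404) (nat_lit 392) (nat_lit 284))) (XT.nd (nat_lit 94) (nat_lit 336) (nat_lit 0) (XT.lf (nat_lit 0) (nat_lit 9250884894) (nat_lit 420) (nat_lit 15741757602) (nat_lit 84) (nat_lit 56768703328) (nat_lit 97) (nat_lit 5) (nat_lit 102) (nat_lit 5) (nat_lit 98) (nat_lit 5) (nat_lit 405) (nat_lit 392) (nat_lit 283)) (XT.lf (nat_lit 0) (nat_lit 31004107816) (nat_lit 420) (nat_lit 23824686778) (nat_lit 84) (nat_lit 30654366713) (nat_lit 93) (nat_lit 5) (nat_lit 98) (nat_lit 5) (nat_lit 94) (nat_lit 5) (nat_lit 406) (nat_lit 392) (nat_lit 282))))))))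
noncomputable def xc159 : XT := (XT.nd (nat_lit 2632) (nat_lit 2016) (nat_lit 0) (XT.nd (nat_lit 1316) (nat_lit 2184) (nat_lit 0) (XT.nd (nat_lit 658) (nat_lit 1512) (nat_lit 0) (XT.nd (nat_lit 282) (nat_lit 1092) (nat_lit 0) (XT.nd (nat_lit 94) (nat_lit 672) (nat_lit 0) (XT.lf (nat_lit 0) (nat_lit 56122979800) (nat_lit 420) (nat_lit 31704875320) (nat_lit 84) (nat_lit 1593597349) (nat_lit 89) (nat_lit 5) (nat_lit 94) (nat_lit 5) (nat_lit 90) (nat_lit 5) (nat_lit 407) (nat_lit 392) (nat_lit 281)) (XT.nd (nat_lit 94) (nat_lit 420) (nat_lit 0) (XT.lf (nat_lit 0) (nat_lit 53764856999) (nat_lit 252) (nat_lit 31670373965) (nat_lit 336) (nat_lit 8130382488) (nat_lit 86) (nat_lit 5) (nat_lit 89) (nat_lit 5) (nat_lit 90) (nat_lit 5) (nat_lit 408) (nat_lit 392) (nat_lit 280)) (XT.lf (nat_lit 0) (nat_lit 20268787612) (nat_lit 420) (nat_lit 47940532154) (nat_lit 84) (nat_lit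 29725746019) (nat_lit 81) (nat_lit 5) (nat_lit 86) (nat_lit 5) (nat_lit 82) (nat_lit 5) (nat_lit 409) (nat_lit 392) (nat_lit 279)))) (XT.nd (nat_lit 188) (nat_lit 588) (nat_lit 0) (XT.nd (nat_lit 94) (nat_lit 252) (nat_lit 0) (XT.lf (nat_lit 0) (nat_lit 46581308316) (nat_lit 252) (nat_lit 6041778101) (nat_lit 336) (nat_lit 49925921436) (nat_lit 78) (nat_lit 5) (nat_lit 81) (nat_lit 5) (nat_lit 82) (nat_lit 5) (nat_lit 410) (nat_lit 392) (nat_lit 278)) (XT.lf (nat_lit 0) (nat_lit 43302475651) (nat_lit 252) (nat_lit 46740401132) (nat_lit 336) (nat_lit 17365331121) (nat_lit 75) (nat_lit 5) (nat_lit 78) (nat_lit 5) (nat_lit 79) (nat_lit 5) (nat_lit 411) (nat_lit 392) (nat_lit 277))) (XT.nd (nat_lit 94) (nat_lit 252) (nat_lit 0) (XT.lf (nat_lit 0) (nat_lit 19300024131) (nat_lit 336) (nat_lit 72083392820) (nat_lit 84) (nat_lit 21155349916) (nat_lit 71) (nat_lit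 5) (nat_lit 75) (nat_lit 5) (nat_lit 72) (nat_lit 5) (nat_lit 412) (nat_lit 392) (nat_lit 276)) (XT.lf (nat_lit 0) (nat_lit 37753435256) (nat_lit 252) (nat_lit 23055954948) (nat_lit 336) (nat_lit 57130187515) (nat_lit 68) (nat_lit 5) (nat_lit 71) (nat_lit 5) (nat_lit 72) (nat_lit 5) (nat_lit 413) (nat_lit 392) (nat_lit 275))))) (XT.nd (nat_lit 282) (nat_lit 840) (nat_lit 0) (XT.nd (nat_lit 94) (nat_lit 504) (nat_lit 0) (XT.lf (nat_lit 0) (nat_lit 35564918773) (nat_lit 168) (nat_lit 72696801801) (nat_lit 252) (nat_lit 15379622114) (nat_lit 66) (nat_lit 5) (nat_lit 68) (nat_lit 5) (nat_lit 69) (nat_lit 5) (nat_lit 414) (nat_lit 392) (nat_lit 274)) (XT.nd (nat_lit 94) (nat_lit 168) (nat_lit 0) (XT.lf (nat_lit 0) (nat_lit 31140716920) (nat_lit 336) (nat_lit 95785345173) (nat_lit 84) (nat_lit 2730959893) (nat_lit 62) (nat_lit 5) (nat_lit 66) (nat_lit 5) (nat_lit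 63) (nat_lit 5) (nat_lit 415) (nat_lit 392) (nat_lit 273)) (XT.lf (nat_lit 0) (nat_lit 32160459059) (nat_lit 168) (nat_lit 51976569454) (nat_lit 252) (nat_lit 51839662242) (nat_lit 60) (nat_lit 5) (nat_lit 62) (nat_lit 5) (nat_lit 63) (nat_lit 5) (nat_lit 416) (nat_lit 392) (nat_lit 272)))) (XT.nd (nat_lit 188) (nat_lit 420) (nat_lit 0) (XT.nd (nat_lit 94) (nat_lit 168) (nat_lit 0) (XT.lf (nat_lit 0) (nat_lit 1299937046) (nat_lit 252) (nat_lit 111118255909) (nat_lit 84) (nat_lit 30250700934) (nat_lit 57) (nat_lit 5) (nat_lit 60) (nat_lit 5) (nat_lit 58) (nat_lit 5) (nat_lit 417) (nat_lit 392) (nat_lit 271)) (XT.lf (nat_lit 0) (nat_lit 30853305682) (nat_lit 168) (nat_lit 29240419078) (nat_lit 252) (nat_lit 89599295501) (nat_lit 55) (nat_lit 5) (nat_lit 57) (nat_lit 5) (nat_lit 58) (nat_lit 5) (nat_lit 418) (nat_lit 392) (nat_lit 270))) (XT.nd (nat_lit 94) (nat_lit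 252) (nat_lit 0) (XT.lf (nat_lit 0) (nat_lit 30980093172) (nat_lit 168) (nat_lit 96006765044) (nat_lit 252) (nat_lit 30122426390) (nat_lit 53) (nat_lit 5) (nat_lit 55) (nat_lit 5) (nat_lit 56) (nat_lit 5) (nat_lit 419) (nat_lit 392) (nat_lit 269)) (XT.lf (nat_lit 0) (nat_lit 31975745353) (nat_lit 168) (nat_lit 4140208158) (nat_lit 252) (nat_lit 128821508068) (nat_lit 50) (nat_lit 5) (nat_lit 52) (nat_lit 5) (nat_lit 53) (nat_lit 5) (nat_lit 420) (nat_lit 392) (nat_lit 268)))))) (XT.nd (nat_lit 658) (nat_lit 1008) (nat_lit 0) (XT.nd (nat_lit 282) (nat_lit 672) (nat_lit 0) (XT.nd (nat_lit 94) (nat_lit 336) (nat_lit 0) (XT.lf (nat_lit 0) (nat_lit 32976255624) (nat_lit 168) (nat_lit 77867165628) (nat_lit 252) (nat_lit 62311512916) (nat_lit 48) (nat_lit 5) (nat_lit 50) (nat_lit 5) (nat_lit 51) (nat_lit 5) (nat_lit 421) (nat_lit 392) (nat_lit 267)) (XT.nd (nat_lit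 94) (nat_lit 168) (nat_lit 0) (XT.lf (nat_lit 0) (nat_lit 12568428584) (nat_lit 168) (nat_lit 146328982777) (nat_lit 84) (nat_lit 22957270911) (nat_lit 46) (nat_lit 5) (nat_lit 48) (nat_lit 5) (nat_lit 47) (nat_lit 5) (nat_lit 422) (nat_lit 392) (nat_lit 266)) (XT.lf (nat_lit 0) (nat_lit 37973705297) (nat_lit 168) (nat_lit 57697834539) (nat_lit 252) (nat_lit 95307002061) (nat_lit 44) (nat_lit 5) (nat_lit 46) (nat_lit 5) (nat_lit 47) (nat_lit 5) (nat_lit 423) (nat_lit 392) (nat_lit 265)))) (XT.nd (nat_lit 188) (nat_lit 336) (nat_lit 0) (XT.nd (nat_lit 94) (nat_lit 252) (nat_lit 0) (XT.lf (nat_lit 0) (nat_lit 42037401921) (nat_lit 84) (nat_lit 147437153943) (nat_lit 168) (nat_lit 11155171634) (nat_lit 43) (nat_lit 5) (nat_lit 44) (nat_lit 5) (nat_lit 45) (nat_lit 4) (nat_lit 424) (nat_lit 392) (nat_lit 264)) (XT.lf (nat_lit 0) (nat_lit 46450616436) (nat_lit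 168) (nat_lit 35132460405) (nat_lit 252) (nat_lit 129187387037) (nat_lit 40) (nat_lit 5) (nat_lit 42) (nat_lit 5) (nat_lit 43) (nat_lit 5) (nat_lit 425) (nat_lit 392) (nat_lit 263))) (XT.nd (nat_lit 94) (nat_lit 252) (nat_lit 0) (XT.lf (nat_lit 0) (nat_lit 52062017918) (nat_lit 84) (nat_lit 134257684964) (nat_lit 168) (nat_lit 35145105676) (nat_lit 39) (nat_lit 5) (nat_lit 40) (nat_lit 5) (nat_lit 41) (nat_lit 4) (nat_lit 426) (nat_lit 392) (nat_lit 262)) (XT.lf (nat_lit 0) (nat_lit 58959744707) (nat_lit 168) (nat_lit 9756234776) (nat_lit 252) (nat_lit 164025806078) (nat_lit 36) (nat_lit 5) (nat_lit 38) (nat_lit 5) (nat_lit 39) (nat_lit 5) (nat_lit 427) (nat_lit 392) (nat_lit 261))))) (XT.nd (nat_lit 282) (nat_lit 588) (nat_lit 0) (XT.nd (nat_lit 94) (nat_lit 336) (nat_lit 0) (XT.lf (nat_lit 0) (nat_lit 66402928177) (nat_lit 84) (nat_lit 119250300073) (nat_lit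 168) (nat_lit 58938955505) (nat_lit 35) (nat_lit 5) (nat_lit 36) (nat_lit 5) (nat_lit 37) (nat_lit 4) (nat_lit 428) (nat_lit 392) (nat_lit 260)) (XT.nd (nat_lit 94) (nat_lit 84) (nat_lit 0) (XT.lf (nat_lit 0) (nat_lit 57533038056) (nat_lit 252) (nat_lit 181283073100) (nat_lit 84) (nat_lit 18295700419) (nat_lit 32) (nat_lit 5) (nat_lit 35) (nat_lit 5) (nat_lit 33) (nat_lit 4) (nat_lit 429) (nat_lit 392) (nat_lit 259)) (XT.lf (nat_lit 0) (nat_lit 85740658007) (nat_lit 84) (nat_lit 102048246402) (nat_lit 168) (nat_lit 82469242231) (nat_lit 31) (nat_lit 5) (nat_lit 32) (nat_lit 5) (nat_lit 33) (nat_lit 4) (nat_lit 430) (nat_lit 392) (nat_lit 258)))) (XT.nd (nat_lit 188) (nat_lit 252) (nat_lit 0) (XT.nd (nat_lit 94) (nat_lit 84) (nat_lit 0) (XT.lf (nat_lit 0) (nat_lit 48152641825) (nat_lit 252) (nat_lit 186265495748) (nat_lit 84) (nat_lit 49726087968) (nat_lit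 28) (nat_lit 5) (nat_lit 31) (nat_lit 5) (nat_lit 29) (nat_lit 4) (nat_lit 431) (nat_lit 392) (nat_lit 257)) (XT.lf (nat_lit 0) (nat_lit 110857916502) (nat_lit 84) (nat_lit 82233291816) (nat_lit 168) (nat_lit 105644572085) (nat_lit 27) (nat_lit 5) (nat_lit 28) (nat_lit 5) (nat_lit 29) (nat_lit 4) (nat_lit 432) (nat_lit 392) (nat_lit 256))) (XT.nd (nat_lit 94) (nat_lit 84) (nat_lit 0) (XT.lf (nat_lit 0) (nat_lit 40672205849) (nat_lit 168) (nat_lit 188031179468) (nat_lit 84) (nat_lit 85430530734) (nat_lit 25) (nat_lit 5) (nat_lit 27) (nat_lit 5) (nat_lit 26) (nat_lit 4) (nat_lit 433) (nat_lit 392) (nat_lit 255)) (XT.lf (nat_lit 0) (nat_lit 142653375816) (nat_lit 84) (nat_lit 59328627716) (nat_lit 168) (nat_lit 128345857673) (nat_lit 24) (nat_lit 5) (nat_lit 25) (nat_lit 5) (nat_lit 26) (nat_lit 4) (nat_lit 434) (nat_lit 392) (nat_lit 254))))))) (XT.nd (nat_lit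 1316) (nat_lit 252) (nat_lit 0) (XT.nd (nat_lit 658) (nat_lit 840) (nat_lit 0) (XT.nd (nat_lit 282) (nat_lit 504) (nat_lit 0) (XT.nd (nat_lit 94) (nat_lit 252) (nat_lit 0) (XT.lf (nat_lit 0) (nat_lit 35386831936) (nat_lit 168) (nat_lit 185942920372) (nat_lit 84) (nat_lit 126069621544) (nat_lit 22) (nat_lit 5) (nat_lit 24) (nat_lit 5) (nat_lit 23) (nat_lit 4) (nat_lit 435) (nat_lit 392) (nat_lit 253)) (XT.nd (nat_lit 94) (nat_lit 168) (nat_lit 0) (XT.lf (nat_lit 0) (nat_lit 182157243481) (nat_lit 84) (nat_lit 32790855078) (nat_lit 168) (nat_lit 150421978655) (nat_lit 21) (nat_lit 5) (nat_lit 22) (nat_lit 5) (nat_lit 23) (nat_lit 4) (nat_lit 436) (nat_lit 392) (nat_lit 252)) (XT.lf (nat_lit 0) (nat_lit 32643313470) (nat_lit 168) (nat_lit 179259073323) (nat_lit 84) (nat_lit 172391304837) (nat_lit 19) (nat_lit 5) (nat_lit 21) (nat_lit 5) (nat_lit 20) (nat_lit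 4) (nat_lit 437) (nat_lit 392) (nat_lit 251)))) (XT.nd (nat_lit 188) (nat_lit 252) (nat_lit 0) (XT.nd (nat_lit 94) (nat_lit 168) (nat_lit 0) (XT.lf (nat_lit 0) (nat_lit 230548852982) (nat_lit 84) (nat_lit 2000938357) (nat_lit 168) (nat_lit 171684806370) (nat_lit 18) (nat_lit 5) (nat_lit 19) (nat_lit 5) (nat_lit 20) (nat_lit 4) (nat_lit 438) (nat_lit 392) (nat_lit 250)) (XT.lf (nat_lit 0) (nat_lit 32847321008) (nat_lit 168) (nat_lit 167118750424) (nat_lit 84) (nat_lit 225242244085) (nat_lit 16) (nat_lit 5) (nat_lit 18) (nat_lit 5) (nat_lit 17) (nat_lit 4) (nat_lit 439) (nat_lit 392) (nat_lit 249))) (XT.nd (nat_lit 94) (nat_lit 168) (nat_lit 0) (XT.lf (nat_lit 0) (nat_lit 255957392861) (nat_lit 168) (nat_lit 158684374418) (nat_lit 0) (nat_lit 32665919540) (nat_lit 15) (nat_lit 5) (nat_lit 17) (nat_lit 4) (nat_lit 15) (nat_lit 4) (nat_lit 440) (nat_lit 392) (nat_lit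 248)) (XT.lf (nat_lit 0) (nat_lit 36471556696) (nat_lit 168) (nat_lit 148525036496) (nat_lit 84) (nat_lit 285580611208) (nat_lit 13) (nat_lit 5) (nat_lit 15) (nat_lit 5) (nat_lit 14) (nat_lit 4) (nat_lit 441) (nat_lit 392) (nat_lit 247))))) (XT.nd (nat_lit 282) (nat_lit 504) (nat_lit 0) (XT.nd (nat_lit 94) (nat_lit 252) (nat_lit 0) (XT.lf (nat_lit 0) (nat_lit 285502678577) (nat_lit 168) (nat_lit 136720719115) (nat_lit 0) (nat_lit 72843665926) (nat_lit 12) (nat_lit 5) (nat_lit 14) (nat_lit 4) (nat_lit 12) (nat_lit 4) (nat_lit 442) (nat_lit 392) (nat_lit 246)) (XT.nd (nat_lit 94) (nat_lit 84) (nat_lit 0) (XT.lf (nat_lit 0) (nat_lit 44065001507) (nat_lit 168) (nat_lit 122325967286) (nat_lit 84) (nat_lit 354490472640) (nat_lit 10) (nat_lit 5) (nat_lit 12) (nat_lit 5) (nat_lit 11) (nat_lit 4) (nat_lit 443) (nat_lit 392) (nat_lit 245)) (XT.lf (nat_lit 0) (nat_lit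 322012493596) (nat_lit 168) (nat_lit 106528488714) (nat_lit 0) (nat_lit 119479719583) (nat_lit 9) (nat_lit 5) (nat_lit 11) (nat_lit 4) (nat_lit 9) (nat_lit 4) (nat_lit 444) (nat_lit 392) (nat_lit 244)))) (XT.nd (nat_lit 188) (nat_lit 252) (nat_lit 0) (XT.nd (nat_lit 94) (nat_lit 84) (nat_lit 0) (XT.lf (nat_lit 0) (nat_lit 56263394783) (nat_lit 168) (nat_lit 87192984316) (nat_lit 84) (nat_lit 433197967776) (nat_lit 7) (nat_lit 5) (nat_lit 9) (nat_lit 5) (nat_lit 8) (nat_lit 4) (nat_lit 445) (nat_lit 392) (nat_lit 243)) (XT.lf (nat_lit 0) (nat_lit 366467108823) (nat_lit 168) (nat_lit 66684450012) (nat_lit 0) (nat_lit 173578441520) (nat_lit 6) (nat_lit 5) (nat_lit 8) (nat_lit 4) (nat_lit 6) (nat_lit 4) (nat_lit 446) (nat_lit 392) (nat_lit 242))) (XT.nd (nat_lit 94) (nat_lit 84) (nat_lit 0) (XT.lf (nat_lit 0) (nat_lit 73801102970) (nat_lit 168) (nat_lit 41596544701)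 (nat_lit 84) (nat_lit 523089499191) (nat_lit 4) (nat_lit 5) (nat_lit 6) (nat_lit 5) (nat_lit 5) (nat_lit 4) (nat_lit 447) (nat_lit 392) (nat_lit 241)) (XT.lf (nat_lit 0) (nat_lit 419984895672) (nat_lit 168) (nat_lit 15551267638) (nat_lit 0) (nat_lit 236281148985) (nat_lit 3) (nat_lit 5) (nat_lit 5) (nat_lit 4) (nat_lit 3) (nat_lit 4) (nat_lit 448) (nat_lit 392) (nat_lit 240)))))) (XT.nd (nat_lit 658) (nat_lit 0) (nat_lit 0) (XT.nd (nat_lit 282) (nat_lit 0) (nat_lit 0) (XT.nd (nat_lit 94) (nat_lit 0) (nat_lit 0) (XT.lf (nat_lit 0) (nat_lit 1025613570215) (nat_lit 0) (nat_lit 0) (nat_lit 0) (nat_lit 0) (nat_lit 0) (nat_lit 0) (nat_lit 1) (nat_lit 0) (nat_lit 1) (nat_lit 0) (nat_lit 449) (nat_lit 392) (nat_lit 239)) (XT.nd (nat_lit 94) (nat_lit 0) (nat_lit 0) (XT.lf (nat_lit 0) (nat_lit 1106654433140) (nat_lit 0) (nat_lit 0) (nat_lit 0) (nat_lit 0) (nat_lit 0)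 (nat_lit 0) (nat_lit 1) (nat_lit 0) (nat_lit 1) (nat_lit 0) (nat_lit 450) (nat_lit 392) (nat_lit 238)) (XT.lf (nat_lit 0) (nat_lit 1194178566205) (nat_lit 0) (nat_lit 0) (nat_lit 0) (nat_lit 0) (nat_lit 0) (nat_lit 0) (nat_lit 1) (nat_lit 0) (nat_lit 1) (nat_lit 0) (nat_lit 451) (nat_lit 392) (nat_lit 237)))) (XT.nd (nat_lit 188) (nat_lit 0) (nat_lit 0) (XT.nd (nat_lit 94) (nat_lit 0) (nat_lit 0) (XT.lf (nat_lit 0) (nat_lit 1288704630941) (nat_lit 0) (nat_lit 0) (nat_lit 0) (nat_lit 0) (nat_lit 0) (nat_lit 0) (nat_lit 1) (nat_lit 0) (nat_lit 1) (nat_lit 0) (nat_lit 452) (nat_lit 392) (nat_lit 236)) (XT.lf (nat_lit 0) (nat_lit 1390792781804) (nat_lit 0) (nat_lit 0) (nat_lit 0) (nat_lit 0) (nat_lit 0) (nat_lit 0) (nat_lit 1) (nat_lit 0) (nat_lit 1) (nat_lit 0) (nat_lit 453) (nat_lit 392) (nat_lit 235))) (XT.nd (nat_lit 94) (nat_lit 0) (nat_lit 0) (XT.lf (nat_lit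 0) (nat_lit 1501047985614) (nat_lit 0) (nat_lit 0) (nat_lit 0) (nat_lit 0) (nat_lit 0) (nat_lit 0) (nat_lit 1) (nat_lit 0) (nat_lit 1) (nat_lit 0) (nat_lit 454) (nat_lit 392) (nat_lit 234)) (XT.lf (nat_lit 0) (nat_lit 1620123606543) (nat_lit 0) (nat_lit 0) (nat_lit 0) (nat_lit 0) (nat_lit 0) (nat_lit 0) (nat_lit 1) (nat_lit 0) (nat_lit 1) (nat_lit 0) (nat_lit 455) (nat_lit 392) (nat_lit 233))))) (XT.nd (nat_lit 376) (nat_lit 0) (nat_lit 0) (XT.nd (nat_lit 188) (nat_lit 0) (nat_lit 0) (XT.nd (nat_lit 94) (nat_lit 0) (nat_lit 0) (XT.lf (nat_lit 0) (nat_lit 1748725277899) (nat_lit 0) (nat_lit 0) (nat_lit 0) (nat_lit 0) (nat_lit 0) (nat_lit 0) (nat_lit 1) (nat_lit 0) (nat_lit 1) (nat_lit 0) (nat_lit 456) (nat_lit 392) (nat_lit 232)) (XT.lf (nat_lit 0) (nat_lit 1887615083662) (nat_lit 0) (nat_lit 0) (nat_lit 0) (nat_lit 0) (nat_lit 0) (nat_lit 0) (nat_lit 1) (nat_lit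 0) (nat_lit 1) (nat_lit 0) (nat_lit 457) (nat_lit 392) (nat_lit 231))) (XT.nd (nat_lit 94) (nat_lit 0) (nat_lit 0) (XT.lf (nat_lit 0) (nat_lit 2037616074530) (nat_lit 0) (nat_lit 0) (nat_lit 0) (nat_lit 0) (nat_lit 0) (nat_lit 0) (nat_lit 1) (nat_lit 0) (nat_lit 1) (nat_lit 0) (nat_lit 458) (nat_lit 392) (nat_lit 230)) (XT.lf (nat_lit 0) (nat_lit 2199617145267) (nat_lit 0) (nat_lit 0) (nat_lit 0) (nat_lit 0) (nat_lit 0) (nat_lit 0) (nat_lit 1) (nat_lit 0) (nat_lit 1) (nat_lit 0) (nat_lit 459) (nat_lit 392) (nat_lit 229)))) (XT.nd (nat_lit 188) (nat_lit 0) (nat_lit 0) (XT.nd (nat_lit 94) (nat_lit 0) (nat_lit 0) (XT.lf (nat_lit 0) (nat_lit 2374578302216) (nat_lit 0) (nat_lit 0) (nat_lit 0) (nat_lit 0) (nat_lit 0) (nat_lit 0) (nat_lit 1) (nat_lit 0) (nat_lit 1) (nat_lit 0) (nat_lit 460) (nat_lit 392) (nat_lit 228)) (XT.lf (nat_lit 0) (nat_lit 2563536352233) (nat_lit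 0) (nat_lit 0) (nat_lit 0) (nat_lit 0) (nat_lit 0) (nat_lit 0) (nat_lit 1) (nat_lit 0) (nat_lit 1) (nat_lit 0) (nat_lit 461) (nat_lit 392) (nat_lit 227))) (XT.nd (nat_lit 94) (nat_lit 0) (nat_lit 0) (XT.lf (nat_lit 0) (nat_lit 2767611046727) (nat_lit 0) (nat_lit 0) (nat_lit 0) (nat_lit 0) (nat_lit 0) (nat_lit 0) (nat_lit 1) (nat_lit 0) (nat_lit 1) (nat_lit 0) (nat_lit 462) (nat_lit 392) (nat_lit 226)) (XT.lf (nat_lit 0) (nat_lit 2988011717219) (nat_lit 0) (nat_lit 0) (nat_lit 0) (nat_lit 0) (nat_lit 0) (nat_lit 0) (nat_lit 1) (nat_lit 0) (nat_lit 1) (nat_lit 0) (nat_lit 463) (nat_lit 392) (nat_lit 225))))))))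
noncomputable def xc160 : XT := (XT.nd (nat_lit 2632) (nat_lit 0) (nat_lit 0) (XT.nd (nat_lit 1316) (nat_lit 0) (nat_lit 0) (XT.nd (nat_lit 658) (nat_lit 0) (nat_lit 0) (XT.nd (nat_lit 282) (nat_lit 0) (nat_lit 0) (XT.nd (nat_lit 94) (nat_lit 0) (nat_lit 0) (XT.lf (nat_lit 0) (nat_lit 3226044441758) (nat_lit 0) (nat_lit 0) (nat_lit 0) (nat_lit 0) (nat_lit 0) (nat_lit 0) (nat_lit 1) (nat_lit 0) (nat_lit 1) (nat_lit 0) (nat_lit 464) (nat_lit 392) (nat_lit 224)) (XT.nd (nat_lit 94) (nat_lit 0) (nat_lit 0) (XT.lf (nat_lit 0) (nat_lit 3483119784636) (nat_lit 0) (nat_lit 0) (nat_lit 0) (nat_lit 0) (nat_lit 0) (nat_lit 0) (nat_lit 1) (nat_lit 0) (nat_lit 1) (nat_lit 0) (nat_lit 465) (nat_lit 392) (nat_lit 223)) (XT.lf (nat_lit 0) (nat_lit 3760761155294) (nat_lit 0) (nat_lit 0) (nat_lit 0) (nat_lit 0) (nat_lit 0) (nat_lit 0) (nat_lit 1) (nat_lit 0) (nat_lit 1) (nat_lit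 0) (nat_lit 466) (nat_lit 392) (nat_lit 222)))) (XT.nd (nat_lit 188) (nat_lit 0) (nat_lit 0) (XT.nd (nat_lit 94) (nat_lit 0) (nat_lit 0) (XT.lf (nat_lit 0) (nat_lit 4060613835928) (nat_lit 0) (nat_lit 0) (nat_lit 0) (nat_lit 0) (nat_lit 0) (nat_lit 0) (nat_lit 1) (nat_lit 0) (nat_lit 1) (nat_lit 0) (nat_lit 467) (nat_lit 392) (nat_lit 221)) (XT.lf (nat_lit 0) (nat_lit 4384454731311) (nat_lit 0) (nat_lit 0) (nat_lit 0) (nat_lit 0) (nat_lit 0) (nat_lit 0) (nat_lit 1) (nat_lit 0) (nat_lit 1) (nat_lit 0) (nat_lit 468) (nat_lit 392) (nat_lit 220))) (XT.nd (nat_lit 94) (nat_lit 0) (nat_lit 0) (XT.lf (nat_lit 0) (nat_lit 4734202898601) (nat_lit 0) (nat_lit 0) (nat_lit 0) (nat_lit 0) (nat_lit 0) (nat_lit 0) (nat_lit 1) (nat_lit 0) (nat_lit 1) (nat_lit 0) (nat_lit 469) (nat_lit 392) (nat_lit 219)) (XT.lf (nat_lit 0) (nat_lit 5111930919532) (nat_lit 0) (nat_lit 0) (nat_lit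 0) (nat_lit 0) (nat_lit 0) (nat_lit 0) (nat_lit 1) (nat_lit 0) (nat_lit 1) (nat_lit 0) (nat_lit 470) (nat_lit 392) (nat_lit 218))))) (XT.nd (nat_lit 282) (nat_lit 0) (nat_lit 0) (XT.nd (nat_lit 94) (nat_lit 0) (nat_lit 0) (XT.lf (nat_lit 0) (nat_lit 5519877182374) (nat_lit 0) (nat_lit 0) (nat_lit 0) (nat_lit 0) (nat_lit 0) (nat_lit 0) (nat_lit 1) (nat_lit 0) (nat_lit 1) (nat_lit 0) (nat_lit 471) (nat_lit 392) (nat_lit 217)) (XT.nd (nat_lit 94) (nat_lit 0) (nat_lit 0) (XT.lf (nat_lit 0) (nat_lit 5960459146464) (nat_lit 0) (nat_lit 0) (nat_lit 0) (nat_lit 0) (nat_lit 0) (nat_lit 0) (nat_lit 1) (nat_lit 0) (nat_lit 1) (nat_lit 0) (nat_lit 472) (nat_lit 392) (nat_lit 216)) (XT.lf (nat_lit 0) (nat_lit 6436287667884) (nat_lit 0) (nat_lit 0) (nat_lit 0) (nat_lit 0) (nat_lit 0) (nat_lit 0) (nat_lit 1) (nat_lit 0) (nat_lit 1) (nat_lit 0) (nat_lit 473) (nat_lit 392)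 (nat_lit 215)))) (XT.nd (nat_lit 188) (nat_lit 0) (nat_lit 0) (XT.nd (nat_lit 94) (nat_lit 0) (nat_lit 0) (XT.lf (nat_lit 0) (nat_lit 6950182471207) (nat_lit 0) (nat_lit 0) (nat_lit 0) (nat_lit 0) (nat_lit 0) (nat_lit 0) (nat_lit 1) (nat_lit 0) (nat_lit 1) (nat_lit 0) (nat_lit 474) (nat_lit 392) (nat_lit 214)) (XT.lf (nat_lit 0) (nat_lit 7505188858969) (nat_lit 0) (nat_lit 0) (nat_lit 0) (nat_lit 0) (nat_lit 0) (nat_lit 0) (nat_lit 1) (nat_lit 0) (nat_lit 1) (nat_lit 0) (nat_lit 475) (nat_lit 392) (nat_lit 213))) (XT.nd (nat_lit 94) (nat_lit 0) (nat_lit 0) (XT.lf (nat_lit 0) (nat_lit 8104595757915) (nat_lit 0) (nat_lit 0) (nat_lit 0) (nat_lit 0) (nat_lit 0) (nat_lit 0) (nat_lit 1) (nat_lit 0) (nat_lit 1) (nat_lit 0) (nat_lit 476) (nat_lit 392) (nat_lit 212)) (XT.lf (nat_lit 0) (nat_lit 8751955208925) (nat_lit 0) (nat_lit 0) (nat_lit 0) (nat_lit 0) (nat_lit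 0) (nat_lit 0) (nat_lit 1) (nat_lit 0) (nat_lit 1) (nat_lit 0) (nat_lit 477) (nat_lit 392) (nat_lit 211)))))) (XT.nd (nat_lit 658) (nat_lit 0) (nat_lit 0) (XT.nd (nat_lit 282) (nat_lit 0) (nat_lit 0) (XT.nd (nat_lit 94) (nat_lit 0) (nat_lit 0) (XT.lf (nat_lit 0) (nat_lit 9451103416155) (nat_lit 0) (nat_lit 0) (nat_lit 0) (nat_lit 0) (nat_lit 0) (nat_lit 0) (nat_lit 1) (nat_lit 0) (nat_lit 1) (nat_lit 0) (nat_lit 478) (nat_lit 392) (nat_lit 210)) (XT.nd (nat_lit 94) (nat_lit 0) (nat_lit 0) (XT.lf (nat_lit 0) (nat_lit 10206183480092) (nat_lit 0) (nat_lit 0) (nat_lit 0) (nat_lit 0) (nat_lit 0) (nat_lit 0) (nat_lit 1) (nat_lit 0) (nat_lit 1) (nat_lit 0) (nat_lit 479) (nat_lit 392) (nat_lit 209)) (XT.lf (nat_lit 0) (nat_lit 11021669949262) (nat_lit 0) (nat_lit 0) (nat_lit 0) (nat_lit 0) (nat_lit 0) (nat_lit 0) (nat_lit 1) (nat_lit 0) (nat_lit 1) (nat_lit 0) (nat_lit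 480) (nat_lit 392) (nat_lit 208)))) (XT.nd (nat_lit 188) (nat_lit 0) (nat_lit 0) (XT.nd (nat_lit 94) (nat_lit 0) (nat_lit 0) (XT.lf (nat_lit 0) (nat_lit 11902395336076) (nat_lit 0) (nat_lit 0) (nat_lit 0) (nat_lit 0) (nat_lit 0) (nat_lit 0) (nat_lit 1) (nat_lit 0) (nat_lit 1) (nat_lit 0) (nat_lit 481) (nat_lit 392) (nat_lit 207)) (XT.lf (nat_lit 0) (nat_lit 12853578753937) (nat_lit 0) (nat_lit 0) (nat_lit 0) (nat_lit 0) (nat_lit 0) (nat_lit 0) (nat_lit 1) (nat_lit 0) (nat_lit 1) (nat_lit 0) (nat_lit 482) (nat_lit 392) (nat_lit 206))) (XT.nd (nat_lit 94) (nat_lit 0) (nat_lit 0) (XT.lf (nat_lit 0) (nat_lit 13880856845321) (nat_lit 0) (nat_lit 0) (nat_lit 0) (nat_lit 0) (nat_lit 0) (nat_lit 0) (nat_lit 1) (nat_lit 0) (nat_lit 1) (nat_lit 0) (nat_lit 483) (nat_lit 392) (nat_lit 205)) (XT.lf (nat_lit 0) (nat_lit 14990317184103) (nat_lit 0) (nat_lit 0) (nat_lit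 0) (nat_lit 0) (nat_lit 0) (nat_lit 0) (nat_lit 1) (nat_lit 0) (nat_lit 1) (nat_lit 0) (nat_lit 484) (nat_lit 392) (nat_lit 204))))) (XT.nd (nat_lit 282) (nat_lit 0) (nat_lit 0) (XT.nd (nat_lit 94) (nat_lit 0) (nat_lit 0) (XT.lf (nat_lit 0) (nat_lit 16188534350069) (nat_lit 0) (nat_lit 0) (nat_lit 0) (nat_lit 0) (nat_lit 0) (nat_lit 0) (nat_lit 1) (nat_lit 0) (nat_lit 1) (nat_lit 0) (nat_lit 485) (nat_lit 392) (nat_lit 203)) (XT.nd (nat_lit 94) (nat_lit 0) (nat_lit 0) (XT.lf (nat_lit 0) (nat_lit 17482608889387) (nat_lit 0) (nat_lit 0) (nat_lit 0) (nat_lit 0) (nat_lit 0) (nat_lit 0) (nat_lit 1) (nat_lit 0) (nat_lit 1) (nat_lit 0) (nat_lit 486) (nat_lit 392) (nat_lit 202)) (XT.lf (nat_lit 0) (nat_lit 18880209391919) (nat_lit 0) (nat_lit 0) (nat_lit 0) (nat_lit 0) (nat_lit 0) (nat_lit 0) (nat_lit 1) (nat_lit 0) (nat_lit 1) (nat_lit 0) (nat_lit 487) (nat_lit 392)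 (nat_lit 201)))) (XT.nd (nat_lit 188) (nat_lit 0) (nat_lit 0) (XT.nd (nat_lit 94) (nat_lit 0) (nat_lit 0) (XT.lf (nat_lit 0) (nat_lit 20389617934718) (nat_lit 0) (nat_lit 0) (nat_lit 0) (nat_lit 0) (nat_lit 0) (nat_lit 0) (nat_lit 1) (nat_lit 0) (nat_lit 1) (nat_lit 0) (nat_lit 488) (nat_lit 392) (nat_lit 200)) (XT.lf (nat_lit 0) (nat_lit 22019779161000) (nat_lit 0) (nat_lit 0) (nat_lit 0) (nat_lit 0) (nat_lit 0) (nat_lit 0) (nat_lit 1) (nat_lit 0) (nat_lit 1) (nat_lit 0) (nat_lit 489) (nat_lit 392) (nat_lit 199))) (XT.nd (nat_lit 94) (nat_lit 0) (nat_lit 0) (XT.lf (nat_lit 0) (nat_lit 23780353285441) (nat_lit 0) (nat_lit 0) (nat_lit 0) (nat_lit 0) (nat_lit 0) (nat_lit 0) (nat_lit 1) (nat_lit 0) (nat_lit 1) (nat_lit 0) (nat_lit 490) (nat_lit 392) (nat_lit 198)) (XT.lf (nat_lit 0) (nat_lit 25681773339887) (nat_lit 0) (nat_lit 0) (nat_lit 0) (nat_lit 0) (nat_lit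 0) (nat_lit 0) (nat_lit 1) (nat_lit 0) (nat_lit 1) (nat_lit 0) (nat_lit 491) (nat_lit 392) (nat_lit 197))))))) (XT.nd (nat_lit 58562) (nat_lit 0) (nat_lit 7812) (XT.nd (nat_lit 658) (nat_lit 0) (nat_lit 0) (XT.nd (nat_lit 282) (nat_lit 0) (nat_lit 0) (XT.nd (nat_lit 94) (nat_lit 0) (nat_lit 0) (XT.lf (nat_lit 0) (nat_lit 27735306998736) (nat_lit 0) (nat_lit 0) (nat_lit 0) (nat_lit 0) (nat_lit 0) (nat_lit 0) (nat_lit 1) (nat_lit 0) (nat_lit 1) (nat_lit 0) (nat_lit 492) (nat_lit 392) (nat_lit 196)) (XT.nd (nat_lit 94) (nat_lit 0) (nat_lit 0) (XT.lf (nat_lit 0) (nat_lit 29953123350337) (nat_lit 0) (nat_lit 0) (nat_lit 0) (nat_lit 0) (nat_lit 0) (nat_lit 0) (nat_lit 1) (nat_lit 0) (nat_lit 1) (nat_lit 0) (nat_lit 493) (nat_lit 392) (nat_lit 195)) (XT.lf (nat_lit 0) (nat_lit 32348365010106) (nat_lit 0) (nat_lit 0) (nat_lit 0) (nat_lit 0) (nat_lit 0) (nat_lit 0)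 (nat_lit 1) (nat_lit 0) (nat_lit 1) (nat_lit 0) (nat_lit 494) (nat_lit 392) (nat_lit 194)))) (XT.nd (nat_lit 188) (nat_lit 0) (nat_lit 0) (XT.nd (nat_lit 94) (nat_lit 0) (nat_lit 0) (XT.lf (nat_lit 0) (nat_lit 34935226002694) (nat_lit 0) (nat_lit 0) (nat_lit 0) (nat_lit 0) (nat_lit 0) (nat_lit 0) (nat_lit 1) (nat_lit 0) (nat_lit 1) (nat_lit 0) (nat_lit 495) (nat_lit 392) (nat_lit 193)) (XT.lf (nat_lit 0) (nat_lit 37729035874724) (nat_lit 0) (nat_lit 0) (nat_lit 0) (nat_lit 0) (nat_lit 0) (nat_lit 0) (nat_lit 1) (nat_lit 0) (nat_lit 1) (nat_lit 0) (nat_lit 496) (nat_lit 392) (nat_lit 192))) (XT.nd (nat_lit 94) (nat_lit 0) (nat_lit 0) (XT.lf (nat_lit 0) (nat_lit 40746350536548) (nat_lit 0) (nat_lit 0) (nat_lit 0) (nat_lit 0) (nat_lit 0) (nat_lit 0) (nat_lit 1) (nat_lit 0) (nat_lit 1) (nat_lit 0) (nat_lit 497) (nat_lit 392) (nat_lit 191)) (XT.lf (nat_lit 0) (nat_lit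 44005050371348) (nat_lit 0) (nat_lit 0) (nat_lit 0) (nat_lit 0) (nat_lit 0) (nat_lit 0) (nat_lit 1) (nat_lit 0) (nat_lit 1) (nat_lit 0) (nat_lit 498) (nat_lit 392) (nat_lit 190))))) (XT.nd (nat_lit 282) (nat_lit 0) (nat_lit 0) (XT.nd (nat_lit 94) (nat_lit 0) (nat_lit 0) (XT.lf (nat_lit 0) (nat_lit 47524446192960) (nat_lit 0) (nat_lit 0) (nat_lit 0) (nat_lit 0) (nat_lit 0) (nat_lit 0) (nat_lit 1) (nat_lit 0) (nat_lit 1) (nat_lit 0) (nat_lit 499) (nat_lit 392) (nat_lit 189)) (XT.nd (nat_lit 94) (nat_lit 0) (nat_lit 0) (XT.lf (nat_lit 0) (nat_lit 51325393680326) (nat_lit 0) (nat_lit 0) (nat_lit 0) (nat_lit 0) (nat_lit 0) (nat_lit 0) (nat_lit 1) (nat_lit 0) (nat_lit 1) (nat_lit 0) (nat_lit 500) (nat_lit 392) (nat_lit 188)) (XT.lf (nat_lit 0) (nat_lit 55430416966705) (nat_lit 0) (nat_lit 0) (nat_lit 0) (nat_lit 0) (nat_lit 0) (nat_lit 0) (nat_lit 1) (nat_lit 0)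 (nat_lit 1) (nat_lit 0) (nat_lit 501) (nat_lit 392) (nat_lit 187)))) (XT.nd (nat_lit 188) (nat_lit 0) (nat_lit 0) (XT.nd (nat_lit 94) (nat_lit 0) (nat_lit 0) (XT.lf (nat_lit 0) (nat_lit 59863842116016) (nat_lit 0) (nat_lit 0) (nat_lit 0) (nat_lit 0) (nat_lit 0) (nat_lit 0) (nat_lit 1) (nat_lit 0) (nat_lit 1) (nat_lit 0) (nat_lit 502) (nat_lit 392) (nat_lit 186)) (XT.lf (nat_lit 0) (nat_lit 64651941277292) (nat_lit 0) (nat_lit 0) (nat_lit 0) (nat_lit 0) (nat_lit 0) (nat_lit 0) (nat_lit 1) (nat_lit 0) (nat_lit 1) (nat_lit 0) (nat_lit 503) (nat_lit 392) (nat_lit 185))) (XT.nd (nat_lit 57340) (nat_lit 0) (nat_lit 10752) (XT.lf (nat_lit 0) (nat_lit 69823088371489) (nat_lit 0) (nat_lit 0) (nat_lit 0) (nat_lit 0) (nat_lit 0) (nat_lit 0) (nat_lit 1) (nat_lit 0) (nat_lit 1) (nat_lit 0) (nat_lit 504) (nat_lit 392) (nat_lit 184)) (XT.lf (nat_lit 0) (nat_lit 11925771739)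 (nat_lit 924) (nat_lit 6899438893) (nat_lit 924) (nat_lit 6899438893) (nat_lit 128) (nat_lit 3) (nat_lit 139) (nat_lit 3) (nat_lit 139) (nat_lit 5) (nat_lit 393) (nat_lit 393) (nat_lit 294)))))) (XT.nd (nat_lit 658) (nat_lit 2520) (nat_lit 0) (XT.nd (nat_lit 282) (nat_lit 504) (nat_lit 0) (XT.nd (nat_lit 94) (nat_lit 0) (nat_lit 0) (XT.lf (nat_lit 0) (nat_lit 25331697274) (nat_lit 840) (nat_lit 25264973340) (nat_lit 924) (nat_lit 2884295799) (nat_lit 129) (nat_lit 5) (nat_lit 139) (nat_lit 5) (nat_lit 140) (nat_lit 5) (nat_lit 394) (nat_lit 393) (nat_lit 293)) (XT.nd (nat_lit 94) (nat_lit 0) (nat_lit 84) (XT.lf (nat_lit 84) (nat_lit 18368470740) (nat_lit 0) (nat_lit 9723904637) (nat_lit 924) (nat_lit 27524686184) (nat_lit 130) (nat_lit 5) (nat_lit 129) (nat_lit 5) (nat_lit 140) (nat_lit 5) (nat_lit 395) (nat_lit 393) (nat_lit 292)) (XT.lf (nat_lit 84) (nat_lit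 8208492222) (nat_lit 0) (nat_lit 23974696610) (nat_lit 924) (nat_lit 25685391433) (nat_lit 131) (nat_lit 5) (nat_lit 130) (nat_lit 5) (nat_lit 141) (nat_lit 5) (nat_lit 396) (nat_lit 393) (nat_lit 291)))) (XT.nd (nat_lit 188) (nat_lit 672) (nat_lit 0) (XT.nd (nat_lit 94) (nat_lit 0) (nat_lit 84) (XT.lf (nat_lit 0) (nat_lit 37736785805) (nat_lit 840) (nat_lit 2127969326) (nat_lit 924) (nat_lit 20378689414) (nat_lit 131) (nat_lit 5) (nat_lit 141) (nat_lit 5) (nat_lit 142) (nat_lit 5) (nat_lit 397) (nat_lit 393) (nat_lit 290)) (XT.lf (nat_lit 0) (nat_lit 45008680750) (nat_lit 840) (nat_lit 12420888577) (nat_lit 924) (nat_lit 5315028128) (nat_lit 132) (nat_lit 5) (nat_lit 142) (nat_lit 5) (nat_lit 143) (nat_lit 5) (nat_lit 398) (nat_lit 393) (nat_lit 289))) (XT.nd (nat_lit 94) (nat_lit 756) (nat_lit 0) (XT.lf (nat_lit 84) (nat_lit 42281648639) (nat_lit 0) (nat_lit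 11947813135) (nat_lit 924) (nat_lit 11148024101) (nat_lit 133) (nat_lit 5) (nat_lit 132) (nat_lit 5) (nat_lit 143) (nat_lit 5) (nat_lit 399) (nat_lit 393) (nat_lit 288)) (XT.lf (nat_lit 0) (nat_lit 34098820652) (nat_lit 840) (nat_lit 31419055922) (nat_lit 924) (nat_lit 2636630229) (nat_lit 123) (nat_lit 5) (nat_lit 133) (nat_lit 5) (nat_lit 134) (nat_lit 5) (nat_lit 400) (nat_lit 393) (nat_lit 287))))) (XT.nd (nat_lit 282) (nat_lit 1092) (nat_lit 0) (XT.nd (nat_lit 94) (nat_lit 840) (nat_lit 0) (XT.lf (nat_lit 0) (nat_lit 7653171691) (nat_lit 588) (nat_lit 45307875674) (nat_lit 84) (nat_lit 18122158462) (nat_lit 116) (nat_lit 5) (nat_lit 123) (nat_lit 5) (nat_lit 117) (nat_lit 5) (nat_lit 401) (nat_lit 393) (nat_lit 286)) (XT.nd (nat_lit 94) (nat_lit 420) (nat_lit 0) (XT.lf (nat_lit 0) (nat_lit 17361734654) (nat_lit 420) (nat_lit 2714678686) (nat_lit 504)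 (nat_lit 54097494749) (nat_lit 111) (nat_lit 5) (nat_lit 116) (nat_lit 5) (nat_lit 117) (nat_lit 5) (nat_lit 402) (nat_lit 393) (nat_lit 285)) (XT.lf (nat_lit 0) (nat_lit 8646998363) (nat_lit 420) (nat_lit 26586290225) (nat_lit 504) (nat_lit 42191589230) (nat_lit 106) (nat_lit 5) (nat_lit 111) (nat_lit 5) (nat_lit 112) (nat_lit 5) (nat_lit 403) (nat_lit 393) (nat_lit 284)))) (XT.nd (nat_lit 188) (nat_lit 756) (nat_lit 0) (XT.nd (nat_lit 94) (nat_lit 336) (nat_lit 0) (XT.lf (nat_lit 0) (nat_lit 53083131226) (nat_lit 504) (nat_lit 10113488) (nat_lit 84) (nat_lit 27768659544) (nat_lit 106) (nat_lit 5) (nat_lit 112) (nat_lit 5) (nat_lit 107) (nat_lit 5) (nat_lit 404) (nat_lit 393) (nat_lit 283)) (XT.lf (nat_lit 0) (nat_lit 74032887672) (nat_lit 420) (nat_lit 8278198140) (nat_lit 84) (nat_lit 2179210680) (nat_lit 102) (nat_lit 5) (nat_lit 107) (nat_lit 5) (nat_lit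 103) (nat_lit 5) (nat_lit 405) (nat_lit 393) (nat_lit 282))) (XT.nd (nat_lit 94) (nat_lit 336) (nat_lit 0) (XT.lf (nat_lit 0) (nat_lit 10028686352) (nat_lit 420) (nat_lit 16955250249) (nat_lit 84) (nat_lit 61316430355) (nat_lit 97) (nat_lit 5) (nat_lit 102) (nat_lit 5) (nat_lit 98) (nat_lit 5) (nat_lit 406) (nat_lit 393) (nat_lit 281)) (XT.lf (nat_lit 0) (nat_lit 33520185522) (nat_lit 420) (nat_lit 25685153801) (nat_lit 84) (nat_lit 33114687435) (nat_lit 93) (nat_lit 5) (nat_lit 98) (nat_lit 5) (nat_lit 94) (nat_lit 5) (nat_lit 407) (nat_lit 393) (nat_lit 280))))))))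
noncomputable def xc161 : XT := (XT.nd (nat_lit 2632) (nat_lit 2016) (nat_lit 0) (XT.nd (nat_lit 1316) (nat_lit 2184) (nat_lit 0) (XT.nd (nat_lit 658) (nat_lit 1512) (nat_lit 0) (XT.nd (nat_lit 282) (nat_lit 1092) (nat_lit 0) (XT.nd (nat_lit 94) (nat_lit 672) (nat_lit 0) (XT.lf (nat_lit 0) (nat_lit 60646751031) (nat_lit 420) (nat_lit 34196198331) (nat_lit 84) (nat_lit 1730522662) (nat_lit 89) (nat_lit 5) (nat_lit 94) (nat_lit 5) (nat_lit 90) (nat_lit 5) (nat_lit 408) (nat_lit 393) (nat_lit 279)) (XT.nd (nat_lit 94) (nat_lit 420) (nat_lit 0) (XT.lf (nat_lit 0) (nat_lit 58109154015) (nat_lit 252) (nat_lit 34192987772) (nat_lit 336) (nat_lit 8747116124) (nat_lit 86) (nat_lit 5) (nat_lit 89) (nat_lit 5) (nat_lit 90) (nat_lit 5) (nat_lit 409) (nat_lit 393) (nat_lit 278)) (XT.lf (nat_lit 0) (nat_lit 21921330847) (nat_lit 420) (nat_lit 51732143016) (nat_lit 84) (nat_lit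 32114845174) (nat_lit 81) (nat_lit 5) (nat_lit 86) (nat_lit 5) (nat_lit 82) (nat_lit 5) (nat_lit 410) (nat_lit 393) (nat_lit 277)))) (XT.nd (nat_lit 188) (nat_lit 588) (nat_lit 0) (XT.nd (nat_lit 94) (nat_lit 252) (nat_lit 0) (XT.lf (nat_lit 0) (nat_lit 50349548511) (nat_lit 252) (nat_lit 6512777378) (nat_lit 336) (nat_lit 53889132965) (nat_lit 78) (nat_lit 5) (nat_lit 81) (nat_lit 5) (nat_lit 82) (nat_lit 5) (nat_lit 411) (nat_lit 393) (nat_lit 276)) (XT.lf (nat_lit 0) (nat_lit 46807816884) (nat_lit 252) (nat_lit 50466526168) (nat_lit 336) (nat_lit 18725119678) (nat_lit 75) (nat_lit 5) (nat_lit 78) (nat_lit 5) (nat_lit 79) (nat_lit 5) (nat_lit 412) (nat_lit 393) (nat_lit 275))) (XT.nd (nat_lit 94) (nat_lit 252) (nat_lit 0) (XT.lf (nat_lit 0) (nat_lit 20871246275) (nat_lit 336) (nat_lit 77808663933) (nat_lit 84) (nat_lit 22860596997) (nat_lit 71) (nat_lit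 5) (nat_lit 75) (nat_lit 5) (nat_lit 72) (nat_lit 5) (nat_lit 413) (nat_lit 393) (nat_lit 274)) (XT.lf (nat_lit 0) (nat_lit 40813311182) (nat_lit 252) (nat_lit 24886652425) (nat_lit 336) (nat_lit 61673489220) (nat_lit 68) (nat_lit 5) (nat_lit 71) (nat_lit 5) (nat_lit 72) (nat_lit 5) (nat_lit 414) (nat_lit 393) (nat_lit 273))))) (XT.nd (nat_lit 282) (nat_lit 840) (nat_lit 0) (XT.nd (nat_lit 94) (nat_lit 504) (nat_lit 0) (XT.lf (nat_lit 0) (nat_lit 38449021585) (nat_lit 168) (nat_lit 78498352742) (nat_lit 252) (nat_lit 16584039971) (nat_lit 66) (nat_lit 5) (nat_lit 68) (nat_lit 5) (nat_lit 69) (nat_lit 5) (nat_lit 415) (nat_lit 393) (nat_lit 272)) (XT.nd (nat_lit 94) (nat_lit 168) (nat_lit 0) (XT.lf (nat_lit 0) (nat_lit 33656049275) (nat_lit 336) (nat_lit 103409188266) (nat_lit 84) (nat_lit 2963142453) (nat_lit 62) (nat_lit 5) (nat_lit 66) (nat_lit 5) (nat_lit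 63) (nat_lit 5) (nat_lit 416) (nat_lit 393) (nat_lit 271)) (XT.lf (nat_lit 0) (nat_lit 34770586085) (nat_lit 168) (nat_lit 56120278583) (nat_lit 252) (nat_lit 55962817654) (nat_lit 60) (nat_lit 5) (nat_lit 62) (nat_lit 5) (nat_lit 63) (nat_lit 5) (nat_lit 417) (nat_lit 393) (nat_lit 270)))) (XT.nd (nat_lit 188) (nat_lit 420) (nat_lit 0) (XT.nd (nat_lit 94) (nat_lit 168) (nat_lit 0) (XT.lf (nat_lit 0) (nat_lit 1426250530) (nat_lit 252) (nat_lit 119970430029) (nat_lit 84) (nat_lit 32684608915) (nat_lit 57) (nat_lit 5) (nat_lit 60) (nat_lit 5) (nat_lit 58) (nat_lit 5) (nat_lit 418) (nat_lit 393) (nat_lit 269)) (XT.lf (nat_lit 0) (nat_lit 33357236069) (nat_lit 168) (nat_lit 31565208814) (nat_lit 252) (nat_lit 96744955892) (nat_lit 55) (nat_lit 5) (nat_lit 57) (nat_lit 5) (nat_lit 58) (nat_lit 5) (nat_lit 419) (nat_lit 393) (nat_lit 268))) (XT.nd (nat_lit 94) (nat_lit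 252) (nat_lit 0) (XT.lf (nat_lit 0) (nat_lit 33493415845) (nat_lit 168) (nat_lit 103672795088) (nat_lit 252) (nat_lit 32510796239) (nat_lit 53) (nat_lit 5) (nat_lit 55) (nat_lit 5) (nat_lit 56) (nat_lit 5) (nat_lit 420) (nat_lit 393) (nat_lit 267)) (XT.lf (nat_lit 0) (nat_lit 34567858738) (nat_lit 168) (nat_lit 4457105091) (nat_lit 252) (nat_lit 139106507974) (nat_lit 50) (nat_lit 5) (nat_lit 52) (nat_lit 5) (nat_lit 53) (nat_lit 5) (nat_lit 421) (nat_lit 393) (nat_lit 266)))))) (XT.nd (nat_lit 658) (nat_lit 1008) (nat_lit 0) (XT.nd (nat_lit 282) (nat_lit 672) (nat_lit 0) (XT.nd (nat_lit 94) (nat_lit 336) (nat_lit 0) (XT.lf (nat_lit 0) (nat_lit 35647659862) (nat_lit 168) (nat_lit 84082234323) (nat_lit 252) (nat_lit 67276484755) (nat_lit 48) (nat_lit 5) (nat_lit 50) (nat_lit 5) (nat_lit 51) (nat_lit 5) (nat_lit 422) (nat_lit 393) (nat_lit 265)) (XT.nd (nat_lit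 94) (nat_lit 168) (nat_lit 0) (XT.lf (nat_lit 0) (nat_lit 13592509877) (nat_lit 168) (nat_lit 158002134672) (nat_lit 84) (nat_lit 24807481954) (nat_lit 46) (nat_lit 5) (nat_lit 48) (nat_lit 5) (nat_lit 47) (nat_lit 5) (nat_lit 423) (nat_lit 393) (nat_lit 264)) (XT.lf (nat_lit 0) (nat_lit 41043327062) (nat_lit 168) (nat_lit 62299659992) (nat_lit 252) (nat_lit 102912951993) (nat_lit 44) (nat_lit 5) (nat_lit 46) (nat_lit 5) (nat_lit 47) (nat_lit 5) (nat_lit 424) (nat_lit 393) (nat_lit 263)))) (XT.nd (nat_lit 188) (nat_lit 336) (nat_lit 0) (XT.nd (nat_lit 94) (nat_lit 252) (nat_lit 0) (XT.lf (nat_lit 0) (nat_lit 45431379260) (nat_lit 84) (nat_lit 159218238386) (nat_lit 168) (nat_lit 12029633187) (nat_lit 43) (nat_lit 5) (nat_lit 44) (nat_lit 5) (nat_lit 45) (nat_lit 4) (nat_lit 425) (nat_lit 393) (nat_lit 262)) (XT.lf (nat_lit 0) (nat_lit 50196853969) (nat_lit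 168) (nat_lit 37929430709) (nat_lit 252) (nat_lit 139504988226) (nat_lit 40) (nat_lit 5) (nat_lit 42) (nat_lit 5) (nat_lit 43) (nat_lit 5) (nat_lit 426) (nat_lit 393) (nat_lit 261))) (XT.nd (nat_lit 94) (nat_lit 252) (nat_lit 0) (XT.lf (nat_lit 0) (nat_lit 56256444221) (nat_lit 84) (nat_lit 144984826808) (nat_lit 168) (nat_lit 37939922618) (nat_lit 39) (nat_lit 5) (nat_lit 40) (nat_lit 5) (nat_lit 41) (nat_lit 4) (nat_lit 427) (nat_lit 393) (nat_lit 260)) (XT.lf (nat_lit 0) (nat_lit 63705222722) (nat_lit 168) (nat_lit 10523533255) (nat_lit 252) (nat_lit 177131597522) (nat_lit 36) (nat_lit 5) (nat_lit 38) (nat_lit 5) (nat_lit 39) (nat_lit 5) (nat_lit 428) (nat_lit 393) (nat_lit 259))))) (XT.nd (nat_lit 282) (nat_lit 588) (nat_lit 0) (XT.nd (nat_lit 94) (nat_lit 336) (nat_lit 0) (XT.lf (nat_lit 0) (nat_lit 71743157764) (nat_lit 84) (nat_lit 128777306785) (nat_lit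 168) (nat_lit 63638345005) (nat_lit 35) (nat_lit 5) (nat_lit 36) (nat_lit 5) (nat_lit 37) (nat_lit 4) (nat_lit 429) (nat_lit 393) (nat_lit 258)) (XT.nd (nat_lit 94) (nat_lit 84) (nat_lit 0) (XT.lf (nat_lit 0) (nat_lit 62150401503) (nat_lit 252) (nat_lit 195757931583) (nat_lit 84) (nat_lit 19771687395) (nat_lit 32) (nat_lit 5) (nat_lit 35) (nat_lit 5) (nat_lit 33) (nat_lit 4) (nat_lit 430) (nat_lit 393) (nat_lit 257)) (XT.lf (nat_lit 0) (nat_lit 92626490407) (nat_lit 84) (nat_lit 110199571341) (nat_lit 168) (nat_lit 89052034374) (nat_lit 31) (nat_lit 5) (nat_lit 32) (nat_lit 5) (nat_lit 33) (nat_lit 4) (nat_lit 431) (nat_lit 393) (nat_lit 256)))) (XT.nd (nat_lit 188) (nat_lit 252) (nat_lit 0) (XT.nd (nat_lit 94) (nat_lit 84) (nat_lit 0) (XT.lf (nat_lit 0) (nat_lit 52018666302) (nat_lit 252) (nat_lit 201140369516) (nat_lit 84) (nat_lit 53716037111) (nat_lit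 28) (nat_lit 5) (nat_lit 31) (nat_lit 5) (nat_lit 29) (nat_lit 4) (nat_lit 432) (nat_lit 393) (nat_lit 255)) (XT.lf (nat_lit 0) (nat_lit 119751769885) (nat_lit 84) (nat_lit 88799918790) (nat_lit 168) (nat_lit 114082294976) (nat_lit 27) (nat_lit 5) (nat_lit 28) (nat_lit 5) (nat_lit 29) (nat_lit 4) (nat_lit 433) (nat_lit 393) (nat_lit 254))) (XT.nd (nat_lit 94) (nat_lit 84) (nat_lit 0) (XT.lf (nat_lit 0) (nat_lit 43938956380) (nat_lit 168) (nat_lit 203048670032) (nat_lit 84) (nat_lit 92276354220) (nat_lit 25) (nat_lit 5) (nat_lit 27) (nat_lit 5) (nat_lit 26) (nat_lit 4) (nat_lit 434) (nat_lit 393) (nat_lit 253)) (XT.lf (nat_lit 0) (nat_lit 154089563040) (nat_lit 84) (nat_lit 64063387210) (nat_lit 168) (nat_lit 138600520529) (nat_lit 24) (nat_lit 5) (nat_lit 25) (nat_lit 5) (nat_lit 26) (nat_lit 4) (nat_lit 435) (nat_lit 393) (nat_lit 252))))))) (XT.nd (nat_lit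 1316) (nat_lit 252) (nat_lit 0) (XT.nd (nat_lit 658) (nat_lit 840) (nat_lit 0) (XT.nd (nat_lit 282) (nat_lit 504) (nat_lit 0) (XT.nd (nat_lit 94) (nat_lit 252) (nat_lit 0) (XT.lf (nat_lit 0) (nat_lit 38229974562) (nat_lit 168) (nat_lit 200794652792) (nat_lit 84) (nat_lit 136166086603) (nat_lit 22) (nat_lit 5) (nat_lit 24) (nat_lit 5) (nat_lit 23) (nat_lit 4) (nat_lit 436) (nat_lit 393) (nat_lit 251)) (XT.nd (nat_lit 94) (nat_lit 168) (nat_lit 0) (XT.lf (nat_lit 0) (nat_lit 196752494143) (nat_lit 84) (nat_lit 35403098920) (nat_lit 168) (nat_lit 162443507997) (nat_lit 21) (nat_lit 5) (nat_lit 22) (nat_lit 5) (nat_lit 23) (nat_lit 4) (nat_lit 437) (nat_lit 393) (nat_lit 250)) (XT.lf (nat_lit 0) (nat_lit 35266251582) (nat_lit 168) (nat_lit 193577341538) (nat_lit 84) (nat_lit 186193020190) (nat_lit 19) (nat_lit 5) (nat_lit 21) (nat_lit 5) (nat_lit 20) (nat_lit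 4) (nat_lit 438) (nat_lit 393) (nat_lit 249)))) (XT.nd (nat_lit 188) (nat_lit 252) (nat_lit 0) (XT.nd (nat_lit 94) (nat_lit 168) (nat_lit 0) (XT.lf (nat_lit 0) (nat_lit 249014242890) (nat_lit 84) (nat_lit 2150490325) (nat_lit 168) (nat_lit 185408084382) (nat_lit 18) (nat_lit 5) (nat_lit 19) (nat_lit 5) (nat_lit 20) (nat_lit 4) (nat_lit 439) (nat_lit 393) (nat_lit 248)) (XT.lf (nat_lit 0) (nat_lit 35485906368) (nat_lit 168) (nat_lit 180466978308) (nat_lit 84) (nat_lit 243271556098) (nat_lit 16) (nat_lit 5) (nat_lit 18) (nat_lit 5) (nat_lit 17) (nat_lit 4) (nat_lit 440) (nat_lit 393) (nat_lit 247))) (XT.nd (nat_lit 94) (nat_lit 168) (nat_lit 0) (XT.lf (nat_lit 0) (nat_lit 276444458278) (nat_lit 168) (nat_lit 171358417415) (nat_lit 0) (nat_lit 35288902372) (nat_lit 15) (nat_lit 5) (nat_lit 17) (nat_lit 4) (nat_lit 15) (nat_lit 4) (nat_lit 441) (nat_lit 393) (nat_lit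 246)) (XT.lf (nat_lit 0) (nat_lit 39399452668) (nat_lit 168) (nat_lit 160386896045) (nat_lit 84) (nat_lit 308436523467) (nat_lit 13) (nat_lit 5) (nat_lit 15) (nat_lit 5) (nat_lit 14) (nat_lit 4) (nat_lit 442) (nat_lit 393) (nat_lit 245))))) (XT.nd (nat_lit 282) (nat_lit 504) (nat_lit 0) (XT.nd (nat_lit 94) (nat_lit 252) (nat_lit 0) (XT.lf (nat_lit 0) (nat_lit 308352760776) (nat_lit 168) (nat_lit 147638771827) (nat_lit 0) (nat_lit 78680402708) (nat_lit 12) (nat_lit 5) (nat_lit 14) (nat_lit 4) (nat_lit 12) (nat_lit 4) (nat_lit 443) (nat_lit 393) (nat_lit 244)) (XT.nd (nat_lit 94) (nat_lit 84) (nat_lit 0) (XT.lf (nat_lit 0) (nat_lit 47599785953) (nat_lit 168) (nat_lit 132092974953) (nat_lit 84) (nat_lit 382858716625) (nat_lit 10) (nat_lit 5) (nat_lit 12) (nat_lit 5) (nat_lit 11) (nat_lit 4) (nat_lit 444) (nat_lit 393) (nat_lit 243)) (XT.lf (nat_lit 0) (nat_lit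 347782794044) (nat_lit 168) (nat_lit 115032210676) (nat_lit 0) (nat_lit 129046888277) (nat_lit 9) (nat_lit 5) (nat_lit 11) (nat_lit 4) (nat_lit 9) (nat_lit 4) (nat_lit 445) (nat_lit 393) (nat_lit 242)))) (XT.nd (nat_lit 188) (nat_lit 252) (nat_lit 0) (XT.nd (nat_lit 94) (nat_lit 84) (nat_lit 0) (XT.lf (nat_lit 0) (nat_lit 60773501228) (nat_lit 168) (nat_lit 94150373662) (nat_lit 84) (nat_lit 467862367991) (nat_lit 7) (nat_lit 5) (nat_lit 9) (nat_lit 5) (nat_lit 8) (nat_lit 4) (nat_lit 446) (nat_lit 393) (nat_lit 241)) (XT.lf (nat_lit 0) (nat_lit 395793247432) (nat_lit 168) (nat_lit 72001643996) (nat_lit 0) (nat_lit 187473070459) (nat_lit 6) (nat_lit 5) (nat_lit 8) (nat_lit 4) (nat_lit 6) (nat_lit 4) (nat_lit 447) (nat_lit 393) (nat_lit 240))) (XT.nd (nat_lit 94) (nat_lit 84) (nat_lit 0) (XT.lf (nat_lit 0) (nat_lit 79713711184) (nat_lit 168) (nat_lit 44907187776)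 (nat_lit 84) (nat_lit 564944793652) (nat_lit 4) (nat_lit 5) (nat_lit 6) (nat_lit 5) (nat_lit 5) (nat_lit 4) (nat_lit 448) (nat_lit 393) (nat_lit 239)) (XT.lf (nat_lit 0) (nat_lit 453591959213) (nat_lit 168) (nat_lit 16778751584) (nat_lit 0) (nat_lit 255191572888) (nat_lit 3) (nat_lit 5) (nat_lit 5) (nat_lit 4) (nat_lit 3) (nat_lit 4) (nat_lit 449) (nat_lit 393) (nat_lit 238)))))) (XT.nd (nat_lit 658) (nat_lit 0) (nat_lit 0) (XT.nd (nat_lit 282) (nat_lit 0) (nat_lit 0) (XT.nd (nat_lit 94) (nat_lit 0) (nat_lit 0) (XT.lf (nat_lit 0) (nat_lit 1107662634241) (nat_lit 0) (nat_lit 0) (nat_lit 0) (nat_lit 0) (nat_lit 0) (nat_lit 0) (nat_lit 1) (nat_lit 0) (nat_lit 1) (nat_lit 0) (nat_lit 450) (nat_lit 393) (nat_lit 237)) (XT.nd (nat_lit 94) (nat_lit 0) (nat_lit 0) (XT.lf (nat_lit 0) (nat_lit 1195186767799) (nat_lit 0) (nat_lit 0) (nat_lit 0) (nat_lit 0) (nat_lit 0)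 (nat_lit 0) (nat_lit 1) (nat_lit 0) (nat_lit 1) (nat_lit 0) (nat_lit 451) (nat_lit 393) (nat_lit 236)) (XT.lf (nat_lit 0) (nat_lit 1289712832991) (nat_lit 0) (nat_lit 0) (nat_lit 0) (nat_lit 0) (nat_lit 0) (nat_lit 0) (nat_lit 1) (nat_lit 0) (nat_lit 1) (nat_lit 0) (nat_lit 452) (nat_lit 393) (nat_lit 235)))) (XT.nd (nat_lit 188) (nat_lit 0) (nat_lit 0) (XT.nd (nat_lit 94) (nat_lit 0) (nat_lit 0) (XT.lf (nat_lit 0) (nat_lit 1391800984276) (nat_lit 0) (nat_lit 0) (nat_lit 0) (nat_lit 0) (nat_lit 0) (nat_lit 0) (nat_lit 1) (nat_lit 0) (nat_lit 1) (nat_lit 0) (nat_lit 453) (nat_lit 393) (nat_lit 234)) (XT.lf (nat_lit 0) (nat_lit 1502056188478) (nat_lit 0) (nat_lit 0) (nat_lit 0) (nat_lit 0) (nat_lit 0) (nat_lit 0) (nat_lit 1) (nat_lit 0) (nat_lit 1) (nat_lit 0) (nat_lit 454) (nat_lit 393) (nat_lit 233))) (XT.nd (nat_lit 94) (nat_lit 0) (nat_lit 0) (XT.lf (nat_lit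 0) (nat_lit 1621131809769) (nat_lit 0) (nat_lit 0) (nat_lit 0) (nat_lit 0) (nat_lit 0) (nat_lit 0) (nat_lit 1) (nat_lit 0) (nat_lit 1) (nat_lit 0) (nat_lit 455) (nat_lit 393) (nat_lit 232)) (XT.lf (nat_lit 0) (nat_lit 1749733481461) (nat_lit 0) (nat_lit 0) (nat_lit 0) (nat_lit 0) (nat_lit 0) (nat_lit 0) (nat_lit 1) (nat_lit 0) (nat_lit 1) (nat_lit 0) (nat_lit 456) (nat_lit 393) (nat_lit 231))))) (XT.nd (nat_lit 376) (nat_lit 0) (nat_lit 0) (XT.nd (nat_lit 188) (nat_lit 0) (nat_lit 0) (XT.nd (nat_lit 94) (nat_lit 0) (nat_lit 0) (XT.lf (nat_lit 0) (nat_lit 1888623287533) (nat_lit 0) (nat_lit 0) (nat_lit 0) (nat_lit 0) (nat_lit 0) (nat_lit 0) (nat_lit 1) (nat_lit 0) (nat_lit 1) (nat_lit 0) (nat_lit 457) (nat_lit 393) (nat_lit 230)) (XT.lf (nat_lit 0) (nat_lit 2038624278690) (nat_lit 0) (nat_lit 0) (nat_lit 0) (nat_lit 0) (nat_lit 0) (nat_lit 0) (nat_lit 1) (nat_lit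 0) (nat_lit 1) (nat_lit 0) (nat_lit 458) (nat_lit 393) (nat_lit 229))) (XT.nd (nat_lit 94) (nat_lit 0) (nat_lit 0) (XT.lf (nat_lit 0) (nat_lit 2200625349692) (nat_lit 0) (nat_lit 0) (nat_lit 0) (nat_lit 0) (nat_lit 0) (nat_lit 0) (nat_lit 1) (nat_lit 0) (nat_lit 1) (nat_lit 0) (nat_lit 459) (nat_lit 393) (nat_lit 228)) (XT.lf (nat_lit 0) (nat_lit 2375586506887) (nat_lit 0) (nat_lit 0) (nat_lit 0) (nat_lit 0) (nat_lit 0) (nat_lit 0) (nat_lit 1) (nat_lit 0) (nat_lit 1) (nat_lit 0) (nat_lit 460) (nat_lit 393) (nat_lit 227)))) (XT.nd (nat_lit 188) (nat_lit 0) (nat_lit 0) (XT.nd (nat_lit 94) (nat_lit 0) (nat_lit 0) (XT.lf (nat_lit 0) (nat_lit 2564544557133) (nat_lit 0) (nat_lit 0) (nat_lit 0) (nat_lit 0) (nat_lit 0) (nat_lit 0) (nat_lit 1) (nat_lit 0) (nat_lit 1) (nat_lit 0) (nat_lit 461) (nat_lit 393) (nat_lit 226)) (XT.lf (nat_lit 0) (nat_lit 2768619251838) (nat_lit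 0) (nat_lit 0) (nat_lit 0) (nat_lit 0) (nat_lit 0) (nat_lit 0) (nat_lit 1) (nat_lit 0) (nat_lit 1) (nat_lit 0) (nat_lit 462) (nat_lit 393) (nat_lit 225))) (XT.nd (nat_lit 94) (nat_lit 0) (nat_lit 0) (XT.lf (nat_lit 0) (nat_lit 2989019922526) (nat_lit 0) (nat_lit 0) (nat_lit 0) (nat_lit 0) (nat_lit 0) (nat_lit 0) (nat_lit 1) (nat_lit 0) (nat_lit 1) (nat_lit 0) (nat_lit 463) (nat_lit 393) (nat_lit 224)) (XT.lf (nat_lit 0) (nat_lit 3227052647246) (nat_lit 0) (nat_lit 0) (nat_lit 0) (nat_lit 0) (nat_lit 0) (nat_lit 0) (nat_lit 1) (nat_lit 0) (nat_lit 1) (nat_lit 0) (nat_lit 464) (nat_lit 393) (nat_lit 223))))))))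
noncomputable def xc162 : XT := (XT.nd (nat_lit 2632) (nat_lit 0) (nat_lit 0) (XT.nd (nat_lit 1316) (nat_lit 0) (nat_lit 0) (XT.nd (nat_lit 658) (nat_lit 0) (nat_lit 0) (XT.nd (nat_lit 282) (nat_lit 0) (nat_lit 0) (XT.nd (nat_lit 94) (nat_lit 0) (nat_lit 0) (XT.lf (nat_lit 0) (nat_lit 3484127990292) (nat_lit 0) (nat_lit 0) (nat_lit 0) (nat_lit 0) (nat_lit 0) (nat_lit 0) (nat_lit 1) (nat_lit 0) (nat_lit 1) (nat_lit 0) (nat_lit 465) (nat_lit 393) (nat_lit 222)) (XT.nd (nat_lit 94) (nat_lit 0) (nat_lit 0) (XT.lf (nat_lit 0) (nat_lit 3761769361105) (nat_lit 0) (nat_lit 0) (nat_lit 0) (nat_lit 0) (nat_lit 0) (nat_lit 0) (nat_lit 1) (nat_lit 0) (nat_lit 1) (nat_lit 0) (nat_lit 466) (nat_lit 393) (nat_lit 221)) (XT.lf (nat_lit 0) (nat_lit 4061622041882) (nat_lit 0) (nat_lit 0) (nat_lit 0) (nat_lit 0) (nat_lit 0) (nat_lit 0) (nat_lit 1) (nat_lit 0) (nat_lit 1) (nat_lit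 0) (nat_lit 467) (nat_lit 393) (nat_lit 220)))) (XT.nd (nat_lit 188) (nat_lit 0) (nat_lit 0) (XT.nd (nat_lit 94) (nat_lit 0) (nat_lit 0) (XT.lf (nat_lit 0) (nat_lit 4385462937399) (nat_lit 0) (nat_lit 0) (nat_lit 0) (nat_lit 0) (nat_lit 0) (nat_lit 0) (nat_lit 1) (nat_lit 0) (nat_lit 1) (nat_lit 0) (nat_lit 468) (nat_lit 393) (nat_lit 219)) (XT.lf (nat_lit 0) (nat_lit 4735211104813) (nat_lit 0) (nat_lit 0) (nat_lit 0) (nat_lit 0) (nat_lit 0) (nat_lit 0) (nat_lit 1) (nat_lit 0) (nat_lit 1) (nat_lit 0) (nat_lit 469) (nat_lit 393) (nat_lit 218))) (XT.nd (nat_lit 94) (nat_lit 0) (nat_lit 0) (XT.lf (nat_lit 0) (nat_lit 5112939125857) (nat_lit 0) (nat_lit 0) (nat_lit 0) (nat_lit 0) (nat_lit 0) (nat_lit 0) (nat_lit 1) (nat_lit 0) (nat_lit 1) (nat_lit 0) (nat_lit 470) (nat_lit 393) (nat_lit 217)) (XT.lf (nat_lit 0) (nat_lit 5520885388805) (nat_lit 0) (nat_lit 0) (nat_lit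 0) (nat_lit 0) (nat_lit 0) (nat_lit 0) (nat_lit 1) (nat_lit 0) (nat_lit 1) (nat_lit 0) (nat_lit 471) (nat_lit 393) (nat_lit 216))))) (XT.nd (nat_lit 282) (nat_lit 0) (nat_lit 0) (XT.nd (nat_lit 94) (nat_lit 0) (nat_lit 0) (XT.lf (nat_lit 0) (nat_lit 5961467352993) (nat_lit 0) (nat_lit 0) (nat_lit 0) (nat_lit 0) (nat_lit 0) (nat_lit 0) (nat_lit 1) (nat_lit 0) (nat_lit 1) (nat_lit 0) (nat_lit 472) (nat_lit 393) (nat_lit 215)) (XT.nd (nat_lit 94) (nat_lit 0) (nat_lit 0) (XT.lf (nat_lit 0) (nat_lit 6437295874504) (nat_lit 0) (nat_lit 0) (nat_lit 0) (nat_lit 0) (nat_lit 0) (nat_lit 0) (nat_lit 1) (nat_lit 0) (nat_lit 1) (nat_lit 0) (nat_lit 473) (nat_lit 393) (nat_lit 214)) (XT.lf (nat_lit 0) (nat_lit 6951190677910) (nat_lit 0) (nat_lit 0) (nat_lit 0) (nat_lit 0) (nat_lit 0) (nat_lit 0) (nat_lit 1) (nat_lit 0) (nat_lit 1) (nat_lit 0) (nat_lit 474) (nat_lit 393)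 (nat_lit 213)))) (XT.nd (nat_lit 188) (nat_lit 0) (nat_lit 0) (XT.nd (nat_lit 94) (nat_lit 0) (nat_lit 0) (XT.lf (nat_lit 0) (nat_lit 7506197065750) (nat_lit 0) (nat_lit 0) (nat_lit 0) (nat_lit 0) (nat_lit 0) (nat_lit 0) (nat_lit 1) (nat_lit 0) (nat_lit 1) (nat_lit 0) (nat_lit 475) (nat_lit 393) (nat_lit 212)) (XT.lf (nat_lit 0) (nat_lit 8105603964768) (nat_lit 0) (nat_lit 0) (nat_lit 0) (nat_lit 0) (nat_lit 0) (nat_lit 0) (nat_lit 1) (nat_lit 0) (nat_lit 1) (nat_lit 0) (nat_lit 476) (nat_lit 393) (nat_lit 211))) (XT.nd (nat_lit 94) (nat_lit 0) (nat_lit 0) (XT.lf (nat_lit 0) (nat_lit 8752963415845) (nat_lit 0) (nat_lit 0) (nat_lit 0) (nat_lit 0) (nat_lit 0) (nat_lit 0) (nat_lit 1) (nat_lit 0) (nat_lit 1) (nat_lit 0) (nat_lit 477) (nat_lit 393) (nat_lit 210)) (XT.lf (nat_lit 0) (nat_lit 9452111623137) (nat_lit 0) (nat_lit 0) (nat_lit 0) (nat_lit 0) (nat_lit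 0) (nat_lit 0) (nat_lit 1) (nat_lit 0) (nat_lit 1) (nat_lit 0) (nat_lit 478) (nat_lit 393) (nat_lit 209)))))) (XT.nd (nat_lit 658) (nat_lit 0) (nat_lit 0) (XT.nd (nat_lit 282) (nat_lit 0) (nat_lit 0) (XT.nd (nat_lit 94) (nat_lit 0) (nat_lit 0) (XT.lf (nat_lit 0) (nat_lit 10207191687130) (nat_lit 0) (nat_lit 0) (nat_lit 0) (nat_lit 0) (nat_lit 0) (nat_lit 0) (nat_lit 1) (nat_lit 0) (nat_lit 1) (nat_lit 0) (nat_lit 479) (nat_lit 393) (nat_lit 208)) (XT.nd (nat_lit 94) (nat_lit 0) (nat_lit 0) (XT.lf (nat_lit 0) (nat_lit 11022678156354) (nat_lit 0) (nat_lit 0) (nat_lit 0) (nat_lit 0) (nat_lit 0) (nat_lit 0) (nat_lit 1) (nat_lit 0) (nat_lit 1) (nat_lit 0) (nat_lit 480) (nat_lit 393) (nat_lit 207)) (XT.lf (nat_lit 0) (nat_lit 11903403543217) (nat_lit 0) (nat_lit 0) (nat_lit 0) (nat_lit 0) (nat_lit 0) (nat_lit 0) (nat_lit 1) (nat_lit 0) (nat_lit 1) (nat_lit 0) (nat_lit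 481) (nat_lit 393) (nat_lit 206)))) (XT.nd (nat_lit 188) (nat_lit 0) (nat_lit 0) (XT.nd (nat_lit 94) (nat_lit 0) (nat_lit 0) (XT.lf (nat_lit 0) (nat_lit 12854586961123) (nat_lit 0) (nat_lit 0) (nat_lit 0) (nat_lit 0) (nat_lit 0) (nat_lit 0) (nat_lit 1) (nat_lit 0) (nat_lit 1) (nat_lit 0) (nat_lit 482) (nat_lit 393) (nat_lit 205)) (XT.lf (nat_lit 0) (nat_lit 13881865052549) (nat_lit 0) (nat_lit 0) (nat_lit 0) (nat_lit 0) (nat_lit 0) (nat_lit 0) (nat_lit 1) (nat_lit 0) (nat_lit 1) (nat_lit 0) (nat_lit 483) (nat_lit 393) (nat_lit 204))) (XT.nd (nat_lit 94) (nat_lit 0) (nat_lit 0) (XT.lf (nat_lit 0) (nat_lit 14991325391370) (nat_lit 0) (nat_lit 0) (nat_lit 0) (nat_lit 0) (nat_lit 0) (nat_lit 0) (nat_lit 1) (nat_lit 0) (nat_lit 1) (nat_lit 0) (nat_lit 484) (nat_lit 393) (nat_lit 203)) (XT.lf (nat_lit 0) (nat_lit 16189542557371) (nat_lit 0) (nat_lit 0) (nat_lit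 0) (nat_lit 0) (nat_lit 0) (nat_lit 0) (nat_lit 1) (nat_lit 0) (nat_lit 1) (nat_lit 0) (nat_lit 485) (nat_lit 393) (nat_lit 202))))) (XT.nd (nat_lit 282) (nat_lit 0) (nat_lit 0) (XT.nd (nat_lit 94) (nat_lit 0) (nat_lit 0) (XT.lf (nat_lit 0) (nat_lit 17483617096722) (nat_lit 0) (nat_lit 0) (nat_lit 0) (nat_lit 0) (nat_lit 0) (nat_lit 0) (nat_lit 1) (nat_lit 0) (nat_lit 1) (nat_lit 0) (nat_lit 486) (nat_lit 393) (nat_lit 201)) (XT.nd (nat_lit 94) (nat_lit 0) (nat_lit 0) (XT.lf (nat_lit 0) (nat_lit 18881217599286) (nat_lit 0) (nat_lit 0) (nat_lit 0) (nat_lit 0) (nat_lit 0) (nat_lit 0) (nat_lit 1) (nat_lit 0) (nat_lit 1) (nat_lit 0) (nat_lit 487) (nat_lit 393) (nat_lit 200)) (XT.lf (nat_lit 0) (nat_lit 20390626142113) (nat_lit 0) (nat_lit 0) (nat_lit 0) (nat_lit 0) (nat_lit 0) (nat_lit 0) (nat_lit 1) (nat_lit 0) (nat_lit 1) (nat_lit 0) (nat_lit 488) (nat_lit 393)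 (nat_lit 199)))) (XT.nd (nat_lit 188) (nat_lit 0) (nat_lit 0) (XT.nd (nat_lit 94) (nat_lit 0) (nat_lit 0) (XT.lf (nat_lit 0) (nat_lit 22020787368422) (nat_lit 0) (nat_lit 0) (nat_lit 0) (nat_lit 0) (nat_lit 0) (nat_lit 0) (nat_lit 1) (nat_lit 0) (nat_lit 1) (nat_lit 0) (nat_lit 489) (nat_lit 393) (nat_lit 198)) (XT.lf (nat_lit 0) (nat_lit 23781361492887) (nat_lit 0) (nat_lit 0) (nat_lit 0) (nat_lit 0) (nat_lit 0) (nat_lit 0) (nat_lit 1) (nat_lit 0) (nat_lit 1) (nat_lit 0) (nat_lit 490) (nat_lit 393) (nat_lit 197))) (XT.nd (nat_lit 94) (nat_lit 0) (nat_lit 0) (XT.lf (nat_lit 0) (nat_lit 25682781547356) (nat_lit 0) (nat_lit 0) (nat_lit 0) (nat_lit 0) (nat_lit 0) (nat_lit 0) (nat_lit 1) (nat_lit 0) (nat_lit 1) (nat_lit 0) (nat_lit 491) (nat_lit 393) (nat_lit 196)) (XT.lf (nat_lit 0) (nat_lit 27736315206226) (nat_lit 0) (nat_lit 0) (nat_lit 0) (nat_lit 0) (nat_lit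 0) (nat_lit 0) (nat_lit 1) (nat_lit 0) (nat_lit 1) (nat_lit 0) (nat_lit 492) (nat_lit 393) (nat_lit 195))))))) (XT.nd (nat_lit 58656) (nat_lit 0) (nat_lit 7224) (XT.nd (nat_lit 658) (nat_lit 0) (nat_lit 0) (XT.nd (nat_lit 282) (nat_lit 0) (nat_lit 0) (XT.nd (nat_lit 94) (nat_lit 0) (nat_lit 0) (XT.lf (nat_lit 0) (nat_lit 29954131557846) (nat_lit 0) (nat_lit 0) (nat_lit 0) (nat_lit 0) (nat_lit 0) (nat_lit 0) (nat_lit 1) (nat_lit 0) (nat_lit 1) (nat_lit 0) (nat_lit 493) (nat_lit 393) (nat_lit 194)) (XT.nd (nat_lit 94) (nat_lit 0) (nat_lit 0) (XT.lf (nat_lit 0) (nat_lit 32349373217633) (nat_lit 0) (nat_lit 0) (nat_lit 0) (nat_lit 0) (nat_lit 0) (nat_lit 0) (nat_lit 1) (nat_lit 0) (nat_lit 1) (nat_lit 0) (nat_lit 494) (nat_lit 393) (nat_lit 193)) (XT.lf (nat_lit 0) (nat_lit 34936234210238) (nat_lit 0) (nat_lit 0) (nat_lit 0) (nat_lit 0) (nat_lit 0) (nat_lit 0)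 (nat_lit 1) (nat_lit 0) (nat_lit 1) (nat_lit 0) (nat_lit 495) (nat_lit 393) (nat_lit 192)))) (XT.nd (nat_lit 188) (nat_lit 0) (nat_lit 0) (XT.nd (nat_lit 94) (nat_lit 0) (nat_lit 0) (XT.lf (nat_lit 0) (nat_lit 37730044082283) (nat_lit 0) (nat_lit 0) (nat_lit 0) (nat_lit 0) (nat_lit 0) (nat_lit 0) (nat_lit 1) (nat_lit 0) (nat_lit 1) (nat_lit 0) (nat_lit 496) (nat_lit 393) (nat_lit 191)) (XT.lf (nat_lit 0) (nat_lit 40747358744122) (nat_lit 0) (nat_lit 0) (nat_lit 0) (nat_lit 0) (nat_lit 0) (nat_lit 0) (nat_lit 1) (nat_lit 0) (nat_lit 1) (nat_lit 0) (nat_lit 497) (nat_lit 393) (nat_lit 190))) (XT.nd (nat_lit 94) (nat_lit 0) (nat_lit 0) (XT.lf (nat_lit 0) (nat_lit 44006058578935) (nat_lit 0) (nat_lit 0) (nat_lit 0) (nat_lit 0) (nat_lit 0) (nat_lit 0) (nat_lit 1) (nat_lit 0) (nat_lit 1) (nat_lit 0) (nat_lit 498) (nat_lit 393) (nat_lit 189)) (XT.lf (nat_lit 0) (nat_lit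 47525454400559) (nat_lit 0) (nat_lit 0) (nat_lit 0) (nat_lit 0) (nat_lit 0) (nat_lit 0) (nat_lit 1) (nat_lit 0) (nat_lit 1) (nat_lit 0) (nat_lit 499) (nat_lit 393) (nat_lit 188))))) (XT.nd (nat_lit 282) (nat_lit 0) (nat_lit 0) (XT.nd (nat_lit 94) (nat_lit 0) (nat_lit 0) (XT.lf (nat_lit 0) (nat_lit 51326401887936) (nat_lit 0) (nat_lit 0) (nat_lit 0) (nat_lit 0) (nat_lit 0) (nat_lit 0) (nat_lit 1) (nat_lit 0) (nat_lit 1) (nat_lit 0) (nat_lit 500) (nat_lit 393) (nat_lit 187)) (XT.nd (nat_lit 94) (nat_lit 0) (nat_lit 0) (XT.lf (nat_lit 0) (nat_lit 55431425174326) (nat_lit 0) (nat_lit 0) (nat_lit 0) (nat_lit 0) (nat_lit 0) (nat_lit 0) (nat_lit 1) (nat_lit 0) (nat_lit 1) (nat_lit 0) (nat_lit 501) (nat_lit 393) (nat_lit 186)) (XT.lf (nat_lit 0) (nat_lit 59864850323646) (nat_lit 0) (nat_lit 0) (nat_lit 0) (nat_lit 0) (nat_lit 0) (nat_lit 0) (nat_lit 1) (nat_lit 0)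 (nat_lit 1) (nat_lit 0) (nat_lit 502) (nat_lit 393) (nat_lit 185)))) (XT.nd (nat_lit 57528) (nat_lit 0) (nat_lit 10752) (XT.nd (nat_lit 94) (nat_lit 0) (nat_lit 0) (XT.lf (nat_lit 0) (nat_lit 64652949484931) (nat_lit 0) (nat_lit 0) (nat_lit 0) (nat_lit 0) (nat_lit 0) (nat_lit 0) (nat_lit 1) (nat_lit 0) (nat_lit 1) (nat_lit 0) (nat_lit 503) (nat_lit 393) (nat_lit 184)) (XT.lf (nat_lit 0) (nat_lit 69824096579137) (nat_lit 0) (nat_lit 0) (nat_lit 0) (nat_lit 0) (nat_lit 0) (nat_lit 0) (nat_lit 1) (nat_lit 0) (nat_lit 1) (nat_lit 0) (nat_lit 504) (nat_lit 393) (nat_lit 183))) (XT.nd (nat_lit 94) (nat_lit 0) (nat_lit 84) (XT.lf (nat_lit 0) (nat_lit 12917190687) (nat_lit 924) (nat_lit 7431781470) (nat_lit 924) (nat_lit 7431781470) (nat_lit 128) (nat_lit 3) (nat_lit 139) (nat_lit 3) (nat_lit 139) (nat_lit 5) (nat_lit 394) (nat_lit 394) (nat_lit 292)) (XT.lf (nat_lit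 0) (nat_lit 27427495430) (nat_lit 840) (nat_lit 27244659080) (nat_lit 924) (nat_lit 3083826098) (nat_lit 129) (nat_lit 5) (nat_lit 139) (nat_lit 5) (nat_lit 140) (nat_lit 5) (nat_lit 395) (nat_lit 394) (nat_lit 291)))))) (XT.nd (nat_lit 658) (nat_lit 2520) (nat_lit 0) (XT.nd (nat_lit 282) (nat_lit 1092) (nat_lit 0) (XT.nd (nat_lit 94) (nat_lit 0) (nat_lit 84) (XT.lf (nat_lit 84) (nat_lit 19877656460) (nat_lit 0) (nat_lit 10526860729) (nat_lit 924) (nat_lit 29658671708) (nat_lit 130) (nat_lit 5) (nat_lit 129) (nat_lit 5) (nat_lit 140) (nat_lit 5) (nat_lit 396) (nat_lit 394) (nat_lit 290)) (XT.nd (nat_lit 94) (nat_lit 0) (nat_lit 84) (XT.lf (nat_lit 84) (nat_lit 8906624895) (nat_lit 0) (nat_lit 25911459560) (nat_lit 924) (nat_lit 27676970206) (nat_lit 131) (nat_lit 5) (nat_lit 130) (nat_lit 5) (nat_lit 141) (nat_lit 5) (nat_lit 397) (nat_lit 394) (nat_lit 289))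 (XT.lf (nat_lit 0) (nat_lit 40811235331) (nat_lit 840) (nat_lit 2256763685) (nat_lit 924) (nat_lit 21992145759) (nat_lit 131) (nat_lit 5) (nat_lit 141) (nat_lit 5) (nat_lit 142) (nat_lit 5) (nat_lit 398) (nat_lit 394) (nat_lit 288)))) (XT.nd (nat_lit 188) (nat_lit 1344) (nat_lit 0) (XT.nd (nat_lit 94) (nat_lit 0) (nat_lit 0) (XT.lf (nat_lit 0) (nat_lit 48661196033) (nat_lit 840) (nat_lit 13372123688) (nat_lit 924) (nat_lit 5728254490) (nat_lit 132) (nat_lit 5) (nat_lit 142) (nat_lit 5) (nat_lit 143) (nat_lit 5) (nat_lit 399) (nat_lit 394) (nat_lit 287)) (XT.lf (nat_lit 84) (nat_lit 45704772289) (nat_lit 0) (nat_lit 12911662420) (nat_lit 924) (nat_lit 11988819235) (nat_lit 133) (nat_lit 5) (nat_lit 132) (nat_lit 5) (nat_lit 143) (nat_lit 5) (nat_lit 400) (nat_lit 394) (nat_lit 286))) (XT.nd (nat_lit 94) (nat_lit 588) (nat_lit 0) (XT.lf (nat_lit 0) (nat_lit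 36867998991) (nat_lit 840) (nat_lit 33936850899) (nat_lit 924) (nat_lit 2799740297) (nat_lit 123) (nat_lit 5) (nat_lit 133) (nat_lit 5) (nat_lit 134) (nat_lit 5) (nat_lit 401) (nat_lit 394) (nat_lit 285)) (XT.lf (nat_lit 0) (nat_lit 8308885665) (nat_lit 588) (nat_lit 48889347736) (nat_lit 84) (nat_lit 19569455881) (nat_lit 116) (nat_lit 5) (nat_lit 123) (nat_lit 5) (nat_lit 117) (nat_lit 5) (nat_lit 402) (nat_lit 394) (nat_lit 284))))) (XT.nd (nat_lit 376) (nat_lit 1344) (nat_lit 0) (XT.nd (nat_lit 188) (nat_lit 336) (nat_lit 0) (XT.nd (nat_lit 94) (nat_lit 420) (nat_lit 0) (XT.lf (nat_lit 0) (nat_lit 18791955825) (nat_lit 420) (nat_lit 2931456078) (nat_lit 504) (nat_lit 58382364559) (nat_lit 111) (nat_lit 5) (nat_lit 116) (nat_lit 5) (nat_lit 117) (nat_lit 5) (nat_lit 403) (nat_lit 394) (nat_lit 283)) (XT.lf (nat_lit 0) (nat_lit 9380196054) (nat_lit 420)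 (nat_lit 28710265261) (nat_lit 504) (nat_lit 45526481248) (nat_lit 106) (nat_lit 5) (nat_lit 111) (nat_lit 5) (nat_lit 112) (nat_lit 5) (nat_lit 404) (nat_lit 394) (nat_lit 282))) (XT.nd (nat_lit 94) (nat_lit 0) (nat_lit 0) (XT.lf (nat_lit 0) (nat_lit 30151339) (nat_lit 336) (nat_lit 57335800535) (nat_lit 420) (nat_lit 29963096218) (nat_lit 102) (nat_lit 5) (nat_lit 106) (nat_lit 5) (nat_lit 107) (nat_lit 5) (nat_lit 405) (nat_lit 394) (nat_lit 281)) (XT.lf (nat_lit 0) (nat_lit 79989246251) (nat_lit 420) (nat_lit 8900479063) (nat_lit 84) (nat_lit 2358108520) (nat_lit 102) (nat_lit 5) (nat_lit 107) (nat_lit 5) (nat_lit 103) (nat_lit 5) (nat_lit 406) (nat_lit 394) (nat_lit 280)))) (XT.nd (nat_lit 188) (nat_lit 588) (nat_lit 0) (XT.nd (nat_lit 94) (nat_lit 336) (nat_lit 0) (XT.lf (nat_lit 0) (nat_lit 10863329226) (nat_lit 420) (nat_lit 18272363032) (nat_lit 84)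 (nat_lit 66227086657) (nat_lit 97) (nat_lit 5) (nat_lit 102) (nat_lit 5) (nat_lit 98) (nat_lit 5) (nat_lit 407) (nat_lit 394) (nat_lit 279)) (XT.lf (nat_lit 0) (nat_lit 36232449438) (nat_lit 420) (nat_lit 27700950399) (nat_lit 84) (nat_lit 35770696608) (nat_lit 93) (nat_lit 5) (nat_lit 98) (nat_lit 5) (nat_lit 94) (nat_lit 5) (nat_lit 408) (nat_lit 394) (nat_lit 278))) (XT.nd (nat_lit 94) (nat_lit 252) (nat_lit 0) (XT.lf (nat_lit 0) (nat_lit 65527583060) (nat_lit 420) (nat_lit 36893256497) (nat_lit 84) (nat_lit 1877055632) (nat_lit 89) (nat_lit 5) (nat_lit 94) (nat_lit 5) (nat_lit 90) (nat_lit 5) (nat_lit 409) (nat_lit 394) (nat_lit 277)) (XT.lf (nat_lit 0) (nat_lit 62794844889) (nat_lit 252) (nat_lit 36918982255) (nat_lit 336) (nat_lit 9417995699) (nat_lit 86) (nat_lit 5) (nat_lit 89) (nat_lit 5) (nat_lit 90) (nat_lit 5) (nat_lit 410) (nat_lit 394) (nat_lit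 276))))))))
noncomputable def xc163 : XT := (XT.nd (nat_lit 2632) (nat_lit 1764) (nat_lit 0) (XT.nd (nat_lit 1316) (nat_lit 2100) (nat_lit 0) (XT.nd (nat_lit 658) (nat_lit 1344) (nat_lit 0) (XT.nd (nat_lit 282) (nat_lit 1092) (nat_lit 0) (XT.nd (nat_lit 94) (nat_lit 504) (nat_lit 0) (XT.lf (nat_lit 0) (nat_lit 23701649306) (nat_lit 420) (nat_lit 55833307298) (nat_lit 84) (nat_lit 34693497357) (nat_lit 81) (nat_lit 5) (nat_lit 86) (nat_lit 5) (nat_lit 82) (nat_lit 5) (nat_lit 411) (nat_lit 394) (nat_lit 275)) (XT.nd (nat_lit 94) (nat_lit 252) (nat_lit 0) (XT.lf (nat_lit 0) (nat_lit 54413293881) (nat_lit 252) (nat_lit 7023217460) (nat_lit 336) (nat_lit 58173804252) (nat_lit 78) (nat_lit 5) (nat_lit 81) (nat_lit 5) (nat_lit 82) (nat_lit 5) (nat_lit 412) (nat_lit 394) (nat_lit 274)) (XT.lf (nat_lit 0) (nat_lit 50587715880) (nat_lit 252) (nat_lit 54492611075) (nat_lit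 336) (nat_lit 20197890970) (nat_lit 75) (nat_lit 5) (nat_lit 78) (nat_lit 5) (nat_lit 79) (nat_lit 5) (nat_lit 413) (nat_lit 394) (nat_lit 273)))) (XT.nd (nat_lit 188) (nat_lit 504) (nat_lit 0) (XT.nd (nat_lit 94) (nat_lit 252) (nat_lit 0) (XT.lf (nat_lit 0) (nat_lit 22564282924) (nat_lit 336) (nat_lit 83997862953) (nat_lit 84) (nat_lit 24700435058) (nat_lit 71) (nat_lit 5) (nat_lit 75) (nat_lit 5) (nat_lit 72) (nat_lit 5) (nat_lit 414) (nat_lit 394) (nat_lit 272)) (XT.lf (nat_lit 0) (nat_lit 44112327641) (nat_lit 252) (nat_lit 26865771417) (nat_lit 336) (nat_lit 66584123077) (nat_lit 68) (nat_lit 5) (nat_lit 71) (nat_lit 5) (nat_lit 72) (nat_lit 5) (nat_lit 415) (nat_lit 394) (nat_lit 271))) (XT.nd (nat_lit 94) (nat_lit 336) (nat_lit 0) (XT.lf (nat_lit 0) (nat_lit 41558301773) (nat_lit 168) (nat_lit 84766052578) (nat_lit 252) (nat_lit 17888513586) (nat_lit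 66) (nat_lit 5) (nat_lit 68) (nat_lit 5) (nat_lit 69) (nat_lit 5) (nat_lit 416) (nat_lit 394) (nat_lit 270)) (XT.lf (nat_lit 0) (nat_lit 36369173650) (nat_lit 336) (nat_lit 111648500384) (nat_lit 84) (nat_lit 3211944337) (nat_lit 62) (nat_lit 5) (nat_lit 66) (nat_lit 5) (nat_lit 63) (nat_lit 5) (nat_lit 417) (nat_lit 394) (nat_lit 269))))) (XT.nd (nat_lit 282) (nat_lit 756) (nat_lit 0) (XT.nd (nat_lit 94) (nat_lit 420) (nat_lit 0) (XT.lf (nat_lit 0) (nat_lit 37584203394) (nat_lit 168) (nat_lit 60597541108) (nat_lit 252) (nat_lit 60419251873) (nat_lit 60) (nat_lit 5) (nat_lit 62) (nat_lit 5) (nat_lit 63) (nat_lit 5) (nat_lit 418) (nat_lit 394) (nat_lit 268)) (XT.nd (nat_lit 94) (nat_lit 168) (nat_lit 0) (XT.lf (nat_lit 0) (nat_lit 1559485107) (nat_lit 252) (nat_lit 129536097395) (nat_lit 84) (nat_lit 35311253404) (nat_lit 57) (nat_lit 5) (nat_lit 60) (nat_lit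 5) (nat_lit 58) (nat_lit 5) (nat_lit 419) (nat_lit 394) (nat_lit 267)) (XT.lf (nat_lit 0) (nat_lit 36056392743) (nat_lit 168) (nat_lit 34078042296) (nat_lit 252) (nat_lit 104465448069) (nat_lit 55) (nat_lit 5) (nat_lit 57) (nat_lit 5) (nat_lit 58) (nat_lit 5) (nat_lit 420) (nat_lit 394) (nat_lit 266)))) (XT.nd (nat_lit 188) (nat_lit 336) (nat_lit 0) (XT.nd (nat_lit 94) (nat_lit 252) (nat_lit 0) (XT.lf (nat_lit 0) (nat_lit 36202823286) (nat_lit 168) (nat_lit 111954177714) (nat_lit 252) (nat_lit 35093292086) (nat_lit 53) (nat_lit 5) (nat_lit 55) (nat_lit 5) (nat_lit 56) (nat_lit 5) (nat_lit 421) (nat_lit 394) (nat_lit 265)) (XT.lf (nat_lit 0) (nat_lit 37362483044) (nat_lit 168) (nat_lit 4801396648) (nat_lit 252) (nat_lit 150217263918) (nat_lit 50) (nat_lit 5) (nat_lit 52) (nat_lit 5) (nat_lit 53) (nat_lit 5) (nat_lit 422) (nat_lit 394) (nat_lit 264))) (XT.nd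 (nat_lit 94) (nat_lit 168) (nat_lit 0) (XT.lf (nat_lit 0) (nat_lit 38528025282) (nat_lit 168) (nat_lit 90796549218) (nat_lit 252) (nat_lit 72641500317) (nat_lit 48) (nat_lit 5) (nat_lit 50) (nat_lit 5) (nat_lit 51) (nat_lit 5) (nat_lit 423) (nat_lit 394) (nat_lit 263)) (XT.lf (nat_lit 0) (nat_lit 14695863175) (nat_lit 168) (nat_lit 170613870323) (nat_lit 84) (nat_lit 26803765499) (nat_lit 46) (nat_lit 5) (nat_lit 48) (nat_lit 5) (nat_lit 47) (nat_lit 5) (nat_lit 424) (nat_lit 394) (nat_lit 262)))))) (XT.nd (nat_lit 658) (nat_lit 924) (nat_lit 0) (XT.nd (nat_lit 282) (nat_lit 672) (nat_lit 0) (XT.nd (nat_lit 94) (nat_lit 336) (nat_lit 0) (XT.lf (nat_lit 0) (nat_lit 44353992594) (nat_lit 168) (nat_lit 67271628924) (nat_lit 252) (nat_lit 111130032878) (nat_lit 44) (nat_lit 5) (nat_lit 46) (nat_lit 5) (nat_lit 47) (nat_lit 5) (nat_lit 425) (nat_lit 394) (nat_lit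 261)) (XT.nd (nat_lit 94) (nat_lit 252) (nat_lit 0) (XT.lf (nat_lit 0) (nat_lit 49092454403) (nat_lit 84) (nat_lit 171943790844) (nat_lit 168) (nat_lit 12976612743) (nat_lit 43) (nat_lit 5) (nat_lit 44) (nat_lit 5) (nat_lit 45) (nat_lit 4) (nat_lit 426) (nat_lit 394) (nat_lit 260)) (XT.lf (nat_lit 0) (nat_lit 54238483818) (nat_lit 168) (nat_lit 40952102614) (nat_lit 252) (nat_lit 150650478355) (nat_lit 40) (nat_lit 5) (nat_lit 42) (nat_lit 5) (nat_lit 43) (nat_lit 5) (nat_lit 427) (nat_lit 394) (nat_lit 259)))) (XT.nd (nat_lit 188) (nat_lit 336) (nat_lit 0) (XT.nd (nat_lit 94) (nat_lit 252) (nat_lit 0) (XT.lf (nat_lit 0) (nat_lit 60782221135) (nat_lit 84) (nat_lit 156572062067) (nat_lit 168) (nat_lit 40960720412) (nat_lit 39) (nat_lit 5) (nat_lit 40) (nat_lit 5) (nat_lit 41) (nat_lit 4) (nat_lit 428) (nat_lit 394) (nat_lit 258)) (XT.lf (nat_lit 0) (nat_lit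 68826244826) (nat_lit 168) (nat_lit 11354098783) (nat_lit 252) (nat_lit 191288173812) (nat_lit 36) (nat_lit 5) (nat_lit 38) (nat_lit 5) (nat_lit 39) (nat_lit 5) (nat_lit 429) (nat_lit 394) (nat_lit 257))) (XT.nd (nat_lit 94) (nat_lit 252) (nat_lit 0) (XT.lf (nat_lit 0) (nat_lit 77506611871) (nat_lit 84) (nat_lit 139068331097) (nat_lit 168) (nat_lit 68715929288) (nat_lit 35) (nat_lit 5) (nat_lit 36) (nat_lit 5) (nat_lit 37) (nat_lit 4) (nat_lit 430) (nat_lit 394) (nat_lit 256)) (XT.lf (nat_lit 0) (nat_lit 67135053995) (nat_lit 252) (nat_lit 211394742924) (nat_lit 84) (nat_lit 21363994182) (nat_lit 32) (nat_lit 5) (nat_lit 35) (nat_lit 5) (nat_lit 33) (nat_lit 4) (nat_lit 431) (nat_lit 394) (nat_lit 255))))) (XT.nd (nat_lit 282) (nat_lit 504) (nat_lit 0) (XT.nd (nat_lit 94) (nat_lit 336) (nat_lit 0) (XT.lf (nat_lit 0) (nat_lit 100059397500) (nat_lit 84) (nat_lit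 119004790500) (nat_lit 168) (nat_lit 96163553746) (nat_lit 31) (nat_lit 5) (nat_lit 32) (nat_lit 5) (nat_lit 33) (nat_lit 4) (nat_lit 432) (nat_lit 394) (nat_lit 254)) (XT.nd (nat_lit 94) (nat_lit 84) (nat_lit 0) (XT.lf (nat_lit 0) (nat_lit 56192002139) (nat_lit 252) (nat_lit 217208994574) (nat_lit 84) (nat_lit 58023489923) (nat_lit 28) (nat_lit 5) (nat_lit 31) (nat_lit 5) (nat_lit 29) (nat_lit 4) (nat_lit 433) (nat_lit 394) (nat_lit 253)) (XT.lf (nat_lit 0) (nat_lit 129353533615) (nat_lit 84) (nat_lit 95893593045) (nat_lit 168) (nat_lit 123197010539) (nat_lit 27) (nat_lit 5) (nat_lit 28) (nat_lit 5) (nat_lit 29) (nat_lit 4) (nat_lit 434) (nat_lit 394) (nat_lit 252)))) (XT.nd (nat_lit 188) (nat_lit 252) (nat_lit 0) (XT.nd (nat_lit 94) (nat_lit 84) (nat_lit 0) (XT.lf (nat_lit 0) (nat_lit 47465196060) (nat_lit 168) (nat_lit 219271126912) (nat_lit 84) (nat_lit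 99668219953) (nat_lit 25) (nat_lit 5) (nat_lit 27) (nat_lit 5) (nat_lit 26) (nat_lit 4) (nat_lit 435) (nat_lit 394) (nat_lit 251)) (XT.lf (nat_lit 0) (nat_lit 166437233192) (nat_lit 84) (nat_lit 69178572450) (nat_lit 168) (nat_lit 149677411830) (nat_lit 24) (nat_lit 5) (nat_lit 25) (nat_lit 5) (nat_lit 26) (nat_lit 4) (nat_lit 436) (nat_lit 394) (nat_lit 250))) (XT.nd (nat_lit 94) (nat_lit 84) (nat_lit 0) (XT.lf (nat_lit 0) (nat_lit 41298828692) (nat_lit 168) (nat_lit 216837905049) (nat_lit 84) (nat_lit 147068714524) (nat_lit 22) (nat_lit 5) (nat_lit 24) (nat_lit 5) (nat_lit 23) (nat_lit 4) (nat_lit 437) (nat_lit 394) (nat_lit 249)) (XT.lf (nat_lit 0) (nat_lit 212512130560) (nat_lit 84) (nat_lit 38225895046) (nat_lit 168) (nat_lit 175428504284) (nat_lit 21) (nat_lit 5) (nat_lit 22) (nat_lit 5) (nat_lit 23) (nat_lit 4) (nat_lit 438) (nat_lit 394) (nat_lit 248)))))))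 (XT.nd (nat_lit 1316) (nat_lit 0) (nat_lit 0) (XT.nd (nat_lit 658) (nat_lit 840) (nat_lit 0) (XT.nd (nat_lit 282) (nat_lit 504) (nat_lit 0) (XT.nd (nat_lit 94) (nat_lit 252) (nat_lit 0) (XT.lf (nat_lit 0) (nat_lit 38097387986) (nat_lit 168) (nat_lit 209044275044) (nat_lit 84) (nat_lit 201097387530) (nat_lit 19) (nat_lit 5) (nat_lit 21) (nat_lit 5) (nat_lit 20) (nat_lit 4) (nat_lit 439) (nat_lit 394) (nat_lit 247)) (XT.nd (nat_lit 94) (nat_lit 168) (nat_lit 0) (XT.lf (nat_lit 0) (nat_lit 268953799391) (nat_lit 84) (nat_lit 2313507688) (nat_lit 168) (nat_lit 200230866166) (nat_lit 18) (nat_lit 5) (nat_lit 19) (nat_lit 5) (nat_lit 20) (nat_lit 4) (nat_lit 440) (nat_lit 394) (nat_lit 246)) (XT.lf (nat_lit 0) (nat_lit 38334037862) (nat_lit 168) (nat_lit 194886099134) (nat_lit 84) (nat_lit 262741796092) (nat_lit 16) (nat_lit 5) (nat_lit 18) (nat_lit 5) (nat_lit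 17) (nat_lit 4) (nat_lit 441) (nat_lit 394) (nat_lit 245)))) (XT.nd (nat_lit 188) (nat_lit 252) (nat_lit 0) (XT.nd (nat_lit 94) (nat_lit 168) (nat_lit 0) (XT.lf (nat_lit 0) (nat_lit 298568994697) (nat_lit 168) (nat_lit 185049337931) (nat_lit 0) (nat_lit 38120338694) (nat_lit 15) (nat_lit 5) (nat_lit 17) (nat_lit 4) (nat_lit 15) (nat_lit 4) (nat_lit 442) (nat_lit 394) (nat_lit 244)) (XT.lf (nat_lit 0) (nat_lit 42560129249) (nat_lit 168) (nat_lit 173200578036) (nat_lit 84) (nat_lit 333119558653) (nat_lit 13) (nat_lit 5) (nat_lit 15) (nat_lit 5) (nat_lit 14) (nat_lit 4) (nat_lit 443) (nat_lit 394) (nat_lit 243))) (XT.nd (nat_lit 94) (nat_lit 168) (nat_lit 0) (XT.lf (nat_lit 0) (nat_lit 333029441783) (nat_lit 168) (nat_lit 159433065603) (nat_lit 0) (nat_lit 84982759744) (nat_lit 12) (nat_lit 5) (nat_lit 14) (nat_lit 4) (nat_lit 12) (nat_lit 4) (nat_lit 444) (nat_lit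 394) (nat_lit 242)) (XT.lf (nat_lit 0) (nat_lit 51415985844) (nat_lit 168) (nat_lit 142644063741) (nat_lit 84) (nat_lit 413495135298) (nat_lit 10) (nat_lit 5) (nat_lit 12) (nat_lit 5) (nat_lit 11) (nat_lit 4) (nat_lit 445) (nat_lit 394) (nat_lit 241))))) (XT.nd (nat_lit 282) (nat_lit 504) (nat_lit 0) (XT.nd (nat_lit 94) (nat_lit 252) (nat_lit 0) (XT.lf (nat_lit 0) (nat_lit 375613391643) (nat_lit 168) (nat_lit 124218877777) (nat_lit 0) (nat_lit 139378176313) (nat_lit 9) (nat_lit 5) (nat_lit 11) (nat_lit 4) (nat_lit 9) (nat_lit 4) (nat_lit 446) (nat_lit 394) (nat_lit 240)) (XT.nd (nat_lit 94) (nat_lit 84) (nat_lit 0) (XT.lf (nat_lit 0) (nat_lit 65643127264) (nat_lit 168) (nat_lit 101666929105) (nat_lit 84) (nat_lit 505298698646) (nat_lit 7) (nat_lit 5) (nat_lit 9) (nat_lit 5) (nat_lit 8) (nat_lit 4) (nat_lit 447) (nat_lit 394) (nat_lit 239)) (XT.lf (nat_lit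 0) (nat_lit 427464226006) (nat_lit 168) (nat_lit 77746718918) (nat_lit 0) (nat_lit 202478077976) (nat_lit 6) (nat_lit 5) (nat_lit 8) (nat_lit 4) (nat_lit 6) (nat_lit 4) (nat_lit 448) (nat_lit 394) (nat_lit 238)))) (XT.nd (nat_lit 188) (nat_lit 252) (nat_lit 0) (XT.nd (nat_lit 94) (nat_lit 84) (nat_lit 0) (XT.lf (nat_lit 0) (nat_lit 86098112585) (nat_lit 168) (nat_lit 48485119022) (nat_lit 84) (nat_lit 610147351189) (nat_lit 4) (nat_lit 5) (nat_lit 6) (nat_lit 5) (nat_lit 5) (nat_lit 4) (nat_lit 449) (nat_lit 394) (nat_lit 237)) (XT.lf (nat_lit 0) (nat_lit 489886407761) (nat_lit 168) (nat_lit 18106804912) (nat_lit 0) (nat_lit 275613699117) (nat_lit 3) (nat_lit 5) (nat_lit 5) (nat_lit 4) (nat_lit 3) (nat_lit 4) (nat_lit 450) (nat_lit 394) (nat_lit 236))) (XT.nd (nat_lit 94) (nat_lit 0) (nat_lit 0) (XT.lf (nat_lit 0) (nat_lit 1196275626470) (nat_lit 0) (nat_lit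 0) (nat_lit 0) (nat_lit 0) (nat_lit 0) (nat_lit 0) (nat_lit 1) (nat_lit 0) (nat_lit 1) (nat_lit 0) (nat_lit 451) (nat_lit 394) (nat_lit 235)) (XT.lf (nat_lit 0) (nat_lit 1290801692084) (nat_lit 0) (nat_lit 0) (nat_lit 0) (nat_lit 0) (nat_lit 0) (nat_lit 0) (nat_lit 1) (nat_lit 0) (nat_lit 1) (nat_lit 0) (nat_lit 452) (nat_lit 394) (nat_lit 234)))))) (XT.nd (nat_lit 658) (nat_lit 0) (nat_lit 0) (XT.nd (nat_lit 282) (nat_lit 0) (nat_lit 0) (XT.nd (nat_lit 94) (nat_lit 0) (nat_lit 0) (XT.lf (nat_lit 0) (nat_lit 1392889843760) (nat_lit 0) (nat_lit 0) (nat_lit 0) (nat_lit 0) (nat_lit 0) (nat_lit 0) (nat_lit 1) (nat_lit 0) (nat_lit 1) (nat_lit 0) (nat_lit 453) (nat_lit 394) (nat_lit 233)) (XT.nd (nat_lit 94) (nat_lit 0) (nat_lit 0) (XT.lf (nat_lit 0) (nat_lit 1503145048324) (nat_lit 0) (nat_lit 0) (nat_lit 0) (nat_lit 0) (nat_lit 0) (nat_lit 0) (nat_lit 1) (nat_lit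 0) (nat_lit 1) (nat_lit 0) (nat_lit 454) (nat_lit 394) (nat_lit 232)) (XT.lf (nat_lit 0) (nat_lit 1622220669950) (nat_lit 0) (nat_lit 0) (nat_lit 0) (nat_lit 0) (nat_lit 0) (nat_lit 0) (nat_lit 1) (nat_lit 0) (nat_lit 1) (nat_lit 0) (nat_lit 455) (nat_lit 394) (nat_lit 231)))) (XT.nd (nat_lit 188) (nat_lit 0) (nat_lit 0) (XT.nd (nat_lit 94) (nat_lit 0) (nat_lit 0) (XT.lf (nat_lit 0) (nat_lit 1750822341952) (nat_lit 0) (nat_lit 0) (nat_lit 0) (nat_lit 0) (nat_lit 0) (nat_lit 0) (nat_lit 1) (nat_lit 0) (nat_lit 1) (nat_lit 0) (nat_lit 456) (nat_lit 394) (nat_lit 230)) (XT.lf (nat_lit 0) (nat_lit 1889712148313) (nat_lit 0) (nat_lit 0) (nat_lit 0) (nat_lit 0) (nat_lit 0) (nat_lit 0) (nat_lit 1) (nat_lit 0) (nat_lit 1) (nat_lit 0) (nat_lit 457) (nat_lit 394) (nat_lit 229))) (XT.nd (nat_lit 94) (nat_lit 0) (nat_lit 0) (XT.lf (nat_lit 0) (nat_lit 2039713139735) (nat_lit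 0) (nat_lit 0) (nat_lit 0) (nat_lit 0) (nat_lit 0) (nat_lit 0) (nat_lit 1) (nat_lit 0) (nat_lit 1) (nat_lit 0) (nat_lit 458) (nat_lit 394) (nat_lit 228)) (XT.lf (nat_lit 0) (nat_lit 2201714210984) (nat_lit 0) (nat_lit 0) (nat_lit 0) (nat_lit 0) (nat_lit 0) (nat_lit 0) (nat_lit 1) (nat_lit 0) (nat_lit 1) (nat_lit 0) (nat_lit 459) (nat_lit 394) (nat_lit 227))))) (XT.nd (nat_lit 376) (nat_lit 0) (nat_lit 0) (XT.nd (nat_lit 188) (nat_lit 0) (nat_lit 0) (XT.nd (nat_lit 94) (nat_lit 0) (nat_lit 0) (XT.lf (nat_lit 0) (nat_lit 2376675368408) (nat_lit 0) (nat_lit 0) (nat_lit 0) (nat_lit 0) (nat_lit 0) (nat_lit 0) (nat_lit 1) (nat_lit 0) (nat_lit 1) (nat_lit 0) (nat_lit 460) (nat_lit 394) (nat_lit 226)) (XT.lf (nat_lit 0) (nat_lit 2565633418865) (nat_lit 0) (nat_lit 0) (nat_lit 0) (nat_lit 0) (nat_lit 0) (nat_lit 0) (nat_lit 1) (nat_lit 0) (nat_lit 1) (nat_lit 0) (nat_lit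 461) (nat_lit 394) (nat_lit 225))) (XT.nd (nat_lit 94) (nat_lit 0) (nat_lit 0) (XT.lf (nat_lit 0) (nat_lit 2769708113765) (nat_lit 0) (nat_lit 0) (nat_lit 0) (nat_lit 0) (nat_lit 0) (nat_lit 0) (nat_lit 1) (nat_lit 0) (nat_lit 1) (nat_lit 0) (nat_lit 462) (nat_lit 394) (nat_lit 224)) (XT.lf (nat_lit 0) (nat_lit 2990108784634) (nat_lit 0) (nat_lit 0) (nat_lit 0) (nat_lit 0) (nat_lit 0) (nat_lit 0) (nat_lit 1) (nat_lit 0) (nat_lit 1) (nat_lit 0) (nat_lit 463) (nat_lit 394) (nat_lit 223)))) (XT.nd (nat_lit 188) (nat_lit 0) (nat_lit 0) (XT.nd (nat_lit 94) (nat_lit 0) (nat_lit 0) (XT.lf (nat_lit 0) (nat_lit 3228141509522) (nat_lit 0) (nat_lit 0) (nat_lit 0) (nat_lit 0) (nat_lit 0) (nat_lit 0) (nat_lit 1) (nat_lit 0) (nat_lit 1) (nat_lit 0) (nat_lit 464) (nat_lit 394) (nat_lit 222)) (XT.lf (nat_lit 0) (nat_lit 3485216852723) (nat_lit 0) (nat_lit 0) (nat_lit 0) (nat_lit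 0) (nat_lit 0) (nat_lit 0) (nat_lit 1) (nat_lit 0) (nat_lit 1) (nat_lit 0) (nat_lit 465) (nat_lit 394) (nat_lit 221))) (XT.nd (nat_lit 94) (nat_lit 0) (nat_lit 0) (XT.lf (nat_lit 0) (nat_lit 3762858223680) (nat_lit 0) (nat_lit 0) (nat_lit 0) (nat_lit 0) (nat_lit 0) (nat_lit 0) (nat_lit 1) (nat_lit 0) (nat_lit 1) (nat_lit 0) (nat_lit 466) (nat_lit 394) (nat_lit 220)) (XT.lf (nat_lit 0) (nat_lit 4062710904590) (nat_lit 0) (nat_lit 0) (nat_lit 0) (nat_lit 0) (nat_lit 0) (nat_lit 0) (nat_lit 1) (nat_lit 0) (nat_lit 1) (nat_lit 0) (nat_lit 467) (nat_lit 394) (nat_lit 219))))))))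
noncomputable def xc164 : XT := (XT.nd (nat_lit 2632) (nat_lit 0) (nat_lit 0) (XT.nd (nat_lit 1316) (nat_lit 0) (nat_lit 0) (XT.nd (nat_lit 658) (nat_lit 0) (nat_lit 0) (XT.nd (nat_lit 282) (nat_lit 0) (nat_lit 0) (XT.nd (nat_lit 94) (nat_lit 0) (nat_lit 0) (XT.lf (nat_lit 0) (nat_lit 4386551800230) (nat_lit 0) (nat_lit 0) (nat_lit 0) (nat_lit 0) (nat_lit 0) (nat_lit 0) (nat_lit 1) (nat_lit 0) (nat_lit 1) (nat_lit 0) (nat_lit 468) (nat_lit 394) (nat_lit 218)) (XT.nd (nat_lit 94) (nat_lit 0) (nat_lit 0) (XT.lf (nat_lit 0) (nat_lit 4736299967758) (nat_lit 0) (nat_lit 0) (nat_lit 0) (nat_lit 0) (nat_lit 0) (nat_lit 0) (nat_lit 1) (nat_lit 0) (nat_lit 1) (nat_lit 0) (nat_lit 469) (nat_lit 394) (nat_lit 217)) (XT.lf (nat_lit 0) (nat_lit 5114027988909) (nat_lit 0) (nat_lit 0) (nat_lit 0) (nat_lit 0) (nat_lit 0) (nat_lit 0) (nat_lit 1) (nat_lit 0) (nat_lit 1) (nat_lit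 0) (nat_lit 470) (nat_lit 394) (nat_lit 216)))) (XT.nd (nat_lit 188) (nat_lit 0) (nat_lit 0) (XT.nd (nat_lit 94) (nat_lit 0) (nat_lit 0) (XT.lf (nat_lit 0) (nat_lit 5521974251955) (nat_lit 0) (nat_lit 0) (nat_lit 0) (nat_lit 0) (nat_lit 0) (nat_lit 0) (nat_lit 1) (nat_lit 0) (nat_lit 1) (nat_lit 0) (nat_lit 471) (nat_lit 394) (nat_lit 215)) (XT.lf (nat_lit 0) (nat_lit 5962556216233) (nat_lit 0) (nat_lit 0) (nat_lit 0) (nat_lit 0) (nat_lit 0) (nat_lit 0) (nat_lit 1) (nat_lit 0) (nat_lit 1) (nat_lit 0) (nat_lit 472) (nat_lit 394) (nat_lit 214))) (XT.nd (nat_lit 94) (nat_lit 0) (nat_lit 0) (XT.lf (nat_lit 0) (nat_lit 6438384737827) (nat_lit 0) (nat_lit 0) (nat_lit 0) (nat_lit 0) (nat_lit 0) (nat_lit 0) (nat_lit 1) (nat_lit 0) (nat_lit 1) (nat_lit 0) (nat_lit 473) (nat_lit 394) (nat_lit 213)) (XT.lf (nat_lit 0) (nat_lit 6952279541311) (nat_lit 0) (nat_lit 0) (nat_lit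 0) (nat_lit 0) (nat_lit 0) (nat_lit 0) (nat_lit 1) (nat_lit 0) (nat_lit 1) (nat_lit 0) (nat_lit 474) (nat_lit 394) (nat_lit 212))))) (XT.nd (nat_lit 282) (nat_lit 0) (nat_lit 0) (XT.nd (nat_lit 94) (nat_lit 0) (nat_lit 0) (XT.lf (nat_lit 0) (nat_lit 7507285929224) (nat_lit 0) (nat_lit 0) (nat_lit 0) (nat_lit 0) (nat_lit 0) (nat_lit 0) (nat_lit 1) (nat_lit 0) (nat_lit 1) (nat_lit 0) (nat_lit 475) (nat_lit 394) (nat_lit 211)) (XT.nd (nat_lit 94) (nat_lit 0) (nat_lit 0) (XT.lf (nat_lit 0) (nat_lit 8106692828308) (nat_lit 0) (nat_lit 0) (nat_lit 0) (nat_lit 0) (nat_lit 0) (nat_lit 0) (nat_lit 1) (nat_lit 0) (nat_lit 1) (nat_lit 0) (nat_lit 476) (nat_lit 394) (nat_lit 210)) (XT.lf (nat_lit 0) (nat_lit 8754052279447) (nat_lit 0) (nat_lit 0) (nat_lit 0) (nat_lit 0) (nat_lit 0) (nat_lit 0) (nat_lit 1) (nat_lit 0) (nat_lit 1) (nat_lit 0) (nat_lit 477) (nat_lit 394)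 (nat_lit 209)))) (XT.nd (nat_lit 188) (nat_lit 0) (nat_lit 0) (XT.nd (nat_lit 94) (nat_lit 0) (nat_lit 0) (XT.lf (nat_lit 0) (nat_lit 9453200486795) (nat_lit 0) (nat_lit 0) (nat_lit 0) (nat_lit 0) (nat_lit 0) (nat_lit 0) (nat_lit 1) (nat_lit 0) (nat_lit 1) (nat_lit 0) (nat_lit 478) (nat_lit 394) (nat_lit 208)) (XT.lf (nat_lit 0) (nat_lit 10208280550842) (nat_lit 0) (nat_lit 0) (nat_lit 0) (nat_lit 0) (nat_lit 0) (nat_lit 0) (nat_lit 1) (nat_lit 0) (nat_lit 1) (nat_lit 0) (nat_lit 479) (nat_lit 394) (nat_lit 207))) (XT.nd (nat_lit 94) (nat_lit 0) (nat_lit 0) (XT.lf (nat_lit 0) (nat_lit 11023767020114) (nat_lit 0) (nat_lit 0) (nat_lit 0) (nat_lit 0) (nat_lit 0) (nat_lit 0) (nat_lit 1) (nat_lit 0) (nat_lit 1) (nat_lit 0) (nat_lit 480) (nat_lit 394) (nat_lit 206)) (XT.lf (nat_lit 0) (nat_lit 11904492407022) (nat_lit 0) (nat_lit 0) (nat_lit 0) (nat_lit 0) (nat_lit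 0) (nat_lit 0) (nat_lit 1) (nat_lit 0) (nat_lit 1) (nat_lit 0) (nat_lit 481) (nat_lit 394) (nat_lit 205)))))) (XT.nd (nat_lit 658) (nat_lit 0) (nat_lit 0) (XT.nd (nat_lit 282) (nat_lit 0) (nat_lit 0) (XT.nd (nat_lit 94) (nat_lit 0) (nat_lit 0) (XT.lf (nat_lit 0) (nat_lit 12855675824971) (nat_lit 0) (nat_lit 0) (nat_lit 0) (nat_lit 0) (nat_lit 0) (nat_lit 0) (nat_lit 1) (nat_lit 0) (nat_lit 1) (nat_lit 0) (nat_lit 482) (nat_lit 394) (nat_lit 204)) (XT.nd (nat_lit 94) (nat_lit 0) (nat_lit 0) (XT.lf (nat_lit 0) (nat_lit 13882953916436) (nat_lit 0) (nat_lit 0) (nat_lit 0) (nat_lit 0) (nat_lit 0) (nat_lit 0) (nat_lit 1) (nat_lit 0) (nat_lit 1) (nat_lit 0) (nat_lit 483) (nat_lit 394) (nat_lit 203)) (XT.lf (nat_lit 0) (nat_lit 14992414255293) (nat_lit 0) (nat_lit 0) (nat_lit 0) (nat_lit 0) (nat_lit 0) (nat_lit 0) (nat_lit 1) (nat_lit 0) (nat_lit 1) (nat_lit 0) (nat_lit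 484) (nat_lit 394) (nat_lit 202)))) (XT.nd (nat_lit 188) (nat_lit 0) (nat_lit 0) (XT.nd (nat_lit 94) (nat_lit 0) (nat_lit 0) (XT.lf (nat_lit 0) (nat_lit 16190631421327) (nat_lit 0) (nat_lit 0) (nat_lit 0) (nat_lit 0) (nat_lit 0) (nat_lit 0) (nat_lit 1) (nat_lit 0) (nat_lit 1) (nat_lit 0) (nat_lit 485) (nat_lit 394) (nat_lit 201)) (XT.lf (nat_lit 0) (nat_lit 17484705960709) (nat_lit 0) (nat_lit 0) (nat_lit 0) (nat_lit 0) (nat_lit 0) (nat_lit 0) (nat_lit 1) (nat_lit 0) (nat_lit 1) (nat_lit 0) (nat_lit 486) (nat_lit 394) (nat_lit 200))) (XT.nd (nat_lit 94) (nat_lit 0) (nat_lit 0) (XT.lf (nat_lit 0) (nat_lit 18882306463301) (nat_lit 0) (nat_lit 0) (nat_lit 0) (nat_lit 0) (nat_lit 0) (nat_lit 0) (nat_lit 1) (nat_lit 0) (nat_lit 1) (nat_lit 0) (nat_lit 487) (nat_lit 394) (nat_lit 199)) (XT.lf (nat_lit 0) (nat_lit 20391715006155) (nat_lit 0) (nat_lit 0) (nat_lit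 0) (nat_lit 0) (nat_lit 0) (nat_lit 0) (nat_lit 1) (nat_lit 0) (nat_lit 1) (nat_lit 0) (nat_lit 488) (nat_lit 394) (nat_lit 198))))) (XT.nd (nat_lit 282) (nat_lit 0) (nat_lit 0) (XT.nd (nat_lit 94) (nat_lit 0) (nat_lit 0) (XT.lf (nat_lit 0) (nat_lit 22021876232489) (nat_lit 0) (nat_lit 0) (nat_lit 0) (nat_lit 0) (nat_lit 0) (nat_lit 0) (nat_lit 1) (nat_lit 0) (nat_lit 1) (nat_lit 0) (nat_lit 489) (nat_lit 394) (nat_lit 197)) (XT.nd (nat_lit 94) (nat_lit 0) (nat_lit 0) (XT.lf (nat_lit 0) (nat_lit 23782450356976) (nat_lit 0) (nat_lit 0) (nat_lit 0) (nat_lit 0) (nat_lit 0) (nat_lit 0) (nat_lit 1) (nat_lit 0) (nat_lit 1) (nat_lit 0) (nat_lit 490) (nat_lit 394) (nat_lit 196)) (XT.lf (nat_lit 0) (nat_lit 25683870411466) (nat_lit 0) (nat_lit 0) (nat_lit 0) (nat_lit 0) (nat_lit 0) (nat_lit 0) (nat_lit 1) (nat_lit 0) (nat_lit 1) (nat_lit 0) (nat_lit 491) (nat_lit 394)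 (nat_lit 195)))) (XT.nd (nat_lit 188) (nat_lit 0) (nat_lit 0) (XT.nd (nat_lit 94) (nat_lit 0) (nat_lit 0) (XT.lf (nat_lit 0) (nat_lit 27737404070355) (nat_lit 0) (nat_lit 0) (nat_lit 0) (nat_lit 0) (nat_lit 0) (nat_lit 0) (nat_lit 1) (nat_lit 0) (nat_lit 1) (nat_lit 0) (nat_lit 492) (nat_lit 394) (nat_lit 194)) (XT.lf (nat_lit 0) (nat_lit 29955220421993) (nat_lit 0) (nat_lit 0) (nat_lit 0) (nat_lit 0) (nat_lit 0) (nat_lit 0) (nat_lit 1) (nat_lit 0) (nat_lit 1) (nat_lit 0) (nat_lit 493) (nat_lit 394) (nat_lit 193))) (XT.nd (nat_lit 94) (nat_lit 0) (nat_lit 0) (XT.lf (nat_lit 0) (nat_lit 32350462081797) (nat_lit 0) (nat_lit 0) (nat_lit 0) (nat_lit 0) (nat_lit 0) (nat_lit 0) (nat_lit 1) (nat_lit 0) (nat_lit 1) (nat_lit 0) (nat_lit 494) (nat_lit 394) (nat_lit 192)) (XT.lf (nat_lit 0) (nat_lit 34937323074417) (nat_lit 0) (nat_lit 0) (nat_lit 0) (nat_lit 0) (nat_lit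 0) (nat_lit 0) (nat_lit 1) (nat_lit 0) (nat_lit 1) (nat_lit 0) (nat_lit 495) (nat_lit 394) (nat_lit 191))))))) (XT.nd (nat_lit 58750) (nat_lit 0) (nat_lit 6552) (XT.nd (nat_lit 658) (nat_lit 0) (nat_lit 0) (XT.nd (nat_lit 282) (nat_lit 0) (nat_lit 0) (XT.nd (nat_lit 94) (nat_lit 0) (nat_lit 0) (XT.lf (nat_lit 0) (nat_lit 37731132946477) (nat_lit 0) (nat_lit 0) (nat_lit 0) (nat_lit 0) (nat_lit 0) (nat_lit 0) (nat_lit 1) (nat_lit 0) (nat_lit 1) (nat_lit 0) (nat_lit 496) (nat_lit 394) (nat_lit 190)) (XT.nd (nat_lit 94) (nat_lit 0) (nat_lit 0) (XT.lf (nat_lit 0) (nat_lit 40748447608329) (nat_lit 0) (nat_lit 0) (nat_lit 0) (nat_lit 0) (nat_lit 0) (nat_lit 0) (nat_lit 1) (nat_lit 0) (nat_lit 1) (nat_lit 0) (nat_lit 497) (nat_lit 394) (nat_lit 189)) (XT.lf (nat_lit 0) (nat_lit 44007147443154) (nat_lit 0) (nat_lit 0) (nat_lit 0) (nat_lit 0) (nat_lit 0) (nat_lit 0)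 (nat_lit 1) (nat_lit 0) (nat_lit 1) (nat_lit 0) (nat_lit 498) (nat_lit 394) (nat_lit 188)))) (XT.nd (nat_lit 188) (nat_lit 0) (nat_lit 0) (XT.nd (nat_lit 94) (nat_lit 0) (nat_lit 0) (XT.lf (nat_lit 0) (nat_lit 47526543264790) (nat_lit 0) (nat_lit 0) (nat_lit 0) (nat_lit 0) (nat_lit 0) (nat_lit 0) (nat_lit 1) (nat_lit 0) (nat_lit 1) (nat_lit 0) (nat_lit 499) (nat_lit 394) (nat_lit 187)) (XT.lf (nat_lit 0) (nat_lit 51327490752177) (nat_lit 0) (nat_lit 0) (nat_lit 0) (nat_lit 0) (nat_lit 0) (nat_lit 0) (nat_lit 1) (nat_lit 0) (nat_lit 1) (nat_lit 0) (nat_lit 500) (nat_lit 394) (nat_lit 186))) (XT.nd (nat_lit 94) (nat_lit 0) (nat_lit 0) (XT.lf (nat_lit 0) (nat_lit 55432514038576) (nat_lit 0) (nat_lit 0) (nat_lit 0) (nat_lit 0) (nat_lit 0) (nat_lit 0) (nat_lit 1) (nat_lit 0) (nat_lit 1) (nat_lit 0) (nat_lit 501) (nat_lit 394) (nat_lit 185)) (XT.lf (nat_lit 0) (nat_lit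 59865939187906) (nat_lit 0) (nat_lit 0) (nat_lit 0) (nat_lit 0) (nat_lit 0) (nat_lit 0) (nat_lit 1) (nat_lit 0) (nat_lit 1) (nat_lit 0) (nat_lit 502) (nat_lit 394) (nat_lit 184))))) (XT.nd (nat_lit 57716) (nat_lit 0) (nat_lit 10836) (XT.nd (nat_lit 94) (nat_lit 0) (nat_lit 0) (XT.lf (nat_lit 0) (nat_lit 64654038349200) (nat_lit 0) (nat_lit 0) (nat_lit 0) (nat_lit 0) (nat_lit 0) (nat_lit 0) (nat_lit 1) (nat_lit 0) (nat_lit 1) (nat_lit 0) (nat_lit 503) (nat_lit 394) (nat_lit 183)) (XT.nd (nat_lit 57528) (nat_lit 0) (nat_lit 10752) (XT.lf (nat_lit 0) (nat_lit 69825185443413) (nat_lit 0) (nat_lit 0) (nat_lit 0) (nat_lit 0) (nat_lit 0) (nat_lit 0) (nat_lit 1) (nat_lit 0) (nat_lit 1) (nat_lit 0) (nat_lit 504) (nat_lit 394) (nat_lit 182)) (XT.lf (nat_lit 0) (nat_lit 13982593728) (nat_lit 924) (nat_lit 8009509401) (nat_lit 924) (nat_lit 8009509401) (nat_lit 128) (nat_lit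 3) (nat_lit 139) (nat_lit 3) (nat_lit 139) (nat_lit 5) (nat_lit 395) (nat_lit 395) (nat_lit 290)))) (XT.nd (nat_lit 188) (nat_lit 0) (nat_lit 84) (XT.nd (nat_lit 94) (nat_lit 0) (nat_lit 0) (XT.lf (nat_lit 0) (nat_lit 29681076386) (nat_lit 840) (nat_lit 29388641848) (nat_lit 924) (nat_lit 3303771757) (nat_lit 129) (nat_lit 5) (nat_lit 139) (nat_lit 5) (nat_lit 140) (nat_lit 5) (nat_lit 396) (nat_lit 395) (nat_lit 289)) (XT.lf (nat_lit 84) (nat_lit 21501912239) (nat_lit 0) (nat_lit 11390480540) (nat_lit 924) (nat_lit 31973075519) (nat_lit 130) (nat_lit 5) (nat_lit 129) (nat_lit 5) (nat_lit 140) (nat_lit 5) (nat_lit 397) (nat_lit 395) (nat_lit 288))) (XT.nd (nat_lit 94) (nat_lit 0) (nat_lit 84) (XT.lf (nat_lit 84) (nat_lit 9654694406) (nat_lit 0) (nat_lit 28000483339) (nat_lit 924) (nat_lit 29836898964) (nat_lit 131) (nat_lit 5) (nat_lit 130) (nat_lit 5) (nat_lit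 141) (nat_lit 5) (nat_lit 398) (nat_lit 395) (nat_lit 287)) (XT.lf (nat_lit 0) (nat_lit 44123722173) (nat_lit 840) (nat_lit 2401773927) (nat_lit 924) (nat_lit 23737080856) (nat_lit 131) (nat_lit 5) (nat_lit 141) (nat_lit 5) (nat_lit 142) (nat_lit 5) (nat_lit 399) (nat_lit 395) (nat_lit 286)))))) (XT.nd (nat_lit 658) (nat_lit 2016) (nat_lit 0) (XT.nd (nat_lit 282) (nat_lit 1764) (nat_lit 0) (XT.nd (nat_lit 94) (nat_lit 756) (nat_lit 0) (XT.lf (nat_lit 0) (nat_lit 52598519718) (nat_lit 840) (nat_lit 14405511574) (nat_lit 924) (nat_lit 6176247456) (nat_lit 132) (nat_lit 5) (nat_lit 142) (nat_lit 5) (nat_lit 143) (nat_lit 5) (nat_lit 400) (nat_lit 395) (nat_lit 285)) (XT.nd (nat_lit 94) (nat_lit 756) (nat_lit 0) (XT.lf (nat_lit 84) (nat_lit 49395954963) (nat_lit 0) (nat_lit 13951474902) (nat_lit 924) (nat_lit 12904160377) (nat_lit 133) (nat_lit 5) (nat_lit 132)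 (nat_lit 5) (nat_lit 143) (nat_lit 5) (nat_lit 401) (nat_lit 395) (nat_lit 284)) (XT.lf (nat_lit 0) (nat_lit 39852823588) (nat_lit 840) (nat_lit 36655460239) (nat_lit 924) (nat_lit 2982721278) (nat_lit 123) (nat_lit 5) (nat_lit 133) (nat_lit 5) (nat_lit 134) (nat_lit 5) (nat_lit 402) (nat_lit 395) (nat_lit 283)))) (XT.nd (nat_lit 188) (nat_lit 756) (nat_lit 0) (XT.nd (nat_lit 94) (nat_lit 420) (nat_lit 0) (XT.lf (nat_lit 0) (nat_lit 9010856668) (nat_lit 588) (nat_lit 52763494533) (nat_lit 84) (nat_lit 21132890216) (nat_lit 116) (nat_lit 5) (nat_lit 123) (nat_lit 5) (nat_lit 117) (nat_lit 5) (nat_lit 403) (nat_lit 395) (nat_lit 282)) (XT.lf (nat_lit 0) (nat_lit 20330705294) (nat_lit 420) (nat_lit 3165632284) (nat_lit 504) (nat_lit 63016148365) (nat_lit 111) (nat_lit 5) (nat_lit 116) (nat_lit 5) (nat_lit 117) (nat_lit 5) (nat_lit 404) (nat_lit 395) (nat_lit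 281))) (XT.nd (nat_lit 94) (nat_lit 336) (nat_lit 0) (XT.lf (nat_lit 0) (nat_lit 10166137991) (nat_lit 420) (nat_lit 31004576037) (nat_lit 504) (nat_lit 49133933149) (nat_lit 106) (nat_lit 5) (nat_lit 111) (nat_lit 5) (nat_lit 112) (nat_lit 5) (nat_lit 405) (nat_lit 395) (nat_lit 280)) (XT.lf (nat_lit 0) (nat_lit 68087328) (nat_lit 336) (nat_lit 61918301807) (nat_lit 420) (nat_lit 32327424748) (nat_lit 102) (nat_lit 5) (nat_lit 106) (nat_lit 5) (nat_lit 107) (nat_lit 5) (nat_lit 406) (nat_lit 395) (nat_lit 279))))) (XT.nd (nat_lit 282) (nat_lit 1260) (nat_lit 0) (XT.nd (nat_lit 94) (nat_lit 756) (nat_lit 0) (XT.lf (nat_lit 0) (nat_lit 86417301902) (nat_lit 420) (nat_lit 9578245329) (nat_lit 84) (nat_lit 2550667511) (nat_lit 102) (nat_lit 5) (nat_lit 107) (nat_lit 5) (nat_lit 103) (nat_lit 5) (nat_lit 407) (nat_lit 395) (nat_lit 278)) (XT.nd (nat_lit 94) (nat_lit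 336) (nat_lit 0) (XT.lf (nat_lit 0) (nat_lit 11760128731) (nat_lit 420) (nat_lit 19700452454) (nat_lit 84) (nat_lit 71529833385) (nat_lit 97) (nat_lit 5) (nat_lit 102) (nat_lit 5) (nat_lit 98) (nat_lit 5) (nat_lit 408) (nat_lit 395) (nat_lit 277)) (XT.lf (nat_lit 0) (nat_lit 39157322034) (nat_lit 420) (nat_lit 29883576752) (nat_lit 84) (nat_lit 38638211543) (nat_lit 93) (nat_lit 5) (nat_lit 98) (nat_lit 5) (nat_lit 94) (nat_lit 5) (nat_lit 409) (nat_lit 395) (nat_lit 276)))) (XT.nd (nat_lit 188) (nat_lit 672) (nat_lit 0) (XT.nd (nat_lit 94) (nat_lit 252) (nat_lit 0) (XT.lf (nat_lit 0) (nat_lit 70794731360) (nat_lit 420) (nat_lit 39811591416) (nat_lit 84) (nat_lit 2034156945) (nat_lit 89) (nat_lit 5) (nat_lit 94) (nat_lit 5) (nat_lit 90) (nat_lit 5) (nat_lit 410) (nat_lit 395) (nat_lit 275)) (XT.lf (nat_lit 0) (nat_lit 67850118483) (nat_lit 252) (nat_lit 39864403665)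 (nat_lit 336) (nat_lit 10146667080) (nat_lit 86) (nat_lit 5) (nat_lit 89) (nat_lit 5) (nat_lit 90) (nat_lit 5) (nat_lit 411) (nat_lit 395) (nat_lit 274))) (XT.nd (nat_lit 94) (nat_lit 252) (nat_lit 0) (XT.lf (nat_lit 0) (nat_lit 25620596743) (nat_lit 420) (nat_lit 60267901272) (nat_lit 84) (nat_lit 37477091488) (nat_lit 81) (nat_lit 5) (nat_lit 86) (nat_lit 5) (nat_lit 82) (nat_lit 5) (nat_lit 412) (nat_lit 395) (nat_lit 273)) (XT.lf (nat_lit 0) (nat_lit 58797034252) (nat_lit 252) (nat_lit 7576002405) (nat_lit 336) (nat_lit 62805023964) (nat_lit 78) (nat_lit 5) (nat_lit 81) (nat_lit 5) (nat_lit 82) (nat_lit 5) (nat_lit 413) (nat_lit 395) (nat_lit 272))))))))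
noncomputable def xc165 : XT := (XT.nd (nat_lit 2632) (nat_lit 1512) (nat_lit 0) (XT.nd (nat_lit 1316) (nat_lit 2100) (nat_lit 0) (XT.nd (nat_lit 658) (nat_lit 1176) (nat_lit 0) (XT.nd (nat_lit 282) (nat_lit 924) (nat_lit 0) (XT.nd (nat_lit 94) (nat_lit 588) (nat_lit 0) (XT.lf (nat_lit 0) (nat_lit 54664974617) (nat_lit 252) (nat_lit 58842385885) (nat_lit 336) (nat_lit 21792084489) (nat_lit 75) (nat_lit 5) (nat_lit 78) (nat_lit 5) (nat_lit 79) (nat_lit 5) (nat_lit 414) (nat_lit 395) (nat_lit 271)) (XT.nd (nat_lit 94) (nat_lit 252) (nat_lit 0) (XT.lf (nat_lit 0) (nat_lit 24389433228) (nat_lit 336) (nat_lit 90687261524) (nat_lit 84) (nat_lit 26685892274) (nat_lit 71) (nat_lit 5) (nat_lit 75) (nat_lit 5) (nat_lit 72) (nat_lit 5) (nat_lit 415) (nat_lit 395) (nat_lit 270)) (XT.lf (nat_lit 0) (nat_lit 47670421847) (nat_lit 252) (nat_lit 29004905213) (nat_lit 336)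 (nat_lit 71890923842) (nat_lit 68) (nat_lit 5) (nat_lit 71) (nat_lit 5) (nat_lit 72) (nat_lit 5) (nat_lit 416) (nat_lit 395) (nat_lit 269)))) (XT.nd (nat_lit 188) (nat_lit 420) (nat_lit 0) (XT.nd (nat_lit 94) (nat_lit 336) (nat_lit 0) (XT.lf (nat_lit 0) (nat_lit 44911565420) (nat_lit 168) (nat_lit 91536904356) (nat_lit 252) (nat_lit 19300519243) (nat_lit 66) (nat_lit 5) (nat_lit 68) (nat_lit 5) (nat_lit 69) (nat_lit 5) (nat_lit 417) (nat_lit 395) (nat_lit 268)) (XT.lf (nat_lit 0) (nat_lit 39296403387) (nat_lit 336) (nat_lit 120551725629) (nat_lit 84) (nat_lit 3478974034) (nat_lit 62) (nat_lit 5) (nat_lit 66) (nat_lit 5) (nat_lit 63) (nat_lit 5) (nat_lit 418) (nat_lit 395) (nat_lit 267))) (XT.nd (nat_lit 94) (nat_lit 252) (nat_lit 0) (XT.lf (nat_lit 0) (nat_lit 40618349150) (nat_lit 168) (nat_lit 65434747893) (nat_lit 252) (nat_lit 65235138393) (nat_lit 60)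 (nat_lit 5) (nat_lit 62) (nat_lit 5) (nat_lit 63) (nat_lit 5) (nat_lit 419) (nat_lit 395) (nat_lit 266)) (XT.lf (nat_lit 0) (nat_lit 1700648694) (nat_lit 252) (nat_lit 139871578605) (nat_lit 84) (nat_lit 38146335241) (nat_lit 57) (nat_lit 5) (nat_lit 60) (nat_lit 5) (nat_lit 58) (nat_lit 5) (nat_lit 420) (nat_lit 395) (nat_lit 265))))) (XT.nd (nat_lit 282) (nat_lit 588) (nat_lit 0) (XT.nd (nat_lit 94) (nat_lit 420) (nat_lit 0) (XT.lf (nat_lit 0) (nat_lit 38967119688) (nat_lit 168) (nat_lit 36793669063) (nat_lit 252) (nat_lit 112806305062) (nat_lit 55) (nat_lit 5) (nat_lit 57) (nat_lit 5) (nat_lit 58) (nat_lit 5) (nat_lit 421) (nat_lit 395) (nat_lit 264)) (XT.nd (nat_lit 94) (nat_lit 252) (nat_lit 0) (XT.lf (nat_lit 0) (nat_lit 39124712878) (nat_lit 168) (nat_lit 120899845796) (nat_lit 252) (nat_lit 37885007980) (nat_lit 53) (nat_lit 5) (nat_lit 55) (nat_lit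 5) (nat_lit 56) (nat_lit 5) (nat_lit 422) (nat_lit 395) (nat_lit 263)) (XT.lf (nat_lit 0) (nat_lit 40376512216) (nat_lit 168) (nat_lit 5174982959) (nat_lit 252) (nat_lit 162219414669) (nat_lit 50) (nat_lit 5) (nat_lit 52) (nat_lit 5) (nat_lit 53) (nat_lit 5) (nat_lit 423) (nat_lit 395) (nat_lit 262)))) (XT.nd (nat_lit 188) (nat_lit 252) (nat_lit 0) (XT.nd (nat_lit 94) (nat_lit 168) (nat_lit 0) (XT.lf (nat_lit 0) (nat_lit 41634746583) (nat_lit 168) (nat_lit 98049758880) (nat_lit 252) (nat_lit 78438157089) (nat_lit 48) (nat_lit 5) (nat_lit 50) (nat_lit 5) (nat_lit 51) (nat_lit 5) (nat_lit 424) (nat_lit 395) (nat_lit 261)) (XT.lf (nat_lit 0) (nat_lit 15885208935) (nat_lit 168) (nat_lit 184238601415) (nat_lit 84) (nat_lit 28958084733) (nat_lit 46) (nat_lit 5) (nat_lit 48) (nat_lit 5) (nat_lit 47) (nat_lit 5) (nat_lit 425) (nat_lit 395) (nat_lit 260))) (XT.nd (nat_lit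 94) (nat_lit 84) (nat_lit 0) (XT.lf (nat_lit 0) (nat_lit 47925631074) (nat_lit 168) (nat_lit 72643067857) (nat_lit 252) (nat_lit 120006756432) (nat_lit 44) (nat_lit 5) (nat_lit 46) (nat_lit 5) (nat_lit 47) (nat_lit 5) (nat_lit 426) (nat_lit 395) (nat_lit 259)) (XT.lf (nat_lit 0) (nat_lit 53042625791) (nat_lit 84) (nat_lit 185689086110) (nat_lit 168) (nat_lit 14001546376) (nat_lit 43) (nat_lit 5) (nat_lit 44) (nat_lit 5) (nat_lit 45) (nat_lit 4) (nat_lit 427) (nat_lit 395) (nat_lit 258)))))) (XT.nd (nat_lit 658) (nat_lit 840) (nat_lit 0) (XT.nd (nat_lit 282) (nat_lit 672) (nat_lit 0) (XT.nd (nat_lit 94) (nat_lit 336) (nat_lit 0) (XT.lf (nat_lit 0) (nat_lit 58599751765) (nat_lit 168) (nat_lit 44218254918) (nat_lit 252) (nat_lit 162689734621) (nat_lit 40) (nat_lit 5) (nat_lit 42) (nat_lit 5) (nat_lit 43) (nat_lit 5) (nat_lit 428) (nat_lit 395) (nat_lit 257))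 (XT.nd (nat_lit 94) (nat_lit 252) (nat_lit 0) (XT.lf (nat_lit 0) (nat_lit 65666456385) (nat_lit 84) (nat_lit 169087924009) (nat_lit 168) (nat_lit 44225235783) (nat_lit 39) (nat_lit 5) (nat_lit 40) (nat_lit 5) (nat_lit 41) (nat_lit 4) (nat_lit 429) (nat_lit 395) (nat_lit 256)) (XT.lf (nat_lit 0) (nat_lit 74353438622) (nat_lit 168) (nat_lit 12252724069) (nat_lit 252) (nat_lit 206579266545) (nat_lit 36) (nat_lit 5) (nat_lit 38) (nat_lit 5) (nat_lit 39) (nat_lit 5) (nat_lit 430) (nat_lit 395) (nat_lit 255)))) (XT.nd (nat_lit 188) (nat_lit 336) (nat_lit 0) (XT.nd (nat_lit 94) (nat_lit 252) (nat_lit 0) (XT.lf (nat_lit 0) (nat_lit 83727718226) (nat_lit 84) (nat_lit 150184229485) (nat_lit 168) (nat_lit 74201643860) (nat_lit 35) (nat_lit 5) (nat_lit 36) (nat_lit 5) (nat_lit 37) (nat_lit 4) (nat_lit 431) (nat_lit 395) (nat_lit 254)) (XT.lf (nat_lit 0) (nat_lit 72516678249)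 (nat_lit 252) (nat_lit 228285897815) (nat_lit 84) (nat_lit 23082177327) (nat_lit 32) (nat_lit 5) (nat_lit 35) (nat_lit 5) (nat_lit 33) (nat_lit 4) (nat_lit 432) (nat_lit 395) (nat_lit 253))) (XT.nd (nat_lit 94) (nat_lit 252) (nat_lit 0) (XT.lf (nat_lit 0) (nat_lit 108083686216) (nat_lit 84) (nat_lit 128515960308) (nat_lit 168) (nat_lit 103845798388) (nat_lit 31) (nat_lit 5) (nat_lit 32) (nat_lit 5) (nat_lit 33) (nat_lit 4) (nat_lit 433) (nat_lit 395) (nat_lit 252)) (XT.lf (nat_lit 0) (nat_lit 60697515374) (nat_lit 252) (nat_lit 234566334422) (nat_lit 84) (nat_lit 62674088119) (nat_lit 28) (nat_lit 5) (nat_lit 31) (nat_lit 5) (nat_lit 29) (nat_lit 4) (nat_lit 434) (nat_lit 395) (nat_lit 251))))) (XT.nd (nat_lit 282) (nat_lit 504) (nat_lit 0) (XT.nd (nat_lit 94) (nat_lit 252) (nat_lit 0) (XT.lf (nat_lit 0) (nat_lit 139720353803) (nat_lit 84) (nat_lit 103556233396)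 (nat_lit 168) (nat_lit 133042596455) (nat_lit 27) (nat_lit 5) (nat_lit 28) (nat_lit 5) (nat_lit 29) (nat_lit 4) (nat_lit 435) (nat_lit 395) (nat_lit 250)) (XT.nd (nat_lit 94) (nat_lit 84) (nat_lit 0) (XT.lf (nat_lit 0) (nat_lit 51271948069) (nat_lit 168) (nat_lit 236794438531) (nat_lit 84) (nat_lit 107650042943) (nat_lit 25) (nat_lit 5) (nat_lit 27) (nat_lit 5) (nat_lit 26) (nat_lit 4) (nat_lit 436) (nat_lit 395) (nat_lit 249)) (XT.lf (nat_lit 0) (nat_lit 179769791674) (nat_lit 84) (nat_lit 74704382821) (nat_lit 168) (nat_lit 161642045157) (nat_lit 24) (nat_lit 5) (nat_lit 25) (nat_lit 5) (nat_lit 26) (nat_lit 4) (nat_lit 437) (nat_lit 395) (nat_lit 248)))) (XT.nd (nat_lit 188) (nat_lit 252) (nat_lit 0) (XT.nd (nat_lit 94) (nat_lit 84) (nat_lit 0) (XT.lf (nat_lit 0) (nat_lit 44611699464) (nat_lit 168) (nat_lit 234167516356) (nat_lit 84) (nat_lit 158842220083)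 (nat_lit 22) (nat_lit 5) (nat_lit 24) (nat_lit 5) (nat_lit 23) (nat_lit 4) (nat_lit 438) (nat_lit 395) (nat_lit 247)) (XT.lf (nat_lit 0) (nat_lit 229529765002) (nat_lit 84) (nat_lit 41275863266) (nat_lit 168) (nat_lit 189453795983) (nat_lit 21) (nat_lit 5) (nat_lit 22) (nat_lit 5) (nat_lit 23) (nat_lit 4) (nat_lit 439) (nat_lit 395) (nat_lit 246))) (XT.nd (nat_lit 94) (nat_lit 84) (nat_lit 0) (XT.lf (nat_lit 0) (nat_lit 41153612048) (nat_lit 168) (nat_lit 225751310004) (nat_lit 84) (nat_lit 217192830903) (nat_lit 19) (nat_lit 5) (nat_lit 21) (nat_lit 5) (nat_lit 20) (nat_lit 4) (nat_lit 440) (nat_lit 395) (nat_lit 245)) (XT.lf (nat_lit 0) (nat_lit 290485893010) (nat_lit 84) (nat_lit 2490853510) (nat_lit 168) (nat_lit 216240877841) (nat_lit 18) (nat_lit 5) (nat_lit 19) (nat_lit 5) (nat_lit 20) (nat_lit 4) (nat_lit 441) (nat_lit 395) (nat_lit 244))))))) (XT.nd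 (nat_lit 1316) (nat_lit 0) (nat_lit 0) (XT.nd (nat_lit 658) (nat_lit 588) (nat_lit 0) (XT.nd (nat_lit 282) (nat_lit 504) (nat_lit 0) (XT.nd (nat_lit 94) (nat_lit 252) (nat_lit 0) (XT.lf (nat_lit 0) (nat_lit 41408698977) (nat_lit 168) (nat_lit 210461351399) (nat_lit 84) (nat_lit 283768440453) (nat_lit 16) (nat_lit 5) (nat_lit 18) (nat_lit 5) (nat_lit 17) (nat_lit 4) (nat_lit 442) (nat_lit 395) (nat_lit 243)) (XT.nd (nat_lit 94) (nat_lit 168) (nat_lit 0) (XT.lf (nat_lit 0) (nat_lit 322462212967) (nat_lit 168) (nat_lit 199838064735) (nat_lit 0) (nat_lit 41177102392) (nat_lit 15) (nat_lit 5) (nat_lit 17) (nat_lit 4) (nat_lit 15) (nat_lit 4) (nat_lit 443) (nat_lit 395) (nat_lit 242)) (XT.lf (nat_lit 0) (nat_lit 45972415898) (nat_lit 168) (nat_lit 187041818300) (nat_lit 84) (nat_lit 359776079199) (nat_lit 13) (nat_lit 5) (nat_lit 15) (nat_lit 5) (nat_lit 14) (nat_lit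 4) (nat_lit 444) (nat_lit 395) (nat_lit 241)))) (XT.nd (nat_lit 188) (nat_lit 252) (nat_lit 0) (XT.nd (nat_lit 94) (nat_lit 168) (nat_lit 0) (XT.lf (nat_lit 0) (nat_lit 359679050336) (nat_lit 168) (nat_lit 172173300726) (nat_lit 0) (nat_lit 91788174778) (nat_lit 12) (nat_lit 5) (nat_lit 14) (nat_lit 4) (nat_lit 12) (nat_lit 4) (nat_lit 445) (nat_lit 395) (nat_lit 240)) (XT.lf (nat_lit 0) (nat_lit 55536309477) (nat_lit 168) (nat_lit 154041572030) (nat_lit 84) (nat_lit 446581365928) (nat_lit 10) (nat_lit 5) (nat_lit 12) (nat_lit 5) (nat_lit 11) (nat_lit 4) (nat_lit 446) (nat_lit 395) (nat_lit 239))) (XT.nd (nat_lit 94) (nat_lit 168) (nat_lit 0) (XT.lf (nat_lit 0) (nat_lit 405669299458) (nat_lit 168) (nat_lit 134142747951) (nat_lit 0) (nat_lit 150534892159) (nat_lit 9) (nat_lit 5) (nat_lit 11) (nat_lit 4) (nat_lit 9) (nat_lit 4) (nat_lit 447) (nat_lit 395) (nat_lit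 238)) (XT.lf (nat_lit 0) (nat_lit 70901218338) (nat_lit 168) (nat_lit 109787016587) (nat_lit 84) (nat_lit 545728888446) (nat_lit 7) (nat_lit 5) (nat_lit 9) (nat_lit 5) (nat_lit 8) (nat_lit 4) (nat_lit 448) (nat_lit 395) (nat_lit 237))))) (XT.nd (nat_lit 282) (nat_lit 252) (nat_lit 0) (XT.nd (nat_lit 94) (nat_lit 252) (nat_lit 0) (XT.lf (nat_lit 0) (nat_lit 461667810227) (nat_lit 168) (nat_lit 83953547825) (nat_lit 0) (nat_lit 218682464372) (nat_lit 6) (nat_lit 5) (nat_lit 8) (nat_lit 4) (nat_lit 6) (nat_lit 4) (nat_lit 449) (nat_lit 395) (nat_lit 236)) (XT.nd (nat_lit 94) (nat_lit 84) (nat_lit 0) (XT.lf (nat_lit 0) (nat_lit 92992224029) (nat_lit 168) (nat_lit 52351373865) (nat_lit 84) (nat_lit 658965118404) (nat_lit 4) (nat_lit 5) (nat_lit 6) (nat_lit 5) (nat_lit 5) (nat_lit 4) (nat_lit 450) (nat_lit 395) (nat_lit 235)) (XT.lf (nat_lit 0) (nat_lit 529083400466)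 (nat_lit 168) (nat_lit 19543134971) (nat_lit 0) (nat_lit 297668625291) (nat_lit 3) (nat_lit 5) (nat_lit 5) (nat_lit 4) (nat_lit 3) (nat_lit 4) (nat_lit 451) (nat_lit 395) (nat_lit 234)))) (XT.nd (nat_lit 188) (nat_lit 0) (nat_lit 0) (XT.nd (nat_lit 94) (nat_lit 0) (nat_lit 0) (XT.lf (nat_lit 0) (nat_lit 1291977660718) (nat_lit 0) (nat_lit 0) (nat_lit 0) (nat_lit 0) (nat_lit 0) (nat_lit 0) (nat_lit 1) (nat_lit 0) (nat_lit 1) (nat_lit 0) (nat_lit 452) (nat_lit 395) (nat_lit 233)) (XT.lf (nat_lit 0) (nat_lit 1394065812756) (nat_lit 0) (nat_lit 0) (nat_lit 0) (nat_lit 0) (nat_lit 0) (nat_lit 0) (nat_lit 1) (nat_lit 0) (nat_lit 1) (nat_lit 0) (nat_lit 453) (nat_lit 395) (nat_lit 232))) (XT.nd (nat_lit 94) (nat_lit 0) (nat_lit 0) (XT.lf (nat_lit 0) (nat_lit 1504321017655) (nat_lit 0) (nat_lit 0) (nat_lit 0) (nat_lit 0) (nat_lit 0) (nat_lit 0) (nat_lit 1) (nat_lit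 0) (nat_lit 1) (nat_lit 0) (nat_lit 454) (nat_lit 395) (nat_lit 231)) (XT.lf (nat_lit 0) (nat_lit 1623396639592) (nat_lit 0) (nat_lit 0) (nat_lit 0) (nat_lit 0) (nat_lit 0) (nat_lit 0) (nat_lit 1) (nat_lit 0) (nat_lit 1) (nat_lit 0) (nat_lit 455) (nat_lit 395) (nat_lit 230)))))) (XT.nd (nat_lit 658) (nat_lit 0) (nat_lit 0) (XT.nd (nat_lit 282) (nat_lit 0) (nat_lit 0) (XT.nd (nat_lit 94) (nat_lit 0) (nat_lit 0) (XT.lf (nat_lit 0) (nat_lit 1751998311881) (nat_lit 0) (nat_lit 0) (nat_lit 0) (nat_lit 0) (nat_lit 0) (nat_lit 0) (nat_lit 1) (nat_lit 0) (nat_lit 1) (nat_lit 0) (nat_lit 456) (nat_lit 395) (nat_lit 229)) (XT.nd (nat_lit 94) (nat_lit 0) (nat_lit 0) (XT.lf (nat_lit 0) (nat_lit 1890888118508) (nat_lit 0) (nat_lit 0) (nat_lit 0) (nat_lit 0) (nat_lit 0) (nat_lit 0) (nat_lit 1) (nat_lit 0) (nat_lit 1) (nat_lit 0) (nat_lit 457) (nat_lit 395) (nat_lit 228))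 (XT.lf (nat_lit 0) (nat_lit 2040889110177) (nat_lit 0) (nat_lit 0) (nat_lit 0) (nat_lit 0) (nat_lit 0) (nat_lit 0) (nat_lit 1) (nat_lit 0) (nat_lit 1) (nat_lit 0) (nat_lit 458) (nat_lit 395) (nat_lit 227)))) (XT.nd (nat_lit 188) (nat_lit 0) (nat_lit 0) (XT.nd (nat_lit 94) (nat_lit 0) (nat_lit 0) (XT.lf (nat_lit 0) (nat_lit 2202890181654) (nat_lit 0) (nat_lit 0) (nat_lit 0) (nat_lit 0) (nat_lit 0) (nat_lit 0) (nat_lit 1) (nat_lit 0) (nat_lit 1) (nat_lit 0) (nat_lit 459) (nat_lit 395) (nat_lit 226)) (XT.lf (nat_lit 0) (nat_lit 2377851339289) (nat_lit 0) (nat_lit 0) (nat_lit 0) (nat_lit 0) (nat_lit 0) (nat_lit 0) (nat_lit 1) (nat_lit 0) (nat_lit 1) (nat_lit 0) (nat_lit 460) (nat_lit 395) (nat_lit 225))) (XT.nd (nat_lit 94) (nat_lit 0) (nat_lit 0) (XT.lf (nat_lit 0) (nat_lit 2566809389941) (nat_lit 0) (nat_lit 0) (nat_lit 0) (nat_lit 0) (nat_lit 0) (nat_lit 0)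 (nat_lit 1) (nat_lit 0) (nat_lit 1) (nat_lit 0) (nat_lit 461) (nat_lit 395) (nat_lit 224)) (XT.lf (nat_lit 0) (nat_lit 2770884085023) (nat_lit 0) (nat_lit 0) (nat_lit 0) (nat_lit 0) (nat_lit 0) (nat_lit 0) (nat_lit 1) (nat_lit 0) (nat_lit 1) (nat_lit 0) (nat_lit 462) (nat_lit 395) (nat_lit 223))))) (XT.nd (nat_lit 376) (nat_lit 0) (nat_lit 0) (XT.nd (nat_lit 188) (nat_lit 0) (nat_lit 0) (XT.nd (nat_lit 94) (nat_lit 0) (nat_lit 0) (XT.lf (nat_lit 0) (nat_lit 2991284756060) (nat_lit 0) (nat_lit 0) (nat_lit 0) (nat_lit 0) (nat_lit 0) (nat_lit 0) (nat_lit 1) (nat_lit 0) (nat_lit 1) (nat_lit 0) (nat_lit 463) (nat_lit 395) (nat_lit 222)) (XT.lf (nat_lit 0) (nat_lit 3229317481103) (nat_lit 0) (nat_lit 0) (nat_lit 0) (nat_lit 0) (nat_lit 0) (nat_lit 0) (nat_lit 1) (nat_lit 0) (nat_lit 1) (nat_lit 0) (nat_lit 464) (nat_lit 395) (nat_lit 221))) (XT.nd (nat_lit 94) (nat_lit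 0) (nat_lit 0) (XT.lf (nat_lit 0) (nat_lit 3486392824448) (nat_lit 0) (nat_lit 0) (nat_lit 0) (nat_lit 0) (nat_lit 0) (nat_lit 0) (nat_lit 1) (nat_lit 0) (nat_lit 1) (nat_lit 0) (nat_lit 465) (nat_lit 395) (nat_lit 220)) (XT.lf (nat_lit 0) (nat_lit 3764034195538) (nat_lit 0) (nat_lit 0) (nat_lit 0) (nat_lit 0) (nat_lit 0) (nat_lit 0) (nat_lit 1) (nat_lit 0) (nat_lit 1) (nat_lit 0) (nat_lit 466) (nat_lit 395) (nat_lit 219)))) (XT.nd (nat_lit 188) (nat_lit 0) (nat_lit 0) (XT.nd (nat_lit 94) (nat_lit 0) (nat_lit 0) (XT.lf (nat_lit 0) (nat_lit 4063886876572) (nat_lit 0) (nat_lit 0) (nat_lit 0) (nat_lit 0) (nat_lit 0) (nat_lit 0) (nat_lit 1) (nat_lit 0) (nat_lit 1) (nat_lit 0) (nat_lit 467) (nat_lit 395) (nat_lit 218)) (XT.lf (nat_lit 0) (nat_lit 4387727772325) (nat_lit 0) (nat_lit 0) (nat_lit 0) (nat_lit 0) (nat_lit 0) (nat_lit 0) (nat_lit 1) (nat_lit 0) (nat_lit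 1) (nat_lit 0) (nat_lit 468) (nat_lit 395) (nat_lit 217))) (XT.nd (nat_lit 94) (nat_lit 0) (nat_lit 0) (XT.lf (nat_lit 0) (nat_lit 4737475939959) (nat_lit 0) (nat_lit 0) (nat_lit 0) (nat_lit 0) (nat_lit 0) (nat_lit 0) (nat_lit 1) (nat_lit 0) (nat_lit 1) (nat_lit 0) (nat_lit 469) (nat_lit 395) (nat_lit 216)) (XT.lf (nat_lit 0) (nat_lit 5115203961208) (nat_lit 0) (nat_lit 0) (nat_lit 0) (nat_lit 0) (nat_lit 0) (nat_lit 0) (nat_lit 1) (nat_lit 0) (nat_lit 1) (nat_lit 0) (nat_lit 470) (nat_lit 395) (nat_lit 215))))))))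
noncomputable def xc166 : XT := (XT.nd (nat_lit 2632) (nat_lit 0) (nat_lit 0) (XT.nd (nat_lit 1316) (nat_lit 0) (nat_lit 0) (XT.nd (nat_lit 658) (nat_lit 0) (nat_lit 0) (XT.nd (nat_lit 282) (nat_lit 0) (nat_lit 0) (XT.nd (nat_lit 94) (nat_lit 0) (nat_lit 0) (XT.lf (nat_lit 0) (nat_lit 5523150224344) (nat_lit 0) (nat_lit 0) (nat_lit 0) (nat_lit 0) (nat_lit 0) (nat_lit 0) (nat_lit 1) (nat_lit 0) (nat_lit 1) (nat_lit 0) (nat_lit 471) (nat_lit 395) (nat_lit 214)) (XT.nd (nat_lit 94) (nat_lit 0) (nat_lit 0) (XT.lf (nat_lit 0) (nat_lit 5963732188706) (nat_lit 0) (nat_lit 0) (nat_lit 0) (nat_lit 0) (nat_lit 0) (nat_lit 0) (nat_lit 1) (nat_lit 0) (nat_lit 1) (nat_lit 0) (nat_lit 472) (nat_lit 395) (nat_lit 213)) (XT.lf (nat_lit 0) (nat_lit 6439560710379) (nat_lit 0) (nat_lit 0) (nat_lit 0) (nat_lit 0) (nat_lit 0) (nat_lit 0) (nat_lit 1) (nat_lit 0) (nat_lit 1) (nat_lit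 0) (nat_lit 473) (nat_lit 395) (nat_lit 212)))) (XT.nd (nat_lit 188) (nat_lit 0) (nat_lit 0) (XT.nd (nat_lit 94) (nat_lit 0) (nat_lit 0) (XT.lf (nat_lit 0) (nat_lit 6953455513935) (nat_lit 0) (nat_lit 0) (nat_lit 0) (nat_lit 0) (nat_lit 0) (nat_lit 0) (nat_lit 1) (nat_lit 0) (nat_lit 1) (nat_lit 0) (nat_lit 474) (nat_lit 395) (nat_lit 211)) (XT.lf (nat_lit 0) (nat_lit 7508461901913) (nat_lit 0) (nat_lit 0) (nat_lit 0) (nat_lit 0) (nat_lit 0) (nat_lit 0) (nat_lit 1) (nat_lit 0) (nat_lit 1) (nat_lit 0) (nat_lit 475) (nat_lit 395) (nat_lit 210))) (XT.nd (nat_lit 94) (nat_lit 0) (nat_lit 0) (XT.lf (nat_lit 0) (nat_lit 8107868801059) (nat_lit 0) (nat_lit 0) (nat_lit 0) (nat_lit 0) (nat_lit 0) (nat_lit 0) (nat_lit 1) (nat_lit 0) (nat_lit 1) (nat_lit 0) (nat_lit 476) (nat_lit 395) (nat_lit 209)) (XT.lf (nat_lit 0) (nat_lit 8755228252255) (nat_lit 0) (nat_lit 0) (nat_lit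 0) (nat_lit 0) (nat_lit 0) (nat_lit 0) (nat_lit 1) (nat_lit 0) (nat_lit 1) (nat_lit 0) (nat_lit 477) (nat_lit 395) (nat_lit 208))))) (XT.nd (nat_lit 282) (nat_lit 0) (nat_lit 0) (XT.nd (nat_lit 94) (nat_lit 0) (nat_lit 0) (XT.lf (nat_lit 0) (nat_lit 9454376459657) (nat_lit 0) (nat_lit 0) (nat_lit 0) (nat_lit 0) (nat_lit 0) (nat_lit 0) (nat_lit 1) (nat_lit 0) (nat_lit 1) (nat_lit 0) (nat_lit 478) (nat_lit 395) (nat_lit 207)) (XT.nd (nat_lit 94) (nat_lit 0) (nat_lit 0) (XT.lf (nat_lit 0) (nat_lit 10209456523752) (nat_lit 0) (nat_lit 0) (nat_lit 0) (nat_lit 0) (nat_lit 0) (nat_lit 0) (nat_lit 1) (nat_lit 0) (nat_lit 1) (nat_lit 0) (nat_lit 479) (nat_lit 395) (nat_lit 206)) (XT.lf (nat_lit 0) (nat_lit 11024942993070) (nat_lit 0) (nat_lit 0) (nat_lit 0) (nat_lit 0) (nat_lit 0) (nat_lit 0) (nat_lit 1) (nat_lit 0) (nat_lit 1) (nat_lit 0) (nat_lit 480) (nat_lit 395)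 (nat_lit 205)))) (XT.nd (nat_lit 188) (nat_lit 0) (nat_lit 0) (XT.nd (nat_lit 94) (nat_lit 0) (nat_lit 0) (XT.lf (nat_lit 0) (nat_lit 11905668380020) (nat_lit 0) (nat_lit 0) (nat_lit 0) (nat_lit 0) (nat_lit 0) (nat_lit 0) (nat_lit 1) (nat_lit 0) (nat_lit 1) (nat_lit 0) (nat_lit 481) (nat_lit 395) (nat_lit 204)) (XT.lf (nat_lit 0) (nat_lit 12856851798007) (nat_lit 0) (nat_lit 0) (nat_lit 0) (nat_lit 0) (nat_lit 0) (nat_lit 0) (nat_lit 1) (nat_lit 0) (nat_lit 1) (nat_lit 0) (nat_lit 482) (nat_lit 395) (nat_lit 203))) (XT.nd (nat_lit 94) (nat_lit 0) (nat_lit 0) (XT.lf (nat_lit 0) (nat_lit 13884129889508) (nat_lit 0) (nat_lit 0) (nat_lit 0) (nat_lit 0) (nat_lit 0) (nat_lit 0) (nat_lit 1) (nat_lit 0) (nat_lit 1) (nat_lit 0) (nat_lit 483) (nat_lit 395) (nat_lit 202)) (XT.lf (nat_lit 0) (nat_lit 14993590228398) (nat_lit 0) (nat_lit 0) (nat_lit 0) (nat_lit 0) (nat_lit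 0) (nat_lit 0) (nat_lit 1) (nat_lit 0) (nat_lit 1) (nat_lit 0) (nat_lit 484) (nat_lit 395) (nat_lit 201)))))) (XT.nd (nat_lit 658) (nat_lit 0) (nat_lit 0) (XT.nd (nat_lit 282) (nat_lit 0) (nat_lit 0) (XT.nd (nat_lit 94) (nat_lit 0) (nat_lit 0) (XT.lf (nat_lit 0) (nat_lit 16191807394464) (nat_lit 0) (nat_lit 0) (nat_lit 0) (nat_lit 0) (nat_lit 0) (nat_lit 0) (nat_lit 1) (nat_lit 0) (nat_lit 1) (nat_lit 0) (nat_lit 485) (nat_lit 395) (nat_lit 200)) (XT.nd (nat_lit 94) (nat_lit 0) (nat_lit 0) (XT.lf (nat_lit 0) (nat_lit 17485881933874) (nat_lit 0) (nat_lit 0) (nat_lit 0) (nat_lit 0) (nat_lit 0) (nat_lit 0) (nat_lit 1) (nat_lit 0) (nat_lit 1) (nat_lit 0) (nat_lit 486) (nat_lit 395) (nat_lit 199)) (XT.lf (nat_lit 0) (nat_lit 18883482436493) (nat_lit 0) (nat_lit 0) (nat_lit 0) (nat_lit 0) (nat_lit 0) (nat_lit 0) (nat_lit 1) (nat_lit 0) (nat_lit 1) (nat_lit 0) (nat_lit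 487) (nat_lit 395) (nat_lit 198)))) (XT.nd (nat_lit 188) (nat_lit 0) (nat_lit 0) (XT.nd (nat_lit 94) (nat_lit 0) (nat_lit 0) (XT.lf (nat_lit 0) (nat_lit 20392890979371) (nat_lit 0) (nat_lit 0) (nat_lit 0) (nat_lit 0) (nat_lit 0) (nat_lit 0) (nat_lit 1) (nat_lit 0) (nat_lit 1) (nat_lit 0) (nat_lit 488) (nat_lit 395) (nat_lit 197)) (XT.lf (nat_lit 0) (nat_lit 22023052205727) (nat_lit 0) (nat_lit 0) (nat_lit 0) (nat_lit 0) (nat_lit 0) (nat_lit 0) (nat_lit 1) (nat_lit 0) (nat_lit 1) (nat_lit 0) (nat_lit 489) (nat_lit 395) (nat_lit 196))) (XT.nd (nat_lit 94) (nat_lit 0) (nat_lit 0) (XT.lf (nat_lit 0) (nat_lit 23783626330236) (nat_lit 0) (nat_lit 0) (nat_lit 0) (nat_lit 0) (nat_lit 0) (nat_lit 0) (nat_lit 1) (nat_lit 0) (nat_lit 1) (nat_lit 0) (nat_lit 490) (nat_lit 395) (nat_lit 195)) (XT.lf (nat_lit 0) (nat_lit 25685046384745) (nat_lit 0) (nat_lit 0) (nat_lit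 0) (nat_lit 0) (nat_lit 0) (nat_lit 0) (nat_lit 1) (nat_lit 0) (nat_lit 1) (nat_lit 0) (nat_lit 491) (nat_lit 395) (nat_lit 194))))) (XT.nd (nat_lit 282) (nat_lit 0) (nat_lit 0) (XT.nd (nat_lit 94) (nat_lit 0) (nat_lit 0) (XT.lf (nat_lit 0) (nat_lit 27738580043652) (nat_lit 0) (nat_lit 0) (nat_lit 0) (nat_lit 0) (nat_lit 0) (nat_lit 0) (nat_lit 1) (nat_lit 0) (nat_lit 1) (nat_lit 0) (nat_lit 492) (nat_lit 395) (nat_lit 193)) (XT.nd (nat_lit 94) (nat_lit 0) (nat_lit 0) (XT.lf (nat_lit 0) (nat_lit 29956396395307) (nat_lit 0) (nat_lit 0) (nat_lit 0) (nat_lit 0) (nat_lit 0) (nat_lit 0) (nat_lit 1) (nat_lit 0) (nat_lit 1) (nat_lit 0) (nat_lit 493) (nat_lit 395) (nat_lit 192)) (XT.lf (nat_lit 0) (nat_lit 32351638055127) (nat_lit 0) (nat_lit 0) (nat_lit 0) (nat_lit 0) (nat_lit 0) (nat_lit 0) (nat_lit 1) (nat_lit 0) (nat_lit 1) (nat_lit 0) (nat_lit 494) (nat_lit 395)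 (nat_lit 191)))) (XT.nd (nat_lit 188) (nat_lit 0) (nat_lit 0) (XT.nd (nat_lit 94) (nat_lit 0) (nat_lit 0) (XT.lf (nat_lit 0) (nat_lit 34938499047761) (nat_lit 0) (nat_lit 0) (nat_lit 0) (nat_lit 0) (nat_lit 0) (nat_lit 0) (nat_lit 1) (nat_lit 0) (nat_lit 1) (nat_lit 0) (nat_lit 495) (nat_lit 395) (nat_lit 190)) (XT.lf (nat_lit 0) (nat_lit 37732308919834) (nat_lit 0) (nat_lit 0) (nat_lit 0) (nat_lit 0) (nat_lit 0) (nat_lit 0) (nat_lit 1) (nat_lit 0) (nat_lit 1) (nat_lit 0) (nat_lit 496) (nat_lit 395) (nat_lit 189))) (XT.nd (nat_lit 94) (nat_lit 0) (nat_lit 0) (XT.lf (nat_lit 0) (nat_lit 40749623581698) (nat_lit 0) (nat_lit 0) (nat_lit 0) (nat_lit 0) (nat_lit 0) (nat_lit 0) (nat_lit 1) (nat_lit 0) (nat_lit 1) (nat_lit 0) (nat_lit 497) (nat_lit 395) (nat_lit 188)) (XT.lf (nat_lit 0) (nat_lit 44008323416535) (nat_lit 0) (nat_lit 0) (nat_lit 0) (nat_lit 0) (nat_lit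 0) (nat_lit 0) (nat_lit 1) (nat_lit 0) (nat_lit 1) (nat_lit 0) (nat_lit 498) (nat_lit 395) (nat_lit 187))))))) (XT.nd (nat_lit 58844) (nat_lit 0) (nat_lit 5544) (XT.nd (nat_lit 58186) (nat_lit 0) (nat_lit 10332) (XT.nd (nat_lit 282) (nat_lit 0) (nat_lit 0) (XT.nd (nat_lit 94) (nat_lit 0) (nat_lit 0) (XT.lf (nat_lit 0) (nat_lit 47527719238181) (nat_lit 0) (nat_lit 0) (nat_lit 0) (nat_lit 0) (nat_lit 0) (nat_lit 0) (nat_lit 1) (nat_lit 0) (nat_lit 1) (nat_lit 0) (nat_lit 499) (nat_lit 395) (nat_lit 186)) (XT.nd (nat_lit 94) (nat_lit 0) (nat_lit 0) (XT.lf (nat_lit 0) (nat_lit 51328666725578) (nat_lit 0) (nat_lit 0) (nat_lit 0) (nat_lit 0) (nat_lit 0) (nat_lit 0) (nat_lit 1) (nat_lit 0) (nat_lit 1) (nat_lit 0) (nat_lit 500) (nat_lit 395) (nat_lit 185)) (XT.lf (nat_lit 0) (nat_lit 55433690011986) (nat_lit 0) (nat_lit 0) (nat_lit 0) (nat_lit 0) (nat_lit 0) (nat_lit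 0) (nat_lit 1) (nat_lit 0) (nat_lit 1) (nat_lit 0) (nat_lit 501) (nat_lit 395) (nat_lit 184)))) (XT.nd (nat_lit 188) (nat_lit 0) (nat_lit 0) (XT.nd (nat_lit 94) (nat_lit 0) (nat_lit 0) (XT.lf (nat_lit 0) (nat_lit 59867115161324) (nat_lit 0) (nat_lit 0) (nat_lit 0) (nat_lit 0) (nat_lit 0) (nat_lit 0) (nat_lit 1) (nat_lit 0) (nat_lit 1) (nat_lit 0) (nat_lit 502) (nat_lit 395) (nat_lit 183)) (XT.lf (nat_lit 0) (nat_lit 64655214322625) (nat_lit 0) (nat_lit 0) (nat_lit 0) (nat_lit 0) (nat_lit 0) (nat_lit 0) (nat_lit 1) (nat_lit 0) (nat_lit 1) (nat_lit 0) (nat_lit 503) (nat_lit 395) (nat_lit 182))) (XT.nd (nat_lit 57622) (nat_lit 0) (nat_lit 10752) (XT.lf (nat_lit 0) (nat_lit 69826361416846) (nat_lit 0) (nat_lit 0) (nat_lit 0) (nat_lit 0) (nat_lit 0) (nat_lit 0) (nat_lit 1) (nat_lit 0) (nat_lit 1) (nat_lit 0) (nat_lit 504) (nat_lit 395) (nat_lit 181)) (XT.lf (nat_lit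 0) (nat_lit 15128659890) (nat_lit 924) (nat_lit 8635854354) (nat_lit 924) (nat_lit 8635854354) (nat_lit 128) (nat_lit 3) (nat_lit 139) (nat_lit 3) (nat_lit 139) (nat_lit 5) (nat_lit 396) (nat_lit 396) (nat_lit 288))))) (XT.nd (nat_lit 282) (nat_lit 504) (nat_lit 0) (XT.nd (nat_lit 94) (nat_lit 0) (nat_lit 0) (XT.lf (nat_lit 0) (nat_lit 32106472409) (nat_lit 840) (nat_lit 31709220543) (nat_lit 924) (nat_lit 3545130743) (nat_lit 129) (nat_lit 5) (nat_lit 139) (nat_lit 5) (nat_lit 140) (nat_lit 5) (nat_lit 397) (nat_lit 396) (nat_lit 287)) (XT.nd (nat_lit 94) (nat_lit 0) (nat_lit 84) (XT.lf (nat_lit 84) (nat_lit 23251251829) (nat_lit 0) (nat_lit 12320126866) (nat_lit 924) (nat_lit 34480947343) (nat_lit 130) (nat_lit 5) (nat_lit 129) (nat_lit 5) (nat_lit 140) (nat_lit 5) (nat_lit 398) (nat_lit 396) (nat_lit 286)) (XT.lf (nat_lit 84) (nat_lit 10457539367) (nat_lit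 0) (nat_lit 30254331174) (nat_lit 924) (nat_lit 32177358374) (nat_lit 131) (nat_lit 5) (nat_lit 130) (nat_lit 5) (nat_lit 141) (nat_lit 5) (nat_lit 399) (nat_lit 396) (nat_lit 285)))) (XT.nd (nat_lit 188) (nat_lit 672) (nat_lit 0) (XT.nd (nat_lit 94) (nat_lit 0) (nat_lit 84) (XT.lf (nat_lit 0) (nat_lit 47694419001) (nat_lit 840) (nat_lit 2563453862) (nat_lit 924) (nat_lit 25623670299) (nat_lit 131) (nat_lit 5) (nat_lit 141) (nat_lit 5) (nat_lit 142) (nat_lit 5) (nat_lit 400) (nat_lit 396) (nat_lit 284)) (XT.lf (nat_lit 0) (nat_lit 56844491147) (nat_lit 840) (nat_lit 15526760792) (nat_lit 924) (nat_lit 6661544617) (nat_lit 132) (nat_lit 5) (nat_lit 142) (nat_lit 5) (nat_lit 143) (nat_lit 5) (nat_lit 401) (nat_lit 396) (nat_lit 283))) (XT.nd (nat_lit 94) (nat_lit 756) (nat_lit 0) (XT.lf (nat_lit 84) (nat_lit 53377467515) (nat_lit 0) (nat_lit 15073490946) (nat_lit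 924) (nat_lit 13898972290) (nat_lit 133) (nat_lit 5) (nat_lit 132) (nat_lit 5) (nat_lit 143) (nat_lit 5) (nat_lit 402) (nat_lit 396) (nat_lit 282)) (XT.lf (nat_lit 0) (nat_lit 43071386132) (nat_lit 840) (nat_lit 39591036006) (nat_lit 924) (nat_lit 3186189595) (nat_lit 123) (nat_lit 5) (nat_lit 133) (nat_lit 5) (nat_lit 134) (nat_lit 5) (nat_lit 403) (nat_lit 396) (nat_lit 281)))))) (XT.nd (nat_lit 658) (nat_lit 2268) (nat_lit 0) (XT.nd (nat_lit 282) (nat_lit 1092) (nat_lit 0) (XT.nd (nat_lit 94) (nat_lit 840) (nat_lit 0) (XT.lf (nat_lit 0) (nat_lit 9763669774) (nat_lit 588) (nat_lit 56952851683) (nat_lit 84) (nat_lit 22821702045) (nat_lit 116) (nat_lit 5) (nat_lit 123) (nat_lit 5) (nat_lit 117) (nat_lit 5) (nat_lit 404) (nat_lit 396) (nat_lit 280)) (XT.nd (nat_lit 94) (nat_lit 420) (nat_lit 0) (XT.lf (nat_lit 0) (nat_lit 21987505513) (nat_lit 420) (nat_lit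 3418591131) (nat_lit 504) (nat_lit 68025885571) (nat_lit 111) (nat_lit 5) (nat_lit 116) (nat_lit 5) (nat_lit 117) (nat_lit 5) (nat_lit 405) (nat_lit 396) (nat_lit 279)) (XT.lf (nat_lit 0) (nat_lit 11009887066) (nat_lit 420) (nat_lit 33482789819) (nat_lit 504) (nat_lit 53034926780) (nat_lit 106) (nat_lit 5) (nat_lit 111) (nat_lit 5) (nat_lit 112) (nat_lit 5) (nat_lit 406) (nat_lit 396) (nat_lit 278)))) (XT.nd (nat_lit 188) (nat_lit 756) (nat_lit 0) (XT.nd (nat_lit 94) (nat_lit 0) (nat_lit 0) (XT.lf (nat_lit 0) (nat_lit 103990318) (nat_lit 336) (nat_lit 66868025579) (nat_lit 420) (nat_lit 34885567315) (nat_lit 102) (nat_lit 5) (nat_lit 106) (nat_lit 5) (nat_lit 107) (nat_lit 5) (nat_lit 407) (nat_lit 396) (nat_lit 277)) (XT.lf (nat_lit 0) (nat_lit 93355476822) (nat_lit 420) (nat_lit 10315122190) (nat_lit 84) (nat_lit 2758073373) (nat_lit 102) (nat_lit 5) (nat_lit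 107) (nat_lit 5) (nat_lit 103) (nat_lit 5) (nat_lit 408) (nat_lit 396) (nat_lit 276))) (XT.nd (nat_lit 94) (nat_lit 336) (nat_lit 0) (XT.lf (nat_lit 0) (nat_lit 12724715750) (nat_lit 420) (nat_lit 21247596658) (nat_lit 84) (nat_lit 77256146492) (nat_lit 97) (nat_lit 5) (nat_lit 102) (nat_lit 5) (nat_lit 98) (nat_lit 5) (nat_lit 409) (nat_lit 396) (nat_lit 275)) (XT.lf (nat_lit 0) (nat_lit 42312435781) (nat_lit 420) (nat_lit 32245585184) (nat_lit 84) (nat_lit 41734291792) (nat_lit 93) (nat_lit 5) (nat_lit 98) (nat_lit 5) (nat_lit 94) (nat_lit 5) (nat_lit 410) (nat_lit 396) (nat_lit 274))))) (XT.nd (nat_lit 376) (nat_lit 1008) (nat_lit 0) (XT.nd (nat_lit 188) (nat_lit 672) (nat_lit 0) (XT.nd (nat_lit 94) (nat_lit 252) (nat_lit 0) (XT.lf (nat_lit 0) (nat_lit 76479693318) (nat_lit 420) (nat_lit 42968118866) (nat_lit 84) (nat_lit 2202836742) (nat_lit 89) (nat_lit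 5) (nat_lit 94) (nat_lit 5) (nat_lit 90) (nat_lit 5) (nat_lit 411) (nat_lit 396) (nat_lit 273)) (XT.lf (nat_lit 0) (nat_lit 73305293602) (nat_lit 252) (nat_lit 43046613941) (nat_lit 336) (nat_lit 10937165644) (nat_lit 86) (nat_lit 5) (nat_lit 89) (nat_lit 5) (nat_lit 90) (nat_lit 5) (nat_lit 412) (nat_lit 396) (nat_lit 272))) (XT.nd (nat_lit 94) (nat_lit 252) (nat_lit 0) (XT.lf (nat_lit 0) (nat_lit 27689805090) (nat_lit 420) (nat_lit 65061837996) (nat_lit 84) (nat_lit 40482215548) (nat_lit 81) (nat_lit 5) (nat_lit 86) (nat_lit 5) (nat_lit 82) (nat_lit 5) (nat_lit 413) (nat_lit 396) (nat_lit 271)) (XT.lf (nat_lit 0) (nat_lit 63527097455) (nat_lit 252) (nat_lit 8174304432) (nat_lit 336) (nat_lit 67809977468) (nat_lit 78) (nat_lit 5) (nat_lit 81) (nat_lit 5) (nat_lit 82) (nat_lit 5) (nat_lit 414) (nat_lit 396) (nat_lit 270)))) (XT.nd (nat_lit 188) (nat_lit 420)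 (nat_lit 0) (XT.nd (nat_lit 94) (nat_lit 336) (nat_lit 0) (XT.lf (nat_lit 0) (nat_lit 59064099769) (nat_lit 252) (nat_lit 63541517088) (nat_lit 336) (nat_lit 23516900357) (nat_lit 75) (nat_lit 5) (nat_lit 78) (nat_lit 5) (nat_lit 79) (nat_lit 5) (nat_lit 415) (nat_lit 396) (nat_lit 269)) (XT.lf (nat_lit 0) (nat_lit 26357741238) (nat_lit 336) (nat_lit 97916153227) (nat_lit 84) (nat_lit 28828841856) (nat_lit 71) (nat_lit 5) (nat_lit 75) (nat_lit 5) (nat_lit 72) (nat_lit 5) (nat_lit 416) (nat_lit 396) (nat_lit 268))) (XT.nd (nat_lit 94) (nat_lit 168) (nat_lit 0) (XT.lf (nat_lit 0) (nat_lit 51509011008) (nat_lit 252) (nat_lit 31316614574) (nat_lit 336) (nat_lit 77625111774) (nat_lit 68) (nat_lit 5) (nat_lit 71) (nat_lit 5) (nat_lit 72) (nat_lit 5) (nat_lit 417) (nat_lit 396) (nat_lit 267)) (XT.lf (nat_lit 0) (nat_lit 48529010119) (nat_lit 168) (nat_lit 98850912579)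 (nat_lit 252) (nat_lit 20828206675) (nat_lit 66) (nat_lit 5) (nat_lit 68) (nat_lit 5) (nat_lit 69) (nat_lit 5) (nat_lit 418) (nat_lit 396) (nat_lit 266))))))))
noncomputable def xc167 : XT := (XT.nd (nat_lit 2632) (nat_lit 1008) (nat_lit 0) (XT.nd (nat_lit 1316) (nat_lit 1932) (nat_lit 0) (XT.nd (nat_lit 658) (nat_lit 1092) (nat_lit 0) (XT.nd (nat_lit 282) (nat_lit 756) (nat_lit 0) (XT.nd (nat_lit 94) (nat_lit 420) (nat_lit 0) (XT.lf (nat_lit 0) (nat_lit 42455286993) (nat_lit 336) (nat_lit 130171296818) (nat_lit 84) (nat_lit 3765928916) (nat_lit 62) (nat_lit 5) (nat_lit 66) (nat_lit 5) (nat_lit 63) (nat_lit 5) (nat_lit 419) (nat_lit 396) (nat_lit 265)) (XT.nd (nat_lit 94) (nat_lit 252) (nat_lit 0) (XT.lf (nat_lit 0) (nat_lit 43891316297) (nat_lit 168) (nat_lit 70660442930) (nat_lit 252) (nat_lit 70438814323) (nat_lit 60) (nat_lit 5) (nat_lit 62) (nat_lit 5)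 (nat_lit 63) (nat_lit 5) (nat_lit 420) (nat_lit 396) (nat_lit 264)) (XT.lf (nat_lit 0) (nat_lit 1850765043) (nat_lit 252) (nat_lit 151037808167) (nat_lit 84) (nat_lit 41206771110) (nat_lit 57) (nat_lit 5) (nat_lit 60) (nat_lit 5) (nat_lit 58) (nat_lit 5) (nat_lit 421) (nat_lit 396) (nat_lit 263)))) (XT.nd (nat_lit 188) (nat_lit 420) (nat_lit 0) (XT.nd (nat_lit 94) (nat_lit 168) (nat_lit 0) (XT.lf (nat_lit 0) (nat_lit 42106964850) (nat_lit 168) (nat_lit 39728060549) (nat_lit 252) (nat_lit 121816767240) (nat_lit 55) (nat_lit 5) (nat_lit 57) (nat_lit 5) (nat_lit 58) (nat_lit 5) (nat_lit 422) (nat_lit 396) (nat_lit 262)) (XT.lf (nat_lit 0) (nat_lit 42276692419) (nat_lit 168) (nat_lit 130562688967) (nat_lit 252) (nat_lit 40902307699) (nat_lit 53) (nat_lit 5) (nat_lit 55) (nat_lit 5) (nat_lit 56) (nat_lit 5) (nat_lit 423) (nat_lit 396) (nat_lit 261))) (XT.nd (nat_lit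 94) (nat_lit 168) (nat_lit 0) (XT.lf (nat_lit 0) (nat_lit 43628092836) (nat_lit 168) (nat_lit 5579957744) (nat_lit 252) (nat_lit 175183910262) (nat_lit 50) (nat_lit 5) (nat_lit 52) (nat_lit 5) (nat_lit 53) (nat_lit 5) (nat_lit 424) (nat_lit 396) (nat_lit 260)) (XT.lf (nat_lit 0) (nat_lit 44986513345) (nat_lit 168) (nat_lit 105884725294) (nat_lit 252) (nat_lit 84700638279) (nat_lit 48) (nat_lit 5) (nat_lit 50) (nat_lit 5) (nat_lit 51) (nat_lit 5) (nat_lit 425) (nat_lit 396) (nat_lit 259))))) (XT.nd (nat_lit 282) (nat_lit 672) (nat_lit 0) (XT.nd (nat_lit 94) (nat_lit 252) (nat_lit 0) (XT.lf (nat_lit 0) (nat_lit 17167751219) (nat_lit 168) (nat_lit 198956788864) (nat_lit 84) (nat_lit 31283320327) (nat_lit 46) (nat_lit 5) (nat_lit 48) (nat_lit 5) (nat_lit 47) (nat_lit 5) (nat_lit 426) (nat_lit 396) (nat_lit 258)) (XT.nd (nat_lit 94) (nat_lit 84) (nat_lit 0) (XT.lf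 (nat_lit 0) (nat_lit 51779673907) (nat_lit 168) (nat_lit 78445690085) (nat_lit 252) (nat_lit 129595569343) (nat_lit 44) (nat_lit 5) (nat_lit 46) (nat_lit 5) (nat_lit 47) (nat_lit 5) (nat_lit 427) (nat_lit 396) (nat_lit 257)) (XT.lf (nat_lit 0) (nat_lit 57305561777) (nat_lit 84) (nat_lit 200535461284) (nat_lit 168) (nat_lit 15110357169) (nat_lit 43) (nat_lit 5) (nat_lit 44) (nat_lit 5) (nat_lit 45) (nat_lit 4) (nat_lit 428) (nat_lit 396) (nat_lit 256)))) (XT.nd (nat_lit 188) (nat_lit 336) (nat_lit 0) (XT.nd (nat_lit 94) (nat_lit 84) (nat_lit 0) (XT.lf (nat_lit 0) (nat_lit 63306755605) (nat_lit 168) (nat_lit 47747128287) (nat_lit 252) (nat_lit 175693954883) (nat_lit 40) (nat_lit 5) (nat_lit 42) (nat_lit 5) (nat_lit 43) (nat_lit 5) (nat_lit 429) (nat_lit 396) (nat_lit 255)) (XT.lf (nat_lit 0) (nat_lit 70938340761) (nat_lit 84) (nat_lit 182606467684) (nat_lit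 168) (nat_lit 47752673144) (nat_lit 39) (nat_lit 5) (nat_lit 40) (nat_lit 5) (nat_lit 41) (nat_lit 4) (nat_lit 430) (nat_lit 396) (nat_lit 254))) (XT.nd (nat_lit 94) (nat_lit 84) (nat_lit 0) (XT.lf (nat_lit 0) (nat_lit 80319798596) (nat_lit 168) (nat_lit 13224623564) (nat_lit 252) (nat_lit 223095353092) (nat_lit 36) (nat_lit 5) (nat_lit 38) (nat_lit 5) (nat_lit 39) (nat_lit 5) (nat_lit 431) (nat_lit 396) (nat_lit 253)) (XT.lf (nat_lit 0) (nat_lit 90443577493) (nat_lit 84) (nat_lit 162190764740) (nat_lit 168) (nat_lit 80127864729) (nat_lit 35) (nat_lit 5) (nat_lit 36) (nat_lit 5) (nat_lit 37) (nat_lit 4) (nat_lit 432) (nat_lit 396) (nat_lit 252)))))) (XT.nd (nat_lit 658) (nat_lit 840) (nat_lit 0) (XT.nd (nat_lit 282) (nat_lit 504) (nat_lit 0) (XT.nd (nat_lit 94) (nat_lit 336) (nat_lit 0) (XT.lf (nat_lit 0) (nat_lit 78327288859) (nat_lit 252) (nat_lit 246531258887)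 (nat_lit 84) (nat_lit 24936522099) (nat_lit 32) (nat_lit 5) (nat_lit 35) (nat_lit 5) (nat_lit 33) (nat_lit 4) (nat_lit 433) (nat_lit 396) (nat_lit 251)) (XT.nd (nat_lit 94) (nat_lit 252) (nat_lit 0) (XT.lf (nat_lit 0) (nat_lit 116747130871) (nat_lit 84) (nat_lit 138789338099) (nat_lit 168) (nat_lit 112144168999) (nat_lit 31) (nat_lit 5) (nat_lit 32) (nat_lit 5) (nat_lit 33) (nat_lit 4) (nat_lit 434) (nat_lit 396) (nat_lit 250)) (XT.lf (nat_lit 0) (nat_lit 65562021219) (nat_lit 252) (nat_lit 253315026191) (nat_lit 84) (nat_lit 67695490307) (nat_lit 28) (nat_lit 5) (nat_lit 31) (nat_lit 5) (nat_lit 29) (nat_lit 4) (nat_lit 435) (nat_lit 396) (nat_lit 249)))) (XT.nd (nat_lit 188) (nat_lit 252) (nat_lit 0) (XT.nd (nat_lit 94) (nat_lit 168) (nat_lit 0) (XT.lf (nat_lit 0) (nat_lit 150913875025) (nat_lit 84) (nat_lit 111833147112) (nat_lit 168) (nat_lit 143677280812)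 (nat_lit 27) (nat_lit 5) (nat_lit 28) (nat_lit 5) (nat_lit 29) (nat_lit 4) (nat_lit 436) (nat_lit 396) (nat_lit 248)) (XT.lf (nat_lit 0) (nat_lit 55381879775) (nat_lit 168) (nat_lit 255722236982) (nat_lit 84) (nat_lit 116269218356) (nat_lit 25) (nat_lit 5) (nat_lit 27) (nat_lit 5) (nat_lit 26) (nat_lit 4) (nat_lit 437) (nat_lit 396) (nat_lit 247))) (XT.nd (nat_lit 94) (nat_lit 168) (nat_lit 0) (XT.lf (nat_lit 0) (nat_lit 194166446875) (nat_lit 84) (nat_lit 80673467135) (nat_lit 168) (nat_lit 174565212936) (nat_lit 24) (nat_lit 5) (nat_lit 25) (nat_lit 5) (nat_lit 26) (nat_lit 4) (nat_lit 438) (nat_lit 396) (nat_lit 246)) (XT.lf (nat_lit 0) (nat_lit 48188321014) (nat_lit 168) (nat_lit 252885981883) (nat_lit 84) (nat_lit 171556463598) (nat_lit 22) (nat_lit 5) (nat_lit 24) (nat_lit 5) (nat_lit 23) (nat_lit 4) (nat_lit 439) (nat_lit 396) (nat_lit 245))))) (XT.nd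 (nat_lit 282) (nat_lit 504) (nat_lit 0) (XT.nd (nat_lit 94) (nat_lit 252) (nat_lit 0) (XT.lf (nat_lit 0) (nat_lit 247906432893) (nat_lit 84) (nat_lit 44570984981) (nat_lit 168) (nat_lit 204602393349) (nat_lit 21) (nat_lit 5) (nat_lit 22) (nat_lit 5) (nat_lit 23) (nat_lit 4) (nat_lit 440) (nat_lit 396) (nat_lit 244)) (XT.nd (nat_lit 94) (nat_lit 84) (nat_lit 0) (XT.lf (nat_lit 0) (nat_lit 44453130969) (nat_lit 168) (nat_lit 243797262674) (nat_lit 84) (nat_lit 234574818050) (nat_lit 19) (nat_lit 5) (nat_lit 21) (nat_lit 5) (nat_lit 20) (nat_lit 4) (nat_lit 441) (nat_lit 396) (nat_lit 243)) (XT.lf (nat_lit 0) (nat_lit 313738301547) (nat_lit 84) (nat_lit 2683490452) (nat_lit 168) (nat_lit 233532897023) (nat_lit 18) (nat_lit 5) (nat_lit 19) (nat_lit 5) (nat_lit 20) (nat_lit 4) (nat_lit 442) (nat_lit 396) (nat_lit 242)))) (XT.nd (nat_lit 188) (nat_lit 252) (nat_lit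 0) (XT.nd (nat_lit 94) (nat_lit 84) (nat_lit 0) (XT.lf (nat_lit 0) (nat_lit 44728200525) (nat_lit 168) (nat_lit 227284854449) (nat_lit 84) (nat_lit 306476174841) (nat_lit 16) (nat_lit 5) (nat_lit 18) (nat_lit 5) (nat_lit 17) (nat_lit 4) (nat_lit 443) (nat_lit 396) (nat_lit 241)) (XT.lf (nat_lit 0) (nat_lit 348265790394) (nat_lit 168) (nat_lit 215812061019) (nat_lit 0) (nat_lit 44477389069) (nat_lit 15) (nat_lit 5) (nat_lit 17) (nat_lit 4) (nat_lit 15) (nat_lit 4) (nat_lit 444) (nat_lit 396) (nat_lit 240))) (XT.nd (nat_lit 94) (nat_lit 84) (nat_lit 0) (XT.lf (nat_lit 0) (nat_lit 49656618901) (nat_lit 168) (nat_lit 201992470024) (nat_lit 84) (nat_lit 388564129058) (nat_lit 13) (nat_lit 5) (nat_lit 15) (nat_lit 5) (nat_lit 14) (nat_lit 4) (nat_lit 445) (nat_lit 396) (nat_lit 239)) (XT.lf (nat_lit 0) (nat_lit 388459592821) (nat_lit 168) (nat_lit 185934810424)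 (nat_lit 0) (nat_lit 99137053738) (nat_lit 12) (nat_lit 5) (nat_lit 14) (nat_lit 4) (nat_lit 12) (nat_lit 4) (nat_lit 446) (nat_lit 396) (nat_lit 238))))))) (XT.nd (nat_lit 1316) (nat_lit 0) (nat_lit 0) (XT.nd (nat_lit 658) (nat_lit 0) (nat_lit 0) (XT.nd (nat_lit 282) (nat_lit 588) (nat_lit 0) (XT.nd (nat_lit 94) (nat_lit 252) (nat_lit 0) (XT.lf (nat_lit 0) (nat_lit 59985253987) (nat_lit 168) (nat_lit 166352880636) (nat_lit 84) (nat_lit 482313550620) (nat_lit 10) (nat_lit 5) (nat_lit 12) (nat_lit 5) (nat_lit 11) (nat_lit 4) (nat_lit 447) (nat_lit 396) (nat_lit 237)) (XT.nd (nat_lit 94) (nat_lit 168) (nat_lit 0) (XT.lf (nat_lit 0) (nat_lit 438128704598) (nat_lit 168) (nat_lit 144862473644) (nat_lit 0) (nat_lit 162583223432) (nat_lit 9) (nat_lit 5) (nat_lit 11) (nat_lit 4) (nat_lit 9) (nat_lit 4) (nat_lit 448) (nat_lit 396) (nat_lit 236)) (XT.lf (nat_lit 0)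 (nat_lit 76579009301) (nat_lit 168) (nat_lit 118558603732) (nat_lit 84) (nat_lit 589392595534) (nat_lit 7) (nat_lit 5) (nat_lit 9) (nat_lit 5) (nat_lit 8) (nat_lit 4) (nat_lit 449) (nat_lit 396) (nat_lit 235)))) (XT.nd (nat_lit 188) (nat_lit 336) (nat_lit 0) (XT.nd (nat_lit 94) (nat_lit 168) (nat_lit 0) (XT.lf (nat_lit 0) (nat_lit 498606761572) (nat_lit 168) (nat_lit 90658764602) (nat_lit 0) (nat_lit 236182325718) (nat_lit 6) (nat_lit 5) (nat_lit 8) (nat_lit 4) (nat_lit 6) (nat_lit 4) (nat_lit 450) (nat_lit 396) (nat_lit 234)) (XT.lf (nat_lit 0) (nat_lit 100436970982) (nat_lit 168) (nat_lit 56528720161) (nat_lit 84) (nat_lit 711687454008) (nat_lit 4) (nat_lit 5) (nat_lit 6) (nat_lit 5) (nat_lit 5) (nat_lit 4) (nat_lit 451) (nat_lit 396) (nat_lit 233))) (XT.nd (nat_lit 94) (nat_lit 252) (nat_lit 0) (XT.lf (nat_lit 0) (nat_lit 571415285195) (nat_lit 168) (nat_lit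 21096113947) (nat_lit 0) (nat_lit 321487113810) (nat_lit 3) (nat_lit 5) (nat_lit 5) (nat_lit 4) (nat_lit 3) (nat_lit 4) (nat_lit 452) (nat_lit 396) (nat_lit 232)) (XT.lf (nat_lit 0) (nat_lit 1395335859969) (nat_lit 0) (nat_lit 0) (nat_lit 0) (nat_lit 0) (nat_lit 0) (nat_lit 0) (nat_lit 1) (nat_lit 0) (nat_lit 1) (nat_lit 0) (nat_lit 453) (nat_lit 396) (nat_lit 231))))) (XT.nd (nat_lit 282) (nat_lit 0) (nat_lit 0) (XT.nd (nat_lit 94) (nat_lit 0) (nat_lit 0) (XT.lf (nat_lit 0) (nat_lit 1505591065179) (nat_lit 0) (nat_lit 0) (nat_lit 0) (nat_lit 0) (nat_lit 0) (nat_lit 0) (nat_lit 1) (nat_lit 0) (nat_lit 1) (nat_lit 0) (nat_lit 454) (nat_lit 396) (nat_lit 230)) (XT.nd (nat_lit 94) (nat_lit 0) (nat_lit 0) (XT.lf (nat_lit 0) (nat_lit 1624666687403) (nat_lit 0) (nat_lit 0) (nat_lit 0) (nat_lit 0) (nat_lit 0) (nat_lit 0) (nat_lit 1) (nat_lit 0) (nat_lit 1) (nat_lit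 0) (nat_lit 455) (nat_lit 396) (nat_lit 229)) (XT.lf (nat_lit 0) (nat_lit 1753268359959) (nat_lit 0) (nat_lit 0) (nat_lit 0) (nat_lit 0) (nat_lit 0) (nat_lit 0) (nat_lit 1) (nat_lit 0) (nat_lit 1) (nat_lit 0) (nat_lit 456) (nat_lit 396) (nat_lit 228)))) (XT.nd (nat_lit 188) (nat_lit 0) (nat_lit 0) (XT.nd (nat_lit 94) (nat_lit 0) (nat_lit 0) (XT.lf (nat_lit 0) (nat_lit 1892158166831) (nat_lit 0) (nat_lit 0) (nat_lit 0) (nat_lit 0) (nat_lit 0) (nat_lit 0) (nat_lit 1) (nat_lit 0) (nat_lit 1) (nat_lit 0) (nat_lit 457) (nat_lit 396) (nat_lit 227)) (XT.lf (nat_lit 0) (nat_lit 2042159158729) (nat_lit 0) (nat_lit 0) (nat_lit 0) (nat_lit 0) (nat_lit 0) (nat_lit 0) (nat_lit 1) (nat_lit 0) (nat_lit 1) (nat_lit 0) (nat_lit 458) (nat_lit 396) (nat_lit 226))) (XT.nd (nat_lit 94) (nat_lit 0) (nat_lit 0) (XT.lf (nat_lit 0) (nat_lit 2204160230417) (nat_lit 0) (nat_lit 0) (nat_lit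 0) (nat_lit 0) (nat_lit 0) (nat_lit 0) (nat_lit 1) (nat_lit 0) (nat_lit 1) (nat_lit 0) (nat_lit 459) (nat_lit 396) (nat_lit 225)) (XT.lf (nat_lit 0) (nat_lit 2379121388247) (nat_lit 0) (nat_lit 0) (nat_lit 0) (nat_lit 0) (nat_lit 0) (nat_lit 0) (nat_lit 1) (nat_lit 0) (nat_lit 1) (nat_lit 0) (nat_lit 460) (nat_lit 396) (nat_lit 224)))))) (XT.nd (nat_lit 658) (nat_lit 0) (nat_lit 0) (XT.nd (nat_lit 282) (nat_lit 0) (nat_lit 0) (XT.nd (nat_lit 94) (nat_lit 0) (nat_lit 0) (XT.lf (nat_lit 0) (nat_lit 2568079439081) (nat_lit 0) (nat_lit 0) (nat_lit 0) (nat_lit 0) (nat_lit 0) (nat_lit 0) (nat_lit 1) (nat_lit 0) (nat_lit 1) (nat_lit 0) (nat_lit 461) (nat_lit 396) (nat_lit 223)) (XT.nd (nat_lit 94) (nat_lit 0) (nat_lit 0) (XT.lf (nat_lit 0) (nat_lit 2772154134330) (nat_lit 0) (nat_lit 0) (nat_lit 0) (nat_lit 0) (nat_lit 0) (nat_lit 0) (nat_lit 1) (nat_lit 0) (nat_lit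 1) (nat_lit 0) (nat_lit 462) (nat_lit 396) (nat_lit 222)) (XT.lf (nat_lit 0) (nat_lit 2992554805523) (nat_lit 0) (nat_lit 0) (nat_lit 0) (nat_lit 0) (nat_lit 0) (nat_lit 0) (nat_lit 1) (nat_lit 0) (nat_lit 1) (nat_lit 0) (nat_lit 463) (nat_lit 396) (nat_lit 221)))) (XT.nd (nat_lit 188) (nat_lit 0) (nat_lit 0) (XT.nd (nat_lit 94) (nat_lit 0) (nat_lit 0) (XT.lf (nat_lit 0) (nat_lit 3230587530709) (nat_lit 0) (nat_lit 0) (nat_lit 0) (nat_lit 0) (nat_lit 0) (nat_lit 0) (nat_lit 1) (nat_lit 0) (nat_lit 1) (nat_lit 0) (nat_lit 464) (nat_lit 396) (nat_lit 220)) (XT.lf (nat_lit 0) (nat_lit 3487662874188) (nat_lit 0) (nat_lit 0) (nat_lit 0) (nat_lit 0) (nat_lit 0) (nat_lit 0) (nat_lit 1) (nat_lit 0) (nat_lit 1) (nat_lit 0) (nat_lit 465) (nat_lit 396) (nat_lit 219))) (XT.nd (nat_lit 94) (nat_lit 0) (nat_lit 0) (XT.lf (nat_lit 0) (nat_lit 3765304245401) (nat_lit 0) (nat_lit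 0) (nat_lit 0) (nat_lit 0) (nat_lit 0) (nat_lit 0) (nat_lit 1) (nat_lit 0) (nat_lit 1) (nat_lit 0) (nat_lit 466) (nat_lit 396) (nat_lit 218)) (XT.lf (nat_lit 0) (nat_lit 4065156926549) (nat_lit 0) (nat_lit 0) (nat_lit 0) (nat_lit 0) (nat_lit 0) (nat_lit 0) (nat_lit 1) (nat_lit 0) (nat_lit 1) (nat_lit 0) (nat_lit 467) (nat_lit 396) (nat_lit 217))))) (XT.nd (nat_lit 376) (nat_lit 0) (nat_lit 0) (XT.nd (nat_lit 188) (nat_lit 0) (nat_lit 0) (XT.nd (nat_lit 94) (nat_lit 0) (nat_lit 0) (XT.lf (nat_lit 0) (nat_lit 4388997822408) (nat_lit 0) (nat_lit 0) (nat_lit 0) (nat_lit 0) (nat_lit 0) (nat_lit 0) (nat_lit 1) (nat_lit 0) (nat_lit 1) (nat_lit 0) (nat_lit 468) (nat_lit 396) (nat_lit 216)) (XT.lf (nat_lit 0) (nat_lit 4738745990140) (nat_lit 0) (nat_lit 0) (nat_lit 0) (nat_lit 0) (nat_lit 0) (nat_lit 0) (nat_lit 1) (nat_lit 0) (nat_lit 1) (nat_lit 0) (nat_lit 469)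 (nat_lit 396) (nat_lit 215))) (XT.nd (nat_lit 94) (nat_lit 0) (nat_lit 0) (XT.lf (nat_lit 0) (nat_lit 5116474011479) (nat_lit 0) (nat_lit 0) (nat_lit 0) (nat_lit 0) (nat_lit 0) (nat_lit 0) (nat_lit 1) (nat_lit 0) (nat_lit 1) (nat_lit 0) (nat_lit 470) (nat_lit 396) (nat_lit 214)) (XT.lf (nat_lit 0) (nat_lit 5524420274699) (nat_lit 0) (nat_lit 0) (nat_lit 0) (nat_lit 0) (nat_lit 0) (nat_lit 0) (nat_lit 1) (nat_lit 0) (nat_lit 1) (nat_lit 0) (nat_lit 471) (nat_lit 396) (nat_lit 213)))) (XT.nd (nat_lit 188) (nat_lit 0) (nat_lit 0) (XT.nd (nat_lit 94) (nat_lit 0) (nat_lit 0) (XT.lf (nat_lit 0) (nat_lit 5965002239139) (nat_lit 0) (nat_lit 0) (nat_lit 0) (nat_lit 0) (nat_lit 0) (nat_lit 0) (nat_lit 1) (nat_lit 0) (nat_lit 1) (nat_lit 0) (nat_lit 472) (nat_lit 396) (nat_lit 212)) (XT.lf (nat_lit 0) (nat_lit 6440830760883) (nat_lit 0) (nat_lit 0) (nat_lit 0) (nat_lit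 0) (nat_lit 0) (nat_lit 0) (nat_lit 1) (nat_lit 0) (nat_lit 1) (nat_lit 0) (nat_lit 473) (nat_lit 396) (nat_lit 211))) (XT.nd (nat_lit 94) (nat_lit 0) (nat_lit 0) (XT.lf (nat_lit 0) (nat_lit 6954725564506) (nat_lit 0) (nat_lit 0) (nat_lit 0) (nat_lit 0) (nat_lit 0) (nat_lit 0) (nat_lit 1) (nat_lit 0) (nat_lit 1) (nat_lit 0) (nat_lit 474) (nat_lit 396) (nat_lit 210)) (XT.lf (nat_lit 0) (nat_lit 7509731952547) (nat_lit 0) (nat_lit 0) (nat_lit 0) (nat_lit 0) (nat_lit 0) (nat_lit 0) (nat_lit 1) (nat_lit 0) (nat_lit 1) (nat_lit 0) (nat_lit 475) (nat_lit 396) (nat_lit 209))))))))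
noncomputable def xc168 : XT := (XT.nd (nat_lit 2632) (nat_lit 0) (nat_lit 0) (XT.nd (nat_lit 1316) (nat_lit 0) (nat_lit 0) (XT.nd (nat_lit 658) (nat_lit 0) (nat_lit 0) (XT.nd (nat_lit 282) (nat_lit 0) (nat_lit 0) (XT.nd (nat_lit 94) (nat_lit 0) (nat_lit 0) (XT.lf (nat_lit 0) (nat_lit 8109138851749) (nat_lit 0) (nat_lit 0) (nat_lit 0) (nat_lit 0) (nat_lit 0) (nat_lit 0) (nat_lit 1) (nat_lit 0) (nat_lit 1) (nat_lit 0) (nat_lit 476) (nat_lit 396) (nat_lit 208)) (XT.nd (nat_lit 94) (nat_lit 0) (nat_lit 0) (XT.lf (nat_lit 0) (nat_lit 8756498302998) (nat_lit 0) (nat_lit 0) (nat_lit 0) (nat_lit 0) (nat_lit 0) (nat_lit 0) (nat_lit 1) (nat_lit 0) (nat_lit 1) (nat_lit 0) (nat_lit 477) (nat_lit 396) (nat_lit 207)) (XT.lf (nat_lit 0) (nat_lit 9455646510449) (nat_lit 0) (nat_lit 0) (nat_lit 0) (nat_lit 0) (nat_lit 0) (nat_lit 0) (nat_lit 1) (nat_lit 0) (nat_lit 1) (nat_lit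 0) (nat_lit 478) (nat_lit 396) (nat_lit 206)))) (XT.nd (nat_lit 188) (nat_lit 0) (nat_lit 0) (XT.nd (nat_lit 94) (nat_lit 0) (nat_lit 0) (XT.lf (nat_lit 0) (nat_lit 10210726574590) (nat_lit 0) (nat_lit 0) (nat_lit 0) (nat_lit 0) (nat_lit 0) (nat_lit 0) (nat_lit 1) (nat_lit 0) (nat_lit 1) (nat_lit 0) (nat_lit 479) (nat_lit 396) (nat_lit 205)) (XT.lf (nat_lit 0) (nat_lit 11026213043949) (nat_lit 0) (nat_lit 0) (nat_lit 0) (nat_lit 0) (nat_lit 0) (nat_lit 0) (nat_lit 1) (nat_lit 0) (nat_lit 1) (nat_lit 0) (nat_lit 480) (nat_lit 396) (nat_lit 204))) (XT.nd (nat_lit 94) (nat_lit 0) (nat_lit 0) (XT.lf (nat_lit 0) (nat_lit 11906938430938) (nat_lit 0) (nat_lit 0) (nat_lit 0) (nat_lit 0) (nat_lit 0) (nat_lit 0) (nat_lit 1) (nat_lit 0) (nat_lit 1) (nat_lit 0) (nat_lit 481) (nat_lit 396) (nat_lit 203)) (XT.lf (nat_lit 0) (nat_lit 12858121848961) (nat_lit 0) (nat_lit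 0) (nat_lit 0) (nat_lit 0) (nat_lit 0) (nat_lit 0) (nat_lit 1) (nat_lit 0) (nat_lit 1) (nat_lit 0) (nat_lit 482) (nat_lit 396) (nat_lit 202))))) (XT.nd (nat_lit 282) (nat_lit 0) (nat_lit 0) (XT.nd (nat_lit 94) (nat_lit 0) (nat_lit 0) (XT.lf (nat_lit 0) (nat_lit 13885399940496) (nat_lit 0) (nat_lit 0) (nat_lit 0) (nat_lit 0) (nat_lit 0) (nat_lit 0) (nat_lit 1) (nat_lit 0) (nat_lit 1) (nat_lit 0) (nat_lit 483) (nat_lit 396) (nat_lit 201)) (XT.nd (nat_lit 94) (nat_lit 0) (nat_lit 0) (XT.lf (nat_lit 0) (nat_lit 14994860279417) (nat_lit 0) (nat_lit 0) (nat_lit 0) (nat_lit 0) (nat_lit 0) (nat_lit 0) (nat_lit 1) (nat_lit 0) (nat_lit 1) (nat_lit 0) (nat_lit 484) (nat_lit 396) (nat_lit 200)) (XT.lf (nat_lit 0) (nat_lit 16193077445511) (nat_lit 0) (nat_lit 0) (nat_lit 0) (nat_lit 0) (nat_lit 0) (nat_lit 0) (nat_lit 1) (nat_lit 0) (nat_lit 1) (nat_lit 0) (nat_lit 485)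 (nat_lit 396) (nat_lit 199)))) (XT.nd (nat_lit 188) (nat_lit 0) (nat_lit 0) (XT.nd (nat_lit 94) (nat_lit 0) (nat_lit 0) (XT.lf (nat_lit 0) (nat_lit 17487151984948) (nat_lit 0) (nat_lit 0) (nat_lit 0) (nat_lit 0) (nat_lit 0) (nat_lit 0) (nat_lit 1) (nat_lit 0) (nat_lit 1) (nat_lit 0) (nat_lit 486) (nat_lit 396) (nat_lit 198)) (XT.lf (nat_lit 0) (nat_lit 18884752487591) (nat_lit 0) (nat_lit 0) (nat_lit 0) (nat_lit 0) (nat_lit 0) (nat_lit 0) (nat_lit 1) (nat_lit 0) (nat_lit 1) (nat_lit 0) (nat_lit 487) (nat_lit 396) (nat_lit 197))) (XT.nd (nat_lit 94) (nat_lit 0) (nat_lit 0) (XT.lf (nat_lit 0) (nat_lit 20394161030492) (nat_lit 0) (nat_lit 0) (nat_lit 0) (nat_lit 0) (nat_lit 0) (nat_lit 0) (nat_lit 1) (nat_lit 0) (nat_lit 1) (nat_lit 0) (nat_lit 488) (nat_lit 396) (nat_lit 196)) (XT.lf (nat_lit 0) (nat_lit 22024322256869) (nat_lit 0) (nat_lit 0) (nat_lit 0) (nat_lit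 0) (nat_lit 0) (nat_lit 0) (nat_lit 1) (nat_lit 0) (nat_lit 1) (nat_lit 0) (nat_lit 489) (nat_lit 396) (nat_lit 195)))))) (XT.nd (nat_lit 658) (nat_lit 0) (nat_lit 0) (XT.nd (nat_lit 282) (nat_lit 0) (nat_lit 0) (XT.nd (nat_lit 94) (nat_lit 0) (nat_lit 0) (XT.lf (nat_lit 0) (nat_lit 23784896381397) (nat_lit 0) (nat_lit 0) (nat_lit 0) (nat_lit 0) (nat_lit 0) (nat_lit 0) (nat_lit 1) (nat_lit 0) (nat_lit 1) (nat_lit 0) (nat_lit 490) (nat_lit 396) (nat_lit 194)) (XT.nd (nat_lit 94) (nat_lit 0) (nat_lit 0) (XT.lf (nat_lit 0) (nat_lit 25686316435924) (nat_lit 0) (nat_lit 0) (nat_lit 0) (nat_lit 0) (nat_lit 0) (nat_lit 0) (nat_lit 1) (nat_lit 0) (nat_lit 1) (nat_lit 0) (nat_lit 491) (nat_lit 396) (nat_lit 193)) (XT.lf (nat_lit 0) (nat_lit 27739850094848) (nat_lit 0) (nat_lit 0) (nat_lit 0) (nat_lit 0) (nat_lit 0) (nat_lit 0) (nat_lit 1) (nat_lit 0) (nat_lit 1) (nat_lit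 0) (nat_lit 492) (nat_lit 396) (nat_lit 192)))) (XT.nd (nat_lit 188) (nat_lit 0) (nat_lit 0) (XT.nd (nat_lit 94) (nat_lit 0) (nat_lit 0) (XT.lf (nat_lit 0) (nat_lit 29957666446518) (nat_lit 0) (nat_lit 0) (nat_lit 0) (nat_lit 0) (nat_lit 0) (nat_lit 0) (nat_lit 1) (nat_lit 0) (nat_lit 1) (nat_lit 0) (nat_lit 493) (nat_lit 396) (nat_lit 191)) (XT.lf (nat_lit 0) (nat_lit 32352908106352) (nat_lit 0) (nat_lit 0) (nat_lit 0) (nat_lit 0) (nat_lit 0) (nat_lit 0) (nat_lit 1) (nat_lit 0) (nat_lit 1) (nat_lit 0) (nat_lit 494) (nat_lit 396) (nat_lit 190))) (XT.nd (nat_lit 94) (nat_lit 0) (nat_lit 0) (XT.lf (nat_lit 0) (nat_lit 34939769099000) (nat_lit 0) (nat_lit 0) (nat_lit 0) (nat_lit 0) (nat_lit 0) (nat_lit 0) (nat_lit 1) (nat_lit 0) (nat_lit 1) (nat_lit 0) (nat_lit 495) (nat_lit 396) (nat_lit 189)) (XT.lf (nat_lit 0) (nat_lit 37733578971085) (nat_lit 0) (nat_lit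 0) (nat_lit 0) (nat_lit 0) (nat_lit 0) (nat_lit 0) (nat_lit 1) (nat_lit 0) (nat_lit 1) (nat_lit 0) (nat_lit 496) (nat_lit 396) (nat_lit 188))))) (XT.nd (nat_lit 282) (nat_lit 0) (nat_lit 0) (XT.nd (nat_lit 94) (nat_lit 0) (nat_lit 0) (XT.lf (nat_lit 0) (nat_lit 40750893632960) (nat_lit 0) (nat_lit 0) (nat_lit 0) (nat_lit 0) (nat_lit 0) (nat_lit 0) (nat_lit 1) (nat_lit 0) (nat_lit 1) (nat_lit 0) (nat_lit 497) (nat_lit 396) (nat_lit 187)) (XT.nd (nat_lit 94) (nat_lit 0) (nat_lit 0) (XT.lf (nat_lit 0) (nat_lit 44009593467808) (nat_lit 0) (nat_lit 0) (nat_lit 0) (nat_lit 0) (nat_lit 0) (nat_lit 0) (nat_lit 1) (nat_lit 0) (nat_lit 1) (nat_lit 0) (nat_lit 498) (nat_lit 396) (nat_lit 186)) (XT.lf (nat_lit 0) (nat_lit 47528989289463) (nat_lit 0) (nat_lit 0) (nat_lit 0) (nat_lit 0) (nat_lit 0) (nat_lit 0) (nat_lit 1) (nat_lit 0) (nat_lit 1) (nat_lit 0) (nat_lit 499)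 (nat_lit 396) (nat_lit 185)))) (XT.nd (nat_lit 188) (nat_lit 0) (nat_lit 0) (XT.nd (nat_lit 94) (nat_lit 0) (nat_lit 0) (XT.lf (nat_lit 0) (nat_lit 51329936776870) (nat_lit 0) (nat_lit 0) (nat_lit 0) (nat_lit 0) (nat_lit 0) (nat_lit 0) (nat_lit 1) (nat_lit 0) (nat_lit 1) (nat_lit 0) (nat_lit 500) (nat_lit 396) (nat_lit 184)) (XT.lf (nat_lit 0) (nat_lit 55434960063286) (nat_lit 0) (nat_lit 0) (nat_lit 0) (nat_lit 0) (nat_lit 0) (nat_lit 0) (nat_lit 1) (nat_lit 0) (nat_lit 1) (nat_lit 0) (nat_lit 501) (nat_lit 396) (nat_lit 183))) (XT.nd (nat_lit 94) (nat_lit 0) (nat_lit 0) (XT.lf (nat_lit 0) (nat_lit 59868385212632) (nat_lit 0) (nat_lit 0) (nat_lit 0) (nat_lit 0) (nat_lit 0) (nat_lit 0) (nat_lit 1) (nat_lit 0) (nat_lit 1) (nat_lit 0) (nat_lit 502) (nat_lit 396) (nat_lit 182)) (XT.lf (nat_lit 0) (nat_lit 64656484373940) (nat_lit 0) (nat_lit 0) (nat_lit 0) (nat_lit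 0) (nat_lit 0) (nat_lit 0) (nat_lit 1) (nat_lit 0) (nat_lit 1) (nat_lit 0) (nat_lit 503) (nat_lit 396) (nat_lit 181))))))) (XT.nd (nat_lit 58938) (nat_lit 0) (nat_lit 4620) (XT.nd (nat_lit 58280) (nat_lit 0) (nat_lit 8568) (XT.nd (nat_lit 57904) (nat_lit 0) (nat_lit 10836) (XT.nd (nat_lit 57716) (nat_lit 0) (nat_lit 10752) (XT.lf (nat_lit 0) (nat_lit 69827631468167) (nat_lit 0) (nat_lit 0) (nat_lit 0) (nat_lit 0) (nat_lit 0) (nat_lit 0) (nat_lit 1) (nat_lit 0) (nat_lit 1) (nat_lit 0) (nat_lit 504) (nat_lit 396) (nat_lit 180)) (XT.nd (nat_lit 94) (nat_lit 0) (nat_lit 84) (XT.lf (nat_lit 0) (nat_lit 16362494059) (nat_lit 924) (nat_lit 9314363479) (nat_lit 924) (nat_lit 9314363479) (nat_lit 128) (nat_lit 3) (nat_lit 139) (nat_lit 3) (nat_lit 139) (nat_lit 5) (nat_lit 397) (nat_lit 397) (nat_lit 286)) (XT.lf (nat_lit 0) (nat_lit 34718637245) (nat_lit 840) (nat_lit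 34219798504) (nat_lit 924) (nat_lit 3809071488) (nat_lit 129) (nat_lit 5) (nat_lit 139) (nat_lit 5) (nat_lit 140) (nat_lit 5) (nat_lit 398) (nat_lit 397) (nat_lit 285)))) (XT.nd (nat_lit 188) (nat_lit 0) (nat_lit 168) (XT.nd (nat_lit 94) (nat_lit 0) (nat_lit 84) (XT.lf (nat_lit 84) (nat_lit 25136374789) (nat_lit 0) (nat_lit 13321518807) (nat_lit 924) (nat_lit 37196578294) (nat_lit 130) (nat_lit 5) (nat_lit 129) (nat_lit 5) (nat_lit 140) (nat_lit 5) (nat_lit 399) (nat_lit 397) (nat_lit 284)) (XT.lf (nat_lit 84) (nat_lit 11320265124) (nat_lit 0) (nat_lit 32686516804) (nat_lit 924) (nat_lit 34711687214) (nat_lit 131) (nat_lit 5) (nat_lit 130) (nat_lit 5) (nat_lit 141) (nat_lit 5) (nat_lit 400) (nat_lit 397) (nat_lit 283))) (XT.nd (nat_lit 94) (nat_lit 0) (nat_lit 84) (XT.lf (nat_lit 0) (nat_lit 51544951133) (nat_lit 840) (nat_lit 2742413933) (nat_lit 924) (nat_lit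 27662952617) (nat_lit 131) (nat_lit 5) (nat_lit 141) (nat_lit 5) (nat_lit 142) (nat_lit 5) (nat_lit 401) (nat_lit 397) (nat_lit 282)) (XT.lf (nat_lit 0) (nat_lit 61424706346) (nat_lit 840) (nat_lit 16742159793) (nat_lit 924) (nat_lit 7186921345) (nat_lit 132) (nat_lit 5) (nat_lit 142) (nat_lit 5) (nat_lit 143) (nat_lit 5) (nat_lit 402) (nat_lit 397) (nat_lit 281))))) (XT.nd (nat_lit 282) (nat_lit 1176) (nat_lit 0) (XT.nd (nat_lit 94) (nat_lit 1344) (nat_lit 0) (XT.lf (nat_lit 84) (nat_lit 57673244610) (nat_lit 0) (nat_lit 16284426851) (nat_lit 924) (nat_lit 14978721934) (nat_lit 133) (nat_lit 5) (nat_lit 132) (nat_lit 5) (nat_lit 143) (nat_lit 5) (nat_lit 403) (nat_lit 397) (nat_lit 280)) (XT.nd (nat_lit 94) (nat_lit 588) (nat_lit 0) (XT.lf (nat_lit 0) (nat_lit 46543105816) (nat_lit 840) (nat_lit 42761010028) (nat_lit 924) (nat_lit 3410949831) (nat_lit 123)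 (nat_lit 5) (nat_lit 133) (nat_lit 5) (nat_lit 134) (nat_lit 5) (nat_lit 404) (nat_lit 397) (nat_lit 279)) (XT.lf (nat_lit 0) (nat_lit 10572150678) (nat_lit 588) (nat_lit 61481882962) (nat_lit 84) (nat_lit 24645878376) (nat_lit 116) (nat_lit 5) (nat_lit 123) (nat_lit 5) (nat_lit 117) (nat_lit 5) (nat_lit 405) (nat_lit 397) (nat_lit 278)))) (XT.nd (nat_lit 188) (nat_lit 336) (nat_lit 0) (XT.nd (nat_lit 94) (nat_lit 420) (nat_lit 0) (XT.lf (nat_lit 0) (nat_lit 23772520867) (nat_lit 420) (nat_lit 3691828306) (nat_lit 504) (nat_lit 73440903379) (nat_lit 111) (nat_lit 5) (nat_lit 116) (nat_lit 5) (nat_lit 117) (nat_lit 5) (nat_lit 406) (nat_lit 397) (nat_lit 277)) (XT.lf (nat_lit 0) (nat_lit 11916790888) (nat_lit 420) (nat_lit 36159567752) (nat_lit 504) (nat_lit 57252239938) (nat_lit 106) (nat_lit 5) (nat_lit 111) (nat_lit 5) (nat_lit 112) (nat_lit 5) (nat_lit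 407) (nat_lit 397) (nat_lit 276))) (XT.nd (nat_lit 94) (nat_lit 0) (nat_lit 0) (XT.lf (nat_lit 0) (nat_lit 138420658) (nat_lit 336) (nat_lit 72214260859) (nat_lit 420) (nat_lit 37652363136) (nat_lit 102) (nat_lit 5) (nat_lit 106) (nat_lit 5) (nat_lit 107) (nat_lit 5) (nat_lit 408) (nat_lit 397) (nat_lit 275)) (XT.lf (nat_lit 0) (nat_lit 100845169055) (nat_lit 420) (nat_lit 11115140979) (nat_lit 84) (nat_lit 2981593437) (nat_lit 102) (nat_lit 5) (nat_lit 107) (nat_lit 5) (nat_lit 103) (nat_lit 5) (nat_lit 409) (nat_lit 397) (nat_lit 274)))))) (XT.nd (nat_lit 658) (nat_lit 1680) (nat_lit 0) (XT.nd (nat_lit 282) (nat_lit 1176) (nat_lit 0) (XT.nd (nat_lit 94) (nat_lit 672) (nat_lit 0) (XT.lf (nat_lit 0) (nat_lit 13763077715) (nat_lit 420) (nat_lit 22922634163) (nat_lit 84) (nat_lit 83440004498) (nat_lit 97) (nat_lit 5) (nat_lit 102) (nat_lit 5) (nat_lit 98) (nat_lit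 5) (nat_lit 410) (nat_lit 397) (nat_lit 273)) (XT.nd (nat_lit 94) (nat_lit 336) (nat_lit 0) (XT.lf (nat_lit 0) (nat_lit 45716744759) (nat_lit 420) (nat_lit 34800645486) (nat_lit 84) (nat_lit 45077341826) (nat_lit 93) (nat_lit 5) (nat_lit 98) (nat_lit 5) (nat_lit 94) (nat_lit 5) (nat_lit 411) (nat_lit 397) (nat_lit 272)) (XT.lf (nat_lit 0) (nat_lit 82616401645) (nat_lit 420) (nat_lit 46381220070) (nat_lit 84) (nat_lit 2384162482) (nat_lit 89) (nat_lit 5) (nat_lit 94) (nat_lit 5) (nat_lit 90) (nat_lit 5) (nat_lit 412) (nat_lit 397) (nat_lit 271)))) (XT.nd (nat_lit 188) (nat_lit 504) (nat_lit 0) (XT.nd (nat_lit 94) (nat_lit 420) (nat_lit 0) (XT.lf (nat_lit 0) (nat_lit 79193007248) (nat_lit 252) (nat_lit 46484391394) (nat_lit 336) (nat_lit 11793933474) (nat_lit 86) (nat_lit 5) (nat_lit 89) (nat_lit 5) (nat_lit 90) (nat_lit 5) (nat_lit 413) (nat_lit 397) (nat_lit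 270)) (XT.lf (nat_lit 0) (nat_lit 29921759565) (nat_lit 420) (nat_lit 70243212180) (nat_lit 84) (nat_lit 43726757075) (nat_lit 81) (nat_lit 5) (nat_lit 86) (nat_lit 5) (nat_lit 82) (nat_lit 5) (nat_lit 414) (nat_lit 397) (nat_lit 269))) (XT.nd (nat_lit 94) (nat_lit 252) (nat_lit 0) (XT.lf (nat_lit 0) (nat_lit 68631813660) (nat_lit 252) (nat_lit 8821580263) (nat_lit 336) (nat_lit 73218101787) (nat_lit 78) (nat_lit 5) (nat_lit 81) (nat_lit 5) (nat_lit 82) (nat_lit 5) (nat_lit 415) (nat_lit 397) (nat_lit 268)) (XT.lf (nat_lit 0) (nat_lit 63811456130) (nat_lit 252) (nat_lit 68617757121) (nat_lit 336) (nat_lit 25382347987) (nat_lit 75) (nat_lit 5) (nat_lit 78) (nat_lit 5) (nat_lit 79) (nat_lit 5) (nat_lit 416) (nat_lit 397) (nat_lit 267))))) (XT.nd (nat_lit 282) (nat_lit 924) (nat_lit 0) (XT.nd (nat_lit 94) (nat_lit 420) (nat_lit 0) (XT.lf (nat_lit 0) (nat_lit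 28481066772) (nat_lit 336) (nat_lit 105727078185) (nat_lit 84) (nat_lit 31142074958) (nat_lit 71) (nat_lit 5) (nat_lit 75) (nat_lit 5) (nat_lit 72) (nat_lit 5) (nat_lit 417) (nat_lit 397) (nat_lit 266)) (XT.nd (nat_lit 94) (nat_lit 168) (nat_lit 0) (XT.lf (nat_lit 0) (nat_lit 55651127134) (nat_lit 252) (nat_lit 33814499419) (nat_lit 336) (nat_lit 83820472246) (nat_lit 68) (nat_lit 5) (nat_lit 71) (nat_lit 5) (nat_lit 72) (nat_lit 5) (nat_lit 418) (nat_lit 397) (nat_lit 265)) (XT.lf (nat_lit 0) (nat_lit 52432352418) (nat_lit 168) (nat_lit 106751317439) (nat_lit 252) (nat_lit 22480442199) (nat_lit 66) (nat_lit 5) (nat_lit 68) (nat_lit 5) (nat_lit 69) (nat_lit 5) (nat_lit 419) (nat_lit 397) (nat_lit 264)))) (XT.nd (nat_lit 188) (nat_lit 420) (nat_lit 0) (XT.nd (nat_lit 94) (nat_lit 168) (nat_lit 0) (XT.lf (nat_lit 0) (nat_lit 45864716927) (nat_lit 336) (nat_lit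 140563938440) (nat_lit 84) (nat_lit 4074608030) (nat_lit 62) (nat_lit 5) (nat_lit 66) (nat_lit 5) (nat_lit 63) (nat_lit 5) (nat_lit 420) (nat_lit 397) (nat_lit 263)) (XT.lf (nat_lit 0) (nat_lit 47422768390) (nat_lit 168) (nat_lit 76305489617) (nat_lit 252) (nat_lit 76060943524) (nat_lit 60) (nat_lit 5) (nat_lit 62) (nat_lit 5) (nat_lit 63) (nat_lit 5) (nat_lit 421) (nat_lit 397) (nat_lit 262))) (XT.nd (nat_lit 94) (nat_lit 168) (nat_lit 0) (XT.lf (nat_lit 0) (nat_lit 2010884249) (nat_lit 252) (nat_lit 163100688164) (nat_lit 84) (nat_lit 44510796553) (nat_lit 57) (nat_lit 5) (nat_lit 60) (nat_lit 5) (nat_lit 58) (nat_lit 5) (nat_lit 422) (nat_lit 397) (nat_lit 261)) (XT.lf (nat_lit 0) (nat_lit 45494791232) (nat_lit 168) (nat_lit 42898501863) (nat_lit 252) (nat_lit 131550069673) (nat_lit 55) (nat_lit 5) (nat_lit 57) (nat_lit 5) (nat_lit 58) (nat_lit 5) (nat_lit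 423) (nat_lit 397) (nat_lit 260))))))))
noncomputable def xc169 : XT := (XT.nd (nat_lit 2632) (nat_lit 504) (nat_lit 0) (XT.nd (nat_lit 1316) (nat_lit 1764) (nat_lit 0) (XT.nd (nat_lit 658) (nat_lit 1092) (nat_lit 0) (XT.nd (nat_lit 282) (nat_lit 672) (nat_lit 0) (XT.nd (nat_lit 94) (nat_lit 420) (nat_lit 0) (XT.lf (nat_lit 0) (nat_lit 45677691419) (nat_lit 168) (nat_lit 140999864156) (nat_lit 252) (nat_lit 44162917453) (nat_lit 53) (nat_lit 5) (nat_lit 55) (nat_lit 5) (nat_lit 56) (nat_lit 5) (nat_lit 424) (nat_lit 397) (nat_lit 259)) (XT.nd (nat_lit 94) (nat_lit 168) (nat_lit 0) (XT.lf (nat_lit 0) (nat_lit 47136738448) (nat_lit 168) (nat_lit 6018617865) (nat_lit 252) (nat_lit 189187428312) (nat_lit 50) (nat_lit 5) (nat_lit 52) (nat_lit 5) (nat_lit 53) (nat_lit 5) (nat_lit 425) (nat_lit 397) (nat_lit 258)) (XT.lf (nat_lit 0) (nat_lit 48603427413) (nat_lit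 168) (nat_lit 114347775012) (nat_lit 252) (nat_lit 91465911413) (nat_lit 48) (nat_lit 5) (nat_lit 50) (nat_lit 5) (nat_lit 51) (nat_lit 5) (nat_lit 426) (nat_lit 397) (nat_lit 257)))) (XT.nd (nat_lit 188) (nat_lit 336) (nat_lit 0) (XT.nd (nat_lit 94) (nat_lit 168) (nat_lit 0) (XT.lf (nat_lit 0) (nat_lit 18551224104) (nat_lit 168) (nat_lit 214855413023) (nat_lit 84) (nat_lit 33793349478) (nat_lit 46) (nat_lit 5) (nat_lit 48) (nat_lit 5) (nat_lit 47) (nat_lit 5) (nat_lit 427) (nat_lit 397) (nat_lit 256)) (XT.lf (nat_lit 0) (nat_lit 55939188034) (nat_lit 168) (nat_lit 84713780820) (nat_lit 252) (nat_lit 139953160361) (nat_lit 44) (nat_lit 5) (nat_lit 46) (nat_lit 5) (nat_lit 47) (nat_lit 5) (nat_lit 428) (nat_lit 397) (nat_lit 255))) (XT.nd (nat_lit 94) (nat_lit 252) (nat_lit 0) (XT.lf (nat_lit 0) (nat_lit 61906747051) (nat_lit 84) (nat_lit 216570795001) (nat_lit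 168) (nat_lit 16309486739) (nat_lit 43) (nat_lit 5) (nat_lit 44) (nat_lit 5) (nat_lit 45) (nat_lit 4) (nat_lit 429) (nat_lit 397) (nat_lit 254)) (XT.lf (nat_lit 0) (nat_lit 68387605808) (nat_lit 168) (nat_lit 51559536561) (nat_lit 252) (nat_lit 189740076120) (nat_lit 40) (nat_lit 5) (nat_lit 42) (nat_lit 5) (nat_lit 43) (nat_lit 5) (nat_lit 430) (nat_lit 397) (nat_lit 253))))) (XT.nd (nat_lit 282) (nat_lit 672) (nat_lit 0) (XT.nd (nat_lit 94) (nat_lit 336) (nat_lit 0) (XT.lf (nat_lit 0) (nat_lit 76629326974) (nat_lit 84) (nat_lit 197207706081) (nat_lit 168) (nat_lit 51563815065) (nat_lit 39) (nat_lit 5) (nat_lit 40) (nat_lit 5) (nat_lit 41) (nat_lit 4) (nat_lit 431) (nat_lit 397) (nat_lit 252)) (XT.nd (nat_lit 94) (nat_lit 84) (nat_lit 0) (XT.lf (nat_lit 0) (nat_lit 86760887358) (nat_lit 168) (nat_lit 14275461736) (nat_lit 252) (nat_lit 240934189520) (nat_lit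 36) (nat_lit 5) (nat_lit 38) (nat_lit 5) (nat_lit 39) (nat_lit 5) (nat_lit 432) (nat_lit 397) (nat_lit 251)) (XT.lf (nat_lit 0) (nat_lit 97694188700) (nat_lit 84) (nat_lit 175158993080) (nat_lit 168) (nat_lit 86529597130) (nat_lit 35) (nat_lit 5) (nat_lit 36) (nat_lit 5) (nat_lit 37) (nat_lit 4) (nat_lit 433) (nat_lit 397) (nat_lit 250)))) (XT.nd (nat_lit 188) (nat_lit 336) (nat_lit 0) (XT.nd (nat_lit 94) (nat_lit 84) (nat_lit 0) (XT.lf (nat_lit 0) (nat_lit 84601424943) (nat_lit 252) (nat_lit 266238746950) (nat_lit 84) (nat_lit 26938105892) (nat_lit 32) (nat_lit 5) (nat_lit 35) (nat_lit 5) (nat_lit 33) (nat_lit 4) (nat_lit 434) (nat_lit 397) (nat_lit 249)) (XT.lf (nat_lit 0) (nat_lit 126101261557) (nat_lit 84) (nat_lit 149885712999) (nat_lit 168) (nat_lit 121107735046) (nat_lit 31) (nat_lit 5) (nat_lit 32) (nat_lit 5) (nat_lit 33) (nat_lit 4) (nat_lit 435)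 (nat_lit 397) (nat_lit 248))) (XT.nd (nat_lit 94) (nat_lit 84) (nat_lit 0) (XT.lf (nat_lit 0) (nat_lit 70814445721) (nat_lit 252) (nat_lit 273565983615) (nat_lit 84) (nat_lit 73117538258) (nat_lit 28) (nat_lit 5) (nat_lit 31) (nat_lit 5) (nat_lit 29) (nat_lit 4) (nat_lit 436) (nat_lit 397) (nat_lit 247)) (XT.lf (nat_lit 0) (nat_lit 163000610643) (nat_lit 84) (nat_lit 120773296004) (nat_lit 168) (nat_lit 155163984402) (nat_lit 27) (nat_lit 5) (nat_lit 28) (nat_lit 5) (nat_lit 29) (nat_lit 4) (nat_lit 437) (nat_lit 397) (nat_lit 246)))))) (XT.nd (nat_lit 658) (nat_lit 840) (nat_lit 0) (XT.nd (nat_lit 282) (nat_lit 504) (nat_lit 0) (XT.nd (nat_lit 94) (nat_lit 252) (nat_lit 0) (XT.lf (nat_lit 0) (nat_lit 59819439640) (nat_lit 168) (nat_lit 276166507169) (nat_lit 84) (nat_lit 125576904639) (nat_lit 25) (nat_lit 5) (nat_lit 27) (nat_lit 5) (nat_lit 26) (nat_lit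 4) (nat_lit 438) (nat_lit 397) (nat_lit 245)) (XT.nd (nat_lit 94) (nat_lit 168) (nat_lit 0) (XT.lf (nat_lit 0) (nat_lit 209712684322) (nat_lit 84) (nat_lit 87121114815) (nat_lit 168) (nat_lit 188523403364) (nat_lit 24) (nat_lit 5) (nat_lit 25) (nat_lit 5) (nat_lit 26) (nat_lit 4) (nat_lit 439) (nat_lit 397) (nat_lit 244)) (XT.lf (nat_lit 0) (nat_lit 52049975853) (nat_lit 168) (nat_lit 273104055407) (nat_lit 84) (nat_lit 185286867097) (nat_lit 22) (nat_lit 5) (nat_lit 24) (nat_lit 5) (nat_lit 23) (nat_lit 4) (nat_lit 440) (nat_lit 397) (nat_lit 243)))) (XT.nd (nat_lit 188) (nat_lit 252) (nat_lit 0) (XT.nd (nat_lit 94) (nat_lit 168) (nat_lit 0) (XT.lf (nat_lit 0) (nat_lit 267751196060) (nat_lit 84) (nat_lit 48130707550) (nat_lit 168) (nat_lit 220963977896) (nat_lit 21) (nat_lit 5) (nat_lit 22) (nat_lit 5) (nat_lit 23) (nat_lit 4) (nat_lit 441) (nat_lit 397)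 (nat_lit 242)) (XT.lf (nat_lit 0) (nat_lit 48015579970) (nat_lit 168) (nat_lit 263288910518) (nat_lit 84) (nat_lit 253346428215) (nat_lit 19) (nat_lit 5) (nat_lit 21) (nat_lit 5) (nat_lit 20) (nat_lit 4) (nat_lit 442) (nat_lit 397) (nat_lit 241))) (XT.nd (nat_lit 94) (nat_lit 168) (nat_lit 0) (XT.lf (nat_lit 0) (nat_lit 338848971548) (nat_lit 84) (nat_lit 2892484385) (nat_lit 168) (nat_lit 252209312183) (nat_lit 18) (nat_lit 5) (nat_lit 19) (nat_lit 5) (nat_lit 20) (nat_lit 4) (nat_lit 443) (nat_lit 397) (nat_lit 240)) (XT.lf (nat_lit 0) (nat_lit 48312291298) (nat_lit 168) (nat_lit 245456150125) (nat_lit 84) (nat_lit 330999635042) (nat_lit 16) (nat_lit 5) (nat_lit 18) (nat_lit 5) (nat_lit 17) (nat_lit 4) (nat_lit 444) (nat_lit 397) (nat_lit 239))))) (XT.nd (nat_lit 282) (nat_lit 504) (nat_lit 0) (XT.nd (nat_lit 94) (nat_lit 252) (nat_lit 0) (XT.lf (nat_lit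 0) (nat_lit 376132712395) (nat_lit 168) (nat_lit 233065838576) (nat_lit 0) (nat_lit 48040825810) (nat_lit 15) (nat_lit 5) (nat_lit 17) (nat_lit 4) (nat_lit 15) (nat_lit 4) (nat_lit 445) (nat_lit 397) (nat_lit 238)) (XT.nd (nat_lit 94) (nat_lit 84) (nat_lit 0) (XT.lf (nat_lit 0) (nat_lit 53634643723) (nat_lit 168) (nat_lit 218140984789) (nat_lit 84) (nat_lit 419654372143) (nat_lit 13) (nat_lit 5) (nat_lit 15) (nat_lit 5) (nat_lit 14) (nat_lit 4) (nat_lit 446) (nat_lit 397) (nat_lit 237)) (XT.lf (nat_lit 0) (nat_lit 419541691573) (nat_lit 168) (nat_lit 200799003386) (nat_lit 0) (nat_lit 107073012018) (nat_lit 12) (nat_lit 5) (nat_lit 14) (nat_lit 4) (nat_lit 12) (nat_lit 4) (nat_lit 447) (nat_lit 397) (nat_lit 236)))) (XT.nd (nat_lit 188) (nat_lit 252) (nat_lit 0) (XT.nd (nat_lit 94) (nat_lit 84) (nat_lit 0) (XT.lf (nat_lit 0) (nat_lit 64789252419) (nat_lit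 168) (nat_lit 179650808313) (nat_lit 84) (nat_lit 520903500425) (nat_lit 10) (nat_lit 5) (nat_lit 12) (nat_lit 5) (nat_lit 11) (nat_lit 4) (nat_lit 448) (nat_lit 397) (nat_lit 235)) (XT.lf (nat_lit 0) (nat_lit 473184025986) (nat_lit 168) (nat_lit 156441445693) (nat_lit 0) (nat_lit 175594630879) (nat_lit 9) (nat_lit 5) (nat_lit 11) (nat_lit 4) (nat_lit 9) (nat_lit 4) (nat_lit 449) (nat_lit 397) (nat_lit 234))) (XT.nd (nat_lit 94) (nat_lit 84) (nat_lit 0) (XT.lf (nat_lit 0) (nat_lit 82710211300) (nat_lit 168) (nat_lit 128033540502) (nat_lit 84) (nat_lit 636548629388) (nat_lit 7) (nat_lit 5) (nat_lit 9) (nat_lit 5) (nat_lit 8) (nat_lit 4) (nat_lit 450) (nat_lit 397) (nat_lit 233)) (XT.lf (nat_lit 0) (nat_lit 538500040604) (nat_lit 168) (nat_lit 97901977559) (nat_lit 0) (nat_lit 255081424975) (nat_lit 6) (nat_lit 5) (nat_lit 8) (nat_lit 4) (nat_lit 6) (nat_lit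 4) (nat_lit 451) (nat_lit 397) (nat_lit 232))))))) (XT.nd (nat_lit 1316) (nat_lit 0) (nat_lit 0) (XT.nd (nat_lit 658) (nat_lit 0) (nat_lit 0) (XT.nd (nat_lit 282) (nat_lit 0) (nat_lit 0) (XT.nd (nat_lit 94) (nat_lit 336) (nat_lit 0) (XT.lf (nat_lit 0) (nat_lit 108476531739) (nat_lit 168) (nat_lit 61041789711) (nat_lit 84) (nat_lit 768626845160) (nat_lit 4) (nat_lit 5) (nat_lit 6) (nat_lit 5) (nat_lit 5) (nat_lit 4) (nat_lit 452) (nat_lit 397) (nat_lit 231)) (XT.nd (nat_lit 94) (nat_lit 252) (nat_lit 0) (XT.lf (nat_lit 0) (nat_lit 617132977054) (nat_lit 168) (nat_lit 22774825163) (nat_lit 0) (nat_lit 347210368319) (nat_lit 3) (nat_lit 5) (nat_lit 5) (nat_lit 4) (nat_lit 3) (nat_lit 4) (nat_lit 453) (nat_lit 397) (nat_lit 230)) (XT.lf (nat_lit 0) (nat_lit 1506962717102) (nat_lit 0) (nat_lit 0) (nat_lit 0) (nat_lit 0) (nat_lit 0) (nat_lit 0) (nat_lit 1) (nat_lit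 0) (nat_lit 1) (nat_lit 0) (nat_lit 454) (nat_lit 397) (nat_lit 229)))) (XT.nd (nat_lit 188) (nat_lit 0) (nat_lit 0) (XT.nd (nat_lit 94) (nat_lit 0) (nat_lit 0) (XT.lf (nat_lit 0) (nat_lit 1626038339592) (nat_lit 0) (nat_lit 0) (nat_lit 0) (nat_lit 0) (nat_lit 0) (nat_lit 0) (nat_lit 1) (nat_lit 0) (nat_lit 1) (nat_lit 0) (nat_lit 455) (nat_lit 397) (nat_lit 228)) (XT.lf (nat_lit 0) (nat_lit 1754640012394) (nat_lit 0) (nat_lit 0) (nat_lit 0) (nat_lit 0) (nat_lit 0) (nat_lit 0) (nat_lit 1) (nat_lit 0) (nat_lit 1) (nat_lit 0) (nat_lit 456) (nat_lit 397) (nat_lit 227))) (XT.nd (nat_lit 94) (nat_lit 0) (nat_lit 0) (XT.lf (nat_lit 0) (nat_lit 1893529819495) (nat_lit 0) (nat_lit 0) (nat_lit 0) (nat_lit 0) (nat_lit 0) (nat_lit 0) (nat_lit 1) (nat_lit 0) (nat_lit 1) (nat_lit 0) (nat_lit 457) (nat_lit 397) (nat_lit 226)) (XT.lf (nat_lit 0) (nat_lit 2043530811604) (nat_lit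 0) (nat_lit 0) (nat_lit 0) (nat_lit 0) (nat_lit 0) (nat_lit 0) (nat_lit 1) (nat_lit 0) (nat_lit 1) (nat_lit 0) (nat_lit 458) (nat_lit 397) (nat_lit 225))))) (XT.nd (nat_lit 282) (nat_lit 0) (nat_lit 0) (XT.nd (nat_lit 94) (nat_lit 0) (nat_lit 0) (XT.lf (nat_lit 0) (nat_lit 2205531883488) (nat_lit 0) (nat_lit 0) (nat_lit 0) (nat_lit 0) (nat_lit 0) (nat_lit 0) (nat_lit 1) (nat_lit 0) (nat_lit 1) (nat_lit 0) (nat_lit 459) (nat_lit 397) (nat_lit 224)) (XT.nd (nat_lit 94) (nat_lit 0) (nat_lit 0) (XT.lf (nat_lit 0) (nat_lit 2380493041500) (nat_lit 0) (nat_lit 0) (nat_lit 0) (nat_lit 0) (nat_lit 0) (nat_lit 0) (nat_lit 1) (nat_lit 0) (nat_lit 1) (nat_lit 0) (nat_lit 460) (nat_lit 397) (nat_lit 223)) (XT.lf (nat_lit 0) (nat_lit 2569451092501) (nat_lit 0) (nat_lit 0) (nat_lit 0) (nat_lit 0) (nat_lit 0) (nat_lit 0) (nat_lit 1) (nat_lit 0) (nat_lit 1) (nat_lit 0) (nat_lit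 461) (nat_lit 397) (nat_lit 222)))) (XT.nd (nat_lit 188) (nat_lit 0) (nat_lit 0) (XT.nd (nat_lit 94) (nat_lit 0) (nat_lit 0) (XT.lf (nat_lit 0) (nat_lit 2773525787905) (nat_lit 0) (nat_lit 0) (nat_lit 0) (nat_lit 0) (nat_lit 0) (nat_lit 0) (nat_lit 1) (nat_lit 0) (nat_lit 1) (nat_lit 0) (nat_lit 462) (nat_lit 397) (nat_lit 221)) (XT.lf (nat_lit 0) (nat_lit 2993926459241) (nat_lit 0) (nat_lit 0) (nat_lit 0) (nat_lit 0) (nat_lit 0) (nat_lit 0) (nat_lit 1) (nat_lit 0) (nat_lit 1) (nat_lit 0) (nat_lit 463) (nat_lit 397) (nat_lit 220))) (XT.nd (nat_lit 94) (nat_lit 0) (nat_lit 0) (XT.lf (nat_lit 0) (nat_lit 3231959184561) (nat_lit 0) (nat_lit 0) (nat_lit 0) (nat_lit 0) (nat_lit 0) (nat_lit 0) (nat_lit 1) (nat_lit 0) (nat_lit 1) (nat_lit 0) (nat_lit 464) (nat_lit 397) (nat_lit 219)) (XT.lf (nat_lit 0) (nat_lit 3489034528163) (nat_lit 0) (nat_lit 0) (nat_lit 0) (nat_lit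 0) (nat_lit 0) (nat_lit 0) (nat_lit 1) (nat_lit 0) (nat_lit 1) (nat_lit 0) (nat_lit 465) (nat_lit 397) (nat_lit 218)))))) (XT.nd (nat_lit 658) (nat_lit 0) (nat_lit 0) (XT.nd (nat_lit 282) (nat_lit 0) (nat_lit 0) (XT.nd (nat_lit 94) (nat_lit 0) (nat_lit 0) (XT.lf (nat_lit 0) (nat_lit 3766675899491) (nat_lit 0) (nat_lit 0) (nat_lit 0) (nat_lit 0) (nat_lit 0) (nat_lit 0) (nat_lit 1) (nat_lit 0) (nat_lit 1) (nat_lit 0) (nat_lit 466) (nat_lit 397) (nat_lit 217)) (XT.nd (nat_lit 94) (nat_lit 0) (nat_lit 0) (XT.lf (nat_lit 0) (nat_lit 4066528580744) (nat_lit 0) (nat_lit 0) (nat_lit 0) (nat_lit 0) (nat_lit 0) (nat_lit 0) (nat_lit 1) (nat_lit 0) (nat_lit 1) (nat_lit 0) (nat_lit 467) (nat_lit 397) (nat_lit 216)) (XT.lf (nat_lit 0) (nat_lit 4390369476701) (nat_lit 0) (nat_lit 0) (nat_lit 0) (nat_lit 0) (nat_lit 0) (nat_lit 0) (nat_lit 1) (nat_lit 0) (nat_lit 1) (nat_lit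 0) (nat_lit 468) (nat_lit 397) (nat_lit 215)))) (XT.nd (nat_lit 188) (nat_lit 0) (nat_lit 0) (XT.nd (nat_lit 94) (nat_lit 0) (nat_lit 0) (XT.lf (nat_lit 0) (nat_lit 4740117644524) (nat_lit 0) (nat_lit 0) (nat_lit 0) (nat_lit 0) (nat_lit 0) (nat_lit 0) (nat_lit 1) (nat_lit 0) (nat_lit 1) (nat_lit 0) (nat_lit 469) (nat_lit 397) (nat_lit 214)) (XT.lf (nat_lit 0) (nat_lit 5117845665947) (nat_lit 0) (nat_lit 0) (nat_lit 0) (nat_lit 0) (nat_lit 0) (nat_lit 0) (nat_lit 1) (nat_lit 0) (nat_lit 1) (nat_lit 0) (nat_lit 470) (nat_lit 397) (nat_lit 213))) (XT.nd (nat_lit 94) (nat_lit 0) (nat_lit 0) (XT.lf (nat_lit 0) (nat_lit 5525791929245) (nat_lit 0) (nat_lit 0) (nat_lit 0) (nat_lit 0) (nat_lit 0) (nat_lit 0) (nat_lit 1) (nat_lit 0) (nat_lit 1) (nat_lit 0) (nat_lit 471) (nat_lit 397) (nat_lit 212)) (XT.lf (nat_lit 0) (nat_lit 5966373893756) (nat_lit 0) (nat_lit 0) (nat_lit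 0) (nat_lit 0) (nat_lit 0) (nat_lit 0) (nat_lit 1) (nat_lit 0) (nat_lit 1) (nat_lit 0) (nat_lit 472) (nat_lit 397) (nat_lit 211))))) (XT.nd (nat_lit 376) (nat_lit 0) (nat_lit 0) (XT.nd (nat_lit 188) (nat_lit 0) (nat_lit 0) (XT.nd (nat_lit 94) (nat_lit 0) (nat_lit 0) (XT.lf (nat_lit 0) (nat_lit 6442202415567) (nat_lit 0) (nat_lit 0) (nat_lit 0) (nat_lit 0) (nat_lit 0) (nat_lit 0) (nat_lit 1) (nat_lit 0) (nat_lit 1) (nat_lit 0) (nat_lit 473) (nat_lit 397) (nat_lit 210)) (XT.lf (nat_lit 0) (nat_lit 6956097219252) (nat_lit 0) (nat_lit 0) (nat_lit 0) (nat_lit 0) (nat_lit 0) (nat_lit 0) (nat_lit 1) (nat_lit 0) (nat_lit 1) (nat_lit 0) (nat_lit 474) (nat_lit 397) (nat_lit 209))) (XT.nd (nat_lit 94) (nat_lit 0) (nat_lit 0) (XT.lf (nat_lit 0) (nat_lit 7511103607349) (nat_lit 0) (nat_lit 0) (nat_lit 0) (nat_lit 0) (nat_lit 0) (nat_lit 0) (nat_lit 1) (nat_lit 0) (nat_lit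 1) (nat_lit 0) (nat_lit 475) (nat_lit 397) (nat_lit 208)) (XT.lf (nat_lit 0) (nat_lit 8110510506605) (nat_lit 0) (nat_lit 0) (nat_lit 0) (nat_lit 0) (nat_lit 0) (nat_lit 0) (nat_lit 1) (nat_lit 0) (nat_lit 1) (nat_lit 0) (nat_lit 476) (nat_lit 397) (nat_lit 207)))) (XT.nd (nat_lit 188) (nat_lit 0) (nat_lit 0) (XT.nd (nat_lit 94) (nat_lit 0) (nat_lit 0) (XT.lf (nat_lit 0) (nat_lit 8757869957903) (nat_lit 0) (nat_lit 0) (nat_lit 0) (nat_lit 0) (nat_lit 0) (nat_lit 0) (nat_lit 1) (nat_lit 0) (nat_lit 1) (nat_lit 0) (nat_lit 477) (nat_lit 397) (nat_lit 206)) (XT.lf (nat_lit 0) (nat_lit 9457018165399) (nat_lit 0) (nat_lit 0) (nat_lit 0) (nat_lit 0) (nat_lit 0) (nat_lit 0) (nat_lit 1) (nat_lit 0) (nat_lit 1) (nat_lit 0) (nat_lit 478) (nat_lit 397) (nat_lit 205))) (XT.nd (nat_lit 94) (nat_lit 0) (nat_lit 0) (XT.lf (nat_lit 0) (nat_lit 10212098229581) (nat_lit 0)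 (nat_lit 0) (nat_lit 0) (nat_lit 0) (nat_lit 0) (nat_lit 0) (nat_lit 1) (nat_lit 0) (nat_lit 1) (nat_lit 0) (nat_lit 479) (nat_lit 397) (nat_lit 204)) (XT.lf (nat_lit 0) (nat_lit 11027584698980) (nat_lit 0) (nat_lit 0) (nat_lit 0) (nat_lit 0) (nat_lit 0) (nat_lit 0) (nat_lit 1) (nat_lit 0) (nat_lit 1) (nat_lit 0) (nat_lit 480) (nat_lit 397) (nat_lit 203))))))))
noncomputable def xc170 : XT := (XT.nd (nat_lit 60348) (nat_lit 0) (nat_lit 3612) (XT.nd (nat_lit 1316) (nat_lit 0) (nat_lit 0) (XT.nd (nat_lit 658) (nat_lit 0) (nat_lit 0) (XT.nd (nat_lit 282) (nat_lit 0) (nat_lit 0) (XT.nd (nat_lit 94) (nat_lit 0) (nat_lit 0) (XT.lf (nat_lit 0) (nat_lit 11908310086005) (nat_lit 0) (nat_lit 0) (nat_lit 0) (nat_lit 0) (nat_lit 0) (nat_lit 0) (nat_lit 1) (nat_lit 0) (nat_lit 1) (nat_lit 0) (nat_lit 481) (nat_lit 397) (nat_lit 202)) (XT.nd (nat_lit 94) (nat_lit 0) (nat_lit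 0) (XT.lf (nat_lit 0) (nat_lit 12859493504061) (nat_lit 0) (nat_lit 0) (nat_lit 0) (nat_lit 0) (nat_lit 0) (nat_lit 0) (nat_lit 1) (nat_lit 0) (nat_lit 1) (nat_lit 0) (nat_lit 482) (nat_lit 397) (nat_lit 201)) (XT.lf (nat_lit 0) (nat_lit 13886771595626) (nat_lit 0) (nat_lit 0) (nat_lit 0) (nat_lit 0) (nat_lit 0) (nat_lit 0) (nat_lit 1) (nat_lit 0) (nat_lit 1) (nat_lit 0) (nat_lit 483) (nat_lit 397) (nat_lit 200)))) (XT.nd (nat_lit 188) (nat_lit 0) (nat_lit 0) (XT.nd (nat_lit 94) (nat_lit 0) (nat_lit 0) (XT.lf (nat_lit 0) (nat_lit 14996231934576) (nat_lit 0) (nat_lit 0) (nat_lit 0) (nat_lit 0) (nat_lit 0) (nat_lit 0) (nat_lit 1) (nat_lit 0) (nat_lit 1) (nat_lit 0) (nat_lit 484) (nat_lit 397) (nat_lit 199)) (XT.lf (nat_lit 0) (nat_lit 16194449100697) (nat_lit 0) (nat_lit 0) (nat_lit 0) (nat_lit 0) (nat_lit 0) (nat_lit 0) (nat_lit 1) (nat_lit 0) (nat_lit 1) (nat_lit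 0) (nat_lit 485) (nat_lit 397) (nat_lit 198))) (XT.nd (nat_lit 94) (nat_lit 0) (nat_lit 0) (XT.lf (nat_lit 0) (nat_lit 17488523640158) (nat_lit 0) (nat_lit 0) (nat_lit 0) (nat_lit 0) (nat_lit 0) (nat_lit 0) (nat_lit 1) (nat_lit 0) (nat_lit 1) (nat_lit 0) (nat_lit 486) (nat_lit 397) (nat_lit 197)) (XT.lf (nat_lit 0) (nat_lit 18886124142824) (nat_lit 0) (nat_lit 0) (nat_lit 0) (nat_lit 0) (nat_lit 0) (nat_lit 0) (nat_lit 1) (nat_lit 0) (nat_lit 1) (nat_lit 0) (nat_lit 487) (nat_lit 397) (nat_lit 196))))) (XT.nd (nat_lit 282) (nat_lit 0) (nat_lit 0) (XT.nd (nat_lit 94) (nat_lit 0) (nat_lit 0) (XT.lf (nat_lit 0) (nat_lit 20395532685746) (nat_lit 0) (nat_lit 0) (nat_lit 0) (nat_lit 0) (nat_lit 0) (nat_lit 0) (nat_lit 1) (nat_lit 0) (nat_lit 1) (nat_lit 0) (nat_lit 488) (nat_lit 397) (nat_lit 195)) (XT.nd (nat_lit 94) (nat_lit 0) (nat_lit 0) (XT.lf (nat_lit 0) (nat_lit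 22025693912142) (nat_lit 0) (nat_lit 0) (nat_lit 0) (nat_lit 0) (nat_lit 0) (nat_lit 0) (nat_lit 1) (nat_lit 0) (nat_lit 1) (nat_lit 0) (nat_lit 489) (nat_lit 397) (nat_lit 194)) (XT.lf (nat_lit 0) (nat_lit 23786268036688) (nat_lit 0) (nat_lit 0) (nat_lit 0) (nat_lit 0) (nat_lit 0) (nat_lit 0) (nat_lit 1) (nat_lit 0) (nat_lit 1) (nat_lit 0) (nat_lit 490) (nat_lit 397) (nat_lit 193)))) (XT.nd (nat_lit 188) (nat_lit 0) (nat_lit 0) (XT.nd (nat_lit 94) (nat_lit 0) (nat_lit 0) (XT.lf (nat_lit 0) (nat_lit 25687688091232) (nat_lit 0) (nat_lit 0) (nat_lit 0) (nat_lit 0) (nat_lit 0) (nat_lit 0) (nat_lit 1) (nat_lit 0) (nat_lit 1) (nat_lit 0) (nat_lit 491) (nat_lit 397) (nat_lit 192)) (XT.lf (nat_lit 0) (nat_lit 27741221750172) (nat_lit 0) (nat_lit 0) (nat_lit 0) (nat_lit 0) (nat_lit 0) (nat_lit 0) (nat_lit 1) (nat_lit 0) (nat_lit 1) (nat_lit 0) (nat_lit 492) (nat_lit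 397) (nat_lit 191))) (XT.nd (nat_lit 94) (nat_lit 0) (nat_lit 0) (XT.lf (nat_lit 0) (nat_lit 29959038101856) (nat_lit 0) (nat_lit 0) (nat_lit 0) (nat_lit 0) (nat_lit 0) (nat_lit 0) (nat_lit 1) (nat_lit 0) (nat_lit 1) (nat_lit 0) (nat_lit 493) (nat_lit 397) (nat_lit 190)) (XT.lf (nat_lit 0) (nat_lit 32354279761703) (nat_lit 0) (nat_lit 0) (nat_lit 0) (nat_lit 0) (nat_lit 0) (nat_lit 0) (nat_lit 1) (nat_lit 0) (nat_lit 1) (nat_lit 0) (nat_lit 494) (nat_lit 397) (nat_lit 189)))))) (XT.nd (nat_lit 658) (nat_lit 0) (nat_lit 0) (XT.nd (nat_lit 282) (nat_lit 0) (nat_lit 0) (XT.nd (nat_lit 94) (nat_lit 0) (nat_lit 0) (XT.lf (nat_lit 0) (nat_lit 34941140754363) (nat_lit 0) (nat_lit 0) (nat_lit 0) (nat_lit 0) (nat_lit 0) (nat_lit 0) (nat_lit 1) (nat_lit 0) (nat_lit 1) (nat_lit 0) (nat_lit 495) (nat_lit 397) (nat_lit 188)) (XT.nd (nat_lit 94) (nat_lit 0) (nat_lit 0)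 (XT.lf (nat_lit 0) (nat_lit 37734950626459) (nat_lit 0) (nat_lit 0) (nat_lit 0) (nat_lit 0) (nat_lit 0) (nat_lit 0) (nat_lit 1) (nat_lit 0) (nat_lit 1) (nat_lit 0) (nat_lit 496) (nat_lit 397) (nat_lit 187)) (XT.lf (nat_lit 0) (nat_lit 40752265288345) (nat_lit 0) (nat_lit 0) (nat_lit 0) (nat_lit 0) (nat_lit 0) (nat_lit 0) (nat_lit 1) (nat_lit 0) (nat_lit 1) (nat_lit 0) (nat_lit 497) (nat_lit 397) (nat_lit 186)))) (XT.nd (nat_lit 188) (nat_lit 0) (nat_lit 0) (XT.nd (nat_lit 94) (nat_lit 0) (nat_lit 0) (XT.lf (nat_lit 0) (nat_lit 44010965123203) (nat_lit 0) (nat_lit 0) (nat_lit 0) (nat_lit 0) (nat_lit 0) (nat_lit 0) (nat_lit 1) (nat_lit 0) (nat_lit 1) (nat_lit 0) (nat_lit 498) (nat_lit 397) (nat_lit 185)) (XT.lf (nat_lit 0) (nat_lit 47530360944867) (nat_lit 0) (nat_lit 0) (nat_lit 0) (nat_lit 0) (nat_lit 0) (nat_lit 0) (nat_lit 1) (nat_lit 0) (nat_lit 1) (nat_lit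 0) (nat_lit 499) (nat_lit 397) (nat_lit 184))) (XT.nd (nat_lit 94) (nat_lit 0) (nat_lit 0) (XT.lf (nat_lit 0) (nat_lit 51331308432282) (nat_lit 0) (nat_lit 0) (nat_lit 0) (nat_lit 0) (nat_lit 0) (nat_lit 0) (nat_lit 1) (nat_lit 0) (nat_lit 1) (nat_lit 0) (nat_lit 500) (nat_lit 397) (nat_lit 183)) (XT.lf (nat_lit 0) (nat_lit 55436331718706) (nat_lit 0) (nat_lit 0) (nat_lit 0) (nat_lit 0) (nat_lit 0) (nat_lit 0) (nat_lit 1) (nat_lit 0) (nat_lit 1) (nat_lit 0) (nat_lit 501) (nat_lit 397) (nat_lit 182))))) (XT.nd (nat_lit 57998) (nat_lit 0) (nat_lit 10752) (XT.nd (nat_lit 94) (nat_lit 0) (nat_lit 0) (XT.lf (nat_lit 0) (nat_lit 59869756868059) (nat_lit 0) (nat_lit 0) (nat_lit 0) (nat_lit 0) (nat_lit 0) (nat_lit 0) (nat_lit 1) (nat_lit 0) (nat_lit 1) (nat_lit 0) (nat_lit 502) (nat_lit 397) (nat_lit 181)) (XT.nd (nat_lit 94) (nat_lit 0) (nat_lit 0) (XT.lf (nat_lit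 0) (nat_lit 64657856029374) (nat_lit 0) (nat_lit 0) (nat_lit 0) (nat_lit 0) (nat_lit 0) (nat_lit 0) (nat_lit 1) (nat_lit 0) (nat_lit 1) (nat_lit 0) (nat_lit 503) (nat_lit 397) (nat_lit 180)) (XT.lf (nat_lit 0) (nat_lit 69829003123607) (nat_lit 0) (nat_lit 0) (nat_lit 0) (nat_lit 0) (nat_lit 0) (nat_lit 0) (nat_lit 1) (nat_lit 0) (nat_lit 1) (nat_lit 0) (nat_lit 504) (nat_lit 397) (nat_lit 179)))) (XT.nd (nat_lit 188) (nat_lit 0) (nat_lit 84) (XT.nd (nat_lit 94) (nat_lit 0) (nat_lit 84) (XT.lf (nat_lit 0) (nat_lit 17691676522) (nat_lit 924) (nat_lit 10048916515) (nat_lit 924) (nat_lit 10048916515) (nat_lit 128) (nat_lit 3) (nat_lit 139) (nat_lit 3) (nat_lit 139) (nat_lit 5) (nat_lit 398) (nat_lit 398) (nat_lit 284)) (XT.lf (nat_lit 0) (nat_lit 37533548530) (nat_lit 840) (nat_lit 36934954674) (nat_lit 924) (nat_lit 4096933598) (nat_lit 129) (nat_lit 5) (nat_lit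 139) (nat_lit 5) (nat_lit 140) (nat_lit 5) (nat_lit 399) (nat_lit 398) (nat_lit 283))) (XT.nd (nat_lit 94) (nat_lit 0) (nat_lit 84) (XT.lf (nat_lit 84) (nat_lit 27168737802) (nat_lit 0) (nat_lit 14400770654) (nat_lit 924) (nat_lit 40135572017) (nat_lit 130) (nat_lit 5) (nat_lit 129) (nat_lit 5) (nat_lit 140) (nat_lit 5) (nat_lit 400) (nat_lit 398) (nat_lit 282)) (XT.lf (nat_lit 84) (nat_lit 12248282259) (nat_lit 0) (nat_lit 35311588299) (nat_lit 924) (nat_lit 37454448811) (nat_lit 131) (nat_lit 5) (nat_lit 130) (nat_lit 5) (nat_lit 141) (nat_lit 5) (nat_lit 401) (nat_lit 398) (nat_lit 281))))))) (XT.nd (nat_lit 1316) (nat_lit 3192) (nat_lit 0) (XT.nd (nat_lit 658) (nat_lit 2100) (nat_lit 0) (XT.nd (nat_lit 282) (nat_lit 2100) (nat_lit 0) (XT.nd (nat_lit 94) (nat_lit 0) (nat_lit 84) (XT.lf (nat_lit 0) (nat_lit 55698535746) (nat_lit 840) (nat_lit 2939416583)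 (nat_lit 924) (nat_lit 29866891343) (nat_lit 131) (nat_lit 5) (nat_lit 141) (nat_lit 5) (nat_lit 142) (nat_lit 5) (nat_lit 402) (nat_lit 398) (nat_lit 280)) (XT.nd (nat_lit 94) (nat_lit 0) (nat_lit 0) (XT.lf (nat_lit 0) (nat_lit 66366680032) (nat_lit 840) (nat_lit 18058605739) (nat_lit 924) (nat_lit 7755404853) (nat_lit 132) (nat_lit 5) (nat_lit 142) (nat_lit 5) (nat_lit 143) (nat_lit 5) (nat_lit 403) (nat_lit 398) (nat_lit 279)) (XT.lf (nat_lit 84) (nat_lit 62309034643) (nat_lit 0) (nat_lit 17591516243) (nat_lit 924) (nat_lit 16149440695) (nat_lit 133) (nat_lit 5) (nat_lit 132) (nat_lit 5) (nat_lit 143) (nat_lit 5) (nat_lit 404) (nat_lit 398) (nat_lit 278)))) (XT.nd (nat_lit 188) (nat_lit 840) (nat_lit 0) (XT.nd (nat_lit 94) (nat_lit 588) (nat_lit 0) (XT.lf (nat_lit 0) (nat_lit 50288852630) (nat_lit 840) (nat_lit 46184198051) (nat_lit 924) (nat_lit 3657989970)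 (nat_lit 123) (nat_lit 5) (nat_lit 133) (nat_lit 5) (nat_lit 134) (nat_lit 5) (nat_lit 405) (nat_lit 398) (nat_lit 277)) (XT.lf (nat_lit 0) (nat_lit 11441402947) (nat_lit 588) (nat_lit 66377116679) (nat_lit 84) (nat_lit 26616211341) (nat_lit 116) (nat_lit 5) (nat_lit 123) (nat_lit 5) (nat_lit 117) (nat_lit 5) (nat_lit 406) (nat_lit 398) (nat_lit 276))) (XT.nd (nat_lit 94) (nat_lit 420) (nat_lit 0) (XT.lf (nat_lit 0) (nat_lit 25696626132) (nat_lit 420) (nat_lit 3986960136) (nat_lit 504) (nat_lit 79292982031) (nat_lit 111) (nat_lit 5) (nat_lit 116) (nat_lit 5) (nat_lit 117) (nat_lit 5) (nat_lit 407) (nat_lit 398) (nat_lit 275)) (XT.lf (nat_lit 0) (nat_lit 12892521724) (nat_lit 420) (nat_lit 39050751167) (nat_lit 504) (nat_lit 61810573295) (nat_lit 106) (nat_lit 5) (nat_lit 111) (nat_lit 5) (nat_lit 112) (nat_lit 5) (nat_lit 408) (nat_lit 398) (nat_lit 274)))))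 (XT.nd (nat_lit 282) (nat_lit 1344) (nat_lit 0) (XT.nd (nat_lit 94) (nat_lit 420) (nat_lit 0) (XT.lf (nat_lit 0) (nat_lit 171880382) (nat_lit 336) (nat_lit 77988652442) (nat_lit 420) (nat_lit 40643933561) (nat_lit 102) (nat_lit 5) (nat_lit 106) (nat_lit 5) (nat_lit 107) (nat_lit 5) (nat_lit 409) (nat_lit 398) (nat_lit 273)) (XT.nd (nat_lit 94) (nat_lit 420) (nat_lit 0) (XT.lf (nat_lit 0) (nat_lit 108931004533) (nat_lit 420) (nat_lit 11982755047) (nat_lit 84) (nat_lit 3222585071) (nat_lit 102) (nat_lit 5) (nat_lit 107) (nat_lit 5) (nat_lit 103) (nat_lit 5) (nat_lit 410) (nat_lit 398) (nat_lit 272)) (XT.lf (nat_lit 0) (nat_lit 14881600532) (nat_lit 420) (nat_lit 24735208420) (nat_lit 84) (nat_lit 90118090905) (nat_lit 97) (nat_lit 5) (nat_lit 102) (nat_lit 5) (nat_lit 98) (nat_lit 5) (nat_lit 411) (nat_lit 398) (nat_lit 271)))) (XT.nd (nat_lit 188) (nat_lit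 672) (nat_lit 0) (XT.nd (nat_lit 94) (nat_lit 336) (nat_lit 0) (XT.lf (nat_lit 0) (nat_lit 49390643081) (nat_lit 420) (nat_lit 37563618152) (nat_lit 84) (nat_lit 48687221466) (nat_lit 93) (nat_lit 5) (nat_lit 98) (nat_lit 5) (nat_lit 94) (nat_lit 5) (nat_lit 412) (nat_lit 398) (nat_lit 270)) (XT.lf (nat_lit 0) (nat_lit 89241431251) (nat_lit 420) (nat_lit 50070842928) (nat_lit 84) (nat_lit 2579266881) (nat_lit 89) (nat_lit 5) (nat_lit 94) (nat_lit 5) (nat_lit 90) (nat_lit 5) (nat_lit 413) (nat_lit 398) (nat_lit 269))) (XT.nd (nat_lit 94) (nat_lit 420) (nat_lit 0) (XT.lf (nat_lit 0) (nat_lit 85548415384) (nat_lit 252) (nat_lit 50198040116) (nat_lit 336) (nat_lit 12721839938) (nat_lit 86) (nat_lit 5) (nat_lit 89) (nat_lit 5) (nat_lit 90) (nat_lit 5) (nat_lit 414) (nat_lit 398) (nat_lit 268)) (XT.lf (nat_lit 0) (nat_lit 32329877961) (nat_lit 420) (nat_lit 75842459230)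 (nat_lit 84) (nat_lit 47230011054) (nat_lit 81) (nat_lit 5) (nat_lit 86) (nat_lit 5) (nat_lit 82) (nat_lit 5) (nat_lit 415) (nat_lit 398) (nat_lit 267)))))) (XT.nd (nat_lit 658) (nat_lit 1428) (nat_lit 0) (XT.nd (nat_lit 282) (nat_lit 924) (nat_lit 0) (XT.nd (nat_lit 94) (nat_lit 588) (nat_lit 0) (XT.lf (nat_lit 0) (nat_lit 74141690378) (nat_lit 252) (nat_lit 9521589501) (nat_lit 336) (nat_lit 79061254766) (nat_lit 78) (nat_lit 5) (nat_lit 81) (nat_lit 5) (nat_lit 82) (nat_lit 5) (nat_lit 416) (nat_lit 398) (nat_lit 266)) (XT.nd (nat_lit 94) (nat_lit 336) (nat_lit 0) (XT.lf (nat_lit 0) (nat_lit 68935429874) (nat_lit 252) (nat_lit 74101106589) (nat_lit 336) (nat_lit 27399300368) (nat_lit 75) (nat_lit 5) (nat_lit 78) (nat_lit 5) (nat_lit 79) (nat_lit 5) (nat_lit 417) (nat_lit 398) (nat_lit 265)) (XT.lf (nat_lit 0) (nat_lit 30772160340) (nat_lit 336) (nat_lit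 114166068085) (nat_lit 84) (nat_lit 33639378673) (nat_lit 71) (nat_lit 5) (nat_lit 75) (nat_lit 5) (nat_lit 72) (nat_lit 5) (nat_lit 418) (nat_lit 398) (nat_lit 264)))) (XT.nd (nat_lit 188) (nat_lit 504) (nat_lit 0) (XT.nd (nat_lit 94) (nat_lit 168) (nat_lit 0) (XT.lf (nat_lit 0) (nat_lit 60121560278) (nat_lit 252) (nat_lit 36513277067) (nat_lit 336) (nat_lit 90513551324) (nat_lit 68) (nat_lit 5) (nat_lit 71) (nat_lit 5) (nat_lit 72) (nat_lit 5) (nat_lit 419) (nat_lit 398) (nat_lit 263)) (XT.lf (nat_lit 0) (nat_lit 56644963151) (nat_lit 168) (nat_lit 115284848635) (nat_lit 252) (nat_lit 24266856818) (nat_lit 66) (nat_lit 5) (nat_lit 68) (nat_lit 5) (nat_lit 69) (nat_lit 5) (nat_lit 420) (nat_lit 398) (nat_lit 262))) (XT.nd (nat_lit 94) (nat_lit 168) (nat_lit 0) (XT.lf (nat_lit 0) (nat_lit 49545045665) (nat_lit 336) (nat_lit 151790996140) (nat_lit 84) (nat_lit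 4406925095) (nat_lit 62) (nat_lit 5) (nat_lit 66) (nat_lit 5) (nat_lit 63) (nat_lit 5) (nat_lit 421) (nat_lit 398) (nat_lit 261)) (XT.lf (nat_lit 0) (nat_lit 51233862486) (nat_lit 168) (nat_lit 82403251192) (nat_lit 252) (nat_lit 82134694225) (nat_lit 60) (nat_lit 5) (nat_lit 62) (nat_lit 5) (nat_lit 63) (nat_lit 5) (nat_lit 422) (nat_lit 398) (nat_lit 260))))) (XT.nd (nat_lit 376) (nat_lit 588) (nat_lit 0) (XT.nd (nat_lit 188) (nat_lit 420) (nat_lit 0) (XT.nd (nat_lit 94) (nat_lit 168) (nat_lit 0) (XT.lf (nat_lit 0) (nat_lit 2182092782) (nat_lit 252) (nat_lit 176131472422) (nat_lit 84) (nat_lit 48078076389) (nat_lit 57) (nat_lit 5) (nat_lit 60) (nat_lit 5) (nat_lit 58) (nat_lit 5) (nat_lit 423) (nat_lit 398) (nat_lit 259)) (XT.lf (nat_lit 0) (nat_lit 49150894758) (nat_lit 168) (nat_lit 46323691742) (nat_lit 252) (nat_lit 142063753791) (nat_lit 55) (nat_lit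 5) (nat_lit 57) (nat_lit 5) (nat_lit 58) (nat_lit 5) (nat_lit 424) (nat_lit 398) (nat_lit 258))) (XT.nd (nat_lit 94) (nat_lit 252) (nat_lit 0) (XT.lf (nat_lit 0) (nat_lit 49348079235) (nat_lit 168) (nat_lit 152273131814) (nat_lit 252) (nat_lit 47686027270) (nat_lit 53) (nat_lit 5) (nat_lit 55) (nat_lit 5) (nat_lit 56) (nat_lit 5) (nat_lit 425) (nat_lit 398) (nat_lit 257)) (XT.lf (nat_lit 0) (nat_lit 50923451002) (nat_lit 168) (nat_lit 6493474493) (nat_lit 252) (nat_lit 204312824865) (nat_lit 50) (nat_lit 5) (nat_lit 52) (nat_lit 5) (nat_lit 53) (nat_lit 5) (nat_lit 426) (nat_lit 398) (nat_lit 256)))) (XT.nd (nat_lit 188) (nat_lit 252) (nat_lit 0) (XT.nd (nat_lit 94) (nat_lit 168) (nat_lit 0) (XT.lf (nat_lit 0) (nat_lit 52507127704) (nat_lit 168) (nat_lit 123488971236) (nat_lit 252) (nat_lit 98773943989) (nat_lit 48) (nat_lit 5) (nat_lit 50) (nat_lit 5) (nat_lit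 51) (nat_lit 5) (nat_lit 427) (nat_lit 398) (nat_lit 255)) (XT.lf (nat_lit 0) (nat_lit 20043940676) (nat_lit 168) (nat_lit 232028483453) (nat_lit 84) (nat_lit 36503130472) (nat_lit 46) (nat_lit 5) (nat_lit 48) (nat_lit 5) (nat_lit 47) (nat_lit 5) (nat_lit 428) (nat_lit 398) (nat_lit 254))) (XT.nd (nat_lit 94) (nat_lit 84) (nat_lit 0) (XT.lf (nat_lit 0) (nat_lit 60429018048) (nat_lit 168) (nat_lit 91484397970) (nat_lit 252) (nat_lit 151140793052) (nat_lit 44) (nat_lit 5) (nat_lit 46) (nat_lit 5) (nat_lit 47) (nat_lit 5) (nat_lit 429) (nat_lit 398) (nat_lit 253)) (XT.lf (nat_lit 0) (nat_lit 66873638951) (nat_lit 84) (nat_lit 233890025829) (nat_lit 168) (nat_lit 17605930346) (nat_lit 43) (nat_lit 5) (nat_lit 44) (nat_lit 5) (nat_lit 45) (nat_lit 4) (nat_lit 430) (nat_lit 398) (nat_lit 252))))))))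
noncomputable def xc171 : XT := (XT.nd (nat_lit 2632) (nat_lit 0) (nat_lit 0) (XT.nd (nat_lit 1316) (nat_lit 1512) (nat_lit 0) (XT.nd (nat_lit 658) (nat_lit 840) (nat_lit 0) (XT.nd (nat_lit 282) (nat_lit 672) (nat_lit 0) (XT.nd (nat_lit 94) (nat_lit 336) (nat_lit 0) (XT.lf (nat_lit 0) (nat_lit 73872597259) (nat_lit 168) (nat_lit 55677987767) (nat_lit 252) (nat_lit 204911227379) (nat_lit 40) (nat_lit 5) (nat_lit 42) (nat_lit 5) (nat_lit 43) (nat_lit 5) (nat_lit 431) (nat_lit 398) (nat_lit 251)) (XT.nd (nat_lit 94) (nat_lit 252) (nat_lit 0) (XT.lf (nat_lit 0) (nat_lit 82773321068) (nat_lit 84) (nat_lit 212978081984) (nat_lit 168) (nat_lit 55681142551) (nat_lit 39) (nat_lit 5) (nat_lit 40) (nat_lit 5) (nat_lit 41) (nat_lit 4) (nat_lit 432) (nat_lit 398) (nat_lit 250)) (XT.lf (nat_lit 0) (nat_lit 93715051276) (nat_lit 168) (nat_lit 15411384380) (nat_lit 252) (nat_lit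 260201387115) (nat_lit 36) (nat_lit 5) (nat_lit 38) (nat_lit 5) (nat_lit 39) (nat_lit 5) (nat_lit 433) (nat_lit 398) (nat_lit 249)))) (XT.nd (nat_lit 188) (nat_lit 336) (nat_lit 0) (XT.nd (nat_lit 94) (nat_lit 252) (nat_lit 0) (XT.lf (nat_lit 0) (nat_lit 105522691052) (nat_lit 84) (nat_lit 189165683001) (nat_lit 168) (nat_lit 93444680284) (nat_lit 35) (nat_lit 5) (nat_lit 36) (nat_lit 5) (nat_lit 37) (nat_lit 4) (nat_lit 434) (nat_lit 398) (nat_lit 248)) (XT.lf (nat_lit 0) (nat_lit 91376357333) (nat_lit 252) (nat_lit 287524975780) (nat_lit 84) (nat_lit 29098865975) (nat_lit 32) (nat_lit 5) (nat_lit 35) (nat_lit 5) (nat_lit 33) (nat_lit 4) (nat_lit 435) (nat_lit 398) (nat_lit 247))) (XT.nd (nat_lit 94) (nat_lit 252) (nat_lit 0) (XT.lf (nat_lit 0) (nat_lit 136201674054) (nat_lit 84) (nat_lit 161870764014) (nat_lit 168) (nat_lit 130789523027) (nat_lit 31) (nat_lit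 5) (nat_lit 32) (nat_lit 5) (nat_lit 33) (nat_lit 4) (nat_lit 436) (nat_lit 398) (nat_lit 246)) (XT.lf (nat_lit 0) (nat_lit 76485999531) (nat_lit 252) (nat_lit 295439049794) (nat_lit 84) (nat_lit 78972435769) (nat_lit 28) (nat_lit 5) (nat_lit 31) (nat_lit 5) (nat_lit 29) (nat_lit 4) (nat_lit 437) (nat_lit 398) (nat_lit 245))))) (XT.nd (nat_lit 282) (nat_lit 504) (nat_lit 0) (XT.nd (nat_lit 94) (nat_lit 252) (nat_lit 0) (XT.lf (nat_lit 0) (nat_lit 176052341263) (nat_lit 84) (nat_lit 130429584515) (nat_lit 168) (nat_lit 167570691224) (nat_lit 27) (nat_lit 5) (nat_lit 28) (nat_lit 5) (nat_lit 29) (nat_lit 4) (nat_lit 438) (nat_lit 398) (nat_lit 244)) (XT.nd (nat_lit 94) (nat_lit 84) (nat_lit 0) (XT.lf (nat_lit 0) (nat_lit 64611004314) (nat_lit 168) (nat_lit 298248246148) (nat_lit 84) (nat_lit 135628328627) (nat_lit 25) (nat_lit 5) (nat_lit 27) (nat_lit 5) (nat_lit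 26) (nat_lit 4) (nat_lit 439) (nat_lit 398) (nat_lit 243)) (XT.lf (nat_lit 0) (nat_lit 226500777340) (nat_lit 84) (nat_lit 94085463044) (nat_lit 168) (nat_lit 203599251451) (nat_lit 24) (nat_lit 5) (nat_lit 25) (nat_lit 5) (nat_lit 26) (nat_lit 4) (nat_lit 440) (nat_lit 398) (nat_lit 242)))) (XT.nd (nat_lit 188) (nat_lit 252) (nat_lit 0) (XT.nd (nat_lit 94) (nat_lit 84) (nat_lit 0) (XT.lf (nat_lit 0) (nat_lit 56219623062) (nat_lit 168) (nat_lit 294941401594) (nat_lit 84) (nat_lit 200114863113) (nat_lit 22) (nat_lit 5) (nat_lit 24) (nat_lit 5) (nat_lit 23) (nat_lit 4) (nat_lit 441) (nat_lit 398) (nat_lit 241)) (XT.lf (nat_lit 0) (nat_lit 289181792889) (nat_lit 84) (nat_lit 51976057648) (nat_lit 168) (nat_lit 238635431757) (nat_lit 21) (nat_lit 5) (nat_lit 22) (nat_lit 5) (nat_lit 23) (nat_lit 4) (nat_lit 442) (nat_lit 398) (nat_lit 240))) (XT.nd (nat_lit 94)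 (nat_lit 84) (nat_lit 0) (XT.lf (nat_lit 0) (nat_lit 51862140602) (nat_lit 168) (nat_lit 284341621121) (nat_lit 84) (nat_lit 273618964763) (nat_lit 19) (nat_lit 5) (nat_lit 21) (nat_lit 5) (nat_lit 20) (nat_lit 4) (nat_lit 443) (nat_lit 398) (nat_lit 239)) (XT.lf (nat_lit 0) (nat_lit 365966839441) (nat_lit 84) (nat_lit 3119008904) (nat_lit 168) (nat_lit 272380727423) (nat_lit 18) (nat_lit 5) (nat_lit 19) (nat_lit 5) (nat_lit 20) (nat_lit 4) (nat_lit 444) (nat_lit 398) (nat_lit 238)))))) (XT.nd (nat_lit 658) (nat_lit 588) (nat_lit 0) (XT.nd (nat_lit 282) (nat_lit 504) (nat_lit 0) (XT.nd (nat_lit 94) (nat_lit 252) (nat_lit 0) (XT.lf (nat_lit 0) (nat_lit 52182276942) (nat_lit 168) (nat_lit 265082789014) (nat_lit 84) (nat_lit 357484206508) (nat_lit 16) (nat_lit 5) (nat_lit 18) (nat_lit 5) (nat_lit 17) (nat_lit 4) (nat_lit 445) (nat_lit 398) (nat_lit 237)) (XT.nd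 (nat_lit 94) (nat_lit 168) (nat_lit 0) (XT.lf (nat_lit 0) (nat_lit 406228180870) (nat_lit 168) (nat_lit 251701514335) (nat_lit 0) (nat_lit 51888589145) (nat_lit 15) (nat_lit 5) (nat_lit 17) (nat_lit 4) (nat_lit 15) (nat_lit 4) (nat_lit 446) (nat_lit 398) (nat_lit 236)) (XT.lf (nat_lit 0) (nat_lit 57930126564) (nat_lit 168) (nat_lit 235582933294) (nat_lit 84) (nat_lit 453231105282) (nat_lit 13) (nat_lit 5) (nat_lit 15) (nat_lit 5) (nat_lit 14) (nat_lit 4) (nat_lit 447) (nat_lit 398) (nat_lit 235)))) (XT.nd (nat_lit 188) (nat_lit 252) (nat_lit 0) (XT.nd (nat_lit 94) (nat_lit 168) (nat_lit 0) (XT.lf (nat_lit 0) (nat_lit 453109597652) (nat_lit 168) (nat_lit 216853842833) (nat_lit 0) (nat_lit 115643134512) (nat_lit 12) (nat_lit 5) (nat_lit 14) (nat_lit 4) (nat_lit 12) (nat_lit 4) (nat_lit 448) (nat_lit 398) (nat_lit 234)) (XT.lf (nat_lit 0) (nat_lit 69976832009)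 (nat_lit 168) (nat_lit 194014040009) (nat_lit 84) (nat_lit 562579952060) (nat_lit 10) (nat_lit 5) (nat_lit 12) (nat_lit 5) (nat_lit 11) (nat_lit 4) (nat_lit 449) (nat_lit 398) (nat_lit 233))) (XT.nd (nat_lit 94) (nat_lit 168) (nat_lit 0) (XT.lf (nat_lit 0) (nat_lit 511043056209) (nat_lit 168) (nat_lit 168948165804) (nat_lit 0) (nat_lit 189646273342) (nat_lit 9) (nat_lit 5) (nat_lit 11) (nat_lit 4) (nat_lit 9) (nat_lit 4) (nat_lit 450) (nat_lit 398) (nat_lit 232)) (XT.lf (nat_lit 0) (nat_lit 89331213093) (nat_lit 168) (nat_lit 138267863378) (nat_lit 84) (nat_lit 687476485969) (nat_lit 7) (nat_lit 5) (nat_lit 9) (nat_lit 5) (nat_lit 8) (nat_lit 4) (nat_lit 451) (nat_lit 398) (nat_lit 231))))) (XT.nd (nat_lit 282) (nat_lit 252) (nat_lit 0) (XT.nd (nat_lit 94) (nat_lit 252) (nat_lit 0) (XT.lf (nat_lit 0) (nat_lit 581584106015) (nat_lit 168) (nat_lit 105726001152)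 (nat_lit 0) (nat_lit 275491808314) (nat_lit 6) (nat_lit 5) (nat_lit 8) (nat_lit 4) (nat_lit 6) (nat_lit 4) (nat_lit 452) (nat_lit 398) (nat_lit 230)) (XT.nd (nat_lit 94) (nat_lit 84) (nat_lit 0) (XT.lf (nat_lit 0) (nat_lit 117158600676) (nat_lit 168) (nat_lit 65917221310) (nat_lit 84) (nat_lit 830120760632) (nat_lit 4) (nat_lit 5) (nat_lit 6) (nat_lit 5) (nat_lit 5) (nat_lit 4) (nat_lit 453) (nat_lit 398) (nat_lit 229)) (XT.lf (nat_lit 0) (nat_lit 666507446703) (nat_lit 168) (nat_lit 24589114074) (nat_lit 0) (nat_lit 374990871828) (nat_lit 3) (nat_lit 5) (nat_lit 5) (nat_lit 4) (nat_lit 3) (nat_lit 4) (nat_lit 454) (nat_lit 398) (nat_lit 228)))) (XT.nd (nat_lit 188) (nat_lit 0) (nat_lit 0) (XT.nd (nat_lit 94) (nat_lit 0) (nat_lit 0) (XT.lf (nat_lit 0) (nat_lit 1627519724469) (nat_lit 0) (nat_lit 0) (nat_lit 0) (nat_lit 0) (nat_lit 0) (nat_lit 0) (nat_lit 1)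 (nat_lit 0) (nat_lit 1) (nat_lit 0) (nat_lit 455) (nat_lit 398) (nat_lit 227)) (XT.lf (nat_lit 0) (nat_lit 1756121397500) (nat_lit 0) (nat_lit 0) (nat_lit 0) (nat_lit 0) (nat_lit 0) (nat_lit 0) (nat_lit 1) (nat_lit 0) (nat_lit 1) (nat_lit 0) (nat_lit 456) (nat_lit 398) (nat_lit 226))) (XT.nd (nat_lit 94) (nat_lit 0) (nat_lit 0) (XT.lf (nat_lit 0) (nat_lit 1895011204812) (nat_lit 0) (nat_lit 0) (nat_lit 0) (nat_lit 0) (nat_lit 0) (nat_lit 0) (nat_lit 1) (nat_lit 0) (nat_lit 1) (nat_lit 0) (nat_lit 457) (nat_lit 398) (nat_lit 225)) (XT.lf (nat_lit 0) (nat_lit 2045012197116) (nat_lit 0) (nat_lit 0) (nat_lit 0) (nat_lit 0) (nat_lit 0) (nat_lit 0) (nat_lit 1) (nat_lit 0) (nat_lit 1) (nat_lit 0) (nat_lit 458) (nat_lit 398) (nat_lit 224))))))) (XT.nd (nat_lit 1316) (nat_lit 0) (nat_lit 0) (XT.nd (nat_lit 658) (nat_lit 0) (nat_lit 0) (XT.nd (nat_lit 282) (nat_lit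 0) (nat_lit 0) (XT.nd (nat_lit 94) (nat_lit 0) (nat_lit 0) (XT.lf (nat_lit 0) (nat_lit 2207013269181) (nat_lit 0) (nat_lit 0) (nat_lit 0) (nat_lit 0) (nat_lit 0) (nat_lit 0) (nat_lit 1) (nat_lit 0) (nat_lit 1) (nat_lit 0) (nat_lit 459) (nat_lit 398) (nat_lit 223)) (XT.nd (nat_lit 94) (nat_lit 0) (nat_lit 0) (XT.lf (nat_lit 0) (nat_lit 2381974427361) (nat_lit 0) (nat_lit 0) (nat_lit 0) (nat_lit 0) (nat_lit 0) (nat_lit 0) (nat_lit 1) (nat_lit 0) (nat_lit 1) (nat_lit 0) (nat_lit 460) (nat_lit 398) (nat_lit 222)) (XT.lf (nat_lit 0) (nat_lit 2570932478517) (nat_lit 0) (nat_lit 0) (nat_lit 0) (nat_lit 0) (nat_lit 0) (nat_lit 0) (nat_lit 1) (nat_lit 0) (nat_lit 1) (nat_lit 0) (nat_lit 461) (nat_lit 398) (nat_lit 221)))) (XT.nd (nat_lit 188) (nat_lit 0) (nat_lit 0) (XT.nd (nat_lit 94) (nat_lit 0) (nat_lit 0) (XT.lf (nat_lit 0) (nat_lit 2775007174066) (nat_lit 0) (nat_lit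 0) (nat_lit 0) (nat_lit 0) (nat_lit 0) (nat_lit 0) (nat_lit 1) (nat_lit 0) (nat_lit 1) (nat_lit 0) (nat_lit 462) (nat_lit 398) (nat_lit 220)) (XT.lf (nat_lit 0) (nat_lit 2995407845535) (nat_lit 0) (nat_lit 0) (nat_lit 0) (nat_lit 0) (nat_lit 0) (nat_lit 0) (nat_lit 1) (nat_lit 0) (nat_lit 1) (nat_lit 0) (nat_lit 463) (nat_lit 398) (nat_lit 219))) (XT.nd (nat_lit 94) (nat_lit 0) (nat_lit 0) (XT.lf (nat_lit 0) (nat_lit 3233440570978) (nat_lit 0) (nat_lit 0) (nat_lit 0) (nat_lit 0) (nat_lit 0) (nat_lit 0) (nat_lit 1) (nat_lit 0) (nat_lit 1) (nat_lit 0) (nat_lit 464) (nat_lit 398) (nat_lit 218)) (XT.lf (nat_lit 0) (nat_lit 3490515914694) (nat_lit 0) (nat_lit 0) (nat_lit 0) (nat_lit 0) (nat_lit 0) (nat_lit 0) (nat_lit 1) (nat_lit 0) (nat_lit 1) (nat_lit 0) (nat_lit 465) (nat_lit 398) (nat_lit 217))))) (XT.nd (nat_lit 282) (nat_lit 0) (nat_lit 0) (XT.nd (nat_lit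 94) (nat_lit 0) (nat_lit 0) (XT.lf (nat_lit 0) (nat_lit 3768157286127) (nat_lit 0) (nat_lit 0) (nat_lit 0) (nat_lit 0) (nat_lit 0) (nat_lit 0) (nat_lit 1) (nat_lit 0) (nat_lit 1) (nat_lit 0) (nat_lit 466) (nat_lit 398) (nat_lit 216)) (XT.nd (nat_lit 94) (nat_lit 0) (nat_lit 0) (XT.lf (nat_lit 0) (nat_lit 4068009967478) (nat_lit 0) (nat_lit 0) (nat_lit 0) (nat_lit 0) (nat_lit 0) (nat_lit 0) (nat_lit 1) (nat_lit 0) (nat_lit 1) (nat_lit 0) (nat_lit 467) (nat_lit 398) (nat_lit 215)) (XT.lf (nat_lit 0) (nat_lit 4391850863526) (nat_lit 0) (nat_lit 0) (nat_lit 0) (nat_lit 0) (nat_lit 0) (nat_lit 0) (nat_lit 1) (nat_lit 0) (nat_lit 1) (nat_lit 0) (nat_lit 468) (nat_lit 398) (nat_lit 214)))) (XT.nd (nat_lit 188) (nat_lit 0) (nat_lit 0) (XT.nd (nat_lit 94) (nat_lit 0) (nat_lit 0) (XT.lf (nat_lit 0) (nat_lit 4741599031433) (nat_lit 0) (nat_lit 0) (nat_lit 0) (nat_lit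 0) (nat_lit 0) (nat_lit 0) (nat_lit 1) (nat_lit 0) (nat_lit 1) (nat_lit 0) (nat_lit 469) (nat_lit 398) (nat_lit 213)) (XT.lf (nat_lit 0) (nat_lit 5119327052933) (nat_lit 0) (nat_lit 0) (nat_lit 0) (nat_lit 0) (nat_lit 0) (nat_lit 0) (nat_lit 1) (nat_lit 0) (nat_lit 1) (nat_lit 0) (nat_lit 470) (nat_lit 398) (nat_lit 212))) (XT.nd (nat_lit 94) (nat_lit 0) (nat_lit 0) (XT.lf (nat_lit 0) (nat_lit 5527273316303) (nat_lit 0) (nat_lit 0) (nat_lit 0) (nat_lit 0) (nat_lit 0) (nat_lit 0) (nat_lit 1) (nat_lit 0) (nat_lit 1) (nat_lit 0) (nat_lit 471) (nat_lit 398) (nat_lit 211)) (XT.lf (nat_lit 0) (nat_lit 5967855280881) (nat_lit 0) (nat_lit 0) (nat_lit 0) (nat_lit 0) (nat_lit 0) (nat_lit 0) (nat_lit 1) (nat_lit 0) (nat_lit 1) (nat_lit 0) (nat_lit 472) (nat_lit 398) (nat_lit 210)))))) (XT.nd (nat_lit 658) (nat_lit 0) (nat_lit 0) (XT.nd (nat_lit 282) (nat_lit 0) (nat_lit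 0) (XT.nd (nat_lit 94) (nat_lit 0) (nat_lit 0) (XT.lf (nat_lit 0) (nat_lit 6443683802754) (nat_lit 0) (nat_lit 0) (nat_lit 0) (nat_lit 0) (nat_lit 0) (nat_lit 0) (nat_lit 1) (nat_lit 0) (nat_lit 1) (nat_lit 0) (nat_lit 473) (nat_lit 398) (nat_lit 209)) (XT.nd (nat_lit 94) (nat_lit 0) (nat_lit 0) (XT.lf (nat_lit 0) (nat_lit 6957578606495) (nat_lit 0) (nat_lit 0) (nat_lit 0) (nat_lit 0) (nat_lit 0) (nat_lit 0) (nat_lit 1) (nat_lit 0) (nat_lit 1) (nat_lit 0) (nat_lit 474) (nat_lit 398) (nat_lit 208)) (XT.lf (nat_lit 0) (nat_lit 7512584994646) (nat_lit 0) (nat_lit 0) (nat_lit 0) (nat_lit 0) (nat_lit 0) (nat_lit 0) (nat_lit 1) (nat_lit 0) (nat_lit 1) (nat_lit 0) (nat_lit 475) (nat_lit 398) (nat_lit 207)))) (XT.nd (nat_lit 188) (nat_lit 0) (nat_lit 0) (XT.nd (nat_lit 94) (nat_lit 0) (nat_lit 0) (XT.lf (nat_lit 0) (nat_lit 8111991893951) (nat_lit 0) (nat_lit 0) (nat_lit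 0) (nat_lit 0) (nat_lit 0) (nat_lit 0) (nat_lit 1) (nat_lit 0) (nat_lit 1) (nat_lit 0) (nat_lit 476) (nat_lit 398) (nat_lit 206)) (XT.lf (nat_lit 0) (nat_lit 8759351345294) (nat_lit 0) (nat_lit 0) (nat_lit 0) (nat_lit 0) (nat_lit 0) (nat_lit 0) (nat_lit 1) (nat_lit 0) (nat_lit 1) (nat_lit 0) (nat_lit 477) (nat_lit 398) (nat_lit 205))) (XT.nd (nat_lit 94) (nat_lit 0) (nat_lit 0) (XT.lf (nat_lit 0) (nat_lit 9458499552832) (nat_lit 0) (nat_lit 0) (nat_lit 0) (nat_lit 0) (nat_lit 0) (nat_lit 0) (nat_lit 1) (nat_lit 0) (nat_lit 1) (nat_lit 0) (nat_lit 478) (nat_lit 398) (nat_lit 204)) (XT.lf (nat_lit 0) (nat_lit 10213579617053) (nat_lit 0) (nat_lit 0) (nat_lit 0) (nat_lit 0) (nat_lit 0) (nat_lit 0) (nat_lit 1) (nat_lit 0) (nat_lit 1) (nat_lit 0) (nat_lit 479) (nat_lit 398) (nat_lit 203))))) (XT.nd (nat_lit 376) (nat_lit 0) (nat_lit 0) (XT.nd (nat_lit 188) (nat_lit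 0) (nat_lit 0) (XT.nd (nat_lit 94) (nat_lit 0) (nat_lit 0) (XT.lf (nat_lit 0) (nat_lit 11029066086488) (nat_lit 0) (nat_lit 0) (nat_lit 0) (nat_lit 0) (nat_lit 0) (nat_lit 0) (nat_lit 1) (nat_lit 0) (nat_lit 1) (nat_lit 0) (nat_lit 480) (nat_lit 398) (nat_lit 202)) (XT.lf (nat_lit 0) (nat_lit 11909791473546) (nat_lit 0) (nat_lit 0) (nat_lit 0) (nat_lit 0) (nat_lit 0) (nat_lit 0) (nat_lit 1) (nat_lit 0) (nat_lit 1) (nat_lit 0) (nat_lit 481) (nat_lit 398) (nat_lit 201))) (XT.nd (nat_lit 94) (nat_lit 0) (nat_lit 0) (XT.lf (nat_lit 0) (nat_lit 12860974891633) (nat_lit 0) (nat_lit 0) (nat_lit 0) (nat_lit 0) (nat_lit 0) (nat_lit 0) (nat_lit 1) (nat_lit 0) (nat_lit 1) (nat_lit 0) (nat_lit 482) (nat_lit 398) (nat_lit 200)) (XT.lf (nat_lit 0) (nat_lit 13888252983227) (nat_lit 0) (nat_lit 0) (nat_lit 0) (nat_lit 0) (nat_lit 0) (nat_lit 0) (nat_lit 1) (nat_lit 0) (nat_lit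 1) (nat_lit 0) (nat_lit 483) (nat_lit 398) (nat_lit 199)))) (XT.nd (nat_lit 188) (nat_lit 0) (nat_lit 0) (XT.nd (nat_lit 94) (nat_lit 0) (nat_lit 0) (XT.lf (nat_lit 0) (nat_lit 14997713322203) (nat_lit 0) (nat_lit 0) (nat_lit 0) (nat_lit 0) (nat_lit 0) (nat_lit 0) (nat_lit 1) (nat_lit 0) (nat_lit 1) (nat_lit 0) (nat_lit 484) (nat_lit 398) (nat_lit 198)) (XT.lf (nat_lit 0) (nat_lit 16195930488348) (nat_lit 0) (nat_lit 0) (nat_lit 0) (nat_lit 0) (nat_lit 0) (nat_lit 0) (nat_lit 1) (nat_lit 0) (nat_lit 1) (nat_lit 0) (nat_lit 485) (nat_lit 398) (nat_lit 197))) (XT.nd (nat_lit 94) (nat_lit 0) (nat_lit 0) (XT.lf (nat_lit 0) (nat_lit 17490005027832) (nat_lit 0) (nat_lit 0) (nat_lit 0) (nat_lit 0) (nat_lit 0) (nat_lit 0) (nat_lit 1) (nat_lit 0) (nat_lit 1) (nat_lit 0) (nat_lit 486) (nat_lit 398) (nat_lit 196)) (XT.lf (nat_lit 0) (nat_lit 18887605530519) (nat_lit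 0) (nat_lit 0) (nat_lit 0) (nat_lit 0) (nat_lit 0) (nat_lit 0) (nat_lit 1) (nat_lit 0) (nat_lit 1) (nat_lit 0) (nat_lit 487) (nat_lit 398) (nat_lit 195))))))))
noncomputable def xc172 : XT := (XT.nd (nat_lit 60442) (nat_lit 0) (nat_lit 2352) (XT.nd (nat_lit 1316) (nat_lit 0) (nat_lit 0) (XT.nd (nat_lit 658) (nat_lit 0) (nat_lit 0) (XT.nd (nat_lit 282) (nat_lit 0) (nat_lit 0) (XT.nd (nat_lit 94) (nat_lit 0) (nat_lit 0) (XT.lf (nat_lit 0) (nat_lit 20397014073461) (nat_lit 0) (nat_lit 0) (nat_lit 0) (nat_lit 0) (nat_lit 0) (nat_lit 0) (nat_lit 1) (nat_lit 0) (nat_lit 1) (nat_lit 0) (nat_lit 488) (nat_lit 398) (nat_lit 194)) (XT.nd (nat_lit 94) (nat_lit 0) (nat_lit 0) (XT.lf (nat_lit 0) (nat_lit 22027175299875) (nat_lit 0) (nat_lit 0) (nat_lit 0) (nat_lit 0) (nat_lit 0) (nat_lit 0) (nat_lit 1) (nat_lit 0) (nat_lit 1) (nat_lit 0) (nat_lit 489) (nat_lit 398) (nat_lit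 193)) (XT.lf (nat_lit 0) (nat_lit 23787749424437) (nat_lit 0) (nat_lit 0) (nat_lit 0) (nat_lit 0) (nat_lit 0) (nat_lit 0) (nat_lit 1) (nat_lit 0) (nat_lit 1) (nat_lit 0) (nat_lit 490) (nat_lit 398) (nat_lit 192)))) (XT.nd (nat_lit 188) (nat_lit 0) (nat_lit 0) (XT.nd (nat_lit 94) (nat_lit 0) (nat_lit 0) (XT.lf (nat_lit 0) (nat_lit 25689169478997) (nat_lit 0) (nat_lit 0) (nat_lit 0) (nat_lit 0) (nat_lit 0) (nat_lit 0) (nat_lit 1) (nat_lit 0) (nat_lit 1) (nat_lit 0) (nat_lit 491) (nat_lit 398) (nat_lit 191)) (XT.lf (nat_lit 0) (nat_lit 27742703137951) (nat_lit 0) (nat_lit 0) (nat_lit 0) (nat_lit 0) (nat_lit 0) (nat_lit 0) (nat_lit 1) (nat_lit 0) (nat_lit 1) (nat_lit 0) (nat_lit 492) (nat_lit 398) (nat_lit 190))) (XT.nd (nat_lit 94) (nat_lit 0) (nat_lit 0) (XT.lf (nat_lit 0) (nat_lit 29960519489648) (nat_lit 0) (nat_lit 0) (nat_lit 0) (nat_lit 0) (nat_lit 0) (nat_lit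 0) (nat_lit 1) (nat_lit 0) (nat_lit 1) (nat_lit 0) (nat_lit 493) (nat_lit 398) (nat_lit 189)) (XT.lf (nat_lit 0) (nat_lit 32355761149508) (nat_lit 0) (nat_lit 0) (nat_lit 0) (nat_lit 0) (nat_lit 0) (nat_lit 0) (nat_lit 1) (nat_lit 0) (nat_lit 1) (nat_lit 0) (nat_lit 494) (nat_lit 398) (nat_lit 188))))) (XT.nd (nat_lit 282) (nat_lit 0) (nat_lit 0) (XT.nd (nat_lit 94) (nat_lit 0) (nat_lit 0) (XT.lf (nat_lit 0) (nat_lit 34942622142179) (nat_lit 0) (nat_lit 0) (nat_lit 0) (nat_lit 0) (nat_lit 0) (nat_lit 0) (nat_lit 1) (nat_lit 0) (nat_lit 1) (nat_lit 0) (nat_lit 495) (nat_lit 398) (nat_lit 187)) (XT.nd (nat_lit 94) (nat_lit 0) (nat_lit 0) (XT.lf (nat_lit 0) (nat_lit 37736432014286) (nat_lit 0) (nat_lit 0) (nat_lit 0) (nat_lit 0) (nat_lit 0) (nat_lit 0) (nat_lit 1) (nat_lit 0) (nat_lit 1) (nat_lit 0) (nat_lit 496) (nat_lit 398) (nat_lit 186)) (XT.lf (nat_lit 0)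 (nat_lit 40753746676182) (nat_lit 0) (nat_lit 0) (nat_lit 0) (nat_lit 0) (nat_lit 0) (nat_lit 0) (nat_lit 1) (nat_lit 0) (nat_lit 1) (nat_lit 0) (nat_lit 497) (nat_lit 398) (nat_lit 185)))) (XT.nd (nat_lit 188) (nat_lit 0) (nat_lit 0) (XT.nd (nat_lit 94) (nat_lit 0) (nat_lit 0) (XT.lf (nat_lit 0) (nat_lit 44012446511048) (nat_lit 0) (nat_lit 0) (nat_lit 0) (nat_lit 0) (nat_lit 0) (nat_lit 0) (nat_lit 1) (nat_lit 0) (nat_lit 1) (nat_lit 0) (nat_lit 498) (nat_lit 398) (nat_lit 184)) (XT.lf (nat_lit 0) (nat_lit 47531842332720) (nat_lit 0) (nat_lit 0) (nat_lit 0) (nat_lit 0) (nat_lit 0) (nat_lit 0) (nat_lit 1) (nat_lit 0) (nat_lit 1) (nat_lit 0) (nat_lit 499) (nat_lit 398) (nat_lit 183))) (XT.nd (nat_lit 94) (nat_lit 0) (nat_lit 0) (XT.lf (nat_lit 0) (nat_lit 51332789820143) (nat_lit 0) (nat_lit 0) (nat_lit 0) (nat_lit 0) (nat_lit 0) (nat_lit 0) (nat_lit 1) (nat_lit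 0) (nat_lit 1) (nat_lit 0) (nat_lit 500) (nat_lit 398) (nat_lit 182)) (XT.lf (nat_lit 0) (nat_lit 55437813106574) (nat_lit 0) (nat_lit 0) (nat_lit 0) (nat_lit 0) (nat_lit 0) (nat_lit 0) (nat_lit 1) (nat_lit 0) (nat_lit 1) (nat_lit 0) (nat_lit 501) (nat_lit 398) (nat_lit 181)))))) (XT.nd (nat_lit 58468) (nat_lit 0) (nat_lit 8904) (XT.nd (nat_lit 58092) (nat_lit 0) (nat_lit 10752) (XT.nd (nat_lit 94) (nat_lit 0) (nat_lit 0) (XT.lf (nat_lit 0) (nat_lit 59871238255934) (nat_lit 0) (nat_lit 0) (nat_lit 0) (nat_lit 0) (nat_lit 0) (nat_lit 0) (nat_lit 1) (nat_lit 0) (nat_lit 1) (nat_lit 0) (nat_lit 502) (nat_lit 398) (nat_lit 180)) (XT.nd (nat_lit 94) (nat_lit 0) (nat_lit 0) (XT.lf (nat_lit 0) (nat_lit 64659337417255) (nat_lit 0) (nat_lit 0) (nat_lit 0) (nat_lit 0) (nat_lit 0) (nat_lit 0) (nat_lit 1) (nat_lit 0) (nat_lit 1) (nat_lit 0) (nat_lit 503) (nat_lit 398)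 (nat_lit 179)) (XT.lf (nat_lit 0) (nat_lit 69830484511493) (nat_lit 0) (nat_lit 0) (nat_lit 0) (nat_lit 0) (nat_lit 0) (nat_lit 0) (nat_lit 1) (nat_lit 0) (nat_lit 1) (nat_lit 0) (nat_lit 504) (nat_lit 398) (nat_lit 178)))) (XT.nd (nat_lit 188) (nat_lit 0) (nat_lit 84) (XT.nd (nat_lit 94) (nat_lit 0) (nat_lit 84) (XT.lf (nat_lit 0) (nat_lit 19124314259) (nat_lit 924) (nat_lit 10843745438) (nat_lit 924) (nat_lit 10843745438) (nat_lit 128) (nat_lit 3) (nat_lit 139) (nat_lit 3) (nat_lit 139) (nat_lit 5) (nat_lit 399) (nat_lit 399) (nat_lit 282)) (XT.lf (nat_lit 0) (nat_lit 40568314293) (nat_lit 840) (nat_lit 39870522900) (nat_lit 924) (nat_lit 4410230458) (nat_lit 129) (nat_lit 5) (nat_lit 139) (nat_lit 5) (nat_lit 140) (nat_lit 5) (nat_lit 400) (nat_lit 399) (nat_lit 281))) (XT.nd (nat_lit 94) (nat_lit 0) (nat_lit 84) (XT.lf (nat_lit 84) (nat_lit 29360629342)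 (nat_lit 0) (nat_lit 15564432395) (nat_lit 924) (nat_lit 43314925544) (nat_lit 130) (nat_lit 5) (nat_lit 129) (nat_lit 5) (nat_lit 140) (nat_lit 5) (nat_lit 401) (nat_lit 399) (nat_lit 280)) (XT.lf (nat_lit 84) (nat_lit 13247345736) (nat_lit 0) (nat_lit 38145217482) (nat_lit 924) (nat_lit 40421506551) (nat_lit 131) (nat_lit 5) (nat_lit 130) (nat_lit 5) (nat_lit 141) (nat_lit 5) (nat_lit 402) (nat_lit 399) (nat_lit 279))))) (XT.nd (nat_lit 282) (nat_lit 2100) (nat_lit 0) (XT.nd (nat_lit 94) (nat_lit 0) (nat_lit 84) (XT.lf (nat_lit 0) (nat_lit 60180128930) (nat_lit 840) (nat_lit 3155373696) (nat_lit 924) (nat_lit 32248443024) (nat_lit 131) (nat_lit 5) (nat_lit 141) (nat_lit 5) (nat_lit 142) (nat_lit 5) (nat_lit 403) (nat_lit 399) (nat_lit 278)) (XT.nd (nat_lit 94) (nat_lit 0) (nat_lit 0) (XT.lf (nat_lit 0) (nat_lit 71700017502) (nat_lit 840) (nat_lit 19483638131)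 (nat_lit 924) (nat_lit 8370290088) (nat_lit 132) (nat_lit 5) (nat_lit 142) (nat_lit 5) (nat_lit 143) (nat_lit 5) (nat_lit 404) (nat_lit 399) (nat_lit 277)) (XT.lf (nat_lit 84) (nat_lit 67312559253) (nat_lit 0) (nat_lit 19002554316) (nat_lit 924) (nat_lit 17417751408) (nat_lit 133) (nat_lit 5) (nat_lit 132) (nat_lit 5) (nat_lit 143) (nat_lit 5) (nat_lit 405) (nat_lit 399) (nat_lit 276)))) (XT.nd (nat_lit 188) (nat_lit 840) (nat_lit 0) (XT.nd (nat_lit 94) (nat_lit 588) (nat_lit 0) (XT.lf (nat_lit 0) (nat_lit 54331078081) (nat_lit 840) (nat_lit 49880911964) (nat_lit 924) (nat_lit 3928479093) (nat_lit 123) (nat_lit 5) (nat_lit 133) (nat_lit 5) (nat_lit 134) (nat_lit 5) (nat_lit 406) (nat_lit 399) (nat_lit 275)) (XT.lf (nat_lit 0) (nat_lit 12376845683) (nat_lit 588) (nat_lit 71667295512) (nat_lit 84) (nat_lit 28744361724) (nat_lit 116) (nat_lit 5) (nat_lit 123)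 (nat_lit 5) (nat_lit 117) (nat_lit 5) (nat_lit 407) (nat_lit 399) (nat_lit 274))) (XT.nd (nat_lit 94) (nat_lit 420) (nat_lit 0) (XT.lf (nat_lit 0) (nat_lit 27771477961) (nat_lit 420) (nat_lit 4305733104) (nat_lit 504) (nat_lit 85616535803) (nat_lit 111) (nat_lit 5) (nat_lit 116) (nat_lit 5) (nat_lit 117) (nat_lit 5) (nat_lit 408) (nat_lit 399) (nat_lit 273)) (XT.lf (nat_lit 0) (nat_lit 13943117191) (nat_lit 420) (nat_lit 42173454945) (nat_lit 504) (nat_lit 66736689874) (nat_lit 106) (nat_lit 5) (nat_lit 111) (nat_lit 5) (nat_lit 112) (nat_lit 5) (nat_lit 409) (nat_lit 399) (nat_lit 272))))))) (XT.nd (nat_lit 1316) (nat_lit 2688) (nat_lit 0) (XT.nd (nat_lit 658) (nat_lit 1764) (nat_lit 0) (XT.nd (nat_lit 282) (nat_lit 1344) (nat_lit 0) (XT.nd (nat_lit 94) (nat_lit 420) (nat_lit 0) (XT.lf (nat_lit 0) (nat_lit 204823261) (nat_lit 336) (nat_lit 84225387568) (nat_lit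 420) (nat_lit 43877771098) (nat_lit 102) (nat_lit 5) (nat_lit 106) (nat_lit 5) (nat_lit 107) (nat_lit 5) (nat_lit 410) (nat_lit 399) (nat_lit 271)) (XT.nd (nat_lit 94) (nat_lit 420) (nat_lit 0) (XT.lf (nat_lit 0) (nat_lit 117661107285) (nat_lit 420) (nat_lit 12922859324) (nat_lit 84) (nat_lit 3482504495) (nat_lit 102) (nat_lit 5) (nat_lit 107) (nat_lit 5) (nat_lit 103) (nat_lit 5) (nat_lit 411) (nat_lit 399) (nat_lit 270)) (XT.lf (nat_lit 0) (nat_lit 16087111941) (nat_lit 420) (nat_lit 26695818237) (nat_lit 84) (nat_lit 97330012499) (nat_lit 97) (nat_lit 5) (nat_lit 102) (nat_lit 5) (nat_lit 98) (nat_lit 5) (nat_lit 412) (nat_lit 399) (nat_lit 269)))) (XT.nd (nat_lit 188) (nat_lit 672) (nat_lit 0) (XT.nd (nat_lit 94) (nat_lit 336) (nat_lit 0) (XT.lf (nat_lit 0) (nat_lit 53356090979) (nat_lit 420) (nat_lit 40550635784) (nat_lit 84) (nat_lit 52585364730) (nat_lit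 93) (nat_lit 5) (nat_lit 98) (nat_lit 5) (nat_lit 94) (nat_lit 5) (nat_lit 413) (nat_lit 399) (nat_lit 268)) (XT.lf (nat_lit 0) (nat_lit 96394220951) (nat_lit 420) (nat_lit 54058613631) (nat_lit 84) (nat_lit 2789356003) (nat_lit 89) (nat_lit 5) (nat_lit 94) (nat_lit 5) (nat_lit 90) (nat_lit 5) (nat_lit 414) (nat_lit 399) (nat_lit 267))) (XT.nd (nat_lit 94) (nat_lit 420) (nat_lit 0) (XT.lf (nat_lit 0) (nat_lit 92409407576) (nat_lit 252) (nat_lit 54209508676) (nat_lit 336) (nat_lit 13726205606) (nat_lit 86) (nat_lit 5) (nat_lit 89) (nat_lit 5) (nat_lit 90) (nat_lit 5) (nat_lit 415) (nat_lit 399) (nat_lit 266)) (XT.lf (nat_lit 0) (nat_lit 34928594699) (nat_lit 420) (nat_lit 81892529216) (nat_lit 84) (nat_lit 51012795865) (nat_lit 81) (nat_lit 5) (nat_lit 86) (nat_lit 5) (nat_lit 82) (nat_lit 5) (nat_lit 416) (nat_lit 399) (nat_lit 265))))) (XT.nd (nat_lit 282)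 (nat_lit 924) (nat_lit 0) (XT.nd (nat_lit 94) (nat_lit 588) (nat_lit 0) (XT.lf (nat_lit 0) (nat_lit 80089599361) (nat_lit 252) (nat_lit 10278415097) (nat_lit 336) (nat_lit 85373899348) (nat_lit 78) (nat_lit 5) (nat_lit 81) (nat_lit 5) (nat_lit 82) (nat_lit 5) (nat_lit 417) (nat_lit 399) (nat_lit 264)) (XT.nd (nat_lit 94) (nat_lit 336) (nat_lit 0) (XT.lf (nat_lit 0) (nat_lit 74466602787) (nat_lit 252) (nat_lit 80023990124) (nat_lit 336) (nat_lit 29579554189) (nat_lit 75) (nat_lit 5) (nat_lit 78) (nat_lit 5) (nat_lit 79) (nat_lit 5) (nat_lit 418) (nat_lit 399) (nat_lit 263)) (XT.lf (nat_lit 0) (nat_lit 33244742688) (nat_lit 336) (nat_lit 123282912898) (nat_lit 84) (nat_lit 36335619602) (nat_lit 71) (nat_lit 5) (nat_lit 75) (nat_lit 5) (nat_lit 72) (nat_lit 5) (nat_lit 419) (nat_lit 399) (nat_lit 262)))) (XT.nd (nat_lit 188) (nat_lit 504) (nat_lit 0) (XT.nd (nat_lit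 94) (nat_lit 168) (nat_lit 0) (XT.lf (nat_lit 0) (nat_lit 64947011244) (nat_lit 252) (nat_lit 39428867434) (nat_lit 336) (nat_lit 97743868367) (nat_lit 68) (nat_lit 5) (nat_lit 71) (nat_lit 5) (nat_lit 72) (nat_lit 5) (nat_lit 420) (nat_lit 399) (nat_lit 261)) (XT.lf (nat_lit 0) (nat_lit 61192011625) (nat_lit 168) (nat_lit 124502000210) (nat_lit 252) (nat_lit 26197899501) (nat_lit 66) (nat_lit 5) (nat_lit 68) (nat_lit 5) (nat_lit 69) (nat_lit 5) (nat_lit 421) (nat_lit 399) (nat_lit 260))) (XT.nd (nat_lit 94) (nat_lit 168) (nat_lit 0) (XT.lf (nat_lit 0) (nat_lit 53518209832) (nat_lit 336) (nat_lit 163918794541) (nat_lit 84) (nat_lit 4764921852) (nat_lit 62) (nat_lit 5) (nat_lit 66) (nat_lit 5) (nat_lit 63) (nat_lit 5) (nat_lit 422) (nat_lit 399) (nat_lit 259)) (XT.lf (nat_lit 0) (nat_lit 55347379976) (nat_lit 168) (nat_lit 88989786326) (nat_lit 252) (nat_lit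 88695932057) (nat_lit 60) (nat_lit 5) (nat_lit 62) (nat_lit 5) (nat_lit 63) (nat_lit 5) (nat_lit 423) (nat_lit 399) (nat_lit 258)))))) (XT.nd (nat_lit 658) (nat_lit 1344) (nat_lit 0) (XT.nd (nat_lit 282) (nat_lit 756) (nat_lit 0) (XT.nd (nat_lit 94) (nat_lit 336) (nat_lit 0) (XT.lf (nat_lit 0) (nat_lit 2365523196) (nat_lit 252) (nat_lit 190207183292) (nat_lit 84) (nat_lit 51929823283) (nat_lit 57) (nat_lit 5) (nat_lit 60) (nat_lit 5) (nat_lit 58) (nat_lit 5) (nat_lit 424) (nat_lit 399) (nat_lit 257)) (XT.nd (nat_lit 94) (nat_lit 168) (nat_lit 0) (XT.lf (nat_lit 0) (nat_lit 53097129771) (nat_lit 168) (nat_lit 50023851253) (nat_lit 252) (nat_lit 153420005110) (nat_lit 55) (nat_lit 5) (nat_lit 57) (nat_lit 5) (nat_lit 58) (nat_lit 5) (nat_lit 425) (nat_lit 399) (nat_lit 256)) (XT.lf (nat_lit 0) (nat_lit 53309790888) (nat_lit 168) (nat_lit 164449219778) (nat_lit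 252) (nat_lit 51492401583) (nat_lit 53) (nat_lit 5) (nat_lit 55) (nat_lit 5) (nat_lit 56) (nat_lit 5) (nat_lit 426) (nat_lit 399) (nat_lit 255)))) (XT.nd (nat_lit 188) (nat_lit 336) (nat_lit 0) (XT.nd (nat_lit 94) (nat_lit 168) (nat_lit 0) (XT.lf (nat_lit 0) (nat_lit 55010850298) (nat_lit 168) (nat_lit 7007265895) (nat_lit 252) (nat_lit 220649622363) (nat_lit 50) (nat_lit 5) (nat_lit 52) (nat_lit 5) (nat_lit 53) (nat_lit 5) (nat_lit 427) (nat_lit 399) (nat_lit 254)) (XT.lf (nat_lit 0) (nat_lit 56720923313) (nat_lit 168) (nat_lit 133362408399) (nat_lit 252) (nat_lit 106667937408) (nat_lit 48) (nat_lit 5) (nat_lit 50) (nat_lit 5) (nat_lit 51) (nat_lit 5) (nat_lit 428) (nat_lit 399) (nat_lit 253))) (XT.nd (nat_lit 94) (nat_lit 168) (nat_lit 0) (XT.lf (nat_lit 0) (nat_lit 21654845028) (nat_lit 168) (nat_lit 250577591166) (nat_lit 84) (nat_lit 39428793320) (nat_lit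 46) (nat_lit 5) (nat_lit 48) (nat_lit 5) (nat_lit 47) (nat_lit 5) (nat_lit 429) (nat_lit 399) (nat_lit 252)) (XT.lf (nat_lit 0) (nat_lit 65275938062) (nat_lit 168) (nat_lit 98797589694) (nat_lit 252) (nat_lit 163224666116) (nat_lit 44) (nat_lit 5) (nat_lit 46) (nat_lit 5) (nat_lit 47) (nat_lit 5) (nat_lit 430) (nat_lit 399) (nat_lit 251))))) (XT.nd (nat_lit 376) (nat_lit 672) (nat_lit 0) (XT.nd (nat_lit 188) (nat_lit 336) (nat_lit 0) (XT.nd (nat_lit 94) (nat_lit 252) (nat_lit 0) (XT.lf (nat_lit 0) (nat_lit 72235834711) (nat_lit 84) (nat_lit 252595712829) (nat_lit 168) (nat_lit 19007275717) (nat_lit 43) (nat_lit 5) (nat_lit 44) (nat_lit 5) (nat_lit 45) (nat_lit 4) (nat_lit 431) (nat_lit 399) (nat_lit 250)) (XT.lf (nat_lit 0) (nat_lit 79794393196) (nat_lit 168) (nat_lit 60126815506) (nat_lit 252) (nat_lit 221297219851) (nat_lit 40) (nat_lit 5) (nat_lit 42) (nat_lit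 5) (nat_lit 43) (nat_lit 5) (nat_lit 432) (nat_lit 399) (nat_lit 249))) (XT.nd (nat_lit 94) (nat_lit 252) (nat_lit 0) (XT.lf (nat_lit 0) (nat_lit 89406887658) (nat_lit 84) (nat_lit 230010978247) (nat_lit 168) (nat_lit 60128965815) (nat_lit 39) (nat_lit 5) (nat_lit 40) (nat_lit 5) (nat_lit 41) (nat_lit 4) (nat_lit 433) (nat_lit 399) (nat_lit 248)) (XT.lf (nat_lit 0) (nat_lit 101223651923) (nat_lit 168) (nat_lit 16639053109) (nat_lit 252) (nat_lit 281011035835) (nat_lit 36) (nat_lit 5) (nat_lit 38) (nat_lit 5) (nat_lit 39) (nat_lit 5) (nat_lit 434) (nat_lit 399) (nat_lit 247)))) (XT.nd (nat_lit 188) (nat_lit 336) (nat_lit 0) (XT.nd (nat_lit 94) (nat_lit 252) (nat_lit 0) (XT.lf (nat_lit 0) (nat_lit 113975623668) (nat_lit 84) (nat_lit 204293768295) (nat_lit 168) (nat_lit 100914009322) (nat_lit 35) (nat_lit 5) (nat_lit 36) (nat_lit 5) (nat_lit 37) (nat_lit 4) (nat_lit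 435) (nat_lit 399) (nat_lit 246)) (XT.lf (nat_lit 0) (nat_lit 98692311594) (nat_lit 252) (nat_lit 310515939097) (nat_lit 84) (nat_lit 31431672040) (nat_lit 32) (nat_lit 5) (nat_lit 35) (nat_lit 5) (nat_lit 33) (nat_lit 4) (nat_lit 436) (nat_lit 399) (nat_lit 245))) (XT.nd (nat_lit 94) (nat_lit 252) (nat_lit 0) (XT.lf (nat_lit 0) (nat_lit 147108363166) (nat_lit 84) (nat_lit 174815447404) (nat_lit 168) (nat_lit 141246828539) (nat_lit 31) (nat_lit 5) (nat_lit 32) (nat_lit 5) (nat_lit 33) (nat_lit 4) (nat_lit 437) (nat_lit 399) (nat_lit 244)) (XT.lf (nat_lit 0) (nat_lit 82610364877) (nat_lit 252) (nat_lit 319063703519) (nat_lit 84) (nat_lit 85294941235) (nat_lit 28) (nat_lit 5) (nat_lit 31) (nat_lit 5) (nat_lit 29) (nat_lit 4) (nat_lit 438) (nat_lit 399) (nat_lit 243))))))))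
noncomputable def xc173 : XT := (XT.nd (nat_lit 2632) (nat_lit 0) (nat_lit 0) (XT.nd (nat_lit 1316) (nat_lit 588) (nat_lit 0) (XT.nd (nat_lit 658) (nat_lit 924) (nat_lit 0) (XT.nd (nat_lit 282) (nat_lit 504) (nat_lit 0) (XT.nd (nat_lit 94) (nat_lit 252) (nat_lit 0) (XT.lf (nat_lit 0) (nat_lit 190146543798) (nat_lit 84) (nat_lit 140859171468) (nat_lit 168) (nat_lit 180970849325) (nat_lit 27) (nat_lit 5) (nat_lit 28) (nat_lit 5) (nat_lit 29) (nat_lit 4) (nat_lit 439) (nat_lit 399) (nat_lit 242)) (XT.nd (nat_lit 94) (nat_lit 84) (nat_lit 0) (XT.lf (nat_lit 0) (nat_lit 69785036838) (nat_lit 168) (nat_lit 322098176490) (nat_lit 84) (nat_lit 146483114480) (nat_lit 25) (nat_lit 5) (nat_lit 27) (nat_lit 5) (nat_lit 26) (nat_lit 4) (nat_lit 440) (nat_lit 399) (nat_lit 241)) (XT.lf (nat_lit 0) (nat_lit 244630337360) (nat_lit 84) (nat_lit 101607721079) (nat_lit 168)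 (nat_lit 219882026802) (nat_lit 24) (nat_lit 5) (nat_lit 25) (nat_lit 5) (nat_lit 26) (nat_lit 4) (nat_lit 441) (nat_lit 399) (nat_lit 240)))) (XT.nd (nat_lit 188) (nat_lit 252) (nat_lit 0) (XT.nd (nat_lit 94) (nat_lit 84) (nat_lit 0) (XT.lf (nat_lit 0) (nat_lit 60722036135) (nat_lit 168) (nat_lit 318527301645) (nat_lit 84) (nat_lit 216128378849) (nat_lit 22) (nat_lit 5) (nat_lit 24) (nat_lit 5) (nat_lit 23) (nat_lit 4) (nat_lit 442) (nat_lit 399) (nat_lit 239)) (XT.lf (nat_lit 0) (nat_lit 312325339360) (nat_lit 84) (nat_lit 56129764253) (nat_lit 168) (nat_lit 257721410014) (nat_lit 21) (nat_lit 5) (nat_lit 22) (nat_lit 5) (nat_lit 23) (nat_lit 4) (nat_lit 443) (nat_lit 399) (nat_lit 238))) (XT.nd (nat_lit 94) (nat_lit 84) (nat_lit 0) (XT.lf (nat_lit 0) (nat_lit 56015667950) (nat_lit 168) (nat_lit 307080032569) (nat_lit 84) (nat_lit 295512616282) (nat_lit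 19) (nat_lit 5) (nat_lit 21) (nat_lit 5) (nat_lit 20) (nat_lit 4) (nat_lit 444) (nat_lit 399) (nat_lit 237)) (XT.lf (nat_lit 0) (nat_lit 395252717263) (nat_lit 84) (nat_lit 3364350748) (nat_lit 168) (nat_lit 294166616228) (nat_lit 18) (nat_lit 5) (nat_lit 19) (nat_lit 5) (nat_lit 20) (nat_lit 4) (nat_lit 445) (nat_lit 399) (nat_lit 236))))) (XT.nd (nat_lit 282) (nat_lit 504) (nat_lit 0) (XT.nd (nat_lit 94) (nat_lit 252) (nat_lit 0) (XT.lf (nat_lit 0) (nat_lit 56361147799) (nat_lit 168) (nat_lit 286280964671) (nat_lit 84) (nat_lit 386086887356) (nat_lit 16) (nat_lit 5) (nat_lit 18) (nat_lit 5) (nat_lit 17) (nat_lit 4) (nat_lit 446) (nat_lit 399) (nat_lit 235)) (XT.nd (nat_lit 94) (nat_lit 168) (nat_lit 0) (XT.lf (nat_lit 0) (nat_lit 438730594705) (nat_lit 168) (nat_lit 271829412465) (nat_lit 0) (nat_lit 56043531960) (nat_lit 15) (nat_lit 5) (nat_lit 17) (nat_lit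 4) (nat_lit 15) (nat_lit 4) (nat_lit 447) (nat_lit 399) (nat_lit 234)) (XT.lf (nat_lit 0) (nat_lit 62568575907) (nat_lit 168) (nat_lit 254421568748) (nat_lit 84) (nat_lit 489493351736) (nat_lit 13) (nat_lit 5) (nat_lit 15) (nat_lit 5) (nat_lit 14) (nat_lit 4) (nat_lit 448) (nat_lit 399) (nat_lit 233)))) (XT.nd (nat_lit 188) (nat_lit 252) (nat_lit 0) (XT.nd (nat_lit 94) (nat_lit 168) (nat_lit 0) (XT.lf (nat_lit 0) (nat_lit 489362284148) (nat_lit 168) (nat_lit 234194364918) (nat_lit 0) (nat_lit 124898255997) (nat_lit 12) (nat_lit 5) (nat_lit 14) (nat_lit 4) (nat_lit 12) (nat_lit 4) (nat_lit 449) (nat_lit 399) (nat_lit 232)) (XT.lf (nat_lit 0) (nat_lit 75578784638) (nat_lit 168) (nat_lit 209527590363) (nat_lit 84) (nat_lit 607589924701) (nat_lit 10) (nat_lit 5) (nat_lit 12) (nat_lit 5) (nat_lit 11) (nat_lit 4) (nat_lit 450) (nat_lit 399) (nat_lit 231))) (XT.nd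 (nat_lit 94) (nat_lit 168) (nat_lit 0) (XT.lf (nat_lit 0) (nat_lit 551930194245) (nat_lit 168) (nat_lit 182456649774) (nat_lit 0) (nat_lit 204821466287) (nat_lit 9) (nat_lit 5) (nat_lit 11) (nat_lit 4) (nat_lit 9) (nat_lit 4) (nat_lit 451) (nat_lit 399) (nat_lit 230)) (XT.lf (nat_lit 0) (nat_lit 96481298009) (nat_lit 168) (nat_lit 149322124784) (nat_lit 84) (nat_lit 742478005250) (nat_lit 7) (nat_lit 5) (nat_lit 9) (nat_lit 5) (nat_lit 8) (nat_lit 4) (nat_lit 452) (nat_lit 399) (nat_lit 229)))))) (XT.nd (nat_lit 658) (nat_lit 0) (nat_lit 0) (XT.nd (nat_lit 282) (nat_lit 252) (nat_lit 0) (XT.nd (nat_lit 94) (nat_lit 252) (nat_lit 0) (XT.lf (nat_lit 0) (nat_lit 628114317146) (nat_lit 168) (nat_lit 114177107126) (nat_lit 0) (nat_lit 297534470316) (nat_lit 6) (nat_lit 5) (nat_lit 8) (nat_lit 4) (nat_lit 6) (nat_lit 4) (nat_lit 453) (nat_lit 399) (nat_lit 228))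 (XT.nd (nat_lit 94) (nat_lit 84) (nat_lit 0) (XT.lf (nat_lit 0) (nat_lit 126534672130) (nat_lit 168) (nat_lit 71183816113) (nat_lit 84) (nat_lit 896533651815) (nat_lit 4) (nat_lit 5) (nat_lit 6) (nat_lit 5) (nat_lit 5) (nat_lit 4) (nat_lit 454) (nat_lit 399) (nat_lit 227)) (XT.lf (nat_lit 0) (nat_lit 719831327319) (nat_lit 168) (nat_lit 26549644175) (nat_lit 0) (nat_lit 404993291474) (nat_lit 3) (nat_lit 5) (nat_lit 5) (nat_lit 4) (nat_lit 3) (nat_lit 4) (nat_lit 455) (nat_lit 399) (nat_lit 226)))) (XT.nd (nat_lit 188) (nat_lit 0) (nat_lit 0) (XT.nd (nat_lit 94) (nat_lit 0) (nat_lit 0) (XT.lf (nat_lit 0) (nat_lit 1757721293853) (nat_lit 0) (nat_lit 0) (nat_lit 0) (nat_lit 0) (nat_lit 0) (nat_lit 0) (nat_lit 1) (nat_lit 0) (nat_lit 1) (nat_lit 0) (nat_lit 456) (nat_lit 399) (nat_lit 225)) (XT.lf (nat_lit 0) (nat_lit 1896611101361) (nat_lit 0) (nat_lit 0) (nat_lit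 0) (nat_lit 0) (nat_lit 0) (nat_lit 0) (nat_lit 1) (nat_lit 0) (nat_lit 1) (nat_lit 0) (nat_lit 457) (nat_lit 399) (nat_lit 224))) (XT.nd (nat_lit 94) (nat_lit 0) (nat_lit 0) (XT.lf (nat_lit 0) (nat_lit 2046612093846) (nat_lit 0) (nat_lit 0) (nat_lit 0) (nat_lit 0) (nat_lit 0) (nat_lit 0) (nat_lit 1) (nat_lit 0) (nat_lit 1) (nat_lit 0) (nat_lit 458) (nat_lit 399) (nat_lit 223)) (XT.lf (nat_lit 0) (nat_lit 2208613166079) (nat_lit 0) (nat_lit 0) (nat_lit 0) (nat_lit 0) (nat_lit 0) (nat_lit 0) (nat_lit 1) (nat_lit 0) (nat_lit 1) (nat_lit 0) (nat_lit 459) (nat_lit 399) (nat_lit 222))))) (XT.nd (nat_lit 282) (nat_lit 0) (nat_lit 0) (XT.nd (nat_lit 94) (nat_lit 0) (nat_lit 0) (XT.lf (nat_lit 0) (nat_lit 2383574324414) (nat_lit 0) (nat_lit 0) (nat_lit 0) (nat_lit 0) (nat_lit 0) (nat_lit 0) (nat_lit 1) (nat_lit 0) (nat_lit 1) (nat_lit 0) (nat_lit 460) (nat_lit 399)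 (nat_lit 221)) (XT.nd (nat_lit 94) (nat_lit 0) (nat_lit 0) (XT.lf (nat_lit 0) (nat_lit 2572532375714) (nat_lit 0) (nat_lit 0) (nat_lit 0) (nat_lit 0) (nat_lit 0) (nat_lit 0) (nat_lit 1) (nat_lit 0) (nat_lit 1) (nat_lit 0) (nat_lit 461) (nat_lit 399) (nat_lit 220)) (XT.lf (nat_lit 0) (nat_lit 2776607071396) (nat_lit 0) (nat_lit 0) (nat_lit 0) (nat_lit 0) (nat_lit 0) (nat_lit 0) (nat_lit 1) (nat_lit 0) (nat_lit 1) (nat_lit 0) (nat_lit 462) (nat_lit 399) (nat_lit 219)))) (XT.nd (nat_lit 188) (nat_lit 0) (nat_lit 0) (XT.nd (nat_lit 94) (nat_lit 0) (nat_lit 0) (XT.lf (nat_lit 0) (nat_lit 2997007742988) (nat_lit 0) (nat_lit 0) (nat_lit 0) (nat_lit 0) (nat_lit 0) (nat_lit 0) (nat_lit 1) (nat_lit 0) (nat_lit 1) (nat_lit 0) (nat_lit 463) (nat_lit 399) (nat_lit 218)) (XT.lf (nat_lit 0) (nat_lit 3235040468545) (nat_lit 0) (nat_lit 0) (nat_lit 0) (nat_lit 0) (nat_lit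 0) (nat_lit 0) (nat_lit 1) (nat_lit 0) (nat_lit 1) (nat_lit 0) (nat_lit 464) (nat_lit 399) (nat_lit 217))) (XT.nd (nat_lit 94) (nat_lit 0) (nat_lit 0) (XT.lf (nat_lit 0) (nat_lit 3492115812367) (nat_lit 0) (nat_lit 0) (nat_lit 0) (nat_lit 0) (nat_lit 0) (nat_lit 0) (nat_lit 1) (nat_lit 0) (nat_lit 1) (nat_lit 0) (nat_lit 465) (nat_lit 399) (nat_lit 216)) (XT.lf (nat_lit 0) (nat_lit 3769757183898) (nat_lit 0) (nat_lit 0) (nat_lit 0) (nat_lit 0) (nat_lit 0) (nat_lit 0) (nat_lit 1) (nat_lit 0) (nat_lit 1) (nat_lit 0) (nat_lit 466) (nat_lit 399) (nat_lit 215))))))) (XT.nd (nat_lit 1316) (nat_lit 0) (nat_lit 0) (XT.nd (nat_lit 658) (nat_lit 0) (nat_lit 0) (XT.nd (nat_lit 282) (nat_lit 0) (nat_lit 0) (XT.nd (nat_lit 94) (nat_lit 0) (nat_lit 0) (XT.lf (nat_lit 0) (nat_lit 4069609865340) (nat_lit 0) (nat_lit 0) (nat_lit 0) (nat_lit 0) (nat_lit 0) (nat_lit 0) (nat_lit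 1) (nat_lit 0) (nat_lit 1) (nat_lit 0) (nat_lit 467) (nat_lit 399) (nat_lit 214)) (XT.nd (nat_lit 94) (nat_lit 0) (nat_lit 0) (XT.lf (nat_lit 0) (nat_lit 4393450761472) (nat_lit 0) (nat_lit 0) (nat_lit 0) (nat_lit 0) (nat_lit 0) (nat_lit 0) (nat_lit 1) (nat_lit 0) (nat_lit 1) (nat_lit 0) (nat_lit 468) (nat_lit 399) (nat_lit 213)) (XT.lf (nat_lit 0) (nat_lit 4743198929456) (nat_lit 0) (nat_lit 0) (nat_lit 0) (nat_lit 0) (nat_lit 0) (nat_lit 0) (nat_lit 1) (nat_lit 0) (nat_lit 1) (nat_lit 0) (nat_lit 469) (nat_lit 399) (nat_lit 212)))) (XT.nd (nat_lit 188) (nat_lit 0) (nat_lit 0) (XT.nd (nat_lit 94) (nat_lit 0) (nat_lit 0) (XT.lf (nat_lit 0) (nat_lit 5120926951028) (nat_lit 0) (nat_lit 0) (nat_lit 0) (nat_lit 0) (nat_lit 0) (nat_lit 0) (nat_lit 1) (nat_lit 0) (nat_lit 1) (nat_lit 0) (nat_lit 470) (nat_lit 399) (nat_lit 211)) (XT.lf (nat_lit 0) (nat_lit 5528873214465)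 (nat_lit 0) (nat_lit 0) (nat_lit 0) (nat_lit 0) (nat_lit 0) (nat_lit 0) (nat_lit 1) (nat_lit 0) (nat_lit 1) (nat_lit 0) (nat_lit 471) (nat_lit 399) (nat_lit 210))) (XT.nd (nat_lit 94) (nat_lit 0) (nat_lit 0) (XT.lf (nat_lit 0) (nat_lit 5969455179105) (nat_lit 0) (nat_lit 0) (nat_lit 0) (nat_lit 0) (nat_lit 0) (nat_lit 0) (nat_lit 1) (nat_lit 0) (nat_lit 1) (nat_lit 0) (nat_lit 472) (nat_lit 399) (nat_lit 209)) (XT.lf (nat_lit 0) (nat_lit 6445283701035) (nat_lit 0) (nat_lit 0) (nat_lit 0) (nat_lit 0) (nat_lit 0) (nat_lit 0) (nat_lit 1) (nat_lit 0) (nat_lit 1) (nat_lit 0) (nat_lit 473) (nat_lit 399) (nat_lit 208))))) (XT.nd (nat_lit 282) (nat_lit 0) (nat_lit 0) (XT.nd (nat_lit 94) (nat_lit 0) (nat_lit 0) (XT.lf (nat_lit 0) (nat_lit 6959178504829) (nat_lit 0) (nat_lit 0) (nat_lit 0) (nat_lit 0) (nat_lit 0) (nat_lit 0) (nat_lit 1) (nat_lit 0) (nat_lit 1) (nat_lit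 0) (nat_lit 474) (nat_lit 399) (nat_lit 207)) (XT.nd (nat_lit 94) (nat_lit 0) (nat_lit 0) (XT.lf (nat_lit 0) (nat_lit 7514184893028) (nat_lit 0) (nat_lit 0) (nat_lit 0) (nat_lit 0) (nat_lit 0) (nat_lit 0) (nat_lit 1) (nat_lit 0) (nat_lit 1) (nat_lit 0) (nat_lit 475) (nat_lit 399) (nat_lit 206)) (XT.lf (nat_lit 0) (nat_lit 8113591792378) (nat_lit 0) (nat_lit 0) (nat_lit 0) (nat_lit 0) (nat_lit 0) (nat_lit 0) (nat_lit 1) (nat_lit 0) (nat_lit 1) (nat_lit 0) (nat_lit 476) (nat_lit 399) (nat_lit 205)))) (XT.nd (nat_lit 188) (nat_lit 0) (nat_lit 0) (XT.nd (nat_lit 94) (nat_lit 0) (nat_lit 0) (XT.lf (nat_lit 0) (nat_lit 8760951243763) (nat_lit 0) (nat_lit 0) (nat_lit 0) (nat_lit 0) (nat_lit 0) (nat_lit 0) (nat_lit 1) (nat_lit 0) (nat_lit 1) (nat_lit 0) (nat_lit 477) (nat_lit 399) (nat_lit 204)) (XT.lf (nat_lit 0) (nat_lit 9460099451340) (nat_lit 0) (nat_lit 0) (nat_lit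 0) (nat_lit 0) (nat_lit 0) (nat_lit 0) (nat_lit 1) (nat_lit 0) (nat_lit 1) (nat_lit 0) (nat_lit 478) (nat_lit 399) (nat_lit 203))) (XT.nd (nat_lit 94) (nat_lit 0) (nat_lit 0) (XT.lf (nat_lit 0) (nat_lit 10215179515598) (nat_lit 0) (nat_lit 0) (nat_lit 0) (nat_lit 0) (nat_lit 0) (nat_lit 0) (nat_lit 1) (nat_lit 0) (nat_lit 1) (nat_lit 0) (nat_lit 479) (nat_lit 399) (nat_lit 202)) (XT.lf (nat_lit 0) (nat_lit 11030665985066) (nat_lit 0) (nat_lit 0) (nat_lit 0) (nat_lit 0) (nat_lit 0) (nat_lit 0) (nat_lit 1) (nat_lit 0) (nat_lit 1) (nat_lit 0) (nat_lit 480) (nat_lit 399) (nat_lit 201)))))) (XT.nd (nat_lit 658) (nat_lit 0) (nat_lit 0) (XT.nd (nat_lit 282) (nat_lit 0) (nat_lit 0) (XT.nd (nat_lit 94) (nat_lit 0) (nat_lit 0) (XT.lf (nat_lit 0) (nat_lit 11911391372155) (nat_lit 0) (nat_lit 0) (nat_lit 0) (nat_lit 0) (nat_lit 0) (nat_lit 0) (nat_lit 1) (nat_lit 0) (nat_lit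 1) (nat_lit 0) (nat_lit 481) (nat_lit 399) (nat_lit 200)) (XT.nd (nat_lit 94) (nat_lit 0) (nat_lit 0) (XT.lf (nat_lit 0) (nat_lit 12862574790271) (nat_lit 0) (nat_lit 0) (nat_lit 0) (nat_lit 0) (nat_lit 0) (nat_lit 0) (nat_lit 1) (nat_lit 0) (nat_lit 1) (nat_lit 0) (nat_lit 482) (nat_lit 399) (nat_lit 199)) (XT.lf (nat_lit 0) (nat_lit 13889852881891) (nat_lit 0) (nat_lit 0) (nat_lit 0) (nat_lit 0) (nat_lit 0) (nat_lit 0) (nat_lit 1) (nat_lit 0) (nat_lit 1) (nat_lit 0) (nat_lit 483) (nat_lit 399) (nat_lit 198)))) (XT.nd (nat_lit 188) (nat_lit 0) (nat_lit 0) (XT.nd (nat_lit 94) (nat_lit 0) (nat_lit 0) (XT.lf (nat_lit 0) (nat_lit 14999313220891) (nat_lit 0) (nat_lit 0) (nat_lit 0) (nat_lit 0) (nat_lit 0) (nat_lit 0) (nat_lit 1) (nat_lit 0) (nat_lit 1) (nat_lit 0) (nat_lit 484) (nat_lit 399) (nat_lit 197)) (XT.lf (nat_lit 0) (nat_lit 16197530387059) (nat_lit 0)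 (nat_lit 0) (nat_lit 0) (nat_lit 0) (nat_lit 0) (nat_lit 0) (nat_lit 1) (nat_lit 0) (nat_lit 1) (nat_lit 0) (nat_lit 485) (nat_lit 399) (nat_lit 196))) (XT.nd (nat_lit 94) (nat_lit 0) (nat_lit 0) (XT.lf (nat_lit 0) (nat_lit 17491604926564) (nat_lit 0) (nat_lit 0) (nat_lit 0) (nat_lit 0) (nat_lit 0) (nat_lit 0) (nat_lit 1) (nat_lit 0) (nat_lit 1) (nat_lit 0) (nat_lit 486) (nat_lit 399) (nat_lit 195)) (XT.lf (nat_lit 0) (nat_lit 18889205429270) (nat_lit 0) (nat_lit 0) (nat_lit 0) (nat_lit 0) (nat_lit 0) (nat_lit 0) (nat_lit 1) (nat_lit 0) (nat_lit 1) (nat_lit 0) (nat_lit 487) (nat_lit 399) (nat_lit 194))))) (XT.nd (nat_lit 376) (nat_lit 0) (nat_lit 0) (XT.nd (nat_lit 188) (nat_lit 0) (nat_lit 0) (XT.nd (nat_lit 94) (nat_lit 0) (nat_lit 0) (XT.lf (nat_lit 0) (nat_lit 20398613972230) (nat_lit 0) (nat_lit 0) (nat_lit 0) (nat_lit 0) (nat_lit 0) (nat_lit 0) (nat_lit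 1) (nat_lit 0) (nat_lit 1) (nat_lit 0) (nat_lit 488) (nat_lit 399) (nat_lit 193)) (XT.lf (nat_lit 0) (nat_lit 22028775198661) (nat_lit 0) (nat_lit 0) (nat_lit 0) (nat_lit 0) (nat_lit 0) (nat_lit 0) (nat_lit 1) (nat_lit 0) (nat_lit 1) (nat_lit 0) (nat_lit 489) (nat_lit 399) (nat_lit 192))) (XT.nd (nat_lit 94) (nat_lit 0) (nat_lit 0) (XT.lf (nat_lit 0) (nat_lit 23789349323239) (nat_lit 0) (nat_lit 0) (nat_lit 0) (nat_lit 0) (nat_lit 0) (nat_lit 0) (nat_lit 1) (nat_lit 0) (nat_lit 1) (nat_lit 0) (nat_lit 490) (nat_lit 399) (nat_lit 191)) (XT.lf (nat_lit 0) (nat_lit 25690769377812) (nat_lit 0) (nat_lit 0) (nat_lit 0) (nat_lit 0) (nat_lit 0) (nat_lit 0) (nat_lit 1) (nat_lit 0) (nat_lit 1) (nat_lit 0) (nat_lit 491) (nat_lit 399) (nat_lit 190)))) (XT.nd (nat_lit 188) (nat_lit 0) (nat_lit 0) (XT.nd (nat_lit 94) (nat_lit 0) (nat_lit 0) (XT.lf (nat_lit 0) (nat_lit 27744303036780)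 (nat_lit 0) (nat_lit 0) (nat_lit 0) (nat_lit 0) (nat_lit 0) (nat_lit 0) (nat_lit 1) (nat_lit 0) (nat_lit 1) (nat_lit 0) (nat_lit 492) (nat_lit 399) (nat_lit 189)) (XT.lf (nat_lit 0) (nat_lit 29962119388490) (nat_lit 0) (nat_lit 0) (nat_lit 0) (nat_lit 0) (nat_lit 0) (nat_lit 0) (nat_lit 1) (nat_lit 0) (nat_lit 1) (nat_lit 0) (nat_lit 493) (nat_lit 399) (nat_lit 188))) (XT.nd (nat_lit 94) (nat_lit 0) (nat_lit 0) (XT.lf (nat_lit 0) (nat_lit 32357361048360) (nat_lit 0) (nat_lit 0) (nat_lit 0) (nat_lit 0) (nat_lit 0) (nat_lit 0) (nat_lit 1) (nat_lit 0) (nat_lit 1) (nat_lit 0) (nat_lit 494) (nat_lit 399) (nat_lit 187)) (XT.lf (nat_lit 0) (nat_lit 34944222041042) (nat_lit 0) (nat_lit 0) (nat_lit 0) (nat_lit 0) (nat_lit 0) (nat_lit 0) (nat_lit 1) (nat_lit 0) (nat_lit 1) (nat_lit 0) (nat_lit 495) (nat_lit 399) (nat_lit 186))))))))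
noncomputable def xc174 : XT := (XT.nd (nat_lit 60536) (nat_lit 0) (nat_lit 1344) (XT.nd (nat_lit 59220) (nat_lit 0) (nat_lit 6552) (XT.nd (nat_lit 658) (nat_lit 0) (nat_lit 0) (XT.nd (nat_lit 282) (nat_lit 0) (nat_lit 0) (XT.nd (nat_lit 94) (nat_lit 0) (nat_lit 0) (XT.lf (nat_lit 0) (nat_lit 37738031913159) (nat_lit 0) (nat_lit 0) (nat_lit 0) (nat_lit 0) (nat_lit 0) (nat_lit 0) (nat_lit 1) (nat_lit 0) (nat_lit 1) (nat_lit 0) (nat_lit 496) (nat_lit 399) (nat_lit 185)) (XT.nd (nat_lit 94) (nat_lit 0) (nat_lit 0) (XT.lf (nat_lit 0) (nat_lit 40755346575063) (nat_lit 0) (nat_lit 0) (nat_lit 0) (nat_lit 0) (nat_lit 0) (nat_lit 0) (nat_lit 1) (nat_lit 0) (nat_lit 1) (nat_lit 0) (nat_lit 497) (nat_lit 399) (nat_lit 184)) (XT.lf (nat_lit 0) (nat_lit 44014046409938) (nat_lit 0) (nat_lit 0) (nat_lit 0) (nat_lit 0) (nat_lit 0) (nat_lit 0) (nat_lit 1) (nat_lit 0) (nat_lit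 1) (nat_lit 0) (nat_lit 498) (nat_lit 399) (nat_lit 183)))) (XT.nd (nat_lit 188) (nat_lit 0) (nat_lit 0) (XT.nd (nat_lit 94) (nat_lit 0) (nat_lit 0) (XT.lf (nat_lit 0) (nat_lit 47533442231618) (nat_lit 0) (nat_lit 0) (nat_lit 0) (nat_lit 0) (nat_lit 0) (nat_lit 0) (nat_lit 1) (nat_lit 0) (nat_lit 1) (nat_lit 0) (nat_lit 499) (nat_lit 399) (nat_lit 182)) (XT.lf (nat_lit 0) (nat_lit 51334389719048) (nat_lit 0) (nat_lit 0) (nat_lit 0) (nat_lit 0) (nat_lit 0) (nat_lit 0) (nat_lit 1) (nat_lit 0) (nat_lit 1) (nat_lit 0) (nat_lit 500) (nat_lit 399) (nat_lit 181))) (XT.nd (nat_lit 94) (nat_lit 0) (nat_lit 0) (XT.lf (nat_lit 0) (nat_lit 55439413005486) (nat_lit 0) (nat_lit 0) (nat_lit 0) (nat_lit 0) (nat_lit 0) (nat_lit 0) (nat_lit 1) (nat_lit 0) (nat_lit 1) (nat_lit 0) (nat_lit 501) (nat_lit 399) (nat_lit 180)) (XT.lf (nat_lit 0) (nat_lit 59872838154852) (nat_lit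 0) (nat_lit 0) (nat_lit 0) (nat_lit 0) (nat_lit 0) (nat_lit 0) (nat_lit 1) (nat_lit 0) (nat_lit 1) (nat_lit 0) (nat_lit 502) (nat_lit 399) (nat_lit 179))))) (XT.nd (nat_lit 58186) (nat_lit 0) (nat_lit 10836) (XT.nd (nat_lit 94) (nat_lit 0) (nat_lit 0) (XT.lf (nat_lit 0) (nat_lit 64660937316178) (nat_lit 0) (nat_lit 0) (nat_lit 0) (nat_lit 0) (nat_lit 0) (nat_lit 0) (nat_lit 1) (nat_lit 0) (nat_lit 1) (nat_lit 0) (nat_lit 503) (nat_lit 399) (nat_lit 178)) (XT.nd (nat_lit 57998) (nat_lit 0) (nat_lit 10752) (XT.lf (nat_lit 0) (nat_lit 69832084410422) (nat_lit 0) (nat_lit 0) (nat_lit 0) (nat_lit 0) (nat_lit 0) (nat_lit 0) (nat_lit 1) (nat_lit 0) (nat_lit 1) (nat_lit 0) (nat_lit 504) (nat_lit 399) (nat_lit 177)) (XT.lf (nat_lit 0) (nat_lit 20669094462) (nat_lit 924) (nat_lit 11703456666) (nat_lit 924) (nat_lit 11703456666) (nat_lit 128) (nat_lit 3) (nat_lit 139)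 (nat_lit 3) (nat_lit 139) (nat_lit 5) (nat_lit 400) (nat_lit 400) (nat_lit 280)))) (XT.nd (nat_lit 188) (nat_lit 0) (nat_lit 84) (XT.nd (nat_lit 94) (nat_lit 0) (nat_lit 0) (XT.lf (nat_lit 0) (nat_lit 43841284478) (nat_lit 840) (nat_lit 43043679695) (nat_lit 924) (nat_lit 4750653639) (nat_lit 129) (nat_lit 5) (nat_lit 139) (nat_lit 5) (nat_lit 140) (nat_lit 5) (nat_lit 401) (nat_lit 400) (nat_lit 279)) (XT.lf (nat_lit 84) (nat_lit 31725248307) (nat_lit 0) (nat_lit 16819532192) (nat_lit 924) (nat_lit 46753120073) (nat_lit 130) (nat_lit 5) (nat_lit 129) (nat_lit 5) (nat_lit 140) (nat_lit 5) (nat_lit 402) (nat_lit 400) (nat_lit 278))) (XT.nd (nat_lit 94) (nat_lit 0) (nat_lit 84) (XT.lf (nat_lit 84) (nat_lit 14323595069) (nat_lit 0) (nat_lit 41204295544) (nat_lit 924) (nat_lit 43630108620) (nat_lit 131) (nat_lit 5) (nat_lit 130) (nat_lit 5) (nat_lit 141) (nat_lit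 5) (nat_lit 403) (nat_lit 400) (nat_lit 277)) (XT.lf (nat_lit 0) (nat_lit 65016581703) (nat_lit 840) (nat_lit 3391345932) (nat_lit 924) (nat_lit 34821631543) (nat_lit 131) (nat_lit 5) (nat_lit 141) (nat_lit 5) (nat_lit 142) (nat_lit 5) (nat_lit 404) (nat_lit 400) (nat_lit 276)))))) (XT.nd (nat_lit 658) (nat_lit 2016) (nat_lit 0) (XT.nd (nat_lit 282) (nat_lit 1764) (nat_lit 0) (XT.nd (nat_lit 94) (nat_lit 756) (nat_lit 0) (XT.lf (nat_lit 0) (nat_lit 77456597664) (nat_lit 840) (nat_lit 21025477272) (nat_lit 924) (nat_lit 9035157505) (nat_lit 132) (nat_lit 5) (nat_lit 142) (nat_lit 5) (nat_lit 143) (nat_lit 5) (nat_lit 405) (nat_lit 400) (nat_lit 275)) (XT.nd (nat_lit 94) (nat_lit 756) (nat_lit 0) (XT.lf (nat_lit 84) (nat_lit 72713683540) (nat_lit 0) (nat_lit 20525945195) (nat_lit 924) (nat_lit 18790900137) (nat_lit 133) (nat_lit 5) (nat_lit 132) (nat_lit 5)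 (nat_lit 143) (nat_lit 5) (nat_lit 406) (nat_lit 400) (nat_lit 274)) (XT.lf (nat_lit 0) (nat_lit 58693954279) (nat_lit 840) (nat_lit 53873080797) (nat_lit 924) (nat_lit 4223767301) (nat_lit 123) (nat_lit 5) (nat_lit 133) (nat_lit 5) (nat_lit 134) (nat_lit 5) (nat_lit 407) (nat_lit 400) (nat_lit 273)))) (XT.nd (nat_lit 188) (nat_lit 756) (nat_lit 0) (XT.nd (nat_lit 94) (nat_lit 420) (nat_lit 0) (XT.lf (nat_lit 0) (nat_lit 13384251996) (nat_lit 588) (nat_lit 77383540521) (nat_lit 84) (nat_lit 31042927703) (nat_lit 116) (nat_lit 5) (nat_lit 123) (nat_lit 5) (nat_lit 117) (nat_lit 5) (nat_lit 408) (nat_lit 400) (nat_lit 272)) (XT.lf (nat_lit 0) (nat_lit 30009590006) (nat_lit 420) (nat_lit 4650034137) (nat_lit 504) (nat_lit 92448810665) (nat_lit 111) (nat_lit 5) (nat_lit 116) (nat_lit 5) (nat_lit 117) (nat_lit 5) (nat_lit 409) (nat_lit 400) (nat_lit 271))) (XT.nd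 (nat_lit 94) (nat_lit 336) (nat_lit 0) (XT.lf (nat_lit 0) (nat_lit 15075022095) (nat_lit 420) (nat_lit 45546168519) (nat_lit 504) (nat_lit 72059567722) (nat_lit 106) (nat_lit 5) (nat_lit 111) (nat_lit 5) (nat_lit 112) (nat_lit 5) (nat_lit 410) (nat_lit 400) (nat_lit 270)) (XT.lf (nat_lit 0) (nat_lit 237663553) (nat_lit 336) (nat_lit 90961397767) (nat_lit 420) (nat_lit 47372837480) (nat_lit 102) (nat_lit 5) (nat_lit 106) (nat_lit 5) (nat_lit 107) (nat_lit 5) (nat_lit 411) (nat_lit 400) (nat_lit 269))))) (XT.nd (nat_lit 282) (nat_lit 1260) (nat_lit 0) (XT.nd (nat_lit 94) (nat_lit 756) (nat_lit 0) (XT.lf (nat_lit 0) (nat_lit 127087389547) (nat_lit 420) (nat_lit 13940813476) (nat_lit 84) (nat_lit 3762916085) (nat_lit 102) (nat_lit 5) (nat_lit 107) (nat_lit 5) (nat_lit 103) (nat_lit 5) (nat_lit 412) (nat_lit 400) (nat_lit 268)) (XT.nd (nat_lit 94) (nat_lit 336)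 (nat_lit 0) (XT.lf (nat_lit 0) (nat_lit 17386926719) (nat_lit 420) (nat_lit 28815874251) (nat_lit 84) (nat_lit 105118534830) (nat_lit 97) (nat_lit 5) (nat_lit 102) (nat_lit 5) (nat_lit 98) (nat_lit 5) (nat_lit 413) (nat_lit 400) (nat_lit 267)) (XT.lf (nat_lit 0) (nat_lit 57636749427) (nat_lit 420) (nat_lit 43779192973) (nat_lit 84) (nat_lit 56794907855) (nat_lit 93) (nat_lit 5) (nat_lit 98) (nat_lit 5) (nat_lit 94) (nat_lit 5) (nat_lit 414) (nat_lit 400) (nat_lit 266)))) (XT.nd (nat_lit 188) (nat_lit 672) (nat_lit 0) (XT.nd (nat_lit 94) (nat_lit 252) (nat_lit 0) (XT.lf (nat_lit 0) (nat_lit 104117311439) (nat_lit 420) (nat_lit 58367959159) (nat_lit 84) (nat_lit 3015717593) (nat_lit 89) (nat_lit 5) (nat_lit 94) (nat_lit 5) (nat_lit 90) (nat_lit 5) (nat_lit 415) (nat_lit 400) (nat_lit 265)) (XT.lf (nat_lit 0) (nat_lit 99816836932) (nat_lit 252) (nat_lit 58542518814)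 (nat_lit 336) (nat_lit 14812829551) (nat_lit 86) (nat_lit 5) (nat_lit 89) (nat_lit 5) (nat_lit 90) (nat_lit 5) (nat_lit 416) (nat_lit 400) (nat_lit 264))) (XT.nd (nat_lit 94) (nat_lit 252) (nat_lit 0) (XT.lf (nat_lit 0) (nat_lit 37733450263) (nat_lit 420) (nat_lit 88429076656) (nat_lit 84) (nat_lit 55097578044) (nat_lit 81) (nat_lit 5) (nat_lit 86) (nat_lit 5) (nat_lit 82) (nat_lit 5) (nat_lit 417) (nat_lit 400) (nat_lit 263)) (XT.lf (nat_lit 0) (nat_lit 86510976632) (nat_lit 252) (nat_lit 11096486004) (nat_lit 336) (nat_lit 92193303924) (nat_lit 78) (nat_lit 5) (nat_lit 81) (nat_lit 5) (nat_lit 82) (nat_lit 5) (nat_lit 418) (nat_lit 400) (nat_lit 262))))))) (XT.nd (nat_lit 1316) (nat_lit 2268) (nat_lit 0) (XT.nd (nat_lit 658) (nat_lit 1176) (nat_lit 0) (XT.nd (nat_lit 282) (nat_lit 924) (nat_lit 0) (XT.nd (nat_lit 94) (nat_lit 588) (nat_lit 0) (XT.lf (nat_lit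 0) (nat_lit 80437938660) (nat_lit 252) (nat_lit 86421446893) (nat_lit 336) (nat_lit 31935896055) (nat_lit 75) (nat_lit 5) (nat_lit 78) (nat_lit 5) (nat_lit 79) (nat_lit 5) (nat_lit 419) (nat_lit 400) (nat_lit 261)) (XT.nd (nat_lit 94) (nat_lit 252) (nat_lit 0) (XT.lf (nat_lit 0) (nat_lit 35913589526) (nat_lit 336) (nat_lit 133131450737) (nat_lit 84) (nat_lit 39246833571) (nat_lit 71) (nat_lit 5) (nat_lit 75) (nat_lit 5) (nat_lit 72) (nat_lit 5) (nat_lit 420) (nat_lit 400) (nat_lit 260)) (XT.lf (nat_lit 0) (nat_lit 70156254777) (nat_lit 252) (nat_lit 42578485644) (nat_lit 336) (nat_lit 105554146816) (nat_lit 68) (nat_lit 5) (nat_lit 71) (nat_lit 5) (nat_lit 72) (nat_lit 5) (nat_lit 421) (nat_lit 400) (nat_lit 259)))) (XT.nd (nat_lit 188) (nat_lit 420) (nat_lit 0) (XT.nd (nat_lit 94) (nat_lit 336) (nat_lit 0) (XT.lf (nat_lit 0) (nat_lit 66100619659) (nat_lit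 168) (nat_lit 134457327994) (nat_lit 252) (nat_lit 28284895846) (nat_lit 66) (nat_lit 5) (nat_lit 68) (nat_lit 5) (nat_lit 69) (nat_lit 5) (nat_lit 422) (nat_lit 400) (nat_lit 258)) (XT.lf (nat_lit 0) (nat_lit 57807863219) (nat_lit 336) (nat_lit 177019025394) (nat_lit 84) (nat_lit 5150781881) (nat_lit 62) (nat_lit 5) (nat_lit 66) (nat_lit 5) (nat_lit 63) (nat_lit 5) (nat_lit 423) (nat_lit 400) (nat_lit 257))) (XT.nd (nat_lit 94) (nat_lit 252) (nat_lit 0) (XT.lf (nat_lit 0) (nat_lit 59787866269) (nat_lit 168) (nat_lit 96104061000) (nat_lit 252) (nat_lit 95783429575) (nat_lit 60) (nat_lit 5) (nat_lit 62) (nat_lit 5) (nat_lit 63) (nat_lit 5) (nat_lit 424) (nat_lit 400) (nat_lit 256)) (XT.lf (nat_lit 0) (nat_lit 2562363638) (nat_lit 252) (nat_lit 205411063406) (nat_lit 84) (nat_lit 56088925180) (nat_lit 57) (nat_lit 5) (nat_lit 60) (nat_lit 5) (nat_lit 58) (nat_lit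 5) (nat_lit 425) (nat_lit 400) (nat_lit 255))))) (XT.nd (nat_lit 282) (nat_lit 588) (nat_lit 0) (XT.nd (nat_lit 94) (nat_lit 420) (nat_lit 0) (XT.lf (nat_lit 0) (nat_lit 57357043014) (nat_lit 168) (nat_lit 54020841806) (nat_lit 252) (nat_lit 165686018941) (nat_lit 55) (nat_lit 5) (nat_lit 57) (nat_lit 5) (nat_lit 58) (nat_lit 5) (nat_lit 426) (nat_lit 400) (nat_lit 254)) (XT.nd (nat_lit 94) (nat_lit 252) (nat_lit 0) (XT.lf (nat_lit 0) (nat_lit 57586461431) (nat_lit 168) (nat_lit 177600216875) (nat_lit 252) (nat_lit 55604499583) (nat_lit 53) (nat_lit 5) (nat_lit 55) (nat_lit 5) (nat_lit 56) (nat_lit 5) (nat_lit 427) (nat_lit 400) (nat_lit 253)) (XT.lf (nat_lit 0) (nat_lit 59423312299) (nat_lit 168) (nat_lit 7562971861) (nat_lit 252) (nat_lit 238294537548) (nat_lit 50) (nat_lit 5) (nat_lit 52) (nat_lit 5) (nat_lit 53) (nat_lit 5) (nat_lit 428) (nat_lit 400)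 (nat_lit 252)))) (XT.nd (nat_lit 188) (nat_lit 252) (nat_lit 0) (XT.nd (nat_lit 94) (nat_lit 168) (nat_lit 0) (XT.lf (nat_lit 0) (nat_lit 61269935821) (nat_lit 168) (nat_lit 144026530927) (nat_lit 252) (nat_lit 115194580478) (nat_lit 48) (nat_lit 5) (nat_lit 50) (nat_lit 5) (nat_lit 51) (nat_lit 5) (nat_lit 429) (nat_lit 400) (nat_lit 251)) (XT.lf (nat_lit 0) (nat_lit 23393567591) (nat_lit 168) (nat_lit 270612506481) (nat_lit 84) (nat_lit 42587737055) (nat_lit 46) (nat_lit 5) (nat_lit 48) (nat_lit 5) (nat_lit 47) (nat_lit 5) (nat_lit 430) (nat_lit 400) (nat_lit 250))) (XT.nd (nat_lit 94) (nat_lit 84) (nat_lit 0) (XT.lf (nat_lit 0) (nat_lit 70508814349) (nat_lit 168) (nat_lit 106696629969) (nat_lit 252) (nat_lit 176276303347) (nat_lit 44) (nat_lit 5) (nat_lit 46) (nat_lit 5) (nat_lit 47) (nat_lit 5) (nat_lit 431) (nat_lit 400) (nat_lit 249)) (XT.lf (nat_lit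 0) (nat_lit 78025250736) (nat_lit 84) (nat_lit 272798641576) (nat_lit 168) (nat_lit 20521745757) (nat_lit 43) (nat_lit 5) (nat_lit 44) (nat_lit 5) (nat_lit 45) (nat_lit 4) (nat_lit 432) (nat_lit 400) (nat_lit 248)))))) (XT.nd (nat_lit 658) (nat_lit 1008) (nat_lit 0) (XT.nd (nat_lit 282) (nat_lit 672) (nat_lit 0) (XT.nd (nat_lit 94) (nat_lit 336) (nat_lit 0) (XT.lf (nat_lit 0) (nat_lit 86188222564) (nat_lit 168) (nat_lit 64932321445) (nat_lit 252) (nat_lit 238995076899) (nat_lit 40) (nat_lit 5) (nat_lit 42) (nat_lit 5) (nat_lit 43) (nat_lit 5) (nat_lit 433) (nat_lit 400) (nat_lit 247)) (XT.nd (nat_lit 94) (nat_lit 252) (nat_lit 0) (XT.lf (nat_lit 0) (nat_lit 96569470311) (nat_lit 84) (nat_lit 248407269491) (nat_lit 168) (nat_lit 64933566224) (nat_lit 39) (nat_lit 5) (nat_lit 40) (nat_lit 5) (nat_lit 41) (nat_lit 4) (nat_lit 434) (nat_lit 400) (nat_lit 246))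 (XT.lf (nat_lit 0) (nat_lit 109331314778) (nat_lit 168) (nat_lit 17965683169) (nat_lit 252) (nat_lit 303486378364) (nat_lit 36) (nat_lit 5) (nat_lit 38) (nat_lit 5) (nat_lit 39) (nat_lit 5) (nat_lit 435) (nat_lit 400) (nat_lit 245)))) (XT.nd (nat_lit 188) (nat_lit 336) (nat_lit 0) (XT.nd (nat_lit 94) (nat_lit 252) (nat_lit 0) (XT.lf (nat_lit 0) (nat_lit 123103204881) (nat_lit 84) (nat_lit 220632837877) (nat_lit 168) (nat_lit 108981775657) (nat_lit 35) (nat_lit 5) (nat_lit 36) (nat_lit 5) (nat_lit 37) (nat_lit 4) (nat_lit 436) (nat_lit 400) (nat_lit 244)) (XT.lf (nat_lit 0) (nat_lit 106592708245) (nat_lit 252) (nat_lit 335347753710) (nat_lit 84) (nat_lit 33950404009) (nat_lit 32) (nat_lit 5) (nat_lit 35) (nat_lit 5) (nat_lit 33) (nat_lit 4) (nat_lit 437) (nat_lit 400) (nat_lit 243))) (XT.nd (nat_lit 94) (nat_lit 252) (nat_lit 0) (XT.lf (nat_lit 0) (nat_lit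 158886081592) (nat_lit 84) (nat_lit 188796415595) (nat_lit 168) (nat_lit 152541553963) (nat_lit 31) (nat_lit 5) (nat_lit 32) (nat_lit 5) (nat_lit 33) (nat_lit 4) (nat_lit 438) (nat_lit 400) (nat_lit 242)) (XT.lf (nat_lit 0) (nat_lit 89223896900) (nat_lit 252) (nat_lit 344579823242) (nat_lit 84) (nat_lit 92122575119) (nat_lit 28) (nat_lit 5) (nat_lit 31) (nat_lit 5) (nat_lit 29) (nat_lit 4) (nat_lit 439) (nat_lit 400) (nat_lit 241))))) (XT.nd (nat_lit 376) (nat_lit 504) (nat_lit 0) (XT.nd (nat_lit 188) (nat_lit 252) (nat_lit 0) (XT.nd (nat_lit 94) (nat_lit 168) (nat_lit 0) (XT.lf (nat_lit 0) (nat_lit 205366853751) (nat_lit 84) (nat_lit 152123807270) (nat_lit 168) (nat_lit 195443804311) (nat_lit 27) (nat_lit 5) (nat_lit 28) (nat_lit 5) (nat_lit 29) (nat_lit 4) (nat_lit 440) (nat_lit 400) (nat_lit 240)) (XT.lf (nat_lit 0) (nat_lit 75372256948) (nat_lit 168) (nat_lit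 347857517791) (nat_lit 84) (nat_lit 158205638434) (nat_lit 25) (nat_lit 5) (nat_lit 27) (nat_lit 5) (nat_lit 26) (nat_lit 4) (nat_lit 441) (nat_lit 400) (nat_lit 239))) (XT.nd (nat_lit 94) (nat_lit 168) (nat_lit 0) (XT.lf (nat_lit 0) (nat_lit 264208907210) (nat_lit 84) (nat_lit 109732413004) (nat_lit 168) (nat_lit 237468160992) (nat_lit 24) (nat_lit 5) (nat_lit 25) (nat_lit 5) (nat_lit 26) (nat_lit 4) (nat_lit 442) (nat_lit 400) (nat_lit 238)) (XT.lf (nat_lit 0) (nat_lit 65583951313) (nat_lit 168) (nat_lit 344001416438) (nat_lit 84) (nat_lit 233422358594) (nat_lit 22) (nat_lit 5) (nat_lit 24) (nat_lit 5) (nat_lit 23) (nat_lit 4) (nat_lit 443) (nat_lit 400) (nat_lit 237)))) (XT.nd (nat_lit 188) (nat_lit 252) (nat_lit 0) (XT.nd (nat_lit 94) (nat_lit 168) (nat_lit 0) (XT.lf (nat_lit 0) (nat_lit 337319085163) (nat_lit 84) (nat_lit 60616391959) (nat_lit 168) (nat_lit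 278334959334) (nat_lit 21) (nat_lit 5) (nat_lit 22) (nat_lit 5) (nat_lit 23) (nat_lit 4) (nat_lit 444) (nat_lit 400) (nat_lit 236)) (XT.lf (nat_lit 0) (nat_lit 60500827507) (nat_lit 168) (nat_lit 331638789219) (nat_lit 84) (nat_lit 319157170113) (nat_lit 19) (nat_lit 5) (nat_lit 21) (nat_lit 5) (nat_lit 20) (nat_lit 4) (nat_lit 445) (nat_lit 400) (nat_lit 235))) (XT.nd (nat_lit 94) (nat_lit 168) (nat_lit 0) (XT.lf (nat_lit 0) (nat_lit 426880248316) (nat_lit 84) (nat_lit 3629916102) (nat_lit 168) (nat_lit 317696028013) (nat_lit 18) (nat_lit 5) (nat_lit 19) (nat_lit 5) (nat_lit 20) (nat_lit 4) (nat_lit 446) (nat_lit 400) (nat_lit 234)) (XT.lf (nat_lit 0) (nat_lit 60873716493) (nat_lit 168) (nat_lit 309176199507) (nat_lit 84) (nat_lit 416977219969) (nat_lit 16) (nat_lit 5) (nat_lit 18) (nat_lit 5) (nat_lit 17) (nat_lit 4) (nat_lit 447) (nat_lit 400) (nat_lit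 233))))))))
noncomputable def xc175 : XT := (XT.nd (nat_lit 2632) (nat_lit 0) (nat_lit 0) (XT.nd (nat_lit 1316) (nat_lit 0) (nat_lit 0) (XT.nd (nat_lit 658) (nat_lit 504) (nat_lit 0) (XT.nd (nat_lit 282) (nat_lit 504) (nat_lit 0) (XT.nd (nat_lit 94) (nat_lit 252) (nat_lit 0) (XT.lf (nat_lit 0) (nat_lit 473832608266) (nat_lit 168) (nat_lit 293568715551) (nat_lit 0) (nat_lit 60530320145) (nat_lit 15) (nat_lit 5) (nat_lit 17) (nat_lit 4) (nat_lit 15) (nat_lit 4) (nat_lit 448) (nat_lit 400) (nat_lit 232)) (XT.nd (nat_lit 94) (nat_lit 84) (nat_lit 0) (XT.lf (nat_lit 0) (nat_lit 67577524957) (nat_lit 168) (nat_lit 274768436215) (nat_lit 84) (nat_lit 528656041781) (nat_lit 13) (nat_lit 5) (nat_lit 15) (nat_lit 5) (nat_lit 14) (nat_lit 4) (nat_lit 449) (nat_lit 400) (nat_lit 231)) (XT.lf (nat_lit 0) (nat_lit 528514626520) (nat_lit 168) (nat_lit 252923239435) (nat_lit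 0) (nat_lit 134893263532) (nat_lit 12) (nat_lit 5) (nat_lit 14) (nat_lit 4) (nat_lit 12) (nat_lit 4) (nat_lit 450) (nat_lit 400) (nat_lit 230)))) (XT.nd (nat_lit 188) (nat_lit 252) (nat_lit 0) (XT.nd (nat_lit 94) (nat_lit 84) (nat_lit 0) (XT.lf (nat_lit 0) (nat_lit 81628350499) (nat_lit 168) (nat_lit 226283305097) (nat_lit 84) (nat_lit 656200184928) (nat_lit 10) (nat_lit 5) (nat_lit 12) (nat_lit 5) (nat_lit 11) (nat_lit 4) (nat_lit 451) (nat_lit 400) (nat_lit 229)) (XT.lf (nat_lit 0) (nat_lit 596087776400) (nat_lit 168) (nat_lit 197046863774) (nat_lit 0) (nat_lit 221210176626) (nat_lit 9) (nat_lit 5) (nat_lit 11) (nat_lit 4) (nat_lit 9) (nat_lit 4) (nat_lit 452) (nat_lit 400) (nat_lit 228))) (XT.nd (nat_lit 94) (nat_lit 84) (nat_lit 0) (XT.lf (nat_lit 0) (nat_lit 104202877868) (nat_lit 168) (nat_lit 161261749650) (nat_lit 84) (nat_lit 801879160967) (nat_lit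 7) (nat_lit 5) (nat_lit 9) (nat_lit 5) (nat_lit 8) (nat_lit 4) (nat_lit 453) (nat_lit 400) (nat_lit 227)) (XT.lf (nat_lit 0) (nat_lit 678366448328) (nat_lit 168) (nat_lit 123305296514) (nat_lit 0) (nat_lit 321340072022) (nat_lit 6) (nat_lit 5) (nat_lit 8) (nat_lit 4) (nat_lit 6) (nat_lit 4) (nat_lit 454) (nat_lit 400) (nat_lit 226))))) (XT.nd (nat_lit 282) (nat_lit 0) (nat_lit 0) (XT.nd (nat_lit 94) (nat_lit 336) (nat_lit 0) (XT.lf (nat_lit 0) (nat_lit 136660346620) (nat_lit 168) (nat_lit 76872706157) (nat_lit 84) (nat_lit 968259113449) (nat_lit 4) (nat_lit 5) (nat_lit 6) (nat_lit 5) (nat_lit 5) (nat_lit 4) (nat_lit 455) (nat_lit 400) (nat_lit 225)) (XT.nd (nat_lit 94) (nat_lit 252) (nat_lit 0) (XT.lf (nat_lit 0) (nat_lit 777420649760) (nat_lit 168) (nat_lit 28667958110) (nat_lit 0) (nat_lit 437395455324) (nat_lit 3) (nat_lit 5) (nat_lit 5) (nat_lit 4) (nat_lit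 3) (nat_lit 4) (nat_lit 456) (nat_lit 400) (nat_lit 224)) (XT.lf (nat_lit 0) (nat_lit 1898338990010) (nat_lit 0) (nat_lit 0) (nat_lit 0) (nat_lit 0) (nat_lit 0) (nat_lit 0) (nat_lit 1) (nat_lit 0) (nat_lit 1) (nat_lit 0) (nat_lit 457) (nat_lit 400) (nat_lit 223)))) (XT.nd (nat_lit 188) (nat_lit 0) (nat_lit 0) (XT.nd (nat_lit 94) (nat_lit 0) (nat_lit 0) (XT.lf (nat_lit 0) (nat_lit 2048339982663) (nat_lit 0) (nat_lit 0) (nat_lit 0) (nat_lit 0) (nat_lit 0) (nat_lit 0) (nat_lit 1) (nat_lit 0) (nat_lit 1) (nat_lit 0) (nat_lit 458) (nat_lit 400) (nat_lit 222)) (XT.lf (nat_lit 0) (nat_lit 2210341055052) (nat_lit 0) (nat_lit 0) (nat_lit 0) (nat_lit 0) (nat_lit 0) (nat_lit 0) (nat_lit 1) (nat_lit 0) (nat_lit 1) (nat_lit 0) (nat_lit 459) (nat_lit 400) (nat_lit 221))) (XT.nd (nat_lit 94) (nat_lit 0) (nat_lit 0) (XT.lf (nat_lit 0) (nat_lit 2385302213530) (nat_lit 0) (nat_lit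 0) (nat_lit 0) (nat_lit 0) (nat_lit 0) (nat_lit 0) (nat_lit 1) (nat_lit 0) (nat_lit 1) (nat_lit 0) (nat_lit 460) (nat_lit 400) (nat_lit 220)) (XT.lf (nat_lit 0) (nat_lit 2574260264964) (nat_lit 0) (nat_lit 0) (nat_lit 0) (nat_lit 0) (nat_lit 0) (nat_lit 0) (nat_lit 1) (nat_lit 0) (nat_lit 1) (nat_lit 0) (nat_lit 461) (nat_lit 400) (nat_lit 219)))))) (XT.nd (nat_lit 658) (nat_lit 0) (nat_lit 0) (XT.nd (nat_lit 282) (nat_lit 0) (nat_lit 0) (XT.nd (nat_lit 94) (nat_lit 0) (nat_lit 0) (XT.lf (nat_lit 0) (nat_lit 2778334960769) (nat_lit 0) (nat_lit 0) (nat_lit 0) (nat_lit 0) (nat_lit 0) (nat_lit 0) (nat_lit 1) (nat_lit 0) (nat_lit 1) (nat_lit 0) (nat_lit 462) (nat_lit 400) (nat_lit 218)) (XT.nd (nat_lit 94) (nat_lit 0) (nat_lit 0) (XT.lf (nat_lit 0) (nat_lit 2998735632475) (nat_lit 0) (nat_lit 0) (nat_lit 0) (nat_lit 0) (nat_lit 0) (nat_lit 0) (nat_lit 1) (nat_lit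 0) (nat_lit 1) (nat_lit 0) (nat_lit 463) (nat_lit 400) (nat_lit 217)) (XT.lf (nat_lit 0) (nat_lit 3236768358138) (nat_lit 0) (nat_lit 0) (nat_lit 0) (nat_lit 0) (nat_lit 0) (nat_lit 0) (nat_lit 1) (nat_lit 0) (nat_lit 1) (nat_lit 0) (nat_lit 464) (nat_lit 400) (nat_lit 216)))) (XT.nd (nat_lit 188) (nat_lit 0) (nat_lit 0) (XT.nd (nat_lit 94) (nat_lit 0) (nat_lit 0) (XT.lf (nat_lit 0) (nat_lit 3493843702058) (nat_lit 0) (nat_lit 0) (nat_lit 0) (nat_lit 0) (nat_lit 0) (nat_lit 0) (nat_lit 1) (nat_lit 0) (nat_lit 1) (nat_lit 0) (nat_lit 465) (nat_lit 400) (nat_lit 215)) (XT.lf (nat_lit 0) (nat_lit 3771485073679) (nat_lit 0) (nat_lit 0) (nat_lit 0) (nat_lit 0) (nat_lit 0) (nat_lit 0) (nat_lit 1) (nat_lit 0) (nat_lit 1) (nat_lit 0) (nat_lit 466) (nat_lit 400) (nat_lit 214))) (XT.nd (nat_lit 94) (nat_lit 0) (nat_lit 0) (XT.lf (nat_lit 0) (nat_lit 4071337755205) (nat_lit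 0) (nat_lit 0) (nat_lit 0) (nat_lit 0) (nat_lit 0) (nat_lit 0) (nat_lit 1) (nat_lit 0) (nat_lit 1) (nat_lit 0) (nat_lit 467) (nat_lit 400) (nat_lit 213)) (XT.lf (nat_lit 0) (nat_lit 4395178651415) (nat_lit 0) (nat_lit 0) (nat_lit 0) (nat_lit 0) (nat_lit 0) (nat_lit 0) (nat_lit 1) (nat_lit 0) (nat_lit 1) (nat_lit 0) (nat_lit 468) (nat_lit 400) (nat_lit 212))))) (XT.nd (nat_lit 282) (nat_lit 0) (nat_lit 0) (XT.nd (nat_lit 94) (nat_lit 0) (nat_lit 0) (XT.lf (nat_lit 0) (nat_lit 4744926819471) (nat_lit 0) (nat_lit 0) (nat_lit 0) (nat_lit 0) (nat_lit 0) (nat_lit 0) (nat_lit 1) (nat_lit 0) (nat_lit 1) (nat_lit 0) (nat_lit 469) (nat_lit 400) (nat_lit 211)) (XT.nd (nat_lit 94) (nat_lit 0) (nat_lit 0) (XT.lf (nat_lit 0) (nat_lit 5122654841110) (nat_lit 0) (nat_lit 0) (nat_lit 0) (nat_lit 0) (nat_lit 0) (nat_lit 0) (nat_lit 1) (nat_lit 0) (nat_lit 1) (nat_lit 0) (nat_lit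 470) (nat_lit 400) (nat_lit 210)) (XT.lf (nat_lit 0) (nat_lit 5530601104608) (nat_lit 0) (nat_lit 0) (nat_lit 0) (nat_lit 0) (nat_lit 0) (nat_lit 0) (nat_lit 1) (nat_lit 0) (nat_lit 1) (nat_lit 0) (nat_lit 471) (nat_lit 400) (nat_lit 209)))) (XT.nd (nat_lit 188) (nat_lit 0) (nat_lit 0) (XT.nd (nat_lit 94) (nat_lit 0) (nat_lit 0) (XT.lf (nat_lit 0) (nat_lit 5971183069305) (nat_lit 0) (nat_lit 0) (nat_lit 0) (nat_lit 0) (nat_lit 0) (nat_lit 0) (nat_lit 1) (nat_lit 0) (nat_lit 1) (nat_lit 0) (nat_lit 472) (nat_lit 400) (nat_lit 208)) (XT.lf (nat_lit 0) (nat_lit 6447011591288) (nat_lit 0) (nat_lit 0) (nat_lit 0) (nat_lit 0) (nat_lit 0) (nat_lit 0) (nat_lit 1) (nat_lit 0) (nat_lit 1) (nat_lit 0) (nat_lit 473) (nat_lit 400) (nat_lit 207))) (XT.nd (nat_lit 94) (nat_lit 0) (nat_lit 0) (XT.lf (nat_lit 0) (nat_lit 6960906395131) (nat_lit 0) (nat_lit 0) (nat_lit 0) (nat_lit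 0) (nat_lit 0) (nat_lit 0) (nat_lit 1) (nat_lit 0) (nat_lit 1) (nat_lit 0) (nat_lit 474) (nat_lit 400) (nat_lit 206)) (XT.lf (nat_lit 0) (nat_lit 7515912783376) (nat_lit 0) (nat_lit 0) (nat_lit 0) (nat_lit 0) (nat_lit 0) (nat_lit 0) (nat_lit 1) (nat_lit 0) (nat_lit 1) (nat_lit 0) (nat_lit 475) (nat_lit 400) (nat_lit 205))))))) (XT.nd (nat_lit 1316) (nat_lit 0) (nat_lit 0) (XT.nd (nat_lit 658) (nat_lit 0) (nat_lit 0) (XT.nd (nat_lit 282) (nat_lit 0) (nat_lit 0) (XT.nd (nat_lit 94) (nat_lit 0) (nat_lit 0) (XT.lf (nat_lit 0) (nat_lit 8115319682767) (nat_lit 0) (nat_lit 0) (nat_lit 0) (nat_lit 0) (nat_lit 0) (nat_lit 0) (nat_lit 1) (nat_lit 0) (nat_lit 1) (nat_lit 0) (nat_lit 476) (nat_lit 400) (nat_lit 204)) (XT.nd (nat_lit 94) (nat_lit 0) (nat_lit 0) (XT.lf (nat_lit 0) (nat_lit 8762679134191) (nat_lit 0) (nat_lit 0) (nat_lit 0) (nat_lit 0) (nat_lit 0) (nat_lit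 0) (nat_lit 1) (nat_lit 0) (nat_lit 1) (nat_lit 0) (nat_lit 477) (nat_lit 400) (nat_lit 203)) (XT.lf (nat_lit 0) (nat_lit 9461827341804) (nat_lit 0) (nat_lit 0) (nat_lit 0) (nat_lit 0) (nat_lit 0) (nat_lit 0) (nat_lit 1) (nat_lit 0) (nat_lit 1) (nat_lit 0) (nat_lit 478) (nat_lit 400) (nat_lit 202)))) (XT.nd (nat_lit 188) (nat_lit 0) (nat_lit 0) (XT.nd (nat_lit 94) (nat_lit 0) (nat_lit 0) (XT.lf (nat_lit 0) (nat_lit 10216907406095) (nat_lit 0) (nat_lit 0) (nat_lit 0) (nat_lit 0) (nat_lit 0) (nat_lit 0) (nat_lit 1) (nat_lit 0) (nat_lit 1) (nat_lit 0) (nat_lit 479) (nat_lit 400) (nat_lit 201)) (XT.lf (nat_lit 0) (nat_lit 11032393875594) (nat_lit 0) (nat_lit 0) (nat_lit 0) (nat_lit 0) (nat_lit 0) (nat_lit 0) (nat_lit 1) (nat_lit 0) (nat_lit 1) (nat_lit 0) (nat_lit 480) (nat_lit 400) (nat_lit 200))) (XT.nd (nat_lit 94) (nat_lit 0) (nat_lit 0) (XT.lf (nat_lit 0)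 (nat_lit 11913119262712) (nat_lit 0) (nat_lit 0) (nat_lit 0) (nat_lit 0) (nat_lit 0) (nat_lit 0) (nat_lit 1) (nat_lit 0) (nat_lit 1) (nat_lit 0) (nat_lit 481) (nat_lit 400) (nat_lit 199)) (XT.lf (nat_lit 0) (nat_lit 12864302680854) (nat_lit 0) (nat_lit 0) (nat_lit 0) (nat_lit 0) (nat_lit 0) (nat_lit 0) (nat_lit 1) (nat_lit 0) (nat_lit 1) (nat_lit 0) (nat_lit 482) (nat_lit 400) (nat_lit 198))))) (XT.nd (nat_lit 282) (nat_lit 0) (nat_lit 0) (XT.nd (nat_lit 94) (nat_lit 0) (nat_lit 0) (XT.lf (nat_lit 0) (nat_lit 13891580772498) (nat_lit 0) (nat_lit 0) (nat_lit 0) (nat_lit 0) (nat_lit 0) (nat_lit 0) (nat_lit 1) (nat_lit 0) (nat_lit 1) (nat_lit 0) (nat_lit 483) (nat_lit 400) (nat_lit 197)) (XT.nd (nat_lit 94) (nat_lit 0) (nat_lit 0) (XT.lf (nat_lit 0) (nat_lit 15001041111522) (nat_lit 0) (nat_lit 0) (nat_lit 0) (nat_lit 0) (nat_lit 0) (nat_lit 0) (nat_lit 1) (nat_lit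 0) (nat_lit 1) (nat_lit 0) (nat_lit 484) (nat_lit 400) (nat_lit 196)) (XT.lf (nat_lit 0) (nat_lit 16199258277711) (nat_lit 0) (nat_lit 0) (nat_lit 0) (nat_lit 0) (nat_lit 0) (nat_lit 0) (nat_lit 1) (nat_lit 0) (nat_lit 1) (nat_lit 0) (nat_lit 485) (nat_lit 400) (nat_lit 195)))) (XT.nd (nat_lit 188) (nat_lit 0) (nat_lit 0) (XT.nd (nat_lit 94) (nat_lit 0) (nat_lit 0) (XT.lf (nat_lit 0) (nat_lit 17493332817235) (nat_lit 0) (nat_lit 0) (nat_lit 0) (nat_lit 0) (nat_lit 0) (nat_lit 0) (nat_lit 1) (nat_lit 0) (nat_lit 1) (nat_lit 0) (nat_lit 486) (nat_lit 400) (nat_lit 194)) (XT.lf (nat_lit 0) (nat_lit 18890933319959) (nat_lit 0) (nat_lit 0) (nat_lit 0) (nat_lit 0) (nat_lit 0) (nat_lit 0) (nat_lit 1) (nat_lit 0) (nat_lit 1) (nat_lit 0) (nat_lit 487) (nat_lit 400) (nat_lit 193))) (XT.nd (nat_lit 94) (nat_lit 0) (nat_lit 0) (XT.lf (nat_lit 0) (nat_lit 20400341862935)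 (nat_lit 0) (nat_lit 0) (nat_lit 0) (nat_lit 0) (nat_lit 0) (nat_lit 0) (nat_lit 1) (nat_lit 0) (nat_lit 1) (nat_lit 0) (nat_lit 488) (nat_lit 400) (nat_lit 192)) (XT.lf (nat_lit 0) (nat_lit 22030503089382) (nat_lit 0) (nat_lit 0) (nat_lit 0) (nat_lit 0) (nat_lit 0) (nat_lit 0) (nat_lit 1) (nat_lit 0) (nat_lit 1) (nat_lit 0) (nat_lit 489) (nat_lit 400) (nat_lit 191)))))) (XT.nd (nat_lit 658) (nat_lit 0) (nat_lit 0) (XT.nd (nat_lit 282) (nat_lit 0) (nat_lit 0) (XT.nd (nat_lit 94) (nat_lit 0) (nat_lit 0) (XT.lf (nat_lit 0) (nat_lit 23791077213974) (nat_lit 0) (nat_lit 0) (nat_lit 0) (nat_lit 0) (nat_lit 0) (nat_lit 0) (nat_lit 1) (nat_lit 0) (nat_lit 1) (nat_lit 0) (nat_lit 490) (nat_lit 400) (nat_lit 190)) (XT.nd (nat_lit 94) (nat_lit 0) (nat_lit 0) (XT.lf (nat_lit 0) (nat_lit 25692497268561) (nat_lit 0) (nat_lit 0) (nat_lit 0) (nat_lit 0) (nat_lit 0) (nat_lit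 0) (nat_lit 1) (nat_lit 0) (nat_lit 1) (nat_lit 0) (nat_lit 491) (nat_lit 400) (nat_lit 189)) (XT.lf (nat_lit 0) (nat_lit 27746030927540) (nat_lit 0) (nat_lit 0) (nat_lit 0) (nat_lit 0) (nat_lit 0) (nat_lit 0) (nat_lit 1) (nat_lit 0) (nat_lit 1) (nat_lit 0) (nat_lit 492) (nat_lit 400) (nat_lit 188)))) (XT.nd (nat_lit 188) (nat_lit 0) (nat_lit 0) (XT.nd (nat_lit 94) (nat_lit 0) (nat_lit 0) (XT.lf (nat_lit 0) (nat_lit 29963847279262) (nat_lit 0) (nat_lit 0) (nat_lit 0) (nat_lit 0) (nat_lit 0) (nat_lit 0) (nat_lit 1) (nat_lit 0) (nat_lit 1) (nat_lit 0) (nat_lit 493) (nat_lit 400) (nat_lit 187)) (XT.lf (nat_lit 0) (nat_lit 32359088939143) (nat_lit 0) (nat_lit 0) (nat_lit 0) (nat_lit 0) (nat_lit 0) (nat_lit 0) (nat_lit 1) (nat_lit 0) (nat_lit 1) (nat_lit 0) (nat_lit 494) (nat_lit 400) (nat_lit 186))) (XT.nd (nat_lit 94) (nat_lit 0) (nat_lit 0) (XT.lf (nat_lit 0)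 (nat_lit 34945949931834) (nat_lit 0) (nat_lit 0) (nat_lit 0) (nat_lit 0) (nat_lit 0) (nat_lit 0) (nat_lit 1) (nat_lit 0) (nat_lit 1) (nat_lit 0) (nat_lit 495) (nat_lit 400) (nat_lit 185)) (XT.lf (nat_lit 0) (nat_lit 37739759803960) (nat_lit 0) (nat_lit 0) (nat_lit 0) (nat_lit 0) (nat_lit 0) (nat_lit 0) (nat_lit 1) (nat_lit 0) (nat_lit 1) (nat_lit 0) (nat_lit 496) (nat_lit 400) (nat_lit 184))))) (XT.nd (nat_lit 376) (nat_lit 0) (nat_lit 0) (XT.nd (nat_lit 188) (nat_lit 0) (nat_lit 0) (XT.nd (nat_lit 94) (nat_lit 0) (nat_lit 0) (XT.lf (nat_lit 0) (nat_lit 40757074465873) (nat_lit 0) (nat_lit 0) (nat_lit 0) (nat_lit 0) (nat_lit 0) (nat_lit 0) (nat_lit 1) (nat_lit 0) (nat_lit 1) (nat_lit 0) (nat_lit 497) (nat_lit 400) (nat_lit 183)) (XT.lf (nat_lit 0) (nat_lit 44015774300755) (nat_lit 0) (nat_lit 0) (nat_lit 0) (nat_lit 0) (nat_lit 0) (nat_lit 0) (nat_lit 1) (nat_lit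 0) (nat_lit 1) (nat_lit 0) (nat_lit 498) (nat_lit 400) (nat_lit 182))) (XT.nd (nat_lit 94) (nat_lit 0) (nat_lit 0) (XT.lf (nat_lit 0) (nat_lit 47535170122443) (nat_lit 0) (nat_lit 0) (nat_lit 0) (nat_lit 0) (nat_lit 0) (nat_lit 0) (nat_lit 1) (nat_lit 0) (nat_lit 1) (nat_lit 0) (nat_lit 499) (nat_lit 400) (nat_lit 181)) (XT.lf (nat_lit 0) (nat_lit 51336117609879) (nat_lit 0) (nat_lit 0) (nat_lit 0) (nat_lit 0) (nat_lit 0) (nat_lit 0) (nat_lit 1) (nat_lit 0) (nat_lit 1) (nat_lit 0) (nat_lit 500) (nat_lit 400) (nat_lit 180)))) (XT.nd (nat_lit 188) (nat_lit 0) (nat_lit 0) (XT.nd (nat_lit 94) (nat_lit 0) (nat_lit 0) (XT.lf (nat_lit 0) (nat_lit 55441140896323) (nat_lit 0) (nat_lit 0) (nat_lit 0) (nat_lit 0) (nat_lit 0) (nat_lit 0) (nat_lit 1) (nat_lit 0) (nat_lit 1) (nat_lit 0) (nat_lit 501) (nat_lit 400) (nat_lit 179)) (XT.lf (nat_lit 0) (nat_lit 59874566045694)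 (nat_lit 0) (nat_lit 0) (nat_lit 0) (nat_lit 0) (nat_lit 0) (nat_lit 0) (nat_lit 1) (nat_lit 0) (nat_lit 1) (nat_lit 0) (nat_lit 502) (nat_lit 400) (nat_lit 178))) (XT.nd (nat_lit 94) (nat_lit 0) (nat_lit 0) (XT.lf (nat_lit 0) (nat_lit 64662665207026) (nat_lit 0) (nat_lit 0) (nat_lit 0) (nat_lit 0) (nat_lit 0) (nat_lit 0) (nat_lit 1) (nat_lit 0) (nat_lit 1) (nat_lit 0) (nat_lit 503) (nat_lit 400) (nat_lit 177)) (XT.lf (nat_lit 0) (nat_lit 69833812301275) (nat_lit 0) (nat_lit 0) (nat_lit 0) (nat_lit 0) (nat_lit 0) (nat_lit 0) (nat_lit 1) (nat_lit 0) (nat_lit 1) (nat_lit 0) (nat_lit 504) (nat_lit 400) (nat_lit 176))))))))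
noncomputable def xc176 : XT := (XT.nd (nat_lit 2632) (nat_lit 4116) (nat_lit 0) (XT.nd (nat_lit 1316) (nat_lit 3696) (nat_lit 0) (XT.nd (nat_lit 658) (nat_lit 2604) (nat_lit 0) (XT.nd (nat_lit 282) (nat_lit 0) (nat_lit 168) (XT.nd (nat_lit 94) (nat_lit 0) (nat_lit 84) (XT.lf (nat_lit 0) (nat_lit 22335340693) (nat_lit 924) (nat_lit 12633055895) (nat_lit 924) (nat_lit 12633055895) (nat_lit 128) (nat_lit 3) (nat_lit 139) (nat_lit 3) (nat_lit 139) (nat_lit 5) (nat_lit 401) (nat_lit 401) (nat_lit 278)) (XT.nd (nat_lit 94) (nat_lit 0) (nat_lit 0) (XT.lf (nat_lit 0) (nat_lit 47372168376) (nat_lit 840) (nat_lit 46473040809) (nat_lit 924) (nat_lit 5120078995) (nat_lit 129) (nat_lit 5) (nat_lit 139) (nat_lit 5) (nat_lit 140) (nat_lit 5) (nat_lit 402) (nat_lit 401) (nat_lit 277)) (XT.lf (nat_lit 84) (nat_lit 34276787219) (nat_lit 0) (nat_lit 18173621179) (nat_lit 924)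 (nat_lit 50470221947) (nat_lit 130) (nat_lit 5) (nat_lit 129) (nat_lit 5) (nat_lit 140) (nat_lit 5) (nat_lit 403) (nat_lit 401) (nat_lit 276)))) (XT.nd (nat_lit 188) (nat_lit 0) (nat_lit 168) (XT.nd (nat_lit 94) (nat_lit 0) (nat_lit 84) (XT.lf (nat_lit 84) (nat_lit 15483595906) (nat_lit 0) (nat_lit 44507035505) (nat_lit 924) (nat_lit 47098982284) (nat_lit 131) (nat_lit 5) (nat_lit 130) (nat_lit 5) (nat_lit 141) (nat_lit 5) (nat_lit 404) (nat_lit 401) (nat_lit 275)) (XT.lf (nat_lit 0) (nat_lit 70236806095) (nat_lit 840) (nat_lit 3648543816) (nat_lit 924) (nat_lit 37601629109) (nat_lit 131) (nat_lit 5) (nat_lit 141) (nat_lit 5) (nat_lit 142) (nat_lit 5) (nat_lit 405) (nat_lit 401) (nat_lit 274))) (XT.nd (nat_lit 94) (nat_lit 0) (nat_lit 0) (XT.lf (nat_lit 0) (nat_lit 83670768448) (nat_lit 840) (nat_lit 22693067658) (nat_lit 924) (nat_lit 9753892782) (nat_lit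 132) (nat_lit 5) (nat_lit 142) (nat_lit 5) (nat_lit 143) (nat_lit 5) (nat_lit 406) (nat_lit 401) (nat_lit 273)) (XT.lf (nat_lit 84) (nat_lit 78544598136) (nat_lit 0) (nat_lit 22170752750) (nat_lit 924) (nat_lit 20276792703) (nat_lit 133) (nat_lit 5) (nat_lit 132) (nat_lit 5) (nat_lit 143) (nat_lit 5) (nat_lit 407) (nat_lit 401) (nat_lit 272))))) (XT.nd (nat_lit 282) (nat_lit 1176) (nat_lit 0) (XT.nd (nat_lit 94) (nat_lit 1008) (nat_lit 0) (XT.lf (nat_lit 0) (nat_lit 63403522364) (nat_lit 840) (nat_lit 58184381201) (nat_lit 924) (nat_lit 4545387719) (nat_lit 123) (nat_lit 5) (nat_lit 133) (nat_lit 5) (nat_lit 134) (nat_lit 5) (nat_lit 408) (nat_lit 401) (nat_lit 271)) (XT.nd (nat_lit 94) (nat_lit 420) (nat_lit 0) (XT.lf (nat_lit 0) (nat_lit 14469788674) (nat_lit 588) (nat_lit 83559530147) (nat_lit 84) (nat_lit 33525519190) (nat_lit 116) (nat_lit 5) (nat_lit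 123) (nat_lit 5) (nat_lit 117) (nat_lit 5) (nat_lit 409) (nat_lit 401) (nat_lit 270)) (XT.lf (nat_lit 0) (nat_lit 32424412255) (nat_lit 420) (nat_lit 5021901738) (nat_lit 504) (nat_lit 99830099604) (nat_lit 111) (nat_lit 5) (nat_lit 116) (nat_lit 5) (nat_lit 117) (nat_lit 5) (nat_lit 410) (nat_lit 401) (nat_lit 269)))) (XT.nd (nat_lit 188) (nat_lit 420) (nat_lit 0) (XT.nd (nat_lit 94) (nat_lit 336) (nat_lit 0) (XT.lf (nat_lit 0) (nat_lit 16295131827) (nat_lit 420) (nat_lit 49188865068) (nat_lit 504) (nat_lit 77810566556) (nat_lit 106) (nat_lit 5) (nat_lit 111) (nat_lit 5) (nat_lit 112) (nat_lit 5) (nat_lit 411) (nat_lit 401) (nat_lit 268)) (XT.lf (nat_lit 0) (nat_lit 270783660) (nat_lit 336) (nat_lit 98236577072) (nat_lit 420) (nat_lit 51149671247) (nat_lit 102) (nat_lit 5) (nat_lit 106) (nat_lit 5) (nat_lit 107) (nat_lit 5) (nat_lit 412) (nat_lit 401) (nat_lit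 267))) (XT.nd (nat_lit 94) (nat_lit 420) (nat_lit 0) (XT.lf (nat_lit 0) (nat_lit 137265863633) (nat_lit 420) (nat_lit 15042468648) (nat_lit 84) (nat_lit 4065502210) (nat_lit 102) (nat_lit 5) (nat_lit 107) (nat_lit 5) (nat_lit 103) (nat_lit 5) (nat_lit 413) (nat_lit 401) (nat_lit 266)) (XT.lf (nat_lit 0) (nat_lit 18788894078) (nat_lit 420) (nat_lit 31107761609) (nat_lit 84) (nat_lit 113529836316) (nat_lit 97) (nat_lit 5) (nat_lit 102) (nat_lit 5) (nat_lit 98) (nat_lit 5) (nat_lit 414) (nat_lit 401) (nat_lit 265)))))) (XT.nd (nat_lit 658) (nat_lit 1512) (nat_lit 0) (XT.nd (nat_lit 282) (nat_lit 1260) (nat_lit 0) (XT.nd (nat_lit 94) (nat_lit 588) (nat_lit 0) (XT.lf (nat_lit 0) (nat_lit 62258124197) (nat_lit 420) (nat_lit 47268245083) (nat_lit 84) (nat_lit 61340827255) (nat_lit 93) (nat_lit 5) (nat_lit 98) (nat_lit 5) (nat_lit 94) (nat_lit 5) (nat_lit 415) (nat_lit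 401) (nat_lit 264)) (XT.nd (nat_lit 94) (nat_lit 252) (nat_lit 0) (XT.lf (nat_lit 0) (nat_lit 112456601029) (nat_lit 420) (nat_lit 63024241260) (nat_lit 84) (nat_lit 3259729724) (nat_lit 89) (nat_lit 5) (nat_lit 94) (nat_lit 5) (nat_lit 90) (nat_lit 5) (nat_lit 416) (nat_lit 401) (nat_lit 263)) (XT.lf (nat_lit 0) (nat_lit 107814766834) (nat_lit 252) (nat_lit 63222704821) (nat_lit 336) (nat_lit 15988020092) (nat_lit 86) (nat_lit 5) (nat_lit 89) (nat_lit 5) (nat_lit 90) (nat_lit 5) (nat_lit 417) (nat_lit 401) (nat_lit 262)))) (XT.nd (nat_lit 188) (nat_lit 588) (nat_lit 0) (XT.nd (nat_lit 94) (nat_lit 252) (nat_lit 0) (XT.lf (nat_lit 0) (nat_lit 40761186630) (nat_lit 420) (nat_lit 95490667108) (nat_lit 84) (nat_lit 59508606605) (nat_lit 81) (nat_lit 5) (nat_lit 86) (nat_lit 5) (nat_lit 82) (nat_lit 5) (nat_lit 418) (nat_lit 401) (nat_lit 261)) (XT.lf (nat_lit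 0) (nat_lit 93444036966) (nat_lit 252) (nat_lit 11980602089) (nat_lit 336) (nat_lit 99559759860) (nat_lit 78) (nat_lit 5) (nat_lit 81) (nat_lit 5) (nat_lit 82) (nat_lit 5) (nat_lit 419) (nat_lit 401) (nat_lit 260))) (XT.nd (nat_lit 94) (nat_lit 336) (nat_lit 0) (XT.lf (nat_lit 0) (nat_lit 86884983055) (nat_lit 252) (nat_lit 93331336820) (nat_lit 336) (nat_lit 34482175088) (nat_lit 75) (nat_lit 5) (nat_lit 78) (nat_lit 5) (nat_lit 79) (nat_lit 5) (nat_lit 420) (nat_lit 401) (nat_lit 259)) (XT.lf (nat_lit 0) (nat_lit 38794622009) (nat_lit 336) (nat_lit 143769882439) (nat_lit 84) (nat_lit 42390322026) (nat_lit 71) (nat_lit 5) (nat_lit 75) (nat_lit 5) (nat_lit 72) (nat_lit 5) (nat_lit 421) (nat_lit 401) (nat_lit 258))))) (XT.nd (nat_lit 282) (nat_lit 756) (nat_lit 0) (XT.nd (nat_lit 94) (nat_lit 504) (nat_lit 0) (XT.lf (nat_lit 0) (nat_lit 75780314345) (nat_lit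 252) (nat_lit 45980742561) (nat_lit 336) (nat_lit 113990564449) (nat_lit 68) (nat_lit 5) (nat_lit 71) (nat_lit 5) (nat_lit 72) (nat_lit 5) (nat_lit 422) (nat_lit 401) (nat_lit 257)) (XT.nd (nat_lit 94) (nat_lit 336) (nat_lit 0) (XT.lf (nat_lit 0) (nat_lit 71400026489) (nat_lit 168) (nat_lit 145209771373) (nat_lit 252) (nat_lit 30540112398) (nat_lit 66) (nat_lit 5) (nat_lit 68) (nat_lit 5) (nat_lit 69) (nat_lit 5) (nat_lit 423) (nat_lit 401) (nat_lit 256)) (XT.lf (nat_lit 0) (nat_lit 62439519540) (nat_lit 336) (nat_lit 191169168216) (nat_lit 84) (nat_lit 5566845015) (nat_lit 62) (nat_lit 5) (nat_lit 66) (nat_lit 5) (nat_lit 63) (nat_lit 5) (nat_lit 424) (nat_lit 401) (nat_lit 255)))) (XT.nd (nat_lit 188) (nat_lit 336) (nat_lit 0) (XT.nd (nat_lit 94) (nat_lit 252) (nat_lit 0) (XT.lf (nat_lit 0) (nat_lit 64581780254) (nat_lit 168) (nat_lit 103788177863) (nat_lit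 252) (nat_lit 103439093442) (nat_lit 60) (nat_lit 5) (nat_lit 62) (nat_lit 5) (nat_lit 63) (nat_lit 5) (nat_lit 425) (nat_lit 401) (nat_lit 254)) (XT.lf (nat_lit 0) (nat_lit 2773867293) (nat_lit 252) (nat_lit 221833064947) (nat_lit 84) (nat_lit 60580082433) (nat_lit 57) (nat_lit 5) (nat_lit 60) (nat_lit 5) (nat_lit 58) (nat_lit 5) (nat_lit 426) (nat_lit 401) (nat_lit 253))) (XT.nd (nat_lit 94) (nat_lit 168) (nat_lit 0) (XT.lf (nat_lit 0) (nat_lit 61956017001) (nat_lit 168) (nat_lit 58338293145) (nat_lit 252) (nat_lit 178934396188) (nat_lit 55) (nat_lit 5) (nat_lit 57) (nat_lit 5) (nat_lit 58) (nat_lit 5) (nat_lit 427) (nat_lit 401) (nat_lit 252)) (XT.lf (nat_lit 0) (nat_lit 62203569765) (nat_lit 168) (nat_lit 191803998556) (nat_lit 252) (nat_lit 60046606011) (nat_lit 53) (nat_lit 5) (nat_lit 55) (nat_lit 5) (nat_lit 56) (nat_lit 5) (nat_lit 428) (nat_lit 401)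 (nat_lit 251))))))) (XT.nd (nat_lit 1316) (nat_lit 1764) (nat_lit 0) (XT.nd (nat_lit 658) (nat_lit 1176) (nat_lit 0) (XT.nd (nat_lit 282) (nat_lit 588) (nat_lit 0) (XT.nd (nat_lit 94) (nat_lit 336) (nat_lit 0) (XT.lf (nat_lit 0) (nat_lit 64187117250) (nat_lit 168) (nat_lit 8163829820) (nat_lit 252) (nat_lit 257352052365) (nat_lit 50) (nat_lit 5) (nat_lit 52) (nat_lit 5) (nat_lit 53) (nat_lit 5) (nat_lit 429) (nat_lit 401) (nat_lit 250)) (XT.nd (nat_lit 94) (nat_lit 168) (nat_lit 0) (XT.lf (nat_lit 0) (nat_lit 66181251744) (nat_lit 168) (nat_lit 155544478038) (nat_lit 252) (nat_lit 124404323936) (nat_lit 48) (nat_lit 5) (nat_lit 50) (nat_lit 5) (nat_lit 51) (nat_lit 5) (nat_lit 430) (nat_lit 401) (nat_lit 249)) (XT.lf (nat_lit 0) (nat_lit 25270484206) (nat_lit 168) (nat_lit 292251825948) (nat_lit 84) (nat_lit 45998734303) (nat_lit 46) (nat_lit 5) (nat_lit 48)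 (nat_lit 5) (nat_lit 47) (nat_lit 5) (nat_lit 431) (nat_lit 401) (nat_lit 248)))) (XT.nd (nat_lit 188) (nat_lit 336) (nat_lit 0) (XT.nd (nat_lit 94) (nat_lit 84) (nat_lit 0) (XT.lf (nat_lit 0) (nat_lit 76158779822) (nat_lit 168) (nat_lit 115228273518) (nat_lit 252) (nat_lit 190372975465) (nat_lit 44) (nat_lit 5) (nat_lit 46) (nat_lit 5) (nat_lit 47) (nat_lit 5) (nat_lit 432) (nat_lit 401) (nat_lit 247)) (XT.lf (nat_lit 0) (nat_lit 84276315075) (nat_lit 84) (nat_lit 294618479165) (nat_lit 168) (nat_lit 22158245348) (nat_lit 43) (nat_lit 5) (nat_lit 44) (nat_lit 5) (nat_lit 45) (nat_lit 4) (nat_lit 433) (nat_lit 401) (nat_lit 246))) (XT.nd (nat_lit 94) (nat_lit 84) (nat_lit 0) (XT.lf (nat_lit 0) (nat_lit 93092092022) (nat_lit 168) (nat_lit 70122929706) (nat_lit 252) (nat_lit 258109607141) (nat_lit 40) (nat_lit 5) (nat_lit 42) (nat_lit 5) (nat_lit 43) (nat_lit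 5) (nat_lit 434) (nat_lit 401) (nat_lit 245)) (XT.lf (nat_lit 0) (nat_lit 104303628451) (nat_lit 84) (nat_lit 268275918424) (nat_lit 168) (nat_lit 70123350240) (nat_lit 39) (nat_lit 5) (nat_lit 40) (nat_lit 5) (nat_lit 41) (nat_lit 4) (nat_lit 435) (nat_lit 401) (nat_lit 244))))) (XT.nd (nat_lit 282) (nat_lit 588) (nat_lit 0) (XT.nd (nat_lit 94) (nat_lit 336) (nat_lit 0) (XT.lf (nat_lit 0) (nat_lit 118086196761) (nat_lit 168) (nat_lit 19399084780) (nat_lit 252) (nat_lit 327760538688) (nat_lit 36) (nat_lit 5) (nat_lit 38) (nat_lit 5) (nat_lit 39) (nat_lit 5) (nat_lit 436) (nat_lit 401) (nat_lit 243)) (XT.nd (nat_lit 94) (nat_lit 252) (nat_lit 0) (XT.lf (nat_lit 0) (nat_lit 132959632843) (nat_lit 84) (nat_lit 238279665283) (nat_lit 168) (nat_lit 117695727166) (nat_lit 35) (nat_lit 5) (nat_lit 36) (nat_lit 5) (nat_lit 37) (nat_lit 4) (nat_lit 437) (nat_lit 401)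 (nat_lit 242)) (XT.lf (nat_lit 0) (nat_lit 115124421649) (nat_lit 252) (nat_lit 362167463140) (nat_lit 84) (nat_lit 36670035615) (nat_lit 32) (nat_lit 5) (nat_lit 35) (nat_lit 5) (nat_lit 33) (nat_lit 4) (nat_lit 438) (nat_lit 401) (nat_lit 241)))) (XT.nd (nat_lit 188) (nat_lit 252) (nat_lit 0) (XT.nd (nat_lit 94) (nat_lit 252) (nat_lit 0) (XT.lf (nat_lit 0) (nat_lit 171604726498) (nat_lit 84) (nat_lit 203896470061) (nat_lit 168) (nat_lit 164740573702) (nat_lit 31) (nat_lit 5) (nat_lit 32) (nat_lit 5) (nat_lit 33) (nat_lit 4) (nat_lit 439) (nat_lit 401) (nat_lit 240)) (XT.lf (nat_lit 0) (nat_lit 96365840574) (nat_lit 252) (nat_lit 372138513148) (nat_lit 84) (nat_lit 99495843564) (nat_lit 28) (nat_lit 5) (nat_lit 31) (nat_lit 5) (nat_lit 29) (nat_lit 4) (nat_lit 440) (nat_lit 401) (nat_lit 239))) (XT.nd (nat_lit 94) (nat_lit 168) (nat_lit 0) (XT.lf (nat_lit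 0) (nat_lit 221803563547) (nat_lit 84) (nat_lit 164290198549) (nat_lit 168) (nat_lit 211075268053) (nat_lit 27) (nat_lit 5) (nat_lit 28) (nat_lit 5) (nat_lit 29) (nat_lit 4) (nat_lit 441) (nat_lit 401) (nat_lit 238)) (XT.lf (nat_lit 0) (nat_lit 81405824510) (nat_lit 168) (nat_lit 375678820846) (nat_lit 84) (nat_lit 170865411522) (nat_lit 25) (nat_lit 5) (nat_lit 27) (nat_lit 5) (nat_lit 26) (nat_lit 4) (nat_lit 442) (nat_lit 401) (nat_lit 237)))))) (XT.nd (nat_lit 658) (nat_lit 924) (nat_lit 0) (XT.nd (nat_lit 282) (nat_lit 504) (nat_lit 0) (XT.nd (nat_lit 94) (nat_lit 252) (nat_lit 0) (XT.lf (nat_lit 0) (nat_lit 285352600977) (nat_lit 84) (nat_lit 118507640336) (nat_lit 168) (nat_lit 256461817615) (nat_lit 24) (nat_lit 5) (nat_lit 25) (nat_lit 5) (nat_lit 26) (nat_lit 4) (nat_lit 443) (nat_lit 401) (nat_lit 236)) (XT.nd (nat_lit 94) (nat_lit 84) (nat_lit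 0) (XT.lf (nat_lit 0) (nat_lit 70834227334) (nat_lit 168) (nat_lit 371514611597) (nat_lit 84) (nat_lit 252099327526) (nat_lit 22) (nat_lit 5) (nat_lit 24) (nat_lit 5) (nat_lit 23) (nat_lit 4) (nat_lit 444) (nat_lit 401) (nat_lit 235)) (XT.lf (nat_lit 0) (nat_lit 364311229479) (nat_lit 84) (nat_lit 65462485350) (nat_lit 168) (nat_lit 300598186567) (nat_lit 21) (nat_lit 5) (nat_lit 22) (nat_lit 5) (nat_lit 23) (nat_lit 4) (nat_lit 445) (nat_lit 401) (nat_lit 234)))) (XT.nd (nat_lit 188) (nat_lit 252) (nat_lit 0) (XT.nd (nat_lit 94) (nat_lit 84) (nat_lit 0) (XT.lf (nat_lit 0) (nat_lit 65344242577) (nat_lit 168) (nat_lit 358163337182) (nat_lit 84) (nat_lit 344692782584) (nat_lit 19) (nat_lit 5) (nat_lit 21) (nat_lit 5) (nat_lit 20) (nat_lit 4) (nat_lit 446) (nat_lit 401) (nat_lit 233)) (XT.lf (nat_lit 0) (nat_lit 461036938475) (nat_lit 84) (nat_lit 3917237797)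 (nat_lit 168) (nat_lit 343108351617) (nat_lit 18) (nat_lit 5) (nat_lit 19) (nat_lit 5) (nat_lit 20) (nat_lit 4) (nat_lit 447) (nat_lit 401) (nat_lit 232))) (XT.nd (nat_lit 94) (nat_lit 84) (nat_lit 0) (XT.lf (nat_lit 0) (nat_lit 65746766136) (nat_lit 168) (nat_lit 333904086330) (nat_lit 84) (nat_lit 450338296764) (nat_lit 16) (nat_lit 5) (nat_lit 18) (nat_lit 5) (nat_lit 17) (nat_lit 4) (nat_lit 448) (nat_lit 401) (nat_lit 231)) (XT.lf (nat_lit 0) (nat_lit 511742274185) (nat_lit 168) (nat_lit 317048168632) (nat_lit 0) (nat_lit 65375579799) (nat_lit 15) (nat_lit 5) (nat_lit 17) (nat_lit 4) (nat_lit 15) (nat_lit 4) (nat_lit 449) (nat_lit 401) (nat_lit 230))))) (XT.nd (nat_lit 282) (nat_lit 504) (nat_lit 0) (XT.nd (nat_lit 94) (nat_lit 252) (nat_lit 0) (XT.lf (nat_lit 0) (nat_lit 72986695899) (nat_lit 168) (nat_lit 296744031455) (nat_lit 84) (nat_lit 570951287389)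 (nat_lit 13) (nat_lit 5) (nat_lit 15) (nat_lit 5) (nat_lit 14) (nat_lit 4) (nat_lit 450) (nat_lit 401) (nat_lit 229)) (XT.nd (nat_lit 94) (nat_lit 168) (nat_lit 0) (XT.lf (nat_lit 0) (nat_lit 570798676991) (nat_lit 168) (nat_lit 273151376131) (nat_lit 0) (nat_lit 145687422706) (nat_lit 12) (nat_lit 5) (nat_lit 14) (nat_lit 4) (nat_lit 12) (nat_lit 4) (nat_lit 451) (nat_lit 401) (nat_lit 228)) (XT.lf (nat_lit 0) (nat_lit 88161416112) (nat_lit 168) (nat_lit 244380403236) (nat_lit 84) (nat_lit 708698828539) (nat_lit 10) (nat_lit 5) (nat_lit 12) (nat_lit 5) (nat_lit 11) (nat_lit 4) (nat_lit 452) (nat_lit 401) (nat_lit 227)))) (XT.nd (nat_lit 188) (nat_lit 252) (nat_lit 0) (XT.nd (nat_lit 94) (nat_lit 168) (nat_lit 0) (XT.lf (nat_lit 0) (nat_lit 643777513373) (nat_lit 168) (nat_lit 212805196225) (nat_lit 0) (nat_lit 238909556802) (nat_lit 9) (nat_lit 5) (nat_lit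 11) (nat_lit 4) (nat_lit 9) (nat_lit 4) (nat_lit 453) (nat_lit 401) (nat_lit 226)) (XT.lf (nat_lit 0) (nat_lit 112541745288) (nat_lit 168) (nat_lit 174157421174) (nat_lit 84) (nat_lit 866031993242) (nat_lit 7) (nat_lit 5) (nat_lit 9) (nat_lit 5) (nat_lit 8) (nat_lit 4) (nat_lit 454) (nat_lit 401) (nat_lit 225))) (XT.nd (nat_lit 94) (nat_lit 168) (nat_lit 0) (XT.lf (nat_lit 0) (nat_lit 732638324045) (nat_lit 168) (nat_lit 133164594050) (nat_lit 0) (nat_lit 347049716125) (nat_lit 6) (nat_lit 5) (nat_lit 8) (nat_lit 4) (nat_lit 6) (nat_lit 4) (nat_lit 455) (nat_lit 401) (nat_lit 224)) (XT.lf (nat_lit 0) (nat_lit 147595661249) (nat_lit 168) (nat_lit 83017537014) (nat_lit 84) (nat_lit 1045722216916) (nat_lit 4) (nat_lit 5) (nat_lit 6) (nat_lit 5) (nat_lit 5) (nat_lit 4) (nat_lit 456) (nat_lit 401) (nat_lit 223))))))))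
noncomputable def xc177 : XT := (XT.nd (nat_lit 2632) (nat_lit 0) (nat_lit 0) (XT.nd (nat_lit 1316) (nat_lit 0) (nat_lit 0) (XT.nd (nat_lit 658) (nat_lit 0) (nat_lit 0) (XT.nd (nat_lit 282) (nat_lit 0) (nat_lit 0) (XT.nd (nat_lit 94) (nat_lit 252) (nat_lit 0) (XT.lf (nat_lit 0) (nat_lit 839616716226) (nat_lit 168) (nat_lit 30956544278) (nat_lit 0) (nat_lit 472389407020) (nat_lit 3) (nat_lit 5) (nat_lit 5) (nat_lit 4) (nat_lit 3) (nat_lit 4) (nat_lit 457) (nat_lit 401) (nat_lit 222)) (XT.nd (nat_lit 94) (nat_lit 0) (nat_lit 0) (XT.lf (nat_lit 0) (nat_lit 2050206102909) (nat_lit 0) (nat_lit 0) (nat_lit 0) (nat_lit 0) (nat_lit 0) (nat_lit 0) (nat_lit 1) (nat_lit 0) (nat_lit 1) (nat_lit 0) (nat_lit 458) (nat_lit 401) (nat_lit 221)) (XT.lf (nat_lit 0) (nat_lit 2212207175441) (nat_lit 0) (nat_lit 0) (nat_lit 0) (nat_lit 0) (nat_lit 0) (nat_lit 0) (nat_lit 1) (nat_lit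 0) (nat_lit 1) (nat_lit 0) (nat_lit 459) (nat_lit 401) (nat_lit 220)))) (XT.nd (nat_lit 188) (nat_lit 0) (nat_lit 0) (XT.nd (nat_lit 94) (nat_lit 0) (nat_lit 0) (XT.lf (nat_lit 0) (nat_lit 2387168334053) (nat_lit 0) (nat_lit 0) (nat_lit 0) (nat_lit 0) (nat_lit 0) (nat_lit 0) (nat_lit 1) (nat_lit 0) (nat_lit 1) (nat_lit 0) (nat_lit 460) (nat_lit 401) (nat_lit 219)) (XT.lf (nat_lit 0) (nat_lit 2576126385610) (nat_lit 0) (nat_lit 0) (nat_lit 0) (nat_lit 0) (nat_lit 0) (nat_lit 0) (nat_lit 1) (nat_lit 0) (nat_lit 1) (nat_lit 0) (nat_lit 461) (nat_lit 401) (nat_lit 218))) (XT.nd (nat_lit 94) (nat_lit 0) (nat_lit 0) (XT.lf (nat_lit 0) (nat_lit 2780201081529) (nat_lit 0) (nat_lit 0) (nat_lit 0) (nat_lit 0) (nat_lit 0) (nat_lit 0) (nat_lit 1) (nat_lit 0) (nat_lit 1) (nat_lit 0) (nat_lit 462) (nat_lit 401) (nat_lit 217)) (XT.lf (nat_lit 0) (nat_lit 3000601753341) (nat_lit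 0) (nat_lit 0) (nat_lit 0) (nat_lit 0) (nat_lit 0) (nat_lit 0) (nat_lit 1) (nat_lit 0) (nat_lit 1) (nat_lit 0) (nat_lit 463) (nat_lit 401) (nat_lit 216))))) (XT.nd (nat_lit 282) (nat_lit 0) (nat_lit 0) (XT.nd (nat_lit 94) (nat_lit 0) (nat_lit 0) (XT.lf (nat_lit 0) (nat_lit 3238634479102) (nat_lit 0) (nat_lit 0) (nat_lit 0) (nat_lit 0) (nat_lit 0) (nat_lit 0) (nat_lit 1) (nat_lit 0) (nat_lit 1) (nat_lit 0) (nat_lit 464) (nat_lit 401) (nat_lit 215)) (XT.nd (nat_lit 94) (nat_lit 0) (nat_lit 0) (XT.lf (nat_lit 0) (nat_lit 3495709823112) (nat_lit 0) (nat_lit 0) (nat_lit 0) (nat_lit 0) (nat_lit 0) (nat_lit 0) (nat_lit 1) (nat_lit 0) (nat_lit 1) (nat_lit 0) (nat_lit 465) (nat_lit 401) (nat_lit 214)) (XT.lf (nat_lit 0) (nat_lit 3773351194817) (nat_lit 0) (nat_lit 0) (nat_lit 0) (nat_lit 0) (nat_lit 0) (nat_lit 0) (nat_lit 1) (nat_lit 0) (nat_lit 1) (nat_lit 0) (nat_lit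 466) (nat_lit 401) (nat_lit 213)))) (XT.nd (nat_lit 188) (nat_lit 0) (nat_lit 0) (XT.nd (nat_lit 94) (nat_lit 0) (nat_lit 0) (XT.lf (nat_lit 0) (nat_lit 4073203876421) (nat_lit 0) (nat_lit 0) (nat_lit 0) (nat_lit 0) (nat_lit 0) (nat_lit 0) (nat_lit 1) (nat_lit 0) (nat_lit 1) (nat_lit 0) (nat_lit 467) (nat_lit 401) (nat_lit 212)) (XT.lf (nat_lit 0) (nat_lit 4397044772702) (nat_lit 0) (nat_lit 0) (nat_lit 0) (nat_lit 0) (nat_lit 0) (nat_lit 0) (nat_lit 1) (nat_lit 0) (nat_lit 1) (nat_lit 0) (nat_lit 468) (nat_lit 401) (nat_lit 211))) (XT.nd (nat_lit 94) (nat_lit 0) (nat_lit 0) (XT.lf (nat_lit 0) (nat_lit 4746792940825) (nat_lit 0) (nat_lit 0) (nat_lit 0) (nat_lit 0) (nat_lit 0) (nat_lit 0) (nat_lit 1) (nat_lit 0) (nat_lit 1) (nat_lit 0) (nat_lit 469) (nat_lit 401) (nat_lit 210)) (XT.lf (nat_lit 0) (nat_lit 5124520962526) (nat_lit 0) (nat_lit 0) (nat_lit 0) (nat_lit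 0) (nat_lit 0) (nat_lit 0) (nat_lit 1) (nat_lit 0) (nat_lit 1) (nat_lit 0) (nat_lit 470) (nat_lit 401) (nat_lit 209)))))) (XT.nd (nat_lit 658) (nat_lit 0) (nat_lit 0) (XT.nd (nat_lit 282) (nat_lit 0) (nat_lit 0) (XT.nd (nat_lit 94) (nat_lit 0) (nat_lit 0) (XT.lf (nat_lit 0) (nat_lit 5532467226081) (nat_lit 0) (nat_lit 0) (nat_lit 0) (nat_lit 0) (nat_lit 0) (nat_lit 0) (nat_lit 1) (nat_lit 0) (nat_lit 1) (nat_lit 0) (nat_lit 471) (nat_lit 401) (nat_lit 208)) (XT.nd (nat_lit 94) (nat_lit 0) (nat_lit 0) (XT.lf (nat_lit 0) (nat_lit 5973049190831) (nat_lit 0) (nat_lit 0) (nat_lit 0) (nat_lit 0) (nat_lit 0) (nat_lit 0) (nat_lit 1) (nat_lit 0) (nat_lit 1) (nat_lit 0) (nat_lit 472) (nat_lit 401) (nat_lit 207)) (XT.lf (nat_lit 0) (nat_lit 6448877712863) (nat_lit 0) (nat_lit 0) (nat_lit 0) (nat_lit 0) (nat_lit 0) (nat_lit 0) (nat_lit 1) (nat_lit 0) (nat_lit 1) (nat_lit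 0) (nat_lit 473) (nat_lit 401) (nat_lit 206)))) (XT.nd (nat_lit 188) (nat_lit 0) (nat_lit 0) (XT.nd (nat_lit 94) (nat_lit 0) (nat_lit 0) (XT.lf (nat_lit 0) (nat_lit 6962772516751) (nat_lit 0) (nat_lit 0) (nat_lit 0) (nat_lit 0) (nat_lit 0) (nat_lit 0) (nat_lit 1) (nat_lit 0) (nat_lit 1) (nat_lit 0) (nat_lit 474) (nat_lit 401) (nat_lit 205)) (XT.lf (nat_lit 0) (nat_lit 7517778905038) (nat_lit 0) (nat_lit 0) (nat_lit 0) (nat_lit 0) (nat_lit 0) (nat_lit 0) (nat_lit 1) (nat_lit 0) (nat_lit 1) (nat_lit 0) (nat_lit 475) (nat_lit 401) (nat_lit 204))) (XT.nd (nat_lit 94) (nat_lit 0) (nat_lit 0) (XT.lf (nat_lit 0) (nat_lit 8117185804469) (nat_lit 0) (nat_lit 0) (nat_lit 0) (nat_lit 0) (nat_lit 0) (nat_lit 0) (nat_lit 1) (nat_lit 0) (nat_lit 1) (nat_lit 0) (nat_lit 476) (nat_lit 401) (nat_lit 203)) (XT.lf (nat_lit 0) (nat_lit 8764545255929) (nat_lit 0) (nat_lit 0) (nat_lit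 0) (nat_lit 0) (nat_lit 0) (nat_lit 0) (nat_lit 1) (nat_lit 0) (nat_lit 1) (nat_lit 0) (nat_lit 477) (nat_lit 401) (nat_lit 202))))) (XT.nd (nat_lit 282) (nat_lit 0) (nat_lit 0) (XT.nd (nat_lit 94) (nat_lit 0) (nat_lit 0) (XT.lf (nat_lit 0) (nat_lit 9463693463575) (nat_lit 0) (nat_lit 0) (nat_lit 0) (nat_lit 0) (nat_lit 0) (nat_lit 0) (nat_lit 1) (nat_lit 0) (nat_lit 1) (nat_lit 0) (nat_lit 478) (nat_lit 401) (nat_lit 201)) (XT.nd (nat_lit 94) (nat_lit 0) (nat_lit 0) (XT.lf (nat_lit 0) (nat_lit 10218773527897) (nat_lit 0) (nat_lit 0) (nat_lit 0) (nat_lit 0) (nat_lit 0) (nat_lit 0) (nat_lit 1) (nat_lit 0) (nat_lit 1) (nat_lit 0) (nat_lit 479) (nat_lit 401) (nat_lit 200)) (XT.lf (nat_lit 0) (nat_lit 11034259997424) (nat_lit 0) (nat_lit 0) (nat_lit 0) (nat_lit 0) (nat_lit 0) (nat_lit 0) (nat_lit 1) (nat_lit 0) (nat_lit 1) (nat_lit 0) (nat_lit 480) (nat_lit 401)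 (nat_lit 199)))) (XT.nd (nat_lit 188) (nat_lit 0) (nat_lit 0) (XT.nd (nat_lit 94) (nat_lit 0) (nat_lit 0) (XT.lf (nat_lit 0) (nat_lit 11914985384568) (nat_lit 0) (nat_lit 0) (nat_lit 0) (nat_lit 0) (nat_lit 0) (nat_lit 0) (nat_lit 1) (nat_lit 0) (nat_lit 1) (nat_lit 0) (nat_lit 481) (nat_lit 401) (nat_lit 198)) (XT.lf (nat_lit 0) (nat_lit 12866168802735) (nat_lit 0) (nat_lit 0) (nat_lit 0) (nat_lit 0) (nat_lit 0) (nat_lit 0) (nat_lit 1) (nat_lit 0) (nat_lit 1) (nat_lit 0) (nat_lit 482) (nat_lit 401) (nat_lit 197))) (XT.nd (nat_lit 94) (nat_lit 0) (nat_lit 0) (XT.lf (nat_lit 0) (nat_lit 13893446894402) (nat_lit 0) (nat_lit 0) (nat_lit 0) (nat_lit 0) (nat_lit 0) (nat_lit 0) (nat_lit 1) (nat_lit 0) (nat_lit 1) (nat_lit 0) (nat_lit 483) (nat_lit 401) (nat_lit 196)) (XT.lf (nat_lit 0) (nat_lit 15002907233446) (nat_lit 0) (nat_lit 0) (nat_lit 0) (nat_lit 0) (nat_lit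 0) (nat_lit 0) (nat_lit 1) (nat_lit 0) (nat_lit 1) (nat_lit 0) (nat_lit 484) (nat_lit 401) (nat_lit 195))))))) (XT.nd (nat_lit 1316) (nat_lit 0) (nat_lit 0) (XT.nd (nat_lit 658) (nat_lit 0) (nat_lit 0) (XT.nd (nat_lit 282) (nat_lit 0) (nat_lit 0) (XT.nd (nat_lit 94) (nat_lit 0) (nat_lit 0) (XT.lf (nat_lit 0) (nat_lit 16201124399655) (nat_lit 0) (nat_lit 0) (nat_lit 0) (nat_lit 0) (nat_lit 0) (nat_lit 0) (nat_lit 1) (nat_lit 0) (nat_lit 1) (nat_lit 0) (nat_lit 485) (nat_lit 401) (nat_lit 194)) (XT.nd (nat_lit 94) (nat_lit 0) (nat_lit 0) (XT.lf (nat_lit 0) (nat_lit 17495198939197) (nat_lit 0) (nat_lit 0) (nat_lit 0) (nat_lit 0) (nat_lit 0) (nat_lit 0) (nat_lit 1) (nat_lit 0) (nat_lit 1) (nat_lit 0) (nat_lit 486) (nat_lit 401) (nat_lit 193)) (XT.lf (nat_lit 0) (nat_lit 18892799441938) (nat_lit 0) (nat_lit 0) (nat_lit 0) (nat_lit 0) (nat_lit 0) (nat_lit 0) (nat_lit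 1) (nat_lit 0) (nat_lit 1) (nat_lit 0) (nat_lit 487) (nat_lit 401) (nat_lit 192)))) (XT.nd (nat_lit 188) (nat_lit 0) (nat_lit 0) (XT.nd (nat_lit 94) (nat_lit 0) (nat_lit 0) (XT.lf (nat_lit 0) (nat_lit 20402207984929) (nat_lit 0) (nat_lit 0) (nat_lit 0) (nat_lit 0) (nat_lit 0) (nat_lit 0) (nat_lit 1) (nat_lit 0) (nat_lit 1) (nat_lit 0) (nat_lit 488) (nat_lit 401) (nat_lit 191)) (XT.lf (nat_lit 0) (nat_lit 22032369211390) (nat_lit 0) (nat_lit 0) (nat_lit 0) (nat_lit 0) (nat_lit 0) (nat_lit 0) (nat_lit 1) (nat_lit 0) (nat_lit 1) (nat_lit 0) (nat_lit 489) (nat_lit 401) (nat_lit 190))) (XT.nd (nat_lit 94) (nat_lit 0) (nat_lit 0) (XT.lf (nat_lit 0) (nat_lit 23792943335996) (nat_lit 0) (nat_lit 0) (nat_lit 0) (nat_lit 0) (nat_lit 0) (nat_lit 0) (nat_lit 1) (nat_lit 0) (nat_lit 1) (nat_lit 0) (nat_lit 490) (nat_lit 401) (nat_lit 189)) (XT.lf (nat_lit 0) (nat_lit 25694363390595)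 (nat_lit 0) (nat_lit 0) (nat_lit 0) (nat_lit 0) (nat_lit 0) (nat_lit 0) (nat_lit 1) (nat_lit 0) (nat_lit 1) (nat_lit 0) (nat_lit 491) (nat_lit 401) (nat_lit 188))))) (XT.nd (nat_lit 282) (nat_lit 0) (nat_lit 0) (XT.nd (nat_lit 94) (nat_lit 0) (nat_lit 0) (XT.lf (nat_lit 0) (nat_lit 27747897049586) (nat_lit 0) (nat_lit 0) (nat_lit 0) (nat_lit 0) (nat_lit 0) (nat_lit 0) (nat_lit 1) (nat_lit 0) (nat_lit 1) (nat_lit 0) (nat_lit 492) (nat_lit 401) (nat_lit 187)) (XT.nd (nat_lit 94) (nat_lit 0) (nat_lit 0) (XT.lf (nat_lit 0) (nat_lit 29965713401317) (nat_lit 0) (nat_lit 0) (nat_lit 0) (nat_lit 0) (nat_lit 0) (nat_lit 0) (nat_lit 1) (nat_lit 0) (nat_lit 1) (nat_lit 0) (nat_lit 493) (nat_lit 401) (nat_lit 186)) (XT.lf (nat_lit 0) (nat_lit 32360955061208) (nat_lit 0) (nat_lit 0) (nat_lit 0) (nat_lit 0) (nat_lit 0) (nat_lit 0) (nat_lit 1) (nat_lit 0) (nat_lit 1) (nat_lit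 0) (nat_lit 494) (nat_lit 401) (nat_lit 185)))) (XT.nd (nat_lit 188) (nat_lit 0) (nat_lit 0) (XT.nd (nat_lit 94) (nat_lit 0) (nat_lit 0) (XT.lf (nat_lit 0) (nat_lit 34947816053909) (nat_lit 0) (nat_lit 0) (nat_lit 0) (nat_lit 0) (nat_lit 0) (nat_lit 0) (nat_lit 1) (nat_lit 0) (nat_lit 1) (nat_lit 0) (nat_lit 495) (nat_lit 401) (nat_lit 184)) (XT.lf (nat_lit 0) (nat_lit 37741625926043) (nat_lit 0) (nat_lit 0) (nat_lit 0) (nat_lit 0) (nat_lit 0) (nat_lit 0) (nat_lit 1) (nat_lit 0) (nat_lit 1) (nat_lit 0) (nat_lit 496) (nat_lit 401) (nat_lit 183))) (XT.nd (nat_lit 94) (nat_lit 0) (nat_lit 0) (XT.lf (nat_lit 0) (nat_lit 40758940587963) (nat_lit 0) (nat_lit 0) (nat_lit 0) (nat_lit 0) (nat_lit 0) (nat_lit 0) (nat_lit 1) (nat_lit 0) (nat_lit 1) (nat_lit 0) (nat_lit 497) (nat_lit 401) (nat_lit 182)) (XT.lf (nat_lit 0) (nat_lit 44017640422853) (nat_lit 0) (nat_lit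 0) (nat_lit 0) (nat_lit 0) (nat_lit 0) (nat_lit 0) (nat_lit 1) (nat_lit 0) (nat_lit 1) (nat_lit 0) (nat_lit 498) (nat_lit 401) (nat_lit 181)))))) (XT.nd (nat_lit 58844) (nat_lit 0) (nat_lit 9324) (XT.nd (nat_lit 282) (nat_lit 0) (nat_lit 0) (XT.nd (nat_lit 94) (nat_lit 0) (nat_lit 0) (XT.lf (nat_lit 0) (nat_lit 47537036244547) (nat_lit 0) (nat_lit 0) (nat_lit 0) (nat_lit 0) (nat_lit 0) (nat_lit 0) (nat_lit 1) (nat_lit 0) (nat_lit 1) (nat_lit 0) (nat_lit 499) (nat_lit 401) (nat_lit 180)) (XT.nd (nat_lit 94) (nat_lit 0) (nat_lit 0) (XT.lf (nat_lit 0) (nat_lit 51337983731989) (nat_lit 0) (nat_lit 0) (nat_lit 0) (nat_lit 0) (nat_lit 0) (nat_lit 0) (nat_lit 1) (nat_lit 0) (nat_lit 1) (nat_lit 0) (nat_lit 500) (nat_lit 401) (nat_lit 179)) (XT.lf (nat_lit 0) (nat_lit 55443007018439) (nat_lit 0) (nat_lit 0) (nat_lit 0) (nat_lit 0) (nat_lit 0) (nat_lit 0) (nat_lit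 1) (nat_lit 0) (nat_lit 1) (nat_lit 0) (nat_lit 501) (nat_lit 401) (nat_lit 178)))) (XT.nd (nat_lit 58374) (nat_lit 0) (nat_lit 10752) (XT.nd (nat_lit 94) (nat_lit 0) (nat_lit 0) (XT.lf (nat_lit 0) (nat_lit 59876432167816) (nat_lit 0) (nat_lit 0) (nat_lit 0) (nat_lit 0) (nat_lit 0) (nat_lit 0) (nat_lit 1) (nat_lit 0) (nat_lit 1) (nat_lit 0) (nat_lit 502) (nat_lit 401) (nat_lit 177)) (XT.lf (nat_lit 0) (nat_lit 64664531329153) (nat_lit 0) (nat_lit 0) (nat_lit 0) (nat_lit 0) (nat_lit 0) (nat_lit 0) (nat_lit 1) (nat_lit 0) (nat_lit 1) (nat_lit 0) (nat_lit 503) (nat_lit 401) (nat_lit 176))) (XT.nd (nat_lit 94) (nat_lit 0) (nat_lit 84) (XT.lf (nat_lit 0) (nat_lit 24133072162) (nat_lit 924) (nat_lit 13637975655) (nat_lit 924) (nat_lit 13637975655) (nat_lit 128) (nat_lit 3) (nat_lit 139) (nat_lit 3) (nat_lit 139) (nat_lit 5) (nat_lit 402) (nat_lit 402) (nat_lit 276))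 (XT.lf (nat_lit 0) (nat_lit 51182158873) (nat_lit 840) (nat_lit 50178767079) (nat_lit 924) (nat_lit 5520574431) (nat_lit 129) (nat_lit 5) (nat_lit 139) (nat_lit 5) (nat_lit 140) (nat_lit 5) (nat_lit 403) (nat_lit 402) (nat_lit 275))))) (XT.nd (nat_lit 376) (nat_lit 1512) (nat_lit 0) (XT.nd (nat_lit 188) (nat_lit 0) (nat_lit 168) (XT.nd (nat_lit 94) (nat_lit 0) (nat_lit 84) (XT.lf (nat_lit 84) (nat_lit 37030520601) (nat_lit 0) (nat_lit 19634820896) (nat_lit 924) (nat_lit 54487994254) (nat_lit 130) (nat_lit 5) (nat_lit 129) (nat_lit 5) (nat_lit 140) (nat_lit 5) (nat_lit 404) (nat_lit 402) (nat_lit 274)) (XT.lf (nat_lit 84) (nat_lit 16734383400) (nat_lit 0) (nat_lit 48073082156) (nat_lit 924) (nat_lit 50848438052) (nat_lit 131) (nat_lit 5) (nat_lit 130) (nat_lit 5) (nat_lit 141) (nat_lit 5) (nat_lit 405) (nat_lit 402) (nat_lit 273))) (XT.nd (nat_lit 94) (nat_lit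 0) (nat_lit 84) (XT.lf (nat_lit 0) (nat_lit 75871952449) (nat_lit 840) (nat_lit 3928330450) (nat_lit 924) (nat_lit 40604844350) (nat_lit 131) (nat_lit 5) (nat_lit 141) (nat_lit 5) (nat_lit 142) (nat_lit 5) (nat_lit 406) (nat_lit 402) (nat_lit 272)) (XT.lf (nat_lit 0) (nat_lit 90379555928) (nat_lit 840) (nat_lit 24496126414) (nat_lit 924) (nat_lit 10530708557) (nat_lit 132) (nat_lit 5) (nat_lit 142) (nat_lit 5) (nat_lit 143) (nat_lit 5) (nat_lit 407) (nat_lit 402) (nat_lit 271)))) (XT.nd (nat_lit 188) (nat_lit 1008) (nat_lit 0) (XT.nd (nat_lit 94) (nat_lit 756) (nat_lit 0) (XT.lf (nat_lit 84) (nat_lit 84840014334) (nat_lit 0) (nat_lit 23946755168) (nat_lit 924) (nat_lit 21884036047) (nat_lit 133) (nat_lit 5) (nat_lit 132) (nat_lit 5) (nat_lit 143) (nat_lit 5) (nat_lit 408) (nat_lit 402) (nat_lit 270)) (XT.lf (nat_lit 0) (nat_lit 68487851257) (nat_lit 840) (nat_lit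 62840378216) (nat_lit 924) (nat_lit 4895060432) (nat_lit 123) (nat_lit 5) (nat_lit 133) (nat_lit 5) (nat_lit 134) (nat_lit 5) (nat_lit 409) (nat_lit 402) (nat_lit 269))) (XT.nd (nat_lit 94) (nat_lit 420) (nat_lit 0) (XT.lf (nat_lit 0) (nat_lit 15640057397) (nat_lit 588) (nat_lit 90231695153) (nat_lit 84) (nat_lit 36206838221) (nat_lit 116) (nat_lit 5) (nat_lit 123) (nat_lit 5) (nat_lit 117) (nat_lit 5) (nat_lit 410) (nat_lit 402) (nat_lit 268)) (XT.lf (nat_lit 0) (nat_lit 35030415174) (nat_lit 420) (nat_lit 5423538025) (nat_lit 504) (nat_lit 107803976781) (nat_lit 111) (nat_lit 5) (nat_lit 116) (nat_lit 5) (nat_lit 117) (nat_lit 5) (nat_lit 411) (nat_lit 402) (nat_lit 267))))))))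
noncomputable def xc178 : XT := (XT.nd (nat_lit 2632) (nat_lit 2688) (nat_lit 0) (XT.nd (nat_lit 1316) (nat_lit 2520) (nat_lit 0) (XT.nd (nat_lit 658) (nat_lit 2016) (nat_lit 0) (XT.nd (nat_lit 282) (nat_lit 1344) (nat_lit 0) (XT.nd (nat_lit 94) (nat_lit 336) (nat_lit 0) (XT.lf (nat_lit 0) (nat_lit 17610837678) (nat_lit 420) (nat_lit 53123119565) (nat_lit 504) (nat_lit 84023609254) (nat_lit 106) (nat_lit 5) (nat_lit 111) (nat_lit 5) (nat_lit 112) (nat_lit 5) (nat_lit 412) (nat_lit 402) (nat_lit 266)) (XT.nd (nat_lit 94) (nat_lit 0) (nat_lit 0) (XT.lf (nat_lit 0) (nat_lit 304540851) (nat_lit 336) (nat_lit 106094017884) (nat_lit 420) (nat_lit 55230505345) (nat_lit 102) (nat_lit 5) (nat_lit 106) (nat_lit 5) (nat_lit 107) (nat_lit 5) (nat_lit 413) (nat_lit 402) (nat_lit 265)) (XT.lf (nat_lit 0) (nat_lit 148256977479) (nat_lit 420) (nat_lit 16234197839) (nat_lit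 84) (nat_lit 4392073695) (nat_lit 102) (nat_lit 5) (nat_lit 107) (nat_lit 5) (nat_lit 103) (nat_lit 5) (nat_lit 414) (nat_lit 402) (nat_lit 264)))) (XT.nd (nat_lit 188) (nat_lit 588) (nat_lit 0) (XT.nd (nat_lit 94) (nat_lit 336) (nat_lit 0) (XT.lf (nat_lit 0) (nat_lit 20301447667) (nat_lit 420) (nat_lit 33584909129) (nat_lit 84) (nat_lit 122613782464) (nat_lit 97) (nat_lit 5) (nat_lit 102) (nat_lit 5) (nat_lit 98) (nat_lit 5) (nat_lit 415) (nat_lit 402) (nat_lit 263)) (XT.lf (nat_lit 0) (nat_lit 67247720305) (nat_lit 420) (nat_lit 51038316377) (nat_lit 84) (nat_lit 66250088267) (nat_lit 93) (nat_lit 5) (nat_lit 98) (nat_lit 5) (nat_lit 94) (nat_lit 5) (nat_lit 416) (nat_lit 402) (nat_lit 262))) (XT.nd (nat_lit 94) (nat_lit 252) (nat_lit 0) (XT.lf (nat_lit 0) (nat_lit 121461620773) (nat_lit 420) (nat_lit 68054902585) (nat_lit 84) (nat_lit 3522869833) (nat_lit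 89) (nat_lit 5) (nat_lit 94) (nat_lit 5) (nat_lit 90) (nat_lit 5) (nat_lit 417) (nat_lit 402) (nat_lit 261)) (XT.lf (nat_lit 0) (nat_lit 116450736030) (nat_lit 252) (nat_lit 68277764436) (nat_lit 336) (nat_lit 17258629067) (nat_lit 86) (nat_lit 5) (nat_lit 89) (nat_lit 5) (nat_lit 90) (nat_lit 5) (nat_lit 418) (nat_lit 402) (nat_lit 260))))) (XT.nd (nat_lit 282) (nat_lit 1092) (nat_lit 0) (XT.nd (nat_lit 94) (nat_lit 504) (nat_lit 0) (XT.lf (nat_lit 0) (nat_lit 44029849346) (nat_lit 420) (nat_lit 103119001683) (nat_lit 84) (nat_lit 64272057751) (nat_lit 81) (nat_lit 5) (nat_lit 86) (nat_lit 5) (nat_lit 82) (nat_lit 5) (nat_lit 419) (nat_lit 402) (nat_lit 259)) (XT.nd (nat_lit 94) (nat_lit 252) (nat_lit 0) (XT.lf (nat_lit 0) (nat_lit 100930004199) (nat_lit 252) (nat_lit 12935961440) (nat_lit 336) (nat_lit 107516817417) (nat_lit 78) (nat_lit 5) (nat_lit 81)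 (nat_lit 5) (nat_lit 82) (nat_lit 5) (nat_lit 420) (nat_lit 402) (nat_lit 258)) (XT.lf (nat_lit 0) (nat_lit 93846077741) (nat_lit 252) (nat_lit 100794563738) (nat_lit 336) (nat_lit 37233382281) (nat_lit 75) (nat_lit 5) (nat_lit 78) (nat_lit 5) (nat_lit 79) (nat_lit 5) (nat_lit 421) (nat_lit 402) (nat_lit 257)))) (XT.nd (nat_lit 188) (nat_lit 504) (nat_lit 0) (XT.nd (nat_lit 94) (nat_lit 252) (nat_lit 0) (XT.lf (nat_lit 0) (nat_lit 41905003602) (nat_lit 336) (nat_lit 155261112647) (nat_lit 84) (nat_lit 45784755752) (nat_lit 71) (nat_lit 5) (nat_lit 75) (nat_lit 5) (nat_lit 72) (nat_lit 5) (nat_lit 422) (nat_lit 402) (nat_lit 256)) (XT.lf (nat_lit 0) (nat_lit 81852649630) (nat_lit 252) (nat_lit 49655753804) (nat_lit 336) (nat_lit 123103024529) (nat_lit 68) (nat_lit 5) (nat_lit 71) (nat_lit 5) (nat_lit 72) (nat_lit 5) (nat_lit 423) (nat_lit 402) (nat_lit 255)))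 (XT.nd (nat_lit 94) (nat_lit 336) (nat_lit 0) (XT.lf (nat_lit 0) (nat_lit 77121765625) (nat_lit 168) (nat_lit 156823001248) (nat_lit 252) (nat_lit 32976826949) (nat_lit 66) (nat_lit 5) (nat_lit 68) (nat_lit 5) (nat_lit 69) (nat_lit 5) (nat_lit 424) (nat_lit 402) (nat_lit 254)) (XT.lf (nat_lit 0) (nat_lit 67440705849) (nat_lit 336) (nat_lit 206452945835) (nat_lit 84) (nat_lit 6015622471) (nat_lit 62) (nat_lit 5) (nat_lit 66) (nat_lit 5) (nat_lit 63) (nat_lit 5) (nat_lit 425) (nat_lit 402) (nat_lit 253)))))) (XT.nd (nat_lit 658) (nat_lit 1176) (nat_lit 0) (XT.nd (nat_lit 282) (nat_lit 756) (nat_lit 0) (XT.nd (nat_lit 94) (nat_lit 420) (nat_lit 0) (XT.lf (nat_lit 0) (nat_lit 69757654536) (nat_lit 168) (nat_lit 112087624395) (nat_lit 252) (nat_lit 111708210544) (nat_lit 60) (nat_lit 5) (nat_lit 62) (nat_lit 5) (nat_lit 63) (nat_lit 5) (nat_lit 426) (nat_lit 402)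 (nat_lit 252)) (XT.nd (nat_lit 94) (nat_lit 168) (nat_lit 0) (XT.lf (nat_lit 0) (nat_lit 3001361864) (nat_lit 252) (nat_lit 239570379270) (nat_lit 84) (nat_lit 65429955454) (nat_lit 57) (nat_lit 5) (nat_lit 60) (nat_lit 5) (nat_lit 58) (nat_lit 5) (nat_lit 427) (nat_lit 402) (nat_lit 251)) (XT.lf (nat_lit 0) (nat_lit 66921423726) (nat_lit 168) (nat_lit 63001742052) (nat_lit 252) (nat_lit 193243571522) (nat_lit 55) (nat_lit 5) (nat_lit 57) (nat_lit 5) (nat_lit 58) (nat_lit 5) (nat_lit 428) (nat_lit 402) (nat_lit 250)))) (XT.nd (nat_lit 188) (nat_lit 336) (nat_lit 0) (XT.nd (nat_lit 94) (nat_lit 252) (nat_lit 0) (XT.lf (nat_lit 0) (nat_lit 67188592846) (nat_lit 168) (nat_lit 207144687037) (nat_lit 252) (nat_lit 64844973091) (nat_lit 53) (nat_lit 5) (nat_lit 55) (nat_lit 5) (nat_lit 56) (nat_lit 5) (nat_lit 429) (nat_lit 402) (nat_lit 249)) (XT.lf (nat_lit 0)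 (nat_lit 69330608550) (nat_lit 168) (nat_lit 8813352710) (nat_lit 252) (nat_lit 277935031210) (nat_lit 50) (nat_lit 5) (nat_lit 52) (nat_lit 5) (nat_lit 53) (nat_lit 5) (nat_lit 430) (nat_lit 402) (nat_lit 248))) (XT.nd (nat_lit 94) (nat_lit 168) (nat_lit 0) (XT.lf (nat_lit 0) (nat_lit 71484086125) (nat_lit 168) (nat_lit 167984456580) (nat_lit 252) (nat_lit 134351677585) (nat_lit 48) (nat_lit 5) (nat_lit 50) (nat_lit 5) (nat_lit 51) (nat_lit 5) (nat_lit 431) (nat_lit 402) (nat_lit 247)) (XT.lf (nat_lit 0) (nat_lit 27296779328) (nat_lit 168) (nat_lit 315623672083) (nat_lit 84) (nat_lit 49682043784) (nat_lit 46) (nat_lit 5) (nat_lit 48) (nat_lit 5) (nat_lit 47) (nat_lit 5) (nat_lit 432) (nat_lit 402) (nat_lit 246))))) (XT.nd (nat_lit 282) (nat_lit 672) (nat_lit 0) (XT.nd (nat_lit 94) (nat_lit 336) (nat_lit 0) (XT.lf (nat_lit 0) (nat_lit 82259421444) (nat_lit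 168) (nat_lit 124443031585) (nat_lit 252) (nat_lit 205598156309) (nat_lit 44) (nat_lit 5) (nat_lit 46) (nat_lit 5) (nat_lit 47) (nat_lit 5) (nat_lit 433) (nat_lit 402) (nat_lit 245)) (XT.nd (nat_lit 94) (nat_lit 252) (nat_lit 0) (XT.lf (nat_lit 0) (nat_lit 91026174294) (nat_lit 84) (nat_lit 318184482071) (nat_lit 168) (nat_lit 23926412461) (nat_lit 43) (nat_lit 5) (nat_lit 44) (nat_lit 5) (nat_lit 45) (nat_lit 4) (nat_lit 434) (nat_lit 402) (nat_lit 244)) (XT.lf (nat_lit 0) (nat_lit 100547013956) (nat_lit 168) (nat_lit 75729354057) (nat_lit 252) (nat_lit 278754023938) (nat_lit 40) (nat_lit 5) (nat_lit 42) (nat_lit 5) (nat_lit 43) (nat_lit 5) (nat_lit 435) (nat_lit 402) (nat_lit 243)))) (XT.nd (nat_lit 188) (nat_lit 336) (nat_lit 0) (XT.nd (nat_lit 94) (nat_lit 252) (nat_lit 0) (XT.lf (nat_lit 0) (nat_lit 112655292282) (nat_lit 84) (nat_lit 289734620305) (nat_lit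 168) (nat_lit 75729016200) (nat_lit 39) (nat_lit 5) (nat_lit 40) (nat_lit 5) (nat_lit 41) (nat_lit 4) (nat_lit 436) (nat_lit 402) (nat_lit 242)) (XT.lf (nat_lit 0) (nat_lit 127540274258) (nat_lit 168) (nat_lit 20947708199) (nat_lit 252) (nat_lit 353977309469) (nat_lit 36) (nat_lit 5) (nat_lit 38) (nat_lit 5) (nat_lit 39) (nat_lit 5) (nat_lit 437) (nat_lit 402) (nat_lit 241))) (XT.nd (nat_lit 94) (nat_lit 252) (nat_lit 0) (XT.lf (nat_lit 0) (nat_lit 143603409275) (nat_lit 84) (nat_lit 257338780940) (nat_lit 168) (nat_lit 127107449687) (nat_lit 35) (nat_lit 5) (nat_lit 36) (nat_lit 5) (nat_lit 37) (nat_lit 4) (nat_lit 438) (nat_lit 402) (nat_lit 240)) (XT.lf (nat_lit 0) (nat_lit 124338059148) (nat_lit 252) (nat_lit 391133906431) (nat_lit 84) (nat_lit 39606724270) (nat_lit 32) (nat_lit 5) (nat_lit 35) (nat_lit 5) (nat_lit 33) (nat_lit 4) (nat_lit 439) (nat_lit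 402) (nat_lit 239))))))) (XT.nd (nat_lit 1316) (nat_lit 840) (nat_lit 0) (XT.nd (nat_lit 658) (nat_lit 924) (nat_lit 0) (XT.nd (nat_lit 282) (nat_lit 504) (nat_lit 0) (XT.nd (nat_lit 94) (nat_lit 336) (nat_lit 0) (XT.lf (nat_lit 0) (nat_lit 185339756177) (nat_lit 84) (nat_lit 220205050852) (nat_lit 168) (nat_lit 177916129117) (nat_lit 31) (nat_lit 5) (nat_lit 32) (nat_lit 5) (nat_lit 33) (nat_lit 4) (nat_lit 440) (nat_lit 402) (nat_lit 238)) (XT.nd (nat_lit 94) (nat_lit 84) (nat_lit 0) (XT.lf (nat_lit 0) (nat_lit 104078564542) (nat_lit 252) (nat_lit 401902996161) (nat_lit 84) (nat_lit 107458479530) (nat_lit 28) (nat_lit 5) (nat_lit 31) (nat_lit 5) (nat_lit 29) (nat_lit 4) (nat_lit 441) (nat_lit 402) (nat_lit 237)) (XT.lf (nat_lit 0) (nat_lit 239554159927) (nat_lit 84) (nat_lit 177430402343) (nat_lit 168) (nat_lit 227957825331) (nat_lit 27) (nat_lit 5) (nat_lit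 28) (nat_lit 5) (nat_lit 29) (nat_lit 4) (nat_lit 442) (nat_lit 402) (nat_lit 236)))) (XT.nd (nat_lit 188) (nat_lit 252) (nat_lit 0) (XT.nd (nat_lit 94) (nat_lit 84) (nat_lit 0) (XT.lf (nat_lit 0) (nat_lit 87921537218) (nat_lit 168) (nat_lit 405726869338) (nat_lit 84) (nat_lit 184537492535) (nat_lit 25) (nat_lit 5) (nat_lit 27) (nat_lit 5) (nat_lit 26) (nat_lit 4) (nat_lit 443) (nat_lit 402) (nat_lit 235)) (XT.lf (nat_lit 0) (nat_lit 308186794301) (nat_lit 84) (nat_lit 127985366010) (nat_lit 168) (nat_lit 276975508346) (nat_lit 24) (nat_lit 5) (nat_lit 25) (nat_lit 5) (nat_lit 26) (nat_lit 4) (nat_lit 444) (nat_lit 402) (nat_lit 234))) (XT.nd (nat_lit 94) (nat_lit 84) (nat_lit 0) (XT.lf (nat_lit 0) (nat_lit 76504017576) (nat_lit 168) (nat_lit 401229849320) (nat_lit 84) (nat_lit 272270000275) (nat_lit 22) (nat_lit 5) (nat_lit 24) (nat_lit 5) (nat_lit 23) (nat_lit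 4) (nat_lit 445) (nat_lit 402) (nat_lit 233)) (XT.lf (nat_lit 0) (nat_lit 393461801279) (nat_lit 84) (nat_lit 70696725292) (nat_lit 168) (nat_lit 324642981209) (nat_lit 21) (nat_lit 5) (nat_lit 22) (nat_lit 5) (nat_lit 23) (nat_lit 4) (nat_lit 446) (nat_lit 402) (nat_lit 232))))) (XT.nd (nat_lit 282) (nat_lit 504) (nat_lit 0) (XT.nd (nat_lit 94) (nat_lit 252) (nat_lit 0) (XT.lf (nat_lit 0) (nat_lit 70574653099) (nat_lit 168) (nat_lit 386810784151) (nat_lit 84) (nat_lit 372270810525) (nat_lit 19) (nat_lit 5) (nat_lit 21) (nat_lit 5) (nat_lit 20) (nat_lit 4) (nat_lit 447) (nat_lit 402) (nat_lit 231)) (XT.nd (nat_lit 94) (nat_lit 168) (nat_lit 0) (XT.lf (nat_lit 0) (nat_lit 497925269320) (nat_lit 84) (nat_lit 4227983426) (nat_lit 168) (nat_lit 370554140257) (nat_lit 18) (nat_lit 5) (nat_lit 19) (nat_lit 5) (nat_lit 20) (nat_lit 4) (nat_lit 448) (nat_lit 402)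 (nat_lit 230)) (XT.lf (nat_lit 0) (nat_lit 71009210036) (nat_lit 168) (nat_lit 360611089902) (nat_lit 84) (nat_lit 486367846101) (nat_lit 16) (nat_lit 5) (nat_lit 18) (nat_lit 5) (nat_lit 17) (nat_lit 4) (nat_lit 449) (nat_lit 402) (nat_lit 229)))) (XT.nd (nat_lit 188) (nat_lit 252) (nat_lit 0) (XT.nd (nat_lit 94) (nat_lit 168) (nat_lit 0) (XT.lf (nat_lit 0) (nat_lit 552684277225) (nat_lit 168) (nat_lit 342406840226) (nat_lit 0) (nat_lit 70608055918) (nat_lit 15) (nat_lit 5) (nat_lit 17) (nat_lit 4) (nat_lit 15) (nat_lit 4) (nat_lit 450) (nat_lit 402) (nat_lit 228)) (XT.lf (nat_lit 0) (nat_lit 78828176964) (nat_lit 168) (nat_lit 320478513112) (nat_lit 84) (nat_lit 616629758577) (nat_lit 13) (nat_lit 5) (nat_lit 15) (nat_lit 5) (nat_lit 14) (nat_lit 4) (nat_lit 451) (nat_lit 402) (nat_lit 227))) (XT.nd (nat_lit 94) (nat_lit 168) (nat_lit 0) (XT.lf (nat_lit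 0) (nat_lit 616465040586) (nat_lit 168) (nat_lit 294998580135) (nat_lit 0) (nat_lit 157344729702) (nat_lit 12) (nat_lit 5) (nat_lit 14) (nat_lit 4) (nat_lit 12) (nat_lit 4) (nat_lit 452) (nat_lit 402) (nat_lit 226)) (XT.lf (nat_lit 0) (nat_lit 95216727869) (nat_lit 168) (nat_lit 263926063318) (nat_lit 84) (nat_lit 765396988608) (nat_lit 10) (nat_lit 5) (nat_lit 12) (nat_lit 5) (nat_lit 11) (nat_lit 4) (nat_lit 453) (nat_lit 402) (nat_lit 225)))))) (XT.nd (nat_lit 658) (nat_lit 0) (nat_lit 0) (XT.nd (nat_lit 282) (nat_lit 504) (nat_lit 0) (XT.nd (nat_lit 94) (nat_lit 252) (nat_lit 0) (XT.lf (nat_lit 0) (nat_lit 695282042000) (nat_lit 168) (nat_lit 229824968018) (nat_lit 0) (nat_lit 258024521318) (nat_lit 9) (nat_lit 5) (nat_lit 11) (nat_lit 4) (nat_lit 9) (nat_lit 4) (nat_lit 454) (nat_lit 402) (nat_lit 224)) (XT.nd (nat_lit 94) (nat_lit 84) (nat_lit 0) (XT.lf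 (nat_lit 0) (nat_lit 121547345876) (nat_lit 168) (nat_lit 188085498024) (nat_lit 84) (nat_lit 935316695532) (nat_lit 7) (nat_lit 5) (nat_lit 9) (nat_lit 5) (nat_lit 8) (nat_lit 4) (nat_lit 455) (nat_lit 402) (nat_lit 223)) (XT.lf (nat_lit 0) (nat_lit 791251584629) (nat_lit 168) (nat_lit 143813366697) (nat_lit 0) (nat_lit 374815783900) (nat_lit 6) (nat_lit 5) (nat_lit 8) (nat_lit 4) (nat_lit 6) (nat_lit 4) (nat_lit 456) (nat_lit 402) (nat_lit 222)))) (XT.nd (nat_lit 188) (nat_lit 252) (nat_lit 0) (XT.nd (nat_lit 94) (nat_lit 84) (nat_lit 0) (XT.lf (nat_lit 0) (nat_lit 159405446265) (nat_lit 168) (nat_lit 89654665596) (nat_lit 84) (nat_lit 1129382029926) (nat_lit 4) (nat_lit 5) (nat_lit 6) (nat_lit 5) (nat_lit 5) (nat_lit 4) (nat_lit 457) (nat_lit 402) (nat_lit 221)) (XT.lf (nat_lit 0) (nat_lit 906788123556) (nat_lit 168) (nat_lit 33428909316) (nat_lit 0) (nat_lit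 510182544553) (nat_lit 3) (nat_lit 5) (nat_lit 5) (nat_lit 4) (nat_lit 3) (nat_lit 4) (nat_lit 458) (nat_lit 402) (nat_lit 220))) (XT.nd (nat_lit 94) (nat_lit 0) (nat_lit 0) (XT.lf (nat_lit 0) (nat_lit 2214222585739) (nat_lit 0) (nat_lit 0) (nat_lit 0) (nat_lit 0) (nat_lit 0) (nat_lit 0) (nat_lit 1) (nat_lit 0) (nat_lit 1) (nat_lit 0) (nat_lit 459) (nat_lit 402) (nat_lit 219)) (XT.lf (nat_lit 0) (nat_lit 2389183744474) (nat_lit 0) (nat_lit 0) (nat_lit 0) (nat_lit 0) (nat_lit 0) (nat_lit 0) (nat_lit 1) (nat_lit 0) (nat_lit 1) (nat_lit 0) (nat_lit 460) (nat_lit 402) (nat_lit 218))))) (XT.nd (nat_lit 376) (nat_lit 0) (nat_lit 0) (XT.nd (nat_lit 188) (nat_lit 0) (nat_lit 0) (XT.nd (nat_lit 94) (nat_lit 0) (nat_lit 0) (XT.lf (nat_lit 0) (nat_lit 2578141796145) (nat_lit 0) (nat_lit 0) (nat_lit 0) (nat_lit 0) (nat_lit 0) (nat_lit 0) (nat_lit 1) (nat_lit 0) (nat_lit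 1) (nat_lit 0) (nat_lit 461) (nat_lit 402) (nat_lit 217)) (XT.lf (nat_lit 0) (nat_lit 2782216492169) (nat_lit 0) (nat_lit 0) (nat_lit 0) (nat_lit 0) (nat_lit 0) (nat_lit 0) (nat_lit 1) (nat_lit 0) (nat_lit 1) (nat_lit 0) (nat_lit 462) (nat_lit 402) (nat_lit 216))) (XT.nd (nat_lit 94) (nat_lit 0) (nat_lit 0) (XT.lf (nat_lit 0) (nat_lit 3002617164079) (nat_lit 0) (nat_lit 0) (nat_lit 0) (nat_lit 0) (nat_lit 0) (nat_lit 0) (nat_lit 1) (nat_lit 0) (nat_lit 1) (nat_lit 0) (nat_lit 463) (nat_lit 402) (nat_lit 215)) (XT.lf (nat_lit 0) (nat_lit 3240649889931) (nat_lit 0) (nat_lit 0) (nat_lit 0) (nat_lit 0) (nat_lit 0) (nat_lit 0) (nat_lit 1) (nat_lit 0) (nat_lit 1) (nat_lit 0) (nat_lit 464) (nat_lit 402) (nat_lit 214)))) (XT.nd (nat_lit 188) (nat_lit 0) (nat_lit 0) (XT.nd (nat_lit 94) (nat_lit 0) (nat_lit 0) (XT.lf (nat_lit 0) (nat_lit 3497725234025) (nat_lit 0) (nat_lit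 0) (nat_lit 0) (nat_lit 0) (nat_lit 0) (nat_lit 0) (nat_lit 1) (nat_lit 0) (nat_lit 1) (nat_lit 0) (nat_lit 465) (nat_lit 402) (nat_lit 213)) (XT.lf (nat_lit 0) (nat_lit 3775366605808) (nat_lit 0) (nat_lit 0) (nat_lit 0) (nat_lit 0) (nat_lit 0) (nat_lit 0) (nat_lit 1) (nat_lit 0) (nat_lit 1) (nat_lit 0) (nat_lit 466) (nat_lit 402) (nat_lit 212))) (XT.nd (nat_lit 94) (nat_lit 0) (nat_lit 0) (XT.lf (nat_lit 0) (nat_lit 4075219287484) (nat_lit 0) (nat_lit 0) (nat_lit 0) (nat_lit 0) (nat_lit 0) (nat_lit 0) (nat_lit 1) (nat_lit 0) (nat_lit 1) (nat_lit 0) (nat_lit 467) (nat_lit 402) (nat_lit 211)) (XT.lf (nat_lit 0) (nat_lit 4399060183832) (nat_lit 0) (nat_lit 0) (nat_lit 0) (nat_lit 0) (nat_lit 0) (nat_lit 0) (nat_lit 1) (nat_lit 0) (nat_lit 1) (nat_lit 0) (nat_lit 468) (nat_lit 402) (nat_lit 210))))))))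
noncomputable def xc179 : XT := (XT.nd (nat_lit 2632) (nat_lit 0) (nat_lit 0) (XT.nd (nat_lit 1316) (nat_lit 0) (nat_lit 0) (XT.nd (nat_lit 658) (nat_lit 0) (nat_lit 0) (XT.nd (nat_lit 282) (nat_lit 0) (nat_lit 0) (XT.nd (nat_lit 94) (nat_lit 0) (nat_lit 0) (XT.lf (nat_lit 0) (nat_lit 4748808352016) (nat_lit 0) (nat_lit 0) (nat_lit 0) (nat_lit 0) (nat_lit 0) (nat_lit 0) (nat_lit 1) (nat_lit 0) (nat_lit 1) (nat_lit 0) (nat_lit 469) (nat_lit 402) (nat_lit 209)) (XT.nd (nat_lit 94) (nat_lit 0) (nat_lit 0) (XT.lf (nat_lit 0) (nat_lit 5126536373774) (nat_lit 0) (nat_lit 0) (nat_lit 0) (nat_lit 0) (nat_lit 0) (nat_lit 0) (nat_lit 1) (nat_lit 0) (nat_lit 1) (nat_lit 0) (nat_lit 470) (nat_lit 402) (nat_lit 208)) (XT.lf (nat_lit 0) (nat_lit 5534482637382) (nat_lit 0) (nat_lit 0) (nat_lit 0) (nat_lit 0) (nat_lit 0) (nat_lit 0) (nat_lit 1) (nat_lit 0) (nat_lit 1) (nat_lit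 0) (nat_lit 471) (nat_lit 402) (nat_lit 207)))) (XT.nd (nat_lit 188) (nat_lit 0) (nat_lit 0) (XT.nd (nat_lit 94) (nat_lit 0) (nat_lit 0) (XT.lf (nat_lit 0) (nat_lit 5975064602181) (nat_lit 0) (nat_lit 0) (nat_lit 0) (nat_lit 0) (nat_lit 0) (nat_lit 0) (nat_lit 1) (nat_lit 0) (nat_lit 1) (nat_lit 0) (nat_lit 472) (nat_lit 402) (nat_lit 206)) (XT.lf (nat_lit 0) (nat_lit 6450893124258) (nat_lit 0) (nat_lit 0) (nat_lit 0) (nat_lit 0) (nat_lit 0) (nat_lit 0) (nat_lit 1) (nat_lit 0) (nat_lit 1) (nat_lit 0) (nat_lit 473) (nat_lit 402) (nat_lit 205))) (XT.nd (nat_lit 94) (nat_lit 0) (nat_lit 0) (XT.lf (nat_lit 0) (nat_lit 6964787928188) (nat_lit 0) (nat_lit 0) (nat_lit 0) (nat_lit 0) (nat_lit 0) (nat_lit 0) (nat_lit 1) (nat_lit 0) (nat_lit 1) (nat_lit 0) (nat_lit 474) (nat_lit 402) (nat_lit 204)) (XT.lf (nat_lit 0) (nat_lit 7519794316514) (nat_lit 0) (nat_lit 0) (nat_lit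 0) (nat_lit 0) (nat_lit 0) (nat_lit 0) (nat_lit 1) (nat_lit 0) (nat_lit 1) (nat_lit 0) (nat_lit 475) (nat_lit 402) (nat_lit 203))))) (XT.nd (nat_lit 282) (nat_lit 0) (nat_lit 0) (XT.nd (nat_lit 94) (nat_lit 0) (nat_lit 0) (XT.lf (nat_lit 0) (nat_lit 8119201215981) (nat_lit 0) (nat_lit 0) (nat_lit 0) (nat_lit 0) (nat_lit 0) (nat_lit 0) (nat_lit 1) (nat_lit 0) (nat_lit 1) (nat_lit 0) (nat_lit 476) (nat_lit 402) (nat_lit 202)) (XT.nd (nat_lit 94) (nat_lit 0) (nat_lit 0) (XT.lf (nat_lit 0) (nat_lit 8766560667474) (nat_lit 0) (nat_lit 0) (nat_lit 0) (nat_lit 0) (nat_lit 0) (nat_lit 0) (nat_lit 1) (nat_lit 0) (nat_lit 1) (nat_lit 0) (nat_lit 477) (nat_lit 402) (nat_lit 201)) (XT.lf (nat_lit 0) (nat_lit 9465708875151) (nat_lit 0) (nat_lit 0) (nat_lit 0) (nat_lit 0) (nat_lit 0) (nat_lit 0) (nat_lit 1) (nat_lit 0) (nat_lit 1) (nat_lit 0) (nat_lit 478) (nat_lit 402)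 (nat_lit 200)))) (XT.nd (nat_lit 188) (nat_lit 0) (nat_lit 0) (XT.nd (nat_lit 94) (nat_lit 0) (nat_lit 0) (XT.lf (nat_lit 0) (nat_lit 10220788939501) (nat_lit 0) (nat_lit 0) (nat_lit 0) (nat_lit 0) (nat_lit 0) (nat_lit 0) (nat_lit 1) (nat_lit 0) (nat_lit 1) (nat_lit 0) (nat_lit 479) (nat_lit 402) (nat_lit 199)) (XT.lf (nat_lit 0) (nat_lit 11036275409055) (nat_lit 0) (nat_lit 0) (nat_lit 0) (nat_lit 0) (nat_lit 0) (nat_lit 0) (nat_lit 1) (nat_lit 0) (nat_lit 1) (nat_lit 0) (nat_lit 480) (nat_lit 402) (nat_lit 198))) (XT.nd (nat_lit 94) (nat_lit 0) (nat_lit 0) (XT.lf (nat_lit 0) (nat_lit 11917000796224) (nat_lit 0) (nat_lit 0) (nat_lit 0) (nat_lit 0) (nat_lit 0) (nat_lit 0) (nat_lit 1) (nat_lit 0) (nat_lit 1) (nat_lit 0) (nat_lit 481) (nat_lit 402) (nat_lit 197)) (XT.lf (nat_lit 0) (nat_lit 12868184214413) (nat_lit 0) (nat_lit 0) (nat_lit 0) (nat_lit 0) (nat_lit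 0) (nat_lit 0) (nat_lit 1) (nat_lit 0) (nat_lit 1) (nat_lit 0) (nat_lit 482) (nat_lit 402) (nat_lit 196)))))) (XT.nd (nat_lit 658) (nat_lit 0) (nat_lit 0) (XT.nd (nat_lit 282) (nat_lit 0) (nat_lit 0) (XT.nd (nat_lit 94) (nat_lit 0) (nat_lit 0) (XT.lf (nat_lit 0) (nat_lit 13895462306101) (nat_lit 0) (nat_lit 0) (nat_lit 0) (nat_lit 0) (nat_lit 0) (nat_lit 0) (nat_lit 1) (nat_lit 0) (nat_lit 1) (nat_lit 0) (nat_lit 483) (nat_lit 402) (nat_lit 195)) (XT.nd (nat_lit 94) (nat_lit 0) (nat_lit 0) (XT.lf (nat_lit 0) (nat_lit 15004922645165) (nat_lit 0) (nat_lit 0) (nat_lit 0) (nat_lit 0) (nat_lit 0) (nat_lit 0) (nat_lit 1) (nat_lit 0) (nat_lit 1) (nat_lit 0) (nat_lit 484) (nat_lit 402) (nat_lit 194)) (XT.lf (nat_lit 0) (nat_lit 16203139811392) (nat_lit 0) (nat_lit 0) (nat_lit 0) (nat_lit 0) (nat_lit 0) (nat_lit 0) (nat_lit 1) (nat_lit 0) (nat_lit 1) (nat_lit 0) (nat_lit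 485) (nat_lit 402) (nat_lit 193)))) (XT.nd (nat_lit 188) (nat_lit 0) (nat_lit 0) (XT.nd (nat_lit 94) (nat_lit 0) (nat_lit 0) (XT.lf (nat_lit 0) (nat_lit 17497214350951) (nat_lit 0) (nat_lit 0) (nat_lit 0) (nat_lit 0) (nat_lit 0) (nat_lit 0) (nat_lit 1) (nat_lit 0) (nat_lit 1) (nat_lit 0) (nat_lit 486) (nat_lit 402) (nat_lit 192)) (XT.lf (nat_lit 0) (nat_lit 18894814853707) (nat_lit 0) (nat_lit 0) (nat_lit 0) (nat_lit 0) (nat_lit 0) (nat_lit 0) (nat_lit 1) (nat_lit 0) (nat_lit 1) (nat_lit 0) (nat_lit 487) (nat_lit 402) (nat_lit 191))) (XT.nd (nat_lit 94) (nat_lit 0) (nat_lit 0) (XT.lf (nat_lit 0) (nat_lit 20404223396713) (nat_lit 0) (nat_lit 0) (nat_lit 0) (nat_lit 0) (nat_lit 0) (nat_lit 0) (nat_lit 1) (nat_lit 0) (nat_lit 1) (nat_lit 0) (nat_lit 488) (nat_lit 402) (nat_lit 190)) (XT.lf (nat_lit 0) (nat_lit 22034384623187) (nat_lit 0) (nat_lit 0) (nat_lit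 0) (nat_lit 0) (nat_lit 0) (nat_lit 0) (nat_lit 1) (nat_lit 0) (nat_lit 1) (nat_lit 0) (nat_lit 489) (nat_lit 402) (nat_lit 189))))) (XT.nd (nat_lit 282) (nat_lit 0) (nat_lit 0) (XT.nd (nat_lit 94) (nat_lit 0) (nat_lit 0) (XT.lf (nat_lit 0) (nat_lit 23794958747804) (nat_lit 0) (nat_lit 0) (nat_lit 0) (nat_lit 0) (nat_lit 0) (nat_lit 0) (nat_lit 1) (nat_lit 0) (nat_lit 1) (nat_lit 0) (nat_lit 490) (nat_lit 402) (nat_lit 188)) (XT.nd (nat_lit 94) (nat_lit 0) (nat_lit 0) (XT.lf (nat_lit 0) (nat_lit 25696378802415) (nat_lit 0) (nat_lit 0) (nat_lit 0) (nat_lit 0) (nat_lit 0) (nat_lit 0) (nat_lit 1) (nat_lit 0) (nat_lit 1) (nat_lit 0) (nat_lit 491) (nat_lit 402) (nat_lit 187)) (XT.lf (nat_lit 0) (nat_lit 27749912461416) (nat_lit 0) (nat_lit 0) (nat_lit 0) (nat_lit 0) (nat_lit 0) (nat_lit 0) (nat_lit 1) (nat_lit 0) (nat_lit 1) (nat_lit 0) (nat_lit 492) (nat_lit 402)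 (nat_lit 186)))) (XT.nd (nat_lit 188) (nat_lit 0) (nat_lit 0) (XT.nd (nat_lit 94) (nat_lit 0) (nat_lit 0) (XT.lf (nat_lit 0) (nat_lit 29967728813158) (nat_lit 0) (nat_lit 0) (nat_lit 0) (nat_lit 0) (nat_lit 0) (nat_lit 0) (nat_lit 1) (nat_lit 0) (nat_lit 1) (nat_lit 0) (nat_lit 493) (nat_lit 402) (nat_lit 185)) (XT.lf (nat_lit 0) (nat_lit 32362970473057) (nat_lit 0) (nat_lit 0) (nat_lit 0) (nat_lit 0) (nat_lit 0) (nat_lit 0) (nat_lit 1) (nat_lit 0) (nat_lit 1) (nat_lit 0) (nat_lit 494) (nat_lit 402) (nat_lit 184))) (XT.nd (nat_lit 94) (nat_lit 0) (nat_lit 0) (XT.lf (nat_lit 0) (nat_lit 34949831465766) (nat_lit 0) (nat_lit 0) (nat_lit 0) (nat_lit 0) (nat_lit 0) (nat_lit 0) (nat_lit 1) (nat_lit 0) (nat_lit 1) (nat_lit 0) (nat_lit 495) (nat_lit 402) (nat_lit 183)) (XT.lf (nat_lit 0) (nat_lit 37743641337908) (nat_lit 0) (nat_lit 0) (nat_lit 0) (nat_lit 0) (nat_lit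 0) (nat_lit 0) (nat_lit 1) (nat_lit 0) (nat_lit 1) (nat_lit 0) (nat_lit 496) (nat_lit 402) (nat_lit 182))))))) (XT.nd (nat_lit 59596) (nat_lit 0) (nat_lit 5712) (XT.nd (nat_lit 58938) (nat_lit 0) (nat_lit 10752) (XT.nd (nat_lit 282) (nat_lit 0) (nat_lit 0) (XT.nd (nat_lit 94) (nat_lit 0) (nat_lit 0) (XT.lf (nat_lit 0) (nat_lit 40760955999836) (nat_lit 0) (nat_lit 0) (nat_lit 0) (nat_lit 0) (nat_lit 0) (nat_lit 0) (nat_lit 1) (nat_lit 0) (nat_lit 1) (nat_lit 0) (nat_lit 497) (nat_lit 402) (nat_lit 181)) (XT.nd (nat_lit 94) (nat_lit 0) (nat_lit 0) (XT.lf (nat_lit 0) (nat_lit 44019655834732) (nat_lit 0) (nat_lit 0) (nat_lit 0) (nat_lit 0) (nat_lit 0) (nat_lit 0) (nat_lit 1) (nat_lit 0) (nat_lit 1) (nat_lit 0) (nat_lit 498) (nat_lit 402) (nat_lit 180)) (XT.lf (nat_lit 0) (nat_lit 47539051656432) (nat_lit 0) (nat_lit 0) (nat_lit 0) (nat_lit 0) (nat_lit 0) (nat_lit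 0) (nat_lit 1) (nat_lit 0) (nat_lit 1) (nat_lit 0) (nat_lit 499) (nat_lit 402) (nat_lit 179)))) (XT.nd (nat_lit 188) (nat_lit 0) (nat_lit 0) (XT.nd (nat_lit 94) (nat_lit 0) (nat_lit 0) (XT.lf (nat_lit 0) (nat_lit 51339999143880) (nat_lit 0) (nat_lit 0) (nat_lit 0) (nat_lit 0) (nat_lit 0) (nat_lit 0) (nat_lit 1) (nat_lit 0) (nat_lit 1) (nat_lit 0) (nat_lit 500) (nat_lit 402) (nat_lit 178)) (XT.lf (nat_lit 0) (nat_lit 55445022430335) (nat_lit 0) (nat_lit 0) (nat_lit 0) (nat_lit 0) (nat_lit 0) (nat_lit 0) (nat_lit 1) (nat_lit 0) (nat_lit 1) (nat_lit 0) (nat_lit 501) (nat_lit 402) (nat_lit 177))) (XT.nd (nat_lit 94) (nat_lit 0) (nat_lit 0) (XT.lf (nat_lit 0) (nat_lit 59878447579717) (nat_lit 0) (nat_lit 0) (nat_lit 0) (nat_lit 0) (nat_lit 0) (nat_lit 0) (nat_lit 1) (nat_lit 0) (nat_lit 1) (nat_lit 0) (nat_lit 502) (nat_lit 402) (nat_lit 176)) (XT.lf (nat_lit 0)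 (nat_lit 64666546741058) (nat_lit 0) (nat_lit 0) (nat_lit 0) (nat_lit 0) (nat_lit 0) (nat_lit 0) (nat_lit 1) (nat_lit 0) (nat_lit 1) (nat_lit 0) (nat_lit 503) (nat_lit 402) (nat_lit 175))))) (XT.nd (nat_lit 282) (nat_lit 0) (nat_lit 168) (XT.nd (nat_lit 94) (nat_lit 0) (nat_lit 84) (XT.lf (nat_lit 0) (nat_lit 26073066540) (nat_lit 924) (nat_lit 14724105690) (nat_lit 924) (nat_lit 14724105690) (nat_lit 128) (nat_lit 3) (nat_lit 139) (nat_lit 3) (nat_lit 139) (nat_lit 5) (nat_lit 403) (nat_lit 403) (nat_lit 274)) (XT.nd (nat_lit 94) (nat_lit 0) (nat_lit 0) (XT.lf (nat_lit 0) (nat_lit 55294064424) (nat_lit 840) (nat_lit 54182680076) (nat_lit 924) (nat_lit 5954409272) (nat_lit 129) (nat_lit 5) (nat_lit 139) (nat_lit 5) (nat_lit 140) (nat_lit 5) (nat_lit 404) (nat_lit 403) (nat_lit 273)) (XT.lf (nat_lit 84) (nat_lit 40002899153) (nat_lit 0) (nat_lit 21211873735)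 (nat_lit 924) (nat_lit 58830019521) (nat_lit 130) (nat_lit 5) (nat_lit 129) (nat_lit 5) (nat_lit 140) (nat_lit 5) (nat_lit 405) (nat_lit 403) (nat_lit 272)))) (XT.nd (nat_lit 188) (nat_lit 0) (nat_lit 168) (XT.nd (nat_lit 94) (nat_lit 0) (nat_lit 84) (XT.lf (nat_lit 84) (nat_lit 18083507719) (nat_lit 0) (nat_lit 51923630212) (nat_lit 924) (nat_lit 54900484210) (nat_lit 131) (nat_lit 5) (nat_lit 130) (nat_lit 5) (nat_lit 141) (nat_lit 5) (nat_lit 406) (nat_lit 403) (nat_lit 271)) (XT.lf (nat_lit 0) (nat_lit 81955599133) (nat_lit 840) (nat_lit 4232225769) (nat_lit 924) (nat_lit 43849018003) (nat_lit 131) (nat_lit 5) (nat_lit 141) (nat_lit 5) (nat_lit 142) (nat_lit 5) (nat_lit 407) (nat_lit 403) (nat_lit 270))) (XT.nd (nat_lit 94) (nat_lit 0) (nat_lit 0) (XT.lf (nat_lit 0) (nat_lit 97622888512) (nat_lit 840) (nat_lit 26445196965) (nat_lit 924) (nat_lit 11370168287)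 (nat_lit 132) (nat_lit 5) (nat_lit 142) (nat_lit 5) (nat_lit 143) (nat_lit 5) (nat_lit 408) (nat_lit 403) (nat_lit 269)) (XT.lf (nat_lit 84) (nat_lit 91637373529) (nat_lit 0) (nat_lit 25864503638) (nat_lit 924) (nat_lit 23621984520) (nat_lit 133) (nat_lit 5) (nat_lit 132) (nat_lit 5) (nat_lit 143) (nat_lit 5) (nat_lit 409) (nat_lit 403) (nat_lit 268)))))) (XT.nd (nat_lit 658) (nat_lit 2436) (nat_lit 0) (XT.nd (nat_lit 282) (nat_lit 1176) (nat_lit 0) (XT.nd (nat_lit 94) (nat_lit 1008) (nat_lit 0) (XT.lf (nat_lit 0) (nat_lit 73977207807) (nat_lit 840) (nat_lit 67868677163) (nat_lit 924) (nat_lit 5274698271) (nat_lit 123) (nat_lit 5) (nat_lit 133) (nat_lit 5) (nat_lit 134) (nat_lit 5) (nat_lit 410) (nat_lit 403) (nat_lit 267)) (XT.nd (nat_lit 94) (nat_lit 420) (nat_lit 0) (XT.lf (nat_lit 0) (nat_lit 16902137872) (nat_lit 588) (nat_lit 97439430519) (nat_lit 84)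 (nat_lit 39102765848) (nat_lit 116) (nat_lit 5) (nat_lit 123) (nat_lit 5) (nat_lit 117) (nat_lit 5) (nat_lit 411) (nat_lit 403) (nat_lit 266)) (XT.lf (nat_lit 0) (nat_lit 37843179268) (nat_lit 420) (nat_lit 5857321743) (nat_lit 504) (nat_lit 116417551790) (nat_lit 111) (nat_lit 5) (nat_lit 116) (nat_lit 5) (nat_lit 117) (nat_lit 5) (nat_lit 412) (nat_lit 403) (nat_lit 265)))) (XT.nd (nat_lit 188) (nat_lit 420) (nat_lit 0) (XT.nd (nat_lit 94) (nat_lit 336) (nat_lit 0) (XT.lf (nat_lit 0) (nat_lit 19030074467) (nat_lit 420) (nat_lit 57372236356) (nat_lit 504) (nat_lit 90735379145) (nat_lit 106) (nat_lit 5) (nat_lit 111) (nat_lit 5) (nat_lit 112) (nat_lit 5) (nat_lit 413) (nat_lit 403) (nat_lit 264)) (XT.lf (nat_lit 0) (nat_lit 339273202) (nat_lit 336) (nat_lit 114580265864) (nat_lit 420) (nat_lit 59639395360) (nat_lit 102) (nat_lit 5) (nat_lit 106) (nat_lit 5)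 (nat_lit 107) (nat_lit 5) (nat_lit 414) (nat_lit 403) (nat_lit 263))) (XT.nd (nat_lit 94) (nat_lit 420) (nat_lit 0) (XT.lf (nat_lit 0) (nat_lit 160125975967) (nat_lit 420) (nat_lit 17522929979) (nat_lit 84) (nat_lit 4744580973) (nat_lit 102) (nat_lit 5) (nat_lit 107) (nat_lit 5) (nat_lit 103) (nat_lit 5) (nat_lit 415) (nat_lit 403) (nat_lit 262)) (XT.lf (nat_lit 0) (nat_lit 21933658527) (nat_lit 420) (nat_lit 36261865262) (nat_lit 84) (nat_lit 132424221859) (nat_lit 97) (nat_lit 5) (nat_lit 102) (nat_lit 5) (nat_lit 98) (nat_lit 5) (nat_lit 416) (nat_lit 403) (nat_lit 261))))) (XT.nd (nat_lit 376) (nat_lit 1092) (nat_lit 0) (XT.nd (nat_lit 188) (nat_lit 672) (nat_lit 0) (XT.nd (nat_lit 94) (nat_lit 336) (nat_lit 0) (XT.lf (nat_lit 0) (nat_lit 72635207830) (nat_lit 420) (nat_lit 55111618044) (nat_lit 84) (nat_lit 71551805575) (nat_lit 93) (nat_lit 5) (nat_lit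 98) (nat_lit 5) (nat_lit 94) (nat_lit 5) (nat_lit 417) (nat_lit 403) (nat_lit 260)) (XT.lf (nat_lit 0) (nat_lit 131185830667) (nat_lit 420) (nat_lit 73489625745) (nat_lit 84) (nat_lit 3806724224) (nat_lit 89) (nat_lit 5) (nat_lit 94) (nat_lit 5) (nat_lit 90) (nat_lit 5) (nat_lit 418) (nat_lit 403) (nat_lit 259))) (XT.nd (nat_lit 94) (nat_lit 420) (nat_lit 0) (XT.lf (nat_lit 0) (nat_lit 125776043755) (nat_lit 252) (nat_lit 73737622104) (nat_lit 336) (nat_lit 18632089770) (nat_lit 86) (nat_lit 5) (nat_lit 89) (nat_lit 5) (nat_lit 90) (nat_lit 5) (nat_lit 419) (nat_lit 403) (nat_lit 258)) (XT.lf (nat_lit 0) (nat_lit 47558896919) (nat_lit 420) (nat_lit 111359160713) (nat_lit 84) (nat_lit 69416190870) (nat_lit 81) (nat_lit 5) (nat_lit 86) (nat_lit 5) (nat_lit 82) (nat_lit 5) (nat_lit 420) (nat_lit 403) (nat_lit 257)))) (XT.nd (nat_lit 188) (nat_lit 588) (nat_lit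 0) (XT.nd (nat_lit 94) (nat_lit 252) (nat_lit 0) (XT.lf (nat_lit 0) (nat_lit 109013358817) (nat_lit 252) (nat_lit 13968190192) (nat_lit 336) (nat_lit 116111541384) (nat_lit 78) (nat_lit 5) (nat_lit 81) (nat_lit 5) (nat_lit 82) (nat_lit 5) (nat_lit 421) (nat_lit 403) (nat_lit 256)) (XT.lf (nat_lit 0) (nat_lit 101362591155) (nat_lit 252) (nat_lit 108855316742) (nat_lit 336) (nat_lit 40205737008) (nat_lit 75) (nat_lit 5) (nat_lit 78) (nat_lit 5) (nat_lit 79) (nat_lit 5) (nat_lit 422) (nat_lit 403) (nat_lit 255))) (XT.nd (nat_lit 94) (nat_lit 252) (nat_lit 0) (XT.lf (nat_lit 0) (nat_lit 45263243938) (nat_lit 336) (nat_lit 167673119296) (nat_lit 84) (nat_lit 49450286524) (nat_lit 71) (nat_lit 5) (nat_lit 75) (nat_lit 5) (nat_lit 72) (nat_lit 5) (nat_lit 423) (nat_lit 403) (nat_lit 254)) (XT.lf (nat_lit 0) (nat_lit 88409357947) (nat_lit 252) (nat_lit 53625257866)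 (nat_lit 336) (nat_lit 132945449382) (nat_lit 68) (nat_lit 5) (nat_lit 71) (nat_lit 5) (nat_lit 72) (nat_lit 5) (nat_lit 424) (nat_lit 403) (nat_lit 253))))))))
noncomputable def xc180 : XT := (XT.nd (nat_lit 2632) (nat_lit 1092) (nat_lit 0) (XT.nd (nat_lit 1316) (nat_lit 1932) (nat_lit 0) (XT.nd (nat_lit 658) (nat_lit 1176) (nat_lit 0) (XT.nd (nat_lit 282) (nat_lit 840) (nat_lit 0) (XT.nd (nat_lit 94) (nat_lit 504) (nat_lit 0) (XT.lf (nat_lit 0) (nat_lit 83299854798) (nat_lit 168) (nat_lit 169365796222) (nat_lit 252) (nat_lit 35609405169) (nat_lit 66) (nat_lit 5) (nat_lit 68) (nat_lit 5) (nat_lit 69) (nat_lit 5) (nat_lit 425) (nat_lit 403) (nat_lit 252)) (XT.nd (nat_lit 94) (nat_lit 168) (nat_lit 0) (XT.lf (nat_lit 0) (nat_lit 72841127565) (nat_lit 336) (nat_lit 222960817442) (nat_lit 84) (nat_lit 6499812817) (nat_lit 62) (nat_lit 5) (nat_lit 66) (nat_lit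 5) (nat_lit 63) (nat_lit 5) (nat_lit 426) (nat_lit 403) (nat_lit 251)) (XT.lf (nat_lit 0) (nat_lit 75346267466) (nat_lit 168) (nat_lit 121051541328) (nat_lit 252) (nat_lit 120639714462) (nat_lit 60) (nat_lit 5) (nat_lit 62) (nat_lit 5) (nat_lit 63) (nat_lit 5) (nat_lit 427) (nat_lit 403) (nat_lit 250)))) (XT.nd (nat_lit 188) (nat_lit 420) (nat_lit 0) (XT.nd (nat_lit 94) (nat_lit 168) (nat_lit 0) (XT.lf (nat_lit 0) (nat_lit 3246259212) (nat_lit 252) (nat_lit 258728009892) (nat_lit 84) (nat_lit 70667323792) (nat_lit 57) (nat_lit 5) (nat_lit 60) (nat_lit 5) (nat_lit 58) (nat_lit 5) (nat_lit 428) (nat_lit 403) (nat_lit 249)) (XT.lf (nat_lit 0) (nat_lit 72282789686) (nat_lit 168) (nat_lit 68038782527) (nat_lit 252) (nat_lit 208698276412) (nat_lit 55) (nat_lit 5) (nat_lit 57) (nat_lit 5) (nat_lit 58) (nat_lit 5) (nat_lit 429) (nat_lit 403) (nat_lit 248))) (XT.nd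 (nat_lit 94) (nat_lit 252) (nat_lit 0) (XT.lf (nat_lit 0) (nat_lit 72571171271) (nat_lit 168) (nat_lit 223713148656) (nat_lit 252) (nat_lit 70027974402) (nat_lit 53) (nat_lit 5) (nat_lit 55) (nat_lit 5) (nat_lit 56) (nat_lit 5) (nat_lit 430) (nat_lit 403) (nat_lit 247)) (XT.lf (nat_lit 0) (nat_lit 74884363406) (nat_lit 168) (nat_lit 9515348657) (nat_lit 252) (nat_lit 300165388109) (nat_lit 50) (nat_lit 5) (nat_lit 52) (nat_lit 5) (nat_lit 53) (nat_lit 5) (nat_lit 431) (nat_lit 403) (nat_lit 246))))) (XT.nd (nat_lit 282) (nat_lit 672) (nat_lit 0) (XT.nd (nat_lit 94) (nat_lit 336) (nat_lit 0) (XT.lf (nat_lit 0) (nat_lit 77209958283) (nat_lit 168) (nat_lit 181420144090) (nat_lit 252) (nat_lit 145095531728) (nat_lit 48) (nat_lit 5) (nat_lit 50) (nat_lit 5) (nat_lit 51) (nat_lit 5) (nat_lit 432) (nat_lit 403) (nat_lit 245)) (XT.nd (nat_lit 94) (nat_lit 168) (nat_lit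 0) (XT.lf (nat_lit 0) (nat_lit 29484513774) (nat_lit 168) (nat_lit 340866449988) (nat_lit 84) (nat_lit 53659531443) (nat_lit 46) (nat_lit 5) (nat_lit 48) (nat_lit 5) (nat_lit 47) (nat_lit 5) (nat_lit 433) (nat_lit 403) (nat_lit 244)) (XT.lf (nat_lit 0) (nat_lit 88846981774) (nat_lit 168) (nat_lit 134395470156) (nat_lit 252) (nat_lit 222042016022) (nat_lit 44) (nat_lit 5) (nat_lit 46) (nat_lit 5) (nat_lit 47) (nat_lit 5) (nat_lit 434) (nat_lit 403) (nat_lit 243)))) (XT.nd (nat_lit 188) (nat_lit 336) (nat_lit 0) (XT.nd (nat_lit 94) (nat_lit 252) (nat_lit 0) (XT.lf (nat_lit 0) (nat_lit 98314916053) (nat_lit 84) (nat_lit 343636261019) (nat_lit 168) (nat_lit 25836673850) (nat_lit 43) (nat_lit 5) (nat_lit 44) (nat_lit 5) (nat_lit 45) (nat_lit 4) (nat_lit 435) (nat_lit 403) (nat_lit 242)) (XT.lf (nat_lit 0) (nat_lit 108597251901) (nat_lit 168) (nat_lit 81784778835)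 (nat_lit 252) (nat_lit 301050614909) (nat_lit 40) (nat_lit 5) (nat_lit 42) (nat_lit 5) (nat_lit 43) (nat_lit 5) (nat_lit 436) (nat_lit 403) (nat_lit 241))) (XT.nd (nat_lit 94) (nat_lit 252) (nat_lit 0) (XT.lf (nat_lit 0) (nat_lit 121674037299) (nat_lit 84) (nat_lit 312910499331) (nat_lit 168) (nat_lit 81783734907) (nat_lit 39) (nat_lit 5) (nat_lit 40) (nat_lit 5) (nat_lit 41) (nat_lit 4) (nat_lit 437) (nat_lit 403) (nat_lit 240)) (XT.lf (nat_lit 0) (nat_lit 137749653398) (nat_lit 168) (nat_lit 22620692754) (nat_lit 252) (nat_lit 382292002875) (nat_lit 36) (nat_lit 5) (nat_lit 38) (nat_lit 5) (nat_lit 39) (nat_lit 5) (nat_lit 438) (nat_lit 403) (nat_lit 239)))))) (XT.nd (nat_lit 658) (nat_lit 924) (nat_lit 0) (XT.nd (nat_lit 282) (nat_lit 588) (nat_lit 0) (XT.nd (nat_lit 94) (nat_lit 336) (nat_lit 0) (XT.lf (nat_lit 0) (nat_lit 155097688366) (nat_lit 84) (nat_lit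 277923090578) (nat_lit 168) (nat_lit 137272671475) (nat_lit 35) (nat_lit 5) (nat_lit 36) (nat_lit 5) (nat_lit 37) (nat_lit 4) (nat_lit 439) (nat_lit 403) (nat_lit 238)) (XT.nd (nat_lit 94) (nat_lit 84) (nat_lit 0) (XT.lf (nat_lit 0) (nat_lit 134288262115) (nat_lit 252) (nat_lit 422418657216) (nat_lit 84) (nat_lit 42777907793) (nat_lit 32) (nat_lit 5) (nat_lit 35) (nat_lit 5) (nat_lit 33) (nat_lit 4) (nat_lit 440) (nat_lit 403) (nat_lit 237)) (XT.lf (nat_lit 0) (nat_lit 200172639311) (nat_lit 84) (nat_lit 237818765607) (nat_lit 168) (nat_lit 192146255454) (nat_lit 31) (nat_lit 5) (nat_lit 32) (nat_lit 5) (nat_lit 33) (nat_lit 4) (nat_lit 441) (nat_lit 403) (nat_lit 236)))) (XT.nd (nat_lit 188) (nat_lit 252) (nat_lit 0) (XT.nd (nat_lit 94) (nat_lit 84) (nat_lit 0) (XT.lf (nat_lit 0) (nat_lit 112407813288) (nat_lit 252) (nat_lit 434049579099) (nat_lit 84) (nat_lit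 116057702886) (nat_lit 28) (nat_lit 5) (nat_lit 31) (nat_lit 5) (nat_lit 29) (nat_lit 4) (nat_lit 442) (nat_lit 403) (nat_lit 235)) (XT.lf (nat_lit 0) (nat_lit 258723903641) (nat_lit 84) (nat_lit 191622252149) (nat_lit 168) (nat_lit 246191481393) (nat_lit 27) (nat_lit 5) (nat_lit 28) (nat_lit 5) (nat_lit 29) (nat_lit 4) (nat_lit 443) (nat_lit 403) (nat_lit 234))) (XT.nd (nat_lit 94) (nat_lit 84) (nat_lit 0) (XT.lf (nat_lit 0) (nat_lit 94958043757) (nat_lit 168) (nat_lit 438179654367) (nat_lit 84) (nat_lit 199302933716) (nat_lit 25) (nat_lit 5) (nat_lit 27) (nat_lit 5) (nat_lit 26) (nat_lit 4) (nat_lit 444) (nat_lit 403) (nat_lit 233)) (XT.lf (nat_lit 0) (nat_lit 332846869229) (nat_lit 84) (nat_lit 138221721395) (nat_lit 168) (nat_lit 299130758651) (nat_lit 24) (nat_lit 5) (nat_lit 25) (nat_lit 5) (nat_lit 26) (nat_lit 4) (nat_lit 445) (nat_lit 403) (nat_lit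 232))))) (XT.nd (nat_lit 282) (nat_lit 504) (nat_lit 0) (XT.nd (nat_lit 94) (nat_lit 252) (nat_lit 0) (XT.lf (nat_lit 0) (nat_lit 82626955627) (nat_lit 168) (nat_lit 433323152213) (nat_lit 84) (nat_lit 294053937872) (nat_lit 22) (nat_lit 5) (nat_lit 24) (nat_lit 5) (nat_lit 23) (nat_lit 4) (nat_lit 446) (nat_lit 403) (nat_lit 231)) (XT.nd (nat_lit 94) (nat_lit 168) (nat_lit 0) (XT.lf (nat_lit 0) (nat_lit 424943609443) (nat_lit 84) (nat_lit 76350098015) (nat_lit 168) (nat_lit 350611796007) (nat_lit 21) (nat_lit 5) (nat_lit 22) (nat_lit 5) (nat_lit 23) (nat_lit 4) (nat_lit 447) (nat_lit 403) (nat_lit 230)) (XT.lf (nat_lit 0) (nat_lit 76223086866) (nat_lit 168) (nat_lit 417750828635) (nat_lit 84) (nat_lit 402054709021) (nat_lit 19) (nat_lit 5) (nat_lit 21) (nat_lit 5) (nat_lit 20) (nat_lit 4) (nat_lit 448) (nat_lit 403) (nat_lit 229)))) (XT.nd (nat_lit 188) (nat_lit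 252) (nat_lit 0) (XT.nd (nat_lit 94) (nat_lit 168) (nat_lit 0) (XT.lf (nat_lit 0) (nat_lit 537763899720) (nat_lit 84) (nat_lit 4563964387) (nat_lit 168) (nat_lit 400196002779) (nat_lit 18) (nat_lit 5) (nat_lit 19) (nat_lit 5) (nat_lit 20) (nat_lit 4) (nat_lit 449) (nat_lit 403) (nat_lit 228)) (XT.lf (nat_lit 0) (nat_lit 76692263890) (nat_lit 168) (nat_lit 389455413192) (nat_lit 84) (nat_lit 525279404786) (nat_lit 16) (nat_lit 5) (nat_lit 18) (nat_lit 5) (nat_lit 17) (nat_lit 4) (nat_lit 450) (nat_lit 403) (nat_lit 227))) (XT.nd (nat_lit 94) (nat_lit 168) (nat_lit 0) (XT.lf (nat_lit 0) (nat_lit 596901266579) (nat_lit 168) (nat_lit 369794944804) (nat_lit 0) (nat_lit 76258783497) (nat_lit 15) (nat_lit 5) (nat_lit 17) (nat_lit 4) (nat_lit 15) (nat_lit 4) (nat_lit 451) (nat_lit 403) (nat_lit 226)) (XT.lf (nat_lit 0) (nat_lit 85136613384) (nat_lit 168) (nat_lit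 346112472437) (nat_lit 84) (nat_lit 665962169611) (nat_lit 13) (nat_lit 5) (nat_lit 15) (nat_lit 5) (nat_lit 14) (nat_lit 4) (nat_lit 452) (nat_lit 403) (nat_lit 225))))))) (XT.nd (nat_lit 1316) (nat_lit 0) (nat_lit 0) (XT.nd (nat_lit 658) (nat_lit 252) (nat_lit 0) (XT.nd (nat_lit 282) (nat_lit 504) (nat_lit 0) (XT.nd (nat_lit 94) (nat_lit 252) (nat_lit 0) (XT.lf (nat_lit 0) (nat_lit 665784360975) (nat_lit 168) (nat_lit 318594260368) (nat_lit 0) (nat_lit 169934291256) (nat_lit 12) (nat_lit 5) (nat_lit 14) (nat_lit 4) (nat_lit 12) (nat_lit 4) (nat_lit 453) (nat_lit 403) (nat_lit 224)) (XT.nd (nat_lit 94) (nat_lit 84) (nat_lit 0) (XT.lf (nat_lit 0) (nat_lit 102836122399) (nat_lit 168) (nat_lit 285036057009) (nat_lit 84) (nat_lit 826630679955) (nat_lit 10) (nat_lit 5) (nat_lit 12) (nat_lit 5) (nat_lit 11) (nat_lit 4) (nat_lit 454) (nat_lit 403) (nat_lit 223))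 (XT.lf (nat_lit 0) (nat_lit 750906600864) (nat_lit 168) (nat_lit 248206984059) (nat_lit 0) (nat_lit 278668369144) (nat_lit 9) (nat_lit 5) (nat_lit 11) (nat_lit 4) (nat_lit 9) (nat_lit 4) (nat_lit 455) (nat_lit 403) (nat_lit 222)))) (XT.nd (nat_lit 188) (nat_lit 252) (nat_lit 0) (XT.nd (nat_lit 94) (nat_lit 84) (nat_lit 0) (XT.lf (nat_lit 0) (nat_lit 131273071960) (nat_lit 168) (nat_lit 203128465400) (nat_lit 84) (nat_lit 1010143868307) (nat_lit 7) (nat_lit 5) (nat_lit 9) (nat_lit 5) (nat_lit 8) (nat_lit 4) (nat_lit 456) (nat_lit 403) (nat_lit 221)) (XT.lf (nat_lit 0) (nat_lit 854553592967) (nat_lit 168) (nat_lit 155314668133) (nat_lit 0) (nat_lit 404802838866) (nat_lit 6) (nat_lit 5) (nat_lit 8) (nat_lit 4) (nat_lit 6) (nat_lit 4) (nat_lit 457) (nat_lit 403) (nat_lit 220))) (XT.nd (nat_lit 94) (nat_lit 84) (nat_lit 0) (XT.lf (nat_lit 0) (nat_lit 172159709912)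 (nat_lit 168) (nat_lit 96823374253) (nat_lit 84) (nat_lit 1219734337569) (nat_lit 4) (nat_lit 5) (nat_lit 6) (nat_lit 5) (nat_lit 5) (nat_lit 4) (nat_lit 458) (nat_lit 403) (nat_lit 219)) (XT.lf (nat_lit 0) (nat_lit 979332948159) (nat_lit 168) (nat_lit 36099656814) (nat_lit 0) (nat_lit 550998849911) (nat_lit 3) (nat_lit 5) (nat_lit 5) (nat_lit 4) (nat_lit 3) (nat_lit 4) (nat_lit 459) (nat_lit 403) (nat_lit 218))))) (XT.nd (nat_lit 282) (nat_lit 0) (nat_lit 0) (XT.nd (nat_lit 94) (nat_lit 0) (nat_lit 0) (XT.lf (nat_lit 0) (nat_lit 2391360387966) (nat_lit 0) (nat_lit 0) (nat_lit 0) (nat_lit 0) (nat_lit 0) (nat_lit 0) (nat_lit 1) (nat_lit 0) (nat_lit 1) (nat_lit 0) (nat_lit 460) (nat_lit 403) (nat_lit 217)) (XT.nd (nat_lit 94) (nat_lit 0) (nat_lit 0) (XT.lf (nat_lit 0) (nat_lit 2580318439742) (nat_lit 0) (nat_lit 0) (nat_lit 0) (nat_lit 0) (nat_lit 0) (nat_lit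 0) (nat_lit 1) (nat_lit 0) (nat_lit 1) (nat_lit 0) (nat_lit 461) (nat_lit 403) (nat_lit 216)) (XT.lf (nat_lit 0) (nat_lit 2784393135865) (nat_lit 0) (nat_lit 0) (nat_lit 0) (nat_lit 0) (nat_lit 0) (nat_lit 0) (nat_lit 1) (nat_lit 0) (nat_lit 1) (nat_lit 0) (nat_lit 462) (nat_lit 403) (nat_lit 215)))) (XT.nd (nat_lit 188) (nat_lit 0) (nat_lit 0) (XT.nd (nat_lit 94) (nat_lit 0) (nat_lit 0) (XT.lf (nat_lit 0) (nat_lit 3004793807866) (nat_lit 0) (nat_lit 0) (nat_lit 0) (nat_lit 0) (nat_lit 0) (nat_lit 0) (nat_lit 1) (nat_lit 0) (nat_lit 1) (nat_lit 0) (nat_lit 463) (nat_lit 403) (nat_lit 214)) (XT.lf (nat_lit 0) (nat_lit 3242826533801) (nat_lit 0) (nat_lit 0) (nat_lit 0) (nat_lit 0) (nat_lit 0) (nat_lit 0) (nat_lit 1) (nat_lit 0) (nat_lit 1) (nat_lit 0) (nat_lit 464) (nat_lit 403) (nat_lit 213))) (XT.nd (nat_lit 94) (nat_lit 0) (nat_lit 0) (XT.lf (nat_lit 0) (nat_lit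 3499901877973) (nat_lit 0) (nat_lit 0) (nat_lit 0) (nat_lit 0) (nat_lit 0) (nat_lit 0) (nat_lit 1) (nat_lit 0) (nat_lit 1) (nat_lit 0) (nat_lit 465) (nat_lit 403) (nat_lit 212)) (XT.lf (nat_lit 0) (nat_lit 3777543249828) (nat_lit 0) (nat_lit 0) (nat_lit 0) (nat_lit 0) (nat_lit 0) (nat_lit 0) (nat_lit 1) (nat_lit 0) (nat_lit 1) (nat_lit 0) (nat_lit 466) (nat_lit 403) (nat_lit 211)))))) (XT.nd (nat_lit 658) (nat_lit 0) (nat_lit 0) (XT.nd (nat_lit 282) (nat_lit 0) (nat_lit 0) (XT.nd (nat_lit 94) (nat_lit 0) (nat_lit 0) (XT.lf (nat_lit 0) (nat_lit 4077395931570) (nat_lit 0) (nat_lit 0) (nat_lit 0) (nat_lit 0) (nat_lit 0) (nat_lit 0) (nat_lit 1) (nat_lit 0) (nat_lit 1) (nat_lit 0) (nat_lit 467) (nat_lit 403) (nat_lit 210)) (XT.nd (nat_lit 94) (nat_lit 0) (nat_lit 0) (XT.lf (nat_lit 0) (nat_lit 4401236827980) (nat_lit 0) (nat_lit 0) (nat_lit 0) (nat_lit 0) (nat_lit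 0) (nat_lit 0) (nat_lit 1) (nat_lit 0) (nat_lit 1) (nat_lit 0) (nat_lit 468) (nat_lit 403) (nat_lit 209)) (XT.lf (nat_lit 0) (nat_lit 4750984996221) (nat_lit 0) (nat_lit 0) (nat_lit 0) (nat_lit 0) (nat_lit 0) (nat_lit 0) (nat_lit 1) (nat_lit 0) (nat_lit 1) (nat_lit 0) (nat_lit 469) (nat_lit 403) (nat_lit 208)))) (XT.nd (nat_lit 188) (nat_lit 0) (nat_lit 0) (XT.nd (nat_lit 94) (nat_lit 0) (nat_lit 0) (XT.lf (nat_lit 0) (nat_lit 5128713018032) (nat_lit 0) (nat_lit 0) (nat_lit 0) (nat_lit 0) (nat_lit 0) (nat_lit 0) (nat_lit 1) (nat_lit 0) (nat_lit 1) (nat_lit 0) (nat_lit 470) (nat_lit 403) (nat_lit 207)) (XT.lf (nat_lit 0) (nat_lit 5536659281689) (nat_lit 0) (nat_lit 0) (nat_lit 0) (nat_lit 0) (nat_lit 0) (nat_lit 0) (nat_lit 1) (nat_lit 0) (nat_lit 1) (nat_lit 0) (nat_lit 471) (nat_lit 403) (nat_lit 206))) (XT.nd (nat_lit 94) (nat_lit 0) (nat_lit 0) (XT.lf (nat_lit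 0) (nat_lit 5977241246533) (nat_lit 0) (nat_lit 0) (nat_lit 0) (nat_lit 0) (nat_lit 0) (nat_lit 0) (nat_lit 1) (nat_lit 0) (nat_lit 1) (nat_lit 0) (nat_lit 472) (nat_lit 403) (nat_lit 205)) (XT.lf (nat_lit 0) (nat_lit 6453069768652) (nat_lit 0) (nat_lit 0) (nat_lit 0) (nat_lit 0) (nat_lit 0) (nat_lit 0) (nat_lit 1) (nat_lit 0) (nat_lit 1) (nat_lit 0) (nat_lit 473) (nat_lit 403) (nat_lit 204))))) (XT.nd (nat_lit 282) (nat_lit 0) (nat_lit 0) (XT.nd (nat_lit 94) (nat_lit 0) (nat_lit 0) (XT.lf (nat_lit 0) (nat_lit 6966964572621) (nat_lit 0) (nat_lit 0) (nat_lit 0) (nat_lit 0) (nat_lit 0) (nat_lit 0) (nat_lit 1) (nat_lit 0) (nat_lit 1) (nat_lit 0) (nat_lit 474) (nat_lit 403) (nat_lit 203)) (XT.nd (nat_lit 94) (nat_lit 0) (nat_lit 0) (XT.lf (nat_lit 0) (nat_lit 7521970960983) (nat_lit 0) (nat_lit 0) (nat_lit 0) (nat_lit 0) (nat_lit 0) (nat_lit 0) (nat_lit 1) (nat_lit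 0) (nat_lit 1) (nat_lit 0) (nat_lit 475) (nat_lit 403) (nat_lit 202)) (XT.lf (nat_lit 0) (nat_lit 8121377860483) (nat_lit 0) (nat_lit 0) (nat_lit 0) (nat_lit 0) (nat_lit 0) (nat_lit 0) (nat_lit 1) (nat_lit 0) (nat_lit 1) (nat_lit 0) (nat_lit 476) (nat_lit 403) (nat_lit 201)))) (XT.nd (nat_lit 188) (nat_lit 0) (nat_lit 0) (XT.nd (nat_lit 94) (nat_lit 0) (nat_lit 0) (XT.lf (nat_lit 0) (nat_lit 8768737312007) (nat_lit 0) (nat_lit 0) (nat_lit 0) (nat_lit 0) (nat_lit 0) (nat_lit 0) (nat_lit 1) (nat_lit 0) (nat_lit 1) (nat_lit 0) (nat_lit 477) (nat_lit 403) (nat_lit 200)) (XT.lf (nat_lit 0) (nat_lit 9467885519713) (nat_lit 0) (nat_lit 0) (nat_lit 0) (nat_lit 0) (nat_lit 0) (nat_lit 0) (nat_lit 1) (nat_lit 0) (nat_lit 1) (nat_lit 0) (nat_lit 478) (nat_lit 403) (nat_lit 199))) (XT.nd (nat_lit 94) (nat_lit 0) (nat_lit 0) (XT.lf (nat_lit 0) (nat_lit 10222965584090)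 (nat_lit 0) (nat_lit 0) (nat_lit 0) (nat_lit 0) (nat_lit 0) (nat_lit 0) (nat_lit 1) (nat_lit 0) (nat_lit 1) (nat_lit 0) (nat_lit 479) (nat_lit 403) (nat_lit 198)) (XT.lf (nat_lit 0) (nat_lit 11038452053668) (nat_lit 0) (nat_lit 0) (nat_lit 0) (nat_lit 0) (nat_lit 0) (nat_lit 0) (nat_lit 1) (nat_lit 0) (nat_lit 1) (nat_lit 0) (nat_lit 480) (nat_lit 403) (nat_lit 197))))))))
noncomputable def xc181 : XT := (XT.nd (nat_lit 61006) (nat_lit 0) (nat_lit 3360) (XT.nd (nat_lit 1316) (nat_lit 0) (nat_lit 0) (XT.nd (nat_lit 658) (nat_lit 0) (nat_lit 0) (XT.nd (nat_lit 282) (nat_lit 0) (nat_lit 0) (XT.nd (nat_lit 94) (nat_lit 0) (nat_lit 0) (XT.lf (nat_lit 0) (nat_lit 11919177440859) (nat_lit 0) (nat_lit 0) (nat_lit 0) (nat_lit 0) (nat_lit 0) (nat_lit 0) (nat_lit 1) (nat_lit 0) (nat_lit 1) (nat_lit 0) (nat_lit 481) (nat_lit 403) (nat_lit 196)) (XT.nd (nat_lit 94) (nat_lit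 0) (nat_lit 0) (XT.lf (nat_lit 0) (nat_lit 12870360859070) (nat_lit 0) (nat_lit 0) (nat_lit 0) (nat_lit 0) (nat_lit 0) (nat_lit 0) (nat_lit 1) (nat_lit 0) (nat_lit 1) (nat_lit 0) (nat_lit 482) (nat_lit 403) (nat_lit 195)) (XT.lf (nat_lit 0) (nat_lit 13897638950777) (nat_lit 0) (nat_lit 0) (nat_lit 0) (nat_lit 0) (nat_lit 0) (nat_lit 0) (nat_lit 1) (nat_lit 0) (nat_lit 1) (nat_lit 0) (nat_lit 483) (nat_lit 403) (nat_lit 194)))) (XT.nd (nat_lit 188) (nat_lit 0) (nat_lit 0) (XT.nd (nat_lit 94) (nat_lit 0) (nat_lit 0) (XT.lf (nat_lit 0) (nat_lit 15007099289859) (nat_lit 0) (nat_lit 0) (nat_lit 0) (nat_lit 0) (nat_lit 0) (nat_lit 0) (nat_lit 1) (nat_lit 0) (nat_lit 1) (nat_lit 0) (nat_lit 484) (nat_lit 403) (nat_lit 193)) (XT.lf (nat_lit 0) (nat_lit 16205316456102) (nat_lit 0) (nat_lit 0) (nat_lit 0) (nat_lit 0) (nat_lit 0) (nat_lit 0) (nat_lit 1) (nat_lit 0) (nat_lit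 1) (nat_lit 0) (nat_lit 485) (nat_lit 403) (nat_lit 192))) (XT.nd (nat_lit 94) (nat_lit 0) (nat_lit 0) (XT.lf (nat_lit 0) (nat_lit 17499390995677) (nat_lit 0) (nat_lit 0) (nat_lit 0) (nat_lit 0) (nat_lit 0) (nat_lit 0) (nat_lit 1) (nat_lit 0) (nat_lit 1) (nat_lit 0) (nat_lit 486) (nat_lit 403) (nat_lit 191)) (XT.lf (nat_lit 0) (nat_lit 18896991498447) (nat_lit 0) (nat_lit 0) (nat_lit 0) (nat_lit 0) (nat_lit 0) (nat_lit 0) (nat_lit 1) (nat_lit 0) (nat_lit 1) (nat_lit 0) (nat_lit 487) (nat_lit 403) (nat_lit 190))))) (XT.nd (nat_lit 282) (nat_lit 0) (nat_lit 0) (XT.nd (nat_lit 94) (nat_lit 0) (nat_lit 0) (XT.lf (nat_lit 0) (nat_lit 20406400041466) (nat_lit 0) (nat_lit 0) (nat_lit 0) (nat_lit 0) (nat_lit 0) (nat_lit 0) (nat_lit 1) (nat_lit 0) (nat_lit 1) (nat_lit 0) (nat_lit 488) (nat_lit 403) (nat_lit 189)) (XT.nd (nat_lit 94) (nat_lit 0) (nat_lit 0) (XT.lf (nat_lit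 0) (nat_lit 22036561267953) (nat_lit 0) (nat_lit 0) (nat_lit 0) (nat_lit 0) (nat_lit 0) (nat_lit 0) (nat_lit 1) (nat_lit 0) (nat_lit 1) (nat_lit 0) (nat_lit 489) (nat_lit 403) (nat_lit 188)) (XT.lf (nat_lit 0) (nat_lit 23797135392581) (nat_lit 0) (nat_lit 0) (nat_lit 0) (nat_lit 0) (nat_lit 0) (nat_lit 0) (nat_lit 1) (nat_lit 0) (nat_lit 1) (nat_lit 0) (nat_lit 490) (nat_lit 403) (nat_lit 187)))) (XT.nd (nat_lit 188) (nat_lit 0) (nat_lit 0) (XT.nd (nat_lit 94) (nat_lit 0) (nat_lit 0) (XT.lf (nat_lit 0) (nat_lit 25698555447203) (nat_lit 0) (nat_lit 0) (nat_lit 0) (nat_lit 0) (nat_lit 0) (nat_lit 0) (nat_lit 1) (nat_lit 0) (nat_lit 1) (nat_lit 0) (nat_lit 491) (nat_lit 403) (nat_lit 186)) (XT.lf (nat_lit 0) (nat_lit 27752089106214) (nat_lit 0) (nat_lit 0) (nat_lit 0) (nat_lit 0) (nat_lit 0) (nat_lit 0) (nat_lit 1) (nat_lit 0) (nat_lit 1) (nat_lit 0) (nat_lit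 492) (nat_lit 403) (nat_lit 185))) (XT.nd (nat_lit 94) (nat_lit 0) (nat_lit 0) (XT.lf (nat_lit 0) (nat_lit 29969905457964) (nat_lit 0) (nat_lit 0) (nat_lit 0) (nat_lit 0) (nat_lit 0) (nat_lit 0) (nat_lit 1) (nat_lit 0) (nat_lit 1) (nat_lit 0) (nat_lit 493) (nat_lit 403) (nat_lit 184)) (XT.lf (nat_lit 0) (nat_lit 32365147117872) (nat_lit 0) (nat_lit 0) (nat_lit 0) (nat_lit 0) (nat_lit 0) (nat_lit 0) (nat_lit 1) (nat_lit 0) (nat_lit 1) (nat_lit 0) (nat_lit 494) (nat_lit 403) (nat_lit 183)))))) (XT.nd (nat_lit 658) (nat_lit 0) (nat_lit 0) (XT.nd (nat_lit 282) (nat_lit 0) (nat_lit 0) (XT.nd (nat_lit 94) (nat_lit 0) (nat_lit 0) (XT.lf (nat_lit 0) (nat_lit 34952008110589) (nat_lit 0) (nat_lit 0) (nat_lit 0) (nat_lit 0) (nat_lit 0) (nat_lit 0) (nat_lit 1) (nat_lit 0) (nat_lit 1) (nat_lit 0) (nat_lit 495) (nat_lit 403) (nat_lit 182)) (XT.nd (nat_lit 94) (nat_lit 0)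 (nat_lit 0) (XT.lf (nat_lit 0) (nat_lit 37745817982738) (nat_lit 0) (nat_lit 0) (nat_lit 0) (nat_lit 0) (nat_lit 0) (nat_lit 0) (nat_lit 1) (nat_lit 0) (nat_lit 1) (nat_lit 0) (nat_lit 496) (nat_lit 403) (nat_lit 181)) (XT.lf (nat_lit 0) (nat_lit 40763132644672) (nat_lit 0) (nat_lit 0) (nat_lit 0) (nat_lit 0) (nat_lit 0) (nat_lit 0) (nat_lit 1) (nat_lit 0) (nat_lit 1) (nat_lit 0) (nat_lit 497) (nat_lit 403) (nat_lit 180)))) (XT.nd (nat_lit 188) (nat_lit 0) (nat_lit 0) (XT.nd (nat_lit 94) (nat_lit 0) (nat_lit 0) (XT.lf (nat_lit 0) (nat_lit 44021832479574) (nat_lit 0) (nat_lit 0) (nat_lit 0) (nat_lit 0) (nat_lit 0) (nat_lit 0) (nat_lit 1) (nat_lit 0) (nat_lit 1) (nat_lit 0) (nat_lit 498) (nat_lit 403) (nat_lit 179)) (XT.lf (nat_lit 0) (nat_lit 47541228301280) (nat_lit 0) (nat_lit 0) (nat_lit 0) (nat_lit 0) (nat_lit 0) (nat_lit 0) (nat_lit 1) (nat_lit 0) (nat_lit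 1) (nat_lit 0) (nat_lit 499) (nat_lit 403) (nat_lit 178))) (XT.nd (nat_lit 94) (nat_lit 0) (nat_lit 0) (XT.lf (nat_lit 0) (nat_lit 51342175788734) (nat_lit 0) (nat_lit 0) (nat_lit 0) (nat_lit 0) (nat_lit 0) (nat_lit 0) (nat_lit 1) (nat_lit 0) (nat_lit 1) (nat_lit 0) (nat_lit 500) (nat_lit 403) (nat_lit 177)) (XT.lf (nat_lit 0) (nat_lit 55447199075194) (nat_lit 0) (nat_lit 0) (nat_lit 0) (nat_lit 0) (nat_lit 0) (nat_lit 0) (nat_lit 1) (nat_lit 0) (nat_lit 1) (nat_lit 0) (nat_lit 501) (nat_lit 403) (nat_lit 176))))) (XT.nd (nat_lit 58656) (nat_lit 0) (nat_lit 10836) (XT.nd (nat_lit 94) (nat_lit 0) (nat_lit 0) (XT.lf (nat_lit 0) (nat_lit 59880624224579) (nat_lit 0) (nat_lit 0) (nat_lit 0) (nat_lit 0) (nat_lit 0) (nat_lit 0) (nat_lit 1) (nat_lit 0) (nat_lit 1) (nat_lit 0) (nat_lit 502) (nat_lit 403) (nat_lit 175)) (XT.nd (nat_lit 58468) (nat_lit 0) (nat_lit 10752)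 (XT.lf (nat_lit 0) (nat_lit 64668723385925) (nat_lit 0) (nat_lit 0) (nat_lit 0) (nat_lit 0) (nat_lit 0) (nat_lit 0) (nat_lit 1) (nat_lit 0) (nat_lit 1) (nat_lit 0) (nat_lit 503) (nat_lit 403) (nat_lit 174)) (XT.lf (nat_lit 0) (nat_lit 28166926785) (nat_lit 924) (nat_lit 15897826311) (nat_lit 924) (nat_lit 15897826311) (nat_lit 128) (nat_lit 3) (nat_lit 139) (nat_lit 3) (nat_lit 139) (nat_lit 5) (nat_lit 404) (nat_lit 404) (nat_lit 272)))) (XT.nd (nat_lit 188) (nat_lit 0) (nat_lit 84) (XT.nd (nat_lit 94) (nat_lit 0) (nat_lit 0) (XT.lf (nat_lit 0) (nat_lit 59732449696) (nat_lit 840) (nat_lit 58508388130) (nat_lit 924) (nat_lit 6424065242) (nat_lit 129) (nat_lit 5) (nat_lit 139) (nat_lit 5) (nat_lit 140) (nat_lit 5) (nat_lit 405) (nat_lit 404) (nat_lit 271)) (XT.lf (nat_lit 84) (nat_lit 43211650379) (nat_lit 0) (nat_lit 22914196719) (nat_lit 924) (nat_lit 63521834085)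 (nat_lit 130) (nat_lit 5) (nat_lit 129) (nat_lit 5) (nat_lit 140) (nat_lit 5) (nat_lit 406) (nat_lit 404) (nat_lit 270))) (XT.nd (nat_lit 94) (nat_lit 0) (nat_lit 84) (XT.lf (nat_lit 84) (nat_lit 19539082067) (nat_lit 0) (nat_lit 56081551394) (nat_lit 924) (nat_lit 59278952227) (nat_lit 131) (nat_lit 5) (nat_lit 130) (nat_lit 5) (nat_lit 141) (nat_lit 5) (nat_lit 407) (nat_lit 404) (nat_lit 269)) (XT.lf (nat_lit 0) (nat_lit 88523955918) (nat_lit 840) (nat_lit 4561912269) (nat_lit 924) (nat_lit 47353326707) (nat_lit 131) (nat_lit 5) (nat_lit 141) (nat_lit 5) (nat_lit 142) (nat_lit 5) (nat_lit 408) (nat_lit 404) (nat_lit 268))))))) (XT.nd (nat_lit 1316) (nat_lit 3192) (nat_lit 0) (XT.nd (nat_lit 658) (nat_lit 2016) (nat_lit 0) (XT.nd (nat_lit 282) (nat_lit 1764) (nat_lit 0) (XT.nd (nat_lit 94) (nat_lit 756) (nat_lit 0) (XT.lf (nat_lit 0) (nat_lit 105443837658)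 (nat_lit 840) (nat_lit 28551708160) (nat_lit 924) (nat_lit 12277212345) (nat_lit 132) (nat_lit 5) (nat_lit 142) (nat_lit 5) (nat_lit 143) (nat_lit 5) (nat_lit 409) (nat_lit 404) (nat_lit 267)) (XT.nd (nat_lit 94) (nat_lit 756) (nat_lit 0) (XT.lf (nat_lit 84) (nat_lit 98977072301) (nat_lit 0) (nat_lit 27935385514) (nat_lit 924) (nat_lit 25500791284) (nat_lit 133) (nat_lit 5) (nat_lit 132) (nat_lit 5) (nat_lit 143) (nat_lit 5) (nat_lit 410) (nat_lit 404) (nat_lit 266)) (XT.lf (nat_lit 0) (nat_lit 79904239413) (nat_lit 840) (nat_lit 73299087565) (nat_lit 924) (nat_lit 5686414362) (nat_lit 123) (nat_lit 5) (nat_lit 133) (nat_lit 5) (nat_lit 134) (nat_lit 5) (nat_lit 411) (nat_lit 404) (nat_lit 265)))) (XT.nd (nat_lit 188) (nat_lit 756) (nat_lit 0) (XT.nd (nat_lit 94) (nat_lit 420) (nat_lit 0) (XT.lf (nat_lit 0) (nat_lit 18263633218) (nat_lit 588) (nat_lit 105225325491)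 (nat_lit 84) (nat_lit 42230456053) (nat_lit 116) (nat_lit 5) (nat_lit 123) (nat_lit 5) (nat_lit 117) (nat_lit 5) (nat_lit 412) (nat_lit 404) (nat_lit 264)) (XT.lf (nat_lit 0) (nat_lit 40879490674) (nat_lit 420) (nat_lit 6325822328) (nat_lit 504) (nat_lit 125721745428) (nat_lit 111) (nat_lit 5) (nat_lit 116) (nat_lit 5) (nat_lit 117) (nat_lit 5) (nat_lit 413) (nat_lit 404) (nat_lit 263))) (XT.nd (nat_lit 94) (nat_lit 336) (nat_lit 0) (XT.lf (nat_lit 0) (nat_lit 20561370835) (nat_lit 420) (nat_lit 61961387028) (nat_lit 504) (nat_lit 97985534194) (nat_lit 106) (nat_lit 5) (nat_lit 111) (nat_lit 5) (nat_lit 112) (nat_lit 5) (nat_lit 414) (nat_lit 404) (nat_lit 262)) (XT.lf (nat_lit 0) (nat_lit 375304875) (nat_lit 336) (nat_lit 123745595354) (nat_lit 420) (nat_lit 64402359049) (nat_lit 102) (nat_lit 5) (nat_lit 106) (nat_lit 5) (nat_lit 107) (nat_lit 5) (nat_lit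 415) (nat_lit 404) (nat_lit 261))))) (XT.nd (nat_lit 282) (nat_lit 1260) (nat_lit 0) (XT.nd (nat_lit 94) (nat_lit 756) (nat_lit 0) (XT.lf (nat_lit 0) (nat_lit 172943290234) (nat_lit 420) (nat_lit 18916187828) (nat_lit 84) (nat_lit 5125126002) (nat_lit 102) (nat_lit 5) (nat_lit 107) (nat_lit 5) (nat_lit 103) (nat_lit 5) (nat_lit 416) (nat_lit 404) (nat_lit 260)) (XT.nd (nat_lit 94) (nat_lit 336) (nat_lit 0) (XT.lf (nat_lit 0) (nat_lit 23695291408) (nat_lit 420) (nat_lit 39154381186) (nat_lit 84) (nat_lit 143019305697) (nat_lit 97) (nat_lit 5) (nat_lit 102) (nat_lit 5) (nat_lit 98) (nat_lit 5) (nat_lit 417) (nat_lit 404) (nat_lit 259)) (XT.lf (nat_lit 0) (nat_lit 78452600161) (nat_lit 420) (nat_lit 59512176738) (nat_lit 84) (nat_lit 77277416281) (nat_lit 93) (nat_lit 5) (nat_lit 98) (nat_lit 5) (nat_lit 94) (nat_lit 5) (nat_lit 418) (nat_lit 404) (nat_lit 258))))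 (XT.nd (nat_lit 188) (nat_lit 672) (nat_lit 0) (XT.nd (nat_lit 94) (nat_lit 252) (nat_lit 0) (XT.lf (nat_lit 0) (nat_lit 141686938745) (nat_lit 420) (nat_lit 79360506155) (nat_lit 84) (nat_lit 4112998105) (nat_lit 89) (nat_lit 5) (nat_lit 94) (nat_lit 5) (nat_lit 90) (nat_lit 5) (nat_lit 419) (nat_lit 404) (nat_lit 257)) (XT.lf (nat_lit 0) (nat_lit 135846056646) (nat_lit 252) (nat_lit 79634605564) (nat_lit 336) (nat_lit 20116458715) (nat_lit 86) (nat_lit 5) (nat_lit 89) (nat_lit 5) (nat_lit 90) (nat_lit 5) (nat_lit 420) (nat_lit 404) (nat_lit 256))) (XT.nd (nat_lit 94) (nat_lit 252) (nat_lit 0) (XT.lf (nat_lit 0) (nat_lit 51369318227) (nat_lit 420) (nat_lit 120259867931) (nat_lit 84) (nat_lit 74971516746) (nat_lit 81) (nat_lit 5) (nat_lit 86) (nat_lit 5) (nat_lit 82) (nat_lit 5) (nat_lit 421) (nat_lit 404) (nat_lit 255)) (XT.lf (nat_lit 0) (nat_lit 117742104377)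 (nat_lit 252) (nat_lit 15083375036) (nat_lit 336) (nat_lit 125394787888) (nat_lit 78) (nat_lit 5) (nat_lit 81) (nat_lit 5) (nat_lit 82) (nat_lit 5) (nat_lit 422) (nat_lit 404) (nat_lit 254)))))) (XT.nd (nat_lit 658) (nat_lit 1428) (nat_lit 0) (XT.nd (nat_lit 282) (nat_lit 924) (nat_lit 0) (XT.nd (nat_lit 94) (nat_lit 588) (nat_lit 0) (XT.lf (nat_lit 0) (nat_lit 109479166345) (nat_lit 252) (nat_lit 117561331163) (nat_lit 336) (nat_lit 43416781141) (nat_lit 75) (nat_lit 5) (nat_lit 78) (nat_lit 5) (nat_lit 79) (nat_lit 5) (nat_lit 423) (nat_lit 404) (nat_lit 253)) (XT.nd (nat_lit 94) (nat_lit 252) (nat_lit 0) (XT.lf (nat_lit 0) (nat_lit 48889310353) (nat_lit 336) (nat_lit 181079353645) (nat_lit 84) (nat_lit 53408667396) (nat_lit 71) (nat_lit 5) (nat_lit 75) (nat_lit 5) (nat_lit 72) (nat_lit 5) (nat_lit 424) (nat_lit 404) (nat_lit 252)) (XT.lf (nat_lit 0) (nat_lit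 95489390830) (nat_lit 252) (nat_lit 57912743995) (nat_lit 336) (nat_lit 143576098099) (nat_lit 68) (nat_lit 5) (nat_lit 71) (nat_lit 5) (nat_lit 72) (nat_lit 5) (nat_lit 425) (nat_lit 404) (nat_lit 251)))) (XT.nd (nat_lit 188) (nat_lit 420) (nat_lit 0) (XT.nd (nat_lit 94) (nat_lit 336) (nat_lit 0) (XT.lf (nat_lit 0) (nat_lit 89971000180) (nat_lit 168) (nat_lit 182912449214) (nat_lit 252) (nat_lit 38453383975) (nat_lit 66) (nat_lit 5) (nat_lit 68) (nat_lit 5) (nat_lit 69) (nat_lit 5) (nat_lit 426) (nat_lit 404) (nat_lit 250)) (XT.lf (nat_lit 0) (nat_lit 78672846139) (nat_lit 336) (nat_lit 240790512005) (nat_lit 84) (nat_lit 7022318889) (nat_lit 62) (nat_lit 5) (nat_lit 66) (nat_lit 5) (nat_lit 63) (nat_lit 5) (nat_lit 427) (nat_lit 404) (nat_lit 249))) (XT.nd (nat_lit 94) (nat_lit 252) (nat_lit 0) (XT.lf (nat_lit 0) (nat_lit 81380828060) (nat_lit 168) (nat_lit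 130733012870) (nat_lit 252) (nat_lit 130286473815) (nat_lit 60) (nat_lit 5) (nat_lit 62) (nat_lit 5) (nat_lit 63) (nat_lit 5) (nat_lit 428) (nat_lit 404) (nat_lit 248)) (XT.lf (nat_lit 0) (nat_lit 3510065229) (nat_lit 252) (nat_lit 279419392212) (nat_lit 84) (nat_lit 76323257622) (nat_lit 57) (nat_lit 5) (nat_lit 60) (nat_lit 5) (nat_lit 58) (nat_lit 5) (nat_lit 429) (nat_lit 404) (nat_lit 247))))) (XT.nd (nat_lit 376) (nat_lit 672) (nat_lit 0) (XT.nd (nat_lit 188) (nat_lit 420) (nat_lit 0) (XT.nd (nat_lit 94) (nat_lit 168) (nat_lit 0) (XT.lf (nat_lit 0) (nat_lit 78071973270) (nat_lit 168) (nat_lit 73479228331) (nat_lit 252) (nat_lit 225390039733) (nat_lit 55) (nat_lit 5) (nat_lit 57) (nat_lit 5) (nat_lit 58) (nat_lit 5) (nat_lit 430) (nat_lit 404) (nat_lit 246)) (XT.lf (nat_lit 0) (nat_lit 78383287296) (nat_lit 168) (nat_lit 241607531359) (nat_lit 252) (nat_lit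 75626271564) (nat_lit 53) (nat_lit 5) (nat_lit 55) (nat_lit 5) (nat_lit 56) (nat_lit 5) (nat_lit 431) (nat_lit 404) (nat_lit 245))) (XT.nd (nat_lit 94) (nat_lit 168) (nat_lit 0) (XT.lf (nat_lit 0) (nat_lit 80881376344) (nat_lit 168) (nat_lit 10273942573) (nat_lit 252) (nat_lit 324174807774) (nat_lit 50) (nat_lit 5) (nat_lit 52) (nat_lit 5) (nat_lit 53) (nat_lit 5) (nat_lit 432) (nat_lit 404) (nat_lit 244)) (XT.lf (nat_lit 0) (nat_lit 83392880861) (nat_lit 168) (nat_lit 195931124430) (nat_lit 252) (nat_lit 156699504801) (nat_lit 48) (nat_lit 5) (nat_lit 50) (nat_lit 5) (nat_lit 51) (nat_lit 5) (nat_lit 433) (nat_lit 404) (nat_lit 243)))) (XT.nd (nat_lit 188) (nat_lit 336) (nat_lit 0) (XT.nd (nat_lit 94) (nat_lit 168) (nat_lit 0) (XT.lf (nat_lit 0) (nat_lit 31846697458) (nat_lit 168) (nat_lit 368129665282) (nat_lit 84) (nat_lit 57954800952) (nat_lit 46) (nat_lit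 5) (nat_lit 48) (nat_lit 5) (nat_lit 47) (nat_lit 5) (nat_lit 434) (nat_lit 404) (nat_lit 242)) (XT.lf (nat_lit 0) (nat_lit 95960575892) (nat_lit 168) (nat_lit 145144532360) (nat_lit 252) (nat_lit 239801954128) (nat_lit 44) (nat_lit 5) (nat_lit 46) (nat_lit 5) (nat_lit 47) (nat_lit 5) (nat_lit 435) (nat_lit 404) (nat_lit 241))) (XT.nd (nat_lit 94) (nat_lit 252) (nat_lit 0) (XT.lf (nat_lit 0) (nat_lit 106185808768) (nat_lit 84) (nat_lit 371124607358) (nat_lit 168) (nat_lit 27900305625) (nat_lit 43) (nat_lit 5) (nat_lit 44) (nat_lit 5) (nat_lit 45) (nat_lit 4) (nat_lit 436) (nat_lit 404) (nat_lit 240)) (XT.lf (nat_lit 0) (nat_lit 117290584889) (nat_lit 168) (nat_lit 88325054671) (nat_lit 252) (nat_lit 325131465418) (nat_lit 40) (nat_lit 5) (nat_lit 42) (nat_lit 5) (nat_lit 43) (nat_lit 5) (nat_lit 437) (nat_lit 404) (nat_lit 239))))))))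
noncomputable def xc182 : XT := (XT.nd (nat_lit 2632) (nat_lit 0) (nat_lit 0) (XT.nd (nat_lit 1316) (nat_lit 1344) (nat_lit 0) (XT.nd (nat_lit 658) (nat_lit 924) (nat_lit 0) (XT.nd (nat_lit 282) (nat_lit 672) (nat_lit 0) (XT.nd (nat_lit 94) (nat_lit 336) (nat_lit 0) (XT.lf (nat_lit 0) (nat_lit 131413380066) (nat_lit 84) (nat_lit 337940861056) (nat_lit 168) (nat_lit 88323345060) (nat_lit 39) (nat_lit 5) (nat_lit 40) (nat_lit 5) (nat_lit 41) (nat_lit 4) (nat_lit 438) (nat_lit 404) (nat_lit 238)) (XT.nd (nat_lit 94) (nat_lit 84) (nat_lit 0) (XT.lf (nat_lit 0) (nat_lit 148774904475) (nat_lit 168) (nat_lit 24427920103) (nat_lit 252) (nat_lit 412872369833) (nat_lit 36) (nat_lit 5) (nat_lit 38) (nat_lit 5) (nat_lit 39) (nat_lit 5) (nat_lit 439) (nat_lit 404) (nat_lit 237)) (XT.lf (nat_lit 0) (nat_lit 167510652911) (nat_lit 84) (nat_lit 300154543417) (nat_lit 168)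 (nat_lit 148251592372) (nat_lit 35) (nat_lit 5) (nat_lit 36) (nat_lit 5) (nat_lit 37) (nat_lit 4) (nat_lit 440) (nat_lit 404) (nat_lit 236)))) (XT.nd (nat_lit 188) (nat_lit 336) (nat_lit 0) (XT.nd (nat_lit 94) (nat_lit 84) (nat_lit 0) (XT.lf (nat_lit 0) (nat_lit 145034030763) (nat_lit 252) (nat_lit 456207038571) (nat_lit 84) (nat_lit 46202408577) (nat_lit 32) (nat_lit 5) (nat_lit 35) (nat_lit 5) (nat_lit 33) (nat_lit 4) (nat_lit 441) (nat_lit 404) (nat_lit 235)) (XT.lf (nat_lit 0) (nat_lit 216191339550) (nat_lit 84) (nat_lit 256841961203) (nat_lit 168) (nat_lit 207515243276) (nat_lit 31) (nat_lit 5) (nat_lit 32) (nat_lit 5) (nat_lit 33) (nat_lit 4) (nat_lit 442) (nat_lit 404) (nat_lit 234))) (XT.nd (nat_lit 94) (nat_lit 84) (nat_lit 0) (XT.lf (nat_lit 0) (nat_lit 121402979145) (nat_lit 252) (nat_lit 468768695671) (nat_lit 84) (nat_lit 125344501038) (nat_lit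 28) (nat_lit 5) (nat_lit 31) (nat_lit 5) (nat_lit 29) (nat_lit 4) (nat_lit 443) (nat_lit 404) (nat_lit 233)) (XT.lf (nat_lit 0) (nat_lit 279426454923) (nat_lit 84) (nat_lit 206949818344) (nat_lit 168) (nat_lit 265884253639) (nat_lit 27) (nat_lit 5) (nat_lit 28) (nat_lit 5) (nat_lit 29) (nat_lit 4) (nat_lit 444) (nat_lit 404) (nat_lit 232))))) (XT.nd (nat_lit 282) (nat_lit 504) (nat_lit 0) (XT.nd (nat_lit 94) (nat_lit 252) (nat_lit 0) (XT.lf (nat_lit 0) (nat_lit 102557073714) (nat_lit 168) (nat_lit 473229427505) (nat_lit 84) (nat_lit 215249261845) (nat_lit 25) (nat_lit 5) (nat_lit 27) (nat_lit 5) (nat_lit 26) (nat_lit 4) (nat_lit 445) (nat_lit 404) (nat_lit 231)) (XT.nd (nat_lit 94) (nat_lit 168) (nat_lit 0) (XT.lf (nat_lit 0) (nat_lit 359479018102) (nat_lit 84) (nat_lit 149277338140) (nat_lit 168) (nat_lit 323058827058) (nat_lit 24) (nat_lit 5) (nat_lit 25)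 (nat_lit 5) (nat_lit 26) (nat_lit 4) (nat_lit 446) (nat_lit 404) (nat_lit 230)) (XT.lf (nat_lit 0) (nat_lit 89239355429) (nat_lit 168) (nat_lit 467984644778) (nat_lit 84) (nat_lit 317580256995) (nat_lit 22) (nat_lit 5) (nat_lit 24) (nat_lit 5) (nat_lit 23) (nat_lit 4) (nat_lit 447) (nat_lit 404) (nat_lit 229)))) (XT.nd (nat_lit 188) (nat_lit 252) (nat_lit 0) (XT.nd (nat_lit 94) (nat_lit 168) (nat_lit 0) (XT.lf (nat_lit 0) (nat_lit 458943268347) (nat_lit 84) (nat_lit 82456077992) (nat_lit 168) (nat_lit 378658490288) (nat_lit 21) (nat_lit 5) (nat_lit 22) (nat_lit 5) (nat_lit 23) (nat_lit 4) (nat_lit 448) (nat_lit 404) (nat_lit 228)) (XT.lf (nat_lit 0) (nat_lit 82323044171) (nat_lit 168) (nat_lit 451166764054) (nat_lit 84) (nat_lit 434221000741) (nat_lit 19) (nat_lit 5) (nat_lit 21) (nat_lit 5) (nat_lit 20) (nat_lit 4) (nat_lit 449) (nat_lit 404) (nat_lit 227)))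 (XT.nd (nat_lit 94) (nat_lit 168) (nat_lit 0) (XT.lf (nat_lit 0) (nat_lit 580788963046) (nat_lit 84) (nat_lit 4927145914) (nat_lit 168) (nat_lit 432209566490) (nat_lit 18) (nat_lit 5) (nat_lit 19) (nat_lit 5) (nat_lit 20) (nat_lit 4) (nat_lit 450) (nat_lit 404) (nat_lit 226)) (XT.lf (nat_lit 0) (nat_lit 82829631500) (nat_lit 168) (nat_lit 420607933438) (nat_lit 84) (nat_lit 567303584155) (nat_lit 16) (nat_lit 5) (nat_lit 18) (nat_lit 5) (nat_lit 17) (nat_lit 4) (nat_lit 451) (nat_lit 404) (nat_lit 225)))))) (XT.nd (nat_lit 658) (nat_lit 504) (nat_lit 0) (XT.nd (nat_lit 282) (nat_lit 504) (nat_lit 0) (XT.nd (nat_lit 94) (nat_lit 252) (nat_lit 0) (XT.lf (nat_lit 0) (nat_lit 644655294496) (nat_lit 168) (nat_lit 399374731541) (nat_lit 0) (nat_lit 82361272105) (nat_lit 15) (nat_lit 5) (nat_lit 17) (nat_lit 4) (nat_lit 15) (nat_lit 4) (nat_lit 452) (nat_lit 404)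 (nat_lit 224)) (XT.nd (nat_lit 94) (nat_lit 84) (nat_lit 0) (XT.lf (nat_lit 0) (nat_lit 91949413394) (nat_lit 168) (nat_lit 373797765051) (nat_lit 84) (nat_lit 719240883876) (nat_lit 13) (nat_lit 5) (nat_lit 15) (nat_lit 5) (nat_lit 14) (nat_lit 4) (nat_lit 453) (nat_lit 404) (nat_lit 223)) (XT.lf (nat_lit 0) (nat_lit 719048924962) (nat_lit 168) (nat_lit 344078195077) (nat_lit 0) (nat_lit 183530734812) (nat_lit 12) (nat_lit 5) (nat_lit 14) (nat_lit 4) (nat_lit 12) (nat_lit 4) (nat_lit 454) (nat_lit 404) (nat_lit 222)))) (XT.nd (nat_lit 188) (nat_lit 252) (nat_lit 0) (XT.nd (nat_lit 94) (nat_lit 84) (nat_lit 0) (XT.lf (nat_lit 0) (nat_lit 111064775136) (nat_lit 168) (nat_lit 307835433877) (nat_lit 84) (nat_lit 892762790952) (nat_lit 10) (nat_lit 5) (nat_lit 12) (nat_lit 5) (nat_lit 11) (nat_lit 4) (nat_lit 455) (nat_lit 404) (nat_lit 221)) (XT.lf (nat_lit 0)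 (nat_lit 810980839757) (nat_lit 168) (nat_lit 268060129375) (nat_lit 0) (nat_lit 300963455719) (nat_lit 9) (nat_lit 5) (nat_lit 11) (nat_lit 4) (nat_lit 9) (nat_lit 4) (nat_lit 456) (nat_lit 404) (nat_lit 220))) (XT.nd (nat_lit 94) (nat_lit 84) (nat_lit 0) (XT.lf (nat_lit 0) (nat_lit 141776579594) (nat_lit 168) (nat_lit 219375422616) (nat_lit 84) (nat_lit 1090956952816) (nat_lit 7) (nat_lit 5) (nat_lit 9) (nat_lit 5) (nat_lit 8) (nat_lit 4) (nat_lit 457) (nat_lit 404) (nat_lit 219)) (XT.lf (nat_lit 0) (nat_lit 922919493545) (nat_lit 168) (nat_lit 167736611218) (nat_lit 0) (nat_lit 437188602544) (nat_lit 6) (nat_lit 5) (nat_lit 8) (nat_lit 4) (nat_lit 6) (nat_lit 4) (nat_lit 458) (nat_lit 404) (nat_lit 218))))) (XT.nd (nat_lit 282) (nat_lit 0) (nat_lit 0) (XT.nd (nat_lit 94) (nat_lit 336) (nat_lit 0) (XT.lf (nat_lit 0) (nat_lit 185934053874) (nat_lit 168) (nat_lit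 104566102398) (nat_lit 84) (nat_lit 1317314580843) (nat_lit 4) (nat_lit 5) (nat_lit 6) (nat_lit 5) (nat_lit 5) (nat_lit 4) (nat_lit 459) (nat_lit 404) (nat_lit 217)) (XT.nd (nat_lit 94) (nat_lit 252) (nat_lit 0) (XT.lf (nat_lit 0) (nat_lit 1057681105547) (nat_lit 168) (nat_lit 38984572734) (nat_lit 0) (nat_lit 595080216917) (nat_lit 3) (nat_lit 5) (nat_lit 5) (nat_lit 4) (nat_lit 3) (nat_lit 4) (nat_lit 460) (nat_lit 404) (nat_lit 216)) (XT.lf (nat_lit 0) (nat_lit 2582669215031) (nat_lit 0) (nat_lit 0) (nat_lit 0) (nat_lit 0) (nat_lit 0) (nat_lit 0) (nat_lit 1) (nat_lit 0) (nat_lit 1) (nat_lit 0) (nat_lit 461) (nat_lit 404) (nat_lit 215)))) (XT.nd (nat_lit 188) (nat_lit 0) (nat_lit 0) (XT.nd (nat_lit 94) (nat_lit 0) (nat_lit 0) (XT.lf (nat_lit 0) (nat_lit 2786743911245) (nat_lit 0) (nat_lit 0) (nat_lit 0) (nat_lit 0) (nat_lit 0) (nat_lit 0) (nat_lit 1) (nat_lit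 0) (nat_lit 1) (nat_lit 0) (nat_lit 462) (nat_lit 404) (nat_lit 214)) (XT.lf (nat_lit 0) (nat_lit 3007144583329) (nat_lit 0) (nat_lit 0) (nat_lit 0) (nat_lit 0) (nat_lit 0) (nat_lit 0) (nat_lit 1) (nat_lit 0) (nat_lit 1) (nat_lit 0) (nat_lit 463) (nat_lit 404) (nat_lit 213))) (XT.nd (nat_lit 94) (nat_lit 0) (nat_lit 0) (XT.lf (nat_lit 0) (nat_lit 3245177309342) (nat_lit 0) (nat_lit 0) (nat_lit 0) (nat_lit 0) (nat_lit 0) (nat_lit 0) (nat_lit 1) (nat_lit 0) (nat_lit 1) (nat_lit 0) (nat_lit 464) (nat_lit 404) (nat_lit 212)) (XT.lf (nat_lit 0) (nat_lit 3502252653586) (nat_lit 0) (nat_lit 0) (nat_lit 0) (nat_lit 0) (nat_lit 0) (nat_lit 0) (nat_lit 1) (nat_lit 0) (nat_lit 1) (nat_lit 0) (nat_lit 465) (nat_lit 404) (nat_lit 211))))))) (XT.nd (nat_lit 1316) (nat_lit 0) (nat_lit 0) (XT.nd (nat_lit 658) (nat_lit 0) (nat_lit 0) (XT.nd (nat_lit 282) (nat_lit 0) (nat_lit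 0) (XT.nd (nat_lit 94) (nat_lit 0) (nat_lit 0) (XT.lf (nat_lit 0) (nat_lit 3779894025508) (nat_lit 0) (nat_lit 0) (nat_lit 0) (nat_lit 0) (nat_lit 0) (nat_lit 0) (nat_lit 1) (nat_lit 0) (nat_lit 1) (nat_lit 0) (nat_lit 466) (nat_lit 404) (nat_lit 210)) (XT.nd (nat_lit 94) (nat_lit 0) (nat_lit 0) (XT.lf (nat_lit 0) (nat_lit 4079746707312) (nat_lit 0) (nat_lit 0) (nat_lit 0) (nat_lit 0) (nat_lit 0) (nat_lit 0) (nat_lit 1) (nat_lit 0) (nat_lit 1) (nat_lit 0) (nat_lit 467) (nat_lit 404) (nat_lit 209)) (XT.lf (nat_lit 0) (nat_lit 4403587603778) (nat_lit 0) (nat_lit 0) (nat_lit 0) (nat_lit 0) (nat_lit 0) (nat_lit 0) (nat_lit 1) (nat_lit 0) (nat_lit 1) (nat_lit 0) (nat_lit 468) (nat_lit 404) (nat_lit 208)))) (XT.nd (nat_lit 188) (nat_lit 0) (nat_lit 0) (XT.nd (nat_lit 94) (nat_lit 0) (nat_lit 0) (XT.lf (nat_lit 0) (nat_lit 4753335772073) (nat_lit 0) (nat_lit 0) (nat_lit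 0) (nat_lit 0) (nat_lit 0) (nat_lit 0) (nat_lit 1) (nat_lit 0) (nat_lit 1) (nat_lit 0) (nat_lit 469) (nat_lit 404) (nat_lit 207)) (XT.lf (nat_lit 0) (nat_lit 5131063793932) (nat_lit 0) (nat_lit 0) (nat_lit 0) (nat_lit 0) (nat_lit 0) (nat_lit 0) (nat_lit 1) (nat_lit 0) (nat_lit 1) (nat_lit 0) (nat_lit 470) (nat_lit 404) (nat_lit 206))) (XT.nd (nat_lit 94) (nat_lit 0) (nat_lit 0) (XT.lf (nat_lit 0) (nat_lit 5539010057635) (nat_lit 0) (nat_lit 0) (nat_lit 0) (nat_lit 0) (nat_lit 0) (nat_lit 0) (nat_lit 1) (nat_lit 0) (nat_lit 1) (nat_lit 0) (nat_lit 471) (nat_lit 404) (nat_lit 205)) (XT.lf (nat_lit 0) (nat_lit 5979592022521) (nat_lit 0) (nat_lit 0) (nat_lit 0) (nat_lit 0) (nat_lit 0) (nat_lit 0) (nat_lit 1) (nat_lit 0) (nat_lit 1) (nat_lit 0) (nat_lit 472) (nat_lit 404) (nat_lit 204))))) (XT.nd (nat_lit 282) (nat_lit 0) (nat_lit 0) (XT.nd (nat_lit 94) (nat_lit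 0) (nat_lit 0) (XT.lf (nat_lit 0) (nat_lit 6455420544679) (nat_lit 0) (nat_lit 0) (nat_lit 0) (nat_lit 0) (nat_lit 0) (nat_lit 0) (nat_lit 1) (nat_lit 0) (nat_lit 1) (nat_lit 0) (nat_lit 473) (nat_lit 404) (nat_lit 203)) (XT.nd (nat_lit 94) (nat_lit 0) (nat_lit 0) (XT.lf (nat_lit 0) (nat_lit 6969315348684) (nat_lit 0) (nat_lit 0) (nat_lit 0) (nat_lit 0) (nat_lit 0) (nat_lit 0) (nat_lit 1) (nat_lit 0) (nat_lit 1) (nat_lit 0) (nat_lit 474) (nat_lit 404) (nat_lit 202)) (XT.lf (nat_lit 0) (nat_lit 7524321737079) (nat_lit 0) (nat_lit 0) (nat_lit 0) (nat_lit 0) (nat_lit 0) (nat_lit 0) (nat_lit 1) (nat_lit 0) (nat_lit 1) (nat_lit 0) (nat_lit 475) (nat_lit 404) (nat_lit 201)))) (XT.nd (nat_lit 188) (nat_lit 0) (nat_lit 0) (XT.nd (nat_lit 94) (nat_lit 0) (nat_lit 0) (XT.lf (nat_lit 0) (nat_lit 8123728636610) (nat_lit 0) (nat_lit 0) (nat_lit 0) (nat_lit 0) (nat_lit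 0) (nat_lit 0) (nat_lit 1) (nat_lit 0) (nat_lit 1) (nat_lit 0) (nat_lit 476) (nat_lit 404) (nat_lit 200)) (XT.lf (nat_lit 0) (nat_lit 8771088088163) (nat_lit 0) (nat_lit 0) (nat_lit 0) (nat_lit 0) (nat_lit 0) (nat_lit 0) (nat_lit 1) (nat_lit 0) (nat_lit 1) (nat_lit 0) (nat_lit 477) (nat_lit 404) (nat_lit 199))) (XT.nd (nat_lit 94) (nat_lit 0) (nat_lit 0) (XT.lf (nat_lit 0) (nat_lit 9470236295895) (nat_lit 0) (nat_lit 0) (nat_lit 0) (nat_lit 0) (nat_lit 0) (nat_lit 0) (nat_lit 1) (nat_lit 0) (nat_lit 1) (nat_lit 0) (nat_lit 478) (nat_lit 404) (nat_lit 198)) (XT.lf (nat_lit 0) (nat_lit 10225316360296) (nat_lit 0) (nat_lit 0) (nat_lit 0) (nat_lit 0) (nat_lit 0) (nat_lit 0) (nat_lit 1) (nat_lit 0) (nat_lit 1) (nat_lit 0) (nat_lit 479) (nat_lit 404) (nat_lit 197)))))) (XT.nd (nat_lit 658) (nat_lit 0) (nat_lit 0) (XT.nd (nat_lit 282) (nat_lit 0) (nat_lit 0) (XT.nd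 (nat_lit 94) (nat_lit 0) (nat_lit 0) (XT.lf (nat_lit 0) (nat_lit 11040802829897) (nat_lit 0) (nat_lit 0) (nat_lit 0) (nat_lit 0) (nat_lit 0) (nat_lit 0) (nat_lit 1) (nat_lit 0) (nat_lit 1) (nat_lit 0) (nat_lit 480) (nat_lit 404) (nat_lit 196)) (XT.nd (nat_lit 94) (nat_lit 0) (nat_lit 0) (XT.lf (nat_lit 0) (nat_lit 11921528217109) (nat_lit 0) (nat_lit 0) (nat_lit 0) (nat_lit 0) (nat_lit 0) (nat_lit 0) (nat_lit 1) (nat_lit 0) (nat_lit 1) (nat_lit 0) (nat_lit 481) (nat_lit 404) (nat_lit 195)) (XT.lf (nat_lit 0) (nat_lit 12872711635339) (nat_lit 0) (nat_lit 0) (nat_lit 0) (nat_lit 0) (nat_lit 0) (nat_lit 0) (nat_lit 1) (nat_lit 0) (nat_lit 1) (nat_lit 0) (nat_lit 482) (nat_lit 404) (nat_lit 194)))) (XT.nd (nat_lit 188) (nat_lit 0) (nat_lit 0) (XT.nd (nat_lit 94) (nat_lit 0) (nat_lit 0) (XT.lf (nat_lit 0) (nat_lit 13899989727065) (nat_lit 0) (nat_lit 0) (nat_lit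 0) (nat_lit 0) (nat_lit 0) (nat_lit 0) (nat_lit 1) (nat_lit 0) (nat_lit 1) (nat_lit 0) (nat_lit 483) (nat_lit 404) (nat_lit 193)) (XT.lf (nat_lit 0) (nat_lit 15009450066163) (nat_lit 0) (nat_lit 0) (nat_lit 0) (nat_lit 0) (nat_lit 0) (nat_lit 0) (nat_lit 1) (nat_lit 0) (nat_lit 1) (nat_lit 0) (nat_lit 484) (nat_lit 404) (nat_lit 192))) (XT.nd (nat_lit 94) (nat_lit 0) (nat_lit 0) (XT.lf (nat_lit 0) (nat_lit 16207667232422) (nat_lit 0) (nat_lit 0) (nat_lit 0) (nat_lit 0) (nat_lit 0) (nat_lit 0) (nat_lit 1) (nat_lit 0) (nat_lit 1) (nat_lit 0) (nat_lit 485) (nat_lit 404) (nat_lit 191)) (XT.lf (nat_lit 0) (nat_lit 17501741772010) (nat_lit 0) (nat_lit 0) (nat_lit 0) (nat_lit 0) (nat_lit 0) (nat_lit 0) (nat_lit 1) (nat_lit 0) (nat_lit 1) (nat_lit 0) (nat_lit 486) (nat_lit 404) (nat_lit 190))))) (XT.nd (nat_lit 376) (nat_lit 0) (nat_lit 0) (XT.nd (nat_lit 188) (nat_lit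 0) (nat_lit 0) (XT.nd (nat_lit 94) (nat_lit 0) (nat_lit 0) (XT.lf (nat_lit 0) (nat_lit 18899342274794) (nat_lit 0) (nat_lit 0) (nat_lit 0) (nat_lit 0) (nat_lit 0) (nat_lit 0) (nat_lit 1) (nat_lit 0) (nat_lit 1) (nat_lit 0) (nat_lit 487) (nat_lit 404) (nat_lit 189)) (XT.lf (nat_lit 0) (nat_lit 20408750817825) (nat_lit 0) (nat_lit 0) (nat_lit 0) (nat_lit 0) (nat_lit 0) (nat_lit 0) (nat_lit 1) (nat_lit 0) (nat_lit 1) (nat_lit 0) (nat_lit 488) (nat_lit 404) (nat_lit 188))) (XT.nd (nat_lit 94) (nat_lit 0) (nat_lit 0) (XT.lf (nat_lit 0) (nat_lit 22038912044323) (nat_lit 0) (nat_lit 0) (nat_lit 0) (nat_lit 0) (nat_lit 0) (nat_lit 0) (nat_lit 1) (nat_lit 0) (nat_lit 1) (nat_lit 0) (nat_lit 489) (nat_lit 404) (nat_lit 187)) (XT.lf (nat_lit 0) (nat_lit 23799486168963) (nat_lit 0) (nat_lit 0) (nat_lit 0) (nat_lit 0) (nat_lit 0) (nat_lit 0) (nat_lit 1) (nat_lit 0) (nat_lit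 1) (nat_lit 0) (nat_lit 490) (nat_lit 404) (nat_lit 186)))) (XT.nd (nat_lit 188) (nat_lit 0) (nat_lit 0) (XT.nd (nat_lit 94) (nat_lit 0) (nat_lit 0) (XT.lf (nat_lit 0) (nat_lit 25700906223593) (nat_lit 0) (nat_lit 0) (nat_lit 0) (nat_lit 0) (nat_lit 0) (nat_lit 0) (nat_lit 1) (nat_lit 0) (nat_lit 1) (nat_lit 0) (nat_lit 491) (nat_lit 404) (nat_lit 185)) (XT.lf (nat_lit 0) (nat_lit 27754439882613) (nat_lit 0) (nat_lit 0) (nat_lit 0) (nat_lit 0) (nat_lit 0) (nat_lit 0) (nat_lit 1) (nat_lit 0) (nat_lit 1) (nat_lit 0) (nat_lit 492) (nat_lit 404) (nat_lit 184))) (XT.nd (nat_lit 94) (nat_lit 0) (nat_lit 0) (XT.lf (nat_lit 0) (nat_lit 29972256234372) (nat_lit 0) (nat_lit 0) (nat_lit 0) (nat_lit 0) (nat_lit 0) (nat_lit 0) (nat_lit 1) (nat_lit 0) (nat_lit 1) (nat_lit 0) (nat_lit 493) (nat_lit 404) (nat_lit 183)) (XT.lf (nat_lit 0) (nat_lit 32367497894288) (nat_lit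 0) (nat_lit 0) (nat_lit 0) (nat_lit 0) (nat_lit 0) (nat_lit 0) (nat_lit 1) (nat_lit 0) (nat_lit 1) (nat_lit 0) (nat_lit 494) (nat_lit 404) (nat_lit 182))))))))
noncomputable def xc183 : XT := (XT.nd (nat_lit 61100) (nat_lit 0) (nat_lit 1344) (XT.nd (nat_lit 59784) (nat_lit 0) (nat_lit 6552) (XT.nd (nat_lit 658) (nat_lit 0) (nat_lit 0) (XT.nd (nat_lit 282) (nat_lit 0) (nat_lit 0) (XT.nd (nat_lit 94) (nat_lit 0) (nat_lit 0) (XT.lf (nat_lit 0) (nat_lit 34954358887012) (nat_lit 0) (nat_lit 0) (nat_lit 0) (nat_lit 0) (nat_lit 0) (nat_lit 0) (nat_lit 1) (nat_lit 0) (nat_lit 1) (nat_lit 0) (nat_lit 495) (nat_lit 404) (nat_lit 181)) (XT.nd (nat_lit 94) (nat_lit 0) (nat_lit 0) (XT.lf (nat_lit 0) (nat_lit 37748168759167) (nat_lit 0) (nat_lit 0) (nat_lit 0) (nat_lit 0) (nat_lit 0) (nat_lit 0) (nat_lit 1) (nat_lit 0) (nat_lit 1) (nat_lit 0) (nat_lit 496) (nat_lit 404)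 (nat_lit 180)) (XT.lf (nat_lit 0) (nat_lit 40765483421108) (nat_lit 0) (nat_lit 0) (nat_lit 0) (nat_lit 0) (nat_lit 0) (nat_lit 0) (nat_lit 1) (nat_lit 0) (nat_lit 1) (nat_lit 0) (nat_lit 497) (nat_lit 404) (nat_lit 179)))) (XT.nd (nat_lit 188) (nat_lit 0) (nat_lit 0) (XT.nd (nat_lit 94) (nat_lit 0) (nat_lit 0) (XT.lf (nat_lit 0) (nat_lit 44024183256016) (nat_lit 0) (nat_lit 0) (nat_lit 0) (nat_lit 0) (nat_lit 0) (nat_lit 0) (nat_lit 1) (nat_lit 0) (nat_lit 1) (nat_lit 0) (nat_lit 498) (nat_lit 404) (nat_lit 178)) (XT.lf (nat_lit 0) (nat_lit 47543579077727) (nat_lit 0) (nat_lit 0) (nat_lit 0) (nat_lit 0) (nat_lit 0) (nat_lit 0) (nat_lit 1) (nat_lit 0) (nat_lit 1) (nat_lit 0) (nat_lit 499) (nat_lit 404) (nat_lit 177))) (XT.nd (nat_lit 94) (nat_lit 0) (nat_lit 0) (XT.lf (nat_lit 0) (nat_lit 51344526565185) (nat_lit 0) (nat_lit 0) (nat_lit 0) (nat_lit 0) (nat_lit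 0) (nat_lit 0) (nat_lit 1) (nat_lit 0) (nat_lit 1) (nat_lit 0) (nat_lit 500) (nat_lit 404) (nat_lit 176)) (XT.lf (nat_lit 0) (nat_lit 55449549851650) (nat_lit 0) (nat_lit 0) (nat_lit 0) (nat_lit 0) (nat_lit 0) (nat_lit 0) (nat_lit 1) (nat_lit 0) (nat_lit 1) (nat_lit 0) (nat_lit 501) (nat_lit 404) (nat_lit 175))))) (XT.nd (nat_lit 58750) (nat_lit 0) (nat_lit 10836) (XT.nd (nat_lit 94) (nat_lit 0) (nat_lit 0) (XT.lf (nat_lit 0) (nat_lit 59882975001040) (nat_lit 0) (nat_lit 0) (nat_lit 0) (nat_lit 0) (nat_lit 0) (nat_lit 0) (nat_lit 1) (nat_lit 0) (nat_lit 1) (nat_lit 0) (nat_lit 502) (nat_lit 404) (nat_lit 174)) (XT.nd (nat_lit 58562) (nat_lit 0) (nat_lit 10752) (XT.lf (nat_lit 0) (nat_lit 64671074162389) (nat_lit 0) (nat_lit 0) (nat_lit 0) (nat_lit 0) (nat_lit 0) (nat_lit 0) (nat_lit 1) (nat_lit 0) (nat_lit 1) (nat_lit 0) (nat_lit 503) (nat_lit 404) (nat_lit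 173)) (XT.lf (nat_lit 0) (nat_lit 30427152432) (nat_lit 924) (nat_lit 17166044876) (nat_lit 924) (nat_lit 17166044876) (nat_lit 128) (nat_lit 3) (nat_lit 139) (nat_lit 3) (nat_lit 139) (nat_lit 5) (nat_lit 405) (nat_lit 405) (nat_lit 270)))) (XT.nd (nat_lit 188) (nat_lit 0) (nat_lit 84) (XT.nd (nat_lit 94) (nat_lit 0) (nat_lit 0) (XT.lf (nat_lit 0) (nat_lit 64523785828) (nat_lit 840) (nat_lit 63181423418) (nat_lit 924) (nat_lit 6932249059) (nat_lit 129) (nat_lit 5) (nat_lit 139) (nat_lit 5) (nat_lit 140) (nat_lit 5) (nat_lit 406) (nat_lit 405) (nat_lit 269)) (XT.lf (nat_lit 84) (nat_lit 46675886330) (nat_lit 0) (nat_lit 24751939011) (nat_lit 924) (nat_lit 68591074812) (nat_lit 130) (nat_lit 5) (nat_lit 129) (nat_lit 5) (nat_lit 140) (nat_lit 5) (nat_lit 407) (nat_lit 405) (nat_lit 268))) (XT.nd (nat_lit 94) (nat_lit 0) (nat_lit 84) (XT.lf (nat_lit 84) (nat_lit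 21109833572) (nat_lit 0) (nat_lit 60571531236) (nat_lit 924) (nat_lit 64009633701) (nat_lit 131) (nat_lit 5) (nat_lit 130) (nat_lit 5) (nat_lit 141) (nat_lit 5) (nat_lit 408) (nat_lit 405) (nat_lit 267)) (XT.lf (nat_lit 0) (nat_lit 95616082315) (nat_lit 840) (nat_lit 4919242170) (nat_lit 924) (nat_lit 51138495505) (nat_lit 131) (nat_lit 5) (nat_lit 141) (nat_lit 5) (nat_lit 142) (nat_lit 5) (nat_lit 409) (nat_lit 405) (nat_lit 266)))))) (XT.nd (nat_lit 658) (nat_lit 2016) (nat_lit 0) (XT.nd (nat_lit 282) (nat_lit 1764) (nat_lit 0) (XT.nd (nat_lit 94) (nat_lit 756) (nat_lit 0) (XT.lf (nat_lit 0) (nat_lit 113888876619) (nat_lit 840) (nat_lit 30828039118) (nat_lit 924) (nat_lit 13257186481) (nat_lit 132) (nat_lit 5) (nat_lit 142) (nat_lit 5) (nat_lit 143) (nat_lit 5) (nat_lit 410) (nat_lit 405) (nat_lit 265)) (XT.nd (nat_lit 94) (nat_lit 756) (nat_lit 0) (XT.lf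 (nat_lit 84) (nat_lit 106902704554) (nat_lit 0) (nat_lit 30171692337) (nat_lit 924) (nat_lit 27531465013) (nat_lit 133) (nat_lit 5) (nat_lit 132) (nat_lit 5) (nat_lit 143) (nat_lit 5) (nat_lit 411) (nat_lit 405) (nat_lit 264)) (XT.lf (nat_lit 0) (nat_lit 86304170285) (nat_lit 840) (nat_lit 79163800089) (nat_lit 924) (nat_lit 6132531411) (nat_lit 123) (nat_lit 5) (nat_lit 133) (nat_lit 5) (nat_lit 134) (nat_lit 5) (nat_lit 412) (nat_lit 405) (nat_lit 263)))) (XT.nd (nat_lit 188) (nat_lit 756) (nat_lit 0) (XT.nd (nat_lit 94) (nat_lit 420) (nat_lit 0) (XT.lf (nat_lit 0) (nat_lit 19732717973) (nat_lit 588) (nat_lit 113635413028) (nat_lit 84) (nat_lit 45608437237) (nat_lit 116) (nat_lit 5) (nat_lit 123) (nat_lit 5) (nat_lit 117) (nat_lit 5) (nat_lit 413) (nat_lit 405) (nat_lit 262)) (XT.lf (nat_lit 0) (nat_lit 44157443433) (nat_lit 420) (nat_lit 6831815107) (nat_lit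 504) (nat_lit 135771588539) (nat_lit 111) (nat_lit 5) (nat_lit 116) (nat_lit 5) (nat_lit 117) (nat_lit 5) (nat_lit 414) (nat_lit 405) (nat_lit 261))) (XT.nd (nat_lit 94) (nat_lit 336) (nat_lit 0) (XT.lf (nat_lit 0) (nat_lit 22213902595) (nat_lit 420) (nat_lit 66917759379) (nat_lit 504) (nat_lit 105816939273) (nat_lit 106) (nat_lit 5) (nat_lit 111) (nat_lit 5) (nat_lit 112) (nat_lit 5) (nat_lit 415) (nat_lit 405) (nat_lit 260)) (XT.lf (nat_lit 0) (nat_lit 412950850) (nat_lit 336) (nat_lit 133644306958) (nat_lit 420) (nat_lit 69547527934) (nat_lit 102) (nat_lit 5) (nat_lit 106) (nat_lit 5) (nat_lit 107) (nat_lit 5) (nat_lit 416) (nat_lit 405) (nat_lit 259))))) (XT.nd (nat_lit 282) (nat_lit 1260) (nat_lit 0) (XT.nd (nat_lit 94) (nat_lit 756) (nat_lit 0) (XT.lf (nat_lit 0) (nat_lit 186784957318) (nat_lit 420) (nat_lit 20422129846) (nat_lit 84) (nat_lit 5535975032)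 (nat_lit 102) (nat_lit 5) (nat_lit 107) (nat_lit 5) (nat_lit 103) (nat_lit 5) (nat_lit 417) (nat_lit 405) (nat_lit 258)) (XT.nd (nat_lit 94) (nat_lit 336) (nat_lit 0) (XT.lf (nat_lit 0) (nat_lit 25596864822) (nat_lit 420) (nat_lit 42279501488) (nat_lit 84) (nat_lit 154461832740) (nat_lit 97) (nat_lit 5) (nat_lit 102) (nat_lit 5) (nat_lit 98) (nat_lit 5) (nat_lit 418) (nat_lit 405) (nat_lit 257)) (XT.lf (nat_lit 0) (nat_lit 84734445780) (nat_lit 420) (nat_lit 64265974309) (nat_lit 84) (nat_lit 83460866666) (nat_lit 93) (nat_lit 5) (nat_lit 98) (nat_lit 5) (nat_lit 94) (nat_lit 5) (nat_lit 419) (nat_lit 405) (nat_lit 256)))) (XT.nd (nat_lit 188) (nat_lit 672) (nat_lit 0) (XT.nd (nat_lit 94) (nat_lit 252) (nat_lit 0) (XT.lf (nat_lit 0) (nat_lit 153027245032) (nat_lit 420) (nat_lit 85702239609) (nat_lit 84) (nat_lit 4443526245) (nat_lit 89) (nat_lit 5) (nat_lit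 94) (nat_lit 5) (nat_lit 90) (nat_lit 5) (nat_lit 420) (nat_lit 405) (nat_lit 255)) (XT.lf (nat_lit 0) (nat_lit 146720539353) (nat_lit 252) (nat_lit 86003636776) (nat_lit 336) (nat_lit 21720461423) (nat_lit 86) (nat_lit 5) (nat_lit 89) (nat_lit 5) (nat_lit 90) (nat_lit 5) (nat_lit 421) (nat_lit 405) (nat_lit 254))) (XT.nd (nat_lit 94) (nat_lit 252) (nat_lit 0) (XT.lf (nat_lit 0) (nat_lit 55483758709) (nat_lit 420) (nat_lit 129873776673) (nat_lit 84) (nat_lit 80970979004) (nat_lit 81) (nat_lit 5) (nat_lit 86) (nat_lit 5) (nat_lit 82) (nat_lit 5) (nat_lit 422) (nat_lit 405) (nat_lit 253)) (XT.lf (nat_lit 0) (nat_lit 127168054393) (nat_lit 252) (nat_lit 16288098560) (nat_lit 336) (nat_lit 135421503973) (nat_lit 78) (nat_lit 5) (nat_lit 81) (nat_lit 5) (nat_lit 82) (nat_lit 5) (nat_lit 423) (nat_lit 405) (nat_lit 252))))))) (XT.nd (nat_lit 1316) (nat_lit 2268)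 (nat_lit 0) (XT.nd (nat_lit 658) (nat_lit 1176) (nat_lit 0) (XT.nd (nat_lit 282) (nat_lit 924) (nat_lit 0) (XT.nd (nat_lit 94) (nat_lit 588) (nat_lit 0) (XT.lf (nat_lit 0) (nat_lit 118243987905) (nat_lit 252) (nat_lit 126964170682) (nat_lit 336) (nat_lit 46885481289) (nat_lit 75) (nat_lit 5) (nat_lit 78) (nat_lit 5) (nat_lit 79) (nat_lit 5) (nat_lit 424) (nat_lit 405) (nat_lit 251)) (XT.nd (nat_lit 94) (nat_lit 252) (nat_lit 0) (XT.lf (nat_lit 0) (nat_lit 52804747791) (nat_lit 336) (nat_lit 195559173135) (nat_lit 84) (nat_lit 57683382349) (nat_lit 71) (nat_lit 5) (nat_lit 75) (nat_lit 5) (nat_lit 72) (nat_lit 5) (nat_lit 425) (nat_lit 405) (nat_lit 250)) (XT.lf (nat_lit 0) (nat_lit 103134787164) (nat_lit 252) (nat_lit 62543590588) (nat_lit 336) (nat_lit 155057910198) (nat_lit 68) (nat_lit 5) (nat_lit 71) (nat_lit 5) (nat_lit 72) (nat_lit 5) (nat_lit 426) (nat_lit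 405) (nat_lit 249)))) (XT.nd (nat_lit 188) (nat_lit 420) (nat_lit 0) (XT.nd (nat_lit 94) (nat_lit 336) (nat_lit 0) (XT.lf (nat_lit 0) (nat_lit 97174816167) (nat_lit 168) (nat_lit 197543206893) (nat_lit 252) (nat_lit 41525562093) (nat_lit 66) (nat_lit 5) (nat_lit 68) (nat_lit 5) (nat_lit 69) (nat_lit 5) (nat_lit 427) (nat_lit 405) (nat_lit 248)) (XT.lf (nat_lit 0) (nat_lit 84970470441) (nat_lit 336) (nat_lit 260047605133) (nat_lit 84) (nat_lit 7586265790) (nat_lit 62) (nat_lit 5) (nat_lit 66) (nat_lit 5) (nat_lit 63) (nat_lit 5) (nat_lit 428) (nat_lit 405) (nat_lit 247))) (XT.nd (nat_lit 94) (nat_lit 252) (nat_lit 0) (XT.lf (nat_lit 0) (nat_lit 87897174961) (nat_lit 168) (nat_lit 141189380439) (nat_lit 252) (nat_lit 140705604166) (nat_lit 60) (nat_lit 5) (nat_lit 62) (nat_lit 5) (nat_lit 63) (nat_lit 5) (nat_lit 429) (nat_lit 405) (nat_lit 246)) (XT.lf (nat_lit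 0) (nat_lit 3794390063) (nat_lit 252) (nat_lit 301767063556) (nat_lit 84) (nat_lit 82431302668) (nat_lit 57) (nat_lit 5) (nat_lit 60) (nat_lit 5) (nat_lit 58) (nat_lit 5) (nat_lit 430) (nat_lit 405) (nat_lit 245))))) (XT.nd (nat_lit 282) (nat_lit 588) (nat_lit 0) (XT.nd (nat_lit 94) (nat_lit 420) (nat_lit 0) (XT.lf (nat_lit 0) (nat_lit 84323355626) (nat_lit 168) (nat_lit 79355288821) (nat_lit 252) (nat_lit 243417728858) (nat_lit 55) (nat_lit 5) (nat_lit 57) (nat_lit 5) (nat_lit 58) (nat_lit 5) (nat_lit 431) (nat_lit 405) (nat_lit 244)) (XT.nd (nat_lit 94) (nat_lit 252) (nat_lit 0) (XT.lf (nat_lit 0) (nat_lit 84659456387) (nat_lit 168) (nat_lit 260933845467) (nat_lit 252) (nat_lit 81672994697) (nat_lit 53) (nat_lit 5) (nat_lit 55) (nat_lit 5) (nat_lit 56) (nat_lit 5) (nat_lit 432) (nat_lit 405) (nat_lit 243)) (XT.lf (nat_lit 0) (nat_lit 87357256706) (nat_lit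 168) (nat_lit 11093599769) (nat_lit 252) (nat_lit 350105524749) (nat_lit 50) (nat_lit 5) (nat_lit 52) (nat_lit 5) (nat_lit 53) (nat_lit 5) (nat_lit 433) (nat_lit 405) (nat_lit 242)))) (XT.nd (nat_lit 188) (nat_lit 252) (nat_lit 0) (XT.nd (nat_lit 94) (nat_lit 168) (nat_lit 0) (XT.lf (nat_lit 0) (nat_lit 90069563315) (nat_lit 168) (nat_lit 211603358566) (nat_lit 252) (nat_lit 169232319210) (nat_lit 48) (nat_lit 5) (nat_lit 50) (nat_lit 5) (nat_lit 51) (nat_lit 5) (nat_lit 434) (nat_lit 405) (nat_lit 241)) (XT.lf (nat_lit 0) (nat_lit 34397367568) (nat_lit 168) (nat_lit 397574808134) (nat_lit 84) (nat_lit 62593334371) (nat_lit 46) (nat_lit 5) (nat_lit 48) (nat_lit 5) (nat_lit 47) (nat_lit 5) (nat_lit 435) (nat_lit 405) (nat_lit 240))) (XT.nd (nat_lit 94) (nat_lit 84) (nat_lit 0) (XT.lf (nat_lit 0) (nat_lit 103642425028) (nat_lit 168) (nat_lit 156753886951) (nat_lit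 252) (nat_lit 258983175637) (nat_lit 44) (nat_lit 5) (nat_lit 46) (nat_lit 5) (nat_lit 47) (nat_lit 5) (nat_lit 436) (nat_lit 405) (nat_lit 239)) (XT.lf (nat_lit 0) (nat_lit 114685559813) (nat_lit 84) (nat_lit 400812385838) (nat_lit 168) (nat_lit 30129499029) (nat_lit 43) (nat_lit 5) (nat_lit 44) (nat_lit 5) (nat_lit 45) (nat_lit 4) (nat_lit 437) (nat_lit 405) (nat_lit 238)))))) (XT.nd (nat_lit 658) (nat_lit 1008) (nat_lit 0) (XT.nd (nat_lit 282) (nat_lit 672) (nat_lit 0) (XT.nd (nat_lit 94) (nat_lit 336) (nat_lit 0) (XT.lf (nat_lit 0) (nat_lit 126678592343) (nat_lit 168) (nat_lit 95388910150) (nat_lit 252) (nat_lit 351139240295) (nat_lit 40) (nat_lit 5) (nat_lit 42) (nat_lit 5) (nat_lit 43) (nat_lit 5) (nat_lit 438) (nat_lit 405) (nat_lit 237)) (XT.nd (nat_lit 94) (nat_lit 252) (nat_lit 0) (XT.lf (nat_lit 0) (nat_lit 141931097062) (nat_lit 84) (nat_lit 364974005265)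 (nat_lit 168) (nat_lit 95386564655) (nat_lit 39) (nat_lit 5) (nat_lit 40) (nat_lit 5) (nat_lit 41) (nat_lit 4) (nat_lit 439) (nat_lit 405) (nat_lit 236)) (XT.lf (nat_lit 0) (nat_lit 160681422558) (nat_lit 168) (nat_lit 26380072033) (nat_lit 252) (nat_lit 445899593172) (nat_lit 36) (nat_lit 5) (nat_lit 38) (nat_lit 5) (nat_lit 39) (nat_lit 5) (nat_lit 440) (nat_lit 405) (nat_lit 235)))) (XT.nd (nat_lit 188) (nat_lit 336) (nat_lit 0) (XT.nd (nat_lit 94) (nat_lit 252) (nat_lit 0) (XT.lf (nat_lit 0) (nat_lit 180915919989) (nat_lit 84) (nat_lit 324164854072) (nat_lit 168) (nat_lit 160109239633) (nat_lit 35) (nat_lit 5) (nat_lit 36) (nat_lit 5) (nat_lit 37) (nat_lit 4) (nat_lit 441) (nat_lit 405) (nat_lit 234)) (XT.lf (nat_lit 0) (nat_lit 156639074622) (nat_lit 252) (nat_lit 492699219608) (nat_lit 84) (nat_lit 49900545844) (nat_lit 32) (nat_lit 5) (nat_lit 35) (nat_lit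 5) (nat_lit 33) (nat_lit 4) (nat_lit 442) (nat_lit 405) (nat_lit 233))) (XT.nd (nat_lit 94) (nat_lit 252) (nat_lit 0) (XT.lf (nat_lit 0) (nat_lit 233490838325) (nat_lit 84) (nat_lit 277387341373) (nat_lit 168) (nat_lit 224114137109) (nat_lit 31) (nat_lit 5) (nat_lit 32) (nat_lit 5) (nat_lit 33) (nat_lit 4) (nat_lit 443) (nat_lit 405) (nat_lit 232)) (XT.lf (nat_lit 0) (nat_lit 131117395798) (nat_lit 252) (nat_lit 506266033441) (nat_lit 84) (nat_lit 135373931767) (nat_lit 28) (nat_lit 5) (nat_lit 31) (nat_lit 5) (nat_lit 29) (nat_lit 4) (nat_lit 444) (nat_lit 405) (nat_lit 231))))) (XT.nd (nat_lit 376) (nat_lit 504) (nat_lit 0) (XT.nd (nat_lit 188) (nat_lit 252) (nat_lit 0) (XT.nd (nat_lit 94) (nat_lit 168) (nat_lit 0) (XT.lf (nat_lit 0) (nat_lit 301784548504) (nat_lit 84) (nat_lit 223503905684) (nat_lit 168) (nat_lit 287152810917) (nat_lit 27) (nat_lit 5) (nat_lit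 28) (nat_lit 5) (nat_lit 29) (nat_lit 4) (nat_lit 445) (nat_lit 405) (nat_lit 230)) (XT.lf (nat_lit 0) (nat_lit 110763685612) (nat_lit 168) (nat_lit 511083838624) (nat_lit 84) (nat_lit 232470997573) (nat_lit 25) (nat_lit 5) (nat_lit 27) (nat_lit 5) (nat_lit 26) (nat_lit 4) (nat_lit 446) (nat_lit 405) (nat_lit 229))) (XT.nd (nat_lit 94) (nat_lit 168) (nat_lit 0) (XT.lf (nat_lit 0) (nat_lit 388241111270) (nat_lit 84) (nat_lit 161217706804) (nat_lit 168) (nat_lit 348901482223) (nat_lit 24) (nat_lit 5) (nat_lit 25) (nat_lit 5) (nat_lit 26) (nat_lit 4) (nat_lit 447) (nat_lit 405) (nat_lit 228)) (XT.lf (nat_lit 0) (nat_lit 96380427176) (nat_lit 168) (nat_lit 505419678695) (nat_lit 84) (nat_lit 342988395741) (nat_lit 22) (nat_lit 5) (nat_lit 24) (nat_lit 5) (nat_lit 23) (nat_lit 4) (nat_lit 448) (nat_lit 405) (nat_lit 227)))) (XT.nd (nat_lit 188) (nat_lit 252) (nat_lit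 0) (XT.nd (nat_lit 94) (nat_lit 168) (nat_lit 0) (XT.lf (nat_lit 0) (nat_lit 495662305046) (nat_lit 84) (nat_lit 89050825665) (nat_lit 168) (nat_lit 408949241014) (nat_lit 21) (nat_lit 5) (nat_lit 22) (nat_lit 5) (nat_lit 23) (nat_lit 4) (nat_lit 449) (nat_lit 405) (nat_lit 226)) (XT.lf (nat_lit 0) (nat_lit 88910696994) (nat_lit 168) (nat_lit 487256563621) (nat_lit 84) (nat_lit 468960322603) (nat_lit 19) (nat_lit 5) (nat_lit 21) (nat_lit 5) (nat_lit 20) (nat_lit 4) (nat_lit 450) (nat_lit 405) (nat_lit 225))) (XT.nd (nat_lit 94) (nat_lit 168) (nat_lit 0) (XT.lf (nat_lit 0) (nat_lit 627255467735) (nat_lit 84) (nat_lit 5319658101) (nat_lit 168) (nat_lit 466784517243) (nat_lit 18) (nat_lit 5) (nat_lit 19) (nat_lit 5) (nat_lit 20) (nat_lit 4) (nat_lit 451) (nat_lit 405) (nat_lit 224)) (XT.lf (nat_lit 0) (nat_lit 89457705122) (nat_lit 168) (nat_lit 454253213509)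 (nat_lit 84) (nat_lit 612689437234) (nat_lit 16) (nat_lit 5) (nat_lit 18) (nat_lit 5) (nat_lit 17) (nat_lit 4) (nat_lit 452) (nat_lit 405) (nat_lit 223))))))))
noncomputable def xc184 : XT := (XT.nd (nat_lit 2632) (nat_lit 0) (nat_lit 0) (XT.nd (nat_lit 1316) (nat_lit 0) (nat_lit 0) (XT.nd (nat_lit 658) (nat_lit 504) (nat_lit 0) (XT.nd (nat_lit 282) (nat_lit 504) (nat_lit 0) (XT.nd (nat_lit 94) (nat_lit 252) (nat_lit 0) (XT.lf (nat_lit 0) (nat_lit 696229369796) (nat_lit 168) (nat_lit 431321444591) (nat_lit 0) (nat_lit 88951705019) (nat_lit 15) (nat_lit 5) (nat_lit 17) (nat_lit 4) (nat_lit 15) (nat_lit 4) (nat_lit 453) (nat_lit 405) (nat_lit 222)) (XT.nd (nat_lit 94) (nat_lit 84) (nat_lit 0) (XT.lf (nat_lit 0) (nat_lit 99306970494) (nat_lit 168) (nat_lit 403698409658) (nat_lit 84) (nat_lit 776781646952) (nat_lit 13) (nat_lit 5) (nat_lit 15) (nat_lit 5) (nat_lit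 14) (nat_lit 4) (nat_lit 454) (nat_lit 405) (nat_lit 221)) (XT.lf (nat_lit 0) (nat_lit 776574395123) (nat_lit 168) (nat_lit 371601359017) (nat_lit 0) (nat_lit 198214651292) (nat_lit 12) (nat_lit 5) (nat_lit 14) (nat_lit 4) (nat_lit 12) (nat_lit 4) (nat_lit 455) (nat_lit 405) (nat_lit 220)))) (XT.nd (nat_lit 188) (nat_lit 252) (nat_lit 0) (XT.nd (nat_lit 94) (nat_lit 84) (nat_lit 0) (XT.lf (nat_lit 0) (nat_lit 119951468589) (nat_lit 168) (nat_lit 332459261306) (nat_lit 84) (nat_lit 964185234496) (nat_lit 10) (nat_lit 5) (nat_lit 12) (nat_lit 5) (nat_lit 11) (nat_lit 4) (nat_lit 456) (nat_lit 405) (nat_lit 219)) (XT.lf (nat_lit 0) (nat_lit 875860773693) (nat_lit 168) (nat_lit 289502013277) (nat_lit 0) (nat_lit 325041918532) (nat_lit 9) (nat_lit 5) (nat_lit 11) (nat_lit 4) (nat_lit 9) (nat_lit 4) (nat_lit 457) (nat_lit 405) (nat_lit 218))) (XT.nd (nat_lit 94)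 (nat_lit 84) (nat_lit 0) (XT.lf (nat_lit 0) (nat_lit 153120130753) (nat_lit 168) (nat_lit 236922610047) (nat_lit 84) (nat_lit 1178234859388) (nat_lit 7) (nat_lit 5) (nat_lit 9) (nat_lit 5) (nat_lit 8) (nat_lit 4) (nat_lit 458) (nat_lit 405) (nat_lit 217)) (XT.lf (nat_lit 0) (nat_lit 996754436036) (nat_lit 168) (nat_lit 181152770597) (nat_lit 0) (nat_lit 472165008107) (nat_lit 6) (nat_lit 5) (nat_lit 8) (nat_lit 4) (nat_lit 6) (nat_lit 4) (nat_lit 459) (nat_lit 405) (nat_lit 216))))) (XT.nd (nat_lit 282) (nat_lit 0) (nat_lit 0) (XT.nd (nat_lit 94) (nat_lit 336) (nat_lit 0) (XT.lf (nat_lit 0) (nat_lit 200810121778) (nat_lit 168) (nat_lit 112928697006) (nat_lit 84) (nat_lit 1422701030120) (nat_lit 4) (nat_lit 5) (nat_lit 6) (nat_lit 5) (nat_lit 5) (nat_lit 4) (nat_lit 460) (nat_lit 405) (nat_lit 215)) (XT.nd (nat_lit 94) (nat_lit 252) (nat_lit 0) (XT.lf (nat_lit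 0) (nat_lit 1142296898462) (nat_lit 168) (nat_lit 42100717989) (nat_lit 0) (nat_lit 642687885139) (nat_lit 3) (nat_lit 5) (nat_lit 5) (nat_lit 4) (nat_lit 3) (nat_lit 4) (nat_lit 461) (nat_lit 405) (nat_lit 214)) (XT.lf (nat_lit 0) (nat_lit 2789282748829) (nat_lit 0) (nat_lit 0) (nat_lit 0) (nat_lit 0) (nat_lit 0) (nat_lit 0) (nat_lit 1) (nat_lit 0) (nat_lit 1) (nat_lit 0) (nat_lit 462) (nat_lit 405) (nat_lit 213)))) (XT.nd (nat_lit 188) (nat_lit 0) (nat_lit 0) (XT.nd (nat_lit 94) (nat_lit 0) (nat_lit 0) (XT.lf (nat_lit 0) (nat_lit 3009683420992) (nat_lit 0) (nat_lit 0) (nat_lit 0) (nat_lit 0) (nat_lit 0) (nat_lit 0) (nat_lit 1) (nat_lit 0) (nat_lit 1) (nat_lit 0) (nat_lit 463) (nat_lit 405) (nat_lit 212)) (XT.lf (nat_lit 0) (nat_lit 3247716147077) (nat_lit 0) (nat_lit 0) (nat_lit 0) (nat_lit 0) (nat_lit 0) (nat_lit 0) (nat_lit 1) (nat_lit 0) (nat_lit 1) (nat_lit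 0) (nat_lit 464) (nat_lit 405) (nat_lit 211))) (XT.nd (nat_lit 94) (nat_lit 0) (nat_lit 0) (XT.lf (nat_lit 0) (nat_lit 3504791491387) (nat_lit 0) (nat_lit 0) (nat_lit 0) (nat_lit 0) (nat_lit 0) (nat_lit 0) (nat_lit 1) (nat_lit 0) (nat_lit 1) (nat_lit 0) (nat_lit 465) (nat_lit 405) (nat_lit 210)) (XT.lf (nat_lit 0) (nat_lit 3782432863370) (nat_lit 0) (nat_lit 0) (nat_lit 0) (nat_lit 0) (nat_lit 0) (nat_lit 0) (nat_lit 1) (nat_lit 0) (nat_lit 1) (nat_lit 0) (nat_lit 466) (nat_lit 405) (nat_lit 209)))))) (XT.nd (nat_lit 658) (nat_lit 0) (nat_lit 0) (XT.nd (nat_lit 282) (nat_lit 0) (nat_lit 0) (XT.nd (nat_lit 94) (nat_lit 0) (nat_lit 0) (XT.lf (nat_lit 0) (nat_lit 4082285545231) (nat_lit 0) (nat_lit 0) (nat_lit 0) (nat_lit 0) (nat_lit 0) (nat_lit 0) (nat_lit 1) (nat_lit 0) (nat_lit 1) (nat_lit 0) (nat_lit 467) (nat_lit 405) (nat_lit 208)) (XT.nd (nat_lit 94) (nat_lit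 0) (nat_lit 0) (XT.lf (nat_lit 0) (nat_lit 4406126441751) (nat_lit 0) (nat_lit 0) (nat_lit 0) (nat_lit 0) (nat_lit 0) (nat_lit 0) (nat_lit 1) (nat_lit 0) (nat_lit 1) (nat_lit 0) (nat_lit 468) (nat_lit 405) (nat_lit 207)) (XT.lf (nat_lit 0) (nat_lit 4755874610094) (nat_lit 0) (nat_lit 0) (nat_lit 0) (nat_lit 0) (nat_lit 0) (nat_lit 0) (nat_lit 1) (nat_lit 0) (nat_lit 1) (nat_lit 0) (nat_lit 469) (nat_lit 405) (nat_lit 206)))) (XT.nd (nat_lit 188) (nat_lit 0) (nat_lit 0) (XT.nd (nat_lit 94) (nat_lit 0) (nat_lit 0) (XT.lf (nat_lit 0) (nat_lit 5133602631999) (nat_lit 0) (nat_lit 0) (nat_lit 0) (nat_lit 0) (nat_lit 0) (nat_lit 0) (nat_lit 1) (nat_lit 0) (nat_lit 1) (nat_lit 0) (nat_lit 470) (nat_lit 405) (nat_lit 205)) (XT.lf (nat_lit 0) (nat_lit 5541548895743) (nat_lit 0) (nat_lit 0) (nat_lit 0) (nat_lit 0) (nat_lit 0) (nat_lit 0) (nat_lit 1) (nat_lit 0) (nat_lit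 1) (nat_lit 0) (nat_lit 471) (nat_lit 405) (nat_lit 204))) (XT.nd (nat_lit 94) (nat_lit 0) (nat_lit 0) (XT.lf (nat_lit 0) (nat_lit 5982130860668) (nat_lit 0) (nat_lit 0) (nat_lit 0) (nat_lit 0) (nat_lit 0) (nat_lit 0) (nat_lit 1) (nat_lit 0) (nat_lit 1) (nat_lit 0) (nat_lit 472) (nat_lit 405) (nat_lit 203)) (XT.lf (nat_lit 0) (nat_lit 6457959382862) (nat_lit 0) (nat_lit 0) (nat_lit 0) (nat_lit 0) (nat_lit 0) (nat_lit 0) (nat_lit 1) (nat_lit 0) (nat_lit 1) (nat_lit 0) (nat_lit 473) (nat_lit 405) (nat_lit 202))))) (XT.nd (nat_lit 282) (nat_lit 0) (nat_lit 0) (XT.nd (nat_lit 94) (nat_lit 0) (nat_lit 0) (XT.lf (nat_lit 0) (nat_lit 6971854186901) (nat_lit 0) (nat_lit 0) (nat_lit 0) (nat_lit 0) (nat_lit 0) (nat_lit 0) (nat_lit 1) (nat_lit 0) (nat_lit 1) (nat_lit 0) (nat_lit 474) (nat_lit 405) (nat_lit 201)) (XT.nd (nat_lit 94) (nat_lit 0) (nat_lit 0) (XT.lf (nat_lit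 0) (nat_lit 7526860575327) (nat_lit 0) (nat_lit 0) (nat_lit 0) (nat_lit 0) (nat_lit 0) (nat_lit 0) (nat_lit 1) (nat_lit 0) (nat_lit 1) (nat_lit 0) (nat_lit 475) (nat_lit 405) (nat_lit 200)) (XT.lf (nat_lit 0) (nat_lit 8126267474886) (nat_lit 0) (nat_lit 0) (nat_lit 0) (nat_lit 0) (nat_lit 0) (nat_lit 0) (nat_lit 1) (nat_lit 0) (nat_lit 1) (nat_lit 0) (nat_lit 476) (nat_lit 405) (nat_lit 199)))) (XT.nd (nat_lit 188) (nat_lit 0) (nat_lit 0) (XT.nd (nat_lit 94) (nat_lit 0) (nat_lit 0) (XT.lf (nat_lit 0) (nat_lit 8773626926465) (nat_lit 0) (nat_lit 0) (nat_lit 0) (nat_lit 0) (nat_lit 0) (nat_lit 0) (nat_lit 1) (nat_lit 0) (nat_lit 1) (nat_lit 0) (nat_lit 477) (nat_lit 405) (nat_lit 198)) (XT.lf (nat_lit 0) (nat_lit 9472775134222) (nat_lit 0) (nat_lit 0) (nat_lit 0) (nat_lit 0) (nat_lit 0) (nat_lit 0) (nat_lit 1) (nat_lit 0) (nat_lit 1) (nat_lit 0) (nat_lit 478)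 (nat_lit 405) (nat_lit 197))) (XT.nd (nat_lit 94) (nat_lit 0) (nat_lit 0) (XT.lf (nat_lit 0) (nat_lit 10227855198646) (nat_lit 0) (nat_lit 0) (nat_lit 0) (nat_lit 0) (nat_lit 0) (nat_lit 0) (nat_lit 1) (nat_lit 0) (nat_lit 1) (nat_lit 0) (nat_lit 479) (nat_lit 405) (nat_lit 196)) (XT.lf (nat_lit 0) (nat_lit 11043341668268) (nat_lit 0) (nat_lit 0) (nat_lit 0) (nat_lit 0) (nat_lit 0) (nat_lit 0) (nat_lit 1) (nat_lit 0) (nat_lit 1) (nat_lit 0) (nat_lit 480) (nat_lit 405) (nat_lit 195))))))) (XT.nd (nat_lit 1316) (nat_lit 0) (nat_lit 0) (XT.nd (nat_lit 658) (nat_lit 0) (nat_lit 0) (XT.nd (nat_lit 282) (nat_lit 0) (nat_lit 0) (XT.nd (nat_lit 94) (nat_lit 0) (nat_lit 0) (XT.lf (nat_lit 0) (nat_lit 11924067055500) (nat_lit 0) (nat_lit 0) (nat_lit 0) (nat_lit 0) (nat_lit 0) (nat_lit 0) (nat_lit 1) (nat_lit 0) (nat_lit 1) (nat_lit 0) (nat_lit 481) (nat_lit 405) (nat_lit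 194)) (XT.nd (nat_lit 94) (nat_lit 0) (nat_lit 0) (XT.lf (nat_lit 0) (nat_lit 12875250473747) (nat_lit 0) (nat_lit 0) (nat_lit 0) (nat_lit 0) (nat_lit 0) (nat_lit 0) (nat_lit 1) (nat_lit 0) (nat_lit 1) (nat_lit 0) (nat_lit 482) (nat_lit 405) (nat_lit 193)) (XT.lf (nat_lit 0) (nat_lit 13902528565490) (nat_lit 0) (nat_lit 0) (nat_lit 0) (nat_lit 0) (nat_lit 0) (nat_lit 0) (nat_lit 1) (nat_lit 0) (nat_lit 1) (nat_lit 0) (nat_lit 483) (nat_lit 405) (nat_lit 192)))) (XT.nd (nat_lit 188) (nat_lit 0) (nat_lit 0) (XT.nd (nat_lit 94) (nat_lit 0) (nat_lit 0) (XT.lf (nat_lit 0) (nat_lit 15011988904604) (nat_lit 0) (nat_lit 0) (nat_lit 0) (nat_lit 0) (nat_lit 0) (nat_lit 0) (nat_lit 1) (nat_lit 0) (nat_lit 1) (nat_lit 0) (nat_lit 484) (nat_lit 405) (nat_lit 191)) (XT.lf (nat_lit 0) (nat_lit 16210206070876) (nat_lit 0) (nat_lit 0) (nat_lit 0) (nat_lit 0) (nat_lit 0) (nat_lit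 0) (nat_lit 1) (nat_lit 0) (nat_lit 1) (nat_lit 0) (nat_lit 485) (nat_lit 405) (nat_lit 190))) (XT.nd (nat_lit 94) (nat_lit 0) (nat_lit 0) (XT.lf (nat_lit 0) (nat_lit 17504280610478) (nat_lit 0) (nat_lit 0) (nat_lit 0) (nat_lit 0) (nat_lit 0) (nat_lit 0) (nat_lit 1) (nat_lit 0) (nat_lit 1) (nat_lit 0) (nat_lit 486) (nat_lit 405) (nat_lit 189)) (XT.lf (nat_lit 0) (nat_lit 18901881113274) (nat_lit 0) (nat_lit 0) (nat_lit 0) (nat_lit 0) (nat_lit 0) (nat_lit 0) (nat_lit 1) (nat_lit 0) (nat_lit 1) (nat_lit 0) (nat_lit 487) (nat_lit 405) (nat_lit 188))))) (XT.nd (nat_lit 282) (nat_lit 0) (nat_lit 0) (XT.nd (nat_lit 94) (nat_lit 0) (nat_lit 0) (XT.lf (nat_lit 0) (nat_lit 20411289656317) (nat_lit 0) (nat_lit 0) (nat_lit 0) (nat_lit 0) (nat_lit 0) (nat_lit 0) (nat_lit 1) (nat_lit 0) (nat_lit 1) (nat_lit 0) (nat_lit 488) (nat_lit 405) (nat_lit 187)) (XT.nd (nat_lit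 94) (nat_lit 0) (nat_lit 0) (XT.lf (nat_lit 0) (nat_lit 22041450882825) (nat_lit 0) (nat_lit 0) (nat_lit 0) (nat_lit 0) (nat_lit 0) (nat_lit 0) (nat_lit 1) (nat_lit 0) (nat_lit 1) (nat_lit 0) (nat_lit 489) (nat_lit 405) (nat_lit 186)) (XT.lf (nat_lit 0) (nat_lit 23802025007474) (nat_lit 0) (nat_lit 0) (nat_lit 0) (nat_lit 0) (nat_lit 0) (nat_lit 0) (nat_lit 1) (nat_lit 0) (nat_lit 1) (nat_lit 0) (nat_lit 490) (nat_lit 405) (nat_lit 185)))) (XT.nd (nat_lit 188) (nat_lit 0) (nat_lit 0) (XT.nd (nat_lit 94) (nat_lit 0) (nat_lit 0) (XT.lf (nat_lit 0) (nat_lit 25703445062114) (nat_lit 0) (nat_lit 0) (nat_lit 0) (nat_lit 0) (nat_lit 0) (nat_lit 0) (nat_lit 1) (nat_lit 0) (nat_lit 1) (nat_lit 0) (nat_lit 491) (nat_lit 405) (nat_lit 184)) (XT.lf (nat_lit 0) (nat_lit 27756978721143) (nat_lit 0) (nat_lit 0) (nat_lit 0) (nat_lit 0) (nat_lit 0) (nat_lit 0) (nat_lit 1)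 (nat_lit 0) (nat_lit 1) (nat_lit 0) (nat_lit 492) (nat_lit 405) (nat_lit 183))) (XT.nd (nat_lit 94) (nat_lit 0) (nat_lit 0) (XT.lf (nat_lit 0) (nat_lit 29974795072909) (nat_lit 0) (nat_lit 0) (nat_lit 0) (nat_lit 0) (nat_lit 0) (nat_lit 0) (nat_lit 1) (nat_lit 0) (nat_lit 1) (nat_lit 0) (nat_lit 493) (nat_lit 405) (nat_lit 182)) (XT.lf (nat_lit 0) (nat_lit 32370036732832) (nat_lit 0) (nat_lit 0) (nat_lit 0) (nat_lit 0) (nat_lit 0) (nat_lit 0) (nat_lit 1) (nat_lit 0) (nat_lit 1) (nat_lit 0) (nat_lit 494) (nat_lit 405) (nat_lit 181)))))) (XT.nd (nat_lit 658) (nat_lit 0) (nat_lit 0) (XT.nd (nat_lit 282) (nat_lit 0) (nat_lit 0) (XT.nd (nat_lit 94) (nat_lit 0) (nat_lit 0) (XT.lf (nat_lit 0) (nat_lit 34956897725562) (nat_lit 0) (nat_lit 0) (nat_lit 0) (nat_lit 0) (nat_lit 0) (nat_lit 0) (nat_lit 1) (nat_lit 0) (nat_lit 1) (nat_lit 0) (nat_lit 495) (nat_lit 405)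 (nat_lit 180)) (XT.nd (nat_lit 94) (nat_lit 0) (nat_lit 0) (XT.lf (nat_lit 0) (nat_lit 37750707597724) (nat_lit 0) (nat_lit 0) (nat_lit 0) (nat_lit 0) (nat_lit 0) (nat_lit 0) (nat_lit 1) (nat_lit 0) (nat_lit 1) (nat_lit 0) (nat_lit 496) (nat_lit 405) (nat_lit 179)) (XT.lf (nat_lit 0) (nat_lit 40768022259670) (nat_lit 0) (nat_lit 0) (nat_lit 0) (nat_lit 0) (nat_lit 0) (nat_lit 0) (nat_lit 1) (nat_lit 0) (nat_lit 1) (nat_lit 0) (nat_lit 497) (nat_lit 405) (nat_lit 178)))) (XT.nd (nat_lit 188) (nat_lit 0) (nat_lit 0) (XT.nd (nat_lit 94) (nat_lit 0) (nat_lit 0) (XT.lf (nat_lit 0) (nat_lit 44026722094583) (nat_lit 0) (nat_lit 0) (nat_lit 0) (nat_lit 0) (nat_lit 0) (nat_lit 0) (nat_lit 1) (nat_lit 0) (nat_lit 1) (nat_lit 0) (nat_lit 498) (nat_lit 405) (nat_lit 177)) (XT.lf (nat_lit 0) (nat_lit 47546117916300) (nat_lit 0) (nat_lit 0) (nat_lit 0) (nat_lit 0) (nat_lit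 0) (nat_lit 0) (nat_lit 1) (nat_lit 0) (nat_lit 1) (nat_lit 0) (nat_lit 499) (nat_lit 405) (nat_lit 176))) (XT.nd (nat_lit 94) (nat_lit 0) (nat_lit 0) (XT.lf (nat_lit 0) (nat_lit 51347065403762) (nat_lit 0) (nat_lit 0) (nat_lit 0) (nat_lit 0) (nat_lit 0) (nat_lit 0) (nat_lit 1) (nat_lit 0) (nat_lit 1) (nat_lit 0) (nat_lit 500) (nat_lit 405) (nat_lit 175)) (XT.lf (nat_lit 0) (nat_lit 55452088690231) (nat_lit 0) (nat_lit 0) (nat_lit 0) (nat_lit 0) (nat_lit 0) (nat_lit 0) (nat_lit 1) (nat_lit 0) (nat_lit 1) (nat_lit 0) (nat_lit 501) (nat_lit 405) (nat_lit 174))))) (XT.nd (nat_lit 58844) (nat_lit 0) (nat_lit 10836) (XT.nd (nat_lit 94) (nat_lit 0) (nat_lit 0) (XT.lf (nat_lit 0) (nat_lit 59885513839625) (nat_lit 0) (nat_lit 0) (nat_lit 0) (nat_lit 0) (nat_lit 0) (nat_lit 0) (nat_lit 1) (nat_lit 0) (nat_lit 1) (nat_lit 0) (nat_lit 502) (nat_lit 405) (nat_lit 173))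 (XT.nd (nat_lit 58656) (nat_lit 0) (nat_lit 10752) (XT.lf (nat_lit 0) (nat_lit 64673613000978) (nat_lit 0) (nat_lit 0) (nat_lit 0) (nat_lit 0) (nat_lit 0) (nat_lit 0) (nat_lit 1) (nat_lit 0) (nat_lit 1) (nat_lit 0) (nat_lit 503) (nat_lit 405) (nat_lit 172)) (XT.lf (nat_lit 0) (nat_lit 32867215834) (nat_lit 924) (nat_lit 18536235582) (nat_lit 924) (nat_lit 18536235582) (nat_lit 128) (nat_lit 3) (nat_lit 139) (nat_lit 3) (nat_lit 139) (nat_lit 5) (nat_lit 406) (nat_lit 406) (nat_lit 268)))) (XT.nd (nat_lit 188) (nat_lit 0) (nat_lit 84) (XT.nd (nat_lit 94) (nat_lit 0) (nat_lit 0) (XT.lf (nat_lit 0) (nat_lit 69696611325) (nat_lit 840) (nat_lit 68229390857) (nat_lit 924) (nat_lit 7481906657) (nat_lit 129) (nat_lit 5) (nat_lit 139) (nat_lit 5) (nat_lit 140) (nat_lit 5) (nat_lit 407) (nat_lit 406) (nat_lit 267)) (XT.lf (nat_lit 84) (nat_lit 50416219172) (nat_lit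 0) (nat_lit 26736043510) (nat_lit 924) (nat_lit 74067638919) (nat_lit 130) (nat_lit 5) (nat_lit 129) (nat_lit 5) (nat_lit 140) (nat_lit 5) (nat_lit 408) (nat_lit 406) (nat_lit 266))) (XT.nd (nat_lit 94) (nat_lit 0) (nat_lit 84) (XT.lf (nat_lit 84) (nat_lit 22805157415) (nat_lit 0) (nat_lit 65420216468) (nat_lit 924) (nat_lit 69120429513) (nat_lit 131) (nat_lit 5) (nat_lit 130) (nat_lit 5) (nat_lit 141) (nat_lit 5) (nat_lit 409) (nat_lit 406) (nat_lit 265)) (XT.lf (nat_lit 0) (nat_lit 103274122264) (nat_lit 840) (nat_lit 5306245980) (nat_lit 924) (nat_lit 55226919676) (nat_lit 131) (nat_lit 5) (nat_lit 141) (nat_lit 5) (nat_lit 142) (nat_lit 5) (nat_lit 410) (nat_lit 406) (nat_lit 264))))))))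
noncomputable def xc185 : XT := (XT.nd (nat_lit 2632) (nat_lit 3612) (nat_lit 0) (XT.nd (nat_lit 1316) (nat_lit 2940) (nat_lit 0) (XT.nd (nat_lit 658) (nat_lit 2016) (nat_lit 0) (XT.nd (nat_lit 282) (nat_lit 1764) (nat_lit 0) (XT.nd (nat_lit 94) (nat_lit 756) (nat_lit 0) (XT.lf (nat_lit 0) (nat_lit 123008158858) (nat_lit 840) (nat_lit 33287590123) (nat_lit 924) (nat_lit 14315872810) (nat_lit 132) (nat_lit 5) (nat_lit 142) (nat_lit 5) (nat_lit 143) (nat_lit 5) (nat_lit 411) (nat_lit 406) (nat_lit 263)) (XT.nd (nat_lit 94) (nat_lit 756) (nat_lit 0) (XT.lf (nat_lit 84) (nat_lit 115461322212) (nat_lit 0) (nat_lit 32586693141) (nat_lit 924) (nat_lit 29725932169) (nat_lit 133) (nat_lit 5) (nat_lit 132) (nat_lit 5) (nat_lit 143) (nat_lit 5) (nat_lit 412) (nat_lit 406) (nat_lit 262)) (XT.lf (nat_lit 0) (nat_lit 93215012583) (nat_lit 840) (nat_lit 85497577552) (nat_lit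 924) (nat_lit 6615592687) (nat_lit 123) (nat_lit 5) (nat_lit 133) (nat_lit 5) (nat_lit 134) (nat_lit 5) (nat_lit 413) (nat_lit 406) (nat_lit 261)))) (XT.nd (nat_lit 188) (nat_lit 756) (nat_lit 0) (XT.nd (nat_lit 94) (nat_lit 420) (nat_lit 0) (XT.lf (nat_lit 0) (nat_lit 21318189062) (nat_lit 588) (nat_lit 122719440083) (nat_lit 84) (nat_lit 49256721870) (nat_lit 116) (nat_lit 5) (nat_lit 123) (nat_lit 5) (nat_lit 117) (nat_lit 5) (nat_lit 414) (nat_lit 406) (nat_lit 260)) (XT.lf (nat_lit 0) (nat_lit 47696549115) (nat_lit 420) (nat_lit 7378297725) (nat_lit 504) (nat_lit 146626545626) (nat_lit 111) (nat_lit 5) (nat_lit 116) (nat_lit 5) (nat_lit 117) (nat_lit 5) (nat_lit 415) (nat_lit 406) (nat_lit 259))) (XT.nd (nat_lit 94) (nat_lit 336) (nat_lit 0) (XT.lf (nat_lit 0) (nat_lit 23997549520) (nat_lit 420) (nat_lit 72270718357) (nat_lit 504) (nat_lit 114275917823)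 (nat_lit 106) (nat_lit 5) (nat_lit 111) (nat_lit 5) (nat_lit 112) (nat_lit 5) (nat_lit 416) (nat_lit 406) (nat_lit 258)) (XT.lf (nat_lit 0) (nat_lit 452521199) (nat_lit 336) (nat_lit 144335049024) (nat_lit 420) (nat_lit 75105311788) (nat_lit 102) (nat_lit 5) (nat_lit 106) (nat_lit 5) (nat_lit 107) (nat_lit 5) (nat_lit 417) (nat_lit 406) (nat_lit 257))))) (XT.nd (nat_lit 282) (nat_lit 1260) (nat_lit 0) (XT.nd (nat_lit 94) (nat_lit 756) (nat_lit 0) (XT.lf (nat_lit 0) (nat_lit 201733072718) (nat_lit 420) (nat_lit 22049596214) (nat_lit 84) (nat_lit 5979572299) (nat_lit 102) (nat_lit 5) (nat_lit 107) (nat_lit 5) (nat_lit 103) (nat_lit 5) (nat_lit 418) (nat_lit 406) (nat_lit 256)) (XT.nd (nat_lit 94) (nat_lit 336) (nat_lit 0) (XT.lf (nat_lit 0) (nat_lit 27649715260) (nat_lit 420) (nat_lit 45655662881) (nat_lit 84) (nat_lit 166819621769) (nat_lit 97) (nat_lit 5)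 (nat_lit 102) (nat_lit 5) (nat_lit 98) (nat_lit 5) (nat_lit 419) (nat_lit 406) (nat_lit 255)) (XT.lf (nat_lit 0) (nat_lit 91518034781) (nat_lit 420) (nat_lit 69401099502) (nat_lit 84) (nat_lit 90138813745) (nat_lit 93) (nat_lit 5) (nat_lit 98) (nat_lit 5) (nat_lit 94) (nat_lit 5) (nat_lit 420) (nat_lit 406) (nat_lit 254)))) (XT.nd (nat_lit 188) (nat_lit 672) (nat_lit 0) (XT.nd (nat_lit 94) (nat_lit 252) (nat_lit 0) (XT.lf (nat_lit 0) (nat_lit 165274012416) (nat_lit 420) (nat_lit 92552325638) (nat_lit 84) (nat_lit 4800284314) (nat_lit 89) (nat_lit 5) (nat_lit 94) (nat_lit 5) (nat_lit 90) (nat_lit 5) (nat_lit 421) (nat_lit 406) (nat_lit 253)) (XT.lf (nat_lit 0) (nat_lit 158464010841) (nat_lit 252) (nat_lit 92882438320) (nat_lit 336) (nat_lit 23453542448) (nat_lit 86) (nat_lit 5) (nat_lit 89) (nat_lit 5) (nat_lit 90) (nat_lit 5) (nat_lit 422) (nat_lit 406) (nat_lit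 252))) (XT.nd (nat_lit 94) (nat_lit 252) (nat_lit 0) (XT.lf (nat_lit 0) (nat_lit 59926656099) (nat_lit 420) (nat_lit 140257779723) (nat_lit 84) (nat_lit 87450149880) (nat_lit 81) (nat_lit 5) (nat_lit 86) (nat_lit 5) (nat_lit 82) (nat_lit 5) (nat_lit 423) (nat_lit 406) (nat_lit 251)) (XT.lf (nat_lit 0) (nat_lit 137347141462) (nat_lit 252) (nat_lit 17589477654) (nat_lit 336) (nat_lit 146251051669) (nat_lit 78) (nat_lit 5) (nat_lit 81) (nat_lit 5) (nat_lit 82) (nat_lit 5) (nat_lit 424) (nat_lit 406) (nat_lit 250)))))) (XT.nd (nat_lit 658) (nat_lit 1176) (nat_lit 0) (XT.nd (nat_lit 282) (nat_lit 924) (nat_lit 0) (XT.nd (nat_lit 94) (nat_lit 588) (nat_lit 0) (XT.lf (nat_lit 0) (nat_lit 127709069568) (nat_lit 252) (nat_lit 137119532240) (nat_lit 336) (nat_lit 50632339732) (nat_lit 75) (nat_lit 5) (nat_lit 78) (nat_lit 5) (nat_lit 79) (nat_lit 5) (nat_lit 425) (nat_lit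 406) (nat_lit 249)) (XT.nd (nat_lit 94) (nat_lit 252) (nat_lit 0) (XT.lf (nat_lit 0) (nat_lit 57032807835) (nat_lit 336) (nat_lit 211198309590) (nat_lit 84) (nat_lit 62299786100) (nat_lit 71) (nat_lit 5) (nat_lit 75) (nat_lit 5) (nat_lit 72) (nat_lit 5) (nat_lit 426) (nat_lit 406) (nat_lit 248)) (XT.lf (nat_lit 0) (nat_lit 111390924277) (nat_lit 252) (nat_lit 67545214901) (nat_lit 336) (nat_lit 167458877249) (nat_lit 68) (nat_lit 5) (nat_lit 71) (nat_lit 5) (nat_lit 72) (nat_lit 5) (nat_lit 427) (nat_lit 406) (nat_lit 247)))) (XT.nd (nat_lit 188) (nat_lit 420) (nat_lit 0) (XT.nd (nat_lit 94) (nat_lit 336) (nat_lit 0) (XT.lf (nat_lit 0) (nat_lit 104954062068) (nat_lit 168) (nat_lit 213344744498) (nat_lit 252) (nat_lit 44844098316) (nat_lit 66) (nat_lit 5) (nat_lit 68) (nat_lit 5) (nat_lit 69) (nat_lit 5) (nat_lit 428) (nat_lit 406) (nat_lit 246)) (XT.lf (nat_lit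 0) (nat_lit 91771363059) (nat_lit 336) (nat_lit 280846142768) (nat_lit 84) (nat_lit 8195020098) (nat_lit 62) (nat_lit 5) (nat_lit 66) (nat_lit 5) (nat_lit 63) (nat_lit 5) (nat_lit 429) (nat_lit 406) (nat_lit 245))) (XT.nd (nat_lit 94) (nat_lit 252) (nat_lit 0) (XT.lf (nat_lit 0) (nat_lit 94933990672) (nat_lit 168) (nat_lit 152482581747) (nat_lit 252) (nat_lit 151958805282) (nat_lit 60) (nat_lit 5) (nat_lit 62) (nat_lit 5) (nat_lit 63) (nat_lit 5) (nat_lit 430) (nat_lit 406) (nat_lit 244)) (XT.lf (nat_lit 0) (nat_lit 4100958772) (nat_lit 252) (nat_lit 325903387460) (nat_lit 84) (nat_lit 89027679683) (nat_lit 57) (nat_lit 5) (nat_lit 60) (nat_lit 5) (nat_lit 58) (nat_lit 5) (nat_lit 431) (nat_lit 406) (nat_lit 243))))) (XT.nd (nat_lit 282) (nat_lit 588) (nat_lit 0) (XT.nd (nat_lit 94) (nat_lit 420) (nat_lit 0) (XT.lf (nat_lit 0) (nat_lit 91074046173) (nat_lit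 168) (nat_lit 85701759101) (nat_lit 252) (nat_lit 262888134433) (nat_lit 55) (nat_lit 5) (nat_lit 57) (nat_lit 5) (nat_lit 58) (nat_lit 5) (nat_lit 432) (nat_lit 406) (nat_lit 242)) (XT.nd (nat_lit 94) (nat_lit 252) (nat_lit 0) (XT.lf (nat_lit 0) (nat_lit 91436933497) (nat_lit 168) (nat_lit 281806591170) (nat_lit 252) (nat_lit 88203937675) (nat_lit 53) (nat_lit 5) (nat_lit 55) (nat_lit 5) (nat_lit 56) (nat_lit 5) (nat_lit 433) (nat_lit 406) (nat_lit 241)) (XT.lf (nat_lit 0) (nat_lit 94350441371) (nat_lit 168) (nat_lit 11979151699) (nat_lit 252) (nat_lit 378111165249) (nat_lit 50) (nat_lit 5) (nat_lit 52) (nat_lit 5) (nat_lit 53) (nat_lit 5) (nat_lit 434) (nat_lit 406) (nat_lit 240)))) (XT.nd (nat_lit 188) (nat_lit 252) (nat_lit 0) (XT.nd (nat_lit 94) (nat_lit 168) (nat_lit 0) (XT.lf (nat_lit 0) (nat_lit 97279631111) (nat_lit 168) (nat_lit 228529693250) (nat_lit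 252) (nat_lit 182768207581) (nat_lit 48) (nat_lit 5) (nat_lit 50) (nat_lit 5) (nat_lit 51) (nat_lit 5) (nat_lit 435) (nat_lit 406) (nat_lit 239)) (XT.lf (nat_lit 0) (nat_lit 37151672673) (nat_lit 168) (nat_lit 429376308585) (nat_lit 84) (nat_lit 67602643836) (nat_lit 46) (nat_lit 5) (nat_lit 48) (nat_lit 5) (nat_lit 47) (nat_lit 5) (nat_lit 436) (nat_lit 406) (nat_lit 238))) (XT.nd (nat_lit 94) (nat_lit 84) (nat_lit 0) (XT.lf (nat_lit 0) (nat_lit 111938108353) (nat_lit 168) (nat_lit 169292304906) (nat_lit 252) (nat_lit 279699313552) (nat_lit 44) (nat_lit 5) (nat_lit 46) (nat_lit 5) (nat_lit 47) (nat_lit 5) (nat_lit 437) (nat_lit 406) (nat_lit 237)) (XT.lf (nat_lit 0) (nat_lit 123864593850) (nat_lit 84) (nat_lit 432875499040) (nat_lit 168) (nat_lit 32537431785) (nat_lit 43) (nat_lit 5) (nat_lit 44) (nat_lit 5) (nat_lit 45) (nat_lit 4) (nat_lit 438) (nat_lit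 406) (nat_lit 236))))))) (XT.nd (nat_lit 1316) (nat_lit 1512) (nat_lit 0) (XT.nd (nat_lit 658) (nat_lit 840) (nat_lit 0) (XT.nd (nat_lit 282) (nat_lit 672) (nat_lit 0) (XT.nd (nat_lit 94) (nat_lit 336) (nat_lit 0) (XT.lf (nat_lit 0) (nat_lit 136816961230) (nat_lit 168) (nat_lit 103018180632) (nat_lit 252) (nat_lit 379228028391) (nat_lit 40) (nat_lit 5) (nat_lit 42) (nat_lit 5) (nat_lit 43) (nat_lit 5) (nat_lit 439) (nat_lit 406) (nat_lit 235)) (XT.nd (nat_lit 94) (nat_lit 252) (nat_lit 0) (XT.lf (nat_lit 0) (nat_lit 153289568529) (nat_lit 84) (nat_lit 394170104119) (nat_lit 168) (nat_lit 103015219585) (nat_lit 39) (nat_lit 5) (nat_lit 40) (nat_lit 5) (nat_lit 41) (nat_lit 4) (nat_lit 440) (nat_lit 406) (nat_lit 234)) (XT.lf (nat_lit 0) (nat_lit 173539816442) (nat_lit 168) (nat_lit 28488693091) (nat_lit 252) (nat_lit 481569360482) (nat_lit 36) (nat_lit 5) (nat_lit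 38) (nat_lit 5) (nat_lit 39) (nat_lit 5) (nat_lit 441) (nat_lit 406) (nat_lit 233)))) (XT.nd (nat_lit 188) (nat_lit 336) (nat_lit 0) (XT.nd (nat_lit 94) (nat_lit 252) (nat_lit 0) (XT.lf (nat_lit 0) (nat_lit 195392978607) (nat_lit 84) (nat_lit 350096282436) (nat_lit 168) (nat_lit 172915852494) (nat_lit 35) (nat_lit 5) (nat_lit 36) (nat_lit 5) (nat_lit 37) (nat_lit 4) (nat_lit 442) (nat_lit 406) (nat_lit 232)) (XT.lf (nat_lit 0) (nat_lit 169172190816) (nat_lit 252) (nat_lit 532111400276) (nat_lit 84) (nat_lit 53894256677) (nat_lit 32) (nat_lit 5) (nat_lit 35) (nat_lit 5) (nat_lit 33) (nat_lit 4) (nat_lit 443) (nat_lit 406) (nat_lit 231))) (XT.nd (nat_lit 94) (nat_lit 252) (nat_lit 0) (XT.lf (nat_lit 0) (nat_lit 252173699021) (nat_lit 84) (nat_lit 299576633960) (nat_lit 168) (nat_lit 242041274225) (nat_lit 31) (nat_lit 5) (nat_lit 32) (nat_lit 5) (nat_lit 33)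 (nat_lit 4) (nat_lit 444) (nat_lit 406) (nat_lit 230)) (XT.lf (nat_lit 0) (nat_lit 141608655022) (nat_lit 252) (nat_lit 546763751402) (nat_lit 84) (nat_lit 146205450086) (nat_lit 28) (nat_lit 5) (nat_lit 31) (nat_lit 5) (nat_lit 29) (nat_lit 4) (nat_lit 445) (nat_lit 406) (nat_lit 229))))) (XT.nd (nat_lit 282) (nat_lit 504) (nat_lit 0) (XT.nd (nat_lit 94) (nat_lit 252) (nat_lit 0) (XT.lf (nat_lit 0) (nat_lit 325930722182) (nat_lit 84) (nat_lit 241382590800) (nat_lit 168) (nat_lit 310123164210) (nat_lit 27) (nat_lit 5) (nat_lit 28) (nat_lit 5) (nat_lit 29) (nat_lit 4) (nat_lit 446) (nat_lit 406) (nat_lit 228)) (XT.nd (nat_lit 94) (nat_lit 84) (nat_lit 0) (XT.lf (nat_lit 0) (nat_lit 119626534577) (nat_lit 168) (nat_lit 551967165157) (nat_lit 84) (nat_lit 251070216114) (nat_lit 25) (nat_lit 5) (nat_lit 27) (nat_lit 5) (nat_lit 26) (nat_lit 4) (nat_lit 447) (nat_lit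 406) (nat_lit 227)) (XT.lf (nat_lit 0) (nat_lit 419303633814) (nat_lit 84) (nat_lit 174113564374) (nat_lit 168) (nat_lit 376811842400) (nat_lit 24) (nat_lit 5) (nat_lit 25) (nat_lit 5) (nat_lit 26) (nat_lit 4) (nat_lit 448) (nat_lit 406) (nat_lit 226)))) (XT.nd (nat_lit 188) (nat_lit 252) (nat_lit 0) (XT.nd (nat_lit 94) (nat_lit 84) (nat_lit 0) (XT.lf (nat_lit 0) (nat_lit 104092510280) (nat_lit 168) (nat_lit 545850048546) (nat_lit 84) (nat_lit 370428940469) (nat_lit 22) (nat_lit 5) (nat_lit 24) (nat_lit 5) (nat_lit 23) (nat_lit 4) (nat_lit 449) (nat_lit 406) (nat_lit 225)) (XT.lf (nat_lit 0) (nat_lit 535318354634) (nat_lit 84) (nat_lit 96173401177) (nat_lit 168) (nat_lit 441663526919) (nat_lit 21) (nat_lit 5) (nat_lit 22) (nat_lit 5) (nat_lit 23) (nat_lit 4) (nat_lit 450) (nat_lit 406) (nat_lit 224))) (XT.nd (nat_lit 94) (nat_lit 84) (nat_lit 0) (XT.lf (nat_lit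 0) (nat_lit 96025103928) (nat_lit 168) (nat_lit 526234052397) (nat_lit 84) (nat_lit 506478555992) (nat_lit 19) (nat_lit 5) (nat_lit 21) (nat_lit 5) (nat_lit 20) (nat_lit 4) (nat_lit 451) (nat_lit 406) (nat_lit 223)) (XT.lf (nat_lit 0) (nat_lit 677438809514) (nat_lit 84) (nat_lit 5743808007) (nat_lit 168) (nat_lit 504125722924) (nat_lit 18) (nat_lit 5) (nat_lit 19) (nat_lit 5) (nat_lit 20) (nat_lit 4) (nat_lit 452) (nat_lit 406) (nat_lit 222)))))) (XT.nd (nat_lit 658) (nat_lit 588) (nat_lit 0) (XT.nd (nat_lit 282) (nat_lit 504) (nat_lit 0) (XT.nd (nat_lit 94) (nat_lit 252) (nat_lit 0) (XT.lf (nat_lit 0) (nat_lit 96615781668) (nat_lit 168) (nat_lit 490590594558) (nat_lit 84) (nat_lit 661705935103) (nat_lit 16) (nat_lit 5) (nat_lit 18) (nat_lit 5) (nat_lit 17) (nat_lit 4) (nat_lit 453) (nat_lit 406) (nat_lit 221)) (XT.nd (nat_lit 94) (nat_lit 168) (nat_lit 0)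 (XT.lf (nat_lit 0) (nat_lit 751929135482) (nat_lit 168) (nat_lit 465824360541) (nat_lit 0) (nat_lit 96069154130) (nat_lit 15) (nat_lit 5) (nat_lit 17) (nat_lit 4) (nat_lit 15) (nat_lit 4) (nat_lit 454) (nat_lit 406) (nat_lit 220)) (XT.lf (nat_lit 0) (nat_lit 107252903330) (nat_lit 168) (nat_lit 435991559012) (nat_lit 84) (nat_lit 838925458171) (nat_lit 13) (nat_lit 5) (nat_lit 15) (nat_lit 5) (nat_lit 14) (nat_lit 4) (nat_lit 455) (nat_lit 406) (nat_lit 219)))) (XT.nd (nat_lit 188) (nat_lit 252) (nat_lit 0) (XT.nd (nat_lit 94) (nat_lit 168) (nat_lit 0) (XT.lf (nat_lit 0) (nat_lit 838701680892) (nat_lit 168) (nat_lit 401326817132) (nat_lit 0) (nat_lit 214073073134) (nat_lit 12) (nat_lit 5) (nat_lit 14) (nat_lit 4) (nat_lit 12) (nat_lit 4) (nat_lit 456) (nat_lit 406) (nat_lit 218)) (XT.lf (nat_lit 0) (nat_lit 129548881894) (nat_lit 168) (nat_lit 359053423951)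 (nat_lit 84) (nat_lit 1041321270906) (nat_lit 10) (nat_lit 5) (nat_lit 12) (nat_lit 5) (nat_lit 11) (nat_lit 4) (nat_lit 457) (nat_lit 406) (nat_lit 217))) (XT.nd (nat_lit 94) (nat_lit 168) (nat_lit 0) (XT.lf (nat_lit 0) (nat_lit 945930893095) (nat_lit 168) (nat_lit 312659665382) (nat_lit 0) (nat_lit 351046460590) (nat_lit 9) (nat_lit 5) (nat_lit 11) (nat_lit 4) (nat_lit 9) (nat_lit 4) (nat_lit 458) (nat_lit 406) (nat_lit 216)) (XT.lf (nat_lit 0) (nat_lit 165370962743) (nat_lit 168) (nat_lit 255873978541) (nat_lit 84) (nat_lit 1272494805844) (nat_lit 7) (nat_lit 5) (nat_lit 9) (nat_lit 5) (nat_lit 8) (nat_lit 4) (nat_lit 459) (nat_lit 406) (nat_lit 215))))) (XT.nd (nat_lit 376) (nat_lit 0) (nat_lit 0) (XT.nd (nat_lit 188) (nat_lit 336) (nat_lit 0) (XT.nd (nat_lit 94) (nat_lit 168) (nat_lit 0) (XT.lf (nat_lit 0) (nat_lit 1076495976625) (nat_lit 168) (nat_lit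 195642617829) (nat_lit 0) (nat_lit 509939338179) (nat_lit 6) (nat_lit 5) (nat_lit 8) (nat_lit 4) (nat_lit 6) (nat_lit 4) (nat_lit 460) (nat_lit 406) (nat_lit 214)) (XT.lf (nat_lit 0) (nat_lit 216876083436) (nat_lit 168) (nat_lit 121960683452) (nat_lit 84) (nat_lit 1536518212332) (nat_lit 4) (nat_lit 5) (nat_lit 6) (nat_lit 5) (nat_lit 5) (nat_lit 4) (nat_lit 461) (nat_lit 406) (nat_lit 213))) (XT.nd (nat_lit 94) (nat_lit 252) (nat_lit 0) (XT.lf (nat_lit 0) (nat_lit 1233681768713) (nat_lit 168) (nat_lit 45466528718) (nat_lit 0) (nat_lit 694103988368) (nat_lit 3) (nat_lit 5) (nat_lit 5) (nat_lit 4) (nat_lit 3) (nat_lit 4) (nat_lit 462) (nat_lit 406) (nat_lit 212)) (XT.lf (nat_lit 0) (nat_lit 3012425365816) (nat_lit 0) (nat_lit 0) (nat_lit 0) (nat_lit 0) (nat_lit 0) (nat_lit 0) (nat_lit 1) (nat_lit 0) (nat_lit 1) (nat_lit 0) (nat_lit 463) (nat_lit 406) (nat_lit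 211)))) (XT.nd (nat_lit 188) (nat_lit 0) (nat_lit 0) (XT.nd (nat_lit 94) (nat_lit 0) (nat_lit 0) (XT.lf (nat_lit 0) (nat_lit 3250458091968) (nat_lit 0) (nat_lit 0) (nat_lit 0) (nat_lit 0) (nat_lit 0) (nat_lit 0) (nat_lit 1) (nat_lit 0) (nat_lit 1) (nat_lit 0) (nat_lit 464) (nat_lit 406) (nat_lit 210)) (XT.lf (nat_lit 0) (nat_lit 3507533436340) (nat_lit 0) (nat_lit 0) (nat_lit 0) (nat_lit 0) (nat_lit 0) (nat_lit 0) (nat_lit 1) (nat_lit 0) (nat_lit 1) (nat_lit 0) (nat_lit 465) (nat_lit 406) (nat_lit 209))) (XT.nd (nat_lit 94) (nat_lit 0) (nat_lit 0) (XT.lf (nat_lit 0) (nat_lit 3785174808381) (nat_lit 0) (nat_lit 0) (nat_lit 0) (nat_lit 0) (nat_lit 0) (nat_lit 0) (nat_lit 1) (nat_lit 0) (nat_lit 1) (nat_lit 0) (nat_lit 466) (nat_lit 406) (nat_lit 208)) (XT.lf (nat_lit 0) (nat_lit 4085027490294) (nat_lit 0) (nat_lit 0) (nat_lit 0) (nat_lit 0) (nat_lit 0) (nat_lit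 0) (nat_lit 1) (nat_lit 0) (nat_lit 1) (nat_lit 0) (nat_lit 467) (nat_lit 406) (nat_lit 207))))))))
noncomputable def xc186 : XT := (XT.nd (nat_lit 2632) (nat_lit 0) (nat_lit 0) (XT.nd (nat_lit 1316) (nat_lit 0) (nat_lit 0) (XT.nd (nat_lit 658) (nat_lit 0) (nat_lit 0) (XT.nd (nat_lit 282) (nat_lit 0) (nat_lit 0) (XT.nd (nat_lit 94) (nat_lit 0) (nat_lit 0) (XT.lf (nat_lit 0) (nat_lit 4408868386863) (nat_lit 0) (nat_lit 0) (nat_lit 0) (nat_lit 0) (nat_lit 0) (nat_lit 0) (nat_lit 1) (nat_lit 0) (nat_lit 1) (nat_lit 0) (nat_lit 468) (nat_lit 406) (nat_lit 206)) (XT.nd (nat_lit 94) (nat_lit 0) (nat_lit 0) (XT.lf (nat_lit 0) (nat_lit 4758616555251) (nat_lit 0) (nat_lit 0) (nat_lit 0) (nat_lit 0) (nat_lit 0) (nat_lit 0) (nat_lit 1) (nat_lit 0) (nat_lit 1) (nat_lit 0) (nat_lit 469) (nat_lit 406) (nat_lit 205)) (XT.lf (nat_lit 0) (nat_lit 5136344577198) (nat_lit 0)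 (nat_lit 0) (nat_lit 0) (nat_lit 0) (nat_lit 0) (nat_lit 0) (nat_lit 1) (nat_lit 0) (nat_lit 1) (nat_lit 0) (nat_lit 470) (nat_lit 406) (nat_lit 204)))) (XT.nd (nat_lit 188) (nat_lit 0) (nat_lit 0) (XT.nd (nat_lit 94) (nat_lit 0) (nat_lit 0) (XT.lf (nat_lit 0) (nat_lit 5544290840982) (nat_lit 0) (nat_lit 0) (nat_lit 0) (nat_lit 0) (nat_lit 0) (nat_lit 0) (nat_lit 1) (nat_lit 0) (nat_lit 1) (nat_lit 0) (nat_lit 471) (nat_lit 406) (nat_lit 203)) (XT.lf (nat_lit 0) (nat_lit 5984872805943) (nat_lit 0) (nat_lit 0) (nat_lit 0) (nat_lit 0) (nat_lit 0) (nat_lit 0) (nat_lit 1) (nat_lit 0) (nat_lit 1) (nat_lit 0) (nat_lit 472) (nat_lit 406) (nat_lit 202))) (XT.nd (nat_lit 94) (nat_lit 0) (nat_lit 0) (XT.lf (nat_lit 0) (nat_lit 6460701328170) (nat_lit 0) (nat_lit 0) (nat_lit 0) (nat_lit 0) (nat_lit 0) (nat_lit 0) (nat_lit 1) (nat_lit 0) (nat_lit 1) (nat_lit 0) (nat_lit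 473) (nat_lit 406) (nat_lit 201)) (XT.lf (nat_lit 0) (nat_lit 6974596132239) (nat_lit 0) (nat_lit 0) (nat_lit 0) (nat_lit 0) (nat_lit 0) (nat_lit 0) (nat_lit 1) (nat_lit 0) (nat_lit 1) (nat_lit 0) (nat_lit 474) (nat_lit 406) (nat_lit 200))))) (XT.nd (nat_lit 282) (nat_lit 0) (nat_lit 0) (XT.nd (nat_lit 94) (nat_lit 0) (nat_lit 0) (XT.lf (nat_lit 0) (nat_lit 7529602520694) (nat_lit 0) (nat_lit 0) (nat_lit 0) (nat_lit 0) (nat_lit 0) (nat_lit 0) (nat_lit 1) (nat_lit 0) (nat_lit 1) (nat_lit 0) (nat_lit 475) (nat_lit 406) (nat_lit 199)) (XT.nd (nat_lit 94) (nat_lit 0) (nat_lit 0) (XT.lf (nat_lit 0) (nat_lit 8129009420280) (nat_lit 0) (nat_lit 0) (nat_lit 0) (nat_lit 0) (nat_lit 0) (nat_lit 0) (nat_lit 1) (nat_lit 0) (nat_lit 1) (nat_lit 0) (nat_lit 476) (nat_lit 406) (nat_lit 198)) (XT.lf (nat_lit 0) (nat_lit 8776368871883) (nat_lit 0) (nat_lit 0) (nat_lit 0) (nat_lit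 0) (nat_lit 0) (nat_lit 0) (nat_lit 1) (nat_lit 0) (nat_lit 1) (nat_lit 0) (nat_lit 477) (nat_lit 406) (nat_lit 197)))) (XT.nd (nat_lit 188) (nat_lit 0) (nat_lit 0) (XT.nd (nat_lit 94) (nat_lit 0) (nat_lit 0) (XT.lf (nat_lit 0) (nat_lit 9475517079662) (nat_lit 0) (nat_lit 0) (nat_lit 0) (nat_lit 0) (nat_lit 0) (nat_lit 0) (nat_lit 1) (nat_lit 0) (nat_lit 1) (nat_lit 0) (nat_lit 478) (nat_lit 406) (nat_lit 196)) (XT.lf (nat_lit 0) (nat_lit 10230597144108) (nat_lit 0) (nat_lit 0) (nat_lit 0) (nat_lit 0) (nat_lit 0) (nat_lit 0) (nat_lit 1) (nat_lit 0) (nat_lit 1) (nat_lit 0) (nat_lit 479) (nat_lit 406) (nat_lit 195))) (XT.nd (nat_lit 94) (nat_lit 0) (nat_lit 0) (XT.lf (nat_lit 0) (nat_lit 11046083613749) (nat_lit 0) (nat_lit 0) (nat_lit 0) (nat_lit 0) (nat_lit 0) (nat_lit 0) (nat_lit 1) (nat_lit 0) (nat_lit 1) (nat_lit 0) (nat_lit 480) (nat_lit 406) (nat_lit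 194)) (XT.lf (nat_lit 0) (nat_lit 11926809000999) (nat_lit 0) (nat_lit 0) (nat_lit 0) (nat_lit 0) (nat_lit 0) (nat_lit 0) (nat_lit 1) (nat_lit 0) (nat_lit 1) (nat_lit 0) (nat_lit 481) (nat_lit 406) (nat_lit 193)))))) (XT.nd (nat_lit 658) (nat_lit 0) (nat_lit 0) (XT.nd (nat_lit 282) (nat_lit 0) (nat_lit 0) (XT.nd (nat_lit 94) (nat_lit 0) (nat_lit 0) (XT.lf (nat_lit 0) (nat_lit 12877992419263) (nat_lit 0) (nat_lit 0) (nat_lit 0) (nat_lit 0) (nat_lit 0) (nat_lit 0) (nat_lit 1) (nat_lit 0) (nat_lit 1) (nat_lit 0) (nat_lit 482) (nat_lit 406) (nat_lit 192)) (XT.nd (nat_lit 94) (nat_lit 0) (nat_lit 0) (XT.lf (nat_lit 0) (nat_lit 13905270511021) (nat_lit 0) (nat_lit 0) (nat_lit 0) (nat_lit 0) (nat_lit 0) (nat_lit 0) (nat_lit 1) (nat_lit 0) (nat_lit 1) (nat_lit 0) (nat_lit 483) (nat_lit 406) (nat_lit 191)) (XT.lf (nat_lit 0) (nat_lit 15014730850149) (nat_lit 0) (nat_lit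 0) (nat_lit 0) (nat_lit 0) (nat_lit 0) (nat_lit 0) (nat_lit 1) (nat_lit 0) (nat_lit 1) (nat_lit 0) (nat_lit 484) (nat_lit 406) (nat_lit 190)))) (XT.nd (nat_lit 188) (nat_lit 0) (nat_lit 0) (XT.nd (nat_lit 94) (nat_lit 0) (nat_lit 0) (XT.lf (nat_lit 0) (nat_lit 16212948016435) (nat_lit 0) (nat_lit 0) (nat_lit 0) (nat_lit 0) (nat_lit 0) (nat_lit 0) (nat_lit 1) (nat_lit 0) (nat_lit 1) (nat_lit 0) (nat_lit 485) (nat_lit 406) (nat_lit 189)) (XT.lf (nat_lit 0) (nat_lit 17507022556049) (nat_lit 0) (nat_lit 0) (nat_lit 0) (nat_lit 0) (nat_lit 0) (nat_lit 0) (nat_lit 1) (nat_lit 0) (nat_lit 1) (nat_lit 0) (nat_lit 486) (nat_lit 406) (nat_lit 188))) (XT.nd (nat_lit 94) (nat_lit 0) (nat_lit 0) (XT.lf (nat_lit 0) (nat_lit 18904623058856) (nat_lit 0) (nat_lit 0) (nat_lit 0) (nat_lit 0) (nat_lit 0) (nat_lit 0) (nat_lit 1) (nat_lit 0) (nat_lit 1) (nat_lit 0) (nat_lit 487)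 (nat_lit 406) (nat_lit 187)) (XT.lf (nat_lit 0) (nat_lit 20414031601910) (nat_lit 0) (nat_lit 0) (nat_lit 0) (nat_lit 0) (nat_lit 0) (nat_lit 0) (nat_lit 1) (nat_lit 0) (nat_lit 1) (nat_lit 0) (nat_lit 488) (nat_lit 406) (nat_lit 186))))) (XT.nd (nat_lit 282) (nat_lit 0) (nat_lit 0) (XT.nd (nat_lit 94) (nat_lit 0) (nat_lit 0) (XT.lf (nat_lit 0) (nat_lit 22044192828428) (nat_lit 0) (nat_lit 0) (nat_lit 0) (nat_lit 0) (nat_lit 0) (nat_lit 0) (nat_lit 1) (nat_lit 0) (nat_lit 1) (nat_lit 0) (nat_lit 489) (nat_lit 406) (nat_lit 185)) (XT.nd (nat_lit 94) (nat_lit 0) (nat_lit 0) (XT.lf (nat_lit 0) (nat_lit 23804766953086) (nat_lit 0) (nat_lit 0) (nat_lit 0) (nat_lit 0) (nat_lit 0) (nat_lit 0) (nat_lit 1) (nat_lit 0) (nat_lit 1) (nat_lit 0) (nat_lit 490) (nat_lit 406) (nat_lit 184)) (XT.lf (nat_lit 0) (nat_lit 25706187007734) (nat_lit 0) (nat_lit 0) (nat_lit 0) (nat_lit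 0) (nat_lit 0) (nat_lit 0) (nat_lit 1) (nat_lit 0) (nat_lit 1) (nat_lit 0) (nat_lit 491) (nat_lit 406) (nat_lit 183)))) (XT.nd (nat_lit 188) (nat_lit 0) (nat_lit 0) (XT.nd (nat_lit 94) (nat_lit 0) (nat_lit 0) (XT.lf (nat_lit 0) (nat_lit 27759720666770) (nat_lit 0) (nat_lit 0) (nat_lit 0) (nat_lit 0) (nat_lit 0) (nat_lit 0) (nat_lit 1) (nat_lit 0) (nat_lit 1) (nat_lit 0) (nat_lit 492) (nat_lit 406) (nat_lit 182)) (XT.lf (nat_lit 0) (nat_lit 29977537018544) (nat_lit 0) (nat_lit 0) (nat_lit 0) (nat_lit 0) (nat_lit 0) (nat_lit 0) (nat_lit 1) (nat_lit 0) (nat_lit 1) (nat_lit 0) (nat_lit 493) (nat_lit 406) (nat_lit 181))) (XT.nd (nat_lit 94) (nat_lit 0) (nat_lit 0) (XT.lf (nat_lit 0) (nat_lit 32372778678473) (nat_lit 0) (nat_lit 0) (nat_lit 0) (nat_lit 0) (nat_lit 0) (nat_lit 0) (nat_lit 1) (nat_lit 0) (nat_lit 1) (nat_lit 0) (nat_lit 494) (nat_lit 406) (nat_lit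 180)) (XT.lf (nat_lit 0) (nat_lit 34959639671210) (nat_lit 0) (nat_lit 0) (nat_lit 0) (nat_lit 0) (nat_lit 0) (nat_lit 0) (nat_lit 1) (nat_lit 0) (nat_lit 1) (nat_lit 0) (nat_lit 495) (nat_lit 406) (nat_lit 179))))))) (XT.nd (nat_lit 59972) (nat_lit 0) (nat_lit 5964) (XT.nd (nat_lit 658) (nat_lit 0) (nat_lit 0) (XT.nd (nat_lit 282) (nat_lit 0) (nat_lit 0) (XT.nd (nat_lit 94) (nat_lit 0) (nat_lit 0) (XT.lf (nat_lit 0) (nat_lit 37753449543377) (nat_lit 0) (nat_lit 0) (nat_lit 0) (nat_lit 0) (nat_lit 0) (nat_lit 0) (nat_lit 1) (nat_lit 0) (nat_lit 1) (nat_lit 0) (nat_lit 496) (nat_lit 406) (nat_lit 178)) (XT.nd (nat_lit 94) (nat_lit 0) (nat_lit 0) (XT.lf (nat_lit 0) (nat_lit 40770764205329) (nat_lit 0) (nat_lit 0) (nat_lit 0) (nat_lit 0) (nat_lit 0) (nat_lit 0) (nat_lit 1) (nat_lit 0) (nat_lit 1) (nat_lit 0) (nat_lit 497) (nat_lit 406) (nat_lit 177)) (XT.lf (nat_lit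 0) (nat_lit 44029464040247) (nat_lit 0) (nat_lit 0) (nat_lit 0) (nat_lit 0) (nat_lit 0) (nat_lit 0) (nat_lit 1) (nat_lit 0) (nat_lit 1) (nat_lit 0) (nat_lit 498) (nat_lit 406) (nat_lit 176)))) (XT.nd (nat_lit 188) (nat_lit 0) (nat_lit 0) (XT.nd (nat_lit 94) (nat_lit 0) (nat_lit 0) (XT.lf (nat_lit 0) (nat_lit 47548859861967) (nat_lit 0) (nat_lit 0) (nat_lit 0) (nat_lit 0) (nat_lit 0) (nat_lit 0) (nat_lit 1) (nat_lit 0) (nat_lit 1) (nat_lit 0) (nat_lit 499) (nat_lit 406) (nat_lit 175)) (XT.lf (nat_lit 0) (nat_lit 51349807349434) (nat_lit 0) (nat_lit 0) (nat_lit 0) (nat_lit 0) (nat_lit 0) (nat_lit 0) (nat_lit 1) (nat_lit 0) (nat_lit 1) (nat_lit 0) (nat_lit 500) (nat_lit 406) (nat_lit 174))) (XT.nd (nat_lit 94) (nat_lit 0) (nat_lit 0) (XT.lf (nat_lit 0) (nat_lit 55454830635907) (nat_lit 0) (nat_lit 0) (nat_lit 0) (nat_lit 0) (nat_lit 0) (nat_lit 0) (nat_lit 1)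 (nat_lit 0) (nat_lit 1) (nat_lit 0) (nat_lit 501) (nat_lit 406) (nat_lit 173)) (XT.lf (nat_lit 0) (nat_lit 59888255785304) (nat_lit 0) (nat_lit 0) (nat_lit 0) (nat_lit 0) (nat_lit 0) (nat_lit 0) (nat_lit 1) (nat_lit 0) (nat_lit 1) (nat_lit 0) (nat_lit 502) (nat_lit 406) (nat_lit 172))))) (XT.nd (nat_lit 58938) (nat_lit 0) (nat_lit 10836) (XT.nd (nat_lit 58750) (nat_lit 0) (nat_lit 10752) (XT.lf (nat_lit 0) (nat_lit 64676354946661) (nat_lit 0) (nat_lit 0) (nat_lit 0) (nat_lit 0) (nat_lit 0) (nat_lit 0) (nat_lit 1) (nat_lit 0) (nat_lit 1) (nat_lit 0) (nat_lit 503) (nat_lit 406) (nat_lit 171)) (XT.nd (nat_lit 94) (nat_lit 0) (nat_lit 84) (XT.lf (nat_lit 0) (nat_lit 35501643861) (nat_lit 924) (nat_lit 20016482780) (nat_lit 924) (nat_lit 20016482780) (nat_lit 128) (nat_lit 3) (nat_lit 139) (nat_lit 3) (nat_lit 139) (nat_lit 5) (nat_lit 407) (nat_lit 407) (nat_lit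 266)) (XT.lf (nat_lit 0) (nat_lit 75281704626) (nat_lit 840) (nat_lit 73682129612) (nat_lit 924) (nat_lit 8076239088) (nat_lit 129) (nat_lit 5) (nat_lit 139) (nat_lit 5) (nat_lit 140) (nat_lit 5) (nat_lit 408) (nat_lit 407) (nat_lit 265)))) (XT.nd (nat_lit 188) (nat_lit 0) (nat_lit 168) (XT.nd (nat_lit 94) (nat_lit 0) (nat_lit 84) (XT.lf (nat_lit 84) (nat_lit 54454885305) (nat_lit 0) (nat_lit 28878312946) (nat_lit 924) (nat_lit 79983857749) (nat_lit 130) (nat_lit 5) (nat_lit 129) (nat_lit 5) (nat_lit 140) (nat_lit 5) (nat_lit 409) (nat_lit 407) (nat_lit 264)) (XT.lf (nat_lit 84) (nat_lit 24635174567) (nat_lit 0) (nat_lit 70656373850) (nat_lit 924) (nat_lit 74641512019) (nat_lit 131) (nat_lit 5) (nat_lit 130) (nat_lit 5) (nat_lit 141) (nat_lit 5) (nat_lit 410) (nat_lit 407) (nat_lit 263))) (XT.nd (nat_lit 94) (nat_lit 0) (nat_lit 84) (XT.lf (nat_lit 0) (nat_lit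 111543556644) (nat_lit 840) (nat_lit 5725142467) (nat_lit 924) (nat_lit 59642796614) (nat_lit 131) (nat_lit 5) (nat_lit 141) (nat_lit 5) (nat_lit 142) (nat_lit 5) (nat_lit 411) (nat_lit 407) (nat_lit 262)) (XT.lf (nat_lit 0) (nat_lit 132855817833) (nat_lit 840) (nat_lit 35944859914) (nat_lit 924) (nat_lit 15459523474) (nat_lit 132) (nat_lit 5) (nat_lit 142) (nat_lit 5) (nat_lit 143) (nat_lit 5) (nat_lit 412) (nat_lit 407) (nat_lit 261)))))) (XT.nd (nat_lit 658) (nat_lit 2604) (nat_lit 0) (XT.nd (nat_lit 282) (nat_lit 1176) (nat_lit 0) (XT.nd (nat_lit 94) (nat_lit 1344) (nat_lit 0) (XT.lf (nat_lit 84) (nat_lit 124703716066) (nat_lit 0) (nat_lit 35194713483) (nat_lit 924) (nat_lit 32097105126) (nat_lit 133) (nat_lit 5) (nat_lit 132) (nat_lit 5) (nat_lit 143) (nat_lit 5) (nat_lit 413) (nat_lit 407) (nat_lit 260)) (XT.nd (nat_lit 94) (nat_lit 588) (nat_lit 0)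 (XT.lf (nat_lit 0) (nat_lit 100677793730) (nat_lit 840) (nat_lit 92337961136) (nat_lit 924) (nat_lit 7138374706) (nat_lit 123) (nat_lit 5) (nat_lit 133) (nat_lit 5) (nat_lit 134) (nat_lit 5) (nat_lit 414) (nat_lit 407) (nat_lit 259)) (XT.lf (nat_lit 0) (nat_lit 23029520088) (nat_lit 588) (nat_lit 132531160253) (nat_lit 84) (nat_lit 53196924960) (nat_lit 116) (nat_lit 5) (nat_lit 123) (nat_lit 5) (nat_lit 117) (nat_lit 5) (nat_lit 415) (nat_lit 407) (nat_lit 258)))) (XT.nd (nat_lit 188) (nat_lit 336) (nat_lit 0) (XT.nd (nat_lit 94) (nat_lit 420) (nat_lit 0) (XT.lf (nat_lit 0) (nat_lit 51517854497) (nat_lit 420) (nat_lit 7968507881) (nat_lit 504) (nat_lit 158350865095) (nat_lit 111) (nat_lit 5) (nat_lit 116) (nat_lit 5) (nat_lit 117) (nat_lit 5) (nat_lit 416) (nat_lit 407) (nat_lit 257)) (XT.lf (nat_lit 0) (nat_lit 25922955948) (nat_lit 420) (nat_lit 78051979930)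 (nat_lit 504) (nat_lit 123412524349) (nat_lit 106) (nat_lit 5) (nat_lit 111) (nat_lit 5) (nat_lit 112) (nat_lit 5) (nat_lit 417) (nat_lit 407) (nat_lit 256))) (XT.nd (nat_lit 94) (nat_lit 0) (nat_lit 0) (XT.lf (nat_lit 0) (nat_lit 494324988) (nat_lit 336) (nat_lit 155881164940) (nat_lit 420) (nat_lit 81108576940) (nat_lit 102) (nat_lit 5) (nat_lit 106) (nat_lit 5) (nat_lit 107) (nat_lit 5) (nat_lit 418) (nat_lit 407) (nat_lit 255)) (XT.lf (nat_lit 0) (nat_lit 217876278562) (nat_lit 420) (nat_lit 23808159230) (nat_lit 84) (nat_lit 6458554736) (nat_lit 102) (nat_lit 5) (nat_lit 107) (nat_lit 5) (nat_lit 103) (nat_lit 5) (nat_lit 419) (nat_lit 407) (nat_lit 254))))) (XT.nd (nat_lit 376) (nat_lit 1260) (nat_lit 0) (XT.nd (nat_lit 188) (nat_lit 588) (nat_lit 0) (XT.nd (nat_lit 94) (nat_lit 336) (nat_lit 0) (XT.lf (nat_lit 0) (nat_lit 29866065983) (nat_lit 420)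 (nat_lit 49302801504) (nat_lit 84) (nat_lit 180165913742) (nat_lit 97) (nat_lit 5) (nat_lit 102) (nat_lit 5) (nat_lit 98) (nat_lit 5) (nat_lit 420) (nat_lit 407) (nat_lit 253)) (XT.lf (nat_lit 0) (nat_lit 98843621373) (nat_lit 420) (nat_lit 74947912470) (nat_lit 84) (nat_lit 97350842837) (nat_lit 93) (nat_lit 5) (nat_lit 98) (nat_lit 5) (nat_lit 94) (nat_lit 5) (nat_lit 421) (nat_lit 407) (nat_lit 252))) (XT.nd (nat_lit 94) (nat_lit 252) (nat_lit 0) (XT.lf (nat_lit 0) (nat_lit 178499866691) (nat_lit 420) (nat_lit 99951287804) (nat_lit 84) (nat_lit 5185400998) (nat_lit 89) (nat_lit 5) (nat_lit 94) (nat_lit 5) (nat_lit 90) (nat_lit 5) (nat_lit 422) (nat_lit 407) (nat_lit 251)) (XT.lf (nat_lit 0) (nat_lit 171146128570) (nat_lit 252) (nat_lit 100311756468) (nat_lit 336) (nat_lit 25325919903) (nat_lit 86) (nat_lit 5) (nat_lit 89) (nat_lit 5) (nat_lit 90) (nat_lit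 5) (nat_lit 423) (nat_lit 407) (nat_lit 250)))) (XT.nd (nat_lit 188) (nat_lit 588) (nat_lit 0) (XT.nd (nat_lit 94) (nat_lit 252) (nat_lit 0) (XT.lf (nat_lit 0) (nat_lit 64724386575) (nat_lit 420) (nat_lit 151473344587) (nat_lit 84) (nat_lit 94447441497) (nat_lit 81) (nat_lit 5) (nat_lit 86) (nat_lit 5) (nat_lit 82) (nat_lit 5) (nat_lit 424) (nat_lit 407) (nat_lit 249)) (XT.lf (nat_lit 0) (nat_lit 148339750499) (nat_lit 252) (nat_lit 18995205146) (nat_lit 336) (nat_lit 157947558451) (nat_lit 78) (nat_lit 5) (nat_lit 81) (nat_lit 5) (nat_lit 82) (nat_lit 5) (nat_lit 425) (nat_lit 407) (nat_lit 248))) (XT.nd (nat_lit 94) (nat_lit 336) (nat_lit 0) (XT.lf (nat_lit 0) (nat_lit 137930564193) (nat_lit 252) (nat_lit 148087575532) (nat_lit 336) (nat_lit 54679514651) (nat_lit 75) (nat_lit 5) (nat_lit 78) (nat_lit 5) (nat_lit 79) (nat_lit 5) (nat_lit 426) (nat_lit 407)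 (nat_lit 247)) (XT.lf (nat_lit 0) (nat_lit 61598587659) (nat_lit 336) (nat_lit 228089375493) (nat_lit 84) (nat_lit 67285254896) (nat_lit 71) (nat_lit 5) (nat_lit 75) (nat_lit 5) (nat_lit 72) (nat_lit 5) (nat_lit 427) (nat_lit 407) (nat_lit 246))))))))
noncomputable def xc187 : XT := (XT.nd (nat_lit 2632) (nat_lit 1260) (nat_lit 0) (XT.nd (nat_lit 1316) (nat_lit 2016) (nat_lit 0) (XT.nd (nat_lit 658) (nat_lit 1176) (nat_lit 0) (XT.nd (nat_lit 282) (nat_lit 756) (nat_lit 0) (XT.nd (nat_lit 94) (nat_lit 504) (nat_lit 0) (XT.lf (nat_lit 0) (nat_lit 120306788530) (nat_lit 252) (nat_lit 72947234927) (nat_lit 336) (nat_lit 180852444626) (nat_lit 68) (nat_lit 5) (nat_lit 71) (nat_lit 5) (nat_lit 72) (nat_lit 5) (nat_lit 428) (nat_lit 407) (nat_lit 245)) (XT.nd (nat_lit 94) (nat_lit 336) (nat_lit 0) (XT.lf (nat_lit 0) (nat_lit 113354897156) (nat_lit 168) (nat_lit 230410678871)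 (nat_lit 252) (nat_lit 48428617999) (nat_lit 66) (nat_lit 5) (nat_lit 68) (nat_lit 5) (nat_lit 69) (nat_lit 5) (nat_lit 429) (nat_lit 407) (nat_lit 244)) (XT.lf (nat_lit 0) (nat_lit 99115862727) (nat_lit 336) (nat_lit 303309315348) (nat_lit 84) (nat_lit 8852210392) (nat_lit 62) (nat_lit 5) (nat_lit 66) (nat_lit 5) (nat_lit 63) (nat_lit 5) (nat_lit 430) (nat_lit 407) (nat_lit 243)))) (XT.nd (nat_lit 188) (nat_lit 336) (nat_lit 0) (XT.nd (nat_lit 94) (nat_lit 252) (nat_lit 0) (XT.lf (nat_lit 0) (nat_lit 102533032384) (nat_lit 168) (nat_lit 164679517226) (nat_lit 252) (nat_lit 164112725739) (nat_lit 60) (nat_lit 5) (nat_lit 62) (nat_lit 5) (nat_lit 63) (nat_lit 5) (nat_lit 431) (nat_lit 407) (nat_lit 242)) (XT.lf (nat_lit 0) (nat_lit 4431622496) (nat_lit 252) (nat_lit 351971336458) (nat_lit 84) (nat_lit 96151499684) (nat_lit 57) (nat_lit 5) (nat_lit 60) (nat_lit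 5) (nat_lit 58) (nat_lit 5) (nat_lit 432) (nat_lit 407) (nat_lit 241))) (XT.nd (nat_lit 94) (nat_lit 168) (nat_lit 0) (XT.lf (nat_lit 0) (nat_lit 98364104038) (nat_lit 168) (nat_lit 92556225596) (nat_lit 252) (nat_lit 283916602253) (nat_lit 55) (nat_lit 5) (nat_lit 57) (nat_lit 5) (nat_lit 58) (nat_lit 5) (nat_lit 433) (nat_lit 407) (nat_lit 240)) (XT.lf (nat_lit 0) (nat_lit 98755935330) (nat_lit 168) (nat_lit 304349436421) (nat_lit 252) (nat_lit 95257769323) (nat_lit 53) (nat_lit 5) (nat_lit 55) (nat_lit 5) (nat_lit 56) (nat_lit 5) (nat_lit 434) (nat_lit 407) (nat_lit 239))))) (XT.nd (nat_lit 282) (nat_lit 588) (nat_lit 0) (XT.nd (nat_lit 94) (nat_lit 336) (nat_lit 0) (XT.lf (nat_lit 0) (nat_lit 101902423978) (nat_lit 168) (nat_lit 12935823983) (nat_lit 252) (nat_lit 408357656651) (nat_lit 50) (nat_lit 5) (nat_lit 52) (nat_lit 5) (nat_lit 53) (nat_lit 5)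 (nat_lit 435) (nat_lit 407) (nat_lit 238)) (XT.nd (nat_lit 94) (nat_lit 168) (nat_lit 0) (XT.lf (nat_lit 0) (nat_lit 105065861966) (nat_lit 168) (nat_lit 246810410616) (nat_lit 252) (nat_lit 197387351802) (nat_lit 48) (nat_lit 5) (nat_lit 50) (nat_lit 5) (nat_lit 51) (nat_lit 5) (nat_lit 436) (nat_lit 407) (nat_lit 237)) (XT.lf (nat_lit 0) (nat_lit 40125963294) (nat_lit 168) (nat_lit 463722568793) (nat_lit 84) (nat_lit 73012435174) (nat_lit 46) (nat_lit 5) (nat_lit 48) (nat_lit 5) (nat_lit 47) (nat_lit 5) (nat_lit 437) (nat_lit 407) (nat_lit 236)))) (XT.nd (nat_lit 188) (nat_lit 336) (nat_lit 0) (XT.nd (nat_lit 94) (nat_lit 84) (nat_lit 0) (XT.lf (nat_lit 0) (nat_lit 120896834423) (nat_lit 168) (nat_lit 182834066354) (nat_lit 252) (nat_lit 302073101455) (nat_lit 44) (nat_lit 5) (nat_lit 46) (nat_lit 5) (nat_lit 47) (nat_lit 5) (nat_lit 438) (nat_lit 407) (nat_lit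 235)) (XT.lf (nat_lit 0) (nat_lit 133777352966) (nat_lit 84) (nat_lit 467503929169) (nat_lit 168) (nat_lit 35138345424) (nat_lit 43) (nat_lit 5) (nat_lit 44) (nat_lit 5) (nat_lit 45) (nat_lit 4) (nat_lit 439) (nat_lit 407) (nat_lit 234))) (XT.nd (nat_lit 94) (nat_lit 84) (nat_lit 0) (XT.lf (nat_lit 0) (nat_lit 147765817357) (nat_lit 168) (nat_lit 111258055581) (nat_lit 252) (nat_lit 409564254949) (nat_lit 40) (nat_lit 5) (nat_lit 42) (nat_lit 5) (nat_lit 43) (nat_lit 5) (nat_lit 440) (nat_lit 407) (nat_lit 233)) (XT.lf (nat_lit 0) (nat_lit 165556149394) (nat_lit 84) (nat_lit 425702150748) (nat_lit 168) (nat_lit 111254490785) (nat_lit 39) (nat_lit 5) (nat_lit 40) (nat_lit 5) (nat_lit 41) (nat_lit 4) (nat_lit 441) (nat_lit 407) (nat_lit 232)))))) (XT.nd (nat_lit 658) (nat_lit 840) (nat_lit 0) (XT.nd (nat_lit 282) (nat_lit 588) (nat_lit 0) (XT.nd (nat_lit 94)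 (nat_lit 336) (nat_lit 0) (XT.lf (nat_lit 0) (nat_lit 187426328300) (nat_lit 168) (nat_lit 30766258442) (nat_lit 252) (nat_lit 520093023051) (nat_lit 36) (nat_lit 5) (nat_lit 38) (nat_lit 5) (nat_lit 39) (nat_lit 5) (nat_lit 442) (nat_lit 407) (nat_lit 231)) (XT.nd (nat_lit 94) (nat_lit 252) (nat_lit 0) (XT.lf (nat_lit 0) (nat_lit 211027661938) (nat_lit 84) (nat_lit 378102476148) (nat_lit 168) (nat_lit 186747297725) (nat_lit 35) (nat_lit 5) (nat_lit 36) (nat_lit 5) (nat_lit 37) (nat_lit 4) (nat_lit 443) (nat_lit 407) (nat_lit 230)) (XT.lf (nat_lit 0) (nat_lit 182707672377) (nat_lit 252) (nat_lit 574677091361) (nat_lit 84) (nat_lit 58207226537) (nat_lit 32) (nat_lit 5) (nat_lit 35) (nat_lit 5) (nat_lit 33) (nat_lit 4) (nat_lit 444) (nat_lit 407) (nat_lit 229)))) (XT.nd (nat_lit 188) (nat_lit 252) (nat_lit 0) (XT.nd (nat_lit 94) (nat_lit 252) (nat_lit 0) (XT.lf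 (nat_lit 0) (nat_lit 272350675901) (nat_lit 84) (nat_lit 323541311724) (nat_lit 168) (nat_lit 261402866756) (nat_lit 31) (nat_lit 5) (nat_lit 32) (nat_lit 5) (nat_lit 33) (nat_lit 4) (nat_lit 445) (nat_lit 407) (nat_lit 228)) (XT.lf (nat_lit 0) (nat_lit 152938948555) (nat_lit 252) (nat_lit 590501795345) (nat_lit 84) (nat_lit 157903261074) (nat_lit 28) (nat_lit 5) (nat_lit 31) (nat_lit 5) (nat_lit 29) (nat_lit 4) (nat_lit 446) (nat_lit 407) (nat_lit 227))) (XT.nd (nat_lit 94) (nat_lit 168) (nat_lit 0) (XT.lf (nat_lit 0) (nat_lit 352008103307) (nat_lit 84) (nat_lit 260691802884) (nat_lit 168) (nat_lit 334931412767) (nat_lit 27) (nat_lit 5) (nat_lit 28) (nat_lit 5) (nat_lit 29) (nat_lit 4) (nat_lit 447) (nat_lit 407) (nat_lit 226)) (XT.lf (nat_lit 0) (nat_lit 129198161216) (nat_lit 168) (nat_lit 596121640087) (nat_lit 84) (nat_lit 271157152620) (nat_lit 25) (nat_lit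 5) (nat_lit 27) (nat_lit 5) (nat_lit 26) (nat_lit 4) (nat_lit 448) (nat_lit 407) (nat_lit 225))))) (XT.nd (nat_lit 282) (nat_lit 504) (nat_lit 0) (XT.nd (nat_lit 94) (nat_lit 252) (nat_lit 0) (XT.lf (nat_lit 0) (nat_lit 452850696846) (nat_lit 84) (nat_lit 188041312955) (nat_lit 168) (nat_lit 406955282246) (nat_lit 24) (nat_lit 5) (nat_lit 25) (nat_lit 5) (nat_lit 26) (nat_lit 4) (nat_lit 449) (nat_lit 407) (nat_lit 224)) (XT.nd (nat_lit 94) (nat_lit 84) (nat_lit 0) (XT.lf (nat_lit 0) (nat_lit 112421324795) (nat_lit 168) (nat_lit 589515305134) (nat_lit 84) (nat_lit 400064518626) (nat_lit 22) (nat_lit 5) (nat_lit 24) (nat_lit 5) (nat_lit 23) (nat_lit 4) (nat_lit 450) (nat_lit 407) (nat_lit 223)) (XT.lf (nat_lit 0) (nat_lit 578146450906) (nat_lit 84) (nat_lit 103865995373) (nat_lit 168) (nat_lit 476995191570) (nat_lit 21) (nat_lit 5) (nat_lit 22) (nat_lit 5)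 (nat_lit 23) (nat_lit 4) (nat_lit 451) (nat_lit 407) (nat_lit 222)))) (XT.nd (nat_lit 188) (nat_lit 252) (nat_lit 0) (XT.nd (nat_lit 94) (nat_lit 84) (nat_lit 0) (XT.lf (nat_lit 0) (nat_lit 103708442124) (nat_lit 168) (nat_lit 568330173439) (nat_lit 84) (nat_lit 546998047245) (nat_lit 19) (nat_lit 5) (nat_lit 21) (nat_lit 5) (nat_lit 20) (nat_lit 4) (nat_lit 452) (nat_lit 407) (nat_lit 221)) (XT.lf (nat_lit 0) (nat_lit 731636404295) (nat_lit 84) (nat_lit 6202092876) (nat_lit 168) (nat_lit 544454446997) (nat_lit 18) (nat_lit 5) (nat_lit 19) (nat_lit 5) (nat_lit 20) (nat_lit 4) (nat_lit 453) (nat_lit 407) (nat_lit 220))) (XT.nd (nat_lit 94) (nat_lit 84) (nat_lit 0) (XT.lf (nat_lit 0) (nat_lit 104346296033) (nat_lit 168) (nat_lit 529835376388) (nat_lit 84) (nat_lit 714643561223) (nat_lit 16) (nat_lit 5) (nat_lit 18) (nat_lit 5) (nat_lit 17) (nat_lit 4) (nat_lit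 454) (nat_lit 407) (nat_lit 219)) (XT.lf (nat_lit 0) (nat_lit 812084680399) (nat_lit 168) (nat_lit 503087909164) (nat_lit 0) (nat_lit 103755811898) (nat_lit 15) (nat_lit 5) (nat_lit 17) (nat_lit 4) (nat_lit 15) (nat_lit 4) (nat_lit 455) (nat_lit 407) (nat_lit 218))))))) (XT.nd (nat_lit 1316) (nat_lit 0) (nat_lit 0) (XT.nd (nat_lit 658) (nat_lit 336) (nat_lit 0) (XT.nd (nat_lit 282) (nat_lit 504) (nat_lit 0) (XT.nd (nat_lit 94) (nat_lit 252) (nat_lit 0) (XT.lf (nat_lit 0) (nat_lit 115834314606) (nat_lit 168) (nat_lit 470868548840) (nat_lit 84) (nat_lit 906040591758) (nat_lit 13) (nat_lit 5) (nat_lit 15) (nat_lit 5) (nat_lit 14) (nat_lit 4) (nat_lit 456) (nat_lit 407) (nat_lit 217)) (XT.nd (nat_lit 94) (nat_lit 168) (nat_lit 0) (XT.lf (nat_lit 0) (nat_lit 905798959189) (nat_lit 168) (nat_lit 433430690036) (nat_lit 0) (nat_lit 231199990435) (nat_lit 12) (nat_lit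 5) (nat_lit 14) (nat_lit 4) (nat_lit 12) (nat_lit 4) (nat_lit 457) (nat_lit 407) (nat_lit 216)) (XT.lf (nat_lit 0) (nat_lit 139913903401) (nat_lit 168) (nat_lit 387775487425) (nat_lit 84) (nat_lit 1124628016518) (nat_lit 10) (nat_lit 5) (nat_lit 12) (nat_lit 5) (nat_lit 11) (nat_lit 4) (nat_lit 458) (nat_lit 407) (nat_lit 215)))) (XT.nd (nat_lit 188) (nat_lit 252) (nat_lit 0) (XT.nd (nat_lit 94) (nat_lit 168) (nat_lit 0) (XT.lf (nat_lit 0) (nat_lit 1021606442651) (nat_lit 168) (nat_lit 337670287586) (nat_lit 0) (nat_lit 379131196450) (nat_lit 9) (nat_lit 5) (nat_lit 11) (nat_lit 4) (nat_lit 9) (nat_lit 4) (nat_lit 459) (nat_lit 407) (nat_lit 214)) (XT.lf (nat_lit 0) (nat_lit 178601687027) (nat_lit 168) (nat_lit 276341804651) (nat_lit 84) (nat_lit 1374295382857) (nat_lit 7) (nat_lit 5) (nat_lit 9) (nat_lit 5) (nat_lit 8) (nat_lit 4) (nat_lit 460) (nat_lit 407)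 (nat_lit 213))) (XT.nd (nat_lit 94) (nat_lit 168) (nat_lit 0) (XT.lf (nat_lit 0) (nat_lit 1162616671308) (nat_lit 168) (nat_lit 211291991577) (nat_lit 0) (nat_lit 550735453533) (nat_lit 6) (nat_lit 5) (nat_lit 8) (nat_lit 4) (nat_lit 6) (nat_lit 4) (nat_lit 461) (nat_lit 407) (nat_lit 212)) (XT.lf (nat_lit 0) (nat_lit 234227157694) (nat_lit 168) (nat_lit 131715558264) (nat_lit 84) (nat_lit 1659440612221) (nat_lit 4) (nat_lit 5) (nat_lit 6) (nat_lit 5) (nat_lit 5) (nat_lit 4) (nat_lit 462) (nat_lit 407) (nat_lit 211))))) (XT.nd (nat_lit 282) (nat_lit 0) (nat_lit 0) (XT.nd (nat_lit 94) (nat_lit 252) (nat_lit 0) (XT.lf (nat_lit 0) (nat_lit 1332377269036) (nat_lit 168) (nat_lit 49101924823) (nat_lit 0) (nat_lit 749633226863) (nat_lit 3) (nat_lit 5) (nat_lit 5) (nat_lit 4) (nat_lit 3) (nat_lit 4) (nat_lit 463) (nat_lit 407) (nat_lit 210)) (XT.nd (nat_lit 94) (nat_lit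 0) (nat_lit 0) (XT.lf (nat_lit 0) (nat_lit 3253419392579) (nat_lit 0) (nat_lit 0) (nat_lit 0) (nat_lit 0) (nat_lit 0) (nat_lit 0) (nat_lit 1) (nat_lit 0) (nat_lit 1) (nat_lit 0) (nat_lit 464) (nat_lit 407) (nat_lit 209)) (XT.lf (nat_lit 0) (nat_lit 3510494737008) (nat_lit 0) (nat_lit 0) (nat_lit 0) (nat_lit 0) (nat_lit 0) (nat_lit 0) (nat_lit 1) (nat_lit 0) (nat_lit 1) (nat_lit 0) (nat_lit 465) (nat_lit 407) (nat_lit 208)))) (XT.nd (nat_lit 188) (nat_lit 0) (nat_lit 0) (XT.nd (nat_lit 94) (nat_lit 0) (nat_lit 0) (XT.lf (nat_lit 0) (nat_lit 3788136109102) (nat_lit 0) (nat_lit 0) (nat_lit 0) (nat_lit 0) (nat_lit 0) (nat_lit 0) (nat_lit 1) (nat_lit 0) (nat_lit 1) (nat_lit 0) (nat_lit 466) (nat_lit 407) (nat_lit 207)) (XT.lf (nat_lit 0) (nat_lit 4087988791064) (nat_lit 0) (nat_lit 0) (nat_lit 0) (nat_lit 0) (nat_lit 0) (nat_lit 0) (nat_lit 1) (nat_lit 0) (nat_lit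 1) (nat_lit 0) (nat_lit 467) (nat_lit 407) (nat_lit 206))) (XT.nd (nat_lit 94) (nat_lit 0) (nat_lit 0) (XT.lf (nat_lit 0) (nat_lit 4411829687678) (nat_lit 0) (nat_lit 0) (nat_lit 0) (nat_lit 0) (nat_lit 0) (nat_lit 0) (nat_lit 1) (nat_lit 0) (nat_lit 1) (nat_lit 0) (nat_lit 468) (nat_lit 407) (nat_lit 205)) (XT.lf (nat_lit 0) (nat_lit 4761577856109) (nat_lit 0) (nat_lit 0) (nat_lit 0) (nat_lit 0) (nat_lit 0) (nat_lit 0) (nat_lit 1) (nat_lit 0) (nat_lit 1) (nat_lit 0) (nat_lit 469) (nat_lit 407) (nat_lit 204)))))) (XT.nd (nat_lit 658) (nat_lit 0) (nat_lit 0) (XT.nd (nat_lit 282) (nat_lit 0) (nat_lit 0) (XT.nd (nat_lit 94) (nat_lit 0) (nat_lit 0) (XT.lf (nat_lit 0) (nat_lit 5139305878094) (nat_lit 0) (nat_lit 0) (nat_lit 0) (nat_lit 0) (nat_lit 0) (nat_lit 0) (nat_lit 1) (nat_lit 0) (nat_lit 1) (nat_lit 0) (nat_lit 470) (nat_lit 407) (nat_lit 203)) (XT.nd (nat_lit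 94) (nat_lit 0) (nat_lit 0) (XT.lf (nat_lit 0) (nat_lit 5547252141914) (nat_lit 0) (nat_lit 0) (nat_lit 0) (nat_lit 0) (nat_lit 0) (nat_lit 0) (nat_lit 1) (nat_lit 0) (nat_lit 1) (nat_lit 0) (nat_lit 471) (nat_lit 407) (nat_lit 202)) (XT.lf (nat_lit 0) (nat_lit 5987834106908) (nat_lit 0) (nat_lit 0) (nat_lit 0) (nat_lit 0) (nat_lit 0) (nat_lit 0) (nat_lit 1) (nat_lit 0) (nat_lit 1) (nat_lit 0) (nat_lit 472) (nat_lit 407) (nat_lit 201)))) (XT.nd (nat_lit 188) (nat_lit 0) (nat_lit 0) (XT.nd (nat_lit 94) (nat_lit 0) (nat_lit 0) (XT.lf (nat_lit 0) (nat_lit 6463662629166) (nat_lit 0) (nat_lit 0) (nat_lit 0) (nat_lit 0) (nat_lit 0) (nat_lit 0) (nat_lit 1) (nat_lit 0) (nat_lit 1) (nat_lit 0) (nat_lit 473) (nat_lit 407) (nat_lit 200)) (XT.lf (nat_lit 0) (nat_lit 6977557433264) (nat_lit 0) (nat_lit 0) (nat_lit 0) (nat_lit 0) (nat_lit 0) (nat_lit 0) (nat_lit 1) (nat_lit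 0) (nat_lit 1) (nat_lit 0) (nat_lit 474) (nat_lit 407) (nat_lit 199))) (XT.nd (nat_lit 94) (nat_lit 0) (nat_lit 0) (XT.lf (nat_lit 0) (nat_lit 7532563821745) (nat_lit 0) (nat_lit 0) (nat_lit 0) (nat_lit 0) (nat_lit 0) (nat_lit 0) (nat_lit 1) (nat_lit 0) (nat_lit 1) (nat_lit 0) (nat_lit 475) (nat_lit 407) (nat_lit 198)) (XT.lf (nat_lit 0) (nat_lit 8131970721355) (nat_lit 0) (nat_lit 0) (nat_lit 0) (nat_lit 0) (nat_lit 0) (nat_lit 0) (nat_lit 1) (nat_lit 0) (nat_lit 1) (nat_lit 0) (nat_lit 476) (nat_lit 407) (nat_lit 197))))) (XT.nd (nat_lit 376) (nat_lit 0) (nat_lit 0) (XT.nd (nat_lit 188) (nat_lit 0) (nat_lit 0) (XT.nd (nat_lit 94) (nat_lit 0) (nat_lit 0) (XT.lf (nat_lit 0) (nat_lit 8779330172982) (nat_lit 0) (nat_lit 0) (nat_lit 0) (nat_lit 0) (nat_lit 0) (nat_lit 0) (nat_lit 1) (nat_lit 0) (nat_lit 1) (nat_lit 0) (nat_lit 477) (nat_lit 407) (nat_lit 196))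 (XT.lf (nat_lit 0) (nat_lit 9478478380782) (nat_lit 0) (nat_lit 0) (nat_lit 0) (nat_lit 0) (nat_lit 0) (nat_lit 0) (nat_lit 1) (nat_lit 0) (nat_lit 1) (nat_lit 0) (nat_lit 478) (nat_lit 407) (nat_lit 195))) (XT.nd (nat_lit 94) (nat_lit 0) (nat_lit 0) (XT.lf (nat_lit 0) (nat_lit 10233558445246) (nat_lit 0) (nat_lit 0) (nat_lit 0) (nat_lit 0) (nat_lit 0) (nat_lit 0) (nat_lit 1) (nat_lit 0) (nat_lit 1) (nat_lit 0) (nat_lit 479) (nat_lit 407) (nat_lit 194)) (XT.lf (nat_lit 0) (nat_lit 11049044914906) (nat_lit 0) (nat_lit 0) (nat_lit 0) (nat_lit 0) (nat_lit 0) (nat_lit 0) (nat_lit 1) (nat_lit 0) (nat_lit 1) (nat_lit 0) (nat_lit 480) (nat_lit 407) (nat_lit 193)))) (XT.nd (nat_lit 188) (nat_lit 0) (nat_lit 0) (XT.nd (nat_lit 94) (nat_lit 0) (nat_lit 0) (XT.lf (nat_lit 0) (nat_lit 11929770302172) (nat_lit 0) (nat_lit 0) (nat_lit 0) (nat_lit 0) (nat_lit 0) (nat_lit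 0) (nat_lit 1) (nat_lit 0) (nat_lit 1) (nat_lit 0) (nat_lit 481) (nat_lit 407) (nat_lit 192)) (XT.lf (nat_lit 0) (nat_lit 12880953720452) (nat_lit 0) (nat_lit 0) (nat_lit 0) (nat_lit 0) (nat_lit 0) (nat_lit 0) (nat_lit 1) (nat_lit 0) (nat_lit 1) (nat_lit 0) (nat_lit 482) (nat_lit 407) (nat_lit 191))) (XT.nd (nat_lit 94) (nat_lit 0) (nat_lit 0) (XT.lf (nat_lit 0) (nat_lit 13908231812224) (nat_lit 0) (nat_lit 0) (nat_lit 0) (nat_lit 0) (nat_lit 0) (nat_lit 0) (nat_lit 1) (nat_lit 0) (nat_lit 1) (nat_lit 0) (nat_lit 483) (nat_lit 407) (nat_lit 190)) (XT.lf (nat_lit 0) (nat_lit 15017692151366) (nat_lit 0) (nat_lit 0) (nat_lit 0) (nat_lit 0) (nat_lit 0) (nat_lit 0) (nat_lit 1) (nat_lit 0) (nat_lit 1) (nat_lit 0) (nat_lit 484) (nat_lit 407) (nat_lit 189))))))))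
noncomputable def xc188 : XT := (XT.nd (nat_lit 61382) (nat_lit 0) (nat_lit 2688) (XT.nd (nat_lit 1316) (nat_lit 0) (nat_lit 0) (XT.nd (nat_lit 658) (nat_lit 0) (nat_lit 0) (XT.nd (nat_lit 282) (nat_lit 0) (nat_lit 0) (XT.nd (nat_lit 94) (nat_lit 0) (nat_lit 0) (XT.lf (nat_lit 0) (nat_lit 16215909317664) (nat_lit 0) (nat_lit 0) (nat_lit 0) (nat_lit 0) (nat_lit 0) (nat_lit 0) (nat_lit 1) (nat_lit 0) (nat_lit 1) (nat_lit 0) (nat_lit 485) (nat_lit 407) (nat_lit 188)) (XT.nd (nat_lit 94) (nat_lit 0) (nat_lit 0) (XT.lf (nat_lit 0) (nat_lit 17509983857290) (nat_lit 0) (nat_lit 0) (nat_lit 0) (nat_lit 0) (nat_lit 0) (nat_lit 0) (nat_lit 1) (nat_lit 0) (nat_lit 1) (nat_lit 0) (nat_lit 486) (nat_lit 407) (nat_lit 187)) (XT.lf (nat_lit 0) (nat_lit 18907584360107) (nat_lit 0) (nat_lit 0) (nat_lit 0) (nat_lit 0) (nat_lit 0) (nat_lit 0) (nat_lit 1) (nat_lit 0) (nat_lit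 1) (nat_lit 0) (nat_lit 487) (nat_lit 407) (nat_lit 186)))) (XT.nd (nat_lit 188) (nat_lit 0) (nat_lit 0) (XT.nd (nat_lit 94) (nat_lit 0) (nat_lit 0) (XT.lf (nat_lit 0) (nat_lit 20416992903170) (nat_lit 0) (nat_lit 0) (nat_lit 0) (nat_lit 0) (nat_lit 0) (nat_lit 0) (nat_lit 1) (nat_lit 0) (nat_lit 1) (nat_lit 0) (nat_lit 488) (nat_lit 407) (nat_lit 185)) (XT.lf (nat_lit 0) (nat_lit 22047154129697) (nat_lit 0) (nat_lit 0) (nat_lit 0) (nat_lit 0) (nat_lit 0) (nat_lit 0) (nat_lit 1) (nat_lit 0) (nat_lit 1) (nat_lit 0) (nat_lit 489) (nat_lit 407) (nat_lit 184))) (XT.nd (nat_lit 94) (nat_lit 0) (nat_lit 0) (XT.lf (nat_lit 0) (nat_lit 23807728254364) (nat_lit 0) (nat_lit 0) (nat_lit 0) (nat_lit 0) (nat_lit 0) (nat_lit 0) (nat_lit 1) (nat_lit 0) (nat_lit 1) (nat_lit 0) (nat_lit 490) (nat_lit 407) (nat_lit 183)) (XT.lf (nat_lit 0) (nat_lit 25709148309020) (nat_lit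 0) (nat_lit 0) (nat_lit 0) (nat_lit 0) (nat_lit 0) (nat_lit 0) (nat_lit 1) (nat_lit 0) (nat_lit 1) (nat_lit 0) (nat_lit 491) (nat_lit 407) (nat_lit 182))))) (XT.nd (nat_lit 282) (nat_lit 0) (nat_lit 0) (XT.nd (nat_lit 94) (nat_lit 0) (nat_lit 0) (XT.lf (nat_lit 0) (nat_lit 27762681968063) (nat_lit 0) (nat_lit 0) (nat_lit 0) (nat_lit 0) (nat_lit 0) (nat_lit 0) (nat_lit 1) (nat_lit 0) (nat_lit 1) (nat_lit 0) (nat_lit 492) (nat_lit 407) (nat_lit 181)) (XT.nd (nat_lit 94) (nat_lit 0) (nat_lit 0) (XT.lf (nat_lit 0) (nat_lit 29980498319843) (nat_lit 0) (nat_lit 0) (nat_lit 0) (nat_lit 0) (nat_lit 0) (nat_lit 0) (nat_lit 1) (nat_lit 0) (nat_lit 1) (nat_lit 0) (nat_lit 493) (nat_lit 407) (nat_lit 180)) (XT.lf (nat_lit 0) (nat_lit 32375739979779) (nat_lit 0) (nat_lit 0) (nat_lit 0) (nat_lit 0) (nat_lit 0) (nat_lit 0) (nat_lit 1) (nat_lit 0) (nat_lit 1) (nat_lit 0)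 (nat_lit 494) (nat_lit 407) (nat_lit 179)))) (XT.nd (nat_lit 188) (nat_lit 0) (nat_lit 0) (XT.nd (nat_lit 94) (nat_lit 0) (nat_lit 0) (XT.lf (nat_lit 0) (nat_lit 34962600972521) (nat_lit 0) (nat_lit 0) (nat_lit 0) (nat_lit 0) (nat_lit 0) (nat_lit 0) (nat_lit 1) (nat_lit 0) (nat_lit 1) (nat_lit 0) (nat_lit 495) (nat_lit 407) (nat_lit 178)) (XT.lf (nat_lit 0) (nat_lit 37756410844693) (nat_lit 0) (nat_lit 0) (nat_lit 0) (nat_lit 0) (nat_lit 0) (nat_lit 0) (nat_lit 1) (nat_lit 0) (nat_lit 1) (nat_lit 0) (nat_lit 496) (nat_lit 407) (nat_lit 177))) (XT.nd (nat_lit 94) (nat_lit 0) (nat_lit 0) (XT.lf (nat_lit 0) (nat_lit 40773725506650) (nat_lit 0) (nat_lit 0) (nat_lit 0) (nat_lit 0) (nat_lit 0) (nat_lit 0) (nat_lit 1) (nat_lit 0) (nat_lit 1) (nat_lit 0) (nat_lit 497) (nat_lit 407) (nat_lit 176)) (XT.lf (nat_lit 0) (nat_lit 44032425341572) (nat_lit 0) (nat_lit 0)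 (nat_lit 0) (nat_lit 0) (nat_lit 0) (nat_lit 0) (nat_lit 1) (nat_lit 0) (nat_lit 1) (nat_lit 0) (nat_lit 498) (nat_lit 407) (nat_lit 175)))))) (XT.nd (nat_lit 59408) (nat_lit 0) (nat_lit 9744) (XT.nd (nat_lit 282) (nat_lit 0) (nat_lit 0) (XT.nd (nat_lit 94) (nat_lit 0) (nat_lit 0) (XT.lf (nat_lit 0) (nat_lit 47551821163297) (nat_lit 0) (nat_lit 0) (nat_lit 0) (nat_lit 0) (nat_lit 0) (nat_lit 0) (nat_lit 1) (nat_lit 0) (nat_lit 1) (nat_lit 0) (nat_lit 499) (nat_lit 407) (nat_lit 174)) (XT.nd (nat_lit 94) (nat_lit 0) (nat_lit 0) (XT.lf (nat_lit 0) (nat_lit 51352768650768) (nat_lit 0) (nat_lit 0) (nat_lit 0) (nat_lit 0) (nat_lit 0) (nat_lit 0) (nat_lit 1) (nat_lit 0) (nat_lit 1) (nat_lit 0) (nat_lit 500) (nat_lit 407) (nat_lit 173)) (XT.lf (nat_lit 0) (nat_lit 55457791937244) (nat_lit 0) (nat_lit 0) (nat_lit 0) (nat_lit 0) (nat_lit 0) (nat_lit 0) (nat_lit 1)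 (nat_lit 0) (nat_lit 1) (nat_lit 0) (nat_lit 501) (nat_lit 407) (nat_lit 172)))) (XT.nd (nat_lit 58938) (nat_lit 0) (nat_lit 10752) (XT.nd (nat_lit 94) (nat_lit 0) (nat_lit 0) (XT.lf (nat_lit 0) (nat_lit 59891217086645) (nat_lit 0) (nat_lit 0) (nat_lit 0) (nat_lit 0) (nat_lit 0) (nat_lit 0) (nat_lit 1) (nat_lit 0) (nat_lit 1) (nat_lit 0) (nat_lit 502) (nat_lit 407) (nat_lit 171)) (XT.lf (nat_lit 0) (nat_lit 64679316248004) (nat_lit 0) (nat_lit 0) (nat_lit 0) (nat_lit 0) (nat_lit 0) (nat_lit 0) (nat_lit 1) (nat_lit 0) (nat_lit 1) (nat_lit 0) (nat_lit 503) (nat_lit 407) (nat_lit 170))) (XT.nd (nat_lit 94) (nat_lit 0) (nat_lit 84) (XT.lf (nat_lit 0) (nat_lit 38346105583) (nat_lit 924) (nat_lit 21615528040) (nat_lit 924) (nat_lit 21615528040) (nat_lit 128) (nat_lit 3) (nat_lit 139) (nat_lit 3) (nat_lit 139) (nat_lit 5) (nat_lit 408) (nat_lit 408) (nat_lit 264))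 (XT.lf (nat_lit 0) (nat_lit 81312269456) (nat_lit 840) (nat_lit 79571888156) (nat_lit 924) (nat_lit 8718720158) (nat_lit 129) (nat_lit 5) (nat_lit 139) (nat_lit 5) (nat_lit 140) (nat_lit 5) (nat_lit 409) (nat_lit 408) (nat_lit 263))))) (XT.nd (nat_lit 282) (nat_lit 1092) (nat_lit 0) (XT.nd (nat_lit 94) (nat_lit 0) (nat_lit 84) (XT.lf (nat_lit 84) (nat_lit 58815878839) (nat_lit 0) (nat_lit 31191480893) (nat_lit 924) (nat_lit 86374685468) (nat_lit 130) (nat_lit 5) (nat_lit 129) (nat_lit 5) (nat_lit 140) (nat_lit 5) (nat_lit 410) (nat_lit 408) (nat_lit 262)) (XT.nd (nat_lit 94) (nat_lit 0) (nat_lit 84) (XT.lf (nat_lit 84) (nat_lit 26610793538) (nat_lit 0) (nat_lit 76311061455) (nat_lit 924) (nat_lit 80605501143) (nat_lit 131) (nat_lit 5) (nat_lit 130) (nat_lit 5) (nat_lit 141) (nat_lit 5) (nat_lit 411) (nat_lit 408) (nat_lit 261)) (XT.lf (nat_lit 0) (nat_lit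 120473475159) (nat_lit 840) (nat_lit 6178350030) (nat_lit 924) (nat_lit 64412268494) (nat_lit 131) (nat_lit 5) (nat_lit 141) (nat_lit 5) (nat_lit 142) (nat_lit 5) (nat_lit 412) (nat_lit 408) (nat_lit 260)))) (XT.nd (nat_lit 188) (nat_lit 1344) (nat_lit 0) (XT.nd (nat_lit 94) (nat_lit 0) (nat_lit 0) (XT.lf (nat_lit 0) (nat_lit 143490290004) (nat_lit 840) (nat_lit 38815529795) (nat_lit 924) (nat_lit 16694897182) (nat_lit 132) (nat_lit 5) (nat_lit 142) (nat_lit 5) (nat_lit 143) (nat_lit 5) (nat_lit 413) (nat_lit 408) (nat_lit 259)) (XT.lf (nat_lit 84) (nat_lit 134684718493) (nat_lit 0) (nat_lit 38011220680) (nat_lit 924) (nat_lit 34658956512) (nat_lit 133) (nat_lit 5) (nat_lit 132) (nat_lit 5) (nat_lit 143) (nat_lit 5) (nat_lit 414) (nat_lit 408) (nat_lit 258))) (XT.nd (nat_lit 94) (nat_lit 588) (nat_lit 0) (XT.lf (nat_lit 0) (nat_lit 108736801299) (nat_lit 840)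 (nat_lit 99725493036) (nat_lit 924) (nat_lit 7703901648) (nat_lit 123) (nat_lit 5) (nat_lit 133) (nat_lit 5) (nat_lit 134) (nat_lit 5) (nat_lit 415) (nat_lit 408) (nat_lit 257)) (XT.lf (nat_lit 0) (nat_lit 24876919333) (nat_lit 588) (nat_lit 143128650470) (nat_lit 84) (nat_lit 57452392041) (nat_lit 116) (nat_lit 5) (nat_lit 123) (nat_lit 5) (nat_lit 117) (nat_lit 5) (nat_lit 416) (nat_lit 408) (nat_lit 256))))))) (XT.nd (nat_lit 1316) (nat_lit 2856) (nat_lit 0) (XT.nd (nat_lit 658) (nat_lit 1932) (nat_lit 0) (XT.nd (nat_lit 282) (nat_lit 1092) (nat_lit 0) (XT.nd (nat_lit 94) (nat_lit 756) (nat_lit 0) (XT.lf (nat_lit 0) (nat_lit 55644068054) (nat_lit 420) (nat_lit 8605942505) (nat_lit 504) (nat_lit 171013958153) (nat_lit 111) (nat_lit 5) (nat_lit 116) (nat_lit 5) (nat_lit 117) (nat_lit 5) (nat_lit 417) (nat_lit 408) (nat_lit 255)) (XT.nd (nat_lit 94) (nat_lit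 336) (nat_lit 0) (XT.lf (nat_lit 0) (nat_lit 28001595636) (nat_lit 420) (nat_lit 84295798908) (nat_lit 504) (nat_lit 133280839312) (nat_lit 106) (nat_lit 5) (nat_lit 111) (nat_lit 5) (nat_lit 112) (nat_lit 5) (nat_lit 418) (nat_lit 408) (nat_lit 254)) (XT.lf (nat_lit 0) (nat_lit 538673879) (nat_lit 336) (nat_lit 168351068281) (nat_lit 420) (nat_lit 87592839407) (nat_lit 102) (nat_lit 5) (nat_lit 106) (nat_lit 5) (nat_lit 107) (nat_lit 5) (nat_lit 419) (nat_lit 408) (nat_lit 253)))) (XT.nd (nat_lit 188) (nat_lit 672) (nat_lit 0) (XT.nd (nat_lit 94) (nat_lit 420) (nat_lit 0) (XT.lf (nat_lit 0) (nat_lit 235310290334) (nat_lit 420) (nat_lit 25708178325) (nat_lit 84) (nat_lit 6975767796) (nat_lit 102) (nat_lit 5) (nat_lit 107) (nat_lit 5) (nat_lit 103) (nat_lit 5) (nat_lit 420) (nat_lit 408) (nat_lit 252)) (XT.lf (nat_lit 0) (nat_lit 32259100835) (nat_lit 420)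 (nat_lit 53242469376) (nat_lit 84) (nat_lit 194579806037) (nat_lit 97) (nat_lit 5) (nat_lit 102) (nat_lit 5) (nat_lit 98) (nat_lit 5) (nat_lit 421) (nat_lit 408) (nat_lit 251))) (XT.nd (nat_lit 94) (nat_lit 336) (nat_lit 0) (XT.lf (nat_lit 0) (nat_lit 106754663731) (nat_lit 420) (nat_lit 80939223012) (nat_lit 84) (nat_lit 105139702439) (nat_lit 93) (nat_lit 5) (nat_lit 98) (nat_lit 5) (nat_lit 94) (nat_lit 5) (nat_lit 422) (nat_lit 408) (nat_lit 250)) (XT.lf (nat_lit 0) (nat_lit 192783228182) (nat_lit 420) (nat_lit 107942912188) (nat_lit 84) (nat_lit 5601170954) (nat_lit 89) (nat_lit 5) (nat_lit 94) (nat_lit 5) (nat_lit 90) (nat_lit 5) (nat_lit 423) (nat_lit 408) (nat_lit 249))))) (XT.nd (nat_lit 282) (nat_lit 1008) (nat_lit 0) (XT.nd (nat_lit 94) (nat_lit 672) (nat_lit 0) (XT.lf (nat_lit 0) (nat_lit 184842102859) (nat_lit 252) (nat_lit 108335602233) (nat_lit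 336) (nat_lit 27348644781) (nat_lit 86) (nat_lit 5) (nat_lit 89) (nat_lit 5) (nat_lit 90) (nat_lit 5) (nat_lit 424) (nat_lit 408) (nat_lit 248)) (XT.nd (nat_lit 94) (nat_lit 252) (nat_lit 0) (XT.lf (nat_lit 0) (nat_lit 69905422196) (nat_lit 420) (nat_lit 163586876151) (nat_lit 84) (nat_lit 102004333890) (nat_lit 81) (nat_lit 5) (nat_lit 86) (nat_lit 5) (nat_lit 82) (nat_lit 5) (nat_lit 425) (nat_lit 408) (nat_lit 247)) (XT.lf (nat_lit 0) (nat_lit 160211078105) (nat_lit 252) (nat_lit 20513594946) (nat_lit 336) (nat_lit 170580296126) (nat_lit 78) (nat_lit 5) (nat_lit 81) (nat_lit 5) (nat_lit 82) (nat_lit 5) (nat_lit 426) (nat_lit 408) (nat_lit 246)))) (XT.nd (nat_lit 188) (nat_lit 420) (nat_lit 0) (XT.nd (nat_lit 94) (nat_lit 336) (nat_lit 0) (XT.lf (nat_lit 0) (nat_lit 148969098028) (nat_lit 252) (nat_lit 159933279030) (nat_lit 336) (nat_lit 59050950360) (nat_lit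 75) (nat_lit 5) (nat_lit 78) (nat_lit 5) (nat_lit 79) (nat_lit 5) (nat_lit 427) (nat_lit 408) (nat_lit 245)) (XT.lf (nat_lit 0) (nat_lit 66529179744) (nat_lit 336) (nat_lit 246332411280) (nat_lit 84) (nat_lit 72669349215) (nat_lit 71) (nat_lit 5) (nat_lit 75) (nat_lit 5) (nat_lit 72) (nat_lit 5) (nat_lit 428) (nat_lit 408) (nat_lit 244))) (XT.nd (nat_lit 94) (nat_lit 168) (nat_lit 0) (XT.lf (nat_lit 0) (nat_lit 129935267065) (nat_lit 252) (nat_lit 78781644409) (nat_lit 336) (nat_lit 195317945749) (nat_lit 68) (nat_lit 5) (nat_lit 71) (nat_lit 5) (nat_lit 72) (nat_lit 5) (nat_lit 429) (nat_lit 408) (nat_lit 243)) (XT.lf (nat_lit 0) (nat_lit 122427155632) (nat_lit 168) (nat_lit 248842122698) (nat_lit 252) (nat_lit 52300328407) (nat_lit 66) (nat_lit 5) (nat_lit 68) (nat_lit 5) (nat_lit 69) (nat_lit 5) (nat_lit 430) (nat_lit 408) (nat_lit 242)))))) (XT.nd (nat_lit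 658) (nat_lit 1344) (nat_lit 0) (XT.nd (nat_lit 282) (nat_lit 756) (nat_lit 0) (XT.nd (nat_lit 94) (nat_lit 420) (nat_lit 0) (XT.lf (nat_lit 0) (nat_lit 107047524255) (nat_lit 336) (nat_lit 327570186398) (nat_lit 84) (nat_lit 9561749267) (nat_lit 62) (nat_lit 5) (nat_lit 66) (nat_lit 5) (nat_lit 63) (nat_lit 5) (nat_lit 431) (nat_lit 408) (nat_lit 241)) (XT.nd (nat_lit 94) (nat_lit 252) (nat_lit 0) (XT.lf (nat_lit 0) (nat_lit 110739380785) (nat_lit 168) (nat_lit 177852445938) (nat_lit 252) (nat_lit 177239356996) (nat_lit 60) (nat_lit 5) (nat_lit 62) (nat_lit 5) (nat_lit 63) (nat_lit 5) (nat_lit 432) (nat_lit 408) (nat_lit 240)) (XT.lf (nat_lit 0) (nat_lit 4788370251) (nat_lit 252) (nat_lit 380125337956) (nat_lit 84) (nat_lit 103844996224) (nat_lit 57) (nat_lit 5) (nat_lit 60) (nat_lit 5) (nat_lit 58) (nat_lit 5) (nat_lit 433) (nat_lit 408) (nat_lit 239))))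 (XT.nd (nat_lit 188) (nat_lit 420) (nat_lit 0) (XT.nd (nat_lit 94) (nat_lit 168) (nat_lit 0) (XT.lf (nat_lit 0) (nat_lit 106236776746) (nat_lit 168) (nat_lit 99959288258) (nat_lit 252) (nat_lit 306627715983) (nat_lit 55) (nat_lit 5) (nat_lit 57) (nat_lit 5) (nat_lit 58) (nat_lit 5) (nat_lit 434) (nat_lit 408) (nat_lit 238)) (XT.lf (nat_lit 0) (nat_lit 106659879938) (nat_lit 168) (nat_lit 328695949255) (nat_lit 252) (nat_lit 102876261783) (nat_lit 53) (nat_lit 5) (nat_lit 55) (nat_lit 5) (nat_lit 56) (nat_lit 5) (nat_lit 435) (nat_lit 408) (nat_lit 237))) (XT.nd (nat_lit 94) (nat_lit 168) (nat_lit 0) (XT.lf (nat_lit 0) (nat_lit 110058002068) (nat_lit 168) (nat_lit 13969266846) (nat_lit 252) (nat_lit 441024210011) (nat_lit 50) (nat_lit 5) (nat_lit 52) (nat_lit 5) (nat_lit 53) (nat_lit 5) (nat_lit 436) (nat_lit 408) (nat_lit 236)) (XT.lf (nat_lit 0) (nat_lit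 113474440565) (nat_lit 168) (nat_lit 266553821916) (nat_lit 252) (nat_lit 213176357448) (nat_lit 48) (nat_lit 5) (nat_lit 50) (nat_lit 5) (nat_lit 51) (nat_lit 5) (nat_lit 437) (nat_lit 408) (nat_lit 235))))) (XT.nd (nat_lit 376) (nat_lit 672) (nat_lit 0) (XT.nd (nat_lit 188) (nat_lit 336) (nat_lit 0) (XT.nd (nat_lit 94) (nat_lit 168) (nat_lit 0) (XT.lf (nat_lit 0) (nat_lit 43337889472) (nat_lit 168) (nat_lit 500817078275) (nat_lit 84) (nat_lit 78854784438) (nat_lit 46) (nat_lit 5) (nat_lit 48) (nat_lit 5) (nat_lit 47) (nat_lit 5) (nat_lit 438) (nat_lit 408) (nat_lit 234)) (XT.lf (nat_lit 0) (nat_lit 130571733957) (nat_lit 168) (nat_lit 197459400250) (nat_lit 252) (nat_lit 326237100136) (nat_lit 44) (nat_lit 5) (nat_lit 46) (nat_lit 5) (nat_lit 47) (nat_lit 5) (nat_lit 439) (nat_lit 408) (nat_lit 233))) (XT.nd (nat_lit 94) (nat_lit 252) (nat_lit 0) (XT.lf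 (nat_lit 0) (nat_lit 144482620428) (nat_lit 84) (nat_lit 504902863362) (nat_lit 168) (nat_lit 37947629018) (nat_lit 43) (nat_lit 5) (nat_lit 44) (nat_lit 5) (nat_lit 45) (nat_lit 4) (nat_lit 440) (nat_lit 408) (nat_lit 232)) (XT.lf (nat_lit 0) (nat_lit 159590082771) (nat_lit 168) (nat_lit 120157345859) (nat_lit 252) (nat_lit 442327667195) (nat_lit 40) (nat_lit 5) (nat_lit 42) (nat_lit 5) (nat_lit 43) (nat_lit 5) (nat_lit 441) (nat_lit 408) (nat_lit 231)))) (XT.nd (nat_lit 188) (nat_lit 336) (nat_lit 0) (XT.nd (nat_lit 94) (nat_lit 252) (nat_lit 0) (XT.lf (nat_lit 0) (nat_lit 178803569486) (nat_lit 84) (nat_lit 459756983902) (nat_lit 168) (nat_lit 120153181352) (nat_lit 39) (nat_lit 5) (nat_lit 40) (nat_lit 5) (nat_lit 41) (nat_lit 4) (nat_lit 442) (nat_lit 408) (nat_lit 230)) (XT.lf (nat_lit 0) (nat_lit 202423286539) (nat_lit 168) (nat_lit 33226247307) (nat_lit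 252) (nat_lit 561698847724) (nat_lit 36) (nat_lit 5) (nat_lit 38) (nat_lit 5) (nat_lit 39) (nat_lit 5) (nat_lit 443) (nat_lit 408) (nat_lit 229))) (XT.nd (nat_lit 94) (nat_lit 252) (nat_lit 0) (XT.lf (nat_lit 0) (nat_lit 227912656995) (nat_lit 84) (nat_lit 408349380616) (nat_lit 168) (nat_lit 201685518642) (nat_lit 35) (nat_lit 5) (nat_lit 36) (nat_lit 5) (nat_lit 37) (nat_lit 4) (nat_lit 444) (nat_lit 408) (nat_lit 228)) (XT.lf (nat_lit 0) (nat_lit 197325749042) (nat_lit 252) (nat_lit 620648497236) (nat_lit 84) (nat_lit 62865030076) (nat_lit 32) (nat_lit 5) (nat_lit 35) (nat_lit 5) (nat_lit 33) (nat_lit 4) (nat_lit 445) (nat_lit 408) (nat_lit 227))))))))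
noncomputable def xc189 : XT := (XT.nd (nat_lit 2632) (nat_lit 0) (nat_lit 0) (XT.nd (nat_lit 1316) (nat_lit 840) (nat_lit 0) (XT.nd (nat_lit 658) (nat_lit 924) (nat_lit 0) (XT.nd (nat_lit 282) (nat_lit 504) (nat_lit 0) (XT.nd (nat_lit 94) (nat_lit 336) (nat_lit 0) (XT.lf (nat_lit 0) (nat_lit 294141371399) (nat_lit 84) (nat_lit 349423370990) (nat_lit 168) (nat_lit 282313630556) (nat_lit 31) (nat_lit 5) (nat_lit 32) (nat_lit 5) (nat_lit 33) (nat_lit 4) (nat_lit 446) (nat_lit 408) (nat_lit 226)) (XT.nd (nat_lit 94) (nat_lit 84) (nat_lit 0) (XT.lf (nat_lit 0) (nat_lit 165175437151) (nat_lit 252) (nat_lit 637739318801) (nat_lit 84) (nat_lit 170536700785) (nat_lit 28) (nat_lit 5) (nat_lit 31) (nat_lit 5) (nat_lit 29) (nat_lit 4) (nat_lit 447) (nat_lit 408) (nat_lit 225)) (XT.lf (nat_lit 0) (nat_lit 380171257875) (nat_lit 84) (nat_lit 281545950972) (nat_lit 168)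 (nat_lit 361724550120) (nat_lit 27) (nat_lit 5) (nat_lit 28) (nat_lit 5) (nat_lit 29) (nat_lit 4) (nat_lit 448) (nat_lit 408) (nat_lit 224)))) (XT.nd (nat_lit 188) (nat_lit 252) (nat_lit 0) (XT.nd (nat_lit 94) (nat_lit 84) (nat_lit 0) (XT.lf (nat_lit 0) (nat_lit 139535303441) (nat_lit 168) (nat_lit 643808886484) (nat_lit 84) (nat_lit 292850855846) (nat_lit 25) (nat_lit 5) (nat_lit 27) (nat_lit 5) (nat_lit 26) (nat_lit 4) (nat_lit 449) (nat_lit 408) (nat_lit 223)) (XT.lf (nat_lit 0) (nat_lit 489081129417) (nat_lit 84) (nat_lit 203083472099) (nat_lit 168) (nat_lit 439510412348) (nat_lit 24) (nat_lit 5) (nat_lit 25) (nat_lit 5) (nat_lit 26) (nat_lit 4) (nat_lit 450) (nat_lit 408) (nat_lit 222))) (XT.nd (nat_lit 94) (nat_lit 84) (nat_lit 0) (XT.lf (nat_lit 0) (nat_lit 121416242791) (nat_lit 168) (nat_lit 636674174182) (nat_lit 84) (nat_lit 432070762865) (nat_lit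 22) (nat_lit 5) (nat_lit 24) (nat_lit 5) (nat_lit 23) (nat_lit 4) (nat_lit 451) (nat_lit 408) (nat_lit 221)) (XT.lf (nat_lit 0) (nat_lit 624400419980) (nat_lit 84) (nat_lit 112174179411) (nat_lit 168) (nat_lit 515153591615) (nat_lit 21) (nat_lit 5) (nat_lit 22) (nat_lit 5) (nat_lit 23) (nat_lit 4) (nat_lit 452) (nat_lit 408) (nat_lit 220))))) (XT.nd (nat_lit 282) (nat_lit 504) (nat_lit 0) (XT.nd (nat_lit 94) (nat_lit 252) (nat_lit 0) (XT.lf (nat_lit 0) (nat_lit 112006257654) (nat_lit 168) (nat_lit 613794355532) (nat_lit 84) (nat_lit 590758925639) (nat_lit 19) (nat_lit 5) (nat_lit 21) (nat_lit 5) (nat_lit 20) (nat_lit 4) (nat_lit 453) (nat_lit 408) (nat_lit 219)) (XT.nd (nat_lit 94) (nat_lit 168) (nat_lit 0) (XT.lf (nat_lit 0) (nat_lit 790169451430) (nat_lit 84) (nat_lit 6697214549) (nat_lit 168) (nat_lit 588009659271) (nat_lit 18) (nat_lit 5) (nat_lit 19)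 (nat_lit 5) (nat_lit 20) (nat_lit 4) (nat_lit 454) (nat_lit 408) (nat_lit 218)) (XT.lf (nat_lit 0) (nat_lit 112695072958) (nat_lit 168) (nat_lit 572220092530) (nat_lit 84) (nat_lit 771816033185) (nat_lit 16) (nat_lit 5) (nat_lit 18) (nat_lit 5) (nat_lit 17) (nat_lit 4) (nat_lit 455) (nat_lit 408) (nat_lit 217)))) (XT.nd (nat_lit 188) (nat_lit 252) (nat_lit 0) (XT.nd (nat_lit 94) (nat_lit 168) (nat_lit 0) (XT.lf (nat_lit 0) (nat_lit 877052495708) (nat_lit 168) (nat_lit 543332884095) (nat_lit 0) (nat_lit 112057241731) (nat_lit 15) (nat_lit 5) (nat_lit 17) (nat_lit 4) (nat_lit 15) (nat_lit 4) (nat_lit 456) (nat_lit 408) (nat_lit 216)) (XT.lf (nat_lit 0) (nat_lit 125102070584) (nat_lit 168) (nat_lit 508536030953) (nat_lit 84) (nat_lit 978524779543) (nat_lit 13) (nat_lit 5) (nat_lit 15) (nat_lit 5) (nat_lit 14) (nat_lit 4) (nat_lit 457) (nat_lit 408) (nat_lit 215)))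 (XT.nd (nat_lit 94) (nat_lit 168) (nat_lit 0) (XT.lf (nat_lit 0) (nat_lit 978263856571) (nat_lit 168) (nat_lit 468103196964) (nat_lit 0) (nat_lit 249696908265) (nat_lit 12) (nat_lit 5) (nat_lit 14) (nat_lit 4) (nat_lit 12) (nat_lit 4) (nat_lit 458) (nat_lit 408) (nat_lit 214)) (XT.lf (nat_lit 0) (nat_lit 151107968137) (nat_lit 168) (nat_lit 418795631322) (nat_lit 84) (nat_lit 1214599152849) (nat_lit 10) (nat_lit 5) (nat_lit 12) (nat_lit 5) (nat_lit 11) (nat_lit 4) (nat_lit 459) (nat_lit 408) (nat_lit 213)))))) (XT.nd (nat_lit 658) (nat_lit 0) (nat_lit 0) (XT.nd (nat_lit 282) (nat_lit 504) (nat_lit 0) (XT.nd (nat_lit 94) (nat_lit 252) (nat_lit 0) (XT.lf (nat_lit 0) (nat_lit 1103335882368) (nat_lit 168) (nat_lit 364682066435) (nat_lit 0) (nat_lit 409462565804) (nat_lit 9) (nat_lit 5) (nat_lit 11) (nat_lit 4) (nat_lit 9) (nat_lit 4) (nat_lit 460) (nat_lit 408)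 (nat_lit 212)) (XT.nd (nat_lit 94) (nat_lit 84) (nat_lit 0) (XT.lf (nat_lit 0) (nat_lit 192890719849) (nat_lit 168) (nat_lit 298447355322) (nat_lit 84) (nat_lit 1484239864433) (nat_lit 7) (nat_lit 5) (nat_lit 9) (nat_lit 5) (nat_lit 8) (nat_lit 4) (nat_lit 461) (nat_lit 408) (nat_lit 211)) (XT.lf (nat_lit 0) (nat_lit 1255626876542) (nat_lit 168) (nat_lit 228193605637) (nat_lit 0) (nat_lit 594795119976) (nat_lit 6) (nat_lit 5) (nat_lit 8) (nat_lit 4) (nat_lit 6) (nat_lit 4) (nat_lit 462) (nat_lit 408) (nat_lit 210)))) (XT.nd (nat_lit 188) (nat_lit 252) (nat_lit 0) (XT.nd (nat_lit 94) (nat_lit 84) (nat_lit 0) (XT.lf (nat_lit 0) (nat_lit 252966177002) (nat_lit 168) (nat_lit 142251105511) (nat_lit 84) (nat_lit 1792196669587) (nat_lit 4) (nat_lit 5) (nat_lit 6) (nat_lit 5) (nat_lit 5) (nat_lit 4) (nat_lit 463) (nat_lit 408) (nat_lit 209)) (XT.lf (nat_lit 0) (nat_lit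 1438968272596) (nat_lit 168) (nat_lit 53028427410) (nat_lit 0) (nat_lit 809604673272) (nat_lit 3) (nat_lit 5) (nat_lit 5) (nat_lit 4) (nat_lit 3) (nat_lit 4) (nat_lit 464) (nat_lit 408) (nat_lit 208))) (XT.nd (nat_lit 94) (nat_lit 0) (nat_lit 0) (XT.lf (nat_lit 0) (nat_lit 3513692941840) (nat_lit 0) (nat_lit 0) (nat_lit 0) (nat_lit 0) (nat_lit 0) (nat_lit 0) (nat_lit 1) (nat_lit 0) (nat_lit 1) (nat_lit 0) (nat_lit 465) (nat_lit 408) (nat_lit 207)) (XT.lf (nat_lit 0) (nat_lit 3791334313982) (nat_lit 0) (nat_lit 0) (nat_lit 0) (nat_lit 0) (nat_lit 0) (nat_lit 0) (nat_lit 1) (nat_lit 0) (nat_lit 1) (nat_lit 0) (nat_lit 466) (nat_lit 408) (nat_lit 206))))) (XT.nd (nat_lit 282) (nat_lit 0) (nat_lit 0) (XT.nd (nat_lit 94) (nat_lit 0) (nat_lit 0) (XT.lf (nat_lit 0) (nat_lit 4091186995990) (nat_lit 0) (nat_lit 0) (nat_lit 0) (nat_lit 0) (nat_lit 0) (nat_lit 0) (nat_lit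 1) (nat_lit 0) (nat_lit 1) (nat_lit 0) (nat_lit 467) (nat_lit 408) (nat_lit 205)) (XT.nd (nat_lit 94) (nat_lit 0) (nat_lit 0) (XT.lf (nat_lit 0) (nat_lit 4415027892646) (nat_lit 0) (nat_lit 0) (nat_lit 0) (nat_lit 0) (nat_lit 0) (nat_lit 0) (nat_lit 1) (nat_lit 0) (nat_lit 1) (nat_lit 0) (nat_lit 468) (nat_lit 408) (nat_lit 204)) (XT.lf (nat_lit 0) (nat_lit 4764776061116) (nat_lit 0) (nat_lit 0) (nat_lit 0) (nat_lit 0) (nat_lit 0) (nat_lit 0) (nat_lit 1) (nat_lit 0) (nat_lit 1) (nat_lit 0) (nat_lit 469) (nat_lit 408) (nat_lit 203)))) (XT.nd (nat_lit 188) (nat_lit 0) (nat_lit 0) (XT.nd (nat_lit 94) (nat_lit 0) (nat_lit 0) (XT.lf (nat_lit 0) (nat_lit 5142504083137) (nat_lit 0) (nat_lit 0) (nat_lit 0) (nat_lit 0) (nat_lit 0) (nat_lit 0) (nat_lit 1) (nat_lit 0) (nat_lit 1) (nat_lit 0) (nat_lit 470) (nat_lit 408) (nat_lit 202)) (XT.lf (nat_lit 0) (nat_lit 5550450346990)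 (nat_lit 0) (nat_lit 0) (nat_lit 0) (nat_lit 0) (nat_lit 0) (nat_lit 0) (nat_lit 1) (nat_lit 0) (nat_lit 1) (nat_lit 0) (nat_lit 471) (nat_lit 408) (nat_lit 201))) (XT.nd (nat_lit 94) (nat_lit 0) (nat_lit 0) (XT.lf (nat_lit 0) (nat_lit 5991032312015) (nat_lit 0) (nat_lit 0) (nat_lit 0) (nat_lit 0) (nat_lit 0) (nat_lit 0) (nat_lit 1) (nat_lit 0) (nat_lit 1) (nat_lit 0) (nat_lit 472) (nat_lit 408) (nat_lit 200)) (XT.lf (nat_lit 0) (nat_lit 6466860834302) (nat_lit 0) (nat_lit 0) (nat_lit 0) (nat_lit 0) (nat_lit 0) (nat_lit 0) (nat_lit 1) (nat_lit 0) (nat_lit 1) (nat_lit 0) (nat_lit 473) (nat_lit 408) (nat_lit 199))))))) (XT.nd (nat_lit 1316) (nat_lit 0) (nat_lit 0) (XT.nd (nat_lit 658) (nat_lit 0) (nat_lit 0) (XT.nd (nat_lit 282) (nat_lit 0) (nat_lit 0) (XT.nd (nat_lit 94) (nat_lit 0) (nat_lit 0) (XT.lf (nat_lit 0) (nat_lit 6980755638426) (nat_lit 0) (nat_lit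 0) (nat_lit 0) (nat_lit 0) (nat_lit 0) (nat_lit 0) (nat_lit 1) (nat_lit 0) (nat_lit 1) (nat_lit 0) (nat_lit 474) (nat_lit 408) (nat_lit 198)) (XT.nd (nat_lit 94) (nat_lit 0) (nat_lit 0) (XT.lf (nat_lit 0) (nat_lit 7535762026932) (nat_lit 0) (nat_lit 0) (nat_lit 0) (nat_lit 0) (nat_lit 0) (nat_lit 0) (nat_lit 1) (nat_lit 0) (nat_lit 1) (nat_lit 0) (nat_lit 475) (nat_lit 408) (nat_lit 197)) (XT.lf (nat_lit 0) (nat_lit 8135168926565) (nat_lit 0) (nat_lit 0) (nat_lit 0) (nat_lit 0) (nat_lit 0) (nat_lit 0) (nat_lit 1) (nat_lit 0) (nat_lit 1) (nat_lit 0) (nat_lit 476) (nat_lit 408) (nat_lit 196)))) (XT.nd (nat_lit 188) (nat_lit 0) (nat_lit 0) (XT.nd (nat_lit 94) (nat_lit 0) (nat_lit 0) (XT.lf (nat_lit 0) (nat_lit 8782528378212) (nat_lit 0) (nat_lit 0) (nat_lit 0) (nat_lit 0) (nat_lit 0) (nat_lit 0) (nat_lit 1) (nat_lit 0) (nat_lit 1) (nat_lit 0) (nat_lit 477) (nat_lit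 408) (nat_lit 195)) (XT.lf (nat_lit 0) (nat_lit 9481676586031) (nat_lit 0) (nat_lit 0) (nat_lit 0) (nat_lit 0) (nat_lit 0) (nat_lit 0) (nat_lit 1) (nat_lit 0) (nat_lit 1) (nat_lit 0) (nat_lit 478) (nat_lit 408) (nat_lit 194))) (XT.nd (nat_lit 94) (nat_lit 0) (nat_lit 0) (XT.lf (nat_lit 0) (nat_lit 10236756650514) (nat_lit 0) (nat_lit 0) (nat_lit 0) (nat_lit 0) (nat_lit 0) (nat_lit 0) (nat_lit 1) (nat_lit 0) (nat_lit 1) (nat_lit 0) (nat_lit 479) (nat_lit 408) (nat_lit 193)) (XT.lf (nat_lit 0) (nat_lit 11052243120190) (nat_lit 0) (nat_lit 0) (nat_lit 0) (nat_lit 0) (nat_lit 0) (nat_lit 0) (nat_lit 1) (nat_lit 0) (nat_lit 1) (nat_lit 0) (nat_lit 480) (nat_lit 408) (nat_lit 192))))) (XT.nd (nat_lit 282) (nat_lit 0) (nat_lit 0) (XT.nd (nat_lit 94) (nat_lit 0) (nat_lit 0) (XT.lf (nat_lit 0) (nat_lit 11932968507472) (nat_lit 0) (nat_lit 0) (nat_lit 0) (nat_lit 0)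 (nat_lit 0) (nat_lit 0) (nat_lit 1) (nat_lit 0) (nat_lit 1) (nat_lit 0) (nat_lit 481) (nat_lit 408) (nat_lit 191)) (XT.nd (nat_lit 94) (nat_lit 0) (nat_lit 0) (XT.lf (nat_lit 0) (nat_lit 12884151925766) (nat_lit 0) (nat_lit 0) (nat_lit 0) (nat_lit 0) (nat_lit 0) (nat_lit 0) (nat_lit 1) (nat_lit 0) (nat_lit 1) (nat_lit 0) (nat_lit 482) (nat_lit 408) (nat_lit 190)) (XT.lf (nat_lit 0) (nat_lit 13911430017551) (nat_lit 0) (nat_lit 0) (nat_lit 0) (nat_lit 0) (nat_lit 0) (nat_lit 0) (nat_lit 1) (nat_lit 0) (nat_lit 1) (nat_lit 0) (nat_lit 483) (nat_lit 408) (nat_lit 189)))) (XT.nd (nat_lit 188) (nat_lit 0) (nat_lit 0) (XT.nd (nat_lit 94) (nat_lit 0) (nat_lit 0) (XT.lf (nat_lit 0) (nat_lit 15020890356705) (nat_lit 0) (nat_lit 0) (nat_lit 0) (nat_lit 0) (nat_lit 0) (nat_lit 0) (nat_lit 1) (nat_lit 0) (nat_lit 1) (nat_lit 0) (nat_lit 484) (nat_lit 408) (nat_lit 188))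 (XT.lf (nat_lit 0) (nat_lit 16219107523015) (nat_lit 0) (nat_lit 0) (nat_lit 0) (nat_lit 0) (nat_lit 0) (nat_lit 0) (nat_lit 1) (nat_lit 0) (nat_lit 1) (nat_lit 0) (nat_lit 485) (nat_lit 408) (nat_lit 187))) (XT.nd (nat_lit 94) (nat_lit 0) (nat_lit 0) (XT.lf (nat_lit 0) (nat_lit 17513182062651) (nat_lit 0) (nat_lit 0) (nat_lit 0) (nat_lit 0) (nat_lit 0) (nat_lit 0) (nat_lit 1) (nat_lit 0) (nat_lit 1) (nat_lit 0) (nat_lit 486) (nat_lit 408) (nat_lit 186)) (XT.lf (nat_lit 0) (nat_lit 18910782565478) (nat_lit 0) (nat_lit 0) (nat_lit 0) (nat_lit 0) (nat_lit 0) (nat_lit 0) (nat_lit 1) (nat_lit 0) (nat_lit 1) (nat_lit 0) (nat_lit 487) (nat_lit 408) (nat_lit 185)))))) (XT.nd (nat_lit 658) (nat_lit 0) (nat_lit 0) (XT.nd (nat_lit 282) (nat_lit 0) (nat_lit 0) (XT.nd (nat_lit 94) (nat_lit 0) (nat_lit 0) (XT.lf (nat_lit 0) (nat_lit 20420191108550) (nat_lit 0) (nat_lit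 0) (nat_lit 0) (nat_lit 0) (nat_lit 0) (nat_lit 0) (nat_lit 1) (nat_lit 0) (nat_lit 1) (nat_lit 0) (nat_lit 488) (nat_lit 408) (nat_lit 184)) (XT.nd (nat_lit 94) (nat_lit 0) (nat_lit 0) (XT.lf (nat_lit 0) (nat_lit 22050352335086) (nat_lit 0) (nat_lit 0) (nat_lit 0) (nat_lit 0) (nat_lit 0) (nat_lit 0) (nat_lit 1) (nat_lit 0) (nat_lit 1) (nat_lit 0) (nat_lit 489) (nat_lit 408) (nat_lit 183)) (XT.lf (nat_lit 0) (nat_lit 23810926459760) (nat_lit 0) (nat_lit 0) (nat_lit 0) (nat_lit 0) (nat_lit 0) (nat_lit 0) (nat_lit 1) (nat_lit 0) (nat_lit 1) (nat_lit 0) (nat_lit 490) (nat_lit 408) (nat_lit 182)))) (XT.nd (nat_lit 188) (nat_lit 0) (nat_lit 0) (XT.nd (nat_lit 94) (nat_lit 0) (nat_lit 0) (XT.lf (nat_lit 0) (nat_lit 25712346514423) (nat_lit 0) (nat_lit 0) (nat_lit 0) (nat_lit 0) (nat_lit 0) (nat_lit 0) (nat_lit 1) (nat_lit 0) (nat_lit 1) (nat_lit 0) (nat_lit 491)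 (nat_lit 408) (nat_lit 181)) (XT.lf (nat_lit 0) (nat_lit 27765880173473) (nat_lit 0) (nat_lit 0) (nat_lit 0) (nat_lit 0) (nat_lit 0) (nat_lit 0) (nat_lit 1) (nat_lit 0) (nat_lit 1) (nat_lit 0) (nat_lit 492) (nat_lit 408) (nat_lit 180))) (XT.nd (nat_lit 94) (nat_lit 0) (nat_lit 0) (XT.lf (nat_lit 0) (nat_lit 29983696525259) (nat_lit 0) (nat_lit 0) (nat_lit 0) (nat_lit 0) (nat_lit 0) (nat_lit 0) (nat_lit 1) (nat_lit 0) (nat_lit 1) (nat_lit 0) (nat_lit 493) (nat_lit 408) (nat_lit 179)) (XT.lf (nat_lit 0) (nat_lit 32378938185200) (nat_lit 0) (nat_lit 0) (nat_lit 0) (nat_lit 0) (nat_lit 0) (nat_lit 0) (nat_lit 1) (nat_lit 0) (nat_lit 1) (nat_lit 0) (nat_lit 494) (nat_lit 408) (nat_lit 178))))) (XT.nd (nat_lit 376) (nat_lit 0) (nat_lit 0) (XT.nd (nat_lit 188) (nat_lit 0) (nat_lit 0) (XT.nd (nat_lit 94) (nat_lit 0) (nat_lit 0) (XT.lf (nat_lit 0) (nat_lit 34965799177948)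 (nat_lit 0) (nat_lit 0) (nat_lit 0) (nat_lit 0) (nat_lit 0) (nat_lit 0) (nat_lit 1) (nat_lit 0) (nat_lit 1) (nat_lit 0) (nat_lit 495) (nat_lit 408) (nat_lit 177)) (XT.lf (nat_lit 0) (nat_lit 37759609050125) (nat_lit 0) (nat_lit 0) (nat_lit 0) (nat_lit 0) (nat_lit 0) (nat_lit 0) (nat_lit 1) (nat_lit 0) (nat_lit 1) (nat_lit 0) (nat_lit 496) (nat_lit 408) (nat_lit 176))) (XT.nd (nat_lit 94) (nat_lit 0) (nat_lit 0) (XT.lf (nat_lit 0) (nat_lit 40776923712086) (nat_lit 0) (nat_lit 0) (nat_lit 0) (nat_lit 0) (nat_lit 0) (nat_lit 0) (nat_lit 1) (nat_lit 0) (nat_lit 1) (nat_lit 0) (nat_lit 497) (nat_lit 408) (nat_lit 175)) (XT.lf (nat_lit 0) (nat_lit 44035623547013) (nat_lit 0) (nat_lit 0) (nat_lit 0) (nat_lit 0) (nat_lit 0) (nat_lit 0) (nat_lit 1) (nat_lit 0) (nat_lit 1) (nat_lit 0) (nat_lit 498) (nat_lit 408) (nat_lit 174)))) (XT.nd (nat_lit 188) (nat_lit 0) (nat_lit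 0) (XT.nd (nat_lit 94) (nat_lit 0) (nat_lit 0) (XT.lf (nat_lit 0) (nat_lit 47555019368741) (nat_lit 0) (nat_lit 0) (nat_lit 0) (nat_lit 0) (nat_lit 0) (nat_lit 0) (nat_lit 1) (nat_lit 0) (nat_lit 1) (nat_lit 0) (nat_lit 499) (nat_lit 408) (nat_lit 173)) (XT.lf (nat_lit 0) (nat_lit 51355966856216) (nat_lit 0) (nat_lit 0) (nat_lit 0) (nat_lit 0) (nat_lit 0) (nat_lit 0) (nat_lit 1) (nat_lit 0) (nat_lit 1) (nat_lit 0) (nat_lit 500) (nat_lit 408) (nat_lit 172))) (XT.nd (nat_lit 94) (nat_lit 0) (nat_lit 0) (XT.lf (nat_lit 0) (nat_lit 55460990142695) (nat_lit 0) (nat_lit 0) (nat_lit 0) (nat_lit 0) (nat_lit 0) (nat_lit 0) (nat_lit 1) (nat_lit 0) (nat_lit 1) (nat_lit 0) (nat_lit 501) (nat_lit 408) (nat_lit 171)) (XT.lf (nat_lit 0) (nat_lit 59894415292099) (nat_lit 0) (nat_lit 0) (nat_lit 0) (nat_lit 0) (nat_lit 0) (nat_lit 0) (nat_lit 1) (nat_lit 0) (nat_lit 1) (nat_lit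 0) (nat_lit 502) (nat_lit 408) (nat_lit 170))))))))
noncomputable def xc190 : XT := (XT.nd (nat_lit 61476) (nat_lit 0) (nat_lit 336) (XT.nd (nat_lit 60160) (nat_lit 0) (nat_lit 4620) (XT.nd (nat_lit 59502) (nat_lit 0) (nat_lit 8568) (XT.nd (nat_lit 59126) (nat_lit 0) (nat_lit 10836) (XT.nd (nat_lit 58938) (nat_lit 0) (nat_lit 10752) (XT.lf (nat_lit 0) (nat_lit 64682514453461) (nat_lit 0) (nat_lit 0) (nat_lit 0) (nat_lit 0) (nat_lit 0) (nat_lit 0) (nat_lit 1) (nat_lit 0) (nat_lit 1) (nat_lit 0) (nat_lit 503) (nat_lit 408) (nat_lit 169)) (XT.nd (nat_lit 94) (nat_lit 0) (nat_lit 84) (XT.lf (nat_lit 0) (nat_lit 41417506489) (nat_lit 924) (nat_lit 23342821242) (nat_lit 924) (nat_lit 23342821242) (nat_lit 128) (nat_lit 3) (nat_lit 139) (nat_lit 3) (nat_lit 139) (nat_lit 5) (nat_lit 409) (nat_lit 409) (nat_lit 262)) (XT.lf (nat_lit 0) (nat_lit 87824134122) (nat_lit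 840) (nat_lit 85933513844) (nat_lit 924) (nat_lit 9413115869) (nat_lit 129) (nat_lit 5) (nat_lit 139) (nat_lit 5) (nat_lit 140) (nat_lit 5) (nat_lit 410) (nat_lit 409) (nat_lit 261)))) (XT.nd (nat_lit 188) (nat_lit 0) (nat_lit 168) (XT.nd (nat_lit 94) (nat_lit 0) (nat_lit 84) (XT.lf (nat_lit 84) (nat_lit 63525095227) (nat_lit 0) (nat_lit 33689288142) (nat_lit 924) (nat_lit 93277903704) (nat_lit 130) (nat_lit 5) (nat_lit 129) (nat_lit 5) (nat_lit 140) (nat_lit 5) (nat_lit 411) (nat_lit 409) (nat_lit 260)) (XT.lf (nat_lit 84) (nat_lit 28743776539) (nat_lit 0) (nat_lit 82417813396) (nat_lit 924) (nat_lit 87047655365) (nat_lit 131) (nat_lit 5) (nat_lit 130) (nat_lit 5) (nat_lit 141) (nat_lit 5) (nat_lit 412) (nat_lit 409) (nat_lit 259))) (XT.nd (nat_lit 94) (nat_lit 0) (nat_lit 84) (XT.lf (nat_lit 0) (nat_lit 130116869276) (nat_lit 840) (nat_lit 6668499519) (nat_lit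 924) (nat_lit 69563576578) (nat_lit 131) (nat_lit 5) (nat_lit 141) (nat_lit 5) (nat_lit 142) (nat_lit 5) (nat_lit 413) (nat_lit 409) (nat_lit 258)) (XT.lf (nat_lit 0) (nat_lit 154974663019) (nat_lit 840) (nat_lit 41916555005) (nat_lit 924) (nat_lit 18029298825) (nat_lit 132) (nat_lit 5) (nat_lit 142) (nat_lit 5) (nat_lit 143) (nat_lit 5) (nat_lit 414) (nat_lit 409) (nat_lit 257))))) (XT.nd (nat_lit 282) (nat_lit 1176) (nat_lit 0) (XT.nd (nat_lit 94) (nat_lit 1344) (nat_lit 0) (XT.lf (nat_lit 84) (nat_lit 145463529873) (nat_lit 0) (nat_lit 41052915762) (nat_lit 924) (nat_lit 37426600139) (nat_lit 133) (nat_lit 5) (nat_lit 132) (nat_lit 5) (nat_lit 143) (nat_lit 5) (nat_lit 415) (nat_lit 409) (nat_lit 256)) (XT.nd (nat_lit 94) (nat_lit 588) (nat_lit 0) (XT.lf (nat_lit 0) (nat_lit 117439846973) (nat_lit 840) (nat_lit 107703956871) (nat_lit 924) (nat_lit 8315461521)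 (nat_lit 123) (nat_lit 5) (nat_lit 133) (nat_lit 5) (nat_lit 134) (nat_lit 5) (nat_lit 416) (nat_lit 409) (nat_lit 255)) (XT.lf (nat_lit 0) (nat_lit 26871391842) (nat_lit 588) (nat_lit 154574653581) (nat_lit 84) (nat_lit 62048337419) (nat_lit 116) (nat_lit 5) (nat_lit 123) (nat_lit 5) (nat_lit 117) (nat_lit 5) (nat_lit 417) (nat_lit 409) (nat_lit 254)))) (XT.nd (nat_lit 188) (nat_lit 336) (nat_lit 0) (XT.nd (nat_lit 94) (nat_lit 420) (nat_lit 0) (XT.lf (nat_lit 0) (nat_lit 60099696032) (nat_lit 420) (nat_lit 9294378462) (nat_lit 504) (nat_lit 184690808559) (nat_lit 111) (nat_lit 5) (nat_lit 116) (nat_lit 5) (nat_lit 117) (nat_lit 5) (nat_lit 418) (nat_lit 409) (nat_lit 253)) (XT.lf (nat_lit 0) (nat_lit 30245841267) (nat_lit 420) (nat_lit 91039171825) (nat_lit 504) (nat_lit 143939288123) (nat_lit 106) (nat_lit 5) (nat_lit 111) (nat_lit 5) (nat_lit 112) (nat_lit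 5) (nat_lit 419) (nat_lit 409) (nat_lit 252))) (XT.nd (nat_lit 94) (nat_lit 0) (nat_lit 0) (XT.lf (nat_lit 0) (nat_lit 585885494) (nat_lit 336) (nat_lit 181818648038) (nat_lit 420) (nat_lit 94596473959) (nat_lit 102) (nat_lit 5) (nat_lit 106) (nat_lit 5) (nat_lit 107) (nat_lit 5) (nat_lit 420) (nat_lit 409) (nat_lit 251)) (XT.lf (nat_lit 0) (nat_lit 254138465316) (nat_lit 420) (nat_lit 27760859990) (nat_lit 84) (nat_lit 7534282478) (nat_lit 102) (nat_lit 5) (nat_lit 107) (nat_lit 5) (nat_lit 103) (nat_lit 5) (nat_lit 421) (nat_lit 409) (nat_lit 250)))))) (XT.nd (nat_lit 658) (nat_lit 1680) (nat_lit 0) (XT.nd (nat_lit 282) (nat_lit 1176) (nat_lit 0) (XT.nd (nat_lit 94) (nat_lit 672) (nat_lit 0) (XT.lf (nat_lit 0) (nat_lit 34843043556) (nat_lit 420) (nat_lit 57497960678) (nat_lit 84) (nat_lit 210146721382) (nat_lit 97) (nat_lit 5) (nat_lit 102) (nat_lit 5) (nat_lit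 98) (nat_lit 5) (nat_lit 422) (nat_lit 409) (nat_lit 249)) (XT.nd (nat_lit 94) (nat_lit 336) (nat_lit 0) (XT.lf (nat_lit 0) (nat_lit 115298082652) (nat_lit 420) (nat_lit 87410483577) (nat_lit 84) (nat_lit 113551557797) (nat_lit 93) (nat_lit 5) (nat_lit 98) (nat_lit 5) (nat_lit 94) (nat_lit 5) (nat_lit 423) (nat_lit 409) (nat_lit 248)) (XT.lf (nat_lit 0) (nat_lit 208208777517) (nat_lit 420) (nat_lit 116574505452) (nat_lit 84) (nat_lit 6050068708) (nat_lit 89) (nat_lit 5) (nat_lit 94) (nat_lit 5) (nat_lit 90) (nat_lit 5) (nat_lit 424) (nat_lit 409) (nat_lit 247)))) (XT.nd (nat_lit 188) (nat_lit 504) (nat_lit 0) (XT.nd (nat_lit 94) (nat_lit 420) (nat_lit 0) (XT.lf (nat_lit 0) (nat_lit 199633143930) (nat_lit 252) (nat_lit 117001511839) (nat_lit 336) (nat_lit 29533665381) (nat_lit 86) (nat_lit 5) (nat_lit 89) (nat_lit 5) (nat_lit 90) (nat_lit 5) (nat_lit 425) (nat_lit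 409) (nat_lit 246)) (XT.lf (nat_lit 0) (nat_lit 75500500600) (nat_lit 420) (nat_lit 176670108820) (nat_lit 84) (nat_lit 110165621165) (nat_lit 81) (nat_lit 5) (nat_lit 86) (nat_lit 5) (nat_lit 82) (nat_lit 5) (nat_lit 426) (nat_lit 409) (nat_lit 245))) (XT.nd (nat_lit 94) (nat_lit 252) (nat_lit 0) (XT.lf (nat_lit 0) (nat_lit 173031520222) (nat_lit 252) (nat_lit 22153630920) (nat_lit 336) (nat_lit 184224090356) (nat_lit 78) (nat_lit 5) (nat_lit 81) (nat_lit 5) (nat_lit 82) (nat_lit 5) (nat_lit 427) (nat_lit 409) (nat_lit 244)) (XT.lf (nat_lit 0) (nat_lit 160890131271) (nat_lit 252) (nat_lit 172726824631) (nat_lit 336) (nat_lit 63772518275) (nat_lit 75) (nat_lit 5) (nat_lit 78) (nat_lit 5) (nat_lit 79) (nat_lit 5) (nat_lit 428) (nat_lit 409) (nat_lit 243))))) (XT.nd (nat_lit 282) (nat_lit 924) (nat_lit 0) (XT.nd (nat_lit 94) (nat_lit 420) (nat_lit 0) (XT.lf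 (nat_lit 0) (nat_lit 71853833287) (nat_lit 336) (nat_lit 266035476874) (nat_lit 84) (nat_lit 78483989339) (nat_lit 71) (nat_lit 5) (nat_lit 75) (nat_lit 5) (nat_lit 72) (nat_lit 5) (nat_lit 429) (nat_lit 409) (nat_lit 242)) (XT.nd (nat_lit 94) (nat_lit 168) (nat_lit 0) (XT.lf (nat_lit 0) (nat_lit 140333462446) (nat_lit 252) (nat_lit 85083001997) (nat_lit 336) (nat_lit 210941071355) (nat_lit 68) (nat_lit 5) (nat_lit 71) (nat_lit 5) (nat_lit 72) (nat_lit 5) (nat_lit 430) (nat_lit 409) (nat_lit 241)) (XT.lf (nat_lit 0) (nat_lit 132224643158) (nat_lit 168) (nat_lit 268748283253) (nat_lit 252) (nat_lit 56482143576) (nat_lit 66) (nat_lit 5) (nat_lit 68) (nat_lit 5) (nat_lit 69) (nat_lit 5) (nat_lit 431) (nat_lit 409) (nat_lit 240)))) (XT.nd (nat_lit 188) (nat_lit 420) (nat_lit 0) (XT.nd (nat_lit 94) (nat_lit 168) (nat_lit 0) (XT.lf (nat_lit 0) (nat_lit 115613377387)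 (nat_lit 336) (nat_lit 353772479827) (nat_lit 84) (nat_lit 10327856940) (nat_lit 62) (nat_lit 5) (nat_lit 66) (nat_lit 5) (nat_lit 63) (nat_lit 5) (nat_lit 432) (nat_lit 409) (nat_lit 239)) (XT.lf (nat_lit 0) (nat_lit 119601708383) (nat_lit 168) (nat_lit 192079413333) (nat_lit 252) (nat_lit 191416459258) (nat_lit 60) (nat_lit 5) (nat_lit 62) (nat_lit 5) (nat_lit 63) (nat_lit 5) (nat_lit 433) (nat_lit 409) (nat_lit 238))) (XT.nd (nat_lit 94) (nat_lit 168) (nat_lit 0) (XT.lf (nat_lit 0) (nat_lit 5173341410) (nat_lit 252) (nat_lit 410532188194) (nat_lit 84) (nat_lit 112153776105) (nat_lit 57) (nat_lit 5) (nat_lit 60) (nat_lit 5) (nat_lit 58) (nat_lit 5) (nat_lit 434) (nat_lit 409) (nat_lit 237)) (XT.lf (nat_lit 0) (nat_lit 114738757625) (nat_lit 168) (nat_lit 107954800707) (nat_lit 252) (nat_lit 331156034728) (nat_lit 55) (nat_lit 5) (nat_lit 57) (nat_lit 5)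 (nat_lit 58) (nat_lit 5) (nat_lit 435) (nat_lit 409) (nat_lit 236))))))) (XT.nd (nat_lit 1316) (nat_lit 1932) (nat_lit 0) (XT.nd (nat_lit 658) (nat_lit 1092) (nat_lit 0) (XT.nd (nat_lit 282) (nat_lit 672) (nat_lit 0) (XT.nd (nat_lit 94) (nat_lit 420) (nat_lit 0) (XT.lf (nat_lit 0) (nat_lit 115195645111) (nat_lit 168) (nat_lit 354990388844) (nat_lit 252) (nat_lit 111104537378) (nat_lit 53) (nat_lit 5) (nat_lit 55) (nat_lit 5) (nat_lit 56) (nat_lit 5) (nat_lit 436) (nat_lit 409) (nat_lit 235)) (XT.nd (nat_lit 94) (nat_lit 168) (nat_lit 0) (XT.lf (nat_lit 0) (nat_lit 118865543615) (nat_lit 168) (nat_lit 15085588153) (nat_lit 252) (nat_lit 476304381404) (nat_lit 50) (nat_lit 5) (nat_lit 52) (nat_lit 5) (nat_lit 53) (nat_lit 5) (nat_lit 437) (nat_lit 409) (nat_lit 234)) (XT.lf (nat_lit 0) (nat_lit 122555233295) (nat_lit 168) (nat_lit 287876908921) (nat_lit 252)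 (nat_lit 230228766372) (nat_lit 48) (nat_lit 5) (nat_lit 50) (nat_lit 5) (nat_lit 51) (nat_lit 5) (nat_lit 438) (nat_lit 409) (nat_lit 233)))) (XT.nd (nat_lit 188) (nat_lit 336) (nat_lit 0) (XT.nd (nat_lit 94) (nat_lit 168) (nat_lit 0) (XT.lf (nat_lit 0) (nat_lit 46806505948) (nat_lit 168) (nat_lit 540879618731) (nat_lit 84) (nat_lit 85164328416) (nat_lit 46) (nat_lit 5) (nat_lit 48) (nat_lit 5) (nat_lit 47) (nat_lit 5) (nat_lit 439) (nat_lit 409) (nat_lit 232)) (XT.lf (nat_lit 0) (nat_lit 141020175674) (nat_lit 168) (nat_lit 213254959358) (nat_lit 252) (nat_lit 352334482555) (nat_lit 44) (nat_lit 5) (nat_lit 46) (nat_lit 5) (nat_lit 47) (nat_lit 5) (nat_lit 440) (nat_lit 409) (nat_lit 231))) (XT.nd (nat_lit 94) (nat_lit 252) (nat_lit 0) (XT.lf (nat_lit 0) (nat_lit 156043870002) (nat_lit 84) (nat_lit 545293909184) (nat_lit 168) (nat_lit 40981909814) (nat_lit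 43) (nat_lit 5) (nat_lit 44) (nat_lit 5) (nat_lit 45) (nat_lit 4) (nat_lit 441) (nat_lit 409) (nat_lit 230)) (XT.lf (nat_lit 0) (nat_lit 172359861430) (nat_lit 168) (nat_lit 129768772547) (nat_lit 252) (nat_lit 477712398961) (nat_lit 40) (nat_lit 5) (nat_lit 42) (nat_lit 5) (nat_lit 43) (nat_lit 5) (nat_lit 442) (nat_lit 409) (nat_lit 229))))) (XT.nd (nat_lit 282) (nat_lit 672) (nat_lit 0) (XT.nd (nat_lit 94) (nat_lit 336) (nat_lit 0) (XT.lf (nat_lit 0) (nat_lit 193110365453) (nat_lit 84) (nat_lit 496536394718) (nat_lit 168) (nat_lit 129764005223) (nat_lit 39) (nat_lit 5) (nat_lit 40) (nat_lit 5) (nat_lit 41) (nat_lit 4) (nat_lit 443) (nat_lit 409) (nat_lit 228)) (XT.nd (nat_lit 94) (nat_lit 84) (nat_lit 0) (XT.lf (nat_lit 0) (nat_lit 218619594570) (nat_lit 168) (nat_lit 35883222425) (nat_lit 252) (nat_lit 606633369078) (nat_lit 36) (nat_lit 5) (nat_lit 38)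 (nat_lit 5) (nat_lit 39) (nat_lit 5) (nat_lit 444) (nat_lit 409) (nat_lit 227)) (XT.lf (nat_lit 0) (nat_lit 246148054758) (nat_lit 84) (nat_lit 441016221992) (nat_lit 168) (nat_lit 217819020197) (nat_lit 35) (nat_lit 5) (nat_lit 36) (nat_lit 5) (nat_lit 37) (nat_lit 4) (nat_lit 445) (nat_lit 409) (nat_lit 226)))) (XT.nd (nat_lit 188) (nat_lit 336) (nat_lit 0) (XT.nd (nat_lit 94) (nat_lit 84) (nat_lit 0) (XT.lf (nat_lit 0) (nat_lit 213113063144) (nat_lit 252) (nat_lit 670298009530) (nat_lit 84) (nat_lit 67895283079) (nat_lit 32) (nat_lit 5) (nat_lit 35) (nat_lit 5) (nat_lit 33) (nat_lit 4) (nat_lit 446) (nat_lit 409) (nat_lit 225)) (XT.lf (nat_lit 0) (nat_lit 317674945708) (nat_lit 84) (nat_lit 377376172706) (nat_lit 168) (nat_lit 304897464535) (nat_lit 31) (nat_lit 5) (nat_lit 32) (nat_lit 5) (nat_lit 33) (nat_lit 4) (nat_lit 447) (nat_lit 409) (nat_lit 224)))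 (XT.nd (nat_lit 94) (nat_lit 84) (nat_lit 0) (XT.lf (nat_lit 0) (nat_lit 178390649003) (nat_lit 252) (nat_lit 688756217930) (nat_lit 84) (nat_lit 184180647499) (nat_lit 28) (nat_lit 5) (nat_lit 31) (nat_lit 5) (nat_lit 29) (nat_lit 4) (nat_lit 448) (nat_lit 409) (nat_lit 223)) (XT.lf (nat_lit 0) (nat_lit 410587107255) (nat_lit 84) (nat_lit 304068601550) (nat_lit 168) (nat_lit 390661334716) (nat_lit 27) (nat_lit 5) (nat_lit 28) (nat_lit 5) (nat_lit 29) (nat_lit 4) (nat_lit 449) (nat_lit 409) (nat_lit 222)))))) (XT.nd (nat_lit 658) (nat_lit 1008) (nat_lit 0) (XT.nd (nat_lit 282) (nat_lit 504) (nat_lit 0) (XT.nd (nat_lit 94) (nat_lit 252) (nat_lit 0) (XT.lf (nat_lit 0) (nat_lit 150699233107) (nat_lit 168) (nat_lit 695311467078) (nat_lit 84) (nat_lit 316279893978) (nat_lit 25) (nat_lit 5) (nat_lit 27) (nat_lit 5) (nat_lit 26) (nat_lit 4) (nat_lit 450) (nat_lit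 409) (nat_lit 221)) (XT.nd (nat_lit 94) (nat_lit 168) (nat_lit 0) (XT.lf (nat_lit 0) (nat_lit 528209657513) (nat_lit 84) (nat_lit 219329167449) (nat_lit 168) (nat_lit 474670137245) (nat_lit 24) (nat_lit 5) (nat_lit 25) (nat_lit 5) (nat_lit 26) (nat_lit 4) (nat_lit 451) (nat_lit 409) (nat_lit 220)) (XT.lf (nat_lit 0) (nat_lit 131130581320) (nat_lit 168) (nat_lit 687606088772) (nat_lit 84) (nat_lit 466637352177) (nat_lit 22) (nat_lit 5) (nat_lit 24) (nat_lit 5) (nat_lit 23) (nat_lit 4) (nat_lit 452) (nat_lit 409) (nat_lit 219)))) (XT.nd (nat_lit 188) (nat_lit 252) (nat_lit 0) (XT.nd (nat_lit 94) (nat_lit 168) (nat_lit 0) (XT.lf (nat_lit 0) (nat_lit 674354385164) (nat_lit 84) (nat_lit 121147174471) (nat_lit 168) (nat_lit 556364837037) (nat_lit 21) (nat_lit 5) (nat_lit 22) (nat_lit 5) (nat_lit 23) (nat_lit 4) (nat_lit 453) (nat_lit 409) (nat_lit 218)) (XT.lf (nat_lit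 0) (nat_lit 120967735769) (nat_lit 168) (nat_lit 662895990582) (nat_lit 84) (nat_lit 638020526705) (nat_lit 19) (nat_lit 5) (nat_lit 21) (nat_lit 5) (nat_lit 20) (nat_lit 4) (nat_lit 454) (nat_lit 409) (nat_lit 217))) (XT.nd (nat_lit 94) (nat_lit 168) (nat_lit 0) (XT.lf (nat_lit 0) (nat_lit 853384837783) (nat_lit 84) (nat_lit 7232095144) (nat_lit 168) (nat_lit 635049451659) (nat_lit 18) (nat_lit 5) (nat_lit 19) (nat_lit 5) (nat_lit 20) (nat_lit 4) (nat_lit 455) (nat_lit 409) (nat_lit 216)) (XT.lf (nat_lit 0) (nat_lit 121711598928) (nat_lit 168) (nat_lit 617995887544) (nat_lit 84) (nat_lit 833562162088) (nat_lit 16) (nat_lit 5) (nat_lit 18) (nat_lit 5) (nat_lit 17) (nat_lit 4) (nat_lit 456) (nat_lit 409) (nat_lit 215))))) (XT.nd (nat_lit 376) (nat_lit 504) (nat_lit 0) (XT.nd (nat_lit 188) (nat_lit 252) (nat_lit 0) (XT.nd (nat_lit 94) (nat_lit 168) (nat_lit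 0) (XT.lf (nat_lit 0) (nat_lit 947217587749) (nat_lit 168) (nat_lit 586797750590) (nat_lit 0) (nat_lit 121022648300) (nat_lit 15) (nat_lit 5) (nat_lit 17) (nat_lit 4) (nat_lit 15) (nat_lit 4) (nat_lit 457) (nat_lit 409) (nat_lit 214)) (XT.lf (nat_lit 0) (nat_lit 135111102838) (nat_lit 168) (nat_lit 549217197213) (nat_lit 84) (nat_lit 1056807568185) (nat_lit 13) (nat_lit 5) (nat_lit 15) (nat_lit 5) (nat_lit 14) (nat_lit 4) (nat_lit 458) (nat_lit 409) (nat_lit 213))) (XT.nd (nat_lit 94) (nat_lit 168) (nat_lit 0) (XT.lf (nat_lit 0) (nat_lit 1056525805844) (nat_lit 168) (nat_lit 505549782390) (nat_lit 0) (nat_lit 269673448473) (nat_lit 12) (nat_lit 5) (nat_lit 14) (nat_lit 4) (nat_lit 12) (nat_lit 4) (nat_lit 459) (nat_lit 409) (nat_lit 212)) (XT.lf (nat_lit 0) (nat_lit 163197422173) (nat_lit 168) (nat_lit 452297657087) (nat_lit 84) (nat_lit 1311767852403) (nat_lit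 10) (nat_lit 5) (nat_lit 12) (nat_lit 5) (nat_lit 11) (nat_lit 4) (nat_lit 460) (nat_lit 409) (nat_lit 211)))) (XT.nd (nat_lit 188) (nat_lit 252) (nat_lit 0) (XT.nd (nat_lit 94) (nat_lit 168) (nat_lit 0) (XT.lf (nat_lit 0) (nat_lit 1191603545400) (nat_lit 168) (nat_lit 393855050680) (nat_lit 0) (nat_lit 442220320073) (nat_lit 9) (nat_lit 5) (nat_lit 11) (nat_lit 4) (nat_lit 9) (nat_lit 4) (nat_lit 461) (nat_lit 409) (nat_lit 210)) (XT.lf (nat_lit 0) (nat_lit 208322747208) (nat_lit 168) (nat_lit 322321605938) (nat_lit 84) (nat_lit 1602979783138) (nat_lit 7) (nat_lit 5) (nat_lit 9) (nat_lit 5) (nat_lit 8) (nat_lit 4) (nat_lit 462) (nat_lit 409) (nat_lit 209))) (XT.nd (nat_lit 94) (nat_lit 168) (nat_lit 0) (XT.lf (nat_lit 0) (nat_lit 1356077773861) (nat_lit 168) (nat_lit 246447597804) (nat_lit 0) (nat_lit 642379441302) (nat_lit 6) (nat_lit 5) (nat_lit 8) (nat_lit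 4) (nat_lit 6) (nat_lit 4) (nat_lit 463) (nat_lit 409) (nat_lit 208)) (XT.lf (nat_lit 0) (nat_lit 273204197064) (nat_lit 168) (nat_lit 153629738692) (nat_lit 84) (nat_lit 1935573096216) (nat_lit 4) (nat_lit 5) (nat_lit 6) (nat_lit 5) (nat_lit 5) (nat_lit 4) (nat_lit 464) (nat_lit 409) (nat_lit 207))))))))
noncomputable def xc191 : XT := (XT.nd (nat_lit 2632) (nat_lit 0) (nat_lit 0) (XT.nd (nat_lit 1316) (nat_lit 0) (nat_lit 0) (XT.nd (nat_lit 658) (nat_lit 0) (nat_lit 0) (XT.nd (nat_lit 282) (nat_lit 0) (nat_lit 0) (XT.nd (nat_lit 94) (nat_lit 252) (nat_lit 0) (XT.lf (nat_lit 0) (nat_lit 1554086439169) (nat_lit 168) (nat_lit 57269285794) (nat_lit 0) (nat_lit 874373722939) (nat_lit 3) (nat_lit 5) (nat_lit 5) (nat_lit 4) (nat_lit 3) (nat_lit 4) (nat_lit 465) (nat_lit 409) (nat_lit 206)) (XT.nd (nat_lit 94) (nat_lit 0) (nat_lit 0) (XT.lf (nat_lit 0) (nat_lit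 3794788375348) (nat_lit 0) (nat_lit 0) (nat_lit 0) (nat_lit 0) (nat_lit 0) (nat_lit 0) (nat_lit 1) (nat_lit 0) (nat_lit 1) (nat_lit 0) (nat_lit 466) (nat_lit 409) (nat_lit 205)) (XT.lf (nat_lit 0) (nat_lit 4094641057398) (nat_lit 0) (nat_lit 0) (nat_lit 0) (nat_lit 0) (nat_lit 0) (nat_lit 0) (nat_lit 1) (nat_lit 0) (nat_lit 1) (nat_lit 0) (nat_lit 467) (nat_lit 409) (nat_lit 204)))) (XT.nd (nat_lit 188) (nat_lit 0) (nat_lit 0) (XT.nd (nat_lit 94) (nat_lit 0) (nat_lit 0) (XT.lf (nat_lit 0) (nat_lit 4418481954092) (nat_lit 0) (nat_lit 0) (nat_lit 0) (nat_lit 0) (nat_lit 0) (nat_lit 0) (nat_lit 1) (nat_lit 0) (nat_lit 1) (nat_lit 0) (nat_lit 468) (nat_lit 409) (nat_lit 203)) (XT.lf (nat_lit 0) (nat_lit 4768230122598) (nat_lit 0) (nat_lit 0) (nat_lit 0) (nat_lit 0) (nat_lit 0) (nat_lit 0) (nat_lit 1) (nat_lit 0) (nat_lit 1) (nat_lit 0) (nat_lit 469) (nat_lit 409)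 (nat_lit 202))) (XT.nd (nat_lit 94) (nat_lit 0) (nat_lit 0) (XT.lf (nat_lit 0) (nat_lit 5145958144653) (nat_lit 0) (nat_lit 0) (nat_lit 0) (nat_lit 0) (nat_lit 0) (nat_lit 0) (nat_lit 1) (nat_lit 0) (nat_lit 1) (nat_lit 0) (nat_lit 470) (nat_lit 409) (nat_lit 201)) (XT.lf (nat_lit 0) (nat_lit 5553904408536) (nat_lit 0) (nat_lit 0) (nat_lit 0) (nat_lit 0) (nat_lit 0) (nat_lit 0) (nat_lit 1) (nat_lit 0) (nat_lit 1) (nat_lit 0) (nat_lit 471) (nat_lit 409) (nat_lit 200))))) (XT.nd (nat_lit 282) (nat_lit 0) (nat_lit 0) (XT.nd (nat_lit 94) (nat_lit 0) (nat_lit 0) (XT.lf (nat_lit 0) (nat_lit 5994486373590) (nat_lit 0) (nat_lit 0) (nat_lit 0) (nat_lit 0) (nat_lit 0) (nat_lit 0) (nat_lit 1) (nat_lit 0) (nat_lit 1) (nat_lit 0) (nat_lit 472) (nat_lit 409) (nat_lit 199)) (XT.nd (nat_lit 94) (nat_lit 0) (nat_lit 0) (XT.lf (nat_lit 0) (nat_lit 6470314895903) (nat_lit 0)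 (nat_lit 0) (nat_lit 0) (nat_lit 0) (nat_lit 0) (nat_lit 0) (nat_lit 1) (nat_lit 0) (nat_lit 1) (nat_lit 0) (nat_lit 473) (nat_lit 409) (nat_lit 198)) (XT.lf (nat_lit 0) (nat_lit 6984209700052) (nat_lit 0) (nat_lit 0) (nat_lit 0) (nat_lit 0) (nat_lit 0) (nat_lit 0) (nat_lit 1) (nat_lit 0) (nat_lit 1) (nat_lit 0) (nat_lit 474) (nat_lit 409) (nat_lit 197)))) (XT.nd (nat_lit 188) (nat_lit 0) (nat_lit 0) (XT.nd (nat_lit 94) (nat_lit 0) (nat_lit 0) (XT.lf (nat_lit 0) (nat_lit 7539216088580) (nat_lit 0) (nat_lit 0) (nat_lit 0) (nat_lit 0) (nat_lit 0) (nat_lit 0) (nat_lit 1) (nat_lit 0) (nat_lit 1) (nat_lit 0) (nat_lit 475) (nat_lit 409) (nat_lit 196)) (XT.lf (nat_lit 0) (nat_lit 8138622988234) (nat_lit 0) (nat_lit 0) (nat_lit 0) (nat_lit 0) (nat_lit 0) (nat_lit 0) (nat_lit 1) (nat_lit 0) (nat_lit 1) (nat_lit 0) (nat_lit 476) (nat_lit 409) (nat_lit 195))) (XT.nd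 (nat_lit 94) (nat_lit 0) (nat_lit 0) (XT.lf (nat_lit 0) (nat_lit 8785982439901) (nat_lit 0) (nat_lit 0) (nat_lit 0) (nat_lit 0) (nat_lit 0) (nat_lit 0) (nat_lit 1) (nat_lit 0) (nat_lit 1) (nat_lit 0) (nat_lit 477) (nat_lit 409) (nat_lit 194)) (XT.lf (nat_lit 0) (nat_lit 9485130647738) (nat_lit 0) (nat_lit 0) (nat_lit 0) (nat_lit 0) (nat_lit 0) (nat_lit 0) (nat_lit 1) (nat_lit 0) (nat_lit 1) (nat_lit 0) (nat_lit 478) (nat_lit 409) (nat_lit 193)))))) (XT.nd (nat_lit 658) (nat_lit 0) (nat_lit 0) (XT.nd (nat_lit 282) (nat_lit 0) (nat_lit 0) (XT.nd (nat_lit 94) (nat_lit 0) (nat_lit 0) (XT.lf (nat_lit 0) (nat_lit 10240210712238) (nat_lit 0) (nat_lit 0) (nat_lit 0) (nat_lit 0) (nat_lit 0) (nat_lit 0) (nat_lit 1) (nat_lit 0) (nat_lit 1) (nat_lit 0) (nat_lit 479) (nat_lit 409) (nat_lit 192)) (XT.nd (nat_lit 94) (nat_lit 0) (nat_lit 0) (XT.lf (nat_lit 0) (nat_lit 11055697181929)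 (nat_lit 0) (nat_lit 0) (nat_lit 0) (nat_lit 0) (nat_lit 0) (nat_lit 0) (nat_lit 1) (nat_lit 0) (nat_lit 1) (nat_lit 0) (nat_lit 480) (nat_lit 409) (nat_lit 191)) (XT.lf (nat_lit 0) (nat_lit 11936422569225) (nat_lit 0) (nat_lit 0) (nat_lit 0) (nat_lit 0) (nat_lit 0) (nat_lit 0) (nat_lit 1) (nat_lit 0) (nat_lit 1) (nat_lit 0) (nat_lit 481) (nat_lit 409) (nat_lit 190)))) (XT.nd (nat_lit 188) (nat_lit 0) (nat_lit 0) (XT.nd (nat_lit 94) (nat_lit 0) (nat_lit 0) (XT.lf (nat_lit 0) (nat_lit 12887605987533) (nat_lit 0) (nat_lit 0) (nat_lit 0) (nat_lit 0) (nat_lit 0) (nat_lit 0) (nat_lit 1) (nat_lit 0) (nat_lit 1) (nat_lit 0) (nat_lit 482) (nat_lit 409) (nat_lit 189)) (XT.lf (nat_lit 0) (nat_lit 13914884079330) (nat_lit 0) (nat_lit 0) (nat_lit 0) (nat_lit 0) (nat_lit 0) (nat_lit 0) (nat_lit 1) (nat_lit 0) (nat_lit 1) (nat_lit 0) (nat_lit 483) (nat_lit 409) (nat_lit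 188))) (XT.nd (nat_lit 94) (nat_lit 0) (nat_lit 0) (XT.lf (nat_lit 0) (nat_lit 15024344418495) (nat_lit 0) (nat_lit 0) (nat_lit 0) (nat_lit 0) (nat_lit 0) (nat_lit 0) (nat_lit 1) (nat_lit 0) (nat_lit 1) (nat_lit 0) (nat_lit 484) (nat_lit 409) (nat_lit 187)) (XT.lf (nat_lit 0) (nat_lit 16222561584815) (nat_lit 0) (nat_lit 0) (nat_lit 0) (nat_lit 0) (nat_lit 0) (nat_lit 0) (nat_lit 1) (nat_lit 0) (nat_lit 1) (nat_lit 0) (nat_lit 485) (nat_lit 409) (nat_lit 186))))) (XT.nd (nat_lit 282) (nat_lit 0) (nat_lit 0) (XT.nd (nat_lit 94) (nat_lit 0) (nat_lit 0) (XT.lf (nat_lit 0) (nat_lit 17516636124461) (nat_lit 0) (nat_lit 0) (nat_lit 0) (nat_lit 0) (nat_lit 0) (nat_lit 0) (nat_lit 1) (nat_lit 0) (nat_lit 1) (nat_lit 0) (nat_lit 486) (nat_lit 409) (nat_lit 185)) (XT.nd (nat_lit 94) (nat_lit 0) (nat_lit 0) (XT.lf (nat_lit 0) (nat_lit 18914236627297) (nat_lit 0) (nat_lit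 0) (nat_lit 0) (nat_lit 0) (nat_lit 0) (nat_lit 0) (nat_lit 1) (nat_lit 0) (nat_lit 1) (nat_lit 0) (nat_lit 487) (nat_lit 409) (nat_lit 184)) (XT.lf (nat_lit 0) (nat_lit 20423645170378) (nat_lit 0) (nat_lit 0) (nat_lit 0) (nat_lit 0) (nat_lit 0) (nat_lit 0) (nat_lit 1) (nat_lit 0) (nat_lit 1) (nat_lit 0) (nat_lit 488) (nat_lit 409) (nat_lit 183)))) (XT.nd (nat_lit 188) (nat_lit 0) (nat_lit 0) (XT.nd (nat_lit 94) (nat_lit 0) (nat_lit 0) (XT.lf (nat_lit 0) (nat_lit 22053806396921) (nat_lit 0) (nat_lit 0) (nat_lit 0) (nat_lit 0) (nat_lit 0) (nat_lit 0) (nat_lit 1) (nat_lit 0) (nat_lit 1) (nat_lit 0) (nat_lit 489) (nat_lit 409) (nat_lit 182)) (XT.lf (nat_lit 0) (nat_lit 23814380521602) (nat_lit 0) (nat_lit 0) (nat_lit 0) (nat_lit 0) (nat_lit 0) (nat_lit 0) (nat_lit 1) (nat_lit 0) (nat_lit 1) (nat_lit 0) (nat_lit 490) (nat_lit 409) (nat_lit 181))) (XT.nd (nat_lit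 94) (nat_lit 0) (nat_lit 0) (XT.lf (nat_lit 0) (nat_lit 25715800576272) (nat_lit 0) (nat_lit 0) (nat_lit 0) (nat_lit 0) (nat_lit 0) (nat_lit 0) (nat_lit 1) (nat_lit 0) (nat_lit 1) (nat_lit 0) (nat_lit 491) (nat_lit 409) (nat_lit 180)) (XT.lf (nat_lit 0) (nat_lit 27769334235328) (nat_lit 0) (nat_lit 0) (nat_lit 0) (nat_lit 0) (nat_lit 0) (nat_lit 0) (nat_lit 1) (nat_lit 0) (nat_lit 1) (nat_lit 0) (nat_lit 492) (nat_lit 409) (nat_lit 179))))))) (XT.nd (nat_lit 60254) (nat_lit 0) (nat_lit 6804) (XT.nd (nat_lit 658) (nat_lit 0) (nat_lit 0) (XT.nd (nat_lit 282) (nat_lit 0) (nat_lit 0) (XT.nd (nat_lit 94) (nat_lit 0) (nat_lit 0) (XT.lf (nat_lit 0) (nat_lit 29987150587120) (nat_lit 0) (nat_lit 0) (nat_lit 0) (nat_lit 0) (nat_lit 0) (nat_lit 0) (nat_lit 1) (nat_lit 0) (nat_lit 1) (nat_lit 0) (nat_lit 493) (nat_lit 409) (nat_lit 178)) (XT.nd (nat_lit 94) (nat_lit 0)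 (nat_lit 0) (XT.lf (nat_lit 0) (nat_lit 32382392247067) (nat_lit 0) (nat_lit 0) (nat_lit 0) (nat_lit 0) (nat_lit 0) (nat_lit 0) (nat_lit 1) (nat_lit 0) (nat_lit 1) (nat_lit 0) (nat_lit 494) (nat_lit 409) (nat_lit 177)) (XT.lf (nat_lit 0) (nat_lit 34969253239819) (nat_lit 0) (nat_lit 0) (nat_lit 0) (nat_lit 0) (nat_lit 0) (nat_lit 0) (nat_lit 1) (nat_lit 0) (nat_lit 1) (nat_lit 0) (nat_lit 495) (nat_lit 409) (nat_lit 176)))) (XT.nd (nat_lit 188) (nat_lit 0) (nat_lit 0) (XT.nd (nat_lit 94) (nat_lit 0) (nat_lit 0) (XT.lf (nat_lit 0) (nat_lit 37763063112001) (nat_lit 0) (nat_lit 0) (nat_lit 0) (nat_lit 0) (nat_lit 0) (nat_lit 0) (nat_lit 1) (nat_lit 0) (nat_lit 1) (nat_lit 0) (nat_lit 496) (nat_lit 409) (nat_lit 175)) (XT.lf (nat_lit 0) (nat_lit 40780377773966) (nat_lit 0) (nat_lit 0) (nat_lit 0) (nat_lit 0) (nat_lit 0) (nat_lit 0) (nat_lit 1) (nat_lit 0) (nat_lit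 1) (nat_lit 0) (nat_lit 497) (nat_lit 409) (nat_lit 174))) (XT.nd (nat_lit 94) (nat_lit 0) (nat_lit 0) (XT.lf (nat_lit 0) (nat_lit 44039077608896) (nat_lit 0) (nat_lit 0) (nat_lit 0) (nat_lit 0) (nat_lit 0) (nat_lit 0) (nat_lit 1) (nat_lit 0) (nat_lit 1) (nat_lit 0) (nat_lit 498) (nat_lit 409) (nat_lit 173)) (XT.lf (nat_lit 0) (nat_lit 47558473430629) (nat_lit 0) (nat_lit 0) (nat_lit 0) (nat_lit 0) (nat_lit 0) (nat_lit 0) (nat_lit 1) (nat_lit 0) (nat_lit 1) (nat_lit 0) (nat_lit 499) (nat_lit 409) (nat_lit 172))))) (XT.nd (nat_lit 282) (nat_lit 0) (nat_lit 0) (XT.nd (nat_lit 94) (nat_lit 0) (nat_lit 0) (XT.lf (nat_lit 0) (nat_lit 51359420918106) (nat_lit 0) (nat_lit 0) (nat_lit 0) (nat_lit 0) (nat_lit 0) (nat_lit 0) (nat_lit 1) (nat_lit 0) (nat_lit 1) (nat_lit 0) (nat_lit 500) (nat_lit 409) (nat_lit 171)) (XT.nd (nat_lit 94) (nat_lit 0) (nat_lit 0) (XT.lf (nat_lit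 0) (nat_lit 55464444204589) (nat_lit 0) (nat_lit 0) (nat_lit 0) (nat_lit 0) (nat_lit 0) (nat_lit 0) (nat_lit 1) (nat_lit 0) (nat_lit 1) (nat_lit 0) (nat_lit 501) (nat_lit 409) (nat_lit 170)) (XT.lf (nat_lit 0) (nat_lit 59897869353996) (nat_lit 0) (nat_lit 0) (nat_lit 0) (nat_lit 0) (nat_lit 0) (nat_lit 0) (nat_lit 1) (nat_lit 0) (nat_lit 1) (nat_lit 0) (nat_lit 502) (nat_lit 409) (nat_lit 169)))) (XT.nd (nat_lit 59126) (nat_lit 0) (nat_lit 10836) (XT.nd (nat_lit 59032) (nat_lit 0) (nat_lit 10752) (XT.lf (nat_lit 0) (nat_lit 64685968515360) (nat_lit 0) (nat_lit 0) (nat_lit 0) (nat_lit 0) (nat_lit 0) (nat_lit 0) (nat_lit 1) (nat_lit 0) (nat_lit 1) (nat_lit 0) (nat_lit 503) (nat_lit 409) (nat_lit 168)) (XT.lf (nat_lit 0) (nat_lit 44734089844) (nat_lit 924) (nat_lit 25208575953) (nat_lit 924) (nat_lit 25208575953) (nat_lit 128) (nat_lit 3) (nat_lit 139) (nat_lit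 3) (nat_lit 139) (nat_lit 5) (nat_lit 410) (nat_lit 410) (nat_lit 260))) (XT.nd (nat_lit 94) (nat_lit 0) (nat_lit 0) (XT.lf (nat_lit 0) (nat_lit 94855966009) (nat_lit 840) (nat_lit 92804658117) (nat_lit 924) (nat_lit 10163505759) (nat_lit 129) (nat_lit 5) (nat_lit 139) (nat_lit 5) (nat_lit 140) (nat_lit 5) (nat_lit 411) (nat_lit 410) (nat_lit 259)) (XT.lf (nat_lit 84) (nat_lit 68610485974) (nat_lit 0) (nat_lit 36386564920) (nat_lit 924) (nat_lit 100734343303) (nat_lit 130) (nat_lit 5) (nat_lit 129) (nat_lit 5) (nat_lit 140) (nat_lit 5) (nat_lit 412) (nat_lit 410) (nat_lit 258)))))) (XT.nd (nat_lit 658) (nat_lit 2520) (nat_lit 0) (XT.nd (nat_lit 282) (nat_lit 1596) (nat_lit 0) (XT.nd (nat_lit 94) (nat_lit 0) (nat_lit 84) (XT.lf (nat_lit 84) (nat_lit 31046810485) (nat_lit 0) (nat_lit 89012839139) (nat_lit 924) (nat_lit 94006078675) (nat_lit 131) (nat_lit 5)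 (nat_lit 130) (nat_lit 5) (nat_lit 141) (nat_lit 5) (nat_lit 413) (nat_lit 410) (nat_lit 257)) (XT.nd (nat_lit 94) (nat_lit 0) (nat_lit 84) (XT.lf (nat_lit 0) (nat_lit 140530947988) (nat_lit 840) (nat_lit 7198448519) (nat_lit 924) (nat_lit 75127228037) (nat_lit 131) (nat_lit 5) (nat_lit 141) (nat_lit 5) (nat_lit 142) (nat_lit 5) (nat_lit 414) (nat_lit 410) (nat_lit 256)) (XT.lf (nat_lit 0) (nat_lit 167377051197) (nat_lit 840) (nat_lit 45266263858) (nat_lit 924) (nat_lit 19470622384) (nat_lit 132) (nat_lit 5) (nat_lit 142) (nat_lit 5) (nat_lit 143) (nat_lit 5) (nat_lit 415) (nat_lit 410) (nat_lit 255)))) (XT.nd (nat_lit 188) (nat_lit 1008) (nat_lit 0) (XT.nd (nat_lit 94) (nat_lit 756) (nat_lit 0) (XT.lf (nat_lit 84) (nat_lit 157104070683) (nat_lit 0) (nat_lit 44337832688) (nat_lit 924) (nat_lit 40416378961) (nat_lit 133) (nat_lit 5) (nat_lit 132) (nat_lit 5)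 (nat_lit 143) (nat_lit 5) (nat_lit 416) (nat_lit 410) (nat_lit 254)) (XT.lf (nat_lit 0) (nat_lit 126838551165) (nat_lit 840) (nat_lit 116320637267) (nat_lit 924) (nat_lit 8976624147) (nat_lit 123) (nat_lit 5) (nat_lit 133) (nat_lit 5) (nat_lit 134) (nat_lit 5) (nat_lit 417) (nat_lit 410) (nat_lit 253))) (XT.nd (nat_lit 94) (nat_lit 420) (nat_lit 0) (XT.lf (nat_lit 0) (nat_lit 29024806004) (nat_lit 588) (nat_lit 166936948805) (nat_lit 84) (nat_lit 67011993521) (nat_lit 116) (nat_lit 5) (nat_lit 123) (nat_lit 5) (nat_lit 117) (nat_lit 5) (nat_lit 418) (nat_lit 410) (nat_lit 252)) (XT.lf (nat_lit 0) (nat_lit 64911188977) (nat_lit 420) (nat_lit 10037894923) (nat_lit 504) (nat_lit 199462415626) (nat_lit 111) (nat_lit 5) (nat_lit 116) (nat_lit 5) (nat_lit 117) (nat_lit 5) (nat_lit 419) (nat_lit 410) (nat_lit 251))))) (XT.nd (nat_lit 376) (nat_lit 1344) (nat_lit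 0) (XT.nd (nat_lit 188) (nat_lit 420) (nat_lit 0) (XT.nd (nat_lit 94) (nat_lit 336) (nat_lit 0) (XT.lf (nat_lit 0) (nat_lit 32669039073) (nat_lit 420) (nat_lit 98322056090) (nat_lit 504) (nat_lit 155450986098) (nat_lit 106) (nat_lit 5) (nat_lit 111) (nat_lit 5) (nat_lit 112) (nat_lit 5) (nat_lit 420) (nat_lit 410) (nat_lit 250)) (XT.lf (nat_lit 0) (nat_lit 636286603) (nat_lit 336) (nat_lit 196363706321) (nat_lit 420) (nat_lit 102160940332) (nat_lit 102) (nat_lit 5) (nat_lit 106) (nat_lit 5) (nat_lit 107) (nat_lit 5) (nat_lit 421) (nat_lit 410) (nat_lit 249))) (XT.nd (nat_lit 94) (nat_lit 420) (nat_lit 0) (XT.lf (nat_lit 0) (nat_lit 274472416132) (nat_lit 420) (nat_lit 29978322923) (nat_lit 84) (nat_lit 8137413673) (nat_lit 102) (nat_lit 5) (nat_lit 107) (nat_lit 5) (nat_lit 103) (nat_lit 5) (nat_lit 422) (nat_lit 410) (nat_lit 248)) (XT.lf (nat_lit 0) (nat_lit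 37633243089) (nat_lit 420) (nat_lit 62094448554) (nat_lit 84) (nat_lit 226958914220) (nat_lit 97) (nat_lit 5) (nat_lit 102) (nat_lit 5) (nat_lit 98) (nat_lit 5) (nat_lit 423) (nat_lit 410) (nat_lit 247)))) (XT.nd (nat_lit 188) (nat_lit 672) (nat_lit 0) (XT.nd (nat_lit 94) (nat_lit 336) (nat_lit 0) (XT.lf (nat_lit 0) (nat_lit 124524540567) (nat_lit 420) (nat_lit 94399998123) (nat_lit 84) (nat_lit 122636264693) (nat_lit 93) (nat_lit 5) (nat_lit 98) (nat_lit 5) (nat_lit 94) (nat_lit 5) (nat_lit 424) (nat_lit 410) (nat_lit 246)) (XT.lf (nat_lit 0) (nat_lit 224867958354) (nat_lit 420) (nat_lit 125897173954) (nat_lit 84) (nat_lit 6534763572) (nat_lit 89) (nat_lit 5) (nat_lit 94) (nat_lit 5) (nat_lit 90) (nat_lit 5) (nat_lit 425) (nat_lit 410) (nat_lit 245))) (XT.nd (nat_lit 94) (nat_lit 420) (nat_lit 0) (XT.lf (nat_lit 0) (nat_lit 215606944315) (nat_lit 252) (nat_lit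 126360828111) (nat_lit 336) (nat_lit 31893897207) (nat_lit 86) (nat_lit 5) (nat_lit 89) (nat_lit 5) (nat_lit 90) (nat_lit 5) (nat_lit 426) (nat_lit 410) (nat_lit 244)) (XT.lf (nat_lit 0) (nat_lit 81542807991) (nat_lit 420) (nat_lit 190800530434) (nat_lit 84) (nat_lit 118979677240) (nat_lit 81) (nat_lit 5) (nat_lit 86) (nat_lit 5) (nat_lit 82) (nat_lit 5) (nat_lit 427) (nat_lit 410) (nat_lit 243))))))))
noncomputable def xc192 : XT := (XT.nd (nat_lit 2632) (nat_lit 1596) (nat_lit 0) (XT.nd (nat_lit 1316) (nat_lit 2100) (nat_lit 0) (XT.nd (nat_lit 658) (nat_lit 1344) (nat_lit 0) (XT.nd (nat_lit 282) (nat_lit 924) (nat_lit 0) (XT.nd (nat_lit 94) (nat_lit 588) (nat_lit 0) (XT.lf (nat_lit 0) (nat_lit 186877090424) (nat_lit 252) (nat_lit 23925019798) (nat_lit 336) (nat_lit 198959763247) (nat_lit 78) (nat_lit 5) (nat_lit 81) (nat_lit 5) (nat_lit 82) (nat_lit 5) (nat_lit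 428) (nat_lit 410) (nat_lit 242)) (XT.nd (nat_lit 94) (nat_lit 336) (nat_lit 0) (XT.lf (nat_lit 0) (nat_lit 173764347089) (nat_lit 252) (nat_lit 186544013193) (nat_lit 336) (nat_lit 68872169434) (nat_lit 75) (nat_lit 5) (nat_lit 78) (nat_lit 5) (nat_lit 79) (nat_lit 5) (nat_lit 429) (nat_lit 410) (nat_lit 241)) (XT.lf (nat_lit 0) (nat_lit 77604128258) (nat_lit 336) (nat_lit 287315290926) (nat_lit 84) (nat_lit 84763644860) (nat_lit 71) (nat_lit 5) (nat_lit 75) (nat_lit 5) (nat_lit 72) (nat_lit 5) (nat_lit 430) (nat_lit 410) (nat_lit 240)))) (XT.nd (nat_lit 188) (nat_lit 504) (nat_lit 0) (XT.nd (nat_lit 94) (nat_lit 168) (nat_lit 0) (XT.lf (nat_lit 0) (nat_lit 151563032117) (nat_lit 252) (nat_lit 91888635672) (nat_lit 336) (nat_lit 227814376565) (nat_lit 68) (nat_lit 5) (nat_lit 71) (nat_lit 5) (nat_lit 72) (nat_lit 5) (nat_lit 431) (nat_lit 410) (nat_lit 239))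 (XT.lf (nat_lit 0) (nat_lit 142805456753) (nat_lit 168) (nat_lit 290247109166) (nat_lit 252) (nat_lit 60998819396) (nat_lit 66) (nat_lit 5) (nat_lit 68) (nat_lit 5) (nat_lit 69) (nat_lit 5) (nat_lit 432) (nat_lit 410) (nat_lit 238))) (XT.nd (nat_lit 94) (nat_lit 168) (nat_lit 0) (XT.lf (nat_lit 0) (nat_lit 124864206143) (nat_lit 336) (nat_lit 382071430577) (nat_lit 84) (nat_lit 11155086638) (nat_lit 62) (nat_lit 5) (nat_lit 66) (nat_lit 5) (nat_lit 63) (nat_lit 5) (nat_lit 433) (nat_lit 410) (nat_lit 237)) (XT.lf (nat_lit 0) (nat_lit 129172568935) (nat_lit 168) (nat_lit 207444713347) (nat_lit 252) (nat_lit 206728021628) (nat_lit 60) (nat_lit 5) (nat_lit 62) (nat_lit 5) (nat_lit 63) (nat_lit 5) (nat_lit 434) (nat_lit 410) (nat_lit 236))))) (XT.nd (nat_lit 282) (nat_lit 756) (nat_lit 0) (XT.nd (nat_lit 94) (nat_lit 336) (nat_lit 0) (XT.lf (nat_lit 0) (nat_lit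 5588838986) (nat_lit 252) (nat_lit 443372039656) (nat_lit 84) (nat_lit 121127090010) (nat_lit 57) (nat_lit 5) (nat_lit 60) (nat_lit 5) (nat_lit 58) (nat_lit 5) (nat_lit 435) (nat_lit 410) (nat_lit 235)) (XT.nd (nat_lit 94) (nat_lit 168) (nat_lit 0) (XT.lf (nat_lit 0) (nat_lit 123920463464) (nat_lit 168) (nat_lit 116590129713) (nat_lit 252) (nat_lit 357646889820) (nat_lit 55) (nat_lit 5) (nat_lit 57) (nat_lit 5) (nat_lit 58) (nat_lit 5) (nat_lit 436) (nat_lit 410) (nat_lit 234)) (XT.lf (nat_lit 0) (nat_lit 124413847113) (nat_lit 168) (nat_lit 383388559979) (nat_lit 252) (nat_lit 119991335426) (nat_lit 53) (nat_lit 5) (nat_lit 55) (nat_lit 5) (nat_lit 56) (nat_lit 5) (nat_lit 437) (nat_lit 410) (nat_lit 233)))) (XT.nd (nat_lit 188) (nat_lit 336) (nat_lit 0) (XT.nd (nat_lit 94) (nat_lit 168) (nat_lit 0) (XT.lf (nat_lit 0) (nat_lit 128377274571) (nat_lit 168)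 (nat_lit 16291389217) (nat_lit 252) (nat_lit 514407218364) (nat_lit 50) (nat_lit 5) (nat_lit 52) (nat_lit 5) (nat_lit 53) (nat_lit 5) (nat_lit 438) (nat_lit 410) (nat_lit 232)) (XT.lf (nat_lit 0) (nat_lit 132362084644) (nat_lit 168) (nat_lit 310906016754) (nat_lit 252) (nat_lit 248645610487) (nat_lit 48) (nat_lit 5) (nat_lit 50) (nat_lit 5) (nat_lit 51) (nat_lit 5) (nat_lit 439) (nat_lit 410) (nat_lit 231))) (XT.nd (nat_lit 94) (nat_lit 168) (nat_lit 0) (XT.lf (nat_lit 0) (nat_lit 50552385578) (nat_lit 168) (nat_lit 584147565556) (nat_lit 84) (nat_lit 91978470251) (nat_lit 46) (nat_lit 5) (nat_lit 48) (nat_lit 5) (nat_lit 47) (nat_lit 5) (nat_lit 440) (nat_lit 410) (nat_lit 230)) (XT.lf (nat_lit 0) (nat_lit 152304107115) (nat_lit 168) (nat_lit 230314333376) (nat_lit 252) (nat_lit 380519881769) (nat_lit 44) (nat_lit 5) (nat_lit 46) (nat_lit 5) (nat_lit 47)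 (nat_lit 5) (nat_lit 441) (nat_lit 410) (nat_lit 229)))))) (XT.nd (nat_lit 658) (nat_lit 1008) (nat_lit 0) (XT.nd (nat_lit 282) (nat_lit 672) (nat_lit 0) (XT.nd (nat_lit 94) (nat_lit 336) (nat_lit 0) (XT.lf (nat_lit 0) (nat_lit 168529642924) (nat_lit 84) (nat_lit 588916407475) (nat_lit 168) (nat_lit 44259151276) (nat_lit 43) (nat_lit 5) (nat_lit 44) (nat_lit 5) (nat_lit 45) (nat_lit 4) (nat_lit 442) (nat_lit 410) (nat_lit 228)) (XT.nd (nat_lit 94) (nat_lit 84) (nat_lit 0) (XT.lf (nat_lit 0) (nat_lit 186150855452) (nat_lit 168) (nat_lit 140149278997) (nat_lit 252) (nat_lit 515928120637) (nat_lit 40) (nat_lit 5) (nat_lit 42) (nat_lit 5) (nat_lit 43) (nat_lit 5) (nat_lit 443) (nat_lit 410) (nat_lit 227)) (XT.lf (nat_lit 0) (nat_lit 208561346959) (nat_lit 84) (nat_lit 536258322159) (nat_lit 168) (nat_lit 140143899100) (nat_lit 39) (nat_lit 5) (nat_lit 40) (nat_lit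 5) (nat_lit 41) (nat_lit 4) (nat_lit 444) (nat_lit 410) (nat_lit 226)))) (XT.nd (nat_lit 188) (nat_lit 336) (nat_lit 0) (XT.nd (nat_lit 94) (nat_lit 84) (nat_lit 0) (XT.lf (nat_lit 0) (nat_lit 236111258422) (nat_lit 168) (nat_lit 38752915999) (nat_lit 252) (nat_lit 655162849935) (nat_lit 36) (nat_lit 5) (nat_lit 38) (nat_lit 5) (nat_lit 39) (nat_lit 5) (nat_lit 445) (nat_lit 410) (nat_lit 225)) (XT.lf (nat_lit 0) (nat_lit 265841944067) (nat_lit 84) (nat_lit 476296568899) (nat_lit 168) (nat_lit 235243393034) (nat_lit 35) (nat_lit 5) (nat_lit 36) (nat_lit 5) (nat_lit 37) (nat_lit 4) (nat_lit 446) (nat_lit 410) (nat_lit 224))) (XT.nd (nat_lit 94) (nat_lit 84) (nat_lit 0) (XT.lf (nat_lit 0) (nat_lit 230163183452) (nat_lit 252) (nat_lit 723919820556) (nat_lit 84) (nat_lit 73327806443) (nat_lit 32) (nat_lit 5) (nat_lit 35) (nat_lit 5) (nat_lit 33) (nat_lit 4) (nat_lit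 447) (nat_lit 410) (nat_lit 223)) (XT.lf (nat_lit 0) (nat_lit 343090882891) (nat_lit 84) (nat_lit 407565350916) (nat_lit 168) (nat_lit 329288184482) (nat_lit 31) (nat_lit 5) (nat_lit 32) (nat_lit 5) (nat_lit 33) (nat_lit 4) (nat_lit 448) (nat_lit 410) (nat_lit 222))))) (XT.nd (nat_lit 282) (nat_lit 504) (nat_lit 0) (XT.nd (nat_lit 94) (nat_lit 252) (nat_lit 0) (XT.lf (nat_lit 0) (nat_lit 192662909907) (nat_lit 252) (nat_lit 743854789459) (nat_lit 84) (nat_lit 198915965770) (nat_lit 28) (nat_lit 5) (nat_lit 31) (nat_lit 5) (nat_lit 29) (nat_lit 4) (nat_lit 449) (nat_lit 410) (nat_lit 221)) (XT.nd (nat_lit 94) (nat_lit 168) (nat_lit 0) (XT.lf (nat_lit 0) (nat_lit 443435918043) (nat_lit 84) (nat_lit 328393210474) (nat_lit 168) (nat_lit 421913230337) (nat_lit 27) (nat_lit 5) (nat_lit 28) (nat_lit 5) (nat_lit 29) (nat_lit 4) (nat_lit 450) (nat_lit 410) (nat_lit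 220)) (XT.lf (nat_lit 0) (nat_lit 162756119450) (nat_lit 168) (nat_lit 750934558035) (nat_lit 84) (nat_lit 341583116826) (nat_lit 25) (nat_lit 5) (nat_lit 27) (nat_lit 5) (nat_lit 26) (nat_lit 4) (nat_lit 451) (nat_lit 410) (nat_lit 219)))) (XT.nd (nat_lit 188) (nat_lit 252) (nat_lit 0) (XT.nd (nat_lit 94) (nat_lit 168) (nat_lit 0) (XT.lf (nat_lit 0) (nat_lit 570468177151) (nat_lit 84) (nat_lit 236874658579) (nat_lit 168) (nat_lit 512642798215) (nat_lit 24) (nat_lit 5) (nat_lit 25) (nat_lit 5) (nat_lit 26) (nat_lit 4) (nat_lit 452) (nat_lit 410) (nat_lit 218)) (XT.lf (nat_lit 0) (nat_lit 141621918692) (nat_lit 168) (nat_lit 742612844612) (nat_lit 84) (nat_lit 503969136205) (nat_lit 22) (nat_lit 5) (nat_lit 24) (nat_lit 5) (nat_lit 23) (nat_lit 4) (nat_lit 453) (nat_lit 410) (nat_lit 217))) (XT.nd (nat_lit 94) (nat_lit 168) (nat_lit 0) (XT.lf (nat_lit 0) (nat_lit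 728304392001) (nat_lit 84) (nat_lit 130838143136) (nat_lit 168) (nat_lit 600873130733) (nat_lit 21) (nat_lit 5) (nat_lit 22) (nat_lit 5) (nat_lit 23) (nat_lit 4) (nat_lit 454) (nat_lit 410) (nat_lit 216)) (XT.lf (nat_lit 0) (nat_lit 130645992682) (nat_lit 168) (nat_lit 715926029403) (nat_lit 84) (nat_lit 689062929313) (nat_lit 19) (nat_lit 5) (nat_lit 21) (nat_lit 5) (nat_lit 20) (nat_lit 4) (nat_lit 455) (nat_lit 410) (nat_lit 215))))))) (XT.nd (nat_lit 1316) (nat_lit 0) (nat_lit 0) (XT.nd (nat_lit 658) (nat_lit 756) (nat_lit 0) (XT.nd (nat_lit 282) (nat_lit 504) (nat_lit 0) (XT.nd (nat_lit 94) (nat_lit 252) (nat_lit 0) (XT.lf (nat_lit 0) (nat_lit 921657193941) (nat_lit 84) (nat_lit 7809894093) (nat_lit 168) (nat_lit 685852567296) (nat_lit 18) (nat_lit 5) (nat_lit 19) (nat_lit 5) (nat_lit 20) (nat_lit 4) (nat_lit 456) (nat_lit 410) (nat_lit 214)) (XT.nd (nat_lit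 94) (nat_lit 84) (nat_lit 0) (XT.lf (nat_lit 0) (nat_lit 131449315708) (nat_lit 168) (nat_lit 667434004717) (nat_lit 84) (nat_lit 900247860576) (nat_lit 16) (nat_lit 5) (nat_lit 18) (nat_lit 5) (nat_lit 17) (nat_lit 4) (nat_lit 457) (nat_lit 410) (nat_lit 213)) (XT.lf (nat_lit 0) (nat_lit 1022995759845) (nat_lit 168) (nat_lit 633740058091) (nat_lit 0) (nat_lit 130705169380) (nat_lit 15) (nat_lit 5) (nat_lit 17) (nat_lit 4) (nat_lit 15) (nat_lit 4) (nat_lit 458) (nat_lit 410) (nat_lit 212)))) (XT.nd (nat_lit 188) (nat_lit 252) (nat_lit 0) (XT.nd (nat_lit 94) (nat_lit 84) (nat_lit 0) (XT.lf (nat_lit 0) (nat_lit 145920734041) (nat_lit 168) (nat_lit 593153101611) (nat_lit 84) (nat_lit 1141352864894) (nat_lit 13) (nat_lit 5) (nat_lit 15) (nat_lit 5) (nat_lit 14) (nat_lit 4) (nat_lit 459) (nat_lit 410) (nat_lit 211)) (XT.lf (nat_lit 0) (nat_lit 1141048591116) (nat_lit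 168) (nat_lit 545992332941) (nat_lit 0) (nat_lit 291247999546) (nat_lit 12) (nat_lit 5) (nat_lit 14) (nat_lit 4) (nat_lit 12) (nat_lit 4) (nat_lit 460) (nat_lit 410) (nat_lit 210))) (XT.nd (nat_lit 94) (nat_lit 84) (nat_lit 0) (XT.lf (nat_lit 0) (nat_lit 176253916037) (nat_lit 168) (nat_lit 488480076700) (nat_lit 84) (nat_lit 1416709938454) (nat_lit 10) (nat_lit 5) (nat_lit 12) (nat_lit 5) (nat_lit 11) (nat_lit 4) (nat_lit 461) (nat_lit 410) (nat_lit 209)) (XT.lf (nat_lit 0) (nat_lit 1286932508424) (nat_lit 168) (nat_lit 425362099223) (nat_lit 0) (nat_lit 477598587830) (nat_lit 9) (nat_lit 5) (nat_lit 11) (nat_lit 4) (nat_lit 9) (nat_lit 4) (nat_lit 462) (nat_lit 410) (nat_lit 208))))) (XT.nd (nat_lit 282) (nat_lit 336) (nat_lit 0) (XT.nd (nat_lit 94) (nat_lit 252) (nat_lit 0) (XT.lf (nat_lit 0) (nat_lit 224989226939) (nat_lit 168) (nat_lit 348106015989) (nat_lit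 84) (nat_lit 1731218791261) (nat_lit 7) (nat_lit 5) (nat_lit 9) (nat_lit 5) (nat_lit 8) (nat_lit 4) (nat_lit 463) (nat_lit 410) (nat_lit 207)) (XT.nd (nat_lit 94) (nat_lit 168) (nat_lit 0) (XT.lf (nat_lit 0) (nat_lit 1464564636371) (nat_lit 168) (nat_lit 266162122805) (nat_lit 0) (nat_lit 693770406799) (nat_lit 6) (nat_lit 5) (nat_lit 8) (nat_lit 4) (nat_lit 6) (nat_lit 4) (nat_lit 464) (nat_lit 410) (nat_lit 206)) (XT.lf (nat_lit 0) (nat_lit 295061155174) (nat_lit 168) (nat_lit 165918870137) (nat_lit 84) (nat_lit 2090419538102) (nat_lit 4) (nat_lit 5) (nat_lit 6) (nat_lit 5) (nat_lit 5) (nat_lit 4) (nat_lit 465) (nat_lit 410) (nat_lit 205)))) (XT.nd (nat_lit 188) (nat_lit 0) (nat_lit 0) (XT.nd (nat_lit 94) (nat_lit 252) (nat_lit 0) (XT.lf (nat_lit 0) (nat_lit 1678413958526) (nat_lit 168) (nat_lit 61849614829) (nat_lit 0) (nat_lit 944324200168) (nat_lit 3)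 (nat_lit 5) (nat_lit 5) (nat_lit 4) (nat_lit 3) (nat_lit 4) (nat_lit 466) (nat_lit 410) (nat_lit 204)) (XT.lf (nat_lit 0) (nat_lit 4098371443798) (nat_lit 0) (nat_lit 0) (nat_lit 0) (nat_lit 0) (nat_lit 0) (nat_lit 0) (nat_lit 1) (nat_lit 0) (nat_lit 1) (nat_lit 0) (nat_lit 467) (nat_lit 410) (nat_lit 203))) (XT.nd (nat_lit 94) (nat_lit 0) (nat_lit 0) (XT.lf (nat_lit 0) (nat_lit 4422212340529) (nat_lit 0) (nat_lit 0) (nat_lit 0) (nat_lit 0) (nat_lit 0) (nat_lit 0) (nat_lit 1) (nat_lit 0) (nat_lit 1) (nat_lit 0) (nat_lit 468) (nat_lit 410) (nat_lit 202)) (XT.lf (nat_lit 0) (nat_lit 4771960509068) (nat_lit 0) (nat_lit 0) (nat_lit 0) (nat_lit 0) (nat_lit 0) (nat_lit 0) (nat_lit 1) (nat_lit 0) (nat_lit 1) (nat_lit 0) (nat_lit 469) (nat_lit 410) (nat_lit 201)))))) (XT.nd (nat_lit 658) (nat_lit 0) (nat_lit 0) (XT.nd (nat_lit 282) (nat_lit 0) (nat_lit 0) (XT.nd (nat_lit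 94) (nat_lit 0) (nat_lit 0) (XT.lf (nat_lit 0) (nat_lit 5149688531154) (nat_lit 0) (nat_lit 0) (nat_lit 0) (nat_lit 0) (nat_lit 0) (nat_lit 0) (nat_lit 1) (nat_lit 0) (nat_lit 1) (nat_lit 0) (nat_lit 470) (nat_lit 410) (nat_lit 200)) (XT.nd (nat_lit 94) (nat_lit 0) (nat_lit 0) (XT.lf (nat_lit 0) (nat_lit 5557634795066) (nat_lit 0) (nat_lit 0) (nat_lit 0) (nat_lit 0) (nat_lit 0) (nat_lit 0) (nat_lit 1) (nat_lit 0) (nat_lit 1) (nat_lit 0) (nat_lit 471) (nat_lit 410) (nat_lit 199)) (XT.lf (nat_lit 0) (nat_lit 5998216760146) (nat_lit 0) (nat_lit 0) (nat_lit 0) (nat_lit 0) (nat_lit 0) (nat_lit 0) (nat_lit 1) (nat_lit 0) (nat_lit 1) (nat_lit 0) (nat_lit 472) (nat_lit 410) (nat_lit 198)))) (XT.nd (nat_lit 188) (nat_lit 0) (nat_lit 0) (XT.nd (nat_lit 94) (nat_lit 0) (nat_lit 0) (XT.lf (nat_lit 0) (nat_lit 6474045282483) (nat_lit 0) (nat_lit 0) (nat_lit 0) (nat_lit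 0) (nat_lit 0) (nat_lit 0) (nat_lit 1) (nat_lit 0) (nat_lit 1) (nat_lit 0) (nat_lit 473) (nat_lit 410) (nat_lit 197)) (XT.lf (nat_lit 0) (nat_lit 6987940086655) (nat_lit 0) (nat_lit 0) (nat_lit 0) (nat_lit 0) (nat_lit 0) (nat_lit 0) (nat_lit 1) (nat_lit 0) (nat_lit 1) (nat_lit 0) (nat_lit 474) (nat_lit 410) (nat_lit 196))) (XT.nd (nat_lit 94) (nat_lit 0) (nat_lit 0) (XT.lf (nat_lit 0) (nat_lit 7542946475204) (nat_lit 0) (nat_lit 0) (nat_lit 0) (nat_lit 0) (nat_lit 0) (nat_lit 0) (nat_lit 1) (nat_lit 0) (nat_lit 1) (nat_lit 0) (nat_lit 475) (nat_lit 410) (nat_lit 195)) (XT.lf (nat_lit 0) (nat_lit 8142353374878) (nat_lit 0) (nat_lit 0) (nat_lit 0) (nat_lit 0) (nat_lit 0) (nat_lit 0) (nat_lit 1) (nat_lit 0) (nat_lit 1) (nat_lit 0) (nat_lit 476) (nat_lit 410) (nat_lit 194))))) (XT.nd (nat_lit 282) (nat_lit 0) (nat_lit 0) (XT.nd (nat_lit 94) (nat_lit 0) (nat_lit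 0) (XT.lf (nat_lit 0) (nat_lit 8789712826562) (nat_lit 0) (nat_lit 0) (nat_lit 0) (nat_lit 0) (nat_lit 0) (nat_lit 0) (nat_lit 1) (nat_lit 0) (nat_lit 1) (nat_lit 0) (nat_lit 477) (nat_lit 410) (nat_lit 193)) (XT.nd (nat_lit 94) (nat_lit 0) (nat_lit 0) (XT.lf (nat_lit 0) (nat_lit 9488861034417) (nat_lit 0) (nat_lit 0) (nat_lit 0) (nat_lit 0) (nat_lit 0) (nat_lit 0) (nat_lit 1) (nat_lit 0) (nat_lit 1) (nat_lit 0) (nat_lit 478) (nat_lit 410) (nat_lit 192)) (XT.lf (nat_lit 0) (nat_lit 10243941098931) (nat_lit 0) (nat_lit 0) (nat_lit 0) (nat_lit 0) (nat_lit 0) (nat_lit 0) (nat_lit 1) (nat_lit 0) (nat_lit 1) (nat_lit 0) (nat_lit 479) (nat_lit 410) (nat_lit 191)))) (XT.nd (nat_lit 188) (nat_lit 0) (nat_lit 0) (XT.nd (nat_lit 94) (nat_lit 0) (nat_lit 0) (XT.lf (nat_lit 0) (nat_lit 11059427568637) (nat_lit 0) (nat_lit 0) (nat_lit 0) (nat_lit 0) (nat_lit 0) (nat_lit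 0) (nat_lit 1) (nat_lit 0) (nat_lit 1) (nat_lit 0) (nat_lit 480) (nat_lit 410) (nat_lit 190)) (XT.lf (nat_lit 0) (nat_lit 11940152955946) (nat_lit 0) (nat_lit 0) (nat_lit 0) (nat_lit 0) (nat_lit 0) (nat_lit 0) (nat_lit 1) (nat_lit 0) (nat_lit 1) (nat_lit 0) (nat_lit 481) (nat_lit 410) (nat_lit 189))) (XT.nd (nat_lit 94) (nat_lit 0) (nat_lit 0) (XT.lf (nat_lit 0) (nat_lit 12891336374266) (nat_lit 0) (nat_lit 0) (nat_lit 0) (nat_lit 0) (nat_lit 0) (nat_lit 0) (nat_lit 1) (nat_lit 0) (nat_lit 1) (nat_lit 0) (nat_lit 482) (nat_lit 410) (nat_lit 188)) (XT.lf (nat_lit 0) (nat_lit 13918614466075) (nat_lit 0) (nat_lit 0) (nat_lit 0) (nat_lit 0) (nat_lit 0) (nat_lit 0) (nat_lit 1) (nat_lit 0) (nat_lit 1) (nat_lit 0) (nat_lit 483) (nat_lit 410) (nat_lit 187))))))))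
noncomputable def xc193 : XT := (XT.nd (nat_lit 61664) (nat_lit 0) (nat_lit 2940) (XT.nd (nat_lit 1316) (nat_lit 0) (nat_lit 0) (XT.nd (nat_lit 658) (nat_lit 0) (nat_lit 0) (XT.nd (nat_lit 282) (nat_lit 0) (nat_lit 0) (XT.nd (nat_lit 94) (nat_lit 0) (nat_lit 0) (XT.lf (nat_lit 0) (nat_lit 15028074805250) (nat_lit 0) (nat_lit 0) (nat_lit 0) (nat_lit 0) (nat_lit 0) (nat_lit 0) (nat_lit 1) (nat_lit 0) (nat_lit 1) (nat_lit 0) (nat_lit 484) (nat_lit 410) (nat_lit 186)) (XT.nd (nat_lit 94) (nat_lit 0) (nat_lit 0) (XT.lf (nat_lit 0) (nat_lit 16226291971580) (nat_lit 0) (nat_lit 0) (nat_lit 0) (nat_lit 0) (nat_lit 0) (nat_lit 0) (nat_lit 1) (nat_lit 0) (nat_lit 1) (nat_lit 0) (nat_lit 485) (nat_lit 410) (nat_lit 185)) (XT.lf (nat_lit 0) (nat_lit 17520366511235) (nat_lit 0) (nat_lit 0) (nat_lit 0) (nat_lit 0) (nat_lit 0) (nat_lit 0) (nat_lit 1) (nat_lit 0) (nat_lit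 1) (nat_lit 0) (nat_lit 486) (nat_lit 410) (nat_lit 184)))) (XT.nd (nat_lit 188) (nat_lit 0) (nat_lit 0) (XT.nd (nat_lit 94) (nat_lit 0) (nat_lit 0) (XT.lf (nat_lit 0) (nat_lit 18917967014080) (nat_lit 0) (nat_lit 0) (nat_lit 0) (nat_lit 0) (nat_lit 0) (nat_lit 0) (nat_lit 1) (nat_lit 0) (nat_lit 1) (nat_lit 0) (nat_lit 487) (nat_lit 410) (nat_lit 183)) (XT.lf (nat_lit 0) (nat_lit 20427375557168) (nat_lit 0) (nat_lit 0) (nat_lit 0) (nat_lit 0) (nat_lit 0) (nat_lit 0) (nat_lit 1) (nat_lit 0) (nat_lit 1) (nat_lit 0) (nat_lit 488) (nat_lit 410) (nat_lit 182))) (XT.nd (nat_lit 94) (nat_lit 0) (nat_lit 0) (XT.lf (nat_lit 0) (nat_lit 22057536783718) (nat_lit 0) (nat_lit 0) (nat_lit 0) (nat_lit 0) (nat_lit 0) (nat_lit 0) (nat_lit 1) (nat_lit 0) (nat_lit 1) (nat_lit 0) (nat_lit 489) (nat_lit 410) (nat_lit 181)) (XT.lf (nat_lit 0) (nat_lit 23818110908406) (nat_lit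 0) (nat_lit 0) (nat_lit 0) (nat_lit 0) (nat_lit 0) (nat_lit 0) (nat_lit 1) (nat_lit 0) (nat_lit 1) (nat_lit 0) (nat_lit 490) (nat_lit 410) (nat_lit 180))))) (XT.nd (nat_lit 282) (nat_lit 0) (nat_lit 0) (XT.nd (nat_lit 94) (nat_lit 0) (nat_lit 0) (XT.lf (nat_lit 0) (nat_lit 25719530963082) (nat_lit 0) (nat_lit 0) (nat_lit 0) (nat_lit 0) (nat_lit 0) (nat_lit 0) (nat_lit 1) (nat_lit 0) (nat_lit 1) (nat_lit 0) (nat_lit 491) (nat_lit 410) (nat_lit 179)) (XT.nd (nat_lit 94) (nat_lit 0) (nat_lit 0) (XT.lf (nat_lit 0) (nat_lit 27773064622144) (nat_lit 0) (nat_lit 0) (nat_lit 0) (nat_lit 0) (nat_lit 0) (nat_lit 0) (nat_lit 1) (nat_lit 0) (nat_lit 1) (nat_lit 0) (nat_lit 492) (nat_lit 410) (nat_lit 178)) (XT.lf (nat_lit 0) (nat_lit 29990880973941) (nat_lit 0) (nat_lit 0) (nat_lit 0) (nat_lit 0) (nat_lit 0) (nat_lit 0) (nat_lit 1) (nat_lit 0) (nat_lit 1) (nat_lit 0)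 (nat_lit 493) (nat_lit 410) (nat_lit 177)))) (XT.nd (nat_lit 188) (nat_lit 0) (nat_lit 0) (XT.nd (nat_lit 94) (nat_lit 0) (nat_lit 0) (XT.lf (nat_lit 0) (nat_lit 32386122633892) (nat_lit 0) (nat_lit 0) (nat_lit 0) (nat_lit 0) (nat_lit 0) (nat_lit 0) (nat_lit 1) (nat_lit 0) (nat_lit 1) (nat_lit 0) (nat_lit 494) (nat_lit 410) (nat_lit 176)) (XT.lf (nat_lit 0) (nat_lit 34972983626649) (nat_lit 0) (nat_lit 0) (nat_lit 0) (nat_lit 0) (nat_lit 0) (nat_lit 0) (nat_lit 1) (nat_lit 0) (nat_lit 1) (nat_lit 0) (nat_lit 495) (nat_lit 410) (nat_lit 175))) (XT.nd (nat_lit 94) (nat_lit 0) (nat_lit 0) (XT.lf (nat_lit 0) (nat_lit 37766793498835) (nat_lit 0) (nat_lit 0) (nat_lit 0) (nat_lit 0) (nat_lit 0) (nat_lit 0) (nat_lit 1) (nat_lit 0) (nat_lit 1) (nat_lit 0) (nat_lit 496) (nat_lit 410) (nat_lit 174)) (XT.lf (nat_lit 0) (nat_lit 40784108160804) (nat_lit 0) (nat_lit 0)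 (nat_lit 0) (nat_lit 0) (nat_lit 0) (nat_lit 0) (nat_lit 1) (nat_lit 0) (nat_lit 1) (nat_lit 0) (nat_lit 497) (nat_lit 410) (nat_lit 173)))))) (XT.nd (nat_lit 59690) (nat_lit 0) (nat_lit 10332) (XT.nd (nat_lit 282) (nat_lit 0) (nat_lit 0) (XT.nd (nat_lit 94) (nat_lit 0) (nat_lit 0) (XT.lf (nat_lit 0) (nat_lit 44042807995738) (nat_lit 0) (nat_lit 0) (nat_lit 0) (nat_lit 0) (nat_lit 0) (nat_lit 0) (nat_lit 1) (nat_lit 0) (nat_lit 1) (nat_lit 0) (nat_lit 498) (nat_lit 410) (nat_lit 172)) (XT.nd (nat_lit 94) (nat_lit 0) (nat_lit 0) (XT.lf (nat_lit 0) (nat_lit 47562203817474) (nat_lit 0) (nat_lit 0) (nat_lit 0) (nat_lit 0) (nat_lit 0) (nat_lit 0) (nat_lit 1) (nat_lit 0) (nat_lit 1) (nat_lit 0) (nat_lit 499) (nat_lit 410) (nat_lit 171)) (XT.lf (nat_lit 0) (nat_lit 51363151304955) (nat_lit 0) (nat_lit 0) (nat_lit 0) (nat_lit 0) (nat_lit 0) (nat_lit 0) (nat_lit 1)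 (nat_lit 0) (nat_lit 1) (nat_lit 0) (nat_lit 500) (nat_lit 410) (nat_lit 170)))) (XT.nd (nat_lit 188) (nat_lit 0) (nat_lit 0) (XT.nd (nat_lit 94) (nat_lit 0) (nat_lit 0) (XT.lf (nat_lit 0) (nat_lit 55468174591440) (nat_lit 0) (nat_lit 0) (nat_lit 0) (nat_lit 0) (nat_lit 0) (nat_lit 0) (nat_lit 1) (nat_lit 0) (nat_lit 1) (nat_lit 0) (nat_lit 501) (nat_lit 410) (nat_lit 169)) (XT.lf (nat_lit 0) (nat_lit 59901599740849) (nat_lit 0) (nat_lit 0) (nat_lit 0) (nat_lit 0) (nat_lit 0) (nat_lit 0) (nat_lit 1) (nat_lit 0) (nat_lit 1) (nat_lit 0) (nat_lit 502) (nat_lit 410) (nat_lit 168))) (XT.nd (nat_lit 59126) (nat_lit 0) (nat_lit 10752) (XT.lf (nat_lit 0) (nat_lit 64689698902216) (nat_lit 0) (nat_lit 0) (nat_lit 0) (nat_lit 0) (nat_lit 0) (nat_lit 0) (nat_lit 1) (nat_lit 0) (nat_lit 1) (nat_lit 0) (nat_lit 503) (nat_lit 410) (nat_lit 167)) (XT.lf (nat_lit 0) (nat_lit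 48315545801) (nat_lit 924) (nat_lit 27223829426) (nat_lit 924) (nat_lit 27223829426) (nat_lit 128) (nat_lit 3) (nat_lit 139) (nat_lit 3) (nat_lit 139) (nat_lit 5) (nat_lit 411) (nat_lit 411) (nat_lit 258))))) (XT.nd (nat_lit 282) (nat_lit 504) (nat_lit 0) (XT.nd (nat_lit 94) (nat_lit 0) (nat_lit 0) (XT.lf (nat_lit 0) (nat_lit 102449502581) (nat_lit 840) (nat_lit 100225998500) (nat_lit 924) (nat_lit 10974306230) (nat_lit 129) (nat_lit 5) (nat_lit 139) (nat_lit 5) (nat_lit 140) (nat_lit 5) (nat_lit 412) (nat_lit 411) (nat_lit 257)) (XT.nd (nat_lit 94) (nat_lit 0) (nat_lit 84) (XT.lf (nat_lit 84) (nat_lit 74102225339) (nat_lit 0) (nat_lit 39299319439) (nat_lit 924) (nat_lit 108788124462) (nat_lit 130) (nat_lit 5) (nat_lit 129) (nat_lit 5) (nat_lit 140) (nat_lit 5) (nat_lit 413) (nat_lit 411) (nat_lit 256)) (XT.lf (nat_lit 84) (nat_lit 33533583292) (nat_lit 0)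 (nat_lit 96135238589) (nat_lit 924) (nat_lit 101521944668) (nat_lit 131) (nat_lit 5) (nat_lit 130) (nat_lit 5) (nat_lit 141) (nat_lit 5) (nat_lit 414) (nat_lit 411) (nat_lit 255)))) (XT.nd (nat_lit 188) (nat_lit 672) (nat_lit 0) (XT.nd (nat_lit 94) (nat_lit 0) (nat_lit 84) (XT.lf (nat_lit 0) (nat_lit 151777478328) (nat_lit 840) (nat_lit 7771297171) (nat_lit 924) (nat_lit 81136176284) (nat_lit 131) (nat_lit 5) (nat_lit 141) (nat_lit 5) (nat_lit 142) (nat_lit 5) (nat_lit 415) (nat_lit 411) (nat_lit 254)) (XT.lf (nat_lit 0) (nat_lit 180771000561) (nat_lit 840) (nat_lit 48884465218) (nat_lit 924) (nat_lit 21027397393) (nat_lit 132) (nat_lit 5) (nat_lit 142) (nat_lit 5) (nat_lit 143) (nat_lit 5) (nat_lit 416) (nat_lit 411) (nat_lit 253))) (XT.nd (nat_lit 94) (nat_lit 756) (nat_lit 0) (XT.lf (nat_lit 84) (nat_lit 169675361375) (nat_lit 0) (nat_lit 47885445435) (nat_lit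 924) (nat_lit 43645960550) (nat_lit 133) (nat_lit 5) (nat_lit 132) (nat_lit 5) (nat_lit 143) (nat_lit 5) (nat_lit 417) (nat_lit 411) (nat_lit 252)) (XT.lf (nat_lit 0) (nat_lit 136988650035) (nat_lit 840) (nat_lit 125626600189) (nat_lit 924) (nat_lit 9691261026) (nat_lit 123) (nat_lit 5) (nat_lit 133) (nat_lit 5) (nat_lit 134) (nat_lit 5) (nat_lit 418) (nat_lit 411) (nat_lit 251))))))) (XT.nd (nat_lit 1316) (nat_lit 2772) (nat_lit 0) (XT.nd (nat_lit 658) (nat_lit 2100) (nat_lit 0) (XT.nd (nat_lit 282) (nat_lit 1092) (nat_lit 0) (XT.nd (nat_lit 94) (nat_lit 840) (nat_lit 0) (XT.lf (nat_lit 0) (nat_lit 31349965051) (nat_lit 588) (nat_lit 180288752221) (nat_lit 84) (nat_lit 72372772196) (nat_lit 116) (nat_lit 5) (nat_lit 123) (nat_lit 5) (nat_lit 117) (nat_lit 5) (nat_lit 419) (nat_lit 411) (nat_lit 250)) (XT.nd (nat_lit 94) (nat_lit 420) (nat_lit 0) (XT.lf (nat_lit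 0) (nat_lit 70107099581) (nat_lit 420) (nat_lit 10840897525) (nat_lit 504) (nat_lit 215416273058) (nat_lit 111) (nat_lit 5) (nat_lit 116) (nat_lit 5) (nat_lit 117) (nat_lit 5) (nat_lit 420) (nat_lit 411) (nat_lit 249)) (XT.lf (nat_lit 0) (nat_lit 35285589037) (nat_lit 420) (nat_lit 106187606688) (nat_lit 504) (nat_lit 167884111391) (nat_lit 106) (nat_lit 5) (nat_lit 111) (nat_lit 5) (nat_lit 112) (nat_lit 5) (nat_lit 421) (nat_lit 411) (nat_lit 248)))) (XT.nd (nat_lit 188) (nat_lit 756) (nat_lit 0) (XT.nd (nat_lit 94) (nat_lit 0) (nat_lit 0) (XT.lf (nat_lit 0) (nat_lit 690216167) (nat_lit 336) (nat_lit 212072431119) (nat_lit 420) (nat_lit 110331027884) (nat_lit 102) (nat_lit 5) (nat_lit 106) (nat_lit 5) (nat_lit 107) (nat_lit 5) (nat_lit 422) (nat_lit 411) (nat_lit 247)) (XT.lf (nat_lit 0) (nat_lit 296432673063) (nat_lit 420) (nat_lit 32373668776) (nat_lit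 84) (nat_lit 8788739925) (nat_lit 102) (nat_lit 5) (nat_lit 107) (nat_lit 5) (nat_lit 103) (nat_lit 5) (nat_lit 423) (nat_lit 411) (nat_lit 246))) (XT.nd (nat_lit 94) (nat_lit 336) (nat_lit 0) (XT.lf (nat_lit 0) (nat_lit 40646265403) (nat_lit 420) (nat_lit 67059133229) (nat_lit 84) (nat_lit 245116017556) (nat_lit 97) (nat_lit 5) (nat_lit 102) (nat_lit 5) (nat_lit 98) (nat_lit 5) (nat_lit 424) (nat_lit 411) (nat_lit 245)) (XT.lf (nat_lit 0) (nat_lit 134488742584) (nat_lit 420) (nat_lit 101949148059) (nat_lit 84) (nat_lit 132447665073) (nat_lit 93) (nat_lit 5) (nat_lit 98) (nat_lit 5) (nat_lit 94) (nat_lit 5) (nat_lit 425) (nat_lit 411) (nat_lit 244))))) (XT.nd (nat_lit 282) (nat_lit 1092) (nat_lit 0) (XT.nd (nat_lit 94) (nat_lit 672) (nat_lit 0) (XT.lf (nat_lit 0) (nat_lit 242859520052) (nat_lit 420) (nat_lit 135966125568) (nat_lit 84) (nat_lit 7058135678)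 (nat_lit 89) (nat_lit 5) (nat_lit 94) (nat_lit 5) (nat_lit 90) (nat_lit 5) (nat_lit 426) (nat_lit 411) (nat_lit 243)) (XT.nd (nat_lit 94) (nat_lit 420) (nat_lit 0) (XT.lf (nat_lit 0) (nat_lit 232858199509) (nat_lit 252) (nat_lit 136469004481) (nat_lit 336) (nat_lit 34443298725) (nat_lit 86) (nat_lit 5) (nat_lit 89) (nat_lit 5) (nat_lit 90) (nat_lit 5) (nat_lit 427) (nat_lit 411) (nat_lit 242)) (XT.lf (nat_lit 0) (nat_lit 88068176511) (nat_lit 420) (nat_lit 206061840451) (nat_lit 84) (nat_lit 128498742762) (nat_lit 81) (nat_lit 5) (nat_lit 86) (nat_lit 5) (nat_lit 82) (nat_lit 5) (nat_lit 428) (nat_lit 411) (nat_lit 241)))) (XT.nd (nat_lit 188) (nat_lit 588) (nat_lit 0) (XT.nd (nat_lit 94) (nat_lit 252) (nat_lit 0) (XT.lf (nat_lit 0) (nat_lit 201829871328) (nat_lit 252) (nat_lit 25838248409) (nat_lit 336) (nat_lit 214874611575) (nat_lit 78) (nat_lit 5) (nat_lit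 81) (nat_lit 5) (nat_lit 82) (nat_lit 5) (nat_lit 429) (nat_lit 411) (nat_lit 240)) (XT.lf (nat_lit 0) (nat_lit 187668071430) (nat_lit 252) (nat_lit 201466713424) (nat_lit 336) (nat_lit 74380099451) (nat_lit 75) (nat_lit 5) (nat_lit 78) (nat_lit 5) (nat_lit 79) (nat_lit 5) (nat_lit 430) (nat_lit 411) (nat_lit 239))) (XT.nd (nat_lit 94) (nat_lit 252) (nat_lit 0) (XT.lf (nat_lit 0) (nat_lit 83814163174) (nat_lit 336) (nat_lit 310297921523) (nat_lit 84) (nat_lit 91545539239) (nat_lit 71) (nat_lit 5) (nat_lit 75) (nat_lit 5) (nat_lit 72) (nat_lit 5) (nat_lit 431) (nat_lit 411) (nat_lit 238)) (XT.lf (nat_lit 0) (nat_lit 163690554688) (nat_lit 252) (nat_lit 99238863627) (nat_lit 336) (nat_lit 246037828731) (nat_lit 68) (nat_lit 5) (nat_lit 71) (nat_lit 5) (nat_lit 72) (nat_lit 5) (nat_lit 432) (nat_lit 411) (nat_lit 237)))))) (XT.nd (nat_lit 658) (nat_lit 1260)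 (nat_lit 0) (XT.nd (nat_lit 282) (nat_lit 840) (nat_lit 0) (XT.nd (nat_lit 94) (nat_lit 504) (nat_lit 0) (XT.lf (nat_lit 0) (nat_lit 154232329972) (nat_lit 168) (nat_lit 313465989056) (nat_lit 252) (nat_lit 65877099721) (nat_lit 66) (nat_lit 5) (nat_lit 68) (nat_lit 5) (nat_lit 69) (nat_lit 5) (nat_lit 433) (nat_lit 411) (nat_lit 236)) (XT.nd (nat_lit 94) (nat_lit 168) (nat_lit 0) (XT.lf (nat_lit 0) (nat_lit 134854850322) (nat_lit 336) (nat_lit 412634703634) (nat_lit 84) (nat_lit 12048351887) (nat_lit 62) (nat_lit 5) (nat_lit 66) (nat_lit 5) (nat_lit 63) (nat_lit 5) (nat_lit 434) (nat_lit 411) (nat_lit 235)) (XT.lf (nat_lit 0) (nat_lit 139508709740) (nat_lit 168) (nat_lit 224039387592) (nat_lit 252) (nat_lit 223264759268) (nat_lit 60) (nat_lit 5) (nat_lit 62) (nat_lit 5) (nat_lit 63) (nat_lit 5) (nat_lit 435) (nat_lit 411) (nat_lit 234)))) (XT.nd (nat_lit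 188) (nat_lit 420) (nat_lit 0) (XT.nd (nat_lit 94) (nat_lit 168) (nat_lit 0) (XT.lf (nat_lit 0) (nat_lit 6037343793) (nat_lit 252) (nat_lit 478839467787) (nat_lit 84) (nat_lit 130818124681) (nat_lit 57) (nat_lit 5) (nat_lit 60) (nat_lit 5) (nat_lit 58) (nat_lit 5) (nat_lit 436) (nat_lit 411) (nat_lit 233)) (XT.lf (nat_lit 0) (nat_lit 133836334105) (nat_lit 168) (nat_lit 125916435554) (nat_lit 252) (nat_lit 386257245527) (nat_lit 55) (nat_lit 5) (nat_lit 57) (nat_lit 5) (nat_lit 58) (nat_lit 5) (nat_lit 437) (nat_lit 411) (nat_lit 232))) (XT.nd (nat_lit 94) (nat_lit 252) (nat_lit 0) (XT.lf (nat_lit 0) (nat_lit 134369141433) (nat_lit 168) (nat_lit 414058736022) (nat_lit 252) (nat_lit 129589300575) (nat_lit 53) (nat_lit 5) (nat_lit 55) (nat_lit 5) (nat_lit 56) (nat_lit 5) (nat_lit 438) (nat_lit 411) (nat_lit 231)) (XT.lf (nat_lit 0) (nat_lit 138649589139) (nat_lit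 168) (nat_lit 17593803588) (nat_lit 252) (nat_lit 555558498205) (nat_lit 50) (nat_lit 5) (nat_lit 52) (nat_lit 5) (nat_lit 53) (nat_lit 5) (nat_lit 439) (nat_lit 411) (nat_lit 230))))) (XT.nd (nat_lit 376) (nat_lit 672) (nat_lit 0) (XT.nd (nat_lit 188) (nat_lit 252) (nat_lit 0) (XT.nd (nat_lit 94) (nat_lit 168) (nat_lit 0) (XT.lf (nat_lit 0) (nat_lit 142953137051) (nat_lit 168) (nat_lit 335777602278) (nat_lit 252) (nat_lit 268536010016) (nat_lit 48) (nat_lit 5) (nat_lit 50) (nat_lit 5) (nat_lit 51) (nat_lit 5) (nat_lit 440) (nat_lit 411) (nat_lit 229)) (XT.lf (nat_lit 0) (nat_lit 54597741681) (nat_lit 168) (nat_lit 630877293748) (nat_lit 84) (nat_lit 99337601405) (nat_lit 46) (nat_lit 5) (nat_lit 48) (nat_lit 5) (nat_lit 47) (nat_lit 5) (nat_lit 441) (nat_lit 411) (nat_lit 228))) (XT.nd (nat_lit 94) (nat_lit 84) (nat_lit 0) (XT.lf (nat_lit 0) (nat_lit 164490422470)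 (nat_lit 168) (nat_lit 248738603220) (nat_lit 252) (nat_lit 410960306853) (nat_lit 44) (nat_lit 5) (nat_lit 46) (nat_lit 5) (nat_lit 47) (nat_lit 5) (nat_lit 442) (nat_lit 411) (nat_lit 227)) (XT.lf (nat_lit 0) (nat_lit 182013954792) (nat_lit 84) (nat_lit 636028850351) (nat_lit 168) (nat_lit 47798759131) (nat_lit 43) (nat_lit 5) (nat_lit 44) (nat_lit 5) (nat_lit 45) (nat_lit 4) (nat_lit 443) (nat_lit 411) (nat_lit 226)))) (XT.nd (nat_lit 188) (nat_lit 336) (nat_lit 0) (XT.nd (nat_lit 94) (nat_lit 84) (nat_lit 0) (XT.lf (nat_lit 0) (nat_lit 201044814412) (nat_lit 168) (nat_lit 151360367961) (nat_lit 252) (nat_lit 557201281261) (nat_lit 40) (nat_lit 5) (nat_lit 42) (nat_lit 5) (nat_lit 43) (nat_lit 5) (nat_lit 444) (nat_lit 411) (nat_lit 225)) (XT.lf (nat_lit 0) (nat_lit 225248099941) (nat_lit 84) (nat_lit 579158144194) (nat_lit 168) (nat_lit 151354359467) (nat_lit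 39) (nat_lit 5) (nat_lit 40) (nat_lit 5) (nat_lit 41) (nat_lit 4) (nat_lit 445) (nat_lit 411) (nat_lit 224))) (XT.nd (nat_lit 94) (nat_lit 84) (nat_lit 0) (XT.lf (nat_lit 0) (nat_lit 255001956323) (nat_lit 168) (nat_lit 41852322615) (nat_lit 252) (nat_lit 707574858837) (nat_lit 36) (nat_lit 5) (nat_lit 38) (nat_lit 5) (nat_lit 39) (nat_lit 5) (nat_lit 446) (nat_lit 411) (nat_lit 223)) (XT.lf (nat_lit 0) (nat_lit 287111052788) (nat_lit 84) (nat_lit 514399479208) (nat_lit 168) (nat_lit 254061879584) (nat_lit 35) (nat_lit 5) (nat_lit 36) (nat_lit 5) (nat_lit 37) (nat_lit 4) (nat_lit 447) (nat_lit 411) (nat_lit 222))))))))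
noncomputable def xc194 : XT := (XT.nd (nat_lit 2632) (nat_lit 0) (nat_lit 0) (XT.nd (nat_lit 1316) (nat_lit 1008) (nat_lit 0) (XT.nd (nat_lit 658) (nat_lit 840) (nat_lit 0) (XT.nd (nat_lit 282) (nat_lit 504) (nat_lit 0) (XT.nd (nat_lit 94) (nat_lit 336) (nat_lit 0) (XT.lf (nat_lit 0) (nat_lit 248577159987) (nat_lit 252) (nat_lit 781831666029) (nat_lit 84) (nat_lit 79194803178) (nat_lit 32) (nat_lit 5) (nat_lit 35) (nat_lit 5) (nat_lit 33) (nat_lit 4) (nat_lit 448) (nat_lit 411) (nat_lit 221)) (XT.nd (nat_lit 94) (nat_lit 252) (nat_lit 0) (XT.lf (nat_lit 0) (nat_lit 370539818069) (nat_lit 84) (nat_lit 440169794005) (nat_lit 168) (nat_lit 355630315701) (nat_lit 31) (nat_lit 5) (nat_lit 32) (nat_lit 5) (nat_lit 33) (nat_lit 4) (nat_lit 449) (nat_lit 411) (nat_lit 220)) (XT.lf (nat_lit 0) (nat_lit 208076807742) (nat_lit 252) (nat_lit 803361521463) (nat_lit 84)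 (nat_lit 214829985891) (nat_lit 28) (nat_lit 5) (nat_lit 31) (nat_lit 5) (nat_lit 29) (nat_lit 4) (nat_lit 450) (nat_lit 411) (nat_lit 219)))) (XT.nd (nat_lit 188) (nat_lit 252) (nat_lit 0) (XT.nd (nat_lit 94) (nat_lit 168) (nat_lit 0) (XT.lf (nat_lit 0) (nat_lit 478912370882) (nat_lit 84) (nat_lit 354663913539) (nat_lit 168) (nat_lit 455665421859) (nat_lit 27) (nat_lit 5) (nat_lit 28) (nat_lit 5) (nat_lit 29) (nat_lit 4) (nat_lit 451) (nat_lit 411) (nat_lit 218)) (XT.lf (nat_lit 0) (nat_lit 175777421501) (nat_lit 168) (nat_lit 811007756826) (nat_lit 84) (nat_lit 368910478905) (nat_lit 25) (nat_lit 5) (nat_lit 27) (nat_lit 5) (nat_lit 26) (nat_lit 4) (nat_lit 452) (nat_lit 411) (nat_lit 217))) (XT.nd (nat_lit 94) (nat_lit 168) (nat_lit 0) (XT.lf (nat_lit 0) (nat_lit 616107129125) (nat_lit 84) (nat_lit 255823909159) (nat_lit 168) (nat_lit 553653407592) (nat_lit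 24) (nat_lit 5) (nat_lit 25) (nat_lit 5) (nat_lit 26) (nat_lit 4) (nat_lit 453) (nat_lit 411) (nat_lit 216)) (XT.lf (nat_lit 0) (nat_lit 152952435961) (nat_lit 168) (nat_lit 802020387903) (nat_lit 84) (nat_lit 544287349417) (nat_lit 22) (nat_lit 5) (nat_lit 24) (nat_lit 5) (nat_lit 23) (nat_lit 4) (nat_lit 454) (nat_lit 411) (nat_lit 215))))) (XT.nd (nat_lit 282) (nat_lit 504) (nat_lit 0) (XT.nd (nat_lit 94) (nat_lit 252) (nat_lit 0) (XT.lf (nat_lit 0) (nat_lit 786570163134) (nat_lit 84) (nat_lit 141304504178) (nat_lit 168) (nat_lit 648942215358) (nat_lit 21) (nat_lit 5) (nat_lit 22) (nat_lit 5) (nat_lit 23) (nat_lit 4) (nat_lit 455) (nat_lit 411) (nat_lit 214)) (XT.nd (nat_lit 94) (nat_lit 84) (nat_lit 0) (XT.lf (nat_lit 0) (nat_lit 141098390591) (nat_lit 168) (nat_lit 773198705354) (nat_lit 84) (nat_lit 744188615641) (nat_lit 19) (nat_lit 5) (nat_lit 21)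 (nat_lit 5) (nat_lit 20) (nat_lit 4) (nat_lit 456) (nat_lit 411) (nat_lit 213)) (XT.lf (nat_lit 0) (nat_lit 995391114737) (nat_lit 84) (nat_lit 8434026615) (nat_lit 168) (nat_lit 740720052090) (nat_lit 18) (nat_lit 5) (nat_lit 19) (nat_lit 5) (nat_lit 20) (nat_lit 4) (nat_lit 457) (nat_lit 411) (nat_lit 212)))) (XT.nd (nat_lit 188) (nat_lit 252) (nat_lit 0) (XT.nd (nat_lit 94) (nat_lit 84) (nat_lit 0) (XT.lf (nat_lit 0) (nat_lit 141965937290) (nat_lit 168) (nat_lit 720827392935) (nat_lit 84) (nat_lit 972268311440) (nat_lit 16) (nat_lit 5) (nat_lit 18) (nat_lit 5) (nat_lit 17) (nat_lit 4) (nat_lit 458) (nat_lit 411) (nat_lit 211)) (XT.lf (nat_lit 0) (nat_lit 1104836076562) (nat_lit 168) (nat_lit 684437965974) (nat_lit 0) (nat_lit 141162190970) (nat_lit 15) (nat_lit 5) (nat_lit 17) (nat_lit 4) (nat_lit 15) (nat_lit 4) (nat_lit 459) (nat_lit 411) (nat_lit 210)))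 (XT.nd (nat_lit 94) (nat_lit 84) (nat_lit 0) (XT.lf (nat_lit 0) (nat_lit 157595029746) (nat_lit 168) (nat_lit 640604088270) (nat_lit 84) (nat_lit 1232661686725) (nat_lit 13) (nat_lit 5) (nat_lit 15) (nat_lit 5) (nat_lit 14) (nat_lit 4) (nat_lit 460) (nat_lit 411) (nat_lit 209)) (XT.lf (nat_lit 0) (nat_lit 1232333096379) (nat_lit 168) (nat_lit 589670491834) (nat_lit 0) (nat_lit 314548418381) (nat_lit 12) (nat_lit 5) (nat_lit 14) (nat_lit 4) (nat_lit 12) (nat_lit 4) (nat_lit 461) (nat_lit 411) (nat_lit 208)))))) (XT.nd (nat_lit 658) (nat_lit 0) (nat_lit 0) (XT.nd (nat_lit 282) (nat_lit 588) (nat_lit 0) (XT.nd (nat_lit 94) (nat_lit 252) (nat_lit 0) (XT.lf (nat_lit 0) (nat_lit 190354829535) (nat_lit 168) (nat_lit 527557288604) (nat_lit 84) (nat_lit 1530047297538) (nat_lit 10) (nat_lit 5) (nat_lit 12) (nat_lit 5) (nat_lit 11) (nat_lit 4) (nat_lit 462) (nat_lit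 411) (nat_lit 207)) (XT.nd (nat_lit 94) (nat_lit 168) (nat_lit 0) (XT.lf (nat_lit 0) (nat_lit 1389887691566) (nat_lit 168) (nat_lit 459389905028) (nat_lit 0) (nat_lit 515807025397) (nat_lit 9) (nat_lit 5) (nat_lit 11) (nat_lit 4) (nat_lit 9) (nat_lit 4) (nat_lit 463) (nat_lit 411) (nat_lit 206)) (XT.lf (nat_lit 0) (nat_lit 242988930898) (nat_lit 168) (nat_lit 375953366933) (nat_lit 84) (nat_lit 1869716830804) (nat_lit 7) (nat_lit 5) (nat_lit 9) (nat_lit 5) (nat_lit 8) (nat_lit 4) (nat_lit 464) (nat_lit 411) (nat_lit 205)))) (XT.nd (nat_lit 188) (nat_lit 336) (nat_lit 0) (XT.nd (nat_lit 94) (nat_lit 168) (nat_lit 0) (XT.lf (nat_lit 0) (nat_lit 1581730356492) (nat_lit 168) (nat_lit 287453992815) (nat_lit 0) (nat_lit 749272562485) (nat_lit 6) (nat_lit 5) (nat_lit 8) (nat_lit 4) (nat_lit 6) (nat_lit 4) (nat_lit 465) (nat_lit 411) (nat_lit 204)) (XT.lf (nat_lit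 0) (nat_lit 318666581148) (nat_lit 168) (nat_lit 179191310088) (nat_lit 84) (nat_lit 2257653610572) (nat_lit 4) (nat_lit 5) (nat_lit 6) (nat_lit 5) (nat_lit 5) (nat_lit 4) (nat_lit 466) (nat_lit 411) (nat_lit 203))) (XT.nd (nat_lit 94) (nat_lit 252) (nat_lit 0) (XT.lf (nat_lit 0) (nat_lit 1812687593231) (nat_lit 168) (nat_lit 66796543353) (nat_lit 0) (nat_lit 1019870632919) (nat_lit 3) (nat_lit 5) (nat_lit 5) (nat_lit 4) (nat_lit 3) (nat_lit 4) (nat_lit 467) (nat_lit 411) (nat_lit 202)) (XT.lf (nat_lit 0) (nat_lit 4426241157950) (nat_lit 0) (nat_lit 0) (nat_lit 0) (nat_lit 0) (nat_lit 0) (nat_lit 0) (nat_lit 1) (nat_lit 0) (nat_lit 1) (nat_lit 0) (nat_lit 468) (nat_lit 411) (nat_lit 201))))) (XT.nd (nat_lit 282) (nat_lit 0) (nat_lit 0) (XT.nd (nat_lit 94) (nat_lit 0) (nat_lit 0) (XT.lf (nat_lit 0) (nat_lit 4775989326519) (nat_lit 0) (nat_lit 0) (nat_lit 0)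 (nat_lit 0) (nat_lit 0) (nat_lit 0) (nat_lit 1) (nat_lit 0) (nat_lit 1) (nat_lit 0) (nat_lit 469) (nat_lit 411) (nat_lit 200)) (XT.nd (nat_lit 94) (nat_lit 0) (nat_lit 0) (XT.lf (nat_lit 0) (nat_lit 5153717348634) (nat_lit 0) (nat_lit 0) (nat_lit 0) (nat_lit 0) (nat_lit 0) (nat_lit 0) (nat_lit 1) (nat_lit 0) (nat_lit 1) (nat_lit 0) (nat_lit 470) (nat_lit 411) (nat_lit 199)) (XT.lf (nat_lit 0) (nat_lit 5561663612573) (nat_lit 0) (nat_lit 0) (nat_lit 0) (nat_lit 0) (nat_lit 0) (nat_lit 0) (nat_lit 1) (nat_lit 0) (nat_lit 1) (nat_lit 0) (nat_lit 471) (nat_lit 411) (nat_lit 198)))) (XT.nd (nat_lit 188) (nat_lit 0) (nat_lit 0) (XT.nd (nat_lit 94) (nat_lit 0) (nat_lit 0) (XT.lf (nat_lit 0) (nat_lit 6002245577677) (nat_lit 0) (nat_lit 0) (nat_lit 0) (nat_lit 0) (nat_lit 0) (nat_lit 0) (nat_lit 1) (nat_lit 0) (nat_lit 1) (nat_lit 0) (nat_lit 472) (nat_lit 411) (nat_lit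 197)) (XT.lf (nat_lit 0) (nat_lit 6478074100037) (nat_lit 0) (nat_lit 0) (nat_lit 0) (nat_lit 0) (nat_lit 0) (nat_lit 0) (nat_lit 1) (nat_lit 0) (nat_lit 1) (nat_lit 0) (nat_lit 473) (nat_lit 411) (nat_lit 196))) (XT.nd (nat_lit 94) (nat_lit 0) (nat_lit 0) (XT.lf (nat_lit 0) (nat_lit 6991968904230) (nat_lit 0) (nat_lit 0) (nat_lit 0) (nat_lit 0) (nat_lit 0) (nat_lit 0) (nat_lit 1) (nat_lit 0) (nat_lit 1) (nat_lit 0) (nat_lit 474) (nat_lit 411) (nat_lit 195)) (XT.lf (nat_lit 0) (nat_lit 7546975292799) (nat_lit 0) (nat_lit 0) (nat_lit 0) (nat_lit 0) (nat_lit 0) (nat_lit 0) (nat_lit 1) (nat_lit 0) (nat_lit 1) (nat_lit 0) (nat_lit 475) (nat_lit 411) (nat_lit 194))))))) (XT.nd (nat_lit 1316) (nat_lit 0) (nat_lit 0) (XT.nd (nat_lit 658) (nat_lit 0) (nat_lit 0) (XT.nd (nat_lit 282) (nat_lit 0) (nat_lit 0) (XT.nd (nat_lit 94) (nat_lit 0) (nat_lit 0) (XT.lf (nat_lit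 0) (nat_lit 8146382192490) (nat_lit 0) (nat_lit 0) (nat_lit 0) (nat_lit 0) (nat_lit 0) (nat_lit 0) (nat_lit 1) (nat_lit 0) (nat_lit 1) (nat_lit 0) (nat_lit 476) (nat_lit 411) (nat_lit 193)) (XT.nd (nat_lit 94) (nat_lit 0) (nat_lit 0) (XT.lf (nat_lit 0) (nat_lit 8793741644191) (nat_lit 0) (nat_lit 0) (nat_lit 0) (nat_lit 0) (nat_lit 0) (nat_lit 0) (nat_lit 1) (nat_lit 0) (nat_lit 1) (nat_lit 0) (nat_lit 477) (nat_lit 411) (nat_lit 192)) (XT.lf (nat_lit 0) (nat_lit 9492889852061) (nat_lit 0) (nat_lit 0) (nat_lit 0) (nat_lit 0) (nat_lit 0) (nat_lit 0) (nat_lit 1) (nat_lit 0) (nat_lit 1) (nat_lit 0) (nat_lit 478) (nat_lit 411) (nat_lit 191)))) (XT.nd (nat_lit 188) (nat_lit 0) (nat_lit 0) (XT.nd (nat_lit 94) (nat_lit 0) (nat_lit 0) (XT.lf (nat_lit 0) (nat_lit 10247969916590) (nat_lit 0) (nat_lit 0) (nat_lit 0) (nat_lit 0) (nat_lit 0) (nat_lit 0) (nat_lit 1) (nat_lit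 0) (nat_lit 1) (nat_lit 0) (nat_lit 479) (nat_lit 411) (nat_lit 190)) (XT.lf (nat_lit 0) (nat_lit 11063456386309) (nat_lit 0) (nat_lit 0) (nat_lit 0) (nat_lit 0) (nat_lit 0) (nat_lit 0) (nat_lit 1) (nat_lit 0) (nat_lit 1) (nat_lit 0) (nat_lit 480) (nat_lit 411) (nat_lit 189))) (XT.nd (nat_lit 94) (nat_lit 0) (nat_lit 0) (XT.lf (nat_lit 0) (nat_lit 11944181773631) (nat_lit 0) (nat_lit 0) (nat_lit 0) (nat_lit 0) (nat_lit 0) (nat_lit 0) (nat_lit 1) (nat_lit 0) (nat_lit 1) (nat_lit 0) (nat_lit 481) (nat_lit 411) (nat_lit 188)) (XT.lf (nat_lit 0) (nat_lit 12895365191962) (nat_lit 0) (nat_lit 0) (nat_lit 0) (nat_lit 0) (nat_lit 0) (nat_lit 0) (nat_lit 1) (nat_lit 0) (nat_lit 1) (nat_lit 0) (nat_lit 482) (nat_lit 411) (nat_lit 187))))) (XT.nd (nat_lit 282) (nat_lit 0) (nat_lit 0) (XT.nd (nat_lit 94) (nat_lit 0) (nat_lit 0) (XT.lf (nat_lit 0) (nat_lit 13922643283781)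 (nat_lit 0) (nat_lit 0) (nat_lit 0) (nat_lit 0) (nat_lit 0) (nat_lit 0) (nat_lit 1) (nat_lit 0) (nat_lit 1) (nat_lit 0) (nat_lit 483) (nat_lit 411) (nat_lit 186)) (XT.nd (nat_lit 94) (nat_lit 0) (nat_lit 0) (XT.lf (nat_lit 0) (nat_lit 15032103622966) (nat_lit 0) (nat_lit 0) (nat_lit 0) (nat_lit 0) (nat_lit 0) (nat_lit 0) (nat_lit 1) (nat_lit 0) (nat_lit 1) (nat_lit 0) (nat_lit 484) (nat_lit 411) (nat_lit 185)) (XT.lf (nat_lit 0) (nat_lit 16230320789305) (nat_lit 0) (nat_lit 0) (nat_lit 0) (nat_lit 0) (nat_lit 0) (nat_lit 0) (nat_lit 1) (nat_lit 0) (nat_lit 1) (nat_lit 0) (nat_lit 485) (nat_lit 411) (nat_lit 184)))) (XT.nd (nat_lit 188) (nat_lit 0) (nat_lit 0) (XT.nd (nat_lit 94) (nat_lit 0) (nat_lit 0) (XT.lf (nat_lit 0) (nat_lit 17524395328968) (nat_lit 0) (nat_lit 0) (nat_lit 0) (nat_lit 0) (nat_lit 0) (nat_lit 0) (nat_lit 1) (nat_lit 0) (nat_lit 1) (nat_lit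 0) (nat_lit 486) (nat_lit 411) (nat_lit 183)) (XT.lf (nat_lit 0) (nat_lit 18921995831821) (nat_lit 0) (nat_lit 0) (nat_lit 0) (nat_lit 0) (nat_lit 0) (nat_lit 0) (nat_lit 1) (nat_lit 0) (nat_lit 1) (nat_lit 0) (nat_lit 487) (nat_lit 411) (nat_lit 182))) (XT.nd (nat_lit 94) (nat_lit 0) (nat_lit 0) (XT.lf (nat_lit 0) (nat_lit 20431404374916) (nat_lit 0) (nat_lit 0) (nat_lit 0) (nat_lit 0) (nat_lit 0) (nat_lit 0) (nat_lit 1) (nat_lit 0) (nat_lit 1) (nat_lit 0) (nat_lit 488) (nat_lit 411) (nat_lit 181)) (XT.lf (nat_lit 0) (nat_lit 22061565601473) (nat_lit 0) (nat_lit 0) (nat_lit 0) (nat_lit 0) (nat_lit 0) (nat_lit 0) (nat_lit 1) (nat_lit 0) (nat_lit 1) (nat_lit 0) (nat_lit 489) (nat_lit 411) (nat_lit 180)))))) (XT.nd (nat_lit 658) (nat_lit 0) (nat_lit 0) (XT.nd (nat_lit 282) (nat_lit 0) (nat_lit 0) (XT.nd (nat_lit 94) (nat_lit 0) (nat_lit 0) (XT.lf (nat_lit 0)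 (nat_lit 23822139726167) (nat_lit 0) (nat_lit 0) (nat_lit 0) (nat_lit 0) (nat_lit 0) (nat_lit 0) (nat_lit 1) (nat_lit 0) (nat_lit 1) (nat_lit 0) (nat_lit 490) (nat_lit 411) (nat_lit 179)) (XT.nd (nat_lit 94) (nat_lit 0) (nat_lit 0) (XT.lf (nat_lit 0) (nat_lit 25723559780848) (nat_lit 0) (nat_lit 0) (nat_lit 0) (nat_lit 0) (nat_lit 0) (nat_lit 0) (nat_lit 1) (nat_lit 0) (nat_lit 1) (nat_lit 0) (nat_lit 491) (nat_lit 411) (nat_lit 178)) (XT.lf (nat_lit 0) (nat_lit 27777093439915) (nat_lit 0) (nat_lit 0) (nat_lit 0) (nat_lit 0) (nat_lit 0) (nat_lit 0) (nat_lit 1) (nat_lit 0) (nat_lit 1) (nat_lit 0) (nat_lit 492) (nat_lit 411) (nat_lit 177)))) (XT.nd (nat_lit 188) (nat_lit 0) (nat_lit 0) (XT.nd (nat_lit 94) (nat_lit 0) (nat_lit 0) (XT.lf (nat_lit 0) (nat_lit 29994909791718) (nat_lit 0) (nat_lit 0) (nat_lit 0) (nat_lit 0) (nat_lit 0) (nat_lit 0) (nat_lit 1) (nat_lit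 0) (nat_lit 1) (nat_lit 0) (nat_lit 493) (nat_lit 411) (nat_lit 176)) (XT.lf (nat_lit 0) (nat_lit 32390151451673) (nat_lit 0) (nat_lit 0) (nat_lit 0) (nat_lit 0) (nat_lit 0) (nat_lit 0) (nat_lit 1) (nat_lit 0) (nat_lit 1) (nat_lit 0) (nat_lit 494) (nat_lit 411) (nat_lit 175))) (XT.nd (nat_lit 94) (nat_lit 0) (nat_lit 0) (XT.lf (nat_lit 0) (nat_lit 34977012444434) (nat_lit 0) (nat_lit 0) (nat_lit 0) (nat_lit 0) (nat_lit 0) (nat_lit 0) (nat_lit 1) (nat_lit 0) (nat_lit 1) (nat_lit 0) (nat_lit 495) (nat_lit 411) (nat_lit 174)) (XT.lf (nat_lit 0) (nat_lit 37770822316624) (nat_lit 0) (nat_lit 0) (nat_lit 0) (nat_lit 0) (nat_lit 0) (nat_lit 0) (nat_lit 1) (nat_lit 0) (nat_lit 1) (nat_lit 0) (nat_lit 496) (nat_lit 411) (nat_lit 173))))) (XT.nd (nat_lit 376) (nat_lit 0) (nat_lit 0) (XT.nd (nat_lit 188) (nat_lit 0) (nat_lit 0) (XT.nd (nat_lit 94) (nat_lit 0) (nat_lit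 0) (XT.lf (nat_lit 0) (nat_lit 40788136978597) (nat_lit 0) (nat_lit 0) (nat_lit 0) (nat_lit 0) (nat_lit 0) (nat_lit 0) (nat_lit 1) (nat_lit 0) (nat_lit 1) (nat_lit 0) (nat_lit 497) (nat_lit 411) (nat_lit 172)) (XT.lf (nat_lit 0) (nat_lit 44046836813534) (nat_lit 0) (nat_lit 0) (nat_lit 0) (nat_lit 0) (nat_lit 0) (nat_lit 0) (nat_lit 1) (nat_lit 0) (nat_lit 1) (nat_lit 0) (nat_lit 498) (nat_lit 411) (nat_lit 171))) (XT.nd (nat_lit 94) (nat_lit 0) (nat_lit 0) (XT.lf (nat_lit 0) (nat_lit 47566232635273) (nat_lit 0) (nat_lit 0) (nat_lit 0) (nat_lit 0) (nat_lit 0) (nat_lit 0) (nat_lit 1) (nat_lit 0) (nat_lit 1) (nat_lit 0) (nat_lit 499) (nat_lit 411) (nat_lit 170)) (XT.lf (nat_lit 0) (nat_lit 51367180122757) (nat_lit 0) (nat_lit 0) (nat_lit 0) (nat_lit 0) (nat_lit 0) (nat_lit 0) (nat_lit 1) (nat_lit 0) (nat_lit 1) (nat_lit 0) (nat_lit 500) (nat_lit 411) (nat_lit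 169)))) (XT.nd (nat_lit 59408) (nat_lit 0) (nat_lit 10752) (XT.nd (nat_lit 94) (nat_lit 0) (nat_lit 0) (XT.lf (nat_lit 0) (nat_lit 55472203409244) (nat_lit 0) (nat_lit 0) (nat_lit 0) (nat_lit 0) (nat_lit 0) (nat_lit 0) (nat_lit 1) (nat_lit 0) (nat_lit 1) (nat_lit 0) (nat_lit 501) (nat_lit 411) (nat_lit 168)) (XT.lf (nat_lit 0) (nat_lit 59905628558656) (nat_lit 0) (nat_lit 0) (nat_lit 0) (nat_lit 0) (nat_lit 0) (nat_lit 0) (nat_lit 1) (nat_lit 0) (nat_lit 1) (nat_lit 0) (nat_lit 502) (nat_lit 411) (nat_lit 167))) (XT.nd (nat_lit 94) (nat_lit 0) (nat_lit 84) (XT.lf (nat_lit 0) (nat_lit 52183128944) (nat_lit 924) (nat_lit 29400507553) (nat_lit 924) (nat_lit 29400507553) (nat_lit 128) (nat_lit 3) (nat_lit 139) (nat_lit 3) (nat_lit 139) (nat_lit 5) (nat_lit 412) (nat_lit 412) (nat_lit 256)) (XT.lf (nat_lit 0) (nat_lit 110649800315) (nat_lit 840) (nat_lit 108241478701)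 (nat_lit 924) (nat_lit 11850296005) (nat_lit 129) (nat_lit 5) (nat_lit 139) (nat_lit 5) (nat_lit 140) (nat_lit 5) (nat_lit 413) (nat_lit 412) (nat_lit 255))))))))
noncomputable def xc195 : XT := (XT.nd (nat_lit 2632) (nat_lit 4032) (nat_lit 0) (XT.nd (nat_lit 1316) (nat_lit 3444) (nat_lit 0) (XT.nd (nat_lit 658) (nat_lit 2268) (nat_lit 0) (XT.nd (nat_lit 282) (nat_lit 1092) (nat_lit 0) (XT.nd (nat_lit 94) (nat_lit 0) (nat_lit 84) (XT.lf (nat_lit 84) (nat_lit 80032890067) (nat_lit 0) (nat_lit 42444833347) (nat_lit 924) (nat_lit 117486916614) (nat_lit 130) (nat_lit 5) (nat_lit 129) (nat_lit 5) (nat_lit 140) (nat_lit 5) (nat_lit 414) (nat_lit 412) (nat_lit 254)) (XT.nd (nat_lit 94) (nat_lit 0) (nat_lit 84) (XT.lf (nat_lit 84) (nat_lit 36218865951) (nat_lit 0) (nat_lit 103827234218) (nat_lit 924) (nat_lit 109639739078) (nat_lit 131) (nat_lit 5) (nat_lit 130) (nat_lit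 5) (nat_lit 141) (nat_lit 5) (nat_lit 415) (nat_lit 412) (nat_lit 253)) (XT.lf (nat_lit 0) (nat_lit 163923152675) (nat_lit 840) (nat_lit 8390405583) (nat_lit 924) (nat_lit 87626015864) (nat_lit 131) (nat_lit 5) (nat_lit 141) (nat_lit 5) (nat_lit 142) (nat_lit 5) (nat_lit 416) (nat_lit 412) (nat_lit 252)))) (XT.nd (nat_lit 188) (nat_lit 1344) (nat_lit 0) (XT.nd (nat_lit 94) (nat_lit 0) (nat_lit 0) (XT.lf (nat_lit 0) (nat_lit 195235925863) (nat_lit 840) (nat_lit 52792564901) (nat_lit 924) (nat_lit 22708839199) (nat_lit 132) (nat_lit 5) (nat_lit 142) (nat_lit 5) (nat_lit 143) (nat_lit 5) (nat_lit 417) (nat_lit 412) (nat_lit 251)) (XT.lf (nat_lit 84) (nat_lit 183251932327) (nat_lit 0) (nat_lit 51716783585) (nat_lit 924) (nat_lit 47134440610) (nat_lit 133) (nat_lit 5) (nat_lit 132) (nat_lit 5) (nat_lit 143) (nat_lit 5) (nat_lit 418) (nat_lit 412) (nat_lit 250)))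 (XT.nd (nat_lit 94) (nat_lit 588) (nat_lit 0) (XT.lf (nat_lit 0) (nat_lit 147950326722) (nat_lit 840) (nat_lit 135676995643) (nat_lit 924) (nat_lit 10463567179) (nat_lit 123) (nat_lit 5) (nat_lit 133) (nat_lit 5) (nat_lit 134) (nat_lit 5) (nat_lit 419) (nat_lit 412) (nat_lit 249)) (XT.lf (nat_lit 0) (nat_lit 33860683934) (nat_lit 588) (nat_lit 194709149648) (nat_lit 84) (nat_lit 78162438960) (nat_lit 116) (nat_lit 5) (nat_lit 123) (nat_lit 5) (nat_lit 117) (nat_lit 5) (nat_lit 420) (nat_lit 412) (nat_lit 248))))) (XT.nd (nat_lit 282) (nat_lit 1092) (nat_lit 0) (XT.nd (nat_lit 94) (nat_lit 756) (nat_lit 0) (XT.lf (nat_lit 0) (nat_lit 75718252840) (nat_lit 420) (nat_lit 11708144471) (nat_lit 504) (nat_lit 232646886444) (nat_lit 111) (nat_lit 5) (nat_lit 116) (nat_lit 5) (nat_lit 117) (nat_lit 5) (nat_lit 421) (nat_lit 412) (nat_lit 247)) (XT.nd (nat_lit 94)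 (nat_lit 336) (nat_lit 0) (XT.lf (nat_lit 0) (nat_lit 38111031186) (nat_lit 420) (nat_lit 114682431846) (nat_lit 504) (nat_lit 181312308070) (nat_lit 106) (nat_lit 5) (nat_lit 111) (nat_lit 5) (nat_lit 112) (nat_lit 5) (nat_lit 422) (nat_lit 412) (nat_lit 246)) (XT.lf (nat_lit 0) (nat_lit 748028314) (nat_lit 336) (nat_lit 229037906928) (nat_lit 420) (nat_lit 119155120133) (nat_lit 102) (nat_lit 5) (nat_lit 106) (nat_lit 5) (nat_lit 107) (nat_lit 5) (nat_lit 423) (nat_lit 412) (nat_lit 245)))) (XT.nd (nat_lit 188) (nat_lit 672) (nat_lit 0) (XT.nd (nat_lit 94) (nat_lit 420) (nat_lit 0) (XT.lf (nat_lit 0) (nat_lit 320149399082) (nat_lit 420) (nat_lit 34961058865) (nat_lit 84) (nat_lit 9492124749) (nat_lit 102) (nat_lit 5) (nat_lit 107) (nat_lit 5) (nat_lit 103) (nat_lit 5) (nat_lit 424) (nat_lit 412) (nat_lit 244)) (XT.lf (nat_lit 0) (nat_lit 43899992413) (nat_lit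 420) (nat_lit 72421402289) (nat_lit 84) (nat_lit 264725633493) (nat_lit 97) (nat_lit 5) (nat_lit 102) (nat_lit 5) (nat_lit 98) (nat_lit 5) (nat_lit 425) (nat_lit 412) (nat_lit 243))) (XT.nd (nat_lit 94) (nat_lit 336) (nat_lit 0) (XT.lf (nat_lit 0) (nat_lit 145249761376) (nat_lit 420) (nat_lit 110102636561) (nat_lit 84) (nat_lit 143043906266) (nat_lit 93) (nat_lit 5) (nat_lit 98) (nat_lit 5) (nat_lit 94) (nat_lit 5) (nat_lit 426) (nat_lit 412) (nat_lit 242)) (XT.lf (nat_lit 0) (nat_lit 262290103527) (nat_lit 420) (nat_lit 146840995944) (nat_lit 84) (nat_lit 7623293238) (nat_lit 89) (nat_lit 5) (nat_lit 94) (nat_lit 5) (nat_lit 90) (nat_lit 5) (nat_lit 427) (nat_lit 412) (nat_lit 241)))))) (XT.nd (nat_lit 658) (nat_lit 1512) (nat_lit 0) (XT.nd (nat_lit 282) (nat_lit 1008) (nat_lit 0) (XT.nd (nat_lit 94) (nat_lit 672) (nat_lit 0) (XT.lf (nat_lit 0) (nat_lit 251489169984)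 (nat_lit 252) (nat_lit 147385933379) (nat_lit 336) (nat_lit 37196953417) (nat_lit 86) (nat_lit 5) (nat_lit 89) (nat_lit 5) (nat_lit 90) (nat_lit 5) (nat_lit 428) (nat_lit 412) (nat_lit 240)) (XT.nd (nat_lit 94) (nat_lit 252) (nat_lit 0) (XT.lf (nat_lit 0) (nat_lit 95115297197) (nat_lit 420) (nat_lit 222544445080) (nat_lit 84) (nat_lit 138779234897) (nat_lit 81) (nat_lit 5) (nat_lit 86) (nat_lit 5) (nat_lit 82) (nat_lit 5) (nat_lit 429) (nat_lit 412) (nat_lit 239)) (XT.lf (nat_lit 0) (nat_lit 217978501835) (nat_lit 252) (nat_lit 27904645581) (nat_lit 336) (nat_lit 232062923496) (nat_lit 78) (nat_lit 5) (nat_lit 81) (nat_lit 5) (nat_lit 82) (nat_lit 5) (nat_lit 430) (nat_lit 412) (nat_lit 238)))) (XT.nd (nat_lit 188) (nat_lit 420) (nat_lit 0) (XT.nd (nat_lit 94) (nat_lit 336) (nat_lit 0) (XT.lf (nat_lit 0) (nat_lit 202683726142) (nat_lit 252) (nat_lit 217583346774)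 (nat_lit 336) (nat_lit 80328926871) (nat_lit 75) (nat_lit 5) (nat_lit 78) (nat_lit 5) (nat_lit 79) (nat_lit 5) (nat_lit 431) (nat_lit 412) (nat_lit 237)) (XT.lf (nat_lit 0) (nat_lit 90520757694) (nat_lit 336) (nat_lit 335119532442) (nat_lit 84) (nat_lit 98869870641) (nat_lit 71) (nat_lit 5) (nat_lit 75) (nat_lit 5) (nat_lit 72) (nat_lit 5) (nat_lit 432) (nat_lit 412) (nat_lit 236))) (XT.nd (nat_lit 94) (nat_lit 168) (nat_lit 0) (XT.lf (nat_lit 0) (nat_lit 176787925266) (nat_lit 252) (nat_lit 107177232920) (nat_lit 336) (nat_lit 265719399304) (nat_lit 68) (nat_lit 5) (nat_lit 71) (nat_lit 5) (nat_lit 72) (nat_lit 5) (nat_lit 433) (nat_lit 412) (nat_lit 235)) (XT.lf (nat_lit 0) (nat_lit 166573005429) (nat_lit 168) (nat_lit 338542506141) (nat_lit 252) (nat_lit 71145874328) (nat_lit 66) (nat_lit 5) (nat_lit 68) (nat_lit 5) (nat_lit 69) (nat_lit 5) (nat_lit 434)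 (nat_lit 412) (nat_lit 234))))) (XT.nd (nat_lit 282) (nat_lit 756) (nat_lit 0) (XT.nd (nat_lit 94) (nat_lit 420) (nat_lit 0) (XT.lf (nat_lit 0) (nat_lit 145644530946) (nat_lit 336) (nat_lit 445643386828) (nat_lit 84) (nat_lit 13012955907) (nat_lit 62) (nat_lit 5) (nat_lit 66) (nat_lit 5) (nat_lit 63) (nat_lit 5) (nat_lit 435) (nat_lit 412) (nat_lit 233)) (XT.nd (nat_lit 94) (nat_lit 252) (nat_lit 0) (XT.lf (nat_lit 0) (nat_lit 150671408653) (nat_lit 168) (nat_lit 241961764575) (nat_lit 252) (nat_lit 241124650495) (nat_lit 60) (nat_lit 5) (nat_lit 62) (nat_lit 5) (nat_lit 63) (nat_lit 5) (nat_lit 436) (nat_lit 412) (nat_lit 232)) (XT.lf (nat_lit 0) (nat_lit 6521529588) (nat_lit 252) (nat_lit 517144623288) (nat_lit 84) (nat_lit 141284318371) (nat_lit 57) (nat_lit 5) (nat_lit 60) (nat_lit 5) (nat_lit 58) (nat_lit 5) (nat_lit 437) (nat_lit 412) (nat_lit 231))))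 (XT.nd (nat_lit 188) (nat_lit 420) (nat_lit 0) (XT.nd (nat_lit 94) (nat_lit 168) (nat_lit 0) (XT.lf (nat_lit 0) (nat_lit 144545155754) (nat_lit 168) (nat_lit 135988974904) (nat_lit 252) (nat_lit 417156628770) (nat_lit 55) (nat_lit 5) (nat_lit 57) (nat_lit 5) (nat_lit 58) (nat_lit 5) (nat_lit 438) (nat_lit 412) (nat_lit 230)) (XT.lf (nat_lit 0) (nat_lit 145120547363) (nat_lit 168) (nat_lit 447182655793) (nat_lit 252) (nat_lit 139955294342) (nat_lit 53) (nat_lit 5) (nat_lit 55) (nat_lit 5) (nat_lit 56) (nat_lit 5) (nat_lit 439) (nat_lit 412) (nat_lit 229))) (XT.nd (nat_lit 94) (nat_lit 168) (nat_lit 0) (XT.lf (nat_lit 0) (nat_lit 149743384633) (nat_lit 168) (nat_lit 19000539043) (nat_lit 252) (nat_lit 600002065555) (nat_lit 50) (nat_lit 5) (nat_lit 52) (nat_lit 5) (nat_lit 53) (nat_lit 5) (nat_lit 440) (nat_lit 412) (nat_lit 228)) (XT.lf (nat_lit 0) (nat_lit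 154391176112) (nat_lit 168) (nat_lit 362639042441) (nat_lit 252) (nat_lit 290017819736) (nat_lit 48) (nat_lit 5) (nat_lit 50) (nat_lit 5) (nat_lit 51) (nat_lit 5) (nat_lit 441) (nat_lit 412) (nat_lit 227))))))) (XT.nd (nat_lit 1316) (nat_lit 1848) (nat_lit 0) (XT.nd (nat_lit 658) (nat_lit 1092) (nat_lit 0) (XT.nd (nat_lit 282) (nat_lit 672) (nat_lit 0) (XT.nd (nat_lit 94) (nat_lit 252) (nat_lit 0) (XT.lf (nat_lit 0) (nat_lit 58966560034) (nat_lit 168) (nat_lit 681345696510) (nat_lit 84) (nat_lit 107285341285) (nat_lit 46) (nat_lit 5) (nat_lit 48) (nat_lit 5) (nat_lit 47) (nat_lit 5) (nat_lit 442) (nat_lit 412) (nat_lit 226)) (XT.nd (nat_lit 94) (nat_lit 84) (nat_lit 0) (XT.lf (nat_lit 0) (nat_lit 177651359617) (nat_lit 168) (nat_lit 268636939741) (nat_lit 252) (nat_lit 443836132208) (nat_lit 44) (nat_lit 5) (nat_lit 46) (nat_lit 5) (nat_lit 47) (nat_lit 5)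 (nat_lit 443) (nat_lit 412) (nat_lit 225)) (XT.lf (nat_lit 0) (nat_lit 196576734785) (nat_lit 84) (nat_lit 686910412732) (nat_lit 168) (nat_lit 51621696000) (nat_lit 43) (nat_lit 5) (nat_lit 44) (nat_lit 5) (nat_lit 45) (nat_lit 4) (nat_lit 444) (nat_lit 412) (nat_lit 224)))) (XT.nd (nat_lit 188) (nat_lit 336) (nat_lit 0) (XT.nd (nat_lit 94) (nat_lit 84) (nat_lit 0) (XT.lf (nat_lit 0) (nat_lit 217130020385) (nat_lit 168) (nat_lit 163468465783) (nat_lit 252) (nat_lit 601776450096) (nat_lit 40) (nat_lit 5) (nat_lit 42) (nat_lit 5) (nat_lit 43) (nat_lit 5) (nat_lit 445) (nat_lit 412) (nat_lit 223)) (XT.lf (nat_lit 0) (nat_lit 243269529919) (nat_lit 84) (nat_lit 625490072360) (nat_lit 168) (nat_lit 163461806680) (nat_lit 39) (nat_lit 5) (nat_lit 40) (nat_lit 5) (nat_lit 41) (nat_lit 4) (nat_lit 446) (nat_lit 412) (nat_lit 222))) (XT.nd (nat_lit 94) (nat_lit 84)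 (nat_lit 0) (XT.lf (nat_lit 0) (nat_lit 275403653662) (nat_lit 168) (nat_lit 45199799694) (nat_lit 252) (nat_lit 764179973837) (nat_lit 36) (nat_lit 5) (nat_lit 38) (nat_lit 5) (nat_lit 39) (nat_lit 5) (nat_lit 447) (nat_lit 412) (nat_lit 221)) (XT.lf (nat_lit 0) (nat_lit 310081440094) (nat_lit 84) (nat_lit 555550738640) (nat_lit 168) (nat_lit 274385985563) (nat_lit 35) (nat_lit 5) (nat_lit 36) (nat_lit 5) (nat_lit 37) (nat_lit 4) (nat_lit 448) (nat_lit 412) (nat_lit 220))))) (XT.nd (nat_lit 282) (nat_lit 504) (nat_lit 0) (XT.nd (nat_lit 94) (nat_lit 336) (nat_lit 0) (XT.lf (nat_lit 0) (nat_lit 268464123132) (nat_lit 252) (nat_lit 844376707394) (nat_lit 84) (nat_lit 85531049487) (nat_lit 32) (nat_lit 5) (nat_lit 35) (nat_lit 5) (nat_lit 33) (nat_lit 4) (nat_lit 449) (nat_lit 412) (nat_lit 219)) (XT.nd (nat_lit 94) (nat_lit 252) (nat_lit 0) (XT.lf (nat_lit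 0) (nat_lit 400184430594) (nat_lit 84) (nat_lit 475382704527) (nat_lit 168) (nat_lit 384079949171) (nat_lit 31) (nat_lit 5) (nat_lit 32) (nat_lit 5) (nat_lit 33) (nat_lit 4) (nat_lit 450) (nat_lit 412) (nat_lit 218)) (XT.lf (nat_lit 0) (nat_lit 224723693994) (nat_lit 252) (nat_lit 867629027583) (nat_lit 84) (nat_lit 232017021645) (nat_lit 28) (nat_lit 5) (nat_lit 31) (nat_lit 5) (nat_lit 29) (nat_lit 4) (nat_lit 451) (nat_lit 412) (nat_lit 217)))) (XT.nd (nat_lit 188) (nat_lit 252) (nat_lit 0) (XT.nd (nat_lit 94) (nat_lit 168) (nat_lit 0) (XT.lf (nat_lit 0) (nat_lit 517226714630) (nat_lit 84) (nat_lit 383036380384) (nat_lit 168) (nat_lit 492117912378) (nat_lit 27) (nat_lit 5) (nat_lit 28) (nat_lit 5) (nat_lit 29) (nat_lit 4) (nat_lit 452) (nat_lit 412) (nat_lit 216)) (XT.lf (nat_lit 0) (nat_lit 189840311805) (nat_lit 168) (nat_lit 875887034906) (nat_lit 84)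 (nat_lit 398423928270) (nat_lit 25) (nat_lit 5) (nat_lit 27) (nat_lit 5) (nat_lit 26) (nat_lit 4) (nat_lit 453) (nat_lit 412) (nat_lit 215))) (XT.nd (nat_lit 94) (nat_lit 168) (nat_lit 0) (XT.lf (nat_lit 0) (nat_lit 665396983579) (nat_lit 84) (nat_lit 276289202802) (nat_lit 168) (nat_lit 597944981914) (nat_lit 24) (nat_lit 5) (nat_lit 25) (nat_lit 5) (nat_lit 26) (nat_lit 4) (nat_lit 454) (nat_lit 412) (nat_lit 214)) (XT.lf (nat_lit 0) (nat_lit 165189285651) (nat_lit 168) (nat_lit 866180746406) (nat_lit 84) (nat_lit 587830922346) (nat_lit 22) (nat_lit 5) (nat_lit 24) (nat_lit 5) (nat_lit 23) (nat_lit 4) (nat_lit 455) (nat_lit 412) (nat_lit 213)))))) (XT.nd (nat_lit 658) (nat_lit 1008) (nat_lit 0) (XT.nd (nat_lit 282) (nat_lit 504) (nat_lit 0) (XT.nd (nat_lit 94) (nat_lit 252) (nat_lit 0) (XT.lf (nat_lit 0) (nat_lit 849496993412) (nat_lit 84) (nat_lit 152608272598)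 (nat_lit 168) (nat_lit 700856936009) (nat_lit 21) (nat_lit 5) (nat_lit 22) (nat_lit 5) (nat_lit 23) (nat_lit 4) (nat_lit 456) (nat_lit 412) (nat_lit 212)) (XT.nd (nat_lit 94) (nat_lit 84) (nat_lit 0) (XT.lf (nat_lit 0) (nat_lit 152386877831) (nat_lit 168) (nat_lit 835053396020) (nat_lit 84) (nat_lit 803724263862) (nat_lit 19) (nat_lit 5) (nat_lit 21) (nat_lit 5) (nat_lit 20) (nat_lit 4) (nat_lit 457) (nat_lit 412) (nat_lit 211)) (XT.lf (nat_lit 0) (nat_lit 1075023557277) (nat_lit 84) (nat_lit 9108183754) (nat_lit 168) (nat_lit 799977038468) (nat_lit 18) (nat_lit 5) (nat_lit 19) (nat_lit 5) (nat_lit 20) (nat_lit 4) (nat_lit 458) (nat_lit 412) (nat_lit 210)))) (XT.nd (nat_lit 188) (nat_lit 252) (nat_lit 0) (XT.nd (nat_lit 94) (nat_lit 84) (nat_lit 0) (XT.lf (nat_lit 0) (nat_lit 153323792114) (nat_lit 168) (nat_lit 778492442258) (nat_lit 84) (nat_lit 1050050309635)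 (nat_lit 16) (nat_lit 5) (nat_lit 18) (nat_lit 5) (nat_lit 17) (nat_lit 4) (nat_lit 459) (nat_lit 412) (nat_lit 209)) (XT.lf (nat_lit 0) (nat_lit 1193223525040) (nat_lit 168) (nat_lit 739191891485) (nat_lit 0) (nat_lit 152455687542) (nat_lit 15) (nat_lit 5) (nat_lit 17) (nat_lit 4) (nat_lit 15) (nat_lit 4) (nat_lit 460) (nat_lit 412) (nat_lit 208))) (XT.nd (nat_lit 94) (nat_lit 84) (nat_lit 0) (XT.lf (nat_lit 0) (nat_lit 170203178235) (nat_lit 168) (nat_lit 691851333825) (nat_lit 84) (nat_lit 1331275129755) (nat_lit 13) (nat_lit 5) (nat_lit 15) (nat_lit 5) (nat_lit 14) (nat_lit 4) (nat_lit 461) (nat_lit 412) (nat_lit 207)) (XT.lf (nat_lit 0) (nat_lit 1330920273902) (nat_lit 168) (nat_lit 636843078589) (nat_lit 0) (nat_lit 339712788139) (nat_lit 12) (nat_lit 5) (nat_lit 14) (nat_lit 4) (nat_lit 12) (nat_lit 4) (nat_lit 462) (nat_lit 412) (nat_lit 206))))) (XT.nd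 (nat_lit 376) (nat_lit 504) (nat_lit 0) (XT.nd (nat_lit 188) (nat_lit 252) (nat_lit 0) (XT.nd (nat_lit 94) (nat_lit 84) (nat_lit 0) (XT.lf (nat_lit 0) (nat_lit 205583730484) (nat_lit 168) (nat_lit 569760847830) (nat_lit 84) (nat_lit 1652451564887) (nat_lit 10) (nat_lit 5) (nat_lit 12) (nat_lit 5) (nat_lit 11) (nat_lit 4) (nat_lit 463) (nat_lit 412) (nat_lit 205)) (XT.lf (nat_lit 0) (nat_lit 1501079206265) (nat_lit 168) (nat_lit 496140101089) (nat_lit 0) (nat_lit 557072059428) (nat_lit 9) (nat_lit 5) (nat_lit 11) (nat_lit 4) (nat_lit 9) (nat_lit 4) (nat_lit 464) (nat_lit 412) (nat_lit 204))) (XT.nd (nat_lit 94) (nat_lit 84) (nat_lit 0) (XT.lf (nat_lit 0) (nat_lit 262428530456) (nat_lit 168) (nat_lit 406028667207) (nat_lit 84) (nat_lit 2019294637008) (nat_lit 7) (nat_lit 5) (nat_lit 9) (nat_lit 5) (nat_lit 8) (nat_lit 4) (nat_lit 465) (nat_lit 412) (nat_lit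 203)) (XT.lf (nat_lit 0) (nat_lit 1708269255872) (nat_lit 168) (nat_lit 310449369328) (nat_lit 0) (nat_lit 809214815993) (nat_lit 6) (nat_lit 5) (nat_lit 8) (nat_lit 4) (nat_lit 6) (nat_lit 4) (nat_lit 466) (nat_lit 412) (nat_lit 202)))) (XT.nd (nat_lit 188) (nat_lit 252) (nat_lit 0) (XT.nd (nat_lit 94) (nat_lit 84) (nat_lit 0) (XT.lf (nat_lit 0) (nat_lit 344160365081) (nat_lit 168) (nat_lit 193525697835) (nat_lit 84) (nat_lit 2438266336164) (nat_lit 4) (nat_lit 5) (nat_lit 6) (nat_lit 5) (nat_lit 5) (nat_lit 4) (nat_lit 467) (nat_lit 412) (nat_lit 201)) (XT.lf (nat_lit 0) (nat_lit 1957703044811) (nat_lit 168) (nat_lit 72139374622) (nat_lit 0) (nat_lit 1101460709425) (nat_lit 3) (nat_lit 5) (nat_lit 5) (nat_lit 4) (nat_lit 3) (nat_lit 4) (nat_lit 468) (nat_lit 412) (nat_lit 200))) (XT.nd (nat_lit 94) (nat_lit 0) (nat_lit 0) (XT.lf (nat_lit 0) (nat_lit 4780340449427)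 (nat_lit 0) (nat_lit 0) (nat_lit 0) (nat_lit 0) (nat_lit 0) (nat_lit 0) (nat_lit 1) (nat_lit 0) (nat_lit 1) (nat_lit 0) (nat_lit 469) (nat_lit 412) (nat_lit 199)) (XT.lf (nat_lit 0) (nat_lit 5158068471568) (nat_lit 0) (nat_lit 0) (nat_lit 0) (nat_lit 0) (nat_lit 0) (nat_lit 0) (nat_lit 1) (nat_lit 0) (nat_lit 1) (nat_lit 0) (nat_lit 470) (nat_lit 412) (nat_lit 198))))))))
noncomputable def xc196 : XT := (XT.nd (nat_lit 2632) (nat_lit 0) (nat_lit 0) (XT.nd (nat_lit 1316) (nat_lit 0) (nat_lit 0) (XT.nd (nat_lit 658) (nat_lit 0) (nat_lit 0) (XT.nd (nat_lit 282) (nat_lit 0) (nat_lit 0) (XT.nd (nat_lit 94) (nat_lit 0) (nat_lit 0) (XT.lf (nat_lit 0) (nat_lit 5566014735531) (nat_lit 0) (nat_lit 0) (nat_lit 0) (nat_lit 0) (nat_lit 0) (nat_lit 0) (nat_lit 1) (nat_lit 0) (nat_lit 1) (nat_lit 0) (nat_lit 471) (nat_lit 412) (nat_lit 197)) (XT.nd (nat_lit 94) (nat_lit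 0) (nat_lit 0) (XT.lf (nat_lit 0) (nat_lit 6006596700658) (nat_lit 0) (nat_lit 0) (nat_lit 0) (nat_lit 0) (nat_lit 0) (nat_lit 0) (nat_lit 1) (nat_lit 0) (nat_lit 1) (nat_lit 0) (nat_lit 472) (nat_lit 412) (nat_lit 196)) (XT.lf (nat_lit 0) (nat_lit 6482425223039) (nat_lit 0) (nat_lit 0) (nat_lit 0) (nat_lit 0) (nat_lit 0) (nat_lit 0) (nat_lit 1) (nat_lit 0) (nat_lit 1) (nat_lit 0) (nat_lit 473) (nat_lit 412) (nat_lit 195)))) (XT.nd (nat_lit 188) (nat_lit 0) (nat_lit 0) (XT.nd (nat_lit 94) (nat_lit 0) (nat_lit 0) (XT.lf (nat_lit 0) (nat_lit 6996320027251) (nat_lit 0) (nat_lit 0) (nat_lit 0) (nat_lit 0) (nat_lit 0) (nat_lit 0) (nat_lit 1) (nat_lit 0) (nat_lit 1) (nat_lit 0) (nat_lit 474) (nat_lit 412) (nat_lit 194)) (XT.lf (nat_lit 0) (nat_lit 7551326415838) (nat_lit 0) (nat_lit 0) (nat_lit 0) (nat_lit 0) (nat_lit 0) (nat_lit 0) (nat_lit 1) (nat_lit 0) (nat_lit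 1) (nat_lit 0) (nat_lit 475) (nat_lit 412) (nat_lit 193))) (XT.nd (nat_lit 94) (nat_lit 0) (nat_lit 0) (XT.lf (nat_lit 0) (nat_lit 8150733315546) (nat_lit 0) (nat_lit 0) (nat_lit 0) (nat_lit 0) (nat_lit 0) (nat_lit 0) (nat_lit 1) (nat_lit 0) (nat_lit 1) (nat_lit 0) (nat_lit 476) (nat_lit 412) (nat_lit 192)) (XT.lf (nat_lit 0) (nat_lit 8798092767263) (nat_lit 0) (nat_lit 0) (nat_lit 0) (nat_lit 0) (nat_lit 0) (nat_lit 0) (nat_lit 1) (nat_lit 0) (nat_lit 1) (nat_lit 0) (nat_lit 477) (nat_lit 412) (nat_lit 191))))) (XT.nd (nat_lit 282) (nat_lit 0) (nat_lit 0) (XT.nd (nat_lit 94) (nat_lit 0) (nat_lit 0) (XT.lf (nat_lit 0) (nat_lit 9497240975147) (nat_lit 0) (nat_lit 0) (nat_lit 0) (nat_lit 0) (nat_lit 0) (nat_lit 0) (nat_lit 1) (nat_lit 0) (nat_lit 1) (nat_lit 0) (nat_lit 478) (nat_lit 412) (nat_lit 190)) (XT.nd (nat_lit 94) (nat_lit 0) (nat_lit 0) (XT.lf (nat_lit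 0) (nat_lit 10252321039689) (nat_lit 0) (nat_lit 0) (nat_lit 0) (nat_lit 0) (nat_lit 0) (nat_lit 0) (nat_lit 1) (nat_lit 0) (nat_lit 1) (nat_lit 0) (nat_lit 479) (nat_lit 412) (nat_lit 189)) (XT.lf (nat_lit 0) (nat_lit 11067807509420) (nat_lit 0) (nat_lit 0) (nat_lit 0) (nat_lit 0) (nat_lit 0) (nat_lit 0) (nat_lit 1) (nat_lit 0) (nat_lit 1) (nat_lit 0) (nat_lit 480) (nat_lit 412) (nat_lit 188)))) (XT.nd (nat_lit 188) (nat_lit 0) (nat_lit 0) (XT.nd (nat_lit 94) (nat_lit 0) (nat_lit 0) (XT.lf (nat_lit 0) (nat_lit 11948532896753) (nat_lit 0) (nat_lit 0) (nat_lit 0) (nat_lit 0) (nat_lit 0) (nat_lit 0) (nat_lit 1) (nat_lit 0) (nat_lit 1) (nat_lit 0) (nat_lit 481) (nat_lit 412) (nat_lit 187)) (XT.lf (nat_lit 0) (nat_lit 12899716315095) (nat_lit 0) (nat_lit 0) (nat_lit 0) (nat_lit 0) (nat_lit 0) (nat_lit 0) (nat_lit 1) (nat_lit 0) (nat_lit 1) (nat_lit 0) (nat_lit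 482) (nat_lit 412) (nat_lit 186))) (XT.nd (nat_lit 94) (nat_lit 0) (nat_lit 0) (XT.lf (nat_lit 0) (nat_lit 13926994406924) (nat_lit 0) (nat_lit 0) (nat_lit 0) (nat_lit 0) (nat_lit 0) (nat_lit 0) (nat_lit 1) (nat_lit 0) (nat_lit 1) (nat_lit 0) (nat_lit 483) (nat_lit 412) (nat_lit 185)) (XT.lf (nat_lit 0) (nat_lit 15036454746118) (nat_lit 0) (nat_lit 0) (nat_lit 0) (nat_lit 0) (nat_lit 0) (nat_lit 0) (nat_lit 1) (nat_lit 0) (nat_lit 1) (nat_lit 0) (nat_lit 484) (nat_lit 412) (nat_lit 184)))))) (XT.nd (nat_lit 658) (nat_lit 0) (nat_lit 0) (XT.nd (nat_lit 282) (nat_lit 0) (nat_lit 0) (XT.nd (nat_lit 94) (nat_lit 0) (nat_lit 0) (XT.lf (nat_lit 0) (nat_lit 16234671912465) (nat_lit 0) (nat_lit 0) (nat_lit 0) (nat_lit 0) (nat_lit 0) (nat_lit 0) (nat_lit 1) (nat_lit 0) (nat_lit 1) (nat_lit 0) (nat_lit 485) (nat_lit 412) (nat_lit 183)) (XT.nd (nat_lit 94) (nat_lit 0)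 (nat_lit 0) (XT.lf (nat_lit 0) (nat_lit 17528746452136) (nat_lit 0) (nat_lit 0) (nat_lit 0) (nat_lit 0) (nat_lit 0) (nat_lit 0) (nat_lit 1) (nat_lit 0) (nat_lit 1) (nat_lit 0) (nat_lit 486) (nat_lit 412) (nat_lit 182)) (XT.lf (nat_lit 0) (nat_lit 18926346954996) (nat_lit 0) (nat_lit 0) (nat_lit 0) (nat_lit 0) (nat_lit 0) (nat_lit 0) (nat_lit 1) (nat_lit 0) (nat_lit 1) (nat_lit 0) (nat_lit 487) (nat_lit 412) (nat_lit 181)))) (XT.nd (nat_lit 188) (nat_lit 0) (nat_lit 0) (XT.nd (nat_lit 94) (nat_lit 0) (nat_lit 0) (XT.lf (nat_lit 0) (nat_lit 20435755498098) (nat_lit 0) (nat_lit 0) (nat_lit 0) (nat_lit 0) (nat_lit 0) (nat_lit 0) (nat_lit 1) (nat_lit 0) (nat_lit 1) (nat_lit 0) (nat_lit 488) (nat_lit 412) (nat_lit 180)) (XT.lf (nat_lit 0) (nat_lit 22065916724661) (nat_lit 0) (nat_lit 0) (nat_lit 0) (nat_lit 0) (nat_lit 0) (nat_lit 0) (nat_lit 1) (nat_lit 0) (nat_lit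 1) (nat_lit 0) (nat_lit 489) (nat_lit 412) (nat_lit 179))) (XT.nd (nat_lit 94) (nat_lit 0) (nat_lit 0) (XT.lf (nat_lit 0) (nat_lit 23826490849360) (nat_lit 0) (nat_lit 0) (nat_lit 0) (nat_lit 0) (nat_lit 0) (nat_lit 0) (nat_lit 1) (nat_lit 0) (nat_lit 1) (nat_lit 0) (nat_lit 490) (nat_lit 412) (nat_lit 178)) (XT.lf (nat_lit 0) (nat_lit 25727910904047) (nat_lit 0) (nat_lit 0) (nat_lit 0) (nat_lit 0) (nat_lit 0) (nat_lit 0) (nat_lit 1) (nat_lit 0) (nat_lit 1) (nat_lit 0) (nat_lit 491) (nat_lit 412) (nat_lit 177))))) (XT.nd (nat_lit 282) (nat_lit 0) (nat_lit 0) (XT.nd (nat_lit 94) (nat_lit 0) (nat_lit 0) (XT.lf (nat_lit 0) (nat_lit 27781444563119) (nat_lit 0) (nat_lit 0) (nat_lit 0) (nat_lit 0) (nat_lit 0) (nat_lit 0) (nat_lit 1) (nat_lit 0) (nat_lit 1) (nat_lit 0) (nat_lit 492) (nat_lit 412) (nat_lit 176)) (XT.nd (nat_lit 94) (nat_lit 0) (nat_lit 0) (XT.lf (nat_lit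 0) (nat_lit 29999260914926) (nat_lit 0) (nat_lit 0) (nat_lit 0) (nat_lit 0) (nat_lit 0) (nat_lit 0) (nat_lit 1) (nat_lit 0) (nat_lit 1) (nat_lit 0) (nat_lit 493) (nat_lit 412) (nat_lit 175)) (XT.lf (nat_lit 0) (nat_lit 32394502574886) (nat_lit 0) (nat_lit 0) (nat_lit 0) (nat_lit 0) (nat_lit 0) (nat_lit 0) (nat_lit 1) (nat_lit 0) (nat_lit 1) (nat_lit 0) (nat_lit 494) (nat_lit 412) (nat_lit 174)))) (XT.nd (nat_lit 188) (nat_lit 0) (nat_lit 0) (XT.nd (nat_lit 94) (nat_lit 0) (nat_lit 0) (XT.lf (nat_lit 0) (nat_lit 34981363567651) (nat_lit 0) (nat_lit 0) (nat_lit 0) (nat_lit 0) (nat_lit 0) (nat_lit 0) (nat_lit 1) (nat_lit 0) (nat_lit 1) (nat_lit 0) (nat_lit 495) (nat_lit 412) (nat_lit 173)) (XT.lf (nat_lit 0) (nat_lit 37775173439844) (nat_lit 0) (nat_lit 0) (nat_lit 0) (nat_lit 0) (nat_lit 0) (nat_lit 0) (nat_lit 1) (nat_lit 0) (nat_lit 1) (nat_lit 0) (nat_lit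 496) (nat_lit 412) (nat_lit 172))) (XT.nd (nat_lit 94) (nat_lit 0) (nat_lit 0) (XT.lf (nat_lit 0) (nat_lit 40792488101820) (nat_lit 0) (nat_lit 0) (nat_lit 0) (nat_lit 0) (nat_lit 0) (nat_lit 0) (nat_lit 1) (nat_lit 0) (nat_lit 1) (nat_lit 0) (nat_lit 497) (nat_lit 412) (nat_lit 171)) (XT.lf (nat_lit 0) (nat_lit 44051187936760) (nat_lit 0) (nat_lit 0) (nat_lit 0) (nat_lit 0) (nat_lit 0) (nat_lit 0) (nat_lit 1) (nat_lit 0) (nat_lit 1) (nat_lit 0) (nat_lit 498) (nat_lit 412) (nat_lit 170))))))) (XT.nd (nat_lit 60630) (nat_lit 0) (nat_lit 5208) (XT.nd (nat_lit 59972) (nat_lit 0) (nat_lit 9324) (XT.nd (nat_lit 282) (nat_lit 0) (nat_lit 0) (XT.nd (nat_lit 94) (nat_lit 0) (nat_lit 0) (XT.lf (nat_lit 0) (nat_lit 47570583758502) (nat_lit 0) (nat_lit 0) (nat_lit 0) (nat_lit 0) (nat_lit 0) (nat_lit 0) (nat_lit 1) (nat_lit 0) (nat_lit 1) (nat_lit 0) (nat_lit 499) (nat_lit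 412) (nat_lit 169)) (XT.nd (nat_lit 94) (nat_lit 0) (nat_lit 0) (XT.lf (nat_lit 0) (nat_lit 51371531245988) (nat_lit 0) (nat_lit 0) (nat_lit 0) (nat_lit 0) (nat_lit 0) (nat_lit 0) (nat_lit 1) (nat_lit 0) (nat_lit 1) (nat_lit 0) (nat_lit 500) (nat_lit 412) (nat_lit 168)) (XT.lf (nat_lit 0) (nat_lit 55476554532478) (nat_lit 0) (nat_lit 0) (nat_lit 0) (nat_lit 0) (nat_lit 0) (nat_lit 0) (nat_lit 1) (nat_lit 0) (nat_lit 1) (nat_lit 0) (nat_lit 501) (nat_lit 412) (nat_lit 167)))) (XT.nd (nat_lit 59502) (nat_lit 0) (nat_lit 10836) (XT.nd (nat_lit 59408) (nat_lit 0) (nat_lit 10752) (XT.lf (nat_lit 0) (nat_lit 59909979681892) (nat_lit 0) (nat_lit 0) (nat_lit 0) (nat_lit 0) (nat_lit 0) (nat_lit 0) (nat_lit 1) (nat_lit 0) (nat_lit 1) (nat_lit 0) (nat_lit 502) (nat_lit 412) (nat_lit 166)) (XT.lf (nat_lit 0) (nat_lit 56359784986) (nat_lit 924) (nat_lit 31751495151) (nat_lit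 924) (nat_lit 31751495151) (nat_lit 128) (nat_lit 3) (nat_lit 139) (nat_lit 3) (nat_lit 139) (nat_lit 5) (nat_lit 413) (nat_lit 413) (nat_lit 254))) (XT.nd (nat_lit 94) (nat_lit 0) (nat_lit 0) (XT.lf (nat_lit 0) (nat_lit 119505503070) (nat_lit 840) (nat_lit 116898568191) (nat_lit 924) (nat_lit 12796643824) (nat_lit 129) (nat_lit 5) (nat_lit 139) (nat_lit 5) (nat_lit 140) (nat_lit 5) (nat_lit 414) (nat_lit 413) (nat_lit 253)) (XT.lf (nat_lit 84) (nat_lit 86437653217) (nat_lit 0) (nat_lit 45841764624) (nat_lit 924) (nat_lit 126882219561) (nat_lit 130) (nat_lit 5) (nat_lit 129) (nat_lit 5) (nat_lit 140) (nat_lit 5) (nat_lit 415) (nat_lit 413) (nat_lit 252))))) (XT.nd (nat_lit 282) (nat_lit 1596) (nat_lit 0) (XT.nd (nat_lit 94) (nat_lit 0) (nat_lit 84) (XT.lf (nat_lit 84) (nat_lit 39118600874) (nat_lit 0) (nat_lit 112134421650) (nat_lit 924) (nat_lit 118407522145)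 (nat_lit 131) (nat_lit 5) (nat_lit 130) (nat_lit 5) (nat_lit 141) (nat_lit 5) (nat_lit 416) (nat_lit 413) (nat_lit 251)) (XT.nd (nat_lit 94) (nat_lit 0) (nat_lit 84) (XT.lf (nat_lit 0) (nat_lit 177039985069) (nat_lit 840) (nat_lit 9059412925) (nat_lit 924) (nat_lit 94635193049) (nat_lit 131) (nat_lit 5) (nat_lit 141) (nat_lit 5) (nat_lit 142) (nat_lit 5) (nat_lit 417) (nat_lit 413) (nat_lit 250)) (XT.lf (nat_lit 0) (nat_lit 210857582217) (nat_lit 840) (nat_lit 57013691685) (nat_lit 924) (nat_lit 24524903344) (nat_lit 132) (nat_lit 5) (nat_lit 142) (nat_lit 5) (nat_lit 143) (nat_lit 5) (nat_lit 418) (nat_lit 413) (nat_lit 249)))) (XT.nd (nat_lit 188) (nat_lit 1008) (nat_lit 0) (XT.nd (nat_lit 94) (nat_lit 756) (nat_lit 0) (XT.lf (nat_lit 84) (nat_lit 197914266304) (nat_lit 0) (nat_lit 55854557096) (nat_lit 924) (nat_lit 50902455132) (nat_lit 133) (nat_lit 5)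 (nat_lit 132) (nat_lit 5) (nat_lit 143) (nat_lit 5) (nat_lit 419) (nat_lit 413) (nat_lit 248)) (XT.lf (nat_lit 0) (nat_lit 159788568810) (nat_lit 840) (nat_lit 146531384580) (nat_lit 924) (nat_lit 11298085056) (nat_lit 123) (nat_lit 5) (nat_lit 133) (nat_lit 5) (nat_lit 134) (nat_lit 5) (nat_lit 420) (nat_lit 413) (nat_lit 247))) (XT.nd (nat_lit 94) (nat_lit 420) (nat_lit 0) (XT.lf (nat_lit 0) (nat_lit 36571872050) (nat_lit 588) (nat_lit 210283564446) (nat_lit 84) (nat_lit 84415301179) (nat_lit 116) (nat_lit 5) (nat_lit 123) (nat_lit 5) (nat_lit 117) (nat_lit 5) (nat_lit 421) (nat_lit 413) (nat_lit 246)) (XT.lf (nat_lit 0) (nat_lit 81777929539) (nat_lit 420) (nat_lit 12644774719) (nat_lit 504) (nat_lit 251256332439) (nat_lit 111) (nat_lit 5) (nat_lit 116) (nat_lit 5) (nat_lit 117) (nat_lit 5) (nat_lit 422) (nat_lit 413) (nat_lit 245)))))) (XT.nd (nat_lit 658)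 (nat_lit 2016) (nat_lit 0) (XT.nd (nat_lit 282) (nat_lit 1344) (nat_lit 0) (XT.nd (nat_lit 94) (nat_lit 336) (nat_lit 0) (XT.lf (nat_lit 0) (nat_lit 41162138497) (nat_lit 420) (nat_lit 123856869179) (nat_lit 504) (nat_lit 195815121734) (nat_lit 106) (nat_lit 5) (nat_lit 111) (nat_lit 5) (nat_lit 112) (nat_lit 5) (nat_lit 423) (nat_lit 413) (nat_lit 244)) (XT.nd (nat_lit 94) (nat_lit 0) (nat_lit 0) (XT.lf (nat_lit 0) (nat_lit 810095247) (nat_lit 336) (nat_lit 247360666266) (nat_lit 420) (nat_lit 128685480720) (nat_lit 102) (nat_lit 5) (nat_lit 106) (nat_lit 5) (nat_lit 107) (nat_lit 5) (nat_lit 424) (nat_lit 413) (nat_lit 243)) (XT.lf (nat_lit 0) (nat_lit 345763161858) (nat_lit 420) (nat_lit 37755797302) (nat_lit 84) (nat_lit 10251739611) (nat_lit 102) (nat_lit 5) (nat_lit 107) (nat_lit 5) (nat_lit 103) (nat_lit 5) (nat_lit 425) (nat_lit 413) (nat_lit 242))))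 (XT.nd (nat_lit 188) (nat_lit 588) (nat_lit 0) (XT.nd (nat_lit 94) (nat_lit 336) (nat_lit 0) (XT.lf (nat_lit 0) (nat_lit 47413728583) (nat_lit 420) (nat_lit 78213004047) (nat_lit 84) (nat_lit 285903970981) (nat_lit 97) (nat_lit 5) (nat_lit 102) (nat_lit 5) (nat_lit 98) (nat_lit 5) (nat_lit 426) (nat_lit 413) (nat_lit 241)) (XT.lf (nat_lit 0) (nat_lit 156871387849) (nat_lit 420) (nat_lit 118908752714) (nat_lit 84) (nat_lit 154487785698) (nat_lit 93) (nat_lit 5) (nat_lit 98) (nat_lit 5) (nat_lit 94) (nat_lit 5) (nat_lit 427) (nat_lit 413) (nat_lit 240))) (XT.nd (nat_lit 94) (nat_lit 252) (nat_lit 0) (XT.lf (nat_lit 0) (nat_lit 283274873770) (nat_lit 420) (nat_lit 158586201143) (nat_lit 84) (nat_lit 8233591115) (nat_lit 89) (nat_lit 5) (nat_lit 94) (nat_lit 5) (nat_lit 90) (nat_lit 5) (nat_lit 428) (nat_lit 413) (nat_lit 239)) (XT.lf (nat_lit 0) (nat_lit 271610287905)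 (nat_lit 252) (nat_lit 159176300968) (nat_lit 336) (nat_lit 40171158588) (nat_lit 86) (nat_lit 5) (nat_lit 89) (nat_lit 5) (nat_lit 90) (nat_lit 5) (nat_lit 429) (nat_lit 413) (nat_lit 238))))) (XT.nd (nat_lit 282) (nat_lit 1092) (nat_lit 0) (XT.nd (nat_lit 94) (nat_lit 504) (nat_lit 0) (XT.lf (nat_lit 0) (nat_lit 102725949783) (nat_lit 420) (nat_lit 240345992278) (nat_lit 84) (nat_lit 149882081846) (nat_lit 81) (nat_lit 5) (nat_lit 86) (nat_lit 5) (nat_lit 82) (nat_lit 5) (nat_lit 430) (nat_lit 413) (nat_lit 237)) (XT.nd (nat_lit 94) (nat_lit 252) (nat_lit 0) (XT.lf (nat_lit 0) (nat_lit 235418703107) (nat_lit 252) (nat_lit 30136449069) (nat_lit 336) (nat_lit 250626536760) (nat_lit 78) (nat_lit 5) (nat_lit 81) (nat_lit 5) (nat_lit 82) (nat_lit 5) (nat_lit 431) (nat_lit 413) (nat_lit 236)) (XT.lf (nat_lit 0) (nat_lit 218900318092) (nat_lit 252) (nat_lit 234989411186)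 (nat_lit 336) (nat_lit 86753885965) (nat_lit 75) (nat_lit 5) (nat_lit 78) (nat_lit 5) (nat_lit 79) (nat_lit 5) (nat_lit 432) (nat_lit 413) (nat_lit 235)))) (XT.nd (nat_lit 188) (nat_lit 504) (nat_lit 0) (XT.nd (nat_lit 94) (nat_lit 252) (nat_lit 0) (XT.lf (nat_lit 0) (nat_lit 97763671281) (nat_lit 336) (nat_lit 361927189342) (nat_lit 84) (nat_lit 106780050367) (nat_lit 71) (nat_lit 5) (nat_lit 75) (nat_lit 5) (nat_lit 72) (nat_lit 5) (nat_lit 433) (nat_lit 413) (nat_lit 234)) (XT.lf (nat_lit 0) (nat_lit 190932782163) (nat_lit 252) (nat_lit 115750777297) (nat_lit 336) (nat_lit 286975703198) (nat_lit 68) (nat_lit 5) (nat_lit 71) (nat_lit 5) (nat_lit 72) (nat_lit 5) (nat_lit 434) (nat_lit 413) (nat_lit 233))) (XT.nd (nat_lit 94) (nat_lit 336) (nat_lit 0) (XT.lf (nat_lit 0) (nat_lit 179900636896) (nat_lit 168) (nat_lit 365625253306) (nat_lit 252) (nat_lit 76836349683)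 (nat_lit 66) (nat_lit 5) (nat_lit 68) (nat_lit 5) (nat_lit 69) (nat_lit 5) (nat_lit 435) (nat_lit 413) (nat_lit 232)) (XT.lf (nat_lit 0) (nat_lit 157297201616) (nat_lit 336) (nat_lit 481293063280) (nat_lit 84) (nat_lit 14054623269) (nat_lit 62) (nat_lit 5) (nat_lit 66) (nat_lit 5) (nat_lit 63) (nat_lit 5) (nat_lit 436) (nat_lit 413) (nat_lit 231))))))))
noncomputable def xc197 : XT := (XT.nd (nat_lit 2632) (nat_lit 840) (nat_lit 0) (XT.nd (nat_lit 1316) (nat_lit 1848) (nat_lit 0) (XT.nd (nat_lit 658) (nat_lit 1176) (nat_lit 0) (XT.nd (nat_lit 282) (nat_lit 756) (nat_lit 0) (XT.nd (nat_lit 94) (nat_lit 420) (nat_lit 0) (XT.lf (nat_lit 0) (nat_lit 162726837853) (nat_lit 168) (nat_lit 261318042139) (nat_lit 252) (nat_lit 260413516984) (nat_lit 60) (nat_lit 5) (nat_lit 62) (nat_lit 5) (nat_lit 63) (nat_lit 5) (nat_lit 437) (nat_lit 413) (nat_lit 230)) (XT.nd (nat_lit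 94) (nat_lit 168) (nat_lit 0) (XT.lf (nat_lit 0) (nat_lit 7044279298) (nat_lit 252) (nat_lit 558514476825) (nat_lit 84) (nat_lit 152587701457) (nat_lit 57) (nat_lit 5) (nat_lit 60) (nat_lit 5) (nat_lit 58) (nat_lit 5) (nat_lit 438) (nat_lit 413) (nat_lit 229)) (XT.lf (nat_lit 0) (nat_lit 156110409951) (nat_lit 168) (nat_lit 146867428035) (nat_lit 252) (nat_lit 450528133353) (nat_lit 55) (nat_lit 5) (nat_lit 57) (nat_lit 5) (nat_lit 58) (nat_lit 5) (nat_lit 439) (nat_lit 413) (nat_lit 228)))) (XT.nd (nat_lit 188) (nat_lit 336) (nat_lit 0) (XT.nd (nat_lit 94) (nat_lit 252) (nat_lit 0) (XT.lf (nat_lit 0) (nat_lit 156731798332) (nat_lit 168) (nat_lit 482956600294) (nat_lit 252) (nat_lit 151150731711) (nat_lit 53) (nat_lit 5) (nat_lit 55) (nat_lit 5) (nat_lit 56) (nat_lit 5) (nat_lit 440) (nat_lit 413) (nat_lit 227)) (XT.lf (nat_lit 0) (nat_lit 161724422930) (nat_lit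 168) (nat_lit 20519923016) (nat_lit 252) (nat_lit 648001277005) (nat_lit 50) (nat_lit 5) (nat_lit 52) (nat_lit 5) (nat_lit 53) (nat_lit 5) (nat_lit 441) (nat_lit 413) (nat_lit 226))) (XT.nd (nat_lit 94) (nat_lit 168) (nat_lit 0) (XT.lf (nat_lit 0) (nat_lit 166744003205) (nat_lit 168) (nat_lit 391649507385) (nat_lit 252) (nat_lit 313218327034) (nat_lit 48) (nat_lit 5) (nat_lit 50) (nat_lit 5) (nat_lit 51) (nat_lit 5) (nat_lit 442) (nat_lit 413) (nat_lit 225)) (XT.lf (nat_lit 0) (nat_lit 63684741335) (nat_lit 168) (nat_lit 735851825536) (nat_lit 84) (nat_lit 115868795960) (nat_lit 46) (nat_lit 5) (nat_lit 48) (nat_lit 5) (nat_lit 47) (nat_lit 5) (nat_lit 443) (nat_lit 413) (nat_lit 224))))) (XT.nd (nat_lit 282) (nat_lit 672) (nat_lit 0) (XT.nd (nat_lit 94) (nat_lit 336) (nat_lit 0) (XT.lf (nat_lit 0) (nat_lit 191864928733) (nat_lit 168) (nat_lit 290127250427)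 (nat_lit 252) (nat_lit 479342166139) (nat_lit 44) (nat_lit 5) (nat_lit 46) (nat_lit 5) (nat_lit 47) (nat_lit 5) (nat_lit 444) (nat_lit 413) (nat_lit 223)) (XT.nd (nat_lit 94) (nat_lit 252) (nat_lit 0) (XT.lf (nat_lit 0) (nat_lit 212304299845) (nat_lit 84) (nat_lit 741862606479) (nat_lit 168) (nat_lit 55750605325) (nat_lit 43) (nat_lit 5) (nat_lit 44) (nat_lit 5) (nat_lit 45) (nat_lit 4) (nat_lit 445) (nat_lit 413) (nat_lit 222)) (XT.lf (nat_lit 0) (nat_lit 234501811608) (nat_lit 168) (nat_lit 176545315804) (nat_lit 252) (nat_lit 649917765636) (nat_lit 40) (nat_lit 5) (nat_lit 42) (nat_lit 5) (nat_lit 43) (nat_lit 5) (nat_lit 446) (nat_lit 413) (nat_lit 221)))) (XT.nd (nat_lit 188) (nat_lit 336) (nat_lit 0) (XT.nd (nat_lit 94) (nat_lit 252) (nat_lit 0) (XT.lf (nat_lit 0) (nat_lit 262732448608) (nat_lit 84) (nat_lit 675528657977) (nat_lit 168) (nat_lit 176537978285)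 (nat_lit 39) (nat_lit 5) (nat_lit 40) (nat_lit 5) (nat_lit 41) (nat_lit 4) (nat_lit 447) (nat_lit 413) (nat_lit 220)) (XT.lf (nat_lit 0) (nat_lit 297437266971) (nat_lit 168) (nat_lit 48815176047) (nat_lit 252) (nat_lit 825313622680) (nat_lit 36) (nat_lit 5) (nat_lit 38) (nat_lit 5) (nat_lit 39) (nat_lit 5) (nat_lit 448) (nat_lit 413) (nat_lit 219))) (XT.nd (nat_lit 94) (nat_lit 252) (nat_lit 0) (XT.lf (nat_lit 0) (nat_lit 334889243953) (nat_lit 84) (nat_lit 599994198533) (nat_lit 168) (nat_lit 296336140483) (nat_lit 35) (nat_lit 5) (nat_lit 36) (nat_lit 5) (nat_lit 37) (nat_lit 4) (nat_lit 449) (nat_lit 413) (nat_lit 218)) (XT.lf (nat_lit 0) (nat_lit 289941930576) (nat_lit 252) (nat_lit 911925564907) (nat_lit 84) (nat_lit 92374101051) (nat_lit 32) (nat_lit 5) (nat_lit 35) (nat_lit 5) (nat_lit 33) (nat_lit 4) (nat_lit 450) (nat_lit 413) (nat_lit 217)))))) (XT.nd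 (nat_lit 658) (nat_lit 924) (nat_lit 0) (XT.nd (nat_lit 282) (nat_lit 504) (nat_lit 0) (XT.nd (nat_lit 94) (nat_lit 336) (nat_lit 0) (XT.lf (nat_lit 0) (nat_lit 432200408533) (nat_lit 84) (nat_lit 513412743902) (nat_lit 168) (nat_lit 414805666276) (nat_lit 31) (nat_lit 5) (nat_lit 32) (nat_lit 5) (nat_lit 33) (nat_lit 4) (nat_lit 451) (nat_lit 413) (nat_lit 216)) (XT.nd (nat_lit 94) (nat_lit 84) (nat_lit 0) (XT.lf (nat_lit 0) (nat_lit 242702225345) (nat_lit 252) (nat_lit 937038136143) (nat_lit 84) (nat_lit 250578929400) (nat_lit 28) (nat_lit 5) (nat_lit 31) (nat_lit 5) (nat_lit 29) (nat_lit 4) (nat_lit 452) (nat_lit 413) (nat_lit 215)) (XT.lf (nat_lit 0) (nat_lit 558606012703) (nat_lit 84) (nat_lit 413678736769) (nat_lit 168) (nat_lit 531486708167) (nat_lit 27) (nat_lit 5) (nat_lit 28) (nat_lit 5) (nat_lit 29) (nat_lit 4) (nat_lit 453) (nat_lit 413) (nat_lit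 214)))) (XT.nd (nat_lit 188) (nat_lit 252) (nat_lit 0) (XT.nd (nat_lit 94) (nat_lit 84) (nat_lit 0) (XT.lf (nat_lit 0) (nat_lit 205028133958) (nat_lit 168) (nat_lit 945956846751) (nat_lit 84) (nat_lit 430298366411) (nat_lit 25) (nat_lit 5) (nat_lit 27) (nat_lit 5) (nat_lit 26) (nat_lit 4) (nat_lit 454) (nat_lit 413) (nat_lit 213)) (XT.lf (nat_lit 0) (nat_lit 718629843194) (nat_lit 84) (nat_lit 298391808256) (nat_lit 168) (nat_lit 645779981800) (nat_lit 24) (nat_lit 5) (nat_lit 25) (nat_lit 5) (nat_lit 26) (nat_lit 4) (nat_lit 455) (nat_lit 413) (nat_lit 212))) (XT.nd (nat_lit 94) (nat_lit 84) (nat_lit 0) (XT.lf (nat_lit 0) (nat_lit 178404989899) (nat_lit 168) (nat_lit 935474115129) (nat_lit 84) (nat_lit 634857897656) (nat_lit 22) (nat_lit 5) (nat_lit 24) (nat_lit 5) (nat_lit 23) (nat_lit 4) (nat_lit 456) (nat_lit 413) (nat_lit 211)) (XT.lf (nat_lit 0) (nat_lit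 917457796460) (nat_lit 84) (nat_lit 164816426935) (nat_lit 168) (nat_lit 756924927980) (nat_lit 21) (nat_lit 5) (nat_lit 22) (nat_lit 5) (nat_lit 23) (nat_lit 4) (nat_lit 457) (nat_lit 413) (nat_lit 210))))) (XT.nd (nat_lit 282) (nat_lit 504) (nat_lit 0) (XT.nd (nat_lit 94) (nat_lit 252) (nat_lit 0) (XT.lf (nat_lit 0) (nat_lit 164578356172) (nat_lit 168) (nat_lit 901856633955) (nat_lit 84) (nat_lit 868022684197) (nat_lit 19) (nat_lit 5) (nat_lit 21) (nat_lit 5) (nat_lit 20) (nat_lit 4) (nat_lit 458) (nat_lit 413) (nat_lit 209)) (XT.nd (nat_lit 94) (nat_lit 168) (nat_lit 0) (XT.lf (nat_lit 0) (nat_lit 1161026430681) (nat_lit 84) (nat_lit 9836354066) (nat_lit 168) (nat_lit 863974671891) (nat_lit 18) (nat_lit 5) (nat_lit 19) (nat_lit 5) (nat_lit 20) (nat_lit 4) (nat_lit 459) (nat_lit 413) (nat_lit 208)) (XT.lf (nat_lit 0) (nat_lit 165590192602) (nat_lit 168)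 (nat_lit 840770858462) (nat_lit 84) (nat_lit 1134054791608) (nat_lit 16) (nat_lit 5) (nat_lit 18) (nat_lit 5) (nat_lit 17) (nat_lit 4) (nat_lit 460) (nat_lit 413) (nat_lit 207)))) (XT.nd (nat_lit 188) (nat_lit 252) (nat_lit 0) (XT.nd (nat_lit 94) (nat_lit 168) (nat_lit 0) (XT.lf (nat_lit 0) (nat_lit 1288681889171) (nat_lit 168) (nat_lit 798326289644) (nat_lit 0) (nat_lit 164652589473) (nat_lit 15) (nat_lit 5) (nat_lit 17) (nat_lit 4) (nat_lit 15) (nat_lit 4) (nat_lit 461) (nat_lit 413) (nat_lit 206)) (XT.lf (nat_lit 0) (nat_lit 183819900695) (nat_lit 168) (nat_lit 747198513312) (nat_lit 84) (nat_lit 1437777575743) (nat_lit 13) (nat_lit 5) (nat_lit 15) (nat_lit 5) (nat_lit 14) (nat_lit 4) (nat_lit 462) (nat_lit 413) (nat_lit 205))) (XT.nd (nat_lit 94) (nat_lit 168) (nat_lit 0) (XT.lf (nat_lit 0) (nat_lit 1437394350044) (nat_lit 168) (nat_lit 687789622447) (nat_lit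 0) (nat_lit 366890236678) (nat_lit 12) (nat_lit 5) (nat_lit 14) (nat_lit 4) (nat_lit 12) (nat_lit 4) (nat_lit 463) (nat_lit 413) (nat_lit 204)) (XT.lf (nat_lit 0) (nat_lit 222030870099) (nat_lit 168) (nat_lit 615340837859) (nat_lit 84) (nat_lit 1784648104641) (nat_lit 10) (nat_lit 5) (nat_lit 12) (nat_lit 5) (nat_lit 11) (nat_lit 4) (nat_lit 464) (nat_lit 413) (nat_lit 203))))))) (XT.nd (nat_lit 1316) (nat_lit 0) (nat_lit 0) (XT.nd (nat_lit 658) (nat_lit 0) (nat_lit 0) (XT.nd (nat_lit 282) (nat_lit 504) (nat_lit 0) (XT.nd (nat_lit 94) (nat_lit 252) (nat_lit 0) (XT.lf (nat_lit 0) (nat_lit 1621165970898) (nat_lit 168) (nat_lit 535830454974) (nat_lit 0) (nat_lit 601638228846) (nat_lit 9) (nat_lit 5) (nat_lit 11) (nat_lit 4) (nat_lit 9) (nat_lit 4) (nat_lit 465) (nat_lit 413) (nat_lit 202)) (XT.nd (nat_lit 94) (nat_lit 84) (nat_lit 0) (XT.lf (nat_lit 0) (nat_lit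 283423228776) (nat_lit 168) (nat_lit 438510129752) (nat_lit 84) (nat_lit 2180838602123) (nat_lit 7) (nat_lit 5) (nat_lit 9) (nat_lit 5) (nat_lit 8) (nat_lit 4) (nat_lit 466) (nat_lit 413) (nat_lit 201)) (XT.lf (nat_lit 0) (nat_lit 1844931200028) (nat_lit 168) (nat_lit 335284510478) (nat_lit 0) (nat_lit 873952385797) (nat_lit 6) (nat_lit 5) (nat_lit 8) (nat_lit 4) (nat_lit 6) (nat_lit 4) (nat_lit 467) (nat_lit 413) (nat_lit 200)))) (XT.nd (nat_lit 188) (nat_lit 252) (nat_lit 0) (XT.nd (nat_lit 94) (nat_lit 84) (nat_lit 0) (XT.lf (nat_lit 0) (nat_lit 371693586470) (nat_lit 168) (nat_lit 209006967431) (nat_lit 84) (nat_lit 2633328017497) (nat_lit 4) (nat_lit 5) (nat_lit 6) (nat_lit 5) (nat_lit 5) (nat_lit 4) (nat_lit 468) (nat_lit 413) (nat_lit 199)) (XT.lf (nat_lit 0) (nat_lit 2114319669159) (nat_lit 168) (nat_lit 77909759674) (nat_lit 0) (nat_lit 1189577931295)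 (nat_lit 3) (nat_lit 5) (nat_lit 5) (nat_lit 4) (nat_lit 3) (nat_lit 4) (nat_lit 469) (nat_lit 413) (nat_lit 198))) (XT.nd (nat_lit 94) (nat_lit 0) (nat_lit 0) (XT.lf (nat_lit 0) (nat_lit 5162767684387) (nat_lit 0) (nat_lit 0) (nat_lit 0) (nat_lit 0) (nat_lit 0) (nat_lit 0) (nat_lit 1) (nat_lit 0) (nat_lit 1) (nat_lit 0) (nat_lit 470) (nat_lit 413) (nat_lit 197)) (XT.lf (nat_lit 0) (nat_lit 5570713948373) (nat_lit 0) (nat_lit 0) (nat_lit 0) (nat_lit 0) (nat_lit 0) (nat_lit 0) (nat_lit 1) (nat_lit 0) (nat_lit 1) (nat_lit 0) (nat_lit 471) (nat_lit 413) (nat_lit 196))))) (XT.nd (nat_lit 282) (nat_lit 0) (nat_lit 0) (XT.nd (nat_lit 94) (nat_lit 0) (nat_lit 0) (XT.lf (nat_lit 0) (nat_lit 6011295913521) (nat_lit 0) (nat_lit 0) (nat_lit 0) (nat_lit 0) (nat_lit 0) (nat_lit 0) (nat_lit 1) (nat_lit 0) (nat_lit 1) (nat_lit 0) (nat_lit 472) (nat_lit 413) (nat_lit 195))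 (XT.nd (nat_lit 94) (nat_lit 0) (nat_lit 0) (XT.lf (nat_lit 0) (nat_lit 6487124435922) (nat_lit 0) (nat_lit 0) (nat_lit 0) (nat_lit 0) (nat_lit 0) (nat_lit 0) (nat_lit 1) (nat_lit 0) (nat_lit 1) (nat_lit 0) (nat_lit 473) (nat_lit 413) (nat_lit 194)) (XT.lf (nat_lit 0) (nat_lit 7001019240152) (nat_lit 0) (nat_lit 0) (nat_lit 0) (nat_lit 0) (nat_lit 0) (nat_lit 0) (nat_lit 1) (nat_lit 0) (nat_lit 1) (nat_lit 0) (nat_lit 474) (nat_lit 413) (nat_lit 193)))) (XT.nd (nat_lit 188) (nat_lit 0) (nat_lit 0) (XT.nd (nat_lit 94) (nat_lit 0) (nat_lit 0) (XT.lf (nat_lit 0) (nat_lit 7556025628755) (nat_lit 0) (nat_lit 0) (nat_lit 0) (nat_lit 0) (nat_lit 0) (nat_lit 0) (nat_lit 1) (nat_lit 0) (nat_lit 1) (nat_lit 0) (nat_lit 475) (nat_lit 413) (nat_lit 192)) (XT.lf (nat_lit 0) (nat_lit 8155432528479) (nat_lit 0) (nat_lit 0) (nat_lit 0) (nat_lit 0) (nat_lit 0) (nat_lit 0)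 (nat_lit 1) (nat_lit 0) (nat_lit 1) (nat_lit 0) (nat_lit 476) (nat_lit 413) (nat_lit 191))) (XT.nd (nat_lit 94) (nat_lit 0) (nat_lit 0) (XT.lf (nat_lit 0) (nat_lit 8802791980210) (nat_lit 0) (nat_lit 0) (nat_lit 0) (nat_lit 0) (nat_lit 0) (nat_lit 0) (nat_lit 1) (nat_lit 0) (nat_lit 1) (nat_lit 0) (nat_lit 477) (nat_lit 413) (nat_lit 190)) (XT.lf (nat_lit 0) (nat_lit 9501940188107) (nat_lit 0) (nat_lit 0) (nat_lit 0) (nat_lit 0) (nat_lit 0) (nat_lit 0) (nat_lit 1) (nat_lit 0) (nat_lit 1) (nat_lit 0) (nat_lit 478) (nat_lit 413) (nat_lit 189)))))) (XT.nd (nat_lit 658) (nat_lit 0) (nat_lit 0) (XT.nd (nat_lit 282) (nat_lit 0) (nat_lit 0) (XT.nd (nat_lit 94) (nat_lit 0) (nat_lit 0) (XT.lf (nat_lit 0) (nat_lit 10257020252662) (nat_lit 0) (nat_lit 0) (nat_lit 0) (nat_lit 0) (nat_lit 0) (nat_lit 0) (nat_lit 1) (nat_lit 0) (nat_lit 1) (nat_lit 0) (nat_lit 479) (nat_lit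 413) (nat_lit 188)) (XT.nd (nat_lit 94) (nat_lit 0) (nat_lit 0) (XT.lf (nat_lit 0) (nat_lit 11072506722404) (nat_lit 0) (nat_lit 0) (nat_lit 0) (nat_lit 0) (nat_lit 0) (nat_lit 0) (nat_lit 1) (nat_lit 0) (nat_lit 1) (nat_lit 0) (nat_lit 480) (nat_lit 413) (nat_lit 187)) (XT.lf (nat_lit 0) (nat_lit 11953232109748) (nat_lit 0) (nat_lit 0) (nat_lit 0) (nat_lit 0) (nat_lit 0) (nat_lit 0) (nat_lit 1) (nat_lit 0) (nat_lit 1) (nat_lit 0) (nat_lit 481) (nat_lit 413) (nat_lit 186)))) (XT.nd (nat_lit 188) (nat_lit 0) (nat_lit 0) (XT.nd (nat_lit 94) (nat_lit 0) (nat_lit 0) (XT.lf (nat_lit 0) (nat_lit 12904415528099) (nat_lit 0) (nat_lit 0) (nat_lit 0) (nat_lit 0) (nat_lit 0) (nat_lit 0) (nat_lit 1) (nat_lit 0) (nat_lit 1) (nat_lit 0) (nat_lit 482) (nat_lit 413) (nat_lit 185)) (XT.lf (nat_lit 0) (nat_lit 13931693619937) (nat_lit 0) (nat_lit 0) (nat_lit 0) (nat_lit 0)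 (nat_lit 0) (nat_lit 0) (nat_lit 1) (nat_lit 0) (nat_lit 1) (nat_lit 0) (nat_lit 483) (nat_lit 413) (nat_lit 184))) (XT.nd (nat_lit 94) (nat_lit 0) (nat_lit 0) (XT.lf (nat_lit 0) (nat_lit 15041153959140) (nat_lit 0) (nat_lit 0) (nat_lit 0) (nat_lit 0) (nat_lit 0) (nat_lit 0) (nat_lit 1) (nat_lit 0) (nat_lit 1) (nat_lit 0) (nat_lit 484) (nat_lit 413) (nat_lit 183)) (XT.lf (nat_lit 0) (nat_lit 16239371125494) (nat_lit 0) (nat_lit 0) (nat_lit 0) (nat_lit 0) (nat_lit 0) (nat_lit 0) (nat_lit 1) (nat_lit 0) (nat_lit 1) (nat_lit 0) (nat_lit 485) (nat_lit 413) (nat_lit 182))))) (XT.nd (nat_lit 376) (nat_lit 0) (nat_lit 0) (XT.nd (nat_lit 188) (nat_lit 0) (nat_lit 0) (XT.nd (nat_lit 94) (nat_lit 0) (nat_lit 0) (XT.lf (nat_lit 0) (nat_lit 17533445665173) (nat_lit 0) (nat_lit 0) (nat_lit 0) (nat_lit 0) (nat_lit 0) (nat_lit 0) (nat_lit 1) (nat_lit 0) (nat_lit 1) (nat_lit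 0) (nat_lit 486) (nat_lit 413) (nat_lit 181)) (XT.lf (nat_lit 0) (nat_lit 18931046168039) (nat_lit 0) (nat_lit 0) (nat_lit 0) (nat_lit 0) (nat_lit 0) (nat_lit 0) (nat_lit 1) (nat_lit 0) (nat_lit 1) (nat_lit 0) (nat_lit 487) (nat_lit 413) (nat_lit 180))) (XT.nd (nat_lit 94) (nat_lit 0) (nat_lit 0) (XT.lf (nat_lit 0) (nat_lit 20440454711147) (nat_lit 0) (nat_lit 0) (nat_lit 0) (nat_lit 0) (nat_lit 0) (nat_lit 0) (nat_lit 1) (nat_lit 0) (nat_lit 1) (nat_lit 0) (nat_lit 488) (nat_lit 413) (nat_lit 179)) (XT.lf (nat_lit 0) (nat_lit 22070615937715) (nat_lit 0) (nat_lit 0) (nat_lit 0) (nat_lit 0) (nat_lit 0) (nat_lit 0) (nat_lit 1) (nat_lit 0) (nat_lit 1) (nat_lit 0) (nat_lit 489) (nat_lit 413) (nat_lit 178)))) (XT.nd (nat_lit 188) (nat_lit 0) (nat_lit 0) (XT.nd (nat_lit 94) (nat_lit 0) (nat_lit 0) (XT.lf (nat_lit 0) (nat_lit 23831190062420) (nat_lit 0) (nat_lit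 0) (nat_lit 0) (nat_lit 0) (nat_lit 0) (nat_lit 0) (nat_lit 1) (nat_lit 0) (nat_lit 1) (nat_lit 0) (nat_lit 490) (nat_lit 413) (nat_lit 177)) (XT.lf (nat_lit 0) (nat_lit 25732610117112) (nat_lit 0) (nat_lit 0) (nat_lit 0) (nat_lit 0) (nat_lit 0) (nat_lit 0) (nat_lit 1) (nat_lit 0) (nat_lit 1) (nat_lit 0) (nat_lit 491) (nat_lit 413) (nat_lit 176))) (XT.nd (nat_lit 94) (nat_lit 0) (nat_lit 0) (XT.lf (nat_lit 0) (nat_lit 27786143776188) (nat_lit 0) (nat_lit 0) (nat_lit 0) (nat_lit 0) (nat_lit 0) (nat_lit 0) (nat_lit 1) (nat_lit 0) (nat_lit 1) (nat_lit 0) (nat_lit 492) (nat_lit 413) (nat_lit 175)) (XT.lf (nat_lit 0) (nat_lit 30003960127999) (nat_lit 0) (nat_lit 0) (nat_lit 0) (nat_lit 0) (nat_lit 0) (nat_lit 0) (nat_lit 1) (nat_lit 0) (nat_lit 1) (nat_lit 0) (nat_lit 493) (nat_lit 413) (nat_lit 174))))))))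
noncomputable def xc198 : XT := (XT.nd (nat_lit 62040) (nat_lit 0) (nat_lit 1344) (XT.nd (nat_lit 60724) (nat_lit 0) (nat_lit 6552) (XT.nd (nat_lit 658) (nat_lit 0) (nat_lit 0) (XT.nd (nat_lit 282) (nat_lit 0) (nat_lit 0) (XT.nd (nat_lit 94) (nat_lit 0) (nat_lit 0) (XT.lf (nat_lit 0) (nat_lit 32399201787963) (nat_lit 0) (nat_lit 0) (nat_lit 0) (nat_lit 0) (nat_lit 0) (nat_lit 0) (nat_lit 1) (nat_lit 0) (nat_lit 1) (nat_lit 0) (nat_lit 494) (nat_lit 413) (nat_lit 173)) (XT.nd (nat_lit 94) (nat_lit 0) (nat_lit 0) (XT.lf (nat_lit 0) (nat_lit 34986062780732) (nat_lit 0) (nat_lit 0) (nat_lit 0) (nat_lit 0) (nat_lit 0) (nat_lit 0) (nat_lit 1) (nat_lit 0) (nat_lit 1) (nat_lit 0) (nat_lit 495) (nat_lit 413) (nat_lit 172)) (XT.lf (nat_lit 0) (nat_lit 37779872652928) (nat_lit 0) (nat_lit 0) (nat_lit 0) (nat_lit 0) (nat_lit 0) (nat_lit 0) (nat_lit 1) (nat_lit 0) (nat_lit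 1) (nat_lit 0) (nat_lit 496) (nat_lit 413) (nat_lit 171)))) (XT.nd (nat_lit 188) (nat_lit 0) (nat_lit 0) (XT.nd (nat_lit 94) (nat_lit 0) (nat_lit 0) (XT.lf (nat_lit 0) (nat_lit 40797187314907) (nat_lit 0) (nat_lit 0) (nat_lit 0) (nat_lit 0) (nat_lit 0) (nat_lit 0) (nat_lit 1) (nat_lit 0) (nat_lit 1) (nat_lit 0) (nat_lit 497) (nat_lit 413) (nat_lit 170)) (XT.lf (nat_lit 0) (nat_lit 44055887149851) (nat_lit 0) (nat_lit 0) (nat_lit 0) (nat_lit 0) (nat_lit 0) (nat_lit 0) (nat_lit 1) (nat_lit 0) (nat_lit 1) (nat_lit 0) (nat_lit 498) (nat_lit 413) (nat_lit 169))) (XT.nd (nat_lit 94) (nat_lit 0) (nat_lit 0) (XT.lf (nat_lit 0) (nat_lit 47575282971595) (nat_lit 0) (nat_lit 0) (nat_lit 0) (nat_lit 0) (nat_lit 0) (nat_lit 0) (nat_lit 1) (nat_lit 0) (nat_lit 1) (nat_lit 0) (nat_lit 499) (nat_lit 413) (nat_lit 168)) (XT.lf (nat_lit 0) (nat_lit 51376230459083) (nat_lit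 0) (nat_lit 0) (nat_lit 0) (nat_lit 0) (nat_lit 0) (nat_lit 0) (nat_lit 1) (nat_lit 0) (nat_lit 1) (nat_lit 0) (nat_lit 500) (nat_lit 413) (nat_lit 167))))) (XT.nd (nat_lit 59690) (nat_lit 0) (nat_lit 10836) (XT.nd (nat_lit 94) (nat_lit 0) (nat_lit 0) (XT.lf (nat_lit 0) (nat_lit 55481253745576) (nat_lit 0) (nat_lit 0) (nat_lit 0) (nat_lit 0) (nat_lit 0) (nat_lit 0) (nat_lit 1) (nat_lit 0) (nat_lit 1) (nat_lit 0) (nat_lit 501) (nat_lit 413) (nat_lit 166)) (XT.nd (nat_lit 59502) (nat_lit 0) (nat_lit 10752) (XT.lf (nat_lit 0) (nat_lit 59914678894992) (nat_lit 0) (nat_lit 0) (nat_lit 0) (nat_lit 0) (nat_lit 0) (nat_lit 0) (nat_lit 1) (nat_lit 0) (nat_lit 1) (nat_lit 0) (nat_lit 502) (nat_lit 413) (nat_lit 165)) (XT.lf (nat_lit 0) (nat_lit 60870287372) (nat_lit 924) (nat_lit 34290711980) (nat_lit 924) (nat_lit 34290711980) (nat_lit 128) (nat_lit 3) (nat_lit 139)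 (nat_lit 3) (nat_lit 139) (nat_lit 5) (nat_lit 414) (nat_lit 414) (nat_lit 252)))) (XT.nd (nat_lit 188) (nat_lit 0) (nat_lit 84) (XT.nd (nat_lit 94) (nat_lit 0) (nat_lit 0) (XT.lf (nat_lit 0) (nat_lit 129069131527) (nat_lit 840) (nat_lit 126248542804) (nat_lit 924) (nat_lit 13818938550) (nat_lit 129) (nat_lit 5) (nat_lit 139) (nat_lit 5) (nat_lit 140) (nat_lit 5) (nat_lit 415) (nat_lit 414) (nat_lit 251)) (XT.lf (nat_lit 84) (nat_lit 93354493274) (nat_lit 0) (nat_lit 49510258580) (nat_lit 924) (nat_lit 137029667512) (nat_lit 130) (nat_lit 5) (nat_lit 129) (nat_lit 5) (nat_lit 140) (nat_lit 5) (nat_lit 416) (nat_lit 414) (nat_lit 250))) (XT.nd (nat_lit 94) (nat_lit 0) (nat_lit 84) (XT.lf (nat_lit 84) (nat_lit 42249997078) (nat_lit 0) (nat_lit 121106040175) (nat_lit 924) (nat_lit 127877212343) (nat_lit 131) (nat_lit 5) (nat_lit 130) (nat_lit 5) (nat_lit 141)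 (nat_lit 5) (nat_lit 417) (nat_lit 414) (nat_lit 249)) (XT.lf (nat_lit 0) (nat_lit 191205738898) (nat_lit 840) (nat_lit 9782258290) (nat_lit 924) (nat_lit 102205233387) (nat_lit 131) (nat_lit 5) (nat_lit 141) (nat_lit 5) (nat_lit 142) (nat_lit 5) (nat_lit 418) (nat_lit 414) (nat_lit 248)))))) (XT.nd (nat_lit 658) (nat_lit 2016) (nat_lit 0) (XT.nd (nat_lit 282) (nat_lit 1764) (nat_lit 0) (XT.nd (nat_lit 94) (nat_lit 756) (nat_lit 0) (XT.lf (nat_lit 0) (nat_lit 227728574155) (nat_lit 840) (nat_lit 61572833652) (nat_lit 924) (nat_lit 26486344350) (nat_lit 132) (nat_lit 5) (nat_lit 142) (nat_lit 5) (nat_lit 143) (nat_lit 5) (nat_lit 419) (nat_lit 414) (nat_lit 247)) (XT.nd (nat_lit 94) (nat_lit 756) (nat_lit 0) (XT.lf (nat_lit 84) (nat_lit 213749276085) (nat_lit 0) (nat_lit 60323291027) (nat_lit 924) (nat_lit 54972301811) (nat_lit 133) (nat_lit 5) (nat_lit 132)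 (nat_lit 5) (nat_lit 143) (nat_lit 5) (nat_lit 420) (nat_lit 414) (nat_lit 246)) (XT.lf (nat_lit 0) (nat_lit 172573554135) (nat_lit 840) (nat_lit 158254091921) (nat_lit 924) (nat_lit 12199730645) (nat_lit 123) (nat_lit 5) (nat_lit 133) (nat_lit 5) (nat_lit 134) (nat_lit 5) (nat_lit 421) (nat_lit 414) (nat_lit 245)))) (XT.nd (nat_lit 188) (nat_lit 756) (nat_lit 0) (XT.nd (nat_lit 94) (nat_lit 420) (nat_lit 0) (XT.lf (nat_lit 0) (nat_lit 39499622329) (nat_lit 588) (nat_lit 227104262999) (nat_lit 84) (nat_lit 91168411335) (nat_lit 116) (nat_lit 5) (nat_lit 123) (nat_lit 5) (nat_lit 117) (nat_lit 5) (nat_lit 422) (nat_lit 414) (nat_lit 244)) (XT.lf (nat_lit 0) (nat_lit 88322064170) (nat_lit 420) (nat_lit 13656338427) (nat_lit 504) (nat_lit 271354862937) (nat_lit 111) (nat_lit 5) (nat_lit 116) (nat_lit 5) (nat_lit 117) (nat_lit 5) (nat_lit 423) (nat_lit 414) (nat_lit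 243))) (XT.nd (nat_lit 94) (nat_lit 336) (nat_lit 0) (XT.lf (nat_lit 0) (nat_lit 44457016999) (nat_lit 420) (nat_lit 133765283926) (nat_lit 504) (nat_lit 211478470207) (nat_lit 106) (nat_lit 5) (nat_lit 111) (nat_lit 5) (nat_lit 112) (nat_lit 5) (nat_lit 424) (nat_lit 414) (nat_lit 242)) (XT.lf (nat_lit 0) (nat_lit 876810161) (nat_lit 336) (nat_lit 267149285328) (nat_lit 420) (nat_lit 138978562470) (nat_lit 102) (nat_lit 5) (nat_lit 106) (nat_lit 5) (nat_lit 107) (nat_lit 5) (nat_lit 425) (nat_lit 414) (nat_lit 241))))) (XT.nd (nat_lit 282) (nat_lit 1260) (nat_lit 0) (XT.nd (nat_lit 94) (nat_lit 756) (nat_lit 0) (XT.lf (nat_lit 0) (nat_lit 373425767318) (nat_lit 420) (nat_lit 40774421002) (nat_lit 84) (nat_lit 11072088726) (nat_lit 102) (nat_lit 5) (nat_lit 107) (nat_lit 5) (nat_lit 103) (nat_lit 5) (nat_lit 426) (nat_lit 414) (nat_lit 240)) (XT.nd (nat_lit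 94) (nat_lit 336) (nat_lit 0) (XT.lf (nat_lit 0) (nat_lit 51208315877) (nat_lit 420) (nat_lit 84468235022) (nat_lit 84) (nat_lit 308776534551) (nat_lit 97) (nat_lit 5) (nat_lit 102) (nat_lit 5) (nat_lit 98) (nat_lit 5) (nat_lit 427) (nat_lit 414) (nat_lit 239)) (XT.lf (nat_lit 0) (nat_lit 169422509683) (nat_lit 420) (nat_lit 128419657002) (nat_lit 84) (nat_lit 166847123137) (nat_lit 93) (nat_lit 5) (nat_lit 98) (nat_lit 5) (nat_lit 94) (nat_lit 5) (nat_lit 428) (nat_lit 414) (nat_lit 238)))) (XT.nd (nat_lit 188) (nat_lit 672) (nat_lit 0) (XT.nd (nat_lit 94) (nat_lit 252) (nat_lit 0) (XT.lf (nat_lit 0) (nat_lit 305938202801) (nat_lit 420) (nat_lit 171271318705) (nat_lit 84) (nat_lit 8892650848) (nat_lit 89) (nat_lit 5) (nat_lit 94) (nat_lit 5) (nat_lit 90) (nat_lit 5) (nat_lit 429) (nat_lit 414) (nat_lit 237)) (XT.lf (nat_lit 0) (nat_lit 293340812174) (nat_lit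 252) (nat_lit 171909970304) (nat_lit 336) (nat_lit 43383521454) (nat_lit 86) (nat_lit 5) (nat_lit 89) (nat_lit 5) (nat_lit 90) (nat_lit 5) (nat_lit 430) (nat_lit 414) (nat_lit 236))) (XT.nd (nat_lit 94) (nat_lit 252) (nat_lit 0) (XT.lf (nat_lit 0) (nat_lit 110945250740) (nat_lit 420) (nat_lit 259571949773) (nat_lit 84) (nat_lit 161873084057) (nat_lit 81) (nat_lit 5) (nat_lit 86) (nat_lit 5) (nat_lit 82) (nat_lit 5) (nat_lit 431) (nat_lit 414) (nat_lit 235)) (XT.lf (nat_lit 0) (nat_lit 254253846411) (nat_lit 252) (nat_lit 32546877891) (nat_lit 336) (nat_lit 270675441752) (nat_lit 78) (nat_lit 5) (nat_lit 81) (nat_lit 5) (nat_lit 82) (nat_lit 5) (nat_lit 432) (nat_lit 414) (nat_lit 234))))))) (XT.nd (nat_lit 1316) (nat_lit 2268) (nat_lit 0) (XT.nd (nat_lit 658) (nat_lit 1176) (nat_lit 0) (XT.nd (nat_lit 282) (nat_lit 924) (nat_lit 0) (XT.nd (nat_lit 94) (nat_lit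 588) (nat_lit 0) (XT.lf (nat_lit 0) (nat_lit 236413967219) (nat_lit 252) (nat_lit 253788046823) (nat_lit 336) (nat_lit 93693035100) (nat_lit 75) (nat_lit 5) (nat_lit 78) (nat_lit 5) (nat_lit 79) (nat_lit 5) (nat_lit 433) (nat_lit 414) (nat_lit 233)) (XT.nd (nat_lit 94) (nat_lit 252) (nat_lit 0) (XT.lf (nat_lit 0) (nat_lit 105585839205) (nat_lit 336) (nat_lit 390879730664) (nat_lit 84) (nat_lit 115322960290) (nat_lit 71) (nat_lit 5) (nat_lit 75) (nat_lit 5) (nat_lit 72) (nat_lit 5) (nat_lit 434) (nat_lit 414) (nat_lit 232)) (XT.lf (nat_lit 0) (nat_lit 206208967558) (nat_lit 252) (nat_lit 125010295708) (nat_lit 336) (nat_lit 309932689452) (nat_lit 68) (nat_lit 5) (nat_lit 71) (nat_lit 5) (nat_lit 72) (nat_lit 5) (nat_lit 435) (nat_lit 414) (nat_lit 231)))) (XT.nd (nat_lit 188) (nat_lit 420) (nat_lit 0) (XT.nd (nat_lit 94) (nat_lit 336) (nat_lit 0) (XT.lf (nat_lit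 0) (nat_lit 194294223368) (nat_lit 168) (nat_lit 394874713448) (nat_lit 252) (nat_lit 82982233489) (nat_lit 66) (nat_lit 5) (nat_lit 68) (nat_lit 5) (nat_lit 69) (nat_lit 5) (nat_lit 436) (nat_lit 414) (nat_lit 230)) (XT.lf (nat_lit 0) (nat_lit 169881927844) (nat_lit 336) (nat_lit 519794969853) (nat_lit 84) (nat_lit 15179534016) (nat_lit 62) (nat_lit 5) (nat_lit 66) (nat_lit 5) (nat_lit 63) (nat_lit 5) (nat_lit 437) (nat_lit 414) (nat_lit 229))) (XT.nd (nat_lit 94) (nat_lit 252) (nat_lit 0) (XT.lf (nat_lit 0) (nat_lit 175746456509) (nat_lit 168) (nat_lit 282222916579) (nat_lit 252) (nat_lit 281245650510) (nat_lit 60) (nat_lit 5) (nat_lit 62) (nat_lit 5) (nat_lit 63) (nat_lit 5) (nat_lit 438) (nat_lit 414) (nat_lit 228)) (XT.lf (nat_lit 0) (nat_lit 7608702422) (nat_lit 252) (nat_lit 603194163499) (nat_lit 84) (nat_lit 164795264226) (nat_lit 57) (nat_lit 5)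 (nat_lit 60) (nat_lit 5) (nat_lit 58) (nat_lit 5) (nat_lit 439) (nat_lit 414) (nat_lit 227))))) (XT.nd (nat_lit 282) (nat_lit 588) (nat_lit 0) (XT.nd (nat_lit 94) (nat_lit 420) (nat_lit 0) (XT.lf (nat_lit 0) (nat_lit 168600650271) (nat_lit 168) (nat_lit 158616252266) (nat_lit 252) (nat_lit 486569504633) (nat_lit 55) (nat_lit 5) (nat_lit 57) (nat_lit 5) (nat_lit 58) (nat_lit 5) (nat_lit 440) (nat_lit 414) (nat_lit 226)) (XT.nd (nat_lit 94) (nat_lit 252) (nat_lit 0) (XT.lf (nat_lit 0) (nat_lit 169271720097) (nat_lit 168) (nat_lit 521592555648) (nat_lit 252) (nat_lit 163241944758) (nat_lit 53) (nat_lit 5) (nat_lit 55) (nat_lit 5) (nat_lit 56) (nat_lit 5) (nat_lit 441) (nat_lit 414) (nat_lit 225)) (XT.lf (nat_lit 0) (nat_lit 174663720665) (nat_lit 168) (nat_lit 22160951743) (nat_lit 252) (nat_lit 699840561440) (nat_lit 50) (nat_lit 5) (nat_lit 52) (nat_lit 5)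 (nat_lit 53) (nat_lit 5) (nat_lit 442) (nat_lit 414) (nat_lit 224)))) (XT.nd (nat_lit 188) (nat_lit 252) (nat_lit 0) (XT.nd (nat_lit 94) (nat_lit 168) (nat_lit 0) (XT.lf (nat_lit 0) (nat_lit 180084837766) (nat_lit 168) (nat_lit 422980903459) (nat_lit 252) (nat_lit 338275005920) (nat_lit 48) (nat_lit 5) (nat_lit 50) (nat_lit 5) (nat_lit 51) (nat_lit 5) (nat_lit 443) (nat_lit 414) (nat_lit 223)) (XT.lf (nat_lit 0) (nat_lit 68780254951) (nat_lit 168) (nat_lit 794718662683) (nat_lit 84) (nat_lit 125138837508) (nat_lit 46) (nat_lit 5) (nat_lit 48) (nat_lit 5) (nat_lit 47) (nat_lit 5) (nat_lit 444) (nat_lit 414) (nat_lit 222))) (XT.nd (nat_lit 94) (nat_lit 84) (nat_lit 0) (XT.lf (nat_lit 0) (nat_lit 207215375044) (nat_lit 168) (nat_lit 313336877912) (nat_lit 252) (nat_lit 517688804994) (nat_lit 44) (nat_lit 5) (nat_lit 46) (nat_lit 5) (nat_lit 47) (nat_lit 5) (nat_lit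 445) (nat_lit 414) (nat_lit 221)) (XT.lf (nat_lit 0) (nat_lit 229289866635) (nat_lit 84) (nat_lit 801211066925) (nat_lit 168) (nat_lit 60209945284) (nat_lit 43) (nat_lit 5) (nat_lit 44) (nat_lit 5) (nat_lit 45) (nat_lit 4) (nat_lit 446) (nat_lit 414) (nat_lit 220)))))) (XT.nd (nat_lit 658) (nat_lit 1008) (nat_lit 0) (XT.nd (nat_lit 282) (nat_lit 672) (nat_lit 0) (XT.nd (nat_lit 94) (nat_lit 336) (nat_lit 0) (XT.lf (nat_lit 0) (nat_lit 253263147888) (nat_lit 168) (nat_lit 190668403310) (nat_lit 252) (nat_lit 701910500616) (nat_lit 40) (nat_lit 5) (nat_lit 42) (nat_lit 5) (nat_lit 43) (nat_lit 5) (nat_lit 447) (nat_lit 414) (nat_lit 219)) (XT.nd (nat_lit 94) (nat_lit 252) (nat_lit 0) (XT.lf (nat_lit 0) (nat_lit 283752207302) (nat_lit 84) (nat_lit 729570418917) (nat_lit 168) (nat_lit 190660353886) (nat_lit 39) (nat_lit 5) (nat_lit 40) (nat_lit 5) (nat_lit 41)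 (nat_lit 4) (nat_lit 448) (nat_lit 414) (nat_lit 218)) (XT.lf (nat_lit 0) (nat_lit 321233380887) (nat_lit 168) (nat_lit 52719869193) (nat_lit 252) (nat_lit 891338070294) (nat_lit 36) (nat_lit 5) (nat_lit 38) (nat_lit 5) (nat_lit 39) (nat_lit 5) (nat_lit 449) (nat_lit 414) (nat_lit 217)))) (XT.nd (nat_lit 188) (nat_lit 336) (nat_lit 0) (XT.nd (nat_lit 94) (nat_lit 252) (nat_lit 0) (XT.lf (nat_lit 0) (nat_lit 361681488280) (nat_lit 84) (nat_lit 647993220700) (nat_lit 168) (nat_lit 320042411072) (nat_lit 35) (nat_lit 5) (nat_lit 36) (nat_lit 5) (nat_lit 37) (nat_lit 4) (nat_lit 450) (nat_lit 414) (nat_lit 216)) (XT.lf (nat_lit 0) (nat_lit 313137865950) (nat_lit 252) (nat_lit 984878513496) (nat_lit 84) (nat_lit 99764515764) (nat_lit 32) (nat_lit 5) (nat_lit 35) (nat_lit 5) (nat_lit 33) (nat_lit 4) (nat_lit 451) (nat_lit 414) (nat_lit 215))) (XT.nd (nat_lit 94)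 (nat_lit 252) (nat_lit 0) (XT.lf (nat_lit 0) (nat_lit 466777490162) (nat_lit 84) (nat_lit 554485268741) (nat_lit 168) (nat_lit 447989537591) (nat_lit 31) (nat_lit 5) (nat_lit 32) (nat_lit 5) (nat_lit 33) (nat_lit 4) (nat_lit 452) (nat_lit 414) (nat_lit 214)) (XT.lf (nat_lit 0) (nat_lit 262118948496) (nat_lit 252) (nat_lit 1012000146528) (nat_lit 84) (nat_lit 270625711880) (nat_lit 28) (nat_lit 5) (nat_lit 31) (nat_lit 5) (nat_lit 29) (nat_lit 4) (nat_lit 453) (nat_lit 414) (nat_lit 213))))) (XT.nd (nat_lit 376) (nat_lit 504) (nat_lit 0) (XT.nd (nat_lit 188) (nat_lit 252) (nat_lit 0) (XT.nd (nat_lit 94) (nat_lit 168) (nat_lit 0) (XT.lf (nat_lit 0) (nat_lit 603295489007) (nat_lit 84) (nat_lit 446772560706) (nat_lit 168) (nat_lit 574005098524) (nat_lit 27) (nat_lit 5) (nat_lit 28) (nat_lit 5) (nat_lit 29) (nat_lit 4) (nat_lit 454) (nat_lit 414) (nat_lit 212))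 (XT.lf (nat_lit 0) (nat_lit 221430896684) (nat_lit 168) (nat_lit 1021632407738) (nat_lit 84) (nat_lit 464722684866) (nat_lit 25) (nat_lit 5) (nat_lit 27) (nat_lit 5) (nat_lit 26) (nat_lit 4) (nat_lit 455) (nat_lit 414) (nat_lit 211))) (XT.nd (nat_lit 94) (nat_lit 168) (nat_lit 0) (XT.lf (nat_lit 0) (nat_lit 776121174519) (nat_lit 84) (nat_lit 322262697867) (nat_lit 168) (nat_lit 697441867083) (nat_lit 24) (nat_lit 5) (nat_lit 25) (nat_lit 5) (nat_lit 26) (nat_lit 4) (nat_lit 456) (nat_lit 414) (nat_lit 210)) (XT.lf (nat_lit 0) (nat_lit 192677870398) (nat_lit 168) (nat_lit 1010311108993) (nat_lit 84) (nat_lit 685646959443) (nat_lit 22) (nat_lit 5) (nat_lit 24) (nat_lit 5) (nat_lit 23) (nat_lit 4) (nat_lit 457) (nat_lit 414) (nat_lit 209)))) (XT.nd (nat_lit 188) (nat_lit 252) (nat_lit 0) (XT.nd (nat_lit 94) (nat_lit 168) (nat_lit 0) (XT.lf (nat_lit 0) (nat_lit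 990855314875) (nat_lit 84) (nat_lit 178001306015) (nat_lit 168) (nat_lit 817478439613) (nat_lit 21) (nat_lit 5) (nat_lit 22) (nat_lit 5) (nat_lit 23) (nat_lit 4) (nat_lit 458) (nat_lit 414) (nat_lit 208)) (XT.lf (nat_lit 0) (nat_lit 177745077438) (nat_lit 168) (nat_lit 974004278400) (nat_lit 84) (nat_lit 937464909792) (nat_lit 19) (nat_lit 5) (nat_lit 21) (nat_lit 5) (nat_lit 20) (nat_lit 4) (nat_lit 459) (nat_lit 414) (nat_lit 207))) (XT.nd (nat_lit 94) (nat_lit 168) (nat_lit 0) (XT.lf (nat_lit 0) (nat_lit 1253909392890) (nat_lit 84) (nat_lit 10622847107) (nat_lit 168) (nat_lit 933092191549) (nat_lit 18) (nat_lit 5) (nat_lit 19) (nat_lit 5) (nat_lit 20) (nat_lit 4) (nat_lit 460) (nat_lit 414) (nat_lit 206)) (XT.lf (nat_lit 0) (nat_lit 178837834210) (nat_lit 168) (nat_lit 908031687653) (nat_lit 84) (nat_lit 1224779566913) (nat_lit 16) (nat_lit 5) (nat_lit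 18) (nat_lit 5) (nat_lit 17) (nat_lit 4) (nat_lit 461) (nat_lit 414) (nat_lit 205))))))))
noncomputable def xc199 : XT := (XT.nd (nat_lit 2632) (nat_lit 0) (nat_lit 0) (XT.nd (nat_lit 1316) (nat_lit 0) (nat_lit 0) (XT.nd (nat_lit 658) (nat_lit 504) (nat_lit 0) (XT.nd (nat_lit 282) (nat_lit 504) (nat_lit 0) (XT.nd (nat_lit 94) (nat_lit 252) (nat_lit 0) (XT.lf (nat_lit 0) (nat_lit 1391776853651) (nat_lit 168) (nat_lit 862191575634) (nat_lit 0) (nat_lit 177825179798) (nat_lit 15) (nat_lit 5) (nat_lit 17) (nat_lit 4) (nat_lit 15) (nat_lit 4) (nat_lit 462) (nat_lit 414) (nat_lit 204)) (XT.nd (nat_lit 94) (nat_lit 84) (nat_lit 0) (XT.lf (nat_lit 0) (nat_lit 198525894157) (nat_lit 168) (nat_lit 806973599437) (nat_lit 84) (nat_lit 1552800155266) (nat_lit 13) (nat_lit 5) (nat_lit 15) (nat_lit 5) (nat_lit 14) (nat_lit 4) (nat_lit 463) (nat_lit 414) (nat_lit 203)) (XT.lf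 (nat_lit 0) (nat_lit 1552386287476) (nat_lit 168) (nat_lit 742812018557) (nat_lit 0) (nat_lit 396241820399) (nat_lit 12) (nat_lit 5) (nat_lit 14) (nat_lit 4) (nat_lit 12) (nat_lit 4) (nat_lit 464) (nat_lit 414) (nat_lit 202)))) (XT.nd (nat_lit 188) (nat_lit 252) (nat_lit 0) (XT.nd (nat_lit 94) (nat_lit 84) (nat_lit 0) (XT.lf (nat_lit 0) (nat_lit 239793717944) (nat_lit 168) (nat_lit 664567352319) (nat_lit 84) (nat_lit 1927420308433) (nat_lit 10) (nat_lit 5) (nat_lit 12) (nat_lit 5) (nat_lit 11) (nat_lit 4) (nat_lit 465) (nat_lit 414) (nat_lit 201)) (XT.lf (nat_lit 0) (nat_lit 1750859615624) (nat_lit 168) (nat_lit 578696159031) (nat_lit 0) (nat_lit 649769634088) (nat_lit 9) (nat_lit 5) (nat_lit 11) (nat_lit 4) (nat_lit 9) (nat_lit 4) (nat_lit 466) (nat_lit 414) (nat_lit 200))) (XT.nd (nat_lit 94) (nat_lit 84) (nat_lit 0) (XT.lf (nat_lit 0) (nat_lit 306097443631)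 (nat_lit 168) (nat_lit 473590227829) (nat_lit 84) (nat_lit 2355306028215) (nat_lit 7) (nat_lit 5) (nat_lit 9) (nat_lit 5) (nat_lit 8) (nat_lit 4) (nat_lit 467) (nat_lit 414) (nat_lit 199)) (XT.lf (nat_lit 0) (nat_lit 1992526042127) (nat_lit 168) (nat_lit 362106578247) (nat_lit 0) (nat_lit 943868906329) (nat_lit 6) (nat_lit 5) (nat_lit 8) (nat_lit 4) (nat_lit 6) (nat_lit 4) (nat_lit 468) (nat_lit 414) (nat_lit 198))))) (XT.nd (nat_lit 282) (nat_lit 0) (nat_lit 0) (XT.nd (nat_lit 94) (nat_lit 336) (nat_lit 0) (XT.lf (nat_lit 0) (nat_lit 401429409621) (nat_lit 168) (nat_lit 225726850759) (nat_lit 84) (nat_lit 2843994579918) (nat_lit 4) (nat_lit 5) (nat_lit 6) (nat_lit 5) (nat_lit 5) (nat_lit 4) (nat_lit 469) (nat_lit 414) (nat_lit 197)) (XT.nd (nat_lit 94) (nat_lit 252) (nat_lit 0) (XT.lf (nat_lit 0) (nat_lit 2283465569134) (nat_lit 168) (nat_lit 84141884655)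 (nat_lit 0) (nat_lit 1284744478828) (nat_lit 3) (nat_lit 5) (nat_lit 5) (nat_lit 4) (nat_lit 3) (nat_lit 4) (nat_lit 470) (nat_lit 414) (nat_lit 196)) (XT.lf (nat_lit 0) (nat_lit 5575789098286) (nat_lit 0) (nat_lit 0) (nat_lit 0) (nat_lit 0) (nat_lit 0) (nat_lit 0) (nat_lit 1) (nat_lit 0) (nat_lit 1) (nat_lit 0) (nat_lit 471) (nat_lit 414) (nat_lit 195)))) (XT.nd (nat_lit 188) (nat_lit 0) (nat_lit 0) (XT.nd (nat_lit 94) (nat_lit 0) (nat_lit 0) (XT.lf (nat_lit 0) (nat_lit 6016371063454) (nat_lit 0) (nat_lit 0) (nat_lit 0) (nat_lit 0) (nat_lit 0) (nat_lit 0) (nat_lit 1) (nat_lit 0) (nat_lit 1) (nat_lit 0) (nat_lit 472) (nat_lit 414) (nat_lit 194)) (XT.lf (nat_lit 0) (nat_lit 6492199585873) (nat_lit 0) (nat_lit 0) (nat_lit 0) (nat_lit 0) (nat_lit 0) (nat_lit 0) (nat_lit 1) (nat_lit 0) (nat_lit 1) (nat_lit 0) (nat_lit 473) (nat_lit 414) (nat_lit 193))) (XT.nd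 (nat_lit 94) (nat_lit 0) (nat_lit 0) (XT.lf (nat_lit 0) (nat_lit 7006094390119) (nat_lit 0) (nat_lit 0) (nat_lit 0) (nat_lit 0) (nat_lit 0) (nat_lit 0) (nat_lit 1) (nat_lit 0) (nat_lit 1) (nat_lit 0) (nat_lit 474) (nat_lit 414) (nat_lit 192)) (XT.lf (nat_lit 0) (nat_lit 7561100778738) (nat_lit 0) (nat_lit 0) (nat_lit 0) (nat_lit 0) (nat_lit 0) (nat_lit 0) (nat_lit 1) (nat_lit 0) (nat_lit 1) (nat_lit 0) (nat_lit 475) (nat_lit 414) (nat_lit 191)))))) (XT.nd (nat_lit 658) (nat_lit 0) (nat_lit 0) (XT.nd (nat_lit 282) (nat_lit 0) (nat_lit 0) (XT.nd (nat_lit 94) (nat_lit 0) (nat_lit 0) (XT.lf (nat_lit 0) (nat_lit 8160507678476) (nat_lit 0) (nat_lit 0) (nat_lit 0) (nat_lit 0) (nat_lit 0) (nat_lit 0) (nat_lit 1) (nat_lit 0) (nat_lit 1) (nat_lit 0) (nat_lit 476) (nat_lit 414) (nat_lit 190)) (XT.nd (nat_lit 94) (nat_lit 0) (nat_lit 0) (XT.lf (nat_lit 0) (nat_lit 8807867130220)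 (nat_lit 0) (nat_lit 0) (nat_lit 0) (nat_lit 0) (nat_lit 0) (nat_lit 0) (nat_lit 1) (nat_lit 0) (nat_lit 1) (nat_lit 0) (nat_lit 477) (nat_lit 414) (nat_lit 189)) (XT.lf (nat_lit 0) (nat_lit 9507015338130) (nat_lit 0) (nat_lit 0) (nat_lit 0) (nat_lit 0) (nat_lit 0) (nat_lit 0) (nat_lit 1) (nat_lit 0) (nat_lit 1) (nat_lit 0) (nat_lit 478) (nat_lit 414) (nat_lit 188)))) (XT.nd (nat_lit 188) (nat_lit 0) (nat_lit 0) (XT.nd (nat_lit 94) (nat_lit 0) (nat_lit 0) (XT.lf (nat_lit 0) (nat_lit 10262095402695) (nat_lit 0) (nat_lit 0) (nat_lit 0) (nat_lit 0) (nat_lit 0) (nat_lit 0) (nat_lit 1) (nat_lit 0) (nat_lit 1) (nat_lit 0) (nat_lit 479) (nat_lit 414) (nat_lit 187)) (XT.lf (nat_lit 0) (nat_lit 11077581872448) (nat_lit 0) (nat_lit 0) (nat_lit 0) (nat_lit 0) (nat_lit 0) (nat_lit 0) (nat_lit 1) (nat_lit 0) (nat_lit 1) (nat_lit 0) (nat_lit 480) (nat_lit 414) (nat_lit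 186))) (XT.nd (nat_lit 94) (nat_lit 0) (nat_lit 0) (XT.lf (nat_lit 0) (nat_lit 11958307259802) (nat_lit 0) (nat_lit 0) (nat_lit 0) (nat_lit 0) (nat_lit 0) (nat_lit 0) (nat_lit 1) (nat_lit 0) (nat_lit 1) (nat_lit 0) (nat_lit 481) (nat_lit 414) (nat_lit 185)) (XT.lf (nat_lit 0) (nat_lit 12909490678162) (nat_lit 0) (nat_lit 0) (nat_lit 0) (nat_lit 0) (nat_lit 0) (nat_lit 0) (nat_lit 1) (nat_lit 0) (nat_lit 1) (nat_lit 0) (nat_lit 482) (nat_lit 414) (nat_lit 184))))) (XT.nd (nat_lit 282) (nat_lit 0) (nat_lit 0) (XT.nd (nat_lit 94) (nat_lit 0) (nat_lit 0) (XT.lf (nat_lit 0) (nat_lit 13936768770008) (nat_lit 0) (nat_lit 0) (nat_lit 0) (nat_lit 0) (nat_lit 0) (nat_lit 0) (nat_lit 1) (nat_lit 0) (nat_lit 1) (nat_lit 0) (nat_lit 483) (nat_lit 414) (nat_lit 183)) (XT.nd (nat_lit 94) (nat_lit 0) (nat_lit 0) (XT.lf (nat_lit 0) (nat_lit 15046229109219) (nat_lit 0) (nat_lit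 0) (nat_lit 0) (nat_lit 0) (nat_lit 0) (nat_lit 0) (nat_lit 1) (nat_lit 0) (nat_lit 1) (nat_lit 0) (nat_lit 484) (nat_lit 414) (nat_lit 182)) (XT.lf (nat_lit 0) (nat_lit 16244446275581) (nat_lit 0) (nat_lit 0) (nat_lit 0) (nat_lit 0) (nat_lit 0) (nat_lit 0) (nat_lit 1) (nat_lit 0) (nat_lit 1) (nat_lit 0) (nat_lit 485) (nat_lit 414) (nat_lit 181)))) (XT.nd (nat_lit 188) (nat_lit 0) (nat_lit 0) (XT.nd (nat_lit 94) (nat_lit 0) (nat_lit 0) (XT.lf (nat_lit 0) (nat_lit 17538520815265) (nat_lit 0) (nat_lit 0) (nat_lit 0) (nat_lit 0) (nat_lit 0) (nat_lit 0) (nat_lit 1) (nat_lit 0) (nat_lit 1) (nat_lit 0) (nat_lit 486) (nat_lit 414) (nat_lit 180)) (XT.lf (nat_lit 0) (nat_lit 18936121318138) (nat_lit 0) (nat_lit 0) (nat_lit 0) (nat_lit 0) (nat_lit 0) (nat_lit 0) (nat_lit 1) (nat_lit 0) (nat_lit 1) (nat_lit 0) (nat_lit 487) (nat_lit 414) (nat_lit 179))) (XT.nd (nat_lit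 94) (nat_lit 0) (nat_lit 0) (XT.lf (nat_lit 0) (nat_lit 20445529861251) (nat_lit 0) (nat_lit 0) (nat_lit 0) (nat_lit 0) (nat_lit 0) (nat_lit 0) (nat_lit 1) (nat_lit 0) (nat_lit 1) (nat_lit 0) (nat_lit 488) (nat_lit 414) (nat_lit 178)) (XT.lf (nat_lit 0) (nat_lit 22075691087825) (nat_lit 0) (nat_lit 0) (nat_lit 0) (nat_lit 0) (nat_lit 0) (nat_lit 0) (nat_lit 1) (nat_lit 0) (nat_lit 1) (nat_lit 0) (nat_lit 489) (nat_lit 414) (nat_lit 177))))))) (XT.nd (nat_lit 60818) (nat_lit 0) (nat_lit 7476) (XT.nd (nat_lit 658) (nat_lit 0) (nat_lit 0) (XT.nd (nat_lit 282) (nat_lit 0) (nat_lit 0) (XT.nd (nat_lit 94) (nat_lit 0) (nat_lit 0) (XT.lf (nat_lit 0) (nat_lit 23836265212535) (nat_lit 0) (nat_lit 0) (nat_lit 0) (nat_lit 0) (nat_lit 0) (nat_lit 0) (nat_lit 1) (nat_lit 0) (nat_lit 1) (nat_lit 0) (nat_lit 490) (nat_lit 414) (nat_lit 176)) (XT.nd (nat_lit 94) (nat_lit 0)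 (nat_lit 0) (XT.lf (nat_lit 0) (nat_lit 25737685267231) (nat_lit 0) (nat_lit 0) (nat_lit 0) (nat_lit 0) (nat_lit 0) (nat_lit 0) (nat_lit 1) (nat_lit 0) (nat_lit 1) (nat_lit 0) (nat_lit 491) (nat_lit 414) (nat_lit 175)) (XT.lf (nat_lit 0) (nat_lit 27791218926312) (nat_lit 0) (nat_lit 0) (nat_lit 0) (nat_lit 0) (nat_lit 0) (nat_lit 0) (nat_lit 1) (nat_lit 0) (nat_lit 1) (nat_lit 0) (nat_lit 492) (nat_lit 414) (nat_lit 174)))) (XT.nd (nat_lit 188) (nat_lit 0) (nat_lit 0) (XT.nd (nat_lit 94) (nat_lit 0) (nat_lit 0) (XT.lf (nat_lit 0) (nat_lit 30009035278127) (nat_lit 0) (nat_lit 0) (nat_lit 0) (nat_lit 0) (nat_lit 0) (nat_lit 0) (nat_lit 1) (nat_lit 0) (nat_lit 1) (nat_lit 0) (nat_lit 493) (nat_lit 414) (nat_lit 173)) (XT.lf (nat_lit 0) (nat_lit 32404276938094) (nat_lit 0) (nat_lit 0) (nat_lit 0) (nat_lit 0) (nat_lit 0) (nat_lit 0) (nat_lit 1) (nat_lit 0) (nat_lit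 1) (nat_lit 0) (nat_lit 494) (nat_lit 414) (nat_lit 172))) (XT.nd (nat_lit 94) (nat_lit 0) (nat_lit 0) (XT.lf (nat_lit 0) (nat_lit 34991137930866) (nat_lit 0) (nat_lit 0) (nat_lit 0) (nat_lit 0) (nat_lit 0) (nat_lit 0) (nat_lit 1) (nat_lit 0) (nat_lit 1) (nat_lit 0) (nat_lit 495) (nat_lit 414) (nat_lit 171)) (XT.lf (nat_lit 0) (nat_lit 37784947803066) (nat_lit 0) (nat_lit 0) (nat_lit 0) (nat_lit 0) (nat_lit 0) (nat_lit 0) (nat_lit 1) (nat_lit 0) (nat_lit 1) (nat_lit 0) (nat_lit 496) (nat_lit 414) (nat_lit 170))))) (XT.nd (nat_lit 282) (nat_lit 0) (nat_lit 0) (XT.nd (nat_lit 94) (nat_lit 0) (nat_lit 0) (XT.lf (nat_lit 0) (nat_lit 40802262465047) (nat_lit 0) (nat_lit 0) (nat_lit 0) (nat_lit 0) (nat_lit 0) (nat_lit 0) (nat_lit 1) (nat_lit 0) (nat_lit 1) (nat_lit 0) (nat_lit 497) (nat_lit 414) (nat_lit 169)) (XT.nd (nat_lit 94) (nat_lit 0) (nat_lit 0) (XT.lf (nat_lit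 0) (nat_lit 44060962299993) (nat_lit 0) (nat_lit 0) (nat_lit 0) (nat_lit 0) (nat_lit 0) (nat_lit 0) (nat_lit 1) (nat_lit 0) (nat_lit 1) (nat_lit 0) (nat_lit 498) (nat_lit 414) (nat_lit 168)) (XT.lf (nat_lit 0) (nat_lit 47580358121740) (nat_lit 0) (nat_lit 0) (nat_lit 0) (nat_lit 0) (nat_lit 0) (nat_lit 0) (nat_lit 1) (nat_lit 0) (nat_lit 1) (nat_lit 0) (nat_lit 499) (nat_lit 414) (nat_lit 167)))) (XT.nd (nat_lit 188) (nat_lit 0) (nat_lit 0) (XT.nd (nat_lit 94) (nat_lit 0) (nat_lit 0) (XT.lf (nat_lit 0) (nat_lit 51381305609231) (nat_lit 0) (nat_lit 0) (nat_lit 0) (nat_lit 0) (nat_lit 0) (nat_lit 0) (nat_lit 1) (nat_lit 0) (nat_lit 1) (nat_lit 0) (nat_lit 500) (nat_lit 414) (nat_lit 166)) (XT.lf (nat_lit 0) (nat_lit 55486328895725) (nat_lit 0) (nat_lit 0) (nat_lit 0) (nat_lit 0) (nat_lit 0) (nat_lit 0) (nat_lit 1) (nat_lit 0) (nat_lit 1) (nat_lit 0) (nat_lit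 501) (nat_lit 414) (nat_lit 165))) (XT.nd (nat_lit 59596) (nat_lit 0) (nat_lit 10752) (XT.lf (nat_lit 0) (nat_lit 59919754045143) (nat_lit 0) (nat_lit 0) (nat_lit 0) (nat_lit 0) (nat_lit 0) (nat_lit 0) (nat_lit 1) (nat_lit 0) (nat_lit 1) (nat_lit 0) (nat_lit 502) (nat_lit 414) (nat_lit 164)) (XT.lf (nat_lit 0) (nat_lit 65741384631) (nat_lit 924) (nat_lit 37033194947) (nat_lit 924) (nat_lit 37033194947) (nat_lit 128) (nat_lit 3) (nat_lit 139) (nat_lit 3) (nat_lit 139) (nat_lit 5) (nat_lit 415) (nat_lit 415) (nat_lit 250)))))) (XT.nd (nat_lit 658) (nat_lit 2856) (nat_lit 0) (XT.nd (nat_lit 282) (nat_lit 504) (nat_lit 0) (XT.nd (nat_lit 94) (nat_lit 0) (nat_lit 0) (XT.lf (nat_lit 0) (nat_lit 139397395427) (nat_lit 840) (nat_lit 136346787989) (nat_lit 924) (nat_lit 14923221827) (nat_lit 129) (nat_lit 5) (nat_lit 139) (nat_lit 5) (nat_lit 140) (nat_lit 5) (nat_lit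 416) (nat_lit 415) (nat_lit 249)) (XT.nd (nat_lit 94) (nat_lit 0) (nat_lit 84) (XT.lf (nat_lit 84) (nat_lit 100824419779) (nat_lit 0) (nat_lit 53472067594) (nat_lit 924) (nat_lit 147989357773) (nat_lit 130) (nat_lit 5) (nat_lit 129) (nat_lit 5) (nat_lit 140) (nat_lit 5) (nat_lit 417) (nat_lit 415) (nat_lit 248)) (XT.lf (nat_lit 84) (nat_lit 45631632761) (nat_lit 0) (nat_lit 130795264810) (nat_lit 924) (nat_lit 138104893125) (nat_lit 131) (nat_lit 5) (nat_lit 130) (nat_lit 5) (nat_lit 141) (nat_lit 5) (nat_lit 418) (nat_lit 415) (nat_lit 247)))) (XT.nd (nat_lit 188) (nat_lit 672) (nat_lit 0) (XT.nd (nat_lit 94) (nat_lit 0) (nat_lit 84) (XT.lf (nat_lit 0) (nat_lit 206504388531) (nat_lit 840) (nat_lit 10563203435) (nat_lit 924) (nat_lit 110380987529) (nat_lit 131) (nat_lit 5) (nat_lit 141) (nat_lit 5) (nat_lit 142) (nat_lit 5) (nat_lit 419) (nat_lit 415) (nat_lit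 246)) (XT.lf (nat_lit 0) (nat_lit 245948905150) (nat_lit 840) (nat_lit 66496985647) (nat_lit 924) (nat_lit 28604779281) (nat_lit 132) (nat_lit 5) (nat_lit 142) (nat_lit 5) (nat_lit 143) (nat_lit 5) (nat_lit 420) (nat_lit 415) (nat_lit 245))) (XT.nd (nat_lit 94) (nat_lit 756) (nat_lit 0) (XT.lf (nat_lit 84) (nat_lit 230850820089) (nat_lit 0) (nat_lit 65149470979) (nat_lit 924) (nat_lit 59368071439) (nat_lit 133) (nat_lit 5) (nat_lit 132) (nat_lit 5) (nat_lit 143) (nat_lit 5) (nat_lit 421) (nat_lit 415) (nat_lit 244)) (XT.lf (nat_lit 0) (nat_lit 186381067256) (nat_lit 840) (nat_lit 170914587807) (nat_lit 924) (nat_lit 13173821910) (nat_lit 123) (nat_lit 5) (nat_lit 133) (nat_lit 5) (nat_lit 134) (nat_lit 5) (nat_lit 422) (nat_lit 415) (nat_lit 243))))) (XT.nd (nat_lit 376) (nat_lit 1092) (nat_lit 0) (XT.nd (nat_lit 188) (nat_lit 756) (nat_lit 0) (XT.nd (nat_lit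 94) (nat_lit 420) (nat_lit 0) (XT.lf (nat_lit 0) (nat_lit 42661307235) (nat_lit 588) (nat_lit 245270900848) (nat_lit 84) (nat_lit 98461786558) (nat_lit 116) (nat_lit 5) (nat_lit 123) (nat_lit 5) (nat_lit 117) (nat_lit 5) (nat_lit 423) (nat_lit 415) (nat_lit 242)) (XT.lf (nat_lit 0) (nat_lit 95389458476) (nat_lit 420) (nat_lit 14748829838) (nat_lit 504) (nat_lit 293061557787) (nat_lit 111) (nat_lit 5) (nat_lit 116) (nat_lit 5) (nat_lit 117) (nat_lit 5) (nat_lit 424) (nat_lit 415) (nat_lit 241))) (XT.nd (nat_lit 94) (nat_lit 336) (nat_lit 0) (XT.lf (nat_lit 0) (nat_lit 48015213665) (nat_lit 420) (nat_lit 144466391082) (nat_lit 504) (nat_lit 228395152087) (nat_lit 106) (nat_lit 5) (nat_lit 111) (nat_lit 5) (nat_lit 112) (nat_lit 5) (nat_lit 425) (nat_lit 415) (nat_lit 240)) (XT.lf (nat_lit 0) (nat_lit 948590171) (nat_lit 336) (nat_lit 288521027332) (nat_lit 420)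 (nat_lit 150095341373) (nat_lit 102) (nat_lit 5) (nat_lit 106) (nat_lit 5) (nat_lit 107) (nat_lit 5) (nat_lit 426) (nat_lit 415) (nat_lit 239)))) (XT.nd (nat_lit 188) (nat_lit 672) (nat_lit 0) (XT.nd (nat_lit 94) (nat_lit 420) (nat_lit 0) (XT.lf (nat_lit 0) (nat_lit 403301159732) (nat_lit 420) (nat_lit 44034797108) (nat_lit 84) (nat_lit 11958035819) (nat_lit 102) (nat_lit 5) (nat_lit 107) (nat_lit 5) (nat_lit 103) (nat_lit 5) (nat_lit 427) (nat_lit 415) (nat_lit 238)) (XT.lf (nat_lit 0) (nat_lit 55306257731) (nat_lit 420) (nat_lit 91224142599) (nat_lit 84) (nat_lit 333478868127) (nat_lit 97) (nat_lit 5) (nat_lit 102) (nat_lit 5) (nat_lit 98) (nat_lit 5) (nat_lit 428) (nat_lit 415) (nat_lit 237))) (XT.nd (nat_lit 94) (nat_lit 336) (nat_lit 0) (XT.lf (nat_lit 0) (nat_lit 182977519996) (nat_lit 420) (nat_lit 138691689842) (nat_lit 84) (nat_lit 180195162693) (nat_lit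 93) (nat_lit 5) (nat_lit 98) (nat_lit 5) (nat_lit 94) (nat_lit 5) (nat_lit 429) (nat_lit 415) (nat_lit 236)) (XT.lf (nat_lit 0) (nat_lit 330414407113) (nat_lit 420) (nat_lit 184971499399) (nat_lit 84) (nat_lit 9604382226) (nat_lit 89) (nat_lit 5) (nat_lit 94) (nat_lit 5) (nat_lit 90) (nat_lit 5) (nat_lit 430) (nat_lit 415) (nat_lit 235))))))))
noncomputable def xc200 : XT := (XT.nd (nat_lit 2632) (nat_lit 1848) (nat_lit 0) (XT.nd (nat_lit 1316) (nat_lit 2184) (nat_lit 0) (XT.nd (nat_lit 658) (nat_lit 1512) (nat_lit 0) (XT.nd (nat_lit 282) (nat_lit 1008) (nat_lit 0) (XT.nd (nat_lit 94) (nat_lit 672) (nat_lit 0) (XT.lf (nat_lit 0) (nat_lit 316809535684) (nat_lit 252) (nat_lit 185662395208) (nat_lit 336) (nat_lit 46853063064) (nat_lit 86) (nat_lit 5) (nat_lit 89) (nat_lit 5) (nat_lit 90) (nat_lit 5) (nat_lit 431) (nat_lit 415) (nat_lit 234)) (XT.nd (nat_lit 94)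 (nat_lit 252) (nat_lit 0) (XT.lf (nat_lit 0) (nat_lit 119821921018) (nat_lit 420) (nat_lit 280336229515) (nat_lit 84) (nat_lit 174823304292) (nat_lit 81) (nat_lit 5) (nat_lit 86) (nat_lit 5) (nat_lit 82) (nat_lit 5) (nat_lit 432) (nat_lit 415) (nat_lit 233)) (XT.lf (nat_lit 0) (nat_lit 274595566209) (nat_lit 252) (nat_lit 35150210508) (nat_lit 336) (nat_lit 292328432898) (nat_lit 78) (nat_lit 5) (nat_lit 81) (nat_lit 5) (nat_lit 82) (nat_lit 5) (nat_lit 433) (nat_lit 415) (nat_lit 232)))) (XT.nd (nat_lit 188) (nat_lit 420) (nat_lit 0) (XT.nd (nat_lit 94) (nat_lit 336) (nat_lit 0) (XT.lf (nat_lit 0) (nat_lit 255328476639) (nat_lit 252) (nat_lit 274090647103) (nat_lit 336) (nat_lit 101187481902) (nat_lit 75) (nat_lit 5) (nat_lit 78) (nat_lit 5) (nat_lit 79) (nat_lit 5) (nat_lit 434) (nat_lit 415) (nat_lit 231)) (XT.lf (nat_lit 0) (nat_lit 114033627313) (nat_lit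 336) (nat_lit 422148708374) (nat_lit 84) (nat_lit 124549230835) (nat_lit 71) (nat_lit 5) (nat_lit 75) (nat_lit 5) (nat_lit 72) (nat_lit 5) (nat_lit 435) (nat_lit 415) (nat_lit 230))) (XT.nd (nat_lit 94) (nat_lit 168) (nat_lit 0) (XT.lf (nat_lit 0) (nat_lit 222707024831) (nat_lit 252) (nat_lit 135010653167) (nat_lit 336) (nat_lit 334726387254) (nat_lit 68) (nat_lit 5) (nat_lit 71) (nat_lit 5) (nat_lit 72) (nat_lit 5) (nat_lit 436) (nat_lit 415) (nat_lit 229)) (XT.lf (nat_lit 0) (nat_lit 209839077700) (nat_lit 168) (nat_lit 426464210309) (nat_lit 252) (nat_lit 89619934108) (nat_lit 66) (nat_lit 5) (nat_lit 68) (nat_lit 5) (nat_lit 69) (nat_lit 5) (nat_lit 437) (nat_lit 415) (nat_lit 228))))) (XT.nd (nat_lit 282) (nat_lit 756) (nat_lit 0) (XT.nd (nat_lit 94) (nat_lit 420) (nat_lit 0) (XT.lf (nat_lit 0) (nat_lit 183473296628) (nat_lit 336) (nat_lit 561377248435)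 (nat_lit 84) (nat_lit 16394360460) (nat_lit 62) (nat_lit 5) (nat_lit 66) (nat_lit 5) (nat_lit 63) (nat_lit 5) (nat_lit 438) (nat_lit 415) (nat_lit 227)) (XT.nd (nat_lit 94) (nat_lit 252) (nat_lit 0) (XT.lf (nat_lit 0) (nat_lit 189807434714) (nat_lit 168) (nat_lit 304800262138) (nat_lit 252) (nat_lit 303744489938) (nat_lit 60) (nat_lit 5) (nat_lit 62) (nat_lit 5) (nat_lit 63) (nat_lit 5) (nat_lit 439) (nat_lit 415) (nat_lit 226)) (XT.lf (nat_lit 0) (nat_lit 8218153743) (nat_lit 252) (nat_lit 651448435028) (nat_lit 84) (nat_lit 177979354031) (nat_lit 57) (nat_lit 5) (nat_lit 60) (nat_lit 5) (nat_lit 58) (nat_lit 5) (nat_lit 440) (nat_lit 415) (nat_lit 225)))) (XT.nd (nat_lit 188) (nat_lit 420) (nat_lit 0) (XT.nd (nat_lit 94) (nat_lit 168) (nat_lit 0) (XT.lf (nat_lit 0) (nat_lit 182089909018) (nat_lit 168) (nat_lit 171305063755) (nat_lit 252) (nat_lit 525494311070)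 (nat_lit 55) (nat_lit 5) (nat_lit 57) (nat_lit 5) (nat_lit 58) (nat_lit 5) (nat_lit 441) (nat_lit 415) (nat_lit 224)) (XT.lf (nat_lit 0) (nat_lit 182814639030) (nat_lit 168) (nat_lit 563319469128) (nat_lit 252) (nat_lit 176300575468) (nat_lit 53) (nat_lit 5) (nat_lit 55) (nat_lit 5) (nat_lit 56) (nat_lit 5) (nat_lit 442) (nat_lit 415) (nat_lit 223))) (XT.nd (nat_lit 94) (nat_lit 168) (nat_lit 0) (XT.lf (nat_lit 0) (nat_lit 188637970497) (nat_lit 168) (nat_lit 23933343387) (nat_lit 252) (nat_lit 755827105287) (nat_lit 50) (nat_lit 5) (nat_lit 52) (nat_lit 5) (nat_lit 53) (nat_lit 5) (nat_lit 443) (nat_lit 415) (nat_lit 222)) (XT.lf (nat_lit 0) (nat_lit 194492751591) (nat_lit 168) (nat_lit 456818891754) (nat_lit 252) (nat_lit 365336331430) (nat_lit 48) (nat_lit 5) (nat_lit 50) (nat_lit 5) (nat_lit 51) (nat_lit 5) (nat_lit 444) (nat_lit 415) (nat_lit 221))))))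 (XT.nd (nat_lit 658) (nat_lit 1092) (nat_lit 0) (XT.nd (nat_lit 282) (nat_lit 672) (nat_lit 0) (XT.nd (nat_lit 94) (nat_lit 252) (nat_lit 0) (XT.lf (nat_lit 0) (nat_lit 74283304898) (nat_lit 168) (nat_lit 858295033531) (nat_lit 84) (nat_lit 135150405646) (nat_lit 46) (nat_lit 5) (nat_lit 48) (nat_lit 5) (nat_lit 47) (nat_lit 5) (nat_lit 445) (nat_lit 415) (nat_lit 220)) (XT.nd (nat_lit 94) (nat_lit 84) (nat_lit 0) (XT.lf (nat_lit 0) (nat_lit 223793678447) (nat_lit 168) (nat_lit 338403354423) (nat_lit 252) (nat_lit 559103279733) (nat_lit 44) (nat_lit 5) (nat_lit 46) (nat_lit 5) (nat_lit 47) (nat_lit 5) (nat_lit 446) (nat_lit 415) (nat_lit 219)) (XT.lf (nat_lit 0) (nat_lit 247634104322) (nat_lit 84) (nat_lit 865307482395) (nat_lit 168) (nat_lit 65026133511) (nat_lit 43) (nat_lit 5) (nat_lit 44) (nat_lit 5) (nat_lit 45) (nat_lit 4) (nat_lit 447) (nat_lit 415)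 (nat_lit 218)))) (XT.nd (nat_lit 188) (nat_lit 336) (nat_lit 0) (XT.nd (nat_lit 94) (nat_lit 84) (nat_lit 0) (XT.lf (nat_lit 0) (nat_lit 273525221110) (nat_lit 168) (nat_lit 205921414533) (nat_lit 252) (nat_lit 758062752297) (nat_lit 40) (nat_lit 5) (nat_lit 42) (nat_lit 5) (nat_lit 43) (nat_lit 5) (nat_lit 448) (nat_lit 415) (nat_lit 217)) (XT.lf (nat_lit 0) (nat_lit 306453380804) (nat_lit 84) (nat_lit 787935596585) (nat_lit 168) (nat_lit 205912614071) (nat_lit 39) (nat_lit 5) (nat_lit 40) (nat_lit 5) (nat_lit 41) (nat_lit 4) (nat_lit 449) (nat_lit 415) (nat_lit 216))) (XT.nd (nat_lit 94) (nat_lit 84) (nat_lit 0) (XT.lf (nat_lit 0) (nat_lit 346933022344) (nat_lit 168) (nat_lit 56937012107) (nat_lit 252) (nat_lit 962644565333) (nat_lit 36) (nat_lit 5) (nat_lit 38) (nat_lit 5) (nat_lit 39) (nat_lit 5) (nat_lit 450) (nat_lit 415) (nat_lit 215)) (XT.lf (nat_lit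 0) (nat_lit 390616954539) (nat_lit 84) (nat_lit 699832237928) (nat_lit 168) (nat_lit 345645271850) (nat_lit 35) (nat_lit 5) (nat_lit 36) (nat_lit 5) (nat_lit 37) (nat_lit 4) (nat_lit 451) (nat_lit 415) (nat_lit 214))))) (XT.nd (nat_lit 282) (nat_lit 504) (nat_lit 0) (XT.nd (nat_lit 94) (nat_lit 336) (nat_lit 0) (XT.lf (nat_lit 0) (nat_lit 338189393277) (nat_lit 252) (nat_lit 1063667854415) (nat_lit 84) (nat_lit 107746094232) (nat_lit 32) (nat_lit 5) (nat_lit 35) (nat_lit 5) (nat_lit 33) (nat_lit 4) (nat_lit 452) (nat_lit 415) (nat_lit 213)) (XT.nd (nat_lit 94) (nat_lit 252) (nat_lit 0) (XT.lf (nat_lit 0) (nat_lit 504120588678) (nat_lit 84) (nat_lit 598843666137) (nat_lit 168) (nat_lit 483828201639) (nat_lit 31) (nat_lit 5) (nat_lit 32) (nat_lit 5) (nat_lit 33) (nat_lit 4) (nat_lit 453) (nat_lit 415) (nat_lit 212)) (XT.lf (nat_lit 0) (nat_lit 283088931731)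 (nat_lit 252) (nat_lit 1092959266184) (nat_lit 84) (nat_lit 292276170174) (nat_lit 28) (nat_lit 5) (nat_lit 31) (nat_lit 5) (nat_lit 29) (nat_lit 4) (nat_lit 454) (nat_lit 415) (nat_lit 211)))) (XT.nd (nat_lit 188) (nat_lit 252) (nat_lit 0) (XT.nd (nat_lit 94) (nat_lit 168) (nat_lit 0) (XT.lf (nat_lit 0) (nat_lit 651559981426) (nat_lit 84) (nat_lit 482513958323) (nat_lit 168) (nat_lit 619925038045) (nat_lit 27) (nat_lit 5) (nat_lit 28) (nat_lit 5) (nat_lit 29) (nat_lit 4) (nat_lit 455) (nat_lit 415) (nat_lit 210)) (XT.lf (nat_lit 0) (nat_lit 239145807385) (nat_lit 168) (nat_lit 1103362154376) (nat_lit 84) (nat_lit 501900884722) (nat_lit 25) (nat_lit 5) (nat_lit 27) (nat_lit 5) (nat_lit 26) (nat_lit 4) (nat_lit 456) (nat_lit 415) (nat_lit 209))) (XT.nd (nat_lit 94) (nat_lit 168) (nat_lit 0) (XT.lf (nat_lit 0) (nat_lit 838211677696) (nat_lit 84) (nat_lit 348043323565)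 (nat_lit 168) (nat_lit 753236776412) (nat_lit 24) (nat_lit 5) (nat_lit 25) (nat_lit 5) (nat_lit 26) (nat_lit 4) (nat_lit 457) (nat_lit 415) (nat_lit 208)) (XT.lf (nat_lit 0) (nat_lit 208092512674) (nat_lit 168) (nat_lit 1091135195803) (nat_lit 84) (nat_lit 740499084833) (nat_lit 22) (nat_lit 5) (nat_lit 24) (nat_lit 5) (nat_lit 23) (nat_lit 4) (nat_lit 458) (nat_lit 415) (nat_lit 207))))))) (XT.nd (nat_lit 1316) (nat_lit 0) (nat_lit 0) (XT.nd (nat_lit 658) (nat_lit 1008) (nat_lit 0) (XT.nd (nat_lit 282) (nat_lit 504) (nat_lit 0) (XT.nd (nat_lit 94) (nat_lit 252) (nat_lit 0) (XT.lf (nat_lit 0) (nat_lit 1070124507125) (nat_lit 84) (nat_lit 192241037490) (nat_lit 168) (nat_lit 882876301027) (nat_lit 21) (nat_lit 5) (nat_lit 22) (nat_lit 5) (nat_lit 23) (nat_lit 4) (nat_lit 459) (nat_lit 415) (nat_lit 206)) (XT.nd (nat_lit 94) (nat_lit 84) (nat_lit 0) (XT.lf (nat_lit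 0) (nat_lit 191965071813) (nat_lit 168) (nat_lit 1051923860838) (nat_lit 84) (nat_lit 1012462454822) (nat_lit 19) (nat_lit 5) (nat_lit 21) (nat_lit 5) (nat_lit 20) (nat_lit 4) (nat_lit 460) (nat_lit 415) (nat_lit 205)) (XT.lf (nat_lit 0) (nat_lit 1354222871134) (nat_lit 84) (nat_lit 11472318836) (nat_lit 168) (nat_lit 1007739177561) (nat_lit 18) (nat_lit 5) (nat_lit 19) (nat_lit 5) (nat_lit 20) (nat_lit 4) (nat_lit 461) (nat_lit 415) (nat_lit 204)))) (XT.nd (nat_lit 188) (nat_lit 252) (nat_lit 0) (XT.nd (nat_lit 94) (nat_lit 84) (nat_lit 0) (XT.lf (nat_lit 0) (nat_lit 193145226344) (nat_lit 168) (nat_lit 980673502941) (nat_lit 84) (nat_lit 1322762268323) (nat_lit 16) (nat_lit 5) (nat_lit 18) (nat_lit 5) (nat_lit 17) (nat_lit 4) (nat_lit 462) (nat_lit 415) (nat_lit 203)) (XT.lf (nat_lit 0) (nat_lit 1503119356321) (nat_lit 168) (nat_lit 931166201083) (nat_lit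 0) (nat_lit 192051522686) (nat_lit 15) (nat_lit 5) (nat_lit 17) (nat_lit 4) (nat_lit 15) (nat_lit 4) (nat_lit 463) (nat_lit 415) (nat_lit 202))) (XT.nd (nat_lit 94) (nat_lit 84) (nat_lit 0) (XT.lf (nat_lit 0) (nat_lit 214408309831) (nat_lit 168) (nat_lit 871530805859) (nat_lit 84) (nat_lit 1677024487871) (nat_lit 13) (nat_lit 5) (nat_lit 15) (nat_lit 5) (nat_lit 14) (nat_lit 4) (nat_lit 464) (nat_lit 415) (nat_lit 201)) (XT.lf (nat_lit 0) (nat_lit 1676577524346) (nat_lit 168) (nat_lit 802236316730) (nat_lit 0) (nat_lit 427941478777) (nat_lit 12) (nat_lit 5) (nat_lit 14) (nat_lit 4) (nat_lit 12) (nat_lit 4) (nat_lit 465) (nat_lit 415) (nat_lit 200))))) (XT.nd (nat_lit 282) (nat_lit 588) (nat_lit 0) (XT.nd (nat_lit 94) (nat_lit 252) (nat_lit 0) (XT.lf (nat_lit 0) (nat_lit 258977539656) (nat_lit 168) (nat_lit 717732095298) (nat_lit 84) (nat_lit 2081614237823)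 (nat_lit 10) (nat_lit 5) (nat_lit 12) (nat_lit 5) (nat_lit 11) (nat_lit 4) (nat_lit 466) (nat_lit 415) (nat_lit 199)) (XT.nd (nat_lit 94) (nat_lit 168) (nat_lit 0) (XT.lf (nat_lit 0) (nat_lit 1890928699563) (nat_lit 168) (nat_lit 624991223890) (nat_lit 0) (nat_lit 701751502255) (nat_lit 9) (nat_lit 5) (nat_lit 11) (nat_lit 4) (nat_lit 9) (nat_lit 4) (nat_lit 467) (nat_lit 415) (nat_lit 198)) (XT.lf (nat_lit 0) (nat_lit 330585544808) (nat_lit 168) (nat_lit 511476835371) (nat_lit 84) (nat_lit 2543730800187) (nat_lit 7) (nat_lit 5) (nat_lit 9) (nat_lit 5) (nat_lit 8) (nat_lit 4) (nat_lit 468) (nat_lit 415) (nat_lit 197)))) (XT.nd (nat_lit 188) (nat_lit 336) (nat_lit 0) (XT.nd (nat_lit 94) (nat_lit 168) (nat_lit 0) (XT.lf (nat_lit 0) (nat_lit 2151928422219) (nat_lit 168) (nat_lit 391074510311) (nat_lit 0) (nat_lit 1019378701473) (nat_lit 6) (nat_lit 5) (nat_lit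 8) (nat_lit 4) (nat_lit 6) (nat_lit 4) (nat_lit 469) (nat_lit 415) (nat_lit 196)) (XT.lf (nat_lit 0) (nat_lit 433544050657) (nat_lit 168) (nat_lit 243784420916) (nat_lit 84) (nat_lit 3071514421536) (nat_lit 4) (nat_lit 5) (nat_lit 6) (nat_lit 5) (nat_lit 5) (nat_lit 4) (nat_lit 470) (nat_lit 415) (nat_lit 195))) (XT.nd (nat_lit 94) (nat_lit 252) (nat_lit 0) (XT.lf (nat_lit 0) (nat_lit 2466143094537) (nat_lit 168) (nat_lit 90872673191) (nat_lit 0) (nat_lit 1387524305505) (nat_lit 3) (nat_lit 5) (nat_lit 5) (nat_lit 4) (nat_lit 3) (nat_lit 4) (nat_lit 471) (nat_lit 415) (nat_lit 194)) (XT.lf (nat_lit 0) (nat_lit 6021852225419) (nat_lit 0) (nat_lit 0) (nat_lit 0) (nat_lit 0) (nat_lit 0) (nat_lit 0) (nat_lit 1) (nat_lit 0) (nat_lit 1) (nat_lit 0) (nat_lit 472) (nat_lit 415) (nat_lit 193)))))) (XT.nd (nat_lit 658) (nat_lit 0) (nat_lit 0) (XT.nd (nat_lit 282) (nat_lit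 0) (nat_lit 0) (XT.nd (nat_lit 94) (nat_lit 0) (nat_lit 0) (XT.lf (nat_lit 0) (nat_lit 6497680747854) (nat_lit 0) (nat_lit 0) (nat_lit 0) (nat_lit 0) (nat_lit 0) (nat_lit 0) (nat_lit 1) (nat_lit 0) (nat_lit 1) (nat_lit 0) (nat_lit 473) (nat_lit 415) (nat_lit 192)) (XT.nd (nat_lit 94) (nat_lit 0) (nat_lit 0) (XT.lf (nat_lit 0) (nat_lit 7011575552116) (nat_lit 0) (nat_lit 0) (nat_lit 0) (nat_lit 0) (nat_lit 0) (nat_lit 0) (nat_lit 1) (nat_lit 0) (nat_lit 1) (nat_lit 0) (nat_lit 474) (nat_lit 415) (nat_lit 191)) (XT.lf (nat_lit 0) (nat_lit 7566581940749) (nat_lit 0) (nat_lit 0) (nat_lit 0) (nat_lit 0) (nat_lit 0) (nat_lit 0) (nat_lit 1) (nat_lit 0) (nat_lit 1) (nat_lit 0) (nat_lit 475) (nat_lit 415) (nat_lit 190)))) (XT.nd (nat_lit 188) (nat_lit 0) (nat_lit 0) (XT.nd (nat_lit 94) (nat_lit 0) (nat_lit 0) (XT.lf (nat_lit 0) (nat_lit 8165988840500) (nat_lit 0) (nat_lit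 0) (nat_lit 0) (nat_lit 0) (nat_lit 0) (nat_lit 0) (nat_lit 1) (nat_lit 0) (nat_lit 1) (nat_lit 0) (nat_lit 476) (nat_lit 415) (nat_lit 189)) (XT.lf (nat_lit 0) (nat_lit 8813348292257) (nat_lit 0) (nat_lit 0) (nat_lit 0) (nat_lit 0) (nat_lit 0) (nat_lit 0) (nat_lit 1) (nat_lit 0) (nat_lit 1) (nat_lit 0) (nat_lit 477) (nat_lit 415) (nat_lit 188))) (XT.nd (nat_lit 94) (nat_lit 0) (nat_lit 0) (XT.lf (nat_lit 0) (nat_lit 9512496500177) (nat_lit 0) (nat_lit 0) (nat_lit 0) (nat_lit 0) (nat_lit 0) (nat_lit 0) (nat_lit 1) (nat_lit 0) (nat_lit 1) (nat_lit 0) (nat_lit 478) (nat_lit 415) (nat_lit 187)) (XT.lf (nat_lit 0) (nat_lit 10267576564754) (nat_lit 0) (nat_lit 0) (nat_lit 0) (nat_lit 0) (nat_lit 0) (nat_lit 0) (nat_lit 1) (nat_lit 0) (nat_lit 1) (nat_lit 0) (nat_lit 479) (nat_lit 415) (nat_lit 186))))) (XT.nd (nat_lit 282) (nat_lit 0) (nat_lit 0) (XT.nd (nat_lit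 94) (nat_lit 0) (nat_lit 0) (XT.lf (nat_lit 0) (nat_lit 11083063034516) (nat_lit 0) (nat_lit 0) (nat_lit 0) (nat_lit 0) (nat_lit 0) (nat_lit 0) (nat_lit 1) (nat_lit 0) (nat_lit 1) (nat_lit 0) (nat_lit 480) (nat_lit 415) (nat_lit 185)) (XT.nd (nat_lit 94) (nat_lit 0) (nat_lit 0) (XT.lf (nat_lit 0) (nat_lit 11963788421879) (nat_lit 0) (nat_lit 0) (nat_lit 0) (nat_lit 0) (nat_lit 0) (nat_lit 0) (nat_lit 1) (nat_lit 0) (nat_lit 1) (nat_lit 0) (nat_lit 481) (nat_lit 415) (nat_lit 184)) (XT.lf (nat_lit 0) (nat_lit 12914971840247) (nat_lit 0) (nat_lit 0) (nat_lit 0) (nat_lit 0) (nat_lit 0) (nat_lit 0) (nat_lit 1) (nat_lit 0) (nat_lit 1) (nat_lit 0) (nat_lit 482) (nat_lit 415) (nat_lit 183)))) (XT.nd (nat_lit 188) (nat_lit 0) (nat_lit 0) (XT.nd (nat_lit 94) (nat_lit 0) (nat_lit 0) (XT.lf (nat_lit 0) (nat_lit 13942249932102) (nat_lit 0) (nat_lit 0) (nat_lit 0) (nat_lit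 0) (nat_lit 0) (nat_lit 0) (nat_lit 1) (nat_lit 0) (nat_lit 1) (nat_lit 0) (nat_lit 483) (nat_lit 415) (nat_lit 182)) (XT.lf (nat_lit 0) (nat_lit 15051710271319) (nat_lit 0) (nat_lit 0) (nat_lit 0) (nat_lit 0) (nat_lit 0) (nat_lit 0) (nat_lit 1) (nat_lit 0) (nat_lit 1) (nat_lit 0) (nat_lit 484) (nat_lit 415) (nat_lit 181))) (XT.nd (nat_lit 94) (nat_lit 0) (nat_lit 0) (XT.lf (nat_lit 0) (nat_lit 16249927437688) (nat_lit 0) (nat_lit 0) (nat_lit 0) (nat_lit 0) (nat_lit 0) (nat_lit 0) (nat_lit 1) (nat_lit 0) (nat_lit 1) (nat_lit 0) (nat_lit 485) (nat_lit 415) (nat_lit 180)) (XT.lf (nat_lit 0) (nat_lit 17544001977378) (nat_lit 0) (nat_lit 0) (nat_lit 0) (nat_lit 0) (nat_lit 0) (nat_lit 0) (nat_lit 1) (nat_lit 0) (nat_lit 1) (nat_lit 0) (nat_lit 486) (nat_lit 415) (nat_lit 179))))))))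
noncomputable def xc201 : XT := (XT.nd (nat_lit 62228) (nat_lit 0) (nat_lit 2268) (XT.nd (nat_lit 1316) (nat_lit 0) (nat_lit 0) (XT.nd (nat_lit 658) (nat_lit 0) (nat_lit 0) (XT.nd (nat_lit 282) (nat_lit 0) (nat_lit 0) (XT.nd (nat_lit 94) (nat_lit 0) (nat_lit 0) (XT.lf (nat_lit 0) (nat_lit 18941602480256) (nat_lit 0) (nat_lit 0) (nat_lit 0) (nat_lit 0) (nat_lit 0) (nat_lit 0) (nat_lit 1) (nat_lit 0) (nat_lit 1) (nat_lit 0) (nat_lit 487) (nat_lit 415) (nat_lit 178)) (XT.nd (nat_lit 94) (nat_lit 0) (nat_lit 0) (XT.lf (nat_lit 0) (nat_lit 20451011023375) (nat_lit 0) (nat_lit 0) (nat_lit 0) (nat_lit 0) (nat_lit 0) (nat_lit 0) (nat_lit 1) (nat_lit 0) (nat_lit 1) (nat_lit 0) (nat_lit 488) (nat_lit 415) (nat_lit 177)) (XT.lf (nat_lit 0) (nat_lit 22081172249954) (nat_lit 0) (nat_lit 0) (nat_lit 0) (nat_lit 0) (nat_lit 0) (nat_lit 0) (nat_lit 1) (nat_lit 0) (nat_lit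 1) (nat_lit 0) (nat_lit 489) (nat_lit 415) (nat_lit 176)))) (XT.nd (nat_lit 188) (nat_lit 0) (nat_lit 0) (XT.nd (nat_lit 94) (nat_lit 0) (nat_lit 0) (XT.lf (nat_lit 0) (nat_lit 23841746374669) (nat_lit 0) (nat_lit 0) (nat_lit 0) (nat_lit 0) (nat_lit 0) (nat_lit 0) (nat_lit 1) (nat_lit 0) (nat_lit 1) (nat_lit 0) (nat_lit 490) (nat_lit 415) (nat_lit 175)) (XT.lf (nat_lit 0) (nat_lit 25743166429369) (nat_lit 0) (nat_lit 0) (nat_lit 0) (nat_lit 0) (nat_lit 0) (nat_lit 0) (nat_lit 1) (nat_lit 0) (nat_lit 1) (nat_lit 0) (nat_lit 491) (nat_lit 415) (nat_lit 174))) (XT.nd (nat_lit 94) (nat_lit 0) (nat_lit 0) (XT.lf (nat_lit 0) (nat_lit 27796700088453) (nat_lit 0) (nat_lit 0) (nat_lit 0) (nat_lit 0) (nat_lit 0) (nat_lit 0) (nat_lit 1) (nat_lit 0) (nat_lit 1) (nat_lit 0) (nat_lit 492) (nat_lit 415) (nat_lit 173)) (XT.lf (nat_lit 0) (nat_lit 30014516440272) (nat_lit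 0) (nat_lit 0) (nat_lit 0) (nat_lit 0) (nat_lit 0) (nat_lit 0) (nat_lit 1) (nat_lit 0) (nat_lit 1) (nat_lit 0) (nat_lit 493) (nat_lit 415) (nat_lit 172))))) (XT.nd (nat_lit 282) (nat_lit 0) (nat_lit 0) (XT.nd (nat_lit 94) (nat_lit 0) (nat_lit 0) (XT.lf (nat_lit 0) (nat_lit 32409758100242) (nat_lit 0) (nat_lit 0) (nat_lit 0) (nat_lit 0) (nat_lit 0) (nat_lit 0) (nat_lit 1) (nat_lit 0) (nat_lit 1) (nat_lit 0) (nat_lit 494) (nat_lit 415) (nat_lit 171)) (XT.nd (nat_lit 94) (nat_lit 0) (nat_lit 0) (XT.lf (nat_lit 0) (nat_lit 34996619093017) (nat_lit 0) (nat_lit 0) (nat_lit 0) (nat_lit 0) (nat_lit 0) (nat_lit 0) (nat_lit 1) (nat_lit 0) (nat_lit 1) (nat_lit 0) (nat_lit 495) (nat_lit 415) (nat_lit 170)) (XT.lf (nat_lit 0) (nat_lit 37790428965220) (nat_lit 0) (nat_lit 0) (nat_lit 0) (nat_lit 0) (nat_lit 0) (nat_lit 0) (nat_lit 1) (nat_lit 0) (nat_lit 1) (nat_lit 0)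 (nat_lit 496) (nat_lit 415) (nat_lit 169)))) (XT.nd (nat_lit 188) (nat_lit 0) (nat_lit 0) (XT.nd (nat_lit 94) (nat_lit 0) (nat_lit 0) (XT.lf (nat_lit 0) (nat_lit 40807743627204) (nat_lit 0) (nat_lit 0) (nat_lit 0) (nat_lit 0) (nat_lit 0) (nat_lit 0) (nat_lit 1) (nat_lit 0) (nat_lit 1) (nat_lit 0) (nat_lit 497) (nat_lit 415) (nat_lit 168)) (XT.lf (nat_lit 0) (nat_lit 44066443462153) (nat_lit 0) (nat_lit 0) (nat_lit 0) (nat_lit 0) (nat_lit 0) (nat_lit 0) (nat_lit 1) (nat_lit 0) (nat_lit 1) (nat_lit 0) (nat_lit 498) (nat_lit 415) (nat_lit 167))) (XT.nd (nat_lit 94) (nat_lit 0) (nat_lit 0) (XT.lf (nat_lit 0) (nat_lit 47585839283901) (nat_lit 0) (nat_lit 0) (nat_lit 0) (nat_lit 0) (nat_lit 0) (nat_lit 0) (nat_lit 1) (nat_lit 0) (nat_lit 1) (nat_lit 0) (nat_lit 499) (nat_lit 415) (nat_lit 166)) (XT.lf (nat_lit 0) (nat_lit 51386786771394) (nat_lit 0) (nat_lit 0)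 (nat_lit 0) (nat_lit 0) (nat_lit 0) (nat_lit 0) (nat_lit 1) (nat_lit 0) (nat_lit 1) (nat_lit 0) (nat_lit 500) (nat_lit 415) (nat_lit 165)))))) (XT.nd (nat_lit 60254) (nat_lit 0) (nat_lit 8568) (XT.nd (nat_lit 59878) (nat_lit 0) (nat_lit 10836) (XT.nd (nat_lit 94) (nat_lit 0) (nat_lit 0) (XT.lf (nat_lit 0) (nat_lit 55491810057891) (nat_lit 0) (nat_lit 0) (nat_lit 0) (nat_lit 0) (nat_lit 0) (nat_lit 0) (nat_lit 1) (nat_lit 0) (nat_lit 1) (nat_lit 0) (nat_lit 501) (nat_lit 415) (nat_lit 164)) (XT.nd (nat_lit 59690) (nat_lit 0) (nat_lit 10752) (XT.lf (nat_lit 0) (nat_lit 59925235207311) (nat_lit 0) (nat_lit 0) (nat_lit 0) (nat_lit 0) (nat_lit 0) (nat_lit 0) (nat_lit 1) (nat_lit 0) (nat_lit 1) (nat_lit 0) (nat_lit 502) (nat_lit 415) (nat_lit 163)) (XT.lf (nat_lit 0) (nat_lit 71001959349) (nat_lit 924) (nat_lit 39995186970) (nat_lit 924) (nat_lit 39995186970) (nat_lit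 128) (nat_lit 3) (nat_lit 139) (nat_lit 3) (nat_lit 139) (nat_lit 5) (nat_lit 416) (nat_lit 416) (nat_lit 248)))) (XT.nd (nat_lit 188) (nat_lit 0) (nat_lit 84) (XT.nd (nat_lit 94) (nat_lit 0) (nat_lit 0) (XT.lf (nat_lit 0) (nat_lit 150551530492) (nat_lit 840) (nat_lit 147253126503) (nat_lit 924) (nat_lit 16116023496) (nat_lit 129) (nat_lit 5) (nat_lit 139) (nat_lit 5) (nat_lit 140) (nat_lit 5) (nat_lit 417) (nat_lit 416) (nat_lit 247)) (XT.lf (nat_lit 84) (nat_lit 108891716848) (nat_lit 0) (nat_lit 57750680334) (nat_lit 924) (nat_lit 159826206035) (nat_lit 130) (nat_lit 5) (nat_lit 129) (nat_lit 5) (nat_lit 140) (nat_lit 5) (nat_lit 418) (nat_lit 416) (nat_lit 246))) (XT.nd (nat_lit 94) (nat_lit 0) (nat_lit 84) (XT.lf (nat_lit 84) (nat_lit 49283565918) (nat_lit 0) (nat_lit 141259521644) (nat_lit 924) (nat_lit 149151144482) (nat_lit 131) (nat_lit 5) (nat_lit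 130) (nat_lit 5) (nat_lit 141) (nat_lit 5) (nat_lit 419) (nat_lit 416) (nat_lit 245)) (XT.lf (nat_lit 0) (nat_lit 223026617632) (nat_lit 840) (nat_lit 11406857516) (nat_lit 924) (nat_lit 119210896806) (nat_lit 131) (nat_lit 5) (nat_lit 141) (nat_lit 5) (nat_lit 142) (nat_lit 5) (nat_lit 420) (nat_lit 416) (nat_lit 244))))) (XT.nd (nat_lit 282) (nat_lit 1764) (nat_lit 0) (XT.nd (nat_lit 94) (nat_lit 756) (nat_lit 0) (XT.lf (nat_lit 0) (nat_lit 265626570873) (nat_lit 840) (nat_lit 71815308715) (nat_lit 924) (nat_lit 30892756430) (nat_lit 132) (nat_lit 5) (nat_lit 142) (nat_lit 5) (nat_lit 143) (nat_lit 5) (nat_lit 421) (nat_lit 416) (nat_lit 243)) (XT.nd (nat_lit 94) (nat_lit 756) (nat_lit 0) (XT.lf (nat_lit 84) (nat_lit 249320259083) (nat_lit 0) (nat_lit 70361700150) (nat_lit 924) (nat_lit 64115790032) (nat_lit 133) (nat_lit 5) (nat_lit 132) (nat_lit 5) (nat_lit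 143) (nat_lit 5) (nat_lit 422) (nat_lit 416) (nat_lit 242)) (XT.lf (nat_lit 0) (nat_lit 201292949061) (nat_lit 840) (nat_lit 184587899320) (nat_lit 924) (nat_lit 14226109703) (nat_lit 123) (nat_lit 5) (nat_lit 133) (nat_lit 5) (nat_lit 134) (nat_lit 5) (nat_lit 423) (nat_lit 416) (nat_lit 241)))) (XT.nd (nat_lit 188) (nat_lit 756) (nat_lit 0) (XT.nd (nat_lit 94) (nat_lit 420) (nat_lit 0) (XT.lf (nat_lit 0) (nat_lit 46075682253) (nat_lit 588) (nat_lit 264891112703) (nat_lit 84) (nat_lit 106338645735) (nat_lit 116) (nat_lit 5) (nat_lit 123) (nat_lit 5) (nat_lit 117) (nat_lit 5) (nat_lit 424) (nat_lit 416) (nat_lit 240)) (XT.lf (nat_lit 0) (nat_lit 103022011908) (nat_lit 420) (nat_lit 15928722796) (nat_lit 504) (nat_lit 316505029919) (nat_lit 111) (nat_lit 5) (nat_lit 116) (nat_lit 5) (nat_lit 117) (nat_lit 5) (nat_lit 425) (nat_lit 416) (nat_lit 239))) (XT.nd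 (nat_lit 94) (nat_lit 336) (nat_lit 0) (XT.lf (nat_lit 0) (nat_lit 51857832770) (nat_lit 420) (nat_lit 156023603296) (nat_lit 504) (nat_lit 246665396168) (nat_lit 106) (nat_lit 5) (nat_lit 111) (nat_lit 5) (nat_lit 112) (nat_lit 5) (nat_lit 426) (nat_lit 416) (nat_lit 238)) (XT.lf (nat_lit 0) (nat_lit 1025879303) (nat_lit 336) (nat_lit 311602537345) (nat_lit 420) (nat_lit 162101677451) (nat_lit 102) (nat_lit 5) (nat_lit 106) (nat_lit 5) (nat_lit 107) (nat_lit 5) (nat_lit 427) (nat_lit 416) (nat_lit 237))))))) (XT.nd (nat_lit 1316) (nat_lit 2520) (nat_lit 0) (XT.nd (nat_lit 658) (nat_lit 1764) (nat_lit 0) (XT.nd (nat_lit 282) (nat_lit 1260) (nat_lit 0) (XT.nd (nat_lit 94) (nat_lit 756) (nat_lit 0) (XT.lf (nat_lit 0) (nat_lit 435566393652) (nat_lit 420) (nat_lit 47556228360) (nat_lit 84) (nat_lit 12914833002) (nat_lit 102) (nat_lit 5) (nat_lit 107) (nat_lit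 5) (nat_lit 103) (nat_lit 5) (nat_lit 428) (nat_lit 416) (nat_lit 236)) (XT.nd (nat_lit 94) (nat_lit 336) (nat_lit 0) (XT.lf (nat_lit 0) (nat_lit 59731852814) (nat_lit 420) (nat_lit 98520744082) (nat_lit 84) (nat_lit 360157358315) (nat_lit 97) (nat_lit 5) (nat_lit 102) (nat_lit 5) (nat_lit 98) (nat_lit 5) (nat_lit 429) (nat_lit 416) (nat_lit 235)) (XT.lf (nat_lit 0) (nat_lit 197616758579) (nat_lit 420) (nat_lit 149785704968) (nat_lit 84) (nat_lit 194611006937) (nat_lit 93) (nat_lit 5) (nat_lit 98) (nat_lit 5) (nat_lit 94) (nat_lit 5) (nat_lit 430) (nat_lit 416) (nat_lit 234)))) (XT.nd (nat_lit 188) (nat_lit 672) (nat_lit 0) (XT.nd (nat_lit 94) (nat_lit 252) (nat_lit 0) (XT.lf (nat_lit 0) (nat_lit 356848543982) (nat_lit 420) (nat_lit 199767912078) (nat_lit 84) (nat_lit 10373006561) (nat_lit 89) (nat_lit 5) (nat_lit 94) (nat_lit 5) (nat_lit 90) (nat_lit 5) (nat_lit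 431) (nat_lit 416) (nat_lit 233)) (XT.lf (nat_lit 0) (nat_lit 342155548999) (nat_lit 252) (nat_lit 200515067277) (nat_lit 336) (nat_lit 50600330651) (nat_lit 86) (nat_lit 5) (nat_lit 89) (nat_lit 5) (nat_lit 90) (nat_lit 5) (nat_lit 432) (nat_lit 416) (nat_lit 232))) (XT.nd (nat_lit 94) (nat_lit 252) (nat_lit 0) (XT.lf (nat_lit 0) (nat_lit 129408575093) (nat_lit 420) (nat_lit 302761862239) (nat_lit 84) (nat_lit 188809488861) (nat_lit 81) (nat_lit 5) (nat_lit 86) (nat_lit 5) (nat_lit 82) (nat_lit 5) (nat_lit 433) (nat_lit 416) (nat_lit 231)) (XT.lf (nat_lit 0) (nat_lit 296564422140) (nat_lit 252) (nat_lit 37961869313) (nat_lit 336) (nat_lit 315713812301) (nat_lit 78) (nat_lit 5) (nat_lit 81) (nat_lit 5) (nat_lit 82) (nat_lit 5) (nat_lit 434) (nat_lit 416) (nat_lit 230))))) (XT.nd (nat_lit 282) (nat_lit 924) (nat_lit 0) (XT.nd (nat_lit 94) (nat_lit 588) (nat_lit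 0) (XT.lf (nat_lit 0) (nat_lit 275755948223) (nat_lit 252) (nat_lit 296017518672) (nat_lit 336) (nat_lit 109281626540) (nat_lit 75) (nat_lit 5) (nat_lit 78) (nat_lit 5) (nat_lit 79) (nat_lit 5) (nat_lit 435) (nat_lit 416) (nat_lit 229)) (XT.nd (nat_lit 94) (nat_lit 252) (nat_lit 0) (XT.lf (nat_lit 0) (nat_lit 123157107083) (nat_lit 336) (nat_lit 455919404133) (nat_lit 84) (nat_lit 134513541149) (nat_lit 71) (nat_lit 5) (nat_lit 75) (nat_lit 5) (nat_lit 72) (nat_lit 5) (nat_lit 436) (nat_lit 416) (nat_lit 228)) (XT.lf (nat_lit 0) (nat_lit 240524735539) (nat_lit 252) (nat_lit 145811105732) (nat_lit 336) (nat_lit 361503711751) (nat_lit 68) (nat_lit 5) (nat_lit 71) (nat_lit 5) (nat_lit 72) (nat_lit 5) (nat_lit 437) (nat_lit 416) (nat_lit 227)))) (XT.nd (nat_lit 188) (nat_lit 420) (nat_lit 0) (XT.nd (nat_lit 94) (nat_lit 336) (nat_lit 0) (XT.lf (nat_lit 0) (nat_lit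 226627332570) (nat_lit 168) (nat_lit 460580935428) (nat_lit 252) (nat_lit 96788776042) (nat_lit 66) (nat_lit 5) (nat_lit 68) (nat_lit 5) (nat_lit 69) (nat_lit 5) (nat_lit 438) (nat_lit 416) (nat_lit 226)) (XT.lf (nat_lit 0) (nat_lit 198151858709) (nat_lit 336) (nat_lit 606286297474) (nat_lit 84) (nat_lit 17706306864) (nat_lit 62) (nat_lit 5) (nat_lit 66) (nat_lit 5) (nat_lit 63) (nat_lit 5) (nat_lit 439) (nat_lit 416) (nat_lit 225))) (XT.nd (nat_lit 94) (nat_lit 252) (nat_lit 0) (XT.lf (nat_lit 0) (nat_lit 204993111182) (nat_lit 168) (nat_lit 329183864928) (nat_lit 252) (nat_lit 328043352449) (nat_lit 60) (nat_lit 5) (nat_lit 62) (nat_lit 5) (nat_lit 63) (nat_lit 5) (nat_lit 440) (nat_lit 416) (nat_lit 224)) (XT.lf (nat_lit 0) (nat_lit 8876253443) (nat_lit 252) (nat_lit 703563228254) (nat_lit 84) (nat_lit 192218104160) (nat_lit 57) (nat_lit 5) (nat_lit 60)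 (nat_lit 5) (nat_lit 58) (nat_lit 5) (nat_lit 441) (nat_lit 416) (nat_lit 223)))))) (XT.nd (nat_lit 658) (nat_lit 1344) (nat_lit 0) (XT.nd (nat_lit 282) (nat_lit 588) (nat_lit 0) (XT.nd (nat_lit 94) (nat_lit 420) (nat_lit 0) (XT.lf (nat_lit 0) (nat_lit 196658136312) (nat_lit 168) (nat_lit 185009049880) (nat_lit 252) (nat_lit 567533209579) (nat_lit 55) (nat_lit 5) (nat_lit 57) (nat_lit 5) (nat_lit 58) (nat_lit 5) (nat_lit 442) (nat_lit 416) (nat_lit 222)) (XT.nd (nat_lit 94) (nat_lit 252) (nat_lit 0) (XT.lf (nat_lit 0) (nat_lit 197440822948) (nat_lit 168) (nat_lit 608384605728) (nat_lit 252) (nat_lit 190404000045) (nat_lit 53) (nat_lit 5) (nat_lit 55) (nat_lit 5) (nat_lit 56) (nat_lit 5) (nat_lit 443) (nat_lit 416) (nat_lit 221)) (XT.lf (nat_lit 0) (nat_lit 203729995944) (nat_lit 168) (nat_lit 25847595482) (nat_lit 252) (nat_lit 816292672657) (nat_lit 50) (nat_lit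 5) (nat_lit 52) (nat_lit 5) (nat_lit 53) (nat_lit 5) (nat_lit 444) (nat_lit 416) (nat_lit 220)))) (XT.nd (nat_lit 188) (nat_lit 252) (nat_lit 0) (XT.nd (nat_lit 94) (nat_lit 168) (nat_lit 0) (XT.lf (nat_lit 0) (nat_lit 210053137771) (nat_lit 168) (nat_lit 493363988158) (nat_lit 252) (nat_lit 394562659273) (nat_lit 48) (nat_lit 5) (nat_lit 50) (nat_lit 5) (nat_lit 51) (nat_lit 5) (nat_lit 445) (nat_lit 416) (nat_lit 219)) (XT.lf (nat_lit 0) (nat_lit 80226509029) (nat_lit 168) (nat_lit 926957674137) (nat_lit 84) (nat_lit 145962833449) (nat_lit 46) (nat_lit 5) (nat_lit 48) (nat_lit 5) (nat_lit 47) (nat_lit 5) (nat_lit 446) (nat_lit 416) (nat_lit 218))) (XT.nd (nat_lit 94) (nat_lit 84) (nat_lit 0) (XT.lf (nat_lit 0) (nat_lit 241698092989) (nat_lit 168) (nat_lit 365475216636) (nat_lit 252) (nat_lit 603831002279) (nat_lit 44) (nat_lit 5) (nat_lit 46) (nat_lit 5)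 (nat_lit 47) (nat_lit 5) (nat_lit 447) (nat_lit 416) (nat_lit 217)) (XT.lf (nat_lit 0) (nat_lit 267445731465) (nat_lit 84) (nat_lit 934531678137) (nat_lit 168) (nat_lit 70227703448) (nat_lit 43) (nat_lit 5) (nat_lit 44) (nat_lit 5) (nat_lit 45) (nat_lit 4) (nat_lit 448) (nat_lit 416) (nat_lit 216))))) (XT.nd (nat_lit 376) (nat_lit 672) (nat_lit 0) (XT.nd (nat_lit 188) (nat_lit 336) (nat_lit 0) (XT.nd (nat_lit 94) (nat_lit 84) (nat_lit 0) (XT.lf (nat_lit 0) (nat_lit 295408114478) (nat_lit 168) (nat_lit 222394732427) (nat_lit 252) (nat_lit 818707268051) (nat_lit 40) (nat_lit 5) (nat_lit 42) (nat_lit 5) (nat_lit 43) (nat_lit 5) (nat_lit 449) (nat_lit 416) (nat_lit 215)) (XT.lf (nat_lit 0) (nat_lit 330970505964) (nat_lit 84) (nat_lit 850970053498) (nat_lit 168) (nat_lit 222385136120) (nat_lit 39) (nat_lit 5) (nat_lit 40) (nat_lit 5) (nat_lit 41) (nat_lit 4) (nat_lit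 450) (nat_lit 416) (nat_lit 214))) (XT.nd (nat_lit 94) (nat_lit 84) (nat_lit 0) (XT.lf (nat_lit 0) (nat_lit 374688496596) (nat_lit 168) (nat_lit 61491590171) (nat_lit 252) (nat_lit 1039655658523) (nat_lit 36) (nat_lit 5) (nat_lit 38) (nat_lit 5) (nat_lit 39) (nat_lit 5) (nat_lit 451) (nat_lit 416) (nat_lit 213)) (XT.lf (nat_lit 0) (nat_lit 421867122971) (nat_lit 84) (nat_lit 755818439365) (nat_lit 168) (nat_lit 373296437403) (nat_lit 35) (nat_lit 5) (nat_lit 36) (nat_lit 5) (nat_lit 37) (nat_lit 4) (nat_lit 452) (nat_lit 416) (nat_lit 212)))) (XT.nd (nat_lit 188) (nat_lit 336) (nat_lit 0) (XT.nd (nat_lit 94) (nat_lit 84) (nat_lit 0) (XT.lf (nat_lit 0) (nat_lit 365244971739) (nat_lit 252) (nat_lit 1148760476732) (nat_lit 84) (nat_lit 116366139458) (nat_lit 32) (nat_lit 5) (nat_lit 35) (nat_lit 5) (nat_lit 33) (nat_lit 4) (nat_lit 453) (nat_lit 416) (nat_lit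 211)) (XT.lf (nat_lit 0) (nat_lit 544451006779) (nat_lit 84) (nat_lit 646750795828) (nat_lit 168) (nat_lit 522534029993) (nat_lit 31) (nat_lit 5) (nat_lit 32) (nat_lit 5) (nat_lit 33) (nat_lit 4) (nat_lit 454) (nat_lit 416) (nat_lit 210))) (XT.nd (nat_lit 94) (nat_lit 84) (nat_lit 0) (XT.lf (nat_lit 0) (nat_lit 305736446951) (nat_lit 252) (nat_lit 1180395242675) (nat_lit 84) (nat_lit 315658607876) (nat_lit 28) (nat_lit 5) (nat_lit 31) (nat_lit 5) (nat_lit 29) (nat_lit 4) (nat_lit 455) (nat_lit 416) (nat_lit 209)) (XT.lf (nat_lit 0) (nat_lit 703685511506) (nat_lit 84) (nat_lit 521114725846) (nat_lit 168) (nat_lit 669518639544) (nat_lit 27) (nat_lit 5) (nat_lit 28) (nat_lit 5) (nat_lit 29) (nat_lit 4) (nat_lit 456) (nat_lit 416) (nat_lit 208))))))))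
noncomputable def xc202 : XT := (XT.nd (nat_lit 2632) (nat_lit 0) (nat_lit 0) (XT.nd (nat_lit 1316) (nat_lit 504) (nat_lit 0) (XT.nd (nat_lit 658) (nat_lit 840) (nat_lit 0) (XT.nd (nat_lit 282) (nat_lit 504) (nat_lit 0) (XT.nd (nat_lit 94) (nat_lit 252) (nat_lit 0) (XT.lf (nat_lit 0) (nat_lit 258277848318) (nat_lit 168) (nat_lit 1191630401434) (nat_lit 84) (nat_lit 542053285632) (nat_lit 25) (nat_lit 5) (nat_lit 27) (nat_lit 5) (nat_lit 26) (nat_lit 4) (nat_lit 457) (nat_lit 416) (nat_lit 207)) (XT.nd (nat_lit 94) (nat_lit 168) (nat_lit 0) (XT.lf (nat_lit 0) (nat_lit 905269305684) (nat_lit 84) (nat_lit 375886454975) (nat_lit 168) (nat_lit 813495341263) (nat_lit 24) (nat_lit 5) (nat_lit 25) (nat_lit 5) (nat_lit 26) (nat_lit 4) (nat_lit 458) (nat_lit 416) (nat_lit 206)) (XT.lf (nat_lit 0) (nat_lit 224740267462) (nat_lit 168) (nat_lit 1178425323959) (nat_lit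 84) (nat_lit 799739327663) (nat_lit 22) (nat_lit 5) (nat_lit 24) (nat_lit 5) (nat_lit 23) (nat_lit 4) (nat_lit 459) (nat_lit 416) (nat_lit 205)))) (XT.nd (nat_lit 188) (nat_lit 252) (nat_lit 0) (XT.nd (nat_lit 94) (nat_lit 168) (nat_lit 0) (XT.lf (nat_lit 0) (nat_lit 1155735125324) (nat_lit 84) (nat_lit 207620000697) (nat_lit 168) (nat_lit 953506050380) (nat_lit 21) (nat_lit 5) (nat_lit 22) (nat_lit 5) (nat_lit 23) (nat_lit 4) (nat_lit 460) (nat_lit 416) (nat_lit 204)) (XT.lf (nat_lit 0) (nat_lit 207322610360) (nat_lit 168) (nat_lit 1136077118269) (nat_lit 84) (nat_lit 1093459753201) (nat_lit 19) (nat_lit 5) (nat_lit 21) (nat_lit 5) (nat_lit 20) (nat_lit 4) (nat_lit 461) (nat_lit 416) (nat_lit 203))) (XT.nd (nat_lit 94) (nat_lit 168) (nat_lit 0) (XT.lf (nat_lit 0) (nat_lit 1462561323950) (nat_lit 84) (nat_lit 12389799096) (nat_lit 168) (nat_lit 1088357977993)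 (nat_lit 18) (nat_lit 5) (nat_lit 19) (nat_lit 5) (nat_lit 20) (nat_lit 4) (nat_lit 462) (nat_lit 416) (nat_lit 202)) (XT.lf (nat_lit 0) (nat_lit 208597157722) (nat_lit 168) (nat_lit 1059126766128) (nat_lit 84) (nat_lit 1428583537904) (nat_lit 16) (nat_lit 5) (nat_lit 18) (nat_lit 5) (nat_lit 17) (nat_lit 4) (nat_lit 463) (nat_lit 416) (nat_lit 201))))) (XT.nd (nat_lit 282) (nat_lit 504) (nat_lit 0) (XT.nd (nat_lit 94) (nat_lit 252) (nat_lit 0) (XT.lf (nat_lit 0) (nat_lit 1623369208649) (nat_lit 168) (nat_lit 1005658896517) (nat_lit 0) (nat_lit 207415926141) (nat_lit 15) (nat_lit 5) (nat_lit 17) (nat_lit 4) (nat_lit 15) (nat_lit 4) (nat_lit 464) (nat_lit 416) (nat_lit 200)) (XT.nd (nat_lit 94) (nat_lit 84) (nat_lit 0) (XT.lf (nat_lit 0) (nat_lit 231561269663) (nat_lit 168) (nat_lit 941252686023) (nat_lit 84) (nat_lit 1811186721408) (nat_lit 13) (nat_lit 5)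 (nat_lit 15) (nat_lit 5) (nat_lit 14) (nat_lit 4) (nat_lit 465) (nat_lit 416) (nat_lit 199)) (XT.lf (nat_lit 0) (nat_lit 1810704012535) (nat_lit 168) (nat_lit 866414653386) (nat_lit 0) (nat_lit 462177065208) (nat_lit 12) (nat_lit 5) (nat_lit 14) (nat_lit 4) (nat_lit 12) (nat_lit 4) (nat_lit 466) (nat_lit 416) (nat_lit 198)))) (XT.nd (nat_lit 188) (nat_lit 252) (nat_lit 0) (XT.nd (nat_lit 94) (nat_lit 84) (nat_lit 0) (XT.lf (nat_lit 0) (nat_lit 279696020844) (nat_lit 168) (nat_lit 775150109761) (nat_lit 84) (nat_lit 2248143638094) (nat_lit 10) (nat_lit 5) (nat_lit 12) (nat_lit 5) (nat_lit 11) (nat_lit 4) (nat_lit 467) (nat_lit 416) (nat_lit 197)) (XT.lf (nat_lit 0) (nat_lit 2042203265324) (nat_lit 168) (nat_lit 674989983509) (nat_lit 0) (nat_lit 757891877442) (nat_lit 9) (nat_lit 5) (nat_lit 11) (nat_lit 4) (nat_lit 9) (nat_lit 4) (nat_lit 468) (nat_lit 416)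 (nat_lit 196))) (XT.nd (nat_lit 94) (nat_lit 84) (nat_lit 0) (XT.lf (nat_lit 0) (nat_lit 357032650470) (nat_lit 168) (nat_lit 552394458636) (nat_lit 84) (nat_lit 2747229512586) (nat_lit 7) (nat_lit 5) (nat_lit 9) (nat_lit 5) (nat_lit 8) (nat_lit 4) (nat_lit 469) (nat_lit 416) (nat_lit 195)) (XT.lf (nat_lit 0) (nat_lit 2324082950388) (nat_lit 168) (nat_lit 422359961710) (nat_lit 0) (nat_lit 1100929239907) (nat_lit 6) (nat_lit 5) (nat_lit 8) (nat_lit 4) (nat_lit 6) (nat_lit 4) (nat_lit 470) (nat_lit 416) (nat_lit 194)))))) (XT.nd (nat_lit 658) (nat_lit 0) (nat_lit 0) (XT.nd (nat_lit 282) (nat_lit 0) (nat_lit 0) (XT.nd (nat_lit 94) (nat_lit 336) (nat_lit 0) (XT.lf (nat_lit 0) (nat_lit 468227821851) (nat_lit 168) (nat_lit 263286679130) (nat_lit 84) (nat_lit 3317235811220) (nat_lit 4) (nat_lit 5) (nat_lit 6) (nat_lit 5) (nat_lit 5) (nat_lit 4) (nat_lit 471) (nat_lit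 416) (nat_lit 193)) (XT.nd (nat_lit 94) (nat_lit 252) (nat_lit 0) (XT.lf (nat_lit 0) (nat_lit 2663434782045) (nat_lit 168) (nat_lit 98142005018) (nat_lit 0) (nat_lit 1498526480031) (nat_lit 3) (nat_lit 5) (nat_lit 5) (nat_lit 4) (nat_lit 3) (nat_lit 4) (nat_lit 472) (nat_lit 416) (nat_lit 192)) (XT.lf (nat_lit 0) (nat_lit 6503600402826) (nat_lit 0) (nat_lit 0) (nat_lit 0) (nat_lit 0) (nat_lit 0) (nat_lit 0) (nat_lit 1) (nat_lit 0) (nat_lit 1) (nat_lit 0) (nat_lit 473) (nat_lit 416) (nat_lit 191)))) (XT.nd (nat_lit 188) (nat_lit 0) (nat_lit 0) (XT.nd (nat_lit 94) (nat_lit 0) (nat_lit 0) (XT.lf (nat_lit 0) (nat_lit 7017495207102) (nat_lit 0) (nat_lit 0) (nat_lit 0) (nat_lit 0) (nat_lit 0) (nat_lit 0) (nat_lit 1) (nat_lit 0) (nat_lit 1) (nat_lit 0) (nat_lit 474) (nat_lit 416) (nat_lit 190)) (XT.lf (nat_lit 0) (nat_lit 7572501595748) (nat_lit 0) (nat_lit 0) (nat_lit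 0) (nat_lit 0) (nat_lit 0) (nat_lit 0) (nat_lit 1) (nat_lit 0) (nat_lit 1) (nat_lit 0) (nat_lit 475) (nat_lit 416) (nat_lit 189))) (XT.nd (nat_lit 94) (nat_lit 0) (nat_lit 0) (XT.lf (nat_lit 0) (nat_lit 8171908495512) (nat_lit 0) (nat_lit 0) (nat_lit 0) (nat_lit 0) (nat_lit 0) (nat_lit 0) (nat_lit 1) (nat_lit 0) (nat_lit 1) (nat_lit 0) (nat_lit 476) (nat_lit 416) (nat_lit 188)) (XT.lf (nat_lit 0) (nat_lit 8819267947280) (nat_lit 0) (nat_lit 0) (nat_lit 0) (nat_lit 0) (nat_lit 0) (nat_lit 0) (nat_lit 1) (nat_lit 0) (nat_lit 1) (nat_lit 0) (nat_lit 477) (nat_lit 416) (nat_lit 187))))) (XT.nd (nat_lit 282) (nat_lit 0) (nat_lit 0) (XT.nd (nat_lit 94) (nat_lit 0) (nat_lit 0) (XT.lf (nat_lit 0) (nat_lit 9518416155211) (nat_lit 0) (nat_lit 0) (nat_lit 0) (nat_lit 0) (nat_lit 0) (nat_lit 0) (nat_lit 1) (nat_lit 0) (nat_lit 1) (nat_lit 0) (nat_lit 478) (nat_lit 416)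 (nat_lit 186)) (XT.nd (nat_lit 94) (nat_lit 0) (nat_lit 0) (XT.lf (nat_lit 0) (nat_lit 10273496219797) (nat_lit 0) (nat_lit 0) (nat_lit 0) (nat_lit 0) (nat_lit 0) (nat_lit 0) (nat_lit 1) (nat_lit 0) (nat_lit 1) (nat_lit 0) (nat_lit 479) (nat_lit 416) (nat_lit 185)) (XT.lf (nat_lit 0) (nat_lit 11088982689569) (nat_lit 0) (nat_lit 0) (nat_lit 0) (nat_lit 0) (nat_lit 0) (nat_lit 0) (nat_lit 1) (nat_lit 0) (nat_lit 1) (nat_lit 0) (nat_lit 480) (nat_lit 416) (nat_lit 184)))) (XT.nd (nat_lit 188) (nat_lit 0) (nat_lit 0) (XT.nd (nat_lit 94) (nat_lit 0) (nat_lit 0) (XT.lf (nat_lit 0) (nat_lit 11969708076939) (nat_lit 0) (nat_lit 0) (nat_lit 0) (nat_lit 0) (nat_lit 0) (nat_lit 0) (nat_lit 1) (nat_lit 0) (nat_lit 1) (nat_lit 0) (nat_lit 481) (nat_lit 416) (nat_lit 183)) (XT.lf (nat_lit 0) (nat_lit 12920891495316) (nat_lit 0) (nat_lit 0) (nat_lit 0) (nat_lit 0) (nat_lit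 0) (nat_lit 0) (nat_lit 1) (nat_lit 0) (nat_lit 1) (nat_lit 0) (nat_lit 482) (nat_lit 416) (nat_lit 182))) (XT.nd (nat_lit 94) (nat_lit 0) (nat_lit 0) (XT.lf (nat_lit 0) (nat_lit 13948169587177) (nat_lit 0) (nat_lit 0) (nat_lit 0) (nat_lit 0) (nat_lit 0) (nat_lit 0) (nat_lit 1) (nat_lit 0) (nat_lit 1) (nat_lit 0) (nat_lit 483) (nat_lit 416) (nat_lit 181)) (XT.lf (nat_lit 0) (nat_lit 15057629926401) (nat_lit 0) (nat_lit 0) (nat_lit 0) (nat_lit 0) (nat_lit 0) (nat_lit 0) (nat_lit 1) (nat_lit 0) (nat_lit 1) (nat_lit 0) (nat_lit 484) (nat_lit 416) (nat_lit 180))))))) (XT.nd (nat_lit 1316) (nat_lit 0) (nat_lit 0) (XT.nd (nat_lit 658) (nat_lit 0) (nat_lit 0) (XT.nd (nat_lit 282) (nat_lit 0) (nat_lit 0) (XT.nd (nat_lit 94) (nat_lit 0) (nat_lit 0) (XT.lf (nat_lit 0) (nat_lit 16255847092776) (nat_lit 0) (nat_lit 0) (nat_lit 0) (nat_lit 0) (nat_lit 0) (nat_lit 0) (nat_lit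 1) (nat_lit 0) (nat_lit 1) (nat_lit 0) (nat_lit 485) (nat_lit 416) (nat_lit 179)) (XT.nd (nat_lit 94) (nat_lit 0) (nat_lit 0) (XT.lf (nat_lit 0) (nat_lit 17549921632472) (nat_lit 0) (nat_lit 0) (nat_lit 0) (nat_lit 0) (nat_lit 0) (nat_lit 0) (nat_lit 1) (nat_lit 0) (nat_lit 1) (nat_lit 0) (nat_lit 486) (nat_lit 416) (nat_lit 178)) (XT.lf (nat_lit 0) (nat_lit 18947522135356) (nat_lit 0) (nat_lit 0) (nat_lit 0) (nat_lit 0) (nat_lit 0) (nat_lit 0) (nat_lit 1) (nat_lit 0) (nat_lit 1) (nat_lit 0) (nat_lit 487) (nat_lit 416) (nat_lit 177)))) (XT.nd (nat_lit 188) (nat_lit 0) (nat_lit 0) (XT.nd (nat_lit 94) (nat_lit 0) (nat_lit 0) (XT.lf (nat_lit 0) (nat_lit 20456930678480) (nat_lit 0) (nat_lit 0) (nat_lit 0) (nat_lit 0) (nat_lit 0) (nat_lit 0) (nat_lit 1) (nat_lit 0) (nat_lit 1) (nat_lit 0) (nat_lit 488) (nat_lit 416) (nat_lit 176)) (XT.lf (nat_lit 0) (nat_lit 22087091905063)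 (nat_lit 0) (nat_lit 0) (nat_lit 0) (nat_lit 0) (nat_lit 0) (nat_lit 0) (nat_lit 1) (nat_lit 0) (nat_lit 1) (nat_lit 0) (nat_lit 489) (nat_lit 416) (nat_lit 175))) (XT.nd (nat_lit 94) (nat_lit 0) (nat_lit 0) (XT.lf (nat_lit 0) (nat_lit 23847666029781) (nat_lit 0) (nat_lit 0) (nat_lit 0) (nat_lit 0) (nat_lit 0) (nat_lit 0) (nat_lit 1) (nat_lit 0) (nat_lit 1) (nat_lit 0) (nat_lit 490) (nat_lit 416) (nat_lit 174)) (XT.lf (nat_lit 0) (nat_lit 25749086084485) (nat_lit 0) (nat_lit 0) (nat_lit 0) (nat_lit 0) (nat_lit 0) (nat_lit 0) (nat_lit 1) (nat_lit 0) (nat_lit 1) (nat_lit 0) (nat_lit 491) (nat_lit 416) (nat_lit 173))))) (XT.nd (nat_lit 282) (nat_lit 0) (nat_lit 0) (XT.nd (nat_lit 94) (nat_lit 0) (nat_lit 0) (XT.lf (nat_lit 0) (nat_lit 27802619743573) (nat_lit 0) (nat_lit 0) (nat_lit 0) (nat_lit 0) (nat_lit 0) (nat_lit 0) (nat_lit 1) (nat_lit 0) (nat_lit 1) (nat_lit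 0) (nat_lit 492) (nat_lit 416) (nat_lit 172)) (XT.nd (nat_lit 94) (nat_lit 0) (nat_lit 0) (XT.lf (nat_lit 0) (nat_lit 30020436095395) (nat_lit 0) (nat_lit 0) (nat_lit 0) (nat_lit 0) (nat_lit 0) (nat_lit 0) (nat_lit 1) (nat_lit 0) (nat_lit 1) (nat_lit 0) (nat_lit 493) (nat_lit 416) (nat_lit 171)) (XT.lf (nat_lit 0) (nat_lit 32415677755369) (nat_lit 0) (nat_lit 0) (nat_lit 0) (nat_lit 0) (nat_lit 0) (nat_lit 0) (nat_lit 1) (nat_lit 0) (nat_lit 1) (nat_lit 0) (nat_lit 494) (nat_lit 416) (nat_lit 170)))) (XT.nd (nat_lit 188) (nat_lit 0) (nat_lit 0) (XT.nd (nat_lit 94) (nat_lit 0) (nat_lit 0) (XT.lf (nat_lit 0) (nat_lit 35002538748147) (nat_lit 0) (nat_lit 0) (nat_lit 0) (nat_lit 0) (nat_lit 0) (nat_lit 0) (nat_lit 1) (nat_lit 0) (nat_lit 1) (nat_lit 0) (nat_lit 495) (nat_lit 416) (nat_lit 169)) (XT.lf (nat_lit 0) (nat_lit 37796348620352) (nat_lit 0) (nat_lit 0)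 (nat_lit 0) (nat_lit 0) (nat_lit 0) (nat_lit 0) (nat_lit 1) (nat_lit 0) (nat_lit 1) (nat_lit 0) (nat_lit 496) (nat_lit 416) (nat_lit 168))) (XT.nd (nat_lit 94) (nat_lit 0) (nat_lit 0) (XT.lf (nat_lit 0) (nat_lit 40813663282339) (nat_lit 0) (nat_lit 0) (nat_lit 0) (nat_lit 0) (nat_lit 0) (nat_lit 0) (nat_lit 1) (nat_lit 0) (nat_lit 1) (nat_lit 0) (nat_lit 497) (nat_lit 416) (nat_lit 167)) (XT.lf (nat_lit 0) (nat_lit 44072363117289) (nat_lit 0) (nat_lit 0) (nat_lit 0) (nat_lit 0) (nat_lit 0) (nat_lit 0) (nat_lit 1) (nat_lit 0) (nat_lit 1) (nat_lit 0) (nat_lit 498) (nat_lit 416) (nat_lit 166)))))) (XT.nd (nat_lit 60348) (nat_lit 0) (nat_lit 8904) (XT.nd (nat_lit 282) (nat_lit 0) (nat_lit 0) (XT.nd (nat_lit 94) (nat_lit 0) (nat_lit 0) (XT.lf (nat_lit 0) (nat_lit 47591758939040) (nat_lit 0) (nat_lit 0) (nat_lit 0) (nat_lit 0) (nat_lit 0) (nat_lit 0) (nat_lit 1)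 (nat_lit 0) (nat_lit 1) (nat_lit 0) (nat_lit 499) (nat_lit 416) (nat_lit 165)) (XT.nd (nat_lit 94) (nat_lit 0) (nat_lit 0) (XT.lf (nat_lit 0) (nat_lit 51392706426535) (nat_lit 0) (nat_lit 0) (nat_lit 0) (nat_lit 0) (nat_lit 0) (nat_lit 0) (nat_lit 1) (nat_lit 0) (nat_lit 1) (nat_lit 0) (nat_lit 500) (nat_lit 416) (nat_lit 164)) (XT.lf (nat_lit 0) (nat_lit 55497729713033) (nat_lit 0) (nat_lit 0) (nat_lit 0) (nat_lit 0) (nat_lit 0) (nat_lit 0) (nat_lit 1) (nat_lit 0) (nat_lit 1) (nat_lit 0) (nat_lit 501) (nat_lit 416) (nat_lit 163)))) (XT.nd (nat_lit 59878) (nat_lit 0) (nat_lit 10836) (XT.nd (nat_lit 59784) (nat_lit 0) (nat_lit 10752) (XT.lf (nat_lit 0) (nat_lit 59931154862455) (nat_lit 0) (nat_lit 0) (nat_lit 0) (nat_lit 0) (nat_lit 0) (nat_lit 0) (nat_lit 1) (nat_lit 0) (nat_lit 1) (nat_lit 0) (nat_lit 502) (nat_lit 416) (nat_lit 162)) (XT.lf (nat_lit 0) (nat_lit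 76683199729) (nat_lit 924) (nat_lit 43194233021) (nat_lit 924) (nat_lit 43194233021) (nat_lit 128) (nat_lit 3) (nat_lit 139) (nat_lit 3) (nat_lit 139) (nat_lit 5) (nat_lit 417) (nat_lit 417) (nat_lit 246))) (XT.nd (nat_lit 94) (nat_lit 0) (nat_lit 0) (XT.lf (nat_lit 0) (nat_lit 162597662046) (nat_lit 840) (nat_lit 159032172468) (nat_lit 924) (nat_lit 17404399961) (nat_lit 129) (nat_lit 5) (nat_lit 139) (nat_lit 5) (nat_lit 140) (nat_lit 5) (nat_lit 418) (nat_lit 417) (nat_lit 245)) (XT.lf (nat_lit 84) (nat_lit 117604206020) (nat_lit 0) (nat_lit 62371461211) (nat_lit 924) (nat_lit 172610330330) (nat_lit 130) (nat_lit 5) (nat_lit 129) (nat_lit 5) (nat_lit 140) (nat_lit 5) (nat_lit 419) (nat_lit 417) (nat_lit 244))))) (XT.nd (nat_lit 376) (nat_lit 2016) (nat_lit 0) (XT.nd (nat_lit 188) (nat_lit 0) (nat_lit 168) (XT.nd (nat_lit 94) (nat_lit 0) (nat_lit 84) (XT.lf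 (nat_lit 84) (nat_lit 53227453639) (nat_lit 0) (nat_lit 152560828342) (nat_lit 924) (nat_lit 161081401255) (nat_lit 131) (nat_lit 5) (nat_lit 130) (nat_lit 5) (nat_lit 141) (nat_lit 5) (nat_lit 420) (nat_lit 417) (nat_lit 243)) (XT.lf (nat_lit 0) (nat_lit 240870357140) (nat_lit 840) (nat_lit 12318203963) (nat_lit 924) (nat_lit 128747280102) (nat_lit 131) (nat_lit 5) (nat_lit 141) (nat_lit 5) (nat_lit 142) (nat_lit 5) (nat_lit 421) (nat_lit 417) (nat_lit 242))) (XT.nd (nat_lit 94) (nat_lit 0) (nat_lit 0) (XT.lf (nat_lit 0) (nat_lit 286878199725) (nat_lit 840) (nat_lit 77559302460) (nat_lit 924) (nat_lit 33363829556) (nat_lit 132) (nat_lit 5) (nat_lit 142) (nat_lit 5) (nat_lit 143) (nat_lit 5) (nat_lit 422) (nat_lit 417) (nat_lit 241)) (XT.lf (nat_lit 84) (nat_lit 269267057267) (nat_lit 0) (nat_lit 75990868923) (nat_lit 924) (nat_lit 69243572505) (nat_lit 133)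 (nat_lit 5) (nat_lit 132) (nat_lit 5) (nat_lit 143) (nat_lit 5) (nat_lit 423) (nat_lit 417) (nat_lit 240)))) (XT.nd (nat_lit 188) (nat_lit 840) (nat_lit 0) (XT.nd (nat_lit 94) (nat_lit 588) (nat_lit 0) (XT.lf (nat_lit 0) (nat_lit 217397582195) (nat_lit 840) (nat_lit 199355055141) (nat_lit 924) (nat_lit 15362811341) (nat_lit 123) (nat_lit 5) (nat_lit 133) (nat_lit 5) (nat_lit 134) (nat_lit 5) (nat_lit 424) (nat_lit 417) (nat_lit 239)) (XT.lf (nat_lit 0) (nat_lit 49762997497) (nat_lit 588) (nat_lit 286081149823) (nat_lit 84) (nat_lit 114845665593) (nat_lit 116) (nat_lit 5) (nat_lit 123) (nat_lit 5) (nat_lit 117) (nat_lit 5) (nat_lit 425) (nat_lit 417) (nat_lit 238))) (XT.nd (nat_lit 94) (nat_lit 420) (nat_lit 0) (XT.lf (nat_lit 0) (nat_lit 111264970351) (nat_lit 420) (nat_lit 17203009106) (nat_lit 504) (nat_lit 341824187037) (nat_lit 111) (nat_lit 5) (nat_lit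 116) (nat_lit 5) (nat_lit 117) (nat_lit 5) (nat_lit 426) (nat_lit 417) (nat_lit 237)) (XT.lf (nat_lit 0) (nat_lit 56007661391) (nat_lit 420) (nat_lit 168505406621) (nat_lit 504) (nat_lit 266397454948) (nat_lit 106) (nat_lit 5) (nat_lit 111) (nat_lit 5) (nat_lit 112) (nat_lit 5) (nat_lit 427) (nat_lit 417) (nat_lit 236))))))))
noncomputable def xc203 : XT := (XT.nd (nat_lit 2632) (nat_lit 2604) (nat_lit 0) (XT.nd (nat_lit 1316) (nat_lit 2436) (nat_lit 0) (XT.nd (nat_lit 658) (nat_lit 1764) (nat_lit 0) (XT.nd (nat_lit 282) (nat_lit 1344) (nat_lit 0) (XT.nd (nat_lit 94) (nat_lit 420) (nat_lit 0) (XT.lf (nat_lit 0) (nat_lit 1109151566) (nat_lit 336) (nat_lit 336530592723) (nat_lit 420) (nat_lit 175068704623) (nat_lit 102) (nat_lit 5) (nat_lit 106) (nat_lit 5) (nat_lit 107) (nat_lit 5) (nat_lit 428) (nat_lit 417) (nat_lit 235)) (XT.nd (nat_lit 94) (nat_lit 420)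 (nat_lit 0) (XT.lf (nat_lit 0) (nat_lit 470412683490) (nat_lit 420) (nat_lit 51359567065) (nat_lit 84) (nat_lit 13948151944) (nat_lit 102) (nat_lit 5) (nat_lit 107) (nat_lit 5) (nat_lit 103) (nat_lit 5) (nat_lit 429) (nat_lit 417) (nat_lit 234)) (XT.lf (nat_lit 0) (nat_lit 64511339366) (nat_lit 420) (nat_lit 106401263412) (nat_lit 84) (nat_lit 388970101933) (nat_lit 97) (nat_lit 5) (nat_lit 102) (nat_lit 5) (nat_lit 98) (nat_lit 5) (nat_lit 430) (nat_lit 417) (nat_lit 233)))) (XT.nd (nat_lit 188) (nat_lit 672) (nat_lit 0) (XT.nd (nat_lit 94) (nat_lit 336) (nat_lit 0) (XT.lf (nat_lit 0) (nat_lit 213426988313) (nat_lit 420) (nat_lit 161767429625) (nat_lit 84) (nat_lit 210180085733) (nat_lit 93) (nat_lit 5) (nat_lit 98) (nat_lit 5) (nat_lit 94) (nat_lit 5) (nat_lit 431) (nat_lit 417) (nat_lit 232)) (XT.lf (nat_lit 0) (nat_lit 385397271380) (nat_lit 420) (nat_lit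 215748224269) (nat_lit 84) (nat_lit 11203081789) (nat_lit 89) (nat_lit 5) (nat_lit 94) (nat_lit 5) (nat_lit 90) (nat_lit 5) (nat_lit 432) (nat_lit 417) (nat_lit 231))) (XT.nd (nat_lit 94) (nat_lit 420) (nat_lit 0) (XT.lf (nat_lit 0) (nat_lit 369529064986) (nat_lit 252) (nat_lit 216555998699) (nat_lit 336) (nat_lit 54647519091) (nat_lit 86) (nat_lit 5) (nat_lit 89) (nat_lit 5) (nat_lit 90) (nat_lit 5) (nat_lit 433) (nat_lit 417) (nat_lit 230)) (XT.lf (nat_lit 0) (nat_lit 139762033042) (nat_lit 420) (nat_lit 326981726137) (nat_lit 84) (nat_lit 203914522511) (nat_lit 81) (nat_lit 5) (nat_lit 86) (nat_lit 5) (nat_lit 82) (nat_lit 5) (nat_lit 434) (nat_lit 417) (nat_lit 229))))) (XT.nd (nat_lit 282) (nat_lit 924) (nat_lit 0) (XT.nd (nat_lit 94) (nat_lit 588) (nat_lit 0) (XT.lf (nat_lit 0) (nat_lit 320290613836) (nat_lit 252) (nat_lit 40998511900) (nat_lit 336)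 (nat_lit 340970149771) (nat_lit 78) (nat_lit 5) (nat_lit 81) (nat_lit 5) (nat_lit 82) (nat_lit 5) (nat_lit 435) (nat_lit 417) (nat_lit 228)) (XT.nd (nat_lit 94) (nat_lit 336) (nat_lit 0) (XT.lf (nat_lit 0) (nat_lit 297817447274) (nat_lit 252) (nat_lit 319698594205) (nat_lit 336) (nat_lit 118023424568) (nat_lit 75) (nat_lit 5) (nat_lit 78) (nat_lit 5) (nat_lit 79) (nat_lit 5) (nat_lit 436) (nat_lit 417) (nat_lit 227)) (XT.lf (nat_lit 0) (nat_lit 133010352592) (nat_lit 336) (nat_lit 492391926876) (nat_lit 84) (nat_lit 145274943240) (nat_lit 71) (nat_lit 5) (nat_lit 75) (nat_lit 5) (nat_lit 72) (nat_lit 5) (nat_lit 437) (nat_lit 417) (nat_lit 226)))) (XT.nd (nat_lit 188) (nat_lit 504) (nat_lit 0) (XT.nd (nat_lit 94) (nat_lit 168) (nat_lit 0) (XT.lf (nat_lit 0) (nat_lit 259767699225) (nat_lit 252) (nat_lit 157475651521) (nat_lit 336) (nat_lit 390423334408) (nat_lit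 68) (nat_lit 5) (nat_lit 71) (nat_lit 5) (nat_lit 72) (nat_lit 5) (nat_lit 438) (nat_lit 417) (nat_lit 225)) (XT.lf (nat_lit 0) (nat_lit 244758486814) (nat_lit 168) (nat_lit 497427057290) (nat_lit 252) (nat_lit 104531232725) (nat_lit 66) (nat_lit 5) (nat_lit 68) (nat_lit 5) (nat_lit 69) (nat_lit 5) (nat_lit 439) (nat_lit 417) (nat_lit 224))) (XT.nd (nat_lit 94) (nat_lit 168) (nat_lit 0) (XT.lf (nat_lit 0) (nat_lit 214004606129) (nat_lit 336) (nat_lit 654788231763) (nat_lit 84) (nat_lit 19123152263) (nat_lit 62) (nat_lit 5) (nat_lit 66) (nat_lit 5) (nat_lit 63) (nat_lit 5) (nat_lit 440) (nat_lit 417) (nat_lit 223)) (XT.lf (nat_lit 0) (nat_lit 221393487452) (nat_lit 168) (nat_lit 355518215599) (nat_lit 252) (nat_lit 354286223350) (nat_lit 60) (nat_lit 5) (nat_lit 62) (nat_lit 5) (nat_lit 63) (nat_lit 5) (nat_lit 441) (nat_lit 417) (nat_lit 222)))))) (XT.nd (nat_lit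 658) (nat_lit 1092) (nat_lit 0) (XT.nd (nat_lit 282) (nat_lit 756) (nat_lit 0) (XT.nd (nat_lit 94) (nat_lit 336) (nat_lit 0) (XT.lf (nat_lit 0) (nat_lit 9586908759) (nat_lit 252) (nat_lit 759847359237) (nat_lit 84) (nat_lit 207595896977) (nat_lit 57) (nat_lit 5) (nat_lit 60) (nat_lit 5) (nat_lit 58) (nat_lit 5) (nat_lit 442) (nat_lit 417) (nat_lit 221)) (XT.nd (nat_lit 94) (nat_lit 168) (nat_lit 0) (XT.lf (nat_lit 0) (nat_lit 212391674196) (nat_lit 168) (nat_lit 199809414667) (nat_lit 252) (nat_lit 612935312181) (nat_lit 55) (nat_lit 5) (nat_lit 57) (nat_lit 5) (nat_lit 58) (nat_lit 5) (nat_lit 443) (nat_lit 417) (nat_lit 220)) (XT.lf (nat_lit 0) (nat_lit 213236957093) (nat_lit 168) (nat_lit 657055013307) (nat_lit 252) (nat_lit 205635787247) (nat_lit 53) (nat_lit 5) (nat_lit 55) (nat_lit 5) (nat_lit 56) (nat_lit 5) (nat_lit 444) (nat_lit 417) (nat_lit 219))))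 (XT.nd (nat_lit 188) (nat_lit 336) (nat_lit 0) (XT.nd (nat_lit 94) (nat_lit 168) (nat_lit 0) (XT.lf (nat_lit 0) (nat_lit 220029242505) (nat_lit 168) (nat_lit 27915047002) (nat_lit 252) (nat_lit 881595571164) (nat_lit 50) (nat_lit 5) (nat_lit 52) (nat_lit 5) (nat_lit 53) (nat_lit 5) (nat_lit 445) (nat_lit 417) (nat_lit 218)) (XT.lf (nat_lit 0) (nat_lit 226858217028) (nat_lit 168) (nat_lit 532832751469) (nat_lit 252) (nat_lit 426127175896) (nat_lit 48) (nat_lit 5) (nat_lit 50) (nat_lit 5) (nat_lit 51) (nat_lit 5) (nat_lit 446) (nat_lit 417) (nat_lit 217))) (XT.nd (nat_lit 94) (nat_lit 168) (nat_lit 0) (XT.lf (nat_lit 0) (nat_lit 86645092490) (nat_lit 168) (nat_lit 1001113463242) (nat_lit 84) (nat_lit 157640199075) (nat_lit 46) (nat_lit 5) (nat_lit 48) (nat_lit 5) (nat_lit 47) (nat_lit 5) (nat_lit 447) (nat_lit 417) (nat_lit 216)) (XT.lf (nat_lit 0) (nat_lit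 261034729408) (nat_lit 168) (nat_lit 394712885768) (nat_lit 252) (nat_lit 652137019642) (nat_lit 44) (nat_lit 5) (nat_lit 46) (nat_lit 5) (nat_lit 47) (nat_lit 5) (nat_lit 448) (nat_lit 417) (nat_lit 215))))) (XT.nd (nat_lit 282) (nat_lit 672) (nat_lit 0) (XT.nd (nat_lit 94) (nat_lit 336) (nat_lit 0) (XT.lf (nat_lit 0) (nat_lit 288842160555) (nat_lit 84) (nat_lit 1009293867010) (nat_lit 168) (nat_lit 75845473270) (nat_lit 43) (nat_lit 5) (nat_lit 44) (nat_lit 5) (nat_lit 45) (nat_lit 4) (nat_lit 449) (nat_lit 417) (nat_lit 214)) (XT.nd (nat_lit 94) (nat_lit 84) (nat_lit 0) (XT.lf (nat_lit 0) (nat_lit 319041514389) (nat_lit 168) (nat_lit 240185972142) (nat_lit 252) (nat_lit 884203417027) (nat_lit 40) (nat_lit 5) (nat_lit 42) (nat_lit 5) (nat_lit 43) (nat_lit 5) (nat_lit 450) (nat_lit 417) (nat_lit 213)) (XT.lf (nat_lit 0) (nat_lit 357448879206) (nat_lit 84)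 (nat_lit 919047322717) (nat_lit 168) (nat_lit 240175529421) (nat_lit 39) (nat_lit 5) (nat_lit 40) (nat_lit 5) (nat_lit 41) (nat_lit 4) (nat_lit 451) (nat_lit 417) (nat_lit 212)))) (XT.nd (nat_lit 188) (nat_lit 336) (nat_lit 0) (XT.nd (nat_lit 94) (nat_lit 84) (nat_lit 0) (XT.lf (nat_lit 0) (nat_lit 404664290028) (nat_lit 168) (nat_lit 66410589105) (nat_lit 252) (nat_lit 1122827706509) (nat_lit 36) (nat_lit 5) (nat_lit 38) (nat_lit 5) (nat_lit 39) (nat_lit 5) (nat_lit 452) (nat_lit 417) (nat_lit 211)) (XT.lf (nat_lit 0) (nat_lit 455617189027) (nat_lit 84) (nat_lit 816283590786) (nat_lit 168) (nat_lit 403159761280) (nat_lit 35) (nat_lit 5) (nat_lit 36) (nat_lit 5) (nat_lit 37) (nat_lit 4) (nat_lit 453) (nat_lit 417) (nat_lit 210))) (XT.nd (nat_lit 94) (nat_lit 84) (nat_lit 0) (XT.lf (nat_lit 0) (nat_lit 394464935561) (nat_lit 252) (nat_lit 1240660623825) (nat_lit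 84) (nat_lit 125675737274) (nat_lit 32) (nat_lit 5) (nat_lit 35) (nat_lit 5) (nat_lit 33) (nat_lit 4) (nat_lit 454) (nat_lit 417) (nat_lit 209)) (XT.lf (nat_lit 0) (nat_lit 588007748335) (nat_lit 84) (nat_lit 698490547766) (nat_lit 168) (nat_lit 564336385642) (nat_lit 31) (nat_lit 5) (nat_lit 32) (nat_lit 5) (nat_lit 33) (nat_lit 4) (nat_lit 455) (nat_lit 417) (nat_lit 208))))))) (XT.nd (nat_lit 1316) (nat_lit 756) (nat_lit 0) (XT.nd (nat_lit 658) (nat_lit 840) (nat_lit 0) (XT.nd (nat_lit 282) (nat_lit 504) (nat_lit 0) (XT.nd (nat_lit 94) (nat_lit 252) (nat_lit 0) (XT.lf (nat_lit 0) (nat_lit 330195706227) (nat_lit 252) (nat_lit 1274826206394) (nat_lit 84) (nat_lit 340911591505) (nat_lit 28) (nat_lit 5) (nat_lit 31) (nat_lit 5) (nat_lit 29) (nat_lit 4) (nat_lit 456) (nat_lit 417) (nat_lit 207)) (XT.nd (nat_lit 94) (nat_lit 168) (nat_lit 0) (XT.lf (nat_lit 0)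 (nat_lit 759980979626) (nat_lit 84) (nat_lit 562803604580) (nat_lit 168) (nat_lit 723079786448) (nat_lit 27) (nat_lit 5) (nat_lit 28) (nat_lit 5) (nat_lit 29) (nat_lit 4) (nat_lit 457) (nat_lit 417) (nat_lit 206)) (XT.lf (nat_lit 0) (nat_lit 278940398837) (nat_lit 168) (nat_lit 1286960211728) (nat_lit 84) (nat_lit 585417831519) (nat_lit 25) (nat_lit 5) (nat_lit 27) (nat_lit 5) (nat_lit 26) (nat_lit 4) (nat_lit 458) (nat_lit 417) (nat_lit 205)))) (XT.nd (nat_lit 188) (nat_lit 252) (nat_lit 0) (XT.nd (nat_lit 94) (nat_lit 168) (nat_lit 0) (XT.lf (nat_lit 0) (nat_lit 977691444937) (nat_lit 84) (nat_lit 405957084614) (nat_lit 168) (nat_lit 878574645123) (nat_lit 24) (nat_lit 5) (nat_lit 25) (nat_lit 5) (nat_lit 26) (nat_lit 4) (nat_lit 459) (nat_lit 417) (nat_lit 204)) (XT.lf (nat_lit 0) (nat_lit 242719792165) (nat_lit 168) (nat_lit 1272698760449) (nat_lit 84)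 (nat_lit 863718744834) (nat_lit 22) (nat_lit 5) (nat_lit 24) (nat_lit 5) (nat_lit 23) (nat_lit 4) (nat_lit 460) (nat_lit 417) (nat_lit 203))) (XT.nd (nat_lit 94) (nat_lit 168) (nat_lit 0) (XT.lf (nat_lit 0) (nat_lit 1248194499162) (nat_lit 84) (nat_lit 224229326582) (nat_lit 168) (nat_lit 1029786230288) (nat_lit 21) (nat_lit 5) (nat_lit 22) (nat_lit 5) (nat_lit 23) (nat_lit 4) (nat_lit 461) (nat_lit 417) (nat_lit 202)) (XT.lf (nat_lit 0) (nat_lit 223908704513) (nat_lit 168) (nat_lit 1226962729229) (nat_lit 84) (nat_lit 1180936792369) (nat_lit 19) (nat_lit 5) (nat_lit 21) (nat_lit 5) (nat_lit 20) (nat_lit 4) (nat_lit 462) (nat_lit 417) (nat_lit 201))))) (XT.nd (nat_lit 282) (nat_lit 504) (nat_lit 0) (XT.nd (nat_lit 94) (nat_lit 252) (nat_lit 0) (XT.lf (nat_lit 0) (nat_lit 1579566764095) (nat_lit 84) (nat_lit 13380721324) (nat_lit 168) (nat_lit 1175426330077)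 (nat_lit 18) (nat_lit 5) (nat_lit 19) (nat_lit 5) (nat_lit 20) (nat_lit 4) (nat_lit 463) (nat_lit 417) (nat_lit 200)) (XT.nd (nat_lit 94) (nat_lit 84) (nat_lit 0) (XT.lf (nat_lit 0) (nat_lit 225285198917) (nat_lit 168) (nat_lit 1143856378400) (nat_lit 84) (nat_lit 1542870467948) (nat_lit 16) (nat_lit 5) (nat_lit 18) (nat_lit 5) (nat_lit 17) (nat_lit 4) (nat_lit 464) (nat_lit 417) (nat_lit 199)) (XT.lf (nat_lit 0) (nat_lit 1753239005819) (nat_lit 168) (nat_lit 1086111093275) (nat_lit 0) (nat_lit 224009441693) (nat_lit 15) (nat_lit 5) (nat_lit 17) (nat_lit 4) (nat_lit 15) (nat_lit 4) (nat_lit 465) (nat_lit 417) (nat_lit 198)))) (XT.nd (nat_lit 188) (nat_lit 252) (nat_lit 0) (XT.nd (nat_lit 94) (nat_lit 84) (nat_lit 0) (XT.lf (nat_lit 0) (nat_lit 250086424191) (nat_lit 168) (nat_lit 1016552399958) (nat_lit 84) (nat_lit 1956081894466) (nat_lit 13) (nat_lit 5)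 (nat_lit 15) (nat_lit 5) (nat_lit 14) (nat_lit 4) (nat_lit 466) (nat_lit 417) (nat_lit 197)) (XT.lf (nat_lit 0) (nat_lit 1955560578944) (nat_lit 168) (nat_lit 935727338102) (nat_lit 0) (nat_lit 499151460303) (nat_lit 12) (nat_lit 5) (nat_lit 14) (nat_lit 4) (nat_lit 12) (nat_lit 4) (nat_lit 467) (nat_lit 417) (nat_lit 196))) (XT.nd (nat_lit 94) (nat_lit 84) (nat_lit 0) (XT.lf (nat_lit 0) (nat_lit 302071940865) (nat_lit 168) (nat_lit 837161644295) (nat_lit 84) (nat_lit 2427995353117) (nat_lit 10) (nat_lit 5) (nat_lit 12) (nat_lit 5) (nat_lit 11) (nat_lit 4) (nat_lit 468) (nat_lit 417) (nat_lit 195)) (XT.lf (nat_lit 0) (nat_lit 2205579757856) (nat_lit 168) (nat_lit 728988720691) (nat_lit 0) (nat_lit 818523446265) (nat_lit 9) (nat_lit 5) (nat_lit 11) (nat_lit 4) (nat_lit 9) (nat_lit 4) (nat_lit 469) (nat_lit 417) (nat_lit 194)))))) (XT.nd (nat_lit 658) (nat_lit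 0) (nat_lit 0) (XT.nd (nat_lit 282) (nat_lit 336) (nat_lit 0) (XT.nd (nat_lit 94) (nat_lit 252) (nat_lit 0) (XT.lf (nat_lit 0) (nat_lit 385595487196) (nat_lit 168) (nat_lit 596585566455) (nat_lit 84) (nat_lit 2967008086541) (nat_lit 7) (nat_lit 5) (nat_lit 9) (nat_lit 5) (nat_lit 8) (nat_lit 4) (nat_lit 470) (nat_lit 417) (nat_lit 193)) (XT.nd (nat_lit 94) (nat_lit 168) (nat_lit 0) (XT.lf (nat_lit 0) (nat_lit 2510009804519) (nat_lit 168) (nat_lit 456148321895) (nat_lit 0) (nat_lit 1189003786846) (nat_lit 6) (nat_lit 5) (nat_lit 8) (nat_lit 4) (nat_lit 6) (nat_lit 4) (nat_lit 471) (nat_lit 417) (nat_lit 192)) (XT.lf (nat_lit 0) (nat_lit 505686259483) (nat_lit 168) (nat_lit 284349188684) (nat_lit 84) (nat_lit 3582614878416) (nat_lit 4) (nat_lit 5) (nat_lit 6) (nat_lit 5) (nat_lit 5) (nat_lit 4) (nat_lit 472) (nat_lit 417) (nat_lit 191)))) (XT.nd (nat_lit 188)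 (nat_lit 0) (nat_lit 0) (XT.nd (nat_lit 94) (nat_lit 252) (nat_lit 0) (XT.lf (nat_lit 0) (nat_lit 2876509770323) (nat_lit 168) (nat_lit 105992952158) (nat_lit 0) (nat_lit 1618408795695) (nat_lit 3) (nat_lit 5) (nat_lit 5) (nat_lit 4) (nat_lit 3) (nat_lit 4) (nat_lit 473) (nat_lit 417) (nat_lit 190)) (XT.lf (nat_lit 0) (nat_lit 7023888434515) (nat_lit 0) (nat_lit 0) (nat_lit 0) (nat_lit 0) (nat_lit 0) (nat_lit 0) (nat_lit 1) (nat_lit 0) (nat_lit 1) (nat_lit 0) (nat_lit 474) (nat_lit 417) (nat_lit 189))) (XT.nd (nat_lit 94) (nat_lit 0) (nat_lit 0) (XT.lf (nat_lit 0) (nat_lit 7578894823173) (nat_lit 0) (nat_lit 0) (nat_lit 0) (nat_lit 0) (nat_lit 0) (nat_lit 0) (nat_lit 1) (nat_lit 0) (nat_lit 1) (nat_lit 0) (nat_lit 475) (nat_lit 417) (nat_lit 188)) (XT.lf (nat_lit 0) (nat_lit 8178301722948) (nat_lit 0) (nat_lit 0) (nat_lit 0) (nat_lit 0) (nat_lit 0) (nat_lit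 0) (nat_lit 1) (nat_lit 0) (nat_lit 1) (nat_lit 0) (nat_lit 476) (nat_lit 417) (nat_lit 187))))) (XT.nd (nat_lit 376) (nat_lit 0) (nat_lit 0) (XT.nd (nat_lit 188) (nat_lit 0) (nat_lit 0) (XT.nd (nat_lit 94) (nat_lit 0) (nat_lit 0) (XT.lf (nat_lit 0) (nat_lit 8825661174727) (nat_lit 0) (nat_lit 0) (nat_lit 0) (nat_lit 0) (nat_lit 0) (nat_lit 0) (nat_lit 1) (nat_lit 0) (nat_lit 1) (nat_lit 0) (nat_lit 477) (nat_lit 417) (nat_lit 186)) (XT.lf (nat_lit 0) (nat_lit 9524809382667) (nat_lit 0) (nat_lit 0) (nat_lit 0) (nat_lit 0) (nat_lit 0) (nat_lit 0) (nat_lit 1) (nat_lit 0) (nat_lit 1) (nat_lit 0) (nat_lit 478) (nat_lit 417) (nat_lit 185))) (XT.nd (nat_lit 94) (nat_lit 0) (nat_lit 0) (XT.lf (nat_lit 0) (nat_lit 10279889447263) (nat_lit 0) (nat_lit 0) (nat_lit 0) (nat_lit 0) (nat_lit 0) (nat_lit 0) (nat_lit 1) (nat_lit 0) (nat_lit 1) (nat_lit 0) (nat_lit 479) (nat_lit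 417) (nat_lit 184)) (XT.lf (nat_lit 0) (nat_lit 11095375917042) (nat_lit 0) (nat_lit 0) (nat_lit 0) (nat_lit 0) (nat_lit 0) (nat_lit 0) (nat_lit 1) (nat_lit 0) (nat_lit 1) (nat_lit 0) (nat_lit 480) (nat_lit 417) (nat_lit 183)))) (XT.nd (nat_lit 188) (nat_lit 0) (nat_lit 0) (XT.nd (nat_lit 94) (nat_lit 0) (nat_lit 0) (XT.lf (nat_lit 0) (nat_lit 11976101304421) (nat_lit 0) (nat_lit 0) (nat_lit 0) (nat_lit 0) (nat_lit 0) (nat_lit 0) (nat_lit 1) (nat_lit 0) (nat_lit 1) (nat_lit 0) (nat_lit 481) (nat_lit 417) (nat_lit 182)) (XT.lf (nat_lit 0) (nat_lit 12927284722804) (nat_lit 0) (nat_lit 0) (nat_lit 0) (nat_lit 0) (nat_lit 0) (nat_lit 0) (nat_lit 1) (nat_lit 0) (nat_lit 1) (nat_lit 0) (nat_lit 482) (nat_lit 417) (nat_lit 181))) (XT.nd (nat_lit 94) (nat_lit 0) (nat_lit 0) (XT.lf (nat_lit 0) (nat_lit 13954562814672) (nat_lit 0) (nat_lit 0) (nat_lit 0) (nat_lit 0)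 (nat_lit 0) (nat_lit 0) (nat_lit 1) (nat_lit 0) (nat_lit 1) (nat_lit 0) (nat_lit 483) (nat_lit 417) (nat_lit 180)) (XT.lf (nat_lit 0) (nat_lit 15064023153903) (nat_lit 0) (nat_lit 0) (nat_lit 0) (nat_lit 0) (nat_lit 0) (nat_lit 0) (nat_lit 1) (nat_lit 0) (nat_lit 1) (nat_lit 0) (nat_lit 484) (nat_lit 417) (nat_lit 179))))))))
noncomputable def xc204 : XT := (XT.nd (nat_lit 62416) (nat_lit 0) (nat_lit 2604) (XT.nd (nat_lit 1316) (nat_lit 0) (nat_lit 0) (XT.nd (nat_lit 658) (nat_lit 0) (nat_lit 0) (XT.nd (nat_lit 282) (nat_lit 0) (nat_lit 0) (XT.nd (nat_lit 94) (nat_lit 0) (nat_lit 0) (XT.lf (nat_lit 0) (nat_lit 16262240320283) (nat_lit 0) (nat_lit 0) (nat_lit 0) (nat_lit 0) (nat_lit 0) (nat_lit 0) (nat_lit 1) (nat_lit 0) (nat_lit 1) (nat_lit 0) (nat_lit 485) (nat_lit 417) (nat_lit 178)) (XT.nd (nat_lit 94) (nat_lit 0) (nat_lit 0) (XT.lf (nat_lit 0) (nat_lit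 17556314859985) (nat_lit 0) (nat_lit 0) (nat_lit 0) (nat_lit 0) (nat_lit 0) (nat_lit 0) (nat_lit 1) (nat_lit 0) (nat_lit 1) (nat_lit 0) (nat_lit 486) (nat_lit 417) (nat_lit 177)) (XT.lf (nat_lit 0) (nat_lit 18953915362873) (nat_lit 0) (nat_lit 0) (nat_lit 0) (nat_lit 0) (nat_lit 0) (nat_lit 0) (nat_lit 1) (nat_lit 0) (nat_lit 1) (nat_lit 0) (nat_lit 487) (nat_lit 417) (nat_lit 176)))) (XT.nd (nat_lit 188) (nat_lit 0) (nat_lit 0) (XT.nd (nat_lit 94) (nat_lit 0) (nat_lit 0) (XT.lf (nat_lit 0) (nat_lit 20463323906001) (nat_lit 0) (nat_lit 0) (nat_lit 0) (nat_lit 0) (nat_lit 0) (nat_lit 0) (nat_lit 1) (nat_lit 0) (nat_lit 1) (nat_lit 0) (nat_lit 488) (nat_lit 417) (nat_lit 175)) (XT.lf (nat_lit 0) (nat_lit 22093485132589) (nat_lit 0) (nat_lit 0) (nat_lit 0) (nat_lit 0) (nat_lit 0) (nat_lit 0) (nat_lit 1) (nat_lit 0) (nat_lit 1) (nat_lit 0) (nat_lit 489) (nat_lit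 417) (nat_lit 174))) (XT.nd (nat_lit 94) (nat_lit 0) (nat_lit 0) (XT.lf (nat_lit 0) (nat_lit 23854059257311) (nat_lit 0) (nat_lit 0) (nat_lit 0) (nat_lit 0) (nat_lit 0) (nat_lit 0) (nat_lit 1) (nat_lit 0) (nat_lit 1) (nat_lit 0) (nat_lit 490) (nat_lit 417) (nat_lit 173)) (XT.lf (nat_lit 0) (nat_lit 25755479312019) (nat_lit 0) (nat_lit 0) (nat_lit 0) (nat_lit 0) (nat_lit 0) (nat_lit 0) (nat_lit 1) (nat_lit 0) (nat_lit 1) (nat_lit 0) (nat_lit 491) (nat_lit 417) (nat_lit 172))))) (XT.nd (nat_lit 282) (nat_lit 0) (nat_lit 0) (XT.nd (nat_lit 94) (nat_lit 0) (nat_lit 0) (XT.lf (nat_lit 0) (nat_lit 27809012971110) (nat_lit 0) (nat_lit 0) (nat_lit 0) (nat_lit 0) (nat_lit 0) (nat_lit 0) (nat_lit 1) (nat_lit 0) (nat_lit 1) (nat_lit 0) (nat_lit 492) (nat_lit 417) (nat_lit 171)) (XT.nd (nat_lit 94) (nat_lit 0) (nat_lit 0) (XT.lf (nat_lit 0) (nat_lit 30026829322935) (nat_lit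 0) (nat_lit 0) (nat_lit 0) (nat_lit 0) (nat_lit 0) (nat_lit 0) (nat_lit 1) (nat_lit 0) (nat_lit 1) (nat_lit 0) (nat_lit 493) (nat_lit 417) (nat_lit 170)) (XT.lf (nat_lit 0) (nat_lit 32422070982911) (nat_lit 0) (nat_lit 0) (nat_lit 0) (nat_lit 0) (nat_lit 0) (nat_lit 0) (nat_lit 1) (nat_lit 0) (nat_lit 1) (nat_lit 0) (nat_lit 494) (nat_lit 417) (nat_lit 169)))) (XT.nd (nat_lit 188) (nat_lit 0) (nat_lit 0) (XT.nd (nat_lit 94) (nat_lit 0) (nat_lit 0) (XT.lf (nat_lit 0) (nat_lit 35008931975692) (nat_lit 0) (nat_lit 0) (nat_lit 0) (nat_lit 0) (nat_lit 0) (nat_lit 0) (nat_lit 1) (nat_lit 0) (nat_lit 1) (nat_lit 0) (nat_lit 495) (nat_lit 417) (nat_lit 168)) (XT.lf (nat_lit 0) (nat_lit 37802741847900) (nat_lit 0) (nat_lit 0) (nat_lit 0) (nat_lit 0) (nat_lit 0) (nat_lit 0) (nat_lit 1) (nat_lit 0) (nat_lit 1) (nat_lit 0) (nat_lit 496) (nat_lit 417) (nat_lit 167))) (XT.nd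 (nat_lit 94) (nat_lit 0) (nat_lit 0) (XT.lf (nat_lit 0) (nat_lit 40820056509889) (nat_lit 0) (nat_lit 0) (nat_lit 0) (nat_lit 0) (nat_lit 0) (nat_lit 0) (nat_lit 1) (nat_lit 0) (nat_lit 1) (nat_lit 0) (nat_lit 497) (nat_lit 417) (nat_lit 166)) (XT.lf (nat_lit 0) (nat_lit 44078756344841) (nat_lit 0) (nat_lit 0) (nat_lit 0) (nat_lit 0) (nat_lit 0) (nat_lit 0) (nat_lit 1) (nat_lit 0) (nat_lit 1) (nat_lit 0) (nat_lit 498) (nat_lit 417) (nat_lit 165)))))) (XT.nd (nat_lit 60442) (nat_lit 0) (nat_lit 9324) (XT.nd (nat_lit 282) (nat_lit 0) (nat_lit 0) (XT.nd (nat_lit 94) (nat_lit 0) (nat_lit 0) (XT.lf (nat_lit 0) (nat_lit 47598152166594) (nat_lit 0) (nat_lit 0) (nat_lit 0) (nat_lit 0) (nat_lit 0) (nat_lit 0) (nat_lit 1) (nat_lit 0) (nat_lit 1) (nat_lit 0) (nat_lit 499) (nat_lit 417) (nat_lit 164)) (XT.nd (nat_lit 94) (nat_lit 0) (nat_lit 0) (XT.lf (nat_lit 0) (nat_lit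 51399099654091) (nat_lit 0) (nat_lit 0) (nat_lit 0) (nat_lit 0) (nat_lit 0) (nat_lit 0) (nat_lit 1) (nat_lit 0) (nat_lit 1) (nat_lit 0) (nat_lit 500) (nat_lit 417) (nat_lit 163)) (XT.lf (nat_lit 0) (nat_lit 55504122940591) (nat_lit 0) (nat_lit 0) (nat_lit 0) (nat_lit 0) (nat_lit 0) (nat_lit 0) (nat_lit 1) (nat_lit 0) (nat_lit 1) (nat_lit 0) (nat_lit 501) (nat_lit 417) (nat_lit 162)))) (XT.nd (nat_lit 59972) (nat_lit 0) (nat_lit 10836) (XT.nd (nat_lit 59878) (nat_lit 0) (nat_lit 10752) (XT.lf (nat_lit 0) (nat_lit 59937548090014) (nat_lit 0) (nat_lit 0) (nat_lit 0) (nat_lit 0) (nat_lit 0) (nat_lit 0) (nat_lit 1) (nat_lit 0) (nat_lit 1) (nat_lit 0) (nat_lit 502) (nat_lit 417) (nat_lit 161)) (XT.lf (nat_lit 0) (nat_lit 82818784747) (nat_lit 924) (nat_lit 46649283917) (nat_lit 924) (nat_lit 46649283917) (nat_lit 128) (nat_lit 3) (nat_lit 139) (nat_lit 3) (nat_lit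 139) (nat_lit 5) (nat_lit 418) (nat_lit 418) (nat_lit 244))) (XT.nd (nat_lit 94) (nat_lit 0) (nat_lit 0) (XT.lf (nat_lit 0) (nat_lit 175607197501) (nat_lit 840) (nat_lit 171753713897) (nat_lit 924) (nat_lit 18795975710) (nat_lit 129) (nat_lit 5) (nat_lit 139) (nat_lit 5) (nat_lit 140) (nat_lit 5) (nat_lit 419) (nat_lit 418) (nat_lit 243)) (XT.lf (nat_lit 84) (nat_lit 127013530004) (nat_lit 0) (nat_lit 67361800923) (nat_lit 924) (nat_lit 186417465924) (nat_lit 130) (nat_lit 5) (nat_lit 129) (nat_lit 5) (nat_lit 140) (nat_lit 5) (nat_lit 420) (nat_lit 418) (nat_lit 242))))) (XT.nd (nat_lit 282) (nat_lit 1596) (nat_lit 0) (XT.nd (nat_lit 94) (nat_lit 0) (nat_lit 84) (XT.lf (nat_lit 84) (nat_lit 57486680836) (nat_lit 0) (nat_lit 164766161831) (nat_lit 924) (nat_lit 173966340323) (nat_lit 131) (nat_lit 5) (nat_lit 130) (nat_lit 5) (nat_lit 141) (nat_lit 5) (nat_lit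 421) (nat_lit 418) (nat_lit 241)) (XT.nd (nat_lit 94) (nat_lit 0) (nat_lit 84) (XT.lf (nat_lit 0) (nat_lit 260141366111) (nat_lit 840) (nat_lit 13302629626) (nat_lit 924) (nat_lit 139046643745) (nat_lit 131) (nat_lit 5) (nat_lit 141) (nat_lit 5) (nat_lit 142) (nat_lit 5) (nat_lit 422) (nat_lit 418) (nat_lit 240)) (XT.lf (nat_lit 0) (nat_lit 309829744439) (nat_lit 840) (nat_lit 83762991313) (nat_lit 924) (nat_lit 36032638091) (nat_lit 132) (nat_lit 5) (nat_lit 142) (nat_lit 5) (nat_lit 143) (nat_lit 5) (nat_lit 423) (nat_lit 418) (nat_lit 239)))) (XT.nd (nat_lit 188) (nat_lit 1008) (nat_lit 0) (XT.nd (nat_lit 94) (nat_lit 756) (nat_lit 0) (XT.lf (nat_lit 84) (nat_lit 290809431328) (nat_lit 0) (nat_lit 82070337992) (nat_lit 924) (nat_lit 74781788819) (nat_lit 133) (nat_lit 5) (nat_lit 132) (nat_lit 5) (nat_lit 143) (nat_lit 5) (nat_lit 424) (nat_lit 418) (nat_lit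 238)) (XT.lf (nat_lit 0) (nat_lit 234790415185) (nat_lit 840) (nat_lit 215303565756) (nat_lit 924) (nat_lit 16590647000) (nat_lit 123) (nat_lit 5) (nat_lit 133) (nat_lit 5) (nat_lit 134) (nat_lit 5) (nat_lit 425) (nat_lit 418) (nat_lit 237))) (XT.nd (nat_lit 94) (nat_lit 420) (nat_lit 0) (XT.lf (nat_lit 0) (nat_lit 53745118113) (nat_lit 588) (nat_lit 308966568509) (nat_lit 84) (nat_lit 124033257283) (nat_lit 116) (nat_lit 5) (nat_lit 123) (nat_lit 5) (nat_lit 117) (nat_lit 5) (nat_lit 426) (nat_lit 418) (nat_lit 236)) (XT.lf (nat_lit 0) (nat_lit 120167194635) (nat_lit 420) (nat_lit 18579239964) (nat_lit 504) (nat_lit 369169054376) (nat_lit 111) (nat_lit 5) (nat_lit 116) (nat_lit 5) (nat_lit 117) (nat_lit 5) (nat_lit 427) (nat_lit 418) (nat_lit 235))))))) (XT.nd (nat_lit 1316) (nat_lit 2604) (nat_lit 0) (XT.nd (nat_lit 658) (nat_lit 2016) (nat_lit 0) (XT.nd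 (nat_lit 282) (nat_lit 1344) (nat_lit 0) (XT.nd (nat_lit 94) (nat_lit 336) (nat_lit 0) (XT.lf (nat_lit 0) (nat_lit 60489304823) (nat_lit 420) (nat_lit 181985766330) (nat_lit 504) (nat_lit 287708245760) (nat_lit 106) (nat_lit 5) (nat_lit 111) (nat_lit 5) (nat_lit 112) (nat_lit 5) (nat_lit 428) (nat_lit 418) (nat_lit 234)) (XT.nd (nat_lit 94) (nat_lit 0) (nat_lit 0) (XT.lf (nat_lit 0) (nat_lit 1198914144) (nat_lit 336) (nat_lit 363452913588) (nat_lit 420) (nat_lit 189073251898) (nat_lit 102) (nat_lit 5) (nat_lit 106) (nat_lit 5) (nat_lit 107) (nat_lit 5) (nat_lit 429) (nat_lit 418) (nat_lit 233)) (XT.lf (nat_lit 0) (nat_lit 508046536943) (nat_lit 420) (nat_lit 55467338290) (nat_lit 84) (nat_lit 15064117527) (nat_lit 102) (nat_lit 5) (nat_lit 107) (nat_lit 5) (nat_lit 103) (nat_lit 5) (nat_lit 430) (nat_lit 418) (nat_lit 232)))) (XT.nd (nat_lit 188) (nat_lit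 588) (nat_lit 0) (XT.nd (nat_lit 94) (nat_lit 336) (nat_lit 0) (XT.lf (nat_lit 0) (nat_lit 69673050980) (nat_lit 420) (nat_lit 114912386950) (nat_lit 84) (nat_lit 420087842935) (nat_lit 97) (nat_lit 5) (nat_lit 102) (nat_lit 5) (nat_lit 98) (nat_lit 5) (nat_lit 431) (nat_lit 418) (nat_lit 231)) (XT.lf (nat_lit 0) (nat_lit 230501909592) (nat_lit 420) (nat_lit 174707853711) (nat_lit 84) (nat_lit 226994662551) (nat_lit 93) (nat_lit 5) (nat_lit 98) (nat_lit 5) (nat_lit 94) (nat_lit 5) (nat_lit 432) (nat_lit 418) (nat_lit 230))) (XT.nd (nat_lit 94) (nat_lit 252) (nat_lit 0) (XT.lf (nat_lit 0) (nat_lit 416229776580) (nat_lit 420) (nat_lit 233007121327) (nat_lit 84) (nat_lit 12099529551) (nat_lit 89) (nat_lit 5) (nat_lit 94) (nat_lit 5) (nat_lit 90) (nat_lit 5) (nat_lit 433) (nat_lit 418) (nat_lit 229)) (XT.lf (nat_lit 0) (nat_lit 399092309310) (nat_lit 252) (nat_lit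 233880243718) (nat_lit 336) (nat_lit 59018602157) (nat_lit 86) (nat_lit 5) (nat_lit 89) (nat_lit 5) (nat_lit 90) (nat_lit 5) (nat_lit 434) (nat_lit 418) (nat_lit 228))))) (XT.nd (nat_lit 282) (nat_lit 1092) (nat_lit 0) (XT.nd (nat_lit 94) (nat_lit 504) (nat_lit 0) (XT.lf (nat_lit 0) (nat_lit 150943657501) (nat_lit 420) (nat_lit 353139333946) (nat_lit 84) (nat_lit 220227919687) (nat_lit 81) (nat_lit 5) (nat_lit 86) (nat_lit 5) (nat_lit 82) (nat_lit 5) (nat_lit 435) (nat_lit 418) (nat_lit 227)) (XT.nd (nat_lit 94) (nat_lit 252) (nat_lit 0) (XT.lf (nat_lit 0) (nat_lit 345914752796) (nat_lit 252) (nat_lit 44278129684) (nat_lit 336) (nat_lit 368247103733) (nat_lit 78) (nat_lit 5) (nat_lit 81) (nat_lit 5) (nat_lit 82) (nat_lit 5) (nat_lit 436) (nat_lit 418) (nat_lit 226)) (XT.lf (nat_lit 0) (nat_lit 321643720279) (nat_lit 252) (nat_lit 345274202283) (nat_lit 336)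 (nat_lit 127464670881) (nat_lit 75) (nat_lit 5) (nat_lit 78) (nat_lit 5) (nat_lit 79) (nat_lit 5) (nat_lit 437) (nat_lit 418) (nat_lit 225)))) (XT.nd (nat_lit 188) (nat_lit 504) (nat_lit 0) (XT.nd (nat_lit 94) (nat_lit 252) (nat_lit 0) (XT.lf (nat_lit 0) (nat_lit 143651761167) (nat_lit 336) (nat_lit 531782398320) (nat_lit 84) (nat_lit 156897212018) (nat_lit 71) (nat_lit 5) (nat_lit 75) (nat_lit 5) (nat_lit 72) (nat_lit 5) (nat_lit 438) (nat_lit 418) (nat_lit 224)) (XT.lf (nat_lit 0) (nat_lit 280549959507) (nat_lit 252) (nat_lit 170073409860) (nat_lit 336) (nat_lit 421656623072) (nat_lit 68) (nat_lit 5) (nat_lit 71) (nat_lit 5) (nat_lit 72) (nat_lit 5) (nat_lit 439) (nat_lit 418) (nat_lit 223))) (XT.nd (nat_lit 94) (nat_lit 336) (nat_lit 0) (XT.lf (nat_lit 0) (nat_lit 264339995354) (nat_lit 168) (nat_lit 537220919257) (nat_lit 252) (nat_lit 112893178016) (nat_lit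 66) (nat_lit 5) (nat_lit 68) (nat_lit 5) (nat_lit 69) (nat_lit 5) (nat_lit 440) (nat_lit 418) (nat_lit 222)) (XT.lf (nat_lit 0) (nat_lit 231125487928) (nat_lit 336) (nat_lit 707170459106) (nat_lit 84) (nat_lit 20653296668) (nat_lit 62) (nat_lit 5) (nat_lit 66) (nat_lit 5) (nat_lit 63) (nat_lit 5) (nat_lit 441) (nat_lit 418) (nat_lit 221)))))) (XT.nd (nat_lit 658) (nat_lit 1260) (nat_lit 0) (XT.nd (nat_lit 282) (nat_lit 756) (nat_lit 0) (XT.nd (nat_lit 94) (nat_lit 420) (nat_lit 0) (XT.lf (nat_lit 0) (nat_lit 239105761523) (nat_lit 168) (nat_lit 383959365471) (nat_lit 252) (nat_lit 382628609134) (nat_lit 60) (nat_lit 5) (nat_lit 62) (nat_lit 5) (nat_lit 63) (nat_lit 5) (nat_lit 442) (nat_lit 418) (nat_lit 220)) (XT.nd (nat_lit 94) (nat_lit 168) (nat_lit 0) (XT.lf (nat_lit 0) (nat_lit 10354337318) (nat_lit 252) (nat_lit 820634352985) (nat_lit 84) (nat_lit 224203864075)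 (nat_lit 57) (nat_lit 5) (nat_lit 60) (nat_lit 5) (nat_lit 58) (nat_lit 5) (nat_lit 443) (nat_lit 418) (nat_lit 219)) (XT.lf (nat_lit 0) (nat_lit 229383768573) (nat_lit 168) (nat_lit 215793859881) (nat_lit 252) (nat_lit 661969662049) (nat_lit 55) (nat_lit 5) (nat_lit 57) (nat_lit 5) (nat_lit 58) (nat_lit 5) (nat_lit 444) (nat_lit 418) (nat_lit 218)))) (XT.nd (nat_lit 188) (nat_lit 336) (nat_lit 0) (XT.nd (nat_lit 94) (nat_lit 252) (nat_lit 0) (XT.lf (nat_lit 0) (nat_lit 230296658096) (nat_lit 168) (nat_lit 709619104976) (nat_lit 252) (nat_lit 222086193436) (nat_lit 53) (nat_lit 5) (nat_lit 55) (nat_lit 5) (nat_lit 56) (nat_lit 5) (nat_lit 445) (nat_lit 418) (nat_lit 217)) (XT.lf (nat_lit 0) (nat_lit 237632307974) (nat_lit 168) (nat_lit 30147945448) (nat_lit 252) (nat_lit 952122775066) (nat_lit 50) (nat_lit 5) (nat_lit 52) (nat_lit 5) (nat_lit 53) (nat_lit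 5) (nat_lit 446) (nat_lit 418) (nat_lit 216))) (XT.nd (nat_lit 94) (nat_lit 168) (nat_lit 0) (XT.lf (nat_lit 0) (nat_lit 245007584468) (nat_lit 168) (nat_lit 575459066596) (nat_lit 252) (nat_lit 460216924627) (nat_lit 48) (nat_lit 5) (nat_lit 50) (nat_lit 5) (nat_lit 51) (nat_lit 5) (nat_lit 447) (nat_lit 418) (nat_lit 215)) (XT.lf (nat_lit 0) (nat_lit 93577096614) (nat_lit 168) (nat_lit 1081201833146) (nat_lit 84) (nat_lit 170251705596) (nat_lit 46) (nat_lit 5) (nat_lit 48) (nat_lit 5) (nat_lit 47) (nat_lit 5) (nat_lit 448) (nat_lit 418) (nat_lit 214))))) (XT.nd (nat_lit 376) (nat_lit 672) (nat_lit 0) (XT.nd (nat_lit 188) (nat_lit 336) (nat_lit 0) (XT.nd (nat_lit 94) (nat_lit 84) (nat_lit 0) (XT.lf (nat_lit 0) (nat_lit 281918184184) (nat_lit 168) (nat_lit 426289618104) (nat_lit 252) (nat_lit 704307584420) (nat_lit 44) (nat_lit 5) (nat_lit 46) (nat_lit 5)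 (nat_lit 47) (nat_lit 5) (nat_lit 449) (nat_lit 418) (nat_lit 213)) (XT.lf (nat_lit 0) (nat_lit 311950194042) (nat_lit 84) (nat_lit 1090037080264) (nat_lit 168) (nat_lit 81912728369) (nat_lit 43) (nat_lit 5) (nat_lit 44) (nat_lit 5) (nat_lit 45) (nat_lit 4) (nat_lit 450) (nat_lit 418) (nat_lit 212))) (XT.nd (nat_lit 94) (nat_lit 84) (nat_lit 0) (XT.lf (nat_lit 0) (nat_lit 344565479191) (nat_lit 168) (nat_lit 259400559379) (nat_lit 252) (nat_lit 954939319618) (nat_lit 40) (nat_lit 5) (nat_lit 42) (nat_lit 5) (nat_lit 43) (nat_lit 5) (nat_lit 451) (nat_lit 418) (nat_lit 211)) (XT.lf (nat_lit 0) (nat_lit 386045417769) (nat_lit 84) (nat_lit 992570821275) (nat_lit 168) (nat_lit 259389213759) (nat_lit 39) (nat_lit 5) (nat_lit 40) (nat_lit 5) (nat_lit 41) (nat_lit 4) (nat_lit 452) (nat_lit 418) (nat_lit 210)))) (XT.nd (nat_lit 188) (nat_lit 336) (nat_lit 0) (XT.nd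 (nat_lit 94) (nat_lit 84) (nat_lit 0) (XT.lf (nat_lit 0) (nat_lit 437038045116) (nat_lit 168) (nat_lit 71723154787) (nat_lit 252) (nat_lit 1212653576069) (nat_lit 36) (nat_lit 5) (nat_lit 38) (nat_lit 5) (nat_lit 39) (nat_lit 5) (nat_lit 453) (nat_lit 418) (nat_lit 209)) (XT.lf (nat_lit 0) (nat_lit 492067161044) (nat_lit 84) (nat_lit 881586000505) (nat_lit 168) (nat_lit 435412206865) (nat_lit 35) (nat_lit 5) (nat_lit 36) (nat_lit 5) (nat_lit 37) (nat_lit 4) (nat_lit 454) (nat_lit 418) (nat_lit 208))) (XT.nd (nat_lit 94) (nat_lit 84) (nat_lit 0) (XT.lf (nat_lit 0) (nat_lit 426022444263) (nat_lit 252) (nat_lit 1339912881270) (nat_lit 84) (nat_lit 135730059167) (nat_lit 32) (nat_lit 5) (nat_lit 35) (nat_lit 5) (nat_lit 33) (nat_lit 4) (nat_lit 455) (nat_lit 418) (nat_lit 207)) (XT.lf (nat_lit 0) (nat_lit 635048934915) (nat_lit 84) (nat_lit 754369524331) (nat_lit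 168) (nat_lit 609482982064) (nat_lit 31) (nat_lit 5) (nat_lit 32) (nat_lit 5) (nat_lit 33) (nat_lit 4) (nat_lit 456) (nat_lit 418) (nat_lit 206))))))))
noncomputable def xc205 : XT := (XT.nd (nat_lit 2632) (nat_lit 0) (nat_lit 0) (XT.nd (nat_lit 1316) (nat_lit 756) (nat_lit 0) (XT.nd (nat_lit 658) (nat_lit 840) (nat_lit 0) (XT.nd (nat_lit 282) (nat_lit 504) (nat_lit 0) (XT.nd (nat_lit 94) (nat_lit 252) (nat_lit 0) (XT.lf (nat_lit 0) (nat_lit 356611657238) (nat_lit 252) (nat_lit 1376811740752) (nat_lit 84) (nat_lit 368184771741) (nat_lit 28) (nat_lit 5) (nat_lit 31) (nat_lit 5) (nat_lit 29) (nat_lit 4) (nat_lit 457) (nat_lit 418) (nat_lit 205)) (XT.nd (nat_lit 94) (nat_lit 168) (nat_lit 0) (XT.lf (nat_lit 0) (nat_lit 820779995719) (nat_lit 84) (nat_lit 607827636316) (nat_lit 168) (nat_lit 780925874216) (nat_lit 27) (nat_lit 5) (nat_lit 28) (nat_lit 5) (nat_lit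 29) (nat_lit 4) (nat_lit 458) (nat_lit 418) (nat_lit 204)) (XT.lf (nat_lit 0) (nat_lit 301255907367) (nat_lit 168) (nat_lit 1389916495554) (nat_lit 84) (nat_lit 632251500698) (nat_lit 25) (nat_lit 5) (nat_lit 27) (nat_lit 5) (nat_lit 26) (nat_lit 4) (nat_lit 459) (nat_lit 418) (nat_lit 203)))) (XT.nd (nat_lit 188) (nat_lit 252) (nat_lit 0) (XT.nd (nat_lit 94) (nat_lit 168) (nat_lit 0) (XT.lf (nat_lit 0) (nat_lit 1055907270475) (nat_lit 84) (nat_lit 438433405534) (nat_lit 168) (nat_lit 948860339434) (nat_lit 24) (nat_lit 5) (nat_lit 25) (nat_lit 5) (nat_lit 26) (nat_lit 4) (nat_lit 460) (nat_lit 418) (nat_lit 202)) (XT.lf (nat_lit 0) (nat_lit 262137635573) (nat_lit 168) (nat_lit 1374514155945) (nat_lit 84) (nat_lit 932816476722) (nat_lit 22) (nat_lit 5) (nat_lit 24) (nat_lit 5) (nat_lit 23) (nat_lit 4) (nat_lit 461) (nat_lit 418) (nat_lit 201))) (XT.nd (nat_lit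 94) (nat_lit 168) (nat_lit 0) (XT.lf (nat_lit 0) (nat_lit 1348050542473) (nat_lit 84) (nat_lit 242167437651) (nat_lit 168) (nat_lit 1112168867975) (nat_lit 21) (nat_lit 5) (nat_lit 22) (nat_lit 5) (nat_lit 23) (nat_lit 4) (nat_lit 462) (nat_lit 418) (nat_lit 200)) (XT.lf (nat_lit 0) (nat_lit 241821645493) (nat_lit 168) (nat_lit 1325119268743) (nat_lit 84) (nat_lit 1275411957733) (nat_lit 19) (nat_lit 5) (nat_lit 21) (nat_lit 5) (nat_lit 20) (nat_lit 4) (nat_lit 463) (nat_lit 418) (nat_lit 199))))) (XT.nd (nat_lit 282) (nat_lit 504) (nat_lit 0) (XT.nd (nat_lit 94) (nat_lit 252) (nat_lit 0) (XT.lf (nat_lit 0) (nat_lit 1705932563239) (nat_lit 84) (nat_lit 14450954664) (nat_lit 168) (nat_lit 1269460191150) (nat_lit 18) (nat_lit 5) (nat_lit 19) (nat_lit 5) (nat_lit 20) (nat_lit 4) (nat_lit 464) (nat_lit 418) (nat_lit 198)) (XT.nd (nat_lit 94) (nat_lit 84) (nat_lit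 0) (XT.lf (nat_lit 0) (nat_lit 243308245093) (nat_lit 168) (nat_lit 1235364435123) (nat_lit 84) (nat_lit 1666300317156) (nat_lit 16) (nat_lit 5) (nat_lit 18) (nat_lit 5) (nat_lit 17) (nat_lit 4) (nat_lit 465) (nat_lit 418) (nat_lit 197)) (XT.lf (nat_lit 0) (nat_lit 1893498349603) (nat_lit 168) (nat_lit 1172999539239) (nat_lit 0) (nat_lit 241930404042) (nat_lit 15) (nat_lit 5) (nat_lit 17) (nat_lit 4) (nat_lit 15) (nat_lit 4) (nat_lit 466) (nat_lit 418) (nat_lit 196)))) (XT.nd (nat_lit 188) (nat_lit 252) (nat_lit 0) (XT.nd (nat_lit 94) (nat_lit 84) (nat_lit 0) (XT.lf (nat_lit 0) (nat_lit 270093554994) (nat_lit 168) (nat_lit 1097876162474) (nat_lit 84) (nat_lit 2112568647793) (nat_lit 13) (nat_lit 5) (nat_lit 15) (nat_lit 5) (nat_lit 14) (nat_lit 4) (nat_lit 467) (nat_lit 418) (nat_lit 195)) (XT.lf (nat_lit 0) (nat_lit 2112005635655) (nat_lit 168) (nat_lit 1010585107152)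 (nat_lit 0) (nat_lit 539083774210) (nat_lit 12) (nat_lit 5) (nat_lit 14) (nat_lit 4) (nat_lit 12) (nat_lit 4) (nat_lit 468) (nat_lit 418) (nat_lit 194))) (XT.nd (nat_lit 94) (nat_lit 84) (nat_lit 0) (XT.lf (nat_lit 0) (nat_lit 326237900484) (nat_lit 168) (nat_lit 904134169249) (nat_lit 84) (nat_lit 2622235173389) (nat_lit 10) (nat_lit 5) (nat_lit 12) (nat_lit 5) (nat_lit 11) (nat_lit 4) (nat_lit 469) (nat_lit 418) (nat_lit 193)) (XT.lf (nat_lit 0) (nat_lit 2382026336793) (nat_lit 168) (nat_lit 787307422684) (nat_lit 0) (nat_lit 884005509404) (nat_lit 9) (nat_lit 5) (nat_lit 11) (nat_lit 4) (nat_lit 9) (nat_lit 4) (nat_lit 470) (nat_lit 418) (nat_lit 192)))))) (XT.nd (nat_lit 658) (nat_lit 0) (nat_lit 0) (XT.nd (nat_lit 282) (nat_lit 336) (nat_lit 0) (XT.nd (nat_lit 94) (nat_lit 252) (nat_lit 0) (XT.lf (nat_lit 0) (nat_lit 416443318806) (nat_lit 168) (nat_lit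 644312026936) (nat_lit 84) (nat_lit 3204368916034) (nat_lit 7) (nat_lit 5) (nat_lit 9) (nat_lit 5) (nat_lit 8) (nat_lit 4) (nat_lit 471) (nat_lit 418) (nat_lit 191)) (XT.nd (nat_lit 94) (nat_lit 168) (nat_lit 0) (XT.lf (nat_lit 0) (nat_lit 2710810775865) (nat_lit 168) (nat_lit 492639813203) (nat_lit 0) (nat_lit 1284124267903) (nat_lit 6) (nat_lit 5) (nat_lit 8) (nat_lit 4) (nat_lit 6) (nat_lit 4) (nat_lit 472) (nat_lit 418) (nat_lit 190)) (XT.lf (nat_lit 0) (nat_lit 546141341898) (nat_lit 168) (nat_lit 307096759602) (nat_lit 84) (nat_lit 3869224242127) (nat_lit 4) (nat_lit 5) (nat_lit 6) (nat_lit 5) (nat_lit 5) (nat_lit 4) (nat_lit 473) (nat_lit 418) (nat_lit 189)))) (XT.nd (nat_lit 188) (nat_lit 0) (nat_lit 0) (XT.nd (nat_lit 94) (nat_lit 252) (nat_lit 0) (XT.lf (nat_lit 0) (nat_lit 3106630728316) (nat_lit 168) (nat_lit 114472034026) (nat_lit 0) (nat_lit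 1747881668470) (nat_lit 3) (nat_lit 5) (nat_lit 5) (nat_lit 4) (nat_lit 3) (nat_lit 4) (nat_lit 474) (nat_lit 418) (nat_lit 188)) (XT.lf (nat_lit 0) (nat_lit 7585799508816) (nat_lit 0) (nat_lit 0) (nat_lit 0) (nat_lit 0) (nat_lit 0) (nat_lit 0) (nat_lit 1) (nat_lit 0) (nat_lit 1) (nat_lit 0) (nat_lit 475) (nat_lit 418) (nat_lit 187))) (XT.nd (nat_lit 94) (nat_lit 0) (nat_lit 0) (XT.lf (nat_lit 0) (nat_lit 8185206408601) (nat_lit 0) (nat_lit 0) (nat_lit 0) (nat_lit 0) (nat_lit 0) (nat_lit 0) (nat_lit 1) (nat_lit 0) (nat_lit 1) (nat_lit 0) (nat_lit 476) (nat_lit 418) (nat_lit 186)) (XT.lf (nat_lit 0) (nat_lit 8832565860389) (nat_lit 0) (nat_lit 0) (nat_lit 0) (nat_lit 0) (nat_lit 0) (nat_lit 0) (nat_lit 1) (nat_lit 0) (nat_lit 1) (nat_lit 0) (nat_lit 477) (nat_lit 418) (nat_lit 185))))) (XT.nd (nat_lit 282) (nat_lit 0) (nat_lit 0) (XT.nd (nat_lit 94) (nat_lit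 0) (nat_lit 0) (XT.lf (nat_lit 0) (nat_lit 9531714068339) (nat_lit 0) (nat_lit 0) (nat_lit 0) (nat_lit 0) (nat_lit 0) (nat_lit 0) (nat_lit 1) (nat_lit 0) (nat_lit 1) (nat_lit 0) (nat_lit 478) (nat_lit 418) (nat_lit 184)) (XT.nd (nat_lit 94) (nat_lit 0) (nat_lit 0) (XT.lf (nat_lit 0) (nat_lit 10286794132943) (nat_lit 0) (nat_lit 0) (nat_lit 0) (nat_lit 0) (nat_lit 0) (nat_lit 0) (nat_lit 1) (nat_lit 0) (nat_lit 1) (nat_lit 0) (nat_lit 479) (nat_lit 418) (nat_lit 183)) (XT.lf (nat_lit 0) (nat_lit 11102280602730) (nat_lit 0) (nat_lit 0) (nat_lit 0) (nat_lit 0) (nat_lit 0) (nat_lit 0) (nat_lit 1) (nat_lit 0) (nat_lit 1) (nat_lit 0) (nat_lit 480) (nat_lit 418) (nat_lit 182)))) (XT.nd (nat_lit 188) (nat_lit 0) (nat_lit 0) (XT.nd (nat_lit 94) (nat_lit 0) (nat_lit 0) (XT.lf (nat_lit 0) (nat_lit 11983005990116) (nat_lit 0) (nat_lit 0) (nat_lit 0) (nat_lit 0) (nat_lit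 0) (nat_lit 0) (nat_lit 1) (nat_lit 0) (nat_lit 1) (nat_lit 0) (nat_lit 481) (nat_lit 418) (nat_lit 181)) (XT.lf (nat_lit 0) (nat_lit 12934189408506) (nat_lit 0) (nat_lit 0) (nat_lit 0) (nat_lit 0) (nat_lit 0) (nat_lit 0) (nat_lit 1) (nat_lit 0) (nat_lit 1) (nat_lit 0) (nat_lit 482) (nat_lit 418) (nat_lit 180))) (XT.nd (nat_lit 94) (nat_lit 0) (nat_lit 0) (XT.lf (nat_lit 0) (nat_lit 13961467500380) (nat_lit 0) (nat_lit 0) (nat_lit 0) (nat_lit 0) (nat_lit 0) (nat_lit 0) (nat_lit 1) (nat_lit 0) (nat_lit 1) (nat_lit 0) (nat_lit 483) (nat_lit 418) (nat_lit 179)) (XT.lf (nat_lit 0) (nat_lit 15070927839616) (nat_lit 0) (nat_lit 0) (nat_lit 0) (nat_lit 0) (nat_lit 0) (nat_lit 0) (nat_lit 1) (nat_lit 0) (nat_lit 1) (nat_lit 0) (nat_lit 484) (nat_lit 418) (nat_lit 178))))))) (XT.nd (nat_lit 1316) (nat_lit 0) (nat_lit 0) (XT.nd (nat_lit 658) (nat_lit 0) (nat_lit 0)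 (XT.nd (nat_lit 282) (nat_lit 0) (nat_lit 0) (XT.nd (nat_lit 94) (nat_lit 0) (nat_lit 0) (XT.lf (nat_lit 0) (nat_lit 16269145006002) (nat_lit 0) (nat_lit 0) (nat_lit 0) (nat_lit 0) (nat_lit 0) (nat_lit 0) (nat_lit 1) (nat_lit 0) (nat_lit 1) (nat_lit 0) (nat_lit 485) (nat_lit 418) (nat_lit 177)) (XT.nd (nat_lit 94) (nat_lit 0) (nat_lit 0) (XT.lf (nat_lit 0) (nat_lit 17563219545708) (nat_lit 0) (nat_lit 0) (nat_lit 0) (nat_lit 0) (nat_lit 0) (nat_lit 0) (nat_lit 1) (nat_lit 0) (nat_lit 1) (nat_lit 0) (nat_lit 486) (nat_lit 418) (nat_lit 176)) (XT.lf (nat_lit 0) (nat_lit 18960820048601) (nat_lit 0) (nat_lit 0) (nat_lit 0) (nat_lit 0) (nat_lit 0) (nat_lit 0) (nat_lit 1) (nat_lit 0) (nat_lit 1) (nat_lit 0) (nat_lit 487) (nat_lit 418) (nat_lit 175)))) (XT.nd (nat_lit 188) (nat_lit 0) (nat_lit 0) (XT.nd (nat_lit 94) (nat_lit 0) (nat_lit 0) (XT.lf (nat_lit 0) (nat_lit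 20470228591733) (nat_lit 0) (nat_lit 0) (nat_lit 0) (nat_lit 0) (nat_lit 0) (nat_lit 0) (nat_lit 1) (nat_lit 0) (nat_lit 1) (nat_lit 0) (nat_lit 488) (nat_lit 418) (nat_lit 174)) (XT.lf (nat_lit 0) (nat_lit 22100389818325) (nat_lit 0) (nat_lit 0) (nat_lit 0) (nat_lit 0) (nat_lit 0) (nat_lit 0) (nat_lit 1) (nat_lit 0) (nat_lit 1) (nat_lit 0) (nat_lit 489) (nat_lit 418) (nat_lit 173))) (XT.nd (nat_lit 94) (nat_lit 0) (nat_lit 0) (XT.lf (nat_lit 0) (nat_lit 23860963943051) (nat_lit 0) (nat_lit 0) (nat_lit 0) (nat_lit 0) (nat_lit 0) (nat_lit 0) (nat_lit 1) (nat_lit 0) (nat_lit 1) (nat_lit 0) (nat_lit 490) (nat_lit 418) (nat_lit 172)) (XT.lf (nat_lit 0) (nat_lit 25762383997762) (nat_lit 0) (nat_lit 0) (nat_lit 0) (nat_lit 0) (nat_lit 0) (nat_lit 0) (nat_lit 1) (nat_lit 0) (nat_lit 1) (nat_lit 0) (nat_lit 491) (nat_lit 418) (nat_lit 171))))) (XT.nd (nat_lit 282)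 (nat_lit 0) (nat_lit 0) (XT.nd (nat_lit 94) (nat_lit 0) (nat_lit 0) (XT.lf (nat_lit 0) (nat_lit 27815917656856) (nat_lit 0) (nat_lit 0) (nat_lit 0) (nat_lit 0) (nat_lit 0) (nat_lit 0) (nat_lit 1) (nat_lit 0) (nat_lit 1) (nat_lit 0) (nat_lit 492) (nat_lit 418) (nat_lit 170)) (XT.nd (nat_lit 94) (nat_lit 0) (nat_lit 0) (XT.lf (nat_lit 0) (nat_lit 30033734008684) (nat_lit 0) (nat_lit 0) (nat_lit 0) (nat_lit 0) (nat_lit 0) (nat_lit 0) (nat_lit 1) (nat_lit 0) (nat_lit 1) (nat_lit 0) (nat_lit 493) (nat_lit 418) (nat_lit 169)) (XT.lf (nat_lit 0) (nat_lit 32428975668663) (nat_lit 0) (nat_lit 0) (nat_lit 0) (nat_lit 0) (nat_lit 0) (nat_lit 0) (nat_lit 1) (nat_lit 0) (nat_lit 1) (nat_lit 0) (nat_lit 494) (nat_lit 418) (nat_lit 168)))) (XT.nd (nat_lit 188) (nat_lit 0) (nat_lit 0) (XT.nd (nat_lit 94) (nat_lit 0) (nat_lit 0) (XT.lf (nat_lit 0) (nat_lit 35015836661446)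 (nat_lit 0) (nat_lit 0) (nat_lit 0) (nat_lit 0) (nat_lit 0) (nat_lit 0) (nat_lit 1) (nat_lit 0) (nat_lit 1) (nat_lit 0) (nat_lit 495) (nat_lit 418) (nat_lit 167)) (XT.lf (nat_lit 0) (nat_lit 37809646533656) (nat_lit 0) (nat_lit 0) (nat_lit 0) (nat_lit 0) (nat_lit 0) (nat_lit 0) (nat_lit 1) (nat_lit 0) (nat_lit 1) (nat_lit 0) (nat_lit 496) (nat_lit 418) (nat_lit 166))) (XT.nd (nat_lit 94) (nat_lit 0) (nat_lit 0) (XT.lf (nat_lit 0) (nat_lit 40826961195647) (nat_lit 0) (nat_lit 0) (nat_lit 0) (nat_lit 0) (nat_lit 0) (nat_lit 0) (nat_lit 1) (nat_lit 0) (nat_lit 1) (nat_lit 0) (nat_lit 497) (nat_lit 418) (nat_lit 165)) (XT.lf (nat_lit 0) (nat_lit 44085661030601) (nat_lit 0) (nat_lit 0) (nat_lit 0) (nat_lit 0) (nat_lit 0) (nat_lit 0) (nat_lit 1) (nat_lit 0) (nat_lit 1) (nat_lit 0) (nat_lit 498) (nat_lit 418) (nat_lit 164)))))) (XT.nd (nat_lit 60536) (nat_lit 0)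 (nat_lit 8904) (XT.nd (nat_lit 282) (nat_lit 0) (nat_lit 0) (XT.nd (nat_lit 94) (nat_lit 0) (nat_lit 0) (XT.lf (nat_lit 0) (nat_lit 47605056852356) (nat_lit 0) (nat_lit 0) (nat_lit 0) (nat_lit 0) (nat_lit 0) (nat_lit 0) (nat_lit 1) (nat_lit 0) (nat_lit 1) (nat_lit 0) (nat_lit 499) (nat_lit 418) (nat_lit 163)) (XT.nd (nat_lit 94) (nat_lit 0) (nat_lit 0) (XT.lf (nat_lit 0) (nat_lit 51406004339854) (nat_lit 0) (nat_lit 0) (nat_lit 0) (nat_lit 0) (nat_lit 0) (nat_lit 0) (nat_lit 1) (nat_lit 0) (nat_lit 1) (nat_lit 0) (nat_lit 500) (nat_lit 418) (nat_lit 162)) (XT.lf (nat_lit 0) (nat_lit 55511027626356) (nat_lit 0) (nat_lit 0) (nat_lit 0) (nat_lit 0) (nat_lit 0) (nat_lit 0) (nat_lit 1) (nat_lit 0) (nat_lit 1) (nat_lit 0) (nat_lit 501) (nat_lit 418) (nat_lit 161)))) (XT.nd (nat_lit 60066) (nat_lit 0) (nat_lit 10836) (XT.nd (nat_lit 59972) (nat_lit 0) (nat_lit 10752)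 (XT.lf (nat_lit 0) (nat_lit 59944452775780) (nat_lit 0) (nat_lit 0) (nat_lit 0) (nat_lit 0) (nat_lit 0) (nat_lit 0) (nat_lit 1) (nat_lit 0) (nat_lit 1) (nat_lit 0) (nat_lit 502) (nat_lit 418) (nat_lit 160)) (XT.lf (nat_lit 0) (nat_lit 89445084028) (nat_lit 924) (nat_lit 50380808467) (nat_lit 924) (nat_lit 50380808467) (nat_lit 128) (nat_lit 3) (nat_lit 139) (nat_lit 3) (nat_lit 139) (nat_lit 5) (nat_lit 419) (nat_lit 419) (nat_lit 242))) (XT.nd (nat_lit 94) (nat_lit 0) (nat_lit 0) (XT.lf (nat_lit 0) (nat_lit 189657250060) (nat_lit 840) (nat_lit 185493125920) (nat_lit 924) (nat_lit 20298988260) (nat_lit 129) (nat_lit 5) (nat_lit 139) (nat_lit 5) (nat_lit 140) (nat_lit 5) (nat_lit 420) (nat_lit 419) (nat_lit 241)) (XT.lf (nat_lit 84) (nat_lit 137175459029) (nat_lit 0) (nat_lit 72751278959) (nat_lit 924) (nat_lit 201329413581) (nat_lit 130) (nat_lit 5) (nat_lit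 129) (nat_lit 5) (nat_lit 140) (nat_lit 5) (nat_lit 421) (nat_lit 419) (nat_lit 240))))) (XT.nd (nat_lit 376) (nat_lit 2016) (nat_lit 0) (XT.nd (nat_lit 188) (nat_lit 0) (nat_lit 168) (XT.nd (nat_lit 94) (nat_lit 0) (nat_lit 84) (XT.lf (nat_lit 84) (nat_lit 62086499138) (nat_lit 0) (nat_lit 177947855344) (nat_lit 924) (nat_lit 187882298927) (nat_lit 131) (nat_lit 5) (nat_lit 130) (nat_lit 5) (nat_lit 141) (nat_lit 5) (nat_lit 422) (nat_lit 419) (nat_lit 239)) (XT.lf (nat_lit 0) (nat_lit 280953858870) (nat_lit 840) (nat_lit 14365956377) (nat_lit 924) (nat_lit 150170016220) (nat_lit 131) (nat_lit 5) (nat_lit 141) (nat_lit 5) (nat_lit 142) (nat_lit 5) (nat_lit 423) (nat_lit 419) (nat_lit 238))) (XT.nd (nat_lit 94) (nat_lit 0) (nat_lit 0) (XT.lf (nat_lit 0) (nat_lit 334617228878) (nat_lit 840) (nat_lit 90463125831) (nat_lit 924) (nat_lit 38914993798) (nat_lit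 132) (nat_lit 5) (nat_lit 142) (nat_lit 5) (nat_lit 143) (nat_lit 5) (nat_lit 424) (nat_lit 419) (nat_lit 237)) (XT.lf (nat_lit 84) (nat_lit 314075051300) (nat_lit 0) (nat_lit 88636136118) (nat_lit 924) (nat_lit 80763243544) (nat_lit 133) (nat_lit 5) (nat_lit 132) (nat_lit 5) (nat_lit 143) (nat_lit 5) (nat_lit 425) (nat_lit 419) (nat_lit 236)))) (XT.nd (nat_lit 188) (nat_lit 840) (nat_lit 0) (XT.nd (nat_lit 94) (nat_lit 588) (nat_lit 0) (XT.lf (nat_lit 0) (nat_lit 253574528384) (nat_lit 840) (nat_lit 232527942069) (nat_lit 924) (nat_lit 17916879171) (nat_lit 123) (nat_lit 5) (nat_lit 133) (nat_lit 5) (nat_lit 134) (nat_lit 5) (nat_lit 426) (nat_lit 419) (nat_lit 235)) (XT.lf (nat_lit 0) (nat_lit 58045654188) (nat_lit 588) (nat_lit 333682973808) (nat_lit 84) (nat_lit 133955865090) (nat_lit 116) (nat_lit 5) (nat_lit 123) (nat_lit 5) (nat_lit 117) (nat_lit 5)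 (nat_lit 427) (nat_lit 419) (nat_lit 234))) (XT.nd (nat_lit 94) (nat_lit 420) (nat_lit 0) (XT.lf (nat_lit 0) (nat_lit 129781450397) (nat_lit 420) (nat_lit 20065570699) (nat_lit 504) (nat_lit 398701663410) (nat_lit 111) (nat_lit 5) (nat_lit 116) (nat_lit 5) (nat_lit 117) (nat_lit 5) (nat_lit 428) (nat_lit 419) (nat_lit 233)) (XT.lf (nat_lit 0) (nat_lit 65329332714) (nat_lit 420) (nat_lit 196544565204) (nat_lit 504) (nat_lit 310724043294) (nat_lit 106) (nat_lit 5) (nat_lit 111) (nat_lit 5) (nat_lit 112) (nat_lit 5) (nat_lit 429) (nat_lit 419) (nat_lit 232))))))))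
noncomputable def xc206 : XT := (XT.nd (nat_lit 2632) (nat_lit 2604) (nat_lit 0) (XT.nd (nat_lit 1316) (nat_lit 2436) (nat_lit 0) (XT.nd (nat_lit 658) (nat_lit 1764) (nat_lit 0) (XT.nd (nat_lit 282) (nat_lit 1344) (nat_lit 0) (XT.nd (nat_lit 94) (nat_lit 420) (nat_lit 0) (XT.lf (nat_lit 0) (nat_lit 1295710721) (nat_lit 336) (nat_lit 392529038177) (nat_lit 420) (nat_lit 204198298354) (nat_lit 102) (nat_lit 5) (nat_lit 106) (nat_lit 5) (nat_lit 107) (nat_lit 5) (nat_lit 430) (nat_lit 419) (nat_lit 231)) (XT.nd (nat_lit 94) (nat_lit 420) (nat_lit 0) (XT.lf (nat_lit 0) (nat_lit 548690979011) (nat_lit 420) (nat_lit 59903873039) (nat_lit 84) (nat_lit 16269344175) (nat_lit 102) (nat_lit 5) (nat_lit 107) (nat_lit 5) (nat_lit 103) (nat_lit 5) (nat_lit 431) (nat_lit 419) (nat_lit 230)) (XT.lf (nat_lit 0) (nat_lit 75247584757) (nat_lit 420) (nat_lit 124104539827) (nat_lit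 84) (nat_lit 453694984265) (nat_lit 97) (nat_lit 5) (nat_lit 102) (nat_lit 5) (nat_lit 98) (nat_lit 5) (nat_lit 432) (nat_lit 419) (nat_lit 229)))) (XT.nd (nat_lit 188) (nat_lit 672) (nat_lit 0) (XT.nd (nat_lit 94) (nat_lit 336) (nat_lit 0) (XT.lf (nat_lit 0) (nat_lit 248942715835) (nat_lit 420) (nat_lit 188683650145) (nat_lit 84) (nat_lit 245154381269) (nat_lit 93) (nat_lit 5) (nat_lit 98) (nat_lit 5) (nat_lit 94) (nat_lit 5) (nat_lit 433) (nat_lit 419) (nat_lit 228)) (XT.lf (nat_lit 0) (nat_lit 449528778982) (nat_lit 420) (nat_lit 251646867230) (nat_lit 84) (nat_lit 13067664429) (nat_lit 89) (nat_lit 5) (nat_lit 94) (nat_lit 5) (nat_lit 90) (nat_lit 5) (nat_lit 434) (nat_lit 419) (nat_lit 227))) (XT.nd (nat_lit 94) (nat_lit 420) (nat_lit 0) (XT.lf (nat_lit 0) (nat_lit 431020482057) (nat_lit 252) (nat_lit 252590461846) (nat_lit 336) (nat_lit 63739474366)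 (nat_lit 86) (nat_lit 5) (nat_lit 89) (nat_lit 5) (nat_lit 90) (nat_lit 5) (nat_lit 435) (nat_lit 419) (nat_lit 226)) (XT.lf (nat_lit 0) (nat_lit 163019717501) (nat_lit 420) (nat_lit 381389683096) (nat_lit 84) (nat_lit 237846355059) (nat_lit 81) (nat_lit 5) (nat_lit 86) (nat_lit 5) (nat_lit 82) (nat_lit 5) (nat_lit 436) (nat_lit 419) (nat_lit 225))))) (XT.nd (nat_lit 282) (nat_lit 924) (nat_lit 0) (XT.nd (nat_lit 94) (nat_lit 588) (nat_lit 0) (XT.lf (nat_lit 0) (nat_lit 373588695925) (nat_lit 252) (nat_lit 47820154436) (nat_lit 336) (nat_lit 397706307886) (nat_lit 78) (nat_lit 5) (nat_lit 81) (nat_lit 5) (nat_lit 82) (nat_lit 5) (nat_lit 437) (nat_lit 419) (nat_lit 224)) (XT.nd (nat_lit 94) (nat_lit 336) (nat_lit 0) (XT.lf (nat_lit 0) (nat_lit 347375969978) (nat_lit 252) (nat_lit 372895898875) (nat_lit 336) (nat_lit 137661306440) (nat_lit 75) (nat_lit 5) (nat_lit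 78) (nat_lit 5) (nat_lit 79) (nat_lit 5) (nat_lit 438) (nat_lit 419) (nat_lit 223)) (XT.lf (nat_lit 0) (nat_lit 155144399633) (nat_lit 336) (nat_lit 574324233408) (nat_lit 84) (nat_lit 169449223306) (nat_lit 71) (nat_lit 5) (nat_lit 75) (nat_lit 5) (nat_lit 72) (nat_lit 5) (nat_lit 439) (nat_lit 419) (nat_lit 222)))) (XT.nd (nat_lit 188) (nat_lit 504) (nat_lit 0) (XT.nd (nat_lit 94) (nat_lit 168) (nat_lit 0) (XT.lf (nat_lit 0) (nat_lit 302994680157) (nat_lit 252) (nat_lit 183679030776) (nat_lit 336) (nat_lit 455388657300) (nat_lit 68) (nat_lit 5) (nat_lit 71) (nat_lit 5) (nat_lit 72) (nat_lit 5) (nat_lit 440) (nat_lit 419) (nat_lit 221)) (XT.lf (nat_lit 0) (nat_lit 285487906225) (nat_lit 168) (nat_lit 580198333353) (nat_lit 252) (nat_lit 121924157869) (nat_lit 66) (nat_lit 5) (nat_lit 68) (nat_lit 5) (nat_lit 69) (nat_lit 5) (nat_lit 441) (nat_lit 419) (nat_lit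 220))) (XT.nd (nat_lit 94) (nat_lit 168) (nat_lit 0) (XT.lf (nat_lit 0) (nat_lit 249615967041) (nat_lit 336) (nat_lit 763743383217) (nat_lit 84) (nat_lit 22305810937) (nat_lit 62) (nat_lit 5) (nat_lit 66) (nat_lit 5) (nat_lit 63) (nat_lit 5) (nat_lit 442) (nat_lit 419) (nat_lit 219)) (XT.lf (nat_lit 0) (nat_lit 258234904094) (nat_lit 168) (nat_lit 414675851183) (nat_lit 252) (nat_lit 413238458835) (nat_lit 60) (nat_lit 5) (nat_lit 62) (nat_lit 5) (nat_lit 63) (nat_lit 5) (nat_lit 443) (nat_lit 419) (nat_lit 218)))))) (XT.nd (nat_lit 658) (nat_lit 1092) (nat_lit 0) (XT.nd (nat_lit 282) (nat_lit 756) (nat_lit 0) (XT.nd (nat_lit 94) (nat_lit 336) (nat_lit 0) (XT.lf (nat_lit 0) (nat_lit 11183092275) (nat_lit 252) (nat_lit 886284419648) (nat_lit 84) (nat_lit 242140426407) (nat_lit 57) (nat_lit 5) (nat_lit 60) (nat_lit 5) (nat_lit 58) (nat_lit 5) (nat_lit 444) (nat_lit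 419) (nat_lit 217)) (XT.nd (nat_lit 94) (nat_lit 168) (nat_lit 0) (XT.lf (nat_lit 0) (nat_lit 247735122015) (nat_lit 168) (nat_lit 233057104646) (nat_lit 252) (nat_lit 714926827686) (nat_lit 55) (nat_lit 5) (nat_lit 57) (nat_lit 5) (nat_lit 58) (nat_lit 5) (nat_lit 445) (nat_lit 419) (nat_lit 216)) (XT.lf (nat_lit 0) (nat_lit 248721028978) (nat_lit 168) (nat_lit 766388368117) (nat_lit 252) (nat_lit 239852697285) (nat_lit 53) (nat_lit 5) (nat_lit 55) (nat_lit 5) (nat_lit 56) (nat_lit 5) (nat_lit 446) (nat_lit 419) (nat_lit 215)))) (XT.nd (nat_lit 188) (nat_lit 336) (nat_lit 0) (XT.nd (nat_lit 94) (nat_lit 168) (nat_lit 0) (XT.lf (nat_lit 0) (nat_lit 256643515098) (nat_lit 168) (nat_lit 32559519327) (nat_lit 252) (nat_lit 1028292218306) (nat_lit 50) (nat_lit 5) (nat_lit 52) (nat_lit 5) (nat_lit 53) (nat_lit 5) (nat_lit 447) (nat_lit 419) (nat_lit 214)) (XT.lf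 (nat_lit 0) (nat_lit 264608800002) (nat_lit 168) (nat_lit 621495530444) (nat_lit 252) (nat_lit 497033913935) (nat_lit 48) (nat_lit 5) (nat_lit 50) (nat_lit 5) (nat_lit 51) (nat_lit 5) (nat_lit 448) (nat_lit 419) (nat_lit 213))) (XT.nd (nat_lit 94) (nat_lit 168) (nat_lit 0) (XT.lf (nat_lit 0) (nat_lit 101063604470) (nat_lit 168) (nat_lit 1167697373526) (nat_lit 84) (nat_lit 183872091182) (nat_lit 46) (nat_lit 5) (nat_lit 48) (nat_lit 5) (nat_lit 47) (nat_lit 5) (nat_lit 449) (nat_lit 419) (nat_lit 212)) (XT.lf (nat_lit 0) (nat_lit 304472218843) (nat_lit 168) (nat_lit 460392531615) (nat_lit 252) (nat_lit 760651850988) (nat_lit 44) (nat_lit 5) (nat_lit 46) (nat_lit 5) (nat_lit 47) (nat_lit 5) (nat_lit 450) (nat_lit 419) (nat_lit 211))))) (XT.nd (nat_lit 282) (nat_lit 672) (nat_lit 0) (XT.nd (nat_lit 94) (nat_lit 336) (nat_lit 0) (XT.lf (nat_lit 0) (nat_lit 336906775959)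 (nat_lit 84) (nat_lit 1177239792821) (nat_lit 168) (nat_lit 88465418481) (nat_lit 43) (nat_lit 5) (nat_lit 44) (nat_lit 5) (nat_lit 45) (nat_lit 4) (nat_lit 451) (nat_lit 419) (nat_lit 210)) (XT.nd (nat_lit 94) (nat_lit 84) (nat_lit 0) (XT.lf (nat_lit 0) (nat_lit 372131269352) (nat_lit 168) (nat_lit 280152355043) (nat_lit 252) (nat_lit 1031334147311) (nat_lit 40) (nat_lit 5) (nat_lit 42) (nat_lit 5) (nat_lit 43) (nat_lit 5) (nat_lit 452) (nat_lit 419) (nat_lit 209)) (XT.lf (nat_lit 0) (nat_lit 416929589795) (nat_lit 84) (nat_lit 1071976240698) (nat_lit 168) (nat_lit 280140043919) (nat_lit 39) (nat_lit 5) (nat_lit 40) (nat_lit 5) (nat_lit 41) (nat_lit 4) (nat_lit 453) (nat_lit 419) (nat_lit 208)))) (XT.nd (nat_lit 188) (nat_lit 336) (nat_lit 0) (XT.nd (nat_lit 94) (nat_lit 84) (nat_lit 0) (XT.lf (nat_lit 0) (nat_lit 472001613319) (nat_lit 168) (nat_lit 77460765875)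 (nat_lit 252) (nat_lit 1309665564691) (nat_lit 36) (nat_lit 5) (nat_lit 38) (nat_lit 5) (nat_lit 39) (nat_lit 5) (nat_lit 454) (nat_lit 419) (nat_lit 207)) (XT.lf (nat_lit 0) (nat_lit 531433045669) (nat_lit 84) (nat_lit 952112642595) (nat_lit 168) (nat_lit 470244895933) (nat_lit 35) (nat_lit 5) (nat_lit 36) (nat_lit 5) (nat_lit 37) (nat_lit 4) (nat_lit 455) (nat_lit 419) (nat_lit 206))) (XT.nd (nat_lit 94) (nat_lit 84) (nat_lit 0) (XT.lf (nat_lit 0) (nat_lit 460104508886) (nat_lit 252) (nat_lit 1447105403832) (nat_lit 84) (nat_lit 146588689304) (nat_lit 32) (nat_lit 5) (nat_lit 35) (nat_lit 5) (nat_lit 33) (nat_lit 4) (nat_lit 456) (nat_lit 419) (nat_lit 205)) (XT.lf (nat_lit 0) (nat_lit 685853335574) (nat_lit 84) (nat_lit 814718857148) (nat_lit 168) (nat_lit 658241351057) (nat_lit 31) (nat_lit 5) (nat_lit 32) (nat_lit 5) (nat_lit 33) (nat_lit 4) (nat_lit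 457) (nat_lit 419) (nat_lit 204))))))) (XT.nd (nat_lit 1316) (nat_lit 756) (nat_lit 0) (XT.nd (nat_lit 658) (nat_lit 840) (nat_lit 0) (XT.nd (nat_lit 282) (nat_lit 504) (nat_lit 0) (XT.nd (nat_lit 94) (nat_lit 252) (nat_lit 0) (XT.lf (nat_lit 0) (nat_lit 385140842314) (nat_lit 252) (nat_lit 1486956198056) (nat_lit 84) (nat_lit 397639770313) (nat_lit 28) (nat_lit 5) (nat_lit 31) (nat_lit 5) (nat_lit 29) (nat_lit 4) (nat_lit 458) (nat_lit 419) (nat_lit 203)) (XT.nd (nat_lit 94) (nat_lit 168) (nat_lit 0) (XT.lf (nat_lit 0) (nat_lit 886442856387) (nat_lit 84) (nat_lit 656453627203) (nat_lit 168) (nat_lit 843399691113) (nat_lit 27) (nat_lit 5) (nat_lit 28) (nat_lit 5) (nat_lit 29) (nat_lit 4) (nat_lit 459) (nat_lit 419) (nat_lit 202)) (XT.lf (nat_lit 0) (nat_lit 325356617116) (nat_lit 168) (nat_lit 1501109358141) (nat_lit 84) (nat_lit 682831828793) (nat_lit 25)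 (nat_lit 5) (nat_lit 27) (nat_lit 5) (nat_lit 26) (nat_lit 4) (nat_lit 460) (nat_lit 419) (nat_lit 201)))) (XT.nd (nat_lit 188) (nat_lit 252) (nat_lit 0) (XT.nd (nat_lit 94) (nat_lit 168) (nat_lit 0) (XT.lf (nat_lit 0) (nat_lit 1140380289307) (nat_lit 84) (nat_lit 473507867201) (nat_lit 168) (nat_lit 1024768928850) (nat_lit 24) (nat_lit 5) (nat_lit 25) (nat_lit 5) (nat_lit 26) (nat_lit 4) (nat_lit 461) (nat_lit 419) (nat_lit 200)) (XT.lf (nat_lit 0) (nat_lit 283108869357) (nat_lit 168) (nat_lit 1484474855175) (nat_lit 84) (nat_lit 1007441994021) (nat_lit 22) (nat_lit 5) (nat_lit 24) (nat_lit 5) (nat_lit 23) (nat_lit 4) (nat_lit 462) (nat_lit 419) (nat_lit 199))) (XT.nd (nat_lit 94) (nat_lit 168) (nat_lit 0) (XT.lf (nat_lit 0) (nat_lit 1455895000288) (nat_lit 84) (nat_lit 261540631139) (nat_lit 168) (nat_lit 1201142153874) (nat_lit 21) (nat_lit 5) (nat_lit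 22) (nat_lit 5) (nat_lit 23) (nat_lit 4) (nat_lit 463) (nat_lit 419) (nat_lit 198)) (XT.lf (nat_lit 0) (nat_lit 261167586854) (nat_lit 168) (nat_lit 1431128399728) (nat_lit 84) (nat_lit 1377445104659) (nat_lit 19) (nat_lit 5) (nat_lit 21) (nat_lit 5) (nat_lit 20) (nat_lit 4) (nat_lit 464) (nat_lit 419) (nat_lit 197))))) (XT.nd (nat_lit 282) (nat_lit 504) (nat_lit 0) (XT.nd (nat_lit 94) (nat_lit 252) (nat_lit 0) (XT.lf (nat_lit 0) (nat_lit 1842407560972) (nat_lit 84) (nat_lit 15606838680) (nat_lit 168) (nat_lit 1371016796109) (nat_lit 18) (nat_lit 5) (nat_lit 19) (nat_lit 5) (nat_lit 20) (nat_lit 4) (nat_lit 465) (nat_lit 419) (nat_lit 196)) (XT.nd (nat_lit 94) (nat_lit 84) (nat_lit 0) (XT.lf (nat_lit 0) (nat_lit 262773102114) (nat_lit 168) (nat_lit 1334193201089) (nat_lit 84) (nat_lit 1799604524090) (nat_lit 16) (nat_lit 5) (nat_lit 18) (nat_lit 5) (nat_lit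 17) (nat_lit 4) (nat_lit 466) (nat_lit 419) (nat_lit 195)) (XT.lf (nat_lit 0) (nat_lit 2044978409031) (nat_lit 168) (nat_lit 1266839123865) (nat_lit 0) (nat_lit 261285013846) (nat_lit 15) (nat_lit 5) (nat_lit 17) (nat_lit 4) (nat_lit 15) (nat_lit 4) (nat_lit 467) (nat_lit 419) (nat_lit 194)))) (XT.nd (nat_lit 188) (nat_lit 252) (nat_lit 0) (XT.nd (nat_lit 94) (nat_lit 84) (nat_lit 0) (XT.lf (nat_lit 0) (nat_lit 291701225322) (nat_lit 168) (nat_lit 1185705887260) (nat_lit 84) (nat_lit 2281574312603) (nat_lit 13) (nat_lit 5) (nat_lit 15) (nat_lit 5) (nat_lit 14) (nat_lit 4) (nat_lit 468) (nat_lit 419) (nat_lit 193)) (XT.lf (nat_lit 0) (nat_lit 2280966266889) (nat_lit 168) (nat_lit 1091431557358) (nat_lit 0) (nat_lit 582210645114) (nat_lit 12) (nat_lit 5) (nat_lit 14) (nat_lit 4) (nat_lit 12) (nat_lit 4) (nat_lit 469) (nat_lit 419) (nat_lit 192))) (XT.nd (nat_lit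 94) (nat_lit 84) (nat_lit 0) (XT.lf (nat_lit 0) (nat_lit 352337107720) (nat_lit 168) (nat_lit 976464554204) (nat_lit 84) (nat_lit 2832014151889) (nat_lit 10) (nat_lit 5) (nat_lit 12) (nat_lit 5) (nat_lit 11) (nat_lit 4) (nat_lit 470) (nat_lit 419) (nat_lit 191)) (XT.lf (nat_lit 0) (nat_lit 2572588613753) (nat_lit 168) (nat_lit 850291677284) (nat_lit 0) (nat_lit 954726110854) (nat_lit 9) (nat_lit 5) (nat_lit 11) (nat_lit 4) (nat_lit 9) (nat_lit 4) (nat_lit 471) (nat_lit 419) (nat_lit 190)))))) (XT.nd (nat_lit 658) (nat_lit 0) (nat_lit 0) (XT.nd (nat_lit 282) (nat_lit 336) (nat_lit 0) (XT.nd (nat_lit 94) (nat_lit 252) (nat_lit 0) (XT.lf (nat_lit 0) (nat_lit 449758949463) (nat_lit 168) (nat_lit 695856659157) (nat_lit 84) (nat_lit 3460718585840) (nat_lit 7) (nat_lit 5) (nat_lit 9) (nat_lit 5) (nat_lit 8) (nat_lit 4) (nat_lit 472) (nat_lit 419) (nat_lit 189)) (XT.nd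 (nat_lit 94) (nat_lit 168) (nat_lit 0) (XT.lf (nat_lit 0) (nat_lit 2927675798244) (nat_lit 168) (nat_lit 532050677234) (nat_lit 0) (nat_lit 1386854362036) (nat_lit 6) (nat_lit 5) (nat_lit 8) (nat_lit 4) (nat_lit 6) (nat_lit 4) (nat_lit 473) (nat_lit 419) (nat_lit 188)) (XT.lf (nat_lit 0) (nat_lit 589832804991) (nat_lit 168) (nat_lit 331664188146) (nat_lit 84) (nat_lit 4178762330193) (nat_lit 4) (nat_lit 5) (nat_lit 6) (nat_lit 5) (nat_lit 5) (nat_lit 4) (nat_lit 474) (nat_lit 419) (nat_lit 187)))) (XT.nd (nat_lit 188) (nat_lit 0) (nat_lit 0) (XT.nd (nat_lit 94) (nat_lit 252) (nat_lit 0) (XT.lf (nat_lit 0) (nat_lit 3355161337787) (nat_lit 168) (nat_lit 123629492989) (nat_lit 0) (nat_lit 1887712346941) (nat_lit 3) (nat_lit 5) (nat_lit 5) (nat_lit 4) (nat_lit 3) (nat_lit 4) (nat_lit 475) (nat_lit 419) (nat_lit 186)) (XT.lf (nat_lit 0) (nat_lit 8192663469126)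 (nat_lit 0) (nat_lit 0) (nat_lit 0) (nat_lit 0) (nat_lit 0) (nat_lit 0) (nat_lit 1) (nat_lit 0) (nat_lit 1) (nat_lit 0) (nat_lit 476) (nat_lit 419) (nat_lit 185))) (XT.nd (nat_lit 94) (nat_lit 0) (nat_lit 0) (XT.lf (nat_lit 0) (nat_lit 8840022920924) (nat_lit 0) (nat_lit 0) (nat_lit 0) (nat_lit 0) (nat_lit 0) (nat_lit 0) (nat_lit 1) (nat_lit 0) (nat_lit 1) (nat_lit 0) (nat_lit 477) (nat_lit 419) (nat_lit 184)) (XT.lf (nat_lit 0) (nat_lit 9539171128882) (nat_lit 0) (nat_lit 0) (nat_lit 0) (nat_lit 0) (nat_lit 0) (nat_lit 0) (nat_lit 1) (nat_lit 0) (nat_lit 1) (nat_lit 0) (nat_lit 478) (nat_lit 419) (nat_lit 183))))) (XT.nd (nat_lit 376) (nat_lit 0) (nat_lit 0) (XT.nd (nat_lit 188) (nat_lit 0) (nat_lit 0) (XT.nd (nat_lit 94) (nat_lit 0) (nat_lit 0) (XT.lf (nat_lit 0) (nat_lit 10294251193493) (nat_lit 0) (nat_lit 0) (nat_lit 0) (nat_lit 0) (nat_lit 0) (nat_lit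 0) (nat_lit 1) (nat_lit 0) (nat_lit 1) (nat_lit 0) (nat_lit 479) (nat_lit 419) (nat_lit 182)) (XT.lf (nat_lit 0) (nat_lit 11109737663288) (nat_lit 0) (nat_lit 0) (nat_lit 0) (nat_lit 0) (nat_lit 0) (nat_lit 0) (nat_lit 1) (nat_lit 0) (nat_lit 1) (nat_lit 0) (nat_lit 480) (nat_lit 419) (nat_lit 181))) (XT.nd (nat_lit 94) (nat_lit 0) (nat_lit 0) (XT.lf (nat_lit 0) (nat_lit 11990463050680) (nat_lit 0) (nat_lit 0) (nat_lit 0) (nat_lit 0) (nat_lit 0) (nat_lit 0) (nat_lit 1) (nat_lit 0) (nat_lit 1) (nat_lit 0) (nat_lit 481) (nat_lit 419) (nat_lit 180)) (XT.lf (nat_lit 0) (nat_lit 12941646469076) (nat_lit 0) (nat_lit 0) (nat_lit 0) (nat_lit 0) (nat_lit 0) (nat_lit 0) (nat_lit 1) (nat_lit 0) (nat_lit 1) (nat_lit 0) (nat_lit 482) (nat_lit 419) (nat_lit 179)))) (XT.nd (nat_lit 188) (nat_lit 0) (nat_lit 0) (XT.nd (nat_lit 94) (nat_lit 0) (nat_lit 0) (XT.lf (nat_lit 0)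 (nat_lit 13968924560956) (nat_lit 0) (nat_lit 0) (nat_lit 0) (nat_lit 0) (nat_lit 0) (nat_lit 0) (nat_lit 1) (nat_lit 0) (nat_lit 1) (nat_lit 0) (nat_lit 483) (nat_lit 419) (nat_lit 178)) (XT.lf (nat_lit 0) (nat_lit 15078384900197) (nat_lit 0) (nat_lit 0) (nat_lit 0) (nat_lit 0) (nat_lit 0) (nat_lit 0) (nat_lit 1) (nat_lit 0) (nat_lit 1) (nat_lit 0) (nat_lit 484) (nat_lit 419) (nat_lit 177))) (XT.nd (nat_lit 94) (nat_lit 0) (nat_lit 0) (XT.lf (nat_lit 0) (nat_lit 16276602066588) (nat_lit 0) (nat_lit 0) (nat_lit 0) (nat_lit 0) (nat_lit 0) (nat_lit 0) (nat_lit 1) (nat_lit 0) (nat_lit 1) (nat_lit 0) (nat_lit 485) (nat_lit 419) (nat_lit 176)) (XT.lf (nat_lit 0) (nat_lit 17570676606299) (nat_lit 0) (nat_lit 0) (nat_lit 0) (nat_lit 0) (nat_lit 0) (nat_lit 0) (nat_lit 1) (nat_lit 0) (nat_lit 1) (nat_lit 0) (nat_lit 486) (nat_lit 419) (nat_lit 175))))))))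
noncomputable def xc207 : XT := (XT.nd (nat_lit 62698) (nat_lit 0) (nat_lit 2100) (XT.nd (nat_lit 1316) (nat_lit 0) (nat_lit 0) (XT.nd (nat_lit 658) (nat_lit 0) (nat_lit 0) (XT.nd (nat_lit 282) (nat_lit 0) (nat_lit 0) (XT.nd (nat_lit 94) (nat_lit 0) (nat_lit 0) (XT.lf (nat_lit 0) (nat_lit 18968277109196) (nat_lit 0) (nat_lit 0) (nat_lit 0) (nat_lit 0) (nat_lit 0) (nat_lit 0) (nat_lit 1) (nat_lit 0) (nat_lit 1) (nat_lit 0) (nat_lit 487) (nat_lit 419) (nat_lit 174)) (XT.nd (nat_lit 94) (nat_lit 0) (nat_lit 0) (XT.lf (nat_lit 0) (nat_lit 20477685652332) (nat_lit 0) (nat_lit 0) (nat_lit 0) (nat_lit 0) (nat_lit 0) (nat_lit 0) (nat_lit 1) (nat_lit 0) (nat_lit 1) (nat_lit 0) (nat_lit 488) (nat_lit 419) (nat_lit 173)) (XT.lf (nat_lit 0) (nat_lit 22107846878927) (nat_lit 0) (nat_lit 0) (nat_lit 0) (nat_lit 0) (nat_lit 0) (nat_lit 0) (nat_lit 1) (nat_lit 0) (nat_lit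 1) (nat_lit 0) (nat_lit 489) (nat_lit 419) (nat_lit 172)))) (XT.nd (nat_lit 188) (nat_lit 0) (nat_lit 0) (XT.nd (nat_lit 94) (nat_lit 0) (nat_lit 0) (XT.lf (nat_lit 0) (nat_lit 23868421003656) (nat_lit 0) (nat_lit 0) (nat_lit 0) (nat_lit 0) (nat_lit 0) (nat_lit 0) (nat_lit 1) (nat_lit 0) (nat_lit 1) (nat_lit 0) (nat_lit 490) (nat_lit 419) (nat_lit 171)) (XT.lf (nat_lit 0) (nat_lit 25769841058370) (nat_lit 0) (nat_lit 0) (nat_lit 0) (nat_lit 0) (nat_lit 0) (nat_lit 0) (nat_lit 1) (nat_lit 0) (nat_lit 1) (nat_lit 0) (nat_lit 491) (nat_lit 419) (nat_lit 170))) (XT.nd (nat_lit 94) (nat_lit 0) (nat_lit 0) (XT.lf (nat_lit 0) (nat_lit 27823374717467) (nat_lit 0) (nat_lit 0) (nat_lit 0) (nat_lit 0) (nat_lit 0) (nat_lit 0) (nat_lit 1) (nat_lit 0) (nat_lit 1) (nat_lit 0) (nat_lit 492) (nat_lit 419) (nat_lit 169)) (XT.lf (nat_lit 0) (nat_lit 30041191069298) (nat_lit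 0) (nat_lit 0) (nat_lit 0) (nat_lit 0) (nat_lit 0) (nat_lit 0) (nat_lit 1) (nat_lit 0) (nat_lit 1) (nat_lit 0) (nat_lit 493) (nat_lit 419) (nat_lit 168))))) (XT.nd (nat_lit 282) (nat_lit 0) (nat_lit 0) (XT.nd (nat_lit 94) (nat_lit 0) (nat_lit 0) (XT.lf (nat_lit 0) (nat_lit 32436432729279) (nat_lit 0) (nat_lit 0) (nat_lit 0) (nat_lit 0) (nat_lit 0) (nat_lit 0) (nat_lit 1) (nat_lit 0) (nat_lit 1) (nat_lit 0) (nat_lit 494) (nat_lit 419) (nat_lit 167)) (XT.nd (nat_lit 94) (nat_lit 0) (nat_lit 0) (XT.lf (nat_lit 0) (nat_lit 35023293722064) (nat_lit 0) (nat_lit 0) (nat_lit 0) (nat_lit 0) (nat_lit 0) (nat_lit 0) (nat_lit 1) (nat_lit 0) (nat_lit 1) (nat_lit 0) (nat_lit 495) (nat_lit 419) (nat_lit 166)) (XT.lf (nat_lit 0) (nat_lit 37817103594277) (nat_lit 0) (nat_lit 0) (nat_lit 0) (nat_lit 0) (nat_lit 0) (nat_lit 0) (nat_lit 1) (nat_lit 0) (nat_lit 1) (nat_lit 0)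 (nat_lit 496) (nat_lit 419) (nat_lit 165)))) (XT.nd (nat_lit 188) (nat_lit 0) (nat_lit 0) (XT.nd (nat_lit 94) (nat_lit 0) (nat_lit 0) (XT.lf (nat_lit 0) (nat_lit 40834418256270) (nat_lit 0) (nat_lit 0) (nat_lit 0) (nat_lit 0) (nat_lit 0) (nat_lit 0) (nat_lit 1) (nat_lit 0) (nat_lit 1) (nat_lit 0) (nat_lit 497) (nat_lit 419) (nat_lit 164)) (XT.lf (nat_lit 0) (nat_lit 44093118091226) (nat_lit 0) (nat_lit 0) (nat_lit 0) (nat_lit 0) (nat_lit 0) (nat_lit 0) (nat_lit 1) (nat_lit 0) (nat_lit 1) (nat_lit 0) (nat_lit 498) (nat_lit 419) (nat_lit 163))) (XT.nd (nat_lit 94) (nat_lit 0) (nat_lit 0) (XT.lf (nat_lit 0) (nat_lit 47612513912982) (nat_lit 0) (nat_lit 0) (nat_lit 0) (nat_lit 0) (nat_lit 0) (nat_lit 0) (nat_lit 1) (nat_lit 0) (nat_lit 1) (nat_lit 0) (nat_lit 499) (nat_lit 419) (nat_lit 162)) (XT.lf (nat_lit 0) (nat_lit 51413461400482) (nat_lit 0) (nat_lit 0)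 (nat_lit 0) (nat_lit 0) (nat_lit 0) (nat_lit 0) (nat_lit 1) (nat_lit 0) (nat_lit 1) (nat_lit 0) (nat_lit 500) (nat_lit 419) (nat_lit 161)))))) (XT.nd (nat_lit 60724) (nat_lit 0) (nat_lit 8568) (XT.nd (nat_lit 60348) (nat_lit 0) (nat_lit 10836) (XT.nd (nat_lit 60160) (nat_lit 0) (nat_lit 10752) (XT.lf (nat_lit 0) (nat_lit 55518484686985) (nat_lit 0) (nat_lit 0) (nat_lit 0) (nat_lit 0) (nat_lit 0) (nat_lit 0) (nat_lit 1) (nat_lit 0) (nat_lit 1) (nat_lit 0) (nat_lit 501) (nat_lit 419) (nat_lit 160)) (XT.nd (nat_lit 94) (nat_lit 0) (nat_lit 84) (XT.lf (nat_lit 0) (nat_lit 96601373622) (nat_lit 924) (nat_lit 54410914637) (nat_lit 924) (nat_lit 54410914637) (nat_lit 128) (nat_lit 3) (nat_lit 139) (nat_lit 3) (nat_lit 139) (nat_lit 5) (nat_lit 420) (nat_lit 420) (nat_lit 240)) (XT.lf (nat_lit 0) (nat_lit 204831096148) (nat_lit 840) (nat_lit 200331817172) (nat_lit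 924) (nat_lit 21922336755) (nat_lit 129) (nat_lit 5) (nat_lit 139) (nat_lit 5) (nat_lit 140) (nat_lit 5) (nat_lit 421) (nat_lit 420) (nat_lit 239)))) (XT.nd (nat_lit 188) (nat_lit 0) (nat_lit 168) (XT.nd (nat_lit 94) (nat_lit 0) (nat_lit 84) (XT.lf (nat_lit 84) (nat_lit 148150221596) (nat_lit 0) (nat_lit 78571839063) (nat_lit 924) (nat_lit 217434523854) (nat_lit 130) (nat_lit 5) (nat_lit 129) (nat_lit 5) (nat_lit 140) (nat_lit 5) (nat_lit 422) (nat_lit 420) (nat_lit 238)) (XT.lf (nat_lit 84) (nat_lit 67054176815) (nat_lit 0) (nat_lit 192184027193) (nat_lit 924) (nat_lit 202911726616) (nat_lit 131) (nat_lit 5) (nat_lit 130) (nat_lit 5) (nat_lit 141) (nat_lit 5) (nat_lit 423) (nat_lit 420) (nat_lit 237))) (XT.nd (nat_lit 94) (nat_lit 0) (nat_lit 84) (XT.lf (nat_lit 0) (nat_lit 303431182215) (nat_lit 840) (nat_lit 15514475325) (nat_lit 924) (nat_lit 162183309712)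 (nat_lit 131) (nat_lit 5) (nat_lit 141) (nat_lit 5) (nat_lit 142) (nat_lit 5) (nat_lit 424) (nat_lit 420) (nat_lit 236)) (XT.lf (nat_lit 0) (nat_lit 361387554448) (nat_lit 840) (nat_lit 97699400188) (nat_lit 924) (nat_lit 42027974388) (nat_lit 132) (nat_lit 5) (nat_lit 142) (nat_lit 5) (nat_lit 143) (nat_lit 5) (nat_lit 425) (nat_lit 420) (nat_lit 235))))) (XT.nd (nat_lit 282) (nat_lit 1176) (nat_lit 0) (XT.nd (nat_lit 94) (nat_lit 1344) (nat_lit 0) (XT.lf (nat_lit 84) (nat_lit 339201797402) (nat_lit 0) (nat_lit 95727173687) (nat_lit 924) (nat_lit 87223369917) (nat_lit 133) (nat_lit 5) (nat_lit 132) (nat_lit 5) (nat_lit 143) (nat_lit 5) (nat_lit 426) (nat_lit 420) (nat_lit 234)) (XT.nd (nat_lit 94) (nat_lit 588) (nat_lit 0) (XT.lf (nat_lit 0) (nat_lit 273861245099) (nat_lit 840) (nat_lit 251130255497) (nat_lit 924) (nat_lit 19349355372) (nat_lit 123) (nat_lit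 5) (nat_lit 133) (nat_lit 5) (nat_lit 134) (nat_lit 5) (nat_lit 427) (nat_lit 420) (nat_lit 233)) (XT.lf (nat_lit 0) (nat_lit 62690100955) (nat_lit 588) (nat_lit 360376822806) (nat_lit 84) (nat_lit 144672289051) (nat_lit 116) (nat_lit 5) (nat_lit 123) (nat_lit 5) (nat_lit 117) (nat_lit 5) (nat_lit 428) (nat_lit 420) (nat_lit 232)))) (XT.nd (nat_lit 188) (nat_lit 336) (nat_lit 0) (XT.nd (nat_lit 94) (nat_lit 420) (nat_lit 0) (XT.lf (nat_lit 0) (nat_lit 140164721051) (nat_lit 420) (nat_lit 21670809100) (nat_lit 504) (nat_lit 430597011748) (nat_lit 111) (nat_lit 5) (nat_lit 116) (nat_lit 5) (nat_lit 117) (nat_lit 5) (nat_lit 429) (nat_lit 420) (nat_lit 231)) (XT.lf (nat_lit 0) (nat_lit 70556436795) (nat_lit 420) (nat_lit 212268076894) (nat_lit 504) (nat_lit 335581227623) (nat_lit 106) (nat_lit 5) (nat_lit 111) (nat_lit 5) (nat_lit 112) (nat_lit 5) (nat_lit 430)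 (nat_lit 420) (nat_lit 230))) (XT.nd (nat_lit 94) (nat_lit 0) (nat_lit 0) (XT.lf (nat_lit 0) (nat_lit 1400124992) (nat_lit 336) (nat_lit 423931268212) (nat_lit 420) (nat_lit 220533464610) (nat_lit 102) (nat_lit 5) (nat_lit 106) (nat_lit 5) (nat_lit 107) (nat_lit 5) (nat_lit 431) (nat_lit 420) (nat_lit 229)) (XT.lf (nat_lit 0) (nat_lit 592586873856) (nat_lit 420) (nat_lit 64695452159) (nat_lit 84) (nat_lit 17570975082) (nat_lit 102) (nat_lit 5) (nat_lit 107) (nat_lit 5) (nat_lit 103) (nat_lit 5) (nat_lit 432) (nat_lit 420) (nat_lit 228))))))) (XT.nd (nat_lit 1316) (nat_lit 2520) (nat_lit 0) (XT.nd (nat_lit 658) (nat_lit 1680) (nat_lit 0) (XT.nd (nat_lit 282) (nat_lit 1176) (nat_lit 0) (XT.nd (nat_lit 94) (nat_lit 672) (nat_lit 0) (XT.lf (nat_lit 0) (nat_lit 81267982842) (nat_lit 420) (nat_lit 134032184496) (nat_lit 84) (nat_lit 489990680654) (nat_lit 97) (nat_lit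 5) (nat_lit 102) (nat_lit 5) (nat_lit 98) (nat_lit 5) (nat_lit 433) (nat_lit 420) (nat_lit 227)) (XT.nd (nat_lit 94) (nat_lit 336) (nat_lit 0) (XT.lf (nat_lit 0) (nat_lit 268858693352) (nat_lit 420) (nat_lit 203777628968) (nat_lit 84) (nat_lit 264766856696) (nat_lit 93) (nat_lit 5) (nat_lit 98) (nat_lit 5) (nat_lit 94) (nat_lit 5) (nat_lit 434) (nat_lit 420) (nat_lit 226)) (XT.lf (nat_lit 0) (nat_lit 485491613088) (nat_lit 420) (nat_lit 271777910330) (nat_lit 84) (nat_lit 14113225486) (nat_lit 89) (nat_lit 5) (nat_lit 94) (nat_lit 5) (nat_lit 90) (nat_lit 5) (nat_lit 435) (nat_lit 420) (nat_lit 225)))) (XT.nd (nat_lit 188) (nat_lit 504) (nat_lit 0) (XT.nd (nat_lit 94) (nat_lit 420) (nat_lit 0) (XT.lf (nat_lit 0) (nat_lit 465502796206) (nat_lit 252) (nat_lit 272797526152) (nat_lit 336) (nat_lit 68838104225) (nat_lit 86) (nat_lit 5) (nat_lit 89) (nat_lit 5)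 (nat_lit 90) (nat_lit 5) (nat_lit 436) (nat_lit 420) (nat_lit 224)) (XT.lf (nat_lit 0) (nat_lit 176061781356) (nat_lit 420) (nat_lit 411900173959) (nat_lit 84) (nat_lit 256874236471) (nat_lit 81) (nat_lit 5) (nat_lit 86) (nat_lit 5) (nat_lit 82) (nat_lit 5) (nat_lit 437) (nat_lit 420) (nat_lit 223))) (XT.nd (nat_lit 94) (nat_lit 252) (nat_lit 0) (XT.lf (nat_lit 0) (nat_lit 403476445667) (nat_lit 252) (nat_lit 51645573355) (nat_lit 336) (nat_lit 429522328853) (nat_lit 78) (nat_lit 5) (nat_lit 81) (nat_lit 5) (nat_lit 82) (nat_lit 5) (nat_lit 438) (nat_lit 420) (nat_lit 222)) (XT.lf (nat_lit 0) (nat_lit 375166692362) (nat_lit 252) (nat_lit 402727365375) (nat_lit 336) (nat_lit 148673749612) (nat_lit 75) (nat_lit 5) (nat_lit 78) (nat_lit 5) (nat_lit 79) (nat_lit 5) (nat_lit 439) (nat_lit 420) (nat_lit 221))))) (XT.nd (nat_lit 282) (nat_lit 924) (nat_lit 0) (XT.nd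 (nat_lit 94) (nat_lit 420) (nat_lit 0) (XT.lf (nat_lit 0) (nat_lit 167556378192) (nat_lit 336) (nat_lit 620269523266) (nat_lit 84) (nat_lit 183005362068) (nat_lit 71) (nat_lit 5) (nat_lit 75) (nat_lit 5) (nat_lit 72) (nat_lit 5) (nat_lit 440) (nat_lit 420) (nat_lit 220)) (XT.nd (nat_lit 94) (nat_lit 168) (nat_lit 0) (XT.lf (nat_lit 0) (nat_lit 327234875188) (nat_lit 252) (nat_lit 198373137299) (nat_lit 336) (nat_lit 491819324971) (nat_lit 68) (nat_lit 5) (nat_lit 71) (nat_lit 5) (nat_lit 72) (nat_lit 5) (nat_lit 441) (nat_lit 420) (nat_lit 219)) (XT.lf (nat_lit 0) (nat_lit 308327548500) (nat_lit 168) (nat_lit 626613977589) (nat_lit 252) (nat_lit 131677683787) (nat_lit 66) (nat_lit 5) (nat_lit 68) (nat_lit 5) (nat_lit 69) (nat_lit 5) (nat_lit 442) (nat_lit 420) (nat_lit 218)))) (XT.nd (nat_lit 188) (nat_lit 420) (nat_lit 0) (XT.nd (nat_lit 94) (nat_lit 168)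 (nat_lit 0) (XT.lf (nat_lit 0) (nat_lit 269585621702) (nat_lit 336) (nat_lit 824842242919) (nat_lit 84) (nat_lit 24090490605) (nat_lit 62) (nat_lit 5) (nat_lit 66) (nat_lit 5) (nat_lit 63) (nat_lit 5) (nat_lit 443) (nat_lit 420) (nat_lit 217)) (XT.lf (nat_lit 0) (nat_lit 278894280825) (nat_lit 168) (nat_lit 447849693347) (nat_lit 252) (nat_lit 446297159145) (nat_lit 60) (nat_lit 5) (nat_lit 62) (nat_lit 5) (nat_lit 63) (nat_lit 5) (nat_lit 444) (nat_lit 420) (nat_lit 216))) (XT.nd (nat_lit 94) (nat_lit 168) (nat_lit 0) (XT.lf (nat_lit 0) (nat_lit 12078089428) (nat_lit 252) (nat_lit 957186588877) (nat_lit 84) (nat_lit 261511877603) (nat_lit 57) (nat_lit 5) (nat_lit 60) (nat_lit 5) (nat_lit 58) (nat_lit 5) (nat_lit 445) (nat_lit 420) (nat_lit 215)) (XT.lf (nat_lit 0) (nat_lit 267554490723) (nat_lit 168) (nat_lit 251701446658) (nat_lit 252) (nat_lit 772120624684)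 (nat_lit 55) (nat_lit 5) (nat_lit 57) (nat_lit 5) (nat_lit 58) (nat_lit 5) (nat_lit 446) (nat_lit 420) (nat_lit 214)))))) (XT.nd (nat_lit 658) (nat_lit 1260) (nat_lit 0) (XT.nd (nat_lit 282) (nat_lit 672) (nat_lit 0) (XT.nd (nat_lit 94) (nat_lit 420) (nat_lit 0) (XT.lf (nat_lit 0) (nat_lit 268619258478) (nat_lit 168) (nat_lit 827699210152) (nat_lit 252) (nat_lit 259040577313) (nat_lit 53) (nat_lit 5) (nat_lit 55) (nat_lit 5) (nat_lit 56) (nat_lit 5) (nat_lit 447) (nat_lit 420) (nat_lit 213)) (XT.nd (nat_lit 94) (nat_lit 168) (nat_lit 0) (XT.lf (nat_lit 0) (nat_lit 277175529987) (nat_lit 168) (nat_lit 35164056458) (nat_lit 252) (nat_lit 1110555271041) (nat_lit 50) (nat_lit 5) (nat_lit 52) (nat_lit 5) (nat_lit 53) (nat_lit 5) (nat_lit 448) (nat_lit 420) (nat_lit 212)) (XT.lf (nat_lit 0) (nat_lit 285778025931) (nat_lit 168) (nat_lit 671214948702) (nat_lit 252)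 (nat_lit 536796314412) (nat_lit 48) (nat_lit 5) (nat_lit 50) (nat_lit 5) (nat_lit 51) (nat_lit 5) (nat_lit 449) (nat_lit 420) (nat_lit 211)))) (XT.nd (nat_lit 188) (nat_lit 336) (nat_lit 0) (XT.nd (nat_lit 94) (nat_lit 168) (nat_lit 0) (XT.lf (nat_lit 0) (nat_lit 109148984432) (nat_lit 168) (nat_lit 1261112643628) (nat_lit 84) (nat_lit 198582072072) (nat_lit 46) (nat_lit 5) (nat_lit 48) (nat_lit 5) (nat_lit 47) (nat_lit 5) (nat_lit 450) (nat_lit 420) (nat_lit 210)) (XT.lf (nat_lit 0) (nat_lit 328830493541) (nat_lit 168) (nat_lit 497223714719) (nat_lit 252) (nat_lit 821503707412) (nat_lit 44) (nat_lit 5) (nat_lit 46) (nat_lit 5) (nat_lit 47) (nat_lit 5) (nat_lit 451) (nat_lit 420) (nat_lit 209))) (XT.nd (nat_lit 94) (nat_lit 252) (nat_lit 0) (XT.lf (nat_lit 0) (nat_lit 363859803628) (nat_lit 84) (nat_lit 1271418758600) (nat_lit 168) (nat_lit 95542370618) (nat_lit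 43) (nat_lit 5) (nat_lit 44) (nat_lit 5) (nat_lit 45) (nat_lit 4) (nat_lit 452) (nat_lit 420) (nat_lit 208)) (XT.lf (nat_lit 0) (nat_lit 401902244002) (nat_lit 168) (nat_lit 302564329895) (nat_lit 252) (nat_lit 1113840606568) (nat_lit 40) (nat_lit 5) (nat_lit 42) (nat_lit 5) (nat_lit 43) (nat_lit 5) (nat_lit 453) (nat_lit 420) (nat_lit 207))))) (XT.nd (nat_lit 376) (nat_lit 588) (nat_lit 0) (XT.nd (nat_lit 188) (nat_lit 336) (nat_lit 0) (XT.nd (nat_lit 94) (nat_lit 252) (nat_lit 0) (XT.lf (nat_lit 0) (nat_lit 450284418744) (nat_lit 84) (nat_lit 1157734128809) (nat_lit 168) (nat_lit 302550984280) (nat_lit 39) (nat_lit 5) (nat_lit 40) (nat_lit 5) (nat_lit 41) (nat_lit 4) (nat_lit 454) (nat_lit 420) (nat_lit 206)) (XT.lf (nat_lit 0) (nat_lit 509762192139) (nat_lit 168) (nat_lit 83657420273) (nat_lit 252) (nat_lit 1414438554839) (nat_lit 36) (nat_lit 5) (nat_lit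 38) (nat_lit 5) (nat_lit 39) (nat_lit 5) (nat_lit 455) (nat_lit 420) (nat_lit 205))) (XT.nd (nat_lit 94) (nat_lit 252) (nat_lit 0) (XT.lf (nat_lit 0) (nat_lit 573948128058) (nat_lit 84) (nat_lit 1028281449999) (nat_lit 168) (nat_lit 507864241139) (nat_lit 35) (nat_lit 5) (nat_lit 36) (nat_lit 5) (nat_lit 37) (nat_lit 4) (nat_lit 456) (nat_lit 420) (nat_lit 204)) (XT.lf (nat_lit 0) (nat_lit 496913100291) (nat_lit 252) (nat_lit 1562873400663) (nat_lit 84) (nat_lit 158315977695) (nat_lit 32) (nat_lit 5) (nat_lit 35) (nat_lit 5) (nat_lit 33) (nat_lit 4) (nat_lit 457) (nat_lit 420) (nat_lit 203)))) (XT.nd (nat_lit 188) (nat_lit 252) (nat_lit 0) (XT.nd (nat_lit 94) (nat_lit 252) (nat_lit 0) (XT.lf (nat_lit 0) (nat_lit 740722018971) (nat_lit 84) (nat_lit 879896169278) (nat_lit 168) (nat_lit 710900428027) (nat_lit 31) (nat_lit 5) (nat_lit 32) (nat_lit 5) (nat_lit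 33) (nat_lit 4) (nat_lit 458) (nat_lit 420) (nat_lit 202)) (XT.lf (nat_lit 0) (nat_lit 415952326175) (nat_lit 252) (nat_lit 1605912280702) (nat_lit 84) (nat_lit 429451137838) (nat_lit 28) (nat_lit 5) (nat_lit 31) (nat_lit 5) (nat_lit 29) (nat_lit 4) (nat_lit 459) (nat_lit 420) (nat_lit 201))) (XT.nd (nat_lit 94) (nat_lit 168) (nat_lit 0) (XT.lf (nat_lit 0) (nat_lit 957358680141) (nat_lit 84) (nat_lit 708969728748) (nat_lit 168) (nat_lit 910871449460) (nat_lit 27) (nat_lit 5) (nat_lit 28) (nat_lit 5) (nat_lit 29) (nat_lit 4) (nat_lit 460) (nat_lit 420) (nat_lit 200)) (XT.lf (nat_lit 0) (nat_lit 351385349811) (nat_lit 168) (nat_lit 1621197714940) (nat_lit 84) (nat_lit 737458553457) (nat_lit 25) (nat_lit 5) (nat_lit 27) (nat_lit 5) (nat_lit 26) (nat_lit 4) (nat_lit 461) (nat_lit 420) (nat_lit 199))))))))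
noncomputable def xc208 : XT := (XT.nd (nat_lit 2632) (nat_lit 0) (nat_lit 0) (XT.nd (nat_lit 1316) (nat_lit 336) (nat_lit 0) (XT.nd (nat_lit 658) (nat_lit 924) (nat_lit 0) (XT.nd (nat_lit 282) (nat_lit 504) (nat_lit 0) (XT.nd (nat_lit 94) (nat_lit 252) (nat_lit 0) (XT.lf (nat_lit 0) (nat_lit 1231611087275) (nat_lit 84) (nat_lit 511388315871) (nat_lit 168) (nat_lit 1106750239335) (nat_lit 24) (nat_lit 5) (nat_lit 25) (nat_lit 5) (nat_lit 26) (nat_lit 4) (nat_lit 462) (nat_lit 420) (nat_lit 198)) (XT.nd (nat_lit 94) (nat_lit 84) (nat_lit 0) (XT.lf (nat_lit 0) (nat_lit 305757770039) (nat_lit 168) (nat_lit 1603232472150) (nat_lit 84) (nat_lit 1088037524292) (nat_lit 22) (nat_lit 5) (nat_lit 24) (nat_lit 5) (nat_lit 23) (nat_lit 4) (nat_lit 463) (nat_lit 420) (nat_lit 197)) (XT.lf (nat_lit 0) (nat_lit 1572366955609) (nat_lit 84) (nat_lit 282463708856) (nat_lit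 168) (nat_lit 1297233334535) (nat_lit 21) (nat_lit 5) (nat_lit 22) (nat_lit 5) (nat_lit 23) (nat_lit 4) (nat_lit 464) (nat_lit 420) (nat_lit 196)))) (XT.nd (nat_lit 188) (nat_lit 252) (nat_lit 0) (XT.nd (nat_lit 94) (nat_lit 84) (nat_lit 0) (XT.lf (nat_lit 0) (nat_lit 282061173605) (nat_lit 168) (nat_lit 1545618319755) (nat_lit 84) (nat_lit 1487640876190) (nat_lit 19) (nat_lit 5) (nat_lit 21) (nat_lit 5) (nat_lit 20) (nat_lit 4) (nat_lit 465) (nat_lit 420) (nat_lit 195)) (XT.lf (nat_lit 0) (nat_lit 1989800502506) (nat_lit 84) (nat_lit 16855220859) (nat_lit 168) (nat_lit 1480697959471) (nat_lit 18) (nat_lit 5) (nat_lit 19) (nat_lit 5) (nat_lit 20) (nat_lit 4) (nat_lit 466) (nat_lit 420) (nat_lit 194))) (XT.nd (nat_lit 94) (nat_lit 84) (nat_lit 0) (XT.lf (nat_lit 0) (nat_lit 283795119532) (nat_lit 168) (nat_lit 1440928323805) (nat_lit 84) (nat_lit 1943573041677)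 (nat_lit 16) (nat_lit 5) (nat_lit 18) (nat_lit 5) (nat_lit 17) (nat_lit 4) (nat_lit 467) (nat_lit 420) (nat_lit 193)) (XT.lf (nat_lit 0) (nat_lit 2208576845899) (nat_lit 168) (nat_lit 1368185929261) (nat_lit 0) (nat_lit 282187967115) (nat_lit 15) (nat_lit 5) (nat_lit 17) (nat_lit 4) (nat_lit 15) (nat_lit 4) (nat_lit 468) (nat_lit 420) (nat_lit 192))))) (XT.nd (nat_lit 282) (nat_lit 504) (nat_lit 0) (XT.nd (nat_lit 94) (nat_lit 252) (nat_lit 0) (XT.lf (nat_lit 0) (nat_lit 315037482752) (nat_lit 168) (nat_lit 1280562042559) (nat_lit 84) (nat_lit 2464100405918) (nat_lit 13) (nat_lit 5) (nat_lit 15) (nat_lit 5) (nat_lit 14) (nat_lit 4) (nat_lit 469) (nat_lit 420) (nat_lit 191)) (XT.nd (nat_lit 94) (nat_lit 168) (nat_lit 0) (XT.lf (nat_lit 0) (nat_lit 2463443722887) (nat_lit 168) (nat_lit 1178745774705) (nat_lit 0) (nat_lit 628787641585) (nat_lit 12) (nat_lit 5)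 (nat_lit 14) (nat_lit 4) (nat_lit 12) (nat_lit 4) (nat_lit 470) (nat_lit 420) (nat_lit 190)) (XT.lf (nat_lit 0) (nat_lit 380524226540) (nat_lit 168) (nat_lit 1054581419684) (nat_lit 84) (nat_lit 3058575425182) (nat_lit 10) (nat_lit 5) (nat_lit 12) (nat_lit 5) (nat_lit 11) (nat_lit 4) (nat_lit 471) (nat_lit 420) (nat_lit 189)))) (XT.nd (nat_lit 188) (nat_lit 252) (nat_lit 0) (XT.nd (nat_lit 94) (nat_lit 168) (nat_lit 0) (XT.lf (nat_lit 0) (nat_lit 2778395848616) (nat_lit 168) (nat_lit 918314720644) (nat_lit 0) (nat_lit 1031104337494) (nat_lit 9) (nat_lit 5) (nat_lit 11) (nat_lit 4) (nat_lit 9) (nat_lit 4) (nat_lit 472) (nat_lit 420) (nat_lit 188)) (XT.lf (nat_lit 0) (nat_lit 485739807013) (nat_lit 168) (nat_lit 751524909023) (nat_lit 84) (nat_lit 3737576206902) (nat_lit 7) (nat_lit 5) (nat_lit 9) (nat_lit 5) (nat_lit 8) (nat_lit 4) (nat_lit 473) (nat_lit 420)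 (nat_lit 187))) (XT.nd (nat_lit 94) (nat_lit 168) (nat_lit 0) (XT.lf (nat_lit 0) (nat_lit 3161889999543) (nat_lit 168) (nat_lit 574614456186) (nat_lit 0) (nat_lit 1497802841914) (nat_lit 6) (nat_lit 5) (nat_lit 8) (nat_lit 4) (nat_lit 6) (nat_lit 4) (nat_lit 474) (nat_lit 420) (nat_lit 186)) (XT.lf (nat_lit 0) (nat_lit 637019562913) (nat_lit 168) (nat_lit 358197055517) (nat_lit 84) (nat_lit 4513063444090) (nat_lit 4) (nat_lit 5) (nat_lit 6) (nat_lit 5) (nat_lit 5) (nat_lit 4) (nat_lit 475) (nat_lit 420) (nat_lit 185)))))) (XT.nd (nat_lit 658) (nat_lit 0) (nat_lit 0) (XT.nd (nat_lit 282) (nat_lit 0) (nat_lit 0) (XT.nd (nat_lit 94) (nat_lit 252) (nat_lit 0) (XT.lf (nat_lit 0) (nat_lit 3623574374445) (nat_lit 168) (nat_lit 133519592004) (nat_lit 0) (nat_lit 2038729459004) (nat_lit 3) (nat_lit 5) (nat_lit 5) (nat_lit 4) (nat_lit 3) (nat_lit 4) (nat_lit 476) (nat_lit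 420) (nat_lit 184)) (XT.nd (nat_lit 94) (nat_lit 0) (nat_lit 0) (XT.lf (nat_lit 0) (nat_lit 8848076546318) (nat_lit 0) (nat_lit 0) (nat_lit 0) (nat_lit 0) (nat_lit 0) (nat_lit 0) (nat_lit 1) (nat_lit 0) (nat_lit 1) (nat_lit 0) (nat_lit 477) (nat_lit 420) (nat_lit 183)) (XT.lf (nat_lit 0) (nat_lit 9547224754284) (nat_lit 0) (nat_lit 0) (nat_lit 0) (nat_lit 0) (nat_lit 0) (nat_lit 0) (nat_lit 1) (nat_lit 0) (nat_lit 1) (nat_lit 0) (nat_lit 478) (nat_lit 420) (nat_lit 182)))) (XT.nd (nat_lit 188) (nat_lit 0) (nat_lit 0) (XT.nd (nat_lit 94) (nat_lit 0) (nat_lit 0) (XT.lf (nat_lit 0) (nat_lit 10302304818903) (nat_lit 0) (nat_lit 0) (nat_lit 0) (nat_lit 0) (nat_lit 0) (nat_lit 0) (nat_lit 1) (nat_lit 0) (nat_lit 1) (nat_lit 0) (nat_lit 479) (nat_lit 420) (nat_lit 181)) (XT.lf (nat_lit 0) (nat_lit 11117791288704) (nat_lit 0) (nat_lit 0) (nat_lit 0) (nat_lit 0) (nat_lit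 0) (nat_lit 0) (nat_lit 1) (nat_lit 0) (nat_lit 1) (nat_lit 0) (nat_lit 480) (nat_lit 420) (nat_lit 180))) (XT.nd (nat_lit 94) (nat_lit 0) (nat_lit 0) (XT.lf (nat_lit 0) (nat_lit 11998516676102) (nat_lit 0) (nat_lit 0) (nat_lit 0) (nat_lit 0) (nat_lit 0) (nat_lit 0) (nat_lit 1) (nat_lit 0) (nat_lit 1) (nat_lit 0) (nat_lit 481) (nat_lit 420) (nat_lit 179)) (XT.lf (nat_lit 0) (nat_lit 12949700094504) (nat_lit 0) (nat_lit 0) (nat_lit 0) (nat_lit 0) (nat_lit 0) (nat_lit 0) (nat_lit 1) (nat_lit 0) (nat_lit 1) (nat_lit 0) (nat_lit 482) (nat_lit 420) (nat_lit 178))))) (XT.nd (nat_lit 282) (nat_lit 0) (nat_lit 0) (XT.nd (nat_lit 94) (nat_lit 0) (nat_lit 0) (XT.lf (nat_lit 0) (nat_lit 13976978186389) (nat_lit 0) (nat_lit 0) (nat_lit 0) (nat_lit 0) (nat_lit 0) (nat_lit 0) (nat_lit 1) (nat_lit 0) (nat_lit 1) (nat_lit 0) (nat_lit 483) (nat_lit 420) (nat_lit 177)) (XT.nd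 (nat_lit 94) (nat_lit 0) (nat_lit 0) (XT.lf (nat_lit 0) (nat_lit 15086438525635) (nat_lit 0) (nat_lit 0) (nat_lit 0) (nat_lit 0) (nat_lit 0) (nat_lit 0) (nat_lit 1) (nat_lit 0) (nat_lit 1) (nat_lit 0) (nat_lit 484) (nat_lit 420) (nat_lit 176)) (XT.lf (nat_lit 0) (nat_lit 16284655692030) (nat_lit 0) (nat_lit 0) (nat_lit 0) (nat_lit 0) (nat_lit 0) (nat_lit 0) (nat_lit 1) (nat_lit 0) (nat_lit 1) (nat_lit 0) (nat_lit 485) (nat_lit 420) (nat_lit 175)))) (XT.nd (nat_lit 188) (nat_lit 0) (nat_lit 0) (XT.nd (nat_lit 94) (nat_lit 0) (nat_lit 0) (XT.lf (nat_lit 0) (nat_lit 17578730231746) (nat_lit 0) (nat_lit 0) (nat_lit 0) (nat_lit 0) (nat_lit 0) (nat_lit 0) (nat_lit 1) (nat_lit 0) (nat_lit 1) (nat_lit 0) (nat_lit 486) (nat_lit 420) (nat_lit 174)) (XT.lf (nat_lit 0) (nat_lit 18976330734646) (nat_lit 0) (nat_lit 0) (nat_lit 0) (nat_lit 0) (nat_lit 0) (nat_lit 0) (nat_lit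 1) (nat_lit 0) (nat_lit 1) (nat_lit 0) (nat_lit 487) (nat_lit 420) (nat_lit 173))) (XT.nd (nat_lit 94) (nat_lit 0) (nat_lit 0) (XT.lf (nat_lit 0) (nat_lit 20485739277786) (nat_lit 0) (nat_lit 0) (nat_lit 0) (nat_lit 0) (nat_lit 0) (nat_lit 0) (nat_lit 1) (nat_lit 0) (nat_lit 1) (nat_lit 0) (nat_lit 488) (nat_lit 420) (nat_lit 172)) (XT.lf (nat_lit 0) (nat_lit 22115900504384) (nat_lit 0) (nat_lit 0) (nat_lit 0) (nat_lit 0) (nat_lit 0) (nat_lit 0) (nat_lit 1) (nat_lit 0) (nat_lit 1) (nat_lit 0) (nat_lit 489) (nat_lit 420) (nat_lit 171))))))) (XT.nd (nat_lit 61476) (nat_lit 0) (nat_lit 7476) (XT.nd (nat_lit 658) (nat_lit 0) (nat_lit 0) (XT.nd (nat_lit 282) (nat_lit 0) (nat_lit 0) (XT.nd (nat_lit 94) (nat_lit 0) (nat_lit 0) (XT.lf (nat_lit 0) (nat_lit 23876474629117) (nat_lit 0) (nat_lit 0) (nat_lit 0) (nat_lit 0) (nat_lit 0) (nat_lit 0) (nat_lit 1) (nat_lit 0)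 (nat_lit 1) (nat_lit 0) (nat_lit 490) (nat_lit 420) (nat_lit 170)) (XT.nd (nat_lit 94) (nat_lit 0) (nat_lit 0) (XT.lf (nat_lit 0) (nat_lit 25777894683834) (nat_lit 0) (nat_lit 0) (nat_lit 0) (nat_lit 0) (nat_lit 0) (nat_lit 0) (nat_lit 1) (nat_lit 0) (nat_lit 1) (nat_lit 0) (nat_lit 491) (nat_lit 420) (nat_lit 169)) (XT.lf (nat_lit 0) (nat_lit 27831428342933) (nat_lit 0) (nat_lit 0) (nat_lit 0) (nat_lit 0) (nat_lit 0) (nat_lit 0) (nat_lit 1) (nat_lit 0) (nat_lit 1) (nat_lit 0) (nat_lit 492) (nat_lit 420) (nat_lit 168)))) (XT.nd (nat_lit 188) (nat_lit 0) (nat_lit 0) (XT.nd (nat_lit 94) (nat_lit 0) (nat_lit 0) (XT.lf (nat_lit 0) (nat_lit 30049244694766) (nat_lit 0) (nat_lit 0) (nat_lit 0) (nat_lit 0) (nat_lit 0) (nat_lit 0) (nat_lit 1) (nat_lit 0) (nat_lit 1) (nat_lit 0) (nat_lit 493) (nat_lit 420) (nat_lit 167)) (XT.lf (nat_lit 0) (nat_lit 32444486354750) (nat_lit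 0) (nat_lit 0) (nat_lit 0) (nat_lit 0) (nat_lit 0) (nat_lit 0) (nat_lit 1) (nat_lit 0) (nat_lit 1) (nat_lit 0) (nat_lit 494) (nat_lit 420) (nat_lit 166))) (XT.nd (nat_lit 94) (nat_lit 0) (nat_lit 0) (XT.lf (nat_lit 0) (nat_lit 35031347347537) (nat_lit 0) (nat_lit 0) (nat_lit 0) (nat_lit 0) (nat_lit 0) (nat_lit 0) (nat_lit 1) (nat_lit 0) (nat_lit 1) (nat_lit 0) (nat_lit 495) (nat_lit 420) (nat_lit 165)) (XT.lf (nat_lit 0) (nat_lit 37825157219751) (nat_lit 0) (nat_lit 0) (nat_lit 0) (nat_lit 0) (nat_lit 0) (nat_lit 0) (nat_lit 1) (nat_lit 0) (nat_lit 1) (nat_lit 0) (nat_lit 496) (nat_lit 420) (nat_lit 164))))) (XT.nd (nat_lit 282) (nat_lit 0) (nat_lit 0) (XT.nd (nat_lit 94) (nat_lit 0) (nat_lit 0) (XT.lf (nat_lit 0) (nat_lit 40842471881746) (nat_lit 0) (nat_lit 0) (nat_lit 0) (nat_lit 0) (nat_lit 0) (nat_lit 0) (nat_lit 1) (nat_lit 0) (nat_lit 1) (nat_lit 0)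 (nat_lit 497) (nat_lit 420) (nat_lit 163)) (XT.nd (nat_lit 94) (nat_lit 0) (nat_lit 0) (XT.lf (nat_lit 0) (nat_lit 44101171716704) (nat_lit 0) (nat_lit 0) (nat_lit 0) (nat_lit 0) (nat_lit 0) (nat_lit 0) (nat_lit 1) (nat_lit 0) (nat_lit 1) (nat_lit 0) (nat_lit 498) (nat_lit 420) (nat_lit 162)) (XT.lf (nat_lit 0) (nat_lit 47620567538462) (nat_lit 0) (nat_lit 0) (nat_lit 0) (nat_lit 0) (nat_lit 0) (nat_lit 0) (nat_lit 1) (nat_lit 0) (nat_lit 1) (nat_lit 0) (nat_lit 499) (nat_lit 420) (nat_lit 161)))) (XT.nd (nat_lit 60348) (nat_lit 0) (nat_lit 10752) (XT.nd (nat_lit 94) (nat_lit 0) (nat_lit 0) (XT.lf (nat_lit 0) (nat_lit 51421515025963) (nat_lit 0) (nat_lit 0) (nat_lit 0) (nat_lit 0) (nat_lit 0) (nat_lit 0) (nat_lit 1) (nat_lit 0) (nat_lit 1) (nat_lit 0) (nat_lit 500) (nat_lit 420) (nat_lit 160)) (XT.lf (nat_lit 0) (nat_lit 55526538312468) (nat_lit 0) (nat_lit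 0) (nat_lit 0) (nat_lit 0) (nat_lit 0) (nat_lit 0) (nat_lit 1) (nat_lit 0) (nat_lit 1) (nat_lit 0) (nat_lit 501) (nat_lit 420) (nat_lit 159))) (XT.nd (nat_lit 94) (nat_lit 0) (nat_lit 84) (XT.lf (nat_lit 0) (nat_lit 104330068964) (nat_lit 924) (nat_lit 58763480445) (nat_lit 924) (nat_lit 58763480445) (nat_lit 128) (nat_lit 3) (nat_lit 139) (nat_lit 3) (nat_lit 139) (nat_lit 5) (nat_lit 421) (nat_lit 421) (nat_lit 238)) (XT.lf (nat_lit 0) (nat_lit 221218669301) (nat_lit 840) (nat_lit 216357711978) (nat_lit 924) (nat_lit 23675634528) (nat_lit 129) (nat_lit 5) (nat_lit 139) (nat_lit 5) (nat_lit 140) (nat_lit 5) (nat_lit 422) (nat_lit 421) (nat_lit 237)))))) (XT.nd (nat_lit 658) (nat_lit 2268) (nat_lit 0) (XT.nd (nat_lit 282) (nat_lit 1092) (nat_lit 0) (XT.nd (nat_lit 94) (nat_lit 0) (nat_lit 84) (XT.lf (nat_lit 84) (nat_lit 160002861618) (nat_lit 0) (nat_lit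 84857978667) (nat_lit 924) (nat_lit 234828220251) (nat_lit 130) (nat_lit 5) (nat_lit 129) (nat_lit 5) (nat_lit 140) (nat_lit 5) (nat_lit 423) (nat_lit 421) (nat_lit 236)) (XT.nd (nat_lit 94) (nat_lit 0) (nat_lit 84) (XT.lf (nat_lit 84) (nat_lit 72419160605) (nat_lit 0) (nat_lit 207559043796) (nat_lit 924) (nat_lit 219143673468) (nat_lit 131) (nat_lit 5) (nat_lit 130) (nat_lit 5) (nat_lit 141) (nat_lit 5) (nat_lit 424) (nat_lit 421) (nat_lit 235)) (XT.lf (nat_lit 0) (nat_lit 327706546678) (nat_lit 840) (nat_lit 16754983864) (nat_lit 924) (nat_lit 175157710596) (nat_lit 131) (nat_lit 5) (nat_lit 141) (nat_lit 5) (nat_lit 142) (nat_lit 5) (nat_lit 425) (nat_lit 421) (nat_lit 234)))) (XT.nd (nat_lit 188) (nat_lit 1344) (nat_lit 0) (XT.nd (nat_lit 94) (nat_lit 0) (nat_lit 0) (XT.lf (nat_lit 0) (nat_lit 390299370926) (nat_lit 840) (nat_lit 105514687157) (nat_lit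 924) (nat_lit 45390024656) (nat_lit 132) (nat_lit 5) (nat_lit 142) (nat_lit 5) (nat_lit 143) (nat_lit 5) (nat_lit 426) (nat_lit 421) (nat_lit 233)) (XT.lf (nat_lit 84) (nat_lit 366338577338) (nat_lit 0) (nat_lit 103385473336) (nat_lit 924) (nat_lit 94200439518) (nat_lit 133) (nat_lit 5) (nat_lit 132) (nat_lit 5) (nat_lit 143) (nat_lit 5) (nat_lit 427) (nat_lit 421) (nat_lit 232))) (XT.nd (nat_lit 94) (nat_lit 588) (nat_lit 0) (XT.lf (nat_lit 0) (nat_lit 295770791522) (nat_lit 840) (nat_lit 271220742863) (nat_lit 924) (nat_lit 20896554374) (nat_lit 123) (nat_lit 5) (nat_lit 133) (nat_lit 5) (nat_lit 134) (nat_lit 5) (nat_lit 428) (nat_lit 421) (nat_lit 231)) (XT.lf (nat_lit 0) (nat_lit 67705990129) (nat_lit 588) (nat_lit 389206292270) (nat_lit 84) (nat_lit 156246033383) (nat_lit 116) (nat_lit 5) (nat_lit 123) (nat_lit 5) (nat_lit 117) (nat_lit 5) (nat_lit 429)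 (nat_lit 421) (nat_lit 230))))) (XT.nd (nat_lit 282) (nat_lit 1092) (nat_lit 0) (XT.nd (nat_lit 94) (nat_lit 756) (nat_lit 0) (XT.lf (nat_lit 0) (nat_lit 151378545702) (nat_lit 420) (nat_lit 23404467608) (nat_lit 504) (nat_lit 465044099903) (nat_lit 111) (nat_lit 5) (nat_lit 116) (nat_lit 5) (nat_lit 117) (nat_lit 5) (nat_lit 430) (nat_lit 421) (nat_lit 229)) (XT.nd (nat_lit 94) (nat_lit 336) (nat_lit 0) (XT.lf (nat_lit 0) (nat_lit 76201601141) (nat_lit 420) (nat_lit 229249477156) (nat_lit 504) (nat_lit 362427092144) (nat_lit 106) (nat_lit 5) (nat_lit 111) (nat_lit 5) (nat_lit 112) (nat_lit 5) (nat_lit 431) (nat_lit 421) (nat_lit 228)) (XT.lf (nat_lit 0) (nat_lit 1512784351) (nat_lit 336) (nat_lit 457845689919) (nat_lit 420) (nat_lit 238175543688) (nat_lit 102) (nat_lit 5) (nat_lit 106) (nat_lit 5) (nat_lit 107) (nat_lit 5) (nat_lit 432) (nat_lit 421) (nat_lit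 227)))) (XT.nd (nat_lit 188) (nat_lit 672) (nat_lit 0) (XT.nd (nat_lit 94) (nat_lit 420) (nat_lit 0) (XT.lf (nat_lit 0) (nat_lit 639994352334) (nat_lit 420) (nat_lit 69870461856) (nat_lit 84) (nat_lit 18976724567) (nat_lit 102) (nat_lit 5) (nat_lit 107) (nat_lit 5) (nat_lit 103) (nat_lit 5) (nat_lit 433) (nat_lit 421) (nat_lit 226)) (XT.lf (nat_lit 0) (nat_lit 87769928419) (nat_lit 420) (nat_lit 144754143243) (nat_lit 84) (nat_lit 529190018822) (nat_lit 97) (nat_lit 5) (nat_lit 102) (nat_lit 5) (nat_lit 98) (nat_lit 5) (nat_lit 434) (nat_lit 421) (nat_lit 225))) (XT.nd (nat_lit 94) (nat_lit 336) (nat_lit 0) (XT.lf (nat_lit 0) (nat_lit 290367869145) (nat_lit 420) (nat_lit 220079227842) (nat_lit 84) (nat_lit 285948312335) (nat_lit 93) (nat_lit 5) (nat_lit 98) (nat_lit 5) (nat_lit 94) (nat_lit 5) (nat_lit 435) (nat_lit 421) (nat_lit 224)) (XT.lf (nat_lit 0) (nat_lit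 524331398056) (nat_lit 420) (nat_lit 293519537636) (nat_lit 84) (nat_lit 15242410327) (nat_lit 89) (nat_lit 5) (nat_lit 94) (nat_lit 5) (nat_lit 90) (nat_lit 5) (nat_lit 436) (nat_lit 421) (nat_lit 223))))))))
noncomputable def xc209 : XT := (XT.nd (nat_lit 2632) (nat_lit 1848) (nat_lit 0) (XT.nd (nat_lit 1316) (nat_lit 2184) (nat_lit 0) (XT.nd (nat_lit 658) (nat_lit 1512) (nat_lit 0) (XT.nd (nat_lit 282) (nat_lit 1008) (nat_lit 0) (XT.nd (nat_lit 94) (nat_lit 672) (nat_lit 0) (XT.lf (nat_lit 0) (nat_lit 502743599107) (nat_lit 252) (nat_lit 294621180232) (nat_lit 336) (nat_lit 74344699811) (nat_lit 86) (nat_lit 5) (nat_lit 89) (nat_lit 5) (nat_lit 90) (nat_lit 5) (nat_lit 437) (nat_lit 421) (nat_lit 222)) (XT.nd (nat_lit 94) (nat_lit 252) (nat_lit 0) (XT.lf (nat_lit 0) (nat_lit 190147140921) (nat_lit 420) (nat_lit 444851601640) (nat_lit 84) (nat_lit 277424323715)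 (nat_lit 81) (nat_lit 5) (nat_lit 86) (nat_lit 5) (nat_lit 82) (nat_lit 5) (nat_lit 438) (nat_lit 421) (nat_lit 221)) (XT.lf (nat_lit 0) (nat_lit 435755122079) (nat_lit 252) (nat_lit 55777053383) (nat_lit 336) (nat_lit 463883700497) (nat_lit 78) (nat_lit 5) (nat_lit 81) (nat_lit 5) (nat_lit 82) (nat_lit 5) (nat_lit 439) (nat_lit 421) (nat_lit 220)))) (XT.nd (nat_lit 188) (nat_lit 420) (nat_lit 0) (XT.nd (nat_lit 94) (nat_lit 336) (nat_lit 0) (XT.lf (nat_lit 0) (nat_lit 405180580550) (nat_lit 252) (nat_lit 434945378498) (nat_lit 336) (nat_lit 160567254053) (nat_lit 75) (nat_lit 5) (nat_lit 78) (nat_lit 5) (nat_lit 79) (nat_lit 5) (nat_lit 440) (nat_lit 421) (nat_lit 219)) (XT.lf (nat_lit 0) (nat_lit 180961254178) (nat_lit 336) (nat_lit 669890528873) (nat_lit 84) (nat_lit 197645963271) (nat_lit 71) (nat_lit 5) (nat_lit 75) (nat_lit 5) (nat_lit 72) (nat_lit 5)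 (nat_lit 441) (nat_lit 421) (nat_lit 218))) (XT.nd (nat_lit 94) (nat_lit 168) (nat_lit 0) (XT.lf (nat_lit 0) (nat_lit 353414197283) (nat_lit 252) (nat_lit 214242803149) (nat_lit 336) (nat_lit 531164506675) (nat_lit 68) (nat_lit 5) (nat_lit 71) (nat_lit 5) (nat_lit 72) (nat_lit 5) (nat_lit 442) (nat_lit 421) (nat_lit 217)) (XT.lf (nat_lit 0) (nat_lit 332994275165) (nat_lit 168) (nat_lit 676742905096) (nat_lit 252) (nat_lit 142211549801) (nat_lit 66) (nat_lit 5) (nat_lit 68) (nat_lit 5) (nat_lit 69) (nat_lit 5) (nat_lit 443) (nat_lit 421) (nat_lit 216))))) (XT.nd (nat_lit 282) (nat_lit 756) (nat_lit 0) (XT.nd (nat_lit 94) (nat_lit 420) (nat_lit 0) (XT.lf (nat_lit 0) (nat_lit 291152794910) (nat_lit 336) (nat_lit 890829098557) (nat_lit 84) (nat_lit 26017914004) (nat_lit 62) (nat_lit 5) (nat_lit 66) (nat_lit 5) (nat_lit 63) (nat_lit 5) (nat_lit 444) (nat_lit 421)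 (nat_lit 215)) (XT.nd (nat_lit 94) (nat_lit 252) (nat_lit 0) (XT.lf (nat_lit 0) (nat_lit 301206324324) (nat_lit 168) (nat_lit 483677475116) (nat_lit 252) (nat_lit 482000609176) (nat_lit 60) (nat_lit 5) (nat_lit 62) (nat_lit 5) (nat_lit 63) (nat_lit 5) (nat_lit 445) (nat_lit 421) (nat_lit 214)) (XT.lf (nat_lit 0) (nat_lit 13044636453) (nat_lit 252) (nat_lit 1033761015009) (nat_lit 84) (nat_lit 282433013926) (nat_lit 57) (nat_lit 5) (nat_lit 60) (nat_lit 5) (nat_lit 58) (nat_lit 5) (nat_lit 446) (nat_lit 421) (nat_lit 213)))) (XT.nd (nat_lit 188) (nat_lit 420) (nat_lit 0) (XT.nd (nat_lit 94) (nat_lit 168) (nat_lit 0) (XT.lf (nat_lit 0) (nat_lit 288959329188) (nat_lit 168) (nat_lit 271837368324) (nat_lit 252) (nat_lit 833889975261) (nat_lit 55) (nat_lit 5) (nat_lit 57) (nat_lit 5) (nat_lit 58) (nat_lit 5) (nat_lit 447) (nat_lit 421) (nat_lit 212)) (XT.lf (nat_lit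 0) (nat_lit 290109268277) (nat_lit 168) (nat_lit 893914951992) (nat_lit 252) (nat_lit 279763535642) (nat_lit 53) (nat_lit 5) (nat_lit 55) (nat_lit 5) (nat_lit 56) (nat_lit 5) (nat_lit 448) (nat_lit 421) (nat_lit 211))) (XT.nd (nat_lit 94) (nat_lit 168) (nat_lit 0) (XT.lf (nat_lit 0) (nat_lit 299350029932) (nat_lit 168) (nat_lit 37976988575) (nat_lit 252) (nat_lit 1199399414320) (nat_lit 50) (nat_lit 5) (nat_lit 52) (nat_lit 5) (nat_lit 53) (nat_lit 5) (nat_lit 449) (nat_lit 421) (nat_lit 210)) (XT.lf (nat_lit 0) (nat_lit 308640715475) (nat_lit 168) (nat_lit 724911952402) (nat_lit 252) (nat_lit 579739751528) (nat_lit 48) (nat_lit 5) (nat_lit 50) (nat_lit 5) (nat_lit 51) (nat_lit 5) (nat_lit 450) (nat_lit 421) (nat_lit 209)))))) (XT.nd (nat_lit 658) (nat_lit 1092) (nat_lit 0) (XT.nd (nat_lit 282) (nat_lit 672) (nat_lit 0) (XT.nd (nat_lit 94) (nat_lit 252) (nat_lit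 0) (XT.lf (nat_lit 0) (nat_lit 117881153190) (nat_lit 168) (nat_lit 1362001209490) (nat_lit 84) (nat_lit 214468820962) (nat_lit 46) (nat_lit 5) (nat_lit 48) (nat_lit 5) (nat_lit 47) (nat_lit 5) (nat_lit 451) (nat_lit 421) (nat_lit 208)) (XT.nd (nat_lit 94) (nat_lit 84) (nat_lit 0) (XT.lf (nat_lit 0) (nat_lit 355137359286) (nat_lit 168) (nat_lit 537001423776) (nat_lit 252) (nat_lit 887223753958) (nat_lit 44) (nat_lit 5) (nat_lit 46) (nat_lit 5) (nat_lit 47) (nat_lit 5) (nat_lit 452) (nat_lit 421) (nat_lit 207)) (XT.lf (nat_lit 0) (nat_lit 392969004235) (nat_lit 84) (nat_lit 1373132072691) (nat_lit 168) (nat_lit 103185519062) (nat_lit 43) (nat_lit 5) (nat_lit 44) (nat_lit 5) (nat_lit 45) (nat_lit 4) (nat_lit 453) (nat_lit 421) (nat_lit 206)))) (XT.nd (nat_lit 188) (nat_lit 336) (nat_lit 0) (XT.nd (nat_lit 94) (nat_lit 84) (nat_lit 0) (XT.lf (nat_lit 0) (nat_lit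 434054829131) (nat_lit 168) (nat_lit 326769293201) (nat_lit 252) (nat_lit 1202947621444) (nat_lit 40) (nat_lit 5) (nat_lit 42) (nat_lit 5) (nat_lit 43) (nat_lit 5) (nat_lit 454) (nat_lit 421) (nat_lit 205)) (XT.lf (nat_lit 0) (nat_lit 486307568133) (nat_lit 84) (nat_lit 1250352678092) (nat_lit 168) (nat_lit 326754837412) (nat_lit 39) (nat_lit 5) (nat_lit 40) (nat_lit 5) (nat_lit 41) (nat_lit 4) (nat_lit 455) (nat_lit 421) (nat_lit 204))) (XT.nd (nat_lit 94) (nat_lit 84) (nat_lit 0) (XT.lf (nat_lit 0) (nat_lit 550543553102) (nat_lit 168) (nat_lit 90349836536) (nat_lit 252) (nat_lit 1527593420582) (nat_lit 36) (nat_lit 5) (nat_lit 38) (nat_lit 5) (nat_lit 39) (nat_lit 5) (nat_lit 456) (nat_lit 421) (nat_lit 203)) (XT.lf (nat_lit 0) (nat_lit 619864354448) (nat_lit 84) (nat_lit 1110543791099) (nat_lit 168) (nat_lit 548493169124) (nat_lit 35) (nat_lit 5) (nat_lit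 36) (nat_lit 5) (nat_lit 37) (nat_lit 4) (nat_lit 457) (nat_lit 421) (nat_lit 202))))) (XT.nd (nat_lit 282) (nat_lit 504) (nat_lit 0) (XT.nd (nat_lit 94) (nat_lit 336) (nat_lit 0) (XT.lf (nat_lit 0) (nat_lit 536666346097) (nat_lit 252) (nat_lit 1687902899365) (nat_lit 84) (nat_lit 170981421590) (nat_lit 32) (nat_lit 5) (nat_lit 35) (nat_lit 5) (nat_lit 33) (nat_lit 4) (nat_lit 458) (nat_lit 421) (nat_lit 201)) (XT.nd (nat_lit 94) (nat_lit 252) (nat_lit 0) (XT.lf (nat_lit 0) (nat_lit 799980137614) (nat_lit 84) (nat_lit 950287694403) (nat_lit 168) (nat_lit 767772264125) (nat_lit 31) (nat_lit 5) (nat_lit 32) (nat_lit 5) (nat_lit 33) (nat_lit 4) (nat_lit 459) (nat_lit 421) (nat_lit 200)) (XT.lf (nat_lit 0) (nat_lit 449228697862) (nat_lit 252) (nat_lit 1734384908906) (nat_lit 84) (nat_lit 463807388245) (nat_lit 28) (nat_lit 5) (nat_lit 31) (nat_lit 5) (nat_lit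 29) (nat_lit 4) (nat_lit 460) (nat_lit 421) (nat_lit 199)))) (XT.nd (nat_lit 188) (nat_lit 252) (nat_lit 0) (XT.nd (nat_lit 94) (nat_lit 168) (nat_lit 0) (XT.lf (nat_lit 0) (nat_lit 1033947713408) (nat_lit 84) (nat_lit 765687145327) (nat_lit 168) (nat_lit 983740979424) (nat_lit 27) (nat_lit 5) (nat_lit 28) (nat_lit 5) (nat_lit 29) (nat_lit 4) (nat_lit 461) (nat_lit 421) (nat_lit 198)) (XT.lf (nat_lit 0) (nat_lit 379496352116) (nat_lit 168) (nat_lit 1750893196184) (nat_lit 84) (nat_lit 796455390649) (nat_lit 25) (nat_lit 5) (nat_lit 27) (nat_lit 5) (nat_lit 26) (nat_lit 4) (nat_lit 462) (nat_lit 421) (nat_lit 197))) (XT.nd (nat_lit 94) (nat_lit 168) (nat_lit 0) (XT.lf (nat_lit 0) (nat_lit 1330140295608) (nat_lit 84) (nat_lit 552299226214) (nat_lit 168) (nat_lit 1195290083736) (nat_lit 24) (nat_lit 5) (nat_lit 25) (nat_lit 5) (nat_lit 26) (nat_lit 4) (nat_lit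 463) (nat_lit 421) (nat_lit 196)) (XT.lf (nat_lit 0) (nat_lit 330218555509) (nat_lit 168) (nat_lit 1731490751472) (nat_lit 84) (nat_lit 1175080672625) (nat_lit 22) (nat_lit 5) (nat_lit 24) (nat_lit 5) (nat_lit 23) (nat_lit 4) (nat_lit 464) (nat_lit 421) (nat_lit 195))))))) (XT.nd (nat_lit 1316) (nat_lit 0) (nat_lit 0) (XT.nd (nat_lit 658) (nat_lit 1008) (nat_lit 0) (XT.nd (nat_lit 282) (nat_lit 504) (nat_lit 0) (XT.nd (nat_lit 94) (nat_lit 252) (nat_lit 0) (XT.lf (nat_lit 0) (nat_lit 1698156616667) (nat_lit 84) (nat_lit 305060657439) (nat_lit 168) (nat_lit 1401011836989) (nat_lit 21) (nat_lit 5) (nat_lit 22) (nat_lit 5) (nat_lit 23) (nat_lit 4) (nat_lit 465) (nat_lit 421) (nat_lit 194)) (XT.nd (nat_lit 94) (nat_lit 84) (nat_lit 0) (XT.lf (nat_lit 0) (nat_lit 304626221645) (nat_lit 168) (nat_lit 1669267483595) (nat_lit 84) (nat_lit 1606652286166) (nat_lit 19)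 (nat_lit 5) (nat_lit 21) (nat_lit 5) (nat_lit 20) (nat_lit 4) (nat_lit 466) (nat_lit 421) (nat_lit 193)) (XT.lf (nat_lit 0) (nat_lit 2148984831333) (nat_lit 84) (nat_lit 18203497140) (nat_lit 168) (nat_lit 1599153641627) (nat_lit 18) (nat_lit 5) (nat_lit 19) (nat_lit 5) (nat_lit 20) (nat_lit 4) (nat_lit 467) (nat_lit 421) (nat_lit 192)))) (XT.nd (nat_lit 188) (nat_lit 252) (nat_lit 0) (XT.nd (nat_lit 94) (nat_lit 84) (nat_lit 0) (XT.lf (nat_lit 0) (nat_lit 306498874199) (nat_lit 168) (nat_lit 1556202303897) (nat_lit 84) (nat_lit 2099059018464) (nat_lit 16) (nat_lit 5) (nat_lit 18) (nat_lit 5) (nat_lit 17) (nat_lit 4) (nat_lit 468) (nat_lit 421) (nat_lit 191)) (XT.lf (nat_lit 0) (nat_lit 2385263134300) (nat_lit 168) (nat_lit 1477640525383) (nat_lit 0) (nat_lit 304763134938) (nat_lit 15) (nat_lit 5) (nat_lit 17) (nat_lit 4) (nat_lit 15) (nat_lit 4) (nat_lit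 469) (nat_lit 421) (nat_lit 190))) (XT.nd (nat_lit 94) (nat_lit 84) (nat_lit 0) (XT.lf (nat_lit 0) (nat_lit 340240618035) (nat_lit 168) (nat_lit 1383006735318) (nat_lit 84) (nat_lit 2661228565541) (nat_lit 13) (nat_lit 5) (nat_lit 15) (nat_lit 5) (nat_lit 14) (nat_lit 4) (nat_lit 470) (nat_lit 421) (nat_lit 189)) (XT.lf (nat_lit 0) (nat_lit 2660519353303) (nat_lit 168) (nat_lit 1273045173271) (nat_lit 0) (nat_lit 679090777107) (nat_lit 12) (nat_lit 5) (nat_lit 14) (nat_lit 4) (nat_lit 12) (nat_lit 4) (nat_lit 471) (nat_lit 421) (nat_lit 188))))) (XT.nd (nat_lit 282) (nat_lit 588) (nat_lit 0) (XT.nd (nat_lit 94) (nat_lit 252) (nat_lit 0) (XT.lf (nat_lit 0) (nat_lit 410966293439) (nat_lit 168) (nat_lit 1138947677038) (nat_lit 84) (nat_lit 3303261580204) (nat_lit 10) (nat_lit 5) (nat_lit 12) (nat_lit 5) (nat_lit 11) (nat_lit 4) (nat_lit 472) (nat_lit 421) (nat_lit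 187)) (XT.nd (nat_lit 94) (nat_lit 168) (nat_lit 0) (XT.lf (nat_lit 0) (nat_lit 3000667641473) (nat_lit 168) (nat_lit 991779648962) (nat_lit 0) (nat_lit 1113592802611) (nat_lit 9) (nat_lit 5) (nat_lit 11) (nat_lit 4) (nat_lit 9) (nat_lit 4) (nat_lit 473) (nat_lit 421) (nat_lit 186)) (XT.lf (nat_lit 0) (nat_lit 524599112966) (nat_lit 168) (nat_lit 811646659234) (nat_lit 84) (nat_lit 4036582418504) (nat_lit 7) (nat_lit 5) (nat_lit 9) (nat_lit 5) (nat_lit 8) (nat_lit 4) (nat_lit 474) (nat_lit 421) (nat_lit 185)))) (XT.nd (nat_lit 188) (nat_lit 336) (nat_lit 0) (XT.nd (nat_lit 94) (nat_lit 168) (nat_lit 0) (XT.lf (nat_lit 0) (nat_lit 3414841317339) (nat_lit 168) (nat_lit 620583376717) (nat_lit 0) (nat_lit 1617627181507) (nat_lit 6) (nat_lit 5) (nat_lit 8) (nat_lit 4) (nat_lit 6) (nat_lit 4) (nat_lit 475) (nat_lit 421) (nat_lit 184)) (XT.lf (nat_lit 0) (nat_lit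 687981242420) (nat_lit 168) (nat_lit 386852590465) (nat_lit 84) (nat_lit 4874108628913) (nat_lit 4) (nat_lit 5) (nat_lit 6) (nat_lit 5) (nat_lit 5) (nat_lit 4) (nat_lit 476) (nat_lit 421) (nat_lit 183))) (XT.nd (nat_lit 94) (nat_lit 252) (nat_lit 0) (XT.lf (nat_lit 0) (nat_lit 3913460435542) (nat_lit 168) (nat_lit 144200936091) (nat_lit 0) (nat_lit 2201827922299) (nat_lit 3) (nat_lit 5) (nat_lit 5) (nat_lit 4) (nat_lit 3) (nat_lit 4) (nat_lit 477) (nat_lit 421) (nat_lit 182)) (XT.lf (nat_lit 0) (nat_lit 9555922669734) (nat_lit 0) (nat_lit 0) (nat_lit 0) (nat_lit 0) (nat_lit 0) (nat_lit 0) (nat_lit 1) (nat_lit 0) (nat_lit 1) (nat_lit 0) (nat_lit 478) (nat_lit 421) (nat_lit 181)))))) (XT.nd (nat_lit 658) (nat_lit 0) (nat_lit 0) (XT.nd (nat_lit 282) (nat_lit 0) (nat_lit 0) (XT.nd (nat_lit 94) (nat_lit 0) (nat_lit 0) (XT.lf (nat_lit 0) (nat_lit 10311002734359)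 (nat_lit 0) (nat_lit 0) (nat_lit 0) (nat_lit 0) (nat_lit 0) (nat_lit 0) (nat_lit 1) (nat_lit 0) (nat_lit 1) (nat_lit 0) (nat_lit 479) (nat_lit 421) (nat_lit 180)) (XT.nd (nat_lit 94) (nat_lit 0) (nat_lit 0) (XT.lf (nat_lit 0) (nat_lit 11126489204166) (nat_lit 0) (nat_lit 0) (nat_lit 0) (nat_lit 0) (nat_lit 0) (nat_lit 0) (nat_lit 1) (nat_lit 0) (nat_lit 1) (nat_lit 0) (nat_lit 480) (nat_lit 421) (nat_lit 179)) (XT.lf (nat_lit 0) (nat_lit 12007214591570) (nat_lit 0) (nat_lit 0) (nat_lit 0) (nat_lit 0) (nat_lit 0) (nat_lit 0) (nat_lit 1) (nat_lit 0) (nat_lit 1) (nat_lit 0) (nat_lit 481) (nat_lit 421) (nat_lit 178)))) (XT.nd (nat_lit 188) (nat_lit 0) (nat_lit 0) (XT.nd (nat_lit 94) (nat_lit 0) (nat_lit 0) (XT.lf (nat_lit 0) (nat_lit 12958398009977) (nat_lit 0) (nat_lit 0) (nat_lit 0) (nat_lit 0) (nat_lit 0) (nat_lit 0) (nat_lit 1) (nat_lit 0) (nat_lit 1) (nat_lit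 0) (nat_lit 482) (nat_lit 421) (nat_lit 177)) (XT.lf (nat_lit 0) (nat_lit 13985676101867) (nat_lit 0) (nat_lit 0) (nat_lit 0) (nat_lit 0) (nat_lit 0) (nat_lit 0) (nat_lit 1) (nat_lit 0) (nat_lit 1) (nat_lit 0) (nat_lit 483) (nat_lit 421) (nat_lit 176))) (XT.nd (nat_lit 94) (nat_lit 0) (nat_lit 0) (XT.lf (nat_lit 0) (nat_lit 15095136441118) (nat_lit 0) (nat_lit 0) (nat_lit 0) (nat_lit 0) (nat_lit 0) (nat_lit 0) (nat_lit 1) (nat_lit 0) (nat_lit 1) (nat_lit 0) (nat_lit 484) (nat_lit 421) (nat_lit 175)) (XT.lf (nat_lit 0) (nat_lit 16293353607517) (nat_lit 0) (nat_lit 0) (nat_lit 0) (nat_lit 0) (nat_lit 0) (nat_lit 0) (nat_lit 1) (nat_lit 0) (nat_lit 1) (nat_lit 0) (nat_lit 485) (nat_lit 421) (nat_lit 174))))) (XT.nd (nat_lit 376) (nat_lit 0) (nat_lit 0) (XT.nd (nat_lit 188) (nat_lit 0) (nat_lit 0) (XT.nd (nat_lit 94) (nat_lit 0) (nat_lit 0) (XT.lf (nat_lit 0)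 (nat_lit 17587428147236) (nat_lit 0) (nat_lit 0) (nat_lit 0) (nat_lit 0) (nat_lit 0) (nat_lit 0) (nat_lit 1) (nat_lit 0) (nat_lit 1) (nat_lit 0) (nat_lit 486) (nat_lit 421) (nat_lit 173)) (XT.lf (nat_lit 0) (nat_lit 18985028650140) (nat_lit 0) (nat_lit 0) (nat_lit 0) (nat_lit 0) (nat_lit 0) (nat_lit 0) (nat_lit 1) (nat_lit 0) (nat_lit 1) (nat_lit 0) (nat_lit 487) (nat_lit 421) (nat_lit 172))) (XT.nd (nat_lit 94) (nat_lit 0) (nat_lit 0) (XT.lf (nat_lit 0) (nat_lit 20494437193284) (nat_lit 0) (nat_lit 0) (nat_lit 0) (nat_lit 0) (nat_lit 0) (nat_lit 0) (nat_lit 1) (nat_lit 0) (nat_lit 1) (nat_lit 0) (nat_lit 488) (nat_lit 421) (nat_lit 171)) (XT.lf (nat_lit 0) (nat_lit 22124598419885) (nat_lit 0) (nat_lit 0) (nat_lit 0) (nat_lit 0) (nat_lit 0) (nat_lit 0) (nat_lit 1) (nat_lit 0) (nat_lit 1) (nat_lit 0) (nat_lit 489) (nat_lit 421) (nat_lit 170)))) (XT.nd (nat_lit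 188) (nat_lit 0) (nat_lit 0) (XT.nd (nat_lit 94) (nat_lit 0) (nat_lit 0) (XT.lf (nat_lit 0) (nat_lit 23885172544620) (nat_lit 0) (nat_lit 0) (nat_lit 0) (nat_lit 0) (nat_lit 0) (nat_lit 0) (nat_lit 1) (nat_lit 0) (nat_lit 1) (nat_lit 0) (nat_lit 490) (nat_lit 421) (nat_lit 169)) (XT.lf (nat_lit 0) (nat_lit 25786592599339) (nat_lit 0) (nat_lit 0) (nat_lit 0) (nat_lit 0) (nat_lit 0) (nat_lit 0) (nat_lit 1) (nat_lit 0) (nat_lit 1) (nat_lit 0) (nat_lit 491) (nat_lit 421) (nat_lit 168))) (XT.nd (nat_lit 94) (nat_lit 0) (nat_lit 0) (XT.lf (nat_lit 0) (nat_lit 27840126258442) (nat_lit 0) (nat_lit 0) (nat_lit 0) (nat_lit 0) (nat_lit 0) (nat_lit 0) (nat_lit 1) (nat_lit 0) (nat_lit 1) (nat_lit 0) (nat_lit 492) (nat_lit 421) (nat_lit 167)) (XT.lf (nat_lit 0) (nat_lit 30057942610277) (nat_lit 0) (nat_lit 0) (nat_lit 0) (nat_lit 0) (nat_lit 0) (nat_lit 0) (nat_lit 1) (nat_lit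 0) (nat_lit 1) (nat_lit 0) (nat_lit 493) (nat_lit 421) (nat_lit 166))))))))
noncomputable def xc210 : XT := (XT.nd (nat_lit 62886) (nat_lit 0) (nat_lit 1260) (XT.nd (nat_lit 61570) (nat_lit 0) (nat_lit 6300) (XT.nd (nat_lit 658) (nat_lit 0) (nat_lit 0) (XT.nd (nat_lit 282) (nat_lit 0) (nat_lit 0) (XT.nd (nat_lit 94) (nat_lit 0) (nat_lit 0) (XT.lf (nat_lit 0) (nat_lit 32453184270263) (nat_lit 0) (nat_lit 0) (nat_lit 0) (nat_lit 0) (nat_lit 0) (nat_lit 0) (nat_lit 1) (nat_lit 0) (nat_lit 1) (nat_lit 0) (nat_lit 494) (nat_lit 421) (nat_lit 165)) (XT.nd (nat_lit 94) (nat_lit 0) (nat_lit 0) (XT.lf (nat_lit 0) (nat_lit 35040045263052) (nat_lit 0) (nat_lit 0) (nat_lit 0) (nat_lit 0) (nat_lit 0) (nat_lit 0) (nat_lit 1) (nat_lit 0) (nat_lit 1) (nat_lit 0) (nat_lit 495) (nat_lit 421) (nat_lit 164)) (XT.lf (nat_lit 0) (nat_lit 37833855135268) (nat_lit 0) (nat_lit 0)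 (nat_lit 0) (nat_lit 0) (nat_lit 0) (nat_lit 0) (nat_lit 1) (nat_lit 0) (nat_lit 1) (nat_lit 0) (nat_lit 496) (nat_lit 421) (nat_lit 163)))) (XT.nd (nat_lit 188) (nat_lit 0) (nat_lit 0) (XT.nd (nat_lit 94) (nat_lit 0) (nat_lit 0) (XT.lf (nat_lit 0) (nat_lit 40851169797264) (nat_lit 0) (nat_lit 0) (nat_lit 0) (nat_lit 0) (nat_lit 0) (nat_lit 0) (nat_lit 1) (nat_lit 0) (nat_lit 1) (nat_lit 0) (nat_lit 497) (nat_lit 421) (nat_lit 162)) (XT.lf (nat_lit 0) (nat_lit 44109869632224) (nat_lit 0) (nat_lit 0) (nat_lit 0) (nat_lit 0) (nat_lit 0) (nat_lit 0) (nat_lit 1) (nat_lit 0) (nat_lit 1) (nat_lit 0) (nat_lit 498) (nat_lit 421) (nat_lit 161))) (XT.nd (nat_lit 94) (nat_lit 0) (nat_lit 0) (XT.lf (nat_lit 0) (nat_lit 47629265453983) (nat_lit 0) (nat_lit 0) (nat_lit 0) (nat_lit 0) (nat_lit 0) (nat_lit 0) (nat_lit 1) (nat_lit 0) (nat_lit 1) (nat_lit 0) (nat_lit 499) (nat_lit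 421) (nat_lit 160)) (XT.lf (nat_lit 0) (nat_lit 51430212941486) (nat_lit 0) (nat_lit 0) (nat_lit 0) (nat_lit 0) (nat_lit 0) (nat_lit 0) (nat_lit 1) (nat_lit 0) (nat_lit 1) (nat_lit 0) (nat_lit 500) (nat_lit 421) (nat_lit 159))))) (XT.nd (nat_lit 60536) (nat_lit 0) (nat_lit 10836) (XT.nd (nat_lit 60348) (nat_lit 0) (nat_lit 10752) (XT.lf (nat_lit 0) (nat_lit 55535236227991) (nat_lit 0) (nat_lit 0) (nat_lit 0) (nat_lit 0) (nat_lit 0) (nat_lit 0) (nat_lit 1) (nat_lit 0) (nat_lit 1) (nat_lit 0) (nat_lit 501) (nat_lit 421) (nat_lit 158)) (XT.nd (nat_lit 94) (nat_lit 0) (nat_lit 84) (XT.lf (nat_lit 0) (nat_lit 112676976413) (nat_lit 924) (nat_lit 63464295367) (nat_lit 924) (nat_lit 63464295367) (nat_lit 128) (nat_lit 3) (nat_lit 139) (nat_lit 3) (nat_lit 139) (nat_lit 5) (nat_lit 422) (nat_lit 422) (nat_lit 236)) (XT.lf (nat_lit 0) (nat_lit 238917093454) (nat_lit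 840) (nat_lit 233665771180) (nat_lit 924) (nat_lit 25569265908) (nat_lit 129) (nat_lit 5) (nat_lit 139) (nat_lit 5) (nat_lit 140) (nat_lit 5) (nat_lit 423) (nat_lit 422) (nat_lit 235)))) (XT.nd (nat_lit 188) (nat_lit 0) (nat_lit 168) (XT.nd (nat_lit 94) (nat_lit 0) (nat_lit 84) (XT.lf (nat_lit 84) (nat_lit 172803624064) (nat_lit 0) (nat_lit 91646953448) (nat_lit 924) (nat_lit 253613564366) (nat_lit 130) (nat_lit 5) (nat_lit 129) (nat_lit 5) (nat_lit 140) (nat_lit 5) (nat_lit 424) (nat_lit 422) (nat_lit 234)) (XT.lf (nat_lit 84) (nat_lit 78213250420) (nat_lit 0) (nat_lit 224164019725) (nat_lit 924) (nat_lit 236674317485) (nat_lit 131) (nat_lit 5) (nat_lit 130) (nat_lit 5) (nat_lit 141) (nat_lit 5) (nat_lit 425) (nat_lit 422) (nat_lit 233))) (XT.nd (nat_lit 94) (nat_lit 0) (nat_lit 84) (XT.lf (nat_lit 0) (nat_lit 353923816199) (nat_lit 840) (nat_lit 18094825743)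 (nat_lit 924) (nat_lit 189170101198) (nat_lit 131) (nat_lit 5) (nat_lit 141) (nat_lit 5) (nat_lit 142) (nat_lit 5) (nat_lit 426) (nat_lit 422) (nat_lit 232)) (XT.lf (nat_lit 0) (nat_lit 421524016864) (nat_lit 840) (nat_lit 113955291961) (nat_lit 924) (nat_lit 49021065721) (nat_lit 132) (nat_lit 5) (nat_lit 142) (nat_lit 5) (nat_lit 143) (nat_lit 5) (nat_lit 427) (nat_lit 422) (nat_lit 231)))))) (XT.nd (nat_lit 658) (nat_lit 2268) (nat_lit 0) (XT.nd (nat_lit 282) (nat_lit 1176) (nat_lit 0) (XT.nd (nat_lit 94) (nat_lit 1344) (nat_lit 0) (XT.lf (nat_lit 84) (nat_lit 395646208915) (nat_lit 0) (nat_lit 111656419016) (nat_lit 924) (nat_lit 101735788815) (nat_lit 133) (nat_lit 5) (nat_lit 132) (nat_lit 5) (nat_lit 143) (nat_lit 5) (nat_lit 428) (nat_lit 422) (nat_lit 230)) (XT.nd (nat_lit 94) (nat_lit 588) (nat_lit 0) (XT.lf (nat_lit 0) (nat_lit 319433009383) (nat_lit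 840) (nat_lit 292918459671) (nat_lit 924) (nat_lit 22567636210) (nat_lit 123) (nat_lit 5) (nat_lit 133) (nat_lit 5) (nat_lit 134) (nat_lit 5) (nat_lit 429) (nat_lit 422) (nat_lit 229)) (XT.lf (nat_lit 0) (nat_lit 73123053271) (nat_lit 588) (nat_lit 420342215781) (nat_lit 84) (nat_lit 168745682796) (nat_lit 116) (nat_lit 5) (nat_lit 123) (nat_lit 5) (nat_lit 117) (nat_lit 5) (nat_lit 430) (nat_lit 422) (nat_lit 228)))) (XT.nd (nat_lit 188) (nat_lit 336) (nat_lit 0) (XT.nd (nat_lit 94) (nat_lit 420) (nat_lit 0) (XT.lf (nat_lit 0) (nat_lit 163489384028) (nat_lit 420) (nat_lit 25276819684) (nat_lit 504) (nat_lit 502247051092) (nat_lit 111) (nat_lit 5) (nat_lit 116) (nat_lit 5) (nat_lit 117) (nat_lit 5) (nat_lit 431) (nat_lit 422) (nat_lit 227)) (XT.lf (nat_lit 0) (nat_lit 82298285991) (nat_lit 420) (nat_lit 247589395986) (nat_lit 504) (nat_lit 391420716230) (nat_lit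 106) (nat_lit 5) (nat_lit 111) (nat_lit 5) (nat_lit 112) (nat_lit 5) (nat_lit 432) (nat_lit 422) (nat_lit 226))) (XT.nd (nat_lit 94) (nat_lit 0) (nat_lit 0) (XT.lf (nat_lit 0) (nat_lit 1634363820) (nat_lit 336) (nat_lit 494473276741) (nat_lit 420) (nat_lit 257229074417) (nat_lit 102) (nat_lit 5) (nat_lit 106) (nat_lit 5) (nat_lit 107) (nat_lit 5) (nat_lit 433) (nat_lit 422) (nat_lit 225)) (XT.lf (nat_lit 0) (nat_lit 691194353684) (nat_lit 420) (nat_lit 75459561701) (nat_lit 84) (nat_lit 20494923814) (nat_lit 102) (nat_lit 5) (nat_lit 107) (nat_lit 5) (nat_lit 103) (nat_lit 5) (nat_lit 434) (nat_lit 422) (nat_lit 224))))) (XT.nd (nat_lit 282) (nat_lit 1176) (nat_lit 0) (XT.nd (nat_lit 94) (nat_lit 672) (nat_lit 0) (XT.lf (nat_lit 0) (nat_lit 94791957319) (nat_lit 420) (nat_lit 156333946571) (nat_lit 84) (nat_lit 571525292102) (nat_lit 97) (nat_lit 5) (nat_lit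 102) (nat_lit 5) (nat_lit 98) (nat_lit 5) (nat_lit 435) (nat_lit 422) (nat_lit 223)) (XT.nd (nat_lit 94) (nat_lit 336) (nat_lit 0) (XT.lf (nat_lit 0) (nat_lit 313597710477) (nat_lit 420) (nat_lit 237685041854) (nat_lit 84) (nat_lit 308824269146) (nat_lit 93) (nat_lit 5) (nat_lit 98) (nat_lit 5) (nat_lit 94) (nat_lit 5) (nat_lit 436) (nat_lit 422) (nat_lit 222)) (XT.lf (nat_lit 0) (nat_lit 566278300780) (nat_lit 420) (nat_lit 317000581511) (nat_lit 84) (nat_lit 16461911866) (nat_lit 89) (nat_lit 5) (nat_lit 94) (nat_lit 5) (nat_lit 90) (nat_lit 5) (nat_lit 437) (nat_lit 422) (nat_lit 221)))) (XT.nd (nat_lit 188) (nat_lit 504) (nat_lit 0) (XT.nd (nat_lit 94) (nat_lit 420) (nat_lit 0) (XT.lf (nat_lit 0) (nat_lit 542963583611) (nat_lit 252) (nat_lit 318190747754) (nat_lit 336) (nat_lit 80291887634) (nat_lit 86) (nat_lit 5) (nat_lit 89) (nat_lit 5) (nat_lit 90)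 (nat_lit 5) (nat_lit 438) (nat_lit 422) (nat_lit 220)) (XT.lf (nat_lit 0) (nat_lit 205359269753) (nat_lit 420) (nat_lit 480439227169) (nat_lit 84) (nat_lit 299618396778) (nat_lit 81) (nat_lit 5) (nat_lit 86) (nat_lit 5) (nat_lit 82) (nat_lit 5) (nat_lit 439) (nat_lit 422) (nat_lit 219))) (XT.nd (nat_lit 94) (nat_lit 252) (nat_lit 0) (XT.lf (nat_lit 0) (nat_lit 470616012605) (nat_lit 252) (nat_lit 60239075472) (nat_lit 336) (nat_lit 500994041029) (nat_lit 78) (nat_lit 5) (nat_lit 81) (nat_lit 5) (nat_lit 82) (nat_lit 5) (nat_lit 440) (nat_lit 422) (nat_lit 218)) (XT.lf (nat_lit 0) (nat_lit 437595500931) (nat_lit 252) (nat_lit 469740857796) (nat_lit 336) (nat_lit 173412295276) (nat_lit 75) (nat_lit 5) (nat_lit 78) (nat_lit 5) (nat_lit 79) (nat_lit 5) (nat_lit 441) (nat_lit 422) (nat_lit 217))))))) (XT.nd (nat_lit 1316) (nat_lit 2100) (nat_lit 0) (XT.nd (nat_lit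 658) (nat_lit 1260) (nat_lit 0) (XT.nd (nat_lit 282) (nat_lit 924) (nat_lit 0) (XT.nd (nat_lit 94) (nat_lit 420) (nat_lit 0) (XT.lf (nat_lit 0) (nat_lit 195438468067) (nat_lit 336) (nat_lit 723481294285) (nat_lit 84) (nat_lit 213457787998) (nat_lit 71) (nat_lit 5) (nat_lit 75) (nat_lit 5) (nat_lit 72) (nat_lit 5) (nat_lit 442) (nat_lit 422) (nat_lit 216)) (XT.nd (nat_lit 94) (nat_lit 168) (nat_lit 0) (XT.lf (nat_lit 0) (nat_lit 381687789238) (nat_lit 252) (nat_lit 231382068679) (nat_lit 336) (nat_lit 573657354886) (nat_lit 68) (nat_lit 5) (nat_lit 71) (nat_lit 5) (nat_lit 72) (nat_lit 5) (nat_lit 443) (nat_lit 422) (nat_lit 215)) (XT.lf (nat_lit 0) (nat_lit 359634265382) (nat_lit 168) (nat_lit 730882174009) (nat_lit 252) (nat_lit 153588174840) (nat_lit 66) (nat_lit 5) (nat_lit 68) (nat_lit 5) (nat_lit 69) (nat_lit 5) (nat_lit 444) (nat_lit 422) (nat_lit 214))))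 (XT.nd (nat_lit 188) (nat_lit 420) (nat_lit 0) (XT.nd (nat_lit 94) (nat_lit 168) (nat_lit 0) (XT.lf (nat_lit 0) (nat_lit 314445295827) (nat_lit 336) (nat_lit 962094977371) (nat_lit 84) (nat_lit 28099505004) (nat_lit 62) (nat_lit 5) (nat_lit 66) (nat_lit 5) (nat_lit 63) (nat_lit 5) (nat_lit 445) (nat_lit 422) (nat_lit 213)) (XT.lf (nat_lit 0) (nat_lit 325303259824) (nat_lit 168) (nat_lit 522371507060) (nat_lit 252) (nat_lit 520560381248) (nat_lit 60) (nat_lit 5) (nat_lit 62) (nat_lit 5) (nat_lit 63) (nat_lit 5) (nat_lit 446) (nat_lit 422) (nat_lit 212))) (XT.nd (nat_lit 94) (nat_lit 168) (nat_lit 0) (XT.lf (nat_lit 0) (nat_lit 14088464461) (nat_lit 252) (nat_lit 1116461466700) (nat_lit 84) (nat_lit 305027814603) (nat_lit 57) (nat_lit 5) (nat_lit 60) (nat_lit 5) (nat_lit 58) (nat_lit 5) (nat_lit 447) (nat_lit 422) (nat_lit 211)) (XT.lf (nat_lit 0) (nat_lit 312076486366)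 (nat_lit 168) (nat_lit 293584191409) (nat_lit 252) (nat_lit 900600916597) (nat_lit 55) (nat_lit 5) (nat_lit 57) (nat_lit 5) (nat_lit 58) (nat_lit 5) (nat_lit 448) (nat_lit 422) (nat_lit 210))))) (XT.nd (nat_lit 282) (nat_lit 672) (nat_lit 0) (XT.nd (nat_lit 94) (nat_lit 420) (nat_lit 0) (XT.lf (nat_lit 0) (nat_lit 313318411934) (nat_lit 168) (nat_lit 965427980995) (nat_lit 252) (nat_lit 302144371703) (nat_lit 53) (nat_lit 5) (nat_lit 55) (nat_lit 5) (nat_lit 56) (nat_lit 5) (nat_lit 449) (nat_lit 422) (nat_lit 209)) (XT.nd (nat_lit 94) (nat_lit 168) (nat_lit 0) (XT.lf (nat_lit 0) (nat_lit 323298424599) (nat_lit 168) (nat_lit 41014982709) (nat_lit 252) (nat_lit 1295351128780) (nat_lit 50) (nat_lit 5) (nat_lit 52) (nat_lit 5) (nat_lit 53) (nat_lit 5) (nat_lit 450) (nat_lit 422) (nat_lit 208)) (XT.lf (nat_lit 0) (nat_lit 333332356345) (nat_lit 168) (nat_lit 782904743817)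 (nat_lit 252) (nat_lit 626118701851) (nat_lit 48) (nat_lit 5) (nat_lit 50) (nat_lit 5) (nat_lit 51) (nat_lit 5) (nat_lit 451) (nat_lit 422) (nat_lit 207)))) (XT.nd (nat_lit 188) (nat_lit 336) (nat_lit 0) (XT.nd (nat_lit 94) (nat_lit 168) (nat_lit 0) (XT.lf (nat_lit 0) (nat_lit 127311859783) (nat_lit 168) (nat_lit 1470960924195) (nat_lit 84) (nat_lit 231626483639) (nat_lit 46) (nat_lit 5) (nat_lit 48) (nat_lit 5) (nat_lit 47) (nat_lit 5) (nat_lit 452) (nat_lit 422) (nat_lit 206)) (XT.lf (nat_lit 0) (nat_lit 383548713480) (nat_lit 168) (nat_lit 579961376394) (nat_lit 252) (nat_lit 958201439900) (nat_lit 44) (nat_lit 5) (nat_lit 46) (nat_lit 5) (nat_lit 47) (nat_lit 5) (nat_lit 453) (nat_lit 422) (nat_lit 205))) (XT.nd (nat_lit 94) (nat_lit 252) (nat_lit 0) (XT.lf (nat_lit 0) (nat_lit 424406881498) (nat_lit 84) (nat_lit 1482982478529) (nat_lit 168) (nat_lit 111440153792)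 (nat_lit 43) (nat_lit 5) (nat_lit 44) (nat_lit 5) (nat_lit 45) (nat_lit 4) (nat_lit 454) (nat_lit 422) (nat_lit 204)) (XT.lf (nat_lit 0) (nat_lit 468779563205) (nat_lit 168) (nat_lit 352910679690) (nat_lit 252) (nat_lit 1299183230844) (nat_lit 40) (nat_lit 5) (nat_lit 42) (nat_lit 5) (nat_lit 43) (nat_lit 5) (nat_lit 455) (nat_lit 422) (nat_lit 203)))))) (XT.nd (nat_lit 658) (nat_lit 1008) (nat_lit 0) (XT.nd (nat_lit 282) (nat_lit 672) (nat_lit 0) (XT.nd (nat_lit 94) (nat_lit 336) (nat_lit 0) (XT.lf (nat_lit 0) (nat_lit 525212512995) (nat_lit 84) (nat_lit 1350380737141) (nat_lit 168) (nat_lit 352895030980) (nat_lit 39) (nat_lit 5) (nat_lit 40) (nat_lit 5) (nat_lit 41) (nat_lit 4) (nat_lit 456) (nat_lit 422) (nat_lit 202)) (XT.nd (nat_lit 94) (nat_lit 84) (nat_lit 0) (XT.lf (nat_lit 0) (nat_lit 594587367933) (nat_lit 168) (nat_lit 97577671402) (nat_lit 252)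 (nat_lit 1649800706776) (nat_lit 36) (nat_lit 5) (nat_lit 38) (nat_lit 5) (nat_lit 39) (nat_lit 5) (nat_lit 457) (nat_lit 422) (nat_lit 201)) (XT.lf (nat_lit 0) (nat_lit 669453825288) (nat_lit 84) (nat_lit 1199387144438) (nat_lit 168) (nat_lit 592372441492) (nat_lit 35) (nat_lit 5) (nat_lit 36) (nat_lit 5) (nat_lit 37) (nat_lit 4) (nat_lit 458) (nat_lit 422) (nat_lit 200)))) (XT.nd (nat_lit 188) (nat_lit 336) (nat_lit 0) (XT.nd (nat_lit 94) (nat_lit 84) (nat_lit 0) (XT.lf (nat_lit 0) (nat_lit 579599823352) (nat_lit 252) (nat_lit 1822934811226) (nat_lit 84) (nat_lit 184660077359) (nat_lit 32) (nat_lit 5) (nat_lit 35) (nat_lit 5) (nat_lit 33) (nat_lit 4) (nat_lit 459) (nat_lit 422) (nat_lit 199)) (XT.lf (nat_lit 0) (nat_lit 863978854800) (nat_lit 84) (nat_lit 1026310565565) (nat_lit 168) (nat_lit 829193875379) (nat_lit 31) (nat_lit 5) (nat_lit 32) (nat_lit 5)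 (nat_lit 33) (nat_lit 4) (nat_lit 460) (nat_lit 422) (nat_lit 198))) (XT.nd (nat_lit 94) (nat_lit 84) (nat_lit 0) (XT.lf (nat_lit 0) (nat_lit 485167152807) (nat_lit 252) (nat_lit 1873135397904) (nat_lit 84) (nat_lit 500912115946) (nat_lit 28) (nat_lit 5) (nat_lit 31) (nat_lit 5) (nat_lit 29) (nat_lit 4) (nat_lit 461) (nat_lit 422) (nat_lit 197)) (XT.lf (nat_lit 0) (nat_lit 1116663820996) (nat_lit 84) (nat_lit 826941978304) (nat_lit 168) (nat_lit 1062440098319) (nat_lit 27) (nat_lit 5) (nat_lit 28) (nat_lit 5) (nat_lit 29) (nat_lit 4) (nat_lit 462) (nat_lit 422) (nat_lit 196))))) (XT.nd (nat_lit 376) (nat_lit 504) (nat_lit 0) (XT.nd (nat_lit 188) (nat_lit 252) (nat_lit 0) (XT.nd (nat_lit 94) (nat_lit 84) (nat_lit 0) (XT.lf (nat_lit 0) (nat_lit 409856209736) (nat_lit 168) (nat_lit 1890964363855) (nat_lit 84) (nat_lit 860171953001) (nat_lit 25) (nat_lit 5) (nat_lit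 27) (nat_lit 5) (nat_lit 26) (nat_lit 4) (nat_lit 463) (nat_lit 422) (nat_lit 195)) (XT.lf (nat_lit 0) (nat_lit 1436551794763) (nat_lit 84) (nat_lit 596483031486) (nat_lit 168) (nat_lit 1290913140619) (nat_lit 24) (nat_lit 5) (nat_lit 25) (nat_lit 5) (nat_lit 26) (nat_lit 4) (nat_lit 464) (nat_lit 422) (nat_lit 194))) (XT.nd (nat_lit 94) (nat_lit 84) (nat_lit 0) (XT.lf (nat_lit 0) (nat_lit 356636180439) (nat_lit 168) (nat_lit 1870009738571) (nat_lit 84) (nat_lit 1269087251940) (nat_lit 22) (nat_lit 5) (nat_lit 24) (nat_lit 5) (nat_lit 23) (nat_lit 4) (nat_lit 465) (nat_lit 422) (nat_lit 193)) (XT.lf (nat_lit 0) (nat_lit 1834009407154) (nat_lit 84) (nat_lit 329465383040) (nat_lit 168) (nat_lit 1513092643081) (nat_lit 21) (nat_lit 5) (nat_lit 22) (nat_lit 5) (nat_lit 23) (nat_lit 4) (nat_lit 466) (nat_lit 422) (nat_lit 192)))) (XT.nd (nat_lit 188) (nat_lit 252)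 (nat_lit 0) (XT.nd (nat_lit 94) (nat_lit 84) (nat_lit 0) (XT.lf (nat_lit 0) (nat_lit 328996451537) (nat_lit 168) (nat_lit 1802808623589) (nat_lit 84) (nat_lit 1735184588986) (nat_lit 19) (nat_lit 5) (nat_lit 21) (nat_lit 5) (nat_lit 20) (nat_lit 4) (nat_lit 467) (nat_lit 422) (nat_lit 191)) (XT.lf (nat_lit 0) (nat_lit 2320903865292) (nat_lit 84) (nat_lit 19659655694) (nat_lit 168) (nat_lit 1727085800412) (nat_lit 18) (nat_lit 5) (nat_lit 19) (nat_lit 5) (nat_lit 20) (nat_lit 4) (nat_lit 468) (nat_lit 422) (nat_lit 190))) (XT.nd (nat_lit 94) (nat_lit 84) (nat_lit 0) (XT.lf (nat_lit 0) (nat_lit 331018908539) (nat_lit 168) (nat_lit 1680698243170) (nat_lit 84) (nat_lit 2266983854355) (nat_lit 16) (nat_lit 5) (nat_lit 18) (nat_lit 5) (nat_lit 17) (nat_lit 4) (nat_lit 469) (nat_lit 422) (nat_lit 189)) (XT.lf (nat_lit 0) (nat_lit 2576084305696) (nat_lit 168) (nat_lit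 1595851528886) (nat_lit 0) (nat_lit 329144297576) (nat_lit 15) (nat_lit 5) (nat_lit 17) (nat_lit 4) (nat_lit 15) (nat_lit 4) (nat_lit 470) (nat_lit 422) (nat_lit 188))))))))
noncomputable def xc211 : XT := (XT.nd (nat_lit 2632) (nat_lit 0) (nat_lit 0) (XT.nd (nat_lit 1316) (nat_lit 0) (nat_lit 0) (XT.nd (nat_lit 658) (nat_lit 336) (nat_lit 0) (XT.nd (nat_lit 282) (nat_lit 504) (nat_lit 0) (XT.nd (nat_lit 94) (nat_lit 252) (nat_lit 0) (XT.lf (nat_lit 0) (nat_lit 367459984645) (nat_lit 168) (nat_lit 1493647042108) (nat_lit 84) (nat_lit 2874126959795) (nat_lit 13) (nat_lit 5) (nat_lit 15) (nat_lit 5) (nat_lit 14) (nat_lit 4) (nat_lit 471) (nat_lit 422) (nat_lit 187)) (XT.nd (nat_lit 94) (nat_lit 168) (nat_lit 0) (XT.lf (nat_lit 0) (nat_lit 2873361015238) (nat_lit 168) (nat_lit 1374888561301) (nat_lit 0) (nat_lit 733418145754) (nat_lit 12) (nat_lit 5) (nat_lit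 14) (nat_lit 4) (nat_lit 12) (nat_lit 4) (nat_lit 472) (nat_lit 422) (nat_lit 186)) (XT.lf (nat_lit 0) (nat_lit 443843707317) (nat_lit 168) (nat_lit 1230063271534) (nat_lit 84) (nat_lit 3567522610364) (nat_lit 10) (nat_lit 5) (nat_lit 12) (nat_lit 5) (nat_lit 11) (nat_lit 4) (nat_lit 473) (nat_lit 422) (nat_lit 185)))) (XT.nd (nat_lit 188) (nat_lit 252) (nat_lit 0) (XT.nd (nat_lit 94) (nat_lit 168) (nat_lit 0) (XT.lf (nat_lit 0) (nat_lit 3240721159931) (nat_lit 168) (nat_lit 1071121807115) (nat_lit 0) (nat_lit 1202680328087) (nat_lit 9) (nat_lit 5) (nat_lit 11) (nat_lit 4) (nat_lit 9) (nat_lit 4) (nat_lit 474) (nat_lit 422) (nat_lit 184)) (XT.lf (nat_lit 0) (nat_lit 566567146077) (nat_lit 168) (nat_lit 876578184058) (nat_lit 84) (nat_lit 4359509110620) (nat_lit 7) (nat_lit 5) (nat_lit 9) (nat_lit 5) (nat_lit 8) (nat_lit 4) (nat_lit 475) (nat_lit 422) (nat_lit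 183))) (XT.nd (nat_lit 94) (nat_lit 168) (nat_lit 0) (XT.lf (nat_lit 0) (nat_lit 3688028723748) (nat_lit 168) (nat_lit 670229844555) (nat_lit 0) (nat_lit 1747037452254) (nat_lit 6) (nat_lit 5) (nat_lit 8) (nat_lit 4) (nat_lit 6) (nat_lit 4) (nat_lit 476) (nat_lit 422) (nat_lit 182)) (XT.lf (nat_lit 0) (nat_lit 743019839957) (nat_lit 168) (nat_lit 417800600949) (nat_lit 84) (nat_lit 5264037412929) (nat_lit 4) (nat_lit 5) (nat_lit 6) (nat_lit 5) (nat_lit 5) (nat_lit 4) (nat_lit 477) (nat_lit 422) (nat_lit 181))))) (XT.nd (nat_lit 282) (nat_lit 0) (nat_lit 0) (XT.nd (nat_lit 94) (nat_lit 252) (nat_lit 0) (XT.lf (nat_lit 0) (nat_lit 4226537365670) (nat_lit 168) (nat_lit 155736819560) (nat_lit 0) (nat_lit 2377974247453) (nat_lit 3) (nat_lit 5) (nat_lit 5) (nat_lit 4) (nat_lit 3) (nat_lit 4) (nat_lit 478) (nat_lit 422) (nat_lit 180)) (XT.nd (nat_lit 94) (nat_lit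 0) (nat_lit 0) (XT.lf (nat_lit 0) (nat_lit 10320396483064) (nat_lit 0) (nat_lit 0) (nat_lit 0) (nat_lit 0) (nat_lit 0) (nat_lit 0) (nat_lit 1) (nat_lit 0) (nat_lit 1) (nat_lit 0) (nat_lit 479) (nat_lit 422) (nat_lit 179)) (XT.lf (nat_lit 0) (nat_lit 11135882952877) (nat_lit 0) (nat_lit 0) (nat_lit 0) (nat_lit 0) (nat_lit 0) (nat_lit 0) (nat_lit 1) (nat_lit 0) (nat_lit 1) (nat_lit 0) (nat_lit 480) (nat_lit 422) (nat_lit 178)))) (XT.nd (nat_lit 188) (nat_lit 0) (nat_lit 0) (XT.nd (nat_lit 94) (nat_lit 0) (nat_lit 0) (XT.lf (nat_lit 0) (nat_lit 12016608340286) (nat_lit 0) (nat_lit 0) (nat_lit 0) (nat_lit 0) (nat_lit 0) (nat_lit 0) (nat_lit 1) (nat_lit 0) (nat_lit 1) (nat_lit 0) (nat_lit 481) (nat_lit 422) (nat_lit 177)) (XT.lf (nat_lit 0) (nat_lit 12967791758698) (nat_lit 0) (nat_lit 0) (nat_lit 0) (nat_lit 0) (nat_lit 0) (nat_lit 0) (nat_lit 1) (nat_lit 0) (nat_lit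 1) (nat_lit 0) (nat_lit 482) (nat_lit 422) (nat_lit 176))) (XT.nd (nat_lit 94) (nat_lit 0) (nat_lit 0) (XT.lf (nat_lit 0) (nat_lit 13995069850593) (nat_lit 0) (nat_lit 0) (nat_lit 0) (nat_lit 0) (nat_lit 0) (nat_lit 0) (nat_lit 1) (nat_lit 0) (nat_lit 1) (nat_lit 0) (nat_lit 483) (nat_lit 422) (nat_lit 175)) (XT.lf (nat_lit 0) (nat_lit 15104530189847) (nat_lit 0) (nat_lit 0) (nat_lit 0) (nat_lit 0) (nat_lit 0) (nat_lit 0) (nat_lit 1) (nat_lit 0) (nat_lit 1) (nat_lit 0) (nat_lit 484) (nat_lit 422) (nat_lit 174)))))) (XT.nd (nat_lit 658) (nat_lit 0) (nat_lit 0) (XT.nd (nat_lit 282) (nat_lit 0) (nat_lit 0) (XT.nd (nat_lit 94) (nat_lit 0) (nat_lit 0) (XT.lf (nat_lit 0) (nat_lit 16302747356250) (nat_lit 0) (nat_lit 0) (nat_lit 0) (nat_lit 0) (nat_lit 0) (nat_lit 0) (nat_lit 1) (nat_lit 0) (nat_lit 1) (nat_lit 0) (nat_lit 485) (nat_lit 422) (nat_lit 173)) (XT.nd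 (nat_lit 94) (nat_lit 0) (nat_lit 0) (XT.lf (nat_lit 0) (nat_lit 17596821895973) (nat_lit 0) (nat_lit 0) (nat_lit 0) (nat_lit 0) (nat_lit 0) (nat_lit 0) (nat_lit 1) (nat_lit 0) (nat_lit 1) (nat_lit 0) (nat_lit 486) (nat_lit 422) (nat_lit 172)) (XT.lf (nat_lit 0) (nat_lit 18994422398881) (nat_lit 0) (nat_lit 0) (nat_lit 0) (nat_lit 0) (nat_lit 0) (nat_lit 0) (nat_lit 1) (nat_lit 0) (nat_lit 1) (nat_lit 0) (nat_lit 487) (nat_lit 422) (nat_lit 171)))) (XT.nd (nat_lit 188) (nat_lit 0) (nat_lit 0) (XT.nd (nat_lit 94) (nat_lit 0) (nat_lit 0) (XT.lf (nat_lit 0) (nat_lit 20503830942027) (nat_lit 0) (nat_lit 0) (nat_lit 0) (nat_lit 0) (nat_lit 0) (nat_lit 0) (nat_lit 1) (nat_lit 0) (nat_lit 1) (nat_lit 0) (nat_lit 488) (nat_lit 422) (nat_lit 170)) (XT.lf (nat_lit 0) (nat_lit 22133992168631) (nat_lit 0) (nat_lit 0) (nat_lit 0) (nat_lit 0) (nat_lit 0) (nat_lit 0) (nat_lit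 1) (nat_lit 0) (nat_lit 1) (nat_lit 0) (nat_lit 489) (nat_lit 422) (nat_lit 169))) (XT.nd (nat_lit 94) (nat_lit 0) (nat_lit 0) (XT.lf (nat_lit 0) (nat_lit 23894566293369) (nat_lit 0) (nat_lit 0) (nat_lit 0) (nat_lit 0) (nat_lit 0) (nat_lit 0) (nat_lit 1) (nat_lit 0) (nat_lit 1) (nat_lit 0) (nat_lit 490) (nat_lit 422) (nat_lit 168)) (XT.lf (nat_lit 0) (nat_lit 25795986348091) (nat_lit 0) (nat_lit 0) (nat_lit 0) (nat_lit 0) (nat_lit 0) (nat_lit 0) (nat_lit 1) (nat_lit 0) (nat_lit 1) (nat_lit 0) (nat_lit 491) (nat_lit 422) (nat_lit 167))))) (XT.nd (nat_lit 282) (nat_lit 0) (nat_lit 0) (XT.nd (nat_lit 94) (nat_lit 0) (nat_lit 0) (XT.lf (nat_lit 0) (nat_lit 27849520007195) (nat_lit 0) (nat_lit 0) (nat_lit 0) (nat_lit 0) (nat_lit 0) (nat_lit 0) (nat_lit 1) (nat_lit 0) (nat_lit 1) (nat_lit 0) (nat_lit 492) (nat_lit 422) (nat_lit 166)) (XT.nd (nat_lit 94) (nat_lit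 0) (nat_lit 0) (XT.lf (nat_lit 0) (nat_lit 30067336359032) (nat_lit 0) (nat_lit 0) (nat_lit 0) (nat_lit 0) (nat_lit 0) (nat_lit 0) (nat_lit 1) (nat_lit 0) (nat_lit 1) (nat_lit 0) (nat_lit 493) (nat_lit 422) (nat_lit 165)) (XT.lf (nat_lit 0) (nat_lit 32462578019020) (nat_lit 0) (nat_lit 0) (nat_lit 0) (nat_lit 0) (nat_lit 0) (nat_lit 0) (nat_lit 1) (nat_lit 0) (nat_lit 1) (nat_lit 0) (nat_lit 494) (nat_lit 422) (nat_lit 164)))) (XT.nd (nat_lit 188) (nat_lit 0) (nat_lit 0) (XT.nd (nat_lit 94) (nat_lit 0) (nat_lit 0) (XT.lf (nat_lit 0) (nat_lit 35049439011811) (nat_lit 0) (nat_lit 0) (nat_lit 0) (nat_lit 0) (nat_lit 0) (nat_lit 0) (nat_lit 1) (nat_lit 0) (nat_lit 1) (nat_lit 0) (nat_lit 495) (nat_lit 422) (nat_lit 163)) (XT.lf (nat_lit 0) (nat_lit 37843248884029) (nat_lit 0) (nat_lit 0) (nat_lit 0) (nat_lit 0) (nat_lit 0) (nat_lit 0) (nat_lit 1) (nat_lit 0) (nat_lit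 1) (nat_lit 0) (nat_lit 496) (nat_lit 422) (nat_lit 162))) (XT.nd (nat_lit 94) (nat_lit 0) (nat_lit 0) (XT.lf (nat_lit 0) (nat_lit 40860563546027) (nat_lit 0) (nat_lit 0) (nat_lit 0) (nat_lit 0) (nat_lit 0) (nat_lit 0) (nat_lit 1) (nat_lit 0) (nat_lit 1) (nat_lit 0) (nat_lit 497) (nat_lit 422) (nat_lit 161)) (XT.lf (nat_lit 0) (nat_lit 44119263380988) (nat_lit 0) (nat_lit 0) (nat_lit 0) (nat_lit 0) (nat_lit 0) (nat_lit 0) (nat_lit 1) (nat_lit 0) (nat_lit 1) (nat_lit 0) (nat_lit 498) (nat_lit 422) (nat_lit 160))))))) (XT.nd (nat_lit 61758) (nat_lit 0) (nat_lit 4620) (XT.nd (nat_lit 61100) (nat_lit 0) (nat_lit 8568) (XT.nd (nat_lit 60724) (nat_lit 0) (nat_lit 10836) (XT.nd (nat_lit 188) (nat_lit 0) (nat_lit 0) (XT.lf (nat_lit 0) (nat_lit 47638659202748) (nat_lit 0) (nat_lit 0) (nat_lit 0) (nat_lit 0) (nat_lit 0) (nat_lit 0) (nat_lit 1) (nat_lit 0) (nat_lit 1)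 (nat_lit 0) (nat_lit 499) (nat_lit 422) (nat_lit 159)) (XT.nd (nat_lit 60442) (nat_lit 0) (nat_lit 10752) (XT.lf (nat_lit 0) (nat_lit 55544629976759) (nat_lit 0) (nat_lit 0) (nat_lit 0) (nat_lit 0) (nat_lit 0) (nat_lit 0) (nat_lit 1) (nat_lit 0) (nat_lit 1) (nat_lit 0) (nat_lit 501) (nat_lit 422) (nat_lit 157)) (XT.lf (nat_lit 0) (nat_lit 121691564851) (nat_lit 924) (nat_lit 68541213076) (nat_lit 924) (nat_lit 68541213076) (nat_lit 128) (nat_lit 3) (nat_lit 139) (nat_lit 3) (nat_lit 139) (nat_lit 5) (nat_lit 423) (nat_lit 423) (nat_lit 234)))) (XT.nd (nat_lit 188) (nat_lit 0) (nat_lit 84) (XT.nd (nat_lit 94) (nat_lit 0) (nat_lit 0) (XT.lf (nat_lit 0) (nat_lit 258031258777) (nat_lit 840) (nat_lit 252358554688) (nat_lit 924) (nat_lit 27614447628) (nat_lit 129) (nat_lit 5) (nat_lit 139) (nat_lit 5) (nat_lit 140) (nat_lit 5) (nat_lit 424) (nat_lit 423) (nat_lit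 233)) (XT.lf (nat_lit 84) (nat_lit 186628371395) (nat_lit 0) (nat_lit 98978998207) (nat_lit 924) (nat_lit 273901866333) (nat_lit 130) (nat_lit 5) (nat_lit 129) (nat_lit 5) (nat_lit 140) (nat_lit 5) (nat_lit 425) (nat_lit 423) (nat_lit 232))) (XT.nd (nat_lit 94) (nat_lit 0) (nat_lit 84) (XT.lf (nat_lit 84) (nat_lit 84470787962) (nat_lit 0) (nat_lit 242097357717) (nat_lit 924) (nat_lit 255607534265) (nat_lit 131) (nat_lit 5) (nat_lit 130) (nat_lit 5) (nat_lit 141) (nat_lit 5) (nat_lit 426) (nat_lit 423) (nat_lit 231)) (XT.lf (nat_lit 0) (nat_lit 382238360888) (nat_lit 840) (nat_lit 19541934411) (nat_lit 924) (nat_lit 204303515324) (nat_lit 131) (nat_lit 5) (nat_lit 141) (nat_lit 5) (nat_lit 142) (nat_lit 5) (nat_lit 427) (nat_lit 423) (nat_lit 230))))) (XT.nd (nat_lit 282) (nat_lit 1764) (nat_lit 0) (XT.nd (nat_lit 94) (nat_lit 756) (nat_lit 0) (XT.lf (nat_lit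 0) (nat_lit 455246535147) (nat_lit 840) (nat_lit 123071226489) (nat_lit 924) (nat_lit 52942613026) (nat_lit 132) (nat_lit 5) (nat_lit 142) (nat_lit 5) (nat_lit 143) (nat_lit 5) (nat_lit 428) (nat_lit 423) (nat_lit 229)) (XT.nd (nat_lit 94) (nat_lit 756) (nat_lit 0) (XT.lf (nat_lit 84) (nat_lit 427298373213) (nat_lit 0) (nat_lit 120589024970) (nat_lit 924) (nat_lit 109874063902) (nat_lit 133) (nat_lit 5) (nat_lit 132) (nat_lit 5) (nat_lit 143) (nat_lit 5) (nat_lit 429) (nat_lit 423) (nat_lit 228)) (XT.lf (nat_lit 0) (nat_lit 344988125562) (nat_lit 840) (nat_lit 316351985637) (nat_lit 924) (nat_lit 24372496255) (nat_lit 123) (nat_lit 5) (nat_lit 133) (nat_lit 5) (nat_lit 134) (nat_lit 5) (nat_lit 430) (nat_lit 423) (nat_lit 227)))) (XT.nd (nat_lit 188) (nat_lit 756) (nat_lit 0) (XT.nd (nat_lit 94) (nat_lit 420) (nat_lit 0) (XT.lf (nat_lit 0) (nat_lit 78973398159)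 (nat_lit 588) (nat_lit 453969095898) (nat_lit 84) (nat_lit 182245308907) (nat_lit 116) (nat_lit 5) (nat_lit 123) (nat_lit 5) (nat_lit 117) (nat_lit 5) (nat_lit 431) (nat_lit 423) (nat_lit 226)) (XT.lf (nat_lit 0) (nat_lit 176569010290) (nat_lit 420) (nat_lit 27298960686) (nat_lit 504) (nat_lit 542426320662) (nat_lit 111) (nat_lit 5) (nat_lit 116) (nat_lit 5) (nat_lit 117) (nat_lit 5) (nat_lit 432) (nat_lit 423) (nat_lit 225))) (XT.nd (nat_lit 94) (nat_lit 336) (nat_lit 0) (XT.lf (nat_lit 0) (nat_lit 88882626200) (nat_lit 420) (nat_lit 267396513934) (nat_lit 504) (nat_lit 422733907748) (nat_lit 106) (nat_lit 5) (nat_lit 111) (nat_lit 5) (nat_lit 112) (nat_lit 5) (nat_lit 433) (nat_lit 423) (nat_lit 224)) (XT.lf (nat_lit 0) (nat_lit 1765590224) (nat_lit 336) (nat_lit 534031080262) (nat_lit 420) (nat_lit 277806960756) (nat_lit 102) (nat_lit 5) (nat_lit 106) (nat_lit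 5) (nat_lit 107) (nat_lit 5) (nat_lit 434) (nat_lit 423) (nat_lit 223)))))) (XT.nd (nat_lit 658) (nat_lit 1932) (nat_lit 0) (XT.nd (nat_lit 282) (nat_lit 1260) (nat_lit 0) (XT.nd (nat_lit 94) (nat_lit 756) (nat_lit 0) (XT.lf (nat_lit 0) (nat_lit 746490290493) (nat_lit 420) (nat_lit 81495866158) (nat_lit 84) (nat_lit 22134570258) (nat_lit 102) (nat_lit 5) (nat_lit 107) (nat_lit 5) (nat_lit 103) (nat_lit 5) (nat_lit 435) (nat_lit 423) (nat_lit 222)) (XT.nd (nat_lit 94) (nat_lit 336) (nat_lit 0) (XT.lf (nat_lit 0) (nat_lit 102375686527) (nat_lit 420) (nat_lit 168840209509) (nat_lit 84) (nat_lit 617247377004) (nat_lit 97) (nat_lit 5) (nat_lit 102) (nat_lit 5) (nat_lit 98) (nat_lit 5) (nat_lit 436) (nat_lit 423) (nat_lit 221)) (XT.lf (nat_lit 0) (nat_lit 338685880368) (nat_lit 420) (nat_lit 256699395773) (nat_lit 84) (nat_lit 333530289402) (nat_lit 93) (nat_lit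 5) (nat_lit 98) (nat_lit 5) (nat_lit 94) (nat_lit 5) (nat_lit 437) (nat_lit 423) (nat_lit 220)))) (XT.nd (nat_lit 188) (nat_lit 672) (nat_lit 0) (XT.nd (nat_lit 94) (nat_lit 252) (nat_lit 0) (XT.lf (nat_lit 0) (nat_lit 611580899958) (nat_lit 420) (nat_lit 342360182957) (nat_lit 84) (nat_lit 17778958019) (nat_lit 89) (nat_lit 5) (nat_lit 94) (nat_lit 5) (nat_lit 90) (nat_lit 5) (nat_lit 438) (nat_lit 423) (nat_lit 219)) (XT.lf (nat_lit 0) (nat_lit 586401096033) (nat_lit 252) (nat_lit 343645898781) (nat_lit 336) (nat_lit 86714905858) (nat_lit 86) (nat_lit 5) (nat_lit 89) (nat_lit 5) (nat_lit 90) (nat_lit 5) (nat_lit 439) (nat_lit 423) (nat_lit 218))) (XT.nd (nat_lit 94) (nat_lit 252) (nat_lit 0) (XT.lf (nat_lit 0) (nat_lit 221788317882) (nat_lit 420) (nat_lit 518873934442) (nat_lit 84) (nat_lit 323587977545) (nat_lit 81) (nat_lit 5) (nat_lit 86) (nat_lit 5)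 (nat_lit 82) (nat_lit 5) (nat_lit 440) (nat_lit 423) (nat_lit 217)) (XT.lf (nat_lit 0) (nat_lit 508265705787) (nat_lit 252) (nat_lit 65058079613) (nat_lit 336) (nat_lit 541073259521) (nat_lit 78) (nat_lit 5) (nat_lit 81) (nat_lit 5) (nat_lit 82) (nat_lit 5) (nat_lit 441) (nat_lit 423) (nat_lit 216))))) (XT.nd (nat_lit 376) (nat_lit 924) (nat_lit 0) (XT.nd (nat_lit 188) (nat_lit 420) (nat_lit 0) (XT.nd (nat_lit 94) (nat_lit 336) (nat_lit 0) (XT.lf (nat_lit 0) (nat_lit 472603547329) (nat_lit 252) (nat_lit 507319996976) (nat_lit 336) (nat_lit 187284988174) (nat_lit 75) (nat_lit 5) (nat_lit 78) (nat_lit 5) (nat_lit 79) (nat_lit 5) (nat_lit 442) (nat_lit 423) (nat_lit 215)) (XT.lf (nat_lit 0) (nat_lit 211073814336) (nat_lit 336) (nat_lit 781359388964) (nat_lit 84) (nat_lit 230534537638) (nat_lit 71) (nat_lit 5) (nat_lit 75) (nat_lit 5) (nat_lit 72) (nat_lit 5)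 (nat_lit 443) (nat_lit 423) (nat_lit 214))) (XT.nd (nat_lit 94) (nat_lit 168) (nat_lit 0) (XT.lf (nat_lit 0) (nat_lit 412223203472) (nat_lit 252) (nat_lit 249892498095) (nat_lit 336) (nat_lit 619549675510) (nat_lit 68) (nat_lit 5) (nat_lit 71) (nat_lit 5) (nat_lit 72) (nat_lit 5) (nat_lit 444) (nat_lit 423) (nat_lit 213)) (XT.lf (nat_lit 0) (nat_lit 388405390876) (nat_lit 168) (nat_lit 789352607760) (nat_lit 252) (nat_lit 165874972529) (nat_lit 66) (nat_lit 5) (nat_lit 68) (nat_lit 5) (nat_lit 69) (nat_lit 5) (nat_lit 445) (nat_lit 423) (nat_lit 212)))) (XT.nd (nat_lit 188) (nat_lit 420) (nat_lit 0) (XT.nd (nat_lit 94) (nat_lit 168) (nat_lit 0) (XT.lf (nat_lit 0) (nat_lit 339601157255) (nat_lit 336) (nat_lit 1039062190555) (nat_lit 84) (nat_lit 30347600760) (nat_lit 62) (nat_lit 5) (nat_lit 66) (nat_lit 5) (nat_lit 63) (nat_lit 5) (nat_lit 446) (nat_lit 423)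 (nat_lit 211)) (XT.lf (nat_lit 0) (nat_lit 351327888883) (nat_lit 168) (nat_lit 564161085250) (nat_lit 252) (nat_lit 562204974553) (nat_lit 60) (nat_lit 5) (nat_lit 62) (nat_lit 5) (nat_lit 63) (nat_lit 5) (nat_lit 447) (nat_lit 423) (nat_lit 210))) (XT.nd (nat_lit 94) (nat_lit 168) (nat_lit 0) (XT.lf (nat_lit 0) (nat_lit 15215762032) (nat_lit 252) (nat_lit 1205778015802) (nat_lit 84) (nat_lit 329430176570) (nat_lit 57) (nat_lit 5) (nat_lit 60) (nat_lit 5) (nat_lit 58) (nat_lit 5) (nat_lit 448) (nat_lit 423) (nat_lit 209)) (XT.lf (nat_lit 0) (nat_lit 337042957507) (nat_lit 168) (nat_lit 317070784077) (nat_lit 252) (nat_lit 972648769859) (nat_lit 55) (nat_lit 5) (nat_lit 57) (nat_lit 5) (nat_lit 58) (nat_lit 5) (nat_lit 449) (nat_lit 423) (nat_lit 208))))))))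
noncomputable def xc212 : XT := (XT.nd (nat_lit 2632) (nat_lit 504) (nat_lit 0) (XT.nd (nat_lit 1316) (nat_lit 1764) (nat_lit 0) (XT.nd (nat_lit 658) (nat_lit 1092) (nat_lit 0) (XT.nd (nat_lit 282) (nat_lit 672) (nat_lit 0) (XT.nd (nat_lit 94) (nat_lit 420) (nat_lit 0) (XT.lf (nat_lit 0) (nat_lit 338384229707) (nat_lit 168) (nat_lit 1042662076164) (nat_lit 252) (nat_lit 326315709856) (nat_lit 53) (nat_lit 5) (nat_lit 55) (nat_lit 5) (nat_lit 56) (nat_lit 5) (nat_lit 450) (nat_lit 423) (nat_lit 207)) (XT.nd (nat_lit 94) (nat_lit 168) (nat_lit 0) (XT.lf (nat_lit 0) (nat_lit 349162634877) (nat_lit 168) (nat_lit 44296039907) (nat_lit 252) (nat_lit 1398979014447) (nat_lit 50) (nat_lit 5) (nat_lit 52) (nat_lit 5) (nat_lit 53) (nat_lit 5) (nat_lit 451) (nat_lit 423) (nat_lit 206)) (XT.lf (nat_lit 0) (nat_lit 359999273756) (nat_lit 168) (nat_lit 845536982053) (nat_lit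 252) (nat_lit 676208000984) (nat_lit 48) (nat_lit 5) (nat_lit 50) (nat_lit 5) (nat_lit 51) (nat_lit 5) (nat_lit 452) (nat_lit 423) (nat_lit 205)))) (XT.nd (nat_lit 188) (nat_lit 336) (nat_lit 0) (XT.nd (nat_lit 94) (nat_lit 168) (nat_lit 0) (XT.lf (nat_lit 0) (nat_lit 137496992326) (nat_lit 168) (nat_lit 1588637470581) (nat_lit 84) (nat_lit 250156736932) (nat_lit 46) (nat_lit 5) (nat_lit 48) (nat_lit 5) (nat_lit 47) (nat_lit 5) (nat_lit 453) (nat_lit 423) (nat_lit 204)) (XT.lf (nat_lit 0) (nat_lit 414232923873) (nat_lit 168) (nat_lit 626358148230) (nat_lit 252) (nat_lit 1034857371300) (nat_lit 44) (nat_lit 5) (nat_lit 46) (nat_lit 5) (nat_lit 47) (nat_lit 5) (nat_lit 454) (nat_lit 423) (nat_lit 203))) (XT.nd (nat_lit 94) (nat_lit 252) (nat_lit 0) (XT.lf (nat_lit 0) (nat_lit 458359738023) (nat_lit 84) (nat_lit 1601620939657) (nat_lit 168) (nat_lit 120355188803)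 (nat_lit 43) (nat_lit 5) (nat_lit 44) (nat_lit 5) (nat_lit 45) (nat_lit 4) (nat_lit 455) (nat_lit 423) (nat_lit 202)) (XT.lf (nat_lit 0) (nat_lit 506282226396) (nat_lit 168) (nat_lit 381143399492) (nat_lit 252) (nat_lit 1403117717572) (nat_lit 40) (nat_lit 5) (nat_lit 42) (nat_lit 5) (nat_lit 43) (nat_lit 5) (nat_lit 456) (nat_lit 423) (nat_lit 201))))) (XT.nd (nat_lit 282) (nat_lit 672) (nat_lit 0) (XT.nd (nat_lit 94) (nat_lit 336) (nat_lit 0) (XT.lf (nat_lit 0) (nat_lit 567229805026) (nat_lit 84) (nat_lit 1458411063056) (nat_lit 168) (nat_lit 381126467628) (nat_lit 39) (nat_lit 5) (nat_lit 40) (nat_lit 5) (nat_lit 41) (nat_lit 4) (nat_lit 457) (nat_lit 423) (nat_lit 200)) (XT.nd (nat_lit 94) (nat_lit 84) (nat_lit 0) (XT.lf (nat_lit 0) (nat_lit 642154640790) (nat_lit 168) (nat_lit 105383754750) (nat_lit 252) (nat_lit 1781784602608) (nat_lit 36) (nat_lit 5)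 (nat_lit 38) (nat_lit 5) (nat_lit 39) (nat_lit 5) (nat_lit 458) (nat_lit 423) (nat_lit 199)) (XT.lf (nat_lit 0) (nat_lit 723010407789) (nat_lit 84) (nat_lit 1295337987437) (nat_lit 168) (nat_lit 639762081494) (nat_lit 35) (nat_lit 5) (nat_lit 36) (nat_lit 5) (nat_lit 37) (nat_lit 4) (nat_lit 459) (nat_lit 423) (nat_lit 198)))) (XT.nd (nat_lit 188) (nat_lit 336) (nat_lit 0) (XT.nd (nat_lit 94) (nat_lit 84) (nat_lit 0) (XT.lf (nat_lit 0) (nat_lit 625967954597) (nat_lit 252) (nat_lit 1968769321700) (nat_lit 84) (nat_lit 199433005327) (nat_lit 32) (nat_lit 5) (nat_lit 35) (nat_lit 5) (nat_lit 33) (nat_lit 4) (nat_lit 460) (nat_lit 423) (nat_lit 197)) (XT.lf (nat_lit 0) (nat_lit 933097425682) (nat_lit 84) (nat_lit 1108415287019) (nat_lit 168) (nat_lit 895529239768) (nat_lit 31) (nat_lit 5) (nat_lit 32) (nat_lit 5) (nat_lit 33) (nat_lit 4) (nat_lit 461) (nat_lit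 423) (nat_lit 196))) (XT.nd (nat_lit 94) (nat_lit 84) (nat_lit 0) (XT.lf (nat_lit 0) (nat_lit 523980661448) (nat_lit 252) (nat_lit 2022985969351) (nat_lit 84) (nat_lit 540985202370) (nat_lit 28) (nat_lit 5) (nat_lit 31) (nat_lit 5) (nat_lit 29) (nat_lit 4) (nat_lit 462) (nat_lit 423) (nat_lit 195)) (XT.lf (nat_lit 0) (nat_lit 1205997175746) (nat_lit 84) (nat_lit 893097217699) (nat_lit 168) (nat_lit 1147435169474) (nat_lit 27) (nat_lit 5) (nat_lit 28) (nat_lit 5) (nat_lit 29) (nat_lit 4) (nat_lit 463) (nat_lit 423) (nat_lit 194)))))) (XT.nd (nat_lit 658) (nat_lit 840) (nat_lit 0) (XT.nd (nat_lit 282) (nat_lit 504) (nat_lit 0) (XT.nd (nat_lit 94) (nat_lit 252) (nat_lit 0) (XT.lf (nat_lit 0) (nat_lit 442644834645) (nat_lit 168) (nat_lit 2042241266030) (nat_lit 84) (nat_lit 928985821639) (nat_lit 25) (nat_lit 5) (nat_lit 27) (nat_lit 5) (nat_lit 26) (nat_lit 4)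 (nat_lit 464) (nat_lit 423) (nat_lit 193)) (XT.nd (nat_lit 94) (nat_lit 168) (nat_lit 0) (XT.lf (nat_lit 0) (nat_lit 1551476174546) (nat_lit 84) (nat_lit 644201560130) (nat_lit 168) (nat_lit 1394186063426) (nat_lit 24) (nat_lit 5) (nat_lit 25) (nat_lit 5) (nat_lit 26) (nat_lit 4) (nat_lit 465) (nat_lit 423) (nat_lit 192)) (XT.lf (nat_lit 0) (nat_lit 385167195321) (nat_lit 168) (nat_lit 2019610283587) (nat_lit 84) (nat_lit 1370614339697) (nat_lit 22) (nat_lit 5) (nat_lit 24) (nat_lit 5) (nat_lit 23) (nat_lit 4) (nat_lit 466) (nat_lit 423) (nat_lit 191)))) (XT.nd (nat_lit 188) (nat_lit 252) (nat_lit 0) (XT.nd (nat_lit 94) (nat_lit 168) (nat_lit 0) (XT.lf (nat_lit 0) (nat_lit 1980730383624) (nat_lit 84) (nat_lit 355822504806) (nat_lit 168) (nat_lit 1634139933756) (nat_lit 21) (nat_lit 5) (nat_lit 22) (nat_lit 5) (nat_lit 23) (nat_lit 4) (nat_lit 467) (nat_lit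 423) (nat_lit 190)) (XT.lf (nat_lit 0) (nat_lit 355316280966) (nat_lit 168) (nat_lit 1947033091687) (nat_lit 84) (nat_lit 1873999458922) (nat_lit 19) (nat_lit 5) (nat_lit 21) (nat_lit 5) (nat_lit 20) (nat_lit 4) (nat_lit 468) (nat_lit 423) (nat_lit 189))) (XT.nd (nat_lit 94) (nat_lit 168) (nat_lit 0) (XT.lf (nat_lit 0) (nat_lit 2506576386665) (nat_lit 84) (nat_lit 21232324225) (nat_lit 168) (nat_lit 1865252550809) (nat_lit 18) (nat_lit 5) (nat_lit 19) (nat_lit 5) (nat_lit 20) (nat_lit 4) (nat_lit 469) (nat_lit 423) (nat_lit 188)) (XT.lf (nat_lit 0) (nat_lit 357500527878) (nat_lit 168) (nat_lit 1815153892543) (nat_lit 84) (nat_lit 2448342660795) (nat_lit 16) (nat_lit 5) (nat_lit 18) (nat_lit 5) (nat_lit 17) (nat_lit 4) (nat_lit 470) (nat_lit 423) (nat_lit 187))))) (XT.nd (nat_lit 282) (nat_lit 504) (nat_lit 0) (XT.nd (nat_lit 94) (nat_lit 252) (nat_lit 0) (XT.lf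 (nat_lit 0) (nat_lit 2782171153591) (nat_lit 168) (nat_lit 1723519446699) (nat_lit 0) (nat_lit 355475937269) (nat_lit 15) (nat_lit 5) (nat_lit 17) (nat_lit 4) (nat_lit 15) (nat_lit 4) (nat_lit 471) (nat_lit 423) (nat_lit 186)) (XT.nd (nat_lit 94) (nat_lit 84) (nat_lit 0) (XT.lf (nat_lit 0) (nat_lit 396856883869) (nat_lit 168) (nat_lit 1613138606544) (nat_lit 84) (nat_lit 3104057210037) (nat_lit 13) (nat_lit 5) (nat_lit 15) (nat_lit 5) (nat_lit 14) (nat_lit 4) (nat_lit 472) (nat_lit 423) (nat_lit 185)) (XT.lf (nat_lit 0) (nat_lit 3103229993911) (nat_lit 168) (nat_lit 1484879452591) (nat_lit 0) (nat_lit 792091688701) (nat_lit 12) (nat_lit 5) (nat_lit 14) (nat_lit 4) (nat_lit 12) (nat_lit 4) (nat_lit 473) (nat_lit 423) (nat_lit 184)))) (XT.nd (nat_lit 188) (nat_lit 252) (nat_lit 0) (XT.nd (nat_lit 94) (nat_lit 84) (nat_lit 0) (XT.lf (nat_lit 0) (nat_lit 479351298556)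 (nat_lit 168) (nat_lit 1328468144927) (nat_lit 84) (nat_lit 3852924508137) (nat_lit 10) (nat_lit 5) (nat_lit 12) (nat_lit 5) (nat_lit 11) (nat_lit 4) (nat_lit 474) (nat_lit 423) (nat_lit 183)) (XT.lf (nat_lit 0) (nat_lit 3499978944580) (nat_lit 168) (nat_lit 1156811368418) (nat_lit 0) (nat_lit 1298894841154) (nat_lit 9) (nat_lit 5) (nat_lit 11) (nat_lit 4) (nat_lit 9) (nat_lit 4) (nat_lit 475) (nat_lit 423) (nat_lit 182))) (XT.nd (nat_lit 94) (nat_lit 84) (nat_lit 0) (XT.lf (nat_lit 0) (nat_lit 611892606991) (nat_lit 168) (nat_lit 946704260529) (nat_lit 84) (nat_lit 4708269924035) (nat_lit 7) (nat_lit 5) (nat_lit 9) (nat_lit 5) (nat_lit 8) (nat_lit 4) (nat_lit 476) (nat_lit 423) (nat_lit 181)) (XT.lf (nat_lit 0) (nat_lit 3983071108259) (nat_lit 168) (nat_lit 723848058679) (nat_lit 0) (nat_lit 1886800530934) (nat_lit 6) (nat_lit 5) (nat_lit 8) (nat_lit 4) (nat_lit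 6) (nat_lit 4) (nat_lit 477) (nat_lit 423) (nat_lit 180))))))) (XT.nd (nat_lit 1316) (nat_lit 0) (nat_lit 0) (XT.nd (nat_lit 658) (nat_lit 0) (nat_lit 0) (XT.nd (nat_lit 282) (nat_lit 0) (nat_lit 0) (XT.nd (nat_lit 94) (nat_lit 336) (nat_lit 0) (XT.lf (nat_lit 0) (nat_lit 802461511296) (nat_lit 168) (nat_lit 451224480340) (nat_lit 84) (nat_lit 5685160486299) (nat_lit 4) (nat_lit 5) (nat_lit 6) (nat_lit 5) (nat_lit 5) (nat_lit 4) (nat_lit 478) (nat_lit 423) (nat_lit 179)) (XT.nd (nat_lit 94) (nat_lit 252) (nat_lit 0) (XT.lf (nat_lit 0) (nat_lit 4564660436616) (nat_lit 168) (nat_lit 168195601013) (nat_lit 0) (nat_lit 2568212265584) (nat_lit 3) (nat_lit 5) (nat_lit 5) (nat_lit 4) (nat_lit 3) (nat_lit 4) (nat_lit 479) (nat_lit 423) (nat_lit 178)) (XT.lf (nat_lit 0) (nat_lit 11146028201496) (nat_lit 0) (nat_lit 0) (nat_lit 0) (nat_lit 0) (nat_lit 0) (nat_lit 0)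 (nat_lit 1) (nat_lit 0) (nat_lit 1) (nat_lit 0) (nat_lit 480) (nat_lit 423) (nat_lit 177)))) (XT.nd (nat_lit 188) (nat_lit 0) (nat_lit 0) (XT.nd (nat_lit 94) (nat_lit 0) (nat_lit 0) (XT.lf (nat_lit 0) (nat_lit 12026753588910) (nat_lit 0) (nat_lit 0) (nat_lit 0) (nat_lit 0) (nat_lit 0) (nat_lit 0) (nat_lit 1) (nat_lit 0) (nat_lit 1) (nat_lit 0) (nat_lit 481) (nat_lit 423) (nat_lit 176)) (XT.lf (nat_lit 0) (nat_lit 12977937007326) (nat_lit 0) (nat_lit 0) (nat_lit 0) (nat_lit 0) (nat_lit 0) (nat_lit 0) (nat_lit 1) (nat_lit 0) (nat_lit 1) (nat_lit 0) (nat_lit 482) (nat_lit 423) (nat_lit 175))) (XT.nd (nat_lit 94) (nat_lit 0) (nat_lit 0) (XT.lf (nat_lit 0) (nat_lit 14005215099225) (nat_lit 0) (nat_lit 0) (nat_lit 0) (nat_lit 0) (nat_lit 0) (nat_lit 0) (nat_lit 1) (nat_lit 0) (nat_lit 1) (nat_lit 0) (nat_lit 483) (nat_lit 423) (nat_lit 174)) (XT.lf (nat_lit 0) (nat_lit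 15114675438483) (nat_lit 0) (nat_lit 0) (nat_lit 0) (nat_lit 0) (nat_lit 0) (nat_lit 0) (nat_lit 1) (nat_lit 0) (nat_lit 1) (nat_lit 0) (nat_lit 484) (nat_lit 423) (nat_lit 173))))) (XT.nd (nat_lit 282) (nat_lit 0) (nat_lit 0) (XT.nd (nat_lit 94) (nat_lit 0) (nat_lit 0) (XT.lf (nat_lit 0) (nat_lit 16312892604890) (nat_lit 0) (nat_lit 0) (nat_lit 0) (nat_lit 0) (nat_lit 0) (nat_lit 0) (nat_lit 1) (nat_lit 0) (nat_lit 1) (nat_lit 0) (nat_lit 485) (nat_lit 423) (nat_lit 172)) (XT.nd (nat_lit 94) (nat_lit 0) (nat_lit 0) (XT.lf (nat_lit 0) (nat_lit 17606967144616) (nat_lit 0) (nat_lit 0) (nat_lit 0) (nat_lit 0) (nat_lit 0) (nat_lit 0) (nat_lit 1) (nat_lit 0) (nat_lit 1) (nat_lit 0) (nat_lit 486) (nat_lit 423) (nat_lit 171)) (XT.lf (nat_lit 0) (nat_lit 19004567647527) (nat_lit 0) (nat_lit 0) (nat_lit 0) (nat_lit 0) (nat_lit 0) (nat_lit 0) (nat_lit 1) (nat_lit 0)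 (nat_lit 1) (nat_lit 0) (nat_lit 487) (nat_lit 423) (nat_lit 170)))) (XT.nd (nat_lit 188) (nat_lit 0) (nat_lit 0) (XT.nd (nat_lit 94) (nat_lit 0) (nat_lit 0) (XT.lf (nat_lit 0) (nat_lit 20513976190676) (nat_lit 0) (nat_lit 0) (nat_lit 0) (nat_lit 0) (nat_lit 0) (nat_lit 0) (nat_lit 1) (nat_lit 0) (nat_lit 1) (nat_lit 0) (nat_lit 488) (nat_lit 423) (nat_lit 169)) (XT.lf (nat_lit 0) (nat_lit 22144137417283) (nat_lit 0) (nat_lit 0) (nat_lit 0) (nat_lit 0) (nat_lit 0) (nat_lit 0) (nat_lit 1) (nat_lit 0) (nat_lit 1) (nat_lit 0) (nat_lit 489) (nat_lit 423) (nat_lit 168))) (XT.nd (nat_lit 94) (nat_lit 0) (nat_lit 0) (XT.lf (nat_lit 0) (nat_lit 23904711542023) (nat_lit 0) (nat_lit 0) (nat_lit 0) (nat_lit 0) (nat_lit 0) (nat_lit 0) (nat_lit 1) (nat_lit 0) (nat_lit 1) (nat_lit 0) (nat_lit 490) (nat_lit 423) (nat_lit 167)) (XT.lf (nat_lit 0) (nat_lit 25806131596747)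 (nat_lit 0) (nat_lit 0) (nat_lit 0) (nat_lit 0) (nat_lit 0) (nat_lit 0) (nat_lit 1) (nat_lit 0) (nat_lit 1) (nat_lit 0) (nat_lit 491) (nat_lit 423) (nat_lit 166)))))) (XT.nd (nat_lit 658) (nat_lit 0) (nat_lit 0) (XT.nd (nat_lit 282) (nat_lit 0) (nat_lit 0) (XT.nd (nat_lit 94) (nat_lit 0) (nat_lit 0) (XT.lf (nat_lit 0) (nat_lit 27859665255854) (nat_lit 0) (nat_lit 0) (nat_lit 0) (nat_lit 0) (nat_lit 0) (nat_lit 0) (nat_lit 1) (nat_lit 0) (nat_lit 1) (nat_lit 0) (nat_lit 492) (nat_lit 423) (nat_lit 165)) (XT.nd (nat_lit 94) (nat_lit 0) (nat_lit 0) (XT.lf (nat_lit 0) (nat_lit 30077481607693) (nat_lit 0) (nat_lit 0) (nat_lit 0) (nat_lit 0) (nat_lit 0) (nat_lit 0) (nat_lit 1) (nat_lit 0) (nat_lit 1) (nat_lit 0) (nat_lit 493) (nat_lit 423) (nat_lit 164)) (XT.lf (nat_lit 0) (nat_lit 32472723267682) (nat_lit 0) (nat_lit 0) (nat_lit 0) (nat_lit 0) (nat_lit 0) (nat_lit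 0) (nat_lit 1) (nat_lit 0) (nat_lit 1) (nat_lit 0) (nat_lit 494) (nat_lit 423) (nat_lit 163)))) (XT.nd (nat_lit 188) (nat_lit 0) (nat_lit 0) (XT.nd (nat_lit 94) (nat_lit 0) (nat_lit 0) (XT.lf (nat_lit 0) (nat_lit 35059584260475) (nat_lit 0) (nat_lit 0) (nat_lit 0) (nat_lit 0) (nat_lit 0) (nat_lit 0) (nat_lit 1) (nat_lit 0) (nat_lit 1) (nat_lit 0) (nat_lit 495) (nat_lit 423) (nat_lit 162)) (XT.lf (nat_lit 0) (nat_lit 37853394132694) (nat_lit 0) (nat_lit 0) (nat_lit 0) (nat_lit 0) (nat_lit 0) (nat_lit 0) (nat_lit 1) (nat_lit 0) (nat_lit 1) (nat_lit 0) (nat_lit 496) (nat_lit 423) (nat_lit 161))) (XT.nd (nat_lit 94) (nat_lit 0) (nat_lit 0) (XT.lf (nat_lit 0) (nat_lit 40870708794693) (nat_lit 0) (nat_lit 0) (nat_lit 0) (nat_lit 0) (nat_lit 0) (nat_lit 0) (nat_lit 1) (nat_lit 0) (nat_lit 1) (nat_lit 0) (nat_lit 497) (nat_lit 423) (nat_lit 160)) (XT.lf (nat_lit 0)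 (nat_lit 44129408629656) (nat_lit 0) (nat_lit 0) (nat_lit 0) (nat_lit 0) (nat_lit 0) (nat_lit 0) (nat_lit 1) (nat_lit 0) (nat_lit 1) (nat_lit 0) (nat_lit 498) (nat_lit 423) (nat_lit 159))))) (XT.nd (nat_lit 60818) (nat_lit 0) (nat_lit 10836) (XT.nd (nat_lit 188) (nat_lit 0) (nat_lit 0) (XT.lf (nat_lit 0) (nat_lit 47648804451417) (nat_lit 0) (nat_lit 0) (nat_lit 0) (nat_lit 0) (nat_lit 0) (nat_lit 0) (nat_lit 1) (nat_lit 0) (nat_lit 1) (nat_lit 0) (nat_lit 499) (nat_lit 423) (nat_lit 158)) (XT.nd (nat_lit 60536) (nat_lit 0) (nat_lit 10752) (XT.lf (nat_lit 0) (nat_lit 55554775225430) (nat_lit 0) (nat_lit 0) (nat_lit 0) (nat_lit 0) (nat_lit 0) (nat_lit 0) (nat_lit 1) (nat_lit 0) (nat_lit 1) (nat_lit 0) (nat_lit 501) (nat_lit 423) (nat_lit 156)) (XT.lf (nat_lit 0) (nat_lit 131427258973) (nat_lit 924) (nat_lit 74024316432) (nat_lit 924) (nat_lit 74024316432) (nat_lit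 128) (nat_lit 3) (nat_lit 139) (nat_lit 3) (nat_lit 139) (nat_lit 5) (nat_lit 424) (nat_lit 424) (nat_lit 232)))) (XT.nd (nat_lit 188) (nat_lit 0) (nat_lit 84) (XT.nd (nat_lit 94) (nat_lit 0) (nat_lit 0) (XT.lf (nat_lit 0) (nat_lit 278674443505) (nat_lit 840) (nat_lit 272546829095) (nat_lit 924) (nat_lit 29823295179) (nat_lit 129) (nat_lit 5) (nat_lit 139) (nat_lit 5) (nat_lit 140) (nat_lit 5) (nat_lit 425) (nat_lit 424) (nat_lit 231)) (XT.lf (nat_lit 84) (nat_lit 201559033257) (nat_lit 0) (nat_lit 106897565392) (nat_lit 924) (nat_lit 295813344186) (nat_lit 130) (nat_lit 5) (nat_lit 129) (nat_lit 5) (nat_lit 140) (nat_lit 5) (nat_lit 426) (nat_lit 424) (nat_lit 230))) (XT.nd (nat_lit 94) (nat_lit 0) (nat_lit 84) (XT.lf (nat_lit 84) (nat_lit 91228860386) (nat_lit 0) (nat_lit 261465331874) (nat_lit 924) (nat_lit 276055512333) (nat_lit 131) (nat_lit 5) (nat_lit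 130) (nat_lit 5) (nat_lit 141) (nat_lit 5) (nat_lit 427) (nat_lit 424) (nat_lit 229)) (XT.lf (nat_lit 0) (nat_lit 412817977934) (nat_lit 840) (nat_lit 21104879877) (nat_lit 924) (nat_lit 220647630252) (nat_lit 131) (nat_lit 5) (nat_lit 141) (nat_lit 5) (nat_lit 142) (nat_lit 5) (nat_lit 428) (nat_lit 424) (nat_lit 228))))))))
noncomputable def xc213 : XT := (XT.nd (nat_lit 2632) (nat_lit 3612) (nat_lit 0) (XT.nd (nat_lit 1316) (nat_lit 2940) (nat_lit 0) (XT.nd (nat_lit 658) (nat_lit 2016) (nat_lit 0) (XT.nd (nat_lit 282) (nat_lit 1764) (nat_lit 0) (XT.nd (nat_lit 94) (nat_lit 756) (nat_lit 0) (XT.lf (nat_lit 0) (nat_lit 491666769734) (nat_lit 840) (nat_lit 132916505517) (nat_lit 924) (nat_lit 57177903796) (nat_lit 132) (nat_lit 5) (nat_lit 142) (nat_lit 5) (nat_lit 143) (nat_lit 5) (nat_lit 429) (nat_lit 424) (nat_lit 227)) (XT.nd (nat_lit 94) (nat_lit 756)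 (nat_lit 0) (XT.lf (nat_lit 84) (nat_lit 461482643948) (nat_lit 0) (nat_lit 130236226214) (nat_lit 924) (nat_lit 118663484884) (nat_lit 133) (nat_lit 5) (nat_lit 132) (nat_lit 5) (nat_lit 143) (nat_lit 5) (nat_lit 430) (nat_lit 424) (nat_lit 226)) (XT.lf (nat_lit 0) (nat_lit 372587583210) (nat_lit 840) (nat_lit 341660186663) (nat_lit 924) (nat_lit 26321823688) (nat_lit 123) (nat_lit 5) (nat_lit 133) (nat_lit 5) (nat_lit 134) (nat_lit 5) (nat_lit 431) (nat_lit 424) (nat_lit 225)))) (XT.nd (nat_lit 188) (nat_lit 756) (nat_lit 0) (XT.nd (nat_lit 94) (nat_lit 420) (nat_lit 0) (XT.lf (nat_lit 0) (nat_lit 85291699219) (nat_lit 588) (nat_lit 490286197348) (nat_lit 84) (nat_lit 196824909174) (nat_lit 116) (nat_lit 5) (nat_lit 123) (nat_lit 5) (nat_lit 117) (nat_lit 5) (nat_lit 432) (nat_lit 424) (nat_lit 224)) (XT.lf (nat_lit 0) (nat_lit 190694938813) (nat_lit 420)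 (nat_lit 29482873622) (nat_lit 504) (nat_lit 585820002347) (nat_lit 111) (nat_lit 5) (nat_lit 116) (nat_lit 5) (nat_lit 117) (nat_lit 5) (nat_lit 433) (nat_lit 424) (nat_lit 223))) (XT.nd (nat_lit 94) (nat_lit 336) (nat_lit 0) (XT.lf (nat_lit 0) (nat_lit 95993645530) (nat_lit 420) (nat_lit 288788206131) (nat_lit 504) (nat_lit 456552221037) (nat_lit 106) (nat_lit 5) (nat_lit 111) (nat_lit 5) (nat_lit 112) (nat_lit 5) (nat_lit 434) (nat_lit 424) (nat_lit 222)) (XT.lf (nat_lit 0) (nat_lit 1907246649) (nat_lit 336) (nat_lit 576753516427) (nat_lit 420) (nat_lit 300031140718) (nat_lit 102) (nat_lit 5) (nat_lit 106) (nat_lit 5) (nat_lit 107) (nat_lit 5) (nat_lit 435) (nat_lit 424) (nat_lit 221))))) (XT.nd (nat_lit 282) (nat_lit 1260) (nat_lit 0) (XT.nd (nat_lit 94) (nat_lit 756) (nat_lit 0) (XT.lf (nat_lit 0) (nat_lit 806209846821) (nat_lit 420) (nat_lit 88015140664)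 (nat_lit 84) (nat_lit 23905380922) (nat_lit 102) (nat_lit 5) (nat_lit 107) (nat_lit 5) (nat_lit 103) (nat_lit 5) (nat_lit 436) (nat_lit 424) (nat_lit 220)) (XT.nd (nat_lit 94) (nat_lit 336) (nat_lit 0) (XT.lf (nat_lit 0) (nat_lit 110566060913) (nat_lit 420) (nat_lit 182347038077) (nat_lit 84) (nat_lit 666627219920) (nat_lit 97) (nat_lit 5) (nat_lit 102) (nat_lit 5) (nat_lit 98) (nat_lit 5) (nat_lit 437) (nat_lit 424) (nat_lit 219)) (XT.lf (nat_lit 0) (nat_lit 365781053483) (nat_lit 420) (nat_lit 277234962122) (nat_lit 84) (nat_lit 360212780047) (nat_lit 93) (nat_lit 5) (nat_lit 98) (nat_lit 5) (nat_lit 94) (nat_lit 5) (nat_lit 438) (nat_lit 424) (nat_lit 218)))) (XT.nd (nat_lit 188) (nat_lit 672) (nat_lit 0) (XT.nd (nat_lit 94) (nat_lit 252) (nat_lit 0) (XT.lf (nat_lit 0) (nat_lit 660507659263) (nat_lit 420) (nat_lit 369748616013) (nat_lit 84) (nat_lit 19201354567)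 (nat_lit 89) (nat_lit 5) (nat_lit 94) (nat_lit 5) (nat_lit 90) (nat_lit 5) (nat_lit 439) (nat_lit 424) (nat_lit 217)) (XT.lf (nat_lit 0) (nat_lit 633313548713) (nat_lit 252) (nat_lit 371137477410) (nat_lit 336) (nat_lit 93651813016) (nat_lit 86) (nat_lit 5) (nat_lit 89) (nat_lit 5) (nat_lit 90) (nat_lit 5) (nat_lit 440) (nat_lit 424) (nat_lit 216))) (XT.nd (nat_lit 94) (nat_lit 252) (nat_lit 0) (XT.lf (nat_lit 0) (nat_lit 239531646129) (nat_lit 420) (nat_lit 560383479770) (nat_lit 84) (nat_lit 349475109219) (nat_lit 81) (nat_lit 5) (nat_lit 86) (nat_lit 5) (nat_lit 82) (nat_lit 5) (nat_lit 441) (nat_lit 424) (nat_lit 215)) (XT.lf (nat_lit 0) (nat_lit 548927315623) (nat_lit 252) (nat_lit 70262621475) (nat_lit 336) (nat_lit 584358858974) (nat_lit 78) (nat_lit 5) (nat_lit 81) (nat_lit 5) (nat_lit 82) (nat_lit 5) (nat_lit 442) (nat_lit 424) (nat_lit 214))))))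 (XT.nd (nat_lit 658) (nat_lit 1176) (nat_lit 0) (XT.nd (nat_lit 282) (nat_lit 924) (nat_lit 0) (XT.nd (nat_lit 94) (nat_lit 588) (nat_lit 0) (XT.lf (nat_lit 0) (nat_lit 510412179473) (nat_lit 252) (nat_lit 547905485757) (nat_lit 336) (nat_lit 202267537978) (nat_lit 75) (nat_lit 5) (nat_lit 78) (nat_lit 5) (nat_lit 79) (nat_lit 5) (nat_lit 443) (nat_lit 424) (nat_lit 213)) (XT.nd (nat_lit 94) (nat_lit 252) (nat_lit 0) (XT.lf (nat_lit 0) (nat_lit 227959949955) (nat_lit 336) (nat_lit 843867789547) (nat_lit 84) (nat_lit 248977409187) (nat_lit 71) (nat_lit 5) (nat_lit 75) (nat_lit 5) (nat_lit 72) (nat_lit 5) (nat_lit 444) (nat_lit 424) (nat_lit 212)) (XT.lf (nat_lit 0) (nat_lit 445201395051) (nat_lit 252) (nat_lit 269883781277) (nat_lit 336) (nat_lit 669113419984) (nat_lit 68) (nat_lit 5) (nat_lit 71) (nat_lit 5) (nat_lit 72) (nat_lit 5) (nat_lit 445) (nat_lit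 424) (nat_lit 211)))) (XT.nd (nat_lit 188) (nat_lit 420) (nat_lit 0) (XT.nd (nat_lit 94) (nat_lit 336) (nat_lit 0) (XT.lf (nat_lit 0) (nat_lit 419478151589) (nat_lit 168) (nat_lit 852500696208) (nat_lit 252) (nat_lit 179144750598) (nat_lit 66) (nat_lit 5) (nat_lit 68) (nat_lit 5) (nat_lit 69) (nat_lit 5) (nat_lit 446) (nat_lit 424) (nat_lit 210)) (XT.lf (nat_lit 0) (nat_lit 366769453677) (nat_lit 336) (nat_lit 1122186835719) (nat_lit 84) (nat_lit 32775524867) (nat_lit 62) (nat_lit 5) (nat_lit 66) (nat_lit 5) (nat_lit 63) (nat_lit 5) (nat_lit 447) (nat_lit 424) (nat_lit 209))) (XT.nd (nat_lit 94) (nat_lit 252) (nat_lit 0) (XT.lf (nat_lit 0) (nat_lit 379434435729) (nat_lit 168) (nat_lit 609293850007) (nat_lit 252) (nat_lit 607181169162) (nat_lit 60) (nat_lit 5) (nat_lit 62) (nat_lit 5) (nat_lit 63) (nat_lit 5) (nat_lit 448) (nat_lit 424) (nat_lit 208)) (XT.lf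 (nat_lit 0) (nat_lit 16433211965) (nat_lit 252) (nat_lit 1302239941364) (nat_lit 84) (nat_lit 355784707979) (nat_lit 57) (nat_lit 5) (nat_lit 60) (nat_lit 5) (nat_lit 58) (nat_lit 5) (nat_lit 449) (nat_lit 424) (nat_lit 207))))) (XT.nd (nat_lit 282) (nat_lit 588) (nat_lit 0) (XT.nd (nat_lit 94) (nat_lit 420) (nat_lit 0) (XT.lf (nat_lit 0) (nat_lit 364006696090) (nat_lit 168) (nat_lit 342436324509) (nat_lit 252) (nat_lit 1050460482776) (nat_lit 55) (nat_lit 5) (nat_lit 57) (nat_lit 5) (nat_lit 58) (nat_lit 5) (nat_lit 450) (nat_lit 424) (nat_lit 206)) (XT.nd (nat_lit 94) (nat_lit 252) (nat_lit 0) (XT.lf (nat_lit 0) (nat_lit 365455263709) (nat_lit 168) (nat_lit 1126074919392) (nat_lit 252) (nat_lit 352420785246) (nat_lit 53) (nat_lit 5) (nat_lit 55) (nat_lit 5) (nat_lit 56) (nat_lit 5) (nat_lit 451) (nat_lit 424) (nat_lit 205)) (XT.lf (nat_lit 0) (nat_lit 377095933998)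 (nat_lit 168) (nat_lit 47839601855) (nat_lit 252) (nat_lit 1510897160161) (nat_lit 50) (nat_lit 5) (nat_lit 52) (nat_lit 5) (nat_lit 53) (nat_lit 5) (nat_lit 452) (nat_lit 424) (nat_lit 204)))) (XT.nd (nat_lit 188) (nat_lit 252) (nat_lit 0) (XT.nd (nat_lit 94) (nat_lit 168) (nat_lit 0) (XT.lf (nat_lit 0) (nat_lit 388799497639) (nat_lit 168) (nat_lit 913179819501) (nat_lit 252) (nat_lit 730304472154) (nat_lit 48) (nat_lit 5) (nat_lit 50) (nat_lit 5) (nat_lit 51) (nat_lit 5) (nat_lit 453) (nat_lit 424) (nat_lit 203)) (XT.lf (nat_lit 0) (nat_lit 148496909257) (nat_lit 168) (nat_lit 1715728187407) (nat_lit 84) (nat_lit 270169391285) (nat_lit 46) (nat_lit 5) (nat_lit 48) (nat_lit 5) (nat_lit 47) (nat_lit 5) (nat_lit 454) (nat_lit 424) (nat_lit 202))) (XT.nd (nat_lit 94) (nat_lit 84) (nat_lit 0) (XT.lf (nat_lit 0) (nat_lit 447371826400) (nat_lit 168) (nat_lit 676466681540)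 (nat_lit 252) (nat_lit 1117645803432) (nat_lit 44) (nat_lit 5) (nat_lit 46) (nat_lit 5) (nat_lit 47) (nat_lit 5) (nat_lit 455) (nat_lit 424) (nat_lit 201)) (XT.lf (nat_lit 0) (nat_lit 495028779415) (nat_lit 84) (nat_lit 1729750497241) (nat_lit 168) (nat_lit 129983451907) (nat_lit 43) (nat_lit 5) (nat_lit 44) (nat_lit 5) (nat_lit 45) (nat_lit 4) (nat_lit 456) (nat_lit 424) (nat_lit 200))))))) (XT.nd (nat_lit 1316) (nat_lit 1512) (nat_lit 0) (XT.nd (nat_lit 658) (nat_lit 840) (nat_lit 0) (XT.nd (nat_lit 282) (nat_lit 672) (nat_lit 0) (XT.nd (nat_lit 94) (nat_lit 336) (nat_lit 0) (XT.lf (nat_lit 0) (nat_lit 546785060110) (nat_lit 168) (nat_lit 411634756076) (nat_lit 252) (nat_lit 1515366987740) (nat_lit 40) (nat_lit 5) (nat_lit 42) (nat_lit 5) (nat_lit 43) (nat_lit 5) (nat_lit 457) (nat_lit 424) (nat_lit 199)) (XT.nd (nat_lit 94) (nat_lit 252) (nat_lit 0) (XT.lf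 (nat_lit 0) (nat_lit 612608438906) (nat_lit 84) (nat_lit 1575083834025) (nat_lit 168) (nat_lit 411616442865) (nat_lit 39) (nat_lit 5) (nat_lit 40) (nat_lit 5) (nat_lit 41) (nat_lit 4) (nat_lit 458) (nat_lit 424) (nat_lit 198)) (XT.lf (nat_lit 0) (nat_lit 693527255041) (nat_lit 168) (nat_lit 113814343364) (nat_lit 252) (nat_lit 1924327233034) (nat_lit 36) (nat_lit 5) (nat_lit 38) (nat_lit 5) (nat_lit 39) (nat_lit 5) (nat_lit 459) (nat_lit 424) (nat_lit 197)))) (XT.nd (nat_lit 188) (nat_lit 336) (nat_lit 0) (XT.nd (nat_lit 94) (nat_lit 252) (nat_lit 0) (XT.lf (nat_lit 0) (nat_lit 780851477447) (nat_lit 84) (nat_lit 1398964916215) (nat_lit 168) (nat_lit 690942914855) (nat_lit 35) (nat_lit 5) (nat_lit 36) (nat_lit 5) (nat_lit 37) (nat_lit 4) (nat_lit 460) (nat_lit 424) (nat_lit 196)) (XT.lf (nat_lit 0) (nat_lit 676045515602) (nat_lit 252) (nat_lit 2126270632162)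 (nat_lit 84) (nat_lit 215387750158) (nat_lit 32) (nat_lit 5) (nat_lit 35) (nat_lit 5) (nat_lit 33) (nat_lit 4) (nat_lit 461) (nat_lit 424) (nat_lit 195))) (XT.nd (nat_lit 94) (nat_lit 252) (nat_lit 0) (XT.lf (nat_lit 0) (nat_lit 1007745444787) (nat_lit 84) (nat_lit 1197088403849) (nat_lit 168) (nat_lit 967171454085) (nat_lit 31) (nat_lit 5) (nat_lit 32) (nat_lit 5) (nat_lit 33) (nat_lit 4) (nat_lit 462) (nat_lit 424) (nat_lit 194)) (XT.lf (nat_lit 0) (nat_lit 565899231319) (nat_lit 252) (nat_lit 2184824623661) (nat_lit 84) (nat_lit 584264118996) (nat_lit 28) (nat_lit 5) (nat_lit 31) (nat_lit 5) (nat_lit 29) (nat_lit 4) (nat_lit 463) (nat_lit 424) (nat_lit 193))))) (XT.nd (nat_lit 282) (nat_lit 504) (nat_lit 0) (XT.nd (nat_lit 94) (nat_lit 252) (nat_lit 0) (XT.lf (nat_lit 0) (nat_lit 1302477163342) (nat_lit 84) (nat_lit 964544893204) (nat_lit 168) (nat_lit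 1239229865825) (nat_lit 27) (nat_lit 5) (nat_lit 28) (nat_lit 5) (nat_lit 29) (nat_lit 4) (nat_lit 464) (nat_lit 424) (nat_lit 192)) (XT.nd (nat_lit 94) (nat_lit 84) (nat_lit 0) (XT.lf (nat_lit 0) (nat_lit 478056531267) (nat_lit 168) (nat_lit 2205620355606) (nat_lit 84) (nat_lit 1003304783732) (nat_lit 25) (nat_lit 5) (nat_lit 27) (nat_lit 5) (nat_lit 26) (nat_lit 4) (nat_lit 465) (nat_lit 424) (nat_lit 191)) (XT.lf (nat_lit 0) (nat_lit 1675594471015) (nat_lit 84) (nat_lit 695737587310) (nat_lit 168) (nat_lit 1505720838381) (nat_lit 24) (nat_lit 5) (nat_lit 25) (nat_lit 5) (nat_lit 26) (nat_lit 4) (nat_lit 466) (nat_lit 424) (nat_lit 190)))) (XT.nd (nat_lit 188) (nat_lit 252) (nat_lit 0) (XT.nd (nat_lit 94) (nat_lit 84) (nat_lit 0) (XT.lf (nat_lit 0) (nat_lit 415980674210) (nat_lit 168) (nat_lit 2181178905597) (nat_lit 84) (nat_lit 1480263579123) (nat_lit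 22) (nat_lit 5) (nat_lit 24) (nat_lit 5) (nat_lit 23) (nat_lit 4) (nat_lit 467) (nat_lit 424) (nat_lit 189)) (XT.lf (nat_lit 0) (nat_lit 2139189006270) (nat_lit 84) (nat_lit 384288211846) (nat_lit 168) (nat_lit 1764871024915) (nat_lit 21) (nat_lit 5) (nat_lit 22) (nat_lit 5) (nat_lit 23) (nat_lit 4) (nat_lit 468) (nat_lit 424) (nat_lit 188))) (XT.nd (nat_lit 94) (nat_lit 84) (nat_lit 0) (XT.lf (nat_lit 0) (nat_lit 383741680585) (nat_lit 168) (nat_lit 2102795548874) (nat_lit 84) (nat_lit 2023919503785) (nat_lit 19) (nat_lit 5) (nat_lit 21) (nat_lit 5) (nat_lit 20) (nat_lit 4) (nat_lit 469) (nat_lit 424) (nat_lit 187)) (XT.lf (nat_lit 0) (nat_lit 2707102679482) (nat_lit 84) (nat_lit 22930821064) (nat_lit 168) (nat_lit 2014472657448) (nat_lit 18) (nat_lit 5) (nat_lit 19) (nat_lit 5) (nat_lit 20) (nat_lit 4) (nat_lit 470) (nat_lit 424) (nat_lit 186)))))) (XT.nd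 (nat_lit 658) (nat_lit 588) (nat_lit 0) (XT.nd (nat_lit 282) (nat_lit 504) (nat_lit 0) (XT.nd (nat_lit 94) (nat_lit 252) (nat_lit 0) (XT.lf (nat_lit 0) (nat_lit 386100661549) (nat_lit 168) (nat_lit 1960366023836) (nat_lit 84) (nat_lit 2644210157757) (nat_lit 16) (nat_lit 5) (nat_lit 18) (nat_lit 5) (nat_lit 17) (nat_lit 4) (nat_lit 471) (nat_lit 424) (nat_lit 185)) (XT.nd (nat_lit 94) (nat_lit 168) (nat_lit 0) (XT.lf (nat_lit 0) (nat_lit 3004744934561) (nat_lit 168) (nat_lit 1861400827109) (nat_lit 0) (nat_lit 383914094459) (nat_lit 15) (nat_lit 5) (nat_lit 17) (nat_lit 4) (nat_lit 15) (nat_lit 4) (nat_lit 472) (nat_lit 424) (nat_lit 184)) (XT.lf (nat_lit 0) (nat_lit 428605520699) (nat_lit 168) (nat_lit 1742189524514) (nat_lit 84) (nat_lit 3352381866966) (nat_lit 13) (nat_lit 5) (nat_lit 15) (nat_lit 5) (nat_lit 14) (nat_lit 4) (nat_lit 473) (nat_lit 424)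 (nat_lit 183)))) (XT.nd (nat_lit 188) (nat_lit 252) (nat_lit 0) (XT.nd (nat_lit 94) (nat_lit 168) (nat_lit 0) (XT.lf (nat_lit 0) (nat_lit 3351488476975) (nat_lit 168) (nat_lit 1603669642806) (nat_lit 0) (nat_lit 855459102062) (nat_lit 12) (nat_lit 5) (nat_lit 14) (nat_lit 4) (nat_lit 12) (nat_lit 4) (nat_lit 474) (nat_lit 424) (nat_lit 182)) (XT.lf (nat_lit 0) (nat_lit 517699483591) (nat_lit 168) (nat_lit 1434745435059) (nat_lit 84) (nat_lit 4161158545043) (nat_lit 10) (nat_lit 5) (nat_lit 12) (nat_lit 5) (nat_lit 11) (nat_lit 4) (nat_lit 475) (nat_lit 424) (nat_lit 181))) (XT.nd (nat_lit 94) (nat_lit 168) (nat_lit 0) (XT.lf (nat_lit 0) (nat_lit 3779977338897) (nat_lit 168) (nat_lit 1249356120769) (nat_lit 0) (nat_lit 1402806502880) (nat_lit 9) (nat_lit 5) (nat_lit 11) (nat_lit 4) (nat_lit 9) (nat_lit 4) (nat_lit 476) (nat_lit 424) (nat_lit 180)) (XT.lf (nat_lit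 0) (nat_lit 660844092048) (nat_lit 168) (nat_lit 1022440448548) (nat_lit 84) (nat_lit 5084931590459) (nat_lit 7) (nat_lit 5) (nat_lit 9) (nat_lit 5) (nat_lit 8) (nat_lit 4) (nat_lit 477) (nat_lit 424) (nat_lit 179))))) (XT.nd (nat_lit 376) (nat_lit 0) (nat_lit 0) (XT.nd (nat_lit 188) (nat_lit 336) (nat_lit 0) (XT.nd (nat_lit 94) (nat_lit 168) (nat_lit 0) (XT.lf (nat_lit 0) (nat_lit 4301716871174) (nat_lit 168) (nat_lit 781755754677) (nat_lit 0) (nat_lit 2037744644138) (nat_lit 6) (nat_lit 5) (nat_lit 8) (nat_lit 4) (nat_lit 6) (nat_lit 4) (nat_lit 478) (nat_lit 424) (nat_lit 178)) (XT.lf (nat_lit 0) (nat_lit 866658504338) (nat_lit 168) (nat_lit 487322294148) (nat_lit 84) (nat_lit 6139973394077) (nat_lit 4) (nat_lit 5) (nat_lit 6) (nat_lit 5) (nat_lit 5) (nat_lit 4) (nat_lit 479) (nat_lit 424) (nat_lit 177))) (XT.nd (nat_lit 94) (nat_lit 252) (nat_lit 0) (XT.lf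 (nat_lit 0) (nat_lit 4929833341583) (nat_lit 168) (nat_lit 181651108394) (nat_lit 0) (nat_lit 2773669313991) (nat_lit 3) (nat_lit 5) (nat_lit 5) (nat_lit 4) (nat_lit 3) (nat_lit 4) (nat_lit 480) (nat_lit 424) (nat_lit 176)) (XT.lf (nat_lit 0) (nat_lit 12037710457433) (nat_lit 0) (nat_lit 0) (nat_lit 0) (nat_lit 0) (nat_lit 0) (nat_lit 0) (nat_lit 1) (nat_lit 0) (nat_lit 1) (nat_lit 0) (nat_lit 481) (nat_lit 424) (nat_lit 175)))) (XT.nd (nat_lit 188) (nat_lit 0) (nat_lit 0) (XT.nd (nat_lit 94) (nat_lit 0) (nat_lit 0) (XT.lf (nat_lit 0) (nat_lit 12988893875853) (nat_lit 0) (nat_lit 0) (nat_lit 0) (nat_lit 0) (nat_lit 0) (nat_lit 0) (nat_lit 1) (nat_lit 0) (nat_lit 1) (nat_lit 0) (nat_lit 482) (nat_lit 424) (nat_lit 174)) (XT.lf (nat_lit 0) (nat_lit 14016171967756) (nat_lit 0) (nat_lit 0) (nat_lit 0) (nat_lit 0) (nat_lit 0) (nat_lit 0) (nat_lit 1) (nat_lit 0)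 (nat_lit 1) (nat_lit 0) (nat_lit 483) (nat_lit 424) (nat_lit 173))) (XT.nd (nat_lit 94) (nat_lit 0) (nat_lit 0) (XT.lf (nat_lit 0) (nat_lit 15125632307018) (nat_lit 0) (nat_lit 0) (nat_lit 0) (nat_lit 0) (nat_lit 0) (nat_lit 0) (nat_lit 1) (nat_lit 0) (nat_lit 1) (nat_lit 0) (nat_lit 484) (nat_lit 424) (nat_lit 172)) (XT.lf (nat_lit 0) (nat_lit 16323849473428) (nat_lit 0) (nat_lit 0) (nat_lit 0) (nat_lit 0) (nat_lit 0) (nat_lit 0) (nat_lit 1) (nat_lit 0) (nat_lit 1) (nat_lit 0) (nat_lit 485) (nat_lit 424) (nat_lit 171))))))))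
noncomputable def xc214 : XT := (XT.nd (nat_lit 63356) (nat_lit 0) (nat_lit 2016) (XT.nd (nat_lit 62040) (nat_lit 0) (nat_lit 8148) (XT.nd (nat_lit 658) (nat_lit 0) (nat_lit 0) (XT.nd (nat_lit 282) (nat_lit 0) (nat_lit 0) (XT.nd (nat_lit 94) (nat_lit 0) (nat_lit 0) (XT.lf (nat_lit 0) (nat_lit 17617924013157) (nat_lit 0) (nat_lit 0) (nat_lit 0) (nat_lit 0) (nat_lit 0) (nat_lit 0) (nat_lit 1) (nat_lit 0) (nat_lit 1) (nat_lit 0) (nat_lit 486) (nat_lit 424) (nat_lit 170)) (XT.nd (nat_lit 94) (nat_lit 0) (nat_lit 0) (XT.lf (nat_lit 0) (nat_lit 19015524516070) (nat_lit 0) (nat_lit 0) (nat_lit 0) (nat_lit 0) (nat_lit 0) (nat_lit 0) (nat_lit 1) (nat_lit 0) (nat_lit 1) (nat_lit 0) (nat_lit 487) (nat_lit 424) (nat_lit 169)) (XT.lf (nat_lit 0) (nat_lit 20524933059222) (nat_lit 0) (nat_lit 0) (nat_lit 0) (nat_lit 0) (nat_lit 0) (nat_lit 0) (nat_lit 1) (nat_lit 0) (nat_lit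 1) (nat_lit 0) (nat_lit 488) (nat_lit 424) (nat_lit 168)))) (XT.nd (nat_lit 188) (nat_lit 0) (nat_lit 0) (XT.nd (nat_lit 94) (nat_lit 0) (nat_lit 0) (XT.lf (nat_lit 0) (nat_lit 22155094285831) (nat_lit 0) (nat_lit 0) (nat_lit 0) (nat_lit 0) (nat_lit 0) (nat_lit 0) (nat_lit 1) (nat_lit 0) (nat_lit 1) (nat_lit 0) (nat_lit 489) (nat_lit 424) (nat_lit 167)) (XT.lf (nat_lit 0) (nat_lit 23915668410574) (nat_lit 0) (nat_lit 0) (nat_lit 0) (nat_lit 0) (nat_lit 0) (nat_lit 0) (nat_lit 1) (nat_lit 0) (nat_lit 1) (nat_lit 0) (nat_lit 490) (nat_lit 424) (nat_lit 166))) (XT.nd (nat_lit 94) (nat_lit 0) (nat_lit 0) (XT.lf (nat_lit 0) (nat_lit 25817088465300) (nat_lit 0) (nat_lit 0) (nat_lit 0) (nat_lit 0) (nat_lit 0) (nat_lit 0) (nat_lit 1) (nat_lit 0) (nat_lit 1) (nat_lit 0) (nat_lit 491) (nat_lit 424) (nat_lit 165)) (XT.lf (nat_lit 0) (nat_lit 27870622124408) (nat_lit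 0) (nat_lit 0) (nat_lit 0) (nat_lit 0) (nat_lit 0) (nat_lit 0) (nat_lit 1) (nat_lit 0) (nat_lit 1) (nat_lit 0) (nat_lit 492) (nat_lit 424) (nat_lit 164))))) (XT.nd (nat_lit 282) (nat_lit 0) (nat_lit 0) (XT.nd (nat_lit 94) (nat_lit 0) (nat_lit 0) (XT.lf (nat_lit 0) (nat_lit 30088438476249) (nat_lit 0) (nat_lit 0) (nat_lit 0) (nat_lit 0) (nat_lit 0) (nat_lit 0) (nat_lit 1) (nat_lit 0) (nat_lit 1) (nat_lit 0) (nat_lit 493) (nat_lit 424) (nat_lit 163)) (XT.nd (nat_lit 94) (nat_lit 0) (nat_lit 0) (XT.lf (nat_lit 0) (nat_lit 32483680136241) (nat_lit 0) (nat_lit 0) (nat_lit 0) (nat_lit 0) (nat_lit 0) (nat_lit 0) (nat_lit 1) (nat_lit 0) (nat_lit 1) (nat_lit 0) (nat_lit 494) (nat_lit 424) (nat_lit 162)) (XT.lf (nat_lit 0) (nat_lit 35070541129035) (nat_lit 0) (nat_lit 0) (nat_lit 0) (nat_lit 0) (nat_lit 0) (nat_lit 0) (nat_lit 1) (nat_lit 0) (nat_lit 1) (nat_lit 0)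 (nat_lit 495) (nat_lit 424) (nat_lit 161)))) (XT.nd (nat_lit 188) (nat_lit 0) (nat_lit 0) (XT.nd (nat_lit 94) (nat_lit 0) (nat_lit 0) (XT.lf (nat_lit 0) (nat_lit 37864351001255) (nat_lit 0) (nat_lit 0) (nat_lit 0) (nat_lit 0) (nat_lit 0) (nat_lit 0) (nat_lit 1) (nat_lit 0) (nat_lit 1) (nat_lit 0) (nat_lit 496) (nat_lit 424) (nat_lit 160)) (XT.lf (nat_lit 0) (nat_lit 40881665663256) (nat_lit 0) (nat_lit 0) (nat_lit 0) (nat_lit 0) (nat_lit 0) (nat_lit 0) (nat_lit 1) (nat_lit 0) (nat_lit 1) (nat_lit 0) (nat_lit 497) (nat_lit 424) (nat_lit 159))) (XT.nd (nat_lit 94) (nat_lit 0) (nat_lit 0) (XT.lf (nat_lit 0) (nat_lit 44140365498220) (nat_lit 0) (nat_lit 0) (nat_lit 0) (nat_lit 0) (nat_lit 0) (nat_lit 0) (nat_lit 1) (nat_lit 0) (nat_lit 1) (nat_lit 0) (nat_lit 498) (nat_lit 424) (nat_lit 158)) (XT.lf (nat_lit 0) (nat_lit 47659761319982) (nat_lit 0) (nat_lit 0)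 (nat_lit 0) (nat_lit 0) (nat_lit 0) (nat_lit 0) (nat_lit 1) (nat_lit 0) (nat_lit 1) (nat_lit 0) (nat_lit 499) (nat_lit 424) (nat_lit 157)))))) (XT.nd (nat_lit 658) (nat_lit 2604) (nat_lit 0) (XT.nd (nat_lit 282) (nat_lit 0) (nat_lit 168) (XT.nd (nat_lit 94) (nat_lit 0) (nat_lit 84) (XT.lf (nat_lit 0) (nat_lit 141941755993) (nat_lit 924) (nat_lit 79946095688) (nat_lit 924) (nat_lit 79946095688) (nat_lit 128) (nat_lit 3) (nat_lit 139) (nat_lit 3) (nat_lit 139) (nat_lit 5) (nat_lit 425) (nat_lit 425) (nat_lit 230)) (XT.nd (nat_lit 94) (nat_lit 0) (nat_lit 0) (XT.lf (nat_lit 0) (nat_lit 300968985426) (nat_lit 840) (nat_lit 294350223942) (nat_lit 924) (nat_lit 32208894512) (nat_lit 129) (nat_lit 5) (nat_lit 139) (nat_lit 5) (nat_lit 140) (nat_lit 5) (nat_lit 426) (nat_lit 425) (nat_lit 229)) (XT.lf (nat_lit 84) (nat_lit 217684092124) (nat_lit 0) (nat_lit 115449582667)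 (nat_lit 924) (nat_lit 319477836059) (nat_lit 130) (nat_lit 5) (nat_lit 129) (nat_lit 5) (nat_lit 140) (nat_lit 5) (nat_lit 427) (nat_lit 425) (nat_lit 228)))) (XT.nd (nat_lit 188) (nat_lit 0) (nat_lit 168) (XT.nd (nat_lit 94) (nat_lit 0) (nat_lit 84) (XT.lf (nat_lit 84) (nat_lit 98527520200) (nat_lit 0) (nat_lit 282382717495) (nat_lit 924) (nat_lit 298139417764) (nat_lit 131) (nat_lit 5) (nat_lit 130) (nat_lit 5) (nat_lit 141) (nat_lit 5) (nat_lit 428) (nat_lit 425) (nat_lit 227)) (XT.lf (nat_lit 0) (nat_lit 445843886141) (nat_lit 840) (nat_lit 22792919369) (nat_lit 924) (nat_lit 238299298099) (nat_lit 131) (nat_lit 5) (nat_lit 141) (nat_lit 5) (nat_lit 142) (nat_lit 5) (nat_lit 429) (nat_lit 425) (nat_lit 226))) (XT.nd (nat_lit 94) (nat_lit 0) (nat_lit 0) (XT.lf (nat_lit 0) (nat_lit 531000550077) (nat_lit 840) (nat_lit 143549466655) (nat_lit 924) (nat_lit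 61752034701) (nat_lit 132) (nat_lit 5) (nat_lit 142) (nat_lit 5) (nat_lit 143) (nat_lit 5) (nat_lit 430) (nat_lit 425) (nat_lit 225)) (XT.lf (nat_lit 84) (nat_lit 498401599153) (nat_lit 0) (nat_lit 140655192252) (nat_lit 924) (nat_lit 128156131464) (nat_lit 133) (nat_lit 5) (nat_lit 132) (nat_lit 5) (nat_lit 143) (nat_lit 5) (nat_lit 431) (nat_lit 425) (nat_lit 224))))) (XT.nd (nat_lit 282) (nat_lit 1176) (nat_lit 0) (XT.nd (nat_lit 94) (nat_lit 1008) (nat_lit 0) (XT.lf (nat_lit 0) (nat_lit 402394939321) (nat_lit 840) (nat_lit 368993037754) (nat_lit 924) (nat_lit 28427164691) (nat_lit 123) (nat_lit 5) (nat_lit 133) (nat_lit 5) (nat_lit 134) (nat_lit 5) (nat_lit 432) (nat_lit 425) (nat_lit 223)) (XT.nd (nat_lit 94) (nat_lit 420) (nat_lit 0) (XT.lf (nat_lit 0) (nat_lit 92115403132) (nat_lit 588) (nat_lit 529508727719) (nat_lit 84) (nat_lit 212570880950) (nat_lit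 116) (nat_lit 5) (nat_lit 123) (nat_lit 5) (nat_lit 117) (nat_lit 5) (nat_lit 433) (nat_lit 425) (nat_lit 222)) (XT.lf (nat_lit 0) (nat_lit 205950883454) (nat_lit 420) (nat_lit 31841500151) (nat_lit 504) (nat_lit 632685239051) (nat_lit 111) (nat_lit 5) (nat_lit 116) (nat_lit 5) (nat_lit 117) (nat_lit 5) (nat_lit 434) (nat_lit 425) (nat_lit 221)))) (XT.nd (nat_lit 188) (nat_lit 420) (nat_lit 0) (XT.nd (nat_lit 94) (nat_lit 336) (nat_lit 0) (XT.lf (nat_lit 0) (nat_lit 103673488025) (nat_lit 420) (nat_lit 311891237828) (nat_lit 504) (nat_lit 493076056357) (nat_lit 106) (nat_lit 5) (nat_lit 111) (nat_lit 5) (nat_lit 112) (nat_lit 5) (nat_lit 435) (nat_lit 425) (nat_lit 220)) (XT.lf (nat_lit 0) (nat_lit 2060177209) (nat_lit 336) (nat_lit 622893754656) (nat_lit 420) (nat_lit 324033308846) (nat_lit 102) (nat_lit 5) (nat_lit 106) (nat_lit 5) (nat_lit 107) (nat_lit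 5) (nat_lit 436) (nat_lit 425) (nat_lit 219))) (XT.nd (nat_lit 94) (nat_lit 420) (nat_lit 0) (XT.lf (nat_lit 0) (nat_lit 870706920137) (nat_lit 420) (nat_lit 95056013452) (nat_lit 84) (nat_lit 25817850013) (nat_lit 102) (nat_lit 5) (nat_lit 107) (nat_lit 5) (nat_lit 103) (nat_lit 5) (nat_lit 437) (nat_lit 425) (nat_lit 218)) (XT.lf (nat_lit 0) (nat_lit 119411619675) (nat_lit 420) (nat_lit 196934468311) (nat_lit 84) (nat_lit 719957442743) (nat_lit 97) (nat_lit 5) (nat_lit 102) (nat_lit 5) (nat_lit 98) (nat_lit 5) (nat_lit 438) (nat_lit 425) (nat_lit 217))))))) (XT.nd (nat_lit 1316) (nat_lit 2436) (nat_lit 0) (XT.nd (nat_lit 658) (nat_lit 1512) (nat_lit 0) (XT.nd (nat_lit 282) (nat_lit 1260) (nat_lit 0) (XT.nd (nat_lit 94) (nat_lit 588) (nat_lit 0) (XT.lf (nat_lit 0) (nat_lit 395043797266) (nat_lit 420) (nat_lit 299413428747) (nat_lit 84) (nat_lit 389029860316)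 (nat_lit 93) (nat_lit 5) (nat_lit 98) (nat_lit 5) (nat_lit 94) (nat_lit 5) (nat_lit 439) (nat_lit 425) (nat_lit 216)) (XT.nd (nat_lit 94) (nat_lit 252) (nat_lit 0) (XT.lf (nat_lit 0) (nat_lit 713348518324) (nat_lit 420) (nat_lit 399328178151) (nat_lit 84) (nat_lit 20737531440) (nat_lit 89) (nat_lit 5) (nat_lit 94) (nat_lit 5) (nat_lit 90) (nat_lit 5) (nat_lit 440) (nat_lit 425) (nat_lit 215)) (XT.lf (nat_lit 0) (nat_lit 683978945536) (nat_lit 252) (nat_lit 400828395637) (nat_lit 336) (nat_lit 101143713450) (nat_lit 86) (nat_lit 5) (nat_lit 89) (nat_lit 5) (nat_lit 90) (nat_lit 5) (nat_lit 441) (nat_lit 425) (nat_lit 214)))) (XT.nd (nat_lit 188) (nat_lit 588) (nat_lit 0) (XT.nd (nat_lit 94) (nat_lit 252) (nat_lit 0) (XT.lf (nat_lit 0) (nat_lit 258694403141) (nat_lit 420) (nat_lit 605213841427) (nat_lit 84) (nat_lit 377433198093) (nat_lit 81) (nat_lit 5) (nat_lit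 86) (nat_lit 5) (nat_lit 82) (nat_lit 5) (nat_lit 442) (nat_lit 425) (nat_lit 213)) (XT.lf (nat_lit 0) (nat_lit 592841803833) (nat_lit 252) (nat_lit 75883541594) (nat_lit 336) (nat_lit 631107343662) (nat_lit 78) (nat_lit 5) (nat_lit 81) (nat_lit 5) (nat_lit 82) (nat_lit 5) (nat_lit 443) (nat_lit 425) (nat_lit 212))) (XT.nd (nat_lit 94) (nat_lit 336) (nat_lit 0) (XT.lf (nat_lit 0) (nat_lit 551245452491) (nat_lit 252) (nat_lit 591737829473) (nat_lit 336) (nat_lit 218448727325) (nat_lit 75) (nat_lit 5) (nat_lit 78) (nat_lit 5) (nat_lit 79) (nat_lit 5) (nat_lit 444) (nat_lit 425) (nat_lit 211)) (XT.lf (nat_lit 0) (nat_lit 246196943544) (nat_lit 336) (nat_lit 911376912184) (nat_lit 84) (nat_lit 268895694977) (nat_lit 71) (nat_lit 5) (nat_lit 75) (nat_lit 5) (nat_lit 72) (nat_lit 5) (nat_lit 445) (nat_lit 425) (nat_lit 210))))) (XT.nd (nat_lit 282) (nat_lit 756)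 (nat_lit 0) (XT.nd (nat_lit 94) (nat_lit 504) (nat_lit 0) (XT.lf (nat_lit 0) (nat_lit 480817794121) (nat_lit 252) (nat_lit 291474383758) (nat_lit 336) (nat_lit 722642296766) (nat_lit 68) (nat_lit 5) (nat_lit 71) (nat_lit 5) (nat_lit 72) (nat_lit 5) (nat_lit 446) (nat_lit 425) (nat_lit 209)) (XT.nd (nat_lit 94) (nat_lit 336) (nat_lit 0) (XT.lf (nat_lit 0) (nat_lit 453036686161) (nat_lit 168) (nat_lit 920700648875) (nat_lit 252) (nat_lit 193476142260) (nat_lit 66) (nat_lit 5) (nat_lit 68) (nat_lit 5) (nat_lit 69) (nat_lit 5) (nat_lit 447) (nat_lit 425) (nat_lit 208)) (XT.lf (nat_lit 0) (nat_lit 396111184733) (nat_lit 336) (nat_lit 1211961499586) (nat_lit 84) (nat_lit 35397666347) (nat_lit 62) (nat_lit 5) (nat_lit 66) (nat_lit 5) (nat_lit 63) (nat_lit 5) (nat_lit 448) (nat_lit 425) (nat_lit 207)))) (XT.nd (nat_lit 188) (nat_lit 336) (nat_lit 0) (XT.nd (nat_lit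 94) (nat_lit 252) (nat_lit 0) (XT.lf (nat_lit 0) (nat_lit 409789461280) (nat_lit 168) (nat_lit 658037253358) (nat_lit 252) (nat_lit 655755488350) (nat_lit 60) (nat_lit 5) (nat_lit 62) (nat_lit 5) (nat_lit 63) (nat_lit 5) (nat_lit 449) (nat_lit 425) (nat_lit 206)) (XT.lf (nat_lit 0) (nat_lit 17748030933) (nat_lit 252) (nat_lit 1406418866010) (nat_lit 84) (nat_lit 384247585170) (nat_lit 57) (nat_lit 5) (nat_lit 60) (nat_lit 5) (nat_lit 58) (nat_lit 5) (nat_lit 450) (nat_lit 425) (nat_lit 205))) (XT.nd (nat_lit 94) (nat_lit 168) (nat_lit 0) (XT.lf (nat_lit 0) (nat_lit 393127490678) (nat_lit 168) (nat_lit 369831125621) (nat_lit 252) (nat_lit 1134497159643) (nat_lit 55) (nat_lit 5) (nat_lit 57) (nat_lit 5) (nat_lit 58) (nat_lit 5) (nat_lit 451) (nat_lit 425) (nat_lit 204)) (XT.lf (nat_lit 0) (nat_lit 394691938257) (nat_lit 168) (nat_lit 1216160807606) (nat_lit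 252) (nat_lit 380614292546) (nat_lit 53) (nat_lit 5) (nat_lit 55) (nat_lit 5) (nat_lit 56) (nat_lit 5) (nat_lit 452) (nat_lit 425) (nat_lit 203)))))) (XT.nd (nat_lit 658) (nat_lit 1260) (nat_lit 0) (XT.nd (nat_lit 282) (nat_lit 588) (nat_lit 0) (XT.nd (nat_lit 94) (nat_lit 336) (nat_lit 0) (XT.lf (nat_lit 0) (nat_lit 407263855916) (nat_lit 168) (nat_lit 51666666056) (nat_lit 252) (nat_lit 1631768782561) (nat_lit 50) (nat_lit 5) (nat_lit 52) (nat_lit 5) (nat_lit 53) (nat_lit 5) (nat_lit 453) (nat_lit 425) (nat_lit 202)) (XT.nd (nat_lit 94) (nat_lit 168) (nat_lit 0) (XT.lf (nat_lit 0) (nat_lit 419903699204) (nat_lit 168) (nat_lit 986234101224) (nat_lit 252) (nat_lit 788728685114) (nat_lit 48) (nat_lit 5) (nat_lit 50) (nat_lit 5) (nat_lit 51) (nat_lit 5) (nat_lit 454) (nat_lit 425) (nat_lit 201)) (XT.lf (nat_lit 0) (nat_lit 160376797066) (nat_lit 168) (nat_lit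 1852986201640) (nat_lit 84) (nat_lit 291783041524) (nat_lit 46) (nat_lit 5) (nat_lit 48) (nat_lit 5) (nat_lit 47) (nat_lit 5) (nat_lit 455) (nat_lit 425) (nat_lit 200)))) (XT.nd (nat_lit 188) (nat_lit 336) (nat_lit 0) (XT.nd (nat_lit 94) (nat_lit 84) (nat_lit 0) (XT.lf (nat_lit 0) (nat_lit 483161802807) (nat_lit 168) (nat_lit 730583914428) (nat_lit 252) (nat_lit 1207057332614) (nat_lit 44) (nat_lit 5) (nat_lit 46) (nat_lit 5) (nat_lit 47) (nat_lit 5) (nat_lit 456) (nat_lit 425) (nat_lit 199)) (XT.lf (nat_lit 0) (nat_lit 534631306691) (nat_lit 84) (nat_lit 1868130436208) (nat_lit 168) (nat_lit 140381997743) (nat_lit 43) (nat_lit 5) (nat_lit 44) (nat_lit 5) (nat_lit 45) (nat_lit 4) (nat_lit 457) (nat_lit 425) (nat_lit 198))) (XT.nd (nat_lit 94) (nat_lit 84) (nat_lit 0) (XT.lf (nat_lit 0) (nat_lit 590528084057) (nat_lit 168) (nat_lit 444565437647) (nat_lit 252)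 (nat_lit 1636596220526) (nat_lit 40) (nat_lit 5) (nat_lit 42) (nat_lit 5) (nat_lit 43) (nat_lit 5) (nat_lit 458) (nat_lit 425) (nat_lit 197)) (XT.lf (nat_lit 0) (nat_lit 661617327905) (nat_lit 84) (nat_lit 1701090442947) (nat_lit 168) (nat_lit 444545636404) (nat_lit 39) (nat_lit 5) (nat_lit 40) (nat_lit 5) (nat_lit 41) (nat_lit 4) (nat_lit 459) (nat_lit 425) (nat_lit 196))))) (XT.nd (nat_lit 376) (nat_lit 588) (nat_lit 0) (XT.nd (nat_lit 188) (nat_lit 336) (nat_lit 0) (XT.nd (nat_lit 94) (nat_lit 84) (nat_lit 0) (XT.lf (nat_lit 0) (nat_lit 749009643768) (nat_lit 168) (nat_lit 122919395011) (nat_lit 252) (nat_lit 2078273293550) (nat_lit 36) (nat_lit 5) (nat_lit 38) (nat_lit 5) (nat_lit 39) (nat_lit 5) (nat_lit 460) (nat_lit 425) (nat_lit 195)) (XT.lf (nat_lit 0) (nat_lit 843319798862) (nat_lit 84) (nat_lit 1510882015019) (nat_lit 168) (nat_lit 746218233880)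 (nat_lit 35) (nat_lit 5) (nat_lit 36) (nat_lit 5) (nat_lit 37) (nat_lit 4) (nat_lit 461) (nat_lit 425) (nat_lit 194))) (XT.nd (nat_lit 94) (nat_lit 84) (nat_lit 0) (XT.lf (nat_lit 0) (nat_lit 730129263706) (nat_lit 252) (nat_lit 2296372081025) (nat_lit 84) (nat_lit 232618859682) (nat_lit 32) (nat_lit 5) (nat_lit 35) (nat_lit 5) (nat_lit 33) (nat_lit 4) (nat_lit 462) (nat_lit 425) (nat_lit 193)) (XT.lf (nat_lit 0) (nat_lit 1088365273313) (nat_lit 84) (nat_lit 1292855385166) (nat_lit 168) (nat_lit 1044545063361) (nat_lit 31) (nat_lit 5) (nat_lit 32) (nat_lit 5) (nat_lit 33) (nat_lit 4) (nat_lit 463) (nat_lit 425) (nat_lit 192)))) (XT.nd (nat_lit 188) (nat_lit 252) (nat_lit 0) (XT.nd (nat_lit 94) (nat_lit 84) (nat_lit 0) (XT.lf (nat_lit 0) (nat_lit 611171270095) (nat_lit 252) (nat_lit 2359610402162) (nat_lit 84) (nat_lit 631005334623) (nat_lit 28) (nat_lit 5)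 (nat_lit 31) (nat_lit 5) (nat_lit 29) (nat_lit 4) (nat_lit 464) (nat_lit 425) (nat_lit 191)) (XT.lf (nat_lit 0) (nat_lit 1406675519483) (nat_lit 84) (nat_lit 1041708397287) (nat_lit 168) (nat_lit 1338368154605) (nat_lit 27) (nat_lit 5) (nat_lit 28) (nat_lit 5) (nat_lit 29) (nat_lit 4) (nat_lit 465) (nat_lit 425) (nat_lit 190))) (XT.nd (nat_lit 94) (nat_lit 84) (nat_lit 0) (XT.lf (nat_lit 0) (nat_lit 516301147948) (nat_lit 168) (nat_lit 2382069802551) (nat_lit 84) (nat_lit 1083569249046) (nat_lit 25) (nat_lit 5) (nat_lit 27) (nat_lit 5) (nat_lit 26) (nat_lit 4) (nat_lit 466) (nat_lit 425) (nat_lit 189)) (XT.lf (nat_lit 0) (nat_lit 1809642202313) (nat_lit 84) (nat_lit 751396510592) (nat_lit 168) (nat_lit 1626178411042) (nat_lit 24) (nat_lit 5) (nat_lit 25) (nat_lit 5) (nat_lit 26) (nat_lit 4) (nat_lit 467) (nat_lit 425) (nat_lit 188))))))))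
noncomputable def xc215 : XT := (XT.nd (nat_lit 2632) (nat_lit 0) (nat_lit 0) (XT.nd (nat_lit 1316) (nat_lit 252) (nat_lit 0) (XT.nd (nat_lit 658) (nat_lit 840) (nat_lit 0) (XT.nd (nat_lit 282) (nat_lit 504) (nat_lit 0) (XT.nd (nat_lit 94) (nat_lit 252) (nat_lit 0) (XT.lf (nat_lit 0) (nat_lit 449259216678) (nat_lit 168) (nat_lit 2355673045997) (nat_lit 84) (nat_lit 1598684744542) (nat_lit 22) (nat_lit 5) (nat_lit 24) (nat_lit 5) (nat_lit 23) (nat_lit 4) (nat_lit 468) (nat_lit 425) (nat_lit 187)) (XT.nd (nat_lit 94) (nat_lit 168) (nat_lit 0) (XT.lf (nat_lit 0) (nat_lit 2310324291343) (nat_lit 84) (nat_lit 415031188766) (nat_lit 168) (nat_lit 1906060618137) (nat_lit 21) (nat_lit 5) (nat_lit 22) (nat_lit 5) (nat_lit 23) (nat_lit 4) (nat_lit 469) (nat_lit 425) (nat_lit 186)) (XT.lf (nat_lit 0) (nat_lit 414441098315) (nat_lit 168) (nat_lit 2271019029763) (nat_lit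 84) (nat_lit 2185833139661) (nat_lit 19) (nat_lit 5) (nat_lit 21) (nat_lit 5) (nat_lit 20) (nat_lit 4) (nat_lit 470) (nat_lit 425) (nat_lit 185)))) (XT.nd (nat_lit 188) (nat_lit 252) (nat_lit 0) (XT.nd (nat_lit 94) (nat_lit 168) (nat_lit 0) (XT.lf (nat_lit 0) (nat_lit 2923671049777) (nat_lit 84) (nat_lit 24765210361) (nat_lit 168) (nat_lit 2175630386518) (nat_lit 18) (nat_lit 5) (nat_lit 19) (nat_lit 5) (nat_lit 20) (nat_lit 4) (nat_lit 471) (nat_lit 425) (nat_lit 184)) (XT.lf (nat_lit 0) (nat_lit 416988792868) (nat_lit 168) (nat_lit 2117195151328) (nat_lit 84) (nat_lit 2855747042478) (nat_lit 16) (nat_lit 5) (nat_lit 18) (nat_lit 5) (nat_lit 17) (nat_lit 4) (nat_lit 472) (nat_lit 425) (nat_lit 183))) (XT.nd (nat_lit 94) (nat_lit 168) (nat_lit 0) (XT.lf (nat_lit 0) (nat_lit 3245124605357) (nat_lit 168) (nat_lit 2010312742966) (nat_lit 0) (nat_lit 414627292495)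 (nat_lit 15) (nat_lit 5) (nat_lit 17) (nat_lit 4) (nat_lit 15) (nat_lit 4) (nat_lit 473) (nat_lit 425) (nat_lit 182)) (XT.lf (nat_lit 0) (nat_lit 462894036190) (nat_lit 168) (nat_lit 1881564540254) (nat_lit 84) (nat_lit 3620572485019) (nat_lit 13) (nat_lit 5) (nat_lit 15) (nat_lit 5) (nat_lit 14) (nat_lit 4) (nat_lit 474) (nat_lit 425) (nat_lit 181))))) (XT.nd (nat_lit 282) (nat_lit 504) (nat_lit 0) (XT.nd (nat_lit 94) (nat_lit 252) (nat_lit 0) (XT.lf (nat_lit 0) (nat_lit 3619607626765) (nat_lit 168) (nat_lit 1731963071917) (nat_lit 0) (nat_lit 923895897326) (nat_lit 12) (nat_lit 5) (nat_lit 14) (nat_lit 4) (nat_lit 12) (nat_lit 4) (nat_lit 475) (nat_lit 425) (nat_lit 180)) (XT.nd (nat_lit 94) (nat_lit 84) (nat_lit 0) (XT.lf (nat_lit 0) (nat_lit 559115511851) (nat_lit 168) (nat_lit 1549524931436) (nat_lit 84) (nat_lit 4494051294022) (nat_lit 10) (nat_lit 5)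 (nat_lit 12) (nat_lit 5) (nat_lit 11) (nat_lit 4) (nat_lit 476) (nat_lit 425) (nat_lit 179)) (XT.lf (nat_lit 0) (nat_lit 4082375593525) (nat_lit 168) (nat_lit 1349304475724) (nat_lit 0) (nat_lit 1515031086926) (nat_lit 9) (nat_lit 5) (nat_lit 11) (nat_lit 4) (nat_lit 9) (nat_lit 4) (nat_lit 477) (nat_lit 425) (nat_lit 178)))) (XT.nd (nat_lit 188) (nat_lit 252) (nat_lit 0) (XT.nd (nat_lit 94) (nat_lit 84) (nat_lit 0) (XT.lf (nat_lit 0) (nat_lit 713711684996) (nat_lit 168) (nat_lit 1104235553411) (nat_lit 84) (nat_lit 5491726179853) (nat_lit 7) (nat_lit 5) (nat_lit 9) (nat_lit 5) (nat_lit 8) (nat_lit 4) (nat_lit 478) (nat_lit 425) (nat_lit 177)) (XT.lf (nat_lit 0) (nat_lit 4645854284529) (nat_lit 168) (nat_lit 844296087567) (nat_lit 0) (nat_lit 2200764276308) (nat_lit 6) (nat_lit 5) (nat_lit 8) (nat_lit 4) (nat_lit 6) (nat_lit 4) (nat_lit 479) (nat_lit 425)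 (nat_lit 176))) (XT.nd (nat_lit 94) (nat_lit 84) (nat_lit 0) (XT.lf (nat_lit 0) (nat_lit 935991246532) (nat_lit 168) (nat_lit 526307953691) (nat_lit 84) (nat_lit 6631171324653) (nat_lit 4) (nat_lit 5) (nat_lit 6) (nat_lit 5) (nat_lit 5) (nat_lit 4) (nat_lit 480) (nat_lit 425) (nat_lit 175)) (XT.lf (nat_lit 0) (nat_lit 5324220068956) (nat_lit 168) (nat_lit 196183076439) (nat_lit 0) (nat_lit 2995562916689) (nat_lit 3) (nat_lit 5) (nat_lit 5) (nat_lit 4) (nat_lit 3) (nat_lit 4) (nat_lit 481) (nat_lit 425) (nat_lit 174)))))) (XT.nd (nat_lit 658) (nat_lit 0) (nat_lit 0) (XT.nd (nat_lit 282) (nat_lit 0) (nat_lit 0) (XT.nd (nat_lit 94) (nat_lit 0) (nat_lit 0) (XT.lf (nat_lit 0) (nat_lit 13000727293870) (nat_lit 0) (nat_lit 0) (nat_lit 0) (nat_lit 0) (nat_lit 0) (nat_lit 0) (nat_lit 1) (nat_lit 0) (nat_lit 1) (nat_lit 0) (nat_lit 482) (nat_lit 425) (nat_lit 173))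 (XT.nd (nat_lit 94) (nat_lit 0) (nat_lit 0) (XT.lf (nat_lit 0) (nat_lit 14028005385776) (nat_lit 0) (nat_lit 0) (nat_lit 0) (nat_lit 0) (nat_lit 0) (nat_lit 0) (nat_lit 1) (nat_lit 0) (nat_lit 1) (nat_lit 0) (nat_lit 483) (nat_lit 425) (nat_lit 172)) (XT.lf (nat_lit 0) (nat_lit 15137465725042) (nat_lit 0) (nat_lit 0) (nat_lit 0) (nat_lit 0) (nat_lit 0) (nat_lit 0) (nat_lit 1) (nat_lit 0) (nat_lit 1) (nat_lit 0) (nat_lit 484) (nat_lit 425) (nat_lit 171)))) (XT.nd (nat_lit 188) (nat_lit 0) (nat_lit 0) (XT.nd (nat_lit 94) (nat_lit 0) (nat_lit 0) (XT.lf (nat_lit 0) (nat_lit 16335682891455) (nat_lit 0) (nat_lit 0) (nat_lit 0) (nat_lit 0) (nat_lit 0) (nat_lit 0) (nat_lit 1) (nat_lit 0) (nat_lit 1) (nat_lit 0) (nat_lit 485) (nat_lit 425) (nat_lit 170)) (XT.lf (nat_lit 0) (nat_lit 17629757431187) (nat_lit 0) (nat_lit 0) (nat_lit 0) (nat_lit 0) (nat_lit 0) (nat_lit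 0) (nat_lit 1) (nat_lit 0) (nat_lit 1) (nat_lit 0) (nat_lit 486) (nat_lit 425) (nat_lit 169))) (XT.nd (nat_lit 94) (nat_lit 0) (nat_lit 0) (XT.lf (nat_lit 0) (nat_lit 19027357934103) (nat_lit 0) (nat_lit 0) (nat_lit 0) (nat_lit 0) (nat_lit 0) (nat_lit 0) (nat_lit 1) (nat_lit 0) (nat_lit 1) (nat_lit 0) (nat_lit 487) (nat_lit 425) (nat_lit 168)) (XT.lf (nat_lit 0) (nat_lit 20536766477257) (nat_lit 0) (nat_lit 0) (nat_lit 0) (nat_lit 0) (nat_lit 0) (nat_lit 0) (nat_lit 1) (nat_lit 0) (nat_lit 1) (nat_lit 0) (nat_lit 488) (nat_lit 425) (nat_lit 167))))) (XT.nd (nat_lit 282) (nat_lit 0) (nat_lit 0) (XT.nd (nat_lit 94) (nat_lit 0) (nat_lit 0) (XT.lf (nat_lit 0) (nat_lit 22166927703869) (nat_lit 0) (nat_lit 0) (nat_lit 0) (nat_lit 0) (nat_lit 0) (nat_lit 0) (nat_lit 1) (nat_lit 0) (nat_lit 1) (nat_lit 0) (nat_lit 489) (nat_lit 425) (nat_lit 166)) (XT.nd (nat_lit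 94) (nat_lit 0) (nat_lit 0) (XT.lf (nat_lit 0) (nat_lit 23927501828613) (nat_lit 0) (nat_lit 0) (nat_lit 0) (nat_lit 0) (nat_lit 0) (nat_lit 0) (nat_lit 1) (nat_lit 0) (nat_lit 1) (nat_lit 0) (nat_lit 490) (nat_lit 425) (nat_lit 165)) (XT.lf (nat_lit 0) (nat_lit 25828921883341) (nat_lit 0) (nat_lit 0) (nat_lit 0) (nat_lit 0) (nat_lit 0) (nat_lit 0) (nat_lit 1) (nat_lit 0) (nat_lit 1) (nat_lit 0) (nat_lit 491) (nat_lit 425) (nat_lit 164)))) (XT.nd (nat_lit 188) (nat_lit 0) (nat_lit 0) (XT.nd (nat_lit 94) (nat_lit 0) (nat_lit 0) (XT.lf (nat_lit 0) (nat_lit 27882455542452) (nat_lit 0) (nat_lit 0) (nat_lit 0) (nat_lit 0) (nat_lit 0) (nat_lit 0) (nat_lit 1) (nat_lit 0) (nat_lit 1) (nat_lit 0) (nat_lit 492) (nat_lit 425) (nat_lit 163)) (XT.lf (nat_lit 0) (nat_lit 30100271894294) (nat_lit 0) (nat_lit 0) (nat_lit 0) (nat_lit 0) (nat_lit 0) (nat_lit 0) (nat_lit 1)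 (nat_lit 0) (nat_lit 1) (nat_lit 0) (nat_lit 493) (nat_lit 425) (nat_lit 162))) (XT.nd (nat_lit 94) (nat_lit 0) (nat_lit 0) (XT.lf (nat_lit 0) (nat_lit 32495513554287) (nat_lit 0) (nat_lit 0) (nat_lit 0) (nat_lit 0) (nat_lit 0) (nat_lit 0) (nat_lit 1) (nat_lit 0) (nat_lit 1) (nat_lit 0) (nat_lit 494) (nat_lit 425) (nat_lit 161)) (XT.lf (nat_lit 0) (nat_lit 35082374547082) (nat_lit 0) (nat_lit 0) (nat_lit 0) (nat_lit 0) (nat_lit 0) (nat_lit 0) (nat_lit 1) (nat_lit 0) (nat_lit 1) (nat_lit 0) (nat_lit 495) (nat_lit 425) (nat_lit 160))))))) (XT.nd (nat_lit 62134) (nat_lit 0) (nat_lit 5040) (XT.nd (nat_lit 61476) (nat_lit 0) (nat_lit 9324) (XT.nd (nat_lit 282) (nat_lit 0) (nat_lit 0) (XT.nd (nat_lit 94) (nat_lit 0) (nat_lit 0) (XT.lf (nat_lit 0) (nat_lit 37876184419304) (nat_lit 0) (nat_lit 0) (nat_lit 0) (nat_lit 0) (nat_lit 0) (nat_lit 0) (nat_lit 1) (nat_lit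 0) (nat_lit 1) (nat_lit 0) (nat_lit 496) (nat_lit 425) (nat_lit 159)) (XT.nd (nat_lit 94) (nat_lit 0) (nat_lit 0) (XT.lf (nat_lit 0) (nat_lit 40893499081306) (nat_lit 0) (nat_lit 0) (nat_lit 0) (nat_lit 0) (nat_lit 0) (nat_lit 0) (nat_lit 1) (nat_lit 0) (nat_lit 1) (nat_lit 0) (nat_lit 497) (nat_lit 425) (nat_lit 158)) (XT.lf (nat_lit 0) (nat_lit 44152198916271) (nat_lit 0) (nat_lit 0) (nat_lit 0) (nat_lit 0) (nat_lit 0) (nat_lit 0) (nat_lit 1) (nat_lit 0) (nat_lit 1) (nat_lit 0) (nat_lit 498) (nat_lit 425) (nat_lit 157)))) (XT.nd (nat_lit 61006) (nat_lit 0) (nat_lit 10836) (XT.nd (nat_lit 60912) (nat_lit 0) (nat_lit 10752) (XT.lf (nat_lit 0) (nat_lit 47671594738035) (nat_lit 0) (nat_lit 0) (nat_lit 0) (nat_lit 0) (nat_lit 0) (nat_lit 0) (nat_lit 1) (nat_lit 0) (nat_lit 1) (nat_lit 0) (nat_lit 499) (nat_lit 425) (nat_lit 156)) (XT.lf (nat_lit 0) (nat_lit 153297367650)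 (nat_lit 924) (nat_lit 86341640974) (nat_lit 924) (nat_lit 86341640974) (nat_lit 128) (nat_lit 3) (nat_lit 139) (nat_lit 3) (nat_lit 139) (nat_lit 5) (nat_lit 426) (nat_lit 426) (nat_lit 228))) (XT.nd (nat_lit 94) (nat_lit 0) (nat_lit 0) (XT.lf (nat_lit 0) (nat_lit 325047007039) (nat_lit 840) (nat_lit 317897940518) (nat_lit 924) (nat_lit 34785379493) (nat_lit 129) (nat_lit 5) (nat_lit 139) (nat_lit 5) (nat_lit 140) (nat_lit 5) (nat_lit 427) (nat_lit 426) (nat_lit 227)) (XT.lf (nat_lit 84) (nat_lit 235099107737) (nat_lit 0) (nat_lit 124685731074) (nat_lit 924) (nat_lit 345035569405) (nat_lit 130) (nat_lit 5) (nat_lit 129) (nat_lit 5) (nat_lit 140) (nat_lit 5) (nat_lit 428) (nat_lit 426) (nat_lit 226))))) (XT.nd (nat_lit 282) (nat_lit 1596) (nat_lit 0) (XT.nd (nat_lit 94) (nat_lit 0) (nat_lit 84) (XT.lf (nat_lit 84) (nat_lit 106410022727) (nat_lit 0) (nat_lit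 304973471272) (nat_lit 924) (nat_lit 321990112032) (nat_lit 131) (nat_lit 5) (nat_lit 130) (nat_lit 5) (nat_lit 141) (nat_lit 5) (nat_lit 429) (nat_lit 426) (nat_lit 225)) (XT.nd (nat_lit 94) (nat_lit 0) (nat_lit 84) (XT.lf (nat_lit 0) (nat_lit 481511799958) (nat_lit 840) (nat_lit 24616052081) (nat_lit 924) (nat_lit 257363119713) (nat_lit 131) (nat_lit 5) (nat_lit 141) (nat_lit 5) (nat_lit 142) (nat_lit 5) (nat_lit 430) (nat_lit 426) (nat_lit 224)) (XT.lf (nat_lit 0) (nat_lit 573480970254) (nat_lit 840) (nat_lit 155033115943) (nat_lit 924) (nat_lit 66692110543) (nat_lit 132) (nat_lit 5) (nat_lit 142) (nat_lit 5) (nat_lit 143) (nat_lit 5) (nat_lit 431) (nat_lit 426) (nat_lit 223)))) (XT.nd (nat_lit 188) (nat_lit 1008) (nat_lit 0) (XT.nd (nat_lit 94) (nat_lit 756) (nat_lit 0) (XT.lf (nat_lit 84) (nat_lit 538274021742) (nat_lit 0) (nat_lit 151907665880) (nat_lit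 924) (nat_lit 138408251430) (nat_lit 133) (nat_lit 5) (nat_lit 132) (nat_lit 5) (nat_lit 143) (nat_lit 5) (nat_lit 432) (nat_lit 426) (nat_lit 222)) (XT.lf (nat_lit 0) (nat_lit 434586834067) (nat_lit 840) (nat_lit 398512511775) (nat_lit 924) (nat_lit 30700990736) (nat_lit 123) (nat_lit 5) (nat_lit 133) (nat_lit 5) (nat_lit 134) (nat_lit 5) (nat_lit 433) (nat_lit 426) (nat_lit 221))) (XT.nd (nat_lit 94) (nat_lit 420) (nat_lit 0) (XT.lf (nat_lit 0) (nat_lit 99484950863) (nat_lit 588) (nat_lit 571869112651) (nat_lit 84) (nat_lit 229576533459) (nat_lit 116) (nat_lit 5) (nat_lit 123) (nat_lit 5) (nat_lit 117) (nat_lit 5) (nat_lit 434) (nat_lit 426) (nat_lit 220)) (XT.lf (nat_lit 0) (nat_lit 222427253801) (nat_lit 420) (nat_lit 34388817282) (nat_lit 504) (nat_lit 683299746546) (nat_lit 111) (nat_lit 5) (nat_lit 116) (nat_lit 5) (nat_lit 117) (nat_lit 5) (nat_lit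 435) (nat_lit 426) (nat_lit 219)))))) (XT.nd (nat_lit 658) (nat_lit 2184) (nat_lit 0) (XT.nd (nat_lit 282) (nat_lit 1344) (nat_lit 0) (XT.nd (nat_lit 94) (nat_lit 336) (nat_lit 0) (XT.lf (nat_lit 0) (nat_lit 111967667866) (nat_lit 420) (nat_lit 336842515599) (nat_lit 504) (nat_lit 532521847346) (nat_lit 106) (nat_lit 5) (nat_lit 111) (nat_lit 5) (nat_lit 112) (nat_lit 5) (nat_lit 436) (nat_lit 426) (nat_lit 218)) (XT.nd (nat_lit 94) (nat_lit 0) (nat_lit 0) (XT.lf (nat_lit 0) (nat_lit 2225292165) (nat_lit 336) (nat_lit 672725218089) (nat_lit 420) (nat_lit 349955696522) (nat_lit 102) (nat_lit 5) (nat_lit 106) (nat_lit 5) (nat_lit 107) (nat_lit 5) (nat_lit 437) (nat_lit 426) (nat_lit 217)) (XT.lf (nat_lit 0) (nat_lit 940363718578) (nat_lit 420) (nat_lit 102660204348) (nat_lit 84) (nat_lit 27883311123) (nat_lit 102) (nat_lit 5) (nat_lit 107) (nat_lit 5) (nat_lit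 103) (nat_lit 5) (nat_lit 438) (nat_lit 426) (nat_lit 216)))) (XT.nd (nat_lit 188) (nat_lit 588) (nat_lit 0) (XT.nd (nat_lit 94) (nat_lit 336) (nat_lit 0) (XT.lf (nat_lit 0) (nat_lit 128964784065) (nat_lit 420) (nat_lit 212688940442) (nat_lit 84) (nat_lit 777554076939) (nat_lit 97) (nat_lit 5) (nat_lit 102) (nat_lit 5) (nat_lit 98) (nat_lit 5) (nat_lit 439) (nat_lit 426) (nat_lit 215)) (XT.lf (nat_lit 0) (nat_lit 426647523531) (nat_lit 420) (nat_lit 323366219830) (nat_lit 84) (nat_lit 420152298751) (nat_lit 93) (nat_lit 5) (nat_lit 98) (nat_lit 5) (nat_lit 94) (nat_lit 5) (nat_lit 440) (nat_lit 426) (nat_lit 214))) (XT.nd (nat_lit 94) (nat_lit 252) (nat_lit 0) (XT.lf (nat_lit 0) (nat_lit 770416610970) (nat_lit 420) (nat_lit 431274151930) (nat_lit 84) (nat_lit 22396592690) (nat_lit 89) (nat_lit 5) (nat_lit 94) (nat_lit 5) (nat_lit 90) (nat_lit 5) (nat_lit 441)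 (nat_lit 426) (nat_lit 213)) (XT.lf (nat_lit 0) (nat_lit 738697529463) (nat_lit 252) (nat_lit 432894598730) (nat_lit 336) (nat_lit 109235000814) (nat_lit 86) (nat_lit 5) (nat_lit 89) (nat_lit 5) (nat_lit 90) (nat_lit 5) (nat_lit 442) (nat_lit 426) (nat_lit 212))))) (XT.nd (nat_lit 376) (nat_lit 924) (nat_lit 0) (XT.nd (nat_lit 188) (nat_lit 588) (nat_lit 0) (XT.nd (nat_lit 94) (nat_lit 252) (nat_lit 0) (XT.lf (nat_lit 0) (nat_lit 279390148570) (nat_lit 420) (nat_lit 653630677201) (nat_lit 84) (nat_lit 407627922644) (nat_lit 81) (nat_lit 5) (nat_lit 86) (nat_lit 5) (nat_lit 82) (nat_lit 5) (nat_lit 443) (nat_lit 426) (nat_lit 211)) (XT.lf (nat_lit 0) (nat_lit 640269407879) (nat_lit 252) (nat_lit 81954148106) (nat_lit 336) (nat_lit 681595739086) (nat_lit 78) (nat_lit 5) (nat_lit 81) (nat_lit 5) (nat_lit 82) (nat_lit 5) (nat_lit 444) (nat_lit 426) (nat_lit 210)))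 (XT.nd (nat_lit 94) (nat_lit 336) (nat_lit 0) (XT.lf (nat_lit 0) (nat_lit 595345344744) (nat_lit 252) (nat_lit 639076774260) (nat_lit 336) (nat_lit 235924442305) (nat_lit 75) (nat_lit 5) (nat_lit 78) (nat_lit 5) (nat_lit 79) (nat_lit 5) (nat_lit 445) (nat_lit 426) (nat_lit 209)) (XT.lf (nat_lit 0) (nat_lit 265892868432) (nat_lit 336) (nat_lit 984286807505) (nat_lit 84) (nat_lit 290407430354) (nat_lit 71) (nat_lit 5) (nat_lit 75) (nat_lit 5) (nat_lit 72) (nat_lit 5) (nat_lit 446) (nat_lit 426) (nat_lit 208)))) (XT.nd (nat_lit 188) (nat_lit 504) (nat_lit 0) (XT.nd (nat_lit 94) (nat_lit 168) (nat_lit 0) (XT.lf (nat_lit 0) (nat_lit 519283464107) (nat_lit 252) (nat_lit 314792248706) (nat_lit 336) (nat_lit 780453511768) (nat_lit 68) (nat_lit 5) (nat_lit 71) (nat_lit 5) (nat_lit 72) (nat_lit 5) (nat_lit 447) (nat_lit 426) (nat_lit 207)) (XT.lf (nat_lit 0) (nat_lit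 489279863204) (nat_lit 168) (nat_lit 994356612455) (nat_lit 252) (nat_lit 208954072130) (nat_lit 66) (nat_lit 5) (nat_lit 68) (nat_lit 5) (nat_lit 69) (nat_lit 5) (nat_lit 448) (nat_lit 426) (nat_lit 206))) (XT.nd (nat_lit 94) (nat_lit 168) (nat_lit 0) (XT.lf (nat_lit 0) (nat_lit 427800229341) (nat_lit 336) (nat_lit 1308918176935) (nat_lit 84) (nat_lit 38229564952) (nat_lit 62) (nat_lit 5) (nat_lit 66) (nat_lit 5) (nat_lit 63) (nat_lit 5) (nat_lit 449) (nat_lit 426) (nat_lit 205)) (XT.lf (nat_lit 0) (nat_lit 442572850257) (nat_lit 168) (nat_lit 710680143907) (nat_lit 252) (nat_lit 708215777946) (nat_lit 60) (nat_lit 5) (nat_lit 62) (nat_lit 5) (nat_lit 63) (nat_lit 5) (nat_lit 450) (nat_lit 426) (nat_lit 204))))))))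
noncomputable def xc216 : XT := (XT.nd (nat_lit 2632) (nat_lit 756) (nat_lit 0) (XT.nd (nat_lit 1316) (nat_lit 1848) (nat_lit 0) (XT.nd (nat_lit 658) (nat_lit 1092) (nat_lit 0) (XT.nd (nat_lit 282) (nat_lit 756) (nat_lit 0) (XT.nd (nat_lit 94) (nat_lit 336) (nat_lit 0) (XT.lf (nat_lit 0) (nat_lit 19168012306) (nat_lit 252) (nat_lit 1518932143241) (nat_lit 84) (nat_lit 414987478190) (nat_lit 57) (nat_lit 5) (nat_lit 60) (nat_lit 5) (nat_lit 58) (nat_lit 5) (nat_lit 451) (nat_lit 426) (nat_lit 203)) (XT.nd (nat_lit 94) (nat_lit 168) (nat_lit 0) (XT.lf (nat_lit 0) (nat_lit 424577911897) (nat_lit 168) (nat_lit 399417525781) (nat_lit 252) (nat_lit 1225256793736) (nat_lit 55) (nat_lit 5) (nat_lit 57) (nat_lit 5) (nat_lit 58) (nat_lit 5) (nat_lit 452) (nat_lit 426) (nat_lit 202)) (XT.lf (nat_lit 0) (nat_lit 426267510611) (nat_lit 168) (nat_lit 1313453581905) (nat_lit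 252) (nat_lit 411063302617) (nat_lit 53) (nat_lit 5) (nat_lit 55) (nat_lit 5) (nat_lit 56) (nat_lit 5) (nat_lit 453) (nat_lit 426) (nat_lit 201)))) (XT.nd (nat_lit 188) (nat_lit 336) (nat_lit 0) (XT.nd (nat_lit 94) (nat_lit 168) (nat_lit 0) (XT.lf (nat_lit 0) (nat_lit 439845176322) (nat_lit 168) (nat_lit 55799910222) (nat_lit 252) (nat_lit 1762310156211) (nat_lit 50) (nat_lit 5) (nat_lit 52) (nat_lit 5) (nat_lit 53) (nat_lit 5) (nat_lit 454) (nat_lit 426) (nat_lit 200)) (XT.lf (nat_lit 0) (nat_lit 453496202405) (nat_lit 168) (nat_lit 1065132740298) (nat_lit 252) (nat_lit 851826855770) (nat_lit 48) (nat_lit 5) (nat_lit 50) (nat_lit 5) (nat_lit 51) (nat_lit 5) (nat_lit 455) (nat_lit 426) (nat_lit 199))) (XT.nd (nat_lit 94) (nat_lit 168) (nat_lit 0) (XT.lf (nat_lit 0) (nat_lit 173207056632) (nat_lit 168) (nat_lit 2001224891359) (nat_lit 84) (nat_lit 315125769668)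 (nat_lit 46) (nat_lit 5) (nat_lit 48) (nat_lit 5) (nat_lit 47) (nat_lit 5) (nat_lit 456) (nat_lit 426) (nat_lit 198)) (XT.lf (nat_lit 0) (nat_lit 521814944473) (nat_lit 168) (nat_lit 789030540445) (nat_lit 252) (nat_lit 1303621803403) (nat_lit 44) (nat_lit 5) (nat_lit 46) (nat_lit 5) (nat_lit 47) (nat_lit 5) (nat_lit 457) (nat_lit 426) (nat_lit 197))))) (XT.nd (nat_lit 282) (nat_lit 672) (nat_lit 0) (XT.nd (nat_lit 94) (nat_lit 336) (nat_lit 0) (XT.lf (nat_lit 0) (nat_lit 577402004062) (nat_lit 84) (nat_lit 2017580784674) (nat_lit 168) (nat_lit 151612445838) (nat_lit 43) (nat_lit 5) (nat_lit 44) (nat_lit 5) (nat_lit 45) (nat_lit 4) (nat_lit 458) (nat_lit 426) (nat_lit 196)) (XT.nd (nat_lit 94) (nat_lit 84) (nat_lit 0) (XT.lf (nat_lit 0) (nat_lit 637770518657) (nat_lit 168) (nat_lit 480130587854) (nat_lit 252) (nat_lit 1767523809943) (nat_lit 40) (nat_lit 5)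 (nat_lit 42) (nat_lit 5) (nat_lit 43) (nat_lit 5) (nat_lit 459) (nat_lit 426) (nat_lit 195)) (XT.lf (nat_lit 0) (nat_lit 714546897511) (nat_lit 84) (nat_lit 1837177594534) (nat_lit 168) (nat_lit 480109182815) (nat_lit 39) (nat_lit 5) (nat_lit 40) (nat_lit 5) (nat_lit 41) (nat_lit 4) (nat_lit 460) (nat_lit 426) (nat_lit 194)))) (XT.nd (nat_lit 188) (nat_lit 336) (nat_lit 0) (XT.nd (nat_lit 94) (nat_lit 84) (nat_lit 0) (XT.lf (nat_lit 0) (nat_lit 808930593873) (nat_lit 168) (nat_lit 132752864461) (nat_lit 252) (nat_lit 2244535055759) (nat_lit 36) (nat_lit 5) (nat_lit 38) (nat_lit 5) (nat_lit 39) (nat_lit 5) (nat_lit 461) (nat_lit 426) (nat_lit 193)) (XT.lf (nat_lit 0) (nat_lit 910785556999) (nat_lit 84) (nat_lit 1631752495208) (nat_lit 168) (nat_lit 805915594715) (nat_lit 35) (nat_lit 5) (nat_lit 36) (nat_lit 5) (nat_lit 37) (nat_lit 4) (nat_lit 462) (nat_lit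 426) (nat_lit 192))) (XT.nd (nat_lit 94) (nat_lit 84) (nat_lit 0) (XT.lf (nat_lit 0) (nat_lit 788539696415) (nat_lit 252) (nat_lit 2480081674573) (nat_lit 84) (nat_lit 251228445198) (nat_lit 32) (nat_lit 5) (nat_lit 35) (nat_lit 5) (nat_lit 33) (nat_lit 4) (nat_lit 463) (nat_lit 426) (nat_lit 191)) (XT.lf (nat_lit 0) (nat_lit 1175434660597) (nat_lit 84) (nat_lit 1396283737970) (nat_lit 168) (nat_lit 1128108576651) (nat_lit 31) (nat_lit 5) (nat_lit 32) (nat_lit 5) (nat_lit 33) (nat_lit 4) (nat_lit 464) (nat_lit 426) (nat_lit 190)))))) (XT.nd (nat_lit 658) (nat_lit 840) (nat_lit 0) (XT.nd (nat_lit 282) (nat_lit 504) (nat_lit 0) (XT.nd (nat_lit 94) (nat_lit 252) (nat_lit 0) (XT.lf (nat_lit 0) (nat_lit 660065057668) (nat_lit 252) (nat_lit 2548379070248) (nat_lit 84) (nat_lit 681485835216) (nat_lit 28) (nat_lit 5) (nat_lit 31) (nat_lit 5) (nat_lit 29) (nat_lit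 4) (nat_lit 465) (nat_lit 426) (nat_lit 189)) (XT.nd (nat_lit 94) (nat_lit 168) (nat_lit 0) (XT.lf (nat_lit 0) (nat_lit 1519209717998) (nat_lit 84) (nat_lit 1125044994163) (nat_lit 168) (nat_lit 1445437520823) (nat_lit 27) (nat_lit 5) (nat_lit 28) (nat_lit 5) (nat_lit 29) (nat_lit 4) (nat_lit 466) (nat_lit 426) (nat_lit 188)) (XT.lf (nat_lit 0) (nat_lit 557605320527) (nat_lit 168) (nat_lit 2572635231145) (nat_lit 84) (nat_lit 1170254859800) (nat_lit 25) (nat_lit 5) (nat_lit 27) (nat_lit 5) (nat_lit 26) (nat_lit 4) (nat_lit 467) (nat_lit 426) (nat_lit 187)))) (XT.nd (nat_lit 188) (nat_lit 252) (nat_lit 0) (XT.nd (nat_lit 94) (nat_lit 168) (nat_lit 0) (XT.lf (nat_lit 0) (nat_lit 1954413727345) (nat_lit 84) (nat_lit 811508159679) (nat_lit 168) (nat_lit 1756272602985) (nat_lit 24) (nat_lit 5) (nat_lit 25) (nat_lit 5) (nat_lit 26) (nat_lit 4) (nat_lit 468) (nat_lit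 426) (nat_lit 186)) (XT.lf (nat_lit 0) (nat_lit 485200029914) (nat_lit 168) (nat_lit 2544126742173) (nat_lit 84) (nat_lit 1726579591912) (nat_lit 22) (nat_lit 5) (nat_lit 24) (nat_lit 5) (nat_lit 23) (nat_lit 4) (nat_lit 469) (nat_lit 426) (nat_lit 185))) (XT.nd (nat_lit 94) (nat_lit 168) (nat_lit 0) (XT.lf (nat_lit 0) (nat_lit 2495150375743) (nat_lit 84) (nat_lit 448233615257) (nat_lit 168) (nat_lit 2058545391482) (nat_lit 21) (nat_lit 5) (nat_lit 22) (nat_lit 5) (nat_lit 23) (nat_lit 4) (nat_lit 470) (nat_lit 426) (nat_lit 184)) (XT.lf (nat_lit 0) (nat_lit 447596457582) (nat_lit 168) (nat_lit 2452700412380) (nat_lit 84) (nat_lit 2360699855626) (nat_lit 19) (nat_lit 5) (nat_lit 21) (nat_lit 5) (nat_lit 20) (nat_lit 4) (nat_lit 471) (nat_lit 426) (nat_lit 183))))) (XT.nd (nat_lit 282) (nat_lit 504) (nat_lit 0) (XT.nd (nat_lit 94) (nat_lit 252) (nat_lit 0)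 (XT.lf (nat_lit 0) (nat_lit 3157564867450) (nat_lit 84) (nat_lit 26746361700) (nat_lit 168) (nat_lit 2349680745829) (nat_lit 18) (nat_lit 5) (nat_lit 19) (nat_lit 5) (nat_lit 20) (nat_lit 4) (nat_lit 472) (nat_lit 426) (nat_lit 182)) (XT.nd (nat_lit 94) (nat_lit 84) (nat_lit 0) (XT.lf (nat_lit 0) (nat_lit 450347963509) (nat_lit 168) (nat_lit 2286570631048) (nat_lit 84) (nat_lit 3084206867690) (nat_lit 16) (nat_lit 5) (nat_lit 18) (nat_lit 5) (nat_lit 17) (nat_lit 4) (nat_lit 473) (nat_lit 426) (nat_lit 181)) (XT.lf (nat_lit 0) (nat_lit 3504734638970) (nat_lit 168) (nat_lit 2171137633534) (nat_lit 0) (nat_lit 447797536320) (nat_lit 15) (nat_lit 5) (nat_lit 17) (nat_lit 4) (nat_lit 15) (nat_lit 4) (nat_lit 474) (nat_lit 426) (nat_lit 180)))) (XT.nd (nat_lit 188) (nat_lit 252) (nat_lit 0) (XT.nd (nat_lit 94) (nat_lit 84) (nat_lit 0) (XT.lf (nat_lit 0) (nat_lit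 499925622387) (nat_lit 168) (nat_lit 2032089578113) (nat_lit 84) (nat_lit 3910218342715) (nat_lit 13) (nat_lit 5) (nat_lit 15) (nat_lit 5) (nat_lit 14) (nat_lit 4) (nat_lit 475) (nat_lit 426) (nat_lit 179)) (XT.lf (nat_lit 0) (nat_lit 3909176298319) (nat_lit 168) (nat_lit 1870519995661) (nat_lit 0) (nat_lit 997807626638) (nat_lit 12) (nat_lit 5) (nat_lit 14) (nat_lit 4) (nat_lit 12) (nat_lit 4) (nat_lit 476) (nat_lit 426) (nat_lit 178))) (XT.nd (nat_lit 94) (nat_lit 84) (nat_lit 0) (XT.lf (nat_lit 0) (nat_lit 603844812447) (nat_lit 168) (nat_lit 1673486807270) (nat_lit 84) (nat_lit 4853575453594) (nat_lit 10) (nat_lit 5) (nat_lit 12) (nat_lit 5) (nat_lit 11) (nat_lit 4) (nat_lit 477) (nat_lit 426) (nat_lit 177)) (XT.lf (nat_lit 0) (nat_lit 4408965698891) (nat_lit 168) (nat_lit 1457248718291) (nat_lit 0) (nat_lit 1636233628591) (nat_lit 9) (nat_lit 5) (nat_lit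 11) (nat_lit 4) (nat_lit 9) (nat_lit 4) (nat_lit 478) (nat_lit 426) (nat_lit 176))))))) (XT.nd (nat_lit 1316) (nat_lit 0) (nat_lit 0) (XT.nd (nat_lit 658) (nat_lit 0) (nat_lit 0) (XT.nd (nat_lit 282) (nat_lit 336) (nat_lit 0) (XT.nd (nat_lit 94) (nat_lit 252) (nat_lit 0) (XT.lf (nat_lit 0) (nat_lit 770808676024) (nat_lit 168) (nat_lit 1192574285354) (nat_lit 84) (nat_lit 5931064327531) (nat_lit 7) (nat_lit 5) (nat_lit 9) (nat_lit 5) (nat_lit 8) (nat_lit 4) (nat_lit 479) (nat_lit 426) (nat_lit 175)) (XT.nd (nat_lit 94) (nat_lit 168) (nat_lit 0) (XT.lf (nat_lit 0) (nat_lit 5017522681871) (nat_lit 168) (nat_lit 911839665276) (nat_lit 0) (nat_lit 2376825470401) (nat_lit 6) (nat_lit 5) (nat_lit 8) (nat_lit 4) (nat_lit 6) (nat_lit 4) (nat_lit 480) (nat_lit 426) (nat_lit 174)) (XT.lf (nat_lit 0) (nat_lit 1010870599278) (nat_lit 168) (nat_lit 568412483687) (nat_lit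 84) (nat_lit 7161665081250) (nat_lit 4) (nat_lit 5) (nat_lit 6) (nat_lit 5) (nat_lit 5) (nat_lit 4) (nat_lit 481) (nat_lit 426) (nat_lit 173)))) (XT.nd (nat_lit 188) (nat_lit 0) (nat_lit 0) (XT.nd (nat_lit 94) (nat_lit 252) (nat_lit 0) (XT.lf (nat_lit 0) (nat_lit 5750157725952) (nat_lit 168) (nat_lit 211877619137) (nat_lit 0) (nat_lit 3235207999388) (nat_lit 3) (nat_lit 5) (nat_lit 5) (nat_lit 4) (nat_lit 3) (nat_lit 4) (nat_lit 482) (nat_lit 426) (nat_lit 172)) (XT.lf (nat_lit 0) (nat_lit 14040785477246) (nat_lit 0) (nat_lit 0) (nat_lit 0) (nat_lit 0) (nat_lit 0) (nat_lit 0) (nat_lit 1) (nat_lit 0) (nat_lit 1) (nat_lit 0) (nat_lit 483) (nat_lit 426) (nat_lit 171))) (XT.nd (nat_lit 94) (nat_lit 0) (nat_lit 0) (XT.lf (nat_lit 0) (nat_lit 15150245816514) (nat_lit 0) (nat_lit 0) (nat_lit 0) (nat_lit 0) (nat_lit 0) (nat_lit 0) (nat_lit 1) (nat_lit 0) (nat_lit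 1) (nat_lit 0) (nat_lit 484) (nat_lit 426) (nat_lit 170)) (XT.lf (nat_lit 0) (nat_lit 16348462982930) (nat_lit 0) (nat_lit 0) (nat_lit 0) (nat_lit 0) (nat_lit 0) (nat_lit 0) (nat_lit 1) (nat_lit 0) (nat_lit 1) (nat_lit 0) (nat_lit 485) (nat_lit 426) (nat_lit 169))))) (XT.nd (nat_lit 282) (nat_lit 0) (nat_lit 0) (XT.nd (nat_lit 94) (nat_lit 0) (nat_lit 0) (XT.lf (nat_lit 0) (nat_lit 17642537522665) (nat_lit 0) (nat_lit 0) (nat_lit 0) (nat_lit 0) (nat_lit 0) (nat_lit 0) (nat_lit 1) (nat_lit 0) (nat_lit 1) (nat_lit 0) (nat_lit 486) (nat_lit 426) (nat_lit 168)) (XT.nd (nat_lit 94) (nat_lit 0) (nat_lit 0) (XT.lf (nat_lit 0) (nat_lit 19040138025583) (nat_lit 0) (nat_lit 0) (nat_lit 0) (nat_lit 0) (nat_lit 0) (nat_lit 0) (nat_lit 1) (nat_lit 0) (nat_lit 1) (nat_lit 0) (nat_lit 487) (nat_lit 426) (nat_lit 167)) (XT.lf (nat_lit 0) (nat_lit 20549546568740) (nat_lit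 0) (nat_lit 0) (nat_lit 0) (nat_lit 0) (nat_lit 0) (nat_lit 0) (nat_lit 1) (nat_lit 0) (nat_lit 1) (nat_lit 0) (nat_lit 488) (nat_lit 426) (nat_lit 166)))) (XT.nd (nat_lit 188) (nat_lit 0) (nat_lit 0) (XT.nd (nat_lit 94) (nat_lit 0) (nat_lit 0) (XT.lf (nat_lit 0) (nat_lit 22179707795353) (nat_lit 0) (nat_lit 0) (nat_lit 0) (nat_lit 0) (nat_lit 0) (nat_lit 0) (nat_lit 1) (nat_lit 0) (nat_lit 1) (nat_lit 0) (nat_lit 489) (nat_lit 426) (nat_lit 165)) (XT.lf (nat_lit 0) (nat_lit 23940281920100) (nat_lit 0) (nat_lit 0) (nat_lit 0) (nat_lit 0) (nat_lit 0) (nat_lit 0) (nat_lit 1) (nat_lit 0) (nat_lit 1) (nat_lit 0) (nat_lit 490) (nat_lit 426) (nat_lit 164))) (XT.nd (nat_lit 94) (nat_lit 0) (nat_lit 0) (XT.lf (nat_lit 0) (nat_lit 25841701974830) (nat_lit 0) (nat_lit 0) (nat_lit 0) (nat_lit 0) (nat_lit 0) (nat_lit 0) (nat_lit 1) (nat_lit 0) (nat_lit 1) (nat_lit 0)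 (nat_lit 491) (nat_lit 426) (nat_lit 163)) (XT.lf (nat_lit 0) (nat_lit 27895235633941) (nat_lit 0) (nat_lit 0) (nat_lit 0) (nat_lit 0) (nat_lit 0) (nat_lit 0) (nat_lit 1) (nat_lit 0) (nat_lit 1) (nat_lit 0) (nat_lit 492) (nat_lit 426) (nat_lit 162)))))) (XT.nd (nat_lit 61570) (nat_lit 0) (nat_lit 10752) (XT.nd (nat_lit 282) (nat_lit 0) (nat_lit 0) (XT.nd (nat_lit 94) (nat_lit 0) (nat_lit 0) (XT.lf (nat_lit 0) (nat_lit 30113051985785) (nat_lit 0) (nat_lit 0) (nat_lit 0) (nat_lit 0) (nat_lit 0) (nat_lit 0) (nat_lit 1) (nat_lit 0) (nat_lit 1) (nat_lit 0) (nat_lit 493) (nat_lit 426) (nat_lit 161)) (XT.nd (nat_lit 94) (nat_lit 0) (nat_lit 0) (XT.lf (nat_lit 0) (nat_lit 32508293645780) (nat_lit 0) (nat_lit 0) (nat_lit 0) (nat_lit 0) (nat_lit 0) (nat_lit 0) (nat_lit 1) (nat_lit 0) (nat_lit 1) (nat_lit 0) (nat_lit 494) (nat_lit 426) (nat_lit 160)) (XT.lf (nat_lit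 0) (nat_lit 35095154638577) (nat_lit 0) (nat_lit 0) (nat_lit 0) (nat_lit 0) (nat_lit 0) (nat_lit 0) (nat_lit 1) (nat_lit 0) (nat_lit 1) (nat_lit 0) (nat_lit 495) (nat_lit 426) (nat_lit 159)))) (XT.nd (nat_lit 188) (nat_lit 0) (nat_lit 0) (XT.nd (nat_lit 94) (nat_lit 0) (nat_lit 0) (XT.lf (nat_lit 0) (nat_lit 37888964510800) (nat_lit 0) (nat_lit 0) (nat_lit 0) (nat_lit 0) (nat_lit 0) (nat_lit 0) (nat_lit 1) (nat_lit 0) (nat_lit 1) (nat_lit 0) (nat_lit 496) (nat_lit 426) (nat_lit 158)) (XT.lf (nat_lit 0) (nat_lit 40906279172803) (nat_lit 0) (nat_lit 0) (nat_lit 0) (nat_lit 0) (nat_lit 0) (nat_lit 0) (nat_lit 1) (nat_lit 0) (nat_lit 1) (nat_lit 0) (nat_lit 497) (nat_lit 426) (nat_lit 157))) (XT.nd (nat_lit 94) (nat_lit 0) (nat_lit 0) (XT.lf (nat_lit 0) (nat_lit 44164979007768) (nat_lit 0) (nat_lit 0) (nat_lit 0) (nat_lit 0) (nat_lit 0) (nat_lit 0) (nat_lit 1)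 (nat_lit 0) (nat_lit 1) (nat_lit 0) (nat_lit 498) (nat_lit 426) (nat_lit 156)) (XT.lf (nat_lit 0) (nat_lit 47684374829533) (nat_lit 0) (nat_lit 0) (nat_lit 0) (nat_lit 0) (nat_lit 0) (nat_lit 0) (nat_lit 1) (nat_lit 0) (nat_lit 1) (nat_lit 0) (nat_lit 499) (nat_lit 426) (nat_lit 155))))) (XT.nd (nat_lit 282) (nat_lit 0) (nat_lit 168) (XT.nd (nat_lit 94) (nat_lit 0) (nat_lit 84) (XT.lf (nat_lit 0) (nat_lit 165561389553) (nat_lit 924) (nat_lit 93248850195) (nat_lit 924) (nat_lit 93248850195) (nat_lit 128) (nat_lit 3) (nat_lit 139) (nat_lit 3) (nat_lit 139) (nat_lit 5) (nat_lit 427) (nat_lit 427) (nat_lit 226)) (XT.nd (nat_lit 94) (nat_lit 0) (nat_lit 0) (XT.lf (nat_lit 0) (nat_lit 351051198654) (nat_lit 840) (nat_lit 343329517411) (nat_lit 924) (nat_lit 37568015597) (nat_lit 129) (nat_lit 5) (nat_lit 139) (nat_lit 5) (nat_lit 140) (nat_lit 5) (nat_lit 428) (nat_lit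 427) (nat_lit 225)) (XT.lf (nat_lit 84) (nat_lit 253907283477) (nat_lit 0) (nat_lit 134660745419) (nat_lit 924) (nat_lit 372637991828) (nat_lit 130) (nat_lit 5) (nat_lit 129) (nat_lit 5) (nat_lit 140) (nat_lit 5) (nat_lit 429) (nat_lit 427) (nat_lit 224)))) (XT.nd (nat_lit 188) (nat_lit 0) (nat_lit 168) (XT.nd (nat_lit 94) (nat_lit 0) (nat_lit 84) (XT.lf (nat_lit 84) (nat_lit 114923082529) (nat_lit 0) (nat_lit 329371465895) (nat_lit 924) (nat_lit 347748927344) (nat_lit 131) (nat_lit 5) (nat_lit 130) (nat_lit 5) (nat_lit 141) (nat_lit 5) (nat_lit 430) (nat_lit 427) (nat_lit 223)) (XT.lf (nat_lit 0) (nat_lit 520033089399) (nat_lit 840) (nat_lit 26585078327) (nat_lit 924) (nat_lit 277952064495) (nat_lit 131) (nat_lit 5) (nat_lit 141) (nat_lit 5) (nat_lit 142) (nat_lit 5) (nat_lit 431) (nat_lit 427) (nat_lit 222))) (XT.nd (nat_lit 94) (nat_lit 0) (nat_lit 0) (XT.lf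 (nat_lit 0) (nat_lit 619359770379) (nat_lit 840) (nat_lit 167435501119) (nat_lit 924) (nat_lit 72027404855) (nat_lit 132) (nat_lit 5) (nat_lit 142) (nat_lit 5) (nat_lit 143) (nat_lit 5) (nat_lit 432) (nat_lit 427) (nat_lit 221)) (XT.lf (nat_lit 84) (nat_lit 581336196103) (nat_lit 0) (nat_lit 164060329089) (nat_lit 924) (nat_lit 149480593856) (nat_lit 133) (nat_lit 5) (nat_lit 132) (nat_lit 5) (nat_lit 143) (nat_lit 5) (nat_lit 433) (nat_lit 427) (nat_lit 220))))))))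
noncomputable def xc217 : XT := (XT.nd (nat_lit 2632) (nat_lit 3276) (nat_lit 0) (XT.nd (nat_lit 1316) (nat_lit 2688) (nat_lit 0) (XT.nd (nat_lit 658) (nat_lit 2184) (nat_lit 0) (XT.nd (nat_lit 282) (nat_lit 1176) (nat_lit 0) (XT.nd (nat_lit 94) (nat_lit 1008) (nat_lit 0) (XT.lf (nat_lit 0) (nat_lit 469354037652) (nat_lit 840) (nat_lit 430393539294) (nat_lit 924) (nat_lit 33156772387) (nat_lit 123) (nat_lit 5) (nat_lit 133) (nat_lit 5) (nat_lit 134) (nat_lit 5) (nat_lit 434) (nat_lit 427) (nat_lit 219)) (XT.nd (nat_lit 94) (nat_lit 420) (nat_lit 0) (XT.lf (nat_lit 0) (nat_lit 107444017405) (nat_lit 588) (nat_lit 617618373070) (nat_lit 84) (nat_lit 247942640731) (nat_lit 116) (nat_lit 5) (nat_lit 123) (nat_lit 5) (nat_lit 117) (nat_lit 5) (nat_lit 435) (nat_lit 427) (nat_lit 218)) (XT.lf (nat_lit 0) (nat_lit 240221691025) (nat_lit 420) (nat_lit 37139920194)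 (nat_lit 504) (nat_lit 737963459098) (nat_lit 111) (nat_lit 5) (nat_lit 116) (nat_lit 5) (nat_lit 117) (nat_lit 5) (nat_lit 436) (nat_lit 427) (nat_lit 217)))) (XT.nd (nat_lit 188) (nat_lit 420) (nat_lit 0) (XT.nd (nat_lit 94) (nat_lit 336) (nat_lit 0) (XT.lf (nat_lit 0) (nat_lit 120925339182) (nat_lit 420) (nat_lit 363789898623) (nat_lit 504) (nat_lit 575123343487) (nat_lit 106) (nat_lit 5) (nat_lit 111) (nat_lit 5) (nat_lit 112) (nat_lit 5) (nat_lit 437) (nat_lit 427) (nat_lit 216)) (XT.lf (nat_lit 0) (nat_lit 2403573408) (nat_lit 336) (nat_lit 726543203866) (nat_lit 420) (nat_lit 377951914733) (nat_lit 102) (nat_lit 5) (nat_lit 106) (nat_lit 5) (nat_lit 107) (nat_lit 5) (nat_lit 438) (nat_lit 427) (nat_lit 215))) (XT.nd (nat_lit 94) (nat_lit 420) (nat_lit 0) (XT.lf (nat_lit 0) (nat_lit 1015593025966) (nat_lit 420) (nat_lit 110872771913) (nat_lit 84) (nat_lit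 30114004398) (nat_lit 102) (nat_lit 5) (nat_lit 107) (nat_lit 5) (nat_lit 103) (nat_lit 5) (nat_lit 439) (nat_lit 427) (nat_lit 214)) (XT.lf (nat_lit 0) (nat_lit 139282168106) (nat_lit 420) (nat_lit 229703811051) (nat_lit 84) (nat_lit 839758436339) (nat_lit 97) (nat_lit 5) (nat_lit 102) (nat_lit 5) (nat_lit 98) (nat_lit 5) (nat_lit 440) (nat_lit 427) (nat_lit 213))))) (XT.nd (nat_lit 282) (nat_lit 1260) (nat_lit 0) (XT.nd (nat_lit 94) (nat_lit 588) (nat_lit 0) (XT.lf (nat_lit 0) (nat_lit 460779516157) (nat_lit 420) (nat_lit 349235274604) (nat_lit 84) (nat_lit 453764525183) (nat_lit 93) (nat_lit 5) (nat_lit 98) (nat_lit 5) (nat_lit 94) (nat_lit 5) (nat_lit 441) (nat_lit 427) (nat_lit 212)) (XT.nd (nat_lit 94) (nat_lit 252) (nat_lit 0) (XT.lf (nat_lit 0) (nat_lit 832050120900) (nat_lit 420) (nat_lit 465775843624) (nat_lit 84) (nat_lit 24188370460) (nat_lit 89)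 (nat_lit 5) (nat_lit 94) (nat_lit 5) (nat_lit 90) (nat_lit 5) (nat_lit 442) (nat_lit 427) (nat_lit 211)) (XT.lf (nat_lit 0) (nat_lit 797793561830) (nat_lit 252) (nat_lit 467526107850) (nat_lit 336) (nat_lit 117973621085) (nat_lit 86) (nat_lit 5) (nat_lit 89) (nat_lit 5) (nat_lit 90) (nat_lit 5) (nat_lit 443) (nat_lit 427) (nat_lit 210)))) (XT.nd (nat_lit 188) (nat_lit 588) (nat_lit 0) (XT.nd (nat_lit 94) (nat_lit 252) (nat_lit 0) (XT.lf (nat_lit 0) (nat_lit 301741526075) (nat_lit 420) (nat_lit 705920898575) (nat_lit 84) (nat_lit 440238215358) (nat_lit 81) (nat_lit 5) (nat_lit 86) (nat_lit 5) (nat_lit 82) (nat_lit 5) (nat_lit 444) (nat_lit 427) (nat_lit 209)) (XT.lf (nat_lit 0) (nat_lit 691491183194) (nat_lit 252) (nat_lit 88510414097) (nat_lit 336) (nat_lit 736123233544) (nat_lit 78) (nat_lit 5) (nat_lit 81) (nat_lit 5) (nat_lit 82) (nat_lit 5) (nat_lit 445)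 (nat_lit 427) (nat_lit 208))) (XT.nd (nat_lit 94) (nat_lit 336) (nat_lit 0) (XT.lf (nat_lit 0) (nat_lit 642973191847) (nat_lit 252) (nat_lit 690202846266) (nat_lit 336) (nat_lit 254798240620) (nat_lit 75) (nat_lit 5) (nat_lit 78) (nat_lit 5) (nat_lit 79) (nat_lit 5) (nat_lit 446) (nat_lit 427) (nat_lit 207)) (XT.lf (nat_lit 0) (nat_lit 287164443143) (nat_lit 336) (nat_lit 1063029531210) (nat_lit 84) (nat_lit 313640093180) (nat_lit 71) (nat_lit 5) (nat_lit 75) (nat_lit 5) (nat_lit 72) (nat_lit 5) (nat_lit 447) (nat_lit 427) (nat_lit 206)))))) (XT.nd (nat_lit 658) (nat_lit 1176) (nat_lit 0) (XT.nd (nat_lit 282) (nat_lit 756) (nat_lit 0) (XT.nd (nat_lit 94) (nat_lit 504) (nat_lit 0) (XT.lf (nat_lit 0) (nat_lit 560826352532) (nat_lit 252) (nat_lit 339975555083) (nat_lit 336) (nat_lit 842889648044) (nat_lit 68) (nat_lit 5) (nat_lit 71) (nat_lit 5) (nat_lit 72)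 (nat_lit 5) (nat_lit 448) (nat_lit 427) (nat_lit 205)) (XT.nd (nat_lit 94) (nat_lit 336) (nat_lit 0) (XT.lf (nat_lit 0) (nat_lit 528422459866) (nat_lit 168) (nat_lit 1073905065722) (nat_lit 252) (nat_lit 225670259431) (nat_lit 66) (nat_lit 5) (nat_lit 68) (nat_lit 5) (nat_lit 69) (nat_lit 5) (nat_lit 449) (nat_lit 427) (nat_lit 204)) (XT.lf (nat_lit 0) (nat_lit 462024376143) (nat_lit 336) (nat_lit 1413631423083) (nat_lit 84) (nat_lit 41288003277) (nat_lit 62) (nat_lit 5) (nat_lit 66) (nat_lit 5) (nat_lit 63) (nat_lit 5) (nat_lit 450) (nat_lit 427) (nat_lit 203)))) (XT.nd (nat_lit 188) (nat_lit 336) (nat_lit 0) (XT.nd (nat_lit 94) (nat_lit 252) (nat_lit 0) (XT.lf (nat_lit 0) (nat_lit 477978877244) (nat_lit 168) (nat_lit 767534478499) (nat_lit 252) (nat_lit 764872912033) (nat_lit 60) (nat_lit 5) (nat_lit 62) (nat_lit 5) (nat_lit 63) (nat_lit 5) (nat_lit 451)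 (nat_lit 427) (nat_lit 202)) (XT.lf (nat_lit 0) (nat_lit 20701572374) (nat_lit 252) (nat_lit 1640446515754) (nat_lit 84) (nat_lit 448186550354) (nat_lit 57) (nat_lit 5) (nat_lit 60) (nat_lit 5) (nat_lit 58) (nat_lit 5) (nat_lit 452) (nat_lit 427) (nat_lit 201))) (XT.nd (nat_lit 94) (nat_lit 168) (nat_lit 0) (XT.lf (nat_lit 0) (nat_lit 458544335149) (nat_lit 168) (nat_lit 431370850777) (nat_lit 252) (nat_lit 1323277218340) (nat_lit 55) (nat_lit 5) (nat_lit 57) (nat_lit 5) (nat_lit 58) (nat_lit 5) (nat_lit 453) (nat_lit 427) (nat_lit 200)) (XT.lf (nat_lit 0) (nat_lit 460369097754) (nat_lit 168) (nat_lit 1418529791031) (nat_lit 252) (nat_lit 443948252515) (nat_lit 53) (nat_lit 5) (nat_lit 55) (nat_lit 5) (nat_lit 56) (nat_lit 5) (nat_lit 454) (nat_lit 427) (nat_lit 199))))) (XT.nd (nat_lit 282) (nat_lit 588) (nat_lit 0) (XT.nd (nat_lit 94) (nat_lit 336) (nat_lit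 0) (XT.lf (nat_lit 0) (nat_lit 475032972125) (nat_lit 168) (nat_lit 60263826635) (nat_lit 252) (nat_lit 1903294858150) (nat_lit 50) (nat_lit 5) (nat_lit 52) (nat_lit 5) (nat_lit 53) (nat_lit 5) (nat_lit 455) (nat_lit 427) (nat_lit 198)) (XT.nd (nat_lit 94) (nat_lit 168) (nat_lit 0) (XT.lf (nat_lit 0) (nat_lit 489776076293) (nat_lit 168) (nat_lit 1150343283199) (nat_lit 252) (nat_lit 919972897790) (nat_lit 48) (nat_lit 5) (nat_lit 50) (nat_lit 5) (nat_lit 51) (nat_lit 5) (nat_lit 456) (nat_lit 427) (nat_lit 197)) (XT.lf (nat_lit 0) (nat_lit 187063720442) (nat_lit 168) (nat_lit 2161322705703) (nat_lit 84) (nat_lit 340335903963) (nat_lit 46) (nat_lit 5) (nat_lit 48) (nat_lit 5) (nat_lit 47) (nat_lit 5) (nat_lit 457) (nat_lit 427) (nat_lit 196)))) (XT.nd (nat_lit 188) (nat_lit 336) (nat_lit 0) (XT.nd (nat_lit 94) (nat_lit 84) (nat_lit 0) (XT.lf (nat_lit 0) (nat_lit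 563560309306) (nat_lit 168) (nat_lit 852152908975) (nat_lit 252) (nat_lit 1407911448378) (nat_lit 44) (nat_lit 5) (nat_lit 46) (nat_lit 5) (nat_lit 47) (nat_lit 5) (nat_lit 458) (nat_lit 427) (nat_lit 195)) (XT.lf (nat_lit 0) (nat_lit 623594329712) (nat_lit 84) (nat_lit 2178987173347) (nat_lit 168) (nat_lit 163741345719) (nat_lit 43) (nat_lit 5) (nat_lit 44) (nat_lit 5) (nat_lit 45) (nat_lit 4) (nat_lit 459) (nat_lit 427) (nat_lit 194))) (XT.nd (nat_lit 94) (nat_lit 84) (nat_lit 0) (XT.lf (nat_lit 0) (nat_lit 688792321222) (nat_lit 168) (nat_lit 518540962176) (nat_lit 252) (nat_lit 1908925621954) (nat_lit 40) (nat_lit 5) (nat_lit 42) (nat_lit 5) (nat_lit 43) (nat_lit 5) (nat_lit 460) (nat_lit 427) (nat_lit 193)) (XT.lf (nat_lit 0) (nat_lit 771710806525) (nat_lit 84) (nat_lit 1984151730210) (nat_lit 168) (nat_lit 518517827847) (nat_lit 39) (nat_lit 5) (nat_lit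 40) (nat_lit 5) (nat_lit 41) (nat_lit 4) (nat_lit 461) (nat_lit 427) (nat_lit 192))))))) (XT.nd (nat_lit 1316) (nat_lit 1260) (nat_lit 0) (XT.nd (nat_lit 658) (nat_lit 840) (nat_lit 0) (XT.nd (nat_lit 282) (nat_lit 588) (nat_lit 0) (XT.nd (nat_lit 94) (nat_lit 336) (nat_lit 0) (XT.lf (nat_lit 0) (nat_lit 873645194507) (nat_lit 168) (nat_lit 143373023186) (nat_lit 252) (nat_lit 2424097773393) (nat_lit 36) (nat_lit 5) (nat_lit 38) (nat_lit 5) (nat_lit 39) (nat_lit 5) (nat_lit 462) (nat_lit 427) (nat_lit 191)) (XT.nd (nat_lit 94) (nat_lit 252) (nat_lit 0) (XT.lf (nat_lit 0) (nat_lit 983648550932) (nat_lit 84) (nat_lit 1762292625369) (nat_lit 168) (nat_lit 870388758379) (nat_lit 35) (nat_lit 5) (nat_lit 36) (nat_lit 5) (nat_lit 37) (nat_lit 4) (nat_lit 463) (nat_lit 427) (nat_lit 190)) (XT.lf (nat_lit 0) (nat_lit 851622950670) (nat_lit 252) (nat_lit 2678488060277)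 (nat_lit 84) (nat_lit 271326786607) (nat_lit 32) (nat_lit 5) (nat_lit 35) (nat_lit 5) (nat_lit 33) (nat_lit 4) (nat_lit 464) (nat_lit 427) (nat_lit 189)))) (XT.nd (nat_lit 188) (nat_lit 252) (nat_lit 0) (XT.nd (nat_lit 94) (nat_lit 252) (nat_lit 0) (XT.lf (nat_lit 0) (nat_lit 1269469575264) (nat_lit 84) (nat_lit 1507986370127) (nat_lit 168) (nat_lit 1218357184098) (nat_lit 31) (nat_lit 5) (nat_lit 32) (nat_lit 5) (nat_lit 33) (nat_lit 4) (nat_lit 465) (nat_lit 427) (nat_lit 188)) (XT.lf (nat_lit 0) (nat_lit 712870335984) (nat_lit 252) (nat_lit 2752249255190) (nat_lit 84) (nat_lit 736004765325) (nat_lit 28) (nat_lit 5) (nat_lit 31) (nat_lit 5) (nat_lit 29) (nat_lit 4) (nat_lit 466) (nat_lit 427) (nat_lit 187))) (XT.nd (nat_lit 94) (nat_lit 168) (nat_lit 0) (XT.lf (nat_lit 0) (nat_lit 1640746630003) (nat_lit 84) (nat_lit 1215048529474) (nat_lit 168) (nat_lit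 1561072448629) (nat_lit 27) (nat_lit 5) (nat_lit 28) (nat_lit 5) (nat_lit 29) (nat_lit 4) (nat_lit 467) (nat_lit 427) (nat_lit 186)) (XT.lf (nat_lit 0) (nat_lit 602213815394) (nat_lit 168) (nat_lit 2778445916226) (nat_lit 84) (nat_lit 1263875309309) (nat_lit 25) (nat_lit 5) (nat_lit 27) (nat_lit 5) (nat_lit 26) (nat_lit 4) (nat_lit 468) (nat_lit 427) (nat_lit 185))))) (XT.nd (nat_lit 282) (nat_lit 504) (nat_lit 0) (XT.nd (nat_lit 94) (nat_lit 252) (nat_lit 0) (XT.lf (nat_lit 0) (nat_lit 2110766953146) (nat_lit 84) (nat_lit 876428750930) (nat_lit 168) (nat_lit 1896774341830) (nat_lit 24) (nat_lit 5) (nat_lit 25) (nat_lit 5) (nat_lit 26) (nat_lit 4) (nat_lit 469) (nat_lit 427) (nat_lit 184)) (XT.nd (nat_lit 94) (nat_lit 84) (nat_lit 0) (XT.lf (nat_lit 0) (nat_lit 524016097381) (nat_lit 168) (nat_lit 2747656755087) (nat_lit 84) (nat_lit 1864706017399) (nat_lit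 22) (nat_lit 5) (nat_lit 24) (nat_lit 5) (nat_lit 23) (nat_lit 4) (nat_lit 470) (nat_lit 427) (nat_lit 183)) (XT.lf (nat_lit 0) (nat_lit 2694762526767) (nat_lit 84) (nat_lit 484092245654) (nat_lit 168) (nat_lit 2223228957552) (nat_lit 21) (nat_lit 5) (nat_lit 22) (nat_lit 5) (nat_lit 23) (nat_lit 4) (nat_lit 471) (nat_lit 427) (nat_lit 182)))) (XT.nd (nat_lit 188) (nat_lit 252) (nat_lit 0) (XT.nd (nat_lit 94) (nat_lit 84) (nat_lit 0) (XT.lf (nat_lit 0) (nat_lit 483404235404) (nat_lit 168) (nat_lit 2648916325545) (nat_lit 84) (nat_lit 2549555899625) (nat_lit 19) (nat_lit 5) (nat_lit 21) (nat_lit 5) (nat_lit 20) (nat_lit 4) (nat_lit 472) (nat_lit 427) (nat_lit 181)) (XT.lf (nat_lit 0) (nat_lit 3410170171464) (nat_lit 84) (nat_lit 28886014489) (nat_lit 168) (nat_lit 2537655144101) (nat_lit 18) (nat_lit 5) (nat_lit 19) (nat_lit 5) (nat_lit 20) (nat_lit 4) (nat_lit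 473) (nat_lit 427) (nat_lit 180))) (XT.nd (nat_lit 94) (nat_lit 84) (nat_lit 0) (XT.lf (nat_lit 0) (nat_lit 486375858213) (nat_lit 168) (nat_lit 2469496168032) (nat_lit 84) (nat_lit 3330943470101) (nat_lit 16) (nat_lit 5) (nat_lit 18) (nat_lit 5) (nat_lit 17) (nat_lit 4) (nat_lit 474) (nat_lit 427) (nat_lit 179)) (XT.lf (nat_lit 0) (nat_lit 3785113465973) (nat_lit 168) (nat_lit 2344828533732) (nat_lit 0) (nat_lit 483621391031) (nat_lit 15) (nat_lit 5) (nat_lit 17) (nat_lit 4) (nat_lit 15) (nat_lit 4) (nat_lit 475) (nat_lit 427) (nat_lit 178)))))) (XT.nd (nat_lit 658) (nat_lit 336) (nat_lit 0) (XT.nd (nat_lit 282) (nat_lit 504) (nat_lit 0) (XT.nd (nat_lit 94) (nat_lit 252) (nat_lit 0) (XT.lf (nat_lit 0) (nat_lit 539919726449) (nat_lit 168) (nat_lit 2194656636884) (nat_lit 84) (nat_lit 4223035860625) (nat_lit 13) (nat_lit 5) (nat_lit 15) (nat_lit 5) (nat_lit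 14) (nat_lit 4) (nat_lit 476) (nat_lit 427) (nat_lit 177)) (XT.nd (nat_lit 94) (nat_lit 168) (nat_lit 0) (XT.lf (nat_lit 0) (nat_lit 4221910454836) (nat_lit 168) (nat_lit 2020161490710) (nat_lit 0) (nat_lit 1077632286089) (nat_lit 12) (nat_lit 5) (nat_lit 14) (nat_lit 4) (nat_lit 12) (nat_lit 4) (nat_lit 477) (nat_lit 427) (nat_lit 176)) (XT.lf (nat_lit 0) (nat_lit 652152448581) (nat_lit 168) (nat_lit 1807365650104) (nat_lit 84) (nat_lit 5241861537935) (nat_lit 10) (nat_lit 5) (nat_lit 12) (nat_lit 5) (nat_lit 11) (nat_lit 4) (nat_lit 478) (nat_lit 427) (nat_lit 175)))) (XT.nd (nat_lit 188) (nat_lit 252) (nat_lit 0) (XT.nd (nat_lit 94) (nat_lit 168) (nat_lit 0) (XT.lf (nat_lit 0) (nat_lit 4761683004429) (nat_lit 168) (nat_lit 1573828516740) (nat_lit 0) (nat_lit 1767132365785) (nat_lit 9) (nat_lit 5) (nat_lit 11) (nat_lit 4) (nat_lit 9) (nat_lit 4) (nat_lit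 479) (nat_lit 427) (nat_lit 174)) (XT.lf (nat_lit 0) (nat_lit 832473418313) (nat_lit 168) (nat_lit 1287980131877) (nat_lit 84) (nat_lit 6405549519422) (nat_lit 7) (nat_lit 5) (nat_lit 9) (nat_lit 5) (nat_lit 8) (nat_lit 4) (nat_lit 480) (nat_lit 427) (nat_lit 173))) (XT.nd (nat_lit 94) (nat_lit 168) (nat_lit 0) (XT.lf (nat_lit 0) (nat_lit 5418924543213) (nat_lit 168) (nat_lit 984786744794) (nat_lit 0) (nat_lit 2566971552605) (nat_lit 6) (nat_lit 5) (nat_lit 8) (nat_lit 4) (nat_lit 6) (nat_lit 4) (nat_lit 481) (nat_lit 427) (nat_lit 172)) (XT.lf (nat_lit 0) (nat_lit 1091740292680) (nat_lit 168) (nat_lit 613885391245) (nat_lit 84) (nat_lit 7734598331153) (nat_lit 4) (nat_lit 5) (nat_lit 6) (nat_lit 5) (nat_lit 5) (nat_lit 4) (nat_lit 482) (nat_lit 427) (nat_lit 171))))) (XT.nd (nat_lit 376) (nat_lit 0) (nat_lit 0) (XT.nd (nat_lit 188) (nat_lit 0) (nat_lit 0)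 (XT.nd (nat_lit 94) (nat_lit 252) (nat_lit 0) (XT.lf (nat_lit 0) (nat_lit 6210170388164) (nat_lit 168) (nat_lit 228827740003) (nat_lit 0) (nat_lit 3494024681661) (nat_lit 3) (nat_lit 5) (nat_lit 5) (nat_lit 4) (nat_lit 3) (nat_lit 4) (nat_lit 483) (nat_lit 427) (nat_lit 170)) (XT.lf (nat_lit 0) (nat_lit 15164048315310) (nat_lit 0) (nat_lit 0) (nat_lit 0) (nat_lit 0) (nat_lit 0) (nat_lit 0) (nat_lit 1) (nat_lit 0) (nat_lit 1) (nat_lit 0) (nat_lit 484) (nat_lit 427) (nat_lit 169))) (XT.nd (nat_lit 94) (nat_lit 0) (nat_lit 0) (XT.lf (nat_lit 0) (nat_lit 16362265481729) (nat_lit 0) (nat_lit 0) (nat_lit 0) (nat_lit 0) (nat_lit 0) (nat_lit 0) (nat_lit 1) (nat_lit 0) (nat_lit 1) (nat_lit 0) (nat_lit 485) (nat_lit 427) (nat_lit 168)) (XT.lf (nat_lit 0) (nat_lit 17656340021466) (nat_lit 0) (nat_lit 0) (nat_lit 0) (nat_lit 0) (nat_lit 0) (nat_lit 0) (nat_lit 1) (nat_lit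 0) (nat_lit 1) (nat_lit 0) (nat_lit 486) (nat_lit 427) (nat_lit 167)))) (XT.nd (nat_lit 188) (nat_lit 0) (nat_lit 0) (XT.nd (nat_lit 94) (nat_lit 0) (nat_lit 0) (XT.lf (nat_lit 0) (nat_lit 19053940524386) (nat_lit 0) (nat_lit 0) (nat_lit 0) (nat_lit 0) (nat_lit 0) (nat_lit 0) (nat_lit 1) (nat_lit 0) (nat_lit 1) (nat_lit 0) (nat_lit 487) (nat_lit 427) (nat_lit 166)) (XT.lf (nat_lit 0) (nat_lit 20563349067545) (nat_lit 0) (nat_lit 0) (nat_lit 0) (nat_lit 0) (nat_lit 0) (nat_lit 0) (nat_lit 1) (nat_lit 0) (nat_lit 1) (nat_lit 0) (nat_lit 488) (nat_lit 427) (nat_lit 165))) (XT.nd (nat_lit 94) (nat_lit 0) (nat_lit 0) (XT.lf (nat_lit 0) (nat_lit 22193510294160) (nat_lit 0) (nat_lit 0) (nat_lit 0) (nat_lit 0) (nat_lit 0) (nat_lit 0) (nat_lit 1) (nat_lit 0) (nat_lit 1) (nat_lit 0) (nat_lit 489) (nat_lit 427) (nat_lit 164)) (XT.lf (nat_lit 0) (nat_lit 23954084418909)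 (nat_lit 0) (nat_lit 0) (nat_lit 0) (nat_lit 0) (nat_lit 0) (nat_lit 0) (nat_lit 1) (nat_lit 0) (nat_lit 1) (nat_lit 0) (nat_lit 490) (nat_lit 427) (nat_lit 163))))))))
noncomputable def xc218 : XT := (XT.nd (nat_lit 63638) (nat_lit 0) (nat_lit 1344) (XT.nd (nat_lit 62322) (nat_lit 0) (nat_lit 6552) (XT.nd (nat_lit 658) (nat_lit 0) (nat_lit 0) (XT.nd (nat_lit 282) (nat_lit 0) (nat_lit 0) (XT.nd (nat_lit 94) (nat_lit 0) (nat_lit 0) (XT.lf (nat_lit 0) (nat_lit 25855504473640) (nat_lit 0) (nat_lit 0) (nat_lit 0) (nat_lit 0) (nat_lit 0) (nat_lit 0) (nat_lit 1) (nat_lit 0) (nat_lit 1) (nat_lit 0) (nat_lit 491) (nat_lit 427) (nat_lit 162)) (XT.nd (nat_lit 94) (nat_lit 0) (nat_lit 0) (XT.lf (nat_lit 0) (nat_lit 27909038132754) (nat_lit 0) (nat_lit 0) (nat_lit 0) (nat_lit 0) (nat_lit 0) (nat_lit 0) (nat_lit 1) (nat_lit 0) (nat_lit 1) (nat_lit 0) (nat_lit 492) (nat_lit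 427) (nat_lit 161)) (XT.lf (nat_lit 0) (nat_lit 30126854484599) (nat_lit 0) (nat_lit 0) (nat_lit 0) (nat_lit 0) (nat_lit 0) (nat_lit 0) (nat_lit 1) (nat_lit 0) (nat_lit 1) (nat_lit 0) (nat_lit 493) (nat_lit 427) (nat_lit 160)))) (XT.nd (nat_lit 188) (nat_lit 0) (nat_lit 0) (XT.nd (nat_lit 94) (nat_lit 0) (nat_lit 0) (XT.lf (nat_lit 0) (nat_lit 32522096144595) (nat_lit 0) (nat_lit 0) (nat_lit 0) (nat_lit 0) (nat_lit 0) (nat_lit 0) (nat_lit 1) (nat_lit 0) (nat_lit 1) (nat_lit 0) (nat_lit 494) (nat_lit 427) (nat_lit 159)) (XT.lf (nat_lit 0) (nat_lit 35108957137393) (nat_lit 0) (nat_lit 0) (nat_lit 0) (nat_lit 0) (nat_lit 0) (nat_lit 0) (nat_lit 1) (nat_lit 0) (nat_lit 1) (nat_lit 0) (nat_lit 495) (nat_lit 427) (nat_lit 158))) (XT.nd (nat_lit 94) (nat_lit 0) (nat_lit 0) (XT.lf (nat_lit 0) (nat_lit 37902767009617) (nat_lit 0) (nat_lit 0) (nat_lit 0) (nat_lit 0)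 (nat_lit 0) (nat_lit 0) (nat_lit 1) (nat_lit 0) (nat_lit 1) (nat_lit 0) (nat_lit 496) (nat_lit 427) (nat_lit 157)) (XT.lf (nat_lit 0) (nat_lit 40920081671621) (nat_lit 0) (nat_lit 0) (nat_lit 0) (nat_lit 0) (nat_lit 0) (nat_lit 0) (nat_lit 1) (nat_lit 0) (nat_lit 1) (nat_lit 0) (nat_lit 497) (nat_lit 427) (nat_lit 156))))) (XT.nd (nat_lit 61288) (nat_lit 0) (nat_lit 10836) (XT.nd (nat_lit 94) (nat_lit 0) (nat_lit 0) (XT.lf (nat_lit 0) (nat_lit 44178781506588) (nat_lit 0) (nat_lit 0) (nat_lit 0) (nat_lit 0) (nat_lit 0) (nat_lit 0) (nat_lit 1) (nat_lit 0) (nat_lit 1) (nat_lit 0) (nat_lit 498) (nat_lit 427) (nat_lit 155)) (XT.nd (nat_lit 61100) (nat_lit 0) (nat_lit 10752) (XT.lf (nat_lit 0) (nat_lit 47698177328354) (nat_lit 0) (nat_lit 0) (nat_lit 0) (nat_lit 0) (nat_lit 0) (nat_lit 0) (nat_lit 1) (nat_lit 0) (nat_lit 1) (nat_lit 0) (nat_lit 499) (nat_lit 427)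 (nat_lit 154)) (XT.lf (nat_lit 0) (nat_lit 178806500041) (nat_lit 924) (nat_lit 100708653565) (nat_lit 924) (nat_lit 100708653565) (nat_lit 128) (nat_lit 3) (nat_lit 139) (nat_lit 3) (nat_lit 139) (nat_lit 5) (nat_lit 428) (nat_lit 428) (nat_lit 224)))) (XT.nd (nat_lit 188) (nat_lit 0) (nat_lit 84) (XT.nd (nat_lit 94) (nat_lit 0) (nat_lit 0) (XT.lf (nat_lit 0) (nat_lit 379135664104) (nat_lit 840) (nat_lit 370795657311) (nat_lit 924) (nat_lit 40573290303) (nat_lit 129) (nat_lit 5) (nat_lit 139) (nat_lit 5) (nat_lit 140) (nat_lit 5) (nat_lit 429) (nat_lit 428) (nat_lit 223)) (XT.lf (nat_lit 84) (nat_lit 274220078023) (nat_lit 0) (nat_lit 145433738676) (nat_lit 924) (nat_lit 402448668409) (nat_lit 130) (nat_lit 5) (nat_lit 129) (nat_lit 5) (nat_lit 140) (nat_lit 5) (nat_lit 430) (nat_lit 428) (nat_lit 222))) (XT.nd (nat_lit 94) (nat_lit 0) (nat_lit 84) (XT.lf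 (nat_lit 84) (nat_lit 124117150310) (nat_lit 0) (nat_lit 355721283408) (nat_lit 924) (nat_lit 375568504041) (nat_lit 131) (nat_lit 5) (nat_lit 130) (nat_lit 5) (nat_lit 141) (nat_lit 5) (nat_lit 431) (nat_lit 428) (nat_lit 221)) (XT.lf (nat_lit 0) (nat_lit 561636032713) (nat_lit 840) (nat_lit 28711663469) (nat_lit 924) (nat_lit 300188139809) (nat_lit 131) (nat_lit 5) (nat_lit 141) (nat_lit 5) (nat_lit 142) (nat_lit 5) (nat_lit 432) (nat_lit 428) (nat_lit 220)))))) (XT.nd (nat_lit 658) (nat_lit 2016) (nat_lit 0) (XT.nd (nat_lit 282) (nat_lit 1764) (nat_lit 0) (XT.nd (nat_lit 94) (nat_lit 756) (nat_lit 0) (XT.lf (nat_lit 0) (nat_lit 668908828505) (nat_lit 840) (nat_lit 180830114787) (nat_lit 924) (nat_lit 77789533345) (nat_lit 132) (nat_lit 5) (nat_lit 142) (nat_lit 5) (nat_lit 143) (nat_lit 5) (nat_lit 433) (nat_lit 428) (nat_lit 219)) (XT.nd (nat_lit 94) (nat_lit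 756) (nat_lit 0) (XT.lf (nat_lit 84) (nat_lit 627843308373) (nat_lit 0) (nat_lit 177185198231) (nat_lit 924) (nat_lit 161438768999) (nat_lit 133) (nat_lit 5) (nat_lit 132) (nat_lit 5) (nat_lit 143) (nat_lit 5) (nat_lit 434) (nat_lit 428) (nat_lit 218)) (XT.lf (nat_lit 0) (nat_lit 506902580879) (nat_lit 840) (nat_lit 464825045223) (nat_lit 924) (nat_lit 35809059027) (nat_lit 123) (nat_lit 5) (nat_lit 133) (nat_lit 5) (nat_lit 134) (nat_lit 5) (nat_lit 435) (nat_lit 428) (nat_lit 217)))) (XT.nd (nat_lit 188) (nat_lit 756) (nat_lit 0) (XT.nd (nat_lit 94) (nat_lit 420) (nat_lit 0) (XT.lf (nat_lit 0) (nat_lit 116039770685) (nat_lit 588) (nat_lit 667027612642) (nat_lit 84) (nat_lit 267778038782) (nat_lit 116) (nat_lit 5) (nat_lit 123) (nat_lit 5) (nat_lit 117) (nat_lit 5) (nat_lit 436) (nat_lit 428) (nat_lit 216)) (XT.lf (nat_lit 0) (nat_lit 259439646574) (nat_lit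 420) (nat_lit 40111111692) (nat_lit 504) (nat_lit 797000306769) (nat_lit 111) (nat_lit 5) (nat_lit 116) (nat_lit 5) (nat_lit 117) (nat_lit 5) (nat_lit 437) (nat_lit 428) (nat_lit 215))) (XT.nd (nat_lit 94) (nat_lit 336) (nat_lit 0) (XT.lf (nat_lit 0) (nat_lit 130599587413) (nat_lit 420) (nat_lit 392893074889) (nat_lit 504) (nat_lit 621132995219) (nat_lit 106) (nat_lit 5) (nat_lit 111) (nat_lit 5) (nat_lit 112) (nat_lit 5) (nat_lit 438) (nat_lit 428) (nat_lit 214)) (XT.lf (nat_lit 0) (nat_lit 2596080362) (nat_lit 336) (nat_lit 784666633024) (nat_lit 420) (nat_lit 408187864286) (nat_lit 102) (nat_lit 5) (nat_lit 106) (nat_lit 5) (nat_lit 107) (nat_lit 5) (nat_lit 439) (nat_lit 428) (nat_lit 213))))) (XT.nd (nat_lit 282) (nat_lit 1260) (nat_lit 0) (XT.nd (nat_lit 94) (nat_lit 756) (nat_lit 0) (XT.lf (nat_lit 0) (nat_lit 1096840648001) (nat_lit 420) (nat_lit 119742380376)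 (nat_lit 84) (nat_lit 32523149085) (nat_lit 102) (nat_lit 5) (nat_lit 107) (nat_lit 5) (nat_lit 103) (nat_lit 5) (nat_lit 440) (nat_lit 428) (nat_lit 212)) (XT.nd (nat_lit 94) (nat_lit 336) (nat_lit 0) (XT.lf (nat_lit 0) (nat_lit 150424914151) (nat_lit 420) (nat_lit 248079906206) (nat_lit 84) (nat_lit 906939139749) (nat_lit 97) (nat_lit 5) (nat_lit 102) (nat_lit 5) (nat_lit 98) (nat_lit 5) (nat_lit 441) (nat_lit 428) (nat_lit 211)) (XT.lf (nat_lit 0) (nat_lit 497642040981) (nat_lit 420) (nat_lit 377173888399) (nat_lit 84) (nat_lit 490065723662) (nat_lit 93) (nat_lit 5) (nat_lit 98) (nat_lit 5) (nat_lit 94) (nat_lit 5) (nat_lit 442) (nat_lit 428) (nat_lit 210)))) (XT.nd (nat_lit 188) (nat_lit 672) (nat_lit 0) (XT.nd (nat_lit 94) (nat_lit 252) (nat_lit 0) (XT.lf (nat_lit 0) (nat_lit 898614285796) (nat_lit 420) (nat_lit 503037704958) (nat_lit 84) (nat_lit 26123483268)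 (nat_lit 89) (nat_lit 5) (nat_lit 94) (nat_lit 5) (nat_lit 90) (nat_lit 5) (nat_lit 443) (nat_lit 428) (nat_lit 209)) (XT.lf (nat_lit 0) (nat_lit 861617243973) (nat_lit 252) (nat_lit 504928146086) (nat_lit 336) (nat_lit 127411356627) (nat_lit 86) (nat_lit 5) (nat_lit 89) (nat_lit 5) (nat_lit 90) (nat_lit 5) (nat_lit 444) (nat_lit 428) (nat_lit 208))) (XT.nd (nat_lit 94) (nat_lit 252) (nat_lit 0) (XT.lf (nat_lit 0) (nat_lit 325880990152) (nat_lit 420) (nat_lit 762394370870) (nat_lit 84) (nat_lit 475457323086) (nat_lit 81) (nat_lit 5) (nat_lit 86) (nat_lit 5) (nat_lit 82) (nat_lit 5) (nat_lit 445) (nat_lit 428) (nat_lit 207)) (XT.lf (nat_lit 0) (nat_lit 746810668766) (nat_lit 252) (nat_lit 95591190763) (nat_lit 336) (nat_lit 795012951050) (nat_lit 78) (nat_lit 5) (nat_lit 81) (nat_lit 5) (nat_lit 82) (nat_lit 5) (nat_lit 446) (nat_lit 428) (nat_lit 206)))))))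 (XT.nd (nat_lit 1316) (nat_lit 2268) (nat_lit 0) (XT.nd (nat_lit 658) (nat_lit 1176) (nat_lit 0) (XT.nd (nat_lit 282) (nat_lit 924) (nat_lit 0) (XT.nd (nat_lit 94) (nat_lit 588) (nat_lit 0) (XT.lf (nat_lit 0) (nat_lit 694411235402) (nat_lit 252) (nat_lit 745419014010) (nat_lit 336) (nat_lit 275181965208) (nat_lit 75) (nat_lit 5) (nat_lit 78) (nat_lit 5) (nat_lit 79) (nat_lit 5) (nat_lit 447) (nat_lit 428) (nat_lit 205)) (XT.nd (nat_lit 94) (nat_lit 252) (nat_lit 0) (XT.lf (nat_lit 0) (nat_lit 310137723111) (nat_lit 336) (nat_lit 1148071704324) (nat_lit 84) (nat_lit 338731359275) (nat_lit 71) (nat_lit 5) (nat_lit 75) (nat_lit 5) (nat_lit 72) (nat_lit 5) (nat_lit 448) (nat_lit 428) (nat_lit 204)) (XT.lf (nat_lit 0) (nat_lit 605692641887) (nat_lit 252) (nat_lit 367173536459) (nat_lit 336) (nat_lit 910320695859) (nat_lit 68) (nat_lit 5) (nat_lit 71) (nat_lit 5)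 (nat_lit 72) (nat_lit 5) (nat_lit 449) (nat_lit 428) (nat_lit 203)))) (XT.nd (nat_lit 188) (nat_lit 420) (nat_lit 0) (XT.nd (nat_lit 94) (nat_lit 336) (nat_lit 0) (XT.lf (nat_lit 0) (nat_lit 570696434643) (nat_lit 168) (nat_lit 1159817406053) (nat_lit 252) (nat_lit 243723761470) (nat_lit 66) (nat_lit 5) (nat_lit 68) (nat_lit 5) (nat_lit 69) (nat_lit 5) (nat_lit 450) (nat_lit 428) (nat_lit 202)) (XT.lf (nat_lit 0) (nat_lit 498986436364) (nat_lit 336) (nat_lit 1526721758598) (nat_lit 84) (nat_lit 44591106236) (nat_lit 62) (nat_lit 5) (nat_lit 66) (nat_lit 5) (nat_lit 63) (nat_lit 5) (nat_lit 451) (nat_lit 428) (nat_lit 201))) (XT.nd (nat_lit 94) (nat_lit 252) (nat_lit 0) (XT.lf (nat_lit 0) (nat_lit 516217358006) (nat_lit 168) (nat_lit 828937170832) (nat_lit 252) (nat_lit 826062635129) (nat_lit 60) (nat_lit 5) (nat_lit 62) (nat_lit 5) (nat_lit 63) (nat_lit 5)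 (nat_lit 452) (nat_lit 428) (nat_lit 200)) (XT.lf (nat_lit 0) (nat_lit 22357800259) (nat_lit 252) (nat_lit 1771682066451) (nat_lit 84) (nat_lit 484041537747) (nat_lit 57) (nat_lit 5) (nat_lit 60) (nat_lit 5) (nat_lit 58) (nat_lit 5) (nat_lit 453) (nat_lit 428) (nat_lit 199))))) (XT.nd (nat_lit 282) (nat_lit 588) (nat_lit 0) (XT.nd (nat_lit 94) (nat_lit 420) (nat_lit 0) (XT.lf (nat_lit 0) (nat_lit 495228045112) (nat_lit 168) (nat_lit 465880452767) (nat_lit 252) (nat_lit 1429139293874) (nat_lit 55) (nat_lit 5) (nat_lit 57) (nat_lit 5) (nat_lit 58) (nat_lit 5) (nat_lit 454) (nat_lit 428) (nat_lit 198)) (XT.nd (nat_lit 94) (nat_lit 252) (nat_lit 0) (XT.lf (nat_lit 0) (nat_lit 497198785292) (nat_lit 168) (nat_lit 1532012107934) (nat_lit 252) (nat_lit 479464014712) (nat_lit 53) (nat_lit 5) (nat_lit 55) (nat_lit 5) (nat_lit 56) (nat_lit 5) (nat_lit 455) (nat_lit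 428) (nat_lit 197)) (XT.lf (nat_lit 0) (nat_lit 513035765672) (nat_lit 168) (nat_lit 65084867261) (nat_lit 252) (nat_lit 2055558352017) (nat_lit 50) (nat_lit 5) (nat_lit 52) (nat_lit 5) (nat_lit 53) (nat_lit 5) (nat_lit 456) (nat_lit 428) (nat_lit 196)))) (XT.nd (nat_lit 188) (nat_lit 252) (nat_lit 0) (XT.nd (nat_lit 94) (nat_lit 168) (nat_lit 0) (XT.lf (nat_lit 0) (nat_lit 528958314743) (nat_lit 168) (nat_lit 1242370680419) (nat_lit 252) (nat_lit 993570638357) (nat_lit 48) (nat_lit 5) (nat_lit 50) (nat_lit 5) (nat_lit 51) (nat_lit 5) (nat_lit 457) (nat_lit 428) (nat_lit 195)) (XT.lf (nat_lit 0) (nat_lit 202028903194) (nat_lit 168) (nat_lit 2334228370441) (nat_lit 84) (nat_lit 367562838627) (nat_lit 46) (nat_lit 5) (nat_lit 48) (nat_lit 5) (nat_lit 47) (nat_lit 5) (nat_lit 458) (nat_lit 428) (nat_lit 194))) (XT.nd (nat_lit 94) (nat_lit 84) (nat_lit 0) (XT.lf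 (nat_lit 0) (nat_lit 608645279176) (nat_lit 168) (nat_lit 920325077645) (nat_lit 252) (nat_lit 1520544279118) (nat_lit 44) (nat_lit 5) (nat_lit 46) (nat_lit 5) (nat_lit 47) (nat_lit 5) (nat_lit 459) (nat_lit 428) (nat_lit 193)) (XT.lf (nat_lit 0) (nat_lit 673482017828) (nat_lit 84) (nat_lit 2353306083686) (nat_lit 168) (nat_lit 176840571256) (nat_lit 43) (nat_lit 5) (nat_lit 44) (nat_lit 5) (nat_lit 45) (nat_lit 4) (nat_lit 460) (nat_lit 428) (nat_lit 192)))))) (XT.nd (nat_lit 658) (nat_lit 1008) (nat_lit 0) (XT.nd (nat_lit 282) (nat_lit 672) (nat_lit 0) (XT.nd (nat_lit 94) (nat_lit 336) (nat_lit 0) (XT.lf (nat_lit 0) (nat_lit 743895845014) (nat_lit 168) (nat_lit 560024176817) (nat_lit 252) (nat_lit 2061639592162) (nat_lit 40) (nat_lit 5) (nat_lit 42) (nat_lit 5) (nat_lit 43) (nat_lit 5) (nat_lit 461) (nat_lit 428) (nat_lit 191)) (XT.nd (nat_lit 94) (nat_lit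 252) (nat_lit 0) (XT.lf (nat_lit 0) (nat_lit 833447805832) (nat_lit 84) (nat_lit 2142883806996) (nat_lit 168) (nat_lit 559999177263) (nat_lit 39) (nat_lit 5) (nat_lit 40) (nat_lit 5) (nat_lit 41) (nat_lit 4) (nat_lit 462) (nat_lit 428) (nat_lit 190)) (XT.lf (nat_lit 0) (nat_lit 943536941346) (nat_lit 168) (nat_lit 154842804657) (nat_lit 252) (nat_lit 2618025520825) (nat_lit 36) (nat_lit 5) (nat_lit 38) (nat_lit 5) (nat_lit 39) (nat_lit 5) (nat_lit 463) (nat_lit 428) (nat_lit 189)))) (XT.nd (nat_lit 188) (nat_lit 336) (nat_lit 0) (XT.nd (nat_lit 94) (nat_lit 252) (nat_lit 0) (XT.lf (nat_lit 0) (nat_lit 1062340563069) (nat_lit 84) (nat_lit 1903275975852) (nat_lit 168) (nat_lit 940019787108) (nat_lit 35) (nat_lit 5) (nat_lit 36) (nat_lit 5) (nat_lit 37) (nat_lit 4) (nat_lit 464) (nat_lit 428) (nat_lit 188)) (XT.lf (nat_lit 0) (nat_lit 919752854061) (nat_lit 252)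 (nat_lit 2892766977988) (nat_lit 84) (nat_lit 293032985942) (nat_lit 32) (nat_lit 5) (nat_lit 35) (nat_lit 5) (nat_lit 33) (nat_lit 4) (nat_lit 465) (nat_lit 428) (nat_lit 187))) (XT.nd (nat_lit 94) (nat_lit 252) (nat_lit 0) (XT.lf (nat_lit 0) (nat_lit 1371027262872) (nat_lit 84) (nat_lit 1628625222397) (nat_lit 168) (nat_lit 1315825691366) (nat_lit 31) (nat_lit 5) (nat_lit 32) (nat_lit 5) (nat_lit 33) (nat_lit 4) (nat_lit 466) (nat_lit 428) (nat_lit 186)) (XT.lf (nat_lit 0) (nat_lit 769900026049) (nat_lit 252) (nat_lit 2972429074996) (nat_lit 84) (nat_lit 794885200814) (nat_lit 28) (nat_lit 5) (nat_lit 31) (nat_lit 5) (nat_lit 29) (nat_lit 4) (nat_lit 467) (nat_lit 428) (nat_lit 185))))) (XT.nd (nat_lit 376) (nat_lit 504) (nat_lit 0) (XT.nd (nat_lit 188) (nat_lit 252) (nat_lit 0) (XT.nd (nat_lit 94) (nat_lit 168) (nat_lit 0) (XT.lf (nat_lit 0) (nat_lit 1772006475770)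 (nat_lit 84) (nat_lit 1312252356773) (nat_lit 168) (nat_lit 1685958181196) (nat_lit 27) (nat_lit 5) (nat_lit 28) (nat_lit 5) (nat_lit 29) (nat_lit 4) (nat_lit 468) (nat_lit 428) (nat_lit 184)) (XT.lf (nat_lit 0) (nat_lit 650390979975) (nat_lit 168) (nat_lit 3000721475146) (nat_lit 84) (nat_lit 1364985386115) (nat_lit 25) (nat_lit 5) (nat_lit 27) (nat_lit 5) (nat_lit 26) (nat_lit 4) (nat_lit 469) (nat_lit 428) (nat_lit 183))) (XT.nd (nat_lit 94) (nat_lit 168) (nat_lit 0) (XT.lf (nat_lit 0) (nat_lit 2279628418805) (nat_lit 84) (nat_lit 946542998258) (nat_lit 168) (nat_lit 2048516229682) (nat_lit 24) (nat_lit 5) (nat_lit 25) (nat_lit 5) (nat_lit 26) (nat_lit 4) (nat_lit 470) (nat_lit 428) (nat_lit 182)) (XT.lf (nat_lit 0) (nat_lit 565937440962) (nat_lit 168) (nat_lit 2967469187074) (nat_lit 84) (nat_lit 2013882548631) (nat_lit 22) (nat_lit 5) (nat_lit 24) (nat_lit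 5) (nat_lit 23) (nat_lit 4) (nat_lit 471) (nat_lit 428) (nat_lit 181)))) (XT.nd (nat_lit 188) (nat_lit 252) (nat_lit 0) (XT.nd (nat_lit 94) (nat_lit 168) (nat_lit 0) (XT.lf (nat_lit 0) (nat_lit 2910343632617) (nat_lit 84) (nat_lit 522819574875) (nat_lit 168) (nat_lit 2401087218215) (nat_lit 21) (nat_lit 5) (nat_lit 22) (nat_lit 5) (nat_lit 23) (nat_lit 4) (nat_lit 472) (nat_lit 428) (nat_lit 180)) (XT.lf (nat_lit 0) (nat_lit 522076626719) (nat_lit 168) (nat_lit 2860829528858) (nat_lit 84) (nat_lit 2753520419220) (nat_lit 19) (nat_lit 5) (nat_lit 21) (nat_lit 5) (nat_lit 20) (nat_lit 4) (nat_lit 473) (nat_lit 428) (nat_lit 179))) (XT.nd (nat_lit 94) (nat_lit 168) (nat_lit 0) (XT.lf (nat_lit 0) (nat_lit 3682983883447) (nat_lit 84) (nat_lit 31196847511) (nat_lit 168) (nat_lit 2740667502994) (nat_lit 18) (nat_lit 5) (nat_lit 19) (nat_lit 5) (nat_lit 20) (nat_lit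 4) (nat_lit 474) (nat_lit 428) (nat_lit 178)) (XT.lf (nat_lit 0) (nat_lit 525285976273) (nat_lit 168) (nat_lit 2667055764165) (nat_lit 84) (nat_lit 3597418993146) (nat_lit 16) (nat_lit 5) (nat_lit 18) (nat_lit 5) (nat_lit 17) (nat_lit 4) (nat_lit 475) (nat_lit 428) (nat_lit 177))))))))
noncomputable def xc219 : XT := (XT.nd (nat_lit 63826) (nat_lit 0) (nat_lit 3360) (XT.nd (nat_lit 1316) (nat_lit 0) (nat_lit 0) (XT.nd (nat_lit 658) (nat_lit 504) (nat_lit 0) (XT.nd (nat_lit 282) (nat_lit 504) (nat_lit 0) (XT.nd (nat_lit 94) (nat_lit 252) (nat_lit 0) (XT.lf (nat_lit 0) (nat_lit 4087922591163) (nat_lit 168) (nat_lit 2532414721709) (nat_lit 0) (nat_lit 522311146727) (nat_lit 15) (nat_lit 5) (nat_lit 17) (nat_lit 4) (nat_lit 15) (nat_lit 4) (nat_lit 476) (nat_lit 428) (nat_lit 176)) (XT.nd (nat_lit 94) (nat_lit 84) (nat_lit 0) (XT.lf (nat_lit 0) (nat_lit 583113351093)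 (nat_lit 168) (nat_lit 2370229075692) (nat_lit 84) (nat_lit 4560878772764) (nat_lit 13) (nat_lit 5) (nat_lit 15) (nat_lit 5) (nat_lit 14) (nat_lit 4) (nat_lit 477) (nat_lit 428) (nat_lit 175)) (XT.lf (nat_lit 0) (nat_lit 4559663336363) (nat_lit 168) (nat_lit 2181774320286) (nat_lit 0) (nat_lit 1163842911261) (nat_lit 12) (nat_lit 5) (nat_lit 14) (nat_lit 4) (nat_lit 12) (nat_lit 4) (nat_lit 478) (nat_lit 428) (nat_lit 174)))) (XT.nd (nat_lit 188) (nat_lit 252) (nat_lit 0) (XT.nd (nat_lit 94) (nat_lit 84) (nat_lit 0) (XT.lf (nat_lit 0) (nat_lit 704324688310) (nat_lit 168) (nat_lit 1951954814879) (nat_lit 84) (nat_lit 5661210502168) (nat_lit 10) (nat_lit 5) (nat_lit 12) (nat_lit 5) (nat_lit 11) (nat_lit 4) (nat_lit 479) (nat_lit 428) (nat_lit 173)) (XT.lf (nat_lit 0) (nat_lit 5142617687330) (nat_lit 168) (nat_lit 1699734713192) (nat_lit 0) (nat_lit 1908502995262)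 (nat_lit 9) (nat_lit 5) (nat_lit 11) (nat_lit 4) (nat_lit 9) (nat_lit 4) (nat_lit 480) (nat_lit 428) (nat_lit 172))) (XT.nd (nat_lit 94) (nat_lit 84) (nat_lit 0) (XT.lf (nat_lit 0) (nat_lit 899071333107) (nat_lit 168) (nat_lit 1391018459862) (nat_lit 84) (nat_lit 6917993520145) (nat_lit 7) (nat_lit 5) (nat_lit 9) (nat_lit 5) (nat_lit 8) (nat_lit 4) (nat_lit 481) (nat_lit 428) (nat_lit 171)) (XT.lf (nat_lit 0) (nat_lit 5852438546787) (nat_lit 168) (nat_lit 1063569604042) (nat_lit 0) (nat_lit 2772329315027) (nat_lit 6) (nat_lit 5) (nat_lit 8) (nat_lit 4) (nat_lit 6) (nat_lit 4) (nat_lit 482) (nat_lit 428) (nat_lit 170))))) (XT.nd (nat_lit 282) (nat_lit 0) (nat_lit 0) (XT.nd (nat_lit 94) (nat_lit 336) (nat_lit 0) (XT.lf (nat_lit 0) (nat_lit 1179079555068) (nat_lit 168) (nat_lit 662996144413) (nat_lit 84) (nat_lit 8353366234856) (nat_lit 4) (nat_lit 5) (nat_lit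 6) (nat_lit 5) (nat_lit 5) (nat_lit 4) (nat_lit 483) (nat_lit 428) (nat_lit 169)) (XT.nd (nat_lit 94) (nat_lit 252) (nat_lit 0) (XT.lf (nat_lit 0) (nat_lit 6706984057056) (nat_lit 168) (nat_lit 247133883187) (nat_lit 0) (nat_lit 3773546692479) (nat_lit 3) (nat_lit 5) (nat_lit 5) (nat_lit 4) (nat_lit 3) (nat_lit 4) (nat_lit 484) (nat_lit 428) (nat_lit 168)) (XT.lf (nat_lit 0) (nat_lit 16377172180436) (nat_lit 0) (nat_lit 0) (nat_lit 0) (nat_lit 0) (nat_lit 0) (nat_lit 0) (nat_lit 1) (nat_lit 0) (nat_lit 1) (nat_lit 0) (nat_lit 485) (nat_lit 428) (nat_lit 167)))) (XT.nd (nat_lit 188) (nat_lit 0) (nat_lit 0) (XT.nd (nat_lit 94) (nat_lit 0) (nat_lit 0) (XT.lf (nat_lit 0) (nat_lit 17671246720176) (nat_lit 0) (nat_lit 0) (nat_lit 0) (nat_lit 0) (nat_lit 0) (nat_lit 0) (nat_lit 1) (nat_lit 0) (nat_lit 1) (nat_lit 0) (nat_lit 486) (nat_lit 428) (nat_lit 166)) (XT.lf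 (nat_lit 0) (nat_lit 19068847223098) (nat_lit 0) (nat_lit 0) (nat_lit 0) (nat_lit 0) (nat_lit 0) (nat_lit 0) (nat_lit 1) (nat_lit 0) (nat_lit 1) (nat_lit 0) (nat_lit 487) (nat_lit 428) (nat_lit 165))) (XT.nd (nat_lit 94) (nat_lit 0) (nat_lit 0) (XT.lf (nat_lit 0) (nat_lit 20578255766259) (nat_lit 0) (nat_lit 0) (nat_lit 0) (nat_lit 0) (nat_lit 0) (nat_lit 0) (nat_lit 1) (nat_lit 0) (nat_lit 1) (nat_lit 0) (nat_lit 488) (nat_lit 428) (nat_lit 164)) (XT.lf (nat_lit 0) (nat_lit 22208416992876) (nat_lit 0) (nat_lit 0) (nat_lit 0) (nat_lit 0) (nat_lit 0) (nat_lit 0) (nat_lit 1) (nat_lit 0) (nat_lit 1) (nat_lit 0) (nat_lit 489) (nat_lit 428) (nat_lit 163)))))) (XT.nd (nat_lit 658) (nat_lit 0) (nat_lit 0) (XT.nd (nat_lit 282) (nat_lit 0) (nat_lit 0) (XT.nd (nat_lit 94) (nat_lit 0) (nat_lit 0) (XT.lf (nat_lit 0) (nat_lit 23968991117626) (nat_lit 0) (nat_lit 0) (nat_lit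 0) (nat_lit 0) (nat_lit 0) (nat_lit 0) (nat_lit 1) (nat_lit 0) (nat_lit 1) (nat_lit 0) (nat_lit 490) (nat_lit 428) (nat_lit 162)) (XT.nd (nat_lit 94) (nat_lit 0) (nat_lit 0) (XT.lf (nat_lit 0) (nat_lit 25870411172359) (nat_lit 0) (nat_lit 0) (nat_lit 0) (nat_lit 0) (nat_lit 0) (nat_lit 0) (nat_lit 1) (nat_lit 0) (nat_lit 1) (nat_lit 0) (nat_lit 491) (nat_lit 428) (nat_lit 161)) (XT.lf (nat_lit 0) (nat_lit 27923944831474) (nat_lit 0) (nat_lit 0) (nat_lit 0) (nat_lit 0) (nat_lit 0) (nat_lit 0) (nat_lit 1) (nat_lit 0) (nat_lit 1) (nat_lit 0) (nat_lit 492) (nat_lit 428) (nat_lit 160)))) (XT.nd (nat_lit 188) (nat_lit 0) (nat_lit 0) (XT.nd (nat_lit 94) (nat_lit 0) (nat_lit 0) (XT.lf (nat_lit 0) (nat_lit 30141761183321) (nat_lit 0) (nat_lit 0) (nat_lit 0) (nat_lit 0) (nat_lit 0) (nat_lit 0) (nat_lit 1) (nat_lit 0) (nat_lit 1) (nat_lit 0) (nat_lit 493) (nat_lit 428)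 (nat_lit 159)) (XT.lf (nat_lit 0) (nat_lit 32537002843318) (nat_lit 0) (nat_lit 0) (nat_lit 0) (nat_lit 0) (nat_lit 0) (nat_lit 0) (nat_lit 1) (nat_lit 0) (nat_lit 1) (nat_lit 0) (nat_lit 494) (nat_lit 428) (nat_lit 158))) (XT.nd (nat_lit 94) (nat_lit 0) (nat_lit 0) (XT.lf (nat_lit 0) (nat_lit 35123863836117) (nat_lit 0) (nat_lit 0) (nat_lit 0) (nat_lit 0) (nat_lit 0) (nat_lit 0) (nat_lit 1) (nat_lit 0) (nat_lit 1) (nat_lit 0) (nat_lit 495) (nat_lit 428) (nat_lit 157)) (XT.lf (nat_lit 0) (nat_lit 37917673708342) (nat_lit 0) (nat_lit 0) (nat_lit 0) (nat_lit 0) (nat_lit 0) (nat_lit 0) (nat_lit 1) (nat_lit 0) (nat_lit 1) (nat_lit 0) (nat_lit 496) (nat_lit 428) (nat_lit 156))))) (XT.nd (nat_lit 61476) (nat_lit 0) (nat_lit 10836) (XT.nd (nat_lit 94) (nat_lit 0) (nat_lit 0) (XT.lf (nat_lit 0) (nat_lit 40934988370347) (nat_lit 0) (nat_lit 0) (nat_lit 0) (nat_lit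 0) (nat_lit 0) (nat_lit 0) (nat_lit 1) (nat_lit 0) (nat_lit 1) (nat_lit 0) (nat_lit 497) (nat_lit 428) (nat_lit 155)) (XT.nd (nat_lit 61288) (nat_lit 0) (nat_lit 10752) (XT.lf (nat_lit 0) (nat_lit 44193688205315) (nat_lit 0) (nat_lit 0) (nat_lit 0) (nat_lit 0) (nat_lit 0) (nat_lit 0) (nat_lit 1) (nat_lit 0) (nat_lit 1) (nat_lit 0) (nat_lit 498) (nat_lit 428) (nat_lit 154)) (XT.lf (nat_lit 0) (nat_lit 193111190933) (nat_lit 924) (nat_lit 108765256134) (nat_lit 924) (nat_lit 108765256134) (nat_lit 128) (nat_lit 3) (nat_lit 139) (nat_lit 3) (nat_lit 139) (nat_lit 5) (nat_lit 429) (nat_lit 429) (nat_lit 222)))) (XT.nd (nat_lit 188) (nat_lit 0) (nat_lit 84) (XT.nd (nat_lit 94) (nat_lit 0) (nat_lit 0) (XT.lf (nat_lit 0) (nat_lit 409466834068) (nat_lit 840) (nat_lit 400459120001) (nat_lit 924) (nat_lit 43819010744) (nat_lit 129) (nat_lit 5) (nat_lit 139) (nat_lit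 5) (nat_lit 140) (nat_lit 5) (nat_lit 430) (nat_lit 429) (nat_lit 221)) (XT.lf (nat_lit 84) (nat_lit 296157865906) (nat_lit 0) (nat_lit 157068552331) (nat_lit 924) (nat_lit 434644250870) (nat_lit 130) (nat_lit 5) (nat_lit 129) (nat_lit 5) (nat_lit 140) (nat_lit 5) (nat_lit 431) (nat_lit 429) (nat_lit 220))) (XT.nd (nat_lit 94) (nat_lit 0) (nat_lit 84) (XT.lf (nat_lit 84) (nat_lit 134046711960) (nat_lit 0) (nat_lit 384179072022) (nat_lit 924) (nat_lit 405613695019) (nat_lit 131) (nat_lit 5) (nat_lit 130) (nat_lit 5) (nat_lit 141) (nat_lit 5) (nat_lit 432) (nat_lit 429) (nat_lit 219)) (XT.lf (nat_lit 0) (nat_lit 606567169241) (nat_lit 840) (nat_lit 31008406967) (nat_lit 924) (nat_lit 324203113966) (nat_lit 131) (nat_lit 5) (nat_lit 141) (nat_lit 5) (nat_lit 142) (nat_lit 5) (nat_lit 433) (nat_lit 429) (nat_lit 218))))))) (XT.nd (nat_lit 1316) (nat_lit 3192)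 (nat_lit 0) (XT.nd (nat_lit 658) (nat_lit 2016) (nat_lit 0) (XT.nd (nat_lit 282) (nat_lit 1764) (nat_lit 0) (XT.nd (nat_lit 94) (nat_lit 756) (nat_lit 0) (XT.lf (nat_lit 0) (nat_lit 722421771836) (nat_lit 840) (nat_lit 195296329849) (nat_lit 924) (nat_lit 84012641230) (nat_lit 132) (nat_lit 5) (nat_lit 142) (nat_lit 5) (nat_lit 143) (nat_lit 5) (nat_lit 434) (nat_lit 429) (nat_lit 217)) (XT.nd (nat_lit 94) (nat_lit 756) (nat_lit 0) (XT.lf (nat_lit 84) (nat_lit 678070958728) (nat_lit 0) (nat_lit 191360050796) (nat_lit 924) (nat_lit 174353637009) (nat_lit 133) (nat_lit 5) (nat_lit 132) (nat_lit 5) (nat_lit 143) (nat_lit 5) (nat_lit 435) (nat_lit 429) (nat_lit 216)) (XT.lf (nat_lit 0) (nat_lit 547454976149) (nat_lit 840) (nat_lit 502011068376) (nat_lit 924) (nat_lit 38673564998) (nat_lit 123) (nat_lit 5) (nat_lit 133) (nat_lit 5) (nat_lit 134) (nat_lit 5) (nat_lit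 436) (nat_lit 429) (nat_lit 215)))) (XT.nd (nat_lit 188) (nat_lit 756) (nat_lit 0) (XT.nd (nat_lit 94) (nat_lit 420) (nat_lit 0) (XT.lf (nat_lit 0) (nat_lit 125323151146) (nat_lit 588) (nat_lit 720389624230) (nat_lit 84) (nat_lit 289200270562) (nat_lit 116) (nat_lit 5) (nat_lit 123) (nat_lit 5) (nat_lit 117) (nat_lit 5) (nat_lit 437) (nat_lit 429) (nat_lit 214)) (XT.lf (nat_lit 0) (nat_lit 280195007143) (nat_lit 420) (nat_lit 43319998812) (nat_lit 504) (nat_lit 860760134931) (nat_lit 111) (nat_lit 5) (nat_lit 116) (nat_lit 5) (nat_lit 117) (nat_lit 5) (nat_lit 438) (nat_lit 429) (nat_lit 213))) (XT.nd (nat_lit 94) (nat_lit 336) (nat_lit 0) (XT.lf (nat_lit 0) (nat_lit 141047743960) (nat_lit 420) (nat_lit 424324507486) (nat_lit 504) (nat_lit 670823449869) (nat_lit 106) (nat_lit 5) (nat_lit 111) (nat_lit 5) (nat_lit 112) (nat_lit 5) (nat_lit 439) (nat_lit 429)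 (nat_lit 212)) (XT.lf (nat_lit 0) (nat_lit 2803956333) (nat_lit 336) (nat_lit 847439940388) (nat_lit 420) (nat_lit 440842718851) (nat_lit 102) (nat_lit 5) (nat_lit 106) (nat_lit 5) (nat_lit 107) (nat_lit 5) (nat_lit 440) (nat_lit 429) (nat_lit 211))))) (XT.nd (nat_lit 282) (nat_lit 1260) (nat_lit 0) (XT.nd (nat_lit 94) (nat_lit 756) (nat_lit 0) (XT.lf (nat_lit 0) (nat_lit 1184588054125) (nat_lit 420) (nat_lit 129321587943) (nat_lit 84) (nat_lit 35125021876) (nat_lit 102) (nat_lit 5) (nat_lit 107) (nat_lit 5) (nat_lit 103) (nat_lit 5) (nat_lit 441) (nat_lit 429) (nat_lit 210)) (XT.nd (nat_lit 94) (nat_lit 336) (nat_lit 0) (XT.lf (nat_lit 0) (nat_lit 162459055257) (nat_lit 420) (nat_lit 267926118895) (nat_lit 84) (nat_lit 979494295365) (nat_lit 97) (nat_lit 5) (nat_lit 102) (nat_lit 5) (nat_lit 98) (nat_lit 5) (nat_lit 442) (nat_lit 429) (nat_lit 209)) (XT.lf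 (nat_lit 0) (nat_lit 537453544462) (nat_lit 420) (nat_lit 407347620997) (nat_lit 84) (nat_lit 529271012818) (nat_lit 93) (nat_lit 5) (nat_lit 98) (nat_lit 5) (nat_lit 94) (nat_lit 5) (nat_lit 443) (nat_lit 429) (nat_lit 208)))) (XT.nd (nat_lit 188) (nat_lit 672) (nat_lit 0) (XT.nd (nat_lit 94) (nat_lit 252) (nat_lit 0) (XT.lf (nat_lit 0) (nat_lit 970503561738) (nat_lit 420) (nat_lit 543280544609) (nat_lit 84) (nat_lit 28213398942) (nat_lit 89) (nat_lit 5) (nat_lit 94) (nat_lit 5) (nat_lit 90) (nat_lit 5) (nat_lit 444) (nat_lit 429) (nat_lit 207)) (XT.lf (nat_lit 0) (nat_lit 930546792555) (nat_lit 252) (nat_lit 545322354569) (nat_lit 336) (nat_lit 137604133004) (nat_lit 86) (nat_lit 5) (nat_lit 89) (nat_lit 5) (nat_lit 90) (nat_lit 5) (nat_lit 445) (nat_lit 429) (nat_lit 206))) (XT.nd (nat_lit 94) (nat_lit 252) (nat_lit 0) (XT.lf (nat_lit 0) (nat_lit 351951591099)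 (nat_lit 420) (nat_lit 823385749424) (nat_lit 84) (nat_lit 513493952228) (nat_lit 81) (nat_lit 5) (nat_lit 86) (nat_lit 5) (nat_lit 82) (nat_lit 5) (nat_lit 446) (nat_lit 429) (nat_lit 205)) (XT.lf (nat_lit 0) (nat_lit 806555685948) (nat_lit 252) (nat_lit 103238437617) (nat_lit 336) (nat_lit 858613866098) (nat_lit 78) (nat_lit 5) (nat_lit 81) (nat_lit 5) (nat_lit 82) (nat_lit 5) (nat_lit 447) (nat_lit 429) (nat_lit 204)))))) (XT.nd (nat_lit 658) (nat_lit 1428) (nat_lit 0) (XT.nd (nat_lit 282) (nat_lit 924) (nat_lit 0) (XT.nd (nat_lit 94) (nat_lit 588) (nat_lit 0) (XT.lf (nat_lit 0) (nat_lit 749964295591) (nat_lit 252) (nat_lit 805052483727) (nat_lit 336) (nat_lit 297196406974) (nat_lit 75) (nat_lit 5) (nat_lit 78) (nat_lit 5) (nat_lit 79) (nat_lit 5) (nat_lit 448) (nat_lit 429) (nat_lit 203)) (XT.nd (nat_lit 94) (nat_lit 252) (nat_lit 0) (XT.lf (nat_lit 0)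 (nat_lit 334948847713) (nat_lit 336) (nat_lit 1239917278304) (nat_lit 84) (nat_lit 365829918291) (nat_lit 71) (nat_lit 5) (nat_lit 75) (nat_lit 5) (nat_lit 72) (nat_lit 5) (nat_lit 449) (nat_lit 429) (nat_lit 202)) (XT.lf (nat_lit 0) (nat_lit 654148208547) (nat_lit 252) (nat_lit 396547365337) (nat_lit 336) (nat_lit 983146245194) (nat_lit 68) (nat_lit 5) (nat_lit 71) (nat_lit 5) (nat_lit 72) (nat_lit 5) (nat_lit 450) (nat_lit 429) (nat_lit 201)))) (XT.nd (nat_lit 188) (nat_lit 420) (nat_lit 0) (XT.nd (nat_lit 94) (nat_lit 336) (nat_lit 0) (XT.lf (nat_lit 0) (nat_lit 616352302011) (nat_lit 168) (nat_lit 1252602742874) (nat_lit 252) (nat_lit 263221560609) (nat_lit 66) (nat_lit 5) (nat_lit 68) (nat_lit 5) (nat_lit 69) (nat_lit 5) (nat_lit 451) (nat_lit 429) (nat_lit 200)) (XT.lf (nat_lit 0) (nat_lit 538905445692) (nat_lit 336) (nat_lit 1648859346395) (nat_lit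 84) (nat_lit 48158448486) (nat_lit 62) (nat_lit 5) (nat_lit 66) (nat_lit 5) (nat_lit 63) (nat_lit 5) (nat_lit 452) (nat_lit 429) (nat_lit 199))) (XT.nd (nat_lit 94) (nat_lit 252) (nat_lit 0) (XT.lf (nat_lit 0) (nat_lit 557514892893) (nat_lit 168) (nat_lit 895252087959) (nat_lit 252) (nat_lit 892147551747) (nat_lit 60) (nat_lit 5) (nat_lit 62) (nat_lit 5) (nat_lit 63) (nat_lit 5) (nat_lit 453) (nat_lit 429) (nat_lit 198)) (XT.lf (nat_lit 0) (nat_lit 24146511809) (nat_lit 252) (nat_lit 1913416485536) (nat_lit 84) (nat_lit 522764915091) (nat_lit 57) (nat_lit 5) (nat_lit 60) (nat_lit 5) (nat_lit 58) (nat_lit 5) (nat_lit 454) (nat_lit 429) (nat_lit 197))))) (XT.nd (nat_lit 376) (nat_lit 672) (nat_lit 0) (XT.nd (nat_lit 188) (nat_lit 420) (nat_lit 0) (XT.nd (nat_lit 94) (nat_lit 168) (nat_lit 0) (XT.lf (nat_lit 0) (nat_lit 534846428597) (nat_lit 168) (nat_lit 503150832342)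 (nat_lit 252) (nat_lit 1543470349993) (nat_lit 55) (nat_lit 5) (nat_lit 57) (nat_lit 5) (nat_lit 58) (nat_lit 5) (nat_lit 455) (nat_lit 429) (nat_lit 196)) (XT.lf (nat_lit 0) (nat_lit 536974825047) (nat_lit 168) (nat_lit 1654573019658) (nat_lit 252) (nat_lit 517821051867) (nat_lit 53) (nat_lit 5) (nat_lit 55) (nat_lit 5) (nat_lit 56) (nat_lit 5) (nat_lit 456) (nat_lit 429) (nat_lit 195))) (XT.nd (nat_lit 94) (nat_lit 168) (nat_lit 0) (XT.lf (nat_lit 0) (nat_lit 554078760479) (nat_lit 168) (nat_lit 70291600483) (nat_lit 252) (nat_lit 2220002938915) (nat_lit 50) (nat_lit 5) (nat_lit 52) (nat_lit 5) (nat_lit 53) (nat_lit 5) (nat_lit 457) (nat_lit 429) (nat_lit 194)) (XT.lf (nat_lit 0) (nat_lit 571275110534) (nat_lit 168) (nat_lit 1341760278753) (nat_lit 252) (nat_lit 1073056211188) (nat_lit 48) (nat_lit 5) (nat_lit 50) (nat_lit 5) (nat_lit 51) (nat_lit 5) (nat_lit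 458) (nat_lit 429) (nat_lit 193)))) (XT.nd (nat_lit 188) (nat_lit 336) (nat_lit 0) (XT.nd (nat_lit 94) (nat_lit 168) (nat_lit 0) (XT.lf (nat_lit 0) (nat_lit 218191288423) (nat_lit 168) (nat_lit 2520966510002) (nat_lit 84) (nat_lit 396967919169) (nat_lit 46) (nat_lit 5) (nat_lit 48) (nat_lit 5) (nat_lit 47) (nat_lit 5) (nat_lit 459) (nat_lit 429) (nat_lit 192)) (XT.lf (nat_lit 0) (nat_lit 657337025931) (nat_lit 168) (nat_lit 993951028946) (nat_lit 252) (nat_lit 1642187748461) (nat_lit 44) (nat_lit 5) (nat_lit 46) (nat_lit 5) (nat_lit 47) (nat_lit 5) (nat_lit 460) (nat_lit 429) (nat_lit 191))) (XT.nd (nat_lit 94) (nat_lit 252) (nat_lit 0) (XT.lf (nat_lit 0) (nat_lit 727360700774) (nat_lit 84) (nat_lit 2541570515915) (nat_lit 168) (nat_lit 190987746551) (nat_lit 43) (nat_lit 5) (nat_lit 44) (nat_lit 5) (nat_lit 45) (nat_lit 4) (nat_lit 461) (nat_lit 429) (nat_lit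 190)) (XT.lf (nat_lit 0) (nat_lit 803407631008) (nat_lit 168) (nat_lit 604826057521) (nat_lit 252) (nat_lit 2226570691335) (nat_lit 40) (nat_lit 5) (nat_lit 42) (nat_lit 5) (nat_lit 43) (nat_lit 5) (nat_lit 462) (nat_lit 429) (nat_lit 189))))))))
noncomputable def xc220 : XT := (XT.nd (nat_lit 2632) (nat_lit 0) (nat_lit 0) (XT.nd (nat_lit 1316) (nat_lit 1344) (nat_lit 0) (XT.nd (nat_lit 658) (nat_lit 924) (nat_lit 0) (XT.nd (nat_lit 282) (nat_lit 672) (nat_lit 0) (XT.nd (nat_lit 94) (nat_lit 336) (nat_lit 0) (XT.lf (nat_lit 0) (nat_lit 900123745855) (nat_lit 84) (nat_lit 2314314458717) (nat_lit 168) (nat_lit 604799045591) (nat_lit 39) (nat_lit 5) (nat_lit 40) (nat_lit 5) (nat_lit 41) (nat_lit 4) (nat_lit 463) (nat_lit 429) (nat_lit 188)) (XT.nd (nat_lit 94) (nat_lit 84) (nat_lit 0) (XT.lf (nat_lit 0) (nat_lit 1019020009204) (nat_lit 168) (nat_lit 167230177260)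 (nat_lit 252) (nat_lit 2827467498670) (nat_lit 36) (nat_lit 5) (nat_lit 38) (nat_lit 5) (nat_lit 39) (nat_lit 5) (nat_lit 464) (nat_lit 429) (nat_lit 187)) (XT.lf (nat_lit 0) (nat_lit 1147327917907) (nat_lit 84) (nat_lit 2055538002868) (nat_lit 168) (nat_lit 1015221308398) (nat_lit 35) (nat_lit 5) (nat_lit 36) (nat_lit 5) (nat_lit 37) (nat_lit 4) (nat_lit 465) (nat_lit 429) (nat_lit 186)))) (XT.nd (nat_lit 188) (nat_lit 336) (nat_lit 0) (XT.nd (nat_lit 94) (nat_lit 84) (nat_lit 0) (XT.lf (nat_lit 0) (nat_lit 993333140117) (nat_lit 252) (nat_lit 3124188227249) (nat_lit 84) (nat_lit 316475673178) (nat_lit 32) (nat_lit 5) (nat_lit 35) (nat_lit 5) (nat_lit 33) (nat_lit 4) (nat_lit 466) (nat_lit 429) (nat_lit 185)) (XT.lf (nat_lit 0) (nat_lit 1480709548144) (nat_lit 84) (nat_lit 1758915191030) (nat_lit 168) (nat_lit 1421091688839) (nat_lit 31) (nat_lit 5) (nat_lit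 32) (nat_lit 5) (nat_lit 33) (nat_lit 4) (nat_lit 467) (nat_lit 429) (nat_lit 184))) (XT.nd (nat_lit 94) (nat_lit 84) (nat_lit 0) (XT.lf (nat_lit 0) (nat_lit 831492082306) (nat_lit 252) (nat_lit 3210223297593) (nat_lit 84) (nat_lit 858476063400) (nat_lit 28) (nat_lit 5) (nat_lit 31) (nat_lit 5) (nat_lit 29) (nat_lit 4) (nat_lit 468) (nat_lit 429) (nat_lit 183)) (XT.lf (nat_lit 0) (nat_lit 1913767092741) (nat_lit 84) (nat_lit 1417232498110) (nat_lit 168) (nat_lit 1820834781402) (nat_lit 27) (nat_lit 5) (nat_lit 28) (nat_lit 5) (nat_lit 29) (nat_lit 4) (nat_lit 469) (nat_lit 429) (nat_lit 182))))) (XT.nd (nat_lit 282) (nat_lit 504) (nat_lit 0) (XT.nd (nat_lit 94) (nat_lit 252) (nat_lit 0) (XT.lf (nat_lit 0) (nat_lit 702422309255) (nat_lit 168) (nat_lit 3240779095097) (nat_lit 84) (nat_lit 1474184261639) (nat_lit 25) (nat_lit 5) (nat_lit 27) (nat_lit 5) (nat_lit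 26) (nat_lit 4) (nat_lit 470) (nat_lit 429) (nat_lit 181)) (XT.nd (nat_lit 94) (nat_lit 168) (nat_lit 0) (XT.lf (nat_lit 0) (nat_lit 2461998786109) (nat_lit 84) (nat_lit 1022266392897) (nat_lit 168) (nat_lit 2212397477050) (nat_lit 24) (nat_lit 5) (nat_lit 25) (nat_lit 5) (nat_lit 26) (nat_lit 4) (nat_lit 471) (nat_lit 429) (nat_lit 180)) (XT.lf (nat_lit 0) (nat_lit 611212484070) (nat_lit 168) (nat_lit 3204866629088) (nat_lit 84) (nat_lit 2174993195251) (nat_lit 22) (nat_lit 5) (nat_lit 24) (nat_lit 5) (nat_lit 23) (nat_lit 4) (nat_lit 472) (nat_lit 429) (nat_lit 179)))) (XT.nd (nat_lit 188) (nat_lit 252) (nat_lit 0) (XT.nd (nat_lit 94) (nat_lit 168) (nat_lit 0) (XT.lf (nat_lit 0) (nat_lit 3143171212139) (nat_lit 84) (nat_lit 564645097629) (nat_lit 168) (nat_lit 2593174147712) (nat_lit 21) (nat_lit 5) (nat_lit 22) (nat_lit 5) (nat_lit 23) (nat_lit 4) (nat_lit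 473) (nat_lit 429) (nat_lit 178)) (XT.lf (nat_lit 0) (nat_lit 563842801852) (nat_lit 168) (nat_lit 3089695803091) (nat_lit 84) (nat_lit 2973802093588) (nat_lit 19) (nat_lit 5) (nat_lit 21) (nat_lit 5) (nat_lit 20) (nat_lit 4) (nat_lit 474) (nat_lit 429) (nat_lit 177))) (XT.nd (nat_lit 94) (nat_lit 168) (nat_lit 0) (XT.lf (nat_lit 0) (nat_lit 3977622678371) (nat_lit 84) (nat_lit 33692554042) (nat_lit 168) (nat_lit 2959920858107) (nat_lit 18) (nat_lit 5) (nat_lit 19) (nat_lit 5) (nat_lit 20) (nat_lit 4) (nat_lit 475) (nat_lit 429) (nat_lit 176)) (XT.lf (nat_lit 0) (nat_lit 567308896729) (nat_lit 168) (nat_lit 2880420141874) (nat_lit 84) (nat_lit 3885212551550) (nat_lit 16) (nat_lit 5) (nat_lit 18) (nat_lit 5) (nat_lit 17) (nat_lit 4) (nat_lit 476) (nat_lit 429) (nat_lit 175)))))) (XT.nd (nat_lit 658) (nat_lit 504) (nat_lit 0) (XT.nd (nat_lit 282) (nat_lit 504)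 (nat_lit 0) (XT.nd (nat_lit 94) (nat_lit 252) (nat_lit 0) (XT.lf (nat_lit 0) (nat_lit 4414956439534) (nat_lit 168) (nat_lit 2735007818235) (nat_lit 0) (nat_lit 564096076544) (nat_lit 15) (nat_lit 5) (nat_lit 17) (nat_lit 4) (nat_lit 15) (nat_lit 4) (nat_lit 477) (nat_lit 429) (nat_lit 174)) (XT.nd (nat_lit 94) (nat_lit 84) (nat_lit 0) (XT.lf (nat_lit 0) (nat_lit 629762459071) (nat_lit 168) (nat_lit 2559847322748) (nat_lit 84) (nat_lit 4925749111699) (nat_lit 13) (nat_lit 5) (nat_lit 15) (nat_lit 5) (nat_lit 14) (nat_lit 4) (nat_lit 478) (nat_lit 429) (nat_lit 173)) (XT.lf (nat_lit 0) (nat_lit 4924436441972) (nat_lit 168) (nat_lit 2356316189023) (nat_lit 0) (nat_lit 1256950380413) (nat_lit 12) (nat_lit 5) (nat_lit 14) (nat_lit 4) (nat_lit 12) (nat_lit 4) (nat_lit 479) (nat_lit 429) (nat_lit 172)))) (XT.nd (nat_lit 188) (nat_lit 252) (nat_lit 0) (XT.nd (nat_lit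 94) (nat_lit 84) (nat_lit 0) (XT.lf (nat_lit 0) (nat_lit 760670700963) (nat_lit 168) (nat_lit 2108111125282) (nat_lit 84) (nat_lit 6114107377662) (nat_lit 10) (nat_lit 5) (nat_lit 12) (nat_lit 5) (nat_lit 11) (nat_lit 4) (nat_lit 480) (nat_lit 429) (nat_lit 171)) (XT.lf (nat_lit 0) (nat_lit 5554027138793) (nat_lit 168) (nat_lit 1835713417470) (nat_lit 0) (nat_lit 2061183269360) (nat_lit 9) (nat_lit 5) (nat_lit 11) (nat_lit 4) (nat_lit 9) (nat_lit 4) (nat_lit 481) (nat_lit 429) (nat_lit 170))) (XT.nd (nat_lit 94) (nat_lit 84) (nat_lit 0) (XT.lf (nat_lit 0) (nat_lit 970997075189) (nat_lit 168) (nat_lit 1502299865865) (nat_lit 84) (nat_lit 7471433035339) (nat_lit 7) (nat_lit 5) (nat_lit 9) (nat_lit 5) (nat_lit 8) (nat_lit 4) (nat_lit 482) (nat_lit 429) (nat_lit 169)) (XT.lf (nat_lit 0) (nat_lit 6320633664925) (nat_lit 168) (nat_lit 1148655103490) (nat_lit 0)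 (nat_lit 2994115692990) (nat_lit 6) (nat_lit 5) (nat_lit 8) (nat_lit 4) (nat_lit 6) (nat_lit 4) (nat_lit 483) (nat_lit 429) (nat_lit 168))))) (XT.nd (nat_lit 282) (nat_lit 0) (nat_lit 0) (XT.nd (nat_lit 94) (nat_lit 336) (nat_lit 0) (XT.lf (nat_lit 0) (nat_lit 1273405952887) (nat_lit 168) (nat_lit 716035768980) (nat_lit 84) (nat_lit 9021635565546) (nat_lit 4) (nat_lit 5) (nat_lit 6) (nat_lit 5) (nat_lit 5) (nat_lit 4) (nat_lit 484) (nat_lit 429) (nat_lit 167)) (XT.nd (nat_lit 94) (nat_lit 252) (nat_lit 0) (XT.lf (nat_lit 0) (nat_lit 7243542814061) (nat_lit 168) (nat_lit 266904528674) (nat_lit 0) (nat_lit 4075430458984) (nat_lit 3) (nat_lit 5) (nat_lit 5) (nat_lit 4) (nat_lit 3) (nat_lit 4) (nat_lit 485) (nat_lit 429) (nat_lit 166)) (XT.lf (nat_lit 0) (nat_lit 17687345954787) (nat_lit 0) (nat_lit 0) (nat_lit 0) (nat_lit 0) (nat_lit 0) (nat_lit 0) (nat_lit 1)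 (nat_lit 0) (nat_lit 1) (nat_lit 0) (nat_lit 486) (nat_lit 429) (nat_lit 165)))) (XT.nd (nat_lit 188) (nat_lit 0) (nat_lit 0) (XT.nd (nat_lit 94) (nat_lit 0) (nat_lit 0) (XT.lf (nat_lit 0) (nat_lit 19084946457711) (nat_lit 0) (nat_lit 0) (nat_lit 0) (nat_lit 0) (nat_lit 0) (nat_lit 0) (nat_lit 1) (nat_lit 0) (nat_lit 1) (nat_lit 0) (nat_lit 487) (nat_lit 429) (nat_lit 164)) (XT.lf (nat_lit 0) (nat_lit 20594355000874) (nat_lit 0) (nat_lit 0) (nat_lit 0) (nat_lit 0) (nat_lit 0) (nat_lit 0) (nat_lit 1) (nat_lit 0) (nat_lit 1) (nat_lit 0) (nat_lit 488) (nat_lit 429) (nat_lit 163))) (XT.nd (nat_lit 94) (nat_lit 0) (nat_lit 0) (XT.lf (nat_lit 0) (nat_lit 22224516227492) (nat_lit 0) (nat_lit 0) (nat_lit 0) (nat_lit 0) (nat_lit 0) (nat_lit 0) (nat_lit 1) (nat_lit 0) (nat_lit 1) (nat_lit 0) (nat_lit 489) (nat_lit 429) (nat_lit 162)) (XT.lf (nat_lit 0) (nat_lit 23985090352244)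 (nat_lit 0) (nat_lit 0) (nat_lit 0) (nat_lit 0) (nat_lit 0) (nat_lit 0) (nat_lit 1) (nat_lit 0) (nat_lit 1) (nat_lit 0) (nat_lit 490) (nat_lit 429) (nat_lit 161))))))) (XT.nd (nat_lit 62604) (nat_lit 0) (nat_lit 5964) (XT.nd (nat_lit 658) (nat_lit 0) (nat_lit 0) (XT.nd (nat_lit 282) (nat_lit 0) (nat_lit 0) (XT.nd (nat_lit 94) (nat_lit 0) (nat_lit 0) (XT.lf (nat_lit 0) (nat_lit 25886510406979) (nat_lit 0) (nat_lit 0) (nat_lit 0) (nat_lit 0) (nat_lit 0) (nat_lit 0) (nat_lit 1) (nat_lit 0) (nat_lit 1) (nat_lit 0) (nat_lit 491) (nat_lit 429) (nat_lit 160)) (XT.nd (nat_lit 94) (nat_lit 0) (nat_lit 0) (XT.lf (nat_lit 0) (nat_lit 27940044066095) (nat_lit 0) (nat_lit 0) (nat_lit 0) (nat_lit 0) (nat_lit 0) (nat_lit 0) (nat_lit 1) (nat_lit 0) (nat_lit 1) (nat_lit 0) (nat_lit 492) (nat_lit 429) (nat_lit 159)) (XT.lf (nat_lit 0) (nat_lit 30157860417943) (nat_lit 0) (nat_lit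 0) (nat_lit 0) (nat_lit 0) (nat_lit 0) (nat_lit 0) (nat_lit 1) (nat_lit 0) (nat_lit 1) (nat_lit 0) (nat_lit 493) (nat_lit 429) (nat_lit 158)))) (XT.nd (nat_lit 188) (nat_lit 0) (nat_lit 0) (XT.nd (nat_lit 94) (nat_lit 0) (nat_lit 0) (XT.lf (nat_lit 0) (nat_lit 32553102077941) (nat_lit 0) (nat_lit 0) (nat_lit 0) (nat_lit 0) (nat_lit 0) (nat_lit 0) (nat_lit 1) (nat_lit 0) (nat_lit 1) (nat_lit 0) (nat_lit 494) (nat_lit 429) (nat_lit 157)) (XT.lf (nat_lit 0) (nat_lit 35139963070741) (nat_lit 0) (nat_lit 0) (nat_lit 0) (nat_lit 0) (nat_lit 0) (nat_lit 0) (nat_lit 1) (nat_lit 0) (nat_lit 1) (nat_lit 0) (nat_lit 495) (nat_lit 429) (nat_lit 156))) (XT.nd (nat_lit 94) (nat_lit 0) (nat_lit 0) (XT.lf (nat_lit 0) (nat_lit 37933772942967) (nat_lit 0) (nat_lit 0) (nat_lit 0) (nat_lit 0) (nat_lit 0) (nat_lit 0) (nat_lit 1) (nat_lit 0) (nat_lit 1) (nat_lit 0) (nat_lit 496)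 (nat_lit 429) (nat_lit 155)) (XT.lf (nat_lit 0) (nat_lit 40951087604973) (nat_lit 0) (nat_lit 0) (nat_lit 0) (nat_lit 0) (nat_lit 0) (nat_lit 0) (nat_lit 1) (nat_lit 0) (nat_lit 1) (nat_lit 0) (nat_lit 497) (nat_lit 429) (nat_lit 154))))) (XT.nd (nat_lit 61570) (nat_lit 0) (nat_lit 10836) (XT.nd (nat_lit 61382) (nat_lit 0) (nat_lit 10752) (XT.lf (nat_lit 0) (nat_lit 44209787439941) (nat_lit 0) (nat_lit 0) (nat_lit 0) (nat_lit 0) (nat_lit 0) (nat_lit 0) (nat_lit 1) (nat_lit 0) (nat_lit 1) (nat_lit 0) (nat_lit 498) (nat_lit 429) (nat_lit 153)) (XT.nd (nat_lit 94) (nat_lit 0) (nat_lit 84) (XT.lf (nat_lit 0) (nat_lit 208560232716) (nat_lit 924) (nat_lit 117466399708) (nat_lit 924) (nat_lit 117466399708) (nat_lit 128) (nat_lit 3) (nat_lit 139) (nat_lit 3) (nat_lit 139) (nat_lit 5) (nat_lit 430) (nat_lit 430) (nat_lit 220)) (XT.lf (nat_lit 0) (nat_lit 442224452430)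 (nat_lit 840) (nat_lit 432495686798) (nat_lit 924) (nat_lit 47324409189) (nat_lit 129) (nat_lit 5) (nat_lit 139) (nat_lit 5) (nat_lit 140) (nat_lit 5) (nat_lit 431) (nat_lit 430) (nat_lit 219)))) (XT.nd (nat_lit 188) (nat_lit 0) (nat_lit 168) (XT.nd (nat_lit 94) (nat_lit 0) (nat_lit 84) (XT.lf (nat_lit 84) (nat_lit 319850650907) (nat_lit 0) (nat_lit 169634134735) (nat_lit 924) (nat_lit 469415524296) (nat_lit 130) (nat_lit 5) (nat_lit 129) (nat_lit 5) (nat_lit 140) (nat_lit 5) (nat_lit 432) (nat_lit 430) (nat_lit 218)) (XT.lf (nat_lit 84) (nat_lit 144770611490) (nat_lit 0) (nat_lit 414913471464) (nat_lit 924) (nat_lit 438062542555) (nat_lit 131) (nat_lit 5) (nat_lit 130) (nat_lit 5) (nat_lit 141) (nat_lit 5) (nat_lit 433) (nat_lit 430) (nat_lit 217))) (XT.nd (nat_lit 94) (nat_lit 0) (nat_lit 84) (XT.lf (nat_lit 0) (nat_lit 655092760469) (nat_lit 840) (nat_lit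 33488916991) (nat_lit 924) (nat_lit 350139297044) (nat_lit 131) (nat_lit 5) (nat_lit 141) (nat_lit 5) (nat_lit 142) (nat_lit 5) (nat_lit 434) (nat_lit 430) (nat_lit 216)) (XT.lf (nat_lit 0) (nat_lit 780215716816) (nat_lit 840) (nat_lit 210919869810) (nat_lit 924) (nat_lit 90733605561) (nat_lit 132) (nat_lit 5) (nat_lit 142) (nat_lit 5) (nat_lit 143) (nat_lit 5) (nat_lit 435) (nat_lit 430) (nat_lit 215)))))) (XT.nd (nat_lit 658) (nat_lit 2604) (nat_lit 0) (XT.nd (nat_lit 282) (nat_lit 1176) (nat_lit 0) (XT.nd (nat_lit 94) (nat_lit 1344) (nat_lit 0) (XT.lf (nat_lit 84) (nat_lit 732316794620) (nat_lit 0) (nat_lit 206668886329) (nat_lit 924) (nat_lit 188301727772) (nat_lit 133) (nat_lit 5) (nat_lit 132) (nat_lit 5) (nat_lit 143) (nat_lit 5) (nat_lit 436) (nat_lit 430) (nat_lit 214)) (XT.nd (nat_lit 94) (nat_lit 588) (nat_lit 0) (XT.lf (nat_lit 0) (nat_lit 591251536105)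 (nat_lit 840) (nat_lit 542171970595) (nat_lit 924) (nat_lit 41767262654) (nat_lit 123) (nat_lit 5) (nat_lit 133) (nat_lit 5) (nat_lit 134) (nat_lit 5) (nat_lit 437) (nat_lit 430) (nat_lit 213)) (XT.lf (nat_lit 0) (nat_lit 135349173681) (nat_lit 588) (nat_lit 778020624909) (nat_lit 84) (nat_lit 312336282499) (nat_lit 116) (nat_lit 5) (nat_lit 123) (nat_lit 5) (nat_lit 117) (nat_lit 5) (nat_lit 438) (nat_lit 430) (nat_lit 212)))) (XT.nd (nat_lit 188) (nat_lit 336) (nat_lit 0) (XT.nd (nat_lit 94) (nat_lit 420) (nat_lit 0) (XT.lf (nat_lit 0) (nat_lit 302610769618) (nat_lit 420) (nat_lit 46785597160) (nat_lit 504) (nat_lit 929620777362) (nat_lit 111) (nat_lit 5) (nat_lit 116) (nat_lit 5) (nat_lit 117) (nat_lit 5) (nat_lit 439) (nat_lit 430) (nat_lit 211)) (XT.lf (nat_lit 0) (nat_lit 152331725990) (nat_lit 420) (nat_lit 458270456601) (nat_lit 504) (nat_lit 724489167279)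 (nat_lit 106) (nat_lit 5) (nat_lit 111) (nat_lit 5) (nat_lit 112) (nat_lit 5) (nat_lit 440) (nat_lit 430) (nat_lit 210))) (XT.nd (nat_lit 94) (nat_lit 0) (nat_lit 0) (XT.lf (nat_lit 0) (nat_lit 3028435341) (nat_lit 336) (nat_lit 915235115662) (nat_lit 420) (nat_lit 476109986688) (nat_lit 102) (nat_lit 5) (nat_lit 106) (nat_lit 5) (nat_lit 107) (nat_lit 5) (nat_lit 441) (nat_lit 430) (nat_lit 209)) (XT.lf (nat_lit 0) (nat_lit 1279355230729) (nat_lit 420) (nat_lit 139667158204) (nat_lit 84) (nat_lit 37935041514) (nat_lit 102) (nat_lit 5) (nat_lit 107) (nat_lit 5) (nat_lit 103) (nat_lit 5) (nat_lit 442) (nat_lit 430) (nat_lit 208))))) (XT.nd (nat_lit 376) (nat_lit 1260) (nat_lit 0) (XT.nd (nat_lit 188) (nat_lit 588) (nat_lit 0) (XT.nd (nat_lit 94) (nat_lit 336) (nat_lit 0) (XT.lf (nat_lit 0) (nat_lit 175455906541) (nat_lit 420) (nat_lit 289360054250) (nat_lit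 84) (nat_lit 1057853859944) (nat_lit 97) (nat_lit 5) (nat_lit 102) (nat_lit 5) (nat_lit 98) (nat_lit 5) (nat_lit 443) (nat_lit 430) (nat_lit 207)) (XT.lf (nat_lit 0) (nat_lit 580449948219) (nat_lit 420) (nat_lit 439935277663) (nat_lit 84) (nat_lit 571612720646) (nat_lit 93) (nat_lit 5) (nat_lit 98) (nat_lit 5) (nat_lit 94) (nat_lit 5) (nat_lit 444) (nat_lit 430) (nat_lit 206))) (XT.nd (nat_lit 94) (nat_lit 252) (nat_lit 0) (XT.lf (nat_lit 0) (nat_lit 1048143960771) (nat_lit 420) (nat_lit 586742836647) (nat_lit 84) (nat_lit 30470502590) (nat_lit 89) (nat_lit 5) (nat_lit 94) (nat_lit 5) (nat_lit 90) (nat_lit 5) (nat_lit 445) (nat_lit 430) (nat_lit 205)) (XT.lf (nat_lit 0) (nat_lit 1004990680905) (nat_lit 252) (nat_lit 588948105895) (nat_lit 336) (nat_lit 148612350343) (nat_lit 86) (nat_lit 5) (nat_lit 89) (nat_lit 5) (nat_lit 90) (nat_lit 5) (nat_lit 446) (nat_lit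 430) (nat_lit 204)))) (XT.nd (nat_lit 188) (nat_lit 588) (nat_lit 0) (XT.nd (nat_lit 94) (nat_lit 252) (nat_lit 0) (XT.lf (nat_lit 0) (nat_lit 380107822755) (nat_lit 420) (nat_lit 889256462673) (nat_lit 84) (nat_lit 554573505525) (nat_lit 81) (nat_lit 5) (nat_lit 86) (nat_lit 5) (nat_lit 82) (nat_lit 5) (nat_lit 447) (nat_lit 430) (nat_lit 203)) (XT.lf (nat_lit 0) (nat_lit 871080281153) (nat_lit 252) (nat_lit 111497471125) (nat_lit 336) (nat_lit 927302871617) (nat_lit 78) (nat_lit 5) (nat_lit 81) (nat_lit 5) (nat_lit 82) (nat_lit 5) (nat_lit 448) (nat_lit 430) (nat_lit 202))) (XT.nd (nat_lit 94) (nat_lit 336) (nat_lit 0) (XT.lf (nat_lit 0) (nat_lit 809961577576) (nat_lit 252) (nat_lit 869456638355) (nat_lit 336) (nat_lit 320972020551) (nat_lit 75) (nat_lit 5) (nat_lit 78) (nat_lit 5) (nat_lit 79) (nat_lit 5) (nat_lit 449) (nat_lit 430) (nat_lit 201)) (XT.lf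 (nat_lit 0) (nat_lit 361744847054) (nat_lit 336) (nat_lit 1339110521366) (nat_lit 84) (nat_lit 395096354857) (nat_lit 71) (nat_lit 5) (nat_lit 75) (nat_lit 5) (nat_lit 72) (nat_lit 5) (nat_lit 450) (nat_lit 430) (nat_lit 200))))))))
noncomputable def xc221 : XT := (XT.nd (nat_lit 2632) (nat_lit 1260) (nat_lit 0) (XT.nd (nat_lit 1316) (nat_lit 2016) (nat_lit 0) (XT.nd (nat_lit 658) (nat_lit 1176) (nat_lit 0) (XT.nd (nat_lit 282) (nat_lit 756) (nat_lit 0) (XT.nd (nat_lit 94) (nat_lit 504) (nat_lit 0) (XT.lf (nat_lit 0) (nat_lit 706480198384) (nat_lit 252) (nat_lit 428271108235) (nat_lit 336) (nat_lit 1061797853646) (nat_lit 68) (nat_lit 5) (nat_lit 71) (nat_lit 5) (nat_lit 72) (nat_lit 5) (nat_lit 451) (nat_lit 430) (nat_lit 199)) (XT.nd (nat_lit 94) (nat_lit 336) (nat_lit 0) (XT.lf (nat_lit 0) (nat_lit 665660616998) (nat_lit 168) (nat_lit 1352810914582) (nat_lit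 252) (nat_lit 284279198198) (nat_lit 66) (nat_lit 5) (nat_lit 68) (nat_lit 5) (nat_lit 69) (nat_lit 5) (nat_lit 452) (nat_lit 430) (nat_lit 198)) (XT.lf (nat_lit 0) (nat_lit 582017962296) (nat_lit 336) (nat_lit 1780767963027) (nat_lit 84) (nat_lit 52011170449) (nat_lit 62) (nat_lit 5) (nat_lit 66) (nat_lit 5) (nat_lit 63) (nat_lit 5) (nat_lit 453) (nat_lit 430) (nat_lit 197)))) (XT.nd (nat_lit 188) (nat_lit 336) (nat_lit 0) (XT.nd (nat_lit 94) (nat_lit 252) (nat_lit 0) (XT.lf (nat_lit 0) (nat_lit 602116209707) (nat_lit 168) (nat_lit 966872206523) (nat_lit 252) (nat_lit 963519275131) (nat_lit 60) (nat_lit 5) (nat_lit 62) (nat_lit 5) (nat_lit 63) (nat_lit 5) (nat_lit 454) (nat_lit 430) (nat_lit 196)) (XT.lf (nat_lit 0) (nat_lit 26078307796) (nat_lit 252) (nat_lit 2066489679009) (nat_lit 84) (nat_lit 564586154874) (nat_lit 57) (nat_lit 5) (nat_lit 60) (nat_lit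 5) (nat_lit 58) (nat_lit 5) (nat_lit 455) (nat_lit 430) (nat_lit 195))) (XT.nd (nat_lit 94) (nat_lit 168) (nat_lit 0) (XT.lf (nat_lit 0) (nat_lit 577634262806) (nat_lit 168) (nat_lit 543402850364) (nat_lit 252) (nat_lit 1666947903068) (nat_lit 55) (nat_lit 5) (nat_lit 57) (nat_lit 5) (nat_lit 58) (nat_lit 5) (nat_lit 456) (nat_lit 430) (nat_lit 194)) (XT.lf (nat_lit 0) (nat_lit 579932928448) (nat_lit 168) (nat_lit 1786938812439) (nat_lit 252) (nat_lit 559246663980) (nat_lit 53) (nat_lit 5) (nat_lit 55) (nat_lit 5) (nat_lit 56) (nat_lit 5) (nat_lit 457) (nat_lit 430) (nat_lit 193))))) (XT.nd (nat_lit 282) (nat_lit 588) (nat_lit 0) (XT.nd (nat_lit 94) (nat_lit 336) (nat_lit 0) (XT.lf (nat_lit 0) (nat_lit 598405175818) (nat_lit 168) (nat_lit 75914880374) (nat_lit 252) (nat_lit 2397603104358) (nat_lit 50) (nat_lit 5) (nat_lit 52) (nat_lit 5) (nat_lit 53) (nat_lit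 5) (nat_lit 458) (nat_lit 430) (nat_lit 192)) (XT.nd (nat_lit 94) (nat_lit 168) (nat_lit 0) (XT.lf (nat_lit 0) (nat_lit 616977231356) (nat_lit 168) (nat_lit 1449101052956) (nat_lit 252) (nat_lit 1158900641008) (nat_lit 48) (nat_lit 5) (nat_lit 50) (nat_lit 5) (nat_lit 51) (nat_lit 5) (nat_lit 459) (nat_lit 430) (nat_lit 191)) (XT.lf (nat_lit 0) (nat_lit 235646654060) (nat_lit 168) (nat_lit 2722643719284) (nat_lit 84) (nat_lit 428725398529) (nat_lit 46) (nat_lit 5) (nat_lit 48) (nat_lit 5) (nat_lit 47) (nat_lit 5) (nat_lit 460) (nat_lit 430) (nat_lit 190)))) (XT.nd (nat_lit 188) (nat_lit 336) (nat_lit 0) (XT.nd (nat_lit 94) (nat_lit 84) (nat_lit 0) (XT.lf (nat_lit 0) (nat_lit 709924094677) (nat_lit 168) (nat_lit 1073467064185) (nat_lit 252) (nat_lit 1773562705764) (nat_lit 44) (nat_lit 5) (nat_lit 46) (nat_lit 5) (nat_lit 47) (nat_lit 5) (nat_lit 461) (nat_lit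 430) (nat_lit 189)) (XT.lf (nat_lit 0) (nat_lit 785549661018) (nat_lit 84) (nat_lit 2744896110493) (nat_lit 168) (nat_lit 206266705914) (nat_lit 43) (nat_lit 5) (nat_lit 44) (nat_lit 5) (nat_lit 45) (nat_lit 4) (nat_lit 462) (nat_lit 430) (nat_lit 188))) (XT.nd (nat_lit 94) (nat_lit 84) (nat_lit 0) (XT.lf (nat_lit 0) (nat_lit 867680342992) (nat_lit 168) (nat_lit 653212096306) (nat_lit 252) (nat_lit 2404696288171) (nat_lit 40) (nat_lit 5) (nat_lit 42) (nat_lit 5) (nat_lit 43) (nat_lit 5) (nat_lit 463) (nat_lit 430) (nat_lit 187)) (XT.lf (nat_lit 0) (nat_lit 972133744595) (nat_lit 84) (nat_lit 2499459570114) (nat_lit 168) (nat_lit 653182912780) (nat_lit 39) (nat_lit 5) (nat_lit 40) (nat_lit 5) (nat_lit 41) (nat_lit 4) (nat_lit 464) (nat_lit 430) (nat_lit 186)))))) (XT.nd (nat_lit 658) (nat_lit 840) (nat_lit 0) (XT.nd (nat_lit 282) (nat_lit 588) (nat_lit 0) (XT.nd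 (nat_lit 94) (nat_lit 336) (nat_lit 0) (XT.lf (nat_lit 0) (nat_lit 1100541706435) (nat_lit 168) (nat_lit 180608547057) (nat_lit 252) (nat_lit 3053664843849) (nat_lit 36) (nat_lit 5) (nat_lit 38) (nat_lit 5) (nat_lit 39) (nat_lit 5) (nat_lit 465) (nat_lit 430) (nat_lit 185)) (XT.nd (nat_lit 94) (nat_lit 252) (nat_lit 0) (XT.lf (nat_lit 0) (nat_lit 1239114245470) (nat_lit 84) (nat_lit 2219980999329) (nat_lit 168) (nat_lit 1096438960190) (nat_lit 35) (nat_lit 5) (nat_lit 36) (nat_lit 5) (nat_lit 37) (nat_lit 4) (nat_lit 466) (nat_lit 430) (nat_lit 184)) (XT.lf (nat_lit 0) (nat_lit 1072799840822) (nat_lit 252) (nat_lit 3374123191998) (nat_lit 84) (nat_lit 341793768493) (nat_lit 32) (nat_lit 5) (nat_lit 35) (nat_lit 5) (nat_lit 33) (nat_lit 4) (nat_lit 467) (nat_lit 430) (nat_lit 183)))) (XT.nd (nat_lit 188) (nat_lit 252) (nat_lit 0) (XT.nd (nat_lit 94) (nat_lit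 252) (nat_lit 0) (XT.lf (nat_lit 0) (nat_lit 1599166401366) (nat_lit 84) (nat_lit 1899628364166) (nat_lit 168) (nat_lit 1534778974360) (nat_lit 31) (nat_lit 5) (nat_lit 32) (nat_lit 5) (nat_lit 33) (nat_lit 4) (nat_lit 468) (nat_lit 430) (nat_lit 182)) (XT.lf (nat_lit 0) (nat_lit 898011495335) (nat_lit 252) (nat_lit 3467041072749) (nat_lit 84) (nat_lit 927154188357) (nat_lit 28) (nat_lit 5) (nat_lit 31) (nat_lit 5) (nat_lit 29) (nat_lit 4) (nat_lit 469) (nat_lit 430) (nat_lit 181))) (XT.nd (nat_lit 94) (nat_lit 168) (nat_lit 0) (XT.lf (nat_lit 0) (nat_lit 2066868544959) (nat_lit 84) (nat_lit 1530611057488) (nat_lit 168) (nat_lit 1966501517370) (nat_lit 27) (nat_lit 5) (nat_lit 28) (nat_lit 5) (nat_lit 29) (nat_lit 4) (nat_lit 470) (nat_lit 430) (nat_lit 180)) (XT.lf (nat_lit 0) (nat_lit 758616137619) (nat_lit 168) (nat_lit 3500041338634) (nat_lit 84) (nat_lit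 1592119040837) (nat_lit 25) (nat_lit 5) (nat_lit 27) (nat_lit 5) (nat_lit 26) (nat_lit 4) (nat_lit 471) (nat_lit 430) (nat_lit 179))))) (XT.nd (nat_lit 282) (nat_lit 504) (nat_lit 0) (XT.nd (nat_lit 94) (nat_lit 252) (nat_lit 0) (XT.lf (nat_lit 0) (nat_lit 2658958769415) (nat_lit 84) (nat_lit 1104047665558) (nat_lit 168) (nat_lit 2389389231485) (nat_lit 24) (nat_lit 5) (nat_lit 25) (nat_lit 5) (nat_lit 26) (nat_lit 4) (nat_lit 472) (nat_lit 430) (nat_lit 178)) (XT.nd (nat_lit 94) (nat_lit 84) (nat_lit 0) (XT.lf (nat_lit 0) (nat_lit 660109523803) (nat_lit 168) (nat_lit 3461255879723) (nat_lit 84) (nat_lit 2348992687505) (nat_lit 22) (nat_lit 5) (nat_lit 24) (nat_lit 5) (nat_lit 23) (nat_lit 4) (nat_lit 473) (nat_lit 430) (nat_lit 177)) (XT.lf (nat_lit 0) (nat_lit 3394624985339) (nat_lit 84) (nat_lit 609816668371) (nat_lit 168) (nat_lit 2800628038411) (nat_lit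 21) (nat_lit 5) (nat_lit 22) (nat_lit 5) (nat_lit 23) (nat_lit 4) (nat_lit 474) (nat_lit 430) (nat_lit 176)))) (XT.nd (nat_lit 188) (nat_lit 252) (nat_lit 0) (XT.nd (nat_lit 94) (nat_lit 84) (nat_lit 0) (XT.lf (nat_lit 0) (nat_lit 608950264577) (nat_lit 168) (nat_lit 3336871391828) (nat_lit 84) (nat_lit 3211706296080) (nat_lit 19) (nat_lit 5) (nat_lit 21) (nat_lit 5) (nat_lit 20) (nat_lit 4) (nat_lit 475) (nat_lit 430) (nat_lit 175)) (XT.lf (nat_lit 0) (nat_lit 4295832564870) (nat_lit 84) (nat_lit 36387922983) (nat_lit 168) (nat_lit 3196714488066) (nat_lit 18) (nat_lit 5) (nat_lit 19) (nat_lit 5) (nat_lit 20) (nat_lit 4) (nat_lit 476) (nat_lit 430) (nat_lit 174))) (XT.nd (nat_lit 94) (nat_lit 84) (nat_lit 0) (XT.lf (nat_lit 0) (nat_lit 612693644779) (nat_lit 168) (nat_lit 3110853681699) (nat_lit 84) (nat_lit 4196029589071) (nat_lit 16) (nat_lit 5) (nat_lit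 18) (nat_lit 5) (nat_lit 17) (nat_lit 4) (nat_lit 477) (nat_lit 430) (nat_lit 173)) (XT.lf (nat_lit 0) (nat_lit 4768152989914) (nat_lit 168) (nat_lit 2953808374071) (nat_lit 0) (nat_lit 609223795314) (nat_lit 15) (nat_lit 5) (nat_lit 17) (nat_lit 4) (nat_lit 15) (nat_lit 4) (nat_lit 478) (nat_lit 430) (nat_lit 172))))))) (XT.nd (nat_lit 1316) (nat_lit 0) (nat_lit 0) (XT.nd (nat_lit 658) (nat_lit 336) (nat_lit 0) (XT.nd (nat_lit 282) (nat_lit 504) (nat_lit 0) (XT.nd (nat_lit 94) (nat_lit 252) (nat_lit 0) (XT.lf (nat_lit 0) (nat_lit 680143489997) (nat_lit 168) (nat_lit 2764635040838) (nat_lit 84) (nat_lit 5319809072455) (nat_lit 13) (nat_lit 5) (nat_lit 15) (nat_lit 5) (nat_lit 14) (nat_lit 4) (nat_lit 479) (nat_lit 430) (nat_lit 171)) (XT.nd (nat_lit 94) (nat_lit 168) (nat_lit 0) (XT.lf (nat_lit 0) (nat_lit 5318391390509) (nat_lit 168) (nat_lit 2544821418226)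 (nat_lit 0) (nat_lit 1357506441926) (nat_lit 12) (nat_lit 5) (nat_lit 14) (nat_lit 4) (nat_lit 12) (nat_lit 4) (nat_lit 480) (nat_lit 430) (nat_lit 170)) (XT.lf (nat_lit 0) (nat_lit 821524389266) (nat_lit 168) (nat_lit 2276759951185) (nat_lit 84) (nat_lit 6603235998157) (nat_lit 10) (nat_lit 5) (nat_lit 12) (nat_lit 5) (nat_lit 11) (nat_lit 4) (nat_lit 481) (nat_lit 430) (nat_lit 169)))) (XT.nd (nat_lit 188) (nat_lit 252) (nat_lit 0) (XT.nd (nat_lit 94) (nat_lit 168) (nat_lit 0) (XT.lf (nat_lit 0) (nat_lit 5998349341170) (nat_lit 168) (nat_lit 1982570428471) (nat_lit 0) (nat_lit 2226077960468) (nat_lit 9) (nat_lit 5) (nat_lit 11) (nat_lit 4) (nat_lit 9) (nat_lit 4) (nat_lit 482) (nat_lit 430) (nat_lit 168)) (XT.lf (nat_lit 0) (nat_lit 1048676871582) (nat_lit 168) (nat_lit 1622483794446) (nat_lit 84) (nat_lit 8069147706957) (nat_lit 7) (nat_lit 5) (nat_lit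 9) (nat_lit 5) (nat_lit 8) (nat_lit 4) (nat_lit 483) (nat_lit 430) (nat_lit 167))) (XT.nd (nat_lit 94) (nat_lit 168) (nat_lit 0) (XT.lf (nat_lit 0) (nat_lit 6826284387606) (nat_lit 168) (nat_lit 1240547452719) (nat_lit 0) (nat_lit 3233644976517) (nat_lit 6) (nat_lit 5) (nat_lit 8) (nat_lit 4) (nat_lit 6) (nat_lit 4) (nat_lit 484) (nat_lit 430) (nat_lit 166)) (XT.lf (nat_lit 0) (nat_lit 1375278457766) (nat_lit 168) (nat_lit 773318573066) (nat_lit 84) (nat_lit 9743366438142) (nat_lit 4) (nat_lit 5) (nat_lit 6) (nat_lit 5) (nat_lit 5) (nat_lit 4) (nat_lit 485) (nat_lit 430) (nat_lit 165))))) (XT.nd (nat_lit 282) (nat_lit 0) (nat_lit 0) (XT.nd (nat_lit 94) (nat_lit 252) (nat_lit 0) (XT.lf (nat_lit 0) (nat_lit 7823026267000) (nat_lit 168) (nat_lit 288256835091) (nat_lit 0) (nat_lit 4401464922374) (nat_lit 3) (nat_lit 5) (nat_lit 5) (nat_lit 4) (nat_lit 3) (nat_lit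 4) (nat_lit 486) (nat_lit 430) (nat_lit 164)) (XT.nd (nat_lit 94) (nat_lit 0) (nat_lit 0) (XT.lf (nat_lit 0) (nat_lit 19102333631097) (nat_lit 0) (nat_lit 0) (nat_lit 0) (nat_lit 0) (nat_lit 0) (nat_lit 0) (nat_lit 1) (nat_lit 0) (nat_lit 1) (nat_lit 0) (nat_lit 487) (nat_lit 430) (nat_lit 163)) (XT.lf (nat_lit 0) (nat_lit 20611742174261) (nat_lit 0) (nat_lit 0) (nat_lit 0) (nat_lit 0) (nat_lit 0) (nat_lit 0) (nat_lit 1) (nat_lit 0) (nat_lit 1) (nat_lit 0) (nat_lit 488) (nat_lit 430) (nat_lit 162)))) (XT.nd (nat_lit 188) (nat_lit 0) (nat_lit 0) (XT.nd (nat_lit 94) (nat_lit 0) (nat_lit 0) (XT.lf (nat_lit 0) (nat_lit 22241903400881) (nat_lit 0) (nat_lit 0) (nat_lit 0) (nat_lit 0) (nat_lit 0) (nat_lit 0) (nat_lit 1) (nat_lit 0) (nat_lit 1) (nat_lit 0) (nat_lit 489) (nat_lit 430) (nat_lit 161)) (XT.lf (nat_lit 0) (nat_lit 24002477525634) (nat_lit 0) (nat_lit 0)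 (nat_lit 0) (nat_lit 0) (nat_lit 0) (nat_lit 0) (nat_lit 1) (nat_lit 0) (nat_lit 1) (nat_lit 0) (nat_lit 490) (nat_lit 430) (nat_lit 160))) (XT.nd (nat_lit 94) (nat_lit 0) (nat_lit 0) (XT.lf (nat_lit 0) (nat_lit 25903897580370) (nat_lit 0) (nat_lit 0) (nat_lit 0) (nat_lit 0) (nat_lit 0) (nat_lit 0) (nat_lit 1) (nat_lit 0) (nat_lit 1) (nat_lit 0) (nat_lit 491) (nat_lit 430) (nat_lit 159)) (XT.lf (nat_lit 0) (nat_lit 27957431239488) (nat_lit 0) (nat_lit 0) (nat_lit 0) (nat_lit 0) (nat_lit 0) (nat_lit 0) (nat_lit 1) (nat_lit 0) (nat_lit 1) (nat_lit 0) (nat_lit 492) (nat_lit 430) (nat_lit 158)))))) (XT.nd (nat_lit 62040) (nat_lit 0) (nat_lit 9744) (XT.nd (nat_lit 282) (nat_lit 0) (nat_lit 0) (XT.nd (nat_lit 94) (nat_lit 0) (nat_lit 0) (XT.lf (nat_lit 0) (nat_lit 30175247591337) (nat_lit 0) (nat_lit 0) (nat_lit 0) (nat_lit 0) (nat_lit 0) (nat_lit 0) (nat_lit 1)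 (nat_lit 0) (nat_lit 1) (nat_lit 0) (nat_lit 493) (nat_lit 430) (nat_lit 157)) (XT.nd (nat_lit 94) (nat_lit 0) (nat_lit 0) (XT.lf (nat_lit 0) (nat_lit 32570489251336) (nat_lit 0) (nat_lit 0) (nat_lit 0) (nat_lit 0) (nat_lit 0) (nat_lit 0) (nat_lit 1) (nat_lit 0) (nat_lit 1) (nat_lit 0) (nat_lit 494) (nat_lit 430) (nat_lit 156)) (XT.lf (nat_lit 0) (nat_lit 35157350244137) (nat_lit 0) (nat_lit 0) (nat_lit 0) (nat_lit 0) (nat_lit 0) (nat_lit 0) (nat_lit 1) (nat_lit 0) (nat_lit 1) (nat_lit 0) (nat_lit 495) (nat_lit 430) (nat_lit 155)))) (XT.nd (nat_lit 188) (nat_lit 0) (nat_lit 0) (XT.nd (nat_lit 94) (nat_lit 0) (nat_lit 0) (XT.lf (nat_lit 0) (nat_lit 37951160116364) (nat_lit 0) (nat_lit 0) (nat_lit 0) (nat_lit 0) (nat_lit 0) (nat_lit 0) (nat_lit 1) (nat_lit 0) (nat_lit 1) (nat_lit 0) (nat_lit 496) (nat_lit 430) (nat_lit 154)) (XT.lf (nat_lit 0) (nat_lit 40968474778371)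 (nat_lit 0) (nat_lit 0) (nat_lit 0) (nat_lit 0) (nat_lit 0) (nat_lit 0) (nat_lit 1) (nat_lit 0) (nat_lit 1) (nat_lit 0) (nat_lit 497) (nat_lit 430) (nat_lit 153))) (XT.nd (nat_lit 61476) (nat_lit 0) (nat_lit 10752) (XT.lf (nat_lit 0) (nat_lit 44227174613340) (nat_lit 0) (nat_lit 0) (nat_lit 0) (nat_lit 0) (nat_lit 0) (nat_lit 0) (nat_lit 1) (nat_lit 0) (nat_lit 1) (nat_lit 0) (nat_lit 498) (nat_lit 430) (nat_lit 152)) (XT.lf (nat_lit 0) (nat_lit 225245176941) (nat_lit 924) (nat_lit 126863645740) (nat_lit 924) (nat_lit 126863645740) (nat_lit 128) (nat_lit 3) (nat_lit 139) (nat_lit 3) (nat_lit 139) (nat_lit 5) (nat_lit 431) (nat_lit 431) (nat_lit 218))))) (XT.nd (nat_lit 376) (nat_lit 1092) (nat_lit 0) (XT.nd (nat_lit 188) (nat_lit 0) (nat_lit 84) (XT.nd (nat_lit 94) (nat_lit 0) (nat_lit 0) (XT.lf (nat_lit 0) (nat_lit 477602641508) (nat_lit 840) (nat_lit 467095202164)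 (nat_lit 924) (nat_lit 51110256975) (nat_lit 129) (nat_lit 5) (nat_lit 139) (nat_lit 5) (nat_lit 140) (nat_lit 5) (nat_lit 432) (nat_lit 431) (nat_lit 217)) (XT.lf (nat_lit 84) (nat_lit 345438836492) (nat_lit 0) (nat_lit 183204949719) (nat_lit 924) (nat_lit 506968537636) (nat_lit 130) (nat_lit 5) (nat_lit 129) (nat_lit 5) (nat_lit 140) (nat_lit 5) (nat_lit 433) (nat_lit 431) (nat_lit 216))) (XT.nd (nat_lit 94) (nat_lit 0) (nat_lit 84) (XT.lf (nat_lit 84) (nat_lit 156352399789) (nat_lit 0) (nat_lit 448106612350) (nat_lit 924) (nat_lit 473107333283) (nat_lit 131) (nat_lit 5) (nat_lit 130) (nat_lit 5) (nat_lit 141) (nat_lit 5) (nat_lit 434) (nat_lit 431) (nat_lit 215)) (XT.lf (nat_lit 0) (nat_lit 707500367939) (nat_lit 840) (nat_lit 36167891004) (nat_lit 924) (nat_lit 378150384190) (nat_lit 131) (nat_lit 5) (nat_lit 141) (nat_lit 5) (nat_lit 142) (nat_lit 5)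 (nat_lit 435) (nat_lit 431) (nat_lit 214)))) (XT.nd (nat_lit 188) (nat_lit 1344) (nat_lit 0) (XT.nd (nat_lit 94) (nat_lit 0) (nat_lit 0) (XT.lf (nat_lit 0) (nat_lit 842633148401) (nat_lit 840) (nat_lit 227793316711) (nat_lit 924) (nat_lit 97992253738) (nat_lit 132) (nat_lit 5) (nat_lit 142) (nat_lit 5) (nat_lit 143) (nat_lit 5) (nat_lit 436) (nat_lit 431) (nat_lit 213)) (XT.lf (nat_lit 84) (nat_lit 790902274673) (nat_lit 0) (nat_lit 223202424216) (nat_lit 924) (nat_lit 203365694357) (nat_lit 133) (nat_lit 5) (nat_lit 132) (nat_lit 5) (nat_lit 143) (nat_lit 5) (nat_lit 437) (nat_lit 431) (nat_lit 212))) (XT.nd (nat_lit 94) (nat_lit 588) (nat_lit 0) (XT.lf (nat_lit 0) (nat_lit 638551797767) (nat_lit 840) (nat_lit 585545742601) (nat_lit 924) (nat_lit 45108482878) (nat_lit 123) (nat_lit 5) (nat_lit 133) (nat_lit 5) (nat_lit 134) (nat_lit 5) (nat_lit 438) (nat_lit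 431) (nat_lit 211)) (XT.lf (nat_lit 0) (nat_lit 146177253704) (nat_lit 588) (nat_lit 840262129790) (nat_lit 84) (nat_lit 337323176776) (nat_lit 116) (nat_lit 5) (nat_lit 123) (nat_lit 5) (nat_lit 117) (nat_lit 5) (nat_lit 439) (nat_lit 431) (nat_lit 210))))))))
noncomputable def xc222 : XT := (XT.nd (nat_lit 2632) (nat_lit 2940) (nat_lit 0) (XT.nd (nat_lit 1316) (nat_lit 2604) (nat_lit 0) (XT.nd (nat_lit 658) (nat_lit 1932) (nat_lit 0) (XT.nd (nat_lit 282) (nat_lit 1092) (nat_lit 0) (XT.nd (nat_lit 94) (nat_lit 756) (nat_lit 0) (XT.lf (nat_lit 0) (nat_lit 326819769993) (nat_lit 420) (nat_lit 50528443599) (nat_lit 504) (nat_lit 1003990295206) (nat_lit 111) (nat_lit 5) (nat_lit 116) (nat_lit 5) (nat_lit 117) (nat_lit 5) (nat_lit 440) (nat_lit 431) (nat_lit 209)) (XT.nd (nat_lit 94) (nat_lit 336) (nat_lit 0) (XT.lf (nat_lit 0) (nat_lit 164518403397) (nat_lit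 420) (nat_lit 494932083284) (nat_lit 504) (nat_lit 782448164705) (nat_lit 106) (nat_lit 5) (nat_lit 111) (nat_lit 5) (nat_lit 112) (nat_lit 5) (nat_lit 441) (nat_lit 431) (nat_lit 208)) (XT.lf (nat_lit 0) (nat_lit 3270849488) (nat_lit 336) (nat_lit 988453907805) (nat_lit 420) (nat_lit 514198657304) (nat_lit 102) (nat_lit 5) (nat_lit 106) (nat_lit 5) (nat_lit 107) (nat_lit 5) (nat_lit 442) (nat_lit 431) (nat_lit 207)))) (XT.nd (nat_lit 188) (nat_lit 672) (nat_lit 0) (XT.nd (nat_lit 94) (nat_lit 420) (nat_lit 0) (XT.lf (nat_lit 0) (nat_lit 1381703762592) (nat_lit 420) (nat_lit 150840396450) (nat_lit 84) (nat_lit 40969860171) (nat_lit 102) (nat_lit 5) (nat_lit 107) (nat_lit 5) (nat_lit 103) (nat_lit 5) (nat_lit 443) (nat_lit 431) (nat_lit 206)) (XT.lf (nat_lit 0) (nat_lit 189492487829) (nat_lit 420) (nat_lit 312508726425) (nat_lit 84) (nat_lit 1142482186700)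 (nat_lit 97) (nat_lit 5) (nat_lit 102) (nat_lit 5) (nat_lit 98) (nat_lit 5) (nat_lit 444) (nat_lit 431) (nat_lit 205))) (XT.nd (nat_lit 94) (nat_lit 336) (nat_lit 0) (XT.lf (nat_lit 0) (nat_lit 626886047130) (nat_lit 420) (nat_lit 475129968692) (nat_lit 84) (nat_lit 617341761276) (nat_lit 93) (nat_lit 5) (nat_lit 98) (nat_lit 5) (nat_lit 94) (nat_lit 5) (nat_lit 445) (nat_lit 431) (nat_lit 204)) (XT.lf (nat_lit 0) (nat_lit 1131995575450) (nat_lit 420) (nat_lit 633682133666) (nat_lit 84) (nat_lit 32908170002) (nat_lit 89) (nat_lit 5) (nat_lit 94) (nat_lit 5) (nat_lit 90) (nat_lit 5) (nat_lit 446) (nat_lit 431) (nat_lit 203))))) (XT.nd (nat_lit 282) (nat_lit 1008) (nat_lit 0) (XT.nd (nat_lit 94) (nat_lit 672) (nat_lit 0) (XT.lf (nat_lit 0) (nat_lit 1085390059645) (nat_lit 252) (nat_lit 636063922611) (nat_lit 336) (nat_lit 160501241234) (nat_lit 86) (nat_lit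 5) (nat_lit 89) (nat_lit 5) (nat_lit 90) (nat_lit 5) (nat_lit 447) (nat_lit 431) (nat_lit 202)) (XT.nd (nat_lit 94) (nat_lit 252) (nat_lit 0) (XT.lf (nat_lit 0) (nat_lit 410516538054) (nat_lit 420) (nat_lit 960396853911) (nat_lit 84) (nat_lit 598939417790) (nat_lit 81) (nat_lit 5) (nat_lit 86) (nat_lit 5) (nat_lit 82) (nat_lit 5) (nat_lit 448) (nat_lit 431) (nat_lit 201)) (XT.lf (nat_lit 0) (nat_lit 940766823955) (nat_lit 252) (nat_lit 120417233234) (nat_lit 336) (nat_lit 1001487012380) (nat_lit 78) (nat_lit 5) (nat_lit 81) (nat_lit 5) (nat_lit 82) (nat_lit 5) (nat_lit 449) (nat_lit 431) (nat_lit 200)))) (XT.nd (nat_lit 188) (nat_lit 420) (nat_lit 0) (XT.nd (nat_lit 94) (nat_lit 336) (nat_lit 0) (XT.lf (nat_lit 0) (nat_lit 874758622384) (nat_lit 252) (nat_lit 939013131640) (nat_lit 336) (nat_lit 346649697336) (nat_lit 75) (nat_lit 5) (nat_lit 78) (nat_lit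 5) (nat_lit 79) (nat_lit 5) (nat_lit 450) (nat_lit 431) (nat_lit 199)) (XT.lf (nat_lit 0) (nat_lit 390684513286) (nat_lit 336) (nat_lit 1446239243732) (nat_lit 84) (nat_lit 426704100198) (nat_lit 71) (nat_lit 5) (nat_lit 75) (nat_lit 5) (nat_lit 72) (nat_lit 5) (nat_lit 451) (nat_lit 431) (nat_lit 198))) (XT.nd (nat_lit 94) (nat_lit 168) (nat_lit 0) (XT.lf (nat_lit 0) (nat_lit 762998728411) (nat_lit 252) (nat_lit 462532757174) (nat_lit 336) (nat_lit 1146741603779) (nat_lit 68) (nat_lit 5) (nat_lit 71) (nat_lit 5) (nat_lit 72) (nat_lit 5) (nat_lit 452) (nat_lit 431) (nat_lit 197)) (XT.lf (nat_lit 0) (nat_lit 718913578521) (nat_lit 168) (nat_lit 1461035746834) (nat_lit 252) (nat_lit 307021459243) (nat_lit 66) (nat_lit 5) (nat_lit 68) (nat_lit 5) (nat_lit 69) (nat_lit 5) (nat_lit 453) (nat_lit 431) (nat_lit 196)))))) (XT.nd (nat_lit 658) (nat_lit 1092) (nat_lit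 0) (XT.nd (nat_lit 282) (nat_lit 756) (nat_lit 0) (XT.nd (nat_lit 94) (nat_lit 420) (nat_lit 0) (XT.lf (nat_lit 0) (nat_lit 628579468680) (nat_lit 336) (nat_lit 1923229287690) (nat_lit 84) (nat_lit 56172103594) (nat_lit 62) (nat_lit 5) (nat_lit 66) (nat_lit 5) (nat_lit 63) (nat_lit 5) (nat_lit 454) (nat_lit 431) (nat_lit 195)) (XT.nd (nat_lit 94) (nat_lit 252) (nat_lit 0) (XT.lf (nat_lit 0) (nat_lit 650285613979) (nat_lit 168) (nat_lit 1044221941487) (nat_lit 252) (nat_lit 1040600747907) (nat_lit 60) (nat_lit 5) (nat_lit 62) (nat_lit 5) (nat_lit 63) (nat_lit 5) (nat_lit 455) (nat_lit 431) (nat_lit 194)) (XT.lf (nat_lit 0) (nat_lit 28164636757) (nat_lit 252) (nat_lit 2231808745846) (nat_lit 84) (nat_lit 609753087194) (nat_lit 57) (nat_lit 5) (nat_lit 60) (nat_lit 5) (nat_lit 58) (nat_lit 5) (nat_lit 456) (nat_lit 431) (nat_lit 193)))) (XT.nd (nat_lit 188) (nat_lit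 420) (nat_lit 0) (XT.nd (nat_lit 94) (nat_lit 168) (nat_lit 0) (XT.lf (nat_lit 0) (nat_lit 623845106644) (nat_lit 168) (nat_lit 586875036757) (nat_lit 252) (nat_lit 1800303671078) (nat_lit 55) (nat_lit 5) (nat_lit 57) (nat_lit 5) (nat_lit 58) (nat_lit 5) (nat_lit 457) (nat_lit 431) (nat_lit 192)) (XT.lf (nat_lit 0) (nat_lit 626327663373) (nat_lit 168) (nat_lit 1929893875603) (nat_lit 252) (nat_lit 603986335340) (nat_lit 53) (nat_lit 5) (nat_lit 55) (nat_lit 5) (nat_lit 56) (nat_lit 5) (nat_lit 458) (nat_lit 431) (nat_lit 191))) (XT.nd (nat_lit 94) (nat_lit 168) (nat_lit 0) (XT.lf (nat_lit 0) (nat_lit 646277688049) (nat_lit 168) (nat_lit 81988029525) (nat_lit 252) (nat_lit 2589411292976) (nat_lit 50) (nat_lit 5) (nat_lit 52) (nat_lit 5) (nat_lit 53) (nat_lit 5) (nat_lit 459) (nat_lit 431) (nat_lit 190)) (XT.lf (nat_lit 0) (nat_lit 666335505868) (nat_lit 168)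 (nat_lit 1565029095957) (nat_lit 252) (nat_lit 1251612634781) (nat_lit 48) (nat_lit 5) (nat_lit 50) (nat_lit 5) (nat_lit 51) (nat_lit 5) (nat_lit 460) (nat_lit 431) (nat_lit 189))))) (XT.nd (nat_lit 282) (nat_lit 672) (nat_lit 0) (XT.nd (nat_lit 94) (nat_lit 252) (nat_lit 0) (XT.lf (nat_lit 0) (nat_lit 254498440023) (nat_lit 168) (nat_lit 2940455121218) (nat_lit 84) (nat_lit 463023469700) (nat_lit 46) (nat_lit 5) (nat_lit 48) (nat_lit 5) (nat_lit 47) (nat_lit 5) (nat_lit 461) (nat_lit 431) (nat_lit 188)) (XT.nd (nat_lit 94) (nat_lit 84) (nat_lit 0) (XT.lf (nat_lit 0) (nat_lit 766718113705) (nat_lit 168) (nat_lit 1159344388958) (nat_lit 252) (nat_lit 1915447668578) (nat_lit 44) (nat_lit 5) (nat_lit 46) (nat_lit 5) (nat_lit 47) (nat_lit 5) (nat_lit 462) (nat_lit 431) (nat_lit 187)) (XT.lf (nat_lit 0) (nat_lit 848393723220) (nat_lit 84) (nat_lit 2964487759298)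 (nat_lit 168) (nat_lit 222767990637) (nat_lit 43) (nat_lit 5) (nat_lit 44) (nat_lit 5) (nat_lit 45) (nat_lit 4) (nat_lit 463) (nat_lit 431) (nat_lit 186)))) (XT.nd (nat_lit 188) (nat_lit 336) (nat_lit 0) (XT.nd (nat_lit 94) (nat_lit 84) (nat_lit 0) (XT.lf (nat_lit 0) (nat_lit 937094857454) (nat_lit 168) (nat_lit 705469024730) (nat_lit 252) (nat_lit 2597071941096) (nat_lit 40) (nat_lit 5) (nat_lit 42) (nat_lit 5) (nat_lit 43) (nat_lit 5) (nat_lit 464) (nat_lit 431) (nat_lit 185)) (XT.lf (nat_lit 0) (nat_lit 1049904529100) (nat_lit 84) (nat_lit 2699416296885) (nat_lit 168) (nat_lit 705437497397) (nat_lit 39) (nat_lit 5) (nat_lit 40) (nat_lit 5) (nat_lit 41) (nat_lit 4) (nat_lit 465) (nat_lit 431) (nat_lit 184))) (XT.nd (nat_lit 94) (nat_lit 84) (nat_lit 0) (XT.lf (nat_lit 0) (nat_lit 1188585125678) (nat_lit 168) (nat_lit 195057192769) (nat_lit 252) (nat_lit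 3297957984447) (nat_lit 36) (nat_lit 5) (nat_lit 38) (nat_lit 5) (nat_lit 39) (nat_lit 5) (nat_lit 466) (nat_lit 431) (nat_lit 183)) (XT.lf (nat_lit 0) (nat_lit 1338243465809) (nat_lit 84) (nat_lit 2397579441751) (nat_lit 168) (nat_lit 1184154031670) (nat_lit 35) (nat_lit 5) (nat_lit 36) (nat_lit 5) (nat_lit 37) (nat_lit 4) (nat_lit 467) (nat_lit 431) (nat_lit 182))))))) (XT.nd (nat_lit 1316) (nat_lit 1008) (nat_lit 0) (XT.nd (nat_lit 658) (nat_lit 840) (nat_lit 0) (XT.nd (nat_lit 282) (nat_lit 504) (nat_lit 0) (XT.nd (nat_lit 94) (nat_lit 336) (nat_lit 0) (XT.lf (nat_lit 0) (nat_lit 1158623870522) (nat_lit 252) (nat_lit 3644052967256) (nat_lit 84) (nat_lit 369137305518) (nat_lit 32) (nat_lit 5) (nat_lit 35) (nat_lit 5) (nat_lit 33) (nat_lit 4) (nat_lit 468) (nat_lit 431) (nat_lit 181)) (XT.nd (nat_lit 94) (nat_lit 252) (nat_lit 0) (XT.lf (nat_lit 0) (nat_lit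 1727099790095) (nat_lit 84) (nat_lit 2051598597166) (nat_lit 168) (nat_lit 1657561249798) (nat_lit 31) (nat_lit 5) (nat_lit 32) (nat_lit 5) (nat_lit 33) (nat_lit 4) (nat_lit 469) (nat_lit 431) (nat_lit 180)) (XT.lf (nat_lit 0) (nat_lit 969852454781) (nat_lit 252) (nat_lit 3744404282565) (nat_lit 84) (nat_lit 1001326557620) (nat_lit 28) (nat_lit 5) (nat_lit 31) (nat_lit 5) (nat_lit 29) (nat_lit 4) (nat_lit 470) (nat_lit 431) (nat_lit 179)))) (XT.nd (nat_lit 188) (nat_lit 252) (nat_lit 0) (XT.nd (nat_lit 94) (nat_lit 168) (nat_lit 0) (XT.lf (nat_lit 0) (nat_lit 2232218101257) (nat_lit 84) (nat_lit 1653059907390) (nat_lit 168) (nat_lit 2123821598855) (nat_lit 27) (nat_lit 5) (nat_lit 28) (nat_lit 5) (nat_lit 29) (nat_lit 4) (nat_lit 471) (nat_lit 431) (nat_lit 178)) (XT.lf (nat_lit 0) (nat_lit 819305466028) (nat_lit 168) (nat_lit 3780044573647) (nat_lit 84) (nat_lit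 1719488596912) (nat_lit 25) (nat_lit 5) (nat_lit 27) (nat_lit 5) (nat_lit 26) (nat_lit 4) (nat_lit 472) (nat_lit 431) (nat_lit 177))) (XT.nd (nat_lit 94) (nat_lit 168) (nat_lit 0) (XT.lf (nat_lit 0) (nat_lit 2871675539913) (nat_lit 84) (nat_lit 1192371445564) (nat_lit 168) (nat_lit 2580540332512) (nat_lit 24) (nat_lit 5) (nat_lit 25) (nat_lit 5) (nat_lit 26) (nat_lit 4) (nat_lit 473) (nat_lit 431) (nat_lit 176)) (XT.lf (nat_lit 0) (nat_lit 712918320864) (nat_lit 168) (nat_lit 3738156281778) (nat_lit 84) (nat_lit 2536912133913) (nat_lit 22) (nat_lit 5) (nat_lit 24) (nat_lit 5) (nat_lit 23) (nat_lit 4) (nat_lit 474) (nat_lit 431) (nat_lit 175))))) (XT.nd (nat_lit 282) (nat_lit 504) (nat_lit 0) (XT.nd (nat_lit 94) (nat_lit 252) (nat_lit 0) (XT.lf (nat_lit 0) (nat_lit 3666195049519) (nat_lit 84) (nat_lit 658601970060) (nat_lit 168) (nat_lit 3024678246232) (nat_lit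 21) (nat_lit 5) (nat_lit 22) (nat_lit 5) (nat_lit 23) (nat_lit 4) (nat_lit 475) (nat_lit 431) (nat_lit 174)) (XT.nd (nat_lit 94) (nat_lit 84) (nat_lit 0) (XT.lf (nat_lit 0) (nat_lit 657666318816) (nat_lit 168) (nat_lit 3603821038437) (nat_lit 84) (nat_lit 3468642829777) (nat_lit 19) (nat_lit 5) (nat_lit 21) (nat_lit 5) (nat_lit 20) (nat_lit 4) (nat_lit 476) (nat_lit 431) (nat_lit 173)) (XT.lf (nat_lit 0) (nat_lit 4639499231983) (nat_lit 84) (nat_lit 39298926488) (nat_lit 168) (nat_lit 3452451613942) (nat_lit 18) (nat_lit 5) (nat_lit 19) (nat_lit 5) (nat_lit 20) (nat_lit 4) (nat_lit 477) (nat_lit 431) (nat_lit 172)))) (XT.nd (nat_lit 188) (nat_lit 252) (nat_lit 0) (XT.nd (nat_lit 94) (nat_lit 84) (nat_lit 0) (XT.lf (nat_lit 0) (nat_lit 661709167494) (nat_lit 168) (nat_lit 3359721914914) (nat_lit 84) (nat_lit 4531711984829) (nat_lit 16) (nat_lit 5) (nat_lit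 18) (nat_lit 5) (nat_lit 17) (nat_lit 4) (nat_lit 478) (nat_lit 431) (nat_lit 171)) (XT.lf (nat_lit 0) (nat_lit 5149605259300) (nat_lit 168) (nat_lit 3190112984305) (nat_lit 0) (nat_lit 657961726927) (nat_lit 15) (nat_lit 5) (nat_lit 17) (nat_lit 4) (nat_lit 15) (nat_lit 4) (nat_lit 479) (nat_lit 431) (nat_lit 170))) (XT.nd (nat_lit 94) (nat_lit 84) (nat_lit 0) (XT.lf (nat_lit 0) (nat_lit 734554998518) (nat_lit 168) (nat_lit 2985805786038) (nat_lit 84) (nat_lit 5745393825531) (nat_lit 13) (nat_lit 5) (nat_lit 15) (nat_lit 5) (nat_lit 14) (nat_lit 4) (nat_lit 480) (nat_lit 431) (nat_lit 169)) (XT.lf (nat_lit 0) (nat_lit 5743862730196) (nat_lit 168) (nat_lit 2748407075169) (nat_lit 0) (nat_lit 1466106983926) (nat_lit 12) (nat_lit 5) (nat_lit 14) (nat_lit 4) (nat_lit 12) (nat_lit 4) (nat_lit 481) (nat_lit 431) (nat_lit 168)))))) (XT.nd (nat_lit 658) (nat_lit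 0) (nat_lit 0) (XT.nd (nat_lit 282) (nat_lit 588) (nat_lit 0) (XT.nd (nat_lit 94) (nat_lit 252) (nat_lit 0) (XT.lf (nat_lit 0) (nat_lit 887246368036) (nat_lit 168) (nat_lit 2458900692308) (nat_lit 84) (nat_lit 7131494903971) (nat_lit 10) (nat_lit 5) (nat_lit 12) (nat_lit 5) (nat_lit 11) (nat_lit 4) (nat_lit 482) (nat_lit 431) (nat_lit 167)) (XT.nd (nat_lit 94) (nat_lit 168) (nat_lit 0) (XT.lf (nat_lit 0) (nat_lit 6478217315274) (nat_lit 168) (nat_lit 2141176009256) (nat_lit 0) (nat_lit 2404164222647) (nat_lit 9) (nat_lit 5) (nat_lit 11) (nat_lit 4) (nat_lit 9) (nat_lit 4) (nat_lit 483) (nat_lit 431) (nat_lit 166)) (XT.lf (nat_lit 0) (nat_lit 1132571047354) (nat_lit 168) (nat_lit 1752282445969) (nat_lit 84) (nat_lit 8714679548198) (nat_lit 7) (nat_lit 5) (nat_lit 9) (nat_lit 5) (nat_lit 8) (nat_lit 4) (nat_lit 484) (nat_lit 431) (nat_lit 165)))) (XT.nd (nat_lit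 188) (nat_lit 336) (nat_lit 0) (XT.nd (nat_lit 94) (nat_lit 168) (nat_lit 0) (XT.lf (nat_lit 0) (nat_lit 7372387163896) (nat_lit 168) (nat_lit 1339791198311) (nat_lit 0) (nat_lit 3492336598720) (nat_lit 6) (nat_lit 5) (nat_lit 8) (nat_lit 4) (nat_lit 6) (nat_lit 4) (nat_lit 485) (nat_lit 431) (nat_lit 164)) (XT.lf (nat_lit 0) (nat_lit 1485300758947) (nat_lit 168) (nat_lit 835184009675) (nat_lit 84) (nat_lit 10522835776642) (nat_lit 4) (nat_lit 5) (nat_lit 6) (nat_lit 5) (nat_lit 5) (nat_lit 4) (nat_lit 486) (nat_lit 431) (nat_lit 163))) (XT.nd (nat_lit 94) (nat_lit 252) (nat_lit 0) (XT.lf (nat_lit 0) (nat_lit 8448868392205) (nat_lit 168) (nat_lit 311317333997) (nat_lit 0) (nat_lit 4753582139029) (nat_lit 3) (nat_lit 5) (nat_lit 5) (nat_lit 4) (nat_lit 3) (nat_lit 4) (nat_lit 487) (nat_lit 431) (nat_lit 162)) (XT.lf (nat_lit 0) (nat_lit 20630520321523) (nat_lit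 0) (nat_lit 0) (nat_lit 0) (nat_lit 0) (nat_lit 0) (nat_lit 0) (nat_lit 1) (nat_lit 0) (nat_lit 1) (nat_lit 0) (nat_lit 488) (nat_lit 431) (nat_lit 161))))) (XT.nd (nat_lit 376) (nat_lit 0) (nat_lit 0) (XT.nd (nat_lit 188) (nat_lit 0) (nat_lit 0) (XT.nd (nat_lit 94) (nat_lit 0) (nat_lit 0) (XT.lf (nat_lit 0) (nat_lit 22260681548144) (nat_lit 0) (nat_lit 0) (nat_lit 0) (nat_lit 0) (nat_lit 0) (nat_lit 0) (nat_lit 1) (nat_lit 0) (nat_lit 1) (nat_lit 0) (nat_lit 489) (nat_lit 431) (nat_lit 160)) (XT.lf (nat_lit 0) (nat_lit 24021255672899) (nat_lit 0) (nat_lit 0) (nat_lit 0) (nat_lit 0) (nat_lit 0) (nat_lit 0) (nat_lit 1) (nat_lit 0) (nat_lit 1) (nat_lit 0) (nat_lit 490) (nat_lit 431) (nat_lit 159))) (XT.nd (nat_lit 94) (nat_lit 0) (nat_lit 0) (XT.lf (nat_lit 0) (nat_lit 25922675727636) (nat_lit 0) (nat_lit 0) (nat_lit 0) (nat_lit 0) (nat_lit 0) (nat_lit 0) (nat_lit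 1) (nat_lit 0) (nat_lit 1) (nat_lit 0) (nat_lit 491) (nat_lit 431) (nat_lit 158)) (XT.lf (nat_lit 0) (nat_lit 27976209386754) (nat_lit 0) (nat_lit 0) (nat_lit 0) (nat_lit 0) (nat_lit 0) (nat_lit 0) (nat_lit 1) (nat_lit 0) (nat_lit 1) (nat_lit 0) (nat_lit 492) (nat_lit 431) (nat_lit 157)))) (XT.nd (nat_lit 188) (nat_lit 0) (nat_lit 0) (XT.nd (nat_lit 94) (nat_lit 0) (nat_lit 0) (XT.lf (nat_lit 0) (nat_lit 30194025738604) (nat_lit 0) (nat_lit 0) (nat_lit 0) (nat_lit 0) (nat_lit 0) (nat_lit 0) (nat_lit 1) (nat_lit 0) (nat_lit 1) (nat_lit 0) (nat_lit 493) (nat_lit 431) (nat_lit 156)) (XT.lf (nat_lit 0) (nat_lit 32589267398604) (nat_lit 0) (nat_lit 0) (nat_lit 0) (nat_lit 0) (nat_lit 0) (nat_lit 0) (nat_lit 1) (nat_lit 0) (nat_lit 1) (nat_lit 0) (nat_lit 494) (nat_lit 431) (nat_lit 155))) (XT.nd (nat_lit 94) (nat_lit 0) (nat_lit 0) (XT.lf (nat_lit 0) (nat_lit 35176128391406)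 (nat_lit 0) (nat_lit 0) (nat_lit 0) (nat_lit 0) (nat_lit 0) (nat_lit 0) (nat_lit 1) (nat_lit 0) (nat_lit 1) (nat_lit 0) (nat_lit 495) (nat_lit 431) (nat_lit 154)) (XT.lf (nat_lit 0) (nat_lit 37969938263634) (nat_lit 0) (nat_lit 0) (nat_lit 0) (nat_lit 0) (nat_lit 0) (nat_lit 0) (nat_lit 1) (nat_lit 0) (nat_lit 1) (nat_lit 0) (nat_lit 496) (nat_lit 431) (nat_lit 153))))))))
noncomputable def xc223 : XT := (XT.nd (nat_lit 64108) (nat_lit 0) (nat_lit 504) (XT.nd (nat_lit 62792) (nat_lit 0) (nat_lit 4788) (XT.nd (nat_lit 62134) (nat_lit 0) (nat_lit 8568) (XT.nd (nat_lit 61758) (nat_lit 0) (nat_lit 10836) (XT.nd (nat_lit 94) (nat_lit 0) (nat_lit 0) (XT.lf (nat_lit 0) (nat_lit 40987252925642) (nat_lit 0) (nat_lit 0) (nat_lit 0) (nat_lit 0) (nat_lit 0) (nat_lit 0) (nat_lit 1) (nat_lit 0) (nat_lit 1) (nat_lit 0) (nat_lit 497) (nat_lit 431) (nat_lit 152)) (XT.nd (nat_lit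 61570) (nat_lit 0) (nat_lit 10752) (XT.lf (nat_lit 0) (nat_lit 44245952760612) (nat_lit 0) (nat_lit 0) (nat_lit 0) (nat_lit 0) (nat_lit 0) (nat_lit 0) (nat_lit 1) (nat_lit 0) (nat_lit 1) (nat_lit 0) (nat_lit 498) (nat_lit 431) (nat_lit 151)) (XT.lf (nat_lit 0) (nat_lit 243264898785) (nat_lit 924) (nat_lit 137012680863) (nat_lit 924) (nat_lit 137012680863) (nat_lit 128) (nat_lit 3) (nat_lit 139) (nat_lit 3) (nat_lit 139) (nat_lit 5) (nat_lit 432) (nat_lit 432) (nat_lit 216)))) (XT.nd (nat_lit 188) (nat_lit 0) (nat_lit 84) (XT.nd (nat_lit 94) (nat_lit 0) (nat_lit 0) (XT.lf (nat_lit 0) (nat_lit 515811052489) (nat_lit 840) (nat_lit 504462698671) (nat_lit 924) (nat_lit 55198987555) (nat_lit 129) (nat_lit 5) (nat_lit 139) (nat_lit 5) (nat_lit 140) (nat_lit 5) (nat_lit 433) (nat_lit 432) (nat_lit 215)) (XT.lf (nat_lit 84) (nat_lit 373074057877) (nat_lit 0) (nat_lit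 197861417889) (nat_lit 924) (nat_lit 547525824656) (nat_lit 130) (nat_lit 5) (nat_lit 129) (nat_lit 5) (nat_lit 140) (nat_lit 5) (nat_lit 434) (nat_lit 432) (nat_lit 214))) (XT.nd (nat_lit 94) (nat_lit 0) (nat_lit 84) (XT.lf (nat_lit 84) (nat_lit 168860711269) (nat_lit 0) (nat_lit 483955195495) (nat_lit 924) (nat_lit 510955737609) (nat_lit 131) (nat_lit 5) (nat_lit 130) (nat_lit 5) (nat_lit 141) (nat_lit 5) (nat_lit 435) (nat_lit 432) (nat_lit 213)) (XT.lf (nat_lit 0) (nat_lit 764100557381) (nat_lit 840) (nat_lit 39061202818) (nat_lit 924) (nat_lit 408402366384) (nat_lit 131) (nat_lit 5) (nat_lit 141) (nat_lit 5) (nat_lit 142) (nat_lit 5) (nat_lit 436) (nat_lit 432) (nat_lit 212))))) (XT.nd (nat_lit 282) (nat_lit 1764) (nat_lit 0) (XT.nd (nat_lit 94) (nat_lit 756) (nat_lit 0) (XT.lf (nat_lit 0) (nat_lit 910043949655) (nat_lit 840) (nat_lit 246016659719) (nat_lit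 924) (nat_lit 105831599515) (nat_lit 132) (nat_lit 5) (nat_lit 142) (nat_lit 5) (nat_lit 143) (nat_lit 5) (nat_lit 437) (nat_lit 432) (nat_lit 211)) (XT.nd (nat_lit 94) (nat_lit 756) (nat_lit 0) (XT.lf (nat_lit 84) (nat_lit 854174573660) (nat_lit 0) (nat_lit 241058641284) (nat_lit 924) (nat_lit 219634802755) (nat_lit 133) (nat_lit 5) (nat_lit 132) (nat_lit 5) (nat_lit 143) (nat_lit 5) (nat_lit 438) (nat_lit 432) (nat_lit 210)) (XT.lf (nat_lit 0) (nat_lit 689636060564) (nat_lit 840) (nat_lit 632389414320) (nat_lit 924) (nat_lit 48717023658) (nat_lit 123) (nat_lit 5) (nat_lit 133) (nat_lit 5) (nat_lit 134) (nat_lit 5) (nat_lit 439) (nat_lit 432) (nat_lit 209)))) (XT.nd (nat_lit 188) (nat_lit 756) (nat_lit 0) (XT.nd (nat_lit 94) (nat_lit 420) (nat_lit 0) (XT.lf (nat_lit 0) (nat_lit 157871559282) (nat_lit 588) (nat_lit 907482975763) (nat_lit 84) (nat_lit 364309023783)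 (nat_lit 116) (nat_lit 5) (nat_lit 123) (nat_lit 5) (nat_lit 117) (nat_lit 5) (nat_lit 440) (nat_lit 432) (nat_lit 208)) (XT.lf (nat_lit 0) (nat_lit 352965470595) (nat_lit 420) (nat_lit 54570717942) (nat_lit 504) (nat_lit 1084309395070) (nat_lit 111) (nat_lit 5) (nat_lit 116) (nat_lit 5) (nat_lit 117) (nat_lit 5) (nat_lit 441) (nat_lit 432) (nat_lit 207))) (XT.nd (nat_lit 94) (nat_lit 336) (nat_lit 0) (XT.lf (nat_lit 0) (nat_lit 177679995120) (nat_lit 420) (nat_lit 534526641505) (nat_lit 504) (nat_lit 845043901320) (nat_lit 106) (nat_lit 5) (nat_lit 111) (nat_lit 5) (nat_lit 112) (nat_lit 5) (nat_lit 442) (nat_lit 432) (nat_lit 206)) (XT.lf (nat_lit 0) (nat_lit 3532636890) (nat_lit 336) (nat_lit 1067530205760) (nat_lit 420) (nat_lit 555334439875) (nat_lit 102) (nat_lit 5) (nat_lit 106) (nat_lit 5) (nat_lit 107) (nat_lit 5) (nat_lit 443) (nat_lit 432) (nat_lit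 205)))))) (XT.nd (nat_lit 658) (nat_lit 1764) (nat_lit 0) (XT.nd (nat_lit 282) (nat_lit 1260) (nat_lit 0) (XT.nd (nat_lit 94) (nat_lit 756) (nat_lit 0) (XT.lf (nat_lit 0) (nat_lit 1492240160824) (nat_lit 420) (nat_lit 162907512932) (nat_lit 84) (nat_lit 44247462132) (nat_lit 102) (nat_lit 5) (nat_lit 107) (nat_lit 5) (nat_lit 103) (nat_lit 5) (nat_lit 444) (nat_lit 432) (nat_lit 204)) (XT.nd (nat_lit 94) (nat_lit 336) (nat_lit 0) (XT.lf (nat_lit 0) (nat_lit 204651980104) (nat_lit 420) (nat_lit 337509311230) (nat_lit 84) (nat_lit 1233880777035) (nat_lit 97) (nat_lit 5) (nat_lit 102) (nat_lit 5) (nat_lit 98) (nat_lit 5) (nat_lit 445) (nat_lit 432) (nat_lit 203)) (XT.lf (nat_lit 0) (nat_lit 677037019251) (nat_lit 420) (nat_lit 513140253718) (nat_lit 84) (nat_lit 666729121879) (nat_lit 93) (nat_lit 5) (nat_lit 98) (nat_lit 5) (nat_lit 94) (nat_lit 5) (nat_lit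 446) (nat_lit 432) (nat_lit 202)))) (XT.nd (nat_lit 188) (nat_lit 672) (nat_lit 0) (XT.nd (nat_lit 94) (nat_lit 252) (nat_lit 0) (XT.lf (nat_lit 0) (nat_lit 1222555305349) (nat_lit 420) (nat_lit 684376592980) (nat_lit 84) (nat_lit 35540846926) (nat_lit 89) (nat_lit 5) (nat_lit 94) (nat_lit 5) (nat_lit 90) (nat_lit 5) (nat_lit 447) (nat_lit 432) (nat_lit 201)) (XT.lf (nat_lit 0) (nat_lit 1172221370956) (nat_lit 252) (nat_lit 686949009194) (nat_lit 336) (nat_lit 173341257253) (nat_lit 86) (nat_lit 5) (nat_lit 89) (nat_lit 5) (nat_lit 90) (nat_lit 5) (nat_lit 448) (nat_lit 432) (nat_lit 200))) (XT.nd (nat_lit 94) (nat_lit 252) (nat_lit 0) (XT.lf (nat_lit 0) (nat_lit 443357937812) (nat_lit 420) (nat_lit 1037228494391) (nat_lit 84) (nat_lit 646854598496) (nat_lit 81) (nat_lit 5) (nat_lit 86) (nat_lit 5) (nat_lit 82) (nat_lit 5) (nat_lit 449) (nat_lit 432) (nat_lit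 199)) (XT.lf (nat_lit 0) (nat_lit 1016028273017) (nat_lit 252) (nat_lit 130050581388) (nat_lit 336) (nat_lit 1081605897097) (nat_lit 78) (nat_lit 5) (nat_lit 81) (nat_lit 5) (nat_lit 82) (nat_lit 5) (nat_lit 450) (nat_lit 432) (nat_lit 198))))) (XT.nd (nat_lit 282) (nat_lit 924) (nat_lit 0) (XT.nd (nat_lit 94) (nat_lit 588) (nat_lit 0) (XT.lf (nat_lit 0) (nat_lit 944739413857) (nat_lit 252) (nat_lit 1014134149779) (nat_lit 336) (nat_lit 374381600369) (nat_lit 75) (nat_lit 5) (nat_lit 78) (nat_lit 5) (nat_lit 79) (nat_lit 5) (nat_lit 451) (nat_lit 432) (nat_lit 197)) (XT.nd (nat_lit 94) (nat_lit 252) (nat_lit 0) (XT.lf (nat_lit 0) (nat_lit 421939341621) (nat_lit 336) (nat_lit 1561938280913) (nat_lit 84) (nat_lit 460840459896) (nat_lit 71) (nat_lit 5) (nat_lit 75) (nat_lit 5) (nat_lit 72) (nat_lit 5) (nat_lit 452) (nat_lit 432) (nat_lit 196)) (XT.lf (nat_lit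 0) (nat_lit 824038724555) (nat_lit 252) (nat_lit 499535343694) (nat_lit 336) (nat_lit 1238480865073) (nat_lit 68) (nat_lit 5) (nat_lit 71) (nat_lit 5) (nat_lit 72) (nat_lit 5) (nat_lit 453) (nat_lit 432) (nat_lit 195)))) (XT.nd (nat_lit 188) (nat_lit 420) (nat_lit 0) (XT.nd (nat_lit 94) (nat_lit 336) (nat_lit 0) (XT.lf (nat_lit 0) (nat_lit 776426760964) (nat_lit 168) (nat_lit 1577918571504) (nat_lit 252) (nat_lit 331583111845) (nat_lit 66) (nat_lit 5) (nat_lit 68) (nat_lit 5) (nat_lit 69) (nat_lit 5) (nat_lit 454) (nat_lit 432) (nat_lit 194)) (XT.lf (nat_lit 0) (nat_lit 678865885673) (nat_lit 336) (nat_lit 2077087534358) (nat_lit 84) (nat_lit 60665905754) (nat_lit 62) (nat_lit 5) (nat_lit 66) (nat_lit 5) (nat_lit 63) (nat_lit 5) (nat_lit 455) (nat_lit 432) (nat_lit 193))) (XT.nd (nat_lit 94) (nat_lit 252) (nat_lit 0) (XT.lf (nat_lit 0) (nat_lit 702308555258)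 (nat_lit 168) (nat_lit 1127759661177) (nat_lit 252) (nat_lit 1123848748382) (nat_lit 60) (nat_lit 5) (nat_lit 62) (nat_lit 5) (nat_lit 63) (nat_lit 5) (nat_lit 456) (nat_lit 432) (nat_lit 192)) (XT.lf (nat_lit 0) (nat_lit 30417862856) (nat_lit 252) (nat_lit 2410353353363) (nat_lit 84) (nat_lit 658533368403) (nat_lit 57) (nat_lit 5) (nat_lit 60) (nat_lit 5) (nat_lit 58) (nat_lit 5) (nat_lit 457) (nat_lit 432) (nat_lit 191))))))) (XT.nd (nat_lit 1316) (nat_lit 1848) (nat_lit 0) (XT.nd (nat_lit 658) (nat_lit 1260) (nat_lit 0) (XT.nd (nat_lit 282) (nat_lit 588) (nat_lit 0) (XT.nd (nat_lit 94) (nat_lit 420) (nat_lit 0) (XT.lf (nat_lit 0) (nat_lit 673752803321) (nat_lit 168) (nat_lit 633825004001) (nat_lit 252) (nat_lit 1944327909693) (nat_lit 55) (nat_lit 5) (nat_lit 57) (nat_lit 5) (nat_lit 58) (nat_lit 5) (nat_lit 458) (nat_lit 432) (nat_lit 190)) (XT.nd (nat_lit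 94) (nat_lit 252) (nat_lit 0) (XT.lf (nat_lit 0) (nat_lit 676433962733) (nat_lit 168) (nat_lit 2084285349789) (nat_lit 252) (nat_lit 652305189219) (nat_lit 53) (nat_lit 5) (nat_lit 55) (nat_lit 5) (nat_lit 56) (nat_lit 5) (nat_lit 459) (nat_lit 432) (nat_lit 189)) (XT.lf (nat_lit 0) (nat_lit 697979987254) (nat_lit 168) (nat_lit 88547036497) (nat_lit 252) (nat_lit 2796564145204) (nat_lit 50) (nat_lit 5) (nat_lit 52) (nat_lit 5) (nat_lit 53) (nat_lit 5) (nat_lit 460) (nat_lit 432) (nat_lit 188)))) (XT.nd (nat_lit 188) (nat_lit 252) (nat_lit 0) (XT.nd (nat_lit 94) (nat_lit 168) (nat_lit 0) (XT.lf (nat_lit 0) (nat_lit 719642428645) (nat_lit 168) (nat_lit 1690231388281) (nat_lit 252) (nat_lit 1351741596261) (nat_lit 48) (nat_lit 5) (nat_lit 50) (nat_lit 5) (nat_lit 51) (nat_lit 5) (nat_lit 461) (nat_lit 432) (nat_lit 187)) (XT.lf (nat_lit 0) (nat_lit 274858361211)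 (nat_lit 168) (nat_lit 3175691448946) (nat_lit 84) (nat_lit 500065380960) (nat_lit 46) (nat_lit 5) (nat_lit 48) (nat_lit 5) (nat_lit 47) (nat_lit 5) (nat_lit 462) (nat_lit 432) (nat_lit 186))) (XT.nd (nat_lit 94) (nat_lit 84) (nat_lit 0) (XT.lf (nat_lit 0) (nat_lit 828055641208) (nat_lit 168) (nat_lit 1252091905472) (nat_lit 252) (nat_lit 2068683436070) (nat_lit 44) (nat_lit 5) (nat_lit 46) (nat_lit 5) (nat_lit 47) (nat_lit 5) (nat_lit 463) (nat_lit 432) (nat_lit 185)) (XT.lf (nat_lit 0) (nat_lit 916265297655) (nat_lit 84) (nat_lit 3201646745719) (nat_lit 168) (nat_lit 240589385520) (nat_lit 43) (nat_lit 5) (nat_lit 44) (nat_lit 5) (nat_lit 45) (nat_lit 4) (nat_lit 464) (nat_lit 432) (nat_lit 184))))) (XT.nd (nat_lit 282) (nat_lit 672) (nat_lit 0) (XT.nd (nat_lit 94) (nat_lit 336) (nat_lit 0) (XT.lf (nat_lit 0) (nat_lit 1012062520658) (nat_lit 168) (nat_lit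 761906513031) (nat_lit 252) (nat_lit 2804837653406) (nat_lit 40) (nat_lit 5) (nat_lit 42) (nat_lit 5) (nat_lit 43) (nat_lit 5) (nat_lit 465) (nat_lit 432) (nat_lit 183)) (XT.nd (nat_lit 94) (nat_lit 252) (nat_lit 0) (XT.lf (nat_lit 0) (nat_lit 1133896964248) (nat_lit 84) (nat_lit 2915369567338) (nat_lit 168) (nat_lit 761872455690) (nat_lit 39) (nat_lit 5) (nat_lit 40) (nat_lit 5) (nat_lit 41) (nat_lit 4) (nat_lit 466) (nat_lit 432) (nat_lit 182)) (XT.lf (nat_lit 0) (nat_lit 1283672006658) (nat_lit 168) (nat_lit 210661735567) (nat_lit 252) (nat_lit 3561794582985) (nat_lit 36) (nat_lit 5) (nat_lit 38) (nat_lit 5) (nat_lit 39) (nat_lit 5) (nat_lit 467) (nat_lit 432) (nat_lit 181)))) (XT.nd (nat_lit 188) (nat_lit 336) (nat_lit 0) (XT.nd (nat_lit 94) (nat_lit 252) (nat_lit 0) (XT.lf (nat_lit 0) (nat_lit 1445303012262) (nat_lit 84) (nat_lit 2589385764920) (nat_lit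 168) (nat_lit 1278886315336) (nat_lit 35) (nat_lit 5) (nat_lit 36) (nat_lit 5) (nat_lit 37) (nat_lit 4) (nat_lit 468) (nat_lit 432) (nat_lit 180)) (XT.lf (nat_lit 0) (nat_lit 1251313816544) (nat_lit 252) (nat_lit 3935577135963) (nat_lit 84) (nat_lit 398668320435) (nat_lit 32) (nat_lit 5) (nat_lit 35) (nat_lit 5) (nat_lit 33) (nat_lit 4) (nat_lit 469) (nat_lit 432) (nat_lit 179))) (XT.nd (nat_lit 94) (nat_lit 252) (nat_lit 0) (XT.lf (nat_lit 0) (nat_lit 1865267838993) (nat_lit 84) (nat_lit 2215726453960) (nat_lit 168) (nat_lit 1790166113335) (nat_lit 31) (nat_lit 5) (nat_lit 32) (nat_lit 5) (nat_lit 33) (nat_lit 4) (nat_lit 470) (nat_lit 432) (nat_lit 178)) (XT.lf (nat_lit 0) (nat_lit 1047440685302) (nat_lit 252) (nat_lit 4043956560009) (nat_lit 84) (nat_lit 1081432711546) (nat_lit 28) (nat_lit 5) (nat_lit 31) (nat_lit 5) (nat_lit 29) (nat_lit 4) (nat_lit 471)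 (nat_lit 432) (nat_lit 177)))))) (XT.nd (nat_lit 658) (nat_lit 1008) (nat_lit 0) (XT.nd (nat_lit 282) (nat_lit 504) (nat_lit 0) (XT.nd (nat_lit 94) (nat_lit 252) (nat_lit 0) (XT.lf (nat_lit 0) (nat_lit 2410795611686) (nat_lit 84) (nat_lit 1785304670235) (nat_lit 168) (nat_lit 2293727292552) (nat_lit 27) (nat_lit 5) (nat_lit 28) (nat_lit 5) (nat_lit 29) (nat_lit 4) (nat_lit 472) (nat_lit 432) (nat_lit 176)) (XT.nd (nat_lit 94) (nat_lit 84) (nat_lit 0) (XT.lf (nat_lit 0) (nat_lit 884849935375) (nat_lit 168) (nat_lit 4082448077744) (nat_lit 84) (nat_lit 1857047712792) (nat_lit 25) (nat_lit 5) (nat_lit 27) (nat_lit 5) (nat_lit 26) (nat_lit 4) (nat_lit 473) (nat_lit 432) (nat_lit 175)) (XT.lf (nat_lit 0) (nat_lit 3101409642216) (nat_lit 84) (nat_lit 1287761132711) (nat_lit 168) (nat_lit 2786983526970) (nat_lit 24) (nat_lit 5) (nat_lit 25) (nat_lit 5) (nat_lit 26)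 (nat_lit 4) (nat_lit 474) (nat_lit 432) (nat_lit 174)))) (XT.nd (nat_lit 188) (nat_lit 252) (nat_lit 0) (XT.nd (nat_lit 94) (nat_lit 84) (nat_lit 0) (XT.lf (nat_lit 0) (nat_lit 769951816675) (nat_lit 168) (nat_lit 4037208725744) (nat_lit 84) (nat_lit 2739865131553) (nat_lit 22) (nat_lit 5) (nat_lit 24) (nat_lit 5) (nat_lit 23) (nat_lit 4) (nat_lit 475) (nat_lit 432) (nat_lit 173)) (XT.lf (nat_lit 0) (nat_lit 3959490709511) (nat_lit 84) (nat_lit 711290100419) (nat_lit 168) (nat_lit 3266652475708) (nat_lit 21) (nat_lit 5) (nat_lit 22) (nat_lit 5) (nat_lit 23) (nat_lit 4) (nat_lit 476) (nat_lit 432) (nat_lit 172))) (XT.nd (nat_lit 94) (nat_lit 84) (nat_lit 0) (XT.lf (nat_lit 0) (nat_lit 710279652676) (nat_lit 168) (nat_lit 3892126666009) (nat_lit 84) (nat_lit 3746134281890) (nat_lit 19) (nat_lit 5) (nat_lit 21) (nat_lit 5) (nat_lit 20) (nat_lit 4) (nat_lit 477)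 (nat_lit 432) (nat_lit 171)) (XT.lf (nat_lit 0) (nat_lit 5010659223632) (nat_lit 84) (nat_lit 42442814600) (nat_lit 168) (nat_lit 3728647714620) (nat_lit 18) (nat_lit 5) (nat_lit 19) (nat_lit 5) (nat_lit 20) (nat_lit 4) (nat_lit 478) (nat_lit 432) (nat_lit 170))))) (XT.nd (nat_lit 376) (nat_lit 504) (nat_lit 0) (XT.nd (nat_lit 188) (nat_lit 252) (nat_lit 0) (XT.nd (nat_lit 94) (nat_lit 84) (nat_lit 0) (XT.lf (nat_lit 0) (nat_lit 714645927584) (nat_lit 168) (nat_lit 3628499615535) (nat_lit 84) (nat_lit 4894248968163) (nat_lit 16) (nat_lit 5) (nat_lit 18) (nat_lit 5) (nat_lit 17) (nat_lit 4) (nat_lit 479) (nat_lit 432) (nat_lit 169)) (XT.lf (nat_lit 0) (nat_lit 5561573705930) (nat_lit 168) (nat_lit 3445321971874) (nat_lit 0) (nat_lit 710598689077) (nat_lit 15) (nat_lit 5) (nat_lit 17) (nat_lit 4) (nat_lit 15) (nat_lit 4) (nat_lit 480) (nat_lit 432) (nat_lit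 168))) (XT.nd (nat_lit 94) (nat_lit 84) (nat_lit 0) (XT.lf (nat_lit 0) (nat_lit 793319423537) (nat_lit 168) (nat_lit 3224670199139) (nat_lit 84) (nat_lit 6205025354962) (nat_lit 13) (nat_lit 5) (nat_lit 15) (nat_lit 5) (nat_lit 14) (nat_lit 4) (nat_lit 481) (nat_lit 432) (nat_lit 167)) (XT.lf (nat_lit 0) (nat_lit 6203371772999) (nat_lit 168) (nat_lit 2968279592732) (nat_lit 0) (nat_lit 1583395565484) (nat_lit 12) (nat_lit 5) (nat_lit 14) (nat_lit 4) (nat_lit 12) (nat_lit 4) (nat_lit 482) (nat_lit 432) (nat_lit 166)))) (XT.nd (nat_lit 188) (nat_lit 252) (nat_lit 0) (XT.nd (nat_lit 94) (nat_lit 84) (nat_lit 0) (XT.lf (nat_lit 0) (nat_lit 958226101166) (nat_lit 168) (nat_lit 2655612700563) (nat_lit 84) (nat_lit 7702014518547) (nat_lit 10) (nat_lit 5) (nat_lit 12) (nat_lit 5) (nat_lit 11) (nat_lit 4) (nat_lit 483) (nat_lit 432) (nat_lit 165)) (XT.lf (nat_lit 0)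 (nat_lit 6996474723483) (nat_lit 168) (nat_lit 2312470044133) (nat_lit 0) (nat_lit 2596497382186) (nat_lit 9) (nat_lit 5) (nat_lit 11) (nat_lit 4) (nat_lit 9) (nat_lit 4) (nat_lit 484) (nat_lit 432) (nat_lit 164))) (XT.nd (nat_lit 94) (nat_lit 84) (nat_lit 0) (XT.lf (nat_lit 0) (nat_lit 1223176753470) (nat_lit 168) (nat_lit 1892464997041) (nat_lit 84) (nat_lit 9411853933215) (nat_lit 7) (nat_lit 5) (nat_lit 9) (nat_lit 5) (nat_lit 8) (nat_lit 4) (nat_lit 485) (nat_lit 432) (nat_lit 163)) (XT.lf (nat_lit 0) (nat_lit 7962178158681) (nat_lit 168) (nat_lit 1446974450773) (nat_lit 0) (nat_lit 3771723547263) (nat_lit 6) (nat_lit 5) (nat_lit 8) (nat_lit 4) (nat_lit 6) (nat_lit 4) (nat_lit 486) (nat_lit 432) (nat_lit 162))))))))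
noncomputable def xc224 : XT := (XT.nd (nat_lit 64296) (nat_lit 0) (nat_lit 1764) (XT.nd (nat_lit 62980) (nat_lit 0) (nat_lit 7224) (XT.nd (nat_lit 658) (nat_lit 0) (nat_lit 0) (XT.nd (nat_lit 282) (nat_lit 0) (nat_lit 0) (XT.nd (nat_lit 94) (nat_lit 336) (nat_lit 0) (XT.lf (nat_lit 0) (nat_lit 1604124840719) (nat_lit 168) (nat_lit 901998688236) (nat_lit 84) (nat_lit 11364662658877) (nat_lit 4) (nat_lit 5) (nat_lit 6) (nat_lit 5) (nat_lit 5) (nat_lit 4) (nat_lit 487) (nat_lit 432) (nat_lit 161)) (XT.nd (nat_lit 94) (nat_lit 252) (nat_lit 0) (XT.lf (nat_lit 0) (nat_lit 9124777884025) (nat_lit 168) (nat_lit 336222679647) (nat_lit 0) (nat_lit 5133868729755) (nat_lit 3) (nat_lit 5) (nat_lit 5) (nat_lit 4) (nat_lit 3) (nat_lit 4) (nat_lit 488) (nat_lit 432) (nat_lit 160)) (XT.lf (nat_lit 0) (nat_lit 22280961947191) (nat_lit 0) (nat_lit 0) (nat_lit 0) (nat_lit 0)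 (nat_lit 0) (nat_lit 0) (nat_lit 1) (nat_lit 0) (nat_lit 1) (nat_lit 0) (nat_lit 489) (nat_lit 432) (nat_lit 159)))) (XT.nd (nat_lit 188) (nat_lit 0) (nat_lit 0) (XT.nd (nat_lit 94) (nat_lit 0) (nat_lit 0) (XT.lf (nat_lit 0) (nat_lit 24041536071946) (nat_lit 0) (nat_lit 0) (nat_lit 0) (nat_lit 0) (nat_lit 0) (nat_lit 0) (nat_lit 1) (nat_lit 0) (nat_lit 1) (nat_lit 0) (nat_lit 490) (nat_lit 432) (nat_lit 158)) (XT.lf (nat_lit 0) (nat_lit 25942956126685) (nat_lit 0) (nat_lit 0) (nat_lit 0) (nat_lit 0) (nat_lit 0) (nat_lit 0) (nat_lit 1) (nat_lit 0) (nat_lit 1) (nat_lit 0) (nat_lit 491) (nat_lit 432) (nat_lit 157))) (XT.nd (nat_lit 94) (nat_lit 0) (nat_lit 0) (XT.lf (nat_lit 0) (nat_lit 27996489785804) (nat_lit 0) (nat_lit 0) (nat_lit 0) (nat_lit 0) (nat_lit 0) (nat_lit 0) (nat_lit 1) (nat_lit 0) (nat_lit 1) (nat_lit 0) (nat_lit 492) (nat_lit 432) (nat_lit 156))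 (XT.lf (nat_lit 0) (nat_lit 30214306137655) (nat_lit 0) (nat_lit 0) (nat_lit 0) (nat_lit 0) (nat_lit 0) (nat_lit 0) (nat_lit 1) (nat_lit 0) (nat_lit 1) (nat_lit 0) (nat_lit 493) (nat_lit 432) (nat_lit 155))))) (XT.nd (nat_lit 282) (nat_lit 0) (nat_lit 0) (XT.nd (nat_lit 94) (nat_lit 0) (nat_lit 0) (XT.lf (nat_lit 0) (nat_lit 32609547797656) (nat_lit 0) (nat_lit 0) (nat_lit 0) (nat_lit 0) (nat_lit 0) (nat_lit 0) (nat_lit 1) (nat_lit 0) (nat_lit 1) (nat_lit 0) (nat_lit 494) (nat_lit 432) (nat_lit 154)) (XT.nd (nat_lit 94) (nat_lit 0) (nat_lit 0) (XT.lf (nat_lit 0) (nat_lit 35196408790459) (nat_lit 0) (nat_lit 0) (nat_lit 0) (nat_lit 0) (nat_lit 0) (nat_lit 0) (nat_lit 1) (nat_lit 0) (nat_lit 1) (nat_lit 0) (nat_lit 495) (nat_lit 432) (nat_lit 153)) (XT.lf (nat_lit 0) (nat_lit 37990218662688) (nat_lit 0) (nat_lit 0) (nat_lit 0) (nat_lit 0) (nat_lit 0) (nat_lit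 0) (nat_lit 1) (nat_lit 0) (nat_lit 1) (nat_lit 0) (nat_lit 496) (nat_lit 432) (nat_lit 152)))) (XT.nd (nat_lit 61852) (nat_lit 0) (nat_lit 10836) (XT.nd (nat_lit 61758) (nat_lit 0) (nat_lit 10752) (XT.lf (nat_lit 0) (nat_lit 41007533324696) (nat_lit 0) (nat_lit 0) (nat_lit 0) (nat_lit 0) (nat_lit 0) (nat_lit 0) (nat_lit 1) (nat_lit 0) (nat_lit 1) (nat_lit 0) (nat_lit 497) (nat_lit 432) (nat_lit 151)) (XT.lf (nat_lit 0) (nat_lit 262726183013) (nat_lit 924) (nat_lit 147973646861) (nat_lit 924) (nat_lit 147973646861) (nat_lit 128) (nat_lit 3) (nat_lit 139) (nat_lit 3) (nat_lit 139) (nat_lit 5) (nat_lit 433) (nat_lit 433) (nat_lit 214))) (XT.nd (nat_lit 94) (nat_lit 0) (nat_lit 0) (XT.lf (nat_lit 0) (nat_lit 557076107865) (nat_lit 840) (nat_lit 544819611971) (nat_lit 924) (nat_lit 59614829418) (nat_lit 129) (nat_lit 5) (nat_lit 139) (nat_lit 5) (nat_lit 140)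 (nat_lit 5) (nat_lit 434) (nat_lit 433) (nat_lit 213)) (XT.lf (nat_lit 84) (nat_lit 402920080642) (nat_lit 0) (nat_lit 213690393214) (nat_lit 924) (nat_lit 591327722598) (nat_lit 130) (nat_lit 5) (nat_lit 129) (nat_lit 5) (nat_lit 140) (nat_lit 5) (nat_lit 435) (nat_lit 433) (nat_lit 212)))))) (XT.nd (nat_lit 658) (nat_lit 2100) (nat_lit 0) (XT.nd (nat_lit 282) (nat_lit 1596) (nat_lit 0) (XT.nd (nat_lit 94) (nat_lit 0) (nat_lit 84) (XT.lf (nat_lit 84) (nat_lit 182369670619) (nat_lit 0) (nat_lit 522671657566) (nat_lit 924) (nat_lit 551832040294) (nat_lit 131) (nat_lit 5) (nat_lit 130) (nat_lit 5) (nat_lit 141) (nat_lit 5) (nat_lit 436) (nat_lit 433) (nat_lit 211)) (XT.nd (nat_lit 94) (nat_lit 0) (nat_lit 84) (XT.lf (nat_lit 0) (nat_lit 825228739152) (nat_lit 840) (nat_lit 42185996619) (nat_lit 924) (nat_lit 441074514079) (nat_lit 131) (nat_lit 5) (nat_lit 141)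 (nat_lit 5) (nat_lit 142) (nat_lit 5) (nat_lit 437) (nat_lit 433) (nat_lit 210)) (XT.lf (nat_lit 0) (nat_lit 982847593699) (nat_lit 840) (nat_lit 265697887619) (nat_lit 924) (nat_lit 114298097879) (nat_lit 132) (nat_lit 5) (nat_lit 142) (nat_lit 5) (nat_lit 143) (nat_lit 5) (nat_lit 438) (nat_lit 433) (nat_lit 209)))) (XT.nd (nat_lit 188) (nat_lit 1008) (nat_lit 0) (XT.nd (nat_lit 94) (nat_lit 756) (nat_lit 0) (XT.lf (nat_lit 84) (nat_lit 922508639872) (nat_lit 0) (nat_lit 260343352418) (nat_lit 924) (nat_lit 237205460817) (nat_lit 133) (nat_lit 5) (nat_lit 132) (nat_lit 5) (nat_lit 143) (nat_lit 5) (nat_lit 439) (nat_lit 433) (nat_lit 208)) (XT.lf (nat_lit 0) (nat_lit 744807047411) (nat_lit 840) (nat_lit 682980578020) (nat_lit 924) (nat_lit 52614267366) (nat_lit 123) (nat_lit 5) (nat_lit 133) (nat_lit 5) (nat_lit 134) (nat_lit 5) (nat_lit 440) (nat_lit 433)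 (nat_lit 207))) (XT.nd (nat_lit 94) (nat_lit 420) (nat_lit 0) (XT.lf (nat_lit 0) (nat_lit 170501391433) (nat_lit 588) (nat_lit 980081507163) (nat_lit 84) (nat_lit 393453739569) (nat_lit 116) (nat_lit 5) (nat_lit 123) (nat_lit 5) (nat_lit 117) (nat_lit 5) (nat_lit 441) (nat_lit 433) (nat_lit 206)) (XT.lf (nat_lit 0) (nat_lit 381202810269) (nat_lit 420) (nat_lit 58936374397) (nat_lit 504) (nat_lit 1171054040578) (nat_lit 111) (nat_lit 5) (nat_lit 116) (nat_lit 5) (nat_lit 117) (nat_lit 5) (nat_lit 442) (nat_lit 433) (nat_lit 205))))) (XT.nd (nat_lit 282) (nat_lit 1344) (nat_lit 0) (XT.nd (nat_lit 94) (nat_lit 336) (nat_lit 0) (XT.lf (nat_lit 0) (nat_lit 191894497140) (nat_lit 420) (nat_lit 577288765589) (nat_lit 504) (nat_lit 912647313493) (nat_lit 106) (nat_lit 5) (nat_lit 111) (nat_lit 5) (nat_lit 112) (nat_lit 5) (nat_lit 443) (nat_lit 433) (nat_lit 204))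 (XT.nd (nat_lit 94) (nat_lit 0) (nat_lit 0) (XT.lf (nat_lit 0) (nat_lit 3815350245) (nat_lit 336) (nat_lit 1152932609644) (nat_lit 420) (nat_lit 599761100747) (nat_lit 102) (nat_lit 5) (nat_lit 106) (nat_lit 5) (nat_lit 107) (nat_lit 5) (nat_lit 444) (nat_lit 433) (nat_lit 203)) (XT.lf (nat_lit 0) (nat_lit 1611619457045) (nat_lit 420) (nat_lit 175940015172) (nat_lit 84) (nat_lit 47787270375) (nat_lit 102) (nat_lit 5) (nat_lit 107) (nat_lit 5) (nat_lit 103) (nat_lit 5) (nat_lit 445) (nat_lit 433) (nat_lit 202)))) (XT.nd (nat_lit 188) (nat_lit 588) (nat_lit 0) (XT.nd (nat_lit 94) (nat_lit 336) (nat_lit 0) (XT.lf (nat_lit 0) (nat_lit 221024218458) (nat_lit 420) (nat_lit 364509958983) (nat_lit 84) (nat_lit 1332591252400) (nat_lit 97) (nat_lit 5) (nat_lit 102) (nat_lit 5) (nat_lit 98) (nat_lit 5) (nat_lit 446) (nat_lit 433) (nat_lit 201)) (XT.lf (nat_lit 0) (nat_lit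 731200056538) (nat_lit 420) (nat_lit 554191377591) (nat_lit 84) (nat_lit 720067468519) (nat_lit 93) (nat_lit 5) (nat_lit 98) (nat_lit 5) (nat_lit 94) (nat_lit 5) (nat_lit 447) (nat_lit 433) (nat_lit 200))) (XT.nd (nat_lit 94) (nat_lit 252) (nat_lit 0) (XT.lf (nat_lit 0) (nat_lit 1320359801675) (nat_lit 420) (nat_lit 739126624928) (nat_lit 84) (nat_lit 38384134677) (nat_lit 89) (nat_lit 5) (nat_lit 94) (nat_lit 5) (nat_lit 90) (nat_lit 5) (nat_lit 448) (nat_lit 433) (nat_lit 199)) (XT.lf (nat_lit 0) (nat_lit 1265999171973) (nat_lit 252) (nat_lit 741904906588) (nat_lit 336) (nat_lit 187208486434) (nat_lit 86) (nat_lit 5) (nat_lit 89) (nat_lit 5) (nat_lit 90) (nat_lit 5) (nat_lit 449) (nat_lit 433) (nat_lit 198))))))) (XT.nd (nat_lit 1316) (nat_lit 2100) (nat_lit 0) (XT.nd (nat_lit 658) (nat_lit 1344) (nat_lit 0) (XT.nd (nat_lit 282) (nat_lit 1092) (nat_lit 0)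 (XT.nd (nat_lit 94) (nat_lit 504) (nat_lit 0) (XT.lf (nat_lit 0) (nat_lit 478826638607) (nat_lit 420) (nat_lit 1120206681494) (nat_lit 84) (nat_lit 698602989767) (nat_lit 81) (nat_lit 5) (nat_lit 86) (nat_lit 5) (nat_lit 82) (nat_lit 5) (nat_lit 450) (nat_lit 433) (nat_lit 197)) (XT.nd (nat_lit 94) (nat_lit 252) (nat_lit 0) (XT.lf (nat_lit 0) (nat_lit 1097310623290) (nat_lit 252) (nat_lit 140454601747) (nat_lit 336) (nat_lit 1168134303473) (nat_lit 78) (nat_lit 5) (nat_lit 81) (nat_lit 5) (nat_lit 82) (nat_lit 5) (nat_lit 451) (nat_lit 433) (nat_lit 196)) (XT.lf (nat_lit 0) (nat_lit 1020318654142) (nat_lit 252) (nat_lit 1095264853989) (nat_lit 336) (nat_lit 404332066024) (nat_lit 75) (nat_lit 5) (nat_lit 78) (nat_lit 5) (nat_lit 79) (nat_lit 5) (nat_lit 452) (nat_lit 433) (nat_lit 195)))) (XT.nd (nat_lit 188) (nat_lit 504) (nat_lit 0) (XT.nd (nat_lit 94) (nat_lit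 252) (nat_lit 0) (XT.lf (nat_lit 0) (nat_lit 455694546626) (nat_lit 336) (nat_lit 1686893255666) (nat_lit 84) (nat_lit 497707723849) (nat_lit 71) (nat_lit 5) (nat_lit 75) (nat_lit 5) (nat_lit 72) (nat_lit 5) (nat_lit 453) (nat_lit 433) (nat_lit 194)) (XT.lf (nat_lit 0) (nat_lit 889961906428) (nat_lit 252) (nat_lit 539498141994) (nat_lit 336) (nat_lit 1337559276830) (nat_lit 68) (nat_lit 5) (nat_lit 71) (nat_lit 5) (nat_lit 72) (nat_lit 5) (nat_lit 454) (nat_lit 433) (nat_lit 193))) (XT.nd (nat_lit 94) (nat_lit 336) (nat_lit 0) (XT.lf (nat_lit 0) (nat_lit 838540984284) (nat_lit 168) (nat_lit 1704152027151) (nat_lit 252) (nat_lit 358109705804) (nat_lit 66) (nat_lit 5) (nat_lit 68) (nat_lit 5) (nat_lit 69) (nat_lit 5) (nat_lit 455) (nat_lit 433) (nat_lit 192)) (XT.lf (nat_lit 0) (nat_lit 733175207539) (nat_lit 336) (nat_lit 2243254454504) (nat_lit 84) (nat_lit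 65519207255) (nat_lit 62) (nat_lit 5) (nat_lit 66) (nat_lit 5) (nat_lit 63) (nat_lit 5) (nat_lit 456) (nat_lit 433) (nat_lit 191))))) (XT.nd (nat_lit 282) (nat_lit 756) (nat_lit 0) (XT.nd (nat_lit 94) (nat_lit 420) (nat_lit 0) (XT.lf (nat_lit 0) (nat_lit 758493318691) (nat_lit 168) (nat_lit 1217980403525) (nat_lit 252) (nat_lit 1213756597363) (nat_lit 60) (nat_lit 5) (nat_lit 62) (nat_lit 5) (nat_lit 63) (nat_lit 5) (nat_lit 457) (nat_lit 433) (nat_lit 190)) (XT.nd (nat_lit 94) (nat_lit 168) (nat_lit 0) (XT.lf (nat_lit 0) (nat_lit 32851339174) (nat_lit 252) (nat_lit 2603181542629) (nat_lit 84) (nat_lit 711216067226) (nat_lit 57) (nat_lit 5) (nat_lit 60) (nat_lit 5) (nat_lit 58) (nat_lit 5) (nat_lit 458) (nat_lit 433) (nat_lit 189)) (XT.lf (nat_lit 0) (nat_lit 727653103157) (nat_lit 168) (nat_lit 684530973716) (nat_lit 252) (nat_lit 2099874095254) (nat_lit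 55) (nat_lit 5) (nat_lit 57) (nat_lit 5) (nat_lit 58) (nat_lit 5) (nat_lit 459) (nat_lit 433) (nat_lit 188)))) (XT.nd (nat_lit 188) (nat_lit 336) (nat_lit 0) (XT.nd (nat_lit 94) (nat_lit 252) (nat_lit 0) (XT.lf (nat_lit 0) (nat_lit 730548753731) (nat_lit 168) (nat_lit 2251028147025) (nat_lit 252) (nat_lit 704489558961) (nat_lit 53) (nat_lit 5) (nat_lit 55) (nat_lit 5) (nat_lit 56) (nat_lit 5) (nat_lit 460) (nat_lit 433) (nat_lit 187)) (XT.lf (nat_lit 0) (nat_lit 753818458389) (nat_lit 168) (nat_lit 95630769075) (nat_lit 252) (nat_lit 3020289232916) (nat_lit 50) (nat_lit 5) (nat_lit 52) (nat_lit 5) (nat_lit 53) (nat_lit 5) (nat_lit 461) (nat_lit 433) (nat_lit 186))) (XT.nd (nat_lit 94) (nat_lit 168) (nat_lit 0) (XT.lf (nat_lit 0) (nat_lit 777213893503) (nat_lit 168) (nat_lit 1825449869035) (nat_lit 252) (nat_lit 1459880881693) (nat_lit 48) (nat_lit 5) (nat_lit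 50) (nat_lit 5) (nat_lit 51) (nat_lit 5) (nat_lit 462) (nat_lit 433) (nat_lit 185)) (XT.lf (nat_lit 0) (nat_lit 296847069533) (nat_lit 168) (nat_lit 3429746694587) (nat_lit 84) (nat_lit 540070640316) (nat_lit 46) (nat_lit 5) (nat_lit 48) (nat_lit 5) (nat_lit 47) (nat_lit 5) (nat_lit 463) (nat_lit 433) (nat_lit 184)))))) (XT.nd (nat_lit 658) (nat_lit 924) (nat_lit 0) (XT.nd (nat_lit 282) (nat_lit 672) (nat_lit 0) (XT.nd (nat_lit 94) (nat_lit 336) (nat_lit 0) (XT.lf (nat_lit 0) (nat_lit 894300159726) (nat_lit 168) (nat_lit 1352259228243) (nat_lit 252) (nat_lit 2234178071523) (nat_lit 44) (nat_lit 5) (nat_lit 46) (nat_lit 5) (nat_lit 47) (nat_lit 5) (nat_lit 464) (nat_lit 433) (nat_lit 183)) (XT.nd (nat_lit 94) (nat_lit 252) (nat_lit 0) (XT.lf (nat_lit 0) (nat_lit 989566587120) (nat_lit 84) (nat_lit 3457778455950) (nat_lit 168) (nat_lit 259836498324) (nat_lit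 43) (nat_lit 5) (nat_lit 44) (nat_lit 5) (nat_lit 45) (nat_lit 4) (nat_lit 465) (nat_lit 433) (nat_lit 182)) (XT.lf (nat_lit 0) (nat_lit 1093027586275) (nat_lit 168) (nat_lit 822859005201) (nat_lit 252) (nat_lit 3029224628833) (nat_lit 40) (nat_lit 5) (nat_lit 42) (nat_lit 5) (nat_lit 43) (nat_lit 5) (nat_lit 466) (nat_lit 433) (nat_lit 181)))) (XT.nd (nat_lit 188) (nat_lit 336) (nat_lit 0) (XT.nd (nat_lit 94) (nat_lit 252) (nat_lit 0) (XT.lf (nat_lit 0) (nat_lit 1224608783820) (nat_lit 84) (nat_lit 3148599104178) (nat_lit 168) (nat_lit 822822216567) (nat_lit 39) (nat_lit 5) (nat_lit 40) (nat_lit 5) (nat_lit 41) (nat_lit 4) (nat_lit 467) (nat_lit 433) (nat_lit 180)) (XT.lf (nat_lit 0) (nat_lit 1386365827998) (nat_lit 168) (nat_lit 227514646443) (nat_lit 252) (nat_lit 3846738115144) (nat_lit 36) (nat_lit 5) (nat_lit 38) (nat_lit 5) (nat_lit 39) (nat_lit 5)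 (nat_lit 468) (nat_lit 433) (nat_lit 179))) (XT.nd (nat_lit 94) (nat_lit 252) (nat_lit 0) (XT.lf (nat_lit 0) (nat_lit 1560927312561) (nat_lit 84) (nat_lit 2796536598532) (nat_lit 168) (nat_lit 1381197187240) (nat_lit 35) (nat_lit 5) (nat_lit 36) (nat_lit 5) (nat_lit 37) (nat_lit 4) (nat_lit 469) (nat_lit 433) (nat_lit 178)) (XT.lf (nat_lit 0) (nat_lit 1351418953057) (nat_lit 252) (nat_lit 4250423247962) (nat_lit 84) (nat_lit 430561812197) (nat_lit 32) (nat_lit 5) (nat_lit 35) (nat_lit 5) (nat_lit 33) (nat_lit 4) (nat_lit 470) (nat_lit 433) (nat_lit 177))))) (XT.nd (nat_lit 282) (nat_lit 504) (nat_lit 0) (XT.nd (nat_lit 94) (nat_lit 336) (nat_lit 0) (XT.lf (nat_lit 0) (nat_lit 2014489322431) (nat_lit 84) (nat_lit 2392984543718) (nat_lit 168) (nat_lit 1933379371155) (nat_lit 31) (nat_lit 5) (nat_lit 32) (nat_lit 5) (nat_lit 33) (nat_lit 4) (nat_lit 471) (nat_lit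 433) (nat_lit 176)) (XT.nd (nat_lit 94) (nat_lit 84) (nat_lit 0) (XT.lf (nat_lit 0) (nat_lit 1131235969394) (nat_lit 252) (nat_lit 4367473028944) (nat_lit 84) (nat_lit 1167947353603) (nat_lit 28) (nat_lit 5) (nat_lit 31) (nat_lit 5) (nat_lit 29) (nat_lit 4) (nat_lit 472) (nat_lit 433) (nat_lit 175)) (XT.lf (nat_lit 0) (nat_lit 2603659314059) (nat_lit 84) (nat_lit 1928129018350) (nat_lit 168) (nat_lit 2477225446625) (nat_lit 27) (nat_lit 5) (nat_lit 28) (nat_lit 5) (nat_lit 29) (nat_lit 4) (nat_lit 473) (nat_lit 433) (nat_lit 174)))) (XT.nd (nat_lit 188) (nat_lit 252) (nat_lit 0) (XT.nd (nat_lit 94) (nat_lit 84) (nat_lit 0) (XT.lf (nat_lit 0) (nat_lit 955637957695) (nat_lit 168) (nat_lit 4409043870984) (nat_lit 84) (nat_lit 2005611553930) (nat_lit 25) (nat_lit 5) (nat_lit 27) (nat_lit 5) (nat_lit 26) (nat_lit 4) (nat_lit 474) (nat_lit 433) (nat_lit 173)) (XT.lf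 (nat_lit 0) (nat_lit 3349522464270) (nat_lit 84) (nat_lit 1390781998897) (nat_lit 168) (nat_lit 3009942181571) (nat_lit 24) (nat_lit 5) (nat_lit 25) (nat_lit 5) (nat_lit 26) (nat_lit 4) (nat_lit 475) (nat_lit 433) (nat_lit 172))) (XT.nd (nat_lit 94) (nat_lit 84) (nat_lit 0) (XT.lf (nat_lit 0) (nat_lit 831547987851) (nat_lit 168) (nat_lit 4360185373585) (nat_lit 84) (nat_lit 2959054365163) (nat_lit 22) (nat_lit 5) (nat_lit 24) (nat_lit 5) (nat_lit 23) (nat_lit 4) (nat_lit 476) (nat_lit 433) (nat_lit 171)) (XT.lf (nat_lit 0) (nat_lit 4276250014308) (nat_lit 84) (nat_lit 768193285093) (nat_lit 168) (nat_lit 3527984647854) (nat_lit 21) (nat_lit 5) (nat_lit 22) (nat_lit 5) (nat_lit 23) (nat_lit 4) (nat_lit 477) (nat_lit 433) (nat_lit 170))))))))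
noncomputable def xc225 : XT := (XT.nd (nat_lit 64390) (nat_lit 0) (nat_lit 2940) (XT.nd (nat_lit 1316) (nat_lit 0) (nat_lit 0) (XT.nd (nat_lit 658) (nat_lit 840) (nat_lit 0) (XT.nd (nat_lit 282) (nat_lit 504) (nat_lit 0) (XT.nd (nat_lit 94) (nat_lit 252) (nat_lit 0) (XT.lf (nat_lit 0) (nat_lit 767102049199) (nat_lit 168) (nat_lit 4203496751706) (nat_lit 84) (nat_lit 4045825046500) (nat_lit 19) (nat_lit 5) (nat_lit 21) (nat_lit 5) (nat_lit 20) (nat_lit 4) (nat_lit 478) (nat_lit 433) (nat_lit 169)) (XT.nd (nat_lit 94) (nat_lit 168) (nat_lit 0) (XT.lf (nat_lit 0) (nat_lit 5411512007040) (nat_lit 84) (nat_lit 45838217471) (nat_lit 168) (nat_lit 4026939507409) (nat_lit 18) (nat_lit 5) (nat_lit 19) (nat_lit 5) (nat_lit 20) (nat_lit 4) (nat_lit 479) (nat_lit 433) (nat_lit 168)) (XT.lf (nat_lit 0) (nat_lit 771817624673) (nat_lit 168) (nat_lit 3918779539706) (nat_lit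 84) (nat_lit 5285788906661) (nat_lit 16) (nat_lit 5) (nat_lit 18) (nat_lit 5) (nat_lit 17) (nat_lit 4) (nat_lit 480) (nat_lit 433) (nat_lit 167)))) (XT.nd (nat_lit 188) (nat_lit 252) (nat_lit 0) (XT.nd (nat_lit 94) (nat_lit 168) (nat_lit 0) (XT.lf (nat_lit 0) (nat_lit 6006499624597) (nat_lit 168) (nat_lit 3720947685749) (nat_lit 0) (nat_lit 767446604776) (nat_lit 15) (nat_lit 5) (nat_lit 17) (nat_lit 4) (nat_lit 15) (nat_lit 4) (nat_lit 481) (nat_lit 433) (nat_lit 166)) (XT.lf (nat_lit 0) (nat_lit 856784998972) (nat_lit 168) (nat_lit 3482643772390) (nat_lit 84) (nat_lit 6701427403410) (nat_lit 13) (nat_lit 5) (nat_lit 15) (nat_lit 5) (nat_lit 14) (nat_lit 4) (nat_lit 482) (nat_lit 433) (nat_lit 165))) (XT.nd (nat_lit 94) (nat_lit 168) (nat_lit 0) (XT.lf (nat_lit 0) (nat_lit 6699641535748) (nat_lit 168) (nat_lit 3205741918611) (nat_lit 0) (nat_lit 1710067230309)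 (nat_lit 12) (nat_lit 5) (nat_lit 14) (nat_lit 4) (nat_lit 12) (nat_lit 4) (nat_lit 483) (nat_lit 433) (nat_lit 164)) (XT.lf (nat_lit 0) (nat_lit 1034884209567) (nat_lit 168) (nat_lit 2868061676202) (nat_lit 84) (nat_lit 8318175699114) (nat_lit 10) (nat_lit 5) (nat_lit 12) (nat_lit 5) (nat_lit 11) (nat_lit 4) (nat_lit 484) (nat_lit 433) (nat_lit 163))))) (XT.nd (nat_lit 282) (nat_lit 504) (nat_lit 0) (XT.nd (nat_lit 94) (nat_lit 252) (nat_lit 0) (XT.lf (nat_lit 0) (nat_lit 7556192721070) (nat_lit 168) (nat_lit 2497467608343) (nat_lit 0) (nat_lit 2804217191389) (nat_lit 9) (nat_lit 5) (nat_lit 11) (nat_lit 4) (nat_lit 9) (nat_lit 4) (nat_lit 485) (nat_lit 433) (nat_lit 162)) (XT.nd (nat_lit 94) (nat_lit 84) (nat_lit 0) (XT.lf (nat_lit 0) (nat_lit 1321030912892) (nat_lit 168) (nat_lit 2043862158560) (nat_lit 84) (nat_lit 10164802266016) (nat_lit 7) (nat_lit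 5) (nat_lit 9) (nat_lit 5) (nat_lit 8) (nat_lit 4) (nat_lit 486) (nat_lit 433) (nat_lit 161)) (XT.lf (nat_lit 0) (nat_lit 8599152429958) (nat_lit 168) (nat_lit 1562732369623) (nat_lit 0) (nat_lit 4073461448744) (nat_lit 6) (nat_lit 5) (nat_lit 8) (nat_lit 4) (nat_lit 6) (nat_lit 4) (nat_lit 487) (nat_lit 433) (nat_lit 160)))) (XT.nd (nat_lit 188) (nat_lit 252) (nat_lit 0) (XT.nd (nat_lit 94) (nat_lit 84) (nat_lit 0) (XT.lf (nat_lit 0) (nat_lit 1732454846030) (nat_lit 168) (nat_lit 974158547103) (nat_lit 84) (nat_lit 12273835688823) (nat_lit 4) (nat_lit 5) (nat_lit 6) (nat_lit 5) (nat_lit 5) (nat_lit 4) (nat_lit 488) (nat_lit 433) (nat_lit 159)) (XT.lf (nat_lit 0) (nat_lit 9854760132274) (nat_lit 168) (nat_lit 363120458809) (nat_lit 0) (nat_lit 5544578244942) (nat_lit 3) (nat_lit 5) (nat_lit 5) (nat_lit 4) (nat_lit 3) (nat_lit 4) (nat_lit 489) (nat_lit 433)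 (nat_lit 158))) (XT.nd (nat_lit 94) (nat_lit 0) (nat_lit 0) (XT.lf (nat_lit 0) (nat_lit 24063438902921) (nat_lit 0) (nat_lit 0) (nat_lit 0) (nat_lit 0) (nat_lit 0) (nat_lit 0) (nat_lit 1) (nat_lit 0) (nat_lit 1) (nat_lit 0) (nat_lit 490) (nat_lit 433) (nat_lit 157)) (XT.lf (nat_lit 0) (nat_lit 25964858957660) (nat_lit 0) (nat_lit 0) (nat_lit 0) (nat_lit 0) (nat_lit 0) (nat_lit 0) (nat_lit 1) (nat_lit 0) (nat_lit 1) (nat_lit 0) (nat_lit 491) (nat_lit 433) (nat_lit 156)))))) (XT.nd (nat_lit 62416) (nat_lit 0) (nat_lit 10332) (XT.nd (nat_lit 282) (nat_lit 0) (nat_lit 0) (XT.nd (nat_lit 94) (nat_lit 0) (nat_lit 0) (XT.lf (nat_lit 0) (nat_lit 28018392616780) (nat_lit 0) (nat_lit 0) (nat_lit 0) (nat_lit 0) (nat_lit 0) (nat_lit 0) (nat_lit 1) (nat_lit 0) (nat_lit 1) (nat_lit 0) (nat_lit 492) (nat_lit 433) (nat_lit 155)) (XT.nd (nat_lit 94) (nat_lit 0) (nat_lit 0)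 (XT.lf (nat_lit 0) (nat_lit 30236208968632) (nat_lit 0) (nat_lit 0) (nat_lit 0) (nat_lit 0) (nat_lit 0) (nat_lit 0) (nat_lit 1) (nat_lit 0) (nat_lit 1) (nat_lit 0) (nat_lit 493) (nat_lit 433) (nat_lit 154)) (XT.lf (nat_lit 0) (nat_lit 32631450628634) (nat_lit 0) (nat_lit 0) (nat_lit 0) (nat_lit 0) (nat_lit 0) (nat_lit 0) (nat_lit 1) (nat_lit 0) (nat_lit 1) (nat_lit 0) (nat_lit 494) (nat_lit 433) (nat_lit 153)))) (XT.nd (nat_lit 188) (nat_lit 0) (nat_lit 0) (XT.nd (nat_lit 94) (nat_lit 0) (nat_lit 0) (XT.lf (nat_lit 0) (nat_lit 35218311621438) (nat_lit 0) (nat_lit 0) (nat_lit 0) (nat_lit 0) (nat_lit 0) (nat_lit 0) (nat_lit 1) (nat_lit 0) (nat_lit 1) (nat_lit 0) (nat_lit 495) (nat_lit 433) (nat_lit 152)) (XT.lf (nat_lit 0) (nat_lit 38012121493667) (nat_lit 0) (nat_lit 0) (nat_lit 0) (nat_lit 0) (nat_lit 0) (nat_lit 0) (nat_lit 1) (nat_lit 0) (nat_lit 1) (nat_lit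 0) (nat_lit 496) (nat_lit 433) (nat_lit 151))) (XT.nd (nat_lit 61852) (nat_lit 0) (nat_lit 10752) (XT.lf (nat_lit 0) (nat_lit 41029436155676) (nat_lit 0) (nat_lit 0) (nat_lit 0) (nat_lit 0) (nat_lit 0) (nat_lit 0) (nat_lit 1) (nat_lit 0) (nat_lit 1) (nat_lit 0) (nat_lit 497) (nat_lit 433) (nat_lit 150)) (XT.lf (nat_lit 0) (nat_lit 283744356809) (nat_lit 924) (nat_lit 159811497054) (nat_lit 924) (nat_lit 159811497054) (nat_lit 128) (nat_lit 3) (nat_lit 139) (nat_lit 3) (nat_lit 139) (nat_lit 5) (nat_lit 434) (nat_lit 434) (nat_lit 212))))) (XT.nd (nat_lit 282) (nat_lit 504) (nat_lit 0) (XT.nd (nat_lit 94) (nat_lit 0) (nat_lit 0) (XT.lf (nat_lit 0) (nat_lit 601642343251) (nat_lit 840) (nat_lit 588405092971) (nat_lit 924) (nat_lit 64383949635) (nat_lit 129) (nat_lit 5) (nat_lit 139) (nat_lit 5) (nat_lit 140) (nat_lit 5) (nat_lit 435) (nat_lit 434) (nat_lit 211))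 (XT.nd (nat_lit 94) (nat_lit 0) (nat_lit 84) (XT.lf (nat_lit 84) (nat_lit 435153771229) (nat_lit 0) (nat_lit 230785677735) (nat_lit 924) (nat_lit 638633796347) (nat_lit 130) (nat_lit 5) (nat_lit 129) (nat_lit 5) (nat_lit 140) (nat_lit 5) (nat_lit 436) (nat_lit 434) (nat_lit 210)) (XT.lf (nat_lit 84) (nat_lit 196959332102) (nat_lit 0) (nat_lit 564485429979) (nat_lit 924) (nat_lit 595978469495) (nat_lit 131) (nat_lit 5) (nat_lit 130) (nat_lit 5) (nat_lit 141) (nat_lit 5) (nat_lit 437) (nat_lit 434) (nat_lit 209)))) (XT.nd (nat_lit 188) (nat_lit 672) (nat_lit 0) (XT.nd (nat_lit 94) (nat_lit 0) (nat_lit 84) (XT.lf (nat_lit 0) (nat_lit 891247155894) (nat_lit 840) (nat_lit 45560788537) (nat_lit 924) (nat_lit 476360439527) (nat_lit 131) (nat_lit 5) (nat_lit 141) (nat_lit 5) (nat_lit 142) (nat_lit 5) (nat_lit 438) (nat_lit 434) (nat_lit 208)) (XT.lf (nat_lit 0) (nat_lit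 1061475510995) (nat_lit 840) (nat_lit 286953628714) (nat_lit 924) (nat_lit 123441920334) (nat_lit 132) (nat_lit 5) (nat_lit 142) (nat_lit 5) (nat_lit 143) (nat_lit 5) (nat_lit 439) (nat_lit 434) (nat_lit 207))) (XT.nd (nat_lit 94) (nat_lit 756) (nat_lit 0) (XT.lf (nat_lit 84) (nat_lit 996309417069) (nat_lit 0) (nat_lit 281170837614) (nat_lit 924) (nat_lit 256181789522) (nat_lit 133) (nat_lit 5) (nat_lit 132) (nat_lit 5) (nat_lit 143) (nat_lit 5) (nat_lit 440) (nat_lit 434) (nat_lit 206)) (XT.lf (nat_lit 0) (nat_lit 804391698654) (nat_lit 840) (nat_lit 737619033310) (nat_lit 924) (nat_lit 56823307432) (nat_lit 123) (nat_lit 5) (nat_lit 133) (nat_lit 5) (nat_lit 134) (nat_lit 5) (nat_lit 441) (nat_lit 434) (nat_lit 205))))))) (XT.nd (nat_lit 1316) (nat_lit 2772) (nat_lit 0) (XT.nd (nat_lit 658) (nat_lit 2100) (nat_lit 0) (XT.nd (nat_lit 282) (nat_lit 1092) (nat_lit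 0) (XT.nd (nat_lit 94) (nat_lit 840) (nat_lit 0) (XT.lf (nat_lit 0) (nat_lit 184141594833) (nat_lit 588) (nat_lit 1058487936291) (nat_lit 84) (nat_lit 424930033489) (nat_lit 116) (nat_lit 5) (nat_lit 123) (nat_lit 5) (nat_lit 117) (nat_lit 5) (nat_lit 442) (nat_lit 434) (nat_lit 204)) (XT.nd (nat_lit 94) (nat_lit 420) (nat_lit 0) (XT.lf (nat_lit 0) (nat_lit 411699122562) (nat_lit 420) (nat_lit 63651283508) (nat_lit 504) (nat_lit 1264738272863) (nat_lit 111) (nat_lit 5) (nat_lit 116) (nat_lit 5) (nat_lit 117) (nat_lit 5) (nat_lit 443) (nat_lit 434) (nat_lit 203)) (XT.lf (nat_lit 0) (nat_lit 207246144712) (nat_lit 420) (nat_lit 623471860632) (nat_lit 504) (nat_lit 985659012897) (nat_lit 106) (nat_lit 5) (nat_lit 111) (nat_lit 5) (nat_lit 112) (nat_lit 5) (nat_lit 444) (nat_lit 434) (nat_lit 202)))) (XT.nd (nat_lit 188) (nat_lit 756) (nat_lit 0) (XT.nd (nat_lit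 94) (nat_lit 0) (nat_lit 0) (XT.lf (nat_lit 0) (nat_lit 4120666059) (nat_lit 336) (nat_lit 1245167207634) (nat_lit 420) (nat_lit 647741907944) (nat_lit 102) (nat_lit 5) (nat_lit 106) (nat_lit 5) (nat_lit 107) (nat_lit 5) (nat_lit 445) (nat_lit 434) (nat_lit 201)) (XT.lf (nat_lit 0) (nat_lit 1740549085073) (nat_lit 420) (nat_lit 190015131685) (nat_lit 84) (nat_lit 51610261669) (nat_lit 102) (nat_lit 5) (nat_lit 107) (nat_lit 5) (nat_lit 103) (nat_lit 5) (nat_lit 446) (nat_lit 434) (nat_lit 200))) (XT.nd (nat_lit 94) (nat_lit 336) (nat_lit 0) (XT.lf (nat_lit 0) (nat_lit 238706224475) (nat_lit 420) (nat_lit 393670672416) (nat_lit 84) (nat_lit 1439198563911) (nat_lit 97) (nat_lit 5) (nat_lit 102) (nat_lit 5) (nat_lit 98) (nat_lit 5) (nat_lit 447) (nat_lit 434) (nat_lit 199)) (XT.lf (nat_lit 0) (nat_lit 789696126002) (nat_lit 420) (nat_lit 598526605130) (nat_lit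 84) (nat_lit 777672880482) (nat_lit 93) (nat_lit 5) (nat_lit 98) (nat_lit 5) (nat_lit 94) (nat_lit 5) (nat_lit 448) (nat_lit 434) (nat_lit 198))))) (XT.nd (nat_lit 282) (nat_lit 1092) (nat_lit 0) (XT.nd (nat_lit 94) (nat_lit 672) (nat_lit 0) (XT.lf (nat_lit 0) (nat_lit 1425988647451) (nat_lit 420) (nat_lit 798256673055) (nat_lit 84) (nat_lit 41454882595) (nat_lit 89) (nat_lit 5) (nat_lit 94) (nat_lit 5) (nat_lit 90) (nat_lit 5) (nat_lit 449) (nat_lit 434) (nat_lit 197)) (XT.nd (nat_lit 94) (nat_lit 420) (nat_lit 0) (XT.lf (nat_lit 0) (nat_lit 1367279184040) (nat_lit 252) (nat_lit 801257279104) (nat_lit 336) (nat_lit 202185104136) (nat_lit 86) (nat_lit 5) (nat_lit 89) (nat_lit 5) (nat_lit 90) (nat_lit 5) (nat_lit 450) (nat_lit 434) (nat_lit 196)) (XT.lf (nat_lit 0) (nat_lit 517132826082) (nat_lit 420) (nat_lit 1209823136753) (nat_lit 84) (nat_lit 754491249002)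 (nat_lit 81) (nat_lit 5) (nat_lit 86) (nat_lit 5) (nat_lit 82) (nat_lit 5) (nat_lit 451) (nat_lit 434) (nat_lit 195)))) (XT.nd (nat_lit 188) (nat_lit 588) (nat_lit 0) (XT.nd (nat_lit 94) (nat_lit 252) (nat_lit 0) (XT.lf (nat_lit 0) (nat_lit 1185095548968) (nat_lit 252) (nat_lit 151690947465) (nat_lit 336) (nat_lit 1261584991688) (nat_lit 78) (nat_lit 5) (nat_lit 81) (nat_lit 5) (nat_lit 82) (nat_lit 5) (nat_lit 452) (nat_lit 434) (nat_lit 194)) (XT.lf (nat_lit 0) (nat_lit 1101944221213) (nat_lit 252) (nat_lit 1182886018498) (nat_lit 336) (nat_lit 436678577830) (nat_lit 75) (nat_lit 5) (nat_lit 78) (nat_lit 5) (nat_lit 79) (nat_lit 5) (nat_lit 453) (nat_lit 434) (nat_lit 193))) (XT.nd (nat_lit 94) (nat_lit 252) (nat_lit 0) (XT.lf (nat_lit 0) (nat_lit 492150159804) (nat_lit 336) (nat_lit 1821844640912) (nat_lit 84) (nat_lit 537524365044) (nat_lit 71) (nat_lit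 5) (nat_lit 75) (nat_lit 5) (nat_lit 72) (nat_lit 5) (nat_lit 454) (nat_lit 434) (nat_lit 192)) (XT.lf (nat_lit 0) (nat_lit 961158930881) (nat_lit 252) (nat_lit 582657968323) (nat_lit 336) (nat_lit 1444563969723) (nat_lit 68) (nat_lit 5) (nat_lit 71) (nat_lit 5) (nat_lit 72) (nat_lit 5) (nat_lit 455) (nat_lit 434) (nat_lit 191)))))) (XT.nd (nat_lit 658) (nat_lit 1260) (nat_lit 0) (XT.nd (nat_lit 282) (nat_lit 840) (nat_lit 0) (XT.nd (nat_lit 94) (nat_lit 504) (nat_lit 0) (XT.lf (nat_lit 0) (nat_lit 905624333708) (nat_lit 168) (nat_lit 1840484163540) (nat_lit 252) (nat_lit 386758435125) (nat_lit 66) (nat_lit 5) (nat_lit 68) (nat_lit 5) (nat_lit 69) (nat_lit 5) (nat_lit 456) (nat_lit 434) (nat_lit 190)) (XT.nd (nat_lit 94) (nat_lit 168) (nat_lit 0) (XT.lf (nat_lit 0) (nat_lit 791829267876) (nat_lit 336) (nat_lit 2422714740046) (nat_lit 84) (nat_lit 70760768733)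 (nat_lit 62) (nat_lit 5) (nat_lit 66) (nat_lit 5) (nat_lit 63) (nat_lit 5) (nat_lit 457) (nat_lit 434) (nat_lit 189)) (XT.lf (nat_lit 0) (nat_lit 819172851927) (nat_lit 168) (nat_lit 1315418809619) (nat_lit 252) (nat_lit 1310857081522) (nat_lit 60) (nat_lit 5) (nat_lit 62) (nat_lit 5) (nat_lit 63) (nat_lit 5) (nat_lit 458) (nat_lit 434) (nat_lit 188)))) (XT.nd (nat_lit 188) (nat_lit 420) (nat_lit 0) (XT.nd (nat_lit 94) (nat_lit 168) (nat_lit 0) (XT.lf (nat_lit 0) (nat_lit 35479486851) (nat_lit 252) (nat_lit 2811435998306) (nat_lit 84) (nat_lit 768113377767) (nat_lit 57) (nat_lit 5) (nat_lit 60) (nat_lit 5) (nat_lit 58) (nat_lit 5) (nat_lit 459) (nat_lit 434) (nat_lit 187)) (XT.lf (nat_lit 0) (nat_lit 785865416200) (nat_lit 168) (nat_lit 739293425376) (nat_lit 252) (nat_lit 2267863982395) (nat_lit 55) (nat_lit 5) (nat_lit 57) (nat_lit 5) (nat_lit 58) (nat_lit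 5) (nat_lit 460) (nat_lit 434) (nat_lit 186))) (XT.nd (nat_lit 94) (nat_lit 252) (nat_lit 0) (XT.lf (nat_lit 0) (nat_lit 788992717456) (nat_lit 168) (nat_lit 2431110372426) (nat_lit 252) (nat_lit 760848684760) (nat_lit 53) (nat_lit 5) (nat_lit 55) (nat_lit 5) (nat_lit 56) (nat_lit 5) (nat_lit 461) (nat_lit 434) (nat_lit 185)) (XT.lf (nat_lit 0) (nat_lit 814123996921) (nat_lit 168) (nat_lit 103281204588) (nat_lit 252) (nat_lit 3261912333909) (nat_lit 50) (nat_lit 5) (nat_lit 52) (nat_lit 5) (nat_lit 53) (nat_lit 5) (nat_lit 462) (nat_lit 434) (nat_lit 184))))) (XT.nd (nat_lit 376) (nat_lit 672) (nat_lit 0) (XT.nd (nat_lit 188) (nat_lit 252) (nat_lit 0) (XT.nd (nat_lit 94) (nat_lit 168) (nat_lit 0) (XT.lf (nat_lit 0) (nat_lit 839391065482) (nat_lit 168) (nat_lit 1971485832572) (nat_lit 252) (nat_lit 1576671315989) (nat_lit 48) (nat_lit 5) (nat_lit 50) (nat_lit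 5) (nat_lit 51) (nat_lit 5) (nat_lit 463) (nat_lit 434) (nat_lit 183)) (XT.lf (nat_lit 0) (nat_lit 320594868897) (nat_lit 168) (nat_lit 3704126369904) (nat_lit 84) (nat_lit 583276316300) (nat_lit 46) (nat_lit 5) (nat_lit 48) (nat_lit 5) (nat_lit 47) (nat_lit 5) (nat_lit 464) (nat_lit 434) (nat_lit 182))) (XT.nd (nat_lit 94) (nat_lit 84) (nat_lit 0) (XT.lf (nat_lit 0) (nat_lit 965844230136) (nat_lit 168) (nat_lit 1460439941068) (nat_lit 252) (nat_lit 2412912283439) (nat_lit 44) (nat_lit 5) (nat_lit 46) (nat_lit 5) (nat_lit 47) (nat_lit 5) (nat_lit 465) (nat_lit 434) (nat_lit 181)) (XT.lf (nat_lit 0) (nat_lit 1068731970377) (nat_lit 84) (nat_lit 3734400707198) (nat_lit 168) (nat_lit 280623385578) (nat_lit 43) (nat_lit 5) (nat_lit 44) (nat_lit 5) (nat_lit 45) (nat_lit 4) (nat_lit 466) (nat_lit 434) (nat_lit 180)))) (XT.nd (nat_lit 188) (nat_lit 336) (nat_lit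 0) (XT.nd (nat_lit 94) (nat_lit 84) (nat_lit 0) (XT.lf (nat_lit 0) (nat_lit 1180469848016) (nat_lit 168) (nat_lit 888687700864) (nat_lit 252) (nat_lit 3271562567550) (nat_lit 40) (nat_lit 5) (nat_lit 42) (nat_lit 5) (nat_lit 43) (nat_lit 5) (nat_lit 467) (nat_lit 434) (nat_lit 179)) (XT.lf (nat_lit 0) (nat_lit 1322577540050) (nat_lit 84) (nat_lit 3400487008038) (nat_lit 168) (nat_lit 888647963389) (nat_lit 39) (nat_lit 5) (nat_lit 40) (nat_lit 5) (nat_lit 41) (nat_lit 4) (nat_lit 468) (nat_lit 434) (nat_lit 178))) (XT.nd (nat_lit 94) (nat_lit 84) (nat_lit 0) (XT.lf (nat_lit 0) (nat_lit 1497275146371) (nat_lit 168) (nat_lit 245715794180) (nat_lit 252) (nat_lit 4154477134794) (nat_lit 36) (nat_lit 5) (nat_lit 38) (nat_lit 5) (nat_lit 39) (nat_lit 5) (nat_lit 469) (nat_lit 434) (nat_lit 177)) (XT.lf (nat_lit 0) (nat_lit 1685801548421) (nat_lit 84) (nat_lit 3020259502768)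 (nat_lit 168) (nat_lit 1491692933650) (nat_lit 35) (nat_lit 5) (nat_lit 36) (nat_lit 5) (nat_lit 37) (nat_lit 4) (nat_lit 470) (nat_lit 434) (nat_lit 176))))))))
noncomputable def xc226 : XT := (XT.nd (nat_lit 64484) (nat_lit 0) (nat_lit 4032) (XT.nd (nat_lit 1316) (nat_lit 1008) (nat_lit 0) (XT.nd (nat_lit 658) (nat_lit 840) (nat_lit 0) (XT.nd (nat_lit 282) (nat_lit 504) (nat_lit 0) (XT.nd (nat_lit 94) (nat_lit 336) (nat_lit 0) (XT.lf (nat_lit 0) (nat_lit 1459532496043) (nat_lit 252) (nat_lit 4590457057322) (nat_lit 84) (nat_lit 465006779573) (nat_lit 32) (nat_lit 5) (nat_lit 35) (nat_lit 5) (nat_lit 33) (nat_lit 4) (nat_lit 471) (nat_lit 434) (nat_lit 175)) (XT.nd (nat_lit 94) (nat_lit 252) (nat_lit 0) (XT.lf (nat_lit 0) (nat_lit 2175648516509) (nat_lit 84) (nat_lit 2584423284445) (nat_lit 168) (nat_lit 2088049694058) (nat_lit 31) (nat_lit 5) (nat_lit 32)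 (nat_lit 5) (nat_lit 33) (nat_lit 4) (nat_lit 472) (nat_lit 434) (nat_lit 174)) (XT.lf (nat_lit 0) (nat_lit 1221734872038) (nat_lit 252) (nat_lit 4716870823364) (nat_lit 84) (nat_lit 1261383163440) (nat_lit 28) (nat_lit 5) (nat_lit 31) (nat_lit 5) (nat_lit 29) (nat_lit 4) (nat_lit 473) (nat_lit 434) (nat_lit 173)))) (XT.nd (nat_lit 188) (nat_lit 252) (nat_lit 0) (XT.nd (nat_lit 94) (nat_lit 168) (nat_lit 0) (XT.lf (nat_lit 0) (nat_lit 2811952104998) (nat_lit 84) (nat_lit 2082379317953) (nat_lit 168) (nat_lit 2675403457208) (nat_lit 27) (nat_lit 5) (nat_lit 28) (nat_lit 5) (nat_lit 29) (nat_lit 4) (nat_lit 474) (nat_lit 434) (nat_lit 172)) (XT.lf (nat_lit 0) (nat_lit 1032089017879) (nat_lit 168) (nat_lit 4761767335242) (nat_lit 84) (nat_lit 2166060498918) (nat_lit 25) (nat_lit 5) (nat_lit 27) (nat_lit 5) (nat_lit 26) (nat_lit 4) (nat_lit 475) (nat_lit 434)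 (nat_lit 171))) (XT.nd (nat_lit 94) (nat_lit 168) (nat_lit 0) (XT.lf (nat_lit 0) (nat_lit 3617484304859) (nat_lit 84) (nat_lit 1502044537862) (nat_lit 168) (nat_lit 3250737532471) (nat_lit 24) (nat_lit 5) (nat_lit 25) (nat_lit 5) (nat_lit 26) (nat_lit 4) (nat_lit 476) (nat_lit 434) (nat_lit 170)) (XT.lf (nat_lit 0) (nat_lit 898071849034) (nat_lit 168) (nat_lit 4709000160417) (nat_lit 84) (nat_lit 3195778734168) (nat_lit 22) (nat_lit 5) (nat_lit 24) (nat_lit 5) (nat_lit 23) (nat_lit 4) (nat_lit 477) (nat_lit 434) (nat_lit 169))))) (XT.nd (nat_lit 282) (nat_lit 504) (nat_lit 0) (XT.nd (nat_lit 94) (nat_lit 252) (nat_lit 0) (XT.lf (nat_lit 0) (nat_lit 4618350056637) (nat_lit 84) (nat_lit 829648727874) (nat_lit 168) (nat_lit 3810223397467) (nat_lit 21) (nat_lit 5) (nat_lit 22) (nat_lit 5) (nat_lit 23) (nat_lit 4) (nat_lit 478) (nat_lit 434) (nat_lit 168)) (XT.nd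 (nat_lit 94) (nat_lit 84) (nat_lit 0) (XT.lf (nat_lit 0) (nat_lit 828470233977) (nat_lit 168) (nat_lit 4539776451047) (nat_lit 84) (nat_lit 4369491069132) (nat_lit 19) (nat_lit 5) (nat_lit 21) (nat_lit 5) (nat_lit 20) (nat_lit 4) (nat_lit 479) (nat_lit 434) (nat_lit 167)) (XT.lf (nat_lit 0) (nat_lit 5844433006625) (nat_lit 84) (nat_lit 49505255752) (nat_lit 168) (nat_lit 4349094647100) (nat_lit 18) (nat_lit 5) (nat_lit 19) (nat_lit 5) (nat_lit 20) (nat_lit 4) (nat_lit 480) (nat_lit 434) (nat_lit 166)))) (XT.nd (nat_lit 188) (nat_lit 252) (nat_lit 0) (XT.nd (nat_lit 94) (nat_lit 84) (nat_lit 0) (XT.lf (nat_lit 0) (nat_lit 833563054266) (nat_lit 168) (nat_lit 4232281864240) (nat_lit 84) (nat_lit 5708652037237) (nat_lit 16) (nat_lit 5) (nat_lit 18) (nat_lit 5) (nat_lit 17) (nat_lit 4) (nat_lit 481) (nat_lit 434) (nat_lit 165)) (XT.lf (nat_lit 0) (nat_lit 6487019613591)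 (nat_lit 168) (nat_lit 4018623462994) (nat_lit 0) (nat_lit 828842350795) (nat_lit 15) (nat_lit 5) (nat_lit 17) (nat_lit 4) (nat_lit 15) (nat_lit 4) (nat_lit 482) (nat_lit 434) (nat_lit 164))) (XT.nd (nat_lit 94) (nat_lit 84) (nat_lit 0) (XT.lf (nat_lit 0) (nat_lit 925327817366) (nat_lit 168) (nat_lit 3761255237590) (nat_lit 84) (nat_lit 7237541612873) (nat_lit 13) (nat_lit 5) (nat_lit 15) (nat_lit 5) (nat_lit 14) (nat_lit 4) (nat_lit 483) (nat_lit 434) (nat_lit 163)) (XT.lf (nat_lit 0) (nat_lit 7235612876534) (nat_lit 168) (nat_lit 3462201236486) (nat_lit 0) (nat_lit 1846872625525) (nat_lit 12) (nat_lit 5) (nat_lit 14) (nat_lit 4) (nat_lit 12) (nat_lit 4) (nat_lit 484) (nat_lit 434) (nat_lit 162)))))) (XT.nd (nat_lit 658) (nat_lit 0) (nat_lit 0) (XT.nd (nat_lit 282) (nat_lit 588) (nat_lit 0) (XT.nd (nat_lit 94) (nat_lit 252) (nat_lit 0) (XT.lf (nat_lit 0)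 (nat_lit 1117674963743) (nat_lit 168) (nat_lit 3097506575657) (nat_lit 84) (nat_lit 8983629771403) (nat_lit 10) (nat_lit 5) (nat_lit 12) (nat_lit 5) (nat_lit 11) (nat_lit 4) (nat_lit 485) (nat_lit 434) (nat_lit 161)) (XT.nd (nat_lit 94) (nat_lit 168) (nat_lit 0) (XT.lf (nat_lit 0) (nat_lit 8160688155651) (nat_lit 168) (nat_lit 2697264983301) (nat_lit 0) (nat_lit 3028554582669) (nat_lit 9) (nat_lit 5) (nat_lit 11) (nat_lit 4) (nat_lit 9) (nat_lit 4) (nat_lit 486) (nat_lit 434) (nat_lit 160)) (XT.lf (nat_lit 0) (nat_lit 1426713402337) (nat_lit 168) (nat_lit 2207371098455) (nat_lit 84) (nat_lit 10977986462853) (nat_lit 7) (nat_lit 5) (nat_lit 9) (nat_lit 5) (nat_lit 8) (nat_lit 4) (nat_lit 487) (nat_lit 434) (nat_lit 159)))) (XT.nd (nat_lit 188) (nat_lit 336) (nat_lit 0) (XT.nd (nat_lit 94) (nat_lit 168) (nat_lit 0) (XT.lf (nat_lit 0) (nat_lit 9287084640286)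 (nat_lit 168) (nat_lit 1687750927289) (nat_lit 0) (nat_lit 4399338379819) (nat_lit 6) (nat_lit 5) (nat_lit 8) (nat_lit 4) (nat_lit 6) (nat_lit 4) (nat_lit 488) (nat_lit 434) (nat_lit 158)) (XT.lf (nat_lit 0) (nat_lit 1871051249189) (nat_lit 168) (nat_lit 1052091199843) (nat_lit 84) (nat_lit 13255742558706) (nat_lit 4) (nat_lit 5) (nat_lit 6) (nat_lit 5) (nat_lit 5) (nat_lit 4) (nat_lit 489) (nat_lit 434) (nat_lit 157))) (XT.nd (nat_lit 94) (nat_lit 252) (nat_lit 0) (XT.lf (nat_lit 0) (nat_lit 10643140957883) (nat_lit 168) (nat_lit 392170065325) (nat_lit 0) (nat_lit 5988144518947) (nat_lit 3) (nat_lit 5) (nat_lit 5) (nat_lit 4) (nat_lit 3) (nat_lit 4) (nat_lit 490) (nat_lit 434) (nat_lit 156)) (XT.lf (nat_lit 0) (nat_lit 25988514015115) (nat_lit 0) (nat_lit 0) (nat_lit 0) (nat_lit 0) (nat_lit 0) (nat_lit 0) (nat_lit 1) (nat_lit 0) (nat_lit 1) (nat_lit 0) (nat_lit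 491) (nat_lit 434) (nat_lit 155))))) (XT.nd (nat_lit 282) (nat_lit 0) (nat_lit 0) (XT.nd (nat_lit 94) (nat_lit 0) (nat_lit 0) (XT.lf (nat_lit 0) (nat_lit 28042047674236) (nat_lit 0) (nat_lit 0) (nat_lit 0) (nat_lit 0) (nat_lit 0) (nat_lit 0) (nat_lit 1) (nat_lit 0) (nat_lit 1) (nat_lit 0) (nat_lit 492) (nat_lit 434) (nat_lit 154)) (XT.nd (nat_lit 94) (nat_lit 0) (nat_lit 0) (XT.lf (nat_lit 0) (nat_lit 30259864026089) (nat_lit 0) (nat_lit 0) (nat_lit 0) (nat_lit 0) (nat_lit 0) (nat_lit 0) (nat_lit 1) (nat_lit 0) (nat_lit 1) (nat_lit 0) (nat_lit 493) (nat_lit 434) (nat_lit 153)) (XT.lf (nat_lit 0) (nat_lit 32655105686092) (nat_lit 0) (nat_lit 0) (nat_lit 0) (nat_lit 0) (nat_lit 0) (nat_lit 0) (nat_lit 1) (nat_lit 0) (nat_lit 1) (nat_lit 0) (nat_lit 494) (nat_lit 434) (nat_lit 152)))) (XT.nd (nat_lit 188) (nat_lit 0) (nat_lit 0) (XT.nd (nat_lit 94) (nat_lit 0)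 (nat_lit 0) (XT.lf (nat_lit 0) (nat_lit 35241966678896) (nat_lit 0) (nat_lit 0) (nat_lit 0) (nat_lit 0) (nat_lit 0) (nat_lit 0) (nat_lit 1) (nat_lit 0) (nat_lit 1) (nat_lit 0) (nat_lit 495) (nat_lit 434) (nat_lit 151)) (XT.lf (nat_lit 0) (nat_lit 38035776551126) (nat_lit 0) (nat_lit 0) (nat_lit 0) (nat_lit 0) (nat_lit 0) (nat_lit 0) (nat_lit 1) (nat_lit 0) (nat_lit 1) (nat_lit 0) (nat_lit 496) (nat_lit 434) (nat_lit 150))) (XT.nd (nat_lit 61946) (nat_lit 0) (nat_lit 10752) (XT.lf (nat_lit 0) (nat_lit 41053091213136) (nat_lit 0) (nat_lit 0) (nat_lit 0) (nat_lit 0) (nat_lit 0) (nat_lit 0) (nat_lit 1) (nat_lit 0) (nat_lit 1) (nat_lit 0) (nat_lit 497) (nat_lit 434) (nat_lit 149)) (XT.lf (nat_lit 0) (nat_lit 306443973215) (nat_lit 924) (nat_lit 172596381191) (nat_lit 924) (nat_lit 172596381191) (nat_lit 128) (nat_lit 3) (nat_lit 139) (nat_lit 3) (nat_lit 139) (nat_lit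 5) (nat_lit 435) (nat_lit 435) (nat_lit 210))))))) (XT.nd (nat_lit 1316) (nat_lit 3780) (nat_lit 0) (XT.nd (nat_lit 658) (nat_lit 2520) (nat_lit 0) (XT.nd (nat_lit 282) (nat_lit 504) (nat_lit 0) (XT.nd (nat_lit 94) (nat_lit 0) (nat_lit 0) (XT.lf (nat_lit 0) (nat_lit 649773856531) (nat_lit 840) (nat_lit 635477424999) (nat_lit 924) (nat_lit 69534608904) (nat_lit 129) (nat_lit 5) (nat_lit 139) (nat_lit 5) (nat_lit 140) (nat_lit 5) (nat_lit 436) (nat_lit 435) (nat_lit 209)) (XT.nd (nat_lit 94) (nat_lit 0) (nat_lit 84) (XT.lf (nat_lit 84) (nat_lit 469966145060) (nat_lit 0) (nat_lit 249248577448) (nat_lit 924) (nat_lit 689724376547) (nat_lit 130) (nat_lit 5) (nat_lit 129) (nat_lit 5) (nat_lit 140) (nat_lit 5) (nat_lit 437) (nat_lit 435) (nat_lit 208)) (XT.lf (nat_lit 84) (nat_lit 212716153972) (nat_lit 0) (nat_lit 609644298505) (nat_lit 924) (nat_lit 643656632152)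 (nat_lit 131) (nat_lit 5) (nat_lit 130) (nat_lit 5) (nat_lit 141) (nat_lit 5) (nat_lit 438) (nat_lit 435) (nat_lit 207)))) (XT.nd (nat_lit 188) (nat_lit 672) (nat_lit 0) (XT.nd (nat_lit 94) (nat_lit 0) (nat_lit 84) (XT.lf (nat_lit 0) (nat_lit 962547029198) (nat_lit 840) (nat_lit 49205576336) (nat_lit 924) (nat_lit 514469244100) (nat_lit 131) (nat_lit 5) (nat_lit 141) (nat_lit 5) (nat_lit 142) (nat_lit 5) (nat_lit 439) (nat_lit 435) (nat_lit 206)) (XT.lf (nat_lit 0) (nat_lit 1146393646011) (nat_lit 840) (nat_lit 309909841923) (nat_lit 924) (nat_lit 133317252206) (nat_lit 132) (nat_lit 5) (nat_lit 142) (nat_lit 5) (nat_lit 143) (nat_lit 5) (nat_lit 440) (nat_lit 435) (nat_lit 205))) (XT.nd (nat_lit 94) (nat_lit 756) (nat_lit 0) (XT.lf (nat_lit 84) (nat_lit 1076014244173) (nat_lit 0) (nat_lit 303664519200) (nat_lit 924) (nat_lit 276676239954) (nat_lit 133) (nat_lit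 5) (nat_lit 132) (nat_lit 5) (nat_lit 143) (nat_lit 5) (nat_lit 441) (nat_lit 435) (nat_lit 204)) (XT.lf (nat_lit 0) (nat_lit 868743109522) (nat_lit 840) (nat_lit 796628563732) (nat_lit 924) (nat_lit 61369085157) (nat_lit 123) (nat_lit 5) (nat_lit 133) (nat_lit 5) (nat_lit 134) (nat_lit 5) (nat_lit 442) (nat_lit 435) (nat_lit 203))))) (XT.nd (nat_lit 282) (nat_lit 1092) (nat_lit 0) (XT.nd (nat_lit 94) (nat_lit 840) (nat_lit 0) (XT.lf (nat_lit 0) (nat_lit 198873001369) (nat_lit 588) (nat_lit 1143166892794) (nat_lit 84) (nat_lit 458924431672) (nat_lit 116) (nat_lit 5) (nat_lit 123) (nat_lit 5) (nat_lit 117) (nat_lit 5) (nat_lit 443) (nat_lit 435) (nat_lit 202)) (XT.nd (nat_lit 94) (nat_lit 420) (nat_lit 0) (XT.lf (nat_lit 0) (nat_lit 444635127359) (nat_lit 420) (nat_lit 68743385467) (nat_lit 504) (nat_lit 1365917256707) (nat_lit 111) (nat_lit 5) (nat_lit 116)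 (nat_lit 5) (nat_lit 117) (nat_lit 5) (nat_lit 444) (nat_lit 435) (nat_lit 201)) (XT.lf (nat_lit 0) (nat_lit 223825911564) (nat_lit 420) (nat_lit 673349604163) (nat_lit 504) (nat_lit 1064511660476) (nat_lit 106) (nat_lit 5) (nat_lit 111) (nat_lit 5) (nat_lit 112) (nat_lit 5) (nat_lit 445) (nat_lit 435) (nat_lit 200)))) (XT.nd (nat_lit 188) (nat_lit 756) (nat_lit 0) (XT.nd (nat_lit 94) (nat_lit 0) (nat_lit 0) (XT.lf (nat_lit 0) (nat_lit 4450394614) (nat_lit 336) (nat_lit 1344780575001) (nat_lit 420) (nat_lit 699561191252) (nat_lit 102) (nat_lit 5) (nat_lit 106) (nat_lit 5) (nat_lit 107) (nat_lit 5) (nat_lit 446) (nat_lit 435) (nat_lit 199)) (XT.lf (nat_lit 0) (nat_lit 1879793073147) (nat_lit 420) (nat_lit 205216269602) (nat_lit 84) (nat_lit 55739090888) (nat_lit 102) (nat_lit 5) (nat_lit 107) (nat_lit 5) (nat_lit 103) (nat_lit 5) (nat_lit 447) (nat_lit 435)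 (nat_lit 198))) (XT.nd (nat_lit 94) (nat_lit 336) (nat_lit 0) (XT.lf (nat_lit 0) (nat_lit 257802781195) (nat_lit 420) (nat_lit 425164254805) (nat_lit 84) (nat_lit 1554334458728) (nat_lit 97) (nat_lit 5) (nat_lit 102) (nat_lit 5) (nat_lit 98) (nat_lit 5) (nat_lit 448) (nat_lit 435) (nat_lit 197)) (XT.lf (nat_lit 0) (nat_lit 852871871758) (nat_lit 420) (nat_lit 646408662666) (nat_lit 84) (nat_lit 839886723335) (nat_lit 93) (nat_lit 5) (nat_lit 98) (nat_lit 5) (nat_lit 94) (nat_lit 5) (nat_lit 449) (nat_lit 435) (nat_lit 196)))))) (XT.nd (nat_lit 658) (nat_lit 1680) (nat_lit 0) (XT.nd (nat_lit 282) (nat_lit 1092) (nat_lit 0) (XT.nd (nat_lit 94) (nat_lit 672) (nat_lit 0) (XT.lf (nat_lit 0) (nat_lit 1540067792094) (nat_lit 420) (nat_lit 862117136711) (nat_lit 84) (nat_lit 44771287901) (nat_lit 89) (nat_lit 5) (nat_lit 94) (nat_lit 5) (nat_lit 90) (nat_lit 5) (nat_lit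 450) (nat_lit 435) (nat_lit 195)) (XT.nd (nat_lit 94) (nat_lit 420) (nat_lit 0) (XT.lf (nat_lit 0) (nat_lit 1476661585901) (nat_lit 252) (nat_lit 865357844276) (nat_lit 336) (nat_lit 218359859987) (nat_lit 86) (nat_lit 5) (nat_lit 89) (nat_lit 5) (nat_lit 90) (nat_lit 5) (nat_lit 451) (nat_lit 435) (nat_lit 194)) (XT.lf (nat_lit 0) (nat_lit 558503500511) (nat_lit 420) (nat_lit 1306608919741) (nat_lit 84) (nat_lit 814850566116) (nat_lit 81) (nat_lit 5) (nat_lit 86) (nat_lit 5) (nat_lit 82) (nat_lit 5) (nat_lit 452) (nat_lit 435) (nat_lit 193)))) (XT.nd (nat_lit 188) (nat_lit 588) (nat_lit 0) (XT.nd (nat_lit 94) (nat_lit 252) (nat_lit 0) (XT.lf (nat_lit 0) (nat_lit 1279903257886) (nat_lit 252) (nat_lit 163826204039) (nat_lit 336) (nat_lit 1362511742957) (nat_lit 78) (nat_lit 5) (nat_lit 81) (nat_lit 5) (nat_lit 82) (nat_lit 5) (nat_lit 453) (nat_lit 435) (nat_lit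 192)) (XT.lf (nat_lit 0) (nat_lit 1190099822987) (nat_lit 252) (nat_lit 1277516879565) (nat_lit 336) (nat_lit 471612818209) (nat_lit 75) (nat_lit 5) (nat_lit 78) (nat_lit 5) (nat_lit 79) (nat_lit 5) (nat_lit 454) (nat_lit 435) (nat_lit 191))) (XT.nd (nat_lit 94) (nat_lit 252) (nat_lit 0) (XT.lf (nat_lit 0) (nat_lit 531522214981) (nat_lit 336) (nat_lit 1967592147708) (nat_lit 84) (nat_lit 580526334212) (nat_lit 71) (nat_lit 5) (nat_lit 75) (nat_lit 5) (nat_lit 72) (nat_lit 5) (nat_lit 455) (nat_lit 435) (nat_lit 190)) (XT.lf (nat_lit 0) (nat_lit 1038051707027) (nat_lit 252) (nat_lit 629270584330) (nat_lit 336) (nat_lit 1560129045074) (nat_lit 68) (nat_lit 5) (nat_lit 71) (nat_lit 5) (nat_lit 72) (nat_lit 5) (nat_lit 456) (nat_lit 435) (nat_lit 189))))) (XT.nd (nat_lit 376) (nat_lit 756) (nat_lit 0) (XT.nd (nat_lit 188) (nat_lit 420) (nat_lit 0) (XT.nd (nat_lit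 94) (nat_lit 336) (nat_lit 0) (XT.lf (nat_lit 0) (nat_lit 978074341003) (nat_lit 168) (nat_lit 1987722874518) (nat_lit 252) (nat_lit 417699069517) (nat_lit 66) (nat_lit 5) (nat_lit 68) (nat_lit 5) (nat_lit 69) (nat_lit 5) (nat_lit 457) (nat_lit 435) (nat_lit 188)) (XT.lf (nat_lit 0) (nat_lit 855175646801) (nat_lit 336) (nat_lit 2616531858535) (nat_lit 84) (nat_lit 76421651577) (nat_lit 62) (nat_lit 5) (nat_lit 66) (nat_lit 5) (nat_lit 63) (nat_lit 5) (nat_lit 458) (nat_lit 435) (nat_lit 187))) (XT.nd (nat_lit 94) (nat_lit 252) (nat_lit 0) (XT.lf (nat_lit 0) (nat_lit 884706738157) (nat_lit 168) (nat_lit 1420652291936) (nat_lit 252) (nat_lit 1415725610639) (nat_lit 60) (nat_lit 5) (nat_lit 62) (nat_lit 5) (nat_lit 63) (nat_lit 5) (nat_lit 459) (nat_lit 435) (nat_lit 186)) (XT.lf (nat_lit 0) (nat_lit 38317880558) (nat_lit 252) (nat_lit 3036350820100) (nat_lit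 84) (nat_lit 829562469561) (nat_lit 57) (nat_lit 5) (nat_lit 60) (nat_lit 5) (nat_lit 58) (nat_lit 5) (nat_lit 460) (nat_lit 435) (nat_lit 185)))) (XT.nd (nat_lit 188) (nat_lit 420) (nat_lit 0) (XT.nd (nat_lit 94) (nat_lit 168) (nat_lit 0) (XT.lf (nat_lit 0) (nat_lit 848734705042) (nat_lit 168) (nat_lit 798436876911) (nat_lit 252) (nat_lit 2449293066283) (nat_lit 55) (nat_lit 5) (nat_lit 57) (nat_lit 5) (nat_lit 58) (nat_lit 5) (nat_lit 461) (nat_lit 435) (nat_lit 184)) (XT.lf (nat_lit 0) (nat_lit 852112189230) (nat_lit 168) (nat_lit 2625599179620) (nat_lit 252) (nat_lit 821716546174) (nat_lit 53) (nat_lit 5) (nat_lit 55) (nat_lit 5) (nat_lit 56) (nat_lit 5) (nat_lit 462) (nat_lit 435) (nat_lit 183))) (XT.nd (nat_lit 94) (nat_lit 168) (nat_lit 0) (XT.lf (nat_lit 0) (nat_lit 879253969711) (nat_lit 168) (nat_lit 111543678654) (nat_lit 252) (nat_lit 3522865288351)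 (nat_lit 50) (nat_lit 5) (nat_lit 52) (nat_lit 5) (nat_lit 53) (nat_lit 5) (nat_lit 463) (nat_lit 435) (nat_lit 182)) (XT.lf (nat_lit 0) (nat_lit 906542402588) (nat_lit 168) (nat_lit 2129204676900) (nat_lit 252) (nat_lit 1702804990199) (nat_lit 48) (nat_lit 5) (nat_lit 50) (nat_lit 5) (nat_lit 51) (nat_lit 5) (nat_lit 464) (nat_lit 435) (nat_lit 181))))))))
noncomputable def xc227 : XT := (XT.nd (nat_lit 2632) (nat_lit 0) (nat_lit 0) (XT.nd (nat_lit 1316) (nat_lit 1848) (nat_lit 0) (XT.nd (nat_lit 658) (nat_lit 1092) (nat_lit 0) (XT.nd (nat_lit 282) (nat_lit 672) (nat_lit 0) (XT.nd (nat_lit 94) (nat_lit 252) (nat_lit 0) (XT.lf (nat_lit 0) (nat_lit 346242487387) (nat_lit 168) (nat_lit 4000456427842) (nat_lit 84) (nat_lit 629938442831) (nat_lit 46) (nat_lit 5) (nat_lit 48) (nat_lit 5) (nat_lit 47) (nat_lit 5) (nat_lit 465) (nat_lit 435) (nat_lit 180)) (XT.nd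 (nat_lit 94) (nat_lit 84) (nat_lit 0) (XT.lf (nat_lit 0) (nat_lit 1043111817956) (nat_lit 168) (nat_lit 1577275114548) (nat_lit 252) (nat_lit 2605945237130) (nat_lit 44) (nat_lit 5) (nat_lit 46) (nat_lit 5) (nat_lit 47) (nat_lit 5) (nat_lit 466) (nat_lit 435) (nat_lit 179)) (XT.lf (nat_lit 0) (nat_lit 1154230576264) (nat_lit 84) (nat_lit 4033152742145) (nat_lit 168) (nat_lit 303073228466) (nat_lit 43) (nat_lit 5) (nat_lit 44) (nat_lit 5) (nat_lit 45) (nat_lit 4) (nat_lit 467) (nat_lit 435) (nat_lit 178)))) (XT.nd (nat_lit 188) (nat_lit 336) (nat_lit 0) (XT.nd (nat_lit 94) (nat_lit 84) (nat_lit 0) (XT.lf (nat_lit 0) (nat_lit 1274907482873) (nat_lit 168) (nat_lit 959782695711) (nat_lit 252) (nat_lit 3533287545871) (nat_lit 40) (nat_lit 5) (nat_lit 42) (nat_lit 5) (nat_lit 43) (nat_lit 5) (nat_lit 468) (nat_lit 435) (nat_lit 177)) (XT.lf (nat_lit 0) (nat_lit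 1428383789143) (nat_lit 84) (nat_lit 3672525947698) (nat_lit 168) (nat_lit 959739774309) (nat_lit 39) (nat_lit 5) (nat_lit 40) (nat_lit 5) (nat_lit 41) (nat_lit 4) (nat_lit 469) (nat_lit 435) (nat_lit 176))) (XT.nd (nat_lit 94) (nat_lit 84) (nat_lit 0) (XT.lf (nat_lit 0) (nat_lit 1617057202776) (nat_lit 168) (nat_lit 265373037156) (nat_lit 252) (nat_lit 4486835280234) (nat_lit 36) (nat_lit 5) (nat_lit 38) (nat_lit 5) (nat_lit 39) (nat_lit 5) (nat_lit 470) (nat_lit 435) (nat_lit 175)) (XT.lf (nat_lit 0) (nat_lit 1820665715896) (nat_lit 84) (nat_lit 3261880242716) (nat_lit 168) (nat_lit 1611028343848) (nat_lit 35) (nat_lit 5) (nat_lit 36) (nat_lit 5) (nat_lit 37) (nat_lit 4) (nat_lit 471) (nat_lit 435) (nat_lit 174))))) (XT.nd (nat_lit 282) (nat_lit 504) (nat_lit 0) (XT.nd (nat_lit 94) (nat_lit 336) (nat_lit 0) (XT.lf (nat_lit 0) (nat_lit 1576295118652) (nat_lit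 252) (nat_lit 4957693578631) (nat_lit 84) (nat_lit 502207341143) (nat_lit 32) (nat_lit 5) (nat_lit 35) (nat_lit 5) (nat_lit 33) (nat_lit 4) (nat_lit 472) (nat_lit 435) (nat_lit 173)) (XT.nd (nat_lit 94) (nat_lit 252) (nat_lit 0) (XT.lf (nat_lit 0) (nat_lit 2349700439226) (nat_lit 84) (nat_lit 2791177127679) (nat_lit 168) (nat_lit 2255093646615) (nat_lit 31) (nat_lit 5) (nat_lit 32) (nat_lit 5) (nat_lit 33) (nat_lit 4) (nat_lit 473) (nat_lit 435) (nat_lit 172)) (XT.lf (nat_lit 0) (nat_lit 1319473683313) (nat_lit 252) (nat_lit 5094220448171) (nat_lit 84) (nat_lit 1362293834989) (nat_lit 28) (nat_lit 5) (nat_lit 31) (nat_lit 5) (nat_lit 29) (nat_lit 4) (nat_lit 474) (nat_lit 435) (nat_lit 171)))) (XT.nd (nat_lit 188) (nat_lit 252) (nat_lit 0) (XT.nd (nat_lit 94) (nat_lit 168) (nat_lit 0) (XT.lf (nat_lit 0) (nat_lit 3036908312676) (nat_lit 84) (nat_lit 2248969644644)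 (nat_lit 168) (nat_lit 2889435712226) (nat_lit 27) (nat_lit 5) (nat_lit 28) (nat_lit 5) (nat_lit 29) (nat_lit 4) (nat_lit 475) (nat_lit 435) (nat_lit 170)) (XT.lf (nat_lit 0) (nat_lit 1114656159515) (nat_lit 168) (nat_lit 5142708683119) (nat_lit 84) (nat_lit 2339345356557) (nat_lit 25) (nat_lit 5) (nat_lit 27) (nat_lit 5) (nat_lit 26) (nat_lit 4) (nat_lit 476) (nat_lit 435) (nat_lit 169))) (XT.nd (nat_lit 94) (nat_lit 168) (nat_lit 0) (XT.lf (nat_lit 0) (nat_lit 3906883086497) (nat_lit 84) (nat_lit 1622208082933) (nat_lit 168) (nat_lit 3510796514813) (nat_lit 24) (nat_lit 5) (nat_lit 25) (nat_lit 5) (nat_lit 26) (nat_lit 4) (nat_lit 477) (nat_lit 435) (nat_lit 168)) (XT.lf (nat_lit 0) (nat_lit 969917615951) (nat_lit 168) (nat_lit 5085720136338) (nat_lit 84) (nat_lit 3451441049870) (nat_lit 22) (nat_lit 5) (nat_lit 24) (nat_lit 5) (nat_lit 23) (nat_lit 4) (nat_lit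 478) (nat_lit 435) (nat_lit 167)))))) (XT.nd (nat_lit 658) (nat_lit 1008) (nat_lit 0) (XT.nd (nat_lit 282) (nat_lit 504) (nat_lit 0) (XT.nd (nat_lit 94) (nat_lit 252) (nat_lit 0) (XT.lf (nat_lit 0) (nat_lit 4987818096476) (nat_lit 84) (nat_lit 896020608934) (nat_lit 168) (nat_lit 4115041250219) (nat_lit 21) (nat_lit 5) (nat_lit 22) (nat_lit 5) (nat_lit 23) (nat_lit 4) (nat_lit 479) (nat_lit 435) (nat_lit 166)) (XT.nd (nat_lit 94) (nat_lit 84) (nat_lit 0) (XT.lf (nat_lit 0) (nat_lit 894747870564) (nat_lit 168) (nat_lit 4902958532154) (nat_lit 84) (nat_lit 4719050370877) (nat_lit 19) (nat_lit 5) (nat_lit 21) (nat_lit 5) (nat_lit 20) (nat_lit 4) (nat_lit 480) (nat_lit 435) (nat_lit 165)) (XT.lf (nat_lit 0) (nat_lit 6311987680612) (nat_lit 84) (nat_lit 53465659824) (nat_lit 168) (nat_lit 4697022200948) (nat_lit 18) (nat_lit 5) (nat_lit 19) (nat_lit 5) (nat_lit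 20) (nat_lit 4) (nat_lit 481) (nat_lit 435) (nat_lit 164)))) (XT.nd (nat_lit 188) (nat_lit 252) (nat_lit 0) (XT.nd (nat_lit 94) (nat_lit 84) (nat_lit 0) (XT.lf (nat_lit 0) (nat_lit 900248115426) (nat_lit 168) (nat_lit 4570864380250) (nat_lit 84) (nat_lit 6165344215685) (nat_lit 16) (nat_lit 5) (nat_lit 18) (nat_lit 5) (nat_lit 17) (nat_lit 4) (nat_lit 482) (nat_lit 435) (nat_lit 163)) (XT.lf (nat_lit 0) (nat_lit 7005981198991) (nat_lit 168) (nat_lit 4340113307783) (nat_lit 0) (nat_lit 895149753981) (nat_lit 15) (nat_lit 5) (nat_lit 17) (nat_lit 4) (nat_lit 15) (nat_lit 4) (nat_lit 483) (nat_lit 435) (nat_lit 162))) (XT.nd (nat_lit 94) (nat_lit 84) (nat_lit 0) (XT.lf (nat_lit 0) (nat_lit 999354058597) (nat_lit 168) (nat_lit 4062155625225) (nat_lit 84) (nat_lit 7816544956641) (nat_lit 13) (nat_lit 5) (nat_lit 15) (nat_lit 5) (nat_lit 14) (nat_lit 4) (nat_lit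 484) (nat_lit 435) (nat_lit 161)) (XT.lf (nat_lit 0) (nat_lit 7814461922024) (nat_lit 168) (nat_lit 3739177304873) (nat_lit 0) (nat_lit 1994622449963) (nat_lit 12) (nat_lit 5) (nat_lit 14) (nat_lit 4) (nat_lit 12) (nat_lit 4) (nat_lit 485) (nat_lit 435) (nat_lit 160))))) (XT.nd (nat_lit 282) (nat_lit 588) (nat_lit 0) (XT.nd (nat_lit 94) (nat_lit 252) (nat_lit 0) (XT.lf (nat_lit 0) (nat_lit 1207088975770) (nat_lit 168) (nat_lit 3345307072009) (nat_lit 84) (nat_lit 9702320167142) (nat_lit 10) (nat_lit 5) (nat_lit 12) (nat_lit 5) (nat_lit 11) (nat_lit 4) (nat_lit 486) (nat_lit 435) (nat_lit 159)) (XT.nd (nat_lit 94) (nat_lit 168) (nat_lit 0) (XT.lf (nat_lit 0) (nat_lit 8813543222589) (nat_lit 168) (nat_lit 2913046153064) (nat_lit 0) (nat_lit 3270838962974) (nat_lit 9) (nat_lit 5) (nat_lit 11) (nat_lit 4) (nat_lit 9) (nat_lit 4) (nat_lit 487) (nat_lit 435) (nat_lit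 158)) (XT.lf (nat_lit 0) (nat_lit 1540850488593) (nat_lit 168) (nat_lit 2383960758224) (nat_lit 84) (nat_lit 11856225393216) (nat_lit 7) (nat_lit 5) (nat_lit 9) (nat_lit 5) (nat_lit 8) (nat_lit 4) (nat_lit 488) (nat_lit 435) (nat_lit 157)))) (XT.nd (nat_lit 188) (nat_lit 336) (nat_lit 0) (XT.nd (nat_lit 94) (nat_lit 168) (nat_lit 0) (XT.lf (nat_lit 0) (nat_lit 10030051425166) (nat_lit 168) (nat_lit 1822770974125) (nat_lit 0) (nat_lit 4751285463213) (nat_lit 6) (nat_lit 5) (nat_lit 8) (nat_lit 4) (nat_lit 6) (nat_lit 4) (nat_lit 489) (nat_lit 435) (nat_lit 156)) (XT.lf (nat_lit 0) (nat_lit 2020735362392) (nat_lit 168) (nat_lit 1136258469234) (nat_lit 84) (nat_lit 14316201976069) (nat_lit 4) (nat_lit 5) (nat_lit 6) (nat_lit 5) (nat_lit 5) (nat_lit 4) (nat_lit 490) (nat_lit 435) (nat_lit 155))) (XT.nd (nat_lit 94) (nat_lit 252) (nat_lit 0) (XT.lf (nat_lit 0)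 (nat_lit 11494592247396) (nat_lit 168) (nat_lit 423543644671) (nat_lit 0) (nat_lit 6467196092816) (nat_lit 3) (nat_lit 5) (nat_lit 5) (nat_lit 4) (nat_lit 3) (nat_lit 4) (nat_lit 491) (nat_lit 435) (nat_lit 154)) (XT.lf (nat_lit 0) (nat_lit 28067595136291) (nat_lit 0) (nat_lit 0) (nat_lit 0) (nat_lit 0) (nat_lit 0) (nat_lit 0) (nat_lit 1) (nat_lit 0) (nat_lit 1) (nat_lit 0) (nat_lit 492) (nat_lit 435) (nat_lit 153))))))) (XT.nd (nat_lit 63262) (nat_lit 0) (nat_lit 5208) (XT.nd (nat_lit 62604) (nat_lit 0) (nat_lit 9744) (XT.nd (nat_lit 282) (nat_lit 0) (nat_lit 0) (XT.nd (nat_lit 94) (nat_lit 0) (nat_lit 0) (XT.lf (nat_lit 0) (nat_lit 30285411488144) (nat_lit 0) (nat_lit 0) (nat_lit 0) (nat_lit 0) (nat_lit 0) (nat_lit 0) (nat_lit 1) (nat_lit 0) (nat_lit 1) (nat_lit 0) (nat_lit 493) (nat_lit 435) (nat_lit 152)) (XT.nd (nat_lit 94) (nat_lit 0) (nat_lit 0) (XT.lf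 (nat_lit 0) (nat_lit 32680653148148) (nat_lit 0) (nat_lit 0) (nat_lit 0) (nat_lit 0) (nat_lit 0) (nat_lit 0) (nat_lit 1) (nat_lit 0) (nat_lit 1) (nat_lit 0) (nat_lit 494) (nat_lit 435) (nat_lit 151)) (XT.lf (nat_lit 0) (nat_lit 35267514140952) (nat_lit 0) (nat_lit 0) (nat_lit 0) (nat_lit 0) (nat_lit 0) (nat_lit 0) (nat_lit 1) (nat_lit 0) (nat_lit 1) (nat_lit 0) (nat_lit 495) (nat_lit 435) (nat_lit 150)))) (XT.nd (nat_lit 62134) (nat_lit 0) (nat_lit 10752) (XT.nd (nat_lit 94) (nat_lit 0) (nat_lit 0) (XT.lf (nat_lit 0) (nat_lit 38061324013183) (nat_lit 0) (nat_lit 0) (nat_lit 0) (nat_lit 0) (nat_lit 0) (nat_lit 0) (nat_lit 1) (nat_lit 0) (nat_lit 1) (nat_lit 0) (nat_lit 496) (nat_lit 435) (nat_lit 149)) (XT.lf (nat_lit 0) (nat_lit 41078638675193) (nat_lit 0) (nat_lit 0) (nat_lit 0) (nat_lit 0) (nat_lit 0) (nat_lit 0) (nat_lit 1) (nat_lit 0) (nat_lit 1) (nat_lit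 0) (nat_lit 497) (nat_lit 435) (nat_lit 148))) (XT.nd (nat_lit 94) (nat_lit 0) (nat_lit 84) (XT.lf (nat_lit 0) (nat_lit 330959549253) (nat_lit 924) (nat_lit 186404061142) (nat_lit 924) (nat_lit 186404061142) (nat_lit 128) (nat_lit 3) (nat_lit 139) (nat_lit 3) (nat_lit 139) (nat_lit 5) (nat_lit 436) (nat_lit 436) (nat_lit 208)) (XT.lf (nat_lit 0) (nat_lit 701755872923) (nat_lit 840) (nat_lit 686315554347) (nat_lit 924) (nat_lit 75097329005) (nat_lit 129) (nat_lit 5) (nat_lit 139) (nat_lit 5) (nat_lit 140) (nat_lit 5) (nat_lit 437) (nat_lit 436) (nat_lit 207))))) (XT.nd (nat_lit 282) (nat_lit 1092) (nat_lit 0) (XT.nd (nat_lit 94) (nat_lit 0) (nat_lit 84) (XT.lf (nat_lit 84) (nat_lit 507563498507) (nat_lit 0) (nat_lit 269188502647) (nat_lit 924) (nat_lit 744902220784) (nat_lit 130) (nat_lit 5) (nat_lit 129) (nat_lit 5) (nat_lit 140) (nat_lit 5) (nat_lit 438)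 (nat_lit 436) (nat_lit 206)) (XT.nd (nat_lit 94) (nat_lit 0) (nat_lit 84) (XT.lf (nat_lit 84) (nat_lit 229733510850) (nat_lit 0) (nat_lit 658415871645) (nat_lit 924) (nat_lit 695149064214) (nat_lit 131) (nat_lit 5) (nat_lit 130) (nat_lit 5) (nat_lit 141) (nat_lit 5) (nat_lit 439) (nat_lit 436) (nat_lit 205)) (XT.lf (nat_lit 0) (nat_lit 1039550877981) (nat_lit 840) (nat_lit 53141957898) (nat_lit 924) (nat_lit 555626757403) (nat_lit 131) (nat_lit 5) (nat_lit 141) (nat_lit 5) (nat_lit 142) (nat_lit 5) (nat_lit 440) (nat_lit 436) (nat_lit 204)))) (XT.nd (nat_lit 188) (nat_lit 1344) (nat_lit 0) (XT.nd (nat_lit 94) (nat_lit 0) (nat_lit 0) (XT.lf (nat_lit 0) (nat_lit 1238105218399) (nat_lit 840) (nat_lit 334702563186) (nat_lit 924) (nat_lit 143982613731) (nat_lit 132) (nat_lit 5) (nat_lit 142) (nat_lit 5) (nat_lit 143) (nat_lit 5) (nat_lit 441) (nat_lit 436) (nat_lit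 203)) (XT.lf (nat_lit 84) (nat_lit 1162095446925) (nat_lit 0) (nat_lit 327957693233) (nat_lit 924) (nat_lit 298810259649) (nat_lit 133) (nat_lit 5) (nat_lit 132) (nat_lit 5) (nat_lit 143) (nat_lit 5) (nat_lit 442) (nat_lit 436) (nat_lit 202))) (XT.nd (nat_lit 94) (nat_lit 588) (nat_lit 0) (XT.lf (nat_lit 0) (nat_lit 938242622562) (nat_lit 840) (nat_lit 860358855482) (nat_lit 924) (nat_lit 66278537494) (nat_lit 123) (nat_lit 5) (nat_lit 133) (nat_lit 5) (nat_lit 134) (nat_lit 5) (nat_lit 443) (nat_lit 436) (nat_lit 201)) (XT.lf (nat_lit 0) (nat_lit 214782909164) (nat_lit 588) (nat_lit 1234620177003) (nat_lit 84) (nat_lit 495638382351) (nat_lit 116) (nat_lit 5) (nat_lit 123) (nat_lit 5) (nat_lit 117) (nat_lit 5) (nat_lit 444) (nat_lit 436) (nat_lit 200)))))) (XT.nd (nat_lit 658) (nat_lit 2268) (nat_lit 0) (XT.nd (nat_lit 282) (nat_lit 1092) (nat_lit 0) (XT.nd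 (nat_lit 94) (nat_lit 756) (nat_lit 0) (XT.lf (nat_lit 0) (nat_lit 480206001842) (nat_lit 420) (nat_lit 74242855687) (nat_lit 504) (nat_lit 1475190570384) (nat_lit 111) (nat_lit 5) (nat_lit 116) (nat_lit 5) (nat_lit 117) (nat_lit 5) (nat_lit 445) (nat_lit 436) (nat_lit 199)) (XT.nd (nat_lit 94) (nat_lit 336) (nat_lit 0) (XT.lf (nat_lit 0) (nat_lit 241732049025) (nat_lit 420) (nat_lit 727217567936) (nat_lit 504) (nat_lit 1149672530339) (nat_lit 106) (nat_lit 5) (nat_lit 111) (nat_lit 5) (nat_lit 112) (nat_lit 5) (nat_lit 446) (nat_lit 436) (nat_lit 198)) (XT.lf (nat_lit 0) (nat_lit 4806490714) (nat_lit 336) (nat_lit 1452363013075) (nat_lit 420) (nat_lit 755526027116) (nat_lit 102) (nat_lit 5) (nat_lit 106) (nat_lit 5) (nat_lit 107) (nat_lit 5) (nat_lit 447) (nat_lit 436) (nat_lit 197)))) (XT.nd (nat_lit 188) (nat_lit 672) (nat_lit 0) (XT.nd (nat_lit 94) (nat_lit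 420) (nat_lit 0) (XT.lf (nat_lit 0) (nat_lit 2030176571526) (nat_lit 420) (nat_lit 221633508913) (nat_lit 84) (nat_lit 60198225262) (nat_lit 102) (nat_lit 5) (nat_lit 107) (nat_lit 5) (nat_lit 103) (nat_lit 5) (nat_lit 448) (nat_lit 436) (nat_lit 196)) (XT.lf (nat_lit 0) (nat_lit 278427054070) (nat_lit 420) (nat_lit 459177333972) (nat_lit 84) (nat_lit 1678681223746) (nat_lit 97) (nat_lit 5) (nat_lit 102) (nat_lit 5) (nat_lit 98) (nat_lit 5) (nat_lit 449) (nat_lit 436) (nat_lit 195))) (XT.nd (nat_lit 94) (nat_lit 336) (nat_lit 0) (XT.lf (nat_lit 0) (nat_lit 921101669232) (nat_lit 420) (nat_lit 698121294916) (nat_lit 84) (nat_lit 907077671845) (nat_lit 93) (nat_lit 5) (nat_lit 98) (nat_lit 5) (nat_lit 94) (nat_lit 5) (nat_lit 450) (nat_lit 436) (nat_lit 194)) (XT.lf (nat_lit 0) (nat_lit 1663273260770) (nat_lit 420) (nat_lit 931086447473) (nat_lit 84) (nat_lit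 48353003535) (nat_lit 89) (nat_lit 5) (nat_lit 94) (nat_lit 5) (nat_lit 90) (nat_lit 5) (nat_lit 451) (nat_lit 436) (nat_lit 193))))) (XT.nd (nat_lit 376) (nat_lit 1092) (nat_lit 0) (XT.nd (nat_lit 188) (nat_lit 504) (nat_lit 0) (XT.nd (nat_lit 94) (nat_lit 420) (nat_lit 0) (XT.lf (nat_lit 0) (nat_lit 1594794570333) (nat_lit 252) (nat_lit 934586457109) (nat_lit 336) (nat_lit 235828603793) (nat_lit 86) (nat_lit 5) (nat_lit 89) (nat_lit 5) (nat_lit 90) (nat_lit 5) (nat_lit 452) (nat_lit 436) (nat_lit 192)) (XT.lf (nat_lit 0) (nat_lit 603183821998) (nat_lit 420) (nat_lit 1411137575062) (nat_lit 84) (nat_lit 880038626145) (nat_lit 81) (nat_lit 5) (nat_lit 86) (nat_lit 5) (nat_lit 82) (nat_lit 5) (nat_lit 453) (nat_lit 436) (nat_lit 191))) (XT.nd (nat_lit 94) (nat_lit 252) (nat_lit 0) (XT.lf (nat_lit 0) (nat_lit 1382295574243) (nat_lit 252) (nat_lit 176932283881)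 (nat_lit 336) (nat_lit 1471512641186) (nat_lit 78) (nat_lit 5) (nat_lit 81) (nat_lit 5) (nat_lit 82) (nat_lit 5) (nat_lit 454) (nat_lit 436) (nat_lit 190)) (XT.lf (nat_lit 0) (nat_lit 1285307863761) (nat_lit 252) (nat_lit 1379718212429) (nat_lit 336) (nat_lit 509341804360) (nat_lit 75) (nat_lit 5) (nat_lit 78) (nat_lit 5) (nat_lit 79) (nat_lit 5) (nat_lit 455) (nat_lit 436) (nat_lit 189)))) (XT.nd (nat_lit 188) (nat_lit 504) (nat_lit 0) (XT.nd (nat_lit 94) (nat_lit 252) (nat_lit 0) (XT.lf (nat_lit 0) (nat_lit 574044028525) (nat_lit 336) (nat_lit 2124999464246) (nat_lit 84) (nat_lit 626968458065) (nat_lit 71) (nat_lit 5) (nat_lit 75) (nat_lit 5) (nat_lit 72) (nat_lit 5) (nat_lit 456) (nat_lit 436) (nat_lit 188)) (XT.lf (nat_lit 0) (nat_lit 1121095896465) (nat_lit 252) (nat_lit 679612212678) (nat_lit 336) (nat_lit 1684939332477) (nat_lit 68) (nat_lit 5) (nat_lit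 71) (nat_lit 5) (nat_lit 72) (nat_lit 5) (nat_lit 457) (nat_lit 436) (nat_lit 187))) (XT.nd (nat_lit 94) (nat_lit 336) (nat_lit 0) (XT.lf (nat_lit 0) (nat_lit 1056320340236) (nat_lit 168) (nat_lit 2146740685529) (nat_lit 252) (nat_lit 451114960427) (nat_lit 66) (nat_lit 5) (nat_lit 68) (nat_lit 5) (nat_lit 69) (nat_lit 5) (nat_lit 458) (nat_lit 436) (nat_lit 186)) (XT.lf (nat_lit 0) (nat_lit 923589730690) (nat_lit 336) (nat_lit 2825854355164) (nat_lit 84) (nat_lit 82535402004) (nat_lit 62) (nat_lit 5) (nat_lit 66) (nat_lit 5) (nat_lit 63) (nat_lit 5) (nat_lit 459) (nat_lit 436) (nat_lit 185))))))))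
noncomputable def xc228 : XT := (XT.nd (nat_lit 2632) (nat_lit 840) (nat_lit 0) (XT.nd (nat_lit 1316) (nat_lit 1848) (nat_lit 0) (XT.nd (nat_lit 658) (nat_lit 1176) (nat_lit 0) (XT.nd (nat_lit 282) (nat_lit 756) (nat_lit 0) (XT.nd (nat_lit 94) (nat_lit 420) (nat_lit 0) (XT.lf (nat_lit 0) (nat_lit 955483327001) (nat_lit 168) (nat_lit 1534304456042) (nat_lit 252) (nat_lit 1528983627421) (nat_lit 60) (nat_lit 5) (nat_lit 62) (nat_lit 5) (nat_lit 63) (nat_lit 5) (nat_lit 460) (nat_lit 436) (nat_lit 184)) (XT.nd (nat_lit 94) (nat_lit 168) (nat_lit 0) (XT.lf (nat_lit 0) (nat_lit 41383340803) (nat_lit 252) (nat_lit 3279258835922) (nat_lit 84) (nat_lit 895927485622) (nat_lit 57) (nat_lit 5) (nat_lit 60) (nat_lit 5) (nat_lit 58) (nat_lit 5) (nat_lit 461) (nat_lit 436) (nat_lit 183)) (XT.lf (nat_lit 0) (nat_lit 916633529068) (nat_lit 168) (nat_lit 862311807778) (nat_lit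 252) (nat_lit 2645236481832) (nat_lit 55) (nat_lit 5) (nat_lit 57) (nat_lit 5) (nat_lit 58) (nat_lit 5) (nat_lit 462) (nat_lit 436) (nat_lit 182)))) (XT.nd (nat_lit 188) (nat_lit 336) (nat_lit 0) (XT.nd (nat_lit 94) (nat_lit 252) (nat_lit 0) (XT.lf (nat_lit 0) (nat_lit 920281210988) (nat_lit 168) (nat_lit 2835647094614) (nat_lit 252) (nat_lit 887453841262) (nat_lit 53) (nat_lit 5) (nat_lit 55) (nat_lit 5) (nat_lit 56) (nat_lit 5) (nat_lit 463) (nat_lit 436) (nat_lit 181)) (XT.lf (nat_lit 0) (nat_lit 949594332758) (nat_lit 168) (nat_lit 120467153826) (nat_lit 252) (nat_lit 3804694483752) (nat_lit 50) (nat_lit 5) (nat_lit 52) (nat_lit 5) (nat_lit 53) (nat_lit 5) (nat_lit 464) (nat_lit 436) (nat_lit 180))) (XT.nd (nat_lit 94) (nat_lit 168) (nat_lit 0) (XT.lf (nat_lit 0) (nat_lit 979065839263) (nat_lit 168) (nat_lit 2299541031952) (nat_lit 252) (nat_lit 1839029362778)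 (nat_lit 48) (nat_lit 5) (nat_lit 50) (nat_lit 5) (nat_lit 51) (nat_lit 5) (nat_lit 465) (nat_lit 436) (nat_lit 179)) (XT.lf (nat_lit 0) (nat_lit 373941911223) (nat_lit 168) (nat_lit 4320492897784) (nat_lit 84) (nat_lit 680333536455) (nat_lit 46) (nat_lit 5) (nat_lit 48) (nat_lit 5) (nat_lit 47) (nat_lit 5) (nat_lit 466) (nat_lit 436) (nat_lit 178))))) (XT.nd (nat_lit 282) (nat_lit 672) (nat_lit 0) (XT.nd (nat_lit 94) (nat_lit 336) (nat_lit 0) (XT.lf (nat_lit 0) (nat_lit 1126560805753) (nat_lit 168) (nat_lit 1703457105016) (nat_lit 252) (nat_lit 2814420831251) (nat_lit 44) (nat_lit 5) (nat_lit 46) (nat_lit 5) (nat_lit 47) (nat_lit 5) (nat_lit 467) (nat_lit 436) (nat_lit 177)) (XT.nd (nat_lit 94) (nat_lit 252) (nat_lit 0) (XT.lf (nat_lit 0) (nat_lit 1246569063737) (nat_lit 84) (nat_lit 4355804942973) (nat_lit 168) (nat_lit 327319062773) (nat_lit 43) (nat_lit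 5) (nat_lit 44) (nat_lit 5) (nat_lit 45) (nat_lit 4) (nat_lit 468) (nat_lit 436) (nat_lit 176)) (XT.lf (nat_lit 0) (nat_lit 1376900121811) (nat_lit 168) (nat_lit 1036565293173) (nat_lit 252) (nat_lit 3815950526321) (nat_lit 40) (nat_lit 5) (nat_lit 42) (nat_lit 5) (nat_lit 43) (nat_lit 5) (nat_lit 469) (nat_lit 436) (nat_lit 175)))) (XT.nd (nat_lit 188) (nat_lit 336) (nat_lit 0) (XT.nd (nat_lit 94) (nat_lit 252) (nat_lit 0) (XT.lf (nat_lit 0) (nat_lit 1542654531617) (nat_lit 84) (nat_lit 3966328005524) (nat_lit 168) (nat_lit 1036518933833) (nat_lit 39) (nat_lit 5) (nat_lit 40) (nat_lit 5) (nat_lit 41) (nat_lit 4) (nat_lit 470) (nat_lit 436) (nat_lit 174)) (XT.lf (nat_lit 0) (nat_lit 1746421817317) (nat_lit 168) (nat_lit 286602862503) (nat_lit 252) (nat_lit 4845782080924) (nat_lit 36) (nat_lit 5) (nat_lit 38) (nat_lit 5) (nat_lit 39) (nat_lit 5) (nat_lit 471)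 (nat_lit 436) (nat_lit 173))) (XT.nd (nat_lit 94) (nat_lit 252) (nat_lit 0) (XT.lf (nat_lit 0) (nat_lit 1966319010548) (nat_lit 84) (nat_lit 3522830644752) (nat_lit 168) (nat_lit 1739910590357) (nat_lit 35) (nat_lit 5) (nat_lit 36) (nat_lit 5) (nat_lit 37) (nat_lit 4) (nat_lit 472) (nat_lit 436) (nat_lit 172)) (XT.lf (nat_lit 0) (nat_lit 1702398747799) (nat_lit 252) (nat_lit 5354309027819) (nat_lit 84) (nat_lit 542383944899) (nat_lit 32) (nat_lit 5) (nat_lit 35) (nat_lit 5) (nat_lit 33) (nat_lit 4) (nat_lit 473) (nat_lit 436) (nat_lit 171)))))) (XT.nd (nat_lit 658) (nat_lit 924) (nat_lit 0) (XT.nd (nat_lit 282) (nat_lit 504) (nat_lit 0) (XT.nd (nat_lit 94) (nat_lit 336) (nat_lit 0) (XT.lf (nat_lit 0) (nat_lit 2537676509854) (nat_lit 84) (nat_lit 3014471281156) (nat_lit 168) (nat_lit 2435501118653) (nat_lit 31) (nat_lit 5) (nat_lit 32) (nat_lit 5) (nat_lit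 33) (nat_lit 4) (nat_lit 474) (nat_lit 436) (nat_lit 170)) (XT.nd (nat_lit 94) (nat_lit 84) (nat_lit 0) (XT.lf (nat_lit 0) (nat_lit 1425031596422) (nat_lit 252) (nat_lit 5501758048820) (nat_lit 84) (nat_lit 1471277357627) (nat_lit 28) (nat_lit 5) (nat_lit 31) (nat_lit 5) (nat_lit 29) (nat_lit 4) (nat_lit 475) (nat_lit 436) (nat_lit 169)) (XT.lf (nat_lit 0) (nat_lit 3279861011365) (nat_lit 84) (nat_lit 2428887200144) (nat_lit 168) (nat_lit 3120590550721) (nat_lit 27) (nat_lit 5) (nat_lit 28) (nat_lit 5) (nat_lit 29) (nat_lit 4) (nat_lit 476) (nat_lit 436) (nat_lit 168)))) (XT.nd (nat_lit 188) (nat_lit 252) (nat_lit 0) (XT.nd (nat_lit 94) (nat_lit 84) (nat_lit 0) (XT.lf (nat_lit 0) (nat_lit 1203828669600) (nat_lit 168) (nat_lit 5554125344383) (nat_lit 84) (nat_lit 2526493000278) (nat_lit 25) (nat_lit 5) (nat_lit 27) (nat_lit 5) (nat_lit 26) (nat_lit 4) (nat_lit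 477) (nat_lit 436) (nat_lit 167)) (XT.lf (nat_lit 0) (nat_lit 4219433765351) (nat_lit 84) (nat_lit 1751984714172) (nat_lit 168) (nat_lit 3791660218633) (nat_lit 24) (nat_lit 5) (nat_lit 25) (nat_lit 5) (nat_lit 26) (nat_lit 4) (nat_lit 478) (nat_lit 436) (nat_lit 166))) (XT.nd (nat_lit 94) (nat_lit 84) (nat_lit 0) (XT.lf (nat_lit 0) (nat_lit 1047511041512) (nat_lit 168) (nat_lit 5492577715598) (nat_lit 84) (nat_lit 3727556348408) (nat_lit 22) (nat_lit 5) (nat_lit 24) (nat_lit 5) (nat_lit 23) (nat_lit 4) (nat_lit 479) (nat_lit 436) (nat_lit 165)) (XT.lf (nat_lit 0) (nat_lit 5386843574466) (nat_lit 84) (nat_lit 967702242928) (nat_lit 168) (nat_lit 4444244533908) (nat_lit 21) (nat_lit 5) (nat_lit 22) (nat_lit 5) (nat_lit 23) (nat_lit 4) (nat_lit 480) (nat_lit 436) (nat_lit 164))))) (XT.nd (nat_lit 282) (nat_lit 504) (nat_lit 0) (XT.nd (nat_lit 94) (nat_lit 252)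 (nat_lit 0) (XT.lf (nat_lit 0) (nat_lit 966327715528) (nat_lit 168) (nat_lit 5295195184740) (nat_lit 84) (nat_lit 5096574414449) (nat_lit 19) (nat_lit 5) (nat_lit 21) (nat_lit 5) (nat_lit 20) (nat_lit 4) (nat_lit 481) (nat_lit 436) (nat_lit 163)) (XT.nd (nat_lit 94) (nat_lit 168) (nat_lit 0) (XT.lf (nat_lit 0) (nat_lit 6816946723744) (nat_lit 84) (nat_lit 57742898559) (nat_lit 168) (nat_lit 5072783961659) (nat_lit 18) (nat_lit 5) (nat_lit 19) (nat_lit 5) (nat_lit 20) (nat_lit 4) (nat_lit 482) (nat_lit 436) (nat_lit 162)) (XT.lf (nat_lit 0) (nat_lit 972267979081) (nat_lit 168) (nat_lit 4936533502266) (nat_lit 84) (nat_lit 6658571766202) (nat_lit 16) (nat_lit 5) (nat_lit 18) (nat_lit 5) (nat_lit 17) (nat_lit 4) (nat_lit 483) (nat_lit 436) (nat_lit 161)))) (XT.nd (nat_lit 188) (nat_lit 252) (nat_lit 0) (XT.nd (nat_lit 94) (nat_lit 168) (nat_lit 0) (XT.lf (nat_lit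 0) (nat_lit 7566459708895) (nat_lit 168) (nat_lit 4687322344758) (nat_lit 0) (nat_lit 966761747263) (nat_lit 15) (nat_lit 5) (nat_lit 17) (nat_lit 4) (nat_lit 15) (nat_lit 4) (nat_lit 484) (nat_lit 436) (nat_lit 160)) (XT.lf (nat_lit 0) (nat_lit 1079302396867) (nat_lit 168) (nat_lit 4387128048345) (nat_lit 84) (nat_lit 8441868565809) (nat_lit 13) (nat_lit 5) (nat_lit 15) (nat_lit 5) (nat_lit 14) (nat_lit 4) (nat_lit 485) (nat_lit 436) (nat_lit 159))) (XT.nd (nat_lit 94) (nat_lit 168) (nat_lit 0) (XT.lf (nat_lit 0) (nat_lit 8439618888964) (nat_lit 168) (nat_lit 4038311463083) (nat_lit 0) (nat_lit 2154192258303) (nat_lit 12) (nat_lit 5) (nat_lit 14) (nat_lit 4) (nat_lit 12) (nat_lit 4) (nat_lit 486) (nat_lit 436) (nat_lit 158)) (XT.lf (nat_lit 0) (nat_lit 1303656106628) (nat_lit 168) (nat_lit 3612931612309) (nat_lit 84) (nat_lit 10478505792538) (nat_lit 10)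 (nat_lit 5) (nat_lit 12) (nat_lit 5) (nat_lit 11) (nat_lit 4) (nat_lit 487) (nat_lit 436) (nat_lit 157))))))) (XT.nd (nat_lit 63356) (nat_lit 0) (nat_lit 6804) (XT.nd (nat_lit 658) (nat_lit 0) (nat_lit 0) (XT.nd (nat_lit 282) (nat_lit 504) (nat_lit 0) (XT.nd (nat_lit 94) (nat_lit 252) (nat_lit 0) (XT.lf (nat_lit 0) (nat_lit 9518626692814) (nat_lit 168) (nat_lit 3146089820532) (nat_lit 0) (nat_lit 3532506091749) (nat_lit 9) (nat_lit 5) (nat_lit 11) (nat_lit 4) (nat_lit 9) (nat_lit 4) (nat_lit 488) (nat_lit 436) (nat_lit 156)) (XT.nd (nat_lit 94) (nat_lit 84) (nat_lit 0) (XT.lf (nat_lit 0) (nat_lit 1664118539744) (nat_lit 168) (nat_lit 2574677594782) (nat_lit 84) (nat_lit 12804723436106) (nat_lit 7) (nat_lit 5) (nat_lit 9) (nat_lit 5) (nat_lit 8) (nat_lit 4) (nat_lit 489) (nat_lit 436) (nat_lit 155)) (XT.lf (nat_lit 0) (nat_lit 10832455550890) (nat_lit 168)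 (nat_lit 1968592628604) (nat_lit 0) (nat_lit 5131388311424) (nat_lit 6) (nat_lit 5) (nat_lit 8) (nat_lit 4) (nat_lit 6) (nat_lit 4) (nat_lit 490) (nat_lit 436) (nat_lit 154)))) (XT.nd (nat_lit 188) (nat_lit 252) (nat_lit 0) (XT.nd (nat_lit 94) (nat_lit 84) (nat_lit 0) (XT.lf (nat_lit 0) (nat_lit 2182394202761) (nat_lit 168) (nat_lit 1227159123962) (nat_lit 84) (nat_lit 15461498145018) (nat_lit 4) (nat_lit 5) (nat_lit 6) (nat_lit 5) (nat_lit 5) (nat_lit 4) (nat_lit 491) (nat_lit 436) (nat_lit 153)) (XT.lf (nat_lit 0) (nat_lit 12414159638231) (nat_lit 168) (nat_lit 457427114061) (nat_lit 0) (nat_lit 6984571790830) (nat_lit 3) (nat_lit 5) (nat_lit 5) (nat_lit 4) (nat_lit 3) (nat_lit 4) (nat_lit 492) (nat_lit 436) (nat_lit 152))) (XT.nd (nat_lit 94) (nat_lit 0) (nat_lit 0) (XT.lf (nat_lit 0) (nat_lit 30313002747165) (nat_lit 0) (nat_lit 0) (nat_lit 0) (nat_lit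 0) (nat_lit 0) (nat_lit 0) (nat_lit 1) (nat_lit 0) (nat_lit 1) (nat_lit 0) (nat_lit 493) (nat_lit 436) (nat_lit 151)) (XT.lf (nat_lit 0) (nat_lit 32708244407169) (nat_lit 0) (nat_lit 0) (nat_lit 0) (nat_lit 0) (nat_lit 0) (nat_lit 0) (nat_lit 1) (nat_lit 0) (nat_lit 1) (nat_lit 0) (nat_lit 494) (nat_lit 436) (nat_lit 150))))) (XT.nd (nat_lit 62322) (nat_lit 0) (nat_lit 10752) (XT.nd (nat_lit 94) (nat_lit 0) (nat_lit 0) (XT.lf (nat_lit 0) (nat_lit 35295105399975) (nat_lit 0) (nat_lit 0) (nat_lit 0) (nat_lit 0) (nat_lit 0) (nat_lit 0) (nat_lit 1) (nat_lit 0) (nat_lit 1) (nat_lit 0) (nat_lit 495) (nat_lit 436) (nat_lit 149)) (XT.nd (nat_lit 94) (nat_lit 0) (nat_lit 0) (XT.lf (nat_lit 0) (nat_lit 38088915272206) (nat_lit 0) (nat_lit 0) (nat_lit 0) (nat_lit 0) (nat_lit 0) (nat_lit 0) (nat_lit 1) (nat_lit 0) (nat_lit 1) (nat_lit 0) (nat_lit 496) (nat_lit 436) (nat_lit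 148)) (XT.lf (nat_lit 0) (nat_lit 41106229934217) (nat_lit 0) (nat_lit 0) (nat_lit 0) (nat_lit 0) (nat_lit 0) (nat_lit 0) (nat_lit 1) (nat_lit 0) (nat_lit 1) (nat_lit 0) (nat_lit 497) (nat_lit 436) (nat_lit 147)))) (XT.nd (nat_lit 188) (nat_lit 0) (nat_lit 84) (XT.nd (nat_lit 94) (nat_lit 0) (nat_lit 84) (XT.lf (nat_lit 0) (nat_lit 357436363074) (nat_lit 924) (nat_lit 201316359846) (nat_lit 924) (nat_lit 201316359846) (nat_lit 128) (nat_lit 3) (nat_lit 139) (nat_lit 3) (nat_lit 139) (nat_lit 5) (nat_lit 437) (nat_lit 437) (nat_lit 206)) (XT.lf (nat_lit 0) (nat_lit 757896435239) (nat_lit 840) (nat_lit 741220743266) (nat_lit 924) (nat_lit 81105073648) (nat_lit 129) (nat_lit 5) (nat_lit 139) (nat_lit 5) (nat_lit 140) (nat_lit 5) (nat_lit 438) (nat_lit 437) (nat_lit 205))) (XT.nd (nat_lit 94) (nat_lit 0) (nat_lit 84) (XT.lf (nat_lit 84) (nat_lit 548168631407)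 (nat_lit 0) (nat_lit 290723616298) (nat_lit 924) (nat_lit 804494307665) (nat_lit 130) (nat_lit 5) (nat_lit 129) (nat_lit 5) (nat_lit 140) (nat_lit 5) (nat_lit 439) (nat_lit 437) (nat_lit 204)) (XT.lf (nat_lit 84) (nat_lit 248112247068) (nat_lit 0) (nat_lit 711089166462) (nat_lit 924) (nat_lit 750760904894) (nat_lit 131) (nat_lit 5) (nat_lit 130) (nat_lit 5) (nat_lit 141) (nat_lit 5) (nat_lit 440) (nat_lit 437) (nat_lit 203)))))) (XT.nd (nat_lit 658) (nat_lit 2100) (nat_lit 0) (XT.nd (nat_lit 282) (nat_lit 2100) (nat_lit 0) (XT.nd (nat_lit 94) (nat_lit 0) (nat_lit 84) (XT.lf (nat_lit 0) (nat_lit 1122715022333) (nat_lit 840) (nat_lit 57393259194) (nat_lit 924) (nat_lit 600076875512) (nat_lit 131) (nat_lit 5) (nat_lit 141) (nat_lit 5) (nat_lit 142) (nat_lit 5) (nat_lit 441) (nat_lit 437) (nat_lit 202)) (XT.nd (nat_lit 94) (nat_lit 0) (nat_lit 0) (XT.lf (nat_lit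 0) (nat_lit 1337153705063) (nat_lit 840) (nat_lit 361478711579) (nat_lit 924) (nat_lit 155501206839) (nat_lit 132) (nat_lit 5) (nat_lit 142) (nat_lit 5) (nat_lit 143) (nat_lit 5) (nat_lit 442) (nat_lit 437) (nat_lit 201)) (XT.lf (nat_lit 84) (nat_lit 1255063136878) (nat_lit 0) (nat_lit 354194319406) (nat_lit 924) (nat_lit 322715012262) (nat_lit 133) (nat_lit 5) (nat_lit 132) (nat_lit 5) (nat_lit 143) (nat_lit 5) (nat_lit 443) (nat_lit 437) (nat_lit 200)))) (XT.nd (nat_lit 188) (nat_lit 840) (nat_lit 0) (XT.nd (nat_lit 94) (nat_lit 588) (nat_lit 0) (XT.lf (nat_lit 0) (nat_lit 1013302087476) (nat_lit 840) (nat_lit 929187569622) (nat_lit 924) (nat_lit 71580756642) (nat_lit 123) (nat_lit 5) (nat_lit 133) (nat_lit 5) (nat_lit 134) (nat_lit 5) (nat_lit 444) (nat_lit 437) (nat_lit 199)) (XT.lf (nat_lit 0) (nat_lit 231965599926) (nat_lit 588) (nat_lit 1333389733537)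 (nat_lit 84) (nat_lit 535289449634) (nat_lit 116) (nat_lit 5) (nat_lit 123) (nat_lit 5) (nat_lit 117) (nat_lit 5) (nat_lit 445) (nat_lit 437) (nat_lit 198))) (XT.nd (nat_lit 94) (nat_lit 420) (nat_lit 0) (XT.lf (nat_lit 0) (nat_lit 518622537111) (nat_lit 420) (nat_lit 80182283612) (nat_lit 504) (nat_lit 1593205758694) (nat_lit 111) (nat_lit 5) (nat_lit 116) (nat_lit 5) (nat_lit 117) (nat_lit 5) (nat_lit 446) (nat_lit 437) (nat_lit 197)) (XT.lf (nat_lit 0) (nat_lit 261070668276) (nat_lit 420) (nat_lit 785394969461) (nat_lit 504) (nat_lit 1241646278776) (nat_lit 106) (nat_lit 5) (nat_lit 111) (nat_lit 5) (nat_lit 112) (nat_lit 5) (nat_lit 447) (nat_lit 437) (nat_lit 196))))) (XT.nd (nat_lit 282) (nat_lit 1344) (nat_lit 0) (XT.nd (nat_lit 94) (nat_lit 420) (nat_lit 0) (XT.lf (nat_lit 0) (nat_lit 5191065297) (nat_lit 336) (nat_lit 1568552047327) (nat_lit 420)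 (nat_lit 815968058328) (nat_lit 102) (nat_lit 5) (nat_lit 106) (nat_lit 5) (nat_lit 107) (nat_lit 5) (nat_lit 448) (nat_lit 437) (nat_lit 195)) (XT.nd (nat_lit 94) (nat_lit 420) (nat_lit 0) (XT.lf (nat_lit 0) (nat_lit 2192590742283) (nat_lit 420) (nat_lit 239364136250) (nat_lit 84) (nat_lit 65014089373) (nat_lit 102) (nat_lit 5) (nat_lit 107) (nat_lit 5) (nat_lit 103) (nat_lit 5) (nat_lit 449) (nat_lit 437) (nat_lit 194)) (XT.lf (nat_lit 0) (nat_lit 300701261587) (nat_lit 420) (nat_lit 495911468205) (nat_lit 84) (nat_lit 1812975728778) (nat_lit 97) (nat_lit 5) (nat_lit 102) (nat_lit 5) (nat_lit 98) (nat_lit 5) (nat_lit 450) (nat_lit 437) (nat_lit 193)))) (XT.nd (nat_lit 188) (nat_lit 672) (nat_lit 0) (XT.nd (nat_lit 94) (nat_lit 336) (nat_lit 0) (XT.lf (nat_lit 0) (nat_lit 994789843695) (nat_lit 420) (nat_lit 753970946414) (nat_lit 84) (nat_lit 979643894718)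 (nat_lit 93) (nat_lit 5) (nat_lit 98) (nat_lit 5) (nat_lit 94) (nat_lit 5) (nat_lit 451) (nat_lit 437) (nat_lit 192)) (XT.lf (nat_lit 0) (nat_lit 1796335160476) (nat_lit 420) (nat_lit 1005573311681) (nat_lit 84) (nat_lit 52221254621) (nat_lit 89) (nat_lit 5) (nat_lit 94) (nat_lit 5) (nat_lit 90) (nat_lit 5) (nat_lit 452) (nat_lit 437) (nat_lit 191))) (XT.nd (nat_lit 94) (nat_lit 420) (nat_lit 0) (XT.lf (nat_lit 0) (nat_lit 1722378185308) (nat_lit 252) (nat_lit 1009353361067) (nat_lit 336) (nat_lit 254694853522) (nat_lit 86) (nat_lit 5) (nat_lit 89) (nat_lit 5) (nat_lit 90) (nat_lit 5) (nat_lit 453) (nat_lit 437) (nat_lit 190)) (XT.lf (nat_lit 0) (nat_lit 651438563291) (nat_lit 420) (nat_lit 1524028531120) (nat_lit 84) (nat_lit 950441728874) (nat_lit 81) (nat_lit 5) (nat_lit 86) (nat_lit 5) (nat_lit 82) (nat_lit 5) (nat_lit 454) (nat_lit 437) (nat_lit 189))))))))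
noncomputable def xc229 : XT := (XT.nd (nat_lit 2632) (nat_lit 1596) (nat_lit 0) (XT.nd (nat_lit 1316) (nat_lit 2100) (nat_lit 0) (XT.nd (nat_lit 658) (nat_lit 1344) (nat_lit 0) (XT.nd (nat_lit 282) (nat_lit 924) (nat_lit 0) (XT.nd (nat_lit 94) (nat_lit 588) (nat_lit 0) (XT.lf (nat_lit 0) (nat_lit 1492879267959) (nat_lit 252) (nat_lit 191086852462) (nat_lit 336) (nat_lit 1589233617151) (nat_lit 78) (nat_lit 5) (nat_lit 81) (nat_lit 5) (nat_lit 82) (nat_lit 5) (nat_lit 455) (nat_lit 437) (nat_lit 188)) (XT.nd (nat_lit 94) (nat_lit 336) (nat_lit 0) (XT.lf (nat_lit 0) (nat_lit 1388132539961) (nat_lit 252) (nat_lit 1490095654420) (nat_lit 336) (nat_lit 550089115009) (nat_lit 75) (nat_lit 5) (nat_lit 78) (nat_lit 5) (nat_lit 79) (nat_lit 5) (nat_lit 456) (nat_lit 437) (nat_lit 187)) (XT.lf (nat_lit 0) (nat_lit 619967581968) (nat_lit 336) (nat_lit 2294999373992)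 (nat_lit 84) (nat_lit 677125949385) (nat_lit 71) (nat_lit 5) (nat_lit 75) (nat_lit 5) (nat_lit 72) (nat_lit 5) (nat_lit 457) (nat_lit 437) (nat_lit 186)))) (XT.nd (nat_lit 188) (nat_lit 504) (nat_lit 0) (XT.nd (nat_lit 94) (nat_lit 168) (nat_lit 0) (XT.lf (nat_lit 0) (nat_lit 1210783613516) (nat_lit 252) (nat_lit 733981173919) (nat_lit 336) (nat_lit 1819734448038) (nat_lit 68) (nat_lit 5) (nat_lit 71) (nat_lit 5) (nat_lit 72) (nat_lit 5) (nat_lit 458) (nat_lit 437) (nat_lit 185)) (XT.lf (nat_lit 0) (nat_lit 1140826011996) (nat_lit 168) (nat_lit 2318479924123) (nat_lit 252) (nat_lit 487204127553) (nat_lit 66) (nat_lit 5) (nat_lit 68) (nat_lit 5) (nat_lit 69) (nat_lit 5) (nat_lit 459) (nat_lit 437) (nat_lit 184))) (XT.nd (nat_lit 94) (nat_lit 168) (nat_lit 0) (XT.lf (nat_lit 0) (nat_lit 997476936705) (nat_lit 336) (nat_lit 3051922658950) (nat_lit 84) (nat_lit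 89138249854) (nat_lit 62) (nat_lit 5) (nat_lit 66) (nat_lit 5) (nat_lit 63) (nat_lit 5) (nat_lit 460) (nat_lit 437) (nat_lit 183)) (XT.lf (nat_lit 0) (nat_lit 1031922035849) (nat_lit 168) (nat_lit 1657048796022) (nat_lit 252) (nat_lit 1651302290121) (nat_lit 60) (nat_lit 5) (nat_lit 62) (nat_lit 5) (nat_lit 63) (nat_lit 5) (nat_lit 461) (nat_lit 437) (nat_lit 182))))) (XT.nd (nat_lit 282) (nat_lit 756) (nat_lit 0) (XT.nd (nat_lit 94) (nat_lit 336) (nat_lit 0) (XT.lf (nat_lit 0) (nat_lit 44694033617) (nat_lit 252) (nat_lit 3541599500112) (nat_lit 84) (nat_lit 967601700328) (nat_lit 57) (nat_lit 5) (nat_lit 60) (nat_lit 5) (nat_lit 58) (nat_lit 5) (nat_lit 462) (nat_lit 437) (nat_lit 181)) (XT.nd (nat_lit 94) (nat_lit 168) (nat_lit 0) (XT.lf (nat_lit 0) (nat_lit 989964252222) (nat_lit 168) (nat_lit 931296735866) (nat_lit 252) (nat_lit 2856855374870) (nat_lit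 55) (nat_lit 5) (nat_lit 57) (nat_lit 5) (nat_lit 58) (nat_lit 5) (nat_lit 463) (nat_lit 437) (nat_lit 180)) (XT.lf (nat_lit 0) (nat_lit 993903747836) (nat_lit 168) (nat_lit 3062498845572) (nat_lit 252) (nat_lit 958450124037) (nat_lit 53) (nat_lit 5) (nat_lit 55) (nat_lit 5) (nat_lit 56) (nat_lit 5) (nat_lit 464) (nat_lit 437) (nat_lit 179)))) (XT.nd (nat_lit 188) (nat_lit 336) (nat_lit 0) (XT.nd (nat_lit 94) (nat_lit 168) (nat_lit 0) (XT.lf (nat_lit 0) (nat_lit 1025561918361) (nat_lit 168) (nat_lit 130104509739) (nat_lit 252) (nat_lit 4109070018732) (nat_lit 50) (nat_lit 5) (nat_lit 52) (nat_lit 5) (nat_lit 53) (nat_lit 5) (nat_lit 465) (nat_lit 437) (nat_lit 178)) (XT.lf (nat_lit 0) (nat_lit 1057391144529) (nat_lit 168) (nat_lit 2483504298133) (nat_lit 252) (nat_lit 1986151688964) (nat_lit 48) (nat_lit 5) (nat_lit 50) (nat_lit 5) (nat_lit 51) (nat_lit 5)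 (nat_lit 466) (nat_lit 437) (nat_lit 177))) (XT.nd (nat_lit 94) (nat_lit 168) (nat_lit 0) (XT.lf (nat_lit 0) (nat_lit 403857285421) (nat_lit 168) (nat_lit 4666132291640) (nat_lit 84) (nat_lit 734760234974) (nat_lit 46) (nat_lit 5) (nat_lit 48) (nat_lit 5) (nat_lit 47) (nat_lit 5) (nat_lit 467) (nat_lit 437) (nat_lit 176)) (XT.lf (nat_lit 0) (nat_lit 1216685706531) (nat_lit 168) (nat_lit 1839733657390) (nat_lit 252) (nat_lit 3039574476447) (nat_lit 44) (nat_lit 5) (nat_lit 46) (nat_lit 5) (nat_lit 47) (nat_lit 5) (nat_lit 468) (nat_lit 437) (nat_lit 175)))))) (XT.nd (nat_lit 658) (nat_lit 1008) (nat_lit 0) (XT.nd (nat_lit 282) (nat_lit 672) (nat_lit 0) (XT.nd (nat_lit 94) (nat_lit 336) (nat_lit 0) (XT.lf (nat_lit 0) (nat_lit 1346294624307) (nat_lit 84) (nat_lit 4704269322512) (nat_lit 168) (nat_lit 353504567244) (nat_lit 43) (nat_lit 5) (nat_lit 44) (nat_lit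 5) (nat_lit 45) (nat_lit 4) (nat_lit 469) (nat_lit 437) (nat_lit 174)) (XT.nd (nat_lit 94) (nat_lit 84) (nat_lit 0) (XT.lf (nat_lit 0) (nat_lit 1487052166114) (nat_lit 168) (nat_lit 1119490501028) (nat_lit 252) (nat_lit 4121226548520) (nat_lit 40) (nat_lit 5) (nat_lit 42) (nat_lit 5) (nat_lit 43) (nat_lit 5) (nat_lit 470) (nat_lit 437) (nat_lit 173)) (XT.lf (nat_lit 0) (nat_lit 1666066927877) (nat_lit 84) (nat_lit 4283634230543) (nat_lit 168) (nat_lit 1119440429318) (nat_lit 39) (nat_lit 5) (nat_lit 40) (nat_lit 5) (nat_lit 41) (nat_lit 4) (nat_lit 471) (nat_lit 437) (nat_lit 172)))) (XT.nd (nat_lit 188) (nat_lit 336) (nat_lit 0) (XT.nd (nat_lit 94) (nat_lit 84) (nat_lit 0) (XT.lf (nat_lit 0) (nat_lit 1886135595555) (nat_lit 168) (nat_lit 309531076392) (nat_lit 252) (nat_lit 5233444628769) (nat_lit 36) (nat_lit 5) (nat_lit 38) (nat_lit 5) (nat_lit 39) (nat_lit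 5) (nat_lit 472) (nat_lit 437) (nat_lit 171)) (XT.lf (nat_lit 0) (nat_lit 2123624563439) (nat_lit 84) (nat_lit 3804657081430) (nat_lit 168) (nat_lit 1879103419582) (nat_lit 35) (nat_lit 5) (nat_lit 36) (nat_lit 5) (nat_lit 37) (nat_lit 4) (nat_lit 473) (nat_lit 437) (nat_lit 170))) (XT.nd (nat_lit 94) (nat_lit 84) (nat_lit 0) (XT.lf (nat_lit 0) (nat_lit 1838590664474) (nat_lit 252) (nat_lit 5782653718235) (nat_lit 84) (nat_lit 585774674607) (nat_lit 32) (nat_lit 5) (nat_lit 35) (nat_lit 5) (nat_lit 33) (nat_lit 4) (nat_lit 474) (nat_lit 437) (nat_lit 169)) (XT.lf (nat_lit 0) (nat_lit 2740690661070) (nat_lit 84) (nat_lit 3255628969300) (nat_lit 168) (nat_lit 2630341191263) (nat_lit 31) (nat_lit 5) (nat_lit 32) (nat_lit 5) (nat_lit 33) (nat_lit 4) (nat_lit 475) (nat_lit 437) (nat_lit 168))))) (XT.nd (nat_lit 282) (nat_lit 504) (nat_lit 0) (XT.nd (nat_lit 94)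 (nat_lit 252) (nat_lit 0) (XT.lf (nat_lit 0) (nat_lit 1539034139949) (nat_lit 252) (nat_lit 5941898662543) (nat_lit 84) (nat_lit 1588979559817) (nat_lit 28) (nat_lit 5) (nat_lit 31) (nat_lit 5) (nat_lit 29) (nat_lit 4) (nat_lit 476) (nat_lit 437) (nat_lit 167)) (XT.nd (nat_lit 94) (nat_lit 168) (nat_lit 0) (XT.lf (nat_lit 0) (nat_lit 3542249921144) (nat_lit 84) (nat_lit 2623198162377) (nat_lit 168) (nat_lit 3370237778932) (nat_lit 27) (nat_lit 5) (nat_lit 28) (nat_lit 5) (nat_lit 29) (nat_lit 4) (nat_lit 477) (nat_lit 437) (nat_lit 166)) (XT.lf (nat_lit 0) (nat_lit 1300134978020) (nat_lit 168) (nat_lit 5998455343311) (nat_lit 84) (nat_lit 2728612453329) (nat_lit 25) (nat_lit 5) (nat_lit 27) (nat_lit 5) (nat_lit 26) (nat_lit 4) (nat_lit 478) (nat_lit 437) (nat_lit 165)))) (XT.nd (nat_lit 188) (nat_lit 252) (nat_lit 0) (XT.nd (nat_lit 94) (nat_lit 168) (nat_lit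 0) (XT.lf (nat_lit 0) (nat_lit 4556988493958) (nat_lit 84) (nat_lit 1892143478105) (nat_lit 168) (nat_lit 4094993021235) (nat_lit 24) (nat_lit 5) (nat_lit 25) (nat_lit 5) (nat_lit 26) (nat_lit 4) (nat_lit 479) (nat_lit 437) (nat_lit 164)) (XT.lf (nat_lit 0) (nat_lit 1131311938794) (nat_lit 168) (nat_lit 5931983905714) (nat_lit 84) (nat_lit 4025760868752) (nat_lit 22) (nat_lit 5) (nat_lit 24) (nat_lit 5) (nat_lit 23) (nat_lit 4) (nat_lit 480) (nat_lit 437) (nat_lit 163))) (XT.nd (nat_lit 94) (nat_lit 168) (nat_lit 0) (XT.lf (nat_lit 0) (nat_lit 5817791086377) (nat_lit 84) (nat_lit 1045118409742) (nat_lit 168) (nat_lit 4799784082621) (nat_lit 21) (nat_lit 5) (nat_lit 22) (nat_lit 5) (nat_lit 23) (nat_lit 4) (nat_lit 481) (nat_lit 437) (nat_lit 162)) (XT.lf (nat_lit 0) (nat_lit 1043633945904) (nat_lit 168) (nat_lit 5718810773811) (nat_lit 84) (nat_lit 5504300379523)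 (nat_lit 19) (nat_lit 5) (nat_lit 21) (nat_lit 5) (nat_lit 20) (nat_lit 4) (nat_lit 482) (nat_lit 437) (nat_lit 161))))))) (XT.nd (nat_lit 63544) (nat_lit 0) (nat_lit 7812) (XT.nd (nat_lit 658) (nat_lit 756) (nat_lit 0) (XT.nd (nat_lit 282) (nat_lit 504) (nat_lit 0) (XT.nd (nat_lit 94) (nat_lit 252) (nat_lit 0) (XT.lf (nat_lit 0) (nat_lit 7362302486234) (nat_lit 84) (nat_lit 62362318398) (nat_lit 168) (nat_lit 5478606665421) (nat_lit 18) (nat_lit 5) (nat_lit 19) (nat_lit 5) (nat_lit 20) (nat_lit 4) (nat_lit 483) (nat_lit 437) (nat_lit 160)) (XT.nd (nat_lit 94) (nat_lit 84) (nat_lit 0) (XT.lf (nat_lit 0) (nat_lit 1050049429771) (nat_lit 168) (nat_lit 5331456158096) (nat_lit 84) (nat_lit 7191257518869) (nat_lit 16) (nat_lit 5) (nat_lit 18) (nat_lit 5) (nat_lit 17) (nat_lit 4) (nat_lit 484) (nat_lit 437) (nat_lit 159)) (XT.lf (nat_lit 0) (nat_lit 8171776497597)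 (nat_lit 168) (nat_lit 5062308108634) (nat_lit 0) (nat_lit 1044102698159) (nat_lit 15) (nat_lit 5) (nat_lit 17) (nat_lit 4) (nat_lit 15) (nat_lit 4) (nat_lit 485) (nat_lit 437) (nat_lit 158)))) (XT.nd (nat_lit 188) (nat_lit 252) (nat_lit 0) (XT.nd (nat_lit 94) (nat_lit 84) (nat_lit 0) (XT.lf (nat_lit 0) (nat_lit 1165646600259) (nat_lit 168) (nat_lit 4738098269155) (nat_lit 84) (nat_lit 9117218061907) (nat_lit 13) (nat_lit 5) (nat_lit 15) (nat_lit 5) (nat_lit 14) (nat_lit 4) (nat_lit 486) (nat_lit 437) (nat_lit 157)) (XT.lf (nat_lit 0) (nat_lit 9114788411375) (nat_lit 168) (nat_lit 4361376357690) (nat_lit 0) (nat_lit 2326527649548) (nat_lit 12) (nat_lit 5) (nat_lit 14) (nat_lit 4) (nat_lit 12) (nat_lit 4) (nat_lit 487) (nat_lit 437) (nat_lit 156))) (XT.nd (nat_lit 94) (nat_lit 84) (nat_lit 0) (XT.lf (nat_lit 0) (nat_lit 1407948606130) (nat_lit 168) (nat_lit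 3901966119464) (nat_lit 84) (nat_lit 11316786266251) (nat_lit 10) (nat_lit 5) (nat_lit 12) (nat_lit 5) (nat_lit 11) (nat_lit 4) (nat_lit 488) (nat_lit 437) (nat_lit 155)) (XT.lf (nat_lit 0) (nat_lit 10280116838887) (nat_lit 168) (nat_lit 3397776984931) (nat_lit 0) (nat_lit 3815106589153) (nat_lit 9) (nat_lit 5) (nat_lit 11) (nat_lit 4) (nat_lit 9) (nat_lit 4) (nat_lit 489) (nat_lit 437) (nat_lit 154))))) (XT.nd (nat_lit 282) (nat_lit 336) (nat_lit 0) (XT.nd (nat_lit 94) (nat_lit 252) (nat_lit 0) (XT.lf (nat_lit 0) (nat_lit 1797248033267) (nat_lit 168) (nat_lit 2780651781701) (nat_lit 84) (nat_lit 13829101320798) (nat_lit 7) (nat_lit 5) (nat_lit 9) (nat_lit 5) (nat_lit 8) (nat_lit 4) (nat_lit 490) (nat_lit 437) (nat_lit 153)) (XT.nd (nat_lit 94) (nat_lit 168) (nat_lit 0) (XT.lf (nat_lit 0) (nat_lit 11699052005000) (nat_lit 168) (nat_lit 2126080018788) (nat_lit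 0) (nat_lit 5541899385901) (nat_lit 6) (nat_lit 5) (nat_lit 8) (nat_lit 4) (nat_lit 6) (nat_lit 4) (nat_lit 491) (nat_lit 437) (nat_lit 152)) (XT.lf (nat_lit 0) (nat_lit 2356985748734) (nat_lit 168) (nat_lit 1325331834330) (nat_lit 84) (nat_lit 16698418005930) (nat_lit 4) (nat_lit 5) (nat_lit 6) (nat_lit 5) (nat_lit 5) (nat_lit 4) (nat_lit 492) (nat_lit 437) (nat_lit 151)))) (XT.nd (nat_lit 188) (nat_lit 0) (nat_lit 0) (XT.nd (nat_lit 94) (nat_lit 252) (nat_lit 0) (XT.lf (nat_lit 0) (nat_lit 13407292418758) (nat_lit 168) (nat_lit 494021264165) (nat_lit 0) (nat_lit 7543337543176) (nat_lit 3) (nat_lit 5) (nat_lit 5) (nat_lit 4) (nat_lit 3) (nat_lit 4) (nat_lit 493) (nat_lit 437) (nat_lit 150)) (XT.lf (nat_lit 0) (nat_lit 32738042966914) (nat_lit 0) (nat_lit 0) (nat_lit 0) (nat_lit 0) (nat_lit 0) (nat_lit 0) (nat_lit 1) (nat_lit 0) (nat_lit 1) (nat_lit 0) (nat_lit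 494) (nat_lit 437) (nat_lit 149))) (XT.nd (nat_lit 94) (nat_lit 0) (nat_lit 0) (XT.lf (nat_lit 0) (nat_lit 35324903959720) (nat_lit 0) (nat_lit 0) (nat_lit 0) (nat_lit 0) (nat_lit 0) (nat_lit 0) (nat_lit 1) (nat_lit 0) (nat_lit 1) (nat_lit 0) (nat_lit 495) (nat_lit 437) (nat_lit 148)) (XT.lf (nat_lit 0) (nat_lit 38118713831951) (nat_lit 0) (nat_lit 0) (nat_lit 0) (nat_lit 0) (nat_lit 0) (nat_lit 0) (nat_lit 1) (nat_lit 0) (nat_lit 1) (nat_lit 0) (nat_lit 496) (nat_lit 437) (nat_lit 147)))))) (XT.nd (nat_lit 658) (nat_lit 2940) (nat_lit 0) (XT.nd (nat_lit 282) (nat_lit 0) (nat_lit 168) (XT.nd (nat_lit 94) (nat_lit 0) (nat_lit 84) (XT.lf (nat_lit 0) (nat_lit 386031314885) (nat_lit 924) (nat_lit 217421646182) (nat_lit 924) (nat_lit 217421646182) (nat_lit 128) (nat_lit 3) (nat_lit 139) (nat_lit 3) (nat_lit 139) (nat_lit 5) (nat_lit 438) (nat_lit 438) (nat_lit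 204)) (XT.nd (nat_lit 94) (nat_lit 0) (nat_lit 0) (XT.lf (nat_lit 0) (nat_lit 818528229346) (nat_lit 840) (nat_lit 800518355207) (nat_lit 924) (nat_lit 87593443808) (nat_lit 129) (nat_lit 5) (nat_lit 139) (nat_lit 5) (nat_lit 140) (nat_lit 5) (nat_lit 439) (nat_lit 438) (nat_lit 203)) (XT.lf (nat_lit 84) (nat_lit 592022167375) (nat_lit 0) (nat_lit 313981534270) (nat_lit 924) (nat_lit 868853774447) (nat_lit 130) (nat_lit 5) (nat_lit 129) (nat_lit 5) (nat_lit 140) (nat_lit 5) (nat_lit 440) (nat_lit 438) (nat_lit 202)))) (XT.nd (nat_lit 188) (nat_lit 0) (nat_lit 168) (XT.nd (nat_lit 94) (nat_lit 0) (nat_lit 84) (XT.lf (nat_lit 84) (nat_lit 267961274287) (nat_lit 0) (nat_lit 767976321286) (nat_lit 924) (nat_lit 810821704878) (nat_lit 131) (nat_lit 5) (nat_lit 130) (nat_lit 5) (nat_lit 141) (nat_lit 5) (nat_lit 441) (nat_lit 438) (nat_lit 201)) (XT.lf (nat_lit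 0) (nat_lit 1212532287661) (nat_lit 840) (nat_lit 61984672488) (nat_lit 924) (nat_lit 648083006277) (nat_lit 131) (nat_lit 5) (nat_lit 141) (nat_lit 5) (nat_lit 142) (nat_lit 5) (nat_lit 442) (nat_lit 438) (nat_lit 200))) (XT.nd (nat_lit 94) (nat_lit 0) (nat_lit 0) (XT.lf (nat_lit 0) (nat_lit 1444126060790) (nat_lit 840) (nat_lit 390396959927) (nat_lit 924) (nat_lit 167941289676) (nat_lit 132) (nat_lit 5) (nat_lit 142) (nat_lit 5) (nat_lit 143) (nat_lit 5) (nat_lit 443) (nat_lit 438) (nat_lit 199)) (XT.lf (nat_lit 84) (nat_lit 1355468234296) (nat_lit 0) (nat_lit 382529874144) (nat_lit 924) (nat_lit 348532154807) (nat_lit 133) (nat_lit 5) (nat_lit 132) (nat_lit 5) (nat_lit 143) (nat_lit 5) (nat_lit 444) (nat_lit 438) (nat_lit 198))))) (XT.nd (nat_lit 376) (nat_lit 1092) (nat_lit 0) (XT.nd (nat_lit 188) (nat_lit 840) (nat_lit 0) (XT.nd (nat_lit 94) (nat_lit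 588) (nat_lit 0) (XT.lf (nat_lit 0) (nat_lit 1094366301721) (nat_lit 840) (nat_lit 1003522580081) (nat_lit 924) (nat_lit 77307162431) (nat_lit 123) (nat_lit 5) (nat_lit 133) (nat_lit 5) (nat_lit 134) (nat_lit 5) (nat_lit 445) (nat_lit 438) (nat_lit 197)) (XT.lf (nat_lit 0) (nat_lit 250522897672) (nat_lit 588) (nat_lit 1440060862816) (nat_lit 84) (nat_lit 578112602771) (nat_lit 116) (nat_lit 5) (nat_lit 123) (nat_lit 5) (nat_lit 117) (nat_lit 5) (nat_lit 446) (nat_lit 438) (nat_lit 196))) (XT.nd (nat_lit 94) (nat_lit 420) (nat_lit 0) (XT.lf (nat_lit 0) (nat_lit 560112387338) (nat_lit 420) (nat_lit 86596865846) (nat_lit 504) (nat_lit 1720662170246) (nat_lit 111) (nat_lit 5) (nat_lit 116) (nat_lit 5) (nat_lit 117) (nat_lit 5) (nat_lit 447) (nat_lit 438) (nat_lit 195)) (XT.lf (nat_lit 0) (nat_lit 281956369174) (nat_lit 420) (nat_lit 848226563666) (nat_lit 504)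 (nat_lit 1340977934790) (nat_lit 106) (nat_lit 5) (nat_lit 111) (nat_lit 5) (nat_lit 112) (nat_lit 5) (nat_lit 448) (nat_lit 438) (nat_lit 194)))) (XT.nd (nat_lit 188) (nat_lit 756) (nat_lit 0) (XT.nd (nat_lit 94) (nat_lit 0) (nat_lit 0) (XT.lf (nat_lit 0) (nat_lit 5606397953) (nat_lit 336) (nat_lit 1694036205288) (nat_lit 420) (nat_lit 881245459306) (nat_lit 102) (nat_lit 5) (nat_lit 106) (nat_lit 5) (nat_lit 107) (nat_lit 5) (nat_lit 449) (nat_lit 438) (nat_lit 193)) (XT.lf (nat_lit 0) (nat_lit 2367998040275) (nat_lit 420) (nat_lit 258513221389) (nat_lit 84) (nat_lit 70215221744) (nat_lit 102) (nat_lit 5) (nat_lit 107) (nat_lit 5) (nat_lit 103) (nat_lit 5) (nat_lit 450) (nat_lit 438) (nat_lit 192))) (XT.nd (nat_lit 94) (nat_lit 336) (nat_lit 0) (XT.lf (nat_lit 0) (nat_lit 324757399545) (nat_lit 420) (nat_lit 535584340665) (nat_lit 84) (nat_lit 1958013793195)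 (nat_lit 97) (nat_lit 5) (nat_lit 102) (nat_lit 5) (nat_lit 98) (nat_lit 5) (nat_lit 451) (nat_lit 438) (nat_lit 191)) (XT.lf (nat_lit 0) (nat_lit 1074373066276) (nat_lit 420) (nat_lit 814288577464) (nat_lit 84) (nat_lit 1058015414119) (nat_lit 93) (nat_lit 5) (nat_lit 98) (nat_lit 5) (nat_lit 94) (nat_lit 5) (nat_lit 452) (nat_lit 438) (nat_lit 190))))))))
noncomputable def xc230 : XT := (XT.nd (nat_lit 2632) (nat_lit 2016) (nat_lit 0) (XT.nd (nat_lit 1316) (nat_lit 2184) (nat_lit 0) (XT.nd (nat_lit 658) (nat_lit 1512) (nat_lit 0) (XT.nd (nat_lit 282) (nat_lit 1092) (nat_lit 0) (XT.nd (nat_lit 94) (nat_lit 672) (nat_lit 0) (XT.lf (nat_lit 0) (nat_lit 1940042006617) (nat_lit 420) (nat_lit 1086019132385) (nat_lit 84) (nat_lit 56398964253) (nat_lit 89) (nat_lit 5) (nat_lit 94) (nat_lit 5) (nat_lit 90) (nat_lit 5) (nat_lit 453) (nat_lit 438) (nat_lit 189)) (XT.nd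 (nat_lit 94) (nat_lit 420) (nat_lit 0) (XT.lf (nat_lit 0) (nat_lit 1860168482441) (nat_lit 252) (nat_lit 1090101619141) (nat_lit 336) (nat_lit 275070408732) (nat_lit 86) (nat_lit 5) (nat_lit 89) (nat_lit 5) (nat_lit 90) (nat_lit 5) (nat_lit 454) (nat_lit 438) (nat_lit 188)) (XT.lf (nat_lit 0) (nat_lit 703553678818) (nat_lit 420) (nat_lit 1645950770787) (nat_lit 84) (nat_lit 1026477078019) (nat_lit 81) (nat_lit 5) (nat_lit 86) (nat_lit 5) (nat_lit 82) (nat_lit 5) (nat_lit 455) (nat_lit 438) (nat_lit 187)))) (XT.nd (nat_lit 188) (nat_lit 588) (nat_lit 0) (XT.nd (nat_lit 94) (nat_lit 252) (nat_lit 0) (XT.lf (nat_lit 0) (nat_lit 1612309650357) (nat_lit 252) (nat_lit 206373788545) (nat_lit 336) (nat_lit 1716372276234) (nat_lit 78) (nat_lit 5) (nat_lit 81) (nat_lit 5) (nat_lit 82) (nat_lit 5) (nat_lit 456) (nat_lit 438) (nat_lit 186)) (XT.lf (nat_lit 0) (nat_lit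 1499183183537) (nat_lit 252) (nat_lit 1609303293909) (nat_lit 336) (nat_lit 594096215319) (nat_lit 75) (nat_lit 5) (nat_lit 78) (nat_lit 5) (nat_lit 79) (nat_lit 5) (nat_lit 457) (nat_lit 438) (nat_lit 185))) (XT.nd (nat_lit 94) (nat_lit 252) (nat_lit 0) (XT.lf (nat_lit 0) (nat_lit 669565015240) (nat_lit 336) (nat_lit 2478599283280) (nat_lit 84) (nat_lit 731296037917) (nat_lit 71) (nat_lit 5) (nat_lit 75) (nat_lit 5) (nat_lit 72) (nat_lit 5) (nat_lit 458) (nat_lit 438) (nat_lit 184)) (XT.lf (nat_lit 0) (nat_lit 1307646341463) (nat_lit 252) (nat_lit 792699654310) (nat_lit 336) (nat_lit 1965313177271) (nat_lit 68) (nat_lit 5) (nat_lit 71) (nat_lit 5) (nat_lit 72) (nat_lit 5) (nat_lit 459) (nat_lit 438) (nat_lit 183))))) (XT.nd (nat_lit 282) (nat_lit 840) (nat_lit 0) (XT.nd (nat_lit 94) (nat_lit 504) (nat_lit 0) (XT.lf (nat_lit 0) (nat_lit 1232092131143) (nat_lit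 168) (nat_lit 2503958304123) (nat_lit 252) (nat_lit 526180432287) (nat_lit 66) (nat_lit 5) (nat_lit 68) (nat_lit 5) (nat_lit 69) (nat_lit 5) (nat_lit 460) (nat_lit 438) (nat_lit 182)) (XT.nd (nat_lit 94) (nat_lit 168) (nat_lit 0) (XT.lf (nat_lit 0) (nat_lit 1077275115270) (nat_lit 336) (nat_lit 3296076433405) (nat_lit 84) (nat_lit 96269323294) (nat_lit 62) (nat_lit 5) (nat_lit 66) (nat_lit 5) (nat_lit 63) (nat_lit 5) (nat_lit 461) (nat_lit 438) (nat_lit 181)) (XT.lf (nat_lit 0) (nat_lit 1114475835315) (nat_lit 168) (nat_lit 1789612685555) (nat_lit 252) (nat_lit 1783406449759) (nat_lit 60) (nat_lit 5) (nat_lit 62) (nat_lit 5) (nat_lit 63) (nat_lit 5) (nat_lit 462) (nat_lit 438) (nat_lit 180)))) (XT.nd (nat_lit 188) (nat_lit 420) (nat_lit 0) (XT.nd (nat_lit 94) (nat_lit 168) (nat_lit 0) (XT.lf (nat_lit 0) (nat_lit 48269578210) (nat_lit 252) (nat_lit 3824927423527)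 (nat_lit 84) (nat_lit 1045009849950) (nat_lit 57) (nat_lit 5) (nat_lit 60) (nat_lit 5) (nat_lit 58) (nat_lit 5) (nat_lit 463) (nat_lit 438) (nat_lit 179)) (XT.lf (nat_lit 0) (nat_lit 1069161427404) (nat_lit 168) (nat_lit 1005800460559) (nat_lit 252) (nat_lit 3085403782990) (nat_lit 55) (nat_lit 5) (nat_lit 57) (nat_lit 5) (nat_lit 58) (nat_lit 5) (nat_lit 464) (nat_lit 438) (nat_lit 178))) (XT.nd (nat_lit 94) (nat_lit 252) (nat_lit 0) (XT.lf (nat_lit 0) (nat_lit 1073416081930) (nat_lit 168) (nat_lit 3307498738976) (nat_lit 252) (nat_lit 1035126112934) (nat_lit 53) (nat_lit 5) (nat_lit 55) (nat_lit 5) (nat_lit 56) (nat_lit 5) (nat_lit 465) (nat_lit 438) (nat_lit 177)) (XT.lf (nat_lit 0) (nat_lit 1107606905252) (nat_lit 168) (nat_lit 140512856465) (nat_lit 252) (nat_lit 4437795599895) (nat_lit 50) (nat_lit 5) (nat_lit 52) (nat_lit 5) (nat_lit 53) (nat_lit 5)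 (nat_lit 466) (nat_lit 438) (nat_lit 176)))))) (XT.nd (nat_lit 658) (nat_lit 1008) (nat_lit 0) (XT.nd (nat_lit 282) (nat_lit 672) (nat_lit 0) (XT.nd (nat_lit 94) (nat_lit 336) (nat_lit 0) (XT.lf (nat_lit 0) (nat_lit 1141982468777) (nat_lit 168) (nat_lit 2682184627945) (nat_lit 252) (nat_lit 2145043804502) (nat_lit 48) (nat_lit 5) (nat_lit 50) (nat_lit 5) (nat_lit 51) (nat_lit 5) (nat_lit 467) (nat_lit 438) (nat_lit 175)) (XT.nd (nat_lit 94) (nat_lit 168) (nat_lit 0) (XT.lf (nat_lit 0) (nat_lit 436165886517) (nat_lit 168) (nat_lit 5039422842420) (nat_lit 84) (nat_lit 793541067148) (nat_lit 46) (nat_lit 5) (nat_lit 48) (nat_lit 5) (nat_lit 47) (nat_lit 5) (nat_lit 468) (nat_lit 438) (nat_lit 174)) (XT.lf (nat_lit 0) (nat_lit 1314020594190) (nat_lit 168) (nat_lit 1986912336240) (nat_lit 252) (nat_lit 3282740416299) (nat_lit 44) (nat_lit 5) (nat_lit 46) (nat_lit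 5) (nat_lit 47) (nat_lit 5) (nat_lit 469) (nat_lit 438) (nat_lit 173)))) (XT.nd (nat_lit 188) (nat_lit 336) (nat_lit 0) (XT.nd (nat_lit 94) (nat_lit 252) (nat_lit 0) (XT.lf (nat_lit 0) (nat_lit 1453998224661) (nat_lit 84) (nat_lit 5080610854683) (nat_lit 168) (nat_lit 381784915004) (nat_lit 43) (nat_lit 5) (nat_lit 44) (nat_lit 5) (nat_lit 45) (nat_lit 4) (nat_lit 470) (nat_lit 438) (nat_lit 172)) (XT.lf (nat_lit 0) (nat_lit 1606016369031) (nat_lit 168) (nat_lit 1209049727737) (nat_lit 252) (nat_lit 4450924655334) (nat_lit 40) (nat_lit 5) (nat_lit 42) (nat_lit 5) (nat_lit 43) (nat_lit 5) (nat_lit 471) (nat_lit 438) (nat_lit 171))) (XT.nd (nat_lit 94) (nat_lit 252) (nat_lit 0) (XT.lf (nat_lit 0) (nat_lit 1799352311025) (nat_lit 84) (nat_lit 4626324955764) (nat_lit 168) (nat_lit 1208995647184) (nat_lit 39) (nat_lit 5) (nat_lit 40) (nat_lit 5) (nat_lit 41) (nat_lit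 4) (nat_lit 472) (nat_lit 438) (nat_lit 170)) (XT.lf (nat_lit 0) (nat_lit 2037026471366) (nat_lit 168) (nat_lit 334293549548) (nat_lit 252) (nat_lit 5652120183100) (nat_lit 36) (nat_lit 5) (nat_lit 38) (nat_lit 5) (nat_lit 39) (nat_lit 5) (nat_lit 473) (nat_lit 438) (nat_lit 169))))) (XT.nd (nat_lit 282) (nat_lit 588) (nat_lit 0) (XT.nd (nat_lit 94) (nat_lit 336) (nat_lit 0) (XT.lf (nat_lit 0) (nat_lit 2293514555990) (nat_lit 84) (nat_lit 4109029635169) (nat_lit 168) (nat_lit 2029431677714) (nat_lit 35) (nat_lit 5) (nat_lit 36) (nat_lit 5) (nat_lit 37) (nat_lit 4) (nat_lit 474) (nat_lit 438) (nat_lit 168)) (XT.nd (nat_lit 94) (nat_lit 84) (nat_lit 0) (XT.lf (nat_lit 0) (nat_lit 1985677932080) (nat_lit 252) (nat_lit 6245265988422) (nat_lit 84) (nat_lit 632636660678) (nat_lit 32) (nat_lit 5) (nat_lit 35) (nat_lit 5) (nat_lit 33) (nat_lit 4) (nat_lit 475) (nat_lit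 438) (nat_lit 167)) (XT.lf (nat_lit 0) (nat_lit 2959945940042) (nat_lit 84) (nat_lit 3516079274542) (nat_lit 168) (nat_lit 2840768472091) (nat_lit 31) (nat_lit 5) (nat_lit 32) (nat_lit 5) (nat_lit 33) (nat_lit 4) (nat_lit 476) (nat_lit 438) (nat_lit 166)))) (XT.nd (nat_lit 188) (nat_lit 252) (nat_lit 0) (XT.nd (nat_lit 94) (nat_lit 84) (nat_lit 0) (XT.lf (nat_lit 0) (nat_lit 1662156884701) (nat_lit 252) (nat_lit 6417250529670) (nat_lit 84) (nat_lit 1716097936244) (nat_lit 28) (nat_lit 5) (nat_lit 31) (nat_lit 5) (nat_lit 29) (nat_lit 4) (nat_lit 477) (nat_lit 438) (nat_lit 165)) (XT.lf (nat_lit 0) (nat_lit 3825629939587) (nat_lit 84) (nat_lit 2833054003555) (nat_lit 168) (nat_lit 3639856787661) (nat_lit 27) (nat_lit 5) (nat_lit 28) (nat_lit 5) (nat_lit 29) (nat_lit 4) (nat_lit 478) (nat_lit 438) (nat_lit 164))) (XT.nd (nat_lit 94) (nat_lit 84) (nat_lit 0)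 (XT.lf (nat_lit 0) (nat_lit 1404145788995) (nat_lit 168) (nat_lit 6478331746237) (nat_lit 84) (nat_lit 2946901460765) (nat_lit 25) (nat_lit 5) (nat_lit 27) (nat_lit 5) (nat_lit 26) (nat_lit 4) (nat_lit 479) (nat_lit 438) (nat_lit 163)) (XT.lf (nat_lit 0) (nat_lit 4921547596948) (nat_lit 84) (nat_lit 2043514945037) (nat_lit 168) (nat_lit 4422592450169) (nat_lit 24) (nat_lit 5) (nat_lit 25) (nat_lit 5) (nat_lit 26) (nat_lit 4) (nat_lit 480) (nat_lit 438) (nat_lit 162))))))) (XT.nd (nat_lit 1316) (nat_lit 252) (nat_lit 0) (XT.nd (nat_lit 658) (nat_lit 840) (nat_lit 0) (XT.nd (nat_lit 282) (nat_lit 504) (nat_lit 0) (XT.nd (nat_lit 94) (nat_lit 252) (nat_lit 0) (XT.lf (nat_lit 0) (nat_lit 1221816905867) (nat_lit 168) (nat_lit 6406542594910) (nat_lit 84) (nat_lit 4347821748946) (nat_lit 22) (nat_lit 5) (nat_lit 24) (nat_lit 5) (nat_lit 23) (nat_lit 4) (nat_lit 481)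 (nat_lit 438) (nat_lit 161)) (XT.nd (nat_lit 94) (nat_lit 168) (nat_lit 0) (XT.lf (nat_lit 0) (nat_lit 6283214395535) (nat_lit 84) (nat_lit 1128727871703) (nat_lit 168) (nat_lit 5183766797230) (nat_lit 21) (nat_lit 5) (nat_lit 22) (nat_lit 5) (nat_lit 23) (nat_lit 4) (nat_lit 482) (nat_lit 438) (nat_lit 160)) (XT.lf (nat_lit 0) (nat_lit 1127124672836) (nat_lit 168) (nat_lit 6176315613675) (nat_lit 84) (nat_lit 5944644420102) (nat_lit 19) (nat_lit 5) (nat_lit 21) (nat_lit 5) (nat_lit 20) (nat_lit 4) (nat_lit 483) (nat_lit 438) (nat_lit 159)))) (XT.nd (nat_lit 188) (nat_lit 252) (nat_lit 0) (XT.nd (nat_lit 94) (nat_lit 168) (nat_lit 0) (XT.lf (nat_lit 0) (nat_lit 7951286706216) (nat_lit 84) (nat_lit 67351293542) (nat_lit 168) (nat_lit 5916895187361) (nat_lit 18) (nat_lit 5) (nat_lit 19) (nat_lit 5) (nat_lit 20) (nat_lit 4) (nat_lit 484) (nat_lit 438) (nat_lit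 158)) (XT.lf (nat_lit 0) (nat_lit 1134053394751) (nat_lit 168) (nat_lit 5757972629867) (nat_lit 84) (nat_lit 7766558130126) (nat_lit 16) (nat_lit 5) (nat_lit 18) (nat_lit 5) (nat_lit 17) (nat_lit 4) (nat_lit 485) (nat_lit 438) (nat_lit 157))) (XT.nd (nat_lit 94) (nat_lit 168) (nat_lit 0) (XT.lf (nat_lit 0) (nat_lit 8825518627684) (nat_lit 168) (nat_lit 5467292737003) (nat_lit 0) (nat_lit 1127630923540) (nat_lit 15) (nat_lit 5) (nat_lit 17) (nat_lit 4) (nat_lit 15) (nat_lit 4) (nat_lit 486) (nat_lit 438) (nat_lit 156)) (XT.lf (nat_lit 0) (nat_lit 1258898338263) (nat_lit 168) (nat_lit 5117146110918) (nat_lit 84) (nat_lit 9846595516147) (nat_lit 13) (nat_lit 5) (nat_lit 15) (nat_lit 5) (nat_lit 14) (nat_lit 4) (nat_lit 487) (nat_lit 438) (nat_lit 155))))) (XT.nd (nat_lit 282) (nat_lit 504) (nat_lit 0) (XT.nd (nat_lit 94) (nat_lit 252) (nat_lit 0) (XT.lf (nat_lit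 0) (nat_lit 9843971493971) (nat_lit 168) (nat_lit 4710286447063) (nat_lit 0) (nat_lit 2512649870584) (nat_lit 12) (nat_lit 5) (nat_lit 14) (nat_lit 4) (nat_lit 12) (nat_lit 4) (nat_lit 488) (nat_lit 438) (nat_lit 154)) (XT.nd (nat_lit 94) (nat_lit 84) (nat_lit 0) (XT.lf (nat_lit 0) (nat_lit 1520584504028) (nat_lit 168) (nat_lit 4214123390304) (nat_lit 84) (nat_lit 12222129176391) (nat_lit 10) (nat_lit 5) (nat_lit 12) (nat_lit 5) (nat_lit 11) (nat_lit 4) (nat_lit 489) (nat_lit 438) (nat_lit 153)) (XT.lf (nat_lit 0) (nat_lit 11102526195127) (nat_lit 168) (nat_lit 3669599125512) (nat_lit 0) (nat_lit 4120315124914) (nat_lit 9) (nat_lit 5) (nat_lit 11) (nat_lit 4) (nat_lit 9) (nat_lit 4) (nat_lit 490) (nat_lit 438) (nat_lit 152)))) (XT.nd (nat_lit 188) (nat_lit 252) (nat_lit 0) (XT.nd (nat_lit 94) (nat_lit 84) (nat_lit 0) (XT.lf (nat_lit 0) (nat_lit 1941027884795)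 (nat_lit 168) (nat_lit 3003103906523) (nat_lit 84) (nat_lit 14935429434865) (nat_lit 7) (nat_lit 5) (nat_lit 9) (nat_lit 5) (nat_lit 8) (nat_lit 4) (nat_lit 491) (nat_lit 438) (nat_lit 151)) (XT.lf (nat_lit 0) (nat_lit 12634976174008) (nat_lit 168) (nat_lit 2296166403054) (nat_lit 0) (nat_lit 5985251344972) (nat_lit 6) (nat_lit 5) (nat_lit 8) (nat_lit 4) (nat_lit 6) (nat_lit 4) (nat_lit 492) (nat_lit 438) (nat_lit 150))) (XT.nd (nat_lit 94) (nat_lit 84) (nat_lit 0) (XT.lf (nat_lit 0) (nat_lit 2545544616996) (nat_lit 168) (nat_lit 1431358364308) (nat_lit 84) (nat_lit 18034291454390) (nat_lit 4) (nat_lit 5) (nat_lit 6) (nat_lit 5) (nat_lit 5) (nat_lit 4) (nat_lit 493) (nat_lit 438) (nat_lit 149)) (XT.lf (nat_lit 0) (nat_lit 14479875820379) (nat_lit 168) (nat_lit 533542948984) (nat_lit 0) (nat_lit 8146804554417) (nat_lit 3) (nat_lit 5) (nat_lit 5) (nat_lit 4)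 (nat_lit 3) (nat_lit 4) (nat_lit 494) (nat_lit 438) (nat_lit 148)))))) (XT.nd (nat_lit 62980) (nat_lit 0) (nat_lit 8568) (XT.nd (nat_lit 62604) (nat_lit 0) (nat_lit 10836) (XT.nd (nat_lit 94) (nat_lit 0) (nat_lit 0) (XT.lf (nat_lit 0) (nat_lit 35357086404246) (nat_lit 0) (nat_lit 0) (nat_lit 0) (nat_lit 0) (nat_lit 0) (nat_lit 0) (nat_lit 1) (nat_lit 0) (nat_lit 1) (nat_lit 0) (nat_lit 495) (nat_lit 438) (nat_lit 147)) (XT.nd (nat_lit 62416) (nat_lit 0) (nat_lit 10752) (XT.lf (nat_lit 0) (nat_lit 38150896276478) (nat_lit 0) (nat_lit 0) (nat_lit 0) (nat_lit 0) (nat_lit 0) (nat_lit 0) (nat_lit 1) (nat_lit 0) (nat_lit 1) (nat_lit 0) (nat_lit 496) (nat_lit 438) (nat_lit 146)) (XT.lf (nat_lit 0) (nat_lit 416913856739) (nat_lit 924) (nat_lit 234815358628) (nat_lit 924) (nat_lit 234815358628) (nat_lit 128) (nat_lit 3) (nat_lit 139) (nat_lit 3) (nat_lit 139) (nat_lit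 5) (nat_lit 439) (nat_lit 439) (nat_lit 202)))) (XT.nd (nat_lit 188) (nat_lit 0) (nat_lit 84) (XT.nd (nat_lit 94) (nat_lit 0) (nat_lit 0) (XT.lf (nat_lit 0) (nat_lit 884010555670) (nat_lit 840) (nat_lit 864559782882) (nat_lit 924) (nat_lit 94600888679) (nat_lit 129) (nat_lit 5) (nat_lit 139) (nat_lit 5) (nat_lit 140) (nat_lit 5) (nat_lit 440) (nat_lit 439) (nat_lit 201)) (XT.lf (nat_lit 84) (nat_lit 639383979736) (nat_lit 0) (nat_lit 339100081591) (nat_lit 924) (nat_lit 938362009676) (nat_lit 130) (nat_lit 5) (nat_lit 129) (nat_lit 5) (nat_lit 140) (nat_lit 5) (nat_lit 441) (nat_lit 439) (nat_lit 200))) (XT.nd (nat_lit 94) (nat_lit 0) (nat_lit 84) (XT.lf (nat_lit 84) (nat_lit 289398216914) (nat_lit 0) (nat_lit 829414445427) (nat_lit 924) (nat_lit 875687379190) (nat_lit 131) (nat_lit 5) (nat_lit 130) (nat_lit 5) (nat_lit 141) (nat_lit 5) (nat_lit 442) (nat_lit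 439) (nat_lit 199)) (XT.lf (nat_lit 0) (nat_lit 1309534925150) (nat_lit 840) (nat_lit 66943405613) (nat_lit 924) (nat_lit 699929630253) (nat_lit 131) (nat_lit 5) (nat_lit 141) (nat_lit 5) (nat_lit 142) (nat_lit 5) (nat_lit 443) (nat_lit 439) (nat_lit 198))))) (XT.nd (nat_lit 376) (nat_lit 1176) (nat_lit 0) (XT.nd (nat_lit 188) (nat_lit 1344) (nat_lit 0) (XT.nd (nat_lit 94) (nat_lit 0) (nat_lit 0) (XT.lf (nat_lit 0) (nat_lit 1559656196512) (nat_lit 840) (nat_lit 421628675073) (nat_lit 924) (nat_lit 181376581097) (nat_lit 132) (nat_lit 5) (nat_lit 142) (nat_lit 5) (nat_lit 143) (nat_lit 5) (nat_lit 444) (nat_lit 439) (nat_lit 197)) (XT.lf (nat_lit 84) (nat_lit 1463905732878) (nat_lit 0) (nat_lit 413132271951) (nat_lit 924) (nat_lit 376414677093) (nat_lit 133) (nat_lit 5) (nat_lit 132) (nat_lit 5) (nat_lit 143) (nat_lit 5) (nat_lit 445) (nat_lit 439) (nat_lit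 196))) (XT.nd (nat_lit 94) (nat_lit 588) (nat_lit 0) (XT.lf (nat_lit 0) (nat_lit 1181915646365) (nat_lit 840) (nat_lit 1083804390679) (nat_lit 924) (nat_lit 83491688493) (nat_lit 123) (nat_lit 5) (nat_lit 133) (nat_lit 5) (nat_lit 134) (nat_lit 5) (nat_lit 446) (nat_lit 439) (nat_lit 195)) (XT.lf (nat_lit 0) (nat_lit 270564772139) (nat_lit 588) (nat_lit 1555265689484) (nat_lit 84) (nat_lit 624361608564) (nat_lit 116) (nat_lit 5) (nat_lit 123) (nat_lit 5) (nat_lit 117) (nat_lit 5) (nat_lit 447) (nat_lit 439) (nat_lit 194)))) (XT.nd (nat_lit 188) (nat_lit 336) (nat_lit 0) (XT.nd (nat_lit 94) (nat_lit 420) (nat_lit 0) (XT.lf (nat_lit 0) (nat_lit 604921418841) (nat_lit 420) (nat_lit 93524614724) (nat_lit 504) (nat_lit 1858315101733) (nat_lit 111) (nat_lit 5) (nat_lit 116) (nat_lit 5) (nat_lit 117) (nat_lit 5) (nat_lit 448) (nat_lit 439) (nat_lit 193)) (XT.lf (nat_lit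 0) (nat_lit 304512919376) (nat_lit 420) (nat_lit 916084685885) (nat_lit 504) (nat_lit 1448256129889) (nat_lit 106) (nat_lit 5) (nat_lit 111) (nat_lit 5) (nat_lit 112) (nat_lit 5) (nat_lit 449) (nat_lit 439) (nat_lit 192))) (XT.nd (nat_lit 94) (nat_lit 0) (nat_lit 0) (XT.lf (nat_lit 0) (nat_lit 6054950456) (nat_lit 336) (nat_lit 1829559096716) (nat_lit 420) (nat_lit 951745058596) (nat_lit 102) (nat_lit 5) (nat_lit 106) (nat_lit 5) (nat_lit 107) (nat_lit 5) (nat_lit 450) (nat_lit 439) (nat_lit 191)) (XT.lf (nat_lit 0) (nat_lit 2557437916598) (nat_lit 420) (nat_lit 279194239867) (nat_lit 84) (nat_lit 75832443960) (nat_lit 102) (nat_lit 5) (nat_lit 107) (nat_lit 5) (nat_lit 103) (nat_lit 5) (nat_lit 451) (nat_lit 439) (nat_lit 190))))))))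
noncomputable def xc231 : XT := (XT.nd (nat_lit 2632) (nat_lit 2268) (nat_lit 0) (XT.nd (nat_lit 1316) (nat_lit 2352) (nat_lit 0) (XT.nd (nat_lit 658) (nat_lit 1680) (nat_lit 0) (XT.nd (nat_lit 282) (nat_lit 1176) (nat_lit 0) (XT.nd (nat_lit 94) (nat_lit 672) (nat_lit 0) (XT.lf (nat_lit 0) (nat_lit 350738023256) (nat_lit 420) (nat_lit 578431049341) (nat_lit 84) (nat_lit 2114654901894) (nat_lit 97) (nat_lit 5) (nat_lit 102) (nat_lit 5) (nat_lit 98) (nat_lit 5) (nat_lit 452) (nat_lit 439) (nat_lit 189)) (XT.nd (nat_lit 94) (nat_lit 336) (nat_lit 0) (XT.lf (nat_lit 0) (nat_lit 1160322941658) (nat_lit 420) (nat_lit 879431625370) (nat_lit 84) (nat_lit 1142656653956) (nat_lit 93) (nat_lit 5) (nat_lit 98) (nat_lit 5) (nat_lit 94) (nat_lit 5) (nat_lit 453) (nat_lit 439) (nat_lit 188)) (XT.lf (nat_lit 0) (nat_lit 2095245395699) (nat_lit 420) (nat_lit 1172900625055)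 (nat_lit 84) (nat_lit 60910889334) (nat_lit 89) (nat_lit 5) (nat_lit 94) (nat_lit 5) (nat_lit 90) (nat_lit 5) (nat_lit 454) (nat_lit 439) (nat_lit 187)))) (XT.nd (nat_lit 188) (nat_lit 504) (nat_lit 0) (XT.nd (nat_lit 94) (nat_lit 420) (nat_lit 0) (XT.lf (nat_lit 0) (nat_lit 2008981997309) (nat_lit 252) (nat_lit 1177309739403) (nat_lit 336) (nat_lit 297076013077) (nat_lit 86) (nat_lit 5) (nat_lit 89) (nat_lit 5) (nat_lit 90) (nat_lit 5) (nat_lit 455) (nat_lit 439) (nat_lit 186)) (XT.lf (nat_lit 0) (nat_lit 759837999242) (nat_lit 420) (nat_lit 1777626795738) (nat_lit 84) (nat_lit 1108595253549) (nat_lit 81) (nat_lit 5) (nat_lit 86) (nat_lit 5) (nat_lit 82) (nat_lit 5) (nat_lit 456) (nat_lit 439) (nat_lit 185))) (XT.nd (nat_lit 94) (nat_lit 252) (nat_lit 0) (XT.lf (nat_lit 0) (nat_lit 1741294457502) (nat_lit 252) (nat_lit 222883681243) (nat_lit 336) (nat_lit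 1853682032365) (nat_lit 78) (nat_lit 5) (nat_lit 81) (nat_lit 5) (nat_lit 82) (nat_lit 5) (nat_lit 457) (nat_lit 439) (nat_lit 184)) (XT.lf (nat_lit 0) (nat_lit 1619117872839) (nat_lit 252) (nat_lit 1738047546394) (nat_lit 336) (nat_lit 641623887775) (nat_lit 75) (nat_lit 5) (nat_lit 78) (nat_lit 5) (nat_lit 79) (nat_lit 5) (nat_lit 458) (nat_lit 439) (nat_lit 183))))) (XT.nd (nat_lit 282) (nat_lit 924) (nat_lit 0) (XT.nd (nat_lit 94) (nat_lit 420) (nat_lit 0) (XT.lf (nat_lit 0) (nat_lit 723130239363) (nat_lit 336) (nat_lit 2676887191107) (nat_lit 84) (nat_lit 789799731737) (nat_lit 71) (nat_lit 5) (nat_lit 75) (nat_lit 5) (nat_lit 72) (nat_lit 5) (nat_lit 459) (nat_lit 439) (nat_lit 182)) (XT.nd (nat_lit 94) (nat_lit 168) (nat_lit 0) (XT.lf (nat_lit 0) (nat_lit 1412258082102) (nat_lit 252) (nat_lit 856115615060) (nat_lit 336) (nat_lit 2122538208639) (nat_lit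 68) (nat_lit 5) (nat_lit 71) (nat_lit 5) (nat_lit 72) (nat_lit 5) (nat_lit 460) (nat_lit 439) (nat_lit 181)) (XT.lf (nat_lit 0) (nat_lit 1330659534373) (nat_lit 168) (nat_lit 2704274956511) (nat_lit 252) (nat_lit 568274845033) (nat_lit 66) (nat_lit 5) (nat_lit 68) (nat_lit 5) (nat_lit 69) (nat_lit 5) (nat_lit 461) (nat_lit 439) (nat_lit 180)))) (XT.nd (nat_lit 188) (nat_lit 420) (nat_lit 0) (XT.nd (nat_lit 94) (nat_lit 168) (nat_lit 0) (XT.lf (nat_lit 0) (nat_lit 1163457144749) (nat_lit 336) (nat_lit 3559762515275) (nat_lit 84) (nat_lit 103970880689) (nat_lit 62) (nat_lit 5) (nat_lit 66) (nat_lit 5) (nat_lit 63) (nat_lit 5) (nat_lit 462) (nat_lit 439) (nat_lit 179)) (XT.lf (nat_lit 0) (nat_lit 1203633933517) (nat_lit 168) (nat_lit 1932781688269) (nat_lit 252) (nat_lit 1926078945531) (nat_lit 60) (nat_lit 5) (nat_lit 62) (nat_lit 5) (nat_lit 63) (nat_lit 5)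 (nat_lit 463) (nat_lit 439) (nat_lit 178))) (XT.nd (nat_lit 94) (nat_lit 168) (nat_lit 0) (XT.lf (nat_lit 0) (nat_lit 52131163246) (nat_lit 252) (nat_lit 4130921586036) (nat_lit 84) (nat_lit 1128610649601) (nat_lit 57) (nat_lit 5) (nat_lit 60) (nat_lit 5) (nat_lit 58) (nat_lit 5) (nat_lit 464) (nat_lit 439) (nat_lit 177)) (XT.lf (nat_lit 0) (nat_lit 1154694371606) (nat_lit 168) (nat_lit 1086264485251) (nat_lit 252) (nat_lit 3332236066880) (nat_lit 55) (nat_lit 5) (nat_lit 57) (nat_lit 5) (nat_lit 58) (nat_lit 5) (nat_lit 465) (nat_lit 439) (nat_lit 176)))))) (XT.nd (nat_lit 658) (nat_lit 1092) (nat_lit 0) (XT.nd (nat_lit 282) (nat_lit 672) (nat_lit 0) (XT.nd (nat_lit 94) (nat_lit 420) (nat_lit 0) (XT.lf (nat_lit 0) (nat_lit 1159289397863) (nat_lit 168) (nat_lit 3572098625884) (nat_lit 252) (nat_lit 1117936183942) (nat_lit 53) (nat_lit 5) (nat_lit 55) (nat_lit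 5) (nat_lit 56) (nat_lit 5) (nat_lit 466) (nat_lit 439) (nat_lit 175)) (XT.nd (nat_lit 94) (nat_lit 168) (nat_lit 0) (XT.lf (nat_lit 0) (nat_lit 1196215486326) (nat_lit 168) (nat_lit 151753872933) (nat_lit 252) (nat_lit 4792819230451) (nat_lit 50) (nat_lit 5) (nat_lit 52) (nat_lit 5) (nat_lit 53) (nat_lit 5) (nat_lit 467) (nat_lit 439) (nat_lit 174)) (XT.lf (nat_lit 0) (nat_lit 1233341094302) (nat_lit 168) (nat_lit 2896759386144) (nat_lit 252) (nat_lit 2316647292076) (nat_lit 48) (nat_lit 5) (nat_lit 50) (nat_lit 5) (nat_lit 51) (nat_lit 5) (nat_lit 468) (nat_lit 439) (nat_lit 173)))) (XT.nd (nat_lit 188) (nat_lit 336) (nat_lit 0) (XT.nd (nat_lit 94) (nat_lit 168) (nat_lit 0) (XT.lf (nat_lit 0) (nat_lit 471059173094) (nat_lit 168) (nat_lit 5442576641906) (nat_lit 84) (nat_lit 857024363988) (nat_lit 46) (nat_lit 5) (nat_lit 48) (nat_lit 5) (nat_lit 47) (nat_lit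 5) (nat_lit 469) (nat_lit 439) (nat_lit 172)) (XT.lf (nat_lit 0) (nat_lit 1419142268420) (nat_lit 168) (nat_lit 2145865311358) (nat_lit 252) (nat_lit 3545359633943) (nat_lit 44) (nat_lit 5) (nat_lit 46) (nat_lit 5) (nat_lit 47) (nat_lit 5) (nat_lit 470) (nat_lit 439) (nat_lit 171))) (XT.nd (nat_lit 94) (nat_lit 252) (nat_lit 0) (XT.lf (nat_lit 0) (nat_lit 1570318108706) (nat_lit 84) (nat_lit 5487059711373) (nat_lit 168) (nat_lit 412327693099) (nat_lit 43) (nat_lit 5) (nat_lit 44) (nat_lit 5) (nat_lit 45) (nat_lit 4) (nat_lit 471) (nat_lit 439) (nat_lit 170)) (XT.lf (nat_lit 0) (nat_lit 1734497703954) (nat_lit 168) (nat_lit 1305773694490) (nat_lit 252) (nat_lit 4806998613129) (nat_lit 40) (nat_lit 5) (nat_lit 42) (nat_lit 5) (nat_lit 43) (nat_lit 5) (nat_lit 472) (nat_lit 439) (nat_lit 169))))) (XT.nd (nat_lit 282) (nat_lit 672) (nat_lit 0) (XT.nd (nat_lit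 94) (nat_lit 336) (nat_lit 0) (XT.lf (nat_lit 0) (nat_lit 1943300520699) (nat_lit 84) (nat_lit 4996430940888) (nat_lit 168) (nat_lit 1305715284830) (nat_lit 39) (nat_lit 5) (nat_lit 40) (nat_lit 5) (nat_lit 41) (nat_lit 4) (nat_lit 473) (nat_lit 439) (nat_lit 168)) (XT.nd (nat_lit 94) (nat_lit 84) (nat_lit 0) (XT.lf (nat_lit 0) (nat_lit 2199988613222) (nat_lit 168) (nat_lit 361037022405) (nat_lit 252) (nat_lit 6104289784056) (nat_lit 36) (nat_lit 5) (nat_lit 38) (nat_lit 5) (nat_lit 39) (nat_lit 5) (nat_lit 474) (nat_lit 439) (nat_lit 167)) (XT.lf (nat_lit 0) (nat_lit 2476995744025) (nat_lit 84) (nat_lit 4437751995030) (nat_lit 168) (nat_lit 2191786198698) (nat_lit 35) (nat_lit 5) (nat_lit 36) (nat_lit 5) (nat_lit 37) (nat_lit 4) (nat_lit 475) (nat_lit 439) (nat_lit 166)))) (XT.nd (nat_lit 188) (nat_lit 336) (nat_lit 0) (XT.nd (nat_lit 94) (nat_lit 84) (nat_lit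 0) (XT.lf (nat_lit 0) (nat_lit 2144532179032) (nat_lit 252) (nat_lit 6744887244115) (nat_lit 84) (nat_lit 683247603908) (nat_lit 32) (nat_lit 5) (nat_lit 35) (nat_lit 5) (nat_lit 33) (nat_lit 4) (nat_lit 476) (nat_lit 439) (nat_lit 165)) (XT.lf (nat_lit 0) (nat_lit 3196741637610) (nat_lit 84) (nat_lit 3797365605958) (nat_lit 168) (nat_lit 3068029937450) (nat_lit 31) (nat_lit 5) (nat_lit 32) (nat_lit 5) (nat_lit 33) (nat_lit 4) (nat_lit 477) (nat_lit 439) (nat_lit 164))) (XT.nd (nat_lit 94) (nat_lit 84) (nat_lit 0) (XT.lf (nat_lit 0) (nat_lit 1795129447100) (nat_lit 252) (nat_lit 6930630549860) (nat_lit 84) (nat_lit 1853385781124) (nat_lit 28) (nat_lit 5) (nat_lit 31) (nat_lit 5) (nat_lit 29) (nat_lit 4) (nat_lit 478) (nat_lit 439) (nat_lit 163)) (XT.lf (nat_lit 0) (nat_lit 4131680355976) (nat_lit 84) (nat_lit 3059698313711) (nat_lit 168) (nat_lit 3931045319026)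 (nat_lit 27) (nat_lit 5) (nat_lit 28) (nat_lit 5) (nat_lit 29) (nat_lit 4) (nat_lit 479) (nat_lit 439) (nat_lit 162))))))) (XT.nd (nat_lit 1316) (nat_lit 504) (nat_lit 0) (XT.nd (nat_lit 658) (nat_lit 840) (nat_lit 0) (XT.nd (nat_lit 282) (nat_lit 504) (nat_lit 0) (XT.nd (nat_lit 94) (nat_lit 252) (nat_lit 0) (XT.lf (nat_lit 0) (nat_lit 1516477463031) (nat_lit 168) (nat_lit 6996598264896) (nat_lit 84) (nat_lit 3182653587202) (nat_lit 25) (nat_lit 5) (nat_lit 27) (nat_lit 5) (nat_lit 26) (nat_lit 4) (nat_lit 480) (nat_lit 439) (nat_lit 161)) (XT.nd (nat_lit 94) (nat_lit 168) (nat_lit 0) (XT.lf (nat_lit 0) (nat_lit 5315271424829) (nat_lit 84) (nat_lit 2206996130938) (nat_lit 168) (nat_lit 4776399835240) (nat_lit 24) (nat_lit 5) (nat_lit 25) (nat_lit 5) (nat_lit 26) (nat_lit 4) (nat_lit 481) (nat_lit 439) (nat_lit 160)) (XT.lf (nat_lit 0) (nat_lit 1319562268599)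 (nat_lit 168) (nat_lit 6919065982560) (nat_lit 84) (nat_lit 4695647498029) (nat_lit 22) (nat_lit 5) (nat_lit 24) (nat_lit 5) (nat_lit 23) (nat_lit 4) (nat_lit 482) (nat_lit 439) (nat_lit 159)))) (XT.nd (nat_lit 188) (nat_lit 252) (nat_lit 0) (XT.nd (nat_lit 94) (nat_lit 168) (nat_lit 0) (XT.lf (nat_lit 0) (nat_lit 6785871566255) (nat_lit 84) (nat_lit 1219026092162) (nat_lit 168) (nat_lit 5598468130719) (nat_lit 21) (nat_lit 5) (nat_lit 22) (nat_lit 5) (nat_lit 23) (nat_lit 4) (nat_lit 483) (nat_lit 439) (nat_lit 158)) (XT.lf (nat_lit 0) (nat_lit 1217294656317) (nat_lit 168) (nat_lit 6670420843873) (nat_lit 84) (nat_lit 6420215982470) (nat_lit 19) (nat_lit 5) (nat_lit 21) (nat_lit 5) (nat_lit 20) (nat_lit 4) (nat_lit 484) (nat_lit 439) (nat_lit 157))) (XT.nd (nat_lit 94) (nat_lit 168) (nat_lit 0) (XT.lf (nat_lit 0) (nat_lit 8587389660789) (nat_lit 84) (nat_lit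 72739388170) (nat_lit 168) (nat_lit 6390246792668) (nat_lit 18) (nat_lit 5) (nat_lit 19) (nat_lit 5) (nat_lit 20) (nat_lit 4) (nat_lit 485) (nat_lit 439) (nat_lit 156)) (XT.lf (nat_lit 0) (nat_lit 1224777675419) (nat_lit 168) (nat_lit 6218610422357) (nat_lit 84) (nat_lit 8387882788894) (nat_lit 16) (nat_lit 5) (nat_lit 18) (nat_lit 5) (nat_lit 17) (nat_lit 4) (nat_lit 486) (nat_lit 439) (nat_lit 155))))) (XT.nd (nat_lit 282) (nat_lit 504) (nat_lit 0) (XT.nd (nat_lit 94) (nat_lit 252) (nat_lit 0) (XT.lf (nat_lit 0) (nat_lit 9531560126712) (nat_lit 168) (nat_lit 5904676138539) (nat_lit 0) (nat_lit 1217841405594) (nat_lit 15) (nat_lit 5) (nat_lit 17) (nat_lit 4) (nat_lit 15) (nat_lit 4) (nat_lit 487) (nat_lit 439) (nat_lit 154)) (XT.nd (nat_lit 94) (nat_lit 84) (nat_lit 0) (XT.lf (nat_lit 0) (nat_lit 1359610213882) (nat_lit 168) (nat_lit 5526517782842) (nat_lit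 84) (nat_lit 10634323165402) (nat_lit 13) (nat_lit 5) (nat_lit 15) (nat_lit 5) (nat_lit 14) (nat_lit 4) (nat_lit 488) (nat_lit 439) (nat_lit 153)) (XT.lf (nat_lit 0) (nat_lit 10631489221792) (nat_lit 168) (nat_lit 5087109346333) (nat_lit 0) (nat_lit 2713661868009) (nat_lit 12) (nat_lit 5) (nat_lit 14) (nat_lit 4) (nat_lit 12) (nat_lit 4) (nat_lit 489) (nat_lit 439) (nat_lit 152)))) (XT.nd (nat_lit 188) (nat_lit 252) (nat_lit 0) (XT.nd (nat_lit 94) (nat_lit 84) (nat_lit 0) (XT.lf (nat_lit 0) (nat_lit 1642231272413) (nat_lit 168) (nat_lit 4551253245484) (nat_lit 84) (nat_lit 13199899518079) (nat_lit 10) (nat_lit 5) (nat_lit 12) (nat_lit 5) (nat_lit 11) (nat_lit 4) (nat_lit 490) (nat_lit 439) (nat_lit 151)) (XT.lf (nat_lit 0) (nat_lit 11990728298562) (nat_lit 168) (nat_lit 3963167039940) (nat_lit 0) (nat_lit 4449940342303) (nat_lit 9) (nat_lit 5) (nat_lit 11)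 (nat_lit 4) (nat_lit 9) (nat_lit 4) (nat_lit 491) (nat_lit 439) (nat_lit 150))) (XT.nd (nat_lit 94) (nat_lit 84) (nat_lit 0) (XT.lf (nat_lit 0) (nat_lit 2096310123181) (nat_lit 168) (nat_lit 3243352203858) (nat_lit 84) (nat_lit 16130263796859) (nat_lit 7) (nat_lit 5) (nat_lit 9) (nat_lit 5) (nat_lit 8) (nat_lit 4) (nat_lit 492) (nat_lit 439) (nat_lit 149)) (XT.lf (nat_lit 0) (nat_lit 13645774275308) (nat_lit 168) (nat_lit 2479859700522) (nat_lit 0) (nat_lit 6464071459599) (nat_lit 6) (nat_lit 5) (nat_lit 8) (nat_lit 4) (nat_lit 6) (nat_lit 4) (nat_lit 493) (nat_lit 439) (nat_lit 148)))))) (XT.nd (nat_lit 63074) (nat_lit 0) (nat_lit 8568) (XT.nd (nat_lit 62698) (nat_lit 0) (nat_lit 10752) (XT.nd (nat_lit 94) (nat_lit 336) (nat_lit 0) (XT.lf (nat_lit 0) (nat_lit 2749188193525) (nat_lit 168) (nat_lit 1545867019082) (nat_lit 84) (nat_lit 19477034777586) (nat_lit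 4) (nat_lit 5) (nat_lit 6) (nat_lit 5) (nat_lit 5) (nat_lit 4) (nat_lit 494) (nat_lit 439) (nat_lit 147)) (XT.nd (nat_lit 94) (nat_lit 252) (nat_lit 0) (XT.lf (nat_lit 0) (nat_lit 15638265892971) (nat_lit 168) (nat_lit 576226370919) (nat_lit 0) (nat_lit 8798548925445) (nat_lit 3) (nat_lit 5) (nat_lit 5) (nat_lit 4) (nat_lit 3) (nat_lit 4) (nat_lit 495) (nat_lit 439) (nat_lit 146)) (XT.lf (nat_lit 0) (nat_lit 38185653316567) (nat_lit 0) (nat_lit 0) (nat_lit 0) (nat_lit 0) (nat_lit 0) (nat_lit 0) (nat_lit 1) (nat_lit 0) (nat_lit 1) (nat_lit 0) (nat_lit 496) (nat_lit 439) (nat_lit 145)))) (XT.nd (nat_lit 188) (nat_lit 0) (nat_lit 84) (XT.nd (nat_lit 94) (nat_lit 0) (nat_lit 84) (XT.lf (nat_lit 0) (nat_lit 450266996712) (nat_lit 924) (nat_lit 253600570816) (nat_lit 924) (nat_lit 253600570816) (nat_lit 128) (nat_lit 3) (nat_lit 139) (nat_lit 3) (nat_lit 139) (nat_lit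 5) (nat_lit 440) (nat_lit 440) (nat_lit 200)) (XT.lf (nat_lit 0) (nat_lit 954731458403) (nat_lit 840) (nat_lit 933724530583) (nat_lit 924) (nat_lit 102168933510) (nat_lit 129) (nat_lit 5) (nat_lit 139) (nat_lit 5) (nat_lit 140) (nat_lit 5) (nat_lit 441) (nat_lit 440) (nat_lit 199))) (XT.nd (nat_lit 94) (nat_lit 0) (nat_lit 84) (XT.lf (nat_lit 84) (nat_lit 690534731526) (nat_lit 0) (nat_lit 366228109191) (nat_lit 924) (nat_lit 1013430913242) (nat_lit 130) (nat_lit 5) (nat_lit 129) (nat_lit 5) (nat_lit 140) (nat_lit 5) (nat_lit 442) (nat_lit 440) (nat_lit 198)) (XT.lf (nat_lit 84) (nat_lit 312550109147) (nat_lit 0) (nat_lit 895767616870) (nat_lit 924) (nat_lit 945742316303) (nat_lit 131) (nat_lit 5) (nat_lit 130) (nat_lit 5) (nat_lit 141) (nat_lit 5) (nat_lit 443) (nat_lit 440) (nat_lit 197))))) (XT.nd (nat_lit 376) (nat_lit 1764) (nat_lit 0) (XT.nd (nat_lit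 188) (nat_lit 672) (nat_lit 0) (XT.nd (nat_lit 94) (nat_lit 0) (nat_lit 84) (XT.lf (nat_lit 0) (nat_lit 1414297765867) (nat_lit 840) (nat_lit 72298843191) (nat_lit 924) (nat_lit 755923986504) (nat_lit 131) (nat_lit 5) (nat_lit 141) (nat_lit 5) (nat_lit 142) (nat_lit 5) (nat_lit 444) (nat_lit 440) (nat_lit 196)) (XT.lf (nat_lit 0) (nat_lit 1684428735837) (nat_lit 840) (nat_lit 455358933373) (nat_lit 924) (nat_lit 195886697508) (nat_lit 132) (nat_lit 5) (nat_lit 142) (nat_lit 5) (nat_lit 143) (nat_lit 5) (nat_lit 445) (nat_lit 440) (nat_lit 195))) (XT.nd (nat_lit 94) (nat_lit 756) (nat_lit 0) (XT.lf (nat_lit 84) (nat_lit 1581018225663) (nat_lit 0) (nat_lit 446182860458) (nat_lit 924) (nat_lit 406527808308) (nat_lit 133) (nat_lit 5) (nat_lit 132) (nat_lit 5) (nat_lit 143) (nat_lit 5) (nat_lit 446) (nat_lit 440) (nat_lit 194)) (XT.lf (nat_lit 0) (nat_lit 1276468932802)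 (nat_lit 840) (nat_lit 1170508745526) (nat_lit 924) (nat_lit 90170983336) (nat_lit 123) (nat_lit 5) (nat_lit 133) (nat_lit 5) (nat_lit 134) (nat_lit 5) (nat_lit 447) (nat_lit 440) (nat_lit 193)))) (XT.nd (nat_lit 188) (nat_lit 756) (nat_lit 0) (XT.nd (nat_lit 94) (nat_lit 420) (nat_lit 0) (XT.lf (nat_lit 0) (nat_lit 292209990478) (nat_lit 588) (nat_lit 1679686908329) (nat_lit 84) (nat_lit 674310535166) (nat_lit 116) (nat_lit 5) (nat_lit 123) (nat_lit 5) (nat_lit 117) (nat_lit 5) (nat_lit 448) (nat_lit 440) (nat_lit 192)) (XT.lf (nat_lit 0) (nat_lit 653315167084) (nat_lit 420) (nat_lit 101006583568) (nat_lit 504) (nat_lit 2006980273749) (nat_lit 111) (nat_lit 5) (nat_lit 116) (nat_lit 5) (nat_lit 117) (nat_lit 5) (nat_lit 449) (nat_lit 440) (nat_lit 191))) (XT.nd (nat_lit 94) (nat_lit 336) (nat_lit 0) (XT.lf (nat_lit 0) (nat_lit 328873987793) (nat_lit 420)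 (nat_lit 989371458292) (nat_lit 504) (nat_lit 1564116586257) (nat_lit 106) (nat_lit 5) (nat_lit 111) (nat_lit 5) (nat_lit 112) (nat_lit 5) (nat_lit 450) (nat_lit 440) (nat_lit 190)) (XT.lf (nat_lit 0) (nat_lit 6539381356) (nat_lit 336) (nat_lit 1975923820172) (nat_lit 420) (nat_lit 1027884631172) (nat_lit 102) (nat_lit 5) (nat_lit 106) (nat_lit 5) (nat_lit 107) (nat_lit 5) (nat_lit 451) (nat_lit 440) (nat_lit 189))))))))
noncomputable def xc232 : XT := (XT.nd (nat_lit 2632) (nat_lit 2100) (nat_lit 0) (XT.nd (nat_lit 1316) (nat_lit 2436) (nat_lit 0) (XT.nd (nat_lit 658) (nat_lit 1764) (nat_lit 0) (XT.nd (nat_lit 282) (nat_lit 1260) (nat_lit 0) (XT.nd (nat_lit 94) (nat_lit 756) (nat_lit 0) (XT.lf (nat_lit 0) (nat_lit 2762032978306) (nat_lit 420) (nat_lit 301529745421) (nat_lit 84) (nat_lit 81899043315) (nat_lit 102) (nat_lit 5) (nat_lit 107) (nat_lit 5) (nat_lit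 103) (nat_lit 5) (nat_lit 452) (nat_lit 440) (nat_lit 188)) (XT.nd (nat_lit 94) (nat_lit 336) (nat_lit 0) (XT.lf (nat_lit 0) (nat_lit 378797092335) (nat_lit 420) (nat_lit 624705500214) (nat_lit 84) (nat_lit 2283827298540) (nat_lit 97) (nat_lit 5) (nat_lit 102) (nat_lit 5) (nat_lit 98) (nat_lit 5) (nat_lit 453) (nat_lit 440) (nat_lit 187)) (XT.lf (nat_lit 0) (nat_lit 1253148802780) (nat_lit 420) (nat_lit 949786122570) (nat_lit 84) (nat_lit 1234069192023) (nat_lit 93) (nat_lit 5) (nat_lit 98) (nat_lit 5) (nat_lit 94) (nat_lit 5) (nat_lit 454) (nat_lit 440) (nat_lit 186)))) (XT.nd (nat_lit 188) (nat_lit 672) (nat_lit 0) (XT.nd (nat_lit 94) (nat_lit 252) (nat_lit 0) (XT.lf (nat_lit 0) (nat_lit 2262865051833) (nat_lit 420) (nat_lit 1266732642549) (nat_lit 84) (nat_lit 65783767289) (nat_lit 89) (nat_lit 5) (nat_lit 94) (nat_lit 5) (nat_lit 90) (nat_lit 5) (nat_lit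 455) (nat_lit 440) (nat_lit 185)) (XT.lf (nat_lit 0) (nat_lit 2169700588191) (nat_lit 252) (nat_lit 1271494510608) (nat_lit 336) (nat_lit 320842069815) (nat_lit 86) (nat_lit 5) (nat_lit 89) (nat_lit 5) (nat_lit 90) (nat_lit 5) (nat_lit 456) (nat_lit 440) (nat_lit 184))) (XT.nd (nat_lit 94) (nat_lit 252) (nat_lit 0) (XT.lf (nat_lit 0) (nat_lit 820625061573) (nat_lit 420) (nat_lit 1919836907922) (nat_lit 84) (nat_lit 1197282881797) (nat_lit 81) (nat_lit 5) (nat_lit 86) (nat_lit 5) (nat_lit 82) (nat_lit 5) (nat_lit 457) (nat_lit 440) (nat_lit 183)) (XT.lf (nat_lit 0) (nat_lit 1880598044210) (nat_lit 252) (nat_lit 240714366839) (nat_lit 336) (nat_lit 2001976572690) (nat_lit 78) (nat_lit 5) (nat_lit 81) (nat_lit 5) (nat_lit 82) (nat_lit 5) (nat_lit 458) (nat_lit 440) (nat_lit 182))))) (XT.nd (nat_lit 282) (nat_lit 924) (nat_lit 0) (XT.nd (nat_lit 94) (nat_lit 588)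 (nat_lit 0) (XT.lf (nat_lit 0) (nat_lit 1748647332346) (nat_lit 252) (nat_lit 1877091340650) (nat_lit 336) (nat_lit 692953777561) (nat_lit 75) (nat_lit 5) (nat_lit 78) (nat_lit 5) (nat_lit 79) (nat_lit 5) (nat_lit 459) (nat_lit 440) (nat_lit 181)) (XT.nd (nat_lit 94) (nat_lit 252) (nat_lit 0) (XT.lf (nat_lit 0) (nat_lit 780980678148) (nat_lit 336) (nat_lit 2891038136530) (nat_lit 84) (nat_lit 852983719523) (nat_lit 71) (nat_lit 5) (nat_lit 75) (nat_lit 5) (nat_lit 72) (nat_lit 5) (nat_lit 460) (nat_lit 440) (nat_lit 180)) (XT.lf (nat_lit 0) (nat_lit 1525238757237) (nat_lit 252) (nat_lit 924604854325) (nat_lit 336) (nat_lit 2292341245771) (nat_lit 68) (nat_lit 5) (nat_lit 71) (nat_lit 5) (nat_lit 72) (nat_lit 5) (nat_lit 461) (nat_lit 440) (nat_lit 179)))) (XT.nd (nat_lit 188) (nat_lit 420) (nat_lit 0) (XT.nd (nat_lit 94) (nat_lit 336) (nat_lit 0) (XT.lf (nat_lit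 0) (nat_lit 1437112325192) (nat_lit 168) (nat_lit 2920616942793) (nat_lit 252) (nat_lit 613736813915) (nat_lit 66) (nat_lit 5) (nat_lit 68) (nat_lit 5) (nat_lit 69) (nat_lit 5) (nat_lit 462) (nat_lit 440) (nat_lit 178)) (XT.lf (nat_lit 0) (nat_lit 1256533733696) (nat_lit 336) (nat_lit 3844543488374) (nat_lit 84) (nat_lit 112288561032) (nat_lit 62) (nat_lit 5) (nat_lit 66) (nat_lit 5) (nat_lit 63) (nat_lit 5) (nat_lit 463) (nat_lit 440) (nat_lit 177))) (XT.nd (nat_lit 94) (nat_lit 252) (nat_lit 0) (XT.lf (nat_lit 0) (nat_lit 1299924675100) (nat_lit 168) (nat_lit 2087404212931) (nat_lit 252) (nat_lit 2080165243847) (nat_lit 60) (nat_lit 5) (nat_lit 62) (nat_lit 5) (nat_lit 63) (nat_lit 5) (nat_lit 464) (nat_lit 440) (nat_lit 176)) (XT.lf (nat_lit 0) (nat_lit 56301672406) (nat_lit 252) (nat_lit 4461395286021) (nat_lit 84) (nat_lit 1218899511561) (nat_lit 57)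 (nat_lit 5) (nat_lit 60) (nat_lit 5) (nat_lit 58) (nat_lit 5) (nat_lit 465) (nat_lit 440) (nat_lit 175)))))) (XT.nd (nat_lit 658) (nat_lit 1260) (nat_lit 0) (XT.nd (nat_lit 282) (nat_lit 588) (nat_lit 0) (XT.nd (nat_lit 94) (nat_lit 420) (nat_lit 0) (XT.lf (nat_lit 0) (nat_lit 1247069947064) (nat_lit 168) (nat_lit 1173165633651) (nat_lit 252) (nat_lit 3598814936155) (nat_lit 55) (nat_lit 5) (nat_lit 57) (nat_lit 5) (nat_lit 58) (nat_lit 5) (nat_lit 466) (nat_lit 440) (nat_lit 174)) (XT.nd (nat_lit 94) (nat_lit 252) (nat_lit 0) (XT.lf (nat_lit 0) (nat_lit 1252032574880) (nat_lit 168) (nat_lit 3857866505487) (nat_lit 252) (nat_lit 1207371063202) (nat_lit 53) (nat_lit 5) (nat_lit 55) (nat_lit 5) (nat_lit 56) (nat_lit 5) (nat_lit 467) (nat_lit 440) (nat_lit 173)) (XT.lf (nat_lit 0) (nat_lit 1291912749798) (nat_lit 168) (nat_lit 163894172438) (nat_lit 252) (nat_lit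 5176244753940) (nat_lit 50) (nat_lit 5) (nat_lit 52) (nat_lit 5) (nat_lit 53) (nat_lit 5) (nat_lit 468) (nat_lit 440) (nat_lit 172)))) (XT.nd (nat_lit 188) (nat_lit 252) (nat_lit 0) (XT.nd (nat_lit 94) (nat_lit 168) (nat_lit 0) (XT.lf (nat_lit 0) (nat_lit 1332008405870) (nat_lit 168) (nat_lit 3128500126717) (nat_lit 252) (nat_lit 2501979061051) (nat_lit 48) (nat_lit 5) (nat_lit 50) (nat_lit 5) (nat_lit 51) (nat_lit 5) (nat_lit 469) (nat_lit 440) (nat_lit 171)) (XT.lf (nat_lit 0) (nat_lit 508743920365) (nat_lit 168) (nat_lit 5877982749333) (nat_lit 84) (nat_lit 925586322939) (nat_lit 46) (nat_lit 5) (nat_lit 48) (nat_lit 5) (nat_lit 47) (nat_lit 5) (nat_lit 470) (nat_lit 440) (nat_lit 170))) (XT.nd (nat_lit 94) (nat_lit 84) (nat_lit 0) (XT.lf (nat_lit 0) (nat_lit 1532673672779) (nat_lit 168) (nat_lit 2317534526166) (nat_lit 252) (nat_lit 3828988391234) (nat_lit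 44) (nat_lit 5) (nat_lit 46) (nat_lit 5) (nat_lit 47) (nat_lit 5) (nat_lit 471) (nat_lit 440) (nat_lit 169)) (XT.lf (nat_lit 0) (nat_lit 1695943579754) (nat_lit 84) (nat_lit 5926024478264) (nat_lit 168) (nat_lit 445313895597) (nat_lit 43) (nat_lit 5) (nat_lit 44) (nat_lit 5) (nat_lit 45) (nat_lit 4) (nat_lit 472) (nat_lit 440) (nat_lit 168))))) (XT.nd (nat_lit 282) (nat_lit 672) (nat_lit 0) (XT.nd (nat_lit 94) (nat_lit 336) (nat_lit 0) (XT.lf (nat_lit 0) (nat_lit 1873257542048) (nat_lit 168) (nat_lit 1410235580220) (nat_lit 252) (nat_lit 5191558489635) (nat_lit 40) (nat_lit 5) (nat_lit 42) (nat_lit 5) (nat_lit 43) (nat_lit 5) (nat_lit 473) (nat_lit 440) (nat_lit 167)) (XT.nd (nat_lit 94) (nat_lit 252) (nat_lit 0) (XT.lf (nat_lit 0) (nat_lit 2098764583610) (nat_lit 84) (nat_lit 5396145406440) (nat_lit 168) (nat_lit 1410172495503) (nat_lit 39) (nat_lit 5) (nat_lit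 40) (nat_lit 5) (nat_lit 41) (nat_lit 4) (nat_lit 474) (nat_lit 440) (nat_lit 166)) (XT.lf (nat_lit 0) (nat_lit 2375987722983) (nat_lit 168) (nat_lit 389919974675) (nat_lit 252) (nat_lit 6592632955041) (nat_lit 36) (nat_lit 5) (nat_lit 38) (nat_lit 5) (nat_lit 39) (nat_lit 5) (nat_lit 475) (nat_lit 440) (nat_lit 165)))) (XT.nd (nat_lit 188) (nat_lit 336) (nat_lit 0) (XT.nd (nat_lit 94) (nat_lit 252) (nat_lit 0) (XT.lf (nat_lit 0) (nat_lit 2675155423742) (nat_lit 84) (nat_lit 4792772145242) (nat_lit 168) (nat_lit 2367129083249) (nat_lit 35) (nat_lit 5) (nat_lit 36) (nat_lit 5) (nat_lit 37) (nat_lit 4) (nat_lit 476) (nat_lit 440) (nat_lit 164)) (XT.lf (nat_lit 0) (nat_lit 2316094763974) (nat_lit 252) (nat_lit 7284478203599) (nat_lit 84) (nat_lit 737907421115) (nat_lit 32) (nat_lit 5) (nat_lit 35) (nat_lit 5) (nat_lit 33) (nat_lit 4) (nat_lit 477) (nat_lit 440)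 (nat_lit 163))) (XT.nd (nat_lit 94) (nat_lit 252) (nat_lit 0) (XT.lf (nat_lit 0) (nat_lit 3452480987793) (nat_lit 84) (nat_lit 4101154845392) (nat_lit 168) (nat_lit 3313472321807) (nat_lit 31) (nat_lit 5) (nat_lit 32) (nat_lit 5) (nat_lit 33) (nat_lit 4) (nat_lit 478) (nat_lit 440) (nat_lit 162)) (XT.lf (nat_lit 0) (nat_lit 1938739812833) (nat_lit 252) (nat_lit 7485080974828) (nat_lit 84) (nat_lit 2001656652172) (nat_lit 28) (nat_lit 5) (nat_lit 31) (nat_lit 5) (nat_lit 29) (nat_lit 4) (nat_lit 479) (nat_lit 440) (nat_lit 161))))))) (XT.nd (nat_lit 1316) (nat_lit 336) (nat_lit 0) (XT.nd (nat_lit 658) (nat_lit 924) (nat_lit 0) (XT.nd (nat_lit 282) (nat_lit 504) (nat_lit 0) (XT.nd (nat_lit 94) (nat_lit 252) (nat_lit 0) (XT.lf (nat_lit 0) (nat_lit 4462214802647) (nat_lit 84) (nat_lit 3304474170126) (nat_lit 168) (nat_lit 4245528934562) (nat_lit 27) (nat_lit 5)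 (nat_lit 28) (nat_lit 5) (nat_lit 29) (nat_lit 4) (nat_lit 480) (nat_lit 440) (nat_lit 160)) (XT.nd (nat_lit 94) (nat_lit 84) (nat_lit 0) (XT.lf (nat_lit 0) (nat_lit 1637795669433) (nat_lit 168) (nat_lit 7556326108050) (nat_lit 84) (nat_lit 3437265882389) (nat_lit 25) (nat_lit 5) (nat_lit 27) (nat_lit 5) (nat_lit 26) (nat_lit 4) (nat_lit 481) (nat_lit 440) (nat_lit 159)) (XT.lf (nat_lit 0) (nat_lit 5740493156068) (nat_lit 84) (nat_lit 2383555813095) (nat_lit 168) (nat_lit 5158511812677) (nat_lit 24) (nat_lit 5) (nat_lit 25) (nat_lit 5) (nat_lit 26) (nat_lit 4) (nat_lit 482) (nat_lit 440) (nat_lit 158)))) (XT.nd (nat_lit 188) (nat_lit 252) (nat_lit 0) (XT.nd (nat_lit 94) (nat_lit 84) (nat_lit 0) (XT.lf (nat_lit 0) (nat_lit 1425127258885) (nat_lit 168) (nat_lit 7472591244068) (nat_lit 84) (nat_lit 5071299305731) (nat_lit 22) (nat_lit 5) (nat_lit 24) (nat_lit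 5) (nat_lit 23) (nat_lit 4) (nat_lit 483) (nat_lit 440) (nat_lit 157)) (XT.lf (nat_lit 0) (nat_lit 7328741307911) (nat_lit 84) (nat_lit 1316548171581) (nat_lit 168) (nat_lit 6046345572354) (nat_lit 21) (nat_lit 5) (nat_lit 22) (nat_lit 5) (nat_lit 23) (nat_lit 4) (nat_lit 484) (nat_lit 440) (nat_lit 156))) (XT.nd (nat_lit 94) (nat_lit 84) (nat_lit 0) (XT.lf (nat_lit 0) (nat_lit 1314678237099) (nat_lit 168) (nat_lit 7204054495181) (nat_lit 84) (nat_lit 6933833268579) (nat_lit 19) (nat_lit 5) (nat_lit 21) (nat_lit 5) (nat_lit 20) (nat_lit 4) (nat_lit 485) (nat_lit 440) (nat_lit 155)) (XT.lf (nat_lit 0) (nat_lit 9274380849149) (nat_lit 84) (nat_lit 78558531632) (nat_lit 168) (nat_lit 6901466527781) (nat_lit 18) (nat_lit 5) (nat_lit 19) (nat_lit 5) (nat_lit 20) (nat_lit 4) (nat_lit 486) (nat_lit 440) (nat_lit 154))))) (XT.nd (nat_lit 282) (nat_lit 504) (nat_lit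 0) (XT.nd (nat_lit 94) (nat_lit 252) (nat_lit 0) (XT.lf (nat_lit 0) (nat_lit 1322759897243) (nat_lit 168) (nat_lit 6716099240800) (nat_lit 84) (nat_lit 9058913419170) (nat_lit 16) (nat_lit 5) (nat_lit 18) (nat_lit 5) (nat_lit 17) (nat_lit 4) (nat_lit 487) (nat_lit 440) (nat_lit 153)) (XT.nd (nat_lit 94) (nat_lit 168) (nat_lit 0) (XT.lf (nat_lit 0) (nat_lit 10294084944405) (nat_lit 168) (nat_lit 6377050214684) (nat_lit 0) (nat_lit 1315268725046) (nat_lit 15) (nat_lit 5) (nat_lit 17) (nat_lit 4) (nat_lit 15) (nat_lit 4) (nat_lit 488) (nat_lit 440) (nat_lit 152)) (XT.lf (nat_lit 0) (nat_lit 1468379038330) (nat_lit 168) (nat_lit 5968639190939) (nat_lit 84) (nat_lit 11485069025460) (nat_lit 13) (nat_lit 5) (nat_lit 15) (nat_lit 5) (nat_lit 14) (nat_lit 4) (nat_lit 489) (nat_lit 440) (nat_lit 151)))) (XT.nd (nat_lit 188) (nat_lit 252) (nat_lit 0) (XT.nd (nat_lit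 94) (nat_lit 168) (nat_lit 0) (XT.lf (nat_lit 0) (nat_lit 11482008366653) (nat_lit 168) (nat_lit 5494078079897) (nat_lit 0) (nat_lit 2930754824117) (nat_lit 12) (nat_lit 5) (nat_lit 14) (nat_lit 4) (nat_lit 12) (nat_lit 4) (nat_lit 490) (nat_lit 440) (nat_lit 150)) (XT.lf (nat_lit 0) (nat_lit 1773609781119) (nat_lit 168) (nat_lit 4915353491369) (nat_lit 84) (nat_lit 14255891486021) (nat_lit 10) (nat_lit 5) (nat_lit 12) (nat_lit 5) (nat_lit 11) (nat_lit 4) (nat_lit 491) (nat_lit 440) (nat_lit 149))) (XT.nd (nat_lit 94) (nat_lit 168) (nat_lit 0) (XT.lf (nat_lit 0) (nat_lit 12949986569157) (nat_lit 168) (nat_lit 4280220389747) (nat_lit 0) (nat_lit 4805935576030) (nat_lit 9) (nat_lit 5) (nat_lit 11) (nat_lit 4) (nat_lit 9) (nat_lit 4) (nat_lit 492) (nat_lit 440) (nat_lit 148)) (XT.lf (nat_lit 0) (nat_lit 2264014939554) (nat_lit 168) (nat_lit 3502820367146) (nat_lit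 84) (nat_lit 17420684906786) (nat_lit 7) (nat_lit 5) (nat_lit 9) (nat_lit 5) (nat_lit 8) (nat_lit 4) (nat_lit 493) (nat_lit 440) (nat_lit 147)))))) (XT.nd (nat_lit 63168) (nat_lit 0) (nat_lit 8652) (XT.nd (nat_lit 62792) (nat_lit 0) (nat_lit 10500) (XT.nd (nat_lit 94) (nat_lit 252) (nat_lit 0) (XT.lf (nat_lit 0) (nat_lit 14737436223660) (nat_lit 168) (nat_lit 2678248463893) (nat_lit 0) (nat_lit 6981197182394) (nat_lit 6) (nat_lit 5) (nat_lit 8) (nat_lit 4) (nat_lit 6) (nat_lit 4) (nat_lit 494) (nat_lit 440) (nat_lit 146)) (XT.nd (nat_lit 94) (nat_lit 84) (nat_lit 0) (XT.lf (nat_lit 0) (nat_lit 2969123255153) (nat_lit 168) (nat_lit 1669536368286) (nat_lit 84) (nat_lit 21035197565661) (nat_lit 4) (nat_lit 5) (nat_lit 6) (nat_lit 5) (nat_lit 5) (nat_lit 4) (nat_lit 495) (nat_lit 440) (nat_lit 145)) (XT.lf (nat_lit 0) (nat_lit 16889327170375) (nat_lit 168) (nat_lit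 622324468605) (nat_lit 0) (nat_lit 9502432845203) (nat_lit 3) (nat_lit 5) (nat_lit 5) (nat_lit 4) (nat_lit 3) (nat_lit 4) (nat_lit 496) (nat_lit 440) (nat_lit 144)))) (XT.nd (nat_lit 188) (nat_lit 0) (nat_lit 84) (XT.nd (nat_lit 94) (nat_lit 0) (nat_lit 84) (XT.lf (nat_lit 0) (nat_lit 486288383398) (nat_lit 924) (nat_lit 273888602333) (nat_lit 924) (nat_lit 273888602333) (nat_lit 128) (nat_lit 3) (nat_lit 139) (nat_lit 3) (nat_lit 139) (nat_lit 5) (nat_lit 441) (nat_lit 441) (nat_lit 198)) (XT.lf (nat_lit 0) (nat_lit 1031110025040) (nat_lit 840) (nat_lit 1008422463084) (nat_lit 924) (nat_lit 110342425674) (nat_lit 129) (nat_lit 5) (nat_lit 139) (nat_lit 5) (nat_lit 140) (nat_lit 5) (nat_lit 442) (nat_lit 441) (nat_lit 197))) (XT.nd (nat_lit 94) (nat_lit 0) (nat_lit 84) (XT.lf (nat_lit 84) (nat_lit 745777538693) (nat_lit 0) (nat_lit 395526375992) (nat_lit 924)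 (nat_lit 1094505337255) (nat_lit 130) (nat_lit 5) (nat_lit 129) (nat_lit 5) (nat_lit 140) (nat_lit 5) (nat_lit 443) (nat_lit 441) (nat_lit 196)) (XT.lf (nat_lit 84) (nat_lit 337554147782) (nat_lit 0) (nat_lit 967429039772) (nat_lit 924) (nat_lit 1021401655977) (nat_lit 131) (nat_lit 5) (nat_lit 130) (nat_lit 5) (nat_lit 141) (nat_lit 5) (nat_lit 444) (nat_lit 441) (nat_lit 195))))) (XT.nd (nat_lit 282) (nat_lit 2100) (nat_lit 0) (XT.nd (nat_lit 94) (nat_lit 0) (nat_lit 84) (XT.lf (nat_lit 0) (nat_lit 1527441627178) (nat_lit 840) (nat_lit 78082720749) (nat_lit 924) (nat_lit 816397893277) (nat_lit 131) (nat_lit 5) (nat_lit 141) (nat_lit 5) (nat_lit 142) (nat_lit 5) (nat_lit 445) (nat_lit 441) (nat_lit 194)) (XT.nd (nat_lit 94) (nat_lit 0) (nat_lit 0) (XT.lf (nat_lit 0) (nat_lit 1819183072086) (nat_lit 840) (nat_lit 491787617430) (nat_lit 924) (nat_lit 211557624669)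 (nat_lit 132) (nat_lit 5) (nat_lit 142) (nat_lit 5) (nat_lit 143) (nat_lit 5) (nat_lit 446) (nat_lit 441) (nat_lit 193)) (XT.lf (nat_lit 84) (nat_lit 1707499712998) (nat_lit 0) (nat_lit 481877495084) (nat_lit 924) (nat_lit 439049996148) (nat_lit 133) (nat_lit 5) (nat_lit 132) (nat_lit 5) (nat_lit 143) (nat_lit 5) (nat_lit 447) (nat_lit 441) (nat_lit 192)))) (XT.nd (nat_lit 188) (nat_lit 840) (nat_lit 0) (XT.nd (nat_lit 94) (nat_lit 588) (nat_lit 0) (XT.lf (nat_lit 0) (nat_lit 1378586477199) (nat_lit 840) (nat_lit 1264149448249) (nat_lit 924) (nat_lit 97384627506) (nat_lit 123) (nat_lit 5) (nat_lit 133) (nat_lit 5) (nat_lit 134) (nat_lit 5) (nat_lit 448) (nat_lit 441) (nat_lit 191)) (XT.lf (nat_lit 0) (nat_lit 315586821068) (nat_lit 588) (nat_lit 1814061829861) (nat_lit 84) (nat_lit 728255376194) (nat_lit 116) (nat_lit 5) (nat_lit 123) (nat_lit 5) (nat_lit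 117) (nat_lit 5) (nat_lit 449) (nat_lit 441) (nat_lit 190))) (XT.nd (nat_lit 94) (nat_lit 420) (nat_lit 0) (XT.lf (nat_lit 0) (nat_lit 705580410232) (nat_lit 420) (nat_lit 109087109968) (nat_lit 504) (nat_lit 2167538664680) (nat_lit 111) (nat_lit 5) (nat_lit 116) (nat_lit 5) (nat_lit 117) (nat_lit 5) (nat_lit 450) (nat_lit 441) (nat_lit 189)) (XT.lf (nat_lit 0) (nat_lit 355183936709) (nat_lit 420) (nat_lit 1068521172843) (nat_lit 504) (nat_lit 1689245883989) (nat_lit 106) (nat_lit 5) (nat_lit 111) (nat_lit 5) (nat_lit 112) (nat_lit 5) (nat_lit 451) (nat_lit 441) (nat_lit 188))))))))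
noncomputable def xc233 : XT := (XT.nd (nat_lit 2632) (nat_lit 2016) (nat_lit 0) (XT.nd (nat_lit 1316) (nat_lit 2436) (nat_lit 0) (XT.nd (nat_lit 658) (nat_lit 1764) (nat_lit 0) (XT.nd (nat_lit 282) (nat_lit 1344) (nat_lit 0) (XT.nd (nat_lit 94) (nat_lit 420) (nat_lit 0) (XT.lf (nat_lit 0) (nat_lit 7062561756) (nat_lit 336) (nat_lit 2133997722115) (nat_lit 420) (nat_lit 1110115374135) (nat_lit 102) (nat_lit 5) (nat_lit 106) (nat_lit 5) (nat_lit 107) (nat_lit 5) (nat_lit 452) (nat_lit 441) (nat_lit 187)) (XT.nd (nat_lit 94) (nat_lit 420) (nat_lit 0) (XT.lf (nat_lit 0) (nat_lit 2982995640901) (nat_lit 420) (nat_lit 325652096217) (nat_lit 84) (nat_lit 88450970070) (nat_lit 102) (nat_lit 5) (nat_lit 107) (nat_lit 5) (nat_lit 103) (nat_lit 5) (nat_lit 453) (nat_lit 441) (nat_lit 186)) (XT.lf (nat_lit 0) (nat_lit 409100883057) (nat_lit 420) (nat_lit 674681911875)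 (nat_lit 84) (nat_lit 2466533486277) (nat_lit 97) (nat_lit 5) (nat_lit 102) (nat_lit 5) (nat_lit 98) (nat_lit 5) (nat_lit 454) (nat_lit 441) (nat_lit 185)))) (XT.nd (nat_lit 188) (nat_lit 672) (nat_lit 0) (XT.nd (nat_lit 94) (nat_lit 336) (nat_lit 0) (XT.lf (nat_lit 0) (nat_lit 1353400729112) (nat_lit 420) (nat_lit 1025768984231) (nat_lit 84) (nat_lit 1332794732315) (nat_lit 93) (nat_lit 5) (nat_lit 98) (nat_lit 5) (nat_lit 94) (nat_lit 5) (nat_lit 455) (nat_lit 441) (nat_lit 184)) (XT.lf (nat_lit 0) (nat_lit 2443894276966) (nat_lit 420) (nat_lit 1368071226080) (nat_lit 84) (nat_lit 71046474509) (nat_lit 89) (nat_lit 5) (nat_lit 94) (nat_lit 5) (nat_lit 90) (nat_lit 5) (nat_lit 456) (nat_lit 441) (nat_lit 183))) (XT.nd (nat_lit 94) (nat_lit 420) (nat_lit 0) (XT.lf (nat_lit 0) (nat_lit 2343276661908) (nat_lit 252) (nat_lit 1373214064644) (nat_lit 336) (nat_lit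 346509414560) (nat_lit 86) (nat_lit 5) (nat_lit 89) (nat_lit 5) (nat_lit 90) (nat_lit 5) (nat_lit 457) (nat_lit 441) (nat_lit 182)) (XT.lf (nat_lit 0) (nat_lit 886275085696) (nat_lit 420) (nat_lit 2073423833570) (nat_lit 84) (nat_lit 1293065519168) (nat_lit 81) (nat_lit 5) (nat_lit 86) (nat_lit 5) (nat_lit 82) (nat_lit 5) (nat_lit 458) (nat_lit 441) (nat_lit 181))))) (XT.nd (nat_lit 282) (nat_lit 924) (nat_lit 0) (XT.nd (nat_lit 94) (nat_lit 588) (nat_lit 0) (XT.lf (nat_lit 0) (nat_lit 2031045913559) (nat_lit 252) (nat_lit 259971508552) (nat_lit 336) (nat_lit 2162134679418) (nat_lit 78) (nat_lit 5) (nat_lit 81) (nat_lit 5) (nat_lit 82) (nat_lit 5) (nat_lit 459) (nat_lit 441) (nat_lit 180)) (XT.nd (nat_lit 94) (nat_lit 336) (nat_lit 0) (XT.lf (nat_lit 0) (nat_lit 1888539144380) (nat_lit 252) (nat_lit 2027258639796) (nat_lit 336) (nat_lit 748390061559) (nat_lit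 75) (nat_lit 5) (nat_lit 78) (nat_lit 5) (nat_lit 79) (nat_lit 5) (nat_lit 460) (nat_lit 441) (nat_lit 179)) (XT.lf (nat_lit 0) (nat_lit 843459149235) (nat_lit 336) (nat_lit 3122321161848) (nat_lit 84) (nat_lit 921222425014) (nat_lit 71) (nat_lit 5) (nat_lit 75) (nat_lit 5) (nat_lit 72) (nat_lit 5) (nat_lit 461) (nat_lit 441) (nat_lit 178)))) (XT.nd (nat_lit 188) (nat_lit 504) (nat_lit 0) (XT.nd (nat_lit 94) (nat_lit 168) (nat_lit 0) (XT.lf (nat_lit 0) (nat_lit 1647257882309) (nat_lit 252) (nat_lit 998573234150) (nat_lit 336) (nat_lit 2475728528664) (nat_lit 68) (nat_lit 5) (nat_lit 71) (nat_lit 5) (nat_lit 72) (nat_lit 5) (nat_lit 462) (nat_lit 441) (nat_lit 177)) (XT.lf (nat_lit 0) (nat_lit 1552081335272) (nat_lit 168) (nat_lit 3154266289438) (nat_lit 252) (nat_lit 662835742977) (nat_lit 66) (nat_lit 5) (nat_lit 68) (nat_lit 5) (nat_lit 69) (nat_lit 5) (nat_lit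 463) (nat_lit 441) (nat_lit 176))) (XT.nd (nat_lit 94) (nat_lit 168) (nat_lit 0) (XT.lf (nat_lit 0) (nat_lit 1357056447282) (nat_lit 336) (nat_lit 4152106943334) (nat_lit 84) (nat_lit 121271654391) (nat_lit 62) (nat_lit 5) (nat_lit 66) (nat_lit 5) (nat_lit 63) (nat_lit 5) (nat_lit 464) (nat_lit 441) (nat_lit 175)) (XT.lf (nat_lit 0) (nat_lit 1403918672171) (nat_lit 168) (nat_lit 2254396541049) (nat_lit 252) (nat_lit 2246578448501) (nat_lit 60) (nat_lit 5) (nat_lit 62) (nat_lit 5) (nat_lit 63) (nat_lit 5) (nat_lit 465) (nat_lit 441) (nat_lit 174)))))) (XT.nd (nat_lit 658) (nat_lit 1092) (nat_lit 0) (XT.nd (nat_lit 282) (nat_lit 756) (nat_lit 0) (XT.nd (nat_lit 94) (nat_lit 336) (nat_lit 0) (XT.lf (nat_lit 0) (nat_lit 60805820002) (nat_lit 252) (nat_lit 4818306885842) (nat_lit 84) (nat_lit 1316411481054) (nat_lit 57) (nat_lit 5) (nat_lit 60) (nat_lit 5) (nat_lit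 58) (nat_lit 5) (nat_lit 466) (nat_lit 441) (nat_lit 173)) (XT.nd (nat_lit 94) (nat_lit 168) (nat_lit 0) (XT.lf (nat_lit 0) (nat_lit 1346835564887) (nat_lit 168) (nat_lit 1267018875410) (nat_lit 252) (nat_lit 3886720117266) (nat_lit 55) (nat_lit 5) (nat_lit 57) (nat_lit 5) (nat_lit 58) (nat_lit 5) (nat_lit 467) (nat_lit 441) (nat_lit 172)) (XT.lf (nat_lit 0) (nat_lit 1352195202464) (nat_lit 168) (nat_lit 4166495816951) (nat_lit 252) (nat_lit 1303960735008) (nat_lit 53) (nat_lit 5) (nat_lit 55) (nat_lit 5) (nat_lit 56) (nat_lit 5) (nat_lit 468) (nat_lit 441) (nat_lit 171)))) (XT.nd (nat_lit 188) (nat_lit 336) (nat_lit 0) (XT.nd (nat_lit 94) (nat_lit 168) (nat_lit 0) (XT.lf (nat_lit 0) (nat_lit 1395265790843) (nat_lit 168) (nat_lit 177005697376) (nat_lit 252) (nat_lit 5590344321440) (nat_lit 50) (nat_lit 5) (nat_lit 52) (nat_lit 5) (nat_lit 53) (nat_lit 5) (nat_lit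 469) (nat_lit 441) (nat_lit 170)) (XT.lf (nat_lit 0) (nat_lit 1438569098938) (nat_lit 168) (nat_lit 3378780128007) (nat_lit 252) (nat_lit 2702137373598) (nat_lit 48) (nat_lit 5) (nat_lit 50) (nat_lit 5) (nat_lit 51) (nat_lit 5) (nat_lit 470) (nat_lit 441) (nat_lit 169))) (XT.nd (nat_lit 94) (nat_lit 168) (nat_lit 0) (XT.lf (nat_lit 0) (nat_lit 549443445502) (nat_lit 168) (nat_lit 6348221348767) (nat_lit 84) (nat_lit 999633237204) (nat_lit 46) (nat_lit 5) (nat_lit 48) (nat_lit 5) (nat_lit 47) (nat_lit 5) (nat_lit 471) (nat_lit 441) (nat_lit 168)) (XT.lf (nat_lit 0) (nat_lit 1655287586223) (nat_lit 168) (nat_lit 2502937279600) (nat_lit 252) (nat_lit 4135307451023) (nat_lit 44) (nat_lit 5) (nat_lit 46) (nat_lit 5) (nat_lit 47) (nat_lit 5) (nat_lit 472) (nat_lit 441) (nat_lit 167))))) (XT.nd (nat_lit 282) (nat_lit 672) (nat_lit 0) (XT.nd (nat_lit 94) (nat_lit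 336) (nat_lit 0) (XT.lf (nat_lit 0) (nat_lit 1831619085298) (nat_lit 84) (nat_lit 6400106427936) (nat_lit 168) (nat_lit 480938996142) (nat_lit 43) (nat_lit 5) (nat_lit 44) (nat_lit 5) (nat_lit 45) (nat_lit 4) (nat_lit 473) (nat_lit 441) (nat_lit 166)) (XT.nd (nat_lit 94) (nat_lit 84) (nat_lit 0) (XT.lf (nat_lit 0) (nat_lit 2023118164083) (nat_lit 168) (nat_lit 1523054418210) (nat_lit 252) (nat_lit 5606883158050) (nat_lit 40) (nat_lit 5) (nat_lit 42) (nat_lit 5) (nat_lit 43) (nat_lit 5) (nat_lit 474) (nat_lit 441) (nat_lit 165)) (XT.lf (nat_lit 0) (nat_lit 2266665768522) (nat_lit 84) (nat_lit 5827837030623) (nat_lit 168) (nat_lit 1522986284758) (nat_lit 39) (nat_lit 5) (nat_lit 40) (nat_lit 5) (nat_lit 41) (nat_lit 4) (nat_lit 475) (nat_lit 441) (nat_lit 164)))) (XT.nd (nat_lit 188) (nat_lit 336) (nat_lit 0) (XT.nd (nat_lit 94) (nat_lit 84) (nat_lit 0) (XT.lf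 (nat_lit 0) (nat_lit 2566066758570) (nat_lit 168) (nat_lit 421113564485) (nat_lit 252) (nat_lit 7120043581380) (nat_lit 36) (nat_lit 5) (nat_lit 38) (nat_lit 5) (nat_lit 39) (nat_lit 5) (nat_lit 476) (nat_lit 441) (nat_lit 163)) (XT.lf (nat_lit 0) (nat_lit 2889167874956) (nat_lit 84) (nat_lit 5176193908810) (nat_lit 168) (nat_lit 2556499400182) (nat_lit 35) (nat_lit 5) (nat_lit 36) (nat_lit 5) (nat_lit 37) (nat_lit 4) (nat_lit 477) (nat_lit 441) (nat_lit 162))) (XT.nd (nat_lit 94) (nat_lit 84) (nat_lit 0) (XT.lf (nat_lit 0) (nat_lit 2501382354196) (nat_lit 252) (nat_lit 7867236442701) (nat_lit 84) (nat_lit 796940022431) (nat_lit 32) (nat_lit 5) (nat_lit 35) (nat_lit 5) (nat_lit 33) (nat_lit 4) (nat_lit 478) (nat_lit 441) (nat_lit 161)) (XT.lf (nat_lit 0) (nat_lit 3728679483255) (nat_lit 84) (nat_lit 4429247225272) (nat_lit 168) (nat_lit 3578550098431) (nat_lit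 31) (nat_lit 5) (nat_lit 32) (nat_lit 5) (nat_lit 33) (nat_lit 4) (nat_lit 479) (nat_lit 441) (nat_lit 160))))))) (XT.nd (nat_lit 1316) (nat_lit 168) (nat_lit 0) (XT.nd (nat_lit 658) (nat_lit 840) (nat_lit 0) (XT.nd (nat_lit 282) (nat_lit 504) (nat_lit 0) (XT.nd (nat_lit 94) (nat_lit 252) (nat_lit 0) (XT.lf (nat_lit 0) (nat_lit 2093839006402) (nat_lit 252) (nat_lit 8083887436508) (nat_lit 84) (nat_lit 2161789191682) (nat_lit 28) (nat_lit 5) (nat_lit 31) (nat_lit 5) (nat_lit 29) (nat_lit 4) (nat_lit 480) (nat_lit 441) (nat_lit 159)) (XT.nd (nat_lit 94) (nat_lit 168) (nat_lit 0) (XT.lf (nat_lit 0) (nat_lit 4819192002456) (nat_lit 84) (nat_lit 3568832096292) (nat_lit 168) (nat_lit 4585171240765) (nat_lit 27) (nat_lit 5) (nat_lit 28) (nat_lit 5) (nat_lit 29) (nat_lit 4) (nat_lit 481) (nat_lit 441) (nat_lit 158)) (XT.lf (nat_lit 0) (nat_lit 1768819331012) (nat_lit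 168) (nat_lit 8160832181231) (nat_lit 84) (nat_lit 3712247160018) (nat_lit 25) (nat_lit 5) (nat_lit 27) (nat_lit 5) (nat_lit 26) (nat_lit 4) (nat_lit 482) (nat_lit 441) (nat_lit 157)))) (XT.nd (nat_lit 188) (nat_lit 252) (nat_lit 0) (XT.nd (nat_lit 94) (nat_lit 168) (nat_lit 0) (XT.lf (nat_lit 0) (nat_lit 6199732623347) (nat_lit 84) (nat_lit 2574240271011) (nat_lit 168) (nat_lit 5571192749647) (nat_lit 24) (nat_lit 5) (nat_lit 25) (nat_lit 5) (nat_lit 26) (nat_lit 4) (nat_lit 483) (nat_lit 441) (nat_lit 156)) (XT.lf (nat_lit 0) (nat_lit 1539137447139) (nat_lit 168) (nat_lit 8070398528934) (nat_lit 84) (nat_lit 5477003256928) (nat_lit 22) (nat_lit 5) (nat_lit 24) (nat_lit 5) (nat_lit 23) (nat_lit 4) (nat_lit 484) (nat_lit 441) (nat_lit 155))) (XT.nd (nat_lit 94) (nat_lit 168) (nat_lit 0) (XT.lf (nat_lit 0) (nat_lit 7915040626566) (nat_lit 84) (nat_lit 1421872018490)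 (nat_lit 168) (nat_lit 6530053210579) (nat_lit 21) (nat_lit 5) (nat_lit 22) (nat_lit 5) (nat_lit 23) (nat_lit 4) (nat_lit 485) (nat_lit 441) (nat_lit 154)) (XT.lf (nat_lit 0) (nat_lit 1419852503163) (nat_lit 168) (nat_lit 7780378840907) (nat_lit 84) (nat_lit 7488539936504) (nat_lit 19) (nat_lit 5) (nat_lit 21) (nat_lit 5) (nat_lit 20) (nat_lit 4) (nat_lit 486) (nat_lit 441) (nat_lit 153))))) (XT.nd (nat_lit 282) (nat_lit 504) (nat_lit 0) (XT.nd (nat_lit 94) (nat_lit 252) (nat_lit 0) (XT.lf (nat_lit 0) (nat_lit 10016331330367) (nat_lit 84) (nat_lit 84843207655) (nat_lit 168) (nat_lit 7453583842887) (nat_lit 18) (nat_lit 5) (nat_lit 19) (nat_lit 5) (nat_lit 20) (nat_lit 4) (nat_lit 487) (nat_lit 441) (nat_lit 152)) (XT.nd (nat_lit 94) (nat_lit 84) (nat_lit 0) (XT.lf (nat_lit 0) (nat_lit 1428580695702) (nat_lit 168) (nat_lit 7253387166908) (nat_lit 84) (nat_lit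 9783626498847) (nat_lit 16) (nat_lit 5) (nat_lit 18) (nat_lit 5) (nat_lit 17) (nat_lit 4) (nat_lit 488) (nat_lit 441) (nat_lit 151)) (XT.lf (nat_lit 0) (nat_lit 11117611746436) (nat_lit 168) (nat_lit 6887214219052) (nat_lit 0) (nat_lit 1420490229054) (nat_lit 15) (nat_lit 5) (nat_lit 17) (nat_lit 4) (nat_lit 15) (nat_lit 4) (nat_lit 489) (nat_lit 441) (nat_lit 150)))) (XT.nd (nat_lit 188) (nat_lit 252) (nat_lit 0) (XT.nd (nat_lit 94) (nat_lit 84) (nat_lit 0) (XT.lf (nat_lit 0) (nat_lit 1585849367688) (nat_lit 168) (nat_lit 6446130313755) (nat_lit 84) (nat_lit 12403874553350) (nat_lit 13) (nat_lit 5) (nat_lit 15) (nat_lit 5) (nat_lit 14) (nat_lit 4) (nat_lit 490) (nat_lit 441) (nat_lit 149)) (XT.lf (nat_lit 0) (nat_lit 12400569042089) (nat_lit 168) (nat_lit 5933604314162) (nat_lit 0) (nat_lit 3165215215764) (nat_lit 12) (nat_lit 5) (nat_lit 14) (nat_lit 4)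 (nat_lit 12) (nat_lit 4) (nat_lit 491) (nat_lit 441) (nat_lit 148))) (XT.nd (nat_lit 94) (nat_lit 84) (nat_lit 0) (XT.lf (nat_lit 0) (nat_lit 1915498569539) (nat_lit 168) (nat_lit 5308581758879) (nat_lit 84) (nat_lit 15396362810476) (nat_lit 10) (nat_lit 5) (nat_lit 12) (nat_lit 5) (nat_lit 11) (nat_lit 4) (nat_lit 492) (nat_lit 441) (nat_lit 147)) (XT.lf (nat_lit 0) (nat_lit 13985985500443) (nat_lit 168) (nat_lit 4622638009449) (nat_lit 0) (nat_lit 5190410427550) (nat_lit 9) (nat_lit 5) (nat_lit 11) (nat_lit 4) (nat_lit 9) (nat_lit 4) (nat_lit 493) (nat_lit 441) (nat_lit 146)))))) (XT.nd (nat_lit 63450) (nat_lit 0) (nat_lit 7560) (XT.nd (nat_lit 63074) (nat_lit 0) (nat_lit 10248) (XT.nd (nat_lit 62886) (nat_lit 0) (nat_lit 10164) (XT.lf (nat_lit 0) (nat_lit 2445136140306) (nat_lit 168) (nat_lit 3783045985353) (nat_lit 84) (nat_lit 18814339704625) (nat_lit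 7) (nat_lit 5) (nat_lit 9) (nat_lit 5) (nat_lit 8) (nat_lit 4) (nat_lit 494) (nat_lit 441) (nat_lit 145)) (XT.nd (nat_lit 94) (nat_lit 0) (nat_lit 84) (XT.lf (nat_lit 0) (nat_lit 525191477174) (nat_lit 924) (nat_lit 295799678390) (nat_lit 924) (nat_lit 295799678390) (nat_lit 128) (nat_lit 3) (nat_lit 139) (nat_lit 3) (nat_lit 139) (nat_lit 5) (nat_lit 442) (nat_lit 442) (nat_lit 196)) (XT.lf (nat_lit 0) (nat_lit 1113598869880) (nat_lit 840) (nat_lit 1089096234456) (nat_lit 924) (nat_lit 119169800423) (nat_lit 129) (nat_lit 5) (nat_lit 139) (nat_lit 5) (nat_lit 140) (nat_lit 5) (nat_lit 443) (nat_lit 442) (nat_lit 195)))) (XT.nd (nat_lit 188) (nat_lit 0) (nat_lit 168) (XT.nd (nat_lit 94) (nat_lit 0) (nat_lit 84) (XT.lf (nat_lit 84) (nat_lit 805439766347) (nat_lit 0) (nat_lit 427168501560) (nat_lit 924) (nat_lit 1182065722186) (nat_lit 130) (nat_lit 5) (nat_lit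 129) (nat_lit 5) (nat_lit 140) (nat_lit 5) (nat_lit 444) (nat_lit 442) (nat_lit 194)) (XT.lf (nat_lit 84) (nat_lit 364558505243) (nat_lit 0) (nat_lit 1044823374573) (nat_lit 924) (nat_lit 1103113749336) (nat_lit 131) (nat_lit 5) (nat_lit 130) (nat_lit 5) (nat_lit 141) (nat_lit 5) (nat_lit 445) (nat_lit 442) (nat_lit 193))) (XT.nd (nat_lit 94) (nat_lit 0) (nat_lit 84) (XT.lf (nat_lit 0) (nat_lit 1649636991682) (nat_lit 840) (nat_lit 84329312778) (nat_lit 924) (nat_lit 881709714325) (nat_lit 131) (nat_lit 5) (nat_lit 141) (nat_lit 5) (nat_lit 142) (nat_lit 5) (nat_lit 446) (nat_lit 442) (nat_lit 192)) (XT.lf (nat_lit 0) (nat_lit 1964717749903) (nat_lit 840) (nat_lit 531130600579) (nat_lit 924) (nat_lit 228482227236) (nat_lit 132) (nat_lit 5) (nat_lit 142) (nat_lit 5) (nat_lit 143) (nat_lit 5) (nat_lit 447) (nat_lit 442) (nat_lit 191))))) (XT.nd (nat_lit 376)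 (nat_lit 1176) (nat_lit 0) (XT.nd (nat_lit 188) (nat_lit 1008) (nat_lit 0) (XT.nd (nat_lit 94) (nat_lit 756) (nat_lit 0) (XT.lf (nat_lit 84) (nat_lit 1844099715143) (nat_lit 0) (nat_lit 520427699653) (nat_lit 924) (nat_lit 474173964269) (nat_lit 133) (nat_lit 5) (nat_lit 132) (nat_lit 5) (nat_lit 143) (nat_lit 5) (nat_lit 448) (nat_lit 442) (nat_lit 190)) (XT.lf (nat_lit 0) (nat_lit 1488873420901) (nat_lit 840) (nat_lit 1365281406750) (nat_lit 924) (nat_lit 105175368131) (nat_lit 123) (nat_lit 5) (nat_lit 133) (nat_lit 5) (nat_lit 134) (nat_lit 5) (nat_lit 449) (nat_lit 442) (nat_lit 189))) (XT.nd (nat_lit 94) (nat_lit 420) (nat_lit 0) (XT.lf (nat_lit 0) (nat_lit 340833793633) (nat_lit 588) (nat_lit 1959186749558) (nat_lit 84) (nat_lit 786515804758) (nat_lit 116) (nat_lit 5) (nat_lit 123) (nat_lit 5) (nat_lit 117) (nat_lit 5) (nat_lit 450) (nat_lit 442) (nat_lit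 188)) (XT.lf (nat_lit 0) (nat_lit 762026868582) (nat_lit 420) (nat_lit 117814078520) (nat_lit 504) (nat_lit 2340941731304) (nat_lit 111) (nat_lit 5) (nat_lit 116) (nat_lit 5) (nat_lit 117) (nat_lit 5) (nat_lit 451) (nat_lit 442) (nat_lit 187)))) (XT.nd (nat_lit 188) (nat_lit 420) (nat_lit 0) (XT.nd (nat_lit 94) (nat_lit 336) (nat_lit 0) (XT.lf (nat_lit 0) (nat_lit 383598677274) (nat_lit 420) (nat_lit 1154002864860) (nat_lit 504) (nat_lit 1824385529700) (nat_lit 106) (nat_lit 5) (nat_lit 111) (nat_lit 5) (nat_lit 112) (nat_lit 5) (nat_lit 452) (nat_lit 442) (nat_lit 186)) (XT.lf (nat_lit 0) (nat_lit 7627592323) (nat_lit 336) (nat_lit 2304717536737) (nat_lit 420) (nat_lit 1198924580462) (nat_lit 102) (nat_lit 5) (nat_lit 106) (nat_lit 5) (nat_lit 107) (nat_lit 5) (nat_lit 453) (nat_lit 442) (nat_lit 185))) (XT.nd (nat_lit 94) (nat_lit 420) (nat_lit 0) (XT.lf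 (nat_lit 0) (nat_lit 3221635313032) (nat_lit 420) (nat_lit 351704239192) (nat_lit 84) (nat_lit 95527050496) (nat_lit 102) (nat_lit 5) (nat_lit 107) (nat_lit 5) (nat_lit 103) (nat_lit 5) (nat_lit 454) (nat_lit 442) (nat_lit 184)) (XT.lf (nat_lit 0) (nat_lit 441828973708) (nat_lit 420) (nat_lit 728656440515) (nat_lit 84) (nat_lit 2663856168483) (nat_lit 97) (nat_lit 5) (nat_lit 102) (nat_lit 5) (nat_lit 98) (nat_lit 5) (nat_lit 455) (nat_lit 442) (nat_lit 183))))))))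
noncomputable def xc234 : XT := (XT.nd (nat_lit 2632) (nat_lit 1512) (nat_lit 0) (XT.nd (nat_lit 1316) (nat_lit 2352) (nat_lit 0) (XT.nd (nat_lit 658) (nat_lit 1512) (nat_lit 0) (XT.nd (nat_lit 282) (nat_lit 1260) (nat_lit 0) (XT.nd (nat_lit 94) (nat_lit 588) (nat_lit 0) (XT.lf (nat_lit 0) (nat_lit 1461672806396) (nat_lit 420) (nat_lit 1107830478839) (nat_lit 84) (nat_lit 1439418315127) (nat_lit 93) (nat_lit 5) (nat_lit 98) (nat_lit 5) (nat_lit 94) (nat_lit 5) (nat_lit 456) (nat_lit 442) (nat_lit 182)) (XT.nd (nat_lit 94) (nat_lit 252) (nat_lit 0) (XT.lf (nat_lit 0) (nat_lit 2639405837116) (nat_lit 420) (nat_lit 1477516900271) (nat_lit 84) (nat_lit 76730197474) (nat_lit 89) (nat_lit 5) (nat_lit 94) (nat_lit 5) (nat_lit 90) (nat_lit 5) (nat_lit 457) (nat_lit 442) (nat_lit 181)) (XT.lf (nat_lit 0) (nat_lit 2530738817718) (nat_lit 252) (nat_lit 1483071183974)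 (nat_lit 336) (nat_lit 374230149857) (nat_lit 86) (nat_lit 5) (nat_lit 89) (nat_lit 5) (nat_lit 90) (nat_lit 5) (nat_lit 458) (nat_lit 442) (nat_lit 180)))) (XT.nd (nat_lit 188) (nat_lit 588) (nat_lit 0) (XT.nd (nat_lit 94) (nat_lit 252) (nat_lit 0) (XT.lf (nat_lit 0) (nat_lit 957177109011) (nat_lit 420) (nat_lit 2239297717121) (nat_lit 84) (nat_lit 1396510766556) (nat_lit 81) (nat_lit 5) (nat_lit 86) (nat_lit 5) (nat_lit 82) (nat_lit 5) (nat_lit 459) (nat_lit 442) (nat_lit 179)) (XT.lf (nat_lit 0) (nat_lit 2193529608774) (nat_lit 252) (nat_lit 280769222691) (nat_lit 336) (nat_lit 2335105437408) (nat_lit 78) (nat_lit 5) (nat_lit 81) (nat_lit 5) (nat_lit 82) (nat_lit 5) (nat_lit 460) (nat_lit 442) (nat_lit 178))) (XT.nd (nat_lit 94) (nat_lit 336) (nat_lit 0) (XT.lf (nat_lit 0) (nat_lit 2039622297746) (nat_lit 252) (nat_lit 2189439324029) (nat_lit 336) (nat_lit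 808261250874) (nat_lit 75) (nat_lit 5) (nat_lit 78) (nat_lit 5) (nat_lit 79) (nat_lit 5) (nat_lit 461) (nat_lit 442) (nat_lit 177)) (XT.lf (nat_lit 0) (nat_lit 910935895607) (nat_lit 336) (nat_lit 3372106832844) (nat_lit 84) (nat_lit 994920225812) (nat_lit 71) (nat_lit 5) (nat_lit 75) (nat_lit 5) (nat_lit 72) (nat_lit 5) (nat_lit 462) (nat_lit 442) (nat_lit 176))))) (XT.nd (nat_lit 282) (nat_lit 756) (nat_lit 0) (XT.nd (nat_lit 94) (nat_lit 504) (nat_lit 0) (XT.lf (nat_lit 0) (nat_lit 1779038533891) (nat_lit 252) (nat_lit 1078459085576) (nat_lit 336) (nat_lit 2673786796580) (nat_lit 68) (nat_lit 5) (nat_lit 71) (nat_lit 5) (nat_lit 72) (nat_lit 5) (nat_lit 463) (nat_lit 442) (nat_lit 175)) (XT.nd (nat_lit 94) (nat_lit 336) (nat_lit 0) (XT.lf (nat_lit 0) (nat_lit 1676247862724) (nat_lit 168) (nat_lit 3406607585068) (nat_lit 252) (nat_lit 715862588655) (nat_lit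 66) (nat_lit 5) (nat_lit 68) (nat_lit 5) (nat_lit 69) (nat_lit 5) (nat_lit 464) (nat_lit 442) (nat_lit 174)) (XT.lf (nat_lit 0) (nat_lit 1465620975830) (nat_lit 336) (nat_lit 4484275478129) (nat_lit 84) (nat_lit 130973394010) (nat_lit 62) (nat_lit 5) (nat_lit 66) (nat_lit 5) (nat_lit 63) (nat_lit 5) (nat_lit 465) (nat_lit 442) (nat_lit 173)))) (XT.nd (nat_lit 188) (nat_lit 336) (nat_lit 0) (XT.nd (nat_lit 94) (nat_lit 252) (nat_lit 0) (XT.lf (nat_lit 0) (nat_lit 1516232185717) (nat_lit 168) (nat_lit 2434748256689) (nat_lit 252) (nat_lit 2426304711646) (nat_lit 60) (nat_lit 5) (nat_lit 62) (nat_lit 5) (nat_lit 63) (nat_lit 5) (nat_lit 466) (nat_lit 442) (nat_lit 172)) (XT.lf (nat_lit 0) (nat_lit 65670297437) (nat_lit 252) (nat_lit 5203771416939) (nat_lit 84) (nat_lit 1421724406883) (nat_lit 57) (nat_lit 5) (nat_lit 60) (nat_lit 5) (nat_lit 58) (nat_lit 5) (nat_lit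 467) (nat_lit 442) (nat_lit 171))) (XT.nd (nat_lit 94) (nat_lit 168) (nat_lit 0) (XT.lf (nat_lit 0) (nat_lit 1454582428990) (nat_lit 168) (nat_lit 1368380377785) (nat_lit 252) (nat_lit 4197657714832) (nat_lit 55) (nat_lit 5) (nat_lit 57) (nat_lit 5) (nat_lit 58) (nat_lit 5) (nat_lit 468) (nat_lit 442) (nat_lit 170)) (XT.lf (nat_lit 0) (nat_lit 1460370837175) (nat_lit 168) (nat_lit 4499815474613) (nat_lit 252) (nat_lit 1408277582448) (nat_lit 53) (nat_lit 5) (nat_lit 55) (nat_lit 5) (nat_lit 56) (nat_lit 5) (nat_lit 469) (nat_lit 442) (nat_lit 169)))))) (XT.nd (nat_lit 658) (nat_lit 1176) (nat_lit 0) (XT.nd (nat_lit 282) (nat_lit 588) (nat_lit 0) (XT.nd (nat_lit 94) (nat_lit 336) (nat_lit 0) (XT.lf (nat_lit 0) (nat_lit 1506887072167) (nat_lit 168) (nat_lit 191166145574) (nat_lit 252) (nat_lit 6037571856168) (nat_lit 50) (nat_lit 5) (nat_lit 52) (nat_lit 5)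 (nat_lit 53) (nat_lit 5) (nat_lit 470) (nat_lit 442) (nat_lit 168)) (XT.nd (nat_lit 94) (nat_lit 168) (nat_lit 0) (XT.lf (nat_lit 0) (nat_lit 1553654644512) (nat_lit 168) (nat_lit 3649082530663) (nat_lit 252) (nat_lit 2918308352908) (nat_lit 48) (nat_lit 5) (nat_lit 50) (nat_lit 5) (nat_lit 51) (nat_lit 5) (nat_lit 471) (nat_lit 442) (nat_lit 167)) (XT.lf (nat_lit 0) (nat_lit 593398931008) (nat_lit 168) (nat_lit 6856079039082) (nat_lit 84) (nat_lit 1079603903407) (nat_lit 46) (nat_lit 5) (nat_lit 48) (nat_lit 5) (nat_lit 47) (nat_lit 5) (nat_lit 472) (nat_lit 442) (nat_lit 166)))) (XT.nd (nat_lit 188) (nat_lit 336) (nat_lit 0) (XT.nd (nat_lit 94) (nat_lit 84) (nat_lit 0) (XT.lf (nat_lit 0) (nat_lit 1787710609943) (nat_lit 168) (nat_lit 2703172254544) (nat_lit 252) (nat_lit 4466132037237) (nat_lit 44) (nat_lit 5) (nat_lit 46) (nat_lit 5) (nat_lit 47) (nat_lit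 5) (nat_lit 473) (nat_lit 442) (nat_lit 165)) (XT.lf (nat_lit 0) (nat_lit 1978148628552) (nat_lit 84) (nat_lit 6912114934807) (nat_lit 168) (nat_lit 519414106314) (nat_lit 43) (nat_lit 5) (nat_lit 44) (nat_lit 5) (nat_lit 45) (nat_lit 4) (nat_lit 474) (nat_lit 442) (nat_lit 164))) (XT.nd (nat_lit 94) (nat_lit 84) (nat_lit 0) (XT.lf (nat_lit 0) (nat_lit 2184967633216) (nat_lit 168) (nat_lit 1644898764441) (nat_lit 252) (nat_lit 6055433801474) (nat_lit 40) (nat_lit 5) (nat_lit 42) (nat_lit 5) (nat_lit 43) (nat_lit 5) (nat_lit 475) (nat_lit 442) (nat_lit 163)) (XT.lf (nat_lit 0) (nat_lit 2447999045628) (nat_lit 84) (nat_lit 6294063985929) (nat_lit 168) (nat_lit 1644825178636) (nat_lit 39) (nat_lit 5) (nat_lit 40) (nat_lit 5) (nat_lit 41) (nat_lit 4) (nat_lit 476) (nat_lit 442) (nat_lit 162))))) (XT.nd (nat_lit 282) (nat_lit 588) (nat_lit 0) (XT.nd (nat_lit 94)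 (nat_lit 336) (nat_lit 0) (XT.lf (nat_lit 0) (nat_lit 2771352114473) (nat_lit 168) (nat_lit 454802642644) (nat_lit 252) (nat_lit 7689647059262) (nat_lit 36) (nat_lit 5) (nat_lit 38) (nat_lit 5) (nat_lit 39) (nat_lit 5) (nat_lit 477) (nat_lit 442) (nat_lit 161)) (XT.nd (nat_lit 94) (nat_lit 252) (nat_lit 0) (XT.lf (nat_lit 0) (nat_lit 3120301319796) (nat_lit 84) (nat_lit 5590289414613) (nat_lit 168) (nat_lit 2761019343858) (nat_lit 35) (nat_lit 5) (nat_lit 36) (nat_lit 5) (nat_lit 37) (nat_lit 4) (nat_lit 478) (nat_lit 442) (nat_lit 160)) (XT.lf (nat_lit 0) (nat_lit 2701492950337) (nat_lit 252) (nat_lit 8496615343384) (nat_lit 84) (nat_lit 860695230764) (nat_lit 32) (nat_lit 5) (nat_lit 35) (nat_lit 5) (nat_lit 33) (nat_lit 4) (nat_lit 479) (nat_lit 442) (nat_lit 159)))) (XT.nd (nat_lit 188) (nat_lit 252) (nat_lit 0) (XT.nd (nat_lit 94) (nat_lit 252) (nat_lit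 0) (XT.lf (nat_lit 0) (nat_lit 4026973856009) (nat_lit 84) (nat_lit 4783586996647) (nat_lit 168) (nat_lit 3864834098486) (nat_lit 31) (nat_lit 5) (nat_lit 32) (nat_lit 5) (nat_lit 33) (nat_lit 4) (nat_lit 480) (nat_lit 442) (nat_lit 158)) (XT.lf (nat_lit 0) (nat_lit 2261346134239) (nat_lit 252) (nat_lit 8730598417448) (nat_lit 84) (nat_lit 2334732333306) (nat_lit 28) (nat_lit 5) (nat_lit 31) (nat_lit 5) (nat_lit 29) (nat_lit 4) (nat_lit 481) (nat_lit 442) (nat_lit 157))) (XT.nd (nat_lit 94) (nat_lit 168) (nat_lit 0) (XT.lf (nat_lit 0) (nat_lit 5204727376026) (nat_lit 84) (nat_lit 3854338657613) (nat_lit 168) (nat_lit 4951984932687) (nat_lit 27) (nat_lit 5) (nat_lit 28) (nat_lit 5) (nat_lit 29) (nat_lit 4) (nat_lit 482) (nat_lit 442) (nat_lit 156)) (XT.lf (nat_lit 0) (nat_lit 1910324884372) (nat_lit 168) (nat_lit 8813698742471) (nat_lit 84) (nat_lit 4009226938855)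 (nat_lit 25) (nat_lit 5) (nat_lit 27) (nat_lit 5) (nat_lit 26) (nat_lit 4) (nat_lit 483) (nat_lit 442) (nat_lit 155))))))) (XT.nd (nat_lit 64108) (nat_lit 0) (nat_lit 6636) (XT.nd (nat_lit 658) (nat_lit 672) (nat_lit 0) (XT.nd (nat_lit 282) (nat_lit 504) (nat_lit 0) (XT.nd (nat_lit 94) (nat_lit 252) (nat_lit 0) (XT.lf (nat_lit 0) (nat_lit 6695711245896) (nat_lit 84) (nat_lit 2780179486578) (nat_lit 168) (nat_lit 6016888162723) (nat_lit 24) (nat_lit 5) (nat_lit 25) (nat_lit 5) (nat_lit 26) (nat_lit 4) (nat_lit 484) (nat_lit 442) (nat_lit 154)) (XT.nd (nat_lit 94) (nat_lit 84) (nat_lit 0) (XT.lf (nat_lit 0) (nat_lit 1662268449376) (nat_lit 168) (nat_lit 8716030398682) (nat_lit 84) (nat_lit 5915163523260) (nat_lit 22) (nat_lit 5) (nat_lit 24) (nat_lit 5) (nat_lit 23) (nat_lit 4) (nat_lit 485) (nat_lit 442) (nat_lit 153)) (XT.lf (nat_lit 0) (nat_lit 8548243888711)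 (nat_lit 84) (nat_lit 1535621774124) (nat_lit 168) (nat_lit 7052457460942) (nat_lit 21) (nat_lit 5) (nat_lit 22) (nat_lit 5) (nat_lit 23) (nat_lit 4) (nat_lit 486) (nat_lit 442) (nat_lit 152)))) (XT.nd (nat_lit 188) (nat_lit 252) (nat_lit 0) (XT.nd (nat_lit 94) (nat_lit 84) (nat_lit 0) (XT.lf (nat_lit 0) (nat_lit 1533440709499) (nat_lit 168) (nat_lit 8402809136272) (nat_lit 84) (nat_lit 8087623136944) (nat_lit 19) (nat_lit 5) (nat_lit 21) (nat_lit 5) (nat_lit 20) (nat_lit 4) (nat_lit 487) (nat_lit 442) (nat_lit 151)) (XT.lf (nat_lit 0) (nat_lit 10817637848186) (nat_lit 84) (nat_lit 91630658688) (nat_lit 168) (nat_lit 8049870544217) (nat_lit 18) (nat_lit 5) (nat_lit 19) (nat_lit 5) (nat_lit 20) (nat_lit 4) (nat_lit 488) (nat_lit 442) (nat_lit 150))) (XT.nd (nat_lit 94) (nat_lit 84) (nat_lit 0) (XT.lf (nat_lit 0) (nat_lit 1542867157084) (nat_lit 168) (nat_lit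 7833658128982) (nat_lit 84) (nat_lit 10566316624021) (nat_lit 16) (nat_lit 5) (nat_lit 18) (nat_lit 5) (nat_lit 17) (nat_lit 4) (nat_lit 489) (nat_lit 442) (nat_lit 149)) (XT.lf (nat_lit 0) (nat_lit 12007020691704) (nat_lit 168) (nat_lit 7438191345597) (nat_lit 0) (nat_lit 1534129452527) (nat_lit 15) (nat_lit 5) (nat_lit 17) (nat_lit 4) (nat_lit 15) (nat_lit 4) (nat_lit 490) (nat_lit 442) (nat_lit 148))))) (XT.nd (nat_lit 282) (nat_lit 252) (nat_lit 0) (XT.nd (nat_lit 94) (nat_lit 252) (nat_lit 0) (XT.lf (nat_lit 0) (nat_lit 1712717322496) (nat_lit 168) (nat_lit 6961820728175) (nat_lit 84) (nat_lit 13396184522636) (nat_lit 13) (nat_lit 5) (nat_lit 15) (nat_lit 5) (nat_lit 14) (nat_lit 4) (nat_lit 491) (nat_lit 442) (nat_lit 147)) (XT.nd (nat_lit 94) (nat_lit 168) (nat_lit 0) (XT.lf (nat_lit 0) (nat_lit 13392614570689) (nat_lit 168) (nat_lit 6408292648901)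 (nat_lit 0) (nat_lit 3418432437926) (nat_lit 12) (nat_lit 5) (nat_lit 14) (nat_lit 4) (nat_lit 12) (nat_lit 4) (nat_lit 492) (nat_lit 442) (nat_lit 146)) (XT.lf (nat_lit 0) (nat_lit 2068738460183) (nat_lit 168) (nat_lit 5733268289479) (nat_lit 84) (nat_lit 16628071840089) (nat_lit 10) (nat_lit 5) (nat_lit 12) (nat_lit 5) (nat_lit 11) (nat_lit 4) (nat_lit 493) (nat_lit 442) (nat_lit 145)))) (XT.nd (nat_lit 62980) (nat_lit 0) (nat_lit 10164) (XT.nd (nat_lit 94) (nat_lit 168) (nat_lit 0) (XT.lf (nat_lit 0) (nat_lit 15104864345409) (nat_lit 168) (nat_lit 4992449040367) (nat_lit 0) (nat_lit 5605643266415) (nat_lit 9) (nat_lit 5) (nat_lit 11) (nat_lit 4) (nat_lit 9) (nat_lit 4) (nat_lit 494) (nat_lit 442) (nat_lit 144)) (XT.lf (nat_lit 0) (nat_lit 2640747036320) (nat_lit 168) (nat_lit 4085689654614) (nat_lit 84) (nat_lit 20319486885534) (nat_lit 7) (nat_lit 5) (nat_lit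 9) (nat_lit 5) (nat_lit 8) (nat_lit 4) (nat_lit 495) (nat_lit 442) (nat_lit 143))) (XT.nd (nat_lit 94) (nat_lit 0) (nat_lit 84) (XT.lf (nat_lit 0) (nat_lit 567206815156) (nat_lit 924) (nat_lit 319463642262) (nat_lit 924) (nat_lit 319463642262) (nat_lit 128) (nat_lit 3) (nat_lit 139) (nat_lit 3) (nat_lit 139) (nat_lit 5) (nat_lit 443) (nat_lit 443) (nat_lit 194)) (XT.lf (nat_lit 0) (nat_lit 1202686816196) (nat_lit 840) (nat_lit 1176223911202) (nat_lit 924) (nat_lit 128703367907) (nat_lit 129) (nat_lit 5) (nat_lit 139) (nat_lit 5) (nat_lit 140) (nat_lit 5) (nat_lit 444) (nat_lit 443) (nat_lit 193)))))) (XT.nd (nat_lit 658) (nat_lit 2520) (nat_lit 0) (XT.nd (nat_lit 282) (nat_lit 1092) (nat_lit 0) (XT.nd (nat_lit 94) (nat_lit 0) (nat_lit 84) (XT.lf (nat_lit 84) (nat_lit 869874968710) (nat_lit 0) (nat_lit 461341994964) (nat_lit 924) (nat_lit 1276630943910) (nat_lit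 130) (nat_lit 5) (nat_lit 129) (nat_lit 5) (nat_lit 140) (nat_lit 5) (nat_lit 445) (nat_lit 443) (nat_lit 192)) (XT.nd (nat_lit 94) (nat_lit 0) (nat_lit 84) (XT.lf (nat_lit 84) (nat_lit 393723207642) (nat_lit 0) (nat_lit 1128409254501) (nat_lit 924) (nat_lit 1191362815744) (nat_lit 131) (nat_lit 5) (nat_lit 130) (nat_lit 5) (nat_lit 141) (nat_lit 5) (nat_lit 446) (nat_lit 443) (nat_lit 191)) (XT.lf (nat_lit 0) (nat_lit 1781607980448) (nat_lit 840) (nat_lit 91075635825) (nat_lit 924) (nat_lit 952246482543) (nat_lit 131) (nat_lit 5) (nat_lit 141) (nat_lit 5) (nat_lit 142) (nat_lit 5) (nat_lit 447) (nat_lit 443) (nat_lit 190)))) (XT.nd (nat_lit 188) (nat_lit 1344) (nat_lit 0) (XT.nd (nat_lit 94) (nat_lit 0) (nat_lit 0) (XT.lf (nat_lit 0) (nat_lit 2121895197373) (nat_lit 840) (nat_lit 573621026124) (nat_lit 924) (nat_lit 246760799065) (nat_lit 132) (nat_lit 5)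 (nat_lit 142) (nat_lit 5) (nat_lit 143) (nat_lit 5) (nat_lit 448) (nat_lit 443) (nat_lit 189)) (XT.lf (nat_lit 84) (nat_lit 1991627713878) (nat_lit 0) (nat_lit 562061919880) (nat_lit 924) (nat_lit 512107854344) (nat_lit 133) (nat_lit 5) (nat_lit 132) (nat_lit 5) (nat_lit 143) (nat_lit 5) (nat_lit 449) (nat_lit 443) (nat_lit 188))) (XT.nd (nat_lit 94) (nat_lit 588) (nat_lit 0) (XT.lf (nat_lit 0) (nat_lit 1607983316458) (nat_lit 840) (nat_lit 1474503921555) (nat_lit 924) (nat_lit 113589372225) (nat_lit 123) (nat_lit 5) (nat_lit 133) (nat_lit 5) (nat_lit 134) (nat_lit 5) (nat_lit 450) (nat_lit 443) (nat_lit 187)) (XT.lf (nat_lit 0) (nat_lit 368100520168) (nat_lit 588) (nat_lit 2115921666639) (nat_lit 84) (nat_lit 849437067827) (nat_lit 116) (nat_lit 5) (nat_lit 123) (nat_lit 5) (nat_lit 117) (nat_lit 5) (nat_lit 451) (nat_lit 443) (nat_lit 186))))) (XT.nd (nat_lit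 376) (nat_lit 1344) (nat_lit 0) (XT.nd (nat_lit 188) (nat_lit 336) (nat_lit 0) (XT.nd (nat_lit 94) (nat_lit 420) (nat_lit 0) (XT.lf (nat_lit 0) (nat_lit 822989039958) (nat_lit 420) (nat_lit 127239204591) (nat_lit 504) (nat_lit 2528217047045) (nat_lit 111) (nat_lit 5) (nat_lit 116) (nat_lit 5) (nat_lit 117) (nat_lit 5) (nat_lit 452) (nat_lit 443) (nat_lit 185)) (XT.lf (nat_lit 0) (nat_lit 414286593428) (nat_lit 420) (nat_lit 1246323092496) (nat_lit 504) (nat_lit 1970336350635) (nat_lit 106) (nat_lit 5) (nat_lit 111) (nat_lit 5) (nat_lit 112) (nat_lit 5) (nat_lit 453) (nat_lit 443) (nat_lit 184))) (XT.nd (nat_lit 94) (nat_lit 0) (nat_lit 0) (XT.lf (nat_lit 0) (nat_lit 8237821679) (nat_lit 336) (nat_lit 2489094936978) (nat_lit 420) (nat_lit 1294838526664) (nat_lit 102) (nat_lit 5) (nat_lit 106) (nat_lit 5) (nat_lit 107) (nat_lit 5) (nat_lit 454) (nat_lit 443)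 (nat_lit 183)) (XT.lf (nat_lit 0) (nat_lit 3479366155958) (nat_lit 420) (nat_lit 379840557131) (nat_lit 84) (nat_lit 103169216955) (nat_lit 102) (nat_lit 5) (nat_lit 107) (nat_lit 5) (nat_lit 103) (nat_lit 5) (nat_lit 455) (nat_lit 443) (nat_lit 182)))) (XT.nd (nat_lit 188) (nat_lit 588) (nat_lit 0) (XT.nd (nat_lit 94) (nat_lit 336) (nat_lit 0) (XT.lf (nat_lit 0) (nat_lit 477175308757) (nat_lit 420) (nat_lit 786948934914) (nat_lit 84) (nat_lit 2876964664794) (nat_lit 97) (nat_lit 5) (nat_lit 102) (nat_lit 5) (nat_lit 98) (nat_lit 5) (nat_lit 456) (nat_lit 443) (nat_lit 181)) (XT.lf (nat_lit 0) (nat_lit 1578606647159) (nat_lit 420) (nat_lit 1196456896459) (nat_lit 84) (nat_lit 1554571783961) (nat_lit 93) (nat_lit 5) (nat_lit 98) (nat_lit 5) (nat_lit 94) (nat_lit 5) (nat_lit 457) (nat_lit 443) (nat_lit 180))) (XT.nd (nat_lit 94) (nat_lit 252) (nat_lit 0) (XT.lf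 (nat_lit 0) (nat_lit 2850558319511) (nat_lit 420) (nat_lit 1595718231805) (nat_lit 84) (nat_lit 82868617562) (nat_lit 89) (nat_lit 5) (nat_lit 94) (nat_lit 5) (nat_lit 90) (nat_lit 5) (nat_lit 458) (nat_lit 443) (nat_lit 179)) (XT.lf (nat_lit 0) (nat_lit 2733197942733) (nat_lit 252) (nat_lit 1601716873684) (nat_lit 336) (nat_lit 404168546527) (nat_lit 86) (nat_lit 5) (nat_lit 89) (nat_lit 5) (nat_lit 90) (nat_lit 5) (nat_lit 459) (nat_lit 443) (nat_lit 178))))))))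
noncomputable def xc235 : XT := (XT.nd (nat_lit 2632) (nat_lit 1008) (nat_lit 0) (XT.nd (nat_lit 1316) (nat_lit 2100) (nat_lit 0) (XT.nd (nat_lit 658) (nat_lit 1344) (nat_lit 0) (XT.nd (nat_lit 282) (nat_lit 1092) (nat_lit 0) (XT.nd (nat_lit 94) (nat_lit 504) (nat_lit 0) (XT.lf (nat_lit 0) (nat_lit 1033751291843) (nat_lit 420) (nat_lit 2418441514656) (nat_lit 84) (nat_lit 1508231632898) (nat_lit 81) (nat_lit 5) (nat_lit 86) (nat_lit 5) (nat_lit 82) (nat_lit 5) (nat_lit 460) (nat_lit 443) (nat_lit 177)) (XT.nd (nat_lit 94) (nat_lit 252) (nat_lit 0) (XT.lf (nat_lit 0) (nat_lit 2369011996448) (nat_lit 252) (nat_lit 303230754896) (nat_lit 336) (nat_lit 2521913858370) (nat_lit 78) (nat_lit 5) (nat_lit 81) (nat_lit 5) (nat_lit 82) (nat_lit 5) (nat_lit 461) (nat_lit 443) (nat_lit 176)) (XT.lf (nat_lit 0) (nat_lit 2202792100269) (nat_lit 252) (nat_lit 2364594463993)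 (nat_lit 336) (nat_lit 872922137562) (nat_lit 75) (nat_lit 5) (nat_lit 78) (nat_lit 5) (nat_lit 79) (nat_lit 5) (nat_lit 462) (nat_lit 443) (nat_lit 175)))) (XT.nd (nat_lit 188) (nat_lit 504) (nat_lit 0) (XT.nd (nat_lit 94) (nat_lit 252) (nat_lit 0) (XT.lf (nat_lit 0) (nat_lit 983810779630) (nat_lit 336) (nat_lit 3641875360651) (nat_lit 84) (nat_lit 1074513849704) (nat_lit 71) (nat_lit 5) (nat_lit 75) (nat_lit 5) (nat_lit 72) (nat_lit 5) (nat_lit 463) (nat_lit 443) (nat_lit 174)) (XT.lf (nat_lit 0) (nat_lit 1921361634605) (nat_lit 252) (nat_lit 1164735806158) (nat_lit 336) (nat_lit 2887689727981) (nat_lit 68) (nat_lit 5) (nat_lit 71) (nat_lit 5) (nat_lit 72) (nat_lit 5) (nat_lit 464) (nat_lit 443) (nat_lit 173))) (XT.nd (nat_lit 94) (nat_lit 336) (nat_lit 0) (XT.lf (nat_lit 0) (nat_lit 1810347709430) (nat_lit 168) (nat_lit 3679136185421) (nat_lit 252) (nat_lit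 773131583950) (nat_lit 66) (nat_lit 5) (nat_lit 68) (nat_lit 5) (nat_lit 69) (nat_lit 5) (nat_lit 465) (nat_lit 443) (nat_lit 172)) (XT.lf (nat_lit 0) (nat_lit 1582870664840) (nat_lit 336) (nat_lit 4843017498657) (nat_lit 84) (nat_lit 141451271761) (nat_lit 62) (nat_lit 5) (nat_lit 66) (nat_lit 5) (nat_lit 63) (nat_lit 5) (nat_lit 466) (nat_lit 443) (nat_lit 171))))) (XT.nd (nat_lit 282) (nat_lit 756) (nat_lit 0) (XT.nd (nat_lit 94) (nat_lit 420) (nat_lit 0) (XT.lf (nat_lit 0) (nat_lit 1637530777527) (nat_lit 168) (nat_lit 2629528110670) (nat_lit 252) (nat_lit 2620409077659) (nat_lit 60) (nat_lit 5) (nat_lit 62) (nat_lit 5) (nat_lit 63) (nat_lit 5) (nat_lit 467) (nat_lit 443) (nat_lit 170)) (XT.nd (nat_lit 94) (nat_lit 168) (nat_lit 0) (XT.lf (nat_lit 0) (nat_lit 70923931378) (nat_lit 252) (nat_lit 5620073113343) (nat_lit 84) (nat_lit 1535462365730) (nat_lit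 57) (nat_lit 5) (nat_lit 60) (nat_lit 5) (nat_lit 58) (nat_lit 5) (nat_lit 468) (nat_lit 443) (nat_lit 169)) (XT.lf (nat_lit 0) (nat_lit 1570949039523) (nat_lit 168) (nat_lit 1477850801441) (nat_lit 252) (nat_lit 4533470321889) (nat_lit 55) (nat_lit 5) (nat_lit 57) (nat_lit 5) (nat_lit 58) (nat_lit 5) (nat_lit 469) (nat_lit 443) (nat_lit 168)))) (XT.nd (nat_lit 188) (nat_lit 336) (nat_lit 0) (XT.nd (nat_lit 94) (nat_lit 252) (nat_lit 0) (XT.lf (nat_lit 0) (nat_lit 1577200520021) (nat_lit 168) (nat_lit 4859800705985) (nat_lit 252) (nat_lit 1520939779305) (nat_lit 53) (nat_lit 5) (nat_lit 55) (nat_lit 5) (nat_lit 56) (nat_lit 5) (nat_lit 470) (nat_lit 443) (nat_lit 167)) (XT.lf (nat_lit 0) (nat_lit 1627438053421) (nat_lit 168) (nat_lit 206459430710) (nat_lit 252) (nat_lit 6520577595242) (nat_lit 50) (nat_lit 5) (nat_lit 52) (nat_lit 5) (nat_lit 53) (nat_lit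 5) (nat_lit 471) (nat_lit 443) (nat_lit 166))) (XT.nd (nat_lit 94) (nat_lit 168) (nat_lit 0) (XT.lf (nat_lit 0) (nat_lit 1677947031213) (nat_lit 168) (nat_lit 3941009126613) (nat_lit 252) (nat_lit 3151773012071) (nat_lit 48) (nat_lit 5) (nat_lit 50) (nat_lit 5) (nat_lit 51) (nat_lit 5) (nat_lit 472) (nat_lit 443) (nat_lit 165)) (XT.lf (nat_lit 0) (nat_lit 640870853948) (nat_lit 168) (nat_lit 7404565347131) (nat_lit 84) (nat_lit 1165972221876) (nat_lit 46) (nat_lit 5) (nat_lit 48) (nat_lit 5) (nat_lit 47) (nat_lit 5) (nat_lit 473) (nat_lit 443) (nat_lit 164)))))) (XT.nd (nat_lit 658) (nat_lit 924) (nat_lit 0) (XT.nd (nat_lit 282) (nat_lit 672) (nat_lit 0) (XT.nd (nat_lit 94) (nat_lit 336) (nat_lit 0) (XT.lf (nat_lit 0) (nat_lit 1930727473161) (nat_lit 168) (nat_lit 2919426028543) (nat_lit 252) (nat_lit 4823422591755) (nat_lit 44) (nat_lit 5) (nat_lit 46) (nat_lit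 5) (nat_lit 47) (nat_lit 5) (nat_lit 474) (nat_lit 443) (nat_lit 163)) (XT.nd (nat_lit 94) (nat_lit 252) (nat_lit 0) (XT.lf (nat_lit 0) (nat_lit 2136400532922) (nat_lit 84) (nat_lit 7465084123278) (nat_lit 168) (nat_lit 560967226659) (nat_lit 43) (nat_lit 5) (nat_lit 44) (nat_lit 5) (nat_lit 45) (nat_lit 4) (nat_lit 475) (nat_lit 443) (nat_lit 162)) (XT.lf (nat_lit 0) (nat_lit 2359765057597) (nat_lit 168) (nat_lit 1776490659402) (nat_lit 252) (nat_lit 6539868497686) (nat_lit 40) (nat_lit 5) (nat_lit 42) (nat_lit 5) (nat_lit 43) (nat_lit 5) (nat_lit 476) (nat_lit 443) (nat_lit 161)))) (XT.nd (nat_lit 188) (nat_lit 336) (nat_lit 0) (XT.nd (nat_lit 94) (nat_lit 252) (nat_lit 0) (XT.lf (nat_lit 0) (nat_lit 2643838982672) (nat_lit 84) (nat_lit 6797589098679) (nat_lit 168) (nat_lit 1776411185293) (nat_lit 39) (nat_lit 5) (nat_lit 40) (nat_lit 5) (nat_lit 41) (nat_lit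 4) (nat_lit 477) (nat_lit 443) (nat_lit 160)) (XT.lf (nat_lit 0) (nat_lit 2993060296677) (nat_lit 168) (nat_lit 491186848055) (nat_lit 252) (nat_lit 8304818816605) (nat_lit 36) (nat_lit 5) (nat_lit 38) (nat_lit 5) (nat_lit 39) (nat_lit 5) (nat_lit 478) (nat_lit 443) (nat_lit 159))) (XT.nd (nat_lit 94) (nat_lit 252) (nat_lit 0) (XT.lf (nat_lit 0) (nat_lit 3369925438107) (nat_lit 84) (nat_lit 6037512561864) (nat_lit 168) (nat_lit 2981900884217) (nat_lit 35) (nat_lit 5) (nat_lit 36) (nat_lit 5) (nat_lit 37) (nat_lit 4) (nat_lit 479) (nat_lit 443) (nat_lit 158)) (XT.lf (nat_lit 0) (nat_lit 2917612393056) (nat_lit 252) (nat_lit 9176344558222) (nat_lit 84) (nat_lit 929550854831) (nat_lit 32) (nat_lit 5) (nat_lit 35) (nat_lit 5) (nat_lit 33) (nat_lit 4) (nat_lit 480) (nat_lit 443) (nat_lit 157))))) (XT.nd (nat_lit 282) (nat_lit 504) (nat_lit 0) (XT.nd (nat_lit 94)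 (nat_lit 336) (nat_lit 0) (XT.lf (nat_lit 0) (nat_lit 4349131776573) (nat_lit 84) (nat_lit 5166273950680) (nat_lit 168) (nat_lit 4174020819661) (nat_lit 31) (nat_lit 5) (nat_lit 32) (nat_lit 5) (nat_lit 33) (nat_lit 4) (nat_lit 481) (nat_lit 443) (nat_lit 156)) (XT.nd (nat_lit 94) (nat_lit 84) (nat_lit 0) (XT.lf (nat_lit 0) (nat_lit 2442253831258) (nat_lit 252) (nat_lit 9429046278858) (nat_lit 84) (nat_lit 2521510925363) (nat_lit 28) (nat_lit 5) (nat_lit 31) (nat_lit 5) (nat_lit 29) (nat_lit 4) (nat_lit 482) (nat_lit 443) (nat_lit 155)) (XT.lf (nat_lit 0) (nat_lit 5621105577573) (nat_lit 84) (nat_lit 4162685744750) (nat_lit 168) (nat_lit 5348143721009) (nat_lit 27) (nat_lit 5) (nat_lit 28) (nat_lit 5) (nat_lit 29) (nat_lit 4) (nat_lit 483) (nat_lit 443) (nat_lit 154)))) (XT.nd (nat_lit 188) (nat_lit 252) (nat_lit 0) (XT.nd (nat_lit 94) (nat_lit 84) (nat_lit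 0) (XT.lf (nat_lit 0) (nat_lit 2063150881020) (nat_lit 168) (nat_lit 9518794630503) (nat_lit 84) (nat_lit 4329965099137) (nat_lit 25) (nat_lit 5) (nat_lit 27) (nat_lit 5) (nat_lit 26) (nat_lit 4) (nat_lit 484) (nat_lit 443) (nat_lit 153)) (XT.lf (nat_lit 0) (nat_lit 7231368156441) (nat_lit 84) (nat_lit 3002593840262) (nat_lit 168) (nat_lit 6498239209828) (nat_lit 24) (nat_lit 5) (nat_lit 25) (nat_lit 5) (nat_lit 26) (nat_lit 4) (nat_lit 485) (nat_lit 443) (nat_lit 152))) (XT.nd (nat_lit 94) (nat_lit 84) (nat_lit 0) (XT.lf (nat_lit 0) (nat_lit 1795249930871) (nat_lit 168) (nat_lit 9413312819802) (nat_lit 84) (nat_lit 6388376610073) (nat_lit 22) (nat_lit 5) (nat_lit 24) (nat_lit 5) (nat_lit 23) (nat_lit 4) (nat_lit 486) (nat_lit 443) (nat_lit 151)) (XT.lf (nat_lit 0) (nat_lit 9232103410114) (nat_lit 84) (nat_lit 1658471511042) (nat_lit 168) (nat_lit 7616654052258)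 (nat_lit 21) (nat_lit 5) (nat_lit 22) (nat_lit 5) (nat_lit 23) (nat_lit 4) (nat_lit 487) (nat_lit 443) (nat_lit 150))))))) (XT.nd (nat_lit 64202) (nat_lit 0) (nat_lit 5208) (XT.nd (nat_lit 658) (nat_lit 84) (nat_lit 0) (XT.nd (nat_lit 282) (nat_lit 504) (nat_lit 0) (XT.nd (nat_lit 94) (nat_lit 252) (nat_lit 0) (XT.lf (nat_lit 0) (nat_lit 1656115971474) (nat_lit 168) (nat_lit 9075033856965) (nat_lit 84) (nat_lit 8734632992633) (nat_lit 19) (nat_lit 5) (nat_lit 21) (nat_lit 5) (nat_lit 20) (nat_lit 4) (nat_lit 488) (nat_lit 443) (nat_lit 149)) (XT.nd (nat_lit 94) (nat_lit 168) (nat_lit 0) (XT.lf (nat_lit 0) (nat_lit 11683048885807) (nat_lit 84) (nat_lit 98961106599) (nat_lit 168) (nat_lit 8693860182523) (nat_lit 18) (nat_lit 5) (nat_lit 19) (nat_lit 5) (nat_lit 20) (nat_lit 4) (nat_lit 489) (nat_lit 443) (nat_lit 148)) (XT.lf (nat_lit 0) (nat_lit 1666296534561)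 (nat_lit 168) (nat_lit 8460350769629) (nat_lit 84) (nat_lit 11411621958458) (nat_lit 16) (nat_lit 5) (nat_lit 18) (nat_lit 5) (nat_lit 17) (nat_lit 4) (nat_lit 490) (nat_lit 443) (nat_lit 147)))) (XT.nd (nat_lit 188) (nat_lit 252) (nat_lit 0) (XT.nd (nat_lit 94) (nat_lit 168) (nat_lit 0) (XT.lf (nat_lit 0) (nat_lit 12967582351801) (nat_lit 168) (nat_lit 8033246643834) (nat_lit 0) (nat_lit 1656859813142) (nat_lit 15) (nat_lit 5) (nat_lit 17) (nat_lit 4) (nat_lit 15) (nat_lit 4) (nat_lit 491) (nat_lit 443) (nat_lit 146)) (XT.lf (nat_lit 0) (nat_lit 1849734712920) (nat_lit 168) (nat_lit 7518766377271) (nat_lit 84) (nat_lit 14467879288749) (nat_lit 13) (nat_lit 5) (nat_lit 15) (nat_lit 5) (nat_lit 14) (nat_lit 4) (nat_lit 492) (nat_lit 443) (nat_lit 145))) (XT.nd (nat_lit 94) (nat_lit 168) (nat_lit 0) (XT.lf (nat_lit 0) (nat_lit 14464023740829) (nat_lit 168) (nat_lit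 6920956051903) (nat_lit 0) (nat_lit 3691907037162) (nat_lit 12) (nat_lit 5) (nat_lit 14) (nat_lit 4) (nat_lit 12) (nat_lit 4) (nat_lit 493) (nat_lit 443) (nat_lit 144)) (XT.lf (nat_lit 0) (nat_lit 2234237541353) (nat_lit 168) (nat_lit 6191929743972) (nat_lit 84) (nat_lit 17958317591388) (nat_lit 10) (nat_lit 5) (nat_lit 12) (nat_lit 5) (nat_lit 11) (nat_lit 4) (nat_lit 494) (nat_lit 443) (nat_lit 143))))) (XT.nd (nat_lit 63168) (nat_lit 0) (nat_lit 10080) (XT.nd (nat_lit 62980) (nat_lit 0) (nat_lit 9996) (XT.lf (nat_lit 0) (nat_lit 16313253497270) (nat_lit 168) (nat_lit 5391844955161) (nat_lit 0) (nat_lit 6054094731724) (nat_lit 9) (nat_lit 5) (nat_lit 11) (nat_lit 4) (nat_lit 9) (nat_lit 4) (nat_lit 495) (nat_lit 443) (nat_lit 142)) (XT.nd (nat_lit 94) (nat_lit 0) (nat_lit 84) (XT.lf (nat_lit 0) (nat_lit 612583377351) (nat_lit 924) (nat_lit 345020724728)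 (nat_lit 924) (nat_lit 345020724728) (nat_lit 128) (nat_lit 3) (nat_lit 139) (nat_lit 3) (nat_lit 139) (nat_lit 5) (nat_lit 444) (nat_lit 444) (nat_lit 192)) (XT.lf (nat_lit 0) (nat_lit 1298901792978) (nat_lit 840) (nat_lit 1270321805226) (nat_lit 924) (nat_lit 138999623150) (nat_lit 129) (nat_lit 5) (nat_lit 139) (nat_lit 5) (nat_lit 140) (nat_lit 5) (nat_lit 445) (nat_lit 444) (nat_lit 191)))) (XT.nd (nat_lit 188) (nat_lit 0) (nat_lit 168) (XT.nd (nat_lit 94) (nat_lit 0) (nat_lit 84) (XT.lf (nat_lit 84) (nat_lit 939464984257) (nat_lit 0) (nat_lit 498249365946) (nat_lit 924) (nat_lit 1378761388515) (nat_lit 130) (nat_lit 5) (nat_lit 129) (nat_lit 5) (nat_lit 140) (nat_lit 5) (nat_lit 446) (nat_lit 444) (nat_lit 190)) (XT.lf (nat_lit 84) (nat_lit 425221083098) (nat_lit 0) (nat_lit 1218682003401) (nat_lit 924) (nat_lit 1286671812249) (nat_lit 131) (nat_lit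 5) (nat_lit 130) (nat_lit 5) (nat_lit 141) (nat_lit 5) (nat_lit 447) (nat_lit 444) (nat_lit 189))) (XT.nd (nat_lit 94) (nat_lit 0) (nat_lit 84) (XT.lf (nat_lit 0) (nat_lit 1924136644117) (nat_lit 840) (nat_lit 98361667852) (nat_lit 924) (nat_lit 1028426193491) (nat_lit 131) (nat_lit 5) (nat_lit 141) (nat_lit 5) (nat_lit 142) (nat_lit 5) (nat_lit 448) (nat_lit 444) (nat_lit 188)) (XT.lf (nat_lit 0) (nat_lit 2291646836720) (nat_lit 840) (nat_lit 619510688923) (nat_lit 924) (nat_lit 266501657546) (nat_lit 132) (nat_lit 5) (nat_lit 142) (nat_lit 5) (nat_lit 143) (nat_lit 5) (nat_lit 449) (nat_lit 444) (nat_lit 187)))))) (XT.nd (nat_lit 658) (nat_lit 2604) (nat_lit 0) (XT.nd (nat_lit 282) (nat_lit 1176) (nat_lit 0) (XT.nd (nat_lit 94) (nat_lit 1344) (nat_lit 0) (XT.lf (nat_lit 84) (nat_lit 2150957949441) (nat_lit 0) (nat_lit 607026877118) (nat_lit 924) (nat_lit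 553076459486) (nat_lit 133) (nat_lit 5) (nat_lit 132) (nat_lit 5) (nat_lit 143) (nat_lit 5) (nat_lit 450) (nat_lit 444) (nat_lit 186)) (XT.nd (nat_lit 94) (nat_lit 588) (nat_lit 0) (XT.lf (nat_lit 0) (nat_lit 1736622000537) (nat_lit 840) (nat_lit 1592464237220) (nat_lit 924) (nat_lit 122676500264) (nat_lit 123) (nat_lit 5) (nat_lit 133) (nat_lit 5) (nat_lit 134) (nat_lit 5) (nat_lit 451) (nat_lit 444) (nat_lit 185)) (XT.lf (nat_lit 0) (nat_lit 397548581538) (nat_lit 588) (nat_lit 2285195380351) (nat_lit 84) (nat_lit 917392032128) (nat_lit 116) (nat_lit 5) (nat_lit 123) (nat_lit 5) (nat_lit 117) (nat_lit 5) (nat_lit 452) (nat_lit 444) (nat_lit 184)))) (XT.nd (nat_lit 188) (nat_lit 336) (nat_lit 0) (XT.nd (nat_lit 94) (nat_lit 420) (nat_lit 0) (XT.lf (nat_lit 0) (nat_lit 888828181922) (nat_lit 420) (nat_lit 137418340778) (nat_lit 504) (nat_lit 2730474391293)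 (nat_lit 111) (nat_lit 5) (nat_lit 116) (nat_lit 5) (nat_lit 117) (nat_lit 5) (nat_lit 453) (nat_lit 444) (nat_lit 183)) (XT.lf (nat_lit 0) (nat_lit 447429539740) (nat_lit 420) (nat_lit 1346028938565) (nat_lit 504) (nat_lit 2127963240305) (nat_lit 106) (nat_lit 5) (nat_lit 111) (nat_lit 5) (nat_lit 112) (nat_lit 5) (nat_lit 454) (nat_lit 444) (nat_lit 182))) (XT.nd (nat_lit 94) (nat_lit 0) (nat_lit 0) (XT.lf (nat_lit 0) (nat_lit 8896866249) (nat_lit 336) (nat_lit 2688222529622) (nat_lit 420) (nat_lit 1398425591448) (nat_lit 102) (nat_lit 5) (nat_lit 106) (nat_lit 5) (nat_lit 107) (nat_lit 5) (nat_lit 455) (nat_lit 444) (nat_lit 181)) (XT.lf (nat_lit 0) (nat_lit 3757715463768) (nat_lit 420) (nat_lit 410227783529) (nat_lit 84) (nat_lit 111422756384) (nat_lit 102) (nat_lit 5) (nat_lit 107) (nat_lit 5) (nat_lit 103) (nat_lit 5) (nat_lit 456) (nat_lit 444) (nat_lit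 180))))) (XT.nd (nat_lit 376) (nat_lit 1260) (nat_lit 0) (XT.nd (nat_lit 188) (nat_lit 588) (nat_lit 0) (XT.nd (nat_lit 94) (nat_lit 336) (nat_lit 0) (XT.lf (nat_lit 0) (nat_lit 515349348162) (nat_lit 420) (nat_lit 849904831838) (nat_lit 84) (nat_lit 3107121840406) (nat_lit 97) (nat_lit 5) (nat_lit 102) (nat_lit 5) (nat_lit 98) (nat_lit 5) (nat_lit 457) (nat_lit 444) (nat_lit 179)) (XT.lf (nat_lit 0) (nat_lit 1704895192865) (nat_lit 420) (nat_lit 1292173430439) (nat_lit 84) (nat_lit 1678937529785) (nat_lit 93) (nat_lit 5) (nat_lit 98) (nat_lit 5) (nat_lit 94) (nat_lit 5) (nat_lit 458) (nat_lit 444) (nat_lit 178))) (XT.nd (nat_lit 94) (nat_lit 252) (nat_lit 0) (XT.lf (nat_lit 0) (nat_lit 3078602998297) (nat_lit 420) (nat_lit 1723375672785) (nat_lit 84) (nat_lit 89498110645) (nat_lit 89) (nat_lit 5) (nat_lit 94) (nat_lit 5) (nat_lit 90) (nat_lit 5) (nat_lit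 459) (nat_lit 444) (nat_lit 177)) (XT.lf (nat_lit 0) (nat_lit 2951853794953) (nat_lit 252) (nat_lit 1729854219285) (nat_lit 336) (nat_lit 436502017116) (nat_lit 86) (nat_lit 5) (nat_lit 89) (nat_lit 5) (nat_lit 90) (nat_lit 5) (nat_lit 460) (nat_lit 444) (nat_lit 176)))) (XT.nd (nat_lit 188) (nat_lit 588) (nat_lit 0) (XT.nd (nat_lit 94) (nat_lit 252) (nat_lit 0) (XT.lf (nat_lit 0) (nat_lit 1116451407288) (nat_lit 420) (nat_lit 2611916818823) (nat_lit 84) (nat_lit 1628890167833) (nat_lit 81) (nat_lit 5) (nat_lit 86) (nat_lit 5) (nat_lit 82) (nat_lit 5) (nat_lit 461) (nat_lit 444) (nat_lit 175)) (XT.lf (nat_lit 0) (nat_lit 2558532972430) (nat_lit 252) (nat_lit 327489210477) (nat_lit 336) (nat_lit 2723666955012) (nat_lit 78) (nat_lit 5) (nat_lit 81) (nat_lit 5) (nat_lit 82) (nat_lit 5) (nat_lit 462) (nat_lit 444) (nat_lit 174))) (XT.nd (nat_lit 94) (nat_lit 336)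 (nat_lit 0) (XT.lf (nat_lit 0) (nat_lit 2379015484326) (nat_lit 252) (nat_lit 2553762016005) (nat_lit 336) (nat_lit 942755897094) (nat_lit 75) (nat_lit 5) (nat_lit 78) (nat_lit 5) (nat_lit 79) (nat_lit 5) (nat_lit 463) (nat_lit 444) (nat_lit 173)) (XT.lf (nat_lit 0) (nat_lit 1062515652609) (nat_lit 336) (nat_lit 3933225373367) (nat_lit 84) (nat_lit 1160474962677) (nat_lit 71) (nat_lit 5) (nat_lit 75) (nat_lit 5) (nat_lit 72) (nat_lit 5) (nat_lit 464) (nat_lit 444) (nat_lit 172))))))))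
noncomputable def xc236 : XT := (XT.nd (nat_lit 2632) (nat_lit 420) (nat_lit 0) (XT.nd (nat_lit 1316) (nat_lit 2016) (nat_lit 0) (XT.nd (nat_lit 658) (nat_lit 1176) (nat_lit 0) (XT.nd (nat_lit 282) (nat_lit 756) (nat_lit 0) (XT.nd (nat_lit 94) (nat_lit 504) (nat_lit 0) (XT.lf (nat_lit 0) (nat_lit 2075070580808) (nat_lit 252) (nat_lit 1257914665280) (nat_lit 336) (nat_lit 3118704895653) (nat_lit 68) (nat_lit 5) (nat_lit 71) (nat_lit 5) (nat_lit 72) (nat_lit 5) (nat_lit 465) (nat_lit 444) (nat_lit 171)) (XT.nd (nat_lit 94) (nat_lit 336) (nat_lit 0) (XT.lf (nat_lit 0) (nat_lit 1955175541350) (nat_lit 168) (nat_lit 3973467074723) (nat_lit 252) (nat_lit 834982100551) (nat_lit 66) (nat_lit 5) (nat_lit 68) (nat_lit 5) (nat_lit 69) (nat_lit 5) (nat_lit 466) (nat_lit 444) (nat_lit 170)) (XT.lf (nat_lit 0) (nat_lit 1709500327411) (nat_lit 336) (nat_lit 5230458883356)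 (nat_lit 84) (nat_lit 152767378844) (nat_lit 62) (nat_lit 5) (nat_lit 66) (nat_lit 5) (nat_lit 63) (nat_lit 5) (nat_lit 467) (nat_lit 444) (nat_lit 169)))) (XT.nd (nat_lit 188) (nat_lit 336) (nat_lit 0) (XT.nd (nat_lit 94) (nat_lit 252) (nat_lit 0) (XT.lf (nat_lit 0) (nat_lit 1768533254262) (nat_lit 168) (nat_lit 2839890353905) (nat_lit 252) (nat_lit 2830041794511) (nat_lit 60) (nat_lit 5) (nat_lit 62) (nat_lit 5) (nat_lit 63) (nat_lit 5) (nat_lit 468) (nat_lit 444) (nat_lit 168)) (XT.lf (nat_lit 0) (nat_lit 76597854586) (nat_lit 252) (nat_lit 6069678947879) (nat_lit 84) (nat_lit 1658299360387) (nat_lit 57) (nat_lit 5) (nat_lit 60) (nat_lit 5) (nat_lit 58) (nat_lit 5) (nat_lit 469) (nat_lit 444) (nat_lit 167))) (XT.nd (nat_lit 94) (nat_lit 168) (nat_lit 0) (XT.lf (nat_lit 0) (nat_lit 1696624976585) (nat_lit 168) (nat_lit 1596078859927) (nat_lit 252) (nat_lit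 4896147938955) (nat_lit 55) (nat_lit 5) (nat_lit 57) (nat_lit 5) (nat_lit 58) (nat_lit 5) (nat_lit 470) (nat_lit 444) (nat_lit 166)) (XT.lf (nat_lit 0) (nat_lit 1703376575231) (nat_lit 168) (nat_lit 5248584756808) (nat_lit 252) (nat_lit 1642614953299) (nat_lit 53) (nat_lit 5) (nat_lit 55) (nat_lit 5) (nat_lit 56) (nat_lit 5) (nat_lit 471) (nat_lit 444) (nat_lit 165))))) (XT.nd (nat_lit 282) (nat_lit 588) (nat_lit 0) (XT.nd (nat_lit 94) (nat_lit 336) (nat_lit 0) (XT.lf (nat_lit 0) (nat_lit 1757633110967) (nat_lit 168) (nat_lit 222976179586) (nat_lit 252) (nat_lit 7042223794786) (nat_lit 50) (nat_lit 5) (nat_lit 52) (nat_lit 5) (nat_lit 53) (nat_lit 5) (nat_lit 472) (nat_lit 444) (nat_lit 164)) (XT.nd (nat_lit 94) (nat_lit 168) (nat_lit 0) (XT.lf (nat_lit 0) (nat_lit 1812182806689) (nat_lit 168) (nat_lit 4256289851167) (nat_lit 252) (nat_lit 3403914845262) (nat_lit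 48) (nat_lit 5) (nat_lit 50) (nat_lit 5) (nat_lit 51) (nat_lit 5) (nat_lit 473) (nat_lit 444) (nat_lit 163)) (XT.lf (nat_lit 0) (nat_lit 692140529515) (nat_lit 168) (nat_lit 7996930561975) (nat_lit 84) (nat_lit 1259250004938) (nat_lit 46) (nat_lit 5) (nat_lit 48) (nat_lit 5) (nat_lit 47) (nat_lit 5) (nat_lit 474) (nat_lit 444) (nat_lit 162)))) (XT.nd (nat_lit 188) (nat_lit 336) (nat_lit 0) (XT.nd (nat_lit 94) (nat_lit 84) (nat_lit 0) (XT.lf (nat_lit 0) (nat_lit 2085185683378) (nat_lit 168) (nat_lit 3152980105369) (nat_lit 252) (nat_lit 5209296391843) (nat_lit 44) (nat_lit 5) (nat_lit 46) (nat_lit 5) (nat_lit 47) (nat_lit 5) (nat_lit 475) (nat_lit 444) (nat_lit 161)) (XT.lf (nat_lit 0) (nat_lit 2307312587632) (nat_lit 84) (nat_lit 8062290847728) (nat_lit 168) (nat_lit 605844597795) (nat_lit 43) (nat_lit 5) (nat_lit 44) (nat_lit 5) (nat_lit 45) (nat_lit 4) (nat_lit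 476) (nat_lit 444) (nat_lit 160))) (XT.nd (nat_lit 94) (nat_lit 84) (nat_lit 0) (XT.lf (nat_lit 0) (nat_lit 2548546273970) (nat_lit 168) (nat_lit 1918609906843) (nat_lit 252) (nat_lit 7063057970724) (nat_lit 40) (nat_lit 5) (nat_lit 42) (nat_lit 5) (nat_lit 43) (nat_lit 5) (nat_lit 477) (nat_lit 444) (nat_lit 159)) (XT.lf (nat_lit 0) (nat_lit 2855346112770) (nat_lit 84) (nat_lit 7341396221322) (nat_lit 168) (nat_lit 1918524073572) (nat_lit 39) (nat_lit 5) (nat_lit 40) (nat_lit 5) (nat_lit 41) (nat_lit 4) (nat_lit 478) (nat_lit 444) (nat_lit 158)))))) (XT.nd (nat_lit 658) (nat_lit 840) (nat_lit 0) (XT.nd (nat_lit 282) (nat_lit 588) (nat_lit 0) (XT.nd (nat_lit 94) (nat_lit 336) (nat_lit 0) (XT.lf (nat_lit 0) (nat_lit 3232505131597) (nat_lit 168) (nat_lit 530481790754) (nat_lit 252) (nat_lit 8969204315591) (nat_lit 36) (nat_lit 5) (nat_lit 38) (nat_lit 5) (nat_lit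 39) (nat_lit 5) (nat_lit 479) (nat_lit 444) (nat_lit 157)) (XT.nd (nat_lit 94) (nat_lit 252) (nat_lit 0) (XT.lf (nat_lit 0) (nat_lit 3639519484067) (nat_lit 84) (nat_lit 6520513561740) (nat_lit 168) (nat_lit 3220452948825) (nat_lit 35) (nat_lit 5) (nat_lit 36) (nat_lit 5) (nat_lit 37) (nat_lit 4) (nat_lit 480) (nat_lit 444) (nat_lit 156)) (XT.lf (nat_lit 0) (nat_lit 3151021390238) (nat_lit 252) (nat_lit 9910452112050) (nat_lit 84) (nat_lit 1003914928023) (nat_lit 32) (nat_lit 5) (nat_lit 35) (nat_lit 5) (nat_lit 33) (nat_lit 4) (nat_lit 481) (nat_lit 444) (nat_lit 155)))) (XT.nd (nat_lit 188) (nat_lit 252) (nat_lit 0) (XT.nd (nat_lit 94) (nat_lit 252) (nat_lit 0) (XT.lf (nat_lit 0) (nat_lit 4697062329058) (nat_lit 84) (nat_lit 5579575861849) (nat_lit 168) (nat_lit 4507942479486) (nat_lit 31) (nat_lit 5) (nat_lit 32) (nat_lit 5) (nat_lit 33) (nat_lit 4) (nat_lit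 482) (nat_lit 444) (nat_lit 154)) (XT.lf (nat_lit 0) (nat_lit 2637634143141) (nat_lit 252) (nat_lit 10183369970892) (nat_lit 84) (nat_lit 2723231804015) (nat_lit 28) (nat_lit 5) (nat_lit 31) (nat_lit 5) (nat_lit 29) (nat_lit 4) (nat_lit 483) (nat_lit 444) (nat_lit 153))) (XT.nd (nat_lit 94) (nat_lit 168) (nat_lit 0) (XT.lf (nat_lit 0) (nat_lit 6070794033608) (nat_lit 84) (nat_lit 4495700599639) (nat_lit 168) (nat_lit 5775995213294) (nat_lit 27) (nat_lit 5) (nat_lit 28) (nat_lit 5) (nat_lit 29) (nat_lit 4) (nat_lit 484) (nat_lit 444) (nat_lit 152)) (XT.lf (nat_lit 0) (nat_lit 2228202956558) (nat_lit 168) (nat_lit 10280298191198) (nat_lit 84) (nat_lit 4676362311503) (nat_lit 25) (nat_lit 5) (nat_lit 27) (nat_lit 5) (nat_lit 26) (nat_lit 4) (nat_lit 485) (nat_lit 444) (nat_lit 151))))) (XT.nd (nat_lit 282) (nat_lit 504) (nat_lit 0) (XT.nd (nat_lit 94) (nat_lit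 252) (nat_lit 0) (XT.lf (nat_lit 0) (nat_lit 7809877618277) (nat_lit 84) (nat_lit 3242801342989) (nat_lit 168) (nat_lit 7018098341546) (nat_lit 24) (nat_lit 5) (nat_lit 25) (nat_lit 5) (nat_lit 26) (nat_lit 4) (nat_lit 486) (nat_lit 444) (nat_lit 150)) (XT.nd (nat_lit 94) (nat_lit 84) (nat_lit 0) (XT.lf (nat_lit 0) (nat_lit 1938869930094) (nat_lit 168) (nat_lit 10166377836149) (nat_lit 84) (nat_lit 6899446743125) (nat_lit 22) (nat_lit 5) (nat_lit 24) (nat_lit 5) (nat_lit 23) (nat_lit 4) (nat_lit 487) (nat_lit 444) (nat_lit 149)) (XT.lf (nat_lit 0) (nat_lit 9970671691759) (nat_lit 84) (nat_lit 1791149227628) (nat_lit 168) (nat_lit 8225986371672) (nat_lit 21) (nat_lit 5) (nat_lit 22) (nat_lit 5) (nat_lit 23) (nat_lit 4) (nat_lit 488) (nat_lit 444) (nat_lit 148)))) (XT.nd (nat_lit 188) (nat_lit 252) (nat_lit 0) (XT.nd (nat_lit 94) (nat_lit 84) (nat_lit 0) (XT.lf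 (nat_lit 0) (nat_lit 1788605253664) (nat_lit 168) (nat_lit 9801036556769) (nat_lit 84) (nat_lit 9433403636101) (nat_lit 19) (nat_lit 5) (nat_lit 21) (nat_lit 5) (nat_lit 20) (nat_lit 4) (nat_lit 489) (nat_lit 444) (nat_lit 147)) (XT.lf (nat_lit 0) (nat_lit 12617692805042) (nat_lit 84) (nat_lit 106877991026) (nat_lit 168) (nat_lit 9389368992641) (nat_lit 18) (nat_lit 5) (nat_lit 19) (nat_lit 5) (nat_lit 20) (nat_lit 4) (nat_lit 490) (nat_lit 444) (nat_lit 146))) (XT.nd (nat_lit 94) (nat_lit 84) (nat_lit 0) (XT.lf (nat_lit 0) (nat_lit 1799600261534) (nat_lit 168) (nat_lit 9137178822910) (nat_lit 84) (nat_lit 12324551719006) (nat_lit 16) (nat_lit 5) (nat_lit 18) (nat_lit 5) (nat_lit 17) (nat_lit 4) (nat_lit 491) (nat_lit 444) (nat_lit 145)) (XT.lf (nat_lit 0) (nat_lit 14004988944028) (nat_lit 168) (nat_lit 8675906367268) (nat_lit 0) (nat_lit 1789408601978) (nat_lit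 15) (nat_lit 5) (nat_lit 17) (nat_lit 4) (nat_lit 15) (nat_lit 4) (nat_lit 492) (nat_lit 444) (nat_lit 144))))))) (XT.nd (nat_lit 64296) (nat_lit 0) (nat_lit 3948) (XT.nd (nat_lit 63638) (nat_lit 0) (nat_lit 8064) (XT.nd (nat_lit 63262) (nat_lit 0) (nat_lit 9912) (XT.nd (nat_lit 94) (nat_lit 252) (nat_lit 0) (XT.lf (nat_lit 0) (nat_lit 1997713493917) (nat_lit 168) (nat_lit 8120267679605) (nat_lit 84) (nat_lit 15625309635537) (nat_lit 13) (nat_lit 5) (nat_lit 15) (nat_lit 5) (nat_lit 14) (nat_lit 4) (nat_lit 493) (nat_lit 444) (nat_lit 143)) (XT.nd (nat_lit 94) (nat_lit 168) (nat_lit 0) (XT.lf (nat_lit 0) (nat_lit 15621145643942) (nat_lit 168) (nat_lit 7474632528412) (nat_lit 0) (nat_lit 3987259603738) (nat_lit 12) (nat_lit 5) (nat_lit 14) (nat_lit 4) (nat_lit 12) (nat_lit 4) (nat_lit 494) (nat_lit 444) (nat_lit 142)) (XT.lf (nat_lit 0) (nat_lit 2412976548400)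 (nat_lit 168) (nat_lit 6687284116052) (nat_lit 84) (nat_lit 19394983002212) (nat_lit 10) (nat_lit 5) (nat_lit 12) (nat_lit 5) (nat_lit 11) (nat_lit 4) (nat_lit 495) (nat_lit 444) (nat_lit 141)))) (XT.nd (nat_lit 188) (nat_lit 0) (nat_lit 84) (XT.nd (nat_lit 94) (nat_lit 0) (nat_lit 84) (XT.lf (nat_lit 0) (nat_lit 661590062099) (nat_lit 924) (nat_lit 372622375062) (nat_lit 924) (nat_lit 372622375062) (nat_lit 128) (nat_lit 3) (nat_lit 139) (nat_lit 3) (nat_lit 139) (nat_lit 5) (nat_lit 445) (nat_lit 445) (nat_lit 190)) (XT.lf (nat_lit 0) (nat_lit 1402813963410) (nat_lit 840) (nat_lit 1371947533466) (nat_lit 924) (nat_lit 150119580837) (nat_lit 129) (nat_lit 5) (nat_lit 139) (nat_lit 5) (nat_lit 140) (nat_lit 5) (nat_lit 446) (nat_lit 445) (nat_lit 189))) (XT.nd (nat_lit 94) (nat_lit 0) (nat_lit 84) (XT.lf (nat_lit 84) (nat_lit 1014622198474) (nat_lit 0) (nat_lit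 538109324983) (nat_lit 924) (nat_lit 1489062273098) (nat_lit 130) (nat_lit 5) (nat_lit 129) (nat_lit 5) (nat_lit 140) (nat_lit 5) (nat_lit 447) (nat_lit 445) (nat_lit 188)) (XT.lf (nat_lit 84) (nat_lit 459238785902) (nat_lit 0) (nat_lit 1316176570996) (nat_lit 924) (nat_lit 1389605532577) (nat_lit 131) (nat_lit 5) (nat_lit 130) (nat_lit 5) (nat_lit 141) (nat_lit 5) (nat_lit 448) (nat_lit 445) (nat_lit 187))))) (XT.nd (nat_lit 282) (nat_lit 2100) (nat_lit 0) (XT.nd (nat_lit 94) (nat_lit 0) (nat_lit 84) (XT.lf (nat_lit 0) (nat_lit 2078067597280) (nat_lit 840) (nat_lit 106230585128) (nat_lit 924) (nat_lit 1110700282408) (nat_lit 131) (nat_lit 5) (nat_lit 141) (nat_lit 5) (nat_lit 142) (nat_lit 5) (nat_lit 449) (nat_lit 445) (nat_lit 186)) (XT.nd (nat_lit 94) (nat_lit 0) (nat_lit 0) (XT.lf (nat_lit 0) (nat_lit 2474978603854) (nat_lit 840) (nat_lit 669071527498)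 (nat_lit 924) (nat_lit 287821785483) (nat_lit 132) (nat_lit 5) (nat_lit 142) (nat_lit 5) (nat_lit 143) (nat_lit 5) (nat_lit 450) (nat_lit 445) (nat_lit 185)) (XT.lf (nat_lit 84) (nat_lit 2323034601217) (nat_lit 0) (nat_lit 655589030415) (nat_lit 924) (nat_lit 597322556350) (nat_lit 133) (nat_lit 5) (nat_lit 132) (nat_lit 5) (nat_lit 143) (nat_lit 5) (nat_lit 451) (nat_lit 445) (nat_lit 184)))) (XT.nd (nat_lit 188) (nat_lit 840) (nat_lit 0) (XT.nd (nat_lit 94) (nat_lit 588) (nat_lit 0) (XT.lf (nat_lit 0) (nat_lit 1875551776666) (nat_lit 840) (nat_lit 1719861377862) (nat_lit 924) (nat_lit 132490601648) (nat_lit 123) (nat_lit 5) (nat_lit 133) (nat_lit 5) (nat_lit 134) (nat_lit 5) (nat_lit 452) (nat_lit 445) (nat_lit 183)) (XT.lf (nat_lit 0) (nat_lit 429352484999) (nat_lit 588) (nat_lit 2468010993959) (nat_lit 84) (nat_lit 990783393733) (nat_lit 116) (nat_lit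 5) (nat_lit 123) (nat_lit 5) (nat_lit 117) (nat_lit 5) (nat_lit 453) (nat_lit 445) (nat_lit 182))) (XT.nd (nat_lit 94) (nat_lit 420) (nat_lit 0) (XT.lf (nat_lit 0) (nat_lit 959934452565) (nat_lit 420) (nat_lit 148411807885) (nat_lit 504) (nat_lit 2948912325865) (nat_lit 111) (nat_lit 5) (nat_lit 116) (nat_lit 5) (nat_lit 117) (nat_lit 5) (nat_lit 454) (nat_lit 445) (nat_lit 181)) (XT.lf (nat_lit 0) (nat_lit 483223919069) (nat_lit 420) (nat_lit 1453711252509) (nat_lit 504) (nat_lit 2298200283770) (nat_lit 106) (nat_lit 5) (nat_lit 111) (nat_lit 5) (nat_lit 112) (nat_lit 5) (nat_lit 455) (nat_lit 445) (nat_lit 180)))))) (XT.nd (nat_lit 658) (nat_lit 2016) (nat_lit 0) (XT.nd (nat_lit 282) (nat_lit 1344) (nat_lit 0) (XT.nd (nat_lit 94) (nat_lit 420) (nat_lit 0) (XT.lf (nat_lit 0) (nat_lit 9608631698) (nat_lit 336) (nat_lit 2903280330009) (nat_lit 420) (nat_lit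 1510299623890) (nat_lit 102) (nat_lit 5) (nat_lit 106) (nat_lit 5) (nat_lit 107) (nat_lit 5) (nat_lit 456) (nat_lit 445) (nat_lit 179)) (XT.nd (nat_lit 94) (nat_lit 420) (nat_lit 0) (XT.lf (nat_lit 0) (nat_lit 4058332714014) (nat_lit 420) (nat_lit 443045990631) (nat_lit 84) (nat_lit 120336578673) (nat_lit 102) (nat_lit 5) (nat_lit 107) (nat_lit 5) (nat_lit 103) (nat_lit 5) (nat_lit 457) (nat_lit 445) (nat_lit 178)) (XT.lf (nat_lit 0) (nat_lit 556577308623) (nat_lit 420) (nat_lit 917897203066) (nat_lit 84) (nat_lit 3355691589720) (nat_lit 97) (nat_lit 5) (nat_lit 102) (nat_lit 5) (nat_lit 98) (nat_lit 5) (nat_lit 458) (nat_lit 445) (nat_lit 177)))) (XT.nd (nat_lit 188) (nat_lit 672) (nat_lit 0) (XT.nd (nat_lit 94) (nat_lit 336) (nat_lit 0) (XT.lf (nat_lit 0) (nat_lit 1841286820240) (nat_lit 420) (nat_lit 1395547289668) (nat_lit 84) (nat_lit 1813252534831) (nat_lit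 93) (nat_lit 5) (nat_lit 98) (nat_lit 5) (nat_lit 94) (nat_lit 5) (nat_lit 459) (nat_lit 445) (nat_lit 176)) (XT.lf (nat_lit 0) (nat_lit 3324891249500) (nat_lit 420) (nat_lit 1861245711549) (nat_lit 84) (nat_lit 96657962650) (nat_lit 89) (nat_lit 5) (nat_lit 94) (nat_lit 5) (nat_lit 90) (nat_lit 5) (nat_lit 460) (nat_lit 445) (nat_lit 175))) (XT.nd (nat_lit 94) (nat_lit 420) (nat_lit 0) (XT.lf (nat_lit 0) (nat_lit 3188002112953) (nat_lit 252) (nat_lit 1868242553147) (nat_lit 336) (nat_lit 471422167226) (nat_lit 86) (nat_lit 5) (nat_lit 89) (nat_lit 5) (nat_lit 90) (nat_lit 5) (nat_lit 461) (nat_lit 445) (nat_lit 174)) (XT.lf (nat_lit 0) (nat_lit 1205767530243) (nat_lit 420) (nat_lit 2820870149750) (nat_lit 84) (nat_lit 1759201384948) (nat_lit 81) (nat_lit 5) (nat_lit 86) (nat_lit 5) (nat_lit 82) (nat_lit 5) (nat_lit 462) (nat_lit 445) (nat_lit 173))))) (XT.nd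 (nat_lit 376) (nat_lit 924) (nat_lit 0) (XT.nd (nat_lit 188) (nat_lit 588) (nat_lit 0) (XT.nd (nat_lit 94) (nat_lit 252) (nat_lit 0) (XT.lf (nat_lit 0) (nat_lit 2763215624170) (nat_lit 252) (nat_lit 353688343191) (nat_lit 336) (nat_lit 2941560301100) (nat_lit 78) (nat_lit 5) (nat_lit 81) (nat_lit 5) (nat_lit 82) (nat_lit 5) (nat_lit 463) (nat_lit 445) (nat_lit 172)) (XT.lf (nat_lit 0) (nat_lit 2569336736820) (nat_lit 252) (nat_lit 2758062972905) (nat_lit 336) (nat_lit 1018176359025) (nat_lit 75) (nat_lit 5) (nat_lit 78) (nat_lit 5) (nat_lit 79) (nat_lit 5) (nat_lit 464) (nat_lit 445) (nat_lit 171))) (XT.nd (nat_lit 94) (nat_lit 252) (nat_lit 0) (XT.lf (nat_lit 0) (nat_lit 1147516913913) (nat_lit 336) (nat_lit 4247883389403) (nat_lit 84) (nat_lit 1253312963974) (nat_lit 71) (nat_lit 5) (nat_lit 75) (nat_lit 5) (nat_lit 72) (nat_lit 5) (nat_lit 465) (nat_lit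 445) (nat_lit 170)) (XT.lf (nat_lit 0) (nat_lit 2241076240505) (nat_lit 252) (nat_lit 1358547833899) (nat_lit 336) (nat_lit 3368201278245) (nat_lit 68) (nat_lit 5) (nat_lit 71) (nat_lit 5) (nat_lit 72) (nat_lit 5) (nat_lit 466) (nat_lit 445) (nat_lit 169)))) (XT.nd (nat_lit 188) (nat_lit 420) (nat_lit 0) (XT.nd (nat_lit 94) (nat_lit 336) (nat_lit 0) (XT.lf (nat_lit 0) (nat_lit 2111589597659) (nat_lit 168) (nat_lit 4291344435958) (nat_lit 252) (nat_lit 901780659924) (nat_lit 66) (nat_lit 5) (nat_lit 68) (nat_lit 5) (nat_lit 69) (nat_lit 5) (nat_lit 467) (nat_lit 445) (nat_lit 168)) (XT.lf (nat_lit 0) (nat_lit 1846260361648) (nat_lit 336) (nat_lit 5648895580998) (nat_lit 84) (nat_lit 164988773731) (nat_lit 62) (nat_lit 5) (nat_lit 66) (nat_lit 5) (nat_lit 63) (nat_lit 5) (nat_lit 468) (nat_lit 445) (nat_lit 167))) (XT.nd (nat_lit 94) (nat_lit 252) (nat_lit 0)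 (XT.lf (nat_lit 0) (nat_lit 1910015927063) (nat_lit 168) (nat_lit 3067081577400) (nat_lit 252) (nat_lit 3056445130047) (nat_lit 60) (nat_lit 5) (nat_lit 62) (nat_lit 5) (nat_lit 63) (nat_lit 5) (nat_lit 469) (nat_lit 445) (nat_lit 166)) (XT.lf (nat_lit 0) (nat_lit 82725690411) (nat_lit 252) (nat_lit 6555253251250) (nat_lit 84) (nat_lit 1790963313847) (nat_lit 57) (nat_lit 5) (nat_lit 60) (nat_lit 5) (nat_lit 58) (nat_lit 5) (nat_lit 470) (nat_lit 445) (nat_lit 165))))))))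
noncomputable def xc237 : XT := (XT.nd (nat_lit 65894) (nat_lit 0) (nat_lit 2100) (XT.nd (nat_lit 1316) (nat_lit 1092) (nat_lit 0) (XT.nd (nat_lit 658) (nat_lit 1260) (nat_lit 0) (XT.nd (nat_lit 282) (nat_lit 588) (nat_lit 0) (XT.nd (nat_lit 94) (nat_lit 420) (nat_lit 0) (XT.lf (nat_lit 0) (nat_lit 1832354986629) (nat_lit 168) (nat_lit 1723765163895) (nat_lit 252) (nat_lit 5287839766626) (nat_lit 55) (nat_lit 5) (nat_lit 57) (nat_lit 5) (nat_lit 58) (nat_lit 5) (nat_lit 471) (nat_lit 445) (nat_lit 164)) (XT.nd (nat_lit 94) (nat_lit 252) (nat_lit 0) (XT.lf (nat_lit 0) (nat_lit 1839646712916) (nat_lit 168) (nat_lit 5668471532504) (nat_lit 252) (nat_lit 1774024142405) (nat_lit 53) (nat_lit 5) (nat_lit 55) (nat_lit 5) (nat_lit 56) (nat_lit 5) (nat_lit 472) (nat_lit 445) (nat_lit 163)) (XT.lf (nat_lit 0) (nat_lit 1898243771223) (nat_lit 168) (nat_lit 240814269168)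 (nat_lit 252) (nat_lit 7605601691445) (nat_lit 50) (nat_lit 5) (nat_lit 52) (nat_lit 5) (nat_lit 53) (nat_lit 5) (nat_lit 473) (nat_lit 445) (nat_lit 162)))) (XT.nd (nat_lit 188) (nat_lit 252) (nat_lit 0) (XT.nd (nat_lit 94) (nat_lit 168) (nat_lit 0) (XT.lf (nat_lit 0) (nat_lit 1957157442353) (nat_lit 168) (nat_lit 4596793034481) (nat_lit 252) (nat_lit 3676228026217) (nat_lit 48) (nat_lit 5) (nat_lit 50) (nat_lit 5) (nat_lit 51) (nat_lit 5) (nat_lit 474) (nat_lit 445) (nat_lit 161)) (XT.lf (nat_lit 0) (nat_lit 747511778094) (nat_lit 168) (nat_lit 8636684995851) (nat_lit 84) (nat_lit 1359990009887) (nat_lit 46) (nat_lit 5) (nat_lit 48) (nat_lit 5) (nat_lit 47) (nat_lit 5) (nat_lit 475) (nat_lit 445) (nat_lit 160))) (XT.nd (nat_lit 94) (nat_lit 84) (nat_lit 0) (XT.lf (nat_lit 0) (nat_lit 2252000548649) (nat_lit 168) (nat_lit 3405218509121) (nat_lit 252) (nat_lit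 5626040096972) (nat_lit 44) (nat_lit 5) (nat_lit 46) (nat_lit 5) (nat_lit 47) (nat_lit 5) (nat_lit 476) (nat_lit 445) (nat_lit 159)) (XT.lf (nat_lit 0) (nat_lit 2491897604995) (nat_lit 84) (nat_lit 8707274110905) (nat_lit 168) (nat_lit 654312159620) (nat_lit 43) (nat_lit 5) (nat_lit 44) (nat_lit 5) (nat_lit 45) (nat_lit 4) (nat_lit 477) (nat_lit 445) (nat_lit 158))))) (XT.nd (nat_lit 282) (nat_lit 672) (nat_lit 0) (XT.nd (nat_lit 94) (nat_lit 336) (nat_lit 0) (XT.lf (nat_lit 0) (nat_lit 2752429985975) (nat_lit 168) (nat_lit 2072098694838) (nat_lit 252) (nat_lit 7628102602571) (nat_lit 40) (nat_lit 5) (nat_lit 42) (nat_lit 5) (nat_lit 43) (nat_lit 5) (nat_lit 478) (nat_lit 445) (nat_lit 157)) (XT.nd (nat_lit 94) (nat_lit 252) (nat_lit 0) (XT.lf (nat_lit 0) (nat_lit 3083773811637) (nat_lit 84) (nat_lit 7928707914526) (nat_lit 168) (nat_lit 2072005993847) (nat_lit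 39) (nat_lit 5) (nat_lit 40) (nat_lit 5) (nat_lit 41) (nat_lit 4) (nat_lit 479) (nat_lit 445) (nat_lit 156)) (XT.lf (nat_lit 0) (nat_lit 3491105551714) (nat_lit 168) (nat_lit 572920329604) (nat_lit 252) (nat_lit 9686740655401) (nat_lit 36) (nat_lit 5) (nat_lit 38) (nat_lit 5) (nat_lit 39) (nat_lit 5) (nat_lit 480) (nat_lit 445) (nat_lit 155)))) (XT.nd (nat_lit 188) (nat_lit 336) (nat_lit 0) (XT.nd (nat_lit 94) (nat_lit 252) (nat_lit 0) (XT.lf (nat_lit 0) (nat_lit 3930681052146) (nat_lit 84) (nat_lit 7042154642330) (nat_lit 168) (nat_lit 3478089179476) (nat_lit 35) (nat_lit 5) (nat_lit 36) (nat_lit 5) (nat_lit 37) (nat_lit 4) (nat_lit 481) (nat_lit 445) (nat_lit 154)) (XT.lf (nat_lit 0) (nat_lit 3403103106375) (nat_lit 252) (nat_lit 10703288271730) (nat_lit 84) (nat_lit 1084228126385) (nat_lit 32) (nat_lit 5) (nat_lit 35) (nat_lit 5) (nat_lit 33) (nat_lit 4)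 (nat_lit 482) (nat_lit 445) (nat_lit 153))) (XT.nd (nat_lit 94) (nat_lit 252) (nat_lit 0) (XT.lf (nat_lit 0) (nat_lit 5072827324264) (nat_lit 84) (nat_lit 6025941926609) (nat_lit 168) (nat_lit 4868577872918) (nat_lit 31) (nat_lit 5) (nat_lit 32) (nat_lit 5) (nat_lit 33) (nat_lit 4) (nat_lit 483) (nat_lit 445) (nat_lit 152)) (XT.lf (nat_lit 0) (nat_lit 2848644879208) (nat_lit 252) (nat_lit 10998039559753) (nat_lit 84) (nat_lit 2941090352300) (nat_lit 28) (nat_lit 5) (nat_lit 31) (nat_lit 5) (nat_lit 29) (nat_lit 4) (nat_lit 484) (nat_lit 445) (nat_lit 151)))))) (XT.nd (nat_lit 658) (nat_lit 252) (nat_lit 0) (XT.nd (nat_lit 282) (nat_lit 504) (nat_lit 0) (XT.nd (nat_lit 94) (nat_lit 252) (nat_lit 0) (XT.lf (nat_lit 0) (nat_lit 6556457564724) (nat_lit 84) (nat_lit 4855356643588) (nat_lit 168) (nat_lit 6238074825732) (nat_lit 27) (nat_lit 5) (nat_lit 28) (nat_lit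 5) (nat_lit 29) (nat_lit 4) (nat_lit 485) (nat_lit 445) (nat_lit 150)) (XT.nd (nat_lit 94) (nat_lit 84) (nat_lit 0) (XT.lf (nat_lit 0) (nat_lit 2406459197418) (nat_lit 168) (nat_lit 11102722038139) (nat_lit 84) (nat_lit 5050471300227) (nat_lit 25) (nat_lit 5) (nat_lit 27) (nat_lit 5) (nat_lit 26) (nat_lit 4) (nat_lit 486) (nat_lit 445) (nat_lit 149)) (XT.lf (nat_lit 0) (nat_lit 8434667835731) (nat_lit 84) (nat_lit 3502225446575) (nat_lit 168) (nat_lit 7579546204523) (nat_lit 24) (nat_lit 5) (nat_lit 25) (nat_lit 5) (nat_lit 26) (nat_lit 4) (nat_lit 487) (nat_lit 445) (nat_lit 148)))) (XT.nd (nat_lit 188) (nat_lit 252) (nat_lit 0) (XT.nd (nat_lit 94) (nat_lit 84) (nat_lit 0) (XT.lf (nat_lit 0) (nat_lit 2093979528577) (nat_lit 168) (nat_lit 10979688055120) (nat_lit 84) (nat_lit 7451402486217) (nat_lit 22) (nat_lit 5) (nat_lit 24) (nat_lit 5) (nat_lit 23) (nat_lit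 4) (nat_lit 488) (nat_lit 445) (nat_lit 147)) (XT.lf (nat_lit 0) (nat_lit 10768325434676) (nat_lit 84) (nat_lit 1934441162155) (nat_lit 168) (nat_lit 8884065277319) (nat_lit 21) (nat_lit 5) (nat_lit 22) (nat_lit 5) (nat_lit 23) (nat_lit 4) (nat_lit 489) (nat_lit 445) (nat_lit 146))) (XT.nd (nat_lit 94) (nat_lit 84) (nat_lit 0) (XT.lf (nat_lit 0) (nat_lit 1931693677791) (nat_lit 168) (nat_lit 10585119473806) (nat_lit 84) (nat_lit 10188075930468) (nat_lit 19) (nat_lit 5) (nat_lit 21) (nat_lit 5) (nat_lit 20) (nat_lit 4) (nat_lit 490) (nat_lit 445) (nat_lit 145)) (XT.lf (nat_lit 0) (nat_lit 13627108236625) (nat_lit 84) (nat_lit 115428226792) (nat_lit 168) (nat_lit 10140518508207) (nat_lit 18) (nat_lit 5) (nat_lit 19) (nat_lit 5) (nat_lit 20) (nat_lit 4) (nat_lit 491) (nat_lit 445) (nat_lit 144))))) (XT.nd (nat_lit 63544) (nat_lit 0) (nat_lit 9576) (XT.nd (nat_lit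 94) (nat_lit 84) (nat_lit 0) (XT.lf (nat_lit 0) (nat_lit 1943568286066) (nat_lit 168) (nat_lit 9868153121634) (nat_lit 84) (nat_lit 13310515859846) (nat_lit 16) (nat_lit 5) (nat_lit 18) (nat_lit 5) (nat_lit 17) (nat_lit 4) (nat_lit 492) (nat_lit 445) (nat_lit 143)) (XT.nd (nat_lit 63356) (nat_lit 0) (nat_lit 9492) (XT.lf (nat_lit 0) (nat_lit 15125388063051) (nat_lit 168) (nat_lit 9369978869729) (nat_lit 0) (nat_lit 1932561293382) (nat_lit 15) (nat_lit 5) (nat_lit 17) (nat_lit 4) (nat_lit 15) (nat_lit 4) (nat_lit 493) (nat_lit 445) (nat_lit 142)) (XT.lf (nat_lit 0) (nat_lit 714517279549) (nat_lit 924) (nat_lit 402432158514) (nat_lit 924) (nat_lit 402432158514) (nat_lit 128) (nat_lit 3) (nat_lit 139) (nat_lit 3) (nat_lit 139) (nat_lit 5) (nat_lit 446) (nat_lit 446) (nat_lit 188)))) (XT.nd (nat_lit 188) (nat_lit 0) (nat_lit 84) (XT.nd (nat_lit 94) (nat_lit 0)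 (nat_lit 0) (XT.lf (nat_lit 0) (nat_lit 1515039103627) (nat_lit 840) (nat_lit 1481703322272) (nat_lit 924) (nat_lit 162129136874) (nat_lit 129) (nat_lit 5) (nat_lit 139) (nat_lit 5) (nat_lit 140) (nat_lit 5) (nat_lit 447) (nat_lit 446) (nat_lit 187)) (XT.lf (nat_lit 84) (nat_lit 1095791987620) (nat_lit 0) (nat_lit 581158079349) (nat_lit 924) (nat_lit 1608187232228) (nat_lit 130) (nat_lit 5) (nat_lit 129) (nat_lit 5) (nat_lit 140) (nat_lit 5) (nat_lit 448) (nat_lit 446) (nat_lit 186))) (XT.nd (nat_lit 94) (nat_lit 0) (nat_lit 84) (XT.lf (nat_lit 84) (nat_lit 495977902626) (nat_lit 0) (nat_lit 1421470702953) (nat_lit 924) (nat_lit 1500773954048) (nat_lit 131) (nat_lit 5) (nat_lit 130) (nat_lit 5) (nat_lit 141) (nat_lit 5) (nat_lit 449) (nat_lit 446) (nat_lit 185)) (XT.lf (nat_lit 0) (nat_lit 2244313023609) (nat_lit 840) (nat_lit 114729018090) (nat_lit 924) (nat_lit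 1199556299374) (nat_lit 131) (nat_lit 5) (nat_lit 141) (nat_lit 5) (nat_lit 142) (nat_lit 5) (nat_lit 450) (nat_lit 446) (nat_lit 184))))))) (XT.nd (nat_lit 1316) (nat_lit 3192) (nat_lit 0) (XT.nd (nat_lit 658) (nat_lit 2016) (nat_lit 0) (XT.nd (nat_lit 282) (nat_lit 1764) (nat_lit 0) (XT.nd (nat_lit 94) (nat_lit 756) (nat_lit 0) (XT.lf (nat_lit 0) (nat_lit 2672976909478) (nat_lit 840) (nat_lit 722597235518) (nat_lit 924) (nat_lit 310847524320) (nat_lit 132) (nat_lit 5) (nat_lit 142) (nat_lit 5) (nat_lit 143) (nat_lit 5) (nat_lit 451) (nat_lit 446) (nat_lit 183)) (XT.nd (nat_lit 94) (nat_lit 756) (nat_lit 0) (XT.lf (nat_lit 84) (nat_lit 2508877382877) (nat_lit 0) (nat_lit 708036155530) (nat_lit 924) (nat_lit 645108343801) (nat_lit 133) (nat_lit 5) (nat_lit 132) (nat_lit 5) (nat_lit 143) (nat_lit 5) (nat_lit 452) (nat_lit 446) (nat_lit 182)) (XT.lf (nat_lit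 0) (nat_lit 2025595932590) (nat_lit 840) (nat_lit 1857450289518) (nat_lit 924) (nat_lit 143089833801) (nat_lit 123) (nat_lit 5) (nat_lit 133) (nat_lit 5) (nat_lit 134) (nat_lit 5) (nat_lit 453) (nat_lit 446) (nat_lit 181)))) (XT.nd (nat_lit 188) (nat_lit 756) (nat_lit 0) (XT.nd (nat_lit 94) (nat_lit 420) (nat_lit 0) (XT.lf (nat_lit 0) (nat_lit 463700698321) (nat_lit 588) (nat_lit 2665451859054) (nat_lit 84) (nat_lit 1070046064405) (nat_lit 116) (nat_lit 5) (nat_lit 123) (nat_lit 5) (nat_lit 117) (nat_lit 5) (nat_lit 454) (nat_lit 446) (nat_lit 180)) (XT.lf (nat_lit 0) (nat_lit 1036729222564) (nat_lit 420) (nat_lit 160284752383) (nat_lit 504) (nat_lit 3184825297590) (nat_lit 111) (nat_lit 5) (nat_lit 116) (nat_lit 5) (nat_lit 117) (nat_lit 5) (nat_lit 455) (nat_lit 446) (nat_lit 179))) (XT.nd (nat_lit 94) (nat_lit 336) (nat_lit 0) (XT.lf (nat_lit 0) (nat_lit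 521881846441) (nat_lit 420) (nat_lit 1570008151731) (nat_lit 504) (nat_lit 2482056292961) (nat_lit 106) (nat_lit 5) (nat_lit 111) (nat_lit 5) (nat_lit 112) (nat_lit 5) (nat_lit 456) (nat_lit 446) (nat_lit 178)) (XT.lf (nat_lit 0) (nat_lit 10377336079) (nat_lit 336) (nat_lit 3135542754709) (nat_lit 420) (nat_lit 1631123581049) (nat_lit 102) (nat_lit 5) (nat_lit 106) (nat_lit 5) (nat_lit 107) (nat_lit 5) (nat_lit 457) (nat_lit 446) (nat_lit 177))))) (XT.nd (nat_lit 282) (nat_lit 1260) (nat_lit 0) (XT.nd (nat_lit 94) (nat_lit 756) (nat_lit 0) (XT.lf (nat_lit 0) (nat_lit 4382999342405) (nat_lit 420) (nat_lit 478489656524) (nat_lit 84) (nat_lit 129963506491) (nat_lit 102) (nat_lit 5) (nat_lit 107) (nat_lit 5) (nat_lit 103) (nat_lit 5) (nat_lit 458) (nat_lit 446) (nat_lit 176)) (XT.nd (nat_lit 94) (nat_lit 336) (nat_lit 0) (XT.lf (nat_lit 0) (nat_lit 601103504121)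 (nat_lit 420) (nat_lit 991328966177) (nat_lit 84) (nat_lit 3624146918683) (nat_lit 97) (nat_lit 5) (nat_lit 102) (nat_lit 5) (nat_lit 98) (nat_lit 5) (nat_lit 459) (nat_lit 446) (nat_lit 175)) (XT.lf (nat_lit 0) (nat_lit 1988589776100) (nat_lit 420) (nat_lit 1507191059805) (nat_lit 84) (nat_lit 1958312739901) (nat_lit 93) (nat_lit 5) (nat_lit 98) (nat_lit 5) (nat_lit 94) (nat_lit 5) (nat_lit 460) (nat_lit 446) (nat_lit 174)))) (XT.nd (nat_lit 188) (nat_lit 672) (nat_lit 0) (XT.nd (nat_lit 94) (nat_lit 252) (nat_lit 0) (XT.lf (nat_lit 0) (nat_lit 3590882559180) (nat_lit 420) (nat_lit 2010145355563) (nat_lit 84) (nat_lit 104390602366) (nat_lit 89) (nat_lit 5) (nat_lit 94) (nat_lit 5) (nat_lit 90) (nat_lit 5) (nat_lit 461) (nat_lit 446) (nat_lit 173)) (XT.lf (nat_lit 0) (nat_lit 3443042294339) (nat_lit 252) (nat_lit 2017701954243) (nat_lit 336) (nat_lit 509135930951)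 (nat_lit 86) (nat_lit 5) (nat_lit 89) (nat_lit 5) (nat_lit 90) (nat_lit 5) (nat_lit 462) (nat_lit 446) (nat_lit 172))) (XT.nd (nat_lit 94) (nat_lit 252) (nat_lit 0) (XT.lf (nat_lit 0) (nat_lit 1302228941554) (nat_lit 420) (nat_lit 3046539749231) (nat_lit 84) (nat_lit 1899937498907) (nat_lit 81) (nat_lit 5) (nat_lit 86) (nat_lit 5) (nat_lit 82) (nat_lit 5) (nat_lit 463) (nat_lit 446) (nat_lit 171)) (XT.lf (nat_lit 0) (nat_lit 2984272886060) (nat_lit 252) (nat_lit 381983407110) (nat_lit 336) (nat_lit 3176885116347) (nat_lit 78) (nat_lit 5) (nat_lit 81) (nat_lit 5) (nat_lit 82) (nat_lit 5) (nat_lit 464) (nat_lit 446) (nat_lit 170)))))) (XT.nd (nat_lit 658) (nat_lit 1428) (nat_lit 0) (XT.nd (nat_lit 282) (nat_lit 924) (nat_lit 0) (XT.nd (nat_lit 94) (nat_lit 588) (nat_lit 0) (XT.lf (nat_lit 0) (nat_lit 2774883687552) (nat_lit 252) (nat_lit 2978708006983) (nat_lit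 336) (nat_lit 1099630459314) (nat_lit 75) (nat_lit 5) (nat_lit 78) (nat_lit 5) (nat_lit 79) (nat_lit 5) (nat_lit 465) (nat_lit 446) (nat_lit 169)) (XT.nd (nat_lit 94) (nat_lit 252) (nat_lit 0) (XT.lf (nat_lit 0) (nat_lit 1239318274824) (nat_lit 336) (nat_lit 4587714048696) (nat_lit 84) (nat_lit 1353578004765) (nat_lit 71) (nat_lit 5) (nat_lit 75) (nat_lit 5) (nat_lit 72) (nat_lit 5) (nat_lit 466) (nat_lit 446) (nat_lit 168)) (XT.lf (nat_lit 0) (nat_lit 2420362351090) (nat_lit 252) (nat_lit 1467231656663) (nat_lit 336) (nat_lit 3637657372738) (nat_lit 68) (nat_lit 5) (nat_lit 71) (nat_lit 5) (nat_lit 72) (nat_lit 5) (nat_lit 467) (nat_lit 446) (nat_lit 167)))) (XT.nd (nat_lit 188) (nat_lit 420) (nat_lit 0) (XT.nd (nat_lit 94) (nat_lit 336) (nat_lit 0) (XT.lf (nat_lit 0) (nat_lit 2280516776618) (nat_lit 168) (nat_lit 4634651986769) (nat_lit 252) (nat_lit 973923105283)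 (nat_lit 66) (nat_lit 5) (nat_lit 68) (nat_lit 5) (nat_lit 69) (nat_lit 5) (nat_lit 468) (nat_lit 446) (nat_lit 166)) (XT.lf (nat_lit 0) (nat_lit 1993961197477) (nat_lit 336) (nat_lit 6100807216310) (nat_lit 84) (nat_lit 178187879556) (nat_lit 62) (nat_lit 5) (nat_lit 66) (nat_lit 5) (nat_lit 63) (nat_lit 5) (nat_lit 469) (nat_lit 446) (nat_lit 165))) (XT.nd (nat_lit 94) (nat_lit 252) (nat_lit 0) (XT.lf (nat_lit 0) (nat_lit 2062817211911) (nat_lit 168) (nat_lit 3312448099463) (nat_lit 252) (nat_lit 3300960733570) (nat_lit 60) (nat_lit 5) (nat_lit 62) (nat_lit 5) (nat_lit 63) (nat_lit 5) (nat_lit 470) (nat_lit 446) (nat_lit 164)) (XT.lf (nat_lit 0) (nat_lit 89343752037) (nat_lit 252) (nat_lit 7079673500669) (nat_lit 84) (nat_lit 1934240382923) (nat_lit 57) (nat_lit 5) (nat_lit 60) (nat_lit 5) (nat_lit 58) (nat_lit 5) (nat_lit 471) (nat_lit 446) (nat_lit 163)))))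 (XT.nd (nat_lit 376) (nat_lit 672) (nat_lit 0) (XT.nd (nat_lit 188) (nat_lit 420) (nat_lit 0) (XT.nd (nat_lit 94) (nat_lit 168) (nat_lit 0) (XT.lf (nat_lit 0) (nat_lit 1978943395777) (nat_lit 168) (nat_lit 1861666372869) (nat_lit 252) (nat_lit 5710866941572) (nat_lit 55) (nat_lit 5) (nat_lit 57) (nat_lit 5) (nat_lit 58) (nat_lit 5) (nat_lit 472) (nat_lit 446) (nat_lit 162)) (XT.lf (nat_lit 0) (nat_lit 1986818459951) (nat_lit 168) (nat_lit 6121949250947) (nat_lit 252) (nat_lit 1915946067660) (nat_lit 53) (nat_lit 5) (nat_lit 55) (nat_lit 5) (nat_lit 56) (nat_lit 5) (nat_lit 473) (nat_lit 446) (nat_lit 161))) (XT.nd (nat_lit 94) (nat_lit 168) (nat_lit 0) (XT.lf (nat_lit 0) (nat_lit 2050103282676) (nat_lit 168) (nat_lit 260079406599) (nat_lit 252) (nat_lit 8214049820825) (nat_lit 50) (nat_lit 5) (nat_lit 52) (nat_lit 5) (nat_lit 53) (nat_lit 5) (nat_lit 474)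 (nat_lit 446) (nat_lit 160)) (XT.lf (nat_lit 0) (nat_lit 2113730047281) (nat_lit 168) (nat_lit 4964536473142) (nat_lit 252) (nat_lit 3970326262600) (nat_lit 48) (nat_lit 5) (nat_lit 50) (nat_lit 5) (nat_lit 51) (nat_lit 5) (nat_lit 475) (nat_lit 446) (nat_lit 159)))) (XT.nd (nat_lit 188) (nat_lit 336) (nat_lit 0) (XT.nd (nat_lit 94) (nat_lit 168) (nat_lit 0) (XT.lf (nat_lit 0) (nat_lit 807312725672) (nat_lit 168) (nat_lit 9327619786017) (nat_lit 84) (nat_lit 1468789214582) (nat_lit 46) (nat_lit 5) (nat_lit 48) (nat_lit 5) (nat_lit 47) (nat_lit 5) (nat_lit 476) (nat_lit 446) (nat_lit 158)) (XT.lf (nat_lit 0) (nat_lit 2432160601629) (nat_lit 168) (nat_lit 3677635985839) (nat_lit 252) (nat_lit 6076123299398) (nat_lit 44) (nat_lit 5) (nat_lit 46) (nat_lit 5) (nat_lit 47) (nat_lit 5) (nat_lit 477) (nat_lit 446) (nat_lit 157))) (XT.nd (nat_lit 94) (nat_lit 252)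 (nat_lit 0) (XT.lf (nat_lit 0) (nat_lit 2691249422271) (nat_lit 84) (nat_lit 9403856035800) (nat_lit 168) (nat_lit 706657127247) (nat_lit 43) (nat_lit 5) (nat_lit 44) (nat_lit 5) (nat_lit 45) (nat_lit 4) (nat_lit 478) (nat_lit 446) (nat_lit 156)) (XT.lf (nat_lit 0) (nat_lit 2972624393502) (nat_lit 168) (nat_lit 2237866586521) (nat_lit 252) (nat_lit 8238350805795) (nat_lit 40) (nat_lit 5) (nat_lit 42) (nat_lit 5) (nat_lit 43) (nat_lit 5) (nat_lit 479) (nat_lit 446) (nat_lit 155))))))))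
noncomputable def xc238 : XT := (XT.nd (nat_lit 65988) (nat_lit 0) (nat_lit 672) (XT.nd (nat_lit 64672) (nat_lit 0) (nat_lit 6804) (XT.nd (nat_lit 658) (nat_lit 924) (nat_lit 0) (XT.nd (nat_lit 282) (nat_lit 672) (nat_lit 0) (XT.nd (nat_lit 94) (nat_lit 336) (nat_lit 0) (XT.lf (nat_lit 0) (nat_lit 3330475725009) (nat_lit 84) (nat_lit 8563004543829) (nat_lit 168) (nat_lit 2237766468545) (nat_lit 39) (nat_lit 5) (nat_lit 40) (nat_lit 5) (nat_lit 41) (nat_lit 4) (nat_lit 480) (nat_lit 446) (nat_lit 154)) (XT.nd (nat_lit 94) (nat_lit 84) (nat_lit 0) (XT.lf (nat_lit 0) (nat_lit 3770394004072) (nat_lit 168) (nat_lit 618753952191) (nat_lit 252) (nat_lit 10461679903172) (nat_lit 36) (nat_lit 5) (nat_lit 38) (nat_lit 5) (nat_lit 39) (nat_lit 5) (nat_lit 481) (nat_lit 446) (nat_lit 153)) (XT.lf (nat_lit 0) (nat_lit 4245135544338) (nat_lit 84) (nat_lit 7605527009987)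 (nat_lit 168) (nat_lit 3756336309329) (nat_lit 35) (nat_lit 5) (nat_lit 36) (nat_lit 5) (nat_lit 37) (nat_lit 4) (nat_lit 482) (nat_lit 446) (nat_lit 152)))) (XT.nd (nat_lit 188) (nat_lit 336) (nat_lit 0) (XT.nd (nat_lit 94) (nat_lit 84) (nat_lit 0) (XT.lf (nat_lit 0) (nat_lit 3675351359102) (nat_lit 252) (nat_lit 11559551325508) (nat_lit 84) (nat_lit 1170966380028) (nat_lit 32) (nat_lit 5) (nat_lit 35) (nat_lit 5) (nat_lit 33) (nat_lit 4) (nat_lit 483) (nat_lit 446) (nat_lit 151)) (XT.lf (nat_lit 0) (nat_lit 5478653517819) (nat_lit 84) (nat_lit 6508017277147) (nat_lit 168) (nat_lit 5258064098527) (nat_lit 31) (nat_lit 5) (nat_lit 32) (nat_lit 5) (nat_lit 33) (nat_lit 4) (nat_lit 484) (nat_lit 446) (nat_lit 150))) (XT.nd (nat_lit 94) (nat_lit 84) (nat_lit 0) (XT.lf (nat_lit 0) (nat_lit 3076536473502) (nat_lit 252) (nat_lit 11877882716980) (nat_lit 84) (nat_lit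 3176377583882) (nat_lit 28) (nat_lit 5) (nat_lit 31) (nat_lit 5) (nat_lit 29) (nat_lit 4) (nat_lit 485) (nat_lit 446) (nat_lit 149)) (XT.lf (nat_lit 0) (nat_lit 7080974177127) (nat_lit 84) (nat_lit 5243785171627) (nat_lit 168) (nat_lit 6737120807825) (nat_lit 27) (nat_lit 5) (nat_lit 28) (nat_lit 5) (nat_lit 29) (nat_lit 4) (nat_lit 486) (nat_lit 446) (nat_lit 148))))) (XT.nd (nat_lit 282) (nat_lit 504) (nat_lit 0) (XT.nd (nat_lit 94) (nat_lit 252) (nat_lit 0) (XT.lf (nat_lit 0) (nat_lit 2598975936928) (nat_lit 168) (nat_lit 11990939794027) (nat_lit 84) (nat_lit 5454509007505) (nat_lit 25) (nat_lit 5) (nat_lit 27) (nat_lit 5) (nat_lit 26) (nat_lit 4) (nat_lit 487) (nat_lit 446) (nat_lit 147)) (XT.nd (nat_lit 94) (nat_lit 168) (nat_lit 0) (XT.lf (nat_lit 0) (nat_lit 9109441269440) (nat_lit 84) (nat_lit 3782403478999) (nat_lit 168) (nat_lit 8185909897160) (nat_lit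 24) (nat_lit 5) (nat_lit 25) (nat_lit 5) (nat_lit 26) (nat_lit 4) (nat_lit 488) (nat_lit 446) (nat_lit 146)) (XT.lf (nat_lit 0) (nat_lit 2261497894357) (nat_lit 168) (nat_lit 11858063092741) (nat_lit 84) (nat_lit 8047514688235) (nat_lit 22) (nat_lit 5) (nat_lit 24) (nat_lit 5) (nat_lit 23) (nat_lit 4) (nat_lit 489) (nat_lit 446) (nat_lit 145)))) (XT.nd (nat_lit 188) (nat_lit 252) (nat_lit 0) (XT.nd (nat_lit 94) (nat_lit 168) (nat_lit 0) (XT.lf (nat_lit 0) (nat_lit 11629791475944) (nat_lit 84) (nat_lit 2089196451970) (nat_lit 168) (nat_lit 9594790496002) (nat_lit 21) (nat_lit 5) (nat_lit 22) (nat_lit 5) (nat_lit 23) (nat_lit 4) (nat_lit 490) (nat_lit 446) (nat_lit 144)) (XT.lf (nat_lit 0) (nat_lit 2086229175300) (nat_lit 168) (nat_lit 11431929025279) (nat_lit 84) (nat_lit 11003122007887) (nat_lit 19) (nat_lit 5) (nat_lit 21) (nat_lit 5) (nat_lit 20) (nat_lit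 4) (nat_lit 491) (nat_lit 446) (nat_lit 143))) (XT.nd (nat_lit 94) (nat_lit 168) (nat_lit 0) (XT.lf (nat_lit 0) (nat_lit 14717276901709) (nat_lit 84) (nat_lit 124662481920) (nat_lit 168) (nat_lit 10951759985567) (nat_lit 18) (nat_lit 5) (nat_lit 19) (nat_lit 5) (nat_lit 20) (nat_lit 4) (nat_lit 492) (nat_lit 446) (nat_lit 142)) (XT.lf (nat_lit 0) (nat_lit 2099053752045) (nat_lit 168) (nat_lit 10657605365271) (nat_lit 84) (nat_lit 14375357131479) (nat_lit 16) (nat_lit 5) (nat_lit 18) (nat_lit 5) (nat_lit 17) (nat_lit 4) (nat_lit 493) (nat_lit 446) (nat_lit 141)))))) (XT.nd (nat_lit 658) (nat_lit 2604) (nat_lit 0) (XT.nd (nat_lit 282) (nat_lit 0) (nat_lit 168) (XT.nd (nat_lit 94) (nat_lit 0) (nat_lit 84) (XT.lf (nat_lit 0) (nat_lit 771678672615) (nat_lit 924) (nat_lit 434626725576) (nat_lit 924) (nat_lit 434626725576) (nat_lit 128) (nat_lit 3) (nat_lit 139)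 (nat_lit 3) (nat_lit 139) (nat_lit 5) (nat_lit 447) (nat_lit 447) (nat_lit 186)) (XT.nd (nat_lit 94) (nat_lit 0) (nat_lit 0) (XT.lf (nat_lit 0) (nat_lit 1636242251759) (nat_lit 840) (nat_lit 1600239576162) (nat_lit 924) (nat_lit 175099458882) (nat_lit 129) (nat_lit 5) (nat_lit 139) (nat_lit 5) (nat_lit 140) (nat_lit 5) (nat_lit 448) (nat_lit 447) (nat_lit 185)) (XT.lf (nat_lit 84) (nat_lit 1183455358005) (nat_lit 0) (nat_lit 627650732872) (nat_lit 924) (nat_lit 1736842191330) (nat_lit 130) (nat_lit 5) (nat_lit 129) (nat_lit 5) (nat_lit 140) (nat_lit 5) (nat_lit 449) (nat_lit 447) (nat_lit 184)))) (XT.nd (nat_lit 188) (nat_lit 0) (nat_lit 168) (XT.nd (nat_lit 94) (nat_lit 0) (nat_lit 84) (XT.lf (nat_lit 84) (nat_lit 535656146711) (nat_lit 0) (nat_lit 1535188364571) (nat_lit 924) (nat_lit 1620835852251) (nat_lit 131) (nat_lit 5) (nat_lit 130) (nat_lit 5) (nat_lit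 141) (nat_lit 5) (nat_lit 450) (nat_lit 447) (nat_lit 183)) (XT.lf (nat_lit 0) (nat_lit 2423858081399) (nat_lit 840) (nat_lit 123907327665) (nat_lit 924) (nat_lit 1295520798500) (nat_lit 131) (nat_lit 5) (nat_lit 141) (nat_lit 5) (nat_lit 142) (nat_lit 5) (nat_lit 451) (nat_lit 447) (nat_lit 182))) (XT.nd (nat_lit 94) (nat_lit 0) (nat_lit 0) (XT.lf (nat_lit 0) (nat_lit 2886815077082) (nat_lit 840) (nat_lit 780405002202) (nat_lit 924) (nat_lit 335715322834) (nat_lit 132) (nat_lit 5) (nat_lit 142) (nat_lit 5) (nat_lit 143) (nat_lit 5) (nat_lit 452) (nat_lit 447) (nat_lit 181)) (XT.lf (nat_lit 84) (nat_lit 2709587585136) (nat_lit 0) (nat_lit 764679050271) (nat_lit 924) (nat_lit 696716996682) (nat_lit 133) (nat_lit 5) (nat_lit 132) (nat_lit 5) (nat_lit 143) (nat_lit 5) (nat_lit 453) (nat_lit 447) (nat_lit 180))))) (XT.nd (nat_lit 282) (nat_lit 1176) (nat_lit 0)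 (XT.nd (nat_lit 94) (nat_lit 1008) (nat_lit 0) (XT.lf (nat_lit 0) (nat_lit 2187643619020) (nat_lit 840) (nat_lit 2006046313903) (nat_lit 924) (nat_lit 154537006806) (nat_lit 123) (nat_lit 5) (nat_lit 133) (nat_lit 5) (nat_lit 134) (nat_lit 5) (nat_lit 454) (nat_lit 447) (nat_lit 179)) (XT.nd (nat_lit 94) (nat_lit 420) (nat_lit 0) (XT.lf (nat_lit 0) (nat_lit 500796766637) (nat_lit 588) (nat_lit 2878687995415) (nat_lit 84) (nat_lit 1155649748848) (nat_lit 116) (nat_lit 5) (nat_lit 123) (nat_lit 5) (nat_lit 117) (nat_lit 5) (nat_lit 455) (nat_lit 447) (nat_lit 178)) (XT.lf (nat_lit 0) (nat_lit 1119667572196) (nat_lit 420) (nat_lit 173107532460) (nat_lit 504) (nat_lit 3439611309099) (nat_lit 111) (nat_lit 5) (nat_lit 116) (nat_lit 5) (nat_lit 117) (nat_lit 5) (nat_lit 456) (nat_lit 447) (nat_lit 177)))) (XT.nd (nat_lit 188) (nat_lit 420) (nat_lit 0) (XT.nd (nat_lit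 94) (nat_lit 336) (nat_lit 0) (XT.lf (nat_lit 0) (nat_lit 563632406027) (nat_lit 420) (nat_lit 1695608803031) (nat_lit 504) (nat_lit 2680620784814) (nat_lit 106) (nat_lit 5) (nat_lit 111) (nat_lit 5) (nat_lit 112) (nat_lit 5) (nat_lit 457) (nat_lit 447) (nat_lit 176)) (XT.lf (nat_lit 0) (nat_lit 11207534836) (nat_lit 336) (nat_lit 3386386173628) (nat_lit 420) (nat_lit 1761613456600) (nat_lit 102) (nat_lit 5) (nat_lit 106) (nat_lit 5) (nat_lit 107) (nat_lit 5) (nat_lit 458) (nat_lit 447) (nat_lit 175))) (XT.nd (nat_lit 94) (nat_lit 420) (nat_lit 0) (XT.lf (nat_lit 0) (nat_lit 4733639299459) (nat_lit 420) (nat_lit 516768817595) (nat_lit 84) (nat_lit 140360588317) (nat_lit 102) (nat_lit 5) (nat_lit 107) (nat_lit 5) (nat_lit 103) (nat_lit 5) (nat_lit 459) (nat_lit 447) (nat_lit 174)) (XT.lf (nat_lit 0) (nat_lit 649191793718) (nat_lit 420) (nat_lit 1070635272211)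 (nat_lit 84) (nat_lit 3914078673708) (nat_lit 97) (nat_lit 5) (nat_lit 102) (nat_lit 5) (nat_lit 98) (nat_lit 5) (nat_lit 460) (nat_lit 447) (nat_lit 173))))))) (XT.nd (nat_lit 1316) (nat_lit 2436) (nat_lit 0) (XT.nd (nat_lit 658) (nat_lit 1512) (nat_lit 0) (XT.nd (nat_lit 282) (nat_lit 1260) (nat_lit 0) (XT.nd (nat_lit 94) (nat_lit 588) (nat_lit 0) (XT.lf (nat_lit 0) (nat_lit 2147676966968) (nat_lit 420) (nat_lit 1627766333412) (nat_lit 84) (nat_lit 2114977761051) (nat_lit 93) (nat_lit 5) (nat_lit 98) (nat_lit 5) (nat_lit 94) (nat_lit 5) (nat_lit 461) (nat_lit 447) (nat_lit 172)) (XT.nd (nat_lit 94) (nat_lit 252) (nat_lit 0) (XT.lf (nat_lit 0) (nat_lit 3878153172249) (nat_lit 420) (nat_lit 2170956972939) (nat_lit 84) (nat_lit 112741852873) (nat_lit 89) (nat_lit 5) (nat_lit 94) (nat_lit 5) (nat_lit 90) (nat_lit 5) (nat_lit 462) (nat_lit 447) (nat_lit 171))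 (XT.lf (nat_lit 0) (nat_lit 3718485688474) (nat_lit 252) (nat_lit 2179118107877) (nat_lit 336) (nat_lit 549866797151) (nat_lit 86) (nat_lit 5) (nat_lit 89) (nat_lit 5) (nat_lit 90) (nat_lit 5) (nat_lit 463) (nat_lit 447) (nat_lit 170)))) (XT.nd (nat_lit 188) (nat_lit 588) (nat_lit 0) (XT.nd (nat_lit 94) (nat_lit 252) (nat_lit 0) (XT.lf (nat_lit 0) (nat_lit 1406407264502) (nat_lit 420) (nat_lit 3290262918453) (nat_lit 84) (nat_lit 2051932501531) (nat_lit 81) (nat_lit 5) (nat_lit 86) (nat_lit 5) (nat_lit 82) (nat_lit 5) (nat_lit 464) (nat_lit 447) (nat_lit 169)) (XT.lf (nat_lit 0) (nat_lit 3223014727195) (nat_lit 252) (nat_lit 412542076647) (nat_lit 336) (nat_lit 3431035918075) (nat_lit 78) (nat_lit 5) (nat_lit 81) (nat_lit 5) (nat_lit 82) (nat_lit 5) (nat_lit 465) (nat_lit 447) (nat_lit 168))) (XT.nd (nat_lit 94) (nat_lit 336) (nat_lit 0) (XT.lf (nat_lit 0)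 (nat_lit 2996874392661) (nat_lit 252) (nat_lit 3217004644323) (nat_lit 336) (nat_lit 1187600888829) (nat_lit 75) (nat_lit 5) (nat_lit 78) (nat_lit 5) (nat_lit 79) (nat_lit 5) (nat_lit 466) (nat_lit 447) (nat_lit 167)) (XT.lf (nat_lit 0) (nat_lit 1338463743496) (nat_lit 336) (nat_lit 4954731162423) (nat_lit 84) (nat_lit 1461864248294) (nat_lit 71) (nat_lit 5) (nat_lit 75) (nat_lit 5) (nat_lit 72) (nat_lit 5) (nat_lit 467) (nat_lit 447) (nat_lit 166))))) (XT.nd (nat_lit 282) (nat_lit 756) (nat_lit 0) (XT.nd (nat_lit 94) (nat_lit 504) (nat_lit 0) (XT.lf (nat_lit 0) (nat_lit 2613991348903) (nat_lit 252) (nat_lit 1584610185812) (nat_lit 336) (nat_lit 3928669955898) (nat_lit 68) (nat_lit 5) (nat_lit 71) (nat_lit 5) (nat_lit 72) (nat_lit 5) (nat_lit 468) (nat_lit 447) (nat_lit 165)) (XT.nd (nat_lit 94) (nat_lit 336) (nat_lit 0) (XT.lf (nat_lit 0) (nat_lit 2462958128304)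 (nat_lit 168) (nat_lit 5005424142225) (nat_lit 252) (nat_lit 1051836947332) (nat_lit 66) (nat_lit 5) (nat_lit 68) (nat_lit 5) (nat_lit 69) (nat_lit 5) (nat_lit 469) (nat_lit 447) (nat_lit 164)) (XT.lf (nat_lit 0) (nat_lit 2153478099188) (nat_lit 336) (nat_lit 6588871784040) (nat_lit 84) (nat_lit 192442913286) (nat_lit 62) (nat_lit 5) (nat_lit 66) (nat_lit 5) (nat_lit 63) (nat_lit 5) (nat_lit 470) (nat_lit 447) (nat_lit 163)))) (XT.nd (nat_lit 188) (nat_lit 336) (nat_lit 0) (XT.nd (nat_lit 94) (nat_lit 252) (nat_lit 0) (XT.lf (nat_lit 0) (nat_lit 2227842598023) (nat_lit 168) (nat_lit 3577443943879) (nat_lit 252) (nat_lit 3565037586357) (nat_lit 60) (nat_lit 5) (nat_lit 62) (nat_lit 5) (nat_lit 63) (nat_lit 5) (nat_lit 471) (nat_lit 447) (nat_lit 162)) (XT.lf (nat_lit 0) (nat_lit 96491257682) (nat_lit 252) (nat_lit 7646047371565) (nat_lit 84) (nat_lit 2088979616959)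 (nat_lit 57) (nat_lit 5) (nat_lit 60) (nat_lit 5) (nat_lit 58) (nat_lit 5) (nat_lit 472) (nat_lit 447) (nat_lit 161))) (XT.nd (nat_lit 94) (nat_lit 168) (nat_lit 0) (XT.lf (nat_lit 0) (nat_lit 2137258876199) (nat_lit 168) (nat_lit 2010599679151) (nat_lit 252) (nat_lit 6167736291425) (nat_lit 55) (nat_lit 5) (nat_lit 57) (nat_lit 5) (nat_lit 58) (nat_lit 5) (nat_lit 473) (nat_lit 447) (nat_lit 160)) (XT.lf (nat_lit 0) (nat_lit 2145763945323) (nat_lit 168) (nat_lit 6611705187459) (nat_lit 252) (nat_lit 2069221747811) (nat_lit 53) (nat_lit 5) (nat_lit 55) (nat_lit 5) (nat_lit 56) (nat_lit 5) (nat_lit 474) (nat_lit 447) (nat_lit 159)))))) (XT.nd (nat_lit 658) (nat_lit 1260) (nat_lit 0) (XT.nd (nat_lit 282) (nat_lit 588) (nat_lit 0) (XT.nd (nat_lit 94) (nat_lit 336) (nat_lit 0) (XT.lf (nat_lit 0) (nat_lit 2214111553654) (nat_lit 168) (nat_lit 280885755610) (nat_lit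 252) (nat_lit 8871173801402) (nat_lit 50) (nat_lit 5) (nat_lit 52) (nat_lit 5) (nat_lit 53) (nat_lit 5) (nat_lit 475) (nat_lit 447) (nat_lit 158)) (XT.nd (nat_lit 94) (nat_lit 168) (nat_lit 0) (XT.lf (nat_lit 0) (nat_lit 2282828459243) (nat_lit 168) (nat_lit 5361699387480) (nat_lit 252) (nat_lit 4287952358708) (nat_lit 48) (nat_lit 5) (nat_lit 50) (nat_lit 5) (nat_lit 51) (nat_lit 5) (nat_lit 476) (nat_lit 447) (nat_lit 157)) (XT.lf (nat_lit 0) (nat_lit 871897748296) (nat_lit 168) (nat_lit 10073829360753) (nat_lit 84) (nat_lit 1586292355096) (nat_lit 46) (nat_lit 5) (nat_lit 48) (nat_lit 5) (nat_lit 47) (nat_lit 5) (nat_lit 477) (nat_lit 447) (nat_lit 156)))) (XT.nd (nat_lit 188) (nat_lit 336) (nat_lit 0) (XT.nd (nat_lit 94) (nat_lit 84) (nat_lit 0) (XT.lf (nat_lit 0) (nat_lit 2626733457552) (nat_lit 168) (nat_lit 3971846861268) (nat_lit 252) (nat_lit 6562213158779)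 (nat_lit 44) (nat_lit 5) (nat_lit 46) (nat_lit 5) (nat_lit 47) (nat_lit 5) (nat_lit 478) (nat_lit 447) (nat_lit 155)) (XT.lf (nat_lit 0) (nat_lit 2906549383664) (nat_lit 84) (nat_lit 10156164515252) (nat_lit 168) (nat_lit 763189693017) (nat_lit 43) (nat_lit 5) (nat_lit 44) (nat_lit 5) (nat_lit 45) (nat_lit 4) (nat_lit 479) (nat_lit 447) (nat_lit 154))) (XT.nd (nat_lit 94) (nat_lit 84) (nat_lit 0) (XT.lf (nat_lit 0) (nat_lit 3210434352396) (nat_lit 168) (nat_lit 2416895910096) (nat_lit 252) (nat_lit 8897418865988) (nat_lit 40) (nat_lit 5) (nat_lit 42) (nat_lit 5) (nat_lit 43) (nat_lit 5) (nat_lit 480) (nat_lit 447) (nat_lit 153)) (XT.lf (nat_lit 0) (nat_lit 3596913790247) (nat_lit 84) (nat_lit 9248044904026) (nat_lit 168) (nat_lit 2416787781904) (nat_lit 39) (nat_lit 5) (nat_lit 40) (nat_lit 5) (nat_lit 41) (nat_lit 4) (nat_lit 481) (nat_lit 447) (nat_lit 152)))))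 (XT.nd (nat_lit 376) (nat_lit 588) (nat_lit 0) (XT.nd (nat_lit 188) (nat_lit 336) (nat_lit 0) (XT.nd (nat_lit 94) (nat_lit 84) (nat_lit 0) (XT.lf (nat_lit 0) (nat_lit 4072025531446) (nat_lit 168) (nat_lit 668254265125) (nat_lit 252) (nat_lit 11298614291429) (nat_lit 36) (nat_lit 5) (nat_lit 38) (nat_lit 5) (nat_lit 39) (nat_lit 5) (nat_lit 482) (nat_lit 447) (nat_lit 151)) (XT.lf (nat_lit 0) (nat_lit 4584746394761) (nat_lit 84) (nat_lit 8213969167589) (nat_lit 168) (nat_lit 4056843210213) (nat_lit 35) (nat_lit 5) (nat_lit 36) (nat_lit 5) (nat_lit 37) (nat_lit 4) (nat_lit 483) (nat_lit 447) (nat_lit 150))) (XT.nd (nat_lit 94) (nat_lit 84) (nat_lit 0) (XT.lf (nat_lit 0) (nat_lit 3969379471445) (nat_lit 252) (nat_lit 12484315424724) (nat_lit 84) (nat_lit 1264643693459) (nat_lit 32) (nat_lit 5) (nat_lit 35) (nat_lit 5) (nat_lit 33) (nat_lit 4) (nat_lit 484) (nat_lit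 447) (nat_lit 149)) (XT.lf (nat_lit 0) (nat_lit 5916945805774) (nat_lit 84) (nat_lit 7028658656240) (nat_lit 168) (nat_lit 5678709222787) (nat_lit 31) (nat_lit 5) (nat_lit 32) (nat_lit 5) (nat_lit 33) (nat_lit 4) (nat_lit 485) (nat_lit 447) (nat_lit 148)))) (XT.nd (nat_lit 188) (nat_lit 252) (nat_lit 0) (XT.nd (nat_lit 94) (nat_lit 84) (nat_lit 0) (XT.lf (nat_lit 0) (nat_lit 3322659394775) (nat_lit 252) (nat_lit 12828113327862) (nat_lit 84) (nat_lit 3430487793507) (nat_lit 28) (nat_lit 5) (nat_lit 31) (nat_lit 5) (nat_lit 29) (nat_lit 4) (nat_lit 486) (nat_lit 447) (nat_lit 147)) (XT.lf (nat_lit 0) (nat_lit 7647452117490) (nat_lit 84) (nat_lit 5663287982402) (nat_lit 168) (nat_lit 7276090469052) (nat_lit 27) (nat_lit 5) (nat_lit 28) (nat_lit 5) (nat_lit 29) (nat_lit 4) (nat_lit 487) (nat_lit 447) (nat_lit 146))) (XT.nd (nat_lit 94) (nat_lit 84) (nat_lit 0)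 (XT.lf (nat_lit 0) (nat_lit 2806894015069) (nat_lit 168) (nat_lit 12950214971408) (nat_lit 84) (nat_lit 5890869730901) (nat_lit 25) (nat_lit 5) (nat_lit 27) (nat_lit 5) (nat_lit 26) (nat_lit 4) (nat_lit 488) (nat_lit 447) (nat_lit 145)) (XT.lf (nat_lit 0) (nat_lit 9838196576869) (nat_lit 84) (nat_lit 4084995754487) (nat_lit 168) (nat_lit 8840782685739) (nat_lit 24) (nat_lit 5) (nat_lit 25) (nat_lit 5) (nat_lit 26) (nat_lit 4) (nat_lit 489) (nat_lit 447) (nat_lit 144))))))))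
noncomputable def xc239 : XT := (XT.nd (nat_lit 66082) (nat_lit 0) (nat_lit 252) (XT.nd (nat_lit 64766) (nat_lit 0) (nat_lit 3696) (XT.nd (nat_lit 64108) (nat_lit 0) (nat_lit 7812) (XT.nd (nat_lit 282) (nat_lit 84) (nat_lit 0) (XT.nd (nat_lit 94) (nat_lit 252) (nat_lit 0) (XT.lf (nat_lit 0) (nat_lit 2442417728900) (nat_lit 168) (nat_lit 12806708134340) (nat_lit 84) (nat_lit 8691315865969) (nat_lit 22) (nat_lit 5) (nat_lit 24) (nat_lit 5) (nat_lit 23) (nat_lit 4) (nat_lit 490) (nat_lit 447) (nat_lit 143)) (XT.nd (nat_lit 94) (nat_lit 168) (nat_lit 0) (XT.lf (nat_lit 0) (nat_lit 12560174799589) (nat_lit 84) (nat_lit 2256332165419) (nat_lit 168) (nat_lit 10362373732678) (nat_lit 21) (nat_lit 5) (nat_lit 22) (nat_lit 5) (nat_lit 23) (nat_lit 4) (nat_lit 491) (nat_lit 447) (nat_lit 142)) (XT.lf (nat_lit 0) (nat_lit 2253127512143) (nat_lit 168) (nat_lit 12346483341784)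 (nat_lit 84) (nat_lit 11883371771076) (nat_lit 19) (nat_lit 5) (nat_lit 21) (nat_lit 5) (nat_lit 20) (nat_lit 4) (nat_lit 492) (nat_lit 447) (nat_lit 141)))) (XT.nd (nat_lit 63638) (nat_lit 0) (nat_lit 9324) (XT.nd (nat_lit 63544) (nat_lit 0) (nat_lit 9240) (XT.lf (nat_lit 0) (nat_lit 15894659059121) (nat_lit 84) (nat_lit 134635477890) (nat_lit 168) (nat_lit 11827900781587) (nat_lit 18) (nat_lit 5) (nat_lit 19) (nat_lit 5) (nat_lit 20) (nat_lit 4) (nat_lit 493) (nat_lit 447) (nat_lit 140)) (XT.lf (nat_lit 0) (nat_lit 833412975600) (nat_lit 924) (nat_lit 469396858806) (nat_lit 924) (nat_lit 469396858806) (nat_lit 128) (nat_lit 3) (nat_lit 139) (nat_lit 3) (nat_lit 139) (nat_lit 5) (nat_lit 448) (nat_lit 448) (nat_lit 184))) (XT.nd (nat_lit 94) (nat_lit 0) (nat_lit 0) (XT.lf (nat_lit 0) (nat_lit 1767141648910) (nat_lit 840) (nat_lit 1728258732059) (nat_lit 924)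 (nat_lit 189107407927) (nat_lit 129) (nat_lit 5) (nat_lit 139) (nat_lit 5) (nat_lit 140) (nat_lit 5) (nat_lit 449) (nat_lit 448) (nat_lit 183)) (XT.lf (nat_lit 84) (nat_lit 1278131796398) (nat_lit 0) (nat_lit 677862797652) (nat_lit 924) (nat_lit 1875789549937) (nat_lit 130) (nat_lit 5) (nat_lit 129) (nat_lit 5) (nat_lit 140) (nat_lit 5) (nat_lit 450) (nat_lit 448) (nat_lit 182))))) (XT.nd (nat_lit 282) (nat_lit 1596) (nat_lit 0) (XT.nd (nat_lit 94) (nat_lit 0) (nat_lit 84) (XT.lf (nat_lit 84) (nat_lit 578508648629) (nat_lit 0) (nat_lit 1658003438351) (nat_lit 924) (nat_lit 1750502704897) (nat_lit 131) (nat_lit 5) (nat_lit 130) (nat_lit 5) (nat_lit 141) (nat_lit 5) (nat_lit 451) (nat_lit 448) (nat_lit 181)) (XT.nd (nat_lit 94) (nat_lit 0) (nat_lit 84) (XT.lf (nat_lit 0) (nat_lit 2617766741543) (nat_lit 840) (nat_lit 133819903700) (nat_lit 924) (nat_lit 1399162458245)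 (nat_lit 131) (nat_lit 5) (nat_lit 141) (nat_lit 5) (nat_lit 142) (nat_lit 5) (nat_lit 452) (nat_lit 448) (nat_lit 180)) (XT.lf (nat_lit 0) (nat_lit 3117760295976) (nat_lit 840) (nat_lit 842837391956) (nat_lit 924) (nat_lit 362572545720) (nat_lit 132) (nat_lit 5) (nat_lit 142) (nat_lit 5) (nat_lit 143) (nat_lit 5) (nat_lit 453) (nat_lit 448) (nat_lit 179)))) (XT.nd (nat_lit 188) (nat_lit 1008) (nat_lit 0) (XT.nd (nat_lit 94) (nat_lit 756) (nat_lit 0) (XT.lf (nat_lit 84) (nat_lit 2926354601916) (nat_lit 0) (nat_lit 825853376264) (nat_lit 924) (nat_lit 752454343879) (nat_lit 133) (nat_lit 5) (nat_lit 132) (nat_lit 5) (nat_lit 143) (nat_lit 5) (nat_lit 454) (nat_lit 448) (nat_lit 178)) (XT.lf (nat_lit 0) (nat_lit 2362655118679) (nat_lit 840) (nat_lit 2166530020065) (nat_lit 924) (nat_lit 166899955605) (nat_lit 123) (nat_lit 5) (nat_lit 133) (nat_lit 5) (nat_lit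 134) (nat_lit 5) (nat_lit 455) (nat_lit 448) (nat_lit 177))) (XT.nd (nat_lit 94) (nat_lit 420) (nat_lit 0) (XT.lf (nat_lit 0) (nat_lit 540860518642) (nat_lit 588) (nat_lit 3108983024449) (nat_lit 84) (nat_lit 1248101728148) (nat_lit 116) (nat_lit 5) (nat_lit 123) (nat_lit 5) (nat_lit 117) (nat_lit 5) (nat_lit 456) (nat_lit 448) (nat_lit 176)) (XT.lf (nat_lit 0) (nat_lit 1209240988111) (nat_lit 420) (nat_lit 186956134960) (nat_lit 504) (nat_lit 3714780203283) (nat_lit 111) (nat_lit 5) (nat_lit 116) (nat_lit 5) (nat_lit 117) (nat_lit 5) (nat_lit 457) (nat_lit 448) (nat_lit 175)))))) (XT.nd (nat_lit 658) (nat_lit 2016) (nat_lit 0) (XT.nd (nat_lit 282) (nat_lit 1344) (nat_lit 0) (XT.nd (nat_lit 94) (nat_lit 336) (nat_lit 0) (XT.lf (nat_lit 0) (nat_lit 608723008686) (nat_lit 420) (nat_lit 1831257506554) (nat_lit 504) (nat_lit 2895070437668) (nat_lit 106) (nat_lit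 5) (nat_lit 111) (nat_lit 5) (nat_lit 112) (nat_lit 5) (nat_lit 458) (nat_lit 448) (nat_lit 174)) (XT.nd (nat_lit 94) (nat_lit 0) (nat_lit 0) (XT.lf (nat_lit 0) (nat_lit 12104147799) (nat_lit 336) (nat_lit 3657297066269) (nat_lit 420) (nat_lit 1902542523755) (nat_lit 102) (nat_lit 5) (nat_lit 106) (nat_lit 5) (nat_lit 107) (nat_lit 5) (nat_lit 459) (nat_lit 448) (nat_lit 173)) (XT.lf (nat_lit 0) (nat_lit 5112330451700) (nat_lit 420) (nat_lit 558110313184) (nat_lit 84) (nat_lit 151589436502) (nat_lit 102) (nat_lit 5) (nat_lit 107) (nat_lit 5) (nat_lit 103) (nat_lit 5) (nat_lit 460) (nat_lit 448) (nat_lit 172)))) (XT.nd (nat_lit 188) (nat_lit 588) (nat_lit 0) (XT.nd (nat_lit 94) (nat_lit 336) (nat_lit 0) (XT.lf (nat_lit 0) (nat_lit 701127145160) (nat_lit 420) (nat_lit 1156286084334) (nat_lit 84) (nat_lit 4227204968916) (nat_lit 97) (nat_lit 5) (nat_lit 102)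 (nat_lit 5) (nat_lit 98) (nat_lit 5) (nat_lit 461) (nat_lit 448) (nat_lit 171)) (XT.lf (nat_lit 0) (nat_lit 2319491131853) (nat_lit 420) (nat_lit 1757987630503) (nat_lit 84) (nat_lit 2284175983613) (nat_lit 93) (nat_lit 5) (nat_lit 98) (nat_lit 5) (nat_lit 94) (nat_lit 5) (nat_lit 462) (nat_lit 448) (nat_lit 170))) (XT.nd (nat_lit 94) (nat_lit 252) (nat_lit 0) (XT.lf (nat_lit 0) (nat_lit 4188405433174) (nat_lit 420) (nat_lit 2344633521285) (nat_lit 84) (nat_lit 121761203090) (nat_lit 89) (nat_lit 5) (nat_lit 94) (nat_lit 5) (nat_lit 90) (nat_lit 5) (nat_lit 463) (nat_lit 448) (nat_lit 169)) (XT.lf (nat_lit 0) (nat_lit 4015964552629) (nat_lit 252) (nat_lit 2353447554188) (nat_lit 336) (nat_lit 593856133828) (nat_lit 86) (nat_lit 5) (nat_lit 89) (nat_lit 5) (nat_lit 90) (nat_lit 5) (nat_lit 464) (nat_lit 448) (nat_lit 168))))) (XT.nd (nat_lit 282) (nat_lit 1092)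 (nat_lit 0) (XT.nd (nat_lit 94) (nat_lit 504) (nat_lit 0) (XT.lf (nat_lit 0) (nat_lit 1518919852198) (nat_lit 420) (nat_lit 3553483942742) (nat_lit 84) (nat_lit 2216087103978) (nat_lit 81) (nat_lit 5) (nat_lit 86) (nat_lit 5) (nat_lit 82) (nat_lit 5) (nat_lit 465) (nat_lit 448) (nat_lit 167)) (XT.nd (nat_lit 94) (nat_lit 252) (nat_lit 0) (XT.lf (nat_lit 0) (nat_lit 3480855914159) (nat_lit 252) (nat_lit 445545440180) (nat_lit 336) (nat_lit 3705518785023) (nat_lit 78) (nat_lit 5) (nat_lit 81) (nat_lit 5) (nat_lit 82) (nat_lit 5) (nat_lit 466) (nat_lit 448) (nat_lit 166)) (XT.lf (nat_lit 0) (nat_lit 3236624352737) (nat_lit 252) (nat_lit 3474365013109) (nat_lit 336) (nat_lit 1282608953737) (nat_lit 75) (nat_lit 5) (nat_lit 78) (nat_lit 5) (nat_lit 79) (nat_lit 5) (nat_lit 467) (nat_lit 448) (nat_lit 165)))) (XT.nd (nat_lit 188) (nat_lit 504) (nat_lit 0) (XT.nd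 (nat_lit 94) (nat_lit 252) (nat_lit 0) (XT.lf (nat_lit 0) (nat_lit 1445540848707) (nat_lit 336) (nat_lit 5351109646700) (nat_lit 84) (nat_lit 1578813390857) (nat_lit 71) (nat_lit 5) (nat_lit 75) (nat_lit 5) (nat_lit 72) (nat_lit 5) (nat_lit 468) (nat_lit 448) (nat_lit 164)) (XT.lf (nat_lit 0) (nat_lit 2823110665154) (nat_lit 252) (nat_lit 1711378997776) (nat_lit 336) (nat_lit 4242963546660) (nat_lit 68) (nat_lit 5) (nat_lit 71) (nat_lit 5) (nat_lit 72) (nat_lit 5) (nat_lit 469) (nat_lit 448) (nat_lit 163))) (XT.nd (nat_lit 94) (nat_lit 336) (nat_lit 0) (XT.lf (nat_lit 0) (nat_lit 2659994786761) (nat_lit 168) (nat_lit 5405858070614) (nat_lit 252) (nat_lit 1135983897654) (nat_lit 66) (nat_lit 5) (nat_lit 68) (nat_lit 5) (nat_lit 69) (nat_lit 5) (nat_lit 470) (nat_lit 448) (nat_lit 162)) (XT.lf (nat_lit 0) (nat_lit 2325756352192) (nat_lit 336) (nat_lit 7115981518555)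 (nat_lit 84) (nat_lit 207838349235) (nat_lit 62) (nat_lit 5) (nat_lit 66) (nat_lit 5) (nat_lit 63) (nat_lit 5) (nat_lit 471) (nat_lit 448) (nat_lit 161))))))) (XT.nd (nat_lit 1316) (nat_lit 924) (nat_lit 0) (XT.nd (nat_lit 658) (nat_lit 1176) (nat_lit 0) (XT.nd (nat_lit 282) (nat_lit 756) (nat_lit 0) (XT.nd (nat_lit 94) (nat_lit 420) (nat_lit 0) (XT.lf (nat_lit 0) (nat_lit 2406070013717) (nat_lit 168) (nat_lit 3863639456354) (nat_lit 252) (nat_lit 3850240588209) (nat_lit 60) (nat_lit 5) (nat_lit 62) (nat_lit 5) (nat_lit 63) (nat_lit 5) (nat_lit 472) (nat_lit 448) (nat_lit 160)) (XT.nd (nat_lit 94) (nat_lit 168) (nat_lit 0) (XT.lf (nat_lit 0) (nat_lit 104210562996) (nat_lit 252) (nat_lit 8257731153439) (nat_lit 84) (nat_lit 2256097989232) (nat_lit 57) (nat_lit 5) (nat_lit 60) (nat_lit 5) (nat_lit 58) (nat_lit 5) (nat_lit 473) (nat_lit 448) (nat_lit 159)) (XT.lf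 (nat_lit 0) (nat_lit 2308239593804) (nat_lit 168) (nat_lit 2171447650442) (nat_lit 252) (nat_lit 6661155190047) (nat_lit 55) (nat_lit 5) (nat_lit 57) (nat_lit 5) (nat_lit 58) (nat_lit 5) (nat_lit 474) (nat_lit 448) (nat_lit 158)))) (XT.nd (nat_lit 188) (nat_lit 336) (nat_lit 0) (XT.nd (nat_lit 94) (nat_lit 252) (nat_lit 0) (XT.lf (nat_lit 0) (nat_lit 2317425068301) (nat_lit 168) (nat_lit 7140641599400) (nat_lit 252) (nat_lit 2234759483124) (nat_lit 53) (nat_lit 5) (nat_lit 55) (nat_lit 5) (nat_lit 56) (nat_lit 5) (nat_lit 475) (nat_lit 448) (nat_lit 157)) (XT.lf (nat_lit 0) (nat_lit 2391240485117) (nat_lit 168) (nat_lit 303356613044) (nat_lit 252) (nat_lit 9580867701151) (nat_lit 50) (nat_lit 5) (nat_lit 52) (nat_lit 5) (nat_lit 53) (nat_lit 5) (nat_lit 476) (nat_lit 448) (nat_lit 156))) (XT.nd (nat_lit 94) (nat_lit 168) (nat_lit 0) (XT.lf (nat_lit 0) (nat_lit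 2465454742996) (nat_lit 168) (nat_lit 5790635335466) (nat_lit 252) (nat_lit 4630988543204) (nat_lit 48) (nat_lit 5) (nat_lit 50) (nat_lit 5) (nat_lit 51) (nat_lit 5) (nat_lit 477) (nat_lit 448) (nat_lit 155)) (XT.lf (nat_lit 0) (nat_lit 941649572077) (nat_lit 168) (nat_lit 10879735702630) (nat_lit 84) (nat_lit 1713195746374) (nat_lit 46) (nat_lit 5) (nat_lit 48) (nat_lit 5) (nat_lit 47) (nat_lit 5) (nat_lit 478) (nat_lit 448) (nat_lit 154))))) (XT.nd (nat_lit 282) (nat_lit 672) (nat_lit 0) (XT.nd (nat_lit 94) (nat_lit 336) (nat_lit 0) (XT.lf (nat_lit 0) (nat_lit 2836872140836) (nat_lit 168) (nat_lit 4289594607221) (nat_lit 252) (nat_lit 7087190207563) (nat_lit 44) (nat_lit 5) (nat_lit 46) (nat_lit 5) (nat_lit 47) (nat_lit 5) (nat_lit 479) (nat_lit 448) (nat_lit 153)) (XT.nd (nat_lit 94) (nat_lit 252) (nat_lit 0) (XT.lf (nat_lit 0) (nat_lit 3139073340881) (nat_lit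 84) (nat_lit 10968657673548) (nat_lit 168) (nat_lit 824244864678) (nat_lit 43) (nat_lit 5) (nat_lit 44) (nat_lit 5) (nat_lit 45) (nat_lit 4) (nat_lit 480) (nat_lit 448) (nat_lit 152)) (XT.lf (nat_lit 0) (nat_lit 3467269106944) (nat_lit 168) (nat_lit 2610247580035) (nat_lit 252) (nat_lit 9609212371605) (nat_lit 40) (nat_lit 5) (nat_lit 42) (nat_lit 5) (nat_lit 43) (nat_lit 5) (nat_lit 481) (nat_lit 448) (nat_lit 151)))) (XT.nd (nat_lit 188) (nat_lit 336) (nat_lit 0) (XT.nd (nat_lit 94) (nat_lit 252) (nat_lit 0) (XT.lf (nat_lit 0) (nat_lit 3884666899670) (nat_lit 84) (nat_lit 9987888493512) (nat_lit 168) (nat_lit 2610130800921) (nat_lit 39) (nat_lit 5) (nat_lit 40) (nat_lit 5) (nat_lit 41) (nat_lit 4) (nat_lit 482) (nat_lit 448) (nat_lit 150)) (XT.lf (nat_lit 0) (nat_lit 4397787580004) (nat_lit 168) (nat_lit 721714603555) (nat_lit 252) (nat_lit 12202503431317)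 (nat_lit 36) (nat_lit 5) (nat_lit 38) (nat_lit 5) (nat_lit 39) (nat_lit 5) (nat_lit 483) (nat_lit 448) (nat_lit 149))) (XT.nd (nat_lit 94) (nat_lit 252) (nat_lit 0) (XT.lf (nat_lit 0) (nat_lit 4951526112236) (nat_lit 84) (nat_lit 8871086698255) (nat_lit 168) (nat_lit 4381390663718) (nat_lit 35) (nat_lit 5) (nat_lit 36) (nat_lit 5) (nat_lit 37) (nat_lit 4) (nat_lit 484) (nat_lit 448) (nat_lit 148)) (XT.lf (nat_lit 0) (nat_lit 4286929832261) (nat_lit 252) (nat_lit 13483060652850) (nat_lit 84) (nat_lit 1365815191533) (nat_lit 32) (nat_lit 5) (nat_lit 35) (nat_lit 5) (nat_lit 33) (nat_lit 4) (nat_lit 485) (nat_lit 448) (nat_lit 147)))))) (XT.nd (nat_lit 64296) (nat_lit 0) (nat_lit 8568) (XT.nd (nat_lit 282) (nat_lit 504) (nat_lit 0) (XT.nd (nat_lit 94) (nat_lit 336) (nat_lit 0) (XT.lf (nat_lit 0) (nat_lit 6390301475832) (nat_lit 84) (nat_lit 7590951346100) (nat_lit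 168) (nat_lit 6133005957504) (nat_lit 31) (nat_lit 5) (nat_lit 32) (nat_lit 5) (nat_lit 33) (nat_lit 4) (nat_lit 486) (nat_lit 448) (nat_lit 146)) (XT.nd (nat_lit 94) (nat_lit 84) (nat_lit 0) (XT.lf (nat_lit 0) (nat_lit 3588472149266) (nat_lit 252) (nat_lit 13854362388540) (nat_lit 84) (nat_lit 3704926819485) (nat_lit 28) (nat_lit 5) (nat_lit 31) (nat_lit 5) (nat_lit 29) (nat_lit 4) (nat_lit 487) (nat_lit 448) (nat_lit 145)) (XT.lf (nat_lit 0) (nat_lit 8259248292200) (nat_lit 84) (nat_lit 6116351018459) (nat_lit 168) (nat_lit 7858177703661) (nat_lit 27) (nat_lit 5) (nat_lit 28) (nat_lit 5) (nat_lit 29) (nat_lit 4) (nat_lit 488) (nat_lit 448) (nat_lit 144)))) (XT.nd (nat_lit 188) (nat_lit 252) (nat_lit 0) (XT.nd (nat_lit 94) (nat_lit 84) (nat_lit 0) (XT.lf (nat_lit 0) (nat_lit 3031445539006) (nat_lit 168) (nat_lit 13986232163857) (nat_lit 84) (nat_lit 6362139311769)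 (nat_lit 25) (nat_lit 5) (nat_lit 27) (nat_lit 5) (nat_lit 26) (nat_lit 4) (nat_lit 489) (nat_lit 448) (nat_lit 143)) (XT.lf (nat_lit 0) (nat_lit 10625252308056) (nat_lit 84) (nat_lit 4411795412418) (nat_lit 168) (nat_lit 9548045297859) (nat_lit 24) (nat_lit 5) (nat_lit 25) (nat_lit 5) (nat_lit 26) (nat_lit 4) (nat_lit 490) (nat_lit 448) (nat_lit 142))) (XT.nd (nat_lit 94) (nat_lit 84) (nat_lit 0) (XT.lf (nat_lit 0) (nat_lit 2637811149782) (nat_lit 168) (nat_lit 13831244780094) (nat_lit 84) (nat_lit 9386621137542) (nat_lit 22) (nat_lit 5) (nat_lit 24) (nat_lit 5) (nat_lit 23) (nat_lit 4) (nat_lit 491) (nat_lit 448) (nat_lit 141)) (XT.lf (nat_lit 0) (nat_lit 13564988788329) (nat_lit 84) (nat_lit 2436838736331) (nat_lit 168) (nat_lit 11191363628718) (nat_lit 21) (nat_lit 5) (nat_lit 22) (nat_lit 5) (nat_lit 23) (nat_lit 4) (nat_lit 492) (nat_lit 448) (nat_lit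 140))))) (XT.nd (nat_lit 376) (nat_lit 420) (nat_lit 0) (XT.nd (nat_lit 188) (nat_lit 0) (nat_lit 84) (XT.nd (nat_lit 94) (nat_lit 0) (nat_lit 84) (XT.lf (nat_lit 0) (nat_lit 900086021514) (nat_lit 924) (nat_lit 506948603380) (nat_lit 924) (nat_lit 506948603380) (nat_lit 128) (nat_lit 3) (nat_lit 139) (nat_lit 3) (nat_lit 139) (nat_lit 5) (nat_lit 449) (nat_lit 449) (nat_lit 182)) (XT.lf (nat_lit 0) (nat_lit 1908512995408) (nat_lit 840) (nat_lit 1866519421883) (nat_lit 924) (nat_lit 204235993989) (nat_lit 129) (nat_lit 5) (nat_lit 139) (nat_lit 5) (nat_lit 140) (nat_lit 5) (nat_lit 450) (nat_lit 449) (nat_lit 181))) (XT.nd (nat_lit 94) (nat_lit 0) (nat_lit 84) (XT.lf (nat_lit 84) (nat_lit 1380382348471) (nat_lit 0) (nat_lit 732091826738) (nat_lit 924) (nat_lit 2025852699616) (nat_lit 130) (nat_lit 5) (nat_lit 129) (nat_lit 5) (nat_lit 140) (nat_lit 5) (nat_lit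 451) (nat_lit 449) (nat_lit 180)) (XT.lf (nat_lit 84) (nat_lit 624789349248) (nat_lit 0) (nat_lit 1790643717375) (nat_lit 924) (nat_lit 1890542907970) (nat_lit 131) (nat_lit 5) (nat_lit 130) (nat_lit 5) (nat_lit 141) (nat_lit 5) (nat_lit 452) (nat_lit 449) (nat_lit 179)))) (XT.nd (nat_lit 188) (nat_lit 672) (nat_lit 0) (XT.nd (nat_lit 94) (nat_lit 0) (nat_lit 84) (XT.lf (nat_lit 0) (nat_lit 2827188092555) (nat_lit 840) (nat_lit 144525487269) (nat_lit 924) (nat_lit 1511095451359) (nat_lit 131) (nat_lit 5) (nat_lit 141) (nat_lit 5) (nat_lit 142) (nat_lit 5) (nat_lit 453) (nat_lit 449) (nat_lit 178)) (XT.lf (nat_lit 0) (nat_lit 3367181130566) (nat_lit 840) (nat_lit 910264374377) (nat_lit 924) (nat_lit 391578346856) (nat_lit 132) (nat_lit 5) (nat_lit 142) (nat_lit 5) (nat_lit 143) (nat_lit 5) (nat_lit 454) (nat_lit 449) (nat_lit 177))) (XT.nd (nat_lit 94) (nat_lit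 756) (nat_lit 0) (XT.lf (nat_lit 84) (nat_lit 3160462978617) (nat_lit 0) (nat_lit 891921648054) (nat_lit 924) (nat_lit 812650680641) (nat_lit 133) (nat_lit 5) (nat_lit 132) (nat_lit 5) (nat_lit 143) (nat_lit 5) (nat_lit 455) (nat_lit 449) (nat_lit 176)) (XT.lf (nat_lit 0) (nat_lit 2551667536864) (nat_lit 840) (nat_lit 2339852422569) (nat_lit 924) (nat_lit 180251941984) (nat_lit 123) (nat_lit 5) (nat_lit 133) (nat_lit 5) (nat_lit 134) (nat_lit 5) (nat_lit 456) (nat_lit 449) (nat_lit 175))))))))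
noncomputable def xc240 : XT := (XT.nd (nat_lit 2632) (nat_lit 1176) (nat_lit 0) (XT.nd (nat_lit 1316) (nat_lit 2688) (nat_lit 0) (XT.nd (nat_lit 658) (nat_lit 2100) (nat_lit 0) (XT.nd (nat_lit 282) (nat_lit 1092) (nat_lit 0) (XT.nd (nat_lit 94) (nat_lit 840) (nat_lit 0) (XT.lf (nat_lit 0) (nat_lit 584129369285) (nat_lit 588) (nat_lit 3357701657317) (nat_lit 84) (nat_lit 1347949865879) (nat_lit 116) (nat_lit 5) (nat_lit 123) (nat_lit 5) (nat_lit 117) (nat_lit 5) (nat_lit 457) (nat_lit 449) (nat_lit 174)) (XT.nd (nat_lit 94) (nat_lit 420) (nat_lit 0) (XT.lf (nat_lit 0) (nat_lit 1305980275852) (nat_lit 420) (nat_lit 201912625673) (nat_lit 504) (nat_lit 4011962610506) (nat_lit 111) (nat_lit 5) (nat_lit 116) (nat_lit 5) (nat_lit 117) (nat_lit 5) (nat_lit 458) (nat_lit 449) (nat_lit 173)) (XT.lf (nat_lit 0) (nat_lit 657420858107) (nat_lit 420) (nat_lit 1977758106462)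 (nat_lit 504) (nat_lit 3126676064167) (nat_lit 106) (nat_lit 5) (nat_lit 111) (nat_lit 5) (nat_lit 112) (nat_lit 5) (nat_lit 459) (nat_lit 449) (nat_lit 172)))) (XT.nd (nat_lit 188) (nat_lit 756) (nat_lit 0) (XT.nd (nat_lit 94) (nat_lit 0) (nat_lit 0) (XT.lf (nat_lit 0) (nat_lit 13072488348) (nat_lit 336) (nat_lit 3949880830499) (nat_lit 420) (nat_lit 2054745917619) (nat_lit 102) (nat_lit 5) (nat_lit 106) (nat_lit 5) (nat_lit 107) (nat_lit 5) (nat_lit 460) (nat_lit 449) (nat_lit 171)) (XT.lf (nat_lit 0) (nat_lit 5521316894938) (nat_lit 420) (nat_lit 602759129822) (nat_lit 84) (nat_lit 163716592383) (nat_lit 102) (nat_lit 5) (nat_lit 107) (nat_lit 5) (nat_lit 103) (nat_lit 5) (nat_lit 461) (nat_lit 449) (nat_lit 170))) (XT.nd (nat_lit 94) (nat_lit 336) (nat_lit 0) (XT.lf (nat_lit 0) (nat_lit 757217323584) (nat_lit 420) (nat_lit 1248788962804) (nat_lit 84) (nat_lit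 4565381367555) (nat_lit 97) (nat_lit 5) (nat_lit 102) (nat_lit 5) (nat_lit 98) (nat_lit 5) (nat_lit 462) (nat_lit 449) (nat_lit 169)) (XT.lf (nat_lit 0) (nat_lit 2505050428855) (nat_lit 420) (nat_lit 1898626632728) (nat_lit 84) (nat_lit 2466910063742) (nat_lit 93) (nat_lit 5) (nat_lit 98) (nat_lit 5) (nat_lit 94) (nat_lit 5) (nat_lit 463) (nat_lit 449) (nat_lit 168))))) (XT.nd (nat_lit 282) (nat_lit 1092) (nat_lit 0) (XT.nd (nat_lit 94) (nat_lit 672) (nat_lit 0) (XT.lf (nat_lit 0) (nat_lit 4523477873954) (nat_lit 420) (nat_lit 2532204194852) (nat_lit 84) (nat_lit 131502101041) (nat_lit 89) (nat_lit 5) (nat_lit 94) (nat_lit 5) (nat_lit 90) (nat_lit 5) (nat_lit 464) (nat_lit 449) (nat_lit 167)) (XT.nd (nat_lit 94) (nat_lit 420) (nat_lit 0) (XT.lf (nat_lit 0) (nat_lit 4337241724621) (nat_lit 252) (nat_lit 2541723356534) (nat_lit 336) (nat_lit 641364618451) (nat_lit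 86) (nat_lit 5) (nat_lit 89) (nat_lit 5) (nat_lit 90) (nat_lit 5) (nat_lit 465) (nat_lit 449) (nat_lit 166)) (XT.lf (nat_lit 0) (nat_lit 1640433445978) (nat_lit 420) (nat_lit 3837762650285) (nat_lit 84) (nat_lit 2393374074289) (nat_lit 81) (nat_lit 5) (nat_lit 86) (nat_lit 5) (nat_lit 82) (nat_lit 5) (nat_lit 466) (nat_lit 449) (nat_lit 165)))) (XT.nd (nat_lit 188) (nat_lit 588) (nat_lit 0) (XT.nd (nat_lit 94) (nat_lit 252) (nat_lit 0) (XT.lf (nat_lit 0) (nat_lit 3759324394826) (nat_lit 252) (nat_lit 481189073166) (nat_lit 336) (nat_lit 4001960282253) (nat_lit 78) (nat_lit 5) (nat_lit 81) (nat_lit 5) (nat_lit 82) (nat_lit 5) (nat_lit 467) (nat_lit 449) (nat_lit 164)) (XT.lf (nat_lit 0) (nat_lit 3495554308383) (nat_lit 252) (nat_lit 3752314211791) (nat_lit 336) (nat_lit 1385217664722) (nat_lit 75) (nat_lit 5) (nat_lit 78) (nat_lit 5) (nat_lit 79) (nat_lit 5)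 (nat_lit 468) (nat_lit 449) (nat_lit 163))) (XT.nd (nat_lit 94) (nat_lit 252) (nat_lit 0) (XT.lf (nat_lit 0) (nat_lit 1561184121517) (nat_lit 336) (nat_lit 5779198410962) (nat_lit 84) (nat_lit 1705118464440) (nat_lit 71) (nat_lit 5) (nat_lit 75) (nat_lit 5) (nat_lit 72) (nat_lit 5) (nat_lit 469) (nat_lit 449) (nat_lit 162)) (XT.lf (nat_lit 0) (nat_lit 3048959525516) (nat_lit 252) (nat_lit 1848289315110) (nat_lit 336) (nat_lit 4582400625499) (nat_lit 68) (nat_lit 5) (nat_lit 71) (nat_lit 5) (nat_lit 72) (nat_lit 5) (nat_lit 470) (nat_lit 449) (nat_lit 161)))))) (XT.nd (nat_lit 658) (nat_lit 1176) (nat_lit 0) (XT.nd (nat_lit 282) (nat_lit 840) (nat_lit 0) (XT.nd (nat_lit 94) (nat_lit 504) (nat_lit 0) (XT.lf (nat_lit 0) (nat_lit 2872794376726) (nat_lit 168) (nat_lit 5838326713701) (nat_lit 252) (nat_lit 1226862604781) (nat_lit 66) (nat_lit 5) (nat_lit 68) (nat_lit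 5) (nat_lit 69) (nat_lit 5) (nat_lit 471) (nat_lit 449) (nat_lit 160)) (XT.nd (nat_lit 94) (nat_lit 168) (nat_lit 0) (XT.lf (nat_lit 0) (nat_lit 2511816864714) (nat_lit 336) (nat_lit 7685260033002) (nat_lit 84) (nat_lit 224465419648) (nat_lit 62) (nat_lit 5) (nat_lit 66) (nat_lit 5) (nat_lit 63) (nat_lit 5) (nat_lit 472) (nat_lit 449) (nat_lit 159)) (XT.lf (nat_lit 0) (nat_lit 2598555621546) (nat_lit 168) (nat_lit 4172730610259) (nat_lit 252) (nat_lit 4158259830930) (nat_lit 60) (nat_lit 5) (nat_lit 62) (nat_lit 5) (nat_lit 63) (nat_lit 5) (nat_lit 473) (nat_lit 449) (nat_lit 158)))) (XT.nd (nat_lit 188) (nat_lit 420) (nat_lit 0) (XT.nd (nat_lit 94) (nat_lit 168) (nat_lit 0) (XT.lf (nat_lit 0) (nat_lit 112547412065) (nat_lit 252) (nat_lit 8918349638983) (nat_lit 84) (nat_lit 2436585830872) (nat_lit 57) (nat_lit 5) (nat_lit 60) (nat_lit 5) (nat_lit 58) (nat_lit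 5) (nat_lit 474) (nat_lit 449) (nat_lit 157)) (XT.lf (nat_lit 0) (nat_lit 2492898767747) (nat_lit 168) (nat_lit 2345163459870) (nat_lit 252) (nat_lit 7194047601228) (nat_lit 55) (nat_lit 5) (nat_lit 57) (nat_lit 5) (nat_lit 58) (nat_lit 5) (nat_lit 475) (nat_lit 449) (nat_lit 156))) (XT.nd (nat_lit 94) (nat_lit 252) (nat_lit 0) (XT.lf (nat_lit 0) (nat_lit 2502819080068) (nat_lit 168) (nat_lit 7711892924733) (nat_lit 252) (nat_lit 2413540237907) (nat_lit 53) (nat_lit 5) (nat_lit 55) (nat_lit 5) (nat_lit 56) (nat_lit 5) (nat_lit 476) (nat_lit 449) (nat_lit 155)) (XT.lf (nat_lit 0) (nat_lit 2582539730074) (nat_lit 168) (nat_lit 327625139502) (nat_lit 252) (nat_lit 10347337113503) (nat_lit 50) (nat_lit 5) (nat_lit 52) (nat_lit 5) (nat_lit 53) (nat_lit 5) (nat_lit 477) (nat_lit 449) (nat_lit 154))))) (XT.nd (nat_lit 282) (nat_lit 672) (nat_lit 0) (XT.nd (nat_lit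 94) (nat_lit 336) (nat_lit 0) (XT.lf (nat_lit 0) (nat_lit 2662691128447) (nat_lit 168) (nat_lit 6253886159722) (nat_lit 252) (nat_lit 5001467623060) (nat_lit 48) (nat_lit 5) (nat_lit 50) (nat_lit 5) (nat_lit 51) (nat_lit 5) (nat_lit 478) (nat_lit 449) (nat_lit 153)) (XT.nd (nat_lit 94) (nat_lit 168) (nat_lit 0) (XT.lf (nat_lit 0) (nat_lit 1016981541203) (nat_lit 168) (nat_lit 11750114552852) (nat_lit 84) (nat_lit 1850251408544) (nat_lit 46) (nat_lit 5) (nat_lit 48) (nat_lit 5) (nat_lit 47) (nat_lit 5) (nat_lit 479) (nat_lit 449) (nat_lit 152)) (XT.lf (nat_lit 0) (nat_lit 3063821917831) (nat_lit 168) (nat_lit 4632762173271) (nat_lit 252) (nat_lit 7654165420808) (nat_lit 44) (nat_lit 5) (nat_lit 46) (nat_lit 5) (nat_lit 47) (nat_lit 5) (nat_lit 480) (nat_lit 449) (nat_lit 151)))) (XT.nd (nat_lit 188) (nat_lit 336) (nat_lit 0) (XT.nd (nat_lit 94) (nat_lit 252)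 (nat_lit 0) (XT.lf (nat_lit 0) (nat_lit 3390199213745) (nat_lit 84) (nat_lit 11846150284925) (nat_lit 168) (nat_lit 890184450612) (nat_lit 43) (nat_lit 5) (nat_lit 44) (nat_lit 5) (nat_lit 45) (nat_lit 4) (nat_lit 481) (nat_lit 449) (nat_lit 150)) (XT.lf (nat_lit 0) (nat_lit 3744650640949) (nat_lit 168) (nat_lit 2819067383978) (nat_lit 252) (nat_lit 10377949358194) (nat_lit 40) (nat_lit 5) (nat_lit 42) (nat_lit 5) (nat_lit 43) (nat_lit 5) (nat_lit 482) (nat_lit 449) (nat_lit 149))) (XT.nd (nat_lit 94) (nat_lit 252) (nat_lit 0) (XT.lf (nat_lit 0) (nat_lit 4195440256963) (nat_lit 84) (nat_lit 10786919570560) (nat_lit 168) (nat_lit 2818941261964) (nat_lit 39) (nat_lit 5) (nat_lit 40) (nat_lit 5) (nat_lit 41) (nat_lit 4) (nat_lit 483) (nat_lit 449) (nat_lit 148)) (XT.lf (nat_lit 0) (nat_lit 4749610591585) (nat_lit 168) (nat_lit 779451769457) (nat_lit 252) (nat_lit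 13178703702884) (nat_lit 36) (nat_lit 5) (nat_lit 38) (nat_lit 5) (nat_lit 39) (nat_lit 5) (nat_lit 484) (nat_lit 449) (nat_lit 147))))))) (XT.nd (nat_lit 65048) (nat_lit 0) (nat_lit 4452) (XT.nd (nat_lit 658) (nat_lit 168) (nat_lit 0) (XT.nd (nat_lit 282) (nat_lit 588) (nat_lit 0) (XT.nd (nat_lit 94) (nat_lit 336) (nat_lit 0) (XT.lf (nat_lit 0) (nat_lit 5347648206270) (nat_lit 84) (nat_lit 9580773631766) (nat_lit 168) (nat_lit 4731901913976) (nat_lit 35) (nat_lit 5) (nat_lit 36) (nat_lit 5) (nat_lit 37) (nat_lit 4) (nat_lit 485) (nat_lit 449) (nat_lit 146)) (XT.nd (nat_lit 94) (nat_lit 84) (nat_lit 0) (XT.lf (nat_lit 0) (nat_lit 4629884221499) (nat_lit 252) (nat_lit 14561705500062) (nat_lit 84) (nat_lit 1475080409082) (nat_lit 32) (nat_lit 5) (nat_lit 35) (nat_lit 5) (nat_lit 33) (nat_lit 4) (nat_lit 486) (nat_lit 449) (nat_lit 145)) (XT.lf (nat_lit 0) (nat_lit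 6901525598697) (nat_lit 84) (nat_lit 8198227451525) (nat_lit 168) (nat_lit 6623646431443) (nat_lit 31) (nat_lit 5) (nat_lit 32) (nat_lit 5) (nat_lit 33) (nat_lit 4) (nat_lit 487) (nat_lit 449) (nat_lit 144)))) (XT.nd (nat_lit 188) (nat_lit 252) (nat_lit 0) (XT.nd (nat_lit 94) (nat_lit 84) (nat_lit 0) (XT.lf (nat_lit 0) (nat_lit 3875549923701) (nat_lit 252) (nat_lit 14962711374864) (nat_lit 84) (nat_lit 4001320967185) (nat_lit 28) (nat_lit 5) (nat_lit 31) (nat_lit 5) (nat_lit 29) (nat_lit 4) (nat_lit 488) (nat_lit 449) (nat_lit 143)) (XT.lf (nat_lit 0) (nat_lit 8919988160131) (nat_lit 84) (nat_lit 6605659097763) (nat_lit 168) (nat_lit 8486831917454) (nat_lit 27) (nat_lit 5) (nat_lit 28) (nat_lit 5) (nat_lit 29) (nat_lit 4) (nat_lit 489) (nat_lit 449) (nat_lit 142))) (XT.nd (nat_lit 94) (nat_lit 84) (nat_lit 0) (XT.lf (nat_lit 0) (nat_lit 3273961184470) (nat_lit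 168) (nat_lit 15105130732450) (nat_lit 84) (nat_lit 6871110458766) (nat_lit 25) (nat_lit 5) (nat_lit 27) (nat_lit 5) (nat_lit 26) (nat_lit 4) (nat_lit 490) (nat_lit 449) (nat_lit 141)) (XT.lf (nat_lit 0) (nat_lit 11475272497018) (nat_lit 84) (nat_lit 4764739043330) (nat_lit 168) (nat_lit 10311888919340) (nat_lit 24) (nat_lit 5) (nat_lit 25) (nat_lit 5) (nat_lit 26) (nat_lit 4) (nat_lit 491) (nat_lit 449) (nat_lit 140))))) (XT.nd (nat_lit 64014) (nat_lit 0) (nat_lit 8988) (XT.nd (nat_lit 63826) (nat_lit 0) (nat_lit 8904) (XT.lf (nat_lit 0) (nat_lit 2848836043964) (nat_lit 168) (nat_lit 14937744358226) (nat_lit 84) (nat_lit 10137550830511) (nat_lit 22) (nat_lit 5) (nat_lit 24) (nat_lit 5) (nat_lit 23) (nat_lit 4) (nat_lit 492) (nat_lit 449) (nat_lit 139)) (XT.nd (nat_lit 94) (nat_lit 0) (nat_lit 84) (XT.lf (nat_lit 0) (nat_lit 972092909979) (nat_lit 924) (nat_lit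 547504488110) (nat_lit 924) (nat_lit 547504488110) (nat_lit 128) (nat_lit 3) (nat_lit 139) (nat_lit 3) (nat_lit 139) (nat_lit 5) (nat_lit 450) (nat_lit 450) (nat_lit 180)) (XT.lf (nat_lit 0) (nat_lit 2061194047544) (nat_lit 840) (nat_lit 2015840968140) (nat_lit 924) (nat_lit 220574867873) (nat_lit 129) (nat_lit 5) (nat_lit 139) (nat_lit 5) (nat_lit 140) (nat_lit 5) (nat_lit 451) (nat_lit 450) (nat_lit 179)))) (XT.nd (nat_lit 188) (nat_lit 0) (nat_lit 168) (XT.nd (nat_lit 94) (nat_lit 0) (nat_lit 84) (XT.lf (nat_lit 84) (nat_lit 1490812943517) (nat_lit 0) (nat_lit 790659177398) (nat_lit 924) (nat_lit 2187920903312) (nat_lit 130) (nat_lit 5) (nat_lit 129) (nat_lit 5) (nat_lit 140) (nat_lit 5) (nat_lit 452) (nat_lit 450) (nat_lit 178)) (XT.lf (nat_lit 84) (nat_lit 674772504671) (nat_lit 0) (nat_lit 1933895218157) (nat_lit 924) (nat_lit 2041786329188) (nat_lit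 131) (nat_lit 5) (nat_lit 130) (nat_lit 5) (nat_lit 141) (nat_lit 5) (nat_lit 453) (nat_lit 450) (nat_lit 177))) (XT.nd (nat_lit 94) (nat_lit 0) (nat_lit 84) (XT.lf (nat_lit 0) (nat_lit 3053363149980) (nat_lit 840) (nat_lit 156087518769) (nat_lit 924) (nat_lit 1631983084427) (nat_lit 131) (nat_lit 5) (nat_lit 141) (nat_lit 5) (nat_lit 142) (nat_lit 5) (nat_lit 454) (nat_lit 450) (nat_lit 176)) (XT.lf (nat_lit 0) (nat_lit 3636555630366) (nat_lit 840) (nat_lit 983085516667) (nat_lit 924) (nat_lit 422904612442) (nat_lit 132) (nat_lit 5) (nat_lit 142) (nat_lit 5) (nat_lit 143) (nat_lit 5) (nat_lit 455) (nat_lit 450) (nat_lit 175)))))) (XT.nd (nat_lit 658) (nat_lit 2268) (nat_lit 0) (XT.nd (nat_lit 282) (nat_lit 1176) (nat_lit 0) (XT.nd (nat_lit 94) (nat_lit 1344) (nat_lit 0) (XT.lf (nat_lit 84) (nat_lit 3413300024234) (nat_lit 0) (nat_lit 963275381347) (nat_lit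 924) (nat_lit 877662725877) (nat_lit 133) (nat_lit 5) (nat_lit 132) (nat_lit 5) (nat_lit 143) (nat_lit 5) (nat_lit 456) (nat_lit 450) (nat_lit 174)) (XT.nd (nat_lit 94) (nat_lit 588) (nat_lit 0) (XT.lf (nat_lit 0) (nat_lit 2755800947264) (nat_lit 840) (nat_lit 2527040617145) (nat_lit 924) (nat_lit 194672088710) (nat_lit 123) (nat_lit 5) (nat_lit 133) (nat_lit 5) (nat_lit 134) (nat_lit 5) (nat_lit 457) (nat_lit 450) (nat_lit 173)) (XT.lf (nat_lit 0) (nat_lit 630859726673) (nat_lit 588) (nat_lit 3626317782111) (nat_lit 84) (nat_lit 1455785854702) (nat_lit 116) (nat_lit 5) (nat_lit 123) (nat_lit 5) (nat_lit 117) (nat_lit 5) (nat_lit 458) (nat_lit 450) (nat_lit 172)))) (XT.nd (nat_lit 188) (nat_lit 336) (nat_lit 0) (XT.nd (nat_lit 94) (nat_lit 420) (nat_lit 0) (XT.lf (nat_lit 0) (nat_lit 1410458705373) (nat_lit 420) (nat_lit 218065635655) (nat_lit 504) (nat_lit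 4332919611597) (nat_lit 111) (nat_lit 5) (nat_lit 116) (nat_lit 5) (nat_lit 117) (nat_lit 5) (nat_lit 459) (nat_lit 450) (nat_lit 171)) (XT.lf (nat_lit 0) (nat_lit 710014534236) (nat_lit 420) (nat_lit 2135978754450) (nat_lit 504) (nat_lit 3376810142001) (nat_lit 106) (nat_lit 5) (nat_lit 111) (nat_lit 5) (nat_lit 112) (nat_lit 5) (nat_lit 460) (nat_lit 450) (nat_lit 170))) (XT.nd (nat_lit 94) (nat_lit 0) (nat_lit 0) (XT.lf (nat_lit 0) (nat_lit 14118294896) (nat_lit 336) (nat_lit 4265871296020) (nat_lit 420) (nat_lit 2219125584139) (nat_lit 102) (nat_lit 5) (nat_lit 106) (nat_lit 5) (nat_lit 107) (nat_lit 5) (nat_lit 461) (nat_lit 450) (nat_lit 169)) (XT.lf (nat_lit 0) (nat_lit 5963022252621) (nat_lit 420) (nat_lit 650979852991) (nat_lit 84) (nat_lit 176813920597) (nat_lit 102) (nat_lit 5) (nat_lit 107) (nat_lit 5) (nat_lit 103) (nat_lit 5) (nat_lit 462) (nat_lit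 450) (nat_lit 168))))) (XT.nd (nat_lit 282) (nat_lit 1176) (nat_lit 0) (XT.nd (nat_lit 94) (nat_lit 672) (nat_lit 0) (XT.lf (nat_lit 0) (nat_lit 817794715311) (nat_lit 420) (nat_lit 1348692072732) (nat_lit 84) (nat_lit 4930611877923) (nat_lit 97) (nat_lit 5) (nat_lit 102) (nat_lit 5) (nat_lit 98) (nat_lit 5) (nat_lit 463) (nat_lit 450) (nat_lit 167)) (XT.nd (nat_lit 94) (nat_lit 336) (nat_lit 0) (XT.lf (nat_lit 0) (nat_lit 2705454468696) (nat_lit 420) (nat_lit 2050516756303) (nat_lit 84) (nat_lit 2664262870075) (nat_lit 93) (nat_lit 5) (nat_lit 98) (nat_lit 5) (nat_lit 94) (nat_lit 5) (nat_lit 464) (nat_lit 450) (nat_lit 166)) (XT.lf (nat_lit 0) (nat_lit 4885356109122) (nat_lit 420) (nat_lit 2734780523465) (nat_lit 84) (nat_lit 142022270585) (nat_lit 89) (nat_lit 5) (nat_lit 94) (nat_lit 5) (nat_lit 90) (nat_lit 5) (nat_lit 465) (nat_lit 450) (nat_lit 165))))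 (XT.nd (nat_lit 188) (nat_lit 504) (nat_lit 0) (XT.nd (nat_lit 94) (nat_lit 420) (nat_lit 0) (XT.lf (nat_lit 0) (nat_lit 4684221069263) (nat_lit 252) (nat_lit 2745061223352) (nat_lit 336) (nat_lit 692673782712) (nat_lit 86) (nat_lit 5) (nat_lit 89) (nat_lit 5) (nat_lit 90) (nat_lit 5) (nat_lit 466) (nat_lit 450) (nat_lit 164)) (XT.lf (nat_lit 0) (nat_lit 1771668126460) (nat_lit 420) (nat_lit 4144783655555) (nat_lit 84) (nat_lit 2584844001941) (nat_lit 81) (nat_lit 5) (nat_lit 86) (nat_lit 5) (nat_lit 82) (nat_lit 5) (nat_lit 467) (nat_lit 450) (nat_lit 163))) (XT.nd (nat_lit 94) (nat_lit 252) (nat_lit 0) (XT.lf (nat_lit 0) (nat_lit 4060070352872) (nat_lit 252) (nat_lit 519684197109) (nat_lit 336) (nat_lit 4322117100057) (nat_lit 78) (nat_lit 5) (nat_lit 81) (nat_lit 5) (nat_lit 82) (nat_lit 5) (nat_lit 468) (nat_lit 450) (nat_lit 162)) (XT.lf (nat_lit 0) (nat_lit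 3775198659422) (nat_lit 252) (nat_lit 4052499346706) (nat_lit 336) (nat_lit 1496035073343) (nat_lit 75) (nat_lit 5) (nat_lit 78) (nat_lit 5) (nat_lit 79) (nat_lit 5) (nat_lit 469) (nat_lit 450) (nat_lit 161))))))))
noncomputable def xc241 : XT := (XT.nd (nat_lit 66458) (nat_lit 0) (nat_lit 1344) (XT.nd (nat_lit 1316) (nat_lit 1344) (nat_lit 0) (XT.nd (nat_lit 658) (nat_lit 1260) (nat_lit 0) (XT.nd (nat_lit 282) (nat_lit 924) (nat_lit 0) (XT.nd (nat_lit 94) (nat_lit 420) (nat_lit 0) (XT.lf (nat_lit 0) (nat_lit 1686078855452) (nat_lit 336) (nat_lit 6241534277431) (nat_lit 84) (nat_lit 1841527943579) (nat_lit 71) (nat_lit 5) (nat_lit 75) (nat_lit 5) (nat_lit 72) (nat_lit 5) (nat_lit 470) (nat_lit 450) (nat_lit 160)) (XT.nd (nat_lit 94) (nat_lit 168) (nat_lit 0) (XT.lf (nat_lit 0) (nat_lit 3292876293686) (nat_lit 252) (nat_lit 1996152458187) (nat_lit 336) (nat_lit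 4948992671342) (nat_lit 68) (nat_lit 5) (nat_lit 71) (nat_lit 5) (nat_lit 72) (nat_lit 5) (nat_lit 471) (nat_lit 450) (nat_lit 159)) (XT.lf (nat_lit 0) (nat_lit 3102617932886) (nat_lit 168) (nat_lit 6305392848601) (nat_lit 252) (nat_lit 1325011609147) (nat_lit 66) (nat_lit 5) (nat_lit 68) (nat_lit 5) (nat_lit 69) (nat_lit 5) (nat_lit 472) (nat_lit 450) (nat_lit 158)))) (XT.nd (nat_lit 188) (nat_lit 420) (nat_lit 0) (XT.nd (nat_lit 94) (nat_lit 168) (nat_lit 0) (XT.lf (nat_lit 0) (nat_lit 2712762217617) (nat_lit 336) (nat_lit 8300080829608) (nat_lit 84) (nat_lit 242422655342) (nat_lit 62) (nat_lit 5) (nat_lit 66) (nat_lit 5) (nat_lit 63) (nat_lit 5) (nat_lit 473) (nat_lit 450) (nat_lit 157)) (XT.lf (nat_lit 0) (nat_lit 2806440077041) (nat_lit 168) (nat_lit 4506549056849) (nat_lit 252) (nat_lit 4490920613687) (nat_lit 60) (nat_lit 5) (nat_lit 62) (nat_lit 5)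 (nat_lit 63) (nat_lit 5) (nat_lit 474) (nat_lit 450) (nat_lit 156))) (XT.nd (nat_lit 94) (nat_lit 168) (nat_lit 0) (XT.lf (nat_lit 0) (nat_lit 121551208484) (nat_lit 252) (nat_lit 9631817604331) (nat_lit 84) (nat_lit 2631512699485) (nat_lit 57) (nat_lit 5) (nat_lit 60) (nat_lit 5) (nat_lit 58) (nat_lit 5) (nat_lit 475) (nat_lit 450) (nat_lit 155)) (XT.lf (nat_lit 0) (nat_lit 2692330674687) (nat_lit 168) (nat_lit 2532776534424) (nat_lit 252) (nat_lit 7769571405878) (nat_lit 55) (nat_lit 5) (nat_lit 57) (nat_lit 5) (nat_lit 58) (nat_lit 5) (nat_lit 476) (nat_lit 450) (nat_lit 154))))) (XT.nd (nat_lit 282) (nat_lit 672) (nat_lit 0) (XT.nd (nat_lit 94) (nat_lit 420) (nat_lit 0) (XT.lf (nat_lit 0) (nat_lit 2703044611877) (nat_lit 168) (nat_lit 8328844356466) (nat_lit 252) (nat_lit 2606623453623) (nat_lit 53) (nat_lit 5) (nat_lit 55) (nat_lit 5) (nat_lit 56) (nat_lit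 5) (nat_lit 477) (nat_lit 450) (nat_lit 153)) (XT.nd (nat_lit 94) (nat_lit 168) (nat_lit 0) (XT.lf (nat_lit 0) (nat_lit 2789142913750) (nat_lit 168) (nat_lit 353835148446) (nat_lit 252) (nat_lit 11175124079376) (nat_lit 50) (nat_lit 5) (nat_lit 52) (nat_lit 5) (nat_lit 53) (nat_lit 5) (nat_lit 478) (nat_lit 450) (nat_lit 152)) (XT.lf (nat_lit 0) (nat_lit 2875706423878) (nat_lit 168) (nat_lit 6754197050285) (nat_lit 252) (nat_lit 5401585029817) (nat_lit 48) (nat_lit 5) (nat_lit 50) (nat_lit 5) (nat_lit 51) (nat_lit 5) (nat_lit 479) (nat_lit 450) (nat_lit 151)))) (XT.nd (nat_lit 188) (nat_lit 336) (nat_lit 0) (XT.nd (nat_lit 94) (nat_lit 168) (nat_lit 0) (XT.lf (nat_lit 0) (nat_lit 1098340067379) (nat_lit 168) (nat_lit 12690123711948) (nat_lit 84) (nat_lit 1998271523337) (nat_lit 46) (nat_lit 5) (nat_lit 48) (nat_lit 5) (nat_lit 47) (nat_lit 5) (nat_lit 480)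 (nat_lit 450) (nat_lit 150)) (XT.lf (nat_lit 0) (nat_lit 3308927676167) (nat_lit 168) (nat_lit 5003383144966) (nat_lit 252) (nat_lit 8266498651593) (nat_lit 44) (nat_lit 5) (nat_lit 46) (nat_lit 5) (nat_lit 47) (nat_lit 5) (nat_lit 481) (nat_lit 450) (nat_lit 149))) (XT.nd (nat_lit 94) (nat_lit 252) (nat_lit 0) (XT.lf (nat_lit 0) (nat_lit 3661415155640) (nat_lit 84) (nat_lit 12793842305570) (nat_lit 168) (nat_lit 961399203883) (nat_lit 43) (nat_lit 5) (nat_lit 44) (nat_lit 5) (nat_lit 45) (nat_lit 4) (nat_lit 482) (nat_lit 450) (nat_lit 148)) (XT.lf (nat_lit 0) (nat_lit 4044222696898) (nat_lit 168) (nat_lit 3044592772587) (nat_lit 252) (nat_lit 11208185304158) (nat_lit 40) (nat_lit 5) (nat_lit 42) (nat_lit 5) (nat_lit 43) (nat_lit 5) (nat_lit 483) (nat_lit 450) (nat_lit 147)))))) (XT.nd (nat_lit 658) (nat_lit 252) (nat_lit 0) (XT.nd (nat_lit 282) (nat_lit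 672) (nat_lit 0) (XT.nd (nat_lit 94) (nat_lit 336) (nat_lit 0) (XT.lf (nat_lit 0) (nat_lit 4531075482080) (nat_lit 84) (nat_lit 11649873134119) (nat_lit 168) (nat_lit 3044456560322) (nat_lit 39) (nat_lit 5) (nat_lit 40) (nat_lit 5) (nat_lit 41) (nat_lit 4) (nat_lit 484) (nat_lit 450) (nat_lit 146)) (XT.nd (nat_lit 94) (nat_lit 84) (nat_lit 0) (XT.lf (nat_lit 0) (nat_lit 5129579443354) (nat_lit 168) (nat_lit 841807908970) (nat_lit 252) (nat_lit 14232999996596) (nat_lit 36) (nat_lit 5) (nat_lit 38) (nat_lit 5) (nat_lit 39) (nat_lit 5) (nat_lit 485) (nat_lit 450) (nat_lit 145)) (XT.lf (nat_lit 0) (nat_lit 5775460067104) (nat_lit 84) (nat_lit 10347235520292) (nat_lit 168) (nat_lit 5110454064661) (nat_lit 35) (nat_lit 5) (nat_lit 36) (nat_lit 5) (nat_lit 37) (nat_lit 4) (nat_lit 486) (nat_lit 450) (nat_lit 144)))) (XT.nd (nat_lit 188) (nat_lit 336) (nat_lit 0)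 (XT.nd (nat_lit 94) (nat_lit 84) (nat_lit 0) (XT.lf (nat_lit 0) (nat_lit 5000274961497) (nat_lit 252) (nat_lit 15726641935767) (nat_lit 84) (nat_lit 1593086843716) (nat_lit 32) (nat_lit 5) (nat_lit 35) (nat_lit 5) (nat_lit 33) (nat_lit 4) (nat_lit 487) (nat_lit 450) (nat_lit 143)) (XT.lf (nat_lit 0) (nat_lit 7453647650707) (nat_lit 84) (nat_lit 8854085645707) (nat_lit 168) (nat_lit 7153538143676) (nat_lit 31) (nat_lit 5) (nat_lit 32) (nat_lit 5) (nat_lit 33) (nat_lit 4) (nat_lit 488) (nat_lit 450) (nat_lit 142))) (XT.nd (nat_lit 94) (nat_lit 84) (nat_lit 0) (XT.lf (nat_lit 0) (nat_lit 4185593919735) (nat_lit 252) (nat_lit 16159728280772) (nat_lit 84) (nat_lit 4321426646396) (nat_lit 28) (nat_lit 5) (nat_lit 31) (nat_lit 5) (nat_lit 29) (nat_lit 4) (nat_lit 489) (nat_lit 450) (nat_lit 141)) (XT.lf (nat_lit 0) (nat_lit 9633587216844) (nat_lit 84) (nat_lit 7134111823721)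 (nat_lit 168) (nat_lit 9165778468709) (nat_lit 27) (nat_lit 5) (nat_lit 28) (nat_lit 5) (nat_lit 29) (nat_lit 4) (nat_lit 490) (nat_lit 450) (nat_lit 140))))) (XT.nd (nat_lit 64108) (nat_lit 0) (nat_lit 8820) (XT.nd (nat_lit 94) (nat_lit 84) (nat_lit 0) (XT.lf (nat_lit 0) (nat_lit 3535878081234) (nat_lit 168) (nat_lit 16313541187178) (nat_lit 84) (nat_lit 7420799297228) (nat_lit 25) (nat_lit 5) (nat_lit 27) (nat_lit 5) (nat_lit 26) (nat_lit 4) (nat_lit 491) (nat_lit 450) (nat_lit 139)) (XT.nd (nat_lit 63920) (nat_lit 0) (nat_lit 8736) (XT.lf (nat_lit 0) (nat_lit 12393294300481) (nat_lit 84) (nat_lit 5145918165011) (nat_lit 168) (nat_lit 11136840030874) (nat_lit 24) (nat_lit 5) (nat_lit 25) (nat_lit 5) (nat_lit 26) (nat_lit 4) (nat_lit 492) (nat_lit 450) (nat_lit 138)) (XT.lf (nat_lit 0) (nat_lit 1049860348559) (nat_lit 924) (nat_lit 591304844124) (nat_lit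 924) (nat_lit 591304844124) (nat_lit 128) (nat_lit 3) (nat_lit 139) (nat_lit 3) (nat_lit 139) (nat_lit 5) (nat_lit 451) (nat_lit 451) (nat_lit 178)))) (XT.nd (nat_lit 188) (nat_lit 0) (nat_lit 84) (XT.nd (nat_lit 94) (nat_lit 0) (nat_lit 0) (XT.lf (nat_lit 0) (nat_lit 2226089582067) (nat_lit 840) (nat_lit 2177108239166) (nat_lit 924) (nat_lit 238220852472) (nat_lit 129) (nat_lit 5) (nat_lit 139) (nat_lit 5) (nat_lit 140) (nat_lit 5) (nat_lit 452) (nat_lit 451) (nat_lit 177)) (XT.lf (nat_lit 84) (nat_lit 1610077985144) (nat_lit 0) (nat_lit 853911915466) (nat_lit 924) (nat_lit 2362954565054) (nat_lit 130) (nat_lit 5) (nat_lit 129) (nat_lit 5) (nat_lit 140) (nat_lit 5) (nat_lit 453) (nat_lit 451) (nat_lit 176))) (XT.nd (nat_lit 94) (nat_lit 0) (nat_lit 84) (XT.lf (nat_lit 84) (nat_lit 728754311461) (nat_lit 0) (nat_lit 2088606838517) (nat_lit 924) (nat_lit 2205129225734)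 (nat_lit 131) (nat_lit 5) (nat_lit 130) (nat_lit 5) (nat_lit 141) (nat_lit 5) (nat_lit 454) (nat_lit 451) (nat_lit 175)) (XT.lf (nat_lit 0) (nat_lit 3297632210569) (nat_lit 840) (nat_lit 168574513856) (nat_lit 924) (nat_lit 1762541728576) (nat_lit 131) (nat_lit 5) (nat_lit 141) (nat_lit 5) (nat_lit 142) (nat_lit 5) (nat_lit 455) (nat_lit 451) (nat_lit 174))))))) (XT.nd (nat_lit 1316) (nat_lit 3192) (nat_lit 0) (XT.nd (nat_lit 658) (nat_lit 2016) (nat_lit 0) (XT.nd (nat_lit 282) (nat_lit 1764) (nat_lit 0) (XT.nd (nat_lit 94) (nat_lit 756) (nat_lit 0) (XT.lf (nat_lit 0) (nat_lit 3927480088816) (nat_lit 840) (nat_lit 1061732351432) (nat_lit 924) (nat_lit 456736979584) (nat_lit 132) (nat_lit 5) (nat_lit 142) (nat_lit 5) (nat_lit 143) (nat_lit 5) (nat_lit 456) (nat_lit 451) (nat_lit 173)) (XT.nd (nat_lit 94) (nat_lit 756) (nat_lit 0) (XT.lf (nat_lit 84) (nat_lit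 3686364032455) (nat_lit 0) (nat_lit 1040337413097) (nat_lit 924) (nat_lit 947875736046) (nat_lit 133) (nat_lit 5) (nat_lit 132) (nat_lit 5) (nat_lit 143) (nat_lit 5) (nat_lit 457) (nat_lit 451) (nat_lit 172)) (XT.lf (nat_lit 0) (nat_lit 2976265029433) (nat_lit 840) (nat_lit 2729203867178) (nat_lit 924) (nat_lit 210245848406) (nat_lit 123) (nat_lit 5) (nat_lit 133) (nat_lit 5) (nat_lit 134) (nat_lit 5) (nat_lit 458) (nat_lit 451) (nat_lit 171)))) (XT.nd (nat_lit 188) (nat_lit 756) (nat_lit 0) (XT.nd (nat_lit 94) (nat_lit 420) (nat_lit 0) (XT.lf (nat_lit 0) (nat_lit 681328511533) (nat_lit 588) (nat_lit 3916423198001) (nat_lit 84) (nat_lit 1572248722695) (nat_lit 116) (nat_lit 5) (nat_lit 123) (nat_lit 5) (nat_lit 117) (nat_lit 5) (nat_lit 459) (nat_lit 451) (nat_lit 170)) (XT.lf (nat_lit 0) (nat_lit 1523295408192) (nat_lit 420) (nat_lit 235510886446) (nat_lit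 504) (nat_lit 4679553173880) (nat_lit 111) (nat_lit 5) (nat_lit 116) (nat_lit 5) (nat_lit 117) (nat_lit 5) (nat_lit 460) (nat_lit 451) (nat_lit 169))) (XT.nd (nat_lit 94) (nat_lit 336) (nat_lit 0) (XT.lf (nat_lit 0) (nat_lit 766815703388) (nat_lit 420) (nat_lit 2306857054353) (nat_lit 504) (nat_lit 3646954947103) (nat_lit 106) (nat_lit 5) (nat_lit 111) (nat_lit 5) (nat_lit 112) (nat_lit 5) (nat_lit 461) (nat_lit 451) (nat_lit 168)) (XT.lf (nat_lit 0) (nat_lit 15247764901) (nat_lit 336) (nat_lit 4607140998914) (nat_lit 420) (nat_lit 2396655624964) (nat_lit 102) (nat_lit 5) (nat_lit 106) (nat_lit 5) (nat_lit 107) (nat_lit 5) (nat_lit 462) (nat_lit 451) (nat_lit 167))))) (XT.nd (nat_lit 282) (nat_lit 1260) (nat_lit 0) (XT.nd (nat_lit 94) (nat_lit 756) (nat_lit 0) (XT.lf (nat_lit 0) (nat_lit 6440064038051) (nat_lit 420) (nat_lit 703058235043) (nat_lit 84) (nat_lit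 190959034951) (nat_lit 102) (nat_lit 5) (nat_lit 107) (nat_lit 5) (nat_lit 103) (nat_lit 5) (nat_lit 463) (nat_lit 451) (nat_lit 166)) (XT.nd (nat_lit 94) (nat_lit 336) (nat_lit 0) (XT.lf (nat_lit 0) (nat_lit 883218297542) (nat_lit 420) (nat_lit 1456587432467) (nat_lit 84) (nat_lit 5325060828984) (nat_lit 97) (nat_lit 5) (nat_lit 102) (nat_lit 5) (nat_lit 98) (nat_lit 5) (nat_lit 464) (nat_lit 451) (nat_lit 165)) (XT.lf (nat_lit 0) (nat_lit 2921890830936) (nat_lit 420) (nat_lit 2214558090769) (nat_lit 84) (nat_lit 2877403900738) (nat_lit 93) (nat_lit 5) (nat_lit 98) (nat_lit 5) (nat_lit 94) (nat_lit 5) (nat_lit 465) (nat_lit 451) (nat_lit 164)))) (XT.nd (nat_lit 188) (nat_lit 672) (nat_lit 0) (XT.nd (nat_lit 94) (nat_lit 252) (nat_lit 0) (XT.lf (nat_lit 0) (nat_lit 5276184602354) (nat_lit 420) (nat_lit 2953562959362) (nat_lit 84) (nat_lit 153384053485) (nat_lit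 89) (nat_lit 5) (nat_lit 94) (nat_lit 5) (nat_lit 90) (nat_lit 5) (nat_lit 466) (nat_lit 451) (nat_lit 163)) (XT.lf (nat_lit 0) (nat_lit 5058958760524) (nat_lit 252) (nat_lit 2964666119758) (nat_lit 336) (nat_lit 748087680857) (nat_lit 86) (nat_lit 5) (nat_lit 89) (nat_lit 5) (nat_lit 90) (nat_lit 5) (nat_lit 467) (nat_lit 451) (nat_lit 162))) (XT.nd (nat_lit 94) (nat_lit 252) (nat_lit 0) (XT.lf (nat_lit 0) (nat_lit 1913401580696) (nat_lit 420) (nat_lit 4476366342209) (nat_lit 84) (nat_lit 2791631523561) (nat_lit 81) (nat_lit 5) (nat_lit 86) (nat_lit 5) (nat_lit 82) (nat_lit 5) (nat_lit 468) (nat_lit 451) (nat_lit 161)) (XT.lf (nat_lit 0) (nat_lit 4384875986640) (nat_lit 252) (nat_lit 561258931240) (nat_lit 336) (nat_lit 4667886463967) (nat_lit 78) (nat_lit 5) (nat_lit 81) (nat_lit 5) (nat_lit 82) (nat_lit 5) (nat_lit 469) (nat_lit 451) (nat_lit 160))))))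 (XT.nd (nat_lit 658) (nat_lit 1428) (nat_lit 0) (XT.nd (nat_lit 282) (nat_lit 924) (nat_lit 0) (XT.nd (nat_lit 94) (nat_lit 588) (nat_lit 0) (XT.lf (nat_lit 0) (nat_lit 4077214557635) (nat_lit 252) (nat_lit 4376699292703) (nat_lit 336) (nat_lit 1615717875304) (nat_lit 75) (nat_lit 5) (nat_lit 78) (nat_lit 5) (nat_lit 79) (nat_lit 5) (nat_lit 470) (nat_lit 451) (nat_lit 159)) (XT.nd (nat_lit 94) (nat_lit 252) (nat_lit 0) (XT.lf (nat_lit 0) (nat_lit 1820965167500) (nat_lit 336) (nat_lit 6740857014132) (nat_lit 84) (nat_lit 1988850180766) (nat_lit 71) (nat_lit 5) (nat_lit 75) (nat_lit 5) (nat_lit 72) (nat_lit 5) (nat_lit 471) (nat_lit 451) (nat_lit 158)) (XT.lf (nat_lit 0) (nat_lit 3556306402436) (nat_lit 252) (nat_lit 2155844653013) (nat_lit 336) (nat_lit 5344912081452) (nat_lit 68) (nat_lit 5) (nat_lit 71) (nat_lit 5) (nat_lit 72) (nat_lit 5) (nat_lit 472)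 (nat_lit 451) (nat_lit 157)))) (XT.nd (nat_lit 188) (nat_lit 420) (nat_lit 0) (XT.nd (nat_lit 94) (nat_lit 336) (nat_lit 0) (XT.lf (nat_lit 0) (nat_lit 3350827372680) (nat_lit 168) (nat_lit 6809824274605) (nat_lit 252) (nat_lit 1431012534435) (nat_lit 66) (nat_lit 5) (nat_lit 68) (nat_lit 5) (nat_lit 69) (nat_lit 5) (nat_lit 473) (nat_lit 451) (nat_lit 156)) (XT.lf (nat_lit 0) (nat_lit 2929783198221) (nat_lit 336) (nat_lit 8964087290804) (nat_lit 84) (nat_lit 261816469588) (nat_lit 62) (nat_lit 5) (nat_lit 66) (nat_lit 5) (nat_lit 63) (nat_lit 5) (nat_lit 474) (nat_lit 451) (nat_lit 155))) (XT.nd (nat_lit 94) (nat_lit 252) (nat_lit 0) (XT.lf (nat_lit 0) (nat_lit 3030955288152) (nat_lit 168) (nat_lit 4867072979484) (nat_lit 252) (nat_lit 4850194259595) (nat_lit 60) (nat_lit 5) (nat_lit 62) (nat_lit 5) (nat_lit 63) (nat_lit 5) (nat_lit 475) (nat_lit 451) (nat_lit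 154)) (XT.lf (nat_lit 0) (nat_lit 131275308125) (nat_lit 252) (nat_lit 10402363007730) (nat_lit 84) (nat_lit 2842033717282) (nat_lit 57) (nat_lit 5) (nat_lit 60) (nat_lit 5) (nat_lit 58) (nat_lit 5) (nat_lit 476) (nat_lit 451) (nat_lit 153))))) (XT.nd (nat_lit 376) (nat_lit 672) (nat_lit 0) (XT.nd (nat_lit 188) (nat_lit 420) (nat_lit 0) (XT.nd (nat_lit 94) (nat_lit 168) (nat_lit 0) (XT.lf (nat_lit 0) (nat_lit 2907717133395) (nat_lit 168) (nat_lit 2735398655262) (nat_lit 252) (nat_lit 8391137115391) (nat_lit 55) (nat_lit 5) (nat_lit 57) (nat_lit 5) (nat_lit 58) (nat_lit 5) (nat_lit 477) (nat_lit 451) (nat_lit 152)) (XT.lf (nat_lit 0) (nat_lit 2919288185460) (nat_lit 168) (nat_lit 8995151903058) (nat_lit 252) (nat_lit 2815153327071) (nat_lit 53) (nat_lit 5) (nat_lit 55) (nat_lit 5) (nat_lit 56) (nat_lit 5) (nat_lit 478) (nat_lit 451) (nat_lit 151))) (XT.nd (nat_lit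 94) (nat_lit 168) (nat_lit 0) (XT.lf (nat_lit 0) (nat_lit 3012274351369) (nat_lit 168) (nat_lit 382141958422) (nat_lit 252) (nat_lit 12069134002977) (nat_lit 50) (nat_lit 5) (nat_lit 52) (nat_lit 5) (nat_lit 53) (nat_lit 5) (nat_lit 479) (nat_lit 451) (nat_lit 150)) (XT.lf (nat_lit 0) (nat_lit 3105762942207) (nat_lit 168) (nat_lit 7294532812410) (nat_lit 252) (nat_lit 5833711829555) (nat_lit 48) (nat_lit 5) (nat_lit 50) (nat_lit 5) (nat_lit 51) (nat_lit 5) (nat_lit 480) (nat_lit 451) (nat_lit 149)))) (XT.nd (nat_lit 188) (nat_lit 336) (nat_lit 0) (XT.nd (nat_lit 94) (nat_lit 168) (nat_lit 0) (XT.lf (nat_lit 0) (nat_lit 1186207275238) (nat_lit 168) (nat_lit 13705333604502) (nat_lit 84) (nat_lit 2158133247013) (nat_lit 46) (nat_lit 5) (nat_lit 48) (nat_lit 5) (nat_lit 47) (nat_lit 5) (nat_lit 481) (nat_lit 451) (nat_lit 148)) (XT.lf (nat_lit 0) (nat_lit 3573641894470)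 (nat_lit 168) (nat_lit 5403653794705) (nat_lit 252) (nat_lit 8927818541251) (nat_lit 44) (nat_lit 5) (nat_lit 46) (nat_lit 5) (nat_lit 47) (nat_lit 5) (nat_lit 482) (nat_lit 451) (nat_lit 147))) (XT.nd (nat_lit 94) (nat_lit 252) (nat_lit 0) (XT.lf (nat_lit 0) (nat_lit 3954328372203) (nat_lit 84) (nat_lit 13817349688173) (nat_lit 168) (nat_lit 1038311137811) (nat_lit 43) (nat_lit 5) (nat_lit 44) (nat_lit 5) (nat_lit 45) (nat_lit 4) (nat_lit 483) (nat_lit 451) (nat_lit 146)) (XT.lf (nat_lit 0) (nat_lit 4367760516655) (nat_lit 168) (nat_lit 3288160192586) (nat_lit 252) (nat_lit 12104840126184) (nat_lit 40) (nat_lit 5) (nat_lit 42) (nat_lit 5) (nat_lit 43) (nat_lit 5) (nat_lit 484) (nat_lit 451) (nat_lit 145))))))))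
noncomputable def xc242 : XT := (XT.nd (nat_lit 66552) (nat_lit 0) (nat_lit 252) (XT.nd (nat_lit 65236) (nat_lit 0) (nat_lit 4200) (XT.nd (nat_lit 658) (nat_lit 168) (nat_lit 0) (XT.nd (nat_lit 282) (nat_lit 672) (nat_lit 0) (XT.nd (nat_lit 94) (nat_lit 336) (nat_lit 0) (XT.lf (nat_lit 0) (nat_lit 4893561524557) (nat_lit 84) (nat_lit 12581862983061) (nat_lit 168) (nat_lit 3288013082919) (nat_lit 39) (nat_lit 5) (nat_lit 40) (nat_lit 5) (nat_lit 41) (nat_lit 4) (nat_lit 485) (nat_lit 451) (nat_lit 144)) (XT.nd (nat_lit 94) (nat_lit 84) (nat_lit 0) (XT.lf (nat_lit 0) (nat_lit 5539945802631) (nat_lit 168) (nat_lit 909152539936) (nat_lit 252) (nat_lit 15371639994165) (nat_lit 36) (nat_lit 5) (nat_lit 38) (nat_lit 5) (nat_lit 39) (nat_lit 5) (nat_lit 486) (nat_lit 451) (nat_lit 143)) (XT.lf (nat_lit 0) (nat_lit 6237496876188) (nat_lit 84) (nat_lit 11175014360188)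 (nat_lit 168) (nat_lit 5519290387746) (nat_lit 35) (nat_lit 5) (nat_lit 36) (nat_lit 5) (nat_lit 37) (nat_lit 4) (nat_lit 487) (nat_lit 451) (nat_lit 142)))) (XT.nd (nat_lit 188) (nat_lit 336) (nat_lit 0) (XT.nd (nat_lit 94) (nat_lit 84) (nat_lit 0) (XT.lf (nat_lit 0) (nat_lit 5400296960371) (nat_lit 252) (nat_lit 16984773286939) (nat_lit 84) (nat_lit 1720533792851) (nat_lit 32) (nat_lit 5) (nat_lit 35) (nat_lit 5) (nat_lit 33) (nat_lit 4) (nat_lit 488) (nat_lit 451) (nat_lit 141)) (XT.lf (nat_lit 0) (nat_lit 8049939466291) (nat_lit 84) (nat_lit 9562412495700) (nat_lit 168) (nat_lit 7725821193213) (nat_lit 31) (nat_lit 5) (nat_lit 32) (nat_lit 5) (nat_lit 33) (nat_lit 4) (nat_lit 489) (nat_lit 451) (nat_lit 140))) (XT.nd (nat_lit 94) (nat_lit 84) (nat_lit 0) (XT.lf (nat_lit 0) (nat_lit 4520441435146) (nat_lit 252) (nat_lit 17452506539735) (nat_lit 84) (nat_lit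 4667140779682) (nat_lit 28) (nat_lit 5) (nat_lit 31) (nat_lit 5) (nat_lit 29) (nat_lit 4) (nat_lit 490) (nat_lit 451) (nat_lit 139)) (XT.lf (nat_lit 0) (nat_lit 10404274197538) (nat_lit 84) (nat_lit 7704840768022) (nat_lit 168) (nat_lit 9899040744369) (nat_lit 27) (nat_lit 5) (nat_lit 28) (nat_lit 5) (nat_lit 29) (nat_lit 4) (nat_lit 491) (nat_lit 451) (nat_lit 138))))) (XT.nd (nat_lit 64202) (nat_lit 0) (nat_lit 8736) (XT.nd (nat_lit 64014) (nat_lit 0) (nat_lit 8652) (XT.lf (nat_lit 0) (nat_lit 3818748329456) (nat_lit 168) (nat_lit 17618624478833) (nat_lit 84) (nat_lit 8014463242517) (nat_lit 25) (nat_lit 5) (nat_lit 27) (nat_lit 5) (nat_lit 26) (nat_lit 4) (nat_lit 492) (nat_lit 451) (nat_lit 137)) (XT.nd (nat_lit 94) (nat_lit 0) (nat_lit 84) (XT.lf (nat_lit 0) (nat_lit 1133849181401) (nat_lit 924) (nat_lit 638609229051) (nat_lit 924) (nat_lit 638609229051)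 (nat_lit 128) (nat_lit 3) (nat_lit 139) (nat_lit 3) (nat_lit 139) (nat_lit 5) (nat_lit 452) (nat_lit 452) (nat_lit 176)) (XT.lf (nat_lit 0) (nat_lit 2404176757823) (nat_lit 840) (nat_lit 2351276892791) (nat_lit 924) (nat_lit 257278516528) (nat_lit 129) (nat_lit 5) (nat_lit 139) (nat_lit 5) (nat_lit 140) (nat_lit 5) (nat_lit 453) (nat_lit 452) (nat_lit 175)))) (XT.nd (nat_lit 188) (nat_lit 0) (nat_lit 168) (XT.nd (nat_lit 94) (nat_lit 0) (nat_lit 84) (XT.lf (nat_lit 84) (nat_lit 1738884229224) (nat_lit 0) (nat_lit 922224872026) (nat_lit 924) (nat_lit 2551990921237) (nat_lit 130) (nat_lit 5) (nat_lit 129) (nat_lit 5) (nat_lit 140) (nat_lit 5) (nat_lit 454) (nat_lit 452) (nat_lit 174)) (XT.lf (nat_lit 84) (nat_lit 787054661878) (nat_lit 0) (nat_lit 2255695388092) (nat_lit 924) (nat_lit 2381539555400) (nat_lit 131) (nat_lit 5) (nat_lit 130) (nat_lit 5) (nat_lit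 141) (nat_lit 5) (nat_lit 455) (nat_lit 452) (nat_lit 173))) (XT.nd (nat_lit 94) (nat_lit 0) (nat_lit 84) (XT.lf (nat_lit 0) (nat_lit 3561442794780) (nat_lit 840) (nat_lit 182060469466) (nat_lit 924) (nat_lit 1903545064627) (nat_lit 131) (nat_lit 5) (nat_lit 141) (nat_lit 5) (nat_lit 142) (nat_lit 5) (nat_lit 456) (nat_lit 452) (nat_lit 172)) (XT.lf (nat_lit 0) (nat_lit 4241678502797) (nat_lit 840) (nat_lit 1146670933916) (nat_lit 924) (nat_lit 493275936362) (nat_lit 132) (nat_lit 5) (nat_lit 142) (nat_lit 5) (nat_lit 143) (nat_lit 5) (nat_lit 457) (nat_lit 452) (nat_lit 171)))))) (XT.nd (nat_lit 658) (nat_lit 2268) (nat_lit 0) (XT.nd (nat_lit 282) (nat_lit 1176) (nat_lit 0) (XT.nd (nat_lit 94) (nat_lit 1344) (nat_lit 0) (XT.lf (nat_lit 84) (nat_lit 3981273160438) (nat_lit 0) (nat_lit 1123564407209) (nat_lit 924) (nat_lit 1023705788156) (nat_lit 133) (nat_lit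 5) (nat_lit 132) (nat_lit 5) (nat_lit 143) (nat_lit 5) (nat_lit 458) (nat_lit 452) (nat_lit 170)) (XT.nd (nat_lit 94) (nat_lit 588) (nat_lit 0) (XT.lf (nat_lit 0) (nat_lit 3214366237264) (nat_lit 840) (nat_lit 2947540177119) (nat_lit 924) (nat_lit 227065509933) (nat_lit 123) (nat_lit 5) (nat_lit 133) (nat_lit 5) (nat_lit 134) (nat_lit 5) (nat_lit 459) (nat_lit 452) (nat_lit 169)) (XT.lf (nat_lit 0) (nat_lit 735834798223) (nat_lit 588) (nat_lit 4229737048114) (nat_lit 84) (nat_lit 1698028620182) (nat_lit 116) (nat_lit 5) (nat_lit 123) (nat_lit 5) (nat_lit 117) (nat_lit 5) (nat_lit 460) (nat_lit 452) (nat_lit 168)))) (XT.nd (nat_lit 188) (nat_lit 336) (nat_lit 0) (XT.nd (nat_lit 94) (nat_lit 420) (nat_lit 0) (XT.lf (nat_lit 0) (nat_lit 1645159046325) (nat_lit 420) (nat_lit 254351757309) (nat_lit 504) (nat_lit 5053917422094) (nat_lit 111) (nat_lit 5) (nat_lit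 116) (nat_lit 5) (nat_lit 117) (nat_lit 5) (nat_lit 461) (nat_lit 452) (nat_lit 167)) (XT.lf (nat_lit 0) (nat_lit 828160965158) (nat_lit 420) (nat_lit 2491405618313) (nat_lit 504) (nat_lit 3938711337506) (nat_lit 106) (nat_lit 5) (nat_lit 111) (nat_lit 5) (nat_lit 112) (nat_lit 5) (nat_lit 462) (nat_lit 452) (nat_lit 166))) (XT.nd (nat_lit 94) (nat_lit 0) (nat_lit 0) (XT.lf (nat_lit 0) (nat_lit 16467591591) (nat_lit 336) (nat_lit 4975712278152) (nat_lit 420) (nat_lit 2588388069897) (nat_lit 102) (nat_lit 5) (nat_lit 106) (nat_lit 5) (nat_lit 107) (nat_lit 5) (nat_lit 463) (nat_lit 452) (nat_lit 165)) (XT.lf (nat_lit 0) (nat_lit 6955269165571) (nat_lit 420) (nat_lit 759302888543) (nat_lit 84) (nat_lit 206235758352) (nat_lit 102) (nat_lit 5) (nat_lit 107) (nat_lit 5) (nat_lit 103) (nat_lit 5) (nat_lit 464) (nat_lit 452) (nat_lit 164))))) (XT.nd (nat_lit 282)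 (nat_lit 1176) (nat_lit 0) (XT.nd (nat_lit 94) (nat_lit 672) (nat_lit 0) (XT.lf (nat_lit 0) (nat_lit 953875765638) (nat_lit 420) (nat_lit 1573114421849) (nat_lit 84) (nat_lit 5751065696012) (nat_lit 97) (nat_lit 5) (nat_lit 102) (nat_lit 5) (nat_lit 98) (nat_lit 5) (nat_lit 465) (nat_lit 452) (nat_lit 163)) (XT.nd (nat_lit 94) (nat_lit 336) (nat_lit 0) (XT.lf (nat_lit 0) (nat_lit 3155642101477) (nat_lit 420) (nat_lit 2391722732853) (nat_lit 84) (nat_lit 3107596213704) (nat_lit 93) (nat_lit 5) (nat_lit 98) (nat_lit 5) (nat_lit 94) (nat_lit 5) (nat_lit 466) (nat_lit 452) (nat_lit 162)) (XT.lf (nat_lit 0) (nat_lit 5698279374403) (nat_lit 420) (nat_lit 3189847990984) (nat_lit 84) (nat_lit 165654778837) (nat_lit 89) (nat_lit 5) (nat_lit 94) (nat_lit 5) (nat_lit 90) (nat_lit 5) (nat_lit 467) (nat_lit 452) (nat_lit 161)))) (XT.nd (nat_lit 188) (nat_lit 504) (nat_lit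 0) (XT.nd (nat_lit 94) (nat_lit 420) (nat_lit 0) (XT.lf (nat_lit 0) (nat_lit 5463675466270) (nat_lit 252) (nat_lit 3201839408086) (nat_lit 336) (nat_lit 807934691493) (nat_lit 86) (nat_lit 5) (nat_lit 89) (nat_lit 5) (nat_lit 90) (nat_lit 5) (nat_lit 468) (nat_lit 452) (nat_lit 160)) (XT.lf (nat_lit 0) (nat_lit 2066473710683) (nat_lit 420) (nat_lit 4834475644623) (nat_lit 84) (nat_lit 3014962046702) (nat_lit 81) (nat_lit 5) (nat_lit 86) (nat_lit 5) (nat_lit 82) (nat_lit 5) (nat_lit 469) (nat_lit 452) (nat_lit 159))) (XT.nd (nat_lit 94) (nat_lit 252) (nat_lit 0) (XT.lf (nat_lit 0) (nat_lit 4735666070319) (nat_lit 252) (nat_lit 606159644336) (nat_lit 336) (nat_lit 5041317377573) (nat_lit 78) (nat_lit 5) (nat_lit 81) (nat_lit 5) (nat_lit 82) (nat_lit 5) (nat_lit 470) (nat_lit 452) (nat_lit 158)) (XT.lf (nat_lit 0) (nat_lit 4403391726926) (nat_lit 252) (nat_lit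 4726835234628) (nat_lit 336) (nat_lit 1744975301980) (nat_lit 75) (nat_lit 5) (nat_lit 78) (nat_lit 5) (nat_lit 79) (nat_lit 5) (nat_lit 471) (nat_lit 452) (nat_lit 157))))))) (XT.nd (nat_lit 1316) (nat_lit 1008) (nat_lit 0) (XT.nd (nat_lit 658) (nat_lit 1260) (nat_lit 0) (XT.nd (nat_lit 282) (nat_lit 924) (nat_lit 0) (XT.nd (nat_lit 94) (nat_lit 420) (nat_lit 0) (XT.lf (nat_lit 0) (nat_lit 1966642383996) (nat_lit 336) (nat_lit 7280125570553) (nat_lit 84) (nat_lit 2147958196686) (nat_lit 71) (nat_lit 5) (nat_lit 75) (nat_lit 5) (nat_lit 72) (nat_lit 5) (nat_lit 472) (nat_lit 452) (nat_lit 156)) (XT.nd (nat_lit 94) (nat_lit 168) (nat_lit 0) (XT.lf (nat_lit 0) (nat_lit 3840810919135) (nat_lit 252) (nat_lit 2328312223687) (nat_lit 336) (nat_lit 5772505044884) (nat_lit 68) (nat_lit 5) (nat_lit 71) (nat_lit 5) (nat_lit 72) (nat_lit 5) (nat_lit 473) (nat_lit 452)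 (nat_lit 155)) (XT.lf (nat_lit 0) (nat_lit 3618893566921) (nat_lit 168) (nat_lit 7354610214959) (nat_lit 252) (nat_lit 1545493534238) (nat_lit 66) (nat_lit 5) (nat_lit 68) (nat_lit 5) (nat_lit 69) (nat_lit 5) (nat_lit 474) (nat_lit 452) (nat_lit 154)))) (XT.nd (nat_lit 188) (nat_lit 420) (nat_lit 0) (XT.nd (nat_lit 94) (nat_lit 168) (nat_lit 0) (XT.lf (nat_lit 0) (nat_lit 3164165856818) (nat_lit 336) (nat_lit 9681214269633) (nat_lit 84) (nat_lit 282761788714) (nat_lit 62) (nat_lit 5) (nat_lit 66) (nat_lit 5) (nat_lit 63) (nat_lit 5) (nat_lit 475) (nat_lit 452) (nat_lit 153)) (XT.lf (nat_lit 0) (nat_lit 3273431715447) (nat_lit 168) (nat_lit 5256438816203) (nat_lit 252) (nat_lit 5238209797630) (nat_lit 60) (nat_lit 5) (nat_lit 62) (nat_lit 5) (nat_lit 63) (nat_lit 5) (nat_lit 476) (nat_lit 452) (nat_lit 152))) (XT.nd (nat_lit 94) (nat_lit 168) (nat_lit 0) (XT.lf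 (nat_lit 0) (nat_lit 141777335314) (nat_lit 252) (nat_lit 11234552044106) (nat_lit 84) (nat_lit 3069396416240) (nat_lit 57) (nat_lit 5) (nat_lit 60) (nat_lit 5) (nat_lit 58) (nat_lit 5) (nat_lit 477) (nat_lit 452) (nat_lit 151)) (XT.lf (nat_lit 0) (nat_lit 3140334508124) (nat_lit 168) (nat_lit 2954230546040) (nat_lit 252) (nat_lit 9062428082088) (nat_lit 55) (nat_lit 5) (nat_lit 57) (nat_lit 5) (nat_lit 58) (nat_lit 5) (nat_lit 478) (nat_lit 452) (nat_lit 150))))) (XT.nd (nat_lit 282) (nat_lit 672) (nat_lit 0) (XT.nd (nat_lit 94) (nat_lit 420) (nat_lit 0) (XT.lf (nat_lit 0) (nat_lit 3152831244269) (nat_lit 168) (nat_lit 9714764053651) (nat_lit 252) (nat_lit 3040365590799) (nat_lit 53) (nat_lit 5) (nat_lit 55) (nat_lit 5) (nat_lit 56) (nat_lit 5) (nat_lit 479) (nat_lit 452) (nat_lit 149)) (XT.nd (nat_lit 94) (nat_lit 168) (nat_lit 0) (XT.lf (nat_lit 0) (nat_lit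 3253256303353) (nat_lit 168) (nat_lit 412713313467) (nat_lit 252) (nat_lit 13034664720857) (nat_lit 50) (nat_lit 5) (nat_lit 52) (nat_lit 5) (nat_lit 53) (nat_lit 5) (nat_lit 480) (nat_lit 452) (nat_lit 148)) (XT.lf (nat_lit 0) (nat_lit 3354223981373) (nat_lit 168) (nat_lit 7878095435776) (nat_lit 252) (nat_lit 6300408773650) (nat_lit 48) (nat_lit 5) (nat_lit 50) (nat_lit 5) (nat_lit 51) (nat_lit 5) (nat_lit 481) (nat_lit 452) (nat_lit 147)))) (XT.nd (nat_lit 188) (nat_lit 336) (nat_lit 0) (XT.nd (nat_lit 94) (nat_lit 168) (nat_lit 0) (XT.lf (nat_lit 0) (nat_lit 1281103859374) (nat_lit 168) (nat_lit 14801760289089) (nat_lit 84) (nat_lit 2330783908325) (nat_lit 46) (nat_lit 5) (nat_lit 48) (nat_lit 5) (nat_lit 47) (nat_lit 5) (nat_lit 482) (nat_lit 452) (nat_lit 146)) (XT.lf (nat_lit 0) (nat_lit 3859533249637) (nat_lit 168) (nat_lit 5835946096689) (nat_lit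 252) (nat_lit 9642044022434) (nat_lit 44) (nat_lit 5) (nat_lit 46) (nat_lit 5) (nat_lit 47) (nat_lit 5) (nat_lit 483) (nat_lit 452) (nat_lit 145))) (XT.nd (nat_lit 94) (nat_lit 252) (nat_lit 0) (XT.lf (nat_lit 0) (nat_lit 4270674645504) (nat_lit 84) (nat_lit 14922737661647) (nat_lit 168) (nat_lit 1121376026794) (nat_lit 43) (nat_lit 5) (nat_lit 44) (nat_lit 5) (nat_lit 45) (nat_lit 4) (nat_lit 484) (nat_lit 452) (nat_lit 144)) (XT.lf (nat_lit 0) (nat_lit 4717181361423) (nat_lit 168) (nat_lit 3551213006442) (nat_lit 252) (nat_lit 13073227334300) (nat_lit 40) (nat_lit 5) (nat_lit 42) (nat_lit 5) (nat_lit 43) (nat_lit 5) (nat_lit 485) (nat_lit 452) (nat_lit 143)))))) (XT.nd (nat_lit 64766) (nat_lit 0) (nat_lit 7392) (XT.nd (nat_lit 282) (nat_lit 588) (nat_lit 0) (XT.nd (nat_lit 94) (nat_lit 336) (nat_lit 0) (XT.lf (nat_lit 0) (nat_lit 5285046449874) (nat_lit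 84) (nat_lit 13588412020173) (nat_lit 168) (nat_lit 3551054127642) (nat_lit 39) (nat_lit 5) (nat_lit 40) (nat_lit 5) (nat_lit 41) (nat_lit 4) (nat_lit 486) (nat_lit 452) (nat_lit 142)) (XT.nd (nat_lit 94) (nat_lit 84) (nat_lit 0) (XT.lf (nat_lit 0) (nat_lit 5983141470107) (nat_lit 168) (nat_lit 981884741629) (nat_lit 252) (nat_lit 16601371191846) (nat_lit 36) (nat_lit 5) (nat_lit 38) (nat_lit 5) (nat_lit 39) (nat_lit 5) (nat_lit 487) (nat_lit 452) (nat_lit 141)) (XT.lf (nat_lit 0) (nat_lit 6736496629467) (nat_lit 84) (nat_lit 12069015507523) (nat_lit 168) (nat_lit 5960833616977) (nat_lit 35) (nat_lit 5) (nat_lit 36) (nat_lit 5) (nat_lit 37) (nat_lit 4) (nat_lit 488) (nat_lit 452) (nat_lit 140)))) (XT.nd (nat_lit 188) (nat_lit 252) (nat_lit 0) (XT.nd (nat_lit 94) (nat_lit 84) (nat_lit 0) (XT.lf (nat_lit 0) (nat_lit 5832320718875) (nat_lit 252) (nat_lit 18343555146735)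 (nat_lit 84) (nat_lit 1858176497681) (nat_lit 32) (nat_lit 5) (nat_lit 35) (nat_lit 5) (nat_lit 33) (nat_lit 4) (nat_lit 489) (nat_lit 452) (nat_lit 139)) (XT.lf (nat_lit 0) (nat_lit 8693934626616) (nat_lit 84) (nat_lit 10327405493931) (nat_lit 168) (nat_lit 8343886886993) (nat_lit 31) (nat_lit 5) (nat_lit 32) (nat_lit 5) (nat_lit 33) (nat_lit 4) (nat_lit 490) (nat_lit 452) (nat_lit 138))) (XT.nd (nat_lit 64202) (nat_lit 0) (nat_lit 8400) (XT.lf (nat_lit 0) (nat_lit 4882076751529) (nat_lit 252) (nat_lit 18848707059915) (nat_lit 84) (nat_lit 5040512043405) (nat_lit 28) (nat_lit 5) (nat_lit 31) (nat_lit 5) (nat_lit 29) (nat_lit 4) (nat_lit 491) (nat_lit 452) (nat_lit 137)) (XT.lf (nat_lit 0) (nat_lit 1224557120163) (nat_lit 924) (nat_lit 689697965144) (nat_lit 924) (nat_lit 689697965144) (nat_lit 128) (nat_lit 3) (nat_lit 139) (nat_lit 3) (nat_lit 139) (nat_lit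 5) (nat_lit 453) (nat_lit 453) (nat_lit 174))))) (XT.nd (nat_lit 376) (nat_lit 1092) (nat_lit 0) (XT.nd (nat_lit 188) (nat_lit 0) (nat_lit 84) (XT.nd (nat_lit 94) (nat_lit 0) (nat_lit 0) (XT.lf (nat_lit 0) (nat_lit 2596510906329) (nat_lit 840) (nat_lit 2539379039492) (nat_lit 924) (nat_lit 277860794299) (nat_lit 129) (nat_lit 5) (nat_lit 139) (nat_lit 5) (nat_lit 140) (nat_lit 5) (nat_lit 454) (nat_lit 453) (nat_lit 173)) (XT.lf (nat_lit 84) (nat_lit 1877994972080) (nat_lit 0) (nat_lit 996002864637) (nat_lit 924) (nat_lit 2756150187201) (nat_lit 130) (nat_lit 5) (nat_lit 129) (nat_lit 5) (nat_lit 140) (nat_lit 5) (nat_lit 455) (nat_lit 453) (nat_lit 172))) (XT.nd (nat_lit 94) (nat_lit 0) (nat_lit 84) (XT.lf (nat_lit 84) (nat_lit 850019039544) (nat_lit 0) (nat_lit 2436151021276) (nat_lit 924) (nat_lit 2572062712636) (nat_lit 131) (nat_lit 5) (nat_lit 130) (nat_lit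 5) (nat_lit 141) (nat_lit 5) (nat_lit 456) (nat_lit 453) (nat_lit 171)) (XT.lf (nat_lit 0) (nat_lit 3846358224677) (nat_lit 840) (nat_lit 196625302308) (nat_lit 924) (nat_lit 2055828667882) (nat_lit 131) (nat_lit 5) (nat_lit 141) (nat_lit 5) (nat_lit 142) (nat_lit 5) (nat_lit 457) (nat_lit 453) (nat_lit 170)))) (XT.nd (nat_lit 188) (nat_lit 1344) (nat_lit 0) (XT.nd (nat_lit 94) (nat_lit 0) (nat_lit 0) (XT.lf (nat_lit 0) (nat_lit 4581012788916) (nat_lit 840) (nat_lit 1238404603802) (nat_lit 924) (nat_lit 532738009908) (nat_lit 132) (nat_lit 5) (nat_lit 142) (nat_lit 5) (nat_lit 143) (nat_lit 5) (nat_lit 458) (nat_lit 453) (nat_lit 169)) (XT.lf (nat_lit 84) (nat_lit 4299775017891) (nat_lit 0) (nat_lit 1213449560699) (nat_lit 924) (nat_lit 1105602245402) (nat_lit 133) (nat_lit 5) (nat_lit 132) (nat_lit 5) (nat_lit 143) (nat_lit 5) (nat_lit 459) (nat_lit 453)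 (nat_lit 168))) (XT.nd (nat_lit 94) (nat_lit 588) (nat_lit 0) (XT.lf (nat_lit 0) (nat_lit 3471515540940) (nat_lit 840) (nat_lit 3183343391774) (nat_lit 924) (nat_lit 245230745288) (nat_lit 123) (nat_lit 5) (nat_lit 133) (nat_lit 5) (nat_lit 134) (nat_lit 5) (nat_lit 460) (nat_lit 453) (nat_lit 167)) (XT.lf (nat_lit 0) (nat_lit 794701587025) (nat_lit 588) (nat_lit 4568116007053) (nat_lit 84) (nat_lit 1833870909516) (nat_lit 116) (nat_lit 5) (nat_lit 123) (nat_lit 5) (nat_lit 117) (nat_lit 5) (nat_lit 461) (nat_lit 453) (nat_lit 166))))))))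
noncomputable def xc243 : XT := (XT.nd (nat_lit 2632) (nat_lit 336) (nat_lit 0) (XT.nd (nat_lit 1316) (nat_lit 2604) (nat_lit 0) (XT.nd (nat_lit 658) (nat_lit 1932) (nat_lit 0) (XT.nd (nat_lit 282) (nat_lit 1092) (nat_lit 0) (XT.nd (nat_lit 94) (nat_lit 756) (nat_lit 0) (XT.lf (nat_lit 0) (nat_lit 1776771774728) (nat_lit 420) (nat_lit 274699897849) (nat_lit 504) (nat_lit 5458230810978) (nat_lit 111) (nat_lit 5) (nat_lit 116) (nat_lit 5) (nat_lit 117) (nat_lit 5) (nat_lit 462) (nat_lit 453) (nat_lit 165)) (XT.nd (nat_lit 94) (nat_lit 336) (nat_lit 0) (XT.lf (nat_lit 0) (nat_lit 894413847084) (nat_lit 420) (nat_lit 2690718067444) (nat_lit 504) (nat_lit 4253808239906) (nat_lit 106) (nat_lit 5) (nat_lit 111) (nat_lit 5) (nat_lit 112) (nat_lit 5) (nat_lit 463) (nat_lit 453) (nat_lit 164)) (XT.lf (nat_lit 0) (nat_lit 17785003632) (nat_lit 336) (nat_lit 5373769259826)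 (nat_lit 420) (nat_lit 2795459111147) (nat_lit 102) (nat_lit 5) (nat_lit 106) (nat_lit 5) (nat_lit 107) (nat_lit 5) (nat_lit 464) (nat_lit 453) (nat_lit 163)))) (XT.nd (nat_lit 188) (nat_lit 672) (nat_lit 0) (XT.nd (nat_lit 94) (nat_lit 420) (nat_lit 0) (XT.lf (nat_lit 0) (nat_lit 7511690702653) (nat_lit 420) (nat_lit 820047115078) (nat_lit 84) (nat_lit 222734619539) (nat_lit 102) (nat_lit 5) (nat_lit 107) (nat_lit 5) (nat_lit 103) (nat_lit 5) (nat_lit 465) (nat_lit 453) (nat_lit 162)) (XT.lf (nat_lit 0) (nat_lit 1030185830569) (nat_lit 420) (nat_lit 1698963571125) (nat_lit 84) (nat_lit 6211150952300) (nat_lit 97) (nat_lit 5) (nat_lit 102) (nat_lit 5) (nat_lit 98) (nat_lit 5) (nat_lit 466) (nat_lit 453) (nat_lit 161))) (XT.nd (nat_lit 94) (nat_lit 336) (nat_lit 0) (XT.lf (nat_lit 0) (nat_lit 3408093473082) (nat_lit 420) (nat_lit 2583060547043) (nat_lit 84)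 (nat_lit 3356203911578) (nat_lit 93) (nat_lit 5) (nat_lit 98) (nat_lit 5) (nat_lit 94) (nat_lit 5) (nat_lit 467) (nat_lit 453) (nat_lit 160)) (XT.lf (nat_lit 0) (nat_lit 6154141727665) (nat_lit 420) (nat_lit 3445035825867) (nat_lit 84) (nat_lit 178907162065) (nat_lit 89) (nat_lit 5) (nat_lit 94) (nat_lit 5) (nat_lit 90) (nat_lit 5) (nat_lit 468) (nat_lit 453) (nat_lit 159))))) (XT.nd (nat_lit 282) (nat_lit 1008) (nat_lit 0) (XT.nd (nat_lit 94) (nat_lit 672) (nat_lit 0) (XT.lf (nat_lit 0) (nat_lit 5900769507776) (nat_lit 252) (nat_lit 3457986559658) (nat_lit 336) (nat_lit 872569463526) (nat_lit 86) (nat_lit 5) (nat_lit 89) (nat_lit 5) (nat_lit 90) (nat_lit 5) (nat_lit 469) (nat_lit 453) (nat_lit 158)) (XT.nd (nat_lit 94) (nat_lit 252) (nat_lit 0) (XT.lf (nat_lit 0) (nat_lit 2231791610565) (nat_lit 420) (nat_lit 5221233691937) (nat_lit 84) (nat_lit 3256159011514)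 (nat_lit 81) (nat_lit 5) (nat_lit 86) (nat_lit 5) (nat_lit 82) (nat_lit 5) (nat_lit 470) (nat_lit 453) (nat_lit 157)) (XT.lf (nat_lit 0) (nat_lit 5114519360015) (nat_lit 252) (nat_lit 654652414679) (nat_lit 336) (nat_lit 5444622764769) (nat_lit 78) (nat_lit 5) (nat_lit 81) (nat_lit 5) (nat_lit 82) (nat_lit 5) (nat_lit 471) (nat_lit 453) (nat_lit 156)))) (XT.nd (nat_lit 188) (nat_lit 420) (nat_lit 0) (XT.nd (nat_lit 94) (nat_lit 336) (nat_lit 0) (XT.lf (nat_lit 0) (nat_lit 4755663069094) (nat_lit 252) (nat_lit 5104982052120) (nat_lit 336) (nat_lit 1884573323267) (nat_lit 75) (nat_lit 5) (nat_lit 78) (nat_lit 5) (nat_lit 79) (nat_lit 5) (nat_lit 472) (nat_lit 453) (nat_lit 155)) (XT.lf (nat_lit 0) (nat_lit 2123973777371) (nat_lit 336) (nat_lit 7862535612160) (nat_lit 84) (nat_lit 2319794853671) (nat_lit 71) (nat_lit 5) (nat_lit 75) (nat_lit 5) (nat_lit 72) (nat_lit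 5) (nat_lit 473) (nat_lit 453) (nat_lit 154))) (XT.nd (nat_lit 94) (nat_lit 168) (nat_lit 0) (XT.lf (nat_lit 0) (nat_lit 4148075796529) (nat_lit 252) (nat_lit 2514577200238) (nat_lit 336) (nat_lit 6234305445830) (nat_lit 68) (nat_lit 5) (nat_lit 71) (nat_lit 5) (nat_lit 72) (nat_lit 5) (nat_lit 474) (nat_lit 453) (nat_lit 153)) (XT.lf (nat_lit 0) (nat_lit 3908405056070) (nat_lit 168) (nat_lit 7942979030772) (nat_lit 252) (nat_lit 1669133014446) (nat_lit 66) (nat_lit 5) (nat_lit 68) (nat_lit 5) (nat_lit 69) (nat_lit 5) (nat_lit 475) (nat_lit 453) (nat_lit 152)))))) (XT.nd (nat_lit 658) (nat_lit 1092) (nat_lit 0) (XT.nd (nat_lit 282) (nat_lit 756) (nat_lit 0) (XT.nd (nat_lit 94) (nat_lit 420) (nat_lit 0) (XT.lf (nat_lit 0) (nat_lit 3417299127711) (nat_lit 336) (nat_lit 10455711407402) (nat_lit 84) (nat_lit 305382733148) (nat_lit 62) (nat_lit 5) (nat_lit 66)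 (nat_lit 5) (nat_lit 63) (nat_lit 5) (nat_lit 476) (nat_lit 453) (nat_lit 151)) (XT.nd (nat_lit 94) (nat_lit 252) (nat_lit 0) (XT.lf (nat_lit 0) (nat_lit 3535306256320) (nat_lit 168) (nat_lit 5676953920093) (nat_lit 252) (nat_lit 5657266579098) (nat_lit 60) (nat_lit 5) (nat_lit 62) (nat_lit 5) (nat_lit 63) (nat_lit 5) (nat_lit 477) (nat_lit 453) (nat_lit 150)) (XT.lf (nat_lit 0) (nat_lit 153119524315) (nat_lit 252) (nat_lit 12133316203998) (nat_lit 84) (nat_lit 3314948130891) (nat_lit 57) (nat_lit 5) (nat_lit 60) (nat_lit 5) (nat_lit 58) (nat_lit 5) (nat_lit 478) (nat_lit 453) (nat_lit 149)))) (XT.nd (nat_lit 188) (nat_lit 420) (nat_lit 0) (XT.nd (nat_lit 94) (nat_lit 168) (nat_lit 0) (XT.lf (nat_lit 0) (nat_lit 3391561272253) (nat_lit 168) (nat_lit 3190568988314) (nat_lit 252) (nat_lit 9787422326481) (nat_lit 55) (nat_lit 5) (nat_lit 57) (nat_lit 5) (nat_lit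 58) (nat_lit 5) (nat_lit 479) (nat_lit 453) (nat_lit 148)) (XT.lf (nat_lit 0) (nat_lit 3405057747216) (nat_lit 168) (nat_lit 10491945176528) (nat_lit 252) (nat_lit 3283594835973) (nat_lit 53) (nat_lit 5) (nat_lit 55) (nat_lit 5) (nat_lit 56) (nat_lit 5) (nat_lit 480) (nat_lit 453) (nat_lit 147))) (XT.nd (nat_lit 94) (nat_lit 168) (nat_lit 0) (XT.lf (nat_lit 0) (nat_lit 3513516810942) (nat_lit 168) (nat_lit 445730377147) (nat_lit 252) (nat_lit 14077437896505) (nat_lit 50) (nat_lit 5) (nat_lit 52) (nat_lit 5) (nat_lit 53) (nat_lit 5) (nat_lit 481) (nat_lit 453) (nat_lit 146)) (XT.lf (nat_lit 0) (nat_lit 3622561903131) (nat_lit 168) (nat_lit 8508343069242) (nat_lit 252) (nat_lit 6804441473596) (nat_lit 48) (nat_lit 5) (nat_lit 50) (nat_lit 5) (nat_lit 51) (nat_lit 5) (nat_lit 482) (nat_lit 453) (nat_lit 145))))) (XT.nd (nat_lit 282) (nat_lit 672) (nat_lit 0)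 (XT.nd (nat_lit 94) (nat_lit 252) (nat_lit 0) (XT.lf (nat_lit 0) (nat_lit 1383592169938) (nat_lit 168) (nat_lit 15985901108982) (nat_lit 84) (nat_lit 2517246622320) (nat_lit 46) (nat_lit 5) (nat_lit 48) (nat_lit 5) (nat_lit 47) (nat_lit 5) (nat_lit 483) (nat_lit 453) (nat_lit 144)) (XT.nd (nat_lit 94) (nat_lit 84) (nat_lit 0) (XT.lf (nat_lit 0) (nat_lit 4168295912702) (nat_lit 168) (nat_lit 6302821783059) (nat_lit 252) (nat_lit 10413407542414) (nat_lit 44) (nat_lit 5) (nat_lit 46) (nat_lit 5) (nat_lit 47) (nat_lit 5) (nat_lit 484) (nat_lit 453) (nat_lit 143)) (XT.lf (nat_lit 0) (nat_lit 4612328620167) (nat_lit 84) (nat_lit 16116556673224) (nat_lit 168) (nat_lit 1211086107186) (nat_lit 43) (nat_lit 5) (nat_lit 44) (nat_lit 5) (nat_lit 45) (nat_lit 4) (nat_lit 485) (nat_lit 453) (nat_lit 142)))) (XT.nd (nat_lit 188) (nat_lit 336) (nat_lit 0) (XT.nd (nat_lit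 94) (nat_lit 84) (nat_lit 0) (XT.lf (nat_lit 0) (nat_lit 5094555873281) (nat_lit 168) (nat_lit 3835310045628) (nat_lit 252) (nat_lit 14119085519348) (nat_lit 40) (nat_lit 5) (nat_lit 42) (nat_lit 5) (nat_lit 43) (nat_lit 5) (nat_lit 486) (nat_lit 453) (nat_lit 141)) (XT.lf (nat_lit 0) (nat_lit 5707850168738) (nat_lit 84) (nat_lit 14675484980473) (nat_lit 168) (nat_lit 3835138456216) (nat_lit 39) (nat_lit 5) (nat_lit 40) (nat_lit 5) (nat_lit 41) (nat_lit 4) (nat_lit 487) (nat_lit 453) (nat_lit 140))) (XT.nd (nat_lit 94) (nat_lit 84) (nat_lit 0) (XT.lf (nat_lit 0) (nat_lit 6461792790514) (nat_lit 168) (nat_lit 1060435519672) (nat_lit 252) (nat_lit 17929480885607) (nat_lit 36) (nat_lit 5) (nat_lit 38) (nat_lit 5) (nat_lit 39) (nat_lit 5) (nat_lit 488) (nat_lit 453) (nat_lit 139)) (XT.lf (nat_lit 0) (nat_lit 7275416362554) (nat_lit 84) (nat_lit 13034536746855)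 (nat_lit 168) (nat_lit 6437700304802) (nat_lit 35) (nat_lit 5) (nat_lit 36) (nat_lit 5) (nat_lit 37) (nat_lit 4) (nat_lit 489) (nat_lit 453) (nat_lit 138))))))) (XT.nd (nat_lit 65518) (nat_lit 0) (nat_lit 2016) (XT.nd (nat_lit 64860) (nat_lit 0) (nat_lit 5964) (XT.nd (nat_lit 64484) (nat_lit 0) (nat_lit 8232) (XT.nd (nat_lit 94) (nat_lit 84) (nat_lit 0) (XT.lf (nat_lit 0) (nat_lit 6298906377821) (nat_lit 252) (nat_lit 19811039555764) (nat_lit 84) (nat_lit 2006830618698) (nat_lit 32) (nat_lit 5) (nat_lit 35) (nat_lit 5) (nat_lit 33) (nat_lit 4) (nat_lit 490) (nat_lit 453) (nat_lit 137)) (XT.nd (nat_lit 64296) (nat_lit 0) (nat_lit 8148) (XT.lf (nat_lit 0) (nat_lit 9389449399339) (nat_lit 84) (nat_lit 11153597932223) (nat_lit 168) (nat_lit 9011397836514) (nat_lit 31) (nat_lit 5) (nat_lit 32) (nat_lit 5) (nat_lit 33) (nat_lit 4) (nat_lit 491) (nat_lit 453) (nat_lit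 136)) (XT.lf (nat_lit 0) (nat_lit 1322521693419) (nat_lit 924) (nat_lit 744873800443) (nat_lit 924) (nat_lit 744873800443) (nat_lit 128) (nat_lit 3) (nat_lit 139) (nat_lit 3) (nat_lit 139) (nat_lit 5) (nat_lit 454) (nat_lit 454) (nat_lit 172)))) (XT.nd (nat_lit 188) (nat_lit 0) (nat_lit 84) (XT.nd (nat_lit 94) (nat_lit 0) (nat_lit 0) (XT.lf (nat_lit 0) (nat_lit 2804231785590) (nat_lit 840) (nat_lit 2742529358602) (nat_lit 924) (nat_lit 300089654799) (nat_lit 129) (nat_lit 5) (nat_lit 139) (nat_lit 5) (nat_lit 140) (nat_lit 5) (nat_lit 455) (nat_lit 454) (nat_lit 171)) (XT.lf (nat_lit 84) (nat_lit 2028234573719) (nat_lit 0) (nat_lit 1075683096251) (nat_lit 924) (nat_lit 2976642195546) (nat_lit 130) (nat_lit 5) (nat_lit 129) (nat_lit 5) (nat_lit 140) (nat_lit 5) (nat_lit 456) (nat_lit 454) (nat_lit 170))) (XT.nd (nat_lit 94) (nat_lit 0) (nat_lit 84) (XT.lf (nat_lit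 84) (nat_lit 918020566751) (nat_lit 0) (nat_lit 2631043104811) (nat_lit 924) (nat_lit 2777827723478) (nat_lit 131) (nat_lit 5) (nat_lit 130) (nat_lit 5) (nat_lit 141) (nat_lit 5) (nat_lit 457) (nat_lit 454) (nat_lit 169)) (XT.lf (nat_lit 0) (nat_lit 4154066888064) (nat_lit 840) (nat_lit 212355322451) (nat_lit 924) (nat_lit 2220294959670) (nat_lit 131) (nat_lit 5) (nat_lit 141) (nat_lit 5) (nat_lit 142) (nat_lit 5) (nat_lit 458) (nat_lit 454) (nat_lit 168))))) (XT.nd (nat_lit 282) (nat_lit 1764) (nat_lit 0) (XT.nd (nat_lit 94) (nat_lit 756) (nat_lit 0) (XT.lf (nat_lit 0) (nat_lit 4947493817084) (nat_lit 840) (nat_lit 1337476967967) (nat_lit 924) (nat_lit 575357049533) (nat_lit 132) (nat_lit 5) (nat_lit 142) (nat_lit 5) (nat_lit 143) (nat_lit 5) (nat_lit 459) (nat_lit 454) (nat_lit 167)) (XT.nd (nat_lit 94) (nat_lit 756) (nat_lit 0) (XT.lf (nat_lit 84) (nat_lit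 4643757023281) (nat_lit 0) (nat_lit 1310525526338) (nat_lit 924) (nat_lit 1194050420055) (nat_lit 133) (nat_lit 5) (nat_lit 132) (nat_lit 5) (nat_lit 143) (nat_lit 5) (nat_lit 460) (nat_lit 454) (nat_lit 166)) (XT.lf (nat_lit 0) (nat_lit 3749236788241) (nat_lit 840) (nat_lit 3438010863533) (nat_lit 924) (nat_lit 264849200247) (nat_lit 123) (nat_lit 5) (nat_lit 133) (nat_lit 5) (nat_lit 134) (nat_lit 5) (nat_lit 461) (nat_lit 454) (nat_lit 165)))) (XT.nd (nat_lit 188) (nat_lit 756) (nat_lit 0) (XT.nd (nat_lit 94) (nat_lit 420) (nat_lit 0) (XT.lf (nat_lit 0) (nat_lit 858277718226) (nat_lit 588) (nat_lit 4933565283408) (nat_lit 84) (nat_lit 1980580582035) (nat_lit 116) (nat_lit 5) (nat_lit 123) (nat_lit 5) (nat_lit 117) (nat_lit 5) (nat_lit 462) (nat_lit 454) (nat_lit 164)) (XT.lf (nat_lit 0) (nat_lit 1918913520732) (nat_lit 420) (nat_lit 296675889638) (nat_lit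 504) (nat_lit 5894889271669) (nat_lit 111) (nat_lit 5) (nat_lit 116) (nat_lit 5) (nat_lit 117) (nat_lit 5) (nat_lit 463) (nat_lit 454) (nat_lit 163))) (XT.nd (nat_lit 94) (nat_lit 336) (nat_lit 0) (XT.lf (nat_lit 0) (nat_lit 965966958893) (nat_lit 420) (nat_lit 2905975512554) (nat_lit 504) (nat_lit 4594112895155) (nat_lit 106) (nat_lit 5) (nat_lit 111) (nat_lit 5) (nat_lit 112) (nat_lit 5) (nat_lit 464) (nat_lit 454) (nat_lit 162)) (XT.lf (nat_lit 0) (nat_lit 19207807964) (nat_lit 336) (nat_lit 5803670800115) (nat_lit 420) (nat_lit 3019095836317) (nat_lit 102) (nat_lit 5) (nat_lit 106) (nat_lit 5) (nat_lit 107) (nat_lit 5) (nat_lit 465) (nat_lit 454) (nat_lit 161)))))) (XT.nd (nat_lit 658) (nat_lit 1932) (nat_lit 0) (XT.nd (nat_lit 282) (nat_lit 1260) (nat_lit 0) (XT.nd (nat_lit 94) (nat_lit 756) (nat_lit 0) (XT.lf (nat_lit 0) (nat_lit 8112625962155) (nat_lit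 420) (nat_lit 885650880386) (nat_lit 84) (nat_lit 240553389547) (nat_lit 102) (nat_lit 5) (nat_lit 107) (nat_lit 5) (nat_lit 103) (nat_lit 5) (nat_lit 466) (nat_lit 454) (nat_lit 160)) (XT.nd (nat_lit 94) (nat_lit 336) (nat_lit 0) (XT.lf (nat_lit 0) (nat_lit 1112600700169) (nat_lit 420) (nat_lit 1834880652981) (nat_lit 84) (nat_lit 6708043029005) (nat_lit 97) (nat_lit 5) (nat_lit 102) (nat_lit 5) (nat_lit 98) (nat_lit 5) (nat_lit 467) (nat_lit 454) (nat_lit 159)) (XT.lf (nat_lit 0) (nat_lit 3680740953918) (nat_lit 420) (nat_lit 2789705387001) (nat_lit 84) (nat_lit 3624700225171) (nat_lit 93) (nat_lit 5) (nat_lit 98) (nat_lit 5) (nat_lit 94) (nat_lit 5) (nat_lit 468) (nat_lit 454) (nat_lit 158)))) (XT.nd (nat_lit 188) (nat_lit 672) (nat_lit 0) (XT.nd (nat_lit 94) (nat_lit 252) (nat_lit 0) (XT.lf (nat_lit 0) (nat_lit 6646473068715) (nat_lit 420) (nat_lit 3720638688168)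 (nat_lit 84) (nat_lit 193219735819) (nat_lit 89) (nat_lit 5) (nat_lit 94) (nat_lit 5) (nat_lit 90) (nat_lit 5) (nat_lit 469) (nat_lit 454) (nat_lit 157)) (XT.lf (nat_lit 0) (nat_lit 6372831072003) (nat_lit 252) (nat_lit 3734625483510) (nat_lit 336) (nat_lit 942375017790) (nat_lit 86) (nat_lit 5) (nat_lit 89) (nat_lit 5) (nat_lit 90) (nat_lit 5) (nat_lit 470) (nat_lit 454) (nat_lit 156))) (XT.nd (nat_lit 94) (nat_lit 252) (nat_lit 0) (XT.lf (nat_lit 0) (nat_lit 2410334942006) (nat_lit 420) (nat_lit 5638932383644) (nat_lit 84) (nat_lit 3516651733359) (nat_lit 81) (nat_lit 5) (nat_lit 86) (nat_lit 5) (nat_lit 82) (nat_lit 5) (nat_lit 471) (nat_lit 454) (nat_lit 155)) (XT.lf (nat_lit 0) (nat_lit 5523680912306) (nat_lit 252) (nat_lit 707024606821) (nat_lit 336) (nat_lit 5880192583370) (nat_lit 78) (nat_lit 5) (nat_lit 81) (nat_lit 5) (nat_lit 82) (nat_lit 5) (nat_lit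 472) (nat_lit 454) (nat_lit 154))))) (XT.nd (nat_lit 376) (nat_lit 924) (nat_lit 0) (XT.nd (nat_lit 188) (nat_lit 420) (nat_lit 0) (XT.nd (nat_lit 94) (nat_lit 336) (nat_lit 0) (XT.lf (nat_lit 0) (nat_lit 5136116118062) (nat_lit 252) (nat_lit 5513380615194) (nat_lit 336) (nat_lit 2035339186667) (nat_lit 75) (nat_lit 5) (nat_lit 78) (nat_lit 5) (nat_lit 79) (nat_lit 5) (nat_lit 473) (nat_lit 454) (nat_lit 153)) (XT.lf (nat_lit 0) (nat_lit 2293891681837) (nat_lit 336) (nat_lit 8491538457671) (nat_lit 84) (nat_lit 2505378443037) (nat_lit 71) (nat_lit 5) (nat_lit 75) (nat_lit 5) (nat_lit 72) (nat_lit 5) (nat_lit 474) (nat_lit 454) (nat_lit 152))) (XT.nd (nat_lit 94) (nat_lit 168) (nat_lit 0) (XT.lf (nat_lit 0) (nat_lit 4479921863563) (nat_lit 252) (nat_lit 2715743375105) (nat_lit 336) (nat_lit 6733049879229) (nat_lit 68) (nat_lit 5) (nat_lit 71) (nat_lit 5) (nat_lit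 72) (nat_lit 5) (nat_lit 475) (nat_lit 454) (nat_lit 151)) (XT.lf (nat_lit 0) (nat_lit 4221077463809) (nat_lit 168) (nat_lit 8578417352047) (nat_lit 252) (nat_lit 1802663653431) (nat_lit 66) (nat_lit 5) (nat_lit 68) (nat_lit 5) (nat_lit 69) (nat_lit 5) (nat_lit 476) (nat_lit 454) (nat_lit 150)))) (XT.nd (nat_lit 188) (nat_lit 420) (nat_lit 0) (XT.nd (nat_lit 94) (nat_lit 168) (nat_lit 0) (XT.lf (nat_lit 0) (nat_lit 3690683059941) (nat_lit 336) (nat_lit 11292168316734) (nat_lit 84) (nat_lit 329813352945) (nat_lit 62) (nat_lit 5) (nat_lit 66) (nat_lit 5) (nat_lit 63) (nat_lit 5) (nat_lit 477) (nat_lit 454) (nat_lit 149)) (XT.lf (nat_lit 0) (nat_lit 3818130759944) (nat_lit 168) (nat_lit 6131110232495) (nat_lit 252) (nat_lit 6109847903418) (nat_lit 60) (nat_lit 5) (nat_lit 62) (nat_lit 5) (nat_lit 63) (nat_lit 5) (nat_lit 478) (nat_lit 454) (nat_lit 148))) (XT.nd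 (nat_lit 94) (nat_lit 168) (nat_lit 0) (XT.lf (nat_lit 0) (nat_lit 165369088127) (nat_lit 252) (nat_lit 13103981497200) (nat_lit 84) (nat_lit 3580143982521) (nat_lit 57) (nat_lit 5) (nat_lit 60) (nat_lit 5) (nat_lit 58) (nat_lit 5) (nat_lit 479) (nat_lit 454) (nat_lit 147)) (XT.lf (nat_lit 0) (nat_lit 3662886177015) (nat_lit 168) (nat_lit 3445814506171) (nat_lit 252) (nat_lit 10570416110737) (nat_lit 55) (nat_lit 5) (nat_lit 57) (nat_lit 5) (nat_lit 58) (nat_lit 5) (nat_lit 480) (nat_lit 454) (nat_lit 146))))))))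
noncomputable def xc244 : XT := (XT.nd (nat_lit 66928) (nat_lit 0) (nat_lit 336) (XT.nd (nat_lit 65612) (nat_lit 0) (nat_lit 4536) (XT.nd (nat_lit 658) (nat_lit 672) (nat_lit 0) (XT.nd (nat_lit 282) (nat_lit 672) (nat_lit 0) (XT.nd (nat_lit 94) (nat_lit 420) (nat_lit 0) (XT.lf (nat_lit 0) (nat_lit 3677462369913) (nat_lit 168) (nat_lit 11331300789437) (nat_lit 252) (nat_lit 3546282421060) (nat_lit 53) (nat_lit 5) (nat_lit 55) (nat_lit 5) (nat_lit 56) (nat_lit 5) (nat_lit 481) (nat_lit 454) (nat_lit 145)) (XT.nd (nat_lit 94) (nat_lit 168) (nat_lit 0) (XT.lf (nat_lit 0) (nat_lit 3794598158665) (nat_lit 168) (nat_lit 481388806122) (nat_lit 252) (nat_lit 15203632926493) (nat_lit 50) (nat_lit 5) (nat_lit 52) (nat_lit 5) (nat_lit 53) (nat_lit 5) (nat_lit 482) (nat_lit 454) (nat_lit 144)) (XT.lf (nat_lit 0) (nat_lit 3912366858166) (nat_lit 168) (nat_lit 9189010513586)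 (nat_lit 252) (nat_lit 7348796789816) (nat_lit 48) (nat_lit 5) (nat_lit 50) (nat_lit 5) (nat_lit 51) (nat_lit 5) (nat_lit 483) (nat_lit 454) (nat_lit 143)))) (XT.nd (nat_lit 188) (nat_lit 336) (nat_lit 0) (XT.nd (nat_lit 94) (nat_lit 168) (nat_lit 0) (XT.lf (nat_lit 0) (nat_lit 1494279545090) (nat_lit 168) (nat_lit 17264773194927) (nat_lit 84) (nat_lit 2718626353245) (nat_lit 46) (nat_lit 5) (nat_lit 48) (nat_lit 5) (nat_lit 47) (nat_lit 5) (nat_lit 484) (nat_lit 454) (nat_lit 142)) (XT.lf (nat_lit 0) (nat_lit 4501759588372) (nat_lit 168) (nat_lit 6807047524532) (nat_lit 252) (nat_lit 11246480144250) (nat_lit 44) (nat_lit 5) (nat_lit 46) (nat_lit 5) (nat_lit 47) (nat_lit 5) (nat_lit 485) (nat_lit 454) (nat_lit 141))) (XT.nd (nat_lit 94) (nat_lit 252) (nat_lit 0) (XT.lf (nat_lit 0) (nat_lit 4981314912372) (nat_lit 84) (nat_lit 17405881205920) (nat_lit 168)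 (nat_lit 1307972994260) (nat_lit 43) (nat_lit 5) (nat_lit 44) (nat_lit 5) (nat_lit 45) (nat_lit 4) (nat_lit 486) (nat_lit 454) (nat_lit 140)) (XT.lf (nat_lit 0) (nat_lit 5502120345667) (nat_lit 168) (nat_lit 4142134848140) (nat_lit 252) (nat_lit 15248612359442) (nat_lit 40) (nat_lit 5) (nat_lit 42) (nat_lit 5) (nat_lit 43) (nat_lit 5) (nat_lit 487) (nat_lit 454) (nat_lit 139))))) (XT.nd (nat_lit 282) (nat_lit 252) (nat_lit 0) (XT.nd (nat_lit 94) (nat_lit 336) (nat_lit 0) (XT.lf (nat_lit 0) (nat_lit 6164478184700) (nat_lit 84) (nat_lit 15849523777785) (nat_lit 168) (nat_lit 4141949531310) (nat_lit 39) (nat_lit 5) (nat_lit 40) (nat_lit 5) (nat_lit 41) (nat_lit 4) (nat_lit 488) (nat_lit 454) (nat_lit 138)) (XT.nd (nat_lit 94) (nat_lit 84) (nat_lit 0) (XT.lf (nat_lit 0) (nat_lit 6978736216153) (nat_lit 168) (nat_lit 1145270360143) (nat_lit 252) (nat_lit 19363839355096)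 (nat_lit 36) (nat_lit 5) (nat_lit 38) (nat_lit 5) (nat_lit 39) (nat_lit 5) (nat_lit 489) (nat_lit 454) (nat_lit 137)) (XT.lf (nat_lit 0) (nat_lit 7857449673900) (nat_lit 84) (nat_lit 14077299685515) (nat_lit 168) (nat_lit 6952716327871) (nat_lit 35) (nat_lit 5) (nat_lit 36) (nat_lit 5) (nat_lit 37) (nat_lit 4) (nat_lit 490) (nat_lit 454) (nat_lit 136)))) (XT.nd (nat_lit 64484) (nat_lit 0) (nat_lit 8148) (XT.nd (nat_lit 64390) (nat_lit 0) (nat_lit 8064) (XT.lf (nat_lit 0) (nat_lit 6802818889277) (nat_lit 252) (nat_lit 21395922717901) (nat_lit 84) (nat_lit 2167377069225) (nat_lit 32) (nat_lit 5) (nat_lit 35) (nat_lit 5) (nat_lit 33) (nat_lit 4) (nat_lit 491) (nat_lit 454) (nat_lit 135)) (XT.lf (nat_lit 0) (nat_lit 1428323432017) (nat_lit 924) (nat_lit 804463702838) (nat_lit 924) (nat_lit 804463702838) (nat_lit 128) (nat_lit 3) (nat_lit 139) (nat_lit 3) (nat_lit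 139) (nat_lit 5) (nat_lit 455) (nat_lit 455) (nat_lit 170))) (XT.nd (nat_lit 94) (nat_lit 0) (nat_lit 0) (XT.lf (nat_lit 0) (nat_lit 3028570334229) (nat_lit 840) (nat_lit 2961931703819) (nat_lit 924) (nat_lit 324096824573) (nat_lit 129) (nat_lit 5) (nat_lit 139) (nat_lit 5) (nat_lit 140) (nat_lit 5) (nat_lit 456) (nat_lit 455) (nat_lit 169)) (XT.lf (nat_lit 84) (nat_lit 2190493342937) (nat_lit 0) (nat_lit 1161737746045) (nat_lit 924) (nat_lit 3214773565505) (nat_lit 130) (nat_lit 5) (nat_lit 129) (nat_lit 5) (nat_lit 140) (nat_lit 5) (nat_lit 457) (nat_lit 455) (nat_lit 168)))))) (XT.nd (nat_lit 658) (nat_lit 2100) (nat_lit 0) (XT.nd (nat_lit 282) (nat_lit 1596) (nat_lit 0) (XT.nd (nat_lit 94) (nat_lit 0) (nat_lit 84) (XT.lf (nat_lit 84) (nat_lit 991462215557) (nat_lit 0) (nat_lit 2841526554767) (nat_lit 924) (nat_lit 3000053936067) (nat_lit 131) (nat_lit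 5) (nat_lit 130) (nat_lit 5) (nat_lit 141) (nat_lit 5) (nat_lit 458) (nat_lit 455) (nat_lit 167)) (XT.nd (nat_lit 94) (nat_lit 0) (nat_lit 84) (XT.lf (nat_lit 0) (nat_lit 4486392243751) (nat_lit 840) (nat_lit 229343744782) (nat_lit 924) (nat_lit 2397918555036) (nat_lit 131) (nat_lit 5) (nat_lit 141) (nat_lit 5) (nat_lit 142) (nat_lit 5) (nat_lit 459) (nat_lit 455) (nat_lit 166)) (XT.lf (nat_lit 0) (nat_lit 5343293326784) (nat_lit 840) (nat_lit 1444475121856) (nat_lit 924) (nat_lit 621385612494) (nat_lit 132) (nat_lit 5) (nat_lit 142) (nat_lit 5) (nat_lit 143) (nat_lit 5) (nat_lit 460) (nat_lit 455) (nat_lit 165)))) (XT.nd (nat_lit 188) (nat_lit 1008) (nat_lit 0) (XT.nd (nat_lit 94) (nat_lit 756) (nat_lit 0) (XT.lf (nat_lit 84) (nat_lit 5015257588538) (nat_lit 0) (nat_lit 1415367569116) (nat_lit 924) (nat_lit 1289574449391) (nat_lit 133) (nat_lit 5) (nat_lit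 132) (nat_lit 5) (nat_lit 143) (nat_lit 5) (nat_lit 461) (nat_lit 455) (nat_lit 164)) (XT.lf (nat_lit 0) (nat_lit 4049175734752) (nat_lit 840) (nat_lit 3713051732973) (nat_lit 924) (nat_lit 286037132268) (nat_lit 123) (nat_lit 5) (nat_lit 133) (nat_lit 5) (nat_lit 134) (nat_lit 5) (nat_lit 462) (nat_lit 455) (nat_lit 163))) (XT.nd (nat_lit 94) (nat_lit 420) (nat_lit 0) (XT.lf (nat_lit 0) (nat_lit 926939939318) (nat_lit 588) (nat_lit 5328250502472) (nat_lit 84) (nat_lit 2139027028391) (nat_lit 116) (nat_lit 5) (nat_lit 123) (nat_lit 5) (nat_lit 117) (nat_lit 5) (nat_lit 463) (nat_lit 455) (nat_lit 162)) (XT.lf (nat_lit 0) (nat_lit 2072426605843) (nat_lit 420) (nat_lit 320409960776) (nat_lit 504) (nat_lit 6366480409813) (nat_lit 111) (nat_lit 5) (nat_lit 116) (nat_lit 5) (nat_lit 117) (nat_lit 5) (nat_lit 464) (nat_lit 455) (nat_lit 161))))) (XT.nd (nat_lit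 282) (nat_lit 1344) (nat_lit 0) (XT.nd (nat_lit 94) (nat_lit 336) (nat_lit 0) (XT.lf (nat_lit 0) (nat_lit 1043244319069) (nat_lit 420) (nat_lit 3138453553314) (nat_lit 504) (nat_lit 4961641923387) (nat_lit 106) (nat_lit 5) (nat_lit 111) (nat_lit 5) (nat_lit 112) (nat_lit 5) (nat_lit 465) (nat_lit 455) (nat_lit 160)) (XT.nd (nat_lit 94) (nat_lit 0) (nat_lit 0) (XT.lf (nat_lit 0) (nat_lit 20744436066) (nat_lit 336) (nat_lit 6267964463699) (nat_lit 420) (nat_lit 3260623500031) (nat_lit 102) (nat_lit 5) (nat_lit 106) (nat_lit 5) (nat_lit 107) (nat_lit 5) (nat_lit 466) (nat_lit 455) (nat_lit 159)) (XT.lf (nat_lit 0) (nat_lit 8761636041948) (nat_lit 420) (nat_lit 956502947474) (nat_lit 84) (nat_lit 259797661092) (nat_lit 102) (nat_lit 5) (nat_lit 107) (nat_lit 5) (nat_lit 103) (nat_lit 5) (nat_lit 467) (nat_lit 455) (nat_lit 158)))) (XT.nd (nat_lit 188) (nat_lit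 588) (nat_lit 0) (XT.nd (nat_lit 94) (nat_lit 336) (nat_lit 0) (XT.lf (nat_lit 0) (nat_lit 1201608758888) (nat_lit 420) (nat_lit 1981671101933) (nat_lit 84) (nat_lit 7244686471773) (nat_lit 97) (nat_lit 5) (nat_lit 102) (nat_lit 5) (nat_lit 98) (nat_lit 5) (nat_lit 468) (nat_lit 455) (nat_lit 157)) (XT.lf (nat_lit 0) (nat_lit 3975200232794) (nat_lit 420) (nat_lit 3012881814699) (nat_lit 84) (nat_lit 3914676243756) (nat_lit 93) (nat_lit 5) (nat_lit 98) (nat_lit 5) (nat_lit 94) (nat_lit 5) (nat_lit 469) (nat_lit 455) (nat_lit 156))) (XT.nd (nat_lit 94) (nat_lit 252) (nat_lit 0) (XT.lf (nat_lit 0) (nat_lit 7178190916645) (nat_lit 420) (nat_lit 4018289779991) (nat_lit 84) (nat_lit 208677315361) (nat_lit 89) (nat_lit 5) (nat_lit 94) (nat_lit 5) (nat_lit 90) (nat_lit 5) (nat_lit 470) (nat_lit 455) (nat_lit 155)) (XT.lf (nat_lit 0) (nat_lit 6882657560854) (nat_lit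 252) (nat_lit 4033395521401) (nat_lit 336) (nat_lit 1017765016797) (nat_lit 86) (nat_lit 5) (nat_lit 89) (nat_lit 5) (nat_lit 90) (nat_lit 5) (nat_lit 471) (nat_lit 455) (nat_lit 154))))))) (XT.nd (nat_lit 1316) (nat_lit 840) (nat_lit 0) (XT.nd (nat_lit 658) (nat_lit 1344) (nat_lit 0) (XT.nd (nat_lit 282) (nat_lit 1092) (nat_lit 0) (XT.nd (nat_lit 94) (nat_lit 504) (nat_lit 0) (XT.lf (nat_lit 0) (nat_lit 2603161739591) (nat_lit 420) (nat_lit 6090046971207) (nat_lit 84) (nat_lit 3797983872819) (nat_lit 81) (nat_lit 5) (nat_lit 86) (nat_lit 5) (nat_lit 82) (nat_lit 5) (nat_lit 472) (nat_lit 455) (nat_lit 153)) (XT.nd (nat_lit 94) (nat_lit 252) (nat_lit 0) (XT.lf (nat_lit 0) (nat_lit 5965575388282) (nat_lit 252) (nat_lit 763586574482) (nat_lit 336) (nat_lit 6350607987827) (nat_lit 78) (nat_lit 5) (nat_lit 81) (nat_lit 5) (nat_lit 82) (nat_lit 5) (nat_lit 473)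 (nat_lit 455) (nat_lit 152)) (XT.lf (nat_lit 0) (nat_lit 5547005410456) (nat_lit 252) (nat_lit 5954451063470) (nat_lit 336) (nat_lit 2198166319490) (nat_lit 75) (nat_lit 5) (nat_lit 78) (nat_lit 5) (nat_lit 79) (nat_lit 5) (nat_lit 474) (nat_lit 455) (nat_lit 151)))) (XT.nd (nat_lit 188) (nat_lit 504) (nat_lit 0) (XT.nd (nat_lit 94) (nat_lit 252) (nat_lit 0) (XT.lf (nat_lit 0) (nat_lit 2477403018335) (nat_lit 336) (nat_lit 9170861531316) (nat_lit 84) (nat_lit 2705808719399) (nat_lit 71) (nat_lit 5) (nat_lit 75) (nat_lit 5) (nat_lit 72) (nat_lit 5) (nat_lit 475) (nat_lit 455) (nat_lit 150)) (XT.lf (nat_lit 0) (nat_lit 4838315615486) (nat_lit 252) (nat_lit 2933002844126) (nat_lit 336) (nat_lit 7271693867624) (nat_lit 68) (nat_lit 5) (nat_lit 71) (nat_lit 5) (nat_lit 72) (nat_lit 5) (nat_lit 476) (nat_lit 455) (nat_lit 149))) (XT.nd (nat_lit 94) (nat_lit 336)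 (nat_lit 0) (XT.lf (nat_lit 0) (nat_lit 4558763663703) (nat_lit 168) (nat_lit 9264690739193) (nat_lit 252) (nat_lit 1946876743845) (nat_lit 66) (nat_lit 5) (nat_lit 68) (nat_lit 5) (nat_lit 69) (nat_lit 5) (nat_lit 477) (nat_lit 455) (nat_lit 148)) (XT.lf (nat_lit 0) (nat_lit 3985937706463) (nat_lit 336) (nat_lit 12195541779278) (nat_lit 84) (nat_lit 356198422164) (nat_lit 62) (nat_lit 5) (nat_lit 66) (nat_lit 5) (nat_lit 63) (nat_lit 5) (nat_lit 478) (nat_lit 455) (nat_lit 147))))) (XT.nd (nat_lit 282) (nat_lit 756) (nat_lit 0) (XT.nd (nat_lit 94) (nat_lit 420) (nat_lit 0) (XT.lf (nat_lit 0) (nat_lit 4123581223412) (nat_lit 168) (nat_lit 6621599050061) (nat_lit 252) (nat_lit 6598635733969) (nat_lit 60) (nat_lit 5) (nat_lit 62) (nat_lit 5) (nat_lit 63) (nat_lit 5) (nat_lit 479) (nat_lit 455) (nat_lit 146)) (XT.nd (nat_lit 94) (nat_lit 168) (nat_lit 0) (XT.lf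 (nat_lit 0) (nat_lit 178598616777) (nat_lit 252) (nat_lit 14152300014303) (nat_lit 84) (nat_lit 3866555502115) (nat_lit 57) (nat_lit 5) (nat_lit 60) (nat_lit 5) (nat_lit 58) (nat_lit 5) (nat_lit 480) (nat_lit 455) (nat_lit 145)) (XT.lf (nat_lit 0) (nat_lit 3955917073733) (nat_lit 168) (nat_lit 3721479665630) (nat_lit 252) (nat_lit 11416049397998) (nat_lit 55) (nat_lit 5) (nat_lit 57) (nat_lit 5) (nat_lit 58) (nat_lit 5) (nat_lit 481) (nat_lit 455) (nat_lit 144)))) (XT.nd (nat_lit 188) (nat_lit 336) (nat_lit 0) (XT.nd (nat_lit 94) (nat_lit 252) (nat_lit 0) (XT.lf (nat_lit 0) (nat_lit 3971659362009) (nat_lit 168) (nat_lit 12237804851552) (nat_lit 252) (nat_lit 3829985013209) (nat_lit 53) (nat_lit 5) (nat_lit 55) (nat_lit 5) (nat_lit 56) (nat_lit 5) (nat_lit 482) (nat_lit 455) (nat_lit 143)) (XT.lf (nat_lit 0) (nat_lit 4098166013800) (nat_lit 168) (nat_lit 519899909585)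 (nat_lit 252) (nat_lit 16419923559127) (nat_lit 50) (nat_lit 5) (nat_lit 52) (nat_lit 5) (nat_lit 53) (nat_lit 5) (nat_lit 483) (nat_lit 455) (nat_lit 142))) (XT.nd (nat_lit 94) (nat_lit 168) (nat_lit 0) (XT.lf (nat_lit 0) (nat_lit 4225356209207) (nat_lit 168) (nat_lit 9924131353647) (nat_lit 252) (nat_lit 7936700531571) (nat_lit 48) (nat_lit 5) (nat_lit 50) (nat_lit 5) (nat_lit 51) (nat_lit 5) (nat_lit 484) (nat_lit 455) (nat_lit 141)) (XT.lf (nat_lit 0) (nat_lit 1613821910031) (nat_lit 168) (nat_lit 18645955048143) (nat_lit 84) (nat_lit 2936116462482) (nat_lit 46) (nat_lit 5) (nat_lit 48) (nat_lit 5) (nat_lit 47) (nat_lit 5) (nat_lit 485) (nat_lit 455) (nat_lit 140)))))) (XT.nd (nat_lit 65142) (nat_lit 0) (nat_lit 6300) (XT.nd (nat_lit 282) (nat_lit 336) (nat_lit 0) (XT.nd (nat_lit 94) (nat_lit 336) (nat_lit 0) (XT.lf (nat_lit 0) (nat_lit 4861900357715)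 (nat_lit 168) (nat_lit 7351611325491) (nat_lit 252) (nat_lit 12146198554457) (nat_lit 44) (nat_lit 5) (nat_lit 46) (nat_lit 5) (nat_lit 47) (nat_lit 5) (nat_lit 486) (nat_lit 455) (nat_lit 139)) (XT.nd (nat_lit 94) (nat_lit 252) (nat_lit 0) (XT.lf (nat_lit 0) (nat_lit 5379820107582) (nat_lit 84) (nat_lit 18798351701398) (nat_lit 168) (nat_lit 1412610832514) (nat_lit 43) (nat_lit 5) (nat_lit 44) (nat_lit 5) (nat_lit 45) (nat_lit 4) (nat_lit 487) (nat_lit 455) (nat_lit 138)) (XT.lf (nat_lit 0) (nat_lit 5942289975485) (nat_lit 168) (nat_lit 4473505635014) (nat_lit 252) (nat_lit 16468501346950) (nat_lit 40) (nat_lit 5) (nat_lit 42) (nat_lit 5) (nat_lit 43) (nat_lit 5) (nat_lit 488) (nat_lit 455) (nat_lit 137)))) (XT.nd (nat_lit 64672) (nat_lit 0) (nat_lit 7728) (XT.nd (nat_lit 94) (nat_lit 252) (nat_lit 0) (XT.lf (nat_lit 0) (nat_lit 6657636441590) (nat_lit 84)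 (nat_lit 17117485679041) (nat_lit 168) (nat_lit 4473305492610) (nat_lit 39) (nat_lit 5) (nat_lit 40) (nat_lit 5) (nat_lit 41) (nat_lit 4) (nat_lit 489) (nat_lit 455) (nat_lit 136)) (XT.lf (nat_lit 0) (nat_lit 7537035115504) (nat_lit 168) (nat_lit 1236891988007) (nat_lit 252) (nat_lit 20912946502336) (nat_lit 36) (nat_lit 5) (nat_lit 38) (nat_lit 5) (nat_lit 39) (nat_lit 5) (nat_lit 490) (nat_lit 455) (nat_lit 135))) (XT.nd (nat_lit 94) (nat_lit 0) (nat_lit 84) (XT.lf (nat_lit 0) (nat_lit 1542589309256) (nat_lit 924) (nat_lit 868820797659) (nat_lit 924) (nat_lit 868820797659) (nat_lit 128) (nat_lit 3) (nat_lit 139) (nat_lit 3) (nat_lit 139) (nat_lit 5) (nat_lit 456) (nat_lit 456) (nat_lit 168)) (XT.lf (nat_lit 0) (nat_lit 3270855965933) (nat_lit 840) (nat_lit 3198886237149) (nat_lit 924) (nat_lit 350024568301) (nat_lit 129) (nat_lit 5) (nat_lit 139) (nat_lit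 5) (nat_lit 140) (nat_lit 5) (nat_lit 457) (nat_lit 456) (nat_lit 167))))) (XT.nd (nat_lit 376) (nat_lit 1512) (nat_lit 0) (XT.nd (nat_lit 188) (nat_lit 0) (nat_lit 168) (XT.nd (nat_lit 94) (nat_lit 0) (nat_lit 84) (XT.lf (nat_lit 84) (nat_lit 2365732813218) (nat_lit 0) (nat_lit 1254676767524) (nat_lit 924) (nat_lit 3471955445871) (nat_lit 130) (nat_lit 5) (nat_lit 129) (nat_lit 5) (nat_lit 140) (nat_lit 5) (nat_lit 458) (nat_lit 456) (nat_lit 166)) (XT.lf (nat_lit 84) (nat_lit 1070779195774) (nat_lit 0) (nat_lit 3068848680495) (nat_lit 924) (nat_lit 3240058246418) (nat_lit 131) (nat_lit 5) (nat_lit 130) (nat_lit 5) (nat_lit 141) (nat_lit 5) (nat_lit 459) (nat_lit 456) (nat_lit 165))) (XT.nd (nat_lit 94) (nat_lit 0) (nat_lit 84) (XT.lf (nat_lit 0) (nat_lit 4845303627230) (nat_lit 840) (nat_lit 247691241393) (nat_lit 924) (nat_lit 2589752038231) (nat_lit 131)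 (nat_lit 5) (nat_lit 141) (nat_lit 5) (nat_lit 142) (nat_lit 5) (nat_lit 460) (nat_lit 456) (nat_lit 164)) (XT.lf (nat_lit 0) (nat_lit 5770756796641) (nat_lit 840) (nat_lit 1560033128562) (nat_lit 924) (nat_lit 671096460636) (nat_lit 132) (nat_lit 5) (nat_lit 142) (nat_lit 5) (nat_lit 143) (nat_lit 5) (nat_lit 461) (nat_lit 456) (nat_lit 163)))) (XT.nd (nat_lit 188) (nat_lit 1008) (nat_lit 0) (XT.nd (nat_lit 94) (nat_lit 756) (nat_lit 0) (XT.lf (nat_lit 84) (nat_lit 5416478198531) (nat_lit 0) (nat_lit 1528596975220) (nat_lit 924) (nat_lit 1392740401683) (nat_lit 133) (nat_lit 5) (nat_lit 132) (nat_lit 5) (nat_lit 143) (nat_lit 5) (nat_lit 462) (nat_lit 456) (nat_lit 162)) (XT.lf (nat_lit 0) (nat_lit 4373109796491) (nat_lit 840) (nat_lit 4010095871917) (nat_lit 924) (nat_lit 308920099421) (nat_lit 123) (nat_lit 5) (nat_lit 133) (nat_lit 5) (nat_lit 134) (nat_lit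 5) (nat_lit 463) (nat_lit 456) (nat_lit 161))) (XT.nd (nat_lit 94) (nat_lit 420) (nat_lit 0) (XT.lf (nat_lit 0) (nat_lit 1001095137579) (nat_lit 588) (nat_lit 5754510539576) (nat_lit 84) (nat_lit 2310149190485) (nat_lit 116) (nat_lit 5) (nat_lit 123) (nat_lit 5) (nat_lit 117) (nat_lit 5) (nat_lit 464) (nat_lit 456) (nat_lit 160)) (XT.lf (nat_lit 0) (nat_lit 2238220737270) (nat_lit 420) (nat_lit 346042757610) (nat_lit 504) (nat_lit 6875798839521) (nat_lit 111) (nat_lit 5) (nat_lit 116) (nat_lit 5) (nat_lit 117) (nat_lit 5) (nat_lit 465) (nat_lit 456) (nat_lit 159))))))))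
noncomputable def xc245 : XT := (XT.nd (nat_lit 67304) (nat_lit 0) (nat_lit 252) (XT.nd (nat_lit 1316) (nat_lit 1848) (nat_lit 0) (XT.nd (nat_lit 658) (nat_lit 2016) (nat_lit 0) (XT.nd (nat_lit 282) (nat_lit 1344) (nat_lit 0) (XT.nd (nat_lit 94) (nat_lit 336) (nat_lit 0) (XT.lf (nat_lit 0) (nat_lit 1126703867565) (nat_lit 420) (nat_lit 3389529837369) (nat_lit 504) (nat_lit 5358573274359) (nat_lit 106) (nat_lit 5) (nat_lit 111) (nat_lit 5) (nat_lit 112) (nat_lit 5) (nat_lit 466) (nat_lit 456) (nat_lit 158)) (XT.nd (nat_lit 94) (nat_lit 0) (nat_lit 0) (XT.lf (nat_lit 0) (nat_lit 22403993922) (nat_lit 336) (nat_lit 6769401620430) (nat_lit 420) (nat_lit 3521473377298) (nat_lit 102) (nat_lit 5) (nat_lit 106) (nat_lit 5) (nat_lit 107) (nat_lit 5) (nat_lit 467) (nat_lit 456) (nat_lit 157)) (XT.lf (nat_lit 0) (nat_lit 9462566927722) (nat_lit 420) (nat_lit 1033023180406)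 (nat_lit 84) (nat_lit 280581474306) (nat_lit 102) (nat_lit 5) (nat_lit 107) (nat_lit 5) (nat_lit 103) (nat_lit 5) (nat_lit 468) (nat_lit 456) (nat_lit 156)))) (XT.nd (nat_lit 188) (nat_lit 588) (nat_lit 0) (XT.nd (nat_lit 94) (nat_lit 336) (nat_lit 0) (XT.lf (nat_lit 0) (nat_lit 1297737461918) (nat_lit 420) (nat_lit 2140204787270) (nat_lit 84) (nat_lit 7824261389897) (nat_lit 97) (nat_lit 5) (nat_lit 102) (nat_lit 5) (nat_lit 98) (nat_lit 5) (nat_lit 469) (nat_lit 456) (nat_lit 155)) (XT.lf (nat_lit 0) (nat_lit 4293216253615) (nat_lit 420) (nat_lit 3253912357078) (nat_lit 84) (nat_lit 4227850343747) (nat_lit 93) (nat_lit 5) (nat_lit 98) (nat_lit 5) (nat_lit 94) (nat_lit 5) (nat_lit 470) (nat_lit 456) (nat_lit 154))) (XT.nd (nat_lit 94) (nat_lit 252) (nat_lit 0) (XT.lf (nat_lit 0) (nat_lit 7752446192062) (nat_lit 420) (nat_lit 4339752959621) (nat_lit 84) (nat_lit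 225371501170) (nat_lit 89) (nat_lit 5) (nat_lit 94) (nat_lit 5) (nat_lit 90) (nat_lit 5) (nat_lit 471) (nat_lit 456) (nat_lit 153)) (XT.lf (nat_lit 0) (nat_lit 7433270168372) (nat_lit 252) (nat_lit 4356067162436) (nat_lit 336) (nat_lit 1099186216070) (nat_lit 86) (nat_lit 5) (nat_lit 89) (nat_lit 5) (nat_lit 90) (nat_lit 5) (nat_lit 472) (nat_lit 456) (nat_lit 152))))) (XT.nd (nat_lit 282) (nat_lit 1092) (nat_lit 0) (XT.nd (nat_lit 94) (nat_lit 504) (nat_lit 0) (XT.lf (nat_lit 0) (nat_lit 2811414680666) (nat_lit 420) (nat_lit 6577250726222) (nat_lit 84) (nat_lit 4101822583323) (nat_lit 81) (nat_lit 5) (nat_lit 86) (nat_lit 5) (nat_lit 82) (nat_lit 5) (nat_lit 473) (nat_lit 456) (nat_lit 151)) (XT.nd (nat_lit 94) (nat_lit 252) (nat_lit 0) (XT.lf (nat_lit 0) (nat_lit 6442821421910) (nat_lit 252) (nat_lit 824673499682) (nat_lit 336) (nat_lit 6858656624956) (nat_lit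 78) (nat_lit 5) (nat_lit 81) (nat_lit 5) (nat_lit 82) (nat_lit 5) (nat_lit 474) (nat_lit 456) (nat_lit 150)) (XT.lf (nat_lit 0) (nat_lit 5990765845821) (nat_lit 252) (nat_lit 6430807147742) (nat_lit 336) (nat_lit 2374019623240) (nat_lit 75) (nat_lit 5) (nat_lit 78) (nat_lit 5) (nat_lit 79) (nat_lit 5) (nat_lit 475) (nat_lit 456) (nat_lit 149)))) (XT.nd (nat_lit 188) (nat_lit 504) (nat_lit 0) (XT.nd (nat_lit 94) (nat_lit 252) (nat_lit 0) (XT.lf (nat_lit 0) (nat_lit 2675595261475) (nat_lit 336) (nat_lit 9904530451277) (nat_lit 84) (nat_lit 2922273417739) (nat_lit 71) (nat_lit 5) (nat_lit 75) (nat_lit 5) (nat_lit 72) (nat_lit 5) (nat_lit 476) (nat_lit 456) (nat_lit 148)) (XT.lf (nat_lit 0) (nat_lit 5225380867159) (nat_lit 252) (nat_lit 3167643070809) (nat_lit 336) (nat_lit 7853429375367) (nat_lit 68) (nat_lit 5) (nat_lit 71) (nat_lit 5) (nat_lit 72) (nat_lit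 5) (nat_lit 477) (nat_lit 456) (nat_lit 147))) (XT.nd (nat_lit 94) (nat_lit 336) (nat_lit 0) (XT.lf (nat_lit 0) (nat_lit 4923464759190) (nat_lit 168) (nat_lit 10005865997456) (nat_lit 252) (nat_lit 2102626881758) (nat_lit 66) (nat_lit 5) (nat_lit 68) (nat_lit 5) (nat_lit 69) (nat_lit 5) (nat_lit 478) (nat_lit 456) (nat_lit 146)) (XT.lf (nat_lit 0) (nat_lit 4304812724459) (nat_lit 336) (nat_lit 13171185119224) (nat_lit 84) (nat_lit 384694296779) (nat_lit 62) (nat_lit 5) (nat_lit 66) (nat_lit 5) (nat_lit 63) (nat_lit 5) (nat_lit 479) (nat_lit 456) (nat_lit 145)))))) (XT.nd (nat_lit 658) (nat_lit 504) (nat_lit 0) (XT.nd (nat_lit 282) (nat_lit 756) (nat_lit 0) (XT.nd (nat_lit 94) (nat_lit 420) (nat_lit 0) (XT.lf (nat_lit 0) (nat_lit 4453467723577) (nat_lit 168) (nat_lit 7151326973180) (nat_lit 252) (nat_lit 7126526591211) (nat_lit 60) (nat_lit 5) (nat_lit 62)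 (nat_lit 5) (nat_lit 63) (nat_lit 5) (nat_lit 480) (nat_lit 456) (nat_lit 144)) (XT.nd (nat_lit 94) (nat_lit 168) (nat_lit 0) (XT.lf (nat_lit 0) (nat_lit 192886507491) (nat_lit 252) (nat_lit 15284484013156) (nat_lit 84) (nat_lit 4175879943136) (nat_lit 57) (nat_lit 5) (nat_lit 60) (nat_lit 5) (nat_lit 58) (nat_lit 5) (nat_lit 481) (nat_lit 456) (nat_lit 143)) (XT.lf (nat_lit 0) (nat_lit 4272390441824) (nat_lit 168) (nat_lit 4019198037992) (nat_lit 252) (nat_lit 12329333348469) (nat_lit 55) (nat_lit 5) (nat_lit 57) (nat_lit 5) (nat_lit 58) (nat_lit 5) (nat_lit 482) (nat_lit 456) (nat_lit 142)))) (XT.nd (nat_lit 188) (nat_lit 336) (nat_lit 0) (XT.nd (nat_lit 94) (nat_lit 252) (nat_lit 0) (XT.lf (nat_lit 0) (nat_lit 4289392113116) (nat_lit 168) (nat_lit 13216829238784) (nat_lit 252) (nat_lit 4136383812949) (nat_lit 53) (nat_lit 5) (nat_lit 55) (nat_lit 5) (nat_lit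 56) (nat_lit 5) (nat_lit 483) (nat_lit 456) (nat_lit 141)) (XT.lf (nat_lit 0) (nat_lit 4426019296997) (nat_lit 168) (nat_lit 561491901472) (nat_lit 252) (nat_lit 17733517442583) (nat_lit 50) (nat_lit 5) (nat_lit 52) (nat_lit 5) (nat_lit 53) (nat_lit 5) (nat_lit 484) (nat_lit 456) (nat_lit 140))) (XT.nd (nat_lit 94) (nat_lit 168) (nat_lit 0) (XT.lf (nat_lit 0) (nat_lit 4563384707991) (nat_lit 168) (nat_lit 10718061861060) (nat_lit 252) (nat_lit 8571636572870) (nat_lit 48) (nat_lit 5) (nat_lit 50) (nat_lit 5) (nat_lit 51) (nat_lit 5) (nat_lit 485) (nat_lit 456) (nat_lit 139)) (XT.lf (nat_lit 0) (nat_lit 1742927663977) (nat_lit 168) (nat_lit 20137631449957) (nat_lit 84) (nat_lit 3171005780318) (nat_lit 46) (nat_lit 5) (nat_lit 48) (nat_lit 5) (nat_lit 47) (nat_lit 5) (nat_lit 486) (nat_lit 456) (nat_lit 138))))) (XT.nd (nat_lit 64954) (nat_lit 0) (nat_lit 7392)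 (XT.nd (nat_lit 94) (nat_lit 336) (nat_lit 0) (XT.lf (nat_lit 0) (nat_lit 5250852388283) (nat_lit 168) (nat_lit 7939740230670) (nat_lit 252) (nat_lit 13117894437669) (nat_lit 44) (nat_lit 5) (nat_lit 46) (nat_lit 5) (nat_lit 47) (nat_lit 5) (nat_lit 487) (nat_lit 456) (nat_lit 137)) (XT.nd (nat_lit 94) (nat_lit 252) (nat_lit 0) (XT.lf (nat_lit 0) (nat_lit 5810205718093) (nat_lit 84) (nat_lit 20302219836657) (nat_lit 168) (nat_lit 1525619698011) (nat_lit 43) (nat_lit 5) (nat_lit 44) (nat_lit 5) (nat_lit 45) (nat_lit 4) (nat_lit 488) (nat_lit 456) (nat_lit 136)) (XT.lf (nat_lit 0) (nat_lit 6417673175379) (nat_lit 168) (nat_lit 4831386084978) (nat_lit 252) (nat_lit 17785981453638) (nat_lit 40) (nat_lit 5) (nat_lit 42) (nat_lit 5) (nat_lit 43) (nat_lit 5) (nat_lit 489) (nat_lit 456) (nat_lit 135)))) (XT.nd (nat_lit 188) (nat_lit 0) (nat_lit 84) (XT.nd (nat_lit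 94) (nat_lit 0) (nat_lit 84) (XT.lf (nat_lit 0) (nat_lit 1665996456293) (nat_lit 924) (nat_lit 938326460267) (nat_lit 924) (nat_lit 938326460267) (nat_lit 128) (nat_lit 3) (nat_lit 139) (nat_lit 3) (nat_lit 139) (nat_lit 5) (nat_lit 457) (nat_lit 457) (nat_lit 166)) (XT.lf (nat_lit 0) (nat_lit 3532524447464) (nat_lit 840) (nat_lit 3454797133570) (nat_lit 924) (nat_lit 378026531847) (nat_lit 129) (nat_lit 5) (nat_lit 139) (nat_lit 5) (nat_lit 140) (nat_lit 5) (nat_lit 458) (nat_lit 457) (nat_lit 165))) (XT.nd (nat_lit 94) (nat_lit 0) (nat_lit 84) (XT.lf (nat_lit 84) (nat_lit 2554991440716) (nat_lit 0) (nat_lit 1355050910465) (nat_lit 924) (nat_lit 3749711877362) (nat_lit 130) (nat_lit 5) (nat_lit 129) (nat_lit 5) (nat_lit 140) (nat_lit 5) (nat_lit 459) (nat_lit 457) (nat_lit 164)) (XT.lf (nat_lit 84) (nat_lit 1156441533983) (nat_lit 0) (nat_lit 3314356576089)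 (nat_lit 924) (nat_lit 3499262902243) (nat_lit 131) (nat_lit 5) (nat_lit 130) (nat_lit 5) (nat_lit 141) (nat_lit 5) (nat_lit 460) (nat_lit 457) (nat_lit 163))))))) (XT.nd (nat_lit 1316) (nat_lit 3192) (nat_lit 0) (XT.nd (nat_lit 658) (nat_lit 2100) (nat_lit 0) (XT.nd (nat_lit 282) (nat_lit 2100) (nat_lit 0) (XT.nd (nat_lit 94) (nat_lit 0) (nat_lit 84) (XT.lf (nat_lit 0) (nat_lit 5232927920820) (nat_lit 840) (nat_lit 267506538158) (nat_lit 924) (nat_lit 2796932200255) (nat_lit 131) (nat_lit 5) (nat_lit 141) (nat_lit 5) (nat_lit 142) (nat_lit 5) (nat_lit 461) (nat_lit 457) (nat_lit 162)) (XT.nd (nat_lit 94) (nat_lit 0) (nat_lit 0) (XT.lf (nat_lit 0) (nat_lit 6232417343558) (nat_lit 840) (nat_lit 1684835776239) (nat_lit 924) (nat_lit 724784176750) (nat_lit 132) (nat_lit 5) (nat_lit 142) (nat_lit 5) (nat_lit 143) (nat_lit 5) (nat_lit 462) (nat_lit 457) (nat_lit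 161)) (XT.lf (nat_lit 84) (nat_lit 5849796456908) (nat_lit 0) (nat_lit 1650884733731) (nat_lit 924) (nat_lit 1504159630680) (nat_lit 133) (nat_lit 5) (nat_lit 132) (nat_lit 5) (nat_lit 143) (nat_lit 5) (nat_lit 463) (nat_lit 457) (nat_lit 160)))) (XT.nd (nat_lit 188) (nat_lit 840) (nat_lit 0) (XT.nd (nat_lit 94) (nat_lit 588) (nat_lit 0) (XT.lf (nat_lit 0) (nat_lit 4722958582747) (nat_lit 840) (nat_lit 4330903541932) (nat_lit 924) (nat_lit 333633704436) (nat_lit 123) (nat_lit 5) (nat_lit 133) (nat_lit 5) (nat_lit 134) (nat_lit 5) (nat_lit 464) (nat_lit 457) (nat_lit 159)) (XT.lf (nat_lit 0) (nat_lit 1081182751256) (nat_lit 588) (nat_lit 6214871380090) (nat_lit 84) (nat_lit 2494961125572) (nat_lit 116) (nat_lit 5) (nat_lit 123) (nat_lit 5) (nat_lit 117) (nat_lit 5) (nat_lit 465) (nat_lit 457) (nat_lit 158))) (XT.nd (nat_lit 94) (nat_lit 420) (nat_lit 0) (XT.lf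 (nat_lit 0) (nat_lit 2417278398789) (nat_lit 420) (nat_lit 373726178194) (nat_lit 504) (nat_lit 7425862744044) (nat_lit 111) (nat_lit 5) (nat_lit 116) (nat_lit 5) (nat_lit 117) (nat_lit 5) (nat_lit 466) (nat_lit 457) (nat_lit 157)) (XT.lf (nat_lit 0) (nat_lit 1216840179518) (nat_lit 420) (nat_lit 3660692224179) (nat_lit 504) (nat_lit 5787259133822) (nat_lit 106) (nat_lit 5) (nat_lit 111) (nat_lit 5) (nat_lit 112) (nat_lit 5) (nat_lit 467) (nat_lit 457) (nat_lit 156))))) (XT.nd (nat_lit 282) (nat_lit 1344) (nat_lit 0) (XT.nd (nat_lit 94) (nat_lit 420) (nat_lit 0) (XT.lf (nat_lit 0) (nat_lit 24196315982) (nat_lit 336) (nat_lit 7310953749752) (nat_lit 420) (nat_lit 3803191245136) (nat_lit 102) (nat_lit 5) (nat_lit 106) (nat_lit 5) (nat_lit 107) (nat_lit 5) (nat_lit 468) (nat_lit 457) (nat_lit 155)) (XT.nd (nat_lit 94) (nat_lit 420) (nat_lit 0) (XT.lf (nat_lit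 0) (nat_lit 10219572284012) (nat_lit 420) (nat_lit 1115665032382) (nat_lit 84) (nat_lit 303027992531) (nat_lit 102) (nat_lit 5) (nat_lit 107) (nat_lit 5) (nat_lit 103) (nat_lit 5) (nat_lit 469) (nat_lit 457) (nat_lit 154)) (XT.lf (nat_lit 0) (nat_lit 1401556460860) (nat_lit 420) (nat_lit 2311421167835) (nat_lit 84) (nat_lit 8450202301418) (nat_lit 97) (nat_lit 5) (nat_lit 102) (nat_lit 5) (nat_lit 98) (nat_lit 5) (nat_lit 470) (nat_lit 457) (nat_lit 153)))) (XT.nd (nat_lit 188) (nat_lit 672) (nat_lit 0) (XT.nd (nat_lit 94) (nat_lit 336) (nat_lit 0) (XT.lf (nat_lit 0) (nat_lit 4636673555788) (nat_lit 420) (nat_lit 3514225343246) (nat_lit 84) (nat_lit 4566078371667) (nat_lit 93) (nat_lit 5) (nat_lit 98) (nat_lit 5) (nat_lit 94) (nat_lit 5) (nat_lit 471) (nat_lit 457) (nat_lit 152)) (XT.lf (nat_lit 0) (nat_lit 8372641889216) (nat_lit 420) (nat_lit 4686933194015)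 (nat_lit 84) (nat_lit 243401221761) (nat_lit 89) (nat_lit 5) (nat_lit 94) (nat_lit 5) (nat_lit 90) (nat_lit 5) (nat_lit 472) (nat_lit 457) (nat_lit 151))) (XT.nd (nat_lit 94) (nat_lit 420) (nat_lit 0) (XT.lf (nat_lit 0) (nat_lit 8027931784113) (nat_lit 252) (nat_lit 4704552534850) (nat_lit 336) (nat_lit 1187121111580) (nat_lit 86) (nat_lit 5) (nat_lit 89) (nat_lit 5) (nat_lit 90) (nat_lit 5) (nat_lit 473) (nat_lit 457) (nat_lit 150)) (XT.lf (nat_lit 0) (nat_lit 3036327856755) (nat_lit 420) (nat_lit 7103430782021) (nat_lit 84) (nat_lit 4429968390571) (nat_lit 81) (nat_lit 5) (nat_lit 86) (nat_lit 5) (nat_lit 82) (nat_lit 5) (nat_lit 474) (nat_lit 457) (nat_lit 149)))))) (XT.nd (nat_lit 658) (nat_lit 1428) (nat_lit 0) (XT.nd (nat_lit 282) (nat_lit 924) (nat_lit 0) (XT.nd (nat_lit 94) (nat_lit 588) (nat_lit 0) (XT.lf (nat_lit 0) (nat_lit 6958247137862) (nat_lit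 252) (nat_lit 890647379006) (nat_lit 336) (nat_lit 7407349153326) (nat_lit 78) (nat_lit 5) (nat_lit 81) (nat_lit 5) (nat_lit 82) (nat_lit 5) (nat_lit 475) (nat_lit 457) (nat_lit 148)) (XT.nd (nat_lit 94) (nat_lit 336) (nat_lit 0) (XT.lf (nat_lit 0) (nat_lit 6470027115655) (nat_lit 252) (nat_lit 6945271718871) (nat_lit 336) (nat_lit 2563941191548) (nat_lit 75) (nat_lit 5) (nat_lit 78) (nat_lit 5) (nat_lit 79) (nat_lit 5) (nat_lit 476) (nat_lit 457) (nat_lit 147)) (XT.lf (nat_lit 0) (nat_lit 2889642883827) (nat_lit 336) (nat_lit 10696892885198) (nat_lit 84) (nat_lit 3156055291834) (nat_lit 71) (nat_lit 5) (nat_lit 75) (nat_lit 5) (nat_lit 72) (nat_lit 5) (nat_lit 477) (nat_lit 457) (nat_lit 146)))) (XT.nd (nat_lit 188) (nat_lit 504) (nat_lit 0) (XT.nd (nat_lit 94) (nat_lit 168) (nat_lit 0) (XT.lf (nat_lit 0) (nat_lit 5643411338619) (nat_lit 252) (nat_lit 3421054515748)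 (nat_lit 336) (nat_lit 8481703723968) (nat_lit 68) (nat_lit 5) (nat_lit 71) (nat_lit 5) (nat_lit 72) (nat_lit 5) (nat_lit 478) (nat_lit 457) (nat_lit 145)) (XT.lf (nat_lit 0) (nat_lit 5317341941976) (nat_lit 168) (nat_lit 10806335276505) (nat_lit 252) (nat_lit 2270837030931) (nat_lit 66) (nat_lit 5) (nat_lit 68) (nat_lit 5) (nat_lit 69) (nat_lit 5) (nat_lit 479) (nat_lit 457) (nat_lit 144))) (XT.nd (nat_lit 94) (nat_lit 168) (nat_lit 0) (XT.lf (nat_lit 0) (nat_lit 4649197743685) (nat_lit 336) (nat_lit 14224879926708) (nat_lit 84) (nat_lit 415469841244) (nat_lit 62) (nat_lit 5) (nat_lit 66) (nat_lit 5) (nat_lit 63) (nat_lit 5) (nat_lit 480) (nat_lit 457) (nat_lit 143)) (XT.lf (nat_lit 0) (nat_lit 4809745143429) (nat_lit 168) (nat_lit 7723433130275) (nat_lit 252) (nat_lit 7696648717242) (nat_lit 60) (nat_lit 5) (nat_lit 62) (nat_lit 5) (nat_lit 63) (nat_lit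 5) (nat_lit 481) (nat_lit 457) (nat_lit 142))))) (XT.nd (nat_lit 376) (nat_lit 588) (nat_lit 0) (XT.nd (nat_lit 188) (nat_lit 420) (nat_lit 0) (XT.nd (nat_lit 94) (nat_lit 168) (nat_lit 0) (XT.lf (nat_lit 0) (nat_lit 208317429266) (nat_lit 252) (nat_lit 16507242732244) (nat_lit 84) (nat_lit 4509950339316) (nat_lit 57) (nat_lit 5) (nat_lit 60) (nat_lit 5) (nat_lit 58) (nat_lit 5) (nat_lit 482) (nat_lit 457) (nat_lit 141)) (XT.lf (nat_lit 0) (nat_lit 4614181679049) (nat_lit 168) (nat_lit 4340733880270) (nat_lit 252) (nat_lit 13315680015172) (nat_lit 55) (nat_lit 5) (nat_lit 57) (nat_lit 5) (nat_lit 58) (nat_lit 5) (nat_lit 483) (nat_lit 457) (nat_lit 140))) (XT.nd (nat_lit 94) (nat_lit 252) (nat_lit 0) (XT.lf (nat_lit 0) (nat_lit 4632543484005) (nat_lit 168) (nat_lit 14274175577122) (nat_lit 252) (nat_lit 4467294516856) (nat_lit 53) (nat_lit 5) (nat_lit 55)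 (nat_lit 5) (nat_lit 56) (nat_lit 5) (nat_lit 484) (nat_lit 457) (nat_lit 139)) (XT.lf (nat_lit 0) (nat_lit 4780100842551) (nat_lit 168) (nat_lit 606411252835) (nat_lit 252) (nat_lit 19152198836898) (nat_lit 50) (nat_lit 5) (nat_lit 52) (nat_lit 5) (nat_lit 53) (nat_lit 5) (nat_lit 485) (nat_lit 457) (nat_lit 138)))) (XT.nd (nat_lit 188) (nat_lit 252) (nat_lit 0) (XT.nd (nat_lit 94) (nat_lit 168) (nat_lit 0) (XT.lf (nat_lit 0) (nat_lit 4928455486385) (nat_lit 168) (nat_lit 11575506809191) (nat_lit 252) (nat_lit 9257367497649) (nat_lit 48) (nat_lit 5) (nat_lit 50) (nat_lit 5) (nat_lit 51) (nat_lit 5) (nat_lit 486) (nat_lit 457) (nat_lit 137)) (XT.lf (nat_lit 0) (nat_lit 1882361878076) (nat_lit 168) (nat_lit 21748641964205) (nat_lit 84) (nat_lit 3424686243462) (nat_lit 46) (nat_lit 5) (nat_lit 48) (nat_lit 5) (nat_lit 47) (nat_lit 5) (nat_lit 487) (nat_lit 457)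 (nat_lit 136))) (XT.nd (nat_lit 94) (nat_lit 84) (nat_lit 0) (XT.lf (nat_lit 0) (nat_lit 5670920581017) (nat_lit 168) (nat_lit 8574919448386) (nat_lit 252) (nat_lit 14167325991702) (nat_lit 44) (nat_lit 5) (nat_lit 46) (nat_lit 5) (nat_lit 47) (nat_lit 5) (nat_lit 488) (nat_lit 457) (nat_lit 135)) (XT.lf (nat_lit 0) (nat_lit 6275022177172) (nat_lit 84) (nat_lit 21926397422858) (nat_lit 168) (nat_lit 1647669272907) (nat_lit 43) (nat_lit 5) (nat_lit 44) (nat_lit 5) (nat_lit 45) (nat_lit 4) (nat_lit 489) (nat_lit 457) (nat_lit 134))))))))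
noncomputable def xc246 : XT := (XT.nd (nat_lit 2632) (nat_lit 756) (nat_lit 0) (XT.nd (nat_lit 1316) (nat_lit 3696) (nat_lit 0) (XT.nd (nat_lit 658) (nat_lit 2604) (nat_lit 0) (XT.nd (nat_lit 282) (nat_lit 0) (nat_lit 168) (XT.nd (nat_lit 94) (nat_lit 0) (nat_lit 84) (XT.lf (nat_lit 0) (nat_lit 1799276174764) (nat_lit 924) (nat_lit 1013392576055) (nat_lit 924) (nat_lit 1013392576055) (nat_lit 128) (nat_lit 3) (nat_lit 139) (nat_lit 3) (nat_lit 139) (nat_lit 5) (nat_lit 458) (nat_lit 458) (nat_lit 164)) (XT.nd (nat_lit 94) (nat_lit 0) (nat_lit 0) (XT.lf (nat_lit 0) (nat_lit 3815126406911) (nat_lit 840) (nat_lit 3731180902068) (nat_lit 924) (nat_lit 408268652750) (nat_lit 129) (nat_lit 5) (nat_lit 139) (nat_lit 5) (nat_lit 140) (nat_lit 5) (nat_lit 459) (nat_lit 458) (nat_lit 163)) (XT.lf (nat_lit 84) (nat_lit 2759390758066) (nat_lit 0) (nat_lit 1463454984622)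 (nat_lit 924) (nat_lit 4049688823968) (nat_lit 130) (nat_lit 5) (nat_lit 129) (nat_lit 5) (nat_lit 140) (nat_lit 5) (nat_lit 460) (nat_lit 458) (nat_lit 162)))) (XT.nd (nat_lit 188) (nat_lit 0) (nat_lit 168) (XT.nd (nat_lit 94) (nat_lit 0) (nat_lit 84) (XT.lf (nat_lit 84) (nat_lit 1248956858887) (nat_lit 0) (nat_lit 3579505103167) (nat_lit 924) (nat_lit 3779203931090) (nat_lit 131) (nat_lit 5) (nat_lit 130) (nat_lit 5) (nat_lit 141) (nat_lit 5) (nat_lit 461) (nat_lit 458) (nat_lit 161)) (XT.lf (nat_lit 0) (nat_lit 5651562157411) (nat_lit 840) (nat_lit 288907059027) (nat_lit 924) (nat_lit 3020686775388) (nat_lit 131) (nat_lit 5) (nat_lit 141) (nat_lit 5) (nat_lit 142) (nat_lit 5) (nat_lit 462) (nat_lit 458) (nat_lit 160))) (XT.nd (nat_lit 94) (nat_lit 0) (nat_lit 0) (XT.lf (nat_lit 0) (nat_lit 6731010733773) (nat_lit 840) (nat_lit 1819622636102) (nat_lit 924)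 (nat_lit 782766910259) (nat_lit 132) (nat_lit 5) (nat_lit 142) (nat_lit 5) (nat_lit 143) (nat_lit 5) (nat_lit 463) (nat_lit 458) (nat_lit 159)) (XT.lf (nat_lit 84) (nat_lit 6317780175600) (nat_lit 0) (nat_lit 1782955512853) (nat_lit 924) (nat_lit 1624492398445) (nat_lit 133) (nat_lit 5) (nat_lit 132) (nat_lit 5) (nat_lit 143) (nat_lit 5) (nat_lit 464) (nat_lit 458) (nat_lit 158))))) (XT.nd (nat_lit 282) (nat_lit 1176) (nat_lit 0) (XT.nd (nat_lit 94) (nat_lit 1008) (nat_lit 0) (XT.lf (nat_lit 0) (nat_lit 5100795271541) (nat_lit 840) (nat_lit 4677375825512) (nat_lit 924) (nat_lit 360324398271) (nat_lit 123) (nat_lit 5) (nat_lit 133) (nat_lit 5) (nat_lit 134) (nat_lit 5) (nat_lit 465) (nat_lit 458) (nat_lit 157)) (XT.nd (nat_lit 94) (nat_lit 420) (nat_lit 0) (XT.lf (nat_lit 0) (nat_lit 1167677373647) (nat_lit 588) (nat_lit 6712061088223) (nat_lit 84) (nat_lit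 2694558015487) (nat_lit 116) (nat_lit 5) (nat_lit 123) (nat_lit 5) (nat_lit 117) (nat_lit 5) (nat_lit 466) (nat_lit 458) (nat_lit 156)) (XT.lf (nat_lit 0) (nat_lit 2610660672867) (nat_lit 420) (nat_lit 403624272429) (nat_lit 504) (nat_lit 8019931761305) (nat_lit 111) (nat_lit 5) (nat_lit 116) (nat_lit 5) (nat_lit 117) (nat_lit 5) (nat_lit 467) (nat_lit 458) (nat_lit 155)))) (XT.nd (nat_lit 188) (nat_lit 420) (nat_lit 0) (XT.nd (nat_lit 94) (nat_lit 336) (nat_lit 0) (XT.lf (nat_lit 0) (nat_lit 1314187396062) (nat_lit 420) (nat_lit 3953547601959) (nat_lit 504) (nat_lit 6250239862398) (nat_lit 106) (nat_lit 5) (nat_lit 111) (nat_lit 5) (nat_lit 112) (nat_lit 5) (nat_lit 468) (nat_lit 458) (nat_lit 154)) (XT.lf (nat_lit 0) (nat_lit 26132023444) (nat_lit 336) (nat_lit 7895830049464) (nat_lit 420) (nat_lit 4107446542736) (nat_lit 102) (nat_lit 5) (nat_lit 106) (nat_lit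 5) (nat_lit 107) (nat_lit 5) (nat_lit 469) (nat_lit 458) (nat_lit 153))) (XT.nd (nat_lit 94) (nat_lit 420) (nat_lit 0) (XT.lf (nat_lit 0) (nat_lit 11037138068511) (nat_lit 420) (nat_lit 1204918232866) (nat_lit 84) (nat_lit 327270232174) (nat_lit 102) (nat_lit 5) (nat_lit 107) (nat_lit 5) (nat_lit 103) (nat_lit 5) (nat_lit 470) (nat_lit 458) (nat_lit 152)) (XT.lf (nat_lit 0) (nat_lit 1513680979433) (nat_lit 420) (nat_lit 2496334859191) (nat_lit 84) (nat_lit 9126218485812) (nat_lit 97) (nat_lit 5) (nat_lit 102) (nat_lit 5) (nat_lit 98) (nat_lit 5) (nat_lit 471) (nat_lit 458) (nat_lit 151)))))) (XT.nd (nat_lit 658) (nat_lit 1512) (nat_lit 0) (XT.nd (nat_lit 282) (nat_lit 1260) (nat_lit 0) (XT.nd (nat_lit 94) (nat_lit 588) (nat_lit 0) (XT.lf (nat_lit 0) (nat_lit 5007607441866) (nat_lit 420) (nat_lit 3795363368650) (nat_lit 84) (nat_lit 4931364641760) (nat_lit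 93) (nat_lit 5) (nat_lit 98) (nat_lit 5) (nat_lit 94) (nat_lit 5) (nat_lit 472) (nat_lit 458) (nat_lit 150)) (XT.nd (nat_lit 94) (nat_lit 252) (nat_lit 0) (XT.lf (nat_lit 0) (nat_lit 9042453241886) (nat_lit 420) (nat_lit 5061887847501) (nat_lit 84) (nat_lit 262873319928) (nat_lit 89) (nat_lit 5) (nat_lit 94) (nat_lit 5) (nat_lit 90) (nat_lit 5) (nat_lit 473) (nat_lit 458) (nat_lit 149)) (XT.lf (nat_lit 0) (nat_lit 8670166328790) (nat_lit 252) (nat_lit 5080916737141) (nat_lit 336) (nat_lit 1282090798984) (nat_lit 86) (nat_lit 5) (nat_lit 89) (nat_lit 5) (nat_lit 90) (nat_lit 5) (nat_lit 474) (nat_lit 458) (nat_lit 148)))) (XT.nd (nat_lit 188) (nat_lit 588) (nat_lit 0) (XT.nd (nat_lit 94) (nat_lit 252) (nat_lit 0) (XT.lf (nat_lit 0) (nat_lit 3279234086698) (nat_lit 420) (nat_lit 7671705242611) (nat_lit 84) (nat_lit 4784365862315) (nat_lit 81) (nat_lit 5) (nat_lit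 86) (nat_lit 5) (nat_lit 82) (nat_lit 5) (nat_lit 475) (nat_lit 458) (nat_lit 147)) (XT.lf (nat_lit 0) (nat_lit 7514906910777) (nat_lit 252) (nat_lit 961899168769) (nat_lit 336) (nat_lit 7999937084198) (nat_lit 78) (nat_lit 5) (nat_lit 81) (nat_lit 5) (nat_lit 82) (nat_lit 5) (nat_lit 476) (nat_lit 458) (nat_lit 146))) (XT.nd (nat_lit 94) (nat_lit 336) (nat_lit 0) (XT.lf (nat_lit 0) (nat_lit 6987629286766) (nat_lit 252) (nat_lit 7500893455788) (nat_lit 336) (nat_lit 2769056485542) (nat_lit 75) (nat_lit 5) (nat_lit 78) (nat_lit 5) (nat_lit 79) (nat_lit 5) (nat_lit 477) (nat_lit 458) (nat_lit 145)) (XT.lf (nat_lit 0) (nat_lit 3120814315763) (nat_lit 336) (nat_lit 11552644314144) (nat_lit 84) (nat_lit 3408539715759) (nat_lit 71) (nat_lit 5) (nat_lit 75) (nat_lit 5) (nat_lit 72) (nat_lit 5) (nat_lit 478) (nat_lit 458) (nat_lit 144))))) (XT.nd (nat_lit 282) (nat_lit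 756) (nat_lit 0) (XT.nd (nat_lit 94) (nat_lit 504) (nat_lit 0) (XT.lf (nat_lit 0) (nat_lit 6094884247498) (nat_lit 252) (nat_lit 3694738876385) (nat_lit 336) (nat_lit 9160240020661) (nat_lit 68) (nat_lit 5) (nat_lit 71) (nat_lit 5) (nat_lit 72) (nat_lit 5) (nat_lit 479) (nat_lit 458) (nat_lit 143)) (XT.nd (nat_lit 94) (nat_lit 336) (nat_lit 0) (XT.lf (nat_lit 0) (nat_lit 5742729299092) (nat_lit 168) (nat_lit 11670842097984) (nat_lit 252) (nat_lit 2452503992234) (nat_lit 66) (nat_lit 5) (nat_lit 68) (nat_lit 5) (nat_lit 69) (nat_lit 5) (nat_lit 480) (nat_lit 458) (nat_lit 142)) (XT.lf (nat_lit 0) (nat_lit 5021133564267) (nat_lit 336) (nat_lit 15362870319084) (nat_lit 84) (nat_lit 448707429163) (nat_lit 62) (nat_lit 5) (nat_lit 66) (nat_lit 5) (nat_lit 63) (nat_lit 5) (nat_lit 481) (nat_lit 458) (nat_lit 141)))) (XT.nd (nat_lit 188) (nat_lit 336) (nat_lit 0)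 (XT.nd (nat_lit 94) (nat_lit 252) (nat_lit 0) (XT.lf (nat_lit 0) (nat_lit 5194524756587) (nat_lit 168) (nat_lit 8341307780046) (nat_lit 252) (nat_lit 8312380613537) (nat_lit 60) (nat_lit 5) (nat_lit 62) (nat_lit 5) (nat_lit 63) (nat_lit 5) (nat_lit 482) (nat_lit 458) (nat_lit 140)) (XT.lf (nat_lit 0) (nat_lit 224982824616) (nat_lit 252) (nat_lit 17827822149139) (nat_lit 84) (nat_lit 4870746367088) (nat_lit 57) (nat_lit 5) (nat_lit 60) (nat_lit 5) (nat_lit 58) (nat_lit 5) (nat_lit 483) (nat_lit 458) (nat_lit 139))) (XT.nd (nat_lit 94) (nat_lit 168) (nat_lit 0) (XT.lf (nat_lit 0) (nat_lit 4983316214984) (nat_lit 168) (nat_lit 4687992590040) (nat_lit 252) (nat_lit 14380934415379) (nat_lit 55) (nat_lit 5) (nat_lit 57) (nat_lit 5) (nat_lit 58) (nat_lit 5) (nat_lit 484) (nat_lit 458) (nat_lit 138)) (XT.lf (nat_lit 0) (nat_lit 5003146964303) (nat_lit 168) (nat_lit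 15416109622636) (nat_lit 252) (nat_lit 4824678077236) (nat_lit 53) (nat_lit 5) (nat_lit 55) (nat_lit 5) (nat_lit 56) (nat_lit 5) (nat_lit 485) (nat_lit 458) (nat_lit 137))))))) (XT.nd (nat_lit 66176) (nat_lit 0) (nat_lit 1344) (XT.nd (nat_lit 65518) (nat_lit 0) (nat_lit 5628) (XT.nd (nat_lit 282) (nat_lit 168) (nat_lit 0) (XT.nd (nat_lit 94) (nat_lit 336) (nat_lit 0) (XT.lf (nat_lit 0) (nat_lit 5162508911494) (nat_lit 168) (nat_lit 654924152415) (nat_lit 252) (nat_lit 20684374742914) (nat_lit 50) (nat_lit 5) (nat_lit 52) (nat_lit 5) (nat_lit 53) (nat_lit 5) (nat_lit 486) (nat_lit 458) (nat_lit 136)) (XT.nd (nat_lit 94) (nat_lit 168) (nat_lit 0) (XT.lf (nat_lit 0) (nat_lit 5322731926800) (nat_lit 168) (nat_lit 12501547353280) (nat_lit 252) (nat_lit 9997956896560) (nat_lit 48) (nat_lit 5) (nat_lit 50) (nat_lit 5) (nat_lit 51) (nat_lit 5) (nat_lit 487) (nat_lit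 458) (nat_lit 135)) (XT.lf (nat_lit 0) (nat_lit 2032950829162) (nat_lit 168) (nat_lit 23488533319844) (nat_lit 84) (nat_lit 3698661143554) (nat_lit 46) (nat_lit 5) (nat_lit 48) (nat_lit 5) (nat_lit 47) (nat_lit 5) (nat_lit 488) (nat_lit 458) (nat_lit 134)))) (XT.nd (nat_lit 65048) (nat_lit 0) (nat_lit 7140) (XT.nd (nat_lit 64954) (nat_lit 0) (nat_lit 7056) (XT.lf (nat_lit 0) (nat_lit 6124594228932) (nat_lit 168) (nat_lit 9260913003624) (nat_lit 252) (nat_lit 15300712070197) (nat_lit 44) (nat_lit 5) (nat_lit 46) (nat_lit 5) (nat_lit 47) (nat_lit 5) (nat_lit 489) (nat_lit 458) (nat_lit 133)) (XT.lf (nat_lit 0) (nat_lit 1943218270433) (nat_lit 924) (nat_lit 1094463981253) (nat_lit 924) (nat_lit 1094463981253) (nat_lit 128) (nat_lit 3) (nat_lit 139) (nat_lit 3) (nat_lit 139) (nat_lit 5) (nat_lit 459) (nat_lit 459) (nat_lit 162))) (XT.nd (nat_lit 94) (nat_lit 0)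 (nat_lit 0) (XT.lf (nat_lit 0) (nat_lit 4120336522593) (nat_lit 840) (nat_lit 4029675372358) (nat_lit 924) (nat_lit 440930143560) (nat_lit 129) (nat_lit 5) (nat_lit 139) (nat_lit 5) (nat_lit 140) (nat_lit 5) (nat_lit 460) (nat_lit 459) (nat_lit 161)) (XT.lf (nat_lit 84) (nat_lit 2980142020505) (nat_lit 0) (nat_lit 1580531384524) (nat_lit 924) (nat_lit 4373663926814) (nat_lit 130) (nat_lit 5) (nat_lit 129) (nat_lit 5) (nat_lit 140) (nat_lit 5) (nat_lit 461) (nat_lit 459) (nat_lit 160))))) (XT.nd (nat_lit 282) (nat_lit 1596) (nat_lit 0) (XT.nd (nat_lit 94) (nat_lit 0) (nat_lit 84) (XT.lf (nat_lit 84) (nat_lit 1348873409470) (nat_lit 0) (nat_lit 3865865512269) (nat_lit 924) (nat_lit 4081540242720) (nat_lit 131) (nat_lit 5) (nat_lit 130) (nat_lit 5) (nat_lit 141) (nat_lit 5) (nat_lit 462) (nat_lit 459) (nat_lit 159)) (XT.nd (nat_lit 94) (nat_lit 0) (nat_lit 84)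 (XT.lf (nat_lit 0) (nat_lit 6103687132511) (nat_lit 840) (nat_lit 312019621877) (nat_lit 924) (nat_lit 3262341716659) (nat_lit 131) (nat_lit 5) (nat_lit 141) (nat_lit 5) (nat_lit 142) (nat_lit 5) (nat_lit 463) (nat_lit 459) (nat_lit 158)) (XT.lf (nat_lit 0) (nat_lit 7269491594816) (nat_lit 840) (nat_lit 1965192445073) (nat_lit 924) (nat_lit 845388262539) (nat_lit 132) (nat_lit 5) (nat_lit 142) (nat_lit 5) (nat_lit 143) (nat_lit 5) (nat_lit 464) (nat_lit 459) (nat_lit 157)))) (XT.nd (nat_lit 188) (nat_lit 1008) (nat_lit 0) (XT.nd (nat_lit 94) (nat_lit 756) (nat_lit 0) (XT.lf (nat_lit 84) (nat_lit 6823202591482) (nat_lit 0) (nat_lit 1925591954243) (nat_lit 924) (nat_lit 1754451788014) (nat_lit 133) (nat_lit 5) (nat_lit 132) (nat_lit 5) (nat_lit 143) (nat_lit 5) (nat_lit 465) (nat_lit 459) (nat_lit 156)) (XT.lf (nat_lit 0) (nat_lit 5508858895129) (nat_lit 840)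 (nat_lit 5051565891746) (nat_lit 924) (nat_lit 389150347972) (nat_lit 123) (nat_lit 5) (nat_lit 133) (nat_lit 5) (nat_lit 134) (nat_lit 5) (nat_lit 466) (nat_lit 459) (nat_lit 155))) (XT.nd (nat_lit 94) (nat_lit 420) (nat_lit 0) (XT.lf (nat_lit 0) (nat_lit 1261091565502) (nat_lit 588) (nat_lit 7249025973331) (nat_lit 84) (nat_lit 2910122656614) (nat_lit 116) (nat_lit 5) (nat_lit 123) (nat_lit 5) (nat_lit 117) (nat_lit 5) (nat_lit 467) (nat_lit 459) (nat_lit 154)) (XT.lf (nat_lit 0) (nat_lit 2819513528562) (nat_lit 420) (nat_lit 435914214205) (nat_lit 504) (nat_lit 8661526300270) (nat_lit 111) (nat_lit 5) (nat_lit 116) (nat_lit 5) (nat_lit 117) (nat_lit 5) (nat_lit 468) (nat_lit 459) (nat_lit 153)))))) (XT.nd (nat_lit 658) (nat_lit 2184) (nat_lit 0) (XT.nd (nat_lit 282) (nat_lit 1344) (nat_lit 0) (XT.nd (nat_lit 94) (nat_lit 336) (nat_lit 0) (XT.lf (nat_lit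 0) (nat_lit 1419322389619) (nat_lit 420) (nat_lit 4269831409983) (nat_lit 504) (nat_lit 6750259049563) (nat_lit 106) (nat_lit 5) (nat_lit 111) (nat_lit 5) (nat_lit 112) (nat_lit 5) (nat_lit 469) (nat_lit 459) (nat_lit 152)) (XT.nd (nat_lit 94) (nat_lit 0) (nat_lit 0) (XT.lf (nat_lit 0) (nat_lit 28222587191) (nat_lit 336) (nat_lit 8527496453191) (nat_lit 420) (nat_lit 4436042264431) (nat_lit 102) (nat_lit 5) (nat_lit 106) (nat_lit 5) (nat_lit 107) (nat_lit 5) (nat_lit 470) (nat_lit 459) (nat_lit 151)) (XT.lf (nat_lit 0) (nat_lit 11920109115515) (nat_lit 420) (nat_lit 1301311689689) (nat_lit 84) (nat_lit 353451850954) (nat_lit 102) (nat_lit 5) (nat_lit 107) (nat_lit 5) (nat_lit 103) (nat_lit 5) (nat_lit 471) (nat_lit 459) (nat_lit 150)))) (XT.nd (nat_lit 188) (nat_lit 588) (nat_lit 0) (XT.nd (nat_lit 94) (nat_lit 336) (nat_lit 0) (XT.lf (nat_lit 0) (nat_lit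 1634775459249) (nat_lit 420) (nat_lit 2696041646150) (nat_lit 84) (nat_lit 9856315964919) (nat_lit 97) (nat_lit 5) (nat_lit 102) (nat_lit 5) (nat_lit 98) (nat_lit 5) (nat_lit 472) (nat_lit 459) (nat_lit 149)) (XT.lf (nat_lit 0) (nat_lit 5408216038600) (nat_lit 420) (nat_lit 4098992436379) (nat_lit 84) (nat_lit 5325873813410) (nat_lit 93) (nat_lit 5) (nat_lit 98) (nat_lit 5) (nat_lit 94) (nat_lit 5) (nat_lit 473) (nat_lit 459) (nat_lit 148))) (XT.nd (nat_lit 94) (nat_lit 252) (nat_lit 0) (XT.lf (nat_lit 0) (nat_lit 9765849502551) (nat_lit 420) (nat_lit 5466838873555) (nat_lit 84) (nat_lit 283903185888) (nat_lit 89) (nat_lit 5) (nat_lit 94) (nat_lit 5) (nat_lit 90) (nat_lit 5) (nat_lit 474) (nat_lit 459) (nat_lit 147)) (XT.lf (nat_lit 0) (nat_lit 9363779636762) (nat_lit 252) (nat_lit 5487390075685) (nat_lit 336) (nat_lit 1384658061598) (nat_lit 86) (nat_lit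 5) (nat_lit 89) (nat_lit 5) (nat_lit 90) (nat_lit 5) (nat_lit 475) (nat_lit 459) (nat_lit 146))))) (XT.nd (nat_lit 376) (nat_lit 924) (nat_lit 0) (XT.nd (nat_lit 188) (nat_lit 588) (nat_lit 0) (XT.nd (nat_lit 94) (nat_lit 252) (nat_lit 0) (XT.lf (nat_lit 0) (nat_lit 3541572814836) (nat_lit 420) (nat_lit 8285441660330) (nat_lit 84) (nat_lit 5167115131728) (nat_lit 81) (nat_lit 5) (nat_lit 86) (nat_lit 5) (nat_lit 82) (nat_lit 5) (nat_lit 476) (nat_lit 459) (nat_lit 145)) (XT.lf (nat_lit 0) (nat_lit 8116099465255) (nat_lit 252) (nat_lit 1038851101792) (nat_lit 336) (nat_lit 8639932049739) (nat_lit 78) (nat_lit 5) (nat_lit 81) (nat_lit 5) (nat_lit 82) (nat_lit 5) (nat_lit 477) (nat_lit 459) (nat_lit 144))) (XT.nd (nat_lit 94) (nat_lit 336) (nat_lit 0) (XT.lf (nat_lit 0) (nat_lit 7546639631301) (nat_lit 252) (nat_lit 8100964931744) (nat_lit 336) (nat_lit 2990581003245)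 (nat_lit 75) (nat_lit 5) (nat_lit 78) (nat_lit 5) (nat_lit 79) (nat_lit 5) (nat_lit 478) (nat_lit 459) (nat_lit 143)) (XT.lf (nat_lit 0) (nat_lit 3370479462079) (nat_lit 336) (nat_lit 12476855857671) (nat_lit 84) (nat_lit 3681222893517) (nat_lit 71) (nat_lit 5) (nat_lit 75) (nat_lit 5) (nat_lit 72) (nat_lit 5) (nat_lit 479) (nat_lit 459) (nat_lit 142)))) (XT.nd (nat_lit 188) (nat_lit 504) (nat_lit 0) (XT.nd (nat_lit 94) (nat_lit 168) (nat_lit 0) (XT.lf (nat_lit 0) (nat_lit 6582474988832) (nat_lit 252) (nat_lit 3990317985962) (nat_lit 336) (nat_lit 9893059221263) (nat_lit 68) (nat_lit 5) (nat_lit 71) (nat_lit 5) (nat_lit 72) (nat_lit 5) (nat_lit 480) (nat_lit 459) (nat_lit 141)) (XT.lf (nat_lit 0) (nat_lit 6202147644526) (nat_lit 168) (nat_lit 12604509465273) (nat_lit 252) (nat_lit 2648704310607) (nat_lit 66) (nat_lit 5) (nat_lit 68) (nat_lit 5) (nat_lit 69)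 (nat_lit 5) (nat_lit 481) (nat_lit 459) (nat_lit 140))) (XT.nd (nat_lit 94) (nat_lit 168) (nat_lit 0) (XT.lf (nat_lit 0) (nat_lit 5422824250341) (nat_lit 336) (nat_lit 16591899943100) (nat_lit 84) (nat_lit 484604024026) (nat_lit 62) (nat_lit 5) (nat_lit 66) (nat_lit 5) (nat_lit 63) (nat_lit 5) (nat_lit 482) (nat_lit 459) (nat_lit 139)) (XT.lf (nat_lit 0) (nat_lit 5610086738559) (nat_lit 168) (nat_lit 9008612401891) (nat_lit 252) (nat_lit 8977371061689) (nat_lit 60) (nat_lit 5) (nat_lit 62) (nat_lit 5) (nat_lit 63) (nat_lit 5) (nat_lit 483) (nat_lit 459) (nat_lit 138))))))))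
noncomputable def xc247 : XT := (XT.nd (nat_lit 67586) (nat_lit 0) (nat_lit 336) (XT.nd (nat_lit 66270) (nat_lit 0) (nat_lit 1848) (XT.nd (nat_lit 65612) (nat_lit 0) (nat_lit 6468) (XT.nd (nat_lit 282) (nat_lit 588) (nat_lit 0) (XT.nd (nat_lit 94) (nat_lit 336) (nat_lit 0) (XT.lf (nat_lit 0) (nat_lit 242981451450) (nat_lit 252) (nat_lit 19254047919626) (nat_lit 84) (nat_lit 5260406076991) (nat_lit 57) (nat_lit 5) (nat_lit 60) (nat_lit 5) (nat_lit 58) (nat_lit 5) (nat_lit 484) (nat_lit 459) (nat_lit 137)) (XT.nd (nat_lit 94) (nat_lit 168) (nat_lit 0) (XT.lf (nat_lit 0) (nat_lit 5381981513565) (nat_lit 168) (nat_lit 5063031996683) (nat_lit 252) (nat_lit 15531409167746) (nat_lit 55) (nat_lit 5) (nat_lit 57) (nat_lit 5) (nat_lit 58) (nat_lit 5) (nat_lit 485) (nat_lit 459) (nat_lit 136)) (XT.lf (nat_lit 0) (nat_lit 5403398722799) (nat_lit 168) (nat_lit 16649398391885)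 (nat_lit 252) (nat_lit 5210652322585) (nat_lit 53) (nat_lit 5) (nat_lit 55) (nat_lit 5) (nat_lit 56) (nat_lit 5) (nat_lit 486) (nat_lit 459) (nat_lit 135)))) (XT.nd (nat_lit 188) (nat_lit 168) (nat_lit 0) (XT.nd (nat_lit 94) (nat_lit 168) (nat_lit 0) (XT.lf (nat_lit 0) (nat_lit 5575509625732) (nat_lit 168) (nat_lit 707318084053) (nat_lit 252) (nat_lit 22339124721545) (nat_lit 50) (nat_lit 5) (nat_lit 52) (nat_lit 5) (nat_lit 53) (nat_lit 5) (nat_lit 487) (nat_lit 459) (nat_lit 134)) (XT.lf (nat_lit 0) (nat_lit 5748550482234) (nat_lit 168) (nat_lit 13501671140988) (nat_lit 252) (nat_lit 10797793447512) (nat_lit 48) (nat_lit 5) (nat_lit 50) (nat_lit 5) (nat_lit 51) (nat_lit 5) (nat_lit 488) (nat_lit 459) (nat_lit 133))) (XT.nd (nat_lit 65048) (nat_lit 0) (nat_lit 6888) (XT.lf (nat_lit 0) (nat_lit 2195586896216) (nat_lit 168) (nat_lit 25367615984147) (nat_lit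 84) (nat_lit 3994554035567) (nat_lit 46) (nat_lit 5) (nat_lit 48) (nat_lit 5) (nat_lit 47) (nat_lit 5) (nat_lit 489) (nat_lit 459) (nat_lit 132)) (XT.lf (nat_lit 0) (nat_lit 2098675733515) (nat_lit 924) (nat_lit 1182021098994) (nat_lit 924) (nat_lit 1182021098994) (nat_lit 128) (nat_lit 3) (nat_lit 139) (nat_lit 3) (nat_lit 139) (nat_lit 5) (nat_lit 460) (nat_lit 460) (nat_lit 160))))) (XT.nd (nat_lit 282) (nat_lit 504) (nat_lit 0) (XT.nd (nat_lit 94) (nat_lit 0) (nat_lit 0) (XT.lf (nat_lit 0) (nat_lit 4449963447083) (nat_lit 840) (nat_lit 4352049400539) (nat_lit 924) (nat_lit 476204553835) (nat_lit 129) (nat_lit 5) (nat_lit 139) (nat_lit 5) (nat_lit 140) (nat_lit 5) (nat_lit 461) (nat_lit 460) (nat_lit 159)) (XT.nd (nat_lit 94) (nat_lit 0) (nat_lit 84) (XT.lf (nat_lit 84) (nat_lit 3218553383684) (nat_lit 0) (nat_lit 1706973896255) (nat_lit 924) (nat_lit 4723557038326)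 (nat_lit 130) (nat_lit 5) (nat_lit 129) (nat_lit 5) (nat_lit 140) (nat_lit 5) (nat_lit 462) (nat_lit 460) (nat_lit 158)) (XT.lf (nat_lit 84) (nat_lit 1456783283833) (nat_lit 0) (nat_lit 4175134753978) (nat_lit 924) (nat_lit 4408063459687) (nat_lit 131) (nat_lit 5) (nat_lit 130) (nat_lit 5) (nat_lit 141) (nat_lit 5) (nat_lit 463) (nat_lit 460) (nat_lit 157)))) (XT.nd (nat_lit 188) (nat_lit 672) (nat_lit 0) (XT.nd (nat_lit 94) (nat_lit 0) (nat_lit 84) (XT.lf (nat_lit 0) (nat_lit 6591982105262) (nat_lit 840) (nat_lit 336981190022) (nat_lit 924) (nat_lit 3523329053339) (nat_lit 131) (nat_lit 5) (nat_lit 141) (nat_lit 5) (nat_lit 142) (nat_lit 5) (nat_lit 464) (nat_lit 460) (nat_lit 156)) (XT.lf (nat_lit 0) (nat_lit 7851050924408) (nat_lit 840) (nat_lit 2122407839036) (nat_lit 924) (nat_lit 913019323078) (nat_lit 132) (nat_lit 5) (nat_lit 142) (nat_lit 5) (nat_lit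 143) (nat_lit 5) (nat_lit 465) (nat_lit 460) (nat_lit 155))) (XT.nd (nat_lit 94) (nat_lit 756) (nat_lit 0) (XT.lf (nat_lit 84) (nat_lit 7369058800373) (nat_lit 0) (nat_lit 2079639310893) (nat_lit 924) (nat_lit 1894807929078) (nat_lit 133) (nat_lit 5) (nat_lit 132) (nat_lit 5) (nat_lit 143) (nat_lit 5) (nat_lit 466) (nat_lit 460) (nat_lit 154)) (XT.lf (nat_lit 0) (nat_lit 5949567608338) (nat_lit 840) (nat_lit 5455691163251) (nat_lit 924) (nat_lit 420282373958) (nat_lit 123) (nat_lit 5) (nat_lit 133) (nat_lit 5) (nat_lit 134) (nat_lit 5) (nat_lit 467) (nat_lit 460) (nat_lit 153)))))) (XT.nd (nat_lit 658) (nat_lit 2100) (nat_lit 0) (XT.nd (nat_lit 282) (nat_lit 1092) (nat_lit 0) (XT.nd (nat_lit 94) (nat_lit 840) (nat_lit 0) (XT.lf (nat_lit 0) (nat_lit 1361978892426) (nat_lit 588) (nat_lit 7828948049526) (nat_lit 84) (nat_lit 3142932469048) (nat_lit 116) (nat_lit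 5) (nat_lit 123) (nat_lit 5) (nat_lit 117) (nat_lit 5) (nat_lit 468) (nat_lit 460) (nat_lit 152)) (XT.nd (nat_lit 94) (nat_lit 420) (nat_lit 0) (XT.lf (nat_lit 0) (nat_lit 3045074612446) (nat_lit 420) (nat_lit 470787351326) (nat_lit 504) (nat_lit 9354448402629) (nat_lit 111) (nat_lit 5) (nat_lit 116) (nat_lit 5) (nat_lit 117) (nat_lit 5) (nat_lit 469) (nat_lit 460) (nat_lit 151)) (XT.lf (nat_lit 0) (nat_lit 1532868182394) (nat_lit 420) (nat_lit 4611417922669) (nat_lit 504) (nat_lit 7290279771962) (nat_lit 106) (nat_lit 5) (nat_lit 111) (nat_lit 5) (nat_lit 112) (nat_lit 5) (nat_lit 470) (nat_lit 460) (nat_lit 150)))) (XT.nd (nat_lit 188) (nat_lit 756) (nat_lit 0) (XT.nd (nat_lit 94) (nat_lit 0) (nat_lit 0) (XT.lf (nat_lit 0) (nat_lit 30480395771) (nat_lit 336) (nat_lit 9209696169250) (nat_lit 420) (nat_lit 4790925644107) (nat_lit 102) (nat_lit 5) (nat_lit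 106) (nat_lit 5) (nat_lit 107) (nat_lit 5) (nat_lit 471) (nat_lit 460) (nat_lit 149)) (XT.lf (nat_lit 0) (nat_lit 12873717846063) (nat_lit 420) (nat_lit 1405416623316) (nat_lit 84) (nat_lit 381727999207) (nat_lit 102) (nat_lit 5) (nat_lit 107) (nat_lit 5) (nat_lit 103) (nat_lit 5) (nat_lit 472) (nat_lit 460) (nat_lit 148))) (XT.nd (nat_lit 94) (nat_lit 336) (nat_lit 0) (XT.lf (nat_lit 0) (nat_lit 1765557497242) (nat_lit 420) (nat_lit 2911724976320) (nat_lit 84) (nat_lit 10644821242319) (nat_lit 97) (nat_lit 5) (nat_lit 102) (nat_lit 5) (nat_lit 98) (nat_lit 5) (nat_lit 473) (nat_lit 460) (nat_lit 147)) (XT.lf (nat_lit 0) (nat_lit 5840873322876) (nat_lit 420) (nat_lit 4426911829779) (nat_lit 84) (nat_lit 5751943718747) (nat_lit 93) (nat_lit 5) (nat_lit 98) (nat_lit 5) (nat_lit 94) (nat_lit 5) (nat_lit 474) (nat_lit 460) (nat_lit 146))))) (XT.nd (nat_lit 282)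 (nat_lit 1092) (nat_lit 0) (XT.nd (nat_lit 94) (nat_lit 672) (nat_lit 0) (XT.lf (nat_lit 0) (nat_lit 10547117463882) (nat_lit 420) (nat_lit 5904185981943) (nat_lit 84) (nat_lit 306615441073) (nat_lit 89) (nat_lit 5) (nat_lit 94) (nat_lit 5) (nat_lit 90) (nat_lit 5) (nat_lit 475) (nat_lit 460) (nat_lit 145)) (XT.nd (nat_lit 94) (nat_lit 420) (nat_lit 0) (XT.lf (nat_lit 0) (nat_lit 10112882009135) (nat_lit 252) (nat_lit 5926381281374) (nat_lit 336) (nat_lit 1495430705407) (nat_lit 86) (nat_lit 5) (nat_lit 89) (nat_lit 5) (nat_lit 90) (nat_lit 5) (nat_lit 476) (nat_lit 460) (nat_lit 144)) (XT.lf (nat_lit 0) (nat_lit 3824898641054) (nat_lit 420) (nat_lit 8948276991708) (nat_lit 84) (nat_lit 5580484342633) (nat_lit 81) (nat_lit 5) (nat_lit 86) (nat_lit 5) (nat_lit 82) (nat_lit 5) (nat_lit 477) (nat_lit 460) (nat_lit 143)))) (XT.nd (nat_lit 188) (nat_lit 588) (nat_lit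 0) (XT.nd (nat_lit 94) (nat_lit 252) (nat_lit 0) (XT.lf (nat_lit 0) (nat_lit 8765387423861) (nat_lit 252) (nat_lit 1121959189526) (nat_lit 336) (nat_lit 9331126612693) (nat_lit 78) (nat_lit 5) (nat_lit 81) (nat_lit 5) (nat_lit 82) (nat_lit 5) (nat_lit 478) (nat_lit 460) (nat_lit 142)) (XT.lf (nat_lit 0) (nat_lit 8150370803171) (nat_lit 252) (nat_lit 8749042125848) (nat_lit 336) (nat_lit 3229827482527) (nat_lit 75) (nat_lit 5) (nat_lit 78) (nat_lit 5) (nat_lit 79) (nat_lit 5) (nat_lit 479) (nat_lit 460) (nat_lit 141))) (XT.nd (nat_lit 94) (nat_lit 252) (nat_lit 0) (XT.lf (nat_lit 0) (nat_lit 3640117819949) (nat_lit 336) (nat_lit 13475004324910) (nat_lit 84) (nat_lit 3975720725424) (nat_lit 71) (nat_lit 5) (nat_lit 75) (nat_lit 5) (nat_lit 72) (nat_lit 5) (nat_lit 480) (nat_lit 460) (nat_lit 140)) (XT.lf (nat_lit 0) (nat_lit 7109072989253) (nat_lit 252) (nat_lit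 4309543424382) (nat_lit 336) (nat_lit 10684503958064) (nat_lit 68) (nat_lit 5) (nat_lit 71) (nat_lit 5) (nat_lit 72) (nat_lit 5) (nat_lit 481) (nat_lit 460) (nat_lit 139))))))) (XT.nd (nat_lit 66458) (nat_lit 0) (nat_lit 1512) (XT.nd (nat_lit 65800) (nat_lit 0) (nat_lit 6552) (XT.nd (nat_lit 282) (nat_lit 840) (nat_lit 0) (XT.nd (nat_lit 94) (nat_lit 504) (nat_lit 0) (XT.lf (nat_lit 0) (nat_lit 6698319457381) (nat_lit 168) (nat_lit 13612870222024) (nat_lit 252) (nat_lit 2860600654594) (nat_lit 66) (nat_lit 5) (nat_lit 68) (nat_lit 5) (nat_lit 69) (nat_lit 5) (nat_lit 482) (nat_lit 460) (nat_lit 138)) (XT.nd (nat_lit 94) (nat_lit 168) (nat_lit 0) (XT.lf (nat_lit 0) (nat_lit 5856650191168) (nat_lit 336) (nat_lit 17919251937254) (nat_lit 84) (nat_lit 523372346404) (nat_lit 62) (nat_lit 5) (nat_lit 66) (nat_lit 5) (nat_lit 63) (nat_lit 5) (nat_lit 483) (nat_lit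 460) (nat_lit 137)) (XT.lf (nat_lit 0) (nat_lit 6058893678882) (nat_lit 168) (nat_lit 9729301393563) (nat_lit 252) (nat_lit 9695560745827) (nat_lit 60) (nat_lit 5) (nat_lit 62) (nat_lit 5) (nat_lit 63) (nat_lit 5) (nat_lit 484) (nat_lit 460) (nat_lit 136)))) (XT.nd (nat_lit 188) (nat_lit 420) (nat_lit 0) (XT.nd (nat_lit 94) (nat_lit 168) (nat_lit 0) (XT.lf (nat_lit 0) (nat_lit 262419968307) (nat_lit 252) (nat_lit 20794371751957) (nat_lit 84) (nat_lit 5681238563611) (nat_lit 57) (nat_lit 5) (nat_lit 60) (nat_lit 5) (nat_lit 58) (nat_lit 5) (nat_lit 485) (nat_lit 460) (nat_lit 135)) (XT.lf (nat_lit 0) (nat_lit 5812540035835) (nat_lit 168) (nat_lit 5468074555938) (nat_lit 252) (nat_lit 16773921900426) (nat_lit 55) (nat_lit 5) (nat_lit 57) (nat_lit 5) (nat_lit 58) (nat_lit 5) (nat_lit 486) (nat_lit 460) (nat_lit 134))) (XT.nd (nat_lit 94) (nat_lit 252) (nat_lit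 0) (XT.lf (nat_lit 0) (nat_lit 5835670621783) (nat_lit 168) (nat_lit 17981350262754) (nat_lit 252) (nat_lit 5627504507681) (nat_lit 53) (nat_lit 5) (nat_lit 55) (nat_lit 5) (nat_lit 56) (nat_lit 5) (nat_lit 487) (nat_lit 460) (nat_lit 133)) (XT.lf (nat_lit 0) (nat_lit 6021550396922) (nat_lit 168) (nat_lit 763903530302) (nat_lit 252) (nat_lit 24126254698581) (nat_lit 50) (nat_lit 5) (nat_lit 52) (nat_lit 5) (nat_lit 53) (nat_lit 5) (nat_lit 488) (nat_lit 460) (nat_lit 132))))) (XT.nd (nat_lit 282) (nat_lit 0) (nat_lit 168) (XT.nd (nat_lit 94) (nat_lit 0) (nat_lit 84) (XT.lf (nat_lit 0) (nat_lit 2266569793437) (nat_lit 924) (nat_lit 1276582786262) (nat_lit 924) (nat_lit 1276582786262) (nat_lit 128) (nat_lit 3) (nat_lit 139) (nat_lit 3) (nat_lit 139) (nat_lit 5) (nat_lit 461) (nat_lit 461) (nat_lit 158)) (XT.nd (nat_lit 94) (nat_lit 0) (nat_lit 0) (XT.lf (nat_lit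 0) (nat_lit 4805960525150) (nat_lit 840) (nat_lit 4700213351203) (nat_lit 924) (nat_lit 514300917106) (nat_lit 129) (nat_lit 5) (nat_lit 139) (nat_lit 5) (nat_lit 140) (nat_lit 5) (nat_lit 462) (nat_lit 461) (nat_lit 157)) (XT.lf (nat_lit 84) (nat_lit 3476037655697) (nat_lit 0) (nat_lit 1843531808788) (nat_lit 924) (nat_lit 5101441599135) (nat_lit 130) (nat_lit 5) (nat_lit 129) (nat_lit 5) (nat_lit 140) (nat_lit 5) (nat_lit 463) (nat_lit 461) (nat_lit 156)))) (XT.nd (nat_lit 188) (nat_lit 0) (nat_lit 168) (XT.nd (nat_lit 94) (nat_lit 0) (nat_lit 84) (XT.lf (nat_lit 84) (nat_lit 1573325947917) (nat_lit 0) (nat_lit 4509145534920) (nat_lit 924) (nat_lit 4760708534362) (nat_lit 131) (nat_lit 5) (nat_lit 130) (nat_lit 5) (nat_lit 141) (nat_lit 5) (nat_lit 464) (nat_lit 461) (nat_lit 155)) (XT.lf (nat_lit 0) (nat_lit 7119340675526) (nat_lit 840) (nat_lit 363939683847)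 (nat_lit 924) (nat_lit 3805195377047) (nat_lit 131) (nat_lit 5) (nat_lit 141) (nat_lit 5) (nat_lit 142) (nat_lit 5) (nat_lit 465) (nat_lit 461) (nat_lit 154))) (XT.nd (nat_lit 94) (nat_lit 0) (nat_lit 0) (XT.lf (nat_lit 0) (nat_lit 8479135000082) (nat_lit 840) (nat_lit 2292200464749) (nat_lit 924) (nat_lit 986060868527) (nat_lit 132) (nat_lit 5) (nat_lit 142) (nat_lit 5) (nat_lit 143) (nat_lit 5) (nat_lit 466) (nat_lit 461) (nat_lit 153)) (XT.lf (nat_lit 84) (nat_lit 7958583505750) (nat_lit 0) (nat_lit 2246010456032) (nat_lit 924) (nat_lit 2046392561710) (nat_lit 133) (nat_lit 5) (nat_lit 132) (nat_lit 5) (nat_lit 143) (nat_lit 5) (nat_lit 467) (nat_lit 461) (nat_lit 152)))))) (XT.nd (nat_lit 658) (nat_lit 2436) (nat_lit 0) (XT.nd (nat_lit 282) (nat_lit 1176) (nat_lit 0) (XT.nd (nat_lit 94) (nat_lit 1008) (nat_lit 0) (XT.lf (nat_lit 0) (nat_lit 6425533018375)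 (nat_lit 840) (nat_lit 5892146456453) (nat_lit 924) (nat_lit 453904962286) (nat_lit 123) (nat_lit 5) (nat_lit 133) (nat_lit 5) (nat_lit 134) (nat_lit 5) (nat_lit 468) (nat_lit 461) (nat_lit 151)) (XT.nd (nat_lit 94) (nat_lit 420) (nat_lit 0) (XT.lf (nat_lit 0) (nat_lit 1470937205263) (nat_lit 588) (nat_lit 8455263892055) (nat_lit 84) (nat_lit 3394367066489) (nat_lit 116) (nat_lit 5) (nat_lit 123) (nat_lit 5) (nat_lit 117) (nat_lit 5) (nat_lit 469) (nat_lit 461) (nat_lit 150)) (XT.lf (nat_lit 0) (nat_lit 3288680582812) (nat_lit 420) (nat_lit 508450339420) (nat_lit 504) (nat_lit 10102804273414) (nat_lit 111) (nat_lit 5) (nat_lit 116) (nat_lit 5) (nat_lit 117) (nat_lit 5) (nat_lit 470) (nat_lit 461) (nat_lit 149)))) (XT.nd (nat_lit 188) (nat_lit 420) (nat_lit 0) (XT.nd (nat_lit 94) (nat_lit 336) (nat_lit 0) (XT.lf (nat_lit 0) (nat_lit 1655497638361) (nat_lit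 420) (nat_lit 4980331356385) (nat_lit 504) (nat_lit 7873502152376) (nat_lit 106) (nat_lit 5) (nat_lit 111) (nat_lit 5) (nat_lit 112) (nat_lit 5) (nat_lit 471) (nat_lit 461) (nat_lit 148)) (XT.lf (nat_lit 0) (nat_lit 32918828809) (nat_lit 336) (nat_lit 9946471862621) (nat_lit 420) (nat_lit 5174199694369) (nat_lit 102) (nat_lit 5) (nat_lit 106) (nat_lit 5) (nat_lit 107) (nat_lit 5) (nat_lit 472) (nat_lit 461) (nat_lit 147))) (XT.nd (nat_lit 94) (nat_lit 420) (nat_lit 0) (XT.lf (nat_lit 0) (nat_lit 13903615274868) (nat_lit 420) (nat_lit 1517849951854) (nat_lit 84) (nat_lit 412266239295) (nat_lit 102) (nat_lit 5) (nat_lit 107) (nat_lit 5) (nat_lit 103) (nat_lit 5) (nat_lit 473) (nat_lit 461) (nat_lit 146)) (XT.lf (nat_lit 0) (nat_lit 1906802098095) (nat_lit 420) (nat_lit 3144662973120) (nat_lit 84) (nat_lit 11496406941882) (nat_lit 97) (nat_lit 5) (nat_lit 102)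 (nat_lit 5) (nat_lit 98) (nat_lit 5) (nat_lit 474) (nat_lit 461) (nat_lit 145))))) (XT.nd (nat_lit 376) (nat_lit 1092) (nat_lit 0) (XT.nd (nat_lit 188) (nat_lit 672) (nat_lit 0) (XT.nd (nat_lit 94) (nat_lit 336) (nat_lit 0) (XT.lf (nat_lit 0) (nat_lit 6308143189723) (nat_lit 420) (nat_lit 4781064774866) (nat_lit 84) (nat_lit 6212099216474) (nat_lit 93) (nat_lit 5) (nat_lit 98) (nat_lit 5) (nat_lit 94) (nat_lit 5) (nat_lit 475) (nat_lit 461) (nat_lit 144)) (XT.lf (nat_lit 0) (nat_lit 11390886861958) (nat_lit 420) (nat_lit 6376520859216) (nat_lit 84) (nat_lit 331144676627) (nat_lit 89) (nat_lit 5) (nat_lit 94) (nat_lit 5) (nat_lit 90) (nat_lit 5) (nat_lit 476) (nat_lit 461) (nat_lit 143))) (XT.nd (nat_lit 94) (nat_lit 420) (nat_lit 0) (XT.lf (nat_lit 0) (nat_lit 10921912571093) (nat_lit 252) (nat_lit 6400491783571) (nat_lit 336) (nat_lit 1615065160880) (nat_lit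 86) (nat_lit 5) (nat_lit 89) (nat_lit 5) (nat_lit 90) (nat_lit 5) (nat_lit 477) (nat_lit 461) (nat_lit 142)) (XT.lf (nat_lit 0) (nat_lit 4130890533222) (nat_lit 420) (nat_lit 9664139149803) (nat_lit 84) (nat_lit 6026923090357) (nat_lit 81) (nat_lit 5) (nat_lit 86) (nat_lit 5) (nat_lit 82) (nat_lit 5) (nat_lit 478) (nat_lit 461) (nat_lit 141)))) (XT.nd (nat_lit 188) (nat_lit 588) (nat_lit 0) (XT.nd (nat_lit 94) (nat_lit 252) (nat_lit 0) (XT.lf (nat_lit 0) (nat_lit 9466618418959) (nat_lit 252) (nat_lit 1211715924337) (nat_lit 336) (nat_lit 10077616740830) (nat_lit 78) (nat_lit 5) (nat_lit 81) (nat_lit 5) (nat_lit 82) (nat_lit 5) (nat_lit 479) (nat_lit 461) (nat_lit 140)) (XT.lf (nat_lit 0) (nat_lit 8802400468596) (nat_lit 252) (nat_lit 9448965495543) (nat_lit 336) (nat_lit 3488213680291) (nat_lit 75) (nat_lit 5) (nat_lit 78) (nat_lit 5) (nat_lit 79) (nat_lit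 5) (nat_lit 480) (nat_lit 461) (nat_lit 139))) (XT.nd (nat_lit 94) (nat_lit 252) (nat_lit 0) (XT.lf (nat_lit 0) (nat_lit 3931327246320) (nat_lit 336) (nat_lit 14553004669725) (nat_lit 84) (nat_lit 4293778383823) (nat_lit 71) (nat_lit 5) (nat_lit 75) (nat_lit 5) (nat_lit 72) (nat_lit 5) (nat_lit 481) (nat_lit 461) (nat_lit 138)) (XT.lf (nat_lit 0) (nat_lit 7677798829520) (nat_lit 252) (nat_lit 4654306897940) (nat_lit 336) (nat_lit 11539264273938) (nat_lit 68) (nat_lit 5) (nat_lit 71) (nat_lit 5) (nat_lit 72) (nat_lit 5) (nat_lit 482) (nat_lit 461) (nat_lit 137))))))))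
noncomputable def xc248 : XT := (XT.nd (nat_lit 67868) (nat_lit 0) (nat_lit 168) (XT.nd (nat_lit 66552) (nat_lit 0) (nat_lit 1260) (XT.nd (nat_lit 65894) (nat_lit 0) (nat_lit 5880) (XT.nd (nat_lit 282) (nat_lit 588) (nat_lit 0) (XT.nd (nat_lit 94) (nat_lit 504) (nat_lit 0) (XT.lf (nat_lit 0) (nat_lit 7234185015078) (nat_lit 168) (nat_lit 14701899839382) (nat_lit 252) (nat_lit 3089448706223) (nat_lit 66) (nat_lit 5) (nat_lit 68) (nat_lit 5) (nat_lit 69) (nat_lit 5) (nat_lit 483) (nat_lit 461) (nat_lit 136)) (XT.nd (nat_lit 94) (nat_lit 168) (nat_lit 0) (XT.lf (nat_lit 0) (nat_lit 6325182207147) (nat_lit 336) (nat_lit 19352792091125) (nat_lit 84) (nat_lit 565242134506) (nat_lit 62) (nat_lit 5) (nat_lit 66) (nat_lit 5) (nat_lit 63) (nat_lit 5) (nat_lit 484) (nat_lit 461) (nat_lit 135)) (XT.lf (nat_lit 0) (nat_lit 6543605174254) (nat_lit 168) (nat_lit 10507645504638)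 (nat_lit 252) (nat_lit 10471205604809) (nat_lit 60) (nat_lit 5) (nat_lit 62) (nat_lit 5) (nat_lit 63) (nat_lit 5) (nat_lit 485) (nat_lit 461) (nat_lit 134)))) (XT.nd (nat_lit 188) (nat_lit 168) (nat_lit 0) (XT.nd (nat_lit 94) (nat_lit 168) (nat_lit 0) (XT.lf (nat_lit 0) (nat_lit 283413566407) (nat_lit 252) (nat_lit 22457921491052) (nat_lit 84) (nat_lit 6135737649094) (nat_lit 57) (nat_lit 5) (nat_lit 60) (nat_lit 5) (nat_lit 58) (nat_lit 5) (nat_lit 486) (nat_lit 461) (nat_lit 133)) (XT.lf (nat_lit 0) (nat_lit 6277543239716) (nat_lit 168) (nat_lit 5905520520003) (nat_lit 252) (nat_lit 18115835651826) (nat_lit 55) (nat_lit 5) (nat_lit 57) (nat_lit 5) (nat_lit 58) (nat_lit 5) (nat_lit 487) (nat_lit 461) (nat_lit 132))) (XT.nd (nat_lit 65330) (nat_lit 0) (nat_lit 6300) (XT.lf (nat_lit 0) (nat_lit 6302524272519) (nat_lit 168) (nat_lit 19419858283362) (nat_lit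 252) (nat_lit 6077704867686) (nat_lit 53) (nat_lit 5) (nat_lit 55) (nat_lit 5) (nat_lit 56) (nat_lit 5) (nat_lit 488) (nat_lit 461) (nat_lit 131)) (XT.lf (nat_lit 0) (nat_lit 2447895377975) (nat_lit 924) (nat_lit 1378709408604) (nat_lit 924) (nat_lit 1378709408604) (nat_lit 128) (nat_lit 3) (nat_lit 139) (nat_lit 3) (nat_lit 139) (nat_lit 5) (nat_lit 462) (nat_lit 462) (nat_lit 156))))) (XT.nd (nat_lit 282) (nat_lit 504) (nat_lit 0) (XT.nd (nat_lit 94) (nat_lit 0) (nat_lit 0) (XT.lf (nat_lit 0) (nat_lit 5190437369134) (nat_lit 840) (nat_lit 5076230418118) (nat_lit 924) (nat_lit 555444989586) (nat_lit 129) (nat_lit 5) (nat_lit 139) (nat_lit 5) (nat_lit 140) (nat_lit 5) (nat_lit 463) (nat_lit 462) (nat_lit 155)) (XT.nd (nat_lit 94) (nat_lit 0) (nat_lit 84) (XT.lf (nat_lit 84) (nat_lit 3754120669283) (nat_lit 0) (nat_lit 1991014354204) (nat_lit 924) (nat_lit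 5509556925130) (nat_lit 130) (nat_lit 5) (nat_lit 129) (nat_lit 5) (nat_lit 140) (nat_lit 5) (nat_lit 464) (nat_lit 462) (nat_lit 154)) (XT.lf (nat_lit 84) (nat_lit 1699192024930) (nat_lit 0) (nat_lit 4869877178248) (nat_lit 924) (nat_lit 5141565215310) (nat_lit 131) (nat_lit 5) (nat_lit 130) (nat_lit 5) (nat_lit 141) (nat_lit 5) (nat_lit 465) (nat_lit 462) (nat_lit 153)))) (XT.nd (nat_lit 188) (nat_lit 672) (nat_lit 0) (XT.nd (nat_lit 94) (nat_lit 0) (nat_lit 84) (XT.lf (nat_lit 0) (nat_lit 7688887931149) (nat_lit 840) (nat_lit 393054857375) (nat_lit 924) (nat_lit 4109611006732) (nat_lit 131) (nat_lit 5) (nat_lit 141) (nat_lit 5) (nat_lit 142) (nat_lit 5) (nat_lit 466) (nat_lit 462) (nat_lit 152)) (XT.lf (nat_lit 0) (nat_lit 9157465801564) (nat_lit 840) (nat_lit 2475576500721) (nat_lit 924) (nat_lit 1064945737668) (nat_lit 132) (nat_lit 5) (nat_lit 142) (nat_lit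 5) (nat_lit 143) (nat_lit 5) (nat_lit 467) (nat_lit 462) (nat_lit 151))) (XT.nd (nat_lit 94) (nat_lit 756) (nat_lit 0) (XT.lf (nat_lit 84) (nat_lit 8595270187366) (nat_lit 0) (nat_lit 2425691292743) (nat_lit 924) (nat_lit 2210103965193) (nat_lit 133) (nat_lit 5) (nat_lit 132) (nat_lit 5) (nat_lit 143) (nat_lit 5) (nat_lit 468) (nat_lit 462) (nat_lit 150)) (XT.lf (nat_lit 0) (nat_lit 6939575661021) (nat_lit 840) (nat_lit 6363518173091) (nat_lit 924) (nat_lit 490217357908) (nat_lit 123) (nat_lit 5) (nat_lit 133) (nat_lit 5) (nat_lit 134) (nat_lit 5) (nat_lit 469) (nat_lit 462) (nat_lit 149)))))) (XT.nd (nat_lit 658) (nat_lit 2100) (nat_lit 0) (XT.nd (nat_lit 282) (nat_lit 1092) (nat_lit 0) (XT.nd (nat_lit 94) (nat_lit 840) (nat_lit 0) (XT.lf (nat_lit 0) (nat_lit 1588612182921) (nat_lit 588) (nat_lit 9131685002191) (nat_lit 84) (nat_lit 3665916431738) (nat_lit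 116) (nat_lit 5) (nat_lit 123) (nat_lit 5) (nat_lit 117) (nat_lit 5) (nat_lit 470) (nat_lit 462) (nat_lit 148)) (XT.nd (nat_lit 94) (nat_lit 420) (nat_lit 0) (XT.lf (nat_lit 0) (nat_lit 3551775030612) (nat_lit 420) (nat_lit 549126366562) (nat_lit 504) (nat_lit 10911028614065) (nat_lit 111) (nat_lit 5) (nat_lit 116) (nat_lit 5) (nat_lit 117) (nat_lit 5) (nat_lit 471) (nat_lit 462) (nat_lit 147)) (XT.lf (nat_lit 0) (nat_lit 1787937450610) (nat_lit 420) (nat_lit 5378757864812) (nat_lit 504) (nat_lit 8503382323415) (nat_lit 106) (nat_lit 5) (nat_lit 111) (nat_lit 5) (nat_lit 112) (nat_lit 5) (nat_lit 472) (nat_lit 462) (nat_lit 146)))) (XT.nd (nat_lit 188) (nat_lit 756) (nat_lit 0) (XT.nd (nat_lit 94) (nat_lit 0) (nat_lit 0) (XT.lf (nat_lit 0) (nat_lit 35552336294) (nat_lit 336) (nat_lit 10742189611485) (nat_lit 420) (nat_lit 5588135668832) (nat_lit 102) (nat_lit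 5) (nat_lit 106) (nat_lit 5) (nat_lit 107) (nat_lit 5) (nat_lit 473) (nat_lit 462) (nat_lit 145)) (XT.lf (nat_lit 0) (nat_lit 15015904497818) (nat_lit 420) (nat_lit 1639277946865) (nat_lit 84) (nat_lit 445247538569) (nat_lit 102) (nat_lit 5) (nat_lit 107) (nat_lit 5) (nat_lit 103) (nat_lit 5) (nat_lit 474) (nat_lit 462) (nat_lit 144))) (XT.nd (nat_lit 94) (nat_lit 336) (nat_lit 0) (XT.lf (nat_lit 0) (nat_lit 2059346266864) (nat_lit 420) (nat_lit 3396236009851) (nat_lit 84) (nat_lit 12416119497385) (nat_lit 97) (nat_lit 5) (nat_lit 102) (nat_lit 5) (nat_lit 98) (nat_lit 5) (nat_lit 475) (nat_lit 462) (nat_lit 143)) (XT.lf (nat_lit 0) (nat_lit 6812794645774) (nat_lit 420) (nat_lit 5163549955744) (nat_lit 84) (nat_lit 6709067153986) (nat_lit 93) (nat_lit 5) (nat_lit 98) (nat_lit 5) (nat_lit 94) (nat_lit 5) (nat_lit 476) (nat_lit 462) (nat_lit 142))))) (XT.nd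 (nat_lit 282) (nat_lit 1092) (nat_lit 0) (XT.nd (nat_lit 94) (nat_lit 672) (nat_lit 0) (XT.lf (nat_lit 0) (nat_lit 12302157811743) (nat_lit 420) (nat_lit 6886642526853) (nat_lit 84) (nat_lit 357636250987) (nat_lit 89) (nat_lit 5) (nat_lit 94) (nat_lit 5) (nat_lit 90) (nat_lit 5) (nat_lit 477) (nat_lit 462) (nat_lit 141)) (XT.nd (nat_lit 94) (nat_lit 420) (nat_lit 0) (XT.lf (nat_lit 0) (nat_lit 11795665577832) (nat_lit 252) (nat_lit 6912531125988) (nat_lit 336) (nat_lit 1744270372928) (nat_lit 86) (nat_lit 5) (nat_lit 89) (nat_lit 5) (nat_lit 90) (nat_lit 5) (nat_lit 478) (nat_lit 462) (nat_lit 140)) (XT.lf (nat_lit 0) (nat_lit 4461361776637) (nat_lit 420) (nat_lit 10437270280722) (nat_lit 84) (nat_lit 6509076937856) (nat_lit 81) (nat_lit 5) (nat_lit 86) (nat_lit 5) (nat_lit 82) (nat_lit 5) (nat_lit 479) (nat_lit 462) (nat_lit 139)))) (XT.nd (nat_lit 188) (nat_lit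 588) (nat_lit 0) (XT.nd (nat_lit 94) (nat_lit 252) (nat_lit 0) (XT.lf (nat_lit 0) (nat_lit 10223947893494) (nat_lit 252) (nat_lit 1308653197982) (nat_lit 336) (nat_lit 10883826079344) (nat_lit 78) (nat_lit 5) (nat_lit 81) (nat_lit 5) (nat_lit 82) (nat_lit 5) (nat_lit 480) (nat_lit 462) (nat_lit 138)) (XT.lf (nat_lit 0) (nat_lit 9506592507088) (nat_lit 252) (nat_lit 10204882734866) (nat_lit 336) (nat_lit 3767270773996) (nat_lit 75) (nat_lit 5) (nat_lit 78) (nat_lit 5) (nat_lit 79) (nat_lit 5) (nat_lit 481) (nat_lit 462) (nat_lit 137))) (XT.nd (nat_lit 94) (nat_lit 252) (nat_lit 0) (XT.lf (nat_lit 0) (nat_lit 4245833426690) (nat_lit 336) (nat_lit 15717245042292) (nat_lit 84) (nat_lit 4637280654841) (nat_lit 71) (nat_lit 5) (nat_lit 75) (nat_lit 5) (nat_lit 72) (nat_lit 5) (nat_lit 482) (nat_lit 462) (nat_lit 136)) (XT.lf (nat_lit 0) (nat_lit 8292022736849) (nat_lit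 252) (nat_lit 5026651449439) (nat_lit 336) (nat_lit 12462405415191) (nat_lit 68) (nat_lit 5) (nat_lit 71) (nat_lit 5) (nat_lit 72) (nat_lit 5) (nat_lit 483) (nat_lit 462) (nat_lit 135))))))) (XT.nd (nat_lit 66646) (nat_lit 0) (nat_lit 924) (XT.nd (nat_lit 65988) (nat_lit 0) (nat_lit 5124) (XT.nd (nat_lit 282) (nat_lit 420) (nat_lit 0) (XT.nd (nat_lit 94) (nat_lit 504) (nat_lit 0) (XT.lf (nat_lit 0) (nat_lit 7812919817234) (nat_lit 168) (nat_lit 15878051826186) (nat_lit 252) (nat_lit 3336604602087) (nat_lit 66) (nat_lit 5) (nat_lit 68) (nat_lit 5) (nat_lit 69) (nat_lit 5) (nat_lit 484) (nat_lit 462) (nat_lit 134)) (XT.nd (nat_lit 94) (nat_lit 168) (nat_lit 0) (XT.lf (nat_lit 0) (nat_lit 6831196784306) (nat_lit 336) (nat_lit 20901015457463) (nat_lit 84) (nat_lit 610461505601) (nat_lit 62) (nat_lit 5) (nat_lit 66) (nat_lit 5) (nat_lit 63) (nat_lit 5) (nat_lit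 485) (nat_lit 462) (nat_lit 133)) (XT.lf (nat_lit 0) (nat_lit 7067093589104) (nat_lit 168) (nat_lit 11348257144657) (nat_lit 252) (nat_lit 11308902052608) (nat_lit 60) (nat_lit 5) (nat_lit 62) (nat_lit 5) (nat_lit 63) (nat_lit 5) (nat_lit 486) (nat_lit 462) (nat_lit 132)))) (XT.nd (nat_lit 65518) (nat_lit 0) (nat_lit 6132) (XT.nd (nat_lit 94) (nat_lit 168) (nat_lit 0) (XT.lf (nat_lit 0) (nat_lit 306086652265) (nat_lit 252) (nat_lit 24254555209427) (nat_lit 84) (nat_lit 6626596661360) (nat_lit 57) (nat_lit 5) (nat_lit 60) (nat_lit 5) (nat_lit 58) (nat_lit 5) (nat_lit 487) (nat_lit 462) (nat_lit 131)) (XT.lf (nat_lit 0) (nat_lit 6779746699765) (nat_lit 168) (nat_lit 6377962161250) (nat_lit 252) (nat_lit 19565102503428) (nat_lit 55) (nat_lit 5) (nat_lit 57) (nat_lit 5) (nat_lit 58) (nat_lit 5) (nat_lit 488) (nat_lit 462) (nat_lit 130))) (XT.nd (nat_lit 94) (nat_lit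 0) (nat_lit 84) (XT.lf (nat_lit 0) (nat_lit 2643727009125) (nat_lit 924) (nat_lit 1489006160814) (nat_lit 924) (nat_lit 1489006160814) (nat_lit 128) (nat_lit 3) (nat_lit 139) (nat_lit 3) (nat_lit 139) (nat_lit 5) (nat_lit 463) (nat_lit 463) (nat_lit 154)) (XT.lf (nat_lit 0) (nat_lit 5605672360355) (nat_lit 840) (nat_lit 5482328850554) (nat_lit 924) (nat_lit 599880587991) (nat_lit 129) (nat_lit 5) (nat_lit 139) (nat_lit 5) (nat_lit 140) (nat_lit 5) (nat_lit 464) (nat_lit 463) (nat_lit 153))))) (XT.nd (nat_lit 282) (nat_lit 1092) (nat_lit 0) (XT.nd (nat_lit 94) (nat_lit 0) (nat_lit 84) (XT.lf (nat_lit 84) (nat_lit 4054450323795) (nat_lit 0) (nat_lit 2150295503151) (nat_lit 924) (nat_lit 5950321477481) (nat_lit 130) (nat_lit 5) (nat_lit 129) (nat_lit 5) (nat_lit 140) (nat_lit 5) (nat_lit 465) (nat_lit 463) (nat_lit 152)) (XT.nd (nat_lit 94) (nat_lit 0) (nat_lit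 84) (XT.lf (nat_lit 84) (nat_lit 1835127387936) (nat_lit 0) (nat_lit 5259467352967) (nat_lit 924) (nat_lit 5552890430991) (nat_lit 131) (nat_lit 5) (nat_lit 130) (nat_lit 5) (nat_lit 141) (nat_lit 5) (nat_lit 466) (nat_lit 463) (nat_lit 151)) (XT.lf (nat_lit 0) (nat_lit 8303998966996) (nat_lit 840) (nat_lit 424499244953) (nat_lit 924) (nat_lit 4438379886859) (nat_lit 131) (nat_lit 5) (nat_lit 141) (nat_lit 5) (nat_lit 142) (nat_lit 5) (nat_lit 467) (nat_lit 463) (nat_lit 150)))) (XT.nd (nat_lit 188) (nat_lit 1344) (nat_lit 0) (XT.nd (nat_lit 94) (nat_lit 0) (nat_lit 0) (XT.lf (nat_lit 0) (nat_lit 9890063066954) (nat_lit 840) (nat_lit 2673622619743) (nat_lit 924) (nat_lit 1150141396390) (nat_lit 132) (nat_lit 5) (nat_lit 142) (nat_lit 5) (nat_lit 143) (nat_lit 5) (nat_lit 468) (nat_lit 463) (nat_lit 149)) (XT.lf (nat_lit 84) (nat_lit 9282891803346) (nat_lit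 0) (nat_lit 2619746596358) (nat_lit 924) (nat_lit 2386912281163) (nat_lit 133) (nat_lit 5) (nat_lit 132) (nat_lit 5) (nat_lit 143) (nat_lit 5) (nat_lit 469) (nat_lit 463) (nat_lit 148))) (XT.nd (nat_lit 94) (nat_lit 588) (nat_lit 0) (XT.lf (nat_lit 0) (nat_lit 7494741714910) (nat_lit 840) (nat_lit 6872599627043) (nat_lit 924) (nat_lit 529434745373) (nat_lit 123) (nat_lit 5) (nat_lit 133) (nat_lit 5) (nat_lit 134) (nat_lit 5) (nat_lit 470) (nat_lit 463) (nat_lit 147)) (XT.lf (nat_lit 0) (nat_lit 1715701158616) (nat_lit 588) (nat_lit 9862219801313) (nat_lit 84) (nat_lit 3959189746217) (nat_lit 116) (nat_lit 5) (nat_lit 123) (nat_lit 5) (nat_lit 117) (nat_lit 5) (nat_lit 471) (nat_lit 463) (nat_lit 146)))))) (XT.nd (nat_lit 658) (nat_lit 1932) (nat_lit 0) (XT.nd (nat_lit 282) (nat_lit 1092) (nat_lit 0) (XT.nd (nat_lit 94) (nat_lit 756) (nat_lit 0) (XT.lf (nat_lit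 0) (nat_lit 3835917034069) (nat_lit 420) (nat_lit 593056475877) (nat_lit 504) (nat_lit 11783910902143) (nat_lit 111) (nat_lit 5) (nat_lit 116) (nat_lit 5) (nat_lit 117) (nat_lit 5) (nat_lit 472) (nat_lit 463) (nat_lit 145)) (XT.nd (nat_lit 94) (nat_lit 336) (nat_lit 0) (XT.lf (nat_lit 0) (nat_lit 1930972447671) (nat_lit 420) (nat_lit 5809058493926) (nat_lit 504) (nat_lit 9183652908301) (nat_lit 106) (nat_lit 5) (nat_lit 111) (nat_lit 5) (nat_lit 112) (nat_lit 5) (nat_lit 473) (nat_lit 463) (nat_lit 144)) (XT.lf (nat_lit 0) (nat_lit 38396524209) (nat_lit 336) (nat_lit 11601564780280) (nat_lit 420) (nat_lit 6035186521407) (nat_lit 102) (nat_lit 5) (nat_lit 106) (nat_lit 5) (nat_lit 107) (nat_lit 5) (nat_lit 474) (nat_lit 463) (nat_lit 143)))) (XT.nd (nat_lit 188) (nat_lit 672) (nat_lit 0) (XT.nd (nat_lit 94) (nat_lit 420) (nat_lit 0) (XT.lf (nat_lit 0) (nat_lit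 16217176858466) (nat_lit 420) (nat_lit 1770420181638) (nat_lit 84) (nat_lit 480867341766) (nat_lit 102) (nat_lit 5) (nat_lit 107) (nat_lit 5) (nat_lit 103) (nat_lit 5) (nat_lit 475) (nat_lit 463) (nat_lit 142)) (XT.lf (nat_lit 0) (nat_lit 2224093969003) (nat_lit 420) (nat_lit 3667934889680) (nat_lit 84) (nat_lit 13409409057306) (nat_lit 97) (nat_lit 5) (nat_lit 102) (nat_lit 5) (nat_lit 98) (nat_lit 5) (nat_lit 476) (nat_lit 463) (nat_lit 141))) (XT.nd (nat_lit 94) (nat_lit 336) (nat_lit 0) (XT.lf (nat_lit 0) (nat_lit 7357818218184) (nat_lit 420) (nat_lit 5576633951252) (nat_lit 84) (nat_lit 7245792526472) (nat_lit 93) (nat_lit 5) (nat_lit 98) (nat_lit 5) (nat_lit 94) (nat_lit 5) (nat_lit 477) (nat_lit 463) (nat_lit 140)) (XT.lf (nat_lit 0) (nat_lit 13286330437393) (nat_lit 420) (nat_lit 7437573928058) (nat_lit 84) (nat_lit 386247151264) (nat_lit 89) (nat_lit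 5) (nat_lit 94) (nat_lit 5) (nat_lit 90) (nat_lit 5) (nat_lit 478) (nat_lit 463) (nat_lit 139))))) (XT.nd (nat_lit 282) (nat_lit 1008) (nat_lit 0) (XT.nd (nat_lit 94) (nat_lit 672) (nat_lit 0) (XT.lf (nat_lit 0) (nat_lit 12739318824961) (nat_lit 252) (nat_lit 7465533615836) (nat_lit 336) (nat_lit 1883812002058) (nat_lit 86) (nat_lit 5) (nat_lit 89) (nat_lit 5) (nat_lit 90) (nat_lit 5) (nat_lit 479) (nat_lit 463) (nat_lit 138)) (XT.nd (nat_lit 94) (nat_lit 252) (nat_lit 0) (XT.lf (nat_lit 0) (nat_lit 4818270719418) (nat_lit 420) (nat_lit 11272251902267) (nat_lit 84) (nat_lit 7029803093115) (nat_lit 81) (nat_lit 5) (nat_lit 86) (nat_lit 5) (nat_lit 82) (nat_lit 5) (nat_lit 480) (nat_lit 463) (nat_lit 137)) (XT.lf (nat_lit 0) (nat_lit 11041863725847) (nat_lit 252) (nat_lit 1413345453562) (nat_lit 336) (nat_lit 11754532165045) (nat_lit 78) (nat_lit 5) (nat_lit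 81) (nat_lit 5) (nat_lit 82) (nat_lit 5) (nat_lit 481) (nat_lit 463) (nat_lit 136)))) (XT.nd (nat_lit 188) (nat_lit 420) (nat_lit 0) (XT.nd (nat_lit 94) (nat_lit 336) (nat_lit 0) (XT.lf (nat_lit 0) (nat_lit 10267119908516) (nat_lit 252) (nat_lit 11021273353382) (nat_lit 336) (nat_lit 4068652435300) (nat_lit 75) (nat_lit 5) (nat_lit 78) (nat_lit 5) (nat_lit 79) (nat_lit 5) (nat_lit 482) (nat_lit 463) (nat_lit 135)) (XT.lf (nat_lit 0) (nat_lit 4585500101395) (nat_lit 336) (nat_lit 16974624644809) (nat_lit 84) (nat_lit 5008263107497) (nat_lit 71) (nat_lit 5) (nat_lit 75) (nat_lit 5) (nat_lit 72) (nat_lit 5) (nat_lit 483) (nat_lit 463) (nat_lit 134))) (XT.nd (nat_lit 94) (nat_lit 168) (nat_lit 0) (XT.lf (nat_lit 0) (nat_lit 8955384556625) (nat_lit 252) (nat_lit 5428783565106) (nat_lit 336) (nat_lit 13459397847839) (nat_lit 68) (nat_lit 5) (nat_lit 71) (nat_lit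 5) (nat_lit 72) (nat_lit 5) (nat_lit 484) (nat_lit 463) (nat_lit 133)) (XT.lf (nat_lit 0) (nat_lit 8437953403428) (nat_lit 168) (nat_lit 17148295971984) (nat_lit 252) (nat_lit 3603532969711) (nat_lit 66) (nat_lit 5) (nat_lit 68) (nat_lit 5) (nat_lit 69) (nat_lit 5) (nat_lit 485) (nat_lit 463) (nat_lit 132))))))))
noncomputable def xc249 : XT := (XT.nd (nat_lit 133668) (nat_lit 0) (nat_lit 756) (XT.nd (nat_lit 66740) (nat_lit 0) (nat_lit 420) (XT.nd (nat_lit 66082) (nat_lit 0) (nat_lit 4116) (XT.nd (nat_lit 65706) (nat_lit 0) (nat_lit 5964) (XT.nd (nat_lit 94) (nat_lit 420) (nat_lit 0) (XT.lf (nat_lit 0) (nat_lit 7377692527555) (nat_lit 336) (nat_lit 22573096693244) (nat_lit 84) (nat_lit 659298426336) (nat_lit 62) (nat_lit 5) (nat_lit 66) (nat_lit 5) (nat_lit 63) (nat_lit 5) (nat_lit 486) (nat_lit 463) (nat_lit 131)) (XT.nd (nat_lit 94) (nat_lit 252) (nat_lit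 0) (XT.lf (nat_lit 0) (nat_lit 7632461077013) (nat_lit 168) (nat_lit 12256117715928) (nat_lit 252) (nat_lit 12213614216314) (nat_lit 60) (nat_lit 5) (nat_lit 62) (nat_lit 5) (nat_lit 63) (nat_lit 5) (nat_lit 487) (nat_lit 463) (nat_lit 130)) (XT.lf (nat_lit 0) (nat_lit 330573584913) (nat_lit 252) (nat_lit 26194919625401) (nat_lit 84) (nat_lit 7156724394558) (nat_lit 57) (nat_lit 5) (nat_lit 60) (nat_lit 5) (nat_lit 58) (nat_lit 5) (nat_lit 488) (nat_lit 463) (nat_lit 129)))) (XT.nd (nat_lit 188) (nat_lit 0) (nat_lit 84) (XT.nd (nat_lit 94) (nat_lit 0) (nat_lit 84) (XT.lf (nat_lit 0) (nat_lit 2855225170637) (nat_lit 924) (nat_lit 1608126653269) (nat_lit 924) (nat_lit 1608126653269) (nat_lit 128) (nat_lit 3) (nat_lit 139) (nat_lit 3) (nat_lit 139) (nat_lit 5) (nat_lit 464) (nat_lit 464) (nat_lit 152)) (XT.lf (nat_lit 0) (nat_lit 6054126150633) (nat_lit 840)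 (nat_lit 5920915157730) (nat_lit 924) (nat_lit 647871034377) (nat_lit 129) (nat_lit 5) (nat_lit 139) (nat_lit 5) (nat_lit 140) (nat_lit 5) (nat_lit 465) (nat_lit 464) (nat_lit 151))) (XT.nd (nat_lit 94) (nat_lit 0) (nat_lit 84) (XT.lf (nat_lit 84) (nat_lit 4378806350530) (nat_lit 0) (nat_lit 2322319143927) (nat_lit 924) (nat_lit 6426347194256) (nat_lit 130) (nat_lit 5) (nat_lit 129) (nat_lit 5) (nat_lit 140) (nat_lit 5) (nat_lit 466) (nat_lit 464) (nat_lit 150)) (XT.lf (nat_lit 84) (nat_lit 1981937579839) (nat_lit 0) (nat_lit 5680224741597) (nat_lit 924) (nat_lit 5997121664147) (nat_lit 131) (nat_lit 5) (nat_lit 130) (nat_lit 5) (nat_lit 141) (nat_lit 5) (nat_lit 467) (nat_lit 464) (nat_lit 149))))) (XT.nd (nat_lit 282) (nat_lit 2100) (nat_lit 0) (XT.nd (nat_lit 94) (nat_lit 0) (nat_lit 84) (XT.lf (nat_lit 0) (nat_lit 8968318885517) (nat_lit 840) (nat_lit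 458459183683) (nat_lit 924) (nat_lit 4793450277456) (nat_lit 131) (nat_lit 5) (nat_lit 141) (nat_lit 5) (nat_lit 142) (nat_lit 5) (nat_lit 468) (nat_lit 464) (nat_lit 148)) (XT.nd (nat_lit 94) (nat_lit 0) (nat_lit 0) (XT.lf (nat_lit 0) (nat_lit 10681268113394) (nat_lit 840) (nat_lit 2887512428435) (nat_lit 924) (nat_lit 1242152707850) (nat_lit 132) (nat_lit 5) (nat_lit 142) (nat_lit 5) (nat_lit 143) (nat_lit 5) (nat_lit 469) (nat_lit 464) (nat_lit 147)) (XT.lf (nat_lit 84) (nat_lit 10025523148463) (nat_lit 0) (nat_lit 2829326324234) (nat_lit 924) (nat_lit 2577865262588) (nat_lit 133) (nat_lit 5) (nat_lit 132) (nat_lit 5) (nat_lit 143) (nat_lit 5) (nat_lit 470) (nat_lit 464) (nat_lit 146)))) (XT.nd (nat_lit 188) (nat_lit 840) (nat_lit 0) (XT.nd (nat_lit 94) (nat_lit 588) (nat_lit 0) (XT.lf (nat_lit 0) (nat_lit 8094321052966) (nat_lit 840) (nat_lit 7422407597295)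 (nat_lit 924) (nat_lit 571789524003) (nat_lit 123) (nat_lit 5) (nat_lit 133) (nat_lit 5) (nat_lit 134) (nat_lit 5) (nat_lit 471) (nat_lit 464) (nat_lit 145)) (XT.lf (nat_lit 0) (nat_lit 1852957252215) (nat_lit 588) (nat_lit 10651197384514) (nat_lit 84) (nat_lit 4275924925863) (nat_lit 116) (nat_lit 5) (nat_lit 123) (nat_lit 5) (nat_lit 117) (nat_lit 5) (nat_lit 472) (nat_lit 464) (nat_lit 144))) (XT.nd (nat_lit 94) (nat_lit 420) (nat_lit 0) (XT.lf (nat_lit 0) (nat_lit 4142790397659) (nat_lit 420) (nat_lit 640500993939) (nat_lit 504) (nat_lit 12726623773416) (nat_lit 111) (nat_lit 5) (nat_lit 116) (nat_lit 5) (nat_lit 117) (nat_lit 5) (nat_lit 473) (nat_lit 464) (nat_lit 143)) (XT.lf (nat_lit 0) (nat_lit 2085450244351) (nat_lit 420) (nat_lit 6273783173379) (nat_lit 504) (nat_lit 9918345140119) (nat_lit 106) (nat_lit 5) (nat_lit 111) (nat_lit 5) (nat_lit 112)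 (nat_lit 5) (nat_lit 474) (nat_lit 464) (nat_lit 142)))))) (XT.nd (nat_lit 658) (nat_lit 1596) (nat_lit 0) (XT.nd (nat_lit 282) (nat_lit 1344) (nat_lit 0) (XT.nd (nat_lit 94) (nat_lit 420) (nat_lit 0) (XT.lf (nat_lit 0) (nat_lit 41468247012) (nat_lit 336) (nat_lit 12529689962596) (nat_lit 420) (nat_lit 6518001442321) (nat_lit 102) (nat_lit 5) (nat_lit 106) (nat_lit 5) (nat_lit 107) (nat_lit 5) (nat_lit 475) (nat_lit 464) (nat_lit 141)) (XT.nd (nat_lit 94) (nat_lit 420) (nat_lit 0) (XT.lf (nat_lit 0) (nat_lit 17514551007849) (nat_lit 420) (nat_lit 1912053795333) (nat_lit 84) (nat_lit 519336729202) (nat_lit 102) (nat_lit 5) (nat_lit 107) (nat_lit 5) (nat_lit 103) (nat_lit 5) (nat_lit 476) (nat_lit 464) (nat_lit 140)) (XT.lf (nat_lit 0) (nat_lit 2402021487200) (nat_lit 420) (nat_lit 3961369680032) (nat_lit 84) (nat_lit 14482161782002) (nat_lit 97) (nat_lit 5)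 (nat_lit 102) (nat_lit 5) (nat_lit 98) (nat_lit 5) (nat_lit 477) (nat_lit 464) (nat_lit 139)))) (XT.nd (nat_lit 188) (nat_lit 672) (nat_lit 0) (XT.nd (nat_lit 94) (nat_lit 336) (nat_lit 0) (XT.lf (nat_lit 0) (nat_lit 7946443676280) (nat_lit 420) (nat_lit 6022764666535) (nat_lit 84) (nat_lit 7825455928733) (nat_lit 93) (nat_lit 5) (nat_lit 98) (nat_lit 5) (nat_lit 94) (nat_lit 5) (nat_lit 478) (nat_lit 464) (nat_lit 138)) (XT.lf (nat_lit 0) (nat_lit 14349236872993) (nat_lit 420) (nat_lit 8032579841494) (nat_lit 84) (nat_lit 417146923535) (nat_lit 89) (nat_lit 5) (nat_lit 94) (nat_lit 5) (nat_lit 90) (nat_lit 5) (nat_lit 479) (nat_lit 464) (nat_lit 137))) (XT.nd (nat_lit 94) (nat_lit 420) (nat_lit 0) (XT.lf (nat_lit 0) (nat_lit 13758464331732) (nat_lit 252) (nat_lit 8062776304905) (nat_lit 336) (nat_lit 2034516961618) (nat_lit 86) (nat_lit 5) (nat_lit 89) (nat_lit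 5) (nat_lit 90) (nat_lit 5) (nat_lit 480) (nat_lit 464) (nat_lit 136)) (XT.lf (nat_lit 0) (nat_lit 5203732377528) (nat_lit 420) (nat_lit 12174032053665) (nat_lit 84) (nat_lit 7592187340763) (nat_lit 81) (nat_lit 5) (nat_lit 86) (nat_lit 5) (nat_lit 82) (nat_lit 5) (nat_lit 481) (nat_lit 464) (nat_lit 135))))) (XT.nd (nat_lit 282) (nat_lit 756) (nat_lit 0) (XT.nd (nat_lit 94) (nat_lit 588) (nat_lit 0) (XT.lf (nat_lit 0) (nat_lit 11925212824664) (nat_lit 252) (nat_lit 1526413089626) (nat_lit 336) (nat_lit 12694894737695) (nat_lit 78) (nat_lit 5) (nat_lit 81) (nat_lit 5) (nat_lit 82) (nat_lit 5) (nat_lit 482) (nat_lit 464) (nat_lit 134)) (XT.nd (nat_lit 94) (nat_lit 336) (nat_lit 0) (XT.lf (nat_lit 0) (nat_lit 11088489501935) (nat_lit 252) (nat_lit 11902975221417) (nat_lit 336) (nat_lit 4394144629596) (nat_lit 75) (nat_lit 5) (nat_lit 78) (nat_lit 5) (nat_lit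 79) (nat_lit 5) (nat_lit 483) (nat_lit 464) (nat_lit 133)) (XT.lf (nat_lit 0) (nat_lit 4952340109995) (nat_lit 336) (nat_lit 18332594615652) (nat_lit 84) (nat_lit 5408924156327) (nat_lit 71) (nat_lit 5) (nat_lit 75) (nat_lit 5) (nat_lit 72) (nat_lit 5) (nat_lit 484) (nat_lit 464) (nat_lit 132)))) (XT.nd (nat_lit 188) (nat_lit 336) (nat_lit 0) (XT.nd (nat_lit 94) (nat_lit 168) (nat_lit 0) (XT.lf (nat_lit 0) (nat_lit 9671815321866) (nat_lit 252) (nat_lit 5863086250067) (nat_lit 336) (nat_lit 14536149675180) (nat_lit 68) (nat_lit 5) (nat_lit 71) (nat_lit 5) (nat_lit 72) (nat_lit 5) (nat_lit 485) (nat_lit 464) (nat_lit 131)) (XT.lf (nat_lit 0) (nat_lit 9112989676401) (nat_lit 168) (nat_lit 18520159649488) (nat_lit 252) (nat_lit 3891815606822) (nat_lit 66) (nat_lit 5) (nat_lit 68) (nat_lit 5) (nat_lit 69) (nat_lit 5) (nat_lit 486) (nat_lit 464) (nat_lit 130)))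 (XT.nd (nat_lit 65706) (nat_lit 0) (nat_lit 5544) (XT.lf (nat_lit 0) (nat_lit 7967907930191) (nat_lit 336) (nat_lit 24378944428005) (nat_lit 84) (nat_lit 712042300689) (nat_lit 62) (nat_lit 5) (nat_lit 66) (nat_lit 5) (nat_lit 63) (nat_lit 5) (nat_lit 487) (nat_lit 464) (nat_lit 129)) (XT.lf (nat_lit 0) (nat_lit 3083643184958) (nat_lit 924) (nat_lit 1736776785179) (nat_lit 924) (nat_lit 1736776785179) (nat_lit 128) (nat_lit 3) (nat_lit 139) (nat_lit 3) (nat_lit 139) (nat_lit 5) (nat_lit 465) (nat_lit 465) (nat_lit 150))))))) (XT.nd (nat_lit 1316) (nat_lit 2268) (nat_lit 0) (XT.nd (nat_lit 658) (nat_lit 2520) (nat_lit 0) (XT.nd (nat_lit 282) (nat_lit 504) (nat_lit 0) (XT.nd (nat_lit 94) (nat_lit 0) (nat_lit 0) (XT.lf (nat_lit 0) (nat_lit 6538456243926) (nat_lit 840) (nat_lit 6394588369603) (nat_lit 924) (nat_lit 699700716567) (nat_lit 129) (nat_lit 5) (nat_lit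 139) (nat_lit 5) (nat_lit 140) (nat_lit 5) (nat_lit 466) (nat_lit 465) (nat_lit 149)) (XT.nd (nat_lit 94) (nat_lit 0) (nat_lit 84) (XT.lf (nat_lit 84) (nat_lit 4729110859285) (nat_lit 0) (nat_lit 2508104675891) (nat_lit 924) (nat_lit 6940454968577) (nat_lit 130) (nat_lit 5) (nat_lit 129) (nat_lit 5) (nat_lit 140) (nat_lit 5) (nat_lit 467) (nat_lit 465) (nat_lit 148)) (XT.lf (nat_lit 84) (nat_lit 2140492586970) (nat_lit 0) (nat_lit 6134642721262) (nat_lit 924) (nat_lit 6476891396144) (nat_lit 131) (nat_lit 5) (nat_lit 130) (nat_lit 5) (nat_lit 141) (nat_lit 5) (nat_lit 468) (nat_lit 465) (nat_lit 147)))) (XT.nd (nat_lit 188) (nat_lit 672) (nat_lit 0) (XT.nd (nat_lit 94) (nat_lit 0) (nat_lit 84) (XT.lf (nat_lit 0) (nat_lit 9685784397354) (nat_lit 840) (nat_lit 495135917634) (nat_lit 924) (nat_lit 5176926299350) (nat_lit 131) (nat_lit 5) (nat_lit 141) (nat_lit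 5) (nat_lit 142) (nat_lit 5) (nat_lit 469) (nat_lit 465) (nat_lit 146)) (XT.lf (nat_lit 0) (nat_lit 11535769563395) (nat_lit 840) (nat_lit 3118513421948) (nat_lit 924) (nat_lit 1341524924263) (nat_lit 132) (nat_lit 5) (nat_lit 142) (nat_lit 5) (nat_lit 143) (nat_lit 5) (nat_lit 470) (nat_lit 465) (nat_lit 145))) (XT.nd (nat_lit 94) (nat_lit 756) (nat_lit 0) (XT.lf (nat_lit 84) (nat_lit 10827565001068) (nat_lit 0) (nat_lit 3055672430317) (nat_lit 924) (nat_lit 2784094482679) (nat_lit 133) (nat_lit 5) (nat_lit 132) (nat_lit 5) (nat_lit 143) (nat_lit 5) (nat_lit 471) (nat_lit 465) (nat_lit 144)) (XT.lf (nat_lit 0) (nat_lit 8741866737944) (nat_lit 840) (nat_lit 8016200205155) (nat_lit 924) (nat_lit 617532685065) (nat_lit 123) (nat_lit 5) (nat_lit 133) (nat_lit 5) (nat_lit 134) (nat_lit 5) (nat_lit 472) (nat_lit 465) (nat_lit 143))))) (XT.nd (nat_lit 282) (nat_lit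 1092) (nat_lit 0) (XT.nd (nat_lit 94) (nat_lit 840) (nat_lit 0) (XT.lf (nat_lit 0) (nat_lit 2001193833172) (nat_lit 588) (nat_lit 11503293174501) (nat_lit 84) (nat_lit 4617998919887) (nat_lit 116) (nat_lit 5) (nat_lit 123) (nat_lit 5) (nat_lit 117) (nat_lit 5) (nat_lit 473) (nat_lit 465) (nat_lit 142)) (XT.nd (nat_lit 94) (nat_lit 420) (nat_lit 0) (XT.lf (nat_lit 0) (nat_lit 4474213630212) (nat_lit 420) (nat_lit 691741073447) (nat_lit 504) (nat_lit 13744753674519) (nat_lit 111) (nat_lit 5) (nat_lit 116) (nat_lit 5) (nat_lit 117) (nat_lit 5) (nat_lit 474) (nat_lit 465) (nat_lit 141)) (XT.lf (nat_lit 0) (nat_lit 2252286264643) (nat_lit 420) (nat_lit 6775685827197) (nat_lit 504) (nat_lit 10711812750603) (nat_lit 106) (nat_lit 5) (nat_lit 111) (nat_lit 5) (nat_lit 112) (nat_lit 5) (nat_lit 475) (nat_lit 465) (nat_lit 140)))) (XT.nd (nat_lit 188) (nat_lit 756)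 (nat_lit 0) (XT.nd (nat_lit 94) (nat_lit 0) (nat_lit 0) (XT.lf (nat_lit 0) (nat_lit 44785707517) (nat_lit 336) (nat_lit 13532065159513) (nat_lit 420) (nat_lit 7039441557022) (nat_lit 102) (nat_lit 5) (nat_lit 106) (nat_lit 5) (nat_lit 107) (nat_lit 5) (nat_lit 476) (nat_lit 465) (nat_lit 139)) (XT.lf (nat_lit 0) (nat_lit 18915715089082) (nat_lit 420) (nat_lit 2065018098242) (nat_lit 84) (nat_lit 560883667621) (nat_lit 102) (nat_lit 5) (nat_lit 107) (nat_lit 5) (nat_lit 103) (nat_lit 5) (nat_lit 477) (nat_lit 465) (nat_lit 138))) (XT.nd (nat_lit 94) (nat_lit 336) (nat_lit 0) (XT.lf (nat_lit 0) (nat_lit 2594183206756) (nat_lit 420) (nat_lit 4278279253729) (nat_lit 84) (nat_lit 15640734724658) (nat_lit 97) (nat_lit 5) (nat_lit 102) (nat_lit 5) (nat_lit 98) (nat_lit 5) (nat_lit 478) (nat_lit 465) (nat_lit 137)) (XT.lf (nat_lit 0) (nat_lit 8582159170932) (nat_lit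 420) (nat_lit 6504585839158) (nat_lit 84) (nat_lit 8451492403155) (nat_lit 93) (nat_lit 5) (nat_lit 98) (nat_lit 5) (nat_lit 94) (nat_lit 5) (nat_lit 479) (nat_lit 465) (nat_lit 136)))))) (XT.nd (nat_lit 658) (nat_lit 168) (nat_lit 0) (XT.nd (nat_lit 282) (nat_lit 1092) (nat_lit 0) (XT.nd (nat_lit 94) (nat_lit 672) (nat_lit 0) (XT.lf (nat_lit 0) (nat_lit 15497175823355) (nat_lit 420) (nat_lit 8675186228121) (nat_lit 84) (nat_lit 450518677563) (nat_lit 89) (nat_lit 5) (nat_lit 94) (nat_lit 5) (nat_lit 90) (nat_lit 5) (nat_lit 480) (nat_lit 465) (nat_lit 135)) (XT.nd (nat_lit 94) (nat_lit 420) (nat_lit 0) (XT.lf (nat_lit 0) (nat_lit 14859141478934) (nat_lit 252) (nat_lit 8707798409128) (nat_lit 336) (nat_lit 2197278318029) (nat_lit 86) (nat_lit 5) (nat_lit 89) (nat_lit 5) (nat_lit 90) (nat_lit 5) (nat_lit 481) (nat_lit 465) (nat_lit 134)) (XT.lf (nat_lit 0)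 (nat_lit 5620030968208) (nat_lit 420) (nat_lit 13147954617287) (nat_lit 84) (nat_lit 8199562328193) (nat_lit 81) (nat_lit 5) (nat_lit 86) (nat_lit 5) (nat_lit 82) (nat_lit 5) (nat_lit 482) (nat_lit 465) (nat_lit 133)))) (XT.nd (nat_lit 188) (nat_lit 588) (nat_lit 0) (XT.nd (nat_lit 94) (nat_lit 252) (nat_lit 0) (XT.lf (nat_lit 0) (nat_lit 12879229851279) (nat_lit 252) (nat_lit 1648526136606) (nat_lit 336) (nat_lit 13710486316236) (nat_lit 78) (nat_lit 5) (nat_lit 81) (nat_lit 5) (nat_lit 82) (nat_lit 5) (nat_lit 483) (nat_lit 465) (nat_lit 132)) (XT.lf (nat_lit 0) (nat_lit 11975568662723) (nat_lit 252) (nat_lit 12855213238929) (nat_lit 336) (nat_lit 4745676199511) (nat_lit 75) (nat_lit 5) (nat_lit 78) (nat_lit 5) (nat_lit 79) (nat_lit 5) (nat_lit 484) (nat_lit 465) (nat_lit 131))) (XT.nd (nat_lit 94) (nat_lit 252) (nat_lit 0) (XT.lf (nat_lit 0) (nat_lit 5348527319213)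 (nat_lit 336) (nat_lit 19799202184266) (nat_lit 84) (nat_lit 5841638089031) (nat_lit 71) (nat_lit 5) (nat_lit 75) (nat_lit 5) (nat_lit 72) (nat_lit 5) (nat_lit 485) (nat_lit 465) (nat_lit 130)) (XT.lf (nat_lit 0) (nat_lit 10445560548225) (nat_lit 252) (nat_lit 6332133149860) (nat_lit 336) (nat_lit 15699041648777) (nat_lit 68) (nat_lit 5) (nat_lit 71) (nat_lit 5) (nat_lit 72) (nat_lit 5) (nat_lit 486) (nat_lit 465) (nat_lit 129))))) (XT.nd (nat_lit 66082) (nat_lit 0) (nat_lit 5376) (XT.nd (nat_lit 65894) (nat_lit 0) (nat_lit 5292) (XT.nd (nat_lit 65800) (nat_lit 0) (nat_lit 5208) (XT.lf (nat_lit 0) (nat_lit 9842028851111) (nat_lit 168) (nat_lit 20001772421229) (nat_lit 252) (nat_lit 4203160854969) (nat_lit 66) (nat_lit 5) (nat_lit 68) (nat_lit 5) (nat_lit 69) (nat_lit 5) (nat_lit 487) (nat_lit 465) (nat_lit 128)) (XT.lf (nat_lit 0) (nat_lit 3330334640329) (nat_lit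 924) (nat_lit 1875718927691) (nat_lit 924) (nat_lit 1875718927691) (nat_lit 128) (nat_lit 3) (nat_lit 139) (nat_lit 3) (nat_lit 139) (nat_lit 5) (nat_lit 466) (nat_lit 466) (nat_lit 148))) (XT.nd (nat_lit 94) (nat_lit 0) (nat_lit 0) (XT.lf (nat_lit 0) (nat_lit 7061532744506) (nat_lit 840) (nat_lit 6906155438533) (nat_lit 924) (nat_lit 755676773412) (nat_lit 129) (nat_lit 5) (nat_lit 139) (nat_lit 5) (nat_lit 140) (nat_lit 5) (nat_lit 467) (nat_lit 466) (nat_lit 147)) (XT.lf (nat_lit 84) (nat_lit 5107439728638) (nat_lit 0) (nat_lit 2708753050347) (nat_lit 924) (nat_lit 7495691365018) (nat_lit 130) (nat_lit 5) (nat_lit 129) (nat_lit 5) (nat_lit 140) (nat_lit 5) (nat_lit 468) (nat_lit 466) (nat_lit 146)))) (XT.nd (nat_lit 188) (nat_lit 0) (nat_lit 168) (XT.nd (nat_lit 94) (nat_lit 0) (nat_lit 84) (XT.lf (nat_lit 84) (nat_lit 2311731994565) (nat_lit 0) (nat_lit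 6625414139252) (nat_lit 924) (nat_lit 6995042706863) (nat_lit 131) (nat_lit 5) (nat_lit 130) (nat_lit 5) (nat_lit 141) (nat_lit 5) (nat_lit 469) (nat_lit 466) (nat_lit 145)) (XT.lf (nat_lit 0) (nat_lit 10460647149996) (nat_lit 840) (nat_lit 534746790407) (nat_lit 924) (nat_lit 5591080403039) (nat_lit 131) (nat_lit 5) (nat_lit 141) (nat_lit 5) (nat_lit 142) (nat_lit 5) (nat_lit 470) (nat_lit 466) (nat_lit 144))) (XT.nd (nat_lit 94) (nat_lit 0) (nat_lit 0) (XT.lf (nat_lit 0) (nat_lit 12458631129264) (nat_lit 840) (nat_lit 3367994495052) (nat_lit 924) (nat_lit 1448846918020) (nat_lit 132) (nat_lit 5) (nat_lit 142) (nat_lit 5) (nat_lit 143) (nat_lit 5) (nat_lit 471) (nat_lit 466) (nat_lit 143)) (XT.lf (nat_lit 84) (nat_lit 11693770201778) (nat_lit 0) (nat_lit 3300126224866) (nat_lit 924) (nat_lit 3006822040508) (nat_lit 133) (nat_lit 5) (nat_lit 132) (nat_lit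 5) (nat_lit 143) (nat_lit 5) (nat_lit 472) (nat_lit 466) (nat_lit 142))))))))
noncomputable def xc250 : XT := (XT.nd (nat_lit 68432) (nat_lit 0) (nat_lit 252) (XT.nd (nat_lit 1316) (nat_lit 252) (nat_lit 0) (XT.nd (nat_lit 658) (nat_lit 2184) (nat_lit 0) (XT.nd (nat_lit 282) (nat_lit 1176) (nat_lit 0) (XT.nd (nat_lit 94) (nat_lit 1008) (nat_lit 0) (XT.lf (nat_lit 0) (nat_lit 9441216077614) (nat_lit 840) (nat_lit 8657496221634) (nat_lit 924) (nat_lit 666935299135) (nat_lit 123) (nat_lit 5) (nat_lit 133) (nat_lit 5) (nat_lit 134) (nat_lit 5) (nat_lit 473) (nat_lit 466) (nat_lit 141)) (XT.nd (nat_lit 94) (nat_lit 420) (nat_lit 0) (XT.lf (nat_lit 0) (nat_lit 2161289340494) (nat_lit 588) (nat_lit 12423556627798) (nat_lit 84) (nat_lit 4987438833440) (nat_lit 116) (nat_lit 5) (nat_lit 123) (nat_lit 5) (nat_lit 117) (nat_lit 5) (nat_lit 474) (nat_lit 466) (nat_lit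 140)) (XT.lf (nat_lit 0) (nat_lit 4832150721264) (nat_lit 420) (nat_lit 747080359317) (nat_lit 504) (nat_lit 14844333967820) (nat_lit 111) (nat_lit 5) (nat_lit 116) (nat_lit 5) (nat_lit 117) (nat_lit 5) (nat_lit 475) (nat_lit 466) (nat_lit 139)))) (XT.nd (nat_lit 188) (nat_lit 420) (nat_lit 0) (XT.nd (nat_lit 94) (nat_lit 336) (nat_lit 0) (XT.lf (nat_lit 0) (nat_lit 2432469166451) (nat_lit 420) (nat_lit 7317740693328) (nat_lit 504) (nat_lit 11568757770030) (nat_lit 106) (nat_lit 5) (nat_lit 111) (nat_lit 5) (nat_lit 112) (nat_lit 5) (nat_lit 476) (nat_lit 466) (nat_lit 138)) (XT.lf (nat_lit 0) (nat_lit 48368564755) (nat_lit 336) (nat_lit 14614630372196) (nat_lit 420) (nat_lit 7602596880997) (nat_lit 102) (nat_lit 5) (nat_lit 106) (nat_lit 5) (nat_lit 107) (nat_lit 5) (nat_lit 477) (nat_lit 466) (nat_lit 137))) (XT.nd (nat_lit 94) (nat_lit 420) (nat_lit 0)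 (XT.lf (nat_lit 0) (nat_lit 20428972296728) (nat_lit 420) (nat_lit 2230219545487) (nat_lit 84) (nat_lit 605754361100) (nat_lit 102) (nat_lit 5) (nat_lit 107) (nat_lit 5) (nat_lit 103) (nat_lit 5) (nat_lit 478) (nat_lit 466) (nat_lit 136)) (XT.lf (nat_lit 0) (nat_lit 2801717863794) (nat_lit 420) (nat_lit 4620541593423) (nat_lit 84) (nat_lit 16891993502713) (nat_lit 97) (nat_lit 5) (nat_lit 102) (nat_lit 5) (nat_lit 98) (nat_lit 5) (nat_lit 479) (nat_lit 466) (nat_lit 135))))) (XT.nd (nat_lit 282) (nat_lit 1260) (nat_lit 0) (XT.nd (nat_lit 94) (nat_lit 588) (nat_lit 0) (XT.lf (nat_lit 0) (nat_lit 9268731905078) (nat_lit 420) (nat_lit 7024952705691) (nat_lit 84) (nat_lit 9127611795512) (nat_lit 93) (nat_lit 5) (nat_lit 98) (nat_lit 5) (nat_lit 94) (nat_lit 5) (nat_lit 480) (nat_lit 466) (nat_lit 134)) (XT.nd (nat_lit 94) (nat_lit 252) (nat_lit 0) (XT.lf (nat_lit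 0) (nat_lit 16736949889670) (nat_lit 420) (nat_lit 9369201125777) (nat_lit 84) (nat_lit 486560171892) (nat_lit 89) (nat_lit 5) (nat_lit 94) (nat_lit 5) (nat_lit 90) (nat_lit 5) (nat_lit 481) (nat_lit 466) (nat_lit 133)) (XT.lf (nat_lit 0) (nat_lit 16047872797816) (nat_lit 252) (nat_lit 9404422281714) (nat_lit 336) (nat_lit 2373060583027) (nat_lit 86) (nat_lit 5) (nat_lit 89) (nat_lit 5) (nat_lit 90) (nat_lit 5) (nat_lit 482) (nat_lit 466) (nat_lit 132)))) (XT.nd (nat_lit 188) (nat_lit 588) (nat_lit 0) (XT.nd (nat_lit 94) (nat_lit 252) (nat_lit 0) (XT.lf (nat_lit 0) (nat_lit 6069633446074) (nat_lit 420) (nat_lit 14199790986096) (nat_lit 84) (nat_lit 8855527314594) (nat_lit 81) (nat_lit 5) (nat_lit 86) (nat_lit 5) (nat_lit 82) (nat_lit 5) (nat_lit 483) (nat_lit 466) (nat_lit 131)) (XT.lf (nat_lit 0) (nat_lit 13909568239931) (nat_lit 252) (nat_lit 1780408227373)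 (nat_lit 336) (nat_lit 14807325221128) (nat_lit 78) (nat_lit 5) (nat_lit 81) (nat_lit 5) (nat_lit 82) (nat_lit 5) (nat_lit 484) (nat_lit 466) (nat_lit 130))) (XT.nd (nat_lit 94) (nat_lit 336) (nat_lit 0) (XT.lf (nat_lit 0) (nat_lit 12933614156284) (nat_lit 252) (nat_lit 13883630297870) (nat_lit 336) (nat_lit 5125330295084) (nat_lit 75) (nat_lit 5) (nat_lit 78) (nat_lit 5) (nat_lit 79) (nat_lit 5) (nat_lit 485) (nat_lit 466) (nat_lit 129)) (XT.lf (nat_lit 0) (nat_lit 5776409505109) (nat_lit 336) (nat_lit 21383138358462) (nat_lit 84) (nat_lit 6308969136321) (nat_lit 71) (nat_lit 5) (nat_lit 75) (nat_lit 5) (nat_lit 72) (nat_lit 5) (nat_lit 486) (nat_lit 466) (nat_lit 128)))))) (XT.nd (nat_lit 66458) (nat_lit 0) (nat_lit 2856) (XT.nd (nat_lit 66082) (nat_lit 0) (nat_lit 5124) (XT.nd (nat_lit 65894) (nat_lit 0) (nat_lit 5040) (XT.lf (nat_lit 0) (nat_lit 11281205392604)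 (nat_lit 252) (nat_lit 6838703801668) (nat_lit 336) (nat_lit 16954964980322) (nat_lit 68) (nat_lit 5) (nat_lit 71) (nat_lit 5) (nat_lit 72) (nat_lit 5) (nat_lit 487) (nat_lit 466) (nat_lit 127)) (XT.nd (nat_lit 94) (nat_lit 0) (nat_lit 84) (XT.lf (nat_lit 0) (nat_lit 3596761412048) (nat_lit 924) (nat_lit 2025776441648) (nat_lit 924) (nat_lit 2025776441648) (nat_lit 128) (nat_lit 3) (nat_lit 139) (nat_lit 3) (nat_lit 139) (nat_lit 5) (nat_lit 467) (nat_lit 467) (nat_lit 146)) (XT.lf (nat_lit 0) (nat_lit 7626455364979) (nat_lit 840) (nat_lit 7458647873069) (nat_lit 924) (nat_lit 816130914874) (nat_lit 129) (nat_lit 5) (nat_lit 139) (nat_lit 5) (nat_lit 140) (nat_lit 5) (nat_lit 468) (nat_lit 467) (nat_lit 145)))) (XT.nd (nat_lit 188) (nat_lit 0) (nat_lit 168) (XT.nd (nat_lit 94) (nat_lit 0) (nat_lit 84) (XT.lf (nat_lit 84) (nat_lit 5516034907453) (nat_lit 0)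 (nat_lit 2925453294706) (nat_lit 924) (nat_lit 8095346673323) (nat_lit 130) (nat_lit 5) (nat_lit 129) (nat_lit 5) (nat_lit 140) (nat_lit 5) (nat_lit 469) (nat_lit 467) (nat_lit 144)) (XT.lf (nat_lit 84) (nat_lit 2496670554676) (nat_lit 0) (nat_lit 7155447270640) (nat_lit 924) (nat_lit 7554646122578) (nat_lit 131) (nat_lit 5) (nat_lit 130) (nat_lit 5) (nat_lit 141) (nat_lit 5) (nat_lit 470) (nat_lit 467) (nat_lit 143))) (XT.nd (nat_lit 94) (nat_lit 0) (nat_lit 84) (XT.lf (nat_lit 0) (nat_lit 11297498922728) (nat_lit 840) (nat_lit 577526533094) (nat_lit 924) (nat_lit 6038366835060) (nat_lit 131) (nat_lit 5) (nat_lit 141) (nat_lit 5) (nat_lit 142) (nat_lit 5) (nat_lit 471) (nat_lit 467) (nat_lit 142)) (XT.lf (nat_lit 0) (nat_lit 13455321620289) (nat_lit 840) (nat_lit 3637434054096) (nat_lit 924) (nat_lit 1564754671304) (nat_lit 132) (nat_lit 5) (nat_lit 142)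 (nat_lit 5) (nat_lit 143) (nat_lit 5) (nat_lit 472) (nat_lit 467) (nat_lit 141))))) (XT.nd (nat_lit 282) (nat_lit 1176) (nat_lit 0) (XT.nd (nat_lit 94) (nat_lit 1344) (nat_lit 0) (XT.lf (nat_lit 84) (nat_lit 12629271818456) (nat_lit 0) (nat_lit 3564136322961) (nat_lit 924) (nat_lit 3247367803076) (nat_lit 133) (nat_lit 5) (nat_lit 132) (nat_lit 5) (nat_lit 143) (nat_lit 5) (nat_lit 473) (nat_lit 467) (nat_lit 140)) (XT.nd (nat_lit 94) (nat_lit 588) (nat_lit 0) (XT.lf (nat_lit 0) (nat_lit 10196513364368) (nat_lit 840) (nat_lit 9350095919421) (nat_lit 924) (nat_lit 720290122435) (nat_lit 123) (nat_lit 5) (nat_lit 133) (nat_lit 5) (nat_lit 134) (nat_lit 5) (nat_lit 474) (nat_lit 467) (nat_lit 139)) (XT.lf (nat_lit 0) (nat_lit 2334192488306) (nat_lit 588) (nat_lit 13417441157453) (nat_lit 84) (nat_lit 5386433940083) (nat_lit 116) (nat_lit 5) (nat_lit 123) (nat_lit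 5) (nat_lit 117) (nat_lit 5) (nat_lit 475) (nat_lit 467) (nat_lit 138)))) (XT.nd (nat_lit 188) (nat_lit 336) (nat_lit 0) (XT.nd (nat_lit 94) (nat_lit 420) (nat_lit 0) (XT.lf (nat_lit 0) (nat_lit 5218722779509) (nat_lit 420) (nat_lit 806846788057) (nat_lit 504) (nat_lit 16031880684680) (nat_lit 111) (nat_lit 5) (nat_lit 116) (nat_lit 5) (nat_lit 117) (nat_lit 5) (nat_lit 476) (nat_lit 467) (nat_lit 137)) (XT.lf (nat_lit 0) (nat_lit 2627066700314) (nat_lit 420) (nat_lit 7903159948755) (nat_lit 504) (nat_lit 12494258391099) (nat_lit 106) (nat_lit 5) (nat_lit 111) (nat_lit 5) (nat_lit 112) (nat_lit 5) (nat_lit 477) (nat_lit 467) (nat_lit 136))) (XT.nd (nat_lit 94) (nat_lit 0) (nat_lit 0) (XT.lf (nat_lit 0) (nat_lit 52238050482) (nat_lit 336) (nat_lit 15783800801904) (nat_lit 420) (nat_lit 8210804630973) (nat_lit 102) (nat_lit 5) (nat_lit 106) (nat_lit 5) (nat_lit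 107) (nat_lit 5) (nat_lit 478) (nat_lit 467) (nat_lit 135)) (XT.lf (nat_lit 0) (nat_lit 22063290080911) (nat_lit 420) (nat_lit 2408637108599) (nat_lit 84) (nat_lit 654214710049) (nat_lit 102) (nat_lit 5) (nat_lit 107) (nat_lit 5) (nat_lit 103) (nat_lit 5) (nat_lit 479) (nat_lit 467) (nat_lit 134))))))) (XT.nd (nat_lit 67210) (nat_lit 0) (nat_lit 336) (XT.nd (nat_lit 658) (nat_lit 336) (nat_lit 0) (XT.nd (nat_lit 282) (nat_lit 1176) (nat_lit 0) (XT.nd (nat_lit 94) (nat_lit 672) (nat_lit 0) (XT.lf (nat_lit 0) (nat_lit 3025855293324) (nat_lit 420) (nat_lit 4990184920378) (nat_lit 84) (nat_lit 18243352983001) (nat_lit 97) (nat_lit 5) (nat_lit 102) (nat_lit 5) (nat_lit 98) (nat_lit 5) (nat_lit 480) (nat_lit 467) (nat_lit 133)) (XT.nd (nat_lit 94) (nat_lit 336) (nat_lit 0) (XT.lf (nat_lit 0) (nat_lit 10010230457889) (nat_lit 420) (nat_lit 7586948921632) (nat_lit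 84) (nat_lit 9857820739243) (nat_lit 93) (nat_lit 5) (nat_lit 98) (nat_lit 5) (nat_lit 94) (nat_lit 5) (nat_lit 481) (nat_lit 467) (nat_lit 132)) (XT.lf (nat_lit 0) (nat_lit 18075905881228) (nat_lit 420) (nat_lit 10118737215329) (nat_lit 84) (nat_lit 525484985750) (nat_lit 89) (nat_lit 5) (nat_lit 94) (nat_lit 5) (nat_lit 90) (nat_lit 5) (nat_lit 482) (nat_lit 467) (nat_lit 131)))) (XT.nd (nat_lit 188) (nat_lit 504) (nat_lit 0) (XT.nd (nat_lit 94) (nat_lit 420) (nat_lit 0) (XT.lf (nat_lit 0) (nat_lit 17331702622129) (nat_lit 252) (nat_lit 10156776064126) (nat_lit 336) (nat_lit 2562905429288) (nat_lit 86) (nat_lit 5) (nat_lit 89) (nat_lit 5) (nat_lit 90) (nat_lit 5) (nat_lit 483) (nat_lit 467) (nat_lit 130)) (XT.lf (nat_lit 0) (nat_lit 6555204122111) (nat_lit 420) (nat_lit 15335774264490) (nat_lit 84) (nat_lit 9563969499886) (nat_lit 81) (nat_lit 5) (nat_lit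 86) (nat_lit 5) (nat_lit 82) (nat_lit 5) (nat_lit 484) (nat_lit 467) (nat_lit 129))) (XT.nd (nat_lit 94) (nat_lit 252) (nat_lit 0) (XT.lf (nat_lit 0) (nat_lit 15022333699598) (nat_lit 252) (nat_lit 1922840885422) (nat_lit 336) (nat_lit 15991911238469) (nat_lit 78) (nat_lit 5) (nat_lit 81) (nat_lit 5) (nat_lit 82) (nat_lit 5) (nat_lit 485) (nat_lit 467) (nat_lit 128)) (XT.lf (nat_lit 0) (nat_lit 13968303289252) (nat_lit 252) (nat_lit 14994320721552) (nat_lit 336) (nat_lit 5535356718358) (nat_lit 75) (nat_lit 5) (nat_lit 78) (nat_lit 5) (nat_lit 79) (nat_lit 5) (nat_lit 486) (nat_lit 467) (nat_lit 127))))) (XT.nd (nat_lit 66176) (nat_lit 0) (nat_lit 4872) (XT.nd (nat_lit 65988) (nat_lit 0) (nat_lit 4788) (XT.lf (nat_lit 0) (nat_lit 6238522265826) (nat_lit 336) (nat_lit 23093789426671) (nat_lit 84) (nat_lit 6813686667372) (nat_lit 71) (nat_lit 5) (nat_lit 75)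 (nat_lit 5) (nat_lit 72) (nat_lit 5) (nat_lit 487) (nat_lit 467) (nat_lit 126)) (XT.nd (nat_lit 94) (nat_lit 0) (nat_lit 84) (XT.lf (nat_lit 0) (nat_lit 3884502325434) (nat_lit 924) (nat_lit 2187838556758) (nat_lit 924) (nat_lit 2187838556758) (nat_lit 128) (nat_lit 3) (nat_lit 139) (nat_lit 3) (nat_lit 139) (nat_lit 5) (nat_lit 468) (nat_lit 468) (nat_lit 144)) (XT.lf (nat_lit 0) (nat_lit 8236571794961) (nat_lit 840) (nat_lit 8055339702445) (nat_lit 924) (nat_lit 881421387711) (nat_lit 129) (nat_lit 5) (nat_lit 139) (nat_lit 5) (nat_lit 140) (nat_lit 5) (nat_lit 469) (nat_lit 468) (nat_lit 143)))) (XT.nd (nat_lit 188) (nat_lit 0) (nat_lit 168) (XT.nd (nat_lit 94) (nat_lit 0) (nat_lit 84) (XT.lf (nat_lit 84) (nat_lit 5957317700498) (nat_lit 0) (nat_lit 3159489558565) (nat_lit 924) (nat_lit 8742974406420) (nat_lit 130) (nat_lit 5) (nat_lit 129) (nat_lit 5)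 (nat_lit 140) (nat_lit 5) (nat_lit 470) (nat_lit 468) (nat_lit 142)) (XT.lf (nat_lit 84) (nat_lit 2696404199519) (nat_lit 0) (nat_lit 7727883052504) (nat_lit 924) (nat_lit 8159017811669) (nat_lit 131) (nat_lit 5) (nat_lit 130) (nat_lit 5) (nat_lit 141) (nat_lit 5) (nat_lit 471) (nat_lit 468) (nat_lit 141))) (XT.nd (nat_lit 94) (nat_lit 0) (nat_lit 84) (XT.lf (nat_lit 0) (nat_lit 12201298837173) (nat_lit 840) (nat_lit 623728655272) (nat_lit 924) (nat_lit 6521436181675) (nat_lit 131) (nat_lit 5) (nat_lit 141) (nat_lit 5) (nat_lit 142) (nat_lit 5) (nat_lit 472) (nat_lit 468) (nat_lit 140)) (XT.lf (nat_lit 0) (nat_lit 14531747350498) (nat_lit 840) (nat_lit 3928428777944) (nat_lit 924) (nat_lit 1689935044873) (nat_lit 132) (nat_lit 5) (nat_lit 142) (nat_lit 5) (nat_lit 143) (nat_lit 5) (nat_lit 473) (nat_lit 468) (nat_lit 139)))))) (XT.nd (nat_lit 658) (nat_lit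 2268) (nat_lit 0) (XT.nd (nat_lit 282) (nat_lit 1176) (nat_lit 0) (XT.nd (nat_lit 94) (nat_lit 1344) (nat_lit 0) (XT.lf (nat_lit 84) (nat_lit 13639613564391) (nat_lit 0) (nat_lit 3849267228889) (nat_lit 924) (nat_lit 3507157226745) (nat_lit 133) (nat_lit 5) (nat_lit 132) (nat_lit 5) (nat_lit 143) (nat_lit 5) (nat_lit 474) (nat_lit 468) (nat_lit 138)) (XT.nd (nat_lit 94) (nat_lit 588) (nat_lit 0) (XT.lf (nat_lit 0) (nat_lit 11012234433984) (nat_lit 840) (nat_lit 10098103593023) (nat_lit 924) (nat_lit 777913331689) (nat_lit 123) (nat_lit 5) (nat_lit 133) (nat_lit 5) (nat_lit 134) (nat_lit 5) (nat_lit 475) (nat_lit 468) (nat_lit 137)) (XT.lf (nat_lit 0) (nat_lit 2520927887862) (nat_lit 588) (nat_lit 14490836449561) (nat_lit 84) (nat_lit 5817348655261) (nat_lit 116) (nat_lit 5) (nat_lit 123) (nat_lit 5) (nat_lit 117) (nat_lit 5) (nat_lit 476) (nat_lit 468) (nat_lit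 136)))) (XT.nd (nat_lit 188) (nat_lit 336) (nat_lit 0) (XT.nd (nat_lit 94) (nat_lit 420) (nat_lit 0) (XT.lf (nat_lit 0) (nat_lit 5636220602337) (nat_lit 420) (nat_lit 871394531097) (nat_lit 504) (nat_lit 17314431138969) (nat_lit 111) (nat_lit 5) (nat_lit 116) (nat_lit 5) (nat_lit 117) (nat_lit 5) (nat_lit 477) (nat_lit 468) (nat_lit 135)) (XT.lf (nat_lit 0) (nat_lit 2837232036808) (nat_lit 420) (nat_lit 8535412744623) (nat_lit 504) (nat_lit 13493799061930) (nat_lit 106) (nat_lit 5) (nat_lit 111) (nat_lit 5) (nat_lit 112) (nat_lit 5) (nat_lit 478) (nat_lit 468) (nat_lit 134))) (XT.nd (nat_lit 94) (nat_lit 0) (nat_lit 0) (XT.lf (nat_lit 0) (nat_lit 56417094989) (nat_lit 336) (nat_lit 17046504865999) (nat_lit 420) (nat_lit 8867669001019) (nat_lit 102) (nat_lit 5) (nat_lit 106) (nat_lit 5) (nat_lit 107) (nat_lit 5) (nat_lit 479) (nat_lit 468) (nat_lit 133)) (XT.lf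 (nat_lit 0) (nat_lit 23828353287765) (nat_lit 420) (nat_lit 2601328076835) (nat_lit 84) (nat_lit 706551886904) (nat_lit 102) (nat_lit 5) (nat_lit 107) (nat_lit 5) (nat_lit 103) (nat_lit 5) (nat_lit 480) (nat_lit 468) (nat_lit 132))))) (XT.nd (nat_lit 376) (nat_lit 924) (nat_lit 0) (XT.nd (nat_lit 188) (nat_lit 588) (nat_lit 0) (XT.nd (nat_lit 94) (nat_lit 336) (nat_lit 0) (XT.lf (nat_lit 0) (nat_lit 3267923717156) (nat_lit 420) (nat_lit 5389399713565) (nat_lit 84) (nat_lit 19702821221701) (nat_lit 97) (nat_lit 5) (nat_lit 102) (nat_lit 5) (nat_lit 98) (nat_lit 5) (nat_lit 481) (nat_lit 468) (nat_lit 131)) (XT.lf (nat_lit 0) (nat_lit 10811048894866) (nat_lit 420) (nat_lit 8193904834921) (nat_lit 84) (nat_lit 10646446398460) (nat_lit 93) (nat_lit 5) (nat_lit 98) (nat_lit 5) (nat_lit 94) (nat_lit 5) (nat_lit 482) (nat_lit 468) (nat_lit 130))) (XT.nd (nat_lit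 94) (nat_lit 252) (nat_lit 0) (XT.lf (nat_lit 0) (nat_lit 19521978352055) (nat_lit 420) (nat_lit 10928236192119) (nat_lit 84) (nat_lit 567523784702) (nat_lit 89) (nat_lit 5) (nat_lit 94) (nat_lit 5) (nat_lit 90) (nat_lit 5) (nat_lit 483) (nat_lit 468) (nat_lit 129)) (XT.lf (nat_lit 0) (nat_lit 18718238832317) (nat_lit 252) (nat_lit 10969318149150) (nat_lit 336) (nat_lit 2767937863305) (nat_lit 86) (nat_lit 5) (nat_lit 89) (nat_lit 5) (nat_lit 90) (nat_lit 5) (nat_lit 484) (nat_lit 468) (nat_lit 128)))) (XT.nd (nat_lit 188) (nat_lit 252) (nat_lit 0) (XT.nd (nat_lit 94) (nat_lit 252) (nat_lit 0) (XT.lf (nat_lit 0) (nat_lit 7079620452181) (nat_lit 420) (nat_lit 16562636205225) (nat_lit 84) (nat_lit 10329087059985) (nat_lit 81) (nat_lit 5) (nat_lit 86) (nat_lit 5) (nat_lit 82) (nat_lit 5) (nat_lit 485) (nat_lit 468) (nat_lit 127)) (XT.lf (nat_lit 0) (nat_lit 16224120395971)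 (nat_lit 252) (nat_lit 2076668156136) (nat_lit 336) (nat_lit 17271264137248) (nat_lit 78) (nat_lit 5) (nat_lit 81) (nat_lit 5) (nat_lit 82) (nat_lit 5) (nat_lit 486) (nat_lit 468) (nat_lit 126))) (XT.nd (nat_lit 66082) (nat_lit 0) (nat_lit 4452) (XT.lf (nat_lit 0) (nat_lit 15085767552790) (nat_lit 252) (nat_lit 16193866379149) (nat_lit 336) (nat_lit 5978185255541) (nat_lit 75) (nat_lit 5) (nat_lit 78) (nat_lit 5) (nat_lit 79) (nat_lit 5) (nat_lit 487) (nat_lit 468) (nat_lit 125)) (XT.lf (nat_lit 0) (nat_lit 4195262511831) (nat_lit 924) (nat_lit 2362865641109) (nat_lit 924) (nat_lit 2362865641109) (nat_lit 128) (nat_lit 3) (nat_lit 139) (nat_lit 3) (nat_lit 139) (nat_lit 5) (nat_lit 469) (nat_lit 469) (nat_lit 142))))))))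
noncomputable def xc251 : XT := (XT.nd (nat_lit 68714) (nat_lit 0) (nat_lit 252) (XT.nd (nat_lit 1316) (nat_lit 1260) (nat_lit 0) (XT.nd (nat_lit 658) (nat_lit 2520) (nat_lit 0) (XT.nd (nat_lit 282) (nat_lit 504) (nat_lit 0) (XT.nd (nat_lit 94) (nat_lit 0) (nat_lit 0) (XT.lf (nat_lit 0) (nat_lit 8895497539229) (nat_lit 840) (nat_lit 8699766878238) (nat_lit 924) (nat_lit 951935098425) (nat_lit 129) (nat_lit 5) (nat_lit 139) (nat_lit 5) (nat_lit 140) (nat_lit 5) (nat_lit 470) (nat_lit 469) (nat_lit 141)) (XT.nd (nat_lit 94) (nat_lit 0) (nat_lit 84) (XT.lf (nat_lit 84) (nat_lit 6433903116923) (nat_lit 0) (nat_lit 3412248723493) (nat_lit 924) (nat_lit 9442412358275) (nat_lit 130) (nat_lit 5) (nat_lit 129) (nat_lit 5) (nat_lit 140) (nat_lit 5) (nat_lit 471) (nat_lit 469) (nat_lit 140)) (XT.lf (nat_lit 84) (nat_lit 2912116535883) (nat_lit 0) (nat_lit 8346113696886)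 (nat_lit 924) (nat_lit 8811739235989) (nat_lit 131) (nat_lit 5) (nat_lit 130) (nat_lit 5) (nat_lit 141) (nat_lit 5) (nat_lit 472) (nat_lit 469) (nat_lit 139)))) (XT.nd (nat_lit 188) (nat_lit 672) (nat_lit 0) (XT.nd (nat_lit 94) (nat_lit 0) (nat_lit 84) (XT.lf (nat_lit 0) (nat_lit 13177402744685) (nat_lit 840) (nat_lit 673626947292) (nat_lit 924) (nat_lit 7043151076046) (nat_lit 131) (nat_lit 5) (nat_lit 141) (nat_lit 5) (nat_lit 142) (nat_lit 5) (nat_lit 473) (nat_lit 469) (nat_lit 138)) (XT.lf (nat_lit 0) (nat_lit 15694287139040) (nat_lit 840) (nat_lit 4242703079768) (nat_lit 924) (nat_lit 1825129848347) (nat_lit 132) (nat_lit 5) (nat_lit 142) (nat_lit 5) (nat_lit 143) (nat_lit 5) (nat_lit 474) (nat_lit 469) (nat_lit 137))) (XT.nd (nat_lit 94) (nat_lit 756) (nat_lit 0) (XT.lf (nat_lit 84) (nat_lit 14730782649936) (nat_lit 0) (nat_lit 4157208607278) (nat_lit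 924) (nat_lit 3787729804390) (nat_lit 133) (nat_lit 5) (nat_lit 132) (nat_lit 5) (nat_lit 143) (nat_lit 5) (nat_lit 475) (nat_lit 469) (nat_lit 136)) (XT.lf (nat_lit 0) (nat_lit 11893213189103) (nat_lit 840) (nat_lit 10905951880506) (nat_lit 924) (nat_lit 840146397761) (nat_lit 123) (nat_lit 5) (nat_lit 133) (nat_lit 5) (nat_lit 134) (nat_lit 5) (nat_lit 476) (nat_lit 469) (nat_lit 135))))) (XT.nd (nat_lit 282) (nat_lit 1092) (nat_lit 0) (XT.nd (nat_lit 94) (nat_lit 840) (nat_lit 0) (XT.lf (nat_lit 0) (nat_lit 2722602119313) (nat_lit 588) (nat_lit 15650103365108) (nat_lit 84) (nat_lit 6282736547658) (nat_lit 116) (nat_lit 5) (nat_lit 123) (nat_lit 5) (nat_lit 117) (nat_lit 5) (nat_lit 477) (nat_lit 469) (nat_lit 134)) (XT.nd (nat_lit 94) (nat_lit 420) (nat_lit 0) (XT.lf (nat_lit 0) (nat_lit 6087118250924) (nat_lit 420) (nat_lit 941106093581) (nat_lit 504)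 (nat_lit 18699585629671) (nat_lit 111) (nat_lit 5) (nat_lit 116) (nat_lit 5) (nat_lit 117) (nat_lit 5) (nat_lit 478) (nat_lit 469) (nat_lit 133)) (XT.lf (nat_lit 0) (nat_lit 3064210600155) (nat_lit 420) (nat_lit 9218245764164) (nat_lit 504) (nat_lit 14573302986492) (nat_lit 106) (nat_lit 5) (nat_lit 111) (nat_lit 5) (nat_lit 112) (nat_lit 5) (nat_lit 479) (nat_lit 469) (nat_lit 132)))) (XT.nd (nat_lit 188) (nat_lit 756) (nat_lit 0) (XT.nd (nat_lit 94) (nat_lit 0) (nat_lit 0) (XT.lf (nat_lit 0) (nat_lit 60930462990) (nat_lit 336) (nat_lit 18410225255229) (nat_lit 420) (nat_lit 9577082520731) (nat_lit 102) (nat_lit 5) (nat_lit 106) (nat_lit 5) (nat_lit 107) (nat_lit 5) (nat_lit 480) (nat_lit 469) (nat_lit 131)) (XT.lf (nat_lit 0) (nat_lit 25734621551113) (nat_lit 420) (nat_lit 2809434322594) (nat_lit 84) (nat_lit 763076037901) (nat_lit 102) (nat_lit 5) (nat_lit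 107) (nat_lit 5) (nat_lit 103) (nat_lit 5) (nat_lit 481) (nat_lit 469) (nat_lit 130))) (XT.nd (nat_lit 94) (nat_lit 336) (nat_lit 0) (XT.lf (nat_lit 0) (nat_lit 3529357614842) (nat_lit 420) (nat_lit 5820551690269) (nat_lit 84) (nat_lit 21279046919489) (nat_lit 97) (nat_lit 5) (nat_lit 102) (nat_lit 5) (nat_lit 98) (nat_lit 5) (nat_lit 482) (nat_lit 469) (nat_lit 129)) (XT.lf (nat_lit 0) (nat_lit 11675932806753) (nat_lit 420) (nat_lit 8849417221337) (nat_lit 84) (nat_lit 11498162110403) (nat_lit 93) (nat_lit 5) (nat_lit 98) (nat_lit 5) (nat_lit 94) (nat_lit 5) (nat_lit 483) (nat_lit 469) (nat_lit 128)))))) (XT.nd (nat_lit 66740) (nat_lit 0) (nat_lit 2772) (XT.nd (nat_lit 282) (nat_lit 252) (nat_lit 0) (XT.nd (nat_lit 94) (nat_lit 672) (nat_lit 0) (XT.lf (nat_lit 0) (nat_lit 21083736620501) (nat_lit 420) (nat_lit 11802495087114) (nat_lit 84) (nat_lit 612925687556)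 (nat_lit 89) (nat_lit 5) (nat_lit 94) (nat_lit 5) (nat_lit 90) (nat_lit 5) (nat_lit 484) (nat_lit 469) (nat_lit 127)) (XT.nd (nat_lit 94) (nat_lit 420) (nat_lit 0) (XT.lf (nat_lit 0) (nat_lit 20215697939262) (nat_lit 252) (nat_lit 11846863600989) (nat_lit 336) (nat_lit 2989372892089) (nat_lit 86) (nat_lit 5) (nat_lit 89) (nat_lit 5) (nat_lit 90) (nat_lit 5) (nat_lit 485) (nat_lit 469) (nat_lit 126)) (XT.lf (nat_lit 0) (nat_lit 7645990088613) (nat_lit 420) (nat_lit 17887647101281) (nat_lit 84) (nat_lit 11155414024875) (nat_lit 81) (nat_lit 5) (nat_lit 86) (nat_lit 5) (nat_lit 82) (nat_lit 5) (nat_lit 486) (nat_lit 469) (nat_lit 125)))) (XT.nd (nat_lit 66270) (nat_lit 0) (nat_lit 4284) (XT.nd (nat_lit 66176) (nat_lit 0) (nat_lit 4200) (XT.lf (nat_lit 0) (nat_lit 17522050027996) (nat_lit 252) (nat_lit 2242801608525) (nat_lit 336) (nat_lit 18652965267971) (nat_lit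 78) (nat_lit 5) (nat_lit 81) (nat_lit 5) (nat_lit 82) (nat_lit 5) (nat_lit 487) (nat_lit 469) (nat_lit 124)) (XT.lf (nat_lit 0) (nat_lit 4530883513088) (nat_lit 924) (nat_lit 2551894892235) (nat_lit 924) (nat_lit 2551894892235) (nat_lit 128) (nat_lit 3) (nat_lit 139) (nat_lit 3) (nat_lit 139) (nat_lit 5) (nat_lit 470) (nat_lit 470) (nat_lit 140))) (XT.nd (nat_lit 94) (nat_lit 0) (nat_lit 0) (XT.lf (nat_lit 0) (nat_lit 9607137342943) (nat_lit 840) (nat_lit 9395748228152) (nat_lit 924) (nat_lit 1028089906040) (nat_lit 129) (nat_lit 5) (nat_lit 139) (nat_lit 5) (nat_lit 140) (nat_lit 5) (nat_lit 471) (nat_lit 470) (nat_lit 139)) (XT.lf (nat_lit 84) (nat_lit 6948615366607) (nat_lit 0) (nat_lit 3685228621580) (nat_lit 924) (nat_lit 10197805346372) (nat_lit 130) (nat_lit 5) (nat_lit 129) (nat_lit 5) (nat_lit 140) (nat_lit 5) (nat_lit 472) (nat_lit 470) (nat_lit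 138))))) (XT.nd (nat_lit 282) (nat_lit 1596) (nat_lit 0) (XT.nd (nat_lit 94) (nat_lit 0) (nat_lit 84) (XT.lf (nat_lit 84) (nat_lit 3145085859098) (nat_lit 0) (nat_lit 9013802792793) (nat_lit 924) (nat_lit 9516678374343) (nat_lit 131) (nat_lit 5) (nat_lit 130) (nat_lit 5) (nat_lit 141) (nat_lit 5) (nat_lit 473) (nat_lit 470) (nat_lit 137)) (XT.nd (nat_lit 94) (nat_lit 0) (nat_lit 84) (XT.lf (nat_lit 0) (nat_lit 14231594964721) (nat_lit 840) (nat_lit 727517102731) (nat_lit 924) (nat_lit 7606603161989) (nat_lit 131) (nat_lit 5) (nat_lit 141) (nat_lit 5) (nat_lit 142) (nat_lit 5) (nat_lit 474) (nat_lit 470) (nat_lit 136)) (XT.lf (nat_lit 0) (nat_lit 16949830110594) (nat_lit 840) (nat_lit 4582119325797) (nat_lit 924) (nat_lit 1971140236115) (nat_lit 132) (nat_lit 5) (nat_lit 142) (nat_lit 5) (nat_lit 143) (nat_lit 5) (nat_lit 475) (nat_lit 470) (nat_lit 135))))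 (XT.nd (nat_lit 188) (nat_lit 1008) (nat_lit 0) (XT.nd (nat_lit 94) (nat_lit 756) (nat_lit 0) (XT.lf (nat_lit 84) (nat_lit 15909245262268) (nat_lit 0) (nat_lit 4489785295927) (nat_lit 924) (nat_lit 4090748188317) (nat_lit 133) (nat_lit 5) (nat_lit 132) (nat_lit 5) (nat_lit 143) (nat_lit 5) (nat_lit 476) (nat_lit 470) (nat_lit 134)) (XT.lf (nat_lit 0) (nat_lit 12844670244574) (nat_lit 840) (nat_lit 11778428030982) (nat_lit 924) (nat_lit 907358109184) (nat_lit 123) (nat_lit 5) (nat_lit 133) (nat_lit 5) (nat_lit 134) (nat_lit 5) (nat_lit 477) (nat_lit 470) (nat_lit 133))) (XT.nd (nat_lit 94) (nat_lit 420) (nat_lit 0) (XT.lf (nat_lit 0) (nat_lit 2940410289219) (nat_lit 588) (nat_lit 16902111633958) (nat_lit 84) (nat_lit 6785355471450) (nat_lit 116) (nat_lit 5) (nat_lit 123) (nat_lit 5) (nat_lit 117) (nat_lit 5) (nat_lit 478) (nat_lit 470) (nat_lit 132)) (XT.lf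 (nat_lit 0) (nat_lit 6574087711342) (nat_lit 420) (nat_lit 1016394581064) (nat_lit 504) (nat_lit 20195552479687) (nat_lit 111) (nat_lit 5) (nat_lit 116) (nat_lit 5) (nat_lit 117) (nat_lit 5) (nat_lit 479) (nat_lit 470) (nat_lit 131))))))) (XT.nd (nat_lit 67492) (nat_lit 0) (nat_lit 672) (XT.nd (nat_lit 658) (nat_lit 420) (nat_lit 0) (XT.nd (nat_lit 282) (nat_lit 1344) (nat_lit 0) (XT.nd (nat_lit 94) (nat_lit 336) (nat_lit 0) (XT.lf (nat_lit 0) (nat_lit 3309347448511) (nat_lit 420) (nat_lit 9955705425272) (nat_lit 504) (nat_lit 15739167225076) (nat_lit 106) (nat_lit 5) (nat_lit 111) (nat_lit 5) (nat_lit 112) (nat_lit 5) (nat_lit 480) (nat_lit 470) (nat_lit 130)) (XT.nd (nat_lit 94) (nat_lit 0) (nat_lit 0) (XT.lf (nat_lit 0) (nat_lit 65804900374) (nat_lit 336) (nat_lit 19883043275605) (nat_lit 420) (nat_lit 10343249122072) (nat_lit 102) (nat_lit 5) (nat_lit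 106) (nat_lit 5) (nat_lit 107) (nat_lit 5) (nat_lit 481) (nat_lit 470) (nat_lit 129)) (XT.lf (nat_lit 0) (nat_lit 27793391275482) (nat_lit 420) (nat_lit 3034189068069) (nat_lit 84) (nat_lit 824122120971) (nat_lit 102) (nat_lit 5) (nat_lit 107) (nat_lit 5) (nat_lit 103) (nat_lit 5) (nat_lit 482) (nat_lit 470) (nat_lit 128)))) (XT.nd (nat_lit 188) (nat_lit 588) (nat_lit 0) (XT.nd (nat_lit 94) (nat_lit 336) (nat_lit 0) (XT.lf (nat_lit 0) (nat_lit 3811706224298) (nat_lit 420) (nat_lit 6286195825164) (nat_lit 84) (nat_lit 22981370673093) (nat_lit 97) (nat_lit 5) (nat_lit 102) (nat_lit 5) (nat_lit 98) (nat_lit 5) (nat_lit 483) (nat_lit 470) (nat_lit 127)) (XT.lf (nat_lit 0) (nat_lit 12610007431548) (nat_lit 420) (nat_lit 9557370598719) (nat_lit 84) (nat_lit 12418015079292) (nat_lit 93) (nat_lit 5) (nat_lit 98) (nat_lit 5) (nat_lit 94) (nat_lit 5) (nat_lit 484) (nat_lit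 470) (nat_lit 126))) (XT.nd (nat_lit 94) (nat_lit 252) (nat_lit 0) (XT.lf (nat_lit 0) (nat_lit 22770435550383) (nat_lit 420) (nat_lit 12746694693761) (nat_lit 84) (nat_lit 661959742628) (nat_lit 89) (nat_lit 5) (nat_lit 94) (nat_lit 5) (nat_lit 90) (nat_lit 5) (nat_lit 485) (nat_lit 470) (nat_lit 125)) (XT.lf (nat_lit 0) (nat_lit 21832953774709) (nat_lit 252) (nat_lit 12794612688990) (nat_lit 336) (nat_lit 3228522723216) (nat_lit 86) (nat_lit 5) (nat_lit 89) (nat_lit 5) (nat_lit 90) (nat_lit 5) (nat_lit 486) (nat_lit 470) (nat_lit 124))))) (XT.nd (nat_lit 66458) (nat_lit 0) (nat_lit 4032) (XT.nd (nat_lit 66270) (nat_lit 0) (nat_lit 3948) (XT.lf (nat_lit 0) (nat_lit 8257669295923) (nat_lit 420) (nat_lit 19318658869073) (nat_lit 84) (nat_lit 12047847146944) (nat_lit 81) (nat_lit 5) (nat_lit 86) (nat_lit 5) (nat_lit 82) (nat_lit 5) (nat_lit 487) (nat_lit 470)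 (nat_lit 123)) (XT.nd (nat_lit 94) (nat_lit 0) (nat_lit 84) (XT.lf (nat_lit 0) (nat_lit 4893354194402) (nat_lit 924) (nat_lit 2756046483474) (nat_lit 924) (nat_lit 2756046483474) (nat_lit 128) (nat_lit 3) (nat_lit 139) (nat_lit 3) (nat_lit 139) (nat_lit 5) (nat_lit 471) (nat_lit 471) (nat_lit 138)) (XT.lf (nat_lit 0) (nat_lit 10375708330872) (nat_lit 840) (nat_lit 10147408086108) (nat_lit 924) (nat_lit 1110337098301) (nat_lit 129) (nat_lit 5) (nat_lit 139) (nat_lit 5) (nat_lit 140) (nat_lit 5) (nat_lit 472) (nat_lit 471) (nat_lit 137)))) (XT.nd (nat_lit 188) (nat_lit 0) (nat_lit 168) (XT.nd (nat_lit 94) (nat_lit 0) (nat_lit 84) (XT.lf (nat_lit 84) (nat_lit 7504504596218) (nat_lit 0) (nat_lit 3980046911485) (nat_lit 924) (nat_lit 11013629773597) (nat_lit 130) (nat_lit 5) (nat_lit 129) (nat_lit 5) (nat_lit 140) (nat_lit 5) (nat_lit 473) (nat_lit 471) (nat_lit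 136)) (XT.lf (nat_lit 84) (nat_lit 3396692728121) (nat_lit 0) (nat_lit 9734907016350) (nat_lit 924) (nat_lit 10278012643840) (nat_lit 131) (nat_lit 5) (nat_lit 130) (nat_lit 5) (nat_lit 141) (nat_lit 5) (nat_lit 474) (nat_lit 471) (nat_lit 135))) (XT.nd (nat_lit 94) (nat_lit 0) (nat_lit 84) (XT.lf (nat_lit 0) (nat_lit 15370122562295) (nat_lit 840) (nat_lit 785718470655) (nat_lit 924) (nat_lit 8215131414829) (nat_lit 131) (nat_lit 5) (nat_lit 141) (nat_lit 5) (nat_lit 142) (nat_lit 5) (nat_lit 475) (nat_lit 471) (nat_lit 134)) (XT.lf (nat_lit 0) (nat_lit 18305816519810) (nat_lit 840) (nat_lit 4948688871558) (nat_lit 924) (nat_lit 2128831454919) (nat_lit 132) (nat_lit 5) (nat_lit 142) (nat_lit 5) (nat_lit 143) (nat_lit 5) (nat_lit 476) (nat_lit 471) (nat_lit 133)))))) (XT.nd (nat_lit 658) (nat_lit 1092) (nat_lit 0) (XT.nd (nat_lit 282) (nat_lit 1176) (nat_lit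 0) (XT.nd (nat_lit 94) (nat_lit 1344) (nat_lit 0) (XT.lf (nat_lit 84) (nat_lit 17181984883539) (nat_lit 0) (nat_lit 4848968119658) (nat_lit 924) (nat_lit 4418008043018) (nat_lit 133) (nat_lit 5) (nat_lit 132) (nat_lit 5) (nat_lit 143) (nat_lit 5) (nat_lit 477) (nat_lit 471) (nat_lit 132)) (XT.nd (nat_lit 94) (nat_lit 588) (nat_lit 0) (XT.lf (nat_lit 0) (nat_lit 13872243864433) (nat_lit 840) (nat_lit 12720702273491) (nat_lit 924) (nat_lit 979946757578) (nat_lit 123) (nat_lit 5) (nat_lit 133) (nat_lit 5) (nat_lit 134) (nat_lit 5) (nat_lit 478) (nat_lit 471) (nat_lit 131)) (XT.lf (nat_lit 0) (nat_lit 3175643112666) (nat_lit 588) (nat_lit 18254280564367) (nat_lit 84) (nat_lit 7328183909149) (nat_lit 116) (nat_lit 5) (nat_lit 123) (nat_lit 5) (nat_lit 117) (nat_lit 5) (nat_lit 479) (nat_lit 471) (nat_lit 130)))) (XT.nd (nat_lit 188) (nat_lit 336) (nat_lit 0) (XT.nd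 (nat_lit 94) (nat_lit 420) (nat_lit 0) (XT.lf (nat_lit 0) (nat_lit 7100014728543) (nat_lit 420) (nat_lit 1097706147546) (nat_lit 504) (nat_lit 21811196677757) (nat_lit 111) (nat_lit 5) (nat_lit 116) (nat_lit 5) (nat_lit 117) (nat_lit 5) (nat_lit 480) (nat_lit 471) (nat_lit 129)) (XT.lf (nat_lit 0) (nat_lit 3574095244687) (nat_lit 420) (nat_lit 10752161859273) (nat_lit 504) (nat_lit 16998300602794) (nat_lit 106) (nat_lit 5) (nat_lit 111) (nat_lit 5) (nat_lit 112) (nat_lit 5) (nat_lit 481) (nat_lit 471) (nat_lit 128))) (XT.nd (nat_lit 94) (nat_lit 0) (nat_lit 0) (XT.lf (nat_lit 0) (nat_lit 71069292699) (nat_lit 336) (nat_lit 21473686737618) (nat_lit 420) (nat_lit 11170709051566) (nat_lit 102) (nat_lit 5) (nat_lit 106) (nat_lit 5) (nat_lit 107) (nat_lit 5) (nat_lit 482) (nat_lit 471) (nat_lit 127)) (XT.lf (nat_lit 0) (nat_lit 30016862577761) (nat_lit 420) (nat_lit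 3276924193230) (nat_lit 84) (nat_lit 890051890681) (nat_lit 102) (nat_lit 5) (nat_lit 107) (nat_lit 5) (nat_lit 103) (nat_lit 5) (nat_lit 483) (nat_lit 471) (nat_lit 126))))) (XT.nd (nat_lit 66740) (nat_lit 0) (nat_lit 3360) (XT.nd (nat_lit 188) (nat_lit 336) (nat_lit 0) (XT.nd (nat_lit 94) (nat_lit 336) (nat_lit 0) (XT.lf (nat_lit 0) (nat_lit 4116642722473) (nat_lit 420) (nat_lit 6789091490896) (nat_lit 84) (nat_lit 24819880326978) (nat_lit 97) (nat_lit 5) (nat_lit 102) (nat_lit 5) (nat_lit 98) (nat_lit 5) (nat_lit 484) (nat_lit 471) (nat_lit 125)) (XT.lf (nat_lit 0) (nat_lit 13618808026290) (nat_lit 420) (nat_lit 10321960246338) (nat_lit 84) (nat_lit 13411456285684) (nat_lit 93) (nat_lit 5) (nat_lit 98) (nat_lit 5) (nat_lit 94) (nat_lit 5) (nat_lit 485) (nat_lit 471) (nat_lit 124))) (XT.nd (nat_lit 66458) (nat_lit 0) (nat_lit 3276) (XT.lf (nat_lit 0) (nat_lit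 24592070394621) (nat_lit 420) (nat_lit 13766430268987) (nat_lit 84) (nat_lit 714916522096) (nat_lit 89) (nat_lit 5) (nat_lit 94) (nat_lit 5) (nat_lit 90) (nat_lit 5) (nat_lit 486) (nat_lit 471) (nat_lit 123)) (XT.lf (nat_lit 0) (nat_lit 5284822530182) (nat_lit 924) (nat_lit 2976530202032) (nat_lit 924) (nat_lit 2976530202032) (nat_lit 128) (nat_lit 3) (nat_lit 139) (nat_lit 3) (nat_lit 139) (nat_lit 5) (nat_lit 472) (nat_lit 472) (nat_lit 136)))) (XT.nd (nat_lit 188) (nat_lit 0) (nat_lit 84) (XT.nd (nat_lit 94) (nat_lit 0) (nat_lit 0) (XT.lf (nat_lit 0) (nat_lit 11205764997765) (nat_lit 840) (nat_lit 10959200732744) (nat_lit 924) (nat_lit 1199164065974) (nat_lit 129) (nat_lit 5) (nat_lit 139) (nat_lit 5) (nat_lit 140) (nat_lit 5) (nat_lit 473) (nat_lit 472) (nat_lit 135)) (XT.lf (nat_lit 84) (nat_lit 8104864964158) (nat_lit 0) (nat_lit 4298450664557) (nat_lit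 924) (nat_lit 11894720155070) (nat_lit 130) (nat_lit 5) (nat_lit 129) (nat_lit 5) (nat_lit 140) (nat_lit 5) (nat_lit 474) (nat_lit 472) (nat_lit 134))) (XT.nd (nat_lit 94) (nat_lit 0) (nat_lit 84) (XT.lf (nat_lit 84) (nat_lit 3668428146624) (nat_lit 0) (nat_lit 10513699577774) (nat_lit 924) (nat_lit 11100253654961) (nat_lit 131) (nat_lit 5) (nat_lit 130) (nat_lit 5) (nat_lit 141) (nat_lit 5) (nat_lit 475) (nat_lit 472) (nat_lit 133)) (XT.lf (nat_lit 0) (nat_lit 16599732367617) (nat_lit 840) (nat_lit 848575948054) (nat_lit 924) (nat_lit 8872341927912) (nat_lit 131) (nat_lit 5) (nat_lit 141) (nat_lit 5) (nat_lit 142) (nat_lit 5) (nat_lit 476) (nat_lit 472) (nat_lit 132))))))))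
noncomputable def xc252 : XT := (XT.nd (nat_lit 135642) (nat_lit 0) (nat_lit 756) (XT.nd (nat_lit 67774) (nat_lit 0) (nat_lit 336) (XT.nd (nat_lit 658) (nat_lit 756) (nat_lit 0) (XT.nd (nat_lit 282) (nat_lit 1764) (nat_lit 0) (XT.nd (nat_lit 94) (nat_lit 756) (nat_lit 0) (XT.lf (nat_lit 0) (nat_lit 19770281841712) (nat_lit 840) (nat_lit 5344583981024) (nat_lit 924) (nat_lit 2299137971239) (nat_lit 132) (nat_lit 5) (nat_lit 142) (nat_lit 5) (nat_lit 143) (nat_lit 5) (nat_lit 477) (nat_lit 472) (nat_lit 131)) (XT.nd (nat_lit 94) (nat_lit 756) (nat_lit 0) (XT.lf (nat_lit 84) (nat_lit 18556543674470) (nat_lit 0) (nat_lit 5236885569280) (nat_lit 924) (nat_lit 4771448686148) (nat_lit 133) (nat_lit 5) (nat_lit 132) (nat_lit 5) (nat_lit 143) (nat_lit 5) (nat_lit 478) (nat_lit 472) (nat_lit 130)) (XT.lf (nat_lit 0) (nat_lit 14982023373840) (nat_lit 840) (nat_lit 13738358455397)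 (nat_lit 924) (nat_lit 1058342497893) (nat_lit 123) (nat_lit 5) (nat_lit 133) (nat_lit 5) (nat_lit 134) (nat_lit 5) (nat_lit 479) (nat_lit 472) (nat_lit 129)))) (XT.nd (nat_lit 188) (nat_lit 756) (nat_lit 0) (XT.nd (nat_lit 94) (nat_lit 420) (nat_lit 0) (XT.lf (nat_lit 0) (nat_lit 3429694561945) (nat_lit 588) (nat_lit 19714623009253) (nat_lit 84) (nat_lit 7914438621865) (nat_lit 116) (nat_lit 5) (nat_lit 123) (nat_lit 5) (nat_lit 117) (nat_lit 5) (nat_lit 480) (nat_lit 472) (nat_lit 128)) (XT.lf (nat_lit 0) (nat_lit 7668015907078) (nat_lit 420) (nat_lit 1185522639348) (nat_lit 504) (nat_lit 23556092411715) (nat_lit 111) (nat_lit 5) (nat_lit 116) (nat_lit 5) (nat_lit 117) (nat_lit 5) (nat_lit 481) (nat_lit 472) (nat_lit 127))) (XT.nd (nat_lit 94) (nat_lit 336) (nat_lit 0) (XT.lf (nat_lit 0) (nat_lit 3860022864515) (nat_lit 420) (nat_lit 11612334807998) (nat_lit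 504) (nat_lit 18358164650770) (nat_lit 106) (nat_lit 5) (nat_lit 111) (nat_lit 5) (nat_lit 112) (nat_lit 5) (nat_lit 482) (nat_lit 472) (nat_lit 126)) (XT.lf (nat_lit 0) (nat_lit 76754836367) (nat_lit 336) (nat_lit 23191581676597) (nat_lit 420) (nat_lit 12064365775459) (nat_lit 102) (nat_lit 5) (nat_lit 106) (nat_lit 5) (nat_lit 107) (nat_lit 5) (nat_lit 483) (nat_lit 472) (nat_lit 125))))) (XT.nd (nat_lit 66740) (nat_lit 0) (nat_lit 2940) (XT.nd (nat_lit 94) (nat_lit 756) (nat_lit 0) (XT.lf (nat_lit 0) (nat_lit 32418211584188) (nat_lit 420) (nat_lit 3539078128445) (nat_lit 84) (nat_lit 961256041963) (nat_lit 102) (nat_lit 5) (nat_lit 107) (nat_lit 5) (nat_lit 103) (nat_lit 5) (nat_lit 484) (nat_lit 472) (nat_lit 124)) (XT.nd (nat_lit 94) (nat_lit 336) (nat_lit 0) (XT.lf (nat_lit 0) (nat_lit 4445974140468) (nat_lit 420) (nat_lit 7332218809928) (nat_lit 84)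 (nat_lit 26805470753169) (nat_lit 97) (nat_lit 5) (nat_lit 102) (nat_lit 5) (nat_lit 98) (nat_lit 5) (nat_lit 485) (nat_lit 472) (nat_lit 123)) (XT.lf (nat_lit 0) (nat_lit 14708312668580) (nat_lit 420) (nat_lit 11147717065808) (nat_lit 84) (nat_lit 14484372788580) (nat_lit 93) (nat_lit 5) (nat_lit 98) (nat_lit 5) (nat_lit 94) (nat_lit 5) (nat_lit 486) (nat_lit 472) (nat_lit 122)))) (XT.nd (nat_lit 188) (nat_lit 0) (nat_lit 84) (XT.nd (nat_lit 94) (nat_lit 0) (nat_lit 84) (XT.lf (nat_lit 0) (nat_lit 5707608332792) (nat_lit 924) (nat_lit 3214652618092) (nat_lit 924) (nat_lit 3214652618092) (nat_lit 128) (nat_lit 3) (nat_lit 139) (nat_lit 3) (nat_lit 139) (nat_lit 5) (nat_lit 473) (nat_lit 473) (nat_lit 134)) (XT.lf (nat_lit 0) (nat_lit 12102226197949) (nat_lit 840) (nat_lit 11835936791146) (nat_lit 924) (nat_lit 1295097191089) (nat_lit 129) (nat_lit 5) (nat_lit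 139) (nat_lit 5) (nat_lit 140) (nat_lit 5) (nat_lit 474) (nat_lit 473) (nat_lit 133))) (XT.nd (nat_lit 94) (nat_lit 0) (nat_lit 84) (XT.lf (nat_lit 84) (nat_lit 8753254161499) (nat_lit 0) (nat_lit 4642326717853) (nat_lit 924) (nat_lit 12846297767119) (nat_lit 130) (nat_lit 5) (nat_lit 129) (nat_lit 5) (nat_lit 140) (nat_lit 5) (nat_lit 475) (nat_lit 473) (nat_lit 132)) (XT.lf (nat_lit 84) (nat_lit 3961902398571) (nat_lit 0) (nat_lit 11354795544094) (nat_lit 924) (nat_lit 11988273947026) (nat_lit 131) (nat_lit 5) (nat_lit 130) (nat_lit 5) (nat_lit 141) (nat_lit 5) (nat_lit 476) (nat_lit 473) (nat_lit 131)))))) (XT.nd (nat_lit 658) (nat_lit 756) (nat_lit 0) (XT.nd (nat_lit 282) (nat_lit 2100) (nat_lit 0) (XT.nd (nat_lit 94) (nat_lit 0) (nat_lit 84) (XT.lf (nat_lit 0) (nat_lit 17927710957317) (nat_lit 840) (nat_lit 916462023682) (nat_lit 924) (nat_lit 9582129282056)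 (nat_lit 131) (nat_lit 5) (nat_lit 141) (nat_lit 5) (nat_lit 142) (nat_lit 5) (nat_lit 477) (nat_lit 473) (nat_lit 130)) (XT.nd (nat_lit 94) (nat_lit 0) (nat_lit 0) (XT.lf (nat_lit 0) (nat_lit 21351904389320) (nat_lit 840) (nat_lit 5772150699284) (nat_lit 924) (nat_lit 2483069008875) (nat_lit 132) (nat_lit 5) (nat_lit 142) (nat_lit 5) (nat_lit 143) (nat_lit 5) (nat_lit 478) (nat_lit 473) (nat_lit 129)) (XT.lf (nat_lit 84) (nat_lit 20041067168640) (nat_lit 0) (nat_lit 5655836414864) (nat_lit 924) (nat_lit 5153164580773) (nat_lit 133) (nat_lit 5) (nat_lit 132) (nat_lit 5) (nat_lit 143) (nat_lit 5) (nat_lit 479) (nat_lit 473) (nat_lit 128)))) (XT.nd (nat_lit 188) (nat_lit 840) (nat_lit 0) (XT.nd (nat_lit 94) (nat_lit 588) (nat_lit 0) (XT.lf (nat_lit 0) (nat_lit 16180585243964) (nat_lit 840) (nat_lit 14837427131851) (nat_lit 924) (nat_lit 1143009897474) (nat_lit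 123) (nat_lit 5) (nat_lit 133) (nat_lit 5) (nat_lit 134) (nat_lit 5) (nat_lit 480) (nat_lit 473) (nat_lit 127)) (XT.lf (nat_lit 0) (nat_lit 3704070127128) (nat_lit 588) (nat_lit 21291792849767) (nat_lit 84) (nat_lit 8547593711602) (nat_lit 116) (nat_lit 5) (nat_lit 123) (nat_lit 5) (nat_lit 117) (nat_lit 5) (nat_lit 481) (nat_lit 473) (nat_lit 126))) (XT.nd (nat_lit 94) (nat_lit 420) (nat_lit 0) (XT.lf (nat_lit 0) (nat_lit 8281457179860) (nat_lit 420) (nat_lit 1280364450494) (nat_lit 504) (nat_lit 25440579804427) (nat_lit 111) (nat_lit 5) (nat_lit 116) (nat_lit 5) (nat_lit 117) (nat_lit 5) (nat_lit 482) (nat_lit 473) (nat_lit 125)) (XT.lf (nat_lit 0) (nat_lit 4168824693893) (nat_lit 420) (nat_lit 12541321592623) (nat_lit 504) (nat_lit 19826817822620) (nat_lit 106) (nat_lit 5) (nat_lit 111) (nat_lit 5) (nat_lit 112) (nat_lit 5) (nat_lit 483) (nat_lit 473) (nat_lit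 124))))) (XT.nd (nat_lit 66834) (nat_lit 0) (nat_lit 2604) (XT.nd (nat_lit 94) (nat_lit 420) (nat_lit 0) (XT.lf (nat_lit 0) (nat_lit 82895223493) (nat_lit 336) (nat_lit 25046908210698) (nat_lit 420) (nat_lit 13029515037296) (nat_lit 102) (nat_lit 5) (nat_lit 106) (nat_lit 5) (nat_lit 107) (nat_lit 5) (nat_lit 484) (nat_lit 473) (nat_lit 123)) (XT.nd (nat_lit 94) (nat_lit 420) (nat_lit 0) (XT.lf (nat_lit 0) (nat_lit 35011668511100) (nat_lit 420) (nat_lit 3822204378511) (nat_lit 84) (nat_lit 1038156525344) (nat_lit 102) (nat_lit 5) (nat_lit 107) (nat_lit 5) (nat_lit 103) (nat_lit 5) (nat_lit 485) (nat_lit 473) (nat_lit 122)) (XT.lf (nat_lit 0) (nat_lit 4801652071875) (nat_lit 420) (nat_lit 7918796314517) (nat_lit 84) (nat_lit 28949908413451) (nat_lit 97) (nat_lit 5) (nat_lit 102) (nat_lit 5) (nat_lit 98) (nat_lit 5) (nat_lit 486) (nat_lit 473) (nat_lit 121))))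 (XT.nd (nat_lit 188) (nat_lit 0) (nat_lit 84) (XT.nd (nat_lit 94) (nat_lit 0) (nat_lit 84) (XT.lf (nat_lit 0) (nat_lit 6164216999583) (nat_lit 924) (nat_lit 3471824827451) (nat_lit 924) (nat_lit 3471824827451) (nat_lit 128) (nat_lit 3) (nat_lit 139) (nat_lit 3) (nat_lit 139) (nat_lit 5) (nat_lit 474) (nat_lit 474) (nat_lit 132)) (XT.lf (nat_lit 0) (nat_lit 13070404294096) (nat_lit 840) (nat_lit 12782811734252) (nat_lit 924) (nat_lit 1398704966236) (nat_lit 129) (nat_lit 5) (nat_lit 139) (nat_lit 5) (nat_lit 140) (nat_lit 5) (nat_lit 475) (nat_lit 474) (nat_lit 131))) (XT.nd (nat_lit 94) (nat_lit 0) (nat_lit 84) (XT.lf (nat_lit 84) (nat_lit 9453514494597) (nat_lit 0) (nat_lit 5013712855394) (nat_lit 924) (nat_lit 13874001588183) (nat_lit 130) (nat_lit 5) (nat_lit 129) (nat_lit 5) (nat_lit 140) (nat_lit 5) (nat_lit 476) (nat_lit 474) (nat_lit 130)) (XT.lf (nat_lit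 84) (nat_lit 4278854590643) (nat_lit 0) (nat_lit 12263179187706) (nat_lit 924) (nat_lit 12947335862505) (nat_lit 131) (nat_lit 5) (nat_lit 130) (nat_lit 5) (nat_lit 141) (nat_lit 5) (nat_lit 477) (nat_lit 474) (nat_lit 129))))))) (XT.nd (nat_lit 67962) (nat_lit 0) (nat_lit 0) (XT.nd (nat_lit 658) (nat_lit 336) (nat_lit 0) (XT.nd (nat_lit 282) (nat_lit 2100) (nat_lit 0) (XT.nd (nat_lit 94) (nat_lit 0) (nat_lit 84) (XT.lf (nat_lit 0) (nat_lit 19361927834152) (nat_lit 840) (nat_lit 989778985390) (nat_lit 924) (nat_lit 10348699624545) (nat_lit 131) (nat_lit 5) (nat_lit 141) (nat_lit 5) (nat_lit 142) (nat_lit 5) (nat_lit 478) (nat_lit 474) (nat_lit 128)) (XT.nd (nat_lit 94) (nat_lit 0) (nat_lit 0) (XT.lf (nat_lit 0) (nat_lit 23060056740699) (nat_lit 840) (nat_lit 6233922755036) (nat_lit 924) (nat_lit 2681714529532) (nat_lit 132) (nat_lit 5) (nat_lit 142) (nat_lit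 5) (nat_lit 143) (nat_lit 5) (nat_lit 479) (nat_lit 474) (nat_lit 127)) (XT.lf (nat_lit 84) (nat_lit 21644352542314) (nat_lit 0) (nat_lit 6108303328089) (nat_lit 924) (nat_lit 5565417747005) (nat_lit 133) (nat_lit 5) (nat_lit 132) (nat_lit 5) (nat_lit 143) (nat_lit 5) (nat_lit 480) (nat_lit 474) (nat_lit 126)))) (XT.nd (nat_lit 188) (nat_lit 840) (nat_lit 0) (XT.nd (nat_lit 94) (nat_lit 588) (nat_lit 0) (XT.lf (nat_lit 0) (nat_lit 17475032063666) (nat_lit 840) (nat_lit 16024421302418) (nat_lit 924) (nat_lit 1234450689057) (nat_lit 123) (nat_lit 5) (nat_lit 133) (nat_lit 5) (nat_lit 134) (nat_lit 5) (nat_lit 481) (nat_lit 474) (nat_lit 125)) (XT.lf (nat_lit 0) (nat_lit 4000395737494) (nat_lit 588) (nat_lit 22995136277555) (nat_lit 84) (nat_lit 9231401208519) (nat_lit 116) (nat_lit 5) (nat_lit 123) (nat_lit 5) (nat_lit 117) (nat_lit 5) (nat_lit 482) (nat_lit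 474) (nat_lit 124))) (XT.nd (nat_lit 94) (nat_lit 420) (nat_lit 0) (XT.lf (nat_lit 0) (nat_lit 8943973754435) (nat_lit 420) (nat_lit 1382793606532) (nat_lit 504) (nat_lit 27475826188589) (nat_lit 111) (nat_lit 5) (nat_lit 116) (nat_lit 5) (nat_lit 117) (nat_lit 5) (nat_lit 483) (nat_lit 474) (nat_lit 123)) (XT.lf (nat_lit 0) (nat_lit 4502330669590) (nat_lit 420) (nat_lit 13544627320019) (nat_lit 504) (nat_lit 21412963248248) (nat_lit 106) (nat_lit 5) (nat_lit 111) (nat_lit 5) (nat_lit 112) (nat_lit 5) (nat_lit 484) (nat_lit 474) (nat_lit 122))))) (XT.nd (nat_lit 66928) (nat_lit 0) (nat_lit 2268) (XT.nd (nat_lit 94) (nat_lit 0) (nat_lit 0) (XT.lf (nat_lit 0) (nat_lit 89526841560) (nat_lit 336) (nat_lit 27050660867530) (nat_lit 420) (nat_lit 14071876240108) (nat_lit 102) (nat_lit 5) (nat_lit 106) (nat_lit 5) (nat_lit 107) (nat_lit 5) (nat_lit 485) (nat_lit 474)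 (nat_lit 121)) (XT.nd (nat_lit 66740) (nat_lit 0) (nat_lit 2184) (XT.lf (nat_lit 0) (nat_lit 37812601992139) (nat_lit 420) (nat_lit 4127980728612) (nat_lit 84) (nat_lit 1121209047392) (nat_lit 102) (nat_lit 5) (nat_lit 107) (nat_lit 5) (nat_lit 103) (nat_lit 5) (nat_lit 486) (nat_lit 474) (nat_lit 120)) (XT.lf (nat_lit 0) (nat_lit 6657354359694) (nat_lit 924) (nat_lit 3749570813572) (nat_lit 924) (nat_lit 3749570813572) (nat_lit 128) (nat_lit 3) (nat_lit 139) (nat_lit 3) (nat_lit 139) (nat_lit 5) (nat_lit 475) (nat_lit 475) (nat_lit 130)))) (XT.nd (nat_lit 188) (nat_lit 0) (nat_lit 84) (XT.nd (nat_lit 94) (nat_lit 0) (nat_lit 0) (XT.lf (nat_lit 0) (nat_lit 14116036637890) (nat_lit 840) (nat_lit 13805436672832) (nat_lit 924) (nat_lit 1510601363415) (nat_lit 129) (nat_lit 5) (nat_lit 139) (nat_lit 5) (nat_lit 140) (nat_lit 5) (nat_lit 476) (nat_lit 475) (nat_lit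 129)) (XT.lf (nat_lit 84) (nat_lit 10209795654317) (nat_lit 0) (nat_lit 5414809883922) (nat_lit 924) (nat_lit 14983921714977) (nat_lit 130) (nat_lit 5) (nat_lit 129) (nat_lit 5) (nat_lit 140) (nat_lit 5) (nat_lit 477) (nat_lit 475) (nat_lit 128))) (XT.nd (nat_lit 94) (nat_lit 0) (nat_lit 84) (XT.lf (nat_lit 84) (nat_lit 4621162958054) (nat_lit 0) (nat_lit 13244233522795) (nat_lit 924) (nat_lit 13983122731262) (nat_lit 131) (nat_lit 5) (nat_lit 130) (nat_lit 5) (nat_lit 141) (nat_lit 5) (nat_lit 478) (nat_lit 475) (nat_lit 127)) (XT.lf (nat_lit 0) (nat_lit 20910882061098) (nat_lit 840) (nat_lit 1068961304061) (nat_lit 924) (nat_lit 11176595594445) (nat_lit 131) (nat_lit 5) (nat_lit 141) (nat_lit 5) (nat_lit 142) (nat_lit 5) (nat_lit 479) (nat_lit 475) (nat_lit 126)))))) (XT.nd (nat_lit 67398) (nat_lit 0) (nat_lit 1764) (XT.nd (nat_lit 282) (nat_lit 1764) (nat_lit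 0) (XT.nd (nat_lit 94) (nat_lit 756) (nat_lit 0) (XT.lf (nat_lit 0) (nat_lit 24904861280154) (nat_lit 840) (nat_lit 6732636575275) (nat_lit 924) (nat_lit 2896251691849) (nat_lit 132) (nat_lit 5) (nat_lit 142) (nat_lit 5) (nat_lit 143) (nat_lit 5) (nat_lit 480) (nat_lit 475) (nat_lit 125)) (XT.nd (nat_lit 94) (nat_lit 756) (nat_lit 0) (XT.lf (nat_lit 84) (nat_lit 23375900745855) (nat_lit 0) (nat_lit 6596967594367) (nat_lit 924) (nat_lit 6010651166569) (nat_lit 133) (nat_lit 5) (nat_lit 132) (nat_lit 5) (nat_lit 143) (nat_lit 5) (nat_lit 481) (nat_lit 475) (nat_lit 124)) (XT.lf (nat_lit 0) (nat_lit 18873034628918) (nat_lit 840) (nat_lit 17306375006628) (nat_lit 924) (nat_lit 1333206743997) (nat_lit 123) (nat_lit 5) (nat_lit 133) (nat_lit 5) (nat_lit 134) (nat_lit 5) (nat_lit 482) (nat_lit 475) (nat_lit 123)))) (XT.nd (nat_lit 188) (nat_lit 756) (nat_lit 0) (XT.nd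 (nat_lit 94) (nat_lit 420) (nat_lit 0) (XT.lf (nat_lit 0) (nat_lit 4320427396660) (nat_lit 588) (nat_lit 24834747179593) (nat_lit 84) (nat_lit 9969913305191) (nat_lit 116) (nat_lit 5) (nat_lit 123) (nat_lit 5) (nat_lit 117) (nat_lit 5) (nat_lit 483) (nat_lit 475) (nat_lit 122)) (XT.lf (nat_lit 0) (nat_lit 9659491654948) (nat_lit 420) (nat_lit 1493417095053) (nat_lit 504) (nat_lit 29673892283511) (nat_lit 111) (nat_lit 5) (nat_lit 116) (nat_lit 5) (nat_lit 117) (nat_lit 5) (nat_lit 484) (nat_lit 475) (nat_lit 121))) (XT.nd (nat_lit 94) (nat_lit 336) (nat_lit 0) (XT.lf (nat_lit 0) (nat_lit 4862517123318) (nat_lit 420) (nat_lit 14628197505609) (nat_lit 504) (nat_lit 23126000307952) (nat_lit 106) (nat_lit 5) (nat_lit 111) (nat_lit 5) (nat_lit 112) (nat_lit 5) (nat_lit 485) (nat_lit 475) (nat_lit 120)) (XT.lf (nat_lit 0) (nat_lit 96688989044) (nat_lit 336) (nat_lit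 29214713736913) (nat_lit 420) (nat_lit 15197626339169) (nat_lit 102) (nat_lit 5) (nat_lit 106) (nat_lit 5) (nat_lit 107) (nat_lit 5) (nat_lit 486) (nat_lit 475) (nat_lit 119))))) (XT.nd (nat_lit 376) (nat_lit 420) (nat_lit 0) (XT.nd (nat_lit 188) (nat_lit 0) (nat_lit 84) (XT.nd (nat_lit 94) (nat_lit 0) (nat_lit 84) (XT.lf (nat_lit 0) (nat_lit 7189942708593) (nat_lit 924) (nat_lit 4049536478593) (nat_lit 924) (nat_lit 4049536478593) (nat_lit 128) (nat_lit 3) (nat_lit 139) (nat_lit 3) (nat_lit 139) (nat_lit 5) (nat_lit 476) (nat_lit 476) (nat_lit 128)) (XT.lf (nat_lit 0) (nat_lit 15245319569150) (nat_lit 840) (nat_lit 14909871606522) (nat_lit 924) (nat_lit 1631449472385) (nat_lit 129) (nat_lit 5) (nat_lit 139) (nat_lit 5) (nat_lit 140) (nat_lit 5) (nat_lit 477) (nat_lit 476) (nat_lit 127))) (XT.nd (nat_lit 94) (nat_lit 0) (nat_lit 84) (XT.lf (nat_lit 84) (nat_lit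 11026579306794) (nat_lit 0) (nat_lit 5847994674719) (nat_lit 924) (nat_lit 16182635451950) (nat_lit 130) (nat_lit 5) (nat_lit 129) (nat_lit 5) (nat_lit 140) (nat_lit 5) (nat_lit 478) (nat_lit 476) (nat_lit 126)) (XT.lf (nat_lit 84) (nat_lit 4990855994835) (nat_lit 0) (nat_lit 14303772204680) (nat_lit 924) (nat_lit 15101772549554) (nat_lit 131) (nat_lit 5) (nat_lit 130) (nat_lit 5) (nat_lit 141) (nat_lit 5) (nat_lit 479) (nat_lit 476) (nat_lit 125)))) (XT.nd (nat_lit 188) (nat_lit 672) (nat_lit 0) (XT.nd (nat_lit 94) (nat_lit 0) (nat_lit 84) (XT.lf (nat_lit 0) (nat_lit 22583752626169) (nat_lit 840) (nat_lit 1154478208250) (nat_lit 924) (nat_lit 12070723241945) (nat_lit 131) (nat_lit 5) (nat_lit 141) (nat_lit 5) (nat_lit 142) (nat_lit 5) (nat_lit 480) (nat_lit 476) (nat_lit 124)) (XT.lf (nat_lit 0) (nat_lit 26897250182737) (nat_lit 840) (nat_lit 7271247501157)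 (nat_lit 924) (nat_lit 3127951827157) (nat_lit 132) (nat_lit 5) (nat_lit 142) (nat_lit 5) (nat_lit 143) (nat_lit 5) (nat_lit 481) (nat_lit 476) (nat_lit 123))) (XT.nd (nat_lit 94) (nat_lit 756) (nat_lit 0) (XT.lf (nat_lit 84) (nat_lit 25245972805658) (nat_lit 0) (nat_lit 7124725001943) (nat_lit 924) (nat_lit 6491503259726) (nat_lit 133) (nat_lit 5) (nat_lit 132) (nat_lit 5) (nat_lit 143) (nat_lit 5) (nat_lit 482) (nat_lit 476) (nat_lit 122)) (XT.lf (nat_lit 0) (nat_lit 20382877399368) (nat_lit 840) (nat_lit 18690885007172) (nat_lit 924) (nat_lit 1439863283359) (nat_lit 123) (nat_lit 5) (nat_lit 133) (nat_lit 5) (nat_lit 134) (nat_lit 5) (nat_lit 483) (nat_lit 476) (nat_lit 121))))))))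
noncomputable def xc253 : XT := (XT.nd (nat_lit 203134) (nat_lit 0) (nat_lit 756) (XT.nd (nat_lit 68056) (nat_lit 0) (nat_lit 336) (XT.nd (nat_lit 67398) (nat_lit 0) (nat_lit 756) (XT.nd (nat_lit 282) (nat_lit 336) (nat_lit 0) (XT.nd (nat_lit 94) (nat_lit 840) (nat_lit 0) (XT.lf (nat_lit 0) (nat_lit 4666061588536) (nat_lit 588) (nat_lit 26821526953818) (nat_lit 84) (nat_lit 10767506369598) (nat_lit 116) (nat_lit 5) (nat_lit 123) (nat_lit 5) (nat_lit 117) (nat_lit 5) (nat_lit 484) (nat_lit 476) (nat_lit 120)) (XT.nd (nat_lit 94) (nat_lit 420) (nat_lit 0) (XT.lf (nat_lit 0) (nat_lit 10432250987481) (nat_lit 420) (nat_lit 1612890462655) (nat_lit 504) (nat_lit 32047803666050) (nat_lit 111) (nat_lit 5) (nat_lit 116) (nat_lit 5) (nat_lit 117) (nat_lit 5) (nat_lit 485) (nat_lit 476) (nat_lit 119)) (XT.lf (nat_lit 0) (nat_lit 5251518493320) (nat_lit 420) (nat_lit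 15798453306048) (nat_lit 504) (nat_lit 24976080332455) (nat_lit 106) (nat_lit 5) (nat_lit 111) (nat_lit 5) (nat_lit 112) (nat_lit 5) (nat_lit 486) (nat_lit 476) (nat_lit 118)))) (XT.nd (nat_lit 66928) (nat_lit 0) (nat_lit 2268) (XT.nd (nat_lit 66834) (nat_lit 0) (nat_lit 2184) (XT.lf (nat_lit 0) (nat_lit 104424108304) (nat_lit 336) (nat_lit 31551890835849) (nat_lit 420) (nat_lit 16413436446177) (nat_lit 102) (nat_lit 5) (nat_lit 106) (nat_lit 5) (nat_lit 107) (nat_lit 5) (nat_lit 487) (nat_lit 476) (nat_lit 117)) (XT.lf (nat_lit 0) (nat_lit 7765138125386) (nat_lit 924) (nat_lit 4373499396825) (nat_lit 924) (nat_lit 4373499396825) (nat_lit 128) (nat_lit 3) (nat_lit 139) (nat_lit 3) (nat_lit 139) (nat_lit 5) (nat_lit 477) (nat_lit 477) (nat_lit 126))) (XT.nd (nat_lit 94) (nat_lit 0) (nat_lit 0) (XT.lf (nat_lit 0) (nat_lit 16464945134878) (nat_lit 840) (nat_lit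 16102661334926) (nat_lit 924) (nat_lit 1761965430087) (nat_lit 129) (nat_lit 5) (nat_lit 139) (nat_lit 5) (nat_lit 140) (nat_lit 5) (nat_lit 478) (nat_lit 477) (nat_lit 125)) (XT.lf (nat_lit 84) (nat_lit 11908705651450) (nat_lit 0) (nat_lit 6315834248766) (nat_lit 924) (nat_lit 17477246287914) (nat_lit 130) (nat_lit 5) (nat_lit 129) (nat_lit 5) (nat_lit 140) (nat_lit 5) (nat_lit 479) (nat_lit 477) (nat_lit 124))))) (XT.nd (nat_lit 282) (nat_lit 1596) (nat_lit 0) (XT.nd (nat_lit 94) (nat_lit 0) (nat_lit 84) (XT.lf (nat_lit 84) (nat_lit 5390124474539) (nat_lit 0) (nat_lit 15448073981107) (nat_lit 924) (nat_lit 16309914353339) (nat_lit 131) (nat_lit 5) (nat_lit 130) (nat_lit 5) (nat_lit 141) (nat_lit 5) (nat_lit 480) (nat_lit 477) (nat_lit 123)) (XT.nd (nat_lit 94) (nat_lit 0) (nat_lit 84) (XT.lf (nat_lit 0) (nat_lit 24390452836419) (nat_lit 840) (nat_lit 1246836464792)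 (nat_lit 924) (nat_lit 13036381101253) (nat_lit 131) (nat_lit 5) (nat_lit 141) (nat_lit 5) (nat_lit 142) (nat_lit 5) (nat_lit 481) (nat_lit 477) (nat_lit 122)) (XT.lf (nat_lit 0) (nat_lit 29049030197503) (nat_lit 840) (nat_lit 7852947301130) (nat_lit 924) (nat_lit 3378187973296) (nat_lit 132) (nat_lit 5) (nat_lit 142) (nat_lit 5) (nat_lit 143) (nat_lit 5) (nat_lit 482) (nat_lit 477) (nat_lit 121)))) (XT.nd (nat_lit 188) (nat_lit 1008) (nat_lit 0) (XT.nd (nat_lit 94) (nat_lit 756) (nat_lit 0) (XT.lf (nat_lit 84) (nat_lit 27265650630225) (nat_lit 0) (nat_lit 7694703002121) (nat_lit 924) (nat_lit 7010823520360) (nat_lit 133) (nat_lit 5) (nat_lit 132) (nat_lit 5) (nat_lit 143) (nat_lit 5) (nat_lit 483) (nat_lit 477) (nat_lit 120)) (XT.lf (nat_lit 0) (nat_lit 22013507591434) (nat_lit 840) (nat_lit 20186155807758) (nat_lit 924) (nat_lit 1555052345893) (nat_lit 123)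 (nat_lit 5) (nat_lit 133) (nat_lit 5) (nat_lit 134) (nat_lit 5) (nat_lit 484) (nat_lit 477) (nat_lit 119))) (XT.nd (nat_lit 94) (nat_lit 420) (nat_lit 0) (XT.lf (nat_lit 0) (nat_lit 5039346515743) (nat_lit 588) (nat_lit 28967249110001) (nat_lit 84) (nat_lit 11628906879160) (nat_lit 116) (nat_lit 5) (nat_lit 123) (nat_lit 5) (nat_lit 117) (nat_lit 5) (nat_lit 485) (nat_lit 477) (nat_lit 118)) (XT.lf (nat_lit 0) (nat_lit 11266831066597) (nat_lit 420) (nat_lit 1741921699666) (nat_lit 504) (nat_lit 34611627959213) (nat_lit 111) (nat_lit 5) (nat_lit 116) (nat_lit 5) (nat_lit 117) (nat_lit 5) (nat_lit 486) (nat_lit 477) (nat_lit 117)))))) (XT.nd (nat_lit 67492) (nat_lit 0) (nat_lit 420) (XT.nd (nat_lit 67116) (nat_lit 0) (nat_lit 1932) (XT.nd (nat_lit 66928) (nat_lit 0) (nat_lit 1848) (XT.lf (nat_lit 0) (nat_lit 5671639972903) (nat_lit 420) (nat_lit 17062329570524)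 (nat_lit 504) (nat_lit 26974166758937) (nat_lit 106) (nat_lit 5) (nat_lit 111) (nat_lit 5) (nat_lit 112) (nat_lit 5) (nat_lit 487) (nat_lit 477) (nat_lit 116)) (XT.nd (nat_lit 94) (nat_lit 0) (nat_lit 84) (XT.lf (nat_lit 0) (nat_lit 8386349175507) (nat_lit 924) (nat_lit 4723379348523) (nat_lit 924) (nat_lit 4723379348523) (nat_lit 128) (nat_lit 3) (nat_lit 139) (nat_lit 3) (nat_lit 139) (nat_lit 5) (nat_lit 478) (nat_lit 478) (nat_lit 124)) (XT.lf (nat_lit 0) (nat_lit 17782140745836) (nat_lit 840) (nat_lit 17390874241619) (nat_lit 924) (nat_lit 1902922664419) (nat_lit 129) (nat_lit 5) (nat_lit 139) (nat_lit 5) (nat_lit 140) (nat_lit 5) (nat_lit 479) (nat_lit 478) (nat_lit 123)))) (XT.nd (nat_lit 188) (nat_lit 0) (nat_lit 168) (XT.nd (nat_lit 94) (nat_lit 0) (nat_lit 84) (XT.lf (nat_lit 84) (nat_lit 12861402103663) (nat_lit 0) (nat_lit 6821100988728) (nat_lit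 924) (nat_lit 18875425990782) (nat_lit 130) (nat_lit 5) (nat_lit 129) (nat_lit 5) (nat_lit 140) (nat_lit 5) (nat_lit 480) (nat_lit 478) (nat_lit 122)) (XT.lf (nat_lit 84) (nat_lit 5821334432603) (nat_lit 0) (nat_lit 16683919899642) (nat_lit 924) (nat_lit 17614707501453) (nat_lit 131) (nat_lit 5) (nat_lit 130) (nat_lit 5) (nat_lit 141) (nat_lit 5) (nat_lit 481) (nat_lit 478) (nat_lit 121))) (XT.nd (nat_lit 94) (nat_lit 0) (nat_lit 84) (XT.lf (nat_lit 0) (nat_lit 26341689063468) (nat_lit 840) (nat_lit 1346583381875) (nat_lit 924) (nat_lit 14079291589312) (nat_lit 131) (nat_lit 5) (nat_lit 141) (nat_lit 5) (nat_lit 142) (nat_lit 5) (nat_lit 482) (nat_lit 478) (nat_lit 120)) (XT.lf (nat_lit 0) (nat_lit 31372952613429) (nat_lit 840) (nat_lit 8481183085117) (nat_lit 924) (nat_lit 3648443011131) (nat_lit 132) (nat_lit 5) (nat_lit 142) (nat_lit 5) (nat_lit 143) (nat_lit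 5) (nat_lit 483) (nat_lit 478) (nat_lit 119))))) (XT.nd (nat_lit 282) (nat_lit 420) (nat_lit 0) (XT.nd (nat_lit 94) (nat_lit 1344) (nat_lit 0) (XT.lf (nat_lit 84) (nat_lit 29446902680742) (nat_lit 0) (nat_lit 8310279242310) (nat_lit 924) (nat_lit 7571689401865) (nat_lit 133) (nat_lit 5) (nat_lit 132) (nat_lit 5) (nat_lit 143) (nat_lit 5) (nat_lit 484) (nat_lit 478) (nat_lit 118)) (XT.nd (nat_lit 94) (nat_lit 588) (nat_lit 0) (XT.lf (nat_lit 0) (nat_lit 23774588198850) (nat_lit 840) (nat_lit 21801048272389) (nat_lit 924) (nat_lit 1679456533448) (nat_lit 123) (nat_lit 5) (nat_lit 133) (nat_lit 5) (nat_lit 134) (nat_lit 5) (nat_lit 485) (nat_lit 478) (nat_lit 117)) (XT.lf (nat_lit 0) (nat_lit 5442494237108) (nat_lit 588) (nat_lit 31284629038696) (nat_lit 84) (nat_lit 12559219429487) (nat_lit 116) (nat_lit 5) (nat_lit 123) (nat_lit 5) (nat_lit 117) (nat_lit 5)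 (nat_lit 486) (nat_lit 478) (nat_lit 116)))) (XT.nd (nat_lit 67116) (nat_lit 0) (nat_lit 1512) (XT.nd (nat_lit 67022) (nat_lit 0) (nat_lit 1428) (XT.lf (nat_lit 0) (nat_lit 12168177552025) (nat_lit 420) (nat_lit 1881275435639) (nat_lit 504) (nat_lit 37380558195846) (nat_lit 111) (nat_lit 5) (nat_lit 116) (nat_lit 5) (nat_lit 117) (nat_lit 5) (nat_lit 487) (nat_lit 478) (nat_lit 115)) (XT.lf (nat_lit 0) (nat_lit 9057257109625) (nat_lit 924) (nat_lit 5101249696364) (nat_lit 924) (nat_lit 5101249696364) (nat_lit 128) (nat_lit 3) (nat_lit 139) (nat_lit 3) (nat_lit 139) (nat_lit 5) (nat_lit 479) (nat_lit 479) (nat_lit 122))) (XT.nd (nat_lit 94) (nat_lit 0) (nat_lit 0) (XT.lf (nat_lit 0) (nat_lit 19204712005647) (nat_lit 840) (nat_lit 18782144180862) (nat_lit 924) (nat_lit 2055156477507) (nat_lit 129) (nat_lit 5) (nat_lit 139) (nat_lit 5) (nat_lit 140) (nat_lit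 5) (nat_lit 480) (nat_lit 479) (nat_lit 121)) (XT.lf (nat_lit 84) (nat_lit 13890314272038) (nat_lit 0) (nat_lit 7366789067879) (nat_lit 924) (nat_lit 20385460069904) (nat_lit 130) (nat_lit 5) (nat_lit 129) (nat_lit 5) (nat_lit 140) (nat_lit 5) (nat_lit 481) (nat_lit 479) (nat_lit 120))))))) (XT.nd (nat_lit 68244) (nat_lit 0) (nat_lit 420) (XT.nd (nat_lit 67586) (nat_lit 0) (nat_lit 1428) (XT.nd (nat_lit 282) (nat_lit 1596) (nat_lit 0) (XT.nd (nat_lit 94) (nat_lit 0) (nat_lit 84) (XT.lf (nat_lit 84) (nat_lit 6287041187297) (nat_lit 0) (nat_lit 18018633491653) (nat_lit 924) (nat_lit 19023884101437) (nat_lit 131) (nat_lit 5) (nat_lit 130) (nat_lit 5) (nat_lit 141) (nat_lit 5) (nat_lit 482) (nat_lit 479) (nat_lit 119)) (XT.nd (nat_lit 94) (nat_lit 0) (nat_lit 84) (XT.lf (nat_lit 0) (nat_lit 28449024188660) (nat_lit 840) (nat_lit 1454310052340) (nat_lit 924) (nat_lit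 15205634916421) (nat_lit 131) (nat_lit 5) (nat_lit 141) (nat_lit 5) (nat_lit 142) (nat_lit 5) (nat_lit 483) (nat_lit 479) (nat_lit 118)) (XT.lf (nat_lit 0) (nat_lit 33882788822611) (nat_lit 840) (nat_lit 9159677731840) (nat_lit 924) (nat_lit 3940318451995) (nat_lit 132) (nat_lit 5) (nat_lit 142) (nat_lit 5) (nat_lit 143) (nat_lit 5) (nat_lit 484) (nat_lit 479) (nat_lit 117)))) (XT.nd (nat_lit 188) (nat_lit 1008) (nat_lit 0) (XT.nd (nat_lit 94) (nat_lit 756) (nat_lit 0) (XT.lf (nat_lit 84) (nat_lit 31802654895285) (nat_lit 0) (nat_lit 8975101581712) (nat_lit 924) (nat_lit 8177424553908) (nat_lit 133) (nat_lit 5) (nat_lit 132) (nat_lit 5) (nat_lit 143) (nat_lit 5) (nat_lit 485) (nat_lit 479) (nat_lit 116)) (XT.lf (nat_lit 0) (nat_lit 25676555254843) (nat_lit 840) (nat_lit 23545132134189) (nat_lit 924) (nat_lit 1813813056025) (nat_lit 123) (nat_lit 5) (nat_lit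 133) (nat_lit 5) (nat_lit 134) (nat_lit 5) (nat_lit 486) (nat_lit 479) (nat_lit 115))) (XT.nd (nat_lit 94) (nat_lit 420) (nat_lit 0) (XT.lf (nat_lit 0) (nat_lit 5877893776166) (nat_lit 588) (nat_lit 33787399361703) (nat_lit 84) (nat_lit 13563956983840) (nat_lit 116) (nat_lit 5) (nat_lit 123) (nat_lit 5) (nat_lit 117) (nat_lit 5) (nat_lit 487) (nat_lit 479) (nat_lit 114)) (XT.lf (nat_lit 0) (nat_lit 13141631756271) (nat_lit 420) (nat_lit 2031777470490) (nat_lit 504) (nat_lit 40371002851424) (nat_lit 111) (nat_lit 5) (nat_lit 116) (nat_lit 5) (nat_lit 117) (nat_lit 5) (nat_lit 488) (nat_lit 479) (nat_lit 113))))) (XT.nd (nat_lit 282) (nat_lit 0) (nat_lit 168) (XT.nd (nat_lit 94) (nat_lit 0) (nat_lit 84) (XT.lf (nat_lit 0) (nat_lit 9781837678462) (nat_lit 924) (nat_lit 5509349672039) (nat_lit 924) (nat_lit 5509349672039) (nat_lit 128) (nat_lit 3) (nat_lit 139)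 (nat_lit 3) (nat_lit 139) (nat_lit 5) (nat_lit 480) (nat_lit 480) (nat_lit 120)) (XT.nd (nat_lit 94) (nat_lit 0) (nat_lit 0) (XT.lf (nat_lit 0) (nat_lit 20741088966222) (nat_lit 840) (nat_lit 20284715715257) (nat_lit 924) (nat_lit 2219568995652) (nat_lit 129) (nat_lit 5) (nat_lit 139) (nat_lit 5) (nat_lit 140) (nat_lit 5) (nat_lit 481) (nat_lit 480) (nat_lit 119)) (XT.lf (nat_lit 84) (nat_lit 15001539413871) (nat_lit 0) (nat_lit 7956132193354) (nat_lit 924) (nat_lit 22016296875375) (nat_lit 130) (nat_lit 5) (nat_lit 129) (nat_lit 5) (nat_lit 140) (nat_lit 5) (nat_lit 482) (nat_lit 480) (nat_lit 118)))) (XT.nd (nat_lit 188) (nat_lit 0) (nat_lit 168) (XT.nd (nat_lit 94) (nat_lit 0) (nat_lit 84) (XT.lf (nat_lit 84) (nat_lit 6790004482355) (nat_lit 0) (nat_lit 19460124171019) (nat_lit 924) (nat_lit 20545794829440) (nat_lit 131) (nat_lit 5) (nat_lit 130) (nat_lit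 5) (nat_lit 141) (nat_lit 5) (nat_lit 483) (nat_lit 480) (nat_lit 117)) (XT.lf (nat_lit 0) (nat_lit 30724946123852) (nat_lit 840) (nat_lit 1570654856453) (nat_lit 924) (nat_lit 16422085709705) (nat_lit 131) (nat_lit 5) (nat_lit 141) (nat_lit 5) (nat_lit 142) (nat_lit 5) (nat_lit 484) (nat_lit 480) (nat_lit 116))) (XT.nd (nat_lit 94) (nat_lit 0) (nat_lit 0) (XT.lf (nat_lit 0) (nat_lit 36593411928512) (nat_lit 840) (nat_lit 9892451950310) (nat_lit 924) (nat_lit 4255543928135) (nat_lit 132) (nat_lit 5) (nat_lit 142) (nat_lit 5) (nat_lit 143) (nat_lit 5) (nat_lit 485) (nat_lit 480) (nat_lit 115)) (XT.lf (nat_lit 84) (nat_lit 34346867286981) (nat_lit 0) (nat_lit 9693109708263) (nat_lit 924) (nat_lit 8831618518130) (nat_lit 133) (nat_lit 5) (nat_lit 132) (nat_lit 5) (nat_lit 143) (nat_lit 5) (nat_lit 486) (nat_lit 480) (nat_lit 114)))))) (XT.nd (nat_lit 67680) (nat_lit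 0) (nat_lit 588) (XT.nd (nat_lit 67304) (nat_lit 0) (nat_lit 1092) (XT.nd (nat_lit 94) (nat_lit 588) (nat_lit 0) (XT.lf (nat_lit 0) (nat_lit 27730679675304) (nat_lit 840) (nat_lit 25428742704932) (nat_lit 924) (nat_lit 1958918100422) (nat_lit 123) (nat_lit 5) (nat_lit 133) (nat_lit 5) (nat_lit 134) (nat_lit 5) (nat_lit 487) (nat_lit 480) (nat_lit 113)) (XT.nd (nat_lit 67116) (nat_lit 0) (nat_lit 1008) (XT.lf (nat_lit 0) (nat_lit 6348125278337) (nat_lit 588) (nat_lit 36490391310562) (nat_lit 84) (nat_lit 14649073542542) (nat_lit 116) (nat_lit 5) (nat_lit 123) (nat_lit 5) (nat_lit 117) (nat_lit 5) (nat_lit 488) (nat_lit 480) (nat_lit 112)) (XT.lf (nat_lit 0) (nat_lit 10564384692796) (nat_lit 924) (nat_lit 5950097645772) (nat_lit 924) (nat_lit 5950097645772) (nat_lit 128) (nat_lit 3) (nat_lit 139) (nat_lit 3) (nat_lit 139) (nat_lit 5) (nat_lit 481) (nat_lit 481)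 (nat_lit 118)))) (XT.nd (nat_lit 188) (nat_lit 0) (nat_lit 84) (XT.nd (nat_lit 94) (nat_lit 0) (nat_lit 0) (XT.lf (nat_lit 0) (nat_lit 22400376083626) (nat_lit 840) (nat_lit 21907492972415) (nat_lit 924) (nat_lit 2397134515257) (nat_lit 129) (nat_lit 5) (nat_lit 139) (nat_lit 5) (nat_lit 140) (nat_lit 5) (nat_lit 482) (nat_lit 481) (nat_lit 117)) (XT.lf (nat_lit 84) (nat_lit 16201662567042) (nat_lit 0) (nat_lit 8592622768861) (nat_lit 924) (nat_lit 23777600625301) (nat_lit 130) (nat_lit 5) (nat_lit 129) (nat_lit 5) (nat_lit 140) (nat_lit 5) (nat_lit 483) (nat_lit 481) (nat_lit 116))) (XT.nd (nat_lit 94) (nat_lit 0) (nat_lit 84) (XT.lf (nat_lit 84) (nat_lit 7333204841006) (nat_lit 0) (nat_lit 21016934104729) (nat_lit 924) (nat_lit 22189458415698) (nat_lit 131) (nat_lit 5) (nat_lit 130) (nat_lit 5) (nat_lit 141) (nat_lit 5) (nat_lit 484) (nat_lit 481) (nat_lit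 115)) (XT.lf (nat_lit 0) (nat_lit 33182941813845) (nat_lit 840) (nat_lit 1696307244905) (nat_lit 924) (nat_lit 17735852566457) (nat_lit 131) (nat_lit 5) (nat_lit 141) (nat_lit 5) (nat_lit 142) (nat_lit 5) (nat_lit 485) (nat_lit 481) (nat_lit 114))))) (XT.nd (nat_lit 67492) (nat_lit 0) (nat_lit 504) (XT.nd (nat_lit 188) (nat_lit 756) (nat_lit 0) (XT.nd (nat_lit 94) (nat_lit 0) (nat_lit 0) (XT.lf (nat_lit 0) (nat_lit 39520884882873) (nat_lit 840) (nat_lit 10683848106270) (nat_lit 924) (nat_lit 4595987442367) (nat_lit 132) (nat_lit 5) (nat_lit 142) (nat_lit 5) (nat_lit 143) (nat_lit 5) (nat_lit 486) (nat_lit 481) (nat_lit 113)) (XT.lf (nat_lit 84) (nat_lit 37094616670001) (nat_lit 0) (nat_lit 10468558484937) (nat_lit 924) (nat_lit 9538147999502) (nat_lit 133) (nat_lit 5) (nat_lit 132) (nat_lit 5) (nat_lit 143) (nat_lit 5) (nat_lit 487) (nat_lit 481) (nat_lit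 112))) (XT.nd (nat_lit 67210) (nat_lit 0) (nat_lit 420) (XT.lf (nat_lit 0) (nat_lit 29949134049392) (nat_lit 840) (nat_lit 27463042121334) (nat_lit 924) (nat_lit 2115631548382) (nat_lit 123) (nat_lit 5) (nat_lit 133) (nat_lit 5) (nat_lit 134) (nat_lit 5) (nat_lit 488) (nat_lit 481) (nat_lit 111)) (XT.lf (nat_lit 0) (nat_lit 11409535468269) (nat_lit 924) (nat_lit 6426105457408) (nat_lit 924) (nat_lit 6426105457408) (nat_lit 128) (nat_lit 3) (nat_lit 139) (nat_lit 3) (nat_lit 139) (nat_lit 5) (nat_lit 482) (nat_lit 482) (nat_lit 116)))) (XT.nd (nat_lit 188) (nat_lit 0) (nat_lit 84) (XT.nd (nat_lit 94) (nat_lit 0) (nat_lit 0) (XT.lf (nat_lit 0) (nat_lit 24192406170407) (nat_lit 840) (nat_lit 23660092410153) (nat_lit 924) (nat_lit 2588905276437) (nat_lit 129) (nat_lit 5) (nat_lit 139) (nat_lit 5) (nat_lit 140) (nat_lit 5) (nat_lit 483) (nat_lit 482) (nat_lit 115))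 (XT.lf (nat_lit 84) (nat_lit 17497795572457) (nat_lit 0) (nat_lit 9280032590403) (nat_lit 924) (nat_lit 25679808675236) (nat_lit 130) (nat_lit 5) (nat_lit 129) (nat_lit 5) (nat_lit 140) (nat_lit 5) (nat_lit 484) (nat_lit 482) (nat_lit 114))) (XT.nd (nat_lit 94) (nat_lit 0) (nat_lit 84) (XT.lf (nat_lit 84) (nat_lit 7919861228342) (nat_lit 0) (nat_lit 22698288833131) (nat_lit 924) (nat_lit 23964615088871) (nat_lit 131) (nat_lit 5) (nat_lit 130) (nat_lit 5) (nat_lit 141) (nat_lit 5) (nat_lit 485) (nat_lit 482) (nat_lit 113)) (XT.lf (nat_lit 0) (nat_lit 35837577159026) (nat_lit 840) (nat_lit 1832011824444) (nat_lit 924) (nat_lit 19154720771751) (nat_lit 131) (nat_lit 5) (nat_lit 141) (nat_lit 5) (nat_lit 142) (nat_lit 5) (nat_lit 486) (nat_lit 482) (nat_lit 112))))))))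
noncomputable def xc254 : XT := (XT.nd (nat_lit 339058) (nat_lit 0) (nat_lit 0) (XT.nd (nat_lit 135736) (nat_lit 0) (nat_lit 0) (XT.nd (nat_lit 67868) (nat_lit 0) (nat_lit 0) (XT.nd (nat_lit 67492) (nat_lit 0) (nat_lit 84) (XT.nd (nat_lit 94) (nat_lit 336) (nat_lit 0) (XT.lf (nat_lit 0) (nat_lit 42682555673570) (nat_lit 840) (nat_lit 11538555954716) (nat_lit 924) (nat_lit 4963666437741) (nat_lit 132) (nat_lit 5) (nat_lit 142) (nat_lit 5) (nat_lit 143) (nat_lit 5) (nat_lit 487) (nat_lit 482) (nat_lit 111)) (XT.nd (nat_lit 67304) (nat_lit 336) (nat_lit 0) (XT.lf (nat_lit 84) (nat_lit 40062186003655) (nat_lit 0) (nat_lit 11306043163742) (nat_lit 924) (nat_lit 10301199839396) (nat_lit 133) (nat_lit 5) (nat_lit 132) (nat_lit 5) (nat_lit 143) (nat_lit 5) (nat_lit 488) (nat_lit 482) (nat_lit 110)) (XT.lf (nat_lit 0) (nat_lit 12322298305773) (nat_lit 924) (nat_lit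 6940193893978) (nat_lit 924) (nat_lit 6940193893978) (nat_lit 128) (nat_lit 3) (nat_lit 139) (nat_lit 3) (nat_lit 139) (nat_lit 5) (nat_lit 483) (nat_lit 483) (nat_lit 114)))) (XT.nd (nat_lit 188) (nat_lit 0) (nat_lit 84) (XT.nd (nat_lit 94) (nat_lit 0) (nat_lit 0) (XT.lf (nat_lit 0) (nat_lit 26127798664117) (nat_lit 840) (nat_lit 25552899802919) (nat_lit 924) (nat_lit 2796017698516) (nat_lit 129) (nat_lit 5) (nat_lit 139) (nat_lit 5) (nat_lit 140) (nat_lit 5) (nat_lit 484) (nat_lit 483) (nat_lit 113)) (XT.lf (nat_lit 84) (nat_lit 18897619218300) (nat_lit 0) (nat_lit 10022435197662) (nat_lit 924) (nat_lit 27734193369178) (nat_lit 130) (nat_lit 5) (nat_lit 129) (nat_lit 5) (nat_lit 140) (nat_lit 5) (nat_lit 485) (nat_lit 483) (nat_lit 112))) (XT.nd (nat_lit 94) (nat_lit 0) (nat_lit 84) (XT.lf (nat_lit 84) (nat_lit 8553450126656) (nat_lit 0) (nat_lit 24514151939803)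 (nat_lit 924) (nat_lit 25881784295910) (nat_lit 131) (nat_lit 5) (nat_lit 130) (nat_lit 5) (nat_lit 141) (nat_lit 5) (nat_lit 486) (nat_lit 483) (nat_lit 111)) (XT.lf (nat_lit 0) (nat_lit 38704583331810) (nat_lit 840) (nat_lit 1978572770352) (nat_lit 924) (nat_lit 20687098433472) (nat_lit 131) (nat_lit 5) (nat_lit 141) (nat_lit 5) (nat_lit 142) (nat_lit 5) (nat_lit 487) (nat_lit 483) (nat_lit 110))))) (XT.nd (nat_lit 67492) (nat_lit 0) (nat_lit 84) (XT.nd (nat_lit 94) (nat_lit 336) (nat_lit 0) (XT.lf (nat_lit 0) (nat_lit 46097160127514) (nat_lit 840) (nat_lit 12461640431046) (nat_lit 924) (nat_lit 5360759752747) (nat_lit 132) (nat_lit 5) (nat_lit 142) (nat_lit 5) (nat_lit 143) (nat_lit 5) (nat_lit 488) (nat_lit 483) (nat_lit 109)) (XT.nd (nat_lit 67304) (nat_lit 336) (nat_lit 0) (XT.lf (nat_lit 84) (nat_lit 43267160883993) (nat_lit 0) (nat_lit 12210526616851)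 (nat_lit 924) (nat_lit 11125295826490) (nat_lit 133) (nat_lit 5) (nat_lit 132) (nat_lit 5) (nat_lit 143) (nat_lit 5) (nat_lit 489) (nat_lit 483) (nat_lit 108)) (XT.lf (nat_lit 0) (nat_lit 13308082170270) (nat_lit 924) (nat_lit 7495409405478) (nat_lit 924) (nat_lit 7495409405478) (nat_lit 128) (nat_lit 3) (nat_lit 139) (nat_lit 3) (nat_lit 139) (nat_lit 5) (nat_lit 484) (nat_lit 484) (nat_lit 112)))) (XT.nd (nat_lit 188) (nat_lit 0) (nat_lit 84) (XT.nd (nat_lit 94) (nat_lit 0) (nat_lit 0) (XT.lf (nat_lit 0) (nat_lit 28218022557314) (nat_lit 840) (nat_lit 27597131787112) (nat_lit 924) (nat_lit 3019699114369) (nat_lit 129) (nat_lit 5) (nat_lit 139) (nat_lit 5) (nat_lit 140) (nat_lit 5) (nat_lit 485) (nat_lit 484) (nat_lit 111)) (XT.lf (nat_lit 84) (nat_lit 20409428755802) (nat_lit 0) (nat_lit 10824230013499) (nat_lit 924) (nat_lit 29952928838647) (nat_lit 130)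 (nat_lit 5) (nat_lit 129) (nat_lit 5) (nat_lit 140) (nat_lit 5) (nat_lit 486) (nat_lit 484) (nat_lit 110))) (XT.nd (nat_lit 94) (nat_lit 0) (nat_lit 84) (XT.lf (nat_lit 84) (nat_lit 9237726136829) (nat_lit 0) (nat_lit 26475284095005) (nat_lit 924) (nat_lit 27952327039522) (nat_lit 131) (nat_lit 5) (nat_lit 130) (nat_lit 5) (nat_lit 141) (nat_lit 5) (nat_lit 487) (nat_lit 484) (nat_lit 109)) (XT.lf (nat_lit 0) (nat_lit 41800949998409) (nat_lit 840) (nat_lit 2136858591941) (nat_lit 924) (nat_lit 22342066308134) (nat_lit 131) (nat_lit 5) (nat_lit 141) (nat_lit 5) (nat_lit 142) (nat_lit 5) (nat_lit 488) (nat_lit 484) (nat_lit 108)))))) (XT.nd (nat_lit 135266) (nat_lit 0) (nat_lit 0) (XT.nd (nat_lit 67586) (nat_lit 0) (nat_lit 84) (XT.nd (nat_lit 67398) (nat_lit 336) (nat_lit 0) (XT.lf (nat_lit 0) (nat_lit 49784932937765) (nat_lit 840) (nat_lit 13458571665489)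 (nat_lit 924) (nat_lit 5789620532955) (nat_lit 132) (nat_lit 5) (nat_lit 142) (nat_lit 5) (nat_lit 143) (nat_lit 5) (nat_lit 489) (nat_lit 484) (nat_lit 107)) (XT.nd (nat_lit 94) (nat_lit 0) (nat_lit 84) (XT.lf (nat_lit 0) (nat_lit 14372728743923) (nat_lit 924) (nat_lit 8095042157900) (nat_lit 924) (nat_lit 8095042157900) (nat_lit 128) (nat_lit 3) (nat_lit 139) (nat_lit 3) (nat_lit 139) (nat_lit 5) (nat_lit 485) (nat_lit 485) (nat_lit 110)) (XT.lf (nat_lit 0) (nat_lit 30475464361956) (nat_lit 840) (nat_lit 29804902330048) (nat_lit 924) (nat_lit 3261275043491) (nat_lit 129) (nat_lit 5) (nat_lit 139) (nat_lit 5) (nat_lit 140) (nat_lit 5) (nat_lit 486) (nat_lit 485) (nat_lit 109)))) (XT.nd (nat_lit 188) (nat_lit 0) (nat_lit 168) (XT.nd (nat_lit 94) (nat_lit 0) (nat_lit 84) (XT.lf (nat_lit 84) (nat_lit 22042183056298) (nat_lit 0) (nat_lit 11690168414601) (nat_lit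 924) (nat_lit 32349163145683) (nat_lit 130) (nat_lit 5) (nat_lit 129) (nat_lit 5) (nat_lit 140) (nat_lit 5) (nat_lit 487) (nat_lit 485) (nat_lit 108)) (XT.lf (nat_lit 84) (nat_lit 9976744227808) (nat_lit 0) (nat_lit 28593306822622) (nat_lit 924) (nat_lit 30188513202632) (nat_lit 131) (nat_lit 5) (nat_lit 130) (nat_lit 5) (nat_lit 141) (nat_lit 5) (nat_lit 488) (nat_lit 485) (nat_lit 107))) (XT.nd (nat_lit 94) (nat_lit 0) (nat_lit 84) (XT.lf (nat_lit 0) (nat_lit 45145025998327) (nat_lit 840) (nat_lit 2307807279263) (nat_lit 924) (nat_lit 24129431612770) (nat_lit 131) (nat_lit 5) (nat_lit 141) (nat_lit 5) (nat_lit 142) (nat_lit 5) (nat_lit 489) (nat_lit 485) (nat_lit 106)) (XT.lf (nat_lit 0) (nat_lit 53767727572829) (nat_lit 840) (nat_lit 14535257398694) (nat_lit 924) (nat_lit 6252790175580) (nat_lit 132) (nat_lit 5) (nat_lit 142) (nat_lit 5) (nat_lit 143) (nat_lit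 5) (nat_lit 490) (nat_lit 485) (nat_lit 105))))) (XT.nd (nat_lit 282) (nat_lit 0) (nat_lit 0) (XT.nd (nat_lit 94) (nat_lit 0) (nat_lit 84) (XT.lf (nat_lit 0) (nat_lit 15522547043463) (nat_lit 924) (nat_lit 8742645530518) (nat_lit 924) (nat_lit 8742645530518) (nat_lit 128) (nat_lit 3) (nat_lit 139) (nat_lit 3) (nat_lit 139) (nat_lit 5) (nat_lit 486) (nat_lit 486) (nat_lit 108)) (XT.nd (nat_lit 94) (nat_lit 0) (nat_lit 0) (XT.lf (nat_lit 0) (nat_lit 32913501510961) (nat_lit 840) (nat_lit 32189294516422) (nat_lit 924) (nat_lit 3522177046949) (nat_lit 129) (nat_lit 5) (nat_lit 139) (nat_lit 5) (nat_lit 140) (nat_lit 5) (nat_lit 487) (nat_lit 486) (nat_lit 107)) (XT.lf (nat_lit 84) (nat_lit 23805557700830) (nat_lit 0) (nat_lit 12625381887787) (nat_lit 924) (nat_lit 34937096197289) (nat_lit 130) (nat_lit 5) (nat_lit 129) (nat_lit 5) (nat_lit 140) (nat_lit 5) (nat_lit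 488) (nat_lit 486) (nat_lit 106)))) (XT.nd (nat_lit 67586) (nat_lit 168) (nat_lit 0) (XT.nd (nat_lit 94) (nat_lit 0) (nat_lit 84) (XT.lf (nat_lit 84) (nat_lit 10774883766062) (nat_lit 0) (nat_lit 30880771368445) (nat_lit 924) (nat_lit 32603594258797) (nat_lit 131) (nat_lit 5) (nat_lit 130) (nat_lit 5) (nat_lit 141) (nat_lit 5) (nat_lit 489) (nat_lit 486) (nat_lit 105)) (XT.lf (nat_lit 0) (nat_lit 48756628078233) (nat_lit 840) (nat_lit 2492431861575) (nat_lit 924) (nat_lit 26059786141779) (nat_lit 131) (nat_lit 5) (nat_lit 141) (nat_lit 5) (nat_lit 142) (nat_lit 5) (nat_lit 490) (nat_lit 486) (nat_lit 104))) (XT.nd (nat_lit 94) (nat_lit 0) (nat_lit 84) (XT.lf (nat_lit 0) (nat_lit 16764350806963) (nat_lit 924) (nat_lit 9442057172948) (nat_lit 924) (nat_lit 9442057172948) (nat_lit 128) (nat_lit 3) (nat_lit 139) (nat_lit 3) (nat_lit 139) (nat_lit 5) (nat_lit 487)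 (nat_lit 487) (nat_lit 106)) (XT.lf (nat_lit 0) (nat_lit 35546581631880) (nat_lit 840) (nat_lit 34764438077711) (nat_lit 924) (nat_lit 3803951210686) (nat_lit 129) (nat_lit 5) (nat_lit 139) (nat_lit 5) (nat_lit 140) (nat_lit 5) (nat_lit 488) (nat_lit 487) (nat_lit 105))))))) (XT.nd (nat_lit 203510) (nat_lit 0) (nat_lit 0) (XT.nd (nat_lit 68056) (nat_lit 0) (nat_lit 0) (XT.nd (nat_lit 67680) (nat_lit 84) (nat_lit 0) (XT.nd (nat_lit 94) (nat_lit 0) (nat_lit 84) (XT.lf (nat_lit 84) (nat_lit 25710002316920) (nat_lit 0) (nat_lit 13635412438825) (nat_lit 924) (nat_lit 37732063893031) (nat_lit 130) (nat_lit 5) (nat_lit 129) (nat_lit 5) (nat_lit 140) (nat_lit 5) (nat_lit 489) (nat_lit 487) (nat_lit 104)) (XT.nd (nat_lit 94) (nat_lit 0) (nat_lit 84) (XT.lf (nat_lit 84) (nat_lit 11636874467372) (nat_lit 0) (nat_lit 33351233077932) (nat_lit 924) (nat_lit 35211881799463)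 (nat_lit 131) (nat_lit 5) (nat_lit 130) (nat_lit 5) (nat_lit 141) (nat_lit 5) (nat_lit 490) (nat_lit 487) (nat_lit 103)) (XT.lf (nat_lit 0) (nat_lit 52657158324525) (nat_lit 840) (nat_lit 2691826410476) (nat_lit 924) (nat_lit 28144569033112) (nat_lit 131) (nat_lit 5) (nat_lit 141) (nat_lit 5) (nat_lit 142) (nat_lit 5) (nat_lit 491) (nat_lit 487) (nat_lit 102)))) (XT.nd (nat_lit 188) (nat_lit 0) (nat_lit 84) (XT.nd (nat_lit 94) (nat_lit 0) (nat_lit 84) (XT.lf (nat_lit 0) (nat_lit 18105498871539) (nat_lit 924) (nat_lit 10197421746773) (nat_lit 924) (nat_lit 10197421746773) (nat_lit 128) (nat_lit 3) (nat_lit 139) (nat_lit 3) (nat_lit 139) (nat_lit 5) (nat_lit 488) (nat_lit 488) (nat_lit 104)) (XT.lf (nat_lit 0) (nat_lit 38390308162467) (nat_lit 840) (nat_lit 37545593123906) (nat_lit 924) (nat_lit 4108267307524) (nat_lit 129) (nat_lit 5) (nat_lit 139) (nat_lit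 5) (nat_lit 140) (nat_lit 5) (nat_lit 489) (nat_lit 488) (nat_lit 103))) (XT.nd (nat_lit 94) (nat_lit 0) (nat_lit 84) (XT.lf (nat_lit 84) (nat_lit 27766802502294) (nat_lit 0) (nat_lit 14726245433944) (nat_lit 924) (nat_lit 40750629004438) (nat_lit 130) (nat_lit 5) (nat_lit 129) (nat_lit 5) (nat_lit 140) (nat_lit 5) (nat_lit 490) (nat_lit 488) (nat_lit 102)) (XT.lf (nat_lit 84) (nat_lit 12567824424784) (nat_lit 0) (nat_lit 36019331724176) (nat_lit 924) (nat_lit 38028832343387) (nat_lit 131) (nat_lit 5) (nat_lit 130) (nat_lit 5) (nat_lit 141) (nat_lit 5) (nat_lit 491) (nat_lit 488) (nat_lit 101))))) (XT.nd (nat_lit 67680) (nat_lit 0) (nat_lit 0) (XT.nd (nat_lit 67492) (nat_lit 252) (nat_lit 0) (XT.lf (nat_lit 0) (nat_lit 56869730990516) (nat_lit 840) (nat_lit 2907172523291) (nat_lit 924) (nat_lit 30396134555753) (nat_lit 131) (nat_lit 5) (nat_lit 141) (nat_lit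 5) (nat_lit 142) (nat_lit 5) (nat_lit 492) (nat_lit 488) (nat_lit 100)) (XT.nd (nat_lit 94) (nat_lit 0) (nat_lit 84) (XT.lf (nat_lit 0) (nat_lit 19553938781279) (nat_lit 924) (nat_lit 11013215486506) (nat_lit 924) (nat_lit 11013215486506) (nat_lit 128) (nat_lit 3) (nat_lit 139) (nat_lit 3) (nat_lit 139) (nat_lit 5) (nat_lit 489) (nat_lit 489) (nat_lit 102)) (XT.lf (nat_lit 0) (nat_lit 41461532815495) (nat_lit 840) (nat_lit 40549240573800) (nat_lit 924) (nat_lit 4436928692112) (nat_lit 129) (nat_lit 5) (nat_lit 139) (nat_lit 5) (nat_lit 140) (nat_lit 5) (nat_lit 490) (nat_lit 489) (nat_lit 101)))) (XT.nd (nat_lit 188) (nat_lit 84) (nat_lit 0) (XT.nd (nat_lit 94) (nat_lit 0) (nat_lit 84) (XT.lf (nat_lit 84) (nat_lit 29988146702495) (nat_lit 0) (nat_lit 15904345068671) (nat_lit 924) (nat_lit 44010679324763) (nat_lit 130) (nat_lit 5) (nat_lit 129) (nat_lit 5)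 (nat_lit 140) (nat_lit 5) (nat_lit 491) (nat_lit 489) (nat_lit 100)) (XT.lf (nat_lit 84) (nat_lit 13573250378786) (nat_lit 0) (nat_lit 38900878262117) (nat_lit 924) (nat_lit 41071138930830) (nat_lit 131) (nat_lit 5) (nat_lit 130) (nat_lit 5) (nat_lit 141) (nat_lit 5) (nat_lit 492) (nat_lit 489) (nat_lit 99))) (XT.nd (nat_lit 67492) (nat_lit 252) (nat_lit 0) (XT.lf (nat_lit 0) (nat_lit 61419309469783) (nat_lit 840) (nat_lit 3139746325135) (nat_lit 924) (nat_lit 32827825320206) (nat_lit 131) (nat_lit 5) (nat_lit 141) (nat_lit 5) (nat_lit 142) (nat_lit 5) (nat_lit 493) (nat_lit 489) (nat_lit 98)) (XT.lf (nat_lit 0) (nat_lit 21118253883796) (nat_lit 924) (nat_lit 11894272725419) (nat_lit 924) (nat_lit 11894272725419) (nat_lit 128) (nat_lit 3) (nat_lit 139) (nat_lit 3) (nat_lit 139) (nat_lit 5) (nat_lit 490) (nat_lit 490) (nat_lit 100)))))) (XT.nd (nat_lit 68056)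 (nat_lit 0) (nat_lit 0) (XT.nd (nat_lit 282) (nat_lit 84) (nat_lit 0) (XT.nd (nat_lit 94) (nat_lit 0) (nat_lit 0) (XT.lf (nat_lit 0) (nat_lit 44778455440761) (nat_lit 840) (nat_lit 43793179819688) (nat_lit 924) (nat_lit 4791882987470) (nat_lit 129) (nat_lit 5) (nat_lit 139) (nat_lit 5) (nat_lit 140) (nat_lit 5) (nat_lit 491) (nat_lit 490) (nat_lit 99)) (XT.nd (nat_lit 94) (nat_lit 0) (nat_lit 84) (XT.lf (nat_lit 84) (nat_lit 32387198438712) (nat_lit 0) (nat_lit 17176692674173) (nat_lit 924) (nat_lit 47531533670718) (nat_lit 130) (nat_lit 5) (nat_lit 129) (nat_lit 5) (nat_lit 140) (nat_lit 5) (nat_lit 492) (nat_lit 490) (nat_lit 98)) (XT.lf (nat_lit 84) (nat_lit 14659110409105) (nat_lit 0) (nat_lit 42012948523094) (nat_lit 924) (nat_lit 44356830045272) (nat_lit 131) (nat_lit 5) (nat_lit 130) (nat_lit 5) (nat_lit 141) (nat_lit 5) (nat_lit 493) (nat_lit 490)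 (nat_lit 97)))) (XT.nd (nat_lit 67586) (nat_lit 0) (nat_lit 84) (XT.nd (nat_lit 67492) (nat_lit 252) (nat_lit 0) (XT.lf (nat_lit 0) (nat_lit 66332854227386) (nat_lit 840) (nat_lit 3390926031130) (nat_lit 924) (nat_lit 35454051345816) (nat_lit 131) (nat_lit 5) (nat_lit 141) (nat_lit 5) (nat_lit 142) (nat_lit 5) (nat_lit 494) (nat_lit 490) (nat_lit 96)) (XT.lf (nat_lit 0) (nat_lit 22807714194512) (nat_lit 924) (nat_lit 12845814543446) (nat_lit 924) (nat_lit 12845814543446) (nat_lit 128) (nat_lit 3) (nat_lit 139) (nat_lit 3) (nat_lit 139) (nat_lit 5) (nat_lit 491) (nat_lit 491) (nat_lit 98))) (XT.nd (nat_lit 94) (nat_lit 0) (nat_lit 0) (XT.lf (nat_lit 0) (nat_lit 48360731876045) (nat_lit 840) (nat_lit 47296634205248) (nat_lit 924) (nat_lit 5175233626459) (nat_lit 129) (nat_lit 5) (nat_lit 139) (nat_lit 5) (nat_lit 140) (nat_lit 5) (nat_lit 492) (nat_lit 491)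 (nat_lit 97)) (XT.lf (nat_lit 84) (nat_lit 34978174313822) (nat_lit 0) (nat_lit 18550828088115) (nat_lit 924) (nat_lit 51334056364353) (nat_lit 130) (nat_lit 5) (nat_lit 129) (nat_lit 5) (nat_lit 140) (nat_lit 5) (nat_lit 493) (nat_lit 491) (nat_lit 96))))) (XT.nd (nat_lit 67774) (nat_lit 0) (nat_lit 0) (XT.nd (nat_lit 67586) (nat_lit 168) (nat_lit 0) (XT.nd (nat_lit 94) (nat_lit 0) (nat_lit 84) (XT.lf (nat_lit 84) (nat_lit 15831839241848) (nat_lit 0) (nat_lit 45373984404948) (nat_lit 924) (nat_lit 47905376448873) (nat_lit 131) (nat_lit 5) (nat_lit 130) (nat_lit 5) (nat_lit 141) (nat_lit 5) (nat_lit 494) (nat_lit 491) (nat_lit 95)) (XT.lf (nat_lit 0) (nat_lit 71639482565595) (nat_lit 840) (nat_lit 3662200113608) (nat_lit 924) (nat_lit 38290375453476) (nat_lit 131) (nat_lit 5) (nat_lit 141) (nat_lit 5) (nat_lit 142) (nat_lit 5) (nat_lit 495) (nat_lit 491) (nat_lit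 94))) (XT.nd (nat_lit 94) (nat_lit 0) (nat_lit 84) (XT.lf (nat_lit 0) (nat_lit 24632331330084) (nat_lit 924) (nat_lit 13873479706917) (nat_lit 924) (nat_lit 13873479706917) (nat_lit 128) (nat_lit 3) (nat_lit 139) (nat_lit 3) (nat_lit 139) (nat_lit 5) (nat_lit 492) (nat_lit 492) (nat_lit 96)) (XT.lf (nat_lit 0) (nat_lit 52229590426148) (nat_lit 840) (nat_lit 51080364941658) (nat_lit 924) (nat_lit 5589252316565) (nat_lit 129) (nat_lit 5) (nat_lit 139) (nat_lit 5) (nat_lit 140) (nat_lit 5) (nat_lit 493) (nat_lit 492) (nat_lit 95)))) (XT.nd (nat_lit 188) (nat_lit 84) (nat_lit 0) (XT.nd (nat_lit 94) (nat_lit 0) (nat_lit 84) (XT.lf (nat_lit 84) (nat_lit 37776428258937) (nat_lit 0) (nat_lit 20034894335173) (nat_lit 924) (nat_lit 55440780873483) (nat_lit 130) (nat_lit 5) (nat_lit 129) (nat_lit 5) (nat_lit 140) (nat_lit 5) (nat_lit 494) (nat_lit 492) (nat_lit 94))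 (XT.lf (nat_lit 84) (nat_lit 17098386381205) (nat_lit 0) (nat_lit 49003903157351) (nat_lit 924) (nat_lit 51737806564765) (nat_lit 131) (nat_lit 5) (nat_lit 130) (nat_lit 5) (nat_lit 141) (nat_lit 5) (nat_lit 495) (nat_lit 492) (nat_lit 93))) (XT.nd (nat_lit 67492) (nat_lit 252) (nat_lit 0) (XT.lf (nat_lit 0) (nat_lit 77370641170858) (nat_lit 840) (nat_lit 3955176122687) (nat_lit 924) (nat_lit 41353605489747) (nat_lit 131) (nat_lit 5) (nat_lit 141) (nat_lit 5) (nat_lit 142) (nat_lit 5) (nat_lit 496) (nat_lit 492) (nat_lit 92)) (XT.lf (nat_lit 0) (nat_lit 26602917836499) (nat_lit 924) (nat_lit 14983358083466) (nat_lit 924) (nat_lit 14983358083466) (nat_lit 128) (nat_lit 3) (nat_lit 139) (nat_lit 3) (nat_lit 139) (nat_lit 5) (nat_lit 493) (nat_lit 493) (nat_lit 94))))))))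
noncomputable def xc255 : XT := (XT.nd (nat_lit 475076) (nat_lit 0) (nat_lit 0) (XT.nd (nat_lit 203792) (nat_lit 0) (nat_lit 0) (XT.nd (nat_lit 135642) (nat_lit 0) (nat_lit 0) (XT.nd (nat_lit 67774) (nat_lit 84) (nat_lit 0) (XT.nd (nat_lit 94) (nat_lit 0) (nat_lit 0) (XT.lf (nat_lit 0) (nat_lit 56407957660256) (nat_lit 840) (nat_lit 55166794136981) (nat_lit 924) (nat_lit 6036392501882) (nat_lit 129) (nat_lit 5) (nat_lit 139) (nat_lit 5) (nat_lit 140) (nat_lit 5) (nat_lit 494) (nat_lit 493) (nat_lit 93)) (XT.nd (nat_lit 94) (nat_lit 0) (nat_lit 84) (XT.lf (nat_lit 84) (nat_lit 40798542519662) (nat_lit 0) (nat_lit 21637685881993) (nat_lit 924) (nat_lit 59876043343345) (nat_lit 130) (nat_lit 5) (nat_lit 129) (nat_lit 5) (nat_lit 140) (nat_lit 5) (nat_lit 495) (nat_lit 493) (nat_lit 92)) (XT.lf (nat_lit 84) (nat_lit 18466257291711) (nat_lit 0) (nat_lit 52924215409944)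 (nat_lit 924) (nat_lit 55876831089931) (nat_lit 131) (nat_lit 5) (nat_lit 130) (nat_lit 5) (nat_lit 141) (nat_lit 5) (nat_lit 496) (nat_lit 493) (nat_lit 91)))) (XT.nd (nat_lit 188) (nat_lit 0) (nat_lit 84) (XT.nd (nat_lit 94) (nat_lit 0) (nat_lit 84) (XT.lf (nat_lit 0) (nat_lit 28731151263427) (nat_lit 924) (nat_lit 16182026730139) (nat_lit 924) (nat_lit 16182026730139) (nat_lit 128) (nat_lit 3) (nat_lit 139) (nat_lit 3) (nat_lit 139) (nat_lit 5) (nat_lit 494) (nat_lit 494) (nat_lit 92)) (XT.lf (nat_lit 0) (nat_lit 60920594273092) (nat_lit 840) (nat_lit 59580137667930) (nat_lit 924) (nat_lit 6519303902026) (nat_lit 129) (nat_lit 5) (nat_lit 139) (nat_lit 5) (nat_lit 140) (nat_lit 5) (nat_lit 495) (nat_lit 494) (nat_lit 91))) (XT.nd (nat_lit 94) (nat_lit 0) (nat_lit 84) (XT.lf (nat_lit 84) (nat_lit 44062425921243) (nat_lit 0) (nat_lit 23368700752558) (nat_lit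 924) (nat_lit 64666126810799) (nat_lit 130) (nat_lit 5) (nat_lit 129) (nat_lit 5) (nat_lit 140) (nat_lit 5) (nat_lit 496) (nat_lit 494) (nat_lit 90)) (XT.lf (nat_lit 84) (nat_lit 19943557875057) (nat_lit 0) (nat_lit 57158152642743) (nat_lit 924) (nat_lit 60346977577113) (nat_lit 131) (nat_lit 5) (nat_lit 130) (nat_lit 5) (nat_lit 141) (nat_lit 5) (nat_lit 497) (nat_lit 494) (nat_lit 89))))) (XT.nd (nat_lit 282) (nat_lit 0) (nat_lit 0) (XT.nd (nat_lit 94) (nat_lit 0) (nat_lit 84) (XT.lf (nat_lit 0) (nat_lit 31029643364508) (nat_lit 924) (nat_lit 17476588868546) (nat_lit 924) (nat_lit 17476588868546) (nat_lit 128) (nat_lit 3) (nat_lit 139) (nat_lit 3) (nat_lit 139) (nat_lit 5) (nat_lit 495) (nat_lit 495) (nat_lit 90)) (XT.nd (nat_lit 94) (nat_lit 0) (nat_lit 0) (XT.lf (nat_lit 0) (nat_lit 65794241814951) (nat_lit 840) (nat_lit 64346548681358) (nat_lit 924) (nat_lit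 7040848214183) (nat_lit 129) (nat_lit 5) (nat_lit 139) (nat_lit 5) (nat_lit 140) (nat_lit 5) (nat_lit 496) (nat_lit 495) (nat_lit 89)) (XT.lf (nat_lit 84) (nat_lit 47587419994949) (nat_lit 0) (nat_lit 25238196812767) (nat_lit 924) (nat_lit 69839416955651) (nat_lit 130) (nat_lit 5) (nat_lit 129) (nat_lit 5) (nat_lit 140) (nat_lit 5) (nat_lit 497) (nat_lit 495) (nat_lit 88)))) (XT.nd (nat_lit 67680) (nat_lit 0) (nat_lit 84) (XT.nd (nat_lit 67586) (nat_lit 168) (nat_lit 0) (XT.lf (nat_lit 84) (nat_lit 21539042505071) (nat_lit 0) (nat_lit 61730804854163) (nat_lit 924) (nat_lit 65174735783271) (nat_lit 131) (nat_lit 5) (nat_lit 130) (nat_lit 5) (nat_lit 141) (nat_lit 5) (nat_lit 498) (nat_lit 495) (nat_lit 87)) (XT.lf (nat_lit 0) (nat_lit 33512014833674) (nat_lit 924) (nat_lit 18874715978027) (nat_lit 924) (nat_lit 18874715978027) (nat_lit 128) (nat_lit 3) (nat_lit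 139) (nat_lit 3) (nat_lit 139) (nat_lit 5) (nat_lit 496) (nat_lit 496) (nat_lit 88))) (XT.nd (nat_lit 94) (nat_lit 0) (nat_lit 0) (XT.lf (nat_lit 0) (nat_lit 71057781160157) (nat_lit 840) (nat_lit 69494272575860) (nat_lit 924) (nat_lit 7604116071314) (nat_lit 129) (nat_lit 5) (nat_lit 139) (nat_lit 5) (nat_lit 140) (nat_lit 5) (nat_lit 497) (nat_lit 496) (nat_lit 87)) (XT.lf (nat_lit 84) (nat_lit 51394413594554) (nat_lit 0) (nat_lit 27257252557789) (nat_lit 924) (nat_lit 75426570312092) (nat_lit 130) (nat_lit 5) (nat_lit 129) (nat_lit 5) (nat_lit 140) (nat_lit 5) (nat_lit 498) (nat_lit 496) (nat_lit 86)))))) (XT.nd (nat_lit 135642) (nat_lit 0) (nat_lit 0) (XT.nd (nat_lit 67774) (nat_lit 0) (nat_lit 0) (XT.nd (nat_lit 67586) (nat_lit 168) (nat_lit 0) (XT.lf (nat_lit 84) (nat_lit 23262165905484) (nat_lit 0) (nat_lit 66669269242499) (nat_lit 924) (nat_lit 70388714645922)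 (nat_lit 131) (nat_lit 5) (nat_lit 130) (nat_lit 5) (nat_lit 141) (nat_lit 5) (nat_lit 499) (nat_lit 496) (nat_lit 85)) (XT.nd (nat_lit 94) (nat_lit 0) (nat_lit 84) (XT.lf (nat_lit 0) (nat_lit 36192976020373) (nat_lit 924) (nat_lit 20384693256267) (nat_lit 924) (nat_lit 20384693256267) (nat_lit 128) (nat_lit 3) (nat_lit 139) (nat_lit 3) (nat_lit 139) (nat_lit 5) (nat_lit 497) (nat_lit 497) (nat_lit 86)) (XT.lf (nat_lit 0) (nat_lit 76742403652980) (nat_lit 840) (nat_lit 75053814381920) (nat_lit 924) (nat_lit 8212445357017) (nat_lit 129) (nat_lit 5) (nat_lit 139) (nat_lit 5) (nat_lit 140) (nat_lit 5) (nat_lit 498) (nat_lit 497) (nat_lit 85)))) (XT.nd (nat_lit 67680) (nat_lit 84) (nat_lit 0) (XT.nd (nat_lit 94) (nat_lit 0) (nat_lit 84) (XT.lf (nat_lit 84) (nat_lit 55505966682124) (nat_lit 0) (nat_lit 29437832762416) (nat_lit 924) (nat_lit 81460695937050) (nat_lit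 130) (nat_lit 5) (nat_lit 129) (nat_lit 5) (nat_lit 140) (nat_lit 5) (nat_lit 499) (nat_lit 497) (nat_lit 84)) (XT.lf (nat_lit 84) (nat_lit 25123139177928) (nat_lit 0) (nat_lit 72002810781901) (nat_lit 924) (nat_lit 76019811817588) (nat_lit 131) (nat_lit 5) (nat_lit 130) (nat_lit 5) (nat_lit 141) (nat_lit 5) (nat_lit 500) (nat_lit 497) (nat_lit 83))) (XT.nd (nat_lit 94) (nat_lit 0) (nat_lit 84) (XT.lf (nat_lit 0) (nat_lit 39088414102007) (nat_lit 924) (nat_lit 22015468716766) (nat_lit 924) (nat_lit 22015468716766) (nat_lit 128) (nat_lit 3) (nat_lit 139) (nat_lit 3) (nat_lit 139) (nat_lit 5) (nat_lit 498) (nat_lit 498) (nat_lit 84)) (XT.lf (nat_lit 0) (nat_lit 82881795945226) (nat_lit 840) (nat_lit 81058119532473) (nat_lit 924) (nat_lit 8869440985572) (nat_lit 129) (nat_lit 5) (nat_lit 139) (nat_lit 5) (nat_lit 140) (nat_lit 5) (nat_lit 499) (nat_lit 498) (nat_lit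 83))))) (XT.nd (nat_lit 67774) (nat_lit 0) (nat_lit 0) (XT.nd (nat_lit 94) (nat_lit 84) (nat_lit 0) (XT.lf (nat_lit 84) (nat_lit 59946444016695) (nat_lit 0) (nat_lit 31792859383415) (nat_lit 924) (nat_lit 87977551612007) (nat_lit 130) (nat_lit 5) (nat_lit 129) (nat_lit 5) (nat_lit 140) (nat_lit 5) (nat_lit 500) (nat_lit 498) (nat_lit 82)) (XT.nd (nat_lit 67586) (nat_lit 168) (nat_lit 0) (XT.lf (nat_lit 84) (nat_lit 27132990312163) (nat_lit 0) (nat_lit 77763035644459) (nat_lit 924) (nat_lit 82101396762988) (nat_lit 131) (nat_lit 5) (nat_lit 130) (nat_lit 5) (nat_lit 141) (nat_lit 5) (nat_lit 501) (nat_lit 498) (nat_lit 81)) (XT.lf (nat_lit 0) (nat_lit 42215487230171) (nat_lit 924) (nat_lit 23776706214105) (nat_lit 924) (nat_lit 23776706214105) (nat_lit 128) (nat_lit 3) (nat_lit 139) (nat_lit 3) (nat_lit 139) (nat_lit 5) (nat_lit 499) (nat_lit 499) (nat_lit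 82)))) (XT.nd (nat_lit 188) (nat_lit 84) (nat_lit 0) (XT.nd (nat_lit 94) (nat_lit 0) (nat_lit 0) (XT.lf (nat_lit 0) (nat_lit 89512339620851) (nat_lit 840) (nat_lit 87542769095066) (nat_lit 924) (nat_lit 9578996264415) (nat_lit 129) (nat_lit 5) (nat_lit 139) (nat_lit 5) (nat_lit 140) (nat_lit 5) (nat_lit 500) (nat_lit 499) (nat_lit 81)) (XT.lf (nat_lit 84) (nat_lit 64742159538035) (nat_lit 0) (nat_lit 34336288134091) (nat_lit 924) (nat_lit 95015755740961) (nat_lit 130) (nat_lit 5) (nat_lit 129) (nat_lit 5) (nat_lit 140) (nat_lit 5) (nat_lit 501) (nat_lit 499) (nat_lit 80))) (XT.nd (nat_lit 67586) (nat_lit 168) (nat_lit 0) (XT.lf (nat_lit 84) (nat_lit 29303629537140) (nat_lit 0) (nat_lit 83984078496018) (nat_lit 924) (nat_lit 88669508504022) (nat_lit 131) (nat_lit 5) (nat_lit 130) (nat_lit 5) (nat_lit 141) (nat_lit 5) (nat_lit 502) (nat_lit 499) (nat_lit 79))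 (XT.lf (nat_lit 0) (nat_lit 45592726208588) (nat_lit 924) (nat_lit 25678842711232) (nat_lit 924) (nat_lit 25678842711232) (nat_lit 128) (nat_lit 3) (nat_lit 139) (nat_lit 3) (nat_lit 139) (nat_lit 5) (nat_lit 500) (nat_lit 500) (nat_lit 80))))))) (XT.nd (nat_lit 271378) (nat_lit 0) (nat_lit 0) (XT.nd (nat_lit 135642) (nat_lit 0) (nat_lit 0) (XT.nd (nat_lit 67774) (nat_lit 84) (nat_lit 0) (XT.nd (nat_lit 94) (nat_lit 0) (nat_lit 0) (XT.lf (nat_lit 0) (nat_lit 96673326790524) (nat_lit 840) (nat_lit 94546190622669) (nat_lit 924) (nat_lit 10345315965565) (nat_lit 129) (nat_lit 5) (nat_lit 139) (nat_lit 5) (nat_lit 140) (nat_lit 5) (nat_lit 501) (nat_lit 500) (nat_lit 79)) (XT.nd (nat_lit 94) (nat_lit 0) (nat_lit 84) (XT.lf (nat_lit 84) (nat_lit 69921532301080) (nat_lit 0) (nat_lit 37083191184820) (nat_lit 924) (nat_lit 102617016200233) (nat_lit 130) (nat_lit 5)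 (nat_lit 129) (nat_lit 5) (nat_lit 140) (nat_lit 5) (nat_lit 502) (nat_lit 500) (nat_lit 78)) (XT.lf (nat_lit 84) (nat_lit 31647919900114) (nat_lit 0) (nat_lit 90702804775701) (nat_lit 924) (nat_lit 95763069184338) (nat_lit 131) (nat_lit 5) (nat_lit 130) (nat_lit 5) (nat_lit 141) (nat_lit 5) (nat_lit 503) (nat_lit 500) (nat_lit 77)))) (XT.nd (nat_lit 188) (nat_lit 0) (nat_lit 84) (XT.nd (nat_lit 94) (nat_lit 0) (nat_lit 84) (XT.lf (nat_lit 0) (nat_lit 49240144305278) (nat_lit 924) (nat_lit 27733150128130) (nat_lit 924) (nat_lit 27733150128130) (nat_lit 128) (nat_lit 3) (nat_lit 139) (nat_lit 3) (nat_lit 139) (nat_lit 5) (nat_lit 501) (nat_lit 501) (nat_lit 78)) (XT.lf (nat_lit 0) (nat_lit 104407192933770) (nat_lit 840) (nat_lit 102109885872480) (nat_lit 924) (nat_lit 11172941242809) (nat_lit 129) (nat_lit 5) (nat_lit 139) (nat_lit 5) (nat_lit 140) (nat_lit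 5) (nat_lit 502) (nat_lit 501) (nat_lit 77))) (XT.nd (nat_lit 94) (nat_lit 0) (nat_lit 84) (XT.lf (nat_lit 84) (nat_lit 75515254885170) (nat_lit 0) (nat_lit 40049846479607) (nat_lit 924) (nat_lit 110826377496247) (nat_lit 130) (nat_lit 5) (nat_lit 129) (nat_lit 5) (nat_lit 140) (nat_lit 5) (nat_lit 503) (nat_lit 501) (nat_lit 76)) (XT.lf (nat_lit 84) (nat_lit 34179753492127) (nat_lit 0) (nat_lit 97959029157758) (nat_lit 924) (nat_lit 103424114719080) (nat_lit 131) (nat_lit 5) (nat_lit 130) (nat_lit 5) (nat_lit 141) (nat_lit 5) (nat_lit 504) (nat_lit 501) (nat_lit 75))))) (XT.nd (nat_lit 282) (nat_lit 0) (nat_lit 0) (XT.nd (nat_lit 94) (nat_lit 0) (nat_lit 84) (XT.lf (nat_lit 0) (nat_lit 53179355849702) (nat_lit 924) (nat_lit 29951802138379) (nat_lit 924) (nat_lit 29951802138379) (nat_lit 128) (nat_lit 3) (nat_lit 139) (nat_lit 3) (nat_lit 139) (nat_lit 5)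 (nat_lit 502) (nat_lit 502) (nat_lit 76)) (XT.nd (nat_lit 94) (nat_lit 0) (nat_lit 0) (XT.lf (nat_lit 0) (nat_lit 112759768368477) (nat_lit 840) (nat_lit 110278676742275) (nat_lit 924) (nat_lit 12066776542231) (nat_lit 129) (nat_lit 5) (nat_lit 139) (nat_lit 5) (nat_lit 140) (nat_lit 5) (nat_lit 503) (nat_lit 502) (nat_lit 75)) (XT.lf (nat_lit 84) (nat_lit 81556475275987) (nat_lit 0) (nat_lit 43253834197977) (nat_lit 924) (nat_lit 119692487695942) (nat_lit 130) (nat_lit 5) (nat_lit 129) (nat_lit 5) (nat_lit 140) (nat_lit 5) (nat_lit 504) (nat_lit 502) (nat_lit 74)))) (XT.nd (nat_lit 67680) (nat_lit 0) (nat_lit 84) (XT.nd (nat_lit 67586) (nat_lit 168) (nat_lit 0) (XT.lf (nat_lit 84) (nat_lit 36914133771505) (nat_lit 0) (nat_lit 105795751490375) (nat_lit 924) (nat_lit 111698043896603) (nat_lit 131) (nat_lit 5) (nat_lit 130) (nat_lit 5) (nat_lit 141) (nat_lit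 5) (nat_lit 505) (nat_lit 502) (nat_lit 73)) (XT.lf (nat_lit 0) (nat_lit 57433704317680) (nat_lit 924) (nat_lit 32347946309448) (nat_lit 924) (nat_lit 32347946309448) (nat_lit 128) (nat_lit 3) (nat_lit 139) (nat_lit 3) (nat_lit 139) (nat_lit 5) (nat_lit 503) (nat_lit 503) (nat_lit 74))) (XT.nd (nat_lit 94) (nat_lit 0) (nat_lit 0) (XT.lf (nat_lit 0) (nat_lit 121780549837958) (nat_lit 840) (nat_lit 119100970881655) (nat_lit 924) (nat_lit 13032118665608) (nat_lit 129) (nat_lit 5) (nat_lit 139) (nat_lit 5) (nat_lit 140) (nat_lit 5) (nat_lit 504) (nat_lit 503) (nat_lit 73)) (XT.lf (nat_lit 84) (nat_lit 88080993298072) (nat_lit 0) (nat_lit 46714140933812) (nat_lit 924) (nat_lit 129267886711614) (nat_lit 130) (nat_lit 5) (nat_lit 129) (nat_lit 5) (nat_lit 140) (nat_lit 5) (nat_lit 505) (nat_lit 503) (nat_lit 72)))))) (XT.nd (nat_lit 135830) (nat_lit 0) (nat_lit 0)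 (XT.nd (nat_lit 67868) (nat_lit 0) (nat_lit 0) (XT.nd (nat_lit 94) (nat_lit 0) (nat_lit 84) (XT.lf (nat_lit 0) (nat_lit 62028400663097) (nat_lit 924) (nat_lit 34935782014203) (nat_lit 924) (nat_lit 34935782014203) (nat_lit 128) (nat_lit 3) (nat_lit 139) (nat_lit 3) (nat_lit 139) (nat_lit 5) (nat_lit 504) (nat_lit 504) (nat_lit 72)) (XT.nd (nat_lit 94) (nat_lit 0) (nat_lit 0) (XT.lf (nat_lit 0) (nat_lit 131522993824998) (nat_lit 840) (nat_lit 128629048552181) (nat_lit 924) (nat_lit 14074688158861) (nat_lit 129) (nat_lit 5) (nat_lit 139) (nat_lit 5) (nat_lit 140) (nat_lit 5) (nat_lit 505) (nat_lit 504) (nat_lit 71)) (XT.lf (nat_lit 84) (nat_lit 95127472761919) (nat_lit 0) (nat_lit 50451272208519) (nat_lit 924) (nat_lit 139609317648540) (nat_lit 130) (nat_lit 5) (nat_lit 129) (nat_lit 5) (nat_lit 140) (nat_lit 5) (nat_lit 506) (nat_lit 504) (nat_lit 70)))) (XT.nd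 (nat_lit 188) (nat_lit 0) (nat_lit 0) (XT.nd (nat_lit 94) (nat_lit 0) (nat_lit 84) (XT.lf (nat_lit 0) (nat_lit 66990672716146) (nat_lit 924) (nat_lit 37730644575339) (nat_lit 924) (nat_lit 37730644575339) (nat_lit 128) (nat_lit 3) (nat_lit 139) (nat_lit 3) (nat_lit 139) (nat_lit 5) (nat_lit 505) (nat_lit 505) (nat_lit 70)) (XT.lf (nat_lit 0) (nat_lit 142044833331002) (nat_lit 840) (nat_lit 138919372436359) (nat_lit 924) (nat_lit 15200663211562) (nat_lit 129) (nat_lit 5) (nat_lit 139) (nat_lit 5) (nat_lit 140) (nat_lit 5) (nat_lit 506) (nat_lit 505) (nat_lit 69))) (XT.nd (nat_lit 67680) (nat_lit 84) (nat_lit 0) (XT.lf (nat_lit 84) (nat_lit 102737670582869) (nat_lit 0) (nat_lit 54487373985207) (nat_lit 924) (nat_lit 150778063060421) (nat_lit 130) (nat_lit 5) (nat_lit 129) (nat_lit 5) (nat_lit 140) (nat_lit 5) (nat_lit 507) (nat_lit 505) (nat_lit 68)) (XT.lf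 (nat_lit 0) (nat_lit 72349926533439) (nat_lit 924) (nat_lit 40749096141365) (nat_lit 924) (nat_lit 40749096141365) (nat_lit 128) (nat_lit 3) (nat_lit 139) (nat_lit 3) (nat_lit 139) (nat_lit 5) (nat_lit 506) (nat_lit 506) (nat_lit 68))))) (XT.nd (nat_lit 135642) (nat_lit 0) (nat_lit 0) (XT.nd (nat_lit 67774) (nat_lit 84) (nat_lit 0) (XT.nd (nat_lit 94) (nat_lit 0) (nat_lit 0) (XT.lf (nat_lit 0) (nat_lit 153408419997482) (nat_lit 840) (nat_lit 150032922231267) (nat_lit 924) (nat_lit 16416716268487) (nat_lit 129) (nat_lit 5) (nat_lit 139) (nat_lit 5) (nat_lit 140) (nat_lit 5) (nat_lit 507) (nat_lit 506) (nat_lit 67)) (XT.lf (nat_lit 84) (nat_lit 110956684229500) (nat_lit 0) (nat_lit 58846363904023) (nat_lit 924) (nat_lit 162840308105252) (nat_lit 130) (nat_lit 5) (nat_lit 129) (nat_lit 5) (nat_lit 140) (nat_lit 5) (nat_lit 508) (nat_lit 506) (nat_lit 66))) (XT.nd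 (nat_lit 94) (nat_lit 0) (nat_lit 84) (XT.lf (nat_lit 0) (nat_lit 78137920656115) (nat_lit 924) (nat_lit 44009023832674) (nat_lit 924) (nat_lit 44009023832674) (nat_lit 128) (nat_lit 3) (nat_lit 139) (nat_lit 3) (nat_lit 139) (nat_lit 5) (nat_lit 507) (nat_lit 507) (nat_lit 66)) (XT.lf (nat_lit 0) (nat_lit 165681093597284) (nat_lit 840) (nat_lit 162035556009767) (nat_lit 924) (nat_lit 17730053569965) (nat_lit 129) (nat_lit 5) (nat_lit 139) (nat_lit 5) (nat_lit 140) (nat_lit 5) (nat_lit 508) (nat_lit 507) (nat_lit 65)))) (XT.nd (nat_lit 67962) (nat_lit 0) (nat_lit 0) (XT.nd (nat_lit 94) (nat_lit 0) (nat_lit 84) (XT.lf (nat_lit 0) (nat_lit 84388954308606) (nat_lit 924) (nat_lit 47529745739287) (nat_lit 924) (nat_lit 47529745739287) (nat_lit 128) (nat_lit 3) (nat_lit 139) (nat_lit 3) (nat_lit 139) (nat_lit 5) (nat_lit 508) (nat_lit 508) (nat_lit 64)) (XT.lf (nat_lit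 0) (nat_lit 178935581085068) (nat_lit 840) (nat_lit 174998400490547) (nat_lit 924) (nat_lit 19148457855561) (nat_lit 129) (nat_lit 5) (nat_lit 139) (nat_lit 5) (nat_lit 140) (nat_lit 5) (nat_lit 509) (nat_lit 508) (nat_lit 63))) (XT.nd (nat_lit 67774) (nat_lit 84) (nat_lit 0) (XT.lf (nat_lit 0) (nat_lit 193250427571877) (nat_lit 840) (nat_lit 188998272529788) (nat_lit 924) (nat_lit 20680334484005) (nat_lit 129) (nat_lit 5) (nat_lit 139) (nat_lit 5) (nat_lit 140) (nat_lit 5) (nat_lit 510) (nat_lit 509) (nat_lit 61)) (XT.lf (nat_lit 0) (nat_lit 98431276305559) (nat_lit 924) (nat_lit 55438695430304) (nat_lit 924) (nat_lit 55438695430304) (nat_lit 128) (nat_lit 3) (nat_lit 139) (nat_lit 3) (nat_lit 139) (nat_lit 5) (nat_lit 510) (nat_lit 510) (nat_lit 60))))))))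
noncomputable def ec0 : XT := (XT.nd (nat_lit 202852) (nat_lit 1428) (nat_lit 0) (XT.nd (nat_lit 135172) (nat_lit 420) (nat_lit 0) (XT.nd (nat_lit 67680) (nat_lit 0) (nat_lit 0) (XT.nd (nat_lit 67492) (nat_lit 84) (nat_lit 0) (XT.nd (nat_lit 94) (nat_lit 0) (nat_lit 0) (XT.lf (nat_lit 924) (nat_lit 21513215) (nat_lit 0) (nat_lit 201033406) (nat_lit 840) (nat_lit 196609999) (nat_lit 140) (nat_lit 1) (nat_lit 129) (nat_lit 1) (nat_lit 139) (nat_lit 1) (nat_lit 419) (nat_lit 331) (nat_lit 330)) (XT.lf (nat_lit 924) (nat_lit 197586466) (nat_lit 84) (nat_lit 134632139) (nat_lit 0) (nat_lit 71402745) (nat_lit 140) (nat_lit 1) (nat_lit 130) (nat_lit 1) (nat_lit 129) (nat_lit 1) (nat_lit 420) (nat_lit 331) (nat_lit 329))) (XT.nd (nat_lit 94) (nat_lit 0) (nat_lit 84) (XT.lf (nat_lit 924) (nat_lit 62285151) (nat_lit 0) (nat_lit 110587143) (nat_lit 924) (nat_lit 62285151)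 (nat_lit 139) (nat_lit 1) (nat_lit 128) (nat_lit 0) (nat_lit 139) (nat_lit 0) (nat_lit 416) (nat_lit 332) (nat_lit 332)) (XT.lf (nat_lit 924) (nat_lit 23234272) (nat_lit 0) (nat_lit 217116078) (nat_lit 840) (nat_lit 212338799) (nat_lit 140) (nat_lit 1) (nat_lit 129) (nat_lit 1) (nat_lit 139) (nat_lit 1) (nat_lit 417) (nat_lit 332) (nat_lit 331)))) (XT.nd (nat_lit 188) (nat_lit 84) (nat_lit 0) (XT.nd (nat_lit 94) (nat_lit 0) (nat_lit 84) (XT.lf (nat_lit 924) (nat_lit 213393383) (nat_lit 84) (nat_lit 145402711) (nat_lit 0) (nat_lit 77114965) (nat_lit 140) (nat_lit 1) (nat_lit 130) (nat_lit 1) (nat_lit 129) (nat_lit 1) (nat_lit 418) (nat_lit 332) (nat_lit 330)) (XT.lf (nat_lit 924) (nat_lit 184389364) (nat_lit 84) (nat_lit 60937268) (nat_lit 0) (nat_lit 174645953) (nat_lit 141) (nat_lit 1) (nat_lit 131) (nat_lit 1) (nat_lit 130) (nat_lit 1) (nat_lit 419) (nat_lit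 332) (nat_lit 329))) (XT.nd (nat_lit 94) (nat_lit 252) (nat_lit 0) (XT.lf (nat_lit 924) (nat_lit 136463806) (nat_lit 0) (nat_lit 255317331) (nat_lit 840) (nat_lit 13051785) (nat_lit 142) (nat_lit 1) (nat_lit 131) (nat_lit 1) (nat_lit 141) (nat_lit 1) (nat_lit 420) (nat_lit 332) (nat_lit 328)) (XT.nd (nat_lit 67116) (nat_lit 336) (nat_lit 0) (XT.lf (nat_lit 924) (nat_lit 32743152) (nat_lit 0) (nat_lit 281558287) (nat_lit 840) (nat_lit 76114843) (nat_lit 143) (nat_lit 1) (nat_lit 132) (nat_lit 1) (nat_lit 142) (nat_lit 1) (nat_lit 421) (nat_lit 332) (nat_lit 327)) (XT.lf (nat_lit 924) (nat_lit 67267963) (nat_lit 0) (nat_lit 119434114) (nat_lit 924) (nat_lit 67267963) (nat_lit 139) (nat_lit 1) (nat_lit 128) (nat_lit 0) (nat_lit 139) (nat_lit 0) (nat_lit 414) (nat_lit 333) (nat_lit 333)))))) (XT.nd (nat_lit 376) (nat_lit 504) (nat_lit 0) (XT.nd (nat_lit 188) (nat_lit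 0) (nat_lit 84) (XT.nd (nat_lit 94) (nat_lit 0) (nat_lit 0) (XT.lf (nat_lit 924) (nat_lit 25093014) (nat_lit 0) (nat_lit 234485365) (nat_lit 840) (nat_lit 229325903) (nat_lit 140) (nat_lit 1) (nat_lit 129) (nat_lit 1) (nat_lit 139) (nat_lit 1) (nat_lit 415) (nat_lit 333) (nat_lit 332)) (XT.lf (nat_lit 924) (nat_lit 230464854) (nat_lit 84) (nat_lit 157034928) (nat_lit 0) (nat_lit 83284162) (nat_lit 140) (nat_lit 1) (nat_lit 130) (nat_lit 1) (nat_lit 129) (nat_lit 1) (nat_lit 416) (nat_lit 333) (nat_lit 331))) (XT.nd (nat_lit 94) (nat_lit 0) (nat_lit 84) (XT.lf (nat_lit 924) (nat_lit 199140514) (nat_lit 84) (nat_lit 65812249) (nat_lit 0) (nat_lit 188617630) (nat_lit 141) (nat_lit 1) (nat_lit 131) (nat_lit 1) (nat_lit 130) (nat_lit 1) (nat_lit 417) (nat_lit 333) (nat_lit 330)) (XT.lf (nat_lit 924) (nat_lit 147380910) (nat_lit 0) (nat_lit 275742717) (nat_lit 840)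 (nat_lit 14095928) (nat_lit 142) (nat_lit 1) (nat_lit 131) (nat_lit 1) (nat_lit 141) (nat_lit 1) (nat_lit 418) (nat_lit 333) (nat_lit 329)))) (XT.nd (nat_lit 188) (nat_lit 756) (nat_lit 0) (XT.nd (nat_lit 94) (nat_lit 0) (nat_lit 0) (XT.lf (nat_lit 924) (nat_lit 35362604) (nat_lit 0) (nat_lit 304082950) (nat_lit 840) (nat_lit 82204031) (nat_lit 143) (nat_lit 1) (nat_lit 132) (nat_lit 1) (nat_lit 142) (nat_lit 1) (nat_lit 419) (nat_lit 333) (nat_lit 328)) (XT.lf (nat_lit 924) (nat_lit 67952542) (nat_lit 84) (nat_lit 264272846) (nat_lit 0) (nat_lit 74581057) (nat_lit 143) (nat_lit 1) (nat_lit 133) (nat_lit 1) (nat_lit 132) (nat_lit 1) (nat_lit 420) (nat_lit 333) (nat_lit 327))) (XT.nd (nat_lit 66928) (nat_lit 0) (nat_lit 420) (XT.lf (nat_lit 924) (nat_lit 13955902) (nat_lit 0) (nat_lit 197561433) (nat_lit 840) (nat_lit 181161764) (nat_lit 134) (nat_lit 1) (nat_lit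 123) (nat_lit 1) (nat_lit 133) (nat_lit 1) (nat_lit 421) (nat_lit 333) (nat_lit 326)) (XT.nd (nat_lit 94) (nat_lit 0) (nat_lit 84) (XT.lf (nat_lit 924) (nat_lit 72649400) (nat_lit 0) (nat_lit 128988844) (nat_lit 924) (nat_lit 72649400) (nat_lit 139) (nat_lit 1) (nat_lit 128) (nat_lit 0) (nat_lit 139) (nat_lit 0) (nat_lit 412) (nat_lit 334) (nat_lit 334)) (XT.lf (nat_lit 924) (nat_lit 27100455) (nat_lit 0) (nat_lit 253244194) (nat_lit 840) (nat_lit 247671975) (nat_lit 140) (nat_lit 1) (nat_lit 129) (nat_lit 1) (nat_lit 139) (nat_lit 1) (nat_lit 413) (nat_lit 334) (nat_lit 333))))))) (XT.nd (nat_lit 67492) (nat_lit 420) (nat_lit 0) (XT.nd (nat_lit 376) (nat_lit 1512) (nat_lit 0) (XT.nd (nat_lit 188) (nat_lit 0) (nat_lit 168) (XT.nd (nat_lit 94) (nat_lit 0) (nat_lit 84) (XT.lf (nat_lit 924) (nat_lit 248902042) (nat_lit 84) (nat_lit 169597722) (nat_lit 0) (nat_lit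 89946895) (nat_lit 140) (nat_lit 1) (nat_lit 130) (nat_lit 1) (nat_lit 129) (nat_lit 1) (nat_lit 414) (nat_lit 334) (nat_lit 332)) (XT.lf (nat_lit 924) (nat_lit 215071755) (nat_lit 84) (nat_lit 71077229) (nat_lit 0) (nat_lit 203707040) (nat_lit 141) (nat_lit 1) (nat_lit 131) (nat_lit 1) (nat_lit 130) (nat_lit 1) (nat_lit 415) (nat_lit 334) (nat_lit 331))) (XT.nd (nat_lit 94) (nat_lit 0) (nat_lit 84) (XT.lf (nat_lit 924) (nat_lit 159171383) (nat_lit 0) (nat_lit 297802135) (nat_lit 840) (nat_lit 15223602) (nat_lit 142) (nat_lit 1) (nat_lit 131) (nat_lit 1) (nat_lit 141) (nat_lit 1) (nat_lit 416) (nat_lit 334) (nat_lit 330)) (XT.lf (nat_lit 924) (nat_lit 38191612) (nat_lit 0) (nat_lit 328409586) (nat_lit 840) (nat_lit 88780353) (nat_lit 143) (nat_lit 1) (nat_lit 132) (nat_lit 1) (nat_lit 142) (nat_lit 1) (nat_lit 417) (nat_lit 334) (nat_lit 329)))) (XT.nd (nat_lit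 188) (nat_lit 1008) (nat_lit 0) (XT.nd (nat_lit 94) (nat_lit 756) (nat_lit 0) (XT.lf (nat_lit 924) (nat_lit 73388746) (nat_lit 84) (nat_lit 285414674) (nat_lit 0) (nat_lit 80547542) (nat_lit 143) (nat_lit 1) (nat_lit 133) (nat_lit 1) (nat_lit 132) (nat_lit 1) (nat_lit 418) (nat_lit 334) (nat_lit 328)) (XT.lf (nat_lit 924) (nat_lit 15072374) (nat_lit 0) (nat_lit 213366348) (nat_lit 840) (nat_lit 195654705) (nat_lit 134) (nat_lit 1) (nat_lit 123) (nat_lit 1) (nat_lit 133) (nat_lit 1) (nat_lit 419) (nat_lit 334) (nat_lit 327))) (XT.nd (nat_lit 94) (nat_lit 420) (nat_lit 0) (XT.lf (nat_lit 84) (nat_lit 104364263) (nat_lit 0) (nat_lit 45225892) (nat_lit 588) (nat_lit 259968169) (nat_lit 117) (nat_lit 1) (nat_lit 116) (nat_lit 1) (nat_lit 123) (nat_lit 1) (nat_lit 420) (nat_lit 334) (nat_lit 326)) (XT.nd (nat_lit 66740) (nat_lit 0) (nat_lit 1428) (XT.lf (nat_lit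 504) (nat_lit 287614775) (nat_lit 0) (nat_lit 93624809) (nat_lit 420) (nat_lit 14474974) (nat_lit 117) (nat_lit 1) (nat_lit 111) (nat_lit 1) (nat_lit 116) (nat_lit 1) (nat_lit 421) (nat_lit 334) (nat_lit 325)) (XT.lf (nat_lit 924) (nat_lit 78461352) (nat_lit 0) (nat_lit 139307951) (nat_lit 924) (nat_lit 78461352) (nat_lit 139) (nat_lit 1) (nat_lit 128) (nat_lit 0) (nat_lit 139) (nat_lit 0) (nat_lit 410) (nat_lit 335) (nat_lit 335)))))) (XT.nd (nat_lit 470) (nat_lit 1932) (nat_lit 0) (XT.nd (nat_lit 188) (nat_lit 0) (nat_lit 84) (XT.nd (nat_lit 94) (nat_lit 0) (nat_lit 0) (XT.lf (nat_lit 924) (nat_lit 29268492) (nat_lit 0) (nat_lit 273503729) (nat_lit 840) (nat_lit 267485734) (nat_lit 140) (nat_lit 1) (nat_lit 129) (nat_lit 1) (nat_lit 139) (nat_lit 1) (nat_lit 411) (nat_lit 335) (nat_lit 334)) (XT.lf (nat_lit 924) (nat_lit 268814206) (nat_lit 84) (nat_lit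 183165540) (nat_lit 0) (nat_lit 97142647) (nat_lit 140) (nat_lit 1) (nat_lit 130) (nat_lit 1) (nat_lit 129) (nat_lit 1) (nat_lit 412) (nat_lit 335) (nat_lit 333))) (XT.nd (nat_lit 94) (nat_lit 0) (nat_lit 84) (XT.lf (nat_lit 924) (nat_lit 232277495) (nat_lit 84) (nat_lit 76763408) (nat_lit 0) (nat_lit 220003603) (nat_lit 141) (nat_lit 1) (nat_lit 131) (nat_lit 1) (nat_lit 130) (nat_lit 1) (nat_lit 413) (nat_lit 335) (nat_lit 332)) (XT.nd (nat_lit 94) (nat_lit 0) (nat_lit 84) (XT.lf (nat_lit 924) (nat_lit 171905094) (nat_lit 0) (nat_lit 321626305) (nat_lit 840) (nat_lit 16441490) (nat_lit 142) (nat_lit 1) (nat_lit 131) (nat_lit 1) (nat_lit 141) (nat_lit 1) (nat_lit 414) (nat_lit 335) (nat_lit 331)) (XT.lf (nat_lit 924) (nat_lit 41246941) (nat_lit 0) (nat_lit 354682353) (nat_lit 840) (nat_lit 95882782) (nat_lit 143) (nat_lit 1) (nat_lit 132) (nat_lit 1) (nat_lit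 142) (nat_lit 1) (nat_lit 415) (nat_lit 335) (nat_lit 330))))) (XT.nd (nat_lit 188) (nat_lit 1428) (nat_lit 0) (XT.nd (nat_lit 94) (nat_lit 756) (nat_lit 0) (XT.lf (nat_lit 924) (nat_lit 79259845) (nat_lit 84) (nat_lit 308247848) (nat_lit 0) (nat_lit 86991345) (nat_lit 143) (nat_lit 1) (nat_lit 133) (nat_lit 1) (nat_lit 132) (nat_lit 1) (nat_lit 416) (nat_lit 335) (nat_lit 329)) (XT.lf (nat_lit 924) (nat_lit 16278164) (nat_lit 0) (nat_lit 230435656) (nat_lit 840) (nat_lit 211307082) (nat_lit 134) (nat_lit 1) (nat_lit 123) (nat_lit 1) (nat_lit 133) (nat_lit 1) (nat_lit 417) (nat_lit 335) (nat_lit 328))) (XT.nd (nat_lit 94) (nat_lit 840) (nat_lit 0) (XT.lf (nat_lit 84) (nat_lit 112713405) (nat_lit 0) (nat_lit 48843963) (nat_lit 588) (nat_lit 280765622) (nat_lit 117) (nat_lit 1) (nat_lit 116) (nat_lit 1) (nat_lit 123) (nat_lit 1) (nat_lit 418) (nat_lit 335) (nat_lit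 327)) (XT.nd (nat_lit 94) (nat_lit 420) (nat_lit 0) (XT.lf (nat_lit 504) (nat_lit 310623957) (nat_lit 0) (nat_lit 101114794) (nat_lit 420) (nat_lit 15632972) (nat_lit 117) (nat_lit 1) (nat_lit 111) (nat_lit 1) (nat_lit 116) (nat_lit 1) (nat_lit 419) (nat_lit 335) (nat_lit 326)) (XT.lf (nat_lit 504) (nat_lit 224149205) (nat_lit 0) (nat_lit 47130041) (nat_lit 420) (nat_lit 141784087) (nat_lit 112) (nat_lit 1) (nat_lit 106) (nat_lit 1) (nat_lit 111) (nat_lit 1) (nat_lit 420) (nat_lit 335) (nat_lit 325))))))))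
noncomputable def ec1 : XT := (XT.nd (nat_lit 134514) (nat_lit 672) (nat_lit 0) (XT.nd (nat_lit 67304) (nat_lit 420) (nat_lit 0) (XT.nd (nat_lit 66834) (nat_lit 0) (nat_lit 1764) (XT.nd (nat_lit 66646) (nat_lit 0) (nat_lit 2268) (XT.nd (nat_lit 66552) (nat_lit 0) (nat_lit 2184) (XT.lf (nat_lit 420) (nat_lit 136391932) (nat_lit 0) (nat_lit 867740) (nat_lit 336) (nat_lit 262189054) (nat_lit 107) (nat_lit 1) (nat_lit 102) (nat_lit 1) (nat_lit 106) (nat_lit 1) (nat_lit 421) (nat_lit 335) (nat_lit 324)) (XT.lf (nat_lit 924) (nat_lit 84738261) (nat_lit 0) (nat_lit 150452587) (nat_lit 924) (nat_lit 84738261) (nat_lit 139) (nat_lit 1) (nat_lit 128) (nat_lit 0) (nat_lit 139) (nat_lit 0) (nat_lit 408) (nat_lit 336) (nat_lit 336))) (XT.nd (nat_lit 94) (nat_lit 0) (nat_lit 0) (XT.lf (nat_lit 924) (nat_lit 31609971) (nat_lit 0) (nat_lit 295384028) (nat_lit 840) (nat_lit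 288884592) (nat_lit 140) (nat_lit 1) (nat_lit 129) (nat_lit 1) (nat_lit 139) (nat_lit 1) (nat_lit 409) (nat_lit 336) (nat_lit 335)) (XT.lf (nat_lit 924) (nat_lit 290319342) (nat_lit 84) (nat_lit 197818783) (nat_lit 0) (nat_lit 104914058) (nat_lit 140) (nat_lit 1) (nat_lit 130) (nat_lit 1) (nat_lit 129) (nat_lit 1) (nat_lit 410) (nat_lit 336) (nat_lit 334)))) (XT.nd (nat_lit 188) (nat_lit 588) (nat_lit 0) (XT.nd (nat_lit 94) (nat_lit 0) (nat_lit 84) (XT.lf (nat_lit 924) (nat_lit 250859695) (nat_lit 84) (nat_lit 82904480) (nat_lit 0) (nat_lit 237603892) (nat_lit 141) (nat_lit 1) (nat_lit 131) (nat_lit 1) (nat_lit 130) (nat_lit 1) (nat_lit 411) (nat_lit 336) (nat_lit 333)) (XT.lf (nat_lit 924) (nat_lit 185657501) (nat_lit 0) (nat_lit 347356410) (nat_lit 840) (nat_lit 17756810) (nat_lit 142) (nat_lit 1) (nat_lit 131) (nat_lit 1) (nat_lit 141) (nat_lit 1) (nat_lit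 412) (nat_lit 336) (nat_lit 332))) (XT.nd (nat_lit 94) (nat_lit 756) (nat_lit 0) (XT.lf (nat_lit 924) (nat_lit 44546697) (nat_lit 0) (nat_lit 383056941) (nat_lit 840) (nat_lit 103553404) (nat_lit 143) (nat_lit 1) (nat_lit 132) (nat_lit 1) (nat_lit 142) (nat_lit 1) (nat_lit 413) (nat_lit 336) (nat_lit 331)) (XT.nd (nat_lit 94) (nat_lit 756) (nat_lit 0) (XT.lf (nat_lit 924) (nat_lit 85600633) (nat_lit 84) (nat_lit 332907675) (nat_lit 0) (nat_lit 93950653) (nat_lit 143) (nat_lit 1) (nat_lit 133) (nat_lit 1) (nat_lit 132) (nat_lit 1) (nat_lit 414) (nat_lit 336) (nat_lit 330)) (XT.lf (nat_lit 924) (nat_lit 17580418) (nat_lit 0) (nat_lit 248870508) (nat_lit 840) (nat_lit 228211648) (nat_lit 134) (nat_lit 1) (nat_lit 123) (nat_lit 1) (nat_lit 133) (nat_lit 1) (nat_lit 415) (nat_lit 336) (nat_lit 329)))))) (XT.nd (nat_lit 470) (nat_lit 420) (nat_lit 0) (XT.nd (nat_lit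 188) (nat_lit 756) (nat_lit 0) (XT.nd (nat_lit 94) (nat_lit 420) (nat_lit 0) (XT.lf (nat_lit 84) (nat_lit 121730477) (nat_lit 0) (nat_lit 52751480) (nat_lit 588) (nat_lit 303226872) (nat_lit 117) (nat_lit 1) (nat_lit 116) (nat_lit 1) (nat_lit 123) (nat_lit 1) (nat_lit 416) (nat_lit 336) (nat_lit 328)) (XT.lf (nat_lit 504) (nat_lit 335473873) (nat_lit 0) (nat_lit 109203978) (nat_lit 420) (nat_lit 16883609) (nat_lit 117) (nat_lit 1) (nat_lit 111) (nat_lit 1) (nat_lit 116) (nat_lit 1) (nat_lit 417) (nat_lit 336) (nat_lit 327))) (XT.nd (nat_lit 94) (nat_lit 336) (nat_lit 0) (XT.lf (nat_lit 504) (nat_lit 242081142) (nat_lit 0) (nat_lit 50900444) (nat_lit 420) (nat_lit 153126814) (nat_lit 112) (nat_lit 1) (nat_lit 106) (nat_lit 1) (nat_lit 111) (nat_lit 1) (nat_lit 418) (nat_lit 336) (nat_lit 326)) (XT.nd (nat_lit 94) (nat_lit 0) (nat_lit 0) (XT.lf (nat_lit 420)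 (nat_lit 147303287) (nat_lit 0) (nat_lit 937159) (nat_lit 336) (nat_lit 283164178) (nat_lit 107) (nat_lit 1) (nat_lit 102) (nat_lit 1) (nat_lit 106) (nat_lit 1) (nat_lit 419) (nat_lit 336) (nat_lit 325)) (XT.lf (nat_lit 84) (nat_lit 10867340) (nat_lit 0) (nat_lit 366499376) (nat_lit 420) (nat_lit 40010533) (nat_lit 103) (nat_lit 1) (nat_lit 102) (nat_lit 1) (nat_lit 107) (nat_lit 1) (nat_lit 420) (nat_lit 336) (nat_lit 324))))) (XT.nd (nat_lit 66458) (nat_lit 0) (nat_lit 2688) (XT.nd (nat_lit 66364) (nat_lit 0) (nat_lit 2604) (XT.lf (nat_lit 84) (nat_lit 280597547) (nat_lit 0) (nat_lit 46540105) (nat_lit 420) (nat_lit 76753086) (nat_lit 98) (nat_lit 1) (nat_lit 97) (nat_lit 1) (nat_lit 102) (nat_lit 1) (nat_lit 421) (nat_lit 336) (nat_lit 323)) (XT.lf (nat_lit 924) (nat_lit 91517321) (nat_lit 0) (nat_lit 162488794) (nat_lit 924) (nat_lit 91517321) (nat_lit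 139) (nat_lit 1) (nat_lit 128) (nat_lit 0) (nat_lit 139) (nat_lit 0) (nat_lit 406) (nat_lit 337) (nat_lit 337))) (XT.nd (nat_lit 94) (nat_lit 0) (nat_lit 0) (XT.lf (nat_lit 924) (nat_lit 34138769) (nat_lit 0) (nat_lit 319014750) (nat_lit 840) (nat_lit 311995360) (nat_lit 140) (nat_lit 1) (nat_lit 129) (nat_lit 1) (nat_lit 139) (nat_lit 1) (nat_lit 407) (nat_lit 337) (nat_lit 336)) (XT.nd (nat_lit 94) (nat_lit 0) (nat_lit 84) (XT.lf (nat_lit 924) (nat_lit 313544889) (nat_lit 84) (nat_lit 213644285) (nat_lit 0) (nat_lit 113307183) (nat_lit 140) (nat_lit 1) (nat_lit 130) (nat_lit 1) (nat_lit 129) (nat_lit 1) (nat_lit 408) (nat_lit 337) (nat_lit 335)) (XT.lf (nat_lit 924) (nat_lit 270928470) (nat_lit 84) (nat_lit 89536839) (nat_lit 0) (nat_lit 256612203) (nat_lit 141) (nat_lit 1) (nat_lit 131) (nat_lit 1) (nat_lit 130) (nat_lit 1) (nat_lit 409) (nat_lit 337) (nat_lit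 334))))))) (XT.nd (nat_lit 846) (nat_lit 1092) (nat_lit 0) (XT.nd (nat_lit 376) (nat_lit 1764) (nat_lit 0) (XT.nd (nat_lit 188) (nat_lit 672) (nat_lit 0) (XT.nd (nat_lit 94) (nat_lit 0) (nat_lit 84) (XT.lf (nat_lit 924) (nat_lit 200510101) (nat_lit 0) (nat_lit 375144923) (nat_lit 840) (nat_lit 19177354) (nat_lit 142) (nat_lit 1) (nat_lit 131) (nat_lit 1) (nat_lit 141) (nat_lit 1) (nat_lit 410) (nat_lit 337) (nat_lit 333)) (XT.lf (nat_lit 924) (nat_lit 48110433) (nat_lit 0) (nat_lit 413701497) (nat_lit 840) (nat_lit 111837676) (nat_lit 143) (nat_lit 1) (nat_lit 132) (nat_lit 1) (nat_lit 142) (nat_lit 1) (nat_lit 411) (nat_lit 337) (nat_lit 332))) (XT.nd (nat_lit 94) (nat_lit 756) (nat_lit 0) (XT.lf (nat_lit 924) (nat_lit 92448684) (nat_lit 84) (nat_lit 359540290) (nat_lit 0) (nat_lit 101466705) (nat_lit 143) (nat_lit 1) (nat_lit 133) (nat_lit 1) (nat_lit 132)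 (nat_lit 1) (nat_lit 412) (nat_lit 337) (nat_lit 331)) (XT.lf (nat_lit 924) (nat_lit 18986851) (nat_lit 0) (nat_lit 268780149) (nat_lit 840) (nat_lit 246468580) (nat_lit 134) (nat_lit 1) (nat_lit 123) (nat_lit 1) (nat_lit 133) (nat_lit 1) (nat_lit 413) (nat_lit 337) (nat_lit 330)))) (XT.nd (nat_lit 188) (nat_lit 756) (nat_lit 0) (XT.nd (nat_lit 94) (nat_lit 420) (nat_lit 0) (XT.lf (nat_lit 84) (nat_lit 131468915) (nat_lit 0) (nat_lit 56971599) (nat_lit 588) (nat_lit 327485022) (nat_lit 117) (nat_lit 1) (nat_lit 116) (nat_lit 1) (nat_lit 123) (nat_lit 1) (nat_lit 414) (nat_lit 337) (nat_lit 329)) (XT.lf (nat_lit 504) (nat_lit 362311783) (nat_lit 0) (nat_lit 117940296) (nat_lit 420) (nat_lit 18234298) (nat_lit 117) (nat_lit 1) (nat_lit 111) (nat_lit 1) (nat_lit 116) (nat_lit 1) (nat_lit 415) (nat_lit 337) (nat_lit 328))) (XT.nd (nat_lit 94) (nat_lit 336) (nat_lit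 0) (XT.lf (nat_lit 504) (nat_lit 261447633) (nat_lit 0) (nat_lit 54972480) (nat_lit 420) (nat_lit 165376959) (nat_lit 112) (nat_lit 1) (nat_lit 106) (nat_lit 1) (nat_lit 111) (nat_lit 1) (nat_lit 416) (nat_lit 337) (nat_lit 327)) (XT.nd (nat_lit 94) (nat_lit 0) (nat_lit 0) (XT.lf (nat_lit 420) (nat_lit 159087550) (nat_lit 0) (nat_lit 1012132) (nat_lit 336) (nat_lit 305817312) (nat_lit 107) (nat_lit 1) (nat_lit 102) (nat_lit 1) (nat_lit 106) (nat_lit 1) (nat_lit 417) (nat_lit 337) (nat_lit 326)) (XT.lf (nat_lit 84) (nat_lit 11736727) (nat_lit 0) (nat_lit 395819326) (nat_lit 420) (nat_lit 43211375) (nat_lit 103) (nat_lit 1) (nat_lit 102) (nat_lit 1) (nat_lit 107) (nat_lit 1) (nat_lit 418) (nat_lit 337) (nat_lit 325)))))) (XT.nd (nat_lit 66552) (nat_lit 0) (nat_lit 3360) (XT.nd (nat_lit 188) (nat_lit 336) (nat_lit 0) (XT.nd (nat_lit 94) (nat_lit 336) (nat_lit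 0) (XT.lf (nat_lit 84) (nat_lit 303045351) (nat_lit 0) (nat_lit 50263314) (nat_lit 420) (nat_lit 82893333) (nat_lit 98) (nat_lit 1) (nat_lit 97) (nat_lit 1) (nat_lit 102) (nat_lit 1) (nat_lit 419) (nat_lit 337) (nat_lit 324)) (XT.lf (nat_lit 84) (nat_lit 151621268) (nat_lit 0) (nat_lit 153965453) (nat_lit 420) (nat_lit 116693420) (nat_lit 94) (nat_lit 1) (nat_lit 93) (nat_lit 1) (nat_lit 98) (nat_lit 1) (nat_lit 420) (nat_lit 337) (nat_lit 323))) (XT.nd (nat_lit 66176) (nat_lit 0) (nat_lit 3276) (XT.lf (nat_lit 84) (nat_lit 7483689) (nat_lit 0) (nat_lit 257427847) (nat_lit 420) (nat_lit 144105903) (nat_lit 90) (nat_lit 1) (nat_lit 89) (nat_lit 1) (nat_lit 94) (nat_lit 1) (nat_lit 421) (nat_lit 337) (nat_lit 322)) (XT.nd (nat_lit 94) (nat_lit 0) (nat_lit 84) (XT.lf (nat_lit 924) (nat_lit 98838707) (nat_lit 0) (nat_lit 175487898) (nat_lit 924) (nat_lit 98838707)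 (nat_lit 139) (nat_lit 1) (nat_lit 128) (nat_lit 0) (nat_lit 139) (nat_lit 0) (nat_lit 404) (nat_lit 338) (nat_lit 338)) (XT.lf (nat_lit 924) (nat_lit 36869870) (nat_lit 0) (nat_lit 344535930) (nat_lit 840) (nat_lit 336954988) (nat_lit 140) (nat_lit 1) (nat_lit 129) (nat_lit 1) (nat_lit 139) (nat_lit 1) (nat_lit 405) (nat_lit 338) (nat_lit 337))))) (XT.nd (nat_lit 188) (nat_lit 0) (nat_lit 168) (XT.nd (nat_lit 94) (nat_lit 0) (nat_lit 84) (XT.lf (nat_lit 924) (nat_lit 338628481) (nat_lit 84) (nat_lit 230735828) (nat_lit 0) (nat_lit 122371758) (nat_lit 140) (nat_lit 1) (nat_lit 130) (nat_lit 1) (nat_lit 129) (nat_lit 1) (nat_lit 406) (nat_lit 338) (nat_lit 336)) (XT.lf (nat_lit 924) (nat_lit 292602748) (nat_lit 84) (nat_lit 96699786) (nat_lit 0) (nat_lit 277141179) (nat_lit 141) (nat_lit 1) (nat_lit 131) (nat_lit 1) (nat_lit 130) (nat_lit 1) (nat_lit 407) (nat_lit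 338) (nat_lit 335))) (XT.nd (nat_lit 94) (nat_lit 0) (nat_lit 84) (XT.lf (nat_lit 924) (nat_lit 216550910) (nat_lit 0) (nat_lit 405156516) (nat_lit 840) (nat_lit 20711543) (nat_lit 142) (nat_lit 1) (nat_lit 131) (nat_lit 1) (nat_lit 141) (nat_lit 1) (nat_lit 408) (nat_lit 338) (nat_lit 334)) (XT.nd (nat_lit 94) (nat_lit 0) (nat_lit 0) (XT.lf (nat_lit 924) (nat_lit 51959267) (nat_lit 0) (nat_lit 446797616) (nat_lit 840) (nat_lit 120784691) (nat_lit 143) (nat_lit 1) (nat_lit 132) (nat_lit 1) (nat_lit 142) (nat_lit 1) (nat_lit 409) (nat_lit 338) (nat_lit 333)) (XT.lf (nat_lit 924) (nat_lit 99844578) (nat_lit 84) (nat_lit 388303513) (nat_lit 0) (nat_lit 109584042) (nat_lit 143) (nat_lit 1) (nat_lit 133) (nat_lit 1) (nat_lit 132) (nat_lit 1) (nat_lit 410) (nat_lit 338) (nat_lit 332))))))))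
noncomputable def ec2 : XT := (XT.nd (nat_lit 67586) (nat_lit 840) (nat_lit 0) (XT.nd (nat_lit 846) (nat_lit 672) (nat_lit 0) (XT.nd (nat_lit 376) (nat_lit 1428) (nat_lit 0) (XT.nd (nat_lit 188) (nat_lit 840) (nat_lit 0) (XT.nd (nat_lit 94) (nat_lit 588) (nat_lit 0) (XT.lf (nat_lit 924) (nat_lit 20505799) (nat_lit 0) (nat_lit 290282561) (nat_lit 840) (nat_lit 266186067) (nat_lit 134) (nat_lit 1) (nat_lit 123) (nat_lit 1) (nat_lit 133) (nat_lit 1) (nat_lit 411) (nat_lit 338) (nat_lit 331)) (XT.lf (nat_lit 84) (nat_lit 141986428) (nat_lit 0) (nat_lit 61529327) (nat_lit 588) (nat_lit 353683824) (nat_lit 117) (nat_lit 1) (nat_lit 116) (nat_lit 1) (nat_lit 123) (nat_lit 1) (nat_lit 412) (nat_lit 338) (nat_lit 330))) (XT.nd (nat_lit 94) (nat_lit 420) (nat_lit 0) (XT.lf (nat_lit 504) (nat_lit 391296726) (nat_lit 0) (nat_lit 127375520) (nat_lit 420) (nat_lit 19693042)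 (nat_lit 117) (nat_lit 1) (nat_lit 111) (nat_lit 1) (nat_lit 116) (nat_lit 1) (nat_lit 413) (nat_lit 338) (nat_lit 329)) (XT.lf (nat_lit 504) (nat_lit 282363444) (nat_lit 0) (nat_lit 59370278) (nat_lit 420) (nat_lit 178607116) (nat_lit 112) (nat_lit 1) (nat_lit 106) (nat_lit 1) (nat_lit 111) (nat_lit 1) (nat_lit 414) (nat_lit 338) (nat_lit 328)))) (XT.nd (nat_lit 188) (nat_lit 1092) (nat_lit 0) (XT.nd (nat_lit 94) (nat_lit 0) (nat_lit 0) (XT.lf (nat_lit 420) (nat_lit 171814554) (nat_lit 0) (nat_lit 1093103) (nat_lit 336) (nat_lit 330282697) (nat_lit 107) (nat_lit 1) (nat_lit 102) (nat_lit 1) (nat_lit 106) (nat_lit 1) (nat_lit 415) (nat_lit 338) (nat_lit 327)) (XT.lf (nat_lit 84) (nat_lit 12675665) (nat_lit 0) (nat_lit 427484872) (nat_lit 420) (nat_lit 46668285) (nat_lit 103) (nat_lit 1) (nat_lit 102) (nat_lit 1) (nat_lit 107) (nat_lit 1) (nat_lit 416) (nat_lit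 338) (nat_lit 326))) (XT.nd (nat_lit 94) (nat_lit 672) (nat_lit 0) (XT.lf (nat_lit 84) (nat_lit 327288979) (nat_lit 0) (nat_lit 54284379) (nat_lit 420) (nat_lit 89524800) (nat_lit 98) (nat_lit 1) (nat_lit 97) (nat_lit 1) (nat_lit 102) (nat_lit 1) (nat_lit 417) (nat_lit 338) (nat_lit 325)) (XT.nd (nat_lit 94) (nat_lit 336) (nat_lit 0) (XT.lf (nat_lit 84) (nat_lit 163750970) (nat_lit 0) (nat_lit 166282689) (nat_lit 420) (nat_lit 126028894) (nat_lit 94) (nat_lit 1) (nat_lit 93) (nat_lit 1) (nat_lit 98) (nat_lit 1) (nat_lit 418) (nat_lit 338) (nat_lit 324)) (XT.lf (nat_lit 84) (nat_lit 8082384) (nat_lit 0) (nat_lit 278022075) (nat_lit 420) (nat_lit 155634375) (nat_lit 90) (nat_lit 1) (nat_lit 89) (nat_lit 1) (nat_lit 94) (nat_lit 1) (nat_lit 419) (nat_lit 338) (nat_lit 323)))))) (XT.nd (nat_lit 66270) (nat_lit 0) (nat_lit 4032) (XT.nd (nat_lit 66082) (nat_lit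 0) (nat_lit 3948) (XT.nd (nat_lit 94) (nat_lit 420) (nat_lit 0) (XT.lf (nat_lit 336) (nat_lit 36499594) (nat_lit 0) (nat_lit 246829283) (nat_lit 252) (nat_lit 144647633) (nat_lit 90) (nat_lit 1) (nat_lit 86) (nat_lit 1) (nat_lit 89) (nat_lit 1) (nat_lit 420) (nat_lit 338) (nat_lit 322)) (XT.lf (nat_lit 84) (nat_lit 126115911) (nat_lit 0) (nat_lit 86440629) (nat_lit 420) (nat_lit 202226193) (nat_lit 82) (nat_lit 1) (nat_lit 81) (nat_lit 1) (nat_lit 86) (nat_lit 1) (nat_lit 421) (nat_lit 338) (nat_lit 321))) (XT.nd (nat_lit 94) (nat_lit 0) (nat_lit 84) (XT.lf (nat_lit 924) (nat_lit 106745804) (nat_lit 0) (nat_lit 189526930) (nat_lit 924) (nat_lit 106745804) (nat_lit 139) (nat_lit 1) (nat_lit 128) (nat_lit 0) (nat_lit 139) (nat_lit 0) (nat_lit 402) (nat_lit 339) (nat_lit 339)) (XT.lf (nat_lit 924) (nat_lit 39819460) (nat_lit 0) (nat_lit 372098804) (nat_lit 840)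 (nat_lit 363911388) (nat_lit 140) (nat_lit 1) (nat_lit 129) (nat_lit 1) (nat_lit 139) (nat_lit 1) (nat_lit 403) (nat_lit 339) (nat_lit 338)))) (XT.nd (nat_lit 188) (nat_lit 0) (nat_lit 168) (XT.nd (nat_lit 94) (nat_lit 0) (nat_lit 84) (XT.lf (nat_lit 924) (nat_lit 365718759) (nat_lit 84) (nat_lit 249194695) (nat_lit 0) (nat_lit 132161498) (nat_lit 140) (nat_lit 1) (nat_lit 130) (nat_lit 1) (nat_lit 129) (nat_lit 1) (nat_lit 404) (nat_lit 339) (nat_lit 337)) (XT.lf (nat_lit 924) (nat_lit 316010968) (nat_lit 84) (nat_lit 104435769) (nat_lit 0) (nat_lit 299312474) (nat_lit 141) (nat_lit 1) (nat_lit 131) (nat_lit 1) (nat_lit 130) (nat_lit 1) (nat_lit 405) (nat_lit 339) (nat_lit 336))) (XT.nd (nat_lit 94) (nat_lit 0) (nat_lit 84) (XT.lf (nat_lit 924) (nat_lit 233874982) (nat_lit 0) (nat_lit 437569038) (nat_lit 840) (nat_lit 22368466) (nat_lit 142) (nat_lit 1) (nat_lit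 131) (nat_lit 1) (nat_lit 141) (nat_lit 1) (nat_lit 406) (nat_lit 339) (nat_lit 335)) (XT.nd (nat_lit 94) (nat_lit 0) (nat_lit 0) (XT.lf (nat_lit 924) (nat_lit 56116009) (nat_lit 0) (nat_lit 482541426) (nat_lit 840) (nat_lit 130447466) (nat_lit 143) (nat_lit 1) (nat_lit 132) (nat_lit 1) (nat_lit 142) (nat_lit 1) (nat_lit 407) (nat_lit 339) (nat_lit 334)) (XT.lf (nat_lit 924) (nat_lit 107832145) (nat_lit 84) (nat_lit 419367794) (nat_lit 0) (nat_lit 118350765) (nat_lit 143) (nat_lit 1) (nat_lit 133) (nat_lit 1) (nat_lit 132) (nat_lit 1) (nat_lit 408) (nat_lit 339) (nat_lit 333))))))) (XT.nd (nat_lit 846) (nat_lit 1512) (nat_lit 0) (XT.nd (nat_lit 376) (nat_lit 1428) (nat_lit 0) (XT.nd (nat_lit 188) (nat_lit 840) (nat_lit 0) (XT.nd (nat_lit 94) (nat_lit 588) (nat_lit 0) (XT.lf (nat_lit 924) (nat_lit 22146263) (nat_lit 0) (nat_lit 313505166) (nat_lit 840) (nat_lit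 287480952) (nat_lit 134) (nat_lit 1) (nat_lit 123) (nat_lit 1) (nat_lit 133) (nat_lit 1) (nat_lit 409) (nat_lit 339) (nat_lit 332)) (XT.lf (nat_lit 84) (nat_lit 153345343) (nat_lit 0) (nat_lit 66451673) (nat_lit 588) (nat_lit 381978530) (nat_lit 117) (nat_lit 1) (nat_lit 116) (nat_lit 1) (nat_lit 123) (nat_lit 1) (nat_lit 410) (nat_lit 339) (nat_lit 331))) (XT.nd (nat_lit 94) (nat_lit 420) (nat_lit 0) (XT.lf (nat_lit 504) (nat_lit 422600464) (nat_lit 0) (nat_lit 137565561) (nat_lit 420) (nat_lit 21268485) (nat_lit 117) (nat_lit 1) (nat_lit 111) (nat_lit 1) (nat_lit 116) (nat_lit 1) (nat_lit 411) (nat_lit 339) (nat_lit 330)) (XT.lf (nat_lit 504) (nat_lit 304952519) (nat_lit 0) (nat_lit 64119900) (nat_lit 420) (nat_lit 192895685) (nat_lit 112) (nat_lit 1) (nat_lit 106) (nat_lit 1) (nat_lit 111) (nat_lit 1) (nat_lit 412) (nat_lit 339) (nat_lit 329)))) (XT.nd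 (nat_lit 188) (nat_lit 1092) (nat_lit 0) (XT.nd (nat_lit 94) (nat_lit 0) (nat_lit 0) (XT.lf (nat_lit 420) (nat_lit 185559718) (nat_lit 0) (nat_lit 1180551) (nat_lit 336) (nat_lit 356705313) (nat_lit 107) (nat_lit 1) (nat_lit 102) (nat_lit 1) (nat_lit 106) (nat_lit 1) (nat_lit 413) (nat_lit 339) (nat_lit 328)) (XT.lf (nat_lit 84) (nat_lit 13689719) (nat_lit 0) (nat_lit 461683662) (nat_lit 420) (nat_lit 50401748) (nat_lit 103) (nat_lit 1) (nat_lit 102) (nat_lit 1) (nat_lit 107) (nat_lit 1) (nat_lit 414) (nat_lit 339) (nat_lit 327))) (XT.nd (nat_lit 94) (nat_lit 672) (nat_lit 0) (XT.lf (nat_lit 84) (nat_lit 353472097) (nat_lit 0) (nat_lit 58627129) (nat_lit 420) (nat_lit 96686784) (nat_lit 98) (nat_lit 1) (nat_lit 97) (nat_lit 1) (nat_lit 102) (nat_lit 1) (nat_lit 415) (nat_lit 339) (nat_lit 326)) (XT.nd (nat_lit 94) (nat_lit 336) (nat_lit 0) (XT.lf (nat_lit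 84) (nat_lit 176851047) (nat_lit 0) (nat_lit 179585305) (nat_lit 420) (nat_lit 136111205) (nat_lit 94) (nat_lit 1) (nat_lit 93) (nat_lit 1) (nat_lit 98) (nat_lit 1) (nat_lit 416) (nat_lit 339) (nat_lit 325)) (XT.lf (nat_lit 84) (nat_lit 8728975) (nat_lit 0) (nat_lit 300263841) (nat_lit 420) (nat_lit 168085125) (nat_lit 90) (nat_lit 1) (nat_lit 89) (nat_lit 1) (nat_lit 94) (nat_lit 1) (nat_lit 417) (nat_lit 339) (nat_lit 324)))))) (XT.nd (nat_lit 66082) (nat_lit 0) (nat_lit 4788) (XT.nd (nat_lit 188) (nat_lit 840) (nat_lit 0) (XT.nd (nat_lit 94) (nat_lit 420) (nat_lit 0) (XT.lf (nat_lit 336) (nat_lit 39419561) (nat_lit 0) (nat_lit 266575626) (nat_lit 252) (nat_lit 156219443) (nat_lit 90) (nat_lit 1) (nat_lit 86) (nat_lit 1) (nat_lit 89) (nat_lit 1) (nat_lit 418) (nat_lit 339) (nat_lit 323)) (XT.lf (nat_lit 84) (nat_lit 136205183) (nat_lit 0) (nat_lit 93355879)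 (nat_lit 420) (nat_lit 218404288) (nat_lit 82) (nat_lit 1) (nat_lit 81) (nat_lit 1) (nat_lit 86) (nat_lit 1) (nat_lit 419) (nat_lit 339) (nat_lit 322))) (XT.nd (nat_lit 94) (nat_lit 588) (nat_lit 0) (XT.lf (nat_lit 336) (nat_lit 210878386) (nat_lit 0) (nat_lit 198092988) (nat_lit 252) (nat_lit 25355667) (nat_lit 82) (nat_lit 1) (nat_lit 78) (nat_lit 1) (nat_lit 81) (nat_lit 1) (nat_lit 420) (nat_lit 339) (nat_lit 321)) (XT.nd (nat_lit 94) (nat_lit 336) (nat_lit 0) (XT.lf (nat_lit 336) (nat_lit 67585504) (nat_lit 0) (nat_lit 170549951) (nat_lit 252) (nat_lit 183077401) (nat_lit 79) (nat_lit 1) (nat_lit 75) (nat_lit 1) (nat_lit 78) (nat_lit 1) (nat_lit 421) (nat_lit 339) (nat_lit 320)) (XT.lf (nat_lit 84) (nat_lit 77031143) (nat_lit 0) (nat_lit 70528706) (nat_lit 336) (nat_lit 261083477) (nat_lit 72) (nat_lit 1) (nat_lit 71) (nat_lit 1) (nat_lit 75) (nat_lit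 1) (nat_lit 422) (nat_lit 339) (nat_lit 319))))) (XT.nd (nat_lit 188) (nat_lit 0) (nat_lit 84) (XT.nd (nat_lit 94) (nat_lit 0) (nat_lit 84) (XT.lf (nat_lit 924) (nat_lit 115285468) (nat_lit 0) (nat_lit 204689084) (nat_lit 924) (nat_lit 115285468) (nat_lit 139) (nat_lit 1) (nat_lit 128) (nat_lit 0) (nat_lit 139) (nat_lit 0) (nat_lit 400) (nat_lit 340) (nat_lit 340)) (XT.lf (nat_lit 924) (nat_lit 43005017) (nat_lit 0) (nat_lit 401866709) (nat_lit 840) (nat_lit 393024299) (nat_lit 140) (nat_lit 1) (nat_lit 129) (nat_lit 1) (nat_lit 139) (nat_lit 1) (nat_lit 401) (nat_lit 340) (nat_lit 339))) (XT.nd (nat_lit 94) (nat_lit 0) (nat_lit 84) (XT.lf (nat_lit 924) (nat_lit 394976260) (nat_lit 84) (nat_lit 269130270) (nat_lit 0) (nat_lit 142734418) (nat_lit 140) (nat_lit 1) (nat_lit 130) (nat_lit 1) (nat_lit 129) (nat_lit 1) (nat_lit 402) (nat_lit 340) (nat_lit 338))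 (XT.nd (nat_lit 94) (nat_lit 0) (nat_lit 84) (XT.lf (nat_lit 924) (nat_lit 341291845) (nat_lit 84) (nat_lit 112790631) (nat_lit 0) (nat_lit 323257472) (nat_lit 141) (nat_lit 1) (nat_lit 131) (nat_lit 1) (nat_lit 130) (nat_lit 1) (nat_lit 403) (nat_lit 340) (nat_lit 337)) (XT.lf (nat_lit 924) (nat_lit 252584981) (nat_lit 0) (nat_lit 472574561) (nat_lit 840) (nat_lit 24157944) (nat_lit 142) (nat_lit 1) (nat_lit 131) (nat_lit 1) (nat_lit 141) (nat_lit 1) (nat_lit 404) (nat_lit 340) (nat_lit 336))))))))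
noncomputable def ec3 : XT := (XT.nd (nat_lit 67210) (nat_lit 0) (nat_lit 756) (XT.nd (nat_lit 846) (nat_lit 2604) (nat_lit 0) (XT.nd (nat_lit 376) (nat_lit 1596) (nat_lit 0) (XT.nd (nat_lit 188) (nat_lit 1344) (nat_lit 0) (XT.nd (nat_lit 94) (nat_lit 0) (nat_lit 0) (XT.lf (nat_lit 924) (nat_lit 60605289) (nat_lit 0) (nat_lit 521144740) (nat_lit 840) (nat_lit 140883263) (nat_lit 143) (nat_lit 1) (nat_lit 132) (nat_lit 1) (nat_lit 142) (nat_lit 1) (nat_lit 405) (nat_lit 340) (nat_lit 335)) (XT.lf (nat_lit 924) (nat_lit 116458716) (nat_lit 84) (nat_lit 452917217) (nat_lit 0) (nat_lit 127818826) (nat_lit 143) (nat_lit 1) (nat_lit 133) (nat_lit 1) (nat_lit 132) (nat_lit 1) (nat_lit 406) (nat_lit 340) (nat_lit 334))) (XT.nd (nat_lit 94) (nat_lit 588) (nat_lit 0) (XT.lf (nat_lit 924) (nat_lit 23917964) (nat_lit 0) (nat_lit 338585579) (nat_lit 840) (nat_lit 310479428)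 (nat_lit 134) (nat_lit 1) (nat_lit 123) (nat_lit 1) (nat_lit 133) (nat_lit 1) (nat_lit 407) (nat_lit 340) (nat_lit 333)) (XT.lf (nat_lit 84) (nat_lit 165612970) (nat_lit 0) (nat_lit 71767807) (nat_lit 588) (nat_lit 412536812) (nat_lit 117) (nat_lit 1) (nat_lit 116) (nat_lit 1) (nat_lit 123) (nat_lit 1) (nat_lit 408) (nat_lit 340) (nat_lit 332)))) (XT.nd (nat_lit 188) (nat_lit 756) (nat_lit 0) (XT.nd (nat_lit 94) (nat_lit 420) (nat_lit 0) (XT.lf (nat_lit 504) (nat_lit 456408501) (nat_lit 0) (nat_lit 148570806) (nat_lit 420) (nat_lit 22969964) (nat_lit 117) (nat_lit 1) (nat_lit 111) (nat_lit 1) (nat_lit 116) (nat_lit 1) (nat_lit 409) (nat_lit 340) (nat_lit 331)) (XT.lf (nat_lit 504) (nat_lit 329348721) (nat_lit 0) (nat_lit 69249493) (nat_lit 420) (nat_lit 208327340) (nat_lit 112) (nat_lit 1) (nat_lit 106) (nat_lit 1) (nat_lit 111) (nat_lit 1) (nat_lit 410) (nat_lit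 340) (nat_lit 330))) (XT.nd (nat_lit 94) (nat_lit 420) (nat_lit 0) (XT.lf (nat_lit 420) (nat_lit 200404496) (nat_lit 0) (nat_lit 1274995) (nat_lit 336) (nat_lit 385241738) (nat_lit 107) (nat_lit 1) (nat_lit 102) (nat_lit 1) (nat_lit 106) (nat_lit 1) (nat_lit 411) (nat_lit 340) (nat_lit 329)) (XT.nd (nat_lit 94) (nat_lit 420) (nat_lit 0) (XT.lf (nat_lit 84) (nat_lit 14784896) (nat_lit 0) (nat_lit 498618355) (nat_lit 420) (nat_lit 54433888) (nat_lit 103) (nat_lit 1) (nat_lit 102) (nat_lit 1) (nat_lit 107) (nat_lit 1) (nat_lit 412) (nat_lit 340) (nat_lit 328)) (XT.lf (nat_lit 84) (nat_lit 381749865) (nat_lit 0) (nat_lit 63317299) (nat_lit 420) (nat_lit 104421726) (nat_lit 98) (nat_lit 1) (nat_lit 97) (nat_lit 1) (nat_lit 102) (nat_lit 1) (nat_lit 413) (nat_lit 340) (nat_lit 327)))))) (XT.nd (nat_lit 470) (nat_lit 1008) (nat_lit 0) (XT.nd (nat_lit 188) (nat_lit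 924) (nat_lit 0) (XT.nd (nat_lit 94) (nat_lit 336) (nat_lit 0) (XT.lf (nat_lit 84) (nat_lit 190999131) (nat_lit 0) (nat_lit 193952129) (nat_lit 420) (nat_lit 147000102) (nat_lit 94) (nat_lit 1) (nat_lit 93) (nat_lit 1) (nat_lit 98) (nat_lit 1) (nat_lit 414) (nat_lit 340) (nat_lit 326)) (XT.lf (nat_lit 84) (nat_lit 9427293) (nat_lit 0) (nat_lit 324284948) (nat_lit 420) (nat_lit 181531935) (nat_lit 90) (nat_lit 1) (nat_lit 89) (nat_lit 1) (nat_lit 94) (nat_lit 1) (nat_lit 415) (nat_lit 340) (nat_lit 325))) (XT.nd (nat_lit 94) (nat_lit 672) (nat_lit 0) (XT.lf (nat_lit 336) (nat_lit 42573126) (nat_lit 0) (nat_lit 287901676) (nat_lit 252) (nat_lit 168716999) (nat_lit 90) (nat_lit 1) (nat_lit 86) (nat_lit 1) (nat_lit 89) (nat_lit 1) (nat_lit 416) (nat_lit 340) (nat_lit 324)) (XT.nd (nat_lit 94) (nat_lit 252) (nat_lit 0) (XT.lf (nat_lit 84) (nat_lit 147101598) (nat_lit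 0) (nat_lit 100824349) (nat_lit 420) (nat_lit 235876631) (nat_lit 82) (nat_lit 1) (nat_lit 81) (nat_lit 1) (nat_lit 86) (nat_lit 1) (nat_lit 417) (nat_lit 340) (nat_lit 323)) (XT.lf (nat_lit 336) (nat_lit 227748657) (nat_lit 0) (nat_lit 213940427) (nat_lit 252) (nat_lit 27384120) (nat_lit 82) (nat_lit 1) (nat_lit 78) (nat_lit 1) (nat_lit 81) (nat_lit 1) (nat_lit 418) (nat_lit 340) (nat_lit 322))))) (XT.nd (nat_lit 188) (nat_lit 420) (nat_lit 0) (XT.nd (nat_lit 94) (nat_lit 336) (nat_lit 0) (XT.lf (nat_lit 336) (nat_lit 72992344) (nat_lit 0) (nat_lit 184193947) (nat_lit 252) (nat_lit 197723593) (nat_lit 79) (nat_lit 1) (nat_lit 75) (nat_lit 1) (nat_lit 78) (nat_lit 1) (nat_lit 419) (nat_lit 340) (nat_lit 321)) (XT.lf (nat_lit 84) (nat_lit 83193635) (nat_lit 0) (nat_lit 76171002) (nat_lit 336) (nat_lit 281970156) (nat_lit 72) (nat_lit 1) (nat_lit 71) (nat_lit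 1) (nat_lit 75) (nat_lit 1) (nat_lit 420) (nat_lit 340) (nat_lit 320))) (XT.nd (nat_lit 94) (nat_lit 168) (nat_lit 0) (XT.lf (nat_lit 336) (nat_lit 207016442) (nat_lit 0) (nat_lit 137741069) (nat_lit 252) (nat_lit 83499089) (nat_lit 72) (nat_lit 1) (nat_lit 68) (nat_lit 1) (nat_lit 71) (nat_lit 1) (nat_lit 421) (nat_lit 340) (nat_lit 319)) (XT.nd (nat_lit 65518) (nat_lit 0) (nat_lit 5208) (XT.lf (nat_lit 252) (nat_lit 51319681) (nat_lit 0) (nat_lit 120169036) (nat_lit 168) (nat_lit 244217299) (nat_lit 69) (nat_lit 1) (nat_lit 66) (nat_lit 1) (nat_lit 68) (nat_lit 1) (nat_lit 422) (nat_lit 340) (nat_lit 318)) (XT.lf (nat_lit 924) (nat_lit 124508306) (nat_lit 0) (nat_lit 221064211) (nat_lit 924) (nat_lit 124508306) (nat_lit 139) (nat_lit 1) (nat_lit 128) (nat_lit 0) (nat_lit 139) (nat_lit 0) (nat_lit 398) (nat_lit 341) (nat_lit 341))))))) (XT.nd (nat_lit 846)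 (nat_lit 3024) (nat_lit 0) (XT.nd (nat_lit 376) (nat_lit 1512) (nat_lit 0) (XT.nd (nat_lit 188) (nat_lit 0) (nat_lit 84) (XT.nd (nat_lit 94) (nat_lit 0) (nat_lit 0) (XT.lf (nat_lit 924) (nat_lit 46445418) (nat_lit 0) (nat_lit 434016046) (nat_lit 840) (nat_lit 424466243) (nat_lit 140) (nat_lit 1) (nat_lit 129) (nat_lit 1) (nat_lit 139) (nat_lit 1) (nat_lit 399) (nat_lit 341) (nat_lit 340)) (XT.lf (nat_lit 924) (nat_lit 426574361) (nat_lit 84) (nat_lit 290660692) (nat_lit 0) (nat_lit 154153172) (nat_lit 140) (nat_lit 1) (nat_lit 130) (nat_lit 1) (nat_lit 129) (nat_lit 1) (nat_lit 400) (nat_lit 341) (nat_lit 339))) (XT.nd (nat_lit 94) (nat_lit 0) (nat_lit 84) (XT.lf (nat_lit 924) (nat_lit 368595193) (nat_lit 84) (nat_lit 121813881) (nat_lit 0) (nat_lit 349118069) (nat_lit 141) (nat_lit 1) (nat_lit 131) (nat_lit 1) (nat_lit 130) (nat_lit 1) (nat_lit 401) (nat_lit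 341) (nat_lit 338)) (XT.lf (nat_lit 924) (nat_lit 272791780) (nat_lit 0) (nat_lit 510380526) (nat_lit 840) (nat_lit 26090579) (nat_lit 142) (nat_lit 1) (nat_lit 131) (nat_lit 1) (nat_lit 141) (nat_lit 1) (nat_lit 402) (nat_lit 341) (nat_lit 337)))) (XT.nd (nat_lit 188) (nat_lit 1764) (nat_lit 0) (XT.nd (nat_lit 94) (nat_lit 0) (nat_lit 0) (XT.lf (nat_lit 924) (nat_lit 65453712) (nat_lit 0) (nat_lit 562836319) (nat_lit 840) (nat_lit 152153924) (nat_lit 143) (nat_lit 1) (nat_lit 132) (nat_lit 1) (nat_lit 142) (nat_lit 1) (nat_lit 403) (nat_lit 341) (nat_lit 336)) (XT.lf (nat_lit 924) (nat_lit 125775414) (nat_lit 84) (nat_lit 489150595) (nat_lit 0) (nat_lit 138044332) (nat_lit 143) (nat_lit 1) (nat_lit 133) (nat_lit 1) (nat_lit 132) (nat_lit 1) (nat_lit 404) (nat_lit 341) (nat_lit 335))) (XT.nd (nat_lit 94) (nat_lit 1008) (nat_lit 0) (XT.lf (nat_lit 924) (nat_lit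 25831401) (nat_lit 0) (nat_lit 365672426) (nat_lit 840) (nat_lit 335317783) (nat_lit 134) (nat_lit 1) (nat_lit 123) (nat_lit 1) (nat_lit 133) (nat_lit 1) (nat_lit 405) (nat_lit 341) (nat_lit 334)) (XT.nd (nat_lit 94) (nat_lit 420) (nat_lit 0) (XT.lf (nat_lit 84) (nat_lit 178862008) (nat_lit 0) (nat_lit 77509231) (nat_lit 588) (nat_lit 445539757) (nat_lit 117) (nat_lit 1) (nat_lit 116) (nat_lit 1) (nat_lit 123) (nat_lit 1) (nat_lit 406) (nat_lit 341) (nat_lit 333)) (XT.lf (nat_lit 504) (nat_lit 492921181) (nat_lit 0) (nat_lit 160456471) (nat_lit 420) (nat_lit 24807561) (nat_lit 117) (nat_lit 1) (nat_lit 111) (nat_lit 1) (nat_lit 116) (nat_lit 1) (nat_lit 407) (nat_lit 341) (nat_lit 332)))))) (XT.nd (nat_lit 470) (nat_lit 1512) (nat_lit 0) (XT.nd (nat_lit 188) (nat_lit 756) (nat_lit 0) (XT.nd (nat_lit 94) (nat_lit 336) (nat_lit 0) (XT.lf (nat_lit 504) (nat_lit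 355696618) (nat_lit 0) (nat_lit 74789452) (nat_lit 420) (nat_lit 224993527) (nat_lit 112) (nat_lit 1) (nat_lit 106) (nat_lit 1) (nat_lit 111) (nat_lit 1) (nat_lit 408) (nat_lit 341) (nat_lit 331)) (XT.lf (nat_lit 420) (nat_lit 216436856) (nat_lit 0) (nat_lit 1376995) (nat_lit 336) (nat_lit 416061077) (nat_lit 107) (nat_lit 1) (nat_lit 102) (nat_lit 1) (nat_lit 106) (nat_lit 1) (nat_lit 409) (nat_lit 341) (nat_lit 330))) (XT.nd (nat_lit 94) (nat_lit 756) (nat_lit 0) (XT.lf (nat_lit 84) (nat_lit 15967688) (nat_lit 0) (nat_lit 538507824) (nat_lit 420) (nat_lit 58788599) (nat_lit 103) (nat_lit 1) (nat_lit 102) (nat_lit 1) (nat_lit 107) (nat_lit 1) (nat_lit 410) (nat_lit 341) (nat_lit 329)) (XT.nd (nat_lit 94) (nat_lit 336) (nat_lit 0) (XT.lf (nat_lit 84) (nat_lit 412289855) (nat_lit 0) (nat_lit 68382683) (nat_lit 420) (nat_lit 112775465) (nat_lit 98) (nat_lit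 1) (nat_lit 97) (nat_lit 1) (nat_lit 102) (nat_lit 1) (nat_lit 411) (nat_lit 341) (nat_lit 328)) (XT.lf (nat_lit 84) (nat_lit 206279062) (nat_lit 0) (nat_lit 209468299) (nat_lit 420) (nat_lit 158760110) (nat_lit 94) (nat_lit 1) (nat_lit 93) (nat_lit 1) (nat_lit 98) (nat_lit 1) (nat_lit 412) (nat_lit 341) (nat_lit 327))))) (XT.nd (nat_lit 188) (nat_lit 924) (nat_lit 0) (XT.nd (nat_lit 94) (nat_lit 252) (nat_lit 0) (XT.lf (nat_lit 84) (nat_lit 10181477) (nat_lit 0) (nat_lit 350227744) (nat_lit 420) (nat_lit 196054490) (nat_lit 90) (nat_lit 1) (nat_lit 89) (nat_lit 1) (nat_lit 94) (nat_lit 1) (nat_lit 413) (nat_lit 341) (nat_lit 326)) (XT.lf (nat_lit 336) (nat_lit 45978976) (nat_lit 0) (nat_lit 310933810) (nat_lit 252) (nat_lit 182214359) (nat_lit 90) (nat_lit 1) (nat_lit 86) (nat_lit 1) (nat_lit 89) (nat_lit 1) (nat_lit 414) (nat_lit 341) (nat_lit 325))) (XT.nd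 (nat_lit 94) (nat_lit 504) (nat_lit 0) (XT.lf (nat_lit 84) (nat_lit 158869726) (nat_lit 0) (nat_lit 108890297) (nat_lit 420) (nat_lit 254746762) (nat_lit 82) (nat_lit 1) (nat_lit 81) (nat_lit 1) (nat_lit 86) (nat_lit 1) (nat_lit 415) (nat_lit 341) (nat_lit 324)) (XT.nd (nat_lit 94) (nat_lit 252) (nat_lit 0) (XT.lf (nat_lit 336) (nat_lit 245968549) (nat_lit 0) (nat_lit 231055661) (nat_lit 252) (nat_lit 29574850) (nat_lit 82) (nat_lit 1) (nat_lit 78) (nat_lit 1) (nat_lit 81) (nat_lit 1) (nat_lit 416) (nat_lit 341) (nat_lit 323)) (XT.lf (nat_lit 336) (nat_lit 78831731) (nat_lit 0) (nat_lit 198929463) (nat_lit 252) (nat_lit 213541480) (nat_lit 79) (nat_lit 1) (nat_lit 75) (nat_lit 1) (nat_lit 78) (nat_lit 1) (nat_lit 417) (nat_lit 341) (nat_lit 322))))))))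
noncomputable def ec4 : XT := (XT.nd (nat_lit 66928) (nat_lit 588) (nat_lit 0) (XT.nd (nat_lit 66082) (nat_lit 0) (nat_lit 3528) (XT.nd (nat_lit 376) (nat_lit 168) (nat_lit 0) (XT.nd (nat_lit 188) (nat_lit 504) (nat_lit 0) (XT.nd (nat_lit 94) (nat_lit 252) (nat_lit 0) (XT.lf (nat_lit 84) (nat_lit 89849126) (nat_lit 0) (nat_lit 82264682) (nat_lit 336) (nat_lit 304527768) (nat_lit 72) (nat_lit 1) (nat_lit 71) (nat_lit 1) (nat_lit 75) (nat_lit 1) (nat_lit 418) (nat_lit 341) (nat_lit 321)) (XT.lf (nat_lit 336) (nat_lit 223577757) (nat_lit 0) (nat_lit 148760354) (nat_lit 252) (nat_lit 90179016) (nat_lit 72) (nat_lit 1) (nat_lit 68) (nat_lit 1) (nat_lit 71) (nat_lit 1) (nat_lit 419) (nat_lit 341) (nat_lit 320))) (XT.nd (nat_lit 94) (nat_lit 336) (nat_lit 0) (XT.lf (nat_lit 252) (nat_lit 55425256) (nat_lit 0) (nat_lit 129782558) (nat_lit 168) (nat_lit 263754683)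 (nat_lit 69) (nat_lit 1) (nat_lit 66) (nat_lit 1) (nat_lit 68) (nat_lit 1) (nat_lit 420) (nat_lit 341) (nat_lit 319)) (XT.lf (nat_lit 84) (nat_lit 9389392) (nat_lit 0) (nat_lit 105069340) (nat_lit 336) (nat_lit 321474549) (nat_lit 63) (nat_lit 1) (nat_lit 62) (nat_lit 1) (nat_lit 66) (nat_lit 1) (nat_lit 421) (nat_lit 341) (nat_lit 318)))) (XT.nd (nat_lit 65424) (nat_lit 0) (nat_lit 5796) (XT.nd (nat_lit 65330) (nat_lit 0) (nat_lit 5712) (XT.lf (nat_lit 252) (nat_lit 161055624) (nat_lit 0) (nat_lit 100645948) (nat_lit 168) (nat_lit 161616099) (nat_lit 63) (nat_lit 1) (nat_lit 60) (nat_lit 1) (nat_lit 62) (nat_lit 1) (nat_lit 422) (nat_lit 341) (nat_lit 317)) (XT.lf (nat_lit 924) (nat_lit 134468970) (nat_lit 0) (nat_lit 238749348) (nat_lit 924) (nat_lit 134468970) (nat_lit 139) (nat_lit 1) (nat_lit 128) (nat_lit 0) (nat_lit 139) (nat_lit 0) (nat_lit 396) (nat_lit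 342) (nat_lit 342))) (XT.nd (nat_lit 94) (nat_lit 0) (nat_lit 0) (XT.lf (nat_lit 924) (nat_lit 50161052) (nat_lit 0) (nat_lit 468737329) (nat_lit 840) (nat_lit 458423542) (nat_lit 140) (nat_lit 1) (nat_lit 129) (nat_lit 1) (nat_lit 139) (nat_lit 1) (nat_lit 397) (nat_lit 342) (nat_lit 341)) (XT.nd (nat_lit 94) (nat_lit 0) (nat_lit 84) (XT.lf (nat_lit 924) (nat_lit 460700310) (nat_lit 84) (nat_lit 313913547) (nat_lit 0) (nat_lit 166485426) (nat_lit 140) (nat_lit 1) (nat_lit 130) (nat_lit 1) (nat_lit 129) (nat_lit 1) (nat_lit 398) (nat_lit 342) (nat_lit 340)) (XT.lf (nat_lit 924) (nat_lit 398082809) (nat_lit 84) (nat_lit 131558992) (nat_lit 0) (nat_lit 377047515) (nat_lit 141) (nat_lit 1) (nat_lit 131) (nat_lit 1) (nat_lit 130) (nat_lit 1) (nat_lit 399) (nat_lit 342) (nat_lit 339)))))) (XT.nd (nat_lit 376) (nat_lit 1764) (nat_lit 0) (XT.nd (nat_lit 188) (nat_lit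 672) (nat_lit 0) (XT.nd (nat_lit 94) (nat_lit 0) (nat_lit 84) (XT.lf (nat_lit 924) (nat_lit 294615122) (nat_lit 0) (nat_lit 551210968) (nat_lit 840) (nat_lit 28177825) (nat_lit 142) (nat_lit 1) (nat_lit 131) (nat_lit 1) (nat_lit 141) (nat_lit 1) (nat_lit 400) (nat_lit 342) (nat_lit 338)) (XT.lf (nat_lit 924) (nat_lit 70690010) (nat_lit 0) (nat_lit 607863224) (nat_lit 840) (nat_lit 164326238) (nat_lit 143) (nat_lit 1) (nat_lit 132) (nat_lit 1) (nat_lit 142) (nat_lit 1) (nat_lit 401) (nat_lit 342) (nat_lit 337))) (XT.nd (nat_lit 94) (nat_lit 756) (nat_lit 0) (XT.lf (nat_lit 924) (nat_lit 135837447) (nat_lit 84) (nat_lit 528282642) (nat_lit 0) (nat_lit 149087879) (nat_lit 143) (nat_lit 1) (nat_lit 133) (nat_lit 1) (nat_lit 132) (nat_lit 1) (nat_lit 402) (nat_lit 342) (nat_lit 336)) (XT.lf (nat_lit 924) (nat_lit 27897914) (nat_lit 0) (nat_lit 394926220) (nat_lit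 840) (nat_lit 362143205) (nat_lit 134) (nat_lit 1) (nat_lit 123) (nat_lit 1) (nat_lit 133) (nat_lit 1) (nat_lit 403) (nat_lit 342) (nat_lit 335)))) (XT.nd (nat_lit 188) (nat_lit 756) (nat_lit 0) (XT.nd (nat_lit 94) (nat_lit 420) (nat_lit 0) (XT.lf (nat_lit 84) (nat_lit 193170968) (nat_lit 0) (nat_lit 83709970) (nat_lit 588) (nat_lit 481182937) (nat_lit 117) (nat_lit 1) (nat_lit 116) (nat_lit 1) (nat_lit 123) (nat_lit 1) (nat_lit 404) (nat_lit 342) (nat_lit 334)) (XT.lf (nat_lit 504) (nat_lit 532354876) (nat_lit 0) (nat_lit 173292988) (nat_lit 420) (nat_lit 26792166) (nat_lit 117) (nat_lit 1) (nat_lit 111) (nat_lit 1) (nat_lit 116) (nat_lit 1) (nat_lit 405) (nat_lit 342) (nat_lit 333))) (XT.nd (nat_lit 94) (nat_lit 336) (nat_lit 0) (XT.lf (nat_lit 504) (nat_lit 384152348) (nat_lit 0) (nat_lit 80772608) (nat_lit 420) (nat_lit 242993010) (nat_lit 112) (nat_lit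 1) (nat_lit 106) (nat_lit 1) (nat_lit 111) (nat_lit 1) (nat_lit 406) (nat_lit 342) (nat_lit 332)) (XT.nd (nat_lit 94) (nat_lit 0) (nat_lit 0) (XT.lf (nat_lit 420) (nat_lit 233751804) (nat_lit 0) (nat_lit 1487154) (nat_lit 336) (nat_lit 449345963) (nat_lit 107) (nat_lit 1) (nat_lit 102) (nat_lit 1) (nat_lit 106) (nat_lit 1) (nat_lit 407) (nat_lit 342) (nat_lit 331)) (XT.lf (nat_lit 84) (nat_lit 17245103) (nat_lit 0) (nat_lit 581588450) (nat_lit 420) (nat_lit 63491687) (nat_lit 103) (nat_lit 1) (nat_lit 102) (nat_lit 1) (nat_lit 107) (nat_lit 1) (nat_lit 408) (nat_lit 342) (nat_lit 330))))))) (XT.nd (nat_lit 846) (nat_lit 1260) (nat_lit 0) (XT.nd (nat_lit 376) (nat_lit 1512) (nat_lit 0) (XT.nd (nat_lit 188) (nat_lit 588) (nat_lit 0) (XT.nd (nat_lit 94) (nat_lit 336) (nat_lit 0) (XT.lf (nat_lit 84) (nat_lit 445273043) (nat_lit 0) (nat_lit 73853298) (nat_lit 420)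 (nat_lit 121797502) (nat_lit 98) (nat_lit 1) (nat_lit 97) (nat_lit 1) (nat_lit 102) (nat_lit 1) (nat_lit 409) (nat_lit 342) (nat_lit 329)) (XT.lf (nat_lit 84) (nat_lit 222781387) (nat_lit 0) (nat_lit 226225763) (nat_lit 420) (nat_lit 171460919) (nat_lit 94) (nat_lit 1) (nat_lit 93) (nat_lit 1) (nat_lit 98) (nat_lit 1) (nat_lit 410) (nat_lit 342) (nat_lit 328))) (XT.nd (nat_lit 94) (nat_lit 252) (nat_lit 0) (XT.lf (nat_lit 84) (nat_lit 10995995) (nat_lit 0) (nat_lit 378245964) (nat_lit 420) (nat_lit 211738849) (nat_lit 90) (nat_lit 1) (nat_lit 89) (nat_lit 1) (nat_lit 94) (nat_lit 1) (nat_lit 411) (nat_lit 342) (nat_lit 327)) (XT.lf (nat_lit 336) (nat_lit 49657294) (nat_lit 0) (nat_lit 335808515) (nat_lit 252) (nat_lit 196791507) (nat_lit 90) (nat_lit 1) (nat_lit 86) (nat_lit 1) (nat_lit 89) (nat_lit 1) (nat_lit 412) (nat_lit 342) (nat_lit 326)))) (XT.nd (nat_lit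 188) (nat_lit 840) (nat_lit 0) (XT.nd (nat_lit 94) (nat_lit 252) (nat_lit 0) (XT.lf (nat_lit 84) (nat_lit 171579304) (nat_lit 0) (nat_lit 117601521) (nat_lit 420) (nat_lit 275126503) (nat_lit 82) (nat_lit 1) (nat_lit 81) (nat_lit 1) (nat_lit 86) (nat_lit 1) (nat_lit 413) (nat_lit 342) (nat_lit 325)) (XT.lf (nat_lit 336) (nat_lit 265646033) (nat_lit 0) (nat_lit 249540114) (nat_lit 252) (nat_lit 31940838) (nat_lit 82) (nat_lit 1) (nat_lit 78) (nat_lit 1) (nat_lit 81) (nat_lit 1) (nat_lit 414) (nat_lit 342) (nat_lit 324))) (XT.nd (nat_lit 94) (nat_lit 588) (nat_lit 0) (XT.lf (nat_lit 336) (nat_lit 85138270) (nat_lit 0) (nat_lit 214843820) (nat_lit 252) (nat_lit 230624799) (nat_lit 79) (nat_lit 1) (nat_lit 75) (nat_lit 1) (nat_lit 78) (nat_lit 1) (nat_lit 415) (nat_lit 342) (nat_lit 323)) (XT.nd (nat_lit 94) (nat_lit 252) (nat_lit 0) (XT.lf (nat_lit 84) (nat_lit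 97037056) (nat_lit 0) (nat_lit 88845857) (nat_lit 336) (nat_lit 328889990) (nat_lit 72) (nat_lit 1) (nat_lit 71) (nat_lit 1) (nat_lit 75) (nat_lit 1) (nat_lit 416) (nat_lit 342) (nat_lit 322)) (XT.lf (nat_lit 336) (nat_lit 241463978) (nat_lit 0) (nat_lit 160661183) (nat_lit 252) (nat_lit 97393337) (nat_lit 72) (nat_lit 1) (nat_lit 68) (nat_lit 1) (nat_lit 71) (nat_lit 1) (nat_lit 417) (nat_lit 342) (nat_lit 321)))))) (XT.nd (nat_lit 470) (nat_lit 168) (nat_lit 0) (XT.nd (nat_lit 188) (nat_lit 588) (nat_lit 0) (XT.nd (nat_lit 94) (nat_lit 336) (nat_lit 0) (XT.lf (nat_lit 252) (nat_lit 59859276) (nat_lit 0) (nat_lit 140165163) (nat_lit 168) (nat_lit 284855058) (nat_lit 69) (nat_lit 1) (nat_lit 66) (nat_lit 1) (nat_lit 68) (nat_lit 1) (nat_lit 418) (nat_lit 342) (nat_lit 320)) (XT.lf (nat_lit 84) (nat_lit 10140543) (nat_lit 0) (nat_lit 113474887) (nat_lit 336)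 (nat_lit 347192513) (nat_lit 63) (nat_lit 1) (nat_lit 62) (nat_lit 1) (nat_lit 66) (nat_lit 1) (nat_lit 419) (nat_lit 342) (nat_lit 319))) (XT.nd (nat_lit 94) (nat_lit 420) (nat_lit 0) (XT.lf (nat_lit 252) (nat_lit 173940074) (nat_lit 0) (nat_lit 108697624) (nat_lit 168) (nat_lit 174545387) (nat_lit 63) (nat_lit 1) (nat_lit 60) (nat_lit 1) (nat_lit 62) (nat_lit 1) (nat_lit 420) (nat_lit 342) (nat_lit 318)) (XT.nd (nat_lit 94) (nat_lit 168) (nat_lit 0) (XT.lf (nat_lit 84) (nat_lit 94372615) (nat_lit 0) (nat_lit 4359130) (nat_lit 252) (nat_lit 345421025) (nat_lit 58) (nat_lit 1) (nat_lit 57) (nat_lit 1) (nat_lit 60) (nat_lit 1) (nat_lit 421) (nat_lit 342) (nat_lit 317)) (XT.lf (nat_lit 252) (nat_lit 257996507) (nat_lit 0) (nat_lit 89401574) (nat_lit 168) (nat_lit 84103416) (nat_lit 58) (nat_lit 1) (nat_lit 55) (nat_lit 1) (nat_lit 57) (nat_lit 1) (nat_lit 422)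 (nat_lit 342) (nat_lit 316))))) (XT.nd (nat_lit 65142) (nat_lit 0) (nat_lit 6384) (XT.nd (nat_lit 65048) (nat_lit 0) (nat_lit 6300) (XT.lf (nat_lit 252) (nat_lit 80144053) (nat_lit 0) (nat_lit 83108649) (nat_lit 168) (nat_lit 256081234) (nat_lit 56) (nat_lit 1) (nat_lit 53) (nat_lit 1) (nat_lit 55) (nat_lit 1) (nat_lit 423) (nat_lit 342) (nat_lit 315)) (XT.lf (nat_lit 924) (nat_lit 145226488) (nat_lit 0) (nat_lit 257849296) (nat_lit 924) (nat_lit 145226488) (nat_lit 139) (nat_lit 1) (nat_lit 128) (nat_lit 0) (nat_lit 139) (nat_lit 0) (nat_lit 394) (nat_lit 343) (nat_lit 343))) (XT.nd (nat_lit 94) (nat_lit 0) (nat_lit 0) (XT.lf (nat_lit 924) (nat_lit 54173936) (nat_lit 0) (nat_lit 506236316) (nat_lit 840) (nat_lit 495097425) (nat_lit 140) (nat_lit 1) (nat_lit 129) (nat_lit 1) (nat_lit 139) (nat_lit 1) (nat_lit 395) (nat_lit 343) (nat_lit 342)) (XT.nd (nat_lit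 94) (nat_lit 0) (nat_lit 84) (XT.lf (nat_lit 924) (nat_lit 497556334) (nat_lit 84) (nat_lit 339026631) (nat_lit 0) (nat_lit 179804260) (nat_lit 140) (nat_lit 1) (nat_lit 130) (nat_lit 1) (nat_lit 129) (nat_lit 1) (nat_lit 396) (nat_lit 343) (nat_lit 341)) (XT.lf (nat_lit 924) (nat_lit 429929433) (nat_lit 84) (nat_lit 142083711) (nat_lit 0) (nat_lit 407211316) (nat_lit 141) (nat_lit 1) (nat_lit 131) (nat_lit 1) (nat_lit 130) (nat_lit 1) (nat_lit 397) (nat_lit 343) (nat_lit 340))))))))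
noncomputable def ec5 : XT := (XT.nd (nat_lit 1786) (nat_lit 1512) (nat_lit 0) (XT.nd (nat_lit 846) (nat_lit 3024) (nat_lit 0) (XT.nd (nat_lit 376) (nat_lit 1764) (nat_lit 0) (XT.nd (nat_lit 188) (nat_lit 672) (nat_lit 0) (XT.nd (nat_lit 94) (nat_lit 0) (nat_lit 84) (XT.lf (nat_lit 924) (nat_lit 318184332) (nat_lit 0) (nat_lit 595307845) (nat_lit 840) (nat_lit 30432052) (nat_lit 142) (nat_lit 1) (nat_lit 131) (nat_lit 1) (nat_lit 141) (nat_lit 1) (nat_lit 398) (nat_lit 343) (nat_lit 339)) (XT.lf (nat_lit 924) (nat_lit 76345210) (nat_lit 0) (nat_lit 656492282) (nat_lit 840) (nat_lit 177472337) (nat_lit 143) (nat_lit 1) (nat_lit 132) (nat_lit 1) (nat_lit 142) (nat_lit 1) (nat_lit 399) (nat_lit 343) (nat_lit 338))) (XT.nd (nat_lit 94) (nat_lit 756) (nat_lit 0) (XT.lf (nat_lit 924) (nat_lit 146704442) (nat_lit 84) (nat_lit 570545254) (nat_lit 0) (nat_lit 161014909)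 (nat_lit 143) (nat_lit 1) (nat_lit 133) (nat_lit 1) (nat_lit 132) (nat_lit 1) (nat_lit 400) (nat_lit 343) (nat_lit 337)) (XT.lf (nat_lit 924) (nat_lit 30129747) (nat_lit 0) (nat_lit 426520317) (nat_lit 840) (nat_lit 391114662) (nat_lit 134) (nat_lit 1) (nat_lit 123) (nat_lit 1) (nat_lit 133) (nat_lit 1) (nat_lit 401) (nat_lit 343) (nat_lit 336)))) (XT.nd (nat_lit 188) (nat_lit 756) (nat_lit 0) (XT.nd (nat_lit 94) (nat_lit 420) (nat_lit 0) (XT.lf (nat_lit 84) (nat_lit 208624646) (nat_lit 0) (nat_lit 90406767) (nat_lit 588) (nat_lit 519677573) (nat_lit 117) (nat_lit 1) (nat_lit 116) (nat_lit 1) (nat_lit 123) (nat_lit 1) (nat_lit 402) (nat_lit 343) (nat_lit 335)) (XT.lf (nat_lit 504) (nat_lit 574943266) (nat_lit 0) (nat_lit 187156428) (nat_lit 420) (nat_lit 28935540) (nat_lit 117) (nat_lit 1) (nat_lit 111) (nat_lit 1) (nat_lit 116) (nat_lit 1) (nat_lit 403) (nat_lit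 343) (nat_lit 334))) (XT.nd (nat_lit 94) (nat_lit 336) (nat_lit 0) (XT.lf (nat_lit 504) (nat_lit 414884536) (nat_lit 0) (nat_lit 87234417) (nat_lit 420) (nat_lit 262432450) (nat_lit 112) (nat_lit 1) (nat_lit 106) (nat_lit 1) (nat_lit 111) (nat_lit 1) (nat_lit 404) (nat_lit 343) (nat_lit 333)) (XT.nd (nat_lit 94) (nat_lit 0) (nat_lit 0) (XT.lf (nat_lit 420) (nat_lit 252451948) (nat_lit 0) (nat_lit 1606127) (nat_lit 336) (nat_lit 485293640) (nat_lit 107) (nat_lit 1) (nat_lit 102) (nat_lit 1) (nat_lit 106) (nat_lit 1) (nat_lit 405) (nat_lit 343) (nat_lit 332)) (XT.lf (nat_lit 84) (nat_lit 18624711) (nat_lit 0) (nat_lit 628115526) (nat_lit 420) (nat_lit 68571022) (nat_lit 103) (nat_lit 1) (nat_lit 102) (nat_lit 1) (nat_lit 107) (nat_lit 1) (nat_lit 406) (nat_lit 343) (nat_lit 331)))))) (XT.nd (nat_lit 470) (nat_lit 1260) (nat_lit 0) (XT.nd (nat_lit 188) (nat_lit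 1008) (nat_lit 0) (XT.nd (nat_lit 94) (nat_lit 336) (nat_lit 0) (XT.lf (nat_lit 84) (nat_lit 480894886) (nat_lit 0) (nat_lit 79761562) (nat_lit 420) (nat_lit 131541302) (nat_lit 98) (nat_lit 1) (nat_lit 97) (nat_lit 1) (nat_lit 102) (nat_lit 1) (nat_lit 407) (nat_lit 343) (nat_lit 330)) (XT.lf (nat_lit 84) (nat_lit 240603898) (nat_lit 0) (nat_lit 244323825) (nat_lit 420) (nat_lit 185177792) (nat_lit 94) (nat_lit 1) (nat_lit 93) (nat_lit 1) (nat_lit 98) (nat_lit 1) (nat_lit 408) (nat_lit 343) (nat_lit 329))) (XT.nd (nat_lit 94) (nat_lit 672) (nat_lit 0) (XT.lf (nat_lit 84) (nat_lit 11875674) (nat_lit 0) (nat_lit 408505641) (nat_lit 420) (nat_lit 228677957) (nat_lit 90) (nat_lit 1) (nat_lit 89) (nat_lit 1) (nat_lit 94) (nat_lit 1) (nat_lit 409) (nat_lit 343) (nat_lit 328)) (XT.nd (nat_lit 94) (nat_lit 420) (nat_lit 0) (XT.lf (nat_lit 336) (nat_lit 53629878)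 (nat_lit 0) (nat_lit 362673196) (nat_lit 252) (nat_lit 212534828) (nat_lit 90) (nat_lit 1) (nat_lit 86) (nat_lit 1) (nat_lit 89) (nat_lit 1) (nat_lit 410) (nat_lit 343) (nat_lit 327)) (XT.lf (nat_lit 84) (nat_lit 185305648) (nat_lit 0) (nat_lit 127009643) (nat_lit 420) (nat_lit 297136623) (nat_lit 82) (nat_lit 1) (nat_lit 81) (nat_lit 1) (nat_lit 86) (nat_lit 1) (nat_lit 411) (nat_lit 343) (nat_lit 326))))) (XT.nd (nat_lit 188) (nat_lit 756) (nat_lit 0) (XT.nd (nat_lit 94) (nat_lit 252) (nat_lit 0) (XT.lf (nat_lit 336) (nat_lit 286897716) (nat_lit 0) (nat_lit 269503323) (nat_lit 252) (nat_lit 34496105) (nat_lit 82) (nat_lit 1) (nat_lit 78) (nat_lit 1) (nat_lit 81) (nat_lit 1) (nat_lit 412) (nat_lit 343) (nat_lit 325)) (XT.lf (nat_lit 336) (nat_lit 91949332) (nat_lit 0) (nat_lit 232031325) (nat_lit 252) (nat_lit 249074783) (nat_lit 79) (nat_lit 1) (nat_lit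 75) (nat_lit 1) (nat_lit 78) (nat_lit 1) (nat_lit 413) (nat_lit 343) (nat_lit 324))) (XT.nd (nat_lit 94) (nat_lit 420) (nat_lit 0) (XT.lf (nat_lit 84) (nat_lit 104800020) (nat_lit 0) (nat_lit 95953526) (nat_lit 336) (nat_lit 355201189) (nat_lit 72) (nat_lit 1) (nat_lit 71) (nat_lit 1) (nat_lit 75) (nat_lit 1) (nat_lit 414) (nat_lit 343) (nat_lit 323)) (XT.nd (nat_lit 94) (nat_lit 168) (nat_lit 0) (XT.lf (nat_lit 336) (nat_lit 260781096) (nat_lit 0) (nat_lit 173514077) (nat_lit 252) (nat_lit 105184804) (nat_lit 72) (nat_lit 1) (nat_lit 68) (nat_lit 1) (nat_lit 71) (nat_lit 1) (nat_lit 415) (nat_lit 343) (nat_lit 322)) (XT.lf (nat_lit 252) (nat_lit 64648018) (nat_lit 0) (nat_lit 151378376) (nat_lit 168) (nat_lit 307643463) (nat_lit 69) (nat_lit 1) (nat_lit 66) (nat_lit 1) (nat_lit 68) (nat_lit 1) (nat_lit 416) (nat_lit 343) (nat_lit 321))))))) (XT.nd (nat_lit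 65612) (nat_lit 0) (nat_lit 4536) (XT.nd (nat_lit 376) (nat_lit 588) (nat_lit 0) (XT.nd (nat_lit 188) (nat_lit 420) (nat_lit 0) (XT.nd (nat_lit 94) (nat_lit 168) (nat_lit 0) (XT.lf (nat_lit 84) (nat_lit 10951787) (nat_lit 0) (nat_lit 122552878) (nat_lit 336) (nat_lit 374967914) (nat_lit 63) (nat_lit 1) (nat_lit 62) (nat_lit 1) (nat_lit 66) (nat_lit 1) (nat_lit 417) (nat_lit 343) (nat_lit 320)) (XT.lf (nat_lit 252) (nat_lit 187855280) (nat_lit 0) (nat_lit 117393434) (nat_lit 168) (nat_lit 188509019) (nat_lit 63) (nat_lit 1) (nat_lit 60) (nat_lit 1) (nat_lit 62) (nat_lit 1) (nat_lit 418) (nat_lit 343) (nat_lit 319))) (XT.nd (nat_lit 94) (nat_lit 168) (nat_lit 0) (XT.lf (nat_lit 84) (nat_lit 101922424) (nat_lit 0) (nat_lit 4707860) (nat_lit 252) (nat_lit 373054707) (nat_lit 58) (nat_lit 1) (nat_lit 57) (nat_lit 1) (nat_lit 60) (nat_lit 1) (nat_lit 419) (nat_lit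 343) (nat_lit 318)) (XT.lf (nat_lit 252) (nat_lit 278636227) (nat_lit 0) (nat_lit 96553700) (nat_lit 168) (nat_lit 90831689) (nat_lit 58) (nat_lit 1) (nat_lit 55) (nat_lit 1) (nat_lit 57) (nat_lit 1) (nat_lit 420) (nat_lit 343) (nat_lit 317)))) (XT.nd (nat_lit 188) (nat_lit 168) (nat_lit 0) (XT.nd (nat_lit 94) (nat_lit 252) (nat_lit 0) (XT.lf (nat_lit 252) (nat_lit 86555578) (nat_lit 0) (nat_lit 89757341) (nat_lit 168) (nat_lit 276567733) (nat_lit 56) (nat_lit 1) (nat_lit 53) (nat_lit 1) (nat_lit 55) (nat_lit 1) (nat_lit 421) (nat_lit 343) (nat_lit 316)) (XT.lf (nat_lit 252) (nat_lit 343593834) (nat_lit 0) (nat_lit 85755854) (nat_lit 168) (nat_lit 10879125) (nat_lit 53) (nat_lit 1) (nat_lit 50) (nat_lit 1) (nat_lit 52) (nat_lit 1) (nat_lit 422) (nat_lit 343) (nat_lit 315))) (XT.nd (nat_lit 64860) (nat_lit 0) (nat_lit 6720) (XT.lf (nat_lit 252) (nat_lit 153776676)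 (nat_lit 0) (nat_lit 81867929) (nat_lit 168) (nat_lit 192283925) (nat_lit 51) (nat_lit 1) (nat_lit 48) (nat_lit 1) (nat_lit 50) (nat_lit 1) (nat_lit 423) (nat_lit 343) (nat_lit 314)) (XT.nd (nat_lit 94) (nat_lit 0) (nat_lit 84) (XT.lf (nat_lit 924) (nat_lit 156844607) (nat_lit 0) (nat_lit 278477239) (nat_lit 924) (nat_lit 156844607) (nat_lit 139) (nat_lit 1) (nat_lit 128) (nat_lit 0) (nat_lit 139) (nat_lit 0) (nat_lit 392) (nat_lit 344) (nat_lit 344)) (XT.lf (nat_lit 924) (nat_lit 58507851) (nat_lit 0) (nat_lit 546735221) (nat_lit 840) (nat_lit 534705219) (nat_lit 140) (nat_lit 1) (nat_lit 129) (nat_lit 1) (nat_lit 139) (nat_lit 1) (nat_lit 393) (nat_lit 344) (nat_lit 343)))))) (XT.nd (nat_lit 470) (nat_lit 2268) (nat_lit 0) (XT.nd (nat_lit 188) (nat_lit 0) (nat_lit 168) (XT.nd (nat_lit 94) (nat_lit 0) (nat_lit 84) (XT.lf (nat_lit 924) (nat_lit 537360841)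 (nat_lit 84) (nat_lit 366148762) (nat_lit 0) (nat_lit 194188601) (nat_lit 140) (nat_lit 1) (nat_lit 130) (nat_lit 1) (nat_lit 129) (nat_lit 1) (nat_lit 394) (nat_lit 344) (nat_lit 342)) (XT.lf (nat_lit 924) (nat_lit 464323788) (nat_lit 84) (nat_lit 153450408) (nat_lit 0) (nat_lit 439788222) (nat_lit 141) (nat_lit 1) (nat_lit 131) (nat_lit 1) (nat_lit 130) (nat_lit 1) (nat_lit 395) (nat_lit 344) (nat_lit 341))) (XT.nd (nat_lit 94) (nat_lit 0) (nat_lit 84) (XT.lf (nat_lit 924) (nat_lit 343639078) (nat_lit 0) (nat_lit 642932473) (nat_lit 840) (nat_lit 32866616) (nat_lit 142) (nat_lit 1) (nat_lit 131) (nat_lit 1) (nat_lit 141) (nat_lit 1) (nat_lit 396) (nat_lit 344) (nat_lit 340)) (XT.nd (nat_lit 94) (nat_lit 0) (nat_lit 0) (XT.lf (nat_lit 924) (nat_lit 82452827) (nat_lit 0) (nat_lit 709011665) (nat_lit 840) (nat_lit 191670124) (nat_lit 143) (nat_lit 1) (nat_lit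 132) (nat_lit 1) (nat_lit 142) (nat_lit 1) (nat_lit 397) (nat_lit 344) (nat_lit 339)) (XT.lf (nat_lit 924) (nat_lit 158440798) (nat_lit 84) (nat_lit 616188874) (nat_lit 0) (nat_lit 173896102) (nat_lit 143) (nat_lit 1) (nat_lit 133) (nat_lit 1) (nat_lit 132) (nat_lit 1) (nat_lit 398) (nat_lit 344) (nat_lit 338))))) (XT.nd (nat_lit 188) (nat_lit 1176) (nat_lit 0) (XT.nd (nat_lit 94) (nat_lit 588) (nat_lit 0) (XT.lf (nat_lit 924) (nat_lit 32540127) (nat_lit 0) (nat_lit 460641943) (nat_lit 840) (nat_lit 422403835) (nat_lit 134) (nat_lit 1) (nat_lit 123) (nat_lit 1) (nat_lit 133) (nat_lit 1) (nat_lit 399) (nat_lit 344) (nat_lit 337)) (XT.lf (nat_lit 84) (nat_lit 225314618) (nat_lit 0) (nat_lit 97639309) (nat_lit 588) (nat_lit 561251778) (nat_lit 117) (nat_lit 1) (nat_lit 116) (nat_lit 1) (nat_lit 123) (nat_lit 1) (nat_lit 400) (nat_lit 344) (nat_lit 336))) (XT.nd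 (nat_lit 94) (nat_lit 756) (nat_lit 0) (XT.lf (nat_lit 504) (nat_lit 620938728) (nat_lit 0) (nat_lit 202128942) (nat_lit 420) (nat_lit 31250383) (nat_lit 117) (nat_lit 1) (nat_lit 111) (nat_lit 1) (nat_lit 116) (nat_lit 1) (nat_lit 401) (nat_lit 344) (nat_lit 335)) (XT.nd (nat_lit 94) (nat_lit 336) (nat_lit 0) (XT.lf (nat_lit 504) (nat_lit 448075299) (nat_lit 0) (nat_lit 94213170) (nat_lit 420) (nat_lit 283427046) (nat_lit 112) (nat_lit 1) (nat_lit 106) (nat_lit 1) (nat_lit 111) (nat_lit 1) (nat_lit 402) (nat_lit 344) (nat_lit 334)) (XT.lf (nat_lit 420) (nat_lit 272648104) (nat_lit 0) (nat_lit 1734617) (nat_lit 336) (nat_lit 524117132) (nat_lit 107) (nat_lit 1) (nat_lit 102) (nat_lit 1) (nat_lit 106) (nat_lit 1) (nat_lit 403) (nat_lit 344) (nat_lit 333))))))))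
noncomputable def ec6 : XT := (XT.nd (nat_lit 1692) (nat_lit 336) (nat_lit 0) (XT.nd (nat_lit 846) (nat_lit 1932) (nat_lit 0) (XT.nd (nat_lit 376) (nat_lit 1512) (nat_lit 0) (XT.nd (nat_lit 188) (nat_lit 672) (nat_lit 0) (XT.nd (nat_lit 94) (nat_lit 420) (nat_lit 0) (XT.lf (nat_lit 84) (nat_lit 20114688) (nat_lit 0) (nat_lit 678364768) (nat_lit 420) (nat_lit 74056704) (nat_lit 103) (nat_lit 1) (nat_lit 102) (nat_lit 1) (nat_lit 107) (nat_lit 1) (nat_lit 404) (nat_lit 344) (nat_lit 332)) (XT.lf (nat_lit 84) (nat_lit 519366477) (nat_lit 0) (nat_lit 86142487) (nat_lit 420) (nat_lit 142064606) (nat_lit 98) (nat_lit 1) (nat_lit 97) (nat_lit 1) (nat_lit 102) (nat_lit 1) (nat_lit 405) (nat_lit 344) (nat_lit 331))) (XT.nd (nat_lit 94) (nat_lit 336) (nat_lit 0) (XT.lf (nat_lit 84) (nat_lit 259852209) (nat_lit 0) (nat_lit 263869731) (nat_lit 420) (nat_lit 199992016)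 (nat_lit 94) (nat_lit 1) (nat_lit 93) (nat_lit 1) (nat_lit 98) (nat_lit 1) (nat_lit 406) (nat_lit 344) (nat_lit 330)) (XT.lf (nat_lit 84) (nat_lit 12825728) (nat_lit 0) (nat_lit 441186092) (nat_lit 420) (nat_lit 246972194) (nat_lit 90) (nat_lit 1) (nat_lit 89) (nat_lit 1) (nat_lit 94) (nat_lit 1) (nat_lit 407) (nat_lit 344) (nat_lit 329)))) (XT.nd (nat_lit 188) (nat_lit 840) (nat_lit 0) (XT.nd (nat_lit 94) (nat_lit 420) (nat_lit 0) (XT.lf (nat_lit 336) (nat_lit 57920268) (nat_lit 0) (nat_lit 391687052) (nat_lit 252) (nat_lit 229537614) (nat_lit 90) (nat_lit 1) (nat_lit 86) (nat_lit 1) (nat_lit 89) (nat_lit 1) (nat_lit 408) (nat_lit 344) (nat_lit 328)) (XT.lf (nat_lit 84) (nat_lit 200130100) (nat_lit 0) (nat_lit 137170414) (nat_lit 420) (nat_lit 320907553) (nat_lit 82) (nat_lit 1) (nat_lit 81) (nat_lit 1) (nat_lit 86) (nat_lit 1) (nat_lit 409) (nat_lit 344)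 (nat_lit 327))) (XT.nd (nat_lit 94) (nat_lit 588) (nat_lit 0) (XT.lf (nat_lit 336) (nat_lit 309849533) (nat_lit 0) (nat_lit 291063589) (nat_lit 252) (nat_lit 37255794) (nat_lit 82) (nat_lit 1) (nat_lit 78) (nat_lit 1) (nat_lit 81) (nat_lit 1) (nat_lit 410) (nat_lit 344) (nat_lit 326)) (XT.nd (nat_lit 94) (nat_lit 336) (nat_lit 0) (XT.lf (nat_lit 336) (nat_lit 99305278) (nat_lit 0) (nat_lit 250593831) (nat_lit 252) (nat_lit 269000766) (nat_lit 79) (nat_lit 1) (nat_lit 75) (nat_lit 1) (nat_lit 78) (nat_lit 1) (nat_lit 411) (nat_lit 344) (nat_lit 325)) (XT.lf (nat_lit 84) (nat_lit 113184022) (nat_lit 0) (nat_lit 103629808) (nat_lit 336) (nat_lit 383617284) (nat_lit 72) (nat_lit 1) (nat_lit 71) (nat_lit 1) (nat_lit 75) (nat_lit 1) (nat_lit 412) (nat_lit 344) (nat_lit 324)))))) (XT.nd (nat_lit 376) (nat_lit 1008) (nat_lit 0) (XT.nd (nat_lit 188) (nat_lit 504) (nat_lit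 0) (XT.nd (nat_lit 94) (nat_lit 168) (nat_lit 0) (XT.lf (nat_lit 336) (nat_lit 281643584) (nat_lit 0) (nat_lit 187395203) (nat_lit 252) (nat_lit 113599588) (nat_lit 72) (nat_lit 1) (nat_lit 68) (nat_lit 1) (nat_lit 71) (nat_lit 1) (nat_lit 413) (nat_lit 344) (nat_lit 323)) (XT.lf (nat_lit 252) (nat_lit 69819860) (nat_lit 0) (nat_lit 163488646) (nat_lit 168) (nat_lit 332254940) (nat_lit 69) (nat_lit 1) (nat_lit 66) (nat_lit 1) (nat_lit 68) (nat_lit 1) (nat_lit 414) (nat_lit 344) (nat_lit 322))) (XT.nd (nat_lit 94) (nat_lit 168) (nat_lit 0) (XT.lf (nat_lit 84) (nat_lit 11827930) (nat_lit 0) (nat_lit 132357109) (nat_lit 336) (nat_lit 404965347) (nat_lit 63) (nat_lit 1) (nat_lit 62) (nat_lit 1) (nat_lit 66) (nat_lit 1) (nat_lit 415) (nat_lit 344) (nat_lit 321)) (XT.lf (nat_lit 252) (nat_lit 202883703) (nat_lit 0) (nat_lit 126784909) (nat_lit 168) (nat_lit 203589740)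 (nat_lit 63) (nat_lit 1) (nat_lit 60) (nat_lit 1) (nat_lit 62) (nat_lit 1) (nat_lit 416) (nat_lit 344) (nat_lit 320)))) (XT.nd (nat_lit 188) (nat_lit 588) (nat_lit 0) (XT.nd (nat_lit 94) (nat_lit 168) (nat_lit 0) (XT.lf (nat_lit 84) (nat_lit 110076218) (nat_lit 0) (nat_lit 5084489) (nat_lit 252) (nat_lit 402899084) (nat_lit 58) (nat_lit 1) (nat_lit 57) (nat_lit 1) (nat_lit 60) (nat_lit 1) (nat_lit 417) (nat_lit 344) (nat_lit 319)) (XT.lf (nat_lit 252) (nat_lit 300927125) (nat_lit 0) (nat_lit 104277996) (nat_lit 168) (nat_lit 98098224) (nat_lit 58) (nat_lit 1) (nat_lit 55) (nat_lit 1) (nat_lit 57) (nat_lit 1) (nat_lit 418) (nat_lit 344) (nat_lit 318))) (XT.nd (nat_lit 94) (nat_lit 420) (nat_lit 0) (XT.lf (nat_lit 252) (nat_lit 93480024) (nat_lit 0) (nat_lit 96937928) (nat_lit 168) (nat_lit 298693152) (nat_lit 56) (nat_lit 1) (nat_lit 53) (nat_lit 1) (nat_lit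 55) (nat_lit 1) (nat_lit 419) (nat_lit 344) (nat_lit 317)) (XT.nd (nat_lit 94) (nat_lit 168) (nat_lit 0) (XT.lf (nat_lit 252) (nat_lit 371081341) (nat_lit 0) (nat_lit 92616323) (nat_lit 168) (nat_lit 11749455) (nat_lit 53) (nat_lit 1) (nat_lit 50) (nat_lit 1) (nat_lit 52) (nat_lit 1) (nat_lit 420) (nat_lit 344) (nat_lit 316)) (XT.lf (nat_lit 252) (nat_lit 166078810) (nat_lit 0) (nat_lit 88417363) (nat_lit 168) (nat_lit 207666639) (nat_lit 51) (nat_lit 1) (nat_lit 48) (nat_lit 1) (nat_lit 50) (nat_lit 1) (nat_lit 421) (nat_lit 344) (nat_lit 315))))))) (XT.nd (nat_lit 65424) (nat_lit 0) (nat_lit 3528) (XT.nd (nat_lit 64954) (nat_lit 0) (nat_lit 7140) (XT.nd (nat_lit 64766) (nat_lit 0) (nat_lit 7056) (XT.nd (nat_lit 94) (nat_lit 168) (nat_lit 0) (XT.lf (nat_lit 84) (nat_lit 56888404) (nat_lit 0) (nat_lit 31268430) (nat_lit 168) (nat_lit 361272670) (nat_lit 47)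 (nat_lit 1) (nat_lit 46) (nat_lit 1) (nat_lit 48) (nat_lit 1) (nat_lit 422) (nat_lit 344) (nat_lit 314)) (XT.lf (nat_lit 252) (nat_lit 217904950) (nat_lit 0) (nat_lit 87223352) (nat_lit 168) (nat_lit 131889207) (nat_lit 47) (nat_lit 1) (nat_lit 44) (nat_lit 1) (nat_lit 46) (nat_lit 1) (nat_lit 423) (nat_lit 344) (nat_lit 313))) (XT.nd (nat_lit 94) (nat_lit 0) (nat_lit 84) (XT.lf (nat_lit 924) (nat_lit 169392175) (nat_lit 0) (nat_lit 300755418) (nat_lit 924) (nat_lit 169392175) (nat_lit 139) (nat_lit 1) (nat_lit 128) (nat_lit 0) (nat_lit 139) (nat_lit 0) (nat_lit 390) (nat_lit 345) (nat_lit 345)) (XT.lf (nat_lit 924) (nat_lit 63188479) (nat_lit 0) (nat_lit 590474039) (nat_lit 840) (nat_lit 577481637) (nat_lit 140) (nat_lit 1) (nat_lit 129) (nat_lit 1) (nat_lit 139) (nat_lit 1) (nat_lit 391) (nat_lit 345) (nat_lit 344)))) (XT.nd (nat_lit 188) (nat_lit 0) (nat_lit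 168) (XT.nd (nat_lit 94) (nat_lit 0) (nat_lit 84) (XT.lf (nat_lit 924) (nat_lit 580349709) (nat_lit 84) (nat_lit 395440663) (nat_lit 0) (nat_lit 209723689) (nat_lit 140) (nat_lit 1) (nat_lit 130) (nat_lit 1) (nat_lit 129) (nat_lit 1) (nat_lit 392) (nat_lit 345) (nat_lit 343)) (XT.lf (nat_lit 924) (nat_lit 501469691) (nat_lit 84) (nat_lit 165726440) (nat_lit 0) (nat_lit 474971279) (nat_lit 141) (nat_lit 1) (nat_lit 131) (nat_lit 1) (nat_lit 130) (nat_lit 1) (nat_lit 393) (nat_lit 345) (nat_lit 342))) (XT.nd (nat_lit 94) (nat_lit 0) (nat_lit 84) (XT.lf (nat_lit 924) (nat_lit 371130205) (nat_lit 0) (nat_lit 694367071) (nat_lit 840) (nat_lit 35495945) (nat_lit 142) (nat_lit 1) (nat_lit 131) (nat_lit 1) (nat_lit 141) (nat_lit 1) (nat_lit 394) (nat_lit 345) (nat_lit 341)) (XT.nd (nat_lit 94) (nat_lit 0) (nat_lit 0) (XT.lf (nat_lit 924) (nat_lit 89049053) (nat_lit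 0) (nat_lit 765732598) (nat_lit 840) (nat_lit 207003734) (nat_lit 143) (nat_lit 1) (nat_lit 132) (nat_lit 1) (nat_lit 142) (nat_lit 1) (nat_lit 395) (nat_lit 345) (nat_lit 340)) (XT.lf (nat_lit 924) (nat_lit 171116062) (nat_lit 84) (nat_lit 665483984) (nat_lit 0) (nat_lit 187807790) (nat_lit 143) (nat_lit 1) (nat_lit 133) (nat_lit 1) (nat_lit 132) (nat_lit 1) (nat_lit 396) (nat_lit 345) (nat_lit 339)))))) (XT.nd (nat_lit 470) (nat_lit 1344) (nat_lit 0) (XT.nd (nat_lit 188) (nat_lit 1176) (nat_lit 0) (XT.nd (nat_lit 94) (nat_lit 588) (nat_lit 0) (XT.lf (nat_lit 924) (nat_lit 35143337) (nat_lit 0) (nat_lit 497493298) (nat_lit 840) (nat_lit 456196142) (nat_lit 134) (nat_lit 1) (nat_lit 123) (nat_lit 1) (nat_lit 133) (nat_lit 1) (nat_lit 397) (nat_lit 345) (nat_lit 338)) (XT.lf (nat_lit 84) (nat_lit 243339787) (nat_lit 0) (nat_lit 105450454) (nat_lit 588) (nat_lit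 606151921) (nat_lit 117) (nat_lit 1) (nat_lit 116) (nat_lit 1) (nat_lit 123) (nat_lit 1) (nat_lit 398) (nat_lit 345) (nat_lit 337))) (XT.nd (nat_lit 94) (nat_lit 756) (nat_lit 0) (XT.lf (nat_lit 504) (nat_lit 670613826) (nat_lit 0) (nat_lit 218299257) (nat_lit 420) (nat_lit 33750414) (nat_lit 117) (nat_lit 1) (nat_lit 111) (nat_lit 1) (nat_lit 116) (nat_lit 1) (nat_lit 399) (nat_lit 345) (nat_lit 336)) (XT.nd (nat_lit 94) (nat_lit 336) (nat_lit 0) (XT.lf (nat_lit 504) (nat_lit 483921323) (nat_lit 0) (nat_lit 101750224) (nat_lit 420) (nat_lit 306101210) (nat_lit 112) (nat_lit 1) (nat_lit 106) (nat_lit 1) (nat_lit 111) (nat_lit 1) (nat_lit 400) (nat_lit 345) (nat_lit 335)) (XT.lf (nat_lit 420) (nat_lit 294459953) (nat_lit 0) (nat_lit 1873386) (nat_lit 336) (nat_lit 566046502) (nat_lit 107) (nat_lit 1) (nat_lit 102) (nat_lit 1) (nat_lit 106) (nat_lit 1) (nat_lit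 401) (nat_lit 345) (nat_lit 334))))) (XT.nd (nat_lit 188) (nat_lit 924) (nat_lit 0) (XT.nd (nat_lit 94) (nat_lit 420) (nat_lit 0) (XT.lf (nat_lit 84) (nat_lit 21723863) (nat_lit 0) (nat_lit 732633949) (nat_lit 420) (nat_lit 79981240) (nat_lit 103) (nat_lit 1) (nat_lit 102) (nat_lit 1) (nat_lit 107) (nat_lit 1) (nat_lit 402) (nat_lit 345) (nat_lit 333)) (XT.lf (nat_lit 84) (nat_lit 560915796) (nat_lit 0) (nat_lit 93033886) (nat_lit 420) (nat_lit 153429775) (nat_lit 98) (nat_lit 1) (nat_lit 97) (nat_lit 1) (nat_lit 102) (nat_lit 1) (nat_lit 403) (nat_lit 345) (nat_lit 332))) (XT.nd (nat_lit 94) (nat_lit 588) (nat_lit 0) (XT.lf (nat_lit 84) (nat_lit 280640386) (nat_lit 0) (nat_lit 284979309) (nat_lit 420) (nat_lit 215991377) (nat_lit 94) (nat_lit 1) (nat_lit 93) (nat_lit 1) (nat_lit 98) (nat_lit 1) (nat_lit 404) (nat_lit 345) (nat_lit 331)) (XT.nd (nat_lit 94)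 (nat_lit 252) (nat_lit 0) (XT.lf (nat_lit 84) (nat_lit 13851787) (nat_lit 0) (nat_lit 476480980) (nat_lit 420) (nat_lit 266729969) (nat_lit 90) (nat_lit 1) (nat_lit 89) (nat_lit 1) (nat_lit 94) (nat_lit 1) (nat_lit 405) (nat_lit 345) (nat_lit 330)) (XT.lf (nat_lit 336) (nat_lit 62553890) (nat_lit 0) (nat_lit 423022016) (nat_lit 252) (nat_lit 247900624) (nat_lit 90) (nat_lit 1) (nat_lit 86) (nat_lit 1) (nat_lit 89) (nat_lit 1) (nat_lit 406) (nat_lit 345) (nat_lit 329))))))))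
noncomputable def ec7 : XT := (XT.nd (nat_lit 66082) (nat_lit 0) (nat_lit 3024) (XT.nd (nat_lit 846) (nat_lit 1512) (nat_lit 0) (XT.nd (nat_lit 376) (nat_lit 1176) (nat_lit 0) (XT.nd (nat_lit 188) (nat_lit 588) (nat_lit 0) (XT.nd (nat_lit 94) (nat_lit 252) (nat_lit 0) (XT.lf (nat_lit 84) (nat_lit 216140508) (nat_lit 0) (nat_lit 148144047) (nat_lit 420) (nat_lit 346580157) (nat_lit 82) (nat_lit 1) (nat_lit 81) (nat_lit 1) (nat_lit 86) (nat_lit 1) (nat_lit 407) (nat_lit 345) (nat_lit 328)) (XT.lf (nat_lit 336) (nat_lit 334637496) (nat_lit 0) (nat_lit 314348676) (nat_lit 252) (nat_lit 40236257) (nat_lit 82) (nat_lit 1) (nat_lit 78) (nat_lit 1) (nat_lit 81) (nat_lit 1) (nat_lit 408) (nat_lit 345) (nat_lit 327))) (XT.nd (nat_lit 94) (nat_lit 336) (nat_lit 0) (XT.lf (nat_lit 336) (nat_lit 107249700) (nat_lit 0) (nat_lit 270641338) (nat_lit 252) (nat_lit 290520827)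 (nat_lit 79) (nat_lit 1) (nat_lit 75) (nat_lit 1) (nat_lit 78) (nat_lit 1) (nat_lit 409) (nat_lit 345) (nat_lit 326)) (XT.lf (nat_lit 84) (nat_lit 122238744) (nat_lit 0) (nat_lit 111920192) (nat_lit 336) (nat_lit 414306667) (nat_lit 72) (nat_lit 1) (nat_lit 71) (nat_lit 1) (nat_lit 75) (nat_lit 1) (nat_lit 410) (nat_lit 345) (nat_lit 325)))) (XT.nd (nat_lit 188) (nat_lit 756) (nat_lit 0) (XT.nd (nat_lit 94) (nat_lit 168) (nat_lit 0) (XT.lf (nat_lit 336) (nat_lit 304175070) (nat_lit 0) (nat_lit 202386820) (nat_lit 252) (nat_lit 122687555) (nat_lit 72) (nat_lit 1) (nat_lit 68) (nat_lit 1) (nat_lit 71) (nat_lit 1) (nat_lit 411) (nat_lit 345) (nat_lit 324)) (XT.lf (nat_lit 252) (nat_lit 75405449) (nat_lit 0) (nat_lit 176567738) (nat_lit 168) (nat_lit 358835335) (nat_lit 69) (nat_lit 1) (nat_lit 66) (nat_lit 1) (nat_lit 68) (nat_lit 1) (nat_lit 412) (nat_lit 345)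 (nat_lit 323))) (XT.nd (nat_lit 94) (nat_lit 420) (nat_lit 0) (XT.lf (nat_lit 84) (nat_lit 12774164) (nat_lit 0) (nat_lit 142945677) (nat_lit 336) (nat_lit 437362575) (nat_lit 63) (nat_lit 1) (nat_lit 62) (nat_lit 1) (nat_lit 66) (nat_lit 1) (nat_lit 413) (nat_lit 345) (nat_lit 322)) (XT.nd (nat_lit 94) (nat_lit 252) (nat_lit 0) (XT.lf (nat_lit 252) (nat_lit 219114399) (nat_lit 0) (nat_lit 136927701) (nat_lit 168) (nat_lit 219876919) (nat_lit 63) (nat_lit 1) (nat_lit 60) (nat_lit 1) (nat_lit 62) (nat_lit 1) (nat_lit 414) (nat_lit 345) (nat_lit 321)) (XT.lf (nat_lit 84) (nat_lit 118882316) (nat_lit 0) (nat_lit 5491248) (nat_lit 252) (nat_lit 435131010) (nat_lit 58) (nat_lit 1) (nat_lit 57) (nat_lit 1) (nat_lit 60) (nat_lit 1) (nat_lit 415) (nat_lit 345) (nat_lit 320)))))) (XT.nd (nat_lit 470) (nat_lit 588) (nat_lit 0) (XT.nd (nat_lit 188) (nat_lit 588) (nat_lit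 0) (XT.nd (nat_lit 94) (nat_lit 168) (nat_lit 0) (XT.lf (nat_lit 252) (nat_lit 325001296) (nat_lit 0) (nat_lit 112620236) (nat_lit 168) (nat_lit 105946082) (nat_lit 58) (nat_lit 1) (nat_lit 55) (nat_lit 1) (nat_lit 57) (nat_lit 1) (nat_lit 416) (nat_lit 345) (nat_lit 319)) (XT.lf (nat_lit 252) (nat_lit 100958426) (nat_lit 0) (nat_lit 104692963) (nat_lit 168) (nat_lit 322588604) (nat_lit 56) (nat_lit 1) (nat_lit 53) (nat_lit 1) (nat_lit 55) (nat_lit 1) (nat_lit 417) (nat_lit 345) (nat_lit 318))) (XT.nd (nat_lit 94) (nat_lit 336) (nat_lit 0) (XT.lf (nat_lit 252) (nat_lit 400767849) (nat_lit 0) (nat_lit 100025629) (nat_lit 168) (nat_lit 12689411) (nat_lit 53) (nat_lit 1) (nat_lit 50) (nat_lit 1) (nat_lit 52) (nat_lit 1) (nat_lit 418) (nat_lit 345) (nat_lit 317)) (XT.nd (nat_lit 94) (nat_lit 168) (nat_lit 0) (XT.lf (nat_lit 252) (nat_lit 179365115) (nat_lit 0)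 (nat_lit 95490752) (nat_lit 168) (nat_lit 224279970) (nat_lit 51) (nat_lit 1) (nat_lit 48) (nat_lit 1) (nat_lit 50) (nat_lit 1) (nat_lit 419) (nat_lit 345) (nat_lit 316)) (XT.lf (nat_lit 84) (nat_lit 61439477) (nat_lit 0) (nat_lit 33769905) (nat_lit 168) (nat_lit 390174483) (nat_lit 47) (nat_lit 1) (nat_lit 46) (nat_lit 1) (nat_lit 48) (nat_lit 1) (nat_lit 420) (nat_lit 345) (nat_lit 315))))) (XT.nd (nat_lit 188) (nat_lit 336) (nat_lit 0) (XT.nd (nat_lit 94) (nat_lit 84) (nat_lit 0) (XT.lf (nat_lit 252) (nat_lit 235337346) (nat_lit 0) (nat_lit 94201220) (nat_lit 168) (nat_lit 142440344) (nat_lit 47) (nat_lit 1) (nat_lit 44) (nat_lit 1) (nat_lit 46) (nat_lit 1) (nat_lit 421) (nat_lit 345) (nat_lit 314)) (XT.lf (nat_lit 168) (nat_lit 25342488) (nat_lit 0) (nat_lit 96514924) (nat_lit 84) (nat_lit 337245754) (nat_lit 45) (nat_lit 1) (nat_lit 43) (nat_lit 1) (nat_lit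 44) (nat_lit 1) (nat_lit 422) (nat_lit 345) (nat_lit 313))) (XT.nd (nat_lit 94) (nat_lit 84) (nat_lit 0) (XT.lf (nat_lit 252) (nat_lit 273562802) (nat_lit 0) (nat_lit 98709012) (nat_lit 168) (nat_lit 74310631) (nat_lit 43) (nat_lit 1) (nat_lit 40) (nat_lit 1) (nat_lit 42) (nat_lit 1) (nat_lit 423) (nat_lit 345) (nat_lit 312)) (XT.nd (nat_lit 64390) (nat_lit 0) (nat_lit 7476) (XT.lf (nat_lit 168) (nat_lit 68803062) (nat_lit 0) (nat_lit 102399841) (nat_lit 84) (nat_lit 263280796) (nat_lit 41) (nat_lit 1) (nat_lit 39) (nat_lit 1) (nat_lit 40) (nat_lit 1) (nat_lit 424) (nat_lit 345) (nat_lit 311)) (XT.lf (nat_lit 924) (nat_lit 182943549) (nat_lit 0) (nat_lit 324815852) (nat_lit 924) (nat_lit 182943549) (nat_lit 139) (nat_lit 1) (nat_lit 128) (nat_lit 0) (nat_lit 139) (nat_lit 0) (nat_lit 388) (nat_lit 346) (nat_lit 346))))))) (XT.nd (nat_lit 846) (nat_lit 3024)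 (nat_lit 0) (XT.nd (nat_lit 376) (nat_lit 1512) (nat_lit 0) (XT.nd (nat_lit 188) (nat_lit 0) (nat_lit 84) (XT.nd (nat_lit 94) (nat_lit 0) (nat_lit 0) (XT.lf (nat_lit 924) (nat_lit 68243557) (nat_lit 0) (nat_lit 637711962) (nat_lit 840) (nat_lit 623680168) (nat_lit 140) (nat_lit 1) (nat_lit 129) (nat_lit 1) (nat_lit 139) (nat_lit 1) (nat_lit 389) (nat_lit 346) (nat_lit 345)) (XT.lf (nat_lit 924) (nat_lit 626777685) (nat_lit 84) (nat_lit 427075916) (nat_lit 0) (nat_lit 226501584) (nat_lit 140) (nat_lit 1) (nat_lit 130) (nat_lit 1) (nat_lit 129) (nat_lit 1) (nat_lit 390) (nat_lit 346) (nat_lit 344))) (XT.nd (nat_lit 94) (nat_lit 0) (nat_lit 84) (XT.lf (nat_lit 924) (nat_lit 541587266) (nat_lit 84) (nat_lit 178984556) (nat_lit 0) (nat_lit 512968982) (nat_lit 141) (nat_lit 1) (nat_lit 131) (nat_lit 1) (nat_lit 130) (nat_lit 1) (nat_lit 391) (nat_lit 346) (nat_lit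 343)) (XT.lf (nat_lit 924) (nat_lit 400820621) (nat_lit 0) (nat_lit 749916437) (nat_lit 840) (nat_lit 38335621) (nat_lit 142) (nat_lit 1) (nat_lit 131) (nat_lit 1) (nat_lit 141) (nat_lit 1) (nat_lit 392) (nat_lit 346) (nat_lit 342)))) (XT.nd (nat_lit 188) (nat_lit 1764) (nat_lit 0) (XT.nd (nat_lit 94) (nat_lit 0) (nat_lit 0) (XT.lf (nat_lit 924) (nat_lit 96172978) (nat_lit 0) (nat_lit 826991206) (nat_lit 840) (nat_lit 223564033) (nat_lit 143) (nat_lit 1) (nat_lit 132) (nat_lit 1) (nat_lit 142) (nat_lit 1) (nat_lit 393) (nat_lit 346) (nat_lit 341)) (XT.lf (nat_lit 924) (nat_lit 184805347) (nat_lit 84) (nat_lit 718722703) (nat_lit 0) (nat_lit 202832414) (nat_lit 143) (nat_lit 1) (nat_lit 133) (nat_lit 1) (nat_lit 132) (nat_lit 1) (nat_lit 394) (nat_lit 346) (nat_lit 340))) (XT.nd (nat_lit 94) (nat_lit 1008) (nat_lit 0) (XT.lf (nat_lit 924) (nat_lit 37954804)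 (nat_lit 0) (nat_lit 537292762) (nat_lit 840) (nat_lit 492691833) (nat_lit 134) (nat_lit 1) (nat_lit 123) (nat_lit 1) (nat_lit 133) (nat_lit 1) (nat_lit 395) (nat_lit 346) (nat_lit 339)) (XT.nd (nat_lit 94) (nat_lit 420) (nat_lit 0) (XT.lf (nat_lit 84) (nat_lit 262806970) (nat_lit 0) (nat_lit 113886490) (nat_lit 588) (nat_lit 654644074) (nat_lit 117) (nat_lit 1) (nat_lit 116) (nat_lit 1) (nat_lit 123) (nat_lit 1) (nat_lit 396) (nat_lit 346) (nat_lit 338)) (XT.lf (nat_lit 504) (nat_lit 724262932) (nat_lit 0) (nat_lit 235763198) (nat_lit 420) (nat_lit 36450447) (nat_lit 117) (nat_lit 1) (nat_lit 111) (nat_lit 1) (nat_lit 116) (nat_lit 1) (nat_lit 397) (nat_lit 346) (nat_lit 337)))))) (XT.nd (nat_lit 470) (nat_lit 1512) (nat_lit 0) (XT.nd (nat_lit 188) (nat_lit 756) (nat_lit 0) (XT.nd (nat_lit 94) (nat_lit 336) (nat_lit 0) (XT.lf (nat_lit 504) (nat_lit 522635028)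 (nat_lit 0) (nat_lit 109890242) (nat_lit 420) (nat_lit 330589307) (nat_lit 112) (nat_lit 1) (nat_lit 106) (nat_lit 1) (nat_lit 111) (nat_lit 1) (nat_lit 398) (nat_lit 346) (nat_lit 336)) (XT.lf (nat_lit 420) (nat_lit 318016749) (nat_lit 0) (nat_lit 2023257) (nat_lit 336) (nat_lit 611330223) (nat_lit 107) (nat_lit 1) (nat_lit 102) (nat_lit 1) (nat_lit 106) (nat_lit 1) (nat_lit 399) (nat_lit 346) (nat_lit 335))) (XT.nd (nat_lit 94) (nat_lit 756) (nat_lit 0) (XT.lf (nat_lit 84) (nat_lit 23461772) (nat_lit 0) (nat_lit 791244665) (nat_lit 420) (nat_lit 86379740) (nat_lit 103) (nat_lit 1) (nat_lit 102) (nat_lit 1) (nat_lit 107) (nat_lit 1) (nat_lit 400) (nat_lit 346) (nat_lit 334)) (XT.nd (nat_lit 94) (nat_lit 336) (nat_lit 0) (XT.lf (nat_lit 84) (nat_lit 605789059) (nat_lit 0) (nat_lit 100476597) (nat_lit 420) (nat_lit 165704157) (nat_lit 98) (nat_lit 1) (nat_lit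 97) (nat_lit 1) (nat_lit 102) (nat_lit 1) (nat_lit 401) (nat_lit 346) (nat_lit 333)) (XT.lf (nat_lit 84) (nat_lit 303091617) (nat_lit 0) (nat_lit 307777654) (nat_lit 420) (nat_lit 233270687) (nat_lit 94) (nat_lit 1) (nat_lit 93) (nat_lit 1) (nat_lit 98) (nat_lit 1) (nat_lit 402) (nat_lit 346) (nat_lit 332))))) (XT.nd (nat_lit 188) (nat_lit 924) (nat_lit 0) (XT.nd (nat_lit 94) (nat_lit 252) (nat_lit 0) (XT.lf (nat_lit 84) (nat_lit 14959930) (nat_lit 0) (nat_lit 514599458) (nat_lit 420) (nat_lit 288068367) (nat_lit 90) (nat_lit 1) (nat_lit 89) (nat_lit 1) (nat_lit 94) (nat_lit 1) (nat_lit 403) (nat_lit 346) (nat_lit 331)) (XT.lf (nat_lit 336) (nat_lit 67558201) (nat_lit 0) (nat_lit 456863778) (nat_lit 252) (nat_lit 267732673) (nat_lit 90) (nat_lit 1) (nat_lit 86) (nat_lit 1) (nat_lit 89) (nat_lit 1) (nat_lit 404) (nat_lit 346) (nat_lit 330))) (XT.nd (nat_lit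 94) (nat_lit 504) (nat_lit 0) (XT.lf (nat_lit 84) (nat_lit 233431749) (nat_lit 0) (nat_lit 159995571) (nat_lit 420) (nat_lit 374306569) (nat_lit 82) (nat_lit 1) (nat_lit 81) (nat_lit 1) (nat_lit 86) (nat_lit 1) (nat_lit 405) (nat_lit 346) (nat_lit 329)) (XT.nd (nat_lit 94) (nat_lit 252) (nat_lit 0) (XT.lf (nat_lit 336) (nat_lit 361408496) (nat_lit 0) (nat_lit 339496571) (nat_lit 252) (nat_lit 43455158) (nat_lit 82) (nat_lit 1) (nat_lit 78) (nat_lit 1) (nat_lit 81) (nat_lit 1) (nat_lit 406) (nat_lit 346) (nat_lit 328)) (XT.lf (nat_lit 336) (nat_lit 115829677) (nat_lit 0) (nat_lit 292292645) (nat_lit 252) (nat_lit 313762493) (nat_lit 79) (nat_lit 1) (nat_lit 75) (nat_lit 1) (nat_lit 78) (nat_lit 1) (nat_lit 407) (nat_lit 346) (nat_lit 327))))))))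
noncomputable def ec8 : XT := (XT.nd (nat_lit 65800) (nat_lit 0) (nat_lit 3360) (XT.nd (nat_lit 846) (nat_lit 1260) (nat_lit 0) (XT.nd (nat_lit 376) (nat_lit 1008) (nat_lit 0) (XT.nd (nat_lit 188) (nat_lit 504) (nat_lit 0) (XT.nd (nat_lit 94) (nat_lit 252) (nat_lit 0) (XT.lf (nat_lit 84) (nat_lit 132017843) (nat_lit 0) (nat_lit 120873808) (nat_lit 336) (nat_lit 447451200) (nat_lit 72) (nat_lit 1) (nat_lit 71) (nat_lit 1) (nat_lit 75) (nat_lit 1) (nat_lit 408) (nat_lit 346) (nat_lit 326)) (XT.lf (nat_lit 336) (nat_lit 328509076) (nat_lit 0) (nat_lit 218577765) (nat_lit 252) (nat_lit 132502560) (nat_lit 72) (nat_lit 1) (nat_lit 68) (nat_lit 1) (nat_lit 71) (nat_lit 1) (nat_lit 409) (nat_lit 346) (nat_lit 325))) (XT.nd (nat_lit 94) (nat_lit 336) (nat_lit 0) (XT.lf (nat_lit 252) (nat_lit 81437885) (nat_lit 0) (nat_lit 190693157) (nat_lit 168) (nat_lit 387542162)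 (nat_lit 69) (nat_lit 1) (nat_lit 66) (nat_lit 1) (nat_lit 68) (nat_lit 1) (nat_lit 410) (nat_lit 346) (nat_lit 324)) (XT.lf (nat_lit 84) (nat_lit 13796098) (nat_lit 0) (nat_lit 154381331) (nat_lit 336) (nat_lit 472351581) (nat_lit 63) (nat_lit 1) (nat_lit 62) (nat_lit 1) (nat_lit 66) (nat_lit 1) (nat_lit 411) (nat_lit 346) (nat_lit 323)))) (XT.nd (nat_lit 188) (nat_lit 588) (nat_lit 0) (XT.nd (nat_lit 94) (nat_lit 252) (nat_lit 0) (XT.lf (nat_lit 252) (nat_lit 236643551) (nat_lit 0) (nat_lit 147881918) (nat_lit 168) (nat_lit 237467073) (nat_lit 63) (nat_lit 1) (nat_lit 60) (nat_lit 1) (nat_lit 62) (nat_lit 1) (nat_lit 412) (nat_lit 346) (nat_lit 322)) (XT.lf (nat_lit 84) (nat_lit 128392901) (nat_lit 0) (nat_lit 5930548) (nat_lit 252) (nat_lit 469941491) (nat_lit 58) (nat_lit 1) (nat_lit 57) (nat_lit 1) (nat_lit 60) (nat_lit 1) (nat_lit 413) (nat_lit 346)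 (nat_lit 321))) (XT.nd (nat_lit 94) (nat_lit 420) (nat_lit 0) (XT.lf (nat_lit 252) (nat_lit 351001399) (nat_lit 0) (nat_lit 121629855) (nat_lit 168) (nat_lit 114421769) (nat_lit 58) (nat_lit 1) (nat_lit 55) (nat_lit 1) (nat_lit 57) (nat_lit 1) (nat_lit 414) (nat_lit 346) (nat_lit 320)) (XT.nd (nat_lit 94) (nat_lit 252) (nat_lit 0) (XT.lf (nat_lit 252) (nat_lit 109035100) (nat_lit 0) (nat_lit 113068400) (nat_lit 168) (nat_lit 348395692) (nat_lit 56) (nat_lit 1) (nat_lit 53) (nat_lit 1) (nat_lit 55) (nat_lit 1) (nat_lit 415) (nat_lit 346) (nat_lit 319)) (XT.lf (nat_lit 252) (nat_lit 432829276) (nat_lit 0) (nat_lit 108027679) (nat_lit 168) (nat_lit 13704564) (nat_lit 53) (nat_lit 1) (nat_lit 50) (nat_lit 1) (nat_lit 52) (nat_lit 1) (nat_lit 416) (nat_lit 346) (nat_lit 318)))))) (XT.nd (nat_lit 376) (nat_lit 672) (nat_lit 0) (XT.nd (nat_lit 188) (nat_lit 252)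 (nat_lit 0) (XT.nd (nat_lit 94) (nat_lit 168) (nat_lit 0) (XT.lf (nat_lit 252) (nat_lit 193714324) (nat_lit 0) (nat_lit 103130012) (nat_lit 168) (nat_lit 242222368) (nat_lit 51) (nat_lit 1) (nat_lit 48) (nat_lit 1) (nat_lit 50) (nat_lit 1) (nat_lit 417) (nat_lit 346) (nat_lit 317)) (XT.lf (nat_lit 84) (nat_lit 66354635) (nat_lit 0) (nat_lit 36471497) (nat_lit 168) (nat_lit 421388442) (nat_lit 47) (nat_lit 1) (nat_lit 46) (nat_lit 1) (nat_lit 48) (nat_lit 1) (nat_lit 418) (nat_lit 346) (nat_lit 316))) (XT.nd (nat_lit 94) (nat_lit 84) (nat_lit 0) (XT.lf (nat_lit 252) (nat_lit 254164334) (nat_lit 0) (nat_lit 101737318) (nat_lit 168) (nat_lit 153835571) (nat_lit 47) (nat_lit 1) (nat_lit 44) (nat_lit 1) (nat_lit 46) (nat_lit 1) (nat_lit 419) (nat_lit 346) (nat_lit 315)) (XT.lf (nat_lit 168) (nat_lit 27369887) (nat_lit 0) (nat_lit 104236118) (nat_lit 84) (nat_lit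 364225415) (nat_lit 45) (nat_lit 1) (nat_lit 43) (nat_lit 1) (nat_lit 44) (nat_lit 1) (nat_lit 420) (nat_lit 346) (nat_lit 314)))) (XT.nd (nat_lit 188) (nat_lit 336) (nat_lit 0) (XT.nd (nat_lit 94) (nat_lit 84) (nat_lit 0) (XT.lf (nat_lit 252) (nat_lit 295447827) (nat_lit 0) (nat_lit 106605733) (nat_lit 168) (nat_lit 80255482) (nat_lit 43) (nat_lit 1) (nat_lit 40) (nat_lit 1) (nat_lit 42) (nat_lit 1) (nat_lit 421) (nat_lit 346) (nat_lit 313)) (XT.lf (nat_lit 168) (nat_lit 74307307) (nat_lit 0) (nat_lit 110591829) (nat_lit 84) (nat_lit 284343260) (nat_lit 41) (nat_lit 1) (nat_lit 39) (nat_lit 1) (nat_lit 40) (nat_lit 1) (nat_lit 422) (nat_lit 346) (nat_lit 312))) (XT.nd (nat_lit 94) (nat_lit 84) (nat_lit 0) (XT.lf (nat_lit 252) (nat_lit 321658058) (nat_lit 0) (nat_lit 115925705) (nat_lit 168) (nat_lit 19024400) (nat_lit 39) (nat_lit 1) (nat_lit 36) (nat_lit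 1) (nat_lit 38) (nat_lit 1) (nat_lit 423) (nat_lit 346) (nat_lit 311)) (XT.nd (nat_lit 64202) (nat_lit 0) (nat_lit 7812) (XT.lf (nat_lit 168) (nat_lit 106938409) (nat_lit 0) (nat_lit 120853941) (nat_lit 84) (nat_lit 216520272) (nat_lit 37) (nat_lit 1) (nat_lit 35) (nat_lit 1) (nat_lit 36) (nat_lit 1) (nat_lit 424) (nat_lit 346) (nat_lit 310)) (XT.lf (nat_lit 924) (nat_lit 197579033) (nat_lit 0) (nat_lit 350801120) (nat_lit 924) (nat_lit 197579033) (nat_lit 139) (nat_lit 1) (nat_lit 128) (nat_lit 0) (nat_lit 139) (nat_lit 0) (nat_lit 386) (nat_lit 347) (nat_lit 347))))))) (XT.nd (nat_lit 846) (nat_lit 3024) (nat_lit 0) (XT.nd (nat_lit 376) (nat_lit 1512) (nat_lit 0) (XT.nd (nat_lit 188) (nat_lit 0) (nat_lit 84) (XT.nd (nat_lit 94) (nat_lit 0) (nat_lit 0) (XT.lf (nat_lit 924) (nat_lit 73703042) (nat_lit 0) (nat_lit 688728919) (nat_lit 840) (nat_lit 673574582)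 (nat_lit 140) (nat_lit 1) (nat_lit 129) (nat_lit 1) (nat_lit 139) (nat_lit 1) (nat_lit 387) (nat_lit 347) (nat_lit 346)) (XT.lf (nat_lit 924) (nat_lit 676919900) (nat_lit 84) (nat_lit 461241989) (nat_lit 0) (nat_lit 244621711) (nat_lit 140) (nat_lit 1) (nat_lit 130) (nat_lit 1) (nat_lit 129) (nat_lit 1) (nat_lit 388) (nat_lit 347) (nat_lit 345))) (XT.nd (nat_lit 94) (nat_lit 0) (nat_lit 84) (XT.lf (nat_lit 924) (nat_lit 584914248) (nat_lit 84) (nat_lit 193303320) (nat_lit 0) (nat_lit 554006500) (nat_lit 141) (nat_lit 1) (nat_lit 131) (nat_lit 1) (nat_lit 130) (nat_lit 1) (nat_lit 389) (nat_lit 347) (nat_lit 344)) (XT.lf (nat_lit 924) (nat_lit 432886271) (nat_lit 0) (nat_lit 809909752) (nat_lit 840) (nat_lit 41402470) (nat_lit 142) (nat_lit 1) (nat_lit 131) (nat_lit 1) (nat_lit 141) (nat_lit 1) (nat_lit 390) (nat_lit 347) (nat_lit 343)))) (XT.nd (nat_lit 188)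 (nat_lit 1764) (nat_lit 0) (XT.nd (nat_lit 94) (nat_lit 0) (nat_lit 0) (XT.lf (nat_lit 924) (nat_lit 103866816) (nat_lit 0) (nat_lit 893150503) (nat_lit 840) (nat_lit 241449156) (nat_lit 143) (nat_lit 1) (nat_lit 132) (nat_lit 1) (nat_lit 142) (nat_lit 1) (nat_lit 391) (nat_lit 347) (nat_lit 342)) (XT.lf (nat_lit 924) (nat_lit 199589775) (nat_lit 84) (nat_lit 776220519) (nat_lit 0) (nat_lit 219059007) (nat_lit 143) (nat_lit 1) (nat_lit 133) (nat_lit 1) (nat_lit 132) (nat_lit 1) (nat_lit 392) (nat_lit 347) (nat_lit 341))) (XT.nd (nat_lit 94) (nat_lit 1008) (nat_lit 0) (XT.lf (nat_lit 924) (nat_lit 40991188) (nat_lit 0) (nat_lit 580276183) (nat_lit 840) (nat_lit 532107180) (nat_lit 134) (nat_lit 1) (nat_lit 123) (nat_lit 1) (nat_lit 133) (nat_lit 1) (nat_lit 393) (nat_lit 347) (nat_lit 340)) (XT.nd (nat_lit 94) (nat_lit 420) (nat_lit 0) (XT.lf (nat_lit 84) (nat_lit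 283831528) (nat_lit 0) (nat_lit 122997409) (nat_lit 588) (nat_lit 707015600) (nat_lit 117) (nat_lit 1) (nat_lit 116) (nat_lit 1) (nat_lit 123) (nat_lit 1) (nat_lit 394) (nat_lit 347) (nat_lit 339)) (XT.lf (nat_lit 504) (nat_lit 782203966) (nat_lit 0) (nat_lit 254624254) (nat_lit 420) (nat_lit 39366482) (nat_lit 117) (nat_lit 1) (nat_lit 111) (nat_lit 1) (nat_lit 116) (nat_lit 1) (nat_lit 395) (nat_lit 347) (nat_lit 338)))))) (XT.nd (nat_lit 470) (nat_lit 1512) (nat_lit 0) (XT.nd (nat_lit 188) (nat_lit 756) (nat_lit 0) (XT.nd (nat_lit 94) (nat_lit 336) (nat_lit 0) (XT.lf (nat_lit 504) (nat_lit 564445831) (nat_lit 0) (nat_lit 118681461) (nat_lit 420) (nat_lit 357036452) (nat_lit 112) (nat_lit 1) (nat_lit 106) (nat_lit 1) (nat_lit 111) (nat_lit 1) (nat_lit 396) (nat_lit 347) (nat_lit 337)) (XT.lf (nat_lit 420) (nat_lit 343458089) (nat_lit 0) (nat_lit 2185118)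 (nat_lit 336) (nat_lit 660236640) (nat_lit 107) (nat_lit 1) (nat_lit 102) (nat_lit 1) (nat_lit 106) (nat_lit 1) (nat_lit 397) (nat_lit 347) (nat_lit 336))) (XT.nd (nat_lit 94) (nat_lit 756) (nat_lit 0) (XT.lf (nat_lit 84) (nat_lit 25338714) (nat_lit 0) (nat_lit 854544239) (nat_lit 420) (nat_lit 93290119) (nat_lit 103) (nat_lit 1) (nat_lit 102) (nat_lit 1) (nat_lit 107) (nat_lit 1) (nat_lit 398) (nat_lit 347) (nat_lit 335)) (XT.nd (nat_lit 94) (nat_lit 336) (nat_lit 0) (XT.lf (nat_lit 84) (nat_lit 654252184) (nat_lit 0) (nat_lit 108514725) (nat_lit 420) (nat_lit 178960489) (nat_lit 98) (nat_lit 1) (nat_lit 97) (nat_lit 1) (nat_lit 102) (nat_lit 1) (nat_lit 399) (nat_lit 347) (nat_lit 334)) (XT.lf (nat_lit 84) (nat_lit 327338947) (nat_lit 0) (nat_lit 332399866) (nat_lit 420) (nat_lit 251932342) (nat_lit 94) (nat_lit 1) (nat_lit 93) (nat_lit 1) (nat_lit 98) (nat_lit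 1) (nat_lit 400) (nat_lit 347) (nat_lit 333))))) (XT.nd (nat_lit 188) (nat_lit 924) (nat_lit 0) (XT.nd (nat_lit 94) (nat_lit 252) (nat_lit 0) (XT.lf (nat_lit 84) (nat_lit 16156724) (nat_lit 0) (nat_lit 555767415) (nat_lit 420) (nat_lit 311113836) (nat_lit 90) (nat_lit 1) (nat_lit 89) (nat_lit 1) (nat_lit 94) (nat_lit 1) (nat_lit 401) (nat_lit 347) (nat_lit 332)) (XT.lf (nat_lit 336) (nat_lit 72962857) (nat_lit 0) (nat_lit 493412880) (nat_lit 252) (nat_lit 289151287) (nat_lit 90) (nat_lit 1) (nat_lit 86) (nat_lit 1) (nat_lit 89) (nat_lit 1) (nat_lit 402) (nat_lit 347) (nat_lit 331))) (XT.nd (nat_lit 94) (nat_lit 504) (nat_lit 0) (XT.lf (nat_lit 84) (nat_lit 252106289) (nat_lit 0) (nat_lit 172795217) (nat_lit 420) (nat_lit 404251095) (nat_lit 82) (nat_lit 1) (nat_lit 81) (nat_lit 1) (nat_lit 86) (nat_lit 1) (nat_lit 403) (nat_lit 347) (nat_lit 330)) (XT.nd (nat_lit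 94) (nat_lit 252) (nat_lit 0) (XT.lf (nat_lit 336) (nat_lit 390321175) (nat_lit 0) (nat_lit 366656296) (nat_lit 252) (nat_lit 46931570) (nat_lit 82) (nat_lit 1) (nat_lit 78) (nat_lit 1) (nat_lit 81) (nat_lit 1) (nat_lit 404) (nat_lit 347) (nat_lit 329)) (XT.lf (nat_lit 336) (nat_lit 125096051) (nat_lit 0) (nat_lit 315676057) (nat_lit 252) (nat_lit 338863493) (nat_lit 79) (nat_lit 1) (nat_lit 75) (nat_lit 1) (nat_lit 78) (nat_lit 1) (nat_lit 405) (nat_lit 347) (nat_lit 328))))))))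
noncomputable def ec9 : XT := (XT.nd (nat_lit 65706) (nat_lit 0) (nat_lit 3948) (XT.nd (nat_lit 846) (nat_lit 1596) (nat_lit 0) (XT.nd (nat_lit 376) (nat_lit 1008) (nat_lit 0) (XT.nd (nat_lit 188) (nat_lit 504) (nat_lit 0) (XT.nd (nat_lit 94) (nat_lit 252) (nat_lit 0) (XT.lf (nat_lit 84) (nat_lit 142579271) (nat_lit 0) (nat_lit 130543713) (nat_lit 336) (nat_lit 483247296) (nat_lit 72) (nat_lit 1) (nat_lit 71) (nat_lit 1) (nat_lit 75) (nat_lit 1) (nat_lit 406) (nat_lit 347) (nat_lit 327)) (XT.lf (nat_lit 336) (nat_lit 354789802) (nat_lit 0) (nat_lit 236063987) (nat_lit 252) (nat_lit 143102765) (nat_lit 72) (nat_lit 1) (nat_lit 68) (nat_lit 1) (nat_lit 71) (nat_lit 1) (nat_lit 407) (nat_lit 347) (nat_lit 326))) (XT.nd (nat_lit 94) (nat_lit 336) (nat_lit 0) (XT.lf (nat_lit 252) (nat_lit 87952915) (nat_lit 0) (nat_lit 205948610) (nat_lit 168) (nat_lit 418545535)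 (nat_lit 69) (nat_lit 1) (nat_lit 66) (nat_lit 1) (nat_lit 68) (nat_lit 1) (nat_lit 408) (nat_lit 347) (nat_lit 325)) (XT.lf (nat_lit 84) (nat_lit 14899785) (nat_lit 0) (nat_lit 166731838) (nat_lit 336) (nat_lit 510139707) (nat_lit 63) (nat_lit 1) (nat_lit 62) (nat_lit 1) (nat_lit 66) (nat_lit 1) (nat_lit 409) (nat_lit 347) (nat_lit 324)))) (XT.nd (nat_lit 188) (nat_lit 588) (nat_lit 0) (XT.nd (nat_lit 94) (nat_lit 252) (nat_lit 0) (XT.lf (nat_lit 252) (nat_lit 255575035) (nat_lit 0) (nat_lit 159712471) (nat_lit 168) (nat_lit 256464439) (nat_lit 63) (nat_lit 1) (nat_lit 60) (nat_lit 1) (nat_lit 62) (nat_lit 1) (nat_lit 410) (nat_lit 347) (nat_lit 323)) (XT.lf (nat_lit 84) (nat_lit 138664333) (nat_lit 0) (nat_lit 6404992) (nat_lit 252) (nat_lit 507536810) (nat_lit 58) (nat_lit 1) (nat_lit 57) (nat_lit 1) (nat_lit 60) (nat_lit 1) (nat_lit 411) (nat_lit 347)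 (nat_lit 322))) (XT.nd (nat_lit 94) (nat_lit 420) (nat_lit 0) (XT.lf (nat_lit 252) (nat_lit 379081511) (nat_lit 0) (nat_lit 131360243) (nat_lit 168) (nat_lit 123575510) (nat_lit 58) (nat_lit 1) (nat_lit 55) (nat_lit 1) (nat_lit 57) (nat_lit 1) (nat_lit 412) (nat_lit 347) (nat_lit 321)) (XT.nd (nat_lit 94) (nat_lit 252) (nat_lit 0) (XT.lf (nat_lit 252) (nat_lit 117757908) (nat_lit 0) (nat_lit 122113872) (nat_lit 168) (nat_lit 376267348) (nat_lit 56) (nat_lit 1) (nat_lit 53) (nat_lit 1) (nat_lit 55) (nat_lit 1) (nat_lit 413) (nat_lit 347) (nat_lit 320)) (XT.lf (nat_lit 252) (nat_lit 467455619) (nat_lit 0) (nat_lit 116669893) (nat_lit 168) (nat_lit 14800929) (nat_lit 53) (nat_lit 1) (nat_lit 50) (nat_lit 1) (nat_lit 52) (nat_lit 1) (nat_lit 414) (nat_lit 347) (nat_lit 319)))))) (XT.nd (nat_lit 470) (nat_lit 756) (nat_lit 0) (XT.nd (nat_lit 188) (nat_lit 504)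 (nat_lit 0) (XT.nd (nat_lit 94) (nat_lit 168) (nat_lit 0) (XT.lf (nat_lit 252) (nat_lit 209211470) (nat_lit 0) (nat_lit 111380413) (nat_lit 168) (nat_lit 261600158) (nat_lit 51) (nat_lit 1) (nat_lit 48) (nat_lit 1) (nat_lit 50) (nat_lit 1) (nat_lit 415) (nat_lit 347) (nat_lit 318)) (XT.lf (nat_lit 84) (nat_lit 71663006) (nat_lit 0) (nat_lit 39389217) (nat_lit 168) (nat_lit 455099517) (nat_lit 47) (nat_lit 1) (nat_lit 46) (nat_lit 1) (nat_lit 48) (nat_lit 1) (nat_lit 416) (nat_lit 347) (nat_lit 317))) (XT.nd (nat_lit 94) (nat_lit 336) (nat_lit 0) (XT.lf (nat_lit 252) (nat_lit 274497481) (nat_lit 0) (nat_lit 109876303) (nat_lit 168) (nat_lit 166142417) (nat_lit 47) (nat_lit 1) (nat_lit 44) (nat_lit 1) (nat_lit 46) (nat_lit 1) (nat_lit 417) (nat_lit 347) (nat_lit 316)) (XT.nd (nat_lit 94) (nat_lit 252) (nat_lit 0) (XT.lf (nat_lit 168) (nat_lit 29559478) (nat_lit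 0) (nat_lit 112575007) (nat_lit 84) (nat_lit 393363448) (nat_lit 45) (nat_lit 1) (nat_lit 43) (nat_lit 1) (nat_lit 44) (nat_lit 1) (nat_lit 418) (nat_lit 347) (nat_lit 315)) (XT.lf (nat_lit 252) (nat_lit 319083653) (nat_lit 0) (nat_lit 115134192) (nat_lit 168) (nat_lit 86675920) (nat_lit 43) (nat_lit 1) (nat_lit 40) (nat_lit 1) (nat_lit 42) (nat_lit 1) (nat_lit 419) (nat_lit 347) (nat_lit 314))))) (XT.nd (nat_lit 188) (nat_lit 420) (nat_lit 0) (XT.nd (nat_lit 94) (nat_lit 252) (nat_lit 0) (XT.lf (nat_lit 168) (nat_lit 80251891) (nat_lit 0) (nat_lit 119439175) (nat_lit 84) (nat_lit 307090720) (nat_lit 41) (nat_lit 1) (nat_lit 39) (nat_lit 1) (nat_lit 40) (nat_lit 1) (nat_lit 420) (nat_lit 347) (nat_lit 313)) (XT.lf (nat_lit 252) (nat_lit 347390703) (nat_lit 0) (nat_lit 125199762) (nat_lit 168) (nat_lit 20546352) (nat_lit 39) (nat_lit 1) (nat_lit 36) (nat_lit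 1) (nat_lit 38) (nat_lit 1) (nat_lit 421) (nat_lit 347) (nat_lit 312))) (XT.nd (nat_lit 94) (nat_lit 336) (nat_lit 0) (XT.lf (nat_lit 168) (nat_lit 115493482) (nat_lit 0) (nat_lit 130522256) (nat_lit 84) (nat_lit 233841894) (nat_lit 37) (nat_lit 1) (nat_lit 35) (nat_lit 1) (nat_lit 36) (nat_lit 1) (nat_lit 422) (nat_lit 347) (nat_lit 311)) (XT.nd (nat_lit 94) (nat_lit 84) (nat_lit 0) (XT.lf (nat_lit 84) (nat_lit 33336015) (nat_lit 0) (nat_lit 104632865) (nat_lit 252) (nat_lit 329086623) (nat_lit 33) (nat_lit 1) (nat_lit 32) (nat_lit 1) (nat_lit 35) (nat_lit 1) (nat_lit 423) (nat_lit 347) (nat_lit 310)) (XT.lf (nat_lit 168) (nat_lit 138602598) (nat_lit 0) (nat_lit 144417338) (nat_lit 84) (nat_lit 171551371) (nat_lit 33) (nat_lit 1) (nat_lit 31) (nat_lit 1) (nat_lit 32) (nat_lit 1) (nat_lit 424) (nat_lit 347) (nat_lit 309))))))) (XT.nd (nat_lit 846) (nat_lit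 3192) (nat_lit 0) (XT.nd (nat_lit 376) (nat_lit 1008) (nat_lit 0) (XT.nd (nat_lit 188) (nat_lit 0) (nat_lit 84) (XT.nd (nat_lit 94) (nat_lit 0) (nat_lit 84) (XT.lf (nat_lit 924) (nat_lit 213385356) (nat_lit 0) (nat_lit 378865210) (nat_lit 924) (nat_lit 213385356) (nat_lit 139) (nat_lit 1) (nat_lit 128) (nat_lit 0) (nat_lit 139) (nat_lit 0) (nat_lit 384) (nat_lit 348) (nat_lit 348)) (XT.lf (nat_lit 924) (nat_lit 79599285) (nat_lit 0) (nat_lit 743827232) (nat_lit 840) (nat_lit 727460548) (nat_lit 140) (nat_lit 1) (nat_lit 129) (nat_lit 1) (nat_lit 139) (nat_lit 1) (nat_lit 385) (nat_lit 348) (nat_lit 347))) (XT.nd (nat_lit 94) (nat_lit 0) (nat_lit 84) (XT.lf (nat_lit 924) (nat_lit 731073492) (nat_lit 84) (nat_lit 498141348) (nat_lit 0) (nat_lit 264191448) (nat_lit 140) (nat_lit 1) (nat_lit 130) (nat_lit 1) (nat_lit 129) (nat_lit 1) (nat_lit 386) (nat_lit 348)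 (nat_lit 346)) (XT.lf (nat_lit 924) (nat_lit 631707388) (nat_lit 84) (nat_lit 208767586) (nat_lit 0) (nat_lit 598327020) (nat_lit 141) (nat_lit 1) (nat_lit 131) (nat_lit 1) (nat_lit 130) (nat_lit 1) (nat_lit 387) (nat_lit 348) (nat_lit 345)))) (XT.nd (nat_lit 188) (nat_lit 1260) (nat_lit 0) (XT.nd (nat_lit 94) (nat_lit 0) (nat_lit 84) (XT.lf (nat_lit 924) (nat_lit 467517173) (nat_lit 0) (nat_lit 874702532) (nat_lit 840) (nat_lit 44714668) (nat_lit 142) (nat_lit 1) (nat_lit 131) (nat_lit 1) (nat_lit 141) (nat_lit 1) (nat_lit 388) (nat_lit 348) (nat_lit 344)) (XT.lf (nat_lit 924) (nat_lit 112176161) (nat_lit 0) (nat_lit 964602543) (nat_lit 840) (nat_lit 260765088) (nat_lit 143) (nat_lit 1) (nat_lit 132) (nat_lit 1) (nat_lit 142) (nat_lit 1) (nat_lit 389) (nat_lit 348) (nat_lit 343))) (XT.nd (nat_lit 94) (nat_lit 1344) (nat_lit 0) (XT.lf (nat_lit 924) (nat_lit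 215556957) (nat_lit 84) (nat_lit 838318161) (nat_lit 0) (nat_lit 236583728) (nat_lit 143) (nat_lit 1) (nat_lit 133) (nat_lit 1) (nat_lit 132) (nat_lit 1) (nat_lit 390) (nat_lit 348) (nat_lit 342)) (XT.nd (nat_lit 94) (nat_lit 588) (nat_lit 0) (XT.lf (nat_lit 924) (nat_lit 44270483) (nat_lit 0) (nat_lit 626698278) (nat_lit 840) (nat_lit 574675754) (nat_lit 134) (nat_lit 1) (nat_lit 123) (nat_lit 1) (nat_lit 133) (nat_lit 1) (nat_lit 391) (nat_lit 348) (nat_lit 341)) (XT.lf (nat_lit 84) (nat_lit 306538050) (nat_lit 0) (nat_lit 132837202) (nat_lit 588) (nat_lit 763576848) (nat_lit 117) (nat_lit 1) (nat_lit 116) (nat_lit 1) (nat_lit 123) (nat_lit 1) (nat_lit 392) (nat_lit 348) (nat_lit 340)))))) (XT.nd (nat_lit 470) (nat_lit 1596) (nat_lit 0) (XT.nd (nat_lit 188) (nat_lit 756) (nat_lit 0) (XT.nd (nat_lit 94) (nat_lit 420) (nat_lit 0) (XT.lf (nat_lit 504) (nat_lit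 844780284) (nat_lit 0) (nat_lit 274994194) (nat_lit 420) (nat_lit 42515801) (nat_lit 117) (nat_lit 1) (nat_lit 111) (nat_lit 1) (nat_lit 116) (nat_lit 1) (nat_lit 393) (nat_lit 348) (nat_lit 339)) (XT.lf (nat_lit 504) (nat_lit 609601497) (nat_lit 0) (nat_lit 128175978) (nat_lit 420) (nat_lit 385599368) (nat_lit 112) (nat_lit 1) (nat_lit 106) (nat_lit 1) (nat_lit 111) (nat_lit 1) (nat_lit 394) (nat_lit 348) (nat_lit 338))) (XT.nd (nat_lit 94) (nat_lit 420) (nat_lit 0) (XT.lf (nat_lit 420) (nat_lit 370934736) (nat_lit 0) (nat_lit 2359928) (nat_lit 336) (nat_lit 713055572) (nat_lit 107) (nat_lit 1) (nat_lit 102) (nat_lit 1) (nat_lit 106) (nat_lit 1) (nat_lit 395) (nat_lit 348) (nat_lit 337)) (XT.nd (nat_lit 94) (nat_lit 420) (nat_lit 0) (XT.lf (nat_lit 84) (nat_lit 27365811) (nat_lit 0) (nat_lit 922907778) (nat_lit 420) (nat_lit 100753328) (nat_lit 103) (nat_lit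 1) (nat_lit 102) (nat_lit 1) (nat_lit 107) (nat_lit 1) (nat_lit 396) (nat_lit 348) (nat_lit 336)) (XT.lf (nat_lit 84) (nat_lit 706592359) (nat_lit 0) (nat_lit 117195903) (nat_lit 420) (nat_lit 193277328) (nat_lit 98) (nat_lit 1) (nat_lit 97) (nat_lit 1) (nat_lit 102) (nat_lit 1) (nat_lit 397) (nat_lit 348) (nat_lit 335))))) (XT.nd (nat_lit 188) (nat_lit 924) (nat_lit 0) (XT.nd (nat_lit 94) (nat_lit 336) (nat_lit 0) (XT.lf (nat_lit 84) (nat_lit 353526062) (nat_lit 0) (nat_lit 358991855) (nat_lit 420) (nat_lit 272086929) (nat_lit 94) (nat_lit 1) (nat_lit 93) (nat_lit 1) (nat_lit 98) (nat_lit 1) (nat_lit 398) (nat_lit 348) (nat_lit 334)) (XT.lf (nat_lit 84) (nat_lit 17449262) (nat_lit 0) (nat_lit 600228808) (nat_lit 420) (nat_lit 336002943) (nat_lit 90) (nat_lit 1) (nat_lit 89) (nat_lit 1) (nat_lit 94) (nat_lit 1) (nat_lit 399) (nat_lit 348) (nat_lit 333))) (XT.nd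 (nat_lit 94) (nat_lit 672) (nat_lit 0) (XT.lf (nat_lit 336) (nat_lit 78799886) (nat_lit 0) (nat_lit 532885911) (nat_lit 252) (nat_lit 312283390) (nat_lit 90) (nat_lit 1) (nat_lit 86) (nat_lit 1) (nat_lit 89) (nat_lit 1) (nat_lit 400) (nat_lit 348) (nat_lit 332)) (XT.nd (nat_lit 94) (nat_lit 252) (nat_lit 0) (XT.lf (nat_lit 84) (nat_lit 272274792) (nat_lit 0) (nat_lit 186618834) (nat_lit 420) (nat_lit 436591183) (nat_lit 82) (nat_lit 1) (nat_lit 81) (nat_lit 1) (nat_lit 86) (nat_lit 1) (nat_lit 401) (nat_lit 348) (nat_lit 331)) (XT.lf (nat_lit 336) (nat_lit 421546869) (nat_lit 0) (nat_lit 395988800) (nat_lit 252) (nat_lit 50686096) (nat_lit 82) (nat_lit 1) (nat_lit 78) (nat_lit 1) (nat_lit 81) (nat_lit 1) (nat_lit 402) (nat_lit 348) (nat_lit 330))))))))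
noncomputable def ec10 : XT := (XT.nd (nat_lit 1692) (nat_lit 840) (nat_lit 0) (XT.nd (nat_lit 846) (nat_lit 1512) (nat_lit 0) (XT.nd (nat_lit 376) (nat_lit 1092) (nat_lit 0) (XT.nd (nat_lit 188) (nat_lit 420) (nat_lit 0) (XT.nd (nat_lit 94) (nat_lit 336) (nat_lit 0) (XT.lf (nat_lit 336) (nat_lit 135103735) (nat_lit 0) (nat_lit 340930141) (nat_lit 252) (nat_lit 365972572) (nat_lit 79) (nat_lit 1) (nat_lit 75) (nat_lit 1) (nat_lit 78) (nat_lit 1) (nat_lit 403) (nat_lit 348) (nat_lit 329)) (XT.lf (nat_lit 84) (nat_lit 153985612) (nat_lit 0) (nat_lit 140987210) (nat_lit 336) (nat_lit 521907080) (nat_lit 72) (nat_lit 1) (nat_lit 71) (nat_lit 1) (nat_lit 75) (nat_lit 1) (nat_lit 404) (nat_lit 348) (nat_lit 328))) (XT.nd (nat_lit 94) (nat_lit 168) (nat_lit 0) (XT.lf (nat_lit 336) (nat_lit 383172986) (nat_lit 0) (nat_lit 254949106) (nat_lit 252) (nat_lit 154550986)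 (nat_lit 72) (nat_lit 1) (nat_lit 68) (nat_lit 1) (nat_lit 71) (nat_lit 1) (nat_lit 405) (nat_lit 348) (nat_lit 327)) (XT.lf (nat_lit 252) (nat_lit 94989149) (nat_lit 0) (nat_lit 222424499) (nat_lit 168) (nat_lit 452029177) (nat_lit 69) (nat_lit 1) (nat_lit 66) (nat_lit 1) (nat_lit 68) (nat_lit 1) (nat_lit 406) (nat_lit 348) (nat_lit 326)))) (XT.nd (nat_lit 188) (nat_lit 588) (nat_lit 0) (XT.nd (nat_lit 94) (nat_lit 168) (nat_lit 0) (XT.lf (nat_lit 84) (nat_lit 16091768) (nat_lit 0) (nat_lit 180070385) (nat_lit 336) (nat_lit 550950884) (nat_lit 63) (nat_lit 1) (nat_lit 62) (nat_lit 1) (nat_lit 66) (nat_lit 1) (nat_lit 407) (nat_lit 348) (nat_lit 325)) (XT.lf (nat_lit 252) (nat_lit 276021038) (nat_lit 0) (nat_lit 172489469) (nat_lit 168) (nat_lit 276981594) (nat_lit 63) (nat_lit 1) (nat_lit 60) (nat_lit 1) (nat_lit 62) (nat_lit 1) (nat_lit 408) (nat_lit 348)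 (nat_lit 324))) (XT.nd (nat_lit 94) (nat_lit 336) (nat_lit 0) (XT.lf (nat_lit 84) (nat_lit 149757480) (nat_lit 0) (nat_lit 6917391) (nat_lit 252) (nat_lit 548139755) (nat_lit 58) (nat_lit 1) (nat_lit 57) (nat_lit 1) (nat_lit 60) (nat_lit 1) (nat_lit 409) (nat_lit 348) (nat_lit 323)) (XT.nd (nat_lit 94) (nat_lit 168) (nat_lit 0) (XT.lf (nat_lit 252) (nat_lit 409408032) (nat_lit 0) (nat_lit 141869063) (nat_lit 168) (nat_lit 133461551) (nat_lit 58) (nat_lit 1) (nat_lit 55) (nat_lit 1) (nat_lit 57) (nat_lit 1) (nat_lit 410) (nat_lit 348) (nat_lit 322)) (XT.lf (nat_lit 252) (nat_lit 127178541) (nat_lit 0) (nat_lit 131882982) (nat_lit 168) (nat_lit 406368736) (nat_lit 56) (nat_lit 1) (nat_lit 53) (nat_lit 1) (nat_lit 55) (nat_lit 1) (nat_lit 411) (nat_lit 348) (nat_lit 321)))))) (XT.nd (nat_lit 376) (nat_lit 756) (nat_lit 0) (XT.nd (nat_lit 188) (nat_lit 336) (nat_lit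 0) (XT.nd (nat_lit 94) (nat_lit 168) (nat_lit 0) (XT.lf (nat_lit 252) (nat_lit 504852068) (nat_lit 0) (nat_lit 126003485) (nat_lit 168) (nat_lit 15985003) (nat_lit 53) (nat_lit 1) (nat_lit 50) (nat_lit 1) (nat_lit 52) (nat_lit 1) (nat_lit 412) (nat_lit 348) (nat_lit 320)) (XT.lf (nat_lit 252) (nat_lit 225948387) (nat_lit 0) (nat_lit 120290846) (nat_lit 168) (nat_lit 282528170) (nat_lit 51) (nat_lit 1) (nat_lit 48) (nat_lit 1) (nat_lit 50) (nat_lit 1) (nat_lit 413) (nat_lit 348) (nat_lit 319))) (XT.nd (nat_lit 94) (nat_lit 168) (nat_lit 0) (XT.lf (nat_lit 84) (nat_lit 77396046) (nat_lit 0) (nat_lit 42540354) (nat_lit 168) (nat_lit 491507479) (nat_lit 47) (nat_lit 1) (nat_lit 46) (nat_lit 1) (nat_lit 48) (nat_lit 1) (nat_lit 414) (nat_lit 348) (nat_lit 318)) (XT.lf (nat_lit 252) (nat_lit 296457279) (nat_lit 0) (nat_lit 118666408) (nat_lit 168) (nat_lit 179433810)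 (nat_lit 47) (nat_lit 1) (nat_lit 44) (nat_lit 1) (nat_lit 46) (nat_lit 1) (nat_lit 415) (nat_lit 348) (nat_lit 317)))) (XT.nd (nat_lit 188) (nat_lit 420) (nat_lit 0) (XT.nd (nat_lit 94) (nat_lit 252) (nat_lit 0) (XT.lf (nat_lit 168) (nat_lit 31924236) (nat_lit 0) (nat_lit 121581008) (nat_lit 84) (nat_lit 424832524) (nat_lit 45) (nat_lit 1) (nat_lit 43) (nat_lit 1) (nat_lit 44) (nat_lit 1) (nat_lit 416) (nat_lit 348) (nat_lit 316)) (XT.lf (nat_lit 252) (nat_lit 344610345) (nat_lit 0) (nat_lit 124344927) (nat_lit 168) (nat_lit 93609994) (nat_lit 43) (nat_lit 1) (nat_lit 40) (nat_lit 1) (nat_lit 42) (nat_lit 1) (nat_lit 417) (nat_lit 348) (nat_lit 315))) (XT.nd (nat_lit 94) (nat_lit 336) (nat_lit 0) (XT.lf (nat_lit 168) (nat_lit 86672043) (nat_lit 0) (nat_lit 128994309) (nat_lit 84) (nat_lit 331657978) (nat_lit 41) (nat_lit 1) (nat_lit 39) (nat_lit 1) (nat_lit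 40) (nat_lit 1) (nat_lit 418) (nat_lit 348) (nat_lit 314)) (XT.nd (nat_lit 94) (nat_lit 84) (nat_lit 0) (XT.lf (nat_lit 252) (nat_lit 375181959) (nat_lit 0) (nat_lit 135215743) (nat_lit 168) (nat_lit 22190060) (nat_lit 39) (nat_lit 1) (nat_lit 36) (nat_lit 1) (nat_lit 38) (nat_lit 1) (nat_lit 419) (nat_lit 348) (nat_lit 313)) (XT.lf (nat_lit 168) (nat_lit 124732960) (nat_lit 0) (nat_lit 140964037) (nat_lit 84) (nat_lit 252549246) (nat_lit 37) (nat_lit 1) (nat_lit 35) (nat_lit 1) (nat_lit 36) (nat_lit 1) (nat_lit 420) (nat_lit 348) (nat_lit 312))))))) (XT.nd (nat_lit 64484) (nat_lit 0) (nat_lit 6048) (XT.nd (nat_lit 376) (nat_lit 168) (nat_lit 0) (XT.nd (nat_lit 188) (nat_lit 336) (nat_lit 0) (XT.nd (nat_lit 94) (nat_lit 84) (nat_lit 0) (XT.lf (nat_lit 84) (nat_lit 36002896) (nat_lit 0) (nat_lit 113003494) (nat_lit 252) (nat_lit 355413553) (nat_lit 33) (nat_lit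 1) (nat_lit 32) (nat_lit 1) (nat_lit 35) (nat_lit 1) (nat_lit 421) (nat_lit 348) (nat_lit 311)) (XT.lf (nat_lit 168) (nat_lit 149690806) (nat_lit 0) (nat_lit 155970725) (nat_lit 84) (nat_lit 185275481) (nat_lit 33) (nat_lit 1) (nat_lit 31) (nat_lit 1) (nat_lit 32) (nat_lit 1) (nat_lit 422) (nat_lit 348) (nat_lit 310))) (XT.nd (nat_lit 94) (nat_lit 84) (nat_lit 0) (XT.lf (nat_lit 84) (nat_lit 83729331) (nat_lit 0) (nat_lit 81097519) (nat_lit 252) (nat_lit 313101054) (nat_lit 29) (nat_lit 1) (nat_lit 28) (nat_lit 1) (nat_lit 31) (nat_lit 1) (nat_lit 423) (nat_lit 348) (nat_lit 309)) (XT.lf (nat_lit 168) (nat_lit 164435686) (nat_lit 0) (nat_lit 172828259) (nat_lit 84) (nat_lit 127987227) (nat_lit 29) (nat_lit 1) (nat_lit 27) (nat_lit 1) (nat_lit 28) (nat_lit 1) (nat_lit 424) (nat_lit 348) (nat_lit 308)))) (XT.nd (nat_lit 63826) (nat_lit 0) (nat_lit 8736) (XT.nd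 (nat_lit 63732) (nat_lit 0) (nat_lit 8652) (XT.lf (nat_lit 84) (nat_lit 123268937) (nat_lit 0) (nat_lit 58735442) (nat_lit 168) (nat_lit 270988716) (nat_lit 26) (nat_lit 1) (nat_lit 25) (nat_lit 1) (nat_lit 27) (nat_lit 1) (nat_lit 425) (nat_lit 348) (nat_lit 307)) (XT.lf (nat_lit 924) (nat_lit 230456185) (nat_lit 0) (nat_lit 409174427) (nat_lit 924) (nat_lit 230456185) (nat_lit 139) (nat_lit 1) (nat_lit 128) (nat_lit 0) (nat_lit 139) (nat_lit 0) (nat_lit 382) (nat_lit 349) (nat_lit 349))) (XT.nd (nat_lit 94) (nat_lit 0) (nat_lit 0) (XT.lf (nat_lit 924) (nat_lit 85967228) (nat_lit 0) (nat_lit 803333411) (nat_lit 840) (nat_lit 785657392) (nat_lit 140) (nat_lit 1) (nat_lit 129) (nat_lit 1) (nat_lit 139) (nat_lit 1) (nat_lit 383) (nat_lit 349) (nat_lit 348)) (XT.nd (nat_lit 94) (nat_lit 0) (nat_lit 84) (XT.lf (nat_lit 924) (nat_lit 789559372) (nat_lit 84) (nat_lit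 537992656) (nat_lit 0) (nat_lit 285326763) (nat_lit 140) (nat_lit 1) (nat_lit 130) (nat_lit 1) (nat_lit 129) (nat_lit 1) (nat_lit 384) (nat_lit 349) (nat_lit 347)) (XT.lf (nat_lit 924) (nat_lit 682243979) (nat_lit 84) (nat_lit 225468993) (nat_lit 0) (nat_lit 646193182) (nat_lit 141) (nat_lit 1) (nat_lit 131) (nat_lit 1) (nat_lit 130) (nat_lit 1) (nat_lit 385) (nat_lit 349) (nat_lit 346)))))) (XT.nd (nat_lit 470) (nat_lit 1596) (nat_lit 0) (XT.nd (nat_lit 188) (nat_lit 1260) (nat_lit 0) (XT.nd (nat_lit 94) (nat_lit 0) (nat_lit 84) (XT.lf (nat_lit 924) (nat_lit 504918546) (nat_lit 0) (nat_lit 944678734) (nat_lit 840) (nat_lit 48291841) (nat_lit 142) (nat_lit 1) (nat_lit 131) (nat_lit 1) (nat_lit 141) (nat_lit 1) (nat_lit 386) (nat_lit 349) (nat_lit 345)) (XT.lf (nat_lit 924) (nat_lit 121150254) (nat_lit 0) (nat_lit 1041770747) (nat_lit 840) (nat_lit 281626295)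 (nat_lit 143) (nat_lit 1) (nat_lit 132) (nat_lit 1) (nat_lit 142) (nat_lit 1) (nat_lit 387) (nat_lit 349) (nat_lit 344))) (XT.nd (nat_lit 94) (nat_lit 1344) (nat_lit 0) (XT.lf (nat_lit 924) (nat_lit 232801513) (nat_lit 84) (nat_lit 905383614) (nat_lit 0) (nat_lit 255510426) (nat_lit 143) (nat_lit 1) (nat_lit 133) (nat_lit 1) (nat_lit 132) (nat_lit 1) (nat_lit 388) (nat_lit 349) (nat_lit 343)) (XT.nd (nat_lit 94) (nat_lit 588) (nat_lit 0) (XT.lf (nat_lit 924) (nat_lit 47812122) (nat_lit 0) (nat_lit 676834140) (nat_lit 840) (nat_lit 620649815) (nat_lit 134) (nat_lit 1) (nat_lit 123) (nat_lit 1) (nat_lit 133) (nat_lit 1) (nat_lit 389) (nat_lit 349) (nat_lit 342)) (XT.lf (nat_lit 84) (nat_lit 331061094) (nat_lit 0) (nat_lit 143464178) (nat_lit 588) (nat_lit 824662996) (nat_lit 117) (nat_lit 1) (nat_lit 116) (nat_lit 1) (nat_lit 123) (nat_lit 1) (nat_lit 390) (nat_lit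 349) (nat_lit 341))))) (XT.nd (nat_lit 188) (nat_lit 756) (nat_lit 0) (XT.nd (nat_lit 94) (nat_lit 420) (nat_lit 0) (XT.lf (nat_lit 504) (nat_lit 912362707) (nat_lit 0) (nat_lit 296993730) (nat_lit 420) (nat_lit 45917065) (nat_lit 117) (nat_lit 1) (nat_lit 111) (nat_lit 1) (nat_lit 116) (nat_lit 1) (nat_lit 391) (nat_lit 349) (nat_lit 340)) (XT.lf (nat_lit 504) (nat_lit 658369617) (nat_lit 0) (nat_lit 138430056) (nat_lit 420) (nat_lit 416447317) (nat_lit 112) (nat_lit 1) (nat_lit 106) (nat_lit 1) (nat_lit 111) (nat_lit 1) (nat_lit 392) (nat_lit 349) (nat_lit 339))) (XT.nd (nat_lit 94) (nat_lit 420) (nat_lit 0) (XT.lf (nat_lit 420) (nat_lit 400609515) (nat_lit 0) (nat_lit 2548722) (nat_lit 336) (nat_lit 770100017) (nat_lit 107) (nat_lit 1) (nat_lit 102) (nat_lit 1) (nat_lit 106) (nat_lit 1) (nat_lit 393) (nat_lit 349) (nat_lit 338)) (XT.nd (nat_lit 94) (nat_lit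 420) (nat_lit 0) (XT.lf (nat_lit 84) (nat_lit 29555076) (nat_lit 0) (nat_lit 996740400) (nat_lit 420) (nat_lit 108813595) (nat_lit 103) (nat_lit 1) (nat_lit 102) (nat_lit 1) (nat_lit 107) (nat_lit 1) (nat_lit 394) (nat_lit 349) (nat_lit 337)) (XT.lf (nat_lit 84) (nat_lit 763119748) (nat_lit 0) (nat_lit 126571575) (nat_lit 420) (nat_lit 208739515) (nat_lit 98) (nat_lit 1) (nat_lit 97) (nat_lit 1) (nat_lit 102) (nat_lit 1) (nat_lit 395) (nat_lit 349) (nat_lit 336))))))))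
noncomputable def ec11 : XT := (XT.nd (nat_lit 1786) (nat_lit 1764) (nat_lit 0) (XT.nd (nat_lit 846) (nat_lit 1932) (nat_lit 0) (XT.nd (nat_lit 376) (nat_lit 1260) (nat_lit 0) (XT.nd (nat_lit 188) (nat_lit 672) (nat_lit 0) (XT.nd (nat_lit 94) (nat_lit 336) (nat_lit 0) (XT.lf (nat_lit 84) (nat_lit 381808147) (nat_lit 0) (nat_lit 387711204) (nat_lit 420) (nat_lit 293853884) (nat_lit 94) (nat_lit 1) (nat_lit 93) (nat_lit 1) (nat_lit 98) (nat_lit 1) (nat_lit 396) (nat_lit 349) (nat_lit 335)) (XT.lf (nat_lit 84) (nat_lit 18845203) (nat_lit 0) (nat_lit 648247113) (nat_lit 420) (nat_lit 362883179) (nat_lit 90) (nat_lit 1) (nat_lit 89) (nat_lit 1) (nat_lit 94) (nat_lit 1) (nat_lit 397) (nat_lit 349) (nat_lit 334))) (XT.nd (nat_lit 94) (nat_lit 420) (nat_lit 0) (XT.lf (nat_lit 336) (nat_lit 85103877) (nat_lit 0) (nat_lit 575516783) (nat_lit 252) (nat_lit 337266062)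 (nat_lit 90) (nat_lit 1) (nat_lit 86) (nat_lit 1) (nat_lit 89) (nat_lit 1) (nat_lit 398) (nat_lit 349) (nat_lit 333)) (XT.lf (nat_lit 84) (nat_lit 294056776) (nat_lit 0) (nat_lit 201548341) (nat_lit 420) (nat_lit 471518477) (nat_lit 82) (nat_lit 1) (nat_lit 81) (nat_lit 1) (nat_lit 86) (nat_lit 1) (nat_lit 399) (nat_lit 349) (nat_lit 332)))) (XT.nd (nat_lit 188) (nat_lit 756) (nat_lit 0) (XT.nd (nat_lit 94) (nat_lit 252) (nat_lit 0) (XT.lf (nat_lit 336) (nat_lit 455270619) (nat_lit 0) (nat_lit 427667904) (nat_lit 252) (nat_lit 54740984) (nat_lit 82) (nat_lit 1) (nat_lit 78) (nat_lit 1) (nat_lit 81) (nat_lit 1) (nat_lit 400) (nat_lit 349) (nat_lit 331)) (XT.lf (nat_lit 336) (nat_lit 145912034) (nat_lit 0) (nat_lit 368204553) (nat_lit 252) (nat_lit 395250378) (nat_lit 79) (nat_lit 1) (nat_lit 75) (nat_lit 1) (nat_lit 78) (nat_lit 1) (nat_lit 401) (nat_lit 349)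 (nat_lit 330))) (XT.nd (nat_lit 94) (nat_lit 420) (nat_lit 0) (XT.lf (nat_lit 84) (nat_lit 166304461) (nat_lit 0) (nat_lit 152266186) (nat_lit 336) (nat_lit 563659646) (nat_lit 72) (nat_lit 1) (nat_lit 71) (nat_lit 1) (nat_lit 75) (nat_lit 1) (nat_lit 402) (nat_lit 349) (nat_lit 329)) (XT.nd (nat_lit 94) (nat_lit 168) (nat_lit 0) (XT.lf (nat_lit 336) (nat_lit 413826825) (nat_lit 0) (nat_lit 275345034) (nat_lit 252) (nat_lit 166915065) (nat_lit 72) (nat_lit 1) (nat_lit 68) (nat_lit 1) (nat_lit 71) (nat_lit 1) (nat_lit 403) (nat_lit 349) (nat_lit 328)) (XT.lf (nat_lit 252) (nat_lit 102588281) (nat_lit 0) (nat_lit 240218459) (nat_lit 168) (nat_lit 488191512) (nat_lit 69) (nat_lit 1) (nat_lit 66) (nat_lit 1) (nat_lit 68) (nat_lit 1) (nat_lit 404) (nat_lit 349) (nat_lit 327)))))) (XT.nd (nat_lit 470) (nat_lit 840) (nat_lit 0) (XT.nd (nat_lit 188) (nat_lit 588)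 (nat_lit 0) (XT.nd (nat_lit 94) (nat_lit 168) (nat_lit 0) (XT.lf (nat_lit 84) (nat_lit 17379110) (nat_lit 0) (nat_lit 194476016) (nat_lit 336) (nat_lit 595026955) (nat_lit 63) (nat_lit 1) (nat_lit 62) (nat_lit 1) (nat_lit 66) (nat_lit 1) (nat_lit 405) (nat_lit 349) (nat_lit 326)) (XT.lf (nat_lit 252) (nat_lit 298102721) (nat_lit 0) (nat_lit 186288626) (nat_lit 168) (nat_lit 299140121) (nat_lit 63) (nat_lit 1) (nat_lit 60) (nat_lit 1) (nat_lit 62) (nat_lit 1) (nat_lit 406) (nat_lit 349) (nat_lit 325))) (XT.nd (nat_lit 94) (nat_lit 336) (nat_lit 0) (XT.lf (nat_lit 84) (nat_lit 161738078) (nat_lit 0) (nat_lit 7470783) (nat_lit 252) (nat_lit 591990936) (nat_lit 58) (nat_lit 1) (nat_lit 57) (nat_lit 1) (nat_lit 60) (nat_lit 1) (nat_lit 407) (nat_lit 349) (nat_lit 324)) (XT.nd (nat_lit 94) (nat_lit 168) (nat_lit 0) (XT.lf (nat_lit 252) (nat_lit 442160675) (nat_lit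 0) (nat_lit 153218588) (nat_lit 168) (nat_lit 144138475) (nat_lit 58) (nat_lit 1) (nat_lit 55) (nat_lit 1) (nat_lit 57) (nat_lit 1) (nat_lit 408) (nat_lit 349) (nat_lit 323)) (XT.lf (nat_lit 252) (nat_lit 137352824) (nat_lit 0) (nat_lit 142433620) (nat_lit 168) (nat_lit 438878234) (nat_lit 56) (nat_lit 1) (nat_lit 53) (nat_lit 1) (nat_lit 55) (nat_lit 1) (nat_lit 409) (nat_lit 349) (nat_lit 322))))) (XT.nd (nat_lit 188) (nat_lit 420) (nat_lit 0) (XT.nd (nat_lit 94) (nat_lit 168) (nat_lit 0) (XT.lf (nat_lit 252) (nat_lit 545240234) (nat_lit 0) (nat_lit 136083764) (nat_lit 168) (nat_lit 17263804) (nat_lit 53) (nat_lit 1) (nat_lit 50) (nat_lit 1) (nat_lit 52) (nat_lit 1) (nat_lit 410) (nat_lit 349) (nat_lit 321)) (XT.lf (nat_lit 252) (nat_lit 244024259) (nat_lit 0) (nat_lit 129914114) (nat_lit 168) (nat_lit 305130424) (nat_lit 51) (nat_lit 1) (nat_lit 48) (nat_lit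 1) (nat_lit 50) (nat_lit 1) (nat_lit 411) (nat_lit 349) (nat_lit 320))) (XT.nd (nat_lit 94) (nat_lit 252) (nat_lit 0) (XT.lf (nat_lit 84) (nat_lit 83587730) (nat_lit 0) (nat_lit 45943583) (nat_lit 168) (nat_lit 530828077) (nat_lit 47) (nat_lit 1) (nat_lit 46) (nat_lit 1) (nat_lit 48) (nat_lit 1) (nat_lit 412) (nat_lit 349) (nat_lit 319)) (XT.nd (nat_lit 94) (nat_lit 84) (nat_lit 0) (XT.lf (nat_lit 252) (nat_lit 320173861) (nat_lit 0) (nat_lit 128159720) (nat_lit 168) (nat_lit 193788515) (nat_lit 47) (nat_lit 1) (nat_lit 44) (nat_lit 1) (nat_lit 46) (nat_lit 1) (nat_lit 413) (nat_lit 349) (nat_lit 318)) (XT.lf (nat_lit 168) (nat_lit 34478175) (nat_lit 0) (nat_lit 131307489) (nat_lit 84) (nat_lit 458819126) (nat_lit 45) (nat_lit 1) (nat_lit 43) (nat_lit 1) (nat_lit 44) (nat_lit 1) (nat_lit 414) (nat_lit 349) (nat_lit 317))))))) (XT.nd (nat_lit 846) (nat_lit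 252) (nat_lit 0) (XT.nd (nat_lit 376) (nat_lit 840) (nat_lit 0) (XT.nd (nat_lit 188) (nat_lit 336) (nat_lit 0) (XT.nd (nat_lit 94) (nat_lit 84) (nat_lit 0) (XT.lf (nat_lit 252) (nat_lit 372179173) (nat_lit 0) (nat_lit 134292521) (nat_lit 168) (nat_lit 101098794) (nat_lit 43) (nat_lit 1) (nat_lit 40) (nat_lit 1) (nat_lit 42) (nat_lit 1) (nat_lit 415) (nat_lit 349) (nat_lit 316)) (XT.lf (nat_lit 168) (nat_lit 93605806) (nat_lit 0) (nat_lit 139313854) (nat_lit 84) (nat_lit 358190616) (nat_lit 41) (nat_lit 1) (nat_lit 39) (nat_lit 1) (nat_lit 40) (nat_lit 1) (nat_lit 416) (nat_lit 349) (nat_lit 315))) (XT.nd (nat_lit 94) (nat_lit 84) (nat_lit 0) (XT.lf (nat_lit 252) (nat_lit 405196516) (nat_lit 0) (nat_lit 146033002) (nat_lit 168) (nat_lit 23965265) (nat_lit 39) (nat_lit 1) (nat_lit 36) (nat_lit 1) (nat_lit 38) (nat_lit 1) (nat_lit 417) (nat_lit 349) (nat_lit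 314)) (XT.lf (nat_lit 168) (nat_lit 134711597) (nat_lit 0) (nat_lit 152241160) (nat_lit 84) (nat_lit 272753186) (nat_lit 37) (nat_lit 1) (nat_lit 35) (nat_lit 1) (nat_lit 36) (nat_lit 1) (nat_lit 418) (nat_lit 349) (nat_lit 313)))) (XT.nd (nat_lit 188) (nat_lit 504) (nat_lit 0) (XT.nd (nat_lit 94) (nat_lit 84) (nat_lit 0) (XT.lf (nat_lit 84) (nat_lit 38883128) (nat_lit 0) (nat_lit 122043774) (nat_lit 252) (nat_lit 383846638) (nat_lit 33) (nat_lit 1) (nat_lit 32) (nat_lit 1) (nat_lit 35) (nat_lit 1) (nat_lit 419) (nat_lit 349) (nat_lit 312)) (XT.lf (nat_lit 168) (nat_lit 161666071) (nat_lit 0) (nat_lit 168448383) (nat_lit 84) (nat_lit 200097519) (nat_lit 33) (nat_lit 1) (nat_lit 31) (nat_lit 1) (nat_lit 32) (nat_lit 1) (nat_lit 420) (nat_lit 349) (nat_lit 311))) (XT.nd (nat_lit 94) (nat_lit 252) (nat_lit 0) (XT.lf (nat_lit 84) (nat_lit 90427677) (nat_lit 0)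 (nat_lit 87585320) (nat_lit 252) (nat_lit 338149138) (nat_lit 29) (nat_lit 1) (nat_lit 28) (nat_lit 1) (nat_lit 31) (nat_lit 1) (nat_lit 421) (nat_lit 349) (nat_lit 310)) (XT.nd (nat_lit 94) (nat_lit 168) (nat_lit 0) (XT.lf (nat_lit 168) (nat_lit 177590541) (nat_lit 0) (nat_lit 186654519) (nat_lit 84) (nat_lit 138226206) (nat_lit 29) (nat_lit 1) (nat_lit 27) (nat_lit 1) (nat_lit 28) (nat_lit 1) (nat_lit 422) (nat_lit 349) (nat_lit 309)) (XT.lf (nat_lit 84) (nat_lit 133130452) (nat_lit 0) (nat_lit 63434278) (nat_lit 168) (nat_lit 292667814) (nat_lit 26) (nat_lit 1) (nat_lit 25) (nat_lit 1) (nat_lit 27) (nat_lit 1) (nat_lit 423) (nat_lit 349) (nat_lit 308)))))) (XT.nd (nat_lit 63920) (nat_lit 0) (nat_lit 8484) (XT.nd (nat_lit 63638) (nat_lit 0) (nat_lit 8904) (XT.nd (nat_lit 94) (nat_lit 168) (nat_lit 0) (XT.lf (nat_lit 168) (nat_lit 184997111) (nat_lit 0) (nat_lit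 205868418) (nat_lit 84) (nat_lit 85480261) (nat_lit 26) (nat_lit 1) (nat_lit 24) (nat_lit 1) (nat_lit 25) (nat_lit 1) (nat_lit 424) (nat_lit 349) (nat_lit 307)) (XT.lf (nat_lit 84) (nat_lit 168397643) (nat_lit 0) (nat_lit 47322798) (nat_lit 168) (nat_lit 248134977) (nat_lit 23) (nat_lit 1) (nat_lit 22) (nat_lit 1) (nat_lit 24) (nat_lit 1) (nat_lit 425) (nat_lit 349) (nat_lit 306))) (XT.nd (nat_lit 94) (nat_lit 0) (nat_lit 84) (XT.lf (nat_lit 924) (nat_lit 248892680) (nat_lit 0) (nat_lit 441908381) (nat_lit 924) (nat_lit 248892680) (nat_lit 139) (nat_lit 1) (nat_lit 128) (nat_lit 0) (nat_lit 139) (nat_lit 0) (nat_lit 380) (nat_lit 350) (nat_lit 350)) (XT.nd (nat_lit 94) (nat_lit 0) (nat_lit 0) (XT.lf (nat_lit 924) (nat_lit 92844606) (nat_lit 0) (nat_lit 867600084) (nat_lit 840) (nat_lit 848509983) (nat_lit 140) (nat_lit 1) (nat_lit 129) (nat_lit 1) (nat_lit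 139) (nat_lit 1) (nat_lit 381) (nat_lit 350) (nat_lit 349)) (XT.lf (nat_lit 924) (nat_lit 852724121) (nat_lit 84) (nat_lit 581032068) (nat_lit 0) (nat_lit 308152904) (nat_lit 140) (nat_lit 1) (nat_lit 130) (nat_lit 1) (nat_lit 129) (nat_lit 1) (nat_lit 382) (nat_lit 350) (nat_lit 348))))) (XT.nd (nat_lit 188) (nat_lit 588) (nat_lit 0) (XT.nd (nat_lit 94) (nat_lit 0) (nat_lit 84) (XT.lf (nat_lit 924) (nat_lit 736823497) (nat_lit 84) (nat_lit 243506512) (nat_lit 0) (nat_lit 697888637) (nat_lit 141) (nat_lit 1) (nat_lit 131) (nat_lit 1) (nat_lit 130) (nat_lit 1) (nat_lit 383) (nat_lit 350) (nat_lit 347)) (XT.lf (nat_lit 924) (nat_lit 545312030) (nat_lit 0) (nat_lit 1020253033) (nat_lit 840) (nat_lit 52155189) (nat_lit 142) (nat_lit 1) (nat_lit 131) (nat_lit 1) (nat_lit 141) (nat_lit 1) (nat_lit 384) (nat_lit 350) (nat_lit 346))) (XT.nd (nat_lit 94) (nat_lit 756)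 (nat_lit 0) (XT.lf (nat_lit 924) (nat_lit 130842275) (nat_lit 0) (nat_lit 1125112406) (nat_lit 840) (nat_lit 304156399) (nat_lit 143) (nat_lit 1) (nat_lit 132) (nat_lit 1) (nat_lit 142) (nat_lit 1) (nat_lit 385) (nat_lit 350) (nat_lit 345)) (XT.nd (nat_lit 94) (nat_lit 756) (nat_lit 0) (XT.lf (nat_lit 924) (nat_lit 251425634) (nat_lit 84) (nat_lit 977814303) (nat_lit 0) (nat_lit 275951260) (nat_lit 143) (nat_lit 1) (nat_lit 133) (nat_lit 1) (nat_lit 132) (nat_lit 1) (nat_lit 386) (nat_lit 350) (nat_lit 344)) (XT.lf (nat_lit 924) (nat_lit 51637092) (nat_lit 0) (nat_lit 730980871) (nat_lit 840) (nat_lit 670301800) (nat_lit 134) (nat_lit 1) (nat_lit 123) (nat_lit 1) (nat_lit 133) (nat_lit 1) (nat_lit 387) (nat_lit 350) (nat_lit 343))))))))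
noncomputable def ec12 : XT := (XT.nd (nat_lit 1692) (nat_lit 3024) (nat_lit 0) (XT.nd (nat_lit 846) (nat_lit 2436) (nat_lit 0) (XT.nd (nat_lit 376) (nat_lit 1344) (nat_lit 0) (XT.nd (nat_lit 188) (nat_lit 756) (nat_lit 0) (XT.nd (nat_lit 94) (nat_lit 420) (nat_lit 0) (XT.lf (nat_lit 84) (nat_lit 357545982) (nat_lit 0) (nat_lit 154941312) (nat_lit 588) (nat_lit 890636036) (nat_lit 117) (nat_lit 1) (nat_lit 116) (nat_lit 1) (nat_lit 123) (nat_lit 1) (nat_lit 388) (nat_lit 350) (nat_lit 342)) (XT.lf (nat_lit 504) (nat_lit 985351723) (nat_lit 0) (nat_lit 320753228) (nat_lit 420) (nat_lit 49590431) (nat_lit 117) (nat_lit 1) (nat_lit 111) (nat_lit 1) (nat_lit 116) (nat_lit 1) (nat_lit 389) (nat_lit 350) (nat_lit 341))) (XT.nd (nat_lit 94) (nat_lit 336) (nat_lit 0) (XT.lf (nat_lit 504) (nat_lit 711039186) (nat_lit 0) (nat_lit 149504461) (nat_lit 420) (nat_lit 449763103)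 (nat_lit 112) (nat_lit 1) (nat_lit 106) (nat_lit 1) (nat_lit 111) (nat_lit 1) (nat_lit 390) (nat_lit 350) (nat_lit 340)) (XT.lf (nat_lit 420) (nat_lit 432658276) (nat_lit 0) (nat_lit 2752620) (nat_lit 336) (nat_lit 831708019) (nat_lit 107) (nat_lit 1) (nat_lit 102) (nat_lit 1) (nat_lit 106) (nat_lit 1) (nat_lit 391) (nat_lit 350) (nat_lit 339)))) (XT.nd (nat_lit 188) (nat_lit 924) (nat_lit 0) (XT.nd (nat_lit 94) (nat_lit 420) (nat_lit 0) (XT.lf (nat_lit 84) (nat_lit 31919482) (nat_lit 0) (nat_lit 1076479632) (nat_lit 420) (nat_lit 117518682) (nat_lit 103) (nat_lit 1) (nat_lit 102) (nat_lit 1) (nat_lit 107) (nat_lit 1) (nat_lit 392) (nat_lit 350) (nat_lit 338)) (XT.lf (nat_lit 84) (nat_lit 824169327) (nat_lit 0) (nat_lit 136697301) (nat_lit 420) (nat_lit 225438676) (nat_lit 98) (nat_lit 1) (nat_lit 97) (nat_lit 1) (nat_lit 102) (nat_lit 1) (nat_lit 393) (nat_lit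 350) (nat_lit 337))) (XT.nd (nat_lit 94) (nat_lit 588) (nat_lit 0) (XT.lf (nat_lit 84) (nat_lit 412352799) (nat_lit 0) (nat_lit 418728100) (nat_lit 420) (nat_lit 317362195) (nat_lit 94) (nat_lit 1) (nat_lit 93) (nat_lit 1) (nat_lit 98) (nat_lit 1) (nat_lit 394) (nat_lit 350) (nat_lit 336)) (XT.nd (nat_lit 94) (nat_lit 252) (nat_lit 0) (XT.lf (nat_lit 84) (nat_lit 20352819) (nat_lit 0) (nat_lit 700106882) (nat_lit 420) (nat_lit 391913833) (nat_lit 90) (nat_lit 1) (nat_lit 89) (nat_lit 1) (nat_lit 94) (nat_lit 1) (nat_lit 395) (nat_lit 350) (nat_lit 335)) (XT.lf (nat_lit 336) (nat_lit 91912187) (nat_lit 0) (nat_lit 621558126) (nat_lit 252) (nat_lit 364247347) (nat_lit 90) (nat_lit 1) (nat_lit 86) (nat_lit 1) (nat_lit 89) (nat_lit 1) (nat_lit 396) (nat_lit 350) (nat_lit 334)))))) (XT.nd (nat_lit 376) (nat_lit 1176) (nat_lit 0) (XT.nd (nat_lit 188) (nat_lit 588)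 (nat_lit 0) (XT.nd (nat_lit 94) (nat_lit 252) (nat_lit 0) (XT.lf (nat_lit 84) (nat_lit 317581318) (nat_lit 0) (nat_lit 217672208) (nat_lit 420) (nat_lit 509239956) (nat_lit 82) (nat_lit 1) (nat_lit 81) (nat_lit 1) (nat_lit 86) (nat_lit 1) (nat_lit 397) (nat_lit 350) (nat_lit 333)) (XT.lf (nat_lit 336) (nat_lit 491692269) (nat_lit 0) (nat_lit 461881337) (nat_lit 252) (nat_lit 59120262) (nat_lit 82) (nat_lit 1) (nat_lit 78) (nat_lit 1) (nat_lit 81) (nat_lit 1) (nat_lit 398) (nat_lit 350) (nat_lit 332))) (XT.nd (nat_lit 94) (nat_lit 336) (nat_lit 0) (XT.lf (nat_lit 336) (nat_lit 157584996) (nat_lit 0) (nat_lit 397660917) (nat_lit 252) (nat_lit 426870408) (nat_lit 79) (nat_lit 1) (nat_lit 75) (nat_lit 1) (nat_lit 78) (nat_lit 1) (nat_lit 399) (nat_lit 350) (nat_lit 331)) (XT.lf (nat_lit 84) (nat_lit 179608818) (nat_lit 0) (nat_lit 164447481) (nat_lit 336) (nat_lit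 608752418) (nat_lit 72) (nat_lit 1) (nat_lit 71) (nat_lit 1) (nat_lit 75) (nat_lit 1) (nat_lit 400) (nat_lit 350) (nat_lit 330)))) (XT.nd (nat_lit 188) (nat_lit 756) (nat_lit 0) (XT.nd (nat_lit 94) (nat_lit 168) (nat_lit 0) (XT.lf (nat_lit 336) (nat_lit 446932971) (nat_lit 0) (nat_lit 297372637) (nat_lit 252) (nat_lit 180268270) (nat_lit 72) (nat_lit 1) (nat_lit 68) (nat_lit 1) (nat_lit 71) (nat_lit 1) (nat_lit 401) (nat_lit 350) (nat_lit 329)) (XT.lf (nat_lit 252) (nat_lit 110795343) (nat_lit 0) (nat_lit 259435935) (nat_lit 168) (nat_lit 527246833) (nat_lit 69) (nat_lit 1) (nat_lit 66) (nat_lit 1) (nat_lit 68) (nat_lit 1) (nat_lit 402) (nat_lit 350) (nat_lit 328))) (XT.nd (nat_lit 94) (nat_lit 420) (nat_lit 0) (XT.lf (nat_lit 84) (nat_lit 18769439) (nat_lit 0) (nat_lit 210034097) (nat_lit 336) (nat_lit 642629111) (nat_lit 63) (nat_lit 1) (nat_lit 62) (nat_lit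 1) (nat_lit 66) (nat_lit 1) (nat_lit 403) (nat_lit 350) (nat_lit 327)) (XT.nd (nat_lit 94) (nat_lit 252) (nat_lit 0) (XT.lf (nat_lit 252) (nat_lit 321950939) (nat_lit 0) (nat_lit 201191716) (nat_lit 168) (nat_lit 323071331) (nat_lit 63) (nat_lit 1) (nat_lit 60) (nat_lit 1) (nat_lit 62) (nat_lit 1) (nat_lit 404) (nat_lit 350) (nat_lit 326)) (XT.lf (nat_lit 84) (nat_lit 174677125) (nat_lit 0) (nat_lit 8068445) (nat_lit 252) (nat_lit 639350211) (nat_lit 58) (nat_lit 1) (nat_lit 57) (nat_lit 1) (nat_lit 60) (nat_lit 1) (nat_lit 405) (nat_lit 350) (nat_lit 325))))))) (XT.nd (nat_lit 846) (nat_lit 1512) (nat_lit 0) (XT.nd (nat_lit 376) (nat_lit 756) (nat_lit 0) (XT.nd (nat_lit 188) (nat_lit 420) (nat_lit 0) (XT.nd (nat_lit 94) (nat_lit 168) (nat_lit 0) (XT.lf (nat_lit 252) (nat_lit 477533529) (nat_lit 0) (nat_lit 165476075) (nat_lit 168) (nat_lit 155669553) (nat_lit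 58) (nat_lit 1) (nat_lit 55) (nat_lit 1) (nat_lit 57) (nat_lit 1) (nat_lit 406) (nat_lit 350) (nat_lit 324)) (XT.lf (nat_lit 252) (nat_lit 148341050) (nat_lit 0) (nat_lit 153828310) (nat_lit 168) (nat_lit 473988493) (nat_lit 56) (nat_lit 1) (nat_lit 53) (nat_lit 1) (nat_lit 55) (nat_lit 1) (nat_lit 407) (nat_lit 350) (nat_lit 323))) (XT.nd (nat_lit 94) (nat_lit 168) (nat_lit 0) (XT.lf (nat_lit 252) (nat_lit 588859452) (nat_lit 0) (nat_lit 146970465) (nat_lit 168) (nat_lit 18644908) (nat_lit 53) (nat_lit 1) (nat_lit 50) (nat_lit 1) (nat_lit 52) (nat_lit 1) (nat_lit 408) (nat_lit 350) (nat_lit 322)) (XT.lf (nat_lit 252) (nat_lit 263546199) (nat_lit 0) (nat_lit 140307243) (nat_lit 168) (nat_lit 329540858) (nat_lit 51) (nat_lit 1) (nat_lit 48) (nat_lit 1) (nat_lit 50) (nat_lit 1) (nat_lit 409) (nat_lit 350) (nat_lit 321)))) (XT.nd (nat_lit 188) (nat_lit 420) (nat_lit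 0) (XT.nd (nat_lit 94) (nat_lit 168) (nat_lit 0) (XT.lf (nat_lit 84) (nat_lit 90274748) (nat_lit 0) (nat_lit 49619069) (nat_lit 168) (nat_lit 573294323) (nat_lit 47) (nat_lit 1) (nat_lit 46) (nat_lit 1) (nat_lit 48) (nat_lit 1) (nat_lit 410) (nat_lit 350) (nat_lit 320)) (XT.lf (nat_lit 252) (nat_lit 345787770) (nat_lit 0) (nat_lit 138412498) (nat_lit 168) (nat_lit 209291596) (nat_lit 47) (nat_lit 1) (nat_lit 44) (nat_lit 1) (nat_lit 46) (nat_lit 1) (nat_lit 411) (nat_lit 350) (nat_lit 319))) (XT.nd (nat_lit 94) (nat_lit 336) (nat_lit 0) (XT.lf (nat_lit 168) (nat_lit 37236429) (nat_lit 0) (nat_lit 141812088) (nat_lit 84) (nat_lit 495524656) (nat_lit 45) (nat_lit 1) (nat_lit 43) (nat_lit 1) (nat_lit 44) (nat_lit 1) (nat_lit 412) (nat_lit 350) (nat_lit 318)) (XT.nd (nat_lit 94) (nat_lit 84) (nat_lit 0) (XT.lf (nat_lit 252) (nat_lit 401953507) (nat_lit 0) (nat_lit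 145035923) (nat_lit 168) (nat_lit 109186697) (nat_lit 43) (nat_lit 1) (nat_lit 40) (nat_lit 1) (nat_lit 42) (nat_lit 1) (nat_lit 413) (nat_lit 350) (nat_lit 317)) (XT.lf (nat_lit 168) (nat_lit 101094271) (nat_lit 0) (nat_lit 150458962) (nat_lit 84) (nat_lit 386845866) (nat_lit 41) (nat_lit 1) (nat_lit 39) (nat_lit 1) (nat_lit 40) (nat_lit 1) (nat_lit 414) (nat_lit 350) (nat_lit 316)))))) (XT.nd (nat_lit 470) (nat_lit 588) (nat_lit 0) (XT.nd (nat_lit 188) (nat_lit 588) (nat_lit 0) (XT.nd (nat_lit 94) (nat_lit 84) (nat_lit 0) (XT.lf (nat_lit 252) (nat_lit 437612237) (nat_lit 0) (nat_lit 157715643) (nat_lit 168) (nat_lit 25882487) (nat_lit 39) (nat_lit 1) (nat_lit 36) (nat_lit 1) (nat_lit 38) (nat_lit 1) (nat_lit 415) (nat_lit 350) (nat_lit 315)) (XT.lf (nat_lit 168) (nat_lit 145488525) (nat_lit 0) (nat_lit 164420453) (nat_lit 84) (nat_lit 294573441) (nat_lit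 37) (nat_lit 1) (nat_lit 35) (nat_lit 1) (nat_lit 36) (nat_lit 1) (nat_lit 416) (nat_lit 350) (nat_lit 314))) (XT.nd (nat_lit 94) (nat_lit 336) (nat_lit 0) (XT.lf (nat_lit 84) (nat_lit 41993778) (nat_lit 0) (nat_lit 131807276) (nat_lit 252) (nat_lit 414554369) (nat_lit 33) (nat_lit 1) (nat_lit 32) (nat_lit 1) (nat_lit 35) (nat_lit 1) (nat_lit 417) (nat_lit 350) (nat_lit 313)) (XT.nd (nat_lit 94) (nat_lit 252) (nat_lit 0) (XT.lf (nat_lit 168) (nat_lit 174599356) (nat_lit 0) (nat_lit 181924253) (nat_lit 84) (nat_lit 216105321) (nat_lit 33) (nat_lit 1) (nat_lit 31) (nat_lit 1) (nat_lit 32) (nat_lit 1) (nat_lit 418) (nat_lit 350) (nat_lit 312)) (XT.lf (nat_lit 84) (nat_lit 97661891) (nat_lit 0) (nat_lit 94592146) (nat_lit 252) (nat_lit 365201069) (nat_lit 29) (nat_lit 1) (nat_lit 28) (nat_lit 1) (nat_lit 31) (nat_lit 1) (nat_lit 419) (nat_lit 350) (nat_lit 311)))))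 (XT.nd (nat_lit 188) (nat_lit 336) (nat_lit 0) (XT.nd (nat_lit 94) (nat_lit 168) (nat_lit 0) (XT.lf (nat_lit 168) (nat_lit 191797785) (nat_lit 0) (nat_lit 201586881) (nat_lit 84) (nat_lit 149284302) (nat_lit 29) (nat_lit 1) (nat_lit 27) (nat_lit 1) (nat_lit 28) (nat_lit 1) (nat_lit 420) (nat_lit 350) (nat_lit 310)) (XT.lf (nat_lit 84) (nat_lit 143780888) (nat_lit 0) (nat_lit 68509020) (nat_lit 168) (nat_lit 316081239) (nat_lit 26) (nat_lit 1) (nat_lit 25) (nat_lit 1) (nat_lit 27) (nat_lit 1) (nat_lit 421) (nat_lit 350) (nat_lit 309))) (XT.nd (nat_lit 94) (nat_lit 252) (nat_lit 0) (XT.lf (nat_lit 168) (nat_lit 199796880) (nat_lit 0) (nat_lit 222337892) (nat_lit 84) (nat_lit 92318682) (nat_lit 26) (nat_lit 1) (nat_lit 24) (nat_lit 1) (nat_lit 25) (nat_lit 1) (nat_lit 422) (nat_lit 350) (nat_lit 308)) (XT.nd (nat_lit 94) (nat_lit 84) (nat_lit 0) (XT.lf (nat_lit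 84) (nat_lit 181869455) (nat_lit 0) (nat_lit 51108622) (nat_lit 168) (nat_lit 267985775) (nat_lit 23) (nat_lit 1) (nat_lit 22) (nat_lit 1) (nat_lit 24) (nat_lit 1) (nat_lit 423) (nat_lit 350) (nat_lit 307)) (XT.lf (nat_lit 168) (nat_lit 200775042) (nat_lit 0) (nat_lit 243358298) (nat_lit 84) (nat_lit 43717317) (nat_lit 23) (nat_lit 1) (nat_lit 21) (nat_lit 1) (nat_lit 22) (nat_lit 1) (nat_lit 424) (nat_lit 350) (nat_lit 306))))))))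
noncomputable def ec13 : XT := (XT.nd (nat_lit 65048) (nat_lit 0) (nat_lit 1344) (XT.nd (nat_lit 64108) (nat_lit 0) (nat_lit 5208) (XT.nd (nat_lit 63638) (nat_lit 0) (nat_lit 8736) (XT.nd (nat_lit 63450) (nat_lit 0) (nat_lit 9240) (XT.nd (nat_lit 63356) (nat_lit 0) (nat_lit 9156) (XT.lf (nat_lit 84) (nat_lit 213189791) (nat_lit 0) (nat_lit 40421506) (nat_lit 168) (nat_lit 221498094) (nat_lit 20) (nat_lit 1) (nat_lit 19) (nat_lit 1) (nat_lit 21) (nat_lit 1) (nat_lit 425) (nat_lit 350) (nat_lit 305)) (XT.lf (nat_lit 924) (nat_lit 268804094) (nat_lit 0) (nat_lit 477261051) (nat_lit 924) (nat_lit 268804094) (nat_lit 139) (nat_lit 1) (nat_lit 128) (nat_lit 0) (nat_lit 139) (nat_lit 0) (nat_lit 378) (nat_lit 351) (nat_lit 351))) (XT.nd (nat_lit 94) (nat_lit 0) (nat_lit 0) (XT.lf (nat_lit 924) (nat_lit 100272175) (nat_lit 0) (nat_lit 937008091) (nat_lit 840) (nat_lit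 916390782) (nat_lit 140) (nat_lit 1) (nat_lit 129) (nat_lit 1) (nat_lit 139) (nat_lit 1) (nat_lit 379) (nat_lit 351) (nat_lit 350)) (XT.lf (nat_lit 924) (nat_lit 920942051) (nat_lit 84) (nat_lit 627514634) (nat_lit 0) (nat_lit 332805137) (nat_lit 140) (nat_lit 1) (nat_lit 130) (nat_lit 1) (nat_lit 129) (nat_lit 1) (nat_lit 380) (nat_lit 351) (nat_lit 349)))) (XT.nd (nat_lit 188) (nat_lit 588) (nat_lit 0) (XT.nd (nat_lit 94) (nat_lit 0) (nat_lit 84) (XT.lf (nat_lit 924) (nat_lit 795769377) (nat_lit 84) (nat_lit 262987033) (nat_lit 0) (nat_lit 753719728) (nat_lit 141) (nat_lit 1) (nat_lit 131) (nat_lit 1) (nat_lit 130) (nat_lit 1) (nat_lit 381) (nat_lit 351) (nat_lit 348)) (XT.lf (nat_lit 924) (nat_lit 588936993) (nat_lit 0) (nat_lit 1101873276) (nat_lit 840) (nat_lit 56327604) (nat_lit 142) (nat_lit 1) (nat_lit 131) (nat_lit 1) (nat_lit 141) (nat_lit 1) (nat_lit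 382) (nat_lit 351) (nat_lit 347))) (XT.nd (nat_lit 94) (nat_lit 756) (nat_lit 0) (XT.lf (nat_lit 924) (nat_lit 141309657) (nat_lit 0) (nat_lit 1215121399) (nat_lit 840) (nat_lit 328488911) (nat_lit 143) (nat_lit 1) (nat_lit 132) (nat_lit 1) (nat_lit 142) (nat_lit 1) (nat_lit 383) (nat_lit 351) (nat_lit 346)) (XT.nd (nat_lit 94) (nat_lit 756) (nat_lit 0) (XT.lf (nat_lit 924) (nat_lit 271539685) (nat_lit 84) (nat_lit 1056039447) (nat_lit 0) (nat_lit 298027361) (nat_lit 143) (nat_lit 1) (nat_lit 133) (nat_lit 1) (nat_lit 132) (nat_lit 1) (nat_lit 384) (nat_lit 351) (nat_lit 345)) (XT.lf (nat_lit 924) (nat_lit 55768059) (nat_lit 0) (nat_lit 789459341) (nat_lit 840) (nat_lit 723925944) (nat_lit 134) (nat_lit 1) (nat_lit 123) (nat_lit 1) (nat_lit 133) (nat_lit 1) (nat_lit 385) (nat_lit 351) (nat_lit 344)))))) (XT.nd (nat_lit 470) (nat_lit 1764) (nat_lit 0) (XT.nd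 (nat_lit 188) (nat_lit 756) (nat_lit 0) (XT.nd (nat_lit 94) (nat_lit 420) (nat_lit 0) (XT.lf (nat_lit 84) (nat_lit 386149660) (nat_lit 0) (nat_lit 167336617) (nat_lit 588) (nat_lit 961886919) (nat_lit 117) (nat_lit 1) (nat_lit 116) (nat_lit 1) (nat_lit 123) (nat_lit 1) (nat_lit 386) (nat_lit 351) (nat_lit 343)) (XT.lf (nat_lit 504) (nat_lit 1064179861) (nat_lit 0) (nat_lit 346413486) (nat_lit 420) (nat_lit 53557665) (nat_lit 117) (nat_lit 1) (nat_lit 111) (nat_lit 1) (nat_lit 116) (nat_lit 1) (nat_lit 387) (nat_lit 351) (nat_lit 342))) (XT.nd (nat_lit 94) (nat_lit 336) (nat_lit 0) (XT.lf (nat_lit 504) (nat_lit 767922321) (nat_lit 0) (nat_lit 161464818) (nat_lit 420) (nat_lit 485744151) (nat_lit 112) (nat_lit 1) (nat_lit 106) (nat_lit 1) (nat_lit 111) (nat_lit 1) (nat_lit 388) (nat_lit 351) (nat_lit 341)) (XT.nd (nat_lit 94) (nat_lit 0) (nat_lit 0) (XT.lf (nat_lit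 420) (nat_lit 467270938) (nat_lit 0) (nat_lit 2972829) (nat_lit 336) (nat_lit 898244660) (nat_lit 107) (nat_lit 1) (nat_lit 102) (nat_lit 1) (nat_lit 106) (nat_lit 1) (nat_lit 389) (nat_lit 351) (nat_lit 340)) (XT.lf (nat_lit 84) (nat_lit 34473041) (nat_lit 0) (nat_lit 1162598003) (nat_lit 420) (nat_lit 126920177) (nat_lit 103) (nat_lit 1) (nat_lit 102) (nat_lit 1) (nat_lit 107) (nat_lit 1) (nat_lit 390) (nat_lit 351) (nat_lit 339))))) (XT.nd (nat_lit 188) (nat_lit 1008) (nat_lit 0) (XT.nd (nat_lit 94) (nat_lit 336) (nat_lit 0) (XT.lf (nat_lit 84) (nat_lit 890102874) (nat_lit 0) (nat_lit 147633085) (nat_lit 420) (nat_lit 243473770) (nat_lit 98) (nat_lit 1) (nat_lit 97) (nat_lit 1) (nat_lit 102) (nat_lit 1) (nat_lit 391) (nat_lit 351) (nat_lit 338)) (XT.lf (nat_lit 84) (nat_lit 445341023) (nat_lit 0) (nat_lit 452226348) (nat_lit 420) (nat_lit 342751170) (nat_lit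 94) (nat_lit 1) (nat_lit 93) (nat_lit 1) (nat_lit 98) (nat_lit 1) (nat_lit 392) (nat_lit 351) (nat_lit 337))) (XT.nd (nat_lit 94) (nat_lit 672) (nat_lit 0) (XT.lf (nat_lit 84) (nat_lit 21981045) (nat_lit 0) (nat_lit 756115433) (nat_lit 420) (nat_lit 423266940) (nat_lit 90) (nat_lit 1) (nat_lit 89) (nat_lit 1) (nat_lit 94) (nat_lit 1) (nat_lit 393) (nat_lit 351) (nat_lit 336)) (XT.nd (nat_lit 94) (nat_lit 420) (nat_lit 0) (XT.lf (nat_lit 336) (nat_lit 99265162) (nat_lit 0) (nat_lit 671282776) (nat_lit 252) (nat_lit 393387134) (nat_lit 90) (nat_lit 1) (nat_lit 86) (nat_lit 1) (nat_lit 89) (nat_lit 1) (nat_lit 394) (nat_lit 351) (nat_lit 335)) (XT.lf (nat_lit 84) (nat_lit 342987823) (nat_lit 0) (nat_lit 235085985) (nat_lit 420) (nat_lit 549979152) (nat_lit 82) (nat_lit 1) (nat_lit 81) (nat_lit 1) (nat_lit 86) (nat_lit 1) (nat_lit 395) (nat_lit 351) (nat_lit 334)))))))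 (XT.nd (nat_lit 846) (nat_lit 1680) (nat_lit 0) (XT.nd (nat_lit 376) (nat_lit 1092) (nat_lit 0) (XT.nd (nat_lit 188) (nat_lit 588) (nat_lit 0) (XT.nd (nat_lit 94) (nat_lit 252) (nat_lit 0) (XT.lf (nat_lit 336) (nat_lit 531027650) (nat_lit 0) (nat_lit 498831843) (nat_lit 252) (nat_lit 63849884) (nat_lit 82) (nat_lit 1) (nat_lit 78) (nat_lit 1) (nat_lit 81) (nat_lit 1) (nat_lit 396) (nat_lit 351) (nat_lit 333)) (XT.lf (nat_lit 336) (nat_lit 170191796) (nat_lit 0) (nat_lit 429473790) (nat_lit 252) (nat_lit 461020041) (nat_lit 79) (nat_lit 1) (nat_lit 75) (nat_lit 1) (nat_lit 78) (nat_lit 1) (nat_lit 397) (nat_lit 351) (nat_lit 332))) (XT.nd (nat_lit 94) (nat_lit 252) (nat_lit 0) (XT.lf (nat_lit 84) (nat_lit 193977524) (nat_lit 0) (nat_lit 177603280) (nat_lit 336) (nat_lit 657452612) (nat_lit 72) (nat_lit 1) (nat_lit 71) (nat_lit 1) (nat_lit 75) (nat_lit 1) (nat_lit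 398) (nat_lit 351) (nat_lit 331)) (XT.lf (nat_lit 336) (nat_lit 482687609) (nat_lit 0) (nat_lit 321162448) (nat_lit 252) (nat_lit 194689732) (nat_lit 72) (nat_lit 1) (nat_lit 68) (nat_lit 1) (nat_lit 71) (nat_lit 1) (nat_lit 399) (nat_lit 351) (nat_lit 330)))) (XT.nd (nat_lit 188) (nat_lit 588) (nat_lit 0) (XT.nd (nat_lit 94) (nat_lit 336) (nat_lit 0) (XT.lf (nat_lit 252) (nat_lit 119658971) (nat_lit 0) (nat_lit 280190810) (nat_lit 168) (nat_lit 569426579) (nat_lit 69) (nat_lit 1) (nat_lit 66) (nat_lit 1) (nat_lit 68) (nat_lit 1) (nat_lit 400) (nat_lit 351) (nat_lit 329)) (XT.lf (nat_lit 84) (nat_lit 20270994) (nat_lit 0) (nat_lit 226836825) (nat_lit 336) (nat_lit 694039440) (nat_lit 63) (nat_lit 1) (nat_lit 62) (nat_lit 1) (nat_lit 66) (nat_lit 1) (nat_lit 401) (nat_lit 351) (nat_lit 328))) (XT.nd (nat_lit 94) (nat_lit 420) (nat_lit 0) (XT.lf (nat_lit 252)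 (nat_lit 347707014) (nat_lit 0) (nat_lit 217287054) (nat_lit 168) (nat_lit 348917038) (nat_lit 63) (nat_lit 1) (nat_lit 60) (nat_lit 1) (nat_lit 62) (nat_lit 1) (nat_lit 402) (nat_lit 351) (nat_lit 327)) (XT.nd (nat_lit 94) (nat_lit 168) (nat_lit 0) (XT.lf (nat_lit 84) (nat_lit 188651295) (nat_lit 0) (nat_lit 8713921) (nat_lit 252) (nat_lit 690498228) (nat_lit 58) (nat_lit 1) (nat_lit 57) (nat_lit 1) (nat_lit 60) (nat_lit 1) (nat_lit 403) (nat_lit 351) (nat_lit 326)) (XT.lf (nat_lit 252) (nat_lit 515736211) (nat_lit 0) (nat_lit 178714161) (nat_lit 168) (nat_lit 168123118) (nat_lit 58) (nat_lit 1) (nat_lit 55) (nat_lit 1) (nat_lit 57) (nat_lit 1) (nat_lit 404) (nat_lit 351) (nat_lit 325)))))) (XT.nd (nat_lit 470) (nat_lit 756) (nat_lit 0) (XT.nd (nat_lit 188) (nat_lit 504) (nat_lit 0) (XT.nd (nat_lit 94) (nat_lit 252) (nat_lit 0) (XT.lf (nat_lit 252) (nat_lit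 160208334) (nat_lit 0) (nat_lit 166134575) (nat_lit 168) (nat_lit 511907573) (nat_lit 56) (nat_lit 1) (nat_lit 53) (nat_lit 1) (nat_lit 55) (nat_lit 1) (nat_lit 405) (nat_lit 351) (nat_lit 324)) (XT.lf (nat_lit 252) (nat_lit 635968209) (nat_lit 0) (nat_lit 158728102) (nat_lit 168) (nat_lit 20136501) (nat_lit 53) (nat_lit 1) (nat_lit 50) (nat_lit 1) (nat_lit 52) (nat_lit 1) (nat_lit 406) (nat_lit 351) (nat_lit 323))) (XT.nd (nat_lit 94) (nat_lit 336) (nat_lit 0) (XT.lf (nat_lit 252) (nat_lit 284629895) (nat_lit 0) (nat_lit 151531823) (nat_lit 168) (nat_lit 355904126) (nat_lit 51) (nat_lit 1) (nat_lit 48) (nat_lit 1) (nat_lit 50) (nat_lit 1) (nat_lit 407) (nat_lit 351) (nat_lit 322)) (XT.nd (nat_lit 94) (nat_lit 168) (nat_lit 0) (XT.lf (nat_lit 84) (nat_lit 97496728) (nat_lit 0) (nat_lit 53588595) (nat_lit 168) (nat_lit 619157869) (nat_lit 47) (nat_lit 1) (nat_lit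 46) (nat_lit 1) (nat_lit 48) (nat_lit 1) (nat_lit 408) (nat_lit 351) (nat_lit 321)) (XT.lf (nat_lit 252) (nat_lit 373450792) (nat_lit 0) (nat_lit 149485498) (nat_lit 168) (nat_lit 226034924) (nat_lit 47) (nat_lit 1) (nat_lit 44) (nat_lit 1) (nat_lit 46) (nat_lit 1) (nat_lit 409) (nat_lit 351) (nat_lit 320))))) (XT.nd (nat_lit 188) (nat_lit 420) (nat_lit 0) (XT.nd (nat_lit 94) (nat_lit 252) (nat_lit 0) (XT.lf (nat_lit 168) (nat_lit 40215343) (nat_lit 0) (nat_lit 153157055) (nat_lit 84) (nat_lit 535166628) (nat_lit 45) (nat_lit 1) (nat_lit 43) (nat_lit 1) (nat_lit 44) (nat_lit 1) (nat_lit 410) (nat_lit 351) (nat_lit 319)) (XT.lf (nat_lit 252) (nat_lit 434109787) (nat_lit 0) (nat_lit 156638797) (nat_lit 168) (nat_lit 117921633) (nat_lit 43) (nat_lit 1) (nat_lit 40) (nat_lit 1) (nat_lit 42) (nat_lit 1) (nat_lit 411) (nat_lit 351) (nat_lit 318))) (XT.nd (nat_lit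 94) (nat_lit 336) (nat_lit 0) (XT.lf (nat_lit 168) (nat_lit 109181812) (nat_lit 0) (nat_lit 162495679) (nat_lit 84) (nat_lit 417793535) (nat_lit 41) (nat_lit 1) (nat_lit 39) (nat_lit 1) (nat_lit 40) (nat_lit 1) (nat_lit 412) (nat_lit 351) (nat_lit 317)) (XT.nd (nat_lit 94) (nat_lit 84) (nat_lit 0) (XT.lf (nat_lit 252) (nat_lit 472621216) (nat_lit 0) (nat_lit 170332894) (nat_lit 168) (nat_lit 27953086) (nat_lit 39) (nat_lit 1) (nat_lit 36) (nat_lit 1) (nat_lit 38) (nat_lit 1) (nat_lit 413) (nat_lit 351) (nat_lit 316)) (XT.lf (nat_lit 168) (nat_lit 157127607) (nat_lit 0) (nat_lit 177574089) (nat_lit 84) (nat_lit 318139316) (nat_lit 37) (nat_lit 1) (nat_lit 35) (nat_lit 1) (nat_lit 36) (nat_lit 1) (nat_lit 414) (nat_lit 351) (nat_lit 315))))))))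
noncomputable def ec14 : XT := (XT.nd (nat_lit 64672) (nat_lit 0) (nat_lit 3780) (XT.nd (nat_lit 846) (nat_lit 336) (nat_lit 0) (XT.nd (nat_lit 376) (nat_lit 672) (nat_lit 0) (XT.nd (nat_lit 188) (nat_lit 336) (nat_lit 0) (XT.nd (nat_lit 94) (nat_lit 84) (nat_lit 0) (XT.lf (nat_lit 84) (nat_lit 45353280) (nat_lit 0) (nat_lit 142351858) (nat_lit 252) (nat_lit 447718718) (nat_lit 33) (nat_lit 1) (nat_lit 32) (nat_lit 1) (nat_lit 35) (nat_lit 1) (nat_lit 415) (nat_lit 351) (nat_lit 314)) (XT.lf (nat_lit 168) (nat_lit 188567305) (nat_lit 0) (nat_lit 196478194) (nat_lit 84) (nat_lit 233393747) (nat_lit 33) (nat_lit 1) (nat_lit 31) (nat_lit 1) (nat_lit 32) (nat_lit 1) (nat_lit 416) (nat_lit 351) (nat_lit 313))) (XT.nd (nat_lit 94) (nat_lit 84) (nat_lit 0) (XT.lf (nat_lit 84) (nat_lit 105474843) (nat_lit 0) (nat_lit 102159517) (nat_lit 252) (nat_lit 394417155) (nat_lit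 29) (nat_lit 1) (nat_lit 28) (nat_lit 1) (nat_lit 31) (nat_lit 1) (nat_lit 417) (nat_lit 351) (nat_lit 312)) (XT.lf (nat_lit 168) (nat_lit 207141608) (nat_lit 0) (nat_lit 217713831) (nat_lit 84) (nat_lit 161227046) (nat_lit 29) (nat_lit 1) (nat_lit 27) (nat_lit 1) (nat_lit 28) (nat_lit 1) (nat_lit 418) (nat_lit 351) (nat_lit 311)))) (XT.nd (nat_lit 188) (nat_lit 420) (nat_lit 0) (XT.nd (nat_lit 94) (nat_lit 84) (nat_lit 0) (XT.lf (nat_lit 84) (nat_lit 155283359) (nat_lit 0) (nat_lit 73989742) (nat_lit 168) (nat_lit 341367738) (nat_lit 26) (nat_lit 1) (nat_lit 25) (nat_lit 1) (nat_lit 27) (nat_lit 1) (nat_lit 419) (nat_lit 351) (nat_lit 310)) (XT.lf (nat_lit 168) (nat_lit 215780630) (nat_lit 0) (nat_lit 240124923) (nat_lit 84) (nat_lit 99704176) (nat_lit 26) (nat_lit 1) (nat_lit 24) (nat_lit 1) (nat_lit 25) (nat_lit 1) (nat_lit 420) (nat_lit 351) (nat_lit 309)))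 (XT.nd (nat_lit 94) (nat_lit 252) (nat_lit 0) (XT.lf (nat_lit 84) (nat_lit 196419011) (nat_lit 0) (nat_lit 55197312) (nat_lit 168) (nat_lit 289424637) (nat_lit 23) (nat_lit 1) (nat_lit 22) (nat_lit 1) (nat_lit 24) (nat_lit 1) (nat_lit 421) (nat_lit 351) (nat_lit 308)) (XT.nd (nat_lit 94) (nat_lit 168) (nat_lit 0) (XT.lf (nat_lit 168) (nat_lit 216837046) (nat_lit 0) (nat_lit 262826962) (nat_lit 84) (nat_lit 47214703) (nat_lit 23) (nat_lit 1) (nat_lit 21) (nat_lit 1) (nat_lit 22) (nat_lit 1) (nat_lit 422) (nat_lit 351) (nat_lit 307)) (XT.lf (nat_lit 84) (nat_lit 230244975) (nat_lit 0) (nat_lit 43655226) (nat_lit 168) (nat_lit 239217942) (nat_lit 20) (nat_lit 1) (nat_lit 19) (nat_lit 1) (nat_lit 21) (nat_lit 1) (nat_lit 423) (nat_lit 351) (nat_lit 306)))))) (XT.nd (nat_lit 63356) (nat_lit 0) (nat_lit 9576) (XT.nd (nat_lit 188) (nat_lit 84) (nat_lit 0) (XT.nd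 (nat_lit 94) (nat_lit 168) (nat_lit 0) (XT.lf (nat_lit 168) (nat_lit 212194632) (nat_lit 0) (nat_lit 285152995) (nat_lit 84) (nat_lit 2415384) (nat_lit 20) (nat_lit 1) (nat_lit 18) (nat_lit 1) (nat_lit 19) (nat_lit 1) (nat_lit 424) (nat_lit 351) (nat_lit 305)) (XT.lf (nat_lit 84) (nat_lit 257896449) (nat_lit 0) (nat_lit 37657395) (nat_lit 168) (nat_lit 191199325) (nat_lit 17) (nat_lit 1) (nat_lit 16) (nat_lit 1) (nat_lit 18) (nat_lit 1) (nat_lit 425) (nat_lit 351) (nat_lit 304))) (XT.nd (nat_lit 63074) (nat_lit 0) (nat_lit 9492) (XT.lf (nat_lit 0) (nat_lit 34670491) (nat_lit 0) (nat_lit 271352137) (nat_lit 168) (nat_lit 168099077) (nat_lit 15) (nat_lit 3) (nat_lit 15) (nat_lit 1) (nat_lit 17) (nat_lit 1) (nat_lit 426) (nat_lit 351) (nat_lit 303)) (XT.lf (nat_lit 924) (nat_lit 290308421) (nat_lit 0) (nat_lit 515441935) (nat_lit 924) (nat_lit 290308421) (nat_lit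 139) (nat_lit 1) (nat_lit 128) (nat_lit 0) (nat_lit 139) (nat_lit 0) (nat_lit 376) (nat_lit 352) (nat_lit 352)))) (XT.nd (nat_lit 188) (nat_lit 0) (nat_lit 84) (XT.nd (nat_lit 94) (nat_lit 0) (nat_lit 0) (XT.lf (nat_lit 924) (nat_lit 108293949) (nat_lit 0) (nat_lit 1011968738) (nat_lit 840) (nat_lit 989702045) (nat_lit 140) (nat_lit 1) (nat_lit 129) (nat_lit 1) (nat_lit 139) (nat_lit 1) (nat_lit 377) (nat_lit 352) (nat_lit 351)) (XT.lf (nat_lit 924) (nat_lit 994617415) (nat_lit 84) (nat_lit 677715805) (nat_lit 0) (nat_lit 359429548) (nat_lit 140) (nat_lit 1) (nat_lit 130) (nat_lit 1) (nat_lit 129) (nat_lit 1) (nat_lit 378) (nat_lit 352) (nat_lit 350))) (XT.nd (nat_lit 94) (nat_lit 0) (nat_lit 84) (XT.lf (nat_lit 924) (nat_lit 859430927) (nat_lit 84) (nat_lit 284025996) (nat_lit 0) (nat_lit 814017306) (nat_lit 141) (nat_lit 1) (nat_lit 131) (nat_lit 1) (nat_lit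 130) (nat_lit 1) (nat_lit 379) (nat_lit 352) (nat_lit 349)) (XT.nd (nat_lit 94) (nat_lit 0) (nat_lit 84) (XT.lf (nat_lit 924) (nat_lit 636051952) (nat_lit 0) (nat_lit 1190023138) (nat_lit 840) (nat_lit 60833812) (nat_lit 142) (nat_lit 1) (nat_lit 131) (nat_lit 1) (nat_lit 141) (nat_lit 1) (nat_lit 380) (nat_lit 352) (nat_lit 348)) (XT.lf (nat_lit 924) (nat_lit 152614429) (nat_lit 0) (nat_lit 1312331111) (nat_lit 840) (nat_lit 354768024) (nat_lit 143) (nat_lit 1) (nat_lit 132) (nat_lit 1) (nat_lit 142) (nat_lit 1) (nat_lit 381) (nat_lit 352) (nat_lit 347))))))) (XT.nd (nat_lit 846) (nat_lit 2772) (nat_lit 0) (XT.nd (nat_lit 376) (nat_lit 1512) (nat_lit 0) (XT.nd (nat_lit 188) (nat_lit 1008) (nat_lit 0) (XT.nd (nat_lit 94) (nat_lit 756) (nat_lit 0) (XT.lf (nat_lit 924) (nat_lit 293262860) (nat_lit 84) (nat_lit 1140522603) (nat_lit 0) (nat_lit 321869550) (nat_lit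 143) (nat_lit 1) (nat_lit 133) (nat_lit 1) (nat_lit 132) (nat_lit 1) (nat_lit 382) (nat_lit 352) (nat_lit 346)) (XT.lf (nat_lit 924) (nat_lit 60229504) (nat_lit 0) (nat_lit 852616088) (nat_lit 840) (nat_lit 781840019) (nat_lit 134) (nat_lit 1) (nat_lit 123) (nat_lit 1) (nat_lit 133) (nat_lit 1) (nat_lit 383) (nat_lit 352) (nat_lit 345))) (XT.nd (nat_lit 94) (nat_lit 420) (nat_lit 0) (XT.lf (nat_lit 84) (nat_lit 417041633) (nat_lit 0) (nat_lit 180723547) (nat_lit 588) (nat_lit 1038837873) (nat_lit 117) (nat_lit 1) (nat_lit 116) (nat_lit 1) (nat_lit 123) (nat_lit 1) (nat_lit 384) (nat_lit 352) (nat_lit 344)) (XT.lf (nat_lit 504) (nat_lit 1149314250) (nat_lit 0) (nat_lit 374126565) (nat_lit 420) (nat_lit 57842278) (nat_lit 117) (nat_lit 1) (nat_lit 111) (nat_lit 1) (nat_lit 116) (nat_lit 1) (nat_lit 385) (nat_lit 352) (nat_lit 343)))) (XT.nd (nat_lit 188) (nat_lit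 756) (nat_lit 0) (XT.nd (nat_lit 94) (nat_lit 336) (nat_lit 0) (XT.lf (nat_lit 504) (nat_lit 829356107) (nat_lit 0) (nat_lit 174382003) (nat_lit 420) (nat_lit 524603683) (nat_lit 112) (nat_lit 1) (nat_lit 106) (nat_lit 1) (nat_lit 111) (nat_lit 1) (nat_lit 386) (nat_lit 352) (nat_lit 342)) (XT.lf (nat_lit 420) (nat_lit 504652613) (nat_lit 0) (nat_lit 3210656) (nat_lit 336) (nat_lit 970104233) (nat_lit 107) (nat_lit 1) (nat_lit 102) (nat_lit 1) (nat_lit 106) (nat_lit 1) (nat_lit 387) (nat_lit 352) (nat_lit 341))) (XT.nd (nat_lit 94) (nat_lit 756) (nat_lit 0) (XT.lf (nat_lit 84) (nat_lit 37230884) (nat_lit 0) (nat_lit 1255605843) (nat_lit 420) (nat_lit 137073791) (nat_lit 103) (nat_lit 1) (nat_lit 102) (nat_lit 1) (nat_lit 107) (nat_lit 1) (nat_lit 388) (nat_lit 352) (nat_lit 340)) (XT.nd (nat_lit 94) (nat_lit 336) (nat_lit 0) (XT.lf (nat_lit 84) (nat_lit 961311104)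 (nat_lit 0) (nat_lit 159443732) (nat_lit 420) (nat_lit 262951672) (nat_lit 98) (nat_lit 1) (nat_lit 97) (nat_lit 1) (nat_lit 102) (nat_lit 1) (nat_lit 389) (nat_lit 352) (nat_lit 339)) (XT.lf (nat_lit 84) (nat_lit 480968305) (nat_lit 0) (nat_lit 488404456) (nat_lit 420) (nat_lit 370171264) (nat_lit 94) (nat_lit 1) (nat_lit 93) (nat_lit 1) (nat_lit 98) (nat_lit 1) (nat_lit 390) (nat_lit 352) (nat_lit 338)))))) (XT.nd (nat_lit 470) (nat_lit 1260) (nat_lit 0) (XT.nd (nat_lit 188) (nat_lit 924) (nat_lit 0) (XT.nd (nat_lit 94) (nat_lit 252) (nat_lit 0) (XT.lf (nat_lit 84) (nat_lit 23739529) (nat_lit 0) (nat_lit 816604667) (nat_lit 420) (nat_lit 457128295) (nat_lit 90) (nat_lit 1) (nat_lit 89) (nat_lit 1) (nat_lit 94) (nat_lit 1) (nat_lit 391) (nat_lit 352) (nat_lit 337)) (XT.lf (nat_lit 336) (nat_lit 107206375) (nat_lit 0) (nat_lit 724985398) (nat_lit 252) (nat_lit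 424858105) (nat_lit 90) (nat_lit 1) (nat_lit 86) (nat_lit 1) (nat_lit 89) (nat_lit 1) (nat_lit 392) (nat_lit 352) (nat_lit 336))) (XT.nd (nat_lit 94) (nat_lit 504) (nat_lit 0) (XT.lf (nat_lit 84) (nat_lit 370426849) (nat_lit 0) (nat_lit 253892864) (nat_lit 420) (nat_lit 593977484) (nat_lit 82) (nat_lit 1) (nat_lit 81) (nat_lit 1) (nat_lit 86) (nat_lit 1) (nat_lit 393) (nat_lit 352) (nat_lit 335)) (XT.nd (nat_lit 94) (nat_lit 252) (nat_lit 0) (XT.lf (nat_lit 336) (nat_lit 573509862) (nat_lit 0) (nat_lit 538738391) (nat_lit 252) (nat_lit 68957874) (nat_lit 82) (nat_lit 1) (nat_lit 78) (nat_lit 1) (nat_lit 81) (nat_lit 1) (nat_lit 394) (nat_lit 352) (nat_lit 334)) (XT.lf (nat_lit 336) (nat_lit 183807140) (nat_lit 0) (nat_lit 463831693) (nat_lit 252) (nat_lit 497901644) (nat_lit 79) (nat_lit 1) (nat_lit 75) (nat_lit 1) (nat_lit 78) (nat_lit 1) (nat_lit 395) (nat_lit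 352) (nat_lit 333))))) (XT.nd (nat_lit 188) (nat_lit 672) (nat_lit 0) (XT.nd (nat_lit 94) (nat_lit 252) (nat_lit 0) (XT.lf (nat_lit 84) (nat_lit 209495726) (nat_lit 0) (nat_lit 191811542) (nat_lit 336) (nat_lit 710048821) (nat_lit 72) (nat_lit 1) (nat_lit 71) (nat_lit 1) (nat_lit 75) (nat_lit 1) (nat_lit 396) (nat_lit 352) (nat_lit 332)) (XT.lf (nat_lit 336) (nat_lit 521302618) (nat_lit 0) (nat_lit 346855444) (nat_lit 252) (nat_lit 210264910) (nat_lit 72) (nat_lit 1) (nat_lit 68) (nat_lit 1) (nat_lit 71) (nat_lit 1) (nat_lit 397) (nat_lit 352) (nat_lit 331))) (XT.nd (nat_lit 94) (nat_lit 504) (nat_lit 0) (XT.lf (nat_lit 252) (nat_lit 129231688) (nat_lit 0) (nat_lit 302606075) (nat_lit 168) (nat_lit 614980706) (nat_lit 69) (nat_lit 1) (nat_lit 66) (nat_lit 1) (nat_lit 68) (nat_lit 1) (nat_lit 398) (nat_lit 352) (nat_lit 330)) (XT.nd (nat_lit 94) (nat_lit 168)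 (nat_lit 0) (XT.lf (nat_lit 84) (nat_lit 21892673) (nat_lit 0) (nat_lit 244983771) (nat_lit 336) (nat_lit 749562595) (nat_lit 63) (nat_lit 1) (nat_lit 62) (nat_lit 1) (nat_lit 66) (nat_lit 1) (nat_lit 399) (nat_lit 352) (nat_lit 329)) (XT.lf (nat_lit 252) (nat_lit 375523575) (nat_lit 0) (nat_lit 234670018) (nat_lit 168) (nat_lit 376830401) (nat_lit 63) (nat_lit 1) (nat_lit 60) (nat_lit 1) (nat_lit 62) (nat_lit 1) (nat_lit 400) (nat_lit 352) (nat_lit 328))))))))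
noncomputable def ec15 : XT := (XT.nd (nat_lit 1786) (nat_lit 840) (nat_lit 0) (XT.nd (nat_lit 846) (nat_lit 1512) (nat_lit 0) (XT.nd (nat_lit 376) (nat_lit 840) (nat_lit 0) (XT.nd (nat_lit 188) (nat_lit 420) (nat_lit 0) (XT.nd (nat_lit 94) (nat_lit 168) (nat_lit 0) (XT.lf (nat_lit 84) (nat_lit 203743398) (nat_lit 0) (nat_lit 9411035) (nat_lit 252) (nat_lit 745738086) (nat_lit 58) (nat_lit 1) (nat_lit 57) (nat_lit 1) (nat_lit 60) (nat_lit 1) (nat_lit 401) (nat_lit 352) (nat_lit 327)) (XT.lf (nat_lit 252) (nat_lit 556995108) (nat_lit 0) (nat_lit 193011293) (nat_lit 168) (nat_lit 181572967) (nat_lit 58) (nat_lit 1) (nat_lit 55) (nat_lit 1) (nat_lit 57) (nat_lit 1) (nat_lit 402) (nat_lit 352) (nat_lit 326))) (XT.nd (nat_lit 94) (nat_lit 252) (nat_lit 0) (XT.lf (nat_lit 252) (nat_lit 173025001) (nat_lit 0) (nat_lit 179425341) (nat_lit 168) (nat_lit 552860179)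 (nat_lit 56) (nat_lit 1) (nat_lit 53) (nat_lit 1) (nat_lit 55) (nat_lit 1) (nat_lit 403) (nat_lit 352) (nat_lit 325)) (XT.lf (nat_lit 252) (nat_lit 686845665) (nat_lit 0) (nat_lit 171426350) (nat_lit 168) (nat_lit 21747421) (nat_lit 53) (nat_lit 1) (nat_lit 50) (nat_lit 1) (nat_lit 52) (nat_lit 1) (nat_lit 404) (nat_lit 352) (nat_lit 324)))) (XT.nd (nat_lit 188) (nat_lit 504) (nat_lit 0) (XT.nd (nat_lit 94) (nat_lit 168) (nat_lit 0) (XT.lf (nat_lit 252) (nat_lit 307400287) (nat_lit 0) (nat_lit 163654368) (nat_lit 168) (nat_lit 384376457) (nat_lit 51) (nat_lit 1) (nat_lit 48) (nat_lit 1) (nat_lit 50) (nat_lit 1) (nat_lit 405) (nat_lit 352) (nat_lit 323)) (XT.lf (nat_lit 84) (nat_lit 105296466) (nat_lit 0) (nat_lit 57875682) (nat_lit 168) (nat_lit 668690499) (nat_lit 47) (nat_lit 1) (nat_lit 46) (nat_lit 1) (nat_lit 48) (nat_lit 1) (nat_lit 406) (nat_lit 352)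 (nat_lit 322))) (XT.nd (nat_lit 94) (nat_lit 336) (nat_lit 0) (XT.lf (nat_lit 252) (nat_lit 403326855) (nat_lit 0) (nat_lit 161444338) (nat_lit 168) (nat_lit 244117718) (nat_lit 47) (nat_lit 1) (nat_lit 44) (nat_lit 1) (nat_lit 46) (nat_lit 1) (nat_lit 407) (nat_lit 352) (nat_lit 321)) (XT.nd (nat_lit 94) (nat_lit 252) (nat_lit 0) (XT.lf (nat_lit 168) (nat_lit 43432571) (nat_lit 0) (nat_lit 165409619) (nat_lit 84) (nat_lit 577979958) (nat_lit 45) (nat_lit 1) (nat_lit 43) (nat_lit 1) (nat_lit 44) (nat_lit 1) (nat_lit 408) (nat_lit 352) (nat_lit 320)) (XT.lf (nat_lit 252) (nat_lit 468838570) (nat_lit 0) (nat_lit 169169901) (nat_lit 168) (nat_lit 127355364) (nat_lit 43) (nat_lit 1) (nat_lit 40) (nat_lit 1) (nat_lit 42) (nat_lit 1) (nat_lit 409) (nat_lit 352) (nat_lit 319)))))) (XT.nd (nat_lit 470) (nat_lit 756) (nat_lit 0) (XT.nd (nat_lit 188) (nat_lit 420) (nat_lit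 0) (XT.nd (nat_lit 94) (nat_lit 252) (nat_lit 0) (XT.lf (nat_lit 168) (nat_lit 117916357) (nat_lit 0) (nat_lit 175495334) (nat_lit 84) (nat_lit 451217018) (nat_lit 41) (nat_lit 1) (nat_lit 39) (nat_lit 1) (nat_lit 40) (nat_lit 1) (nat_lit 410) (nat_lit 352) (nat_lit 318)) (XT.lf (nat_lit 252) (nat_lit 510430913) (nat_lit 0) (nat_lit 183959526) (nat_lit 168) (nat_lit 30189333) (nat_lit 39) (nat_lit 1) (nat_lit 36) (nat_lit 1) (nat_lit 38) (nat_lit 1) (nat_lit 411) (nat_lit 352) (nat_lit 317))) (XT.nd (nat_lit 94) (nat_lit 336) (nat_lit 0) (XT.lf (nat_lit 168) (nat_lit 169697815) (nat_lit 0) (nat_lit 191780016) (nat_lit 84) (nat_lit 343590461) (nat_lit 37) (nat_lit 1) (nat_lit 35) (nat_lit 1) (nat_lit 36) (nat_lit 1) (nat_lit 412) (nat_lit 352) (nat_lit 316)) (XT.nd (nat_lit 94) (nat_lit 84) (nat_lit 0) (XT.lf (nat_lit 84) (nat_lit 48981543) (nat_lit 0) (nat_lit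 153740007) (nat_lit 252) (nat_lit 483536216) (nat_lit 33) (nat_lit 1) (nat_lit 32) (nat_lit 1) (nat_lit 35) (nat_lit 1) (nat_lit 413) (nat_lit 352) (nat_lit 315)) (XT.lf (nat_lit 168) (nat_lit 203652689) (nat_lit 0) (nat_lit 212196449) (nat_lit 84) (nat_lit 252065246) (nat_lit 33) (nat_lit 1) (nat_lit 31) (nat_lit 1) (nat_lit 32) (nat_lit 1) (nat_lit 414) (nat_lit 352) (nat_lit 314))))) (XT.nd (nat_lit 188) (nat_lit 420) (nat_lit 0) (XT.nd (nat_lit 94) (nat_lit 84) (nat_lit 0) (XT.lf (nat_lit 84) (nat_lit 113912830) (nat_lit 0) (nat_lit 110332279) (nat_lit 252) (nat_lit 425970527) (nat_lit 29) (nat_lit 1) (nat_lit 28) (nat_lit 1) (nat_lit 31) (nat_lit 1) (nat_lit 415) (nat_lit 352) (nat_lit 313)) (XT.lf (nat_lit 168) (nat_lit 223712936) (nat_lit 0) (nat_lit 235130938) (nat_lit 84) (nat_lit 174125210) (nat_lit 29) (nat_lit 1) (nat_lit 27) (nat_lit 1) (nat_lit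 28) (nat_lit 1) (nat_lit 416) (nat_lit 352) (nat_lit 312))) (XT.nd (nat_lit 94) (nat_lit 252) (nat_lit 0) (XT.lf (nat_lit 84) (nat_lit 167706028) (nat_lit 0) (nat_lit 79908921) (nat_lit 168) (nat_lit 368677157) (nat_lit 26) (nat_lit 1) (nat_lit 25) (nat_lit 1) (nat_lit 27) (nat_lit 1) (nat_lit 417) (nat_lit 352) (nat_lit 311)) (XT.nd (nat_lit 94) (nat_lit 168) (nat_lit 0) (XT.lf (nat_lit 168) (nat_lit 233043080) (nat_lit 0) (nat_lit 259334917) (nat_lit 84) (nat_lit 107680510) (nat_lit 26) (nat_lit 1) (nat_lit 24) (nat_lit 1) (nat_lit 25) (nat_lit 1) (nat_lit 418) (nat_lit 352) (nat_lit 310)) (XT.lf (nat_lit 84) (nat_lit 212132532) (nat_lit 0) (nat_lit 59613097) (nat_lit 168) (nat_lit 312578608) (nat_lit 23) (nat_lit 1) (nat_lit 22) (nat_lit 1) (nat_lit 24) (nat_lit 1) (nat_lit 419) (nat_lit 352) (nat_lit 309))))))) (XT.nd (nat_lit 63638) (nat_lit 0) (nat_lit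 7560) (XT.nd (nat_lit 376) (nat_lit 336) (nat_lit 0) (XT.nd (nat_lit 188) (nat_lit 252) (nat_lit 0) (XT.nd (nat_lit 94) (nat_lit 168) (nat_lit 0) (XT.lf (nat_lit 168) (nat_lit 234184010) (nat_lit 0) (nat_lit 283853119) (nat_lit 84) (nat_lit 50991879) (nat_lit 23) (nat_lit 1) (nat_lit 21) (nat_lit 1) (nat_lit 22) (nat_lit 1) (nat_lit 420) (nat_lit 352) (nat_lit 308)) (XT.lf (nat_lit 84) (nat_lit 248664573) (nat_lit 0) (nat_lit 47147644) (nat_lit 168) (nat_lit 258355377) (nat_lit 20) (nat_lit 1) (nat_lit 19) (nat_lit 1) (nat_lit 21) (nat_lit 1) (nat_lit 421) (nat_lit 352) (nat_lit 307))) (XT.nd (nat_lit 94) (nat_lit 168) (nat_lit 0) (XT.lf (nat_lit 168) (nat_lit 229170202) (nat_lit 0) (nat_lit 307965235) (nat_lit 84) (nat_lit 2608614) (nat_lit 20) (nat_lit 1) (nat_lit 18) (nat_lit 1) (nat_lit 19) (nat_lit 1) (nat_lit 422) (nat_lit 352) (nat_lit 306)) (XT.lf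 (nat_lit 84) (nat_lit 278528165) (nat_lit 0) (nat_lit 40669987) (nat_lit 168) (nat_lit 206495271) (nat_lit 17) (nat_lit 1) (nat_lit 16) (nat_lit 1) (nat_lit 18) (nat_lit 1) (nat_lit 423) (nat_lit 352) (nat_lit 305)))) (XT.nd (nat_lit 188) (nat_lit 84) (nat_lit 0) (XT.nd (nat_lit 94) (nat_lit 168) (nat_lit 0) (XT.lf (nat_lit 0) (nat_lit 37444131) (nat_lit 0) (nat_lit 293060308) (nat_lit 168) (nat_lit 181547004) (nat_lit 15) (nat_lit 3) (nat_lit 15) (nat_lit 1) (nat_lit 17) (nat_lit 1) (nat_lit 424) (nat_lit 352) (nat_lit 304)) (XT.lf (nat_lit 84) (nat_lit 302746484) (nat_lit 0) (nat_lit 38706480) (nat_lit 168) (nat_lit 157333361) (nat_lit 14) (nat_lit 1) (nat_lit 13) (nat_lit 1) (nat_lit 15) (nat_lit 1) (nat_lit 425) (nat_lit 352) (nat_lit 303))) (XT.nd (nat_lit 62886) (nat_lit 0) (nat_lit 9744) (XT.lf (nat_lit 0) (nat_lit 71532142) (nat_lit 0) (nat_lit 280246116)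 (nat_lit 168) (nat_lit 134096229) (nat_lit 12) (nat_lit 3) (nat_lit 12) (nat_lit 1) (nat_lit 14) (nat_lit 1) (nat_lit 426) (nat_lit 352) (nat_lit 302)) (XT.nd (nat_lit 94) (nat_lit 0) (nat_lit 84) (XT.lf (nat_lit 924) (nat_lit 313533095) (nat_lit 0) (nat_lit 556677290) (nat_lit 924) (nat_lit 313533095) (nat_lit 139) (nat_lit 1) (nat_lit 128) (nat_lit 0) (nat_lit 139) (nat_lit 0) (nat_lit 374) (nat_lit 353) (nat_lit 353)) (XT.lf (nat_lit 924) (nat_lit 116957465) (nat_lit 0) (nat_lit 1092926237) (nat_lit 840) (nat_lit 1068878208) (nat_lit 140) (nat_lit 1) (nat_lit 129) (nat_lit 1) (nat_lit 139) (nat_lit 1) (nat_lit 375) (nat_lit 353) (nat_lit 352)))))) (XT.nd (nat_lit 470) (nat_lit 2268) (nat_lit 0) (XT.nd (nat_lit 188) (nat_lit 0) (nat_lit 168) (XT.nd (nat_lit 94) (nat_lit 0) (nat_lit 84) (XT.lf (nat_lit 924) (nat_lit 1074186809) (nat_lit 84) (nat_lit 731933069)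 (nat_lit 0) (nat_lit 388183912) (nat_lit 140) (nat_lit 1) (nat_lit 130) (nat_lit 1) (nat_lit 129) (nat_lit 1) (nat_lit 376) (nat_lit 353) (nat_lit 351)) (XT.lf (nat_lit 924) (nat_lit 928185401) (nat_lit 84) (nat_lit 306748076) (nat_lit 0) (nat_lit 879138690) (nat_lit 141) (nat_lit 1) (nat_lit 131) (nat_lit 1) (nat_lit 130) (nat_lit 1) (nat_lit 377) (nat_lit 353) (nat_lit 350))) (XT.nd (nat_lit 94) (nat_lit 0) (nat_lit 84) (XT.lf (nat_lit 924) (nat_lit 686936108) (nat_lit 0) (nat_lit 1285224989) (nat_lit 840) (nat_lit 65700517) (nat_lit 142) (nat_lit 1) (nat_lit 131) (nat_lit 1) (nat_lit 141) (nat_lit 1) (nat_lit 378) (nat_lit 353) (nat_lit 349)) (XT.nd (nat_lit 94) (nat_lit 0) (nat_lit 0) (XT.lf (nat_lit 924) (nat_lit 164823584) (nat_lit 0) (nat_lit 1417317600) (nat_lit 840) (nat_lit 383149466) (nat_lit 143) (nat_lit 1) (nat_lit 132) (nat_lit 1) (nat_lit 142)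 (nat_lit 1) (nat_lit 379) (nat_lit 353) (nat_lit 348)) (XT.lf (nat_lit 924) (nat_lit 316723889) (nat_lit 84) (nat_lit 1231764411) (nat_lit 0) (nat_lit 347619114) (nat_lit 143) (nat_lit 1) (nat_lit 133) (nat_lit 1) (nat_lit 132) (nat_lit 1) (nat_lit 380) (nat_lit 353) (nat_lit 347))))) (XT.nd (nat_lit 188) (nat_lit 1176) (nat_lit 0) (XT.nd (nat_lit 94) (nat_lit 588) (nat_lit 0) (XT.lf (nat_lit 924) (nat_lit 65047864) (nat_lit 0) (nat_lit 920825375) (nat_lit 840) (nat_lit 844387221) (nat_lit 134) (nat_lit 1) (nat_lit 123) (nat_lit 1) (nat_lit 133) (nat_lit 1) (nat_lit 381) (nat_lit 353) (nat_lit 346)) (XT.lf (nat_lit 84) (nat_lit 450404964) (nat_lit 0) (nat_lit 195181431) (nat_lit 588) (nat_lit 1121944902) (nat_lit 117) (nat_lit 1) (nat_lit 116) (nat_lit 1) (nat_lit 123) (nat_lit 1) (nat_lit 382) (nat_lit 353) (nat_lit 345))) (XT.nd (nat_lit 94) (nat_lit 756)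 (nat_lit 0) (XT.lf (nat_lit 504) (nat_lit 1241259390) (nat_lit 0) (nat_lit 404056690) (nat_lit 420) (nat_lit 62469661) (nat_lit 117) (nat_lit 1) (nat_lit 111) (nat_lit 1) (nat_lit 116) (nat_lit 1) (nat_lit 383) (nat_lit 353) (nat_lit 344)) (XT.nd (nat_lit 94) (nat_lit 336) (nat_lit 0) (XT.lf (nat_lit 504) (nat_lit 895704596) (nat_lit 0) (nat_lit 188332564) (nat_lit 420) (nat_lit 566571978) (nat_lit 112) (nat_lit 1) (nat_lit 106) (nat_lit 1) (nat_lit 111) (nat_lit 1) (nat_lit 384) (nat_lit 353) (nat_lit 343)) (XT.lf (nat_lit 420) (nat_lit 545024823) (nat_lit 0) (nat_lit 3467508) (nat_lit 336) (nat_lit 1047712572) (nat_lit 107) (nat_lit 1) (nat_lit 102) (nat_lit 1) (nat_lit 106) (nat_lit 1) (nat_lit 385) (nat_lit 353) (nat_lit 342))))))))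
noncomputable def ec16 : XT := (XT.nd (nat_lit 1692) (nat_lit 2772) (nat_lit 0) (XT.nd (nat_lit 846) (nat_lit 1932) (nat_lit 0) (XT.nd (nat_lit 376) (nat_lit 1512) (nat_lit 0) (XT.nd (nat_lit 188) (nat_lit 672) (nat_lit 0) (XT.nd (nat_lit 94) (nat_lit 420) (nat_lit 0) (XT.lf (nat_lit 84) (nat_lit 40209355) (nat_lit 0) (nat_lit 1356054310) (nat_lit 420) (nat_lit 148039694) (nat_lit 103) (nat_lit 1) (nat_lit 102) (nat_lit 1) (nat_lit 107) (nat_lit 1) (nat_lit 386) (nat_lit 353) (nat_lit 341)) (XT.lf (nat_lit 84) (nat_lit 1038215992) (nat_lit 0) (nat_lit 172199231) (nat_lit 420) (nat_lit 283987805) (nat_lit 98) (nat_lit 1) (nat_lit 97) (nat_lit 1) (nat_lit 102) (nat_lit 1) (nat_lit 387) (nat_lit 353) (nat_lit 340))) (XT.nd (nat_lit 94) (nat_lit 336) (nat_lit 0) (XT.lf (nat_lit 84) (nat_lit 519445770) (nat_lit 0) (nat_lit 527476813) (nat_lit 420) (nat_lit 399784965)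 (nat_lit 94) (nat_lit 1) (nat_lit 93) (nat_lit 1) (nat_lit 98) (nat_lit 1) (nat_lit 388) (nat_lit 353) (nat_lit 339)) (XT.lf (nat_lit 84) (nat_lit 25638691) (nat_lit 0) (nat_lit 881933041) (nat_lit 420) (nat_lit 493698558) (nat_lit 90) (nat_lit 1) (nat_lit 89) (nat_lit 1) (nat_lit 94) (nat_lit 1) (nat_lit 389) (nat_lit 353) (nat_lit 338)))) (XT.nd (nat_lit 188) (nat_lit 840) (nat_lit 0) (XT.nd (nat_lit 94) (nat_lit 420) (nat_lit 0) (XT.lf (nat_lit 336) (nat_lit 115782885) (nat_lit 0) (nat_lit 782984230) (nat_lit 252) (nat_lit 458846754) (nat_lit 90) (nat_lit 1) (nat_lit 86) (nat_lit 1) (nat_lit 89) (nat_lit 1) (nat_lit 390) (nat_lit 353) (nat_lit 337)) (XT.lf (nat_lit 84) (nat_lit 400060997) (nat_lit 0) (nat_lit 274204293) (nat_lit 420) (nat_lit 641495683) (nat_lit 82) (nat_lit 1) (nat_lit 81) (nat_lit 1) (nat_lit 86) (nat_lit 1) (nat_lit 391) (nat_lit 353)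 (nat_lit 336))) (XT.nd (nat_lit 94) (nat_lit 588) (nat_lit 0) (XT.lf (nat_lit 336) (nat_lit 619390651) (nat_lit 0) (nat_lit 581837462) (nat_lit 252) (nat_lit 74474504) (nat_lit 82) (nat_lit 1) (nat_lit 78) (nat_lit 1) (nat_lit 81) (nat_lit 1) (nat_lit 392) (nat_lit 353) (nat_lit 335)) (XT.nd (nat_lit 94) (nat_lit 336) (nat_lit 0) (XT.lf (nat_lit 336) (nat_lit 198511711) (nat_lit 0) (nat_lit 500938229) (nat_lit 252) (nat_lit 537733776) (nat_lit 79) (nat_lit 1) (nat_lit 75) (nat_lit 1) (nat_lit 78) (nat_lit 1) (nat_lit 393) (nat_lit 353) (nat_lit 334)) (XT.lf (nat_lit 84) (nat_lit 226255384) (nat_lit 0) (nat_lit 207156466) (nat_lit 336) (nat_lit 766852726) (nat_lit 72) (nat_lit 1) (nat_lit 71) (nat_lit 1) (nat_lit 75) (nat_lit 1) (nat_lit 394) (nat_lit 353) (nat_lit 333)))))) (XT.nd (nat_lit 376) (nat_lit 1008) (nat_lit 0) (XT.nd (nat_lit 188) (nat_lit 504)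 (nat_lit 0) (XT.nd (nat_lit 94) (nat_lit 168) (nat_lit 0) (XT.lf (nat_lit 336) (nat_lit 563006827) (nat_lit 0) (nat_lit 374603879) (nat_lit 252) (nat_lit 227086103) (nat_lit 72) (nat_lit 1) (nat_lit 68) (nat_lit 1) (nat_lit 71) (nat_lit 1) (nat_lit 395) (nat_lit 353) (nat_lit 332)) (XT.lf (nat_lit 252) (nat_lit 139570223) (nat_lit 0) (nat_lit 326814561) (nat_lit 168) (nat_lit 664179162) (nat_lit 69) (nat_lit 1) (nat_lit 66) (nat_lit 1) (nat_lit 68) (nat_lit 1) (nat_lit 396) (nat_lit 353) (nat_lit 331))) (XT.nd (nat_lit 94) (nat_lit 168) (nat_lit 0) (XT.lf (nat_lit 84) (nat_lit 23644087) (nat_lit 0) (nat_lit 264582473) (nat_lit 336) (nat_lit 809527603) (nat_lit 63) (nat_lit 1) (nat_lit 62) (nat_lit 1) (nat_lit 66) (nat_lit 1) (nat_lit 397) (nat_lit 353) (nat_lit 330)) (XT.lf (nat_lit 252) (nat_lit 405565461) (nat_lit 0) (nat_lit 253443620) (nat_lit 168) (nat_lit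 406976833) (nat_lit 63) (nat_lit 1) (nat_lit 60) (nat_lit 1) (nat_lit 62) (nat_lit 1) (nat_lit 398) (nat_lit 353) (nat_lit 329)))) (XT.nd (nat_lit 188) (nat_lit 588) (nat_lit 0) (XT.nd (nat_lit 94) (nat_lit 168) (nat_lit 0) (XT.lf (nat_lit 84) (nat_lit 220042870) (nat_lit 0) (nat_lit 10163918) (nat_lit 252) (nat_lit 805397133) (nat_lit 58) (nat_lit 1) (nat_lit 57) (nat_lit 1) (nat_lit 60) (nat_lit 1) (nat_lit 399) (nat_lit 353) (nat_lit 328)) (XT.lf (nat_lit 252) (nat_lit 601554717) (nat_lit 0) (nat_lit 208452197) (nat_lit 168) (nat_lit 196098805) (nat_lit 58) (nat_lit 1) (nat_lit 55) (nat_lit 1) (nat_lit 57) (nat_lit 1) (nat_lit 400) (nat_lit 353) (nat_lit 327))) (XT.nd (nat_lit 94) (nat_lit 420) (nat_lit 0) (XT.lf (nat_lit 252) (nat_lit 186867001) (nat_lit 0) (nat_lit 193779368) (nat_lit 168) (nat_lit 597088993) (nat_lit 56) (nat_lit 1) (nat_lit 53) (nat_lit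 1) (nat_lit 55) (nat_lit 1) (nat_lit 401) (nat_lit 353) (nat_lit 326)) (XT.nd (nat_lit 94) (nat_lit 168) (nat_lit 0) (XT.lf (nat_lit 252) (nat_lit 741793319) (nat_lit 0) (nat_lit 185140458) (nat_lit 168) (nat_lit 23487215) (nat_lit 53) (nat_lit 1) (nat_lit 50) (nat_lit 1) (nat_lit 52) (nat_lit 1) (nat_lit 402) (nat_lit 353) (nat_lit 325)) (XT.lf (nat_lit 252) (nat_lit 331992310) (nat_lit 0) (nat_lit 176746718) (nat_lit 168) (nat_lit 415126573) (nat_lit 51) (nat_lit 1) (nat_lit 48) (nat_lit 1) (nat_lit 50) (nat_lit 1) (nat_lit 403) (nat_lit 353) (nat_lit 324))))))) (XT.nd (nat_lit 846) (nat_lit 1344) (nat_lit 0) (XT.nd (nat_lit 376) (nat_lit 756) (nat_lit 0) (XT.nd (nat_lit 188) (nat_lit 336) (nat_lit 0) (XT.nd (nat_lit 94) (nat_lit 168) (nat_lit 0) (XT.lf (nat_lit 84) (nat_lit 113720184) (nat_lit 0) (nat_lit 62505737) (nat_lit 168) (nat_lit 722185739) (nat_lit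 47) (nat_lit 1) (nat_lit 46) (nat_lit 1) (nat_lit 48) (nat_lit 1) (nat_lit 404) (nat_lit 353) (nat_lit 323)) (XT.lf (nat_lit 252) (nat_lit 435593004) (nat_lit 0) (nat_lit 174359885) (nat_lit 168) (nat_lit 263647136) (nat_lit 47) (nat_lit 1) (nat_lit 44) (nat_lit 1) (nat_lit 46) (nat_lit 1) (nat_lit 405) (nat_lit 353) (nat_lit 322))) (XT.nd (nat_lit 94) (nat_lit 252) (nat_lit 0) (XT.lf (nat_lit 168) (nat_lit 46907176) (nat_lit 0) (nat_lit 178642389) (nat_lit 84) (nat_lit 624218355) (nat_lit 45) (nat_lit 1) (nat_lit 43) (nat_lit 1) (nat_lit 44) (nat_lit 1) (nat_lit 406) (nat_lit 353) (nat_lit 321)) (XT.lf (nat_lit 252) (nat_lit 506345656) (nat_lit 0) (nat_lit 182703493) (nat_lit 168) (nat_lit 137543793) (nat_lit 43) (nat_lit 1) (nat_lit 40) (nat_lit 1) (nat_lit 42) (nat_lit 1) (nat_lit 407) (nat_lit 353) (nat_lit 320)))) (XT.nd (nat_lit 188) (nat_lit 420) (nat_lit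 0) (XT.nd (nat_lit 94) (nat_lit 252) (nat_lit 0) (XT.lf (nat_lit 168) (nat_lit 127349666) (nat_lit 0) (nat_lit 189534960) (nat_lit 84) (nat_lit 487314379) (nat_lit 41) (nat_lit 1) (nat_lit 39) (nat_lit 1) (nat_lit 40) (nat_lit 1) (nat_lit 408) (nat_lit 353) (nat_lit 319)) (XT.lf (nat_lit 252) (nat_lit 551265386) (nat_lit 0) (nat_lit 198676288) (nat_lit 168) (nat_lit 32604479) (nat_lit 39) (nat_lit 1) (nat_lit 36) (nat_lit 1) (nat_lit 38) (nat_lit 1) (nat_lit 409) (nat_lit 353) (nat_lit 318))) (XT.nd (nat_lit 94) (nat_lit 336) (nat_lit 0) (XT.lf (nat_lit 168) (nat_lit 183273641) (nat_lit 0) (nat_lit 207122417) (nat_lit 84) (nat_lit 371077698) (nat_lit 37) (nat_lit 1) (nat_lit 35) (nat_lit 1) (nat_lit 36) (nat_lit 1) (nat_lit 410) (nat_lit 353) (nat_lit 317)) (XT.nd (nat_lit 94) (nat_lit 84) (nat_lit 0) (XT.lf (nat_lit 84) (nat_lit 52900066) (nat_lit 0) (nat_lit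 166039207) (nat_lit 252) (nat_lit 522219113) (nat_lit 33) (nat_lit 1) (nat_lit 32) (nat_lit 1) (nat_lit 35) (nat_lit 1) (nat_lit 411) (nat_lit 353) (nat_lit 316)) (XT.lf (nat_lit 168) (nat_lit 219944904) (nat_lit 0) (nat_lit 229172165) (nat_lit 84) (nat_lit 272230466) (nat_lit 33) (nat_lit 1) (nat_lit 31) (nat_lit 1) (nat_lit 32) (nat_lit 1) (nat_lit 412) (nat_lit 353) (nat_lit 315)))))) (XT.nd (nat_lit 470) (nat_lit 588) (nat_lit 0) (XT.nd (nat_lit 188) (nat_lit 420) (nat_lit 0) (XT.nd (nat_lit 94) (nat_lit 84) (nat_lit 0) (XT.lf (nat_lit 84) (nat_lit 123025857) (nat_lit 0) (nat_lit 119158861) (nat_lit 252) (nat_lit 460048169) (nat_lit 29) (nat_lit 1) (nat_lit 28) (nat_lit 1) (nat_lit 31) (nat_lit 1) (nat_lit 413) (nat_lit 353) (nat_lit 314)) (XT.lf (nat_lit 168) (nat_lit 241609971) (nat_lit 0) (nat_lit 253941413) (nat_lit 84) (nat_lit 188055227) (nat_lit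 29) (nat_lit 1) (nat_lit 27) (nat_lit 1) (nat_lit 28) (nat_lit 1) (nat_lit 414) (nat_lit 353) (nat_lit 313))) (XT.nd (nat_lit 94) (nat_lit 252) (nat_lit 0) (XT.lf (nat_lit 84) (nat_lit 181122510) (nat_lit 0) (nat_lit 86301635) (nat_lit 168) (nat_lit 398171330) (nat_lit 26) (nat_lit 1) (nat_lit 25) (nat_lit 1) (nat_lit 27) (nat_lit 1) (nat_lit 415) (nat_lit 353) (nat_lit 312)) (XT.nd (nat_lit 94) (nat_lit 168) (nat_lit 0) (XT.lf (nat_lit 168) (nat_lit 251686527) (nat_lit 0) (nat_lit 280081710) (nat_lit 84) (nat_lit 116294951) (nat_lit 26) (nat_lit 1) (nat_lit 24) (nat_lit 1) (nat_lit 25) (nat_lit 1) (nat_lit 416) (nat_lit 353) (nat_lit 311)) (XT.lf (nat_lit 84) (nat_lit 229103135) (nat_lit 0) (nat_lit 64382145) (nat_lit 168) (nat_lit 337584897) (nat_lit 23) (nat_lit 1) (nat_lit 22) (nat_lit 1) (nat_lit 24) (nat_lit 1) (nat_lit 417) (nat_lit 353) (nat_lit 310)))))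 (XT.nd (nat_lit 188) (nat_lit 336) (nat_lit 0) (XT.nd (nat_lit 94) (nat_lit 168) (nat_lit 0) (XT.lf (nat_lit 168) (nat_lit 252918730) (nat_lit 0) (nat_lit 306561369) (nat_lit 84) (nat_lit 55071229) (nat_lit 23) (nat_lit 1) (nat_lit 21) (nat_lit 1) (nat_lit 22) (nat_lit 1) (nat_lit 418) (nat_lit 353) (nat_lit 309)) (XT.lf (nat_lit 84) (nat_lit 268557738) (nat_lit 0) (nat_lit 50919456) (nat_lit 168) (nat_lit 279023807) (nat_lit 20) (nat_lit 1) (nat_lit 19) (nat_lit 1) (nat_lit 21) (nat_lit 1) (nat_lit 419) (nat_lit 353) (nat_lit 308))) (XT.nd (nat_lit 94) (nat_lit 252) (nat_lit 0) (XT.lf (nat_lit 168) (nat_lit 247503818) (nat_lit 0) (nat_lit 332602453) (nat_lit 84) (nat_lit 2817304) (nat_lit 20) (nat_lit 1) (nat_lit 18) (nat_lit 1) (nat_lit 19) (nat_lit 1) (nat_lit 420) (nat_lit 353) (nat_lit 307)) (XT.nd (nat_lit 94) (nat_lit 84) (nat_lit 0) (XT.lf (nat_lit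 84) (nat_lit 300810419) (nat_lit 0) (nat_lit 43923586) (nat_lit 168) (nat_lit 223014892) (nat_lit 17) (nat_lit 1) (nat_lit 16) (nat_lit 1) (nat_lit 18) (nat_lit 1) (nat_lit 421) (nat_lit 353) (nat_lit 306)) (XT.lf (nat_lit 0) (nat_lit 40439661) (nat_lit 0) (nat_lit 316505133) (nat_lit 168) (nat_lit 196070764) (nat_lit 15) (nat_lit 3) (nat_lit 15) (nat_lit 1) (nat_lit 17) (nat_lit 1) (nat_lit 422) (nat_lit 353) (nat_lit 305))))))))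
noncomputable def ec17 : XT := (XT.nd (nat_lit 64296) (nat_lit 0) (nat_lit 3024) (XT.nd (nat_lit 63356) (nat_lit 0) (nat_lit 7560) (XT.nd (nat_lit 376) (nat_lit 168) (nat_lit 0) (XT.nd (nat_lit 188) (nat_lit 252) (nat_lit 0) (XT.nd (nat_lit 94) (nat_lit 84) (nat_lit 0) (XT.lf (nat_lit 84) (nat_lit 326966203) (nat_lit 0) (nat_lit 41802998) (nat_lit 168) (nat_lit 169920029) (nat_lit 14) (nat_lit 1) (nat_lit 13) (nat_lit 1) (nat_lit 15) (nat_lit 1) (nat_lit 423) (nat_lit 353) (nat_lit 304)) (XT.lf (nat_lit 0) (nat_lit 77254714) (nat_lit 0) (nat_lit 302665805) (nat_lit 168) (nat_lit 144823927) (nat_lit 12) (nat_lit 3) (nat_lit 12) (nat_lit 1) (nat_lit 14) (nat_lit 1) (nat_lit 424) (nat_lit 353) (nat_lit 303))) (XT.nd (nat_lit 94) (nat_lit 84) (nat_lit 0) (XT.lf (nat_lit 84) (nat_lit 347949426) (nat_lit 0) (nat_lit 43289226) (nat_lit 168) (nat_lit 119971059) (nat_lit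 11) (nat_lit 1) (nat_lit 10) (nat_lit 1) (nat_lit 12) (nat_lit 1) (nat_lit 425) (nat_lit 353) (nat_lit 302)) (XT.lf (nat_lit 0) (nat_lit 108611530) (nat_lit 0) (nat_lit 292662653) (nat_lit 168) (nat_lit 96730651) (nat_lit 9) (nat_lit 3) (nat_lit 9) (nat_lit 1) (nat_lit 11) (nat_lit 1) (nat_lit 426) (nat_lit 353) (nat_lit 301)))) (XT.nd (nat_lit 62698) (nat_lit 0) (nat_lit 10248) (XT.nd (nat_lit 62604) (nat_lit 0) (nat_lit 10164) (XT.lf (nat_lit 84) (nat_lit 364535189) (nat_lit 0) (nat_lit 47375469) (nat_lit 168) (nat_lit 73297994) (nat_lit 8) (nat_lit 1) (nat_lit 7) (nat_lit 1) (nat_lit 9) (nat_lit 1) (nat_lit 427) (nat_lit 353) (nat_lit 300)) (XT.lf (nat_lit 924) (nat_lit 338615743) (nat_lit 0) (nat_lit 601211474) (nat_lit 924) (nat_lit 338615743) (nat_lit 139) (nat_lit 1) (nat_lit 128) (nat_lit 0) (nat_lit 139) (nat_lit 0) (nat_lit 372) (nat_lit 354) (nat_lit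 354))) (XT.nd (nat_lit 94) (nat_lit 0) (nat_lit 0) (XT.lf (nat_lit 924) (nat_lit 126314062) (nat_lit 0) (nat_lit 1180360336) (nat_lit 840) (nat_lit 1154388465) (nat_lit 140) (nat_lit 1) (nat_lit 129) (nat_lit 1) (nat_lit 139) (nat_lit 1) (nat_lit 373) (nat_lit 354) (nat_lit 353)) (XT.nd (nat_lit 94) (nat_lit 0) (nat_lit 84) (XT.lf (nat_lit 924) (nat_lit 1160121753) (nat_lit 84) (nat_lit 790487715) (nat_lit 0) (nat_lit 419238625) (nat_lit 140) (nat_lit 1) (nat_lit 130) (nat_lit 1) (nat_lit 129) (nat_lit 1) (nat_lit 374) (nat_lit 354) (nat_lit 352)) (XT.lf (nat_lit 924) (nat_lit 1002440233) (nat_lit 84) (nat_lit 331287922) (nat_lit 0) (nat_lit 949469786) (nat_lit 141) (nat_lit 1) (nat_lit 131) (nat_lit 1) (nat_lit 130) (nat_lit 1) (nat_lit 375) (nat_lit 354) (nat_lit 351)))))) (XT.nd (nat_lit 470) (nat_lit 1596) (nat_lit 0) (XT.nd (nat_lit 188) (nat_lit 1260)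 (nat_lit 0) (XT.nd (nat_lit 94) (nat_lit 0) (nat_lit 84) (XT.lf (nat_lit 924) (nat_lit 741890997) (nat_lit 0) (nat_lit 1388042988) (nat_lit 840) (nat_lit 70956559) (nat_lit 142) (nat_lit 1) (nat_lit 131) (nat_lit 1) (nat_lit 141) (nat_lit 1) (nat_lit 376) (nat_lit 354) (nat_lit 350)) (XT.lf (nat_lit 924) (nat_lit 178009470) (nat_lit 0) (nat_lit 1530703008) (nat_lit 840) (nat_lit 413801423) (nat_lit 143) (nat_lit 1) (nat_lit 132) (nat_lit 1) (nat_lit 142) (nat_lit 1) (nat_lit 377) (nat_lit 354) (nat_lit 349))) (XT.nd (nat_lit 94) (nat_lit 1344) (nat_lit 0) (XT.lf (nat_lit 924) (nat_lit 342061800) (nat_lit 84) (nat_lit 1330305564) (nat_lit 0) (nat_lit 375428643) (nat_lit 143) (nat_lit 1) (nat_lit 133) (nat_lit 1) (nat_lit 132) (nat_lit 1) (nat_lit 378) (nat_lit 354) (nat_lit 348)) (XT.nd (nat_lit 94) (nat_lit 588) (nat_lit 0) (XT.lf (nat_lit 924) (nat_lit 70251693)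 (nat_lit 0) (nat_lit 994491405) (nat_lit 840) (nat_lit 911938199) (nat_lit 134) (nat_lit 1) (nat_lit 123) (nat_lit 1) (nat_lit 133) (nat_lit 1) (nat_lit 379) (nat_lit 354) (nat_lit 347)) (XT.lf (nat_lit 84) (nat_lit 486437361) (nat_lit 0) (nat_lit 210795945) (nat_lit 588) (nat_lit 1211700495) (nat_lit 117) (nat_lit 1) (nat_lit 116) (nat_lit 1) (nat_lit 123) (nat_lit 1) (nat_lit 380) (nat_lit 354) (nat_lit 346))))) (XT.nd (nat_lit 188) (nat_lit 756) (nat_lit 0) (XT.nd (nat_lit 94) (nat_lit 420) (nat_lit 0) (XT.lf (nat_lit 504) (nat_lit 1340560141) (nat_lit 0) (nat_lit 436381226) (nat_lit 420) (nat_lit 67467233) (nat_lit 117) (nat_lit 1) (nat_lit 111) (nat_lit 1) (nat_lit 116) (nat_lit 1) (nat_lit 381) (nat_lit 354) (nat_lit 345)) (XT.lf (nat_lit 504) (nat_lit 967360964) (nat_lit 0) (nat_lit 203399169) (nat_lit 420) (nat_lit 611897736) (nat_lit 112) (nat_lit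 1) (nat_lit 106) (nat_lit 1) (nat_lit 111) (nat_lit 1) (nat_lit 382) (nat_lit 354) (nat_lit 344))) (XT.nd (nat_lit 94) (nat_lit 420) (nat_lit 0) (XT.lf (nat_lit 420) (nat_lit 588626808) (nat_lit 0) (nat_lit 3744909) (nat_lit 336) (nat_lit 1131529578) (nat_lit 107) (nat_lit 1) (nat_lit 102) (nat_lit 1) (nat_lit 106) (nat_lit 1) (nat_lit 383) (nat_lit 354) (nat_lit 343)) (XT.nd (nat_lit 94) (nat_lit 420) (nat_lit 0) (XT.lf (nat_lit 84) (nat_lit 43426104) (nat_lit 0) (nat_lit 1464538655) (nat_lit 420) (nat_lit 159882870) (nat_lit 103) (nat_lit 1) (nat_lit 102) (nat_lit 1) (nat_lit 107) (nat_lit 1) (nat_lit 384) (nat_lit 354) (nat_lit 342)) (XT.lf (nat_lit 84) (nat_lit 1121273271) (nat_lit 0) (nat_lit 185975169) (nat_lit 420) (nat_lit 306706830) (nat_lit 98) (nat_lit 1) (nat_lit 97) (nat_lit 1) (nat_lit 102) (nat_lit 1) (nat_lit 385) (nat_lit 354) (nat_lit 341)))))))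 (XT.nd (nat_lit 846) (nat_lit 1932) (nat_lit 0) (XT.nd (nat_lit 376) (nat_lit 1260) (nat_lit 0) (XT.nd (nat_lit 188) (nat_lit 672) (nat_lit 0) (XT.nd (nat_lit 94) (nat_lit 336) (nat_lit 0) (XT.lf (nat_lit 84) (nat_lit 561001431) (nat_lit 0) (nat_lit 569674958) (nat_lit 420) (nat_lit 431767762) (nat_lit 94) (nat_lit 1) (nat_lit 93) (nat_lit 1) (nat_lit 98) (nat_lit 1) (nat_lit 386) (nat_lit 354) (nat_lit 340)) (XT.lf (nat_lit 84) (nat_lit 27689786) (nat_lit 0) (nat_lit 952487684) (nat_lit 420) (nat_lit 533194443) (nat_lit 90) (nat_lit 1) (nat_lit 89) (nat_lit 1) (nat_lit 94) (nat_lit 1) (nat_lit 387) (nat_lit 354) (nat_lit 339))) (XT.nd (nat_lit 94) (nat_lit 420) (nat_lit 0) (XT.lf (nat_lit 336) (nat_lit 125045516) (nat_lit 0) (nat_lit 845622969) (nat_lit 252) (nat_lit 495554494) (nat_lit 90) (nat_lit 1) (nat_lit 86) (nat_lit 1) (nat_lit 89) (nat_lit 1) (nat_lit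 388) (nat_lit 354) (nat_lit 338)) (XT.lf (nat_lit 84) (nat_lit 432065877) (nat_lit 0) (nat_lit 296140637) (nat_lit 420) (nat_lit 692815338) (nat_lit 82) (nat_lit 1) (nat_lit 81) (nat_lit 1) (nat_lit 86) (nat_lit 1) (nat_lit 389) (nat_lit 354) (nat_lit 337)))) (XT.nd (nat_lit 188) (nat_lit 756) (nat_lit 0) (XT.nd (nat_lit 94) (nat_lit 252) (nat_lit 0) (XT.lf (nat_lit 336) (nat_lit 668941903) (nat_lit 0) (nat_lit 628384459) (nat_lit 252) (nat_lit 80432465) (nat_lit 82) (nat_lit 1) (nat_lit 78) (nat_lit 1) (nat_lit 81) (nat_lit 1) (nat_lit 390) (nat_lit 354) (nat_lit 336)) (XT.lf (nat_lit 336) (nat_lit 214392648) (nat_lit 0) (nat_lit 541013287) (nat_lit 252) (nat_lit 580752478) (nat_lit 79) (nat_lit 1) (nat_lit 75) (nat_lit 1) (nat_lit 78) (nat_lit 1) (nat_lit 391) (nat_lit 354) (nat_lit 335))) (XT.nd (nat_lit 94) (nat_lit 420) (nat_lit 0) (XT.lf (nat_lit 84)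 (nat_lit 244355815) (nat_lit 0) (nat_lit 223728983) (nat_lit 336) (nat_lit 828200945) (nat_lit 72) (nat_lit 1) (nat_lit 71) (nat_lit 1) (nat_lit 75) (nat_lit 1) (nat_lit 392) (nat_lit 354) (nat_lit 334)) (XT.nd (nat_lit 94) (nat_lit 168) (nat_lit 0) (XT.lf (nat_lit 336) (nat_lit 608047374) (nat_lit 0) (nat_lit 404572190) (nat_lit 252) (nat_lit 245252991) (nat_lit 72) (nat_lit 1) (nat_lit 68) (nat_lit 1) (nat_lit 71) (nat_lit 1) (nat_lit 393) (nat_lit 354) (nat_lit 333)) (XT.lf (nat_lit 252) (nat_lit 150735841) (nat_lit 0) (nat_lit 352959726) (nat_lit 168) (nat_lit 717313495) (nat_lit 69) (nat_lit 1) (nat_lit 66) (nat_lit 1) (nat_lit 68) (nat_lit 1) (nat_lit 394) (nat_lit 354) (nat_lit 332)))))) (XT.nd (nat_lit 470) (nat_lit 840) (nat_lit 0) (XT.nd (nat_lit 188) (nat_lit 588) (nat_lit 0) (XT.nd (nat_lit 94) (nat_lit 168) (nat_lit 0) (XT.lf (nat_lit 84) (nat_lit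 25535614) (nat_lit 0) (nat_lit 285749071) (nat_lit 336) (nat_lit 874289811) (nat_lit 63) (nat_lit 1) (nat_lit 62) (nat_lit 1) (nat_lit 66) (nat_lit 1) (nat_lit 395) (nat_lit 354) (nat_lit 331)) (XT.lf (nat_lit 252) (nat_lit 438010698) (nat_lit 0) (nat_lit 273719109) (nat_lit 168) (nat_lit 439534980) (nat_lit 63) (nat_lit 1) (nat_lit 60) (nat_lit 1) (nat_lit 62) (nat_lit 1) (nat_lit 396) (nat_lit 354) (nat_lit 330))) (XT.nd (nat_lit 94) (nat_lit 336) (nat_lit 0) (XT.lf (nat_lit 84) (nat_lit 237646300) (nat_lit 0) (nat_lit 10977031) (nat_lit 252) (nat_lit 869828903) (nat_lit 58) (nat_lit 1) (nat_lit 57) (nat_lit 1) (nat_lit 60) (nat_lit 1) (nat_lit 397) (nat_lit 354) (nat_lit 329)) (XT.nd (nat_lit 94) (nat_lit 168) (nat_lit 0) (XT.lf (nat_lit 252) (nat_lit 649679094) (nat_lit 0) (nat_lit 225128373) (nat_lit 168) (nat_lit 211786709) (nat_lit 58) (nat_lit 1) (nat_lit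 55) (nat_lit 1) (nat_lit 57) (nat_lit 1) (nat_lit 398) (nat_lit 354) (nat_lit 328)) (XT.lf (nat_lit 252) (nat_lit 201816361) (nat_lit 0) (nat_lit 209281718) (nat_lit 168) (nat_lit 644856112) (nat_lit 56) (nat_lit 1) (nat_lit 53) (nat_lit 1) (nat_lit 55) (nat_lit 1) (nat_lit 399) (nat_lit 354) (nat_lit 327))))) (XT.nd (nat_lit 188) (nat_lit 420) (nat_lit 0) (XT.nd (nat_lit 94) (nat_lit 168) (nat_lit 0) (XT.lf (nat_lit 252) (nat_lit 801136784) (nat_lit 0) (nat_lit 199951695) (nat_lit 168) (nat_lit 25366192) (nat_lit 53) (nat_lit 1) (nat_lit 50) (nat_lit 1) (nat_lit 52) (nat_lit 1) (nat_lit 400) (nat_lit 354) (nat_lit 326)) (XT.lf (nat_lit 252) (nat_lit 358551695) (nat_lit 0) (nat_lit 190886455) (nat_lit 168) (nat_lit 448336699) (nat_lit 51) (nat_lit 1) (nat_lit 48) (nat_lit 1) (nat_lit 50) (nat_lit 1) (nat_lit 401) (nat_lit 354) (nat_lit 325))) (XT.nd (nat_lit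 94) (nat_lit 252) (nat_lit 0) (XT.lf (nat_lit 84) (nat_lit 122817798) (nat_lit 0) (nat_lit 67506196) (nat_lit 168) (nat_lit 779960598) (nat_lit 47) (nat_lit 1) (nat_lit 46) (nat_lit 1) (nat_lit 48) (nat_lit 1) (nat_lit 402) (nat_lit 354) (nat_lit 324)) (XT.nd (nat_lit 94) (nat_lit 84) (nat_lit 0) (XT.lf (nat_lit 252) (nat_lit 470440444) (nat_lit 0) (nat_lit 188308676) (nat_lit 168) (nat_lit 284738907) (nat_lit 47) (nat_lit 1) (nat_lit 44) (nat_lit 1) (nat_lit 46) (nat_lit 1) (nat_lit 403) (nat_lit 354) (nat_lit 323)) (XT.lf (nat_lit 168) (nat_lit 50659751) (nat_lit 0) (nat_lit 192933780) (nat_lit 84) (nat_lit 674155824) (nat_lit 45) (nat_lit 1) (nat_lit 43) (nat_lit 1) (nat_lit 44) (nat_lit 1) (nat_lit 404) (nat_lit 354) (nat_lit 322))))))))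
noncomputable def ec18 : XT := (XT.nd (nat_lit 1692) (nat_lit 672) (nat_lit 0) (XT.nd (nat_lit 846) (nat_lit 1092) (nat_lit 0) (XT.nd (nat_lit 376) (nat_lit 840) (nat_lit 0) (XT.nd (nat_lit 188) (nat_lit 336) (nat_lit 0) (XT.nd (nat_lit 94) (nat_lit 84) (nat_lit 0) (XT.lf (nat_lit 252) (nat_lit 546853308) (nat_lit 0) (nat_lit 197319772) (nat_lit 168) (nat_lit 148547296) (nat_lit 43) (nat_lit 1) (nat_lit 40) (nat_lit 1) (nat_lit 42) (nat_lit 1) (nat_lit 405) (nat_lit 354) (nat_lit 321)) (XT.lf (nat_lit 168) (nat_lit 137537639) (nat_lit 0) (nat_lit 204697757) (nat_lit 84) (nat_lit 526299530) (nat_lit 41) (nat_lit 1) (nat_lit 39) (nat_lit 1) (nat_lit 40) (nat_lit 1) (nat_lit 406) (nat_lit 354) (nat_lit 320))) (XT.nd (nat_lit 94) (nat_lit 84) (nat_lit 0) (XT.lf (nat_lit 252) (nat_lit 595366617) (nat_lit 0) (nat_lit 214570391) (nat_lit 168) (nat_lit 35212838) (nat_lit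 39) (nat_lit 1) (nat_lit 36) (nat_lit 1) (nat_lit 38) (nat_lit 1) (nat_lit 407) (nat_lit 354) (nat_lit 319)) (XT.lf (nat_lit 168) (nat_lit 197935532) (nat_lit 0) (nat_lit 223692211) (nat_lit 84) (nat_lit 400763914) (nat_lit 37) (nat_lit 1) (nat_lit 35) (nat_lit 1) (nat_lit 36) (nat_lit 1) (nat_lit 408) (nat_lit 354) (nat_lit 318)))) (XT.nd (nat_lit 188) (nat_lit 504) (nat_lit 0) (XT.nd (nat_lit 94) (nat_lit 84) (nat_lit 0) (XT.lf (nat_lit 84) (nat_lit 57132071) (nat_lit 0) (nat_lit 179322344) (nat_lit 252) (nat_lit 563996642) (nat_lit 33) (nat_lit 1) (nat_lit 32) (nat_lit 1) (nat_lit 35) (nat_lit 1) (nat_lit 409) (nat_lit 354) (nat_lit 317)) (XT.lf (nat_lit 168) (nat_lit 237540497) (nat_lit 0) (nat_lit 247505939) (nat_lit 84) (nat_lit 294008903) (nat_lit 33) (nat_lit 1) (nat_lit 31) (nat_lit 1) (nat_lit 32) (nat_lit 1) (nat_lit 410) (nat_lit 354) (nat_lit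 316))) (XT.nd (nat_lit 94) (nat_lit 252) (nat_lit 0) (XT.lf (nat_lit 84) (nat_lit 132867925) (nat_lit 0) (nat_lit 128691570) (nat_lit 252) (nat_lit 496852023) (nat_lit 29) (nat_lit 1) (nat_lit 28) (nat_lit 1) (nat_lit 31) (nat_lit 1) (nat_lit 411) (nat_lit 354) (nat_lit 315)) (XT.nd (nat_lit 94) (nat_lit 168) (nat_lit 0) (XT.lf (nat_lit 168) (nat_lit 260938769) (nat_lit 0) (nat_lit 274256726) (nat_lit 84) (nat_lit 203099645) (nat_lit 29) (nat_lit 1) (nat_lit 27) (nat_lit 1) (nat_lit 28) (nat_lit 1) (nat_lit 412) (nat_lit 354) (nat_lit 314)) (XT.lf (nat_lit 84) (nat_lit 195612311) (nat_lit 0) (nat_lit 93205766) (nat_lit 168) (nat_lit 430025036) (nat_lit 26) (nat_lit 1) (nat_lit 25) (nat_lit 1) (nat_lit 27) (nat_lit 1) (nat_lit 413) (nat_lit 354) (nat_lit 313)))))) (XT.nd (nat_lit 376) (nat_lit 588) (nat_lit 0) (XT.nd (nat_lit 188) (nat_lit 252) (nat_lit 0)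 (XT.nd (nat_lit 94) (nat_lit 168) (nat_lit 0) (XT.lf (nat_lit 168) (nat_lit 271821449) (nat_lit 0) (nat_lit 302488247) (nat_lit 84) (nat_lit 125598547) (nat_lit 26) (nat_lit 1) (nat_lit 24) (nat_lit 1) (nat_lit 25) (nat_lit 1) (nat_lit 414) (nat_lit 354) (nat_lit 312)) (XT.lf (nat_lit 84) (nat_lit 247431386) (nat_lit 0) (nat_lit 69532716) (nat_lit 168) (nat_lit 364591689) (nat_lit 23) (nat_lit 1) (nat_lit 22) (nat_lit 1) (nat_lit 24) (nat_lit 1) (nat_lit 415) (nat_lit 354) (nat_lit 311))) (XT.nd (nat_lit 94) (nat_lit 168) (nat_lit 0) (XT.lf (nat_lit 168) (nat_lit 273152229) (nat_lit 0) (nat_lit 331086278) (nat_lit 84) (nat_lit 59476928) (nat_lit 23) (nat_lit 1) (nat_lit 21) (nat_lit 1) (nat_lit 22) (nat_lit 1) (nat_lit 416) (nat_lit 354) (nat_lit 310)) (XT.lf (nat_lit 84) (nat_lit 290042358) (nat_lit 0) (nat_lit 54993013) (nat_lit 168) (nat_lit 301345712)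 (nat_lit 20) (nat_lit 1) (nat_lit 19) (nat_lit 1) (nat_lit 21) (nat_lit 1) (nat_lit 417) (nat_lit 354) (nat_lit 309)))) (XT.nd (nat_lit 188) (nat_lit 336) (nat_lit 0) (XT.nd (nat_lit 94) (nat_lit 168) (nat_lit 0) (XT.lf (nat_lit 168) (nat_lit 267304124) (nat_lit 0) (nat_lit 359210650) (nat_lit 84) (nat_lit 3042688) (nat_lit 20) (nat_lit 1) (nat_lit 18) (nat_lit 1) (nat_lit 19) (nat_lit 1) (nat_lit 418) (nat_lit 354) (nat_lit 308)) (XT.lf (nat_lit 84) (nat_lit 324875252) (nat_lit 0) (nat_lit 47437473) (nat_lit 168) (nat_lit 240856084) (nat_lit 17) (nat_lit 1) (nat_lit 16) (nat_lit 1) (nat_lit 18) (nat_lit 1) (nat_lit 419) (nat_lit 354) (nat_lit 307))) (XT.nd (nat_lit 94) (nat_lit 252) (nat_lit 0) (XT.lf (nat_lit 0) (nat_lit 43674834) (nat_lit 0) (nat_lit 341825543) (nat_lit 168) (nat_lit 211756425) (nat_lit 15) (nat_lit 3) (nat_lit 15) (nat_lit 1) (nat_lit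 17) (nat_lit 1) (nat_lit 420) (nat_lit 354) (nat_lit 306)) (XT.nd (nat_lit 94) (nat_lit 84) (nat_lit 0) (XT.lf (nat_lit 84) (nat_lit 353123499) (nat_lit 0) (nat_lit 45147238) (nat_lit 168) (nat_lit 183513632) (nat_lit 14) (nat_lit 1) (nat_lit 13) (nat_lit 1) (nat_lit 15) (nat_lit 1) (nat_lit 421) (nat_lit 354) (nat_lit 305)) (XT.lf (nat_lit 0) (nat_lit 83435091) (nat_lit 0) (nat_lit 326879070) (nat_lit 168) (nat_lit 156409841) (nat_lit 12) (nat_lit 3) (nat_lit 12) (nat_lit 1) (nat_lit 14) (nat_lit 1) (nat_lit 422) (nat_lit 354) (nat_lit 304))))))) (XT.nd (nat_lit 63168) (nat_lit 0) (nat_lit 7812) (XT.nd (nat_lit 376) (nat_lit 168) (nat_lit 0) (XT.nd (nat_lit 188) (nat_lit 252) (nat_lit 0) (XT.nd (nat_lit 94) (nat_lit 84) (nat_lit 0) (XT.lf (nat_lit 84) (nat_lit 375785380) (nat_lit 0) (nat_lit 46752364) (nat_lit 168) (nat_lit 129568744) (nat_lit 11) (nat_lit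 1) (nat_lit 10) (nat_lit 1) (nat_lit 12) (nat_lit 1) (nat_lit 423) (nat_lit 354) (nat_lit 303)) (XT.lf (nat_lit 0) (nat_lit 117300453) (nat_lit 0) (nat_lit 316075665) (nat_lit 168) (nat_lit 104469103) (nat_lit 9) (nat_lit 3) (nat_lit 9) (nat_lit 1) (nat_lit 11) (nat_lit 1) (nat_lit 424) (nat_lit 354) (nat_lit 302))) (XT.nd (nat_lit 94) (nat_lit 84) (nat_lit 0) (XT.lf (nat_lit 84) (nat_lit 393698004) (nat_lit 0) (nat_lit 51165506) (nat_lit 168) (nat_lit 79161834) (nat_lit 8) (nat_lit 1) (nat_lit 7) (nat_lit 1) (nat_lit 9) (nat_lit 1) (nat_lit 425) (nat_lit 354) (nat_lit 301)) (XT.lf (nat_lit 0) (nat_lit 146084499) (nat_lit 0) (nat_lit 308387077) (nat_lit 168) (nat_lit 56043479) (nat_lit 6) (nat_lit 3) (nat_lit 6) (nat_lit 1) (nat_lit 8) (nat_lit 1) (nat_lit 426) (nat_lit 354) (nat_lit 300)))) (XT.nd (nat_lit 62510) (nat_lit 0) (nat_lit 10500) (XT.nd (nat_lit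 62416) (nat_lit 0) (nat_lit 10416) (XT.lf (nat_lit 84) (nat_lit 407565178) (nat_lit 0) (nat_lit 57527924) (nat_lit 168) (nat_lit 32347919) (nat_lit 5) (nat_lit 1) (nat_lit 4) (nat_lit 1) (nat_lit 6) (nat_lit 1) (nat_lit 427) (nat_lit 354) (nat_lit 299)) (XT.lf (nat_lit 924) (nat_lit 365705002) (nat_lit 0) (nat_lit 649308391) (nat_lit 924) (nat_lit 365705002) (nat_lit 139) (nat_lit 1) (nat_lit 128) (nat_lit 0) (nat_lit 139) (nat_lit 0) (nat_lit 370) (nat_lit 355) (nat_lit 355))) (XT.nd (nat_lit 94) (nat_lit 0) (nat_lit 0) (XT.lf (nat_lit 924) (nat_lit 136419187) (nat_lit 0) (nat_lit 1274789163) (nat_lit 840) (nat_lit 1246739542) (nat_lit 140) (nat_lit 1) (nat_lit 129) (nat_lit 1) (nat_lit 139) (nat_lit 1) (nat_lit 371) (nat_lit 355) (nat_lit 354)) (XT.nd (nat_lit 94) (nat_lit 0) (nat_lit 84) (XT.lf (nat_lit 924) (nat_lit 1252931494) (nat_lit 84) (nat_lit 853726732)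 (nat_lit 0) (nat_lit 452777715) (nat_lit 140) (nat_lit 1) (nat_lit 130) (nat_lit 1) (nat_lit 129) (nat_lit 1) (nat_lit 372) (nat_lit 355) (nat_lit 353)) (XT.lf (nat_lit 924) (nat_lit 1082635452) (nat_lit 84) (nat_lit 357790956) (nat_lit 0) (nat_lit 1025427369) (nat_lit 141) (nat_lit 1) (nat_lit 131) (nat_lit 1) (nat_lit 130) (nat_lit 1) (nat_lit 373) (nat_lit 355) (nat_lit 352)))))) (XT.nd (nat_lit 470) (nat_lit 1596) (nat_lit 0) (XT.nd (nat_lit 188) (nat_lit 1260) (nat_lit 0) (XT.nd (nat_lit 94) (nat_lit 0) (nat_lit 84) (XT.lf (nat_lit 924) (nat_lit 801242277) (nat_lit 0) (nat_lit 1499086427) (nat_lit 840) (nat_lit 76633084) (nat_lit 142) (nat_lit 1) (nat_lit 131) (nat_lit 1) (nat_lit 141) (nat_lit 1) (nat_lit 374) (nat_lit 355) (nat_lit 351)) (XT.lf (nat_lit 924) (nat_lit 192250228) (nat_lit 0) (nat_lit 1653159248) (nat_lit 840) (nat_lit 446905537) (nat_lit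 143) (nat_lit 1) (nat_lit 132) (nat_lit 1) (nat_lit 142) (nat_lit 1) (nat_lit 375) (nat_lit 355) (nat_lit 350))) (XT.nd (nat_lit 94) (nat_lit 1344) (nat_lit 0) (XT.lf (nat_lit 924) (nat_lit 369426744) (nat_lit 84) (nat_lit 1436730009) (nat_lit 0) (nat_lit 405462934) (nat_lit 143) (nat_lit 1) (nat_lit 133) (nat_lit 1) (nat_lit 132) (nat_lit 1) (nat_lit 376) (nat_lit 355) (nat_lit 349)) (XT.nd (nat_lit 94) (nat_lit 588) (nat_lit 0) (XT.lf (nat_lit 924) (nat_lit 75871829) (nat_lit 0) (nat_lit 1074050718) (nat_lit 840) (nat_lit 984893255) (nat_lit 134) (nat_lit 1) (nat_lit 123) (nat_lit 1) (nat_lit 133) (nat_lit 1) (nat_lit 377) (nat_lit 355) (nat_lit 348)) (XT.lf (nat_lit 84) (nat_lit 525352350) (nat_lit 0) (nat_lit 227659621) (nat_lit 588) (nat_lit 1308636534) (nat_lit 117) (nat_lit 1) (nat_lit 116) (nat_lit 1) (nat_lit 123) (nat_lit 1) (nat_lit 378) (nat_lit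 355) (nat_lit 347))))) (XT.nd (nat_lit 188) (nat_lit 756) (nat_lit 0) (XT.nd (nat_lit 94) (nat_lit 420) (nat_lit 0) (XT.lf (nat_lit 504) (nat_lit 1447804953) (nat_lit 0) (nat_lit 471291724) (nat_lit 420) (nat_lit 72864612) (nat_lit 117) (nat_lit 1) (nat_lit 111) (nat_lit 1) (nat_lit 116) (nat_lit 1) (nat_lit 379) (nat_lit 355) (nat_lit 346)) (XT.lf (nat_lit 504) (nat_lit 1044749841) (nat_lit 0) (nat_lit 219671102) (nat_lit 420) (nat_lit 660849555) (nat_lit 112) (nat_lit 1) (nat_lit 106) (nat_lit 1) (nat_lit 111) (nat_lit 1) (nat_lit 380) (nat_lit 355) (nat_lit 345))) (XT.nd (nat_lit 94) (nat_lit 420) (nat_lit 0) (XT.lf (nat_lit 420) (nat_lit 635716953) (nat_lit 0) (nat_lit 4044501) (nat_lit 336) (nat_lit 1222051944) (nat_lit 107) (nat_lit 1) (nat_lit 102) (nat_lit 1) (nat_lit 106) (nat_lit 1) (nat_lit 381) (nat_lit 355) (nat_lit 344)) (XT.nd (nat_lit 94) (nat_lit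 420) (nat_lit 0) (XT.lf (nat_lit 84) (nat_lit 46900192) (nat_lit 0) (nat_lit 1581701748) (nat_lit 420) (nat_lit 172673500) (nat_lit 103) (nat_lit 1) (nat_lit 102) (nat_lit 1) (nat_lit 107) (nat_lit 1) (nat_lit 382) (nat_lit 355) (nat_lit 343)) (XT.lf (nat_lit 84) (nat_lit 1210975133) (nat_lit 0) (nat_lit 200853183) (nat_lit 420) (nat_lit 331243376) (nat_lit 98) (nat_lit 1) (nat_lit 97) (nat_lit 1) (nat_lit 102) (nat_lit 1) (nat_lit 383) (nat_lit 355) (nat_lit 342))))))))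
noncomputable def ec19 : XT := (XT.nd (nat_lit 1786) (nat_lit 2772) (nat_lit 0) (XT.nd (nat_lit 846) (nat_lit 1932) (nat_lit 0) (XT.nd (nat_lit 376) (nat_lit 1260) (nat_lit 0) (XT.nd (nat_lit 188) (nat_lit 672) (nat_lit 0) (XT.nd (nat_lit 94) (nat_lit 336) (nat_lit 0) (XT.lf (nat_lit 84) (nat_lit 605881546) (nat_lit 0) (nat_lit 615248955) (nat_lit 420) (nat_lit 466309183) (nat_lit 94) (nat_lit 1) (nat_lit 93) (nat_lit 1) (nat_lit 98) (nat_lit 1) (nat_lit 384) (nat_lit 355) (nat_lit 341)) (XT.lf (nat_lit 84) (nat_lit 29904969) (nat_lit 0) (nat_lit 1028686699) (nat_lit 420) (nat_lit 575849999) (nat_lit 90) (nat_lit 1) (nat_lit 89) (nat_lit 1) (nat_lit 94) (nat_lit 1) (nat_lit 385) (nat_lit 355) (nat_lit 340))) (XT.nd (nat_lit 94) (nat_lit 420) (nat_lit 0) (XT.lf (nat_lit 336) (nat_lit 135049157) (nat_lit 0) (nat_lit 913272806) (nat_lit 252) (nat_lit 535198854)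 (nat_lit 90) (nat_lit 1) (nat_lit 86) (nat_lit 1) (nat_lit 89) (nat_lit 1) (nat_lit 386) (nat_lit 355) (nat_lit 339)) (XT.lf (nat_lit 84) (nat_lit 466631147) (nat_lit 0) (nat_lit 319831888) (nat_lit 420) (nat_lit 748240565) (nat_lit 82) (nat_lit 1) (nat_lit 81) (nat_lit 1) (nat_lit 86) (nat_lit 1) (nat_lit 387) (nat_lit 355) (nat_lit 338)))) (XT.nd (nat_lit 188) (nat_lit 756) (nat_lit 0) (XT.nd (nat_lit 94) (nat_lit 252) (nat_lit 0) (XT.lf (nat_lit 336) (nat_lit 722457256) (nat_lit 0) (nat_lit 678655216) (nat_lit 252) (nat_lit 86867062) (nat_lit 82) (nat_lit 1) (nat_lit 78) (nat_lit 1) (nat_lit 81) (nat_lit 1) (nat_lit 388) (nat_lit 355) (nat_lit 337)) (XT.lf (nat_lit 336) (nat_lit 231544060) (nat_lit 0) (nat_lit 584294350) (nat_lit 252) (nat_lit 627212676) (nat_lit 79) (nat_lit 1) (nat_lit 75) (nat_lit 1) (nat_lit 78) (nat_lit 1) (nat_lit 389) (nat_lit 355)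 (nat_lit 336))) (XT.nd (nat_lit 94) (nat_lit 420) (nat_lit 0) (XT.lf (nat_lit 84) (nat_lit 263904280) (nat_lit 0) (nat_lit 241627302) (nat_lit 336) (nat_lit 894457020) (nat_lit 72) (nat_lit 1) (nat_lit 71) (nat_lit 1) (nat_lit 75) (nat_lit 1) (nat_lit 390) (nat_lit 355) (nat_lit 335)) (XT.nd (nat_lit 94) (nat_lit 168) (nat_lit 0) (XT.lf (nat_lit 336) (nat_lit 656691164) (nat_lit 0) (nat_lit 436937965) (nat_lit 252) (nat_lit 264873231) (nat_lit 72) (nat_lit 1) (nat_lit 68) (nat_lit 1) (nat_lit 71) (nat_lit 1) (nat_lit 391) (nat_lit 355) (nat_lit 334)) (XT.lf (nat_lit 252) (nat_lit 162794709) (nat_lit 0) (nat_lit 381196504) (nat_lit 168) (nat_lit 774698575) (nat_lit 69) (nat_lit 1) (nat_lit 66) (nat_lit 1) (nat_lit 68) (nat_lit 1) (nat_lit 392) (nat_lit 355) (nat_lit 333)))))) (XT.nd (nat_lit 470) (nat_lit 840) (nat_lit 0) (XT.nd (nat_lit 188) (nat_lit 588)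 (nat_lit 0) (XT.nd (nat_lit 94) (nat_lit 168) (nat_lit 0) (XT.lf (nat_lit 84) (nat_lit 27578463) (nat_lit 0) (nat_lit 308608996) (nat_lit 336) (nat_lit 944232996) (nat_lit 63) (nat_lit 1) (nat_lit 62) (nat_lit 1) (nat_lit 66) (nat_lit 1) (nat_lit 393) (nat_lit 355) (nat_lit 332)) (XT.lf (nat_lit 252) (nat_lit 473051554) (nat_lit 0) (nat_lit 295616638) (nat_lit 168) (nat_lit 474697778) (nat_lit 63) (nat_lit 1) (nat_lit 60) (nat_lit 1) (nat_lit 62) (nat_lit 1) (nat_lit 394) (nat_lit 355) (nat_lit 331))) (XT.nd (nat_lit 94) (nat_lit 336) (nat_lit 0) (XT.lf (nat_lit 84) (nat_lit 256658004) (nat_lit 0) (nat_lit 11855194) (nat_lit 252) (nat_lit 939415216) (nat_lit 58) (nat_lit 1) (nat_lit 57) (nat_lit 1) (nat_lit 60) (nat_lit 1) (nat_lit 395) (nat_lit 355) (nat_lit 330)) (XT.nd (nat_lit 94) (nat_lit 168) (nat_lit 0) (XT.lf (nat_lit 252) (nat_lit 701653422) (nat_lit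 0) (nat_lit 243138643) (nat_lit 168) (nat_lit 228729646) (nat_lit 58) (nat_lit 1) (nat_lit 55) (nat_lit 1) (nat_lit 57) (nat_lit 1) (nat_lit 396) (nat_lit 355) (nat_lit 329)) (XT.lf (nat_lit 252) (nat_lit 217961670) (nat_lit 0) (nat_lit 226024255) (nat_lit 168) (nat_lit 696444601) (nat_lit 56) (nat_lit 1) (nat_lit 53) (nat_lit 1) (nat_lit 55) (nat_lit 1) (nat_lit 397) (nat_lit 355) (nat_lit 328))))) (XT.nd (nat_lit 188) (nat_lit 420) (nat_lit 0) (XT.nd (nat_lit 94) (nat_lit 168) (nat_lit 0) (XT.lf (nat_lit 252) (nat_lit 865227727) (nat_lit 0) (nat_lit 215947830) (nat_lit 168) (nat_lit 27395487) (nat_lit 53) (nat_lit 1) (nat_lit 50) (nat_lit 1) (nat_lit 52) (nat_lit 1) (nat_lit 398) (nat_lit 355) (nat_lit 327)) (XT.lf (nat_lit 252) (nat_lit 387235830) (nat_lit 0) (nat_lit 206157372) (nat_lit 168) (nat_lit 484203635) (nat_lit 51) (nat_lit 1) (nat_lit 48) (nat_lit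 1) (nat_lit 50) (nat_lit 1) (nat_lit 399) (nat_lit 355) (nat_lit 326))) (XT.nd (nat_lit 94) (nat_lit 252) (nat_lit 0) (XT.lf (nat_lit 84) (nat_lit 132643222) (nat_lit 0) (nat_lit 72906692) (nat_lit 168) (nat_lit 842357446) (nat_lit 47) (nat_lit 1) (nat_lit 46) (nat_lit 1) (nat_lit 48) (nat_lit 1) (nat_lit 400) (nat_lit 355) (nat_lit 325)) (XT.nd (nat_lit 94) (nat_lit 84) (nat_lit 0) (XT.lf (nat_lit 252) (nat_lit 508075680) (nat_lit 0) (nat_lit 203373370) (nat_lit 168) (nat_lit 307518019) (nat_lit 47) (nat_lit 1) (nat_lit 44) (nat_lit 1) (nat_lit 46) (nat_lit 1) (nat_lit 401) (nat_lit 355) (nat_lit 324)) (XT.lf (nat_lit 168) (nat_lit 54712531) (nat_lit 0) (nat_lit 208368483) (nat_lit 84) (nat_lit 728088290) (nat_lit 45) (nat_lit 1) (nat_lit 43) (nat_lit 1) (nat_lit 44) (nat_lit 1) (nat_lit 402) (nat_lit 355) (nat_lit 323))))))) (XT.nd (nat_lit 846) (nat_lit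 1260) (nat_lit 0) (XT.nd (nat_lit 376) (nat_lit 840) (nat_lit 0) (XT.nd (nat_lit 188) (nat_lit 336) (nat_lit 0) (XT.nd (nat_lit 94) (nat_lit 84) (nat_lit 0) (XT.lf (nat_lit 252) (nat_lit 590601573) (nat_lit 0) (nat_lit 213105354) (nat_lit 168) (nat_lit 160431080) (nat_lit 43) (nat_lit 1) (nat_lit 40) (nat_lit 1) (nat_lit 42) (nat_lit 1) (nat_lit 403) (nat_lit 355) (nat_lit 322)) (XT.lf (nat_lit 168) (nat_lit 148540650) (nat_lit 0) (nat_lit 221073578) (nat_lit 84) (nat_lit 568403492) (nat_lit 41) (nat_lit 1) (nat_lit 39) (nat_lit 1) (nat_lit 40) (nat_lit 1) (nat_lit 404) (nat_lit 355) (nat_lit 321))) (XT.nd (nat_lit 94) (nat_lit 84) (nat_lit 0) (XT.lf (nat_lit 252) (nat_lit 642995947) (nat_lit 0) (nat_lit 231736022) (nat_lit 168) (nat_lit 38029865) (nat_lit 39) (nat_lit 1) (nat_lit 36) (nat_lit 1) (nat_lit 38) (nat_lit 1) (nat_lit 405) (nat_lit 355) (nat_lit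 320)) (XT.lf (nat_lit 168) (nat_lit 213770375) (nat_lit 0) (nat_lit 241587587) (nat_lit 84) (nat_lit 432825027) (nat_lit 37) (nat_lit 1) (nat_lit 35) (nat_lit 1) (nat_lit 36) (nat_lit 1) (nat_lit 406) (nat_lit 355) (nat_lit 319)))) (XT.nd (nat_lit 188) (nat_lit 504) (nat_lit 0) (XT.nd (nat_lit 94) (nat_lit 84) (nat_lit 0) (XT.lf (nat_lit 84) (nat_lit 61702637) (nat_lit 0) (nat_lit 193668131) (nat_lit 252) (nat_lit 609116373) (nat_lit 33) (nat_lit 1) (nat_lit 32) (nat_lit 1) (nat_lit 35) (nat_lit 1) (nat_lit 407) (nat_lit 355) (nat_lit 318)) (XT.lf (nat_lit 168) (nat_lit 256543737) (nat_lit 0) (nat_lit 267306414) (nat_lit 84) (nat_lit 317529616) (nat_lit 33) (nat_lit 1) (nat_lit 31) (nat_lit 1) (nat_lit 32) (nat_lit 1) (nat_lit 408) (nat_lit 355) (nat_lit 317))) (XT.nd (nat_lit 94) (nat_lit 252) (nat_lit 0) (XT.lf (nat_lit 84) (nat_lit 143497359) (nat_lit 0)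 (nat_lit 138986896) (nat_lit 252) (nat_lit 536600185) (nat_lit 29) (nat_lit 1) (nat_lit 28) (nat_lit 1) (nat_lit 31) (nat_lit 1) (nat_lit 409) (nat_lit 355) (nat_lit 316)) (XT.nd (nat_lit 94) (nat_lit 168) (nat_lit 0) (XT.lf (nat_lit 168) (nat_lit 281813870) (nat_lit 0) (nat_lit 296197264) (nat_lit 84) (nat_lit 219347617) (nat_lit 29) (nat_lit 1) (nat_lit 27) (nat_lit 1) (nat_lit 28) (nat_lit 1) (nat_lit 410) (nat_lit 355) (nat_lit 315)) (XT.lf (nat_lit 84) (nat_lit 211261296) (nat_lit 0) (nat_lit 100662227) (nat_lit 168) (nat_lit 464427039) (nat_lit 26) (nat_lit 1) (nat_lit 25) (nat_lit 1) (nat_lit 27) (nat_lit 1) (nat_lit 411) (nat_lit 355) (nat_lit 314)))))) (XT.nd (nat_lit 470) (nat_lit 672) (nat_lit 0) (XT.nd (nat_lit 188) (nat_lit 336) (nat_lit 0) (XT.nd (nat_lit 94) (nat_lit 168) (nat_lit 0) (XT.lf (nat_lit 168) (nat_lit 293567165) (nat_lit 0) (nat_lit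 326687307) (nat_lit 84) (nat_lit 135646431) (nat_lit 26) (nat_lit 1) (nat_lit 24) (nat_lit 1) (nat_lit 25) (nat_lit 1) (nat_lit 412) (nat_lit 355) (nat_lit 313)) (XT.lf (nat_lit 84) (nat_lit 267225896) (nat_lit 0) (nat_lit 75095334) (nat_lit 168) (nat_lit 393759024) (nat_lit 23) (nat_lit 1) (nat_lit 22) (nat_lit 1) (nat_lit 24) (nat_lit 1) (nat_lit 413) (nat_lit 355) (nat_lit 312))) (XT.nd (nat_lit 94) (nat_lit 252) (nat_lit 0) (XT.lf (nat_lit 168) (nat_lit 295004407) (nat_lit 0) (nat_lit 357573180) (nat_lit 84) (nat_lit 64235082) (nat_lit 23) (nat_lit 1) (nat_lit 21) (nat_lit 1) (nat_lit 22) (nat_lit 1) (nat_lit 414) (nat_lit 355) (nat_lit 311)) (XT.nd (nat_lit 94) (nat_lit 84) (nat_lit 0) (XT.lf (nat_lit 84) (nat_lit 313245746) (nat_lit 0) (nat_lit 59392454) (nat_lit 168) (nat_lit 325453369) (nat_lit 20) (nat_lit 1) (nat_lit 19) (nat_lit 1) (nat_lit 21)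 (nat_lit 1) (nat_lit 415) (nat_lit 355) (nat_lit 310)) (XT.lf (nat_lit 168) (nat_lit 288688454) (nat_lit 0) (nat_lit 387947502) (nat_lit 84) (nat_lit 3286103) (nat_lit 20) (nat_lit 1) (nat_lit 18) (nat_lit 1) (nat_lit 19) (nat_lit 1) (nat_lit 416) (nat_lit 355) (nat_lit 309))))) (XT.nd (nat_lit 188) (nat_lit 420) (nat_lit 0) (XT.nd (nat_lit 94) (nat_lit 84) (nat_lit 0) (XT.lf (nat_lit 84) (nat_lit 350865273) (nat_lit 0) (nat_lit 51232471) (nat_lit 168) (nat_lit 260124570) (nat_lit 17) (nat_lit 1) (nat_lit 16) (nat_lit 1) (nat_lit 18) (nat_lit 1) (nat_lit 417) (nat_lit 355) (nat_lit 308)) (XT.lf (nat_lit 0) (nat_lit 47168821) (nat_lit 0) (nat_lit 369171587) (nat_lit 168) (nat_lit 228696939) (nat_lit 15) (nat_lit 3) (nat_lit 15) (nat_lit 1) (nat_lit 17) (nat_lit 1) (nat_lit 418) (nat_lit 355) (nat_lit 307))) (XT.nd (nat_lit 94) (nat_lit 252) (nat_lit 0) (XT.lf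 (nat_lit 84) (nat_lit 381373379) (nat_lit 0) (nat_lit 48759017) (nat_lit 168) (nat_lit 198194722) (nat_lit 14) (nat_lit 1) (nat_lit 13) (nat_lit 1) (nat_lit 15) (nat_lit 1) (nat_lit 419) (nat_lit 355) (nat_lit 306)) (XT.nd (nat_lit 94) (nat_lit 168) (nat_lit 0) (XT.lf (nat_lit 0) (nat_lit 90109898) (nat_lit 0) (nat_lit 353029395) (nat_lit 168) (nat_lit 168922629) (nat_lit 12) (nat_lit 3) (nat_lit 12) (nat_lit 1) (nat_lit 14) (nat_lit 1) (nat_lit 420) (nat_lit 355) (nat_lit 305)) (XT.lf (nat_lit 84) (nat_lit 405848210) (nat_lit 0) (nat_lit 50492553) (nat_lit 168) (nat_lit 139934243) (nat_lit 11) (nat_lit 1) (nat_lit 10) (nat_lit 1) (nat_lit 12) (nat_lit 1) (nat_lit 421) (nat_lit 355) (nat_lit 304))))))))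
noncomputable def ec20 : XT := (XT.nd (nat_lit 63826) (nat_lit 0) (nat_lit 3864) (XT.nd (nat_lit 62980) (nat_lit 0) (nat_lit 8568) (XT.nd (nat_lit 376) (nat_lit 336) (nat_lit 0) (XT.nd (nat_lit 188) (nat_lit 252) (nat_lit 0) (XT.nd (nat_lit 94) (nat_lit 168) (nat_lit 0) (XT.lf (nat_lit 0) (nat_lit 126684489) (nat_lit 0) (nat_lit 341361719) (nat_lit 168) (nat_lit 112826632) (nat_lit 9) (nat_lit 3) (nat_lit 9) (nat_lit 1) (nat_lit 11) (nat_lit 1) (nat_lit 422) (nat_lit 355) (nat_lit 303)) (XT.lf (nat_lit 84) (nat_lit 425193844) (nat_lit 0) (nat_lit 55258747) (nat_lit 168) (nat_lit 85494780) (nat_lit 8) (nat_lit 1) (nat_lit 7) (nat_lit 1) (nat_lit 9) (nat_lit 1) (nat_lit 423) (nat_lit 355) (nat_lit 302))) (XT.nd (nat_lit 94) (nat_lit 168) (nat_lit 0) (XT.lf (nat_lit 0) (nat_lit 157771259) (nat_lit 0) (nat_lit 333058043) (nat_lit 168) (nat_lit 60526957) (nat_lit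 6) (nat_lit 3) (nat_lit 6) (nat_lit 1) (nat_lit 8) (nat_lit 1) (nat_lit 424) (nat_lit 355) (nat_lit 301)) (XT.lf (nat_lit 84) (nat_lit 440170393) (nat_lit 0) (nat_lit 62130158) (nat_lit 168) (nat_lit 34935752) (nat_lit 5) (nat_lit 1) (nat_lit 4) (nat_lit 1) (nat_lit 6) (nat_lit 1) (nat_lit 425) (nat_lit 355) (nat_lit 300)))) (XT.nd (nat_lit 62322) (nat_lit 0) (nat_lit 10752) (XT.nd (nat_lit 94) (nat_lit 252) (nat_lit 0) (XT.lf (nat_lit 0) (nat_lit 184113352) (nat_lit 0) (nat_lit 327237318) (nat_lit 168) (nat_lit 12057779) (nat_lit 3) (nat_lit 3) (nat_lit 3) (nat_lit 1) (nat_lit 5) (nat_lit 1) (nat_lit 426) (nat_lit 355) (nat_lit 299)) (XT.lf (nat_lit 0) (nat_lit 739861965) (nat_lit 0) (nat_lit 0) (nat_lit 0) (nat_lit 0) (nat_lit 0) (nat_lit 0) (nat_lit 1) (nat_lit 0) (nat_lit 1) (nat_lit 0) (nat_lit 427) (nat_lit 355) (nat_lit 298))) (XT.nd (nat_lit 94) (nat_lit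 0) (nat_lit 84) (XT.lf (nat_lit 924) (nat_lit 394961403) (nat_lit 0) (nat_lit 701253063) (nat_lit 924) (nat_lit 394961403) (nat_lit 139) (nat_lit 1) (nat_lit 128) (nat_lit 0) (nat_lit 139) (nat_lit 0) (nat_lit 368) (nat_lit 356) (nat_lit 356)) (XT.nd (nat_lit 94) (nat_lit 0) (nat_lit 0) (XT.lf (nat_lit 924) (nat_lit 147332722) (nat_lit 0) (nat_lit 1376772296) (nat_lit 840) (nat_lit 1346478706) (nat_lit 140) (nat_lit 1) (nat_lit 129) (nat_lit 1) (nat_lit 139) (nat_lit 1) (nat_lit 369) (nat_lit 356) (nat_lit 355)) (XT.lf (nat_lit 924) (nat_lit 1353166013) (nat_lit 84) (nat_lit 922024871) (nat_lit 0) (nat_lit 488999932) (nat_lit 140) (nat_lit 1) (nat_lit 130) (nat_lit 1) (nat_lit 129) (nat_lit 1) (nat_lit 370) (nat_lit 356) (nat_lit 354)))))) (XT.nd (nat_lit 376) (nat_lit 2352) (nat_lit 0) (XT.nd (nat_lit 188) (nat_lit 0) (nat_lit 168) (XT.nd (nat_lit 94) (nat_lit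 0) (nat_lit 84) (XT.lf (nat_lit 924) (nat_lit 1169246288) (nat_lit 84) (nat_lit 386414232) (nat_lit 0) (nat_lit 1107461558) (nat_lit 141) (nat_lit 1) (nat_lit 131) (nat_lit 1) (nat_lit 130) (nat_lit 1) (nat_lit 371) (nat_lit 356) (nat_lit 353)) (XT.lf (nat_lit 924) (nat_lit 865341659) (nat_lit 0) (nat_lit 1619013341) (nat_lit 840) (nat_lit 82763730) (nat_lit 142) (nat_lit 1) (nat_lit 131) (nat_lit 1) (nat_lit 141) (nat_lit 1) (nat_lit 372) (nat_lit 356) (nat_lit 352))) (XT.nd (nat_lit 94) (nat_lit 0) (nat_lit 0) (XT.lf (nat_lit 924) (nat_lit 207630246) (nat_lit 0) (nat_lit 1785411988) (nat_lit 840) (nat_lit 482657980) (nat_lit 143) (nat_lit 1) (nat_lit 132) (nat_lit 1) (nat_lit 142) (nat_lit 1) (nat_lit 373) (nat_lit 356) (nat_lit 351)) (XT.lf (nat_lit 924) (nat_lit 398980883) (nat_lit 84) (nat_lit 1551668410) (nat_lit 0) (nat_lit 437899969) (nat_lit 143)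 (nat_lit 1) (nat_lit 133) (nat_lit 1) (nat_lit 132) (nat_lit 1) (nat_lit 374) (nat_lit 356) (nat_lit 350)))) (XT.nd (nat_lit 188) (nat_lit 1176) (nat_lit 0) (XT.nd (nat_lit 94) (nat_lit 588) (nat_lit 0) (XT.lf (nat_lit 924) (nat_lit 81941575) (nat_lit 0) (nat_lit 1159974775) (nat_lit 840) (nat_lit 1063684715) (nat_lit 134) (nat_lit 1) (nat_lit 123) (nat_lit 1) (nat_lit 133) (nat_lit 1) (nat_lit 375) (nat_lit 356) (nat_lit 349)) (XT.lf (nat_lit 84) (nat_lit 567380538) (nat_lit 0) (nat_lit 245872391) (nat_lit 588) (nat_lit 1413327457) (nat_lit 117) (nat_lit 1) (nat_lit 116) (nat_lit 1) (nat_lit 123) (nat_lit 1) (nat_lit 376) (nat_lit 356) (nat_lit 348))) (XT.nd (nat_lit 94) (nat_lit 756) (nat_lit 0) (XT.lf (nat_lit 504) (nat_lit 1563629349) (nat_lit 0) (nat_lit 508995062) (nat_lit 420) (nat_lit 78693781) (nat_lit 117) (nat_lit 1) (nat_lit 111) (nat_lit 1) (nat_lit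 116) (nat_lit 1) (nat_lit 377) (nat_lit 356) (nat_lit 347)) (XT.nd (nat_lit 94) (nat_lit 336) (nat_lit 0) (XT.lf (nat_lit 504) (nat_lit 1128329828) (nat_lit 0) (nat_lit 237244791) (nat_lit 420) (nat_lit 713717519) (nat_lit 112) (nat_lit 1) (nat_lit 106) (nat_lit 1) (nat_lit 111) (nat_lit 1) (nat_lit 378) (nat_lit 356) (nat_lit 346)) (XT.lf (nat_lit 420) (nat_lit 686574309) (nat_lit 0) (nat_lit 4368062) (nat_lit 336) (nat_lit 1319816100) (nat_lit 107) (nat_lit 1) (nat_lit 102) (nat_lit 1) (nat_lit 106) (nat_lit 1) (nat_lit 379) (nat_lit 356) (nat_lit 345))))))) (XT.nd (nat_lit 846) (nat_lit 2100) (nat_lit 0) (XT.nd (nat_lit 376) (nat_lit 1512) (nat_lit 0) (XT.nd (nat_lit 188) (nat_lit 672) (nat_lit 0) (XT.nd (nat_lit 94) (nat_lit 420) (nat_lit 0) (XT.lf (nat_lit 84) (nat_lit 50652207) (nat_lit 0) (nat_lit 1708237888) (nat_lit 420) (nat_lit 186487380) (nat_lit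 103) (nat_lit 1) (nat_lit 102) (nat_lit 1) (nat_lit 107) (nat_lit 1) (nat_lit 380) (nat_lit 356) (nat_lit 344)) (XT.lf (nat_lit 84) (nat_lit 1307853144) (nat_lit 0) (nat_lit 216921437) (nat_lit 420) (nat_lit 357742847) (nat_lit 98) (nat_lit 1) (nat_lit 97) (nat_lit 1) (nat_lit 102) (nat_lit 1) (nat_lit 381) (nat_lit 356) (nat_lit 343))) (XT.nd (nat_lit 94) (nat_lit 336) (nat_lit 0) (XT.lf (nat_lit 84) (nat_lit 654352069) (nat_lit 0) (nat_lit 664468871) (nat_lit 420) (nat_lit 503613918) (nat_lit 94) (nat_lit 1) (nat_lit 93) (nat_lit 1) (nat_lit 98) (nat_lit 1) (nat_lit 382) (nat_lit 356) (nat_lit 342)) (XT.lf (nat_lit 84) (nat_lit 32297367) (nat_lit 0) (nat_lit 1110981635) (nat_lit 420) (nat_lit 621917998) (nat_lit 90) (nat_lit 1) (nat_lit 89) (nat_lit 1) (nat_lit 94) (nat_lit 1) (nat_lit 383) (nat_lit 356) (nat_lit 341)))) (XT.nd (nat_lit 188) (nat_lit 840)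 (nat_lit 0) (XT.nd (nat_lit 94) (nat_lit 420) (nat_lit 0) (XT.lf (nat_lit 336) (nat_lit 145853089) (nat_lit 0) (nat_lit 986334631) (nat_lit 252) (nat_lit 578014762) (nat_lit 90) (nat_lit 1) (nat_lit 86) (nat_lit 1) (nat_lit 89) (nat_lit 1) (nat_lit 384) (nat_lit 356) (nat_lit 340)) (XT.lf (nat_lit 84) (nat_lit 503961639) (nat_lit 0) (nat_lit 345418439) (nat_lit 420) (nat_lit 808099810) (nat_lit 82) (nat_lit 1) (nat_lit 81) (nat_lit 1) (nat_lit 86) (nat_lit 1) (nat_lit 385) (nat_lit 356) (nat_lit 339))) (XT.nd (nat_lit 94) (nat_lit 588) (nat_lit 0) (XT.lf (nat_lit 336) (nat_lit 780253836) (nat_lit 0) (nat_lit 732947633) (nat_lit 252) (nat_lit 93816427) (nat_lit 82) (nat_lit 1) (nat_lit 78) (nat_lit 1) (nat_lit 81) (nat_lit 1) (nat_lit 386) (nat_lit 356) (nat_lit 338)) (XT.nd (nat_lit 94) (nat_lit 336) (nat_lit 0) (XT.lf (nat_lit 336) (nat_lit 250067585) (nat_lit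 0) (nat_lit 631037898) (nat_lit 252) (nat_lit 677389690) (nat_lit 79) (nat_lit 1) (nat_lit 75) (nat_lit 1) (nat_lit 78) (nat_lit 1) (nat_lit 387) (nat_lit 356) (nat_lit 337)) (XT.lf (nat_lit 84) (nat_lit 285016622) (nat_lit 0) (nat_lit 260957486) (nat_lit 336) (nat_lit 966013582) (nat_lit 72) (nat_lit 1) (nat_lit 71) (nat_lit 1) (nat_lit 75) (nat_lit 1) (nat_lit 388) (nat_lit 356) (nat_lit 336)))))) (XT.nd (nat_lit 470) (nat_lit 924) (nat_lit 0) (XT.nd (nat_lit 188) (nat_lit 756) (nat_lit 0) (XT.nd (nat_lit 94) (nat_lit 168) (nat_lit 0) (XT.lf (nat_lit 336) (nat_lit 709226457) (nat_lit 0) (nat_lit 471893002) (nat_lit 252) (nat_lit 286063089) (nat_lit 72) (nat_lit 1) (nat_lit 68) (nat_lit 1) (nat_lit 71) (nat_lit 1) (nat_lit 389) (nat_lit 356) (nat_lit 335)) (XT.lf (nat_lit 252) (nat_lit 175818285) (nat_lit 0) (nat_lit 411692224) (nat_lit 168) (nat_lit 836674461)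 (nat_lit 69) (nat_lit 1) (nat_lit 66) (nat_lit 1) (nat_lit 68) (nat_lit 1) (nat_lit 390) (nat_lit 356) (nat_lit 334))) (XT.nd (nat_lit 94) (nat_lit 420) (nat_lit 0) (XT.lf (nat_lit 84) (nat_lit 29784740) (nat_lit 0) (nat_lit 333297716) (nat_lit 336) (nat_lit 1019771636) (nat_lit 63) (nat_lit 1) (nat_lit 62) (nat_lit 1) (nat_lit 66) (nat_lit 1) (nat_lit 391) (nat_lit 356) (nat_lit 333)) (XT.nd (nat_lit 94) (nat_lit 252) (nat_lit 0) (XT.lf (nat_lit 252) (nat_lit 510895678) (nat_lit 0) (nat_lit 319265969) (nat_lit 168) (nat_lit 512673600) (nat_lit 63) (nat_lit 1) (nat_lit 60) (nat_lit 1) (nat_lit 62) (nat_lit 1) (nat_lit 392) (nat_lit 356) (nat_lit 332)) (XT.lf (nat_lit 84) (nat_lit 277190644) (nat_lit 0) (nat_lit 12803609) (nat_lit 252) (nat_lit 1014568433) (nat_lit 58) (nat_lit 1) (nat_lit 57) (nat_lit 1) (nat_lit 60) (nat_lit 1) (nat_lit 393) (nat_lit 356)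 (nat_lit 331))))) (XT.nd (nat_lit 188) (nat_lit 588) (nat_lit 0) (XT.nd (nat_lit 94) (nat_lit 168) (nat_lit 0) (XT.lf (nat_lit 252) (nat_lit 757785695) (nat_lit 0) (nat_lit 262589734) (nat_lit 168) (nat_lit 247028018) (nat_lit 58) (nat_lit 1) (nat_lit 55) (nat_lit 1) (nat_lit 57) (nat_lit 1) (nat_lit 394) (nat_lit 356) (nat_lit 330)) (XT.lf (nat_lit 252) (nat_lit 235398603) (nat_lit 0) (nat_lit 244106195) (nat_lit 168) (nat_lit 752160170) (nat_lit 56) (nat_lit 1) (nat_lit 53) (nat_lit 1) (nat_lit 55) (nat_lit 1) (nat_lit 395) (nat_lit 356) (nat_lit 329))) (XT.nd (nat_lit 94) (nat_lit 336) (nat_lit 0) (XT.lf (nat_lit 252) (nat_lit 934445945) (nat_lit 0) (nat_lit 233223657) (nat_lit 168) (nat_lit 29587126) (nat_lit 53) (nat_lit 1) (nat_lit 50) (nat_lit 1) (nat_lit 52) (nat_lit 1) (nat_lit 396) (nat_lit 356) (nat_lit 328)) (XT.nd (nat_lit 94) (nat_lit 168) (nat_lit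 0) (XT.lf (nat_lit 252) (nat_lit 418214697) (nat_lit 0) (nat_lit 222649962) (nat_lit 168) (nat_lit 522939926) (nat_lit 51) (nat_lit 1) (nat_lit 48) (nat_lit 1) (nat_lit 50) (nat_lit 1) (nat_lit 397) (nat_lit 356) (nat_lit 327)) (XT.lf (nat_lit 84) (nat_lit 143254680) (nat_lit 0) (nat_lit 78739227) (nat_lit 168) (nat_lit 909746042) (nat_lit 47) (nat_lit 1) (nat_lit 46) (nat_lit 1) (nat_lit 48) (nat_lit 1) (nat_lit 398) (nat_lit 356) (nat_lit 326))))))))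
noncomputable def ec21 : XT := (XT.nd (nat_lit 1786) (nat_lit 1092) (nat_lit 0) (XT.nd (nat_lit 846) (nat_lit 1260) (nat_lit 0) (XT.nd (nat_lit 376) (nat_lit 924) (nat_lit 0) (XT.nd (nat_lit 188) (nat_lit 336) (nat_lit 0) (XT.nd (nat_lit 94) (nat_lit 84) (nat_lit 0) (XT.lf (nat_lit 252) (nat_lit 548721734) (nat_lit 0) (nat_lit 219643239) (nat_lit 168) (nat_lit 332119461) (nat_lit 47) (nat_lit 1) (nat_lit 44) (nat_lit 1) (nat_lit 46) (nat_lit 1) (nat_lit 399) (nat_lit 356) (nat_lit 325)) (XT.lf (nat_lit 168) (nat_lit 59089533) (nat_lit 0) (nat_lit 225037961) (nat_lit 84) (nat_lit 786335353) (nat_lit 45) (nat_lit 1) (nat_lit 43) (nat_lit 1) (nat_lit 44) (nat_lit 1) (nat_lit 400) (nat_lit 356) (nat_lit 324))) (XT.nd (nat_lit 94) (nat_lit 84) (nat_lit 0) (XT.lf (nat_lit 252) (nat_lit 637849699) (nat_lit 0) (nat_lit 230153782) (nat_lit 168) (nat_lit 173265566)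 (nat_lit 43) (nat_lit 1) (nat_lit 40) (nat_lit 1) (nat_lit 42) (nat_lit 1) (nat_lit 401) (nat_lit 356) (nat_lit 323)) (XT.lf (nat_lit 168) (nat_lit 160423902) (nat_lit 0) (nat_lit 238759464) (nat_lit 84) (nat_lit 613875772) (nat_lit 41) (nat_lit 1) (nat_lit 39) (nat_lit 1) (nat_lit 40) (nat_lit 1) (nat_lit 402) (nat_lit 356) (nat_lit 322)))) (XT.nd (nat_lit 188) (nat_lit 588) (nat_lit 0) (XT.nd (nat_lit 94) (nat_lit 84) (nat_lit 0) (XT.lf (nat_lit 252) (nat_lit 694435623) (nat_lit 0) (nat_lit 250274904) (nat_lit 168) (nat_lit 41072254) (nat_lit 39) (nat_lit 1) (nat_lit 36) (nat_lit 1) (nat_lit 38) (nat_lit 1) (nat_lit 403) (nat_lit 356) (nat_lit 321)) (XT.lf (nat_lit 168) (nat_lit 230872005) (nat_lit 0) (nat_lit 260914595) (nat_lit 84) (nat_lit 467451029) (nat_lit 37) (nat_lit 1) (nat_lit 35) (nat_lit 1) (nat_lit 36) (nat_lit 1) (nat_lit 404) (nat_lit 356)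 (nat_lit 320))) (XT.nd (nat_lit 94) (nat_lit 336) (nat_lit 0) (XT.lf (nat_lit 84) (nat_lit 66638848) (nat_lit 0) (nat_lit 209161582) (nat_lit 252) (nat_lit 657845683) (nat_lit 33) (nat_lit 1) (nat_lit 32) (nat_lit 1) (nat_lit 35) (nat_lit 1) (nat_lit 405) (nat_lit 356) (nat_lit 319)) (XT.nd (nat_lit 94) (nat_lit 252) (nat_lit 0) (XT.lf (nat_lit 168) (nat_lit 277067236) (nat_lit 0) (nat_lit 288690927) (nat_lit 84) (nat_lit 342931985) (nat_lit 33) (nat_lit 1) (nat_lit 31) (nat_lit 1) (nat_lit 32) (nat_lit 1) (nat_lit 406) (nat_lit 356) (nat_lit 318)) (XT.lf (nat_lit 84) (nat_lit 154977148) (nat_lit 0) (nat_lit 150105848) (nat_lit 252) (nat_lit 579528200) (nat_lit 29) (nat_lit 1) (nat_lit 28) (nat_lit 1) (nat_lit 31) (nat_lit 1) (nat_lit 407) (nat_lit 356) (nat_lit 317)))))) (XT.nd (nat_lit 470) (nat_lit 672) (nat_lit 0) (XT.nd (nat_lit 188) (nat_lit 336) (nat_lit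 0) (XT.nd (nat_lit 94) (nat_lit 168) (nat_lit 0) (XT.lf (nat_lit 168) (nat_lit 304358980) (nat_lit 0) (nat_lit 319893045) (nat_lit 84) (nat_lit 236895426) (nat_lit 29) (nat_lit 1) (nat_lit 27) (nat_lit 1) (nat_lit 28) (nat_lit 1) (nat_lit 408) (nat_lit 356) (nat_lit 316)) (XT.lf (nat_lit 84) (nat_lit 228162199) (nat_lit 0) (nat_lit 108715205) (nat_lit 168) (nat_lit 501581202) (nat_lit 26) (nat_lit 1) (nat_lit 25) (nat_lit 1) (nat_lit 27) (nat_lit 1) (nat_lit 409) (nat_lit 356) (nat_lit 315))) (XT.nd (nat_lit 94) (nat_lit 252) (nat_lit 0) (XT.lf (nat_lit 168) (nat_lit 317052538) (nat_lit 0) (nat_lit 352822292) (nat_lit 84) (nat_lit 146498146) (nat_lit 26) (nat_lit 1) (nat_lit 24) (nat_lit 1) (nat_lit 25) (nat_lit 1) (nat_lit 410) (nat_lit 356) (nat_lit 314)) (XT.nd (nat_lit 94) (nat_lit 84) (nat_lit 0) (XT.lf (nat_lit 84) (nat_lit 288603968) (nat_lit 0) (nat_lit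 81102961) (nat_lit 168) (nat_lit 425259746) (nat_lit 23) (nat_lit 1) (nat_lit 22) (nat_lit 1) (nat_lit 24) (nat_lit 1) (nat_lit 411) (nat_lit 356) (nat_lit 313)) (XT.lf (nat_lit 168) (nat_lit 318604760) (nat_lit 0) (nat_lit 386179035) (nat_lit 84) (nat_lit 69373889) (nat_lit 23) (nat_lit 1) (nat_lit 21) (nat_lit 1) (nat_lit 22) (nat_lit 1) (nat_lit 412) (nat_lit 356) (nat_lit 312))))) (XT.nd (nat_lit 188) (nat_lit 420) (nat_lit 0) (XT.nd (nat_lit 94) (nat_lit 84) (nat_lit 0) (XT.lf (nat_lit 84) (nat_lit 338305406) (nat_lit 0) (nat_lit 64143850) (nat_lit 168) (nat_lit 351489639) (nat_lit 20) (nat_lit 1) (nat_lit 19) (nat_lit 1) (nat_lit 21) (nat_lit 1) (nat_lit 413) (nat_lit 356) (nat_lit 311)) (XT.lf (nat_lit 168) (nat_lit 311783530) (nat_lit 0) (nat_lit 418983302) (nat_lit 84) (nat_lit 3548991) (nat_lit 20) (nat_lit 1) (nat_lit 18) (nat_lit 1) (nat_lit 19)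 (nat_lit 1) (nat_lit 414) (nat_lit 356) (nat_lit 310))) (XT.nd (nat_lit 94) (nat_lit 252) (nat_lit 0) (XT.lf (nat_lit 84) (nat_lit 378934494) (nat_lit 0) (nat_lit 55331068) (nat_lit 168) (nat_lit 280934536) (nat_lit 17) (nat_lit 1) (nat_lit 16) (nat_lit 1) (nat_lit 18) (nat_lit 1) (nat_lit 415) (nat_lit 356) (nat_lit 309)) (XT.nd (nat_lit 94) (nat_lit 168) (nat_lit 0) (XT.lf (nat_lit 0) (nat_lit 50942326) (nat_lit 0) (nat_lit 398705314) (nat_lit 168) (nat_lit 246992694) (nat_lit 15) (nat_lit 3) (nat_lit 15) (nat_lit 1) (nat_lit 17) (nat_lit 1) (nat_lit 416) (nat_lit 356) (nat_lit 308)) (XT.lf (nat_lit 84) (nat_lit 411883249) (nat_lit 0) (nat_lit 52659739) (nat_lit 168) (nat_lit 214050300) (nat_lit 14) (nat_lit 1) (nat_lit 13) (nat_lit 1) (nat_lit 15) (nat_lit 1) (nat_lit 417) (nat_lit 356) (nat_lit 307))))))) (XT.nd (nat_lit 846) (nat_lit 0) (nat_lit 0) (XT.nd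 (nat_lit 376) (nat_lit 588) (nat_lit 0) (XT.nd (nat_lit 188) (nat_lit 252) (nat_lit 0) (XT.nd (nat_lit 94) (nat_lit 168) (nat_lit 0) (XT.lf (nat_lit 0) (nat_lit 97318690) (nat_lit 0) (nat_lit 381271747) (nat_lit 168) (nat_lit 182436439) (nat_lit 12) (nat_lit 3) (nat_lit 12) (nat_lit 1) (nat_lit 14) (nat_lit 1) (nat_lit 418) (nat_lit 356) (nat_lit 306)) (XT.lf (nat_lit 84) (nat_lit 438316067) (nat_lit 0) (nat_lit 54531957) (nat_lit 168) (nat_lit 151128983) (nat_lit 11) (nat_lit 1) (nat_lit 10) (nat_lit 1) (nat_lit 12) (nat_lit 1) (nat_lit 419) (nat_lit 356) (nat_lit 305))) (XT.nd (nat_lit 94) (nat_lit 168) (nat_lit 0) (XT.lf (nat_lit 0) (nat_lit 136819248) (nat_lit 0) (nat_lit 368670656) (nat_lit 168) (nat_lit 121852762) (nat_lit 9) (nat_lit 3) (nat_lit 9) (nat_lit 1) (nat_lit 11) (nat_lit 1) (nat_lit 420) (nat_lit 356) (nat_lit 304)) (XT.lf (nat_lit 84) (nat_lit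 459209352) (nat_lit 0) (nat_lit 59679447) (nat_lit 168) (nat_lit 92334363) (nat_lit 8) (nat_lit 1) (nat_lit 7) (nat_lit 1) (nat_lit 9) (nat_lit 1) (nat_lit 421) (nat_lit 356) (nat_lit 303)))) (XT.nd (nat_lit 188) (nat_lit 336) (nat_lit 0) (XT.nd (nat_lit 94) (nat_lit 168) (nat_lit 0) (XT.lf (nat_lit 0) (nat_lit 170392960) (nat_lit 0) (nat_lit 359702687) (nat_lit 168) (nat_lit 65369114) (nat_lit 6) (nat_lit 3) (nat_lit 6) (nat_lit 1) (nat_lit 8) (nat_lit 1) (nat_lit 422) (nat_lit 356) (nat_lit 302)) (XT.lf (nat_lit 84) (nat_lit 475384024) (nat_lit 0) (nat_lit 67100571) (nat_lit 168) (nat_lit 37730612) (nat_lit 5) (nat_lit 1) (nat_lit 4) (nat_lit 1) (nat_lit 6) (nat_lit 1) (nat_lit 423) (nat_lit 356) (nat_lit 301))) (XT.nd (nat_lit 94) (nat_lit 252) (nat_lit 0) (XT.lf (nat_lit 0) (nat_lit 198842420) (nat_lit 0) (nat_lit 353416304) (nat_lit 168) (nat_lit 13022401)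 (nat_lit 3) (nat_lit 3) (nat_lit 3) (nat_lit 1) (nat_lit 5) (nat_lit 1) (nat_lit 424) (nat_lit 356) (nat_lit 300)) (XT.nd (nat_lit 94) (nat_lit 0) (nat_lit 0) (XT.lf (nat_lit 0) (nat_lit 799050922) (nat_lit 0) (nat_lit 0) (nat_lit 0) (nat_lit 0) (nat_lit 0) (nat_lit 0) (nat_lit 1) (nat_lit 0) (nat_lit 1) (nat_lit 0) (nat_lit 425) (nat_lit 356) (nat_lit 299)) (XT.lf (nat_lit 0) (nat_lit 798323616) (nat_lit 0) (nat_lit 0) (nat_lit 0) (nat_lit 0) (nat_lit 0) (nat_lit 0) (nat_lit 1) (nat_lit 0) (nat_lit 1) (nat_lit 0) (nat_lit 426) (nat_lit 356) (nat_lit 298)))))) (XT.nd (nat_lit 62322) (nat_lit 0) (nat_lit 10332) (XT.nd (nat_lit 62040) (nat_lit 0) (nat_lit 10752) (XT.nd (nat_lit 94) (nat_lit 0) (nat_lit 0) (XT.lf (nat_lit 0) (nat_lit 797650185) (nat_lit 0) (nat_lit 0) (nat_lit 0) (nat_lit 0) (nat_lit 0) (nat_lit 0) (nat_lit 1) (nat_lit 0) (nat_lit 1) (nat_lit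 0) (nat_lit 427) (nat_lit 356) (nat_lit 297)) (XT.lf (nat_lit 0) (nat_lit 797026637) (nat_lit 0) (nat_lit 0) (nat_lit 0) (nat_lit 0) (nat_lit 0) (nat_lit 0) (nat_lit 1) (nat_lit 0) (nat_lit 1) (nat_lit 0) (nat_lit 428) (nat_lit 356) (nat_lit 296))) (XT.nd (nat_lit 94) (nat_lit 0) (nat_lit 84) (XT.lf (nat_lit 924) (nat_lit 426558315) (nat_lit 0) (nat_lit 757353308) (nat_lit 924) (nat_lit 426558315) (nat_lit 139) (nat_lit 1) (nat_lit 128) (nat_lit 0) (nat_lit 139) (nat_lit 0) (nat_lit 366) (nat_lit 357) (nat_lit 357)) (XT.nd (nat_lit 94) (nat_lit 0) (nat_lit 0) (XT.lf (nat_lit 924) (nat_lit 159119340) (nat_lit 0) (nat_lit 1486914080) (nat_lit 840) (nat_lit 1454197002) (nat_lit 140) (nat_lit 1) (nat_lit 129) (nat_lit 1) (nat_lit 139) (nat_lit 1) (nat_lit 367) (nat_lit 357) (nat_lit 356)) (XT.lf (nat_lit 924) (nat_lit 1461419294) (nat_lit 84) (nat_lit 995786860)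 (nat_lit 0) (nat_lit 528119926) (nat_lit 140) (nat_lit 1) (nat_lit 130) (nat_lit 1) (nat_lit 129) (nat_lit 1) (nat_lit 368) (nat_lit 357) (nat_lit 355))))) (XT.nd (nat_lit 188) (nat_lit 588) (nat_lit 0) (XT.nd (nat_lit 94) (nat_lit 0) (nat_lit 84) (XT.lf (nat_lit 924) (nat_lit 1262785991) (nat_lit 84) (nat_lit 417327371) (nat_lit 0) (nat_lit 1196058483) (nat_lit 141) (nat_lit 1) (nat_lit 131) (nat_lit 1) (nat_lit 130) (nat_lit 1) (nat_lit 369) (nat_lit 357) (nat_lit 354)) (XT.lf (nat_lit 924) (nat_lit 934568992) (nat_lit 0) (nat_lit 1748534409) (nat_lit 840) (nat_lit 89384829) (nat_lit 142) (nat_lit 1) (nat_lit 131) (nat_lit 1) (nat_lit 141) (nat_lit 1) (nat_lit 370) (nat_lit 357) (nat_lit 353))) (XT.nd (nat_lit 94) (nat_lit 756) (nat_lit 0) (XT.lf (nat_lit 924) (nat_lit 224240666) (nat_lit 0) (nat_lit 1928244947) (nat_lit 840) (nat_lit 521270619) (nat_lit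 143) (nat_lit 1) (nat_lit 132) (nat_lit 1) (nat_lit 142) (nat_lit 1) (nat_lit 371) (nat_lit 357) (nat_lit 352)) (XT.nd (nat_lit 94) (nat_lit 756) (nat_lit 0) (XT.lf (nat_lit 924) (nat_lit 430899354) (nat_lit 84) (nat_lit 1675801883) (nat_lit 0) (nat_lit 472931966) (nat_lit 143) (nat_lit 1) (nat_lit 133) (nat_lit 1) (nat_lit 132) (nat_lit 1) (nat_lit 372) (nat_lit 357) (nat_lit 351)) (XT.lf (nat_lit 924) (nat_lit 88496901) (nat_lit 0) (nat_lit 1252772757) (nat_lit 840) (nat_lit 1148779492) (nat_lit 134) (nat_lit 1) (nat_lit 123) (nat_lit 1) (nat_lit 133) (nat_lit 1) (nat_lit 373) (nat_lit 357) (nat_lit 350))))))))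
noncomputable def ec22 : XT := (XT.nd (nat_lit 1692) (nat_lit 3024) (nat_lit 0) (XT.nd (nat_lit 846) (nat_lit 2436) (nat_lit 0) (XT.nd (nat_lit 376) (nat_lit 1344) (nat_lit 0) (XT.nd (nat_lit 188) (nat_lit 756) (nat_lit 0) (XT.nd (nat_lit 94) (nat_lit 420) (nat_lit 0) (XT.lf (nat_lit 84) (nat_lit 612770981) (nat_lit 0) (nat_lit 265542182) (nat_lit 588) (nat_lit 1526393654) (nat_lit 117) (nat_lit 1) (nat_lit 116) (nat_lit 1) (nat_lit 123) (nat_lit 1) (nat_lit 374) (nat_lit 357) (nat_lit 349)) (XT.lf (nat_lit 504) (nat_lit 1688719697) (nat_lit 0) (nat_lit 549714667) (nat_lit 420) (nat_lit 84989284) (nat_lit 117) (nat_lit 1) (nat_lit 111) (nat_lit 1) (nat_lit 116) (nat_lit 1) (nat_lit 375) (nat_lit 357) (nat_lit 348))) (XT.nd (nat_lit 94) (nat_lit 336) (nat_lit 0) (XT.lf (nat_lit 504) (nat_lit 1218596214) (nat_lit 0) (nat_lit 256224374) (nat_lit 420) (nat_lit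 770814921) (nat_lit 112) (nat_lit 1) (nat_lit 106) (nat_lit 1) (nat_lit 111) (nat_lit 1) (nat_lit 376) (nat_lit 357) (nat_lit 347)) (XT.lf (nat_lit 420) (nat_lit 741500254) (nat_lit 0) (nat_lit 4717507) (nat_lit 336) (nat_lit 1425401388) (nat_lit 107) (nat_lit 1) (nat_lit 102) (nat_lit 1) (nat_lit 106) (nat_lit 1) (nat_lit 377) (nat_lit 357) (nat_lit 346)))) (XT.nd (nat_lit 188) (nat_lit 924) (nat_lit 0) (XT.nd (nat_lit 94) (nat_lit 420) (nat_lit 0) (XT.lf (nat_lit 84) (nat_lit 54704384) (nat_lit 0) (nat_lit 1844896919) (nat_lit 420) (nat_lit 201406370) (nat_lit 103) (nat_lit 1) (nat_lit 102) (nat_lit 1) (nat_lit 107) (nat_lit 1) (nat_lit 378) (nat_lit 357) (nat_lit 345)) (XT.lf (nat_lit 84) (nat_lit 1412481395) (nat_lit 0) (nat_lit 234275152) (nat_lit 420) (nat_lit 386362274) (nat_lit 98) (nat_lit 1) (nat_lit 97) (nat_lit 1) (nat_lit 102) (nat_lit 1) (nat_lit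 379) (nat_lit 357) (nat_lit 344))) (XT.nd (nat_lit 94) (nat_lit 588) (nat_lit 0) (XT.lf (nat_lit 84) (nat_lit 706700235) (nat_lit 0) (nat_lit 717626381) (nat_lit 420) (nat_lit 543903031) (nat_lit 94) (nat_lit 1) (nat_lit 93) (nat_lit 1) (nat_lit 98) (nat_lit 1) (nat_lit 380) (nat_lit 357) (nat_lit 343)) (XT.nd (nat_lit 94) (nat_lit 252) (nat_lit 0) (XT.lf (nat_lit 84) (nat_lit 34881156) (nat_lit 0) (nat_lit 1199860166) (nat_lit 420) (nat_lit 671671438) (nat_lit 90) (nat_lit 1) (nat_lit 89) (nat_lit 1) (nat_lit 94) (nat_lit 1) (nat_lit 381) (nat_lit 357) (nat_lit 342)) (XT.lf (nat_lit 336) (nat_lit 157521337) (nat_lit 0) (nat_lit 1065241401) (nat_lit 252) (nat_lit 624255943) (nat_lit 90) (nat_lit 1) (nat_lit 86) (nat_lit 1) (nat_lit 89) (nat_lit 1) (nat_lit 382) (nat_lit 357) (nat_lit 341)))))) (XT.nd (nat_lit 376) (nat_lit 1176) (nat_lit 0) (XT.nd (nat_lit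 188) (nat_lit 588) (nat_lit 0) (XT.nd (nat_lit 94) (nat_lit 252) (nat_lit 0) (XT.lf (nat_lit 84) (nat_lit 544278570) (nat_lit 0) (nat_lit 373051914) (nat_lit 420) (nat_lit 872747795) (nat_lit 82) (nat_lit 1) (nat_lit 81) (nat_lit 1) (nat_lit 86) (nat_lit 1) (nat_lit 383) (nat_lit 357) (nat_lit 340)) (XT.lf (nat_lit 336) (nat_lit 842674143) (nat_lit 0) (nat_lit 791583444) (nat_lit 252) (nat_lit 101321741) (nat_lit 82) (nat_lit 1) (nat_lit 78) (nat_lit 1) (nat_lit 81) (nat_lit 1) (nat_lit 384) (nat_lit 357) (nat_lit 339))) (XT.nd (nat_lit 94) (nat_lit 336) (nat_lit 0) (XT.lf (nat_lit 336) (nat_lit 270072991) (nat_lit 0) (nat_lit 681520930) (nat_lit 252) (nat_lit 731580865) (nat_lit 79) (nat_lit 1) (nat_lit 75) (nat_lit 1) (nat_lit 78) (nat_lit 1) (nat_lit 385) (nat_lit 357) (nat_lit 338)) (XT.lf (nat_lit 84) (nat_lit 307817952) (nat_lit 0) (nat_lit 281834085)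 (nat_lit 336) (nat_lit 1043294668) (nat_lit 72) (nat_lit 1) (nat_lit 71) (nat_lit 1) (nat_lit 75) (nat_lit 1) (nat_lit 386) (nat_lit 357) (nat_lit 337)))) (XT.nd (nat_lit 188) (nat_lit 756) (nat_lit 0) (XT.nd (nat_lit 94) (nat_lit 168) (nat_lit 0) (XT.lf (nat_lit 336) (nat_lit 765964573) (nat_lit 0) (nat_lit 509644442) (nat_lit 252) (nat_lit 308948136) (nat_lit 72) (nat_lit 1) (nat_lit 68) (nat_lit 1) (nat_lit 71) (nat_lit 1) (nat_lit 387) (nat_lit 357) (nat_lit 336)) (XT.lf (nat_lit 252) (nat_lit 189883748) (nat_lit 0) (nat_lit 444627602) (nat_lit 168) (nat_lit 903608418) (nat_lit 69) (nat_lit 1) (nat_lit 66) (nat_lit 1) (nat_lit 68) (nat_lit 1) (nat_lit 388) (nat_lit 357) (nat_lit 335))) (XT.nd (nat_lit 94) (nat_lit 420) (nat_lit 0) (XT.lf (nat_lit 84) (nat_lit 32167520) (nat_lit 0) (nat_lit 359961534) (nat_lit 336) (nat_lit 1101353367) (nat_lit 63) (nat_lit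 1) (nat_lit 62) (nat_lit 1) (nat_lit 66) (nat_lit 1) (nat_lit 389) (nat_lit 357) (nat_lit 334)) (XT.nd (nat_lit 94) (nat_lit 252) (nat_lit 0) (XT.lf (nat_lit 252) (nat_lit 551767332) (nat_lit 0) (nat_lit 344807247) (nat_lit 168) (nat_lit 553687488) (nat_lit 63) (nat_lit 1) (nat_lit 60) (nat_lit 1) (nat_lit 62) (nat_lit 1) (nat_lit 390) (nat_lit 357) (nat_lit 333)) (XT.lf (nat_lit 84) (nat_lit 299365896) (nat_lit 0) (nat_lit 13827898) (nat_lit 252) (nat_lit 1095733908) (nat_lit 58) (nat_lit 1) (nat_lit 57) (nat_lit 1) (nat_lit 60) (nat_lit 1) (nat_lit 391) (nat_lit 357) (nat_lit 332))))))) (XT.nd (nat_lit 846) (nat_lit 1512) (nat_lit 0) (XT.nd (nat_lit 376) (nat_lit 756) (nat_lit 0) (XT.nd (nat_lit 188) (nat_lit 420) (nat_lit 0) (XT.nd (nat_lit 94) (nat_lit 168) (nat_lit 0) (XT.lf (nat_lit 252) (nat_lit 818408551) (nat_lit 0) (nat_lit 283596913) (nat_lit 168)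 (nat_lit 266790259) (nat_lit 58) (nat_lit 1) (nat_lit 55) (nat_lit 1) (nat_lit 57) (nat_lit 1) (nat_lit 392) (nat_lit 357) (nat_lit 331)) (XT.lf (nat_lit 252) (nat_lit 254230492) (nat_lit 0) (nat_lit 263634691) (nat_lit 168) (nat_lit 812332983) (nat_lit 56) (nat_lit 1) (nat_lit 53) (nat_lit 1) (nat_lit 55) (nat_lit 1) (nat_lit 393) (nat_lit 357) (nat_lit 330))) (XT.nd (nat_lit 94) (nat_lit 168) (nat_lit 0) (XT.lf (nat_lit 252) (nat_lit 1009201621) (nat_lit 0) (nat_lit 251881549) (nat_lit 168) (nat_lit 31954096) (nat_lit 53) (nat_lit 1) (nat_lit 50) (nat_lit 1) (nat_lit 52) (nat_lit 1) (nat_lit 394) (nat_lit 357) (nat_lit 329)) (XT.lf (nat_lit 252) (nat_lit 451671873) (nat_lit 0) (nat_lit 240461959) (nat_lit 168) (nat_lit 564775120) (nat_lit 51) (nat_lit 1) (nat_lit 48) (nat_lit 1) (nat_lit 50) (nat_lit 1) (nat_lit 395) (nat_lit 357) (nat_lit 328)))) (XT.nd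 (nat_lit 188) (nat_lit 420) (nat_lit 0) (XT.nd (nat_lit 94) (nat_lit 168) (nat_lit 0) (XT.lf (nat_lit 84) (nat_lit 154715055) (nat_lit 0) (nat_lit 85038365) (nat_lit 168) (nat_lit 982525725) (nat_lit 47) (nat_lit 1) (nat_lit 46) (nat_lit 1) (nat_lit 48) (nat_lit 1) (nat_lit 396) (nat_lit 357) (nat_lit 327)) (XT.lf (nat_lit 252) (nat_lit 592619473) (nat_lit 0) (nat_lit 237214699) (nat_lit 168) (nat_lit 358689018) (nat_lit 47) (nat_lit 1) (nat_lit 44) (nat_lit 1) (nat_lit 46) (nat_lit 1) (nat_lit 397) (nat_lit 357) (nat_lit 326))) (XT.nd (nat_lit 94) (nat_lit 336) (nat_lit 0) (XT.lf (nat_lit 168) (nat_lit 63816696) (nat_lit 0) (nat_lit 243040998) (nat_lit 84) (nat_lit 849242181) (nat_lit 45) (nat_lit 1) (nat_lit 43) (nat_lit 1) (nat_lit 44) (nat_lit 1) (nat_lit 398) (nat_lit 357) (nat_lit 325)) (XT.nd (nat_lit 94) (nat_lit 84) (nat_lit 0) (XT.lf (nat_lit 252)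 (nat_lit 688877675) (nat_lit 0) (nat_lit 248566085) (nat_lit 168) (nat_lit 187126812) (nat_lit 43) (nat_lit 1) (nat_lit 40) (nat_lit 1) (nat_lit 42) (nat_lit 1) (nat_lit 399) (nat_lit 357) (nat_lit 324)) (XT.lf (nat_lit 168) (nat_lit 173257815) (nat_lit 0) (nat_lit 257860221) (nat_lit 84) (nat_lit 662985833) (nat_lit 41) (nat_lit 1) (nat_lit 39) (nat_lit 1) (nat_lit 40) (nat_lit 1) (nat_lit 400) (nat_lit 357) (nat_lit 323)))))) (XT.nd (nat_lit 470) (nat_lit 588) (nat_lit 0) (XT.nd (nat_lit 188) (nat_lit 588) (nat_lit 0) (XT.nd (nat_lit 94) (nat_lit 84) (nat_lit 0) (XT.lf (nat_lit 252) (nat_lit 749990472) (nat_lit 0) (nat_lit 270296896) (nat_lit 168) (nat_lit 44358034) (nat_lit 39) (nat_lit 1) (nat_lit 36) (nat_lit 1) (nat_lit 38) (nat_lit 1) (nat_lit 401) (nat_lit 357) (nat_lit 322)) (XT.lf (nat_lit 168) (nat_lit 249341765) (nat_lit 0) (nat_lit 281787762)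 (nat_lit 84) (nat_lit 504847112) (nat_lit 37) (nat_lit 1) (nat_lit 35) (nat_lit 1) (nat_lit 36) (nat_lit 1) (nat_lit 402) (nat_lit 357) (nat_lit 321))) (XT.nd (nat_lit 94) (nat_lit 336) (nat_lit 0) (XT.lf (nat_lit 84) (nat_lit 71969956) (nat_lit 0) (nat_lit 225894508) (nat_lit 252) (nat_lit 710473338) (nat_lit 33) (nat_lit 1) (nat_lit 32) (nat_lit 1) (nat_lit 35) (nat_lit 1) (nat_lit 403) (nat_lit 357) (nat_lit 320)) (XT.nd (nat_lit 94) (nat_lit 252) (nat_lit 0) (XT.lf (nat_lit 168) (nat_lit 299232614) (nat_lit 0) (nat_lit 311786201) (nat_lit 84) (nat_lit 370366544) (nat_lit 33) (nat_lit 1) (nat_lit 31) (nat_lit 1) (nat_lit 32) (nat_lit 1) (nat_lit 404) (nat_lit 357) (nat_lit 319)) (XT.lf (nat_lit 84) (nat_lit 167375320) (nat_lit 0) (nat_lit 162114315) (nat_lit 252) (nat_lit 625890456) (nat_lit 29) (nat_lit 1) (nat_lit 28) (nat_lit 1) (nat_lit 31) (nat_lit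 1) (nat_lit 405) (nat_lit 357) (nat_lit 318))))) (XT.nd (nat_lit 188) (nat_lit 336) (nat_lit 0) (XT.nd (nat_lit 94) (nat_lit 168) (nat_lit 0) (XT.lf (nat_lit 168) (nat_lit 328707698) (nat_lit 0) (nat_lit 345484489) (nat_lit 84) (nat_lit 255847060) (nat_lit 29) (nat_lit 1) (nat_lit 27) (nat_lit 1) (nat_lit 28) (nat_lit 1) (nat_lit 406) (nat_lit 357) (nat_lit 317)) (XT.lf (nat_lit 84) (nat_lit 246415175) (nat_lit 0) (nat_lit 117412422) (nat_lit 168) (nat_lit 541707699) (nat_lit 26) (nat_lit 1) (nat_lit 25) (nat_lit 1) (nat_lit 27) (nat_lit 1) (nat_lit 407) (nat_lit 357) (nat_lit 316))) (XT.nd (nat_lit 94) (nat_lit 252) (nat_lit 0) (XT.lf (nat_lit 168) (nat_lit 342416741) (nat_lit 0) (nat_lit 381048075) (nat_lit 84) (nat_lit 158217997) (nat_lit 26) (nat_lit 1) (nat_lit 24) (nat_lit 1) (nat_lit 25) (nat_lit 1) (nat_lit 408) (nat_lit 357) (nat_lit 315)) (XT.nd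 (nat_lit 94) (nat_lit 84) (nat_lit 0) (XT.lf (nat_lit 84) (nat_lit 311692286) (nat_lit 0) (nat_lit 87591197) (nat_lit 168) (nat_lit 459280526) (nat_lit 23) (nat_lit 1) (nat_lit 22) (nat_lit 1) (nat_lit 24) (nat_lit 1) (nat_lit 409) (nat_lit 357) (nat_lit 314)) (XT.lf (nat_lit 168) (nat_lit 344093141) (nat_lit 0) (nat_lit 417073358) (nat_lit 84) (nat_lit 74923800) (nat_lit 23) (nat_lit 1) (nat_lit 21) (nat_lit 1) (nat_lit 22) (nat_lit 1) (nat_lit 410) (nat_lit 357) (nat_lit 313))))))))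
noncomputable def ec23 : XT := (XT.nd (nat_lit 63450) (nat_lit 0) (nat_lit 6300) (XT.nd (nat_lit 846) (nat_lit 588) (nat_lit 0) (XT.nd (nat_lit 376) (nat_lit 672) (nat_lit 0) (XT.nd (nat_lit 188) (nat_lit 252) (nat_lit 0) (XT.nd (nat_lit 94) (nat_lit 84) (nat_lit 0) (XT.lf (nat_lit 84) (nat_lit 365369839) (nat_lit 0) (nat_lit 69275358) (nat_lit 168) (nat_lit 379608810) (nat_lit 20) (nat_lit 1) (nat_lit 19) (nat_lit 1) (nat_lit 21) (nat_lit 1) (nat_lit 411) (nat_lit 357) (nat_lit 312)) (XT.lf (nat_lit 168) (nat_lit 336726213) (nat_lit 0) (nat_lit 452501966) (nat_lit 84) (nat_lit 3832911) (nat_lit 20) (nat_lit 1) (nat_lit 18) (nat_lit 1) (nat_lit 19) (nat_lit 1) (nat_lit 412) (nat_lit 357) (nat_lit 311))) (XT.nd (nat_lit 94) (nat_lit 84) (nat_lit 0) (XT.lf (nat_lit 84) (nat_lit 409249254) (nat_lit 0) (nat_lit 59757554) (nat_lit 168) (nat_lit 303409299) (nat_lit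 17) (nat_lit 1) (nat_lit 16) (nat_lit 1) (nat_lit 18) (nat_lit 1) (nat_lit 413) (nat_lit 357) (nat_lit 310)) (XT.lf (nat_lit 0) (nat_lit 55017713) (nat_lit 0) (nat_lit 430601739) (nat_lit 168) (nat_lit 266752110) (nat_lit 15) (nat_lit 3) (nat_lit 15) (nat_lit 1) (nat_lit 17) (nat_lit 1) (nat_lit 414) (nat_lit 357) (nat_lit 309)))) (XT.nd (nat_lit 188) (nat_lit 420) (nat_lit 0) (XT.nd (nat_lit 94) (nat_lit 84) (nat_lit 0) (XT.lf (nat_lit 84) (nat_lit 444833909) (nat_lit 0) (nat_lit 56872518) (nat_lit 168) (nat_lit 231174324) (nat_lit 14) (nat_lit 1) (nat_lit 13) (nat_lit 1) (nat_lit 15) (nat_lit 1) (nat_lit 415) (nat_lit 357) (nat_lit 308)) (XT.lf (nat_lit 0) (nat_lit 105104185) (nat_lit 0) (nat_lit 411773487) (nat_lit 168) (nat_lit 197031354) (nat_lit 12) (nat_lit 3) (nat_lit 12) (nat_lit 1) (nat_lit 14) (nat_lit 1) (nat_lit 416) (nat_lit 357) (nat_lit 307)))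 (XT.nd (nat_lit 94) (nat_lit 252) (nat_lit 0) (XT.lf (nat_lit 84) (nat_lit 473381352) (nat_lit 0) (nat_lit 58894514) (nat_lit 168) (nat_lit 163219301) (nat_lit 11) (nat_lit 1) (nat_lit 10) (nat_lit 1) (nat_lit 12) (nat_lit 1) (nat_lit 417) (nat_lit 357) (nat_lit 306)) (XT.nd (nat_lit 94) (nat_lit 168) (nat_lit 0) (XT.lf (nat_lit 0) (nat_lit 147764788) (nat_lit 0) (nat_lit 398164309) (nat_lit 168) (nat_lit 131600983) (nat_lit 9) (nat_lit 3) (nat_lit 9) (nat_lit 1) (nat_lit 11) (nat_lit 1) (nat_lit 418) (nat_lit 357) (nat_lit 305)) (XT.lf (nat_lit 84) (nat_lit 495946100) (nat_lit 0) (nat_lit 64453802) (nat_lit 168) (nat_lit 99721112) (nat_lit 8) (nat_lit 1) (nat_lit 7) (nat_lit 1) (nat_lit 9) (nat_lit 1) (nat_lit 419) (nat_lit 357) (nat_lit 304)))))) (XT.nd (nat_lit 470) (nat_lit 0) (nat_lit 0) (XT.nd (nat_lit 188) (nat_lit 336) (nat_lit 0) (XT.nd (nat_lit 94)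 (nat_lit 168) (nat_lit 0) (XT.lf (nat_lit 0) (nat_lit 184024397) (nat_lit 0) (nat_lit 388478902) (nat_lit 168) (nat_lit 70598643) (nat_lit 6) (nat_lit 3) (nat_lit 6) (nat_lit 1) (nat_lit 8) (nat_lit 1) (nat_lit 420) (nat_lit 357) (nat_lit 303)) (XT.lf (nat_lit 84) (nat_lit 513414746) (nat_lit 0) (nat_lit 72468616) (nat_lit 168) (nat_lit 40749061) (nat_lit 5) (nat_lit 1) (nat_lit 4) (nat_lit 1) (nat_lit 6) (nat_lit 1) (nat_lit 421) (nat_lit 357) (nat_lit 302))) (XT.nd (nat_lit 94) (nat_lit 252) (nat_lit 0) (XT.lf (nat_lit 0) (nat_lit 214749814) (nat_lit 0) (nat_lit 381689608) (nat_lit 168) (nat_lit 14064193) (nat_lit 3) (nat_lit 3) (nat_lit 3) (nat_lit 1) (nat_lit 5) (nat_lit 1) (nat_lit 422) (nat_lit 357) (nat_lit 301)) (XT.nd (nat_lit 94) (nat_lit 0) (nat_lit 0) (XT.lf (nat_lit 0) (nat_lit 862974996) (nat_lit 0) (nat_lit 0) (nat_lit 0) (nat_lit 0) (nat_lit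 0) (nat_lit 0) (nat_lit 1) (nat_lit 0) (nat_lit 1) (nat_lit 0) (nat_lit 423) (nat_lit 357) (nat_lit 300)) (XT.lf (nat_lit 0) (nat_lit 862189505) (nat_lit 0) (nat_lit 0) (nat_lit 0) (nat_lit 0) (nat_lit 0) (nat_lit 0) (nat_lit 1) (nat_lit 0) (nat_lit 1) (nat_lit 0) (nat_lit 424) (nat_lit 357) (nat_lit 299))))) (XT.nd (nat_lit 188) (nat_lit 0) (nat_lit 0) (XT.nd (nat_lit 94) (nat_lit 0) (nat_lit 0) (XT.lf (nat_lit 0) (nat_lit 861462200) (nat_lit 0) (nat_lit 0) (nat_lit 0) (nat_lit 0) (nat_lit 0) (nat_lit 0) (nat_lit 1) (nat_lit 0) (nat_lit 1) (nat_lit 0) (nat_lit 425) (nat_lit 357) (nat_lit 298)) (XT.lf (nat_lit 0) (nat_lit 860788768) (nat_lit 0) (nat_lit 0) (nat_lit 0) (nat_lit 0) (nat_lit 0) (nat_lit 0) (nat_lit 1) (nat_lit 0) (nat_lit 1) (nat_lit 0) (nat_lit 426) (nat_lit 357) (nat_lit 297))) (XT.nd (nat_lit 94) (nat_lit 0) (nat_lit 0) (XT.lf (nat_lit 0)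 (nat_lit 860165221) (nat_lit 0) (nat_lit 0) (nat_lit 0) (nat_lit 0) (nat_lit 0) (nat_lit 0) (nat_lit 1) (nat_lit 0) (nat_lit 1) (nat_lit 0) (nat_lit 427) (nat_lit 357) (nat_lit 296)) (XT.nd (nat_lit 61758) (nat_lit 0) (nat_lit 10752) (XT.lf (nat_lit 0) (nat_lit 859587862) (nat_lit 0) (nat_lit 0) (nat_lit 0) (nat_lit 0) (nat_lit 0) (nat_lit 0) (nat_lit 1) (nat_lit 0) (nat_lit 1) (nat_lit 0) (nat_lit 428) (nat_lit 357) (nat_lit 295)) (XT.lf (nat_lit 924) (nat_lit 460682980) (nat_lit 0) (nat_lit 817941573) (nat_lit 924) (nat_lit 460682980) (nat_lit 139) (nat_lit 1) (nat_lit 128) (nat_lit 0) (nat_lit 139) (nat_lit 0) (nat_lit 364) (nat_lit 358) (nat_lit 358))))))) (XT.nd (nat_lit 846) (nat_lit 3024) (nat_lit 0) (XT.nd (nat_lit 376) (nat_lit 1512) (nat_lit 0) (XT.nd (nat_lit 188) (nat_lit 0) (nat_lit 84) (XT.nd (nat_lit 94) (nat_lit 0) (nat_lit 0) (XT.lf (nat_lit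 924) (nat_lit 171848887) (nat_lit 0) (nat_lit 1605867206) (nat_lit 840) (nat_lit 1570532762) (nat_lit 140) (nat_lit 1) (nat_lit 129) (nat_lit 1) (nat_lit 139) (nat_lit 1) (nat_lit 365) (nat_lit 358) (nat_lit 357)) (XT.lf (nat_lit 924) (nat_lit 1578332838) (nat_lit 84) (nat_lit 1075449809) (nat_lit 0) (nat_lit 570369521) (nat_lit 140) (nat_lit 1) (nat_lit 130) (nat_lit 1) (nat_lit 129) (nat_lit 1) (nat_lit 366) (nat_lit 358) (nat_lit 356))) (XT.nd (nat_lit 94) (nat_lit 0) (nat_lit 84) (XT.lf (nat_lit 924) (nat_lit 1363808871) (nat_lit 84) (nat_lit 450713560) (nat_lit 0) (nat_lit 1291743161) (nat_lit 141) (nat_lit 1) (nat_lit 131) (nat_lit 1) (nat_lit 130) (nat_lit 1) (nat_lit 367) (nat_lit 358) (nat_lit 355)) (XT.lf (nat_lit 924) (nat_lit 1009334511) (nat_lit 0) (nat_lit 1888417162) (nat_lit 840) (nat_lit 96535615) (nat_lit 142) (nat_lit 1) (nat_lit 131) (nat_lit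 1) (nat_lit 141) (nat_lit 1) (nat_lit 368) (nat_lit 358) (nat_lit 354)))) (XT.nd (nat_lit 188) (nat_lit 1764) (nat_lit 0) (XT.nd (nat_lit 94) (nat_lit 0) (nat_lit 0) (XT.lf (nat_lit 924) (nat_lit 242179919) (nat_lit 0) (nat_lit 2082504543) (nat_lit 840) (nat_lit 562972268) (nat_lit 143) (nat_lit 1) (nat_lit 132) (nat_lit 1) (nat_lit 142) (nat_lit 1) (nat_lit 369) (nat_lit 358) (nat_lit 353)) (XT.lf (nat_lit 924) (nat_lit 465371302) (nat_lit 84) (nat_lit 1809866034) (nat_lit 0) (nat_lit 510766524) (nat_lit 143) (nat_lit 1) (nat_lit 133) (nat_lit 1) (nat_lit 132) (nat_lit 1) (nat_lit 370) (nat_lit 358) (nat_lit 352))) (XT.nd (nat_lit 94) (nat_lit 1008) (nat_lit 0) (XT.lf (nat_lit 924) (nat_lit 95576653) (nat_lit 0) (nat_lit 1352994578) (nat_lit 840) (nat_lit 1240681852) (nat_lit 134) (nat_lit 1) (nat_lit 123) (nat_lit 1) (nat_lit 133) (nat_lit 1) (nat_lit 371)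 (nat_lit 358) (nat_lit 351)) (XT.nd (nat_lit 94) (nat_lit 420) (nat_lit 0) (XT.lf (nat_lit 84) (nat_lit 661792659) (nat_lit 0) (nat_lit 286785556) (nat_lit 588) (nat_lit 1648505146) (nat_lit 117) (nat_lit 1) (nat_lit 116) (nat_lit 1) (nat_lit 123) (nat_lit 1) (nat_lit 372) (nat_lit 358) (nat_lit 350)) (XT.lf (nat_lit 504) (nat_lit 1823817272) (nat_lit 0) (nat_lit 593691840) (nat_lit 420) (nat_lit 91788426) (nat_lit 117) (nat_lit 1) (nat_lit 111) (nat_lit 1) (nat_lit 116) (nat_lit 1) (nat_lit 373) (nat_lit 358) (nat_lit 349)))))) (XT.nd (nat_lit 470) (nat_lit 1512) (nat_lit 0) (XT.nd (nat_lit 188) (nat_lit 756) (nat_lit 0) (XT.nd (nat_lit 94) (nat_lit 336) (nat_lit 0) (XT.lf (nat_lit 504) (nat_lit 1316083911) (nat_lit 0) (nat_lit 276722324) (nat_lit 420) (nat_lit 832480115) (nat_lit 112) (nat_lit 1) (nat_lit 106) (nat_lit 1) (nat_lit 111) (nat_lit 1) (nat_lit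 374) (nat_lit 358) (nat_lit 348)) (XT.lf (nat_lit 420) (nat_lit 800820275) (nat_lit 0) (nat_lit 5094907) (nat_lit 336) (nat_lit 1539433499) (nat_lit 107) (nat_lit 1) (nat_lit 102) (nat_lit 1) (nat_lit 106) (nat_lit 1) (nat_lit 375) (nat_lit 358) (nat_lit 347))) (XT.nd (nat_lit 94) (nat_lit 756) (nat_lit 0) (XT.lf (nat_lit 84) (nat_lit 59080735) (nat_lit 0) (nat_lit 1992488672) (nat_lit 420) (nat_lit 217518880) (nat_lit 103) (nat_lit 1) (nat_lit 102) (nat_lit 1) (nat_lit 107) (nat_lit 1) (nat_lit 376) (nat_lit 358) (nat_lit 346)) (XT.nd (nat_lit 94) (nat_lit 336) (nat_lit 0) (XT.lf (nat_lit 84) (nat_lit 1525479907) (nat_lit 0) (nat_lit 253017165) (nat_lit 420) (nat_lit 417271256) (nat_lit 98) (nat_lit 1) (nat_lit 97) (nat_lit 1) (nat_lit 102) (nat_lit 1) (nat_lit 377) (nat_lit 358) (nat_lit 345)) (XT.lf (nat_lit 84) (nat_lit 763236254) (nat_lit 0) (nat_lit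 775036491) (nat_lit 420) (nat_lit 587415274) (nat_lit 94) (nat_lit 1) (nat_lit 93) (nat_lit 1) (nat_lit 98) (nat_lit 1) (nat_lit 378) (nat_lit 358) (nat_lit 344))))) (XT.nd (nat_lit 188) (nat_lit 924) (nat_lit 0) (XT.nd (nat_lit 94) (nat_lit 252) (nat_lit 0) (XT.lf (nat_lit 84) (nat_lit 37671649) (nat_lit 0) (nat_lit 1295848979) (nat_lit 420) (nat_lit 725405154) (nat_lit 90) (nat_lit 1) (nat_lit 89) (nat_lit 1) (nat_lit 94) (nat_lit 1) (nat_lit 379) (nat_lit 358) (nat_lit 343)) (XT.lf (nat_lit 336) (nat_lit 170123044) (nat_lit 0) (nat_lit 1150460714) (nat_lit 252) (nat_lit 674196418) (nat_lit 90) (nat_lit 1) (nat_lit 86) (nat_lit 1) (nat_lit 89) (nat_lit 1) (nat_lit 380) (nat_lit 358) (nat_lit 342))) (XT.nd (nat_lit 94) (nat_lit 504) (nat_lit 0) (XT.lf (nat_lit 84) (nat_lit 587820856) (nat_lit 0) (nat_lit 402896067) (nat_lit 420) (nat_lit 942567618) (nat_lit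 82) (nat_lit 1) (nat_lit 81) (nat_lit 1) (nat_lit 86) (nat_lit 1) (nat_lit 381) (nat_lit 358) (nat_lit 341)) (XT.nd (nat_lit 94) (nat_lit 252) (nat_lit 0) (XT.lf (nat_lit 336) (nat_lit 910088074) (nat_lit 0) (nat_lit 854910120) (nat_lit 252) (nat_lit 109427480) (nat_lit 82) (nat_lit 1) (nat_lit 78) (nat_lit 1) (nat_lit 81) (nat_lit 1) (nat_lit 382) (nat_lit 358) (nat_lit 340)) (XT.lf (nat_lit 336) (nat_lit 291678831) (nat_lit 0) (nat_lit 736042605) (nat_lit 252) (nat_lit 790107335) (nat_lit 79) (nat_lit 1) (nat_lit 75) (nat_lit 1) (nat_lit 78) (nat_lit 1) (nat_lit 383) (nat_lit 358) (nat_lit 339))))))))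
noncomputable def ec24 : XT := (XT.nd (nat_lit 1692) (nat_lit 2436) (nat_lit 0) (XT.nd (nat_lit 846) (nat_lit 1512) (nat_lit 0) (XT.nd (nat_lit 376) (nat_lit 1008) (nat_lit 0) (XT.nd (nat_lit 188) (nat_lit 504) (nat_lit 0) (XT.nd (nat_lit 94) (nat_lit 252) (nat_lit 0) (XT.lf (nat_lit 84) (nat_lit 332443388) (nat_lit 0) (nat_lit 304380812) (nat_lit 336) (nat_lit 1126758242) (nat_lit 72) (nat_lit 1) (nat_lit 71) (nat_lit 1) (nat_lit 75) (nat_lit 1) (nat_lit 384) (nat_lit 358) (nat_lit 338)) (XT.lf (nat_lit 336) (nat_lit 827241739) (nat_lit 0) (nat_lit 550415998) (nat_lit 252) (nat_lit 333663987) (nat_lit 72) (nat_lit 1) (nat_lit 68) (nat_lit 1) (nat_lit 71) (nat_lit 1) (nat_lit 385) (nat_lit 358) (nat_lit 337))) (XT.nd (nat_lit 94) (nat_lit 336) (nat_lit 0) (XT.lf (nat_lit 252) (nat_lit 205074448) (nat_lit 0) (nat_lit 480197811) (nat_lit 168) (nat_lit 975897091)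 (nat_lit 69) (nat_lit 1) (nat_lit 66) (nat_lit 1) (nat_lit 68) (nat_lit 1) (nat_lit 386) (nat_lit 358) (nat_lit 336)) (XT.lf (nat_lit 84) (nat_lit 34740921) (nat_lit 0) (nat_lit 388758456) (nat_lit 336) (nat_lit 1189461636) (nat_lit 63) (nat_lit 1) (nat_lit 62) (nat_lit 1) (nat_lit 66) (nat_lit 1) (nat_lit 387) (nat_lit 358) (nat_lit 335)))) (XT.nd (nat_lit 188) (nat_lit 588) (nat_lit 0) (XT.nd (nat_lit 94) (nat_lit 252) (nat_lit 0) (XT.lf (nat_lit 252) (nat_lit 595908719) (nat_lit 0) (nat_lit 372391826) (nat_lit 168) (nat_lit 597982487) (nat_lit 63) (nat_lit 1) (nat_lit 60) (nat_lit 1) (nat_lit 62) (nat_lit 1) (nat_lit 388) (nat_lit 358) (nat_lit 334)) (XT.lf (nat_lit 84) (nat_lit 323315168) (nat_lit 0) (nat_lit 14934130) (nat_lit 252) (nat_lit 1183392620) (nat_lit 58) (nat_lit 1) (nat_lit 57) (nat_lit 1) (nat_lit 60) (nat_lit 1) (nat_lit 389) (nat_lit 358)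 (nat_lit 333))) (XT.nd (nat_lit 94) (nat_lit 420) (nat_lit 0) (XT.lf (nat_lit 252) (nat_lit 883881235) (nat_lit 0) (nat_lit 306284666) (nat_lit 168) (nat_lit 288133480) (nat_lit 58) (nat_lit 1) (nat_lit 55) (nat_lit 1) (nat_lit 57) (nat_lit 1) (nat_lit 390) (nat_lit 358) (nat_lit 332)) (XT.nd (nat_lit 94) (nat_lit 252) (nat_lit 0) (XT.lf (nat_lit 252) (nat_lit 274568931) (nat_lit 0) (nat_lit 284725466) (nat_lit 168) (nat_lit 877319622) (nat_lit 56) (nat_lit 1) (nat_lit 53) (nat_lit 1) (nat_lit 55) (nat_lit 1) (nat_lit 391) (nat_lit 358) (nat_lit 331)) (XT.lf (nat_lit 252) (nat_lit 1089937750) (nat_lit 0) (nat_lit 272032073) (nat_lit 168) (nat_lit 34510424) (nat_lit 53) (nat_lit 1) (nat_lit 50) (nat_lit 1) (nat_lit 52) (nat_lit 1) (nat_lit 392) (nat_lit 358) (nat_lit 330)))))) (XT.nd (nat_lit 376) (nat_lit 924) (nat_lit 0) (XT.nd (nat_lit 188) (nat_lit 252)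 (nat_lit 0) (XT.nd (nat_lit 94) (nat_lit 168) (nat_lit 0) (XT.lf (nat_lit 252) (nat_lit 487805622) (nat_lit 0) (nat_lit 259698915) (nat_lit 168) (nat_lit 609957130) (nat_lit 51) (nat_lit 1) (nat_lit 48) (nat_lit 1) (nat_lit 50) (nat_lit 1) (nat_lit 393) (nat_lit 358) (nat_lit 329)) (XT.lf (nat_lit 84) (nat_lit 167092259) (nat_lit 0) (nat_lit 91841435) (nat_lit 168) (nat_lit 1061127783) (nat_lit 47) (nat_lit 1) (nat_lit 46) (nat_lit 1) (nat_lit 48) (nat_lit 1) (nat_lit 394) (nat_lit 358) (nat_lit 328))) (XT.nd (nat_lit 94) (nat_lit 84) (nat_lit 0) (XT.lf (nat_lit 252) (nat_lit 640029031) (nat_lit 0) (nat_lit 256191875) (nat_lit 168) (nat_lit 387384139) (nat_lit 47) (nat_lit 1) (nat_lit 44) (nat_lit 1) (nat_lit 46) (nat_lit 1) (nat_lit 395) (nat_lit 358) (nat_lit 327)) (XT.lf (nat_lit 168) (nat_lit 68922031) (nat_lit 0) (nat_lit 262484278) (nat_lit 84) (nat_lit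 917181555) (nat_lit 45) (nat_lit 1) (nat_lit 43) (nat_lit 1) (nat_lit 44) (nat_lit 1) (nat_lit 396) (nat_lit 358) (nat_lit 326)))) (XT.nd (nat_lit 188) (nat_lit 588) (nat_lit 0) (XT.nd (nat_lit 94) (nat_lit 84) (nat_lit 0) (XT.lf (nat_lit 252) (nat_lit 743987889) (nat_lit 0) (nat_lit 268451372) (nat_lit 168) (nat_lit 202096957) (nat_lit 43) (nat_lit 1) (nat_lit 40) (nat_lit 1) (nat_lit 42) (nat_lit 1) (nat_lit 397) (nat_lit 358) (nat_lit 325)) (XT.lf (nat_lit 168) (nat_lit 187118440) (nat_lit 0) (nat_lit 278489039) (nat_lit 84) (nat_lit 716024700) (nat_lit 41) (nat_lit 1) (nat_lit 39) (nat_lit 1) (nat_lit 40) (nat_lit 1) (nat_lit 398) (nat_lit 358) (nat_lit 324))) (XT.nd (nat_lit 94) (nat_lit 336) (nat_lit 0) (XT.lf (nat_lit 252) (nat_lit 809989710) (nat_lit 0) (nat_lit 291920648) (nat_lit 168) (nat_lit 47906677) (nat_lit 39) (nat_lit 1) (nat_lit 36) (nat_lit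 1) (nat_lit 38) (nat_lit 1) (nat_lit 399) (nat_lit 358) (nat_lit 323)) (XT.nd (nat_lit 94) (nat_lit 252) (nat_lit 0) (XT.lf (nat_lit 168) (nat_lit 269289106) (nat_lit 0) (nat_lit 304330783) (nat_lit 84) (nat_lit 545234881) (nat_lit 37) (nat_lit 1) (nat_lit 35) (nat_lit 1) (nat_lit 36) (nat_lit 1) (nat_lit 400) (nat_lit 358) (nat_lit 322)) (XT.lf (nat_lit 84) (nat_lit 77727552) (nat_lit 0) (nat_lit 243966069) (nat_lit 252) (nat_lit 767311205) (nat_lit 33) (nat_lit 1) (nat_lit 32) (nat_lit 1) (nat_lit 35) (nat_lit 1) (nat_lit 401) (nat_lit 358) (nat_lit 321))))))) (XT.nd (nat_lit 846) (nat_lit 1260) (nat_lit 0) (XT.nd (nat_lit 376) (nat_lit 588) (nat_lit 0) (XT.nd (nat_lit 188) (nat_lit 252) (nat_lit 0) (XT.nd (nat_lit 94) (nat_lit 252) (nat_lit 0) (XT.lf (nat_lit 168) (nat_lit 323171224) (nat_lit 0) (nat_lit 336729097) (nat_lit 84) (nat_lit 399995867) (nat_lit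 33) (nat_lit 1) (nat_lit 31) (nat_lit 1) (nat_lit 32) (nat_lit 1) (nat_lit 402) (nat_lit 358) (nat_lit 320)) (XT.lf (nat_lit 84) (nat_lit 180765346) (nat_lit 0) (nat_lit 175083461) (nat_lit 252) (nat_lit 675961692) (nat_lit 29) (nat_lit 1) (nat_lit 28) (nat_lit 1) (nat_lit 31) (nat_lit 1) (nat_lit 403) (nat_lit 358) (nat_lit 319))) (XT.nd (nat_lit 94) (nat_lit 168) (nat_lit 0) (XT.lf (nat_lit 168) (nat_lit 355004314) (nat_lit 0) (nat_lit 373123248) (nat_lit 84) (nat_lit 276314825) (nat_lit 29) (nat_lit 1) (nat_lit 27) (nat_lit 1) (nat_lit 28) (nat_lit 1) (nat_lit 404) (nat_lit 358) (nat_lit 318)) (XT.lf (nat_lit 84) (nat_lit 266128389) (nat_lit 0) (nat_lit 126805415) (nat_lit 168) (nat_lit 585044315) (nat_lit 26) (nat_lit 1) (nat_lit 25) (nat_lit 1) (nat_lit 27) (nat_lit 1) (nat_lit 405) (nat_lit 358) (nat_lit 317)))) (XT.nd (nat_lit 188) (nat_lit 336) (nat_lit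 0) (XT.nd (nat_lit 94) (nat_lit 168) (nat_lit 0) (XT.lf (nat_lit 168) (nat_lit 369810081) (nat_lit 0) (nat_lit 411531921) (nat_lit 84) (nat_lit 170875437) (nat_lit 26) (nat_lit 1) (nat_lit 24) (nat_lit 1) (nat_lit 25) (nat_lit 1) (nat_lit 406) (nat_lit 358) (nat_lit 316)) (XT.lf (nat_lit 84) (nat_lit 336627669) (nat_lit 0) (nat_lit 94598493) (nat_lit 168) (nat_lit 496022968) (nat_lit 23) (nat_lit 1) (nat_lit 22) (nat_lit 1) (nat_lit 24) (nat_lit 1) (nat_lit 407) (nat_lit 358) (nat_lit 315))) (XT.nd (nat_lit 94) (nat_lit 252) (nat_lit 0) (XT.lf (nat_lit 168) (nat_lit 371620592) (nat_lit 0) (nat_lit 450439226) (nat_lit 84) (nat_lit 80917704) (nat_lit 23) (nat_lit 1) (nat_lit 21) (nat_lit 1) (nat_lit 22) (nat_lit 1) (nat_lit 408) (nat_lit 358) (nat_lit 314)) (XT.nd (nat_lit 94) (nat_lit 84) (nat_lit 0) (XT.lf (nat_lit 84) (nat_lit 394599426) (nat_lit 0) (nat_lit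 74817387) (nat_lit 168) (nat_lit 409977515) (nat_lit 20) (nat_lit 1) (nat_lit 19) (nat_lit 1) (nat_lit 21) (nat_lit 1) (nat_lit 409) (nat_lit 358) (nat_lit 313)) (XT.lf (nat_lit 168) (nat_lit 363664310) (nat_lit 0) (nat_lit 488702123) (nat_lit 84) (nat_lit 4139543) (nat_lit 20) (nat_lit 1) (nat_lit 18) (nat_lit 1) (nat_lit 19) (nat_lit 1) (nat_lit 410) (nat_lit 358) (nat_lit 312)))))) (XT.nd (nat_lit 470) (nat_lit 588) (nat_lit 0) (XT.nd (nat_lit 188) (nat_lit 420) (nat_lit 0) (XT.nd (nat_lit 94) (nat_lit 84) (nat_lit 0) (XT.lf (nat_lit 84) (nat_lit 441989194) (nat_lit 0) (nat_lit 64538158) (nat_lit 168) (nat_lit 327682043) (nat_lit 17) (nat_lit 1) (nat_lit 16) (nat_lit 1) (nat_lit 18) (nat_lit 1) (nat_lit 411) (nat_lit 358) (nat_lit 311)) (XT.lf (nat_lit 0) (nat_lit 59419130) (nat_lit 0) (nat_lit 465049878) (nat_lit 168) (nat_lit 288092279) (nat_lit 15) (nat_lit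 3) (nat_lit 15) (nat_lit 1) (nat_lit 17) (nat_lit 1) (nat_lit 412) (nat_lit 358) (nat_lit 310))) (XT.nd (nat_lit 94) (nat_lit 252) (nat_lit 0) (XT.lf (nat_lit 84) (nat_lit 480420622) (nat_lit 0) (nat_lit 61422319) (nat_lit 168) (nat_lit 249668270) (nat_lit 14) (nat_lit 1) (nat_lit 13) (nat_lit 1) (nat_lit 15) (nat_lit 1) (nat_lit 413) (nat_lit 358) (nat_lit 309)) (XT.nd (nat_lit 94) (nat_lit 168) (nat_lit 0) (XT.lf (nat_lit 0) (nat_lit 113512520) (nat_lit 0) (nat_lit 444715366) (nat_lit 168) (nat_lit 212793862) (nat_lit 12) (nat_lit 3) (nat_lit 12) (nat_lit 1) (nat_lit 14) (nat_lit 1) (nat_lit 414) (nat_lit 358) (nat_lit 308)) (XT.lf (nat_lit 84) (nat_lit 511251861) (nat_lit 0) (nat_lit 63606075) (nat_lit 168) (nat_lit 176276846) (nat_lit 11) (nat_lit 1) (nat_lit 10) (nat_lit 1) (nat_lit 12) (nat_lit 1) (nat_lit 415) (nat_lit 358) (nat_lit 307))))) (XT.nd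 (nat_lit 188) (nat_lit 336) (nat_lit 0) (XT.nd (nat_lit 94) (nat_lit 168) (nat_lit 0) (XT.lf (nat_lit 0) (nat_lit 159585971) (nat_lit 0) (nat_lit 430017454) (nat_lit 168) (nat_lit 142129062) (nat_lit 9) (nat_lit 3) (nat_lit 9) (nat_lit 1) (nat_lit 11) (nat_lit 1) (nat_lit 416) (nat_lit 358) (nat_lit 306)) (XT.lf (nat_lit 84) (nat_lit 535621788) (nat_lit 0) (nat_lit 69610107) (nat_lit 168) (nat_lit 107698801) (nat_lit 8) (nat_lit 1) (nat_lit 7) (nat_lit 1) (nat_lit 9) (nat_lit 1) (nat_lit 417) (nat_lit 358) (nat_lit 305))) (XT.nd (nat_lit 94) (nat_lit 252) (nat_lit 0) (XT.lf (nat_lit 0) (nat_lit 198746349) (nat_lit 0) (nat_lit 419557214) (nat_lit 168) (nat_lit 76246534) (nat_lit 6) (nat_lit 3) (nat_lit 6) (nat_lit 1) (nat_lit 8) (nat_lit 1) (nat_lit 418) (nat_lit 358) (nat_lit 304)) (XT.nd (nat_lit 94) (nat_lit 84) (nat_lit 0) (XT.lf (nat_lit 84) (nat_lit 554487926)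 (nat_lit 0) (nat_lit 78266106) (nat_lit 168) (nat_lit 44008986) (nat_lit 5) (nat_lit 1) (nat_lit 4) (nat_lit 1) (nat_lit 6) (nat_lit 1) (nat_lit 419) (nat_lit 358) (nat_lit 303)) (XT.lf (nat_lit 0) (nat_lit 231929799) (nat_lit 0) (nat_lit 412224777) (nat_lit 168) (nat_lit 15189328) (nat_lit 3) (nat_lit 3) (nat_lit 3) (nat_lit 1) (nat_lit 5) (nat_lit 1) (nat_lit 420) (nat_lit 358) (nat_lit 302))))))))
noncomputable def ec25 : XT := (XT.nd (nat_lit 63262) (nat_lit 0) (nat_lit 4032) (XT.nd (nat_lit 62322) (nat_lit 0) (nat_lit 8904) (XT.nd (nat_lit 376) (nat_lit 0) (nat_lit 0) (XT.nd (nat_lit 188) (nat_lit 0) (nat_lit 0) (XT.nd (nat_lit 94) (nat_lit 0) (nat_lit 0) (XT.lf (nat_lit 0) (nat_lit 932012995) (nat_lit 0) (nat_lit 0) (nat_lit 0) (nat_lit 0) (nat_lit 0) (nat_lit 0) (nat_lit 1) (nat_lit 0) (nat_lit 1) (nat_lit 0) (nat_lit 421) (nat_lit 358) (nat_lit 301))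 (XT.lf (nat_lit 0) (nat_lit 931164666) (nat_lit 0) (nat_lit 0) (nat_lit 0) (nat_lit 0) (nat_lit 0) (nat_lit 0) (nat_lit 1) (nat_lit 0) (nat_lit 1) (nat_lit 0) (nat_lit 422) (nat_lit 358) (nat_lit 300))) (XT.nd (nat_lit 94) (nat_lit 0) (nat_lit 0) (XT.lf (nat_lit 0) (nat_lit 930379176) (nat_lit 0) (nat_lit 0) (nat_lit 0) (nat_lit 0) (nat_lit 0) (nat_lit 0) (nat_lit 1) (nat_lit 0) (nat_lit 1) (nat_lit 0) (nat_lit 423) (nat_lit 358) (nat_lit 299)) (XT.lf (nat_lit 0) (nat_lit 929651870) (nat_lit 0) (nat_lit 0) (nat_lit 0) (nat_lit 0) (nat_lit 0) (nat_lit 0) (nat_lit 1) (nat_lit 0) (nat_lit 1) (nat_lit 0) (nat_lit 424) (nat_lit 358) (nat_lit 298)))) (XT.nd (nat_lit 188) (nat_lit 0) (nat_lit 0) (XT.nd (nat_lit 94) (nat_lit 0) (nat_lit 0) (XT.lf (nat_lit 0) (nat_lit 928978439) (nat_lit 0) (nat_lit 0) (nat_lit 0) (nat_lit 0) (nat_lit 0) (nat_lit 0) (nat_lit 1) (nat_lit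 0) (nat_lit 1) (nat_lit 0) (nat_lit 425) (nat_lit 358) (nat_lit 297)) (XT.lf (nat_lit 0) (nat_lit 928354891) (nat_lit 0) (nat_lit 0) (nat_lit 0) (nat_lit 0) (nat_lit 0) (nat_lit 0) (nat_lit 1) (nat_lit 0) (nat_lit 1) (nat_lit 0) (nat_lit 426) (nat_lit 358) (nat_lit 296))) (XT.nd (nat_lit 94) (nat_lit 0) (nat_lit 0) (XT.lf (nat_lit 0) (nat_lit 927777533) (nat_lit 0) (nat_lit 0) (nat_lit 0) (nat_lit 0) (nat_lit 0) (nat_lit 0) (nat_lit 1) (nat_lit 0) (nat_lit 1) (nat_lit 0) (nat_lit 427) (nat_lit 358) (nat_lit 295)) (XT.nd (nat_lit 61570) (nat_lit 0) (nat_lit 10752) (XT.lf (nat_lit 0) (nat_lit 927242941) (nat_lit 0) (nat_lit 0) (nat_lit 0) (nat_lit 0) (nat_lit 0) (nat_lit 0) (nat_lit 1) (nat_lit 0) (nat_lit 1) (nat_lit 0) (nat_lit 428) (nat_lit 358) (nat_lit 294)) (XT.lf (nat_lit 924) (nat_lit 497537618) (nat_lit 0) (nat_lit 883376898) (nat_lit 924) (nat_lit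 497537618) (nat_lit 139) (nat_lit 1) (nat_lit 128) (nat_lit 0) (nat_lit 139) (nat_lit 0) (nat_lit 362) (nat_lit 359) (nat_lit 359)))))) (XT.nd (nat_lit 470) (nat_lit 1932) (nat_lit 0) (XT.nd (nat_lit 188) (nat_lit 0) (nat_lit 84) (XT.nd (nat_lit 94) (nat_lit 0) (nat_lit 0) (XT.lf (nat_lit 924) (nat_lit 185596798) (nat_lit 0) (nat_lit 1734336583) (nat_lit 840) (nat_lit 1696175383) (nat_lit 140) (nat_lit 1) (nat_lit 129) (nat_lit 1) (nat_lit 139) (nat_lit 1) (nat_lit 363) (nat_lit 359) (nat_lit 358)) (XT.lf (nat_lit 924) (nat_lit 1704599465) (nat_lit 84) (nat_lit 1161485794) (nat_lit 0) (nat_lit 615999082) (nat_lit 140) (nat_lit 1) (nat_lit 130) (nat_lit 1) (nat_lit 129) (nat_lit 1) (nat_lit 364) (nat_lit 359) (nat_lit 357))) (XT.nd (nat_lit 94) (nat_lit 0) (nat_lit 84) (XT.lf (nat_lit 924) (nat_lit 1472913580) (nat_lit 84) (nat_lit 486770645) (nat_lit 0) (nat_lit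 1395082614) (nat_lit 141) (nat_lit 1) (nat_lit 131) (nat_lit 1) (nat_lit 130) (nat_lit 1) (nat_lit 365) (nat_lit 359) (nat_lit 356)) (XT.nd (nat_lit 94) (nat_lit 0) (nat_lit 84) (XT.lf (nat_lit 924) (nat_lit 1090081272) (nat_lit 0) (nat_lit 2039490535) (nat_lit 840) (nat_lit 104258464) (nat_lit 142) (nat_lit 1) (nat_lit 131) (nat_lit 1) (nat_lit 141) (nat_lit 1) (nat_lit 366) (nat_lit 359) (nat_lit 355)) (XT.lf (nat_lit 924) (nat_lit 261554313) (nat_lit 0) (nat_lit 2249104907) (nat_lit 840) (nat_lit 608010050) (nat_lit 143) (nat_lit 1) (nat_lit 132) (nat_lit 1) (nat_lit 142) (nat_lit 1) (nat_lit 367) (nat_lit 359) (nat_lit 354))))) (XT.nd (nat_lit 188) (nat_lit 1428) (nat_lit 0) (XT.nd (nat_lit 94) (nat_lit 756) (nat_lit 0) (XT.lf (nat_lit 924) (nat_lit 502601007) (nat_lit 84) (nat_lit 1954655316) (nat_lit 0) (nat_lit 551627846) (nat_lit 143) (nat_lit 1) (nat_lit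 133) (nat_lit 1) (nat_lit 132) (nat_lit 1) (nat_lit 368) (nat_lit 359) (nat_lit 353)) (XT.lf (nat_lit 924) (nat_lit 103222786) (nat_lit 0) (nat_lit 1461234144) (nat_lit 840) (nat_lit 1339936400) (nat_lit 134) (nat_lit 1) (nat_lit 123) (nat_lit 1) (nat_lit 133) (nat_lit 1) (nat_lit 369) (nat_lit 359) (nat_lit 352))) (XT.nd (nat_lit 94) (nat_lit 840) (nat_lit 0) (XT.lf (nat_lit 84) (nat_lit 714736072) (nat_lit 0) (nat_lit 309728401) (nat_lit 588) (nat_lit 1780385558) (nat_lit 117) (nat_lit 1) (nat_lit 116) (nat_lit 1) (nat_lit 123) (nat_lit 1) (nat_lit 370) (nat_lit 359) (nat_lit 351)) (XT.nd (nat_lit 94) (nat_lit 420) (nat_lit 0) (XT.lf (nat_lit 504) (nat_lit 1969722654) (nat_lit 0) (nat_lit 641187187) (nat_lit 420) (nat_lit 99131501) (nat_lit 117) (nat_lit 1) (nat_lit 111) (nat_lit 1) (nat_lit 116) (nat_lit 1) (nat_lit 371) (nat_lit 359) (nat_lit 350)) (XT.lf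 (nat_lit 504) (nat_lit 1421370624) (nat_lit 0) (nat_lit 298860110) (nat_lit 420) (nat_lit 899078524) (nat_lit 112) (nat_lit 1) (nat_lit 106) (nat_lit 1) (nat_lit 111) (nat_lit 1) (nat_lit 372) (nat_lit 359) (nat_lit 349))))))) (XT.nd (nat_lit 846) (nat_lit 2268) (nat_lit 0) (XT.nd (nat_lit 376) (nat_lit 1512) (nat_lit 0) (XT.nd (nat_lit 188) (nat_lit 756) (nat_lit 0) (XT.nd (nat_lit 94) (nat_lit 0) (nat_lit 0) (XT.lf (nat_lit 420) (nat_lit 864885897) (nat_lit 0) (nat_lit 5502500) (nat_lit 336) (nat_lit 1662588179) (nat_lit 107) (nat_lit 1) (nat_lit 102) (nat_lit 1) (nat_lit 106) (nat_lit 1) (nat_lit 373) (nat_lit 359) (nat_lit 348)) (XT.lf (nat_lit 84) (nat_lit 63807194) (nat_lit 0) (nat_lit 2151887766) (nat_lit 420) (nat_lit 234920390) (nat_lit 103) (nat_lit 1) (nat_lit 102) (nat_lit 1) (nat_lit 107) (nat_lit 1) (nat_lit 374) (nat_lit 359) (nat_lit 347)))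 (XT.nd (nat_lit 94) (nat_lit 336) (nat_lit 0) (XT.lf (nat_lit 84) (nat_lit 1647518300) (nat_lit 0) (nat_lit 273258538) (nat_lit 420) (nat_lit 450652957) (nat_lit 98) (nat_lit 1) (nat_lit 97) (nat_lit 1) (nat_lit 102) (nat_lit 1) (nat_lit 375) (nat_lit 359) (nat_lit 346)) (XT.lf (nat_lit 84) (nat_lit 824295154) (nat_lit 0) (nat_lit 837039410) (nat_lit 420) (nat_lit 634408496) (nat_lit 94) (nat_lit 1) (nat_lit 93) (nat_lit 1) (nat_lit 98) (nat_lit 1) (nat_lit 376) (nat_lit 359) (nat_lit 345)))) (XT.nd (nat_lit 188) (nat_lit 924) (nat_lit 0) (XT.nd (nat_lit 94) (nat_lit 252) (nat_lit 0) (XT.lf (nat_lit 84) (nat_lit 40685380) (nat_lit 0) (nat_lit 1399516897) (nat_lit 420) (nat_lit 783437566) (nat_lit 90) (nat_lit 1) (nat_lit 89) (nat_lit 1) (nat_lit 94) (nat_lit 1) (nat_lit 377) (nat_lit 359) (nat_lit 344)) (XT.lf (nat_lit 336) (nat_lit 183732887) (nat_lit 0)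 (nat_lit 1242497571) (nat_lit 252) (nat_lit 728132132) (nat_lit 90) (nat_lit 1) (nat_lit 86) (nat_lit 1) (nat_lit 89) (nat_lit 1) (nat_lit 378) (nat_lit 359) (nat_lit 343))) (XT.nd (nat_lit 94) (nat_lit 504) (nat_lit 0) (XT.lf (nat_lit 84) (nat_lit 634846524) (nat_lit 0) (nat_lit 435127752) (nat_lit 420) (nat_lit 1017973028) (nat_lit 82) (nat_lit 1) (nat_lit 81) (nat_lit 1) (nat_lit 86) (nat_lit 1) (nat_lit 379) (nat_lit 359) (nat_lit 342)) (XT.nd (nat_lit 94) (nat_lit 252) (nat_lit 0) (XT.lf (nat_lit 336) (nat_lit 982895120) (nat_lit 0) (nat_lit 923302929) (nat_lit 252) (nat_lit 118181679) (nat_lit 82) (nat_lit 1) (nat_lit 78) (nat_lit 1) (nat_lit 81) (nat_lit 1) (nat_lit 380) (nat_lit 359) (nat_lit 341)) (XT.lf (nat_lit 336) (nat_lit 315013137) (nat_lit 0) (nat_lit 794926013) (nat_lit 252) (nat_lit 853315921) (nat_lit 79) (nat_lit 1) (nat_lit 75) (nat_lit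 1) (nat_lit 78) (nat_lit 1) (nat_lit 381) (nat_lit 359) (nat_lit 340)))))) (XT.nd (nat_lit 470) (nat_lit 1008) (nat_lit 0) (XT.nd (nat_lit 188) (nat_lit 672) (nat_lit 0) (XT.nd (nat_lit 94) (nat_lit 252) (nat_lit 0) (XT.lf (nat_lit 84) (nat_lit 359038859) (nat_lit 0) (nat_lit 328731277) (nat_lit 336) (nat_lit 1216898901) (nat_lit 72) (nat_lit 1) (nat_lit 71) (nat_lit 1) (nat_lit 75) (nat_lit 1) (nat_lit 382) (nat_lit 359) (nat_lit 339)) (XT.lf (nat_lit 336) (nat_lit 893421078) (nat_lit 0) (nat_lit 594449278) (nat_lit 252) (nat_lit 360357106) (nat_lit 72) (nat_lit 1) (nat_lit 68) (nat_lit 1) (nat_lit 71) (nat_lit 1) (nat_lit 383) (nat_lit 359) (nat_lit 338))) (XT.nd (nat_lit 94) (nat_lit 504) (nat_lit 0) (XT.lf (nat_lit 252) (nat_lit 221480404) (nat_lit 0) (nat_lit 518613636) (nat_lit 168) (nat_lit 1053968859) (nat_lit 69) (nat_lit 1) (nat_lit 66) (nat_lit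 1) (nat_lit 68) (nat_lit 1) (nat_lit 384) (nat_lit 359) (nat_lit 337)) (XT.nd (nat_lit 94) (nat_lit 168) (nat_lit 0) (XT.lf (nat_lit 84) (nat_lit 37520195) (nat_lit 0) (nat_lit 419859133) (nat_lit 336) (nat_lit 1284618567) (nat_lit 63) (nat_lit 1) (nat_lit 62) (nat_lit 1) (nat_lit 66) (nat_lit 1) (nat_lit 385) (nat_lit 359) (nat_lit 336)) (XT.lf (nat_lit 252) (nat_lit 643581417) (nat_lit 0) (nat_lit 402183172) (nat_lit 168) (nat_lit 645821086) (nat_lit 63) (nat_lit 1) (nat_lit 60) (nat_lit 1) (nat_lit 62) (nat_lit 1) (nat_lit 386) (nat_lit 359) (nat_lit 335))))) (XT.nd (nat_lit 188) (nat_lit 588) (nat_lit 0) (XT.nd (nat_lit 94) (nat_lit 168) (nat_lit 0) (XT.lf (nat_lit 84) (nat_lit 349180381) (nat_lit 0) (nat_lit 16128860) (nat_lit 252) (nat_lit 1278064030) (nat_lit 58) (nat_lit 1) (nat_lit 57) (nat_lit 1) (nat_lit 60) (nat_lit 1) (nat_lit 387) (nat_lit 359)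 (nat_lit 334)) (XT.lf (nat_lit 252) (nat_lit 954591734) (nat_lit 0) (nat_lit 330787439) (nat_lit 168) (nat_lit 311184158) (nat_lit 58) (nat_lit 1) (nat_lit 55) (nat_lit 1) (nat_lit 57) (nat_lit 1) (nat_lit 388) (nat_lit 359) (nat_lit 333))) (XT.nd (nat_lit 94) (nat_lit 420) (nat_lit 0) (XT.lf (nat_lit 252) (nat_lit 296534445) (nat_lit 0) (nat_lit 307503504) (nat_lit 168) (nat_lit 947505192) (nat_lit 56) (nat_lit 1) (nat_lit 53) (nat_lit 1) (nat_lit 55) (nat_lit 1) (nat_lit 389) (nat_lit 359) (nat_lit 332)) (XT.nd (nat_lit 94) (nat_lit 168) (nat_lit 0) (XT.lf (nat_lit 252) (nat_lit 1177132770) (nat_lit 0) (nat_lit 293794639) (nat_lit 168) (nat_lit 37271258) (nat_lit 53) (nat_lit 1) (nat_lit 50) (nat_lit 1) (nat_lit 52) (nat_lit 1) (nat_lit 390) (nat_lit 359) (nat_lit 331)) (XT.lf (nat_lit 252) (nat_lit 526830072) (nat_lit 0) (nat_lit 280474829) (nat_lit 168)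 (nat_lit 658753700) (nat_lit 51) (nat_lit 1) (nat_lit 48) (nat_lit 1) (nat_lit 50) (nat_lit 1) (nat_lit 391) (nat_lit 359) (nat_lit 330))))))))
noncomputable def ec26 : XT := (XT.nd (nat_lit 1692) (nat_lit 1344) (nat_lit 0) (XT.nd (nat_lit 846) (nat_lit 1260) (nat_lit 0) (XT.nd (nat_lit 376) (nat_lit 756) (nat_lit 0) (XT.nd (nat_lit 188) (nat_lit 336) (nat_lit 0) (XT.nd (nat_lit 94) (nat_lit 168) (nat_lit 0) (XT.lf (nat_lit 84) (nat_lit 180459640) (nat_lit 0) (nat_lit 99188750) (nat_lit 168) (nat_lit 1146018006) (nat_lit 47) (nat_lit 1) (nat_lit 46) (nat_lit 1) (nat_lit 48) (nat_lit 1) (nat_lit 392) (nat_lit 359) (nat_lit 329)) (XT.lf (nat_lit 252) (nat_lit 691231353) (nat_lit 0) (nat_lit 276687225) (nat_lit 168) (nat_lit 418374870) (nat_lit 47) (nat_lit 1) (nat_lit 44) (nat_lit 1) (nat_lit 46) (nat_lit 1) (nat_lit 393) (nat_lit 359) (nat_lit 328))) (XT.nd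 (nat_lit 94) (nat_lit 252) (nat_lit 0) (XT.lf (nat_lit 168) (nat_lit 74435794) (nat_lit 0) (nat_lit 283483020) (nat_lit 84) (nat_lit 990556080) (nat_lit 45) (nat_lit 1) (nat_lit 43) (nat_lit 1) (nat_lit 44) (nat_lit 1) (nat_lit 394) (nat_lit 359) (nat_lit 327)) (XT.lf (nat_lit 252) (nat_lit 803506920) (nat_lit 0) (nat_lit 289927482) (nat_lit 168) (nat_lit 218264713) (nat_lit 43) (nat_lit 1) (nat_lit 40) (nat_lit 1) (nat_lit 42) (nat_lit 1) (nat_lit 395) (nat_lit 359) (nat_lit 326)))) (XT.nd (nat_lit 188) (nat_lit 420) (nat_lit 0) (XT.nd (nat_lit 94) (nat_lit 252) (nat_lit 0) (XT.lf (nat_lit 168) (nat_lit 202087915) (nat_lit 0) (nat_lit 300768162) (nat_lit 84) (nat_lit 773306676) (nat_lit 41) (nat_lit 1) (nat_lit 39) (nat_lit 1) (nat_lit 40) (nat_lit 1) (nat_lit 396) (nat_lit 359) (nat_lit 325)) (XT.lf (nat_lit 252) (nat_lit 874788887) (nat_lit 0) (nat_lit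 315274300) (nat_lit 168) (nat_lit 51739211) (nat_lit 39) (nat_lit 1) (nat_lit 36) (nat_lit 1) (nat_lit 38) (nat_lit 1) (nat_lit 397) (nat_lit 359) (nat_lit 324))) (XT.nd (nat_lit 94) (nat_lit 336) (nat_lit 0) (XT.lf (nat_lit 168) (nat_lit 290832235) (nat_lit 0) (nat_lit 328677246) (nat_lit 84) (nat_lit 588853671) (nat_lit 37) (nat_lit 1) (nat_lit 35) (nat_lit 1) (nat_lit 36) (nat_lit 1) (nat_lit 398) (nat_lit 359) (nat_lit 323)) (XT.nd (nat_lit 94) (nat_lit 84) (nat_lit 0) (XT.lf (nat_lit 84) (nat_lit 83945757) (nat_lit 0) (nat_lit 263483355) (nat_lit 252) (nat_lit 828696102) (nat_lit 33) (nat_lit 1) (nat_lit 32) (nat_lit 1) (nat_lit 35) (nat_lit 1) (nat_lit 399) (nat_lit 359) (nat_lit 322)) (XT.lf (nat_lit 168) (nat_lit 349024922) (nat_lit 0) (nat_lit 363667425) (nat_lit 84) (nat_lit 431995537) (nat_lit 33) (nat_lit 1) (nat_lit 31) (nat_lit 1) (nat_lit 32)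 (nat_lit 1) (nat_lit 400) (nat_lit 359) (nat_lit 321)))))) (XT.nd (nat_lit 376) (nat_lit 672) (nat_lit 0) (XT.nd (nat_lit 188) (nat_lit 252) (nat_lit 0) (XT.nd (nat_lit 94) (nat_lit 84) (nat_lit 0) (XT.lf (nat_lit 84) (nat_lit 195226573) (nat_lit 0) (nat_lit 189090138) (nat_lit 252) (nat_lit 730038628) (nat_lit 29) (nat_lit 1) (nat_lit 28) (nat_lit 1) (nat_lit 31) (nat_lit 1) (nat_lit 401) (nat_lit 359) (nat_lit 320)) (XT.lf (nat_lit 168) (nat_lit 383404660) (nat_lit 0) (nat_lit 402973108) (nat_lit 84) (nat_lit 298420011) (nat_lit 29) (nat_lit 1) (nat_lit 27) (nat_lit 1) (nat_lit 28) (nat_lit 1) (nat_lit 402) (nat_lit 359) (nat_lit 319))) (XT.nd (nat_lit 94) (nat_lit 84) (nat_lit 0) (XT.lf (nat_lit 84) (nat_lit 287418661) (nat_lit 0) (nat_lit 136949849) (nat_lit 168) (nat_lit 631847860) (nat_lit 26) (nat_lit 1) (nat_lit 25) (nat_lit 1) (nat_lit 27) (nat_lit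 1) (nat_lit 403) (nat_lit 359) (nat_lit 318)) (XT.lf (nat_lit 168) (nat_lit 399394887) (nat_lit 0) (nat_lit 444454475) (nat_lit 84) (nat_lit 184545472) (nat_lit 26) (nat_lit 1) (nat_lit 24) (nat_lit 1) (nat_lit 25) (nat_lit 1) (nat_lit 404) (nat_lit 359) (nat_lit 317)))) (XT.nd (nat_lit 188) (nat_lit 420) (nat_lit 0) (XT.nd (nat_lit 94) (nat_lit 84) (nat_lit 0) (XT.lf (nat_lit 84) (nat_lit 363557882) (nat_lit 0) (nat_lit 102166373) (nat_lit 168) (nat_lit 535704805) (nat_lit 23) (nat_lit 1) (nat_lit 22) (nat_lit 1) (nat_lit 24) (nat_lit 1) (nat_lit 405) (nat_lit 359) (nat_lit 316)) (XT.lf (nat_lit 168) (nat_lit 401350239) (nat_lit 0) (nat_lit 486474365) (nat_lit 84) (nat_lit 87391120) (nat_lit 23) (nat_lit 1) (nat_lit 21) (nat_lit 1) (nat_lit 22) (nat_lit 1) (nat_lit 406) (nat_lit 359) (nat_lit 315))) (XT.nd (nat_lit 94) (nat_lit 252) (nat_lit 0) (XT.lf (nat_lit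 84) (nat_lit 426167380) (nat_lit 0) (nat_lit 80802778) (nat_lit 168) (nat_lit 442775716) (nat_lit 20) (nat_lit 1) (nat_lit 19) (nat_lit 1) (nat_lit 21) (nat_lit 1) (nat_lit 407) (nat_lit 359) (nat_lit 314)) (XT.nd (nat_lit 94) (nat_lit 168) (nat_lit 0) (XT.lf (nat_lit 168) (nat_lit 392757454) (nat_lit 0) (nat_lit 527798293) (nat_lit 84) (nat_lit 4470707) (nat_lit 20) (nat_lit 1) (nat_lit 18) (nat_lit 1) (nat_lit 19) (nat_lit 1) (nat_lit 408) (nat_lit 359) (nat_lit 313)) (XT.lf (nat_lit 84) (nat_lit 477348330) (nat_lit 0) (nat_lit 69701211) (nat_lit 168) (nat_lit 353896606) (nat_lit 17) (nat_lit 1) (nat_lit 16) (nat_lit 1) (nat_lit 18) (nat_lit 1) (nat_lit 409) (nat_lit 359) (nat_lit 312))))))) (XT.nd (nat_lit 846) (nat_lit 252) (nat_lit 0) (XT.nd (nat_lit 376) (nat_lit 588) (nat_lit 0) (XT.nd (nat_lit 188) (nat_lit 252) (nat_lit 0) (XT.nd (nat_lit 94) (nat_lit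 168) (nat_lit 0) (XT.lf (nat_lit 0) (nat_lit 64172660) (nat_lit 0) (nat_lit 502253869) (nat_lit 168) (nat_lit 311139661) (nat_lit 15) (nat_lit 3) (nat_lit 15) (nat_lit 1) (nat_lit 17) (nat_lit 1) (nat_lit 410) (nat_lit 359) (nat_lit 311)) (XT.lf (nat_lit 84) (nat_lit 518854272) (nat_lit 0) (nat_lit 66336105) (nat_lit 168) (nat_lit 269641732) (nat_lit 14) (nat_lit 1) (nat_lit 13) (nat_lit 1) (nat_lit 15) (nat_lit 1) (nat_lit 411) (nat_lit 359) (nat_lit 310))) (XT.nd (nat_lit 94) (nat_lit 168) (nat_lit 0) (XT.lf (nat_lit 0) (nat_lit 122593522) (nat_lit 0) (nat_lit 480292595) (nat_lit 168) (nat_lit 229817371) (nat_lit 12) (nat_lit 3) (nat_lit 12) (nat_lit 1) (nat_lit 14) (nat_lit 1) (nat_lit 412) (nat_lit 359) (nat_lit 309)) (XT.lf (nat_lit 84) (nat_lit 552152009) (nat_lit 0) (nat_lit 68694561) (nat_lit 168) (nat_lit 190378993) (nat_lit 11) (nat_lit 1) (nat_lit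 10) (nat_lit 1) (nat_lit 12) (nat_lit 1) (nat_lit 413) (nat_lit 359) (nat_lit 308)))) (XT.nd (nat_lit 188) (nat_lit 336) (nat_lit 0) (XT.nd (nat_lit 94) (nat_lit 168) (nat_lit 0) (XT.lf (nat_lit 0) (nat_lit 172352849) (nat_lit 0) (nat_lit 464418850) (nat_lit 168) (nat_lit 153499387) (nat_lit 9) (nat_lit 3) (nat_lit 9) (nat_lit 1) (nat_lit 11) (nat_lit 1) (nat_lit 414) (nat_lit 359) (nat_lit 307)) (XT.lf (nat_lit 84) (nat_lit 578471531) (nat_lit 0) (nat_lit 75178915) (nat_lit 168) (nat_lit 116314705) (nat_lit 8) (nat_lit 1) (nat_lit 7) (nat_lit 1) (nat_lit 9) (nat_lit 1) (nat_lit 415) (nat_lit 359) (nat_lit 306))) (XT.nd (nat_lit 94) (nat_lit 252) (nat_lit 0) (XT.lf (nat_lit 0) (nat_lit 214646057) (nat_lit 0) (nat_lit 453121791) (nat_lit 168) (nat_lit 82346257) (nat_lit 6) (nat_lit 3) (nat_lit 6) (nat_lit 1) (nat_lit 8) (nat_lit 1) (nat_lit 416) (nat_lit 359)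 (nat_lit 305)) (XT.nd (nat_lit 94) (nat_lit 84) (nat_lit 0) (XT.lf (nat_lit 84) (nat_lit 598846960) (nat_lit 0) (nat_lit 84527394) (nat_lit 168) (nat_lit 47529705) (nat_lit 5) (nat_lit 1) (nat_lit 4) (nat_lit 1) (nat_lit 6) (nat_lit 1) (nat_lit 417) (nat_lit 359) (nat_lit 304)) (XT.lf (nat_lit 0) (nat_lit 250484183) (nat_lit 0) (nat_lit 445202759) (nat_lit 168) (nat_lit 16404475) (nat_lit 3) (nat_lit 3) (nat_lit 3) (nat_lit 1) (nat_lit 5) (nat_lit 1) (nat_lit 418) (nat_lit 359) (nat_lit 303)))))) (XT.nd (nat_lit 470) (nat_lit 0) (nat_lit 0) (XT.nd (nat_lit 188) (nat_lit 0) (nat_lit 0) (XT.nd (nat_lit 94) (nat_lit 0) (nat_lit 0) (XT.lf (nat_lit 0) (nat_lit 1006574035) (nat_lit 0) (nat_lit 0) (nat_lit 0) (nat_lit 0) (nat_lit 0) (nat_lit 0) (nat_lit 1) (nat_lit 0) (nat_lit 1) (nat_lit 0) (nat_lit 419) (nat_lit 359) (nat_lit 302)) (XT.lf (nat_lit 0) (nat_lit 1005657839)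 (nat_lit 0) (nat_lit 0) (nat_lit 0) (nat_lit 0) (nat_lit 0) (nat_lit 0) (nat_lit 1) (nat_lit 0) (nat_lit 1) (nat_lit 0) (nat_lit 420) (nat_lit 359) (nat_lit 301))) (XT.nd (nat_lit 94) (nat_lit 0) (nat_lit 0) (XT.lf (nat_lit 0) (nat_lit 1004809510) (nat_lit 0) (nat_lit 0) (nat_lit 0) (nat_lit 0) (nat_lit 0) (nat_lit 0) (nat_lit 1) (nat_lit 0) (nat_lit 1) (nat_lit 0) (nat_lit 421) (nat_lit 359) (nat_lit 300)) (XT.nd (nat_lit 94) (nat_lit 0) (nat_lit 0) (XT.lf (nat_lit 0) (nat_lit 1004024020) (nat_lit 0) (nat_lit 0) (nat_lit 0) (nat_lit 0) (nat_lit 0) (nat_lit 0) (nat_lit 1) (nat_lit 0) (nat_lit 1) (nat_lit 0) (nat_lit 422) (nat_lit 359) (nat_lit 299)) (XT.lf (nat_lit 0) (nat_lit 1003296714) (nat_lit 0) (nat_lit 0) (nat_lit 0) (nat_lit 0) (nat_lit 0) (nat_lit 0) (nat_lit 1) (nat_lit 0) (nat_lit 1) (nat_lit 0) (nat_lit 423) (nat_lit 359) (nat_lit 298))))) (XT.nd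 (nat_lit 188) (nat_lit 0) (nat_lit 0) (XT.nd (nat_lit 94) (nat_lit 0) (nat_lit 0) (XT.lf (nat_lit 0) (nat_lit 1002623283) (nat_lit 0) (nat_lit 0) (nat_lit 0) (nat_lit 0) (nat_lit 0) (nat_lit 0) (nat_lit 1) (nat_lit 0) (nat_lit 1) (nat_lit 0) (nat_lit 424) (nat_lit 359) (nat_lit 297)) (XT.lf (nat_lit 0) (nat_lit 1001999735) (nat_lit 0) (nat_lit 0) (nat_lit 0) (nat_lit 0) (nat_lit 0) (nat_lit 0) (nat_lit 1) (nat_lit 0) (nat_lit 1) (nat_lit 0) (nat_lit 425) (nat_lit 359) (nat_lit 296))) (XT.nd (nat_lit 94) (nat_lit 0) (nat_lit 0) (XT.lf (nat_lit 0) (nat_lit 1001422376) (nat_lit 0) (nat_lit 0) (nat_lit 0) (nat_lit 0) (nat_lit 0) (nat_lit 0) (nat_lit 1) (nat_lit 0) (nat_lit 1) (nat_lit 0) (nat_lit 426) (nat_lit 359) (nat_lit 295)) (XT.nd (nat_lit 94) (nat_lit 0) (nat_lit 0) (XT.lf (nat_lit 0) (nat_lit 1000887785) (nat_lit 0) (nat_lit 0) (nat_lit 0) (nat_lit 0)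 (nat_lit 0) (nat_lit 0) (nat_lit 1) (nat_lit 0) (nat_lit 1) (nat_lit 0) (nat_lit 427) (nat_lit 359) (nat_lit 294)) (XT.lf (nat_lit 0) (nat_lit 1000392793) (nat_lit 0) (nat_lit 0) (nat_lit 0) (nat_lit 0) (nat_lit 0) (nat_lit 0) (nat_lit 1) (nat_lit 0) (nat_lit 1) (nat_lit 0) (nat_lit 428) (nat_lit 359) (nat_lit 293))))))))
noncomputable def ec27 : XT := (XT.nd (nat_lit 62980) (nat_lit 0) (nat_lit 2940) (XT.nd (nat_lit 62040) (nat_lit 0) (nat_lit 6804) (XT.nd (nat_lit 61570) (nat_lit 0) (nat_lit 10332) (XT.nd (nat_lit 61382) (nat_lit 0) (nat_lit 10836) (XT.nd (nat_lit 61288) (nat_lit 0) (nat_lit 10752) (XT.lf (nat_lit 0) (nat_lit 999934467) (nat_lit 0) (nat_lit 0) (nat_lit 0) (nat_lit 0) (nat_lit 0) (nat_lit 0) (nat_lit 1) (nat_lit 0) (nat_lit 1) (nat_lit 0) (nat_lit 429) (nat_lit 359) (nat_lit 292)) (XT.lf (nat_lit 924) (nat_lit 537340628) (nat_lit 0) (nat_lit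 954047050) (nat_lit 924) (nat_lit 537340628) (nat_lit 139) (nat_lit 1) (nat_lit 128) (nat_lit 0) (nat_lit 139) (nat_lit 0) (nat_lit 360) (nat_lit 360) (nat_lit 360))) (XT.nd (nat_lit 94) (nat_lit 0) (nat_lit 0) (XT.lf (nat_lit 924) (nat_lit 200444542) (nat_lit 0) (nat_lit 1873083509) (nat_lit 840) (nat_lit 1831869414) (nat_lit 140) (nat_lit 1) (nat_lit 129) (nat_lit 1) (nat_lit 139) (nat_lit 1) (nat_lit 361) (nat_lit 360) (nat_lit 359)) (XT.lf (nat_lit 924) (nat_lit 1840967422) (nat_lit 84) (nat_lit 1254404657) (nat_lit 0) (nat_lit 665279009) (nat_lit 140) (nat_lit 1) (nat_lit 130) (nat_lit 1) (nat_lit 129) (nat_lit 1) (nat_lit 362) (nat_lit 360) (nat_lit 358)))) (XT.nd (nat_lit 188) (nat_lit 588) (nat_lit 0) (XT.nd (nat_lit 94) (nat_lit 0) (nat_lit 84) (XT.lf (nat_lit 924) (nat_lit 1590746667) (nat_lit 84) (nat_lit 525712297) (nat_lit 0) (nat_lit 1506689224)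 (nat_lit 141) (nat_lit 1) (nat_lit 131) (nat_lit 1) (nat_lit 130) (nat_lit 1) (nat_lit 363) (nat_lit 360) (nat_lit 357)) (XT.lf (nat_lit 924) (nat_lit 1177287774) (nat_lit 0) (nat_lit 2202649777) (nat_lit 840) (nat_lit 112599141) (nat_lit 142) (nat_lit 1) (nat_lit 131) (nat_lit 1) (nat_lit 141) (nat_lit 1) (nat_lit 364) (nat_lit 360) (nat_lit 356))) (XT.nd (nat_lit 94) (nat_lit 756) (nat_lit 0) (XT.lf (nat_lit 924) (nat_lit 282478658) (nat_lit 0) (nat_lit 2429033299) (nat_lit 840) (nat_lit 656650854) (nat_lit 143) (nat_lit 1) (nat_lit 132) (nat_lit 1) (nat_lit 142) (nat_lit 1) (nat_lit 365) (nat_lit 360) (nat_lit 355)) (XT.nd (nat_lit 94) (nat_lit 756) (nat_lit 0) (XT.lf (nat_lit 924) (nat_lit 542809087) (nat_lit 84) (nat_lit 2111027742) (nat_lit 0) (nat_lit 595758074) (nat_lit 143) (nat_lit 1) (nat_lit 133) (nat_lit 1) (nat_lit 132) (nat_lit 1) (nat_lit 366)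 (nat_lit 360) (nat_lit 354)) (XT.lf (nat_lit 924) (nat_lit 111480608) (nat_lit 0) (nat_lit 1578132876) (nat_lit 840) (nat_lit 1447131312) (nat_lit 134) (nat_lit 1) (nat_lit 123) (nat_lit 1) (nat_lit 133) (nat_lit 1) (nat_lit 367) (nat_lit 360) (nat_lit 353)))))) (XT.nd (nat_lit 470) (nat_lit 1764) (nat_lit 0) (XT.nd (nat_lit 188) (nat_lit 756) (nat_lit 0) (XT.nd (nat_lit 94) (nat_lit 420) (nat_lit 0) (XT.lf (nat_lit 84) (nat_lit 771914958) (nat_lit 0) (nat_lit 334506673) (nat_lit 588) (nat_lit 1922816402) (nat_lit 117) (nat_lit 1) (nat_lit 116) (nat_lit 1) (nat_lit 123) (nat_lit 1) (nat_lit 368) (nat_lit 360) (nat_lit 352)) (XT.lf (nat_lit 504) (nat_lit 2127300467) (nat_lit 0) (nat_lit 692482162) (nat_lit 420) (nat_lit 107062021) (nat_lit 117) (nat_lit 1) (nat_lit 111) (nat_lit 1) (nat_lit 116) (nat_lit 1) (nat_lit 369) (nat_lit 360) (nat_lit 351))) (XT.nd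 (nat_lit 94) (nat_lit 336) (nat_lit 0) (XT.lf (nat_lit 504) (nat_lit 1535080274) (nat_lit 0) (nat_lit 322768919) (nat_lit 420) (nat_lit 971004806) (nat_lit 112) (nat_lit 1) (nat_lit 106) (nat_lit 1) (nat_lit 111) (nat_lit 1) (nat_lit 370) (nat_lit 360) (nat_lit 350)) (XT.nd (nat_lit 94) (nat_lit 0) (nat_lit 0) (XT.lf (nat_lit 420) (nat_lit 934076768) (nat_lit 0) (nat_lit 5942700) (nat_lit 336) (nat_lit 1795595233) (nat_lit 107) (nat_lit 1) (nat_lit 102) (nat_lit 1) (nat_lit 106) (nat_lit 1) (nat_lit 371) (nat_lit 360) (nat_lit 349)) (XT.lf (nat_lit 84) (nat_lit 68911769) (nat_lit 0) (nat_lit 2324038787) (nat_lit 420) (nat_lit 253714021) (nat_lit 103) (nat_lit 1) (nat_lit 102) (nat_lit 1) (nat_lit 107) (nat_lit 1) (nat_lit 372) (nat_lit 360) (nat_lit 348))))) (XT.nd (nat_lit 188) (nat_lit 1008) (nat_lit 0) (XT.nd (nat_lit 94) (nat_lit 336) (nat_lit 0) (XT.lf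 (nat_lit 84) (nat_lit 1779319764) (nat_lit 0) (nat_lit 295119221) (nat_lit 420) (nat_lit 486705193) (nat_lit 98) (nat_lit 1) (nat_lit 97) (nat_lit 1) (nat_lit 102) (nat_lit 1) (nat_lit 373) (nat_lit 360) (nat_lit 347)) (XT.lf (nat_lit 84) (nat_lit 890238767) (nat_lit 0) (nat_lit 904002563) (nat_lit 420) (nat_lit 685161176) (nat_lit 94) (nat_lit 1) (nat_lit 93) (nat_lit 1) (nat_lit 98) (nat_lit 1) (nat_lit 374) (nat_lit 360) (nat_lit 346))) (XT.nd (nat_lit 94) (nat_lit 672) (nat_lit 0) (XT.lf (nat_lit 84) (nat_lit 43940211) (nat_lit 0) (nat_lit 1511478249) (nat_lit 420) (nat_lit 846112571) (nat_lit 90) (nat_lit 1) (nat_lit 89) (nat_lit 1) (nat_lit 94) (nat_lit 1) (nat_lit 375) (nat_lit 360) (nat_lit 345)) (XT.nd (nat_lit 94) (nat_lit 420) (nat_lit 0) (XT.lf (nat_lit 336) (nat_lit 198431518) (nat_lit 0) (nat_lit 1341897376) (nat_lit 252) (nat_lit 786382703)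 (nat_lit 90) (nat_lit 1) (nat_lit 86) (nat_lit 1) (nat_lit 89) (nat_lit 1) (nat_lit 376) (nat_lit 360) (nat_lit 344)) (XT.lf (nat_lit 84) (nat_lit 685634246) (nat_lit 0) (nat_lit 469937973) (nat_lit 420) (nat_lit 1099410870) (nat_lit 82) (nat_lit 1) (nat_lit 81) (nat_lit 1) (nat_lit 86) (nat_lit 1) (nat_lit 377) (nat_lit 360) (nat_lit 343))))))) (XT.nd (nat_lit 846) (nat_lit 1680) (nat_lit 0) (XT.nd (nat_lit 376) (nat_lit 1092) (nat_lit 0) (XT.nd (nat_lit 188) (nat_lit 588) (nat_lit 0) (XT.nd (nat_lit 94) (nat_lit 252) (nat_lit 0) (XT.lf (nat_lit 336) (nat_lit 1061526730) (nat_lit 0) (nat_lit 997167164) (nat_lit 252) (nat_lit 127636213) (nat_lit 82) (nat_lit 1) (nat_lit 78) (nat_lit 1) (nat_lit 81) (nat_lit 1) (nat_lit 378) (nat_lit 360) (nat_lit 342)) (XT.lf (nat_lit 336) (nat_lit 340214188) (nat_lit 0) (nat_lit 858520094) (nat_lit 252) (nat_lit 921581195)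 (nat_lit 79) (nat_lit 1) (nat_lit 75) (nat_lit 1) (nat_lit 78) (nat_lit 1) (nat_lit 379) (nat_lit 360) (nat_lit 341))) (XT.nd (nat_lit 94) (nat_lit 252) (nat_lit 0) (XT.lf (nat_lit 84) (nat_lit 387761968) (nat_lit 0) (nat_lit 355029779) (nat_lit 336) (nat_lit 1314250813) (nat_lit 72) (nat_lit 1) (nat_lit 71) (nat_lit 1) (nat_lit 75) (nat_lit 1) (nat_lit 380) (nat_lit 360) (nat_lit 340)) (XT.lf (nat_lit 336) (nat_lit 964894765) (nat_lit 0) (nat_lit 642005220) (nat_lit 252) (nat_lit 389185675) (nat_lit 72) (nat_lit 1) (nat_lit 68) (nat_lit 1) (nat_lit 71) (nat_lit 1) (nat_lit 381) (nat_lit 360) (nat_lit 339)))) (XT.nd (nat_lit 188) (nat_lit 588) (nat_lit 0) (XT.nd (nat_lit 94) (nat_lit 336) (nat_lit 0) (XT.lf (nat_lit 252) (nat_lit 239198837) (nat_lit 0) (nat_lit 560102726) (nat_lit 168) (nat_lit 1138286367) (nat_lit 69) (nat_lit 1) (nat_lit 66) (nat_lit 1)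 (nat_lit 68) (nat_lit 1) (nat_lit 382) (nat_lit 360) (nat_lit 338)) (XT.lf (nat_lit 84) (nat_lit 40521811) (nat_lit 0) (nat_lit 453447863) (nat_lit 336) (nat_lit 1387388053) (nat_lit 63) (nat_lit 1) (nat_lit 62) (nat_lit 1) (nat_lit 66) (nat_lit 1) (nat_lit 383) (nat_lit 360) (nat_lit 337))) (XT.nd (nat_lit 94) (nat_lit 420) (nat_lit 0) (XT.lf (nat_lit 252) (nat_lit 695067930) (nat_lit 0) (nat_lit 434357826) (nat_lit 168) (nat_lit 697486773) (nat_lit 63) (nat_lit 1) (nat_lit 60) (nat_lit 1) (nat_lit 62) (nat_lit 1) (nat_lit 384) (nat_lit 360) (nat_lit 336)) (XT.nd (nat_lit 94) (nat_lit 168) (nat_lit 0) (XT.lf (nat_lit 84) (nat_lit 377114811) (nat_lit 0) (nat_lit 17419169) (nat_lit 252) (nat_lit 1380309152) (nat_lit 58) (nat_lit 1) (nat_lit 57) (nat_lit 1) (nat_lit 60) (nat_lit 1) (nat_lit 385) (nat_lit 360) (nat_lit 335)) (XT.lf (nat_lit 252) (nat_lit 1030959073)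 (nat_lit 0) (nat_lit 357250434) (nat_lit 168) (nat_lit 336078891) (nat_lit 58) (nat_lit 1) (nat_lit 55) (nat_lit 1) (nat_lit 57) (nat_lit 1) (nat_lit 386) (nat_lit 360) (nat_lit 334)))))) (XT.nd (nat_lit 470) (nat_lit 756) (nat_lit 0) (XT.nd (nat_lit 188) (nat_lit 504) (nat_lit 0) (XT.nd (nat_lit 94) (nat_lit 252) (nat_lit 0) (XT.lf (nat_lit 252) (nat_lit 320257201) (nat_lit 0) (nat_lit 332103784) (nat_lit 168) (nat_lit 1023305607) (nat_lit 56) (nat_lit 1) (nat_lit 53) (nat_lit 1) (nat_lit 55) (nat_lit 1) (nat_lit 387) (nat_lit 360) (nat_lit 333)) (XT.lf (nat_lit 252) (nat_lit 1271303392) (nat_lit 0) (nat_lit 317298211) (nat_lit 168) (nat_lit 40252959) (nat_lit 53) (nat_lit 1) (nat_lit 50) (nat_lit 1) (nat_lit 52) (nat_lit 1) (nat_lit 388) (nat_lit 360) (nat_lit 332))) (XT.nd (nat_lit 94) (nat_lit 336) (nat_lit 0) (XT.lf (nat_lit 252) (nat_lit 568976478) (nat_lit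 0) (nat_lit 302912815) (nat_lit 168) (nat_lit 711453996) (nat_lit 51) (nat_lit 1) (nat_lit 48) (nat_lit 1) (nat_lit 50) (nat_lit 1) (nat_lit 389) (nat_lit 360) (nat_lit 331)) (XT.nd (nat_lit 94) (nat_lit 168) (nat_lit 0) (XT.lf (nat_lit 84) (nat_lit 194896411) (nat_lit 0) (nat_lit 107123850) (nat_lit 168) (nat_lit 1237699446) (nat_lit 47) (nat_lit 1) (nat_lit 46) (nat_lit 1) (nat_lit 48) (nat_lit 1) (nat_lit 390) (nat_lit 360) (nat_lit 330)) (XT.lf (nat_lit 252) (nat_lit 746529862) (nat_lit 0) (nat_lit 298822203) (nat_lit 168) (nat_lit 451844860) (nat_lit 47) (nat_lit 1) (nat_lit 44) (nat_lit 1) (nat_lit 46) (nat_lit 1) (nat_lit 391) (nat_lit 360) (nat_lit 329))))) (XT.nd (nat_lit 188) (nat_lit 420) (nat_lit 0) (XT.nd (nat_lit 94) (nat_lit 252) (nat_lit 0) (XT.lf (nat_lit 168) (nat_lit 80390658) (nat_lit 0) (nat_lit 306161662) (nat_lit 84) (nat_lit 1069800566)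 (nat_lit 45) (nat_lit 1) (nat_lit 43) (nat_lit 1) (nat_lit 44) (nat_lit 1) (nat_lit 392) (nat_lit 360) (nat_lit 328)) (XT.lf (nat_lit 252) (nat_lit 867787474) (nat_lit 0) (nat_lit 313121680) (nat_lit 168) (nat_lit 235725891) (nat_lit 43) (nat_lit 1) (nat_lit 40) (nat_lit 1) (nat_lit 42) (nat_lit 1) (nat_lit 393) (nat_lit 360) (nat_lit 327))) (XT.nd (nat_lit 94) (nat_lit 336) (nat_lit 0) (XT.lf (nat_lit 168) (nat_lit 218254948) (nat_lit 0) (nat_lit 324829615) (nat_lit 84) (nat_lit 835171210) (nat_lit 41) (nat_lit 1) (nat_lit 39) (nat_lit 1) (nat_lit 40) (nat_lit 1) (nat_lit 394) (nat_lit 360) (nat_lit 326)) (XT.nd (nat_lit 94) (nat_lit 84) (nat_lit 0) (XT.lf (nat_lit 252) (nat_lit 944771998) (nat_lit 0) (nat_lit 340496244) (nat_lit 168) (nat_lit 55878348) (nat_lit 39) (nat_lit 1) (nat_lit 36) (nat_lit 1) (nat_lit 38) (nat_lit 1) (nat_lit 395) (nat_lit 360)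 (nat_lit 325)) (XT.lf (nat_lit 168) (nat_lit 314098814) (nat_lit 0) (nat_lit 354971426) (nat_lit 84) (nat_lit 635961965) (nat_lit 37) (nat_lit 1) (nat_lit 35) (nat_lit 1) (nat_lit 36) (nat_lit 1) (nat_lit 396) (nat_lit 360) (nat_lit 324))))))))
noncomputable def ec28 : XT := (XT.nd (nat_lit 1692) (nat_lit 504) (nat_lit 0) (XT.nd (nat_lit 846) (nat_lit 1092) (nat_lit 0) (XT.nd (nat_lit 376) (nat_lit 672) (nat_lit 0) (XT.nd (nat_lit 188) (nat_lit 336) (nat_lit 0) (XT.nd (nat_lit 94) (nat_lit 84) (nat_lit 0) (XT.lf (nat_lit 84) (nat_lit 90661417) (nat_lit 0) (nat_lit 284562023) (nat_lit 252) (nat_lit 894991790) (nat_lit 33) (nat_lit 1) (nat_lit 32) (nat_lit 1) (nat_lit 35) (nat_lit 1) (nat_lit 397) (nat_lit 360) (nat_lit 323)) (XT.lf (nat_lit 168) (nat_lit 376946915) (nat_lit 0) (nat_lit 392760819) (nat_lit 84) (nat_lit 466555180) (nat_lit 33) (nat_lit 1) (nat_lit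 31) (nat_lit 1) (nat_lit 32) (nat_lit 1) (nat_lit 398) (nat_lit 360) (nat_lit 322))) (XT.nd (nat_lit 94) (nat_lit 84) (nat_lit 0) (XT.lf (nat_lit 84) (nat_lit 210844699) (nat_lit 0) (nat_lit 204217349) (nat_lit 252) (nat_lit 788441718) (nat_lit 29) (nat_lit 1) (nat_lit 28) (nat_lit 1) (nat_lit 31) (nat_lit 1) (nat_lit 399) (nat_lit 360) (nat_lit 321)) (XT.lf (nat_lit 168) (nat_lit 414077032) (nat_lit 0) (nat_lit 435210957) (nat_lit 84) (nat_lit 322293612) (nat_lit 29) (nat_lit 1) (nat_lit 27) (nat_lit 1) (nat_lit 28) (nat_lit 1) (nat_lit 400) (nat_lit 360) (nat_lit 320)))) (XT.nd (nat_lit 188) (nat_lit 420) (nat_lit 0) (XT.nd (nat_lit 94) (nat_lit 84) (nat_lit 0) (XT.lf (nat_lit 84) (nat_lit 310412153) (nat_lit 0) (nat_lit 147905837) (nat_lit 168) (nat_lit 682395689) (nat_lit 26) (nat_lit 1) (nat_lit 25) (nat_lit 1) (nat_lit 27) (nat_lit 1) (nat_lit 401) (nat_lit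 360) (nat_lit 319)) (XT.lf (nat_lit 168) (nat_lit 431346478) (nat_lit 0) (nat_lit 480010833) (nat_lit 84) (nat_lit 199309110) (nat_lit 26) (nat_lit 1) (nat_lit 24) (nat_lit 1) (nat_lit 25) (nat_lit 1) (nat_lit 402) (nat_lit 360) (nat_lit 318))) (XT.nd (nat_lit 94) (nat_lit 252) (nat_lit 0) (XT.lf (nat_lit 84) (nat_lit 392642513) (nat_lit 0) (nat_lit 110339683) (nat_lit 168) (nat_lit 578561190) (nat_lit 23) (nat_lit 1) (nat_lit 22) (nat_lit 1) (nat_lit 24) (nat_lit 1) (nat_lit 403) (nat_lit 360) (nat_lit 317)) (XT.nd (nat_lit 94) (nat_lit 168) (nat_lit 0) (XT.lf (nat_lit 168) (nat_lit 433458259) (nat_lit 0) (nat_lit 525392314) (nat_lit 84) (nat_lit 94382410) (nat_lit 23) (nat_lit 1) (nat_lit 21) (nat_lit 1) (nat_lit 22) (nat_lit 1) (nat_lit 404) (nat_lit 360) (nat_lit 316)) (XT.lf (nat_lit 84) (nat_lit 460260770) (nat_lit 0) (nat_lit 87267000) (nat_lit 168)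 (nat_lit 478197773) (nat_lit 20) (nat_lit 1) (nat_lit 19) (nat_lit 1) (nat_lit 21) (nat_lit 1) (nat_lit 405) (nat_lit 360) (nat_lit 315)))))) (XT.nd (nat_lit 376) (nat_lit 588) (nat_lit 0) (XT.nd (nat_lit 188) (nat_lit 252) (nat_lit 0) (XT.nd (nat_lit 94) (nat_lit 168) (nat_lit 0) (XT.lf (nat_lit 168) (nat_lit 424178051) (nat_lit 0) (nat_lit 570022157) (nat_lit 84) (nat_lit 4828364) (nat_lit 20) (nat_lit 1) (nat_lit 18) (nat_lit 1) (nat_lit 19) (nat_lit 1) (nat_lit 406) (nat_lit 360) (nat_lit 314)) (XT.lf (nat_lit 84) (nat_lit 515536196) (nat_lit 0) (nat_lit 75277308) (nat_lit 168) (nat_lit 382208335) (nat_lit 17) (nat_lit 1) (nat_lit 16) (nat_lit 1) (nat_lit 18) (nat_lit 1) (nat_lit 407) (nat_lit 360) (nat_lit 313))) (XT.nd (nat_lit 94) (nat_lit 168) (nat_lit 0) (XT.lf (nat_lit 0) (nat_lit 69306473) (nat_lit 0) (nat_lit 542434178) (nat_lit 168) (nat_lit 336030834)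 (nat_lit 15) (nat_lit 3) (nat_lit 15) (nat_lit 1) (nat_lit 17) (nat_lit 1) (nat_lit 408) (nat_lit 360) (nat_lit 312)) (XT.lf (nat_lit 84) (nat_lit 560362614) (nat_lit 0) (nat_lit 71642993) (nat_lit 168) (nat_lit 291213071) (nat_lit 14) (nat_lit 1) (nat_lit 13) (nat_lit 1) (nat_lit 15) (nat_lit 1) (nat_lit 409) (nat_lit 360) (nat_lit 311)))) (XT.nd (nat_lit 188) (nat_lit 336) (nat_lit 0) (XT.nd (nat_lit 94) (nat_lit 168) (nat_lit 0) (XT.lf (nat_lit 0) (nat_lit 132401004) (nat_lit 0) (nat_lit 518716003) (nat_lit 168) (nat_lit 248202761) (nat_lit 12) (nat_lit 3) (nat_lit 12) (nat_lit 1) (nat_lit 14) (nat_lit 1) (nat_lit 410) (nat_lit 360) (nat_lit 310)) (XT.lf (nat_lit 84) (nat_lit 596324170) (nat_lit 0) (nat_lit 74190126) (nat_lit 168) (nat_lit 205609313) (nat_lit 11) (nat_lit 1) (nat_lit 10) (nat_lit 1) (nat_lit 12) (nat_lit 1) (nat_lit 411) (nat_lit 360) (nat_lit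 309))) (XT.nd (nat_lit 94) (nat_lit 252) (nat_lit 0) (XT.lf (nat_lit 0) (nat_lit 186141077) (nat_lit 0) (nat_lit 501572358) (nat_lit 168) (nat_lit 165779338) (nat_lit 9) (nat_lit 3) (nat_lit 9) (nat_lit 1) (nat_lit 11) (nat_lit 1) (nat_lit 412) (nat_lit 360) (nat_lit 308)) (XT.nd (nat_lit 94) (nat_lit 84) (nat_lit 0) (XT.lf (nat_lit 84) (nat_lit 624749254) (nat_lit 0) (nat_lit 81193229) (nat_lit 168) (nat_lit 125619881) (nat_lit 8) (nat_lit 1) (nat_lit 7) (nat_lit 1) (nat_lit 9) (nat_lit 1) (nat_lit 413) (nat_lit 360) (nat_lit 307)) (XT.lf (nat_lit 0) (nat_lit 231817741) (nat_lit 0) (nat_lit 489371534) (nat_lit 168) (nat_lit 88933958) (nat_lit 6) (nat_lit 3) (nat_lit 6) (nat_lit 1) (nat_lit 8) (nat_lit 1) (nat_lit 414) (nat_lit 360) (nat_lit 306))))))) (XT.nd (nat_lit 846) (nat_lit 0) (nat_lit 0) (XT.nd (nat_lit 376) (nat_lit 0) (nat_lit 0) (XT.nd (nat_lit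 188) (nat_lit 252) (nat_lit 0) (XT.nd (nat_lit 94) (nat_lit 84) (nat_lit 0) (XT.lf (nat_lit 84) (nat_lit 646754717) (nat_lit 0) (nat_lit 91289586) (nat_lit 168) (nat_lit 51332082) (nat_lit 5) (nat_lit 1) (nat_lit 4) (nat_lit 1) (nat_lit 6) (nat_lit 1) (nat_lit 415) (nat_lit 360) (nat_lit 305)) (XT.lf (nat_lit 0) (nat_lit 270522918) (nat_lit 0) (nat_lit 480818980) (nat_lit 168) (nat_lit 17716833) (nat_lit 3) (nat_lit 3) (nat_lit 3) (nat_lit 1) (nat_lit 5) (nat_lit 1) (nat_lit 416) (nat_lit 360) (nat_lit 304))) (XT.nd (nat_lit 94) (nat_lit 0) (nat_lit 0) (XT.lf (nat_lit 0) (nat_lit 1087099958) (nat_lit 0) (nat_lit 0) (nat_lit 0) (nat_lit 0) (nat_lit 0) (nat_lit 0) (nat_lit 1) (nat_lit 0) (nat_lit 1) (nat_lit 0) (nat_lit 417) (nat_lit 360) (nat_lit 303)) (XT.lf (nat_lit 0) (nat_lit 1086110466) (nat_lit 0) (nat_lit 0) (nat_lit 0) (nat_lit 0) (nat_lit 0) (nat_lit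 0) (nat_lit 1) (nat_lit 0) (nat_lit 1) (nat_lit 0) (nat_lit 418) (nat_lit 360) (nat_lit 302)))) (XT.nd (nat_lit 188) (nat_lit 0) (nat_lit 0) (XT.nd (nat_lit 94) (nat_lit 0) (nat_lit 0) (XT.lf (nat_lit 0) (nat_lit 1085194271) (nat_lit 0) (nat_lit 0) (nat_lit 0) (nat_lit 0) (nat_lit 0) (nat_lit 0) (nat_lit 1) (nat_lit 0) (nat_lit 1) (nat_lit 0) (nat_lit 419) (nat_lit 360) (nat_lit 301)) (XT.lf (nat_lit 0) (nat_lit 1084345941) (nat_lit 0) (nat_lit 0) (nat_lit 0) (nat_lit 0) (nat_lit 0) (nat_lit 0) (nat_lit 1) (nat_lit 0) (nat_lit 1) (nat_lit 0) (nat_lit 420) (nat_lit 360) (nat_lit 300))) (XT.nd (nat_lit 94) (nat_lit 0) (nat_lit 0) (XT.lf (nat_lit 0) (nat_lit 1083560451) (nat_lit 0) (nat_lit 0) (nat_lit 0) (nat_lit 0) (nat_lit 0) (nat_lit 0) (nat_lit 1) (nat_lit 0) (nat_lit 1) (nat_lit 0) (nat_lit 421) (nat_lit 360) (nat_lit 299)) (XT.nd (nat_lit 94) (nat_lit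 0) (nat_lit 0) (XT.lf (nat_lit 0) (nat_lit 1082833145) (nat_lit 0) (nat_lit 0) (nat_lit 0) (nat_lit 0) (nat_lit 0) (nat_lit 0) (nat_lit 1) (nat_lit 0) (nat_lit 1) (nat_lit 0) (nat_lit 422) (nat_lit 360) (nat_lit 298)) (XT.lf (nat_lit 0) (nat_lit 1082159714) (nat_lit 0) (nat_lit 0) (nat_lit 0) (nat_lit 0) (nat_lit 0) (nat_lit 0) (nat_lit 1) (nat_lit 0) (nat_lit 1) (nat_lit 0) (nat_lit 423) (nat_lit 360) (nat_lit 297)))))) (XT.nd (nat_lit 470) (nat_lit 0) (nat_lit 0) (XT.nd (nat_lit 188) (nat_lit 0) (nat_lit 0) (XT.nd (nat_lit 94) (nat_lit 0) (nat_lit 0) (XT.lf (nat_lit 0) (nat_lit 1081536167) (nat_lit 0) (nat_lit 0) (nat_lit 0) (nat_lit 0) (nat_lit 0) (nat_lit 0) (nat_lit 1) (nat_lit 0) (nat_lit 1) (nat_lit 0) (nat_lit 424) (nat_lit 360) (nat_lit 296)) (XT.lf (nat_lit 0) (nat_lit 1080958808) (nat_lit 0) (nat_lit 0) (nat_lit 0) (nat_lit 0) (nat_lit 0) (nat_lit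 0) (nat_lit 1) (nat_lit 0) (nat_lit 1) (nat_lit 0) (nat_lit 425) (nat_lit 360) (nat_lit 295))) (XT.nd (nat_lit 94) (nat_lit 0) (nat_lit 0) (XT.lf (nat_lit 0) (nat_lit 1080424216) (nat_lit 0) (nat_lit 0) (nat_lit 0) (nat_lit 0) (nat_lit 0) (nat_lit 0) (nat_lit 1) (nat_lit 0) (nat_lit 1) (nat_lit 0) (nat_lit 426) (nat_lit 360) (nat_lit 294)) (XT.nd (nat_lit 94) (nat_lit 0) (nat_lit 0) (XT.lf (nat_lit 0) (nat_lit 1079929224) (nat_lit 0) (nat_lit 0) (nat_lit 0) (nat_lit 0) (nat_lit 0) (nat_lit 0) (nat_lit 1) (nat_lit 0) (nat_lit 1) (nat_lit 0) (nat_lit 427) (nat_lit 360) (nat_lit 293)) (XT.lf (nat_lit 0) (nat_lit 1079470898) (nat_lit 0) (nat_lit 0) (nat_lit 0) (nat_lit 0) (nat_lit 0) (nat_lit 0) (nat_lit 1) (nat_lit 0) (nat_lit 1) (nat_lit 0) (nat_lit 428) (nat_lit 360) (nat_lit 292))))) (XT.nd (nat_lit 61194) (nat_lit 0) (nat_lit 10836) (XT.nd (nat_lit 61100)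 (nat_lit 0) (nat_lit 10752) (XT.lf (nat_lit 0) (nat_lit 1079046522) (nat_lit 0) (nat_lit 0) (nat_lit 0) (nat_lit 0) (nat_lit 0) (nat_lit 0) (nat_lit 1) (nat_lit 0) (nat_lit 1) (nat_lit 0) (nat_lit 429) (nat_lit 360) (nat_lit 291)) (XT.lf (nat_lit 924) (nat_lit 580327878) (nat_lit 0) (nat_lit 1030370814) (nat_lit 924) (nat_lit 580327878) (nat_lit 139) (nat_lit 1) (nat_lit 128) (nat_lit 0) (nat_lit 139) (nat_lit 0) (nat_lit 358) (nat_lit 361) (nat_lit 361))) (XT.nd (nat_lit 94) (nat_lit 0) (nat_lit 0) (XT.lf (nat_lit 924) (nat_lit 216480105) (nat_lit 0) (nat_lit 2022930190) (nat_lit 840) (nat_lit 1978418967) (nat_lit 140) (nat_lit 1) (nat_lit 129) (nat_lit 1) (nat_lit 139) (nat_lit 1) (nat_lit 359) (nat_lit 361) (nat_lit 360)) (XT.nd (nat_lit 94) (nat_lit 0) (nat_lit 84) (XT.lf (nat_lit 924) (nat_lit 1988244816) (nat_lit 84) (nat_lit 1354757030) (nat_lit 0)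 (nat_lit 718501330) (nat_lit 140) (nat_lit 1) (nat_lit 130) (nat_lit 1) (nat_lit 129) (nat_lit 1) (nat_lit 360) (nat_lit 361) (nat_lit 359)) (XT.lf (nat_lit 924) (nat_lit 1718006400) (nat_lit 84) (nat_lit 567769281) (nat_lit 0) (nat_lit 1627224362) (nat_lit 141) (nat_lit 1) (nat_lit 131) (nat_lit 1) (nat_lit 130) (nat_lit 1) (nat_lit 361) (nat_lit 361) (nat_lit 358))))))))
noncomputable def ec29 : XT := (XT.nd (nat_lit 1786) (nat_lit 3444) (nat_lit 0) (XT.nd (nat_lit 846) (nat_lit 3024) (nat_lit 0) (XT.nd (nat_lit 376) (nat_lit 1764) (nat_lit 0) (XT.nd (nat_lit 188) (nat_lit 672) (nat_lit 0) (XT.nd (nat_lit 94) (nat_lit 0) (nat_lit 84) (XT.lf (nat_lit 924) (nat_lit 1271470796) (nat_lit 0) (nat_lit 2378861760) (nat_lit 840) (nat_lit 121607073) (nat_lit 142) (nat_lit 1) (nat_lit 131) (nat_lit 1) (nat_lit 141) (nat_lit 1) (nat_lit 362) (nat_lit 361) (nat_lit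 357)) (XT.lf (nat_lit 924) (nat_lit 305076951) (nat_lit 0) (nat_lit 2623355963) (nat_lit 840) (nat_lit 709182922) (nat_lit 143) (nat_lit 1) (nat_lit 132) (nat_lit 1) (nat_lit 142) (nat_lit 1) (nat_lit 363) (nat_lit 361) (nat_lit 356))) (XT.nd (nat_lit 94) (nat_lit 756) (nat_lit 0) (XT.lf (nat_lit 924) (nat_lit 586233814) (nat_lit 84) (nat_lit 2279909961) (nat_lit 0) (nat_lit 643418719) (nat_lit 143) (nat_lit 1) (nat_lit 133) (nat_lit 1) (nat_lit 132) (nat_lit 1) (nat_lit 364) (nat_lit 361) (nat_lit 355)) (XT.lf (nat_lit 924) (nat_lit 120399057) (nat_lit 0) (nat_lit 1704383506) (nat_lit 840) (nat_lit 1562901817) (nat_lit 134) (nat_lit 1) (nat_lit 123) (nat_lit 1) (nat_lit 133) (nat_lit 1) (nat_lit 365) (nat_lit 361) (nat_lit 354)))) (XT.nd (nat_lit 188) (nat_lit 756) (nat_lit 0) (XT.nd (nat_lit 94) (nat_lit 420) (nat_lit 0) (XT.lf (nat_lit 84) (nat_lit 833668155)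 (nat_lit 0) (nat_lit 361267207) (nat_lit 588) (nat_lit 2076641715) (nat_lit 117) (nat_lit 1) (nat_lit 116) (nat_lit 1) (nat_lit 123) (nat_lit 1) (nat_lit 366) (nat_lit 361) (nat_lit 353)) (XT.lf (nat_lit 504) (nat_lit 2297484504) (nat_lit 0) (nat_lit 747880736) (nat_lit 420) (nat_lit 115626982) (nat_lit 117) (nat_lit 1) (nat_lit 111) (nat_lit 1) (nat_lit 116) (nat_lit 1) (nat_lit 367) (nat_lit 361) (nat_lit 352))) (XT.nd (nat_lit 94) (nat_lit 336) (nat_lit 0) (XT.lf (nat_lit 504) (nat_lit 1657886696) (nat_lit 0) (nat_lit 348590432) (nat_lit 420) (nat_lit 1048685190) (nat_lit 112) (nat_lit 1) (nat_lit 106) (nat_lit 1) (nat_lit 111) (nat_lit 1) (nat_lit 368) (nat_lit 361) (nat_lit 351)) (XT.nd (nat_lit 94) (nat_lit 0) (nat_lit 0) (XT.lf (nat_lit 420) (nat_lit 1008802910) (nat_lit 0) (nat_lit 6418116) (nat_lit 336) (nat_lit 1939242852) (nat_lit 107) (nat_lit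 1) (nat_lit 102) (nat_lit 1) (nat_lit 106) (nat_lit 1) (nat_lit 369) (nat_lit 361) (nat_lit 350)) (XT.lf (nat_lit 84) (nat_lit 74424711) (nat_lit 0) (nat_lit 2509961890) (nat_lit 420) (nat_lit 274011143) (nat_lit 103) (nat_lit 1) (nat_lit 102) (nat_lit 1) (nat_lit 107) (nat_lit 1) (nat_lit 370) (nat_lit 361) (nat_lit 349)))))) (XT.nd (nat_lit 470) (nat_lit 1260) (nat_lit 0) (XT.nd (nat_lit 188) (nat_lit 1008) (nat_lit 0) (XT.nd (nat_lit 94) (nat_lit 336) (nat_lit 0) (XT.lf (nat_lit 84) (nat_lit 1921665345) (nat_lit 0) (nat_lit 318728759) (nat_lit 420) (nat_lit 525641609) (nat_lit 98) (nat_lit 1) (nat_lit 97) (nat_lit 1) (nat_lit 102) (nat_lit 1) (nat_lit 371) (nat_lit 361) (nat_lit 348)) (XT.lf (nat_lit 84) (nat_lit 961457868) (nat_lit 0) (nat_lit 976322768) (nat_lit 420) (nat_lit 739974070) (nat_lit 94) (nat_lit 1) (nat_lit 93) (nat_lit 1) (nat_lit 98) (nat_lit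 1) (nat_lit 372) (nat_lit 361) (nat_lit 347))) (XT.nd (nat_lit 94) (nat_lit 672) (nat_lit 0) (XT.lf (nat_lit 84) (nat_lit 47455428) (nat_lit 0) (nat_lit 1632396509) (nat_lit 420) (nat_lit 913801577) (nat_lit 90) (nat_lit 1) (nat_lit 89) (nat_lit 1) (nat_lit 94) (nat_lit 1) (nat_lit 373) (nat_lit 361) (nat_lit 346)) (XT.nd (nat_lit 94) (nat_lit 420) (nat_lit 0) (XT.lf (nat_lit 336) (nat_lit 214306040) (nat_lit 0) (nat_lit 1449249167) (nat_lit 252) (nat_lit 849293319) (nat_lit 90) (nat_lit 1) (nat_lit 86) (nat_lit 1) (nat_lit 89) (nat_lit 1) (nat_lit 374) (nat_lit 361) (nat_lit 345)) (XT.lf (nat_lit 84) (nat_lit 740484986) (nat_lit 0) (nat_lit 507533010) (nat_lit 420) (nat_lit 1187363740) (nat_lit 82) (nat_lit 1) (nat_lit 81) (nat_lit 1) (nat_lit 86) (nat_lit 1) (nat_lit 375) (nat_lit 361) (nat_lit 344))))) (XT.nd (nat_lit 188) (nat_lit 756) (nat_lit 0) (XT.nd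 (nat_lit 94) (nat_lit 252) (nat_lit 0) (XT.lf (nat_lit 336) (nat_lit 1146448868) (nat_lit 0) (nat_lit 1076940537) (nat_lit 252) (nat_lit 137847110) (nat_lit 82) (nat_lit 1) (nat_lit 78) (nat_lit 1) (nat_lit 81) (nat_lit 1) (nat_lit 376) (nat_lit 361) (nat_lit 343)) (XT.lf (nat_lit 336) (nat_lit 367431323) (nat_lit 0) (nat_lit 927201702) (nat_lit 252) (nat_lit 995307691) (nat_lit 79) (nat_lit 1) (nat_lit 75) (nat_lit 1) (nat_lit 78) (nat_lit 1) (nat_lit 377) (nat_lit 361) (nat_lit 342))) (XT.nd (nat_lit 94) (nat_lit 420) (nat_lit 0) (XT.lf (nat_lit 84) (nat_lit 418782926) (nat_lit 0) (nat_lit 383432161) (nat_lit 336) (nat_lit 1419390879) (nat_lit 72) (nat_lit 1) (nat_lit 71) (nat_lit 1) (nat_lit 75) (nat_lit 1) (nat_lit 378) (nat_lit 361) (nat_lit 341)) (XT.nd (nat_lit 94) (nat_lit 168) (nat_lit 0) (XT.lf (nat_lit 336) (nat_lit 1042086346) (nat_lit 0) (nat_lit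 693365638) (nat_lit 252) (nat_lit 420320529) (nat_lit 72) (nat_lit 1) (nat_lit 68) (nat_lit 1) (nat_lit 71) (nat_lit 1) (nat_lit 379) (nat_lit 361) (nat_lit 340)) (XT.lf (nat_lit 252) (nat_lit 258334743) (nat_lit 0) (nat_lit 604910945) (nat_lit 168) (nat_lit 1229349277) (nat_lit 69) (nat_lit 1) (nat_lit 66) (nat_lit 1) (nat_lit 68) (nat_lit 1) (nat_lit 380) (nat_lit 361) (nat_lit 339))))))) (XT.nd (nat_lit 846) (nat_lit 1596) (nat_lit 0) (XT.nd (nat_lit 376) (nat_lit 924) (nat_lit 0) (XT.nd (nat_lit 188) (nat_lit 420) (nat_lit 0) (XT.nd (nat_lit 94) (nat_lit 168) (nat_lit 0) (XT.lf (nat_lit 84) (nat_lit 43763556) (nat_lit 0) (nat_lit 489723693) (nat_lit 336) (nat_lit 1498379097) (nat_lit 63) (nat_lit 1) (nat_lit 62) (nat_lit 1) (nat_lit 66) (nat_lit 1) (nat_lit 381) (nat_lit 361) (nat_lit 338)) (XT.lf (nat_lit 252) (nat_lit 750673364) (nat_lit 0) (nat_lit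 469106452) (nat_lit 168) (nat_lit 753285715) (nat_lit 63) (nat_lit 1) (nat_lit 60) (nat_lit 1) (nat_lit 62) (nat_lit 1) (nat_lit 382) (nat_lit 361) (nat_lit 337))) (XT.nd (nat_lit 94) (nat_lit 168) (nat_lit 0) (XT.lf (nat_lit 84) (nat_lit 407283996) (nat_lit 0) (nat_lit 18812703) (nat_lit 252) (nat_lit 1490733885) (nat_lit 58) (nat_lit 1) (nat_lit 57) (nat_lit 1) (nat_lit 60) (nat_lit 1) (nat_lit 383) (nat_lit 361) (nat_lit 336)) (XT.lf (nat_lit 252) (nat_lit 1113435799) (nat_lit 0) (nat_lit 385830469) (nat_lit 168) (nat_lit 362965202) (nat_lit 58) (nat_lit 1) (nat_lit 55) (nat_lit 1) (nat_lit 57) (nat_lit 1) (nat_lit 384) (nat_lit 361) (nat_lit 335)))) (XT.nd (nat_lit 188) (nat_lit 504) (nat_lit 0) (XT.nd (nat_lit 94) (nat_lit 252) (nat_lit 0) (XT.lf (nat_lit 252) (nat_lit 345877777) (nat_lit 0) (nat_lit 358672087) (nat_lit 168) (nat_lit 1105170056) (nat_lit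 56) (nat_lit 1) (nat_lit 53) (nat_lit 1) (nat_lit 55) (nat_lit 1) (nat_lit 385) (nat_lit 361) (nat_lit 334)) (XT.lf (nat_lit 252) (nat_lit 1373007663) (nat_lit 0) (nat_lit 342682067) (nat_lit 168) (nat_lit 43473195) (nat_lit 53) (nat_lit 1) (nat_lit 50) (nat_lit 1) (nat_lit 52) (nat_lit 1) (nat_lit 386) (nat_lit 361) (nat_lit 333))) (XT.nd (nat_lit 94) (nat_lit 336) (nat_lit 0) (XT.lf (nat_lit 252) (nat_lit 614494596) (nat_lit 0) (nat_lit 327145840) (nat_lit 168) (nat_lit 768370316) (nat_lit 51) (nat_lit 1) (nat_lit 48) (nat_lit 1) (nat_lit 50) (nat_lit 1) (nat_lit 387) (nat_lit 361) (nat_lit 332)) (XT.nd (nat_lit 94) (nat_lit 168) (nat_lit 0) (XT.lf (nat_lit 84) (nat_lit 210488124) (nat_lit 0) (nat_lit 115693758) (nat_lit 168) (nat_lit 1336715402) (nat_lit 47) (nat_lit 1) (nat_lit 46) (nat_lit 1) (nat_lit 48) (nat_lit 1) (nat_lit 388) (nat_lit 361) (nat_lit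 331)) (XT.lf (nat_lit 252) (nat_lit 806252251) (nat_lit 0) (nat_lit 322727979) (nat_lit 168) (nat_lit 487992449) (nat_lit 47) (nat_lit 1) (nat_lit 44) (nat_lit 1) (nat_lit 46) (nat_lit 1) (nat_lit 389) (nat_lit 361) (nat_lit 330)))))) (XT.nd (nat_lit 470) (nat_lit 840) (nat_lit 0) (XT.nd (nat_lit 188) (nat_lit 420) (nat_lit 0) (XT.nd (nat_lit 94) (nat_lit 252) (nat_lit 0) (XT.lf (nat_lit 168) (nat_lit 86821910) (nat_lit 0) (nat_lit 330654595) (nat_lit 84) (nat_lit 1155384612) (nat_lit 45) (nat_lit 1) (nat_lit 43) (nat_lit 1) (nat_lit 44) (nat_lit 1) (nat_lit 390) (nat_lit 361) (nat_lit 329)) (XT.lf (nat_lit 252) (nat_lit 937210472) (nat_lit 0) (nat_lit 338171415) (nat_lit 168) (nat_lit 254583962) (nat_lit 43) (nat_lit 1) (nat_lit 40) (nat_lit 1) (nat_lit 42) (nat_lit 1) (nat_lit 391) (nat_lit 361) (nat_lit 328))) (XT.nd (nat_lit 94) (nat_lit 336) (nat_lit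 0) (XT.lf (nat_lit 168) (nat_lit 235715344) (nat_lit 0) (nat_lit 350815984) (nat_lit 84) (nat_lit 901984907) (nat_lit 41) (nat_lit 1) (nat_lit 39) (nat_lit 1) (nat_lit 40) (nat_lit 1) (nat_lit 392) (nat_lit 361) (nat_lit 327)) (XT.nd (nat_lit 94) (nat_lit 84) (nat_lit 0) (XT.lf (nat_lit 252) (nat_lit 1020353758) (nat_lit 0) (nat_lit 367735943) (nat_lit 168) (nat_lit 60348616) (nat_lit 39) (nat_lit 1) (nat_lit 36) (nat_lit 1) (nat_lit 38) (nat_lit 1) (nat_lit 393) (nat_lit 361) (nat_lit 326)) (XT.lf (nat_lit 168) (nat_lit 339226719) (nat_lit 0) (nat_lit 383369140) (nat_lit 84) (nat_lit 686838922) (nat_lit 37) (nat_lit 1) (nat_lit 35) (nat_lit 1) (nat_lit 36) (nat_lit 1) (nat_lit 394) (nat_lit 361) (nat_lit 325))))) (XT.nd (nat_lit 188) (nat_lit 504) (nat_lit 0) (XT.nd (nat_lit 94) (nat_lit 84) (nat_lit 0) (XT.lf (nat_lit 84) (nat_lit 97914331) (nat_lit 0) (nat_lit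 307326985) (nat_lit 252) (nat_lit 966591133) (nat_lit 33) (nat_lit 1) (nat_lit 32) (nat_lit 1) (nat_lit 35) (nat_lit 1) (nat_lit 395) (nat_lit 361) (nat_lit 324)) (XT.lf (nat_lit 168) (nat_lit 407102669) (nat_lit 0) (nat_lit 424181685) (nat_lit 84) (nat_lit 503879594) (nat_lit 33) (nat_lit 1) (nat_lit 31) (nat_lit 1) (nat_lit 32) (nat_lit 1) (nat_lit 396) (nat_lit 361) (nat_lit 323))) (XT.nd (nat_lit 94) (nat_lit 252) (nat_lit 0) (XT.lf (nat_lit 84) (nat_lit 227712275) (nat_lit 0) (nat_lit 220554737) (nat_lit 252) (nat_lit 851517055) (nat_lit 29) (nat_lit 1) (nat_lit 28) (nat_lit 1) (nat_lit 31) (nat_lit 1) (nat_lit 397) (nat_lit 361) (nat_lit 322)) (XT.nd (nat_lit 94) (nat_lit 168) (nat_lit 0) (XT.lf (nat_lit 168) (nat_lit 447203195) (nat_lit 0) (nat_lit 470027833) (nat_lit 84) (nat_lit 348077101) (nat_lit 29) (nat_lit 1) (nat_lit 27) (nat_lit 1) (nat_lit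 28) (nat_lit 1) (nat_lit 398) (nat_lit 361) (nat_lit 321)) (XT.lf (nat_lit 84) (nat_lit 335245126) (nat_lit 0) (nat_lit 159738304) (nat_lit 168) (nat_lit 736987344) (nat_lit 26) (nat_lit 1) (nat_lit 25) (nat_lit 1) (nat_lit 27) (nat_lit 1) (nat_lit 399) (nat_lit 361) (nat_lit 320))))))))
noncomputable def ec30 : XT := (XT.nd (nat_lit 1692) (nat_lit 0) (nat_lit 0) (XT.nd (nat_lit 846) (nat_lit 1008) (nat_lit 0) (XT.nd (nat_lit 376) (nat_lit 588) (nat_lit 0) (XT.nd (nat_lit 188) (nat_lit 252) (nat_lit 0) (XT.nd (nat_lit 94) (nat_lit 168) (nat_lit 0) (XT.lf (nat_lit 168) (nat_lit 465854196) (nat_lit 0) (nat_lit 518411700) (nat_lit 84) (nat_lit 215253839) (nat_lit 26) (nat_lit 1) (nat_lit 24) (nat_lit 1) (nat_lit 25) (nat_lit 1) (nat_lit 400) (nat_lit 361) (nat_lit 319)) (XT.lf (nat_lit 84) (nat_lit 424053914) (nat_lit 0) (nat_lit 119166857) (nat_lit 168) (nat_lit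 624846085) (nat_lit 23) (nat_lit 1) (nat_lit 22) (nat_lit 1) (nat_lit 24) (nat_lit 1) (nat_lit 401) (nat_lit 361) (nat_lit 318))) (XT.nd (nat_lit 94) (nat_lit 168) (nat_lit 0) (XT.lf (nat_lit 168) (nat_lit 468134919) (nat_lit 0) (nat_lit 567423699) (nat_lit 84) (nat_lit 101933003) (nat_lit 23) (nat_lit 1) (nat_lit 21) (nat_lit 1) (nat_lit 22) (nat_lit 1) (nat_lit 402) (nat_lit 361) (nat_lit 317)) (XT.lf (nat_lit 84) (nat_lit 497081632) (nat_lit 0) (nat_lit 94248360) (nat_lit 168) (nat_lit 516453595) (nat_lit 20) (nat_lit 1) (nat_lit 19) (nat_lit 1) (nat_lit 21) (nat_lit 1) (nat_lit 403) (nat_lit 361) (nat_lit 316)))) (XT.nd (nat_lit 188) (nat_lit 336) (nat_lit 0) (XT.nd (nat_lit 94) (nat_lit 168) (nat_lit 0) (XT.lf (nat_lit 168) (nat_lit 458112295) (nat_lit 0) (nat_lit 615623929) (nat_lit 84) (nat_lit 5214633) (nat_lit 20) (nat_lit 1) (nat_lit 18) (nat_lit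 1) (nat_lit 19) (nat_lit 1) (nat_lit 404) (nat_lit 361) (nat_lit 315)) (XT.lf (nat_lit 84) (nat_lit 556779092) (nat_lit 0) (nat_lit 81299493) (nat_lit 168) (nat_lit 412785002) (nat_lit 17) (nat_lit 1) (nat_lit 16) (nat_lit 1) (nat_lit 18) (nat_lit 1) (nat_lit 405) (nat_lit 361) (nat_lit 314))) (XT.nd (nat_lit 94) (nat_lit 252) (nat_lit 0) (XT.lf (nat_lit 0) (nat_lit 74850991) (nat_lit 0) (nat_lit 585828912) (nat_lit 168) (nat_lit 362913301) (nat_lit 15) (nat_lit 3) (nat_lit 15) (nat_lit 1) (nat_lit 17) (nat_lit 1) (nat_lit 406) (nat_lit 361) (nat_lit 313)) (XT.nd (nat_lit 94) (nat_lit 84) (nat_lit 0) (XT.lf (nat_lit 84) (nat_lit 605191623) (nat_lit 0) (nat_lit 77374433) (nat_lit 168) (nat_lit 314510116) (nat_lit 14) (nat_lit 1) (nat_lit 13) (nat_lit 1) (nat_lit 15) (nat_lit 1) (nat_lit 407) (nat_lit 361) (nat_lit 312)) (XT.lf (nat_lit 0) (nat_lit 142993084)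 (nat_lit 0) (nat_lit 560213283) (nat_lit 168) (nat_lit 268058982) (nat_lit 12) (nat_lit 3) (nat_lit 12) (nat_lit 1) (nat_lit 14) (nat_lit 1) (nat_lit 408) (nat_lit 361) (nat_lit 311)))))) (XT.nd (nat_lit 376) (nat_lit 504) (nat_lit 0) (XT.nd (nat_lit 188) (nat_lit 252) (nat_lit 0) (XT.nd (nat_lit 94) (nat_lit 84) (nat_lit 0) (XT.lf (nat_lit 84) (nat_lit 644030104) (nat_lit 0) (nat_lit 80125336) (nat_lit 168) (nat_lit 222058058) (nat_lit 11) (nat_lit 1) (nat_lit 10) (nat_lit 1) (nat_lit 12) (nat_lit 1) (nat_lit 409) (nat_lit 361) (nat_lit 310)) (XT.lf (nat_lit 0) (nat_lit 201032363) (nat_lit 0) (nat_lit 541698147) (nat_lit 168) (nat_lit 179041685) (nat_lit 9) (nat_lit 3) (nat_lit 9) (nat_lit 1) (nat_lit 11) (nat_lit 1) (nat_lit 410) (nat_lit 361) (nat_lit 309))) (XT.nd (nat_lit 94) (nat_lit 84) (nat_lit 0) (XT.lf (nat_lit 84) (nat_lit 674729194) (nat_lit 0)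 (nat_lit 87688687) (nat_lit 168) (nat_lit 135669472) (nat_lit 8) (nat_lit 1) (nat_lit 7) (nat_lit 1) (nat_lit 9) (nat_lit 1) (nat_lit 411) (nat_lit 361) (nat_lit 308)) (XT.lf (nat_lit 0) (nat_lit 250363161) (nat_lit 0) (nat_lit 528521257) (nat_lit 168) (nat_lit 96048674) (nat_lit 6) (nat_lit 3) (nat_lit 6) (nat_lit 1) (nat_lit 8) (nat_lit 1) (nat_lit 412) (nat_lit 361) (nat_lit 307)))) (XT.nd (nat_lit 188) (nat_lit 252) (nat_lit 0) (XT.nd (nat_lit 94) (nat_lit 84) (nat_lit 0) (XT.lf (nat_lit 84) (nat_lit 698495094) (nat_lit 0) (nat_lit 98592753) (nat_lit 168) (nat_lit 55438648) (nat_lit 5) (nat_lit 1) (nat_lit 4) (nat_lit 1) (nat_lit 6) (nat_lit 1) (nat_lit 413) (nat_lit 361) (nat_lit 306)) (XT.lf (nat_lit 0) (nat_lit 292164751) (nat_lit 0) (nat_lit 519284498) (nat_lit 168) (nat_lit 19134179) (nat_lit 3) (nat_lit 3) (nat_lit 3) (nat_lit 1) (nat_lit 5) (nat_lit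 1) (nat_lit 414) (nat_lit 361) (nat_lit 305))) (XT.nd (nat_lit 94) (nat_lit 0) (nat_lit 0) (XT.lf (nat_lit 0) (nat_lit 1174067955) (nat_lit 0) (nat_lit 0) (nat_lit 0) (nat_lit 0) (nat_lit 0) (nat_lit 0) (nat_lit 1) (nat_lit 0) (nat_lit 1) (nat_lit 0) (nat_lit 415) (nat_lit 361) (nat_lit 304)) (XT.nd (nat_lit 94) (nat_lit 0) (nat_lit 0) (XT.lf (nat_lit 0) (nat_lit 1172999304) (nat_lit 0) (nat_lit 0) (nat_lit 0) (nat_lit 0) (nat_lit 0) (nat_lit 0) (nat_lit 1) (nat_lit 0) (nat_lit 1) (nat_lit 0) (nat_lit 416) (nat_lit 361) (nat_lit 303)) (XT.lf (nat_lit 0) (nat_lit 1172009812) (nat_lit 0) (nat_lit 0) (nat_lit 0) (nat_lit 0) (nat_lit 0) (nat_lit 0) (nat_lit 1) (nat_lit 0) (nat_lit 1) (nat_lit 0) (nat_lit 417) (nat_lit 361) (nat_lit 302))))))) (XT.nd (nat_lit 846) (nat_lit 0) (nat_lit 0) (XT.nd (nat_lit 376) (nat_lit 0) (nat_lit 0) (XT.nd (nat_lit 188) (nat_lit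 0) (nat_lit 0) (XT.nd (nat_lit 94) (nat_lit 0) (nat_lit 0) (XT.lf (nat_lit 0) (nat_lit 1171093617) (nat_lit 0) (nat_lit 0) (nat_lit 0) (nat_lit 0) (nat_lit 0) (nat_lit 0) (nat_lit 1) (nat_lit 0) (nat_lit 1) (nat_lit 0) (nat_lit 418) (nat_lit 361) (nat_lit 301)) (XT.lf (nat_lit 0) (nat_lit 1170245287) (nat_lit 0) (nat_lit 0) (nat_lit 0) (nat_lit 0) (nat_lit 0) (nat_lit 0) (nat_lit 1) (nat_lit 0) (nat_lit 1) (nat_lit 0) (nat_lit 419) (nat_lit 361) (nat_lit 300))) (XT.nd (nat_lit 94) (nat_lit 0) (nat_lit 0) (XT.lf (nat_lit 0) (nat_lit 1169459797) (nat_lit 0) (nat_lit 0) (nat_lit 0) (nat_lit 0) (nat_lit 0) (nat_lit 0) (nat_lit 1) (nat_lit 0) (nat_lit 1) (nat_lit 0) (nat_lit 420) (nat_lit 361) (nat_lit 299)) (XT.lf (nat_lit 0) (nat_lit 1168732491) (nat_lit 0) (nat_lit 0) (nat_lit 0) (nat_lit 0) (nat_lit 0) (nat_lit 0) (nat_lit 1) (nat_lit 0) (nat_lit 1) (nat_lit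 0) (nat_lit 421) (nat_lit 361) (nat_lit 298)))) (XT.nd (nat_lit 188) (nat_lit 0) (nat_lit 0) (XT.nd (nat_lit 94) (nat_lit 0) (nat_lit 0) (XT.lf (nat_lit 0) (nat_lit 1168059060) (nat_lit 0) (nat_lit 0) (nat_lit 0) (nat_lit 0) (nat_lit 0) (nat_lit 0) (nat_lit 1) (nat_lit 0) (nat_lit 1) (nat_lit 0) (nat_lit 422) (nat_lit 361) (nat_lit 297)) (XT.lf (nat_lit 0) (nat_lit 1167435513) (nat_lit 0) (nat_lit 0) (nat_lit 0) (nat_lit 0) (nat_lit 0) (nat_lit 0) (nat_lit 1) (nat_lit 0) (nat_lit 1) (nat_lit 0) (nat_lit 423) (nat_lit 361) (nat_lit 296))) (XT.nd (nat_lit 94) (nat_lit 0) (nat_lit 0) (XT.lf (nat_lit 0) (nat_lit 1166858154) (nat_lit 0) (nat_lit 0) (nat_lit 0) (nat_lit 0) (nat_lit 0) (nat_lit 0) (nat_lit 1) (nat_lit 0) (nat_lit 1) (nat_lit 0) (nat_lit 424) (nat_lit 361) (nat_lit 295)) (XT.nd (nat_lit 94) (nat_lit 0) (nat_lit 0) (XT.lf (nat_lit 0) (nat_lit 1166323562)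 (nat_lit 0) (nat_lit 0) (nat_lit 0) (nat_lit 0) (nat_lit 0) (nat_lit 0) (nat_lit 1) (nat_lit 0) (nat_lit 1) (nat_lit 0) (nat_lit 425) (nat_lit 361) (nat_lit 294)) (XT.lf (nat_lit 0) (nat_lit 1165828570) (nat_lit 0) (nat_lit 0) (nat_lit 0) (nat_lit 0) (nat_lit 0) (nat_lit 0) (nat_lit 1) (nat_lit 0) (nat_lit 1) (nat_lit 0) (nat_lit 426) (nat_lit 361) (nat_lit 293)))))) (XT.nd (nat_lit 61288) (nat_lit 0) (nat_lit 10836) (XT.nd (nat_lit 188) (nat_lit 0) (nat_lit 0) (XT.nd (nat_lit 94) (nat_lit 0) (nat_lit 0) (XT.lf (nat_lit 0) (nat_lit 1165370244) (nat_lit 0) (nat_lit 0) (nat_lit 0) (nat_lit 0) (nat_lit 0) (nat_lit 0) (nat_lit 1) (nat_lit 0) (nat_lit 1) (nat_lit 0) (nat_lit 427) (nat_lit 361) (nat_lit 292)) (XT.lf (nat_lit 0) (nat_lit 1164945868) (nat_lit 0) (nat_lit 0) (nat_lit 0) (nat_lit 0) (nat_lit 0) (nat_lit 0) (nat_lit 1) (nat_lit 0) (nat_lit 1) (nat_lit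 0) (nat_lit 428) (nat_lit 361) (nat_lit 291))) (XT.nd (nat_lit 60912) (nat_lit 0) (nat_lit 10752) (XT.lf (nat_lit 0) (nat_lit 1164552928) (nat_lit 0) (nat_lit 0) (nat_lit 0) (nat_lit 0) (nat_lit 0) (nat_lit 0) (nat_lit 1) (nat_lit 0) (nat_lit 1) (nat_lit 0) (nat_lit 429) (nat_lit 361) (nat_lit 290)) (XT.nd (nat_lit 94) (nat_lit 0) (nat_lit 84) (XT.lf (nat_lit 924) (nat_lit 626754109) (nat_lit 0) (nat_lit 1112800480) (nat_lit 924) (nat_lit 626754109) (nat_lit 139) (nat_lit 1) (nat_lit 128) (nat_lit 0) (nat_lit 139) (nat_lit 0) (nat_lit 356) (nat_lit 362) (nat_lit 362)) (XT.lf (nat_lit 924) (nat_lit 233798514) (nat_lit 0) (nat_lit 2184764605) (nat_lit 840) (nat_lit 2136692485) (nat_lit 140) (nat_lit 1) (nat_lit 129) (nat_lit 1) (nat_lit 139) (nat_lit 1) (nat_lit 357) (nat_lit 362) (nat_lit 361))))) (XT.nd (nat_lit 188) (nat_lit 0) (nat_lit 168) (XT.nd (nat_lit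 94) (nat_lit 0) (nat_lit 84) (XT.lf (nat_lit 924) (nat_lit 2147304401) (nat_lit 84) (nat_lit 1463137592) (nat_lit 0) (nat_lit 775981436) (nat_lit 140) (nat_lit 1) (nat_lit 130) (nat_lit 1) (nat_lit 129) (nat_lit 1) (nat_lit 358) (nat_lit 362) (nat_lit 360)) (XT.lf (nat_lit 924) (nat_lit 1855446912) (nat_lit 84) (nat_lit 613190823) (nat_lit 0) (nat_lit 1757402310) (nat_lit 141) (nat_lit 1) (nat_lit 131) (nat_lit 1) (nat_lit 130) (nat_lit 1) (nat_lit 359) (nat_lit 362) (nat_lit 359))) (XT.nd (nat_lit 94) (nat_lit 0) (nat_lit 84) (XT.lf (nat_lit 924) (nat_lit 1373188460) (nat_lit 0) (nat_lit 2569170700) (nat_lit 840) (nat_lit 131335639) (nat_lit 142) (nat_lit 1) (nat_lit 131) (nat_lit 1) (nat_lit 141) (nat_lit 1) (nat_lit 360) (nat_lit 362) (nat_lit 358)) (XT.nd (nat_lit 94) (nat_lit 0) (nat_lit 0) (XT.lf (nat_lit 924) (nat_lit 329483107) (nat_lit 0) (nat_lit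 2833224440) (nat_lit 840) (nat_lit 765917556) (nat_lit 143) (nat_lit 1) (nat_lit 132) (nat_lit 1) (nat_lit 142) (nat_lit 1) (nat_lit 361) (nat_lit 362) (nat_lit 357)) (XT.lf (nat_lit 924) (nat_lit 633132519) (nat_lit 84) (nat_lit 2462302758) (nat_lit 0) (nat_lit 694892217) (nat_lit 143) (nat_lit 1) (nat_lit 133) (nat_lit 1) (nat_lit 132) (nat_lit 1) (nat_lit 362) (nat_lit 362) (nat_lit 356))))))))
noncomputable def ec31 : XT := (XT.nd (nat_lit 1786) (nat_lit 3024) (nat_lit 0) (XT.nd (nat_lit 846) (nat_lit 2688) (nat_lit 0) (XT.nd (nat_lit 376) (nat_lit 1428) (nat_lit 0) (XT.nd (nat_lit 188) (nat_lit 840) (nat_lit 0) (XT.nd (nat_lit 94) (nat_lit 588) (nat_lit 0) (XT.lf (nat_lit 924) (nat_lit 130030982) (nat_lit 0) (nat_lit 1840734187) (nat_lit 840) (nat_lit 1687933962) (nat_lit 134) (nat_lit 1) (nat_lit 123) (nat_lit 1) (nat_lit 133) (nat_lit 1) (nat_lit 363)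 (nat_lit 362) (nat_lit 355)) (XT.lf (nat_lit 84) (nat_lit 900361607) (nat_lit 0) (nat_lit 390168584) (nat_lit 588) (nat_lit 2242773052) (nat_lit 117) (nat_lit 1) (nat_lit 116) (nat_lit 1) (nat_lit 123) (nat_lit 1) (nat_lit 364) (nat_lit 362) (nat_lit 354))) (XT.nd (nat_lit 94) (nat_lit 420) (nat_lit 0) (XT.lf (nat_lit 504) (nat_lit 2481283264) (nat_lit 0) (nat_lit 807711194) (nat_lit 420) (nat_lit 124877141) (nat_lit 117) (nat_lit 1) (nat_lit 111) (nat_lit 1) (nat_lit 116) (nat_lit 1) (nat_lit 365) (nat_lit 362) (nat_lit 353)) (XT.lf (nat_lit 504) (nat_lit 1790517632) (nat_lit 0) (nat_lit 376477667) (nat_lit 420) (nat_lit 1132580005) (nat_lit 112) (nat_lit 1) (nat_lit 106) (nat_lit 1) (nat_lit 111) (nat_lit 1) (nat_lit 366) (nat_lit 362) (nat_lit 352)))) (XT.nd (nat_lit 188) (nat_lit 1092) (nat_lit 0) (XT.nd (nat_lit 94) (nat_lit 0) (nat_lit 0) (XT.lf (nat_lit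 420) (nat_lit 1089507143) (nat_lit 0) (nat_lit 6931565) (nat_lit 336) (nat_lit 2094382280) (nat_lit 107) (nat_lit 1) (nat_lit 102) (nat_lit 1) (nat_lit 106) (nat_lit 1) (nat_lit 367) (nat_lit 362) (nat_lit 351)) (XT.lf (nat_lit 84) (nat_lit 80378688) (nat_lit 0) (nat_lit 2710758842) (nat_lit 420) (nat_lit 295932035) (nat_lit 103) (nat_lit 1) (nat_lit 102) (nat_lit 1) (nat_lit 107) (nat_lit 1) (nat_lit 368) (nat_lit 362) (nat_lit 350))) (XT.nd (nat_lit 94) (nat_lit 672) (nat_lit 0) (XT.lf (nat_lit 84) (nat_lit 2075398572) (nat_lit 0) (nat_lit 344227059) (nat_lit 420) (nat_lit 567692938) (nat_lit 98) (nat_lit 1) (nat_lit 97) (nat_lit 1) (nat_lit 102) (nat_lit 1) (nat_lit 369) (nat_lit 362) (nat_lit 349)) (XT.nd (nat_lit 94) (nat_lit 336) (nat_lit 0) (XT.lf (nat_lit 84) (nat_lit 1038374497) (nat_lit 0) (nat_lit 1054428590) (nat_lit 420) (nat_lit 799171995) (nat_lit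 94) (nat_lit 1) (nat_lit 93) (nat_lit 1) (nat_lit 98) (nat_lit 1) (nat_lit 370) (nat_lit 362) (nat_lit 348)) (XT.lf (nat_lit 84) (nat_lit 51251862) (nat_lit 0) (nat_lit 1762988230) (nat_lit 420) (nat_lit 986905703) (nat_lit 90) (nat_lit 1) (nat_lit 89) (nat_lit 1) (nat_lit 94) (nat_lit 1) (nat_lit 371) (nat_lit 362) (nat_lit 347)))))) (XT.nd (nat_lit 470) (nat_lit 1176) (nat_lit 0) (XT.nd (nat_lit 188) (nat_lit 840) (nat_lit 0) (XT.nd (nat_lit 94) (nat_lit 420) (nat_lit 0) (XT.lf (nat_lit 336) (nat_lit 231450523) (nat_lit 0) (nat_lit 1565189100) (nat_lit 252) (nat_lit 917236784) (nat_lit 90) (nat_lit 1) (nat_lit 86) (nat_lit 1) (nat_lit 89) (nat_lit 1) (nat_lit 372) (nat_lit 362) (nat_lit 346)) (XT.lf (nat_lit 84) (nat_lit 799723785) (nat_lit 0) (nat_lit 548135651) (nat_lit 420) (nat_lit 1282352839) (nat_lit 82) (nat_lit 1) (nat_lit 81) (nat_lit 1) (nat_lit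 86) (nat_lit 1) (nat_lit 373) (nat_lit 362) (nat_lit 345))) (XT.nd (nat_lit 94) (nat_lit 588) (nat_lit 0) (XT.lf (nat_lit 336) (nat_lit 1238164778) (nat_lit 0) (nat_lit 1163095780) (nat_lit 252) (nat_lit 148874879) (nat_lit 82) (nat_lit 1) (nat_lit 78) (nat_lit 1) (nat_lit 81) (nat_lit 1) (nat_lit 374) (nat_lit 362) (nat_lit 344)) (XT.nd (nat_lit 94) (nat_lit 336) (nat_lit 0) (XT.lf (nat_lit 336) (nat_lit 396825829) (nat_lit 0) (nat_lit 1001377838) (nat_lit 252) (nat_lit 1074932306) (nat_lit 79) (nat_lit 1) (nat_lit 75) (nat_lit 1) (nat_lit 78) (nat_lit 1) (nat_lit 375) (nat_lit 362) (nat_lit 343)) (XT.lf (nat_lit 84) (nat_lit 452285560) (nat_lit 0) (nat_lit 414106734) (nat_lit 336) (nat_lit 1532942149) (nat_lit 72) (nat_lit 1) (nat_lit 71) (nat_lit 1) (nat_lit 75) (nat_lit 1) (nat_lit 376) (nat_lit 362) (nat_lit 342))))) (XT.nd (nat_lit 188) (nat_lit 756)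 (nat_lit 0) (XT.nd (nat_lit 94) (nat_lit 168) (nat_lit 0) (XT.lf (nat_lit 336) (nat_lit 1125453254) (nat_lit 0) (nat_lit 748834889) (nat_lit 252) (nat_lit 453946171) (nat_lit 72) (nat_lit 1) (nat_lit 68) (nat_lit 1) (nat_lit 71) (nat_lit 1) (nat_lit 377) (nat_lit 362) (nat_lit 341)) (XT.lf (nat_lit 252) (nat_lit 279001523) (nat_lit 0) (nat_lit 653303820) (nat_lit 168) (nat_lit 1327697219) (nat_lit 69) (nat_lit 1) (nat_lit 66) (nat_lit 1) (nat_lit 68) (nat_lit 1) (nat_lit 378) (nat_lit 362) (nat_lit 340))) (XT.nd (nat_lit 94) (nat_lit 420) (nat_lit 0) (XT.lf (nat_lit 84) (nat_lit 47264640) (nat_lit 0) (nat_lit 528901588) (nat_lit 336) (nat_lit 1618249425) (nat_lit 63) (nat_lit 1) (nat_lit 62) (nat_lit 1) (nat_lit 66) (nat_lit 1) (nat_lit 379) (nat_lit 362) (nat_lit 339)) (XT.nd (nat_lit 94) (nat_lit 252) (nat_lit 0) (XT.lf (nat_lit 252) (nat_lit 810727234)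 (nat_lit 0) (nat_lit 506634969) (nat_lit 168) (nat_lit 813548573) (nat_lit 63) (nat_lit 1) (nat_lit 60) (nat_lit 1) (nat_lit 62) (nat_lit 1) (nat_lit 380) (nat_lit 362) (nat_lit 338)) (XT.lf (nat_lit 84) (nat_lit 439866716) (nat_lit 0) (nat_lit 20317719) (nat_lit 252) (nat_lit 1609992596) (nat_lit 58) (nat_lit 1) (nat_lit 57) (nat_lit 1) (nat_lit 60) (nat_lit 1) (nat_lit 381) (nat_lit 362) (nat_lit 337))))))) (XT.nd (nat_lit 846) (nat_lit 1512) (nat_lit 0) (XT.nd (nat_lit 376) (nat_lit 756) (nat_lit 0) (XT.nd (nat_lit 188) (nat_lit 420) (nat_lit 0) (XT.nd (nat_lit 94) (nat_lit 168) (nat_lit 0) (XT.lf (nat_lit 252) (nat_lit 1202510663) (nat_lit 0) (nat_lit 416696907) (nat_lit 168) (nat_lit 392002418) (nat_lit 58) (nat_lit 1) (nat_lit 55) (nat_lit 1) (nat_lit 57) (nat_lit 1) (nat_lit 382) (nat_lit 362) (nat_lit 336)) (XT.lf (nat_lit 252) (nat_lit 373547999)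 (nat_lit 0) (nat_lit 387365854) (nat_lit 168) (nat_lit 1193583660) (nat_lit 56) (nat_lit 1) (nat_lit 53) (nat_lit 1) (nat_lit 55) (nat_lit 1) (nat_lit 383) (nat_lit 362) (nat_lit 335))) (XT.nd (nat_lit 94) (nat_lit 168) (nat_lit 0) (XT.lf (nat_lit 252) (nat_lit 1482848277) (nat_lit 0) (nat_lit 370096633) (nat_lit 168) (nat_lit 46951051) (nat_lit 53) (nat_lit 1) (nat_lit 50) (nat_lit 1) (nat_lit 52) (nat_lit 1) (nat_lit 384) (nat_lit 362) (nat_lit 334)) (XT.lf (nat_lit 252) (nat_lit 663654164) (nat_lit 0) (nat_lit 353317507) (nat_lit 168) (nat_lit 829839941) (nat_lit 51) (nat_lit 1) (nat_lit 48) (nat_lit 1) (nat_lit 50) (nat_lit 1) (nat_lit 385) (nat_lit 362) (nat_lit 333)))) (XT.nd (nat_lit 188) (nat_lit 420) (nat_lit 0) (XT.nd (nat_lit 94) (nat_lit 168) (nat_lit 0) (XT.lf (nat_lit 84) (nat_lit 227327174) (nat_lit 0) (nat_lit 124949258) (nat_lit 168) (nat_lit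 1443652634) (nat_lit 47) (nat_lit 1) (nat_lit 46) (nat_lit 1) (nat_lit 48) (nat_lit 1) (nat_lit 386) (nat_lit 362) (nat_lit 332)) (XT.lf (nat_lit 252) (nat_lit 870752431) (nat_lit 0) (nat_lit 348546217) (nat_lit 168) (nat_lit 527031845) (nat_lit 47) (nat_lit 1) (nat_lit 44) (nat_lit 1) (nat_lit 46) (nat_lit 1) (nat_lit 387) (nat_lit 362) (nat_lit 331))) (XT.nd (nat_lit 94) (nat_lit 336) (nat_lit 0) (XT.lf (nat_lit 168) (nat_lit 93767663) (nat_lit 0) (nat_lit 357106963) (nat_lit 84) (nat_lit 1247815381) (nat_lit 45) (nat_lit 1) (nat_lit 43) (nat_lit 1) (nat_lit 44) (nat_lit 1) (nat_lit 388) (nat_lit 362) (nat_lit 330)) (XT.nd (nat_lit 94) (nat_lit 84) (nat_lit 0) (XT.lf (nat_lit 252) (nat_lit 1012187310) (nat_lit 0) (nat_lit 365225128) (nat_lit 168) (nat_lit 274950679) (nat_lit 43) (nat_lit 1) (nat_lit 40) (nat_lit 1) (nat_lit 42) (nat_lit 1) (nat_lit 389)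 (nat_lit 362) (nat_lit 329)) (XT.lf (nat_lit 168) (nat_lit 254572572) (nat_lit 0) (nat_lit 378881263) (nat_lit 84) (nat_lit 974143700) (nat_lit 41) (nat_lit 1) (nat_lit 39) (nat_lit 1) (nat_lit 40) (nat_lit 1) (nat_lit 390) (nat_lit 362) (nat_lit 328)))))) (XT.nd (nat_lit 470) (nat_lit 588) (nat_lit 0) (XT.nd (nat_lit 188) (nat_lit 588) (nat_lit 0) (XT.nd (nat_lit 94) (nat_lit 84) (nat_lit 0) (XT.lf (nat_lit 252) (nat_lit 1101982059) (nat_lit 0) (nat_lit 397154819) (nat_lit 168) (nat_lit 65176505) (nat_lit 39) (nat_lit 1) (nat_lit 36) (nat_lit 1) (nat_lit 38) (nat_lit 1) (nat_lit 391) (nat_lit 362) (nat_lit 327)) (XT.lf (nat_lit 168) (nat_lit 366364856) (nat_lit 0) (nat_lit 414038671) (nat_lit 84) (nat_lit 741786036) (nat_lit 37) (nat_lit 1) (nat_lit 35) (nat_lit 1) (nat_lit 36) (nat_lit 1) (nat_lit 392) (nat_lit 362) (nat_lit 326))) (XT.nd (nat_lit 94) (nat_lit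 336) (nat_lit 0) (XT.lf (nat_lit 84) (nat_lit 105747477) (nat_lit 0) (nat_lit 331913144) (nat_lit 252) (nat_lit 1043918424) (nat_lit 33) (nat_lit 1) (nat_lit 32) (nat_lit 1) (nat_lit 35) (nat_lit 1) (nat_lit 393) (nat_lit 362) (nat_lit 325)) (XT.nd (nat_lit 94) (nat_lit 252) (nat_lit 0) (XT.lf (nat_lit 168) (nat_lit 439670882) (nat_lit 0) (nat_lit 458116219) (nat_lit 84) (nat_lit 544189962) (nat_lit 33) (nat_lit 1) (nat_lit 31) (nat_lit 1) (nat_lit 32) (nat_lit 1) (nat_lit 394) (nat_lit 362) (nat_lit 324)) (XT.lf (nat_lit 84) (nat_lit 245929257) (nat_lit 0) (nat_lit 238199116) (nat_lit 252) (nat_lit 919638420) (nat_lit 29) (nat_lit 1) (nat_lit 28) (nat_lit 1) (nat_lit 31) (nat_lit 1) (nat_lit 395) (nat_lit 362) (nat_lit 323))))) (XT.nd (nat_lit 188) (nat_lit 336) (nat_lit 0) (XT.nd (nat_lit 94) (nat_lit 168) (nat_lit 0) (XT.lf (nat_lit 168) (nat_lit 482979451)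 (nat_lit 0) (nat_lit 507630060) (nat_lit 84) (nat_lit 375923269) (nat_lit 29) (nat_lit 1) (nat_lit 27) (nat_lit 1) (nat_lit 28) (nat_lit 1) (nat_lit 396) (nat_lit 362) (nat_lit 322)) (XT.lf (nat_lit 84) (nat_lit 362064736) (nat_lit 0) (nat_lit 172517368) (nat_lit 168) (nat_lit 795946331) (nat_lit 26) (nat_lit 1) (nat_lit 25) (nat_lit 1) (nat_lit 27) (nat_lit 1) (nat_lit 397) (nat_lit 362) (nat_lit 321))) (XT.nd (nat_lit 94) (nat_lit 252) (nat_lit 0) (XT.lf (nat_lit 168) (nat_lit 503122532) (nat_lit 0) (nat_lit 559884636) (nat_lit 84) (nat_lit 232474146) (nat_lit 26) (nat_lit 1) (nat_lit 24) (nat_lit 1) (nat_lit 25) (nat_lit 1) (nat_lit 398) (nat_lit 362) (nat_lit 320)) (XT.nd (nat_lit 94) (nat_lit 84) (nat_lit 0) (XT.lf (nat_lit 84) (nat_lit 457978227) (nat_lit 0) (nat_lit 128700206) (nat_lit 168) (nat_lit 674833772) (nat_lit 23) (nat_lit 1) (nat_lit 22) (nat_lit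 1) (nat_lit 24) (nat_lit 1) (nat_lit 399) (nat_lit 362) (nat_lit 319)) (XT.lf (nat_lit 168) (nat_lit 505585713) (nat_lit 0) (nat_lit 612817595) (nat_lit 84) (nat_lit 110087643) (nat_lit 23) (nat_lit 1) (nat_lit 21) (nat_lit 1) (nat_lit 22) (nat_lit 1) (nat_lit 400) (nat_lit 362) (nat_lit 318))))))))
noncomputable def ec32 : XT := (XT.nd (nat_lit 1692) (nat_lit 0) (nat_lit 0) (XT.nd (nat_lit 846) (nat_lit 588) (nat_lit 0) (XT.nd (nat_lit 376) (nat_lit 672) (nat_lit 0) (XT.nd (nat_lit 188) (nat_lit 252) (nat_lit 0) (XT.nd (nat_lit 94) (nat_lit 84) (nat_lit 0) (XT.lf (nat_lit 84) (nat_lit 536848162) (nat_lit 0) (nat_lit 101788229) (nat_lit 168) (nat_lit 557769883) (nat_lit 20) (nat_lit 1) (nat_lit 19) (nat_lit 1) (nat_lit 21) (nat_lit 1) (nat_lit 401) (nat_lit 362) (nat_lit 317)) (XT.lf (nat_lit 168) (nat_lit 494761279) (nat_lit 0) (nat_lit 664873844) (nat_lit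 84) (nat_lit 5631803) (nat_lit 20) (nat_lit 1) (nat_lit 18) (nat_lit 1) (nat_lit 19) (nat_lit 1) (nat_lit 402) (nat_lit 362) (nat_lit 316))) (XT.nd (nat_lit 94) (nat_lit 84) (nat_lit 0) (XT.lf (nat_lit 84) (nat_lit 601321419) (nat_lit 0) (nat_lit 87803452) (nat_lit 168) (nat_lit 445807802) (nat_lit 17) (nat_lit 1) (nat_lit 16) (nat_lit 1) (nat_lit 18) (nat_lit 1) (nat_lit 403) (nat_lit 362) (nat_lit 315)) (XT.lf (nat_lit 0) (nat_lit 80839070) (nat_lit 0) (nat_lit 632695225) (nat_lit 168) (nat_lit 391946365) (nat_lit 15) (nat_lit 3) (nat_lit 15) (nat_lit 1) (nat_lit 17) (nat_lit 1) (nat_lit 404) (nat_lit 362) (nat_lit 314)))) (XT.nd (nat_lit 188) (nat_lit 420) (nat_lit 0) (XT.nd (nat_lit 94) (nat_lit 84) (nat_lit 0) (XT.lf (nat_lit 84) (nat_lit 653606953) (nat_lit 0) (nat_lit 83564388) (nat_lit 168) (nat_lit 339670926) (nat_lit 14) (nat_lit 1) (nat_lit 13)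 (nat_lit 1) (nat_lit 15) (nat_lit 1) (nat_lit 405) (nat_lit 362) (nat_lit 313)) (XT.lf (nat_lit 0) (nat_lit 154432531) (nat_lit 0) (nat_lit 605030345) (nat_lit 168) (nat_lit 289503701) (nat_lit 12) (nat_lit 3) (nat_lit 12) (nat_lit 1) (nat_lit 14) (nat_lit 1) (nat_lit 406) (nat_lit 362) (nat_lit 312))) (XT.nd (nat_lit 94) (nat_lit 252) (nat_lit 0) (XT.lf (nat_lit 84) (nat_lit 695552512) (nat_lit 0) (nat_lit 86535363) (nat_lit 168) (nat_lit 239822702) (nat_lit 11) (nat_lit 1) (nat_lit 10) (nat_lit 1) (nat_lit 12) (nat_lit 1) (nat_lit 407) (nat_lit 362) (nat_lit 311)) (XT.nd (nat_lit 94) (nat_lit 168) (nat_lit 0) (XT.lf (nat_lit 0) (nat_lit 217114952) (nat_lit 0) (nat_lit 585033998) (nat_lit 168) (nat_lit 193365020) (nat_lit 9) (nat_lit 3) (nat_lit 9) (nat_lit 1) (nat_lit 11) (nat_lit 1) (nat_lit 408) (nat_lit 362) (nat_lit 310)) (XT.lf (nat_lit 84) (nat_lit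 728707530) (nat_lit 0) (nat_lit 94703782) (nat_lit 168) (nat_lit 146523030) (nat_lit 8) (nat_lit 1) (nat_lit 7) (nat_lit 1) (nat_lit 9) (nat_lit 1) (nat_lit 409) (nat_lit 362) (nat_lit 309)))))) (XT.nd (nat_lit 376) (nat_lit 0) (nat_lit 0) (XT.nd (nat_lit 188) (nat_lit 336) (nat_lit 0) (XT.nd (nat_lit 94) (nat_lit 168) (nat_lit 0) (XT.lf (nat_lit 0) (nat_lit 270392214) (nat_lit 0) (nat_lit 570802958) (nat_lit 168) (nat_lit 103732568) (nat_lit 6) (nat_lit 3) (nat_lit 6) (nat_lit 1) (nat_lit 8) (nat_lit 1) (nat_lit 410) (nat_lit 362) (nat_lit 308)) (XT.lf (nat_lit 84) (nat_lit 754374702) (nat_lit 0) (nat_lit 106480173) (nat_lit 168) (nat_lit 59873740) (nat_lit 5) (nat_lit 1) (nat_lit 4) (nat_lit 1) (nat_lit 6) (nat_lit 1) (nat_lit 411) (nat_lit 362) (nat_lit 307))) (XT.nd (nat_lit 94) (nat_lit 252) (nat_lit 0) (XT.lf (nat_lit 0) (nat_lit 315537931) (nat_lit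 0) (nat_lit 560827258) (nat_lit 168) (nat_lit 20664914) (nat_lit 3) (nat_lit 3) (nat_lit 3) (nat_lit 1) (nat_lit 5) (nat_lit 1) (nat_lit 412) (nat_lit 362) (nat_lit 306)) (XT.lf (nat_lit 0) (nat_lit 1267993391) (nat_lit 0) (nat_lit 0) (nat_lit 0) (nat_lit 0) (nat_lit 0) (nat_lit 0) (nat_lit 1) (nat_lit 0) (nat_lit 1) (nat_lit 0) (nat_lit 413) (nat_lit 362) (nat_lit 305)))) (XT.nd (nat_lit 188) (nat_lit 0) (nat_lit 0) (XT.nd (nat_lit 94) (nat_lit 0) (nat_lit 0) (XT.lf (nat_lit 0) (nat_lit 1266839248) (nat_lit 0) (nat_lit 0) (nat_lit 0) (nat_lit 0) (nat_lit 0) (nat_lit 0) (nat_lit 1) (nat_lit 0) (nat_lit 1) (nat_lit 0) (nat_lit 414) (nat_lit 362) (nat_lit 304)) (XT.lf (nat_lit 0) (nat_lit 1265770597) (nat_lit 0) (nat_lit 0) (nat_lit 0) (nat_lit 0) (nat_lit 0) (nat_lit 0) (nat_lit 1) (nat_lit 0) (nat_lit 1) (nat_lit 0) (nat_lit 415) (nat_lit 362) (nat_lit 303)))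 (XT.nd (nat_lit 94) (nat_lit 0) (nat_lit 0) (XT.lf (nat_lit 0) (nat_lit 1264781106) (nat_lit 0) (nat_lit 0) (nat_lit 0) (nat_lit 0) (nat_lit 0) (nat_lit 0) (nat_lit 1) (nat_lit 0) (nat_lit 1) (nat_lit 0) (nat_lit 416) (nat_lit 362) (nat_lit 302)) (XT.nd (nat_lit 94) (nat_lit 0) (nat_lit 0) (XT.lf (nat_lit 0) (nat_lit 1263864910) (nat_lit 0) (nat_lit 0) (nat_lit 0) (nat_lit 0) (nat_lit 0) (nat_lit 0) (nat_lit 1) (nat_lit 0) (nat_lit 1) (nat_lit 0) (nat_lit 417) (nat_lit 362) (nat_lit 301)) (XT.lf (nat_lit 0) (nat_lit 1263016581) (nat_lit 0) (nat_lit 0) (nat_lit 0) (nat_lit 0) (nat_lit 0) (nat_lit 0) (nat_lit 1) (nat_lit 0) (nat_lit 1) (nat_lit 0) (nat_lit 418) (nat_lit 362) (nat_lit 300))))))) (XT.nd (nat_lit 846) (nat_lit 0) (nat_lit 0) (XT.nd (nat_lit 376) (nat_lit 0) (nat_lit 0) (XT.nd (nat_lit 188) (nat_lit 0) (nat_lit 0) (XT.nd (nat_lit 94) (nat_lit 0)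 (nat_lit 0) (XT.lf (nat_lit 0) (nat_lit 1262231091) (nat_lit 0) (nat_lit 0) (nat_lit 0) (nat_lit 0) (nat_lit 0) (nat_lit 0) (nat_lit 1) (nat_lit 0) (nat_lit 1) (nat_lit 0) (nat_lit 419) (nat_lit 362) (nat_lit 299)) (XT.lf (nat_lit 0) (nat_lit 1261503785) (nat_lit 0) (nat_lit 0) (nat_lit 0) (nat_lit 0) (nat_lit 0) (nat_lit 0) (nat_lit 1) (nat_lit 0) (nat_lit 1) (nat_lit 0) (nat_lit 420) (nat_lit 362) (nat_lit 298))) (XT.nd (nat_lit 94) (nat_lit 0) (nat_lit 0) (XT.lf (nat_lit 0) (nat_lit 1260830354) (nat_lit 0) (nat_lit 0) (nat_lit 0) (nat_lit 0) (nat_lit 0) (nat_lit 0) (nat_lit 1) (nat_lit 0) (nat_lit 1) (nat_lit 0) (nat_lit 421) (nat_lit 362) (nat_lit 297)) (XT.lf (nat_lit 0) (nat_lit 1260206806) (nat_lit 0) (nat_lit 0) (nat_lit 0) (nat_lit 0) (nat_lit 0) (nat_lit 0) (nat_lit 1) (nat_lit 0) (nat_lit 1) (nat_lit 0) (nat_lit 422) (nat_lit 362) (nat_lit 296))))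 (XT.nd (nat_lit 188) (nat_lit 0) (nat_lit 0) (XT.nd (nat_lit 94) (nat_lit 0) (nat_lit 0) (XT.lf (nat_lit 0) (nat_lit 1259629447) (nat_lit 0) (nat_lit 0) (nat_lit 0) (nat_lit 0) (nat_lit 0) (nat_lit 0) (nat_lit 1) (nat_lit 0) (nat_lit 1) (nat_lit 0) (nat_lit 423) (nat_lit 362) (nat_lit 295)) (XT.lf (nat_lit 0) (nat_lit 1259094856) (nat_lit 0) (nat_lit 0) (nat_lit 0) (nat_lit 0) (nat_lit 0) (nat_lit 0) (nat_lit 1) (nat_lit 0) (nat_lit 1) (nat_lit 0) (nat_lit 424) (nat_lit 362) (nat_lit 294))) (XT.nd (nat_lit 94) (nat_lit 0) (nat_lit 0) (XT.lf (nat_lit 0) (nat_lit 1258599864) (nat_lit 0) (nat_lit 0) (nat_lit 0) (nat_lit 0) (nat_lit 0) (nat_lit 0) (nat_lit 1) (nat_lit 0) (nat_lit 1) (nat_lit 0) (nat_lit 425) (nat_lit 362) (nat_lit 293)) (XT.nd (nat_lit 94) (nat_lit 0) (nat_lit 0) (XT.lf (nat_lit 0) (nat_lit 1258141538) (nat_lit 0) (nat_lit 0) (nat_lit 0) (nat_lit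 0) (nat_lit 0) (nat_lit 0) (nat_lit 1) (nat_lit 0) (nat_lit 1) (nat_lit 0) (nat_lit 426) (nat_lit 362) (nat_lit 292)) (XT.lf (nat_lit 0) (nat_lit 1257717162) (nat_lit 0) (nat_lit 0) (nat_lit 0) (nat_lit 0) (nat_lit 0) (nat_lit 0) (nat_lit 1) (nat_lit 0) (nat_lit 1) (nat_lit 0) (nat_lit 427) (nat_lit 362) (nat_lit 291)))))) (XT.nd (nat_lit 61006) (nat_lit 0) (nat_lit 10836) (XT.nd (nat_lit 188) (nat_lit 0) (nat_lit 0) (XT.nd (nat_lit 94) (nat_lit 0) (nat_lit 0) (XT.lf (nat_lit 0) (nat_lit 1257324221) (nat_lit 0) (nat_lit 0) (nat_lit 0) (nat_lit 0) (nat_lit 0) (nat_lit 0) (nat_lit 1) (nat_lit 0) (nat_lit 1) (nat_lit 0) (nat_lit 428) (nat_lit 362) (nat_lit 290)) (XT.lf (nat_lit 0) (nat_lit 1256960387) (nat_lit 0) (nat_lit 0) (nat_lit 0) (nat_lit 0) (nat_lit 0) (nat_lit 0) (nat_lit 1) (nat_lit 0) (nat_lit 1) (nat_lit 0) (nat_lit 429) (nat_lit 362) (nat_lit 289)))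 (XT.nd (nat_lit 60630) (nat_lit 0) (nat_lit 10752) (XT.lf (nat_lit 0) (nat_lit 1256623504) (nat_lit 0) (nat_lit 0) (nat_lit 0) (nat_lit 0) (nat_lit 0) (nat_lit 0) (nat_lit 1) (nat_lit 0) (nat_lit 1) (nat_lit 0) (nat_lit 430) (nat_lit 362) (nat_lit 288)) (XT.nd (nat_lit 94) (nat_lit 0) (nat_lit 84) (XT.lf (nat_lit 924) (nat_lit 676894437) (nat_lit 0) (nat_lit 1201824518) (nat_lit 924) (nat_lit 676894437) (nat_lit 139) (nat_lit 1) (nat_lit 128) (nat_lit 0) (nat_lit 139) (nat_lit 0) (nat_lit 354) (nat_lit 363) (nat_lit 363)) (XT.lf (nat_lit 924) (nat_lit 252502395) (nat_lit 0) (nat_lit 2359545774) (nat_lit 840) (nat_lit 2307627884) (nat_lit 140) (nat_lit 1) (nat_lit 129) (nat_lit 1) (nat_lit 139) (nat_lit 1) (nat_lit 355) (nat_lit 363) (nat_lit 362))))) (XT.nd (nat_lit 188) (nat_lit 0) (nat_lit 168) (XT.nd (nat_lit 94) (nat_lit 0) (nat_lit 84) (XT.lf (nat_lit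 924) (nat_lit 2319088753) (nat_lit 84) (nat_lit 1580188600) (nat_lit 0) (nat_lit 838059951) (nat_lit 140) (nat_lit 1) (nat_lit 130) (nat_lit 1) (nat_lit 129) (nat_lit 1) (nat_lit 356) (nat_lit 363) (nat_lit 361)) (XT.lf (nat_lit 924) (nat_lit 2003882665) (nat_lit 84) (nat_lit 662246089) (nat_lit 0) (nat_lit 1897994495) (nat_lit 141) (nat_lit 1) (nat_lit 131) (nat_lit 1) (nat_lit 130) (nat_lit 1) (nat_lit 357) (nat_lit 363) (nat_lit 360))) (XT.nd (nat_lit 94) (nat_lit 0) (nat_lit 84) (XT.lf (nat_lit 924) (nat_lit 1483043536) (nat_lit 0) (nat_lit 2774704356) (nat_lit 840) (nat_lit 141842490) (nat_lit 142) (nat_lit 1) (nat_lit 131) (nat_lit 1) (nat_lit 141) (nat_lit 1) (nat_lit 358) (nat_lit 363) (nat_lit 359)) (XT.nd (nat_lit 94) (nat_lit 0) (nat_lit 0) (XT.lf (nat_lit 924) (nat_lit 355841755) (nat_lit 0) (nat_lit 3059882396) (nat_lit 840) (nat_lit 827190960)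 (nat_lit 143) (nat_lit 1) (nat_lit 132) (nat_lit 1) (nat_lit 142) (nat_lit 1) (nat_lit 359) (nat_lit 363) (nat_lit 358)) (XT.lf (nat_lit 924) (nat_lit 683783121) (nat_lit 84) (nat_lit 2659286979) (nat_lit 0) (nat_lit 750483594) (nat_lit 143) (nat_lit 1) (nat_lit 133) (nat_lit 1) (nat_lit 132) (nat_lit 1) (nat_lit 360) (nat_lit 363) (nat_lit 357))))))))
noncomputable def ec33 : XT := (XT.nd (nat_lit 1786) (nat_lit 3024) (nat_lit 0) (XT.nd (nat_lit 846) (nat_lit 2688) (nat_lit 0) (XT.nd (nat_lit 376) (nat_lit 1428) (nat_lit 0) (XT.nd (nat_lit 188) (nat_lit 840) (nat_lit 0) (XT.nd (nat_lit 94) (nat_lit 588) (nat_lit 0) (XT.lf (nat_lit 924) (nat_lit 140433460) (nat_lit 0) (nat_lit 1987992922) (nat_lit 840) (nat_lit 1822968679) (nat_lit 134) (nat_lit 1) (nat_lit 123) (nat_lit 1) (nat_lit 133) (nat_lit 1) (nat_lit 361) (nat_lit 363) (nat_lit 356)) (XT.lf (nat_lit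 84) (nat_lit 972390536) (nat_lit 0) (nat_lit 421382070) (nat_lit 588) (nat_lit 2422194896) (nat_lit 117) (nat_lit 1) (nat_lit 116) (nat_lit 1) (nat_lit 123) (nat_lit 1) (nat_lit 362) (nat_lit 363) (nat_lit 355))) (XT.nd (nat_lit 94) (nat_lit 420) (nat_lit 0) (XT.lf (nat_lit 504) (nat_lit 2679785926) (nat_lit 0) (nat_lit 872328090) (nat_lit 420) (nat_lit 134867312) (nat_lit 117) (nat_lit 1) (nat_lit 111) (nat_lit 1) (nat_lit 116) (nat_lit 1) (nat_lit 363) (nat_lit 363) (nat_lit 354)) (XT.lf (nat_lit 504) (nat_lit 1933759043) (nat_lit 0) (nat_lit 406595880) (nat_lit 420) (nat_lit 1223186406) (nat_lit 112) (nat_lit 1) (nat_lit 106) (nat_lit 1) (nat_lit 111) (nat_lit 1) (nat_lit 364) (nat_lit 363) (nat_lit 353)))) (XT.nd (nat_lit 188) (nat_lit 1092) (nat_lit 0) (XT.nd (nat_lit 94) (nat_lit 0) (nat_lit 0) (XT.lf (nat_lit 420) (nat_lit 1176667714) (nat_lit 0) (nat_lit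 7486090) (nat_lit 336) (nat_lit 2261932862) (nat_lit 107) (nat_lit 1) (nat_lit 102) (nat_lit 1) (nat_lit 106) (nat_lit 1) (nat_lit 365) (nat_lit 363) (nat_lit 352)) (XT.lf (nat_lit 84) (nat_lit 86808983) (nat_lit 0) (nat_lit 2927619549) (nat_lit 420) (nat_lit 319606597) (nat_lit 103) (nat_lit 1) (nat_lit 102) (nat_lit 1) (nat_lit 107) (nat_lit 1) (nat_lit 366) (nat_lit 363) (nat_lit 351))) (XT.nd (nat_lit 94) (nat_lit 672) (nat_lit 0) (XT.lf (nat_lit 84) (nat_lit 2241430458) (nat_lit 0) (nat_lit 371765224) (nat_lit 420) (nat_lit 613108373) (nat_lit 98) (nat_lit 1) (nat_lit 97) (nat_lit 1) (nat_lit 102) (nat_lit 1) (nat_lit 367) (nat_lit 363) (nat_lit 350)) (XT.nd (nat_lit 94) (nat_lit 336) (nat_lit 0) (XT.lf (nat_lit 84) (nat_lit 1121444457) (nat_lit 0) (nat_lit 1138782877) (nat_lit 420) (nat_lit 863105755) (nat_lit 94) (nat_lit 1) (nat_lit 93) (nat_lit 1)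 (nat_lit 98) (nat_lit 1) (nat_lit 368) (nat_lit 363) (nat_lit 349)) (XT.lf (nat_lit 84) (nat_lit 55352011) (nat_lit 0) (nat_lit 1904027288) (nat_lit 420) (nat_lit 1065858159) (nat_lit 90) (nat_lit 1) (nat_lit 89) (nat_lit 1) (nat_lit 94) (nat_lit 1) (nat_lit 369) (nat_lit 363) (nat_lit 348)))))) (XT.nd (nat_lit 470) (nat_lit 1176) (nat_lit 0) (XT.nd (nat_lit 188) (nat_lit 840) (nat_lit 0) (XT.nd (nat_lit 94) (nat_lit 420) (nat_lit 0) (XT.lf (nat_lit 336) (nat_lit 249966565) (nat_lit 0) (nat_lit 1690404228) (nat_lit 252) (nat_lit 990615727) (nat_lit 90) (nat_lit 1) (nat_lit 86) (nat_lit 1) (nat_lit 89) (nat_lit 1) (nat_lit 370) (nat_lit 363) (nat_lit 347)) (XT.lf (nat_lit 84) (nat_lit 863701688) (nat_lit 0) (nat_lit 591986504) (nat_lit 420) (nat_lit 1384941066) (nat_lit 82) (nat_lit 1) (nat_lit 81) (nat_lit 1) (nat_lit 86) (nat_lit 1) (nat_lit 371) (nat_lit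 363) (nat_lit 346))) (XT.nd (nat_lit 94) (nat_lit 588) (nat_lit 0) (XT.lf (nat_lit 336) (nat_lit 1337217960) (nat_lit 0) (nat_lit 1256143442) (nat_lit 252) (nat_lit 160784869) (nat_lit 82) (nat_lit 1) (nat_lit 78) (nat_lit 1) (nat_lit 81) (nat_lit 1) (nat_lit 372) (nat_lit 363) (nat_lit 345)) (XT.nd (nat_lit 94) (nat_lit 336) (nat_lit 0) (XT.lf (nat_lit 336) (nat_lit 428571896) (nat_lit 0) (nat_lit 1081488065) (nat_lit 252) (nat_lit 1160926891) (nat_lit 79) (nat_lit 1) (nat_lit 75) (nat_lit 1) (nat_lit 78) (nat_lit 1) (nat_lit 373) (nat_lit 363) (nat_lit 344)) (XT.lf (nat_lit 84) (nat_lit 488468404) (nat_lit 0) (nat_lit 447235273) (nat_lit 336) (nat_lit 1655577521) (nat_lit 72) (nat_lit 1) (nat_lit 71) (nat_lit 1) (nat_lit 75) (nat_lit 1) (nat_lit 374) (nat_lit 363) (nat_lit 343))))) (XT.nd (nat_lit 188) (nat_lit 756) (nat_lit 0) (XT.nd (nat_lit 94) (nat_lit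 168) (nat_lit 0) (XT.lf (nat_lit 336) (nat_lit 1215489514) (nat_lit 0) (nat_lit 808741680) (nat_lit 252) (nat_lit 490261865) (nat_lit 72) (nat_lit 1) (nat_lit 68) (nat_lit 1) (nat_lit 71) (nat_lit 1) (nat_lit 375) (nat_lit 363) (nat_lit 342)) (XT.lf (nat_lit 252) (nat_lit 301321645) (nat_lit 0) (nat_lit 705568126) (nat_lit 168) (nat_lit 1433912996) (nat_lit 69) (nat_lit 1) (nat_lit 66) (nat_lit 1) (nat_lit 68) (nat_lit 1) (nat_lit 376) (nat_lit 363) (nat_lit 341))) (XT.nd (nat_lit 94) (nat_lit 420) (nat_lit 0) (XT.lf (nat_lit 84) (nat_lit 51045811) (nat_lit 0) (nat_lit 571213715) (nat_lit 336) (nat_lit 1747709379) (nat_lit 63) (nat_lit 1) (nat_lit 62) (nat_lit 1) (nat_lit 66) (nat_lit 1) (nat_lit 377) (nat_lit 363) (nat_lit 340)) (XT.nd (nat_lit 94) (nat_lit 252) (nat_lit 0) (XT.lf (nat_lit 252) (nat_lit 875585412) (nat_lit 0) (nat_lit 547165766) (nat_lit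 168) (nat_lit 878632458) (nat_lit 63) (nat_lit 1) (nat_lit 60) (nat_lit 1) (nat_lit 62) (nat_lit 1) (nat_lit 378) (nat_lit 363) (nat_lit 339)) (XT.lf (nat_lit 84) (nat_lit 475056054) (nat_lit 0) (nat_lit 21943136) (nat_lit 252) (nat_lit 1738792003) (nat_lit 58) (nat_lit 1) (nat_lit 57) (nat_lit 1) (nat_lit 60) (nat_lit 1) (nat_lit 379) (nat_lit 363) (nat_lit 338))))))) (XT.nd (nat_lit 846) (nat_lit 1512) (nat_lit 0) (XT.nd (nat_lit 376) (nat_lit 756) (nat_lit 0) (XT.nd (nat_lit 188) (nat_lit 420) (nat_lit 0) (XT.nd (nat_lit 94) (nat_lit 168) (nat_lit 0) (XT.lf (nat_lit 252) (nat_lit 1298711516) (nat_lit 0) (nat_lit 450032659) (nat_lit 168) (nat_lit 423362612) (nat_lit 58) (nat_lit 1) (nat_lit 55) (nat_lit 1) (nat_lit 57) (nat_lit 1) (nat_lit 380) (nat_lit 363) (nat_lit 337)) (XT.lf (nat_lit 252) (nat_lit 403431839) (nat_lit 0) (nat_lit 418355122) (nat_lit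 168) (nat_lit 1289070353) (nat_lit 56) (nat_lit 1) (nat_lit 53) (nat_lit 1) (nat_lit 55) (nat_lit 1) (nat_lit 381) (nat_lit 363) (nat_lit 336))) (XT.nd (nat_lit 94) (nat_lit 168) (nat_lit 0) (XT.lf (nat_lit 252) (nat_lit 1601476139) (nat_lit 0) (nat_lit 399704364) (nat_lit 168) (nat_lit 50707135) (nat_lit 53) (nat_lit 1) (nat_lit 50) (nat_lit 1) (nat_lit 52) (nat_lit 1) (nat_lit 382) (nat_lit 363) (nat_lit 335)) (XT.lf (nat_lit 252) (nat_lit 716746497) (nat_lit 0) (nat_lit 381582908) (nat_lit 168) (nat_lit 896227136) (nat_lit 51) (nat_lit 1) (nat_lit 48) (nat_lit 1) (nat_lit 50) (nat_lit 1) (nat_lit 383) (nat_lit 363) (nat_lit 334)))) (XT.nd (nat_lit 188) (nat_lit 420) (nat_lit 0) (XT.nd (nat_lit 94) (nat_lit 168) (nat_lit 0) (XT.lf (nat_lit 84) (nat_lit 245513348) (nat_lit 0) (nat_lit 134945199) (nat_lit 168) (nat_lit 1559144845) (nat_lit 47) (nat_lit 1)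 (nat_lit 46) (nat_lit 1) (nat_lit 48) (nat_lit 1) (nat_lit 384) (nat_lit 363) (nat_lit 333)) (XT.lf (nat_lit 252) (nat_lit 940412625) (nat_lit 0) (nat_lit 376429915) (nat_lit 168) (nat_lit 569194392) (nat_lit 47) (nat_lit 1) (nat_lit 44) (nat_lit 1) (nat_lit 46) (nat_lit 1) (nat_lit 385) (nat_lit 363) (nat_lit 332))) (XT.nd (nat_lit 94) (nat_lit 336) (nat_lit 0) (XT.lf (nat_lit 168) (nat_lit 101269076) (nat_lit 0) (nat_lit 385675520) (nat_lit 84) (nat_lit 1347640611) (nat_lit 45) (nat_lit 1) (nat_lit 43) (nat_lit 1) (nat_lit 44) (nat_lit 1) (nat_lit 386) (nat_lit 363) (nat_lit 331)) (XT.nd (nat_lit 94) (nat_lit 84) (nat_lit 0) (XT.lf (nat_lit 252) (nat_lit 1093162294) (nat_lit 0) (nat_lit 394443138) (nat_lit 168) (nat_lit 296946733) (nat_lit 43) (nat_lit 1) (nat_lit 40) (nat_lit 1) (nat_lit 42) (nat_lit 1) (nat_lit 387) (nat_lit 363) (nat_lit 330)) (XT.lf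 (nat_lit 168) (nat_lit 274938378) (nat_lit 0) (nat_lit 409191764) (nat_lit 84) (nat_lit 1052075196) (nat_lit 41) (nat_lit 1) (nat_lit 39) (nat_lit 1) (nat_lit 40) (nat_lit 1) (nat_lit 388) (nat_lit 363) (nat_lit 329)))))) (XT.nd (nat_lit 470) (nat_lit 588) (nat_lit 0) (XT.nd (nat_lit 188) (nat_lit 588) (nat_lit 0) (XT.nd (nat_lit 94) (nat_lit 84) (nat_lit 0) (XT.lf (nat_lit 252) (nat_lit 1190140623) (nat_lit 0) (nat_lit 428927204) (nat_lit 168) (nat_lit 70390626) (nat_lit 39) (nat_lit 1) (nat_lit 36) (nat_lit 1) (nat_lit 38) (nat_lit 1) (nat_lit 389) (nat_lit 363) (nat_lit 328)) (XT.lf (nat_lit 168) (nat_lit 395674045) (nat_lit 0) (nat_lit 447161765) (nat_lit 84) (nat_lit 801128919) (nat_lit 37) (nat_lit 1) (nat_lit 35) (nat_lit 1) (nat_lit 36) (nat_lit 1) (nat_lit 390) (nat_lit 363) (nat_lit 327))) (XT.nd (nat_lit 94) (nat_lit 336) (nat_lit 0) (XT.lf (nat_lit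 84) (nat_lit 114207275) (nat_lit 0) (nat_lit 358466195) (nat_lit 252) (nat_lit 1127431898) (nat_lit 33) (nat_lit 1) (nat_lit 32) (nat_lit 1) (nat_lit 35) (nat_lit 1) (nat_lit 391) (nat_lit 363) (nat_lit 326)) (XT.nd (nat_lit 94) (nat_lit 252) (nat_lit 0) (XT.lf (nat_lit 168) (nat_lit 474844553) (nat_lit 0) (nat_lit 494765517) (nat_lit 84) (nat_lit 587725159) (nat_lit 33) (nat_lit 1) (nat_lit 31) (nat_lit 1) (nat_lit 32) (nat_lit 1) (nat_lit 392) (nat_lit 363) (nat_lit 325)) (XT.lf (nat_lit 84) (nat_lit 265603598) (nat_lit 0) (nat_lit 257255045) (nat_lit 252) (nat_lit 993209493) (nat_lit 29) (nat_lit 1) (nat_lit 28) (nat_lit 1) (nat_lit 31) (nat_lit 1) (nat_lit 393) (nat_lit 363) (nat_lit 324))))) (XT.nd (nat_lit 188) (nat_lit 336) (nat_lit 0) (XT.nd (nat_lit 94) (nat_lit 168) (nat_lit 0) (XT.lf (nat_lit 168) (nat_lit 521617807) (nat_lit 0) (nat_lit 548240465)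 (nat_lit 84) (nat_lit 405997131) (nat_lit 29) (nat_lit 1) (nat_lit 27) (nat_lit 1) (nat_lit 28) (nat_lit 1) (nat_lit 394) (nat_lit 363) (nat_lit 323)) (XT.lf (nat_lit 84) (nat_lit 391029915) (nat_lit 0) (nat_lit 186318758) (nat_lit 168) (nat_lit 859622038) (nat_lit 26) (nat_lit 1) (nat_lit 25) (nat_lit 1) (nat_lit 27) (nat_lit 1) (nat_lit 395) (nat_lit 363) (nat_lit 322))) (XT.nd (nat_lit 94) (nat_lit 252) (nat_lit 0) (XT.lf (nat_lit 168) (nat_lit 543372335) (nat_lit 0) (nat_lit 604675406) (nat_lit 84) (nat_lit 251072077) (nat_lit 26) (nat_lit 1) (nat_lit 24) (nat_lit 1) (nat_lit 25) (nat_lit 1) (nat_lit 396) (nat_lit 363) (nat_lit 321)) (XT.nd (nat_lit 94) (nat_lit 84) (nat_lit 0) (XT.lf (nat_lit 84) (nat_lit 494616485) (nat_lit 0) (nat_lit 138996222) (nat_lit 168) (nat_lit 728820474) (nat_lit 23) (nat_lit 1) (nat_lit 22) (nat_lit 1) (nat_lit 24) (nat_lit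 1) (nat_lit 397) (nat_lit 363) (nat_lit 320)) (XT.lf (nat_lit 168) (nat_lit 546032570) (nat_lit 0) (nat_lit 661843003) (nat_lit 84) (nat_lit 118894654) (nat_lit 23) (nat_lit 1) (nat_lit 21) (nat_lit 1) (nat_lit 22) (nat_lit 1) (nat_lit 398) (nat_lit 363) (nat_lit 319))))))))
noncomputable def ec34 : XT := (XT.nd (nat_lit 1692) (nat_lit 0) (nat_lit 0) (XT.nd (nat_lit 846) (nat_lit 588) (nat_lit 0) (XT.nd (nat_lit 376) (nat_lit 672) (nat_lit 0) (XT.nd (nat_lit 188) (nat_lit 252) (nat_lit 0) (XT.nd (nat_lit 94) (nat_lit 84) (nat_lit 0) (XT.lf (nat_lit 84) (nat_lit 579796015) (nat_lit 0) (nat_lit 109931287) (nat_lit 168) (nat_lit 602391473) (nat_lit 20) (nat_lit 1) (nat_lit 19) (nat_lit 1) (nat_lit 21) (nat_lit 1) (nat_lit 399) (nat_lit 363) (nat_lit 318)) (XT.lf (nat_lit 168) (nat_lit 534342181) (nat_lit 0) (nat_lit 718063751) (nat_lit 84) (nat_lit 6082348) (nat_lit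 20) (nat_lit 1) (nat_lit 18) (nat_lit 1) (nat_lit 19) (nat_lit 1) (nat_lit 400) (nat_lit 363) (nat_lit 317))) (XT.nd (nat_lit 94) (nat_lit 84) (nat_lit 0) (XT.lf (nat_lit 84) (nat_lit 649427133) (nat_lit 0) (nat_lit 94827728) (nat_lit 168) (nat_lit 481472426) (nat_lit 17) (nat_lit 1) (nat_lit 16) (nat_lit 1) (nat_lit 18) (nat_lit 1) (nat_lit 401) (nat_lit 363) (nat_lit 316)) (XT.lf (nat_lit 0) (nat_lit 87306196) (nat_lit 0) (nat_lit 683310844) (nat_lit 168) (nat_lit 423302074) (nat_lit 15) (nat_lit 3) (nat_lit 15) (nat_lit 1) (nat_lit 17) (nat_lit 1) (nat_lit 402) (nat_lit 363) (nat_lit 315)))) (XT.nd (nat_lit 188) (nat_lit 420) (nat_lit 0) (XT.nd (nat_lit 94) (nat_lit 84) (nat_lit 0) (XT.lf (nat_lit 84) (nat_lit 705895509) (nat_lit 0) (nat_lit 90249539) (nat_lit 168) (nat_lit 366844600) (nat_lit 14) (nat_lit 1) (nat_lit 13) (nat_lit 1) (nat_lit 15) (nat_lit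 1) (nat_lit 403) (nat_lit 363) (nat_lit 314)) (XT.lf (nat_lit 0) (nat_lit 166787133) (nat_lit 0) (nat_lit 653432773) (nat_lit 168) (nat_lit 312663997) (nat_lit 12) (nat_lit 3) (nat_lit 12) (nat_lit 1) (nat_lit 14) (nat_lit 1) (nat_lit 404) (nat_lit 363) (nat_lit 313))) (XT.nd (nat_lit 94) (nat_lit 252) (nat_lit 0) (XT.lf (nat_lit 84) (nat_lit 751196713) (nat_lit 0) (nat_lit 93458192) (nat_lit 168) (nat_lit 259008519) (nat_lit 11) (nat_lit 1) (nat_lit 10) (nat_lit 1) (nat_lit 12) (nat_lit 1) (nat_lit 405) (nat_lit 363) (nat_lit 312)) (XT.nd (nat_lit 94) (nat_lit 168) (nat_lit 0) (XT.lf (nat_lit 0) (nat_lit 234484148) (nat_lit 0) (nat_lit 631836718) (nat_lit 168) (nat_lit 208834221) (nat_lit 9) (nat_lit 3) (nat_lit 9) (nat_lit 1) (nat_lit 11) (nat_lit 1) (nat_lit 406) (nat_lit 363) (nat_lit 311)) (XT.lf (nat_lit 84) (nat_lit 787004132) (nat_lit 0) (nat_lit 102280084)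 (nat_lit 168) (nat_lit 158244872) (nat_lit 8) (nat_lit 1) (nat_lit 7) (nat_lit 1) (nat_lit 9) (nat_lit 1) (nat_lit 407) (nat_lit 363) (nat_lit 310)))))) (XT.nd (nat_lit 376) (nat_lit 0) (nat_lit 0) (XT.nd (nat_lit 188) (nat_lit 336) (nat_lit 0) (XT.nd (nat_lit 94) (nat_lit 168) (nat_lit 0) (XT.lf (nat_lit 0) (nat_lit 292023591) (nat_lit 0) (nat_lit 616467194) (nat_lit 168) (nat_lit 112031174) (nat_lit 6) (nat_lit 3) (nat_lit 6) (nat_lit 1) (nat_lit 8) (nat_lit 1) (nat_lit 408) (nat_lit 363) (nat_lit 309)) (XT.lf (nat_lit 84) (nat_lit 814724678) (nat_lit 0) (nat_lit 114998587) (nat_lit 168) (nat_lit 64663639) (nat_lit 5) (nat_lit 1) (nat_lit 4) (nat_lit 1) (nat_lit 6) (nat_lit 1) (nat_lit 409) (nat_lit 363) (nat_lit 308))) (XT.nd (nat_lit 94) (nat_lit 252) (nat_lit 0) (XT.lf (nat_lit 0) (nat_lit 340780966) (nat_lit 0) (nat_lit 605693439) (nat_lit 168) (nat_lit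 22318107) (nat_lit 3) (nat_lit 3) (nat_lit 3) (nat_lit 1) (nat_lit 5) (nat_lit 1) (nat_lit 410) (nat_lit 363) (nat_lit 307)) (XT.lf (nat_lit 0) (nat_lit 1369432862) (nat_lit 0) (nat_lit 0) (nat_lit 0) (nat_lit 0) (nat_lit 0) (nat_lit 0) (nat_lit 1) (nat_lit 0) (nat_lit 1) (nat_lit 0) (nat_lit 411) (nat_lit 363) (nat_lit 306)))) (XT.nd (nat_lit 188) (nat_lit 0) (nat_lit 0) (XT.nd (nat_lit 94) (nat_lit 0) (nat_lit 0) (XT.lf (nat_lit 0) (nat_lit 1368186388) (nat_lit 0) (nat_lit 0) (nat_lit 0) (nat_lit 0) (nat_lit 0) (nat_lit 0) (nat_lit 1) (nat_lit 0) (nat_lit 1) (nat_lit 0) (nat_lit 412) (nat_lit 363) (nat_lit 305)) (XT.lf (nat_lit 0) (nat_lit 1367032245) (nat_lit 0) (nat_lit 0) (nat_lit 0) (nat_lit 0) (nat_lit 0) (nat_lit 0) (nat_lit 1) (nat_lit 0) (nat_lit 1) (nat_lit 0) (nat_lit 413) (nat_lit 363) (nat_lit 304))) (XT.nd (nat_lit 94) (nat_lit 0) (nat_lit 0)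 (XT.lf (nat_lit 0) (nat_lit 1365963594) (nat_lit 0) (nat_lit 0) (nat_lit 0) (nat_lit 0) (nat_lit 0) (nat_lit 0) (nat_lit 1) (nat_lit 0) (nat_lit 1) (nat_lit 0) (nat_lit 414) (nat_lit 363) (nat_lit 303)) (XT.nd (nat_lit 94) (nat_lit 0) (nat_lit 0) (XT.lf (nat_lit 0) (nat_lit 1364974103) (nat_lit 0) (nat_lit 0) (nat_lit 0) (nat_lit 0) (nat_lit 0) (nat_lit 0) (nat_lit 1) (nat_lit 0) (nat_lit 1) (nat_lit 0) (nat_lit 415) (nat_lit 363) (nat_lit 302)) (XT.lf (nat_lit 0) (nat_lit 1364057907) (nat_lit 0) (nat_lit 0) (nat_lit 0) (nat_lit 0) (nat_lit 0) (nat_lit 0) (nat_lit 1) (nat_lit 0) (nat_lit 1) (nat_lit 0) (nat_lit 416) (nat_lit 363) (nat_lit 301))))))) (XT.nd (nat_lit 846) (nat_lit 0) (nat_lit 0) (XT.nd (nat_lit 376) (nat_lit 0) (nat_lit 0) (XT.nd (nat_lit 188) (nat_lit 0) (nat_lit 0) (XT.nd (nat_lit 94) (nat_lit 0) (nat_lit 0) (XT.lf (nat_lit 0) (nat_lit 1363209578)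 (nat_lit 0) (nat_lit 0) (nat_lit 0) (nat_lit 0) (nat_lit 0) (nat_lit 0) (nat_lit 1) (nat_lit 0) (nat_lit 1) (nat_lit 0) (nat_lit 417) (nat_lit 363) (nat_lit 300)) (XT.lf (nat_lit 0) (nat_lit 1362424088) (nat_lit 0) (nat_lit 0) (nat_lit 0) (nat_lit 0) (nat_lit 0) (nat_lit 0) (nat_lit 1) (nat_lit 0) (nat_lit 1) (nat_lit 0) (nat_lit 418) (nat_lit 363) (nat_lit 299))) (XT.nd (nat_lit 94) (nat_lit 0) (nat_lit 0) (XT.lf (nat_lit 0) (nat_lit 1361696782) (nat_lit 0) (nat_lit 0) (nat_lit 0) (nat_lit 0) (nat_lit 0) (nat_lit 0) (nat_lit 1) (nat_lit 0) (nat_lit 1) (nat_lit 0) (nat_lit 419) (nat_lit 363) (nat_lit 298)) (XT.lf (nat_lit 0) (nat_lit 1361023351) (nat_lit 0) (nat_lit 0) (nat_lit 0) (nat_lit 0) (nat_lit 0) (nat_lit 0) (nat_lit 1) (nat_lit 0) (nat_lit 1) (nat_lit 0) (nat_lit 420) (nat_lit 363) (nat_lit 297)))) (XT.nd (nat_lit 188) (nat_lit 0) (nat_lit 0) (XT.nd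 (nat_lit 94) (nat_lit 0) (nat_lit 0) (XT.lf (nat_lit 0) (nat_lit 1360399803) (nat_lit 0) (nat_lit 0) (nat_lit 0) (nat_lit 0) (nat_lit 0) (nat_lit 0) (nat_lit 1) (nat_lit 0) (nat_lit 1) (nat_lit 0) (nat_lit 421) (nat_lit 363) (nat_lit 296)) (XT.lf (nat_lit 0) (nat_lit 1359822444) (nat_lit 0) (nat_lit 0) (nat_lit 0) (nat_lit 0) (nat_lit 0) (nat_lit 0) (nat_lit 1) (nat_lit 0) (nat_lit 1) (nat_lit 0) (nat_lit 422) (nat_lit 363) (nat_lit 295))) (XT.nd (nat_lit 94) (nat_lit 0) (nat_lit 0) (XT.lf (nat_lit 0) (nat_lit 1359287853) (nat_lit 0) (nat_lit 0) (nat_lit 0) (nat_lit 0) (nat_lit 0) (nat_lit 0) (nat_lit 1) (nat_lit 0) (nat_lit 1) (nat_lit 0) (nat_lit 423) (nat_lit 363) (nat_lit 294)) (XT.nd (nat_lit 94) (nat_lit 0) (nat_lit 0) (XT.lf (nat_lit 0) (nat_lit 1358792861) (nat_lit 0) (nat_lit 0) (nat_lit 0) (nat_lit 0) (nat_lit 0) (nat_lit 0) (nat_lit 1) (nat_lit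 0) (nat_lit 1) (nat_lit 0) (nat_lit 424) (nat_lit 363) (nat_lit 293)) (XT.lf (nat_lit 0) (nat_lit 1358334535) (nat_lit 0) (nat_lit 0) (nat_lit 0) (nat_lit 0) (nat_lit 0) (nat_lit 0) (nat_lit 1) (nat_lit 0) (nat_lit 1) (nat_lit 0) (nat_lit 425) (nat_lit 363) (nat_lit 292)))))) (XT.nd (nat_lit 60818) (nat_lit 0) (nat_lit 10752) (XT.nd (nat_lit 188) (nat_lit 0) (nat_lit 0) (XT.nd (nat_lit 94) (nat_lit 0) (nat_lit 0) (XT.lf (nat_lit 0) (nat_lit 1357910159) (nat_lit 0) (nat_lit 0) (nat_lit 0) (nat_lit 0) (nat_lit 0) (nat_lit 0) (nat_lit 1) (nat_lit 0) (nat_lit 1) (nat_lit 0) (nat_lit 426) (nat_lit 363) (nat_lit 291)) (XT.lf (nat_lit 0) (nat_lit 1357517218) (nat_lit 0) (nat_lit 0) (nat_lit 0) (nat_lit 0) (nat_lit 0) (nat_lit 0) (nat_lit 1) (nat_lit 0) (nat_lit 1) (nat_lit 0) (nat_lit 427) (nat_lit 363) (nat_lit 290))) (XT.nd (nat_lit 94) (nat_lit 0) (nat_lit 0)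 (XT.lf (nat_lit 0) (nat_lit 1357153384) (nat_lit 0) (nat_lit 0) (nat_lit 0) (nat_lit 0) (nat_lit 0) (nat_lit 0) (nat_lit 1) (nat_lit 0) (nat_lit 1) (nat_lit 0) (nat_lit 428) (nat_lit 363) (nat_lit 289)) (XT.nd (nat_lit 94) (nat_lit 0) (nat_lit 0) (XT.lf (nat_lit 0) (nat_lit 1356816501) (nat_lit 0) (nat_lit 0) (nat_lit 0) (nat_lit 0) (nat_lit 0) (nat_lit 0) (nat_lit 1) (nat_lit 0) (nat_lit 1) (nat_lit 0) (nat_lit 429) (nat_lit 363) (nat_lit 288)) (XT.lf (nat_lit 0) (nat_lit 1356504572) (nat_lit 0) (nat_lit 0) (nat_lit 0) (nat_lit 0) (nat_lit 0) (nat_lit 0) (nat_lit 1) (nat_lit 0) (nat_lit 1) (nat_lit 0) (nat_lit 430) (nat_lit 363) (nat_lit 287))))) (XT.nd (nat_lit 188) (nat_lit 0) (nat_lit 84) (XT.nd (nat_lit 94) (nat_lit 0) (nat_lit 84) (XT.lf (nat_lit 924) (nat_lit 731045992) (nat_lit 0) (nat_lit 1297970479) (nat_lit 924) (nat_lit 731045992) (nat_lit 139)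 (nat_lit 1) (nat_lit 128) (nat_lit 0) (nat_lit 139) (nat_lit 0) (nat_lit 352) (nat_lit 364) (nat_lit 364)) (XT.lf (nat_lit 924) (nat_lit 272702586) (nat_lit 0) (nat_lit 2548309436) (nat_lit 840) (nat_lit 2492238114) (nat_lit 140) (nat_lit 1) (nat_lit 129) (nat_lit 1) (nat_lit 139) (nat_lit 1) (nat_lit 353) (nat_lit 364) (nat_lit 363))) (XT.nd (nat_lit 94) (nat_lit 0) (nat_lit 84) (XT.lf (nat_lit 924) (nat_lit 2504615854) (nat_lit 84) (nat_lit 1706603688) (nat_lit 0) (nat_lit 905104747) (nat_lit 140) (nat_lit 1) (nat_lit 130) (nat_lit 1) (nat_lit 129) (nat_lit 1) (nat_lit 354) (nat_lit 364) (nat_lit 362)) (XT.nd (nat_lit 94) (nat_lit 0) (nat_lit 84) (XT.lf (nat_lit 924) (nat_lit 2164193278) (nat_lit 84) (nat_lit 715225776) (nat_lit 0) (nat_lit 2049834055) (nat_lit 141) (nat_lit 1) (nat_lit 131) (nat_lit 1) (nat_lit 130) (nat_lit 1) (nat_lit 355) (nat_lit 364)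 (nat_lit 361)) (XT.lf (nat_lit 924) (nat_lit 1601687019) (nat_lit 0) (nat_lit 2996680705) (nat_lit 840) (nat_lit 153189889) (nat_lit 142) (nat_lit 1) (nat_lit 131) (nat_lit 1) (nat_lit 141) (nat_lit 1) (nat_lit 356) (nat_lit 364) (nat_lit 360))))))))
noncomputable def ec35 : XT := (XT.nd (nat_lit 1786) (nat_lit 3192) (nat_lit 0) (XT.nd (nat_lit 846) (nat_lit 2940) (nat_lit 0) (XT.nd (nat_lit 376) (nat_lit 1596) (nat_lit 0) (XT.nd (nat_lit 188) (nat_lit 1344) (nat_lit 0) (XT.nd (nat_lit 94) (nat_lit 0) (nat_lit 0) (XT.lf (nat_lit 924) (nat_lit 384309096) (nat_lit 0) (nat_lit 3304672987) (nat_lit 840) (nat_lit 893366237) (nat_lit 143) (nat_lit 1) (nat_lit 132) (nat_lit 1) (nat_lit 142) (nat_lit 1) (nat_lit 357) (nat_lit 364) (nat_lit 359)) (XT.lf (nat_lit 924) (nat_lit 738485771) (nat_lit 84) (nat_lit 2872029937) (nat_lit 0) (nat_lit 810522282) (nat_lit 143)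 (nat_lit 1) (nat_lit 133) (nat_lit 1) (nat_lit 132) (nat_lit 1) (nat_lit 358) (nat_lit 364) (nat_lit 358))) (XT.nd (nat_lit 94) (nat_lit 588) (nat_lit 0) (XT.lf (nat_lit 924) (nat_lit 151668137) (nat_lit 0) (nat_lit 2147032355) (nat_lit 840) (nat_lit 1968806174) (nat_lit 134) (nat_lit 1) (nat_lit 123) (nat_lit 1) (nat_lit 133) (nat_lit 1) (nat_lit 359) (nat_lit 364) (nat_lit 357)) (XT.lf (nat_lit 84) (nat_lit 1050181779) (nat_lit 0) (nat_lit 455092636) (nat_lit 588) (nat_lit 2615970488) (nat_lit 117) (nat_lit 1) (nat_lit 116) (nat_lit 1) (nat_lit 123) (nat_lit 1) (nat_lit 360) (nat_lit 364) (nat_lit 356)))) (XT.nd (nat_lit 188) (nat_lit 756) (nat_lit 0) (XT.nd (nat_lit 94) (nat_lit 420) (nat_lit 0) (XT.lf (nat_lit 504) (nat_lit 2894168800) (nat_lit 0) (nat_lit 942114337) (nat_lit 420) (nat_lit 145656697) (nat_lit 117) (nat_lit 1) (nat_lit 111) (nat_lit 1)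 (nat_lit 116) (nat_lit 1) (nat_lit 361) (nat_lit 364) (nat_lit 355)) (XT.lf (nat_lit 504) (nat_lit 2088459766) (nat_lit 0) (nat_lit 439123551) (nat_lit 420) (nat_lit 1321041318) (nat_lit 112) (nat_lit 1) (nat_lit 106) (nat_lit 1) (nat_lit 111) (nat_lit 1) (nat_lit 362) (nat_lit 364) (nat_lit 354))) (XT.nd (nat_lit 94) (nat_lit 420) (nat_lit 0) (XT.lf (nat_lit 420) (nat_lit 1270801131) (nat_lit 0) (nat_lit 8084978) (nat_lit 336) (nat_lit 2442887491) (nat_lit 107) (nat_lit 1) (nat_lit 102) (nat_lit 1) (nat_lit 106) (nat_lit 1) (nat_lit 363) (nat_lit 364) (nat_lit 353)) (XT.nd (nat_lit 94) (nat_lit 420) (nat_lit 0) (XT.lf (nat_lit 84) (nat_lit 93753701) (nat_lit 0) (nat_lit 3161829113) (nat_lit 420) (nat_lit 345175125) (nat_lit 103) (nat_lit 1) (nat_lit 102) (nat_lit 1) (nat_lit 107) (nat_lit 1) (nat_lit 364) (nat_lit 364) (nat_lit 352)) (XT.lf (nat_lit 84) (nat_lit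 2420744895) (nat_lit 0) (nat_lit 401506442) (nat_lit 420) (nat_lit 662157043) (nat_lit 98) (nat_lit 1) (nat_lit 97) (nat_lit 1) (nat_lit 102) (nat_lit 1) (nat_lit 365) (nat_lit 364) (nat_lit 351)))))) (XT.nd (nat_lit 470) (nat_lit 1344) (nat_lit 0) (XT.nd (nat_lit 188) (nat_lit 924) (nat_lit 0) (XT.nd (nat_lit 94) (nat_lit 336) (nat_lit 0) (XT.lf (nat_lit 84) (nat_lit 1211160014) (nat_lit 0) (nat_lit 1229885507) (nat_lit 420) (nat_lit 932154215) (nat_lit 94) (nat_lit 1) (nat_lit 93) (nat_lit 1) (nat_lit 98) (nat_lit 1) (nat_lit 366) (nat_lit 364) (nat_lit 350)) (XT.lf (nat_lit 84) (nat_lit 59780172) (nat_lit 0) (nat_lit 2056349471) (nat_lit 420) (nat_lit 1151126812) (nat_lit 90) (nat_lit 1) (nat_lit 89) (nat_lit 1) (nat_lit 94) (nat_lit 1) (nat_lit 367) (nat_lit 364) (nat_lit 349))) (XT.nd (nat_lit 94) (nat_lit 672) (nat_lit 0) (XT.lf (nat_lit 336) (nat_lit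 269963890) (nat_lit 0) (nat_lit 1825636566) (nat_lit 252) (nat_lit 1069864985) (nat_lit 90) (nat_lit 1) (nat_lit 86) (nat_lit 1) (nat_lit 89) (nat_lit 1) (nat_lit 368) (nat_lit 364) (nat_lit 348)) (XT.nd (nat_lit 94) (nat_lit 252) (nat_lit 0) (XT.lf (nat_lit 84) (nat_lit 932797823) (nat_lit 0) (nat_lit 639345424) (nat_lit 420) (nat_lit 1495736352) (nat_lit 82) (nat_lit 1) (nat_lit 81) (nat_lit 1) (nat_lit 86) (nat_lit 1) (nat_lit 369) (nat_lit 364) (nat_lit 347)) (XT.lf (nat_lit 336) (nat_lit 1444195397) (nat_lit 0) (nat_lit 1356634918) (nat_lit 252) (nat_lit 173647659) (nat_lit 82) (nat_lit 1) (nat_lit 78) (nat_lit 1) (nat_lit 81) (nat_lit 1) (nat_lit 370) (nat_lit 364) (nat_lit 346))))) (XT.nd (nat_lit 188) (nat_lit 756) (nat_lit 0) (XT.nd (nat_lit 94) (nat_lit 336) (nat_lit 0) (XT.lf (nat_lit 336) (nat_lit 462857647) (nat_lit 0) (nat_lit 1168007110) (nat_lit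 252) (nat_lit 1253801042) (nat_lit 79) (nat_lit 1) (nat_lit 75) (nat_lit 1) (nat_lit 78) (nat_lit 1) (nat_lit 371) (nat_lit 364) (nat_lit 345)) (XT.lf (nat_lit 84) (nat_lit 527545877) (nat_lit 0) (nat_lit 483014095) (nat_lit 336) (nat_lit 1788023722) (nat_lit 72) (nat_lit 1) (nat_lit 71) (nat_lit 1) (nat_lit 75) (nat_lit 1) (nat_lit 372) (nat_lit 364) (nat_lit 344))) (XT.nd (nat_lit 94) (nat_lit 504) (nat_lit 0) (XT.lf (nat_lit 336) (nat_lit 1312728675) (nat_lit 0) (nat_lit 873441014) (nat_lit 252) (nat_lit 529482814) (nat_lit 72) (nat_lit 1) (nat_lit 68) (nat_lit 1) (nat_lit 71) (nat_lit 1) (nat_lit 373) (nat_lit 364) (nat_lit 343)) (XT.nd (nat_lit 94) (nat_lit 336) (nat_lit 0) (XT.lf (nat_lit 252) (nat_lit 325427376) (nat_lit 0) (nat_lit 762013576) (nat_lit 168) (nat_lit 1548626036) (nat_lit 69) (nat_lit 1) (nat_lit 66) (nat_lit 1) (nat_lit 68) (nat_lit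 1) (nat_lit 374) (nat_lit 364) (nat_lit 342)) (XT.lf (nat_lit 84) (nat_lit 55129476) (nat_lit 0) (nat_lit 616910812) (nat_lit 336) (nat_lit 1887526129) (nat_lit 63) (nat_lit 1) (nat_lit 62) (nat_lit 1) (nat_lit 66) (nat_lit 1) (nat_lit 375) (nat_lit 364) (nat_lit 341))))))) (XT.nd (nat_lit 846) (nat_lit 1596) (nat_lit 0) (XT.nd (nat_lit 376) (nat_lit 840) (nat_lit 0) (XT.nd (nat_lit 188) (nat_lit 336) (nat_lit 0) (XT.nd (nat_lit 94) (nat_lit 252) (nat_lit 0) (XT.lf (nat_lit 252) (nat_lit 945632245) (nat_lit 0) (nat_lit 590939028) (nat_lit 168) (nat_lit 948923055) (nat_lit 63) (nat_lit 1) (nat_lit 60) (nat_lit 1) (nat_lit 62) (nat_lit 1) (nat_lit 376) (nat_lit 364) (nat_lit 340)) (XT.lf (nat_lit 84) (nat_lit 513060538) (nat_lit 0) (nat_lit 23698587) (nat_lit 252) (nat_lit 1877895364) (nat_lit 58) (nat_lit 1) (nat_lit 57) (nat_lit 1) (nat_lit 60) (nat_lit 1)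 (nat_lit 377) (nat_lit 364) (nat_lit 339))) (XT.nd (nat_lit 94) (nat_lit 168) (nat_lit 0) (XT.lf (nat_lit 252) (nat_lit 1402608437) (nat_lit 0) (nat_lit 486035272) (nat_lit 168) (nat_lit 457231621) (nat_lit 58) (nat_lit 1) (nat_lit 55) (nat_lit 1) (nat_lit 57) (nat_lit 1) (nat_lit 378) (nat_lit 364) (nat_lit 338)) (XT.lf (nat_lit 252) (nat_lit 435706387) (nat_lit 0) (nat_lit 451823532) (nat_lit 168) (nat_lit 1392195981) (nat_lit 56) (nat_lit 1) (nat_lit 53) (nat_lit 1) (nat_lit 55) (nat_lit 1) (nat_lit 379) (nat_lit 364) (nat_lit 337)))) (XT.nd (nat_lit 188) (nat_lit 420) (nat_lit 0) (XT.nd (nat_lit 94) (nat_lit 168) (nat_lit 0) (XT.lf (nat_lit 252) (nat_lit 1729594230) (nat_lit 0) (nat_lit 431680713) (nat_lit 168) (nat_lit 54763706) (nat_lit 53) (nat_lit 1) (nat_lit 50) (nat_lit 1) (nat_lit 52) (nat_lit 1) (nat_lit 380) (nat_lit 364) (nat_lit 336)) (XT.lf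 (nat_lit 252) (nat_lit 774086217) (nat_lit 0) (nat_lit 412109541) (nat_lit 168) (nat_lit 967925307) (nat_lit 51) (nat_lit 1) (nat_lit 48) (nat_lit 1) (nat_lit 50) (nat_lit 1) (nat_lit 381) (nat_lit 364) (nat_lit 335))) (XT.nd (nat_lit 94) (nat_lit 252) (nat_lit 0) (XT.lf (nat_lit 84) (nat_lit 265154416) (nat_lit 0) (nat_lit 145740815) (nat_lit 168) (nat_lit 1683876433) (nat_lit 47) (nat_lit 1) (nat_lit 46) (nat_lit 1) (nat_lit 48) (nat_lit 1) (nat_lit 382) (nat_lit 364) (nat_lit 334)) (XT.nd (nat_lit 94) (nat_lit 84) (nat_lit 0) (XT.lf (nat_lit 252) (nat_lit 1015645635) (nat_lit 0) (nat_lit 406544308) (nat_lit 168) (nat_lit 614729944) (nat_lit 47) (nat_lit 1) (nat_lit 44) (nat_lit 1) (nat_lit 46) (nat_lit 1) (nat_lit 383) (nat_lit 364) (nat_lit 333)) (XT.lf (nat_lit 168) (nat_lit 109370602) (nat_lit 0) (nat_lit 416529561) (nat_lit 84) (nat_lit 1455451860)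 (nat_lit 45) (nat_lit 1) (nat_lit 43) (nat_lit 1) (nat_lit 44) (nat_lit 1) (nat_lit 384) (nat_lit 364) (nat_lit 332)))))) (XT.nd (nat_lit 470) (nat_lit 672) (nat_lit 0) (XT.nd (nat_lit 188) (nat_lit 588) (nat_lit 0) (XT.nd (nat_lit 94) (nat_lit 84) (nat_lit 0) (XT.lf (nat_lit 252) (nat_lit 1180615278) (nat_lit 0) (nat_lit 425998589) (nat_lit 168) (nat_lit 320702472) (nat_lit 43) (nat_lit 1) (nat_lit 40) (nat_lit 1) (nat_lit 42) (nat_lit 1) (nat_lit 385) (nat_lit 364) (nat_lit 331)) (XT.lf (nat_lit 168) (nat_lit 296933448) (nat_lit 0) (nat_lit 441927106) (nat_lit 84) (nat_lit 1136241211) (nat_lit 41) (nat_lit 1) (nat_lit 39) (nat_lit 1) (nat_lit 40) (nat_lit 1) (nat_lit 386) (nat_lit 364) (nat_lit 330))) (XT.nd (nat_lit 94) (nat_lit 336) (nat_lit 0) (XT.lf (nat_lit 252) (nat_lit 1285351873) (nat_lit 0) (nat_lit 463241381) (nat_lit 168) (nat_lit 76021876) (nat_lit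 39) (nat_lit 1) (nat_lit 36) (nat_lit 1) (nat_lit 38) (nat_lit 1) (nat_lit 387) (nat_lit 364) (nat_lit 329)) (XT.nd (nat_lit 94) (nat_lit 252) (nat_lit 0) (XT.lf (nat_lit 168) (nat_lit 427327969) (nat_lit 0) (nat_lit 482934706) (nat_lit 84) (nat_lit 865219232) (nat_lit 37) (nat_lit 1) (nat_lit 35) (nat_lit 1) (nat_lit 36) (nat_lit 1) (nat_lit 388) (nat_lit 364) (nat_lit 328)) (XT.lf (nat_lit 84) (nat_lit 123343857) (nat_lit 0) (nat_lit 387143491) (nat_lit 252) (nat_lit 1217626449) (nat_lit 33) (nat_lit 1) (nat_lit 32) (nat_lit 1) (nat_lit 35) (nat_lit 1) (nat_lit 389) (nat_lit 364) (nat_lit 327))))) (XT.nd (nat_lit 188) (nat_lit 336) (nat_lit 0) (XT.nd (nat_lit 94) (nat_lit 252) (nat_lit 0) (XT.lf (nat_lit 168) (nat_lit 512832117) (nat_lit 0) (nat_lit 534346758) (nat_lit 84) (nat_lit 634743172) (nat_lit 33) (nat_lit 1) (nat_lit 31) (nat_lit 1) (nat_lit 32)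 (nat_lit 1) (nat_lit 390) (nat_lit 364) (nat_lit 326)) (XT.lf (nat_lit 84) (nat_lit 286851886) (nat_lit 0) (nat_lit 277835448) (nat_lit 252) (nat_lit 1072666253) (nat_lit 29) (nat_lit 1) (nat_lit 28) (nat_lit 1) (nat_lit 31) (nat_lit 1) (nat_lit 391) (nat_lit 364) (nat_lit 325))) (XT.nd (nat_lit 94) (nat_lit 252) (nat_lit 0) (XT.lf (nat_lit 168) (nat_lit 563347231) (nat_lit 0) (nat_lit 592099702) (nat_lit 84) (nat_lit 438476901) (nat_lit 29) (nat_lit 1) (nat_lit 27) (nat_lit 1) (nat_lit 28) (nat_lit 1) (nat_lit 392) (nat_lit 364) (nat_lit 324)) (XT.nd (nat_lit 94) (nat_lit 84) (nat_lit 0) (XT.lf (nat_lit 84) (nat_lit 422312308) (nat_lit 0) (nat_lit 201224258) (nat_lit 168) (nat_lit 928391801) (nat_lit 26) (nat_lit 1) (nat_lit 25) (nat_lit 1) (nat_lit 27) (nat_lit 1) (nat_lit 393) (nat_lit 364) (nat_lit 323)) (XT.lf (nat_lit 168) (nat_lit 586842122) (nat_lit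 0) (nat_lit 653049439) (nat_lit 84) (nat_lit 271157844) (nat_lit 26) (nat_lit 1) (nat_lit 24) (nat_lit 1) (nat_lit 25) (nat_lit 1) (nat_lit 394) (nat_lit 364) (nat_lit 322))))))))
noncomputable def ec36 : XT := (XT.nd (nat_lit 1692) (nat_lit 0) (nat_lit 0) (XT.nd (nat_lit 846) (nat_lit 840) (nat_lit 0) (XT.nd (nat_lit 376) (nat_lit 672) (nat_lit 0) (XT.nd (nat_lit 188) (nat_lit 252) (nat_lit 0) (XT.nd (nat_lit 94) (nat_lit 84) (nat_lit 0) (XT.lf (nat_lit 84) (nat_lit 534185804) (nat_lit 0) (nat_lit 150115920) (nat_lit 168) (nat_lit 787126112) (nat_lit 23) (nat_lit 1) (nat_lit 22) (nat_lit 1) (nat_lit 24) (nat_lit 1) (nat_lit 395) (nat_lit 364) (nat_lit 321)) (XT.lf (nat_lit 168) (nat_lit 589715176) (nat_lit 0) (nat_lit 714790443) (nat_lit 84) (nat_lit 128406227) (nat_lit 23) (nat_lit 1) (nat_lit 21) (nat_lit 1) (nat_lit 22) (nat_lit 1) (nat_lit 396) (nat_lit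 364) (nat_lit 320))) (XT.nd (nat_lit 94) (nat_lit 84) (nat_lit 0) (XT.lf (nat_lit 84) (nat_lit 626179697) (nat_lit 0) (nat_lit 118725790) (nat_lit 168) (nat_lit 650582791) (nat_lit 20) (nat_lit 1) (nat_lit 19) (nat_lit 1) (nat_lit 21) (nat_lit 1) (nat_lit 397) (nat_lit 364) (nat_lit 319)) (XT.lf (nat_lit 168) (nat_lit 577089555) (nat_lit 0) (nat_lit 775508852) (nat_lit 84) (nat_lit 6568935) (nat_lit 20) (nat_lit 1) (nat_lit 18) (nat_lit 1) (nat_lit 19) (nat_lit 1) (nat_lit 398) (nat_lit 364) (nat_lit 318)))) (XT.nd (nat_lit 188) (nat_lit 420) (nat_lit 0) (XT.nd (nat_lit 94) (nat_lit 84) (nat_lit 0) (XT.lf (nat_lit 84) (nat_lit 701381304) (nat_lit 0) (nat_lit 102413947) (nat_lit 168) (nat_lit 519990220) (nat_lit 17) (nat_lit 1) (nat_lit 16) (nat_lit 1) (nat_lit 18) (nat_lit 1) (nat_lit 399) (nat_lit 364) (nat_lit 317)) (XT.lf (nat_lit 0) (nat_lit 94290691)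 (nat_lit 0) (nat_lit 737975711) (nat_lit 168) (nat_lit 457166240) (nat_lit 15) (nat_lit 3) (nat_lit 15) (nat_lit 1) (nat_lit 17) (nat_lit 1) (nat_lit 400) (nat_lit 364) (nat_lit 316))) (XT.nd (nat_lit 94) (nat_lit 252) (nat_lit 0) (XT.lf (nat_lit 84) (nat_lit 762367150) (nat_lit 0) (nat_lit 97469502) (nat_lit 168) (nat_lit 396192168) (nat_lit 14) (nat_lit 1) (nat_lit 13) (nat_lit 1) (nat_lit 15) (nat_lit 1) (nat_lit 401) (nat_lit 364) (nat_lit 315)) (XT.nd (nat_lit 94) (nat_lit 168) (nat_lit 0) (XT.lf (nat_lit 0) (nat_lit 180130104) (nat_lit 0) (nat_lit 705707395) (nat_lit 168) (nat_lit 337677117) (nat_lit 12) (nat_lit 3) (nat_lit 12) (nat_lit 1) (nat_lit 14) (nat_lit 1) (nat_lit 402) (nat_lit 364) (nat_lit 314)) (XT.lf (nat_lit 84) (nat_lit 811292450) (nat_lit 0) (nat_lit 100934848) (nat_lit 168) (nat_lit 279729200) (nat_lit 11) (nat_lit 1) (nat_lit 10) (nat_lit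 1) (nat_lit 12) (nat_lit 1) (nat_lit 403) (nat_lit 364) (nat_lit 313)))))) (XT.nd (nat_lit 376) (nat_lit 336) (nat_lit 0) (XT.nd (nat_lit 188) (nat_lit 252) (nat_lit 0) (XT.nd (nat_lit 94) (nat_lit 168) (nat_lit 0) (XT.lf (nat_lit 0) (nat_lit 253242880) (nat_lit 0) (nat_lit 682383656) (nat_lit 168) (nat_lit 225540959) (nat_lit 9) (nat_lit 3) (nat_lit 9) (nat_lit 1) (nat_lit 11) (nat_lit 1) (nat_lit 404) (nat_lit 364) (nat_lit 312)) (XT.lf (nat_lit 84) (nat_lit 849964463) (nat_lit 0) (nat_lit 110462491) (nat_lit 168) (nat_lit 170904462) (nat_lit 8) (nat_lit 1) (nat_lit 7) (nat_lit 1) (nat_lit 9) (nat_lit 1) (nat_lit 405) (nat_lit 364) (nat_lit 311))) (XT.nd (nat_lit 94) (nat_lit 168) (nat_lit 0) (XT.lf (nat_lit 0) (nat_lit 315385478) (nat_lit 0) (nat_lit 665784570) (nat_lit 168) (nat_lit 120993668) (nat_lit 6) (nat_lit 3) (nat_lit 6) (nat_lit 1) (nat_lit 8)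 (nat_lit 1) (nat_lit 406) (nat_lit 364) (nat_lit 310)) (XT.lf (nat_lit 84) (nat_lit 879902652) (nat_lit 0) (nat_lit 124198474) (nat_lit 168) (nat_lit 69836731) (nat_lit 5) (nat_lit 1) (nat_lit 4) (nat_lit 1) (nat_lit 6) (nat_lit 1) (nat_lit 407) (nat_lit 364) (nat_lit 309)))) (XT.nd (nat_lit 188) (nat_lit 0) (nat_lit 0) (XT.nd (nat_lit 94) (nat_lit 252) (nat_lit 0) (XT.lf (nat_lit 0) (nat_lit 368043443) (nat_lit 0) (nat_lit 654148914) (nat_lit 168) (nat_lit 24103556) (nat_lit 3) (nat_lit 3) (nat_lit 3) (nat_lit 1) (nat_lit 5) (nat_lit 1) (nat_lit 408) (nat_lit 364) (nat_lit 308)) (XT.lf (nat_lit 0) (nat_lit 1478987491) (nat_lit 0) (nat_lit 0) (nat_lit 0) (nat_lit 0) (nat_lit 0) (nat_lit 0) (nat_lit 1) (nat_lit 0) (nat_lit 1) (nat_lit 0) (nat_lit 409) (nat_lit 364) (nat_lit 307))) (XT.nd (nat_lit 94) (nat_lit 0) (nat_lit 0) (XT.lf (nat_lit 0) (nat_lit 1477641299)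 (nat_lit 0) (nat_lit 0) (nat_lit 0) (nat_lit 0) (nat_lit 0) (nat_lit 0) (nat_lit 1) (nat_lit 0) (nat_lit 1) (nat_lit 0) (nat_lit 410) (nat_lit 364) (nat_lit 306)) (XT.nd (nat_lit 94) (nat_lit 0) (nat_lit 0) (XT.lf (nat_lit 0) (nat_lit 1476394825) (nat_lit 0) (nat_lit 0) (nat_lit 0) (nat_lit 0) (nat_lit 0) (nat_lit 0) (nat_lit 1) (nat_lit 0) (nat_lit 1) (nat_lit 0) (nat_lit 411) (nat_lit 364) (nat_lit 305)) (XT.lf (nat_lit 0) (nat_lit 1475240682) (nat_lit 0) (nat_lit 0) (nat_lit 0) (nat_lit 0) (nat_lit 0) (nat_lit 0) (nat_lit 1) (nat_lit 0) (nat_lit 1) (nat_lit 0) (nat_lit 412) (nat_lit 364) (nat_lit 304))))))) (XT.nd (nat_lit 846) (nat_lit 0) (nat_lit 0) (XT.nd (nat_lit 376) (nat_lit 0) (nat_lit 0) (XT.nd (nat_lit 188) (nat_lit 0) (nat_lit 0) (XT.nd (nat_lit 94) (nat_lit 0) (nat_lit 0) (XT.lf (nat_lit 0) (nat_lit 1474172031) (nat_lit 0) (nat_lit 0) (nat_lit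 0) (nat_lit 0) (nat_lit 0) (nat_lit 0) (nat_lit 1) (nat_lit 0) (nat_lit 1) (nat_lit 0) (nat_lit 413) (nat_lit 364) (nat_lit 303)) (XT.lf (nat_lit 0) (nat_lit 1473182540) (nat_lit 0) (nat_lit 0) (nat_lit 0) (nat_lit 0) (nat_lit 0) (nat_lit 0) (nat_lit 1) (nat_lit 0) (nat_lit 1) (nat_lit 0) (nat_lit 414) (nat_lit 364) (nat_lit 302))) (XT.nd (nat_lit 94) (nat_lit 0) (nat_lit 0) (XT.lf (nat_lit 0) (nat_lit 1472266344) (nat_lit 0) (nat_lit 0) (nat_lit 0) (nat_lit 0) (nat_lit 0) (nat_lit 0) (nat_lit 1) (nat_lit 0) (nat_lit 1) (nat_lit 0) (nat_lit 415) (nat_lit 364) (nat_lit 301)) (XT.lf (nat_lit 0) (nat_lit 1471418015) (nat_lit 0) (nat_lit 0) (nat_lit 0) (nat_lit 0) (nat_lit 0) (nat_lit 0) (nat_lit 1) (nat_lit 0) (nat_lit 1) (nat_lit 0) (nat_lit 416) (nat_lit 364) (nat_lit 300)))) (XT.nd (nat_lit 188) (nat_lit 0) (nat_lit 0) (XT.nd (nat_lit 94) (nat_lit 0) (nat_lit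 0) (XT.lf (nat_lit 0) (nat_lit 1470632524) (nat_lit 0) (nat_lit 0) (nat_lit 0) (nat_lit 0) (nat_lit 0) (nat_lit 0) (nat_lit 1) (nat_lit 0) (nat_lit 1) (nat_lit 0) (nat_lit 417) (nat_lit 364) (nat_lit 299)) (XT.lf (nat_lit 0) (nat_lit 1469905219) (nat_lit 0) (nat_lit 0) (nat_lit 0) (nat_lit 0) (nat_lit 0) (nat_lit 0) (nat_lit 1) (nat_lit 0) (nat_lit 1) (nat_lit 0) (nat_lit 418) (nat_lit 364) (nat_lit 298))) (XT.nd (nat_lit 94) (nat_lit 0) (nat_lit 0) (XT.lf (nat_lit 0) (nat_lit 1469231787) (nat_lit 0) (nat_lit 0) (nat_lit 0) (nat_lit 0) (nat_lit 0) (nat_lit 0) (nat_lit 1) (nat_lit 0) (nat_lit 1) (nat_lit 0) (nat_lit 419) (nat_lit 364) (nat_lit 297)) (XT.nd (nat_lit 94) (nat_lit 0) (nat_lit 0) (XT.lf (nat_lit 0) (nat_lit 1468608240) (nat_lit 0) (nat_lit 0) (nat_lit 0) (nat_lit 0) (nat_lit 0) (nat_lit 0) (nat_lit 1) (nat_lit 0) (nat_lit 1) (nat_lit 0) (nat_lit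 420) (nat_lit 364) (nat_lit 296)) (XT.lf (nat_lit 0) (nat_lit 1468030881) (nat_lit 0) (nat_lit 0) (nat_lit 0) (nat_lit 0) (nat_lit 0) (nat_lit 0) (nat_lit 1) (nat_lit 0) (nat_lit 1) (nat_lit 0) (nat_lit 421) (nat_lit 364) (nat_lit 295)))))) (XT.nd (nat_lit 470) (nat_lit 0) (nat_lit 0) (XT.nd (nat_lit 188) (nat_lit 0) (nat_lit 0) (XT.nd (nat_lit 94) (nat_lit 0) (nat_lit 0) (XT.lf (nat_lit 0) (nat_lit 1467496290) (nat_lit 0) (nat_lit 0) (nat_lit 0) (nat_lit 0) (nat_lit 0) (nat_lit 0) (nat_lit 1) (nat_lit 0) (nat_lit 1) (nat_lit 0) (nat_lit 422) (nat_lit 364) (nat_lit 294)) (XT.lf (nat_lit 0) (nat_lit 1467001298) (nat_lit 0) (nat_lit 0) (nat_lit 0) (nat_lit 0) (nat_lit 0) (nat_lit 0) (nat_lit 1) (nat_lit 0) (nat_lit 1) (nat_lit 0) (nat_lit 423) (nat_lit 364) (nat_lit 293))) (XT.nd (nat_lit 94) (nat_lit 0) (nat_lit 0) (XT.lf (nat_lit 0) (nat_lit 1466542972) (nat_lit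 0) (nat_lit 0) (nat_lit 0) (nat_lit 0) (nat_lit 0) (nat_lit 0) (nat_lit 1) (nat_lit 0) (nat_lit 1) (nat_lit 0) (nat_lit 424) (nat_lit 364) (nat_lit 292)) (XT.nd (nat_lit 94) (nat_lit 0) (nat_lit 0) (XT.lf (nat_lit 0) (nat_lit 1466118596) (nat_lit 0) (nat_lit 0) (nat_lit 0) (nat_lit 0) (nat_lit 0) (nat_lit 0) (nat_lit 1) (nat_lit 0) (nat_lit 1) (nat_lit 0) (nat_lit 425) (nat_lit 364) (nat_lit 291)) (XT.lf (nat_lit 0) (nat_lit 1465725655) (nat_lit 0) (nat_lit 0) (nat_lit 0) (nat_lit 0) (nat_lit 0) (nat_lit 0) (nat_lit 1) (nat_lit 0) (nat_lit 1) (nat_lit 0) (nat_lit 426) (nat_lit 364) (nat_lit 290))))) (XT.nd (nat_lit 188) (nat_lit 0) (nat_lit 0) (XT.nd (nat_lit 94) (nat_lit 0) (nat_lit 0) (XT.lf (nat_lit 0) (nat_lit 1465361821) (nat_lit 0) (nat_lit 0) (nat_lit 0) (nat_lit 0) (nat_lit 0) (nat_lit 0) (nat_lit 1) (nat_lit 0) (nat_lit 1) (nat_lit 0) (nat_lit 427)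 (nat_lit 364) (nat_lit 289)) (XT.lf (nat_lit 0) (nat_lit 1465024938) (nat_lit 0) (nat_lit 0) (nat_lit 0) (nat_lit 0) (nat_lit 0) (nat_lit 0) (nat_lit 1) (nat_lit 0) (nat_lit 1) (nat_lit 0) (nat_lit 428) (nat_lit 364) (nat_lit 288))) (XT.nd (nat_lit 94) (nat_lit 0) (nat_lit 0) (XT.lf (nat_lit 0) (nat_lit 1464713009) (nat_lit 0) (nat_lit 0) (nat_lit 0) (nat_lit 0) (nat_lit 0) (nat_lit 0) (nat_lit 1) (nat_lit 0) (nat_lit 1) (nat_lit 0) (nat_lit 429) (nat_lit 364) (nat_lit 287)) (XT.nd (nat_lit 60254) (nat_lit 0) (nat_lit 10752) (XT.lf (nat_lit 0) (nat_lit 1464424186) (nat_lit 0) (nat_lit 0) (nat_lit 0) (nat_lit 0) (nat_lit 0) (nat_lit 0) (nat_lit 1) (nat_lit 0) (nat_lit 1) (nat_lit 0) (nat_lit 430) (nat_lit 364) (nat_lit 286)) (XT.lf (nat_lit 924) (nat_lit 789529672) (nat_lit 0) (nat_lit 1401808118) (nat_lit 924) (nat_lit 789529672) (nat_lit 139) (nat_lit 1)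 (nat_lit 128) (nat_lit 0) (nat_lit 139) (nat_lit 0) (nat_lit 350) (nat_lit 365) (nat_lit 365))))))))
noncomputable def ec37 : XT := (XT.nd (nat_lit 1786) (nat_lit 3696) (nat_lit 0) (XT.nd (nat_lit 846) (nat_lit 3024) (nat_lit 0) (XT.nd (nat_lit 376) (nat_lit 1512) (nat_lit 0) (XT.nd (nat_lit 188) (nat_lit 0) (nat_lit 84) (XT.nd (nat_lit 94) (nat_lit 0) (nat_lit 0) (XT.lf (nat_lit 924) (nat_lit 294518793) (nat_lit 0) (nat_lit 2752174191) (nat_lit 840) (nat_lit 2691617164) (nat_lit 140) (nat_lit 1) (nat_lit 129) (nat_lit 1) (nat_lit 139) (nat_lit 1) (nat_lit 351) (nat_lit 365) (nat_lit 364)) (XT.lf (nat_lit 924) (nat_lit 2704985122) (nat_lit 84) (nat_lit 1843131983) (nat_lit 0) (nat_lit 977513127) (nat_lit 140) (nat_lit 1) (nat_lit 130) (nat_lit 1) (nat_lit 129) (nat_lit 1) (nat_lit 352) (nat_lit 365) (nat_lit 363))) (XT.nd (nat_lit 94) (nat_lit 0) (nat_lit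 84) (XT.lf (nat_lit 924) (nat_lit 2337328741) (nat_lit 84) (nat_lit 772443838) (nat_lit 0) (nat_lit 2213820779) (nat_lit 141) (nat_lit 1) (nat_lit 131) (nat_lit 1) (nat_lit 130) (nat_lit 1) (nat_lit 353) (nat_lit 365) (nat_lit 362)) (XT.lf (nat_lit 924) (nat_lit 1729821981) (nat_lit 0) (nat_lit 3236415161) (nat_lit 840) (nat_lit 165445080) (nat_lit 142) (nat_lit 1) (nat_lit 131) (nat_lit 1) (nat_lit 141) (nat_lit 1) (nat_lit 354) (nat_lit 365) (nat_lit 361)))) (XT.nd (nat_lit 188) (nat_lit 1764) (nat_lit 0) (XT.nd (nat_lit 94) (nat_lit 0) (nat_lit 0) (XT.lf (nat_lit 924) (nat_lit 415053823) (nat_lit 0) (nat_lit 3569046827) (nat_lit 840) (nat_lit 964835536) (nat_lit 143) (nat_lit 1) (nat_lit 132) (nat_lit 1) (nat_lit 142) (nat_lit 1) (nat_lit 355) (nat_lit 365) (nat_lit 360)) (XT.lf (nat_lit 924) (nat_lit 797564633) (nat_lit 84) (nat_lit 3101792332) (nat_lit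 0) (nat_lit 875364065) (nat_lit 143) (nat_lit 1) (nat_lit 133) (nat_lit 1) (nat_lit 132) (nat_lit 1) (nat_lit 356) (nat_lit 365) (nat_lit 359))) (XT.nd (nat_lit 94) (nat_lit 1008) (nat_lit 0) (XT.lf (nat_lit 924) (nat_lit 163801588) (nat_lit 0) (nat_lit 2318794944) (nat_lit 840) (nat_lit 2126310667) (nat_lit 134) (nat_lit 1) (nat_lit 123) (nat_lit 1) (nat_lit 133) (nat_lit 1) (nat_lit 357) (nat_lit 365) (nat_lit 358)) (XT.nd (nat_lit 94) (nat_lit 420) (nat_lit 0) (XT.lf (nat_lit 84) (nat_lit 1134196321) (nat_lit 0) (nat_lit 491500047) (nat_lit 588) (nat_lit 2825248127) (nat_lit 117) (nat_lit 1) (nat_lit 116) (nat_lit 1) (nat_lit 123) (nat_lit 1) (nat_lit 358) (nat_lit 365) (nat_lit 357)) (XT.lf (nat_lit 504) (nat_lit 3125702304) (nat_lit 0) (nat_lit 1017483484) (nat_lit 420) (nat_lit 157309233) (nat_lit 117) (nat_lit 1) (nat_lit 111) (nat_lit 1) (nat_lit 116)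 (nat_lit 1) (nat_lit 359) (nat_lit 365) (nat_lit 356)))))) (XT.nd (nat_lit 470) (nat_lit 1512) (nat_lit 0) (XT.nd (nat_lit 188) (nat_lit 756) (nat_lit 0) (XT.nd (nat_lit 94) (nat_lit 336) (nat_lit 0) (XT.lf (nat_lit 504) (nat_lit 2255536547) (nat_lit 0) (nat_lit 474253435) (nat_lit 420) (nat_lit 1426724624) (nat_lit 112) (nat_lit 1) (nat_lit 106) (nat_lit 1) (nat_lit 111) (nat_lit 1) (nat_lit 360) (nat_lit 365) (nat_lit 355)) (XT.lf (nat_lit 420) (nat_lit 1372465222) (nat_lit 0) (nat_lit 8731776) (nat_lit 336) (nat_lit 2638318490) (nat_lit 107) (nat_lit 1) (nat_lit 102) (nat_lit 1) (nat_lit 106) (nat_lit 1) (nat_lit 361) (nat_lit 365) (nat_lit 354))) (XT.nd (nat_lit 94) (nat_lit 756) (nat_lit 0) (XT.lf (nat_lit 84) (nat_lit 101253997) (nat_lit 0) (nat_lit 3414775442) (nat_lit 420) (nat_lit 372789135) (nat_lit 103) (nat_lit 1) (nat_lit 102) (nat_lit 1) (nat_lit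 107) (nat_lit 1) (nat_lit 362) (nat_lit 365) (nat_lit 353)) (XT.nd (nat_lit 94) (nat_lit 336) (nat_lit 0) (XT.lf (nat_lit 84) (nat_lit 2614404486) (nat_lit 0) (nat_lit 433626958) (nat_lit 420) (nat_lit 715129606) (nat_lit 98) (nat_lit 1) (nat_lit 97) (nat_lit 1) (nat_lit 102) (nat_lit 1) (nat_lit 363) (nat_lit 365) (nat_lit 352)) (XT.lf (nat_lit 84) (nat_lit 1308052815) (nat_lit 0) (nat_lit 1328276348) (nat_lit 420) (nat_lit 1006726553) (nat_lit 94) (nat_lit 1) (nat_lit 93) (nat_lit 1) (nat_lit 98) (nat_lit 1) (nat_lit 364) (nat_lit 365) (nat_lit 351))))) (XT.nd (nat_lit 188) (nat_lit 924) (nat_lit 0) (XT.nd (nat_lit 94) (nat_lit 252) (nat_lit 0) (XT.lf (nat_lit 84) (nat_lit 64562586) (nat_lit 0) (nat_lit 2220857429) (nat_lit 420) (nat_lit 1243216957) (nat_lit 90) (nat_lit 1) (nat_lit 89) (nat_lit 1) (nat_lit 94) (nat_lit 1) (nat_lit 365) (nat_lit 365) (nat_lit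 350)) (XT.lf (nat_lit 336) (nat_lit 291561001) (nat_lit 0) (nat_lit 1971687492) (nat_lit 252) (nat_lit 1155454184) (nat_lit 90) (nat_lit 1) (nat_lit 86) (nat_lit 1) (nat_lit 89) (nat_lit 1) (nat_lit 366) (nat_lit 365) (nat_lit 349))) (XT.nd (nat_lit 94) (nat_lit 504) (nat_lit 0) (XT.lf (nat_lit 84) (nat_lit 1007421649) (nat_lit 0) (nat_lit 690493058) (nat_lit 420) (nat_lit 1615395260) (nat_lit 82) (nat_lit 1) (nat_lit 81) (nat_lit 1) (nat_lit 86) (nat_lit 1) (nat_lit 367) (nat_lit 365) (nat_lit 348)) (XT.nd (nat_lit 94) (nat_lit 252) (nat_lit 0) (XT.lf (nat_lit 336) (nat_lit 1559731029) (nat_lit 0) (nat_lit 1465165711) (nat_lit 252) (nat_lit 187539472) (nat_lit 82) (nat_lit 1) (nat_lit 78) (nat_lit 1) (nat_lit 81) (nat_lit 1) (nat_lit 368) (nat_lit 365) (nat_lit 347)) (XT.lf (nat_lit 336) (nat_lit 499886259) (nat_lit 0) (nat_lit 1261447679) (nat_lit 252) (nat_lit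 1354105125) (nat_lit 79) (nat_lit 1) (nat_lit 75) (nat_lit 1) (nat_lit 78) (nat_lit 1) (nat_lit 369) (nat_lit 365) (nat_lit 346))))))) (XT.nd (nat_lit 846) (nat_lit 1596) (nat_lit 0) (XT.nd (nat_lit 376) (nat_lit 1008) (nat_lit 0) (XT.nd (nat_lit 188) (nat_lit 504) (nat_lit 0) (XT.nd (nat_lit 94) (nat_lit 252) (nat_lit 0) (XT.lf (nat_lit 84) (nat_lit 569749547) (nat_lit 0) (nat_lit 521655223) (nat_lit 336) (nat_lit 1931065620) (nat_lit 72) (nat_lit 1) (nat_lit 71) (nat_lit 1) (nat_lit 75) (nat_lit 1) (nat_lit 370) (nat_lit 365) (nat_lit 345)) (XT.lf (nat_lit 336) (nat_lit 1417746969) (nat_lit 0) (nat_lit 943316295) (nat_lit 252) (nat_lit 571841440) (nat_lit 72) (nat_lit 1) (nat_lit 68) (nat_lit 1) (nat_lit 71) (nat_lit 1) (nat_lit 371) (nat_lit 365) (nat_lit 344))) (XT.nd (nat_lit 94) (nat_lit 336) (nat_lit 0) (XT.lf (nat_lit 252) (nat_lit 351461567) (nat_lit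 0) (nat_lit 822974662) (nat_lit 168) (nat_lit 1672516119) (nat_lit 69) (nat_lit 1) (nat_lit 66) (nat_lit 1) (nat_lit 68) (nat_lit 1) (nat_lit 372) (nat_lit 365) (nat_lit 343)) (XT.lf (nat_lit 84) (nat_lit 59539834) (nat_lit 0) (nat_lit 666263677) (nat_lit 336) (nat_lit 2038528220) (nat_lit 63) (nat_lit 1) (nat_lit 62) (nat_lit 1) (nat_lit 66) (nat_lit 1) (nat_lit 373) (nat_lit 365) (nat_lit 342)))) (XT.nd (nat_lit 188) (nat_lit 588) (nat_lit 0) (XT.nd (nat_lit 94) (nat_lit 252) (nat_lit 0) (XT.lf (nat_lit 252) (nat_lit 1021282825) (nat_lit 0) (nat_lit 638214150) (nat_lit 168) (nat_lit 1024836900) (nat_lit 63) (nat_lit 1) (nat_lit 60) (nat_lit 1) (nat_lit 62) (nat_lit 1) (nat_lit 374) (nat_lit 365) (nat_lit 341)) (XT.lf (nat_lit 84) (nat_lit 554105381) (nat_lit 0) (nat_lit 25594474) (nat_lit 252) (nat_lit 2028126993) (nat_lit 58) (nat_lit 1) (nat_lit 57) (nat_lit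 1) (nat_lit 60) (nat_lit 1) (nat_lit 375) (nat_lit 365) (nat_lit 340))) (XT.nd (nat_lit 94) (nat_lit 420) (nat_lit 0) (XT.lf (nat_lit 252) (nat_lit 1514817112) (nat_lit 0) (nat_lit 524918094) (nat_lit 168) (nat_lit 493810151) (nat_lit 58) (nat_lit 1) (nat_lit 55) (nat_lit 1) (nat_lit 57) (nat_lit 1) (nat_lit 376) (nat_lit 365) (nat_lit 339)) (XT.nd (nat_lit 94) (nat_lit 252) (nat_lit 0) (XT.lf (nat_lit 252) (nat_lit 470562898) (nat_lit 0) (nat_lit 487969415) (nat_lit 168) (nat_lit 1503571660) (nat_lit 56) (nat_lit 1) (nat_lit 53) (nat_lit 1) (nat_lit 55) (nat_lit 1) (nat_lit 377) (nat_lit 365) (nat_lit 338)) (XT.lf (nat_lit 252) (nat_lit 1867961768) (nat_lit 0) (nat_lit 466215170) (nat_lit 168) (nat_lit 59144803) (nat_lit 53) (nat_lit 1) (nat_lit 50) (nat_lit 1) (nat_lit 52) (nat_lit 1) (nat_lit 378) (nat_lit 365) (nat_lit 337)))))) (XT.nd (nat_lit 470) (nat_lit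 756) (nat_lit 0) (XT.nd (nat_lit 188) (nat_lit 504) (nat_lit 0) (XT.nd (nat_lit 94) (nat_lit 168) (nat_lit 0) (XT.lf (nat_lit 252) (nat_lit 836013115) (nat_lit 0) (nat_lit 445078304) (nat_lit 168) (nat_lit 1045359332) (nat_lit 51) (nat_lit 1) (nat_lit 48) (nat_lit 1) (nat_lit 50) (nat_lit 1) (nat_lit 379) (nat_lit 365) (nat_lit 336)) (XT.lf (nat_lit 84) (nat_lit 286366769) (nat_lit 0) (nat_lit 157400080) (nat_lit 168) (nat_lit 1818586547) (nat_lit 47) (nat_lit 1) (nat_lit 46) (nat_lit 1) (nat_lit 48) (nat_lit 1) (nat_lit 380) (nat_lit 365) (nat_lit 335))) (XT.nd (nat_lit 94) (nat_lit 336) (nat_lit 0) (XT.lf (nat_lit 252) (nat_lit 1096897286) (nat_lit 0) (nat_lit 439067853) (nat_lit 168) (nat_lit 663908339) (nat_lit 47) (nat_lit 1) (nat_lit 44) (nat_lit 1) (nat_lit 46) (nat_lit 1) (nat_lit 381) (nat_lit 365) (nat_lit 334)) (XT.nd (nat_lit 94) (nat_lit 252)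 (nat_lit 0) (XT.lf (nat_lit 168) (nat_lit 118120251) (nat_lit 0) (nat_lit 449851926) (nat_lit 84) (nat_lit 1571888009) (nat_lit 45) (nat_lit 1) (nat_lit 43) (nat_lit 1) (nat_lit 44) (nat_lit 1) (nat_lit 382) (nat_lit 365) (nat_lit 333)) (XT.lf (nat_lit 252) (nat_lit 1275064500) (nat_lit 0) (nat_lit 460078476) (nat_lit 168) (nat_lit 346358670) (nat_lit 43) (nat_lit 1) (nat_lit 40) (nat_lit 1) (nat_lit 42) (nat_lit 1) (nat_lit 383) (nat_lit 365) (nat_lit 332))))) (XT.nd (nat_lit 188) (nat_lit 420) (nat_lit 0) (XT.nd (nat_lit 94) (nat_lit 252) (nat_lit 0) (XT.lf (nat_lit 168) (nat_lit 320688124) (nat_lit 0) (nat_lit 477281274) (nat_lit 84) (nat_lit 1227140508) (nat_lit 41) (nat_lit 1) (nat_lit 39) (nat_lit 1) (nat_lit 40) (nat_lit 1) (nat_lit 384) (nat_lit 365) (nat_lit 331)) (XT.lf (nat_lit 252) (nat_lit 1388180023) (nat_lit 0) (nat_lit 500300691) (nat_lit 168)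 (nat_lit 82103626) (nat_lit 39) (nat_lit 1) (nat_lit 36) (nat_lit 1) (nat_lit 38) (nat_lit 1) (nat_lit 385) (nat_lit 365) (nat_lit 330))) (XT.nd (nat_lit 94) (nat_lit 336) (nat_lit 0) (XT.lf (nat_lit 168) (nat_lit 461514206) (nat_lit 0) (nat_lit 521569482) (nat_lit 84) (nat_lit 934436771) (nat_lit 37) (nat_lit 1) (nat_lit 35) (nat_lit 1) (nat_lit 36) (nat_lit 1) (nat_lit 386) (nat_lit 365) (nat_lit 329)) (XT.nd (nat_lit 94) (nat_lit 84) (nat_lit 0) (XT.lf (nat_lit 84) (nat_lit 133211366) (nat_lit 0) (nat_lit 418114970) (nat_lit 252) (nat_lit 1315036565) (nat_lit 33) (nat_lit 1) (nat_lit 32) (nat_lit 1) (nat_lit 35) (nat_lit 1) (nat_lit 387) (nat_lit 365) (nat_lit 328)) (XT.lf (nat_lit 168) (nat_lit 553858686) (nat_lit 0) (nat_lit 577094499) (nat_lit 84) (nat_lit 685522625) (nat_lit 33) (nat_lit 1) (nat_lit 31) (nat_lit 1) (nat_lit 32) (nat_lit 1) (nat_lit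 388) (nat_lit 365) (nat_lit 327))))))))
noncomputable def ec38 : XT := (XT.nd (nat_lit 1692) (nat_lit 252) (nat_lit 0) (XT.nd (nat_lit 846) (nat_lit 1092) (nat_lit 0) (XT.nd (nat_lit 376) (nat_lit 672) (nat_lit 0) (XT.nd (nat_lit 188) (nat_lit 252) (nat_lit 0) (XT.nd (nat_lit 94) (nat_lit 84) (nat_lit 0) (XT.lf (nat_lit 84) (nat_lit 309800037) (nat_lit 0) (nat_lit 300062284) (nat_lit 252) (nat_lit 1158479553) (nat_lit 29) (nat_lit 1) (nat_lit 28) (nat_lit 1) (nat_lit 31) (nat_lit 1) (nat_lit 389) (nat_lit 365) (nat_lit 326)) (XT.lf (nat_lit 168) (nat_lit 608415010) (nat_lit 0) (nat_lit 639467678) (nat_lit 84) (nat_lit 473555054) (nat_lit 29) (nat_lit 1) (nat_lit 27) (nat_lit 1) (nat_lit 28) (nat_lit 1) (nat_lit 390) (nat_lit 365) (nat_lit 325))) (XT.nd (nat_lit 94) (nat_lit 84) (nat_lit 0) (XT.lf (nat_lit 84) (nat_lit 456097293) (nat_lit 0) (nat_lit 217322199)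 (nat_lit 168) (nat_lit 1002663145) (nat_lit 26) (nat_lit 1) (nat_lit 25) (nat_lit 1) (nat_lit 27) (nat_lit 1) (nat_lit 391) (nat_lit 365) (nat_lit 324)) (XT.lf (nat_lit 168) (nat_lit 633789491) (nat_lit 0) (nat_lit 705293394) (nat_lit 84) (nat_lit 292850471) (nat_lit 26) (nat_lit 1) (nat_lit 24) (nat_lit 1) (nat_lit 25) (nat_lit 1) (nat_lit 392) (nat_lit 365) (nat_lit 323)))) (XT.nd (nat_lit 188) (nat_lit 420) (nat_lit 0) (XT.nd (nat_lit 94) (nat_lit 84) (nat_lit 0) (XT.lf (nat_lit 84) (nat_lit 576920668) (nat_lit 0) (nat_lit 162125194) (nat_lit 168) (nat_lit 850096201) (nat_lit 23) (nat_lit 1) (nat_lit 22) (nat_lit 1) (nat_lit 24) (nat_lit 1) (nat_lit 393) (nat_lit 365) (nat_lit 322)) (XT.lf (nat_lit 168) (nat_lit 636892390) (nat_lit 0) (nat_lit 771973678) (nat_lit 84) (nat_lit 138678725) (nat_lit 23) (nat_lit 1) (nat_lit 21) (nat_lit 1) (nat_lit 22) (nat_lit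 1) (nat_lit 394) (nat_lit 365) (nat_lit 321))) (XT.nd (nat_lit 94) (nat_lit 252) (nat_lit 0) (XT.lf (nat_lit 84) (nat_lit 676274072) (nat_lit 0) (nat_lit 128223853) (nat_lit 168) (nat_lit 702629414) (nat_lit 20) (nat_lit 1) (nat_lit 19) (nat_lit 1) (nat_lit 21) (nat_lit 1) (nat_lit 395) (nat_lit 365) (nat_lit 320)) (XT.nd (nat_lit 94) (nat_lit 168) (nat_lit 0) (XT.lf (nat_lit 168) (nat_lit 623256720) (nat_lit 0) (nat_lit 837549560) (nat_lit 84) (nat_lit 7094450) (nat_lit 20) (nat_lit 1) (nat_lit 18) (nat_lit 1) (nat_lit 19) (nat_lit 1) (nat_lit 396) (nat_lit 365) (nat_lit 319)) (XT.lf (nat_lit 84) (nat_lit 757491808) (nat_lit 0) (nat_lit 110607062) (nat_lit 168) (nat_lit 561589438) (nat_lit 17) (nat_lit 1) (nat_lit 16) (nat_lit 1) (nat_lit 18) (nat_lit 1) (nat_lit 397) (nat_lit 365) (nat_lit 318)))))) (XT.nd (nat_lit 376) (nat_lit 588) (nat_lit 0) (XT.nd (nat_lit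 188) (nat_lit 252) (nat_lit 0) (XT.nd (nat_lit 94) (nat_lit 168) (nat_lit 0) (XT.lf (nat_lit 0) (nat_lit 101833947) (nat_lit 0) (nat_lit 797013768) (nat_lit 168) (nat_lit 493739539) (nat_lit 15) (nat_lit 3) (nat_lit 15) (nat_lit 1) (nat_lit 17) (nat_lit 1) (nat_lit 398) (nat_lit 365) (nat_lit 317)) (XT.lf (nat_lit 84) (nat_lit 823356522) (nat_lit 0) (nat_lit 105267062) (nat_lit 168) (nat_lit 427887541) (nat_lit 14) (nat_lit 1) (nat_lit 13) (nat_lit 1) (nat_lit 15) (nat_lit 1) (nat_lit 399) (nat_lit 365) (nat_lit 316))) (XT.nd (nat_lit 94) (nat_lit 168) (nat_lit 0) (XT.lf (nat_lit 0) (nat_lit 194540512) (nat_lit 0) (nat_lit 762163987) (nat_lit 168) (nat_lit 364691286) (nat_lit 12) (nat_lit 3) (nat_lit 12) (nat_lit 1) (nat_lit 14) (nat_lit 1) (nat_lit 400) (nat_lit 365) (nat_lit 315)) (XT.lf (nat_lit 84) (nat_lit 876195846) (nat_lit 0) (nat_lit 109009636) (nat_lit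 168) (nat_lit 302107536) (nat_lit 11) (nat_lit 1) (nat_lit 10) (nat_lit 1) (nat_lit 12) (nat_lit 1) (nat_lit 401) (nat_lit 365) (nat_lit 314)))) (XT.nd (nat_lit 188) (nat_lit 336) (nat_lit 0) (XT.nd (nat_lit 94) (nat_lit 168) (nat_lit 0) (XT.lf (nat_lit 0) (nat_lit 273502310) (nat_lit 0) (nat_lit 736974348) (nat_lit 168) (nat_lit 243584236) (nat_lit 9) (nat_lit 3) (nat_lit 9) (nat_lit 1) (nat_lit 11) (nat_lit 1) (nat_lit 402) (nat_lit 365) (nat_lit 313)) (XT.lf (nat_lit 84) (nat_lit 917961620) (nat_lit 0) (nat_lit 119299491) (nat_lit 168) (nat_lit 184576819) (nat_lit 8) (nat_lit 1) (nat_lit 7) (nat_lit 1) (nat_lit 9) (nat_lit 1) (nat_lit 403) (nat_lit 365) (nat_lit 312))) (XT.nd (nat_lit 94) (nat_lit 252) (nat_lit 0) (XT.lf (nat_lit 0) (nat_lit 340616316) (nat_lit 0) (nat_lit 719047335) (nat_lit 168) (nat_lit 130673161) (nat_lit 6) (nat_lit 3) (nat_lit 6)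 (nat_lit 1) (nat_lit 8) (nat_lit 1) (nat_lit 404) (nat_lit 365) (nat_lit 311)) (XT.nd (nat_lit 94) (nat_lit 84) (nat_lit 0) (XT.lf (nat_lit 84) (nat_lit 950294864) (nat_lit 0) (nat_lit 134134352) (nat_lit 168) (nat_lit 75423669) (nat_lit 5) (nat_lit 1) (nat_lit 4) (nat_lit 1) (nat_lit 6) (nat_lit 1) (nat_lit 405) (nat_lit 365) (nat_lit 310)) (XT.lf (nat_lit 0) (nat_lit 397486919) (nat_lit 0) (nat_lit 706480827) (nat_lit 168) (nat_lit 26031840) (nat_lit 3) (nat_lit 3) (nat_lit 3) (nat_lit 1) (nat_lit 5) (nat_lit 1) (nat_lit 406) (nat_lit 365) (nat_lit 309))))))) (XT.nd (nat_lit 846) (nat_lit 0) (nat_lit 0) (XT.nd (nat_lit 376) (nat_lit 0) (nat_lit 0) (XT.nd (nat_lit 188) (nat_lit 0) (nat_lit 0) (XT.nd (nat_lit 94) (nat_lit 0) (nat_lit 0) (XT.lf (nat_lit 0) (nat_lit 1597306491) (nat_lit 0) (nat_lit 0) (nat_lit 0) (nat_lit 0) (nat_lit 0) (nat_lit 0) (nat_lit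 1) (nat_lit 0) (nat_lit 1) (nat_lit 0) (nat_lit 407) (nat_lit 365) (nat_lit 308)) (XT.lf (nat_lit 0) (nat_lit 1595852603) (nat_lit 0) (nat_lit 0) (nat_lit 0) (nat_lit 0) (nat_lit 0) (nat_lit 0) (nat_lit 1) (nat_lit 0) (nat_lit 1) (nat_lit 0) (nat_lit 408) (nat_lit 365) (nat_lit 307))) (XT.nd (nat_lit 94) (nat_lit 0) (nat_lit 0) (XT.lf (nat_lit 0) (nat_lit 1594506411) (nat_lit 0) (nat_lit 0) (nat_lit 0) (nat_lit 0) (nat_lit 0) (nat_lit 0) (nat_lit 1) (nat_lit 0) (nat_lit 1) (nat_lit 0) (nat_lit 409) (nat_lit 365) (nat_lit 306)) (XT.lf (nat_lit 0) (nat_lit 1593259937) (nat_lit 0) (nat_lit 0) (nat_lit 0) (nat_lit 0) (nat_lit 0) (nat_lit 0) (nat_lit 1) (nat_lit 0) (nat_lit 1) (nat_lit 0) (nat_lit 410) (nat_lit 365) (nat_lit 305)))) (XT.nd (nat_lit 188) (nat_lit 0) (nat_lit 0) (XT.nd (nat_lit 94) (nat_lit 0) (nat_lit 0) (XT.lf (nat_lit 0) (nat_lit 1592105794) (nat_lit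 0) (nat_lit 0) (nat_lit 0) (nat_lit 0) (nat_lit 0) (nat_lit 0) (nat_lit 1) (nat_lit 0) (nat_lit 1) (nat_lit 0) (nat_lit 411) (nat_lit 365) (nat_lit 304)) (XT.lf (nat_lit 0) (nat_lit 1591037143) (nat_lit 0) (nat_lit 0) (nat_lit 0) (nat_lit 0) (nat_lit 0) (nat_lit 0) (nat_lit 1) (nat_lit 0) (nat_lit 1) (nat_lit 0) (nat_lit 412) (nat_lit 365) (nat_lit 303))) (XT.nd (nat_lit 94) (nat_lit 0) (nat_lit 0) (XT.lf (nat_lit 0) (nat_lit 1590047652) (nat_lit 0) (nat_lit 0) (nat_lit 0) (nat_lit 0) (nat_lit 0) (nat_lit 0) (nat_lit 1) (nat_lit 0) (nat_lit 1) (nat_lit 0) (nat_lit 413) (nat_lit 365) (nat_lit 302)) (XT.nd (nat_lit 94) (nat_lit 0) (nat_lit 0) (XT.lf (nat_lit 0) (nat_lit 1589131456) (nat_lit 0) (nat_lit 0) (nat_lit 0) (nat_lit 0) (nat_lit 0) (nat_lit 0) (nat_lit 1) (nat_lit 0) (nat_lit 1) (nat_lit 0) (nat_lit 414) (nat_lit 365) (nat_lit 301)) (XT.lf (nat_lit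 0) (nat_lit 1588283126) (nat_lit 0) (nat_lit 0) (nat_lit 0) (nat_lit 0) (nat_lit 0) (nat_lit 0) (nat_lit 1) (nat_lit 0) (nat_lit 1) (nat_lit 0) (nat_lit 415) (nat_lit 365) (nat_lit 300)))))) (XT.nd (nat_lit 470) (nat_lit 0) (nat_lit 0) (XT.nd (nat_lit 188) (nat_lit 0) (nat_lit 0) (XT.nd (nat_lit 94) (nat_lit 0) (nat_lit 0) (XT.lf (nat_lit 0) (nat_lit 1587497636) (nat_lit 0) (nat_lit 0) (nat_lit 0) (nat_lit 0) (nat_lit 0) (nat_lit 0) (nat_lit 1) (nat_lit 0) (nat_lit 1) (nat_lit 0) (nat_lit 416) (nat_lit 365) (nat_lit 299)) (XT.lf (nat_lit 0) (nat_lit 1586770331) (nat_lit 0) (nat_lit 0) (nat_lit 0) (nat_lit 0) (nat_lit 0) (nat_lit 0) (nat_lit 1) (nat_lit 0) (nat_lit 1) (nat_lit 0) (nat_lit 417) (nat_lit 365) (nat_lit 298))) (XT.nd (nat_lit 94) (nat_lit 0) (nat_lit 0) (XT.lf (nat_lit 0) (nat_lit 1586096899) (nat_lit 0) (nat_lit 0) (nat_lit 0) (nat_lit 0) (nat_lit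 0) (nat_lit 0) (nat_lit 1) (nat_lit 0) (nat_lit 1) (nat_lit 0) (nat_lit 418) (nat_lit 365) (nat_lit 297)) (XT.nd (nat_lit 94) (nat_lit 0) (nat_lit 0) (XT.lf (nat_lit 0) (nat_lit 1585473352) (nat_lit 0) (nat_lit 0) (nat_lit 0) (nat_lit 0) (nat_lit 0) (nat_lit 0) (nat_lit 1) (nat_lit 0) (nat_lit 1) (nat_lit 0) (nat_lit 419) (nat_lit 365) (nat_lit 296)) (XT.lf (nat_lit 0) (nat_lit 1584895993) (nat_lit 0) (nat_lit 0) (nat_lit 0) (nat_lit 0) (nat_lit 0) (nat_lit 0) (nat_lit 1) (nat_lit 0) (nat_lit 1) (nat_lit 0) (nat_lit 420) (nat_lit 365) (nat_lit 295))))) (XT.nd (nat_lit 188) (nat_lit 0) (nat_lit 0) (XT.nd (nat_lit 94) (nat_lit 0) (nat_lit 0) (XT.lf (nat_lit 0) (nat_lit 1584361402) (nat_lit 0) (nat_lit 0) (nat_lit 0) (nat_lit 0) (nat_lit 0) (nat_lit 0) (nat_lit 1) (nat_lit 0) (nat_lit 1) (nat_lit 0) (nat_lit 421) (nat_lit 365) (nat_lit 294)) (XT.lf (nat_lit 0)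 (nat_lit 1583866410) (nat_lit 0) (nat_lit 0) (nat_lit 0) (nat_lit 0) (nat_lit 0) (nat_lit 0) (nat_lit 1) (nat_lit 0) (nat_lit 1) (nat_lit 0) (nat_lit 422) (nat_lit 365) (nat_lit 293))) (XT.nd (nat_lit 94) (nat_lit 0) (nat_lit 0) (XT.lf (nat_lit 0) (nat_lit 1583408084) (nat_lit 0) (nat_lit 0) (nat_lit 0) (nat_lit 0) (nat_lit 0) (nat_lit 0) (nat_lit 1) (nat_lit 0) (nat_lit 1) (nat_lit 0) (nat_lit 423) (nat_lit 365) (nat_lit 292)) (XT.nd (nat_lit 94) (nat_lit 0) (nat_lit 0) (XT.lf (nat_lit 0) (nat_lit 1582983708) (nat_lit 0) (nat_lit 0) (nat_lit 0) (nat_lit 0) (nat_lit 0) (nat_lit 0) (nat_lit 1) (nat_lit 0) (nat_lit 1) (nat_lit 0) (nat_lit 424) (nat_lit 365) (nat_lit 291)) (XT.lf (nat_lit 0) (nat_lit 1582590767) (nat_lit 0) (nat_lit 0) (nat_lit 0) (nat_lit 0) (nat_lit 0) (nat_lit 0) (nat_lit 1) (nat_lit 0) (nat_lit 1) (nat_lit 0) (nat_lit 425) (nat_lit 365) (nat_lit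 290))))))))
noncomputable def ec39 : XT := (XT.nd (nat_lit 61664) (nat_lit 0) (nat_lit 3696) (XT.nd (nat_lit 60724) (nat_lit 0) (nat_lit 8568) (XT.nd (nat_lit 376) (nat_lit 0) (nat_lit 0) (XT.nd (nat_lit 188) (nat_lit 0) (nat_lit 0) (XT.nd (nat_lit 94) (nat_lit 0) (nat_lit 0) (XT.lf (nat_lit 0) (nat_lit 1582226933) (nat_lit 0) (nat_lit 0) (nat_lit 0) (nat_lit 0) (nat_lit 0) (nat_lit 0) (nat_lit 1) (nat_lit 0) (nat_lit 1) (nat_lit 0) (nat_lit 426) (nat_lit 365) (nat_lit 289)) (XT.lf (nat_lit 0) (nat_lit 1581890050) (nat_lit 0) (nat_lit 0) (nat_lit 0) (nat_lit 0) (nat_lit 0) (nat_lit 0) (nat_lit 1) (nat_lit 0) (nat_lit 1) (nat_lit 0) (nat_lit 427) (nat_lit 365) (nat_lit 288))) (XT.nd (nat_lit 94) (nat_lit 0) (nat_lit 0) (XT.lf (nat_lit 0) (nat_lit 1581578121) (nat_lit 0) (nat_lit 0) (nat_lit 0) (nat_lit 0) (nat_lit 0) (nat_lit 0) (nat_lit 1) (nat_lit 0) (nat_lit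 1) (nat_lit 0) (nat_lit 428) (nat_lit 365) (nat_lit 287)) (XT.lf (nat_lit 0) (nat_lit 1581289298) (nat_lit 0) (nat_lit 0) (nat_lit 0) (nat_lit 0) (nat_lit 0) (nat_lit 0) (nat_lit 1) (nat_lit 0) (nat_lit 1) (nat_lit 0) (nat_lit 429) (nat_lit 365) (nat_lit 286)))) (XT.nd (nat_lit 60066) (nat_lit 0) (nat_lit 10752) (XT.nd (nat_lit 94) (nat_lit 0) (nat_lit 0) (XT.lf (nat_lit 0) (nat_lit 1581021869) (nat_lit 0) (nat_lit 0) (nat_lit 0) (nat_lit 0) (nat_lit 0) (nat_lit 0) (nat_lit 1) (nat_lit 0) (nat_lit 1) (nat_lit 0) (nat_lit 430) (nat_lit 365) (nat_lit 285)) (XT.lf (nat_lit 0) (nat_lit 1580774250) (nat_lit 0) (nat_lit 0) (nat_lit 0) (nat_lit 0) (nat_lit 0) (nat_lit 0) (nat_lit 1) (nat_lit 0) (nat_lit 1) (nat_lit 0) (nat_lit 431) (nat_lit 365) (nat_lit 284))) (XT.nd (nat_lit 94) (nat_lit 0) (nat_lit 84) (XT.lf (nat_lit 924) (nat_lit 852692046) (nat_lit 0) (nat_lit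 1513952767) (nat_lit 924) (nat_lit 852692046) (nat_lit 139) (nat_lit 1) (nat_lit 128) (nat_lit 0) (nat_lit 139) (nat_lit 0) (nat_lit 348) (nat_lit 366) (nat_lit 366)) (XT.nd (nat_lit 94) (nat_lit 0) (nat_lit 0) (XT.lf (nat_lit 924) (nat_lit 318080297) (nat_lit 0) (nat_lit 2972348126) (nat_lit 840) (nat_lit 2906946537) (nat_lit 140) (nat_lit 1) (nat_lit 129) (nat_lit 1) (nat_lit 139) (nat_lit 1) (nat_lit 349) (nat_lit 366) (nat_lit 365)) (XT.lf (nat_lit 924) (nat_lit 2921383932) (nat_lit 84) (nat_lit 1990582542) (nat_lit 0) (nat_lit 1055714177) (nat_lit 140) (nat_lit 1) (nat_lit 130) (nat_lit 1) (nat_lit 129) (nat_lit 1) (nat_lit 350) (nat_lit 366) (nat_lit 364)))))) (XT.nd (nat_lit 470) (nat_lit 1764) (nat_lit 0) (XT.nd (nat_lit 188) (nat_lit 588) (nat_lit 0) (XT.nd (nat_lit 94) (nat_lit 0) (nat_lit 84) (XT.lf (nat_lit 924) (nat_lit 2524315040) (nat_lit 84)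 (nat_lit 834239345) (nat_lit 0) (nat_lit 2390926442) (nat_lit 141) (nat_lit 1) (nat_lit 131) (nat_lit 1) (nat_lit 130) (nat_lit 1) (nat_lit 351) (nat_lit 366) (nat_lit 363)) (XT.lf (nat_lit 924) (nat_lit 1868207739) (nat_lit 0) (nat_lit 3495328374) (nat_lit 840) (nat_lit 178680687) (nat_lit 142) (nat_lit 1) (nat_lit 131) (nat_lit 1) (nat_lit 141) (nat_lit 1) (nat_lit 352) (nat_lit 366) (nat_lit 362))) (XT.nd (nat_lit 94) (nat_lit 756) (nat_lit 0) (XT.lf (nat_lit 924) (nat_lit 448258129) (nat_lit 0) (nat_lit 3854570573) (nat_lit 840) (nat_lit 1042022379) (nat_lit 143) (nat_lit 1) (nat_lit 132) (nat_lit 1) (nat_lit 142) (nat_lit 1) (nat_lit 353) (nat_lit 366) (nat_lit 361)) (XT.nd (nat_lit 94) (nat_lit 756) (nat_lit 0) (XT.lf (nat_lit 924) (nat_lit 861369803) (nat_lit 84) (nat_lit 3349935719) (nat_lit 0) (nat_lit 945393190) (nat_lit 143) (nat_lit 1) (nat_lit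 133) (nat_lit 1) (nat_lit 132) (nat_lit 1) (nat_lit 354) (nat_lit 366) (nat_lit 360)) (XT.lf (nat_lit 924) (nat_lit 176905715) (nat_lit 0) (nat_lit 2504298539) (nat_lit 840) (nat_lit 2296415521) (nat_lit 134) (nat_lit 1) (nat_lit 123) (nat_lit 1) (nat_lit 133) (nat_lit 1) (nat_lit 355) (nat_lit 366) (nat_lit 359))))) (XT.nd (nat_lit 188) (nat_lit 756) (nat_lit 0) (XT.nd (nat_lit 94) (nat_lit 420) (nat_lit 0) (XT.lf (nat_lit 84) (nat_lit 1224932027) (nat_lit 0) (nat_lit 530820051) (nat_lit 588) (nat_lit 3051267977) (nat_lit 117) (nat_lit 1) (nat_lit 116) (nat_lit 1) (nat_lit 123) (nat_lit 1) (nat_lit 356) (nat_lit 366) (nat_lit 358)) (XT.lf (nat_lit 504) (nat_lit 3375758488) (nat_lit 0) (nat_lit 1098882163) (nat_lit 420) (nat_lit 169893972) (nat_lit 117) (nat_lit 1) (nat_lit 111) (nat_lit 1) (nat_lit 116) (nat_lit 1) (nat_lit 357) (nat_lit 366) (nat_lit 357)))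 (XT.nd (nat_lit 94) (nat_lit 336) (nat_lit 0) (XT.lf (nat_lit 504) (nat_lit 2435979471) (nat_lit 0) (nat_lit 512193710) (nat_lit 420) (nat_lit 1540862594) (nat_lit 112) (nat_lit 1) (nat_lit 106) (nat_lit 1) (nat_lit 111) (nat_lit 1) (nat_lit 358) (nat_lit 366) (nat_lit 356)) (XT.nd (nat_lit 94) (nat_lit 0) (nat_lit 0) (XT.lf (nat_lit 420) (nat_lit 1482262440) (nat_lit 0) (nat_lit 9430318) (nat_lit 336) (nat_lit 2849383970) (nat_lit 107) (nat_lit 1) (nat_lit 102) (nat_lit 1) (nat_lit 106) (nat_lit 1) (nat_lit 359) (nat_lit 366) (nat_lit 355)) (XT.lf (nat_lit 84) (nat_lit 109354317) (nat_lit 0) (nat_lit 3687957477) (nat_lit 420) (nat_lit 402612266) (nat_lit 103) (nat_lit 1) (nat_lit 102) (nat_lit 1) (nat_lit 107) (nat_lit 1) (nat_lit 360) (nat_lit 366) (nat_lit 354))))))) (XT.nd (nat_lit 846) (nat_lit 2016) (nat_lit 0) (XT.nd (nat_lit 376) (nat_lit 1512) (nat_lit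 0) (XT.nd (nat_lit 188) (nat_lit 588) (nat_lit 0) (XT.nd (nat_lit 94) (nat_lit 336) (nat_lit 0) (XT.lf (nat_lit 84) (nat_lit 2823556845) (nat_lit 0) (nat_lit 468317114) (nat_lit 420) (nat_lit 772339975) (nat_lit 98) (nat_lit 1) (nat_lit 97) (nat_lit 1) (nat_lit 102) (nat_lit 1) (nat_lit 361) (nat_lit 366) (nat_lit 353)) (XT.lf (nat_lit 84) (nat_lit 1412697040) (nat_lit 0) (nat_lit 1434538456) (nat_lit 420) (nat_lit 1087264677) (nat_lit 94) (nat_lit 1) (nat_lit 93) (nat_lit 1) (nat_lit 98) (nat_lit 1) (nat_lit 362) (nat_lit 366) (nat_lit 352))) (XT.nd (nat_lit 94) (nat_lit 252) (nat_lit 0) (XT.lf (nat_lit 84) (nat_lit 69727593) (nat_lit 0) (nat_lit 2398526023) (nat_lit 420) (nat_lit 1342674314) (nat_lit 90) (nat_lit 1) (nat_lit 89) (nat_lit 1) (nat_lit 94) (nat_lit 1) (nat_lit 363) (nat_lit 366) (nat_lit 351)) (XT.lf (nat_lit 336) (nat_lit 314885881) (nat_lit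 0) (nat_lit 2129422491) (nat_lit 252) (nat_lit 1247890519) (nat_lit 90) (nat_lit 1) (nat_lit 86) (nat_lit 1) (nat_lit 89) (nat_lit 1) (nat_lit 364) (nat_lit 366) (nat_lit 350)))) (XT.nd (nat_lit 188) (nat_lit 840) (nat_lit 0) (XT.nd (nat_lit 94) (nat_lit 252) (nat_lit 0) (XT.lf (nat_lit 84) (nat_lit 1088015381) (nat_lit 0) (nat_lit 745732502) (nat_lit 420) (nat_lit 1744626881) (nat_lit 82) (nat_lit 1) (nat_lit 81) (nat_lit 1) (nat_lit 86) (nat_lit 1) (nat_lit 365) (nat_lit 366) (nat_lit 349)) (XT.lf (nat_lit 336) (nat_lit 1684509511) (nat_lit 0) (nat_lit 1582378968) (nat_lit 252) (nat_lit 202542629) (nat_lit 82) (nat_lit 1) (nat_lit 78) (nat_lit 1) (nat_lit 81) (nat_lit 1) (nat_lit 366) (nat_lit 366) (nat_lit 348))) (XT.nd (nat_lit 94) (nat_lit 588) (nat_lit 0) (XT.lf (nat_lit 336) (nat_lit 539877160) (nat_lit 0) (nat_lit 1362363494) (nat_lit 252) (nat_lit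 1462433535) (nat_lit 79) (nat_lit 1) (nat_lit 75) (nat_lit 1) (nat_lit 78) (nat_lit 1) (nat_lit 367) (nat_lit 366) (nat_lit 347)) (XT.nd (nat_lit 94) (nat_lit 252) (nat_lit 0) (XT.lf (nat_lit 84) (nat_lit 615329511) (nat_lit 0) (nat_lit 563387640) (nat_lit 336) (nat_lit 2085550870) (nat_lit 72) (nat_lit 1) (nat_lit 71) (nat_lit 1) (nat_lit 75) (nat_lit 1) (nat_lit 368) (nat_lit 366) (nat_lit 346)) (XT.lf (nat_lit 336) (nat_lit 1531166727) (nat_lit 0) (nat_lit 1018781599) (nat_lit 252) (nat_lit 617588755) (nat_lit 72) (nat_lit 1) (nat_lit 68) (nat_lit 1) (nat_lit 71) (nat_lit 1) (nat_lit 369) (nat_lit 366) (nat_lit 345)))))) (XT.nd (nat_lit 470) (nat_lit 924) (nat_lit 0) (XT.nd (nat_lit 188) (nat_lit 588) (nat_lit 0) (XT.nd (nat_lit 94) (nat_lit 336) (nat_lit 0) (XT.lf (nat_lit 252) (nat_lit 379578492) (nat_lit 0) (nat_lit 888812635) (nat_lit 168) (nat_lit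 1806317409) (nat_lit 69) (nat_lit 1) (nat_lit 66) (nat_lit 1) (nat_lit 68) (nat_lit 1) (nat_lit 370) (nat_lit 366) (nat_lit 344)) (XT.lf (nat_lit 84) (nat_lit 64303021) (nat_lit 0) (nat_lit 719564772) (nat_lit 336) (nat_lit 2201610477) (nat_lit 63) (nat_lit 1) (nat_lit 62) (nat_lit 1) (nat_lit 66) (nat_lit 1) (nat_lit 371) (nat_lit 366) (nat_lit 343))) (XT.nd (nat_lit 94) (nat_lit 420) (nat_lit 0) (XT.lf (nat_lit 252) (nat_lit 1102985451) (nat_lit 0) (nat_lit 689271282) (nat_lit 168) (nat_lit 1106823852) (nat_lit 63) (nat_lit 1) (nat_lit 60) (nat_lit 1) (nat_lit 62) (nat_lit 1) (nat_lit 372) (nat_lit 366) (nat_lit 342)) (XT.nd (nat_lit 94) (nat_lit 168) (nat_lit 0) (XT.lf (nat_lit 84) (nat_lit 598433811) (nat_lit 0) (nat_lit 27642032) (nat_lit 252) (nat_lit 2190377152) (nat_lit 58) (nat_lit 1) (nat_lit 57) (nat_lit 1) (nat_lit 60) (nat_lit 1) (nat_lit 373)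 (nat_lit 366) (nat_lit 341)) (XT.lf (nat_lit 252) (nat_lit 1636002481) (nat_lit 0) (nat_lit 566911542) (nat_lit 168) (nat_lit 533314963) (nat_lit 58) (nat_lit 1) (nat_lit 55) (nat_lit 1) (nat_lit 57) (nat_lit 1) (nat_lit 374) (nat_lit 366) (nat_lit 340))))) (XT.nd (nat_lit 188) (nat_lit 504) (nat_lit 0) (XT.nd (nat_lit 94) (nat_lit 252) (nat_lit 0) (XT.lf (nat_lit 252) (nat_lit 508207929) (nat_lit 0) (nat_lit 527006968) (nat_lit 168) (nat_lit 1623857392) (nat_lit 56) (nat_lit 1) (nat_lit 53) (nat_lit 1) (nat_lit 55) (nat_lit 1) (nat_lit 375) (nat_lit 366) (nat_lit 339)) (XT.lf (nat_lit 252) (nat_lit 2017398710) (nat_lit 0) (nat_lit 503512383) (nat_lit 168) (nat_lit 63876387) (nat_lit 53) (nat_lit 1) (nat_lit 50) (nat_lit 1) (nat_lit 52) (nat_lit 1) (nat_lit 376) (nat_lit 366) (nat_lit 338))) (XT.nd (nat_lit 94) (nat_lit 336) (nat_lit 0) (XT.lf (nat_lit 252)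 (nat_lit 902894164) (nat_lit 0) (nat_lit 480684568) (nat_lit 168) (nat_lit 1128988079) (nat_lit 51) (nat_lit 1) (nat_lit 48) (nat_lit 1) (nat_lit 50) (nat_lit 1) (nat_lit 377) (nat_lit 366) (nat_lit 337)) (XT.nd (nat_lit 94) (nat_lit 168) (nat_lit 0) (XT.lf (nat_lit 84) (nat_lit 309276111) (nat_lit 0) (nat_lit 169992087) (nat_lit 168) (nat_lit 1964073471) (nat_lit 47) (nat_lit 1) (nat_lit 46) (nat_lit 1) (nat_lit 48) (nat_lit 1) (nat_lit 378) (nat_lit 366) (nat_lit 336)) (XT.lf (nat_lit 252) (nat_lit 1184649069) (nat_lit 0) (nat_lit 474193281) (nat_lit 168) (nat_lit 717021006) (nat_lit 47) (nat_lit 1) (nat_lit 44) (nat_lit 1) (nat_lit 46) (nat_lit 1) (nat_lit 379) (nat_lit 366) (nat_lit 335))))))))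
noncomputable def ec40 : XT := (XT.nd (nat_lit 1692) (nat_lit 1092) (nat_lit 0) (XT.nd (nat_lit 846) (nat_lit 1176) (nat_lit 0) (XT.nd (nat_lit 376) (nat_lit 756) (nat_lit 0) (XT.nd (nat_lit 188) (nat_lit 336) (nat_lit 0) (XT.nd (nat_lit 94) (nat_lit 252) (nat_lit 0) (XT.lf (nat_lit 168) (nat_lit 127569871) (nat_lit 0) (nat_lit 485840081) (nat_lit 84) (nat_lit 1697639050) (nat_lit 45) (nat_lit 1) (nat_lit 43) (nat_lit 1) (nat_lit 44) (nat_lit 1) (nat_lit 380) (nat_lit 366) (nat_lit 334)) (XT.lf (nat_lit 252) (nat_lit 1377069660) (nat_lit 0) (nat_lit 496884754) (nat_lit 168) (nat_lit 374067363) (nat_lit 43) (nat_lit 1) (nat_lit 40) (nat_lit 1) (nat_lit 42) (nat_lit 1) (nat_lit 381) (nat_lit 366) (nat_lit 333))) (XT.nd (nat_lit 94) (nat_lit 252) (nat_lit 0) (XT.lf (nat_lit 168) (nat_lit 346343174) (nat_lit 0) (nat_lit 515463776) (nat_lit 84) (nat_lit 1325311749)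 (nat_lit 41) (nat_lit 1) (nat_lit 39) (nat_lit 1) (nat_lit 40) (nat_lit 1) (nat_lit 382) (nat_lit 366) (nat_lit 332)) (XT.lf (nat_lit 252) (nat_lit 1499234425) (nat_lit 0) (nat_lit 540324746) (nat_lit 168) (nat_lit 88671916) (nat_lit 39) (nat_lit 1) (nat_lit 36) (nat_lit 1) (nat_lit 38) (nat_lit 1) (nat_lit 383) (nat_lit 366) (nat_lit 331)))) (XT.nd (nat_lit 188) (nat_lit 420) (nat_lit 0) (XT.nd (nat_lit 94) (nat_lit 252) (nat_lit 0) (XT.lf (nat_lit 168) (nat_lit 498435343) (nat_lit 0) (nat_lit 563295041) (nat_lit 84) (nat_lit 1009191713) (nat_lit 37) (nat_lit 1) (nat_lit 35) (nat_lit 1) (nat_lit 36) (nat_lit 1) (nat_lit 384) (nat_lit 366) (nat_lit 330)) (XT.lf (nat_lit 84) (nat_lit 143868275) (nat_lit 0) (nat_lit 451564168) (nat_lit 252) (nat_lit 1420239491) (nat_lit 33) (nat_lit 1) (nat_lit 32) (nat_lit 1) (nat_lit 35) (nat_lit 1) (nat_lit 385) (nat_lit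 366) (nat_lit 329))) (XT.nd (nat_lit 94) (nat_lit 336) (nat_lit 0) (XT.lf (nat_lit 168) (nat_lit 598167381) (nat_lit 0) (nat_lit 623262059) (nat_lit 84) (nat_lit 740364435) (nat_lit 33) (nat_lit 1) (nat_lit 31) (nat_lit 1) (nat_lit 32) (nat_lit 1) (nat_lit 386) (nat_lit 366) (nat_lit 328)) (XT.nd (nat_lit 94) (nat_lit 84) (nat_lit 0) (XT.lf (nat_lit 84) (nat_lit 334584040) (nat_lit 0) (nat_lit 324067267) (nat_lit 252) (nat_lit 1251157917) (nat_lit 29) (nat_lit 1) (nat_lit 28) (nat_lit 1) (nat_lit 31) (nat_lit 1) (nat_lit 387) (nat_lit 366) (nat_lit 327)) (XT.lf (nat_lit 168) (nat_lit 657088211) (nat_lit 0) (nat_lit 690625093) (nat_lit 84) (nat_lit 511439458) (nat_lit 29) (nat_lit 1) (nat_lit 27) (nat_lit 1) (nat_lit 28) (nat_lit 1) (nat_lit 388) (nat_lit 366) (nat_lit 326)))))) (XT.nd (nat_lit 376) (nat_lit 672) (nat_lit 0) (XT.nd (nat_lit 188) (nat_lit 252)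 (nat_lit 0) (XT.nd (nat_lit 94) (nat_lit 84) (nat_lit 0) (XT.lf (nat_lit 84) (nat_lit 492585076) (nat_lit 0) (nat_lit 234707975) (nat_lit 168) (nat_lit 1082876197) (nat_lit 26) (nat_lit 1) (nat_lit 25) (nat_lit 1) (nat_lit 27) (nat_lit 1) (nat_lit 389) (nat_lit 366) (nat_lit 325)) (XT.lf (nat_lit 168) (nat_lit 684492651) (nat_lit 0) (nat_lit 761716866) (nat_lit 84) (nat_lit 316278509) (nat_lit 26) (nat_lit 1) (nat_lit 24) (nat_lit 1) (nat_lit 25) (nat_lit 1) (nat_lit 390) (nat_lit 366) (nat_lit 324))) (XT.nd (nat_lit 94) (nat_lit 84) (nat_lit 0) (XT.lf (nat_lit 84) (nat_lit 623074322) (nat_lit 0) (nat_lit 175095209) (nat_lit 168) (nat_lit 918103897) (nat_lit 23) (nat_lit 1) (nat_lit 22) (nat_lit 1) (nat_lit 24) (nat_lit 1) (nat_lit 391) (nat_lit 366) (nat_lit 323)) (XT.lf (nat_lit 168) (nat_lit 687843781) (nat_lit 0) (nat_lit 833731573) (nat_lit 84) (nat_lit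 149773023) (nat_lit 23) (nat_lit 1) (nat_lit 21) (nat_lit 1) (nat_lit 22) (nat_lit 1) (nat_lit 392) (nat_lit 366) (nat_lit 322)))) (XT.nd (nat_lit 188) (nat_lit 420) (nat_lit 0) (XT.nd (nat_lit 94) (nat_lit 84) (nat_lit 0) (XT.lf (nat_lit 84) (nat_lit 730375998) (nat_lit 0) (nat_lit 138481762) (nat_lit 168) (nat_lit 758839768) (nat_lit 20) (nat_lit 1) (nat_lit 19) (nat_lit 1) (nat_lit 21) (nat_lit 1) (nat_lit 393) (nat_lit 366) (nat_lit 321)) (XT.lf (nat_lit 168) (nat_lit 673117258) (nat_lit 0) (nat_lit 904553525) (nat_lit 84) (nat_lit 7662006) (nat_lit 20) (nat_lit 1) (nat_lit 18) (nat_lit 1) (nat_lit 19) (nat_lit 1) (nat_lit 394) (nat_lit 366) (nat_lit 320))) (XT.nd (nat_lit 94) (nat_lit 252) (nat_lit 0) (XT.lf (nat_lit 84) (nat_lit 818091153) (nat_lit 0) (nat_lit 119455627) (nat_lit 168) (nat_lit 606516593) (nat_lit 17) (nat_lit 1) (nat_lit 16) (nat_lit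 1) (nat_lit 18) (nat_lit 1) (nat_lit 395) (nat_lit 366) (nat_lit 319)) (XT.nd (nat_lit 94) (nat_lit 168) (nat_lit 0) (XT.lf (nat_lit 0) (nat_lit 109980662) (nat_lit 0) (nat_lit 860774870) (nat_lit 168) (nat_lit 533238703) (nat_lit 15) (nat_lit 3) (nat_lit 15) (nat_lit 1) (nat_lit 17) (nat_lit 1) (nat_lit 396) (nat_lit 366) (nat_lit 318)) (XT.lf (nat_lit 84) (nat_lit 889225044) (nat_lit 0) (nat_lit 113688427) (nat_lit 168) (nat_lit 462118544) (nat_lit 14) (nat_lit 1) (nat_lit 13) (nat_lit 1) (nat_lit 15) (nat_lit 1) (nat_lit 397) (nat_lit 366) (nat_lit 317))))))) (XT.nd (nat_lit 846) (nat_lit 0) (nat_lit 0) (XT.nd (nat_lit 376) (nat_lit 588) (nat_lit 0) (XT.nd (nat_lit 188) (nat_lit 252) (nat_lit 0) (XT.nd (nat_lit 94) (nat_lit 168) (nat_lit 0) (XT.lf (nat_lit 0) (nat_lit 210103753) (nat_lit 0) (nat_lit 823137106) (nat_lit 168) (nat_lit 393866589) (nat_lit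 12) (nat_lit 3) (nat_lit 12) (nat_lit 1) (nat_lit 14) (nat_lit 1) (nat_lit 398) (nat_lit 366) (nat_lit 316)) (XT.lf (nat_lit 84) (nat_lit 946291514) (nat_lit 0) (nat_lit 117730407) (nat_lit 168) (nat_lit 326276139) (nat_lit 11) (nat_lit 1) (nat_lit 10) (nat_lit 1) (nat_lit 12) (nat_lit 1) (nat_lit 399) (nat_lit 366) (nat_lit 315))) (XT.nd (nat_lit 94) (nat_lit 168) (nat_lit 0) (XT.lf (nat_lit 0) (nat_lit 295382495) (nat_lit 0) (nat_lit 795932296) (nat_lit 168) (nat_lit 263070975) (nat_lit 9) (nat_lit 3) (nat_lit 9) (nat_lit 1) (nat_lit 11) (nat_lit 1) (nat_lit 400) (nat_lit 366) (nat_lit 314)) (XT.lf (nat_lit 84) (nat_lit 991398549) (nat_lit 0) (nat_lit 128843450) (nat_lit 168) (nat_lit 199342964) (nat_lit 8) (nat_lit 1) (nat_lit 7) (nat_lit 1) (nat_lit 9) (nat_lit 1) (nat_lit 401) (nat_lit 366) (nat_lit 313)))) (XT.nd (nat_lit 188) (nat_lit 336) (nat_lit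 0) (XT.nd (nat_lit 94) (nat_lit 168) (nat_lit 0) (XT.lf (nat_lit 0) (nat_lit 367865622) (nat_lit 0) (nat_lit 776571122) (nat_lit 168) (nat_lit 141127014) (nat_lit 6) (nat_lit 3) (nat_lit 6) (nat_lit 1) (nat_lit 8) (nat_lit 1) (nat_lit 402) (nat_lit 366) (nat_lit 312)) (XT.lf (nat_lit 84) (nat_lit 1026318454) (nat_lit 0) (nat_lit 144865100) (nat_lit 168) (nat_lit 81457563) (nat_lit 5) (nat_lit 1) (nat_lit 4) (nat_lit 1) (nat_lit 6) (nat_lit 1) (nat_lit 403) (nat_lit 366) (nat_lit 311))) (XT.nd (nat_lit 94) (nat_lit 252) (nat_lit 0) (XT.lf (nat_lit 0) (nat_lit 429285872) (nat_lit 0) (nat_lit 762999293) (nat_lit 168) (nat_lit 28114387) (nat_lit 3) (nat_lit 3) (nat_lit 3) (nat_lit 1) (nat_lit 5) (nat_lit 1) (nat_lit 404) (nat_lit 366) (nat_lit 310)) (XT.nd (nat_lit 94) (nat_lit 0) (nat_lit 0) (XT.lf (nat_lit 0) (nat_lit 1725091010) (nat_lit 0) (nat_lit 0) (nat_lit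 0) (nat_lit 0) (nat_lit 0) (nat_lit 0) (nat_lit 1) (nat_lit 0) (nat_lit 1) (nat_lit 0) (nat_lit 405) (nat_lit 366) (nat_lit 309)) (XT.lf (nat_lit 0) (nat_lit 1723520811) (nat_lit 0) (nat_lit 0) (nat_lit 0) (nat_lit 0) (nat_lit 0) (nat_lit 0) (nat_lit 1) (nat_lit 0) (nat_lit 1) (nat_lit 0) (nat_lit 406) (nat_lit 366) (nat_lit 308)))))) (XT.nd (nat_lit 470) (nat_lit 0) (nat_lit 0) (XT.nd (nat_lit 188) (nat_lit 0) (nat_lit 0) (XT.nd (nat_lit 94) (nat_lit 0) (nat_lit 0) (XT.lf (nat_lit 0) (nat_lit 1722066924) (nat_lit 0) (nat_lit 0) (nat_lit 0) (nat_lit 0) (nat_lit 0) (nat_lit 0) (nat_lit 1) (nat_lit 0) (nat_lit 1) (nat_lit 0) (nat_lit 407) (nat_lit 366) (nat_lit 307)) (XT.lf (nat_lit 0) (nat_lit 1720720732) (nat_lit 0) (nat_lit 0) (nat_lit 0) (nat_lit 0) (nat_lit 0) (nat_lit 0) (nat_lit 1) (nat_lit 0) (nat_lit 1) (nat_lit 0) (nat_lit 408) (nat_lit 366) (nat_lit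 306))) (XT.nd (nat_lit 94) (nat_lit 0) (nat_lit 0) (XT.lf (nat_lit 0) (nat_lit 1719474257) (nat_lit 0) (nat_lit 0) (nat_lit 0) (nat_lit 0) (nat_lit 0) (nat_lit 0) (nat_lit 1) (nat_lit 0) (nat_lit 1) (nat_lit 0) (nat_lit 409) (nat_lit 366) (nat_lit 305)) (XT.nd (nat_lit 94) (nat_lit 0) (nat_lit 0) (XT.lf (nat_lit 0) (nat_lit 1718320115) (nat_lit 0) (nat_lit 0) (nat_lit 0) (nat_lit 0) (nat_lit 0) (nat_lit 0) (nat_lit 1) (nat_lit 0) (nat_lit 1) (nat_lit 0) (nat_lit 410) (nat_lit 366) (nat_lit 304)) (XT.lf (nat_lit 0) (nat_lit 1717251464) (nat_lit 0) (nat_lit 0) (nat_lit 0) (nat_lit 0) (nat_lit 0) (nat_lit 0) (nat_lit 1) (nat_lit 0) (nat_lit 1) (nat_lit 0) (nat_lit 411) (nat_lit 366) (nat_lit 303))))) (XT.nd (nat_lit 188) (nat_lit 0) (nat_lit 0) (XT.nd (nat_lit 94) (nat_lit 0) (nat_lit 0) (XT.lf (nat_lit 0) (nat_lit 1716261972) (nat_lit 0) (nat_lit 0) (nat_lit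 0) (nat_lit 0) (nat_lit 0) (nat_lit 0) (nat_lit 1) (nat_lit 0) (nat_lit 1) (nat_lit 0) (nat_lit 412) (nat_lit 366) (nat_lit 302)) (XT.lf (nat_lit 0) (nat_lit 1715345777) (nat_lit 0) (nat_lit 0) (nat_lit 0) (nat_lit 0) (nat_lit 0) (nat_lit 0) (nat_lit 1) (nat_lit 0) (nat_lit 1) (nat_lit 0) (nat_lit 413) (nat_lit 366) (nat_lit 301))) (XT.nd (nat_lit 94) (nat_lit 0) (nat_lit 0) (XT.lf (nat_lit 0) (nat_lit 1714497447) (nat_lit 0) (nat_lit 0) (nat_lit 0) (nat_lit 0) (nat_lit 0) (nat_lit 0) (nat_lit 1) (nat_lit 0) (nat_lit 1) (nat_lit 0) (nat_lit 414) (nat_lit 366) (nat_lit 300)) (XT.nd (nat_lit 94) (nat_lit 0) (nat_lit 0) (XT.lf (nat_lit 0) (nat_lit 1713711957) (nat_lit 0) (nat_lit 0) (nat_lit 0) (nat_lit 0) (nat_lit 0) (nat_lit 0) (nat_lit 1) (nat_lit 0) (nat_lit 1) (nat_lit 0) (nat_lit 415) (nat_lit 366) (nat_lit 299)) (XT.lf (nat_lit 0) (nat_lit 1712984651)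 (nat_lit 0) (nat_lit 0) (nat_lit 0) (nat_lit 0) (nat_lit 0) (nat_lit 0) (nat_lit 1) (nat_lit 0) (nat_lit 1) (nat_lit 0) (nat_lit 416) (nat_lit 366) (nat_lit 298))))))))
noncomputable def ec41 : XT := (XT.nd (nat_lit 61476) (nat_lit 0) (nat_lit 5544) (XT.nd (nat_lit 846) (nat_lit 0) (nat_lit 0) (XT.nd (nat_lit 376) (nat_lit 0) (nat_lit 0) (XT.nd (nat_lit 188) (nat_lit 0) (nat_lit 0) (XT.nd (nat_lit 94) (nat_lit 0) (nat_lit 0) (XT.lf (nat_lit 0) (nat_lit 1712311220) (nat_lit 0) (nat_lit 0) (nat_lit 0) (nat_lit 0) (nat_lit 0) (nat_lit 0) (nat_lit 1) (nat_lit 0) (nat_lit 1) (nat_lit 0) (nat_lit 417) (nat_lit 366) (nat_lit 297)) (XT.lf (nat_lit 0) (nat_lit 1711687673) (nat_lit 0) (nat_lit 0) (nat_lit 0) (nat_lit 0) (nat_lit 0) (nat_lit 0) (nat_lit 1) (nat_lit 0) (nat_lit 1) (nat_lit 0) (nat_lit 418) (nat_lit 366) (nat_lit 296))) (XT.nd (nat_lit 94) (nat_lit 0)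 (nat_lit 0) (XT.lf (nat_lit 0) (nat_lit 1711110314) (nat_lit 0) (nat_lit 0) (nat_lit 0) (nat_lit 0) (nat_lit 0) (nat_lit 0) (nat_lit 1) (nat_lit 0) (nat_lit 1) (nat_lit 0) (nat_lit 419) (nat_lit 366) (nat_lit 295)) (XT.lf (nat_lit 0) (nat_lit 1710575722) (nat_lit 0) (nat_lit 0) (nat_lit 0) (nat_lit 0) (nat_lit 0) (nat_lit 0) (nat_lit 1) (nat_lit 0) (nat_lit 1) (nat_lit 0) (nat_lit 420) (nat_lit 366) (nat_lit 294)))) (XT.nd (nat_lit 188) (nat_lit 0) (nat_lit 0) (XT.nd (nat_lit 94) (nat_lit 0) (nat_lit 0) (XT.lf (nat_lit 0) (nat_lit 1710080730) (nat_lit 0) (nat_lit 0) (nat_lit 0) (nat_lit 0) (nat_lit 0) (nat_lit 0) (nat_lit 1) (nat_lit 0) (nat_lit 1) (nat_lit 0) (nat_lit 421) (nat_lit 366) (nat_lit 293)) (XT.lf (nat_lit 0) (nat_lit 1709622404) (nat_lit 0) (nat_lit 0) (nat_lit 0) (nat_lit 0) (nat_lit 0) (nat_lit 0) (nat_lit 1) (nat_lit 0) (nat_lit 1) (nat_lit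 0) (nat_lit 422) (nat_lit 366) (nat_lit 292))) (XT.nd (nat_lit 94) (nat_lit 0) (nat_lit 0) (XT.lf (nat_lit 0) (nat_lit 1709198028) (nat_lit 0) (nat_lit 0) (nat_lit 0) (nat_lit 0) (nat_lit 0) (nat_lit 0) (nat_lit 1) (nat_lit 0) (nat_lit 1) (nat_lit 0) (nat_lit 423) (nat_lit 366) (nat_lit 291)) (XT.nd (nat_lit 94) (nat_lit 0) (nat_lit 0) (XT.lf (nat_lit 0) (nat_lit 1708805088) (nat_lit 0) (nat_lit 0) (nat_lit 0) (nat_lit 0) (nat_lit 0) (nat_lit 0) (nat_lit 1) (nat_lit 0) (nat_lit 1) (nat_lit 0) (nat_lit 424) (nat_lit 366) (nat_lit 290)) (XT.lf (nat_lit 0) (nat_lit 1708441254) (nat_lit 0) (nat_lit 0) (nat_lit 0) (nat_lit 0) (nat_lit 0) (nat_lit 0) (nat_lit 1) (nat_lit 0) (nat_lit 1) (nat_lit 0) (nat_lit 425) (nat_lit 366) (nat_lit 289)))))) (XT.nd (nat_lit 470) (nat_lit 0) (nat_lit 0) (XT.nd (nat_lit 188) (nat_lit 0) (nat_lit 0) (XT.nd (nat_lit 94) (nat_lit 0)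 (nat_lit 0) (XT.lf (nat_lit 0) (nat_lit 1708104371) (nat_lit 0) (nat_lit 0) (nat_lit 0) (nat_lit 0) (nat_lit 0) (nat_lit 0) (nat_lit 1) (nat_lit 0) (nat_lit 1) (nat_lit 0) (nat_lit 426) (nat_lit 366) (nat_lit 288)) (XT.lf (nat_lit 0) (nat_lit 1707792442) (nat_lit 0) (nat_lit 0) (nat_lit 0) (nat_lit 0) (nat_lit 0) (nat_lit 0) (nat_lit 1) (nat_lit 0) (nat_lit 1) (nat_lit 0) (nat_lit 427) (nat_lit 366) (nat_lit 287))) (XT.nd (nat_lit 94) (nat_lit 0) (nat_lit 0) (XT.lf (nat_lit 0) (nat_lit 1707503618) (nat_lit 0) (nat_lit 0) (nat_lit 0) (nat_lit 0) (nat_lit 0) (nat_lit 0) (nat_lit 1) (nat_lit 0) (nat_lit 1) (nat_lit 0) (nat_lit 428) (nat_lit 366) (nat_lit 286)) (XT.nd (nat_lit 94) (nat_lit 0) (nat_lit 0) (XT.lf (nat_lit 0) (nat_lit 1707236190) (nat_lit 0) (nat_lit 0) (nat_lit 0) (nat_lit 0) (nat_lit 0) (nat_lit 0) (nat_lit 1) (nat_lit 0) (nat_lit 1) (nat_lit 0)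 (nat_lit 429) (nat_lit 366) (nat_lit 285)) (XT.lf (nat_lit 0) (nat_lit 1706988570) (nat_lit 0) (nat_lit 0) (nat_lit 0) (nat_lit 0) (nat_lit 0) (nat_lit 0) (nat_lit 1) (nat_lit 0) (nat_lit 1) (nat_lit 0) (nat_lit 430) (nat_lit 366) (nat_lit 284))))) (XT.nd (nat_lit 59878) (nat_lit 0) (nat_lit 10836) (XT.nd (nat_lit 59784) (nat_lit 0) (nat_lit 10752) (XT.lf (nat_lit 0) (nat_lit 1706759293) (nat_lit 0) (nat_lit 0) (nat_lit 0) (nat_lit 0) (nat_lit 0) (nat_lit 0) (nat_lit 1) (nat_lit 0) (nat_lit 1) (nat_lit 0) (nat_lit 431) (nat_lit 366) (nat_lit 283)) (XT.lf (nat_lit 924) (nat_lit 920907409) (nat_lit 0) (nat_lit 1635068989) (nat_lit 924) (nat_lit 920907409) (nat_lit 139) (nat_lit 1) (nat_lit 128) (nat_lit 0) (nat_lit 139) (nat_lit 0) (nat_lit 346) (nat_lit 367) (nat_lit 367))) (XT.nd (nat_lit 94) (nat_lit 0) (nat_lit 0) (XT.lf (nat_lit 924) (nat_lit 343526721)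 (nat_lit 0) (nat_lit 3210135976) (nat_lit 840) (nat_lit 3139502260) (nat_lit 140) (nat_lit 1) (nat_lit 129) (nat_lit 1) (nat_lit 139) (nat_lit 1) (nat_lit 347) (nat_lit 367) (nat_lit 366)) (XT.nd (nat_lit 94) (nat_lit 0) (nat_lit 84) (XT.lf (nat_lit 924) (nat_lit 3155094646) (nat_lit 84) (nat_lit 2149829145) (nat_lit 0) (nat_lit 1140171311) (nat_lit 140) (nat_lit 1) (nat_lit 130) (nat_lit 1) (nat_lit 129) (nat_lit 1) (nat_lit 348) (nat_lit 367) (nat_lit 365)) (XT.lf (nat_lit 924) (nat_lit 2726260243) (nat_lit 84) (nat_lit 900978493) (nat_lit 0) (nat_lit 2582200557) (nat_lit 141) (nat_lit 1) (nat_lit 131) (nat_lit 1) (nat_lit 130) (nat_lit 1) (nat_lit 349) (nat_lit 367) (nat_lit 364))))))) (XT.nd (nat_lit 846) (nat_lit 3024) (nat_lit 0) (XT.nd (nat_lit 376) (nat_lit 1764) (nat_lit 0) (XT.nd (nat_lit 188) (nat_lit 672) (nat_lit 0) (XT.nd (nat_lit 94) (nat_lit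 0) (nat_lit 84) (XT.lf (nat_lit 924) (nat_lit 2017664359) (nat_lit 0) (nat_lit 3774954644) (nat_lit 840) (nat_lit 192975142) (nat_lit 142) (nat_lit 1) (nat_lit 131) (nat_lit 1) (nat_lit 141) (nat_lit 1) (nat_lit 350) (nat_lit 367) (nat_lit 363)) (XT.lf (nat_lit 924) (nat_lit 484118780) (nat_lit 0) (nat_lit 4162936219) (nat_lit 840) (nat_lit 1125384170) (nat_lit 143) (nat_lit 1) (nat_lit 132) (nat_lit 1) (nat_lit 142) (nat_lit 1) (nat_lit 351) (nat_lit 367) (nat_lit 362))) (XT.nd (nat_lit 94) (nat_lit 756) (nat_lit 0) (XT.lf (nat_lit 924) (nat_lit 930279387) (nat_lit 84) (nat_lit 3617930576) (nat_lit 0) (nat_lit 1021024645) (nat_lit 143) (nat_lit 1) (nat_lit 133) (nat_lit 1) (nat_lit 132) (nat_lit 1) (nat_lit 352) (nat_lit 367) (nat_lit 361)) (XT.lf (nat_lit 924) (nat_lit 191058173) (nat_lit 0) (nat_lit 2704642423) (nat_lit 840) (nat_lit 2480128763) (nat_lit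 134) (nat_lit 1) (nat_lit 123) (nat_lit 1) (nat_lit 133) (nat_lit 1) (nat_lit 353) (nat_lit 367) (nat_lit 360)))) (XT.nd (nat_lit 188) (nat_lit 756) (nat_lit 0) (XT.nd (nat_lit 94) (nat_lit 420) (nat_lit 0) (XT.lf (nat_lit 84) (nat_lit 1322926589) (nat_lit 0) (nat_lit 573285655) (nat_lit 588) (nat_lit 3295369415) (nat_lit 117) (nat_lit 1) (nat_lit 116) (nat_lit 1) (nat_lit 123) (nat_lit 1) (nat_lit 354) (nat_lit 367) (nat_lit 359)) (XT.lf (nat_lit 504) (nat_lit 3645819167) (nat_lit 0) (nat_lit 1186792736) (nat_lit 420) (nat_lit 183485490) (nat_lit 117) (nat_lit 1) (nat_lit 111) (nat_lit 1) (nat_lit 116) (nat_lit 1) (nat_lit 355) (nat_lit 367) (nat_lit 358))) (XT.nd (nat_lit 94) (nat_lit 336) (nat_lit 0) (XT.lf (nat_lit 504) (nat_lit 2630857829) (nat_lit 0) (nat_lit 553169206) (nat_lit 420) (nat_lit 1664131601) (nat_lit 112) (nat_lit 1) (nat_lit 106) (nat_lit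 1) (nat_lit 111) (nat_lit 1) (nat_lit 356) (nat_lit 367) (nat_lit 357)) (XT.nd (nat_lit 94) (nat_lit 0) (nat_lit 0) (XT.lf (nat_lit 420) (nat_lit 1600843435) (nat_lit 0) (nat_lit 10184744) (nat_lit 336) (nat_lit 3077334687) (nat_lit 107) (nat_lit 1) (nat_lit 102) (nat_lit 1) (nat_lit 106) (nat_lit 1) (nat_lit 357) (nat_lit 367) (nat_lit 356)) (XT.lf (nat_lit 84) (nat_lit 118102663) (nat_lit 0) (nat_lit 3982994076) (nat_lit 420) (nat_lit 434821247) (nat_lit 103) (nat_lit 1) (nat_lit 102) (nat_lit 1) (nat_lit 107) (nat_lit 1) (nat_lit 358) (nat_lit 367) (nat_lit 355)))))) (XT.nd (nat_lit 470) (nat_lit 1260) (nat_lit 0) (XT.nd (nat_lit 188) (nat_lit 1008) (nat_lit 0) (XT.nd (nat_lit 94) (nat_lit 336) (nat_lit 0) (XT.lf (nat_lit 84) (nat_lit 3049441393) (nat_lit 0) (nat_lit 505782483) (nat_lit 420) (nat_lit 834127173) (nat_lit 98) (nat_lit 1) (nat_lit 97) (nat_lit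 1) (nat_lit 102) (nat_lit 1) (nat_lit 359) (nat_lit 367) (nat_lit 354)) (XT.lf (nat_lit 84) (nat_lit 1525712804) (nat_lit 0) (nat_lit 1549301532) (nat_lit 420) (nat_lit 1174245851) (nat_lit 94) (nat_lit 1) (nat_lit 93) (nat_lit 1) (nat_lit 98) (nat_lit 1) (nat_lit 360) (nat_lit 367) (nat_lit 353))) (XT.nd (nat_lit 94) (nat_lit 672) (nat_lit 0) (XT.lf (nat_lit 84) (nat_lit 75305800) (nat_lit 0) (nat_lit 2590408105) (nat_lit 420) (nat_lit 1450088259) (nat_lit 90) (nat_lit 1) (nat_lit 89) (nat_lit 1) (nat_lit 94) (nat_lit 1) (nat_lit 361) (nat_lit 367) (nat_lit 352)) (XT.nd (nat_lit 94) (nat_lit 420) (nat_lit 0) (XT.lf (nat_lit 336) (nat_lit 340076752) (nat_lit 0) (nat_lit 2299776290) (nat_lit 252) (nat_lit 1347721760) (nat_lit 90) (nat_lit 1) (nat_lit 86) (nat_lit 1) (nat_lit 89) (nat_lit 1) (nat_lit 362) (nat_lit 367) (nat_lit 351)) (XT.lf (nat_lit 84) (nat_lit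 1175056611) (nat_lit 0) (nat_lit 805391103) (nat_lit 420) (nat_lit 1884197031) (nat_lit 82) (nat_lit 1) (nat_lit 81) (nat_lit 1) (nat_lit 86) (nat_lit 1) (nat_lit 363) (nat_lit 367) (nat_lit 350))))) (XT.nd (nat_lit 188) (nat_lit 756) (nat_lit 0) (XT.nd (nat_lit 94) (nat_lit 252) (nat_lit 0) (XT.lf (nat_lit 336) (nat_lit 1819270272) (nat_lit 0) (nat_lit 1708969286) (nat_lit 252) (nat_lit 218746040) (nat_lit 82) (nat_lit 1) (nat_lit 78) (nat_lit 1) (nat_lit 81) (nat_lit 1) (nat_lit 364) (nat_lit 367) (nat_lit 349)) (XT.lf (nat_lit 336) (nat_lit 583067333) (nat_lit 0) (nat_lit 1471352573) (nat_lit 252) (nat_lit 1579428218) (nat_lit 79) (nat_lit 1) (nat_lit 75) (nat_lit 1) (nat_lit 78) (nat_lit 1) (nat_lit 365) (nat_lit 367) (nat_lit 348))) (XT.nd (nat_lit 94) (nat_lit 420) (nat_lit 0) (XT.lf (nat_lit 84) (nat_lit 664555872) (nat_lit 0) (nat_lit 608458652) (nat_lit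 336) (nat_lit 2252394940) (nat_lit 72) (nat_lit 1) (nat_lit 71) (nat_lit 1) (nat_lit 75) (nat_lit 1) (nat_lit 366) (nat_lit 367) (nat_lit 347)) (XT.nd (nat_lit 94) (nat_lit 168) (nat_lit 0) (XT.lf (nat_lit 336) (nat_lit 1653660065) (nat_lit 0) (nat_lit 1100284127) (nat_lit 252) (nat_lit 666995855) (nat_lit 72) (nat_lit 1) (nat_lit 68) (nat_lit 1) (nat_lit 71) (nat_lit 1) (nat_lit 367) (nat_lit 367) (nat_lit 346)) (XT.lf (nat_lit 252) (nat_lit 409944771) (nat_lit 0) (nat_lit 959917646) (nat_lit 168) (nat_lit 1950822801) (nat_lit 69) (nat_lit 1) (nat_lit 66) (nat_lit 1) (nat_lit 68) (nat_lit 1) (nat_lit 368) (nat_lit 367) (nat_lit 345))))))))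
noncomputable def ec42 : XT := (XT.nd (nat_lit 1692) (nat_lit 2268) (nat_lit 0) (XT.nd (nat_lit 846) (nat_lit 1428) (nat_lit 0) (XT.nd (nat_lit 376) (nat_lit 924) (nat_lit 0) (XT.nd (nat_lit 188) (nat_lit 420) (nat_lit 0) (XT.nd (nat_lit 94) (nat_lit 168) (nat_lit 0) (XT.lf (nat_lit 84) (nat_lit 69447263) (nat_lit 0) (nat_lit 777129953) (nat_lit 336) (nat_lit 2377739315) (nat_lit 63) (nat_lit 1) (nat_lit 62) (nat_lit 1) (nat_lit 66) (nat_lit 1) (nat_lit 369) (nat_lit 367) (nat_lit 344)) (XT.lf (nat_lit 252) (nat_lit 1191224287) (nat_lit 0) (nat_lit 744412984) (nat_lit 168) (nat_lit 1195369760) (nat_lit 63) (nat_lit 1) (nat_lit 60) (nat_lit 1) (nat_lit 62) (nat_lit 1) (nat_lit 370) (nat_lit 367) (nat_lit 343))) (XT.nd (nat_lit 94) (nat_lit 168) (nat_lit 0) (XT.lf (nat_lit 84) (nat_lit 646308516) (nat_lit 0) (nat_lit 29853395) (nat_lit 252) (nat_lit 2365607324)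 (nat_lit 58) (nat_lit 1) (nat_lit 57) (nat_lit 1) (nat_lit 60) (nat_lit 1) (nat_lit 371) (nat_lit 367) (nat_lit 342)) (XT.lf (nat_lit 252) (nat_lit 1766882680) (nat_lit 0) (nat_lit 612264465) (nat_lit 168) (nat_lit 575980160) (nat_lit 58) (nat_lit 1) (nat_lit 55) (nat_lit 1) (nat_lit 57) (nat_lit 1) (nat_lit 372) (nat_lit 367) (nat_lit 341)))) (XT.nd (nat_lit 188) (nat_lit 504) (nat_lit 0) (XT.nd (nat_lit 94) (nat_lit 252) (nat_lit 0) (XT.lf (nat_lit 252) (nat_lit 548864564) (nat_lit 0) (nat_lit 569167525) (nat_lit 168) (nat_lit 1753765984) (nat_lit 56) (nat_lit 1) (nat_lit 53) (nat_lit 1) (nat_lit 55) (nat_lit 1) (nat_lit 373) (nat_lit 367) (nat_lit 340)) (XT.lf (nat_lit 252) (nat_lit 2178790607) (nat_lit 0) (nat_lit 543793374) (nat_lit 168) (nat_lit 68986498) (nat_lit 53) (nat_lit 1) (nat_lit 50) (nat_lit 1) (nat_lit 52) (nat_lit 1) (nat_lit 374) (nat_lit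 367) (nat_lit 339))) (XT.nd (nat_lit 94) (nat_lit 336) (nat_lit 0) (XT.lf (nat_lit 252) (nat_lit 975125697) (nat_lit 0) (nat_lit 519139334) (nat_lit 168) (nat_lit 1219307125) (nat_lit 51) (nat_lit 1) (nat_lit 48) (nat_lit 1) (nat_lit 50) (nat_lit 1) (nat_lit 375) (nat_lit 367) (nat_lit 338)) (XT.nd (nat_lit 94) (nat_lit 168) (nat_lit 0) (XT.lf (nat_lit 84) (nat_lit 334018199) (nat_lit 0) (nat_lit 183591453) (nat_lit 168) (nat_lit 2121199349) (nat_lit 47) (nat_lit 1) (nat_lit 46) (nat_lit 1) (nat_lit 48) (nat_lit 1) (nat_lit 376) (nat_lit 367) (nat_lit 337)) (XT.lf (nat_lit 252) (nat_lit 1279420995) (nat_lit 0) (nat_lit 512128743) (nat_lit 168) (nat_lit 774382687) (nat_lit 47) (nat_lit 1) (nat_lit 44) (nat_lit 1) (nat_lit 46) (nat_lit 1) (nat_lit 377) (nat_lit 367) (nat_lit 336)))))) (XT.nd (nat_lit 376) (nat_lit 756) (nat_lit 0) (XT.nd (nat_lit 188) (nat_lit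 336) (nat_lit 0) (XT.nd (nat_lit 94) (nat_lit 252) (nat_lit 0) (XT.lf (nat_lit 168) (nat_lit 137775460) (nat_lit 0) (nat_lit 524707287) (nat_lit 84) (nat_lit 1833450174) (nat_lit 45) (nat_lit 1) (nat_lit 43) (nat_lit 1) (nat_lit 44) (nat_lit 1) (nat_lit 378) (nat_lit 367) (nat_lit 335)) (XT.lf (nat_lit 252) (nat_lit 1487235233) (nat_lit 0) (nat_lit 536635535) (nat_lit 168) (nat_lit 403992752) (nat_lit 43) (nat_lit 1) (nat_lit 40) (nat_lit 1) (nat_lit 42) (nat_lit 1) (nat_lit 379) (nat_lit 367) (nat_lit 334))) (XT.nd (nat_lit 94) (nat_lit 252) (nat_lit 0) (XT.lf (nat_lit 168) (nat_lit 374050628) (nat_lit 0) (nat_lit 556700878) (nat_lit 84) (nat_lit 1431336689) (nat_lit 41) (nat_lit 1) (nat_lit 39) (nat_lit 1) (nat_lit 40) (nat_lit 1) (nat_lit 380) (nat_lit 367) (nat_lit 333)) (XT.lf (nat_lit 252) (nat_lit 1619173179) (nat_lit 0) (nat_lit 583550726) (nat_lit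 168) (nat_lit 95765669) (nat_lit 39) (nat_lit 1) (nat_lit 36) (nat_lit 1) (nat_lit 38) (nat_lit 1) (nat_lit 381) (nat_lit 367) (nat_lit 332)))) (XT.nd (nat_lit 188) (nat_lit 420) (nat_lit 0) (XT.nd (nat_lit 94) (nat_lit 252) (nat_lit 0) (XT.lf (nat_lit 168) (nat_lit 538310170) (nat_lit 0) (nat_lit 608358644) (nat_lit 84) (nat_lit 1089927050) (nat_lit 37) (nat_lit 1) (nat_lit 35) (nat_lit 1) (nat_lit 36) (nat_lit 1) (nat_lit 382) (nat_lit 367) (nat_lit 331)) (XT.lf (nat_lit 84) (nat_lit 155377737) (nat_lit 0) (nat_lit 487689301) (nat_lit 252) (nat_lit 1533858650) (nat_lit 33) (nat_lit 1) (nat_lit 32) (nat_lit 1) (nat_lit 35) (nat_lit 1) (nat_lit 383) (nat_lit 367) (nat_lit 330))) (XT.nd (nat_lit 94) (nat_lit 336) (nat_lit 0) (XT.lf (nat_lit 168) (nat_lit 646020772) (nat_lit 0) (nat_lit 673123024) (nat_lit 84) (nat_lit 799593590) (nat_lit 33) (nat_lit 1) (nat_lit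 31) (nat_lit 1) (nat_lit 32) (nat_lit 1) (nat_lit 384) (nat_lit 367) (nat_lit 329)) (XT.nd (nat_lit 94) (nat_lit 84) (nat_lit 0) (XT.lf (nat_lit 84) (nat_lit 361350763) (nat_lit 0) (nat_lit 349992649) (nat_lit 252) (nat_lit 1351250551) (nat_lit 29) (nat_lit 1) (nat_lit 28) (nat_lit 1) (nat_lit 31) (nat_lit 1) (nat_lit 385) (nat_lit 367) (nat_lit 328)) (XT.lf (nat_lit 168) (nat_lit 709655268) (nat_lit 0) (nat_lit 745875100) (nat_lit 84) (nat_lit 552354615) (nat_lit 29) (nat_lit 1) (nat_lit 27) (nat_lit 1) (nat_lit 28) (nat_lit 1) (nat_lit 386) (nat_lit 367) (nat_lit 327))))))) (XT.nd (nat_lit 846) (nat_lit 1092) (nat_lit 0) (XT.nd (nat_lit 376) (nat_lit 672) (nat_lit 0) (XT.nd (nat_lit 188) (nat_lit 252) (nat_lit 0) (XT.nd (nat_lit 94) (nat_lit 84) (nat_lit 0) (XT.lf (nat_lit 84) (nat_lit 531991882) (nat_lit 0) (nat_lit 253484613) (nat_lit 168) (nat_lit 1169506292)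 (nat_lit 26) (nat_lit 1) (nat_lit 25) (nat_lit 1) (nat_lit 27) (nat_lit 1) (nat_lit 387) (nat_lit 367) (nat_lit 326)) (XT.lf (nat_lit 168) (nat_lit 739252063) (nat_lit 0) (nat_lit 822654215) (nat_lit 84) (nat_lit 341580790) (nat_lit 26) (nat_lit 1) (nat_lit 24) (nat_lit 1) (nat_lit 25) (nat_lit 1) (nat_lit 388) (nat_lit 367) (nat_lit 325))) (XT.nd (nat_lit 94) (nat_lit 84) (nat_lit 0) (XT.lf (nat_lit 84) (nat_lit 672920268) (nat_lit 0) (nat_lit 189102826) (nat_lit 168) (nat_lit 991552208) (nat_lit 23) (nat_lit 1) (nat_lit 22) (nat_lit 1) (nat_lit 24) (nat_lit 1) (nat_lit 389) (nat_lit 367) (nat_lit 324)) (XT.lf (nat_lit 168) (nat_lit 742871283) (nat_lit 0) (nat_lit 900430098) (nat_lit 84) (nat_lit 161754865) (nat_lit 23) (nat_lit 1) (nat_lit 21) (nat_lit 1) (nat_lit 22) (nat_lit 1) (nat_lit 390) (nat_lit 367) (nat_lit 323)))) (XT.nd (nat_lit 188) (nat_lit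 420) (nat_lit 0) (XT.nd (nat_lit 94) (nat_lit 84) (nat_lit 0) (XT.lf (nat_lit 84) (nat_lit 788806078) (nat_lit 0) (nat_lit 149560303) (nat_lit 168) (nat_lit 819546949) (nat_lit 20) (nat_lit 1) (nat_lit 19) (nat_lit 1) (nat_lit 21) (nat_lit 1) (nat_lit 391) (nat_lit 367) (nat_lit 322)) (XT.lf (nat_lit 168) (nat_lit 726966638) (nat_lit 0) (nat_lit 976917807) (nat_lit 84) (nat_lit 8274967) (nat_lit 20) (nat_lit 1) (nat_lit 18) (nat_lit 1) (nat_lit 19) (nat_lit 1) (nat_lit 392) (nat_lit 367) (nat_lit 321))) (XT.nd (nat_lit 94) (nat_lit 252) (nat_lit 0) (XT.lf (nat_lit 84) (nat_lit 883538445) (nat_lit 0) (nat_lit 129012078) (nat_lit 168) (nat_lit 655037921) (nat_lit 17) (nat_lit 1) (nat_lit 16) (nat_lit 1) (nat_lit 18) (nat_lit 1) (nat_lit 393) (nat_lit 367) (nat_lit 320)) (XT.nd (nat_lit 94) (nat_lit 168) (nat_lit 0) (XT.lf (nat_lit 0) (nat_lit 118779115) (nat_lit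 0) (nat_lit 929636859) (nat_lit 168) (nat_lit 575897799) (nat_lit 15) (nat_lit 3) (nat_lit 15) (nat_lit 1) (nat_lit 17) (nat_lit 1) (nat_lit 394) (nat_lit 367) (nat_lit 319)) (XT.lf (nat_lit 84) (nat_lit 960363047) (nat_lit 0) (nat_lit 122783501) (nat_lit 168) (nat_lit 499088028) (nat_lit 14) (nat_lit 1) (nat_lit 13) (nat_lit 1) (nat_lit 15) (nat_lit 1) (nat_lit 395) (nat_lit 367) (nat_lit 318)))))) (XT.nd (nat_lit 470) (nat_lit 504) (nat_lit 0) (XT.nd (nat_lit 188) (nat_lit 336) (nat_lit 0) (XT.nd (nat_lit 94) (nat_lit 168) (nat_lit 0) (XT.lf (nat_lit 0) (nat_lit 226912054) (nat_lit 0) (nat_lit 888988074) (nat_lit 168) (nat_lit 425375916) (nat_lit 12) (nat_lit 3) (nat_lit 12) (nat_lit 1) (nat_lit 14) (nat_lit 1) (nat_lit 396) (nat_lit 367) (nat_lit 317)) (XT.lf (nat_lit 84) (nat_lit 1021994835) (nat_lit 0) (nat_lit 127148839) (nat_lit 168) (nat_lit 352378230)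 (nat_lit 11) (nat_lit 1) (nat_lit 10) (nat_lit 1) (nat_lit 12) (nat_lit 1) (nat_lit 397) (nat_lit 367) (nat_lit 316))) (XT.nd (nat_lit 94) (nat_lit 252) (nat_lit 0) (XT.lf (nat_lit 0) (nat_lit 319013095) (nat_lit 0) (nat_lit 859606880) (nat_lit 168) (nat_lit 284116653) (nat_lit 9) (nat_lit 3) (nat_lit 9) (nat_lit 1) (nat_lit 11) (nat_lit 1) (nat_lit 398) (nat_lit 367) (nat_lit 315)) (XT.nd (nat_lit 94) (nat_lit 84) (nat_lit 0) (XT.lf (nat_lit 84) (nat_lit 1070710433) (nat_lit 0) (nat_lit 139150926) (nat_lit 168) (nat_lit 215290401) (nat_lit 8) (nat_lit 1) (nat_lit 7) (nat_lit 1) (nat_lit 9) (nat_lit 1) (nat_lit 399) (nat_lit 367) (nat_lit 314)) (XT.lf (nat_lit 0) (nat_lit 397294871) (nat_lit 0) (nat_lit 838696812) (nat_lit 168) (nat_lit 152417175) (nat_lit 6) (nat_lit 3) (nat_lit 6) (nat_lit 1) (nat_lit 8) (nat_lit 1) (nat_lit 400) (nat_lit 367) (nat_lit 313)))))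 (XT.nd (nat_lit 188) (nat_lit 252) (nat_lit 0) (XT.nd (nat_lit 94) (nat_lit 84) (nat_lit 0) (XT.lf (nat_lit 84) (nat_lit 1108423930) (nat_lit 0) (nat_lit 156454308) (nat_lit 168) (nat_lit 87974168) (nat_lit 5) (nat_lit 1) (nat_lit 4) (nat_lit 1) (nat_lit 6) (nat_lit 1) (nat_lit 401) (nat_lit 367) (nat_lit 312)) (XT.lf (nat_lit 0) (nat_lit 463628742) (nat_lit 0) (nat_lit 824039237) (nat_lit 168) (nat_lit 30363538) (nat_lit 3) (nat_lit 3) (nat_lit 3) (nat_lit 1) (nat_lit 5) (nat_lit 1) (nat_lit 402) (nat_lit 367) (nat_lit 311))) (XT.nd (nat_lit 94) (nat_lit 0) (nat_lit 0) (XT.lf (nat_lit 0) (nat_lit 1863098291) (nat_lit 0) (nat_lit 0) (nat_lit 0) (nat_lit 0) (nat_lit 0) (nat_lit 0) (nat_lit 1) (nat_lit 0) (nat_lit 1) (nat_lit 0) (nat_lit 403) (nat_lit 367) (nat_lit 310)) (XT.nd (nat_lit 94) (nat_lit 0) (nat_lit 0) (XT.lf (nat_lit 0) (nat_lit 1861402476) (nat_lit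 0) (nat_lit 0) (nat_lit 0) (nat_lit 0) (nat_lit 0) (nat_lit 0) (nat_lit 1) (nat_lit 0) (nat_lit 1) (nat_lit 0) (nat_lit 404) (nat_lit 367) (nat_lit 309)) (XT.lf (nat_lit 0) (nat_lit 1859832278) (nat_lit 0) (nat_lit 0) (nat_lit 0) (nat_lit 0) (nat_lit 0) (nat_lit 0) (nat_lit 1) (nat_lit 0) (nat_lit 1) (nat_lit 0) (nat_lit 405) (nat_lit 367) (nat_lit 308))))))))
noncomputable def ec43 : XT := (XT.nd (nat_lit 1786) (nat_lit 0) (nat_lit 0) (XT.nd (nat_lit 846) (nat_lit 0) (nat_lit 0) (XT.nd (nat_lit 376) (nat_lit 0) (nat_lit 0) (XT.nd (nat_lit 188) (nat_lit 0) (nat_lit 0) (XT.nd (nat_lit 94) (nat_lit 0) (nat_lit 0) (XT.lf (nat_lit 0) (nat_lit 1858378390) (nat_lit 0) (nat_lit 0) (nat_lit 0) (nat_lit 0) (nat_lit 0) (nat_lit 0) (nat_lit 1) (nat_lit 0) (nat_lit 1) (nat_lit 0) (nat_lit 406) (nat_lit 367) (nat_lit 307)) (XT.lf (nat_lit 0) (nat_lit 1857032198) (nat_lit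 0) (nat_lit 0) (nat_lit 0) (nat_lit 0) (nat_lit 0) (nat_lit 0) (nat_lit 1) (nat_lit 0) (nat_lit 1) (nat_lit 0) (nat_lit 407) (nat_lit 367) (nat_lit 306))) (XT.nd (nat_lit 94) (nat_lit 0) (nat_lit 0) (XT.lf (nat_lit 0) (nat_lit 1855785724) (nat_lit 0) (nat_lit 0) (nat_lit 0) (nat_lit 0) (nat_lit 0) (nat_lit 0) (nat_lit 1) (nat_lit 0) (nat_lit 1) (nat_lit 0) (nat_lit 408) (nat_lit 367) (nat_lit 305)) (XT.lf (nat_lit 0) (nat_lit 1854631581) (nat_lit 0) (nat_lit 0) (nat_lit 0) (nat_lit 0) (nat_lit 0) (nat_lit 0) (nat_lit 1) (nat_lit 0) (nat_lit 1) (nat_lit 0) (nat_lit 409) (nat_lit 367) (nat_lit 304)))) (XT.nd (nat_lit 188) (nat_lit 0) (nat_lit 0) (XT.nd (nat_lit 94) (nat_lit 0) (nat_lit 0) (XT.lf (nat_lit 0) (nat_lit 1853562930) (nat_lit 0) (nat_lit 0) (nat_lit 0) (nat_lit 0) (nat_lit 0) (nat_lit 0) (nat_lit 1) (nat_lit 0) (nat_lit 1) (nat_lit 0) (nat_lit 410)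 (nat_lit 367) (nat_lit 303)) (XT.lf (nat_lit 0) (nat_lit 1852573439) (nat_lit 0) (nat_lit 0) (nat_lit 0) (nat_lit 0) (nat_lit 0) (nat_lit 0) (nat_lit 1) (nat_lit 0) (nat_lit 1) (nat_lit 0) (nat_lit 411) (nat_lit 367) (nat_lit 302))) (XT.nd (nat_lit 94) (nat_lit 0) (nat_lit 0) (XT.lf (nat_lit 0) (nat_lit 1851657243) (nat_lit 0) (nat_lit 0) (nat_lit 0) (nat_lit 0) (nat_lit 0) (nat_lit 0) (nat_lit 1) (nat_lit 0) (nat_lit 1) (nat_lit 0) (nat_lit 412) (nat_lit 367) (nat_lit 301)) (XT.nd (nat_lit 94) (nat_lit 0) (nat_lit 0) (XT.lf (nat_lit 0) (nat_lit 1850808914) (nat_lit 0) (nat_lit 0) (nat_lit 0) (nat_lit 0) (nat_lit 0) (nat_lit 0) (nat_lit 1) (nat_lit 0) (nat_lit 1) (nat_lit 0) (nat_lit 413) (nat_lit 367) (nat_lit 300)) (XT.lf (nat_lit 0) (nat_lit 1850023423) (nat_lit 0) (nat_lit 0) (nat_lit 0) (nat_lit 0) (nat_lit 0) (nat_lit 0) (nat_lit 1) (nat_lit 0) (nat_lit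 1) (nat_lit 0) (nat_lit 414) (nat_lit 367) (nat_lit 299)))))) (XT.nd (nat_lit 470) (nat_lit 0) (nat_lit 0) (XT.nd (nat_lit 188) (nat_lit 0) (nat_lit 0) (XT.nd (nat_lit 94) (nat_lit 0) (nat_lit 0) (XT.lf (nat_lit 0) (nat_lit 1849296118) (nat_lit 0) (nat_lit 0) (nat_lit 0) (nat_lit 0) (nat_lit 0) (nat_lit 0) (nat_lit 1) (nat_lit 0) (nat_lit 1) (nat_lit 0) (nat_lit 415) (nat_lit 367) (nat_lit 298)) (XT.lf (nat_lit 0) (nat_lit 1848622686) (nat_lit 0) (nat_lit 0) (nat_lit 0) (nat_lit 0) (nat_lit 0) (nat_lit 0) (nat_lit 1) (nat_lit 0) (nat_lit 1) (nat_lit 0) (nat_lit 416) (nat_lit 367) (nat_lit 297))) (XT.nd (nat_lit 94) (nat_lit 0) (nat_lit 0) (XT.lf (nat_lit 0) (nat_lit 1847999139) (nat_lit 0) (nat_lit 0) (nat_lit 0) (nat_lit 0) (nat_lit 0) (nat_lit 0) (nat_lit 1) (nat_lit 0) (nat_lit 1) (nat_lit 0) (nat_lit 417) (nat_lit 367) (nat_lit 296)) (XT.nd (nat_lit 94)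 (nat_lit 0) (nat_lit 0) (XT.lf (nat_lit 0) (nat_lit 1847421780) (nat_lit 0) (nat_lit 0) (nat_lit 0) (nat_lit 0) (nat_lit 0) (nat_lit 0) (nat_lit 1) (nat_lit 0) (nat_lit 1) (nat_lit 0) (nat_lit 418) (nat_lit 367) (nat_lit 295)) (XT.lf (nat_lit 0) (nat_lit 1846887189) (nat_lit 0) (nat_lit 0) (nat_lit 0) (nat_lit 0) (nat_lit 0) (nat_lit 0) (nat_lit 1) (nat_lit 0) (nat_lit 1) (nat_lit 0) (nat_lit 419) (nat_lit 367) (nat_lit 294))))) (XT.nd (nat_lit 188) (nat_lit 0) (nat_lit 0) (XT.nd (nat_lit 94) (nat_lit 0) (nat_lit 0) (XT.lf (nat_lit 0) (nat_lit 1846392197) (nat_lit 0) (nat_lit 0) (nat_lit 0) (nat_lit 0) (nat_lit 0) (nat_lit 0) (nat_lit 1) (nat_lit 0) (nat_lit 1) (nat_lit 0) (nat_lit 420) (nat_lit 367) (nat_lit 293)) (XT.lf (nat_lit 0) (nat_lit 1845933871) (nat_lit 0) (nat_lit 0) (nat_lit 0) (nat_lit 0) (nat_lit 0) (nat_lit 0) (nat_lit 1) (nat_lit 0) (nat_lit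 1) (nat_lit 0) (nat_lit 421) (nat_lit 367) (nat_lit 292))) (XT.nd (nat_lit 94) (nat_lit 0) (nat_lit 0) (XT.lf (nat_lit 0) (nat_lit 1845509495) (nat_lit 0) (nat_lit 0) (nat_lit 0) (nat_lit 0) (nat_lit 0) (nat_lit 0) (nat_lit 1) (nat_lit 0) (nat_lit 1) (nat_lit 0) (nat_lit 422) (nat_lit 367) (nat_lit 291)) (XT.nd (nat_lit 94) (nat_lit 0) (nat_lit 0) (XT.lf (nat_lit 0) (nat_lit 1845116554) (nat_lit 0) (nat_lit 0) (nat_lit 0) (nat_lit 0) (nat_lit 0) (nat_lit 0) (nat_lit 1) (nat_lit 0) (nat_lit 1) (nat_lit 0) (nat_lit 423) (nat_lit 367) (nat_lit 290)) (XT.lf (nat_lit 0) (nat_lit 1844752720) (nat_lit 0) (nat_lit 0) (nat_lit 0) (nat_lit 0) (nat_lit 0) (nat_lit 0) (nat_lit 1) (nat_lit 0) (nat_lit 1) (nat_lit 0) (nat_lit 424) (nat_lit 367) (nat_lit 289))))))) (XT.nd (nat_lit 60348) (nat_lit 0) (nat_lit 8568) (XT.nd (nat_lit 376) (nat_lit 0) (nat_lit 0) (XT.nd (nat_lit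 188) (nat_lit 0) (nat_lit 0) (XT.nd (nat_lit 94) (nat_lit 0) (nat_lit 0) (XT.lf (nat_lit 0) (nat_lit 1844415837) (nat_lit 0) (nat_lit 0) (nat_lit 0) (nat_lit 0) (nat_lit 0) (nat_lit 0) (nat_lit 1) (nat_lit 0) (nat_lit 1) (nat_lit 0) (nat_lit 425) (nat_lit 367) (nat_lit 288)) (XT.lf (nat_lit 0) (nat_lit 1844103908) (nat_lit 0) (nat_lit 0) (nat_lit 0) (nat_lit 0) (nat_lit 0) (nat_lit 0) (nat_lit 1) (nat_lit 0) (nat_lit 1) (nat_lit 0) (nat_lit 426) (nat_lit 367) (nat_lit 287))) (XT.nd (nat_lit 94) (nat_lit 0) (nat_lit 0) (XT.lf (nat_lit 0) (nat_lit 1843815085) (nat_lit 0) (nat_lit 0) (nat_lit 0) (nat_lit 0) (nat_lit 0) (nat_lit 0) (nat_lit 1) (nat_lit 0) (nat_lit 1) (nat_lit 0) (nat_lit 427) (nat_lit 367) (nat_lit 286)) (XT.lf (nat_lit 0) (nat_lit 1843547656) (nat_lit 0) (nat_lit 0) (nat_lit 0) (nat_lit 0) (nat_lit 0) (nat_lit 0) (nat_lit 1) (nat_lit 0) (nat_lit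 1) (nat_lit 0) (nat_lit 428) (nat_lit 367) (nat_lit 285)))) (XT.nd (nat_lit 188) (nat_lit 0) (nat_lit 0) (XT.nd (nat_lit 94) (nat_lit 0) (nat_lit 0) (XT.lf (nat_lit 0) (nat_lit 1843300037) (nat_lit 0) (nat_lit 0) (nat_lit 0) (nat_lit 0) (nat_lit 0) (nat_lit 0) (nat_lit 1) (nat_lit 0) (nat_lit 1) (nat_lit 0) (nat_lit 429) (nat_lit 367) (nat_lit 284)) (XT.lf (nat_lit 0) (nat_lit 1843070760) (nat_lit 0) (nat_lit 0) (nat_lit 0) (nat_lit 0) (nat_lit 0) (nat_lit 0) (nat_lit 1) (nat_lit 0) (nat_lit 1) (nat_lit 0) (nat_lit 430) (nat_lit 367) (nat_lit 283))) (XT.nd (nat_lit 59596) (nat_lit 0) (nat_lit 10752) (XT.lf (nat_lit 0) (nat_lit 1842858466) (nat_lit 0) (nat_lit 0) (nat_lit 0) (nat_lit 0) (nat_lit 0) (nat_lit 0) (nat_lit 1) (nat_lit 0) (nat_lit 1) (nat_lit 0) (nat_lit 431) (nat_lit 367) (nat_lit 282)) (XT.nd (nat_lit 94) (nat_lit 0) (nat_lit 84) (XT.lf (nat_lit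 924) (nat_lit 994580002) (nat_lit 0) (nat_lit 1765874508) (nat_lit 924) (nat_lit 994580002) (nat_lit 139) (nat_lit 1) (nat_lit 128) (nat_lit 0) (nat_lit 139) (nat_lit 0) (nat_lit 344) (nat_lit 368) (nat_lit 368)) (XT.lf (nat_lit 924) (nat_lit 371008858) (nat_lit 0) (nat_lit 3466946854) (nat_lit 840) (nat_lit 3390662440) (nat_lit 140) (nat_lit 1) (nat_lit 129) (nat_lit 1) (nat_lit 139) (nat_lit 1) (nat_lit 345) (nat_lit 368) (nat_lit 367)))))) (XT.nd (nat_lit 470) (nat_lit 2268) (nat_lit 0) (XT.nd (nat_lit 188) (nat_lit 0) (nat_lit 168) (XT.nd (nat_lit 94) (nat_lit 0) (nat_lit 84) (XT.lf (nat_lit 924) (nat_lit 3407502218) (nat_lit 84) (nat_lit 2321815477) (nat_lit 0) (nat_lit 1231385016) (nat_lit 140) (nat_lit 1) (nat_lit 130) (nat_lit 1) (nat_lit 129) (nat_lit 1) (nat_lit 346) (nat_lit 368) (nat_lit 366)) (XT.lf (nat_lit 924) (nat_lit 2944361063) (nat_lit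 84) (nat_lit 973056773) (nat_lit 0) (nat_lit 2788776602) (nat_lit 141) (nat_lit 1) (nat_lit 131) (nat_lit 1) (nat_lit 130) (nat_lit 1) (nat_lit 347) (nat_lit 368) (nat_lit 365))) (XT.nd (nat_lit 94) (nat_lit 0) (nat_lit 84) (XT.lf (nat_lit 924) (nat_lit 2179077507) (nat_lit 0) (nat_lit 4076951016) (nat_lit 840) (nat_lit 208413153) (nat_lit 142) (nat_lit 1) (nat_lit 131) (nat_lit 1) (nat_lit 141) (nat_lit 1) (nat_lit 348) (nat_lit 368) (nat_lit 364)) (XT.nd (nat_lit 94) (nat_lit 0) (nat_lit 0) (XT.lf (nat_lit 924) (nat_lit 522848282) (nat_lit 0) (nat_lit 4495971116) (nat_lit 840) (nat_lit 1215414903) (nat_lit 143) (nat_lit 1) (nat_lit 132) (nat_lit 1) (nat_lit 142) (nat_lit 1) (nat_lit 349) (nat_lit 368) (nat_lit 363)) (XT.lf (nat_lit 924) (nat_lit 1004701738) (nat_lit 84) (nat_lit 3907365022) (nat_lit 0) (nat_lit 1102706617) (nat_lit 143) (nat_lit 1) (nat_lit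 133) (nat_lit 1) (nat_lit 132) (nat_lit 1) (nat_lit 350) (nat_lit 368) (nat_lit 362))))) (XT.nd (nat_lit 188) (nat_lit 1176) (nat_lit 0) (XT.nd (nat_lit 94) (nat_lit 588) (nat_lit 0) (XT.lf (nat_lit 924) (nat_lit 206342826) (nat_lit 0) (nat_lit 2921013816) (nat_lit 840) (nat_lit 2678539064) (nat_lit 134) (nat_lit 1) (nat_lit 123) (nat_lit 1) (nat_lit 133) (nat_lit 1) (nat_lit 351) (nat_lit 368) (nat_lit 361)) (XT.lf (nat_lit 84) (nat_lit 1428760716) (nat_lit 0) (nat_lit 619148507) (nat_lit 588) (nat_lit 3558998968) (nat_lit 117) (nat_lit 1) (nat_lit 116) (nat_lit 1) (nat_lit 123) (nat_lit 1) (nat_lit 352) (nat_lit 368) (nat_lit 360))) (XT.nd (nat_lit 94) (nat_lit 756) (nat_lit 0) (XT.lf (nat_lit 504) (nat_lit 3937484701) (nat_lit 0) (nat_lit 1281736155) (nat_lit 420) (nat_lit 198164329) (nat_lit 117) (nat_lit 1) (nat_lit 111) (nat_lit 1) (nat_lit 116) (nat_lit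 1) (nat_lit 353) (nat_lit 368) (nat_lit 359)) (XT.nd (nat_lit 94) (nat_lit 336) (nat_lit 0) (XT.lf (nat_lit 504) (nat_lit 2841326455) (nat_lit 0) (nat_lit 597422743) (nat_lit 420) (nat_lit 1797262130) (nat_lit 112) (nat_lit 1) (nat_lit 106) (nat_lit 1) (nat_lit 111) (nat_lit 1) (nat_lit 354) (nat_lit 368) (nat_lit 358)) (XT.lf (nat_lit 420) (nat_lit 1728910910) (nat_lit 0) (nat_lit 10999523) (nat_lit 336) (nat_lit 3323521462) (nat_lit 107) (nat_lit 1) (nat_lit 102) (nat_lit 1) (nat_lit 106) (nat_lit 1) (nat_lit 355) (nat_lit 368) (nat_lit 357))))))))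
noncomputable def ec44 : XT := (XT.nd (nat_lit 1692) (nat_lit 2772) (nat_lit 0) (XT.nd (nat_lit 846) (nat_lit 1932) (nat_lit 0) (XT.nd (nat_lit 376) (nat_lit 1512) (nat_lit 0) (XT.nd (nat_lit 188) (nat_lit 672) (nat_lit 0) (XT.nd (nat_lit 94) (nat_lit 420) (nat_lit 0) (XT.lf (nat_lit 84) (nat_lit 127550876) (nat_lit 0) (nat_lit 4301633602) (nat_lit 420) (nat_lit 469606947) (nat_lit 103) (nat_lit 1) (nat_lit 102) (nat_lit 1) (nat_lit 107) (nat_lit 1) (nat_lit 356) (nat_lit 368) (nat_lit 356)) (XT.lf (nat_lit 84) (nat_lit 3293396705) (nat_lit 0) (nat_lit 546245082) (nat_lit 420) (nat_lit 900857346) (nat_lit 98) (nat_lit 1) (nat_lit 97) (nat_lit 1) (nat_lit 102) (nat_lit 1) (nat_lit 357) (nat_lit 368) (nat_lit 355))) (XT.nd (nat_lit 94) (nat_lit 336) (nat_lit 0) (XT.lf (nat_lit 84) (nat_lit 1647769828) (nat_lit 0) (nat_lit 1673245655) (nat_lit 420) (nat_lit 1268185519)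 (nat_lit 94) (nat_lit 1) (nat_lit 93) (nat_lit 1) (nat_lit 98) (nat_lit 1) (nat_lit 358) (nat_lit 368) (nat_lit 354)) (XT.lf (nat_lit 84) (nat_lit 81330264) (nat_lit 0) (nat_lit 2797640754) (nat_lit 420) (nat_lit 1566095320) (nat_lit 90) (nat_lit 1) (nat_lit 89) (nat_lit 1) (nat_lit 94) (nat_lit 1) (nat_lit 359) (nat_lit 368) (nat_lit 353)))) (XT.nd (nat_lit 188) (nat_lit 840) (nat_lit 0) (XT.nd (nat_lit 94) (nat_lit 420) (nat_lit 0) (XT.lf (nat_lit 336) (nat_lit 367282892) (nat_lit 0) (nat_lit 2483758393) (nat_lit 252) (nat_lit 1455539501) (nat_lit 90) (nat_lit 1) (nat_lit 86) (nat_lit 1) (nat_lit 89) (nat_lit 1) (nat_lit 360) (nat_lit 368) (nat_lit 352)) (XT.lf (nat_lit 84) (nat_lit 1269061140) (nat_lit 0) (nat_lit 869822391) (nat_lit 420) (nat_lit 2034932794) (nat_lit 82) (nat_lit 1) (nat_lit 81) (nat_lit 1) (nat_lit 86) (nat_lit 1) (nat_lit 361) (nat_lit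 368) (nat_lit 351))) (XT.nd (nat_lit 94) (nat_lit 588) (nat_lit 0) (XT.lf (nat_lit 336) (nat_lit 1964811894) (nat_lit 0) (nat_lit 1845686828) (nat_lit 252) (nat_lit 236245723) (nat_lit 82) (nat_lit 1) (nat_lit 78) (nat_lit 1) (nat_lit 81) (nat_lit 1) (nat_lit 362) (nat_lit 368) (nat_lit 350)) (XT.nd (nat_lit 94) (nat_lit 336) (nat_lit 0) (XT.lf (nat_lit 336) (nat_lit 629712720) (nat_lit 0) (nat_lit 1589060779) (nat_lit 252) (nat_lit 1705782476) (nat_lit 79) (nat_lit 1) (nat_lit 75) (nat_lit 1) (nat_lit 78) (nat_lit 1) (nat_lit 363) (nat_lit 368) (nat_lit 349)) (XT.lf (nat_lit 84) (nat_lit 717720342) (nat_lit 0) (nat_lit 657135344) (nat_lit 336) (nat_lit 2432586535) (nat_lit 72) (nat_lit 1) (nat_lit 71) (nat_lit 1) (nat_lit 75) (nat_lit 1) (nat_lit 364) (nat_lit 368) (nat_lit 348)))))) (XT.nd (nat_lit 376) (nat_lit 1008) (nat_lit 0) (XT.nd (nat_lit 188) (nat_lit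 504) (nat_lit 0) (XT.nd (nat_lit 94) (nat_lit 168) (nat_lit 0) (XT.lf (nat_lit 336) (nat_lit 1785952870) (nat_lit 0) (nat_lit 1188306857) (nat_lit 252) (nat_lit 720355524) (nat_lit 72) (nat_lit 1) (nat_lit 68) (nat_lit 1) (nat_lit 71) (nat_lit 1) (nat_lit 365) (nat_lit 368) (nat_lit 347)) (XT.lf (nat_lit 252) (nat_lit 442740353) (nat_lit 0) (nat_lit 1036711058) (nat_lit 168) (nat_lit 2106888626) (nat_lit 69) (nat_lit 1) (nat_lit 66) (nat_lit 1) (nat_lit 68) (nat_lit 1) (nat_lit 366) (nat_lit 368) (nat_lit 346))) (XT.nd (nat_lit 94) (nat_lit 168) (nat_lit 0) (XT.lf (nat_lit 84) (nat_lit 75003044) (nat_lit 0) (nat_lit 839300350) (nat_lit 336) (nat_lit 2567958461) (nat_lit 63) (nat_lit 1) (nat_lit 62) (nat_lit 1) (nat_lit 66) (nat_lit 1) (nat_lit 367) (nat_lit 368) (nat_lit 345)) (XT.lf (nat_lit 252) (nat_lit 1286522230) (nat_lit 0) (nat_lit 803966023) (nat_lit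 168) (nat_lit 1290999340) (nat_lit 63) (nat_lit 1) (nat_lit 60) (nat_lit 1) (nat_lit 62) (nat_lit 1) (nat_lit 368) (nat_lit 368) (nat_lit 344)))) (XT.nd (nat_lit 188) (nat_lit 588) (nat_lit 0) (XT.nd (nat_lit 94) (nat_lit 168) (nat_lit 0) (XT.lf (nat_lit 84) (nat_lit 698013198) (nat_lit 0) (nat_lit 32241667) (nat_lit 252) (nat_lit 2554855910) (nat_lit 58) (nat_lit 1) (nat_lit 57) (nat_lit 1) (nat_lit 60) (nat_lit 1) (nat_lit 369) (nat_lit 368) (nat_lit 343)) (XT.lf (nat_lit 252) (nat_lit 1908233294) (nat_lit 0) (nat_lit 661245622) (nat_lit 168) (nat_lit 622058573) (nat_lit 58) (nat_lit 1) (nat_lit 55) (nat_lit 1) (nat_lit 57) (nat_lit 1) (nat_lit 370) (nat_lit 368) (nat_lit 342))) (XT.nd (nat_lit 94) (nat_lit 420) (nat_lit 0) (XT.lf (nat_lit 252) (nat_lit 592773729) (nat_lit 0) (nat_lit 614700927) (nat_lit 168) (nat_lit 1894067263) (nat_lit 56) (nat_lit 1)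 (nat_lit 53) (nat_lit 1) (nat_lit 55) (nat_lit 1) (nat_lit 371) (nat_lit 368) (nat_lit 341)) (XT.nd (nat_lit 94) (nat_lit 168) (nat_lit 0) (XT.lf (nat_lit 252) (nat_lit 2353093855) (nat_lit 0) (nat_lit 587296844) (nat_lit 168) (nat_lit 74505418) (nat_lit 53) (nat_lit 1) (nat_lit 50) (nat_lit 1) (nat_lit 52) (nat_lit 1) (nat_lit 372) (nat_lit 368) (nat_lit 340)) (XT.lf (nat_lit 252) (nat_lit 1053135753) (nat_lit 0) (nat_lit 560670481) (nat_lit 168) (nat_lit 1316851695) (nat_lit 51) (nat_lit 1) (nat_lit 48) (nat_lit 1) (nat_lit 50) (nat_lit 1) (nat_lit 373) (nat_lit 368) (nat_lit 339))))))) (XT.nd (nat_lit 846) (nat_lit 1344) (nat_lit 0) (XT.nd (nat_lit 376) (nat_lit 756) (nat_lit 0) (XT.nd (nat_lit 188) (nat_lit 336) (nat_lit 0) (XT.nd (nat_lit 94) (nat_lit 168) (nat_lit 0) (XT.lf (nat_lit 84) (nat_lit 360739655) (nat_lit 0) (nat_lit 198278770) (nat_lit 168)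 (nat_lit 2290895297) (nat_lit 47) (nat_lit 1) (nat_lit 46) (nat_lit 1) (nat_lit 48) (nat_lit 1) (nat_lit 374) (nat_lit 368) (nat_lit 338)) (XT.lf (nat_lit 252) (nat_lit 1381774674) (nat_lit 0) (nat_lit 553099043) (nat_lit 168) (nat_lit 836333302) (nat_lit 47) (nat_lit 1) (nat_lit 44) (nat_lit 1) (nat_lit 46) (nat_lit 1) (nat_lit 375) (nat_lit 368) (nat_lit 337))) (XT.nd (nat_lit 94) (nat_lit 252) (nat_lit 0) (XT.lf (nat_lit 168) (nat_lit 148797497) (nat_lit 0) (nat_lit 566683870) (nat_lit 84) (nat_lit 1980126188) (nat_lit 45) (nat_lit 1) (nat_lit 43) (nat_lit 1) (nat_lit 44) (nat_lit 1) (nat_lit 376) (nat_lit 368) (nat_lit 336)) (XT.lf (nat_lit 252) (nat_lit 1606214052) (nat_lit 0) (nat_lit 579566378) (nat_lit 168) (nat_lit 436312173) (nat_lit 43) (nat_lit 1) (nat_lit 40) (nat_lit 1) (nat_lit 42) (nat_lit 1) (nat_lit 377) (nat_lit 368) (nat_lit 335)))) (XT.nd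 (nat_lit 188) (nat_lit 420) (nat_lit 0) (XT.nd (nat_lit 94) (nat_lit 252) (nat_lit 0) (XT.lf (nat_lit 168) (nat_lit 403974678) (nat_lit 0) (nat_lit 601236948) (nat_lit 84) (nat_lit 1545843624) (nat_lit 41) (nat_lit 1) (nat_lit 39) (nat_lit 1) (nat_lit 40) (nat_lit 1) (nat_lit 378) (nat_lit 368) (nat_lit 334)) (XT.lf (nat_lit 252) (nat_lit 1748707034) (nat_lit 0) (nat_lit 630234784) (nat_lit 168) (nat_lit 103426923) (nat_lit 39) (nat_lit 1) (nat_lit 36) (nat_lit 1) (nat_lit 38) (nat_lit 1) (nat_lit 379) (nat_lit 368) (nat_lit 333))) (XT.nd (nat_lit 94) (nat_lit 336) (nat_lit 0) (XT.lf (nat_lit 168) (nat_lit 581374984) (nat_lit 0) (nat_lit 657027336) (nat_lit 84) (nat_lit 1177121214) (nat_lit 37) (nat_lit 1) (nat_lit 35) (nat_lit 1) (nat_lit 36) (nat_lit 1) (nat_lit 380) (nat_lit 368) (nat_lit 332)) (XT.nd (nat_lit 94) (nat_lit 84) (nat_lit 0) (XT.lf (nat_lit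 84) (nat_lit 167807957) (nat_lit 0) (nat_lit 526704446) (nat_lit 252) (nat_lit 1656567342) (nat_lit 33) (nat_lit 1) (nat_lit 32) (nat_lit 1) (nat_lit 35) (nat_lit 1) (nat_lit 381) (nat_lit 368) (nat_lit 331)) (XT.lf (nat_lit 168) (nat_lit 697702434) (nat_lit 0) (nat_lit 726972866) (nat_lit 84) (nat_lit 863561078) (nat_lit 33) (nat_lit 1) (nat_lit 31) (nat_lit 1) (nat_lit 32) (nat_lit 1) (nat_lit 382) (nat_lit 368) (nat_lit 330)))))) (XT.nd (nat_lit 470) (nat_lit 588) (nat_lit 0) (XT.nd (nat_lit 188) (nat_lit 420) (nat_lit 0) (XT.nd (nat_lit 94) (nat_lit 84) (nat_lit 0) (XT.lf (nat_lit 84) (nat_lit 390258824) (nat_lit 0) (nat_lit 377992060) (nat_lit 252) (nat_lit 1459350595) (nat_lit 29) (nat_lit 1) (nat_lit 28) (nat_lit 1) (nat_lit 31) (nat_lit 1) (nat_lit 383) (nat_lit 368) (nat_lit 329)) (XT.lf (nat_lit 168) (nat_lit 766427689) (nat_lit 0) (nat_lit 805545108)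 (nat_lit 84) (nat_lit 596542984) (nat_lit 29) (nat_lit 1) (nat_lit 27) (nat_lit 1) (nat_lit 28) (nat_lit 1) (nat_lit 384) (nat_lit 368) (nat_lit 328))) (XT.nd (nat_lit 94) (nat_lit 252) (nat_lit 0) (XT.lf (nat_lit 84) (nat_lit 574551233) (nat_lit 0) (nat_lit 273763382) (nat_lit 168) (nat_lit 1263066796) (nat_lit 26) (nat_lit 1) (nat_lit 25) (nat_lit 1) (nat_lit 27) (nat_lit 1) (nat_lit 385) (nat_lit 368) (nat_lit 327)) (XT.nd (nat_lit 94) (nat_lit 168) (nat_lit 0) (XT.lf (nat_lit 168) (nat_lit 798392228) (nat_lit 0) (nat_lit 888466552) (nat_lit 84) (nat_lit 368907253) (nat_lit 26) (nat_lit 1) (nat_lit 24) (nat_lit 1) (nat_lit 25) (nat_lit 1) (nat_lit 386) (nat_lit 368) (nat_lit 326)) (XT.lf (nat_lit 84) (nat_lit 726753889) (nat_lit 0) (nat_lit 204231052) (nat_lit 168) (nat_lit 1070876385) (nat_lit 23) (nat_lit 1) (nat_lit 22) (nat_lit 1) (nat_lit 24) (nat_lit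 1) (nat_lit 387) (nat_lit 368) (nat_lit 325))))) (XT.nd (nat_lit 188) (nat_lit 336) (nat_lit 0) (XT.nd (nat_lit 94) (nat_lit 168) (nat_lit 0) (XT.lf (nat_lit 168) (nat_lit 802300986) (nat_lit 0) (nat_lit 972464506) (nat_lit 84) (nat_lit 174695254) (nat_lit 23) (nat_lit 1) (nat_lit 21) (nat_lit 1) (nat_lit 22) (nat_lit 1) (nat_lit 388) (nat_lit 368) (nat_lit 324)) (XT.lf (nat_lit 84) (nat_lit 851910565) (nat_lit 0) (nat_lit 161525127) (nat_lit 168) (nat_lit 885110705) (nat_lit 20) (nat_lit 1) (nat_lit 19) (nat_lit 1) (nat_lit 21) (nat_lit 1) (nat_lit 389) (nat_lit 368) (nat_lit 323))) (XT.nd (nat_lit 94) (nat_lit 252) (nat_lit 0) (XT.lf (nat_lit 168) (nat_lit 785123969) (nat_lit 0) (nat_lit 1055071231) (nat_lit 84) (nat_lit 8936964) (nat_lit 20) (nat_lit 1) (nat_lit 18) (nat_lit 1) (nat_lit 19) (nat_lit 1) (nat_lit 390) (nat_lit 368) (nat_lit 322)) (XT.nd (nat_lit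 94) (nat_lit 84) (nat_lit 0) (XT.lf (nat_lit 84) (nat_lit 954221521) (nat_lit 0) (nat_lit 139333044) (nat_lit 168) (nat_lit 707440954) (nat_lit 17) (nat_lit 1) (nat_lit 16) (nat_lit 1) (nat_lit 18) (nat_lit 1) (nat_lit 391) (nat_lit 368) (nat_lit 321)) (XT.lf (nat_lit 0) (nat_lit 128281445) (nat_lit 0) (nat_lit 1004007808) (nat_lit 168) (nat_lit 621969623) (nat_lit 15) (nat_lit 3) (nat_lit 15) (nat_lit 1) (nat_lit 17) (nat_lit 1) (nat_lit 392) (nat_lit 368) (nat_lit 320))))))))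
noncomputable def ec45 : XT := (XT.nd (nat_lit 1786) (nat_lit 0) (nat_lit 0) (XT.nd (nat_lit 846) (nat_lit 0) (nat_lit 0) (XT.nd (nat_lit 376) (nat_lit 756) (nat_lit 0) (XT.nd (nat_lit 188) (nat_lit 252) (nat_lit 0) (XT.nd (nat_lit 94) (nat_lit 84) (nat_lit 0) (XT.lf (nat_lit 84) (nat_lit 1037192091) (nat_lit 0) (nat_lit 132606181) (nat_lit 168) (nat_lit 539015070) (nat_lit 14) (nat_lit 1) (nat_lit 13) (nat_lit 1) (nat_lit 15) (nat_lit 1) (nat_lit 393) (nat_lit 368) (nat_lit 319)) (XT.lf (nat_lit 0) (nat_lit 245065018) (nat_lit 0) (nat_lit 960107120) (nat_lit 168) (nat_lit 459405989) (nat_lit 12) (nat_lit 3) (nat_lit 12) (nat_lit 1) (nat_lit 14) (nat_lit 1) (nat_lit 394) (nat_lit 368) (nat_lit 318))) (XT.nd (nat_lit 94) (nat_lit 84) (nat_lit 0) (XT.lf (nat_lit 84) (nat_lit 1103754422) (nat_lit 0) (nat_lit 137320746) (nat_lit 168) (nat_lit 380568489) (nat_lit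 11) (nat_lit 1) (nat_lit 10) (nat_lit 1) (nat_lit 12) (nat_lit 1) (nat_lit 395) (nat_lit 368) (nat_lit 317)) (XT.lf (nat_lit 0) (nat_lit 344534143) (nat_lit 0) (nat_lit 928375430) (nat_lit 168) (nat_lit 306845985) (nat_lit 9) (nat_lit 3) (nat_lit 9) (nat_lit 1) (nat_lit 11) (nat_lit 1) (nat_lit 396) (nat_lit 368) (nat_lit 316)))) (XT.nd (nat_lit 188) (nat_lit 504) (nat_lit 0) (XT.nd (nat_lit 94) (nat_lit 84) (nat_lit 0) (XT.lf (nat_lit 84) (nat_lit 1156367268) (nat_lit 0) (nat_lit 150283000) (nat_lit 168) (nat_lit 232513634) (nat_lit 8) (nat_lit 1) (nat_lit 7) (nat_lit 1) (nat_lit 9) (nat_lit 1) (nat_lit 397) (nat_lit 368) (nat_lit 315)) (XT.lf (nat_lit 0) (nat_lit 429078461) (nat_lit 0) (nat_lit 905792557) (nat_lit 168) (nat_lit 164610549) (nat_lit 6) (nat_lit 3) (nat_lit 6) (nat_lit 1) (nat_lit 8) (nat_lit 1) (nat_lit 398) (nat_lit 368) (nat_lit 314))) (XT.nd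 (nat_lit 94) (nat_lit 336) (nat_lit 0) (XT.lf (nat_lit 84) (nat_lit 1197097844) (nat_lit 0) (nat_lit 168970653) (nat_lit 168) (nat_lit 95012101) (nat_lit 5) (nat_lit 1) (nat_lit 4) (nat_lit 1) (nat_lit 6) (nat_lit 1) (nat_lit 399) (nat_lit 368) (nat_lit 313)) (XT.nd (nat_lit 94) (nat_lit 252) (nat_lit 0) (XT.lf (nat_lit 0) (nat_lit 500719042) (nat_lit 0) (nat_lit 889962376) (nat_lit 168) (nat_lit 32792621) (nat_lit 3) (nat_lit 3) (nat_lit 3) (nat_lit 1) (nat_lit 5) (nat_lit 1) (nat_lit 400) (nat_lit 368) (nat_lit 312)) (XT.lf (nat_lit 0) (nat_lit 2012146154) (nat_lit 0) (nat_lit 0) (nat_lit 0) (nat_lit 0) (nat_lit 0) (nat_lit 0) (nat_lit 1) (nat_lit 0) (nat_lit 1) (nat_lit 0) (nat_lit 401) (nat_lit 368) (nat_lit 311)))))) (XT.nd (nat_lit 470) (nat_lit 0) (nat_lit 0) (XT.nd (nat_lit 188) (nat_lit 0) (nat_lit 0) (XT.nd (nat_lit 94) (nat_lit 0) (nat_lit 0) (XT.lf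 (nat_lit 0) (nat_lit 2010314674) (nat_lit 0) (nat_lit 0) (nat_lit 0) (nat_lit 0) (nat_lit 0) (nat_lit 0) (nat_lit 1) (nat_lit 0) (nat_lit 1) (nat_lit 0) (nat_lit 402) (nat_lit 368) (nat_lit 310)) (XT.lf (nat_lit 0) (nat_lit 2008618860) (nat_lit 0) (nat_lit 0) (nat_lit 0) (nat_lit 0) (nat_lit 0) (nat_lit 0) (nat_lit 1) (nat_lit 0) (nat_lit 1) (nat_lit 0) (nat_lit 403) (nat_lit 368) (nat_lit 309))) (XT.nd (nat_lit 94) (nat_lit 0) (nat_lit 0) (XT.lf (nat_lit 0) (nat_lit 2007048661) (nat_lit 0) (nat_lit 0) (nat_lit 0) (nat_lit 0) (nat_lit 0) (nat_lit 0) (nat_lit 1) (nat_lit 0) (nat_lit 1) (nat_lit 0) (nat_lit 404) (nat_lit 368) (nat_lit 308)) (XT.nd (nat_lit 94) (nat_lit 0) (nat_lit 0) (XT.lf (nat_lit 0) (nat_lit 2005594774) (nat_lit 0) (nat_lit 0) (nat_lit 0) (nat_lit 0) (nat_lit 0) (nat_lit 0) (nat_lit 1) (nat_lit 0) (nat_lit 1) (nat_lit 0) (nat_lit 405) (nat_lit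 368) (nat_lit 307)) (XT.lf (nat_lit 0) (nat_lit 2004248582) (nat_lit 0) (nat_lit 0) (nat_lit 0) (nat_lit 0) (nat_lit 0) (nat_lit 0) (nat_lit 1) (nat_lit 0) (nat_lit 1) (nat_lit 0) (nat_lit 406) (nat_lit 368) (nat_lit 306))))) (XT.nd (nat_lit 188) (nat_lit 0) (nat_lit 0) (XT.nd (nat_lit 94) (nat_lit 0) (nat_lit 0) (XT.lf (nat_lit 0) (nat_lit 2003002107) (nat_lit 0) (nat_lit 0) (nat_lit 0) (nat_lit 0) (nat_lit 0) (nat_lit 0) (nat_lit 1) (nat_lit 0) (nat_lit 1) (nat_lit 0) (nat_lit 407) (nat_lit 368) (nat_lit 305)) (XT.lf (nat_lit 0) (nat_lit 2001847965) (nat_lit 0) (nat_lit 0) (nat_lit 0) (nat_lit 0) (nat_lit 0) (nat_lit 0) (nat_lit 1) (nat_lit 0) (nat_lit 1) (nat_lit 0) (nat_lit 408) (nat_lit 368) (nat_lit 304))) (XT.nd (nat_lit 94) (nat_lit 0) (nat_lit 0) (XT.lf (nat_lit 0) (nat_lit 2000779314) (nat_lit 0) (nat_lit 0) (nat_lit 0) (nat_lit 0) (nat_lit 0) (nat_lit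 0) (nat_lit 1) (nat_lit 0) (nat_lit 1) (nat_lit 0) (nat_lit 409) (nat_lit 368) (nat_lit 303)) (XT.nd (nat_lit 94) (nat_lit 0) (nat_lit 0) (XT.lf (nat_lit 0) (nat_lit 1999789822) (nat_lit 0) (nat_lit 0) (nat_lit 0) (nat_lit 0) (nat_lit 0) (nat_lit 0) (nat_lit 1) (nat_lit 0) (nat_lit 1) (nat_lit 0) (nat_lit 410) (nat_lit 368) (nat_lit 302)) (XT.lf (nat_lit 0) (nat_lit 1998873627) (nat_lit 0) (nat_lit 0) (nat_lit 0) (nat_lit 0) (nat_lit 0) (nat_lit 0) (nat_lit 1) (nat_lit 0) (nat_lit 1) (nat_lit 0) (nat_lit 411) (nat_lit 368) (nat_lit 301))))))) (XT.nd (nat_lit 846) (nat_lit 0) (nat_lit 0) (XT.nd (nat_lit 376) (nat_lit 0) (nat_lit 0) (XT.nd (nat_lit 188) (nat_lit 0) (nat_lit 0) (XT.nd (nat_lit 94) (nat_lit 0) (nat_lit 0) (XT.lf (nat_lit 0) (nat_lit 1998025297) (nat_lit 0) (nat_lit 0) (nat_lit 0) (nat_lit 0) (nat_lit 0) (nat_lit 0) (nat_lit 1) (nat_lit 0) (nat_lit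 1) (nat_lit 0) (nat_lit 412) (nat_lit 368) (nat_lit 300)) (XT.lf (nat_lit 0) (nat_lit 1997239807) (nat_lit 0) (nat_lit 0) (nat_lit 0) (nat_lit 0) (nat_lit 0) (nat_lit 0) (nat_lit 1) (nat_lit 0) (nat_lit 1) (nat_lit 0) (nat_lit 413) (nat_lit 368) (nat_lit 299))) (XT.nd (nat_lit 94) (nat_lit 0) (nat_lit 0) (XT.lf (nat_lit 0) (nat_lit 1996512501) (nat_lit 0) (nat_lit 0) (nat_lit 0) (nat_lit 0) (nat_lit 0) (nat_lit 0) (nat_lit 1) (nat_lit 0) (nat_lit 1) (nat_lit 0) (nat_lit 414) (nat_lit 368) (nat_lit 298)) (XT.lf (nat_lit 0) (nat_lit 1995839070) (nat_lit 0) (nat_lit 0) (nat_lit 0) (nat_lit 0) (nat_lit 0) (nat_lit 0) (nat_lit 1) (nat_lit 0) (nat_lit 1) (nat_lit 0) (nat_lit 415) (nat_lit 368) (nat_lit 297)))) (XT.nd (nat_lit 188) (nat_lit 0) (nat_lit 0) (XT.nd (nat_lit 94) (nat_lit 0) (nat_lit 0) (XT.lf (nat_lit 0) (nat_lit 1995215523) (nat_lit 0) (nat_lit 0) (nat_lit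 0) (nat_lit 0) (nat_lit 0) (nat_lit 0) (nat_lit 1) (nat_lit 0) (nat_lit 1) (nat_lit 0) (nat_lit 416) (nat_lit 368) (nat_lit 296)) (XT.lf (nat_lit 0) (nat_lit 1994638164) (nat_lit 0) (nat_lit 0) (nat_lit 0) (nat_lit 0) (nat_lit 0) (nat_lit 0) (nat_lit 1) (nat_lit 0) (nat_lit 1) (nat_lit 0) (nat_lit 417) (nat_lit 368) (nat_lit 295))) (XT.nd (nat_lit 94) (nat_lit 0) (nat_lit 0) (XT.lf (nat_lit 0) (nat_lit 1994103572) (nat_lit 0) (nat_lit 0) (nat_lit 0) (nat_lit 0) (nat_lit 0) (nat_lit 0) (nat_lit 1) (nat_lit 0) (nat_lit 1) (nat_lit 0) (nat_lit 418) (nat_lit 368) (nat_lit 294)) (XT.nd (nat_lit 94) (nat_lit 0) (nat_lit 0) (XT.lf (nat_lit 0) (nat_lit 1993608580) (nat_lit 0) (nat_lit 0) (nat_lit 0) (nat_lit 0) (nat_lit 0) (nat_lit 0) (nat_lit 1) (nat_lit 0) (nat_lit 1) (nat_lit 0) (nat_lit 419) (nat_lit 368) (nat_lit 293)) (XT.lf (nat_lit 0) (nat_lit 1993150254)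 (nat_lit 0) (nat_lit 0) (nat_lit 0) (nat_lit 0) (nat_lit 0) (nat_lit 0) (nat_lit 1) (nat_lit 0) (nat_lit 1) (nat_lit 0) (nat_lit 420) (nat_lit 368) (nat_lit 292)))))) (XT.nd (nat_lit 470) (nat_lit 0) (nat_lit 0) (XT.nd (nat_lit 188) (nat_lit 0) (nat_lit 0) (XT.nd (nat_lit 94) (nat_lit 0) (nat_lit 0) (XT.lf (nat_lit 0) (nat_lit 1992725879) (nat_lit 0) (nat_lit 0) (nat_lit 0) (nat_lit 0) (nat_lit 0) (nat_lit 0) (nat_lit 1) (nat_lit 0) (nat_lit 1) (nat_lit 0) (nat_lit 421) (nat_lit 368) (nat_lit 291)) (XT.lf (nat_lit 0) (nat_lit 1992332938) (nat_lit 0) (nat_lit 0) (nat_lit 0) (nat_lit 0) (nat_lit 0) (nat_lit 0) (nat_lit 1) (nat_lit 0) (nat_lit 1) (nat_lit 0) (nat_lit 422) (nat_lit 368) (nat_lit 290))) (XT.nd (nat_lit 94) (nat_lit 0) (nat_lit 0) (XT.lf (nat_lit 0) (nat_lit 1991969104) (nat_lit 0) (nat_lit 0) (nat_lit 0) (nat_lit 0) (nat_lit 0) (nat_lit 0) (nat_lit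 1) (nat_lit 0) (nat_lit 1) (nat_lit 0) (nat_lit 423) (nat_lit 368) (nat_lit 289)) (XT.nd (nat_lit 94) (nat_lit 0) (nat_lit 0) (XT.lf (nat_lit 0) (nat_lit 1991632221) (nat_lit 0) (nat_lit 0) (nat_lit 0) (nat_lit 0) (nat_lit 0) (nat_lit 0) (nat_lit 1) (nat_lit 0) (nat_lit 1) (nat_lit 0) (nat_lit 424) (nat_lit 368) (nat_lit 288)) (XT.lf (nat_lit 0) (nat_lit 1991320292) (nat_lit 0) (nat_lit 0) (nat_lit 0) (nat_lit 0) (nat_lit 0) (nat_lit 0) (nat_lit 1) (nat_lit 0) (nat_lit 1) (nat_lit 0) (nat_lit 425) (nat_lit 368) (nat_lit 287))))) (XT.nd (nat_lit 188) (nat_lit 0) (nat_lit 0) (XT.nd (nat_lit 94) (nat_lit 0) (nat_lit 0) (XT.lf (nat_lit 0) (nat_lit 1991031469) (nat_lit 0) (nat_lit 0) (nat_lit 0) (nat_lit 0) (nat_lit 0) (nat_lit 0) (nat_lit 1) (nat_lit 0) (nat_lit 1) (nat_lit 0) (nat_lit 426) (nat_lit 368) (nat_lit 286)) (XT.lf (nat_lit 0) (nat_lit 1990764040) (nat_lit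 0) (nat_lit 0) (nat_lit 0) (nat_lit 0) (nat_lit 0) (nat_lit 0) (nat_lit 1) (nat_lit 0) (nat_lit 1) (nat_lit 0) (nat_lit 427) (nat_lit 368) (nat_lit 285))) (XT.nd (nat_lit 94) (nat_lit 0) (nat_lit 0) (XT.lf (nat_lit 0) (nat_lit 1990516420) (nat_lit 0) (nat_lit 0) (nat_lit 0) (nat_lit 0) (nat_lit 0) (nat_lit 0) (nat_lit 1) (nat_lit 0) (nat_lit 1) (nat_lit 0) (nat_lit 428) (nat_lit 368) (nat_lit 284)) (XT.nd (nat_lit 94) (nat_lit 0) (nat_lit 0) (XT.lf (nat_lit 0) (nat_lit 1990287143) (nat_lit 0) (nat_lit 0) (nat_lit 0) (nat_lit 0) (nat_lit 0) (nat_lit 0) (nat_lit 1) (nat_lit 0) (nat_lit 1) (nat_lit 0) (nat_lit 429) (nat_lit 368) (nat_lit 283)) (XT.lf (nat_lit 0) (nat_lit 1990074850) (nat_lit 0) (nat_lit 0) (nat_lit 0) (nat_lit 0) (nat_lit 0) (nat_lit 0) (nat_lit 1) (nat_lit 0) (nat_lit 1) (nat_lit 0) (nat_lit 430) (nat_lit 368) (nat_lit 282))))))))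
noncomputable def ec46 : XT := (XT.nd (nat_lit 60912) (nat_lit 0) (nat_lit 3276) (XT.nd (nat_lit 60066) (nat_lit 0) (nat_lit 7476) (XT.nd (nat_lit 59596) (nat_lit 0) (nat_lit 10836) (XT.nd (nat_lit 59408) (nat_lit 0) (nat_lit 10752) (XT.nd (nat_lit 94) (nat_lit 0) (nat_lit 0) (XT.lf (nat_lit 0) (nat_lit 1989878282) (nat_lit 0) (nat_lit 0) (nat_lit 0) (nat_lit 0) (nat_lit 0) (nat_lit 0) (nat_lit 1) (nat_lit 0) (nat_lit 1) (nat_lit 0) (nat_lit 431) (nat_lit 368) (nat_lit 281)) (XT.lf (nat_lit 0) (nat_lit 1989696274) (nat_lit 0) (nat_lit 0) (nat_lit 0) (nat_lit 0) (nat_lit 0) (nat_lit 0) (nat_lit 1) (nat_lit 0) (nat_lit 1) (nat_lit 0) (nat_lit 432) (nat_lit 368) (nat_lit 280))) (XT.nd (nat_lit 94) (nat_lit 0) (nat_lit 84) (XT.lf (nat_lit 924) (nat_lit 1074146402) (nat_lit 0) (nat_lit 1907144469) (nat_lit 924) (nat_lit 1074146402) (nat_lit 139) (nat_lit 1) (nat_lit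 128) (nat_lit 0) (nat_lit 139) (nat_lit 0) (nat_lit 342) (nat_lit 369) (nat_lit 369)) (XT.lf (nat_lit 924) (nat_lit 400689567) (nat_lit 0) (nat_lit 3744302602) (nat_lit 840) (nat_lit 3661915436) (nat_lit 140) (nat_lit 1) (nat_lit 129) (nat_lit 1) (nat_lit 139) (nat_lit 1) (nat_lit 343) (nat_lit 369) (nat_lit 368)))) (XT.nd (nat_lit 188) (nat_lit 0) (nat_lit 168) (XT.nd (nat_lit 94) (nat_lit 0) (nat_lit 84) (XT.lf (nat_lit 924) (nat_lit 3680102395) (nat_lit 84) (nat_lit 2507560715) (nat_lit 0) (nat_lit 1329895818) (nat_lit 140) (nat_lit 1) (nat_lit 130) (nat_lit 1) (nat_lit 129) (nat_lit 1) (nat_lit 344) (nat_lit 369) (nat_lit 367)) (XT.lf (nat_lit 924) (nat_lit 3179909948) (nat_lit 84) (nat_lit 1050901315) (nat_lit 0) (nat_lit 3011878730) (nat_lit 141) (nat_lit 1) (nat_lit 131) (nat_lit 1) (nat_lit 130) (nat_lit 1) (nat_lit 345) (nat_lit 369) (nat_lit 366)))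 (XT.nd (nat_lit 94) (nat_lit 0) (nat_lit 84) (XT.lf (nat_lit 924) (nat_lit 2353403708) (nat_lit 0) (nat_lit 4403107097) (nat_lit 840) (nat_lit 225086205) (nat_lit 142) (nat_lit 1) (nat_lit 131) (nat_lit 1) (nat_lit 141) (nat_lit 1) (nat_lit 346) (nat_lit 369) (nat_lit 365)) (XT.nd (nat_lit 94) (nat_lit 0) (nat_lit 0) (XT.lf (nat_lit 924) (nat_lit 564676145) (nat_lit 0) (nat_lit 4855648805) (nat_lit 840) (nat_lit 1312648096) (nat_lit 143) (nat_lit 1) (nat_lit 132) (nat_lit 1) (nat_lit 142) (nat_lit 1) (nat_lit 347) (nat_lit 369) (nat_lit 364)) (XT.lf (nat_lit 924) (nat_lit 1085077878) (nat_lit 84) (nat_lit 4219954224) (nat_lit 0) (nat_lit 1190923146) (nat_lit 143) (nat_lit 1) (nat_lit 133) (nat_lit 1) (nat_lit 132) (nat_lit 1) (nat_lit 348) (nat_lit 369) (nat_lit 363)))))) (XT.nd (nat_lit 376) (nat_lit 1428) (nat_lit 0) (XT.nd (nat_lit 188) (nat_lit 840) (nat_lit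 0) (XT.nd (nat_lit 94) (nat_lit 588) (nat_lit 0) (XT.lf (nat_lit 924) (nat_lit 222850253) (nat_lit 0) (nat_lit 3154694922) (nat_lit 840) (nat_lit 2892822189) (nat_lit 134) (nat_lit 1) (nat_lit 123) (nat_lit 1) (nat_lit 133) (nat_lit 1) (nat_lit 349) (nat_lit 369) (nat_lit 362)) (XT.lf (nat_lit 84) (nat_lit 1543061573) (nat_lit 0) (nat_lit 668680388) (nat_lit 588) (nat_lit 3843718886) (nat_lit 117) (nat_lit 1) (nat_lit 116) (nat_lit 1) (nat_lit 123) (nat_lit 1) (nat_lit 350) (nat_lit 369) (nat_lit 361))) (XT.nd (nat_lit 94) (nat_lit 420) (nat_lit 0) (XT.lf (nat_lit 504) (nat_lit 4252483477) (nat_lit 0) (nat_lit 1384275047) (nat_lit 420) (nat_lit 214017475) (nat_lit 117) (nat_lit 1) (nat_lit 111) (nat_lit 1) (nat_lit 116) (nat_lit 1) (nat_lit 351) (nat_lit 369) (nat_lit 360)) (XT.lf (nat_lit 504) (nat_lit 3068632572) (nat_lit 0) (nat_lit 645216562) (nat_lit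 420) (nat_lit 1941043100) (nat_lit 112) (nat_lit 1) (nat_lit 106) (nat_lit 1) (nat_lit 111) (nat_lit 1) (nat_lit 352) (nat_lit 369) (nat_lit 359)))) (XT.nd (nat_lit 188) (nat_lit 1092) (nat_lit 0) (XT.nd (nat_lit 94) (nat_lit 0) (nat_lit 0) (XT.lf (nat_lit 420) (nat_lit 1867223783) (nat_lit 0) (nat_lit 11879485) (nat_lit 336) (nat_lit 3589403179) (nat_lit 107) (nat_lit 1) (nat_lit 102) (nat_lit 1) (nat_lit 106) (nat_lit 1) (nat_lit 353) (nat_lit 369) (nat_lit 358)) (XT.lf (nat_lit 84) (nat_lit 137754946) (nat_lit 0) (nat_lit 4645764290) (nat_lit 420) (nat_lit 507175503) (nat_lit 103) (nat_lit 1) (nat_lit 102) (nat_lit 1) (nat_lit 107) (nat_lit 1) (nat_lit 354) (nat_lit 369) (nat_lit 357))) (XT.nd (nat_lit 94) (nat_lit 672) (nat_lit 0) (XT.lf (nat_lit 84) (nat_lit 3556868441) (nat_lit 0) (nat_lit 589944689) (nat_lit 420) (nat_lit 972925934) (nat_lit 98) (nat_lit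 1) (nat_lit 97) (nat_lit 1) (nat_lit 102) (nat_lit 1) (nat_lit 355) (nat_lit 369) (nat_lit 356)) (XT.nd (nat_lit 94) (nat_lit 336) (nat_lit 0) (XT.lf (nat_lit 84) (nat_lit 1779591414) (nat_lit 0) (nat_lit 1807105307) (nat_lit 420) (nat_lit 1369640361) (nat_lit 94) (nat_lit 1) (nat_lit 93) (nat_lit 1) (nat_lit 98) (nat_lit 1) (nat_lit 356) (nat_lit 369) (nat_lit 355)) (XT.lf (nat_lit 84) (nat_lit 87836686) (nat_lit 0) (nat_lit 3021452014) (nat_lit 420) (nat_lit 1691382945) (nat_lit 90) (nat_lit 1) (nat_lit 89) (nat_lit 1) (nat_lit 94) (nat_lit 1) (nat_lit 357) (nat_lit 369) (nat_lit 354))))))) (XT.nd (nat_lit 846) (nat_lit 1764) (nat_lit 0) (XT.nd (nat_lit 376) (nat_lit 1260) (nat_lit 0) (XT.nd (nat_lit 188) (nat_lit 504) (nat_lit 0) (XT.nd (nat_lit 94) (nat_lit 420) (nat_lit 0) (XT.lf (nat_lit 336) (nat_lit 396665523) (nat_lit 0) (nat_lit 2682459065) (nat_lit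 252) (nat_lit 1571982662) (nat_lit 90) (nat_lit 1) (nat_lit 86) (nat_lit 1) (nat_lit 89) (nat_lit 1) (nat_lit 358) (nat_lit 369) (nat_lit 353)) (XT.lf (nat_lit 84) (nat_lit 1370586031) (nat_lit 0) (nat_lit 939408182) (nat_lit 420) (nat_lit 2197727417) (nat_lit 82) (nat_lit 1) (nat_lit 81) (nat_lit 1) (nat_lit 86) (nat_lit 1) (nat_lit 359) (nat_lit 369) (nat_lit 352))) (XT.nd (nat_lit 94) (nat_lit 252) (nat_lit 0) (XT.lf (nat_lit 336) (nat_lit 2121996846) (nat_lit 0) (nat_lit 1993341775) (nat_lit 252) (nat_lit 255145381) (nat_lit 82) (nat_lit 1) (nat_lit 78) (nat_lit 1) (nat_lit 81) (nat_lit 1) (nat_lit 360) (nat_lit 369) (nat_lit 351)) (XT.lf (nat_lit 336) (nat_lit 680089737) (nat_lit 0) (nat_lit 1716185641) (nat_lit 252) (nat_lit 1842245074) (nat_lit 79) (nat_lit 1) (nat_lit 75) (nat_lit 1) (nat_lit 78) (nat_lit 1) (nat_lit 361) (nat_lit 369) (nat_lit 350))))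 (XT.nd (nat_lit 188) (nat_lit 672) (nat_lit 0) (XT.nd (nat_lit 94) (nat_lit 252) (nat_lit 0) (XT.lf (nat_lit 84) (nat_lit 775137969) (nat_lit 0) (nat_lit 709706171) (nat_lit 336) (nat_lit 2627193458) (nat_lit 72) (nat_lit 1) (nat_lit 71) (nat_lit 1) (nat_lit 75) (nat_lit 1) (nat_lit 362) (nat_lit 369) (nat_lit 349)) (XT.lf (nat_lit 336) (nat_lit 1928829100) (nat_lit 0) (nat_lit 1283371406) (nat_lit 252) (nat_lit 777983966) (nat_lit 72) (nat_lit 1) (nat_lit 68) (nat_lit 1) (nat_lit 71) (nat_lit 1) (nat_lit 363) (nat_lit 369) (nat_lit 348))) (XT.nd (nat_lit 94) (nat_lit 504) (nat_lit 0) (XT.lf (nat_lit 252) (nat_lit 478159581) (nat_lit 0) (nat_lit 1119647942) (nat_lit 168) (nat_lit 2275439716) (nat_lit 69) (nat_lit 1) (nat_lit 66) (nat_lit 1) (nat_lit 68) (nat_lit 1) (nat_lit 364) (nat_lit 369) (nat_lit 347)) (XT.nd (nat_lit 94) (nat_lit 168) (nat_lit 0) (XT.lf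 (nat_lit 84) (nat_lit 81003288) (nat_lit 0) (nat_lit 906444378) (nat_lit 336) (nat_lit 2773395138) (nat_lit 63) (nat_lit 1) (nat_lit 62) (nat_lit 1) (nat_lit 66) (nat_lit 1) (nat_lit 365) (nat_lit 369) (nat_lit 346)) (XT.lf (nat_lit 252) (nat_lit 1389444009) (nat_lit 0) (nat_lit 868283305) (nat_lit 168) (nat_lit 1394279288) (nat_lit 63) (nat_lit 1) (nat_lit 60) (nat_lit 1) (nat_lit 62) (nat_lit 1) (nat_lit 366) (nat_lit 369) (nat_lit 345)))))) (XT.nd (nat_lit 470) (nat_lit 756) (nat_lit 0) (XT.nd (nat_lit 188) (nat_lit 588) (nat_lit 0) (XT.nd (nat_lit 94) (nat_lit 168) (nat_lit 0) (XT.lf (nat_lit 84) (nat_lit 753854254) (nat_lit 0) (nat_lit 34821000) (nat_lit 252) (nat_lit 2759244383) (nat_lit 58) (nat_lit 1) (nat_lit 57) (nat_lit 1) (nat_lit 60) (nat_lit 1) (nat_lit 367) (nat_lit 369) (nat_lit 344)) (XT.lf (nat_lit 252) (nat_lit 2060891958) (nat_lit 0) (nat_lit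 714145272) (nat_lit 168) (nat_lit 671823258) (nat_lit 58) (nat_lit 1) (nat_lit 55) (nat_lit 1) (nat_lit 57) (nat_lit 1) (nat_lit 368) (nat_lit 369) (nat_lit 343))) (XT.nd (nat_lit 94) (nat_lit 420) (nat_lit 0) (XT.lf (nat_lit 252) (nat_lit 640195627) (nat_lit 0) (nat_lit 663877002) (nat_lit 168) (nat_lit 2045592644) (nat_lit 56) (nat_lit 1) (nat_lit 53) (nat_lit 1) (nat_lit 55) (nat_lit 1) (nat_lit 369) (nat_lit 369) (nat_lit 342)) (XT.nd (nat_lit 94) (nat_lit 168) (nat_lit 0) (XT.lf (nat_lit 252) (nat_lit 2541341364) (nat_lit 0) (nat_lit 634280592) (nat_lit 168) (nat_lit 80465851) (nat_lit 53) (nat_lit 1) (nat_lit 50) (nat_lit 1) (nat_lit 52) (nat_lit 1) (nat_lit 370) (nat_lit 369) (nat_lit 341)) (XT.lf (nat_lit 252) (nat_lit 1137386613) (nat_lit 0) (nat_lit 605524119) (nat_lit 168) (nat_lit 1422199830) (nat_lit 51) (nat_lit 1) (nat_lit 48) (nat_lit 1) (nat_lit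 50) (nat_lit 1) (nat_lit 371) (nat_lit 369) (nat_lit 340))))) (XT.nd (nat_lit 188) (nat_lit 420) (nat_lit 0) (XT.nd (nat_lit 94) (nat_lit 168) (nat_lit 0) (XT.lf (nat_lit 84) (nat_lit 389598828) (nat_lit 0) (nat_lit 214141071) (nat_lit 168) (nat_lit 2474166920) (nat_lit 47) (nat_lit 1) (nat_lit 46) (nat_lit 1) (nat_lit 48) (nat_lit 1) (nat_lit 372) (nat_lit 369) (nat_lit 339)) (XT.lf (nat_lit 252) (nat_lit 1492316648) (nat_lit 0) (nat_lit 597346966) (nat_lit 168) (nat_lit 903239966) (nat_lit 47) (nat_lit 1) (nat_lit 44) (nat_lit 1) (nat_lit 46) (nat_lit 1) (nat_lit 373) (nat_lit 369) (nat_lit 338))) (XT.nd (nat_lit 94) (nat_lit 336) (nat_lit 0) (XT.lf (nat_lit 168) (nat_lit 160701297) (nat_lit 0) (nat_lit 612018580) (nat_lit 84) (nat_lit 2138536283) (nat_lit 45) (nat_lit 1) (nat_lit 43) (nat_lit 1) (nat_lit 44) (nat_lit 1) (nat_lit 374) (nat_lit 369) (nat_lit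 337)) (XT.nd (nat_lit 94) (nat_lit 84) (nat_lit 0) (XT.lf (nat_lit 252) (nat_lit 1734711176) (nat_lit 0) (nat_lit 625931688) (nat_lit 168) (nat_lit 471217146) (nat_lit 43) (nat_lit 1) (nat_lit 40) (nat_lit 1) (nat_lit 42) (nat_lit 1) (nat_lit 375) (nat_lit 369) (nat_lit 336)) (XT.lf (nat_lit 168) (nat_lit 436292652) (nat_lit 0) (nat_lit 649335904) (nat_lit 84) (nat_lit 1669511114) (nat_lit 41) (nat_lit 1) (nat_lit 39) (nat_lit 1) (nat_lit 40) (nat_lit 1) (nat_lit 376) (nat_lit 369) (nat_lit 335))))))))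
noncomputable def ec47 : XT := (XT.nd (nat_lit 1786) (nat_lit 588) (nat_lit 0) (XT.nd (nat_lit 846) (nat_lit 1260) (nat_lit 0) (XT.nd (nat_lit 376) (nat_lit 756) (nat_lit 0) (XT.nd (nat_lit 188) (nat_lit 336) (nat_lit 0) (XT.nd (nat_lit 94) (nat_lit 84) (nat_lit 0) (XT.lf (nat_lit 252) (nat_lit 1888603596) (nat_lit 0) (nat_lit 680653567) (nat_lit 168) (nat_lit 111701077) (nat_lit 39) (nat_lit 1) (nat_lit 36) (nat_lit 1) (nat_lit 38) (nat_lit 1) (nat_lit 377) (nat_lit 369) (nat_lit 334)) (XT.lf (nat_lit 168) (nat_lit 627884982) (nat_lit 0) (nat_lit 709589523) (nat_lit 84) (nat_lit 1271290911) (nat_lit 37) (nat_lit 1) (nat_lit 35) (nat_lit 1) (nat_lit 36) (nat_lit 1) (nat_lit 378) (nat_lit 369) (nat_lit 333))) (XT.nd (nat_lit 94) (nat_lit 84) (nat_lit 0) (XT.lf (nat_lit 84) (nat_lit 181232593) (nat_lit 0) (nat_lit 568840801) (nat_lit 252) (nat_lit 1789092730)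 (nat_lit 33) (nat_lit 1) (nat_lit 32) (nat_lit 1) (nat_lit 35) (nat_lit 1) (nat_lit 379) (nat_lit 369) (nat_lit 332)) (XT.lf (nat_lit 168) (nat_lit 753518629) (nat_lit 0) (nat_lit 785130695) (nat_lit 84) (nat_lit 932645964) (nat_lit 33) (nat_lit 1) (nat_lit 31) (nat_lit 1) (nat_lit 32) (nat_lit 1) (nat_lit 380) (nat_lit 369) (nat_lit 331)))) (XT.nd (nat_lit 188) (nat_lit 420) (nat_lit 0) (XT.nd (nat_lit 94) (nat_lit 84) (nat_lit 0) (XT.lf (nat_lit 84) (nat_lit 421479530) (nat_lit 0) (nat_lit 408231425) (nat_lit 252) (nat_lit 1576098643) (nat_lit 29) (nat_lit 1) (nat_lit 28) (nat_lit 1) (nat_lit 31) (nat_lit 1) (nat_lit 381) (nat_lit 369) (nat_lit 330)) (XT.lf (nat_lit 168) (nat_lit 827741904) (nat_lit 0) (nat_lit 869988717) (nat_lit 84) (nat_lit 644266423) (nat_lit 29) (nat_lit 1) (nat_lit 27) (nat_lit 1) (nat_lit 28) (nat_lit 1) (nat_lit 382) (nat_lit 369)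 (nat_lit 329))) (XT.nd (nat_lit 94) (nat_lit 252) (nat_lit 0) (XT.lf (nat_lit 84) (nat_lit 620515332) (nat_lit 0) (nat_lit 295664452) (nat_lit 168) (nat_lit 1364112139) (nat_lit 26) (nat_lit 1) (nat_lit 25) (nat_lit 1) (nat_lit 27) (nat_lit 1) (nat_lit 383) (nat_lit 369) (nat_lit 328)) (XT.nd (nat_lit 94) (nat_lit 168) (nat_lit 0) (XT.lf (nat_lit 168) (nat_lit 862263606) (nat_lit 0) (nat_lit 959543877) (nat_lit 84) (nat_lit 398419833) (nat_lit 26) (nat_lit 1) (nat_lit 24) (nat_lit 1) (nat_lit 25) (nat_lit 1) (nat_lit 384) (nat_lit 369) (nat_lit 327)) (XT.lf (nat_lit 84) (nat_lit 784894200) (nat_lit 0) (nat_lit 220569537) (nat_lit 168) (nat_lit 1156546496) (nat_lit 23) (nat_lit 1) (nat_lit 22) (nat_lit 1) (nat_lit 24) (nat_lit 1) (nat_lit 385) (nat_lit 369) (nat_lit 326)))))) (XT.nd (nat_lit 470) (nat_lit 672) (nat_lit 0) (XT.nd (nat_lit 188) (nat_lit 336)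 (nat_lit 0) (XT.nd (nat_lit 94) (nat_lit 168) (nat_lit 0) (XT.lf (nat_lit 168) (nat_lit 866485065) (nat_lit 0) (nat_lit 1050261667) (nat_lit 84) (nat_lit 188670874) (nat_lit 23) (nat_lit 1) (nat_lit 21) (nat_lit 1) (nat_lit 22) (nat_lit 1) (nat_lit 386) (nat_lit 369) (nat_lit 325)) (XT.lf (nat_lit 84) (nat_lit 920063410) (nat_lit 0) (nat_lit 174447137) (nat_lit 168) (nat_lit 955919562) (nat_lit 20) (nat_lit 1) (nat_lit 19) (nat_lit 1) (nat_lit 21) (nat_lit 1) (nat_lit 387) (nat_lit 369) (nat_lit 324))) (XT.nd (nat_lit 94) (nat_lit 252) (nat_lit 0) (XT.lf (nat_lit 168) (nat_lit 847933887) (nat_lit 0) (nat_lit 1139476930) (nat_lit 84) (nat_lit 9651922) (nat_lit 20) (nat_lit 1) (nat_lit 18) (nat_lit 1) (nat_lit 19) (nat_lit 1) (nat_lit 388) (nat_lit 369) (nat_lit 323)) (XT.nd (nat_lit 94) (nat_lit 84) (nat_lit 0) (XT.lf (nat_lit 84) (nat_lit 1030559242) (nat_lit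 0) (nat_lit 150479688) (nat_lit 168) (nat_lit 764036231) (nat_lit 17) (nat_lit 1) (nat_lit 16) (nat_lit 1) (nat_lit 18) (nat_lit 1) (nat_lit 389) (nat_lit 369) (nat_lit 322)) (XT.lf (nat_lit 0) (nat_lit 138543960) (nat_lit 0) (nat_lit 1084328433) (nat_lit 168) (nat_lit 671727193) (nat_lit 15) (nat_lit 3) (nat_lit 15) (nat_lit 1) (nat_lit 17) (nat_lit 1) (nat_lit 390) (nat_lit 369) (nat_lit 321))))) (XT.nd (nat_lit 188) (nat_lit 420) (nat_lit 0) (XT.nd (nat_lit 94) (nat_lit 84) (nat_lit 0) (XT.lf (nat_lit 84) (nat_lit 1120167459) (nat_lit 0) (nat_lit 143214676) (nat_lit 168) (nat_lit 582136276) (nat_lit 14) (nat_lit 1) (nat_lit 13) (nat_lit 1) (nat_lit 15) (nat_lit 1) (nat_lit 391) (nat_lit 369) (nat_lit 320)) (XT.lf (nat_lit 0) (nat_lit 264670220) (nat_lit 0) (nat_lit 1036915690) (nat_lit 168) (nat_lit 496158469) (nat_lit 12) (nat_lit 3) (nat_lit 12) (nat_lit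 1) (nat_lit 14) (nat_lit 1) (nat_lit 392) (nat_lit 369) (nat_lit 319))) (XT.nd (nat_lit 94) (nat_lit 252) (nat_lit 0) (XT.lf (nat_lit 84) (nat_lit 1192054776) (nat_lit 0) (nat_lit 148306406) (nat_lit 168) (nat_lit 411013968) (nat_lit 11) (nat_lit 1) (nat_lit 10) (nat_lit 1) (nat_lit 12) (nat_lit 1) (nat_lit 393) (nat_lit 369) (nat_lit 318)) (XT.nd (nat_lit 94) (nat_lit 168) (nat_lit 0) (XT.lf (nat_lit 0) (nat_lit 372096874) (nat_lit 0) (nat_lit 1002645465) (nat_lit 168) (nat_lit 331393664) (nat_lit 9) (nat_lit 3) (nat_lit 9) (nat_lit 1) (nat_lit 11) (nat_lit 1) (nat_lit 394) (nat_lit 369) (nat_lit 317)) (XT.lf (nat_lit 84) (nat_lit 1248876650) (nat_lit 0) (nat_lit 162305640) (nat_lit 168) (nat_lit 251114724) (nat_lit 8) (nat_lit 1) (nat_lit 7) (nat_lit 1) (nat_lit 9) (nat_lit 1) (nat_lit 395) (nat_lit 369) (nat_lit 316))))))) (XT.nd (nat_lit 846) (nat_lit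 0) (nat_lit 0) (XT.nd (nat_lit 376) (nat_lit 0) (nat_lit 0) (XT.nd (nat_lit 188) (nat_lit 336) (nat_lit 0) (XT.nd (nat_lit 94) (nat_lit 168) (nat_lit 0) (XT.lf (nat_lit 0) (nat_lit 463404738) (nat_lit 0) (nat_lit 978255962) (nat_lit 168) (nat_lit 177779393) (nat_lit 6) (nat_lit 3) (nat_lit 6) (nat_lit 1) (nat_lit 8) (nat_lit 1) (nat_lit 396) (nat_lit 369) (nat_lit 315)) (XT.lf (nat_lit 84) (nat_lit 1292865672) (nat_lit 0) (nat_lit 182488305) (nat_lit 168) (nat_lit 102613069) (nat_lit 5) (nat_lit 1) (nat_lit 4) (nat_lit 1) (nat_lit 6) (nat_lit 1) (nat_lit 397) (nat_lit 369) (nat_lit 314))) (XT.nd (nat_lit 94) (nat_lit 252) (nat_lit 0) (XT.lf (nat_lit 0) (nat_lit 540776565) (nat_lit 0) (nat_lit 961159366) (nat_lit 168) (nat_lit 35416031) (nat_lit 3) (nat_lit 3) (nat_lit 3) (nat_lit 1) (nat_lit 5) (nat_lit 1) (nat_lit 398) (nat_lit 369) (nat_lit 313)) (XT.lf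 (nat_lit 0) (nat_lit 2173117846) (nat_lit 0) (nat_lit 0) (nat_lit 0) (nat_lit 0) (nat_lit 0) (nat_lit 0) (nat_lit 1) (nat_lit 0) (nat_lit 1) (nat_lit 0) (nat_lit 399) (nat_lit 369) (nat_lit 312)))) (XT.nd (nat_lit 188) (nat_lit 0) (nat_lit 0) (XT.nd (nat_lit 94) (nat_lit 0) (nat_lit 0) (XT.lf (nat_lit 0) (nat_lit 2171139848) (nat_lit 0) (nat_lit 0) (nat_lit 0) (nat_lit 0) (nat_lit 0) (nat_lit 0) (nat_lit 1) (nat_lit 0) (nat_lit 1) (nat_lit 0) (nat_lit 400) (nat_lit 369) (nat_lit 311)) (XT.lf (nat_lit 0) (nat_lit 2169308369) (nat_lit 0) (nat_lit 0) (nat_lit 0) (nat_lit 0) (nat_lit 0) (nat_lit 0) (nat_lit 1) (nat_lit 0) (nat_lit 1) (nat_lit 0) (nat_lit 401) (nat_lit 369) (nat_lit 310))) (XT.nd (nat_lit 94) (nat_lit 0) (nat_lit 0) (XT.lf (nat_lit 0) (nat_lit 2167612554) (nat_lit 0) (nat_lit 0) (nat_lit 0) (nat_lit 0) (nat_lit 0) (nat_lit 0) (nat_lit 1) (nat_lit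 0) (nat_lit 1) (nat_lit 0) (nat_lit 402) (nat_lit 369) (nat_lit 309)) (XT.nd (nat_lit 94) (nat_lit 0) (nat_lit 0) (XT.lf (nat_lit 0) (nat_lit 2166042356) (nat_lit 0) (nat_lit 0) (nat_lit 0) (nat_lit 0) (nat_lit 0) (nat_lit 0) (nat_lit 1) (nat_lit 0) (nat_lit 1) (nat_lit 0) (nat_lit 403) (nat_lit 369) (nat_lit 308)) (XT.lf (nat_lit 0) (nat_lit 2164588468) (nat_lit 0) (nat_lit 0) (nat_lit 0) (nat_lit 0) (nat_lit 0) (nat_lit 0) (nat_lit 1) (nat_lit 0) (nat_lit 1) (nat_lit 0) (nat_lit 404) (nat_lit 369) (nat_lit 307)))))) (XT.nd (nat_lit 470) (nat_lit 0) (nat_lit 0) (XT.nd (nat_lit 188) (nat_lit 0) (nat_lit 0) (XT.nd (nat_lit 94) (nat_lit 0) (nat_lit 0) (XT.lf (nat_lit 0) (nat_lit 2163242276) (nat_lit 0) (nat_lit 0) (nat_lit 0) (nat_lit 0) (nat_lit 0) (nat_lit 0) (nat_lit 1) (nat_lit 0) (nat_lit 1) (nat_lit 0) (nat_lit 405) (nat_lit 369) (nat_lit 306)) (XT.lf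 (nat_lit 0) (nat_lit 2161995802) (nat_lit 0) (nat_lit 0) (nat_lit 0) (nat_lit 0) (nat_lit 0) (nat_lit 0) (nat_lit 1) (nat_lit 0) (nat_lit 1) (nat_lit 0) (nat_lit 406) (nat_lit 369) (nat_lit 305))) (XT.nd (nat_lit 94) (nat_lit 0) (nat_lit 0) (XT.lf (nat_lit 0) (nat_lit 2160841659) (nat_lit 0) (nat_lit 0) (nat_lit 0) (nat_lit 0) (nat_lit 0) (nat_lit 0) (nat_lit 1) (nat_lit 0) (nat_lit 1) (nat_lit 0) (nat_lit 407) (nat_lit 369) (nat_lit 304)) (XT.nd (nat_lit 94) (nat_lit 0) (nat_lit 0) (XT.lf (nat_lit 0) (nat_lit 2159773008) (nat_lit 0) (nat_lit 0) (nat_lit 0) (nat_lit 0) (nat_lit 0) (nat_lit 0) (nat_lit 1) (nat_lit 0) (nat_lit 1) (nat_lit 0) (nat_lit 408) (nat_lit 369) (nat_lit 303)) (XT.lf (nat_lit 0) (nat_lit 2158783517) (nat_lit 0) (nat_lit 0) (nat_lit 0) (nat_lit 0) (nat_lit 0) (nat_lit 0) (nat_lit 1) (nat_lit 0) (nat_lit 1) (nat_lit 0) (nat_lit 409) (nat_lit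 369) (nat_lit 302))))) (XT.nd (nat_lit 188) (nat_lit 0) (nat_lit 0) (XT.nd (nat_lit 94) (nat_lit 0) (nat_lit 0) (XT.lf (nat_lit 0) (nat_lit 2157867321) (nat_lit 0) (nat_lit 0) (nat_lit 0) (nat_lit 0) (nat_lit 0) (nat_lit 0) (nat_lit 1) (nat_lit 0) (nat_lit 1) (nat_lit 0) (nat_lit 410) (nat_lit 369) (nat_lit 301)) (XT.lf (nat_lit 0) (nat_lit 2157018992) (nat_lit 0) (nat_lit 0) (nat_lit 0) (nat_lit 0) (nat_lit 0) (nat_lit 0) (nat_lit 1) (nat_lit 0) (nat_lit 1) (nat_lit 0) (nat_lit 411) (nat_lit 369) (nat_lit 300))) (XT.nd (nat_lit 94) (nat_lit 0) (nat_lit 0) (XT.lf (nat_lit 0) (nat_lit 2156233501) (nat_lit 0) (nat_lit 0) (nat_lit 0) (nat_lit 0) (nat_lit 0) (nat_lit 0) (nat_lit 1) (nat_lit 0) (nat_lit 1) (nat_lit 0) (nat_lit 412) (nat_lit 369) (nat_lit 299)) (XT.nd (nat_lit 94) (nat_lit 0) (nat_lit 0) (XT.lf (nat_lit 0) (nat_lit 2155506196) (nat_lit 0) (nat_lit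 0) (nat_lit 0) (nat_lit 0) (nat_lit 0) (nat_lit 0) (nat_lit 1) (nat_lit 0) (nat_lit 1) (nat_lit 0) (nat_lit 413) (nat_lit 369) (nat_lit 298)) (XT.lf (nat_lit 0) (nat_lit 2154832765) (nat_lit 0) (nat_lit 0) (nat_lit 0) (nat_lit 0) (nat_lit 0) (nat_lit 0) (nat_lit 1) (nat_lit 0) (nat_lit 1) (nat_lit 0) (nat_lit 414) (nat_lit 369) (nat_lit 297))))))))
noncomputable def ec48 : XT := (XT.nd (nat_lit 60724) (nat_lit 0) (nat_lit 6552) (XT.nd (nat_lit 846) (nat_lit 0) (nat_lit 0) (XT.nd (nat_lit 376) (nat_lit 0) (nat_lit 0) (XT.nd (nat_lit 188) (nat_lit 0) (nat_lit 0) (XT.nd (nat_lit 94) (nat_lit 0) (nat_lit 0) (XT.lf (nat_lit 0) (nat_lit 2154209217) (nat_lit 0) (nat_lit 0) (nat_lit 0) (nat_lit 0) (nat_lit 0) (nat_lit 0) (nat_lit 1) (nat_lit 0) (nat_lit 1) (nat_lit 0) (nat_lit 415) (nat_lit 369) (nat_lit 296)) (XT.lf (nat_lit 0) (nat_lit 2153631858) (nat_lit 0) (nat_lit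 0) (nat_lit 0) (nat_lit 0) (nat_lit 0) (nat_lit 0) (nat_lit 1) (nat_lit 0) (nat_lit 1) (nat_lit 0) (nat_lit 416) (nat_lit 369) (nat_lit 295))) (XT.nd (nat_lit 94) (nat_lit 0) (nat_lit 0) (XT.lf (nat_lit 0) (nat_lit 2153097267) (nat_lit 0) (nat_lit 0) (nat_lit 0) (nat_lit 0) (nat_lit 0) (nat_lit 0) (nat_lit 1) (nat_lit 0) (nat_lit 1) (nat_lit 0) (nat_lit 417) (nat_lit 369) (nat_lit 294)) (XT.lf (nat_lit 0) (nat_lit 2152602275) (nat_lit 0) (nat_lit 0) (nat_lit 0) (nat_lit 0) (nat_lit 0) (nat_lit 0) (nat_lit 1) (nat_lit 0) (nat_lit 1) (nat_lit 0) (nat_lit 418) (nat_lit 369) (nat_lit 293)))) (XT.nd (nat_lit 188) (nat_lit 0) (nat_lit 0) (XT.nd (nat_lit 94) (nat_lit 0) (nat_lit 0) (XT.lf (nat_lit 0) (nat_lit 2152143949) (nat_lit 0) (nat_lit 0) (nat_lit 0) (nat_lit 0) (nat_lit 0) (nat_lit 0) (nat_lit 1) (nat_lit 0) (nat_lit 1) (nat_lit 0) (nat_lit 419) (nat_lit 369)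 (nat_lit 292)) (XT.lf (nat_lit 0) (nat_lit 2151719573) (nat_lit 0) (nat_lit 0) (nat_lit 0) (nat_lit 0) (nat_lit 0) (nat_lit 0) (nat_lit 1) (nat_lit 0) (nat_lit 1) (nat_lit 0) (nat_lit 420) (nat_lit 369) (nat_lit 291))) (XT.nd (nat_lit 94) (nat_lit 0) (nat_lit 0) (XT.lf (nat_lit 0) (nat_lit 2151326632) (nat_lit 0) (nat_lit 0) (nat_lit 0) (nat_lit 0) (nat_lit 0) (nat_lit 0) (nat_lit 1) (nat_lit 0) (nat_lit 1) (nat_lit 0) (nat_lit 421) (nat_lit 369) (nat_lit 290)) (XT.nd (nat_lit 94) (nat_lit 0) (nat_lit 0) (XT.lf (nat_lit 0) (nat_lit 2150962798) (nat_lit 0) (nat_lit 0) (nat_lit 0) (nat_lit 0) (nat_lit 0) (nat_lit 0) (nat_lit 1) (nat_lit 0) (nat_lit 1) (nat_lit 0) (nat_lit 422) (nat_lit 369) (nat_lit 289)) (XT.lf (nat_lit 0) (nat_lit 2150625915) (nat_lit 0) (nat_lit 0) (nat_lit 0) (nat_lit 0) (nat_lit 0) (nat_lit 0) (nat_lit 1) (nat_lit 0) (nat_lit 1) (nat_lit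 0) (nat_lit 423) (nat_lit 369) (nat_lit 288)))))) (XT.nd (nat_lit 376) (nat_lit 0) (nat_lit 0) (XT.nd (nat_lit 188) (nat_lit 0) (nat_lit 0) (XT.nd (nat_lit 94) (nat_lit 0) (nat_lit 0) (XT.lf (nat_lit 0) (nat_lit 2150313986) (nat_lit 0) (nat_lit 0) (nat_lit 0) (nat_lit 0) (nat_lit 0) (nat_lit 0) (nat_lit 1) (nat_lit 0) (nat_lit 1) (nat_lit 0) (nat_lit 424) (nat_lit 369) (nat_lit 287)) (XT.lf (nat_lit 0) (nat_lit 2150025163) (nat_lit 0) (nat_lit 0) (nat_lit 0) (nat_lit 0) (nat_lit 0) (nat_lit 0) (nat_lit 1) (nat_lit 0) (nat_lit 1) (nat_lit 0) (nat_lit 425) (nat_lit 369) (nat_lit 286))) (XT.nd (nat_lit 94) (nat_lit 0) (nat_lit 0) (XT.lf (nat_lit 0) (nat_lit 2149757734) (nat_lit 0) (nat_lit 0) (nat_lit 0) (nat_lit 0) (nat_lit 0) (nat_lit 0) (nat_lit 1) (nat_lit 0) (nat_lit 1) (nat_lit 0) (nat_lit 426) (nat_lit 369) (nat_lit 285)) (XT.lf (nat_lit 0) (nat_lit 2149510115)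 (nat_lit 0) (nat_lit 0) (nat_lit 0) (nat_lit 0) (nat_lit 0) (nat_lit 0) (nat_lit 1) (nat_lit 0) (nat_lit 1) (nat_lit 0) (nat_lit 427) (nat_lit 369) (nat_lit 284)))) (XT.nd (nat_lit 188) (nat_lit 0) (nat_lit 0) (XT.nd (nat_lit 94) (nat_lit 0) (nat_lit 0) (XT.lf (nat_lit 0) (nat_lit 2149280838) (nat_lit 0) (nat_lit 0) (nat_lit 0) (nat_lit 0) (nat_lit 0) (nat_lit 0) (nat_lit 1) (nat_lit 0) (nat_lit 1) (nat_lit 0) (nat_lit 428) (nat_lit 369) (nat_lit 283)) (XT.lf (nat_lit 0) (nat_lit 2149068544) (nat_lit 0) (nat_lit 0) (nat_lit 0) (nat_lit 0) (nat_lit 0) (nat_lit 0) (nat_lit 1) (nat_lit 0) (nat_lit 1) (nat_lit 0) (nat_lit 429) (nat_lit 369) (nat_lit 282))) (XT.nd (nat_lit 94) (nat_lit 0) (nat_lit 0) (XT.lf (nat_lit 0) (nat_lit 2148871976) (nat_lit 0) (nat_lit 0) (nat_lit 0) (nat_lit 0) (nat_lit 0) (nat_lit 0) (nat_lit 1) (nat_lit 0) (nat_lit 1) (nat_lit 0) (nat_lit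 430) (nat_lit 369) (nat_lit 281)) (XT.nd (nat_lit 94) (nat_lit 0) (nat_lit 0) (XT.lf (nat_lit 0) (nat_lit 2148689968) (nat_lit 0) (nat_lit 0) (nat_lit 0) (nat_lit 0) (nat_lit 0) (nat_lit 0) (nat_lit 1) (nat_lit 0) (nat_lit 1) (nat_lit 0) (nat_lit 431) (nat_lit 369) (nat_lit 280)) (XT.lf (nat_lit 0) (nat_lit 2148521443) (nat_lit 0) (nat_lit 0) (nat_lit 0) (nat_lit 0) (nat_lit 0) (nat_lit 0) (nat_lit 1) (nat_lit 0) (nat_lit 1) (nat_lit 0) (nat_lit 432) (nat_lit 369) (nat_lit 279))))))) (XT.nd (nat_lit 846) (nat_lit 3192) (nat_lit 0) (XT.nd (nat_lit 376) (nat_lit 1008) (nat_lit 0) (XT.nd (nat_lit 188) (nat_lit 0) (nat_lit 84) (XT.nd (nat_lit 94) (nat_lit 0) (nat_lit 84) (XT.lf (nat_lit 924) (nat_lit 1160078114) (nat_lit 0) (nat_lit 2059716026) (nat_lit 924) (nat_lit 1160078114) (nat_lit 139) (nat_lit 1) (nat_lit 128) (nat_lit 0) (nat_lit 139) (nat_lit 0) (nat_lit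 340) (nat_lit 370) (nat_lit 370)) (XT.lf (nat_lit 924) (nat_lit 432744732) (nat_lit 0) (nat_lit 4043846811) (nat_lit 840) (nat_lit 3954868671) (nat_lit 140) (nat_lit 1) (nat_lit 129) (nat_lit 1) (nat_lit 139) (nat_lit 1) (nat_lit 341) (nat_lit 370) (nat_lit 369))) (XT.nd (nat_lit 94) (nat_lit 0) (nat_lit 84) (XT.lf (nat_lit 924) (nat_lit 3974510587) (nat_lit 84) (nat_lit 2708165572) (nat_lit 0) (nat_lit 1436287483) (nat_lit 140) (nat_lit 1) (nat_lit 130) (nat_lit 1) (nat_lit 129) (nat_lit 1) (nat_lit 342) (nat_lit 370) (nat_lit 368)) (XT.lf (nat_lit 924) (nat_lit 3434302744) (nat_lit 84) (nat_lit 1134973420) (nat_lit 0) (nat_lit 3252829029) (nat_lit 141) (nat_lit 1) (nat_lit 131) (nat_lit 1) (nat_lit 130) (nat_lit 1) (nat_lit 343) (nat_lit 370) (nat_lit 367)))) (XT.nd (nat_lit 188) (nat_lit 1260) (nat_lit 0) (XT.nd (nat_lit 94) (nat_lit 0) (nat_lit 84) (XT.lf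 (nat_lit 924) (nat_lit 2541676005) (nat_lit 0) (nat_lit 4755355665) (nat_lit 840) (nat_lit 243093102) (nat_lit 142) (nat_lit 1) (nat_lit 131) (nat_lit 1) (nat_lit 141) (nat_lit 1) (nat_lit 344) (nat_lit 370) (nat_lit 366)) (XT.lf (nat_lit 924) (nat_lit 609850236) (nat_lit 0) (nat_lit 5244100710) (nat_lit 840) (nat_lit 1417659943) (nat_lit 143) (nat_lit 1) (nat_lit 132) (nat_lit 1) (nat_lit 142) (nat_lit 1) (nat_lit 345) (nat_lit 370) (nat_lit 365))) (XT.nd (nat_lit 94) (nat_lit 1344) (nat_lit 0) (XT.lf (nat_lit 924) (nat_lit 1171884108) (nat_lit 84) (nat_lit 4557550562) (nat_lit 0) (nat_lit 1286196998) (nat_lit 143) (nat_lit 1) (nat_lit 133) (nat_lit 1) (nat_lit 132) (nat_lit 1) (nat_lit 346) (nat_lit 370) (nat_lit 364)) (XT.nd (nat_lit 94) (nat_lit 588) (nat_lit 0) (XT.lf (nat_lit 924) (nat_lit 240678273) (nat_lit 0) (nat_lit 3407070516) (nat_lit 840) (nat_lit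 3124247964) (nat_lit 134) (nat_lit 1) (nat_lit 123) (nat_lit 1) (nat_lit 133) (nat_lit 1) (nat_lit 347) (nat_lit 370) (nat_lit 363)) (XT.lf (nat_lit 84) (nat_lit 1666506499) (nat_lit 0) (nat_lit 722174819) (nat_lit 588) (nat_lit 4151216397) (nat_lit 117) (nat_lit 1) (nat_lit 116) (nat_lit 1) (nat_lit 123) (nat_lit 1) (nat_lit 348) (nat_lit 370) (nat_lit 362)))))) (XT.nd (nat_lit 470) (nat_lit 1596) (nat_lit 0) (XT.nd (nat_lit 188) (nat_lit 756) (nat_lit 0) (XT.nd (nat_lit 94) (nat_lit 420) (nat_lit 0) (XT.lf (nat_lit 504) (nat_lit 4592682155) (nat_lit 0) (nat_lit 1495017051) (nat_lit 420) (nat_lit 231138873) (nat_lit 117) (nat_lit 1) (nat_lit 111) (nat_lit 1) (nat_lit 116) (nat_lit 1) (nat_lit 349) (nat_lit 370) (nat_lit 361)) (XT.lf (nat_lit 504) (nat_lit 3314123178) (nat_lit 0) (nat_lit 696833887) (nat_lit 420) (nat_lit 2096326548) (nat_lit 112) (nat_lit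 1) (nat_lit 106) (nat_lit 1) (nat_lit 111) (nat_lit 1) (nat_lit 350) (nat_lit 370) (nat_lit 360))) (XT.nd (nat_lit 94) (nat_lit 420) (nat_lit 0) (XT.lf (nat_lit 420) (nat_lit 2016601685) (nat_lit 0) (nat_lit 12829844) (nat_lit 336) (nat_lit 3876555434) (nat_lit 107) (nat_lit 1) (nat_lit 102) (nat_lit 1) (nat_lit 106) (nat_lit 1) (nat_lit 351) (nat_lit 370) (nat_lit 359)) (XT.nd (nat_lit 94) (nat_lit 420) (nat_lit 0) (XT.lf (nat_lit 84) (nat_lit 148775341) (nat_lit 0) (nat_lit 5017425433) (nat_lit 420) (nat_lit 547749543) (nat_lit 103) (nat_lit 1) (nat_lit 102) (nat_lit 1) (nat_lit 107) (nat_lit 1) (nat_lit 352) (nat_lit 370) (nat_lit 358)) (XT.lf (nat_lit 84) (nat_lit 3841417916) (nat_lit 0) (nat_lit 637140264) (nat_lit 420) (nat_lit 1050760009) (nat_lit 98) (nat_lit 1) (nat_lit 97) (nat_lit 1) (nat_lit 102) (nat_lit 1) (nat_lit 353) (nat_lit 370) (nat_lit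 357))))) (XT.nd (nat_lit 188) (nat_lit 924) (nat_lit 0) (XT.nd (nat_lit 94) (nat_lit 336) (nat_lit 0) (XT.lf (nat_lit 84) (nat_lit 1921958727) (nat_lit 0) (nat_lit 1951673732) (nat_lit 420) (nat_lit 1479211590) (nat_lit 94) (nat_lit 1) (nat_lit 93) (nat_lit 1) (nat_lit 98) (nat_lit 1) (nat_lit 354) (nat_lit 370) (nat_lit 356)) (XT.lf (nat_lit 84) (nat_lit 94863620) (nat_lit 0) (nat_lit 3263168175) (nat_lit 420) (nat_lit 1826693581) (nat_lit 90) (nat_lit 1) (nat_lit 89) (nat_lit 1) (nat_lit 94) (nat_lit 1) (nat_lit 355) (nat_lit 370) (nat_lit 355))) (XT.nd (nat_lit 94) (nat_lit 672) (nat_lit 0) (XT.lf (nat_lit 336) (nat_lit 428398765) (nat_lit 0) (nat_lit 2897055790) (nat_lit 252) (nat_lit 1697741274) (nat_lit 90) (nat_lit 1) (nat_lit 86) (nat_lit 1) (nat_lit 89) (nat_lit 1) (nat_lit 356) (nat_lit 370) (nat_lit 354)) (XT.nd (nat_lit 94) (nat_lit 252) (nat_lit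 0) (XT.lf (nat_lit 84) (nat_lit 1480232914) (nat_lit 0) (nat_lit 1014560837) (nat_lit 420) (nat_lit 2373545611) (nat_lit 82) (nat_lit 1) (nat_lit 81) (nat_lit 1) (nat_lit 86) (nat_lit 1) (nat_lit 357) (nat_lit 370) (nat_lit 353)) (XT.lf (nat_lit 336) (nat_lit 2291756593) (nat_lit 0) (nat_lit 2152809117) (nat_lit 252) (nat_lit 275557012) (nat_lit 82) (nat_lit 1) (nat_lit 78) (nat_lit 1) (nat_lit 81) (nat_lit 1) (nat_lit 358) (nat_lit 370) (nat_lit 352))))))))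
noncomputable def ec49 : XT := (XT.nd (nat_lit 1786) (nat_lit 2436) (nat_lit 0) (XT.nd (nat_lit 846) (nat_lit 1764) (nat_lit 0) (XT.nd (nat_lit 376) (nat_lit 1092) (nat_lit 0) (XT.nd (nat_lit 188) (nat_lit 420) (nat_lit 0) (XT.nd (nat_lit 94) (nat_lit 336) (nat_lit 0) (XT.lf (nat_lit 336) (nat_lit 734496916) (nat_lit 0) (nat_lit 1853480493) (nat_lit 252) (nat_lit 1989624680) (nat_lit 79) (nat_lit 1) (nat_lit 75) (nat_lit 1) (nat_lit 78) (nat_lit 1) (nat_lit 359) (nat_lit 370) (nat_lit 351)) (XT.lf (nat_lit 84) (nat_lit 837149006) (nat_lit 0) (nat_lit 766482665) (nat_lit 336) (nat_lit 2837368934) (nat_lit 72) (nat_lit 1) (nat_lit 71) (nat_lit 1) (nat_lit 75) (nat_lit 1) (nat_lit 360) (nat_lit 370) (nat_lit 350))) (XT.nd (nat_lit 94) (nat_lit 168) (nat_lit 0) (XT.lf (nat_lit 336) (nat_lit 2083135428) (nat_lit 0) (nat_lit 1386041118) (nat_lit 252) (nat_lit 840222683)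 (nat_lit 72) (nat_lit 1) (nat_lit 68) (nat_lit 1) (nat_lit 71) (nat_lit 1) (nat_lit 361) (nat_lit 370) (nat_lit 349)) (XT.lf (nat_lit 252) (nat_lit 516412348) (nat_lit 0) (nat_lit 1209219778) (nat_lit 168) (nat_lit 2457474893) (nat_lit 69) (nat_lit 1) (nat_lit 66) (nat_lit 1) (nat_lit 68) (nat_lit 1) (nat_lit 362) (nat_lit 370) (nat_lit 348)))) (XT.nd (nat_lit 188) (nat_lit 588) (nat_lit 0) (XT.nd (nat_lit 94) (nat_lit 168) (nat_lit 0) (XT.lf (nat_lit 84) (nat_lit 87483551) (nat_lit 0) (nat_lit 978959928) (nat_lit 336) (nat_lit 2995266749) (nat_lit 63) (nat_lit 1) (nat_lit 62) (nat_lit 1) (nat_lit 66) (nat_lit 1) (nat_lit 363) (nat_lit 370) (nat_lit 347)) (XT.lf (nat_lit 252) (nat_lit 1500599529) (nat_lit 0) (nat_lit 937745969) (nat_lit 168) (nat_lit 1505821631) (nat_lit 63) (nat_lit 1) (nat_lit 60) (nat_lit 1) (nat_lit 62) (nat_lit 1) (nat_lit 364) (nat_lit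 370) (nat_lit 346))) (XT.nd (nat_lit 94) (nat_lit 336) (nat_lit 0) (XT.lf (nat_lit 84) (nat_lit 814162594) (nat_lit 0) (nat_lit 37606680) (nat_lit 252) (nat_lit 2979983934) (nat_lit 58) (nat_lit 1) (nat_lit 57) (nat_lit 1) (nat_lit 60) (nat_lit 1) (nat_lit 365) (nat_lit 370) (nat_lit 345)) (XT.nd (nat_lit 94) (nat_lit 168) (nat_lit 0) (XT.lf (nat_lit 252) (nat_lit 2225763314) (nat_lit 0) (nat_lit 771276894) (nat_lit 168) (nat_lit 725569119) (nat_lit 58) (nat_lit 1) (nat_lit 55) (nat_lit 1) (nat_lit 57) (nat_lit 1) (nat_lit 366) (nat_lit 370) (nat_lit 344)) (XT.lf (nat_lit 252) (nat_lit 691411278) (nat_lit 0) (nat_lit 716987162) (nat_lit 168) (nat_lit 2209240055) (nat_lit 56) (nat_lit 1) (nat_lit 53) (nat_lit 1) (nat_lit 55) (nat_lit 1) (nat_lit 367) (nat_lit 370) (nat_lit 343)))))) (XT.nd (nat_lit 470) (nat_lit 924) (nat_lit 0) (XT.nd (nat_lit 188) (nat_lit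 420) (nat_lit 0) (XT.nd (nat_lit 94) (nat_lit 168) (nat_lit 0) (XT.lf (nat_lit 252) (nat_lit 2744648673) (nat_lit 0) (nat_lit 685023039) (nat_lit 168) (nat_lit 86903119) (nat_lit 53) (nat_lit 1) (nat_lit 50) (nat_lit 1) (nat_lit 52) (nat_lit 1) (nat_lit 368) (nat_lit 370) (nat_lit 342)) (XT.lf (nat_lit 252) (nat_lit 1228377542) (nat_lit 0) (nat_lit 653966049) (nat_lit 168) (nat_lit 1535975817) (nat_lit 51) (nat_lit 1) (nat_lit 48) (nat_lit 1) (nat_lit 50) (nat_lit 1) (nat_lit 369) (nat_lit 370) (nat_lit 341))) (XT.nd (nat_lit 94) (nat_lit 252) (nat_lit 0) (XT.lf (nat_lit 84) (nat_lit 420766734) (nat_lit 0) (nat_lit 231272357) (nat_lit 168) (nat_lit 2672100274) (nat_lit 47) (nat_lit 1) (nat_lit 46) (nat_lit 1) (nat_lit 48) (nat_lit 1) (nat_lit 370) (nat_lit 370) (nat_lit 340)) (XT.nd (nat_lit 94) (nat_lit 84) (nat_lit 0) (XT.lf (nat_lit 252) (nat_lit 1611701980)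 (nat_lit 0) (nat_lit 645134724) (nat_lit 168) (nat_lit 975499163) (nat_lit 47) (nat_lit 1) (nat_lit 44) (nat_lit 1) (nat_lit 46) (nat_lit 1) (nat_lit 371) (nat_lit 370) (nat_lit 339)) (XT.lf (nat_lit 168) (nat_lit 173557401) (nat_lit 0) (nat_lit 660980066) (nat_lit 84) (nat_lit 2309619185) (nat_lit 45) (nat_lit 1) (nat_lit 43) (nat_lit 1) (nat_lit 44) (nat_lit 1) (nat_lit 372) (nat_lit 370) (nat_lit 338))))) (XT.nd (nat_lit 188) (nat_lit 588) (nat_lit 0) (XT.nd (nat_lit 94) (nat_lit 84) (nat_lit 0) (XT.lf (nat_lit 252) (nat_lit 1873488070) (nat_lit 0) (nat_lit 676006223) (nat_lit 168) (nat_lit 508914518) (nat_lit 43) (nat_lit 1) (nat_lit 40) (nat_lit 1) (nat_lit 42) (nat_lit 1) (nat_lit 373) (nat_lit 370) (nat_lit 337)) (XT.lf (nat_lit 168) (nat_lit 471196064) (nat_lit 0) (nat_lit 701282777) (nat_lit 84) (nat_lit 1803072003) (nat_lit 41) (nat_lit 1) (nat_lit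 39) (nat_lit 1) (nat_lit 40) (nat_lit 1) (nat_lit 374) (nat_lit 370) (nat_lit 336))) (XT.nd (nat_lit 94) (nat_lit 336) (nat_lit 0) (XT.lf (nat_lit 252) (nat_lit 2039691884) (nat_lit 0) (nat_lit 735105853) (nat_lit 168) (nat_lit 120637163) (nat_lit 39) (nat_lit 1) (nat_lit 36) (nat_lit 1) (nat_lit 38) (nat_lit 1) (nat_lit 375) (nat_lit 370) (nat_lit 335)) (XT.nd (nat_lit 94) (nat_lit 252) (nat_lit 0) (XT.lf (nat_lit 168) (nat_lit 678115781) (nat_lit 0) (nat_lit 766356685) (nat_lit 84) (nat_lit 1372994184) (nat_lit 37) (nat_lit 1) (nat_lit 35) (nat_lit 1) (nat_lit 36) (nat_lit 1) (nat_lit 376) (nat_lit 370) (nat_lit 334)) (XT.lf (nat_lit 84) (nat_lit 195731201) (nat_lit 0) (nat_lit 614348065) (nat_lit 252) (nat_lit 1932220148) (nat_lit 33) (nat_lit 1) (nat_lit 32) (nat_lit 1) (nat_lit 35) (nat_lit 1) (nat_lit 377) (nat_lit 370) (nat_lit 333))))))) (XT.nd (nat_lit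 846) (nat_lit 1260) (nat_lit 0) (XT.nd (nat_lit 376) (nat_lit 588) (nat_lit 0) (XT.nd (nat_lit 188) (nat_lit 252) (nat_lit 0) (XT.nd (nat_lit 94) (nat_lit 252) (nat_lit 0) (XT.lf (nat_lit 168) (nat_lit 813800119) (nat_lit 0) (nat_lit 847941151) (nat_lit 84) (nat_lit 1007257641) (nat_lit 33) (nat_lit 1) (nat_lit 31) (nat_lit 1) (nat_lit 32) (nat_lit 1) (nat_lit 378) (nat_lit 370) (nat_lit 332)) (XT.lf (nat_lit 84) (nat_lit 455197893) (nat_lit 0) (nat_lit 440889939) (nat_lit 252) (nat_lit 1702186534) (nat_lit 29) (nat_lit 1) (nat_lit 28) (nat_lit 1) (nat_lit 31) (nat_lit 1) (nat_lit 379) (nat_lit 370) (nat_lit 331))) (XT.nd (nat_lit 94) (nat_lit 168) (nat_lit 0) (XT.lf (nat_lit 168) (nat_lit 893961257) (nat_lit 0) (nat_lit 939587814) (nat_lit 84) (nat_lit 695807736) (nat_lit 29) (nat_lit 1) (nat_lit 27) (nat_lit 1) (nat_lit 28) (nat_lit 1) (nat_lit 380) (nat_lit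 370) (nat_lit 330)) (XT.lf (nat_lit 84) (nat_lit 670156558) (nat_lit 0) (nat_lit 319317609) (nat_lit 168) (nat_lit 1473241111) (nat_lit 26) (nat_lit 1) (nat_lit 25) (nat_lit 1) (nat_lit 27) (nat_lit 1) (nat_lit 381) (nat_lit 370) (nat_lit 329)))) (XT.nd (nat_lit 188) (nat_lit 336) (nat_lit 0) (XT.nd (nat_lit 94) (nat_lit 168) (nat_lit 0) (XT.lf (nat_lit 168) (nat_lit 931244695) (nat_lit 0) (nat_lit 1036307387) (nat_lit 84) (nat_lit 430293420) (nat_lit 26) (nat_lit 1) (nat_lit 24) (nat_lit 1) (nat_lit 25) (nat_lit 1) (nat_lit 382) (nat_lit 370) (nat_lit 328)) (XT.lf (nat_lit 84) (nat_lit 847685736) (nat_lit 0) (nat_lit 238215100) (nat_lit 168) (nat_lit 1249070216) (nat_lit 23) (nat_lit 1) (nat_lit 22) (nat_lit 1) (nat_lit 24) (nat_lit 1) (nat_lit 383) (nat_lit 370) (nat_lit 327))) (XT.nd (nat_lit 94) (nat_lit 252) (nat_lit 0) (XT.lf (nat_lit 168) (nat_lit 935803870)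 (nat_lit 0) (nat_lit 1134282600) (nat_lit 84) (nat_lit 203764544) (nat_lit 23) (nat_lit 1) (nat_lit 21) (nat_lit 1) (nat_lit 22) (nat_lit 1) (nat_lit 384) (nat_lit 370) (nat_lit 326)) (XT.nd (nat_lit 94) (nat_lit 84) (nat_lit 0) (XT.lf (nat_lit 84) (nat_lit 993668483) (nat_lit 0) (nat_lit 188402908) (nat_lit 168) (nat_lit 1032393126) (nat_lit 20) (nat_lit 1) (nat_lit 19) (nat_lit 1) (nat_lit 21) (nat_lit 1) (nat_lit 385) (nat_lit 370) (nat_lit 325)) (XT.lf (nat_lit 168) (nat_lit 915768598) (nat_lit 0) (nat_lit 1230635084) (nat_lit 84) (nat_lit 10424075) (nat_lit 20) (nat_lit 1) (nat_lit 18) (nat_lit 1) (nat_lit 19) (nat_lit 1) (nat_lit 386) (nat_lit 370) (nat_lit 324)))))) (XT.nd (nat_lit 470) (nat_lit 588) (nat_lit 0) (XT.nd (nat_lit 188) (nat_lit 420) (nat_lit 0) (XT.nd (nat_lit 94) (nat_lit 84) (nat_lit 0) (XT.lf (nat_lit 84) (nat_lit 1113003982) (nat_lit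 0) (nat_lit 162518063) (nat_lit 168) (nat_lit 825159129) (nat_lit 17) (nat_lit 1) (nat_lit 16) (nat_lit 1) (nat_lit 18) (nat_lit 1) (nat_lit 387) (nat_lit 370) (nat_lit 323)) (XT.lf (nat_lit 0) (nat_lit 149627477) (nat_lit 0) (nat_lit 1171074707) (nat_lit 168) (nat_lit 725465368) (nat_lit 15) (nat_lit 3) (nat_lit 15) (nat_lit 1) (nat_lit 17) (nat_lit 1) (nat_lit 388) (nat_lit 370) (nat_lit 322))) (XT.nd (nat_lit 94) (nat_lit 252) (nat_lit 0) (XT.lf (nat_lit 84) (nat_lit 1209780855) (nat_lit 0) (nat_lit 154671850) (nat_lit 168) (nat_lit 628707178) (nat_lit 14) (nat_lit 1) (nat_lit 13) (nat_lit 1) (nat_lit 15) (nat_lit 1) (nat_lit 389) (nat_lit 370) (nat_lit 321)) (XT.nd (nat_lit 94) (nat_lit 168) (nat_lit 0) (XT.lf (nat_lit 0) (nat_lit 285843837) (nat_lit 0) (nat_lit 1119868945) (nat_lit 168) (nat_lit 535851146) (nat_lit 12) (nat_lit 3) (nat_lit 12) (nat_lit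 1) (nat_lit 14) (nat_lit 1) (nat_lit 390) (nat_lit 370) (nat_lit 320)) (XT.lf (nat_lit 84) (nat_lit 1287419158) (nat_lit 0) (nat_lit 160170919) (nat_lit 168) (nat_lit 443895085) (nat_lit 11) (nat_lit 1) (nat_lit 10) (nat_lit 1) (nat_lit 12) (nat_lit 1) (nat_lit 391) (nat_lit 370) (nat_lit 319))))) (XT.nd (nat_lit 188) (nat_lit 336) (nat_lit 0) (XT.nd (nat_lit 94) (nat_lit 168) (nat_lit 0) (XT.lf (nat_lit 0) (nat_lit 401864624) (nat_lit 0) (nat_lit 1082857102) (nat_lit 168) (nat_lit 357905157) (nat_lit 9) (nat_lit 3) (nat_lit 9) (nat_lit 1) (nat_lit 11) (nat_lit 1) (nat_lit 392) (nat_lit 370) (nat_lit 318)) (XT.lf (nat_lit 84) (nat_lit 1348786782) (nat_lit 0) (nat_lit 175290091) (nat_lit 168) (nat_lit 271203902) (nat_lit 8) (nat_lit 1) (nat_lit 7) (nat_lit 1) (nat_lit 9) (nat_lit 1) (nat_lit 393) (nat_lit 370) (nat_lit 317))) (XT.nd (nat_lit 94) (nat_lit 252)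 (nat_lit 0) (XT.lf (nat_lit 0) (nat_lit 500477117) (nat_lit 0) (nat_lit 1056516439) (nat_lit 168) (nat_lit 192001745) (nat_lit 6) (nat_lit 3) (nat_lit 6) (nat_lit 1) (nat_lit 8) (nat_lit 1) (nat_lit 394) (nat_lit 370) (nat_lit 316)) (XT.nd (nat_lit 94) (nat_lit 84) (nat_lit 0) (XT.lf (nat_lit 84) (nat_lit 1396294926) (nat_lit 0) (nat_lit 197087369) (nat_lit 168) (nat_lit 110822115) (nat_lit 5) (nat_lit 1) (nat_lit 4) (nat_lit 1) (nat_lit 6) (nat_lit 1) (nat_lit 395) (nat_lit 370) (nat_lit 315)) (XT.lf (nat_lit 0) (nat_lit 584038690) (nat_lit 0) (nat_lit 1038052115) (nat_lit 168) (nat_lit 38249314) (nat_lit 3) (nat_lit 3) (nat_lit 3) (nat_lit 1) (nat_lit 5) (nat_lit 1) (nat_lit 396) (nat_lit 370) (nat_lit 314))))))))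
noncomputable def ec50 : XT := (XT.nd (nat_lit 1692) (nat_lit 0) (nat_lit 0) (XT.nd (nat_lit 846) (nat_lit 0) (nat_lit 0) (XT.nd (nat_lit 376) (nat_lit 0) (nat_lit 0) (XT.nd (nat_lit 188) (nat_lit 0) (nat_lit 0) (XT.nd (nat_lit 94) (nat_lit 0) (nat_lit 0) (XT.lf (nat_lit 0) (nat_lit 2346967274) (nat_lit 0) (nat_lit 0) (nat_lit 0) (nat_lit 0) (nat_lit 0) (nat_lit 0) (nat_lit 1) (nat_lit 0) (nat_lit 1) (nat_lit 0) (nat_lit 397) (nat_lit 370) (nat_lit 313)) (XT.lf (nat_lit 0) (nat_lit 2344831036) (nat_lit 0) (nat_lit 0) (nat_lit 0) (nat_lit 0) (nat_lit 0) (nat_lit 0) (nat_lit 1) (nat_lit 0) (nat_lit 1) (nat_lit 0) (nat_lit 398) (nat_lit 370) (nat_lit 312))) (XT.nd (nat_lit 94) (nat_lit 0) (nat_lit 0) (XT.lf (nat_lit 0) (nat_lit 2342853038) (nat_lit 0) (nat_lit 0) (nat_lit 0) (nat_lit 0) (nat_lit 0) (nat_lit 0) (nat_lit 1) (nat_lit 0) (nat_lit 1) (nat_lit 0) (nat_lit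 399) (nat_lit 370) (nat_lit 311)) (XT.lf (nat_lit 0) (nat_lit 2341021559) (nat_lit 0) (nat_lit 0) (nat_lit 0) (nat_lit 0) (nat_lit 0) (nat_lit 0) (nat_lit 1) (nat_lit 0) (nat_lit 1) (nat_lit 0) (nat_lit 400) (nat_lit 370) (nat_lit 310)))) (XT.nd (nat_lit 188) (nat_lit 0) (nat_lit 0) (XT.nd (nat_lit 94) (nat_lit 0) (nat_lit 0) (XT.lf (nat_lit 0) (nat_lit 2339325744) (nat_lit 0) (nat_lit 0) (nat_lit 0) (nat_lit 0) (nat_lit 0) (nat_lit 0) (nat_lit 1) (nat_lit 0) (nat_lit 1) (nat_lit 0) (nat_lit 401) (nat_lit 370) (nat_lit 309)) (XT.lf (nat_lit 0) (nat_lit 2337755546) (nat_lit 0) (nat_lit 0) (nat_lit 0) (nat_lit 0) (nat_lit 0) (nat_lit 0) (nat_lit 1) (nat_lit 0) (nat_lit 1) (nat_lit 0) (nat_lit 402) (nat_lit 370) (nat_lit 308))) (XT.nd (nat_lit 94) (nat_lit 0) (nat_lit 0) (XT.lf (nat_lit 0) (nat_lit 2336301658) (nat_lit 0) (nat_lit 0) (nat_lit 0) (nat_lit 0) (nat_lit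 0) (nat_lit 0) (nat_lit 1) (nat_lit 0) (nat_lit 1) (nat_lit 0) (nat_lit 403) (nat_lit 370) (nat_lit 307)) (XT.nd (nat_lit 94) (nat_lit 0) (nat_lit 0) (XT.lf (nat_lit 0) (nat_lit 2334955466) (nat_lit 0) (nat_lit 0) (nat_lit 0) (nat_lit 0) (nat_lit 0) (nat_lit 0) (nat_lit 1) (nat_lit 0) (nat_lit 1) (nat_lit 0) (nat_lit 404) (nat_lit 370) (nat_lit 306)) (XT.lf (nat_lit 0) (nat_lit 2333708992) (nat_lit 0) (nat_lit 0) (nat_lit 0) (nat_lit 0) (nat_lit 0) (nat_lit 0) (nat_lit 1) (nat_lit 0) (nat_lit 1) (nat_lit 0) (nat_lit 405) (nat_lit 370) (nat_lit 305)))))) (XT.nd (nat_lit 376) (nat_lit 0) (nat_lit 0) (XT.nd (nat_lit 188) (nat_lit 0) (nat_lit 0) (XT.nd (nat_lit 94) (nat_lit 0) (nat_lit 0) (XT.lf (nat_lit 0) (nat_lit 2332554849) (nat_lit 0) (nat_lit 0) (nat_lit 0) (nat_lit 0) (nat_lit 0) (nat_lit 0) (nat_lit 1) (nat_lit 0) (nat_lit 1) (nat_lit 0) (nat_lit 406)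 (nat_lit 370) (nat_lit 304)) (XT.lf (nat_lit 0) (nat_lit 2331486198) (nat_lit 0) (nat_lit 0) (nat_lit 0) (nat_lit 0) (nat_lit 0) (nat_lit 0) (nat_lit 1) (nat_lit 0) (nat_lit 1) (nat_lit 0) (nat_lit 407) (nat_lit 370) (nat_lit 303))) (XT.nd (nat_lit 94) (nat_lit 0) (nat_lit 0) (XT.lf (nat_lit 0) (nat_lit 2330496707) (nat_lit 0) (nat_lit 0) (nat_lit 0) (nat_lit 0) (nat_lit 0) (nat_lit 0) (nat_lit 1) (nat_lit 0) (nat_lit 1) (nat_lit 0) (nat_lit 408) (nat_lit 370) (nat_lit 302)) (XT.lf (nat_lit 0) (nat_lit 2329580511) (nat_lit 0) (nat_lit 0) (nat_lit 0) (nat_lit 0) (nat_lit 0) (nat_lit 0) (nat_lit 1) (nat_lit 0) (nat_lit 1) (nat_lit 0) (nat_lit 409) (nat_lit 370) (nat_lit 301)))) (XT.nd (nat_lit 188) (nat_lit 0) (nat_lit 0) (XT.nd (nat_lit 94) (nat_lit 0) (nat_lit 0) (XT.lf (nat_lit 0) (nat_lit 2328732182) (nat_lit 0) (nat_lit 0) (nat_lit 0) (nat_lit 0) (nat_lit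 0) (nat_lit 0) (nat_lit 1) (nat_lit 0) (nat_lit 1) (nat_lit 0) (nat_lit 410) (nat_lit 370) (nat_lit 300)) (XT.lf (nat_lit 0) (nat_lit 2327946691) (nat_lit 0) (nat_lit 0) (nat_lit 0) (nat_lit 0) (nat_lit 0) (nat_lit 0) (nat_lit 1) (nat_lit 0) (nat_lit 1) (nat_lit 0) (nat_lit 411) (nat_lit 370) (nat_lit 299))) (XT.nd (nat_lit 94) (nat_lit 0) (nat_lit 0) (XT.lf (nat_lit 0) (nat_lit 2327219386) (nat_lit 0) (nat_lit 0) (nat_lit 0) (nat_lit 0) (nat_lit 0) (nat_lit 0) (nat_lit 1) (nat_lit 0) (nat_lit 1) (nat_lit 0) (nat_lit 412) (nat_lit 370) (nat_lit 298)) (XT.nd (nat_lit 94) (nat_lit 0) (nat_lit 0) (XT.lf (nat_lit 0) (nat_lit 2326545954) (nat_lit 0) (nat_lit 0) (nat_lit 0) (nat_lit 0) (nat_lit 0) (nat_lit 0) (nat_lit 1) (nat_lit 0) (nat_lit 1) (nat_lit 0) (nat_lit 413) (nat_lit 370) (nat_lit 297)) (XT.lf (nat_lit 0) (nat_lit 2325922407) (nat_lit 0) (nat_lit 0)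 (nat_lit 0) (nat_lit 0) (nat_lit 0) (nat_lit 0) (nat_lit 1) (nat_lit 0) (nat_lit 1) (nat_lit 0) (nat_lit 414) (nat_lit 370) (nat_lit 296))))))) (XT.nd (nat_lit 846) (nat_lit 0) (nat_lit 0) (XT.nd (nat_lit 376) (nat_lit 0) (nat_lit 0) (XT.nd (nat_lit 188) (nat_lit 0) (nat_lit 0) (XT.nd (nat_lit 94) (nat_lit 0) (nat_lit 0) (XT.lf (nat_lit 0) (nat_lit 2325345048) (nat_lit 0) (nat_lit 0) (nat_lit 0) (nat_lit 0) (nat_lit 0) (nat_lit 0) (nat_lit 1) (nat_lit 0) (nat_lit 1) (nat_lit 0) (nat_lit 415) (nat_lit 370) (nat_lit 295)) (XT.lf (nat_lit 0) (nat_lit 2324810457) (nat_lit 0) (nat_lit 0) (nat_lit 0) (nat_lit 0) (nat_lit 0) (nat_lit 0) (nat_lit 1) (nat_lit 0) (nat_lit 1) (nat_lit 0) (nat_lit 416) (nat_lit 370) (nat_lit 294))) (XT.nd (nat_lit 94) (nat_lit 0) (nat_lit 0) (XT.lf (nat_lit 0) (nat_lit 2324315465) (nat_lit 0) (nat_lit 0) (nat_lit 0) (nat_lit 0) (nat_lit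 0) (nat_lit 0) (nat_lit 1) (nat_lit 0) (nat_lit 1) (nat_lit 0) (nat_lit 417) (nat_lit 370) (nat_lit 293)) (XT.lf (nat_lit 0) (nat_lit 2323857139) (nat_lit 0) (nat_lit 0) (nat_lit 0) (nat_lit 0) (nat_lit 0) (nat_lit 0) (nat_lit 1) (nat_lit 0) (nat_lit 1) (nat_lit 0) (nat_lit 418) (nat_lit 370) (nat_lit 292)))) (XT.nd (nat_lit 188) (nat_lit 0) (nat_lit 0) (XT.nd (nat_lit 94) (nat_lit 0) (nat_lit 0) (XT.lf (nat_lit 0) (nat_lit 2323432763) (nat_lit 0) (nat_lit 0) (nat_lit 0) (nat_lit 0) (nat_lit 0) (nat_lit 0) (nat_lit 1) (nat_lit 0) (nat_lit 1) (nat_lit 0) (nat_lit 419) (nat_lit 370) (nat_lit 291)) (XT.lf (nat_lit 0) (nat_lit 2323039822) (nat_lit 0) (nat_lit 0) (nat_lit 0) (nat_lit 0) (nat_lit 0) (nat_lit 0) (nat_lit 1) (nat_lit 0) (nat_lit 1) (nat_lit 0) (nat_lit 420) (nat_lit 370) (nat_lit 290))) (XT.nd (nat_lit 94) (nat_lit 0) (nat_lit 0) (XT.lf (nat_lit 0)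 (nat_lit 2322675988) (nat_lit 0) (nat_lit 0) (nat_lit 0) (nat_lit 0) (nat_lit 0) (nat_lit 0) (nat_lit 1) (nat_lit 0) (nat_lit 1) (nat_lit 0) (nat_lit 421) (nat_lit 370) (nat_lit 289)) (XT.nd (nat_lit 94) (nat_lit 0) (nat_lit 0) (XT.lf (nat_lit 0) (nat_lit 2322339105) (nat_lit 0) (nat_lit 0) (nat_lit 0) (nat_lit 0) (nat_lit 0) (nat_lit 0) (nat_lit 1) (nat_lit 0) (nat_lit 1) (nat_lit 0) (nat_lit 422) (nat_lit 370) (nat_lit 288)) (XT.lf (nat_lit 0) (nat_lit 2322027176) (nat_lit 0) (nat_lit 0) (nat_lit 0) (nat_lit 0) (nat_lit 0) (nat_lit 0) (nat_lit 1) (nat_lit 0) (nat_lit 1) (nat_lit 0) (nat_lit 423) (nat_lit 370) (nat_lit 287)))))) (XT.nd (nat_lit 470) (nat_lit 0) (nat_lit 0) (XT.nd (nat_lit 188) (nat_lit 0) (nat_lit 0) (XT.nd (nat_lit 94) (nat_lit 0) (nat_lit 0) (XT.lf (nat_lit 0) (nat_lit 2321738353) (nat_lit 0) (nat_lit 0) (nat_lit 0) (nat_lit 0) (nat_lit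 0) (nat_lit 0) (nat_lit 1) (nat_lit 0) (nat_lit 1) (nat_lit 0) (nat_lit 424) (nat_lit 370) (nat_lit 286)) (XT.lf (nat_lit 0) (nat_lit 2321470924) (nat_lit 0) (nat_lit 0) (nat_lit 0) (nat_lit 0) (nat_lit 0) (nat_lit 0) (nat_lit 1) (nat_lit 0) (nat_lit 1) (nat_lit 0) (nat_lit 425) (nat_lit 370) (nat_lit 285))) (XT.nd (nat_lit 94) (nat_lit 0) (nat_lit 0) (XT.lf (nat_lit 0) (nat_lit 2321223305) (nat_lit 0) (nat_lit 0) (nat_lit 0) (nat_lit 0) (nat_lit 0) (nat_lit 0) (nat_lit 1) (nat_lit 0) (nat_lit 1) (nat_lit 0) (nat_lit 426) (nat_lit 370) (nat_lit 284)) (XT.nd (nat_lit 94) (nat_lit 0) (nat_lit 0) (XT.lf (nat_lit 0) (nat_lit 2320994028) (nat_lit 0) (nat_lit 0) (nat_lit 0) (nat_lit 0) (nat_lit 0) (nat_lit 0) (nat_lit 1) (nat_lit 0) (nat_lit 1) (nat_lit 0) (nat_lit 427) (nat_lit 370) (nat_lit 283)) (XT.lf (nat_lit 0) (nat_lit 2320781734) (nat_lit 0) (nat_lit 0)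 (nat_lit 0) (nat_lit 0) (nat_lit 0) (nat_lit 0) (nat_lit 1) (nat_lit 0) (nat_lit 1) (nat_lit 0) (nat_lit 428) (nat_lit 370) (nat_lit 282))))) (XT.nd (nat_lit 188) (nat_lit 0) (nat_lit 0) (XT.nd (nat_lit 94) (nat_lit 0) (nat_lit 0) (XT.lf (nat_lit 0) (nat_lit 2320585166) (nat_lit 0) (nat_lit 0) (nat_lit 0) (nat_lit 0) (nat_lit 0) (nat_lit 0) (nat_lit 1) (nat_lit 0) (nat_lit 1) (nat_lit 0) (nat_lit 429) (nat_lit 370) (nat_lit 281)) (XT.lf (nat_lit 0) (nat_lit 2320403158) (nat_lit 0) (nat_lit 0) (nat_lit 0) (nat_lit 0) (nat_lit 0) (nat_lit 0) (nat_lit 1) (nat_lit 0) (nat_lit 1) (nat_lit 0) (nat_lit 430) (nat_lit 370) (nat_lit 280))) (XT.nd (nat_lit 94) (nat_lit 0) (nat_lit 0) (XT.lf (nat_lit 0) (nat_lit 2320234633) (nat_lit 0) (nat_lit 0) (nat_lit 0) (nat_lit 0) (nat_lit 0) (nat_lit 0) (nat_lit 1) (nat_lit 0) (nat_lit 1) (nat_lit 0) (nat_lit 431) (nat_lit 370)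 (nat_lit 279)) (XT.nd (nat_lit 94) (nat_lit 0) (nat_lit 0) (XT.lf (nat_lit 0) (nat_lit 2320078591) (nat_lit 0) (nat_lit 0) (nat_lit 0) (nat_lit 0) (nat_lit 0) (nat_lit 0) (nat_lit 1) (nat_lit 0) (nat_lit 1) (nat_lit 0) (nat_lit 432) (nat_lit 370) (nat_lit 278)) (XT.lf (nat_lit 0) (nat_lit 2319934107) (nat_lit 0) (nat_lit 0) (nat_lit 0) (nat_lit 0) (nat_lit 0) (nat_lit 0) (nat_lit 1) (nat_lit 0) (nat_lit 1) (nat_lit 0) (nat_lit 433) (nat_lit 370) (nat_lit 277))))))))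
noncomputable def ec51 : XT := (XT.nd (nat_lit 1786) (nat_lit 3864) (nat_lit 0) (XT.nd (nat_lit 846) (nat_lit 3192) (nat_lit 0) (XT.nd (nat_lit 376) (nat_lit 1008) (nat_lit 0) (XT.nd (nat_lit 188) (nat_lit 0) (nat_lit 84) (XT.nd (nat_lit 94) (nat_lit 0) (nat_lit 84) (XT.lf (nat_lit 924) (nat_lit 1252884364) (nat_lit 0) (nat_lit 2224493308) (nat_lit 924) (nat_lit 1252884364) (nat_lit 139) (nat_lit 1) (nat_lit 128) (nat_lit 0) (nat_lit 139) (nat_lit 0) (nat_lit 338) (nat_lit 371) (nat_lit 371)) (XT.lf (nat_lit 924) (nat_lit 467364311) (nat_lit 0) (nat_lit 4367354556) (nat_lit 840) (nat_lit 4271258164) (nat_lit 140) (nat_lit 1) (nat_lit 129) (nat_lit 1) (nat_lit 139) (nat_lit 1) (nat_lit 339) (nat_lit 371) (nat_lit 370))) (XT.nd (nat_lit 94) (nat_lit 0) (nat_lit 84) (XT.lf (nat_lit 924) (nat_lit 4292471434) (nat_lit 84) (nat_lit 2924818818) (nat_lit 0) (nat_lit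 1551190482) (nat_lit 140) (nat_lit 1) (nat_lit 130) (nat_lit 1) (nat_lit 129) (nat_lit 1) (nat_lit 340) (nat_lit 371) (nat_lit 369)) (XT.lf (nat_lit 924) (nat_lit 3709046963) (nat_lit 84) (nat_lit 1225771293) (nat_lit 0) (nat_lit 3513055351) (nat_lit 141) (nat_lit 1) (nat_lit 131) (nat_lit 1) (nat_lit 130) (nat_lit 1) (nat_lit 341) (nat_lit 371) (nat_lit 368)))) (XT.nd (nat_lit 188) (nat_lit 1260) (nat_lit 0) (XT.nd (nat_lit 94) (nat_lit 0) (nat_lit 84) (XT.lf (nat_lit 924) (nat_lit 2745010085) (nat_lit 0) (nat_lit 5135784118) (nat_lit 840) (nat_lit 262540550) (nat_lit 142) (nat_lit 1) (nat_lit 131) (nat_lit 1) (nat_lit 141) (nat_lit 1) (nat_lit 342) (nat_lit 371) (nat_lit 367)) (XT.lf (nat_lit 924) (nat_lit 658638255) (nat_lit 0) (nat_lit 5663628767) (nat_lit 840) (nat_lit 1531072739) (nat_lit 143) (nat_lit 1) (nat_lit 132) (nat_lit 1) (nat_lit 142) (nat_lit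 1) (nat_lit 343) (nat_lit 371) (nat_lit 366))) (XT.nd (nat_lit 94) (nat_lit 1344) (nat_lit 0) (XT.lf (nat_lit 924) (nat_lit 1265634837) (nat_lit 84) (nat_lit 4922154607) (nat_lit 0) (nat_lit 1389092758) (nat_lit 143) (nat_lit 1) (nat_lit 133) (nat_lit 1) (nat_lit 132) (nat_lit 1) (nat_lit 344) (nat_lit 371) (nat_lit 365)) (XT.nd (nat_lit 94) (nat_lit 588) (nat_lit 0) (XT.lf (nat_lit 924) (nat_lit 259932535) (nat_lit 0) (nat_lit 3679636157) (nat_lit 840) (nat_lit 3374187801) (nat_lit 134) (nat_lit 1) (nat_lit 123) (nat_lit 1) (nat_lit 133) (nat_lit 1) (nat_lit 345) (nat_lit 371) (nat_lit 364)) (XT.lf (nat_lit 84) (nat_lit 1799827019) (nat_lit 0) (nat_lit 779948804) (nat_lit 588) (nat_lit 4483313709) (nat_lit 117) (nat_lit 1) (nat_lit 116) (nat_lit 1) (nat_lit 123) (nat_lit 1) (nat_lit 346) (nat_lit 371) (nat_lit 363)))))) (XT.nd (nat_lit 470) (nat_lit 1596)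 (nat_lit 0) (XT.nd (nat_lit 188) (nat_lit 756) (nat_lit 0) (XT.nd (nat_lit 94) (nat_lit 420) (nat_lit 0) (XT.lf (nat_lit 504) (nat_lit 4960096727) (nat_lit 0) (nat_lit 1614618415) (nat_lit 420) (nat_lit 249629983) (nat_lit 117) (nat_lit 1) (nat_lit 111) (nat_lit 1) (nat_lit 116) (nat_lit 1) (nat_lit 347) (nat_lit 371) (nat_lit 362)) (XT.lf (nat_lit 504) (nat_lit 3579253032) (nat_lit 0) (nat_lit 752580598) (nat_lit 420) (nat_lit 2264032672) (nat_lit 112) (nat_lit 1) (nat_lit 106) (nat_lit 1) (nat_lit 111) (nat_lit 1) (nat_lit 348) (nat_lit 371) (nat_lit 361))) (XT.nd (nat_lit 94) (nat_lit 420) (nat_lit 0) (XT.lf (nat_lit 420) (nat_lit 2177929820) (nat_lit 0) (nat_lit 13856231) (nat_lit 336) (nat_lit 4186679868) (nat_lit 107) (nat_lit 1) (nat_lit 102) (nat_lit 1) (nat_lit 106) (nat_lit 1) (nat_lit 349) (nat_lit 371) (nat_lit 360)) (XT.nd (nat_lit 94) (nat_lit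 420) (nat_lit 0) (XT.lf (nat_lit 84) (nat_lit 160677369) (nat_lit 0) (nat_lit 5418819468) (nat_lit 420) (nat_lit 591569507) (nat_lit 103) (nat_lit 1) (nat_lit 102) (nat_lit 1) (nat_lit 107) (nat_lit 1) (nat_lit 350) (nat_lit 371) (nat_lit 359)) (XT.lf (nat_lit 84) (nat_lit 4148731350) (nat_lit 0) (nat_lit 688111485) (nat_lit 420) (nat_lit 1134820810) (nat_lit 98) (nat_lit 1) (nat_lit 97) (nat_lit 1) (nat_lit 102) (nat_lit 1) (nat_lit 351) (nat_lit 371) (nat_lit 358))))) (XT.nd (nat_lit 188) (nat_lit 924) (nat_lit 0) (XT.nd (nat_lit 94) (nat_lit 336) (nat_lit 0) (XT.lf (nat_lit 84) (nat_lit 2075715425) (nat_lit 0) (nat_lit 2107807631) (nat_lit 420) (nat_lit 1597548517) (nat_lit 94) (nat_lit 1) (nat_lit 93) (nat_lit 1) (nat_lit 98) (nat_lit 1) (nat_lit 352) (nat_lit 371) (nat_lit 357)) (XT.lf (nat_lit 84) (nat_lit 102452710) (nat_lit 0) (nat_lit 3524221629)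 (nat_lit 420) (nat_lit 1972829067) (nat_lit 90) (nat_lit 1) (nat_lit 89) (nat_lit 1) (nat_lit 94) (nat_lit 1) (nat_lit 353) (nat_lit 371) (nat_lit 356))) (XT.nd (nat_lit 94) (nat_lit 672) (nat_lit 0) (XT.lf (nat_lit 336) (nat_lit 462670666) (nat_lit 0) (nat_lit 3128820253) (nat_lit 252) (nat_lit 1833560576) (nat_lit 90) (nat_lit 1) (nat_lit 86) (nat_lit 1) (nat_lit 89) (nat_lit 1) (nat_lit 354) (nat_lit 371) (nat_lit 355)) (XT.nd (nat_lit 94) (nat_lit 252) (nat_lit 0) (XT.lf (nat_lit 84) (nat_lit 1598651547) (nat_lit 0) (nat_lit 1095725704) (nat_lit 420) (nat_lit 2563429260) (nat_lit 82) (nat_lit 1) (nat_lit 81) (nat_lit 1) (nat_lit 86) (nat_lit 1) (nat_lit 355) (nat_lit 371) (nat_lit 354)) (XT.lf (nat_lit 336) (nat_lit 2475097121) (nat_lit 0) (nat_lit 2325033846) (nat_lit 252) (nat_lit 297601572) (nat_lit 82) (nat_lit 1) (nat_lit 78) (nat_lit 1) (nat_lit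 81) (nat_lit 1) (nat_lit 356) (nat_lit 371) (nat_lit 353))))))) (XT.nd (nat_lit 846) (nat_lit 1764) (nat_lit 0) (XT.nd (nat_lit 376) (nat_lit 1092) (nat_lit 0) (XT.nd (nat_lit 188) (nat_lit 420) (nat_lit 0) (XT.nd (nat_lit 94) (nat_lit 336) (nat_lit 0) (XT.lf (nat_lit 336) (nat_lit 793256670) (nat_lit 0) (nat_lit 2001758932) (nat_lit 252) (nat_lit 2148794654) (nat_lit 79) (nat_lit 1) (nat_lit 75) (nat_lit 1) (nat_lit 78) (nat_lit 1) (nat_lit 357) (nat_lit 371) (nat_lit 352)) (XT.lf (nat_lit 84) (nat_lit 904120927) (nat_lit 0) (nat_lit 827801278) (nat_lit 336) (nat_lit 3064358449) (nat_lit 72) (nat_lit 1) (nat_lit 71) (nat_lit 1) (nat_lit 75) (nat_lit 1) (nat_lit 358) (nat_lit 371) (nat_lit 351))) (XT.nd (nat_lit 94) (nat_lit 168) (nat_lit 0) (XT.lf (nat_lit 336) (nat_lit 2249786262) (nat_lit 0) (nat_lit 1496924408) (nat_lit 252) (nat_lit 907440498) (nat_lit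 72) (nat_lit 1) (nat_lit 68) (nat_lit 1) (nat_lit 71) (nat_lit 1) (nat_lit 359) (nat_lit 371) (nat_lit 350)) (XT.lf (nat_lit 252) (nat_lit 557725336) (nat_lit 0) (nat_lit 1305957360) (nat_lit 168) (nat_lit 2654072884) (nat_lit 69) (nat_lit 1) (nat_lit 66) (nat_lit 1) (nat_lit 68) (nat_lit 1) (nat_lit 360) (nat_lit 371) (nat_lit 349)))) (XT.nd (nat_lit 188) (nat_lit 588) (nat_lit 0) (XT.nd (nat_lit 94) (nat_lit 168) (nat_lit 0) (XT.lf (nat_lit 84) (nat_lit 94482235) (nat_lit 0) (nat_lit 1057276722) (nat_lit 336) (nat_lit 3234888089) (nat_lit 63) (nat_lit 1) (nat_lit 62) (nat_lit 1) (nat_lit 66) (nat_lit 1) (nat_lit 361) (nat_lit 371) (nat_lit 348)) (XT.lf (nat_lit 252) (nat_lit 1620647492) (nat_lit 0) (nat_lit 1012765647) (nat_lit 168) (nat_lit 1626287361) (nat_lit 63) (nat_lit 1) (nat_lit 60) (nat_lit 1) (nat_lit 62) (nat_lit 1) (nat_lit 362) (nat_lit 371)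 (nat_lit 347))) (XT.nd (nat_lit 94) (nat_lit 336) (nat_lit 0) (XT.lf (nat_lit 84) (nat_lit 879295602) (nat_lit 0) (nat_lit 40615215) (nat_lit 252) (nat_lit 3218382649) (nat_lit 58) (nat_lit 1) (nat_lit 57) (nat_lit 1) (nat_lit 60) (nat_lit 1) (nat_lit 363) (nat_lit 371) (nat_lit 346)) (XT.nd (nat_lit 94) (nat_lit 168) (nat_lit 0) (XT.lf (nat_lit 252) (nat_lit 2403824379) (nat_lit 0) (nat_lit 832979045) (nat_lit 168) (nat_lit 783614649) (nat_lit 58) (nat_lit 1) (nat_lit 55) (nat_lit 1) (nat_lit 57) (nat_lit 1) (nat_lit 364) (nat_lit 371) (nat_lit 345)) (XT.lf (nat_lit 252) (nat_lit 746724180) (nat_lit 0) (nat_lit 774346135) (nat_lit 168) (nat_lit 2385979260) (nat_lit 56) (nat_lit 1) (nat_lit 53) (nat_lit 1) (nat_lit 55) (nat_lit 1) (nat_lit 365) (nat_lit 371) (nat_lit 344)))))) (XT.nd (nat_lit 470) (nat_lit 924) (nat_lit 0) (XT.nd (nat_lit 188) (nat_lit 420)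 (nat_lit 0) (XT.nd (nat_lit 94) (nat_lit 168) (nat_lit 0) (XT.lf (nat_lit 252) (nat_lit 2964220567) (nat_lit 0) (nat_lit 739824882) (nat_lit 168) (nat_lit 93855369) (nat_lit 53) (nat_lit 1) (nat_lit 50) (nat_lit 1) (nat_lit 52) (nat_lit 1) (nat_lit 366) (nat_lit 371) (nat_lit 343)) (XT.lf (nat_lit 252) (nat_lit 1326647745) (nat_lit 0) (nat_lit 706283333) (nat_lit 168) (nat_lit 1658853882) (nat_lit 51) (nat_lit 1) (nat_lit 48) (nat_lit 1) (nat_lit 50) (nat_lit 1) (nat_lit 367) (nat_lit 371) (nat_lit 342))) (XT.nd (nat_lit 94) (nat_lit 252) (nat_lit 0) (XT.lf (nat_lit 84) (nat_lit 454428073) (nat_lit 0) (nat_lit 249774146) (nat_lit 168) (nat_lit 2885868296) (nat_lit 47) (nat_lit 1) (nat_lit 46) (nat_lit 1) (nat_lit 48) (nat_lit 1) (nat_lit 368) (nat_lit 371) (nat_lit 341)) (XT.nd (nat_lit 94) (nat_lit 84) (nat_lit 0) (XT.lf (nat_lit 252) (nat_lit 1740638139)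 (nat_lit 0) (nat_lit 696745502) (nat_lit 168) (nat_lit 1053539096) (nat_lit 47) (nat_lit 1) (nat_lit 44) (nat_lit 1) (nat_lit 46) (nat_lit 1) (nat_lit 369) (nat_lit 371) (nat_lit 340)) (XT.lf (nat_lit 168) (nat_lit 187441993) (nat_lit 0) (nat_lit 713858471) (nat_lit 84) (nat_lit 2494388720) (nat_lit 45) (nat_lit 1) (nat_lit 43) (nat_lit 1) (nat_lit 44) (nat_lit 1) (nat_lit 370) (nat_lit 371) (nat_lit 339))))) (XT.nd (nat_lit 188) (nat_lit 588) (nat_lit 0) (XT.nd (nat_lit 94) (nat_lit 84) (nat_lit 0) (XT.lf (nat_lit 252) (nat_lit 2023367116) (nat_lit 0) (nat_lit 730086721) (nat_lit 168) (nat_lit 549627680) (nat_lit 43) (nat_lit 1) (nat_lit 40) (nat_lit 1) (nat_lit 42) (nat_lit 1) (nat_lit 371) (nat_lit 371) (nat_lit 338)) (XT.lf (nat_lit 168) (nat_lit 508891749) (nat_lit 0) (nat_lit 757385399) (nat_lit 84) (nat_lit 1947317764) (nat_lit 41) (nat_lit 1) (nat_lit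 39) (nat_lit 1) (nat_lit 40) (nat_lit 1) (nat_lit 372) (nat_lit 371) (nat_lit 337))) (XT.nd (nat_lit 94) (nat_lit 336) (nat_lit 0) (XT.lf (nat_lit 252) (nat_lit 2202867235) (nat_lit 0) (nat_lit 793914321) (nat_lit 168) (nat_lit 130288136) (nat_lit 39) (nat_lit 1) (nat_lit 36) (nat_lit 1) (nat_lit 38) (nat_lit 1) (nat_lit 373) (nat_lit 371) (nat_lit 336)) (XT.nd (nat_lit 94) (nat_lit 252) (nat_lit 0) (XT.lf (nat_lit 168) (nat_lit 732365044) (nat_lit 0) (nat_lit 827665219) (nat_lit 84) (nat_lit 1482833719) (nat_lit 37) (nat_lit 1) (nat_lit 35) (nat_lit 1) (nat_lit 36) (nat_lit 1) (nat_lit 374) (nat_lit 371) (nat_lit 335)) (XT.lf (nat_lit 84) (nat_lit 211389697) (nat_lit 0) (nat_lit 663495911) (nat_lit 252) (nat_lit 2086797760) (nat_lit 33) (nat_lit 1) (nat_lit 32) (nat_lit 1) (nat_lit 35) (nat_lit 1) (nat_lit 375) (nat_lit 371) (nat_lit 334))))))))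
noncomputable def ec52 : XT := (XT.nd (nat_lit 1692) (nat_lit 336) (nat_lit 0) (XT.nd (nat_lit 846) (nat_lit 1176) (nat_lit 0) (XT.nd (nat_lit 376) (nat_lit 588) (nat_lit 0) (XT.nd (nat_lit 188) (nat_lit 252) (nat_lit 0) (XT.nd (nat_lit 94) (nat_lit 252) (nat_lit 0) (XT.lf (nat_lit 168) (nat_lit 878904128) (nat_lit 0) (nat_lit 915776443) (nat_lit 84) (nat_lit 1087838252) (nat_lit 33) (nat_lit 1) (nat_lit 31) (nat_lit 1) (nat_lit 32) (nat_lit 1) (nat_lit 376) (nat_lit 371) (nat_lit 333)) (XT.lf (nat_lit 84) (nat_lit 491613724) (nat_lit 0) (nat_lit 476161135) (nat_lit 252) (nat_lit 1838361457) (nat_lit 29) (nat_lit 1) (nat_lit 28) (nat_lit 1) (nat_lit 31) (nat_lit 1) (nat_lit 377) (nat_lit 371) (nat_lit 332))) (XT.nd (nat_lit 94) (nat_lit 168) (nat_lit 0) (XT.lf (nat_lit 168) (nat_lit 965478157) (nat_lit 0) (nat_lit 1014754839) (nat_lit 84) (nat_lit 751472355)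 (nat_lit 29) (nat_lit 1) (nat_lit 27) (nat_lit 1) (nat_lit 28) (nat_lit 1) (nat_lit 378) (nat_lit 371) (nat_lit 331)) (XT.lf (nat_lit 84) (nat_lit 723769083) (nat_lit 0) (nat_lit 344863017) (nat_lit 168) (nat_lit 1591100400) (nat_lit 26) (nat_lit 1) (nat_lit 25) (nat_lit 1) (nat_lit 27) (nat_lit 1) (nat_lit 379) (nat_lit 371) (nat_lit 330)))) (XT.nd (nat_lit 188) (nat_lit 336) (nat_lit 0) (XT.nd (nat_lit 94) (nat_lit 168) (nat_lit 0) (XT.lf (nat_lit 168) (nat_lit 1005744270) (nat_lit 0) (nat_lit 1119211978) (nat_lit 84) (nat_lit 464716894) (nat_lit 26) (nat_lit 1) (nat_lit 24) (nat_lit 1) (nat_lit 25) (nat_lit 1) (nat_lit 380) (nat_lit 371) (nat_lit 329)) (XT.lf (nat_lit 84) (nat_lit 915500595) (nat_lit 0) (nat_lit 257272308) (nat_lit 168) (nat_lit 1348995833) (nat_lit 23) (nat_lit 1) (nat_lit 22) (nat_lit 1) (nat_lit 24) (nat_lit 1) (nat_lit 381) (nat_lit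 371) (nat_lit 328))) (XT.nd (nat_lit 94) (nat_lit 252) (nat_lit 0) (XT.lf (nat_lit 168) (nat_lit 1010668180) (nat_lit 0) (nat_lit 1225025208) (nat_lit 84) (nat_lit 220065708) (nat_lit 23) (nat_lit 1) (nat_lit 21) (nat_lit 1) (nat_lit 22) (nat_lit 1) (nat_lit 382) (nat_lit 371) (nat_lit 327)) (XT.nd (nat_lit 94) (nat_lit 84) (nat_lit 0) (XT.lf (nat_lit 84) (nat_lit 1073161961) (nat_lit 0) (nat_lit 203475141) (nat_lit 168) (nat_lit 1114984577) (nat_lit 20) (nat_lit 1) (nat_lit 19) (nat_lit 1) (nat_lit 21) (nat_lit 1) (nat_lit 383) (nat_lit 371) (nat_lit 326)) (XT.lf (nat_lit 168) (nat_lit 989030086) (nat_lit 0) (nat_lit 1329085891) (nat_lit 84) (nat_lit 11258001) (nat_lit 20) (nat_lit 1) (nat_lit 18) (nat_lit 1) (nat_lit 19) (nat_lit 1) (nat_lit 384) (nat_lit 371) (nat_lit 325)))))) (XT.nd (nat_lit 376) (nat_lit 672) (nat_lit 0) (XT.nd (nat_lit 188) (nat_lit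 252) (nat_lit 0) (XT.nd (nat_lit 94) (nat_lit 84) (nat_lit 0) (XT.lf (nat_lit 84) (nat_lit 1202044300) (nat_lit 0) (nat_lit 175519508) (nat_lit 168) (nat_lit 891171859) (nat_lit 17) (nat_lit 1) (nat_lit 16) (nat_lit 1) (nat_lit 18) (nat_lit 1) (nat_lit 385) (nat_lit 371) (nat_lit 324)) (XT.lf (nat_lit 0) (nat_lit 161597675) (nat_lit 0) (nat_lit 1264760684) (nat_lit 168) (nat_lit 783502597) (nat_lit 15) (nat_lit 3) (nat_lit 15) (nat_lit 1) (nat_lit 17) (nat_lit 1) (nat_lit 386) (nat_lit 371) (nat_lit 323))) (XT.nd (nat_lit 94) (nat_lit 84) (nat_lit 0) (XT.lf (nat_lit 84) (nat_lit 1306563324) (nat_lit 0) (nat_lit 167045598) (nat_lit 168) (nat_lit 679003752) (nat_lit 14) (nat_lit 1) (nat_lit 13) (nat_lit 1) (nat_lit 15) (nat_lit 1) (nat_lit 387) (nat_lit 371) (nat_lit 322)) (XT.lf (nat_lit 0) (nat_lit 308711344) (nat_lit 0) (nat_lit 1209458461) (nat_lit 168)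 (nat_lit 578719238) (nat_lit 12) (nat_lit 3) (nat_lit 12) (nat_lit 1) (nat_lit 14) (nat_lit 1) (nat_lit 388) (nat_lit 371) (nat_lit 321)))) (XT.nd (nat_lit 188) (nat_lit 420) (nat_lit 0) (XT.nd (nat_lit 94) (nat_lit 84) (nat_lit 0) (XT.lf (nat_lit 84) (nat_lit 1390412691) (nat_lit 0) (nat_lit 172984592) (nat_lit 168) (nat_lit 479406692) (nat_lit 11) (nat_lit 1) (nat_lit 10) (nat_lit 1) (nat_lit 12) (nat_lit 1) (nat_lit 389) (nat_lit 371) (nat_lit 320)) (XT.lf (nat_lit 0) (nat_lit 434013794) (nat_lit 0) (nat_lit 1169485670) (nat_lit 168) (nat_lit 386537570) (nat_lit 9) (nat_lit 3) (nat_lit 9) (nat_lit 1) (nat_lit 11) (nat_lit 1) (nat_lit 390) (nat_lit 371) (nat_lit 319))) (XT.nd (nat_lit 94) (nat_lit 252) (nat_lit 0) (XT.lf (nat_lit 84) (nat_lit 1456689724) (nat_lit 0) (nat_lit 189313299) (nat_lit 168) (nat_lit 292900215) (nat_lit 8) (nat_lit 1) (nat_lit 7)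 (nat_lit 1) (nat_lit 9) (nat_lit 1) (nat_lit 391) (nat_lit 371) (nat_lit 318)) (XT.nd (nat_lit 94) (nat_lit 168) (nat_lit 0) (XT.lf (nat_lit 0) (nat_lit 540515286) (nat_lit 0) (nat_lit 1141037754) (nat_lit 168) (nat_lit 207361884) (nat_lit 6) (nat_lit 3) (nat_lit 6) (nat_lit 1) (nat_lit 8) (nat_lit 1) (nat_lit 392) (nat_lit 371) (nat_lit 317)) (XT.lf (nat_lit 84) (nat_lit 1507998520) (nat_lit 0) (nat_lit 212854359) (nat_lit 168) (nat_lit 119687884) (nat_lit 5) (nat_lit 1) (nat_lit 4) (nat_lit 1) (nat_lit 6) (nat_lit 1) (nat_lit 393) (nat_lit 371) (nat_lit 316))))))) (XT.nd (nat_lit 846) (nat_lit 0) (nat_lit 0) (XT.nd (nat_lit 376) (nat_lit 0) (nat_lit 0) (XT.nd (nat_lit 188) (nat_lit 0) (nat_lit 0) (XT.nd (nat_lit 94) (nat_lit 252) (nat_lit 0) (XT.lf (nat_lit 0) (nat_lit 630761786) (nat_lit 0) (nat_lit 1121096284) (nat_lit 168) (nat_lit 41309259) (nat_lit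 3) (nat_lit 3) (nat_lit 3) (nat_lit 1) (nat_lit 5) (nat_lit 1) (nat_lit 394) (nat_lit 371) (nat_lit 315)) (XT.lf (nat_lit 0) (nat_lit 2534724656) (nat_lit 0) (nat_lit 0) (nat_lit 0) (nat_lit 0) (nat_lit 0) (nat_lit 0) (nat_lit 1) (nat_lit 0) (nat_lit 1) (nat_lit 0) (nat_lit 395) (nat_lit 371) (nat_lit 314))) (XT.nd (nat_lit 94) (nat_lit 0) (nat_lit 0) (XT.lf (nat_lit 0) (nat_lit 2532417519) (nat_lit 0) (nat_lit 0) (nat_lit 0) (nat_lit 0) (nat_lit 0) (nat_lit 0) (nat_lit 1) (nat_lit 0) (nat_lit 1) (nat_lit 0) (nat_lit 396) (nat_lit 371) (nat_lit 313)) (XT.lf (nat_lit 0) (nat_lit 2530281281) (nat_lit 0) (nat_lit 0) (nat_lit 0) (nat_lit 0) (nat_lit 0) (nat_lit 0) (nat_lit 1) (nat_lit 0) (nat_lit 1) (nat_lit 0) (nat_lit 397) (nat_lit 371) (nat_lit 312)))) (XT.nd (nat_lit 188) (nat_lit 0) (nat_lit 0) (XT.nd (nat_lit 94) (nat_lit 0) (nat_lit 0) (XT.lf (nat_lit 0)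 (nat_lit 2528303284) (nat_lit 0) (nat_lit 0) (nat_lit 0) (nat_lit 0) (nat_lit 0) (nat_lit 0) (nat_lit 1) (nat_lit 0) (nat_lit 1) (nat_lit 0) (nat_lit 398) (nat_lit 371) (nat_lit 311)) (XT.lf (nat_lit 0) (nat_lit 2526471804) (nat_lit 0) (nat_lit 0) (nat_lit 0) (nat_lit 0) (nat_lit 0) (nat_lit 0) (nat_lit 1) (nat_lit 0) (nat_lit 1) (nat_lit 0) (nat_lit 399) (nat_lit 371) (nat_lit 310))) (XT.nd (nat_lit 94) (nat_lit 0) (nat_lit 0) (XT.lf (nat_lit 0) (nat_lit 2524775989) (nat_lit 0) (nat_lit 0) (nat_lit 0) (nat_lit 0) (nat_lit 0) (nat_lit 0) (nat_lit 1) (nat_lit 0) (nat_lit 1) (nat_lit 0) (nat_lit 400) (nat_lit 371) (nat_lit 309)) (XT.nd (nat_lit 94) (nat_lit 0) (nat_lit 0) (XT.lf (nat_lit 0) (nat_lit 2523205791) (nat_lit 0) (nat_lit 0) (nat_lit 0) (nat_lit 0) (nat_lit 0) (nat_lit 0) (nat_lit 1) (nat_lit 0) (nat_lit 1) (nat_lit 0) (nat_lit 401) (nat_lit 371) (nat_lit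 308)) (XT.lf (nat_lit 0) (nat_lit 2521751903) (nat_lit 0) (nat_lit 0) (nat_lit 0) (nat_lit 0) (nat_lit 0) (nat_lit 0) (nat_lit 1) (nat_lit 0) (nat_lit 1) (nat_lit 0) (nat_lit 402) (nat_lit 371) (nat_lit 307)))))) (XT.nd (nat_lit 470) (nat_lit 0) (nat_lit 0) (XT.nd (nat_lit 188) (nat_lit 0) (nat_lit 0) (XT.nd (nat_lit 94) (nat_lit 0) (nat_lit 0) (XT.lf (nat_lit 0) (nat_lit 2520405711) (nat_lit 0) (nat_lit 0) (nat_lit 0) (nat_lit 0) (nat_lit 0) (nat_lit 0) (nat_lit 1) (nat_lit 0) (nat_lit 1) (nat_lit 0) (nat_lit 403) (nat_lit 371) (nat_lit 306)) (XT.lf (nat_lit 0) (nat_lit 2519159237) (nat_lit 0) (nat_lit 0) (nat_lit 0) (nat_lit 0) (nat_lit 0) (nat_lit 0) (nat_lit 1) (nat_lit 0) (nat_lit 1) (nat_lit 0) (nat_lit 404) (nat_lit 371) (nat_lit 305))) (XT.nd (nat_lit 94) (nat_lit 0) (nat_lit 0) (XT.lf (nat_lit 0) (nat_lit 2518005094) (nat_lit 0) (nat_lit 0) (nat_lit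 0) (nat_lit 0) (nat_lit 0) (nat_lit 0) (nat_lit 1) (nat_lit 0) (nat_lit 1) (nat_lit 0) (nat_lit 405) (nat_lit 371) (nat_lit 304)) (XT.nd (nat_lit 94) (nat_lit 0) (nat_lit 0) (XT.lf (nat_lit 0) (nat_lit 2516936443) (nat_lit 0) (nat_lit 0) (nat_lit 0) (nat_lit 0) (nat_lit 0) (nat_lit 0) (nat_lit 1) (nat_lit 0) (nat_lit 1) (nat_lit 0) (nat_lit 406) (nat_lit 371) (nat_lit 303)) (XT.lf (nat_lit 0) (nat_lit 2515946952) (nat_lit 0) (nat_lit 0) (nat_lit 0) (nat_lit 0) (nat_lit 0) (nat_lit 0) (nat_lit 1) (nat_lit 0) (nat_lit 1) (nat_lit 0) (nat_lit 407) (nat_lit 371) (nat_lit 302))))) (XT.nd (nat_lit 188) (nat_lit 0) (nat_lit 0) (XT.nd (nat_lit 94) (nat_lit 0) (nat_lit 0) (XT.lf (nat_lit 0) (nat_lit 2515030756) (nat_lit 0) (nat_lit 0) (nat_lit 0) (nat_lit 0) (nat_lit 0) (nat_lit 0) (nat_lit 1) (nat_lit 0) (nat_lit 1) (nat_lit 0) (nat_lit 408) (nat_lit 371) (nat_lit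 301)) (XT.lf (nat_lit 0) (nat_lit 2514182427) (nat_lit 0) (nat_lit 0) (nat_lit 0) (nat_lit 0) (nat_lit 0) (nat_lit 0) (nat_lit 1) (nat_lit 0) (nat_lit 1) (nat_lit 0) (nat_lit 409) (nat_lit 371) (nat_lit 300))) (XT.nd (nat_lit 94) (nat_lit 0) (nat_lit 0) (XT.lf (nat_lit 0) (nat_lit 2513396937) (nat_lit 0) (nat_lit 0) (nat_lit 0) (nat_lit 0) (nat_lit 0) (nat_lit 0) (nat_lit 1) (nat_lit 0) (nat_lit 1) (nat_lit 0) (nat_lit 410) (nat_lit 371) (nat_lit 299)) (XT.nd (nat_lit 94) (nat_lit 0) (nat_lit 0) (XT.lf (nat_lit 0) (nat_lit 2512669631) (nat_lit 0) (nat_lit 0) (nat_lit 0) (nat_lit 0) (nat_lit 0) (nat_lit 0) (nat_lit 1) (nat_lit 0) (nat_lit 1) (nat_lit 0) (nat_lit 411) (nat_lit 371) (nat_lit 298)) (XT.lf (nat_lit 0) (nat_lit 2511996200) (nat_lit 0) (nat_lit 0) (nat_lit 0) (nat_lit 0) (nat_lit 0) (nat_lit 0) (nat_lit 1) (nat_lit 0) (nat_lit 1) (nat_lit 0) (nat_lit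 412) (nat_lit 371) (nat_lit 297))))))))
noncomputable def ec53 : XT := (XT.nd (nat_lit 1786) (nat_lit 0) (nat_lit 0) (XT.nd (nat_lit 846) (nat_lit 0) (nat_lit 0) (XT.nd (nat_lit 376) (nat_lit 0) (nat_lit 0) (XT.nd (nat_lit 188) (nat_lit 0) (nat_lit 0) (XT.nd (nat_lit 94) (nat_lit 0) (nat_lit 0) (XT.lf (nat_lit 0) (nat_lit 2511372652) (nat_lit 0) (nat_lit 0) (nat_lit 0) (nat_lit 0) (nat_lit 0) (nat_lit 0) (nat_lit 1) (nat_lit 0) (nat_lit 1) (nat_lit 0) (nat_lit 413) (nat_lit 371) (nat_lit 296)) (XT.lf (nat_lit 0) (nat_lit 2510795293) (nat_lit 0) (nat_lit 0) (nat_lit 0) (nat_lit 0) (nat_lit 0) (nat_lit 0) (nat_lit 1) (nat_lit 0) (nat_lit 1) (nat_lit 0) (nat_lit 414) (nat_lit 371) (nat_lit 295))) (XT.nd (nat_lit 94) (nat_lit 0) (nat_lit 0) (XT.lf (nat_lit 0) (nat_lit 2510260702) (nat_lit 0) (nat_lit 0) (nat_lit 0) (nat_lit 0) (nat_lit 0) (nat_lit 0) (nat_lit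 1) (nat_lit 0) (nat_lit 1) (nat_lit 0) (nat_lit 415) (nat_lit 371) (nat_lit 294)) (XT.lf (nat_lit 0) (nat_lit 2509765710) (nat_lit 0) (nat_lit 0) (nat_lit 0) (nat_lit 0) (nat_lit 0) (nat_lit 0) (nat_lit 1) (nat_lit 0) (nat_lit 1) (nat_lit 0) (nat_lit 416) (nat_lit 371) (nat_lit 293)))) (XT.nd (nat_lit 188) (nat_lit 0) (nat_lit 0) (XT.nd (nat_lit 94) (nat_lit 0) (nat_lit 0) (XT.lf (nat_lit 0) (nat_lit 2509307384) (nat_lit 0) (nat_lit 0) (nat_lit 0) (nat_lit 0) (nat_lit 0) (nat_lit 0) (nat_lit 1) (nat_lit 0) (nat_lit 1) (nat_lit 0) (nat_lit 417) (nat_lit 371) (nat_lit 292)) (XT.lf (nat_lit 0) (nat_lit 2508883008) (nat_lit 0) (nat_lit 0) (nat_lit 0) (nat_lit 0) (nat_lit 0) (nat_lit 0) (nat_lit 1) (nat_lit 0) (nat_lit 1) (nat_lit 0) (nat_lit 418) (nat_lit 371) (nat_lit 291))) (XT.nd (nat_lit 94) (nat_lit 0) (nat_lit 0) (XT.lf (nat_lit 0) (nat_lit 2508490067) (nat_lit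 0) (nat_lit 0) (nat_lit 0) (nat_lit 0) (nat_lit 0) (nat_lit 0) (nat_lit 1) (nat_lit 0) (nat_lit 1) (nat_lit 0) (nat_lit 419) (nat_lit 371) (nat_lit 290)) (XT.nd (nat_lit 94) (nat_lit 0) (nat_lit 0) (XT.lf (nat_lit 0) (nat_lit 2508126233) (nat_lit 0) (nat_lit 0) (nat_lit 0) (nat_lit 0) (nat_lit 0) (nat_lit 0) (nat_lit 1) (nat_lit 0) (nat_lit 1) (nat_lit 0) (nat_lit 420) (nat_lit 371) (nat_lit 289)) (XT.lf (nat_lit 0) (nat_lit 2507789350) (nat_lit 0) (nat_lit 0) (nat_lit 0) (nat_lit 0) (nat_lit 0) (nat_lit 0) (nat_lit 1) (nat_lit 0) (nat_lit 1) (nat_lit 0) (nat_lit 421) (nat_lit 371) (nat_lit 288)))))) (XT.nd (nat_lit 470) (nat_lit 0) (nat_lit 0) (XT.nd (nat_lit 188) (nat_lit 0) (nat_lit 0) (XT.nd (nat_lit 94) (nat_lit 0) (nat_lit 0) (XT.lf (nat_lit 0) (nat_lit 2507477421) (nat_lit 0) (nat_lit 0) (nat_lit 0) (nat_lit 0) (nat_lit 0) (nat_lit 0) (nat_lit 1) (nat_lit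 0) (nat_lit 1) (nat_lit 0) (nat_lit 422) (nat_lit 371) (nat_lit 287)) (XT.lf (nat_lit 0) (nat_lit 2507188598) (nat_lit 0) (nat_lit 0) (nat_lit 0) (nat_lit 0) (nat_lit 0) (nat_lit 0) (nat_lit 1) (nat_lit 0) (nat_lit 1) (nat_lit 0) (nat_lit 423) (nat_lit 371) (nat_lit 286))) (XT.nd (nat_lit 94) (nat_lit 0) (nat_lit 0) (XT.lf (nat_lit 0) (nat_lit 2506921169) (nat_lit 0) (nat_lit 0) (nat_lit 0) (nat_lit 0) (nat_lit 0) (nat_lit 0) (nat_lit 1) (nat_lit 0) (nat_lit 1) (nat_lit 0) (nat_lit 424) (nat_lit 371) (nat_lit 285)) (XT.nd (nat_lit 94) (nat_lit 0) (nat_lit 0) (XT.lf (nat_lit 0) (nat_lit 2506673550) (nat_lit 0) (nat_lit 0) (nat_lit 0) (nat_lit 0) (nat_lit 0) (nat_lit 0) (nat_lit 1) (nat_lit 0) (nat_lit 1) (nat_lit 0) (nat_lit 425) (nat_lit 371) (nat_lit 284)) (XT.lf (nat_lit 0) (nat_lit 2506444273) (nat_lit 0) (nat_lit 0) (nat_lit 0) (nat_lit 0) (nat_lit 0)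 (nat_lit 0) (nat_lit 1) (nat_lit 0) (nat_lit 1) (nat_lit 0) (nat_lit 426) (nat_lit 371) (nat_lit 283))))) (XT.nd (nat_lit 188) (nat_lit 0) (nat_lit 0) (XT.nd (nat_lit 94) (nat_lit 0) (nat_lit 0) (XT.lf (nat_lit 0) (nat_lit 2506231979) (nat_lit 0) (nat_lit 0) (nat_lit 0) (nat_lit 0) (nat_lit 0) (nat_lit 0) (nat_lit 1) (nat_lit 0) (nat_lit 1) (nat_lit 0) (nat_lit 427) (nat_lit 371) (nat_lit 282)) (XT.lf (nat_lit 0) (nat_lit 2506035411) (nat_lit 0) (nat_lit 0) (nat_lit 0) (nat_lit 0) (nat_lit 0) (nat_lit 0) (nat_lit 1) (nat_lit 0) (nat_lit 1) (nat_lit 0) (nat_lit 428) (nat_lit 371) (nat_lit 281))) (XT.nd (nat_lit 94) (nat_lit 0) (nat_lit 0) (XT.lf (nat_lit 0) (nat_lit 2505853404) (nat_lit 0) (nat_lit 0) (nat_lit 0) (nat_lit 0) (nat_lit 0) (nat_lit 0) (nat_lit 1) (nat_lit 0) (nat_lit 1) (nat_lit 0) (nat_lit 429) (nat_lit 371) (nat_lit 280)) (XT.nd (nat_lit 94)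 (nat_lit 0) (nat_lit 0) (XT.lf (nat_lit 0) (nat_lit 2505684878) (nat_lit 0) (nat_lit 0) (nat_lit 0) (nat_lit 0) (nat_lit 0) (nat_lit 0) (nat_lit 1) (nat_lit 0) (nat_lit 1) (nat_lit 0) (nat_lit 430) (nat_lit 371) (nat_lit 279)) (XT.lf (nat_lit 0) (nat_lit 2505528836) (nat_lit 0) (nat_lit 0) (nat_lit 0) (nat_lit 0) (nat_lit 0) (nat_lit 0) (nat_lit 1) (nat_lit 0) (nat_lit 1) (nat_lit 0) (nat_lit 431) (nat_lit 371) (nat_lit 278))))))) (XT.nd (nat_lit 59408) (nat_lit 0) (nat_lit 7224) (XT.nd (nat_lit 58938) (nat_lit 0) (nat_lit 10836) (XT.nd (nat_lit 58750) (nat_lit 0) (nat_lit 10752) (XT.nd (nat_lit 94) (nat_lit 0) (nat_lit 0) (XT.lf (nat_lit 0) (nat_lit 2505384352) (nat_lit 0) (nat_lit 0) (nat_lit 0) (nat_lit 0) (nat_lit 0) (nat_lit 0) (nat_lit 1) (nat_lit 0) (nat_lit 1) (nat_lit 0) (nat_lit 432) (nat_lit 371) (nat_lit 277)) (XT.lf (nat_lit 0) (nat_lit 2505250571)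 (nat_lit 0) (nat_lit 0) (nat_lit 0) (nat_lit 0) (nat_lit 0) (nat_lit 0) (nat_lit 1) (nat_lit 0) (nat_lit 1) (nat_lit 0) (nat_lit 433) (nat_lit 371) (nat_lit 276))) (XT.nd (nat_lit 94) (nat_lit 0) (nat_lit 84) (XT.lf (nat_lit 924) (nat_lit 1353115113) (nat_lit 0) (nat_lit 2402452773) (nat_lit 924) (nat_lit 1353115113) (nat_lit 139) (nat_lit 1) (nat_lit 128) (nat_lit 0) (nat_lit 139) (nat_lit 0) (nat_lit 336) (nat_lit 372) (nat_lit 372)) (XT.lf (nat_lit 924) (nat_lit 504753456) (nat_lit 0) (nat_lit 4716742920) (nat_lit 840) (nat_lit 4612958818) (nat_lit 140) (nat_lit 1) (nat_lit 129) (nat_lit 1) (nat_lit 139) (nat_lit 1) (nat_lit 337) (nat_lit 372) (nat_lit 371)))) (XT.nd (nat_lit 188) (nat_lit 0) (nat_lit 168) (XT.nd (nat_lit 94) (nat_lit 0) (nat_lit 84) (XT.lf (nat_lit 924) (nat_lit 4635869149) (nat_lit 84) (nat_lit 3158804323) (nat_lit 0) (nat_lit 1675285721)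 (nat_lit 140) (nat_lit 1) (nat_lit 130) (nat_lit 1) (nat_lit 129) (nat_lit 1) (nat_lit 338) (nat_lit 372) (nat_lit 370)) (XT.lf (nat_lit 924) (nat_lit 4005770720) (nat_lit 84) (nat_lit 1323832997) (nat_lit 0) (nat_lit 3794099779) (nat_lit 141) (nat_lit 1) (nat_lit 131) (nat_lit 1) (nat_lit 130) (nat_lit 1) (nat_lit 339) (nat_lit 372) (nat_lit 369))) (XT.nd (nat_lit 94) (nat_lit 0) (nat_lit 84) (XT.lf (nat_lit 924) (nat_lit 2964610892) (nat_lit 0) (nat_lit 5546646848) (nat_lit 840) (nat_lit 283543794) (nat_lit 142) (nat_lit 1) (nat_lit 131) (nat_lit 1) (nat_lit 141) (nat_lit 1) (nat_lit 340) (nat_lit 372) (nat_lit 368)) (XT.nd (nat_lit 94) (nat_lit 0) (nat_lit 0) (XT.lf (nat_lit 924) (nat_lit 711329316) (nat_lit 0) (nat_lit 6116719068) (nat_lit 840) (nat_lit 1653558558) (nat_lit 143) (nat_lit 1) (nat_lit 132) (nat_lit 1) (nat_lit 142) (nat_lit 1) (nat_lit 341)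 (nat_lit 372) (nat_lit 367)) (XT.lf (nat_lit 924) (nat_lit 1366885623) (nat_lit 84) (nat_lit 5315926976) (nat_lit 0) (nat_lit 1500220178) (nat_lit 143) (nat_lit 1) (nat_lit 133) (nat_lit 1) (nat_lit 132) (nat_lit 1) (nat_lit 342) (nat_lit 372) (nat_lit 366)))))) (XT.nd (nat_lit 470) (nat_lit 1344) (nat_lit 0) (XT.nd (nat_lit 188) (nat_lit 1176) (nat_lit 0) (XT.nd (nat_lit 94) (nat_lit 588) (nat_lit 0) (XT.lf (nat_lit 924) (nat_lit 280727137) (nat_lit 0) (nat_lit 3974007049) (nat_lit 840) (nat_lit 3644122825) (nat_lit 134) (nat_lit 1) (nat_lit 123) (nat_lit 1) (nat_lit 133) (nat_lit 1) (nat_lit 343) (nat_lit 372) (nat_lit 365)) (XT.lf (nat_lit 84) (nat_lit 1943813181) (nat_lit 0) (nat_lit 842344709) (nat_lit 588) (nat_lit 4841978805) (nat_lit 117) (nat_lit 1) (nat_lit 116) (nat_lit 1) (nat_lit 123) (nat_lit 1) (nat_lit 344) (nat_lit 372) (nat_lit 364))) (XT.nd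 (nat_lit 94) (nat_lit 756) (nat_lit 0) (XT.lf (nat_lit 504) (nat_lit 5356904465) (nat_lit 0) (nat_lit 1743787889) (nat_lit 420) (nat_lit 269600382) (nat_lit 117) (nat_lit 1) (nat_lit 111) (nat_lit 1) (nat_lit 116) (nat_lit 1) (nat_lit 345) (nat_lit 372) (nat_lit 363)) (XT.nd (nat_lit 94) (nat_lit 336) (nat_lit 0) (XT.lf (nat_lit 504) (nat_lit 3865593274) (nat_lit 0) (nat_lit 812787046) (nat_lit 420) (nat_lit 2445155286) (nat_lit 112) (nat_lit 1) (nat_lit 106) (nat_lit 1) (nat_lit 111) (nat_lit 1) (nat_lit 346) (nat_lit 372) (nat_lit 362)) (XT.lf (nat_lit 420) (nat_lit 2352164206) (nat_lit 0) (nat_lit 14964730) (nat_lit 336) (nat_lit 4521614258) (nat_lit 107) (nat_lit 1) (nat_lit 102) (nat_lit 1) (nat_lit 106) (nat_lit 1) (nat_lit 347) (nat_lit 372) (nat_lit 361))))) (XT.nd (nat_lit 188) (nat_lit 924) (nat_lit 0) (XT.nd (nat_lit 94) (nat_lit 420) (nat_lit 0)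 (XT.lf (nat_lit 84) (nat_lit 173531558) (nat_lit 0) (nat_lit 5852325025) (nat_lit 420) (nat_lit 638895067) (nat_lit 103) (nat_lit 1) (nat_lit 102) (nat_lit 1) (nat_lit 107) (nat_lit 1) (nat_lit 348) (nat_lit 372) (nat_lit 360)) (XT.lf (nat_lit 84) (nat_lit 4480629858) (nat_lit 0) (nat_lit 743160404) (nat_lit 420) (nat_lit 1225606475) (nat_lit 98) (nat_lit 1) (nat_lit 97) (nat_lit 1) (nat_lit 102) (nat_lit 1) (nat_lit 349) (nat_lit 372) (nat_lit 359))) (XT.nd (nat_lit 94) (nat_lit 588) (nat_lit 0) (XT.lf (nat_lit 84) (nat_lit 2241772660) (nat_lit 0) (nat_lit 2276432241) (nat_lit 420) (nat_lit 1725352398) (nat_lit 94) (nat_lit 1) (nat_lit 93) (nat_lit 1) (nat_lit 98) (nat_lit 1) (nat_lit 350) (nat_lit 372) (nat_lit 358)) (XT.nd (nat_lit 94) (nat_lit 252) (nat_lit 0) (XT.lf (nat_lit 84) (nat_lit 110648927) (nat_lit 0) (nat_lit 3806159360) (nat_lit 420) (nat_lit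 2130655393) (nat_lit 90) (nat_lit 1) (nat_lit 89) (nat_lit 1) (nat_lit 94) (nat_lit 1) (nat_lit 351) (nat_lit 372) (nat_lit 357)) (XT.lf (nat_lit 336) (nat_lit 499684320) (nat_lit 0) (nat_lit 3379125874) (nat_lit 252) (nat_lit 1980245423) (nat_lit 90) (nat_lit 1) (nat_lit 86) (nat_lit 1) (nat_lit 89) (nat_lit 1) (nat_lit 352) (nat_lit 372) (nat_lit 356))))))))
noncomputable def ec54 : XT := (XT.nd (nat_lit 1692) (nat_lit 2688) (nat_lit 0) (XT.nd (nat_lit 846) (nat_lit 1512) (nat_lit 0) (XT.nd (nat_lit 376) (nat_lit 1176) (nat_lit 0) (XT.nd (nat_lit 188) (nat_lit 588) (nat_lit 0) (XT.nd (nat_lit 94) (nat_lit 252) (nat_lit 0) (XT.lf (nat_lit 84) (nat_lit 1726543671) (nat_lit 0) (nat_lit 1183383760) (nat_lit 420) (nat_lit 2768503600) (nat_lit 82) (nat_lit 1) (nat_lit 81) (nat_lit 1) (nat_lit 86) (nat_lit 1) (nat_lit 353) (nat_lit 372) (nat_lit 355)) (XT.lf (nat_lit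 336) (nat_lit 2673104891) (nat_lit 0) (nat_lit 2511036554) (nat_lit 252) (nat_lit 321409698) (nat_lit 82) (nat_lit 1) (nat_lit 78) (nat_lit 1) (nat_lit 81) (nat_lit 1) (nat_lit 354) (nat_lit 372) (nat_lit 354))) (XT.nd (nat_lit 94) (nat_lit 336) (nat_lit 0) (XT.lf (nat_lit 336) (nat_lit 856717203) (nat_lit 0) (nat_lit 2161899647) (nat_lit 252) (nat_lit 2320698226) (nat_lit 79) (nat_lit 1) (nat_lit 75) (nat_lit 1) (nat_lit 78) (nat_lit 1) (nat_lit 355) (nat_lit 372) (nat_lit 353)) (XT.lf (nat_lit 84) (nat_lit 976450601) (nat_lit 0) (nat_lit 894025381) (nat_lit 336) (nat_lit 3309507125) (nat_lit 72) (nat_lit 1) (nat_lit 71) (nat_lit 1) (nat_lit 75) (nat_lit 1) (nat_lit 356) (nat_lit 372) (nat_lit 352)))) (XT.nd (nat_lit 188) (nat_lit 756) (nat_lit 0) (XT.nd (nat_lit 94) (nat_lit 168) (nat_lit 0) (XT.lf (nat_lit 336) (nat_lit 2429769163) (nat_lit 0) (nat_lit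 1616678361) (nat_lit 252) (nat_lit 980035737) (nat_lit 72) (nat_lit 1) (nat_lit 68) (nat_lit 1) (nat_lit 71) (nat_lit 1) (nat_lit 357) (nat_lit 372) (nat_lit 351)) (XT.lf (nat_lit 252) (nat_lit 602343363) (nat_lit 0) (nat_lit 1410433949) (nat_lit 168) (nat_lit 2866398715) (nat_lit 69) (nat_lit 1) (nat_lit 66) (nat_lit 1) (nat_lit 68) (nat_lit 1) (nat_lit 358) (nat_lit 372) (nat_lit 350))) (XT.nd (nat_lit 94) (nat_lit 420) (nat_lit 0) (XT.lf (nat_lit 84) (nat_lit 102040813) (nat_lit 0) (nat_lit 1141858860) (nat_lit 336) (nat_lit 3493679136) (nat_lit 63) (nat_lit 1) (nat_lit 62) (nat_lit 1) (nat_lit 66) (nat_lit 1) (nat_lit 359) (nat_lit 372) (nat_lit 349)) (XT.nd (nat_lit 94) (nat_lit 252) (nat_lit 0) (XT.lf (nat_lit 252) (nat_lit 1750299291) (nat_lit 0) (nat_lit 1093786899) (nat_lit 168) (nat_lit 1756390350) (nat_lit 63) (nat_lit 1) (nat_lit 60) (nat_lit 1)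 (nat_lit 62) (nat_lit 1) (nat_lit 360) (nat_lit 372) (nat_lit 348)) (XT.lf (nat_lit 84) (nat_lit 949639250) (nat_lit 0) (nat_lit 43864432) (nat_lit 252) (nat_lit 3475853261) (nat_lit 58) (nat_lit 1) (nat_lit 57) (nat_lit 1) (nat_lit 60) (nat_lit 1) (nat_lit 361) (nat_lit 372) (nat_lit 347)))))) (XT.nd (nat_lit 376) (nat_lit 756) (nat_lit 0) (XT.nd (nat_lit 188) (nat_lit 420) (nat_lit 0) (XT.nd (nat_lit 94) (nat_lit 168) (nat_lit 0) (XT.lf (nat_lit 252) (nat_lit 2596130330) (nat_lit 0) (nat_lit 899617369) (nat_lit 168) (nat_lit 846303821) (nat_lit 58) (nat_lit 1) (nat_lit 55) (nat_lit 1) (nat_lit 57) (nat_lit 1) (nat_lit 362) (nat_lit 372) (nat_lit 346)) (XT.lf (nat_lit 252) (nat_lit 806462114) (nat_lit 0) (nat_lit 836293826) (nat_lit 168) (nat_lit 2576857601) (nat_lit 56) (nat_lit 1) (nat_lit 53) (nat_lit 1) (nat_lit 55) (nat_lit 1) (nat_lit 363) (nat_lit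 372) (nat_lit 345))) (XT.nd (nat_lit 94) (nat_lit 168) (nat_lit 0) (XT.lf (nat_lit 252) (nat_lit 3201358212) (nat_lit 0) (nat_lit 799010873) (nat_lit 168) (nat_lit 101363799) (nat_lit 53) (nat_lit 1) (nat_lit 50) (nat_lit 1) (nat_lit 52) (nat_lit 1) (nat_lit 364) (nat_lit 372) (nat_lit 344)) (XT.lf (nat_lit 252) (nat_lit 1432779565) (nat_lit 0) (nat_lit 762785999) (nat_lit 168) (nat_lit 1791562193) (nat_lit 51) (nat_lit 1) (nat_lit 48) (nat_lit 1) (nat_lit 50) (nat_lit 1) (nat_lit 365) (nat_lit 372) (nat_lit 343)))) (XT.nd (nat_lit 188) (nat_lit 420) (nat_lit 0) (XT.nd (nat_lit 94) (nat_lit 168) (nat_lit 0) (XT.lf (nat_lit 84) (nat_lit 490782319) (nat_lit 0) (nat_lit 269756077) (nat_lit 168) (nat_lit 3116737760) (nat_lit 47) (nat_lit 1) (nat_lit 46) (nat_lit 1) (nat_lit 48) (nat_lit 1) (nat_lit 366) (nat_lit 372) (nat_lit 342)) (XT.lf (nat_lit 252) (nat_lit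 1879889190) (nat_lit 0) (nat_lit 752485142) (nat_lit 168) (nat_lit 1137822224) (nat_lit 47) (nat_lit 1) (nat_lit 44) (nat_lit 1) (nat_lit 46) (nat_lit 1) (nat_lit 367) (nat_lit 372) (nat_lit 341))) (XT.nd (nat_lit 94) (nat_lit 336) (nat_lit 0) (XT.lf (nat_lit 168) (nat_lit 202437352) (nat_lit 0) (nat_lit 770967149) (nat_lit 84) (nat_lit 2693939818) (nat_lit 45) (nat_lit 1) (nat_lit 43) (nat_lit 1) (nat_lit 44) (nat_lit 1) (nat_lit 368) (nat_lit 372) (nat_lit 340)) (XT.nd (nat_lit 94) (nat_lit 84) (nat_lit 0) (XT.lf (nat_lit 252) (nat_lit 2185236485) (nat_lit 0) (nat_lit 788493658) (nat_lit 168) (nat_lit 593597894) (nat_lit 43) (nat_lit 1) (nat_lit 40) (nat_lit 1) (nat_lit 42) (nat_lit 1) (nat_lit 369) (nat_lit 372) (nat_lit 339)) (XT.lf (nat_lit 168) (nat_lit 549603089) (nat_lit 0) (nat_lit 817976231) (nat_lit 84) (nat_lit 2103103185) (nat_lit 41) (nat_lit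 1) (nat_lit 39) (nat_lit 1) (nat_lit 40) (nat_lit 1) (nat_lit 370) (nat_lit 372) (nat_lit 338))))))) (XT.nd (nat_lit 846) (nat_lit 1260) (nat_lit 0) (XT.nd (nat_lit 376) (nat_lit 756) (nat_lit 0) (XT.nd (nat_lit 188) (nat_lit 336) (nat_lit 0) (XT.nd (nat_lit 94) (nat_lit 84) (nat_lit 0) (XT.lf (nat_lit 252) (nat_lit 2379096614) (nat_lit 0) (nat_lit 857427467) (nat_lit 168) (nat_lit 140711187) (nat_lit 39) (nat_lit 1) (nat_lit 36) (nat_lit 1) (nat_lit 38) (nat_lit 1) (nat_lit 371) (nat_lit 372) (nat_lit 337)) (XT.lf (nat_lit 168) (nat_lit 790954247) (nat_lit 0) (nat_lit 893878437) (nat_lit 84) (nat_lit 1601460416) (nat_lit 37) (nat_lit 1) (nat_lit 35) (nat_lit 1) (nat_lit 36) (nat_lit 1) (nat_lit 372) (nat_lit 372) (nat_lit 336))) (XT.nd (nat_lit 94) (nat_lit 84) (nat_lit 0) (XT.lf (nat_lit 84) (nat_lit 228300872) (nat_lit 0) (nat_lit 716575584) (nat_lit 252)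 (nat_lit 2253741581) (nat_lit 33) (nat_lit 1) (nat_lit 32) (nat_lit 1) (nat_lit 35) (nat_lit 1) (nat_lit 373) (nat_lit 372) (nat_lit 335)) (XT.lf (nat_lit 168) (nat_lit 949216459) (nat_lit 0) (nat_lit 989038558) (nat_lit 84) (nat_lit 1174865312) (nat_lit 33) (nat_lit 1) (nat_lit 31) (nat_lit 1) (nat_lit 32) (nat_lit 1) (nat_lit 374) (nat_lit 372) (nat_lit 334)))) (XT.nd (nat_lit 188) (nat_lit 420) (nat_lit 0) (XT.nd (nat_lit 94) (nat_lit 84) (nat_lit 0) (XT.lf (nat_lit 84) (nat_lit 530942822) (nat_lit 0) (nat_lit 514254025) (nat_lit 252) (nat_lit 1985430373) (nat_lit 29) (nat_lit 1) (nat_lit 28) (nat_lit 1) (nat_lit 31) (nat_lit 1) (nat_lit 375) (nat_lit 372) (nat_lit 333)) (XT.lf (nat_lit 168) (nat_lit 1042716410) (nat_lit 0) (nat_lit 1095935226) (nat_lit 84) (nat_lit 811590144) (nat_lit 29) (nat_lit 1) (nat_lit 27) (nat_lit 1) (nat_lit 28) (nat_lit 1) (nat_lit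 376) (nat_lit 372) (nat_lit 332))) (XT.nd (nat_lit 94) (nat_lit 252) (nat_lit 0) (XT.lf (nat_lit 84) (nat_lit 781670610) (nat_lit 0) (nat_lit 372452059) (nat_lit 168) (nat_lit 1718388432) (nat_lit 26) (nat_lit 1) (nat_lit 25) (nat_lit 1) (nat_lit 27) (nat_lit 1) (nat_lit 377) (nat_lit 372) (nat_lit 331)) (XT.nd (nat_lit 94) (nat_lit 168) (nat_lit 0) (XT.lf (nat_lit 168) (nat_lit 1086203812) (nat_lit 0) (nat_lit 1208748936) (nat_lit 84) (nat_lit 501894245) (nat_lit 26) (nat_lit 1) (nat_lit 24) (nat_lit 1) (nat_lit 25) (nat_lit 1) (nat_lit 378) (nat_lit 372) (nat_lit 330)) (XT.lf (nat_lit 84) (nat_lit 988740643) (nat_lit 0) (nat_lit 277854092) (nat_lit 168) (nat_lit 1456915500) (nat_lit 23) (nat_lit 1) (nat_lit 22) (nat_lit 1) (nat_lit 24) (nat_lit 1) (nat_lit 379) (nat_lit 372) (nat_lit 329)))))) (XT.nd (nat_lit 470) (nat_lit 672) (nat_lit 0) (XT.nd (nat_lit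 188) (nat_lit 336) (nat_lit 0) (XT.nd (nat_lit 94) (nat_lit 168) (nat_lit 0) (XT.lf (nat_lit 168) (nat_lit 1091521634) (nat_lit 0) (nat_lit 1323027225) (nat_lit 84) (nat_lit 237670965) (nat_lit 23) (nat_lit 1) (nat_lit 21) (nat_lit 1) (nat_lit 22) (nat_lit 1) (nat_lit 380) (nat_lit 372) (nat_lit 328)) (XT.lf (nat_lit 84) (nat_lit 1159014918) (nat_lit 0) (nat_lit 219753152) (nat_lit 168) (nat_lit 1204183343) (nat_lit 20) (nat_lit 1) (nat_lit 19) (nat_lit 1) (nat_lit 21) (nat_lit 1) (nat_lit 381) (nat_lit 372) (nat_lit 327))) (XT.nd (nat_lit 94) (nat_lit 252) (nat_lit 0) (XT.lf (nat_lit 168) (nat_lit 1068152493) (nat_lit 0) (nat_lit 1435412762) (nat_lit 84) (nat_lit 12158641) (nat_lit 20) (nat_lit 1) (nat_lit 18) (nat_lit 1) (nat_lit 19) (nat_lit 1) (nat_lit 382) (nat_lit 372) (nat_lit 326)) (XT.nd (nat_lit 94) (nat_lit 84) (nat_lit 0) (XT.lf (nat_lit 84) (nat_lit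 1298207844) (nat_lit 0) (nat_lit 189561068) (nat_lit 168) (nat_lit 962465608) (nat_lit 17) (nat_lit 1) (nat_lit 16) (nat_lit 1) (nat_lit 18) (nat_lit 1) (nat_lit 383) (nat_lit 372) (nat_lit 325)) (XT.lf (nat_lit 0) (nat_lit 174525489) (nat_lit 0) (nat_lit 1365941539) (nat_lit 168) (nat_lit 846182805) (nat_lit 15) (nat_lit 3) (nat_lit 15) (nat_lit 1) (nat_lit 17) (nat_lit 1) (nat_lit 384) (nat_lit 372) (nat_lit 324))))) (XT.nd (nat_lit 188) (nat_lit 420) (nat_lit 0) (XT.nd (nat_lit 94) (nat_lit 84) (nat_lit 0) (XT.lf (nat_lit 84) (nat_lit 1411088390) (nat_lit 0) (nat_lit 180409246) (nat_lit 168) (nat_lit 733324053) (nat_lit 14) (nat_lit 1) (nat_lit 13) (nat_lit 1) (nat_lit 15) (nat_lit 1) (nat_lit 385) (nat_lit 372) (nat_lit 323)) (XT.lf (nat_lit 0) (nat_lit 333408252) (nat_lit 0) (nat_lit 1306215137) (nat_lit 168) (nat_lit 625016777) (nat_lit 12) (nat_lit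 3) (nat_lit 12) (nat_lit 1) (nat_lit 14) (nat_lit 1) (nat_lit 386) (nat_lit 372) (nat_lit 322))) (XT.nd (nat_lit 94) (nat_lit 252) (nat_lit 0) (XT.lf (nat_lit 84) (nat_lit 1501645706) (nat_lit 0) (nat_lit 186823360) (nat_lit 168) (nat_lit 517759228) (nat_lit 11) (nat_lit 1) (nat_lit 10) (nat_lit 1) (nat_lit 12) (nat_lit 1) (nat_lit 387) (nat_lit 372) (nat_lit 321)) (XT.nd (nat_lit 94) (nat_lit 168) (nat_lit 0) (XT.lf (nat_lit 0) (nat_lit 468734897) (nat_lit 0) (nat_lit 1263044524) (nat_lit 168) (nat_lit 417460575) (nat_lit 9) (nat_lit 3) (nat_lit 9) (nat_lit 1) (nat_lit 11) (nat_lit 1) (nat_lit 388) (nat_lit 372) (nat_lit 320)) (XT.lf (nat_lit 84) (nat_lit 1573224902) (nat_lit 0) (nat_lit 204458362) (nat_lit 168) (nat_lit 316332232) (nat_lit 8) (nat_lit 1) (nat_lit 7) (nat_lit 1) (nat_lit 9) (nat_lit 1) (nat_lit 389) (nat_lit 372) (nat_lit 319))))))))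
noncomputable def ec55 : XT := (XT.nd (nat_lit 1786) (nat_lit 0) (nat_lit 0) (XT.nd (nat_lit 846) (nat_lit 0) (nat_lit 0) (XT.nd (nat_lit 376) (nat_lit 0) (nat_lit 0) (XT.nd (nat_lit 188) (nat_lit 336) (nat_lit 0) (XT.nd (nat_lit 94) (nat_lit 168) (nat_lit 0) (XT.lf (nat_lit 0) (nat_lit 583756509) (nat_lit 0) (nat_lit 1232320774) (nat_lit 168) (nat_lit 223950835) (nat_lit 6) (nat_lit 3) (nat_lit 6) (nat_lit 1) (nat_lit 8) (nat_lit 1) (nat_lit 390) (nat_lit 372) (nat_lit 318)) (XT.lf (nat_lit 84) (nat_lit 1628638402) (nat_lit 0) (nat_lit 229882708) (nat_lit 168) (nat_lit 129262915) (nat_lit 5) (nat_lit 1) (nat_lit 4) (nat_lit 1) (nat_lit 6) (nat_lit 1) (nat_lit 391) (nat_lit 372) (nat_lit 317))) (XT.nd (nat_lit 94) (nat_lit 252) (nat_lit 0) (XT.lf (nat_lit 0) (nat_lit 681222728) (nat_lit 0) (nat_lit 1210783987) (nat_lit 168) (nat_lit 44614000) (nat_lit 3) (nat_lit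 3) (nat_lit 3) (nat_lit 1) (nat_lit 5) (nat_lit 1) (nat_lit 392) (nat_lit 372) (nat_lit 316)) (XT.lf (nat_lit 0) (nat_lit 2737502629) (nat_lit 0) (nat_lit 0) (nat_lit 0) (nat_lit 0) (nat_lit 0) (nat_lit 0) (nat_lit 1) (nat_lit 0) (nat_lit 1) (nat_lit 0) (nat_lit 393) (nat_lit 372) (nat_lit 315)))) (XT.nd (nat_lit 188) (nat_lit 0) (nat_lit 0) (XT.nd (nat_lit 94) (nat_lit 0) (nat_lit 0) (XT.lf (nat_lit 0) (nat_lit 2735010921) (nat_lit 0) (nat_lit 0) (nat_lit 0) (nat_lit 0) (nat_lit 0) (nat_lit 0) (nat_lit 1) (nat_lit 0) (nat_lit 1) (nat_lit 0) (nat_lit 394) (nat_lit 372) (nat_lit 314)) (XT.lf (nat_lit 0) (nat_lit 2732703784) (nat_lit 0) (nat_lit 0) (nat_lit 0) (nat_lit 0) (nat_lit 0) (nat_lit 0) (nat_lit 1) (nat_lit 0) (nat_lit 1) (nat_lit 0) (nat_lit 395) (nat_lit 372) (nat_lit 313))) (XT.nd (nat_lit 94) (nat_lit 0) (nat_lit 0) (XT.lf (nat_lit 0) (nat_lit 2730567546)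 (nat_lit 0) (nat_lit 0) (nat_lit 0) (nat_lit 0) (nat_lit 0) (nat_lit 0) (nat_lit 1) (nat_lit 0) (nat_lit 1) (nat_lit 0) (nat_lit 396) (nat_lit 372) (nat_lit 312)) (XT.nd (nat_lit 94) (nat_lit 0) (nat_lit 0) (XT.lf (nat_lit 0) (nat_lit 2728589548) (nat_lit 0) (nat_lit 0) (nat_lit 0) (nat_lit 0) (nat_lit 0) (nat_lit 0) (nat_lit 1) (nat_lit 0) (nat_lit 1) (nat_lit 0) (nat_lit 397) (nat_lit 372) (nat_lit 311)) (XT.lf (nat_lit 0) (nat_lit 2726758069) (nat_lit 0) (nat_lit 0) (nat_lit 0) (nat_lit 0) (nat_lit 0) (nat_lit 0) (nat_lit 1) (nat_lit 0) (nat_lit 1) (nat_lit 0) (nat_lit 398) (nat_lit 372) (nat_lit 310)))))) (XT.nd (nat_lit 470) (nat_lit 0) (nat_lit 0) (XT.nd (nat_lit 188) (nat_lit 0) (nat_lit 0) (XT.nd (nat_lit 94) (nat_lit 0) (nat_lit 0) (XT.lf (nat_lit 0) (nat_lit 2725062254) (nat_lit 0) (nat_lit 0) (nat_lit 0) (nat_lit 0) (nat_lit 0) (nat_lit 0) (nat_lit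 1) (nat_lit 0) (nat_lit 1) (nat_lit 0) (nat_lit 399) (nat_lit 372) (nat_lit 309)) (XT.lf (nat_lit 0) (nat_lit 2723492056) (nat_lit 0) (nat_lit 0) (nat_lit 0) (nat_lit 0) (nat_lit 0) (nat_lit 0) (nat_lit 1) (nat_lit 0) (nat_lit 1) (nat_lit 0) (nat_lit 400) (nat_lit 372) (nat_lit 308))) (XT.nd (nat_lit 94) (nat_lit 0) (nat_lit 0) (XT.lf (nat_lit 0) (nat_lit 2722038168) (nat_lit 0) (nat_lit 0) (nat_lit 0) (nat_lit 0) (nat_lit 0) (nat_lit 0) (nat_lit 1) (nat_lit 0) (nat_lit 1) (nat_lit 0) (nat_lit 401) (nat_lit 372) (nat_lit 307)) (XT.nd (nat_lit 94) (nat_lit 0) (nat_lit 0) (XT.lf (nat_lit 0) (nat_lit 2720691976) (nat_lit 0) (nat_lit 0) (nat_lit 0) (nat_lit 0) (nat_lit 0) (nat_lit 0) (nat_lit 1) (nat_lit 0) (nat_lit 1) (nat_lit 0) (nat_lit 402) (nat_lit 372) (nat_lit 306)) (XT.lf (nat_lit 0) (nat_lit 2719445502) (nat_lit 0) (nat_lit 0) (nat_lit 0) (nat_lit 0)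 (nat_lit 0) (nat_lit 0) (nat_lit 1) (nat_lit 0) (nat_lit 1) (nat_lit 0) (nat_lit 403) (nat_lit 372) (nat_lit 305))))) (XT.nd (nat_lit 188) (nat_lit 0) (nat_lit 0) (XT.nd (nat_lit 94) (nat_lit 0) (nat_lit 0) (XT.lf (nat_lit 0) (nat_lit 2718291359) (nat_lit 0) (nat_lit 0) (nat_lit 0) (nat_lit 0) (nat_lit 0) (nat_lit 0) (nat_lit 1) (nat_lit 0) (nat_lit 1) (nat_lit 0) (nat_lit 404) (nat_lit 372) (nat_lit 304)) (XT.lf (nat_lit 0) (nat_lit 2717222708) (nat_lit 0) (nat_lit 0) (nat_lit 0) (nat_lit 0) (nat_lit 0) (nat_lit 0) (nat_lit 1) (nat_lit 0) (nat_lit 1) (nat_lit 0) (nat_lit 405) (nat_lit 372) (nat_lit 303))) (XT.nd (nat_lit 94) (nat_lit 0) (nat_lit 0) (XT.lf (nat_lit 0) (nat_lit 2716233217) (nat_lit 0) (nat_lit 0) (nat_lit 0) (nat_lit 0) (nat_lit 0) (nat_lit 0) (nat_lit 1) (nat_lit 0) (nat_lit 1) (nat_lit 0) (nat_lit 406) (nat_lit 372) (nat_lit 302)) (XT.nd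 (nat_lit 94) (nat_lit 0) (nat_lit 0) (XT.lf (nat_lit 0) (nat_lit 2715317021) (nat_lit 0) (nat_lit 0) (nat_lit 0) (nat_lit 0) (nat_lit 0) (nat_lit 0) (nat_lit 1) (nat_lit 0) (nat_lit 1) (nat_lit 0) (nat_lit 407) (nat_lit 372) (nat_lit 301)) (XT.lf (nat_lit 0) (nat_lit 2714468692) (nat_lit 0) (nat_lit 0) (nat_lit 0) (nat_lit 0) (nat_lit 0) (nat_lit 0) (nat_lit 1) (nat_lit 0) (nat_lit 1) (nat_lit 0) (nat_lit 408) (nat_lit 372) (nat_lit 300))))))) (XT.nd (nat_lit 846) (nat_lit 0) (nat_lit 0) (XT.nd (nat_lit 376) (nat_lit 0) (nat_lit 0) (XT.nd (nat_lit 188) (nat_lit 0) (nat_lit 0) (XT.nd (nat_lit 94) (nat_lit 0) (nat_lit 0) (XT.lf (nat_lit 0) (nat_lit 2713683201) (nat_lit 0) (nat_lit 0) (nat_lit 0) (nat_lit 0) (nat_lit 0) (nat_lit 0) (nat_lit 1) (nat_lit 0) (nat_lit 1) (nat_lit 0) (nat_lit 409) (nat_lit 372) (nat_lit 299)) (XT.lf (nat_lit 0) (nat_lit 2712955896)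 (nat_lit 0) (nat_lit 0) (nat_lit 0) (nat_lit 0) (nat_lit 0) (nat_lit 0) (nat_lit 1) (nat_lit 0) (nat_lit 1) (nat_lit 0) (nat_lit 410) (nat_lit 372) (nat_lit 298))) (XT.nd (nat_lit 94) (nat_lit 0) (nat_lit 0) (XT.lf (nat_lit 0) (nat_lit 2712282464) (nat_lit 0) (nat_lit 0) (nat_lit 0) (nat_lit 0) (nat_lit 0) (nat_lit 0) (nat_lit 1) (nat_lit 0) (nat_lit 1) (nat_lit 0) (nat_lit 411) (nat_lit 372) (nat_lit 297)) (XT.lf (nat_lit 0) (nat_lit 2711658917) (nat_lit 0) (nat_lit 0) (nat_lit 0) (nat_lit 0) (nat_lit 0) (nat_lit 0) (nat_lit 1) (nat_lit 0) (nat_lit 1) (nat_lit 0) (nat_lit 412) (nat_lit 372) (nat_lit 296)))) (XT.nd (nat_lit 188) (nat_lit 0) (nat_lit 0) (XT.nd (nat_lit 94) (nat_lit 0) (nat_lit 0) (XT.lf (nat_lit 0) (nat_lit 2711081558) (nat_lit 0) (nat_lit 0) (nat_lit 0) (nat_lit 0) (nat_lit 0) (nat_lit 0) (nat_lit 1) (nat_lit 0) (nat_lit 1) (nat_lit 0) (nat_lit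 413) (nat_lit 372) (nat_lit 295)) (XT.lf (nat_lit 0) (nat_lit 2710546967) (nat_lit 0) (nat_lit 0) (nat_lit 0) (nat_lit 0) (nat_lit 0) (nat_lit 0) (nat_lit 1) (nat_lit 0) (nat_lit 1) (nat_lit 0) (nat_lit 414) (nat_lit 372) (nat_lit 294))) (XT.nd (nat_lit 94) (nat_lit 0) (nat_lit 0) (XT.lf (nat_lit 0) (nat_lit 2710051975) (nat_lit 0) (nat_lit 0) (nat_lit 0) (nat_lit 0) (nat_lit 0) (nat_lit 0) (nat_lit 1) (nat_lit 0) (nat_lit 1) (nat_lit 0) (nat_lit 415) (nat_lit 372) (nat_lit 293)) (XT.nd (nat_lit 94) (nat_lit 0) (nat_lit 0) (XT.lf (nat_lit 0) (nat_lit 2709593649) (nat_lit 0) (nat_lit 0) (nat_lit 0) (nat_lit 0) (nat_lit 0) (nat_lit 0) (nat_lit 1) (nat_lit 0) (nat_lit 1) (nat_lit 0) (nat_lit 416) (nat_lit 372) (nat_lit 292)) (XT.lf (nat_lit 0) (nat_lit 2709169273) (nat_lit 0) (nat_lit 0) (nat_lit 0) (nat_lit 0) (nat_lit 0) (nat_lit 0) (nat_lit 1) (nat_lit 0)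 (nat_lit 1) (nat_lit 0) (nat_lit 417) (nat_lit 372) (nat_lit 291)))))) (XT.nd (nat_lit 470) (nat_lit 0) (nat_lit 0) (XT.nd (nat_lit 188) (nat_lit 0) (nat_lit 0) (XT.nd (nat_lit 94) (nat_lit 0) (nat_lit 0) (XT.lf (nat_lit 0) (nat_lit 2708776332) (nat_lit 0) (nat_lit 0) (nat_lit 0) (nat_lit 0) (nat_lit 0) (nat_lit 0) (nat_lit 1) (nat_lit 0) (nat_lit 1) (nat_lit 0) (nat_lit 418) (nat_lit 372) (nat_lit 290)) (XT.lf (nat_lit 0) (nat_lit 2708412498) (nat_lit 0) (nat_lit 0) (nat_lit 0) (nat_lit 0) (nat_lit 0) (nat_lit 0) (nat_lit 1) (nat_lit 0) (nat_lit 1) (nat_lit 0) (nat_lit 419) (nat_lit 372) (nat_lit 289))) (XT.nd (nat_lit 94) (nat_lit 0) (nat_lit 0) (XT.lf (nat_lit 0) (nat_lit 2708075615) (nat_lit 0) (nat_lit 0) (nat_lit 0) (nat_lit 0) (nat_lit 0) (nat_lit 0) (nat_lit 1) (nat_lit 0) (nat_lit 1) (nat_lit 0) (nat_lit 420) (nat_lit 372) (nat_lit 288)) (XT.nd (nat_lit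 94) (nat_lit 0) (nat_lit 0) (XT.lf (nat_lit 0) (nat_lit 2707763686) (nat_lit 0) (nat_lit 0) (nat_lit 0) (nat_lit 0) (nat_lit 0) (nat_lit 0) (nat_lit 1) (nat_lit 0) (nat_lit 1) (nat_lit 0) (nat_lit 421) (nat_lit 372) (nat_lit 287)) (XT.lf (nat_lit 0) (nat_lit 2707474863) (nat_lit 0) (nat_lit 0) (nat_lit 0) (nat_lit 0) (nat_lit 0) (nat_lit 0) (nat_lit 1) (nat_lit 0) (nat_lit 1) (nat_lit 0) (nat_lit 422) (nat_lit 372) (nat_lit 286))))) (XT.nd (nat_lit 188) (nat_lit 0) (nat_lit 0) (XT.nd (nat_lit 94) (nat_lit 0) (nat_lit 0) (XT.lf (nat_lit 0) (nat_lit 2707207434) (nat_lit 0) (nat_lit 0) (nat_lit 0) (nat_lit 0) (nat_lit 0) (nat_lit 0) (nat_lit 1) (nat_lit 0) (nat_lit 1) (nat_lit 0) (nat_lit 423) (nat_lit 372) (nat_lit 285)) (XT.lf (nat_lit 0) (nat_lit 2706959815) (nat_lit 0) (nat_lit 0) (nat_lit 0) (nat_lit 0) (nat_lit 0) (nat_lit 0) (nat_lit 1) (nat_lit 0) (nat_lit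 1) (nat_lit 0) (nat_lit 424) (nat_lit 372) (nat_lit 284))) (XT.nd (nat_lit 94) (nat_lit 0) (nat_lit 0) (XT.lf (nat_lit 0) (nat_lit 2706730538) (nat_lit 0) (nat_lit 0) (nat_lit 0) (nat_lit 0) (nat_lit 0) (nat_lit 0) (nat_lit 1) (nat_lit 0) (nat_lit 1) (nat_lit 0) (nat_lit 425) (nat_lit 372) (nat_lit 283)) (XT.nd (nat_lit 94) (nat_lit 0) (nat_lit 0) (XT.lf (nat_lit 0) (nat_lit 2706518244) (nat_lit 0) (nat_lit 0) (nat_lit 0) (nat_lit 0) (nat_lit 0) (nat_lit 0) (nat_lit 1) (nat_lit 0) (nat_lit 1) (nat_lit 0) (nat_lit 426) (nat_lit 372) (nat_lit 282)) (XT.lf (nat_lit 0) (nat_lit 2706321676) (nat_lit 0) (nat_lit 0) (nat_lit 0) (nat_lit 0) (nat_lit 0) (nat_lit 0) (nat_lit 1) (nat_lit 0) (nat_lit 1) (nat_lit 0) (nat_lit 427) (nat_lit 372) (nat_lit 281))))))))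
noncomputable def ec56 : XT := (XT.nd (nat_lit 60066) (nat_lit 0) (nat_lit 3864) (XT.nd (nat_lit 59220) (nat_lit 0) (nat_lit 8568) (XT.nd (nat_lit 376) (nat_lit 0) (nat_lit 0) (XT.nd (nat_lit 188) (nat_lit 0) (nat_lit 0) (XT.nd (nat_lit 94) (nat_lit 0) (nat_lit 0) (XT.lf (nat_lit 0) (nat_lit 2706139668) (nat_lit 0) (nat_lit 0) (nat_lit 0) (nat_lit 0) (nat_lit 0) (nat_lit 0) (nat_lit 1) (nat_lit 0) (nat_lit 1) (nat_lit 0) (nat_lit 428) (nat_lit 372) (nat_lit 280)) (XT.lf (nat_lit 0) (nat_lit 2705971143) (nat_lit 0) (nat_lit 0) (nat_lit 0) (nat_lit 0) (nat_lit 0) (nat_lit 0) (nat_lit 1) (nat_lit 0) (nat_lit 1) (nat_lit 0) (nat_lit 429) (nat_lit 372) (nat_lit 279))) (XT.nd (nat_lit 94) (nat_lit 0) (nat_lit 0) (XT.lf (nat_lit 0) (nat_lit 2705815101) (nat_lit 0) (nat_lit 0) (nat_lit 0) (nat_lit 0) (nat_lit 0) (nat_lit 0) (nat_lit 1) (nat_lit 0) (nat_lit 1) (nat_lit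 0) (nat_lit 430) (nat_lit 372) (nat_lit 278)) (XT.lf (nat_lit 0) (nat_lit 2705670617) (nat_lit 0) (nat_lit 0) (nat_lit 0) (nat_lit 0) (nat_lit 0) (nat_lit 0) (nat_lit 1) (nat_lit 0) (nat_lit 1) (nat_lit 0) (nat_lit 431) (nat_lit 372) (nat_lit 277)))) (XT.nd (nat_lit 58562) (nat_lit 0) (nat_lit 10752) (XT.nd (nat_lit 94) (nat_lit 0) (nat_lit 0) (XT.lf (nat_lit 0) (nat_lit 2705536836) (nat_lit 0) (nat_lit 0) (nat_lit 0) (nat_lit 0) (nat_lit 0) (nat_lit 0) (nat_lit 1) (nat_lit 0) (nat_lit 1) (nat_lit 0) (nat_lit 432) (nat_lit 372) (nat_lit 276)) (XT.lf (nat_lit 0) (nat_lit 2705412965) (nat_lit 0) (nat_lit 0) (nat_lit 0) (nat_lit 0) (nat_lit 0) (nat_lit 0) (nat_lit 1) (nat_lit 0) (nat_lit 1) (nat_lit 0) (nat_lit 433) (nat_lit 372) (nat_lit 275))) (XT.nd (nat_lit 94) (nat_lit 0) (nat_lit 84) (XT.lf (nat_lit 924) (nat_lit 1461364322) (nat_lit 0) (nat_lit 2594648995)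 (nat_lit 924) (nat_lit 1461364322) (nat_lit 139) (nat_lit 1) (nat_lit 128) (nat_lit 0) (nat_lit 139) (nat_lit 0) (nat_lit 334) (nat_lit 373) (nat_lit 373)) (XT.nd (nat_lit 94) (nat_lit 0) (nat_lit 0) (XT.lf (nat_lit 924) (nat_lit 545133732) (nat_lit 0) (nat_lit 5094082354) (nat_lit 840) (nat_lit 4981995523) (nat_lit 140) (nat_lit 1) (nat_lit 129) (nat_lit 1) (nat_lit 139) (nat_lit 1) (nat_lit 335) (nat_lit 373) (nat_lit 372)) (XT.lf (nat_lit 924) (nat_lit 5006738681) (nat_lit 84) (nat_lit 3411508669) (nat_lit 0) (nat_lit 1809308578) (nat_lit 140) (nat_lit 1) (nat_lit 130) (nat_lit 1) (nat_lit 129) (nat_lit 1) (nat_lit 336) (nat_lit 373) (nat_lit 371)))))) (XT.nd (nat_lit 376) (nat_lit 2352) (nat_lit 0) (XT.nd (nat_lit 188) (nat_lit 0) (nat_lit 168) (XT.nd (nat_lit 94) (nat_lit 0) (nat_lit 84) (XT.lf (nat_lit 924) (nat_lit 4326232378) (nat_lit 84) (nat_lit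 1429739637) (nat_lit 0) (nat_lit 4097627761) (nat_lit 141) (nat_lit 1) (nat_lit 131) (nat_lit 1) (nat_lit 130) (nat_lit 1) (nat_lit 337) (nat_lit 373) (nat_lit 370)) (XT.lf (nat_lit 924) (nat_lit 3201779763) (nat_lit 0) (nat_lit 5990378596) (nat_lit 840) (nat_lit 306227297) (nat_lit 142) (nat_lit 1) (nat_lit 131) (nat_lit 1) (nat_lit 141) (nat_lit 1) (nat_lit 338) (nat_lit 373) (nat_lit 369))) (XT.nd (nat_lit 94) (nat_lit 0) (nat_lit 0) (XT.lf (nat_lit 924) (nat_lit 768235661) (nat_lit 0) (nat_lit 6606056594) (nat_lit 840) (nat_lit 1785843243) (nat_lit 143) (nat_lit 1) (nat_lit 132) (nat_lit 1) (nat_lit 142) (nat_lit 1) (nat_lit 339) (nat_lit 373) (nat_lit 368)) (XT.lf (nat_lit 924) (nat_lit 1476236473) (nat_lit 84) (nat_lit 5741201134) (nat_lit 0) (nat_lit 1620237793) (nat_lit 143) (nat_lit 1) (nat_lit 133) (nat_lit 1) (nat_lit 132) (nat_lit 1) (nat_lit 340)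 (nat_lit 373) (nat_lit 367)))) (XT.nd (nat_lit 188) (nat_lit 1176) (nat_lit 0) (XT.nd (nat_lit 94) (nat_lit 588) (nat_lit 0) (XT.lf (nat_lit 924) (nat_lit 303185309) (nat_lit 0) (nat_lit 4291927613) (nat_lit 840) (nat_lit 3935652651) (nat_lit 134) (nat_lit 1) (nat_lit 123) (nat_lit 1) (nat_lit 133) (nat_lit 1) (nat_lit 341) (nat_lit 373) (nat_lit 366)) (XT.lf (nat_lit 84) (nat_lit 2099318235) (nat_lit 0) (nat_lit 909732285) (nat_lit 588) (nat_lit 5229337110) (nat_lit 117) (nat_lit 1) (nat_lit 116) (nat_lit 1) (nat_lit 123) (nat_lit 1) (nat_lit 342) (nat_lit 373) (nat_lit 365))) (XT.nd (nat_lit 94) (nat_lit 756) (nat_lit 0) (XT.lf (nat_lit 504) (nat_lit 5785456823) (nat_lit 0) (nat_lit 1883290920) (nat_lit 420) (nat_lit 291168412) (nat_lit 117) (nat_lit 1) (nat_lit 111) (nat_lit 1) (nat_lit 116) (nat_lit 1) (nat_lit 343) (nat_lit 373) (nat_lit 364)) (XT.nd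 (nat_lit 94) (nat_lit 336) (nat_lit 0) (XT.lf (nat_lit 504) (nat_lit 4174840736) (nat_lit 0) (nat_lit 877810010) (nat_lit 420) (nat_lit 2640767709) (nat_lit 112) (nat_lit 1) (nat_lit 106) (nat_lit 1) (nat_lit 111) (nat_lit 1) (nat_lit 344) (nat_lit 373) (nat_lit 363)) (XT.lf (nat_lit 420) (nat_lit 2540337342) (nat_lit 0) (nat_lit 16161908) (nat_lit 336) (nat_lit 4883343399) (nat_lit 107) (nat_lit 1) (nat_lit 102) (nat_lit 1) (nat_lit 106) (nat_lit 1) (nat_lit 345) (nat_lit 373) (nat_lit 362))))))) (XT.nd (nat_lit 846) (nat_lit 2100) (nat_lit 0) (XT.nd (nat_lit 376) (nat_lit 1512) (nat_lit 0) (XT.nd (nat_lit 188) (nat_lit 672) (nat_lit 0) (XT.nd (nat_lit 94) (nat_lit 420) (nat_lit 0) (XT.lf (nat_lit 84) (nat_lit 187414083) (nat_lit 0) (nat_lit 6320511027) (nat_lit 420) (nat_lit 690006673) (nat_lit 103) (nat_lit 1) (nat_lit 102) (nat_lit 1) (nat_lit 107) (nat_lit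 1) (nat_lit 346) (nat_lit 373) (nat_lit 361)) (XT.lf (nat_lit 84) (nat_lit 4839080246) (nat_lit 0) (nat_lit 802613236) (nat_lit 420) (nat_lit 1323654993) (nat_lit 98) (nat_lit 1) (nat_lit 97) (nat_lit 1) (nat_lit 102) (nat_lit 1) (nat_lit 347) (nat_lit 373) (nat_lit 360))) (XT.nd (nat_lit 94) (nat_lit 336) (nat_lit 0) (XT.lf (nat_lit 84) (nat_lit 2421114472) (nat_lit 0) (nat_lit 2458546821) (nat_lit 420) (nat_lit 1863380590) (nat_lit 94) (nat_lit 1) (nat_lit 93) (nat_lit 1) (nat_lit 98) (nat_lit 1) (nat_lit 348) (nat_lit 373) (nat_lit 359)) (XT.lf (nat_lit 84) (nat_lit 119500841) (nat_lit 0) (nat_lit 4110652109) (nat_lit 420) (nat_lit 2301107824) (nat_lit 90) (nat_lit 1) (nat_lit 89) (nat_lit 1) (nat_lit 94) (nat_lit 1) (nat_lit 349) (nat_lit 373) (nat_lit 358)))) (XT.nd (nat_lit 188) (nat_lit 840) (nat_lit 0) (XT.nd (nat_lit 94) (nat_lit 420) (nat_lit 0)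 (XT.lf (nat_lit 336) (nat_lit 539659065) (nat_lit 0) (nat_lit 3649455944) (nat_lit 252) (nat_lit 2138665056) (nat_lit 90) (nat_lit 1) (nat_lit 86) (nat_lit 1) (nat_lit 89) (nat_lit 1) (nat_lit 350) (nat_lit 373) (nat_lit 357)) (XT.lf (nat_lit 84) (nat_lit 1864667165) (nat_lit 0) (nat_lit 1278054461) (nat_lit 420) (nat_lit 2989983888) (nat_lit 82) (nat_lit 1) (nat_lit 81) (nat_lit 1) (nat_lit 86) (nat_lit 1) (nat_lit 351) (nat_lit 373) (nat_lit 356))) (XT.nd (nat_lit 94) (nat_lit 588) (nat_lit 0) (XT.lf (nat_lit 336) (nat_lit 2886953282) (nat_lit 0) (nat_lit 2711919478) (nat_lit 252) (nat_lit 347122474) (nat_lit 82) (nat_lit 1) (nat_lit 78) (nat_lit 1) (nat_lit 81) (nat_lit 1) (nat_lit 352) (nat_lit 373) (nat_lit 355)) (XT.nd (nat_lit 94) (nat_lit 336) (nat_lit 0) (XT.lf (nat_lit 336) (nat_lit 925254579) (nat_lit 0) (nat_lit 2334851619) (nat_lit 252) (nat_lit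 2506354085) (nat_lit 79) (nat_lit 1) (nat_lit 75) (nat_lit 1) (nat_lit 78) (nat_lit 1) (nat_lit 353) (nat_lit 373) (nat_lit 354)) (XT.lf (nat_lit 84) (nat_lit 1054566649) (nat_lit 0) (nat_lit 965547411) (nat_lit 336) (nat_lit 3574267695) (nat_lit 72) (nat_lit 1) (nat_lit 71) (nat_lit 1) (nat_lit 75) (nat_lit 1) (nat_lit 354) (nat_lit 373) (nat_lit 353)))))) (XT.nd (nat_lit 470) (nat_lit 924) (nat_lit 0) (XT.nd (nat_lit 188) (nat_lit 756) (nat_lit 0) (XT.nd (nat_lit 94) (nat_lit 168) (nat_lit 0) (XT.lf (nat_lit 336) (nat_lit 2624150696) (nat_lit 0) (nat_lit 1746012629) (nat_lit 252) (nat_lit 1058438596) (nat_lit 72) (nat_lit 1) (nat_lit 68) (nat_lit 1) (nat_lit 71) (nat_lit 1) (nat_lit 355) (nat_lit 373) (nat_lit 352)) (XT.lf (nat_lit 252) (nat_lit 650530832) (nat_lit 0) (nat_lit 1523268665) (nat_lit 168) (nat_lit 3095710613) (nat_lit 69) (nat_lit 1) (nat_lit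 66) (nat_lit 1) (nat_lit 68) (nat_lit 1) (nat_lit 356) (nat_lit 373) (nat_lit 351))) (XT.nd (nat_lit 94) (nat_lit 420) (nat_lit 0) (XT.lf (nat_lit 84) (nat_lit 110204079) (nat_lit 0) (nat_lit 1233207569) (nat_lit 336) (nat_lit 3773173467) (nat_lit 63) (nat_lit 1) (nat_lit 62) (nat_lit 1) (nat_lit 66) (nat_lit 1) (nat_lit 357) (nat_lit 373) (nat_lit 350)) (XT.nd (nat_lit 94) (nat_lit 252) (nat_lit 0) (XT.lf (nat_lit 252) (nat_lit 1890323234) (nat_lit 0) (nat_lit 1181289851) (nat_lit 168) (nat_lit 1896901578) (nat_lit 63) (nat_lit 1) (nat_lit 60) (nat_lit 1) (nat_lit 62) (nat_lit 1) (nat_lit 358) (nat_lit 373) (nat_lit 349)) (XT.lf (nat_lit 84) (nat_lit 1025610390) (nat_lit 0) (nat_lit 47373586) (nat_lit 252) (nat_lit 3753921521) (nat_lit 58) (nat_lit 1) (nat_lit 57) (nat_lit 1) (nat_lit 60) (nat_lit 1) (nat_lit 359) (nat_lit 373) (nat_lit 348))))) (XT.nd (nat_lit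 188) (nat_lit 588) (nat_lit 0) (XT.nd (nat_lit 94) (nat_lit 168) (nat_lit 0) (XT.lf (nat_lit 252) (nat_lit 2803820756) (nat_lit 0) (nat_lit 971586759) (nat_lit 168) (nat_lit 914008126) (nat_lit 58) (nat_lit 1) (nat_lit 55) (nat_lit 1) (nat_lit 57) (nat_lit 1) (nat_lit 360) (nat_lit 373) (nat_lit 347)) (XT.lf (nat_lit 252) (nat_lit 870979083) (nat_lit 0) (nat_lit 903197332) (nat_lit 168) (nat_lit 2783006209) (nat_lit 56) (nat_lit 1) (nat_lit 53) (nat_lit 1) (nat_lit 55) (nat_lit 1) (nat_lit 361) (nat_lit 373) (nat_lit 346))) (XT.nd (nat_lit 94) (nat_lit 336) (nat_lit 0) (XT.lf (nat_lit 252) (nat_lit 3457466869) (nat_lit 0) (nat_lit 862931742) (nat_lit 168) (nat_lit 109472903) (nat_lit 53) (nat_lit 1) (nat_lit 50) (nat_lit 1) (nat_lit 52) (nat_lit 1) (nat_lit 362) (nat_lit 373) (nat_lit 345)) (XT.nd (nat_lit 94) (nat_lit 168) (nat_lit 0) (XT.lf (nat_lit 252)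 (nat_lit 1547401930) (nat_lit 0) (nat_lit 823808879) (nat_lit 168) (nat_lit 1934887168) (nat_lit 51) (nat_lit 1) (nat_lit 48) (nat_lit 1) (nat_lit 50) (nat_lit 1) (nat_lit 363) (nat_lit 373) (nat_lit 344)) (XT.lf (nat_lit 84) (nat_lit 530044904) (nat_lit 0) (nat_lit 291336564) (nat_lit 168) (nat_lit 3366076781) (nat_lit 47) (nat_lit 1) (nat_lit 46) (nat_lit 1) (nat_lit 48) (nat_lit 1) (nat_lit 364) (nat_lit 373) (nat_lit 343))))))))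
noncomputable def ec57 : XT := (XT.nd (nat_lit 1786) (nat_lit 1092) (nat_lit 0) (XT.nd (nat_lit 846) (nat_lit 1260) (nat_lit 0) (XT.nd (nat_lit 376) (nat_lit 924) (nat_lit 0) (XT.nd (nat_lit 188) (nat_lit 336) (nat_lit 0) (XT.nd (nat_lit 94) (nat_lit 84) (nat_lit 0) (XT.lf (nat_lit 252) (nat_lit 2030280325) (nat_lit 0) (nat_lit 812683953) (nat_lit 168) (nat_lit 1228848002) (nat_lit 47) (nat_lit 1) (nat_lit 44) (nat_lit 1) (nat_lit 46) (nat_lit 1) (nat_lit 365) (nat_lit 373) (nat_lit 342)) (XT.lf (nat_lit 168) (nat_lit 218632341) (nat_lit 0) (nat_lit 832644521) (nat_lit 84) (nat_lit 2909455003) (nat_lit 45) (nat_lit 1) (nat_lit 43) (nat_lit 1) (nat_lit 44) (nat_lit 1) (nat_lit 366) (nat_lit 373) (nat_lit 341))) (XT.nd (nat_lit 94) (nat_lit 84) (nat_lit 0) (XT.lf (nat_lit 252) (nat_lit 2360055404) (nat_lit 0) (nat_lit 851573151) (nat_lit 168) (nat_lit 641085726)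 (nat_lit 43) (nat_lit 1) (nat_lit 40) (nat_lit 1) (nat_lit 42) (nat_lit 1) (nat_lit 367) (nat_lit 373) (nat_lit 340)) (XT.lf (nat_lit 168) (nat_lit 593571337) (nat_lit 0) (nat_lit 883414329) (nat_lit 84) (nat_lit 2271351439) (nat_lit 41) (nat_lit 1) (nat_lit 39) (nat_lit 1) (nat_lit 40) (nat_lit 1) (nat_lit 368) (nat_lit 373) (nat_lit 339)))) (XT.nd (nat_lit 188) (nat_lit 588) (nat_lit 0) (XT.nd (nat_lit 94) (nat_lit 84) (nat_lit 0) (XT.lf (nat_lit 252) (nat_lit 2569424343) (nat_lit 0) (nat_lit 926021664) (nat_lit 168) (nat_lit 151968082) (nat_lit 39) (nat_lit 1) (nat_lit 36) (nat_lit 1) (nat_lit 38) (nat_lit 1) (nat_lit 369) (nat_lit 373) (nat_lit 338)) (XT.lf (nat_lit 168) (nat_lit 854230587) (nat_lit 0) (nat_lit 965388712) (nat_lit 84) (nat_lit 1729577249) (nat_lit 37) (nat_lit 1) (nat_lit 35) (nat_lit 1) (nat_lit 36) (nat_lit 1) (nat_lit 370) (nat_lit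 373) (nat_lit 337))) (XT.nd (nat_lit 94) (nat_lit 336) (nat_lit 0) (XT.lf (nat_lit 84) (nat_lit 246564942) (nat_lit 0) (nat_lit 773901630) (nat_lit 252) (nat_lit 2434040907) (nat_lit 33) (nat_lit 1) (nat_lit 32) (nat_lit 1) (nat_lit 35) (nat_lit 1) (nat_lit 371) (nat_lit 373) (nat_lit 336)) (XT.nd (nat_lit 94) (nat_lit 252) (nat_lit 0) (XT.lf (nat_lit 168) (nat_lit 1025153775) (nat_lit 0) (nat_lit 1068161643) (nat_lit 84) (nat_lit 1268854537) (nat_lit 33) (nat_lit 1) (nat_lit 31) (nat_lit 1) (nat_lit 32) (nat_lit 1) (nat_lit 372) (nat_lit 373) (nat_lit 335)) (XT.lf (nat_lit 84) (nat_lit 573418248) (nat_lit 0) (nat_lit 555394347) (nat_lit 252) (nat_lit 2144264803) (nat_lit 29) (nat_lit 1) (nat_lit 28) (nat_lit 1) (nat_lit 31) (nat_lit 1) (nat_lit 373) (nat_lit 373) (nat_lit 334)))))) (XT.nd (nat_lit 470) (nat_lit 672) (nat_lit 0) (XT.nd (nat_lit 188) (nat_lit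 336) (nat_lit 0) (XT.nd (nat_lit 94) (nat_lit 168) (nat_lit 0) (XT.lf (nat_lit 168) (nat_lit 1126133723) (nat_lit 0) (nat_lit 1183610045) (nat_lit 84) (nat_lit 876517355) (nat_lit 29) (nat_lit 1) (nat_lit 27) (nat_lit 1) (nat_lit 28) (nat_lit 1) (nat_lit 374) (nat_lit 373) (nat_lit 333)) (XT.lf (nat_lit 84) (nat_lit 844204258) (nat_lit 0) (nat_lit 402248224) (nat_lit 168) (nat_lit 1855859506) (nat_lit 26) (nat_lit 1) (nat_lit 25) (nat_lit 1) (nat_lit 27) (nat_lit 1) (nat_lit 375) (nat_lit 373) (nat_lit 332))) (XT.nd (nat_lit 94) (nat_lit 252) (nat_lit 0) (XT.lf (nat_lit 168) (nat_lit 1173100117) (nat_lit 0) (nat_lit 1305448851) (nat_lit 84) (nat_lit 542045785) (nat_lit 26) (nat_lit 1) (nat_lit 24) (nat_lit 1) (nat_lit 25) (nat_lit 1) (nat_lit 376) (nat_lit 373) (nat_lit 331)) (XT.nd (nat_lit 94) (nat_lit 84) (nat_lit 0) (XT.lf (nat_lit 84) (nat_lit 1067839894)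 (nat_lit 0) (nat_lit 300082420) (nat_lit 168) (nat_lit 1573468740) (nat_lit 23) (nat_lit 1) (nat_lit 22) (nat_lit 1) (nat_lit 24) (nat_lit 1) (nat_lit 377) (nat_lit 373) (nat_lit 330)) (XT.lf (nat_lit 168) (nat_lit 1178843365) (nat_lit 0) (nat_lit 1428869403) (nat_lit 84) (nat_lit 256684642) (nat_lit 23) (nat_lit 1) (nat_lit 21) (nat_lit 1) (nat_lit 22) (nat_lit 1) (nat_lit 378) (nat_lit 373) (nat_lit 329))))) (XT.nd (nat_lit 188) (nat_lit 420) (nat_lit 0) (XT.nd (nat_lit 94) (nat_lit 84) (nat_lit 0) (XT.lf (nat_lit 84) (nat_lit 1251736112) (nat_lit 0) (nat_lit 237333404) (nat_lit 168) (nat_lit 1300518010) (nat_lit 20) (nat_lit 1) (nat_lit 19) (nat_lit 1) (nat_lit 21) (nat_lit 1) (nat_lit 379) (nat_lit 373) (nat_lit 328)) (XT.lf (nat_lit 168) (nat_lit 1153604692) (nat_lit 0) (nat_lit 1550245783) (nat_lit 84) (nat_lit 13131333) (nat_lit 20) (nat_lit 1) (nat_lit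 18) (nat_lit 1) (nat_lit 19) (nat_lit 1) (nat_lit 380) (nat_lit 373) (nat_lit 327))) (XT.nd (nat_lit 94) (nat_lit 252) (nat_lit 0) (XT.lf (nat_lit 84) (nat_lit 1402064472) (nat_lit 0) (nat_lit 204725954) (nat_lit 168) (nat_lit 1039462857) (nat_lit 17) (nat_lit 1) (nat_lit 16) (nat_lit 1) (nat_lit 18) (nat_lit 1) (nat_lit 381) (nat_lit 373) (nat_lit 326)) (XT.nd (nat_lit 94) (nat_lit 168) (nat_lit 0) (XT.lf (nat_lit 0) (nat_lit 188487529) (nat_lit 0) (nat_lit 1475216862) (nat_lit 168) (nat_lit 913877430) (nat_lit 15) (nat_lit 3) (nat_lit 15) (nat_lit 1) (nat_lit 17) (nat_lit 1) (nat_lit 382) (nat_lit 373) (nat_lit 325)) (XT.lf (nat_lit 84) (nat_lit 1523975461) (nat_lit 0) (nat_lit 194841986) (nat_lit 168) (nat_lit 791989977) (nat_lit 14) (nat_lit 1) (nat_lit 13) (nat_lit 1) (nat_lit 15) (nat_lit 1) (nat_lit 383) (nat_lit 373) (nat_lit 324))))))) (XT.nd (nat_lit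 846) (nat_lit 0) (nat_lit 0) (XT.nd (nat_lit 376) (nat_lit 588) (nat_lit 0) (XT.nd (nat_lit 188) (nat_lit 252) (nat_lit 0) (XT.nd (nat_lit 94) (nat_lit 168) (nat_lit 0) (XT.lf (nat_lit 0) (nat_lit 360080912) (nat_lit 0) (nat_lit 1410712348) (nat_lit 168) (nat_lit 675018119) (nat_lit 12) (nat_lit 3) (nat_lit 12) (nat_lit 1) (nat_lit 14) (nat_lit 1) (nat_lit 384) (nat_lit 373) (nat_lit 323)) (XT.lf (nat_lit 84) (nat_lit 1621777363) (nat_lit 0) (nat_lit 201769228) (nat_lit 168) (nat_lit 559179966) (nat_lit 11) (nat_lit 1) (nat_lit 10) (nat_lit 1) (nat_lit 12) (nat_lit 1) (nat_lit 385) (nat_lit 373) (nat_lit 322))) (XT.nd (nat_lit 94) (nat_lit 168) (nat_lit 0) (XT.lf (nat_lit 0) (nat_lit 506233689) (nat_lit 0) (nat_lit 1364088086) (nat_lit 168) (nat_lit 450857421) (nat_lit 9) (nat_lit 3) (nat_lit 9) (nat_lit 1) (nat_lit 11) (nat_lit 1) (nat_lit 386) (nat_lit 373)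 (nat_lit 321)) (XT.lf (nat_lit 84) (nat_lit 1699082894) (nat_lit 0) (nat_lit 220815031) (nat_lit 168) (nat_lit 341638810) (nat_lit 8) (nat_lit 1) (nat_lit 7) (nat_lit 1) (nat_lit 9) (nat_lit 1) (nat_lit 387) (nat_lit 373) (nat_lit 320)))) (XT.nd (nat_lit 188) (nat_lit 336) (nat_lit 0) (XT.nd (nat_lit 94) (nat_lit 168) (nat_lit 0) (XT.lf (nat_lit 0) (nat_lit 630457030) (nat_lit 0) (nat_lit 1330906436) (nat_lit 168) (nat_lit 241866902) (nat_lit 6) (nat_lit 3) (nat_lit 6) (nat_lit 1) (nat_lit 8) (nat_lit 1) (nat_lit 388) (nat_lit 373) (nat_lit 319)) (XT.lf (nat_lit 84) (nat_lit 1758929474) (nat_lit 0) (nat_lit 248273325) (nat_lit 168) (nat_lit 139603948) (nat_lit 5) (nat_lit 1) (nat_lit 4) (nat_lit 1) (nat_lit 6) (nat_lit 1) (nat_lit 389) (nat_lit 373) (nat_lit 318))) (XT.nd (nat_lit 94) (nat_lit 252) (nat_lit 0) (XT.lf (nat_lit 0) (nat_lit 735720547) (nat_lit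 0) (nat_lit 1307646706) (nat_lit 168) (nat_lit 48183120) (nat_lit 3) (nat_lit 3) (nat_lit 3) (nat_lit 1) (nat_lit 5) (nat_lit 1) (nat_lit 390) (nat_lit 373) (nat_lit 317)) (XT.nd (nat_lit 94) (nat_lit 0) (nat_lit 0) (XT.lf (nat_lit 0) (nat_lit 2956502839) (nat_lit 0) (nat_lit 0) (nat_lit 0) (nat_lit 0) (nat_lit 0) (nat_lit 0) (nat_lit 1) (nat_lit 0) (nat_lit 1) (nat_lit 0) (nat_lit 391) (nat_lit 373) (nat_lit 316)) (XT.lf (nat_lit 0) (nat_lit 2953811795) (nat_lit 0) (nat_lit 0) (nat_lit 0) (nat_lit 0) (nat_lit 0) (nat_lit 0) (nat_lit 1) (nat_lit 0) (nat_lit 1) (nat_lit 0) (nat_lit 392) (nat_lit 373) (nat_lit 315)))))) (XT.nd (nat_lit 470) (nat_lit 0) (nat_lit 0) (XT.nd (nat_lit 188) (nat_lit 0) (nat_lit 0) (XT.nd (nat_lit 94) (nat_lit 0) (nat_lit 0) (XT.lf (nat_lit 0) (nat_lit 2951320087) (nat_lit 0) (nat_lit 0) (nat_lit 0) (nat_lit 0) (nat_lit 0) (nat_lit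 0) (nat_lit 1) (nat_lit 0) (nat_lit 1) (nat_lit 0) (nat_lit 393) (nat_lit 373) (nat_lit 314)) (XT.lf (nat_lit 0) (nat_lit 2949012950) (nat_lit 0) (nat_lit 0) (nat_lit 0) (nat_lit 0) (nat_lit 0) (nat_lit 0) (nat_lit 1) (nat_lit 0) (nat_lit 1) (nat_lit 0) (nat_lit 394) (nat_lit 373) (nat_lit 313))) (XT.nd (nat_lit 94) (nat_lit 0) (nat_lit 0) (XT.lf (nat_lit 0) (nat_lit 2946876712) (nat_lit 0) (nat_lit 0) (nat_lit 0) (nat_lit 0) (nat_lit 0) (nat_lit 0) (nat_lit 1) (nat_lit 0) (nat_lit 1) (nat_lit 0) (nat_lit 395) (nat_lit 373) (nat_lit 312)) (XT.nd (nat_lit 94) (nat_lit 0) (nat_lit 0) (XT.lf (nat_lit 0) (nat_lit 2944898714) (nat_lit 0) (nat_lit 0) (nat_lit 0) (nat_lit 0) (nat_lit 0) (nat_lit 0) (nat_lit 1) (nat_lit 0) (nat_lit 1) (nat_lit 0) (nat_lit 396) (nat_lit 373) (nat_lit 311)) (XT.lf (nat_lit 0) (nat_lit 2943067235) (nat_lit 0) (nat_lit 0) (nat_lit 0)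 (nat_lit 0) (nat_lit 0) (nat_lit 0) (nat_lit 1) (nat_lit 0) (nat_lit 1) (nat_lit 0) (nat_lit 397) (nat_lit 373) (nat_lit 310))))) (XT.nd (nat_lit 188) (nat_lit 0) (nat_lit 0) (XT.nd (nat_lit 94) (nat_lit 0) (nat_lit 0) (XT.lf (nat_lit 0) (nat_lit 2941371420) (nat_lit 0) (nat_lit 0) (nat_lit 0) (nat_lit 0) (nat_lit 0) (nat_lit 0) (nat_lit 1) (nat_lit 0) (nat_lit 1) (nat_lit 0) (nat_lit 398) (nat_lit 373) (nat_lit 309)) (XT.lf (nat_lit 0) (nat_lit 2939801222) (nat_lit 0) (nat_lit 0) (nat_lit 0) (nat_lit 0) (nat_lit 0) (nat_lit 0) (nat_lit 1) (nat_lit 0) (nat_lit 1) (nat_lit 0) (nat_lit 399) (nat_lit 373) (nat_lit 308))) (XT.nd (nat_lit 94) (nat_lit 0) (nat_lit 0) (XT.lf (nat_lit 0) (nat_lit 2938347334) (nat_lit 0) (nat_lit 0) (nat_lit 0) (nat_lit 0) (nat_lit 0) (nat_lit 0) (nat_lit 1) (nat_lit 0) (nat_lit 1) (nat_lit 0) (nat_lit 400) (nat_lit 373) (nat_lit 307))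 (XT.nd (nat_lit 94) (nat_lit 0) (nat_lit 0) (XT.lf (nat_lit 0) (nat_lit 2937001142) (nat_lit 0) (nat_lit 0) (nat_lit 0) (nat_lit 0) (nat_lit 0) (nat_lit 0) (nat_lit 1) (nat_lit 0) (nat_lit 1) (nat_lit 0) (nat_lit 401) (nat_lit 373) (nat_lit 306)) (XT.lf (nat_lit 0) (nat_lit 2935754668) (nat_lit 0) (nat_lit 0) (nat_lit 0) (nat_lit 0) (nat_lit 0) (nat_lit 0) (nat_lit 1) (nat_lit 0) (nat_lit 1) (nat_lit 0) (nat_lit 402) (nat_lit 373) (nat_lit 305))))))))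
noncomputable def ec58 : XT := (XT.nd (nat_lit 1692) (nat_lit 0) (nat_lit 0) (XT.nd (nat_lit 846) (nat_lit 0) (nat_lit 0) (XT.nd (nat_lit 376) (nat_lit 0) (nat_lit 0) (XT.nd (nat_lit 188) (nat_lit 0) (nat_lit 0) (XT.nd (nat_lit 94) (nat_lit 0) (nat_lit 0) (XT.lf (nat_lit 0) (nat_lit 2934600525) (nat_lit 0) (nat_lit 0) (nat_lit 0) (nat_lit 0) (nat_lit 0) (nat_lit 0) (nat_lit 1) (nat_lit 0) (nat_lit 1) (nat_lit 0) (nat_lit 403) (nat_lit 373) (nat_lit 304)) (XT.lf (nat_lit 0) (nat_lit 2933531874) (nat_lit 0) (nat_lit 0) (nat_lit 0) (nat_lit 0) (nat_lit 0) (nat_lit 0) (nat_lit 1) (nat_lit 0) (nat_lit 1) (nat_lit 0) (nat_lit 404) (nat_lit 373) (nat_lit 303))) (XT.nd (nat_lit 94) (nat_lit 0) (nat_lit 0) (XT.lf (nat_lit 0) (nat_lit 2932542383) (nat_lit 0) (nat_lit 0) (nat_lit 0) (nat_lit 0) (nat_lit 0) (nat_lit 0) (nat_lit 1) (nat_lit 0) (nat_lit 1) (nat_lit 0) (nat_lit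 405) (nat_lit 373) (nat_lit 302)) (XT.lf (nat_lit 0) (nat_lit 2931626187) (nat_lit 0) (nat_lit 0) (nat_lit 0) (nat_lit 0) (nat_lit 0) (nat_lit 0) (nat_lit 1) (nat_lit 0) (nat_lit 1) (nat_lit 0) (nat_lit 406) (nat_lit 373) (nat_lit 301)))) (XT.nd (nat_lit 188) (nat_lit 0) (nat_lit 0) (XT.nd (nat_lit 94) (nat_lit 0) (nat_lit 0) (XT.lf (nat_lit 0) (nat_lit 2930777858) (nat_lit 0) (nat_lit 0) (nat_lit 0) (nat_lit 0) (nat_lit 0) (nat_lit 0) (nat_lit 1) (nat_lit 0) (nat_lit 1) (nat_lit 0) (nat_lit 407) (nat_lit 373) (nat_lit 300)) (XT.lf (nat_lit 0) (nat_lit 2929992367) (nat_lit 0) (nat_lit 0) (nat_lit 0) (nat_lit 0) (nat_lit 0) (nat_lit 0) (nat_lit 1) (nat_lit 0) (nat_lit 1) (nat_lit 0) (nat_lit 408) (nat_lit 373) (nat_lit 299))) (XT.nd (nat_lit 94) (nat_lit 0) (nat_lit 0) (XT.lf (nat_lit 0) (nat_lit 2929265062) (nat_lit 0) (nat_lit 0) (nat_lit 0) (nat_lit 0) (nat_lit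 0) (nat_lit 0) (nat_lit 1) (nat_lit 0) (nat_lit 1) (nat_lit 0) (nat_lit 409) (nat_lit 373) (nat_lit 298)) (XT.nd (nat_lit 94) (nat_lit 0) (nat_lit 0) (XT.lf (nat_lit 0) (nat_lit 2928591630) (nat_lit 0) (nat_lit 0) (nat_lit 0) (nat_lit 0) (nat_lit 0) (nat_lit 0) (nat_lit 1) (nat_lit 0) (nat_lit 1) (nat_lit 0) (nat_lit 410) (nat_lit 373) (nat_lit 297)) (XT.lf (nat_lit 0) (nat_lit 2927968083) (nat_lit 0) (nat_lit 0) (nat_lit 0) (nat_lit 0) (nat_lit 0) (nat_lit 0) (nat_lit 1) (nat_lit 0) (nat_lit 1) (nat_lit 0) (nat_lit 411) (nat_lit 373) (nat_lit 296)))))) (XT.nd (nat_lit 376) (nat_lit 0) (nat_lit 0) (XT.nd (nat_lit 188) (nat_lit 0) (nat_lit 0) (XT.nd (nat_lit 94) (nat_lit 0) (nat_lit 0) (XT.lf (nat_lit 0) (nat_lit 2927390724) (nat_lit 0) (nat_lit 0) (nat_lit 0) (nat_lit 0) (nat_lit 0) (nat_lit 0) (nat_lit 1) (nat_lit 0) (nat_lit 1) (nat_lit 0) (nat_lit 412)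 (nat_lit 373) (nat_lit 295)) (XT.lf (nat_lit 0) (nat_lit 2926856133) (nat_lit 0) (nat_lit 0) (nat_lit 0) (nat_lit 0) (nat_lit 0) (nat_lit 0) (nat_lit 1) (nat_lit 0) (nat_lit 1) (nat_lit 0) (nat_lit 413) (nat_lit 373) (nat_lit 294))) (XT.nd (nat_lit 94) (nat_lit 0) (nat_lit 0) (XT.lf (nat_lit 0) (nat_lit 2926361141) (nat_lit 0) (nat_lit 0) (nat_lit 0) (nat_lit 0) (nat_lit 0) (nat_lit 0) (nat_lit 1) (nat_lit 0) (nat_lit 1) (nat_lit 0) (nat_lit 414) (nat_lit 373) (nat_lit 293)) (XT.lf (nat_lit 0) (nat_lit 2925902815) (nat_lit 0) (nat_lit 0) (nat_lit 0) (nat_lit 0) (nat_lit 0) (nat_lit 0) (nat_lit 1) (nat_lit 0) (nat_lit 1) (nat_lit 0) (nat_lit 415) (nat_lit 373) (nat_lit 292)))) (XT.nd (nat_lit 188) (nat_lit 0) (nat_lit 0) (XT.nd (nat_lit 94) (nat_lit 0) (nat_lit 0) (XT.lf (nat_lit 0) (nat_lit 2925478439) (nat_lit 0) (nat_lit 0) (nat_lit 0) (nat_lit 0) (nat_lit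 0) (nat_lit 0) (nat_lit 1) (nat_lit 0) (nat_lit 1) (nat_lit 0) (nat_lit 416) (nat_lit 373) (nat_lit 291)) (XT.lf (nat_lit 0) (nat_lit 2925085498) (nat_lit 0) (nat_lit 0) (nat_lit 0) (nat_lit 0) (nat_lit 0) (nat_lit 0) (nat_lit 1) (nat_lit 0) (nat_lit 1) (nat_lit 0) (nat_lit 417) (nat_lit 373) (nat_lit 290))) (XT.nd (nat_lit 94) (nat_lit 0) (nat_lit 0) (XT.lf (nat_lit 0) (nat_lit 2924721664) (nat_lit 0) (nat_lit 0) (nat_lit 0) (nat_lit 0) (nat_lit 0) (nat_lit 0) (nat_lit 1) (nat_lit 0) (nat_lit 1) (nat_lit 0) (nat_lit 418) (nat_lit 373) (nat_lit 289)) (XT.nd (nat_lit 94) (nat_lit 0) (nat_lit 0) (XT.lf (nat_lit 0) (nat_lit 2924384781) (nat_lit 0) (nat_lit 0) (nat_lit 0) (nat_lit 0) (nat_lit 0) (nat_lit 0) (nat_lit 1) (nat_lit 0) (nat_lit 1) (nat_lit 0) (nat_lit 419) (nat_lit 373) (nat_lit 288)) (XT.lf (nat_lit 0) (nat_lit 2924072852) (nat_lit 0) (nat_lit 0)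 (nat_lit 0) (nat_lit 0) (nat_lit 0) (nat_lit 0) (nat_lit 1) (nat_lit 0) (nat_lit 1) (nat_lit 0) (nat_lit 420) (nat_lit 373) (nat_lit 287))))))) (XT.nd (nat_lit 846) (nat_lit 0) (nat_lit 0) (XT.nd (nat_lit 376) (nat_lit 0) (nat_lit 0) (XT.nd (nat_lit 188) (nat_lit 0) (nat_lit 0) (XT.nd (nat_lit 94) (nat_lit 0) (nat_lit 0) (XT.lf (nat_lit 0) (nat_lit 2923784029) (nat_lit 0) (nat_lit 0) (nat_lit 0) (nat_lit 0) (nat_lit 0) (nat_lit 0) (nat_lit 1) (nat_lit 0) (nat_lit 1) (nat_lit 0) (nat_lit 421) (nat_lit 373) (nat_lit 286)) (XT.lf (nat_lit 0) (nat_lit 2923516600) (nat_lit 0) (nat_lit 0) (nat_lit 0) (nat_lit 0) (nat_lit 0) (nat_lit 0) (nat_lit 1) (nat_lit 0) (nat_lit 1) (nat_lit 0) (nat_lit 422) (nat_lit 373) (nat_lit 285))) (XT.nd (nat_lit 94) (nat_lit 0) (nat_lit 0) (XT.lf (nat_lit 0) (nat_lit 2923268981) (nat_lit 0) (nat_lit 0) (nat_lit 0) (nat_lit 0) (nat_lit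 0) (nat_lit 0) (nat_lit 1) (nat_lit 0) (nat_lit 1) (nat_lit 0) (nat_lit 423) (nat_lit 373) (nat_lit 284)) (XT.lf (nat_lit 0) (nat_lit 2923039704) (nat_lit 0) (nat_lit 0) (nat_lit 0) (nat_lit 0) (nat_lit 0) (nat_lit 0) (nat_lit 1) (nat_lit 0) (nat_lit 1) (nat_lit 0) (nat_lit 424) (nat_lit 373) (nat_lit 283)))) (XT.nd (nat_lit 188) (nat_lit 0) (nat_lit 0) (XT.nd (nat_lit 94) (nat_lit 0) (nat_lit 0) (XT.lf (nat_lit 0) (nat_lit 2922827410) (nat_lit 0) (nat_lit 0) (nat_lit 0) (nat_lit 0) (nat_lit 0) (nat_lit 0) (nat_lit 1) (nat_lit 0) (nat_lit 1) (nat_lit 0) (nat_lit 425) (nat_lit 373) (nat_lit 282)) (XT.lf (nat_lit 0) (nat_lit 2922630842) (nat_lit 0) (nat_lit 0) (nat_lit 0) (nat_lit 0) (nat_lit 0) (nat_lit 0) (nat_lit 1) (nat_lit 0) (nat_lit 1) (nat_lit 0) (nat_lit 426) (nat_lit 373) (nat_lit 281))) (XT.nd (nat_lit 94) (nat_lit 0) (nat_lit 0) (XT.lf (nat_lit 0)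 (nat_lit 2922448834) (nat_lit 0) (nat_lit 0) (nat_lit 0) (nat_lit 0) (nat_lit 0) (nat_lit 0) (nat_lit 1) (nat_lit 0) (nat_lit 1) (nat_lit 0) (nat_lit 427) (nat_lit 373) (nat_lit 280)) (XT.nd (nat_lit 94) (nat_lit 0) (nat_lit 0) (XT.lf (nat_lit 0) (nat_lit 2922280309) (nat_lit 0) (nat_lit 0) (nat_lit 0) (nat_lit 0) (nat_lit 0) (nat_lit 0) (nat_lit 1) (nat_lit 0) (nat_lit 1) (nat_lit 0) (nat_lit 428) (nat_lit 373) (nat_lit 279)) (XT.lf (nat_lit 0) (nat_lit 2922124267) (nat_lit 0) (nat_lit 0) (nat_lit 0) (nat_lit 0) (nat_lit 0) (nat_lit 0) (nat_lit 1) (nat_lit 0) (nat_lit 1) (nat_lit 0) (nat_lit 429) (nat_lit 373) (nat_lit 278)))))) (XT.nd (nat_lit 58656) (nat_lit 0) (nat_lit 10836) (XT.nd (nat_lit 188) (nat_lit 0) (nat_lit 0) (XT.nd (nat_lit 94) (nat_lit 0) (nat_lit 0) (XT.lf (nat_lit 0) (nat_lit 2921979783) (nat_lit 0) (nat_lit 0) (nat_lit 0) (nat_lit 0) (nat_lit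 0) (nat_lit 0) (nat_lit 1) (nat_lit 0) (nat_lit 1) (nat_lit 0) (nat_lit 430) (nat_lit 373) (nat_lit 277)) (XT.lf (nat_lit 0) (nat_lit 2921846002) (nat_lit 0) (nat_lit 0) (nat_lit 0) (nat_lit 0) (nat_lit 0) (nat_lit 0) (nat_lit 1) (nat_lit 0) (nat_lit 1) (nat_lit 0) (nat_lit 431) (nat_lit 373) (nat_lit 276))) (XT.nd (nat_lit 94) (nat_lit 0) (nat_lit 0) (XT.lf (nat_lit 0) (nat_lit 2921722131) (nat_lit 0) (nat_lit 0) (nat_lit 0) (nat_lit 0) (nat_lit 0) (nat_lit 0) (nat_lit 1) (nat_lit 0) (nat_lit 1) (nat_lit 0) (nat_lit 432) (nat_lit 373) (nat_lit 275)) (XT.nd (nat_lit 58280) (nat_lit 0) (nat_lit 10752) (XT.lf (nat_lit 0) (nat_lit 2921607435) (nat_lit 0) (nat_lit 0) (nat_lit 0) (nat_lit 0) (nat_lit 0) (nat_lit 0) (nat_lit 1) (nat_lit 0) (nat_lit 1) (nat_lit 0) (nat_lit 433) (nat_lit 373) (nat_lit 274)) (XT.lf (nat_lit 924) (nat_lit 1578273468) (nat_lit 0) (nat_lit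 2802220914) (nat_lit 924) (nat_lit 1578273468) (nat_lit 139) (nat_lit 1) (nat_lit 128) (nat_lit 0) (nat_lit 139) (nat_lit 0) (nat_lit 332) (nat_lit 374) (nat_lit 374))))) (XT.nd (nat_lit 188) (nat_lit 0) (nat_lit 84) (XT.nd (nat_lit 94) (nat_lit 0) (nat_lit 0) (XT.lf (nat_lit 924) (nat_lit 588744431) (nat_lit 0) (nat_lit 5501608942) (nat_lit 840) (nat_lit 5380555165) (nat_lit 140) (nat_lit 1) (nat_lit 129) (nat_lit 1) (nat_lit 139) (nat_lit 1) (nat_lit 333) (nat_lit 374) (nat_lit 373)) (XT.lf (nat_lit 924) (nat_lit 5407277775) (nat_lit 84) (nat_lit 3684429363) (nat_lit 0) (nat_lit 1954053264) (nat_lit 140) (nat_lit 1) (nat_lit 130) (nat_lit 1) (nat_lit 129) (nat_lit 1) (nat_lit 334) (nat_lit 374) (nat_lit 372))) (XT.nd (nat_lit 94) (nat_lit 0) (nat_lit 84) (XT.lf (nat_lit 924) (nat_lit 4672330968) (nat_lit 84) (nat_lit 1544118808) (nat_lit 0) (nat_lit 4425437982)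 (nat_lit 141) (nat_lit 1) (nat_lit 131) (nat_lit 1) (nat_lit 130) (nat_lit 1) (nat_lit 335) (nat_lit 374) (nat_lit 371)) (XT.nd (nat_lit 94) (nat_lit 0) (nat_lit 84) (XT.lf (nat_lit 924) (nat_lit 3457922144) (nat_lit 0) (nat_lit 6469608883) (nat_lit 840) (nat_lit 330725481) (nat_lit 142) (nat_lit 1) (nat_lit 131) (nat_lit 1) (nat_lit 141) (nat_lit 1) (nat_lit 336) (nat_lit 374) (nat_lit 370)) (XT.lf (nat_lit 924) (nat_lit 829694514) (nat_lit 0) (nat_lit 7134541121) (nat_lit 840) (nat_lit 1928710702) (nat_lit 143) (nat_lit 1) (nat_lit 132) (nat_lit 1) (nat_lit 142) (nat_lit 1) (nat_lit 337) (nat_lit 374) (nat_lit 369))))))))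
noncomputable def ec59 : XT := (XT.nd (nat_lit 1786) (nat_lit 3192) (nat_lit 0) (XT.nd (nat_lit 846) (nat_lit 2772) (nat_lit 0) (XT.nd (nat_lit 376) (nat_lit 1512) (nat_lit 0) (XT.nd (nat_lit 188) (nat_lit 1008) (nat_lit 0) (XT.nd (nat_lit 94) (nat_lit 756) (nat_lit 0) (XT.lf (nat_lit 924) (nat_lit 1594335391) (nat_lit 84) (nat_lit 6200497225) (nat_lit 0) (nat_lit 1749856816) (nat_lit 143) (nat_lit 1) (nat_lit 133) (nat_lit 1) (nat_lit 132) (nat_lit 1) (nat_lit 338) (nat_lit 374) (nat_lit 368)) (XT.lf (nat_lit 924) (nat_lit 327440133) (nat_lit 0) (nat_lit 4635281823) (nat_lit 840) (nat_lit 4250504863) (nat_lit 134) (nat_lit 1) (nat_lit 123) (nat_lit 1) (nat_lit 133) (nat_lit 1) (nat_lit 339) (nat_lit 374) (nat_lit 367))) (XT.nd (nat_lit 94) (nat_lit 420) (nat_lit 0) (XT.lf (nat_lit 84) (nat_lit 2267263694) (nat_lit 0) (nat_lit 982510868) (nat_lit 588) (nat_lit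 5647684079) (nat_lit 117) (nat_lit 1) (nat_lit 116) (nat_lit 1) (nat_lit 123) (nat_lit 1) (nat_lit 340) (nat_lit 374) (nat_lit 366)) (XT.lf (nat_lit 504) (nat_lit 6248293369) (nat_lit 0) (nat_lit 2033954193) (nat_lit 420) (nat_lit 314461886) (nat_lit 117) (nat_lit 1) (nat_lit 111) (nat_lit 1) (nat_lit 116) (nat_lit 1) (nat_lit 341) (nat_lit 374) (nat_lit 365)))) (XT.nd (nat_lit 188) (nat_lit 756) (nat_lit 0) (XT.nd (nat_lit 94) (nat_lit 336) (nat_lit 0) (XT.lf (nat_lit 504) (nat_lit 4508827995) (nat_lit 0) (nat_lit 948034811) (nat_lit 420) (nat_lit 2852029125) (nat_lit 112) (nat_lit 1) (nat_lit 106) (nat_lit 1) (nat_lit 111) (nat_lit 1) (nat_lit 342) (nat_lit 374) (nat_lit 364)) (XT.lf (nat_lit 420) (nat_lit 2743564330) (nat_lit 0) (nat_lit 17454861) (nat_lit 336) (nat_lit 5274010871) (nat_lit 107) (nat_lit 1) (nat_lit 102) (nat_lit 1) (nat_lit 106) (nat_lit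 1) (nat_lit 343) (nat_lit 374) (nat_lit 363))) (XT.nd (nat_lit 94) (nat_lit 756) (nat_lit 0) (XT.lf (nat_lit 84) (nat_lit 202407210) (nat_lit 0) (nat_lit 6826151909) (nat_lit 420) (nat_lit 745207207) (nat_lit 103) (nat_lit 1) (nat_lit 102) (nat_lit 1) (nat_lit 107) (nat_lit 1) (nat_lit 344) (nat_lit 374) (nat_lit 362)) (XT.nd (nat_lit 94) (nat_lit 336) (nat_lit 0) (XT.lf (nat_lit 84) (nat_lit 5226206666) (nat_lit 0) (nat_lit 866822295) (nat_lit 420) (nat_lit 1429547392) (nat_lit 98) (nat_lit 1) (nat_lit 97) (nat_lit 1) (nat_lit 102) (nat_lit 1) (nat_lit 345) (nat_lit 374) (nat_lit 361)) (XT.lf (nat_lit 84) (nat_lit 2614803630) (nat_lit 0) (nat_lit 2655230566) (nat_lit 420) (nat_lit 2012451038) (nat_lit 94) (nat_lit 1) (nat_lit 93) (nat_lit 1) (nat_lit 98) (nat_lit 1) (nat_lit 346) (nat_lit 374) (nat_lit 360)))))) (XT.nd (nat_lit 470) (nat_lit 1260) (nat_lit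 0) (XT.nd (nat_lit 188) (nat_lit 924) (nat_lit 0) (XT.nd (nat_lit 94) (nat_lit 252) (nat_lit 0) (XT.lf (nat_lit 84) (nat_lit 129060908) (nat_lit 0) (nat_lit 4439504277) (nat_lit 420) (nat_lit 2485196450) (nat_lit 90) (nat_lit 1) (nat_lit 89) (nat_lit 1) (nat_lit 94) (nat_lit 1) (nat_lit 347) (nat_lit 374) (nat_lit 359)) (XT.lf (nat_lit 336) (nat_lit 582831791) (nat_lit 0) (nat_lit 3941412419) (nat_lit 252) (nat_lit 2309758261) (nat_lit 90) (nat_lit 1) (nat_lit 86) (nat_lit 1) (nat_lit 89) (nat_lit 1) (nat_lit 348) (nat_lit 374) (nat_lit 358))) (XT.nd (nat_lit 94) (nat_lit 504) (nat_lit 0) (XT.lf (nat_lit 84) (nat_lit 2013840538) (nat_lit 0) (nat_lit 1380298818) (nat_lit 420) (nat_lit 3229182600) (nat_lit 82) (nat_lit 1) (nat_lit 81) (nat_lit 1) (nat_lit 86) (nat_lit 1) (nat_lit 349) (nat_lit 374) (nat_lit 357)) (XT.nd (nat_lit 94) (nat_lit 252) (nat_lit 0)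 (XT.lf (nat_lit 336) (nat_lit 3117909544) (nat_lit 0) (nat_lit 2928873037) (nat_lit 252) (nat_lit 374892272) (nat_lit 82) (nat_lit 1) (nat_lit 78) (nat_lit 1) (nat_lit 81) (nat_lit 1) (nat_lit 350) (nat_lit 374) (nat_lit 356)) (XT.lf (nat_lit 336) (nat_lit 999274946) (nat_lit 0) (nat_lit 2521639748) (nat_lit 252) (nat_lit 2706862411) (nat_lit 79) (nat_lit 1) (nat_lit 75) (nat_lit 1) (nat_lit 78) (nat_lit 1) (nat_lit 351) (nat_lit 374) (nat_lit 355))))) (XT.nd (nat_lit 188) (nat_lit 672) (nat_lit 0) (XT.nd (nat_lit 94) (nat_lit 252) (nat_lit 0) (XT.lf (nat_lit 84) (nat_lit 1138931981) (nat_lit 0) (nat_lit 1042791204) (nat_lit 336) (nat_lit 3860209111) (nat_lit 72) (nat_lit 1) (nat_lit 71) (nat_lit 1) (nat_lit 75) (nat_lit 1) (nat_lit 352) (nat_lit 374) (nat_lit 354)) (XT.lf (nat_lit 336) (nat_lit 2834082752) (nat_lit 0) (nat_lit 1885693640) (nat_lit 252) (nat_lit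 1143113684) (nat_lit 72) (nat_lit 1) (nat_lit 68) (nat_lit 1) (nat_lit 71) (nat_lit 1) (nat_lit 353) (nat_lit 374) (nat_lit 353))) (XT.nd (nat_lit 94) (nat_lit 504) (nat_lit 0) (XT.lf (nat_lit 252) (nat_lit 702573298) (nat_lit 0) (nat_lit 1645130158) (nat_lit 168) (nat_lit 3343367462) (nat_lit 69) (nat_lit 1) (nat_lit 66) (nat_lit 1) (nat_lit 68) (nat_lit 1) (nat_lit 354) (nat_lit 374) (nat_lit 352)) (XT.nd (nat_lit 94) (nat_lit 168) (nat_lit 0) (XT.lf (nat_lit 84) (nat_lit 119020405) (nat_lit 0) (nat_lit 1331864174) (nat_lit 336) (nat_lit 4075027344) (nat_lit 63) (nat_lit 1) (nat_lit 62) (nat_lit 1) (nat_lit 66) (nat_lit 1) (nat_lit 355) (nat_lit 374) (nat_lit 351)) (XT.lf (nat_lit 252) (nat_lit 2041549093) (nat_lit 0) (nat_lit 1275793039) (nat_lit 168) (nat_lit 2048653705) (nat_lit 63) (nat_lit 1) (nat_lit 60) (nat_lit 1) (nat_lit 62) (nat_lit 1) (nat_lit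 356) (nat_lit 374) (nat_lit 350))))))) (XT.nd (nat_lit 846) (nat_lit 1512) (nat_lit 0) (XT.nd (nat_lit 376) (nat_lit 840) (nat_lit 0) (XT.nd (nat_lit 188) (nat_lit 420) (nat_lit 0) (XT.nd (nat_lit 94) (nat_lit 168) (nat_lit 0) (XT.lf (nat_lit 84) (nat_lit 1107659221) (nat_lit 0) (nat_lit 51163473) (nat_lit 252) (nat_lit 4054235243) (nat_lit 58) (nat_lit 1) (nat_lit 57) (nat_lit 1) (nat_lit 60) (nat_lit 1) (nat_lit 357) (nat_lit 374) (nat_lit 349)) (XT.lf (nat_lit 252) (nat_lit 3028126417) (nat_lit 0) (nat_lit 1049313699) (nat_lit 168) (nat_lit 987128777) (nat_lit 58) (nat_lit 1) (nat_lit 55) (nat_lit 1) (nat_lit 57) (nat_lit 1) (nat_lit 358) (nat_lit 374) (nat_lit 348))) (XT.nd (nat_lit 94) (nat_lit 252) (nat_lit 0) (XT.lf (nat_lit 252) (nat_lit 940657410) (nat_lit 0) (nat_lit 975453118) (nat_lit 168) (nat_lit 3005646705) (nat_lit 56) (nat_lit 1) (nat_lit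 53) (nat_lit 1) (nat_lit 55) (nat_lit 1) (nat_lit 359) (nat_lit 374) (nat_lit 347)) (XT.lf (nat_lit 252) (nat_lit 3734064219) (nat_lit 0) (nat_lit 931966282) (nat_lit 168) (nat_lit 118230735) (nat_lit 53) (nat_lit 1) (nat_lit 50) (nat_lit 1) (nat_lit 52) (nat_lit 1) (nat_lit 360) (nat_lit 374) (nat_lit 346)))) (XT.nd (nat_lit 188) (nat_lit 504) (nat_lit 0) (XT.nd (nat_lit 94) (nat_lit 168) (nat_lit 0) (XT.lf (nat_lit 252) (nat_lit 1671194085) (nat_lit 0) (nat_lit 889713590) (nat_lit 168) (nat_lit 2089678142) (nat_lit 51) (nat_lit 1) (nat_lit 48) (nat_lit 1) (nat_lit 50) (nat_lit 1) (nat_lit 361) (nat_lit 374) (nat_lit 345)) (XT.lf (nat_lit 84) (nat_lit 572448497) (nat_lit 0) (nat_lit 314643489) (nat_lit 168) (nat_lit 3635362923) (nat_lit 47) (nat_lit 1) (nat_lit 46) (nat_lit 1) (nat_lit 48) (nat_lit 1) (nat_lit 362) (nat_lit 374) (nat_lit 344))) (XT.nd (nat_lit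 94) (nat_lit 336) (nat_lit 0) (XT.lf (nat_lit 252) (nat_lit 2192702751) (nat_lit 0) (nat_lit 877698669) (nat_lit 168) (nat_lit 1327155842) (nat_lit 47) (nat_lit 1) (nat_lit 44) (nat_lit 1) (nat_lit 46) (nat_lit 1) (nat_lit 363) (nat_lit 374) (nat_lit 343)) (XT.nd (nat_lit 94) (nat_lit 252) (nat_lit 0) (XT.lf (nat_lit 168) (nat_lit 236122928) (nat_lit 0) (nat_lit 899256083) (nat_lit 84) (nat_lit 3142211404) (nat_lit 45) (nat_lit 1) (nat_lit 43) (nat_lit 1) (nat_lit 44) (nat_lit 1) (nat_lit 364) (nat_lit 374) (nat_lit 342)) (XT.lf (nat_lit 252) (nat_lit 2548859836) (nat_lit 0) (nat_lit 919699003) (nat_lit 168) (nat_lit 692372584) (nat_lit 43) (nat_lit 1) (nat_lit 40) (nat_lit 1) (nat_lit 42) (nat_lit 1) (nat_lit 365) (nat_lit 374) (nat_lit 341)))))) (XT.nd (nat_lit 470) (nat_lit 756) (nat_lit 0) (XT.nd (nat_lit 188) (nat_lit 420) (nat_lit 0) (XT.nd (nat_lit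 94) (nat_lit 252) (nat_lit 0) (XT.lf (nat_lit 168) (nat_lit 641057044) (nat_lit 0) (nat_lit 954087476) (nat_lit 84) (nat_lit 2453059555) (nat_lit 41) (nat_lit 1) (nat_lit 39) (nat_lit 1) (nat_lit 40) (nat_lit 1) (nat_lit 366) (nat_lit 374) (nat_lit 340)) (XT.lf (nat_lit 252) (nat_lit 2774978290) (nat_lit 0) (nat_lit 1000103397) (nat_lit 168) (nat_lit 164125528) (nat_lit 39) (nat_lit 1) (nat_lit 36) (nat_lit 1) (nat_lit 38) (nat_lit 1) (nat_lit 367) (nat_lit 374) (nat_lit 339))) (XT.nd (nat_lit 94) (nat_lit 336) (nat_lit 0) (XT.lf (nat_lit 168) (nat_lit 922569034) (nat_lit 0) (nat_lit 1042619809) (nat_lit 84) (nat_lit 1867943429) (nat_lit 37) (nat_lit 1) (nat_lit 35) (nat_lit 1) (nat_lit 36) (nat_lit 1) (nat_lit 368) (nat_lit 374) (nat_lit 338)) (XT.nd (nat_lit 94) (nat_lit 84) (nat_lit 0) (XT.lf (nat_lit 84) (nat_lit 266290138) (nat_lit 0) (nat_lit 835813761)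 (nat_lit 252) (nat_lit 2628764180) (nat_lit 33) (nat_lit 1) (nat_lit 32) (nat_lit 1) (nat_lit 35) (nat_lit 1) (nat_lit 369) (nat_lit 374) (nat_lit 337)) (XT.lf (nat_lit 168) (nat_lit 1107166078) (nat_lit 0) (nat_lit 1153614574) (nat_lit 84) (nat_lit 1370362900) (nat_lit 33) (nat_lit 1) (nat_lit 31) (nat_lit 1) (nat_lit 32) (nat_lit 1) (nat_lit 370) (nat_lit 374) (nat_lit 336))))) (XT.nd (nat_lit 188) (nat_lit 420) (nat_lit 0) (XT.nd (nat_lit 94) (nat_lit 84) (nat_lit 0) (XT.lf (nat_lit 84) (nat_lit 619291708) (nat_lit 0) (nat_lit 599825895) (nat_lit 252) (nat_lit 2315805988) (nat_lit 29) (nat_lit 1) (nat_lit 28) (nat_lit 1) (nat_lit 31) (nat_lit 1) (nat_lit 371) (nat_lit 374) (nat_lit 335)) (XT.lf (nat_lit 168) (nat_lit 1216224421) (nat_lit 0) (nat_lit 1278298848) (nat_lit 84) (nat_lit 946638744) (nat_lit 29) (nat_lit 1) (nat_lit 27) (nat_lit 1) (nat_lit 28)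 (nat_lit 1) (nat_lit 372) (nat_lit 374) (nat_lit 334))) (XT.nd (nat_lit 94) (nat_lit 252) (nat_lit 0) (XT.lf (nat_lit 84) (nat_lit 911740599) (nat_lit 0) (nat_lit 434428082) (nat_lit 168) (nat_lit 2004328267) (nat_lit 26) (nat_lit 1) (nat_lit 25) (nat_lit 1) (nat_lit 27) (nat_lit 1) (nat_lit 373) (nat_lit 374) (nat_lit 333)) (XT.nd (nat_lit 94) (nat_lit 168) (nat_lit 0) (XT.lf (nat_lit 168) (nat_lit 1266948126) (nat_lit 0) (nat_lit 1409884759) (nat_lit 84) (nat_lit 585409448) (nat_lit 26) (nat_lit 1) (nat_lit 24) (nat_lit 1) (nat_lit 25) (nat_lit 1) (nat_lit 374) (nat_lit 374) (nat_lit 332)) (XT.lf (nat_lit 84) (nat_lit 1153267086) (nat_lit 0) (nat_lit 324089013) (nat_lit 168) (nat_lit 1699346239) (nat_lit 23) (nat_lit 1) (nat_lit 22) (nat_lit 1) (nat_lit 24) (nat_lit 1) (nat_lit 375) (nat_lit 374) (nat_lit 331))))))))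
noncomputable def ec60 : XT := (XT.nd (nat_lit 1692) (nat_lit 0) (nat_lit 0) (XT.nd (nat_lit 846) (nat_lit 756) (nat_lit 0) (XT.nd (nat_lit 376) (nat_lit 588) (nat_lit 0) (XT.nd (nat_lit 188) (nat_lit 252) (nat_lit 0) (XT.nd (nat_lit 94) (nat_lit 168) (nat_lit 0) (XT.lf (nat_lit 168) (nat_lit 1273150834) (nat_lit 0) (nat_lit 1543178955) (nat_lit 84) (nat_lit 277219413) (nat_lit 23) (nat_lit 1) (nat_lit 21) (nat_lit 1) (nat_lit 22) (nat_lit 1) (nat_lit 376) (nat_lit 374) (nat_lit 330)) (XT.lf (nat_lit 84) (nat_lit 1351875001) (nat_lit 0) (nat_lit 256320077) (nat_lit 168) (nat_lit 1404559451) (nat_lit 20) (nat_lit 1) (nat_lit 19) (nat_lit 1) (nat_lit 21) (nat_lit 1) (nat_lit 377) (nat_lit 374) (nat_lit 329))) (XT.nd (nat_lit 94) (nat_lit 168) (nat_lit 0) (XT.lf (nat_lit 168) (nat_lit 1245893067) (nat_lit 0) (nat_lit 1674265446) (nat_lit 84) (nat_lit 14181839)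 (nat_lit 20) (nat_lit 1) (nat_lit 18) (nat_lit 1) (nat_lit 19) (nat_lit 1) (nat_lit 378) (nat_lit 374) (nat_lit 328)) (XT.lf (nat_lit 84) (nat_lit 1514229630) (nat_lit 0) (nat_lit 221104030) (nat_lit 168) (nat_lit 1122619886) (nat_lit 17) (nat_lit 1) (nat_lit 16) (nat_lit 1) (nat_lit 18) (nat_lit 1) (nat_lit 379) (nat_lit 374) (nat_lit 327)))) (XT.nd (nat_lit 188) (nat_lit 336) (nat_lit 0) (XT.nd (nat_lit 94) (nat_lit 168) (nat_lit 0) (XT.lf (nat_lit 0) (nat_lit 203566531) (nat_lit 0) (nat_lit 1593234211) (nat_lit 168) (nat_lit 986987624) (nat_lit 15) (nat_lit 3) (nat_lit 15) (nat_lit 1) (nat_lit 17) (nat_lit 1) (nat_lit 380) (nat_lit 374) (nat_lit 326)) (XT.lf (nat_lit 84) (nat_lit 1645893498) (nat_lit 0) (nat_lit 210429345) (nat_lit 168) (nat_lit 855349175) (nat_lit 14) (nat_lit 1) (nat_lit 13) (nat_lit 1) (nat_lit 15) (nat_lit 1) (nat_lit 381) (nat_lit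 374) (nat_lit 325))) (XT.nd (nat_lit 94) (nat_lit 252) (nat_lit 0) (XT.lf (nat_lit 0) (nat_lit 388887385) (nat_lit 0) (nat_lit 1523569336) (nat_lit 168) (nat_lit 729019569) (nat_lit 12) (nat_lit 3) (nat_lit 12) (nat_lit 1) (nat_lit 14) (nat_lit 1) (nat_lit 382) (nat_lit 374) (nat_lit 324)) (XT.nd (nat_lit 94) (nat_lit 84) (nat_lit 0) (XT.lf (nat_lit 84) (nat_lit 1751519552) (nat_lit 0) (nat_lit 217910767) (nat_lit 168) (nat_lit 603914363) (nat_lit 11) (nat_lit 1) (nat_lit 10) (nat_lit 1) (nat_lit 12) (nat_lit 1) (nat_lit 383) (nat_lit 374) (nat_lit 323)) (XT.lf (nat_lit 0) (nat_lit 546732384) (nat_lit 0) (nat_lit 1473215133) (nat_lit 168) (nat_lit 486926015) (nat_lit 9) (nat_lit 3) (nat_lit 9) (nat_lit 1) (nat_lit 11) (nat_lit 1) (nat_lit 384) (nat_lit 374) (nat_lit 322)))))) (XT.nd (nat_lit 376) (nat_lit 252) (nat_lit 0) (XT.nd (nat_lit 188) (nat_lit 252)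 (nat_lit 0) (XT.nd (nat_lit 94) (nat_lit 84) (nat_lit 0) (XT.lf (nat_lit 84) (nat_lit 1835009526) (nat_lit 0) (nat_lit 238480234) (nat_lit 168) (nat_lit 368969915) (nat_lit 8) (nat_lit 1) (nat_lit 7) (nat_lit 1) (nat_lit 9) (nat_lit 1) (nat_lit 385) (nat_lit 374) (nat_lit 321)) (XT.lf (nat_lit 0) (nat_lit 680893593) (nat_lit 0) (nat_lit 1437378951) (nat_lit 168) (nat_lit 261216254) (nat_lit 6) (nat_lit 3) (nat_lit 6) (nat_lit 1) (nat_lit 8) (nat_lit 1) (nat_lit 386) (nat_lit 374) (nat_lit 320))) (XT.nd (nat_lit 94) (nat_lit 84) (nat_lit 0) (XT.lf (nat_lit 84) (nat_lit 1899643832) (nat_lit 0) (nat_lit 268135191) (nat_lit 168) (nat_lit 150772264) (nat_lit 5) (nat_lit 1) (nat_lit 4) (nat_lit 1) (nat_lit 6) (nat_lit 1) (nat_lit 387) (nat_lit 374) (nat_lit 319)) (XT.lf (nat_lit 0) (nat_lit 794578190) (nat_lit 0) (nat_lit 1412258443) (nat_lit 168) (nat_lit 52037769)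 (nat_lit 3) (nat_lit 3) (nat_lit 3) (nat_lit 1) (nat_lit 5) (nat_lit 1) (nat_lit 388) (nat_lit 374) (nat_lit 318)))) (XT.nd (nat_lit 188) (nat_lit 0) (nat_lit 0) (XT.nd (nat_lit 94) (nat_lit 0) (nat_lit 0) (XT.lf (nat_lit 0) (nat_lit 3193023066) (nat_lit 0) (nat_lit 0) (nat_lit 0) (nat_lit 0) (nat_lit 0) (nat_lit 0) (nat_lit 1) (nat_lit 0) (nat_lit 1) (nat_lit 0) (nat_lit 389) (nat_lit 374) (nat_lit 317)) (XT.lf (nat_lit 0) (nat_lit 3190116738) (nat_lit 0) (nat_lit 0) (nat_lit 0) (nat_lit 0) (nat_lit 0) (nat_lit 0) (nat_lit 1) (nat_lit 0) (nat_lit 1) (nat_lit 0) (nat_lit 390) (nat_lit 374) (nat_lit 316))) (XT.nd (nat_lit 94) (nat_lit 0) (nat_lit 0) (XT.lf (nat_lit 0) (nat_lit 3187425694) (nat_lit 0) (nat_lit 0) (nat_lit 0) (nat_lit 0) (nat_lit 0) (nat_lit 0) (nat_lit 1) (nat_lit 0) (nat_lit 1) (nat_lit 0) (nat_lit 391) (nat_lit 374) (nat_lit 315)) (XT.nd (nat_lit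 94) (nat_lit 0) (nat_lit 0) (XT.lf (nat_lit 0) (nat_lit 3184933986) (nat_lit 0) (nat_lit 0) (nat_lit 0) (nat_lit 0) (nat_lit 0) (nat_lit 0) (nat_lit 1) (nat_lit 0) (nat_lit 1) (nat_lit 0) (nat_lit 392) (nat_lit 374) (nat_lit 314)) (XT.lf (nat_lit 0) (nat_lit 3182626849) (nat_lit 0) (nat_lit 0) (nat_lit 0) (nat_lit 0) (nat_lit 0) (nat_lit 0) (nat_lit 1) (nat_lit 0) (nat_lit 1) (nat_lit 0) (nat_lit 393) (nat_lit 374) (nat_lit 313))))))) (XT.nd (nat_lit 846) (nat_lit 0) (nat_lit 0) (XT.nd (nat_lit 376) (nat_lit 0) (nat_lit 0) (XT.nd (nat_lit 188) (nat_lit 0) (nat_lit 0) (XT.nd (nat_lit 94) (nat_lit 0) (nat_lit 0) (XT.lf (nat_lit 0) (nat_lit 3180490611) (nat_lit 0) (nat_lit 0) (nat_lit 0) (nat_lit 0) (nat_lit 0) (nat_lit 0) (nat_lit 1) (nat_lit 0) (nat_lit 1) (nat_lit 0) (nat_lit 394) (nat_lit 374) (nat_lit 312)) (XT.lf (nat_lit 0) (nat_lit 3178512613) (nat_lit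 0) (nat_lit 0) (nat_lit 0) (nat_lit 0) (nat_lit 0) (nat_lit 0) (nat_lit 1) (nat_lit 0) (nat_lit 1) (nat_lit 0) (nat_lit 395) (nat_lit 374) (nat_lit 311))) (XT.nd (nat_lit 94) (nat_lit 0) (nat_lit 0) (XT.lf (nat_lit 0) (nat_lit 3176681134) (nat_lit 0) (nat_lit 0) (nat_lit 0) (nat_lit 0) (nat_lit 0) (nat_lit 0) (nat_lit 1) (nat_lit 0) (nat_lit 1) (nat_lit 0) (nat_lit 396) (nat_lit 374) (nat_lit 310)) (XT.lf (nat_lit 0) (nat_lit 3174985319) (nat_lit 0) (nat_lit 0) (nat_lit 0) (nat_lit 0) (nat_lit 0) (nat_lit 0) (nat_lit 1) (nat_lit 0) (nat_lit 1) (nat_lit 0) (nat_lit 397) (nat_lit 374) (nat_lit 309)))) (XT.nd (nat_lit 188) (nat_lit 0) (nat_lit 0) (XT.nd (nat_lit 94) (nat_lit 0) (nat_lit 0) (XT.lf (nat_lit 0) (nat_lit 3173415121) (nat_lit 0) (nat_lit 0) (nat_lit 0) (nat_lit 0) (nat_lit 0) (nat_lit 0) (nat_lit 1) (nat_lit 0) (nat_lit 1) (nat_lit 0) (nat_lit 398)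 (nat_lit 374) (nat_lit 308)) (XT.lf (nat_lit 0) (nat_lit 3171961233) (nat_lit 0) (nat_lit 0) (nat_lit 0) (nat_lit 0) (nat_lit 0) (nat_lit 0) (nat_lit 1) (nat_lit 0) (nat_lit 1) (nat_lit 0) (nat_lit 399) (nat_lit 374) (nat_lit 307))) (XT.nd (nat_lit 94) (nat_lit 0) (nat_lit 0) (XT.lf (nat_lit 0) (nat_lit 3170615041) (nat_lit 0) (nat_lit 0) (nat_lit 0) (nat_lit 0) (nat_lit 0) (nat_lit 0) (nat_lit 1) (nat_lit 0) (nat_lit 1) (nat_lit 0) (nat_lit 400) (nat_lit 374) (nat_lit 306)) (XT.nd (nat_lit 94) (nat_lit 0) (nat_lit 0) (XT.lf (nat_lit 0) (nat_lit 3169368567) (nat_lit 0) (nat_lit 0) (nat_lit 0) (nat_lit 0) (nat_lit 0) (nat_lit 0) (nat_lit 1) (nat_lit 0) (nat_lit 1) (nat_lit 0) (nat_lit 401) (nat_lit 374) (nat_lit 305)) (XT.lf (nat_lit 0) (nat_lit 3168214424) (nat_lit 0) (nat_lit 0) (nat_lit 0) (nat_lit 0) (nat_lit 0) (nat_lit 0) (nat_lit 1) (nat_lit 0) (nat_lit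 1) (nat_lit 0) (nat_lit 402) (nat_lit 374) (nat_lit 304)))))) (XT.nd (nat_lit 470) (nat_lit 0) (nat_lit 0) (XT.nd (nat_lit 188) (nat_lit 0) (nat_lit 0) (XT.nd (nat_lit 94) (nat_lit 0) (nat_lit 0) (XT.lf (nat_lit 0) (nat_lit 3167145773) (nat_lit 0) (nat_lit 0) (nat_lit 0) (nat_lit 0) (nat_lit 0) (nat_lit 0) (nat_lit 1) (nat_lit 0) (nat_lit 1) (nat_lit 0) (nat_lit 403) (nat_lit 374) (nat_lit 303)) (XT.lf (nat_lit 0) (nat_lit 3166156282) (nat_lit 0) (nat_lit 0) (nat_lit 0) (nat_lit 0) (nat_lit 0) (nat_lit 0) (nat_lit 1) (nat_lit 0) (nat_lit 1) (nat_lit 0) (nat_lit 404) (nat_lit 374) (nat_lit 302))) (XT.nd (nat_lit 94) (nat_lit 0) (nat_lit 0) (XT.lf (nat_lit 0) (nat_lit 3165240086) (nat_lit 0) (nat_lit 0) (nat_lit 0) (nat_lit 0) (nat_lit 0) (nat_lit 0) (nat_lit 1) (nat_lit 0) (nat_lit 1) (nat_lit 0) (nat_lit 405) (nat_lit 374) (nat_lit 301)) (XT.nd (nat_lit 94)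 (nat_lit 0) (nat_lit 0) (XT.lf (nat_lit 0) (nat_lit 3164391757) (nat_lit 0) (nat_lit 0) (nat_lit 0) (nat_lit 0) (nat_lit 0) (nat_lit 0) (nat_lit 1) (nat_lit 0) (nat_lit 1) (nat_lit 0) (nat_lit 406) (nat_lit 374) (nat_lit 300)) (XT.lf (nat_lit 0) (nat_lit 3163606267) (nat_lit 0) (nat_lit 0) (nat_lit 0) (nat_lit 0) (nat_lit 0) (nat_lit 0) (nat_lit 1) (nat_lit 0) (nat_lit 1) (nat_lit 0) (nat_lit 407) (nat_lit 374) (nat_lit 299))))) (XT.nd (nat_lit 188) (nat_lit 0) (nat_lit 0) (XT.nd (nat_lit 94) (nat_lit 0) (nat_lit 0) (XT.lf (nat_lit 0) (nat_lit 3162878961) (nat_lit 0) (nat_lit 0) (nat_lit 0) (nat_lit 0) (nat_lit 0) (nat_lit 0) (nat_lit 1) (nat_lit 0) (nat_lit 1) (nat_lit 0) (nat_lit 408) (nat_lit 374) (nat_lit 298)) (XT.lf (nat_lit 0) (nat_lit 3162205530) (nat_lit 0) (nat_lit 0) (nat_lit 0) (nat_lit 0) (nat_lit 0) (nat_lit 0) (nat_lit 1) (nat_lit 0) (nat_lit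 1) (nat_lit 0) (nat_lit 409) (nat_lit 374) (nat_lit 297))) (XT.nd (nat_lit 94) (nat_lit 0) (nat_lit 0) (XT.lf (nat_lit 0) (nat_lit 3161581982) (nat_lit 0) (nat_lit 0) (nat_lit 0) (nat_lit 0) (nat_lit 0) (nat_lit 0) (nat_lit 1) (nat_lit 0) (nat_lit 1) (nat_lit 0) (nat_lit 410) (nat_lit 374) (nat_lit 296)) (XT.nd (nat_lit 94) (nat_lit 0) (nat_lit 0) (XT.lf (nat_lit 0) (nat_lit 3161004623) (nat_lit 0) (nat_lit 0) (nat_lit 0) (nat_lit 0) (nat_lit 0) (nat_lit 0) (nat_lit 1) (nat_lit 0) (nat_lit 1) (nat_lit 0) (nat_lit 411) (nat_lit 374) (nat_lit 295)) (XT.lf (nat_lit 0) (nat_lit 3160470032) (nat_lit 0) (nat_lit 0) (nat_lit 0) (nat_lit 0) (nat_lit 0) (nat_lit 0) (nat_lit 1) (nat_lit 0) (nat_lit 1) (nat_lit 0) (nat_lit 412) (nat_lit 374) (nat_lit 294))))))))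
noncomputable def ec61 : XT := (XT.nd (nat_lit 1786) (nat_lit 0) (nat_lit 0) (XT.nd (nat_lit 846) (nat_lit 0) (nat_lit 0) (XT.nd (nat_lit 376) (nat_lit 0) (nat_lit 0) (XT.nd (nat_lit 188) (nat_lit 0) (nat_lit 0) (XT.nd (nat_lit 94) (nat_lit 0) (nat_lit 0) (XT.lf (nat_lit 0) (nat_lit 3159975040) (nat_lit 0) (nat_lit 0) (nat_lit 0) (nat_lit 0) (nat_lit 0) (nat_lit 0) (nat_lit 1) (nat_lit 0) (nat_lit 1) (nat_lit 0) (nat_lit 413) (nat_lit 374) (nat_lit 293)) (XT.lf (nat_lit 0) (nat_lit 3159516714) (nat_lit 0) (nat_lit 0) (nat_lit 0) (nat_lit 0) (nat_lit 0) (nat_lit 0) (nat_lit 1) (nat_lit 0) (nat_lit 1) (nat_lit 0) (nat_lit 414) (nat_lit 374) (nat_lit 292))) (XT.nd (nat_lit 94) (nat_lit 0) (nat_lit 0) (XT.lf (nat_lit 0) (nat_lit 3159092338) (nat_lit 0) (nat_lit 0) (nat_lit 0) (nat_lit 0) (nat_lit 0) (nat_lit 0) (nat_lit 1) (nat_lit 0) (nat_lit 1) (nat_lit 0) (nat_lit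 415) (nat_lit 374) (nat_lit 291)) (XT.lf (nat_lit 0) (nat_lit 3158699397) (nat_lit 0) (nat_lit 0) (nat_lit 0) (nat_lit 0) (nat_lit 0) (nat_lit 0) (nat_lit 1) (nat_lit 0) (nat_lit 1) (nat_lit 0) (nat_lit 416) (nat_lit 374) (nat_lit 290)))) (XT.nd (nat_lit 188) (nat_lit 0) (nat_lit 0) (XT.nd (nat_lit 94) (nat_lit 0) (nat_lit 0) (XT.lf (nat_lit 0) (nat_lit 3158335563) (nat_lit 0) (nat_lit 0) (nat_lit 0) (nat_lit 0) (nat_lit 0) (nat_lit 0) (nat_lit 1) (nat_lit 0) (nat_lit 1) (nat_lit 0) (nat_lit 417) (nat_lit 374) (nat_lit 289)) (XT.lf (nat_lit 0) (nat_lit 3157998680) (nat_lit 0) (nat_lit 0) (nat_lit 0) (nat_lit 0) (nat_lit 0) (nat_lit 0) (nat_lit 1) (nat_lit 0) (nat_lit 1) (nat_lit 0) (nat_lit 418) (nat_lit 374) (nat_lit 288))) (XT.nd (nat_lit 94) (nat_lit 0) (nat_lit 0) (XT.lf (nat_lit 0) (nat_lit 3157686751) (nat_lit 0) (nat_lit 0) (nat_lit 0) (nat_lit 0) (nat_lit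 0) (nat_lit 0) (nat_lit 1) (nat_lit 0) (nat_lit 1) (nat_lit 0) (nat_lit 419) (nat_lit 374) (nat_lit 287)) (XT.nd (nat_lit 94) (nat_lit 0) (nat_lit 0) (XT.lf (nat_lit 0) (nat_lit 3157397928) (nat_lit 0) (nat_lit 0) (nat_lit 0) (nat_lit 0) (nat_lit 0) (nat_lit 0) (nat_lit 1) (nat_lit 0) (nat_lit 1) (nat_lit 0) (nat_lit 420) (nat_lit 374) (nat_lit 286)) (XT.lf (nat_lit 0) (nat_lit 3157130499) (nat_lit 0) (nat_lit 0) (nat_lit 0) (nat_lit 0) (nat_lit 0) (nat_lit 0) (nat_lit 1) (nat_lit 0) (nat_lit 1) (nat_lit 0) (nat_lit 421) (nat_lit 374) (nat_lit 285)))))) (XT.nd (nat_lit 470) (nat_lit 0) (nat_lit 0) (XT.nd (nat_lit 188) (nat_lit 0) (nat_lit 0) (XT.nd (nat_lit 94) (nat_lit 0) (nat_lit 0) (XT.lf (nat_lit 0) (nat_lit 3156882880) (nat_lit 0) (nat_lit 0) (nat_lit 0) (nat_lit 0) (nat_lit 0) (nat_lit 0) (nat_lit 1) (nat_lit 0) (nat_lit 1) (nat_lit 0) (nat_lit 422)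 (nat_lit 374) (nat_lit 284)) (XT.lf (nat_lit 0) (nat_lit 3156653603) (nat_lit 0) (nat_lit 0) (nat_lit 0) (nat_lit 0) (nat_lit 0) (nat_lit 0) (nat_lit 1) (nat_lit 0) (nat_lit 1) (nat_lit 0) (nat_lit 423) (nat_lit 374) (nat_lit 283))) (XT.nd (nat_lit 94) (nat_lit 0) (nat_lit 0) (XT.lf (nat_lit 0) (nat_lit 3156441309) (nat_lit 0) (nat_lit 0) (nat_lit 0) (nat_lit 0) (nat_lit 0) (nat_lit 0) (nat_lit 1) (nat_lit 0) (nat_lit 1) (nat_lit 0) (nat_lit 424) (nat_lit 374) (nat_lit 282)) (XT.nd (nat_lit 94) (nat_lit 0) (nat_lit 0) (XT.lf (nat_lit 0) (nat_lit 3156244741) (nat_lit 0) (nat_lit 0) (nat_lit 0) (nat_lit 0) (nat_lit 0) (nat_lit 0) (nat_lit 1) (nat_lit 0) (nat_lit 1) (nat_lit 0) (nat_lit 425) (nat_lit 374) (nat_lit 281)) (XT.lf (nat_lit 0) (nat_lit 3156062733) (nat_lit 0) (nat_lit 0) (nat_lit 0) (nat_lit 0) (nat_lit 0) (nat_lit 0) (nat_lit 1) (nat_lit 0) (nat_lit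 1) (nat_lit 0) (nat_lit 426) (nat_lit 374) (nat_lit 280))))) (XT.nd (nat_lit 188) (nat_lit 0) (nat_lit 0) (XT.nd (nat_lit 94) (nat_lit 0) (nat_lit 0) (XT.lf (nat_lit 0) (nat_lit 3155894208) (nat_lit 0) (nat_lit 0) (nat_lit 0) (nat_lit 0) (nat_lit 0) (nat_lit 0) (nat_lit 1) (nat_lit 0) (nat_lit 1) (nat_lit 0) (nat_lit 427) (nat_lit 374) (nat_lit 279)) (XT.lf (nat_lit 0) (nat_lit 3155738166) (nat_lit 0) (nat_lit 0) (nat_lit 0) (nat_lit 0) (nat_lit 0) (nat_lit 0) (nat_lit 1) (nat_lit 0) (nat_lit 1) (nat_lit 0) (nat_lit 428) (nat_lit 374) (nat_lit 278))) (XT.nd (nat_lit 94) (nat_lit 0) (nat_lit 0) (XT.lf (nat_lit 0) (nat_lit 3155593682) (nat_lit 0) (nat_lit 0) (nat_lit 0) (nat_lit 0) (nat_lit 0) (nat_lit 0) (nat_lit 1) (nat_lit 0) (nat_lit 1) (nat_lit 0) (nat_lit 429) (nat_lit 374) (nat_lit 277)) (XT.nd (nat_lit 94) (nat_lit 0) (nat_lit 0) (XT.lf (nat_lit 0) (nat_lit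 3155459901) (nat_lit 0) (nat_lit 0) (nat_lit 0) (nat_lit 0) (nat_lit 0) (nat_lit 0) (nat_lit 1) (nat_lit 0) (nat_lit 1) (nat_lit 0) (nat_lit 430) (nat_lit 374) (nat_lit 276)) (XT.lf (nat_lit 0) (nat_lit 3155336030) (nat_lit 0) (nat_lit 0) (nat_lit 0) (nat_lit 0) (nat_lit 0) (nat_lit 0) (nat_lit 1) (nat_lit 0) (nat_lit 1) (nat_lit 0) (nat_lit 431) (nat_lit 374) (nat_lit 275))))))) (XT.nd (nat_lit 58750) (nat_lit 0) (nat_lit 7476) (XT.nd (nat_lit 58280) (nat_lit 0) (nat_lit 10836) (XT.nd (nat_lit 188) (nat_lit 0) (nat_lit 0) (XT.nd (nat_lit 94) (nat_lit 0) (nat_lit 0) (XT.lf (nat_lit 0) (nat_lit 3155221334) (nat_lit 0) (nat_lit 0) (nat_lit 0) (nat_lit 0) (nat_lit 0) (nat_lit 0) (nat_lit 1) (nat_lit 0) (nat_lit 1) (nat_lit 0) (nat_lit 432) (nat_lit 374) (nat_lit 274)) (XT.lf (nat_lit 0) (nat_lit 3155115135) (nat_lit 0) (nat_lit 0) (nat_lit 0) (nat_lit 0) (nat_lit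 0) (nat_lit 0) (nat_lit 1) (nat_lit 0) (nat_lit 1) (nat_lit 0) (nat_lit 433) (nat_lit 374) (nat_lit 273))) (XT.nd (nat_lit 57998) (nat_lit 0) (nat_lit 10752) (XT.lf (nat_lit 0) (nat_lit 3155016802) (nat_lit 0) (nat_lit 0) (nat_lit 0) (nat_lit 0) (nat_lit 0) (nat_lit 0) (nat_lit 1) (nat_lit 0) (nat_lit 1) (nat_lit 0) (nat_lit 434) (nat_lit 374) (nat_lit 272)) (XT.lf (nat_lit 924) (nat_lit 1704535345) (nat_lit 0) (nat_lit 3026398588) (nat_lit 924) (nat_lit 1704535345) (nat_lit 139) (nat_lit 1) (nat_lit 128) (nat_lit 0) (nat_lit 139) (nat_lit 0) (nat_lit 330) (nat_lit 375) (nat_lit 375)))) (XT.nd (nat_lit 188) (nat_lit 0) (nat_lit 84) (XT.nd (nat_lit 94) (nat_lit 0) (nat_lit 0) (XT.lf (nat_lit 924) (nat_lit 635843986) (nat_lit 0) (nat_lit 5941737657) (nat_lit 840) (nat_lit 5810999578) (nat_lit 140) (nat_lit 1) (nat_lit 129) (nat_lit 1) (nat_lit 139) (nat_lit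 1) (nat_lit 331) (nat_lit 375) (nat_lit 374)) (XT.lf (nat_lit 924) (nat_lit 5839859997) (nat_lit 84) (nat_lit 3979183712) (nat_lit 0) (nat_lit 2110377526) (nat_lit 140) (nat_lit 1) (nat_lit 130) (nat_lit 1) (nat_lit 129) (nat_lit 1) (nat_lit 332) (nat_lit 375) (nat_lit 373))) (XT.nd (nat_lit 94) (nat_lit 0) (nat_lit 84) (XT.lf (nat_lit 924) (nat_lit 5046117446) (nat_lit 84) (nat_lit 1667648312) (nat_lit 0) (nat_lit 4779473021) (nat_lit 141) (nat_lit 1) (nat_lit 131) (nat_lit 1) (nat_lit 130) (nat_lit 1) (nat_lit 333) (nat_lit 375) (nat_lit 372)) (XT.nd (nat_lit 94) (nat_lit 0) (nat_lit 84) (XT.lf (nat_lit 924) (nat_lit 3734555916) (nat_lit 0) (nat_lit 6987177594) (nat_lit 840) (nat_lit 357183520) (nat_lit 142) (nat_lit 1) (nat_lit 131) (nat_lit 1) (nat_lit 141) (nat_lit 1) (nat_lit 334) (nat_lit 375) (nat_lit 371)) (XT.lf (nat_lit 924) (nat_lit 896070075)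 (nat_lit 0) (nat_lit 7705304411) (nat_lit 840) (nat_lit 2083007558) (nat_lit 143) (nat_lit 1) (nat_lit 132) (nat_lit 1) (nat_lit 142) (nat_lit 1) (nat_lit 335) (nat_lit 375) (nat_lit 370)))))) (XT.nd (nat_lit 470) (nat_lit 1428) (nat_lit 0) (XT.nd (nat_lit 188) (nat_lit 1428) (nat_lit 0) (XT.nd (nat_lit 94) (nat_lit 756) (nat_lit 0) (XT.lf (nat_lit 924) (nat_lit 1721882223) (nat_lit 84) (nat_lit 6696537003) (nat_lit 0) (nat_lit 1889845361) (nat_lit 143) (nat_lit 1) (nat_lit 133) (nat_lit 1) (nat_lit 132) (nat_lit 1) (nat_lit 336) (nat_lit 375) (nat_lit 369)) (XT.lf (nat_lit 924) (nat_lit 353635344) (nat_lit 0) (nat_lit 5006104368) (nat_lit 840) (nat_lit 4590545253) (nat_lit 134) (nat_lit 1) (nat_lit 123) (nat_lit 1) (nat_lit 133) (nat_lit 1) (nat_lit 337) (nat_lit 375) (nat_lit 368))) (XT.nd (nat_lit 94) (nat_lit 840) (nat_lit 0) (XT.lf (nat_lit 84) (nat_lit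 2448644790) (nat_lit 0) (nat_lit 1061111738) (nat_lit 588) (nat_lit 6099498805) (nat_lit 117) (nat_lit 1) (nat_lit 116) (nat_lit 1) (nat_lit 123) (nat_lit 1) (nat_lit 338) (nat_lit 375) (nat_lit 367)) (XT.nd (nat_lit 94) (nat_lit 420) (nat_lit 0) (XT.lf (nat_lit 504) (nat_lit 6748156838) (nat_lit 0) (nat_lit 2196670529) (nat_lit 420) (nat_lit 339618836) (nat_lit 117) (nat_lit 1) (nat_lit 111) (nat_lit 1) (nat_lit 116) (nat_lit 1) (nat_lit 339) (nat_lit 375) (nat_lit 366)) (XT.lf (nat_lit 504) (nat_lit 4869534235) (nat_lit 0) (nat_lit 1023877596) (nat_lit 420) (nat_lit 3080191455) (nat_lit 112) (nat_lit 1) (nat_lit 106) (nat_lit 1) (nat_lit 111) (nat_lit 1) (nat_lit 340) (nat_lit 375) (nat_lit 365))))) (XT.nd (nat_lit 188) (nat_lit 1092) (nat_lit 0) (XT.nd (nat_lit 94) (nat_lit 0) (nat_lit 0) (XT.lf (nat_lit 420) (nat_lit 2963049476) (nat_lit 0) (nat_lit 18851250)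 (nat_lit 336) (nat_lit 5695931740) (nat_lit 107) (nat_lit 1) (nat_lit 102) (nat_lit 1) (nat_lit 106) (nat_lit 1) (nat_lit 341) (nat_lit 375) (nat_lit 364)) (XT.lf (nat_lit 84) (nat_lit 218599787) (nat_lit 0) (nat_lit 7372244062) (nat_lit 420) (nat_lit 804823783) (nat_lit 103) (nat_lit 1) (nat_lit 102) (nat_lit 1) (nat_lit 107) (nat_lit 1) (nat_lit 342) (nat_lit 375) (nat_lit 363))) (XT.nd (nat_lit 94) (nat_lit 672) (nat_lit 0) (XT.lf (nat_lit 84) (nat_lit 5644303199) (nat_lit 0) (nat_lit 936168079) (nat_lit 420) (nat_lit 1543911183) (nat_lit 98) (nat_lit 1) (nat_lit 97) (nat_lit 1) (nat_lit 102) (nat_lit 1) (nat_lit 343) (nat_lit 375) (nat_lit 362)) (XT.nd (nat_lit 94) (nat_lit 336) (nat_lit 0) (XT.lf (nat_lit 84) (nat_lit 2823987921) (nat_lit 0) (nat_lit 2867649012) (nat_lit 420) (nat_lit 2173447121) (nat_lit 94) (nat_lit 1) (nat_lit 93) (nat_lit 1) (nat_lit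 98) (nat_lit 1) (nat_lit 344) (nat_lit 375) (nat_lit 361)) (XT.lf (nat_lit 84) (nat_lit 139385781) (nat_lit 0) (nat_lit 4794664619) (nat_lit 420) (nat_lit 2684012166) (nat_lit 90) (nat_lit 1) (nat_lit 89) (nat_lit 1) (nat_lit 94) (nat_lit 1) (nat_lit 345) (nat_lit 375) (nat_lit 360))))))))
noncomputable def ec62 : XT := (XT.nd (nat_lit 1692) (nat_lit 2604) (nat_lit 0) (XT.nd (nat_lit 846) (nat_lit 1680) (nat_lit 0) (XT.nd (nat_lit 376) (nat_lit 1260) (nat_lit 0) (XT.nd (nat_lit 188) (nat_lit 504) (nat_lit 0) (XT.nd (nat_lit 94) (nat_lit 420) (nat_lit 0) (XT.lf (nat_lit 336) (nat_lit 629458334) (nat_lit 0) (nat_lit 4256725413) (nat_lit 252) (nat_lit 2494538922) (nat_lit 90) (nat_lit 1) (nat_lit 86) (nat_lit 1) (nat_lit 89) (nat_lit 1) (nat_lit 346) (nat_lit 375) (nat_lit 359)) (XT.lf (nat_lit 84) (nat_lit 2174947781) (nat_lit 0) (nat_lit 1490722723) (nat_lit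 420) (nat_lit 3487517208) (nat_lit 82) (nat_lit 1) (nat_lit 81) (nat_lit 1) (nat_lit 86) (nat_lit 1) (nat_lit 347) (nat_lit 375) (nat_lit 358))) (XT.nd (nat_lit 94) (nat_lit 252) (nat_lit 0) (XT.lf (nat_lit 336) (nat_lit 3367342308) (nat_lit 0) (nat_lit 3163182880) (nat_lit 252) (nat_lit 404883654) (nat_lit 82) (nat_lit 1) (nat_lit 78) (nat_lit 1) (nat_lit 81) (nat_lit 1) (nat_lit 348) (nat_lit 375) (nat_lit 357)) (XT.lf (nat_lit 336) (nat_lit 1079216942) (nat_lit 0) (nat_lit 2723370928) (nat_lit 252) (nat_lit 2923411404) (nat_lit 79) (nat_lit 1) (nat_lit 75) (nat_lit 1) (nat_lit 78) (nat_lit 1) (nat_lit 349) (nat_lit 375) (nat_lit 356)))) (XT.nd (nat_lit 188) (nat_lit 672) (nat_lit 0) (XT.nd (nat_lit 94) (nat_lit 252) (nat_lit 0) (XT.lf (nat_lit 84) (nat_lit 1230046540) (nat_lit 0) (nat_lit 1126214501) (nat_lit 336) (nat_lit 4169025840) (nat_lit 72) (nat_lit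 1) (nat_lit 71) (nat_lit 1) (nat_lit 75) (nat_lit 1) (nat_lit 350) (nat_lit 375) (nat_lit 355)) (XT.lf (nat_lit 336) (nat_lit 3060809372) (nat_lit 0) (nat_lit 2036549131) (nat_lit 252) (nat_lit 1234562779) (nat_lit 72) (nat_lit 1) (nat_lit 68) (nat_lit 1) (nat_lit 71) (nat_lit 1) (nat_lit 351) (nat_lit 375) (nat_lit 354))) (XT.nd (nat_lit 94) (nat_lit 504) (nat_lit 0) (XT.lf (nat_lit 252) (nat_lit 758779162) (nat_lit 0) (nat_lit 1776740571) (nat_lit 168) (nat_lit 3610836859) (nat_lit 69) (nat_lit 1) (nat_lit 66) (nat_lit 1) (nat_lit 68) (nat_lit 1) (nat_lit 352) (nat_lit 375) (nat_lit 353)) (XT.nd (nat_lit 94) (nat_lit 168) (nat_lit 0) (XT.lf (nat_lit 84) (nat_lit 128542037) (nat_lit 0) (nat_lit 1438413308) (nat_lit 336) (nat_lit 4401029532) (nat_lit 63) (nat_lit 1) (nat_lit 62) (nat_lit 1) (nat_lit 66) (nat_lit 1) (nat_lit 353) (nat_lit 375) (nat_lit 352))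 (XT.lf (nat_lit 252) (nat_lit 2204873021) (nat_lit 0) (nat_lit 1377856482) (nat_lit 168) (nat_lit 2212546001) (nat_lit 63) (nat_lit 1) (nat_lit 60) (nat_lit 1) (nat_lit 62) (nat_lit 1) (nat_lit 354) (nat_lit 375) (nat_lit 351)))))) (XT.nd (nat_lit 376) (nat_lit 840) (nat_lit 0) (XT.nd (nat_lit 188) (nat_lit 420) (nat_lit 0) (XT.nd (nat_lit 94) (nat_lit 168) (nat_lit 0) (XT.lf (nat_lit 84) (nat_lit 1196271959) (nat_lit 0) (nat_lit 55256551) (nat_lit 252) (nat_lit 4378574063) (nat_lit 58) (nat_lit 1) (nat_lit 57) (nat_lit 1) (nat_lit 60) (nat_lit 1) (nat_lit 355) (nat_lit 375) (nat_lit 350)) (XT.lf (nat_lit 252) (nat_lit 3270376530) (nat_lit 0) (nat_lit 1133258795) (nat_lit 168) (nat_lit 1066099079) (nat_lit 58) (nat_lit 1) (nat_lit 55) (nat_lit 1) (nat_lit 57) (nat_lit 1) (nat_lit 356) (nat_lit 375) (nat_lit 349))) (XT.nd (nat_lit 94) (nat_lit 252) (nat_lit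 0) (XT.lf (nat_lit 252) (nat_lit 1015910003) (nat_lit 0) (nat_lit 1053489368) (nat_lit 168) (nat_lit 3246098442) (nat_lit 56) (nat_lit 1) (nat_lit 53) (nat_lit 1) (nat_lit 55) (nat_lit 1) (nat_lit 357) (nat_lit 375) (nat_lit 348)) (XT.lf (nat_lit 252) (nat_lit 4032789356) (nat_lit 0) (nat_lit 1006523584) (nat_lit 168) (nat_lit 127689194) (nat_lit 53) (nat_lit 1) (nat_lit 50) (nat_lit 1) (nat_lit 52) (nat_lit 1) (nat_lit 358) (nat_lit 375) (nat_lit 347)))) (XT.nd (nat_lit 188) (nat_lit 504) (nat_lit 0) (XT.nd (nat_lit 94) (nat_lit 168) (nat_lit 0) (XT.lf (nat_lit 252) (nat_lit 1804889612) (nat_lit 0) (nat_lit 960890677) (nat_lit 168) (nat_lit 2256852393) (nat_lit 51) (nat_lit 1) (nat_lit 48) (nat_lit 1) (nat_lit 50) (nat_lit 1) (nat_lit 359) (nat_lit 375) (nat_lit 346)) (XT.lf (nat_lit 84) (nat_lit 618244376) (nat_lit 0) (nat_lit 339814968) (nat_lit 168) (nat_lit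 3926191957) (nat_lit 47) (nat_lit 1) (nat_lit 46) (nat_lit 1) (nat_lit 48) (nat_lit 1) (nat_lit 360) (nat_lit 375) (nat_lit 345))) (XT.nd (nat_lit 94) (nat_lit 336) (nat_lit 0) (XT.lf (nat_lit 252) (nat_lit 2368118971) (nat_lit 0) (nat_lit 947914563) (nat_lit 168) (nat_lit 1433328310) (nat_lit 47) (nat_lit 1) (nat_lit 44) (nat_lit 1) (nat_lit 46) (nat_lit 1) (nat_lit 361) (nat_lit 375) (nat_lit 344)) (XT.nd (nat_lit 94) (nat_lit 252) (nat_lit 0) (XT.lf (nat_lit 168) (nat_lit 255012762) (nat_lit 0) (nat_lit 971196570) (nat_lit 84) (nat_lit 3393588316) (nat_lit 45) (nat_lit 1) (nat_lit 43) (nat_lit 1) (nat_lit 44) (nat_lit 1) (nat_lit 362) (nat_lit 375) (nat_lit 343)) (XT.lf (nat_lit 252) (nat_lit 2752768623) (nat_lit 0) (nat_lit 993274924) (nat_lit 168) (nat_lit 747762390) (nat_lit 43) (nat_lit 1) (nat_lit 40) (nat_lit 1) (nat_lit 42) (nat_lit 1) (nat_lit 363)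 (nat_lit 375) (nat_lit 342))))))) (XT.nd (nat_lit 846) (nat_lit 1260) (nat_lit 0) (XT.nd (nat_lit 376) (nat_lit 672) (nat_lit 0) (XT.nd (nat_lit 188) (nat_lit 336) (nat_lit 0) (XT.nd (nat_lit 94) (nat_lit 252) (nat_lit 0) (XT.lf (nat_lit 168) (nat_lit 692341607) (nat_lit 0) (nat_lit 1030414474) (nat_lit 84) (nat_lit 2649304319) (nat_lit 41) (nat_lit 1) (nat_lit 39) (nat_lit 1) (nat_lit 40) (nat_lit 1) (nat_lit 364) (nat_lit 375) (nat_lit 341)) (XT.lf (nat_lit 252) (nat_lit 2996976554) (nat_lit 0) (nat_lit 1080111669) (nat_lit 168) (nat_lit 177255571) (nat_lit 39) (nat_lit 1) (nat_lit 36) (nat_lit 1) (nat_lit 38) (nat_lit 1) (nat_lit 365) (nat_lit 375) (nat_lit 340))) (XT.nd (nat_lit 94) (nat_lit 252) (nat_lit 0) (XT.lf (nat_lit 168) (nat_lit 996374557) (nat_lit 0) (nat_lit 1126029394) (nat_lit 84) (nat_lit 2017378904) (nat_lit 37) (nat_lit 1) (nat_lit 35)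 (nat_lit 1) (nat_lit 36) (nat_lit 1) (nat_lit 366) (nat_lit 375) (nat_lit 339)) (XT.lf (nat_lit 84) (nat_lit 287593349) (nat_lit 0) (nat_lit 902678862) (nat_lit 252) (nat_lit 2839065314) (nat_lit 33) (nat_lit 1) (nat_lit 32) (nat_lit 1) (nat_lit 35) (nat_lit 1) (nat_lit 367) (nat_lit 375) (nat_lit 338)))) (XT.nd (nat_lit 188) (nat_lit 336) (nat_lit 0) (XT.nd (nat_lit 94) (nat_lit 252) (nat_lit 0) (XT.lf (nat_lit 168) (nat_lit 1195739364) (nat_lit 0) (nat_lit 1245903740) (nat_lit 84) (nat_lit 1479991933) (nat_lit 33) (nat_lit 1) (nat_lit 31) (nat_lit 1) (nat_lit 32) (nat_lit 1) (nat_lit 368) (nat_lit 375) (nat_lit 337)) (XT.lf (nat_lit 84) (nat_lit 668835044) (nat_lit 0) (nat_lit 647811967) (nat_lit 252) (nat_lit 2501070467) (nat_lit 29) (nat_lit 1) (nat_lit 28) (nat_lit 1) (nat_lit 31) (nat_lit 1) (nat_lit 369) (nat_lit 375) (nat_lit 336))) (XT.nd (nat_lit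 94) (nat_lit 252) (nat_lit 0) (XT.lf (nat_lit 168) (nat_lit 1313522374) (nat_lit 0) (nat_lit 1380562756) (nat_lit 84) (nat_lit 1022369843) (nat_lit 29) (nat_lit 1) (nat_lit 27) (nat_lit 1) (nat_lit 28) (nat_lit 1) (nat_lit 370) (nat_lit 375) (nat_lit 335)) (XT.nd (nat_lit 94) (nat_lit 84) (nat_lit 0) (XT.lf (nat_lit 84) (nat_lit 984679847) (nat_lit 0) (nat_lit 469182328) (nat_lit 168) (nat_lit 2164674528) (nat_lit 26) (nat_lit 1) (nat_lit 25) (nat_lit 1) (nat_lit 27) (nat_lit 1) (nat_lit 371) (nat_lit 375) (nat_lit 334)) (XT.lf (nat_lit 168) (nat_lit 1368303976) (nat_lit 0) (nat_lit 1522675540) (nat_lit 84) (nat_lit 632242203) (nat_lit 26) (nat_lit 1) (nat_lit 24) (nat_lit 1) (nat_lit 25) (nat_lit 1) (nat_lit 372) (nat_lit 375) (nat_lit 333)))))) (XT.nd (nat_lit 470) (nat_lit 588) (nat_lit 0) (XT.nd (nat_lit 188) (nat_lit 420) (nat_lit 0) (XT.nd (nat_lit 94)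 (nat_lit 84) (nat_lit 0) (XT.lf (nat_lit 84) (nat_lit 1245528453) (nat_lit 0) (nat_lit 350016134) (nat_lit 168) (nat_lit 1835293938) (nat_lit 23) (nat_lit 1) (nat_lit 22) (nat_lit 1) (nat_lit 24) (nat_lit 1) (nat_lit 373) (nat_lit 375) (nat_lit 332)) (XT.lf (nat_lit 168) (nat_lit 1375002901) (nat_lit 0) (nat_lit 1666633272) (nat_lit 84) (nat_lit 299396966) (nat_lit 23) (nat_lit 1) (nat_lit 21) (nat_lit 1) (nat_lit 22) (nat_lit 1) (nat_lit 374) (nat_lit 375) (nat_lit 331))) (XT.nd (nat_lit 94) (nat_lit 252) (nat_lit 0) (XT.lf (nat_lit 84) (nat_lit 1460025001) (nat_lit 0) (nat_lit 276825683) (nat_lit 168) (nat_lit 1516924207) (nat_lit 20) (nat_lit 1) (nat_lit 19) (nat_lit 1) (nat_lit 21) (nat_lit 1) (nat_lit 375) (nat_lit 375) (nat_lit 330)) (XT.nd (nat_lit 94) (nat_lit 168) (nat_lit 0) (XT.lf (nat_lit 168) (nat_lit 1345564513) (nat_lit 0) (nat_lit 1808206682)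 (nat_lit 84) (nat_lit 15316387) (nat_lit 20) (nat_lit 1) (nat_lit 18) (nat_lit 1) (nat_lit 19) (nat_lit 1) (nat_lit 376) (nat_lit 375) (nat_lit 329)) (XT.lf (nat_lit 84) (nat_lit 1635368000) (nat_lit 0) (nat_lit 238792353) (nat_lit 168) (nat_lit 1212429476) (nat_lit 17) (nat_lit 1) (nat_lit 16) (nat_lit 1) (nat_lit 18) (nat_lit 1) (nat_lit 377) (nat_lit 375) (nat_lit 328))))) (XT.nd (nat_lit 188) (nat_lit 336) (nat_lit 0) (XT.nd (nat_lit 94) (nat_lit 168) (nat_lit 0) (XT.lf (nat_lit 0) (nat_lit 219851853) (nat_lit 0) (nat_lit 1720692948) (nat_lit 168) (nat_lit 1065946634) (nat_lit 15) (nat_lit 3) (nat_lit 15) (nat_lit 1) (nat_lit 17) (nat_lit 1) (nat_lit 378) (nat_lit 375) (nat_lit 327)) (XT.lf (nat_lit 84) (nat_lit 1777564978) (nat_lit 0) (nat_lit 227263692) (nat_lit 168) (nat_lit 923777109) (nat_lit 14) (nat_lit 1) (nat_lit 13) (nat_lit 1) (nat_lit 15) (nat_lit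 1) (nat_lit 379) (nat_lit 375) (nat_lit 326))) (XT.nd (nat_lit 94) (nat_lit 252) (nat_lit 0) (XT.lf (nat_lit 0) (nat_lit 419998376) (nat_lit 0) (nat_lit 1645454883) (nat_lit 168) (nat_lit 787341134) (nat_lit 12) (nat_lit 3) (nat_lit 12) (nat_lit 1) (nat_lit 14) (nat_lit 1) (nat_lit 380) (nat_lit 375) (nat_lit 325)) (XT.nd (nat_lit 94) (nat_lit 84) (nat_lit 0) (XT.lf (nat_lit 84) (nat_lit 1891641116) (nat_lit 0) (nat_lit 235343628) (nat_lit 168) (nat_lit 652227512) (nat_lit 11) (nat_lit 1) (nat_lit 10) (nat_lit 1) (nat_lit 12) (nat_lit 1) (nat_lit 381) (nat_lit 375) (nat_lit 324)) (XT.lf (nat_lit 0) (nat_lit 590470975) (nat_lit 0) (nat_lit 1591072343) (nat_lit 168) (nat_lit 525880096) (nat_lit 9) (nat_lit 3) (nat_lit 9) (nat_lit 1) (nat_lit 11) (nat_lit 1) (nat_lit 382) (nat_lit 375) (nat_lit 323))))))))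
noncomputable def ec63 : XT := (XT.nd (nat_lit 1786) (nat_lit 0) (nat_lit 0) (XT.nd (nat_lit 846) (nat_lit 0) (nat_lit 0) (XT.nd (nat_lit 376) (nat_lit 252) (nat_lit 0) (XT.nd (nat_lit 188) (nat_lit 252) (nat_lit 0) (XT.nd (nat_lit 94) (nat_lit 84) (nat_lit 0) (XT.lf (nat_lit 84) (nat_lit 1981810288) (nat_lit 0) (nat_lit 257558653) (nat_lit 168) (nat_lit 398487509) (nat_lit 8) (nat_lit 1) (nat_lit 7) (nat_lit 1) (nat_lit 9) (nat_lit 1) (nat_lit 383) (nat_lit 375) (nat_lit 322)) (XT.lf (nat_lit 0) (nat_lit 735365080) (nat_lit 0) (nat_lit 1552369267) (nat_lit 168) (nat_lit 282113554) (nat_lit 6) (nat_lit 3) (nat_lit 6) (nat_lit 1) (nat_lit 8) (nat_lit 1) (nat_lit 384) (nat_lit 375) (nat_lit 321))) (XT.nd (nat_lit 94) (nat_lit 84) (nat_lit 0) (XT.lf (nat_lit 84) (nat_lit 2051615338) (nat_lit 0) (nat_lit 289586006) (nat_lit 168) (nat_lit 162834045) (nat_lit 5)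 (nat_lit 1) (nat_lit 4) (nat_lit 1) (nat_lit 6) (nat_lit 1) (nat_lit 385) (nat_lit 375) (nat_lit 320)) (XT.lf (nat_lit 0) (nat_lit 858144446) (nat_lit 0) (nat_lit 1525239118) (nat_lit 168) (nat_lit 56200791) (nat_lit 3) (nat_lit 3) (nat_lit 3) (nat_lit 1) (nat_lit 5) (nat_lit 1) (nat_lit 386) (nat_lit 375) (nat_lit 319)))) (XT.nd (nat_lit 188) (nat_lit 0) (nat_lit 0) (XT.nd (nat_lit 94) (nat_lit 0) (nat_lit 0) (XT.lf (nat_lit 0) (nat_lit 3448464911) (nat_lit 0) (nat_lit 0) (nat_lit 0) (nat_lit 0) (nat_lit 0) (nat_lit 0) (nat_lit 1) (nat_lit 0) (nat_lit 1) (nat_lit 0) (nat_lit 387) (nat_lit 375) (nat_lit 318)) (XT.lf (nat_lit 0) (nat_lit 3445326077) (nat_lit 0) (nat_lit 0) (nat_lit 0) (nat_lit 0) (nat_lit 0) (nat_lit 0) (nat_lit 1) (nat_lit 0) (nat_lit 1) (nat_lit 0) (nat_lit 388) (nat_lit 375) (nat_lit 317))) (XT.nd (nat_lit 94) (nat_lit 0) (nat_lit 0) (XT.lf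 (nat_lit 0) (nat_lit 3442419749) (nat_lit 0) (nat_lit 0) (nat_lit 0) (nat_lit 0) (nat_lit 0) (nat_lit 0) (nat_lit 1) (nat_lit 0) (nat_lit 1) (nat_lit 0) (nat_lit 389) (nat_lit 375) (nat_lit 316)) (XT.nd (nat_lit 94) (nat_lit 0) (nat_lit 0) (XT.lf (nat_lit 0) (nat_lit 3439728705) (nat_lit 0) (nat_lit 0) (nat_lit 0) (nat_lit 0) (nat_lit 0) (nat_lit 0) (nat_lit 1) (nat_lit 0) (nat_lit 1) (nat_lit 0) (nat_lit 390) (nat_lit 375) (nat_lit 315)) (XT.lf (nat_lit 0) (nat_lit 3437236997) (nat_lit 0) (nat_lit 0) (nat_lit 0) (nat_lit 0) (nat_lit 0) (nat_lit 0) (nat_lit 1) (nat_lit 0) (nat_lit 1) (nat_lit 0) (nat_lit 391) (nat_lit 375) (nat_lit 314)))))) (XT.nd (nat_lit 470) (nat_lit 0) (nat_lit 0) (XT.nd (nat_lit 188) (nat_lit 0) (nat_lit 0) (XT.nd (nat_lit 94) (nat_lit 0) (nat_lit 0) (XT.lf (nat_lit 0) (nat_lit 3434929860) (nat_lit 0) (nat_lit 0) (nat_lit 0) (nat_lit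 0) (nat_lit 0) (nat_lit 0) (nat_lit 1) (nat_lit 0) (nat_lit 1) (nat_lit 0) (nat_lit 392) (nat_lit 375) (nat_lit 313)) (XT.lf (nat_lit 0) (nat_lit 3432793623) (nat_lit 0) (nat_lit 0) (nat_lit 0) (nat_lit 0) (nat_lit 0) (nat_lit 0) (nat_lit 1) (nat_lit 0) (nat_lit 1) (nat_lit 0) (nat_lit 393) (nat_lit 375) (nat_lit 312))) (XT.nd (nat_lit 94) (nat_lit 0) (nat_lit 0) (XT.lf (nat_lit 0) (nat_lit 3430815625) (nat_lit 0) (nat_lit 0) (nat_lit 0) (nat_lit 0) (nat_lit 0) (nat_lit 0) (nat_lit 1) (nat_lit 0) (nat_lit 1) (nat_lit 0) (nat_lit 394) (nat_lit 375) (nat_lit 311)) (XT.nd (nat_lit 94) (nat_lit 0) (nat_lit 0) (XT.lf (nat_lit 0) (nat_lit 3428984145) (nat_lit 0) (nat_lit 0) (nat_lit 0) (nat_lit 0) (nat_lit 0) (nat_lit 0) (nat_lit 1) (nat_lit 0) (nat_lit 1) (nat_lit 0) (nat_lit 395) (nat_lit 375) (nat_lit 310)) (XT.lf (nat_lit 0) (nat_lit 3427288331) (nat_lit 0)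 (nat_lit 0) (nat_lit 0) (nat_lit 0) (nat_lit 0) (nat_lit 0) (nat_lit 1) (nat_lit 0) (nat_lit 1) (nat_lit 0) (nat_lit 396) (nat_lit 375) (nat_lit 309))))) (XT.nd (nat_lit 188) (nat_lit 0) (nat_lit 0) (XT.nd (nat_lit 94) (nat_lit 0) (nat_lit 0) (XT.lf (nat_lit 0) (nat_lit 3425718132) (nat_lit 0) (nat_lit 0) (nat_lit 0) (nat_lit 0) (nat_lit 0) (nat_lit 0) (nat_lit 1) (nat_lit 0) (nat_lit 1) (nat_lit 0) (nat_lit 397) (nat_lit 375) (nat_lit 308)) (XT.lf (nat_lit 0) (nat_lit 3424264244) (nat_lit 0) (nat_lit 0) (nat_lit 0) (nat_lit 0) (nat_lit 0) (nat_lit 0) (nat_lit 1) (nat_lit 0) (nat_lit 1) (nat_lit 0) (nat_lit 398) (nat_lit 375) (nat_lit 307))) (XT.nd (nat_lit 94) (nat_lit 0) (nat_lit 0) (XT.lf (nat_lit 0) (nat_lit 3422918052) (nat_lit 0) (nat_lit 0) (nat_lit 0) (nat_lit 0) (nat_lit 0) (nat_lit 0) (nat_lit 1) (nat_lit 0) (nat_lit 1) (nat_lit 0) (nat_lit 399)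 (nat_lit 375) (nat_lit 306)) (XT.nd (nat_lit 94) (nat_lit 0) (nat_lit 0) (XT.lf (nat_lit 0) (nat_lit 3421671578) (nat_lit 0) (nat_lit 0) (nat_lit 0) (nat_lit 0) (nat_lit 0) (nat_lit 0) (nat_lit 1) (nat_lit 0) (nat_lit 1) (nat_lit 0) (nat_lit 400) (nat_lit 375) (nat_lit 305)) (XT.lf (nat_lit 0) (nat_lit 3420517435) (nat_lit 0) (nat_lit 0) (nat_lit 0) (nat_lit 0) (nat_lit 0) (nat_lit 0) (nat_lit 1) (nat_lit 0) (nat_lit 1) (nat_lit 0) (nat_lit 401) (nat_lit 375) (nat_lit 304))))))) (XT.nd (nat_lit 846) (nat_lit 0) (nat_lit 0) (XT.nd (nat_lit 376) (nat_lit 0) (nat_lit 0) (XT.nd (nat_lit 188) (nat_lit 0) (nat_lit 0) (XT.nd (nat_lit 94) (nat_lit 0) (nat_lit 0) (XT.lf (nat_lit 0) (nat_lit 3419448785) (nat_lit 0) (nat_lit 0) (nat_lit 0) (nat_lit 0) (nat_lit 0) (nat_lit 0) (nat_lit 1) (nat_lit 0) (nat_lit 1) (nat_lit 0) (nat_lit 402) (nat_lit 375) (nat_lit 303)) (XT.lf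 (nat_lit 0) (nat_lit 3418459293) (nat_lit 0) (nat_lit 0) (nat_lit 0) (nat_lit 0) (nat_lit 0) (nat_lit 0) (nat_lit 1) (nat_lit 0) (nat_lit 1) (nat_lit 0) (nat_lit 403) (nat_lit 375) (nat_lit 302))) (XT.nd (nat_lit 94) (nat_lit 0) (nat_lit 0) (XT.lf (nat_lit 0) (nat_lit 3417543097) (nat_lit 0) (nat_lit 0) (nat_lit 0) (nat_lit 0) (nat_lit 0) (nat_lit 0) (nat_lit 1) (nat_lit 0) (nat_lit 1) (nat_lit 0) (nat_lit 404) (nat_lit 375) (nat_lit 301)) (XT.lf (nat_lit 0) (nat_lit 3416694768) (nat_lit 0) (nat_lit 0) (nat_lit 0) (nat_lit 0) (nat_lit 0) (nat_lit 0) (nat_lit 1) (nat_lit 0) (nat_lit 1) (nat_lit 0) (nat_lit 405) (nat_lit 375) (nat_lit 300)))) (XT.nd (nat_lit 188) (nat_lit 0) (nat_lit 0) (XT.nd (nat_lit 94) (nat_lit 0) (nat_lit 0) (XT.lf (nat_lit 0) (nat_lit 3415909278) (nat_lit 0) (nat_lit 0) (nat_lit 0) (nat_lit 0) (nat_lit 0) (nat_lit 0) (nat_lit 1) (nat_lit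 0) (nat_lit 1) (nat_lit 0) (nat_lit 406) (nat_lit 375) (nat_lit 299)) (XT.lf (nat_lit 0) (nat_lit 3415181972) (nat_lit 0) (nat_lit 0) (nat_lit 0) (nat_lit 0) (nat_lit 0) (nat_lit 0) (nat_lit 1) (nat_lit 0) (nat_lit 1) (nat_lit 0) (nat_lit 407) (nat_lit 375) (nat_lit 298))) (XT.nd (nat_lit 94) (nat_lit 0) (nat_lit 0) (XT.lf (nat_lit 0) (nat_lit 3414508541) (nat_lit 0) (nat_lit 0) (nat_lit 0) (nat_lit 0) (nat_lit 0) (nat_lit 0) (nat_lit 1) (nat_lit 0) (nat_lit 1) (nat_lit 0) (nat_lit 408) (nat_lit 375) (nat_lit 297)) (XT.nd (nat_lit 94) (nat_lit 0) (nat_lit 0) (XT.lf (nat_lit 0) (nat_lit 3413884993) (nat_lit 0) (nat_lit 0) (nat_lit 0) (nat_lit 0) (nat_lit 0) (nat_lit 0) (nat_lit 1) (nat_lit 0) (nat_lit 1) (nat_lit 0) (nat_lit 409) (nat_lit 375) (nat_lit 296)) (XT.lf (nat_lit 0) (nat_lit 3413307635) (nat_lit 0) (nat_lit 0) (nat_lit 0) (nat_lit 0) (nat_lit 0)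 (nat_lit 0) (nat_lit 1) (nat_lit 0) (nat_lit 1) (nat_lit 0) (nat_lit 410) (nat_lit 375) (nat_lit 295)))))) (XT.nd (nat_lit 470) (nat_lit 0) (nat_lit 0) (XT.nd (nat_lit 188) (nat_lit 0) (nat_lit 0) (XT.nd (nat_lit 94) (nat_lit 0) (nat_lit 0) (XT.lf (nat_lit 0) (nat_lit 3412773043) (nat_lit 0) (nat_lit 0) (nat_lit 0) (nat_lit 0) (nat_lit 0) (nat_lit 0) (nat_lit 1) (nat_lit 0) (nat_lit 1) (nat_lit 0) (nat_lit 411) (nat_lit 375) (nat_lit 294)) (XT.lf (nat_lit 0) (nat_lit 3412278051) (nat_lit 0) (nat_lit 0) (nat_lit 0) (nat_lit 0) (nat_lit 0) (nat_lit 0) (nat_lit 1) (nat_lit 0) (nat_lit 1) (nat_lit 0) (nat_lit 412) (nat_lit 375) (nat_lit 293))) (XT.nd (nat_lit 94) (nat_lit 0) (nat_lit 0) (XT.lf (nat_lit 0) (nat_lit 3411819725) (nat_lit 0) (nat_lit 0) (nat_lit 0) (nat_lit 0) (nat_lit 0) (nat_lit 0) (nat_lit 1) (nat_lit 0) (nat_lit 1) (nat_lit 0) (nat_lit 413) (nat_lit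 375) (nat_lit 292)) (XT.nd (nat_lit 94) (nat_lit 0) (nat_lit 0) (XT.lf (nat_lit 0) (nat_lit 3411395349) (nat_lit 0) (nat_lit 0) (nat_lit 0) (nat_lit 0) (nat_lit 0) (nat_lit 0) (nat_lit 1) (nat_lit 0) (nat_lit 1) (nat_lit 0) (nat_lit 414) (nat_lit 375) (nat_lit 291)) (XT.lf (nat_lit 0) (nat_lit 3411002408) (nat_lit 0) (nat_lit 0) (nat_lit 0) (nat_lit 0) (nat_lit 0) (nat_lit 0) (nat_lit 1) (nat_lit 0) (nat_lit 1) (nat_lit 0) (nat_lit 415) (nat_lit 375) (nat_lit 290))))) (XT.nd (nat_lit 188) (nat_lit 0) (nat_lit 0) (XT.nd (nat_lit 94) (nat_lit 0) (nat_lit 0) (XT.lf (nat_lit 0) (nat_lit 3410638575) (nat_lit 0) (nat_lit 0) (nat_lit 0) (nat_lit 0) (nat_lit 0) (nat_lit 0) (nat_lit 1) (nat_lit 0) (nat_lit 1) (nat_lit 0) (nat_lit 416) (nat_lit 375) (nat_lit 289)) (XT.lf (nat_lit 0) (nat_lit 3410301691) (nat_lit 0) (nat_lit 0) (nat_lit 0) (nat_lit 0) (nat_lit 0) (nat_lit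 0) (nat_lit 1) (nat_lit 0) (nat_lit 1) (nat_lit 0) (nat_lit 417) (nat_lit 375) (nat_lit 288))) (XT.nd (nat_lit 94) (nat_lit 0) (nat_lit 0) (XT.lf (nat_lit 0) (nat_lit 3409989762) (nat_lit 0) (nat_lit 0) (nat_lit 0) (nat_lit 0) (nat_lit 0) (nat_lit 0) (nat_lit 1) (nat_lit 0) (nat_lit 1) (nat_lit 0) (nat_lit 418) (nat_lit 375) (nat_lit 287)) (XT.nd (nat_lit 94) (nat_lit 0) (nat_lit 0) (XT.lf (nat_lit 0) (nat_lit 3409700939) (nat_lit 0) (nat_lit 0) (nat_lit 0) (nat_lit 0) (nat_lit 0) (nat_lit 0) (nat_lit 1) (nat_lit 0) (nat_lit 1) (nat_lit 0) (nat_lit 419) (nat_lit 375) (nat_lit 286)) (XT.lf (nat_lit 0) (nat_lit 3409433510) (nat_lit 0) (nat_lit 0) (nat_lit 0) (nat_lit 0) (nat_lit 0) (nat_lit 0) (nat_lit 1) (nat_lit 0) (nat_lit 1) (nat_lit 0) (nat_lit 420) (nat_lit 375) (nat_lit 285))))))))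
noncomputable def ec64 : XT := (XT.nd (nat_lit 59408) (nat_lit 0) (nat_lit 5544) (XT.nd (nat_lit 846) (nat_lit 0) (nat_lit 0) (XT.nd (nat_lit 376) (nat_lit 0) (nat_lit 0) (XT.nd (nat_lit 188) (nat_lit 0) (nat_lit 0) (XT.nd (nat_lit 94) (nat_lit 0) (nat_lit 0) (XT.lf (nat_lit 0) (nat_lit 3409185891) (nat_lit 0) (nat_lit 0) (nat_lit 0) (nat_lit 0) (nat_lit 0) (nat_lit 0) (nat_lit 1) (nat_lit 0) (nat_lit 1) (nat_lit 0) (nat_lit 421) (nat_lit 375) (nat_lit 284)) (XT.lf (nat_lit 0) (nat_lit 3408956614) (nat_lit 0) (nat_lit 0) (nat_lit 0) (nat_lit 0) (nat_lit 0) (nat_lit 0) (nat_lit 1) (nat_lit 0) (nat_lit 1) (nat_lit 0) (nat_lit 422) (nat_lit 375) (nat_lit 283))) (XT.nd (nat_lit 94) (nat_lit 0) (nat_lit 0) (XT.lf (nat_lit 0) (nat_lit 3408744320) (nat_lit 0) (nat_lit 0) (nat_lit 0) (nat_lit 0) (nat_lit 0) (nat_lit 0) (nat_lit 1) (nat_lit 0) (nat_lit 1) (nat_lit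 0) (nat_lit 423) (nat_lit 375) (nat_lit 282)) (XT.lf (nat_lit 0) (nat_lit 3408547752) (nat_lit 0) (nat_lit 0) (nat_lit 0) (nat_lit 0) (nat_lit 0) (nat_lit 0) (nat_lit 1) (nat_lit 0) (nat_lit 1) (nat_lit 0) (nat_lit 424) (nat_lit 375) (nat_lit 281)))) (XT.nd (nat_lit 188) (nat_lit 0) (nat_lit 0) (XT.nd (nat_lit 94) (nat_lit 0) (nat_lit 0) (XT.lf (nat_lit 0) (nat_lit 3408365745) (nat_lit 0) (nat_lit 0) (nat_lit 0) (nat_lit 0) (nat_lit 0) (nat_lit 0) (nat_lit 1) (nat_lit 0) (nat_lit 1) (nat_lit 0) (nat_lit 425) (nat_lit 375) (nat_lit 280)) (XT.lf (nat_lit 0) (nat_lit 3408197219) (nat_lit 0) (nat_lit 0) (nat_lit 0) (nat_lit 0) (nat_lit 0) (nat_lit 0) (nat_lit 1) (nat_lit 0) (nat_lit 1) (nat_lit 0) (nat_lit 426) (nat_lit 375) (nat_lit 279))) (XT.nd (nat_lit 94) (nat_lit 0) (nat_lit 0) (XT.lf (nat_lit 0) (nat_lit 3408041177) (nat_lit 0) (nat_lit 0) (nat_lit 0) (nat_lit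 0) (nat_lit 0) (nat_lit 0) (nat_lit 1) (nat_lit 0) (nat_lit 1) (nat_lit 0) (nat_lit 427) (nat_lit 375) (nat_lit 278)) (XT.nd (nat_lit 94) (nat_lit 0) (nat_lit 0) (XT.lf (nat_lit 0) (nat_lit 3407896694) (nat_lit 0) (nat_lit 0) (nat_lit 0) (nat_lit 0) (nat_lit 0) (nat_lit 0) (nat_lit 1) (nat_lit 0) (nat_lit 1) (nat_lit 0) (nat_lit 428) (nat_lit 375) (nat_lit 277)) (XT.lf (nat_lit 0) (nat_lit 3407762913) (nat_lit 0) (nat_lit 0) (nat_lit 0) (nat_lit 0) (nat_lit 0) (nat_lit 0) (nat_lit 1) (nat_lit 0) (nat_lit 1) (nat_lit 0) (nat_lit 429) (nat_lit 375) (nat_lit 276)))))) (XT.nd (nat_lit 376) (nat_lit 0) (nat_lit 0) (XT.nd (nat_lit 188) (nat_lit 0) (nat_lit 0) (XT.nd (nat_lit 94) (nat_lit 0) (nat_lit 0) (XT.lf (nat_lit 0) (nat_lit 3407639041) (nat_lit 0) (nat_lit 0) (nat_lit 0) (nat_lit 0) (nat_lit 0) (nat_lit 0) (nat_lit 1) (nat_lit 0) (nat_lit 1) (nat_lit 0) (nat_lit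 430) (nat_lit 375) (nat_lit 275)) (XT.lf (nat_lit 0) (nat_lit 3407524346) (nat_lit 0) (nat_lit 0) (nat_lit 0) (nat_lit 0) (nat_lit 0) (nat_lit 0) (nat_lit 1) (nat_lit 0) (nat_lit 1) (nat_lit 0) (nat_lit 431) (nat_lit 375) (nat_lit 274))) (XT.nd (nat_lit 94) (nat_lit 0) (nat_lit 0) (XT.lf (nat_lit 0) (nat_lit 3407418146) (nat_lit 0) (nat_lit 0) (nat_lit 0) (nat_lit 0) (nat_lit 0) (nat_lit 0) (nat_lit 1) (nat_lit 0) (nat_lit 1) (nat_lit 0) (nat_lit 432) (nat_lit 375) (nat_lit 273)) (XT.lf (nat_lit 0) (nat_lit 3407319813) (nat_lit 0) (nat_lit 0) (nat_lit 0) (nat_lit 0) (nat_lit 0) (nat_lit 0) (nat_lit 1) (nat_lit 0) (nat_lit 1) (nat_lit 0) (nat_lit 433) (nat_lit 375) (nat_lit 272)))) (XT.nd (nat_lit 57904) (nat_lit 0) (nat_lit 10836) (XT.nd (nat_lit 57810) (nat_lit 0) (nat_lit 10752) (XT.lf (nat_lit 0) (nat_lit 3407228764) (nat_lit 0) (nat_lit 0) (nat_lit 0)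 (nat_lit 0) (nat_lit 0) (nat_lit 0) (nat_lit 1) (nat_lit 0) (nat_lit 1) (nat_lit 0) (nat_lit 434) (nat_lit 375) (nat_lit 271)) (XT.lf (nat_lit 924) (nat_lit 1840898173) (nat_lit 0) (nat_lit 3268510475) (nat_lit 924) (nat_lit 1840898173) (nat_lit 139) (nat_lit 1) (nat_lit 128) (nat_lit 0) (nat_lit 139) (nat_lit 0) (nat_lit 328) (nat_lit 376) (nat_lit 376))) (XT.nd (nat_lit 94) (nat_lit 0) (nat_lit 0) (XT.lf (nat_lit 924) (nat_lit 686711504) (nat_lit 0) (nat_lit 6417076670) (nat_lit 840) (nat_lit 6275879544) (nat_lit 140) (nat_lit 1) (nat_lit 129) (nat_lit 1) (nat_lit 139) (nat_lit 1) (nat_lit 329) (nat_lit 376) (nat_lit 375)) (XT.nd (nat_lit 94) (nat_lit 0) (nat_lit 84) (XT.lf (nat_lit 924) (nat_lit 6307048797) (nat_lit 84) (nat_lit 4297518409) (nat_lit 0) (nat_lit 2279207728) (nat_lit 140) (nat_lit 1) (nat_lit 130) (nat_lit 1) (nat_lit 129) (nat_lit 1) (nat_lit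 330) (nat_lit 376) (nat_lit 374)) (XT.lf (nat_lit 924) (nat_lit 5449806842) (nat_lit 84) (nat_lit 1801060177) (nat_lit 0) (nat_lit 5161830863) (nat_lit 141) (nat_lit 1) (nat_lit 131) (nat_lit 1) (nat_lit 130) (nat_lit 1) (nat_lit 331) (nat_lit 376) (nat_lit 373))))))) (XT.nd (nat_lit 846) (nat_lit 3024) (nat_lit 0) (XT.nd (nat_lit 376) (nat_lit 1764) (nat_lit 0) (XT.nd (nat_lit 188) (nat_lit 672) (nat_lit 0) (XT.nd (nat_lit 94) (nat_lit 0) (nat_lit 84) (XT.lf (nat_lit 924) (nat_lit 4033320389) (nat_lit 0) (nat_lit 7546151802) (nat_lit 840) (nat_lit 385758202) (nat_lit 142) (nat_lit 1) (nat_lit 131) (nat_lit 1) (nat_lit 141) (nat_lit 1) (nat_lit 332) (nat_lit 376) (nat_lit 372)) (XT.lf (nat_lit 924) (nat_lit 967755681) (nat_lit 0) (nat_lit 8321728764) (nat_lit 840) (nat_lit 2249648163) (nat_lit 143) (nat_lit 1) (nat_lit 132) (nat_lit 1) (nat_lit 142) (nat_lit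 1) (nat_lit 333) (nat_lit 376) (nat_lit 371))) (XT.nd (nat_lit 94) (nat_lit 756) (nat_lit 0) (XT.lf (nat_lit 924) (nat_lit 1859632801) (nat_lit 84) (nat_lit 7232259963) (nat_lit 0) (nat_lit 2041032990) (nat_lit 143) (nat_lit 1) (nat_lit 133) (nat_lit 1) (nat_lit 132) (nat_lit 1) (nat_lit 334) (nat_lit 376) (nat_lit 370)) (XT.lf (nat_lit 924) (nat_lit 381926172) (nat_lit 0) (nat_lit 5406592718) (nat_lit 840) (nat_lit 4957788873) (nat_lit 134) (nat_lit 1) (nat_lit 123) (nat_lit 1) (nat_lit 133) (nat_lit 1) (nat_lit 335) (nat_lit 376) (nat_lit 369)))) (XT.nd (nat_lit 188) (nat_lit 756) (nat_lit 0) (XT.nd (nat_lit 94) (nat_lit 420) (nat_lit 0) (XT.lf (nat_lit 84) (nat_lit 2644536373) (nat_lit 0) (nat_lit 1146000677) (nat_lit 588) (nat_lit 6587458709) (nat_lit 117) (nat_lit 1) (nat_lit 116) (nat_lit 1) (nat_lit 123) (nat_lit 1) (nat_lit 336) (nat_lit 376) (nat_lit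 368)) (XT.lf (nat_lit 504) (nat_lit 7288009385) (nat_lit 0) (nat_lit 2372404171) (nat_lit 420) (nat_lit 366788343) (nat_lit 117) (nat_lit 1) (nat_lit 111) (nat_lit 1) (nat_lit 116) (nat_lit 1) (nat_lit 337) (nat_lit 376) (nat_lit 367))) (XT.nd (nat_lit 94) (nat_lit 336) (nat_lit 0) (XT.lf (nat_lit 504) (nat_lit 5259096974) (nat_lit 0) (nat_lit 1105787803) (nat_lit 420) (nat_lit 3326606772) (nat_lit 112) (nat_lit 1) (nat_lit 106) (nat_lit 1) (nat_lit 111) (nat_lit 1) (nat_lit 338) (nat_lit 376) (nat_lit 366)) (XT.nd (nat_lit 94) (nat_lit 0) (nat_lit 0) (XT.lf (nat_lit 420) (nat_lit 3200093434) (nat_lit 0) (nat_lit 20359350) (nat_lit 336) (nat_lit 6151606280) (nat_lit 107) (nat_lit 1) (nat_lit 102) (nat_lit 1) (nat_lit 106) (nat_lit 1) (nat_lit 339) (nat_lit 376) (nat_lit 365)) (XT.lf (nat_lit 84) (nat_lit 236087770) (nat_lit 0) (nat_lit 7962023587) (nat_lit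 420) (nat_lit 869209686) (nat_lit 103) (nat_lit 1) (nat_lit 102) (nat_lit 1) (nat_lit 107) (nat_lit 1) (nat_lit 340) (nat_lit 376) (nat_lit 364)))))) (XT.nd (nat_lit 470) (nat_lit 1260) (nat_lit 0) (XT.nd (nat_lit 188) (nat_lit 1008) (nat_lit 0) (XT.nd (nat_lit 94) (nat_lit 336) (nat_lit 0) (XT.lf (nat_lit 84) (nat_lit 6095847455) (nat_lit 0) (nat_lit 1011061525) (nat_lit 420) (nat_lit 1667424078) (nat_lit 98) (nat_lit 1) (nat_lit 97) (nat_lit 1) (nat_lit 102) (nat_lit 1) (nat_lit 341) (nat_lit 376) (nat_lit 363)) (XT.lf (nat_lit 84) (nat_lit 3049906954) (nat_lit 0) (nat_lit 3097060933) (nat_lit 420) (nat_lit 2347322890) (nat_lit 94) (nat_lit 1) (nat_lit 93) (nat_lit 1) (nat_lit 98) (nat_lit 1) (nat_lit 342) (nat_lit 376) (nat_lit 362))) (XT.nd (nat_lit 94) (nat_lit 672) (nat_lit 0) (XT.lf (nat_lit 84) (nat_lit 150536644) (nat_lit 0) (nat_lit 5178237789) (nat_lit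 420) (nat_lit 2898733140) (nat_lit 90) (nat_lit 1) (nat_lit 89) (nat_lit 1) (nat_lit 94) (nat_lit 1) (nat_lit 343) (nat_lit 376) (nat_lit 361)) (XT.nd (nat_lit 94) (nat_lit 420) (nat_lit 0) (XT.lf (nat_lit 336) (nat_lit 679815001) (nat_lit 0) (nat_lit 4597263446) (nat_lit 252) (nat_lit 2694102036) (nat_lit 90) (nat_lit 1) (nat_lit 86) (nat_lit 1) (nat_lit 89) (nat_lit 1) (nat_lit 344) (nat_lit 376) (nat_lit 360)) (XT.lf (nat_lit 84) (nat_lit 2348943603) (nat_lit 0) (nat_lit 1609980541) (nat_lit 420) (nat_lit 3766518584) (nat_lit 82) (nat_lit 1) (nat_lit 81) (nat_lit 1) (nat_lit 86) (nat_lit 1) (nat_lit 345) (nat_lit 376) (nat_lit 359))))) (XT.nd (nat_lit 188) (nat_lit 756) (nat_lit 0) (XT.nd (nat_lit 94) (nat_lit 252) (nat_lit 0) (XT.lf (nat_lit 336) (nat_lit 3636729693) (nat_lit 0) (nat_lit 3416237510) (nat_lit 252) (nat_lit 437274346) (nat_lit 82) (nat_lit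 1) (nat_lit 78) (nat_lit 1) (nat_lit 81) (nat_lit 1) (nat_lit 346) (nat_lit 376) (nat_lit 358)) (XT.lf (nat_lit 336) (nat_lit 1165554297) (nat_lit 0) (nat_lit 2941240602) (nat_lit 252) (nat_lit 3157284317) (nat_lit 79) (nat_lit 1) (nat_lit 75) (nat_lit 1) (nat_lit 78) (nat_lit 1) (nat_lit 347) (nat_lit 376) (nat_lit 357))) (XT.nd (nat_lit 94) (nat_lit 420) (nat_lit 0) (XT.lf (nat_lit 84) (nat_lit 1328450263) (nat_lit 0) (nat_lit 1216311661) (nat_lit 336) (nat_lit 4502547907) (nat_lit 72) (nat_lit 1) (nat_lit 71) (nat_lit 1) (nat_lit 75) (nat_lit 1) (nat_lit 348) (nat_lit 376) (nat_lit 356)) (XT.nd (nat_lit 94) (nat_lit 168) (nat_lit 0) (XT.lf (nat_lit 336) (nat_lit 3305674122) (nat_lit 0) (nat_lit 2199473062) (nat_lit 252) (nat_lit 1333327801) (nat_lit 72) (nat_lit 1) (nat_lit 68) (nat_lit 1) (nat_lit 71) (nat_lit 1) (nat_lit 349) (nat_lit 376) (nat_lit 355))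 (XT.lf (nat_lit 252) (nat_lit 819481495) (nat_lit 0) (nat_lit 1918879816) (nat_lit 168) (nat_lit 3899703807) (nat_lit 69) (nat_lit 1) (nat_lit 66) (nat_lit 1) (nat_lit 68) (nat_lit 1) (nat_lit 350) (nat_lit 376) (nat_lit 354))))))))
noncomputable def ec65 : XT := (XT.nd (nat_lit 1786) (nat_lit 2100) (nat_lit 0) (XT.nd (nat_lit 846) (nat_lit 1596) (nat_lit 0) (XT.nd (nat_lit 376) (nat_lit 924) (nat_lit 0) (XT.nd (nat_lit 188) (nat_lit 420) (nat_lit 0) (XT.nd (nat_lit 94) (nat_lit 168) (nat_lit 0) (XT.lf (nat_lit 84) (nat_lit 138825400) (nat_lit 0) (nat_lit 1553486373) (nat_lit 336) (nat_lit 4753111894) (nat_lit 63) (nat_lit 1) (nat_lit 62) (nat_lit 1) (nat_lit 66) (nat_lit 1) (nat_lit 351) (nat_lit 376) (nat_lit 353)) (XT.lf (nat_lit 252) (nat_lit 2381262862) (nat_lit 0) (nat_lit 1488085001) (nat_lit 168) (nat_lit 2389549681) (nat_lit 63) (nat_lit 1) (nat_lit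 60) (nat_lit 1) (nat_lit 62) (nat_lit 1) (nat_lit 352) (nat_lit 376) (nat_lit 352))) (XT.nd (nat_lit 94) (nat_lit 168) (nat_lit 0) (XT.lf (nat_lit 84) (nat_lit 1291973715) (nat_lit 0) (nat_lit 59677075) (nat_lit 252) (nat_lit 4728859988) (nat_lit 58) (nat_lit 1) (nat_lit 57) (nat_lit 1) (nat_lit 60) (nat_lit 1) (nat_lit 353) (nat_lit 376) (nat_lit 351)) (XT.lf (nat_lit 252) (nat_lit 3532006653) (nat_lit 0) (nat_lit 1223919499) (nat_lit 168) (nat_lit 1151387005) (nat_lit 58) (nat_lit 1) (nat_lit 55) (nat_lit 1) (nat_lit 57) (nat_lit 1) (nat_lit 354) (nat_lit 376) (nat_lit 350)))) (XT.nd (nat_lit 188) (nat_lit 504) (nat_lit 0) (XT.nd (nat_lit 94) (nat_lit 252) (nat_lit 0) (XT.lf (nat_lit 252) (nat_lit 1097182803) (nat_lit 0) (nat_lit 1137768517) (nat_lit 168) (nat_lit 3505786317) (nat_lit 56) (nat_lit 1) (nat_lit 53) (nat_lit 1) (nat_lit 55) (nat_lit 1) (nat_lit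 355) (nat_lit 376) (nat_lit 349)) (XT.lf (nat_lit 252) (nat_lit 4355412505) (nat_lit 0) (nat_lit 1087045471) (nat_lit 168) (nat_lit 137904329) (nat_lit 53) (nat_lit 1) (nat_lit 50) (nat_lit 1) (nat_lit 52) (nat_lit 1) (nat_lit 356) (nat_lit 376) (nat_lit 348))) (XT.nd (nat_lit 94) (nat_lit 336) (nat_lit 0) (XT.lf (nat_lit 252) (nat_lit 1949280781) (nat_lit 0) (nat_lit 1037761931) (nat_lit 168) (nat_lit 2437400585) (nat_lit 51) (nat_lit 1) (nat_lit 48) (nat_lit 1) (nat_lit 50) (nat_lit 1) (nat_lit 357) (nat_lit 376) (nat_lit 347)) (XT.nd (nat_lit 94) (nat_lit 168) (nat_lit 0) (XT.lf (nat_lit 84) (nat_lit 667703927) (nat_lit 0) (nat_lit 367000165) (nat_lit 168) (nat_lit 4240287314) (nat_lit 47) (nat_lit 1) (nat_lit 46) (nat_lit 1) (nat_lit 48) (nat_lit 1) (nat_lit 358) (nat_lit 376) (nat_lit 346)) (XT.lf (nat_lit 252) (nat_lit 2557568489) (nat_lit 0) (nat_lit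 1023747728) (nat_lit 168) (nat_lit 1547994574) (nat_lit 47) (nat_lit 1) (nat_lit 44) (nat_lit 1) (nat_lit 46) (nat_lit 1) (nat_lit 359) (nat_lit 376) (nat_lit 345)))))) (XT.nd (nat_lit 470) (nat_lit 840) (nat_lit 0) (XT.nd (nat_lit 188) (nat_lit 420) (nat_lit 0) (XT.nd (nat_lit 94) (nat_lit 252) (nat_lit 0) (XT.lf (nat_lit 168) (nat_lit 275413783) (nat_lit 0) (nat_lit 1048892295) (nat_lit 84) (nat_lit 3665075381) (nat_lit 45) (nat_lit 1) (nat_lit 43) (nat_lit 1) (nat_lit 44) (nat_lit 1) (nat_lit 360) (nat_lit 376) (nat_lit 344)) (XT.lf (nat_lit 252) (nat_lit 2972990113) (nat_lit 0) (nat_lit 1072736917) (nat_lit 168) (nat_lit 807583382) (nat_lit 43) (nat_lit 1) (nat_lit 40) (nat_lit 1) (nat_lit 42) (nat_lit 1) (nat_lit 361) (nat_lit 376) (nat_lit 343))) (XT.nd (nat_lit 94) (nat_lit 336) (nat_lit 0) (XT.lf (nat_lit 168) (nat_lit 747728936) (nat_lit 0) (nat_lit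 1112847632) (nat_lit 84) (nat_lit 2861248665) (nat_lit 41) (nat_lit 1) (nat_lit 39) (nat_lit 1) (nat_lit 40) (nat_lit 1) (nat_lit 362) (nat_lit 376) (nat_lit 342)) (XT.nd (nat_lit 94) (nat_lit 84) (nat_lit 0) (XT.lf (nat_lit 252) (nat_lit 3236734678) (nat_lit 0) (nat_lit 1166520602) (nat_lit 168) (nat_lit 191436016) (nat_lit 39) (nat_lit 1) (nat_lit 36) (nat_lit 1) (nat_lit 38) (nat_lit 1) (nat_lit 363) (nat_lit 376) (nat_lit 341)) (XT.lf (nat_lit 168) (nat_lit 1076084521) (nat_lit 0) (nat_lit 1216111745) (nat_lit 84) (nat_lit 2178769216) (nat_lit 37) (nat_lit 1) (nat_lit 35) (nat_lit 1) (nat_lit 36) (nat_lit 1) (nat_lit 364) (nat_lit 376) (nat_lit 340))))) (XT.nd (nat_lit 188) (nat_lit 504) (nat_lit 0) (XT.nd (nat_lit 94) (nat_lit 84) (nat_lit 0) (XT.lf (nat_lit 84) (nat_lit 310600817) (nat_lit 0) (nat_lit 974893171) (nat_lit 252) (nat_lit 3066190539) (nat_lit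 33) (nat_lit 1) (nat_lit 32) (nat_lit 1) (nat_lit 35) (nat_lit 1) (nat_lit 365) (nat_lit 376) (nat_lit 339)) (XT.lf (nat_lit 168) (nat_lit 1291398513) (nat_lit 0) (nat_lit 1345576040) (nat_lit 84) (nat_lit 1598391287) (nat_lit 33) (nat_lit 1) (nat_lit 31) (nat_lit 1) (nat_lit 32) (nat_lit 1) (nat_lit 366) (nat_lit 376) (nat_lit 338))) (XT.nd (nat_lit 94) (nat_lit 252) (nat_lit 0) (XT.lf (nat_lit 84) (nat_lit 722341848) (nat_lit 0) (nat_lit 699636924) (nat_lit 252) (nat_lit 2701156104) (nat_lit 29) (nat_lit 1) (nat_lit 28) (nat_lit 1) (nat_lit 31) (nat_lit 1) (nat_lit 367) (nat_lit 376) (nat_lit 337)) (XT.nd (nat_lit 94) (nat_lit 168) (nat_lit 0) (XT.lf (nat_lit 168) (nat_lit 1418604164) (nat_lit 0) (nat_lit 1491007777) (nat_lit 84) (nat_lit 1104159431) (nat_lit 29) (nat_lit 1) (nat_lit 27) (nat_lit 1) (nat_lit 28) (nat_lit 1) (nat_lit 368) (nat_lit 376) (nat_lit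 336)) (XT.lf (nat_lit 84) (nat_lit 1063454235) (nat_lit 0) (nat_lit 506716914) (nat_lit 168) (nat_lit 2337848490) (nat_lit 26) (nat_lit 1) (nat_lit 25) (nat_lit 1) (nat_lit 27) (nat_lit 1) (nat_lit 369) (nat_lit 376) (nat_lit 335))))))) (XT.nd (nat_lit 846) (nat_lit 1008) (nat_lit 0) (XT.nd (nat_lit 376) (nat_lit 588) (nat_lit 0) (XT.nd (nat_lit 188) (nat_lit 252) (nat_lit 0) (XT.nd (nat_lit 94) (nat_lit 168) (nat_lit 0) (XT.lf (nat_lit 168) (nat_lit 1477768295) (nat_lit 0) (nat_lit 1644489583) (nat_lit 84) (nat_lit 682821580) (nat_lit 26) (nat_lit 1) (nat_lit 24) (nat_lit 1) (nat_lit 25) (nat_lit 1) (nat_lit 370) (nat_lit 376) (nat_lit 334)) (XT.lf (nat_lit 84) (nat_lit 1345170729) (nat_lit 0) (nat_lit 378017425) (nat_lit 168) (nat_lit 1982117453) (nat_lit 23) (nat_lit 1) (nat_lit 22) (nat_lit 1) (nat_lit 24) (nat_lit 1) (nat_lit 371) (nat_lit 376) (nat_lit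 333))) (XT.nd (nat_lit 94) (nat_lit 168) (nat_lit 0) (XT.lf (nat_lit 168) (nat_lit 1485003133) (nat_lit 0) (nat_lit 1799963934) (nat_lit 84) (nat_lit 323348724) (nat_lit 23) (nat_lit 1) (nat_lit 21) (nat_lit 1) (nat_lit 22) (nat_lit 1) (nat_lit 372) (nat_lit 376) (nat_lit 332)) (XT.lf (nat_lit 84) (nat_lit 1576827001) (nat_lit 0) (nat_lit 298971738) (nat_lit 168) (nat_lit 1638278144) (nat_lit 20) (nat_lit 1) (nat_lit 19) (nat_lit 1) (nat_lit 21) (nat_lit 1) (nat_lit 373) (nat_lit 376) (nat_lit 331)))) (XT.nd (nat_lit 188) (nat_lit 336) (nat_lit 0) (XT.nd (nat_lit 94) (nat_lit 168) (nat_lit 0) (XT.lf (nat_lit 168) (nat_lit 1453209674) (nat_lit 0) (nat_lit 1952863216) (nat_lit 84) (nat_lit 16541698) (nat_lit 20) (nat_lit 1) (nat_lit 18) (nat_lit 1) (nat_lit 19) (nat_lit 1) (nat_lit 374) (nat_lit 376) (nat_lit 330)) (XT.lf (nat_lit 84) (nat_lit 1766197440) (nat_lit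 0) (nat_lit 257895741) (nat_lit 168) (nat_lit 1309423835) (nat_lit 17) (nat_lit 1) (nat_lit 16) (nat_lit 1) (nat_lit 18) (nat_lit 1) (nat_lit 375) (nat_lit 376) (nat_lit 329))) (XT.nd (nat_lit 94) (nat_lit 252) (nat_lit 0) (XT.lf (nat_lit 0) (nat_lit 237440002) (nat_lit 0) (nat_lit 1858348383) (nat_lit 168) (nat_lit 1151222365) (nat_lit 15) (nat_lit 3) (nat_lit 15) (nat_lit 1) (nat_lit 17) (nat_lit 1) (nat_lit 376) (nat_lit 376) (nat_lit 328)) (XT.nd (nat_lit 94) (nat_lit 84) (nat_lit 0) (XT.lf (nat_lit 84) (nat_lit 1919770176) (nat_lit 0) (nat_lit 245444788) (nat_lit 168) (nat_lit 997679278) (nat_lit 14) (nat_lit 1) (nat_lit 13) (nat_lit 1) (nat_lit 15) (nat_lit 1) (nat_lit 377) (nat_lit 376) (nat_lit 327)) (XT.lf (nat_lit 0) (nat_lit 453598246) (nat_lit 0) (nat_lit 1777091274) (nat_lit 168) (nat_lit 850328425) (nat_lit 12) (nat_lit 3) (nat_lit 12) (nat_lit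 1) (nat_lit 14) (nat_lit 1) (nat_lit 378) (nat_lit 376) (nat_lit 326)))))) (XT.nd (nat_lit 470) (nat_lit 336) (nat_lit 0) (XT.nd (nat_lit 188) (nat_lit 420) (nat_lit 0) (XT.nd (nat_lit 94) (nat_lit 84) (nat_lit 0) (XT.lf (nat_lit 84) (nat_lit 2042972405) (nat_lit 0) (nat_lit 254171118) (nat_lit 168) (nat_lit 704405714) (nat_lit 11) (nat_lit 1) (nat_lit 10) (nat_lit 1) (nat_lit 12) (nat_lit 1) (nat_lit 379) (nat_lit 376) (nat_lit 325)) (XT.lf (nat_lit 0) (nat_lit 637708653) (nat_lit 0) (nat_lit 1718358131) (nat_lit 168) (nat_lit 567950504) (nat_lit 9) (nat_lit 3) (nat_lit 9) (nat_lit 1) (nat_lit 11) (nat_lit 1) (nat_lit 380) (nat_lit 376) (nat_lit 324))) (XT.nd (nat_lit 94) (nat_lit 252) (nat_lit 0) (XT.lf (nat_lit 84) (nat_lit 2140355111) (nat_lit 0) (nat_lit 278163345) (nat_lit 168) (nat_lit 430366509) (nat_lit 8) (nat_lit 1) (nat_lit 7) (nat_lit 1) (nat_lit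 9) (nat_lit 1) (nat_lit 381) (nat_lit 376) (nat_lit 323)) (XT.nd (nat_lit 94) (nat_lit 168) (nat_lit 0) (XT.lf (nat_lit 0) (nat_lit 794194287) (nat_lit 0) (nat_lit 1676558809) (nat_lit 168) (nat_lit 304682639) (nat_lit 6) (nat_lit 3) (nat_lit 6) (nat_lit 1) (nat_lit 8) (nat_lit 1) (nat_lit 382) (nat_lit 376) (nat_lit 322)) (XT.lf (nat_lit 84) (nat_lit 2215744565) (nat_lit 0) (nat_lit 312752886) (nat_lit 168) (nat_lit 175860769) (nat_lit 5) (nat_lit 1) (nat_lit 4) (nat_lit 1) (nat_lit 6) (nat_lit 1) (nat_lit 383) (nat_lit 376) (nat_lit 321))))) (XT.nd (nat_lit 188) (nat_lit 0) (nat_lit 0) (XT.nd (nat_lit 94) (nat_lit 252) (nat_lit 0) (XT.lf (nat_lit 0) (nat_lit 926796001) (nat_lit 0) (nat_lit 1647258248) (nat_lit 168) (nat_lit 60696854) (nat_lit 3) (nat_lit 3) (nat_lit 3) (nat_lit 1) (nat_lit 5) (nat_lit 1) (nat_lit 384) (nat_lit 376) (nat_lit 320)) (XT.lf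 (nat_lit 0) (nat_lit 3724342104) (nat_lit 0) (nat_lit 0) (nat_lit 0) (nat_lit 0) (nat_lit 0) (nat_lit 0) (nat_lit 1) (nat_lit 0) (nat_lit 1) (nat_lit 0) (nat_lit 385) (nat_lit 376) (nat_lit 319))) (XT.nd (nat_lit 94) (nat_lit 0) (nat_lit 0) (XT.lf (nat_lit 0) (nat_lit 3720952163) (nat_lit 0) (nat_lit 0) (nat_lit 0) (nat_lit 0) (nat_lit 0) (nat_lit 0) (nat_lit 1) (nat_lit 0) (nat_lit 1) (nat_lit 0) (nat_lit 386) (nat_lit 376) (nat_lit 318)) (XT.nd (nat_lit 94) (nat_lit 0) (nat_lit 0) (XT.lf (nat_lit 0) (nat_lit 3717813329) (nat_lit 0) (nat_lit 0) (nat_lit 0) (nat_lit 0) (nat_lit 0) (nat_lit 0) (nat_lit 1) (nat_lit 0) (nat_lit 1) (nat_lit 0) (nat_lit 387) (nat_lit 376) (nat_lit 317)) (XT.lf (nat_lit 0) (nat_lit 3714907001) (nat_lit 0) (nat_lit 0) (nat_lit 0) (nat_lit 0) (nat_lit 0) (nat_lit 0) (nat_lit 1) (nat_lit 0) (nat_lit 1) (nat_lit 0) (nat_lit 388) (nat_lit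 376) (nat_lit 316))))))))
noncomputable def ec66 : XT := (XT.nd (nat_lit 1692) (nat_lit 0) (nat_lit 0) (XT.nd (nat_lit 846) (nat_lit 0) (nat_lit 0) (XT.nd (nat_lit 376) (nat_lit 0) (nat_lit 0) (XT.nd (nat_lit 188) (nat_lit 0) (nat_lit 0) (XT.nd (nat_lit 94) (nat_lit 0) (nat_lit 0) (XT.lf (nat_lit 0) (nat_lit 3712215957) (nat_lit 0) (nat_lit 0) (nat_lit 0) (nat_lit 0) (nat_lit 0) (nat_lit 0) (nat_lit 1) (nat_lit 0) (nat_lit 1) (nat_lit 0) (nat_lit 389) (nat_lit 376) (nat_lit 315)) (XT.lf (nat_lit 0) (nat_lit 3709724249) (nat_lit 0) (nat_lit 0) (nat_lit 0) (nat_lit 0) (nat_lit 0) (nat_lit 0) (nat_lit 1) (nat_lit 0) (nat_lit 1) (nat_lit 0) (nat_lit 390) (nat_lit 376) (nat_lit 314))) (XT.nd (nat_lit 94) (nat_lit 0) (nat_lit 0) (XT.lf (nat_lit 0) (nat_lit 3707417112) (nat_lit 0) (nat_lit 0) (nat_lit 0) (nat_lit 0) (nat_lit 0) (nat_lit 0) (nat_lit 1) (nat_lit 0)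 (nat_lit 1) (nat_lit 0) (nat_lit 391) (nat_lit 376) (nat_lit 313)) (XT.lf (nat_lit 0) (nat_lit 3705280875) (nat_lit 0) (nat_lit 0) (nat_lit 0) (nat_lit 0) (nat_lit 0) (nat_lit 0) (nat_lit 1) (nat_lit 0) (nat_lit 1) (nat_lit 0) (nat_lit 392) (nat_lit 376) (nat_lit 312)))) (XT.nd (nat_lit 188) (nat_lit 0) (nat_lit 0) (XT.nd (nat_lit 94) (nat_lit 0) (nat_lit 0) (XT.lf (nat_lit 0) (nat_lit 3703302877) (nat_lit 0) (nat_lit 0) (nat_lit 0) (nat_lit 0) (nat_lit 0) (nat_lit 0) (nat_lit 1) (nat_lit 0) (nat_lit 1) (nat_lit 0) (nat_lit 393) (nat_lit 376) (nat_lit 311)) (XT.lf (nat_lit 0) (nat_lit 3701471397) (nat_lit 0) (nat_lit 0) (nat_lit 0) (nat_lit 0) (nat_lit 0) (nat_lit 0) (nat_lit 1) (nat_lit 0) (nat_lit 1) (nat_lit 0) (nat_lit 394) (nat_lit 376) (nat_lit 310))) (XT.nd (nat_lit 94) (nat_lit 0) (nat_lit 0) (XT.lf (nat_lit 0) (nat_lit 3699775583) (nat_lit 0) (nat_lit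 0) (nat_lit 0) (nat_lit 0) (nat_lit 0) (nat_lit 0) (nat_lit 1) (nat_lit 0) (nat_lit 1) (nat_lit 0) (nat_lit 395) (nat_lit 376) (nat_lit 309)) (XT.nd (nat_lit 94) (nat_lit 0) (nat_lit 0) (XT.lf (nat_lit 0) (nat_lit 3698205384) (nat_lit 0) (nat_lit 0) (nat_lit 0) (nat_lit 0) (nat_lit 0) (nat_lit 0) (nat_lit 1) (nat_lit 0) (nat_lit 1) (nat_lit 0) (nat_lit 396) (nat_lit 376) (nat_lit 308)) (XT.lf (nat_lit 0) (nat_lit 3696751497) (nat_lit 0) (nat_lit 0) (nat_lit 0) (nat_lit 0) (nat_lit 0) (nat_lit 0) (nat_lit 1) (nat_lit 0) (nat_lit 1) (nat_lit 0) (nat_lit 397) (nat_lit 376) (nat_lit 307)))))) (XT.nd (nat_lit 376) (nat_lit 0) (nat_lit 0) (XT.nd (nat_lit 188) (nat_lit 0) (nat_lit 0) (XT.nd (nat_lit 94) (nat_lit 0) (nat_lit 0) (XT.lf (nat_lit 0) (nat_lit 3695405304) (nat_lit 0) (nat_lit 0) (nat_lit 0) (nat_lit 0) (nat_lit 0) (nat_lit 0) (nat_lit 1) (nat_lit 0) (nat_lit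 1) (nat_lit 0) (nat_lit 398) (nat_lit 376) (nat_lit 306)) (XT.lf (nat_lit 0) (nat_lit 3694158830) (nat_lit 0) (nat_lit 0) (nat_lit 0) (nat_lit 0) (nat_lit 0) (nat_lit 0) (nat_lit 1) (nat_lit 0) (nat_lit 1) (nat_lit 0) (nat_lit 399) (nat_lit 376) (nat_lit 305))) (XT.nd (nat_lit 94) (nat_lit 0) (nat_lit 0) (XT.lf (nat_lit 0) (nat_lit 3693004687) (nat_lit 0) (nat_lit 0) (nat_lit 0) (nat_lit 0) (nat_lit 0) (nat_lit 0) (nat_lit 1) (nat_lit 0) (nat_lit 1) (nat_lit 0) (nat_lit 400) (nat_lit 376) (nat_lit 304)) (XT.lf (nat_lit 0) (nat_lit 3691936037) (nat_lit 0) (nat_lit 0) (nat_lit 0) (nat_lit 0) (nat_lit 0) (nat_lit 0) (nat_lit 1) (nat_lit 0) (nat_lit 1) (nat_lit 0) (nat_lit 401) (nat_lit 376) (nat_lit 303)))) (XT.nd (nat_lit 188) (nat_lit 0) (nat_lit 0) (XT.nd (nat_lit 94) (nat_lit 0) (nat_lit 0) (XT.lf (nat_lit 0) (nat_lit 3690946545) (nat_lit 0) (nat_lit 0) (nat_lit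 0) (nat_lit 0) (nat_lit 0) (nat_lit 0) (nat_lit 1) (nat_lit 0) (nat_lit 1) (nat_lit 0) (nat_lit 402) (nat_lit 376) (nat_lit 302)) (XT.lf (nat_lit 0) (nat_lit 3690030349) (nat_lit 0) (nat_lit 0) (nat_lit 0) (nat_lit 0) (nat_lit 0) (nat_lit 0) (nat_lit 1) (nat_lit 0) (nat_lit 1) (nat_lit 0) (nat_lit 403) (nat_lit 376) (nat_lit 301))) (XT.nd (nat_lit 94) (nat_lit 0) (nat_lit 0) (XT.lf (nat_lit 0) (nat_lit 3689182020) (nat_lit 0) (nat_lit 0) (nat_lit 0) (nat_lit 0) (nat_lit 0) (nat_lit 0) (nat_lit 1) (nat_lit 0) (nat_lit 1) (nat_lit 0) (nat_lit 404) (nat_lit 376) (nat_lit 300)) (XT.nd (nat_lit 94) (nat_lit 0) (nat_lit 0) (XT.lf (nat_lit 0) (nat_lit 3688396530) (nat_lit 0) (nat_lit 0) (nat_lit 0) (nat_lit 0) (nat_lit 0) (nat_lit 0) (nat_lit 1) (nat_lit 0) (nat_lit 1) (nat_lit 0) (nat_lit 405) (nat_lit 376) (nat_lit 299)) (XT.lf (nat_lit 0) (nat_lit 3687669224)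 (nat_lit 0) (nat_lit 0) (nat_lit 0) (nat_lit 0) (nat_lit 0) (nat_lit 0) (nat_lit 1) (nat_lit 0) (nat_lit 1) (nat_lit 0) (nat_lit 406) (nat_lit 376) (nat_lit 298))))))) (XT.nd (nat_lit 846) (nat_lit 0) (nat_lit 0) (XT.nd (nat_lit 376) (nat_lit 0) (nat_lit 0) (XT.nd (nat_lit 188) (nat_lit 0) (nat_lit 0) (XT.nd (nat_lit 94) (nat_lit 0) (nat_lit 0) (XT.lf (nat_lit 0) (nat_lit 3686995793) (nat_lit 0) (nat_lit 0) (nat_lit 0) (nat_lit 0) (nat_lit 0) (nat_lit 0) (nat_lit 1) (nat_lit 0) (nat_lit 1) (nat_lit 0) (nat_lit 407) (nat_lit 376) (nat_lit 297)) (XT.lf (nat_lit 0) (nat_lit 3686372245) (nat_lit 0) (nat_lit 0) (nat_lit 0) (nat_lit 0) (nat_lit 0) (nat_lit 0) (nat_lit 1) (nat_lit 0) (nat_lit 1) (nat_lit 0) (nat_lit 408) (nat_lit 376) (nat_lit 296))) (XT.nd (nat_lit 94) (nat_lit 0) (nat_lit 0) (XT.lf (nat_lit 0) (nat_lit 3685794887) (nat_lit 0) (nat_lit 0) (nat_lit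 0) (nat_lit 0) (nat_lit 0) (nat_lit 0) (nat_lit 1) (nat_lit 0) (nat_lit 1) (nat_lit 0) (nat_lit 409) (nat_lit 376) (nat_lit 295)) (XT.lf (nat_lit 0) (nat_lit 3685260295) (nat_lit 0) (nat_lit 0) (nat_lit 0) (nat_lit 0) (nat_lit 0) (nat_lit 0) (nat_lit 1) (nat_lit 0) (nat_lit 1) (nat_lit 0) (nat_lit 410) (nat_lit 376) (nat_lit 294)))) (XT.nd (nat_lit 188) (nat_lit 0) (nat_lit 0) (XT.nd (nat_lit 94) (nat_lit 0) (nat_lit 0) (XT.lf (nat_lit 0) (nat_lit 3684765303) (nat_lit 0) (nat_lit 0) (nat_lit 0) (nat_lit 0) (nat_lit 0) (nat_lit 0) (nat_lit 1) (nat_lit 0) (nat_lit 1) (nat_lit 0) (nat_lit 411) (nat_lit 376) (nat_lit 293)) (XT.lf (nat_lit 0) (nat_lit 3684306977) (nat_lit 0) (nat_lit 0) (nat_lit 0) (nat_lit 0) (nat_lit 0) (nat_lit 0) (nat_lit 1) (nat_lit 0) (nat_lit 1) (nat_lit 0) (nat_lit 412) (nat_lit 376) (nat_lit 292))) (XT.nd (nat_lit 94) (nat_lit 0) (nat_lit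 0) (XT.lf (nat_lit 0) (nat_lit 3683882601) (nat_lit 0) (nat_lit 0) (nat_lit 0) (nat_lit 0) (nat_lit 0) (nat_lit 0) (nat_lit 1) (nat_lit 0) (nat_lit 1) (nat_lit 0) (nat_lit 413) (nat_lit 376) (nat_lit 291)) (XT.nd (nat_lit 94) (nat_lit 0) (nat_lit 0) (XT.lf (nat_lit 0) (nat_lit 3683489661) (nat_lit 0) (nat_lit 0) (nat_lit 0) (nat_lit 0) (nat_lit 0) (nat_lit 0) (nat_lit 1) (nat_lit 0) (nat_lit 1) (nat_lit 0) (nat_lit 414) (nat_lit 376) (nat_lit 290)) (XT.lf (nat_lit 0) (nat_lit 3683125827) (nat_lit 0) (nat_lit 0) (nat_lit 0) (nat_lit 0) (nat_lit 0) (nat_lit 0) (nat_lit 1) (nat_lit 0) (nat_lit 1) (nat_lit 0) (nat_lit 415) (nat_lit 376) (nat_lit 289)))))) (XT.nd (nat_lit 470) (nat_lit 0) (nat_lit 0) (XT.nd (nat_lit 188) (nat_lit 0) (nat_lit 0) (XT.nd (nat_lit 94) (nat_lit 0) (nat_lit 0) (XT.lf (nat_lit 0) (nat_lit 3682788943) (nat_lit 0) (nat_lit 0) (nat_lit 0)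 (nat_lit 0) (nat_lit 0) (nat_lit 0) (nat_lit 1) (nat_lit 0) (nat_lit 1) (nat_lit 0) (nat_lit 416) (nat_lit 376) (nat_lit 288)) (XT.lf (nat_lit 0) (nat_lit 3682477014) (nat_lit 0) (nat_lit 0) (nat_lit 0) (nat_lit 0) (nat_lit 0) (nat_lit 0) (nat_lit 1) (nat_lit 0) (nat_lit 1) (nat_lit 0) (nat_lit 417) (nat_lit 376) (nat_lit 287))) (XT.nd (nat_lit 94) (nat_lit 0) (nat_lit 0) (XT.lf (nat_lit 0) (nat_lit 3682188191) (nat_lit 0) (nat_lit 0) (nat_lit 0) (nat_lit 0) (nat_lit 0) (nat_lit 0) (nat_lit 1) (nat_lit 0) (nat_lit 1) (nat_lit 0) (nat_lit 418) (nat_lit 376) (nat_lit 286)) (XT.nd (nat_lit 94) (nat_lit 0) (nat_lit 0) (XT.lf (nat_lit 0) (nat_lit 3681920762) (nat_lit 0) (nat_lit 0) (nat_lit 0) (nat_lit 0) (nat_lit 0) (nat_lit 0) (nat_lit 1) (nat_lit 0) (nat_lit 1) (nat_lit 0) (nat_lit 419) (nat_lit 376) (nat_lit 285)) (XT.lf (nat_lit 0) (nat_lit 3681673143) (nat_lit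 0) (nat_lit 0) (nat_lit 0) (nat_lit 0) (nat_lit 0) (nat_lit 0) (nat_lit 1) (nat_lit 0) (nat_lit 1) (nat_lit 0) (nat_lit 420) (nat_lit 376) (nat_lit 284))))) (XT.nd (nat_lit 188) (nat_lit 0) (nat_lit 0) (XT.nd (nat_lit 94) (nat_lit 0) (nat_lit 0) (XT.lf (nat_lit 0) (nat_lit 3681443866) (nat_lit 0) (nat_lit 0) (nat_lit 0) (nat_lit 0) (nat_lit 0) (nat_lit 0) (nat_lit 1) (nat_lit 0) (nat_lit 1) (nat_lit 0) (nat_lit 421) (nat_lit 376) (nat_lit 283)) (XT.lf (nat_lit 0) (nat_lit 3681231572) (nat_lit 0) (nat_lit 0) (nat_lit 0) (nat_lit 0) (nat_lit 0) (nat_lit 0) (nat_lit 1) (nat_lit 0) (nat_lit 1) (nat_lit 0) (nat_lit 422) (nat_lit 376) (nat_lit 282))) (XT.nd (nat_lit 94) (nat_lit 0) (nat_lit 0) (XT.lf (nat_lit 0) (nat_lit 3681035004) (nat_lit 0) (nat_lit 0) (nat_lit 0) (nat_lit 0) (nat_lit 0) (nat_lit 0) (nat_lit 1) (nat_lit 0) (nat_lit 1) (nat_lit 0) (nat_lit 423)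 (nat_lit 376) (nat_lit 281)) (XT.nd (nat_lit 94) (nat_lit 0) (nat_lit 0) (XT.lf (nat_lit 0) (nat_lit 3680852997) (nat_lit 0) (nat_lit 0) (nat_lit 0) (nat_lit 0) (nat_lit 0) (nat_lit 0) (nat_lit 1) (nat_lit 0) (nat_lit 1) (nat_lit 0) (nat_lit 424) (nat_lit 376) (nat_lit 280)) (XT.lf (nat_lit 0) (nat_lit 3680684471) (nat_lit 0) (nat_lit 0) (nat_lit 0) (nat_lit 0) (nat_lit 0) (nat_lit 0) (nat_lit 1) (nat_lit 0) (nat_lit 1) (nat_lit 0) (nat_lit 425) (nat_lit 376) (nat_lit 279))))))))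
noncomputable def ec67 : XT := (XT.nd (nat_lit 59314) (nat_lit 0) (nat_lit 4200) (XT.nd (nat_lit 58374) (nat_lit 0) (nat_lit 9324) (XT.nd (nat_lit 376) (nat_lit 0) (nat_lit 0) (XT.nd (nat_lit 188) (nat_lit 0) (nat_lit 0) (XT.nd (nat_lit 94) (nat_lit 0) (nat_lit 0) (XT.lf (nat_lit 0) (nat_lit 3680528429) (nat_lit 0) (nat_lit 0) (nat_lit 0) (nat_lit 0) (nat_lit 0) (nat_lit 0) (nat_lit 1) (nat_lit 0) (nat_lit 1) (nat_lit 0) (nat_lit 426) (nat_lit 376) (nat_lit 278)) (XT.lf (nat_lit 0) (nat_lit 3680383946) (nat_lit 0) (nat_lit 0) (nat_lit 0) (nat_lit 0) (nat_lit 0) (nat_lit 0) (nat_lit 1) (nat_lit 0) (nat_lit 1) (nat_lit 0) (nat_lit 427) (nat_lit 376) (nat_lit 277))) (XT.nd (nat_lit 94) (nat_lit 0) (nat_lit 0) (XT.lf (nat_lit 0) (nat_lit 3680250165) (nat_lit 0) (nat_lit 0) (nat_lit 0) (nat_lit 0) (nat_lit 0) (nat_lit 0) (nat_lit 1) (nat_lit 0) (nat_lit 1) (nat_lit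 0) (nat_lit 428) (nat_lit 376) (nat_lit 276)) (XT.lf (nat_lit 0) (nat_lit 3680126293) (nat_lit 0) (nat_lit 0) (nat_lit 0) (nat_lit 0) (nat_lit 0) (nat_lit 0) (nat_lit 1) (nat_lit 0) (nat_lit 1) (nat_lit 0) (nat_lit 429) (nat_lit 376) (nat_lit 275)))) (XT.nd (nat_lit 188) (nat_lit 0) (nat_lit 0) (XT.nd (nat_lit 94) (nat_lit 0) (nat_lit 0) (XT.lf (nat_lit 0) (nat_lit 3680011598) (nat_lit 0) (nat_lit 0) (nat_lit 0) (nat_lit 0) (nat_lit 0) (nat_lit 0) (nat_lit 1) (nat_lit 0) (nat_lit 1) (nat_lit 0) (nat_lit 430) (nat_lit 376) (nat_lit 274)) (XT.lf (nat_lit 0) (nat_lit 3679905398) (nat_lit 0) (nat_lit 0) (nat_lit 0) (nat_lit 0) (nat_lit 0) (nat_lit 0) (nat_lit 1) (nat_lit 0) (nat_lit 1) (nat_lit 0) (nat_lit 431) (nat_lit 376) (nat_lit 273))) (XT.nd (nat_lit 94) (nat_lit 0) (nat_lit 0) (XT.lf (nat_lit 0) (nat_lit 3679807065) (nat_lit 0) (nat_lit 0) (nat_lit 0) (nat_lit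 0) (nat_lit 0) (nat_lit 0) (nat_lit 1) (nat_lit 0) (nat_lit 1) (nat_lit 0) (nat_lit 432) (nat_lit 376) (nat_lit 272)) (XT.nd (nat_lit 94) (nat_lit 0) (nat_lit 0) (XT.lf (nat_lit 0) (nat_lit 3679716016) (nat_lit 0) (nat_lit 0) (nat_lit 0) (nat_lit 0) (nat_lit 0) (nat_lit 0) (nat_lit 1) (nat_lit 0) (nat_lit 1) (nat_lit 0) (nat_lit 433) (nat_lit 376) (nat_lit 271)) (XT.lf (nat_lit 0) (nat_lit 3679631711) (nat_lit 0) (nat_lit 0) (nat_lit 0) (nat_lit 0) (nat_lit 0) (nat_lit 0) (nat_lit 1) (nat_lit 0) (nat_lit 1) (nat_lit 0) (nat_lit 434) (nat_lit 376) (nat_lit 270)))))) (XT.nd (nat_lit 470) (nat_lit 1428) (nat_lit 0) (XT.nd (nat_lit 188) (nat_lit 0) (nat_lit 84) (XT.nd (nat_lit 94) (nat_lit 0) (nat_lit 84) (XT.lf (nat_lit 924) (nat_lit 1988170027) (nat_lit 0) (nat_lit 3529991313) (nat_lit 924) (nat_lit 1988170027) (nat_lit 139) (nat_lit 1) (nat_lit 128) (nat_lit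 0) (nat_lit 139) (nat_lit 0) (nat_lit 326) (nat_lit 377) (nat_lit 377)) (XT.lf (nat_lit 924) (nat_lit 741648425) (nat_lit 0) (nat_lit 6930442804) (nat_lit 840) (nat_lit 6777949908) (nat_lit 140) (nat_lit 1) (nat_lit 129) (nat_lit 1) (nat_lit 139) (nat_lit 1) (nat_lit 327) (nat_lit 377) (nat_lit 376))) (XT.nd (nat_lit 94) (nat_lit 0) (nat_lit 84) (XT.lf (nat_lit 924) (nat_lit 6811612701) (nat_lit 84) (nat_lit 4641319882) (nat_lit 0) (nat_lit 2461544346) (nat_lit 140) (nat_lit 1) (nat_lit 130) (nat_lit 1) (nat_lit 129) (nat_lit 1) (nat_lit 328) (nat_lit 377) (nat_lit 375)) (XT.nd (nat_lit 94) (nat_lit 0) (nat_lit 84) (XT.lf (nat_lit 924) (nat_lit 5885791389) (nat_lit 84) (nat_lit 1945144991) (nat_lit 0) (nat_lit 5574777332) (nat_lit 141) (nat_lit 1) (nat_lit 131) (nat_lit 1) (nat_lit 130) (nat_lit 1) (nat_lit 329) (nat_lit 377) (nat_lit 374)) (XT.lf (nat_lit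 924) (nat_lit 4355986020) (nat_lit 0) (nat_lit 8149843946) (nat_lit 840) (nat_lit 416618858) (nat_lit 142) (nat_lit 1) (nat_lit 131) (nat_lit 1) (nat_lit 141) (nat_lit 1) (nat_lit 330) (nat_lit 377) (nat_lit 373))))) (XT.nd (nat_lit 188) (nat_lit 1764) (nat_lit 0) (XT.nd (nat_lit 94) (nat_lit 0) (nat_lit 0) (XT.lf (nat_lit 924) (nat_lit 1045176136) (nat_lit 0) (nat_lit 8987467065) (nat_lit 840) (nat_lit 2429620016) (nat_lit 143) (nat_lit 1) (nat_lit 132) (nat_lit 1) (nat_lit 142) (nat_lit 1) (nat_lit 331) (nat_lit 377) (nat_lit 372)) (XT.lf (nat_lit 924) (nat_lit 2008403425) (nat_lit 84) (nat_lit 7810840760) (nat_lit 0) (nat_lit 2204315630) (nat_lit 143) (nat_lit 1) (nat_lit 133) (nat_lit 1) (nat_lit 132) (nat_lit 1) (nat_lit 332) (nat_lit 377) (nat_lit 371))) (XT.nd (nat_lit 94) (nat_lit 1008) (nat_lit 0) (XT.lf (nat_lit 924) (nat_lit 412480265) (nat_lit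 0) (nat_lit 5839120135) (nat_lit 840) (nat_lit 5354411983) (nat_lit 134) (nat_lit 1) (nat_lit 123) (nat_lit 1) (nat_lit 133) (nat_lit 1) (nat_lit 333) (nat_lit 377) (nat_lit 370)) (XT.nd (nat_lit 94) (nat_lit 420) (nat_lit 0) (XT.lf (nat_lit 84) (nat_lit 2856099283) (nat_lit 0) (nat_lit 1237680731) (nat_lit 588) (nat_lit 7114455406) (nat_lit 117) (nat_lit 1) (nat_lit 116) (nat_lit 1) (nat_lit 123) (nat_lit 1) (nat_lit 334) (nat_lit 377) (nat_lit 369)) (XT.lf (nat_lit 504) (nat_lit 7871050136) (nat_lit 0) (nat_lit 2562196505) (nat_lit 420) (nat_lit 396131411) (nat_lit 117) (nat_lit 1) (nat_lit 111) (nat_lit 1) (nat_lit 116) (nat_lit 1) (nat_lit 335) (nat_lit 377) (nat_lit 368))))))) (XT.nd (nat_lit 846) (nat_lit 2352) (nat_lit 0) (XT.nd (nat_lit 376) (nat_lit 1596) (nat_lit 0) (XT.nd (nat_lit 188) (nat_lit 420) (nat_lit 0) (XT.nd (nat_lit 94) (nat_lit 336)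 (nat_lit 0) (XT.lf (nat_lit 504) (nat_lit 5679824732) (nat_lit 0) (nat_lit 1194250828) (nat_lit 420) (nat_lit 3592735314) (nat_lit 112) (nat_lit 1) (nat_lit 106) (nat_lit 1) (nat_lit 111) (nat_lit 1) (nat_lit 336) (nat_lit 377) (nat_lit 367)) (XT.lf (nat_lit 420) (nat_lit 3456100909) (nat_lit 0) (nat_lit 21988098) (nat_lit 336) (nat_lit 6643734782) (nat_lit 107) (nat_lit 1) (nat_lit 102) (nat_lit 1) (nat_lit 106) (nat_lit 1) (nat_lit 337) (nat_lit 377) (nat_lit 366))) (XT.nd (nat_lit 94) (nat_lit 420) (nat_lit 0) (XT.lf (nat_lit 84) (nat_lit 254974791) (nat_lit 0) (nat_lit 8598985474) (nat_lit 420) (nat_lit 938746461) (nat_lit 103) (nat_lit 1) (nat_lit 102) (nat_lit 1) (nat_lit 107) (nat_lit 1) (nat_lit 338) (nat_lit 377) (nat_lit 365)) (XT.lf (nat_lit 84) (nat_lit 6583515252) (nat_lit 0) (nat_lit 1091946447) (nat_lit 420) (nat_lit 1800818004) (nat_lit 98)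 (nat_lit 1) (nat_lit 97) (nat_lit 1) (nat_lit 102) (nat_lit 1) (nat_lit 339) (nat_lit 377) (nat_lit 364)))) (XT.nd (nat_lit 188) (nat_lit 924) (nat_lit 0) (XT.nd (nat_lit 94) (nat_lit 336) (nat_lit 0) (XT.lf (nat_lit 84) (nat_lit 3293899511) (nat_lit 0) (nat_lit 3344825807) (nat_lit 420) (nat_lit 2535108722) (nat_lit 94) (nat_lit 1) (nat_lit 93) (nat_lit 1) (nat_lit 98) (nat_lit 1) (nat_lit 340) (nat_lit 377) (nat_lit 363)) (XT.lf (nat_lit 84) (nat_lit 162579575) (nat_lit 0) (nat_lit 5592496812) (nat_lit 420) (nat_lit 3130631791) (nat_lit 90) (nat_lit 1) (nat_lit 89) (nat_lit 1) (nat_lit 94) (nat_lit 1) (nat_lit 341) (nat_lit 377) (nat_lit 362))) (XT.nd (nat_lit 94) (nat_lit 672) (nat_lit 0) (XT.lf (nat_lit 336) (nat_lit 734200201) (nat_lit 0) (nat_lit 4965044522) (nat_lit 252) (nat_lit 2909630199) (nat_lit 90) (nat_lit 1) (nat_lit 86) (nat_lit 1) (nat_lit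 89) (nat_lit 1) (nat_lit 342) (nat_lit 377) (nat_lit 361)) (XT.nd (nat_lit 94) (nat_lit 252) (nat_lit 0) (XT.lf (nat_lit 84) (nat_lit 2536859092) (nat_lit 0) (nat_lit 1738778985) (nat_lit 420) (nat_lit 4067840071) (nat_lit 82) (nat_lit 1) (nat_lit 81) (nat_lit 1) (nat_lit 86) (nat_lit 1) (nat_lit 343) (nat_lit 377) (nat_lit 360)) (XT.lf (nat_lit 336) (nat_lit 3927668068) (nat_lit 0) (nat_lit 3689536511) (nat_lit 252) (nat_lit 472256294) (nat_lit 82) (nat_lit 1) (nat_lit 78) (nat_lit 1) (nat_lit 81) (nat_lit 1) (nat_lit 344) (nat_lit 377) (nat_lit 359)))))) (XT.nd (nat_lit 470) (nat_lit 1008) (nat_lit 0) (XT.nd (nat_lit 188) (nat_lit 756) (nat_lit 0) (XT.nd (nat_lit 94) (nat_lit 336) (nat_lit 0) (XT.lf (nat_lit 336) (nat_lit 1258798641) (nat_lit 0) (nat_lit 3176539851) (nat_lit 252) (nat_lit 3409867062) (nat_lit 79) (nat_lit 1) (nat_lit 75) (nat_lit 1) (nat_lit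 78) (nat_lit 1) (nat_lit 345) (nat_lit 377) (nat_lit 358)) (XT.lf (nat_lit 84) (nat_lit 1434726284) (nat_lit 0) (nat_lit 1313616594) (nat_lit 336) (nat_lit 4862751739) (nat_lit 72) (nat_lit 1) (nat_lit 71) (nat_lit 1) (nat_lit 75) (nat_lit 1) (nat_lit 346) (nat_lit 377) (nat_lit 357))) (XT.nd (nat_lit 94) (nat_lit 504) (nat_lit 0) (XT.lf (nat_lit 336) (nat_lit 3570128051) (nat_lit 0) (nat_lit 2375430907) (nat_lit 252) (nat_lit 1439994025) (nat_lit 72) (nat_lit 1) (nat_lit 68) (nat_lit 1) (nat_lit 71) (nat_lit 1) (nat_lit 347) (nat_lit 377) (nat_lit 356)) (XT.nd (nat_lit 94) (nat_lit 336) (nat_lit 0) (XT.lf (nat_lit 252) (nat_lit 885040015) (nat_lit 0) (nat_lit 2072390202) (nat_lit 168) (nat_lit 4211680112) (nat_lit 69) (nat_lit 1) (nat_lit 66) (nat_lit 1) (nat_lit 68) (nat_lit 1) (nat_lit 348) (nat_lit 377) (nat_lit 355)) (XT.lf (nat_lit 84) (nat_lit 149931432)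 (nat_lit 0) (nat_lit 1677765283) (nat_lit 336) (nat_lit 5133360846) (nat_lit 63) (nat_lit 1) (nat_lit 62) (nat_lit 1) (nat_lit 66) (nat_lit 1) (nat_lit 349) (nat_lit 377) (nat_lit 354))))) (XT.nd (nat_lit 188) (nat_lit 588) (nat_lit 0) (XT.nd (nat_lit 94) (nat_lit 252) (nat_lit 0) (XT.lf (nat_lit 252) (nat_lit 2571763891) (nat_lit 0) (nat_lit 1607131801) (nat_lit 168) (nat_lit 2580713656) (nat_lit 63) (nat_lit 1) (nat_lit 60) (nat_lit 1) (nat_lit 62) (nat_lit 1) (nat_lit 350) (nat_lit 377) (nat_lit 353)) (XT.lf (nat_lit 84) (nat_lit 1395331613) (nat_lit 0) (nat_lit 64451242) (nat_lit 252) (nat_lit 5107168787) (nat_lit 58) (nat_lit 1) (nat_lit 57) (nat_lit 1) (nat_lit 60) (nat_lit 1) (nat_lit 351) (nat_lit 377) (nat_lit 352))) (XT.nd (nat_lit 94) (nat_lit 420) (nat_lit 0) (XT.lf (nat_lit 252) (nat_lit 3814567185) (nat_lit 0) (nat_lit 1321833059) (nat_lit 168)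 (nat_lit 1243497965) (nat_lit 58) (nat_lit 1) (nat_lit 55) (nat_lit 1) (nat_lit 57) (nat_lit 1) (nat_lit 352) (nat_lit 377) (nat_lit 351)) (XT.nd (nat_lit 94) (nat_lit 252) (nat_lit 0) (XT.lf (nat_lit 252) (nat_lit 1184957428) (nat_lit 0) (nat_lit 1228789999) (nat_lit 168) (nat_lit 3786249223) (nat_lit 56) (nat_lit 1) (nat_lit 53) (nat_lit 1) (nat_lit 55) (nat_lit 1) (nat_lit 353) (nat_lit 377) (nat_lit 350)) (XT.lf (nat_lit 252) (nat_lit 4703845505) (nat_lit 0) (nat_lit 1174009109) (nat_lit 168) (nat_lit 148936676) (nat_lit 53) (nat_lit 1) (nat_lit 50) (nat_lit 1) (nat_lit 52) (nat_lit 1) (nat_lit 354) (nat_lit 377) (nat_lit 349))))))))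
noncomputable def ec68 : XT := (XT.nd (nat_lit 1692) (nat_lit 1512) (nat_lit 0) (XT.nd (nat_lit 846) (nat_lit 1176) (nat_lit 0) (XT.nd (nat_lit 376) (nat_lit 924) (nat_lit 0) (XT.nd (nat_lit 188) (nat_lit 252) (nat_lit 0) (XT.nd (nat_lit 94) (nat_lit 168) (nat_lit 0) (XT.lf (nat_lit 252) (nat_lit 2105223243) (nat_lit 0) (nat_lit 1120782886) (nat_lit 168) (nat_lit 2632392632) (nat_lit 51) (nat_lit 1) (nat_lit 48) (nat_lit 1) (nat_lit 50) (nat_lit 1) (nat_lit 355) (nat_lit 377) (nat_lit 348)) (XT.lf (nat_lit 84) (nat_lit 721120241) (nat_lit 0) (nat_lit 396360179) (nat_lit 168) (nat_lit 4579510299) (nat_lit 47) (nat_lit 1) (nat_lit 46) (nat_lit 1) (nat_lit 48) (nat_lit 1) (nat_lit 356) (nat_lit 377) (nat_lit 347))) (XT.nd (nat_lit 94) (nat_lit 84) (nat_lit 0) (XT.lf (nat_lit 252) (nat_lit 2762173968) (nat_lit 0) (nat_lit 1105647546) (nat_lit 168) (nat_lit 1671834140)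 (nat_lit 47) (nat_lit 1) (nat_lit 44) (nat_lit 1) (nat_lit 46) (nat_lit 1) (nat_lit 357) (nat_lit 377) (nat_lit 346)) (XT.lf (nat_lit 168) (nat_lit 297446886) (nat_lit 0) (nat_lit 1132803679) (nat_lit 84) (nat_lit 3958281412) (nat_lit 45) (nat_lit 1) (nat_lit 43) (nat_lit 1) (nat_lit 44) (nat_lit 1) (nat_lit 358) (nat_lit 377) (nat_lit 345)))) (XT.nd (nat_lit 188) (nat_lit 588) (nat_lit 0) (XT.nd (nat_lit 94) (nat_lit 84) (nat_lit 0) (XT.lf (nat_lit 252) (nat_lit 3210829322) (nat_lit 0) (nat_lit 1158555871) (nat_lit 168) (nat_lit 872190052) (nat_lit 43) (nat_lit 1) (nat_lit 40) (nat_lit 1) (nat_lit 42) (nat_lit 1) (nat_lit 359) (nat_lit 377) (nat_lit 344)) (XT.lf (nat_lit 168) (nat_lit 807547251) (nat_lit 0) (nat_lit 1201875442) (nat_lit 84) (nat_lit 3090148558) (nat_lit 41) (nat_lit 1) (nat_lit 39) (nat_lit 1) (nat_lit 40) (nat_lit 1) (nat_lit 360) (nat_lit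 377) (nat_lit 343))) (XT.nd (nat_lit 94) (nat_lit 336) (nat_lit 0) (XT.lf (nat_lit 252) (nat_lit 3495673452) (nat_lit 0) (nat_lit 1259842251) (nat_lit 168) (nat_lit 206750898) (nat_lit 39) (nat_lit 1) (nat_lit 36) (nat_lit 1) (nat_lit 38) (nat_lit 1) (nat_lit 361) (nat_lit 377) (nat_lit 342)) (XT.nd (nat_lit 94) (nat_lit 252) (nat_lit 0) (XT.lf (nat_lit 168) (nat_lit 1162171283) (nat_lit 0) (nat_lit 1313400685) (nat_lit 84) (nat_lit 2353070753) (nat_lit 37) (nat_lit 1) (nat_lit 35) (nat_lit 1) (nat_lit 36) (nat_lit 1) (nat_lit 362) (nat_lit 377) (nat_lit 341)) (XT.lf (nat_lit 84) (nat_lit 335448882) (nat_lit 0) (nat_lit 1052884624) (nat_lit 252) (nat_lit 3311485783) (nat_lit 33) (nat_lit 1) (nat_lit 32) (nat_lit 1) (nat_lit 35) (nat_lit 1) (nat_lit 363) (nat_lit 377) (nat_lit 340)))))) (XT.nd (nat_lit 376) (nat_lit 588) (nat_lit 0) (XT.nd (nat_lit 188) (nat_lit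 252) (nat_lit 0) (XT.nd (nat_lit 94) (nat_lit 252) (nat_lit 0) (XT.lf (nat_lit 168) (nat_lit 1394710394) (nat_lit 0) (nat_lit 1453222123) (nat_lit 84) (nat_lit 1726262590) (nat_lit 33) (nat_lit 1) (nat_lit 31) (nat_lit 1) (nat_lit 32) (nat_lit 1) (nat_lit 364) (nat_lit 377) (nat_lit 339)) (XT.lf (nat_lit 84) (nat_lit 780129196) (nat_lit 0) (nat_lit 755607878) (nat_lit 252) (nat_lit 2917248593) (nat_lit 29) (nat_lit 1) (nat_lit 28) (nat_lit 1) (nat_lit 31) (nat_lit 1) (nat_lit 365) (nat_lit 377) (nat_lit 338))) (XT.nd (nat_lit 94) (nat_lit 168) (nat_lit 0) (XT.lf (nat_lit 168) (nat_lit 1532092497) (nat_lit 0) (nat_lit 1610288399) (nat_lit 84) (nat_lit 1192492186) (nat_lit 29) (nat_lit 1) (nat_lit 27) (nat_lit 1) (nat_lit 28) (nat_lit 1) (nat_lit 366) (nat_lit 377) (nat_lit 337)) (XT.lf (nat_lit 84) (nat_lit 1148530574) (nat_lit 0) (nat_lit 547254268) (nat_lit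 168) (nat_lit 2524876370) (nat_lit 26) (nat_lit 1) (nat_lit 25) (nat_lit 1) (nat_lit 27) (nat_lit 1) (nat_lit 367) (nat_lit 377) (nat_lit 336)))) (XT.nd (nat_lit 188) (nat_lit 336) (nat_lit 0) (XT.nd (nat_lit 94) (nat_lit 168) (nat_lit 0) (XT.lf (nat_lit 168) (nat_lit 1595989758) (nat_lit 0) (nat_lit 1776048750) (nat_lit 84) (nat_lit 737447306) (nat_lit 26) (nat_lit 1) (nat_lit 24) (nat_lit 1) (nat_lit 25) (nat_lit 1) (nat_lit 368) (nat_lit 377) (nat_lit 335)) (XT.lf (nat_lit 84) (nat_lit 1452784387) (nat_lit 0) (nat_lit 408258819) (nat_lit 168) (nat_lit 2140686850) (nat_lit 23) (nat_lit 1) (nat_lit 22) (nat_lit 1) (nat_lit 24) (nat_lit 1) (nat_lit 369) (nat_lit 377) (nat_lit 334))) (XT.nd (nat_lit 94) (nat_lit 252) (nat_lit 0) (XT.lf (nat_lit 168) (nat_lit 1603803384) (nat_lit 0) (nat_lit 1943961048) (nat_lit 84) (nat_lit 349216622) (nat_lit 23) (nat_lit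 1) (nat_lit 21) (nat_lit 1) (nat_lit 22) (nat_lit 1) (nat_lit 370) (nat_lit 377) (nat_lit 333)) (XT.nd (nat_lit 94) (nat_lit 84) (nat_lit 0) (XT.lf (nat_lit 84) (nat_lit 1702973161) (nat_lit 0) (nat_lit 322889477) (nat_lit 168) (nat_lit 1769340395) (nat_lit 20) (nat_lit 1) (nat_lit 19) (nat_lit 1) (nat_lit 21) (nat_lit 1) (nat_lit 371) (nat_lit 377) (nat_lit 332)) (XT.lf (nat_lit 168) (nat_lit 1569466448) (nat_lit 0) (nat_lit 2109092274) (nat_lit 84) (nat_lit 17865034) (nat_lit 20) (nat_lit 1) (nat_lit 18) (nat_lit 1) (nat_lit 19) (nat_lit 1) (nat_lit 372) (nat_lit 377) (nat_lit 331))))))) (XT.nd (nat_lit 846) (nat_lit 336) (nat_lit 0) (XT.nd (nat_lit 376) (nat_lit 672) (nat_lit 0) (XT.nd (nat_lit 188) (nat_lit 252) (nat_lit 0) (XT.nd (nat_lit 94) (nat_lit 84) (nat_lit 0) (XT.lf (nat_lit 84) (nat_lit 1907493236) (nat_lit 0) (nat_lit 278527400) (nat_lit 168)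 (nat_lit 1414177741) (nat_lit 17) (nat_lit 1) (nat_lit 16) (nat_lit 1) (nat_lit 18) (nat_lit 1) (nat_lit 373) (nat_lit 377) (nat_lit 330)) (XT.lf (nat_lit 0) (nat_lit 256435202) (nat_lit 0) (nat_lit 2007016254) (nat_lit 168) (nat_lit 1243320154) (nat_lit 15) (nat_lit 3) (nat_lit 15) (nat_lit 1) (nat_lit 17) (nat_lit 1) (nat_lit 374) (nat_lit 377) (nat_lit 329))) (XT.nd (nat_lit 94) (nat_lit 84) (nat_lit 0) (XT.lf (nat_lit 84) (nat_lit 2073351790) (nat_lit 0) (nat_lit 265080371) (nat_lit 168) (nat_lit 1077493620) (nat_lit 14) (nat_lit 1) (nat_lit 13) (nat_lit 1) (nat_lit 15) (nat_lit 1) (nat_lit 375) (nat_lit 377) (nat_lit 328)) (XT.lf (nat_lit 0) (nat_lit 489886105) (nat_lit 0) (nat_lit 1919258576) (nat_lit 168) (nat_lit 918354699) (nat_lit 12) (nat_lit 3) (nat_lit 12) (nat_lit 1) (nat_lit 14) (nat_lit 1) (nat_lit 376) (nat_lit 377) (nat_lit 327)))) (XT.nd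 (nat_lit 188) (nat_lit 420) (nat_lit 0) (XT.nd (nat_lit 94) (nat_lit 84) (nat_lit 0) (XT.lf (nat_lit 84) (nat_lit 2206410198) (nat_lit 0) (nat_lit 274504808) (nat_lit 168) (nat_lit 760758171) (nat_lit 11) (nat_lit 1) (nat_lit 10) (nat_lit 1) (nat_lit 12) (nat_lit 1) (nat_lit 377) (nat_lit 377) (nat_lit 326)) (XT.lf (nat_lit 0) (nat_lit 688725346) (nat_lit 0) (nat_lit 1855826781) (nat_lit 168) (nat_lit 613386545) (nat_lit 9) (nat_lit 3) (nat_lit 9) (nat_lit 1) (nat_lit 11) (nat_lit 1) (nat_lit 378) (nat_lit 377) (nat_lit 325))) (XT.nd (nat_lit 94) (nat_lit 252) (nat_lit 0) (XT.lf (nat_lit 84) (nat_lit 2311583520) (nat_lit 0) (nat_lit 300416413) (nat_lit 168) (nat_lit 464795830) (nat_lit 8) (nat_lit 1) (nat_lit 7) (nat_lit 1) (nat_lit 9) (nat_lit 1) (nat_lit 379) (nat_lit 377) (nat_lit 324)) (XT.nd (nat_lit 94) (nat_lit 168) (nat_lit 0) (XT.lf (nat_lit 0) (nat_lit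 857729830) (nat_lit 0) (nat_lit 1810683514) (nat_lit 168) (nat_lit 329057250) (nat_lit 6) (nat_lit 3) (nat_lit 6) (nat_lit 1) (nat_lit 8) (nat_lit 1) (nat_lit 380) (nat_lit 377) (nat_lit 323)) (XT.lf (nat_lit 84) (nat_lit 2393004131) (nat_lit 0) (nat_lit 337773117) (nat_lit 168) (nat_lit 189929630) (nat_lit 5) (nat_lit 1) (nat_lit 4) (nat_lit 1) (nat_lit 6) (nat_lit 1) (nat_lit 381) (nat_lit 377) (nat_lit 322)))))) (XT.nd (nat_lit 470) (nat_lit 0) (nat_lit 0) (XT.nd (nat_lit 188) (nat_lit 0) (nat_lit 0) (XT.nd (nat_lit 94) (nat_lit 252) (nat_lit 0) (XT.lf (nat_lit 0) (nat_lit 1000939682) (nat_lit 0) (nat_lit 1779038908) (nat_lit 168) (nat_lit 65552603) (nat_lit 3) (nat_lit 3) (nat_lit 3) (nat_lit 1) (nat_lit 5) (nat_lit 1) (nat_lit 382) (nat_lit 377) (nat_lit 321)) (XT.lf (nat_lit 0) (nat_lit 4022289473) (nat_lit 0) (nat_lit 0) (nat_lit 0) (nat_lit 0) (nat_lit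 0) (nat_lit 0) (nat_lit 1) (nat_lit 0) (nat_lit 1) (nat_lit 0) (nat_lit 383) (nat_lit 377) (nat_lit 320))) (XT.nd (nat_lit 94) (nat_lit 0) (nat_lit 0) (XT.lf (nat_lit 0) (nat_lit 4018628337) (nat_lit 0) (nat_lit 0) (nat_lit 0) (nat_lit 0) (nat_lit 0) (nat_lit 0) (nat_lit 1) (nat_lit 0) (nat_lit 1) (nat_lit 0) (nat_lit 384) (nat_lit 377) (nat_lit 319)) (XT.nd (nat_lit 94) (nat_lit 0) (nat_lit 0) (XT.lf (nat_lit 0) (nat_lit 4015238396) (nat_lit 0) (nat_lit 0) (nat_lit 0) (nat_lit 0) (nat_lit 0) (nat_lit 0) (nat_lit 1) (nat_lit 0) (nat_lit 1) (nat_lit 0) (nat_lit 385) (nat_lit 377) (nat_lit 318)) (XT.lf (nat_lit 0) (nat_lit 4012099562) (nat_lit 0) (nat_lit 0) (nat_lit 0) (nat_lit 0) (nat_lit 0) (nat_lit 0) (nat_lit 1) (nat_lit 0) (nat_lit 1) (nat_lit 0) (nat_lit 386) (nat_lit 377) (nat_lit 317))))) (XT.nd (nat_lit 188) (nat_lit 0) (nat_lit 0) (XT.nd (nat_lit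 94) (nat_lit 0) (nat_lit 0) (XT.lf (nat_lit 0) (nat_lit 4009193234) (nat_lit 0) (nat_lit 0) (nat_lit 0) (nat_lit 0) (nat_lit 0) (nat_lit 0) (nat_lit 1) (nat_lit 0) (nat_lit 1) (nat_lit 0) (nat_lit 387) (nat_lit 377) (nat_lit 316)) (XT.lf (nat_lit 0) (nat_lit 4006502189) (nat_lit 0) (nat_lit 0) (nat_lit 0) (nat_lit 0) (nat_lit 0) (nat_lit 0) (nat_lit 1) (nat_lit 0) (nat_lit 1) (nat_lit 0) (nat_lit 388) (nat_lit 377) (nat_lit 315))) (XT.nd (nat_lit 94) (nat_lit 0) (nat_lit 0) (XT.lf (nat_lit 0) (nat_lit 4004010481) (nat_lit 0) (nat_lit 0) (nat_lit 0) (nat_lit 0) (nat_lit 0) (nat_lit 0) (nat_lit 1) (nat_lit 0) (nat_lit 1) (nat_lit 0) (nat_lit 389) (nat_lit 377) (nat_lit 314)) (XT.nd (nat_lit 94) (nat_lit 0) (nat_lit 0) (XT.lf (nat_lit 0) (nat_lit 4001703345) (nat_lit 0) (nat_lit 0) (nat_lit 0) (nat_lit 0) (nat_lit 0) (nat_lit 0) (nat_lit 1) (nat_lit 0) (nat_lit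 1) (nat_lit 0) (nat_lit 390) (nat_lit 377) (nat_lit 313)) (XT.lf (nat_lit 0) (nat_lit 3999567107) (nat_lit 0) (nat_lit 0) (nat_lit 0) (nat_lit 0) (nat_lit 0) (nat_lit 0) (nat_lit 1) (nat_lit 0) (nat_lit 1) (nat_lit 0) (nat_lit 391) (nat_lit 377) (nat_lit 312))))))))
noncomputable def ec69 : XT := (XT.nd (nat_lit 1786) (nat_lit 0) (nat_lit 0) (XT.nd (nat_lit 846) (nat_lit 0) (nat_lit 0) (XT.nd (nat_lit 376) (nat_lit 0) (nat_lit 0) (XT.nd (nat_lit 188) (nat_lit 0) (nat_lit 0) (XT.nd (nat_lit 94) (nat_lit 0) (nat_lit 0) (XT.lf (nat_lit 0) (nat_lit 3997589109) (nat_lit 0) (nat_lit 0) (nat_lit 0) (nat_lit 0) (nat_lit 0) (nat_lit 0) (nat_lit 1) (nat_lit 0) (nat_lit 1) (nat_lit 0) (nat_lit 392) (nat_lit 377) (nat_lit 311)) (XT.lf (nat_lit 0) (nat_lit 3995757629) (nat_lit 0) (nat_lit 0) (nat_lit 0) (nat_lit 0) (nat_lit 0) (nat_lit 0) (nat_lit 1) (nat_lit 0) (nat_lit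 1) (nat_lit 0) (nat_lit 393) (nat_lit 377) (nat_lit 310))) (XT.nd (nat_lit 94) (nat_lit 0) (nat_lit 0) (XT.lf (nat_lit 0) (nat_lit 3994061815) (nat_lit 0) (nat_lit 0) (nat_lit 0) (nat_lit 0) (nat_lit 0) (nat_lit 0) (nat_lit 1) (nat_lit 0) (nat_lit 1) (nat_lit 0) (nat_lit 394) (nat_lit 377) (nat_lit 309)) (XT.lf (nat_lit 0) (nat_lit 3992491616) (nat_lit 0) (nat_lit 0) (nat_lit 0) (nat_lit 0) (nat_lit 0) (nat_lit 0) (nat_lit 1) (nat_lit 0) (nat_lit 1) (nat_lit 0) (nat_lit 395) (nat_lit 377) (nat_lit 308)))) (XT.nd (nat_lit 188) (nat_lit 0) (nat_lit 0) (XT.nd (nat_lit 94) (nat_lit 0) (nat_lit 0) (XT.lf (nat_lit 0) (nat_lit 3991037729) (nat_lit 0) (nat_lit 0) (nat_lit 0) (nat_lit 0) (nat_lit 0) (nat_lit 0) (nat_lit 1) (nat_lit 0) (nat_lit 1) (nat_lit 0) (nat_lit 396) (nat_lit 377) (nat_lit 307)) (XT.lf (nat_lit 0) (nat_lit 3989691537) (nat_lit 0) (nat_lit 0) (nat_lit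 0) (nat_lit 0) (nat_lit 0) (nat_lit 0) (nat_lit 1) (nat_lit 0) (nat_lit 1) (nat_lit 0) (nat_lit 397) (nat_lit 377) (nat_lit 306))) (XT.nd (nat_lit 94) (nat_lit 0) (nat_lit 0) (XT.lf (nat_lit 0) (nat_lit 3988445062) (nat_lit 0) (nat_lit 0) (nat_lit 0) (nat_lit 0) (nat_lit 0) (nat_lit 0) (nat_lit 1) (nat_lit 0) (nat_lit 1) (nat_lit 0) (nat_lit 398) (nat_lit 377) (nat_lit 305)) (XT.nd (nat_lit 94) (nat_lit 0) (nat_lit 0) (XT.lf (nat_lit 0) (nat_lit 3987290920) (nat_lit 0) (nat_lit 0) (nat_lit 0) (nat_lit 0) (nat_lit 0) (nat_lit 0) (nat_lit 1) (nat_lit 0) (nat_lit 1) (nat_lit 0) (nat_lit 399) (nat_lit 377) (nat_lit 304)) (XT.lf (nat_lit 0) (nat_lit 3986222269) (nat_lit 0) (nat_lit 0) (nat_lit 0) (nat_lit 0) (nat_lit 0) (nat_lit 0) (nat_lit 1) (nat_lit 0) (nat_lit 1) (nat_lit 0) (nat_lit 400) (nat_lit 377) (nat_lit 303)))))) (XT.nd (nat_lit 470) (nat_lit 0) (nat_lit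 0) (XT.nd (nat_lit 188) (nat_lit 0) (nat_lit 0) (XT.nd (nat_lit 94) (nat_lit 0) (nat_lit 0) (XT.lf (nat_lit 0) (nat_lit 3985232777) (nat_lit 0) (nat_lit 0) (nat_lit 0) (nat_lit 0) (nat_lit 0) (nat_lit 0) (nat_lit 1) (nat_lit 0) (nat_lit 1) (nat_lit 0) (nat_lit 401) (nat_lit 377) (nat_lit 302)) (XT.lf (nat_lit 0) (nat_lit 3984316582) (nat_lit 0) (nat_lit 0) (nat_lit 0) (nat_lit 0) (nat_lit 0) (nat_lit 0) (nat_lit 1) (nat_lit 0) (nat_lit 1) (nat_lit 0) (nat_lit 402) (nat_lit 377) (nat_lit 301))) (XT.nd (nat_lit 94) (nat_lit 0) (nat_lit 0) (XT.lf (nat_lit 0) (nat_lit 3983468252) (nat_lit 0) (nat_lit 0) (nat_lit 0) (nat_lit 0) (nat_lit 0) (nat_lit 0) (nat_lit 1) (nat_lit 0) (nat_lit 1) (nat_lit 0) (nat_lit 403) (nat_lit 377) (nat_lit 300)) (XT.nd (nat_lit 94) (nat_lit 0) (nat_lit 0) (XT.lf (nat_lit 0) (nat_lit 3982682762) (nat_lit 0) (nat_lit 0) (nat_lit 0) (nat_lit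 0) (nat_lit 0) (nat_lit 0) (nat_lit 1) (nat_lit 0) (nat_lit 1) (nat_lit 0) (nat_lit 404) (nat_lit 377) (nat_lit 299)) (XT.lf (nat_lit 0) (nat_lit 3981955456) (nat_lit 0) (nat_lit 0) (nat_lit 0) (nat_lit 0) (nat_lit 0) (nat_lit 0) (nat_lit 1) (nat_lit 0) (nat_lit 1) (nat_lit 0) (nat_lit 405) (nat_lit 377) (nat_lit 298))))) (XT.nd (nat_lit 188) (nat_lit 0) (nat_lit 0) (XT.nd (nat_lit 94) (nat_lit 0) (nat_lit 0) (XT.lf (nat_lit 0) (nat_lit 3981282025) (nat_lit 0) (nat_lit 0) (nat_lit 0) (nat_lit 0) (nat_lit 0) (nat_lit 0) (nat_lit 1) (nat_lit 0) (nat_lit 1) (nat_lit 0) (nat_lit 406) (nat_lit 377) (nat_lit 297)) (XT.lf (nat_lit 0) (nat_lit 3980658478) (nat_lit 0) (nat_lit 0) (nat_lit 0) (nat_lit 0) (nat_lit 0) (nat_lit 0) (nat_lit 1) (nat_lit 0) (nat_lit 1) (nat_lit 0) (nat_lit 407) (nat_lit 377) (nat_lit 296))) (XT.nd (nat_lit 94) (nat_lit 0) (nat_lit 0) (XT.lf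 (nat_lit 0) (nat_lit 3980081119) (nat_lit 0) (nat_lit 0) (nat_lit 0) (nat_lit 0) (nat_lit 0) (nat_lit 0) (nat_lit 1) (nat_lit 0) (nat_lit 1) (nat_lit 0) (nat_lit 408) (nat_lit 377) (nat_lit 295)) (XT.nd (nat_lit 94) (nat_lit 0) (nat_lit 0) (XT.lf (nat_lit 0) (nat_lit 3979546527) (nat_lit 0) (nat_lit 0) (nat_lit 0) (nat_lit 0) (nat_lit 0) (nat_lit 0) (nat_lit 1) (nat_lit 0) (nat_lit 1) (nat_lit 0) (nat_lit 409) (nat_lit 377) (nat_lit 294)) (XT.lf (nat_lit 0) (nat_lit 3979051535) (nat_lit 0) (nat_lit 0) (nat_lit 0) (nat_lit 0) (nat_lit 0) (nat_lit 0) (nat_lit 1) (nat_lit 0) (nat_lit 1) (nat_lit 0) (nat_lit 410) (nat_lit 377) (nat_lit 293))))))) (XT.nd (nat_lit 846) (nat_lit 0) (nat_lit 0) (XT.nd (nat_lit 376) (nat_lit 0) (nat_lit 0) (XT.nd (nat_lit 188) (nat_lit 0) (nat_lit 0) (XT.nd (nat_lit 94) (nat_lit 0) (nat_lit 0) (XT.lf (nat_lit 0) (nat_lit 3978593209)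 (nat_lit 0) (nat_lit 0) (nat_lit 0) (nat_lit 0) (nat_lit 0) (nat_lit 0) (nat_lit 1) (nat_lit 0) (nat_lit 1) (nat_lit 0) (nat_lit 411) (nat_lit 377) (nat_lit 292)) (XT.lf (nat_lit 0) (nat_lit 3978168833) (nat_lit 0) (nat_lit 0) (nat_lit 0) (nat_lit 0) (nat_lit 0) (nat_lit 0) (nat_lit 1) (nat_lit 0) (nat_lit 1) (nat_lit 0) (nat_lit 412) (nat_lit 377) (nat_lit 291))) (XT.nd (nat_lit 94) (nat_lit 0) (nat_lit 0) (XT.lf (nat_lit 0) (nat_lit 3977775893) (nat_lit 0) (nat_lit 0) (nat_lit 0) (nat_lit 0) (nat_lit 0) (nat_lit 0) (nat_lit 1) (nat_lit 0) (nat_lit 1) (nat_lit 0) (nat_lit 413) (nat_lit 377) (nat_lit 290)) (XT.lf (nat_lit 0) (nat_lit 3977412059) (nat_lit 0) (nat_lit 0) (nat_lit 0) (nat_lit 0) (nat_lit 0) (nat_lit 0) (nat_lit 1) (nat_lit 0) (nat_lit 1) (nat_lit 0) (nat_lit 414) (nat_lit 377) (nat_lit 289)))) (XT.nd (nat_lit 188) (nat_lit 0) (nat_lit 0) (XT.nd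 (nat_lit 94) (nat_lit 0) (nat_lit 0) (XT.lf (nat_lit 0) (nat_lit 3977075176) (nat_lit 0) (nat_lit 0) (nat_lit 0) (nat_lit 0) (nat_lit 0) (nat_lit 0) (nat_lit 1) (nat_lit 0) (nat_lit 1) (nat_lit 0) (nat_lit 415) (nat_lit 377) (nat_lit 288)) (XT.lf (nat_lit 0) (nat_lit 3976763247) (nat_lit 0) (nat_lit 0) (nat_lit 0) (nat_lit 0) (nat_lit 0) (nat_lit 0) (nat_lit 1) (nat_lit 0) (nat_lit 1) (nat_lit 0) (nat_lit 416) (nat_lit 377) (nat_lit 287))) (XT.nd (nat_lit 94) (nat_lit 0) (nat_lit 0) (XT.lf (nat_lit 0) (nat_lit 3976474423) (nat_lit 0) (nat_lit 0) (nat_lit 0) (nat_lit 0) (nat_lit 0) (nat_lit 0) (nat_lit 1) (nat_lit 0) (nat_lit 1) (nat_lit 0) (nat_lit 417) (nat_lit 377) (nat_lit 286)) (XT.nd (nat_lit 94) (nat_lit 0) (nat_lit 0) (XT.lf (nat_lit 0) (nat_lit 3976206995) (nat_lit 0) (nat_lit 0) (nat_lit 0) (nat_lit 0) (nat_lit 0) (nat_lit 0) (nat_lit 1) (nat_lit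 0) (nat_lit 1) (nat_lit 0) (nat_lit 418) (nat_lit 377) (nat_lit 285)) (XT.lf (nat_lit 0) (nat_lit 3975959375) (nat_lit 0) (nat_lit 0) (nat_lit 0) (nat_lit 0) (nat_lit 0) (nat_lit 0) (nat_lit 1) (nat_lit 0) (nat_lit 1) (nat_lit 0) (nat_lit 419) (nat_lit 377) (nat_lit 284)))))) (XT.nd (nat_lit 470) (nat_lit 0) (nat_lit 0) (XT.nd (nat_lit 188) (nat_lit 0) (nat_lit 0) (XT.nd (nat_lit 94) (nat_lit 0) (nat_lit 0) (XT.lf (nat_lit 0) (nat_lit 3975730098) (nat_lit 0) (nat_lit 0) (nat_lit 0) (nat_lit 0) (nat_lit 0) (nat_lit 0) (nat_lit 1) (nat_lit 0) (nat_lit 1) (nat_lit 0) (nat_lit 420) (nat_lit 377) (nat_lit 283)) (XT.lf (nat_lit 0) (nat_lit 3975517805) (nat_lit 0) (nat_lit 0) (nat_lit 0) (nat_lit 0) (nat_lit 0) (nat_lit 0) (nat_lit 1) (nat_lit 0) (nat_lit 1) (nat_lit 0) (nat_lit 421) (nat_lit 377) (nat_lit 282))) (XT.nd (nat_lit 94) (nat_lit 0) (nat_lit 0) (XT.lf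 (nat_lit 0) (nat_lit 3975321236) (nat_lit 0) (nat_lit 0) (nat_lit 0) (nat_lit 0) (nat_lit 0) (nat_lit 0) (nat_lit 1) (nat_lit 0) (nat_lit 1) (nat_lit 0) (nat_lit 422) (nat_lit 377) (nat_lit 281)) (XT.nd (nat_lit 94) (nat_lit 0) (nat_lit 0) (XT.lf (nat_lit 0) (nat_lit 3975139229) (nat_lit 0) (nat_lit 0) (nat_lit 0) (nat_lit 0) (nat_lit 0) (nat_lit 0) (nat_lit 1) (nat_lit 0) (nat_lit 1) (nat_lit 0) (nat_lit 423) (nat_lit 377) (nat_lit 280)) (XT.lf (nat_lit 0) (nat_lit 3974970703) (nat_lit 0) (nat_lit 0) (nat_lit 0) (nat_lit 0) (nat_lit 0) (nat_lit 0) (nat_lit 1) (nat_lit 0) (nat_lit 1) (nat_lit 0) (nat_lit 424) (nat_lit 377) (nat_lit 279))))) (XT.nd (nat_lit 188) (nat_lit 0) (nat_lit 0) (XT.nd (nat_lit 94) (nat_lit 0) (nat_lit 0) (XT.lf (nat_lit 0) (nat_lit 3974814661) (nat_lit 0) (nat_lit 0) (nat_lit 0) (nat_lit 0) (nat_lit 0) (nat_lit 0) (nat_lit 1) (nat_lit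 0) (nat_lit 1) (nat_lit 0) (nat_lit 425) (nat_lit 377) (nat_lit 278)) (XT.lf (nat_lit 0) (nat_lit 3974670178) (nat_lit 0) (nat_lit 0) (nat_lit 0) (nat_lit 0) (nat_lit 0) (nat_lit 0) (nat_lit 1) (nat_lit 0) (nat_lit 1) (nat_lit 0) (nat_lit 426) (nat_lit 377) (nat_lit 277))) (XT.nd (nat_lit 94) (nat_lit 0) (nat_lit 0) (XT.lf (nat_lit 0) (nat_lit 3974536397) (nat_lit 0) (nat_lit 0) (nat_lit 0) (nat_lit 0) (nat_lit 0) (nat_lit 0) (nat_lit 1) (nat_lit 0) (nat_lit 1) (nat_lit 0) (nat_lit 427) (nat_lit 377) (nat_lit 276)) (XT.nd (nat_lit 94) (nat_lit 0) (nat_lit 0) (XT.lf (nat_lit 0) (nat_lit 3974412526) (nat_lit 0) (nat_lit 0) (nat_lit 0) (nat_lit 0) (nat_lit 0) (nat_lit 0) (nat_lit 1) (nat_lit 0) (nat_lit 1) (nat_lit 0) (nat_lit 428) (nat_lit 377) (nat_lit 275)) (XT.lf (nat_lit 0) (nat_lit 3974297830) (nat_lit 0) (nat_lit 0) (nat_lit 0) (nat_lit 0) (nat_lit 0)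 (nat_lit 0) (nat_lit 1) (nat_lit 0) (nat_lit 1) (nat_lit 0) (nat_lit 429) (nat_lit 377) (nat_lit 274))))))))
noncomputable def ec70 : XT := (XT.nd (nat_lit 58938) (nat_lit 0) (nat_lit 3864) (XT.nd (nat_lit 58092) (nat_lit 0) (nat_lit 8568) (XT.nd (nat_lit 376) (nat_lit 0) (nat_lit 0) (XT.nd (nat_lit 188) (nat_lit 0) (nat_lit 0) (XT.nd (nat_lit 94) (nat_lit 0) (nat_lit 0) (XT.lf (nat_lit 0) (nat_lit 3974191630) (nat_lit 0) (nat_lit 0) (nat_lit 0) (nat_lit 0) (nat_lit 0) (nat_lit 0) (nat_lit 1) (nat_lit 0) (nat_lit 1) (nat_lit 0) (nat_lit 430) (nat_lit 377) (nat_lit 273)) (XT.lf (nat_lit 0) (nat_lit 3974093297) (nat_lit 0) (nat_lit 0) (nat_lit 0) (nat_lit 0) (nat_lit 0) (nat_lit 0) (nat_lit 1) (nat_lit 0) (nat_lit 1) (nat_lit 0) (nat_lit 431) (nat_lit 377) (nat_lit 272))) (XT.nd (nat_lit 94) (nat_lit 0) (nat_lit 0) (XT.lf (nat_lit 0) (nat_lit 3974002248) (nat_lit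 0) (nat_lit 0) (nat_lit 0) (nat_lit 0) (nat_lit 0) (nat_lit 0) (nat_lit 1) (nat_lit 0) (nat_lit 1) (nat_lit 0) (nat_lit 432) (nat_lit 377) (nat_lit 271)) (XT.lf (nat_lit 0) (nat_lit 3973917943) (nat_lit 0) (nat_lit 0) (nat_lit 0) (nat_lit 0) (nat_lit 0) (nat_lit 0) (nat_lit 1) (nat_lit 0) (nat_lit 1) (nat_lit 0) (nat_lit 433) (nat_lit 377) (nat_lit 270)))) (XT.nd (nat_lit 57434) (nat_lit 0) (nat_lit 10752) (XT.nd (nat_lit 94) (nat_lit 0) (nat_lit 0) (XT.lf (nat_lit 0) (nat_lit 3973839883) (nat_lit 0) (nat_lit 0) (nat_lit 0) (nat_lit 0) (nat_lit 0) (nat_lit 0) (nat_lit 1) (nat_lit 0) (nat_lit 1) (nat_lit 0) (nat_lit 434) (nat_lit 377) (nat_lit 269)) (XT.lf (nat_lit 0) (nat_lit 3973767606) (nat_lit 0) (nat_lit 0) (nat_lit 0) (nat_lit 0) (nat_lit 0) (nat_lit 0) (nat_lit 1) (nat_lit 0) (nat_lit 1) (nat_lit 0) (nat_lit 435) (nat_lit 377) (nat_lit 268))) (XT.nd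 (nat_lit 94) (nat_lit 0) (nat_lit 84) (XT.lf (nat_lit 924) (nat_lit 2147223629) (nat_lit 0) (nat_lit 3812390618) (nat_lit 924) (nat_lit 2147223629) (nat_lit 139) (nat_lit 1) (nat_lit 128) (nat_lit 0) (nat_lit 139) (nat_lit 0) (nat_lit 324) (nat_lit 378) (nat_lit 378)) (XT.nd (nat_lit 94) (nat_lit 0) (nat_lit 0) (XT.lf (nat_lit 924) (nat_lit 800980299) (nat_lit 0) (nat_lit 7484878228) (nat_lit 840) (nat_lit 7320185901) (nat_lit 140) (nat_lit 1) (nat_lit 129) (nat_lit 1) (nat_lit 139) (nat_lit 1) (nat_lit 325) (nat_lit 378) (nat_lit 377)) (XT.lf (nat_lit 924) (nat_lit 7356541717) (nat_lit 84) (nat_lit 5012625472) (nat_lit 0) (nat_lit 2658467894) (nat_lit 140) (nat_lit 1) (nat_lit 130) (nat_lit 1) (nat_lit 129) (nat_lit 1) (nat_lit 326) (nat_lit 378) (nat_lit 376)))))) (XT.nd (nat_lit 376) (nat_lit 2352) (nat_lit 0) (XT.nd (nat_lit 188) (nat_lit 0) (nat_lit 168)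 (XT.nd (nat_lit 94) (nat_lit 0) (nat_lit 84) (XT.lf (nat_lit 924) (nat_lit 6356654700) (nat_lit 84) (nat_lit 2100756591) (nat_lit 0) (nat_lit 6020759518) (nat_lit 141) (nat_lit 1) (nat_lit 131) (nat_lit 1) (nat_lit 130) (nat_lit 1) (nat_lit 327) (nat_lit 378) (nat_lit 375)) (XT.lf (nat_lit 924) (nat_lit 4704464902) (nat_lit 0) (nat_lit 8801831462) (nat_lit 840) (nat_lit 449948366) (nat_lit 142) (nat_lit 1) (nat_lit 131) (nat_lit 1) (nat_lit 141) (nat_lit 1) (nat_lit 328) (nat_lit 378) (nat_lit 374))) (XT.nd (nat_lit 94) (nat_lit 0) (nat_lit 0) (XT.lf (nat_lit 924) (nat_lit 1128790227) (nat_lit 0) (nat_lit 9706464430) (nat_lit 840) (nat_lit 2623989617) (nat_lit 143) (nat_lit 1) (nat_lit 132) (nat_lit 1) (nat_lit 142) (nat_lit 1) (nat_lit 329) (nat_lit 378) (nat_lit 373)) (XT.lf (nat_lit 924) (nat_lit 2169075699) (nat_lit 84) (nat_lit 8435708021) (nat_lit 0)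 (nat_lit 2380660880) (nat_lit 143) (nat_lit 1) (nat_lit 133) (nat_lit 1) (nat_lit 132) (nat_lit 1) (nat_lit 330) (nat_lit 378) (nat_lit 372)))) (XT.nd (nat_lit 188) (nat_lit 1176) (nat_lit 0) (XT.nd (nat_lit 94) (nat_lit 588) (nat_lit 0) (XT.lf (nat_lit 924) (nat_lit 445478687) (nat_lit 0) (nat_lit 6306249746) (nat_lit 840) (nat_lit 5782764941) (nat_lit 134) (nat_lit 1) (nat_lit 123) (nat_lit 1) (nat_lit 133) (nat_lit 1) (nat_lit 331) (nat_lit 378) (nat_lit 371)) (XT.lf (nat_lit 84) (nat_lit 3084587225) (nat_lit 0) (nat_lit 1336695190) (nat_lit 588) (nat_lit 7683611839) (nat_lit 117) (nat_lit 1) (nat_lit 116) (nat_lit 1) (nat_lit 123) (nat_lit 1) (nat_lit 332) (nat_lit 378) (nat_lit 370))) (XT.nd (nat_lit 94) (nat_lit 756) (nat_lit 0) (XT.lf (nat_lit 504) (nat_lit 8500734147) (nat_lit 0) (nat_lit 2767172226) (nat_lit 420) (nat_lit 427821924) (nat_lit 117)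 (nat_lit 1) (nat_lit 111) (nat_lit 1) (nat_lit 116) (nat_lit 1) (nat_lit 333) (nat_lit 378) (nat_lit 369)) (XT.nd (nat_lit 94) (nat_lit 336) (nat_lit 0) (XT.lf (nat_lit 504) (nat_lit 6134210710) (nat_lit 0) (nat_lit 1289790894) (nat_lit 420) (nat_lit 3880154139) (nat_lit 112) (nat_lit 1) (nat_lit 106) (nat_lit 1) (nat_lit 111) (nat_lit 1) (nat_lit 334) (nat_lit 378) (nat_lit 368)) (XT.lf (nat_lit 420) (nat_lit 3732588982) (nat_lit 0) (nat_lit 23747146) (nat_lit 336) (nat_lit 7175233565) (nat_lit 107) (nat_lit 1) (nat_lit 102) (nat_lit 1) (nat_lit 106) (nat_lit 1) (nat_lit 335) (nat_lit 378) (nat_lit 367))))))) (XT.nd (nat_lit 846) (nat_lit 2100) (nat_lit 0) (XT.nd (nat_lit 376) (nat_lit 1512) (nat_lit 0) (XT.nd (nat_lit 188) (nat_lit 672) (nat_lit 0) (XT.nd (nat_lit 94) (nat_lit 420) (nat_lit 0) (XT.lf (nat_lit 84) (nat_lit 275372774) (nat_lit 0) (nat_lit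 9286904312) (nat_lit 420) (nat_lit 1013846178) (nat_lit 103) (nat_lit 1) (nat_lit 102) (nat_lit 1) (nat_lit 107) (nat_lit 1) (nat_lit 336) (nat_lit 378) (nat_lit 366)) (XT.lf (nat_lit 84) (nat_lit 7110196472) (nat_lit 0) (nat_lit 1179302163) (nat_lit 420) (nat_lit 1944883445) (nat_lit 98) (nat_lit 1) (nat_lit 97) (nat_lit 1) (nat_lit 102) (nat_lit 1) (nat_lit 337) (nat_lit 378) (nat_lit 365))) (XT.nd (nat_lit 94) (nat_lit 336) (nat_lit 0) (XT.lf (nat_lit 84) (nat_lit 3557411472) (nat_lit 0) (nat_lit 3612411872) (nat_lit 420) (nat_lit 2737917419) (nat_lit 94) (nat_lit 1) (nat_lit 93) (nat_lit 1) (nat_lit 98) (nat_lit 1) (nat_lit 338) (nat_lit 378) (nat_lit 364)) (XT.lf (nat_lit 84) (nat_lit 175585941) (nat_lit 0) (nat_lit 6039896557) (nat_lit 420) (nat_lit 3381082334) (nat_lit 90) (nat_lit 1) (nat_lit 89) (nat_lit 1) (nat_lit 94) (nat_lit 1) (nat_lit 339) (nat_lit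 378) (nat_lit 363)))) (XT.nd (nat_lit 188) (nat_lit 840) (nat_lit 0) (XT.nd (nat_lit 94) (nat_lit 420) (nat_lit 0) (XT.lf (nat_lit 336) (nat_lit 792936217) (nat_lit 0) (nat_lit 5362248083) (nat_lit 252) (nat_lit 3142400615) (nat_lit 90) (nat_lit 1) (nat_lit 86) (nat_lit 1) (nat_lit 89) (nat_lit 1) (nat_lit 340) (nat_lit 378) (nat_lit 362)) (XT.lf (nat_lit 84) (nat_lit 2739807819) (nat_lit 0) (nat_lit 1877881304) (nat_lit 420) (nat_lit 4393267277) (nat_lit 82) (nat_lit 1) (nat_lit 81) (nat_lit 1) (nat_lit 86) (nat_lit 1) (nat_lit 341) (nat_lit 378) (nat_lit 361))) (XT.nd (nat_lit 94) (nat_lit 588) (nat_lit 0) (XT.lf (nat_lit 336) (nat_lit 4241881514) (nat_lit 0) (nat_lit 3984699432) (nat_lit 252) (nat_lit 510036798) (nat_lit 82) (nat_lit 1) (nat_lit 78) (nat_lit 1) (nat_lit 81) (nat_lit 1) (nat_lit 342) (nat_lit 378) (nat_lit 360)) (XT.nd (nat_lit 94) (nat_lit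 336) (nat_lit 0) (XT.lf (nat_lit 336) (nat_lit 1359502532) (nat_lit 0) (nat_lit 3430663039) (nat_lit 252) (nat_lit 3682656427) (nat_lit 79) (nat_lit 1) (nat_lit 75) (nat_lit 1) (nat_lit 78) (nat_lit 1) (nat_lit 343) (nat_lit 378) (nat_lit 359)) (XT.lf (nat_lit 84) (nat_lit 1549504387) (nat_lit 0) (nat_lit 1418705921) (nat_lit 336) (nat_lit 5251771879) (nat_lit 72) (nat_lit 1) (nat_lit 71) (nat_lit 1) (nat_lit 75) (nat_lit 1) (nat_lit 344) (nat_lit 378) (nat_lit 358)))))) (XT.nd (nat_lit 470) (nat_lit 924) (nat_lit 0) (XT.nd (nat_lit 188) (nat_lit 756) (nat_lit 0) (XT.nd (nat_lit 94) (nat_lit 168) (nat_lit 0) (XT.lf (nat_lit 336) (nat_lit 3855738296) (nat_lit 0) (nat_lit 2565465379) (nat_lit 252) (nat_lit 1555193547) (nat_lit 72) (nat_lit 1) (nat_lit 68) (nat_lit 1) (nat_lit 71) (nat_lit 1) (nat_lit 345) (nat_lit 378) (nat_lit 357)) (XT.lf (nat_lit 252) (nat_lit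 955843216) (nat_lit 0) (nat_lit 2238181418) (nat_lit 168) (nat_lit 4548614521) (nat_lit 69) (nat_lit 1) (nat_lit 66) (nat_lit 1) (nat_lit 68) (nat_lit 1) (nat_lit 346) (nat_lit 378) (nat_lit 356))) (XT.nd (nat_lit 94) (nat_lit 420) (nat_lit 0) (XT.lf (nat_lit 84) (nat_lit 161925947) (nat_lit 0) (nat_lit 1811986506) (nat_lit 336) (nat_lit 5544029713) (nat_lit 63) (nat_lit 1) (nat_lit 62) (nat_lit 1) (nat_lit 66) (nat_lit 1) (nat_lit 347) (nat_lit 378) (nat_lit 355)) (XT.nd (nat_lit 94) (nat_lit 252) (nat_lit 0) (XT.lf (nat_lit 252) (nat_lit 2777505003) (nat_lit 0) (nat_lit 1735702345) (nat_lit 168) (nat_lit 2787170748) (nat_lit 63) (nat_lit 1) (nat_lit 60) (nat_lit 1) (nat_lit 62) (nat_lit 1) (nat_lit 348) (nat_lit 378) (nat_lit 354)) (XT.lf (nat_lit 84) (nat_lit 1506958142) (nat_lit 0) (nat_lit 69607341) (nat_lit 252) (nat_lit 5515742290) (nat_lit 58) (nat_lit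 1) (nat_lit 57) (nat_lit 1) (nat_lit 60) (nat_lit 1) (nat_lit 349) (nat_lit 378) (nat_lit 353))))) (XT.nd (nat_lit 188) (nat_lit 588) (nat_lit 0) (XT.nd (nat_lit 94) (nat_lit 168) (nat_lit 0) (XT.lf (nat_lit 252) (nat_lit 4119732560) (nat_lit 0) (nat_lit 1427579704) (nat_lit 168) (nat_lit 1342977803) (nat_lit 58) (nat_lit 1) (nat_lit 55) (nat_lit 1) (nat_lit 57) (nat_lit 1) (nat_lit 350) (nat_lit 378) (nat_lit 352)) (XT.lf (nat_lit 252) (nat_lit 1279754022) (nat_lit 0) (nat_lit 1327093199) (nat_lit 168) (nat_lit 4089149160) (nat_lit 56) (nat_lit 1) (nat_lit 53) (nat_lit 1) (nat_lit 55) (nat_lit 1) (nat_lit 351) (nat_lit 378) (nat_lit 351))) (XT.nd (nat_lit 94) (nat_lit 336) (nat_lit 0) (XT.lf (nat_lit 252) (nat_lit 5080153146) (nat_lit 0) (nat_lit 1267929838) (nat_lit 168) (nat_lit 160851610) (nat_lit 53) (nat_lit 1) (nat_lit 50) (nat_lit 1) (nat_lit 52) (nat_lit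 1) (nat_lit 352) (nat_lit 378) (nat_lit 350)) (XT.nd (nat_lit 94) (nat_lit 168) (nat_lit 0) (XT.lf (nat_lit 252) (nat_lit 2273641102) (nat_lit 0) (nat_lit 1210445517) (nat_lit 168) (nat_lit 2842984042) (nat_lit 51) (nat_lit 1) (nat_lit 48) (nat_lit 1) (nat_lit 50) (nat_lit 1) (nat_lit 353) (nat_lit 378) (nat_lit 349)) (XT.lf (nat_lit 84) (nat_lit 778809860) (nat_lit 0) (nat_lit 428068993) (nat_lit 168) (nat_lit 4945871123) (nat_lit 47) (nat_lit 1) (nat_lit 46) (nat_lit 1) (nat_lit 48) (nat_lit 1) (nat_lit 354) (nat_lit 378) (nat_lit 348))))))))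
noncomputable def ec71 : XT := (XT.nd (nat_lit 1786) (nat_lit 1092) (nat_lit 0) (XT.nd (nat_lit 846) (nat_lit 1260) (nat_lit 0) (XT.nd (nat_lit 376) (nat_lit 924) (nat_lit 0) (XT.nd (nat_lit 188) (nat_lit 336) (nat_lit 0) (XT.nd (nat_lit 94) (nat_lit 84) (nat_lit 0) (XT.lf (nat_lit 252) (nat_lit 2983147885) (nat_lit 0) (nat_lit 1194099350) (nat_lit 168) (nat_lit 1805580872) (nat_lit 47) (nat_lit 1) (nat_lit 44) (nat_lit 1) (nat_lit 46) (nat_lit 1) (nat_lit 355) (nat_lit 378) (nat_lit 347)) (XT.lf (nat_lit 168) (nat_lit 321242637) (nat_lit 0) (nat_lit 1223427973) (nat_lit 84) (nat_lit 4274943925) (nat_lit 45) (nat_lit 1) (nat_lit 43) (nat_lit 1) (nat_lit 44) (nat_lit 1) (nat_lit 356) (nat_lit 378) (nat_lit 346))) (XT.nd (nat_lit 94) (nat_lit 84) (nat_lit 0) (XT.lf (nat_lit 252) (nat_lit 3467695668) (nat_lit 0) (nat_lit 1251240341) (nat_lit 168) (nat_lit 941965257)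 (nat_lit 43) (nat_lit 1) (nat_lit 40) (nat_lit 1) (nat_lit 42) (nat_lit 1) (nat_lit 357) (nat_lit 378) (nat_lit 345)) (XT.lf (nat_lit 168) (nat_lit 872151031) (nat_lit 0) (nat_lit 1298025478) (nat_lit 84) (nat_lit 3337360443) (nat_lit 41) (nat_lit 1) (nat_lit 39) (nat_lit 1) (nat_lit 40) (nat_lit 1) (nat_lit 358) (nat_lit 378) (nat_lit 344)))) (XT.nd (nat_lit 188) (nat_lit 588) (nat_lit 0) (XT.nd (nat_lit 94) (nat_lit 84) (nat_lit 0) (XT.lf (nat_lit 252) (nat_lit 3775327328) (nat_lit 0) (nat_lit 1360629631) (nat_lit 168) (nat_lit 223290970) (nat_lit 39) (nat_lit 1) (nat_lit 36) (nat_lit 1) (nat_lit 38) (nat_lit 1) (nat_lit 359) (nat_lit 378) (nat_lit 343)) (XT.lf (nat_lit 168) (nat_lit 1255144986) (nat_lit 0) (nat_lit 1418472740) (nat_lit 84) (nat_lit 2541316414) (nat_lit 37) (nat_lit 1) (nat_lit 35) (nat_lit 1) (nat_lit 36) (nat_lit 1) (nat_lit 360) (nat_lit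 378) (nat_lit 342))) (XT.nd (nat_lit 94) (nat_lit 336) (nat_lit 0) (XT.lf (nat_lit 84) (nat_lit 362284793) (nat_lit 0) (nat_lit 1137115394) (nat_lit 252) (nat_lit 3576404645) (nat_lit 33) (nat_lit 1) (nat_lit 32) (nat_lit 1) (nat_lit 35) (nat_lit 1) (nat_lit 361) (nat_lit 378) (nat_lit 341)) (XT.nd (nat_lit 94) (nat_lit 252) (nat_lit 0) (XT.lf (nat_lit 168) (nat_lit 1506287226) (nat_lit 0) (nat_lit 1569479893) (nat_lit 84) (nat_lit 1864363597) (nat_lit 33) (nat_lit 1) (nat_lit 31) (nat_lit 1) (nat_lit 32) (nat_lit 1) (nat_lit 362) (nat_lit 378) (nat_lit 340)) (XT.lf (nat_lit 84) (nat_lit 842539532) (nat_lit 0) (nat_lit 816056509) (nat_lit 252) (nat_lit 3150628480) (nat_lit 29) (nat_lit 1) (nat_lit 28) (nat_lit 1) (nat_lit 31) (nat_lit 1) (nat_lit 363) (nat_lit 378) (nat_lit 339)))))) (XT.nd (nat_lit 470) (nat_lit 672) (nat_lit 0) (XT.nd (nat_lit 188) (nat_lit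 336) (nat_lit 0) (XT.nd (nat_lit 94) (nat_lit 168) (nat_lit 0) (XT.lf (nat_lit 168) (nat_lit 1654659897) (nat_lit 0) (nat_lit 1739111471) (nat_lit 84) (nat_lit 1287891560) (nat_lit 29) (nat_lit 1) (nat_lit 27) (nat_lit 1) (nat_lit 28) (nat_lit 1) (nat_lit 364) (nat_lit 378) (nat_lit 338)) (XT.lf (nat_lit 84) (nat_lit 1240413020) (nat_lit 0) (nat_lit 591034609) (nat_lit 168) (nat_lit 2726866479) (nat_lit 26) (nat_lit 1) (nat_lit 25) (nat_lit 1) (nat_lit 27) (nat_lit 1) (nat_lit 365) (nat_lit 378) (nat_lit 337))) (XT.nd (nat_lit 94) (nat_lit 252) (nat_lit 0) (XT.lf (nat_lit 168) (nat_lit 1723668939) (nat_lit 0) (nat_lit 1918132650) (nat_lit 84) (nat_lit 796443091) (nat_lit 26) (nat_lit 1) (nat_lit 24) (nat_lit 1) (nat_lit 25) (nat_lit 1) (nat_lit 366) (nat_lit 378) (nat_lit 336)) (XT.nd (nat_lit 94) (nat_lit 84) (nat_lit 0) (XT.lf (nat_lit 84) (nat_lit 1569007138)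 (nat_lit 0) (nat_lit 440919525) (nat_lit 168) (nat_lit 2311941798) (nat_lit 23) (nat_lit 1) (nat_lit 22) (nat_lit 1) (nat_lit 24) (nat_lit 1) (nat_lit 367) (nat_lit 378) (nat_lit 335)) (XT.lf (nat_lit 168) (nat_lit 1732107655) (nat_lit 0) (nat_lit 2099477932) (nat_lit 84) (nat_lit 377153951) (nat_lit 23) (nat_lit 1) (nat_lit 21) (nat_lit 1) (nat_lit 22) (nat_lit 1) (nat_lit 368) (nat_lit 378) (nat_lit 334))))) (XT.nd (nat_lit 188) (nat_lit 420) (nat_lit 0) (XT.nd (nat_lit 94) (nat_lit 84) (nat_lit 0) (XT.lf (nat_lit 84) (nat_lit 1839211014) (nat_lit 0) (nat_lit 348720635) (nat_lit 168) (nat_lit 1910887627) (nat_lit 20) (nat_lit 1) (nat_lit 19) (nat_lit 1) (nat_lit 21) (nat_lit 1) (nat_lit 369) (nat_lit 378) (nat_lit 333)) (XT.lf (nat_lit 168) (nat_lit 1695023764) (nat_lit 0) (nat_lit 2277819655) (nat_lit 84) (nat_lit 19294236) (nat_lit 20) (nat_lit 1) (nat_lit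 18) (nat_lit 1) (nat_lit 19) (nat_lit 1) (nat_lit 370) (nat_lit 378) (nat_lit 332))) (XT.nd (nat_lit 94) (nat_lit 252) (nat_lit 0) (XT.lf (nat_lit 84) (nat_lit 2060092695) (nat_lit 0) (nat_lit 300809592) (nat_lit 168) (nat_lit 1527311961) (nat_lit 17) (nat_lit 1) (nat_lit 16) (nat_lit 1) (nat_lit 18) (nat_lit 1) (nat_lit 371) (nat_lit 378) (nat_lit 331)) (XT.nd (nat_lit 94) (nat_lit 168) (nat_lit 0) (XT.lf (nat_lit 0) (nat_lit 276950018) (nat_lit 0) (nat_lit 2167577554) (nat_lit 168) (nat_lit 1342785767) (nat_lit 15) (nat_lit 3) (nat_lit 15) (nat_lit 1) (nat_lit 17) (nat_lit 1) (nat_lit 372) (nat_lit 378) (nat_lit 330)) (XT.lf (nat_lit 84) (nat_lit 2239219933) (nat_lit 0) (nat_lit 286286800) (nat_lit 168) (nat_lit 1163693110) (nat_lit 14) (nat_lit 1) (nat_lit 13) (nat_lit 1) (nat_lit 15) (nat_lit 1) (nat_lit 373) (nat_lit 378) (nat_lit 329))))))) (XT.nd (nat_lit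 846) (nat_lit 0) (nat_lit 0) (XT.nd (nat_lit 376) (nat_lit 588) (nat_lit 0) (XT.nd (nat_lit 188) (nat_lit 252) (nat_lit 0) (XT.nd (nat_lit 94) (nat_lit 168) (nat_lit 0) (XT.lf (nat_lit 0) (nat_lit 529076994) (nat_lit 0) (nat_lit 2072799262) (nat_lit 168) (nat_lit 991823075) (nat_lit 12) (nat_lit 3) (nat_lit 12) (nat_lit 1) (nat_lit 14) (nat_lit 1) (nat_lit 374) (nat_lit 378) (nat_lit 328)) (XT.lf (nat_lit 84) (nat_lit 2382923013) (nat_lit 0) (nat_lit 296465193) (nat_lit 168) (nat_lit 821618824) (nat_lit 11) (nat_lit 1) (nat_lit 10) (nat_lit 1) (nat_lit 12) (nat_lit 1) (nat_lit 375) (nat_lit 378) (nat_lit 327))) (XT.nd (nat_lit 94) (nat_lit 168) (nat_lit 0) (XT.lf (nat_lit 0) (nat_lit 743823373) (nat_lit 0) (nat_lit 2004292924) (nat_lit 168) (nat_lit 662457468) (nat_lit 9) (nat_lit 3) (nat_lit 9) (nat_lit 1) (nat_lit 11) (nat_lit 1) (nat_lit 376) (nat_lit 378)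 (nat_lit 326)) (XT.lf (nat_lit 84) (nat_lit 2496510202) (nat_lit 0) (nat_lit 324449726) (nat_lit 168) (nat_lit 501979496) (nat_lit 8) (nat_lit 1) (nat_lit 7) (nat_lit 1) (nat_lit 9) (nat_lit 1) (nat_lit 377) (nat_lit 378) (nat_lit 325)))) (XT.nd (nat_lit 188) (nat_lit 336) (nat_lit 0) (XT.nd (nat_lit 94) (nat_lit 168) (nat_lit 0) (XT.lf (nat_lit 0) (nat_lit 926348216) (nat_lit 0) (nat_lit 1955538195) (nat_lit 168) (nat_lit 355381830) (nat_lit 6) (nat_lit 3) (nat_lit 6) (nat_lit 1) (nat_lit 8) (nat_lit 1) (nat_lit 378) (nat_lit 378) (nat_lit 324)) (XT.lf (nat_lit 84) (nat_lit 2584444461) (nat_lit 0) (nat_lit 364794967) (nat_lit 168) (nat_lit 205124001) (nat_lit 5) (nat_lit 1) (nat_lit 4) (nat_lit 1) (nat_lit 6) (nat_lit 1) (nat_lit 379) (nat_lit 378) (nat_lit 323))) (XT.nd (nat_lit 94) (nat_lit 252) (nat_lit 0) (XT.lf (nat_lit 0) (nat_lit 1081014856) (nat_lit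 0) (nat_lit 1921362020) (nat_lit 168) (nat_lit 70796811) (nat_lit 3) (nat_lit 3) (nat_lit 3) (nat_lit 1) (nat_lit 5) (nat_lit 1) (nat_lit 380) (nat_lit 378) (nat_lit 322)) (XT.nd (nat_lit 94) (nat_lit 0) (nat_lit 0) (XT.lf (nat_lit 0) (nat_lit 4344072631) (nat_lit 0) (nat_lit 0) (nat_lit 0) (nat_lit 0) (nat_lit 0) (nat_lit 0) (nat_lit 1) (nat_lit 0) (nat_lit 1) (nat_lit 0) (nat_lit 381) (nat_lit 378) (nat_lit 321)) (XT.lf (nat_lit 0) (nat_lit 4340118604) (nat_lit 0) (nat_lit 0) (nat_lit 0) (nat_lit 0) (nat_lit 0) (nat_lit 0) (nat_lit 1) (nat_lit 0) (nat_lit 1) (nat_lit 0) (nat_lit 382) (nat_lit 378) (nat_lit 320)))))) (XT.nd (nat_lit 470) (nat_lit 0) (nat_lit 0) (XT.nd (nat_lit 188) (nat_lit 0) (nat_lit 0) (XT.nd (nat_lit 94) (nat_lit 0) (nat_lit 0) (XT.lf (nat_lit 0) (nat_lit 4336457467) (nat_lit 0) (nat_lit 0) (nat_lit 0) (nat_lit 0) (nat_lit 0) (nat_lit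 0) (nat_lit 1) (nat_lit 0) (nat_lit 1) (nat_lit 0) (nat_lit 383) (nat_lit 378) (nat_lit 319)) (XT.lf (nat_lit 0) (nat_lit 4333067526) (nat_lit 0) (nat_lit 0) (nat_lit 0) (nat_lit 0) (nat_lit 0) (nat_lit 0) (nat_lit 1) (nat_lit 0) (nat_lit 1) (nat_lit 0) (nat_lit 384) (nat_lit 378) (nat_lit 318))) (XT.nd (nat_lit 94) (nat_lit 0) (nat_lit 0) (XT.lf (nat_lit 0) (nat_lit 4329928692) (nat_lit 0) (nat_lit 0) (nat_lit 0) (nat_lit 0) (nat_lit 0) (nat_lit 0) (nat_lit 1) (nat_lit 0) (nat_lit 1) (nat_lit 0) (nat_lit 385) (nat_lit 378) (nat_lit 317)) (XT.nd (nat_lit 94) (nat_lit 0) (nat_lit 0) (XT.lf (nat_lit 0) (nat_lit 4327022364) (nat_lit 0) (nat_lit 0) (nat_lit 0) (nat_lit 0) (nat_lit 0) (nat_lit 0) (nat_lit 1) (nat_lit 0) (nat_lit 1) (nat_lit 0) (nat_lit 386) (nat_lit 378) (nat_lit 316)) (XT.lf (nat_lit 0) (nat_lit 4324331320) (nat_lit 0) (nat_lit 0) (nat_lit 0)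 (nat_lit 0) (nat_lit 0) (nat_lit 0) (nat_lit 1) (nat_lit 0) (nat_lit 1) (nat_lit 0) (nat_lit 387) (nat_lit 378) (nat_lit 315))))) (XT.nd (nat_lit 188) (nat_lit 0) (nat_lit 0) (XT.nd (nat_lit 94) (nat_lit 0) (nat_lit 0) (XT.lf (nat_lit 0) (nat_lit 4321839612) (nat_lit 0) (nat_lit 0) (nat_lit 0) (nat_lit 0) (nat_lit 0) (nat_lit 0) (nat_lit 1) (nat_lit 0) (nat_lit 1) (nat_lit 0) (nat_lit 388) (nat_lit 378) (nat_lit 314)) (XT.lf (nat_lit 0) (nat_lit 4319532475) (nat_lit 0) (nat_lit 0) (nat_lit 0) (nat_lit 0) (nat_lit 0) (nat_lit 0) (nat_lit 1) (nat_lit 0) (nat_lit 1) (nat_lit 0) (nat_lit 389) (nat_lit 378) (nat_lit 313))) (XT.nd (nat_lit 94) (nat_lit 0) (nat_lit 0) (XT.lf (nat_lit 0) (nat_lit 4317396238) (nat_lit 0) (nat_lit 0) (nat_lit 0) (nat_lit 0) (nat_lit 0) (nat_lit 0) (nat_lit 1) (nat_lit 0) (nat_lit 1) (nat_lit 0) (nat_lit 390) (nat_lit 378) (nat_lit 312))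 (XT.nd (nat_lit 94) (nat_lit 0) (nat_lit 0) (XT.lf (nat_lit 0) (nat_lit 4315418240) (nat_lit 0) (nat_lit 0) (nat_lit 0) (nat_lit 0) (nat_lit 0) (nat_lit 0) (nat_lit 1) (nat_lit 0) (nat_lit 1) (nat_lit 0) (nat_lit 391) (nat_lit 378) (nat_lit 311)) (XT.lf (nat_lit 0) (nat_lit 4313586760) (nat_lit 0) (nat_lit 0) (nat_lit 0) (nat_lit 0) (nat_lit 0) (nat_lit 0) (nat_lit 1) (nat_lit 0) (nat_lit 1) (nat_lit 0) (nat_lit 392) (nat_lit 378) (nat_lit 310))))))))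
noncomputable def ec72 : XT := (XT.nd (nat_lit 1692) (nat_lit 0) (nat_lit 0) (XT.nd (nat_lit 846) (nat_lit 0) (nat_lit 0) (XT.nd (nat_lit 376) (nat_lit 0) (nat_lit 0) (XT.nd (nat_lit 188) (nat_lit 0) (nat_lit 0) (XT.nd (nat_lit 94) (nat_lit 0) (nat_lit 0) (XT.lf (nat_lit 0) (nat_lit 4311890946) (nat_lit 0) (nat_lit 0) (nat_lit 0) (nat_lit 0) (nat_lit 0) (nat_lit 0) (nat_lit 1) (nat_lit 0) (nat_lit 1) (nat_lit 0) (nat_lit 393) (nat_lit 378) (nat_lit 309)) (XT.lf (nat_lit 0) (nat_lit 4310320747) (nat_lit 0) (nat_lit 0) (nat_lit 0) (nat_lit 0) (nat_lit 0) (nat_lit 0) (nat_lit 1) (nat_lit 0) (nat_lit 1) (nat_lit 0) (nat_lit 394) (nat_lit 378) (nat_lit 308))) (XT.nd (nat_lit 94) (nat_lit 0) (nat_lit 0) (XT.lf (nat_lit 0) (nat_lit 4308866860) (nat_lit 0) (nat_lit 0) (nat_lit 0) (nat_lit 0) (nat_lit 0) (nat_lit 0) (nat_lit 1) (nat_lit 0) (nat_lit 1) (nat_lit 0) (nat_lit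 395) (nat_lit 378) (nat_lit 307)) (XT.lf (nat_lit 0) (nat_lit 4307520667) (nat_lit 0) (nat_lit 0) (nat_lit 0) (nat_lit 0) (nat_lit 0) (nat_lit 0) (nat_lit 1) (nat_lit 0) (nat_lit 1) (nat_lit 0) (nat_lit 396) (nat_lit 378) (nat_lit 306)))) (XT.nd (nat_lit 188) (nat_lit 0) (nat_lit 0) (XT.nd (nat_lit 94) (nat_lit 0) (nat_lit 0) (XT.lf (nat_lit 0) (nat_lit 4306274193) (nat_lit 0) (nat_lit 0) (nat_lit 0) (nat_lit 0) (nat_lit 0) (nat_lit 0) (nat_lit 1) (nat_lit 0) (nat_lit 1) (nat_lit 0) (nat_lit 397) (nat_lit 378) (nat_lit 305)) (XT.lf (nat_lit 0) (nat_lit 4305120050) (nat_lit 0) (nat_lit 0) (nat_lit 0) (nat_lit 0) (nat_lit 0) (nat_lit 0) (nat_lit 1) (nat_lit 0) (nat_lit 1) (nat_lit 0) (nat_lit 398) (nat_lit 378) (nat_lit 304))) (XT.nd (nat_lit 94) (nat_lit 0) (nat_lit 0) (XT.lf (nat_lit 0) (nat_lit 4304051400) (nat_lit 0) (nat_lit 0) (nat_lit 0) (nat_lit 0) (nat_lit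 0) (nat_lit 0) (nat_lit 1) (nat_lit 0) (nat_lit 1) (nat_lit 0) (nat_lit 399) (nat_lit 378) (nat_lit 303)) (XT.nd (nat_lit 94) (nat_lit 0) (nat_lit 0) (XT.lf (nat_lit 0) (nat_lit 4303061908) (nat_lit 0) (nat_lit 0) (nat_lit 0) (nat_lit 0) (nat_lit 0) (nat_lit 0) (nat_lit 1) (nat_lit 0) (nat_lit 1) (nat_lit 0) (nat_lit 400) (nat_lit 378) (nat_lit 302)) (XT.lf (nat_lit 0) (nat_lit 4302145712) (nat_lit 0) (nat_lit 0) (nat_lit 0) (nat_lit 0) (nat_lit 0) (nat_lit 0) (nat_lit 1) (nat_lit 0) (nat_lit 1) (nat_lit 0) (nat_lit 401) (nat_lit 378) (nat_lit 301)))))) (XT.nd (nat_lit 376) (nat_lit 0) (nat_lit 0) (XT.nd (nat_lit 188) (nat_lit 0) (nat_lit 0) (XT.nd (nat_lit 94) (nat_lit 0) (nat_lit 0) (XT.lf (nat_lit 0) (nat_lit 4301297383) (nat_lit 0) (nat_lit 0) (nat_lit 0) (nat_lit 0) (nat_lit 0) (nat_lit 0) (nat_lit 1) (nat_lit 0) (nat_lit 1) (nat_lit 0) (nat_lit 402)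 (nat_lit 378) (nat_lit 300)) (XT.lf (nat_lit 0) (nat_lit 4300511893) (nat_lit 0) (nat_lit 0) (nat_lit 0) (nat_lit 0) (nat_lit 0) (nat_lit 0) (nat_lit 1) (nat_lit 0) (nat_lit 1) (nat_lit 0) (nat_lit 403) (nat_lit 378) (nat_lit 299))) (XT.nd (nat_lit 94) (nat_lit 0) (nat_lit 0) (XT.lf (nat_lit 0) (nat_lit 4299784587) (nat_lit 0) (nat_lit 0) (nat_lit 0) (nat_lit 0) (nat_lit 0) (nat_lit 0) (nat_lit 1) (nat_lit 0) (nat_lit 1) (nat_lit 0) (nat_lit 404) (nat_lit 378) (nat_lit 298)) (XT.lf (nat_lit 0) (nat_lit 4299111156) (nat_lit 0) (nat_lit 0) (nat_lit 0) (nat_lit 0) (nat_lit 0) (nat_lit 0) (nat_lit 1) (nat_lit 0) (nat_lit 1) (nat_lit 0) (nat_lit 405) (nat_lit 378) (nat_lit 297)))) (XT.nd (nat_lit 188) (nat_lit 0) (nat_lit 0) (XT.nd (nat_lit 94) (nat_lit 0) (nat_lit 0) (XT.lf (nat_lit 0) (nat_lit 4298487608) (nat_lit 0) (nat_lit 0) (nat_lit 0) (nat_lit 0) (nat_lit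 0) (nat_lit 0) (nat_lit 1) (nat_lit 0) (nat_lit 1) (nat_lit 0) (nat_lit 406) (nat_lit 378) (nat_lit 296)) (XT.lf (nat_lit 0) (nat_lit 4297910250) (nat_lit 0) (nat_lit 0) (nat_lit 0) (nat_lit 0) (nat_lit 0) (nat_lit 0) (nat_lit 1) (nat_lit 0) (nat_lit 1) (nat_lit 0) (nat_lit 407) (nat_lit 378) (nat_lit 295))) (XT.nd (nat_lit 94) (nat_lit 0) (nat_lit 0) (XT.lf (nat_lit 0) (nat_lit 4297375658) (nat_lit 0) (nat_lit 0) (nat_lit 0) (nat_lit 0) (nat_lit 0) (nat_lit 0) (nat_lit 1) (nat_lit 0) (nat_lit 1) (nat_lit 0) (nat_lit 408) (nat_lit 378) (nat_lit 294)) (XT.nd (nat_lit 94) (nat_lit 0) (nat_lit 0) (XT.lf (nat_lit 0) (nat_lit 4296880666) (nat_lit 0) (nat_lit 0) (nat_lit 0) (nat_lit 0) (nat_lit 0) (nat_lit 0) (nat_lit 1) (nat_lit 0) (nat_lit 1) (nat_lit 0) (nat_lit 409) (nat_lit 378) (nat_lit 293)) (XT.lf (nat_lit 0) (nat_lit 4296422340) (nat_lit 0) (nat_lit 0)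 (nat_lit 0) (nat_lit 0) (nat_lit 0) (nat_lit 0) (nat_lit 1) (nat_lit 0) (nat_lit 1) (nat_lit 0) (nat_lit 410) (nat_lit 378) (nat_lit 292))))))) (XT.nd (nat_lit 846) (nat_lit 0) (nat_lit 0) (XT.nd (nat_lit 376) (nat_lit 0) (nat_lit 0) (XT.nd (nat_lit 188) (nat_lit 0) (nat_lit 0) (XT.nd (nat_lit 94) (nat_lit 0) (nat_lit 0) (XT.lf (nat_lit 0) (nat_lit 4295997964) (nat_lit 0) (nat_lit 0) (nat_lit 0) (nat_lit 0) (nat_lit 0) (nat_lit 0) (nat_lit 1) (nat_lit 0) (nat_lit 1) (nat_lit 0) (nat_lit 411) (nat_lit 378) (nat_lit 291)) (XT.lf (nat_lit 0) (nat_lit 4295605024) (nat_lit 0) (nat_lit 0) (nat_lit 0) (nat_lit 0) (nat_lit 0) (nat_lit 0) (nat_lit 1) (nat_lit 0) (nat_lit 1) (nat_lit 0) (nat_lit 412) (nat_lit 378) (nat_lit 290))) (XT.nd (nat_lit 94) (nat_lit 0) (nat_lit 0) (XT.lf (nat_lit 0) (nat_lit 4295241190) (nat_lit 0) (nat_lit 0) (nat_lit 0) (nat_lit 0) (nat_lit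 0) (nat_lit 0) (nat_lit 1) (nat_lit 0) (nat_lit 1) (nat_lit 0) (nat_lit 413) (nat_lit 378) (nat_lit 289)) (XT.lf (nat_lit 0) (nat_lit 4294904306) (nat_lit 0) (nat_lit 0) (nat_lit 0) (nat_lit 0) (nat_lit 0) (nat_lit 0) (nat_lit 1) (nat_lit 0) (nat_lit 1) (nat_lit 0) (nat_lit 414) (nat_lit 378) (nat_lit 288)))) (XT.nd (nat_lit 188) (nat_lit 0) (nat_lit 0) (XT.nd (nat_lit 94) (nat_lit 0) (nat_lit 0) (XT.lf (nat_lit 0) (nat_lit 4294592377) (nat_lit 0) (nat_lit 0) (nat_lit 0) (nat_lit 0) (nat_lit 0) (nat_lit 0) (nat_lit 1) (nat_lit 0) (nat_lit 1) (nat_lit 0) (nat_lit 415) (nat_lit 378) (nat_lit 287)) (XT.lf (nat_lit 0) (nat_lit 4294303554) (nat_lit 0) (nat_lit 0) (nat_lit 0) (nat_lit 0) (nat_lit 0) (nat_lit 0) (nat_lit 1) (nat_lit 0) (nat_lit 1) (nat_lit 0) (nat_lit 416) (nat_lit 378) (nat_lit 286))) (XT.nd (nat_lit 94) (nat_lit 0) (nat_lit 0) (XT.lf (nat_lit 0)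 (nat_lit 4294036125) (nat_lit 0) (nat_lit 0) (nat_lit 0) (nat_lit 0) (nat_lit 0) (nat_lit 0) (nat_lit 1) (nat_lit 0) (nat_lit 1) (nat_lit 0) (nat_lit 417) (nat_lit 378) (nat_lit 285)) (XT.nd (nat_lit 94) (nat_lit 0) (nat_lit 0) (XT.lf (nat_lit 0) (nat_lit 4293788506) (nat_lit 0) (nat_lit 0) (nat_lit 0) (nat_lit 0) (nat_lit 0) (nat_lit 0) (nat_lit 1) (nat_lit 0) (nat_lit 1) (nat_lit 0) (nat_lit 418) (nat_lit 378) (nat_lit 284)) (XT.lf (nat_lit 0) (nat_lit 4293559229) (nat_lit 0) (nat_lit 0) (nat_lit 0) (nat_lit 0) (nat_lit 0) (nat_lit 0) (nat_lit 1) (nat_lit 0) (nat_lit 1) (nat_lit 0) (nat_lit 419) (nat_lit 378) (nat_lit 283)))))) (XT.nd (nat_lit 470) (nat_lit 0) (nat_lit 0) (XT.nd (nat_lit 188) (nat_lit 0) (nat_lit 0) (XT.nd (nat_lit 94) (nat_lit 0) (nat_lit 0) (XT.lf (nat_lit 0) (nat_lit 4293346935) (nat_lit 0) (nat_lit 0) (nat_lit 0) (nat_lit 0) (nat_lit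 0) (nat_lit 0) (nat_lit 1) (nat_lit 0) (nat_lit 1) (nat_lit 0) (nat_lit 420) (nat_lit 378) (nat_lit 282)) (XT.lf (nat_lit 0) (nat_lit 4293150367) (nat_lit 0) (nat_lit 0) (nat_lit 0) (nat_lit 0) (nat_lit 0) (nat_lit 0) (nat_lit 1) (nat_lit 0) (nat_lit 1) (nat_lit 0) (nat_lit 421) (nat_lit 378) (nat_lit 281))) (XT.nd (nat_lit 94) (nat_lit 0) (nat_lit 0) (XT.lf (nat_lit 0) (nat_lit 4292968360) (nat_lit 0) (nat_lit 0) (nat_lit 0) (nat_lit 0) (nat_lit 0) (nat_lit 0) (nat_lit 1) (nat_lit 0) (nat_lit 1) (nat_lit 0) (nat_lit 422) (nat_lit 378) (nat_lit 280)) (XT.nd (nat_lit 94) (nat_lit 0) (nat_lit 0) (XT.lf (nat_lit 0) (nat_lit 4292799834) (nat_lit 0) (nat_lit 0) (nat_lit 0) (nat_lit 0) (nat_lit 0) (nat_lit 0) (nat_lit 1) (nat_lit 0) (nat_lit 1) (nat_lit 0) (nat_lit 423) (nat_lit 378) (nat_lit 279)) (XT.lf (nat_lit 0) (nat_lit 4292643792) (nat_lit 0) (nat_lit 0)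 (nat_lit 0) (nat_lit 0) (nat_lit 0) (nat_lit 0) (nat_lit 1) (nat_lit 0) (nat_lit 1) (nat_lit 0) (nat_lit 424) (nat_lit 378) (nat_lit 278))))) (XT.nd (nat_lit 188) (nat_lit 0) (nat_lit 0) (XT.nd (nat_lit 94) (nat_lit 0) (nat_lit 0) (XT.lf (nat_lit 0) (nat_lit 4292499309) (nat_lit 0) (nat_lit 0) (nat_lit 0) (nat_lit 0) (nat_lit 0) (nat_lit 0) (nat_lit 1) (nat_lit 0) (nat_lit 1) (nat_lit 0) (nat_lit 425) (nat_lit 378) (nat_lit 277)) (XT.lf (nat_lit 0) (nat_lit 4292365528) (nat_lit 0) (nat_lit 0) (nat_lit 0) (nat_lit 0) (nat_lit 0) (nat_lit 0) (nat_lit 1) (nat_lit 0) (nat_lit 1) (nat_lit 0) (nat_lit 426) (nat_lit 378) (nat_lit 276))) (XT.nd (nat_lit 94) (nat_lit 0) (nat_lit 0) (XT.lf (nat_lit 0) (nat_lit 4292241656) (nat_lit 0) (nat_lit 0) (nat_lit 0) (nat_lit 0) (nat_lit 0) (nat_lit 0) (nat_lit 1) (nat_lit 0) (nat_lit 1) (nat_lit 0) (nat_lit 427) (nat_lit 378)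 (nat_lit 275)) (XT.nd (nat_lit 94) (nat_lit 0) (nat_lit 0) (XT.lf (nat_lit 0) (nat_lit 4292126961) (nat_lit 0) (nat_lit 0) (nat_lit 0) (nat_lit 0) (nat_lit 0) (nat_lit 0) (nat_lit 1) (nat_lit 0) (nat_lit 1) (nat_lit 0) (nat_lit 428) (nat_lit 378) (nat_lit 274)) (XT.lf (nat_lit 0) (nat_lit 4292020761) (nat_lit 0) (nat_lit 0) (nat_lit 0) (nat_lit 0) (nat_lit 0) (nat_lit 0) (nat_lit 1) (nat_lit 0) (nat_lit 1) (nat_lit 0) (nat_lit 429) (nat_lit 378) (nat_lit 273))))))))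
noncomputable def ec73 : XT := (XT.nd (nat_lit 58844) (nat_lit 0) (nat_lit 3696) (XT.nd (nat_lit 57904) (nat_lit 0) (nat_lit 8568) (XT.nd (nat_lit 376) (nat_lit 0) (nat_lit 0) (XT.nd (nat_lit 188) (nat_lit 0) (nat_lit 0) (XT.nd (nat_lit 94) (nat_lit 0) (nat_lit 0) (XT.lf (nat_lit 0) (nat_lit 4291922428) (nat_lit 0) (nat_lit 0) (nat_lit 0) (nat_lit 0) (nat_lit 0) (nat_lit 0) (nat_lit 1) (nat_lit 0) (nat_lit 1) (nat_lit 0) (nat_lit 430) (nat_lit 378) (nat_lit 272)) (XT.lf (nat_lit 0) (nat_lit 4291831379) (nat_lit 0) (nat_lit 0) (nat_lit 0) (nat_lit 0) (nat_lit 0) (nat_lit 0) (nat_lit 1) (nat_lit 0) (nat_lit 1) (nat_lit 0) (nat_lit 431) (nat_lit 378) (nat_lit 271))) (XT.nd (nat_lit 94) (nat_lit 0) (nat_lit 0) (XT.lf (nat_lit 0) (nat_lit 4291747074) (nat_lit 0) (nat_lit 0) (nat_lit 0) (nat_lit 0) (nat_lit 0) (nat_lit 0) (nat_lit 1) (nat_lit 0) (nat_lit 1) (nat_lit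 0) (nat_lit 432) (nat_lit 378) (nat_lit 270)) (XT.lf (nat_lit 0) (nat_lit 4291669014) (nat_lit 0) (nat_lit 0) (nat_lit 0) (nat_lit 0) (nat_lit 0) (nat_lit 0) (nat_lit 1) (nat_lit 0) (nat_lit 1) (nat_lit 0) (nat_lit 433) (nat_lit 378) (nat_lit 269)))) (XT.nd (nat_lit 57246) (nat_lit 0) (nat_lit 10752) (XT.nd (nat_lit 94) (nat_lit 0) (nat_lit 0) (XT.lf (nat_lit 0) (nat_lit 4291596737) (nat_lit 0) (nat_lit 0) (nat_lit 0) (nat_lit 0) (nat_lit 0) (nat_lit 0) (nat_lit 1) (nat_lit 0) (nat_lit 1) (nat_lit 0) (nat_lit 434) (nat_lit 378) (nat_lit 268)) (XT.lf (nat_lit 0) (nat_lit 4291529813) (nat_lit 0) (nat_lit 0) (nat_lit 0) (nat_lit 0) (nat_lit 0) (nat_lit 0) (nat_lit 1) (nat_lit 0) (nat_lit 1) (nat_lit 0) (nat_lit 435) (nat_lit 378) (nat_lit 267))) (XT.nd (nat_lit 94) (nat_lit 0) (nat_lit 84) (XT.lf (nat_lit 924) (nat_lit 2319001519) (nat_lit 0) (nat_lit 4117381867)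 (nat_lit 924) (nat_lit 2319001519) (nat_lit 139) (nat_lit 1) (nat_lit 128) (nat_lit 0) (nat_lit 139) (nat_lit 0) (nat_lit 322) (nat_lit 379) (nat_lit 379)) (XT.nd (nat_lit 94) (nat_lit 0) (nat_lit 0) (XT.lf (nat_lit 924) (nat_lit 865058723) (nat_lit 0) (nat_lit 8083668486) (nat_lit 840) (nat_lit 7905800773) (nat_lit 140) (nat_lit 1) (nat_lit 129) (nat_lit 1) (nat_lit 139) (nat_lit 1) (nat_lit 323) (nat_lit 379) (nat_lit 378)) (XT.lf (nat_lit 924) (nat_lit 7945065055) (nat_lit 84) (nat_lit 5413635510) (nat_lit 0) (nat_lit 2871145325) (nat_lit 140) (nat_lit 1) (nat_lit 130) (nat_lit 1) (nat_lit 129) (nat_lit 1) (nat_lit 324) (nat_lit 379) (nat_lit 377)))))) (XT.nd (nat_lit 470) (nat_lit 1764) (nat_lit 0) (XT.nd (nat_lit 188) (nat_lit 588) (nat_lit 0) (XT.nd (nat_lit 94) (nat_lit 0) (nat_lit 84) (XT.lf (nat_lit 924) (nat_lit 6865187076) (nat_lit 84) (nat_lit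 2268817118) (nat_lit 0) (nat_lit 6502420280) (nat_lit 141) (nat_lit 1) (nat_lit 131) (nat_lit 1) (nat_lit 130) (nat_lit 1) (nat_lit 325) (nat_lit 379) (nat_lit 376)) (XT.lf (nat_lit 924) (nat_lit 5080822094) (nat_lit 0) (nat_lit 9505977979) (nat_lit 840) (nat_lit 485944236) (nat_lit 142) (nat_lit 1) (nat_lit 131) (nat_lit 1) (nat_lit 141) (nat_lit 1) (nat_lit 326) (nat_lit 379) (nat_lit 375))) (XT.nd (nat_lit 94) (nat_lit 756) (nat_lit 0) (XT.lf (nat_lit 924) (nat_lit 1219093445) (nat_lit 0) (nat_lit 10482981584) (nat_lit 840) (nat_lit 2833908787) (nat_lit 143) (nat_lit 1) (nat_lit 132) (nat_lit 1) (nat_lit 142) (nat_lit 1) (nat_lit 327) (nat_lit 379) (nat_lit 374)) (XT.nd (nat_lit 94) (nat_lit 756) (nat_lit 0) (XT.lf (nat_lit 924) (nat_lit 2342601755) (nat_lit 84) (nat_lit 9110564663) (nat_lit 0) (nat_lit 2571113750) (nat_lit 143) (nat_lit 1) (nat_lit 133)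 (nat_lit 1) (nat_lit 132) (nat_lit 1) (nat_lit 328) (nat_lit 379) (nat_lit 373)) (XT.lf (nat_lit 924) (nat_lit 481116981) (nat_lit 0) (nat_lit 6810749726) (nat_lit 840) (nat_lit 6245386137) (nat_lit 134) (nat_lit 1) (nat_lit 123) (nat_lit 1) (nat_lit 133) (nat_lit 1) (nat_lit 329) (nat_lit 379) (nat_lit 372))))) (XT.nd (nat_lit 188) (nat_lit 756) (nat_lit 0) (XT.nd (nat_lit 94) (nat_lit 420) (nat_lit 0) (XT.lf (nat_lit 84) (nat_lit 3331354203) (nat_lit 0) (nat_lit 1443630805) (nat_lit 588) (nat_lit 8298300786) (nat_lit 117) (nat_lit 1) (nat_lit 116) (nat_lit 1) (nat_lit 123) (nat_lit 1) (nat_lit 330) (nat_lit 379) (nat_lit 371)) (XT.lf (nat_lit 504) (nat_lit 9180792879) (nat_lit 0) (nat_lit 2988546004) (nat_lit 420) (nat_lit 462047678) (nat_lit 117) (nat_lit 1) (nat_lit 111) (nat_lit 1) (nat_lit 116) (nat_lit 1) (nat_lit 331) (nat_lit 379) (nat_lit 370)))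 (XT.nd (nat_lit 94) (nat_lit 336) (nat_lit 0) (XT.lf (nat_lit 504) (nat_lit 6624947567) (nat_lit 0) (nat_lit 1392974166) (nat_lit 420) (nat_lit 4190566470) (nat_lit 112) (nat_lit 1) (nat_lit 106) (nat_lit 1) (nat_lit 111) (nat_lit 1) (nat_lit 332) (nat_lit 379) (nat_lit 369)) (XT.nd (nat_lit 94) (nat_lit 0) (nat_lit 0) (XT.lf (nat_lit 420) (nat_lit 4031196100) (nat_lit 0) (nat_lit 25646918) (nat_lit 336) (nat_lit 7749252250) (nat_lit 107) (nat_lit 1) (nat_lit 102) (nat_lit 1) (nat_lit 106) (nat_lit 1) (nat_lit 333) (nat_lit 379) (nat_lit 368)) (XT.lf (nat_lit 84) (nat_lit 297402596) (nat_lit 0) (nat_lit 10029856657) (nat_lit 420) (nat_lit 1094953872) (nat_lit 103) (nat_lit 1) (nat_lit 102) (nat_lit 1) (nat_lit 107) (nat_lit 1) (nat_lit 334) (nat_lit 379) (nat_lit 367))))))) (XT.nd (nat_lit 846) (nat_lit 2016) (nat_lit 0) (XT.nd (nat_lit 376) (nat_lit 1512)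 (nat_lit 0) (XT.nd (nat_lit 188) (nat_lit 588) (nat_lit 0) (XT.nd (nat_lit 94) (nat_lit 336) (nat_lit 0) (XT.lf (nat_lit 84) (nat_lit 7679012190) (nat_lit 0) (nat_lit 1273646336) (nat_lit 420) (nat_lit 2100474120) (nat_lit 98) (nat_lit 1) (nat_lit 97) (nat_lit 1) (nat_lit 102) (nat_lit 1) (nat_lit 335) (nat_lit 379) (nat_lit 366)) (XT.lf (nat_lit 84) (nat_lit 3842004389) (nat_lit 0) (nat_lit 3901404822) (nat_lit 420) (nat_lit 2956950813) (nat_lit 94) (nat_lit 1) (nat_lit 93) (nat_lit 1) (nat_lit 98) (nat_lit 1) (nat_lit 336) (nat_lit 379) (nat_lit 365))) (XT.nd (nat_lit 94) (nat_lit 252) (nat_lit 0) (XT.lf (nat_lit 84) (nat_lit 189632817) (nat_lit 0) (nat_lit 6523088282) (nat_lit 420) (nat_lit 3651568921) (nat_lit 90) (nat_lit 1) (nat_lit 89) (nat_lit 1) (nat_lit 94) (nat_lit 1) (nat_lit 337) (nat_lit 379) (nat_lit 364)) (XT.lf (nat_lit 336) (nat_lit 856371114)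 (nat_lit 0) (nat_lit 5791227930) (nat_lit 252) (nat_lit 3393792664) (nat_lit 90) (nat_lit 1) (nat_lit 86) (nat_lit 1) (nat_lit 89) (nat_lit 1) (nat_lit 338) (nat_lit 379) (nat_lit 363)))) (XT.nd (nat_lit 188) (nat_lit 840) (nat_lit 0) (XT.nd (nat_lit 94) (nat_lit 252) (nat_lit 0) (XT.lf (nat_lit 84) (nat_lit 2958992445) (nat_lit 0) (nat_lit 2028111808) (nat_lit 420) (nat_lit 4744728659) (nat_lit 82) (nat_lit 1) (nat_lit 81) (nat_lit 1) (nat_lit 86) (nat_lit 1) (nat_lit 339) (nat_lit 379) (nat_lit 362)) (XT.lf (nat_lit 336) (nat_lit 4581232035) (nat_lit 0) (nat_lit 4303475386) (nat_lit 252) (nat_lit 550839742) (nat_lit 82) (nat_lit 1) (nat_lit 78) (nat_lit 1) (nat_lit 81) (nat_lit 1) (nat_lit 340) (nat_lit 379) (nat_lit 361))) (XT.nd (nat_lit 94) (nat_lit 588) (nat_lit 0) (XT.lf (nat_lit 336) (nat_lit 1468262735) (nat_lit 0) (nat_lit 3705116082) (nat_lit 252)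 (nat_lit 3977268941) (nat_lit 79) (nat_lit 1) (nat_lit 75) (nat_lit 1) (nat_lit 78) (nat_lit 1) (nat_lit 341) (nat_lit 379) (nat_lit 360)) (XT.nd (nat_lit 94) (nat_lit 252) (nat_lit 0) (XT.lf (nat_lit 84) (nat_lit 1673464738) (nat_lit 0) (nat_lit 1532202395) (nat_lit 336) (nat_lit 5671913629) (nat_lit 72) (nat_lit 1) (nat_lit 71) (nat_lit 1) (nat_lit 75) (nat_lit 1) (nat_lit 342) (nat_lit 379) (nat_lit 359)) (XT.lf (nat_lit 336) (nat_lit 4164197359) (nat_lit 0) (nat_lit 2770702610) (nat_lit 252) (nat_lit 1679609031) (nat_lit 72) (nat_lit 1) (nat_lit 68) (nat_lit 1) (nat_lit 71) (nat_lit 1) (nat_lit 343) (nat_lit 379) (nat_lit 358)))))) (XT.nd (nat_lit 470) (nat_lit 924) (nat_lit 0) (XT.nd (nat_lit 188) (nat_lit 588) (nat_lit 0) (XT.nd (nat_lit 94) (nat_lit 336) (nat_lit 0) (XT.lf (nat_lit 252) (nat_lit 1032310674) (nat_lit 0) (nat_lit 2417235931) (nat_lit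 168) (nat_lit 4912503683) (nat_lit 69) (nat_lit 1) (nat_lit 66) (nat_lit 1) (nat_lit 68) (nat_lit 1) (nat_lit 344) (nat_lit 379) (nat_lit 357)) (XT.lf (nat_lit 84) (nat_lit 174880023) (nat_lit 0) (nat_lit 1956945426) (nat_lit 336) (nat_lit 5987552090) (nat_lit 63) (nat_lit 1) (nat_lit 62) (nat_lit 1) (nat_lit 66) (nat_lit 1) (nat_lit 345) (nat_lit 379) (nat_lit 356))) (XT.nd (nat_lit 94) (nat_lit 420) (nat_lit 0) (XT.lf (nat_lit 252) (nat_lit 2999705403) (nat_lit 0) (nat_lit 1874558533) (nat_lit 168) (nat_lit 3010144408) (nat_lit 63) (nat_lit 1) (nat_lit 60) (nat_lit 1) (nat_lit 62) (nat_lit 1) (nat_lit 346) (nat_lit 379) (nat_lit 355)) (XT.nd (nat_lit 94) (nat_lit 168) (nat_lit 0) (XT.lf (nat_lit 84) (nat_lit 1627514793) (nat_lit 0) (nat_lit 75175928) (nat_lit 252) (nat_lit 5957001673) (nat_lit 58) (nat_lit 1) (nat_lit 57) (nat_lit 1) (nat_lit 60) (nat_lit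 1) (nat_lit 347) (nat_lit 379) (nat_lit 354)) (XT.lf (nat_lit 252) (nat_lit 4449311164) (nat_lit 0) (nat_lit 1541786080) (nat_lit 168) (nat_lit 1450416027) (nat_lit 58) (nat_lit 1) (nat_lit 55) (nat_lit 1) (nat_lit 57) (nat_lit 1) (nat_lit 348) (nat_lit 379) (nat_lit 353))))) (XT.nd (nat_lit 188) (nat_lit 504) (nat_lit 0) (XT.nd (nat_lit 94) (nat_lit 252) (nat_lit 0) (XT.lf (nat_lit 252) (nat_lit 1382134344) (nat_lit 0) (nat_lit 1433260655) (nat_lit 168) (nat_lit 4416281093) (nat_lit 56) (nat_lit 1) (nat_lit 53) (nat_lit 1) (nat_lit 55) (nat_lit 1) (nat_lit 349) (nat_lit 379) (nat_lit 352)) (XT.lf (nat_lit 252) (nat_lit 5486565397) (nat_lit 0) (nat_lit 1369364225) (nat_lit 168) (nat_lit 173719738) (nat_lit 53) (nat_lit 1) (nat_lit 50) (nat_lit 1) (nat_lit 52) (nat_lit 1) (nat_lit 350) (nat_lit 379) (nat_lit 351))) (XT.nd (nat_lit 94) (nat_lit 336) (nat_lit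 0) (XT.lf (nat_lit 252) (nat_lit 2455532391) (nat_lit 0) (nat_lit 1307281158) (nat_lit 168) (nat_lit 3070422766) (nat_lit 51) (nat_lit 1) (nat_lit 48) (nat_lit 1) (nat_lit 50) (nat_lit 1) (nat_lit 351) (nat_lit 379) (nat_lit 350)) (XT.nd (nat_lit 94) (nat_lit 168) (nat_lit 0) (XT.lf (nat_lit 84) (nat_lit 841114649) (nat_lit 0) (nat_lit 462314513) (nat_lit 168) (nat_lit 5341540813) (nat_lit 47) (nat_lit 1) (nat_lit 46) (nat_lit 1) (nat_lit 48) (nat_lit 1) (nat_lit 352) (nat_lit 379) (nat_lit 349)) (XT.lf (nat_lit 252) (nat_lit 3221799716) (nat_lit 0) (nat_lit 1289627298) (nat_lit 168) (nat_lit 1950027342) (nat_lit 47) (nat_lit 1) (nat_lit 44) (nat_lit 1) (nat_lit 46) (nat_lit 1) (nat_lit 353) (nat_lit 379) (nat_lit 348))))))))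
noncomputable def ec74 : XT := (XT.nd (nat_lit 1692) (nat_lit 1092) (nat_lit 0) (XT.nd (nat_lit 846) (nat_lit 1176) (nat_lit 0) (XT.nd (nat_lit 376) (nat_lit 756) (nat_lit 0) (XT.nd (nat_lit 188) (nat_lit 336) (nat_lit 0) (XT.nd (nat_lit 94) (nat_lit 252) (nat_lit 0) (XT.lf (nat_lit 168) (nat_lit 346942048) (nat_lit 0) (nat_lit 1321302211) (nat_lit 84) (nat_lit 4616939439) (nat_lit 45) (nat_lit 1) (nat_lit 43) (nat_lit 1) (nat_lit 44) (nat_lit 1) (nat_lit 354) (nat_lit 379) (nat_lit 347)) (XT.lf (nat_lit 252) (nat_lit 3745111321) (nat_lit 0) (nat_lit 1351339568) (nat_lit 168) (nat_lit 1017322477) (nat_lit 43) (nat_lit 1) (nat_lit 40) (nat_lit 1) (nat_lit 42) (nat_lit 1) (nat_lit 355) (nat_lit 379) (nat_lit 346))) (XT.nd (nat_lit 94) (nat_lit 252) (nat_lit 0) (XT.lf (nat_lit 168) (nat_lit 941923113) (nat_lit 0) (nat_lit 1401867516) (nat_lit 84) (nat_lit 3604349278)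 (nat_lit 41) (nat_lit 1) (nat_lit 39) (nat_lit 1) (nat_lit 40) (nat_lit 1) (nat_lit 356) (nat_lit 379) (nat_lit 345)) (XT.lf (nat_lit 252) (nat_lit 4077353515) (nat_lit 0) (nat_lit 1469480001) (nat_lit 168) (nat_lit 241154247) (nat_lit 39) (nat_lit 1) (nat_lit 36) (nat_lit 1) (nat_lit 38) (nat_lit 1) (nat_lit 357) (nat_lit 379) (nat_lit 344)))) (XT.nd (nat_lit 188) (nat_lit 420) (nat_lit 0) (XT.nd (nat_lit 94) (nat_lit 252) (nat_lit 0) (XT.lf (nat_lit 168) (nat_lit 1355556585) (nat_lit 0) (nat_lit 1531950559) (nat_lit 84) (nat_lit 2744621727) (nat_lit 37) (nat_lit 1) (nat_lit 35) (nat_lit 1) (nat_lit 36) (nat_lit 1) (nat_lit 358) (nat_lit 379) (nat_lit 343)) (XT.lf (nat_lit 84) (nat_lit 391267576) (nat_lit 0) (nat_lit 1228084626) (nat_lit 252) (nat_lit 3862517017) (nat_lit 33) (nat_lit 1) (nat_lit 32) (nat_lit 1) (nat_lit 35) (nat_lit 1) (nat_lit 359) (nat_lit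 379) (nat_lit 342))) (XT.nd (nat_lit 94) (nat_lit 336) (nat_lit 0) (XT.lf (nat_lit 168) (nat_lit 1626790204) (nat_lit 0) (nat_lit 1695038284) (nat_lit 84) (nat_lit 2013512685) (nat_lit 33) (nat_lit 1) (nat_lit 31) (nat_lit 1) (nat_lit 32) (nat_lit 1) (nat_lit 360) (nat_lit 379) (nat_lit 341)) (XT.nd (nat_lit 94) (nat_lit 84) (nat_lit 0) (XT.lf (nat_lit 84) (nat_lit 909942694) (nat_lit 0) (nat_lit 881341029) (nat_lit 252) (nat_lit 3402678758) (nat_lit 29) (nat_lit 1) (nat_lit 28) (nat_lit 1) (nat_lit 31) (nat_lit 1) (nat_lit 361) (nat_lit 379) (nat_lit 340)) (XT.lf (nat_lit 168) (nat_lit 1787032689) (nat_lit 0) (nat_lit 1878240388) (nat_lit 84) (nat_lit 1390922885) (nat_lit 29) (nat_lit 1) (nat_lit 27) (nat_lit 1) (nat_lit 28) (nat_lit 1) (nat_lit 362) (nat_lit 379) (nat_lit 339)))))) (XT.nd (nat_lit 376) (nat_lit 672) (nat_lit 0) (XT.nd (nat_lit 188) (nat_lit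 252) (nat_lit 0) (XT.nd (nat_lit 94) (nat_lit 84) (nat_lit 0) (XT.lf (nat_lit 84) (nat_lit 1339646061) (nat_lit 0) (nat_lit 638317378) (nat_lit 168) (nat_lit 2945015797) (nat_lit 26) (nat_lit 1) (nat_lit 25) (nat_lit 1) (nat_lit 27) (nat_lit 1) (nat_lit 363) (nat_lit 379) (nat_lit 338)) (XT.lf (nat_lit 168) (nat_lit 1861562454) (nat_lit 0) (nat_lit 2071583262) (nat_lit 84) (nat_lit 860158538) (nat_lit 26) (nat_lit 1) (nat_lit 24) (nat_lit 1) (nat_lit 25) (nat_lit 1) (nat_lit 364) (nat_lit 379) (nat_lit 337))) (XT.nd (nat_lit 94) (nat_lit 84) (nat_lit 0) (XT.lf (nat_lit 84) (nat_lit 1694527710) (nat_lit 0) (nat_lit 476193087) (nat_lit 168) (nat_lit 2496897141) (nat_lit 23) (nat_lit 1) (nat_lit 22) (nat_lit 1) (nat_lit 24) (nat_lit 1) (nat_lit 365) (nat_lit 379) (nat_lit 336)) (XT.lf (nat_lit 168) (nat_lit 1870676267) (nat_lit 0) (nat_lit 2267436167) (nat_lit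 84) (nat_lit 407326267) (nat_lit 23) (nat_lit 1) (nat_lit 21) (nat_lit 1) (nat_lit 22) (nat_lit 1) (nat_lit 366) (nat_lit 379) (nat_lit 335)))) (XT.nd (nat_lit 188) (nat_lit 420) (nat_lit 0) (XT.nd (nat_lit 94) (nat_lit 84) (nat_lit 0) (XT.lf (nat_lit 84) (nat_lit 1986347895) (nat_lit 0) (nat_lit 376618286) (nat_lit 168) (nat_lit 2063758637) (nat_lit 20) (nat_lit 1) (nat_lit 19) (nat_lit 1) (nat_lit 21) (nat_lit 1) (nat_lit 367) (nat_lit 379) (nat_lit 334)) (XT.lf (nat_lit 168) (nat_lit 1830625665) (nat_lit 0) (nat_lit 2460045228) (nat_lit 84) (nat_lit 20837775) (nat_lit 20) (nat_lit 1) (nat_lit 18) (nat_lit 1) (nat_lit 19) (nat_lit 1) (nat_lit 368) (nat_lit 379) (nat_lit 333))) (XT.nd (nat_lit 94) (nat_lit 252) (nat_lit 0) (XT.lf (nat_lit 84) (nat_lit 2224900110) (nat_lit 0) (nat_lit 324874360) (nat_lit 168) (nat_lit 1649496918) (nat_lit 17) (nat_lit 1) (nat_lit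 16) (nat_lit 1) (nat_lit 18) (nat_lit 1) (nat_lit 369) (nat_lit 379) (nat_lit 332)) (XT.nd (nat_lit 94) (nat_lit 168) (nat_lit 0) (XT.lf (nat_lit 0) (nat_lit 299106020) (nat_lit 0) (nat_lit 2340983759) (nat_lit 168) (nat_lit 1450208628) (nat_lit 15) (nat_lit 3) (nat_lit 15) (nat_lit 1) (nat_lit 17) (nat_lit 1) (nat_lit 370) (nat_lit 379) (nat_lit 331)) (XT.lf (nat_lit 84) (nat_lit 2418357528) (nat_lit 0) (nat_lit 309189744) (nat_lit 168) (nat_lit 1256788559) (nat_lit 14) (nat_lit 1) (nat_lit 13) (nat_lit 1) (nat_lit 15) (nat_lit 1) (nat_lit 371) (nat_lit 379) (nat_lit 330))))))) (XT.nd (nat_lit 846) (nat_lit 0) (nat_lit 0) (XT.nd (nat_lit 376) (nat_lit 588) (nat_lit 0) (XT.nd (nat_lit 188) (nat_lit 252) (nat_lit 0) (XT.nd (nat_lit 94) (nat_lit 168) (nat_lit 0) (XT.lf (nat_lit 0) (nat_lit 571403154) (nat_lit 0) (nat_lit 2238623203) (nat_lit 168) (nat_lit 1071168921)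 (nat_lit 12) (nat_lit 3) (nat_lit 12) (nat_lit 1) (nat_lit 14) (nat_lit 1) (nat_lit 372) (nat_lit 379) (nat_lit 329)) (XT.lf (nat_lit 84) (nat_lit 2573556855) (nat_lit 0) (nat_lit 320182408) (nat_lit 168) (nat_lit 887348330) (nat_lit 11) (nat_lit 1) (nat_lit 10) (nat_lit 1) (nat_lit 12) (nat_lit 1) (nat_lit 373) (nat_lit 379) (nat_lit 328))) (XT.nd (nat_lit 94) (nat_lit 168) (nat_lit 0) (XT.lf (nat_lit 0) (nat_lit 803329243) (nat_lit 0) (nat_lit 2164636358) (nat_lit 168) (nat_lit 715454066) (nat_lit 9) (nat_lit 3) (nat_lit 9) (nat_lit 1) (nat_lit 11) (nat_lit 1) (nat_lit 374) (nat_lit 379) (nat_lit 327)) (XT.lf (nat_lit 84) (nat_lit 2696231018) (nat_lit 0) (nat_lit 350405704) (nat_lit 168) (nat_lit 542137856) (nat_lit 8) (nat_lit 1) (nat_lit 7) (nat_lit 1) (nat_lit 9) (nat_lit 1) (nat_lit 375) (nat_lit 379) (nat_lit 326)))) (XT.nd (nat_lit 188) (nat_lit 336)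 (nat_lit 0) (XT.nd (nat_lit 94) (nat_lit 168) (nat_lit 0) (XT.lf (nat_lit 0) (nat_lit 1000456073) (nat_lit 0) (nat_lit 2111981250) (nat_lit 168) (nat_lit 383812377) (nat_lit 6) (nat_lit 3) (nat_lit 6) (nat_lit 1) (nat_lit 8) (nat_lit 1) (nat_lit 376) (nat_lit 379) (nat_lit 325)) (XT.lf (nat_lit 84) (nat_lit 2791200018) (nat_lit 0) (nat_lit 393978564) (nat_lit 168) (nat_lit 221533921) (nat_lit 5) (nat_lit 1) (nat_lit 4) (nat_lit 1) (nat_lit 6) (nat_lit 1) (nat_lit 377) (nat_lit 379) (nat_lit 324))) (XT.nd (nat_lit 94) (nat_lit 252) (nat_lit 0) (XT.lf (nat_lit 0) (nat_lit 1167496045) (nat_lit 0) (nat_lit 2075070982) (nat_lit 168) (nat_lit 76460556) (nat_lit 3) (nat_lit 3) (nat_lit 3) (nat_lit 1) (nat_lit 5) (nat_lit 1) (nat_lit 378) (nat_lit 379) (nat_lit 323)) (XT.nd (nat_lit 94) (nat_lit 0) (nat_lit 0) (XT.lf (nat_lit 0) (nat_lit 4691598441) (nat_lit 0) (nat_lit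 0) (nat_lit 0) (nat_lit 0) (nat_lit 0) (nat_lit 0) (nat_lit 1) (nat_lit 0) (nat_lit 1) (nat_lit 0) (nat_lit 379) (nat_lit 379) (nat_lit 322)) (XT.lf (nat_lit 0) (nat_lit 4687328092) (nat_lit 0) (nat_lit 0) (nat_lit 0) (nat_lit 0) (nat_lit 0) (nat_lit 0) (nat_lit 1) (nat_lit 0) (nat_lit 1) (nat_lit 0) (nat_lit 380) (nat_lit 379) (nat_lit 321)))))) (XT.nd (nat_lit 470) (nat_lit 0) (nat_lit 0) (XT.nd (nat_lit 188) (nat_lit 0) (nat_lit 0) (XT.nd (nat_lit 94) (nat_lit 0) (nat_lit 0) (XT.lf (nat_lit 0) (nat_lit 4683374065) (nat_lit 0) (nat_lit 0) (nat_lit 0) (nat_lit 0) (nat_lit 0) (nat_lit 0) (nat_lit 1) (nat_lit 0) (nat_lit 1) (nat_lit 0) (nat_lit 381) (nat_lit 379) (nat_lit 320)) (XT.lf (nat_lit 0) (nat_lit 4679712929) (nat_lit 0) (nat_lit 0) (nat_lit 0) (nat_lit 0) (nat_lit 0) (nat_lit 0) (nat_lit 1) (nat_lit 0) (nat_lit 1) (nat_lit 0) (nat_lit 382) (nat_lit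 379) (nat_lit 319))) (XT.nd (nat_lit 94) (nat_lit 0) (nat_lit 0) (XT.lf (nat_lit 0) (nat_lit 4676322988) (nat_lit 0) (nat_lit 0) (nat_lit 0) (nat_lit 0) (nat_lit 0) (nat_lit 0) (nat_lit 1) (nat_lit 0) (nat_lit 1) (nat_lit 0) (nat_lit 383) (nat_lit 379) (nat_lit 318)) (XT.nd (nat_lit 94) (nat_lit 0) (nat_lit 0) (XT.lf (nat_lit 0) (nat_lit 4673184154) (nat_lit 0) (nat_lit 0) (nat_lit 0) (nat_lit 0) (nat_lit 0) (nat_lit 0) (nat_lit 1) (nat_lit 0) (nat_lit 1) (nat_lit 0) (nat_lit 384) (nat_lit 379) (nat_lit 317)) (XT.lf (nat_lit 0) (nat_lit 4670277826) (nat_lit 0) (nat_lit 0) (nat_lit 0) (nat_lit 0) (nat_lit 0) (nat_lit 0) (nat_lit 1) (nat_lit 0) (nat_lit 1) (nat_lit 0) (nat_lit 385) (nat_lit 379) (nat_lit 316))))) (XT.nd (nat_lit 188) (nat_lit 0) (nat_lit 0) (XT.nd (nat_lit 94) (nat_lit 0) (nat_lit 0) (XT.lf (nat_lit 0) (nat_lit 4667586781) (nat_lit 0) (nat_lit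 0) (nat_lit 0) (nat_lit 0) (nat_lit 0) (nat_lit 0) (nat_lit 1) (nat_lit 0) (nat_lit 1) (nat_lit 0) (nat_lit 386) (nat_lit 379) (nat_lit 315)) (XT.lf (nat_lit 0) (nat_lit 4665095073) (nat_lit 0) (nat_lit 0) (nat_lit 0) (nat_lit 0) (nat_lit 0) (nat_lit 0) (nat_lit 1) (nat_lit 0) (nat_lit 1) (nat_lit 0) (nat_lit 387) (nat_lit 379) (nat_lit 314))) (XT.nd (nat_lit 94) (nat_lit 0) (nat_lit 0) (XT.lf (nat_lit 0) (nat_lit 4662787937) (nat_lit 0) (nat_lit 0) (nat_lit 0) (nat_lit 0) (nat_lit 0) (nat_lit 0) (nat_lit 1) (nat_lit 0) (nat_lit 1) (nat_lit 0) (nat_lit 388) (nat_lit 379) (nat_lit 313)) (XT.nd (nat_lit 94) (nat_lit 0) (nat_lit 0) (XT.lf (nat_lit 0) (nat_lit 4660651699) (nat_lit 0) (nat_lit 0) (nat_lit 0) (nat_lit 0) (nat_lit 0) (nat_lit 0) (nat_lit 1) (nat_lit 0) (nat_lit 1) (nat_lit 0) (nat_lit 389) (nat_lit 379) (nat_lit 312)) (XT.lf (nat_lit 0) (nat_lit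 4658673701) (nat_lit 0) (nat_lit 0) (nat_lit 0) (nat_lit 0) (nat_lit 0) (nat_lit 0) (nat_lit 1) (nat_lit 0) (nat_lit 1) (nat_lit 0) (nat_lit 390) (nat_lit 379) (nat_lit 311))))))))
noncomputable def ec75 : XT := (XT.nd (nat_lit 1786) (nat_lit 0) (nat_lit 0) (XT.nd (nat_lit 846) (nat_lit 0) (nat_lit 0) (XT.nd (nat_lit 376) (nat_lit 0) (nat_lit 0) (XT.nd (nat_lit 188) (nat_lit 0) (nat_lit 0) (XT.nd (nat_lit 94) (nat_lit 0) (nat_lit 0) (XT.lf (nat_lit 0) (nat_lit 4656842221) (nat_lit 0) (nat_lit 0) (nat_lit 0) (nat_lit 0) (nat_lit 0) (nat_lit 0) (nat_lit 1) (nat_lit 0) (nat_lit 1) (nat_lit 0) (nat_lit 391) (nat_lit 379) (nat_lit 310)) (XT.lf (nat_lit 0) (nat_lit 4655146407) (nat_lit 0) (nat_lit 0) (nat_lit 0) (nat_lit 0) (nat_lit 0) (nat_lit 0) (nat_lit 1) (nat_lit 0) (nat_lit 1) (nat_lit 0) (nat_lit 392) (nat_lit 379) (nat_lit 309))) (XT.nd (nat_lit 94) (nat_lit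 0) (nat_lit 0) (XT.lf (nat_lit 0) (nat_lit 4653576208) (nat_lit 0) (nat_lit 0) (nat_lit 0) (nat_lit 0) (nat_lit 0) (nat_lit 0) (nat_lit 1) (nat_lit 0) (nat_lit 1) (nat_lit 0) (nat_lit 393) (nat_lit 379) (nat_lit 308)) (XT.lf (nat_lit 0) (nat_lit 4652122321) (nat_lit 0) (nat_lit 0) (nat_lit 0) (nat_lit 0) (nat_lit 0) (nat_lit 0) (nat_lit 1) (nat_lit 0) (nat_lit 1) (nat_lit 0) (nat_lit 394) (nat_lit 379) (nat_lit 307)))) (XT.nd (nat_lit 188) (nat_lit 0) (nat_lit 0) (XT.nd (nat_lit 94) (nat_lit 0) (nat_lit 0) (XT.lf (nat_lit 0) (nat_lit 4650776129) (nat_lit 0) (nat_lit 0) (nat_lit 0) (nat_lit 0) (nat_lit 0) (nat_lit 0) (nat_lit 1) (nat_lit 0) (nat_lit 1) (nat_lit 0) (nat_lit 395) (nat_lit 379) (nat_lit 306)) (XT.lf (nat_lit 0) (nat_lit 4649529654) (nat_lit 0) (nat_lit 0) (nat_lit 0) (nat_lit 0) (nat_lit 0) (nat_lit 0) (nat_lit 1) (nat_lit 0) (nat_lit 1) (nat_lit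 0) (nat_lit 396) (nat_lit 379) (nat_lit 305))) (XT.nd (nat_lit 94) (nat_lit 0) (nat_lit 0) (XT.lf (nat_lit 0) (nat_lit 4648375512) (nat_lit 0) (nat_lit 0) (nat_lit 0) (nat_lit 0) (nat_lit 0) (nat_lit 0) (nat_lit 1) (nat_lit 0) (nat_lit 1) (nat_lit 0) (nat_lit 397) (nat_lit 379) (nat_lit 304)) (XT.nd (nat_lit 94) (nat_lit 0) (nat_lit 0) (XT.lf (nat_lit 0) (nat_lit 4647306861) (nat_lit 0) (nat_lit 0) (nat_lit 0) (nat_lit 0) (nat_lit 0) (nat_lit 0) (nat_lit 1) (nat_lit 0) (nat_lit 1) (nat_lit 0) (nat_lit 398) (nat_lit 379) (nat_lit 303)) (XT.lf (nat_lit 0) (nat_lit 4646317369) (nat_lit 0) (nat_lit 0) (nat_lit 0) (nat_lit 0) (nat_lit 0) (nat_lit 0) (nat_lit 1) (nat_lit 0) (nat_lit 1) (nat_lit 0) (nat_lit 399) (nat_lit 379) (nat_lit 302)))))) (XT.nd (nat_lit 470) (nat_lit 0) (nat_lit 0) (XT.nd (nat_lit 188) (nat_lit 0) (nat_lit 0) (XT.nd (nat_lit 94) (nat_lit 0)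 (nat_lit 0) (XT.lf (nat_lit 0) (nat_lit 4645401174) (nat_lit 0) (nat_lit 0) (nat_lit 0) (nat_lit 0) (nat_lit 0) (nat_lit 0) (nat_lit 1) (nat_lit 0) (nat_lit 1) (nat_lit 0) (nat_lit 400) (nat_lit 379) (nat_lit 301)) (XT.lf (nat_lit 0) (nat_lit 4644552844) (nat_lit 0) (nat_lit 0) (nat_lit 0) (nat_lit 0) (nat_lit 0) (nat_lit 0) (nat_lit 1) (nat_lit 0) (nat_lit 1) (nat_lit 0) (nat_lit 401) (nat_lit 379) (nat_lit 300))) (XT.nd (nat_lit 94) (nat_lit 0) (nat_lit 0) (XT.lf (nat_lit 0) (nat_lit 4643767354) (nat_lit 0) (nat_lit 0) (nat_lit 0) (nat_lit 0) (nat_lit 0) (nat_lit 0) (nat_lit 1) (nat_lit 0) (nat_lit 1) (nat_lit 0) (nat_lit 402) (nat_lit 379) (nat_lit 299)) (XT.nd (nat_lit 94) (nat_lit 0) (nat_lit 0) (XT.lf (nat_lit 0) (nat_lit 4643040048) (nat_lit 0) (nat_lit 0) (nat_lit 0) (nat_lit 0) (nat_lit 0) (nat_lit 0) (nat_lit 1) (nat_lit 0) (nat_lit 1) (nat_lit 0)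 (nat_lit 403) (nat_lit 379) (nat_lit 298)) (XT.lf (nat_lit 0) (nat_lit 4642366617) (nat_lit 0) (nat_lit 0) (nat_lit 0) (nat_lit 0) (nat_lit 0) (nat_lit 0) (nat_lit 1) (nat_lit 0) (nat_lit 1) (nat_lit 0) (nat_lit 404) (nat_lit 379) (nat_lit 297))))) (XT.nd (nat_lit 188) (nat_lit 0) (nat_lit 0) (XT.nd (nat_lit 94) (nat_lit 0) (nat_lit 0) (XT.lf (nat_lit 0) (nat_lit 4641743070) (nat_lit 0) (nat_lit 0) (nat_lit 0) (nat_lit 0) (nat_lit 0) (nat_lit 0) (nat_lit 1) (nat_lit 0) (nat_lit 1) (nat_lit 0) (nat_lit 405) (nat_lit 379) (nat_lit 296)) (XT.lf (nat_lit 0) (nat_lit 4641165711) (nat_lit 0) (nat_lit 0) (nat_lit 0) (nat_lit 0) (nat_lit 0) (nat_lit 0) (nat_lit 1) (nat_lit 0) (nat_lit 1) (nat_lit 0) (nat_lit 406) (nat_lit 379) (nat_lit 295))) (XT.nd (nat_lit 94) (nat_lit 0) (nat_lit 0) (XT.lf (nat_lit 0) (nat_lit 4640631119) (nat_lit 0) (nat_lit 0) (nat_lit 0) (nat_lit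 0) (nat_lit 0) (nat_lit 0) (nat_lit 1) (nat_lit 0) (nat_lit 1) (nat_lit 0) (nat_lit 407) (nat_lit 379) (nat_lit 294)) (XT.nd (nat_lit 94) (nat_lit 0) (nat_lit 0) (XT.lf (nat_lit 0) (nat_lit 4640136127) (nat_lit 0) (nat_lit 0) (nat_lit 0) (nat_lit 0) (nat_lit 0) (nat_lit 0) (nat_lit 1) (nat_lit 0) (nat_lit 1) (nat_lit 0) (nat_lit 408) (nat_lit 379) (nat_lit 293)) (XT.lf (nat_lit 0) (nat_lit 4639677801) (nat_lit 0) (nat_lit 0) (nat_lit 0) (nat_lit 0) (nat_lit 0) (nat_lit 0) (nat_lit 1) (nat_lit 0) (nat_lit 1) (nat_lit 0) (nat_lit 409) (nat_lit 379) (nat_lit 292))))))) (XT.nd (nat_lit 846) (nat_lit 0) (nat_lit 0) (XT.nd (nat_lit 376) (nat_lit 0) (nat_lit 0) (XT.nd (nat_lit 188) (nat_lit 0) (nat_lit 0) (XT.nd (nat_lit 94) (nat_lit 0) (nat_lit 0) (XT.lf (nat_lit 0) (nat_lit 4639253425) (nat_lit 0) (nat_lit 0) (nat_lit 0) (nat_lit 0) (nat_lit 0) (nat_lit 0) (nat_lit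 1) (nat_lit 0) (nat_lit 1) (nat_lit 0) (nat_lit 410) (nat_lit 379) (nat_lit 291)) (XT.lf (nat_lit 0) (nat_lit 4638860485) (nat_lit 0) (nat_lit 0) (nat_lit 0) (nat_lit 0) (nat_lit 0) (nat_lit 0) (nat_lit 1) (nat_lit 0) (nat_lit 1) (nat_lit 0) (nat_lit 411) (nat_lit 379) (nat_lit 290))) (XT.nd (nat_lit 94) (nat_lit 0) (nat_lit 0) (XT.lf (nat_lit 0) (nat_lit 4638496651) (nat_lit 0) (nat_lit 0) (nat_lit 0) (nat_lit 0) (nat_lit 0) (nat_lit 0) (nat_lit 1) (nat_lit 0) (nat_lit 1) (nat_lit 0) (nat_lit 412) (nat_lit 379) (nat_lit 289)) (XT.lf (nat_lit 0) (nat_lit 4638159768) (nat_lit 0) (nat_lit 0) (nat_lit 0) (nat_lit 0) (nat_lit 0) (nat_lit 0) (nat_lit 1) (nat_lit 0) (nat_lit 1) (nat_lit 0) (nat_lit 413) (nat_lit 379) (nat_lit 288)))) (XT.nd (nat_lit 188) (nat_lit 0) (nat_lit 0) (XT.nd (nat_lit 94) (nat_lit 0) (nat_lit 0) (XT.lf (nat_lit 0) (nat_lit 4637847839) (nat_lit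 0) (nat_lit 0) (nat_lit 0) (nat_lit 0) (nat_lit 0) (nat_lit 0) (nat_lit 1) (nat_lit 0) (nat_lit 1) (nat_lit 0) (nat_lit 414) (nat_lit 379) (nat_lit 287)) (XT.lf (nat_lit 0) (nat_lit 4637559015) (nat_lit 0) (nat_lit 0) (nat_lit 0) (nat_lit 0) (nat_lit 0) (nat_lit 0) (nat_lit 1) (nat_lit 0) (nat_lit 1) (nat_lit 0) (nat_lit 415) (nat_lit 379) (nat_lit 286))) (XT.nd (nat_lit 94) (nat_lit 0) (nat_lit 0) (XT.lf (nat_lit 0) (nat_lit 4637291587) (nat_lit 0) (nat_lit 0) (nat_lit 0) (nat_lit 0) (nat_lit 0) (nat_lit 0) (nat_lit 1) (nat_lit 0) (nat_lit 1) (nat_lit 0) (nat_lit 416) (nat_lit 379) (nat_lit 285)) (XT.nd (nat_lit 94) (nat_lit 0) (nat_lit 0) (XT.lf (nat_lit 0) (nat_lit 4637043967) (nat_lit 0) (nat_lit 0) (nat_lit 0) (nat_lit 0) (nat_lit 0) (nat_lit 0) (nat_lit 1) (nat_lit 0) (nat_lit 1) (nat_lit 0) (nat_lit 417) (nat_lit 379) (nat_lit 284)) (XT.lf (nat_lit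 0) (nat_lit 4636814690) (nat_lit 0) (nat_lit 0) (nat_lit 0) (nat_lit 0) (nat_lit 0) (nat_lit 0) (nat_lit 1) (nat_lit 0) (nat_lit 1) (nat_lit 0) (nat_lit 418) (nat_lit 379) (nat_lit 283)))))) (XT.nd (nat_lit 470) (nat_lit 0) (nat_lit 0) (XT.nd (nat_lit 188) (nat_lit 0) (nat_lit 0) (XT.nd (nat_lit 94) (nat_lit 0) (nat_lit 0) (XT.lf (nat_lit 0) (nat_lit 4636602397) (nat_lit 0) (nat_lit 0) (nat_lit 0) (nat_lit 0) (nat_lit 0) (nat_lit 0) (nat_lit 1) (nat_lit 0) (nat_lit 1) (nat_lit 0) (nat_lit 419) (nat_lit 379) (nat_lit 282)) (XT.lf (nat_lit 0) (nat_lit 4636405829) (nat_lit 0) (nat_lit 0) (nat_lit 0) (nat_lit 0) (nat_lit 0) (nat_lit 0) (nat_lit 1) (nat_lit 0) (nat_lit 1) (nat_lit 0) (nat_lit 420) (nat_lit 379) (nat_lit 281))) (XT.nd (nat_lit 94) (nat_lit 0) (nat_lit 0) (XT.lf (nat_lit 0) (nat_lit 4636223821) (nat_lit 0) (nat_lit 0) (nat_lit 0) (nat_lit 0) (nat_lit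 0) (nat_lit 0) (nat_lit 1) (nat_lit 0) (nat_lit 1) (nat_lit 0) (nat_lit 421) (nat_lit 379) (nat_lit 280)) (XT.nd (nat_lit 94) (nat_lit 0) (nat_lit 0) (XT.lf (nat_lit 0) (nat_lit 4636055295) (nat_lit 0) (nat_lit 0) (nat_lit 0) (nat_lit 0) (nat_lit 0) (nat_lit 0) (nat_lit 1) (nat_lit 0) (nat_lit 1) (nat_lit 0) (nat_lit 422) (nat_lit 379) (nat_lit 279)) (XT.lf (nat_lit 0) (nat_lit 4635899253) (nat_lit 0) (nat_lit 0) (nat_lit 0) (nat_lit 0) (nat_lit 0) (nat_lit 0) (nat_lit 1) (nat_lit 0) (nat_lit 1) (nat_lit 0) (nat_lit 423) (nat_lit 379) (nat_lit 278))))) (XT.nd (nat_lit 188) (nat_lit 0) (nat_lit 0) (XT.nd (nat_lit 94) (nat_lit 0) (nat_lit 0) (XT.lf (nat_lit 0) (nat_lit 4635754770) (nat_lit 0) (nat_lit 0) (nat_lit 0) (nat_lit 0) (nat_lit 0) (nat_lit 0) (nat_lit 1) (nat_lit 0) (nat_lit 1) (nat_lit 0) (nat_lit 424) (nat_lit 379) (nat_lit 277)) (XT.lf (nat_lit 0)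 (nat_lit 4635620989) (nat_lit 0) (nat_lit 0) (nat_lit 0) (nat_lit 0) (nat_lit 0) (nat_lit 0) (nat_lit 1) (nat_lit 0) (nat_lit 1) (nat_lit 0) (nat_lit 425) (nat_lit 379) (nat_lit 276))) (XT.nd (nat_lit 94) (nat_lit 0) (nat_lit 0) (XT.lf (nat_lit 0) (nat_lit 4635497118) (nat_lit 0) (nat_lit 0) (nat_lit 0) (nat_lit 0) (nat_lit 0) (nat_lit 0) (nat_lit 1) (nat_lit 0) (nat_lit 1) (nat_lit 0) (nat_lit 426) (nat_lit 379) (nat_lit 275)) (XT.nd (nat_lit 94) (nat_lit 0) (nat_lit 0) (XT.lf (nat_lit 0) (nat_lit 4635382422) (nat_lit 0) (nat_lit 0) (nat_lit 0) (nat_lit 0) (nat_lit 0) (nat_lit 0) (nat_lit 1) (nat_lit 0) (nat_lit 1) (nat_lit 0) (nat_lit 427) (nat_lit 379) (nat_lit 274)) (XT.lf (nat_lit 0) (nat_lit 4635276222) (nat_lit 0) (nat_lit 0) (nat_lit 0) (nat_lit 0) (nat_lit 0) (nat_lit 0) (nat_lit 1) (nat_lit 0) (nat_lit 1) (nat_lit 0) (nat_lit 428) (nat_lit 379) (nat_lit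 273))))))))
noncomputable def ec76 : XT := (XT.nd (nat_lit 58468) (nat_lit 0) (nat_lit 4200) (XT.nd (nat_lit 57622) (nat_lit 0) (nat_lit 9324) (XT.nd (nat_lit 376) (nat_lit 0) (nat_lit 0) (XT.nd (nat_lit 188) (nat_lit 0) (nat_lit 0) (XT.nd (nat_lit 94) (nat_lit 0) (nat_lit 0) (XT.lf (nat_lit 0) (nat_lit 4635177889) (nat_lit 0) (nat_lit 0) (nat_lit 0) (nat_lit 0) (nat_lit 0) (nat_lit 0) (nat_lit 1) (nat_lit 0) (nat_lit 1) (nat_lit 0) (nat_lit 429) (nat_lit 379) (nat_lit 272)) (XT.lf (nat_lit 0) (nat_lit 4635086840) (nat_lit 0) (nat_lit 0) (nat_lit 0) (nat_lit 0) (nat_lit 0) (nat_lit 0) (nat_lit 1) (nat_lit 0) (nat_lit 1) (nat_lit 0) (nat_lit 430) (nat_lit 379) (nat_lit 271))) (XT.nd (nat_lit 94) (nat_lit 0) (nat_lit 0) (XT.lf (nat_lit 0) (nat_lit 4635002535) (nat_lit 0) (nat_lit 0) (nat_lit 0) (nat_lit 0) (nat_lit 0) (nat_lit 0) (nat_lit 1) (nat_lit 0) (nat_lit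 1) (nat_lit 0) (nat_lit 431) (nat_lit 379) (nat_lit 270)) (XT.lf (nat_lit 0) (nat_lit 4634924476) (nat_lit 0) (nat_lit 0) (nat_lit 0) (nat_lit 0) (nat_lit 0) (nat_lit 0) (nat_lit 1) (nat_lit 0) (nat_lit 1) (nat_lit 0) (nat_lit 432) (nat_lit 379) (nat_lit 269)))) (XT.nd (nat_lit 188) (nat_lit 0) (nat_lit 0) (XT.nd (nat_lit 94) (nat_lit 0) (nat_lit 0) (XT.lf (nat_lit 0) (nat_lit 4634852198) (nat_lit 0) (nat_lit 0) (nat_lit 0) (nat_lit 0) (nat_lit 0) (nat_lit 0) (nat_lit 1) (nat_lit 0) (nat_lit 1) (nat_lit 0) (nat_lit 433) (nat_lit 379) (nat_lit 268)) (XT.lf (nat_lit 0) (nat_lit 4634785274) (nat_lit 0) (nat_lit 0) (nat_lit 0) (nat_lit 0) (nat_lit 0) (nat_lit 0) (nat_lit 1) (nat_lit 0) (nat_lit 1) (nat_lit 0) (nat_lit 434) (nat_lit 379) (nat_lit 267))) (XT.nd (nat_lit 94) (nat_lit 0) (nat_lit 0) (XT.lf (nat_lit 0) (nat_lit 4634723308) (nat_lit 0) (nat_lit 0) (nat_lit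 0) (nat_lit 0) (nat_lit 0) (nat_lit 0) (nat_lit 1) (nat_lit 0) (nat_lit 1) (nat_lit 0) (nat_lit 435) (nat_lit 379) (nat_lit 266)) (XT.nd (nat_lit 56870) (nat_lit 0) (nat_lit 10752) (XT.lf (nat_lit 0) (nat_lit 4634665931) (nat_lit 0) (nat_lit 0) (nat_lit 0) (nat_lit 0) (nat_lit 0) (nat_lit 0) (nat_lit 1) (nat_lit 0) (nat_lit 1) (nat_lit 0) (nat_lit 436) (nat_lit 379) (nat_lit 265)) (XT.lf (nat_lit 924) (nat_lit 2504521641) (nat_lit 0) (nat_lit 4446772417) (nat_lit 924) (nat_lit 2504521641) (nat_lit 139) (nat_lit 1) (nat_lit 128) (nat_lit 0) (nat_lit 139) (nat_lit 0) (nat_lit 320) (nat_lit 380) (nat_lit 380)))))) (XT.nd (nat_lit 376) (nat_lit 1512) (nat_lit 0) (XT.nd (nat_lit 188) (nat_lit 0) (nat_lit 84) (XT.nd (nat_lit 94) (nat_lit 0) (nat_lit 0) (XT.lf (nat_lit 924) (nat_lit 934263421) (nat_lit 0) (nat_lit 8730361965) (nat_lit 840) (nat_lit 8538264835) (nat_lit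 140) (nat_lit 1) (nat_lit 129) (nat_lit 1) (nat_lit 139) (nat_lit 1) (nat_lit 321) (nat_lit 380) (nat_lit 379)) (XT.lf (nat_lit 924) (nat_lit 8580670259) (nat_lit 84) (nat_lit 5846726351) (nat_lit 0) (nat_lit 3100836951) (nat_lit 140) (nat_lit 1) (nat_lit 130) (nat_lit 1) (nat_lit 129) (nat_lit 1) (nat_lit 322) (nat_lit 380) (nat_lit 378))) (XT.nd (nat_lit 94) (nat_lit 0) (nat_lit 84) (XT.lf (nat_lit 924) (nat_lit 7414402042) (nat_lit 84) (nat_lit 2450322488) (nat_lit 0) (nat_lit 7022613902) (nat_lit 141) (nat_lit 1) (nat_lit 131) (nat_lit 1) (nat_lit 130) (nat_lit 1) (nat_lit 323) (nat_lit 380) (nat_lit 377)) (XT.lf (nat_lit 924) (nat_lit 5487287862) (nat_lit 0) (nat_lit 10266456217) (nat_lit 840) (nat_lit 524819775) (nat_lit 142) (nat_lit 1) (nat_lit 131) (nat_lit 1) (nat_lit 141) (nat_lit 1) (nat_lit 324) (nat_lit 380) (nat_lit 376)))) (XT.nd (nat_lit 188)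 (nat_lit 1764) (nat_lit 0) (XT.nd (nat_lit 94) (nat_lit 0) (nat_lit 0) (XT.lf (nat_lit 924) (nat_lit 1316620921) (nat_lit 0) (nat_lit 11321620111) (nat_lit 840) (nat_lit 3060621490) (nat_lit 143) (nat_lit 1) (nat_lit 132) (nat_lit 1) (nat_lit 142) (nat_lit 1) (nat_lit 325) (nat_lit 380) (nat_lit 375)) (XT.lf (nat_lit 924) (nat_lit 2530009895) (nat_lit 84) (nat_lit 9839409836) (nat_lit 0) (nat_lit 2776802851) (nat_lit 143) (nat_lit 1) (nat_lit 133) (nat_lit 1) (nat_lit 132) (nat_lit 1) (nat_lit 326) (nat_lit 380) (nat_lit 374))) (XT.nd (nat_lit 94) (nat_lit 1008) (nat_lit 0) (XT.lf (nat_lit 924) (nat_lit 519606340) (nat_lit 0) (nat_lit 7355609704) (nat_lit 840) (nat_lit 6745017028) (nat_lit 134) (nat_lit 1) (nat_lit 123) (nat_lit 1) (nat_lit 133) (nat_lit 1) (nat_lit 327) (nat_lit 380) (nat_lit 373)) (XT.nd (nat_lit 94) (nat_lit 420) (nat_lit 0) (XT.lf (nat_lit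 84) (nat_lit 3597862540) (nat_lit 0) (nat_lit 1559121269) (nat_lit 588) (nat_lit 8962164849) (nat_lit 117) (nat_lit 1) (nat_lit 116) (nat_lit 1) (nat_lit 123) (nat_lit 1) (nat_lit 328) (nat_lit 380) (nat_lit 372)) (XT.lf (nat_lit 504) (nat_lit 9915256309) (nat_lit 0) (nat_lit 3227629684) (nat_lit 420) (nat_lit 499011492) (nat_lit 117) (nat_lit 1) (nat_lit 111) (nat_lit 1) (nat_lit 116) (nat_lit 1) (nat_lit 329) (nat_lit 380) (nat_lit 371))))))) (XT.nd (nat_lit 846) (nat_lit 2352) (nat_lit 0) (XT.nd (nat_lit 376) (nat_lit 1596) (nat_lit 0) (XT.nd (nat_lit 188) (nat_lit 420) (nat_lit 0) (XT.nd (nat_lit 94) (nat_lit 336) (nat_lit 0) (XT.lf (nat_lit 504) (nat_lit 7154943373) (nat_lit 0) (nat_lit 1504412099) (nat_lit 420) (nat_lit 4525811788) (nat_lit 112) (nat_lit 1) (nat_lit 106) (nat_lit 1) (nat_lit 111) (nat_lit 1) (nat_lit 330) (nat_lit 380) (nat_lit 370))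 (XT.lf (nat_lit 420) (nat_lit 4353691788) (nat_lit 0) (nat_lit 27698671) (nat_lit 336) (nat_lit 8369192430) (nat_lit 107) (nat_lit 1) (nat_lit 102) (nat_lit 1) (nat_lit 106) (nat_lit 1) (nat_lit 331) (nat_lit 380) (nat_lit 369))) (XT.nd (nat_lit 94) (nat_lit 420) (nat_lit 0) (XT.lf (nat_lit 84) (nat_lit 321194804) (nat_lit 0) (nat_lit 10832245190) (nat_lit 420) (nat_lit 1182550182) (nat_lit 103) (nat_lit 1) (nat_lit 102) (nat_lit 1) (nat_lit 107) (nat_lit 1) (nat_lit 332) (nat_lit 380) (nat_lit 368)) (XT.lf (nat_lit 84) (nat_lit 8293333165) (nat_lit 0) (nat_lit 1375538043) (nat_lit 420) (nat_lit 2268512050) (nat_lit 98) (nat_lit 1) (nat_lit 97) (nat_lit 1) (nat_lit 102) (nat_lit 1) (nat_lit 333) (nat_lit 380) (nat_lit 367)))) (XT.nd (nat_lit 188) (nat_lit 924) (nat_lit 0) (XT.nd (nat_lit 94) (nat_lit 336) (nat_lit 0) (XT.lf (nat_lit 84) (nat_lit 4149364741)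 (nat_lit 0) (nat_lit 4213517207) (nat_lit 420) (nat_lit 3193506878) (nat_lit 94) (nat_lit 1) (nat_lit 93) (nat_lit 1) (nat_lit 98) (nat_lit 1) (nat_lit 334) (nat_lit 380) (nat_lit 366)) (XT.lf (nat_lit 84) (nat_lit 204803442) (nat_lit 0) (nat_lit 7044935345) (nat_lit 420) (nat_lit 3943694435) (nat_lit 90) (nat_lit 1) (nat_lit 89) (nat_lit 1) (nat_lit 94) (nat_lit 1) (nat_lit 335) (nat_lit 380) (nat_lit 365))) (XT.nd (nat_lit 94) (nat_lit 672) (nat_lit 0) (XT.lf (nat_lit 336) (nat_lit 924880803) (nat_lit 0) (nat_lit 6254526165) (nat_lit 252) (nat_lit 3665296077) (nat_lit 90) (nat_lit 1) (nat_lit 86) (nat_lit 1) (nat_lit 89) (nat_lit 1) (nat_lit 336) (nat_lit 380) (nat_lit 364)) (XT.nd (nat_lit 94) (nat_lit 252) (nat_lit 0) (XT.lf (nat_lit 84) (nat_lit 3195711840) (nat_lit 0) (nat_lit 2190360753) (nat_lit 420) (nat_lit 5124306952) (nat_lit 82) (nat_lit 1) (nat_lit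 81) (nat_lit 1) (nat_lit 86) (nat_lit 1) (nat_lit 337) (nat_lit 380) (nat_lit 363)) (XT.lf (nat_lit 336) (nat_lit 4947730598) (nat_lit 0) (nat_lit 4647753417) (nat_lit 252) (nat_lit 594906921) (nat_lit 82) (nat_lit 1) (nat_lit 78) (nat_lit 1) (nat_lit 81) (nat_lit 1) (nat_lit 338) (nat_lit 380) (nat_lit 362)))))) (XT.nd (nat_lit 470) (nat_lit 1008) (nat_lit 0) (XT.nd (nat_lit 188) (nat_lit 756) (nat_lit 0) (XT.nd (nat_lit 94) (nat_lit 336) (nat_lit 0) (XT.lf (nat_lit 336) (nat_lit 1585723753) (nat_lit 0) (nat_lit 4001525369) (nat_lit 252) (nat_lit 4295450457) (nat_lit 79) (nat_lit 1) (nat_lit 75) (nat_lit 1) (nat_lit 78) (nat_lit 1) (nat_lit 339) (nat_lit 380) (nat_lit 361)) (XT.lf (nat_lit 84) (nat_lit 1807341917) (nat_lit 0) (nat_lit 1654778586) (nat_lit 336) (nat_lit 6125666719) (nat_lit 72) (nat_lit 1) (nat_lit 71) (nat_lit 1) (nat_lit 75) (nat_lit 1)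 (nat_lit 340) (nat_lit 380) (nat_lit 360))) (XT.nd (nat_lit 94) (nat_lit 504) (nat_lit 0) (XT.lf (nat_lit 336) (nat_lit 4497333148) (nat_lit 0) (nat_lit 2992358818) (nat_lit 252) (nat_lit 1813977754) (nat_lit 72) (nat_lit 1) (nat_lit 68) (nat_lit 1) (nat_lit 71) (nat_lit 1) (nat_lit 341) (nat_lit 380) (nat_lit 359)) (XT.nd (nat_lit 94) (nat_lit 336) (nat_lit 0) (XT.lf (nat_lit 252) (nat_lit 1114895528) (nat_lit 0) (nat_lit 2610614806) (nat_lit 168) (nat_lit 5305503977) (nat_lit 69) (nat_lit 1) (nat_lit 66) (nat_lit 1) (nat_lit 68) (nat_lit 1) (nat_lit 342) (nat_lit 380) (nat_lit 358)) (XT.lf (nat_lit 84) (nat_lit 188870425) (nat_lit 0) (nat_lit 2113501060) (nat_lit 336) (nat_lit 6466556258) (nat_lit 63) (nat_lit 1) (nat_lit 62) (nat_lit 1) (nat_lit 66) (nat_lit 1) (nat_lit 343) (nat_lit 380) (nat_lit 357))))) (XT.nd (nat_lit 188) (nat_lit 588) (nat_lit 0)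 (XT.nd (nat_lit 94) (nat_lit 252) (nat_lit 0) (XT.lf (nat_lit 252) (nat_lit 3239681835) (nat_lit 0) (nat_lit 2024523215) (nat_lit 168) (nat_lit 3250955961) (nat_lit 63) (nat_lit 1) (nat_lit 60) (nat_lit 1) (nat_lit 62) (nat_lit 1) (nat_lit 344) (nat_lit 380) (nat_lit 356)) (XT.lf (nat_lit 84) (nat_lit 1757715977) (nat_lit 0) (nat_lit 81190002) (nat_lit 252) (nat_lit 6433561807) (nat_lit 58) (nat_lit 1) (nat_lit 57) (nat_lit 1) (nat_lit 60) (nat_lit 1) (nat_lit 345) (nat_lit 380) (nat_lit 355))) (XT.nd (nat_lit 94) (nat_lit 420) (nat_lit 0) (XT.lf (nat_lit 252) (nat_lit 4805256058) (nat_lit 0) (nat_lit 1665128967) (nat_lit 168) (nat_lit 1566449309) (nat_lit 58) (nat_lit 1) (nat_lit 55) (nat_lit 1) (nat_lit 57) (nat_lit 1) (nat_lit 346) (nat_lit 380) (nat_lit 354)) (XT.nd (nat_lit 94) (nat_lit 252) (nat_lit 0) (XT.lf (nat_lit 252) (nat_lit 1492705091) (nat_lit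 0) (nat_lit 1547921507) (nat_lit 168) (nat_lit 4769583581) (nat_lit 56) (nat_lit 1) (nat_lit 53) (nat_lit 1) (nat_lit 55) (nat_lit 1) (nat_lit 347) (nat_lit 380) (nat_lit 353)) (XT.lf (nat_lit 252) (nat_lit 5925490629) (nat_lit 0) (nat_lit 1478913363) (nat_lit 168) (nat_lit 187617318) (nat_lit 53) (nat_lit 1) (nat_lit 50) (nat_lit 1) (nat_lit 52) (nat_lit 1) (nat_lit 348) (nat_lit 380) (nat_lit 352))))))))
noncomputable def ec77 : XT := (XT.nd (nat_lit 1786) (nat_lit 1344) (nat_lit 0) (XT.nd (nat_lit 846) (nat_lit 1344) (nat_lit 0) (XT.nd (nat_lit 376) (nat_lit 924) (nat_lit 0) (XT.nd (nat_lit 188) (nat_lit 252) (nat_lit 0) (XT.nd (nat_lit 94) (nat_lit 168) (nat_lit 0) (XT.lf (nat_lit 252) (nat_lit 2651974982) (nat_lit 0) (nat_lit 1411863651) (nat_lit 168) (nat_lit 3316056587) (nat_lit 51) (nat_lit 1) (nat_lit 48) (nat_lit 1) (nat_lit 50) (nat_lit 1) (nat_lit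 349) (nat_lit 380) (nat_lit 351)) (XT.lf (nat_lit 84) (nat_lit 908403821) (nat_lit 0) (nat_lit 499299674) (nat_lit 168) (nat_lit 5768864078) (nat_lit 47) (nat_lit 1) (nat_lit 46) (nat_lit 1) (nat_lit 48) (nat_lit 1) (nat_lit 350) (nat_lit 380) (nat_lit 350))) (XT.nd (nat_lit 94) (nat_lit 84) (nat_lit 0) (XT.lf (nat_lit 252) (nat_lit 3479543694) (nat_lit 0) (nat_lit 1392797482) (nat_lit 168) (nat_lit 2106029529) (nat_lit 47) (nat_lit 1) (nat_lit 44) (nat_lit 1) (nat_lit 46) (nat_lit 1) (nat_lit 351) (nat_lit 380) (nat_lit 349)) (XT.lf (nat_lit 168) (nat_lit 374697412) (nat_lit 0) (nat_lit 1427006388) (nat_lit 84) (nat_lit 4986294594) (nat_lit 45) (nat_lit 1) (nat_lit 43) (nat_lit 1) (nat_lit 44) (nat_lit 1) (nat_lit 352) (nat_lit 380) (nat_lit 348)))) (XT.nd (nat_lit 188) (nat_lit 588) (nat_lit 0) (XT.nd (nat_lit 94) (nat_lit 84) (nat_lit 0) (XT.lf (nat_lit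 252) (nat_lit 4044720227) (nat_lit 0) (nat_lit 1459446733) (nat_lit 168) (nat_lit 1098708275) (nat_lit 43) (nat_lit 1) (nat_lit 40) (nat_lit 1) (nat_lit 42) (nat_lit 1) (nat_lit 353) (nat_lit 380) (nat_lit 347)) (XT.lf (nat_lit 168) (nat_lit 1017276962) (nat_lit 0) (nat_lit 1514016917) (nat_lit 84) (nat_lit 3892697220) (nat_lit 41) (nat_lit 1) (nat_lit 39) (nat_lit 1) (nat_lit 40) (nat_lit 1) (nat_lit 354) (nat_lit 380) (nat_lit 346))) (XT.nd (nat_lit 94) (nat_lit 336) (nat_lit 0) (XT.lf (nat_lit 252) (nat_lit 4403541796) (nat_lit 0) (nat_lit 1587038401) (nat_lit 168) (nat_lit 260446587) (nat_lit 39) (nat_lit 1) (nat_lit 36) (nat_lit 1) (nat_lit 38) (nat_lit 1) (nat_lit 355) (nat_lit 380) (nat_lit 345)) (XT.nd (nat_lit 94) (nat_lit 252) (nat_lit 0) (XT.lf (nat_lit 168) (nat_lit 1464001111) (nat_lit 0) (nat_lit 1654506604) (nat_lit 84) (nat_lit 2964191465)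 (nat_lit 37) (nat_lit 1) (nat_lit 35) (nat_lit 1) (nat_lit 36) (nat_lit 1) (nat_lit 356) (nat_lit 380) (nat_lit 344)) (XT.lf (nat_lit 84) (nat_lit 422568982) (nat_lit 0) (nat_lit 1326331396) (nat_lit 252) (nat_lit 4171518378) (nat_lit 33) (nat_lit 1) (nat_lit 32) (nat_lit 1) (nat_lit 35) (nat_lit 1) (nat_lit 357) (nat_lit 380) (nat_lit 343)))))) (XT.nd (nat_lit 470) (nat_lit 672) (nat_lit 0) (XT.nd (nat_lit 188) (nat_lit 336) (nat_lit 0) (XT.nd (nat_lit 94) (nat_lit 252) (nat_lit 0) (XT.lf (nat_lit 168) (nat_lit 1756933420) (nat_lit 0) (nat_lit 1830641347) (nat_lit 84) (nat_lit 2174593700) (nat_lit 33) (nat_lit 1) (nat_lit 31) (nat_lit 1) (nat_lit 32) (nat_lit 1) (nat_lit 358) (nat_lit 380) (nat_lit 342)) (XT.lf (nat_lit 84) (nat_lit 982738110) (nat_lit 0) (nat_lit 951848312) (nat_lit 252) (nat_lit 3674893059) (nat_lit 29) (nat_lit 1) (nat_lit 28) (nat_lit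 1) (nat_lit 31) (nat_lit 1) (nat_lit 359) (nat_lit 380) (nat_lit 341))) (XT.nd (nat_lit 94) (nat_lit 252) (nat_lit 0) (XT.lf (nat_lit 168) (nat_lit 1929995304) (nat_lit 0) (nat_lit 2028499620) (nat_lit 84) (nat_lit 1502196716) (nat_lit 29) (nat_lit 1) (nat_lit 27) (nat_lit 1) (nat_lit 28) (nat_lit 1) (nat_lit 360) (nat_lit 380) (nat_lit 340)) (XT.nd (nat_lit 94) (nat_lit 84) (nat_lit 0) (XT.lf (nat_lit 84) (nat_lit 1446817746) (nat_lit 0) (nat_lit 689382768) (nat_lit 168) (nat_lit 3180617061) (nat_lit 26) (nat_lit 1) (nat_lit 25) (nat_lit 1) (nat_lit 27) (nat_lit 1) (nat_lit 361) (nat_lit 380) (nat_lit 339)) (XT.lf (nat_lit 168) (nat_lit 2010487450) (nat_lit 0) (nat_lit 2237309923) (nat_lit 84) (nat_lit 928971221) (nat_lit 26) (nat_lit 1) (nat_lit 24) (nat_lit 1) (nat_lit 25) (nat_lit 1) (nat_lit 362) (nat_lit 380) (nat_lit 338))))) (XT.nd (nat_lit 188) (nat_lit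 420) (nat_lit 0) (XT.nd (nat_lit 94) (nat_lit 84) (nat_lit 0) (XT.lf (nat_lit 84) (nat_lit 1830089926) (nat_lit 0) (nat_lit 514288534) (nat_lit 168) (nat_lit 2696648913) (nat_lit 23) (nat_lit 1) (nat_lit 22) (nat_lit 1) (nat_lit 24) (nat_lit 1) (nat_lit 363) (nat_lit 380) (nat_lit 337)) (XT.lf (nat_lit 168) (nat_lit 2020330369) (nat_lit 0) (nat_lit 2448831060) (nat_lit 84) (nat_lit 439912369) (nat_lit 23) (nat_lit 1) (nat_lit 21) (nat_lit 1) (nat_lit 22) (nat_lit 1) (nat_lit 364) (nat_lit 380) (nat_lit 336))) (XT.nd (nat_lit 94) (nat_lit 252) (nat_lit 0) (XT.lf (nat_lit 84) (nat_lit 2145255727) (nat_lit 0) (nat_lit 406747749) (nat_lit 168) (nat_lit 2228859328) (nat_lit 20) (nat_lit 1) (nat_lit 19) (nat_lit 1) (nat_lit 21) (nat_lit 1) (nat_lit 365) (nat_lit 380) (nat_lit 335)) (XT.nd (nat_lit 94) (nat_lit 168) (nat_lit 0) (XT.lf (nat_lit 168) (nat_lit 1977075718)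 (nat_lit 0) (nat_lit 2656848846) (nat_lit 84) (nat_lit 22504797) (nat_lit 20) (nat_lit 1) (nat_lit 18) (nat_lit 1) (nat_lit 19) (nat_lit 1) (nat_lit 366) (nat_lit 380) (nat_lit 334)) (XT.lf (nat_lit 84) (nat_lit 2402892119) (nat_lit 0) (nat_lit 350864308) (nat_lit 168) (nat_lit 1781456671) (nat_lit 17) (nat_lit 1) (nat_lit 16) (nat_lit 1) (nat_lit 18) (nat_lit 1) (nat_lit 367) (nat_lit 380) (nat_lit 333))))))) (XT.nd (nat_lit 846) (nat_lit 252) (nat_lit 0) (XT.nd (nat_lit 376) (nat_lit 588) (nat_lit 0) (XT.nd (nat_lit 188) (nat_lit 252) (nat_lit 0) (XT.nd (nat_lit 94) (nat_lit 168) (nat_lit 0) (XT.lf (nat_lit 0) (nat_lit 323034501) (nat_lit 0) (nat_lit 2528262460) (nat_lit 168) (nat_lit 1566225318) (nat_lit 15) (nat_lit 3) (nat_lit 15) (nat_lit 1) (nat_lit 17) (nat_lit 1) (nat_lit 368) (nat_lit 380) (nat_lit 332)) (XT.lf (nat_lit 84) (nat_lit 2611826130) (nat_lit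 0) (nat_lit 333924924) (nat_lit 168) (nat_lit 1357331643) (nat_lit 14) (nat_lit 1) (nat_lit 13) (nat_lit 1) (nat_lit 15) (nat_lit 1) (nat_lit 369) (nat_lit 380) (nat_lit 331))) (XT.nd (nat_lit 94) (nat_lit 168) (nat_lit 0) (XT.lf (nat_lit 0) (nat_lit 617115406) (nat_lit 0) (nat_lit 2417713059) (nat_lit 168) (nat_lit 1156862435) (nat_lit 12) (nat_lit 3) (nat_lit 12) (nat_lit 1) (nat_lit 14) (nat_lit 1) (nat_lit 370) (nat_lit 380) (nat_lit 330)) (XT.lf (nat_lit 84) (nat_lit 2779441403) (nat_lit 0) (nat_lit 345797001) (nat_lit 168) (nat_lit 958336197) (nat_lit 11) (nat_lit 1) (nat_lit 10) (nat_lit 1) (nat_lit 12) (nat_lit 1) (nat_lit 371) (nat_lit 380) (nat_lit 329)))) (XT.nd (nat_lit 188) (nat_lit 336) (nat_lit 0) (XT.nd (nat_lit 94) (nat_lit 168) (nat_lit 0) (XT.lf (nat_lit 0) (nat_lit 867595583) (nat_lit 0) (nat_lit 2337807267) (nat_lit 168) (nat_lit 772690391)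 (nat_lit 9) (nat_lit 3) (nat_lit 9) (nat_lit 1) (nat_lit 11) (nat_lit 1) (nat_lit 372) (nat_lit 380) (nat_lit 328)) (XT.lf (nat_lit 84) (nat_lit 2911929500) (nat_lit 0) (nat_lit 378438160) (nat_lit 168) (nat_lit 585508885) (nat_lit 8) (nat_lit 1) (nat_lit 7) (nat_lit 1) (nat_lit 9) (nat_lit 1) (nat_lit 373) (nat_lit 380) (nat_lit 327))) (XT.nd (nat_lit 94) (nat_lit 252) (nat_lit 0) (XT.lf (nat_lit 0) (nat_lit 1080492559) (nat_lit 0) (nat_lit 2280939750) (nat_lit 168) (nat_lit 414517367) (nat_lit 6) (nat_lit 3) (nat_lit 6) (nat_lit 1) (nat_lit 8) (nat_lit 1) (nat_lit 374) (nat_lit 380) (nat_lit 326)) (XT.nd (nat_lit 94) (nat_lit 84) (nat_lit 0) (XT.lf (nat_lit 84) (nat_lit 3014496019) (nat_lit 0) (nat_lit 425496849) (nat_lit 168) (nat_lit 239256635) (nat_lit 5) (nat_lit 1) (nat_lit 4) (nat_lit 1) (nat_lit 6) (nat_lit 1) (nat_lit 375) (nat_lit 380) (nat_lit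 325)) (XT.lf (nat_lit 0) (nat_lit 1260895728) (nat_lit 0) (nat_lit 2241076660) (nat_lit 168) (nat_lit 82577400) (nat_lit 3) (nat_lit 3) (nat_lit 3) (nat_lit 1) (nat_lit 5) (nat_lit 1) (nat_lit 376) (nat_lit 380) (nat_lit 324)))))) (XT.nd (nat_lit 470) (nat_lit 0) (nat_lit 0) (XT.nd (nat_lit 188) (nat_lit 0) (nat_lit 0) (XT.nd (nat_lit 94) (nat_lit 0) (nat_lit 0) (XT.lf (nat_lit 0) (nat_lit 5066926316) (nat_lit 0) (nat_lit 0) (nat_lit 0) (nat_lit 0) (nat_lit 0) (nat_lit 0) (nat_lit 1) (nat_lit 0) (nat_lit 1) (nat_lit 0) (nat_lit 377) (nat_lit 380) (nat_lit 323)) (XT.lf (nat_lit 0) (nat_lit 5062314339) (nat_lit 0) (nat_lit 0) (nat_lit 0) (nat_lit 0) (nat_lit 0) (nat_lit 0) (nat_lit 1) (nat_lit 0) (nat_lit 1) (nat_lit 0) (nat_lit 378) (nat_lit 380) (nat_lit 322))) (XT.nd (nat_lit 94) (nat_lit 0) (nat_lit 0) (XT.lf (nat_lit 0) (nat_lit 5058043990) (nat_lit 0)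 (nat_lit 0) (nat_lit 0) (nat_lit 0) (nat_lit 0) (nat_lit 0) (nat_lit 1) (nat_lit 0) (nat_lit 1) (nat_lit 0) (nat_lit 379) (nat_lit 380) (nat_lit 321)) (XT.nd (nat_lit 94) (nat_lit 0) (nat_lit 0) (XT.lf (nat_lit 0) (nat_lit 5054089963) (nat_lit 0) (nat_lit 0) (nat_lit 0) (nat_lit 0) (nat_lit 0) (nat_lit 0) (nat_lit 1) (nat_lit 0) (nat_lit 1) (nat_lit 0) (nat_lit 380) (nat_lit 380) (nat_lit 320)) (XT.lf (nat_lit 0) (nat_lit 5050428827) (nat_lit 0) (nat_lit 0) (nat_lit 0) (nat_lit 0) (nat_lit 0) (nat_lit 0) (nat_lit 1) (nat_lit 0) (nat_lit 1) (nat_lit 0) (nat_lit 381) (nat_lit 380) (nat_lit 319))))) (XT.nd (nat_lit 188) (nat_lit 0) (nat_lit 0) (XT.nd (nat_lit 94) (nat_lit 0) (nat_lit 0) (XT.lf (nat_lit 0) (nat_lit 5047038886) (nat_lit 0) (nat_lit 0) (nat_lit 0) (nat_lit 0) (nat_lit 0) (nat_lit 0) (nat_lit 1) (nat_lit 0) (nat_lit 1) (nat_lit 0) (nat_lit 382) (nat_lit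 380) (nat_lit 318)) (XT.lf (nat_lit 0) (nat_lit 5043900052) (nat_lit 0) (nat_lit 0) (nat_lit 0) (nat_lit 0) (nat_lit 0) (nat_lit 0) (nat_lit 1) (nat_lit 0) (nat_lit 1) (nat_lit 0) (nat_lit 383) (nat_lit 380) (nat_lit 317))) (XT.nd (nat_lit 94) (nat_lit 0) (nat_lit 0) (XT.lf (nat_lit 0) (nat_lit 5040993724) (nat_lit 0) (nat_lit 0) (nat_lit 0) (nat_lit 0) (nat_lit 0) (nat_lit 0) (nat_lit 1) (nat_lit 0) (nat_lit 1) (nat_lit 0) (nat_lit 384) (nat_lit 380) (nat_lit 316)) (XT.nd (nat_lit 94) (nat_lit 0) (nat_lit 0) (XT.lf (nat_lit 0) (nat_lit 5038302679) (nat_lit 0) (nat_lit 0) (nat_lit 0) (nat_lit 0) (nat_lit 0) (nat_lit 0) (nat_lit 1) (nat_lit 0) (nat_lit 1) (nat_lit 0) (nat_lit 385) (nat_lit 380) (nat_lit 315)) (XT.lf (nat_lit 0) (nat_lit 5035810972) (nat_lit 0) (nat_lit 0) (nat_lit 0) (nat_lit 0) (nat_lit 0) (nat_lit 0) (nat_lit 1) (nat_lit 0) (nat_lit 1) (nat_lit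 0) (nat_lit 386) (nat_lit 380) (nat_lit 314))))))))
noncomputable def ec78 : XT := (XT.nd (nat_lit 1692) (nat_lit 0) (nat_lit 0) (XT.nd (nat_lit 846) (nat_lit 0) (nat_lit 0) (XT.nd (nat_lit 376) (nat_lit 0) (nat_lit 0) (XT.nd (nat_lit 188) (nat_lit 0) (nat_lit 0) (XT.nd (nat_lit 94) (nat_lit 0) (nat_lit 0) (XT.lf (nat_lit 0) (nat_lit 5033503835) (nat_lit 0) (nat_lit 0) (nat_lit 0) (nat_lit 0) (nat_lit 0) (nat_lit 0) (nat_lit 1) (nat_lit 0) (nat_lit 1) (nat_lit 0) (nat_lit 387) (nat_lit 380) (nat_lit 313)) (XT.lf (nat_lit 0) (nat_lit 5031367597) (nat_lit 0) (nat_lit 0) (nat_lit 0) (nat_lit 0) (nat_lit 0) (nat_lit 0) (nat_lit 1) (nat_lit 0) (nat_lit 1) (nat_lit 0) (nat_lit 388) (nat_lit 380) (nat_lit 312))) (XT.nd (nat_lit 94) (nat_lit 0) (nat_lit 0) (XT.lf (nat_lit 0) (nat_lit 5029389599) (nat_lit 0) (nat_lit 0) (nat_lit 0) (nat_lit 0) (nat_lit 0) (nat_lit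 0) (nat_lit 1) (nat_lit 0) (nat_lit 1) (nat_lit 0) (nat_lit 389) (nat_lit 380) (nat_lit 311)) (XT.lf (nat_lit 0) (nat_lit 5027558120) (nat_lit 0) (nat_lit 0) (nat_lit 0) (nat_lit 0) (nat_lit 0) (nat_lit 0) (nat_lit 1) (nat_lit 0) (nat_lit 1) (nat_lit 0) (nat_lit 390) (nat_lit 380) (nat_lit 310)))) (XT.nd (nat_lit 188) (nat_lit 0) (nat_lit 0) (XT.nd (nat_lit 94) (nat_lit 0) (nat_lit 0) (XT.lf (nat_lit 0) (nat_lit 5025862305) (nat_lit 0) (nat_lit 0) (nat_lit 0) (nat_lit 0) (nat_lit 0) (nat_lit 0) (nat_lit 1) (nat_lit 0) (nat_lit 1) (nat_lit 0) (nat_lit 391) (nat_lit 380) (nat_lit 309)) (XT.lf (nat_lit 0) (nat_lit 5024292107) (nat_lit 0) (nat_lit 0) (nat_lit 0) (nat_lit 0) (nat_lit 0) (nat_lit 0) (nat_lit 1) (nat_lit 0) (nat_lit 1) (nat_lit 0) (nat_lit 392) (nat_lit 380) (nat_lit 308))) (XT.nd (nat_lit 94) (nat_lit 0) (nat_lit 0) (XT.lf (nat_lit 0) (nat_lit 5022838219)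 (nat_lit 0) (nat_lit 0) (nat_lit 0) (nat_lit 0) (nat_lit 0) (nat_lit 0) (nat_lit 1) (nat_lit 0) (nat_lit 1) (nat_lit 0) (nat_lit 393) (nat_lit 380) (nat_lit 307)) (XT.nd (nat_lit 94) (nat_lit 0) (nat_lit 0) (XT.lf (nat_lit 0) (nat_lit 5021492027) (nat_lit 0) (nat_lit 0) (nat_lit 0) (nat_lit 0) (nat_lit 0) (nat_lit 0) (nat_lit 1) (nat_lit 0) (nat_lit 1) (nat_lit 0) (nat_lit 394) (nat_lit 380) (nat_lit 306)) (XT.lf (nat_lit 0) (nat_lit 5020245553) (nat_lit 0) (nat_lit 0) (nat_lit 0) (nat_lit 0) (nat_lit 0) (nat_lit 0) (nat_lit 1) (nat_lit 0) (nat_lit 1) (nat_lit 0) (nat_lit 395) (nat_lit 380) (nat_lit 305)))))) (XT.nd (nat_lit 376) (nat_lit 0) (nat_lit 0) (XT.nd (nat_lit 188) (nat_lit 0) (nat_lit 0) (XT.nd (nat_lit 94) (nat_lit 0) (nat_lit 0) (XT.lf (nat_lit 0) (nat_lit 5019091410) (nat_lit 0) (nat_lit 0) (nat_lit 0) (nat_lit 0) (nat_lit 0) (nat_lit 0) (nat_lit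 1) (nat_lit 0) (nat_lit 1) (nat_lit 0) (nat_lit 396) (nat_lit 380) (nat_lit 304)) (XT.lf (nat_lit 0) (nat_lit 5018022759) (nat_lit 0) (nat_lit 0) (nat_lit 0) (nat_lit 0) (nat_lit 0) (nat_lit 0) (nat_lit 1) (nat_lit 0) (nat_lit 1) (nat_lit 0) (nat_lit 397) (nat_lit 380) (nat_lit 303))) (XT.nd (nat_lit 94) (nat_lit 0) (nat_lit 0) (XT.lf (nat_lit 0) (nat_lit 5017033268) (nat_lit 0) (nat_lit 0) (nat_lit 0) (nat_lit 0) (nat_lit 0) (nat_lit 0) (nat_lit 1) (nat_lit 0) (nat_lit 1) (nat_lit 0) (nat_lit 398) (nat_lit 380) (nat_lit 302)) (XT.lf (nat_lit 0) (nat_lit 5016117072) (nat_lit 0) (nat_lit 0) (nat_lit 0) (nat_lit 0) (nat_lit 0) (nat_lit 0) (nat_lit 1) (nat_lit 0) (nat_lit 1) (nat_lit 0) (nat_lit 399) (nat_lit 380) (nat_lit 301)))) (XT.nd (nat_lit 188) (nat_lit 0) (nat_lit 0) (XT.nd (nat_lit 94) (nat_lit 0) (nat_lit 0) (XT.lf (nat_lit 0) (nat_lit 5015268742) (nat_lit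 0) (nat_lit 0) (nat_lit 0) (nat_lit 0) (nat_lit 0) (nat_lit 0) (nat_lit 1) (nat_lit 0) (nat_lit 1) (nat_lit 0) (nat_lit 400) (nat_lit 380) (nat_lit 300)) (XT.lf (nat_lit 0) (nat_lit 5014483252) (nat_lit 0) (nat_lit 0) (nat_lit 0) (nat_lit 0) (nat_lit 0) (nat_lit 0) (nat_lit 1) (nat_lit 0) (nat_lit 1) (nat_lit 0) (nat_lit 401) (nat_lit 380) (nat_lit 299))) (XT.nd (nat_lit 94) (nat_lit 0) (nat_lit 0) (XT.lf (nat_lit 0) (nat_lit 5013755946) (nat_lit 0) (nat_lit 0) (nat_lit 0) (nat_lit 0) (nat_lit 0) (nat_lit 0) (nat_lit 1) (nat_lit 0) (nat_lit 1) (nat_lit 0) (nat_lit 402) (nat_lit 380) (nat_lit 298)) (XT.nd (nat_lit 94) (nat_lit 0) (nat_lit 0) (XT.lf (nat_lit 0) (nat_lit 5013082515) (nat_lit 0) (nat_lit 0) (nat_lit 0) (nat_lit 0) (nat_lit 0) (nat_lit 0) (nat_lit 1) (nat_lit 0) (nat_lit 1) (nat_lit 0) (nat_lit 403) (nat_lit 380) (nat_lit 297)) (XT.lf (nat_lit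 0) (nat_lit 5012458968) (nat_lit 0) (nat_lit 0) (nat_lit 0) (nat_lit 0) (nat_lit 0) (nat_lit 0) (nat_lit 1) (nat_lit 0) (nat_lit 1) (nat_lit 0) (nat_lit 404) (nat_lit 380) (nat_lit 296))))))) (XT.nd (nat_lit 846) (nat_lit 0) (nat_lit 0) (XT.nd (nat_lit 376) (nat_lit 0) (nat_lit 0) (XT.nd (nat_lit 188) (nat_lit 0) (nat_lit 0) (XT.nd (nat_lit 94) (nat_lit 0) (nat_lit 0) (XT.lf (nat_lit 0) (nat_lit 5011881609) (nat_lit 0) (nat_lit 0) (nat_lit 0) (nat_lit 0) (nat_lit 0) (nat_lit 0) (nat_lit 1) (nat_lit 0) (nat_lit 1) (nat_lit 0) (nat_lit 405) (nat_lit 380) (nat_lit 295)) (XT.lf (nat_lit 0) (nat_lit 5011347018) (nat_lit 0) (nat_lit 0) (nat_lit 0) (nat_lit 0) (nat_lit 0) (nat_lit 0) (nat_lit 1) (nat_lit 0) (nat_lit 1) (nat_lit 0) (nat_lit 406) (nat_lit 380) (nat_lit 294))) (XT.nd (nat_lit 94) (nat_lit 0) (nat_lit 0) (XT.lf (nat_lit 0) (nat_lit 5010852026) (nat_lit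 0) (nat_lit 0) (nat_lit 0) (nat_lit 0) (nat_lit 0) (nat_lit 0) (nat_lit 1) (nat_lit 0) (nat_lit 1) (nat_lit 0) (nat_lit 407) (nat_lit 380) (nat_lit 293)) (XT.lf (nat_lit 0) (nat_lit 5010393700) (nat_lit 0) (nat_lit 0) (nat_lit 0) (nat_lit 0) (nat_lit 0) (nat_lit 0) (nat_lit 1) (nat_lit 0) (nat_lit 1) (nat_lit 0) (nat_lit 408) (nat_lit 380) (nat_lit 292)))) (XT.nd (nat_lit 188) (nat_lit 0) (nat_lit 0) (XT.nd (nat_lit 94) (nat_lit 0) (nat_lit 0) (XT.lf (nat_lit 0) (nat_lit 5009969324) (nat_lit 0) (nat_lit 0) (nat_lit 0) (nat_lit 0) (nat_lit 0) (nat_lit 0) (nat_lit 1) (nat_lit 0) (nat_lit 1) (nat_lit 0) (nat_lit 409) (nat_lit 380) (nat_lit 291)) (XT.lf (nat_lit 0) (nat_lit 5009576383) (nat_lit 0) (nat_lit 0) (nat_lit 0) (nat_lit 0) (nat_lit 0) (nat_lit 0) (nat_lit 1) (nat_lit 0) (nat_lit 1) (nat_lit 0) (nat_lit 410) (nat_lit 380) (nat_lit 290))) (XT.nd (nat_lit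 94) (nat_lit 0) (nat_lit 0) (XT.lf (nat_lit 0) (nat_lit 5009212549) (nat_lit 0) (nat_lit 0) (nat_lit 0) (nat_lit 0) (nat_lit 0) (nat_lit 0) (nat_lit 1) (nat_lit 0) (nat_lit 1) (nat_lit 0) (nat_lit 411) (nat_lit 380) (nat_lit 289)) (XT.nd (nat_lit 94) (nat_lit 0) (nat_lit 0) (XT.lf (nat_lit 0) (nat_lit 5008875666) (nat_lit 0) (nat_lit 0) (nat_lit 0) (nat_lit 0) (nat_lit 0) (nat_lit 0) (nat_lit 1) (nat_lit 0) (nat_lit 1) (nat_lit 0) (nat_lit 412) (nat_lit 380) (nat_lit 288)) (XT.lf (nat_lit 0) (nat_lit 5008563737) (nat_lit 0) (nat_lit 0) (nat_lit 0) (nat_lit 0) (nat_lit 0) (nat_lit 0) (nat_lit 1) (nat_lit 0) (nat_lit 1) (nat_lit 0) (nat_lit 413) (nat_lit 380) (nat_lit 287)))))) (XT.nd (nat_lit 470) (nat_lit 0) (nat_lit 0) (XT.nd (nat_lit 188) (nat_lit 0) (nat_lit 0) (XT.nd (nat_lit 94) (nat_lit 0) (nat_lit 0) (XT.lf (nat_lit 0) (nat_lit 5008274914) (nat_lit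 0) (nat_lit 0) (nat_lit 0) (nat_lit 0) (nat_lit 0) (nat_lit 0) (nat_lit 1) (nat_lit 0) (nat_lit 1) (nat_lit 0) (nat_lit 414) (nat_lit 380) (nat_lit 286)) (XT.lf (nat_lit 0) (nat_lit 5008007485) (nat_lit 0) (nat_lit 0) (nat_lit 0) (nat_lit 0) (nat_lit 0) (nat_lit 0) (nat_lit 1) (nat_lit 0) (nat_lit 1) (nat_lit 0) (nat_lit 415) (nat_lit 380) (nat_lit 285))) (XT.nd (nat_lit 94) (nat_lit 0) (nat_lit 0) (XT.lf (nat_lit 0) (nat_lit 5007759866) (nat_lit 0) (nat_lit 0) (nat_lit 0) (nat_lit 0) (nat_lit 0) (nat_lit 0) (nat_lit 1) (nat_lit 0) (nat_lit 1) (nat_lit 0) (nat_lit 416) (nat_lit 380) (nat_lit 284)) (XT.nd (nat_lit 94) (nat_lit 0) (nat_lit 0) (XT.lf (nat_lit 0) (nat_lit 5007530588) (nat_lit 0) (nat_lit 0) (nat_lit 0) (nat_lit 0) (nat_lit 0) (nat_lit 0) (nat_lit 1) (nat_lit 0) (nat_lit 1) (nat_lit 0) (nat_lit 417) (nat_lit 380) (nat_lit 283)) (XT.lf (nat_lit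 0) (nat_lit 5007318295) (nat_lit 0) (nat_lit 0) (nat_lit 0) (nat_lit 0) (nat_lit 0) (nat_lit 0) (nat_lit 1) (nat_lit 0) (nat_lit 1) (nat_lit 0) (nat_lit 418) (nat_lit 380) (nat_lit 282))))) (XT.nd (nat_lit 188) (nat_lit 0) (nat_lit 0) (XT.nd (nat_lit 94) (nat_lit 0) (nat_lit 0) (XT.lf (nat_lit 0) (nat_lit 5007121727) (nat_lit 0) (nat_lit 0) (nat_lit 0) (nat_lit 0) (nat_lit 0) (nat_lit 0) (nat_lit 1) (nat_lit 0) (nat_lit 1) (nat_lit 0) (nat_lit 419) (nat_lit 380) (nat_lit 281)) (XT.lf (nat_lit 0) (nat_lit 5006939719) (nat_lit 0) (nat_lit 0) (nat_lit 0) (nat_lit 0) (nat_lit 0) (nat_lit 0) (nat_lit 1) (nat_lit 0) (nat_lit 1) (nat_lit 0) (nat_lit 420) (nat_lit 380) (nat_lit 280))) (XT.nd (nat_lit 94) (nat_lit 0) (nat_lit 0) (XT.lf (nat_lit 0) (nat_lit 5006771194) (nat_lit 0) (nat_lit 0) (nat_lit 0) (nat_lit 0) (nat_lit 0) (nat_lit 0) (nat_lit 1) (nat_lit 0) (nat_lit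 1) (nat_lit 0) (nat_lit 421) (nat_lit 380) (nat_lit 279)) (XT.nd (nat_lit 94) (nat_lit 0) (nat_lit 0) (XT.lf (nat_lit 0) (nat_lit 5006615151) (nat_lit 0) (nat_lit 0) (nat_lit 0) (nat_lit 0) (nat_lit 0) (nat_lit 0) (nat_lit 1) (nat_lit 0) (nat_lit 1) (nat_lit 0) (nat_lit 422) (nat_lit 380) (nat_lit 278)) (XT.lf (nat_lit 0) (nat_lit 5006470668) (nat_lit 0) (nat_lit 0) (nat_lit 0) (nat_lit 0) (nat_lit 0) (nat_lit 0) (nat_lit 1) (nat_lit 0) (nat_lit 1) (nat_lit 0) (nat_lit 423) (nat_lit 380) (nat_lit 277))))))))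
noncomputable def ec79 : XT := (XT.nd (nat_lit 58374) (nat_lit 0) (nat_lit 5040) (XT.nd (nat_lit 846) (nat_lit 0) (nat_lit 0) (XT.nd (nat_lit 376) (nat_lit 0) (nat_lit 0) (XT.nd (nat_lit 188) (nat_lit 0) (nat_lit 0) (XT.nd (nat_lit 94) (nat_lit 0) (nat_lit 0) (XT.lf (nat_lit 0) (nat_lit 5006336887) (nat_lit 0) (nat_lit 0) (nat_lit 0) (nat_lit 0) (nat_lit 0) (nat_lit 0) (nat_lit 1) (nat_lit 0) (nat_lit 1) (nat_lit 0) (nat_lit 424) (nat_lit 380) (nat_lit 276)) (XT.lf (nat_lit 0) (nat_lit 5006213016) (nat_lit 0) (nat_lit 0) (nat_lit 0) (nat_lit 0) (nat_lit 0) (nat_lit 0) (nat_lit 1) (nat_lit 0) (nat_lit 1) (nat_lit 0) (nat_lit 425) (nat_lit 380) (nat_lit 275))) (XT.nd (nat_lit 94) (nat_lit 0) (nat_lit 0) (XT.lf (nat_lit 0) (nat_lit 5006098320) (nat_lit 0) (nat_lit 0) (nat_lit 0) (nat_lit 0) (nat_lit 0) (nat_lit 0) (nat_lit 1) (nat_lit 0) (nat_lit 1) (nat_lit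 0) (nat_lit 426) (nat_lit 380) (nat_lit 274)) (XT.lf (nat_lit 0) (nat_lit 5005992120) (nat_lit 0) (nat_lit 0) (nat_lit 0) (nat_lit 0) (nat_lit 0) (nat_lit 0) (nat_lit 1) (nat_lit 0) (nat_lit 1) (nat_lit 0) (nat_lit 427) (nat_lit 380) (nat_lit 273)))) (XT.nd (nat_lit 188) (nat_lit 0) (nat_lit 0) (XT.nd (nat_lit 94) (nat_lit 0) (nat_lit 0) (XT.lf (nat_lit 0) (nat_lit 5005893787) (nat_lit 0) (nat_lit 0) (nat_lit 0) (nat_lit 0) (nat_lit 0) (nat_lit 0) (nat_lit 1) (nat_lit 0) (nat_lit 1) (nat_lit 0) (nat_lit 428) (nat_lit 380) (nat_lit 272)) (XT.lf (nat_lit 0) (nat_lit 5005802738) (nat_lit 0) (nat_lit 0) (nat_lit 0) (nat_lit 0) (nat_lit 0) (nat_lit 0) (nat_lit 1) (nat_lit 0) (nat_lit 1) (nat_lit 0) (nat_lit 429) (nat_lit 380) (nat_lit 271))) (XT.nd (nat_lit 94) (nat_lit 0) (nat_lit 0) (XT.lf (nat_lit 0) (nat_lit 5005718434) (nat_lit 0) (nat_lit 0) (nat_lit 0) (nat_lit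 0) (nat_lit 0) (nat_lit 0) (nat_lit 1) (nat_lit 0) (nat_lit 1) (nat_lit 0) (nat_lit 430) (nat_lit 380) (nat_lit 270)) (XT.nd (nat_lit 94) (nat_lit 0) (nat_lit 0) (XT.lf (nat_lit 0) (nat_lit 5005640374) (nat_lit 0) (nat_lit 0) (nat_lit 0) (nat_lit 0) (nat_lit 0) (nat_lit 0) (nat_lit 1) (nat_lit 0) (nat_lit 1) (nat_lit 0) (nat_lit 431) (nat_lit 380) (nat_lit 269)) (XT.lf (nat_lit 0) (nat_lit 5005568096) (nat_lit 0) (nat_lit 0) (nat_lit 0) (nat_lit 0) (nat_lit 0) (nat_lit 0) (nat_lit 1) (nat_lit 0) (nat_lit 1) (nat_lit 0) (nat_lit 432) (nat_lit 380) (nat_lit 268)))))) (XT.nd (nat_lit 57058) (nat_lit 0) (nat_lit 10836) (XT.nd (nat_lit 188) (nat_lit 0) (nat_lit 0) (XT.nd (nat_lit 94) (nat_lit 0) (nat_lit 0) (XT.lf (nat_lit 0) (nat_lit 5005501172) (nat_lit 0) (nat_lit 0) (nat_lit 0) (nat_lit 0) (nat_lit 0) (nat_lit 0) (nat_lit 1) (nat_lit 0) (nat_lit 1) (nat_lit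 0) (nat_lit 433) (nat_lit 380) (nat_lit 267)) (XT.lf (nat_lit 0) (nat_lit 5005439206) (nat_lit 0) (nat_lit 0) (nat_lit 0) (nat_lit 0) (nat_lit 0) (nat_lit 0) (nat_lit 1) (nat_lit 0) (nat_lit 1) (nat_lit 0) (nat_lit 434) (nat_lit 380) (nat_lit 266))) (XT.nd (nat_lit 94) (nat_lit 0) (nat_lit 0) (XT.lf (nat_lit 0) (nat_lit 5005381829) (nat_lit 0) (nat_lit 0) (nat_lit 0) (nat_lit 0) (nat_lit 0) (nat_lit 0) (nat_lit 1) (nat_lit 0) (nat_lit 1) (nat_lit 0) (nat_lit 435) (nat_lit 380) (nat_lit 265)) (XT.nd (nat_lit 56682) (nat_lit 0) (nat_lit 10752) (XT.lf (nat_lit 0) (nat_lit 5005328703) (nat_lit 0) (nat_lit 0) (nat_lit 0) (nat_lit 0) (nat_lit 0) (nat_lit 0) (nat_lit 1) (nat_lit 0) (nat_lit 1) (nat_lit 0) (nat_lit 436) (nat_lit 380) (nat_lit 264)) (XT.lf (nat_lit 924) (nat_lit 2704883372) (nat_lit 0) (nat_lit 4802514210) (nat_lit 924) (nat_lit 2704883372) (nat_lit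 139) (nat_lit 1) (nat_lit 128) (nat_lit 0) (nat_lit 139) (nat_lit 0) (nat_lit 318) (nat_lit 381) (nat_lit 381))))) (XT.nd (nat_lit 188) (nat_lit 0) (nat_lit 84) (XT.nd (nat_lit 94) (nat_lit 0) (nat_lit 0) (XT.lf (nat_lit 924) (nat_lit 1009004494) (nat_lit 0) (nat_lit 9428790923) (nat_lit 840) (nat_lit 9221326021) (nat_lit 140) (nat_lit 1) (nat_lit 129) (nat_lit 1) (nat_lit 139) (nat_lit 1) (nat_lit 319) (nat_lit 381) (nat_lit 380)) (XT.lf (nat_lit 924) (nat_lit 9267123880) (nat_lit 84) (nat_lit 6314464459) (nat_lit 0) (nat_lit 3348903908) (nat_lit 140) (nat_lit 1) (nat_lit 130) (nat_lit 1) (nat_lit 129) (nat_lit 1) (nat_lit 320) (nat_lit 381) (nat_lit 379))) (XT.nd (nat_lit 94) (nat_lit 0) (nat_lit 84) (XT.lf (nat_lit 924) (nat_lit 8007554206) (nat_lit 84) (nat_lit 2646348287) (nat_lit 0) (nat_lit 7584423014) (nat_lit 141) (nat_lit 1) (nat_lit 131) (nat_lit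 1) (nat_lit 130) (nat_lit 1) (nat_lit 321) (nat_lit 381) (nat_lit 378)) (XT.nd (nat_lit 94) (nat_lit 0) (nat_lit 84) (XT.lf (nat_lit 924) (nat_lit 5926270891) (nat_lit 0) (nat_lit 11087772714) (nat_lit 840) (nat_lit 566805357) (nat_lit 142) (nat_lit 1) (nat_lit 131) (nat_lit 1) (nat_lit 141) (nat_lit 1) (nat_lit 322) (nat_lit 381) (nat_lit 377)) (XT.lf (nat_lit 924) (nat_lit 1421950594) (nat_lit 0) (nat_lit 12227349720) (nat_lit 840) (nat_lit 3305471209) (nat_lit 143) (nat_lit 1) (nat_lit 132) (nat_lit 1) (nat_lit 142) (nat_lit 1) (nat_lit 323) (nat_lit 381) (nat_lit 376))))))) (XT.nd (nat_lit 846) (nat_lit 2772) (nat_lit 0) (XT.nd (nat_lit 376) (nat_lit 1512) (nat_lit 0) (XT.nd (nat_lit 188) (nat_lit 1008) (nat_lit 0) (XT.nd (nat_lit 94) (nat_lit 756) (nat_lit 0) (XT.lf (nat_lit 924) (nat_lit 2732410687) (nat_lit 84) (nat_lit 10626562623) (nat_lit 0) (nat_lit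 2998947079) (nat_lit 143) (nat_lit 1) (nat_lit 133) (nat_lit 1) (nat_lit 132) (nat_lit 1) (nat_lit 324) (nat_lit 381) (nat_lit 375)) (XT.lf (nat_lit 924) (nat_lit 561174847) (nat_lit 0) (nat_lit 7944058480) (nat_lit 840) (nat_lit 7284618390) (nat_lit 134) (nat_lit 1) (nat_lit 123) (nat_lit 1) (nat_lit 133) (nat_lit 1) (nat_lit 325) (nat_lit 381) (nat_lit 374))) (XT.nd (nat_lit 94) (nat_lit 420) (nat_lit 0) (XT.lf (nat_lit 84) (nat_lit 3885691543) (nat_lit 0) (nat_lit 1683850971) (nat_lit 588) (nat_lit 9679138037) (nat_lit 117) (nat_lit 1) (nat_lit 116) (nat_lit 1) (nat_lit 123) (nat_lit 1) (nat_lit 326) (nat_lit 381) (nat_lit 373)) (XT.lf (nat_lit 504) (nat_lit 10708476814) (nat_lit 0) (nat_lit 3485840059) (nat_lit 420) (nat_lit 538932411) (nat_lit 117) (nat_lit 1) (nat_lit 111) (nat_lit 1) (nat_lit 116) (nat_lit 1) (nat_lit 327) (nat_lit 381) (nat_lit 372))))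 (XT.nd (nat_lit 188) (nat_lit 756) (nat_lit 0) (XT.nd (nat_lit 94) (nat_lit 336) (nat_lit 0) (XT.lf (nat_lit 504) (nat_lit 7727338843) (nat_lit 0) (nat_lit 1624765067) (nat_lit 420) (nat_lit 4887876731) (nat_lit 112) (nat_lit 1) (nat_lit 106) (nat_lit 1) (nat_lit 111) (nat_lit 1) (nat_lit 328) (nat_lit 381) (nat_lit 371)) (XT.lf (nat_lit 420) (nat_lit 4701987132) (nat_lit 0) (nat_lit 29914565) (nat_lit 336) (nat_lit 9038727824) (nat_lit 107) (nat_lit 1) (nat_lit 102) (nat_lit 1) (nat_lit 106) (nat_lit 1) (nat_lit 329) (nat_lit 381) (nat_lit 370))) (XT.nd (nat_lit 94) (nat_lit 756) (nat_lit 0) (XT.lf (nat_lit 84) (nat_lit 346890389) (nat_lit 0) (nat_lit 11698824805) (nat_lit 420) (nat_lit 1277154197) (nat_lit 103) (nat_lit 1) (nat_lit 102) (nat_lit 1) (nat_lit 107) (nat_lit 1) (nat_lit 330) (nat_lit 381) (nat_lit 369)) (XT.nd (nat_lit 94) (nat_lit 336) (nat_lit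 0) (XT.lf (nat_lit 84) (nat_lit 8956799818) (nat_lit 0) (nat_lit 1485581087) (nat_lit 420) (nat_lit 2449993014) (nat_lit 98) (nat_lit 1) (nat_lit 97) (nat_lit 1) (nat_lit 102) (nat_lit 1) (nat_lit 331) (nat_lit 381) (nat_lit 368)) (XT.lf (nat_lit 84) (nat_lit 4481313920) (nat_lit 0) (nat_lit 4550598584) (nat_lit 420) (nat_lit 3448987428) (nat_lit 94) (nat_lit 1) (nat_lit 93) (nat_lit 1) (nat_lit 98) (nat_lit 1) (nat_lit 332) (nat_lit 381) (nat_lit 367)))))) (XT.nd (nat_lit 470) (nat_lit 1260) (nat_lit 0) (XT.nd (nat_lit 188) (nat_lit 924) (nat_lit 0) (XT.nd (nat_lit 94) (nat_lit 252) (nat_lit 0) (XT.lf (nat_lit 84) (nat_lit 221187717) (nat_lit 0) (nat_lit 7608530172) (nat_lit 420) (nat_lit 4259189990) (nat_lit 90) (nat_lit 1) (nat_lit 89) (nat_lit 1) (nat_lit 94) (nat_lit 1) (nat_lit 333) (nat_lit 381) (nat_lit 366)) (XT.lf (nat_lit 336) (nat_lit 998871268)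 (nat_lit 0) (nat_lit 6754888258) (nat_lit 252) (nat_lit 3958519763) (nat_lit 90) (nat_lit 1) (nat_lit 86) (nat_lit 1) (nat_lit 89) (nat_lit 1) (nat_lit 334) (nat_lit 381) (nat_lit 365))) (XT.nd (nat_lit 94) (nat_lit 504) (nat_lit 0) (XT.lf (nat_lit 84) (nat_lit 3451368788) (nat_lit 0) (nat_lit 2365589613) (nat_lit 420) (nat_lit 5534251508) (nat_lit 82) (nat_lit 1) (nat_lit 81) (nat_lit 1) (nat_lit 86) (nat_lit 1) (nat_lit 335) (nat_lit 381) (nat_lit 364)) (XT.nd (nat_lit 94) (nat_lit 252) (nat_lit 0) (XT.lf (nat_lit 336) (nat_lit 5343549045) (nat_lit 0) (nat_lit 5019573691) (nat_lit 252) (nat_lit 642499475) (nat_lit 82) (nat_lit 1) (nat_lit 78) (nat_lit 1) (nat_lit 81) (nat_lit 1) (nat_lit 336) (nat_lit 381) (nat_lit 363)) (XT.lf (nat_lit 336) (nat_lit 1712581654) (nat_lit 0) (nat_lit 4321647398) (nat_lit 252) (nat_lit 4639086493) (nat_lit 79) (nat_lit 1)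 (nat_lit 75) (nat_lit 1) (nat_lit 78) (nat_lit 1) (nat_lit 337) (nat_lit 381) (nat_lit 362))))) (XT.nd (nat_lit 188) (nat_lit 672) (nat_lit 0) (XT.nd (nat_lit 94) (nat_lit 252) (nat_lit 0) (XT.lf (nat_lit 84) (nat_lit 1951929270) (nat_lit 0) (nat_lit 1787160873) (nat_lit 336) (nat_lit 6615720057) (nat_lit 72) (nat_lit 1) (nat_lit 71) (nat_lit 1) (nat_lit 75) (nat_lit 1) (nat_lit 338) (nat_lit 381) (nat_lit 361)) (XT.lf (nat_lit 336) (nat_lit 4857119800) (nat_lit 0) (nat_lit 3231747524) (nat_lit 252) (nat_lit 1959095974) (nat_lit 72) (nat_lit 1) (nat_lit 68) (nat_lit 1) (nat_lit 71) (nat_lit 1) (nat_lit 339) (nat_lit 381) (nat_lit 360))) (XT.nd (nat_lit 94) (nat_lit 504) (nat_lit 0) (XT.lf (nat_lit 252) (nat_lit 1204087170) (nat_lit 0) (nat_lit 2819463990) (nat_lit 168) (nat_lit 5729944295) (nat_lit 69) (nat_lit 1) (nat_lit 66) (nat_lit 1) (nat_lit 68) (nat_lit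 1) (nat_lit 340) (nat_lit 381) (nat_lit 359)) (XT.nd (nat_lit 94) (nat_lit 168) (nat_lit 0) (XT.lf (nat_lit 84) (nat_lit 203980059) (nat_lit 0) (nat_lit 2282581145) (nat_lit 336) (nat_lit 6983880758) (nat_lit 63) (nat_lit 1) (nat_lit 62) (nat_lit 1) (nat_lit 66) (nat_lit 1) (nat_lit 341) (nat_lit 381) (nat_lit 358)) (XT.lf (nat_lit 252) (nat_lit 3498856382) (nat_lit 0) (nat_lit 2186485072) (nat_lit 168) (nat_lit 3511032438) (nat_lit 63) (nat_lit 1) (nat_lit 60) (nat_lit 1) (nat_lit 62) (nat_lit 1) (nat_lit 342) (nat_lit 381) (nat_lit 357))))))))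
noncomputable def ec80 : XT := (XT.nd (nat_lit 1692) (nat_lit 2016) (nat_lit 0) (XT.nd (nat_lit 846) (nat_lit 1344) (nat_lit 0) (XT.nd (nat_lit 376) (nat_lit 840) (nat_lit 0) (XT.nd (nat_lit 188) (nat_lit 420) (nat_lit 0) (XT.nd (nat_lit 94) (nat_lit 168) (nat_lit 0) (XT.lf (nat_lit 84) (nat_lit 1898333255) (nat_lit 0) (nat_lit 87685203) (nat_lit 252) (nat_lit 6948246751) (nat_lit 58) (nat_lit 1) (nat_lit 57) (nat_lit 1) (nat_lit 60) (nat_lit 1) (nat_lit 343) (nat_lit 381) (nat_lit 356)) (XT.lf (nat_lit 252) (nat_lit 5189676542) (nat_lit 0) (nat_lit 1798339284) (nat_lit 168) (nat_lit 1691765254) (nat_lit 58) (nat_lit 1) (nat_lit 55) (nat_lit 1) (nat_lit 57) (nat_lit 1) (nat_lit 344) (nat_lit 381) (nat_lit 355))) (XT.nd (nat_lit 94) (nat_lit 252) (nat_lit 0) (XT.lf (nat_lit 252) (nat_lit 1612121499) (nat_lit 0) (nat_lit 1671755228) (nat_lit 168) (nat_lit 5151150267)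 (nat_lit 56) (nat_lit 1) (nat_lit 53) (nat_lit 1) (nat_lit 55) (nat_lit 1) (nat_lit 345) (nat_lit 381) (nat_lit 354)) (XT.lf (nat_lit 252) (nat_lit 6399529879) (nat_lit 0) (nat_lit 1597226432) (nat_lit 168) (nat_lit 202626703) (nat_lit 53) (nat_lit 1) (nat_lit 50) (nat_lit 1) (nat_lit 52) (nat_lit 1) (nat_lit 346) (nat_lit 381) (nat_lit 353)))) (XT.nd (nat_lit 188) (nat_lit 504) (nat_lit 0) (XT.nd (nat_lit 94) (nat_lit 168) (nat_lit 0) (XT.lf (nat_lit 252) (nat_lit 2864132981) (nat_lit 0) (nat_lit 1524812743) (nat_lit 168) (nat_lit 3581341114) (nat_lit 51) (nat_lit 1) (nat_lit 48) (nat_lit 1) (nat_lit 50) (nat_lit 1) (nat_lit 347) (nat_lit 381) (nat_lit 352)) (XT.lf (nat_lit 84) (nat_lit 981076127) (nat_lit 0) (nat_lit 539243648) (nat_lit 168) (nat_lit 6230373204) (nat_lit 47) (nat_lit 1) (nat_lit 46) (nat_lit 1) (nat_lit 48) (nat_lit 1) (nat_lit 348) (nat_lit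 381) (nat_lit 351))) (XT.nd (nat_lit 94) (nat_lit 336) (nat_lit 0) (XT.lf (nat_lit 252) (nat_lit 3757907189) (nat_lit 0) (nat_lit 1504221281) (nat_lit 168) (nat_lit 2274511891) (nat_lit 47) (nat_lit 1) (nat_lit 44) (nat_lit 1) (nat_lit 46) (nat_lit 1) (nat_lit 349) (nat_lit 381) (nat_lit 350)) (XT.nd (nat_lit 94) (nat_lit 252) (nat_lit 0) (XT.lf (nat_lit 168) (nat_lit 404673205) (nat_lit 0) (nat_lit 1541166899) (nat_lit 84) (nat_lit 5385198162) (nat_lit 45) (nat_lit 1) (nat_lit 43) (nat_lit 1) (nat_lit 44) (nat_lit 1) (nat_lit 350) (nat_lit 381) (nat_lit 349)) (XT.lf (nat_lit 252) (nat_lit 4368297845) (nat_lit 0) (nat_lit 1576202472) (nat_lit 168) (nat_lit 1186604937) (nat_lit 43) (nat_lit 1) (nat_lit 40) (nat_lit 1) (nat_lit 42) (nat_lit 1) (nat_lit 351) (nat_lit 381) (nat_lit 348)))))) (XT.nd (nat_lit 376) (nat_lit 672) (nat_lit 0) (XT.nd (nat_lit 188) (nat_lit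 336) (nat_lit 0) (XT.nd (nat_lit 94) (nat_lit 252) (nat_lit 0) (XT.lf (nat_lit 168) (nat_lit 1098659119) (nat_lit 0) (nat_lit 1635138271) (nat_lit 84) (nat_lit 4204112998) (nat_lit 41) (nat_lit 1) (nat_lit 39) (nat_lit 1) (nat_lit 40) (nat_lit 1) (nat_lit 352) (nat_lit 381) (nat_lit 347)) (XT.lf (nat_lit 252) (nat_lit 4755825140) (nat_lit 0) (nat_lit 1714001473) (nat_lit 168) (nat_lit 281282314) (nat_lit 39) (nat_lit 1) (nat_lit 36) (nat_lit 1) (nat_lit 38) (nat_lit 1) (nat_lit 353) (nat_lit 381) (nat_lit 346))) (XT.nd (nat_lit 94) (nat_lit 252) (nat_lit 0) (XT.lf (nat_lit 168) (nat_lit 1581121200) (nat_lit 0) (nat_lit 1786867132) (nat_lit 84) (nat_lit 3201326782) (nat_lit 37) (nat_lit 1) (nat_lit 35) (nat_lit 1) (nat_lit 36) (nat_lit 1) (nat_lit 354) (nat_lit 381) (nat_lit 345)) (XT.lf (nat_lit 84) (nat_lit 456374501) (nat_lit 0) (nat_lit 1432437908) (nat_lit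 252) (nat_lit 4505239848) (nat_lit 33) (nat_lit 1) (nat_lit 32) (nat_lit 1) (nat_lit 35) (nat_lit 1) (nat_lit 355) (nat_lit 381) (nat_lit 344)))) (XT.nd (nat_lit 188) (nat_lit 336) (nat_lit 0) (XT.nd (nat_lit 94) (nat_lit 252) (nat_lit 0) (XT.lf (nat_lit 168) (nat_lit 1897488094) (nat_lit 0) (nat_lit 1977092655) (nat_lit 84) (nat_lit 2348561196) (nat_lit 33) (nat_lit 1) (nat_lit 31) (nat_lit 1) (nat_lit 32) (nat_lit 1) (nat_lit 356) (nat_lit 381) (nat_lit 343)) (XT.lf (nat_lit 84) (nat_lit 1061357159) (nat_lit 0) (nat_lit 1027996177) (nat_lit 252) (nat_lit 3968884504) (nat_lit 29) (nat_lit 1) (nat_lit 28) (nat_lit 1) (nat_lit 31) (nat_lit 1) (nat_lit 357) (nat_lit 381) (nat_lit 342))) (XT.nd (nat_lit 94) (nat_lit 252) (nat_lit 0) (XT.lf (nat_lit 168) (nat_lit 2084394929) (nat_lit 0) (nat_lit 2190779589) (nat_lit 84) (nat_lit 1622372453) (nat_lit 29) (nat_lit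 1) (nat_lit 27) (nat_lit 1) (nat_lit 28) (nat_lit 1) (nat_lit 358) (nat_lit 381) (nat_lit 341)) (XT.nd (nat_lit 94) (nat_lit 84) (nat_lit 0) (XT.lf (nat_lit 84) (nat_lit 1562563166) (nat_lit 0) (nat_lit 744533390) (nat_lit 168) (nat_lit 3435066426) (nat_lit 26) (nat_lit 1) (nat_lit 25) (nat_lit 1) (nat_lit 27) (nat_lit 1) (nat_lit 359) (nat_lit 381) (nat_lit 340)) (XT.lf (nat_lit 168) (nat_lit 2171326447) (nat_lit 0) (nat_lit 2416294716) (nat_lit 84) (nat_lit 1003288919) (nat_lit 26) (nat_lit 1) (nat_lit 24) (nat_lit 1) (nat_lit 25) (nat_lit 1) (nat_lit 360) (nat_lit 381) (nat_lit 339))))))) (XT.nd (nat_lit 846) (nat_lit 840) (nat_lit 0) (XT.nd (nat_lit 376) (nat_lit 672) (nat_lit 0) (XT.nd (nat_lit 188) (nat_lit 252) (nat_lit 0) (XT.nd (nat_lit 94) (nat_lit 84) (nat_lit 0) (XT.lf (nat_lit 84) (nat_lit 1976497121) (nat_lit 0) (nat_lit 555431617) (nat_lit 168)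 (nat_lit 2912380826) (nat_lit 23) (nat_lit 1) (nat_lit 22) (nat_lit 1) (nat_lit 24) (nat_lit 1) (nat_lit 361) (nat_lit 381) (nat_lit 338)) (XT.lf (nat_lit 168) (nat_lit 2181956798) (nat_lit 0) (nat_lit 2644737545) (nat_lit 84) (nat_lit 475105358) (nat_lit 23) (nat_lit 1) (nat_lit 21) (nat_lit 1) (nat_lit 22) (nat_lit 1) (nat_lit 362) (nat_lit 381) (nat_lit 337))) (XT.nd (nat_lit 94) (nat_lit 84) (nat_lit 0) (XT.lf (nat_lit 84) (nat_lit 2316876185) (nat_lit 0) (nat_lit 439287568) (nat_lit 168) (nat_lit 2407168075) (nat_lit 20) (nat_lit 1) (nat_lit 19) (nat_lit 1) (nat_lit 21) (nat_lit 1) (nat_lit 363) (nat_lit 381) (nat_lit 336)) (XT.lf (nat_lit 168) (nat_lit 2135241776) (nat_lit 0) (nat_lit 2869396754) (nat_lit 84) (nat_lit 24305181) (nat_lit 20) (nat_lit 1) (nat_lit 18) (nat_lit 1) (nat_lit 19) (nat_lit 1) (nat_lit 364) (nat_lit 381) (nat_lit 335)))) (XT.nd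 (nat_lit 188) (nat_lit 420) (nat_lit 0) (XT.nd (nat_lit 94) (nat_lit 84) (nat_lit 0) (XT.lf (nat_lit 84) (nat_lit 2595123489) (nat_lit 0) (nat_lit 378933453) (nat_lit 168) (nat_lit 1923973205) (nat_lit 17) (nat_lit 1) (nat_lit 16) (nat_lit 1) (nat_lit 18) (nat_lit 1) (nat_lit 365) (nat_lit 381) (nat_lit 334)) (XT.lf (nat_lit 0) (nat_lit 348877261) (nat_lit 0) (nat_lit 2730523456) (nat_lit 168) (nat_lit 1691523344) (nat_lit 15) (nat_lit 3) (nat_lit 15) (nat_lit 1) (nat_lit 17) (nat_lit 1) (nat_lit 366) (nat_lit 381) (nat_lit 333))) (XT.nd (nat_lit 94) (nat_lit 252) (nat_lit 0) (XT.lf (nat_lit 84) (nat_lit 2820772221) (nat_lit 0) (nat_lit 360638918) (nat_lit 168) (nat_lit 1465918175) (nat_lit 14) (nat_lit 1) (nat_lit 13) (nat_lit 1) (nat_lit 15) (nat_lit 1) (nat_lit 367) (nat_lit 381) (nat_lit 332)) (XT.nd (nat_lit 94) (nat_lit 168) (nat_lit 0) (XT.lf (nat_lit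 0) (nat_lit 666484638) (nat_lit 0) (nat_lit 2611130104) (nat_lit 168) (nat_lit 1249411430) (nat_lit 12) (nat_lit 3) (nat_lit 12) (nat_lit 1) (nat_lit 14) (nat_lit 1) (nat_lit 368) (nat_lit 381) (nat_lit 331)) (XT.lf (nat_lit 84) (nat_lit 3001796715) (nat_lit 0) (nat_lit 373460761) (nat_lit 168) (nat_lit 1035003093) (nat_lit 11) (nat_lit 1) (nat_lit 10) (nat_lit 1) (nat_lit 12) (nat_lit 1) (nat_lit 369) (nat_lit 381) (nat_lit 330)))))) (XT.nd (nat_lit 470) (nat_lit 252) (nat_lit 0) (XT.nd (nat_lit 188) (nat_lit 336) (nat_lit 0) (XT.nd (nat_lit 94) (nat_lit 168) (nat_lit 0) (XT.lf (nat_lit 0) (nat_lit 937003229) (nat_lit 0) (nat_lit 2524831848) (nat_lit 168) (nat_lit 834505622) (nat_lit 9) (nat_lit 3) (nat_lit 9) (nat_lit 1) (nat_lit 11) (nat_lit 1) (nat_lit 370) (nat_lit 381) (nat_lit 329)) (XT.lf (nat_lit 84) (nat_lit 3144883860) (nat_lit 0) (nat_lit 408713213)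 (nat_lit 168) (nat_lit 632349596) (nat_lit 8) (nat_lit 1) (nat_lit 7) (nat_lit 1) (nat_lit 9) (nat_lit 1) (nat_lit 371) (nat_lit 381) (nat_lit 328))) (XT.nd (nat_lit 94) (nat_lit 252) (nat_lit 0) (XT.lf (nat_lit 0) (nat_lit 1166931964) (nat_lit 0) (nat_lit 2463414930) (nat_lit 168) (nat_lit 447678756) (nat_lit 6) (nat_lit 3) (nat_lit 6) (nat_lit 1) (nat_lit 8) (nat_lit 1) (nat_lit 372) (nat_lit 381) (nat_lit 327)) (XT.nd (nat_lit 94) (nat_lit 84) (nat_lit 0) (XT.lf (nat_lit 84) (nat_lit 3255655701) (nat_lit 0) (nat_lit 459536597) (nat_lit 168) (nat_lit 258397165) (nat_lit 5) (nat_lit 1) (nat_lit 4) (nat_lit 1) (nat_lit 6) (nat_lit 1) (nat_lit 373) (nat_lit 381) (nat_lit 326)) (XT.lf (nat_lit 0) (nat_lit 1361767387) (nat_lit 0) (nat_lit 2420362793) (nat_lit 168) (nat_lit 89183592) (nat_lit 3) (nat_lit 3) (nat_lit 3) (nat_lit 1) (nat_lit 5) (nat_lit 1) (nat_lit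 374) (nat_lit 381) (nat_lit 325))))) (XT.nd (nat_lit 188) (nat_lit 0) (nat_lit 0) (XT.nd (nat_lit 94) (nat_lit 0) (nat_lit 0) (XT.lf (nat_lit 0) (nat_lit 5472280422) (nat_lit 0) (nat_lit 0) (nat_lit 0) (nat_lit 0) (nat_lit 0) (nat_lit 0) (nat_lit 1) (nat_lit 0) (nat_lit 1) (nat_lit 0) (nat_lit 375) (nat_lit 381) (nat_lit 324)) (XT.lf (nat_lit 0) (nat_lit 5467299486) (nat_lit 0) (nat_lit 0) (nat_lit 0) (nat_lit 0) (nat_lit 0) (nat_lit 0) (nat_lit 1) (nat_lit 0) (nat_lit 1) (nat_lit 0) (nat_lit 376) (nat_lit 381) (nat_lit 323))) (XT.nd (nat_lit 94) (nat_lit 0) (nat_lit 0) (XT.lf (nat_lit 0) (nat_lit 5462687509) (nat_lit 0) (nat_lit 0) (nat_lit 0) (nat_lit 0) (nat_lit 0) (nat_lit 0) (nat_lit 1) (nat_lit 0) (nat_lit 1) (nat_lit 0) (nat_lit 377) (nat_lit 381) (nat_lit 322)) (XT.nd (nat_lit 94) (nat_lit 0) (nat_lit 0) (XT.lf (nat_lit 0) (nat_lit 5458417160) (nat_lit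 0) (nat_lit 0) (nat_lit 0) (nat_lit 0) (nat_lit 0) (nat_lit 0) (nat_lit 1) (nat_lit 0) (nat_lit 1) (nat_lit 0) (nat_lit 378) (nat_lit 381) (nat_lit 321)) (XT.lf (nat_lit 0) (nat_lit 5454463133) (nat_lit 0) (nat_lit 0) (nat_lit 0) (nat_lit 0) (nat_lit 0) (nat_lit 0) (nat_lit 1) (nat_lit 0) (nat_lit 1) (nat_lit 0) (nat_lit 379) (nat_lit 381) (nat_lit 320))))))))
noncomputable def ec81 : XT := (XT.nd (nat_lit 1786) (nat_lit 0) (nat_lit 0) (XT.nd (nat_lit 846) (nat_lit 0) (nat_lit 0) (XT.nd (nat_lit 376) (nat_lit 0) (nat_lit 0) (XT.nd (nat_lit 188) (nat_lit 0) (nat_lit 0) (XT.nd (nat_lit 94) (nat_lit 0) (nat_lit 0) (XT.lf (nat_lit 0) (nat_lit 5450801997) (nat_lit 0) (nat_lit 0) (nat_lit 0) (nat_lit 0) (nat_lit 0) (nat_lit 0) (nat_lit 1) (nat_lit 0) (nat_lit 1) (nat_lit 0) (nat_lit 380) (nat_lit 381) (nat_lit 319)) (XT.lf (nat_lit 0) (nat_lit 5447412056) (nat_lit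 0) (nat_lit 0) (nat_lit 0) (nat_lit 0) (nat_lit 0) (nat_lit 0) (nat_lit 1) (nat_lit 0) (nat_lit 1) (nat_lit 0) (nat_lit 381) (nat_lit 381) (nat_lit 318))) (XT.nd (nat_lit 94) (nat_lit 0) (nat_lit 0) (XT.lf (nat_lit 0) (nat_lit 5444273222) (nat_lit 0) (nat_lit 0) (nat_lit 0) (nat_lit 0) (nat_lit 0) (nat_lit 0) (nat_lit 1) (nat_lit 0) (nat_lit 1) (nat_lit 0) (nat_lit 382) (nat_lit 381) (nat_lit 317)) (XT.lf (nat_lit 0) (nat_lit 5441366894) (nat_lit 0) (nat_lit 0) (nat_lit 0) (nat_lit 0) (nat_lit 0) (nat_lit 0) (nat_lit 1) (nat_lit 0) (nat_lit 1) (nat_lit 0) (nat_lit 383) (nat_lit 381) (nat_lit 316)))) (XT.nd (nat_lit 188) (nat_lit 0) (nat_lit 0) (XT.nd (nat_lit 94) (nat_lit 0) (nat_lit 0) (XT.lf (nat_lit 0) (nat_lit 5438675849) (nat_lit 0) (nat_lit 0) (nat_lit 0) (nat_lit 0) (nat_lit 0) (nat_lit 0) (nat_lit 1) (nat_lit 0) (nat_lit 1) (nat_lit 0) (nat_lit 384)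 (nat_lit 381) (nat_lit 315)) (XT.lf (nat_lit 0) (nat_lit 5436184142) (nat_lit 0) (nat_lit 0) (nat_lit 0) (nat_lit 0) (nat_lit 0) (nat_lit 0) (nat_lit 1) (nat_lit 0) (nat_lit 1) (nat_lit 0) (nat_lit 385) (nat_lit 381) (nat_lit 314))) (XT.nd (nat_lit 94) (nat_lit 0) (nat_lit 0) (XT.lf (nat_lit 0) (nat_lit 5433877005) (nat_lit 0) (nat_lit 0) (nat_lit 0) (nat_lit 0) (nat_lit 0) (nat_lit 0) (nat_lit 1) (nat_lit 0) (nat_lit 1) (nat_lit 0) (nat_lit 386) (nat_lit 381) (nat_lit 313)) (XT.nd (nat_lit 94) (nat_lit 0) (nat_lit 0) (XT.lf (nat_lit 0) (nat_lit 5431740767) (nat_lit 0) (nat_lit 0) (nat_lit 0) (nat_lit 0) (nat_lit 0) (nat_lit 0) (nat_lit 1) (nat_lit 0) (nat_lit 1) (nat_lit 0) (nat_lit 387) (nat_lit 381) (nat_lit 312)) (XT.lf (nat_lit 0) (nat_lit 5429762769) (nat_lit 0) (nat_lit 0) (nat_lit 0) (nat_lit 0) (nat_lit 0) (nat_lit 0) (nat_lit 1) (nat_lit 0) (nat_lit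 1) (nat_lit 0) (nat_lit 388) (nat_lit 381) (nat_lit 311)))))) (XT.nd (nat_lit 470) (nat_lit 0) (nat_lit 0) (XT.nd (nat_lit 188) (nat_lit 0) (nat_lit 0) (XT.nd (nat_lit 94) (nat_lit 0) (nat_lit 0) (XT.lf (nat_lit 0) (nat_lit 5427931290) (nat_lit 0) (nat_lit 0) (nat_lit 0) (nat_lit 0) (nat_lit 0) (nat_lit 0) (nat_lit 1) (nat_lit 0) (nat_lit 1) (nat_lit 0) (nat_lit 389) (nat_lit 381) (nat_lit 310)) (XT.lf (nat_lit 0) (nat_lit 5426235475) (nat_lit 0) (nat_lit 0) (nat_lit 0) (nat_lit 0) (nat_lit 0) (nat_lit 0) (nat_lit 1) (nat_lit 0) (nat_lit 1) (nat_lit 0) (nat_lit 390) (nat_lit 381) (nat_lit 309))) (XT.nd (nat_lit 94) (nat_lit 0) (nat_lit 0) (XT.lf (nat_lit 0) (nat_lit 5424665277) (nat_lit 0) (nat_lit 0) (nat_lit 0) (nat_lit 0) (nat_lit 0) (nat_lit 0) (nat_lit 1) (nat_lit 0) (nat_lit 1) (nat_lit 0) (nat_lit 391) (nat_lit 381) (nat_lit 308)) (XT.nd (nat_lit 94)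 (nat_lit 0) (nat_lit 0) (XT.lf (nat_lit 0) (nat_lit 5423211389) (nat_lit 0) (nat_lit 0) (nat_lit 0) (nat_lit 0) (nat_lit 0) (nat_lit 0) (nat_lit 1) (nat_lit 0) (nat_lit 1) (nat_lit 0) (nat_lit 392) (nat_lit 381) (nat_lit 307)) (XT.lf (nat_lit 0) (nat_lit 5421865197) (nat_lit 0) (nat_lit 0) (nat_lit 0) (nat_lit 0) (nat_lit 0) (nat_lit 0) (nat_lit 1) (nat_lit 0) (nat_lit 1) (nat_lit 0) (nat_lit 393) (nat_lit 381) (nat_lit 306))))) (XT.nd (nat_lit 188) (nat_lit 0) (nat_lit 0) (XT.nd (nat_lit 94) (nat_lit 0) (nat_lit 0) (XT.lf (nat_lit 0) (nat_lit 5420618723) (nat_lit 0) (nat_lit 0) (nat_lit 0) (nat_lit 0) (nat_lit 0) (nat_lit 0) (nat_lit 1) (nat_lit 0) (nat_lit 1) (nat_lit 0) (nat_lit 394) (nat_lit 381) (nat_lit 305)) (XT.lf (nat_lit 0) (nat_lit 5419464580) (nat_lit 0) (nat_lit 0) (nat_lit 0) (nat_lit 0) (nat_lit 0) (nat_lit 0) (nat_lit 1) (nat_lit 0) (nat_lit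 1) (nat_lit 0) (nat_lit 395) (nat_lit 381) (nat_lit 304))) (XT.nd (nat_lit 94) (nat_lit 0) (nat_lit 0) (XT.lf (nat_lit 0) (nat_lit 5418395929) (nat_lit 0) (nat_lit 0) (nat_lit 0) (nat_lit 0) (nat_lit 0) (nat_lit 0) (nat_lit 1) (nat_lit 0) (nat_lit 1) (nat_lit 0) (nat_lit 396) (nat_lit 381) (nat_lit 303)) (XT.nd (nat_lit 94) (nat_lit 0) (nat_lit 0) (XT.lf (nat_lit 0) (nat_lit 5417406438) (nat_lit 0) (nat_lit 0) (nat_lit 0) (nat_lit 0) (nat_lit 0) (nat_lit 0) (nat_lit 1) (nat_lit 0) (nat_lit 1) (nat_lit 0) (nat_lit 397) (nat_lit 381) (nat_lit 302)) (XT.lf (nat_lit 0) (nat_lit 5416490242) (nat_lit 0) (nat_lit 0) (nat_lit 0) (nat_lit 0) (nat_lit 0) (nat_lit 0) (nat_lit 1) (nat_lit 0) (nat_lit 1) (nat_lit 0) (nat_lit 398) (nat_lit 381) (nat_lit 301))))))) (XT.nd (nat_lit 846) (nat_lit 0) (nat_lit 0) (XT.nd (nat_lit 376) (nat_lit 0) (nat_lit 0) (XT.nd (nat_lit 188)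 (nat_lit 0) (nat_lit 0) (XT.nd (nat_lit 94) (nat_lit 0) (nat_lit 0) (XT.lf (nat_lit 0) (nat_lit 5415641912) (nat_lit 0) (nat_lit 0) (nat_lit 0) (nat_lit 0) (nat_lit 0) (nat_lit 0) (nat_lit 1) (nat_lit 0) (nat_lit 1) (nat_lit 0) (nat_lit 399) (nat_lit 381) (nat_lit 300)) (XT.lf (nat_lit 0) (nat_lit 5414856422) (nat_lit 0) (nat_lit 0) (nat_lit 0) (nat_lit 0) (nat_lit 0) (nat_lit 0) (nat_lit 1) (nat_lit 0) (nat_lit 1) (nat_lit 0) (nat_lit 400) (nat_lit 381) (nat_lit 299))) (XT.nd (nat_lit 94) (nat_lit 0) (nat_lit 0) (XT.lf (nat_lit 0) (nat_lit 5414129116) (nat_lit 0) (nat_lit 0) (nat_lit 0) (nat_lit 0) (nat_lit 0) (nat_lit 0) (nat_lit 1) (nat_lit 0) (nat_lit 1) (nat_lit 0) (nat_lit 401) (nat_lit 381) (nat_lit 298)) (XT.lf (nat_lit 0) (nat_lit 5413455685) (nat_lit 0) (nat_lit 0) (nat_lit 0) (nat_lit 0) (nat_lit 0) (nat_lit 0) (nat_lit 1) (nat_lit 0) (nat_lit 1)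 (nat_lit 0) (nat_lit 402) (nat_lit 381) (nat_lit 297)))) (XT.nd (nat_lit 188) (nat_lit 0) (nat_lit 0) (XT.nd (nat_lit 94) (nat_lit 0) (nat_lit 0) (XT.lf (nat_lit 0) (nat_lit 5412832138) (nat_lit 0) (nat_lit 0) (nat_lit 0) (nat_lit 0) (nat_lit 0) (nat_lit 0) (nat_lit 1) (nat_lit 0) (nat_lit 1) (nat_lit 0) (nat_lit 403) (nat_lit 381) (nat_lit 296)) (XT.lf (nat_lit 0) (nat_lit 5412254779) (nat_lit 0) (nat_lit 0) (nat_lit 0) (nat_lit 0) (nat_lit 0) (nat_lit 0) (nat_lit 1) (nat_lit 0) (nat_lit 1) (nat_lit 0) (nat_lit 404) (nat_lit 381) (nat_lit 295))) (XT.nd (nat_lit 94) (nat_lit 0) (nat_lit 0) (XT.lf (nat_lit 0) (nat_lit 5411720188) (nat_lit 0) (nat_lit 0) (nat_lit 0) (nat_lit 0) (nat_lit 0) (nat_lit 0) (nat_lit 1) (nat_lit 0) (nat_lit 1) (nat_lit 0) (nat_lit 405) (nat_lit 381) (nat_lit 294)) (XT.nd (nat_lit 94) (nat_lit 0) (nat_lit 0) (XT.lf (nat_lit 0) (nat_lit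 5411225196) (nat_lit 0) (nat_lit 0) (nat_lit 0) (nat_lit 0) (nat_lit 0) (nat_lit 0) (nat_lit 1) (nat_lit 0) (nat_lit 1) (nat_lit 0) (nat_lit 406) (nat_lit 381) (nat_lit 293)) (XT.lf (nat_lit 0) (nat_lit 5410766870) (nat_lit 0) (nat_lit 0) (nat_lit 0) (nat_lit 0) (nat_lit 0) (nat_lit 0) (nat_lit 1) (nat_lit 0) (nat_lit 1) (nat_lit 0) (nat_lit 407) (nat_lit 381) (nat_lit 292)))))) (XT.nd (nat_lit 470) (nat_lit 0) (nat_lit 0) (XT.nd (nat_lit 188) (nat_lit 0) (nat_lit 0) (XT.nd (nat_lit 94) (nat_lit 0) (nat_lit 0) (XT.lf (nat_lit 0) (nat_lit 5410342494) (nat_lit 0) (nat_lit 0) (nat_lit 0) (nat_lit 0) (nat_lit 0) (nat_lit 0) (nat_lit 1) (nat_lit 0) (nat_lit 1) (nat_lit 0) (nat_lit 408) (nat_lit 381) (nat_lit 291)) (XT.lf (nat_lit 0) (nat_lit 5409949553) (nat_lit 0) (nat_lit 0) (nat_lit 0) (nat_lit 0) (nat_lit 0) (nat_lit 0) (nat_lit 1) (nat_lit 0) (nat_lit 1) (nat_lit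 0) (nat_lit 409) (nat_lit 381) (nat_lit 290))) (XT.nd (nat_lit 94) (nat_lit 0) (nat_lit 0) (XT.lf (nat_lit 0) (nat_lit 5409585719) (nat_lit 0) (nat_lit 0) (nat_lit 0) (nat_lit 0) (nat_lit 0) (nat_lit 0) (nat_lit 1) (nat_lit 0) (nat_lit 1) (nat_lit 0) (nat_lit 410) (nat_lit 381) (nat_lit 289)) (XT.nd (nat_lit 94) (nat_lit 0) (nat_lit 0) (XT.lf (nat_lit 0) (nat_lit 5409248836) (nat_lit 0) (nat_lit 0) (nat_lit 0) (nat_lit 0) (nat_lit 0) (nat_lit 0) (nat_lit 1) (nat_lit 0) (nat_lit 1) (nat_lit 0) (nat_lit 411) (nat_lit 381) (nat_lit 288)) (XT.lf (nat_lit 0) (nat_lit 5408936907) (nat_lit 0) (nat_lit 0) (nat_lit 0) (nat_lit 0) (nat_lit 0) (nat_lit 0) (nat_lit 1) (nat_lit 0) (nat_lit 1) (nat_lit 0) (nat_lit 412) (nat_lit 381) (nat_lit 287))))) (XT.nd (nat_lit 188) (nat_lit 0) (nat_lit 0) (XT.nd (nat_lit 94) (nat_lit 0) (nat_lit 0) (XT.lf (nat_lit 0) (nat_lit 5408648084)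 (nat_lit 0) (nat_lit 0) (nat_lit 0) (nat_lit 0) (nat_lit 0) (nat_lit 0) (nat_lit 1) (nat_lit 0) (nat_lit 1) (nat_lit 0) (nat_lit 413) (nat_lit 381) (nat_lit 286)) (XT.lf (nat_lit 0) (nat_lit 5408380655) (nat_lit 0) (nat_lit 0) (nat_lit 0) (nat_lit 0) (nat_lit 0) (nat_lit 0) (nat_lit 1) (nat_lit 0) (nat_lit 1) (nat_lit 0) (nat_lit 414) (nat_lit 381) (nat_lit 285))) (XT.nd (nat_lit 94) (nat_lit 0) (nat_lit 0) (XT.lf (nat_lit 0) (nat_lit 5408133036) (nat_lit 0) (nat_lit 0) (nat_lit 0) (nat_lit 0) (nat_lit 0) (nat_lit 0) (nat_lit 1) (nat_lit 0) (nat_lit 1) (nat_lit 0) (nat_lit 415) (nat_lit 381) (nat_lit 284)) (XT.nd (nat_lit 94) (nat_lit 0) (nat_lit 0) (XT.lf (nat_lit 0) (nat_lit 5407903758) (nat_lit 0) (nat_lit 0) (nat_lit 0) (nat_lit 0) (nat_lit 0) (nat_lit 0) (nat_lit 1) (nat_lit 0) (nat_lit 1) (nat_lit 0) (nat_lit 416) (nat_lit 381) (nat_lit 283)) (XT.lf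 (nat_lit 0) (nat_lit 5407691465) (nat_lit 0) (nat_lit 0) (nat_lit 0) (nat_lit 0) (nat_lit 0) (nat_lit 0) (nat_lit 1) (nat_lit 0) (nat_lit 1) (nat_lit 0) (nat_lit 417) (nat_lit 381) (nat_lit 282))))))))
noncomputable def ec82 : XT := (XT.nd (nat_lit 1692) (nat_lit 0) (nat_lit 0) (XT.nd (nat_lit 846) (nat_lit 0) (nat_lit 0) (XT.nd (nat_lit 376) (nat_lit 0) (nat_lit 0) (XT.nd (nat_lit 188) (nat_lit 0) (nat_lit 0) (XT.nd (nat_lit 94) (nat_lit 0) (nat_lit 0) (XT.lf (nat_lit 0) (nat_lit 5407494897) (nat_lit 0) (nat_lit 0) (nat_lit 0) (nat_lit 0) (nat_lit 0) (nat_lit 0) (nat_lit 1) (nat_lit 0) (nat_lit 1) (nat_lit 0) (nat_lit 418) (nat_lit 381) (nat_lit 281)) (XT.lf (nat_lit 0) (nat_lit 5407312889) (nat_lit 0) (nat_lit 0) (nat_lit 0) (nat_lit 0) (nat_lit 0) (nat_lit 0) (nat_lit 1) (nat_lit 0) (nat_lit 1) (nat_lit 0) (nat_lit 419) (nat_lit 381) (nat_lit 280))) (XT.nd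 (nat_lit 94) (nat_lit 0) (nat_lit 0) (XT.lf (nat_lit 0) (nat_lit 5407144364) (nat_lit 0) (nat_lit 0) (nat_lit 0) (nat_lit 0) (nat_lit 0) (nat_lit 0) (nat_lit 1) (nat_lit 0) (nat_lit 1) (nat_lit 0) (nat_lit 420) (nat_lit 381) (nat_lit 279)) (XT.lf (nat_lit 0) (nat_lit 5406988321) (nat_lit 0) (nat_lit 0) (nat_lit 0) (nat_lit 0) (nat_lit 0) (nat_lit 0) (nat_lit 1) (nat_lit 0) (nat_lit 1) (nat_lit 0) (nat_lit 421) (nat_lit 381) (nat_lit 278)))) (XT.nd (nat_lit 188) (nat_lit 0) (nat_lit 0) (XT.nd (nat_lit 94) (nat_lit 0) (nat_lit 0) (XT.lf (nat_lit 0) (nat_lit 5406843838) (nat_lit 0) (nat_lit 0) (nat_lit 0) (nat_lit 0) (nat_lit 0) (nat_lit 0) (nat_lit 1) (nat_lit 0) (nat_lit 1) (nat_lit 0) (nat_lit 422) (nat_lit 381) (nat_lit 277)) (XT.lf (nat_lit 0) (nat_lit 5406710057) (nat_lit 0) (nat_lit 0) (nat_lit 0) (nat_lit 0) (nat_lit 0) (nat_lit 0) (nat_lit 1) (nat_lit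 0) (nat_lit 1) (nat_lit 0) (nat_lit 423) (nat_lit 381) (nat_lit 276))) (XT.nd (nat_lit 94) (nat_lit 0) (nat_lit 0) (XT.lf (nat_lit 0) (nat_lit 5406586186) (nat_lit 0) (nat_lit 0) (nat_lit 0) (nat_lit 0) (nat_lit 0) (nat_lit 0) (nat_lit 1) (nat_lit 0) (nat_lit 1) (nat_lit 0) (nat_lit 424) (nat_lit 381) (nat_lit 275)) (XT.nd (nat_lit 94) (nat_lit 0) (nat_lit 0) (XT.lf (nat_lit 0) (nat_lit 5406471490) (nat_lit 0) (nat_lit 0) (nat_lit 0) (nat_lit 0) (nat_lit 0) (nat_lit 0) (nat_lit 1) (nat_lit 0) (nat_lit 1) (nat_lit 0) (nat_lit 425) (nat_lit 381) (nat_lit 274)) (XT.lf (nat_lit 0) (nat_lit 5406365290) (nat_lit 0) (nat_lit 0) (nat_lit 0) (nat_lit 0) (nat_lit 0) (nat_lit 0) (nat_lit 1) (nat_lit 0) (nat_lit 1) (nat_lit 0) (nat_lit 426) (nat_lit 381) (nat_lit 273)))))) (XT.nd (nat_lit 376) (nat_lit 0) (nat_lit 0) (XT.nd (nat_lit 188) (nat_lit 0) (nat_lit 0) (XT.nd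 (nat_lit 94) (nat_lit 0) (nat_lit 0) (XT.lf (nat_lit 0) (nat_lit 5406266957) (nat_lit 0) (nat_lit 0) (nat_lit 0) (nat_lit 0) (nat_lit 0) (nat_lit 0) (nat_lit 1) (nat_lit 0) (nat_lit 1) (nat_lit 0) (nat_lit 427) (nat_lit 381) (nat_lit 272)) (XT.lf (nat_lit 0) (nat_lit 5406175908) (nat_lit 0) (nat_lit 0) (nat_lit 0) (nat_lit 0) (nat_lit 0) (nat_lit 0) (nat_lit 1) (nat_lit 0) (nat_lit 1) (nat_lit 0) (nat_lit 428) (nat_lit 381) (nat_lit 271))) (XT.nd (nat_lit 94) (nat_lit 0) (nat_lit 0) (XT.lf (nat_lit 0) (nat_lit 5406091604) (nat_lit 0) (nat_lit 0) (nat_lit 0) (nat_lit 0) (nat_lit 0) (nat_lit 0) (nat_lit 1) (nat_lit 0) (nat_lit 1) (nat_lit 0) (nat_lit 429) (nat_lit 381) (nat_lit 270)) (XT.lf (nat_lit 0) (nat_lit 5406013544) (nat_lit 0) (nat_lit 0) (nat_lit 0) (nat_lit 0) (nat_lit 0) (nat_lit 0) (nat_lit 1) (nat_lit 0) (nat_lit 1) (nat_lit 0) (nat_lit 430) (nat_lit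 381) (nat_lit 269)))) (XT.nd (nat_lit 188) (nat_lit 0) (nat_lit 0) (XT.nd (nat_lit 94) (nat_lit 0) (nat_lit 0) (XT.lf (nat_lit 0) (nat_lit 5405941266) (nat_lit 0) (nat_lit 0) (nat_lit 0) (nat_lit 0) (nat_lit 0) (nat_lit 0) (nat_lit 1) (nat_lit 0) (nat_lit 1) (nat_lit 0) (nat_lit 431) (nat_lit 381) (nat_lit 268)) (XT.lf (nat_lit 0) (nat_lit 5405874342) (nat_lit 0) (nat_lit 0) (nat_lit 0) (nat_lit 0) (nat_lit 0) (nat_lit 0) (nat_lit 1) (nat_lit 0) (nat_lit 1) (nat_lit 0) (nat_lit 432) (nat_lit 381) (nat_lit 267))) (XT.nd (nat_lit 94) (nat_lit 0) (nat_lit 0) (XT.lf (nat_lit 0) (nat_lit 5405812376) (nat_lit 0) (nat_lit 0) (nat_lit 0) (nat_lit 0) (nat_lit 0) (nat_lit 0) (nat_lit 1) (nat_lit 0) (nat_lit 1) (nat_lit 0) (nat_lit 433) (nat_lit 381) (nat_lit 266)) (XT.nd (nat_lit 94) (nat_lit 0) (nat_lit 0) (XT.lf (nat_lit 0) (nat_lit 5405754999) (nat_lit 0) (nat_lit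 0) (nat_lit 0) (nat_lit 0) (nat_lit 0) (nat_lit 0) (nat_lit 1) (nat_lit 0) (nat_lit 1) (nat_lit 0) (nat_lit 434) (nat_lit 381) (nat_lit 265)) (XT.lf (nat_lit 0) (nat_lit 5405701873) (nat_lit 0) (nat_lit 0) (nat_lit 0) (nat_lit 0) (nat_lit 0) (nat_lit 0) (nat_lit 1) (nat_lit 0) (nat_lit 1) (nat_lit 0) (nat_lit 435) (nat_lit 381) (nat_lit 264))))))) (XT.nd (nat_lit 57246) (nat_lit 0) (nat_lit 6804) (XT.nd (nat_lit 56776) (nat_lit 0) (nat_lit 10332) (XT.nd (nat_lit 56588) (nat_lit 0) (nat_lit 10836) (XT.nd (nat_lit 56494) (nat_lit 0) (nat_lit 10752) (XT.lf (nat_lit 0) (nat_lit 5405652682) (nat_lit 0) (nat_lit 0) (nat_lit 0) (nat_lit 0) (nat_lit 0) (nat_lit 0) (nat_lit 1) (nat_lit 0) (nat_lit 1) (nat_lit 0) (nat_lit 436) (nat_lit 381) (nat_lit 263)) (XT.lf (nat_lit 924) (nat_lit 2921274042) (nat_lit 0) (nat_lit 5186715347) (nat_lit 924) (nat_lit 2921274042) (nat_lit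 139) (nat_lit 1) (nat_lit 128) (nat_lit 0) (nat_lit 139) (nat_lit 0) (nat_lit 316) (nat_lit 382) (nat_lit 382))) (XT.nd (nat_lit 94) (nat_lit 0) (nat_lit 0) (XT.lf (nat_lit 924) (nat_lit 1089724854) (nat_lit 0) (nat_lit 10183094196) (nat_lit 840) (nat_lit 9959032103) (nat_lit 140) (nat_lit 1) (nat_lit 129) (nat_lit 1) (nat_lit 139) (nat_lit 1) (nat_lit 317) (nat_lit 382) (nat_lit 381)) (XT.lf (nat_lit 924) (nat_lit 10008493790) (nat_lit 84) (nat_lit 6819621616) (nat_lit 0) (nat_lit 3616816220) (nat_lit 140) (nat_lit 1) (nat_lit 130) (nat_lit 1) (nat_lit 129) (nat_lit 1) (nat_lit 318) (nat_lit 382) (nat_lit 380)))) (XT.nd (nat_lit 188) (nat_lit 588) (nat_lit 0) (XT.nd (nat_lit 94) (nat_lit 0) (nat_lit 84) (XT.lf (nat_lit 924) (nat_lit 8648158542) (nat_lit 84) (nat_lit 2858056150) (nat_lit 0) (nat_lit 8191176856) (nat_lit 141) (nat_lit 1) (nat_lit 131) (nat_lit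 1) (nat_lit 130) (nat_lit 1) (nat_lit 319) (nat_lit 382) (nat_lit 379)) (XT.lf (nat_lit 924) (nat_lit 6400372562) (nat_lit 0) (nat_lit 11974794531) (nat_lit 840) (nat_lit 612149785) (nat_lit 142) (nat_lit 1) (nat_lit 131) (nat_lit 1) (nat_lit 141) (nat_lit 1) (nat_lit 320) (nat_lit 382) (nat_lit 378))) (XT.nd (nat_lit 94) (nat_lit 756) (nat_lit 0) (XT.lf (nat_lit 924) (nat_lit 1535706642) (nat_lit 0) (nat_lit 13205537698) (nat_lit 840) (nat_lit 3569908906) (nat_lit 143) (nat_lit 1) (nat_lit 132) (nat_lit 1) (nat_lit 142) (nat_lit 1) (nat_lit 321) (nat_lit 382) (nat_lit 377)) (XT.nd (nat_lit 94) (nat_lit 756) (nat_lit 0) (XT.lf (nat_lit 924) (nat_lit 2951003542) (nat_lit 84) (nat_lit 11476687632) (nat_lit 0) (nat_lit 3238862845) (nat_lit 143) (nat_lit 1) (nat_lit 133) (nat_lit 1) (nat_lit 132) (nat_lit 1) (nat_lit 322) (nat_lit 382) (nat_lit 376)) (XT.lf (nat_lit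 924) (nat_lit 606068835) (nat_lit 0) (nat_lit 8579583159) (nat_lit 840) (nat_lit 7867387861) (nat_lit 134) (nat_lit 1) (nat_lit 123) (nat_lit 1) (nat_lit 133) (nat_lit 1) (nat_lit 323) (nat_lit 382) (nat_lit 375)))))) (XT.nd (nat_lit 470) (nat_lit 1764) (nat_lit 0) (XT.nd (nat_lit 188) (nat_lit 756) (nat_lit 0) (XT.nd (nat_lit 94) (nat_lit 420) (nat_lit 0) (XT.lf (nat_lit 84) (nat_lit 4196546867) (nat_lit 0) (nat_lit 1818559048) (nat_lit 588) (nat_lit 10453469080) (nat_lit 117) (nat_lit 1) (nat_lit 116) (nat_lit 1) (nat_lit 123) (nat_lit 1) (nat_lit 324) (nat_lit 382) (nat_lit 374)) (XT.lf (nat_lit 504) (nat_lit 11565154959) (nat_lit 0) (nat_lit 3764707263) (nat_lit 420) (nat_lit 582047004) (nat_lit 117) (nat_lit 1) (nat_lit 111) (nat_lit 1) (nat_lit 116) (nat_lit 1) (nat_lit 325) (nat_lit 382) (nat_lit 373))) (XT.nd (nat_lit 94) (nat_lit 336) (nat_lit 0)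 (XT.lf (nat_lit 504) (nat_lit 8345525950) (nat_lit 0) (nat_lit 1754746272) (nat_lit 420) (nat_lit 5278906869) (nat_lit 112) (nat_lit 1) (nat_lit 106) (nat_lit 1) (nat_lit 111) (nat_lit 1) (nat_lit 326) (nat_lit 382) (nat_lit 372)) (XT.nd (nat_lit 94) (nat_lit 0) (nat_lit 0) (XT.lf (nat_lit 420) (nat_lit 5078146102) (nat_lit 0) (nat_lit 32307730) (nat_lit 336) (nat_lit 9761826050) (nat_lit 107) (nat_lit 1) (nat_lit 102) (nat_lit 1) (nat_lit 106) (nat_lit 1) (nat_lit 327) (nat_lit 382) (nat_lit 371)) (XT.lf (nat_lit 84) (nat_lit 374641620) (nat_lit 0) (nat_lit 12634730790) (nat_lit 420) (nat_lit 1379326532) (nat_lit 103) (nat_lit 1) (nat_lit 102) (nat_lit 1) (nat_lit 107) (nat_lit 1) (nat_lit 328) (nat_lit 382) (nat_lit 370))))) (XT.nd (nat_lit 188) (nat_lit 1008) (nat_lit 0) (XT.nd (nat_lit 94) (nat_lit 336) (nat_lit 0) (XT.lf (nat_lit 84) (nat_lit 9673343804)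 (nat_lit 0) (nat_lit 1604427574) (nat_lit 420) (nat_lit 2645992455) (nat_lit 98) (nat_lit 1) (nat_lit 97) (nat_lit 1) (nat_lit 102) (nat_lit 1) (nat_lit 329) (nat_lit 382) (nat_lit 369)) (XT.lf (nat_lit 84) (nat_lit 4839819034) (nat_lit 0) (nat_lit 4914646471) (nat_lit 420) (nat_lit 3724906423) (nat_lit 94) (nat_lit 1) (nat_lit 93) (nat_lit 1) (nat_lit 98) (nat_lit 1) (nat_lit 330) (nat_lit 382) (nat_lit 368))) (XT.nd (nat_lit 94) (nat_lit 672) (nat_lit 0) (XT.lf (nat_lit 84) (nat_lit 238882735) (nat_lit 0) (nat_lit 8217212586) (nat_lit 420) (nat_lit 4599925189) (nat_lit 90) (nat_lit 1) (nat_lit 89) (nat_lit 1) (nat_lit 94) (nat_lit 1) (nat_lit 331) (nat_lit 382) (nat_lit 367)) (XT.nd (nat_lit 94) (nat_lit 420) (nat_lit 0) (XT.lf (nat_lit 336) (nat_lit 1078780969) (nat_lit 0) (nat_lit 7295279318) (nat_lit 252) (nat_lit 4275201344) (nat_lit 90) (nat_lit 1)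 (nat_lit 86) (nat_lit 1) (nat_lit 89) (nat_lit 1) (nat_lit 332) (nat_lit 382) (nat_lit 366)) (XT.lf (nat_lit 84) (nat_lit 3727478291) (nat_lit 0) (nat_lit 2554836782) (nat_lit 420) (nat_lit 5976991628) (nat_lit 82) (nat_lit 1) (nat_lit 81) (nat_lit 1) (nat_lit 86) (nat_lit 1) (nat_lit 333) (nat_lit 382) (nat_lit 365))))))))
noncomputable def ec83 : XT := (XT.nd (nat_lit 1786) (nat_lit 2604) (nat_lit 0) (XT.nd (nat_lit 846) (nat_lit 1680) (nat_lit 0) (XT.nd (nat_lit 376) (nat_lit 1092) (nat_lit 0) (XT.nd (nat_lit 188) (nat_lit 588) (nat_lit 0) (XT.nd (nat_lit 94) (nat_lit 252) (nat_lit 0) (XT.lf (nat_lit 336) (nat_lit 5771032969) (nat_lit 0) (nat_lit 5421139586) (nat_lit 252) (nat_lit 693899433) (nat_lit 82) (nat_lit 1) (nat_lit 78) (nat_lit 1) (nat_lit 81) (nat_lit 1) (nat_lit 334) (nat_lit 382) (nat_lit 364)) (XT.lf (nat_lit 336) (nat_lit 1849588186) (nat_lit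 0) (nat_lit 4667379190) (nat_lit 252) (nat_lit 5010213413) (nat_lit 79) (nat_lit 1) (nat_lit 75) (nat_lit 1) (nat_lit 78) (nat_lit 1) (nat_lit 335) (nat_lit 382) (nat_lit 363))) (XT.nd (nat_lit 94) (nat_lit 252) (nat_lit 0) (XT.lf (nat_lit 84) (nat_lit 2108083612) (nat_lit 0) (nat_lit 1930133743) (nat_lit 336) (nat_lit 7144977662) (nat_lit 72) (nat_lit 1) (nat_lit 71) (nat_lit 1) (nat_lit 75) (nat_lit 1) (nat_lit 336) (nat_lit 382) (nat_lit 362)) (XT.lf (nat_lit 336) (nat_lit 5245689384) (nat_lit 0) (nat_lit 3490287326) (nat_lit 252) (nat_lit 2115823652) (nat_lit 72) (nat_lit 1) (nat_lit 68) (nat_lit 1) (nat_lit 71) (nat_lit 1) (nat_lit 337) (nat_lit 382) (nat_lit 361)))) (XT.nd (nat_lit 188) (nat_lit 588) (nat_lit 0) (XT.nd (nat_lit 94) (nat_lit 336) (nat_lit 0) (XT.lf (nat_lit 252) (nat_lit 1300414144) (nat_lit 0) (nat_lit 3045021109) (nat_lit 168) (nat_lit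 6188339839) (nat_lit 69) (nat_lit 1) (nat_lit 66) (nat_lit 1) (nat_lit 68) (nat_lit 1) (nat_lit 338) (nat_lit 382) (nat_lit 360)) (XT.lf (nat_lit 84) (nat_lit 220298464) (nat_lit 0) (nat_lit 2465187637) (nat_lit 336) (nat_lit 7542591219) (nat_lit 63) (nat_lit 1) (nat_lit 62) (nat_lit 1) (nat_lit 66) (nat_lit 1) (nat_lit 339) (nat_lit 382) (nat_lit 359))) (XT.nd (nat_lit 94) (nat_lit 420) (nat_lit 0) (XT.lf (nat_lit 252) (nat_lit 3778764893) (nat_lit 0) (nat_lit 2361403878) (nat_lit 168) (nat_lit 3791915033) (nat_lit 63) (nat_lit 1) (nat_lit 60) (nat_lit 1) (nat_lit 62) (nat_lit 1) (nat_lit 340) (nat_lit 382) (nat_lit 358)) (XT.nd (nat_lit 94) (nat_lit 168) (nat_lit 0) (XT.lf (nat_lit 84) (nat_lit 2050199915) (nat_lit 0) (nat_lit 94700019) (nat_lit 252) (nat_lit 7504106492) (nat_lit 58) (nat_lit 1) (nat_lit 57) (nat_lit 1) (nat_lit 60) (nat_lit 1) (nat_lit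 341) (nat_lit 382) (nat_lit 357)) (XT.lf (nat_lit 252) (nat_lit 5604850666) (nat_lit 0) (nat_lit 1942206427) (nat_lit 168) (nat_lit 1827106474) (nat_lit 58) (nat_lit 1) (nat_lit 55) (nat_lit 1) (nat_lit 57) (nat_lit 1) (nat_lit 342) (nat_lit 382) (nat_lit 356)))))) (XT.nd (nat_lit 470) (nat_lit 756) (nat_lit 0) (XT.nd (nat_lit 188) (nat_lit 504) (nat_lit 0) (XT.nd (nat_lit 94) (nat_lit 252) (nat_lit 0) (XT.lf (nat_lit 252) (nat_lit 1741091218) (nat_lit 0) (nat_lit 1805495646) (nat_lit 168) (nat_lit 5563242289) (nat_lit 56) (nat_lit 1) (nat_lit 53) (nat_lit 1) (nat_lit 55) (nat_lit 1) (nat_lit 343) (nat_lit 382) (nat_lit 355)) (XT.lf (nat_lit 252) (nat_lit 6911492270) (nat_lit 0) (nat_lit 1725004547) (nat_lit 168) (nat_lit 218836839) (nat_lit 53) (nat_lit 1) (nat_lit 50) (nat_lit 1) (nat_lit 52) (nat_lit 1) (nat_lit 344) (nat_lit 382) (nat_lit 354))) (XT.nd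 (nat_lit 94) (nat_lit 336) (nat_lit 0) (XT.lf (nat_lit 252) (nat_lit 3093263619) (nat_lit 0) (nat_lit 1646797762) (nat_lit 168) (nat_lit 3867848403) (nat_lit 51) (nat_lit 1) (nat_lit 48) (nat_lit 1) (nat_lit 50) (nat_lit 1) (nat_lit 345) (nat_lit 382) (nat_lit 353)) (XT.nd (nat_lit 94) (nat_lit 168) (nat_lit 0) (XT.lf (nat_lit 84) (nat_lit 1059562217) (nat_lit 0) (nat_lit 582383139) (nat_lit 168) (nat_lit 6728803060) (nat_lit 47) (nat_lit 1) (nat_lit 46) (nat_lit 1) (nat_lit 48) (nat_lit 1) (nat_lit 346) (nat_lit 382) (nat_lit 352)) (XT.lf (nat_lit 252) (nat_lit 4058539764) (nat_lit 0) (nat_lit 1624558983) (nat_lit 168) (nat_lit 2456472843) (nat_lit 47) (nat_lit 1) (nat_lit 44) (nat_lit 1) (nat_lit 46) (nat_lit 1) (nat_lit 347) (nat_lit 382) (nat_lit 351))))) (XT.nd (nat_lit 188) (nat_lit 420) (nat_lit 0) (XT.nd (nat_lit 94) (nat_lit 252) (nat_lit 0) (XT.lf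 (nat_lit 168) (nat_lit 437047061) (nat_lit 0) (nat_lit 1664460251) (nat_lit 84) (nat_lit 5816014015) (nat_lit 45) (nat_lit 1) (nat_lit 43) (nat_lit 1) (nat_lit 44) (nat_lit 1) (nat_lit 348) (nat_lit 382) (nat_lit 350)) (XT.lf (nat_lit 252) (nat_lit 4717761673) (nat_lit 0) (nat_lit 1702298670) (nat_lit 168) (nat_lit 1281533332) (nat_lit 43) (nat_lit 1) (nat_lit 40) (nat_lit 1) (nat_lit 42) (nat_lit 1) (nat_lit 349) (nat_lit 382) (nat_lit 349))) (XT.nd (nat_lit 94) (nat_lit 336) (nat_lit 0) (XT.lf (nat_lit 168) (nat_lit 1186551849) (nat_lit 0) (nat_lit 1765949333) (nat_lit 84) (nat_lit 4540442038) (nat_lit 41) (nat_lit 1) (nat_lit 39) (nat_lit 1) (nat_lit 40) (nat_lit 1) (nat_lit 350) (nat_lit 382) (nat_lit 348)) (XT.nd (nat_lit 94) (nat_lit 84) (nat_lit 0) (XT.lf (nat_lit 252) (nat_lit 5136291151) (nat_lit 0) (nat_lit 1851121591) (nat_lit 168) (nat_lit 303784899)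 (nat_lit 39) (nat_lit 1) (nat_lit 36) (nat_lit 1) (nat_lit 38) (nat_lit 1) (nat_lit 351) (nat_lit 382) (nat_lit 347)) (XT.lf (nat_lit 168) (nat_lit 1707610896) (nat_lit 0) (nat_lit 1929816503) (nat_lit 84) (nat_lit 3457432925) (nat_lit 37) (nat_lit 1) (nat_lit 35) (nat_lit 1) (nat_lit 36) (nat_lit 1) (nat_lit 352) (nat_lit 382) (nat_lit 346))))))) (XT.nd (nat_lit 846) (nat_lit 1260) (nat_lit 0) (XT.nd (nat_lit 376) (nat_lit 672) (nat_lit 0) (XT.nd (nat_lit 188) (nat_lit 336) (nat_lit 0) (XT.nd (nat_lit 94) (nat_lit 84) (nat_lit 0) (XT.lf (nat_lit 84) (nat_lit 492884461) (nat_lit 0) (nat_lit 1547032940) (nat_lit 252) (nat_lit 4865659036) (nat_lit 33) (nat_lit 1) (nat_lit 32) (nat_lit 1) (nat_lit 35) (nat_lit 1) (nat_lit 353) (nat_lit 382) (nat_lit 345)) (XT.lf (nat_lit 168) (nat_lit 2049287141) (nat_lit 0) (nat_lit 2135260067) (nat_lit 84) (nat_lit 2536446092)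 (nat_lit 33) (nat_lit 1) (nat_lit 31) (nat_lit 1) (nat_lit 32) (nat_lit 1) (nat_lit 354) (nat_lit 382) (nat_lit 344))) (XT.nd (nat_lit 94) (nat_lit 84) (nat_lit 0) (XT.lf (nat_lit 84) (nat_lit 1146265731) (nat_lit 0) (nat_lit 1110235871) (nat_lit 252) (nat_lit 4286395264) (nat_lit 29) (nat_lit 1) (nat_lit 28) (nat_lit 1) (nat_lit 31) (nat_lit 1) (nat_lit 355) (nat_lit 382) (nat_lit 343)) (XT.lf (nat_lit 168) (nat_lit 2251146523) (nat_lit 0) (nat_lit 2366041956) (nat_lit 84) (nat_lit 1752162250) (nat_lit 29) (nat_lit 1) (nat_lit 27) (nat_lit 1) (nat_lit 28) (nat_lit 1) (nat_lit 356) (nat_lit 382) (nat_lit 342)))) (XT.nd (nat_lit 188) (nat_lit 420) (nat_lit 0) (XT.nd (nat_lit 94) (nat_lit 84) (nat_lit 0) (XT.lf (nat_lit 84) (nat_lit 1687568219) (nat_lit 0) (nat_lit 804096061) (nat_lit 168) (nat_lit 3709871740) (nat_lit 26) (nat_lit 1) (nat_lit 25) (nat_lit 1)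 (nat_lit 27) (nat_lit 1) (nat_lit 357) (nat_lit 382) (nat_lit 341)) (XT.lf (nat_lit 168) (nat_lit 2345032562) (nat_lit 0) (nat_lit 2609598294) (nat_lit 84) (nat_lit 1083552032) (nat_lit 26) (nat_lit 1) (nat_lit 24) (nat_lit 1) (nat_lit 25) (nat_lit 1) (nat_lit 358) (nat_lit 382) (nat_lit 340))) (XT.nd (nat_lit 94) (nat_lit 252) (nat_lit 0) (XT.lf (nat_lit 84) (nat_lit 2134616890) (nat_lit 0) (nat_lit 599866146) (nat_lit 168) (nat_lit 3145371292) (nat_lit 23) (nat_lit 1) (nat_lit 22) (nat_lit 1) (nat_lit 24) (nat_lit 1) (nat_lit 359) (nat_lit 382) (nat_lit 339)) (XT.nd (nat_lit 94) (nat_lit 168) (nat_lit 0) (XT.lf (nat_lit 168) (nat_lit 2356513342) (nat_lit 0) (nat_lit 2856316549) (nat_lit 84) (nat_lit 513113787) (nat_lit 23) (nat_lit 1) (nat_lit 21) (nat_lit 1) (nat_lit 22) (nat_lit 1) (nat_lit 360) (nat_lit 382) (nat_lit 338)) (XT.lf (nat_lit 84) (nat_lit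 2502226280) (nat_lit 0) (nat_lit 474430574) (nat_lit 168) (nat_lit 2599741521) (nat_lit 20) (nat_lit 1) (nat_lit 19) (nat_lit 1) (nat_lit 21) (nat_lit 1) (nat_lit 361) (nat_lit 382) (nat_lit 337)))))) (XT.nd (nat_lit 470) (nat_lit 672) (nat_lit 0) (XT.nd (nat_lit 188) (nat_lit 336) (nat_lit 0) (XT.nd (nat_lit 94) (nat_lit 168) (nat_lit 0) (XT.lf (nat_lit 168) (nat_lit 2306061118) (nat_lit 0) (nat_lit 3098948494) (nat_lit 84) (nat_lit 26249596) (nat_lit 20) (nat_lit 1) (nat_lit 18) (nat_lit 1) (nat_lit 19) (nat_lit 1) (nat_lit 362) (nat_lit 382) (nat_lit 336)) (XT.lf (nat_lit 84) (nat_lit 2802733368) (nat_lit 0) (nat_lit 409248129) (nat_lit 168) (nat_lit 2077891061) (nat_lit 17) (nat_lit 1) (nat_lit 16) (nat_lit 1) (nat_lit 18) (nat_lit 1) (nat_lit 363) (nat_lit 382) (nat_lit 335))) (XT.nd (nat_lit 94) (nat_lit 252) (nat_lit 0) (XT.lf (nat_lit 0) (nat_lit 376787442)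 (nat_lit 0) (nat_lit 2948965333) (nat_lit 168) (nat_lit 1826845211) (nat_lit 15) (nat_lit 3) (nat_lit 15) (nat_lit 1) (nat_lit 17) (nat_lit 1) (nat_lit 364) (nat_lit 382) (nat_lit 334)) (XT.nd (nat_lit 94) (nat_lit 84) (nat_lit 0) (XT.lf (nat_lit 84) (nat_lit 3046433998) (nat_lit 0) (nat_lit 389490031) (nat_lit 168) (nat_lit 1583191629) (nat_lit 14) (nat_lit 1) (nat_lit 13) (nat_lit 1) (nat_lit 15) (nat_lit 1) (nat_lit 365) (nat_lit 382) (nat_lit 333)) (XT.lf (nat_lit 0) (nat_lit 719803409) (nat_lit 0) (nat_lit 2820020513) (nat_lit 168) (nat_lit 1349364344) (nat_lit 12) (nat_lit 3) (nat_lit 12) (nat_lit 1) (nat_lit 14) (nat_lit 1) (nat_lit 366) (nat_lit 382) (nat_lit 332))))) (XT.nd (nat_lit 188) (nat_lit 420) (nat_lit 0) (XT.nd (nat_lit 94) (nat_lit 84) (nat_lit 0) (XT.lf (nat_lit 84) (nat_lit 3241940453) (nat_lit 0) (nat_lit 403337622) (nat_lit 168) (nat_lit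 1117803340) (nat_lit 11) (nat_lit 1) (nat_lit 10) (nat_lit 1) (nat_lit 12) (nat_lit 1) (nat_lit 367) (nat_lit 382) (nat_lit 331)) (XT.lf (nat_lit 0) (nat_lit 1011963488) (nat_lit 0) (nat_lit 2726818396) (nat_lit 168) (nat_lit 901266072) (nat_lit 9) (nat_lit 3) (nat_lit 9) (nat_lit 1) (nat_lit 11) (nat_lit 1) (nat_lit 368) (nat_lit 382) (nat_lit 330))) (XT.nd (nat_lit 94) (nat_lit 252) (nat_lit 0) (XT.lf (nat_lit 84) (nat_lit 3396474568) (nat_lit 0) (nat_lit 441410270) (nat_lit 168) (nat_lit 682937563) (nat_lit 8) (nat_lit 1) (nat_lit 7) (nat_lit 1) (nat_lit 9) (nat_lit 1) (nat_lit 369) (nat_lit 382) (nat_lit 329)) (XT.nd (nat_lit 94) (nat_lit 168) (nat_lit 0) (XT.lf (nat_lit 0) (nat_lit 1260286521) (nat_lit 0) (nat_lit 2660488125) (nat_lit 168) (nat_lit 483493057) (nat_lit 6) (nat_lit 3) (nat_lit 6) (nat_lit 1) (nat_lit 8) (nat_lit 1) (nat_lit 370) (nat_lit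 382) (nat_lit 328)) (XT.lf (nat_lit 84) (nat_lit 3516108157) (nat_lit 0) (nat_lit 496299525) (nat_lit 168) (nat_lit 279068939) (nat_lit 5) (nat_lit 1) (nat_lit 4) (nat_lit 1) (nat_lit 6) (nat_lit 1) (nat_lit 371) (nat_lit 382) (nat_lit 327))))))))
noncomputable def ec84 : XT := (XT.nd (nat_lit 1692) (nat_lit 0) (nat_lit 0) (XT.nd (nat_lit 846) (nat_lit 0) (nat_lit 0) (XT.nd (nat_lit 376) (nat_lit 0) (nat_lit 0) (XT.nd (nat_lit 188) (nat_lit 0) (nat_lit 0) (XT.nd (nat_lit 94) (nat_lit 252) (nat_lit 0) (XT.lf (nat_lit 0) (nat_lit 1470708778) (nat_lit 0) (nat_lit 2613991817) (nat_lit 168) (nat_lit 96318280) (nat_lit 3) (nat_lit 3) (nat_lit 3) (nat_lit 1) (nat_lit 5) (nat_lit 1) (nat_lit 372) (nat_lit 382) (nat_lit 326)) (XT.lf (nat_lit 0) (nat_lit 5910062856) (nat_lit 0) (nat_lit 0) (nat_lit 0) (nat_lit 0) (nat_lit 0) (nat_lit 0) (nat_lit 1) (nat_lit 0) (nat_lit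 1) (nat_lit 0) (nat_lit 373) (nat_lit 382) (nat_lit 325))) (XT.nd (nat_lit 94) (nat_lit 0) (nat_lit 0) (XT.lf (nat_lit 0) (nat_lit 5904683445) (nat_lit 0) (nat_lit 0) (nat_lit 0) (nat_lit 0) (nat_lit 0) (nat_lit 0) (nat_lit 1) (nat_lit 0) (nat_lit 1) (nat_lit 0) (nat_lit 374) (nat_lit 382) (nat_lit 324)) (XT.lf (nat_lit 0) (nat_lit 5899702510) (nat_lit 0) (nat_lit 0) (nat_lit 0) (nat_lit 0) (nat_lit 0) (nat_lit 0) (nat_lit 1) (nat_lit 0) (nat_lit 1) (nat_lit 0) (nat_lit 375) (nat_lit 382) (nat_lit 323)))) (XT.nd (nat_lit 188) (nat_lit 0) (nat_lit 0) (XT.nd (nat_lit 94) (nat_lit 0) (nat_lit 0) (XT.lf (nat_lit 0) (nat_lit 5895090533) (nat_lit 0) (nat_lit 0) (nat_lit 0) (nat_lit 0) (nat_lit 0) (nat_lit 0) (nat_lit 1) (nat_lit 0) (nat_lit 1) (nat_lit 0) (nat_lit 376) (nat_lit 382) (nat_lit 322)) (XT.lf (nat_lit 0) (nat_lit 5890820184) (nat_lit 0) (nat_lit 0) (nat_lit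 0) (nat_lit 0) (nat_lit 0) (nat_lit 0) (nat_lit 1) (nat_lit 0) (nat_lit 1) (nat_lit 0) (nat_lit 377) (nat_lit 382) (nat_lit 321))) (XT.nd (nat_lit 94) (nat_lit 0) (nat_lit 0) (XT.lf (nat_lit 0) (nat_lit 5886866157) (nat_lit 0) (nat_lit 0) (nat_lit 0) (nat_lit 0) (nat_lit 0) (nat_lit 0) (nat_lit 1) (nat_lit 0) (nat_lit 1) (nat_lit 0) (nat_lit 378) (nat_lit 382) (nat_lit 320)) (XT.nd (nat_lit 94) (nat_lit 0) (nat_lit 0) (XT.lf (nat_lit 0) (nat_lit 5883205020) (nat_lit 0) (nat_lit 0) (nat_lit 0) (nat_lit 0) (nat_lit 0) (nat_lit 0) (nat_lit 1) (nat_lit 0) (nat_lit 1) (nat_lit 0) (nat_lit 379) (nat_lit 382) (nat_lit 319)) (XT.lf (nat_lit 0) (nat_lit 5879815080) (nat_lit 0) (nat_lit 0) (nat_lit 0) (nat_lit 0) (nat_lit 0) (nat_lit 0) (nat_lit 1) (nat_lit 0) (nat_lit 1) (nat_lit 0) (nat_lit 380) (nat_lit 382) (nat_lit 318)))))) (XT.nd (nat_lit 376) (nat_lit 0) (nat_lit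 0) (XT.nd (nat_lit 188) (nat_lit 0) (nat_lit 0) (XT.nd (nat_lit 94) (nat_lit 0) (nat_lit 0) (XT.lf (nat_lit 0) (nat_lit 5876676245) (nat_lit 0) (nat_lit 0) (nat_lit 0) (nat_lit 0) (nat_lit 0) (nat_lit 0) (nat_lit 1) (nat_lit 0) (nat_lit 1) (nat_lit 0) (nat_lit 381) (nat_lit 382) (nat_lit 317)) (XT.lf (nat_lit 0) (nat_lit 5873769917) (nat_lit 0) (nat_lit 0) (nat_lit 0) (nat_lit 0) (nat_lit 0) (nat_lit 0) (nat_lit 1) (nat_lit 0) (nat_lit 1) (nat_lit 0) (nat_lit 382) (nat_lit 382) (nat_lit 316))) (XT.nd (nat_lit 94) (nat_lit 0) (nat_lit 0) (XT.lf (nat_lit 0) (nat_lit 5871078873) (nat_lit 0) (nat_lit 0) (nat_lit 0) (nat_lit 0) (nat_lit 0) (nat_lit 0) (nat_lit 1) (nat_lit 0) (nat_lit 1) (nat_lit 0) (nat_lit 383) (nat_lit 382) (nat_lit 315)) (XT.lf (nat_lit 0) (nat_lit 5868587165) (nat_lit 0) (nat_lit 0) (nat_lit 0) (nat_lit 0) (nat_lit 0) (nat_lit 0) (nat_lit 1)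 (nat_lit 0) (nat_lit 1) (nat_lit 0) (nat_lit 384) (nat_lit 382) (nat_lit 314)))) (XT.nd (nat_lit 188) (nat_lit 0) (nat_lit 0) (XT.nd (nat_lit 94) (nat_lit 0) (nat_lit 0) (XT.lf (nat_lit 0) (nat_lit 5866280028) (nat_lit 0) (nat_lit 0) (nat_lit 0) (nat_lit 0) (nat_lit 0) (nat_lit 0) (nat_lit 1) (nat_lit 0) (nat_lit 1) (nat_lit 0) (nat_lit 385) (nat_lit 382) (nat_lit 313)) (XT.lf (nat_lit 0) (nat_lit 5864143791) (nat_lit 0) (nat_lit 0) (nat_lit 0) (nat_lit 0) (nat_lit 0) (nat_lit 0) (nat_lit 1) (nat_lit 0) (nat_lit 1) (nat_lit 0) (nat_lit 386) (nat_lit 382) (nat_lit 312))) (XT.nd (nat_lit 94) (nat_lit 0) (nat_lit 0) (XT.lf (nat_lit 0) (nat_lit 5862165793) (nat_lit 0) (nat_lit 0) (nat_lit 0) (nat_lit 0) (nat_lit 0) (nat_lit 0) (nat_lit 1) (nat_lit 0) (nat_lit 1) (nat_lit 0) (nat_lit 387) (nat_lit 382) (nat_lit 311)) (XT.nd (nat_lit 94) (nat_lit 0) (nat_lit 0)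 (XT.lf (nat_lit 0) (nat_lit 5860334313) (nat_lit 0) (nat_lit 0) (nat_lit 0) (nat_lit 0) (nat_lit 0) (nat_lit 0) (nat_lit 1) (nat_lit 0) (nat_lit 1) (nat_lit 0) (nat_lit 388) (nat_lit 382) (nat_lit 310)) (XT.lf (nat_lit 0) (nat_lit 5858638499) (nat_lit 0) (nat_lit 0) (nat_lit 0) (nat_lit 0) (nat_lit 0) (nat_lit 0) (nat_lit 1) (nat_lit 0) (nat_lit 1) (nat_lit 0) (nat_lit 389) (nat_lit 382) (nat_lit 309))))))) (XT.nd (nat_lit 846) (nat_lit 0) (nat_lit 0) (XT.nd (nat_lit 376) (nat_lit 0) (nat_lit 0) (XT.nd (nat_lit 188) (nat_lit 0) (nat_lit 0) (XT.nd (nat_lit 94) (nat_lit 0) (nat_lit 0) (XT.lf (nat_lit 0) (nat_lit 5857068300) (nat_lit 0) (nat_lit 0) (nat_lit 0) (nat_lit 0) (nat_lit 0) (nat_lit 0) (nat_lit 1) (nat_lit 0) (nat_lit 1) (nat_lit 0) (nat_lit 390) (nat_lit 382) (nat_lit 308)) (XT.lf (nat_lit 0) (nat_lit 5855614413) (nat_lit 0) (nat_lit 0) (nat_lit 0)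 (nat_lit 0) (nat_lit 0) (nat_lit 0) (nat_lit 1) (nat_lit 0) (nat_lit 1) (nat_lit 0) (nat_lit 391) (nat_lit 382) (nat_lit 307))) (XT.nd (nat_lit 94) (nat_lit 0) (nat_lit 0) (XT.lf (nat_lit 0) (nat_lit 5854268220) (nat_lit 0) (nat_lit 0) (nat_lit 0) (nat_lit 0) (nat_lit 0) (nat_lit 0) (nat_lit 1) (nat_lit 0) (nat_lit 1) (nat_lit 0) (nat_lit 392) (nat_lit 382) (nat_lit 306)) (XT.lf (nat_lit 0) (nat_lit 5853021746) (nat_lit 0) (nat_lit 0) (nat_lit 0) (nat_lit 0) (nat_lit 0) (nat_lit 0) (nat_lit 1) (nat_lit 0) (nat_lit 1) (nat_lit 0) (nat_lit 393) (nat_lit 382) (nat_lit 305)))) (XT.nd (nat_lit 188) (nat_lit 0) (nat_lit 0) (XT.nd (nat_lit 94) (nat_lit 0) (nat_lit 0) (XT.lf (nat_lit 0) (nat_lit 5851867603) (nat_lit 0) (nat_lit 0) (nat_lit 0) (nat_lit 0) (nat_lit 0) (nat_lit 0) (nat_lit 1) (nat_lit 0) (nat_lit 1) (nat_lit 0) (nat_lit 394) (nat_lit 382) (nat_lit 304))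 (XT.lf (nat_lit 0) (nat_lit 5850798953) (nat_lit 0) (nat_lit 0) (nat_lit 0) (nat_lit 0) (nat_lit 0) (nat_lit 0) (nat_lit 1) (nat_lit 0) (nat_lit 1) (nat_lit 0) (nat_lit 395) (nat_lit 382) (nat_lit 303))) (XT.nd (nat_lit 94) (nat_lit 0) (nat_lit 0) (XT.lf (nat_lit 0) (nat_lit 5849809461) (nat_lit 0) (nat_lit 0) (nat_lit 0) (nat_lit 0) (nat_lit 0) (nat_lit 0) (nat_lit 1) (nat_lit 0) (nat_lit 1) (nat_lit 0) (nat_lit 396) (nat_lit 382) (nat_lit 302)) (XT.nd (nat_lit 94) (nat_lit 0) (nat_lit 0) (XT.lf (nat_lit 0) (nat_lit 5848893265) (nat_lit 0) (nat_lit 0) (nat_lit 0) (nat_lit 0) (nat_lit 0) (nat_lit 0) (nat_lit 1) (nat_lit 0) (nat_lit 1) (nat_lit 0) (nat_lit 397) (nat_lit 382) (nat_lit 301)) (XT.lf (nat_lit 0) (nat_lit 5848044936) (nat_lit 0) (nat_lit 0) (nat_lit 0) (nat_lit 0) (nat_lit 0) (nat_lit 0) (nat_lit 1) (nat_lit 0) (nat_lit 1) (nat_lit 0) (nat_lit 398)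 (nat_lit 382) (nat_lit 300)))))) (XT.nd (nat_lit 470) (nat_lit 0) (nat_lit 0) (XT.nd (nat_lit 188) (nat_lit 0) (nat_lit 0) (XT.nd (nat_lit 94) (nat_lit 0) (nat_lit 0) (XT.lf (nat_lit 0) (nat_lit 5847259446) (nat_lit 0) (nat_lit 0) (nat_lit 0) (nat_lit 0) (nat_lit 0) (nat_lit 0) (nat_lit 1) (nat_lit 0) (nat_lit 1) (nat_lit 0) (nat_lit 399) (nat_lit 382) (nat_lit 299)) (XT.lf (nat_lit 0) (nat_lit 5846532140) (nat_lit 0) (nat_lit 0) (nat_lit 0) (nat_lit 0) (nat_lit 0) (nat_lit 0) (nat_lit 1) (nat_lit 0) (nat_lit 1) (nat_lit 0) (nat_lit 400) (nat_lit 382) (nat_lit 298))) (XT.nd (nat_lit 94) (nat_lit 0) (nat_lit 0) (XT.lf (nat_lit 0) (nat_lit 5845858709) (nat_lit 0) (nat_lit 0) (nat_lit 0) (nat_lit 0) (nat_lit 0) (nat_lit 0) (nat_lit 1) (nat_lit 0) (nat_lit 1) (nat_lit 0) (nat_lit 401) (nat_lit 382) (nat_lit 297)) (XT.nd (nat_lit 94) (nat_lit 0) (nat_lit 0) (XT.lf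 (nat_lit 0) (nat_lit 5845235161) (nat_lit 0) (nat_lit 0) (nat_lit 0) (nat_lit 0) (nat_lit 0) (nat_lit 0) (nat_lit 1) (nat_lit 0) (nat_lit 1) (nat_lit 0) (nat_lit 402) (nat_lit 382) (nat_lit 296)) (XT.lf (nat_lit 0) (nat_lit 5844657803) (nat_lit 0) (nat_lit 0) (nat_lit 0) (nat_lit 0) (nat_lit 0) (nat_lit 0) (nat_lit 1) (nat_lit 0) (nat_lit 1) (nat_lit 0) (nat_lit 403) (nat_lit 382) (nat_lit 295))))) (XT.nd (nat_lit 188) (nat_lit 0) (nat_lit 0) (XT.nd (nat_lit 94) (nat_lit 0) (nat_lit 0) (XT.lf (nat_lit 0) (nat_lit 5844123211) (nat_lit 0) (nat_lit 0) (nat_lit 0) (nat_lit 0) (nat_lit 0) (nat_lit 0) (nat_lit 1) (nat_lit 0) (nat_lit 1) (nat_lit 0) (nat_lit 404) (nat_lit 382) (nat_lit 294)) (XT.lf (nat_lit 0) (nat_lit 5843628219) (nat_lit 0) (nat_lit 0) (nat_lit 0) (nat_lit 0) (nat_lit 0) (nat_lit 0) (nat_lit 1) (nat_lit 0) (nat_lit 1) (nat_lit 0) (nat_lit 405)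 (nat_lit 382) (nat_lit 293))) (XT.nd (nat_lit 94) (nat_lit 0) (nat_lit 0) (XT.lf (nat_lit 0) (nat_lit 5843169893) (nat_lit 0) (nat_lit 0) (nat_lit 0) (nat_lit 0) (nat_lit 0) (nat_lit 0) (nat_lit 1) (nat_lit 0) (nat_lit 1) (nat_lit 0) (nat_lit 406) (nat_lit 382) (nat_lit 292)) (XT.nd (nat_lit 94) (nat_lit 0) (nat_lit 0) (XT.lf (nat_lit 0) (nat_lit 5842745517) (nat_lit 0) (nat_lit 0) (nat_lit 0) (nat_lit 0) (nat_lit 0) (nat_lit 0) (nat_lit 1) (nat_lit 0) (nat_lit 1) (nat_lit 0) (nat_lit 407) (nat_lit 382) (nat_lit 291)) (XT.lf (nat_lit 0) (nat_lit 5842352577) (nat_lit 0) (nat_lit 0) (nat_lit 0) (nat_lit 0) (nat_lit 0) (nat_lit 0) (nat_lit 1) (nat_lit 0) (nat_lit 1) (nat_lit 0) (nat_lit 408) (nat_lit 382) (nat_lit 290))))))))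
noncomputable def ec85 : XT := (XT.nd (nat_lit 1786) (nat_lit 0) (nat_lit 0) (XT.nd (nat_lit 846) (nat_lit 0) (nat_lit 0) (XT.nd (nat_lit 376) (nat_lit 0) (nat_lit 0) (XT.nd (nat_lit 188) (nat_lit 0) (nat_lit 0) (XT.nd (nat_lit 94) (nat_lit 0) (nat_lit 0) (XT.lf (nat_lit 0) (nat_lit 5841988743) (nat_lit 0) (nat_lit 0) (nat_lit 0) (nat_lit 0) (nat_lit 0) (nat_lit 0) (nat_lit 1) (nat_lit 0) (nat_lit 1) (nat_lit 0) (nat_lit 409) (nat_lit 382) (nat_lit 289)) (XT.lf (nat_lit 0) (nat_lit 5841651859) (nat_lit 0) (nat_lit 0) (nat_lit 0) (nat_lit 0) (nat_lit 0) (nat_lit 0) (nat_lit 1) (nat_lit 0) (nat_lit 1) (nat_lit 0) (nat_lit 410) (nat_lit 382) (nat_lit 288))) (XT.nd (nat_lit 94) (nat_lit 0) (nat_lit 0) (XT.lf (nat_lit 0) (nat_lit 5841339930) (nat_lit 0) (nat_lit 0) (nat_lit 0) (nat_lit 0) (nat_lit 0) (nat_lit 0) (nat_lit 1) (nat_lit 0) (nat_lit 1) (nat_lit 0) (nat_lit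 411) (nat_lit 382) (nat_lit 287)) (XT.lf (nat_lit 0) (nat_lit 5841051107) (nat_lit 0) (nat_lit 0) (nat_lit 0) (nat_lit 0) (nat_lit 0) (nat_lit 0) (nat_lit 1) (nat_lit 0) (nat_lit 1) (nat_lit 0) (nat_lit 412) (nat_lit 382) (nat_lit 286)))) (XT.nd (nat_lit 188) (nat_lit 0) (nat_lit 0) (XT.nd (nat_lit 94) (nat_lit 0) (nat_lit 0) (XT.lf (nat_lit 0) (nat_lit 5840783678) (nat_lit 0) (nat_lit 0) (nat_lit 0) (nat_lit 0) (nat_lit 0) (nat_lit 0) (nat_lit 1) (nat_lit 0) (nat_lit 1) (nat_lit 0) (nat_lit 413) (nat_lit 382) (nat_lit 285)) (XT.lf (nat_lit 0) (nat_lit 5840536059) (nat_lit 0) (nat_lit 0) (nat_lit 0) (nat_lit 0) (nat_lit 0) (nat_lit 0) (nat_lit 1) (nat_lit 0) (nat_lit 1) (nat_lit 0) (nat_lit 414) (nat_lit 382) (nat_lit 284))) (XT.nd (nat_lit 94) (nat_lit 0) (nat_lit 0) (XT.lf (nat_lit 0) (nat_lit 5840306782) (nat_lit 0) (nat_lit 0) (nat_lit 0) (nat_lit 0) (nat_lit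 0) (nat_lit 0) (nat_lit 1) (nat_lit 0) (nat_lit 1) (nat_lit 0) (nat_lit 415) (nat_lit 382) (nat_lit 283)) (XT.nd (nat_lit 94) (nat_lit 0) (nat_lit 0) (XT.lf (nat_lit 0) (nat_lit 5840094488) (nat_lit 0) (nat_lit 0) (nat_lit 0) (nat_lit 0) (nat_lit 0) (nat_lit 0) (nat_lit 1) (nat_lit 0) (nat_lit 1) (nat_lit 0) (nat_lit 416) (nat_lit 382) (nat_lit 282)) (XT.lf (nat_lit 0) (nat_lit 5839897920) (nat_lit 0) (nat_lit 0) (nat_lit 0) (nat_lit 0) (nat_lit 0) (nat_lit 0) (nat_lit 1) (nat_lit 0) (nat_lit 1) (nat_lit 0) (nat_lit 417) (nat_lit 382) (nat_lit 281)))))) (XT.nd (nat_lit 470) (nat_lit 0) (nat_lit 0) (XT.nd (nat_lit 188) (nat_lit 0) (nat_lit 0) (XT.nd (nat_lit 94) (nat_lit 0) (nat_lit 0) (XT.lf (nat_lit 0) (nat_lit 5839715913) (nat_lit 0) (nat_lit 0) (nat_lit 0) (nat_lit 0) (nat_lit 0) (nat_lit 0) (nat_lit 1) (nat_lit 0) (nat_lit 1) (nat_lit 0) (nat_lit 418)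 (nat_lit 382) (nat_lit 280)) (XT.lf (nat_lit 0) (nat_lit 5839547387) (nat_lit 0) (nat_lit 0) (nat_lit 0) (nat_lit 0) (nat_lit 0) (nat_lit 0) (nat_lit 1) (nat_lit 0) (nat_lit 1) (nat_lit 0) (nat_lit 419) (nat_lit 382) (nat_lit 279))) (XT.nd (nat_lit 94) (nat_lit 0) (nat_lit 0) (XT.lf (nat_lit 0) (nat_lit 5839391345) (nat_lit 0) (nat_lit 0) (nat_lit 0) (nat_lit 0) (nat_lit 0) (nat_lit 0) (nat_lit 1) (nat_lit 0) (nat_lit 1) (nat_lit 0) (nat_lit 420) (nat_lit 382) (nat_lit 278)) (XT.nd (nat_lit 94) (nat_lit 0) (nat_lit 0) (XT.lf (nat_lit 0) (nat_lit 5839246862) (nat_lit 0) (nat_lit 0) (nat_lit 0) (nat_lit 0) (nat_lit 0) (nat_lit 0) (nat_lit 1) (nat_lit 0) (nat_lit 1) (nat_lit 0) (nat_lit 421) (nat_lit 382) (nat_lit 277)) (XT.lf (nat_lit 0) (nat_lit 5839113081) (nat_lit 0) (nat_lit 0) (nat_lit 0) (nat_lit 0) (nat_lit 0) (nat_lit 0) (nat_lit 1) (nat_lit 0) (nat_lit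 1) (nat_lit 0) (nat_lit 422) (nat_lit 382) (nat_lit 276))))) (XT.nd (nat_lit 188) (nat_lit 0) (nat_lit 0) (XT.nd (nat_lit 94) (nat_lit 0) (nat_lit 0) (XT.lf (nat_lit 0) (nat_lit 5838989209) (nat_lit 0) (nat_lit 0) (nat_lit 0) (nat_lit 0) (nat_lit 0) (nat_lit 0) (nat_lit 1) (nat_lit 0) (nat_lit 1) (nat_lit 0) (nat_lit 423) (nat_lit 382) (nat_lit 275)) (XT.lf (nat_lit 0) (nat_lit 5838874514) (nat_lit 0) (nat_lit 0) (nat_lit 0) (nat_lit 0) (nat_lit 0) (nat_lit 0) (nat_lit 1) (nat_lit 0) (nat_lit 1) (nat_lit 0) (nat_lit 424) (nat_lit 382) (nat_lit 274))) (XT.nd (nat_lit 94) (nat_lit 0) (nat_lit 0) (XT.lf (nat_lit 0) (nat_lit 5838768314) (nat_lit 0) (nat_lit 0) (nat_lit 0) (nat_lit 0) (nat_lit 0) (nat_lit 0) (nat_lit 1) (nat_lit 0) (nat_lit 1) (nat_lit 0) (nat_lit 425) (nat_lit 382) (nat_lit 273)) (XT.nd (nat_lit 94) (nat_lit 0) (nat_lit 0) (XT.lf (nat_lit 0) (nat_lit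 5838669981) (nat_lit 0) (nat_lit 0) (nat_lit 0) (nat_lit 0) (nat_lit 0) (nat_lit 0) (nat_lit 1) (nat_lit 0) (nat_lit 1) (nat_lit 0) (nat_lit 426) (nat_lit 382) (nat_lit 272)) (XT.lf (nat_lit 0) (nat_lit 5838578932) (nat_lit 0) (nat_lit 0) (nat_lit 0) (nat_lit 0) (nat_lit 0) (nat_lit 0) (nat_lit 1) (nat_lit 0) (nat_lit 1) (nat_lit 0) (nat_lit 427) (nat_lit 382) (nat_lit 271))))))) (XT.nd (nat_lit 57058) (nat_lit 0) (nat_lit 9324) (XT.nd (nat_lit 376) (nat_lit 0) (nat_lit 0) (XT.nd (nat_lit 188) (nat_lit 0) (nat_lit 0) (XT.nd (nat_lit 94) (nat_lit 0) (nat_lit 0) (XT.lf (nat_lit 0) (nat_lit 5838494627) (nat_lit 0) (nat_lit 0) (nat_lit 0) (nat_lit 0) (nat_lit 0) (nat_lit 0) (nat_lit 1) (nat_lit 0) (nat_lit 1) (nat_lit 0) (nat_lit 428) (nat_lit 382) (nat_lit 270)) (XT.lf (nat_lit 0) (nat_lit 5838416567) (nat_lit 0) (nat_lit 0) (nat_lit 0) (nat_lit 0) (nat_lit 0)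 (nat_lit 0) (nat_lit 1) (nat_lit 0) (nat_lit 1) (nat_lit 0) (nat_lit 429) (nat_lit 382) (nat_lit 269))) (XT.nd (nat_lit 94) (nat_lit 0) (nat_lit 0) (XT.lf (nat_lit 0) (nat_lit 5838344290) (nat_lit 0) (nat_lit 0) (nat_lit 0) (nat_lit 0) (nat_lit 0) (nat_lit 0) (nat_lit 1) (nat_lit 0) (nat_lit 1) (nat_lit 0) (nat_lit 430) (nat_lit 382) (nat_lit 268)) (XT.lf (nat_lit 0) (nat_lit 5838277366) (nat_lit 0) (nat_lit 0) (nat_lit 0) (nat_lit 0) (nat_lit 0) (nat_lit 0) (nat_lit 1) (nat_lit 0) (nat_lit 1) (nat_lit 0) (nat_lit 431) (nat_lit 382) (nat_lit 267)))) (XT.nd (nat_lit 188) (nat_lit 0) (nat_lit 0) (XT.nd (nat_lit 94) (nat_lit 0) (nat_lit 0) (XT.lf (nat_lit 0) (nat_lit 5838215399) (nat_lit 0) (nat_lit 0) (nat_lit 0) (nat_lit 0) (nat_lit 0) (nat_lit 0) (nat_lit 1) (nat_lit 0) (nat_lit 1) (nat_lit 0) (nat_lit 432) (nat_lit 382) (nat_lit 266)) (XT.lf (nat_lit 0) (nat_lit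 5838158023) (nat_lit 0) (nat_lit 0) (nat_lit 0) (nat_lit 0) (nat_lit 0) (nat_lit 0) (nat_lit 1) (nat_lit 0) (nat_lit 1) (nat_lit 0) (nat_lit 433) (nat_lit 382) (nat_lit 265))) (XT.nd (nat_lit 94) (nat_lit 0) (nat_lit 0) (XT.lf (nat_lit 0) (nat_lit 5838104897) (nat_lit 0) (nat_lit 0) (nat_lit 0) (nat_lit 0) (nat_lit 0) (nat_lit 0) (nat_lit 1) (nat_lit 0) (nat_lit 1) (nat_lit 0) (nat_lit 434) (nat_lit 382) (nat_lit 264)) (XT.nd (nat_lit 94) (nat_lit 0) (nat_lit 0) (XT.lf (nat_lit 0) (nat_lit 5838055706) (nat_lit 0) (nat_lit 0) (nat_lit 0) (nat_lit 0) (nat_lit 0) (nat_lit 0) (nat_lit 1) (nat_lit 0) (nat_lit 1) (nat_lit 0) (nat_lit 435) (nat_lit 382) (nat_lit 263)) (XT.lf (nat_lit 0) (nat_lit 5838010158) (nat_lit 0) (nat_lit 0) (nat_lit 0) (nat_lit 0) (nat_lit 0) (nat_lit 0) (nat_lit 1) (nat_lit 0) (nat_lit 1) (nat_lit 0) (nat_lit 436) (nat_lit 382) (nat_lit 262))))))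 (XT.nd (nat_lit 470) (nat_lit 1428) (nat_lit 0) (XT.nd (nat_lit 188) (nat_lit 0) (nat_lit 84) (XT.nd (nat_lit 94) (nat_lit 0) (nat_lit 84) (XT.lf (nat_lit 924) (nat_lit 3154975965) (nat_lit 0) (nat_lit 5601652574) (nat_lit 924) (nat_lit 3154975965) (nat_lit 139) (nat_lit 1) (nat_lit 128) (nat_lit 0) (nat_lit 139) (nat_lit 0) (nat_lit 314) (nat_lit 383) (nat_lit 383)) (XT.lf (nat_lit 924) (nat_lit 1176902842) (nat_lit 0) (nat_lit 10997741732) (nat_lit 840) (nat_lit 10755754671) (nat_lit 140) (nat_lit 1) (nat_lit 129) (nat_lit 1) (nat_lit 139) (nat_lit 1) (nat_lit 315) (nat_lit 383) (nat_lit 382))) (XT.nd (nat_lit 94) (nat_lit 0) (nat_lit 84) (XT.lf (nat_lit 924) (nat_lit 10809173293) (nat_lit 84) (nat_lit 7365191345) (nat_lit 0) (nat_lit 3906161518) (nat_lit 140) (nat_lit 1) (nat_lit 130) (nat_lit 1) (nat_lit 129) (nat_lit 1) (nat_lit 316) (nat_lit 383) (nat_lit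 381)) (XT.nd (nat_lit 94) (nat_lit 0) (nat_lit 84) (XT.lf (nat_lit 924) (nat_lit 9340011226) (nat_lit 84) (nat_lit 3086700642) (nat_lit 0) (nat_lit 8846471004) (nat_lit 141) (nat_lit 1) (nat_lit 131) (nat_lit 1) (nat_lit 130) (nat_lit 1) (nat_lit 317) (nat_lit 383) (nat_lit 380)) (XT.lf (nat_lit 924) (nat_lit 6912402367) (nat_lit 0) (nat_lit 12932778094) (nat_lit 840) (nat_lit 661121768) (nat_lit 142) (nat_lit 1) (nat_lit 131) (nat_lit 1) (nat_lit 141) (nat_lit 1) (nat_lit 318) (nat_lit 383) (nat_lit 379))))) (XT.nd (nat_lit 188) (nat_lit 1764) (nat_lit 0) (XT.nd (nat_lit 94) (nat_lit 0) (nat_lit 0) (XT.lf (nat_lit 924) (nat_lit 1658563173) (nat_lit 0) (nat_lit 14261980714) (nat_lit 840) (nat_lit 3855501618) (nat_lit 143) (nat_lit 1) (nat_lit 132) (nat_lit 1) (nat_lit 142) (nat_lit 1) (nat_lit 319) (nat_lit 383) (nat_lit 378)) (XT.lf (nat_lit 924) (nat_lit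 3187083825) (nat_lit 84) (nat_lit 12394822643) (nat_lit 0) (nat_lit 3497971873) (nat_lit 143) (nat_lit 1) (nat_lit 133) (nat_lit 1) (nat_lit 132) (nat_lit 1) (nat_lit 320) (nat_lit 383) (nat_lit 377))) (XT.nd (nat_lit 94) (nat_lit 1008) (nat_lit 0) (XT.lf (nat_lit 924) (nat_lit 654554342) (nat_lit 0) (nat_lit 9265949812) (nat_lit 840) (nat_lit 8496778890) (nat_lit 134) (nat_lit 1) (nat_lit 123) (nat_lit 1) (nat_lit 133) (nat_lit 1) (nat_lit 321) (nat_lit 383) (nat_lit 376)) (XT.nd (nat_lit 94) (nat_lit 420) (nat_lit 0) (XT.lf (nat_lit 84) (nat_lit 4532270616) (nat_lit 0) (nat_lit 1964043772) (nat_lit 588) (nat_lit 11289746606) (nat_lit 117) (nat_lit 1) (nat_lit 116) (nat_lit 1) (nat_lit 123) (nat_lit 1) (nat_lit 322) (nat_lit 383) (nat_lit 375)) (XT.lf (nat_lit 504) (nat_lit 12490367356) (nat_lit 0) (nat_lit 4065883845) (nat_lit 420) (nat_lit 628610765) (nat_lit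 117) (nat_lit 1) (nat_lit 111) (nat_lit 1) (nat_lit 116) (nat_lit 1) (nat_lit 323) (nat_lit 383) (nat_lit 374))))))))
noncomputable def ec86 : XT := (XT.nd (nat_lit 1692) (nat_lit 2940) (nat_lit 0) (XT.nd (nat_lit 846) (nat_lit 2100) (nat_lit 0) (XT.nd (nat_lit 376) (nat_lit 1596) (nat_lit 0) (XT.nd (nat_lit 188) (nat_lit 420) (nat_lit 0) (XT.nd (nat_lit 94) (nat_lit 336) (nat_lit 0) (XT.lf (nat_lit 504) (nat_lit 9013168026) (nat_lit 0) (nat_lit 1895125974) (nat_lit 420) (nat_lit 5701219419) (nat_lit 112) (nat_lit 1) (nat_lit 106) (nat_lit 1) (nat_lit 111) (nat_lit 1) (nat_lit 324) (nat_lit 383) (nat_lit 373)) (XT.lf (nat_lit 420) (nat_lit 5484397790) (nat_lit 0) (nat_lit 34892348) (nat_lit 336) (nat_lit 10542772134) (nat_lit 107) (nat_lit 1) (nat_lit 102) (nat_lit 1) (nat_lit 106) (nat_lit 1) (nat_lit 325) (nat_lit 383) (nat_lit 372))) (XT.nd (nat_lit 94)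 (nat_lit 420) (nat_lit 0) (XT.lf (nat_lit 84) (nat_lit 404612949) (nat_lit 0) (nat_lit 13645509253) (nat_lit 420) (nat_lit 1489672655) (nat_lit 103) (nat_lit 1) (nat_lit 102) (nat_lit 1) (nat_lit 107) (nat_lit 1) (nat_lit 326) (nat_lit 383) (nat_lit 371)) (XT.lf (nat_lit 84) (nat_lit 10447211308) (nat_lit 0) (nat_lit 1732781779) (nat_lit 420) (nat_lit 2857671852) (nat_lit 98) (nat_lit 1) (nat_lit 97) (nat_lit 1) (nat_lit 102) (nat_lit 1) (nat_lit 327) (nat_lit 383) (nat_lit 370)))) (XT.nd (nat_lit 188) (nat_lit 924) (nat_lit 0) (XT.nd (nat_lit 94) (nat_lit 336) (nat_lit 0) (XT.lf (nat_lit 84) (nat_lit 5227004556) (nat_lit 0) (nat_lit 5307818189) (nat_lit 420) (nat_lit 4022898937) (nat_lit 94) (nat_lit 1) (nat_lit 93) (nat_lit 1) (nat_lit 98) (nat_lit 1) (nat_lit 328) (nat_lit 383) (nat_lit 369)) (XT.lf (nat_lit 84) (nat_lit 257993354) (nat_lit 0) (nat_lit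 8874589593) (nat_lit 420) (nat_lit 4967919204) (nat_lit 90) (nat_lit 1) (nat_lit 89) (nat_lit 1) (nat_lit 94) (nat_lit 1) (nat_lit 329) (nat_lit 383) (nat_lit 368))) (XT.nd (nat_lit 94) (nat_lit 672) (nat_lit 0) (XT.lf (nat_lit 336) (nat_lit 1165083447) (nat_lit 0) (nat_lit 7878901664) (nat_lit 252) (nat_lit 4617217452) (nat_lit 90) (nat_lit 1) (nat_lit 86) (nat_lit 1) (nat_lit 89) (nat_lit 1) (nat_lit 330) (nat_lit 383) (nat_lit 367)) (XT.nd (nat_lit 94) (nat_lit 252) (nat_lit 0) (XT.lf (nat_lit 84) (nat_lit 4025676554) (nat_lit 0) (nat_lit 2759223724) (nat_lit 420) (nat_lit 6455150959) (nat_lit 82) (nat_lit 1) (nat_lit 81) (nat_lit 1) (nat_lit 86) (nat_lit 1) (nat_lit 331) (nat_lit 383) (nat_lit 366)) (XT.lf (nat_lit 336) (nat_lit 6232715607) (nat_lit 0) (nat_lit 5854830753) (nat_lit 252) (nat_lit 749411387) (nat_lit 82) (nat_lit 1) (nat_lit 78) (nat_lit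 1) (nat_lit 81) (nat_lit 1) (nat_lit 332) (nat_lit 383) (nat_lit 365)))))) (XT.nd (nat_lit 376) (nat_lit 1092) (nat_lit 0) (XT.nd (nat_lit 188) (nat_lit 420) (nat_lit 0) (XT.nd (nat_lit 94) (nat_lit 336) (nat_lit 0) (XT.lf (nat_lit 336) (nat_lit 1997555241) (nat_lit 0) (nat_lit 5040769525) (nat_lit 252) (nat_lit 5411030486) (nat_lit 79) (nat_lit 1) (nat_lit 75) (nat_lit 1) (nat_lit 78) (nat_lit 1) (nat_lit 333) (nat_lit 383) (nat_lit 364)) (XT.lf (nat_lit 84) (nat_lit 2276730301) (nat_lit 0) (nat_lit 2084544443) (nat_lit 336) (nat_lit 7716575875) (nat_lit 72) (nat_lit 1) (nat_lit 71) (nat_lit 1) (nat_lit 75) (nat_lit 1) (nat_lit 334) (nat_lit 383) (nat_lit 363))) (XT.nd (nat_lit 94) (nat_lit 168) (nat_lit 0) (XT.lf (nat_lit 336) (nat_lit 5665344535) (nat_lit 0) (nat_lit 3769510312) (nat_lit 252) (nat_lit 2285089544) (nat_lit 72) (nat_lit 1) (nat_lit 68) (nat_lit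 1) (nat_lit 71) (nat_lit 1) (nat_lit 335) (nat_lit 383) (nat_lit 362)) (XT.lf (nat_lit 252) (nat_lit 1404447275) (nat_lit 0) (nat_lit 3288622798) (nat_lit 168) (nat_lit 6683407026) (nat_lit 69) (nat_lit 1) (nat_lit 66) (nat_lit 1) (nat_lit 68) (nat_lit 1) (nat_lit 336) (nat_lit 383) (nat_lit 361)))) (XT.nd (nat_lit 188) (nat_lit 588) (nat_lit 0) (XT.nd (nat_lit 94) (nat_lit 168) (nat_lit 0) (XT.lf (nat_lit 84) (nat_lit 237922341) (nat_lit 0) (nat_lit 2662402648) (nat_lit 336) (nat_lit 8145998517) (nat_lit 63) (nat_lit 1) (nat_lit 62) (nat_lit 1) (nat_lit 66) (nat_lit 1) (nat_lit 337) (nat_lit 383) (nat_lit 360)) (XT.lf (nat_lit 252) (nat_lit 4081066084) (nat_lit 0) (nat_lit 2550316189) (nat_lit 168) (nat_lit 4095268235) (nat_lit 63) (nat_lit 1) (nat_lit 60) (nat_lit 1) (nat_lit 62) (nat_lit 1) (nat_lit 338) (nat_lit 383) (nat_lit 359))) (XT.nd (nat_lit 94)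 (nat_lit 336) (nat_lit 0) (XT.lf (nat_lit 84) (nat_lit 2214215908) (nat_lit 0) (nat_lit 102276021) (nat_lit 252) (nat_lit 8104435011) (nat_lit 58) (nat_lit 1) (nat_lit 57) (nat_lit 1) (nat_lit 60) (nat_lit 1) (nat_lit 339) (nat_lit 383) (nat_lit 358)) (XT.nd (nat_lit 94) (nat_lit 168) (nat_lit 0) (XT.lf (nat_lit 252) (nat_lit 6053238719) (nat_lit 0) (nat_lit 2097582941) (nat_lit 168) (nat_lit 1973274992) (nat_lit 58) (nat_lit 1) (nat_lit 55) (nat_lit 1) (nat_lit 57) (nat_lit 1) (nat_lit 340) (nat_lit 383) (nat_lit 357)) (XT.lf (nat_lit 252) (nat_lit 1880378516) (nat_lit 0) (nat_lit 1949935298) (nat_lit 168) (nat_lit 6008301672) (nat_lit 56) (nat_lit 1) (nat_lit 53) (nat_lit 1) (nat_lit 55) (nat_lit 1) (nat_lit 341) (nat_lit 383) (nat_lit 356))))))) (XT.nd (nat_lit 846) (nat_lit 1428) (nat_lit 0) (XT.nd (nat_lit 376) (nat_lit 756) (nat_lit 0) (XT.nd (nat_lit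 188) (nat_lit 336) (nat_lit 0) (XT.nd (nat_lit 94) (nat_lit 168) (nat_lit 0) (XT.lf (nat_lit 252) (nat_lit 7464411651) (nat_lit 0) (nat_lit 1863004910) (nat_lit 168) (nat_lit 236343786) (nat_lit 53) (nat_lit 1) (nat_lit 50) (nat_lit 1) (nat_lit 52) (nat_lit 1) (nat_lit 342) (nat_lit 383) (nat_lit 355)) (XT.lf (nat_lit 252) (nat_lit 3340724709) (nat_lit 0) (nat_lit 1778541583) (nat_lit 168) (nat_lit 4177276276) (nat_lit 51) (nat_lit 1) (nat_lit 48) (nat_lit 1) (nat_lit 50) (nat_lit 1) (nat_lit 343) (nat_lit 383) (nat_lit 354))) (XT.nd (nat_lit 94) (nat_lit 168) (nat_lit 0) (XT.lf (nat_lit 84) (nat_lit 1144327194) (nat_lit 0) (nat_lit 628973791) (nat_lit 168) (nat_lit 7267107305) (nat_lit 47) (nat_lit 1) (nat_lit 46) (nat_lit 1) (nat_lit 48) (nat_lit 1) (nat_lit 344) (nat_lit 383) (nat_lit 353)) (XT.lf (nat_lit 252) (nat_lit 4383222945) (nat_lit 0) (nat_lit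 1754523702) (nat_lit 168) (nat_lit 2652990670) (nat_lit 47) (nat_lit 1) (nat_lit 44) (nat_lit 1) (nat_lit 46) (nat_lit 1) (nat_lit 345) (nat_lit 383) (nat_lit 352)))) (XT.nd (nat_lit 188) (nat_lit 420) (nat_lit 0) (XT.nd (nat_lit 94) (nat_lit 252) (nat_lit 0) (XT.lf (nat_lit 168) (nat_lit 472010826) (nat_lit 0) (nat_lit 1797617071) (nat_lit 84) (nat_lit 6281295136) (nat_lit 45) (nat_lit 1) (nat_lit 43) (nat_lit 1) (nat_lit 44) (nat_lit 1) (nat_lit 346) (nat_lit 383) (nat_lit 351)) (XT.lf (nat_lit 252) (nat_lit 5095182607) (nat_lit 0) (nat_lit 1838482564) (nat_lit 168) (nat_lit 1384055999) (nat_lit 43) (nat_lit 1) (nat_lit 40) (nat_lit 1) (nat_lit 42) (nat_lit 1) (nat_lit 347) (nat_lit 383) (nat_lit 350))) (XT.nd (nat_lit 94) (nat_lit 336) (nat_lit 0) (XT.lf (nat_lit 168) (nat_lit 1281475997) (nat_lit 0) (nat_lit 1907225279) (nat_lit 84) (nat_lit 4903677401)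 (nat_lit 41) (nat_lit 1) (nat_lit 39) (nat_lit 1) (nat_lit 40) (nat_lit 1) (nat_lit 348) (nat_lit 383) (nat_lit 349)) (XT.nd (nat_lit 94) (nat_lit 84) (nat_lit 0) (XT.lf (nat_lit 252) (nat_lit 5547194443) (nat_lit 0) (nat_lit 1999211319) (nat_lit 168) (nat_lit 328087691) (nat_lit 39) (nat_lit 1) (nat_lit 36) (nat_lit 1) (nat_lit 38) (nat_lit 1) (nat_lit 349) (nat_lit 383) (nat_lit 348)) (XT.lf (nat_lit 168) (nat_lit 1844219768) (nat_lit 0) (nat_lit 2084201823) (nat_lit 84) (nat_lit 3734027559) (nat_lit 37) (nat_lit 1) (nat_lit 35) (nat_lit 1) (nat_lit 36) (nat_lit 1) (nat_lit 350) (nat_lit 383) (nat_lit 347)))))) (XT.nd (nat_lit 470) (nat_lit 588) (nat_lit 0) (XT.nd (nat_lit 188) (nat_lit 504) (nat_lit 0) (XT.nd (nat_lit 94) (nat_lit 84) (nat_lit 0) (XT.lf (nat_lit 84) (nat_lit 532315218) (nat_lit 0) (nat_lit 1670795575) (nat_lit 252) (nat_lit 5254911759)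 (nat_lit 33) (nat_lit 1) (nat_lit 32) (nat_lit 1) (nat_lit 35) (nat_lit 1) (nat_lit 351) (nat_lit 383) (nat_lit 346)) (XT.lf (nat_lit 168) (nat_lit 2213230112) (nat_lit 0) (nat_lit 2306080873) (nat_lit 84) (nat_lit 2739361779) (nat_lit 33) (nat_lit 1) (nat_lit 31) (nat_lit 1) (nat_lit 32) (nat_lit 1) (nat_lit 352) (nat_lit 383) (nat_lit 345))) (XT.nd (nat_lit 94) (nat_lit 252) (nat_lit 0) (XT.lf (nat_lit 84) (nat_lit 1237966990) (nat_lit 0) (nat_lit 1199054741) (nat_lit 252) (nat_lit 4629306885) (nat_lit 29) (nat_lit 1) (nat_lit 28) (nat_lit 1) (nat_lit 31) (nat_lit 1) (nat_lit 353) (nat_lit 383) (nat_lit 344)) (XT.nd (nat_lit 94) (nat_lit 168) (nat_lit 0) (XT.lf (nat_lit 168) (nat_lit 2431238245) (nat_lit 0) (nat_lit 2555325313) (nat_lit 84) (nat_lit 1892335230) (nat_lit 29) (nat_lit 1) (nat_lit 27) (nat_lit 1) (nat_lit 28) (nat_lit 1) (nat_lit 354) (nat_lit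 383) (nat_lit 343)) (XT.lf (nat_lit 84) (nat_lit 1822573677) (nat_lit 0) (nat_lit 868423746) (nat_lit 168) (nat_lit 4006661480) (nat_lit 26) (nat_lit 1) (nat_lit 25) (nat_lit 1) (nat_lit 27) (nat_lit 1) (nat_lit 355) (nat_lit 383) (nat_lit 342))))) (XT.nd (nat_lit 188) (nat_lit 336) (nat_lit 0) (XT.nd (nat_lit 94) (nat_lit 168) (nat_lit 0) (XT.lf (nat_lit 168) (nat_lit 2532635167) (nat_lit 0) (nat_lit 2818366157) (nat_lit 84) (nat_lit 1170236195) (nat_lit 26) (nat_lit 1) (nat_lit 24) (nat_lit 1) (nat_lit 25) (nat_lit 1) (nat_lit 356) (nat_lit 383) (nat_lit 341)) (XT.lf (nat_lit 84) (nat_lit 2305386241) (nat_lit 0) (nat_lit 647855438) (nat_lit 168) (nat_lit 3397000995) (nat_lit 23) (nat_lit 1) (nat_lit 22) (nat_lit 1) (nat_lit 24) (nat_lit 1) (nat_lit 357) (nat_lit 383) (nat_lit 340))) (XT.nd (nat_lit 94) (nat_lit 252) (nat_lit 0) (XT.lf (nat_lit 168) (nat_lit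 2545034409) (nat_lit 0) (nat_lit 3084821873) (nat_lit 84) (nat_lit 554162890) (nat_lit 23) (nat_lit 1) (nat_lit 21) (nat_lit 1) (nat_lit 22) (nat_lit 1) (nat_lit 358) (nat_lit 383) (nat_lit 339)) (XT.nd (nat_lit 94) (nat_lit 84) (nat_lit 0) (XT.lf (nat_lit 84) (nat_lit 2702404382) (nat_lit 0) (nat_lit 512385020) (nat_lit 168) (nat_lit 2807720842) (nat_lit 20) (nat_lit 1) (nat_lit 19) (nat_lit 1) (nat_lit 21) (nat_lit 1) (nat_lit 359) (nat_lit 383) (nat_lit 338)) (XT.lf (nat_lit 168) (nat_lit 2490546007) (nat_lit 0) (nat_lit 3346864374) (nat_lit 84) (nat_lit 28349563) (nat_lit 20) (nat_lit 1) (nat_lit 18) (nat_lit 1) (nat_lit 19) (nat_lit 1) (nat_lit 360) (nat_lit 383) (nat_lit 337))))))))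
noncomputable def ec87 : XT := (XT.nd (nat_lit 1786) (nat_lit 0) (nat_lit 0) (XT.nd (nat_lit 846) (nat_lit 336) (nat_lit 0) (XT.nd (nat_lit 376) (nat_lit 672) (nat_lit 0) (XT.nd (nat_lit 188) (nat_lit 252) (nat_lit 0) (XT.nd (nat_lit 94) (nat_lit 84) (nat_lit 0) (XT.lf (nat_lit 84) (nat_lit 3026952037) (nat_lit 0) (nat_lit 441987980) (nat_lit 168) (nat_lit 2244122346) (nat_lit 17) (nat_lit 1) (nat_lit 16) (nat_lit 1) (nat_lit 18) (nat_lit 1) (nat_lit 361) (nat_lit 383) (nat_lit 336)) (XT.lf (nat_lit 0) (nat_lit 406930438) (nat_lit 0) (nat_lit 3184882560) (nat_lit 168) (nat_lit 1972992828) (nat_lit 15) (nat_lit 3) (nat_lit 15) (nat_lit 1) (nat_lit 17) (nat_lit 1) (nat_lit 362) (nat_lit 383) (nat_lit 335))) (XT.nd (nat_lit 94) (nat_lit 84) (nat_lit 0) (XT.lf (nat_lit 84) (nat_lit 3290148718) (nat_lit 0) (nat_lit 420649234) (nat_lit 168) (nat_lit 1709846959)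 (nat_lit 14) (nat_lit 1) (nat_lit 13) (nat_lit 1) (nat_lit 15) (nat_lit 1) (nat_lit 363) (nat_lit 383) (nat_lit 334)) (XT.lf (nat_lit 0) (nat_lit 777387682) (nat_lit 0) (nat_lit 3045622154) (nat_lit 168) (nat_lit 1457313492) (nat_lit 12) (nat_lit 3) (nat_lit 12) (nat_lit 1) (nat_lit 14) (nat_lit 1) (nat_lit 364) (nat_lit 383) (nat_lit 333)))) (XT.nd (nat_lit 188) (nat_lit 420) (nat_lit 0) (XT.nd (nat_lit 94) (nat_lit 84) (nat_lit 0) (XT.lf (nat_lit 84) (nat_lit 3501295689) (nat_lit 0) (nat_lit 435604631) (nat_lit 168) (nat_lit 1207227607) (nat_lit 11) (nat_lit 1) (nat_lit 10) (nat_lit 1) (nat_lit 12) (nat_lit 1) (nat_lit 365) (nat_lit 383) (nat_lit 332)) (XT.lf (nat_lit 0) (nat_lit 1092920567) (nat_lit 0) (nat_lit 2944963868) (nat_lit 168) (nat_lit 973367358) (nat_lit 9) (nat_lit 3) (nat_lit 9) (nat_lit 1) (nat_lit 11) (nat_lit 1) (nat_lit 366) (nat_lit 383)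 (nat_lit 331))) (XT.nd (nat_lit 94) (nat_lit 252) (nat_lit 0) (XT.lf (nat_lit 84) (nat_lit 3668192534) (nat_lit 0) (nat_lit 476723092) (nat_lit 168) (nat_lit 737572568) (nat_lit 8) (nat_lit 1) (nat_lit 7) (nat_lit 1) (nat_lit 9) (nat_lit 1) (nat_lit 367) (nat_lit 383) (nat_lit 330)) (XT.nd (nat_lit 94) (nat_lit 168) (nat_lit 0) (XT.lf (nat_lit 0) (nat_lit 1361109443) (nat_lit 0) (nat_lit 2873327175) (nat_lit 168) (nat_lit 522172501) (nat_lit 6) (nat_lit 3) (nat_lit 6) (nat_lit 1) (nat_lit 8) (nat_lit 1) (nat_lit 368) (nat_lit 383) (nat_lit 329)) (XT.lf (nat_lit 84) (nat_lit 3797396810) (nat_lit 0) (nat_lit 536003487) (nat_lit 168) (nat_lit 301394454) (nat_lit 5) (nat_lit 1) (nat_lit 4) (nat_lit 1) (nat_lit 6) (nat_lit 1) (nat_lit 369) (nat_lit 383) (nat_lit 328)))))) (XT.nd (nat_lit 470) (nat_lit 0) (nat_lit 0) (XT.nd (nat_lit 188) (nat_lit 0) (nat_lit 0)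 (XT.nd (nat_lit 94) (nat_lit 252) (nat_lit 0) (XT.lf (nat_lit 0) (nat_lit 1588365480) (nat_lit 0) (nat_lit 2823111162) (nat_lit 168) (nat_lit 104023742) (nat_lit 3) (nat_lit 3) (nat_lit 3) (nat_lit 1) (nat_lit 5) (nat_lit 1) (nat_lit 370) (nat_lit 383) (nat_lit 327)) (XT.lf (nat_lit 0) (nat_lit 6382867884) (nat_lit 0) (nat_lit 0) (nat_lit 0) (nat_lit 0) (nat_lit 0) (nat_lit 0) (nat_lit 1) (nat_lit 0) (nat_lit 1) (nat_lit 0) (nat_lit 371) (nat_lit 383) (nat_lit 326))) (XT.nd (nat_lit 94) (nat_lit 0) (nat_lit 0) (XT.lf (nat_lit 0) (nat_lit 6377058121) (nat_lit 0) (nat_lit 0) (nat_lit 0) (nat_lit 0) (nat_lit 0) (nat_lit 0) (nat_lit 1) (nat_lit 0) (nat_lit 1) (nat_lit 0) (nat_lit 372) (nat_lit 383) (nat_lit 325)) (XT.nd (nat_lit 94) (nat_lit 0) (nat_lit 0) (XT.lf (nat_lit 0) (nat_lit 6371678711) (nat_lit 0) (nat_lit 0) (nat_lit 0) (nat_lit 0) (nat_lit 0) (nat_lit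 0) (nat_lit 1) (nat_lit 0) (nat_lit 1) (nat_lit 0) (nat_lit 373) (nat_lit 383) (nat_lit 324)) (XT.lf (nat_lit 0) (nat_lit 6366697776) (nat_lit 0) (nat_lit 0) (nat_lit 0) (nat_lit 0) (nat_lit 0) (nat_lit 0) (nat_lit 1) (nat_lit 0) (nat_lit 1) (nat_lit 0) (nat_lit 374) (nat_lit 383) (nat_lit 323))))) (XT.nd (nat_lit 188) (nat_lit 0) (nat_lit 0) (XT.nd (nat_lit 94) (nat_lit 0) (nat_lit 0) (XT.lf (nat_lit 0) (nat_lit 6362085798) (nat_lit 0) (nat_lit 0) (nat_lit 0) (nat_lit 0) (nat_lit 0) (nat_lit 0) (nat_lit 1) (nat_lit 0) (nat_lit 1) (nat_lit 0) (nat_lit 375) (nat_lit 383) (nat_lit 322)) (XT.lf (nat_lit 0) (nat_lit 6357815449) (nat_lit 0) (nat_lit 0) (nat_lit 0) (nat_lit 0) (nat_lit 0) (nat_lit 0) (nat_lit 1) (nat_lit 0) (nat_lit 1) (nat_lit 0) (nat_lit 376) (nat_lit 383) (nat_lit 321))) (XT.nd (nat_lit 94) (nat_lit 0) (nat_lit 0) (XT.lf (nat_lit 0) (nat_lit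 6353861422) (nat_lit 0) (nat_lit 0) (nat_lit 0) (nat_lit 0) (nat_lit 0) (nat_lit 0) (nat_lit 1) (nat_lit 0) (nat_lit 1) (nat_lit 0) (nat_lit 377) (nat_lit 383) (nat_lit 320)) (XT.nd (nat_lit 94) (nat_lit 0) (nat_lit 0) (XT.lf (nat_lit 0) (nat_lit 6350200286) (nat_lit 0) (nat_lit 0) (nat_lit 0) (nat_lit 0) (nat_lit 0) (nat_lit 0) (nat_lit 1) (nat_lit 0) (nat_lit 1) (nat_lit 0) (nat_lit 378) (nat_lit 383) (nat_lit 319)) (XT.lf (nat_lit 0) (nat_lit 6346810345) (nat_lit 0) (nat_lit 0) (nat_lit 0) (nat_lit 0) (nat_lit 0) (nat_lit 0) (nat_lit 1) (nat_lit 0) (nat_lit 1) (nat_lit 0) (nat_lit 379) (nat_lit 383) (nat_lit 318))))))) (XT.nd (nat_lit 846) (nat_lit 0) (nat_lit 0) (XT.nd (nat_lit 376) (nat_lit 0) (nat_lit 0) (XT.nd (nat_lit 188) (nat_lit 0) (nat_lit 0) (XT.nd (nat_lit 94) (nat_lit 0) (nat_lit 0) (XT.lf (nat_lit 0) (nat_lit 6343671511) (nat_lit 0) (nat_lit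 0) (nat_lit 0) (nat_lit 0) (nat_lit 0) (nat_lit 0) (nat_lit 1) (nat_lit 0) (nat_lit 1) (nat_lit 0) (nat_lit 380) (nat_lit 383) (nat_lit 317)) (XT.lf (nat_lit 0) (nat_lit 6340765183) (nat_lit 0) (nat_lit 0) (nat_lit 0) (nat_lit 0) (nat_lit 0) (nat_lit 0) (nat_lit 1) (nat_lit 0) (nat_lit 1) (nat_lit 0) (nat_lit 381) (nat_lit 383) (nat_lit 316))) (XT.nd (nat_lit 94) (nat_lit 0) (nat_lit 0) (XT.lf (nat_lit 0) (nat_lit 6338074139) (nat_lit 0) (nat_lit 0) (nat_lit 0) (nat_lit 0) (nat_lit 0) (nat_lit 0) (nat_lit 1) (nat_lit 0) (nat_lit 1) (nat_lit 0) (nat_lit 382) (nat_lit 383) (nat_lit 315)) (XT.lf (nat_lit 0) (nat_lit 6335582431) (nat_lit 0) (nat_lit 0) (nat_lit 0) (nat_lit 0) (nat_lit 0) (nat_lit 0) (nat_lit 1) (nat_lit 0) (nat_lit 1) (nat_lit 0) (nat_lit 383) (nat_lit 383) (nat_lit 314)))) (XT.nd (nat_lit 188) (nat_lit 0) (nat_lit 0) (XT.nd (nat_lit 94) (nat_lit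 0) (nat_lit 0) (XT.lf (nat_lit 0) (nat_lit 6333275294) (nat_lit 0) (nat_lit 0) (nat_lit 0) (nat_lit 0) (nat_lit 0) (nat_lit 0) (nat_lit 1) (nat_lit 0) (nat_lit 1) (nat_lit 0) (nat_lit 384) (nat_lit 383) (nat_lit 313)) (XT.lf (nat_lit 0) (nat_lit 6331139056) (nat_lit 0) (nat_lit 0) (nat_lit 0) (nat_lit 0) (nat_lit 0) (nat_lit 0) (nat_lit 1) (nat_lit 0) (nat_lit 1) (nat_lit 0) (nat_lit 385) (nat_lit 383) (nat_lit 312))) (XT.nd (nat_lit 94) (nat_lit 0) (nat_lit 0) (XT.lf (nat_lit 0) (nat_lit 6329161058) (nat_lit 0) (nat_lit 0) (nat_lit 0) (nat_lit 0) (nat_lit 0) (nat_lit 0) (nat_lit 1) (nat_lit 0) (nat_lit 1) (nat_lit 0) (nat_lit 386) (nat_lit 383) (nat_lit 311)) (XT.nd (nat_lit 94) (nat_lit 0) (nat_lit 0) (XT.lf (nat_lit 0) (nat_lit 6327329579) (nat_lit 0) (nat_lit 0) (nat_lit 0) (nat_lit 0) (nat_lit 0) (nat_lit 0) (nat_lit 1) (nat_lit 0) (nat_lit 1) (nat_lit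 0) (nat_lit 387) (nat_lit 383) (nat_lit 310)) (XT.lf (nat_lit 0) (nat_lit 6325633764) (nat_lit 0) (nat_lit 0) (nat_lit 0) (nat_lit 0) (nat_lit 0) (nat_lit 0) (nat_lit 1) (nat_lit 0) (nat_lit 1) (nat_lit 0) (nat_lit 388) (nat_lit 383) (nat_lit 309)))))) (XT.nd (nat_lit 470) (nat_lit 0) (nat_lit 0) (XT.nd (nat_lit 188) (nat_lit 0) (nat_lit 0) (XT.nd (nat_lit 94) (nat_lit 0) (nat_lit 0) (XT.lf (nat_lit 0) (nat_lit 6324063566) (nat_lit 0) (nat_lit 0) (nat_lit 0) (nat_lit 0) (nat_lit 0) (nat_lit 0) (nat_lit 1) (nat_lit 0) (nat_lit 1) (nat_lit 0) (nat_lit 389) (nat_lit 383) (nat_lit 308)) (XT.lf (nat_lit 0) (nat_lit 6322609678) (nat_lit 0) (nat_lit 0) (nat_lit 0) (nat_lit 0) (nat_lit 0) (nat_lit 0) (nat_lit 1) (nat_lit 0) (nat_lit 1) (nat_lit 0) (nat_lit 390) (nat_lit 383) (nat_lit 307))) (XT.nd (nat_lit 94) (nat_lit 0) (nat_lit 0) (XT.lf (nat_lit 0) (nat_lit 6321263486)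 (nat_lit 0) (nat_lit 0) (nat_lit 0) (nat_lit 0) (nat_lit 0) (nat_lit 0) (nat_lit 1) (nat_lit 0) (nat_lit 1) (nat_lit 0) (nat_lit 391) (nat_lit 383) (nat_lit 306)) (XT.nd (nat_lit 94) (nat_lit 0) (nat_lit 0) (XT.lf (nat_lit 0) (nat_lit 6320017012) (nat_lit 0) (nat_lit 0) (nat_lit 0) (nat_lit 0) (nat_lit 0) (nat_lit 0) (nat_lit 1) (nat_lit 0) (nat_lit 1) (nat_lit 0) (nat_lit 392) (nat_lit 383) (nat_lit 305)) (XT.lf (nat_lit 0) (nat_lit 6318862869) (nat_lit 0) (nat_lit 0) (nat_lit 0) (nat_lit 0) (nat_lit 0) (nat_lit 0) (nat_lit 1) (nat_lit 0) (nat_lit 1) (nat_lit 0) (nat_lit 393) (nat_lit 383) (nat_lit 304))))) (XT.nd (nat_lit 188) (nat_lit 0) (nat_lit 0) (XT.nd (nat_lit 94) (nat_lit 0) (nat_lit 0) (XT.lf (nat_lit 0) (nat_lit 6317794218) (nat_lit 0) (nat_lit 0) (nat_lit 0) (nat_lit 0) (nat_lit 0) (nat_lit 0) (nat_lit 1) (nat_lit 0) (nat_lit 1) (nat_lit 0) (nat_lit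 394) (nat_lit 383) (nat_lit 303)) (XT.lf (nat_lit 0) (nat_lit 6316804727) (nat_lit 0) (nat_lit 0) (nat_lit 0) (nat_lit 0) (nat_lit 0) (nat_lit 0) (nat_lit 1) (nat_lit 0) (nat_lit 1) (nat_lit 0) (nat_lit 395) (nat_lit 383) (nat_lit 302))) (XT.nd (nat_lit 94) (nat_lit 0) (nat_lit 0) (XT.lf (nat_lit 0) (nat_lit 6315888531) (nat_lit 0) (nat_lit 0) (nat_lit 0) (nat_lit 0) (nat_lit 0) (nat_lit 0) (nat_lit 1) (nat_lit 0) (nat_lit 1) (nat_lit 0) (nat_lit 396) (nat_lit 383) (nat_lit 301)) (XT.nd (nat_lit 94) (nat_lit 0) (nat_lit 0) (XT.lf (nat_lit 0) (nat_lit 6315040202) (nat_lit 0) (nat_lit 0) (nat_lit 0) (nat_lit 0) (nat_lit 0) (nat_lit 0) (nat_lit 1) (nat_lit 0) (nat_lit 1) (nat_lit 0) (nat_lit 397) (nat_lit 383) (nat_lit 300)) (XT.lf (nat_lit 0) (nat_lit 6314254711) (nat_lit 0) (nat_lit 0) (nat_lit 0) (nat_lit 0) (nat_lit 0) (nat_lit 0) (nat_lit 1) (nat_lit 0)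 (nat_lit 1) (nat_lit 0) (nat_lit 398) (nat_lit 383) (nat_lit 299))))))))
noncomputable def ec88 : XT := (XT.nd (nat_lit 1692) (nat_lit 0) (nat_lit 0) (XT.nd (nat_lit 846) (nat_lit 0) (nat_lit 0) (XT.nd (nat_lit 376) (nat_lit 0) (nat_lit 0) (XT.nd (nat_lit 188) (nat_lit 0) (nat_lit 0) (XT.nd (nat_lit 94) (nat_lit 0) (nat_lit 0) (XT.lf (nat_lit 0) (nat_lit 6313527406) (nat_lit 0) (nat_lit 0) (nat_lit 0) (nat_lit 0) (nat_lit 0) (nat_lit 0) (nat_lit 1) (nat_lit 0) (nat_lit 1) (nat_lit 0) (nat_lit 399) (nat_lit 383) (nat_lit 298)) (XT.lf (nat_lit 0) (nat_lit 6312853974) (nat_lit 0) (nat_lit 0) (nat_lit 0) (nat_lit 0) (nat_lit 0) (nat_lit 0) (nat_lit 1) (nat_lit 0) (nat_lit 1) (nat_lit 0) (nat_lit 400) (nat_lit 383) (nat_lit 297))) (XT.nd (nat_lit 94) (nat_lit 0) (nat_lit 0) (XT.lf (nat_lit 0) (nat_lit 6312230427) (nat_lit 0) (nat_lit 0) (nat_lit 0) (nat_lit 0)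 (nat_lit 0) (nat_lit 0) (nat_lit 1) (nat_lit 0) (nat_lit 1) (nat_lit 0) (nat_lit 401) (nat_lit 383) (nat_lit 296)) (XT.lf (nat_lit 0) (nat_lit 6311653068) (nat_lit 0) (nat_lit 0) (nat_lit 0) (nat_lit 0) (nat_lit 0) (nat_lit 0) (nat_lit 1) (nat_lit 0) (nat_lit 1) (nat_lit 0) (nat_lit 402) (nat_lit 383) (nat_lit 295)))) (XT.nd (nat_lit 188) (nat_lit 0) (nat_lit 0) (XT.nd (nat_lit 94) (nat_lit 0) (nat_lit 0) (XT.lf (nat_lit 0) (nat_lit 6311118477) (nat_lit 0) (nat_lit 0) (nat_lit 0) (nat_lit 0) (nat_lit 0) (nat_lit 0) (nat_lit 1) (nat_lit 0) (nat_lit 1) (nat_lit 0) (nat_lit 403) (nat_lit 383) (nat_lit 294)) (XT.lf (nat_lit 0) (nat_lit 6310623485) (nat_lit 0) (nat_lit 0) (nat_lit 0) (nat_lit 0) (nat_lit 0) (nat_lit 0) (nat_lit 1) (nat_lit 0) (nat_lit 1) (nat_lit 0) (nat_lit 404) (nat_lit 383) (nat_lit 293))) (XT.nd (nat_lit 94) (nat_lit 0) (nat_lit 0) (XT.lf (nat_lit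 0) (nat_lit 6310165159) (nat_lit 0) (nat_lit 0) (nat_lit 0) (nat_lit 0) (nat_lit 0) (nat_lit 0) (nat_lit 1) (nat_lit 0) (nat_lit 1) (nat_lit 0) (nat_lit 405) (nat_lit 383) (nat_lit 292)) (XT.nd (nat_lit 94) (nat_lit 0) (nat_lit 0) (XT.lf (nat_lit 0) (nat_lit 6309740783) (nat_lit 0) (nat_lit 0) (nat_lit 0) (nat_lit 0) (nat_lit 0) (nat_lit 0) (nat_lit 1) (nat_lit 0) (nat_lit 1) (nat_lit 0) (nat_lit 406) (nat_lit 383) (nat_lit 291)) (XT.lf (nat_lit 0) (nat_lit 6309347842) (nat_lit 0) (nat_lit 0) (nat_lit 0) (nat_lit 0) (nat_lit 0) (nat_lit 0) (nat_lit 1) (nat_lit 0) (nat_lit 1) (nat_lit 0) (nat_lit 407) (nat_lit 383) (nat_lit 290)))))) (XT.nd (nat_lit 376) (nat_lit 0) (nat_lit 0) (XT.nd (nat_lit 188) (nat_lit 0) (nat_lit 0) (XT.nd (nat_lit 94) (nat_lit 0) (nat_lit 0) (XT.lf (nat_lit 0) (nat_lit 6308984008) (nat_lit 0) (nat_lit 0) (nat_lit 0) (nat_lit 0) (nat_lit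 0) (nat_lit 0) (nat_lit 1) (nat_lit 0) (nat_lit 1) (nat_lit 0) (nat_lit 408) (nat_lit 383) (nat_lit 289)) (XT.lf (nat_lit 0) (nat_lit 6308647125) (nat_lit 0) (nat_lit 0) (nat_lit 0) (nat_lit 0) (nat_lit 0) (nat_lit 0) (nat_lit 1) (nat_lit 0) (nat_lit 1) (nat_lit 0) (nat_lit 409) (nat_lit 383) (nat_lit 288))) (XT.nd (nat_lit 94) (nat_lit 0) (nat_lit 0) (XT.lf (nat_lit 0) (nat_lit 6308335196) (nat_lit 0) (nat_lit 0) (nat_lit 0) (nat_lit 0) (nat_lit 0) (nat_lit 0) (nat_lit 1) (nat_lit 0) (nat_lit 1) (nat_lit 0) (nat_lit 410) (nat_lit 383) (nat_lit 287)) (XT.lf (nat_lit 0) (nat_lit 6308046373) (nat_lit 0) (nat_lit 0) (nat_lit 0) (nat_lit 0) (nat_lit 0) (nat_lit 0) (nat_lit 1) (nat_lit 0) (nat_lit 1) (nat_lit 0) (nat_lit 411) (nat_lit 383) (nat_lit 286)))) (XT.nd (nat_lit 188) (nat_lit 0) (nat_lit 0) (XT.nd (nat_lit 94) (nat_lit 0) (nat_lit 0) (XT.lf (nat_lit 0)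 (nat_lit 6307778944) (nat_lit 0) (nat_lit 0) (nat_lit 0) (nat_lit 0) (nat_lit 0) (nat_lit 0) (nat_lit 1) (nat_lit 0) (nat_lit 1) (nat_lit 0) (nat_lit 412) (nat_lit 383) (nat_lit 285)) (XT.lf (nat_lit 0) (nat_lit 6307531325) (nat_lit 0) (nat_lit 0) (nat_lit 0) (nat_lit 0) (nat_lit 0) (nat_lit 0) (nat_lit 1) (nat_lit 0) (nat_lit 1) (nat_lit 0) (nat_lit 413) (nat_lit 383) (nat_lit 284))) (XT.nd (nat_lit 94) (nat_lit 0) (nat_lit 0) (XT.lf (nat_lit 0) (nat_lit 6307302048) (nat_lit 0) (nat_lit 0) (nat_lit 0) (nat_lit 0) (nat_lit 0) (nat_lit 0) (nat_lit 1) (nat_lit 0) (nat_lit 1) (nat_lit 0) (nat_lit 414) (nat_lit 383) (nat_lit 283)) (XT.nd (nat_lit 94) (nat_lit 0) (nat_lit 0) (XT.lf (nat_lit 0) (nat_lit 6307089754) (nat_lit 0) (nat_lit 0) (nat_lit 0) (nat_lit 0) (nat_lit 0) (nat_lit 0) (nat_lit 1) (nat_lit 0) (nat_lit 1) (nat_lit 0) (nat_lit 415) (nat_lit 383) (nat_lit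 282)) (XT.lf (nat_lit 0) (nat_lit 6306893186) (nat_lit 0) (nat_lit 0) (nat_lit 0) (nat_lit 0) (nat_lit 0) (nat_lit 0) (nat_lit 1) (nat_lit 0) (nat_lit 1) (nat_lit 0) (nat_lit 416) (nat_lit 383) (nat_lit 281))))))) (XT.nd (nat_lit 846) (nat_lit 0) (nat_lit 0) (XT.nd (nat_lit 376) (nat_lit 0) (nat_lit 0) (XT.nd (nat_lit 188) (nat_lit 0) (nat_lit 0) (XT.nd (nat_lit 94) (nat_lit 0) (nat_lit 0) (XT.lf (nat_lit 0) (nat_lit 6306711178) (nat_lit 0) (nat_lit 0) (nat_lit 0) (nat_lit 0) (nat_lit 0) (nat_lit 0) (nat_lit 1) (nat_lit 0) (nat_lit 1) (nat_lit 0) (nat_lit 417) (nat_lit 383) (nat_lit 280)) (XT.lf (nat_lit 0) (nat_lit 6306542653) (nat_lit 0) (nat_lit 0) (nat_lit 0) (nat_lit 0) (nat_lit 0) (nat_lit 0) (nat_lit 1) (nat_lit 0) (nat_lit 1) (nat_lit 0) (nat_lit 418) (nat_lit 383) (nat_lit 279))) (XT.nd (nat_lit 94) (nat_lit 0) (nat_lit 0) (XT.lf (nat_lit 0) (nat_lit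 6306386611) (nat_lit 0) (nat_lit 0) (nat_lit 0) (nat_lit 0) (nat_lit 0) (nat_lit 0) (nat_lit 1) (nat_lit 0) (nat_lit 1) (nat_lit 0) (nat_lit 419) (nat_lit 383) (nat_lit 278)) (XT.lf (nat_lit 0) (nat_lit 6306242127) (nat_lit 0) (nat_lit 0) (nat_lit 0) (nat_lit 0) (nat_lit 0) (nat_lit 0) (nat_lit 1) (nat_lit 0) (nat_lit 1) (nat_lit 0) (nat_lit 420) (nat_lit 383) (nat_lit 277)))) (XT.nd (nat_lit 188) (nat_lit 0) (nat_lit 0) (XT.nd (nat_lit 94) (nat_lit 0) (nat_lit 0) (XT.lf (nat_lit 0) (nat_lit 6306108346) (nat_lit 0) (nat_lit 0) (nat_lit 0) (nat_lit 0) (nat_lit 0) (nat_lit 0) (nat_lit 1) (nat_lit 0) (nat_lit 1) (nat_lit 0) (nat_lit 421) (nat_lit 383) (nat_lit 276)) (XT.lf (nat_lit 0) (nat_lit 6305984475) (nat_lit 0) (nat_lit 0) (nat_lit 0) (nat_lit 0) (nat_lit 0) (nat_lit 0) (nat_lit 1) (nat_lit 0) (nat_lit 1) (nat_lit 0) (nat_lit 422) (nat_lit 383) (nat_lit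 275))) (XT.nd (nat_lit 94) (nat_lit 0) (nat_lit 0) (XT.lf (nat_lit 0) (nat_lit 6305869779) (nat_lit 0) (nat_lit 0) (nat_lit 0) (nat_lit 0) (nat_lit 0) (nat_lit 0) (nat_lit 1) (nat_lit 0) (nat_lit 1) (nat_lit 0) (nat_lit 423) (nat_lit 383) (nat_lit 274)) (XT.nd (nat_lit 94) (nat_lit 0) (nat_lit 0) (XT.lf (nat_lit 0) (nat_lit 6305763580) (nat_lit 0) (nat_lit 0) (nat_lit 0) (nat_lit 0) (nat_lit 0) (nat_lit 0) (nat_lit 1) (nat_lit 0) (nat_lit 1) (nat_lit 0) (nat_lit 424) (nat_lit 383) (nat_lit 273)) (XT.lf (nat_lit 0) (nat_lit 6305665247) (nat_lit 0) (nat_lit 0) (nat_lit 0) (nat_lit 0) (nat_lit 0) (nat_lit 0) (nat_lit 1) (nat_lit 0) (nat_lit 1) (nat_lit 0) (nat_lit 425) (nat_lit 383) (nat_lit 272)))))) (XT.nd (nat_lit 470) (nat_lit 0) (nat_lit 0) (XT.nd (nat_lit 188) (nat_lit 0) (nat_lit 0) (XT.nd (nat_lit 94) (nat_lit 0) (nat_lit 0) (XT.lf (nat_lit 0) (nat_lit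 6305574197) (nat_lit 0) (nat_lit 0) (nat_lit 0) (nat_lit 0) (nat_lit 0) (nat_lit 0) (nat_lit 1) (nat_lit 0) (nat_lit 1) (nat_lit 0) (nat_lit 426) (nat_lit 383) (nat_lit 271)) (XT.lf (nat_lit 0) (nat_lit 6305489893) (nat_lit 0) (nat_lit 0) (nat_lit 0) (nat_lit 0) (nat_lit 0) (nat_lit 0) (nat_lit 1) (nat_lit 0) (nat_lit 1) (nat_lit 0) (nat_lit 427) (nat_lit 383) (nat_lit 270))) (XT.nd (nat_lit 94) (nat_lit 0) (nat_lit 0) (XT.lf (nat_lit 0) (nat_lit 6305411833) (nat_lit 0) (nat_lit 0) (nat_lit 0) (nat_lit 0) (nat_lit 0) (nat_lit 0) (nat_lit 1) (nat_lit 0) (nat_lit 1) (nat_lit 0) (nat_lit 428) (nat_lit 383) (nat_lit 269)) (XT.nd (nat_lit 94) (nat_lit 0) (nat_lit 0) (XT.lf (nat_lit 0) (nat_lit 6305339555) (nat_lit 0) (nat_lit 0) (nat_lit 0) (nat_lit 0) (nat_lit 0) (nat_lit 0) (nat_lit 1) (nat_lit 0) (nat_lit 1) (nat_lit 0) (nat_lit 429) (nat_lit 383) (nat_lit 268))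 (XT.lf (nat_lit 0) (nat_lit 6305272631) (nat_lit 0) (nat_lit 0) (nat_lit 0) (nat_lit 0) (nat_lit 0) (nat_lit 0) (nat_lit 1) (nat_lit 0) (nat_lit 1) (nat_lit 0) (nat_lit 430) (nat_lit 383) (nat_lit 267))))) (XT.nd (nat_lit 188) (nat_lit 0) (nat_lit 0) (XT.nd (nat_lit 94) (nat_lit 0) (nat_lit 0) (XT.lf (nat_lit 0) (nat_lit 6305210665) (nat_lit 0) (nat_lit 0) (nat_lit 0) (nat_lit 0) (nat_lit 0) (nat_lit 0) (nat_lit 1) (nat_lit 0) (nat_lit 1) (nat_lit 0) (nat_lit 431) (nat_lit 383) (nat_lit 266)) (XT.lf (nat_lit 0) (nat_lit 6305153288) (nat_lit 0) (nat_lit 0) (nat_lit 0) (nat_lit 0) (nat_lit 0) (nat_lit 0) (nat_lit 1) (nat_lit 0) (nat_lit 1) (nat_lit 0) (nat_lit 432) (nat_lit 383) (nat_lit 265))) (XT.nd (nat_lit 94) (nat_lit 0) (nat_lit 0) (XT.lf (nat_lit 0) (nat_lit 6305100162) (nat_lit 0) (nat_lit 0) (nat_lit 0) (nat_lit 0) (nat_lit 0) (nat_lit 0) (nat_lit 1)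 (nat_lit 0) (nat_lit 1) (nat_lit 0) (nat_lit 433) (nat_lit 383) (nat_lit 264)) (XT.nd (nat_lit 94) (nat_lit 0) (nat_lit 0) (XT.lf (nat_lit 0) (nat_lit 6305050971) (nat_lit 0) (nat_lit 0) (nat_lit 0) (nat_lit 0) (nat_lit 0) (nat_lit 0) (nat_lit 1) (nat_lit 0) (nat_lit 1) (nat_lit 0) (nat_lit 434) (nat_lit 383) (nat_lit 263)) (XT.lf (nat_lit 0) (nat_lit 6305005424) (nat_lit 0) (nat_lit 0) (nat_lit 0) (nat_lit 0) (nat_lit 0) (nat_lit 0) (nat_lit 1) (nat_lit 0) (nat_lit 1) (nat_lit 0) (nat_lit 435) (nat_lit 383) (nat_lit 262))))))))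
noncomputable def ec89 : XT := (XT.nd (nat_lit 57716) (nat_lit 0) (nat_lit 3024) (XT.nd (nat_lit 56776) (nat_lit 0) (nat_lit 7224) (XT.nd (nat_lit 56306) (nat_lit 0) (nat_lit 10836) (XT.nd (nat_lit 56118) (nat_lit 0) (nat_lit 10752) (XT.nd (nat_lit 94) (nat_lit 0) (nat_lit 0) (XT.lf (nat_lit 0) (nat_lit 6304963251) (nat_lit 0) (nat_lit 0) (nat_lit 0) (nat_lit 0) (nat_lit 0) (nat_lit 0) (nat_lit 1) (nat_lit 0) (nat_lit 1) (nat_lit 0) (nat_lit 436) (nat_lit 383) (nat_lit 261)) (XT.lf (nat_lit 0) (nat_lit 6304924201) (nat_lit 0) (nat_lit 0) (nat_lit 0) (nat_lit 0) (nat_lit 0) (nat_lit 0) (nat_lit 1) (nat_lit 0) (nat_lit 1) (nat_lit 0) (nat_lit 437) (nat_lit 383) (nat_lit 260))) (XT.nd (nat_lit 94) (nat_lit 0) (nat_lit 84) (XT.lf (nat_lit 924) (nat_lit 3407374042) (nat_lit 0) (nat_lit 6049784780) (nat_lit 924) (nat_lit 3407374042) (nat_lit 139) (nat_lit 1) (nat_lit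 128) (nat_lit 0) (nat_lit 139) (nat_lit 0) (nat_lit 312) (nat_lit 384) (nat_lit 384)) (XT.lf (nat_lit 924) (nat_lit 1271055070) (nat_lit 0) (nat_lit 11877561071) (nat_lit 840) (nat_lit 11616215045) (nat_lit 140) (nat_lit 1) (nat_lit 129) (nat_lit 1) (nat_lit 139) (nat_lit 1) (nat_lit 313) (nat_lit 384) (nat_lit 383)))) (XT.nd (nat_lit 188) (nat_lit 0) (nat_lit 168) (XT.nd (nat_lit 94) (nat_lit 0) (nat_lit 84) (XT.lf (nat_lit 924) (nat_lit 11673907157) (nat_lit 84) (nat_lit 7954406653) (nat_lit 0) (nat_lit 4218654439) (nat_lit 140) (nat_lit 1) (nat_lit 130) (nat_lit 1) (nat_lit 129) (nat_lit 1) (nat_lit 314) (nat_lit 384) (nat_lit 382)) (XT.lf (nat_lit 924) (nat_lit 10087212124) (nat_lit 84) (nat_lit 3333636693) (nat_lit 0) (nat_lit 9554188684) (nat_lit 141) (nat_lit 1) (nat_lit 131) (nat_lit 1) (nat_lit 130) (nat_lit 1) (nat_lit 315) (nat_lit 384) (nat_lit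 381))) (XT.nd (nat_lit 94) (nat_lit 0) (nat_lit 84) (XT.lf (nat_lit 924) (nat_lit 7465394556) (nat_lit 0) (nat_lit 13967400342) (nat_lit 840) (nat_lit 714011509) (nat_lit 142) (nat_lit 1) (nat_lit 131) (nat_lit 1) (nat_lit 141) (nat_lit 1) (nat_lit 316) (nat_lit 384) (nat_lit 380)) (XT.nd (nat_lit 94) (nat_lit 0) (nat_lit 0) (XT.lf (nat_lit 924) (nat_lit 1791248227) (nat_lit 0) (nat_lit 15402939171) (nat_lit 840) (nat_lit 4163941748) (nat_lit 143) (nat_lit 1) (nat_lit 132) (nat_lit 1) (nat_lit 142) (nat_lit 1) (nat_lit 317) (nat_lit 384) (nat_lit 379)) (XT.lf (nat_lit 924) (nat_lit 3442050531) (nat_lit 84) (nat_lit 13386408455) (nat_lit 0) (nat_lit 3777809622) (nat_lit 143) (nat_lit 1) (nat_lit 133) (nat_lit 1) (nat_lit 132) (nat_lit 1) (nat_lit 318) (nat_lit 384) (nat_lit 378)))))) (XT.nd (nat_lit 470) (nat_lit 1344) (nat_lit 0) (XT.nd (nat_lit 188) (nat_lit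 1176) (nat_lit 0) (XT.nd (nat_lit 94) (nat_lit 588) (nat_lit 0) (XT.lf (nat_lit 924) (nat_lit 706918689) (nat_lit 0) (nat_lit 10007225797) (nat_lit 840) (nat_lit 9176521201) (nat_lit 134) (nat_lit 1) (nat_lit 123) (nat_lit 1) (nat_lit 133) (nat_lit 1) (nat_lit 319) (nat_lit 384) (nat_lit 377)) (XT.lf (nat_lit 84) (nat_lit 4894852265) (nat_lit 0) (nat_lit 2121167274) (nat_lit 588) (nat_lit 12192926335) (nat_lit 117) (nat_lit 1) (nat_lit 116) (nat_lit 1) (nat_lit 123) (nat_lit 1) (nat_lit 320) (nat_lit 384) (nat_lit 376))) (XT.nd (nat_lit 94) (nat_lit 756) (nat_lit 0) (XT.lf (nat_lit 504) (nat_lit 13489596744) (nat_lit 0) (nat_lit 4391154552) (nat_lit 420) (nat_lit 678899626) (nat_lit 117) (nat_lit 1) (nat_lit 111) (nat_lit 1) (nat_lit 116) (nat_lit 1) (nat_lit 321) (nat_lit 384) (nat_lit 375)) (XT.nd (nat_lit 94) (nat_lit 336) (nat_lit 0) (XT.lf (nat_lit 504)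 (nat_lit 9734221468) (nat_lit 0) (nat_lit 2046736052) (nat_lit 420) (nat_lit 6157316972) (nat_lit 112) (nat_lit 1) (nat_lit 106) (nat_lit 1) (nat_lit 111) (nat_lit 1) (nat_lit 322) (nat_lit 384) (nat_lit 374)) (XT.lf (nat_lit 420) (nat_lit 5923149614) (nat_lit 0) (nat_lit 37683736) (nat_lit 336) (nat_lit 11386193905) (nat_lit 107) (nat_lit 1) (nat_lit 102) (nat_lit 1) (nat_lit 106) (nat_lit 1) (nat_lit 323) (nat_lit 384) (nat_lit 373))))) (XT.nd (nat_lit 188) (nat_lit 924) (nat_lit 0) (XT.nd (nat_lit 94) (nat_lit 420) (nat_lit 0) (XT.lf (nat_lit 84) (nat_lit 436981985) (nat_lit 0) (nat_lit 14737149993) (nat_lit 420) (nat_lit 1608846467) (nat_lit 103) (nat_lit 1) (nat_lit 102) (nat_lit 1) (nat_lit 107) (nat_lit 1) (nat_lit 324) (nat_lit 384) (nat_lit 372)) (XT.lf (nat_lit 84) (nat_lit 11282988213) (nat_lit 0) (nat_lit 1871404322) (nat_lit 420) (nat_lit 3086285600)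 (nat_lit 98) (nat_lit 1) (nat_lit 97) (nat_lit 1) (nat_lit 102) (nat_lit 1) (nat_lit 325) (nat_lit 384) (nat_lit 371))) (XT.nd (nat_lit 94) (nat_lit 588) (nat_lit 0) (XT.lf (nat_lit 84) (nat_lit 5645164921) (nat_lit 0) (nat_lit 5732443644) (nat_lit 420) (nat_lit 4344730852) (nat_lit 94) (nat_lit 1) (nat_lit 93) (nat_lit 1) (nat_lit 98) (nat_lit 1) (nat_lit 326) (nat_lit 384) (nat_lit 370)) (XT.nd (nat_lit 94) (nat_lit 252) (nat_lit 0) (XT.lf (nat_lit 84) (nat_lit 278632822) (nat_lit 0) (nat_lit 9584556760) (nat_lit 420) (nat_lit 5365352740) (nat_lit 90) (nat_lit 1) (nat_lit 89) (nat_lit 1) (nat_lit 94) (nat_lit 1) (nat_lit 327) (nat_lit 384) (nat_lit 369)) (XT.lf (nat_lit 336) (nat_lit 1258290123) (nat_lit 0) (nat_lit 8509213797) (nat_lit 252) (nat_lit 4986594848) (nat_lit 90) (nat_lit 1) (nat_lit 86) (nat_lit 1) (nat_lit 89) (nat_lit 1) (nat_lit 328) (nat_lit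 384) (nat_lit 368))))))) (XT.nd (nat_lit 846) (nat_lit 1764) (nat_lit 0) (XT.nd (nat_lit 376) (nat_lit 1176) (nat_lit 0) (XT.nd (nat_lit 188) (nat_lit 588) (nat_lit 0) (XT.nd (nat_lit 94) (nat_lit 252) (nat_lit 0) (XT.lf (nat_lit 84) (nat_lit 4347730678) (nat_lit 0) (nat_lit 2979961622) (nat_lit 420) (nat_lit 6971563035) (nat_lit 82) (nat_lit 1) (nat_lit 81) (nat_lit 1) (nat_lit 86) (nat_lit 1) (nat_lit 329) (nat_lit 384) (nat_lit 367)) (XT.lf (nat_lit 336) (nat_lit 6731332855) (nat_lit 0) (nat_lit 6323217213) (nat_lit 252) (nat_lit 809364298) (nat_lit 82) (nat_lit 1) (nat_lit 78) (nat_lit 1) (nat_lit 81) (nat_lit 1) (nat_lit 330) (nat_lit 384) (nat_lit 366))) (XT.nd (nat_lit 94) (nat_lit 336) (nat_lit 0) (XT.lf (nat_lit 336) (nat_lit 2157359660) (nat_lit 0) (nat_lit 5444031087) (nat_lit 252) (nat_lit 5843912925) (nat_lit 79) (nat_lit 1) (nat_lit 75) (nat_lit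 1) (nat_lit 78) (nat_lit 1) (nat_lit 331) (nat_lit 384) (nat_lit 365)) (XT.lf (nat_lit 84) (nat_lit 2458868725) (nat_lit 0) (nat_lit 2251307998) (nat_lit 336) (nat_lit 8333901945) (nat_lit 72) (nat_lit 1) (nat_lit 71) (nat_lit 1) (nat_lit 75) (nat_lit 1) (nat_lit 332) (nat_lit 384) (nat_lit 364)))) (XT.nd (nat_lit 188) (nat_lit 756) (nat_lit 0) (XT.nd (nat_lit 94) (nat_lit 168) (nat_lit 0) (XT.lf (nat_lit 336) (nat_lit 6118572098) (nat_lit 0) (nat_lit 4071071137) (nat_lit 252) (nat_lit 2467896708) (nat_lit 72) (nat_lit 1) (nat_lit 68) (nat_lit 1) (nat_lit 71) (nat_lit 1) (nat_lit 333) (nat_lit 384) (nat_lit 363)) (XT.lf (nat_lit 252) (nat_lit 1516803057) (nat_lit 0) (nat_lit 3551712622) (nat_lit 168) (nat_lit 7218079588) (nat_lit 69) (nat_lit 1) (nat_lit 66) (nat_lit 1) (nat_lit 68) (nat_lit 1) (nat_lit 334) (nat_lit 384) (nat_lit 362))) (XT.nd (nat_lit 94)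 (nat_lit 420) (nat_lit 0) (XT.lf (nat_lit 84) (nat_lit 256956128) (nat_lit 0) (nat_lit 2875394860) (nat_lit 336) (nat_lit 8797678398) (nat_lit 63) (nat_lit 1) (nat_lit 62) (nat_lit 1) (nat_lit 66) (nat_lit 1) (nat_lit 335) (nat_lit 384) (nat_lit 361)) (XT.nd (nat_lit 94) (nat_lit 252) (nat_lit 0) (XT.lf (nat_lit 252) (nat_lit 4407551371) (nat_lit 0) (nat_lit 2754341484) (nat_lit 168) (nat_lit 4422889694) (nat_lit 63) (nat_lit 1) (nat_lit 60) (nat_lit 1) (nat_lit 62) (nat_lit 1) (nat_lit 336) (nat_lit 384) (nat_lit 360)) (XT.lf (nat_lit 84) (nat_lit 2391353181) (nat_lit 0) (nat_lit 110458102) (nat_lit 252) (nat_lit 8752789812) (nat_lit 58) (nat_lit 1) (nat_lit 57) (nat_lit 1) (nat_lit 60) (nat_lit 1) (nat_lit 337) (nat_lit 384) (nat_lit 359)))))) (XT.nd (nat_lit 470) (nat_lit 840) (nat_lit 0) (XT.nd (nat_lit 188) (nat_lit 588) (nat_lit 0) (XT.nd (nat_lit 94)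 (nat_lit 168) (nat_lit 0) (XT.lf (nat_lit 252) (nat_lit 6537497817) (nat_lit 0) (nat_lit 2265389576) (nat_lit 168) (nat_lit 2131136992) (nat_lit 58) (nat_lit 1) (nat_lit 55) (nat_lit 1) (nat_lit 57) (nat_lit 1) (nat_lit 338) (nat_lit 384) (nat_lit 358)) (XT.lf (nat_lit 252) (nat_lit 2030808797) (nat_lit 0) (nat_lit 2105930122) (nat_lit 168) (nat_lit 6488965806) (nat_lit 56) (nat_lit 1) (nat_lit 53) (nat_lit 1) (nat_lit 55) (nat_lit 1) (nat_lit 339) (nat_lit 384) (nat_lit 357))) (XT.nd (nat_lit 94) (nat_lit 336) (nat_lit 0) (XT.lf (nat_lit 252) (nat_lit 8061564584) (nat_lit 0) (nat_lit 2012045303) (nat_lit 168) (nat_lit 255251289) (nat_lit 53) (nat_lit 1) (nat_lit 50) (nat_lit 1) (nat_lit 52) (nat_lit 1) (nat_lit 340) (nat_lit 384) (nat_lit 356)) (XT.nd (nat_lit 94) (nat_lit 168) (nat_lit 0) (XT.lf (nat_lit 252) (nat_lit 3607982685) (nat_lit 0) (nat_lit 1920824910)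 (nat_lit 168) (nat_lit 4511458378) (nat_lit 51) (nat_lit 1) (nat_lit 48) (nat_lit 1) (nat_lit 50) (nat_lit 1) (nat_lit 341) (nat_lit 384) (nat_lit 355)) (XT.lf (nat_lit 84) (nat_lit 1235873370) (nat_lit 0) (nat_lit 679291694) (nat_lit 168) (nat_lit 7848475890) (nat_lit 47) (nat_lit 1) (nat_lit 46) (nat_lit 1) (nat_lit 48) (nat_lit 1) (nat_lit 342) (nat_lit 384) (nat_lit 354))))) (XT.nd (nat_lit 188) (nat_lit 588) (nat_lit 0) (XT.nd (nat_lit 94) (nat_lit 84) (nat_lit 0) (XT.lf (nat_lit 252) (nat_lit 4733880781) (nat_lit 0) (nat_lit 1894885598) (nat_lit 168) (nat_lit 2865229924) (nat_lit 47) (nat_lit 1) (nat_lit 44) (nat_lit 1) (nat_lit 46) (nat_lit 1) (nat_lit 343) (nat_lit 384) (nat_lit 353)) (XT.lf (nat_lit 168) (nat_lit 509771692) (nat_lit 0) (nat_lit 1941426437) (nat_lit 84) (nat_lit 6783798747) (nat_lit 45) (nat_lit 1) (nat_lit 43) (nat_lit 1) (nat_lit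 44) (nat_lit 1) (nat_lit 344) (nat_lit 384) (nat_lit 352))) (XT.nd (nat_lit 94) (nat_lit 336) (nat_lit 0) (XT.lf (nat_lit 252) (nat_lit 5502797216) (nat_lit 0) (nat_lit 1985561169) (nat_lit 168) (nat_lit 1494780479) (nat_lit 43) (nat_lit 1) (nat_lit 40) (nat_lit 1) (nat_lit 42) (nat_lit 1) (nat_lit 345) (nat_lit 384) (nat_lit 351)) (XT.nd (nat_lit 94) (nat_lit 252) (nat_lit 0) (XT.lf (nat_lit 168) (nat_lit 1383994077) (nat_lit 0) (nat_lit 2059803302) (nat_lit 84) (nat_lit 5295971593) (nat_lit 41) (nat_lit 1) (nat_lit 39) (nat_lit 1) (nat_lit 40) (nat_lit 1) (nat_lit 346) (nat_lit 384) (nat_lit 350)) (XT.lf (nat_lit 252) (nat_lit 5990969998) (nat_lit 0) (nat_lit 2159148224) (nat_lit 168) (nat_lit 354334707) (nat_lit 39) (nat_lit 1) (nat_lit 36) (nat_lit 1) (nat_lit 38) (nat_lit 1) (nat_lit 347) (nat_lit 384) (nat_lit 349))))))))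
noncomputable def ec90 : XT := (XT.nd (nat_lit 1692) (nat_lit 588) (nat_lit 0) (XT.nd (nat_lit 846) (nat_lit 1176) (nat_lit 0) (XT.nd (nat_lit 376) (nat_lit 588) (nat_lit 0) (XT.nd (nat_lit 188) (nat_lit 336) (nat_lit 0) (XT.nd (nat_lit 94) (nat_lit 252) (nat_lit 0) (XT.lf (nat_lit 168) (nat_lit 1991757350) (nat_lit 0) (nat_lit 2250937969) (nat_lit 84) (nat_lit 4032749764) (nat_lit 37) (nat_lit 1) (nat_lit 35) (nat_lit 1) (nat_lit 36) (nat_lit 1) (nat_lit 348) (nat_lit 384) (nat_lit 348)) (XT.lf (nat_lit 84) (nat_lit 574900435) (nat_lit 0) (nat_lit 1804459222) (nat_lit 252) (nat_lit 5675304700) (nat_lit 33) (nat_lit 1) (nat_lit 32) (nat_lit 1) (nat_lit 35) (nat_lit 1) (nat_lit 349) (nat_lit 384) (nat_lit 347))) (XT.nd (nat_lit 94) (nat_lit 252) (nat_lit 0) (XT.lf (nat_lit 168) (nat_lit 2390288522) (nat_lit 0) (nat_lit 2490567342) (nat_lit 84) (nat_lit 2958510722)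 (nat_lit 33) (nat_lit 1) (nat_lit 31) (nat_lit 1) (nat_lit 32) (nat_lit 1) (nat_lit 350) (nat_lit 384) (nat_lit 346)) (XT.lf (nat_lit 84) (nat_lit 1337004349) (nat_lit 0) (nat_lit 1294979120) (nat_lit 252) (nat_lit 4999651436) (nat_lit 29) (nat_lit 1) (nat_lit 28) (nat_lit 1) (nat_lit 31) (nat_lit 1) (nat_lit 351) (nat_lit 384) (nat_lit 345)))) (XT.nd (nat_lit 188) (nat_lit 336) (nat_lit 0) (XT.nd (nat_lit 94) (nat_lit 168) (nat_lit 0) (XT.lf (nat_lit 168) (nat_lit 2625737304) (nat_lit 0) (nat_lit 2759751338) (nat_lit 84) (nat_lit 2043722048) (nat_lit 29) (nat_lit 1) (nat_lit 27) (nat_lit 1) (nat_lit 28) (nat_lit 1) (nat_lit 352) (nat_lit 384) (nat_lit 344)) (XT.lf (nat_lit 84) (nat_lit 1968379571) (nat_lit 0) (nat_lit 937897645) (nat_lit 168) (nat_lit 4327194398) (nat_lit 26) (nat_lit 1) (nat_lit 25) (nat_lit 1) (nat_lit 27) (nat_lit 1) (nat_lit 353) (nat_lit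 384) (nat_lit 343))) (XT.nd (nat_lit 94) (nat_lit 252) (nat_lit 0) (XT.lf (nat_lit 168) (nat_lit 2735245981) (nat_lit 0) (nat_lit 3043835450) (nat_lit 84) (nat_lit 1263855091) (nat_lit 26) (nat_lit 1) (nat_lit 24) (nat_lit 1) (nat_lit 25) (nat_lit 1) (nat_lit 354) (nat_lit 384) (nat_lit 342)) (XT.nd (nat_lit 94) (nat_lit 84) (nat_lit 0) (XT.lf (nat_lit 84) (nat_lit 2489817141) (nat_lit 0) (nat_lit 699683873) (nat_lit 168) (nat_lit 3668761075) (nat_lit 23) (nat_lit 1) (nat_lit 22) (nat_lit 1) (nat_lit 24) (nat_lit 1) (nat_lit 355) (nat_lit 384) (nat_lit 341)) (XT.lf (nat_lit 168) (nat_lit 2748637162) (nat_lit 0) (nat_lit 3331607623) (nat_lit 84) (nat_lit 598495921) (nat_lit 23) (nat_lit 1) (nat_lit 21) (nat_lit 1) (nat_lit 22) (nat_lit 1) (nat_lit 356) (nat_lit 384) (nat_lit 340)))))) (XT.nd (nat_lit 376) (nat_lit 672) (nat_lit 0) (XT.nd (nat_lit 188) (nat_lit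 252) (nat_lit 0) (XT.nd (nat_lit 94) (nat_lit 84) (nat_lit 0) (XT.lf (nat_lit 84) (nat_lit 2918596733) (nat_lit 0) (nat_lit 553375822) (nat_lit 168) (nat_lit 3032338510) (nat_lit 20) (nat_lit 1) (nat_lit 19) (nat_lit 1) (nat_lit 21) (nat_lit 1) (nat_lit 357) (nat_lit 384) (nat_lit 339)) (XT.lf (nat_lit 168) (nat_lit 2689789688) (nat_lit 0) (nat_lit 3614613524) (nat_lit 84) (nat_lit 30617528) (nat_lit 20) (nat_lit 1) (nat_lit 18) (nat_lit 1) (nat_lit 19) (nat_lit 1) (nat_lit 358) (nat_lit 384) (nat_lit 338))) (XT.nd (nat_lit 94) (nat_lit 84) (nat_lit 0) (XT.lf (nat_lit 84) (nat_lit 3269108200) (nat_lit 0) (nat_lit 477347018) (nat_lit 168) (nat_lit 2423652134) (nat_lit 17) (nat_lit 1) (nat_lit 16) (nat_lit 1) (nat_lit 18) (nat_lit 1) (nat_lit 359) (nat_lit 384) (nat_lit 337)) (XT.lf (nat_lit 0) (nat_lit 439484873) (nat_lit 0) (nat_lit 3439673164) (nat_lit 168)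 (nat_lit 2130832254) (nat_lit 15) (nat_lit 3) (nat_lit 15) (nat_lit 1) (nat_lit 17) (nat_lit 1) (nat_lit 360) (nat_lit 384) (nat_lit 336)))) (XT.nd (nat_lit 188) (nat_lit 420) (nat_lit 0) (XT.nd (nat_lit 94) (nat_lit 84) (nat_lit 0) (XT.lf (nat_lit 84) (nat_lit 3553360616) (nat_lit 0) (nat_lit 454301173) (nat_lit 168) (nat_lit 1846634716) (nat_lit 14) (nat_lit 1) (nat_lit 13) (nat_lit 1) (nat_lit 15) (nat_lit 1) (nat_lit 361) (nat_lit 384) (nat_lit 335)) (XT.lf (nat_lit 0) (nat_lit 839578697) (nat_lit 0) (nat_lit 3289271926) (nat_lit 168) (nat_lit 1573898571) (nat_lit 12) (nat_lit 3) (nat_lit 12) (nat_lit 1) (nat_lit 14) (nat_lit 1) (nat_lit 362) (nat_lit 384) (nat_lit 334))) (XT.nd (nat_lit 94) (nat_lit 252) (nat_lit 0) (XT.lf (nat_lit 84) (nat_lit 3781399344) (nat_lit 0) (nat_lit 470453002) (nat_lit 168) (nat_lit 1303805816) (nat_lit 11) (nat_lit 1) (nat_lit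 10) (nat_lit 1) (nat_lit 12) (nat_lit 1) (nat_lit 363) (nat_lit 384) (nat_lit 333)) (XT.nd (nat_lit 94) (nat_lit 168) (nat_lit 0) (XT.lf (nat_lit 0) (nat_lit 1180354212) (nat_lit 0) (nat_lit 3180560977) (nat_lit 168) (nat_lit 1051236747) (nat_lit 9) (nat_lit 3) (nat_lit 9) (nat_lit 1) (nat_lit 11) (nat_lit 1) (nat_lit 364) (nat_lit 384) (nat_lit 332)) (XT.lf (nat_lit 84) (nat_lit 3961647937) (nat_lit 0) (nat_lit 514860939) (nat_lit 168) (nat_lit 796578374) (nat_lit 8) (nat_lit 1) (nat_lit 7) (nat_lit 1) (nat_lit 9) (nat_lit 1) (nat_lit 365) (nat_lit 384) (nat_lit 331))))))) (XT.nd (nat_lit 846) (nat_lit 0) (nat_lit 0) (XT.nd (nat_lit 376) (nat_lit 0) (nat_lit 0) (XT.nd (nat_lit 188) (nat_lit 336) (nat_lit 0) (XT.nd (nat_lit 94) (nat_lit 168) (nat_lit 0) (XT.lf (nat_lit 0) (nat_lit 1469998198) (nat_lit 0) (nat_lit 3103193349) (nat_lit 168) (nat_lit 563946301)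 (nat_lit 6) (nat_lit 3) (nat_lit 6) (nat_lit 1) (nat_lit 8) (nat_lit 1) (nat_lit 366) (nat_lit 384) (nat_lit 330)) (XT.lf (nat_lit 84) (nat_lit 4101188555) (nat_lit 0) (nat_lit 578883766) (nat_lit 168) (nat_lit 325506010) (nat_lit 5) (nat_lit 1) (nat_lit 4) (nat_lit 1) (nat_lit 6) (nat_lit 1) (nat_lit 367) (nat_lit 384) (nat_lit 329))) (XT.nd (nat_lit 94) (nat_lit 252) (nat_lit 0) (XT.lf (nat_lit 0) (nat_lit 1715434718) (nat_lit 0) (nat_lit 3048960055) (nat_lit 168) (nat_lit 112345641) (nat_lit 3) (nat_lit 3) (nat_lit 3) (nat_lit 1) (nat_lit 5) (nat_lit 1) (nat_lit 368) (nat_lit 384) (nat_lit 328)) (XT.lf (nat_lit 0) (nat_lit 6893497315) (nat_lit 0) (nat_lit 0) (nat_lit 0) (nat_lit 0) (nat_lit 0) (nat_lit 0) (nat_lit 1) (nat_lit 0) (nat_lit 1) (nat_lit 0) (nat_lit 369) (nat_lit 384) (nat_lit 327)))) (XT.nd (nat_lit 188) (nat_lit 0) (nat_lit 0) (XT.nd (nat_lit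 94) (nat_lit 0) (nat_lit 0) (XT.lf (nat_lit 0) (nat_lit 6887222771) (nat_lit 0) (nat_lit 0) (nat_lit 0) (nat_lit 0) (nat_lit 0) (nat_lit 0) (nat_lit 1) (nat_lit 0) (nat_lit 1) (nat_lit 0) (nat_lit 370) (nat_lit 384) (nat_lit 326)) (XT.lf (nat_lit 0) (nat_lit 6881413008) (nat_lit 0) (nat_lit 0) (nat_lit 0) (nat_lit 0) (nat_lit 0) (nat_lit 0) (nat_lit 1) (nat_lit 0) (nat_lit 1) (nat_lit 0) (nat_lit 371) (nat_lit 384) (nat_lit 325))) (XT.nd (nat_lit 94) (nat_lit 0) (nat_lit 0) (XT.lf (nat_lit 0) (nat_lit 6876033598) (nat_lit 0) (nat_lit 0) (nat_lit 0) (nat_lit 0) (nat_lit 0) (nat_lit 0) (nat_lit 1) (nat_lit 0) (nat_lit 1) (nat_lit 0) (nat_lit 372) (nat_lit 384) (nat_lit 324)) (XT.nd (nat_lit 94) (nat_lit 0) (nat_lit 0) (XT.lf (nat_lit 0) (nat_lit 6871052662) (nat_lit 0) (nat_lit 0) (nat_lit 0) (nat_lit 0) (nat_lit 0) (nat_lit 0) (nat_lit 1) (nat_lit 0) (nat_lit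 1) (nat_lit 0) (nat_lit 373) (nat_lit 384) (nat_lit 323)) (XT.lf (nat_lit 0) (nat_lit 6866440685) (nat_lit 0) (nat_lit 0) (nat_lit 0) (nat_lit 0) (nat_lit 0) (nat_lit 0) (nat_lit 1) (nat_lit 0) (nat_lit 1) (nat_lit 0) (nat_lit 374) (nat_lit 384) (nat_lit 322)))))) (XT.nd (nat_lit 470) (nat_lit 0) (nat_lit 0) (XT.nd (nat_lit 188) (nat_lit 0) (nat_lit 0) (XT.nd (nat_lit 94) (nat_lit 0) (nat_lit 0) (XT.lf (nat_lit 0) (nat_lit 6862170336) (nat_lit 0) (nat_lit 0) (nat_lit 0) (nat_lit 0) (nat_lit 0) (nat_lit 0) (nat_lit 1) (nat_lit 0) (nat_lit 1) (nat_lit 0) (nat_lit 375) (nat_lit 384) (nat_lit 321)) (XT.lf (nat_lit 0) (nat_lit 6858216309) (nat_lit 0) (nat_lit 0) (nat_lit 0) (nat_lit 0) (nat_lit 0) (nat_lit 0) (nat_lit 1) (nat_lit 0) (nat_lit 1) (nat_lit 0) (nat_lit 376) (nat_lit 384) (nat_lit 320))) (XT.nd (nat_lit 94) (nat_lit 0) (nat_lit 0) (XT.lf (nat_lit 0)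 (nat_lit 6854555173) (nat_lit 0) (nat_lit 0) (nat_lit 0) (nat_lit 0) (nat_lit 0) (nat_lit 0) (nat_lit 1) (nat_lit 0) (nat_lit 1) (nat_lit 0) (nat_lit 377) (nat_lit 384) (nat_lit 319)) (XT.nd (nat_lit 94) (nat_lit 0) (nat_lit 0) (XT.lf (nat_lit 0) (nat_lit 6851165232) (nat_lit 0) (nat_lit 0) (nat_lit 0) (nat_lit 0) (nat_lit 0) (nat_lit 0) (nat_lit 1) (nat_lit 0) (nat_lit 1) (nat_lit 0) (nat_lit 378) (nat_lit 384) (nat_lit 318)) (XT.lf (nat_lit 0) (nat_lit 6848026398) (nat_lit 0) (nat_lit 0) (nat_lit 0) (nat_lit 0) (nat_lit 0) (nat_lit 0) (nat_lit 1) (nat_lit 0) (nat_lit 1) (nat_lit 0) (nat_lit 379) (nat_lit 384) (nat_lit 317))))) (XT.nd (nat_lit 188) (nat_lit 0) (nat_lit 0) (XT.nd (nat_lit 94) (nat_lit 0) (nat_lit 0) (XT.lf (nat_lit 0) (nat_lit 6845120070) (nat_lit 0) (nat_lit 0) (nat_lit 0) (nat_lit 0) (nat_lit 0) (nat_lit 0) (nat_lit 1) (nat_lit 0) (nat_lit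 1) (nat_lit 0) (nat_lit 380) (nat_lit 384) (nat_lit 316)) (XT.lf (nat_lit 0) (nat_lit 6842429025) (nat_lit 0) (nat_lit 0) (nat_lit 0) (nat_lit 0) (nat_lit 0) (nat_lit 0) (nat_lit 1) (nat_lit 0) (nat_lit 1) (nat_lit 0) (nat_lit 381) (nat_lit 384) (nat_lit 315))) (XT.nd (nat_lit 94) (nat_lit 0) (nat_lit 0) (XT.lf (nat_lit 0) (nat_lit 6839937318) (nat_lit 0) (nat_lit 0) (nat_lit 0) (nat_lit 0) (nat_lit 0) (nat_lit 0) (nat_lit 1) (nat_lit 0) (nat_lit 1) (nat_lit 0) (nat_lit 382) (nat_lit 384) (nat_lit 314)) (XT.nd (nat_lit 94) (nat_lit 0) (nat_lit 0) (XT.lf (nat_lit 0) (nat_lit 6837630181) (nat_lit 0) (nat_lit 0) (nat_lit 0) (nat_lit 0) (nat_lit 0) (nat_lit 0) (nat_lit 1) (nat_lit 0) (nat_lit 1) (nat_lit 0) (nat_lit 383) (nat_lit 384) (nat_lit 313)) (XT.lf (nat_lit 0) (nat_lit 6835493943) (nat_lit 0) (nat_lit 0) (nat_lit 0) (nat_lit 0) (nat_lit 0) (nat_lit 0)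 (nat_lit 1) (nat_lit 0) (nat_lit 1) (nat_lit 0) (nat_lit 384) (nat_lit 384) (nat_lit 312))))))))
noncomputable def ec91 : XT := (XT.nd (nat_lit 1786) (nat_lit 0) (nat_lit 0) (XT.nd (nat_lit 846) (nat_lit 0) (nat_lit 0) (XT.nd (nat_lit 376) (nat_lit 0) (nat_lit 0) (XT.nd (nat_lit 188) (nat_lit 0) (nat_lit 0) (XT.nd (nat_lit 94) (nat_lit 0) (nat_lit 0) (XT.lf (nat_lit 0) (nat_lit 6833515945) (nat_lit 0) (nat_lit 0) (nat_lit 0) (nat_lit 0) (nat_lit 0) (nat_lit 0) (nat_lit 1) (nat_lit 0) (nat_lit 1) (nat_lit 0) (nat_lit 385) (nat_lit 384) (nat_lit 311)) (XT.lf (nat_lit 0) (nat_lit 6831684465) (nat_lit 0) (nat_lit 0) (nat_lit 0) (nat_lit 0) (nat_lit 0) (nat_lit 0) (nat_lit 1) (nat_lit 0) (nat_lit 1) (nat_lit 0) (nat_lit 386) (nat_lit 384) (nat_lit 310))) (XT.nd (nat_lit 94) (nat_lit 0) (nat_lit 0) (XT.lf (nat_lit 0) (nat_lit 6829988651) (nat_lit 0) (nat_lit 0)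 (nat_lit 0) (nat_lit 0) (nat_lit 0) (nat_lit 0) (nat_lit 1) (nat_lit 0) (nat_lit 1) (nat_lit 0) (nat_lit 387) (nat_lit 384) (nat_lit 309)) (XT.lf (nat_lit 0) (nat_lit 6828418452) (nat_lit 0) (nat_lit 0) (nat_lit 0) (nat_lit 0) (nat_lit 0) (nat_lit 0) (nat_lit 1) (nat_lit 0) (nat_lit 1) (nat_lit 0) (nat_lit 388) (nat_lit 384) (nat_lit 308)))) (XT.nd (nat_lit 188) (nat_lit 0) (nat_lit 0) (XT.nd (nat_lit 94) (nat_lit 0) (nat_lit 0) (XT.lf (nat_lit 0) (nat_lit 6826964565) (nat_lit 0) (nat_lit 0) (nat_lit 0) (nat_lit 0) (nat_lit 0) (nat_lit 0) (nat_lit 1) (nat_lit 0) (nat_lit 1) (nat_lit 0) (nat_lit 389) (nat_lit 384) (nat_lit 307)) (XT.lf (nat_lit 0) (nat_lit 6825618373) (nat_lit 0) (nat_lit 0) (nat_lit 0) (nat_lit 0) (nat_lit 0) (nat_lit 0) (nat_lit 1) (nat_lit 0) (nat_lit 1) (nat_lit 0) (nat_lit 390) (nat_lit 384) (nat_lit 306))) (XT.nd (nat_lit 94) (nat_lit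 0) (nat_lit 0) (XT.lf (nat_lit 0) (nat_lit 6824371898) (nat_lit 0) (nat_lit 0) (nat_lit 0) (nat_lit 0) (nat_lit 0) (nat_lit 0) (nat_lit 1) (nat_lit 0) (nat_lit 1) (nat_lit 0) (nat_lit 391) (nat_lit 384) (nat_lit 305)) (XT.nd (nat_lit 94) (nat_lit 0) (nat_lit 0) (XT.lf (nat_lit 0) (nat_lit 6823217756) (nat_lit 0) (nat_lit 0) (nat_lit 0) (nat_lit 0) (nat_lit 0) (nat_lit 0) (nat_lit 1) (nat_lit 0) (nat_lit 1) (nat_lit 0) (nat_lit 392) (nat_lit 384) (nat_lit 304)) (XT.lf (nat_lit 0) (nat_lit 6822149105) (nat_lit 0) (nat_lit 0) (nat_lit 0) (nat_lit 0) (nat_lit 0) (nat_lit 0) (nat_lit 1) (nat_lit 0) (nat_lit 1) (nat_lit 0) (nat_lit 393) (nat_lit 384) (nat_lit 303)))))) (XT.nd (nat_lit 470) (nat_lit 0) (nat_lit 0) (XT.nd (nat_lit 188) (nat_lit 0) (nat_lit 0) (XT.nd (nat_lit 94) (nat_lit 0) (nat_lit 0) (XT.lf (nat_lit 0) (nat_lit 6821159613) (nat_lit 0) (nat_lit 0)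 (nat_lit 0) (nat_lit 0) (nat_lit 0) (nat_lit 0) (nat_lit 1) (nat_lit 0) (nat_lit 1) (nat_lit 0) (nat_lit 394) (nat_lit 384) (nat_lit 302)) (XT.lf (nat_lit 0) (nat_lit 6820243418) (nat_lit 0) (nat_lit 0) (nat_lit 0) (nat_lit 0) (nat_lit 0) (nat_lit 0) (nat_lit 1) (nat_lit 0) (nat_lit 1) (nat_lit 0) (nat_lit 395) (nat_lit 384) (nat_lit 301))) (XT.nd (nat_lit 94) (nat_lit 0) (nat_lit 0) (XT.lf (nat_lit 0) (nat_lit 6819395088) (nat_lit 0) (nat_lit 0) (nat_lit 0) (nat_lit 0) (nat_lit 0) (nat_lit 0) (nat_lit 1) (nat_lit 0) (nat_lit 1) (nat_lit 0) (nat_lit 396) (nat_lit 384) (nat_lit 300)) (XT.nd (nat_lit 94) (nat_lit 0) (nat_lit 0) (XT.lf (nat_lit 0) (nat_lit 6818609598) (nat_lit 0) (nat_lit 0) (nat_lit 0) (nat_lit 0) (nat_lit 0) (nat_lit 0) (nat_lit 1) (nat_lit 0) (nat_lit 1) (nat_lit 0) (nat_lit 397) (nat_lit 384) (nat_lit 299)) (XT.lf (nat_lit 0) (nat_lit 6817882292)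 (nat_lit 0) (nat_lit 0) (nat_lit 0) (nat_lit 0) (nat_lit 0) (nat_lit 0) (nat_lit 1) (nat_lit 0) (nat_lit 1) (nat_lit 0) (nat_lit 398) (nat_lit 384) (nat_lit 298))))) (XT.nd (nat_lit 188) (nat_lit 0) (nat_lit 0) (XT.nd (nat_lit 94) (nat_lit 0) (nat_lit 0) (XT.lf (nat_lit 0) (nat_lit 6817208861) (nat_lit 0) (nat_lit 0) (nat_lit 0) (nat_lit 0) (nat_lit 0) (nat_lit 0) (nat_lit 1) (nat_lit 0) (nat_lit 1) (nat_lit 0) (nat_lit 399) (nat_lit 384) (nat_lit 297)) (XT.lf (nat_lit 0) (nat_lit 6816585314) (nat_lit 0) (nat_lit 0) (nat_lit 0) (nat_lit 0) (nat_lit 0) (nat_lit 0) (nat_lit 1) (nat_lit 0) (nat_lit 1) (nat_lit 0) (nat_lit 400) (nat_lit 384) (nat_lit 296))) (XT.nd (nat_lit 94) (nat_lit 0) (nat_lit 0) (XT.lf (nat_lit 0) (nat_lit 6816007955) (nat_lit 0) (nat_lit 0) (nat_lit 0) (nat_lit 0) (nat_lit 0) (nat_lit 0) (nat_lit 1) (nat_lit 0) (nat_lit 1) (nat_lit 0) (nat_lit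 401) (nat_lit 384) (nat_lit 295)) (XT.nd (nat_lit 94) (nat_lit 0) (nat_lit 0) (XT.lf (nat_lit 0) (nat_lit 6815473363) (nat_lit 0) (nat_lit 0) (nat_lit 0) (nat_lit 0) (nat_lit 0) (nat_lit 0) (nat_lit 1) (nat_lit 0) (nat_lit 1) (nat_lit 0) (nat_lit 402) (nat_lit 384) (nat_lit 294)) (XT.lf (nat_lit 0) (nat_lit 6814978371) (nat_lit 0) (nat_lit 0) (nat_lit 0) (nat_lit 0) (nat_lit 0) (nat_lit 0) (nat_lit 1) (nat_lit 0) (nat_lit 1) (nat_lit 0) (nat_lit 403) (nat_lit 384) (nat_lit 293))))))) (XT.nd (nat_lit 846) (nat_lit 0) (nat_lit 0) (XT.nd (nat_lit 376) (nat_lit 0) (nat_lit 0) (XT.nd (nat_lit 188) (nat_lit 0) (nat_lit 0) (XT.nd (nat_lit 94) (nat_lit 0) (nat_lit 0) (XT.lf (nat_lit 0) (nat_lit 6814520045) (nat_lit 0) (nat_lit 0) (nat_lit 0) (nat_lit 0) (nat_lit 0) (nat_lit 0) (nat_lit 1) (nat_lit 0) (nat_lit 1) (nat_lit 0) (nat_lit 404) (nat_lit 384) (nat_lit 292))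 (XT.lf (nat_lit 0) (nat_lit 6814095669) (nat_lit 0) (nat_lit 0) (nat_lit 0) (nat_lit 0) (nat_lit 0) (nat_lit 0) (nat_lit 1) (nat_lit 0) (nat_lit 1) (nat_lit 0) (nat_lit 405) (nat_lit 384) (nat_lit 291))) (XT.nd (nat_lit 94) (nat_lit 0) (nat_lit 0) (XT.lf (nat_lit 0) (nat_lit 6813702729) (nat_lit 0) (nat_lit 0) (nat_lit 0) (nat_lit 0) (nat_lit 0) (nat_lit 0) (nat_lit 1) (nat_lit 0) (nat_lit 1) (nat_lit 0) (nat_lit 406) (nat_lit 384) (nat_lit 290)) (XT.lf (nat_lit 0) (nat_lit 6813338895) (nat_lit 0) (nat_lit 0) (nat_lit 0) (nat_lit 0) (nat_lit 0) (nat_lit 0) (nat_lit 1) (nat_lit 0) (nat_lit 1) (nat_lit 0) (nat_lit 407) (nat_lit 384) (nat_lit 289)))) (XT.nd (nat_lit 188) (nat_lit 0) (nat_lit 0) (XT.nd (nat_lit 94) (nat_lit 0) (nat_lit 0) (XT.lf (nat_lit 0) (nat_lit 6813002012) (nat_lit 0) (nat_lit 0) (nat_lit 0) (nat_lit 0) (nat_lit 0) (nat_lit 0) (nat_lit 1)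 (nat_lit 0) (nat_lit 1) (nat_lit 0) (nat_lit 408) (nat_lit 384) (nat_lit 288)) (XT.lf (nat_lit 0) (nat_lit 6812690083) (nat_lit 0) (nat_lit 0) (nat_lit 0) (nat_lit 0) (nat_lit 0) (nat_lit 0) (nat_lit 1) (nat_lit 0) (nat_lit 1) (nat_lit 0) (nat_lit 409) (nat_lit 384) (nat_lit 287))) (XT.nd (nat_lit 94) (nat_lit 0) (nat_lit 0) (XT.lf (nat_lit 0) (nat_lit 6812401260) (nat_lit 0) (nat_lit 0) (nat_lit 0) (nat_lit 0) (nat_lit 0) (nat_lit 0) (nat_lit 1) (nat_lit 0) (nat_lit 1) (nat_lit 0) (nat_lit 410) (nat_lit 384) (nat_lit 286)) (XT.nd (nat_lit 94) (nat_lit 0) (nat_lit 0) (XT.lf (nat_lit 0) (nat_lit 6812133831) (nat_lit 0) (nat_lit 0) (nat_lit 0) (nat_lit 0) (nat_lit 0) (nat_lit 0) (nat_lit 1) (nat_lit 0) (nat_lit 1) (nat_lit 0) (nat_lit 411) (nat_lit 384) (nat_lit 285)) (XT.lf (nat_lit 0) (nat_lit 6811886211) (nat_lit 0) (nat_lit 0) (nat_lit 0) (nat_lit 0) (nat_lit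 0) (nat_lit 0) (nat_lit 1) (nat_lit 0) (nat_lit 1) (nat_lit 0) (nat_lit 412) (nat_lit 384) (nat_lit 284)))))) (XT.nd (nat_lit 470) (nat_lit 0) (nat_lit 0) (XT.nd (nat_lit 188) (nat_lit 0) (nat_lit 0) (XT.nd (nat_lit 94) (nat_lit 0) (nat_lit 0) (XT.lf (nat_lit 0) (nat_lit 6811656934) (nat_lit 0) (nat_lit 0) (nat_lit 0) (nat_lit 0) (nat_lit 0) (nat_lit 0) (nat_lit 1) (nat_lit 0) (nat_lit 1) (nat_lit 0) (nat_lit 413) (nat_lit 384) (nat_lit 283)) (XT.lf (nat_lit 0) (nat_lit 6811444641) (nat_lit 0) (nat_lit 0) (nat_lit 0) (nat_lit 0) (nat_lit 0) (nat_lit 0) (nat_lit 1) (nat_lit 0) (nat_lit 1) (nat_lit 0) (nat_lit 414) (nat_lit 384) (nat_lit 282))) (XT.nd (nat_lit 94) (nat_lit 0) (nat_lit 0) (XT.lf (nat_lit 0) (nat_lit 6811248073) (nat_lit 0) (nat_lit 0) (nat_lit 0) (nat_lit 0) (nat_lit 0) (nat_lit 0) (nat_lit 1) (nat_lit 0) (nat_lit 1) (nat_lit 0) (nat_lit 415)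 (nat_lit 384) (nat_lit 281)) (XT.nd (nat_lit 94) (nat_lit 0) (nat_lit 0) (XT.lf (nat_lit 0) (nat_lit 6811066065) (nat_lit 0) (nat_lit 0) (nat_lit 0) (nat_lit 0) (nat_lit 0) (nat_lit 0) (nat_lit 1) (nat_lit 0) (nat_lit 1) (nat_lit 0) (nat_lit 416) (nat_lit 384) (nat_lit 280)) (XT.lf (nat_lit 0) (nat_lit 6810897539) (nat_lit 0) (nat_lit 0) (nat_lit 0) (nat_lit 0) (nat_lit 0) (nat_lit 0) (nat_lit 1) (nat_lit 0) (nat_lit 1) (nat_lit 0) (nat_lit 417) (nat_lit 384) (nat_lit 279))))) (XT.nd (nat_lit 188) (nat_lit 0) (nat_lit 0) (XT.nd (nat_lit 94) (nat_lit 0) (nat_lit 0) (XT.lf (nat_lit 0) (nat_lit 6810741497) (nat_lit 0) (nat_lit 0) (nat_lit 0) (nat_lit 0) (nat_lit 0) (nat_lit 0) (nat_lit 1) (nat_lit 0) (nat_lit 1) (nat_lit 0) (nat_lit 418) (nat_lit 384) (nat_lit 278)) (XT.lf (nat_lit 0) (nat_lit 6810597014) (nat_lit 0) (nat_lit 0) (nat_lit 0) (nat_lit 0) (nat_lit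 0) (nat_lit 0) (nat_lit 1) (nat_lit 0) (nat_lit 1) (nat_lit 0) (nat_lit 419) (nat_lit 384) (nat_lit 277))) (XT.nd (nat_lit 94) (nat_lit 0) (nat_lit 0) (XT.lf (nat_lit 0) (nat_lit 6810463233) (nat_lit 0) (nat_lit 0) (nat_lit 0) (nat_lit 0) (nat_lit 0) (nat_lit 0) (nat_lit 1) (nat_lit 0) (nat_lit 1) (nat_lit 0) (nat_lit 420) (nat_lit 384) (nat_lit 276)) (XT.nd (nat_lit 94) (nat_lit 0) (nat_lit 0) (XT.lf (nat_lit 0) (nat_lit 6810339362) (nat_lit 0) (nat_lit 0) (nat_lit 0) (nat_lit 0) (nat_lit 0) (nat_lit 0) (nat_lit 1) (nat_lit 0) (nat_lit 1) (nat_lit 0) (nat_lit 421) (nat_lit 384) (nat_lit 275)) (XT.lf (nat_lit 0) (nat_lit 6810224666) (nat_lit 0) (nat_lit 0) (nat_lit 0) (nat_lit 0) (nat_lit 0) (nat_lit 0) (nat_lit 1) (nat_lit 0) (nat_lit 1) (nat_lit 0) (nat_lit 422) (nat_lit 384) (nat_lit 274))))))))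
noncomputable def ec92 : XT := (XT.nd (nat_lit 57434) (nat_lit 0) (nat_lit 5712) (XT.nd (nat_lit 846) (nat_lit 0) (nat_lit 0) (XT.nd (nat_lit 376) (nat_lit 0) (nat_lit 0) (XT.nd (nat_lit 188) (nat_lit 0) (nat_lit 0) (XT.nd (nat_lit 94) (nat_lit 0) (nat_lit 0) (XT.lf (nat_lit 0) (nat_lit 6810118466) (nat_lit 0) (nat_lit 0) (nat_lit 0) (nat_lit 0) (nat_lit 0) (nat_lit 0) (nat_lit 1) (nat_lit 0) (nat_lit 1) (nat_lit 0) (nat_lit 423) (nat_lit 384) (nat_lit 273)) (XT.lf (nat_lit 0) (nat_lit 6810020133) (nat_lit 0) (nat_lit 0) (nat_lit 0) (nat_lit 0) (nat_lit 0) (nat_lit 0) (nat_lit 1) (nat_lit 0) (nat_lit 1) (nat_lit 0) (nat_lit 424) (nat_lit 384) (nat_lit 272))) (XT.nd (nat_lit 94) (nat_lit 0) (nat_lit 0) (XT.lf (nat_lit 0) (nat_lit 6809929084) (nat_lit 0) (nat_lit 0) (nat_lit 0) (nat_lit 0) (nat_lit 0) (nat_lit 0) (nat_lit 1) (nat_lit 0) (nat_lit 1) (nat_lit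 0) (nat_lit 425) (nat_lit 384) (nat_lit 271)) (XT.lf (nat_lit 0) (nat_lit 6809844779) (nat_lit 0) (nat_lit 0) (nat_lit 0) (nat_lit 0) (nat_lit 0) (nat_lit 0) (nat_lit 1) (nat_lit 0) (nat_lit 1) (nat_lit 0) (nat_lit 426) (nat_lit 384) (nat_lit 270)))) (XT.nd (nat_lit 188) (nat_lit 0) (nat_lit 0) (XT.nd (nat_lit 94) (nat_lit 0) (nat_lit 0) (XT.lf (nat_lit 0) (nat_lit 6809766720) (nat_lit 0) (nat_lit 0) (nat_lit 0) (nat_lit 0) (nat_lit 0) (nat_lit 0) (nat_lit 1) (nat_lit 0) (nat_lit 1) (nat_lit 0) (nat_lit 427) (nat_lit 384) (nat_lit 269)) (XT.lf (nat_lit 0) (nat_lit 6809694442) (nat_lit 0) (nat_lit 0) (nat_lit 0) (nat_lit 0) (nat_lit 0) (nat_lit 0) (nat_lit 1) (nat_lit 0) (nat_lit 1) (nat_lit 0) (nat_lit 428) (nat_lit 384) (nat_lit 268))) (XT.nd (nat_lit 94) (nat_lit 0) (nat_lit 0) (XT.lf (nat_lit 0) (nat_lit 6809627518) (nat_lit 0) (nat_lit 0) (nat_lit 0) (nat_lit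 0) (nat_lit 0) (nat_lit 0) (nat_lit 1) (nat_lit 0) (nat_lit 1) (nat_lit 0) (nat_lit 429) (nat_lit 384) (nat_lit 267)) (XT.nd (nat_lit 94) (nat_lit 0) (nat_lit 0) (XT.lf (nat_lit 0) (nat_lit 6809565552) (nat_lit 0) (nat_lit 0) (nat_lit 0) (nat_lit 0) (nat_lit 0) (nat_lit 0) (nat_lit 1) (nat_lit 0) (nat_lit 1) (nat_lit 0) (nat_lit 430) (nat_lit 384) (nat_lit 266)) (XT.lf (nat_lit 0) (nat_lit 6809508175) (nat_lit 0) (nat_lit 0) (nat_lit 0) (nat_lit 0) (nat_lit 0) (nat_lit 0) (nat_lit 1) (nat_lit 0) (nat_lit 1) (nat_lit 0) (nat_lit 431) (nat_lit 384) (nat_lit 265)))))) (XT.nd (nat_lit 376) (nat_lit 0) (nat_lit 0) (XT.nd (nat_lit 188) (nat_lit 0) (nat_lit 0) (XT.nd (nat_lit 94) (nat_lit 0) (nat_lit 0) (XT.lf (nat_lit 0) (nat_lit 6809455049) (nat_lit 0) (nat_lit 0) (nat_lit 0) (nat_lit 0) (nat_lit 0) (nat_lit 0) (nat_lit 1) (nat_lit 0) (nat_lit 1) (nat_lit 0) (nat_lit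 432) (nat_lit 384) (nat_lit 264)) (XT.lf (nat_lit 0) (nat_lit 6809405858) (nat_lit 0) (nat_lit 0) (nat_lit 0) (nat_lit 0) (nat_lit 0) (nat_lit 0) (nat_lit 1) (nat_lit 0) (nat_lit 1) (nat_lit 0) (nat_lit 433) (nat_lit 384) (nat_lit 263))) (XT.nd (nat_lit 94) (nat_lit 0) (nat_lit 0) (XT.lf (nat_lit 0) (nat_lit 6809360311) (nat_lit 0) (nat_lit 0) (nat_lit 0) (nat_lit 0) (nat_lit 0) (nat_lit 0) (nat_lit 1) (nat_lit 0) (nat_lit 1) (nat_lit 0) (nat_lit 434) (nat_lit 384) (nat_lit 262)) (XT.lf (nat_lit 0) (nat_lit 6809318137) (nat_lit 0) (nat_lit 0) (nat_lit 0) (nat_lit 0) (nat_lit 0) (nat_lit 0) (nat_lit 1) (nat_lit 0) (nat_lit 1) (nat_lit 0) (nat_lit 435) (nat_lit 384) (nat_lit 261)))) (XT.nd (nat_lit 55930) (nat_lit 0) (nat_lit 10752) (XT.nd (nat_lit 94) (nat_lit 0) (nat_lit 0) (XT.lf (nat_lit 0) (nat_lit 6809279088) (nat_lit 0) (nat_lit 0) (nat_lit 0) (nat_lit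 0) (nat_lit 0) (nat_lit 0) (nat_lit 1) (nat_lit 0) (nat_lit 1) (nat_lit 0) (nat_lit 436) (nat_lit 384) (nat_lit 260)) (XT.lf (nat_lit 0) (nat_lit 6809242931) (nat_lit 0) (nat_lit 0) (nat_lit 0) (nat_lit 0) (nat_lit 0) (nat_lit 0) (nat_lit 1) (nat_lit 0) (nat_lit 1) (nat_lit 0) (nat_lit 437) (nat_lit 384) (nat_lit 259))) (XT.nd (nat_lit 94) (nat_lit 0) (nat_lit 84) (XT.lf (nat_lit 924) (nat_lit 3679963966) (nat_lit 0) (nat_lit 6533767563) (nat_lit 924) (nat_lit 3679963966) (nat_lit 139) (nat_lit 1) (nat_lit 128) (nat_lit 0) (nat_lit 139) (nat_lit 0) (nat_lit 310) (nat_lit 385) (nat_lit 385)) (XT.nd (nat_lit 94) (nat_lit 0) (nat_lit 0) (XT.lf (nat_lit 924) (nat_lit 1372739475) (nat_lit 0) (nat_lit 12827765956) (nat_lit 840) (nat_lit 12545512249) (nat_lit 140) (nat_lit 1) (nat_lit 129) (nat_lit 1) (nat_lit 139) (nat_lit 1) (nat_lit 311) (nat_lit 385) (nat_lit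 384)) (XT.lf (nat_lit 924) (nat_lit 12607819729) (nat_lit 84) (nat_lit 8590759185) (nat_lit 0) (nat_lit 4556146794) (nat_lit 140) (nat_lit 1) (nat_lit 130) (nat_lit 1) (nat_lit 129) (nat_lit 1) (nat_lit 312) (nat_lit 385) (nat_lit 383))))))) (XT.nd (nat_lit 846) (nat_lit 2856) (nat_lit 0) (XT.nd (nat_lit 376) (nat_lit 2352) (nat_lit 0) (XT.nd (nat_lit 188) (nat_lit 0) (nat_lit 168) (XT.nd (nat_lit 94) (nat_lit 0) (nat_lit 84) (XT.lf (nat_lit 924) (nat_lit 10894189094) (nat_lit 84) (nat_lit 3600327629) (nat_lit 0) (nat_lit 10318523779) (nat_lit 141) (nat_lit 1) (nat_lit 131) (nat_lit 1) (nat_lit 130) (nat_lit 1) (nat_lit 313) (nat_lit 385) (nat_lit 382)) (XT.lf (nat_lit 924) (nat_lit 8062626121) (nat_lit 0) (nat_lit 15084792369) (nat_lit 840) (nat_lit 771132430) (nat_lit 142) (nat_lit 1) (nat_lit 131) (nat_lit 1) (nat_lit 141) (nat_lit 1) (nat_lit 314) (nat_lit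 385) (nat_lit 381))) (XT.nd (nat_lit 94) (nat_lit 0) (nat_lit 0) (XT.lf (nat_lit 924) (nat_lit 1934548085) (nat_lit 0) (nat_lit 16635174305) (nat_lit 840) (nat_lit 4497057088) (nat_lit 143) (nat_lit 1) (nat_lit 132) (nat_lit 1) (nat_lit 142) (nat_lit 1) (nat_lit 315) (nat_lit 385) (nat_lit 380)) (XT.lf (nat_lit 924) (nat_lit 3717414573) (nat_lit 84) (nat_lit 14457321131) (nat_lit 0) (nat_lit 4080034392) (nat_lit 143) (nat_lit 1) (nat_lit 133) (nat_lit 1) (nat_lit 132) (nat_lit 1) (nat_lit 316) (nat_lit 385) (nat_lit 379)))) (XT.nd (nat_lit 188) (nat_lit 1176) (nat_lit 0) (XT.nd (nat_lit 94) (nat_lit 588) (nat_lit 0) (XT.lf (nat_lit 924) (nat_lit 763472185) (nat_lit 0) (nat_lit 10807803860) (nat_lit 840) (nat_lit 9910642897) (nat_lit 134) (nat_lit 1) (nat_lit 123) (nat_lit 1) (nat_lit 133) (nat_lit 1) (nat_lit 317) (nat_lit 385) (nat_lit 378)) (XT.lf (nat_lit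 84) (nat_lit 5286440446) (nat_lit 0) (nat_lit 2290860656) (nat_lit 588) (nat_lit 13168360441) (nat_lit 117) (nat_lit 1) (nat_lit 116) (nat_lit 1) (nat_lit 123) (nat_lit 1) (nat_lit 318) (nat_lit 385) (nat_lit 377))) (XT.nd (nat_lit 94) (nat_lit 756) (nat_lit 0) (XT.lf (nat_lit 504) (nat_lit 14568764484) (nat_lit 0) (nat_lit 4742446916) (nat_lit 420) (nat_lit 733211596) (nat_lit 117) (nat_lit 1) (nat_lit 111) (nat_lit 1) (nat_lit 116) (nat_lit 1) (nat_lit 319) (nat_lit 385) (nat_lit 376)) (XT.nd (nat_lit 94) (nat_lit 336) (nat_lit 0) (XT.lf (nat_lit 504) (nat_lit 10512959186) (nat_lit 0) (nat_lit 2210474936) (nat_lit 420) (nat_lit 6649902330) (nat_lit 112) (nat_lit 1) (nat_lit 106) (nat_lit 1) (nat_lit 111) (nat_lit 1) (nat_lit 320) (nat_lit 385) (nat_lit 375)) (XT.lf (nat_lit 420) (nat_lit 6397001583) (nat_lit 0) (nat_lit 40698435) (nat_lit 336) (nat_lit 12297089417)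 (nat_lit 107) (nat_lit 1) (nat_lit 102) (nat_lit 1) (nat_lit 106) (nat_lit 1) (nat_lit 321) (nat_lit 385) (nat_lit 374)))))) (XT.nd (nat_lit 470) (nat_lit 1512) (nat_lit 0) (XT.nd (nat_lit 188) (nat_lit 924) (nat_lit 0) (XT.nd (nat_lit 94) (nat_lit 420) (nat_lit 0) (XT.lf (nat_lit 84) (nat_lit 471940544) (nat_lit 0) (nat_lit 15916121993) (nat_lit 420) (nat_lit 1737554185) (nat_lit 103) (nat_lit 1) (nat_lit 102) (nat_lit 1) (nat_lit 107) (nat_lit 1) (nat_lit 322) (nat_lit 385) (nat_lit 373)) (XT.lf (nat_lit 84) (nat_lit 12185627270) (nat_lit 0) (nat_lit 2021116668) (nat_lit 420) (nat_lit 3333188448) (nat_lit 98) (nat_lit 1) (nat_lit 97) (nat_lit 1) (nat_lit 102) (nat_lit 1) (nat_lit 323) (nat_lit 385) (nat_lit 372))) (XT.nd (nat_lit 94) (nat_lit 588) (nat_lit 0) (XT.lf (nat_lit 84) (nat_lit 6096778114) (nat_lit 0) (nat_lit 6191039135) (nat_lit 420) (nat_lit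 4692309320) (nat_lit 94) (nat_lit 1) (nat_lit 93) (nat_lit 1) (nat_lit 98) (nat_lit 1) (nat_lit 324) (nat_lit 385) (nat_lit 371)) (XT.nd (nat_lit 94) (nat_lit 252) (nat_lit 0) (XT.lf (nat_lit 84) (nat_lit 300923448) (nat_lit 0) (nat_lit 10351321301) (nat_lit 420) (nat_lit 5794580959) (nat_lit 90) (nat_lit 1) (nat_lit 89) (nat_lit 1) (nat_lit 94) (nat_lit 1) (nat_lit 325) (nat_lit 385) (nat_lit 370)) (XT.lf (nat_lit 336) (nat_lit 1358953332) (nat_lit 0) (nat_lit 9189950901) (nat_lit 252) (nat_lit 5385522436) (nat_lit 90) (nat_lit 1) (nat_lit 86) (nat_lit 1) (nat_lit 89) (nat_lit 1) (nat_lit 326) (nat_lit 385) (nat_lit 369))))) (XT.nd (nat_lit 188) (nat_lit 840) (nat_lit 0) (XT.nd (nat_lit 94) (nat_lit 252) (nat_lit 0) (XT.lf (nat_lit 84) (nat_lit 4695549133) (nat_lit 0) (nat_lit 3218358552) (nat_lit 420) (nat_lit 7529288078) (nat_lit 82) (nat_lit 1) (nat_lit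 81) (nat_lit 1) (nat_lit 86) (nat_lit 1) (nat_lit 327) (nat_lit 385) (nat_lit 368)) (XT.lf (nat_lit 336) (nat_lit 7269839484) (nat_lit 0) (nat_lit 6829074590) (nat_lit 252) (nat_lit 874113442) (nat_lit 82) (nat_lit 1) (nat_lit 78) (nat_lit 1) (nat_lit 81) (nat_lit 1) (nat_lit 328) (nat_lit 385) (nat_lit 367))) (XT.nd (nat_lit 94) (nat_lit 588) (nat_lit 0) (XT.lf (nat_lit 336) (nat_lit 2329948433) (nat_lit 0) (nat_lit 5879553574) (nat_lit 252) (nat_lit 6311425959) (nat_lit 79) (nat_lit 1) (nat_lit 75) (nat_lit 1) (nat_lit 78) (nat_lit 1) (nat_lit 329) (nat_lit 385) (nat_lit 366)) (XT.nd (nat_lit 94) (nat_lit 252) (nat_lit 0) (XT.lf (nat_lit 84) (nat_lit 2655578223) (nat_lit 0) (nat_lit 2431412638) (nat_lit 336) (nat_lit 9000614100) (nat_lit 72) (nat_lit 1) (nat_lit 71) (nat_lit 1) (nat_lit 75) (nat_lit 1) (nat_lit 330) (nat_lit 385) (nat_lit 365)) (XT.lf (nat_lit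 336) (nat_lit 6608057866) (nat_lit 0) (nat_lit 4396756828) (nat_lit 252) (nat_lit 2665328445) (nat_lit 72) (nat_lit 1) (nat_lit 68) (nat_lit 1) (nat_lit 71) (nat_lit 1) (nat_lit 331) (nat_lit 385) (nat_lit 364))))))))
noncomputable def ec93 : XT := (XT.nd (nat_lit 1786) (nat_lit 2268) (nat_lit 0) (XT.nd (nat_lit 846) (nat_lit 1596) (nat_lit 0) (XT.nd (nat_lit 376) (nat_lit 924) (nat_lit 0) (XT.nd (nat_lit 188) (nat_lit 420) (nat_lit 0) (XT.nd (nat_lit 94) (nat_lit 336) (nat_lit 0) (XT.lf (nat_lit 252) (nat_lit 1638147302) (nat_lit 0) (nat_lit 3835849632) (nat_lit 168) (nat_lit 7795525956) (nat_lit 69) (nat_lit 1) (nat_lit 66) (nat_lit 1) (nat_lit 68) (nat_lit 1) (nat_lit 332) (nat_lit 385) (nat_lit 363)) (XT.lf (nat_lit 84) (nat_lit 277512618) (nat_lit 0) (nat_lit 3105426448) (nat_lit 336) (nat_lit 9501492670) (nat_lit 63) (nat_lit 1) (nat_lit 62) (nat_lit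 1) (nat_lit 66) (nat_lit 1) (nat_lit 333) (nat_lit 385) (nat_lit 362))) (XT.nd (nat_lit 94) (nat_lit 252) (nat_lit 0) (XT.lf (nat_lit 252) (nat_lit 4760155481) (nat_lit 0) (nat_lit 2974688802) (nat_lit 168) (nat_lit 4776720870) (nat_lit 63) (nat_lit 1) (nat_lit 60) (nat_lit 1) (nat_lit 62) (nat_lit 1) (nat_lit 334) (nat_lit 385) (nat_lit 361)) (XT.lf (nat_lit 84) (nat_lit 2582661436) (nat_lit 0) (nat_lit 119294750) (nat_lit 252) (nat_lit 9453012997) (nat_lit 58) (nat_lit 1) (nat_lit 57) (nat_lit 1) (nat_lit 60) (nat_lit 1) (nat_lit 335) (nat_lit 385) (nat_lit 360)))) (XT.nd (nat_lit 188) (nat_lit 588) (nat_lit 0) (XT.nd (nat_lit 94) (nat_lit 168) (nat_lit 0) (XT.lf (nat_lit 252) (nat_lit 7060497642) (nat_lit 0) (nat_lit 2446620742) (nat_lit 168) (nat_lit 2301627951) (nat_lit 58) (nat_lit 1) (nat_lit 55) (nat_lit 1) (nat_lit 57) (nat_lit 1) (nat_lit 336) (nat_lit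 385) (nat_lit 359)) (XT.lf (nat_lit 252) (nat_lit 2193273501) (nat_lit 0) (nat_lit 2274404531) (nat_lit 168) (nat_lit 7008083070) (nat_lit 56) (nat_lit 1) (nat_lit 53) (nat_lit 1) (nat_lit 55) (nat_lit 1) (nat_lit 337) (nat_lit 385) (nat_lit 358))) (XT.nd (nat_lit 94) (nat_lit 336) (nat_lit 0) (XT.lf (nat_lit 252) (nat_lit 8706489750) (nat_lit 0) (nat_lit 2173008927) (nat_lit 168) (nat_lit 275671393) (nat_lit 53) (nat_lit 1) (nat_lit 50) (nat_lit 1) (nat_lit 52) (nat_lit 1) (nat_lit 338) (nat_lit 385) (nat_lit 357)) (XT.nd (nat_lit 94) (nat_lit 168) (nat_lit 0) (XT.lf (nat_lit 252) (nat_lit 3896621300) (nat_lit 0) (nat_lit 2074490903) (nat_lit 168) (nat_lit 4872375048) (nat_lit 51) (nat_lit 1) (nat_lit 48) (nat_lit 1) (nat_lit 50) (nat_lit 1) (nat_lit 339) (nat_lit 385) (nat_lit 356)) (XT.lf (nat_lit 84) (nat_lit 1334743239) (nat_lit 0) (nat_lit 733635029)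 (nat_lit 168) (nat_lit 8476353961) (nat_lit 47) (nat_lit 1) (nat_lit 46) (nat_lit 1) (nat_lit 48) (nat_lit 1) (nat_lit 340) (nat_lit 385) (nat_lit 355)))))) (XT.nd (nat_lit 470) (nat_lit 756) (nat_lit 0) (XT.nd (nat_lit 188) (nat_lit 588) (nat_lit 0) (XT.nd (nat_lit 94) (nat_lit 84) (nat_lit 0) (XT.lf (nat_lit 252) (nat_lit 5112591244) (nat_lit 0) (nat_lit 2046476446) (nat_lit 168) (nat_lit 3094448318) (nat_lit 47) (nat_lit 1) (nat_lit 44) (nat_lit 1) (nat_lit 46) (nat_lit 1) (nat_lit 341) (nat_lit 385) (nat_lit 354)) (XT.lf (nat_lit 168) (nat_lit 550553427) (nat_lit 0) (nat_lit 2096740552) (nat_lit 84) (nat_lit 7326502647) (nat_lit 45) (nat_lit 1) (nat_lit 43) (nat_lit 1) (nat_lit 44) (nat_lit 1) (nat_lit 342) (nat_lit 385) (nat_lit 353))) (XT.nd (nat_lit 94) (nat_lit 336) (nat_lit 0) (XT.lf (nat_lit 252) (nat_lit 5943020993) (nat_lit 0) (nat_lit 2144406062)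 (nat_lit 168) (nat_lit 1614362917) (nat_lit 43) (nat_lit 1) (nat_lit 40) (nat_lit 1) (nat_lit 42) (nat_lit 1) (nat_lit 343) (nat_lit 385) (nat_lit 352)) (XT.nd (nat_lit 94) (nat_lit 252) (nat_lit 0) (XT.lf (nat_lit 168) (nat_lit 1494713603) (nat_lit 0) (nat_lit 2224587566) (nat_lit 84) (nat_lit 5719649320) (nat_lit 41) (nat_lit 1) (nat_lit 39) (nat_lit 1) (nat_lit 40) (nat_lit 1) (nat_lit 344) (nat_lit 385) (nat_lit 351)) (XT.lf (nat_lit 252) (nat_lit 6470247598) (nat_lit 0) (nat_lit 2331880082) (nat_lit 168) (nat_lit 382681483) (nat_lit 39) (nat_lit 1) (nat_lit 36) (nat_lit 1) (nat_lit 38) (nat_lit 1) (nat_lit 345) (nat_lit 385) (nat_lit 350))))) (XT.nd (nat_lit 188) (nat_lit 420) (nat_lit 0) (XT.nd (nat_lit 94) (nat_lit 252) (nat_lit 0) (XT.lf (nat_lit 168) (nat_lit 2151097938) (nat_lit 0) (nat_lit 2431013006) (nat_lit 84) (nat_lit 4355369745) (nat_lit 37)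 (nat_lit 1) (nat_lit 35) (nat_lit 1) (nat_lit 36) (nat_lit 1) (nat_lit 346) (nat_lit 385) (nat_lit 349)) (XT.lf (nat_lit 84) (nat_lit 620892470) (nat_lit 0) (nat_lit 1948815959) (nat_lit 252) (nat_lit 6129329076) (nat_lit 33) (nat_lit 1) (nat_lit 32) (nat_lit 1) (nat_lit 35) (nat_lit 1) (nat_lit 347) (nat_lit 385) (nat_lit 348))) (XT.nd (nat_lit 94) (nat_lit 336) (nat_lit 0) (XT.lf (nat_lit 168) (nat_lit 2581511603) (nat_lit 0) (nat_lit 2689812730) (nat_lit 84) (nat_lit 3195191580) (nat_lit 33) (nat_lit 1) (nat_lit 31) (nat_lit 1) (nat_lit 32) (nat_lit 1) (nat_lit 348) (nat_lit 385) (nat_lit 347)) (XT.nd (nat_lit 94) (nat_lit 84) (nat_lit 0) (XT.lf (nat_lit 84) (nat_lit 1443964697) (nat_lit 0) (nat_lit 1398577450) (nat_lit 252) (nat_lit 5399623551) (nat_lit 29) (nat_lit 1) (nat_lit 28) (nat_lit 1) (nat_lit 31) (nat_lit 1) (nat_lit 349) (nat_lit 385) (nat_lit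 346)) (XT.lf (nat_lit 168) (nat_lit 2835796289) (nat_lit 0) (nat_lit 2980531445) (nat_lit 84) (nat_lit 2207219812) (nat_lit 29) (nat_lit 1) (nat_lit 27) (nat_lit 1) (nat_lit 28) (nat_lit 1) (nat_lit 350) (nat_lit 385) (nat_lit 345))))))) (XT.nd (nat_lit 846) (nat_lit 1092) (nat_lit 0) (XT.nd (nat_lit 376) (nat_lit 672) (nat_lit 0) (XT.nd (nat_lit 188) (nat_lit 252) (nat_lit 0) (XT.nd (nat_lit 94) (nat_lit 84) (nat_lit 0) (XT.lf (nat_lit 84) (nat_lit 2125849937) (nat_lit 0) (nat_lit 1012929457) (nat_lit 168) (nat_lit 4673369950) (nat_lit 26) (nat_lit 1) (nat_lit 25) (nat_lit 1) (nat_lit 27) (nat_lit 1) (nat_lit 351) (nat_lit 385) (nat_lit 344)) (XT.lf (nat_lit 168) (nat_lit 2954065659) (nat_lit 0) (nat_lit 3287342286) (nat_lit 84) (nat_lit 1364963498) (nat_lit 26) (nat_lit 1) (nat_lit 24) (nat_lit 1) (nat_lit 25) (nat_lit 1) (nat_lit 352) (nat_lit 385) (nat_lit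 343))) (XT.nd (nat_lit 94) (nat_lit 84) (nat_lit 0) (XT.lf (nat_lit 84) (nat_lit 2689002512) (nat_lit 0) (nat_lit 755658583) (nat_lit 168) (nat_lit 3962261961) (nat_lit 23) (nat_lit 1) (nat_lit 22) (nat_lit 1) (nat_lit 24) (nat_lit 1) (nat_lit 353) (nat_lit 385) (nat_lit 342)) (XT.lf (nat_lit 168) (nat_lit 2968528135) (nat_lit 0) (nat_lit 3598136233) (nat_lit 84) (nat_lit 646375595) (nat_lit 23) (nat_lit 1) (nat_lit 21) (nat_lit 1) (nat_lit 22) (nat_lit 1) (nat_lit 354) (nat_lit 385) (nat_lit 341)))) (XT.nd (nat_lit 188) (nat_lit 420) (nat_lit 0) (XT.nd (nat_lit 94) (nat_lit 84) (nat_lit 0) (XT.lf (nat_lit 84) (nat_lit 3152084471) (nat_lit 0) (nat_lit 597645887) (nat_lit 168) (nat_lit 3274925591) (nat_lit 20) (nat_lit 1) (nat_lit 19) (nat_lit 1) (nat_lit 21) (nat_lit 1) (nat_lit 355) (nat_lit 385) (nat_lit 340)) (XT.lf (nat_lit 168) (nat_lit 2904972863) (nat_lit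 0) (nat_lit 3903782606) (nat_lit 84) (nat_lit 33066931) (nat_lit 20) (nat_lit 1) (nat_lit 18) (nat_lit 1) (nat_lit 19) (nat_lit 1) (nat_lit 356) (nat_lit 385) (nat_lit 339))) (XT.nd (nat_lit 94) (nat_lit 252) (nat_lit 0) (XT.lf (nat_lit 84) (nat_lit 3530636856) (nat_lit 0) (nat_lit 515534780) (nat_lit 168) (nat_lit 2617544305) (nat_lit 17) (nat_lit 1) (nat_lit 16) (nat_lit 1) (nat_lit 18) (nat_lit 1) (nat_lit 357) (nat_lit 385) (nat_lit 338)) (XT.nd (nat_lit 94) (nat_lit 168) (nat_lit 0) (XT.lf (nat_lit 0) (nat_lit 474643663) (nat_lit 0) (nat_lit 3714847018) (nat_lit 168) (nat_lit 2301298835) (nat_lit 15) (nat_lit 3) (nat_lit 15) (nat_lit 1) (nat_lit 17) (nat_lit 1) (nat_lit 358) (nat_lit 385) (nat_lit 337)) (XT.lf (nat_lit 84) (nat_lit 3837629465) (nat_lit 0) (nat_lit 490645267) (nat_lit 168) (nat_lit 1994365494) (nat_lit 14) (nat_lit 1) (nat_lit 13) (nat_lit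 1) (nat_lit 15) (nat_lit 1) (nat_lit 359) (nat_lit 385) (nat_lit 336)))))) (XT.nd (nat_lit 470) (nat_lit 504) (nat_lit 0) (XT.nd (nat_lit 188) (nat_lit 336) (nat_lit 0) (XT.nd (nat_lit 94) (nat_lit 168) (nat_lit 0) (XT.lf (nat_lit 0) (nat_lit 906744993) (nat_lit 0) (nat_lit 3552413680) (nat_lit 168) (nat_lit 1699810457) (nat_lit 12) (nat_lit 3) (nat_lit 12) (nat_lit 1) (nat_lit 14) (nat_lit 1) (nat_lit 360) (nat_lit 385) (nat_lit 335)) (XT.lf (nat_lit 84) (nat_lit 4083911291) (nat_lit 0) (nat_lit 508089242) (nat_lit 168) (nat_lit 1408110281) (nat_lit 11) (nat_lit 1) (nat_lit 10) (nat_lit 1) (nat_lit 12) (nat_lit 1) (nat_lit 361) (nat_lit 385) (nat_lit 334))) (XT.nd (nat_lit 94) (nat_lit 252) (nat_lit 0) (XT.lf (nat_lit 0) (nat_lit 1274782549) (nat_lit 0) (nat_lit 3435005855) (nat_lit 168) (nat_lit 1135335686) (nat_lit 9) (nat_lit 3) (nat_lit 9) (nat_lit 1)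 (nat_lit 11) (nat_lit 1) (nat_lit 362) (nat_lit 385) (nat_lit 333)) (XT.nd (nat_lit 94) (nat_lit 84) (nat_lit 0) (XT.lf (nat_lit 84) (nat_lit 4278579772) (nat_lit 0) (nat_lit 556049814) (nat_lit 168) (nat_lit 860304644) (nat_lit 8) (nat_lit 1) (nat_lit 7) (nat_lit 1) (nat_lit 9) (nat_lit 1) (nat_lit 363) (nat_lit 385) (nat_lit 332)) (XT.lf (nat_lit 0) (nat_lit 1587598054) (nat_lit 0) (nat_lit 3351448817) (nat_lit 168) (nat_lit 609062005) (nat_lit 6) (nat_lit 3) (nat_lit 6) (nat_lit 1) (nat_lit 8) (nat_lit 1) (nat_lit 364) (nat_lit 385) (nat_lit 331))))) (XT.nd (nat_lit 188) (nat_lit 252) (nat_lit 0) (XT.nd (nat_lit 94) (nat_lit 84) (nat_lit 0) (XT.lf (nat_lit 84) (nat_lit 4429283639) (nat_lit 0) (nat_lit 625194467) (nat_lit 168) (nat_lit 351546491) (nat_lit 5) (nat_lit 1) (nat_lit 4) (nat_lit 1) (nat_lit 6) (nat_lit 1) (nat_lit 365) (nat_lit 385) (nat_lit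 330)) (XT.lf (nat_lit 0) (nat_lit 1852669496) (nat_lit 0) (nat_lit 3292876860) (nat_lit 168) (nat_lit 121333293) (nat_lit 3) (nat_lit 3) (nat_lit 3) (nat_lit 1) (nat_lit 5) (nat_lit 1) (nat_lit 366) (nat_lit 385) (nat_lit 329))) (XT.nd (nat_lit 94) (nat_lit 0) (nat_lit 0) (XT.lf (nat_lit 0) (nat_lit 7444977100) (nat_lit 0) (nat_lit 0) (nat_lit 0) (nat_lit 0) (nat_lit 0) (nat_lit 0) (nat_lit 1) (nat_lit 0) (nat_lit 1) (nat_lit 0) (nat_lit 367) (nat_lit 385) (nat_lit 328)) (XT.nd (nat_lit 94) (nat_lit 0) (nat_lit 0) (XT.lf (nat_lit 0) (nat_lit 7438200592) (nat_lit 0) (nat_lit 0) (nat_lit 0) (nat_lit 0) (nat_lit 0) (nat_lit 0) (nat_lit 1) (nat_lit 0) (nat_lit 1) (nat_lit 0) (nat_lit 368) (nat_lit 385) (nat_lit 327)) (XT.lf (nat_lit 0) (nat_lit 7431926048) (nat_lit 0) (nat_lit 0) (nat_lit 0) (nat_lit 0) (nat_lit 0) (nat_lit 0) (nat_lit 1) (nat_lit 0) (nat_lit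 1) (nat_lit 0) (nat_lit 369) (nat_lit 385) (nat_lit 326))))))))
noncomputable def ec94 : XT := (XT.nd (nat_lit 1692) (nat_lit 0) (nat_lit 0) (XT.nd (nat_lit 846) (nat_lit 0) (nat_lit 0) (XT.nd (nat_lit 376) (nat_lit 0) (nat_lit 0) (XT.nd (nat_lit 188) (nat_lit 0) (nat_lit 0) (XT.nd (nat_lit 94) (nat_lit 0) (nat_lit 0) (XT.lf (nat_lit 0) (nat_lit 7426116285) (nat_lit 0) (nat_lit 0) (nat_lit 0) (nat_lit 0) (nat_lit 0) (nat_lit 0) (nat_lit 1) (nat_lit 0) (nat_lit 1) (nat_lit 0) (nat_lit 370) (nat_lit 385) (nat_lit 325)) (XT.lf (nat_lit 0) (nat_lit 7420736875) (nat_lit 0) (nat_lit 0) (nat_lit 0) (nat_lit 0) (nat_lit 0) (nat_lit 0) (nat_lit 1) (nat_lit 0) (nat_lit 1) (nat_lit 0) (nat_lit 371) (nat_lit 385) (nat_lit 324))) (XT.nd (nat_lit 94) (nat_lit 0) (nat_lit 0) (XT.lf (nat_lit 0) (nat_lit 7415755940) (nat_lit 0) (nat_lit 0) (nat_lit 0) (nat_lit 0) (nat_lit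 0) (nat_lit 0) (nat_lit 1) (nat_lit 0) (nat_lit 1) (nat_lit 0) (nat_lit 372) (nat_lit 385) (nat_lit 323)) (XT.lf (nat_lit 0) (nat_lit 7411143963) (nat_lit 0) (nat_lit 0) (nat_lit 0) (nat_lit 0) (nat_lit 0) (nat_lit 0) (nat_lit 1) (nat_lit 0) (nat_lit 1) (nat_lit 0) (nat_lit 373) (nat_lit 385) (nat_lit 322)))) (XT.nd (nat_lit 188) (nat_lit 0) (nat_lit 0) (XT.nd (nat_lit 94) (nat_lit 0) (nat_lit 0) (XT.lf (nat_lit 0) (nat_lit 7406873614) (nat_lit 0) (nat_lit 0) (nat_lit 0) (nat_lit 0) (nat_lit 0) (nat_lit 0) (nat_lit 1) (nat_lit 0) (nat_lit 1) (nat_lit 0) (nat_lit 374) (nat_lit 385) (nat_lit 321)) (XT.lf (nat_lit 0) (nat_lit 7402919587) (nat_lit 0) (nat_lit 0) (nat_lit 0) (nat_lit 0) (nat_lit 0) (nat_lit 0) (nat_lit 1) (nat_lit 0) (nat_lit 1) (nat_lit 0) (nat_lit 375) (nat_lit 385) (nat_lit 320))) (XT.nd (nat_lit 94) (nat_lit 0) (nat_lit 0) (XT.lf (nat_lit 0)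 (nat_lit 7399258450) (nat_lit 0) (nat_lit 0) (nat_lit 0) (nat_lit 0) (nat_lit 0) (nat_lit 0) (nat_lit 1) (nat_lit 0) (nat_lit 1) (nat_lit 0) (nat_lit 376) (nat_lit 385) (nat_lit 319)) (XT.nd (nat_lit 94) (nat_lit 0) (nat_lit 0) (XT.lf (nat_lit 0) (nat_lit 7395868509) (nat_lit 0) (nat_lit 0) (nat_lit 0) (nat_lit 0) (nat_lit 0) (nat_lit 0) (nat_lit 1) (nat_lit 0) (nat_lit 1) (nat_lit 0) (nat_lit 377) (nat_lit 385) (nat_lit 318)) (XT.lf (nat_lit 0) (nat_lit 7392729675) (nat_lit 0) (nat_lit 0) (nat_lit 0) (nat_lit 0) (nat_lit 0) (nat_lit 0) (nat_lit 1) (nat_lit 0) (nat_lit 1) (nat_lit 0) (nat_lit 378) (nat_lit 385) (nat_lit 317)))))) (XT.nd (nat_lit 376) (nat_lit 0) (nat_lit 0) (XT.nd (nat_lit 188) (nat_lit 0) (nat_lit 0) (XT.nd (nat_lit 94) (nat_lit 0) (nat_lit 0) (XT.lf (nat_lit 0) (nat_lit 7389823347) (nat_lit 0) (nat_lit 0) (nat_lit 0) (nat_lit 0) (nat_lit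 0) (nat_lit 0) (nat_lit 1) (nat_lit 0) (nat_lit 1) (nat_lit 0) (nat_lit 379) (nat_lit 385) (nat_lit 316)) (XT.lf (nat_lit 0) (nat_lit 7387132303) (nat_lit 0) (nat_lit 0) (nat_lit 0) (nat_lit 0) (nat_lit 0) (nat_lit 0) (nat_lit 1) (nat_lit 0) (nat_lit 1) (nat_lit 0) (nat_lit 380) (nat_lit 385) (nat_lit 315))) (XT.nd (nat_lit 94) (nat_lit 0) (nat_lit 0) (XT.lf (nat_lit 0) (nat_lit 7384640595) (nat_lit 0) (nat_lit 0) (nat_lit 0) (nat_lit 0) (nat_lit 0) (nat_lit 0) (nat_lit 1) (nat_lit 0) (nat_lit 1) (nat_lit 0) (nat_lit 381) (nat_lit 385) (nat_lit 314)) (XT.lf (nat_lit 0) (nat_lit 7382333458) (nat_lit 0) (nat_lit 0) (nat_lit 0) (nat_lit 0) (nat_lit 0) (nat_lit 0) (nat_lit 1) (nat_lit 0) (nat_lit 1) (nat_lit 0) (nat_lit 382) (nat_lit 385) (nat_lit 313)))) (XT.nd (nat_lit 188) (nat_lit 0) (nat_lit 0) (XT.nd (nat_lit 94) (nat_lit 0) (nat_lit 0) (XT.lf (nat_lit 0)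 (nat_lit 7380197221) (nat_lit 0) (nat_lit 0) (nat_lit 0) (nat_lit 0) (nat_lit 0) (nat_lit 0) (nat_lit 1) (nat_lit 0) (nat_lit 1) (nat_lit 0) (nat_lit 383) (nat_lit 385) (nat_lit 312)) (XT.lf (nat_lit 0) (nat_lit 7378219223) (nat_lit 0) (nat_lit 0) (nat_lit 0) (nat_lit 0) (nat_lit 0) (nat_lit 0) (nat_lit 1) (nat_lit 0) (nat_lit 1) (nat_lit 0) (nat_lit 384) (nat_lit 385) (nat_lit 311))) (XT.nd (nat_lit 94) (nat_lit 0) (nat_lit 0) (XT.lf (nat_lit 0) (nat_lit 7376387743) (nat_lit 0) (nat_lit 0) (nat_lit 0) (nat_lit 0) (nat_lit 0) (nat_lit 0) (nat_lit 1) (nat_lit 0) (nat_lit 1) (nat_lit 0) (nat_lit 385) (nat_lit 385) (nat_lit 310)) (XT.nd (nat_lit 94) (nat_lit 0) (nat_lit 0) (XT.lf (nat_lit 0) (nat_lit 7374691929) (nat_lit 0) (nat_lit 0) (nat_lit 0) (nat_lit 0) (nat_lit 0) (nat_lit 0) (nat_lit 1) (nat_lit 0) (nat_lit 1) (nat_lit 0) (nat_lit 386) (nat_lit 385) (nat_lit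 309)) (XT.lf (nat_lit 0) (nat_lit 7373121730) (nat_lit 0) (nat_lit 0) (nat_lit 0) (nat_lit 0) (nat_lit 0) (nat_lit 0) (nat_lit 1) (nat_lit 0) (nat_lit 1) (nat_lit 0) (nat_lit 387) (nat_lit 385) (nat_lit 308))))))) (XT.nd (nat_lit 846) (nat_lit 0) (nat_lit 0) (XT.nd (nat_lit 376) (nat_lit 0) (nat_lit 0) (XT.nd (nat_lit 188) (nat_lit 0) (nat_lit 0) (XT.nd (nat_lit 94) (nat_lit 0) (nat_lit 0) (XT.lf (nat_lit 0) (nat_lit 7371667843) (nat_lit 0) (nat_lit 0) (nat_lit 0) (nat_lit 0) (nat_lit 0) (nat_lit 0) (nat_lit 1) (nat_lit 0) (nat_lit 1) (nat_lit 0) (nat_lit 388) (nat_lit 385) (nat_lit 307)) (XT.lf (nat_lit 0) (nat_lit 7370321650) (nat_lit 0) (nat_lit 0) (nat_lit 0) (nat_lit 0) (nat_lit 0) (nat_lit 0) (nat_lit 1) (nat_lit 0) (nat_lit 1) (nat_lit 0) (nat_lit 389) (nat_lit 385) (nat_lit 306))) (XT.nd (nat_lit 94) (nat_lit 0) (nat_lit 0) (XT.lf (nat_lit 0) (nat_lit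 7369075176) (nat_lit 0) (nat_lit 0) (nat_lit 0) (nat_lit 0) (nat_lit 0) (nat_lit 0) (nat_lit 1) (nat_lit 0) (nat_lit 1) (nat_lit 0) (nat_lit 390) (nat_lit 385) (nat_lit 305)) (XT.lf (nat_lit 0) (nat_lit 7367921033) (nat_lit 0) (nat_lit 0) (nat_lit 0) (nat_lit 0) (nat_lit 0) (nat_lit 0) (nat_lit 1) (nat_lit 0) (nat_lit 1) (nat_lit 0) (nat_lit 391) (nat_lit 385) (nat_lit 304)))) (XT.nd (nat_lit 188) (nat_lit 0) (nat_lit 0) (XT.nd (nat_lit 94) (nat_lit 0) (nat_lit 0) (XT.lf (nat_lit 0) (nat_lit 7366852383) (nat_lit 0) (nat_lit 0) (nat_lit 0) (nat_lit 0) (nat_lit 0) (nat_lit 0) (nat_lit 1) (nat_lit 0) (nat_lit 1) (nat_lit 0) (nat_lit 392) (nat_lit 385) (nat_lit 303)) (XT.lf (nat_lit 0) (nat_lit 7365862891) (nat_lit 0) (nat_lit 0) (nat_lit 0) (nat_lit 0) (nat_lit 0) (nat_lit 0) (nat_lit 1) (nat_lit 0) (nat_lit 1) (nat_lit 0) (nat_lit 393) (nat_lit 385) (nat_lit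 302))) (XT.nd (nat_lit 94) (nat_lit 0) (nat_lit 0) (XT.lf (nat_lit 0) (nat_lit 7364946695) (nat_lit 0) (nat_lit 0) (nat_lit 0) (nat_lit 0) (nat_lit 0) (nat_lit 0) (nat_lit 1) (nat_lit 0) (nat_lit 1) (nat_lit 0) (nat_lit 394) (nat_lit 385) (nat_lit 301)) (XT.nd (nat_lit 94) (nat_lit 0) (nat_lit 0) (XT.lf (nat_lit 0) (nat_lit 7364098366) (nat_lit 0) (nat_lit 0) (nat_lit 0) (nat_lit 0) (nat_lit 0) (nat_lit 0) (nat_lit 1) (nat_lit 0) (nat_lit 1) (nat_lit 0) (nat_lit 395) (nat_lit 385) (nat_lit 300)) (XT.lf (nat_lit 0) (nat_lit 7363312876) (nat_lit 0) (nat_lit 0) (nat_lit 0) (nat_lit 0) (nat_lit 0) (nat_lit 0) (nat_lit 1) (nat_lit 0) (nat_lit 1) (nat_lit 0) (nat_lit 396) (nat_lit 385) (nat_lit 299)))))) (XT.nd (nat_lit 470) (nat_lit 0) (nat_lit 0) (XT.nd (nat_lit 188) (nat_lit 0) (nat_lit 0) (XT.nd (nat_lit 94) (nat_lit 0) (nat_lit 0) (XT.lf (nat_lit 0) (nat_lit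 7362585570) (nat_lit 0) (nat_lit 0) (nat_lit 0) (nat_lit 0) (nat_lit 0) (nat_lit 0) (nat_lit 1) (nat_lit 0) (nat_lit 1) (nat_lit 0) (nat_lit 397) (nat_lit 385) (nat_lit 298)) (XT.lf (nat_lit 0) (nat_lit 7361912139) (nat_lit 0) (nat_lit 0) (nat_lit 0) (nat_lit 0) (nat_lit 0) (nat_lit 0) (nat_lit 1) (nat_lit 0) (nat_lit 1) (nat_lit 0) (nat_lit 398) (nat_lit 385) (nat_lit 297))) (XT.nd (nat_lit 94) (nat_lit 0) (nat_lit 0) (XT.lf (nat_lit 0) (nat_lit 7361288591) (nat_lit 0) (nat_lit 0) (nat_lit 0) (nat_lit 0) (nat_lit 0) (nat_lit 0) (nat_lit 1) (nat_lit 0) (nat_lit 1) (nat_lit 0) (nat_lit 399) (nat_lit 385) (nat_lit 296)) (XT.nd (nat_lit 94) (nat_lit 0) (nat_lit 0) (XT.lf (nat_lit 0) (nat_lit 7360711233) (nat_lit 0) (nat_lit 0) (nat_lit 0) (nat_lit 0) (nat_lit 0) (nat_lit 0) (nat_lit 1) (nat_lit 0) (nat_lit 1) (nat_lit 0) (nat_lit 400) (nat_lit 385) (nat_lit 295))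 (XT.lf (nat_lit 0) (nat_lit 7360176641) (nat_lit 0) (nat_lit 0) (nat_lit 0) (nat_lit 0) (nat_lit 0) (nat_lit 0) (nat_lit 1) (nat_lit 0) (nat_lit 1) (nat_lit 0) (nat_lit 401) (nat_lit 385) (nat_lit 294))))) (XT.nd (nat_lit 188) (nat_lit 0) (nat_lit 0) (XT.nd (nat_lit 94) (nat_lit 0) (nat_lit 0) (XT.lf (nat_lit 0) (nat_lit 7359681649) (nat_lit 0) (nat_lit 0) (nat_lit 0) (nat_lit 0) (nat_lit 0) (nat_lit 0) (nat_lit 1) (nat_lit 0) (nat_lit 1) (nat_lit 0) (nat_lit 402) (nat_lit 385) (nat_lit 293)) (XT.lf (nat_lit 0) (nat_lit 7359223323) (nat_lit 0) (nat_lit 0) (nat_lit 0) (nat_lit 0) (nat_lit 0) (nat_lit 0) (nat_lit 1) (nat_lit 0) (nat_lit 1) (nat_lit 0) (nat_lit 403) (nat_lit 385) (nat_lit 292))) (XT.nd (nat_lit 94) (nat_lit 0) (nat_lit 0) (XT.lf (nat_lit 0) (nat_lit 7358798947) (nat_lit 0) (nat_lit 0) (nat_lit 0) (nat_lit 0) (nat_lit 0) (nat_lit 0) (nat_lit 1)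 (nat_lit 0) (nat_lit 1) (nat_lit 0) (nat_lit 404) (nat_lit 385) (nat_lit 291)) (XT.nd (nat_lit 94) (nat_lit 0) (nat_lit 0) (XT.lf (nat_lit 0) (nat_lit 7358406007) (nat_lit 0) (nat_lit 0) (nat_lit 0) (nat_lit 0) (nat_lit 0) (nat_lit 0) (nat_lit 1) (nat_lit 0) (nat_lit 1) (nat_lit 0) (nat_lit 405) (nat_lit 385) (nat_lit 290)) (XT.lf (nat_lit 0) (nat_lit 7358042173) (nat_lit 0) (nat_lit 0) (nat_lit 0) (nat_lit 0) (nat_lit 0) (nat_lit 0) (nat_lit 1) (nat_lit 0) (nat_lit 1) (nat_lit 0) (nat_lit 406) (nat_lit 385) (nat_lit 289))))))))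
noncomputable def ec95 : XT := (XT.nd (nat_lit 1786) (nat_lit 0) (nat_lit 0) (XT.nd (nat_lit 846) (nat_lit 0) (nat_lit 0) (XT.nd (nat_lit 376) (nat_lit 0) (nat_lit 0) (XT.nd (nat_lit 188) (nat_lit 0) (nat_lit 0) (XT.nd (nat_lit 94) (nat_lit 0) (nat_lit 0) (XT.lf (nat_lit 0) (nat_lit 7357705289) (nat_lit 0) (nat_lit 0) (nat_lit 0) (nat_lit 0) (nat_lit 0) (nat_lit 0) (nat_lit 1) (nat_lit 0) (nat_lit 1) (nat_lit 0) (nat_lit 407) (nat_lit 385) (nat_lit 288)) (XT.lf (nat_lit 0) (nat_lit 7357393360) (nat_lit 0) (nat_lit 0) (nat_lit 0) (nat_lit 0) (nat_lit 0) (nat_lit 0) (nat_lit 1) (nat_lit 0) (nat_lit 1) (nat_lit 0) (nat_lit 408) (nat_lit 385) (nat_lit 287))) (XT.nd (nat_lit 94) (nat_lit 0) (nat_lit 0) (XT.lf (nat_lit 0) (nat_lit 7357104537) (nat_lit 0) (nat_lit 0) (nat_lit 0) (nat_lit 0) (nat_lit 0) (nat_lit 0) (nat_lit 1) (nat_lit 0) (nat_lit 1) (nat_lit 0) (nat_lit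 409) (nat_lit 385) (nat_lit 286)) (XT.lf (nat_lit 0) (nat_lit 7356837108) (nat_lit 0) (nat_lit 0) (nat_lit 0) (nat_lit 0) (nat_lit 0) (nat_lit 0) (nat_lit 1) (nat_lit 0) (nat_lit 1) (nat_lit 0) (nat_lit 410) (nat_lit 385) (nat_lit 285)))) (XT.nd (nat_lit 188) (nat_lit 0) (nat_lit 0) (XT.nd (nat_lit 94) (nat_lit 0) (nat_lit 0) (XT.lf (nat_lit 0) (nat_lit 7356589489) (nat_lit 0) (nat_lit 0) (nat_lit 0) (nat_lit 0) (nat_lit 0) (nat_lit 0) (nat_lit 1) (nat_lit 0) (nat_lit 1) (nat_lit 0) (nat_lit 411) (nat_lit 385) (nat_lit 284)) (XT.lf (nat_lit 0) (nat_lit 7356360212) (nat_lit 0) (nat_lit 0) (nat_lit 0) (nat_lit 0) (nat_lit 0) (nat_lit 0) (nat_lit 1) (nat_lit 0) (nat_lit 1) (nat_lit 0) (nat_lit 412) (nat_lit 385) (nat_lit 283))) (XT.nd (nat_lit 94) (nat_lit 0) (nat_lit 0) (XT.lf (nat_lit 0) (nat_lit 7356147918) (nat_lit 0) (nat_lit 0) (nat_lit 0) (nat_lit 0) (nat_lit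 0) (nat_lit 0) (nat_lit 1) (nat_lit 0) (nat_lit 1) (nat_lit 0) (nat_lit 413) (nat_lit 385) (nat_lit 282)) (XT.nd (nat_lit 94) (nat_lit 0) (nat_lit 0) (XT.lf (nat_lit 0) (nat_lit 7355951350) (nat_lit 0) (nat_lit 0) (nat_lit 0) (nat_lit 0) (nat_lit 0) (nat_lit 0) (nat_lit 1) (nat_lit 0) (nat_lit 1) (nat_lit 0) (nat_lit 414) (nat_lit 385) (nat_lit 281)) (XT.lf (nat_lit 0) (nat_lit 7355769343) (nat_lit 0) (nat_lit 0) (nat_lit 0) (nat_lit 0) (nat_lit 0) (nat_lit 0) (nat_lit 1) (nat_lit 0) (nat_lit 1) (nat_lit 0) (nat_lit 415) (nat_lit 385) (nat_lit 280)))))) (XT.nd (nat_lit 470) (nat_lit 0) (nat_lit 0) (XT.nd (nat_lit 188) (nat_lit 0) (nat_lit 0) (XT.nd (nat_lit 94) (nat_lit 0) (nat_lit 0) (XT.lf (nat_lit 0) (nat_lit 7355600817) (nat_lit 0) (nat_lit 0) (nat_lit 0) (nat_lit 0) (nat_lit 0) (nat_lit 0) (nat_lit 1) (nat_lit 0) (nat_lit 1) (nat_lit 0) (nat_lit 416)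 (nat_lit 385) (nat_lit 279)) (XT.lf (nat_lit 0) (nat_lit 7355444775) (nat_lit 0) (nat_lit 0) (nat_lit 0) (nat_lit 0) (nat_lit 0) (nat_lit 0) (nat_lit 1) (nat_lit 0) (nat_lit 1) (nat_lit 0) (nat_lit 417) (nat_lit 385) (nat_lit 278))) (XT.nd (nat_lit 94) (nat_lit 0) (nat_lit 0) (XT.lf (nat_lit 0) (nat_lit 7355300292) (nat_lit 0) (nat_lit 0) (nat_lit 0) (nat_lit 0) (nat_lit 0) (nat_lit 0) (nat_lit 1) (nat_lit 0) (nat_lit 1) (nat_lit 0) (nat_lit 418) (nat_lit 385) (nat_lit 277)) (XT.nd (nat_lit 94) (nat_lit 0) (nat_lit 0) (XT.lf (nat_lit 0) (nat_lit 7355166511) (nat_lit 0) (nat_lit 0) (nat_lit 0) (nat_lit 0) (nat_lit 0) (nat_lit 0) (nat_lit 1) (nat_lit 0) (nat_lit 1) (nat_lit 0) (nat_lit 419) (nat_lit 385) (nat_lit 276)) (XT.lf (nat_lit 0) (nat_lit 7355042639) (nat_lit 0) (nat_lit 0) (nat_lit 0) (nat_lit 0) (nat_lit 0) (nat_lit 0) (nat_lit 1) (nat_lit 0) (nat_lit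 1) (nat_lit 0) (nat_lit 420) (nat_lit 385) (nat_lit 275))))) (XT.nd (nat_lit 188) (nat_lit 0) (nat_lit 0) (XT.nd (nat_lit 94) (nat_lit 0) (nat_lit 0) (XT.lf (nat_lit 0) (nat_lit 7354927944) (nat_lit 0) (nat_lit 0) (nat_lit 0) (nat_lit 0) (nat_lit 0) (nat_lit 0) (nat_lit 1) (nat_lit 0) (nat_lit 1) (nat_lit 0) (nat_lit 421) (nat_lit 385) (nat_lit 274)) (XT.lf (nat_lit 0) (nat_lit 7354821744) (nat_lit 0) (nat_lit 0) (nat_lit 0) (nat_lit 0) (nat_lit 0) (nat_lit 0) (nat_lit 1) (nat_lit 0) (nat_lit 1) (nat_lit 0) (nat_lit 422) (nat_lit 385) (nat_lit 273))) (XT.nd (nat_lit 94) (nat_lit 0) (nat_lit 0) (XT.lf (nat_lit 0) (nat_lit 7354723411) (nat_lit 0) (nat_lit 0) (nat_lit 0) (nat_lit 0) (nat_lit 0) (nat_lit 0) (nat_lit 1) (nat_lit 0) (nat_lit 1) (nat_lit 0) (nat_lit 423) (nat_lit 385) (nat_lit 272)) (XT.nd (nat_lit 94) (nat_lit 0) (nat_lit 0) (XT.lf (nat_lit 0) (nat_lit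 7354632362) (nat_lit 0) (nat_lit 0) (nat_lit 0) (nat_lit 0) (nat_lit 0) (nat_lit 0) (nat_lit 1) (nat_lit 0) (nat_lit 1) (nat_lit 0) (nat_lit 424) (nat_lit 385) (nat_lit 271)) (XT.lf (nat_lit 0) (nat_lit 7354548057) (nat_lit 0) (nat_lit 0) (nat_lit 0) (nat_lit 0) (nat_lit 0) (nat_lit 0) (nat_lit 1) (nat_lit 0) (nat_lit 1) (nat_lit 0) (nat_lit 425) (nat_lit 385) (nat_lit 270))))))) (XT.nd (nat_lit 846) (nat_lit 0) (nat_lit 0) (XT.nd (nat_lit 376) (nat_lit 0) (nat_lit 0) (XT.nd (nat_lit 188) (nat_lit 0) (nat_lit 0) (XT.nd (nat_lit 94) (nat_lit 0) (nat_lit 0) (XT.lf (nat_lit 0) (nat_lit 7354469997) (nat_lit 0) (nat_lit 0) (nat_lit 0) (nat_lit 0) (nat_lit 0) (nat_lit 0) (nat_lit 1) (nat_lit 0) (nat_lit 1) (nat_lit 0) (nat_lit 426) (nat_lit 385) (nat_lit 269)) (XT.lf (nat_lit 0) (nat_lit 7354397720) (nat_lit 0) (nat_lit 0) (nat_lit 0) (nat_lit 0) (nat_lit 0) (nat_lit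 0) (nat_lit 1) (nat_lit 0) (nat_lit 1) (nat_lit 0) (nat_lit 427) (nat_lit 385) (nat_lit 268))) (XT.nd (nat_lit 94) (nat_lit 0) (nat_lit 0) (XT.lf (nat_lit 0) (nat_lit 7354330796) (nat_lit 0) (nat_lit 0) (nat_lit 0) (nat_lit 0) (nat_lit 0) (nat_lit 0) (nat_lit 1) (nat_lit 0) (nat_lit 1) (nat_lit 0) (nat_lit 428) (nat_lit 385) (nat_lit 267)) (XT.lf (nat_lit 0) (nat_lit 7354268829) (nat_lit 0) (nat_lit 0) (nat_lit 0) (nat_lit 0) (nat_lit 0) (nat_lit 0) (nat_lit 1) (nat_lit 0) (nat_lit 1) (nat_lit 0) (nat_lit 429) (nat_lit 385) (nat_lit 266)))) (XT.nd (nat_lit 188) (nat_lit 0) (nat_lit 0) (XT.nd (nat_lit 94) (nat_lit 0) (nat_lit 0) (XT.lf (nat_lit 0) (nat_lit 7354211453) (nat_lit 0) (nat_lit 0) (nat_lit 0) (nat_lit 0) (nat_lit 0) (nat_lit 0) (nat_lit 1) (nat_lit 0) (nat_lit 1) (nat_lit 0) (nat_lit 430) (nat_lit 385) (nat_lit 265)) (XT.lf (nat_lit 0) (nat_lit 7354158327)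 (nat_lit 0) (nat_lit 0) (nat_lit 0) (nat_lit 0) (nat_lit 0) (nat_lit 0) (nat_lit 1) (nat_lit 0) (nat_lit 1) (nat_lit 0) (nat_lit 431) (nat_lit 385) (nat_lit 264))) (XT.nd (nat_lit 94) (nat_lit 0) (nat_lit 0) (XT.lf (nat_lit 0) (nat_lit 7354109136) (nat_lit 0) (nat_lit 0) (nat_lit 0) (nat_lit 0) (nat_lit 0) (nat_lit 0) (nat_lit 1) (nat_lit 0) (nat_lit 1) (nat_lit 0) (nat_lit 432) (nat_lit 385) (nat_lit 263)) (XT.nd (nat_lit 94) (nat_lit 0) (nat_lit 0) (XT.lf (nat_lit 0) (nat_lit 7354063588) (nat_lit 0) (nat_lit 0) (nat_lit 0) (nat_lit 0) (nat_lit 0) (nat_lit 0) (nat_lit 1) (nat_lit 0) (nat_lit 1) (nat_lit 0) (nat_lit 433) (nat_lit 385) (nat_lit 262)) (XT.lf (nat_lit 0) (nat_lit 7354021415) (nat_lit 0) (nat_lit 0) (nat_lit 0) (nat_lit 0) (nat_lit 0) (nat_lit 0) (nat_lit 1) (nat_lit 0) (nat_lit 1) (nat_lit 0) (nat_lit 434) (nat_lit 385) (nat_lit 261)))))) (XT.nd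 (nat_lit 56024) (nat_lit 0) (nat_lit 10836) (XT.nd (nat_lit 188) (nat_lit 0) (nat_lit 0) (XT.nd (nat_lit 94) (nat_lit 0) (nat_lit 0) (XT.lf (nat_lit 0) (nat_lit 7353982366) (nat_lit 0) (nat_lit 0) (nat_lit 0) (nat_lit 0) (nat_lit 0) (nat_lit 0) (nat_lit 1) (nat_lit 0) (nat_lit 1) (nat_lit 0) (nat_lit 435) (nat_lit 385) (nat_lit 260)) (XT.lf (nat_lit 0) (nat_lit 7353946209) (nat_lit 0) (nat_lit 0) (nat_lit 0) (nat_lit 0) (nat_lit 0) (nat_lit 0) (nat_lit 1) (nat_lit 0) (nat_lit 1) (nat_lit 0) (nat_lit 436) (nat_lit 385) (nat_lit 259))) (XT.nd (nat_lit 55648) (nat_lit 0) (nat_lit 10752) (XT.lf (nat_lit 0) (nat_lit 7353912730) (nat_lit 0) (nat_lit 0) (nat_lit 0) (nat_lit 0) (nat_lit 0) (nat_lit 0) (nat_lit 1) (nat_lit 0) (nat_lit 1) (nat_lit 0) (nat_lit 437) (nat_lit 385) (nat_lit 258)) (XT.nd (nat_lit 94) (nat_lit 0) (nat_lit 84) (XT.lf (nat_lit 924) (nat_lit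 3974361083) (nat_lit 0) (nat_lit 7056468968) (nat_lit 924) (nat_lit 3974361083) (nat_lit 139) (nat_lit 1) (nat_lit 128) (nat_lit 0) (nat_lit 139) (nat_lit 0) (nat_lit 308) (nat_lit 386) (nat_lit 386)) (XT.lf (nat_lit 924) (nat_lit 1482558634) (nat_lit 0) (nat_lit 13853987233) (nat_lit 840) (nat_lit 13549153229) (nat_lit 140) (nat_lit 1) (nat_lit 129) (nat_lit 1) (nat_lit 139) (nat_lit 1) (nat_lit 309) (nat_lit 386) (nat_lit 385))))) (XT.nd (nat_lit 188) (nat_lit 0) (nat_lit 168) (XT.nd (nat_lit 94) (nat_lit 0) (nat_lit 84) (XT.lf (nat_lit 924) (nat_lit 13616445308) (nat_lit 84) (nat_lit 9278019920) (nat_lit 0) (nat_lit 4920638538) (nat_lit 140) (nat_lit 1) (nat_lit 130) (nat_lit 1) (nat_lit 129) (nat_lit 1) (nat_lit 310) (nat_lit 386) (nat_lit 384)) (XT.lf (nat_lit 924) (nat_lit 11765724221) (nat_lit 84) (nat_lit 3888353839) (nat_lit 0) (nat_lit 11144005682)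 (nat_lit 141) (nat_lit 1) (nat_lit 131) (nat_lit 1) (nat_lit 130) (nat_lit 1) (nat_lit 311) (nat_lit 386) (nat_lit 383))) (XT.nd (nat_lit 94) (nat_lit 0) (nat_lit 84) (XT.lf (nat_lit 924) (nat_lit 8707636211) (nat_lit 0) (nat_lit 16291575758) (nat_lit 840) (nat_lit 832823025) (nat_lit 142) (nat_lit 1) (nat_lit 131) (nat_lit 1) (nat_lit 141) (nat_lit 1) (nat_lit 312) (nat_lit 386) (nat_lit 382)) (XT.nd (nat_lit 94) (nat_lit 0) (nat_lit 0) (XT.lf (nat_lit 924) (nat_lit 2089311932) (nat_lit 0) (nat_lit 17965988249) (nat_lit 840) (nat_lit 4856821655) (nat_lit 143) (nat_lit 1) (nat_lit 132) (nat_lit 1) (nat_lit 142) (nat_lit 1) (nat_lit 313) (nat_lit 386) (nat_lit 381)) (XT.lf (nat_lit 924) (nat_lit 4014807739) (nat_lit 84) (nat_lit 15613906822) (nat_lit 0) (nat_lit 4406437144) (nat_lit 143) (nat_lit 1) (nat_lit 133) (nat_lit 1) (nat_lit 132) (nat_lit 1) (nat_lit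 314) (nat_lit 386) (nat_lit 380))))))))
noncomputable def ec96 : XT := (XT.nd (nat_lit 1692) (nat_lit 3192) (nat_lit 0) (XT.nd (nat_lit 846) (nat_lit 2436) (nat_lit 0) (XT.nd (nat_lit 376) (nat_lit 1428) (nat_lit 0) (XT.nd (nat_lit 188) (nat_lit 840) (nat_lit 0) (XT.nd (nat_lit 94) (nat_lit 588) (nat_lit 0) (XT.lf (nat_lit 924) (nat_lit 824549959) (nat_lit 0) (nat_lit 11672428169) (nat_lit 840) (nat_lit 10703494329) (nat_lit 134) (nat_lit 1) (nat_lit 123) (nat_lit 1) (nat_lit 133) (nat_lit 1) (nat_lit 315) (nat_lit 386) (nat_lit 379)) (XT.lf (nat_lit 84) (nat_lit 5709355682) (nat_lit 0) (nat_lit 2474129509) (nat_lit 588) (nat_lit 14221829277) (nat_lit 117) (nat_lit 1) (nat_lit 116) (nat_lit 1) (nat_lit 123) (nat_lit 1) (nat_lit 316) (nat_lit 386) (nat_lit 378))) (XT.nd (nat_lit 94) (nat_lit 420) (nat_lit 0) (XT.lf (nat_lit 504) (nat_lit 15734265643) (nat_lit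 0) (nat_lit 5121842670) (nat_lit 420) (nat_lit 791868524) (nat_lit 117) (nat_lit 1) (nat_lit 111) (nat_lit 1) (nat_lit 116) (nat_lit 1) (nat_lit 317) (nat_lit 386) (nat_lit 377)) (XT.lf (nat_lit 504) (nat_lit 11353995921) (nat_lit 0) (nat_lit 2387312931) (nat_lit 420) (nat_lit 7181894517) (nat_lit 112) (nat_lit 1) (nat_lit 106) (nat_lit 1) (nat_lit 111) (nat_lit 1) (nat_lit 318) (nat_lit 386) (nat_lit 376)))) (XT.nd (nat_lit 188) (nat_lit 1092) (nat_lit 0) (XT.nd (nat_lit 94) (nat_lit 0) (nat_lit 0) (XT.lf (nat_lit 420) (nat_lit 6908761709) (nat_lit 0) (nat_lit 43954310) (nat_lit 336) (nat_lit 13280856571) (nat_lit 107) (nat_lit 1) (nat_lit 102) (nat_lit 1) (nat_lit 106) (nat_lit 1) (nat_lit 319) (nat_lit 386) (nat_lit 375)) (XT.lf (nat_lit 84) (nat_lit 509695788) (nat_lit 0) (nat_lit 17189411752) (nat_lit 420) (nat_lit 1876558520) (nat_lit 103) (nat_lit 1)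 (nat_lit 102) (nat_lit 1) (nat_lit 107) (nat_lit 1) (nat_lit 320) (nat_lit 386) (nat_lit 374))) (XT.nd (nat_lit 94) (nat_lit 672) (nat_lit 0) (XT.lf (nat_lit 84) (nat_lit 13160477451) (nat_lit 0) (nat_lit 2182806001) (nat_lit 420) (nat_lit 3599843524) (nat_lit 98) (nat_lit 1) (nat_lit 97) (nat_lit 1) (nat_lit 102) (nat_lit 1) (nat_lit 321) (nat_lit 386) (nat_lit 373)) (XT.nd (nat_lit 94) (nat_lit 336) (nat_lit 0) (XT.lf (nat_lit 84) (nat_lit 6584520364) (nat_lit 0) (nat_lit 6686322266) (nat_lit 420) (nat_lit 5067694065) (nat_lit 94) (nat_lit 1) (nat_lit 93) (nat_lit 1) (nat_lit 98) (nat_lit 1) (nat_lit 322) (nat_lit 386) (nat_lit 372)) (XT.lf (nat_lit 84) (nat_lit 324997324) (nat_lit 0) (nat_lit 11179427005) (nat_lit 420) (nat_lit 6258147436) (nat_lit 90) (nat_lit 1) (nat_lit 89) (nat_lit 1) (nat_lit 94) (nat_lit 1) (nat_lit 323) (nat_lit 386) (nat_lit 371))))))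 (XT.nd (nat_lit 376) (nat_lit 1260) (nat_lit 0) (XT.nd (nat_lit 188) (nat_lit 504) (nat_lit 0) (XT.nd (nat_lit 94) (nat_lit 420) (nat_lit 0) (XT.lf (nat_lit 336) (nat_lit 1467669599) (nat_lit 0) (nat_lit 9925146973) (nat_lit 252) (nat_lit 5816364231) (nat_lit 90) (nat_lit 1) (nat_lit 86) (nat_lit 1) (nat_lit 89) (nat_lit 1) (nat_lit 324) (nat_lit 386) (nat_lit 370)) (XT.lf (nat_lit 84) (nat_lit 5071193063) (nat_lit 0) (nat_lit 3475827236) (nat_lit 420) (nat_lit 8131631125) (nat_lit 82) (nat_lit 1) (nat_lit 81) (nat_lit 1) (nat_lit 86) (nat_lit 1) (nat_lit 325) (nat_lit 386) (nat_lit 369))) (XT.nd (nat_lit 94) (nat_lit 252) (nat_lit 0) (XT.lf (nat_lit 336) (nat_lit 7851426642) (nat_lit 0) (nat_lit 7375400558) (nat_lit 252) (nat_lit 944042518) (nat_lit 82) (nat_lit 1) (nat_lit 78) (nat_lit 1) (nat_lit 81) (nat_lit 1) (nat_lit 326) (nat_lit 386) (nat_lit 368))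 (XT.lf (nat_lit 336) (nat_lit 2516344308) (nat_lit 0) (nat_lit 6349917860) (nat_lit 252) (nat_lit 6816340035) (nat_lit 79) (nat_lit 1) (nat_lit 75) (nat_lit 1) (nat_lit 78) (nat_lit 1) (nat_lit 327) (nat_lit 386) (nat_lit 367)))) (XT.nd (nat_lit 188) (nat_lit 672) (nat_lit 0) (XT.nd (nat_lit 94) (nat_lit 252) (nat_lit 0) (XT.lf (nat_lit 84) (nat_lit 2868024481) (nat_lit 0) (nat_lit 2625925649) (nat_lit 336) (nat_lit 9720663228) (nat_lit 72) (nat_lit 1) (nat_lit 71) (nat_lit 1) (nat_lit 75) (nat_lit 1) (nat_lit 328) (nat_lit 386) (nat_lit 366)) (XT.lf (nat_lit 336) (nat_lit 7136702495) (nat_lit 0) (nat_lit 4748497374) (nat_lit 252) (nat_lit 2878554720) (nat_lit 72) (nat_lit 1) (nat_lit 68) (nat_lit 1) (nat_lit 71) (nat_lit 1) (nat_lit 329) (nat_lit 386) (nat_lit 365))) (XT.nd (nat_lit 94) (nat_lit 504) (nat_lit 0) (XT.lf (nat_lit 252) (nat_lit 1769199086) (nat_lit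 0) (nat_lit 4142717603) (nat_lit 168) (nat_lit 8419168032) (nat_lit 69) (nat_lit 1) (nat_lit 66) (nat_lit 1) (nat_lit 68) (nat_lit 1) (nat_lit 330) (nat_lit 386) (nat_lit 364)) (XT.nd (nat_lit 94) (nat_lit 168) (nat_lit 0) (XT.lf (nat_lit 84) (nat_lit 299713628) (nat_lit 0) (nat_lit 3353860564) (nat_lit 336) (nat_lit 10261612084) (nat_lit 63) (nat_lit 1) (nat_lit 62) (nat_lit 1) (nat_lit 66) (nat_lit 1) (nat_lit 331) (nat_lit 386) (nat_lit 363)) (XT.lf (nat_lit 252) (nat_lit 5140967919) (nat_lit 0) (nat_lit 3212663907) (nat_lit 168) (nat_lit 5158858540) (nat_lit 63) (nat_lit 1) (nat_lit 60) (nat_lit 1) (nat_lit 62) (nat_lit 1) (nat_lit 332) (nat_lit 386) (nat_lit 362))))))) (XT.nd (nat_lit 846) (nat_lit 1512) (nat_lit 0) (XT.nd (nat_lit 376) (nat_lit 840) (nat_lit 0) (XT.nd (nat_lit 188) (nat_lit 420) (nat_lit 0) (XT.nd (nat_lit 94) (nat_lit 168) (nat_lit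 0) (XT.lf (nat_lit 84) (nat_lit 2789274350) (nat_lit 0) (nat_lit 128838330) (nat_lit 252) (nat_lit 10209254037) (nat_lit 58) (nat_lit 1) (nat_lit 57) (nat_lit 1) (nat_lit 60) (nat_lit 1) (nat_lit 333) (nat_lit 386) (nat_lit 361)) (XT.lf (nat_lit 252) (nat_lit 7625337453) (nat_lit 0) (nat_lit 2642350402) (nat_lit 168) (nat_lit 2485758187) (nat_lit 58) (nat_lit 1) (nat_lit 55) (nat_lit 1) (nat_lit 57) (nat_lit 1) (nat_lit 334) (nat_lit 386) (nat_lit 360))) (XT.nd (nat_lit 94) (nat_lit 252) (nat_lit 0) (XT.lf (nat_lit 252) (nat_lit 2368735381) (nat_lit 0) (nat_lit 2456356894) (nat_lit 168) (nat_lit 7568729716) (nat_lit 56) (nat_lit 1) (nat_lit 53) (nat_lit 1) (nat_lit 55) (nat_lit 1) (nat_lit 335) (nat_lit 386) (nat_lit 359)) (XT.lf (nat_lit 252) (nat_lit 9403008930) (nat_lit 0) (nat_lit 2346849642) (nat_lit 168) (nat_lit 297725104) (nat_lit 53) (nat_lit 1) (nat_lit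 50) (nat_lit 1) (nat_lit 52) (nat_lit 1) (nat_lit 336) (nat_lit 386) (nat_lit 358)))) (XT.nd (nat_lit 188) (nat_lit 504) (nat_lit 0) (XT.nd (nat_lit 94) (nat_lit 168) (nat_lit 0) (XT.lf (nat_lit 252) (nat_lit 4208351004) (nat_lit 0) (nat_lit 2240450175) (nat_lit 168) (nat_lit 5262165052) (nat_lit 51) (nat_lit 1) (nat_lit 48) (nat_lit 1) (nat_lit 50) (nat_lit 1) (nat_lit 337) (nat_lit 386) (nat_lit 357)) (XT.lf (nat_lit 84) (nat_lit 1441522699) (nat_lit 0) (nat_lit 792325832) (nat_lit 168) (nat_lit 9154462278) (nat_lit 47) (nat_lit 1) (nat_lit 46) (nat_lit 1) (nat_lit 48) (nat_lit 1) (nat_lit 338) (nat_lit 386) (nat_lit 356))) (XT.nd (nat_lit 94) (nat_lit 336) (nat_lit 0) (XT.lf (nat_lit 252) (nat_lit 5521598543) (nat_lit 0) (nat_lit 2210194562) (nat_lit 168) (nat_lit 3342004183) (nat_lit 47) (nat_lit 1) (nat_lit 44) (nat_lit 1) (nat_lit 46) (nat_lit 1) (nat_lit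 339) (nat_lit 386) (nat_lit 355)) (XT.nd (nat_lit 94) (nat_lit 252) (nat_lit 0) (XT.lf (nat_lit 168) (nat_lit 594597702) (nat_lit 0) (nat_lit 2264479796) (nat_lit 84) (nat_lit 7912622859) (nat_lit 45) (nat_lit 1) (nat_lit 43) (nat_lit 1) (nat_lit 44) (nat_lit 1) (nat_lit 340) (nat_lit 386) (nat_lit 354)) (XT.lf (nat_lit 252) (nat_lit 6418462672) (nat_lit 0) (nat_lit 2315958547) (nat_lit 168) (nat_lit 1743511951) (nat_lit 43) (nat_lit 1) (nat_lit 40) (nat_lit 1) (nat_lit 42) (nat_lit 1) (nat_lit 341) (nat_lit 386) (nat_lit 353)))))) (XT.nd (nat_lit 470) (nat_lit 756) (nat_lit 0) (XT.nd (nat_lit 188) (nat_lit 420) (nat_lit 0) (XT.nd (nat_lit 94) (nat_lit 252) (nat_lit 0) (XT.lf (nat_lit 168) (nat_lit 1614290691) (nat_lit 0) (nat_lit 2402554571) (nat_lit 84) (nat_lit 6177221266) (nat_lit 41) (nat_lit 1) (nat_lit 39) (nat_lit 1) (nat_lit 40) (nat_lit 1) (nat_lit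 342) (nat_lit 386) (nat_lit 352)) (XT.lf (nat_lit 252) (nat_lit 6987867406) (nat_lit 0) (nat_lit 2518430489) (nat_lit 168) (nat_lit 413296002) (nat_lit 39) (nat_lit 1) (nat_lit 36) (nat_lit 1) (nat_lit 38) (nat_lit 1) (nat_lit 343) (nat_lit 386) (nat_lit 351))) (XT.nd (nat_lit 94) (nat_lit 336) (nat_lit 0) (XT.lf (nat_lit 168) (nat_lit 2323185773) (nat_lit 0) (nat_lit 2625494047) (nat_lit 84) (nat_lit 4703799324) (nat_lit 37) (nat_lit 1) (nat_lit 35) (nat_lit 1) (nat_lit 36) (nat_lit 1) (nat_lit 344) (nat_lit 386) (nat_lit 350)) (XT.nd (nat_lit 94) (nat_lit 84) (nat_lit 0) (XT.lf (nat_lit 84) (nat_lit 670563868) (nat_lit 0) (nat_lit 2104721236) (nat_lit 252) (nat_lit 6619675402) (nat_lit 33) (nat_lit 1) (nat_lit 32) (nat_lit 1) (nat_lit 35) (nat_lit 1) (nat_lit 345) (nat_lit 386) (nat_lit 349)) (XT.lf (nat_lit 168) (nat_lit 2788032532) (nat_lit 0) (nat_lit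 2904997748) (nat_lit 84) (nat_lit 3450806906) (nat_lit 33) (nat_lit 1) (nat_lit 31) (nat_lit 1) (nat_lit 32) (nat_lit 1) (nat_lit 346) (nat_lit 386) (nat_lit 348))))) (XT.nd (nat_lit 188) (nat_lit 420) (nat_lit 0) (XT.nd (nat_lit 94) (nat_lit 84) (nat_lit 0) (XT.lf (nat_lit 84) (nat_lit 1559481873) (nat_lit 0) (nat_lit 1510463646) (nat_lit 252) (nat_lit 5831593435) (nat_lit 29) (nat_lit 1) (nat_lit 28) (nat_lit 1) (nat_lit 31) (nat_lit 1) (nat_lit 347) (nat_lit 386) (nat_lit 347)) (XT.lf (nat_lit 168) (nat_lit 3062659992) (nat_lit 0) (nat_lit 3218973961) (nat_lit 84) (nat_lit 2383797397) (nat_lit 29) (nat_lit 1) (nat_lit 27) (nat_lit 1) (nat_lit 28) (nat_lit 1) (nat_lit 348) (nat_lit 386) (nat_lit 346))) (XT.nd (nat_lit 94) (nat_lit 252) (nat_lit 0) (XT.lf (nat_lit 84) (nat_lit 2295917932) (nat_lit 0) (nat_lit 1093963814) (nat_lit 168) (nat_lit 5047239546)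 (nat_lit 26) (nat_lit 1) (nat_lit 25) (nat_lit 1) (nat_lit 27) (nat_lit 1) (nat_lit 349) (nat_lit 386) (nat_lit 345)) (XT.nd (nat_lit 94) (nat_lit 168) (nat_lit 0) (XT.lf (nat_lit 168) (nat_lit 3190390912) (nat_lit 0) (nat_lit 3550329669) (nat_lit 84) (nat_lit 1474160578) (nat_lit 26) (nat_lit 1) (nat_lit 24) (nat_lit 1) (nat_lit 25) (nat_lit 1) (nat_lit 350) (nat_lit 386) (nat_lit 344)) (XT.lf (nat_lit 84) (nat_lit 2904122713) (nat_lit 0) (nat_lit 816111269) (nat_lit 168) (nat_lit 4279242918) (nat_lit 23) (nat_lit 1) (nat_lit 22) (nat_lit 1) (nat_lit 24) (nat_lit 1) (nat_lit 351) (nat_lit 386) (nat_lit 343))))))))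
noncomputable def ec97 : XT := (XT.nd (nat_lit 1786) (nat_lit 0) (nat_lit 0) (XT.nd (nat_lit 846) (nat_lit 756) (nat_lit 0) (XT.nd (nat_lit 376) (nat_lit 588) (nat_lit 0) (XT.nd (nat_lit 188) (nat_lit 252) (nat_lit 0) (XT.nd (nat_lit 94) (nat_lit 168) (nat_lit 0) (XT.lf (nat_lit 168) (nat_lit 3206010386) (nat_lit 0) (nat_lit 3885987131) (nat_lit 84) (nat_lit 698085643) (nat_lit 23) (nat_lit 1) (nat_lit 21) (nat_lit 1) (nat_lit 22) (nat_lit 1) (nat_lit 352) (nat_lit 386) (nat_lit 342)) (XT.lf (nat_lit 84) (nat_lit 3404251229) (nat_lit 0) (nat_lit 645457558) (nat_lit 168) (nat_lit 3536919638) (nat_lit 20) (nat_lit 1) (nat_lit 19) (nat_lit 1) (nat_lit 21) (nat_lit 1) (nat_lit 353) (nat_lit 386) (nat_lit 341))) (XT.nd (nat_lit 94) (nat_lit 168) (nat_lit 0) (XT.lf (nat_lit 168) (nat_lit 3137370692) (nat_lit 0) (nat_lit 4216085214) (nat_lit 84) (nat_lit 35712285)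 (nat_lit 20) (nat_lit 1) (nat_lit 18) (nat_lit 1) (nat_lit 19) (nat_lit 1) (nat_lit 354) (nat_lit 386) (nat_lit 340)) (XT.lf (nat_lit 84) (nat_lit 3813087805) (nat_lit 0) (nat_lit 556777562) (nat_lit 168) (nat_lit 2826947849) (nat_lit 17) (nat_lit 1) (nat_lit 16) (nat_lit 1) (nat_lit 18) (nat_lit 1) (nat_lit 355) (nat_lit 386) (nat_lit 339)))) (XT.nd (nat_lit 188) (nat_lit 336) (nat_lit 0) (XT.nd (nat_lit 94) (nat_lit 168) (nat_lit 0) (XT.lf (nat_lit 0) (nat_lit 512615156) (nat_lit 0) (nat_lit 4012034779) (nat_lit 168) (nat_lit 2485402742) (nat_lit 15) (nat_lit 3) (nat_lit 15) (nat_lit 1) (nat_lit 17) (nat_lit 1) (nat_lit 356) (nat_lit 386) (nat_lit 338)) (XT.lf (nat_lit 84) (nat_lit 4144639822) (nat_lit 0) (nat_lit 529896888) (nat_lit 168) (nat_lit 2153914733) (nat_lit 14) (nat_lit 1) (nat_lit 13) (nat_lit 1) (nat_lit 15) (nat_lit 1) (nat_lit 357) (nat_lit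 386) (nat_lit 337))) (XT.nd (nat_lit 94) (nat_lit 252) (nat_lit 0) (XT.lf (nat_lit 0) (nat_lit 979284592) (nat_lit 0) (nat_lit 3836606775) (nat_lit 168) (nat_lit 1835795293) (nat_lit 12) (nat_lit 3) (nat_lit 12) (nat_lit 1) (nat_lit 14) (nat_lit 1) (nat_lit 358) (nat_lit 386) (nat_lit 336)) (XT.nd (nat_lit 94) (nat_lit 84) (nat_lit 0) (XT.lf (nat_lit 84) (nat_lit 4410624195) (nat_lit 0) (nat_lit 548736382) (nat_lit 168) (nat_lit 1520759104) (nat_lit 11) (nat_lit 1) (nat_lit 10) (nat_lit 1) (nat_lit 12) (nat_lit 1) (nat_lit 359) (nat_lit 386) (nat_lit 335)) (XT.lf (nat_lit 0) (nat_lit 1376765153) (nat_lit 0) (nat_lit 3709806324) (nat_lit 168) (nat_lit 1226162541) (nat_lit 9) (nat_lit 3) (nat_lit 9) (nat_lit 1) (nat_lit 11) (nat_lit 1) (nat_lit 360) (nat_lit 386) (nat_lit 334)))))) (XT.nd (nat_lit 470) (nat_lit 0) (nat_lit 0) (XT.nd (nat_lit 188) (nat_lit 504)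 (nat_lit 0) (XT.nd (nat_lit 94) (nat_lit 84) (nat_lit 0) (XT.lf (nat_lit 84) (nat_lit 4620866153) (nat_lit 0) (nat_lit 600533800) (nat_lit 168) (nat_lit 929129015) (nat_lit 8) (nat_lit 1) (nat_lit 7) (nat_lit 1) (nat_lit 9) (nat_lit 1) (nat_lit 361) (nat_lit 386) (nat_lit 333)) (XT.lf (nat_lit 0) (nat_lit 1714605899) (nat_lit 0) (nat_lit 3619564722) (nat_lit 168) (nat_lit 657786966) (nat_lit 6) (nat_lit 3) (nat_lit 6) (nat_lit 1) (nat_lit 8) (nat_lit 1) (nat_lit 362) (nat_lit 386) (nat_lit 332))) (XT.nd (nat_lit 94) (nat_lit 336) (nat_lit 0) (XT.lf (nat_lit 84) (nat_lit 4783626330) (nat_lit 0) (nat_lit 675210025) (nat_lit 168) (nat_lit 379670210) (nat_lit 5) (nat_lit 1) (nat_lit 4) (nat_lit 1) (nat_lit 6) (nat_lit 1) (nat_lit 363) (nat_lit 386) (nat_lit 331)) (XT.nd (nat_lit 94) (nat_lit 252) (nat_lit 0) (XT.lf (nat_lit 0) (nat_lit 2000883056) (nat_lit 0)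 (nat_lit 3556307009) (nat_lit 168) (nat_lit 131039956) (nat_lit 3) (nat_lit 3) (nat_lit 3) (nat_lit 1) (nat_lit 5) (nat_lit 1) (nat_lit 364) (nat_lit 386) (nat_lit 330)) (XT.lf (nat_lit 0) (nat_lit 8040575268) (nat_lit 0) (nat_lit 0) (nat_lit 0) (nat_lit 0) (nat_lit 0) (nat_lit 0) (nat_lit 1) (nat_lit 0) (nat_lit 1) (nat_lit 0) (nat_lit 365) (nat_lit 386) (nat_lit 329))))) (XT.nd (nat_lit 188) (nat_lit 0) (nat_lit 0) (XT.nd (nat_lit 94) (nat_lit 0) (nat_lit 0) (XT.lf (nat_lit 0) (nat_lit 8033256640) (nat_lit 0) (nat_lit 0) (nat_lit 0) (nat_lit 0) (nat_lit 0) (nat_lit 0) (nat_lit 1) (nat_lit 0) (nat_lit 1) (nat_lit 0) (nat_lit 366) (nat_lit 386) (nat_lit 328)) (XT.lf (nat_lit 0) (nat_lit 8026480132) (nat_lit 0) (nat_lit 0) (nat_lit 0) (nat_lit 0) (nat_lit 0) (nat_lit 0) (nat_lit 1) (nat_lit 0) (nat_lit 1) (nat_lit 0) (nat_lit 367) (nat_lit 386) (nat_lit 327)))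 (XT.nd (nat_lit 94) (nat_lit 0) (nat_lit 0) (XT.lf (nat_lit 0) (nat_lit 8020205588) (nat_lit 0) (nat_lit 0) (nat_lit 0) (nat_lit 0) (nat_lit 0) (nat_lit 0) (nat_lit 1) (nat_lit 0) (nat_lit 1) (nat_lit 0) (nat_lit 368) (nat_lit 386) (nat_lit 326)) (XT.nd (nat_lit 94) (nat_lit 0) (nat_lit 0) (XT.lf (nat_lit 0) (nat_lit 8014395825) (nat_lit 0) (nat_lit 0) (nat_lit 0) (nat_lit 0) (nat_lit 0) (nat_lit 0) (nat_lit 1) (nat_lit 0) (nat_lit 1) (nat_lit 0) (nat_lit 369) (nat_lit 386) (nat_lit 325)) (XT.lf (nat_lit 0) (nat_lit 8009016415) (nat_lit 0) (nat_lit 0) (nat_lit 0) (nat_lit 0) (nat_lit 0) (nat_lit 0) (nat_lit 1) (nat_lit 0) (nat_lit 1) (nat_lit 0) (nat_lit 370) (nat_lit 386) (nat_lit 324))))))) (XT.nd (nat_lit 846) (nat_lit 0) (nat_lit 0) (XT.nd (nat_lit 376) (nat_lit 0) (nat_lit 0) (XT.nd (nat_lit 188) (nat_lit 0) (nat_lit 0) (XT.nd (nat_lit 94) (nat_lit 0)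 (nat_lit 0) (XT.lf (nat_lit 0) (nat_lit 8004035480) (nat_lit 0) (nat_lit 0) (nat_lit 0) (nat_lit 0) (nat_lit 0) (nat_lit 0) (nat_lit 1) (nat_lit 0) (nat_lit 1) (nat_lit 0) (nat_lit 371) (nat_lit 386) (nat_lit 323)) (XT.lf (nat_lit 0) (nat_lit 7999423503) (nat_lit 0) (nat_lit 0) (nat_lit 0) (nat_lit 0) (nat_lit 0) (nat_lit 0) (nat_lit 1) (nat_lit 0) (nat_lit 1) (nat_lit 0) (nat_lit 372) (nat_lit 386) (nat_lit 322))) (XT.nd (nat_lit 94) (nat_lit 0) (nat_lit 0) (XT.lf (nat_lit 0) (nat_lit 7995153153) (nat_lit 0) (nat_lit 0) (nat_lit 0) (nat_lit 0) (nat_lit 0) (nat_lit 0) (nat_lit 1) (nat_lit 0) (nat_lit 1) (nat_lit 0) (nat_lit 373) (nat_lit 386) (nat_lit 321)) (XT.lf (nat_lit 0) (nat_lit 7991199126) (nat_lit 0) (nat_lit 0) (nat_lit 0) (nat_lit 0) (nat_lit 0) (nat_lit 0) (nat_lit 1) (nat_lit 0) (nat_lit 1) (nat_lit 0) (nat_lit 374) (nat_lit 386) (nat_lit 320))))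 (XT.nd (nat_lit 188) (nat_lit 0) (nat_lit 0) (XT.nd (nat_lit 94) (nat_lit 0) (nat_lit 0) (XT.lf (nat_lit 0) (nat_lit 7987537990) (nat_lit 0) (nat_lit 0) (nat_lit 0) (nat_lit 0) (nat_lit 0) (nat_lit 0) (nat_lit 1) (nat_lit 0) (nat_lit 1) (nat_lit 0) (nat_lit 375) (nat_lit 386) (nat_lit 319)) (XT.lf (nat_lit 0) (nat_lit 7984148049) (nat_lit 0) (nat_lit 0) (nat_lit 0) (nat_lit 0) (nat_lit 0) (nat_lit 0) (nat_lit 1) (nat_lit 0) (nat_lit 1) (nat_lit 0) (nat_lit 376) (nat_lit 386) (nat_lit 318))) (XT.nd (nat_lit 94) (nat_lit 0) (nat_lit 0) (XT.lf (nat_lit 0) (nat_lit 7981009215) (nat_lit 0) (nat_lit 0) (nat_lit 0) (nat_lit 0) (nat_lit 0) (nat_lit 0) (nat_lit 1) (nat_lit 0) (nat_lit 1) (nat_lit 0) (nat_lit 377) (nat_lit 386) (nat_lit 317)) (XT.nd (nat_lit 94) (nat_lit 0) (nat_lit 0) (XT.lf (nat_lit 0) (nat_lit 7978102887) (nat_lit 0) (nat_lit 0) (nat_lit 0) (nat_lit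 0) (nat_lit 0) (nat_lit 0) (nat_lit 1) (nat_lit 0) (nat_lit 1) (nat_lit 0) (nat_lit 378) (nat_lit 386) (nat_lit 316)) (XT.lf (nat_lit 0) (nat_lit 7975411843) (nat_lit 0) (nat_lit 0) (nat_lit 0) (nat_lit 0) (nat_lit 0) (nat_lit 0) (nat_lit 1) (nat_lit 0) (nat_lit 1) (nat_lit 0) (nat_lit 379) (nat_lit 386) (nat_lit 315)))))) (XT.nd (nat_lit 470) (nat_lit 0) (nat_lit 0) (XT.nd (nat_lit 188) (nat_lit 0) (nat_lit 0) (XT.nd (nat_lit 94) (nat_lit 0) (nat_lit 0) (XT.lf (nat_lit 0) (nat_lit 7972920135) (nat_lit 0) (nat_lit 0) (nat_lit 0) (nat_lit 0) (nat_lit 0) (nat_lit 0) (nat_lit 1) (nat_lit 0) (nat_lit 1) (nat_lit 0) (nat_lit 380) (nat_lit 386) (nat_lit 314)) (XT.lf (nat_lit 0) (nat_lit 7970612998) (nat_lit 0) (nat_lit 0) (nat_lit 0) (nat_lit 0) (nat_lit 0) (nat_lit 0) (nat_lit 1) (nat_lit 0) (nat_lit 1) (nat_lit 0) (nat_lit 381) (nat_lit 386) (nat_lit 313))) (XT.nd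 (nat_lit 94) (nat_lit 0) (nat_lit 0) (XT.lf (nat_lit 0) (nat_lit 7968476761) (nat_lit 0) (nat_lit 0) (nat_lit 0) (nat_lit 0) (nat_lit 0) (nat_lit 0) (nat_lit 1) (nat_lit 0) (nat_lit 1) (nat_lit 0) (nat_lit 382) (nat_lit 386) (nat_lit 312)) (XT.nd (nat_lit 94) (nat_lit 0) (nat_lit 0) (XT.lf (nat_lit 0) (nat_lit 7966498763) (nat_lit 0) (nat_lit 0) (nat_lit 0) (nat_lit 0) (nat_lit 0) (nat_lit 0) (nat_lit 1) (nat_lit 0) (nat_lit 1) (nat_lit 0) (nat_lit 383) (nat_lit 386) (nat_lit 311)) (XT.lf (nat_lit 0) (nat_lit 7964667283) (nat_lit 0) (nat_lit 0) (nat_lit 0) (nat_lit 0) (nat_lit 0) (nat_lit 0) (nat_lit 1) (nat_lit 0) (nat_lit 1) (nat_lit 0) (nat_lit 384) (nat_lit 386) (nat_lit 310))))) (XT.nd (nat_lit 188) (nat_lit 0) (nat_lit 0) (XT.nd (nat_lit 94) (nat_lit 0) (nat_lit 0) (XT.lf (nat_lit 0) (nat_lit 7962971469) (nat_lit 0) (nat_lit 0) (nat_lit 0) (nat_lit 0)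 (nat_lit 0) (nat_lit 0) (nat_lit 1) (nat_lit 0) (nat_lit 1) (nat_lit 0) (nat_lit 385) (nat_lit 386) (nat_lit 309)) (XT.lf (nat_lit 0) (nat_lit 7961401270) (nat_lit 0) (nat_lit 0) (nat_lit 0) (nat_lit 0) (nat_lit 0) (nat_lit 0) (nat_lit 1) (nat_lit 0) (nat_lit 1) (nat_lit 0) (nat_lit 386) (nat_lit 386) (nat_lit 308))) (XT.nd (nat_lit 94) (nat_lit 0) (nat_lit 0) (XT.lf (nat_lit 0) (nat_lit 7959947382) (nat_lit 0) (nat_lit 0) (nat_lit 0) (nat_lit 0) (nat_lit 0) (nat_lit 0) (nat_lit 1) (nat_lit 0) (nat_lit 1) (nat_lit 0) (nat_lit 387) (nat_lit 386) (nat_lit 307)) (XT.nd (nat_lit 94) (nat_lit 0) (nat_lit 0) (XT.lf (nat_lit 0) (nat_lit 7958601190) (nat_lit 0) (nat_lit 0) (nat_lit 0) (nat_lit 0) (nat_lit 0) (nat_lit 0) (nat_lit 1) (nat_lit 0) (nat_lit 1) (nat_lit 0) (nat_lit 388) (nat_lit 386) (nat_lit 306)) (XT.lf (nat_lit 0) (nat_lit 7957354716) (nat_lit 0) (nat_lit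 0) (nat_lit 0) (nat_lit 0) (nat_lit 0) (nat_lit 0) (nat_lit 1) (nat_lit 0) (nat_lit 1) (nat_lit 0) (nat_lit 389) (nat_lit 386) (nat_lit 305))))))))
noncomputable def ec98 : XT := (XT.nd (nat_lit 1692) (nat_lit 0) (nat_lit 0) (XT.nd (nat_lit 846) (nat_lit 0) (nat_lit 0) (XT.nd (nat_lit 376) (nat_lit 0) (nat_lit 0) (XT.nd (nat_lit 188) (nat_lit 0) (nat_lit 0) (XT.nd (nat_lit 94) (nat_lit 0) (nat_lit 0) (XT.lf (nat_lit 0) (nat_lit 7956200573) (nat_lit 0) (nat_lit 0) (nat_lit 0) (nat_lit 0) (nat_lit 0) (nat_lit 0) (nat_lit 1) (nat_lit 0) (nat_lit 1) (nat_lit 0) (nat_lit 390) (nat_lit 386) (nat_lit 304)) (XT.lf (nat_lit 0) (nat_lit 7955131922) (nat_lit 0) (nat_lit 0) (nat_lit 0) (nat_lit 0) (nat_lit 0) (nat_lit 0) (nat_lit 1) (nat_lit 0) (nat_lit 1) (nat_lit 0) (nat_lit 391) (nat_lit 386) (nat_lit 303))) (XT.nd (nat_lit 94) (nat_lit 0) (nat_lit 0) (XT.lf (nat_lit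 0) (nat_lit 7954142431) (nat_lit 0) (nat_lit 0) (nat_lit 0) (nat_lit 0) (nat_lit 0) (nat_lit 0) (nat_lit 1) (nat_lit 0) (nat_lit 1) (nat_lit 0) (nat_lit 392) (nat_lit 386) (nat_lit 302)) (XT.lf (nat_lit 0) (nat_lit 7953226235) (nat_lit 0) (nat_lit 0) (nat_lit 0) (nat_lit 0) (nat_lit 0) (nat_lit 0) (nat_lit 1) (nat_lit 0) (nat_lit 1) (nat_lit 0) (nat_lit 393) (nat_lit 386) (nat_lit 301)))) (XT.nd (nat_lit 188) (nat_lit 0) (nat_lit 0) (XT.nd (nat_lit 94) (nat_lit 0) (nat_lit 0) (XT.lf (nat_lit 0) (nat_lit 7952377906) (nat_lit 0) (nat_lit 0) (nat_lit 0) (nat_lit 0) (nat_lit 0) (nat_lit 0) (nat_lit 1) (nat_lit 0) (nat_lit 1) (nat_lit 0) (nat_lit 394) (nat_lit 386) (nat_lit 300)) (XT.lf (nat_lit 0) (nat_lit 7951592416) (nat_lit 0) (nat_lit 0) (nat_lit 0) (nat_lit 0) (nat_lit 0) (nat_lit 0) (nat_lit 1) (nat_lit 0) (nat_lit 1) (nat_lit 0) (nat_lit 395) (nat_lit 386)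 (nat_lit 299))) (XT.nd (nat_lit 94) (nat_lit 0) (nat_lit 0) (XT.lf (nat_lit 0) (nat_lit 7950865110) (nat_lit 0) (nat_lit 0) (nat_lit 0) (nat_lit 0) (nat_lit 0) (nat_lit 0) (nat_lit 1) (nat_lit 0) (nat_lit 1) (nat_lit 0) (nat_lit 396) (nat_lit 386) (nat_lit 298)) (XT.nd (nat_lit 94) (nat_lit 0) (nat_lit 0) (XT.lf (nat_lit 0) (nat_lit 7950191679) (nat_lit 0) (nat_lit 0) (nat_lit 0) (nat_lit 0) (nat_lit 0) (nat_lit 0) (nat_lit 1) (nat_lit 0) (nat_lit 1) (nat_lit 0) (nat_lit 397) (nat_lit 386) (nat_lit 297)) (XT.lf (nat_lit 0) (nat_lit 7949568131) (nat_lit 0) (nat_lit 0) (nat_lit 0) (nat_lit 0) (nat_lit 0) (nat_lit 0) (nat_lit 1) (nat_lit 0) (nat_lit 1) (nat_lit 0) (nat_lit 398) (nat_lit 386) (nat_lit 296)))))) (XT.nd (nat_lit 376) (nat_lit 0) (nat_lit 0) (XT.nd (nat_lit 188) (nat_lit 0) (nat_lit 0) (XT.nd (nat_lit 94) (nat_lit 0) (nat_lit 0) (XT.lf (nat_lit 0)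 (nat_lit 7948990772) (nat_lit 0) (nat_lit 0) (nat_lit 0) (nat_lit 0) (nat_lit 0) (nat_lit 0) (nat_lit 1) (nat_lit 0) (nat_lit 1) (nat_lit 0) (nat_lit 399) (nat_lit 386) (nat_lit 295)) (XT.lf (nat_lit 0) (nat_lit 7948456181) (nat_lit 0) (nat_lit 0) (nat_lit 0) (nat_lit 0) (nat_lit 0) (nat_lit 0) (nat_lit 1) (nat_lit 0) (nat_lit 1) (nat_lit 0) (nat_lit 400) (nat_lit 386) (nat_lit 294))) (XT.nd (nat_lit 94) (nat_lit 0) (nat_lit 0) (XT.lf (nat_lit 0) (nat_lit 7947961189) (nat_lit 0) (nat_lit 0) (nat_lit 0) (nat_lit 0) (nat_lit 0) (nat_lit 0) (nat_lit 1) (nat_lit 0) (nat_lit 1) (nat_lit 0) (nat_lit 401) (nat_lit 386) (nat_lit 293)) (XT.lf (nat_lit 0) (nat_lit 7947502863) (nat_lit 0) (nat_lit 0) (nat_lit 0) (nat_lit 0) (nat_lit 0) (nat_lit 0) (nat_lit 1) (nat_lit 0) (nat_lit 1) (nat_lit 0) (nat_lit 402) (nat_lit 386) (nat_lit 292)))) (XT.nd (nat_lit 188) (nat_lit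 0) (nat_lit 0) (XT.nd (nat_lit 94) (nat_lit 0) (nat_lit 0) (XT.lf (nat_lit 0) (nat_lit 7947078487) (nat_lit 0) (nat_lit 0) (nat_lit 0) (nat_lit 0) (nat_lit 0) (nat_lit 0) (nat_lit 1) (nat_lit 0) (nat_lit 1) (nat_lit 0) (nat_lit 403) (nat_lit 386) (nat_lit 291)) (XT.lf (nat_lit 0) (nat_lit 7946685546) (nat_lit 0) (nat_lit 0) (nat_lit 0) (nat_lit 0) (nat_lit 0) (nat_lit 0) (nat_lit 1) (nat_lit 0) (nat_lit 1) (nat_lit 0) (nat_lit 404) (nat_lit 386) (nat_lit 290))) (XT.nd (nat_lit 94) (nat_lit 0) (nat_lit 0) (XT.lf (nat_lit 0) (nat_lit 7946321712) (nat_lit 0) (nat_lit 0) (nat_lit 0) (nat_lit 0) (nat_lit 0) (nat_lit 0) (nat_lit 1) (nat_lit 0) (nat_lit 1) (nat_lit 0) (nat_lit 405) (nat_lit 386) (nat_lit 289)) (XT.nd (nat_lit 94) (nat_lit 0) (nat_lit 0) (XT.lf (nat_lit 0) (nat_lit 7945984829) (nat_lit 0) (nat_lit 0) (nat_lit 0) (nat_lit 0) (nat_lit 0) (nat_lit 0)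 (nat_lit 1) (nat_lit 0) (nat_lit 1) (nat_lit 0) (nat_lit 406) (nat_lit 386) (nat_lit 288)) (XT.lf (nat_lit 0) (nat_lit 7945672900) (nat_lit 0) (nat_lit 0) (nat_lit 0) (nat_lit 0) (nat_lit 0) (nat_lit 0) (nat_lit 1) (nat_lit 0) (nat_lit 1) (nat_lit 0) (nat_lit 407) (nat_lit 386) (nat_lit 287))))))) (XT.nd (nat_lit 846) (nat_lit 0) (nat_lit 0) (XT.nd (nat_lit 376) (nat_lit 0) (nat_lit 0) (XT.nd (nat_lit 188) (nat_lit 0) (nat_lit 0) (XT.nd (nat_lit 94) (nat_lit 0) (nat_lit 0) (XT.lf (nat_lit 0) (nat_lit 7945384077) (nat_lit 0) (nat_lit 0) (nat_lit 0) (nat_lit 0) (nat_lit 0) (nat_lit 0) (nat_lit 1) (nat_lit 0) (nat_lit 1) (nat_lit 0) (nat_lit 408) (nat_lit 386) (nat_lit 286)) (XT.lf (nat_lit 0) (nat_lit 7945116648) (nat_lit 0) (nat_lit 0) (nat_lit 0) (nat_lit 0) (nat_lit 0) (nat_lit 0) (nat_lit 1) (nat_lit 0) (nat_lit 1) (nat_lit 0) (nat_lit 409) (nat_lit 386)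 (nat_lit 285))) (XT.nd (nat_lit 94) (nat_lit 0) (nat_lit 0) (XT.lf (nat_lit 0) (nat_lit 7944869029) (nat_lit 0) (nat_lit 0) (nat_lit 0) (nat_lit 0) (nat_lit 0) (nat_lit 0) (nat_lit 1) (nat_lit 0) (nat_lit 1) (nat_lit 0) (nat_lit 410) (nat_lit 386) (nat_lit 284)) (XT.lf (nat_lit 0) (nat_lit 7944639752) (nat_lit 0) (nat_lit 0) (nat_lit 0) (nat_lit 0) (nat_lit 0) (nat_lit 0) (nat_lit 1) (nat_lit 0) (nat_lit 1) (nat_lit 0) (nat_lit 411) (nat_lit 386) (nat_lit 283)))) (XT.nd (nat_lit 188) (nat_lit 0) (nat_lit 0) (XT.nd (nat_lit 94) (nat_lit 0) (nat_lit 0) (XT.lf (nat_lit 0) (nat_lit 7944427458) (nat_lit 0) (nat_lit 0) (nat_lit 0) (nat_lit 0) (nat_lit 0) (nat_lit 0) (nat_lit 1) (nat_lit 0) (nat_lit 1) (nat_lit 0) (nat_lit 412) (nat_lit 386) (nat_lit 282)) (XT.lf (nat_lit 0) (nat_lit 7944230890) (nat_lit 0) (nat_lit 0) (nat_lit 0) (nat_lit 0) (nat_lit 0) (nat_lit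 0) (nat_lit 1) (nat_lit 0) (nat_lit 1) (nat_lit 0) (nat_lit 413) (nat_lit 386) (nat_lit 281))) (XT.nd (nat_lit 94) (nat_lit 0) (nat_lit 0) (XT.lf (nat_lit 0) (nat_lit 7944048883) (nat_lit 0) (nat_lit 0) (nat_lit 0) (nat_lit 0) (nat_lit 0) (nat_lit 0) (nat_lit 1) (nat_lit 0) (nat_lit 1) (nat_lit 0) (nat_lit 414) (nat_lit 386) (nat_lit 280)) (XT.nd (nat_lit 94) (nat_lit 0) (nat_lit 0) (XT.lf (nat_lit 0) (nat_lit 7943880357) (nat_lit 0) (nat_lit 0) (nat_lit 0) (nat_lit 0) (nat_lit 0) (nat_lit 0) (nat_lit 1) (nat_lit 0) (nat_lit 1) (nat_lit 0) (nat_lit 415) (nat_lit 386) (nat_lit 279)) (XT.lf (nat_lit 0) (nat_lit 7943724315) (nat_lit 0) (nat_lit 0) (nat_lit 0) (nat_lit 0) (nat_lit 0) (nat_lit 0) (nat_lit 1) (nat_lit 0) (nat_lit 1) (nat_lit 0) (nat_lit 416) (nat_lit 386) (nat_lit 278)))))) (XT.nd (nat_lit 470) (nat_lit 0) (nat_lit 0) (XT.nd (nat_lit 188) (nat_lit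 0) (nat_lit 0) (XT.nd (nat_lit 94) (nat_lit 0) (nat_lit 0) (XT.lf (nat_lit 0) (nat_lit 7943579831) (nat_lit 0) (nat_lit 0) (nat_lit 0) (nat_lit 0) (nat_lit 0) (nat_lit 0) (nat_lit 1) (nat_lit 0) (nat_lit 1) (nat_lit 0) (nat_lit 417) (nat_lit 386) (nat_lit 277)) (XT.lf (nat_lit 0) (nat_lit 7943446050) (nat_lit 0) (nat_lit 0) (nat_lit 0) (nat_lit 0) (nat_lit 0) (nat_lit 0) (nat_lit 1) (nat_lit 0) (nat_lit 1) (nat_lit 0) (nat_lit 418) (nat_lit 386) (nat_lit 276))) (XT.nd (nat_lit 94) (nat_lit 0) (nat_lit 0) (XT.lf (nat_lit 0) (nat_lit 7943322179) (nat_lit 0) (nat_lit 0) (nat_lit 0) (nat_lit 0) (nat_lit 0) (nat_lit 0) (nat_lit 1) (nat_lit 0) (nat_lit 1) (nat_lit 0) (nat_lit 419) (nat_lit 386) (nat_lit 275)) (XT.nd (nat_lit 94) (nat_lit 0) (nat_lit 0) (XT.lf (nat_lit 0) (nat_lit 7943207484) (nat_lit 0) (nat_lit 0) (nat_lit 0) (nat_lit 0) (nat_lit 0) (nat_lit 0)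 (nat_lit 1) (nat_lit 0) (nat_lit 1) (nat_lit 0) (nat_lit 420) (nat_lit 386) (nat_lit 274)) (XT.lf (nat_lit 0) (nat_lit 7943101284) (nat_lit 0) (nat_lit 0) (nat_lit 0) (nat_lit 0) (nat_lit 0) (nat_lit 0) (nat_lit 1) (nat_lit 0) (nat_lit 1) (nat_lit 0) (nat_lit 421) (nat_lit 386) (nat_lit 273))))) (XT.nd (nat_lit 188) (nat_lit 0) (nat_lit 0) (XT.nd (nat_lit 94) (nat_lit 0) (nat_lit 0) (XT.lf (nat_lit 0) (nat_lit 7943002951) (nat_lit 0) (nat_lit 0) (nat_lit 0) (nat_lit 0) (nat_lit 0) (nat_lit 0) (nat_lit 1) (nat_lit 0) (nat_lit 1) (nat_lit 0) (nat_lit 422) (nat_lit 386) (nat_lit 272)) (XT.lf (nat_lit 0) (nat_lit 7942911902) (nat_lit 0) (nat_lit 0) (nat_lit 0) (nat_lit 0) (nat_lit 0) (nat_lit 0) (nat_lit 1) (nat_lit 0) (nat_lit 1) (nat_lit 0) (nat_lit 423) (nat_lit 386) (nat_lit 271))) (XT.nd (nat_lit 94) (nat_lit 0) (nat_lit 0) (XT.lf (nat_lit 0) (nat_lit 7942827597)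 (nat_lit 0) (nat_lit 0) (nat_lit 0) (nat_lit 0) (nat_lit 0) (nat_lit 0) (nat_lit 1) (nat_lit 0) (nat_lit 1) (nat_lit 0) (nat_lit 424) (nat_lit 386) (nat_lit 270)) (XT.nd (nat_lit 94) (nat_lit 0) (nat_lit 0) (XT.lf (nat_lit 0) (nat_lit 7942749537) (nat_lit 0) (nat_lit 0) (nat_lit 0) (nat_lit 0) (nat_lit 0) (nat_lit 0) (nat_lit 1) (nat_lit 0) (nat_lit 1) (nat_lit 0) (nat_lit 425) (nat_lit 386) (nat_lit 269)) (XT.lf (nat_lit 0) (nat_lit 7942677259) (nat_lit 0) (nat_lit 0) (nat_lit 0) (nat_lit 0) (nat_lit 0) (nat_lit 0) (nat_lit 1) (nat_lit 0) (nat_lit 1) (nat_lit 0) (nat_lit 426) (nat_lit 386) (nat_lit 268))))))))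
noncomputable def ec99 : XT := (XT.nd (nat_lit 57152) (nat_lit 0) (nat_lit 4620) (XT.nd (nat_lit 846) (nat_lit 0) (nat_lit 0) (XT.nd (nat_lit 376) (nat_lit 0) (nat_lit 0) (XT.nd (nat_lit 188) (nat_lit 0) (nat_lit 0) (XT.nd (nat_lit 94) (nat_lit 0) (nat_lit 0) (XT.lf (nat_lit 0) (nat_lit 7942610336) (nat_lit 0) (nat_lit 0) (nat_lit 0) (nat_lit 0) (nat_lit 0) (nat_lit 0) (nat_lit 1) (nat_lit 0) (nat_lit 1) (nat_lit 0) (nat_lit 427) (nat_lit 386) (nat_lit 267)) (XT.lf (nat_lit 0) (nat_lit 7942548369) (nat_lit 0) (nat_lit 0) (nat_lit 0) (nat_lit 0) (nat_lit 0) (nat_lit 0) (nat_lit 1) (nat_lit 0) (nat_lit 1) (nat_lit 0) (nat_lit 428) (nat_lit 386) (nat_lit 266))) (XT.nd (nat_lit 94) (nat_lit 0) (nat_lit 0) (XT.lf (nat_lit 0) (nat_lit 7942490993) (nat_lit 0) (nat_lit 0) (nat_lit 0) (nat_lit 0) (nat_lit 0) (nat_lit 0) (nat_lit 1) (nat_lit 0) (nat_lit 1) (nat_lit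 0) (nat_lit 429) (nat_lit 386) (nat_lit 265)) (XT.lf (nat_lit 0) (nat_lit 7942437867) (nat_lit 0) (nat_lit 0) (nat_lit 0) (nat_lit 0) (nat_lit 0) (nat_lit 0) (nat_lit 1) (nat_lit 0) (nat_lit 1) (nat_lit 0) (nat_lit 430) (nat_lit 386) (nat_lit 264)))) (XT.nd (nat_lit 188) (nat_lit 0) (nat_lit 0) (XT.nd (nat_lit 94) (nat_lit 0) (nat_lit 0) (XT.lf (nat_lit 0) (nat_lit 7942388676) (nat_lit 0) (nat_lit 0) (nat_lit 0) (nat_lit 0) (nat_lit 0) (nat_lit 0) (nat_lit 1) (nat_lit 0) (nat_lit 1) (nat_lit 0) (nat_lit 431) (nat_lit 386) (nat_lit 263)) (XT.lf (nat_lit 0) (nat_lit 7942343128) (nat_lit 0) (nat_lit 0) (nat_lit 0) (nat_lit 0) (nat_lit 0) (nat_lit 0) (nat_lit 1) (nat_lit 0) (nat_lit 1) (nat_lit 0) (nat_lit 432) (nat_lit 386) (nat_lit 262))) (XT.nd (nat_lit 94) (nat_lit 0) (nat_lit 0) (XT.lf (nat_lit 0) (nat_lit 7942300955) (nat_lit 0) (nat_lit 0) (nat_lit 0) (nat_lit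 0) (nat_lit 0) (nat_lit 0) (nat_lit 1) (nat_lit 0) (nat_lit 1) (nat_lit 0) (nat_lit 433) (nat_lit 386) (nat_lit 261)) (XT.nd (nat_lit 94) (nat_lit 0) (nat_lit 0) (XT.lf (nat_lit 0) (nat_lit 7942261906) (nat_lit 0) (nat_lit 0) (nat_lit 0) (nat_lit 0) (nat_lit 0) (nat_lit 0) (nat_lit 1) (nat_lit 0) (nat_lit 1) (nat_lit 0) (nat_lit 434) (nat_lit 386) (nat_lit 260)) (XT.lf (nat_lit 0) (nat_lit 7942225749) (nat_lit 0) (nat_lit 0) (nat_lit 0) (nat_lit 0) (nat_lit 0) (nat_lit 0) (nat_lit 1) (nat_lit 0) (nat_lit 1) (nat_lit 0) (nat_lit 435) (nat_lit 386) (nat_lit 259)))))) (XT.nd (nat_lit 55836) (nat_lit 0) (nat_lit 10332) (XT.nd (nat_lit 55554) (nat_lit 0) (nat_lit 10752) (XT.nd (nat_lit 94) (nat_lit 0) (nat_lit 0) (XT.lf (nat_lit 0) (nat_lit 7942192270) (nat_lit 0) (nat_lit 0) (nat_lit 0) (nat_lit 0) (nat_lit 0) (nat_lit 0) (nat_lit 1) (nat_lit 0) (nat_lit 1) (nat_lit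 0) (nat_lit 436) (nat_lit 386) (nat_lit 258)) (XT.lf (nat_lit 0) (nat_lit 7942161271) (nat_lit 0) (nat_lit 0) (nat_lit 0) (nat_lit 0) (nat_lit 0) (nat_lit 0) (nat_lit 1) (nat_lit 0) (nat_lit 1) (nat_lit 0) (nat_lit 437) (nat_lit 386) (nat_lit 257))) (XT.nd (nat_lit 94) (nat_lit 0) (nat_lit 84) (XT.lf (nat_lit 924) (nat_lit 4292309970) (nat_lit 0) (nat_lit 7620986486) (nat_lit 924) (nat_lit 4292309970) (nat_lit 139) (nat_lit 1) (nat_lit 128) (nat_lit 0) (nat_lit 139) (nat_lit 0) (nat_lit 306) (nat_lit 387) (nat_lit 387)) (XT.nd (nat_lit 94) (nat_lit 0) (nat_lit 0) (XT.lf (nat_lit 924) (nat_lit 1601163324) (nat_lit 0) (nat_lit 14962306212) (nat_lit 840) (nat_lit 14633085487) (nat_lit 140) (nat_lit 1) (nat_lit 129) (nat_lit 1) (nat_lit 139) (nat_lit 1) (nat_lit 307) (nat_lit 387) (nat_lit 386)) (XT.lf (nat_lit 924) (nat_lit 14705760933) (nat_lit 84) (nat_lit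 10020261513) (nat_lit 0) (nat_lit 5314289621) (nat_lit 140) (nat_lit 1) (nat_lit 130) (nat_lit 1) (nat_lit 129) (nat_lit 1) (nat_lit 308) (nat_lit 387) (nat_lit 385))))) (XT.nd (nat_lit 188) (nat_lit 588) (nat_lit 0) (XT.nd (nat_lit 94) (nat_lit 0) (nat_lit 84) (XT.lf (nat_lit 924) (nat_lit 12706982159) (nat_lit 84) (nat_lit 4199422146) (nat_lit 0) (nat_lit 12035526136) (nat_lit 141) (nat_lit 1) (nat_lit 131) (nat_lit 1) (nat_lit 130) (nat_lit 1) (nat_lit 309) (nat_lit 387) (nat_lit 384)) (XT.lf (nat_lit 924) (nat_lit 9404247108) (nat_lit 0) (nat_lit 17594901819) (nat_lit 840) (nat_lit 899448867) (nat_lit 142) (nat_lit 1) (nat_lit 131) (nat_lit 1) (nat_lit 141) (nat_lit 1) (nat_lit 310) (nat_lit 387) (nat_lit 383))) (XT.nd (nat_lit 94) (nat_lit 756) (nat_lit 0) (XT.lf (nat_lit 924) (nat_lit 2256456887) (nat_lit 0) (nat_lit 19403267309) (nat_lit 840) (nat_lit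 5245367387) (nat_lit 143) (nat_lit 1) (nat_lit 132) (nat_lit 1) (nat_lit 142) (nat_lit 1) (nat_lit 311) (nat_lit 387) (nat_lit 382)) (XT.nd (nat_lit 94) (nat_lit 756) (nat_lit 0) (XT.lf (nat_lit 924) (nat_lit 4335992359) (nat_lit 84) (nat_lit 16863019367) (nat_lit 0) (nat_lit 4758952115) (nat_lit 143) (nat_lit 1) (nat_lit 133) (nat_lit 1) (nat_lit 132) (nat_lit 1) (nat_lit 312) (nat_lit 387) (nat_lit 381)) (XT.lf (nat_lit 924) (nat_lit 890513956) (nat_lit 0) (nat_lit 12606222423) (nat_lit 840) (nat_lit 11559773876) (nat_lit 134) (nat_lit 1) (nat_lit 123) (nat_lit 1) (nat_lit 133) (nat_lit 1) (nat_lit 313) (nat_lit 387) (nat_lit 380))))))) (XT.nd (nat_lit 846) (nat_lit 2604) (nat_lit 0) (XT.nd (nat_lit 376) (nat_lit 1344) (nat_lit 0) (XT.nd (nat_lit 188) (nat_lit 756) (nat_lit 0) (XT.nd (nat_lit 94) (nat_lit 420) (nat_lit 0) (XT.lf (nat_lit 84) (nat_lit 6166104137)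 (nat_lit 0) (nat_lit 2672059869) (nat_lit 588) (nat_lit 15359575619) (nat_lit 117) (nat_lit 1) (nat_lit 116) (nat_lit 1) (nat_lit 123) (nat_lit 1) (nat_lit 314) (nat_lit 387) (nat_lit 379)) (XT.lf (nat_lit 504) (nat_lit 16993006894) (nat_lit 0) (nat_lit 5531590083) (nat_lit 420) (nat_lit 855218006) (nat_lit 117) (nat_lit 1) (nat_lit 111) (nat_lit 1) (nat_lit 116) (nat_lit 1) (nat_lit 315) (nat_lit 387) (nat_lit 378))) (XT.nd (nat_lit 94) (nat_lit 336) (nat_lit 0) (XT.lf (nat_lit 504) (nat_lit 12262315594) (nat_lit 0) (nat_lit 2578297966) (nat_lit 420) (nat_lit 7756446078) (nat_lit 112) (nat_lit 1) (nat_lit 106) (nat_lit 1) (nat_lit 111) (nat_lit 1) (nat_lit 316) (nat_lit 387) (nat_lit 377)) (XT.lf (nat_lit 420) (nat_lit 7461462646) (nat_lit 0) (nat_lit 47470655) (nat_lit 336) (nat_lit 14343325097) (nat_lit 107) (nat_lit 1) (nat_lit 102) (nat_lit 1) (nat_lit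 106) (nat_lit 1) (nat_lit 317) (nat_lit 387) (nat_lit 376)))) (XT.nd (nat_lit 188) (nat_lit 924) (nat_lit 0) (XT.nd (nat_lit 94) (nat_lit 420) (nat_lit 0) (XT.lf (nat_lit 84) (nat_lit 550471451) (nat_lit 0) (nat_lit 18564564692) (nat_lit 420) (nat_lit 2026683201) (nat_lit 103) (nat_lit 1) (nat_lit 102) (nat_lit 1) (nat_lit 107) (nat_lit 1) (nat_lit 318) (nat_lit 387) (nat_lit 375)) (XT.lf (nat_lit 84) (nat_lit 14213315648) (nat_lit 0) (nat_lit 2357430481) (nat_lit 420) (nat_lit 3887831006) (nat_lit 98) (nat_lit 1) (nat_lit 97) (nat_lit 1) (nat_lit 102) (nat_lit 1) (nat_lit 319) (nat_lit 387) (nat_lit 374))) (XT.nd (nat_lit 94) (nat_lit 588) (nat_lit 0) (XT.lf (nat_lit 84) (nat_lit 7111281993) (nat_lit 0) (nat_lit 7221228047) (nat_lit 420) (nat_lit 5473109591) (nat_lit 94) (nat_lit 1) (nat_lit 93) (nat_lit 1) (nat_lit 98) (nat_lit 1) (nat_lit 320) (nat_lit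 387) (nat_lit 373)) (XT.nd (nat_lit 94) (nat_lit 252) (nat_lit 0) (XT.lf (nat_lit 84) (nat_lit 350997110) (nat_lit 0) (nat_lit 12073781166) (nat_lit 420) (nat_lit 6758799231) (nat_lit 90) (nat_lit 1) (nat_lit 89) (nat_lit 1) (nat_lit 94) (nat_lit 1) (nat_lit 321) (nat_lit 387) (nat_lit 372)) (XT.lf (nat_lit 336) (nat_lit 1585083167) (nat_lit 0) (nat_lit 10719158731) (nat_lit 252) (nat_lit 6281673369) (nat_lit 90) (nat_lit 1) (nat_lit 86) (nat_lit 1) (nat_lit 89) (nat_lit 1) (nat_lit 322) (nat_lit 387) (nat_lit 371)))))) (XT.nd (nat_lit 470) (nat_lit 1092) (nat_lit 0) (XT.nd (nat_lit 188) (nat_lit 840) (nat_lit 0) (XT.nd (nat_lit 94) (nat_lit 252) (nat_lit 0) (XT.lf (nat_lit 84) (nat_lit 5476888508) (nat_lit 0) (nat_lit 3753893415) (nat_lit 420) (nat_lit 8782161615) (nat_lit 82) (nat_lit 1) (nat_lit 81) (nat_lit 1) (nat_lit 86) (nat_lit 1) (nat_lit 323) (nat_lit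 387) (nat_lit 370)) (XT.lf (nat_lit 336) (nat_lit 8479540774) (nat_lit 0) (nat_lit 7965432602) (nat_lit 252) (nat_lit 1019565919) (nat_lit 82) (nat_lit 1) (nat_lit 78) (nat_lit 1) (nat_lit 81) (nat_lit 1) (nat_lit 324) (nat_lit 387) (nat_lit 369))) (XT.nd (nat_lit 94) (nat_lit 588) (nat_lit 0) (XT.lf (nat_lit 336) (nat_lit 2717651852) (nat_lit 0) (nat_lit 6857911289) (nat_lit 252) (nat_lit 7361647238) (nat_lit 79) (nat_lit 1) (nat_lit 75) (nat_lit 1) (nat_lit 78) (nat_lit 1) (nat_lit 325) (nat_lit 387) (nat_lit 368)) (XT.nd (nat_lit 94) (nat_lit 252) (nat_lit 0) (XT.lf (nat_lit 84) (nat_lit 3097466440) (nat_lit 0) (nat_lit 2835999701) (nat_lit 336) (nat_lit 10498316286) (nat_lit 72) (nat_lit 1) (nat_lit 71) (nat_lit 1) (nat_lit 75) (nat_lit 1) (nat_lit 326) (nat_lit 387) (nat_lit 367)) (XT.lf (nat_lit 336) (nat_lit 7707638694) (nat_lit 0) (nat_lit 5128377164)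 (nat_lit 252) (nat_lit 3108839098) (nat_lit 72) (nat_lit 1) (nat_lit 68) (nat_lit 1) (nat_lit 71) (nat_lit 1) (nat_lit 327) (nat_lit 387) (nat_lit 366))))) (XT.nd (nat_lit 188) (nat_lit 588) (nat_lit 0) (XT.nd (nat_lit 94) (nat_lit 336) (nat_lit 0) (XT.lf (nat_lit 252) (nat_lit 1910735013) (nat_lit 0) (nat_lit 4474135011) (nat_lit 168) (nat_lit 9092701475) (nat_lit 69) (nat_lit 1) (nat_lit 66) (nat_lit 1) (nat_lit 68) (nat_lit 1) (nat_lit 328) (nat_lit 387) (nat_lit 365)) (XT.lf (nat_lit 84) (nat_lit 323690718) (nat_lit 0) (nat_lit 3622169409) (nat_lit 336) (nat_lit 11082541050) (nat_lit 63) (nat_lit 1) (nat_lit 62) (nat_lit 1) (nat_lit 66) (nat_lit 1) (nat_lit 329) (nat_lit 387) (nat_lit 364))) (XT.nd (nat_lit 94) (nat_lit 420) (nat_lit 0) (XT.lf (nat_lit 252) (nat_lit 5552245353) (nat_lit 0) (nat_lit 3469677019) (nat_lit 168) (nat_lit 5571567223) (nat_lit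 63) (nat_lit 1) (nat_lit 60) (nat_lit 1) (nat_lit 62) (nat_lit 1) (nat_lit 330) (nat_lit 387) (nat_lit 363)) (XT.nd (nat_lit 94) (nat_lit 168) (nat_lit 0) (XT.lf (nat_lit 84) (nat_lit 3012416299) (nat_lit 0) (nat_lit 139145397) (nat_lit 252) (nat_lit 11025994360) (nat_lit 58) (nat_lit 1) (nat_lit 57) (nat_lit 1) (nat_lit 60) (nat_lit 1) (nat_lit 331) (nat_lit 387) (nat_lit 362)) (XT.lf (nat_lit 252) (nat_lit 8235364450) (nat_lit 0) (nat_lit 2853738434) (nat_lit 168) (nat_lit 2684618842) (nat_lit 58) (nat_lit 1) (nat_lit 55) (nat_lit 1) (nat_lit 57) (nat_lit 1) (nat_lit 332) (nat_lit 387) (nat_lit 361))))))))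
noncomputable def ec100 : XT := (XT.nd (nat_lit 1692) (nat_lit 1764) (nat_lit 0) (XT.nd (nat_lit 846) (nat_lit 1260) (nat_lit 0) (XT.nd (nat_lit 376) (nat_lit 840) (nat_lit 0) (XT.nd (nat_lit 188) (nat_lit 336) (nat_lit 0) (XT.nd (nat_lit 94) (nat_lit 252) (nat_lit 0) (XT.lf (nat_lit 252) (nat_lit 2558234212) (nat_lit 0) (nat_lit 2652865445) (nat_lit 168) (nat_lit 8174228093) (nat_lit 56) (nat_lit 1) (nat_lit 53) (nat_lit 1) (nat_lit 55) (nat_lit 1) (nat_lit 333) (nat_lit 387) (nat_lit 360)) (XT.lf (nat_lit 252) (nat_lit 10155249645) (nat_lit 0) (nat_lit 2534597613) (nat_lit 168) (nat_lit 321543112) (nat_lit 53) (nat_lit 1) (nat_lit 50) (nat_lit 1) (nat_lit 52) (nat_lit 1) (nat_lit 334) (nat_lit 387) (nat_lit 359))) (XT.nd (nat_lit 94) (nat_lit 168) (nat_lit 0) (XT.lf (nat_lit 252) (nat_lit 4545019085) (nat_lit 0) (nat_lit 2419686189) (nat_lit 168) (nat_lit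 5683138256) (nat_lit 51) (nat_lit 1) (nat_lit 48) (nat_lit 1) (nat_lit 50) (nat_lit 1) (nat_lit 335) (nat_lit 387) (nat_lit 358)) (XT.lf (nat_lit 84) (nat_lit 1556844514) (nat_lit 0) (nat_lit 855711898) (nat_lit 168) (nat_lit 9886819260) (nat_lit 47) (nat_lit 1) (nat_lit 46) (nat_lit 1) (nat_lit 48) (nat_lit 1) (nat_lit 336) (nat_lit 387) (nat_lit 357)))) (XT.nd (nat_lit 188) (nat_lit 588) (nat_lit 0) (XT.nd (nat_lit 94) (nat_lit 84) (nat_lit 0) (XT.lf (nat_lit 252) (nat_lit 5963326427) (nat_lit 0) (nat_lit 2387010126) (nat_lit 168) (nat_lit 3609364518) (nat_lit 47) (nat_lit 1) (nat_lit 44) (nat_lit 1) (nat_lit 46) (nat_lit 1) (nat_lit 337) (nat_lit 387) (nat_lit 356)) (XT.lf (nat_lit 168) (nat_lit 642165518) (nat_lit 0) (nat_lit 2445638180) (nat_lit 84) (nat_lit 8545632687) (nat_lit 45) (nat_lit 1) (nat_lit 43) (nat_lit 1) (nat_lit 44) (nat_lit 1) (nat_lit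 338) (nat_lit 387) (nat_lit 355))) (XT.nd (nat_lit 94) (nat_lit 336) (nat_lit 0) (XT.lf (nat_lit 252) (nat_lit 6931939686) (nat_lit 0) (nat_lit 2501235231) (nat_lit 168) (nat_lit 1882992907) (nat_lit 43) (nat_lit 1) (nat_lit 40) (nat_lit 1) (nat_lit 42) (nat_lit 1) (nat_lit 339) (nat_lit 387) (nat_lit 354)) (XT.nd (nat_lit 94) (nat_lit 252) (nat_lit 0) (XT.lf (nat_lit 168) (nat_lit 1743433947) (nat_lit 0) (nat_lit 2594758937) (nat_lit 84) (nat_lit 6671398968) (nat_lit 41) (nat_lit 1) (nat_lit 39) (nat_lit 1) (nat_lit 40) (nat_lit 1) (nat_lit 340) (nat_lit 387) (nat_lit 353)) (XT.lf (nat_lit 252) (nat_lit 7546896799) (nat_lit 0) (nat_lit 2719904928) (nat_lit 168) (nat_lit 446359682) (nat_lit 39) (nat_lit 1) (nat_lit 36) (nat_lit 1) (nat_lit 38) (nat_lit 1) (nat_lit 341) (nat_lit 387) (nat_lit 352)))))) (XT.nd (nat_lit 376) (nat_lit 588) (nat_lit 0) (XT.nd (nat_lit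 188) (nat_lit 336) (nat_lit 0) (XT.nd (nat_lit 94) (nat_lit 252) (nat_lit 0) (XT.lf (nat_lit 168) (nat_lit 2509040635) (nat_lit 0) (nat_lit 2835533570) (nat_lit 84) (nat_lit 5080103270) (nat_lit 37) (nat_lit 1) (nat_lit 35) (nat_lit 1) (nat_lit 36) (nat_lit 1) (nat_lit 342) (nat_lit 387) (nat_lit 351)) (XT.lf (nat_lit 84) (nat_lit 724208977) (nat_lit 0) (nat_lit 2273098935) (nat_lit 252) (nat_lit 7149249435) (nat_lit 33) (nat_lit 1) (nat_lit 32) (nat_lit 1) (nat_lit 35) (nat_lit 1) (nat_lit 343) (nat_lit 387) (nat_lit 350))) (XT.nd (nat_lit 94) (nat_lit 252) (nat_lit 0) (XT.lf (nat_lit 168) (nat_lit 3011075134) (nat_lit 0) (nat_lit 3137397568) (nat_lit 84) (nat_lit 3726871458) (nat_lit 33) (nat_lit 1) (nat_lit 31) (nat_lit 1) (nat_lit 32) (nat_lit 1) (nat_lit 344) (nat_lit 387) (nat_lit 349)) (XT.lf (nat_lit 84) (nat_lit 1684240423) (nat_lit 0) (nat_lit 1631300737)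 (nat_lit 252) (nat_lit 6298120910) (nat_lit 29) (nat_lit 1) (nat_lit 28) (nat_lit 1) (nat_lit 31) (nat_lit 1) (nat_lit 345) (nat_lit 387) (nat_lit 348)))) (XT.nd (nat_lit 188) (nat_lit 336) (nat_lit 0) (XT.nd (nat_lit 94) (nat_lit 168) (nat_lit 0) (XT.lf (nat_lit 168) (nat_lit 3307672791) (nat_lit 0) (nat_lit 3476491878) (nat_lit 84) (nat_lit 2574501189) (nat_lit 29) (nat_lit 1) (nat_lit 27) (nat_lit 1) (nat_lit 28) (nat_lit 1) (nat_lit 346) (nat_lit 387) (nat_lit 347)) (XT.lf (nat_lit 84) (nat_lit 2479591366) (nat_lit 0) (nat_lit 1181480919) (nat_lit 168) (nat_lit 5451018710) (nat_lit 26) (nat_lit 1) (nat_lit 25) (nat_lit 1) (nat_lit 27) (nat_lit 1) (nat_lit 347) (nat_lit 387) (nat_lit 346))) (XT.nd (nat_lit 94) (nat_lit 252) (nat_lit 0) (XT.lf (nat_lit 168) (nat_lit 3445622185) (nat_lit 0) (nat_lit 3834356043) (nat_lit 84) (nat_lit 1592093424) (nat_lit 26)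 (nat_lit 1) (nat_lit 24) (nat_lit 1) (nat_lit 25) (nat_lit 1) (nat_lit 348) (nat_lit 387) (nat_lit 345)) (XT.nd (nat_lit 94) (nat_lit 84) (nat_lit 0) (XT.lf (nat_lit 84) (nat_lit 3136452530) (nat_lit 0) (nat_lit 881400171) (nat_lit 168) (nat_lit 4621582351) (nat_lit 23) (nat_lit 1) (nat_lit 22) (nat_lit 1) (nat_lit 24) (nat_lit 1) (nat_lit 349) (nat_lit 387) (nat_lit 344)) (XT.lf (nat_lit 168) (nat_lit 3462491217) (nat_lit 0) (nat_lit 4196866102) (nat_lit 84) (nat_lit 753932494) (nat_lit 23) (nat_lit 1) (nat_lit 21) (nat_lit 1) (nat_lit 22) (nat_lit 1) (nat_lit 350) (nat_lit 387) (nat_lit 343))))))) (XT.nd (nat_lit 846) (nat_lit 588) (nat_lit 0) (XT.nd (nat_lit 376) (nat_lit 672) (nat_lit 0) (XT.nd (nat_lit 188) (nat_lit 252) (nat_lit 0) (XT.nd (nat_lit 94) (nat_lit 84) (nat_lit 0) (XT.lf (nat_lit 84) (nat_lit 3676591327) (nat_lit 0) (nat_lit 697094163) (nat_lit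 168) (nat_lit 3819873209) (nat_lit 20) (nat_lit 1) (nat_lit 19) (nat_lit 1) (nat_lit 21) (nat_lit 1) (nat_lit 351) (nat_lit 387) (nat_lit 342)) (XT.lf (nat_lit 168) (nat_lit 3388360347) (nat_lit 0) (nat_lit 4553372031) (nat_lit 84) (nat_lit 38569268) (nat_lit 20) (nat_lit 1) (nat_lit 18) (nat_lit 1) (nat_lit 19) (nat_lit 1) (nat_lit 352) (nat_lit 387) (nat_lit 341))) (XT.nd (nat_lit 94) (nat_lit 84) (nat_lit 0) (XT.lf (nat_lit 84) (nat_lit 4118134829) (nat_lit 0) (nat_lit 601319767) (nat_lit 168) (nat_lit 3053103677) (nat_lit 17) (nat_lit 1) (nat_lit 16) (nat_lit 1) (nat_lit 18) (nat_lit 1) (nat_lit 353) (nat_lit 387) (nat_lit 340)) (XT.lf (nat_lit 0) (nat_lit 553624368) (nat_lit 0) (nat_lit 4332997561) (nat_lit 168) (nat_lit 2684234961) (nat_lit 15) (nat_lit 3) (nat_lit 15) (nat_lit 1) (nat_lit 17) (nat_lit 1) (nat_lit 354) (nat_lit 387) (nat_lit 339))))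 (XT.nd (nat_lit 188) (nat_lit 420) (nat_lit 0) (XT.nd (nat_lit 94) (nat_lit 84) (nat_lit 0) (XT.lf (nat_lit 84) (nat_lit 4476211008) (nat_lit 0) (nat_lit 572288639) (nat_lit 168) (nat_lit 2326227912) (nat_lit 14) (nat_lit 1) (nat_lit 13) (nat_lit 1) (nat_lit 15) (nat_lit 1) (nat_lit 355) (nat_lit 387) (nat_lit 338)) (XT.lf (nat_lit 0) (nat_lit 1057627360) (nat_lit 0) (nat_lit 4143535317) (nat_lit 168) (nat_lit 1982658917) (nat_lit 12) (nat_lit 3) (nat_lit 12) (nat_lit 1) (nat_lit 14) (nat_lit 1) (nat_lit 356) (nat_lit 387) (nat_lit 337))) (XT.nd (nat_lit 94) (nat_lit 252) (nat_lit 0) (XT.lf (nat_lit 84) (nat_lit 4763474130) (nat_lit 0) (nat_lit 592635292) (nat_lit 168) (nat_lit 1642419832) (nat_lit 11) (nat_lit 1) (nat_lit 10) (nat_lit 1) (nat_lit 12) (nat_lit 1) (nat_lit 357) (nat_lit 387) (nat_lit 336)) (XT.nd (nat_lit 94) (nat_lit 168) (nat_lit 0) (XT.lf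 (nat_lit 0) (nat_lit 1486906365) (nat_lit 0) (nat_lit 4006590830) (nat_lit 168) (nat_lit 1324255545) (nat_lit 9) (nat_lit 3) (nat_lit 9) (nat_lit 1) (nat_lit 11) (nat_lit 1) (nat_lit 358) (nat_lit 387) (nat_lit 335)) (XT.lf (nat_lit 84) (nat_lit 4990535446) (nat_lit 0) (nat_lit 648576504) (nat_lit 168) (nat_lit 1003459337) (nat_lit 8) (nat_lit 1) (nat_lit 7) (nat_lit 1) (nat_lit 9) (nat_lit 1) (nat_lit 359) (nat_lit 387) (nat_lit 334)))))) (XT.nd (nat_lit 470) (nat_lit 0) (nat_lit 0) (XT.nd (nat_lit 188) (nat_lit 336) (nat_lit 0) (XT.nd (nat_lit 94) (nat_lit 168) (nat_lit 0) (XT.lf (nat_lit 0) (nat_lit 1851774371) (nat_lit 0) (nat_lit 3909129900) (nat_lit 168) (nat_lit 710409923) (nat_lit 6) (nat_lit 3) (nat_lit 6) (nat_lit 1) (nat_lit 8) (nat_lit 1) (nat_lit 360) (nat_lit 387) (nat_lit 333)) (XT.lf (nat_lit 84) (nat_lit 5166316437) (nat_lit 0) (nat_lit 729226827)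 (nat_lit 168) (nat_lit 410043827) (nat_lit 5) (nat_lit 1) (nat_lit 4) (nat_lit 1) (nat_lit 6) (nat_lit 1) (nat_lit 361) (nat_lit 387) (nat_lit 332))) (XT.nd (nat_lit 94) (nat_lit 252) (nat_lit 0) (XT.lf (nat_lit 0) (nat_lit 2160953700) (nat_lit 0) (nat_lit 3840811569) (nat_lit 168) (nat_lit 141523153) (nat_lit 3) (nat_lit 3) (nat_lit 3) (nat_lit 1) (nat_lit 5) (nat_lit 1) (nat_lit 362) (nat_lit 387) (nat_lit 331)) (XT.nd (nat_lit 94) (nat_lit 0) (nat_lit 0) (XT.lf (nat_lit 0) (nat_lit 8683821290) (nat_lit 0) (nat_lit 0) (nat_lit 0) (nat_lit 0) (nat_lit 0) (nat_lit 0) (nat_lit 1) (nat_lit 0) (nat_lit 1) (nat_lit 0) (nat_lit 363) (nat_lit 387) (nat_lit 330)) (XT.lf (nat_lit 0) (nat_lit 8675917171) (nat_lit 0) (nat_lit 0) (nat_lit 0) (nat_lit 0) (nat_lit 0) (nat_lit 0) (nat_lit 1) (nat_lit 0) (nat_lit 1) (nat_lit 0) (nat_lit 364) (nat_lit 387) (nat_lit 329)))))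 (XT.nd (nat_lit 188) (nat_lit 0) (nat_lit 0) (XT.nd (nat_lit 94) (nat_lit 0) (nat_lit 0) (XT.lf (nat_lit 0) (nat_lit 8668598543) (nat_lit 0) (nat_lit 0) (nat_lit 0) (nat_lit 0) (nat_lit 0) (nat_lit 0) (nat_lit 1) (nat_lit 0) (nat_lit 1) (nat_lit 0) (nat_lit 365) (nat_lit 387) (nat_lit 328)) (XT.lf (nat_lit 0) (nat_lit 8661822035) (nat_lit 0) (nat_lit 0) (nat_lit 0) (nat_lit 0) (nat_lit 0) (nat_lit 0) (nat_lit 1) (nat_lit 0) (nat_lit 1) (nat_lit 0) (nat_lit 366) (nat_lit 387) (nat_lit 327))) (XT.nd (nat_lit 94) (nat_lit 0) (nat_lit 0) (XT.lf (nat_lit 0) (nat_lit 8655547491) (nat_lit 0) (nat_lit 0) (nat_lit 0) (nat_lit 0) (nat_lit 0) (nat_lit 0) (nat_lit 1) (nat_lit 0) (nat_lit 1) (nat_lit 0) (nat_lit 367) (nat_lit 387) (nat_lit 326)) (XT.nd (nat_lit 94) (nat_lit 0) (nat_lit 0) (XT.lf (nat_lit 0) (nat_lit 8649737728) (nat_lit 0) (nat_lit 0) (nat_lit 0) (nat_lit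 0) (nat_lit 0) (nat_lit 0) (nat_lit 1) (nat_lit 0) (nat_lit 1) (nat_lit 0) (nat_lit 368) (nat_lit 387) (nat_lit 325)) (XT.lf (nat_lit 0) (nat_lit 8644358318) (nat_lit 0) (nat_lit 0) (nat_lit 0) (nat_lit 0) (nat_lit 0) (nat_lit 0) (nat_lit 1) (nat_lit 0) (nat_lit 1) (nat_lit 0) (nat_lit 369) (nat_lit 387) (nat_lit 324))))))))
noncomputable def ec101 : XT := (XT.nd (nat_lit 1786) (nat_lit 0) (nat_lit 0) (XT.nd (nat_lit 846) (nat_lit 0) (nat_lit 0) (XT.nd (nat_lit 376) (nat_lit 0) (nat_lit 0) (XT.nd (nat_lit 188) (nat_lit 0) (nat_lit 0) (XT.nd (nat_lit 94) (nat_lit 0) (nat_lit 0) (XT.lf (nat_lit 0) (nat_lit 8639377383) (nat_lit 0) (nat_lit 0) (nat_lit 0) (nat_lit 0) (nat_lit 0) (nat_lit 0) (nat_lit 1) (nat_lit 0) (nat_lit 1) (nat_lit 0) (nat_lit 370) (nat_lit 387) (nat_lit 323)) (XT.lf (nat_lit 0) (nat_lit 8634765406) (nat_lit 0) (nat_lit 0) (nat_lit 0) (nat_lit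 0) (nat_lit 0) (nat_lit 0) (nat_lit 1) (nat_lit 0) (nat_lit 1) (nat_lit 0) (nat_lit 371) (nat_lit 387) (nat_lit 322))) (XT.nd (nat_lit 94) (nat_lit 0) (nat_lit 0) (XT.lf (nat_lit 0) (nat_lit 8630495057) (nat_lit 0) (nat_lit 0) (nat_lit 0) (nat_lit 0) (nat_lit 0) (nat_lit 0) (nat_lit 1) (nat_lit 0) (nat_lit 1) (nat_lit 0) (nat_lit 372) (nat_lit 387) (nat_lit 321)) (XT.lf (nat_lit 0) (nat_lit 8626541030) (nat_lit 0) (nat_lit 0) (nat_lit 0) (nat_lit 0) (nat_lit 0) (nat_lit 0) (nat_lit 1) (nat_lit 0) (nat_lit 1) (nat_lit 0) (nat_lit 373) (nat_lit 387) (nat_lit 320)))) (XT.nd (nat_lit 188) (nat_lit 0) (nat_lit 0) (XT.nd (nat_lit 94) (nat_lit 0) (nat_lit 0) (XT.lf (nat_lit 0) (nat_lit 8622879893) (nat_lit 0) (nat_lit 0) (nat_lit 0) (nat_lit 0) (nat_lit 0) (nat_lit 0) (nat_lit 1) (nat_lit 0) (nat_lit 1) (nat_lit 0) (nat_lit 374) (nat_lit 387) (nat_lit 319)) (XT.lf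 (nat_lit 0) (nat_lit 8619489952) (nat_lit 0) (nat_lit 0) (nat_lit 0) (nat_lit 0) (nat_lit 0) (nat_lit 0) (nat_lit 1) (nat_lit 0) (nat_lit 1) (nat_lit 0) (nat_lit 375) (nat_lit 387) (nat_lit 318))) (XT.nd (nat_lit 94) (nat_lit 0) (nat_lit 0) (XT.lf (nat_lit 0) (nat_lit 8616351118) (nat_lit 0) (nat_lit 0) (nat_lit 0) (nat_lit 0) (nat_lit 0) (nat_lit 0) (nat_lit 1) (nat_lit 0) (nat_lit 1) (nat_lit 0) (nat_lit 376) (nat_lit 387) (nat_lit 317)) (XT.nd (nat_lit 94) (nat_lit 0) (nat_lit 0) (XT.lf (nat_lit 0) (nat_lit 8613444790) (nat_lit 0) (nat_lit 0) (nat_lit 0) (nat_lit 0) (nat_lit 0) (nat_lit 0) (nat_lit 1) (nat_lit 0) (nat_lit 1) (nat_lit 0) (nat_lit 377) (nat_lit 387) (nat_lit 316)) (XT.lf (nat_lit 0) (nat_lit 8610753746) (nat_lit 0) (nat_lit 0) (nat_lit 0) (nat_lit 0) (nat_lit 0) (nat_lit 0) (nat_lit 1) (nat_lit 0) (nat_lit 1) (nat_lit 0) (nat_lit 378) (nat_lit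 387) (nat_lit 315)))))) (XT.nd (nat_lit 470) (nat_lit 0) (nat_lit 0) (XT.nd (nat_lit 188) (nat_lit 0) (nat_lit 0) (XT.nd (nat_lit 94) (nat_lit 0) (nat_lit 0) (XT.lf (nat_lit 0) (nat_lit 8608262038) (nat_lit 0) (nat_lit 0) (nat_lit 0) (nat_lit 0) (nat_lit 0) (nat_lit 0) (nat_lit 1) (nat_lit 0) (nat_lit 1) (nat_lit 0) (nat_lit 379) (nat_lit 387) (nat_lit 314)) (XT.lf (nat_lit 0) (nat_lit 8605954901) (nat_lit 0) (nat_lit 0) (nat_lit 0) (nat_lit 0) (nat_lit 0) (nat_lit 0) (nat_lit 1) (nat_lit 0) (nat_lit 1) (nat_lit 0) (nat_lit 380) (nat_lit 387) (nat_lit 313))) (XT.nd (nat_lit 94) (nat_lit 0) (nat_lit 0) (XT.lf (nat_lit 0) (nat_lit 8603818664) (nat_lit 0) (nat_lit 0) (nat_lit 0) (nat_lit 0) (nat_lit 0) (nat_lit 0) (nat_lit 1) (nat_lit 0) (nat_lit 1) (nat_lit 0) (nat_lit 381) (nat_lit 387) (nat_lit 312)) (XT.nd (nat_lit 94) (nat_lit 0) (nat_lit 0) (XT.lf (nat_lit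 0) (nat_lit 8601840666) (nat_lit 0) (nat_lit 0) (nat_lit 0) (nat_lit 0) (nat_lit 0) (nat_lit 0) (nat_lit 1) (nat_lit 0) (nat_lit 1) (nat_lit 0) (nat_lit 382) (nat_lit 387) (nat_lit 311)) (XT.lf (nat_lit 0) (nat_lit 8600009186) (nat_lit 0) (nat_lit 0) (nat_lit 0) (nat_lit 0) (nat_lit 0) (nat_lit 0) (nat_lit 1) (nat_lit 0) (nat_lit 1) (nat_lit 0) (nat_lit 383) (nat_lit 387) (nat_lit 310))))) (XT.nd (nat_lit 188) (nat_lit 0) (nat_lit 0) (XT.nd (nat_lit 94) (nat_lit 0) (nat_lit 0) (XT.lf (nat_lit 0) (nat_lit 8598313372) (nat_lit 0) (nat_lit 0) (nat_lit 0) (nat_lit 0) (nat_lit 0) (nat_lit 0) (nat_lit 1) (nat_lit 0) (nat_lit 1) (nat_lit 0) (nat_lit 384) (nat_lit 387) (nat_lit 309)) (XT.lf (nat_lit 0) (nat_lit 8596743173) (nat_lit 0) (nat_lit 0) (nat_lit 0) (nat_lit 0) (nat_lit 0) (nat_lit 0) (nat_lit 1) (nat_lit 0) (nat_lit 1) (nat_lit 0) (nat_lit 385) (nat_lit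 387) (nat_lit 308))) (XT.nd (nat_lit 94) (nat_lit 0) (nat_lit 0) (XT.lf (nat_lit 0) (nat_lit 8595289286) (nat_lit 0) (nat_lit 0) (nat_lit 0) (nat_lit 0) (nat_lit 0) (nat_lit 0) (nat_lit 1) (nat_lit 0) (nat_lit 1) (nat_lit 0) (nat_lit 386) (nat_lit 387) (nat_lit 307)) (XT.nd (nat_lit 94) (nat_lit 0) (nat_lit 0) (XT.lf (nat_lit 0) (nat_lit 8593943093) (nat_lit 0) (nat_lit 0) (nat_lit 0) (nat_lit 0) (nat_lit 0) (nat_lit 0) (nat_lit 1) (nat_lit 0) (nat_lit 1) (nat_lit 0) (nat_lit 387) (nat_lit 387) (nat_lit 306)) (XT.lf (nat_lit 0) (nat_lit 8592696619) (nat_lit 0) (nat_lit 0) (nat_lit 0) (nat_lit 0) (nat_lit 0) (nat_lit 0) (nat_lit 1) (nat_lit 0) (nat_lit 1) (nat_lit 0) (nat_lit 388) (nat_lit 387) (nat_lit 305))))))) (XT.nd (nat_lit 846) (nat_lit 0) (nat_lit 0) (XT.nd (nat_lit 376) (nat_lit 0) (nat_lit 0) (XT.nd (nat_lit 188) (nat_lit 0) (nat_lit 0) (XT.nd (nat_lit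 94) (nat_lit 0) (nat_lit 0) (XT.lf (nat_lit 0) (nat_lit 8591542476) (nat_lit 0) (nat_lit 0) (nat_lit 0) (nat_lit 0) (nat_lit 0) (nat_lit 0) (nat_lit 1) (nat_lit 0) (nat_lit 1) (nat_lit 0) (nat_lit 389) (nat_lit 387) (nat_lit 304)) (XT.lf (nat_lit 0) (nat_lit 8590473826) (nat_lit 0) (nat_lit 0) (nat_lit 0) (nat_lit 0) (nat_lit 0) (nat_lit 0) (nat_lit 1) (nat_lit 0) (nat_lit 1) (nat_lit 0) (nat_lit 390) (nat_lit 387) (nat_lit 303))) (XT.nd (nat_lit 94) (nat_lit 0) (nat_lit 0) (XT.lf (nat_lit 0) (nat_lit 8589484334) (nat_lit 0) (nat_lit 0) (nat_lit 0) (nat_lit 0) (nat_lit 0) (nat_lit 0) (nat_lit 1) (nat_lit 0) (nat_lit 1) (nat_lit 0) (nat_lit 391) (nat_lit 387) (nat_lit 302)) (XT.lf (nat_lit 0) (nat_lit 8588568138) (nat_lit 0) (nat_lit 0) (nat_lit 0) (nat_lit 0) (nat_lit 0) (nat_lit 0) (nat_lit 1) (nat_lit 0) (nat_lit 1) (nat_lit 0) (nat_lit 392) (nat_lit 387)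 (nat_lit 301)))) (XT.nd (nat_lit 188) (nat_lit 0) (nat_lit 0) (XT.nd (nat_lit 94) (nat_lit 0) (nat_lit 0) (XT.lf (nat_lit 0) (nat_lit 8587719809) (nat_lit 0) (nat_lit 0) (nat_lit 0) (nat_lit 0) (nat_lit 0) (nat_lit 0) (nat_lit 1) (nat_lit 0) (nat_lit 1) (nat_lit 0) (nat_lit 393) (nat_lit 387) (nat_lit 300)) (XT.lf (nat_lit 0) (nat_lit 8586934319) (nat_lit 0) (nat_lit 0) (nat_lit 0) (nat_lit 0) (nat_lit 0) (nat_lit 0) (nat_lit 1) (nat_lit 0) (nat_lit 1) (nat_lit 0) (nat_lit 394) (nat_lit 387) (nat_lit 299))) (XT.nd (nat_lit 94) (nat_lit 0) (nat_lit 0) (XT.lf (nat_lit 0) (nat_lit 8586207013) (nat_lit 0) (nat_lit 0) (nat_lit 0) (nat_lit 0) (nat_lit 0) (nat_lit 0) (nat_lit 1) (nat_lit 0) (nat_lit 1) (nat_lit 0) (nat_lit 395) (nat_lit 387) (nat_lit 298)) (XT.nd (nat_lit 94) (nat_lit 0) (nat_lit 0) (XT.lf (nat_lit 0) (nat_lit 8585533582) (nat_lit 0) (nat_lit 0)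 (nat_lit 0) (nat_lit 0) (nat_lit 0) (nat_lit 0) (nat_lit 1) (nat_lit 0) (nat_lit 1) (nat_lit 0) (nat_lit 396) (nat_lit 387) (nat_lit 297)) (XT.lf (nat_lit 0) (nat_lit 8584910034) (nat_lit 0) (nat_lit 0) (nat_lit 0) (nat_lit 0) (nat_lit 0) (nat_lit 0) (nat_lit 1) (nat_lit 0) (nat_lit 1) (nat_lit 0) (nat_lit 397) (nat_lit 387) (nat_lit 296)))))) (XT.nd (nat_lit 470) (nat_lit 0) (nat_lit 0) (XT.nd (nat_lit 188) (nat_lit 0) (nat_lit 0) (XT.nd (nat_lit 94) (nat_lit 0) (nat_lit 0) (XT.lf (nat_lit 0) (nat_lit 8584332676) (nat_lit 0) (nat_lit 0) (nat_lit 0) (nat_lit 0) (nat_lit 0) (nat_lit 0) (nat_lit 1) (nat_lit 0) (nat_lit 1) (nat_lit 0) (nat_lit 398) (nat_lit 387) (nat_lit 295)) (XT.lf (nat_lit 0) (nat_lit 8583798084) (nat_lit 0) (nat_lit 0) (nat_lit 0) (nat_lit 0) (nat_lit 0) (nat_lit 0) (nat_lit 1) (nat_lit 0) (nat_lit 1) (nat_lit 0) (nat_lit 399) (nat_lit 387)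 (nat_lit 294))) (XT.nd (nat_lit 94) (nat_lit 0) (nat_lit 0) (XT.lf (nat_lit 0) (nat_lit 8583303092) (nat_lit 0) (nat_lit 0) (nat_lit 0) (nat_lit 0) (nat_lit 0) (nat_lit 0) (nat_lit 1) (nat_lit 0) (nat_lit 1) (nat_lit 0) (nat_lit 400) (nat_lit 387) (nat_lit 293)) (XT.nd (nat_lit 94) (nat_lit 0) (nat_lit 0) (XT.lf (nat_lit 0) (nat_lit 8582844766) (nat_lit 0) (nat_lit 0) (nat_lit 0) (nat_lit 0) (nat_lit 0) (nat_lit 0) (nat_lit 1) (nat_lit 0) (nat_lit 1) (nat_lit 0) (nat_lit 401) (nat_lit 387) (nat_lit 292)) (XT.lf (nat_lit 0) (nat_lit 8582420390) (nat_lit 0) (nat_lit 0) (nat_lit 0) (nat_lit 0) (nat_lit 0) (nat_lit 0) (nat_lit 1) (nat_lit 0) (nat_lit 1) (nat_lit 0) (nat_lit 402) (nat_lit 387) (nat_lit 291))))) (XT.nd (nat_lit 188) (nat_lit 0) (nat_lit 0) (XT.nd (nat_lit 94) (nat_lit 0) (nat_lit 0) (XT.lf (nat_lit 0) (nat_lit 8582027450) (nat_lit 0) (nat_lit 0)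 (nat_lit 0) (nat_lit 0) (nat_lit 0) (nat_lit 0) (nat_lit 1) (nat_lit 0) (nat_lit 1) (nat_lit 0) (nat_lit 403) (nat_lit 387) (nat_lit 290)) (XT.lf (nat_lit 0) (nat_lit 8581663616) (nat_lit 0) (nat_lit 0) (nat_lit 0) (nat_lit 0) (nat_lit 0) (nat_lit 0) (nat_lit 1) (nat_lit 0) (nat_lit 1) (nat_lit 0) (nat_lit 404) (nat_lit 387) (nat_lit 289))) (XT.nd (nat_lit 94) (nat_lit 0) (nat_lit 0) (XT.lf (nat_lit 0) (nat_lit 8581326732) (nat_lit 0) (nat_lit 0) (nat_lit 0) (nat_lit 0) (nat_lit 0) (nat_lit 0) (nat_lit 1) (nat_lit 0) (nat_lit 1) (nat_lit 0) (nat_lit 405) (nat_lit 387) (nat_lit 288)) (XT.nd (nat_lit 94) (nat_lit 0) (nat_lit 0) (XT.lf (nat_lit 0) (nat_lit 8581014803) (nat_lit 0) (nat_lit 0) (nat_lit 0) (nat_lit 0) (nat_lit 0) (nat_lit 0) (nat_lit 1) (nat_lit 0) (nat_lit 1) (nat_lit 0) (nat_lit 406) (nat_lit 387) (nat_lit 287)) (XT.lf (nat_lit 0) (nat_lit 8580725980)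 (nat_lit 0) (nat_lit 0) (nat_lit 0) (nat_lit 0) (nat_lit 0) (nat_lit 0) (nat_lit 1) (nat_lit 0) (nat_lit 1) (nat_lit 0) (nat_lit 407) (nat_lit 387) (nat_lit 286))))))))
noncomputable def ec102 : XT := (XT.nd (nat_lit 1692) (nat_lit 0) (nat_lit 0) (XT.nd (nat_lit 846) (nat_lit 0) (nat_lit 0) (XT.nd (nat_lit 376) (nat_lit 0) (nat_lit 0) (XT.nd (nat_lit 188) (nat_lit 0) (nat_lit 0) (XT.nd (nat_lit 94) (nat_lit 0) (nat_lit 0) (XT.lf (nat_lit 0) (nat_lit 8580458551) (nat_lit 0) (nat_lit 0) (nat_lit 0) (nat_lit 0) (nat_lit 0) (nat_lit 0) (nat_lit 1) (nat_lit 0) (nat_lit 1) (nat_lit 0) (nat_lit 408) (nat_lit 387) (nat_lit 285)) (XT.lf (nat_lit 0) (nat_lit 8580210932) (nat_lit 0) (nat_lit 0) (nat_lit 0) (nat_lit 0) (nat_lit 0) (nat_lit 0) (nat_lit 1) (nat_lit 0) (nat_lit 1) (nat_lit 0) (nat_lit 409) (nat_lit 387) (nat_lit 284))) (XT.nd (nat_lit 94) (nat_lit 0) (nat_lit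 0) (XT.lf (nat_lit 0) (nat_lit 8579981655) (nat_lit 0) (nat_lit 0) (nat_lit 0) (nat_lit 0) (nat_lit 0) (nat_lit 0) (nat_lit 1) (nat_lit 0) (nat_lit 1) (nat_lit 0) (nat_lit 410) (nat_lit 387) (nat_lit 283)) (XT.lf (nat_lit 0) (nat_lit 8579769361) (nat_lit 0) (nat_lit 0) (nat_lit 0) (nat_lit 0) (nat_lit 0) (nat_lit 0) (nat_lit 1) (nat_lit 0) (nat_lit 1) (nat_lit 0) (nat_lit 411) (nat_lit 387) (nat_lit 282)))) (XT.nd (nat_lit 188) (nat_lit 0) (nat_lit 0) (XT.nd (nat_lit 94) (nat_lit 0) (nat_lit 0) (XT.lf (nat_lit 0) (nat_lit 8579572793) (nat_lit 0) (nat_lit 0) (nat_lit 0) (nat_lit 0) (nat_lit 0) (nat_lit 0) (nat_lit 1) (nat_lit 0) (nat_lit 1) (nat_lit 0) (nat_lit 412) (nat_lit 387) (nat_lit 281)) (XT.lf (nat_lit 0) (nat_lit 8579390786) (nat_lit 0) (nat_lit 0) (nat_lit 0) (nat_lit 0) (nat_lit 0) (nat_lit 0) (nat_lit 1) (nat_lit 0) (nat_lit 1) (nat_lit 0) (nat_lit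 413) (nat_lit 387) (nat_lit 280))) (XT.nd (nat_lit 94) (nat_lit 0) (nat_lit 0) (XT.lf (nat_lit 0) (nat_lit 8579222260) (nat_lit 0) (nat_lit 0) (nat_lit 0) (nat_lit 0) (nat_lit 0) (nat_lit 0) (nat_lit 1) (nat_lit 0) (nat_lit 1) (nat_lit 0) (nat_lit 414) (nat_lit 387) (nat_lit 279)) (XT.nd (nat_lit 94) (nat_lit 0) (nat_lit 0) (XT.lf (nat_lit 0) (nat_lit 8579066218) (nat_lit 0) (nat_lit 0) (nat_lit 0) (nat_lit 0) (nat_lit 0) (nat_lit 0) (nat_lit 1) (nat_lit 0) (nat_lit 1) (nat_lit 0) (nat_lit 415) (nat_lit 387) (nat_lit 278)) (XT.lf (nat_lit 0) (nat_lit 8578921735) (nat_lit 0) (nat_lit 0) (nat_lit 0) (nat_lit 0) (nat_lit 0) (nat_lit 0) (nat_lit 1) (nat_lit 0) (nat_lit 1) (nat_lit 0) (nat_lit 416) (nat_lit 387) (nat_lit 277)))))) (XT.nd (nat_lit 376) (nat_lit 0) (nat_lit 0) (XT.nd (nat_lit 188) (nat_lit 0) (nat_lit 0) (XT.nd (nat_lit 94) (nat_lit 0) (nat_lit 0)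 (XT.lf (nat_lit 0) (nat_lit 8578787954) (nat_lit 0) (nat_lit 0) (nat_lit 0) (nat_lit 0) (nat_lit 0) (nat_lit 0) (nat_lit 1) (nat_lit 0) (nat_lit 1) (nat_lit 0) (nat_lit 417) (nat_lit 387) (nat_lit 276)) (XT.lf (nat_lit 0) (nat_lit 8578664082) (nat_lit 0) (nat_lit 0) (nat_lit 0) (nat_lit 0) (nat_lit 0) (nat_lit 0) (nat_lit 1) (nat_lit 0) (nat_lit 1) (nat_lit 0) (nat_lit 418) (nat_lit 387) (nat_lit 275))) (XT.nd (nat_lit 94) (nat_lit 0) (nat_lit 0) (XT.lf (nat_lit 0) (nat_lit 8578549387) (nat_lit 0) (nat_lit 0) (nat_lit 0) (nat_lit 0) (nat_lit 0) (nat_lit 0) (nat_lit 1) (nat_lit 0) (nat_lit 1) (nat_lit 0) (nat_lit 419) (nat_lit 387) (nat_lit 274)) (XT.lf (nat_lit 0) (nat_lit 8578443187) (nat_lit 0) (nat_lit 0) (nat_lit 0) (nat_lit 0) (nat_lit 0) (nat_lit 0) (nat_lit 1) (nat_lit 0) (nat_lit 1) (nat_lit 0) (nat_lit 420) (nat_lit 387) (nat_lit 273)))) (XT.nd (nat_lit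 188) (nat_lit 0) (nat_lit 0) (XT.nd (nat_lit 94) (nat_lit 0) (nat_lit 0) (XT.lf (nat_lit 0) (nat_lit 8578344854) (nat_lit 0) (nat_lit 0) (nat_lit 0) (nat_lit 0) (nat_lit 0) (nat_lit 0) (nat_lit 1) (nat_lit 0) (nat_lit 1) (nat_lit 0) (nat_lit 421) (nat_lit 387) (nat_lit 272)) (XT.lf (nat_lit 0) (nat_lit 8578253805) (nat_lit 0) (nat_lit 0) (nat_lit 0) (nat_lit 0) (nat_lit 0) (nat_lit 0) (nat_lit 1) (nat_lit 0) (nat_lit 1) (nat_lit 0) (nat_lit 422) (nat_lit 387) (nat_lit 271))) (XT.nd (nat_lit 94) (nat_lit 0) (nat_lit 0) (XT.lf (nat_lit 0) (nat_lit 8578169500) (nat_lit 0) (nat_lit 0) (nat_lit 0) (nat_lit 0) (nat_lit 0) (nat_lit 0) (nat_lit 1) (nat_lit 0) (nat_lit 1) (nat_lit 0) (nat_lit 423) (nat_lit 387) (nat_lit 270)) (XT.nd (nat_lit 94) (nat_lit 0) (nat_lit 0) (XT.lf (nat_lit 0) (nat_lit 8578091440) (nat_lit 0) (nat_lit 0) (nat_lit 0) (nat_lit 0) (nat_lit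 0) (nat_lit 0) (nat_lit 1) (nat_lit 0) (nat_lit 1) (nat_lit 0) (nat_lit 424) (nat_lit 387) (nat_lit 269)) (XT.lf (nat_lit 0) (nat_lit 8578019163) (nat_lit 0) (nat_lit 0) (nat_lit 0) (nat_lit 0) (nat_lit 0) (nat_lit 0) (nat_lit 1) (nat_lit 0) (nat_lit 1) (nat_lit 0) (nat_lit 425) (nat_lit 387) (nat_lit 268))))))) (XT.nd (nat_lit 846) (nat_lit 0) (nat_lit 0) (XT.nd (nat_lit 376) (nat_lit 0) (nat_lit 0) (XT.nd (nat_lit 188) (nat_lit 0) (nat_lit 0) (XT.nd (nat_lit 94) (nat_lit 0) (nat_lit 0) (XT.lf (nat_lit 0) (nat_lit 8577952239) (nat_lit 0) (nat_lit 0) (nat_lit 0) (nat_lit 0) (nat_lit 0) (nat_lit 0) (nat_lit 1) (nat_lit 0) (nat_lit 1) (nat_lit 0) (nat_lit 426) (nat_lit 387) (nat_lit 267)) (XT.lf (nat_lit 0) (nat_lit 8577890272) (nat_lit 0) (nat_lit 0) (nat_lit 0) (nat_lit 0) (nat_lit 0) (nat_lit 0) (nat_lit 1) (nat_lit 0) (nat_lit 1) (nat_lit 0) (nat_lit 427)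 (nat_lit 387) (nat_lit 266))) (XT.nd (nat_lit 94) (nat_lit 0) (nat_lit 0) (XT.lf (nat_lit 0) (nat_lit 8577832896) (nat_lit 0) (nat_lit 0) (nat_lit 0) (nat_lit 0) (nat_lit 0) (nat_lit 0) (nat_lit 1) (nat_lit 0) (nat_lit 1) (nat_lit 0) (nat_lit 428) (nat_lit 387) (nat_lit 265)) (XT.lf (nat_lit 0) (nat_lit 8577779770) (nat_lit 0) (nat_lit 0) (nat_lit 0) (nat_lit 0) (nat_lit 0) (nat_lit 0) (nat_lit 1) (nat_lit 0) (nat_lit 1) (nat_lit 0) (nat_lit 429) (nat_lit 387) (nat_lit 264)))) (XT.nd (nat_lit 188) (nat_lit 0) (nat_lit 0) (XT.nd (nat_lit 94) (nat_lit 0) (nat_lit 0) (XT.lf (nat_lit 0) (nat_lit 8577730579) (nat_lit 0) (nat_lit 0) (nat_lit 0) (nat_lit 0) (nat_lit 0) (nat_lit 0) (nat_lit 1) (nat_lit 0) (nat_lit 1) (nat_lit 0) (nat_lit 430) (nat_lit 387) (nat_lit 263)) (XT.lf (nat_lit 0) (nat_lit 8577685031) (nat_lit 0) (nat_lit 0) (nat_lit 0) (nat_lit 0) (nat_lit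 0) (nat_lit 0) (nat_lit 1) (nat_lit 0) (nat_lit 1) (nat_lit 0) (nat_lit 431) (nat_lit 387) (nat_lit 262))) (XT.nd (nat_lit 94) (nat_lit 0) (nat_lit 0) (XT.lf (nat_lit 0) (nat_lit 8577642858) (nat_lit 0) (nat_lit 0) (nat_lit 0) (nat_lit 0) (nat_lit 0) (nat_lit 0) (nat_lit 1) (nat_lit 0) (nat_lit 1) (nat_lit 0) (nat_lit 432) (nat_lit 387) (nat_lit 261)) (XT.nd (nat_lit 94) (nat_lit 0) (nat_lit 0) (XT.lf (nat_lit 0) (nat_lit 8577603809) (nat_lit 0) (nat_lit 0) (nat_lit 0) (nat_lit 0) (nat_lit 0) (nat_lit 0) (nat_lit 1) (nat_lit 0) (nat_lit 1) (nat_lit 0) (nat_lit 433) (nat_lit 387) (nat_lit 260)) (XT.lf (nat_lit 0) (nat_lit 8577567652) (nat_lit 0) (nat_lit 0) (nat_lit 0) (nat_lit 0) (nat_lit 0) (nat_lit 0) (nat_lit 1) (nat_lit 0) (nat_lit 1) (nat_lit 0) (nat_lit 434) (nat_lit 387) (nat_lit 259)))))) (XT.nd (nat_lit 55554) (nat_lit 0) (nat_lit 10836) (XT.nd (nat_lit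 188) (nat_lit 0) (nat_lit 0) (XT.nd (nat_lit 94) (nat_lit 0) (nat_lit 0) (XT.lf (nat_lit 0) (nat_lit 8577534173) (nat_lit 0) (nat_lit 0) (nat_lit 0) (nat_lit 0) (nat_lit 0) (nat_lit 0) (nat_lit 1) (nat_lit 0) (nat_lit 1) (nat_lit 0) (nat_lit 435) (nat_lit 387) (nat_lit 258)) (XT.lf (nat_lit 0) (nat_lit 8577503175) (nat_lit 0) (nat_lit 0) (nat_lit 0) (nat_lit 0) (nat_lit 0) (nat_lit 0) (nat_lit 1) (nat_lit 0) (nat_lit 1) (nat_lit 0) (nat_lit 436) (nat_lit 387) (nat_lit 257))) (XT.nd (nat_lit 94) (nat_lit 0) (nat_lit 0) (XT.lf (nat_lit 0) (nat_lit 8577474472) (nat_lit 0) (nat_lit 0) (nat_lit 0) (nat_lit 0) (nat_lit 0) (nat_lit 0) (nat_lit 1) (nat_lit 0) (nat_lit 1) (nat_lit 0) (nat_lit 437) (nat_lit 387) (nat_lit 256)) (XT.nd (nat_lit 55178) (nat_lit 0) (nat_lit 10752) (XT.lf (nat_lit 0) (nat_lit 8577447896) (nat_lit 0) (nat_lit 0) (nat_lit 0) (nat_lit 0) (nat_lit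 0) (nat_lit 0) (nat_lit 1) (nat_lit 0) (nat_lit 1) (nat_lit 0) (nat_lit 438) (nat_lit 387) (nat_lit 255)) (XT.lf (nat_lit 924) (nat_lit 4635694767) (nat_lit 0) (nat_lit 8230665404) (nat_lit 924) (nat_lit 4635694767) (nat_lit 139) (nat_lit 1) (nat_lit 128) (nat_lit 0) (nat_lit 139) (nat_lit 0) (nat_lit 304) (nat_lit 388) (nat_lit 388))))) (XT.nd (nat_lit 188) (nat_lit 0) (nat_lit 84) (XT.nd (nat_lit 94) (nat_lit 0) (nat_lit 0) (XT.lf (nat_lit 924) (nat_lit 1729256390) (nat_lit 0) (nat_lit 16159290709) (nat_lit 840) (nat_lit 15803732326) (nat_lit 140) (nat_lit 1) (nat_lit 129) (nat_lit 1) (nat_lit 139) (nat_lit 1) (nat_lit 305) (nat_lit 388) (nat_lit 387)) (XT.lf (nat_lit 924) (nat_lit 15882221807) (nat_lit 84) (nat_lit 10821882434) (nat_lit 0) (nat_lit 5739432791) (nat_lit 140) (nat_lit 1) (nat_lit 130) (nat_lit 1) (nat_lit 129) (nat_lit 1) (nat_lit 306) (nat_lit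 388) (nat_lit 386))) (XT.nd (nat_lit 94) (nat_lit 0) (nat_lit 84) (XT.lf (nat_lit 924) (nat_lit 13723540732) (nat_lit 84) (nat_lit 4535375918) (nat_lit 0) (nat_lit 12998368227) (nat_lit 141) (nat_lit 1) (nat_lit 131) (nat_lit 1) (nat_lit 130) (nat_lit 1) (nat_lit 307) (nat_lit 388) (nat_lit 385)) (XT.nd (nat_lit 94) (nat_lit 0) (nat_lit 84) (XT.lf (nat_lit 924) (nat_lit 10156586876) (nat_lit 0) (nat_lit 19002493965) (nat_lit 840) (nat_lit 971404776) (nat_lit 142) (nat_lit 1) (nat_lit 131) (nat_lit 1) (nat_lit 141) (nat_lit 1) (nat_lit 308) (nat_lit 388) (nat_lit 384)) (XT.lf (nat_lit 924) (nat_lit 2436973438) (nat_lit 0) (nat_lit 20955528694) (nat_lit 840) (nat_lit 5664996778) (nat_lit 143) (nat_lit 1) (nat_lit 132) (nat_lit 1) (nat_lit 142) (nat_lit 1) (nat_lit 309) (nat_lit 388) (nat_lit 383))))))))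
noncomputable def ec103 : XT := (XT.nd (nat_lit 1786) (nat_lit 3192) (nat_lit 0) (XT.nd (nat_lit 846) (nat_lit 2772) (nat_lit 0) (XT.nd (nat_lit 376) (nat_lit 1512) (nat_lit 0) (XT.nd (nat_lit 188) (nat_lit 1008) (nat_lit 0) (XT.nd (nat_lit 94) (nat_lit 756) (nat_lit 0) (XT.lf (nat_lit 924) (nat_lit 4682871747) (nat_lit 84) (nat_lit 18212060917) (nat_lit 0) (nat_lit 5139668284) (nat_lit 143) (nat_lit 1) (nat_lit 133) (nat_lit 1) (nat_lit 132) (nat_lit 1) (nat_lit 310) (nat_lit 388) (nat_lit 382)) (XT.lf (nat_lit 924) (nat_lit 961755073) (nat_lit 0) (nat_lit 13614720217) (nat_lit 840) (nat_lit 12484555786) (nat_lit 134) (nat_lit 1) (nat_lit 123) (nat_lit 1) (nat_lit 133) (nat_lit 1) (nat_lit 311) (nat_lit 388) (nat_lit 381))) (XT.nd (nat_lit 94) (nat_lit 420) (nat_lit 0) (XT.lf (nat_lit 84) (nat_lit 6659392468) (nat_lit 0) (nat_lit 2885824659) (nat_lit 588)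 (nat_lit 16588341668) (nat_lit 117) (nat_lit 1) (nat_lit 116) (nat_lit 1) (nat_lit 123) (nat_lit 1) (nat_lit 312) (nat_lit 388) (nat_lit 380)) (XT.lf (nat_lit 504) (nat_lit 18352447446) (nat_lit 0) (nat_lit 5974117290) (nat_lit 420) (nat_lit 923635446) (nat_lit 117) (nat_lit 1) (nat_lit 111) (nat_lit 1) (nat_lit 116) (nat_lit 1) (nat_lit 313) (nat_lit 388) (nat_lit 379)))) (XT.nd (nat_lit 188) (nat_lit 756) (nat_lit 0) (XT.nd (nat_lit 94) (nat_lit 336) (nat_lit 0) (XT.lf (nat_lit 504) (nat_lit 13243300842) (nat_lit 0) (nat_lit 2784561803) (nat_lit 420) (nat_lit 8376961764) (nat_lit 112) (nat_lit 1) (nat_lit 106) (nat_lit 1) (nat_lit 111) (nat_lit 1) (nat_lit 314) (nat_lit 388) (nat_lit 378)) (XT.lf (nat_lit 420) (nat_lit 8058379658) (nat_lit 0) (nat_lit 51268307) (nat_lit 336) (nat_lit 15490791104) (nat_lit 107) (nat_lit 1) (nat_lit 102) (nat_lit 1) (nat_lit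 106) (nat_lit 1) (nat_lit 315) (nat_lit 388) (nat_lit 377))) (XT.nd (nat_lit 94) (nat_lit 756) (nat_lit 0) (XT.lf (nat_lit 84) (nat_lit 594509167) (nat_lit 0) (nat_lit 20049729868) (nat_lit 420) (nat_lit 2188817857) (nat_lit 103) (nat_lit 1) (nat_lit 102) (nat_lit 1) (nat_lit 107) (nat_lit 1) (nat_lit 316) (nat_lit 388) (nat_lit 376)) (XT.nd (nat_lit 94) (nat_lit 336) (nat_lit 0) (XT.lf (nat_lit 84) (nat_lit 15350380899) (nat_lit 0) (nat_lit 2546024920) (nat_lit 420) (nat_lit 4198857486) (nat_lit 98) (nat_lit 1) (nat_lit 97) (nat_lit 1) (nat_lit 102) (nat_lit 1) (nat_lit 317) (nat_lit 388) (nat_lit 375)) (XT.lf (nat_lit 84) (nat_lit 7680184552) (nat_lit 0) (nat_lit 7798926291) (nat_lit 420) (nat_lit 5910958358) (nat_lit 94) (nat_lit 1) (nat_lit 93) (nat_lit 1) (nat_lit 98) (nat_lit 1) (nat_lit 318) (nat_lit 388) (nat_lit 374)))))) (XT.nd (nat_lit 470) (nat_lit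 1260) (nat_lit 0) (XT.nd (nat_lit 188) (nat_lit 924) (nat_lit 0) (XT.nd (nat_lit 94) (nat_lit 252) (nat_lit 0) (XT.lf (nat_lit 84) (nat_lit 379076879) (nat_lit 0) (nat_lit 13039683659) (nat_lit 420) (nat_lit 7299503170) (nat_lit 90) (nat_lit 1) (nat_lit 89) (nat_lit 1) (nat_lit 94) (nat_lit 1) (nat_lit 319) (nat_lit 388) (nat_lit 373)) (XT.lf (nat_lit 336) (nat_lit 1711889820) (nat_lit 0) (nat_lit 11576691429) (nat_lit 252) (nat_lit 6784207239) (nat_lit 90) (nat_lit 1) (nat_lit 86) (nat_lit 1) (nat_lit 89) (nat_lit 1) (nat_lit 320) (nat_lit 388) (nat_lit 372))) (XT.nd (nat_lit 94) (nat_lit 504) (nat_lit 0) (XT.lf (nat_lit 84) (nat_lit 5915039589) (nat_lit 0) (nat_lit 4054204889) (nat_lit 420) (nat_lit 9484734544) (nat_lit 82) (nat_lit 1) (nat_lit 81) (nat_lit 1) (nat_lit 86) (nat_lit 1) (nat_lit 321) (nat_lit 388) (nat_lit 371)) (XT.nd (nat_lit 94) (nat_lit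 252) (nat_lit 0) (XT.lf (nat_lit 336) (nat_lit 9157904036) (nat_lit 0) (nat_lit 8602667210) (nat_lit 252) (nat_lit 1101131193) (nat_lit 82) (nat_lit 1) (nat_lit 78) (nat_lit 1) (nat_lit 81) (nat_lit 1) (nat_lit 322) (nat_lit 388) (nat_lit 370)) (XT.lf (nat_lit 336) (nat_lit 2935064001) (nat_lit 0) (nat_lit 7406544192) (nat_lit 252) (nat_lit 7950579017) (nat_lit 79) (nat_lit 1) (nat_lit 75) (nat_lit 1) (nat_lit 78) (nat_lit 1) (nat_lit 323) (nat_lit 388) (nat_lit 369))))) (XT.nd (nat_lit 188) (nat_lit 672) (nat_lit 0) (XT.nd (nat_lit 94) (nat_lit 252) (nat_lit 0) (XT.lf (nat_lit 84) (nat_lit 3345263755) (nat_lit 0) (nat_lit 3062879677) (nat_lit 336) (nat_lit 11338181589) (nat_lit 72) (nat_lit 1) (nat_lit 71) (nat_lit 1) (nat_lit 75) (nat_lit 1) (nat_lit 324) (nat_lit 388) (nat_lit 368)) (XT.lf (nat_lit 336) (nat_lit 8324249790) (nat_lit 0) (nat_lit 5538647337)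 (nat_lit 252) (nat_lit 3357546226) (nat_lit 72) (nat_lit 1) (nat_lit 68) (nat_lit 1) (nat_lit 71) (nat_lit 1) (nat_lit 325) (nat_lit 388) (nat_lit 367))) (XT.nd (nat_lit 94) (nat_lit 504) (nat_lit 0) (XT.lf (nat_lit 252) (nat_lit 2063593814) (nat_lit 0) (nat_lit 4832065812) (nat_lit 168) (nat_lit 9820117593) (nat_lit 69) (nat_lit 1) (nat_lit 66) (nat_lit 1) (nat_lit 68) (nat_lit 1) (nat_lit 326) (nat_lit 388) (nat_lit 366)) (XT.nd (nat_lit 94) (nat_lit 168) (nat_lit 0) (XT.lf (nat_lit 84) (nat_lit 349585976) (nat_lit 0) (nat_lit 3911942962) (nat_lit 336) (nat_lit 11969144334) (nat_lit 63) (nat_lit 1) (nat_lit 62) (nat_lit 1) (nat_lit 66) (nat_lit 1) (nat_lit 327) (nat_lit 388) (nat_lit 365)) (XT.lf (nat_lit 252) (nat_lit 5996424981) (nat_lit 0) (nat_lit 3747251181) (nat_lit 168) (nat_lit 6017292601) (nat_lit 63) (nat_lit 1) (nat_lit 60) (nat_lit 1) (nat_lit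 62) (nat_lit 1) (nat_lit 328) (nat_lit 388) (nat_lit 364))))))) (XT.nd (nat_lit 846) (nat_lit 1512) (nat_lit 0) (XT.nd (nat_lit 376) (nat_lit 840) (nat_lit 0) (XT.nd (nat_lit 188) (nat_lit 420) (nat_lit 0) (XT.nd (nat_lit 94) (nat_lit 168) (nat_lit 0) (XT.lf (nat_lit 84) (nat_lit 3253409602) (nat_lit 0) (nat_lit 150277029) (nat_lit 252) (nat_lit 11908073908) (nat_lit 58) (nat_lit 1) (nat_lit 57) (nat_lit 1) (nat_lit 60) (nat_lit 1) (nat_lit 329) (nat_lit 388) (nat_lit 363)) (XT.lf (nat_lit 252) (nat_lit 8894193606) (nat_lit 0) (nat_lit 3082037509) (nat_lit 168) (nat_lit 2899388350) (nat_lit 58) (nat_lit 1) (nat_lit 55) (nat_lit 1) (nat_lit 57) (nat_lit 1) (nat_lit 330) (nat_lit 388) (nat_lit 362))) (XT.nd (nat_lit 94) (nat_lit 252) (nat_lit 0) (XT.lf (nat_lit 252) (nat_lit 2762892949) (nat_lit 0) (nat_lit 2865094681) (nat_lit 168) (nat_lit 8828166341) (nat_lit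 56) (nat_lit 1) (nat_lit 53) (nat_lit 1) (nat_lit 55) (nat_lit 1) (nat_lit 331) (nat_lit 388) (nat_lit 361)) (XT.lf (nat_lit 252) (nat_lit 10967669617) (nat_lit 0) (nat_lit 2737365422) (nat_lit 168) (nat_lit 347266561) (nat_lit 53) (nat_lit 1) (nat_lit 50) (nat_lit 1) (nat_lit 52) (nat_lit 1) (nat_lit 332) (nat_lit 388) (nat_lit 360)))) (XT.nd (nat_lit 188) (nat_lit 504) (nat_lit 0) (XT.nd (nat_lit 94) (nat_lit 168) (nat_lit 0) (XT.lf (nat_lit 252) (nat_lit 4908620612) (nat_lit 0) (nat_lit 2613261084) (nat_lit 168) (nat_lit 6137789316) (nat_lit 51) (nat_lit 1) (nat_lit 48) (nat_lit 1) (nat_lit 50) (nat_lit 1) (nat_lit 333) (nat_lit 388) (nat_lit 359)) (XT.lf (nat_lit 84) (nat_lit 1681392076) (nat_lit 0) (nat_lit 924168850) (nat_lit 168) (nat_lit 10677764801) (nat_lit 47) (nat_lit 1) (nat_lit 46) (nat_lit 1) (nat_lit 48) (nat_lit 1) (nat_lit 334) (nat_lit 388)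 (nat_lit 358))) (XT.nd (nat_lit 94) (nat_lit 336) (nat_lit 0) (XT.lf (nat_lit 252) (nat_lit 6440392541) (nat_lit 0) (nat_lit 2577970937) (nat_lit 168) (nat_lit 3898113679) (nat_lit 47) (nat_lit 1) (nat_lit 44) (nat_lit 1) (nat_lit 46) (nat_lit 1) (nat_lit 335) (nat_lit 388) (nat_lit 357)) (XT.nd (nat_lit 94) (nat_lit 252) (nat_lit 0) (XT.lf (nat_lit 168) (nat_lit 693538759) (nat_lit 0) (nat_lit 2641289234) (nat_lit 84) (nat_lit 9229283302) (nat_lit 45) (nat_lit 1) (nat_lit 43) (nat_lit 1) (nat_lit 44) (nat_lit 1) (nat_lit 336) (nat_lit 388) (nat_lit 356)) (XT.lf (nat_lit 252) (nat_lit 7486494861) (nat_lit 0) (nat_lit 2701334050) (nat_lit 168) (nat_lit 2033632340) (nat_lit 43) (nat_lit 1) (nat_lit 40) (nat_lit 1) (nat_lit 42) (nat_lit 1) (nat_lit 337) (nat_lit 388) (nat_lit 355)))))) (XT.nd (nat_lit 470) (nat_lit 756) (nat_lit 0) (XT.nd (nat_lit 188) (nat_lit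 420) (nat_lit 0) (XT.nd (nat_lit 94) (nat_lit 252) (nat_lit 0) (XT.lf (nat_lit 168) (nat_lit 1882908662) (nat_lit 0) (nat_lit 2802339652) (nat_lit 84) (nat_lit 7205110885) (nat_lit 41) (nat_lit 1) (nat_lit 39) (nat_lit 1) (nat_lit 40) (nat_lit 1) (nat_lit 338) (nat_lit 388) (nat_lit 354)) (XT.lf (nat_lit 252) (nat_lit 8150648543) (nat_lit 0) (nat_lit 2937497322) (nat_lit 168) (nat_lit 482068457) (nat_lit 39) (nat_lit 1) (nat_lit 36) (nat_lit 1) (nat_lit 38) (nat_lit 1) (nat_lit 339) (nat_lit 388) (nat_lit 353))) (XT.nd (nat_lit 94) (nat_lit 336) (nat_lit 0) (XT.lf (nat_lit 168) (nat_lit 2709763885) (nat_lit 0) (nat_lit 3062376256) (nat_lit 84) (nat_lit 5486511532) (nat_lit 37) (nat_lit 1) (nat_lit 35) (nat_lit 1) (nat_lit 36) (nat_lit 1) (nat_lit 340) (nat_lit 388) (nat_lit 352)) (XT.nd (nat_lit 94) (nat_lit 84) (nat_lit 0) (XT.lf (nat_lit 84) (nat_lit 782145696)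 (nat_lit 0) (nat_lit 2454946850) (nat_lit 252) (nat_lit 7721189389) (nat_lit 33) (nat_lit 1) (nat_lit 32) (nat_lit 1) (nat_lit 35) (nat_lit 1) (nat_lit 341) (nat_lit 388) (nat_lit 351)) (XT.lf (nat_lit 168) (nat_lit 3251961145) (nat_lit 0) (nat_lit 3388389374) (nat_lit 84) (nat_lit 4025021175) (nat_lit 33) (nat_lit 1) (nat_lit 31) (nat_lit 1) (nat_lit 32) (nat_lit 1) (nat_lit 342) (nat_lit 388) (nat_lit 350))))) (XT.nd (nat_lit 188) (nat_lit 420) (nat_lit 0) (XT.nd (nat_lit 94) (nat_lit 84) (nat_lit 0) (XT.lf (nat_lit 84) (nat_lit 1818979656) (nat_lit 0) (nat_lit 1761804796) (nat_lit 252) (nat_lit 6801970583) (nat_lit 29) (nat_lit 1) (nat_lit 28) (nat_lit 1) (nat_lit 31) (nat_lit 1) (nat_lit 343) (nat_lit 388) (nat_lit 349)) (XT.lf (nat_lit 168) (nat_lit 3572286615) (nat_lit 0) (nat_lit 3754611228) (nat_lit 84) (nat_lit 2780461284) (nat_lit 29) (nat_lit 1)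 (nat_lit 27) (nat_lit 1) (nat_lit 28) (nat_lit 1) (nat_lit 344) (nat_lit 388) (nat_lit 348))) (XT.nd (nat_lit 94) (nat_lit 252) (nat_lit 0) (XT.lf (nat_lit 84) (nat_lit 2677958676) (nat_lit 0) (nat_lit 1275999392) (nat_lit 168) (nat_lit 5887100207) (nat_lit 26) (nat_lit 1) (nat_lit 25) (nat_lit 1) (nat_lit 27) (nat_lit 1) (nat_lit 345) (nat_lit 388) (nat_lit 347)) (XT.nd (nat_lit 94) (nat_lit 168) (nat_lit 0) (XT.lf (nat_lit 168) (nat_lit 3721271960) (nat_lit 0) (nat_lit 4141104526) (nat_lit 84) (nat_lit 1719460898) (nat_lit 26) (nat_lit 1) (nat_lit 24) (nat_lit 1) (nat_lit 25) (nat_lit 1) (nat_lit 346) (nat_lit 388) (nat_lit 346)) (XT.lf (nat_lit 84) (nat_lit 3387368733) (nat_lit 0) (nat_lit 951912185) (nat_lit 168) (nat_lit 4991308939) (nat_lit 23) (nat_lit 1) (nat_lit 22) (nat_lit 1) (nat_lit 24) (nat_lit 1) (nat_lit 347) (nat_lit 388) (nat_lit 345))))))))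
noncomputable def ec104 : XT := (XT.nd (nat_lit 1692) (nat_lit 0) (nat_lit 0) (XT.nd (nat_lit 846) (nat_lit 756) (nat_lit 0) (XT.nd (nat_lit 376) (nat_lit 588) (nat_lit 0) (XT.nd (nat_lit 188) (nat_lit 252) (nat_lit 0) (XT.nd (nat_lit 94) (nat_lit 168) (nat_lit 0) (XT.lf (nat_lit 168) (nat_lit 3739490514) (nat_lit 0) (nat_lit 4532615390) (nat_lit 84) (nat_lit 814247094) (nat_lit 23) (nat_lit 1) (nat_lit 21) (nat_lit 1) (nat_lit 22) (nat_lit 1) (nat_lit 348) (nat_lit 388) (nat_lit 344)) (XT.lf (nat_lit 84) (nat_lit 3970718633) (nat_lit 0) (nat_lit 752861696) (nat_lit 168) (nat_lit 4125463066) (nat_lit 20) (nat_lit 1) (nat_lit 19) (nat_lit 1) (nat_lit 21) (nat_lit 1) (nat_lit 349) (nat_lit 388) (nat_lit 343))) (XT.nd (nat_lit 94) (nat_lit 168) (nat_lit 0) (XT.lf (nat_lit 168) (nat_lit 3659429175) (nat_lit 0) (nat_lit 4917641794) (nat_lit 84) (nat_lit 41654810)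 (nat_lit 20) (nat_lit 1) (nat_lit 18) (nat_lit 1) (nat_lit 19) (nat_lit 1) (nat_lit 350) (nat_lit 388) (nat_lit 342)) (XT.lf (nat_lit 84) (nat_lit 4447585616) (nat_lit 0) (nat_lit 649425348) (nat_lit 168) (nat_lit 3297351971) (nat_lit 17) (nat_lit 1) (nat_lit 16) (nat_lit 1) (nat_lit 18) (nat_lit 1) (nat_lit 351) (nat_lit 388) (nat_lit 341)))) (XT.nd (nat_lit 188) (nat_lit 336) (nat_lit 0) (XT.nd (nat_lit 94) (nat_lit 168) (nat_lit 0) (XT.lf (nat_lit 0) (nat_lit 597914318) (nat_lit 0) (nat_lit 4679637366) (nat_lit 168) (nat_lit 2898973758) (nat_lit 15) (nat_lit 3) (nat_lit 15) (nat_lit 1) (nat_lit 17) (nat_lit 1) (nat_lit 352) (nat_lit 388) (nat_lit 340)) (XT.lf (nat_lit 84) (nat_lit 4834307889) (nat_lit 0) (nat_lit 618071730) (nat_lit 168) (nat_lit 2512326145) (nat_lit 14) (nat_lit 1) (nat_lit 13) (nat_lit 1) (nat_lit 15) (nat_lit 1) (nat_lit 353) (nat_lit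 388) (nat_lit 339))) (XT.nd (nat_lit 94) (nat_lit 252) (nat_lit 0) (XT.lf (nat_lit 0) (nat_lit 1142237548) (nat_lit 0) (nat_lit 4475018142) (nat_lit 168) (nat_lit 2141271630) (nat_lit 12) (nat_lit 3) (nat_lit 12) (nat_lit 1) (nat_lit 14) (nat_lit 1) (nat_lit 354) (nat_lit 388) (nat_lit 338)) (XT.nd (nat_lit 94) (nat_lit 84) (nat_lit 0) (XT.lf (nat_lit 84) (nat_lit 5144552061) (nat_lit 0) (nat_lit 640046116) (nat_lit 168) (nat_lit 1773813419) (nat_lit 11) (nat_lit 1) (nat_lit 10) (nat_lit 1) (nat_lit 12) (nat_lit 1) (nat_lit 355) (nat_lit 388) (nat_lit 337)) (XT.lf (nat_lit 0) (nat_lit 1605858875) (nat_lit 0) (nat_lit 4327118096) (nat_lit 168) (nat_lit 1430195988) (nat_lit 9) (nat_lit 3) (nat_lit 9) (nat_lit 1) (nat_lit 11) (nat_lit 1) (nat_lit 356) (nat_lit 388) (nat_lit 336)))))) (XT.nd (nat_lit 376) (nat_lit 252) (nat_lit 0) (XT.nd (nat_lit 188) (nat_lit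 252) (nat_lit 0) (XT.nd (nat_lit 94) (nat_lit 84) (nat_lit 0) (XT.lf (nat_lit 84) (nat_lit 5389778281) (nat_lit 0) (nat_lit 700462624) (nat_lit 168) (nat_lit 1083736084) (nat_lit 8) (nat_lit 1) (nat_lit 7) (nat_lit 1) (nat_lit 9) (nat_lit 1) (nat_lit 357) (nat_lit 388) (nat_lit 335)) (XT.lf (nat_lit 0) (nat_lit 1999916320) (nat_lit 0) (nat_lit 4221860292) (nat_lit 168) (nat_lit 767242717) (nat_lit 6) (nat_lit 3) (nat_lit 6) (nat_lit 1) (nat_lit 8) (nat_lit 1) (nat_lit 358) (nat_lit 388) (nat_lit 334))) (XT.nd (nat_lit 94) (nat_lit 84) (nat_lit 0) (XT.lf (nat_lit 84) (nat_lit 5579621752) (nat_lit 0) (nat_lit 787564973) (nat_lit 168) (nat_lit 442847333) (nat_lit 5) (nat_lit 1) (nat_lit 4) (nat_lit 1) (nat_lit 6) (nat_lit 1) (nat_lit 359) (nat_lit 388) (nat_lit 333)) (XT.lf (nat_lit 0) (nat_lit 2333829996) (nat_lit 0) (nat_lit 4148076495) (nat_lit 168) (nat_lit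 152845005) (nat_lit 3) (nat_lit 3) (nat_lit 3) (nat_lit 1) (nat_lit 5) (nat_lit 1) (nat_lit 360) (nat_lit 388) (nat_lit 332)))) (XT.nd (nat_lit 188) (nat_lit 0) (nat_lit 0) (XT.nd (nat_lit 94) (nat_lit 0) (nat_lit 0) (XT.lf (nat_lit 0) (nat_lit 9378526993) (nat_lit 0) (nat_lit 0) (nat_lit 0) (nat_lit 0) (nat_lit 0) (nat_lit 0) (nat_lit 1) (nat_lit 0) (nat_lit 1) (nat_lit 0) (nat_lit 361) (nat_lit 388) (nat_lit 331)) (XT.lf (nat_lit 0) (nat_lit 9369990545) (nat_lit 0) (nat_lit 0) (nat_lit 0) (nat_lit 0) (nat_lit 0) (nat_lit 0) (nat_lit 1) (nat_lit 0) (nat_lit 1) (nat_lit 0) (nat_lit 362) (nat_lit 388) (nat_lit 330))) (XT.nd (nat_lit 94) (nat_lit 0) (nat_lit 0) (XT.lf (nat_lit 0) (nat_lit 9362086426) (nat_lit 0) (nat_lit 0) (nat_lit 0) (nat_lit 0) (nat_lit 0) (nat_lit 0) (nat_lit 1) (nat_lit 0) (nat_lit 1) (nat_lit 0) (nat_lit 363) (nat_lit 388) (nat_lit 329))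 (XT.nd (nat_lit 94) (nat_lit 0) (nat_lit 0) (XT.lf (nat_lit 0) (nat_lit 9354767798) (nat_lit 0) (nat_lit 0) (nat_lit 0) (nat_lit 0) (nat_lit 0) (nat_lit 0) (nat_lit 1) (nat_lit 0) (nat_lit 1) (nat_lit 0) (nat_lit 364) (nat_lit 388) (nat_lit 328)) (XT.lf (nat_lit 0) (nat_lit 9347991291) (nat_lit 0) (nat_lit 0) (nat_lit 0) (nat_lit 0) (nat_lit 0) (nat_lit 0) (nat_lit 1) (nat_lit 0) (nat_lit 1) (nat_lit 0) (nat_lit 365) (nat_lit 388) (nat_lit 327))))))) (XT.nd (nat_lit 846) (nat_lit 0) (nat_lit 0) (XT.nd (nat_lit 376) (nat_lit 0) (nat_lit 0) (XT.nd (nat_lit 188) (nat_lit 0) (nat_lit 0) (XT.nd (nat_lit 94) (nat_lit 0) (nat_lit 0) (XT.lf (nat_lit 0) (nat_lit 9341716747) (nat_lit 0) (nat_lit 0) (nat_lit 0) (nat_lit 0) (nat_lit 0) (nat_lit 0) (nat_lit 1) (nat_lit 0) (nat_lit 1) (nat_lit 0) (nat_lit 366) (nat_lit 388) (nat_lit 326)) (XT.lf (nat_lit 0) (nat_lit 9335906984)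 (nat_lit 0) (nat_lit 0) (nat_lit 0) (nat_lit 0) (nat_lit 0) (nat_lit 0) (nat_lit 1) (nat_lit 0) (nat_lit 1) (nat_lit 0) (nat_lit 367) (nat_lit 388) (nat_lit 325))) (XT.nd (nat_lit 94) (nat_lit 0) (nat_lit 0) (XT.lf (nat_lit 0) (nat_lit 9330527574) (nat_lit 0) (nat_lit 0) (nat_lit 0) (nat_lit 0) (nat_lit 0) (nat_lit 0) (nat_lit 1) (nat_lit 0) (nat_lit 1) (nat_lit 0) (nat_lit 368) (nat_lit 388) (nat_lit 324)) (XT.lf (nat_lit 0) (nat_lit 9325546638) (nat_lit 0) (nat_lit 0) (nat_lit 0) (nat_lit 0) (nat_lit 0) (nat_lit 0) (nat_lit 1) (nat_lit 0) (nat_lit 1) (nat_lit 0) (nat_lit 369) (nat_lit 388) (nat_lit 323)))) (XT.nd (nat_lit 188) (nat_lit 0) (nat_lit 0) (XT.nd (nat_lit 94) (nat_lit 0) (nat_lit 0) (XT.lf (nat_lit 0) (nat_lit 9320934661) (nat_lit 0) (nat_lit 0) (nat_lit 0) (nat_lit 0) (nat_lit 0) (nat_lit 0) (nat_lit 1) (nat_lit 0) (nat_lit 1) (nat_lit 0) (nat_lit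 370) (nat_lit 388) (nat_lit 322)) (XT.lf (nat_lit 0) (nat_lit 9316664312) (nat_lit 0) (nat_lit 0) (nat_lit 0) (nat_lit 0) (nat_lit 0) (nat_lit 0) (nat_lit 1) (nat_lit 0) (nat_lit 1) (nat_lit 0) (nat_lit 371) (nat_lit 388) (nat_lit 321))) (XT.nd (nat_lit 94) (nat_lit 0) (nat_lit 0) (XT.lf (nat_lit 0) (nat_lit 9312710285) (nat_lit 0) (nat_lit 0) (nat_lit 0) (nat_lit 0) (nat_lit 0) (nat_lit 0) (nat_lit 1) (nat_lit 0) (nat_lit 1) (nat_lit 0) (nat_lit 372) (nat_lit 388) (nat_lit 320)) (XT.nd (nat_lit 94) (nat_lit 0) (nat_lit 0) (XT.lf (nat_lit 0) (nat_lit 9309049149) (nat_lit 0) (nat_lit 0) (nat_lit 0) (nat_lit 0) (nat_lit 0) (nat_lit 0) (nat_lit 1) (nat_lit 0) (nat_lit 1) (nat_lit 0) (nat_lit 373) (nat_lit 388) (nat_lit 319)) (XT.lf (nat_lit 0) (nat_lit 9305659208) (nat_lit 0) (nat_lit 0) (nat_lit 0) (nat_lit 0) (nat_lit 0) (nat_lit 0) (nat_lit 1) (nat_lit 0)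 (nat_lit 1) (nat_lit 0) (nat_lit 374) (nat_lit 388) (nat_lit 318)))))) (XT.nd (nat_lit 470) (nat_lit 0) (nat_lit 0) (XT.nd (nat_lit 188) (nat_lit 0) (nat_lit 0) (XT.nd (nat_lit 94) (nat_lit 0) (nat_lit 0) (XT.lf (nat_lit 0) (nat_lit 9302520374) (nat_lit 0) (nat_lit 0) (nat_lit 0) (nat_lit 0) (nat_lit 0) (nat_lit 0) (nat_lit 1) (nat_lit 0) (nat_lit 1) (nat_lit 0) (nat_lit 375) (nat_lit 388) (nat_lit 317)) (XT.lf (nat_lit 0) (nat_lit 9299614046) (nat_lit 0) (nat_lit 0) (nat_lit 0) (nat_lit 0) (nat_lit 0) (nat_lit 0) (nat_lit 1) (nat_lit 0) (nat_lit 1) (nat_lit 0) (nat_lit 376) (nat_lit 388) (nat_lit 316))) (XT.nd (nat_lit 94) (nat_lit 0) (nat_lit 0) (XT.lf (nat_lit 0) (nat_lit 9296923001) (nat_lit 0) (nat_lit 0) (nat_lit 0) (nat_lit 0) (nat_lit 0) (nat_lit 0) (nat_lit 1) (nat_lit 0) (nat_lit 1) (nat_lit 0) (nat_lit 377) (nat_lit 388) (nat_lit 315)) (XT.nd (nat_lit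 94) (nat_lit 0) (nat_lit 0) (XT.lf (nat_lit 0) (nat_lit 9294431294) (nat_lit 0) (nat_lit 0) (nat_lit 0) (nat_lit 0) (nat_lit 0) (nat_lit 0) (nat_lit 1) (nat_lit 0) (nat_lit 1) (nat_lit 0) (nat_lit 378) (nat_lit 388) (nat_lit 314)) (XT.lf (nat_lit 0) (nat_lit 9292124157) (nat_lit 0) (nat_lit 0) (nat_lit 0) (nat_lit 0) (nat_lit 0) (nat_lit 0) (nat_lit 1) (nat_lit 0) (nat_lit 1) (nat_lit 0) (nat_lit 379) (nat_lit 388) (nat_lit 313))))) (XT.nd (nat_lit 188) (nat_lit 0) (nat_lit 0) (XT.nd (nat_lit 94) (nat_lit 0) (nat_lit 0) (XT.lf (nat_lit 0) (nat_lit 9289987919) (nat_lit 0) (nat_lit 0) (nat_lit 0) (nat_lit 0) (nat_lit 0) (nat_lit 0) (nat_lit 1) (nat_lit 0) (nat_lit 1) (nat_lit 0) (nat_lit 380) (nat_lit 388) (nat_lit 312)) (XT.lf (nat_lit 0) (nat_lit 9288009921) (nat_lit 0) (nat_lit 0) (nat_lit 0) (nat_lit 0) (nat_lit 0) (nat_lit 0) (nat_lit 1) (nat_lit 0) (nat_lit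 1) (nat_lit 0) (nat_lit 381) (nat_lit 388) (nat_lit 311))) (XT.nd (nat_lit 94) (nat_lit 0) (nat_lit 0) (XT.lf (nat_lit 0) (nat_lit 9286178441) (nat_lit 0) (nat_lit 0) (nat_lit 0) (nat_lit 0) (nat_lit 0) (nat_lit 0) (nat_lit 1) (nat_lit 0) (nat_lit 1) (nat_lit 0) (nat_lit 382) (nat_lit 388) (nat_lit 310)) (XT.nd (nat_lit 94) (nat_lit 0) (nat_lit 0) (XT.lf (nat_lit 0) (nat_lit 9284482627) (nat_lit 0) (nat_lit 0) (nat_lit 0) (nat_lit 0) (nat_lit 0) (nat_lit 0) (nat_lit 1) (nat_lit 0) (nat_lit 1) (nat_lit 0) (nat_lit 383) (nat_lit 388) (nat_lit 309)) (XT.lf (nat_lit 0) (nat_lit 9282912428) (nat_lit 0) (nat_lit 0) (nat_lit 0) (nat_lit 0) (nat_lit 0) (nat_lit 0) (nat_lit 1) (nat_lit 0) (nat_lit 1) (nat_lit 0) (nat_lit 384) (nat_lit 388) (nat_lit 308))))))))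
noncomputable def ec105 : XT := (XT.nd (nat_lit 1786) (nat_lit 0) (nat_lit 0) (XT.nd (nat_lit 846) (nat_lit 0) (nat_lit 0) (XT.nd (nat_lit 376) (nat_lit 0) (nat_lit 0) (XT.nd (nat_lit 188) (nat_lit 0) (nat_lit 0) (XT.nd (nat_lit 94) (nat_lit 0) (nat_lit 0) (XT.lf (nat_lit 0) (nat_lit 9281458541) (nat_lit 0) (nat_lit 0) (nat_lit 0) (nat_lit 0) (nat_lit 0) (nat_lit 0) (nat_lit 1) (nat_lit 0) (nat_lit 1) (nat_lit 0) (nat_lit 385) (nat_lit 388) (nat_lit 307)) (XT.lf (nat_lit 0) (nat_lit 9280112349) (nat_lit 0) (nat_lit 0) (nat_lit 0) (nat_lit 0) (nat_lit 0) (nat_lit 0) (nat_lit 1) (nat_lit 0) (nat_lit 1) (nat_lit 0) (nat_lit 386) (nat_lit 388) (nat_lit 306))) (XT.nd (nat_lit 94) (nat_lit 0) (nat_lit 0) (XT.lf (nat_lit 0) (nat_lit 9278865874) (nat_lit 0) (nat_lit 0) (nat_lit 0) (nat_lit 0) (nat_lit 0) (nat_lit 0) (nat_lit 1) (nat_lit 0) (nat_lit 1) (nat_lit 0)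 (nat_lit 387) (nat_lit 388) (nat_lit 305)) (XT.lf (nat_lit 0) (nat_lit 9277711732) (nat_lit 0) (nat_lit 0) (nat_lit 0) (nat_lit 0) (nat_lit 0) (nat_lit 0) (nat_lit 1) (nat_lit 0) (nat_lit 1) (nat_lit 0) (nat_lit 388) (nat_lit 388) (nat_lit 304)))) (XT.nd (nat_lit 188) (nat_lit 0) (nat_lit 0) (XT.nd (nat_lit 94) (nat_lit 0) (nat_lit 0) (XT.lf (nat_lit 0) (nat_lit 9276643081) (nat_lit 0) (nat_lit 0) (nat_lit 0) (nat_lit 0) (nat_lit 0) (nat_lit 0) (nat_lit 1) (nat_lit 0) (nat_lit 1) (nat_lit 0) (nat_lit 389) (nat_lit 388) (nat_lit 303)) (XT.lf (nat_lit 0) (nat_lit 9275653589) (nat_lit 0) (nat_lit 0) (nat_lit 0) (nat_lit 0) (nat_lit 0) (nat_lit 0) (nat_lit 1) (nat_lit 0) (nat_lit 1) (nat_lit 0) (nat_lit 390) (nat_lit 388) (nat_lit 302))) (XT.nd (nat_lit 94) (nat_lit 0) (nat_lit 0) (XT.lf (nat_lit 0) (nat_lit 9274737394) (nat_lit 0) (nat_lit 0) (nat_lit 0) (nat_lit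 0) (nat_lit 0) (nat_lit 0) (nat_lit 1) (nat_lit 0) (nat_lit 1) (nat_lit 0) (nat_lit 391) (nat_lit 388) (nat_lit 301)) (XT.nd (nat_lit 94) (nat_lit 0) (nat_lit 0) (XT.lf (nat_lit 0) (nat_lit 9273889064) (nat_lit 0) (nat_lit 0) (nat_lit 0) (nat_lit 0) (nat_lit 0) (nat_lit 0) (nat_lit 1) (nat_lit 0) (nat_lit 1) (nat_lit 0) (nat_lit 392) (nat_lit 388) (nat_lit 300)) (XT.lf (nat_lit 0) (nat_lit 9273103574) (nat_lit 0) (nat_lit 0) (nat_lit 0) (nat_lit 0) (nat_lit 0) (nat_lit 0) (nat_lit 1) (nat_lit 0) (nat_lit 1) (nat_lit 0) (nat_lit 393) (nat_lit 388) (nat_lit 299)))))) (XT.nd (nat_lit 470) (nat_lit 0) (nat_lit 0) (XT.nd (nat_lit 188) (nat_lit 0) (nat_lit 0) (XT.nd (nat_lit 94) (nat_lit 0) (nat_lit 0) (XT.lf (nat_lit 0) (nat_lit 9272376268) (nat_lit 0) (nat_lit 0) (nat_lit 0) (nat_lit 0) (nat_lit 0) (nat_lit 0) (nat_lit 1) (nat_lit 0) (nat_lit 1) (nat_lit 0) (nat_lit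 394) (nat_lit 388) (nat_lit 298)) (XT.lf (nat_lit 0) (nat_lit 9271702837) (nat_lit 0) (nat_lit 0) (nat_lit 0) (nat_lit 0) (nat_lit 0) (nat_lit 0) (nat_lit 1) (nat_lit 0) (nat_lit 1) (nat_lit 0) (nat_lit 395) (nat_lit 388) (nat_lit 297))) (XT.nd (nat_lit 94) (nat_lit 0) (nat_lit 0) (XT.lf (nat_lit 0) (nat_lit 9271079290) (nat_lit 0) (nat_lit 0) (nat_lit 0) (nat_lit 0) (nat_lit 0) (nat_lit 0) (nat_lit 1) (nat_lit 0) (nat_lit 1) (nat_lit 0) (nat_lit 396) (nat_lit 388) (nat_lit 296)) (XT.nd (nat_lit 94) (nat_lit 0) (nat_lit 0) (XT.lf (nat_lit 0) (nat_lit 9270501931) (nat_lit 0) (nat_lit 0) (nat_lit 0) (nat_lit 0) (nat_lit 0) (nat_lit 0) (nat_lit 1) (nat_lit 0) (nat_lit 1) (nat_lit 0) (nat_lit 397) (nat_lit 388) (nat_lit 295)) (XT.lf (nat_lit 0) (nat_lit 9269967339) (nat_lit 0) (nat_lit 0) (nat_lit 0) (nat_lit 0) (nat_lit 0) (nat_lit 0) (nat_lit 1) (nat_lit 0)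 (nat_lit 1) (nat_lit 0) (nat_lit 398) (nat_lit 388) (nat_lit 294))))) (XT.nd (nat_lit 188) (nat_lit 0) (nat_lit 0) (XT.nd (nat_lit 94) (nat_lit 0) (nat_lit 0) (XT.lf (nat_lit 0) (nat_lit 9269472347) (nat_lit 0) (nat_lit 0) (nat_lit 0) (nat_lit 0) (nat_lit 0) (nat_lit 0) (nat_lit 1) (nat_lit 0) (nat_lit 1) (nat_lit 0) (nat_lit 399) (nat_lit 388) (nat_lit 293)) (XT.lf (nat_lit 0) (nat_lit 9269014021) (nat_lit 0) (nat_lit 0) (nat_lit 0) (nat_lit 0) (nat_lit 0) (nat_lit 0) (nat_lit 1) (nat_lit 0) (nat_lit 1) (nat_lit 0) (nat_lit 400) (nat_lit 388) (nat_lit 292))) (XT.nd (nat_lit 94) (nat_lit 0) (nat_lit 0) (XT.lf (nat_lit 0) (nat_lit 9268589646) (nat_lit 0) (nat_lit 0) (nat_lit 0) (nat_lit 0) (nat_lit 0) (nat_lit 0) (nat_lit 1) (nat_lit 0) (nat_lit 1) (nat_lit 0) (nat_lit 401) (nat_lit 388) (nat_lit 291)) (XT.nd (nat_lit 94) (nat_lit 0) (nat_lit 0) (XT.lf (nat_lit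 0) (nat_lit 9268196705) (nat_lit 0) (nat_lit 0) (nat_lit 0) (nat_lit 0) (nat_lit 0) (nat_lit 0) (nat_lit 1) (nat_lit 0) (nat_lit 1) (nat_lit 0) (nat_lit 402) (nat_lit 388) (nat_lit 290)) (XT.lf (nat_lit 0) (nat_lit 9267832871) (nat_lit 0) (nat_lit 0) (nat_lit 0) (nat_lit 0) (nat_lit 0) (nat_lit 0) (nat_lit 1) (nat_lit 0) (nat_lit 1) (nat_lit 0) (nat_lit 403) (nat_lit 388) (nat_lit 289))))))) (XT.nd (nat_lit 846) (nat_lit 0) (nat_lit 0) (XT.nd (nat_lit 376) (nat_lit 0) (nat_lit 0) (XT.nd (nat_lit 188) (nat_lit 0) (nat_lit 0) (XT.nd (nat_lit 94) (nat_lit 0) (nat_lit 0) (XT.lf (nat_lit 0) (nat_lit 9267495988) (nat_lit 0) (nat_lit 0) (nat_lit 0) (nat_lit 0) (nat_lit 0) (nat_lit 0) (nat_lit 1) (nat_lit 0) (nat_lit 1) (nat_lit 0) (nat_lit 404) (nat_lit 388) (nat_lit 288)) (XT.lf (nat_lit 0) (nat_lit 9267184059) (nat_lit 0) (nat_lit 0) (nat_lit 0) (nat_lit 0) (nat_lit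 0) (nat_lit 0) (nat_lit 1) (nat_lit 0) (nat_lit 1) (nat_lit 0) (nat_lit 405) (nat_lit 388) (nat_lit 287))) (XT.nd (nat_lit 94) (nat_lit 0) (nat_lit 0) (XT.lf (nat_lit 0) (nat_lit 9266895236) (nat_lit 0) (nat_lit 0) (nat_lit 0) (nat_lit 0) (nat_lit 0) (nat_lit 0) (nat_lit 1) (nat_lit 0) (nat_lit 1) (nat_lit 0) (nat_lit 406) (nat_lit 388) (nat_lit 286)) (XT.lf (nat_lit 0) (nat_lit 9266627807) (nat_lit 0) (nat_lit 0) (nat_lit 0) (nat_lit 0) (nat_lit 0) (nat_lit 0) (nat_lit 1) (nat_lit 0) (nat_lit 1) (nat_lit 0) (nat_lit 407) (nat_lit 388) (nat_lit 285)))) (XT.nd (nat_lit 188) (nat_lit 0) (nat_lit 0) (XT.nd (nat_lit 94) (nat_lit 0) (nat_lit 0) (XT.lf (nat_lit 0) (nat_lit 9266380187) (nat_lit 0) (nat_lit 0) (nat_lit 0) (nat_lit 0) (nat_lit 0) (nat_lit 0) (nat_lit 1) (nat_lit 0) (nat_lit 1) (nat_lit 0) (nat_lit 408) (nat_lit 388) (nat_lit 284)) (XT.lf (nat_lit 0)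 (nat_lit 9266150910) (nat_lit 0) (nat_lit 0) (nat_lit 0) (nat_lit 0) (nat_lit 0) (nat_lit 0) (nat_lit 1) (nat_lit 0) (nat_lit 1) (nat_lit 0) (nat_lit 409) (nat_lit 388) (nat_lit 283))) (XT.nd (nat_lit 94) (nat_lit 0) (nat_lit 0) (XT.lf (nat_lit 0) (nat_lit 9265938617) (nat_lit 0) (nat_lit 0) (nat_lit 0) (nat_lit 0) (nat_lit 0) (nat_lit 0) (nat_lit 1) (nat_lit 0) (nat_lit 1) (nat_lit 0) (nat_lit 410) (nat_lit 388) (nat_lit 282)) (XT.nd (nat_lit 94) (nat_lit 0) (nat_lit 0) (XT.lf (nat_lit 0) (nat_lit 9265742049) (nat_lit 0) (nat_lit 0) (nat_lit 0) (nat_lit 0) (nat_lit 0) (nat_lit 0) (nat_lit 1) (nat_lit 0) (nat_lit 1) (nat_lit 0) (nat_lit 411) (nat_lit 388) (nat_lit 281)) (XT.lf (nat_lit 0) (nat_lit 9265560041) (nat_lit 0) (nat_lit 0) (nat_lit 0) (nat_lit 0) (nat_lit 0) (nat_lit 0) (nat_lit 1) (nat_lit 0) (nat_lit 1) (nat_lit 0) (nat_lit 412) (nat_lit 388) (nat_lit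 280)))))) (XT.nd (nat_lit 470) (nat_lit 0) (nat_lit 0) (XT.nd (nat_lit 188) (nat_lit 0) (nat_lit 0) (XT.nd (nat_lit 94) (nat_lit 0) (nat_lit 0) (XT.lf (nat_lit 0) (nat_lit 9265391515) (nat_lit 0) (nat_lit 0) (nat_lit 0) (nat_lit 0) (nat_lit 0) (nat_lit 0) (nat_lit 1) (nat_lit 0) (nat_lit 1) (nat_lit 0) (nat_lit 413) (nat_lit 388) (nat_lit 279)) (XT.lf (nat_lit 0) (nat_lit 9265235473) (nat_lit 0) (nat_lit 0) (nat_lit 0) (nat_lit 0) (nat_lit 0) (nat_lit 0) (nat_lit 1) (nat_lit 0) (nat_lit 1) (nat_lit 0) (nat_lit 414) (nat_lit 388) (nat_lit 278))) (XT.nd (nat_lit 94) (nat_lit 0) (nat_lit 0) (XT.lf (nat_lit 0) (nat_lit 9265090990) (nat_lit 0) (nat_lit 0) (nat_lit 0) (nat_lit 0) (nat_lit 0) (nat_lit 0) (nat_lit 1) (nat_lit 0) (nat_lit 1) (nat_lit 0) (nat_lit 415) (nat_lit 388) (nat_lit 277)) (XT.nd (nat_lit 94) (nat_lit 0) (nat_lit 0) (XT.lf (nat_lit 0) (nat_lit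 9264957209) (nat_lit 0) (nat_lit 0) (nat_lit 0) (nat_lit 0) (nat_lit 0) (nat_lit 0) (nat_lit 1) (nat_lit 0) (nat_lit 1) (nat_lit 0) (nat_lit 416) (nat_lit 388) (nat_lit 276)) (XT.lf (nat_lit 0) (nat_lit 9264833338) (nat_lit 0) (nat_lit 0) (nat_lit 0) (nat_lit 0) (nat_lit 0) (nat_lit 0) (nat_lit 1) (nat_lit 0) (nat_lit 1) (nat_lit 0) (nat_lit 417) (nat_lit 388) (nat_lit 275))))) (XT.nd (nat_lit 188) (nat_lit 0) (nat_lit 0) (XT.nd (nat_lit 94) (nat_lit 0) (nat_lit 0) (XT.lf (nat_lit 0) (nat_lit 9264718642) (nat_lit 0) (nat_lit 0) (nat_lit 0) (nat_lit 0) (nat_lit 0) (nat_lit 0) (nat_lit 1) (nat_lit 0) (nat_lit 1) (nat_lit 0) (nat_lit 418) (nat_lit 388) (nat_lit 274)) (XT.lf (nat_lit 0) (nat_lit 9264612442) (nat_lit 0) (nat_lit 0) (nat_lit 0) (nat_lit 0) (nat_lit 0) (nat_lit 0) (nat_lit 1) (nat_lit 0) (nat_lit 1) (nat_lit 0) (nat_lit 419) (nat_lit 388) (nat_lit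 273))) (XT.nd (nat_lit 94) (nat_lit 0) (nat_lit 0) (XT.lf (nat_lit 0) (nat_lit 9264514109) (nat_lit 0) (nat_lit 0) (nat_lit 0) (nat_lit 0) (nat_lit 0) (nat_lit 0) (nat_lit 1) (nat_lit 0) (nat_lit 1) (nat_lit 0) (nat_lit 420) (nat_lit 388) (nat_lit 272)) (XT.nd (nat_lit 94) (nat_lit 0) (nat_lit 0) (XT.lf (nat_lit 0) (nat_lit 9264423060) (nat_lit 0) (nat_lit 0) (nat_lit 0) (nat_lit 0) (nat_lit 0) (nat_lit 0) (nat_lit 1) (nat_lit 0) (nat_lit 1) (nat_lit 0) (nat_lit 421) (nat_lit 388) (nat_lit 271)) (XT.lf (nat_lit 0) (nat_lit 9264338755) (nat_lit 0) (nat_lit 0) (nat_lit 0) (nat_lit 0) (nat_lit 0) (nat_lit 0) (nat_lit 1) (nat_lit 0) (nat_lit 1) (nat_lit 0) (nat_lit 422) (nat_lit 388) (nat_lit 270))))))))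
noncomputable def ec106 : XT := (XT.nd (nat_lit 56588) (nat_lit 0) (nat_lit 5964) (XT.nd (nat_lit 846) (nat_lit 0) (nat_lit 0) (XT.nd (nat_lit 376) (nat_lit 0) (nat_lit 0) (XT.nd (nat_lit 188) (nat_lit 0) (nat_lit 0) (XT.nd (nat_lit 94) (nat_lit 0) (nat_lit 0) (XT.lf (nat_lit 0) (nat_lit 9264260696) (nat_lit 0) (nat_lit 0) (nat_lit 0) (nat_lit 0) (nat_lit 0) (nat_lit 0) (nat_lit 1) (nat_lit 0) (nat_lit 1) (nat_lit 0) (nat_lit 423) (nat_lit 388) (nat_lit 269)) (XT.lf (nat_lit 0) (nat_lit 9264188418) (nat_lit 0) (nat_lit 0) (nat_lit 0) (nat_lit 0) (nat_lit 0) (nat_lit 0) (nat_lit 1) (nat_lit 0) (nat_lit 1) (nat_lit 0) (nat_lit 424) (nat_lit 388) (nat_lit 268))) (XT.nd (nat_lit 94) (nat_lit 0) (nat_lit 0) (XT.lf (nat_lit 0) (nat_lit 9264121494) (nat_lit 0) (nat_lit 0) (nat_lit 0) (nat_lit 0) (nat_lit 0) (nat_lit 0) (nat_lit 1) (nat_lit 0) (nat_lit 1) (nat_lit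 0) (nat_lit 425) (nat_lit 388) (nat_lit 267)) (XT.lf (nat_lit 0) (nat_lit 9264059528) (nat_lit 0) (nat_lit 0) (nat_lit 0) (nat_lit 0) (nat_lit 0) (nat_lit 0) (nat_lit 1) (nat_lit 0) (nat_lit 1) (nat_lit 0) (nat_lit 426) (nat_lit 388) (nat_lit 266)))) (XT.nd (nat_lit 188) (nat_lit 0) (nat_lit 0) (XT.nd (nat_lit 94) (nat_lit 0) (nat_lit 0) (XT.lf (nat_lit 0) (nat_lit 9264002151) (nat_lit 0) (nat_lit 0) (nat_lit 0) (nat_lit 0) (nat_lit 0) (nat_lit 0) (nat_lit 1) (nat_lit 0) (nat_lit 1) (nat_lit 0) (nat_lit 427) (nat_lit 388) (nat_lit 265)) (XT.lf (nat_lit 0) (nat_lit 9263949025) (nat_lit 0) (nat_lit 0) (nat_lit 0) (nat_lit 0) (nat_lit 0) (nat_lit 0) (nat_lit 1) (nat_lit 0) (nat_lit 1) (nat_lit 0) (nat_lit 428) (nat_lit 388) (nat_lit 264))) (XT.nd (nat_lit 94) (nat_lit 0) (nat_lit 0) (XT.lf (nat_lit 0) (nat_lit 9263899834) (nat_lit 0) (nat_lit 0) (nat_lit 0) (nat_lit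 0) (nat_lit 0) (nat_lit 0) (nat_lit 1) (nat_lit 0) (nat_lit 1) (nat_lit 0) (nat_lit 429) (nat_lit 388) (nat_lit 263)) (XT.nd (nat_lit 94) (nat_lit 0) (nat_lit 0) (XT.lf (nat_lit 0) (nat_lit 9263854287) (nat_lit 0) (nat_lit 0) (nat_lit 0) (nat_lit 0) (nat_lit 0) (nat_lit 0) (nat_lit 1) (nat_lit 0) (nat_lit 1) (nat_lit 0) (nat_lit 430) (nat_lit 388) (nat_lit 262)) (XT.lf (nat_lit 0) (nat_lit 9263812113) (nat_lit 0) (nat_lit 0) (nat_lit 0) (nat_lit 0) (nat_lit 0) (nat_lit 0) (nat_lit 1) (nat_lit 0) (nat_lit 1) (nat_lit 0) (nat_lit 431) (nat_lit 388) (nat_lit 261)))))) (XT.nd (nat_lit 376) (nat_lit 0) (nat_lit 0) (XT.nd (nat_lit 188) (nat_lit 0) (nat_lit 0) (XT.nd (nat_lit 94) (nat_lit 0) (nat_lit 0) (XT.lf (nat_lit 0) (nat_lit 9263773064) (nat_lit 0) (nat_lit 0) (nat_lit 0) (nat_lit 0) (nat_lit 0) (nat_lit 0) (nat_lit 1) (nat_lit 0) (nat_lit 1) (nat_lit 0) (nat_lit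 432) (nat_lit 388) (nat_lit 260)) (XT.lf (nat_lit 0) (nat_lit 9263736907) (nat_lit 0) (nat_lit 0) (nat_lit 0) (nat_lit 0) (nat_lit 0) (nat_lit 0) (nat_lit 1) (nat_lit 0) (nat_lit 1) (nat_lit 0) (nat_lit 433) (nat_lit 388) (nat_lit 259))) (XT.nd (nat_lit 94) (nat_lit 0) (nat_lit 0) (XT.lf (nat_lit 0) (nat_lit 9263703429) (nat_lit 0) (nat_lit 0) (nat_lit 0) (nat_lit 0) (nat_lit 0) (nat_lit 0) (nat_lit 1) (nat_lit 0) (nat_lit 1) (nat_lit 0) (nat_lit 434) (nat_lit 388) (nat_lit 258)) (XT.lf (nat_lit 0) (nat_lit 9263672430) (nat_lit 0) (nat_lit 0) (nat_lit 0) (nat_lit 0) (nat_lit 0) (nat_lit 0) (nat_lit 1) (nat_lit 0) (nat_lit 1) (nat_lit 0) (nat_lit 435) (nat_lit 388) (nat_lit 257)))) (XT.nd (nat_lit 188) (nat_lit 0) (nat_lit 0) (XT.nd (nat_lit 94) (nat_lit 0) (nat_lit 0) (XT.lf (nat_lit 0) (nat_lit 9263643727) (nat_lit 0) (nat_lit 0) (nat_lit 0) (nat_lit 0) (nat_lit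 0) (nat_lit 0) (nat_lit 1) (nat_lit 0) (nat_lit 1) (nat_lit 0) (nat_lit 436) (nat_lit 388) (nat_lit 256)) (XT.lf (nat_lit 0) (nat_lit 9263617151) (nat_lit 0) (nat_lit 0) (nat_lit 0) (nat_lit 0) (nat_lit 0) (nat_lit 0) (nat_lit 1) (nat_lit 0) (nat_lit 1) (nat_lit 0) (nat_lit 437) (nat_lit 388) (nat_lit 255))) (XT.nd (nat_lit 54990) (nat_lit 0) (nat_lit 10752) (XT.lf (nat_lit 0) (nat_lit 9263592543) (nat_lit 0) (nat_lit 0) (nat_lit 0) (nat_lit 0) (nat_lit 0) (nat_lit 0) (nat_lit 1) (nat_lit 0) (nat_lit 1) (nat_lit 0) (nat_lit 438) (nat_lit 388) (nat_lit 254)) (XT.nd (nat_lit 94) (nat_lit 0) (nat_lit 84) (XT.lf (nat_lit 924) (nat_lit 5006550349) (nat_lit 0) (nat_lit 8889118637) (nat_lit 924) (nat_lit 5006550349) (nat_lit 139) (nat_lit 1) (nat_lit 128) (nat_lit 0) (nat_lit 139) (nat_lit 0) (nat_lit 302) (nat_lit 389) (nat_lit 389)) (XT.lf (nat_lit 924) (nat_lit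 1867596901) (nat_lit 0) (nat_lit 17452033965) (nat_lit 840) (nat_lit 17068030912) (nat_lit 140) (nat_lit 1) (nat_lit 129) (nat_lit 1) (nat_lit 139) (nat_lit 1) (nat_lit 303) (nat_lit 389) (nat_lit 388))))))) (XT.nd (nat_lit 846) (nat_lit 2940) (nat_lit 0) (XT.nd (nat_lit 376) (nat_lit 1932) (nat_lit 0) (XT.nd (nat_lit 188) (nat_lit 0) (nat_lit 168) (XT.nd (nat_lit 94) (nat_lit 0) (nat_lit 84) (XT.lf (nat_lit 924) (nat_lit 17152799552) (nat_lit 84) (nat_lit 11687633029) (nat_lit 0) (nat_lit 6198587414) (nat_lit 140) (nat_lit 1) (nat_lit 130) (nat_lit 1) (nat_lit 129) (nat_lit 1) (nat_lit 304) (nat_lit 389) (nat_lit 387)) (XT.lf (nat_lit 924) (nat_lit 14821423990) (nat_lit 84) (nat_lit 4898205991) (nat_lit 0) (nat_lit 14038237685) (nat_lit 141) (nat_lit 1) (nat_lit 131) (nat_lit 1) (nat_lit 130) (nat_lit 1) (nat_lit 305) (nat_lit 389) (nat_lit 386))) (XT.nd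 (nat_lit 94) (nat_lit 0) (nat_lit 84) (XT.lf (nat_lit 924) (nat_lit 10969113826) (nat_lit 0) (nat_lit 20522693482) (nat_lit 840) (nat_lit 1049117158) (nat_lit 142) (nat_lit 1) (nat_lit 131) (nat_lit 1) (nat_lit 141) (nat_lit 1) (nat_lit 306) (nat_lit 389) (nat_lit 385)) (XT.lf (nat_lit 924) (nat_lit 2631931313) (nat_lit 0) (nat_lit 22631970989) (nat_lit 840) (nat_lit 6118196520) (nat_lit 143) (nat_lit 1) (nat_lit 132) (nat_lit 1) (nat_lit 142) (nat_lit 1) (nat_lit 307) (nat_lit 389) (nat_lit 384)))) (XT.nd (nat_lit 188) (nat_lit 1428) (nat_lit 0) (XT.nd (nat_lit 94) (nat_lit 756) (nat_lit 0) (XT.lf (nat_lit 924) (nat_lit 5057501487) (nat_lit 84) (nat_lit 19669025790) (nat_lit 0) (nat_lit 5550841747) (nat_lit 143) (nat_lit 1) (nat_lit 133) (nat_lit 1) (nat_lit 132) (nat_lit 1) (nat_lit 308) (nat_lit 389) (nat_lit 383)) (XT.lf (nat_lit 924) (nat_lit 1038695479)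 (nat_lit 0) (nat_lit 14703897834) (nat_lit 840) (nat_lit 13483320249) (nat_lit 134) (nat_lit 1) (nat_lit 123) (nat_lit 1) (nat_lit 133) (nat_lit 1) (nat_lit 309) (nat_lit 389) (nat_lit 382))) (XT.nd (nat_lit 94) (nat_lit 840) (nat_lit 0) (XT.lf (nat_lit 84) (nat_lit 7192143865) (nat_lit 0) (nat_lit 3116690632) (nat_lit 588) (nat_lit 17915409002) (nat_lit 117) (nat_lit 1) (nat_lit 116) (nat_lit 1) (nat_lit 123) (nat_lit 1) (nat_lit 310) (nat_lit 389) (nat_lit 381)) (XT.nd (nat_lit 94) (nat_lit 420) (nat_lit 0) (XT.lf (nat_lit 504) (nat_lit 19820643241) (nat_lit 0) (nat_lit 6452046673) (nat_lit 420) (nat_lit 997526282) (nat_lit 117) (nat_lit 1) (nat_lit 111) (nat_lit 1) (nat_lit 116) (nat_lit 1) (nat_lit 311) (nat_lit 389) (nat_lit 380)) (XT.lf (nat_lit 504) (nat_lit 14302764909) (nat_lit 0) (nat_lit 3007326747) (nat_lit 420) (nat_lit 9047118706) (nat_lit 112)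 (nat_lit 1) (nat_lit 106) (nat_lit 1) (nat_lit 111) (nat_lit 1) (nat_lit 312) (nat_lit 389) (nat_lit 379)))))) (XT.nd (nat_lit 470) (nat_lit 1512) (nat_lit 0) (XT.nd (nat_lit 188) (nat_lit 1092) (nat_lit 0) (XT.nd (nat_lit 94) (nat_lit 0) (nat_lit 0) (XT.lf (nat_lit 420) (nat_lit 8703050031) (nat_lit 0) (nat_lit 55369772) (nat_lit 336) (nat_lit 16730054393) (nat_lit 107) (nat_lit 1) (nat_lit 102) (nat_lit 1) (nat_lit 106) (nat_lit 1) (nat_lit 313) (nat_lit 389) (nat_lit 378)) (XT.lf (nat_lit 84) (nat_lit 642069900) (nat_lit 0) (nat_lit 21653708257) (nat_lit 420) (nat_lit 2363923286) (nat_lit 103) (nat_lit 1) (nat_lit 102) (nat_lit 1) (nat_lit 107) (nat_lit 1) (nat_lit 314) (nat_lit 389) (nat_lit 377))) (XT.nd (nat_lit 94) (nat_lit 672) (nat_lit 0) (XT.lf (nat_lit 84) (nat_lit 16578411371) (nat_lit 0) (nat_lit 2749706913) (nat_lit 420) (nat_lit 4534766085)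 (nat_lit 98) (nat_lit 1) (nat_lit 97) (nat_lit 1) (nat_lit 102) (nat_lit 1) (nat_lit 315) (nat_lit 389) (nat_lit 376)) (XT.nd (nat_lit 94) (nat_lit 336) (nat_lit 0) (XT.lf (nat_lit 84) (nat_lit 8294599317) (nat_lit 0) (nat_lit 8422840395) (nat_lit 420) (nat_lit 6383835026) (nat_lit 94) (nat_lit 1) (nat_lit 93) (nat_lit 1) (nat_lit 98) (nat_lit 1) (nat_lit 316) (nat_lit 389) (nat_lit 375)) (XT.lf (nat_lit 84) (nat_lit 409403029) (nat_lit 0) (nat_lit 14082858352) (nat_lit 420) (nat_lit 7883463423) (nat_lit 90) (nat_lit 1) (nat_lit 89) (nat_lit 1) (nat_lit 94) (nat_lit 1) (nat_lit 317) (nat_lit 389) (nat_lit 374))))) (XT.nd (nat_lit 188) (nat_lit 840) (nat_lit 0) (XT.nd (nat_lit 94) (nat_lit 420) (nat_lit 0) (XT.lf (nat_lit 336) (nat_lit 1848841006) (nat_lit 0) (nat_lit 12502826744) (nat_lit 252) (nat_lit 7326943818) (nat_lit 90) (nat_lit 1) (nat_lit 86) (nat_lit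 1) (nat_lit 89) (nat_lit 1) (nat_lit 318) (nat_lit 389) (nat_lit 373)) (XT.lf (nat_lit 84) (nat_lit 6388242756) (nat_lit 0) (nat_lit 4378541280) (nat_lit 420) (nat_lit 10243513307) (nat_lit 82) (nat_lit 1) (nat_lit 81) (nat_lit 1) (nat_lit 86) (nat_lit 1) (nat_lit 319) (nat_lit 389) (nat_lit 372))) (XT.nd (nat_lit 94) (nat_lit 588) (nat_lit 0) (XT.lf (nat_lit 336) (nat_lit 9890536359) (nat_lit 0) (nat_lit 9290880587) (nat_lit 252) (nat_lit 1189221688) (nat_lit 82) (nat_lit 1) (nat_lit 78) (nat_lit 1) (nat_lit 81) (nat_lit 1) (nat_lit 320) (nat_lit 389) (nat_lit 371)) (XT.nd (nat_lit 94) (nat_lit 336) (nat_lit 0) (XT.lf (nat_lit 336) (nat_lit 3169869121) (nat_lit 0) (nat_lit 7999067728) (nat_lit 252) (nat_lit 8586625339) (nat_lit 79) (nat_lit 1) (nat_lit 75) (nat_lit 1) (nat_lit 78) (nat_lit 1) (nat_lit 321) (nat_lit 389) (nat_lit 370)) (XT.lf (nat_lit 84)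 (nat_lit 3612884855) (nat_lit 0) (nat_lit 3307910052) (nat_lit 336) (nat_lit 12245236117) (nat_lit 72) (nat_lit 1) (nat_lit 71) (nat_lit 1) (nat_lit 75) (nat_lit 1) (nat_lit 322) (nat_lit 389) (nat_lit 369))))))))
noncomputable def ec107 : XT := (XT.nd (nat_lit 1786) (nat_lit 2352) (nat_lit 0) (XT.nd (nat_lit 846) (nat_lit 1680) (nat_lit 0) (XT.nd (nat_lit 376) (nat_lit 1008) (nat_lit 0) (XT.nd (nat_lit 188) (nat_lit 504) (nat_lit 0) (XT.nd (nat_lit 94) (nat_lit 168) (nat_lit 0) (XT.lf (nat_lit 336) (nat_lit 8990189773) (nat_lit 0) (nat_lit 5981739124) (nat_lit 252) (nat_lit 3626149924) (nat_lit 72) (nat_lit 1) (nat_lit 68) (nat_lit 1) (nat_lit 71) (nat_lit 1) (nat_lit 323) (nat_lit 389) (nat_lit 368)) (XT.lf (nat_lit 252) (nat_lit 2228681319) (nat_lit 0) (nat_lit 5218631077) (nat_lit 168) (nat_lit 10605727000) (nat_lit 69) (nat_lit 1) (nat_lit 66) (nat_lit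 1) (nat_lit 68) (nat_lit 1) (nat_lit 324) (nat_lit 389) (nat_lit 367))) (XT.nd (nat_lit 94) (nat_lit 168) (nat_lit 0) (XT.lf (nat_lit 84) (nat_lit 377552854) (nat_lit 0) (nat_lit 4224898399) (nat_lit 336) (nat_lit 12926675881) (nat_lit 63) (nat_lit 1) (nat_lit 62) (nat_lit 1) (nat_lit 66) (nat_lit 1) (nat_lit 325) (nat_lit 389) (nat_lit 366)) (XT.lf (nat_lit 252) (nat_lit 6476138980) (nat_lit 0) (nat_lit 4047031275) (nat_lit 168) (nat_lit 6498676009) (nat_lit 63) (nat_lit 1) (nat_lit 60) (nat_lit 1) (nat_lit 62) (nat_lit 1) (nat_lit 326) (nat_lit 389) (nat_lit 365)))) (XT.nd (nat_lit 188) (nat_lit 588) (nat_lit 0) (XT.nd (nat_lit 94) (nat_lit 168) (nat_lit 0) (XT.lf (nat_lit 84) (nat_lit 3513682371) (nat_lit 0) (nat_lit 162299191) (nat_lit 252) (nat_lit 12860719821) (nat_lit 58) (nat_lit 1) (nat_lit 57) (nat_lit 1) (nat_lit 60) (nat_lit 1) (nat_lit 327) (nat_lit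 389) (nat_lit 364)) (XT.lf (nat_lit 252) (nat_lit 9605729094) (nat_lit 0) (nat_lit 3328600509) (nat_lit 168) (nat_lit 3131339418) (nat_lit 58) (nat_lit 1) (nat_lit 55) (nat_lit 1) (nat_lit 57) (nat_lit 1) (nat_lit 328) (nat_lit 389) (nat_lit 363))) (XT.nd (nat_lit 94) (nat_lit 420) (nat_lit 0) (XT.lf (nat_lit 252) (nat_lit 2983924385) (nat_lit 0) (nat_lit 3094302256) (nat_lit 168) (nat_lit 9534419648) (nat_lit 56) (nat_lit 1) (nat_lit 53) (nat_lit 1) (nat_lit 55) (nat_lit 1) (nat_lit 329) (nat_lit 389) (nat_lit 362)) (XT.nd (nat_lit 94) (nat_lit 168) (nat_lit 0) (XT.lf (nat_lit 252) (nat_lit 11845083186) (nat_lit 0) (nat_lit 2956354656) (nat_lit 168) (nat_lit 375047886) (nat_lit 53) (nat_lit 1) (nat_lit 50) (nat_lit 1) (nat_lit 52) (nat_lit 1) (nat_lit 330) (nat_lit 389) (nat_lit 361)) (XT.lf (nat_lit 252) (nat_lit 5301310261) (nat_lit 0) (nat_lit 2822321971)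 (nat_lit 168) (nat_lit 6628812462) (nat_lit 51) (nat_lit 1) (nat_lit 48) (nat_lit 1) (nat_lit 50) (nat_lit 1) (nat_lit 331) (nat_lit 389) (nat_lit 360)))))) (XT.nd (nat_lit 470) (nat_lit 924) (nat_lit 0) (XT.nd (nat_lit 188) (nat_lit 420) (nat_lit 0) (XT.nd (nat_lit 94) (nat_lit 168) (nat_lit 0) (XT.lf (nat_lit 84) (nat_lit 1815903442) (nat_lit 0) (nat_lit 998102358) (nat_lit 168) (nat_lit 11531985985) (nat_lit 47) (nat_lit 1) (nat_lit 46) (nat_lit 1) (nat_lit 48) (nat_lit 1) (nat_lit 332) (nat_lit 389) (nat_lit 359)) (XT.lf (nat_lit 252) (nat_lit 6955623944) (nat_lit 0) (nat_lit 2784208612) (nat_lit 168) (nat_lit 4209962774) (nat_lit 47) (nat_lit 1) (nat_lit 44) (nat_lit 1) (nat_lit 46) (nat_lit 1) (nat_lit 333) (nat_lit 389) (nat_lit 358))) (XT.nd (nat_lit 94) (nat_lit 336) (nat_lit 0) (XT.lf (nat_lit 168) (nat_lit 749021860) (nat_lit 0) (nat_lit 2852592373)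 (nat_lit 84) (nat_lit 9967625967) (nat_lit 45) (nat_lit 1) (nat_lit 43) (nat_lit 1) (nat_lit 44) (nat_lit 1) (nat_lit 334) (nat_lit 389) (nat_lit 357)) (XT.nd (nat_lit 94) (nat_lit 84) (nat_lit 0) (XT.lf (nat_lit 252) (nat_lit 8085414450) (nat_lit 0) (nat_lit 2917440774) (nat_lit 168) (nat_lit 2196322927) (nat_lit 43) (nat_lit 1) (nat_lit 40) (nat_lit 1) (nat_lit 42) (nat_lit 1) (nat_lit 335) (nat_lit 389) (nat_lit 356)) (XT.lf (nat_lit 168) (nat_lit 2033541355) (nat_lit 0) (nat_lit 3026526824) (nat_lit 84) (nat_lit 7781519756) (nat_lit 41) (nat_lit 1) (nat_lit 39) (nat_lit 1) (nat_lit 40) (nat_lit 1) (nat_lit 336) (nat_lit 389) (nat_lit 355))))) (XT.nd (nat_lit 188) (nat_lit 588) (nat_lit 0) (XT.nd (nat_lit 94) (nat_lit 84) (nat_lit 0) (XT.lf (nat_lit 252) (nat_lit 8802700426) (nat_lit 0) (nat_lit 3172497108) (nat_lit 168) (nat_lit 520633933) (nat_lit 39)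 (nat_lit 1) (nat_lit 36) (nat_lit 1) (nat_lit 38) (nat_lit 1) (nat_lit 337) (nat_lit 389) (nat_lit 354)) (XT.lf (nat_lit 168) (nat_lit 2926544996) (nat_lit 0) (nat_lit 3307366357) (nat_lit 84) (nat_lit 5925432455) (nat_lit 37) (nat_lit 1) (nat_lit 35) (nat_lit 1) (nat_lit 36) (nat_lit 1) (nat_lit 338) (nat_lit 389) (nat_lit 353))) (XT.nd (nat_lit 94) (nat_lit 336) (nat_lit 0) (XT.lf (nat_lit 84) (nat_lit 844717351) (nat_lit 0) (nat_lit 2651342598) (nat_lit 252) (nat_lit 8338884541) (nat_lit 33) (nat_lit 1) (nat_lit 32) (nat_lit 1) (nat_lit 35) (nat_lit 1) (nat_lit 339) (nat_lit 389) (nat_lit 352)) (XT.nd (nat_lit 94) (nat_lit 252) (nat_lit 0) (XT.lf (nat_lit 168) (nat_lit 3512118037) (nat_lit 0) (nat_lit 3659460524) (nat_lit 84) (nat_lit 4347022869) (nat_lit 33) (nat_lit 1) (nat_lit 31) (nat_lit 1) (nat_lit 32) (nat_lit 1) (nat_lit 340) (nat_lit 389) (nat_lit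 351)) (XT.lf (nat_lit 84) (nat_lit 1964498029) (nat_lit 0) (nat_lit 1902749180) (nat_lit 252) (nat_lit 7346128230) (nat_lit 29) (nat_lit 1) (nat_lit 28) (nat_lit 1) (nat_lit 31) (nat_lit 1) (nat_lit 341) (nat_lit 389) (nat_lit 350))))))) (XT.nd (nat_lit 846) (nat_lit 1260) (nat_lit 0) (XT.nd (nat_lit 376) (nat_lit 588) (nat_lit 0) (XT.nd (nat_lit 188) (nat_lit 252) (nat_lit 0) (XT.nd (nat_lit 94) (nat_lit 168) (nat_lit 0) (XT.lf (nat_lit 168) (nat_lit 3858069544) (nat_lit 0) (nat_lit 4054980126) (nat_lit 84) (nat_lit 3002898187) (nat_lit 29) (nat_lit 1) (nat_lit 27) (nat_lit 1) (nat_lit 28) (nat_lit 1) (nat_lit 342) (nat_lit 389) (nat_lit 349)) (XT.lf (nat_lit 84) (nat_lit 2892195370) (nat_lit 0) (nat_lit 1378079344) (nat_lit 168) (nat_lit 6358068223) (nat_lit 26) (nat_lit 1) (nat_lit 25) (nat_lit 1) (nat_lit 27) (nat_lit 1) (nat_lit 343) (nat_lit 389) (nat_lit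 348))) (XT.nd (nat_lit 94) (nat_lit 168) (nat_lit 0) (XT.lf (nat_lit 168) (nat_lit 4018973717) (nat_lit 0) (nat_lit 4472392888) (nat_lit 84) (nat_lit 1857017770) (nat_lit 26) (nat_lit 1) (nat_lit 24) (nat_lit 1) (nat_lit 25) (nat_lit 1) (nat_lit 344) (nat_lit 389) (nat_lit 347)) (XT.lf (nat_lit 84) (nat_lit 3658358231) (nat_lit 0) (nat_lit 1028065159) (nat_lit 168) (nat_lit 5390613655) (nat_lit 23) (nat_lit 1) (nat_lit 22) (nat_lit 1) (nat_lit 24) (nat_lit 1) (nat_lit 345) (nat_lit 389) (nat_lit 346)))) (XT.nd (nat_lit 188) (nat_lit 336) (nat_lit 0) (XT.nd (nat_lit 94) (nat_lit 168) (nat_lit 0) (XT.lf (nat_lit 168) (nat_lit 4038649756) (nat_lit 0) (nat_lit 4895224621) (nat_lit 84) (nat_lit 879386861) (nat_lit 23) (nat_lit 1) (nat_lit 21) (nat_lit 1) (nat_lit 22) (nat_lit 1) (nat_lit 346) (nat_lit 389) (nat_lit 345)) (XT.lf (nat_lit 84) (nat_lit 4288376124)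 (nat_lit 0) (nat_lit 813090632) (nat_lit 168) (nat_lit 4455500111) (nat_lit 20) (nat_lit 1) (nat_lit 19) (nat_lit 1) (nat_lit 21) (nat_lit 1) (nat_lit 347) (nat_lit 389) (nat_lit 344))) (XT.nd (nat_lit 94) (nat_lit 252) (nat_lit 0) (XT.lf (nat_lit 168) (nat_lit 3952183509) (nat_lit 0) (nat_lit 5311053138) (nat_lit 84) (nat_lit 44987194) (nat_lit 20) (nat_lit 1) (nat_lit 18) (nat_lit 1) (nat_lit 19) (nat_lit 1) (nat_lit 348) (nat_lit 389) (nat_lit 343)) (XT.nd (nat_lit 94) (nat_lit 84) (nat_lit 0) (XT.lf (nat_lit 84) (nat_lit 4803392465) (nat_lit 0) (nat_lit 701379376) (nat_lit 168) (nat_lit 3561140129) (nat_lit 17) (nat_lit 1) (nat_lit 16) (nat_lit 1) (nat_lit 18) (nat_lit 1) (nat_lit 349) (nat_lit 389) (nat_lit 342)) (XT.lf (nat_lit 0) (nat_lit 645747463) (nat_lit 0) (nat_lit 5054008356) (nat_lit 168) (nat_lit 3130891659) (nat_lit 15) (nat_lit 3) (nat_lit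 15) (nat_lit 1) (nat_lit 17) (nat_lit 1) (nat_lit 350) (nat_lit 389) (nat_lit 341)))))) (XT.nd (nat_lit 470) (nat_lit 588) (nat_lit 0) (XT.nd (nat_lit 188) (nat_lit 420) (nat_lit 0) (XT.nd (nat_lit 94) (nat_lit 84) (nat_lit 0) (XT.lf (nat_lit 84) (nat_lit 5221052520) (nat_lit 0) (nat_lit 667517469) (nat_lit 168) (nat_lit 2713312236) (nat_lit 14) (nat_lit 1) (nat_lit 13) (nat_lit 1) (nat_lit 15) (nat_lit 1) (nat_lit 351) (nat_lit 389) (nat_lit 340)) (XT.lf (nat_lit 0) (nat_lit 1233616552) (nat_lit 0) (nat_lit 4833019593) (nat_lit 168) (nat_lit 2312573361) (nat_lit 12) (nat_lit 3) (nat_lit 12) (nat_lit 1) (nat_lit 14) (nat_lit 1) (nat_lit 352) (nat_lit 389) (nat_lit 339))) (XT.nd (nat_lit 94) (nat_lit 252) (nat_lit 0) (XT.lf (nat_lit 84) (nat_lit 5556116226) (nat_lit 0) (nat_lit 691249805) (nat_lit 168) (nat_lit 1915718492) (nat_lit 11) (nat_lit 1) (nat_lit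 10) (nat_lit 1) (nat_lit 12) (nat_lit 1) (nat_lit 353) (nat_lit 389) (nat_lit 338)) (XT.nd (nat_lit 94) (nat_lit 168) (nat_lit 0) (XT.lf (nat_lit 0) (nat_lit 1734327585) (nat_lit 0) (nat_lit 4673287544) (nat_lit 168) (nat_lit 1544611667) (nat_lit 9) (nat_lit 3) (nat_lit 9) (nat_lit 1) (nat_lit 11) (nat_lit 1) (nat_lit 354) (nat_lit 389) (nat_lit 337)) (XT.lf (nat_lit 84) (nat_lit 5820960544) (nat_lit 0) (nat_lit 756499634) (nat_lit 168) (nat_lit 1170434970) (nat_lit 8) (nat_lit 1) (nat_lit 7) (nat_lit 1) (nat_lit 9) (nat_lit 1) (nat_lit 355) (nat_lit 389) (nat_lit 336))))) (XT.nd (nat_lit 188) (nat_lit 336) (nat_lit 0) (XT.nd (nat_lit 94) (nat_lit 168) (nat_lit 0) (XT.lf (nat_lit 0) (nat_lit 2159909626) (nat_lit 0) (nat_lit 4559609116) (nat_lit 168) (nat_lit 828622135) (nat_lit 6) (nat_lit 3) (nat_lit 6) (nat_lit 1) (nat_lit 8) (nat_lit 1) (nat_lit 356) (nat_lit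 389) (nat_lit 335)) (XT.lf (nat_lit 84) (nat_lit 6025991492) (nat_lit 0) (nat_lit 850570171) (nat_lit 168) (nat_lit 478275120) (nat_lit 5) (nat_lit 1) (nat_lit 4) (nat_lit 1) (nat_lit 6) (nat_lit 1) (nat_lit 357) (nat_lit 389) (nat_lit 334))) (XT.nd (nat_lit 94) (nat_lit 252) (nat_lit 0) (XT.lf (nat_lit 0) (nat_lit 2520536396) (nat_lit 0) (nat_lit 4479922614) (nat_lit 168) (nat_lit 165072606) (nat_lit 3) (nat_lit 3) (nat_lit 3) (nat_lit 1) (nat_lit 5) (nat_lit 1) (nat_lit 358) (nat_lit 389) (nat_lit 333)) (XT.nd (nat_lit 94) (nat_lit 0) (nat_lit 0) (XT.lf (nat_lit 0) (nat_lit 10128809152) (nat_lit 0) (nat_lit 0) (nat_lit 0) (nat_lit 0) (nat_lit 0) (nat_lit 0) (nat_lit 1) (nat_lit 0) (nat_lit 1) (nat_lit 0) (nat_lit 359) (nat_lit 389) (nat_lit 332)) (XT.lf (nat_lit 0) (nat_lit 10119589789) (nat_lit 0) (nat_lit 0) (nat_lit 0) (nat_lit 0) (nat_lit 0) (nat_lit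 0) (nat_lit 1) (nat_lit 0) (nat_lit 1) (nat_lit 0) (nat_lit 360) (nat_lit 389) (nat_lit 331))))))))
noncomputable def ec108 : XT := (XT.nd (nat_lit 1692) (nat_lit 0) (nat_lit 0) (XT.nd (nat_lit 846) (nat_lit 0) (nat_lit 0) (XT.nd (nat_lit 376) (nat_lit 0) (nat_lit 0) (XT.nd (nat_lit 188) (nat_lit 0) (nat_lit 0) (XT.nd (nat_lit 94) (nat_lit 0) (nat_lit 0) (XT.lf (nat_lit 0) (nat_lit 10111053341) (nat_lit 0) (nat_lit 0) (nat_lit 0) (nat_lit 0) (nat_lit 0) (nat_lit 0) (nat_lit 1) (nat_lit 0) (nat_lit 1) (nat_lit 0) (nat_lit 361) (nat_lit 389) (nat_lit 330)) (XT.lf (nat_lit 0) (nat_lit 10103149222) (nat_lit 0) (nat_lit 0) (nat_lit 0) (nat_lit 0) (nat_lit 0) (nat_lit 0) (nat_lit 1) (nat_lit 0) (nat_lit 1) (nat_lit 0) (nat_lit 362) (nat_lit 389) (nat_lit 329))) (XT.nd (nat_lit 94) (nat_lit 0) (nat_lit 0) (XT.lf (nat_lit 0) (nat_lit 10095830594) (nat_lit 0) (nat_lit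 0) (nat_lit 0) (nat_lit 0) (nat_lit 0) (nat_lit 0) (nat_lit 1) (nat_lit 0) (nat_lit 1) (nat_lit 0) (nat_lit 363) (nat_lit 389) (nat_lit 328)) (XT.lf (nat_lit 0) (nat_lit 10089054087) (nat_lit 0) (nat_lit 0) (nat_lit 0) (nat_lit 0) (nat_lit 0) (nat_lit 0) (nat_lit 1) (nat_lit 0) (nat_lit 1) (nat_lit 0) (nat_lit 364) (nat_lit 389) (nat_lit 327)))) (XT.nd (nat_lit 188) (nat_lit 0) (nat_lit 0) (XT.nd (nat_lit 94) (nat_lit 0) (nat_lit 0) (XT.lf (nat_lit 0) (nat_lit 10082779543) (nat_lit 0) (nat_lit 0) (nat_lit 0) (nat_lit 0) (nat_lit 0) (nat_lit 0) (nat_lit 1) (nat_lit 0) (nat_lit 1) (nat_lit 0) (nat_lit 365) (nat_lit 389) (nat_lit 326)) (XT.lf (nat_lit 0) (nat_lit 10076969780) (nat_lit 0) (nat_lit 0) (nat_lit 0) (nat_lit 0) (nat_lit 0) (nat_lit 0) (nat_lit 1) (nat_lit 0) (nat_lit 1) (nat_lit 0) (nat_lit 366) (nat_lit 389) (nat_lit 325))) (XT.nd (nat_lit 94) (nat_lit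 0) (nat_lit 0) (XT.lf (nat_lit 0) (nat_lit 10071590369) (nat_lit 0) (nat_lit 0) (nat_lit 0) (nat_lit 0) (nat_lit 0) (nat_lit 0) (nat_lit 1) (nat_lit 0) (nat_lit 1) (nat_lit 0) (nat_lit 367) (nat_lit 389) (nat_lit 324)) (XT.nd (nat_lit 94) (nat_lit 0) (nat_lit 0) (XT.lf (nat_lit 0) (nat_lit 10066609434) (nat_lit 0) (nat_lit 0) (nat_lit 0) (nat_lit 0) (nat_lit 0) (nat_lit 0) (nat_lit 1) (nat_lit 0) (nat_lit 1) (nat_lit 0) (nat_lit 368) (nat_lit 389) (nat_lit 323)) (XT.lf (nat_lit 0) (nat_lit 10061997457) (nat_lit 0) (nat_lit 0) (nat_lit 0) (nat_lit 0) (nat_lit 0) (nat_lit 0) (nat_lit 1) (nat_lit 0) (nat_lit 1) (nat_lit 0) (nat_lit 369) (nat_lit 389) (nat_lit 322)))))) (XT.nd (nat_lit 376) (nat_lit 0) (nat_lit 0) (XT.nd (nat_lit 188) (nat_lit 0) (nat_lit 0) (XT.nd (nat_lit 94) (nat_lit 0) (nat_lit 0) (XT.lf (nat_lit 0) (nat_lit 10057727108) (nat_lit 0) (nat_lit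 0) (nat_lit 0) (nat_lit 0) (nat_lit 0) (nat_lit 0) (nat_lit 1) (nat_lit 0) (nat_lit 1) (nat_lit 0) (nat_lit 370) (nat_lit 389) (nat_lit 321)) (XT.lf (nat_lit 0) (nat_lit 10053773081) (nat_lit 0) (nat_lit 0) (nat_lit 0) (nat_lit 0) (nat_lit 0) (nat_lit 0) (nat_lit 1) (nat_lit 0) (nat_lit 1) (nat_lit 0) (nat_lit 371) (nat_lit 389) (nat_lit 320))) (XT.nd (nat_lit 94) (nat_lit 0) (nat_lit 0) (XT.lf (nat_lit 0) (nat_lit 10050111944) (nat_lit 0) (nat_lit 0) (nat_lit 0) (nat_lit 0) (nat_lit 0) (nat_lit 0) (nat_lit 1) (nat_lit 0) (nat_lit 1) (nat_lit 0) (nat_lit 372) (nat_lit 389) (nat_lit 319)) (XT.lf (nat_lit 0) (nat_lit 10046722004) (nat_lit 0) (nat_lit 0) (nat_lit 0) (nat_lit 0) (nat_lit 0) (nat_lit 0) (nat_lit 1) (nat_lit 0) (nat_lit 1) (nat_lit 0) (nat_lit 373) (nat_lit 389) (nat_lit 318)))) (XT.nd (nat_lit 188) (nat_lit 0) (nat_lit 0) (XT.nd (nat_lit 94) (nat_lit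 0) (nat_lit 0) (XT.lf (nat_lit 0) (nat_lit 10043583169) (nat_lit 0) (nat_lit 0) (nat_lit 0) (nat_lit 0) (nat_lit 0) (nat_lit 0) (nat_lit 1) (nat_lit 0) (nat_lit 1) (nat_lit 0) (nat_lit 374) (nat_lit 389) (nat_lit 317)) (XT.lf (nat_lit 0) (nat_lit 10040676841) (nat_lit 0) (nat_lit 0) (nat_lit 0) (nat_lit 0) (nat_lit 0) (nat_lit 0) (nat_lit 1) (nat_lit 0) (nat_lit 1) (nat_lit 0) (nat_lit 375) (nat_lit 389) (nat_lit 316))) (XT.nd (nat_lit 94) (nat_lit 0) (nat_lit 0) (XT.lf (nat_lit 0) (nat_lit 10037985797) (nat_lit 0) (nat_lit 0) (nat_lit 0) (nat_lit 0) (nat_lit 0) (nat_lit 0) (nat_lit 1) (nat_lit 0) (nat_lit 1) (nat_lit 0) (nat_lit 376) (nat_lit 389) (nat_lit 315)) (XT.nd (nat_lit 94) (nat_lit 0) (nat_lit 0) (XT.lf (nat_lit 0) (nat_lit 10035494089) (nat_lit 0) (nat_lit 0) (nat_lit 0) (nat_lit 0) (nat_lit 0) (nat_lit 0) (nat_lit 1) (nat_lit 0) (nat_lit 1) (nat_lit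 0) (nat_lit 377) (nat_lit 389) (nat_lit 314)) (XT.lf (nat_lit 0) (nat_lit 10033186952) (nat_lit 0) (nat_lit 0) (nat_lit 0) (nat_lit 0) (nat_lit 0) (nat_lit 0) (nat_lit 1) (nat_lit 0) (nat_lit 1) (nat_lit 0) (nat_lit 378) (nat_lit 389) (nat_lit 313))))))) (XT.nd (nat_lit 846) (nat_lit 0) (nat_lit 0) (XT.nd (nat_lit 376) (nat_lit 0) (nat_lit 0) (XT.nd (nat_lit 188) (nat_lit 0) (nat_lit 0) (XT.nd (nat_lit 94) (nat_lit 0) (nat_lit 0) (XT.lf (nat_lit 0) (nat_lit 10031050715) (nat_lit 0) (nat_lit 0) (nat_lit 0) (nat_lit 0) (nat_lit 0) (nat_lit 0) (nat_lit 1) (nat_lit 0) (nat_lit 1) (nat_lit 0) (nat_lit 379) (nat_lit 389) (nat_lit 312)) (XT.lf (nat_lit 0) (nat_lit 10029072717) (nat_lit 0) (nat_lit 0) (nat_lit 0) (nat_lit 0) (nat_lit 0) (nat_lit 0) (nat_lit 1) (nat_lit 0) (nat_lit 1) (nat_lit 0) (nat_lit 380) (nat_lit 389) (nat_lit 311))) (XT.nd (nat_lit 94) (nat_lit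 0) (nat_lit 0) (XT.lf (nat_lit 0) (nat_lit 10027241237) (nat_lit 0) (nat_lit 0) (nat_lit 0) (nat_lit 0) (nat_lit 0) (nat_lit 0) (nat_lit 1) (nat_lit 0) (nat_lit 1) (nat_lit 0) (nat_lit 381) (nat_lit 389) (nat_lit 310)) (XT.lf (nat_lit 0) (nat_lit 10025545423) (nat_lit 0) (nat_lit 0) (nat_lit 0) (nat_lit 0) (nat_lit 0) (nat_lit 0) (nat_lit 1) (nat_lit 0) (nat_lit 1) (nat_lit 0) (nat_lit 382) (nat_lit 389) (nat_lit 309)))) (XT.nd (nat_lit 188) (nat_lit 0) (nat_lit 0) (XT.nd (nat_lit 94) (nat_lit 0) (nat_lit 0) (XT.lf (nat_lit 0) (nat_lit 10023975224) (nat_lit 0) (nat_lit 0) (nat_lit 0) (nat_lit 0) (nat_lit 0) (nat_lit 0) (nat_lit 1) (nat_lit 0) (nat_lit 1) (nat_lit 0) (nat_lit 383) (nat_lit 389) (nat_lit 308)) (XT.lf (nat_lit 0) (nat_lit 10022521337) (nat_lit 0) (nat_lit 0) (nat_lit 0) (nat_lit 0) (nat_lit 0) (nat_lit 0) (nat_lit 1) (nat_lit 0) (nat_lit 1) (nat_lit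 0) (nat_lit 384) (nat_lit 389) (nat_lit 307))) (XT.nd (nat_lit 94) (nat_lit 0) (nat_lit 0) (XT.lf (nat_lit 0) (nat_lit 10021175144) (nat_lit 0) (nat_lit 0) (nat_lit 0) (nat_lit 0) (nat_lit 0) (nat_lit 0) (nat_lit 1) (nat_lit 0) (nat_lit 1) (nat_lit 0) (nat_lit 385) (nat_lit 389) (nat_lit 306)) (XT.nd (nat_lit 94) (nat_lit 0) (nat_lit 0) (XT.lf (nat_lit 0) (nat_lit 10019928670) (nat_lit 0) (nat_lit 0) (nat_lit 0) (nat_lit 0) (nat_lit 0) (nat_lit 0) (nat_lit 1) (nat_lit 0) (nat_lit 1) (nat_lit 0) (nat_lit 386) (nat_lit 389) (nat_lit 305)) (XT.lf (nat_lit 0) (nat_lit 10018774527) (nat_lit 0) (nat_lit 0) (nat_lit 0) (nat_lit 0) (nat_lit 0) (nat_lit 0) (nat_lit 1) (nat_lit 0) (nat_lit 1) (nat_lit 0) (nat_lit 387) (nat_lit 389) (nat_lit 304)))))) (XT.nd (nat_lit 470) (nat_lit 0) (nat_lit 0) (XT.nd (nat_lit 188) (nat_lit 0) (nat_lit 0) (XT.nd (nat_lit 94) (nat_lit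 0) (nat_lit 0) (XT.lf (nat_lit 0) (nat_lit 10017705877) (nat_lit 0) (nat_lit 0) (nat_lit 0) (nat_lit 0) (nat_lit 0) (nat_lit 0) (nat_lit 1) (nat_lit 0) (nat_lit 1) (nat_lit 0) (nat_lit 388) (nat_lit 389) (nat_lit 303)) (XT.lf (nat_lit 0) (nat_lit 10016716385) (nat_lit 0) (nat_lit 0) (nat_lit 0) (nat_lit 0) (nat_lit 0) (nat_lit 0) (nat_lit 1) (nat_lit 0) (nat_lit 1) (nat_lit 0) (nat_lit 389) (nat_lit 389) (nat_lit 302))) (XT.nd (nat_lit 94) (nat_lit 0) (nat_lit 0) (XT.lf (nat_lit 0) (nat_lit 10015800189) (nat_lit 0) (nat_lit 0) (nat_lit 0) (nat_lit 0) (nat_lit 0) (nat_lit 0) (nat_lit 1) (nat_lit 0) (nat_lit 1) (nat_lit 0) (nat_lit 390) (nat_lit 389) (nat_lit 301)) (XT.nd (nat_lit 94) (nat_lit 0) (nat_lit 0) (XT.lf (nat_lit 0) (nat_lit 10014951860) (nat_lit 0) (nat_lit 0) (nat_lit 0) (nat_lit 0) (nat_lit 0) (nat_lit 0) (nat_lit 1) (nat_lit 0) (nat_lit 1) (nat_lit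 0) (nat_lit 391) (nat_lit 389) (nat_lit 300)) (XT.lf (nat_lit 0) (nat_lit 10014166370) (nat_lit 0) (nat_lit 0) (nat_lit 0) (nat_lit 0) (nat_lit 0) (nat_lit 0) (nat_lit 1) (nat_lit 0) (nat_lit 1) (nat_lit 0) (nat_lit 392) (nat_lit 389) (nat_lit 299))))) (XT.nd (nat_lit 188) (nat_lit 0) (nat_lit 0) (XT.nd (nat_lit 94) (nat_lit 0) (nat_lit 0) (XT.lf (nat_lit 0) (nat_lit 10013439064) (nat_lit 0) (nat_lit 0) (nat_lit 0) (nat_lit 0) (nat_lit 0) (nat_lit 0) (nat_lit 1) (nat_lit 0) (nat_lit 1) (nat_lit 0) (nat_lit 393) (nat_lit 389) (nat_lit 298)) (XT.lf (nat_lit 0) (nat_lit 10012765633) (nat_lit 0) (nat_lit 0) (nat_lit 0) (nat_lit 0) (nat_lit 0) (nat_lit 0) (nat_lit 1) (nat_lit 0) (nat_lit 1) (nat_lit 0) (nat_lit 394) (nat_lit 389) (nat_lit 297))) (XT.nd (nat_lit 94) (nat_lit 0) (nat_lit 0) (XT.lf (nat_lit 0) (nat_lit 10012142085) (nat_lit 0) (nat_lit 0) (nat_lit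 0) (nat_lit 0) (nat_lit 0) (nat_lit 0) (nat_lit 1) (nat_lit 0) (nat_lit 1) (nat_lit 0) (nat_lit 395) (nat_lit 389) (nat_lit 296)) (XT.nd (nat_lit 94) (nat_lit 0) (nat_lit 0) (XT.lf (nat_lit 0) (nat_lit 10011564727) (nat_lit 0) (nat_lit 0) (nat_lit 0) (nat_lit 0) (nat_lit 0) (nat_lit 0) (nat_lit 1) (nat_lit 0) (nat_lit 1) (nat_lit 0) (nat_lit 396) (nat_lit 389) (nat_lit 295)) (XT.lf (nat_lit 0) (nat_lit 10011030135) (nat_lit 0) (nat_lit 0) (nat_lit 0) (nat_lit 0) (nat_lit 0) (nat_lit 0) (nat_lit 1) (nat_lit 0) (nat_lit 1) (nat_lit 0) (nat_lit 397) (nat_lit 389) (nat_lit 294))))))))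
noncomputable def ec109 : XT := (XT.nd (nat_lit 1786) (nat_lit 0) (nat_lit 0) (XT.nd (nat_lit 846) (nat_lit 0) (nat_lit 0) (XT.nd (nat_lit 376) (nat_lit 0) (nat_lit 0) (XT.nd (nat_lit 188) (nat_lit 0) (nat_lit 0) (XT.nd (nat_lit 94) (nat_lit 0) (nat_lit 0) (XT.lf (nat_lit 0) (nat_lit 10010535143) (nat_lit 0) (nat_lit 0) (nat_lit 0) (nat_lit 0) (nat_lit 0) (nat_lit 0) (nat_lit 1) (nat_lit 0) (nat_lit 1) (nat_lit 0) (nat_lit 398) (nat_lit 389) (nat_lit 293)) (XT.lf (nat_lit 0) (nat_lit 10010076817) (nat_lit 0) (nat_lit 0) (nat_lit 0) (nat_lit 0) (nat_lit 0) (nat_lit 0) (nat_lit 1) (nat_lit 0) (nat_lit 1) (nat_lit 0) (nat_lit 399) (nat_lit 389) (nat_lit 292))) (XT.nd (nat_lit 94) (nat_lit 0) (nat_lit 0) (XT.lf (nat_lit 0) (nat_lit 10009652441) (nat_lit 0) (nat_lit 0) (nat_lit 0) (nat_lit 0) (nat_lit 0) (nat_lit 0) (nat_lit 1) (nat_lit 0) (nat_lit 1) (nat_lit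 0) (nat_lit 400) (nat_lit 389) (nat_lit 291)) (XT.lf (nat_lit 0) (nat_lit 10009259501) (nat_lit 0) (nat_lit 0) (nat_lit 0) (nat_lit 0) (nat_lit 0) (nat_lit 0) (nat_lit 1) (nat_lit 0) (nat_lit 1) (nat_lit 0) (nat_lit 401) (nat_lit 389) (nat_lit 290)))) (XT.nd (nat_lit 188) (nat_lit 0) (nat_lit 0) (XT.nd (nat_lit 94) (nat_lit 0) (nat_lit 0) (XT.lf (nat_lit 0) (nat_lit 10008895667) (nat_lit 0) (nat_lit 0) (nat_lit 0) (nat_lit 0) (nat_lit 0) (nat_lit 0) (nat_lit 1) (nat_lit 0) (nat_lit 1) (nat_lit 0) (nat_lit 402) (nat_lit 389) (nat_lit 289)) (XT.lf (nat_lit 0) (nat_lit 10008558783) (nat_lit 0) (nat_lit 0) (nat_lit 0) (nat_lit 0) (nat_lit 0) (nat_lit 0) (nat_lit 1) (nat_lit 0) (nat_lit 1) (nat_lit 0) (nat_lit 403) (nat_lit 389) (nat_lit 288))) (XT.nd (nat_lit 94) (nat_lit 0) (nat_lit 0) (XT.lf (nat_lit 0) (nat_lit 10008246854) (nat_lit 0) (nat_lit 0) (nat_lit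 0) (nat_lit 0) (nat_lit 0) (nat_lit 0) (nat_lit 1) (nat_lit 0) (nat_lit 1) (nat_lit 0) (nat_lit 404) (nat_lit 389) (nat_lit 287)) (XT.nd (nat_lit 94) (nat_lit 0) (nat_lit 0) (XT.lf (nat_lit 0) (nat_lit 10007958031) (nat_lit 0) (nat_lit 0) (nat_lit 0) (nat_lit 0) (nat_lit 0) (nat_lit 0) (nat_lit 1) (nat_lit 0) (nat_lit 1) (nat_lit 0) (nat_lit 405) (nat_lit 389) (nat_lit 286)) (XT.lf (nat_lit 0) (nat_lit 10007690602) (nat_lit 0) (nat_lit 0) (nat_lit 0) (nat_lit 0) (nat_lit 0) (nat_lit 0) (nat_lit 1) (nat_lit 0) (nat_lit 1) (nat_lit 0) (nat_lit 406) (nat_lit 389) (nat_lit 285)))))) (XT.nd (nat_lit 470) (nat_lit 0) (nat_lit 0) (XT.nd (nat_lit 188) (nat_lit 0) (nat_lit 0) (XT.nd (nat_lit 94) (nat_lit 0) (nat_lit 0) (XT.lf (nat_lit 0) (nat_lit 10007442983) (nat_lit 0) (nat_lit 0) (nat_lit 0) (nat_lit 0) (nat_lit 0) (nat_lit 0) (nat_lit 1) (nat_lit 0) (nat_lit 1)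 (nat_lit 0) (nat_lit 407) (nat_lit 389) (nat_lit 284)) (XT.lf (nat_lit 0) (nat_lit 10007213706) (nat_lit 0) (nat_lit 0) (nat_lit 0) (nat_lit 0) (nat_lit 0) (nat_lit 0) (nat_lit 1) (nat_lit 0) (nat_lit 1) (nat_lit 0) (nat_lit 408) (nat_lit 389) (nat_lit 283))) (XT.nd (nat_lit 94) (nat_lit 0) (nat_lit 0) (XT.lf (nat_lit 0) (nat_lit 10007001412) (nat_lit 0) (nat_lit 0) (nat_lit 0) (nat_lit 0) (nat_lit 0) (nat_lit 0) (nat_lit 1) (nat_lit 0) (nat_lit 1) (nat_lit 0) (nat_lit 409) (nat_lit 389) (nat_lit 282)) (XT.nd (nat_lit 94) (nat_lit 0) (nat_lit 0) (XT.lf (nat_lit 0) (nat_lit 10006804844) (nat_lit 0) (nat_lit 0) (nat_lit 0) (nat_lit 0) (nat_lit 0) (nat_lit 0) (nat_lit 1) (nat_lit 0) (nat_lit 1) (nat_lit 0) (nat_lit 410) (nat_lit 389) (nat_lit 281)) (XT.lf (nat_lit 0) (nat_lit 10006622837) (nat_lit 0) (nat_lit 0) (nat_lit 0) (nat_lit 0) (nat_lit 0) (nat_lit 0)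 (nat_lit 1) (nat_lit 0) (nat_lit 1) (nat_lit 0) (nat_lit 411) (nat_lit 389) (nat_lit 280))))) (XT.nd (nat_lit 188) (nat_lit 0) (nat_lit 0) (XT.nd (nat_lit 94) (nat_lit 0) (nat_lit 0) (XT.lf (nat_lit 0) (nat_lit 10006454311) (nat_lit 0) (nat_lit 0) (nat_lit 0) (nat_lit 0) (nat_lit 0) (nat_lit 0) (nat_lit 1) (nat_lit 0) (nat_lit 1) (nat_lit 0) (nat_lit 412) (nat_lit 389) (nat_lit 279)) (XT.lf (nat_lit 0) (nat_lit 10006298269) (nat_lit 0) (nat_lit 0) (nat_lit 0) (nat_lit 0) (nat_lit 0) (nat_lit 0) (nat_lit 1) (nat_lit 0) (nat_lit 1) (nat_lit 0) (nat_lit 413) (nat_lit 389) (nat_lit 278))) (XT.nd (nat_lit 94) (nat_lit 0) (nat_lit 0) (XT.lf (nat_lit 0) (nat_lit 10006153786) (nat_lit 0) (nat_lit 0) (nat_lit 0) (nat_lit 0) (nat_lit 0) (nat_lit 0) (nat_lit 1) (nat_lit 0) (nat_lit 1) (nat_lit 0) (nat_lit 414) (nat_lit 389) (nat_lit 277)) (XT.nd (nat_lit 94) (nat_lit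 0) (nat_lit 0) (XT.lf (nat_lit 0) (nat_lit 10006020005) (nat_lit 0) (nat_lit 0) (nat_lit 0) (nat_lit 0) (nat_lit 0) (nat_lit 0) (nat_lit 1) (nat_lit 0) (nat_lit 1) (nat_lit 0) (nat_lit 415) (nat_lit 389) (nat_lit 276)) (XT.lf (nat_lit 0) (nat_lit 10005896133) (nat_lit 0) (nat_lit 0) (nat_lit 0) (nat_lit 0) (nat_lit 0) (nat_lit 0) (nat_lit 1) (nat_lit 0) (nat_lit 1) (nat_lit 0) (nat_lit 416) (nat_lit 389) (nat_lit 275))))))) (XT.nd (nat_lit 846) (nat_lit 0) (nat_lit 0) (XT.nd (nat_lit 376) (nat_lit 0) (nat_lit 0) (XT.nd (nat_lit 188) (nat_lit 0) (nat_lit 0) (XT.nd (nat_lit 94) (nat_lit 0) (nat_lit 0) (XT.lf (nat_lit 0) (nat_lit 10005781438) (nat_lit 0) (nat_lit 0) (nat_lit 0) (nat_lit 0) (nat_lit 0) (nat_lit 0) (nat_lit 1) (nat_lit 0) (nat_lit 1) (nat_lit 0) (nat_lit 417) (nat_lit 389) (nat_lit 274)) (XT.lf (nat_lit 0) (nat_lit 10005675238) (nat_lit 0) (nat_lit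 0) (nat_lit 0) (nat_lit 0) (nat_lit 0) (nat_lit 0) (nat_lit 1) (nat_lit 0) (nat_lit 1) (nat_lit 0) (nat_lit 418) (nat_lit 389) (nat_lit 273))) (XT.nd (nat_lit 94) (nat_lit 0) (nat_lit 0) (XT.lf (nat_lit 0) (nat_lit 10005576905) (nat_lit 0) (nat_lit 0) (nat_lit 0) (nat_lit 0) (nat_lit 0) (nat_lit 0) (nat_lit 1) (nat_lit 0) (nat_lit 1) (nat_lit 0) (nat_lit 419) (nat_lit 389) (nat_lit 272)) (XT.lf (nat_lit 0) (nat_lit 10005485856) (nat_lit 0) (nat_lit 0) (nat_lit 0) (nat_lit 0) (nat_lit 0) (nat_lit 0) (nat_lit 1) (nat_lit 0) (nat_lit 1) (nat_lit 0) (nat_lit 420) (nat_lit 389) (nat_lit 271)))) (XT.nd (nat_lit 188) (nat_lit 0) (nat_lit 0) (XT.nd (nat_lit 94) (nat_lit 0) (nat_lit 0) (XT.lf (nat_lit 0) (nat_lit 10005401551) (nat_lit 0) (nat_lit 0) (nat_lit 0) (nat_lit 0) (nat_lit 0) (nat_lit 0) (nat_lit 1) (nat_lit 0) (nat_lit 1) (nat_lit 0) (nat_lit 421) (nat_lit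 389) (nat_lit 270)) (XT.lf (nat_lit 0) (nat_lit 10005323491) (nat_lit 0) (nat_lit 0) (nat_lit 0) (nat_lit 0) (nat_lit 0) (nat_lit 0) (nat_lit 1) (nat_lit 0) (nat_lit 1) (nat_lit 0) (nat_lit 422) (nat_lit 389) (nat_lit 269))) (XT.nd (nat_lit 94) (nat_lit 0) (nat_lit 0) (XT.lf (nat_lit 0) (nat_lit 10005251214) (nat_lit 0) (nat_lit 0) (nat_lit 0) (nat_lit 0) (nat_lit 0) (nat_lit 0) (nat_lit 1) (nat_lit 0) (nat_lit 1) (nat_lit 0) (nat_lit 423) (nat_lit 389) (nat_lit 268)) (XT.nd (nat_lit 94) (nat_lit 0) (nat_lit 0) (XT.lf (nat_lit 0) (nat_lit 10005184290) (nat_lit 0) (nat_lit 0) (nat_lit 0) (nat_lit 0) (nat_lit 0) (nat_lit 0) (nat_lit 1) (nat_lit 0) (nat_lit 1) (nat_lit 0) (nat_lit 424) (nat_lit 389) (nat_lit 267)) (XT.lf (nat_lit 0) (nat_lit 10005122323) (nat_lit 0) (nat_lit 0) (nat_lit 0) (nat_lit 0) (nat_lit 0) (nat_lit 0) (nat_lit 1) (nat_lit 0) (nat_lit 1)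 (nat_lit 0) (nat_lit 425) (nat_lit 389) (nat_lit 266)))))) (XT.nd (nat_lit 470) (nat_lit 0) (nat_lit 0) (XT.nd (nat_lit 188) (nat_lit 0) (nat_lit 0) (XT.nd (nat_lit 94) (nat_lit 0) (nat_lit 0) (XT.lf (nat_lit 0) (nat_lit 10005064947) (nat_lit 0) (nat_lit 0) (nat_lit 0) (nat_lit 0) (nat_lit 0) (nat_lit 0) (nat_lit 1) (nat_lit 0) (nat_lit 1) (nat_lit 0) (nat_lit 426) (nat_lit 389) (nat_lit 265)) (XT.lf (nat_lit 0) (nat_lit 10005011821) (nat_lit 0) (nat_lit 0) (nat_lit 0) (nat_lit 0) (nat_lit 0) (nat_lit 0) (nat_lit 1) (nat_lit 0) (nat_lit 1) (nat_lit 0) (nat_lit 427) (nat_lit 389) (nat_lit 264))) (XT.nd (nat_lit 94) (nat_lit 0) (nat_lit 0) (XT.lf (nat_lit 0) (nat_lit 10004962630) (nat_lit 0) (nat_lit 0) (nat_lit 0) (nat_lit 0) (nat_lit 0) (nat_lit 0) (nat_lit 1) (nat_lit 0) (nat_lit 1) (nat_lit 0) (nat_lit 428) (nat_lit 389) (nat_lit 263)) (XT.nd (nat_lit 94)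 (nat_lit 0) (nat_lit 0) (XT.lf (nat_lit 0) (nat_lit 10004917083) (nat_lit 0) (nat_lit 0) (nat_lit 0) (nat_lit 0) (nat_lit 0) (nat_lit 0) (nat_lit 1) (nat_lit 0) (nat_lit 1) (nat_lit 0) (nat_lit 429) (nat_lit 389) (nat_lit 262)) (XT.lf (nat_lit 0) (nat_lit 10004874909) (nat_lit 0) (nat_lit 0) (nat_lit 0) (nat_lit 0) (nat_lit 0) (nat_lit 0) (nat_lit 1) (nat_lit 0) (nat_lit 1) (nat_lit 0) (nat_lit 430) (nat_lit 389) (nat_lit 261))))) (XT.nd (nat_lit 188) (nat_lit 0) (nat_lit 0) (XT.nd (nat_lit 94) (nat_lit 0) (nat_lit 0) (XT.lf (nat_lit 0) (nat_lit 10004835860) (nat_lit 0) (nat_lit 0) (nat_lit 0) (nat_lit 0) (nat_lit 0) (nat_lit 0) (nat_lit 1) (nat_lit 0) (nat_lit 1) (nat_lit 0) (nat_lit 431) (nat_lit 389) (nat_lit 260)) (XT.lf (nat_lit 0) (nat_lit 10004799703) (nat_lit 0) (nat_lit 0) (nat_lit 0) (nat_lit 0) (nat_lit 0) (nat_lit 0) (nat_lit 1) (nat_lit 0) (nat_lit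 1) (nat_lit 0) (nat_lit 432) (nat_lit 389) (nat_lit 259))) (XT.nd (nat_lit 94) (nat_lit 0) (nat_lit 0) (XT.lf (nat_lit 0) (nat_lit 10004766224) (nat_lit 0) (nat_lit 0) (nat_lit 0) (nat_lit 0) (nat_lit 0) (nat_lit 0) (nat_lit 1) (nat_lit 0) (nat_lit 1) (nat_lit 0) (nat_lit 433) (nat_lit 389) (nat_lit 258)) (XT.nd (nat_lit 94) (nat_lit 0) (nat_lit 0) (XT.lf (nat_lit 0) (nat_lit 10004735226) (nat_lit 0) (nat_lit 0) (nat_lit 0) (nat_lit 0) (nat_lit 0) (nat_lit 0) (nat_lit 1) (nat_lit 0) (nat_lit 1) (nat_lit 0) (nat_lit 434) (nat_lit 389) (nat_lit 257)) (XT.lf (nat_lit 0) (nat_lit 10004706523) (nat_lit 0) (nat_lit 0) (nat_lit 0) (nat_lit 0) (nat_lit 0) (nat_lit 0) (nat_lit 1) (nat_lit 0) (nat_lit 1) (nat_lit 0) (nat_lit 435) (nat_lit 389) (nat_lit 256))))))))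
noncomputable def ec110 : XT := (XT.nd (nat_lit 56400) (nat_lit 0) (nat_lit 3360) (XT.nd (nat_lit 55554) (nat_lit 0) (nat_lit 7812) (XT.nd (nat_lit 55084) (nat_lit 0) (nat_lit 10836) (XT.nd (nat_lit 188) (nat_lit 0) (nat_lit 0) (XT.nd (nat_lit 94) (nat_lit 0) (nat_lit 0) (XT.lf (nat_lit 0) (nat_lit 10004679947) (nat_lit 0) (nat_lit 0) (nat_lit 0) (nat_lit 0) (nat_lit 0) (nat_lit 0) (nat_lit 1) (nat_lit 0) (nat_lit 1) (nat_lit 0) (nat_lit 436) (nat_lit 389) (nat_lit 255)) (XT.lf (nat_lit 0) (nat_lit 10004655339) (nat_lit 0) (nat_lit 0) (nat_lit 0) (nat_lit 0) (nat_lit 0) (nat_lit 0) (nat_lit 1) (nat_lit 0) (nat_lit 1) (nat_lit 0) (nat_lit 437) (nat_lit 389) (nat_lit 254))) (XT.nd (nat_lit 54802) (nat_lit 0) (nat_lit 10752) (XT.lf (nat_lit 0) (nat_lit 10004632554) (nat_lit 0) (nat_lit 0) (nat_lit 0) (nat_lit 0) (nat_lit 0) (nat_lit 0) (nat_lit 1) (nat_lit 0)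 (nat_lit 1) (nat_lit 0) (nat_lit 438) (nat_lit 389) (nat_lit 253)) (XT.lf (nat_lit 924) (nat_lit 5407074377) (nat_lit 0) (nat_lit 9600248128) (nat_lit 924) (nat_lit 5407074377) (nat_lit 139) (nat_lit 1) (nat_lit 128) (nat_lit 0) (nat_lit 139) (nat_lit 0) (nat_lit 300) (nat_lit 390) (nat_lit 390)))) (XT.nd (nat_lit 188) (nat_lit 0) (nat_lit 84) (XT.nd (nat_lit 94) (nat_lit 0) (nat_lit 0) (XT.lf (nat_lit 924) (nat_lit 2017004654) (nat_lit 0) (nat_lit 18848196683) (nat_lit 840) (nat_lit 18433473385) (nat_lit 140) (nat_lit 1) (nat_lit 129) (nat_lit 1) (nat_lit 139) (nat_lit 1) (nat_lit 301) (nat_lit 390) (nat_lit 389)) (XT.lf (nat_lit 924) (nat_lit 18525023516) (nat_lit 84) (nat_lit 12622643672) (nat_lit 0) (nat_lit 6694474407) (nat_lit 140) (nat_lit 1) (nat_lit 130) (nat_lit 1) (nat_lit 129) (nat_lit 1) (nat_lit 302) (nat_lit 390) (nat_lit 388))) (XT.nd (nat_lit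 94) (nat_lit 0) (nat_lit 84) (XT.lf (nat_lit 924) (nat_lit 16007137909) (nat_lit 84) (nat_lit 5290062471) (nat_lit 0) (nat_lit 15161296700) (nat_lit 141) (nat_lit 1) (nat_lit 131) (nat_lit 1) (nat_lit 130) (nat_lit 1) (nat_lit 303) (nat_lit 390) (nat_lit 387)) (XT.nd (nat_lit 94) (nat_lit 0) (nat_lit 84) (XT.lf (nat_lit 924) (nat_lit 11846642933) (nat_lit 0) (nat_lit 22164508961) (nat_lit 840) (nat_lit 1133046531) (nat_lit 142) (nat_lit 1) (nat_lit 131) (nat_lit 1) (nat_lit 141) (nat_lit 1) (nat_lit 304) (nat_lit 390) (nat_lit 386)) (XT.lf (nat_lit 924) (nat_lit 2842485818) (nat_lit 0) (nat_lit 24442528668) (nat_lit 840) (nat_lit 6607652242) (nat_lit 143) (nat_lit 1) (nat_lit 132) (nat_lit 1) (nat_lit 142) (nat_lit 1) (nat_lit 305) (nat_lit 390) (nat_lit 385)))))) (XT.nd (nat_lit 376) (nat_lit 1512) (nat_lit 0) (XT.nd (nat_lit 188) (nat_lit 1008) (nat_lit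 0) (XT.nd (nat_lit 94) (nat_lit 756) (nat_lit 0) (XT.lf (nat_lit 924) (nat_lit 5462101606) (nat_lit 84) (nat_lit 21242547853) (nat_lit 0) (nat_lit 5994909087) (nat_lit 143) (nat_lit 1) (nat_lit 133) (nat_lit 1) (nat_lit 132) (nat_lit 1) (nat_lit 306) (nat_lit 390) (nat_lit 384)) (XT.lf (nat_lit 924) (nat_lit 1121791117) (nat_lit 0) (nat_lit 15880209661) (nat_lit 840) (nat_lit 14561985869) (nat_lit 134) (nat_lit 1) (nat_lit 123) (nat_lit 1) (nat_lit 133) (nat_lit 1) (nat_lit 307) (nat_lit 390) (nat_lit 383))) (XT.nd (nat_lit 94) (nat_lit 420) (nat_lit 0) (XT.lf (nat_lit 84) (nat_lit 7767515375) (nat_lit 0) (nat_lit 3366025882) (nat_lit 588) (nat_lit 19348641722) (nat_lit 117) (nat_lit 1) (nat_lit 116) (nat_lit 1) (nat_lit 123) (nat_lit 1) (nat_lit 308) (nat_lit 390) (nat_lit 382)) (XT.lf (nat_lit 504) (nat_lit 21406294701) (nat_lit 0) (nat_lit 6968210407) (nat_lit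 420) (nat_lit 1077328384) (nat_lit 117) (nat_lit 1) (nat_lit 111) (nat_lit 1) (nat_lit 116) (nat_lit 1) (nat_lit 309) (nat_lit 390) (nat_lit 381)))) (XT.nd (nat_lit 188) (nat_lit 756) (nat_lit 0) (XT.nd (nat_lit 94) (nat_lit 336) (nat_lit 0) (XT.lf (nat_lit 504) (nat_lit 15446986102) (nat_lit 0) (nat_lit 3247912887) (nat_lit 420) (nat_lit 9770888202) (nat_lit 112) (nat_lit 1) (nat_lit 106) (nat_lit 1) (nat_lit 111) (nat_lit 1) (nat_lit 310) (nat_lit 390) (nat_lit 380)) (XT.lf (nat_lit 420) (nat_lit 9399294033) (nat_lit 0) (nat_lit 59799354) (nat_lit 336) (nat_lit 18068458744) (nat_lit 107) (nat_lit 1) (nat_lit 102) (nat_lit 1) (nat_lit 106) (nat_lit 1) (nat_lit 311) (nat_lit 390) (nat_lit 379))) (XT.nd (nat_lit 94) (nat_lit 756) (nat_lit 0) (XT.lf (nat_lit 84) (nat_lit 693435492) (nat_lit 0) (nat_lit 23386004918) (nat_lit 420) (nat_lit 2553037149) (nat_lit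 103) (nat_lit 1) (nat_lit 102) (nat_lit 1) (nat_lit 107) (nat_lit 1) (nat_lit 312) (nat_lit 390) (nat_lit 378)) (XT.nd (nat_lit 94) (nat_lit 336) (nat_lit 0) (XT.lf (nat_lit 84) (nat_lit 17904684281) (nat_lit 0) (nat_lit 2969683467) (nat_lit 420) (nat_lit 4897547372) (nat_lit 98) (nat_lit 1) (nat_lit 97) (nat_lit 1) (nat_lit 102) (nat_lit 1) (nat_lit 313) (nat_lit 390) (nat_lit 377)) (XT.lf (nat_lit 84) (nat_lit 8958167262) (nat_lit 0) (nat_lit 9096667626) (nat_lit 420) (nat_lit 6894541829) (nat_lit 94) (nat_lit 1) (nat_lit 93) (nat_lit 1) (nat_lit 98) (nat_lit 1) (nat_lit 314) (nat_lit 390) (nat_lit 376))))))) (XT.nd (nat_lit 846) (nat_lit 1848) (nat_lit 0) (XT.nd (nat_lit 376) (nat_lit 1344) (nat_lit 0) (XT.nd (nat_lit 188) (nat_lit 672) (nat_lit 0) (XT.nd (nat_lit 94) (nat_lit 252) (nat_lit 0) (XT.lf (nat_lit 84) (nat_lit 442155271) (nat_lit 0) (nat_lit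 15209487020) (nat_lit 420) (nat_lit 8514140497) (nat_lit 90) (nat_lit 1) (nat_lit 89) (nat_lit 1) (nat_lit 94) (nat_lit 1) (nat_lit 315) (nat_lit 390) (nat_lit 375)) (XT.lf (nat_lit 336) (nat_lit 1996748287) (nat_lit 0) (nat_lit 13503052883) (nat_lit 252) (nat_lit 7913099323) (nat_lit 90) (nat_lit 1) (nat_lit 86) (nat_lit 1) (nat_lit 89) (nat_lit 1) (nat_lit 316) (nat_lit 390) (nat_lit 374))) (XT.nd (nat_lit 94) (nat_lit 252) (nat_lit 0) (XT.lf (nat_lit 84) (nat_lit 6899302177) (nat_lit 0) (nat_lit 4728824582) (nat_lit 420) (nat_lit 11062994372) (nat_lit 82) (nat_lit 1) (nat_lit 81) (nat_lit 1) (nat_lit 86) (nat_lit 1) (nat_lit 317) (nat_lit 390) (nat_lit 373)) (XT.lf (nat_lit 336) (nat_lit 10681779267) (nat_lit 0) (nat_lit 10034151034) (nat_lit 252) (nat_lit 1284359423) (nat_lit 82) (nat_lit 1) (nat_lit 78) (nat_lit 1) (nat_lit 81) (nat_lit 1) (nat_lit 318)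 (nat_lit 390) (nat_lit 372)))) (XT.nd (nat_lit 188) (nat_lit 756) (nat_lit 0) (XT.nd (nat_lit 94) (nat_lit 336) (nat_lit 0) (XT.lf (nat_lit 336) (nat_lit 3423458651) (nat_lit 0) (nat_lit 8638993146) (nat_lit 252) (nat_lit 9273555366) (nat_lit 79) (nat_lit 1) (nat_lit 75) (nat_lit 1) (nat_lit 78) (nat_lit 1) (nat_lit 319) (nat_lit 390) (nat_lit 371)) (XT.lf (nat_lit 84) (nat_lit 3901915644) (nat_lit 0) (nat_lit 3572542856) (nat_lit 336) (nat_lit 13224855006) (nat_lit 72) (nat_lit 1) (nat_lit 71) (nat_lit 1) (nat_lit 75) (nat_lit 1) (nat_lit 320) (nat_lit 390) (nat_lit 370))) (XT.nd (nat_lit 94) (nat_lit 504) (nat_lit 0) (XT.lf (nat_lit 336) (nat_lit 9709404955) (nat_lit 0) (nat_lit 6460278254) (nat_lit 252) (nat_lit 3916241918) (nat_lit 72) (nat_lit 1) (nat_lit 68) (nat_lit 1) (nat_lit 71) (nat_lit 1) (nat_lit 321) (nat_lit 390) (nat_lit 369)) (XT.nd (nat_lit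 94) (nat_lit 336) (nat_lit 0) (XT.lf (nat_lit 252) (nat_lit 2406975825) (nat_lit 0) (nat_lit 5636121563) (nat_lit 168) (nat_lit 11454185160) (nat_lit 69) (nat_lit 1) (nat_lit 66) (nat_lit 1) (nat_lit 68) (nat_lit 1) (nat_lit 322) (nat_lit 390) (nat_lit 368)) (XT.lf (nat_lit 84) (nat_lit 407757082) (nat_lit 0) (nat_lit 4562890271) (nat_lit 336) (nat_lit 13960809952) (nat_lit 63) (nat_lit 1) (nat_lit 62) (nat_lit 1) (nat_lit 66) (nat_lit 1) (nat_lit 323) (nat_lit 390) (nat_lit 367)))))) (XT.nd (nat_lit 470) (nat_lit 840) (nat_lit 0) (XT.nd (nat_lit 188) (nat_lit 588) (nat_lit 0) (XT.nd (nat_lit 94) (nat_lit 252) (nat_lit 0) (XT.lf (nat_lit 252) (nat_lit 6994230098) (nat_lit 0) (nat_lit 4370793777) (nat_lit 168) (nat_lit 7018570089) (nat_lit 63) (nat_lit 1) (nat_lit 60) (nat_lit 1) (nat_lit 62) (nat_lit 1) (nat_lit 324) (nat_lit 390) (nat_lit 366)) (XT.lf (nat_lit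 84) (nat_lit 3794776960) (nat_lit 0) (nat_lit 175283126) (nat_lit 252) (nat_lit 13889577407) (nat_lit 58) (nat_lit 1) (nat_lit 57) (nat_lit 1) (nat_lit 60) (nat_lit 1) (nat_lit 325) (nat_lit 390) (nat_lit 365))) (XT.nd (nat_lit 94) (nat_lit 420) (nat_lit 0) (XT.lf (nat_lit 252) (nat_lit 10374187422) (nat_lit 0) (nat_lit 3594888550) (nat_lit 168) (nat_lit 3381846571) (nat_lit 58) (nat_lit 1) (nat_lit 55) (nat_lit 1) (nat_lit 57) (nat_lit 1) (nat_lit 326) (nat_lit 390) (nat_lit 364)) (XT.nd (nat_lit 94) (nat_lit 252) (nat_lit 0) (XT.lf (nat_lit 252) (nat_lit 3222638336) (nat_lit 0) (nat_lit 3341846436) (nat_lit 168) (nat_lit 10297173220) (nat_lit 56) (nat_lit 1) (nat_lit 53) (nat_lit 1) (nat_lit 55) (nat_lit 1) (nat_lit 327) (nat_lit 390) (nat_lit 363)) (XT.lf (nat_lit 252) (nat_lit 12792689841) (nat_lit 0) (nat_lit 3192863029) (nat_lit 168) (nat_lit 405051717)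 (nat_lit 53) (nat_lit 1) (nat_lit 50) (nat_lit 1) (nat_lit 52) (nat_lit 1) (nat_lit 328) (nat_lit 390) (nat_lit 362))))) (XT.nd (nat_lit 188) (nat_lit 504) (nat_lit 0) (XT.nd (nat_lit 94) (nat_lit 168) (nat_lit 0) (XT.lf (nat_lit 252) (nat_lit 5725415081) (nat_lit 0) (nat_lit 3048107729) (nat_lit 168) (nat_lit 7159117459) (nat_lit 51) (nat_lit 1) (nat_lit 48) (nat_lit 1) (nat_lit 50) (nat_lit 1) (nat_lit 329) (nat_lit 390) (nat_lit 361)) (XT.lf (nat_lit 84) (nat_lit 1961175717) (nat_lit 0) (nat_lit 1077950547) (nat_lit 168) (nat_lit 12454544864) (nat_lit 47) (nat_lit 1) (nat_lit 46) (nat_lit 1) (nat_lit 48) (nat_lit 1) (nat_lit 330) (nat_lit 390) (nat_lit 360))) (XT.nd (nat_lit 94) (nat_lit 336) (nat_lit 0) (XT.lf (nat_lit 252) (nat_lit 7512073860) (nat_lit 0) (nat_lit 3006945301) (nat_lit 168) (nat_lit 4546759796) (nat_lit 47) (nat_lit 1) (nat_lit 44) (nat_lit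 1) (nat_lit 46) (nat_lit 1) (nat_lit 331) (nat_lit 390) (nat_lit 359)) (XT.nd (nat_lit 94) (nat_lit 252) (nat_lit 0) (XT.lf (nat_lit 168) (nat_lit 808943609) (nat_lit 0) (nat_lit 3080799763) (nat_lit 84) (nat_lit 10765036044) (nat_lit 45) (nat_lit 1) (nat_lit 43) (nat_lit 1) (nat_lit 44) (nat_lit 1) (nat_lit 332) (nat_lit 390) (nat_lit 358)) (XT.lf (nat_lit 252) (nat_lit 8732247606) (nat_lit 0) (nat_lit 3150836036) (nat_lit 168) (nat_lit 2372028761) (nat_lit 43) (nat_lit 1) (nat_lit 40) (nat_lit 1) (nat_lit 42) (nat_lit 1) (nat_lit 333) (nat_lit 390) (nat_lit 357))))))))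
noncomputable def ec111 : XT := (XT.nd (nat_lit 1786) (nat_lit 756) (nat_lit 0) (XT.nd (nat_lit 846) (nat_lit 1260) (nat_lit 0) (XT.nd (nat_lit 376) (nat_lit 672) (nat_lit 0) (XT.nd (nat_lit 188) (nat_lit 336) (nat_lit 0) (XT.nd (nat_lit 94) (nat_lit 252) (nat_lit 0) (XT.lf (nat_lit 168) (nat_lit 2196224664) (nat_lit 0) (nat_lit 3268648970) (nat_lit 84) (nat_lit 8404041336) (nat_lit 41) (nat_lit 1) (nat_lit 39) (nat_lit 1) (nat_lit 40) (nat_lit 1) (nat_lit 334) (nat_lit 390) (nat_lit 356)) (XT.lf (nat_lit 252) (nat_lit 9506916460) (nat_lit 0) (nat_lit 3426296877) (nat_lit 168) (nat_lit 562284648) (nat_lit 39) (nat_lit 1) (nat_lit 36) (nat_lit 1) (nat_lit 38) (nat_lit 1) (nat_lit 335) (nat_lit 390) (nat_lit 355))) (XT.nd (nat_lit 94) (nat_lit 252) (nat_lit 0) (XT.lf (nat_lit 168) (nat_lit 3160668596) (nat_lit 0) (nat_lit 3571955665) (nat_lit 84) (nat_lit 6399467051)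 (nat_lit 37) (nat_lit 1) (nat_lit 35) (nat_lit 1) (nat_lit 36) (nat_lit 1) (nat_lit 336) (nat_lit 390) (nat_lit 354)) (XT.lf (nat_lit 84) (nat_lit 912294739) (nat_lit 0) (nat_lit 2863450006) (nat_lit 252) (nat_lit 9005995304) (nat_lit 33) (nat_lit 1) (nat_lit 32) (nat_lit 1) (nat_lit 35) (nat_lit 1) (nat_lit 337) (nat_lit 390) (nat_lit 353)))) (XT.nd (nat_lit 188) (nat_lit 336) (nat_lit 0) (XT.nd (nat_lit 94) (nat_lit 252) (nat_lit 0) (XT.lf (nat_lit 168) (nat_lit 3793087480) (nat_lit 0) (nat_lit 3952217365) (nat_lit 84) (nat_lit 4694784699) (nat_lit 33) (nat_lit 1) (nat_lit 31) (nat_lit 1) (nat_lit 32) (nat_lit 1) (nat_lit 338) (nat_lit 390) (nat_lit 352)) (XT.lf (nat_lit 84) (nat_lit 2121657871) (nat_lit 0) (nat_lit 2054969115) (nat_lit 252) (nat_lit 7933818488) (nat_lit 29) (nat_lit 1) (nat_lit 28) (nat_lit 1) (nat_lit 31) (nat_lit 1) (nat_lit 339) (nat_lit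 390) (nat_lit 351))) (XT.nd (nat_lit 94) (nat_lit 252) (nat_lit 0) (XT.lf (nat_lit 168) (nat_lit 4166715107) (nat_lit 0) (nat_lit 4379378536) (nat_lit 84) (nat_lit 3243130042) (nat_lit 29) (nat_lit 1) (nat_lit 27) (nat_lit 1) (nat_lit 28) (nat_lit 1) (nat_lit 340) (nat_lit 390) (nat_lit 350)) (XT.nd (nat_lit 94) (nat_lit 84) (nat_lit 0) (XT.lf (nat_lit 84) (nat_lit 3123570999) (nat_lit 0) (nat_lit 1488325691) (nat_lit 168) (nat_lit 6866713681) (nat_lit 26) (nat_lit 1) (nat_lit 25) (nat_lit 1) (nat_lit 27) (nat_lit 1) (nat_lit 341) (nat_lit 390) (nat_lit 349)) (XT.lf (nat_lit 168) (nat_lit 4340491614) (nat_lit 0) (nat_lit 4830184319) (nat_lit 84) (nat_lit 2005579191) (nat_lit 26) (nat_lit 1) (nat_lit 24) (nat_lit 1) (nat_lit 25) (nat_lit 1) (nat_lit 342) (nat_lit 390) (nat_lit 348)))))) (XT.nd (nat_lit 470) (nat_lit 588) (nat_lit 0) (XT.nd (nat_lit 188) (nat_lit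 420) (nat_lit 0) (XT.nd (nat_lit 94) (nat_lit 84) (nat_lit 0) (XT.lf (nat_lit 84) (nat_lit 3951026890) (nat_lit 0) (nat_lit 1110310372) (nat_lit 168) (nat_lit 5821862747) (nat_lit 23) (nat_lit 1) (nat_lit 22) (nat_lit 1) (nat_lit 24) (nat_lit 1) (nat_lit 343) (nat_lit 390) (nat_lit 347)) (XT.lf (nat_lit 168) (nat_lit 4361741736) (nat_lit 0) (nat_lit 5286842591) (nat_lit 84) (nat_lit 949737810) (nat_lit 23) (nat_lit 1) (nat_lit 21) (nat_lit 1) (nat_lit 22) (nat_lit 1) (nat_lit 344) (nat_lit 390) (nat_lit 346))) (XT.nd (nat_lit 94) (nat_lit 252) (nat_lit 0) (XT.lf (nat_lit 84) (nat_lit 4631446214) (nat_lit 0) (nat_lit 878137882) (nat_lit 168) (nat_lit 4811940120) (nat_lit 20) (nat_lit 1) (nat_lit 19) (nat_lit 1) (nat_lit 21) (nat_lit 1) (nat_lit 345) (nat_lit 390) (nat_lit 345)) (XT.nd (nat_lit 94) (nat_lit 168) (nat_lit 0) (XT.lf (nat_lit 168) (nat_lit 4268358190)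 (nat_lit 0) (nat_lit 5735937389) (nat_lit 84) (nat_lit 48586170) (nat_lit 20) (nat_lit 1) (nat_lit 18) (nat_lit 1) (nat_lit 19) (nat_lit 1) (nat_lit 346) (nat_lit 390) (nat_lit 344)) (XT.lf (nat_lit 84) (nat_lit 5187663862) (nat_lit 0) (nat_lit 757489726) (nat_lit 168) (nat_lit 3846031339) (nat_lit 17) (nat_lit 1) (nat_lit 16) (nat_lit 1) (nat_lit 18) (nat_lit 1) (nat_lit 347) (nat_lit 390) (nat_lit 343))))) (XT.nd (nat_lit 188) (nat_lit 336) (nat_lit 0) (XT.nd (nat_lit 94) (nat_lit 168) (nat_lit 0) (XT.lf (nat_lit 0) (nat_lit 697407260) (nat_lit 0) (nat_lit 5458329024) (nat_lit 168) (nat_lit 3381362991) (nat_lit 15) (nat_lit 3) (nat_lit 15) (nat_lit 1) (nat_lit 17) (nat_lit 1) (nat_lit 348) (nat_lit 390) (nat_lit 342)) (XT.lf (nat_lit 84) (nat_lit 5638736722) (nat_lit 0) (nat_lit 720918866) (nat_lit 168) (nat_lit 2930377215) (nat_lit 14) (nat_lit 1) (nat_lit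 13) (nat_lit 1) (nat_lit 15) (nat_lit 1) (nat_lit 349) (nat_lit 390) (nat_lit 341))) (XT.nd (nat_lit 94) (nat_lit 252) (nat_lit 0) (XT.lf (nat_lit 0) (nat_lit 1332305876) (nat_lit 0) (nat_lit 5219661161) (nat_lit 168) (nat_lit 2497579230) (nat_lit 12) (nat_lit 3) (nat_lit 12) (nat_lit 1) (nat_lit 14) (nat_lit 1) (nat_lit 350) (nat_lit 390) (nat_lit 340)) (XT.nd (nat_lit 94) (nat_lit 84) (nat_lit 0) (XT.lf (nat_lit 84) (nat_lit 6000605524) (nat_lit 0) (nat_lit 746549789) (nat_lit 168) (nat_lit 2068975972) (nat_lit 11) (nat_lit 1) (nat_lit 10) (nat_lit 1) (nat_lit 12) (nat_lit 1) (nat_lit 351) (nat_lit 390) (nat_lit 339)) (XT.lf (nat_lit 0) (nat_lit 1873073792) (nat_lit 0) (nat_lit 5047150547) (nat_lit 168) (nat_lit 1668180601) (nat_lit 9) (nat_lit 3) (nat_lit 9) (nat_lit 1) (nat_lit 11) (nat_lit 1) (nat_lit 352) (nat_lit 390) (nat_lit 338))))))) (XT.nd (nat_lit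 846) (nat_lit 0) (nat_lit 0) (XT.nd (nat_lit 376) (nat_lit 252) (nat_lit 0) (XT.nd (nat_lit 188) (nat_lit 252) (nat_lit 0) (XT.nd (nat_lit 94) (nat_lit 84) (nat_lit 0) (XT.lf (nat_lit 84) (nat_lit 6286637387) (nat_lit 0) (nat_lit 817019605) (nat_lit 168) (nat_lit 1264069768) (nat_lit 8) (nat_lit 1) (nat_lit 7) (nat_lit 1) (nat_lit 9) (nat_lit 1) (nat_lit 353) (nat_lit 390) (nat_lit 337)) (XT.lf (nat_lit 0) (nat_lit 2332702396) (nat_lit 0) (nat_lit 4924377845) (nat_lit 168) (nat_lit 894911905) (nat_lit 6) (nat_lit 3) (nat_lit 6) (nat_lit 1) (nat_lit 8) (nat_lit 1) (nat_lit 354) (nat_lit 390) (nat_lit 336))) (XT.nd (nat_lit 94) (nat_lit 84) (nat_lit 0) (XT.lf (nat_lit 84) (nat_lit 6508070811) (nat_lit 0) (nat_lit 918615785) (nat_lit 168) (nat_lit 516537130) (nat_lit 5) (nat_lit 1) (nat_lit 4) (nat_lit 1) (nat_lit 6) (nat_lit 1) (nat_lit 355) (nat_lit 390) (nat_lit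 335)) (XT.lf (nat_lit 0) (nat_lit 2722179307) (nat_lit 0) (nat_lit 4838316424) (nat_lit 168) (nat_lit 178278414) (nat_lit 3) (nat_lit 3) (nat_lit 3) (nat_lit 1) (nat_lit 5) (nat_lit 1) (nat_lit 356) (nat_lit 390) (nat_lit 334)))) (XT.nd (nat_lit 188) (nat_lit 0) (nat_lit 0) (XT.nd (nat_lit 94) (nat_lit 0) (nat_lit 0) (XT.lf (nat_lit 0) (nat_lit 10939113884) (nat_lit 0) (nat_lit 0) (nat_lit 0) (nat_lit 0) (nat_lit 0) (nat_lit 0) (nat_lit 1) (nat_lit 0) (nat_lit 1) (nat_lit 0) (nat_lit 357) (nat_lit 390) (nat_lit 333)) (XT.lf (nat_lit 0) (nat_lit 10929156972) (nat_lit 0) (nat_lit 0) (nat_lit 0) (nat_lit 0) (nat_lit 0) (nat_lit 0) (nat_lit 1) (nat_lit 0) (nat_lit 1) (nat_lit 0) (nat_lit 358) (nat_lit 390) (nat_lit 332))) (XT.nd (nat_lit 94) (nat_lit 0) (nat_lit 0) (XT.lf (nat_lit 0) (nat_lit 10919937608) (nat_lit 0) (nat_lit 0) (nat_lit 0) (nat_lit 0) (nat_lit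 0) (nat_lit 0) (nat_lit 1) (nat_lit 0) (nat_lit 1) (nat_lit 0) (nat_lit 359) (nat_lit 390) (nat_lit 331)) (XT.nd (nat_lit 94) (nat_lit 0) (nat_lit 0) (XT.lf (nat_lit 0) (nat_lit 10911401160) (nat_lit 0) (nat_lit 0) (nat_lit 0) (nat_lit 0) (nat_lit 0) (nat_lit 0) (nat_lit 1) (nat_lit 0) (nat_lit 1) (nat_lit 0) (nat_lit 360) (nat_lit 390) (nat_lit 330)) (XT.lf (nat_lit 0) (nat_lit 10903497042) (nat_lit 0) (nat_lit 0) (nat_lit 0) (nat_lit 0) (nat_lit 0) (nat_lit 0) (nat_lit 1) (nat_lit 0) (nat_lit 1) (nat_lit 0) (nat_lit 361) (nat_lit 390) (nat_lit 329)))))) (XT.nd (nat_lit 470) (nat_lit 0) (nat_lit 0) (XT.nd (nat_lit 188) (nat_lit 0) (nat_lit 0) (XT.nd (nat_lit 94) (nat_lit 0) (nat_lit 0) (XT.lf (nat_lit 0) (nat_lit 10896178414) (nat_lit 0) (nat_lit 0) (nat_lit 0) (nat_lit 0) (nat_lit 0) (nat_lit 0) (nat_lit 1) (nat_lit 0) (nat_lit 1) (nat_lit 0) (nat_lit 362)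 (nat_lit 390) (nat_lit 328)) (XT.lf (nat_lit 0) (nat_lit 10889401906) (nat_lit 0) (nat_lit 0) (nat_lit 0) (nat_lit 0) (nat_lit 0) (nat_lit 0) (nat_lit 1) (nat_lit 0) (nat_lit 1) (nat_lit 0) (nat_lit 363) (nat_lit 390) (nat_lit 327))) (XT.nd (nat_lit 94) (nat_lit 0) (nat_lit 0) (XT.lf (nat_lit 0) (nat_lit 10883127362) (nat_lit 0) (nat_lit 0) (nat_lit 0) (nat_lit 0) (nat_lit 0) (nat_lit 0) (nat_lit 1) (nat_lit 0) (nat_lit 1) (nat_lit 0) (nat_lit 364) (nat_lit 390) (nat_lit 326)) (XT.nd (nat_lit 94) (nat_lit 0) (nat_lit 0) (XT.lf (nat_lit 0) (nat_lit 10877317599) (nat_lit 0) (nat_lit 0) (nat_lit 0) (nat_lit 0) (nat_lit 0) (nat_lit 0) (nat_lit 1) (nat_lit 0) (nat_lit 1) (nat_lit 0) (nat_lit 365) (nat_lit 390) (nat_lit 325)) (XT.lf (nat_lit 0) (nat_lit 10871938189) (nat_lit 0) (nat_lit 0) (nat_lit 0) (nat_lit 0) (nat_lit 0) (nat_lit 0) (nat_lit 1) (nat_lit 0) (nat_lit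 1) (nat_lit 0) (nat_lit 366) (nat_lit 390) (nat_lit 324))))) (XT.nd (nat_lit 188) (nat_lit 0) (nat_lit 0) (XT.nd (nat_lit 94) (nat_lit 0) (nat_lit 0) (XT.lf (nat_lit 0) (nat_lit 10866957253) (nat_lit 0) (nat_lit 0) (nat_lit 0) (nat_lit 0) (nat_lit 0) (nat_lit 0) (nat_lit 1) (nat_lit 0) (nat_lit 1) (nat_lit 0) (nat_lit 367) (nat_lit 390) (nat_lit 323)) (XT.lf (nat_lit 0) (nat_lit 10862345276) (nat_lit 0) (nat_lit 0) (nat_lit 0) (nat_lit 0) (nat_lit 0) (nat_lit 0) (nat_lit 1) (nat_lit 0) (nat_lit 1) (nat_lit 0) (nat_lit 368) (nat_lit 390) (nat_lit 322))) (XT.nd (nat_lit 94) (nat_lit 0) (nat_lit 0) (XT.lf (nat_lit 0) (nat_lit 10858074927) (nat_lit 0) (nat_lit 0) (nat_lit 0) (nat_lit 0) (nat_lit 0) (nat_lit 0) (nat_lit 1) (nat_lit 0) (nat_lit 1) (nat_lit 0) (nat_lit 369) (nat_lit 390) (nat_lit 321)) (XT.nd (nat_lit 94) (nat_lit 0) (nat_lit 0) (XT.lf (nat_lit 0)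 (nat_lit 10854120900) (nat_lit 0) (nat_lit 0) (nat_lit 0) (nat_lit 0) (nat_lit 0) (nat_lit 0) (nat_lit 1) (nat_lit 0) (nat_lit 1) (nat_lit 0) (nat_lit 370) (nat_lit 390) (nat_lit 320)) (XT.lf (nat_lit 0) (nat_lit 10850459764) (nat_lit 0) (nat_lit 0) (nat_lit 0) (nat_lit 0) (nat_lit 0) (nat_lit 0) (nat_lit 1) (nat_lit 0) (nat_lit 1) (nat_lit 0) (nat_lit 371) (nat_lit 390) (nat_lit 319))))))))
noncomputable def ec112 : XT := (XT.nd (nat_lit 1692) (nat_lit 0) (nat_lit 0) (XT.nd (nat_lit 846) (nat_lit 0) (nat_lit 0) (XT.nd (nat_lit 376) (nat_lit 0) (nat_lit 0) (XT.nd (nat_lit 188) (nat_lit 0) (nat_lit 0) (XT.nd (nat_lit 94) (nat_lit 0) (nat_lit 0) (XT.lf (nat_lit 0) (nat_lit 10847069823) (nat_lit 0) (nat_lit 0) (nat_lit 0) (nat_lit 0) (nat_lit 0) (nat_lit 0) (nat_lit 1) (nat_lit 0) (nat_lit 1) (nat_lit 0) (nat_lit 372) (nat_lit 390) (nat_lit 318)) (XT.lf (nat_lit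 0) (nat_lit 10843930989) (nat_lit 0) (nat_lit 0) (nat_lit 0) (nat_lit 0) (nat_lit 0) (nat_lit 0) (nat_lit 1) (nat_lit 0) (nat_lit 1) (nat_lit 0) (nat_lit 373) (nat_lit 390) (nat_lit 317))) (XT.nd (nat_lit 94) (nat_lit 0) (nat_lit 0) (XT.lf (nat_lit 0) (nat_lit 10841024661) (nat_lit 0) (nat_lit 0) (nat_lit 0) (nat_lit 0) (nat_lit 0) (nat_lit 0) (nat_lit 1) (nat_lit 0) (nat_lit 1) (nat_lit 0) (nat_lit 374) (nat_lit 390) (nat_lit 316)) (XT.lf (nat_lit 0) (nat_lit 10838333616) (nat_lit 0) (nat_lit 0) (nat_lit 0) (nat_lit 0) (nat_lit 0) (nat_lit 0) (nat_lit 1) (nat_lit 0) (nat_lit 1) (nat_lit 0) (nat_lit 375) (nat_lit 390) (nat_lit 315)))) (XT.nd (nat_lit 188) (nat_lit 0) (nat_lit 0) (XT.nd (nat_lit 94) (nat_lit 0) (nat_lit 0) (XT.lf (nat_lit 0) (nat_lit 10835841909) (nat_lit 0) (nat_lit 0) (nat_lit 0) (nat_lit 0) (nat_lit 0) (nat_lit 0) (nat_lit 1) (nat_lit 0)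 (nat_lit 1) (nat_lit 0) (nat_lit 376) (nat_lit 390) (nat_lit 314)) (XT.lf (nat_lit 0) (nat_lit 10833534772) (nat_lit 0) (nat_lit 0) (nat_lit 0) (nat_lit 0) (nat_lit 0) (nat_lit 0) (nat_lit 1) (nat_lit 0) (nat_lit 1) (nat_lit 0) (nat_lit 377) (nat_lit 390) (nat_lit 313))) (XT.nd (nat_lit 94) (nat_lit 0) (nat_lit 0) (XT.lf (nat_lit 0) (nat_lit 10831398534) (nat_lit 0) (nat_lit 0) (nat_lit 0) (nat_lit 0) (nat_lit 0) (nat_lit 0) (nat_lit 1) (nat_lit 0) (nat_lit 1) (nat_lit 0) (nat_lit 378) (nat_lit 390) (nat_lit 312)) (XT.nd (nat_lit 94) (nat_lit 0) (nat_lit 0) (XT.lf (nat_lit 0) (nat_lit 10829420536) (nat_lit 0) (nat_lit 0) (nat_lit 0) (nat_lit 0) (nat_lit 0) (nat_lit 0) (nat_lit 1) (nat_lit 0) (nat_lit 1) (nat_lit 0) (nat_lit 379) (nat_lit 390) (nat_lit 311)) (XT.lf (nat_lit 0) (nat_lit 10827589057) (nat_lit 0) (nat_lit 0) (nat_lit 0) (nat_lit 0) (nat_lit 0)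 (nat_lit 0) (nat_lit 1) (nat_lit 0) (nat_lit 1) (nat_lit 0) (nat_lit 380) (nat_lit 390) (nat_lit 310)))))) (XT.nd (nat_lit 376) (nat_lit 0) (nat_lit 0) (XT.nd (nat_lit 188) (nat_lit 0) (nat_lit 0) (XT.nd (nat_lit 94) (nat_lit 0) (nat_lit 0) (XT.lf (nat_lit 0) (nat_lit 10825893242) (nat_lit 0) (nat_lit 0) (nat_lit 0) (nat_lit 0) (nat_lit 0) (nat_lit 0) (nat_lit 1) (nat_lit 0) (nat_lit 1) (nat_lit 0) (nat_lit 381) (nat_lit 390) (nat_lit 309)) (XT.lf (nat_lit 0) (nat_lit 10824323044) (nat_lit 0) (nat_lit 0) (nat_lit 0) (nat_lit 0) (nat_lit 0) (nat_lit 0) (nat_lit 1) (nat_lit 0) (nat_lit 1) (nat_lit 0) (nat_lit 382) (nat_lit 390) (nat_lit 308))) (XT.nd (nat_lit 94) (nat_lit 0) (nat_lit 0) (XT.lf (nat_lit 0) (nat_lit 10822869156) (nat_lit 0) (nat_lit 0) (nat_lit 0) (nat_lit 0) (nat_lit 0) (nat_lit 0) (nat_lit 1) (nat_lit 0) (nat_lit 1) (nat_lit 0) (nat_lit 383)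 (nat_lit 390) (nat_lit 307)) (XT.lf (nat_lit 0) (nat_lit 10821522964) (nat_lit 0) (nat_lit 0) (nat_lit 0) (nat_lit 0) (nat_lit 0) (nat_lit 0) (nat_lit 1) (nat_lit 0) (nat_lit 1) (nat_lit 0) (nat_lit 384) (nat_lit 390) (nat_lit 306)))) (XT.nd (nat_lit 188) (nat_lit 0) (nat_lit 0) (XT.nd (nat_lit 94) (nat_lit 0) (nat_lit 0) (XT.lf (nat_lit 0) (nat_lit 10820276490) (nat_lit 0) (nat_lit 0) (nat_lit 0) (nat_lit 0) (nat_lit 0) (nat_lit 0) (nat_lit 1) (nat_lit 0) (nat_lit 1) (nat_lit 0) (nat_lit 385) (nat_lit 390) (nat_lit 305)) (XT.lf (nat_lit 0) (nat_lit 10819122347) (nat_lit 0) (nat_lit 0) (nat_lit 0) (nat_lit 0) (nat_lit 0) (nat_lit 0) (nat_lit 1) (nat_lit 0) (nat_lit 1) (nat_lit 0) (nat_lit 386) (nat_lit 390) (nat_lit 304))) (XT.nd (nat_lit 94) (nat_lit 0) (nat_lit 0) (XT.lf (nat_lit 0) (nat_lit 10818053696) (nat_lit 0) (nat_lit 0) (nat_lit 0) (nat_lit 0) (nat_lit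 0) (nat_lit 0) (nat_lit 1) (nat_lit 0) (nat_lit 1) (nat_lit 0) (nat_lit 387) (nat_lit 390) (nat_lit 303)) (XT.nd (nat_lit 94) (nat_lit 0) (nat_lit 0) (XT.lf (nat_lit 0) (nat_lit 10817064205) (nat_lit 0) (nat_lit 0) (nat_lit 0) (nat_lit 0) (nat_lit 0) (nat_lit 0) (nat_lit 1) (nat_lit 0) (nat_lit 1) (nat_lit 0) (nat_lit 388) (nat_lit 390) (nat_lit 302)) (XT.lf (nat_lit 0) (nat_lit 10816148009) (nat_lit 0) (nat_lit 0) (nat_lit 0) (nat_lit 0) (nat_lit 0) (nat_lit 0) (nat_lit 1) (nat_lit 0) (nat_lit 1) (nat_lit 0) (nat_lit 389) (nat_lit 390) (nat_lit 301))))))) (XT.nd (nat_lit 846) (nat_lit 0) (nat_lit 0) (XT.nd (nat_lit 376) (nat_lit 0) (nat_lit 0) (XT.nd (nat_lit 188) (nat_lit 0) (nat_lit 0) (XT.nd (nat_lit 94) (nat_lit 0) (nat_lit 0) (XT.lf (nat_lit 0) (nat_lit 10815299679) (nat_lit 0) (nat_lit 0) (nat_lit 0) (nat_lit 0) (nat_lit 0) (nat_lit 0) (nat_lit 1) (nat_lit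 0) (nat_lit 1) (nat_lit 0) (nat_lit 390) (nat_lit 390) (nat_lit 300)) (XT.lf (nat_lit 0) (nat_lit 10814514189) (nat_lit 0) (nat_lit 0) (nat_lit 0) (nat_lit 0) (nat_lit 0) (nat_lit 0) (nat_lit 1) (nat_lit 0) (nat_lit 1) (nat_lit 0) (nat_lit 391) (nat_lit 390) (nat_lit 299))) (XT.nd (nat_lit 94) (nat_lit 0) (nat_lit 0) (XT.lf (nat_lit 0) (nat_lit 10813786884) (nat_lit 0) (nat_lit 0) (nat_lit 0) (nat_lit 0) (nat_lit 0) (nat_lit 0) (nat_lit 1) (nat_lit 0) (nat_lit 1) (nat_lit 0) (nat_lit 392) (nat_lit 390) (nat_lit 298)) (XT.lf (nat_lit 0) (nat_lit 10813113452) (nat_lit 0) (nat_lit 0) (nat_lit 0) (nat_lit 0) (nat_lit 0) (nat_lit 0) (nat_lit 1) (nat_lit 0) (nat_lit 1) (nat_lit 0) (nat_lit 393) (nat_lit 390) (nat_lit 297)))) (XT.nd (nat_lit 188) (nat_lit 0) (nat_lit 0) (XT.nd (nat_lit 94) (nat_lit 0) (nat_lit 0) (XT.lf (nat_lit 0) (nat_lit 10812489905) (nat_lit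 0) (nat_lit 0) (nat_lit 0) (nat_lit 0) (nat_lit 0) (nat_lit 0) (nat_lit 1) (nat_lit 0) (nat_lit 1) (nat_lit 0) (nat_lit 394) (nat_lit 390) (nat_lit 296)) (XT.lf (nat_lit 0) (nat_lit 10811912546) (nat_lit 0) (nat_lit 0) (nat_lit 0) (nat_lit 0) (nat_lit 0) (nat_lit 0) (nat_lit 1) (nat_lit 0) (nat_lit 1) (nat_lit 0) (nat_lit 395) (nat_lit 390) (nat_lit 295))) (XT.nd (nat_lit 94) (nat_lit 0) (nat_lit 0) (XT.lf (nat_lit 0) (nat_lit 10811377955) (nat_lit 0) (nat_lit 0) (nat_lit 0) (nat_lit 0) (nat_lit 0) (nat_lit 0) (nat_lit 1) (nat_lit 0) (nat_lit 1) (nat_lit 0) (nat_lit 396) (nat_lit 390) (nat_lit 294)) (XT.nd (nat_lit 94) (nat_lit 0) (nat_lit 0) (XT.lf (nat_lit 0) (nat_lit 10810882963) (nat_lit 0) (nat_lit 0) (nat_lit 0) (nat_lit 0) (nat_lit 0) (nat_lit 0) (nat_lit 1) (nat_lit 0) (nat_lit 1) (nat_lit 0) (nat_lit 397) (nat_lit 390) (nat_lit 293)) (XT.lf (nat_lit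 0) (nat_lit 10810424637) (nat_lit 0) (nat_lit 0) (nat_lit 0) (nat_lit 0) (nat_lit 0) (nat_lit 0) (nat_lit 1) (nat_lit 0) (nat_lit 1) (nat_lit 0) (nat_lit 398) (nat_lit 390) (nat_lit 292)))))) (XT.nd (nat_lit 470) (nat_lit 0) (nat_lit 0) (XT.nd (nat_lit 188) (nat_lit 0) (nat_lit 0) (XT.nd (nat_lit 94) (nat_lit 0) (nat_lit 0) (XT.lf (nat_lit 0) (nat_lit 10810000261) (nat_lit 0) (nat_lit 0) (nat_lit 0) (nat_lit 0) (nat_lit 0) (nat_lit 0) (nat_lit 1) (nat_lit 0) (nat_lit 1) (nat_lit 0) (nat_lit 399) (nat_lit 390) (nat_lit 291)) (XT.lf (nat_lit 0) (nat_lit 10809607320) (nat_lit 0) (nat_lit 0) (nat_lit 0) (nat_lit 0) (nat_lit 0) (nat_lit 0) (nat_lit 1) (nat_lit 0) (nat_lit 1) (nat_lit 0) (nat_lit 400) (nat_lit 390) (nat_lit 290))) (XT.nd (nat_lit 94) (nat_lit 0) (nat_lit 0) (XT.lf (nat_lit 0) (nat_lit 10809243486) (nat_lit 0) (nat_lit 0) (nat_lit 0) (nat_lit 0)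 (nat_lit 0) (nat_lit 0) (nat_lit 1) (nat_lit 0) (nat_lit 1) (nat_lit 0) (nat_lit 401) (nat_lit 390) (nat_lit 289)) (XT.nd (nat_lit 94) (nat_lit 0) (nat_lit 0) (XT.lf (nat_lit 0) (nat_lit 10808906603) (nat_lit 0) (nat_lit 0) (nat_lit 0) (nat_lit 0) (nat_lit 0) (nat_lit 0) (nat_lit 1) (nat_lit 0) (nat_lit 1) (nat_lit 0) (nat_lit 402) (nat_lit 390) (nat_lit 288)) (XT.lf (nat_lit 0) (nat_lit 10808594674) (nat_lit 0) (nat_lit 0) (nat_lit 0) (nat_lit 0) (nat_lit 0) (nat_lit 0) (nat_lit 1) (nat_lit 0) (nat_lit 1) (nat_lit 0) (nat_lit 403) (nat_lit 390) (nat_lit 287))))) (XT.nd (nat_lit 188) (nat_lit 0) (nat_lit 0) (XT.nd (nat_lit 94) (nat_lit 0) (nat_lit 0) (XT.lf (nat_lit 0) (nat_lit 10808305851) (nat_lit 0) (nat_lit 0) (nat_lit 0) (nat_lit 0) (nat_lit 0) (nat_lit 0) (nat_lit 1) (nat_lit 0) (nat_lit 1) (nat_lit 0) (nat_lit 404) (nat_lit 390) (nat_lit 286)) (XT.lf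 (nat_lit 0) (nat_lit 10808038422) (nat_lit 0) (nat_lit 0) (nat_lit 0) (nat_lit 0) (nat_lit 0) (nat_lit 0) (nat_lit 1) (nat_lit 0) (nat_lit 1) (nat_lit 0) (nat_lit 405) (nat_lit 390) (nat_lit 285))) (XT.nd (nat_lit 94) (nat_lit 0) (nat_lit 0) (XT.lf (nat_lit 0) (nat_lit 10807790803) (nat_lit 0) (nat_lit 0) (nat_lit 0) (nat_lit 0) (nat_lit 0) (nat_lit 0) (nat_lit 1) (nat_lit 0) (nat_lit 1) (nat_lit 0) (nat_lit 406) (nat_lit 390) (nat_lit 284)) (XT.nd (nat_lit 94) (nat_lit 0) (nat_lit 0) (XT.lf (nat_lit 0) (nat_lit 10807561526) (nat_lit 0) (nat_lit 0) (nat_lit 0) (nat_lit 0) (nat_lit 0) (nat_lit 0) (nat_lit 1) (nat_lit 0) (nat_lit 1) (nat_lit 0) (nat_lit 407) (nat_lit 390) (nat_lit 283)) (XT.lf (nat_lit 0) (nat_lit 10807349232) (nat_lit 0) (nat_lit 0) (nat_lit 0) (nat_lit 0) (nat_lit 0) (nat_lit 0) (nat_lit 1) (nat_lit 0) (nat_lit 1) (nat_lit 0) (nat_lit 408)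 (nat_lit 390) (nat_lit 282))))))))
noncomputable def ec113 : XT := (XT.nd (nat_lit 1786) (nat_lit 0) (nat_lit 0) (XT.nd (nat_lit 846) (nat_lit 0) (nat_lit 0) (XT.nd (nat_lit 376) (nat_lit 0) (nat_lit 0) (XT.nd (nat_lit 188) (nat_lit 0) (nat_lit 0) (XT.nd (nat_lit 94) (nat_lit 0) (nat_lit 0) (XT.lf (nat_lit 0) (nat_lit 10807152664) (nat_lit 0) (nat_lit 0) (nat_lit 0) (nat_lit 0) (nat_lit 0) (nat_lit 0) (nat_lit 1) (nat_lit 0) (nat_lit 1) (nat_lit 0) (nat_lit 409) (nat_lit 390) (nat_lit 281)) (XT.lf (nat_lit 0) (nat_lit 10806970656) (nat_lit 0) (nat_lit 0) (nat_lit 0) (nat_lit 0) (nat_lit 0) (nat_lit 0) (nat_lit 1) (nat_lit 0) (nat_lit 1) (nat_lit 0) (nat_lit 410) (nat_lit 390) (nat_lit 280))) (XT.nd (nat_lit 94) (nat_lit 0) (nat_lit 0) (XT.lf (nat_lit 0) (nat_lit 10806802131) (nat_lit 0) (nat_lit 0) (nat_lit 0) (nat_lit 0) (nat_lit 0) (nat_lit 0) (nat_lit 1)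 (nat_lit 0) (nat_lit 1) (nat_lit 0) (nat_lit 411) (nat_lit 390) (nat_lit 279)) (XT.lf (nat_lit 0) (nat_lit 10806646089) (nat_lit 0) (nat_lit 0) (nat_lit 0) (nat_lit 0) (nat_lit 0) (nat_lit 0) (nat_lit 1) (nat_lit 0) (nat_lit 1) (nat_lit 0) (nat_lit 412) (nat_lit 390) (nat_lit 278)))) (XT.nd (nat_lit 188) (nat_lit 0) (nat_lit 0) (XT.nd (nat_lit 94) (nat_lit 0) (nat_lit 0) (XT.lf (nat_lit 0) (nat_lit 10806501605) (nat_lit 0) (nat_lit 0) (nat_lit 0) (nat_lit 0) (nat_lit 0) (nat_lit 0) (nat_lit 1) (nat_lit 0) (nat_lit 1) (nat_lit 0) (nat_lit 413) (nat_lit 390) (nat_lit 277)) (XT.lf (nat_lit 0) (nat_lit 10806367824) (nat_lit 0) (nat_lit 0) (nat_lit 0) (nat_lit 0) (nat_lit 0) (nat_lit 0) (nat_lit 1) (nat_lit 0) (nat_lit 1) (nat_lit 0) (nat_lit 414) (nat_lit 390) (nat_lit 276))) (XT.nd (nat_lit 94) (nat_lit 0) (nat_lit 0) (XT.lf (nat_lit 0) (nat_lit 10806243953)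 (nat_lit 0) (nat_lit 0) (nat_lit 0) (nat_lit 0) (nat_lit 0) (nat_lit 0) (nat_lit 1) (nat_lit 0) (nat_lit 1) (nat_lit 0) (nat_lit 415) (nat_lit 390) (nat_lit 275)) (XT.nd (nat_lit 94) (nat_lit 0) (nat_lit 0) (XT.lf (nat_lit 0) (nat_lit 10806129257) (nat_lit 0) (nat_lit 0) (nat_lit 0) (nat_lit 0) (nat_lit 0) (nat_lit 0) (nat_lit 1) (nat_lit 0) (nat_lit 1) (nat_lit 0) (nat_lit 416) (nat_lit 390) (nat_lit 274)) (XT.lf (nat_lit 0) (nat_lit 10806023058) (nat_lit 0) (nat_lit 0) (nat_lit 0) (nat_lit 0) (nat_lit 0) (nat_lit 0) (nat_lit 1) (nat_lit 0) (nat_lit 1) (nat_lit 0) (nat_lit 417) (nat_lit 390) (nat_lit 273)))))) (XT.nd (nat_lit 470) (nat_lit 0) (nat_lit 0) (XT.nd (nat_lit 188) (nat_lit 0) (nat_lit 0) (XT.nd (nat_lit 94) (nat_lit 0) (nat_lit 0) (XT.lf (nat_lit 0) (nat_lit 10805924724) (nat_lit 0) (nat_lit 0) (nat_lit 0) (nat_lit 0) (nat_lit 0) (nat_lit 0) (nat_lit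 1) (nat_lit 0) (nat_lit 1) (nat_lit 0) (nat_lit 418) (nat_lit 390) (nat_lit 272)) (XT.lf (nat_lit 0) (nat_lit 10805833675) (nat_lit 0) (nat_lit 0) (nat_lit 0) (nat_lit 0) (nat_lit 0) (nat_lit 0) (nat_lit 1) (nat_lit 0) (nat_lit 1) (nat_lit 0) (nat_lit 419) (nat_lit 390) (nat_lit 271))) (XT.nd (nat_lit 94) (nat_lit 0) (nat_lit 0) (XT.lf (nat_lit 0) (nat_lit 10805749371) (nat_lit 0) (nat_lit 0) (nat_lit 0) (nat_lit 0) (nat_lit 0) (nat_lit 0) (nat_lit 1) (nat_lit 0) (nat_lit 1) (nat_lit 0) (nat_lit 420) (nat_lit 390) (nat_lit 270)) (XT.nd (nat_lit 94) (nat_lit 0) (nat_lit 0) (XT.lf (nat_lit 0) (nat_lit 10805671311) (nat_lit 0) (nat_lit 0) (nat_lit 0) (nat_lit 0) (nat_lit 0) (nat_lit 0) (nat_lit 1) (nat_lit 0) (nat_lit 1) (nat_lit 0) (nat_lit 421) (nat_lit 390) (nat_lit 269)) (XT.lf (nat_lit 0) (nat_lit 10805599033) (nat_lit 0) (nat_lit 0) (nat_lit 0) (nat_lit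 0) (nat_lit 0) (nat_lit 0) (nat_lit 1) (nat_lit 0) (nat_lit 1) (nat_lit 0) (nat_lit 422) (nat_lit 390) (nat_lit 268))))) (XT.nd (nat_lit 188) (nat_lit 0) (nat_lit 0) (XT.nd (nat_lit 94) (nat_lit 0) (nat_lit 0) (XT.lf (nat_lit 0) (nat_lit 10805532109) (nat_lit 0) (nat_lit 0) (nat_lit 0) (nat_lit 0) (nat_lit 0) (nat_lit 0) (nat_lit 1) (nat_lit 0) (nat_lit 1) (nat_lit 0) (nat_lit 423) (nat_lit 390) (nat_lit 267)) (XT.lf (nat_lit 0) (nat_lit 10805470143) (nat_lit 0) (nat_lit 0) (nat_lit 0) (nat_lit 0) (nat_lit 0) (nat_lit 0) (nat_lit 1) (nat_lit 0) (nat_lit 1) (nat_lit 0) (nat_lit 424) (nat_lit 390) (nat_lit 266))) (XT.nd (nat_lit 94) (nat_lit 0) (nat_lit 0) (XT.lf (nat_lit 0) (nat_lit 10805412766) (nat_lit 0) (nat_lit 0) (nat_lit 0) (nat_lit 0) (nat_lit 0) (nat_lit 0) (nat_lit 1) (nat_lit 0) (nat_lit 1) (nat_lit 0) (nat_lit 425) (nat_lit 390) (nat_lit 265)) (XT.nd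 (nat_lit 94) (nat_lit 0) (nat_lit 0) (XT.lf (nat_lit 0) (nat_lit 10805359640) (nat_lit 0) (nat_lit 0) (nat_lit 0) (nat_lit 0) (nat_lit 0) (nat_lit 0) (nat_lit 1) (nat_lit 0) (nat_lit 1) (nat_lit 0) (nat_lit 426) (nat_lit 390) (nat_lit 264)) (XT.lf (nat_lit 0) (nat_lit 10805310449) (nat_lit 0) (nat_lit 0) (nat_lit 0) (nat_lit 0) (nat_lit 0) (nat_lit 0) (nat_lit 1) (nat_lit 0) (nat_lit 1) (nat_lit 0) (nat_lit 427) (nat_lit 390) (nat_lit 263))))))) (XT.nd (nat_lit 846) (nat_lit 0) (nat_lit 0) (XT.nd (nat_lit 376) (nat_lit 0) (nat_lit 0) (XT.nd (nat_lit 188) (nat_lit 0) (nat_lit 0) (XT.nd (nat_lit 94) (nat_lit 0) (nat_lit 0) (XT.lf (nat_lit 0) (nat_lit 10805264902) (nat_lit 0) (nat_lit 0) (nat_lit 0) (nat_lit 0) (nat_lit 0) (nat_lit 0) (nat_lit 1) (nat_lit 0) (nat_lit 1) (nat_lit 0) (nat_lit 428) (nat_lit 390) (nat_lit 262)) (XT.lf (nat_lit 0) (nat_lit 10805222729)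 (nat_lit 0) (nat_lit 0) (nat_lit 0) (nat_lit 0) (nat_lit 0) (nat_lit 0) (nat_lit 1) (nat_lit 0) (nat_lit 1) (nat_lit 0) (nat_lit 429) (nat_lit 390) (nat_lit 261))) (XT.nd (nat_lit 94) (nat_lit 0) (nat_lit 0) (XT.lf (nat_lit 0) (nat_lit 10805183679) (nat_lit 0) (nat_lit 0) (nat_lit 0) (nat_lit 0) (nat_lit 0) (nat_lit 0) (nat_lit 1) (nat_lit 0) (nat_lit 1) (nat_lit 0) (nat_lit 430) (nat_lit 390) (nat_lit 260)) (XT.lf (nat_lit 0) (nat_lit 10805147522) (nat_lit 0) (nat_lit 0) (nat_lit 0) (nat_lit 0) (nat_lit 0) (nat_lit 0) (nat_lit 1) (nat_lit 0) (nat_lit 1) (nat_lit 0) (nat_lit 431) (nat_lit 390) (nat_lit 259)))) (XT.nd (nat_lit 188) (nat_lit 0) (nat_lit 0) (XT.nd (nat_lit 94) (nat_lit 0) (nat_lit 0) (XT.lf (nat_lit 0) (nat_lit 10805114044) (nat_lit 0) (nat_lit 0) (nat_lit 0) (nat_lit 0) (nat_lit 0) (nat_lit 0) (nat_lit 1) (nat_lit 0) (nat_lit 1) (nat_lit 0)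 (nat_lit 432) (nat_lit 390) (nat_lit 258)) (XT.lf (nat_lit 0) (nat_lit 10805083045) (nat_lit 0) (nat_lit 0) (nat_lit 0) (nat_lit 0) (nat_lit 0) (nat_lit 0) (nat_lit 1) (nat_lit 0) (nat_lit 1) (nat_lit 0) (nat_lit 433) (nat_lit 390) (nat_lit 257))) (XT.nd (nat_lit 94) (nat_lit 0) (nat_lit 0) (XT.lf (nat_lit 0) (nat_lit 10805054343) (nat_lit 0) (nat_lit 0) (nat_lit 0) (nat_lit 0) (nat_lit 0) (nat_lit 0) (nat_lit 1) (nat_lit 0) (nat_lit 1) (nat_lit 0) (nat_lit 434) (nat_lit 390) (nat_lit 256)) (XT.nd (nat_lit 94) (nat_lit 0) (nat_lit 0) (XT.lf (nat_lit 0) (nat_lit 10805027766) (nat_lit 0) (nat_lit 0) (nat_lit 0) (nat_lit 0) (nat_lit 0) (nat_lit 0) (nat_lit 1) (nat_lit 0) (nat_lit 1) (nat_lit 0) (nat_lit 435) (nat_lit 390) (nat_lit 255)) (XT.lf (nat_lit 0) (nat_lit 10805003159) (nat_lit 0) (nat_lit 0) (nat_lit 0) (nat_lit 0) (nat_lit 0) (nat_lit 0) (nat_lit 1)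 (nat_lit 0) (nat_lit 1) (nat_lit 0) (nat_lit 436) (nat_lit 390) (nat_lit 254)))))) (XT.nd (nat_lit 54990) (nat_lit 0) (nat_lit 10332) (XT.nd (nat_lit 54708) (nat_lit 0) (nat_lit 10752) (XT.nd (nat_lit 94) (nat_lit 0) (nat_lit 0) (XT.lf (nat_lit 0) (nat_lit 10804980374) (nat_lit 0) (nat_lit 0) (nat_lit 0) (nat_lit 0) (nat_lit 0) (nat_lit 0) (nat_lit 1) (nat_lit 0) (nat_lit 1) (nat_lit 0) (nat_lit 437) (nat_lit 390) (nat_lit 253)) (XT.lf (nat_lit 0) (nat_lit 10804959276) (nat_lit 0) (nat_lit 0) (nat_lit 0) (nat_lit 0) (nat_lit 0) (nat_lit 0) (nat_lit 1) (nat_lit 0) (nat_lit 1) (nat_lit 0) (nat_lit 438) (nat_lit 390) (nat_lit 252))) (XT.nd (nat_lit 94) (nat_lit 0) (nat_lit 84) (XT.lf (nat_lit 924) (nat_lit 5839640327) (nat_lit 0) (nat_lit 10368267978) (nat_lit 924) (nat_lit 5839640327) (nat_lit 139) (nat_lit 1) (nat_lit 128) (nat_lit 0) (nat_lit 139) (nat_lit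 0) (nat_lit 298) (nat_lit 391) (nat_lit 391)) (XT.nd (nat_lit 94) (nat_lit 0) (nat_lit 0) (XT.lf (nat_lit 924) (nat_lit 2178365026) (nat_lit 0) (nat_lit 20356052417) (nat_lit 840) (nat_lit 19908151256) (nat_lit 140) (nat_lit 1) (nat_lit 129) (nat_lit 1) (nat_lit 139) (nat_lit 1) (nat_lit 299) (nat_lit 391) (nat_lit 390)) (XT.lf (nat_lit 924) (nat_lit 20007025397) (nat_lit 84) (nat_lit 13632455165) (nat_lit 0) (nat_lit 7230032360) (nat_lit 140) (nat_lit 1) (nat_lit 130) (nat_lit 1) (nat_lit 129) (nat_lit 1) (nat_lit 300) (nat_lit 391) (nat_lit 389))))) (XT.nd (nat_lit 188) (nat_lit 588) (nat_lit 0) (XT.nd (nat_lit 94) (nat_lit 0) (nat_lit 84) (XT.lf (nat_lit 924) (nat_lit 17287708942) (nat_lit 84) (nat_lit 5713267468) (nat_lit 0) (nat_lit 16374200436) (nat_lit 141) (nat_lit 1) (nat_lit 131) (nat_lit 1) (nat_lit 130) (nat_lit 1) (nat_lit 301) (nat_lit 391) (nat_lit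 388)) (XT.lf (nat_lit 924) (nat_lit 12794374367) (nat_lit 0) (nat_lit 23937669677) (nat_lit 840) (nat_lit 1223690253) (nat_lit 142) (nat_lit 1) (nat_lit 131) (nat_lit 1) (nat_lit 141) (nat_lit 1) (nat_lit 302) (nat_lit 391) (nat_lit 387))) (XT.nd (nat_lit 94) (nat_lit 756) (nat_lit 0) (XT.lf (nat_lit 924) (nat_lit 3069884684) (nat_lit 0) (nat_lit 26397930962) (nat_lit 840) (nat_lit 7136264421) (nat_lit 143) (nat_lit 1) (nat_lit 132) (nat_lit 1) (nat_lit 142) (nat_lit 1) (nat_lit 303) (nat_lit 391) (nat_lit 386)) (XT.nd (nat_lit 94) (nat_lit 756) (nat_lit 0) (XT.lf (nat_lit 924) (nat_lit 5899069735) (nat_lit 84) (nat_lit 22941951682) (nat_lit 0) (nat_lit 6474501814) (nat_lit 143) (nat_lit 1) (nat_lit 133) (nat_lit 1) (nat_lit 132) (nat_lit 1) (nat_lit 304) (nat_lit 391) (nat_lit 385)) (XT.lf (nat_lit 924) (nat_lit 1211534406) (nat_lit 0) (nat_lit 17150626434)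 (nat_lit 840) (nat_lit 15726944738) (nat_lit 134) (nat_lit 1) (nat_lit 123) (nat_lit 1) (nat_lit 133) (nat_lit 1) (nat_lit 305) (nat_lit 391) (nat_lit 384))))))))
noncomputable def ec114 : XT := (XT.nd (nat_lit 1692) (nat_lit 3024) (nat_lit 0) (XT.nd (nat_lit 846) (nat_lit 2436) (nat_lit 0) (XT.nd (nat_lit 376) (nat_lit 1344) (nat_lit 0) (XT.nd (nat_lit 188) (nat_lit 756) (nat_lit 0) (XT.nd (nat_lit 94) (nat_lit 420) (nat_lit 0) (XT.lf (nat_lit 84) (nat_lit 8388916605) (nat_lit 0) (nat_lit 3635307953) (nat_lit 588) (nat_lit 20896533060) (nat_lit 117) (nat_lit 1) (nat_lit 116) (nat_lit 1) (nat_lit 123) (nat_lit 1) (nat_lit 306) (nat_lit 391) (nat_lit 383)) (XT.lf (nat_lit 504) (nat_lit 23118798277) (nat_lit 0) (nat_lit 7525667240) (nat_lit 420) (nat_lit 1163514655) (nat_lit 117) (nat_lit 1) (nat_lit 111) (nat_lit 1) (nat_lit 116) (nat_lit 1) (nat_lit 307) (nat_lit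 391) (nat_lit 382))) (XT.nd (nat_lit 94) (nat_lit 336) (nat_lit 0) (XT.lf (nat_lit 504) (nat_lit 16682744990) (nat_lit 0) (nat_lit 3507745918) (nat_lit 420) (nat_lit 10552559258) (nat_lit 112) (nat_lit 1) (nat_lit 106) (nat_lit 1) (nat_lit 111) (nat_lit 1) (nat_lit 308) (nat_lit 391) (nat_lit 381)) (XT.lf (nat_lit 420) (nat_lit 10151237556) (nat_lit 0) (nat_lit 64583302) (nat_lit 336) (nat_lit 19513935444) (nat_lit 107) (nat_lit 1) (nat_lit 102) (nat_lit 1) (nat_lit 106) (nat_lit 1) (nat_lit 309) (nat_lit 391) (nat_lit 380)))) (XT.nd (nat_lit 188) (nat_lit 924) (nat_lit 0) (XT.nd (nat_lit 94) (nat_lit 420) (nat_lit 0) (XT.lf (nat_lit 84) (nat_lit 748910332) (nat_lit 0) (nat_lit 25256885311) (nat_lit 420) (nat_lit 2757280121) (nat_lit 103) (nat_lit 1) (nat_lit 102) (nat_lit 1) (nat_lit 107) (nat_lit 1) (nat_lit 310) (nat_lit 391) (nat_lit 379)) (XT.lf (nat_lit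 84) (nat_lit 19337059024) (nat_lit 0) (nat_lit 3207258144) (nat_lit 420) (nat_lit 5289351162) (nat_lit 98) (nat_lit 1) (nat_lit 97) (nat_lit 1) (nat_lit 102) (nat_lit 1) (nat_lit 311) (nat_lit 391) (nat_lit 378))) (XT.nd (nat_lit 94) (nat_lit 588) (nat_lit 0) (XT.lf (nat_lit 84) (nat_lit 9674820643) (nat_lit 0) (nat_lit 9824401036) (nat_lit 420) (nat_lit 7446105175) (nat_lit 94) (nat_lit 1) (nat_lit 93) (nat_lit 1) (nat_lit 98) (nat_lit 1) (nat_lit 312) (nat_lit 391) (nat_lit 377)) (XT.nd (nat_lit 94) (nat_lit 252) (nat_lit 0) (XT.lf (nat_lit 84) (nat_lit 477527693) (nat_lit 0) (nat_lit 16426245982) (nat_lit 420) (nat_lit 9195271737) (nat_lit 90) (nat_lit 1) (nat_lit 89) (nat_lit 1) (nat_lit 94) (nat_lit 1) (nat_lit 313) (nat_lit 391) (nat_lit 376)) (XT.lf (nat_lit 336) (nat_lit 2156488150) (nat_lit 0) (nat_lit 14583297114) (nat_lit 252) (nat_lit 8546147269)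 (nat_lit 90) (nat_lit 1) (nat_lit 86) (nat_lit 1) (nat_lit 89) (nat_lit 1) (nat_lit 314) (nat_lit 391) (nat_lit 375)))))) (XT.nd (nat_lit 376) (nat_lit 1176) (nat_lit 0) (XT.nd (nat_lit 188) (nat_lit 588) (nat_lit 0) (XT.nd (nat_lit 94) (nat_lit 252) (nat_lit 0) (XT.lf (nat_lit 84) (nat_lit 7451246351) (nat_lit 0) (nat_lit 5107130549) (nat_lit 420) (nat_lit 11948033922) (nat_lit 82) (nat_lit 1) (nat_lit 81) (nat_lit 1) (nat_lit 86) (nat_lit 1) (nat_lit 315) (nat_lit 391) (nat_lit 374)) (XT.lf (nat_lit 336) (nat_lit 11536321609) (nat_lit 0) (nat_lit 10836883117) (nat_lit 252) (nat_lit 1387108177) (nat_lit 82) (nat_lit 1) (nat_lit 78) (nat_lit 1) (nat_lit 81) (nat_lit 1) (nat_lit 316) (nat_lit 391) (nat_lit 373))) (XT.nd (nat_lit 94) (nat_lit 336) (nat_lit 0) (XT.lf (nat_lit 336) (nat_lit 3697335343) (nat_lit 0) (nat_lit 9330112598) (nat_lit 252) (nat_lit 10015439795)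 (nat_lit 79) (nat_lit 1) (nat_lit 75) (nat_lit 1) (nat_lit 78) (nat_lit 1) (nat_lit 317) (nat_lit 391) (nat_lit 372)) (XT.lf (nat_lit 84) (nat_lit 4214068895) (nat_lit 0) (nat_lit 3858346284) (nat_lit 336) (nat_lit 14282843406) (nat_lit 72) (nat_lit 1) (nat_lit 71) (nat_lit 1) (nat_lit 75) (nat_lit 1) (nat_lit 318) (nat_lit 391) (nat_lit 371)))) (XT.nd (nat_lit 188) (nat_lit 756) (nat_lit 0) (XT.nd (nat_lit 94) (nat_lit 168) (nat_lit 0) (XT.lf (nat_lit 336) (nat_lit 10486157352) (nat_lit 0) (nat_lit 6977100515) (nat_lit 252) (nat_lit 4229541271) (nat_lit 72) (nat_lit 1) (nat_lit 68) (nat_lit 1) (nat_lit 71) (nat_lit 1) (nat_lit 319) (nat_lit 391) (nat_lit 370)) (XT.lf (nat_lit 252) (nat_lit 2599533891) (nat_lit 0) (nat_lit 6087011288) (nat_lit 168) (nat_lit 12370519973) (nat_lit 69) (nat_lit 1) (nat_lit 66) (nat_lit 1) (nat_lit 68) (nat_lit 1) (nat_lit 320)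 (nat_lit 391) (nat_lit 369))) (XT.nd (nat_lit 94) (nat_lit 420) (nat_lit 0) (XT.lf (nat_lit 84) (nat_lit 440377649) (nat_lit 0) (nat_lit 4927921493) (nat_lit 336) (nat_lit 15077674748) (nat_lit 63) (nat_lit 1) (nat_lit 62) (nat_lit 1) (nat_lit 66) (nat_lit 1) (nat_lit 321) (nat_lit 391) (nat_lit 368)) (XT.nd (nat_lit 94) (nat_lit 252) (nat_lit 0) (XT.lf (nat_lit 252) (nat_lit 7553768506) (nat_lit 0) (nat_lit 4720457280) (nat_lit 168) (nat_lit 7580055697) (nat_lit 63) (nat_lit 1) (nat_lit 60) (nat_lit 1) (nat_lit 62) (nat_lit 1) (nat_lit 322) (nat_lit 391) (nat_lit 367)) (XT.lf (nat_lit 84) (nat_lit 4098359117) (nat_lit 0) (nat_lit 189305777) (nat_lit 252) (nat_lit 15000743599) (nat_lit 58) (nat_lit 1) (nat_lit 57) (nat_lit 1) (nat_lit 60) (nat_lit 1) (nat_lit 323) (nat_lit 391) (nat_lit 366))))))) (XT.nd (nat_lit 846) (nat_lit 1512) (nat_lit 0) (XT.nd (nat_lit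 376) (nat_lit 756) (nat_lit 0) (XT.nd (nat_lit 188) (nat_lit 420) (nat_lit 0) (XT.nd (nat_lit 94) (nat_lit 168) (nat_lit 0) (XT.lf (nat_lit 252) (nat_lit 11204122416) (nat_lit 0) (nat_lit 3882479634) (nat_lit 168) (nat_lit 3652394297) (nat_lit 58) (nat_lit 1) (nat_lit 55) (nat_lit 1) (nat_lit 57) (nat_lit 1) (nat_lit 324) (nat_lit 391) (nat_lit 365)) (XT.lf (nat_lit 252) (nat_lit 3480449402) (nat_lit 0) (nat_lit 3609194151) (nat_lit 168) (nat_lit 11120947077) (nat_lit 56) (nat_lit 1) (nat_lit 53) (nat_lit 1) (nat_lit 55) (nat_lit 1) (nat_lit 325) (nat_lit 391) (nat_lit 364))) (XT.nd (nat_lit 94) (nat_lit 168) (nat_lit 0) (XT.lf (nat_lit 252) (nat_lit 13816105028) (nat_lit 0) (nat_lit 3448292071) (nat_lit 168) (nat_lit 437455855) (nat_lit 53) (nat_lit 1) (nat_lit 50) (nat_lit 1) (nat_lit 52) (nat_lit 1) (nat_lit 326) (nat_lit 391) (nat_lit 363)) (XT.lf (nat_lit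 252) (nat_lit 6183448288) (nat_lit 0) (nat_lit 3291956347) (nat_lit 168) (nat_lit 7731846855) (nat_lit 51) (nat_lit 1) (nat_lit 48) (nat_lit 1) (nat_lit 50) (nat_lit 1) (nat_lit 327) (nat_lit 391) (nat_lit 362)))) (XT.nd (nat_lit 188) (nat_lit 420) (nat_lit 0) (XT.nd (nat_lit 94) (nat_lit 168) (nat_lit 0) (XT.lf (nat_lit 84) (nat_lit 2118069775) (nat_lit 0) (nat_lit 1164186591) (nat_lit 168) (nat_lit 13450908453) (nat_lit 47) (nat_lit 1) (nat_lit 46) (nat_lit 1) (nat_lit 48) (nat_lit 1) (nat_lit 328) (nat_lit 391) (nat_lit 361)) (XT.lf (nat_lit 252) (nat_lit 8113039768) (nat_lit 0) (nat_lit 3247500925) (nat_lit 168) (nat_lit 4910500579) (nat_lit 47) (nat_lit 1) (nat_lit 44) (nat_lit 1) (nat_lit 46) (nat_lit 1) (nat_lit 329) (nat_lit 391) (nat_lit 360))) (XT.nd (nat_lit 94) (nat_lit 336) (nat_lit 0) (XT.lf (nat_lit 168) (nat_lit 873659098) (nat_lit 0) (nat_lit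 3327263744) (nat_lit 84) (nat_lit 11626238927) (nat_lit 45) (nat_lit 1) (nat_lit 43) (nat_lit 1) (nat_lit 44) (nat_lit 1) (nat_lit 330) (nat_lit 391) (nat_lit 359)) (XT.nd (nat_lit 94) (nat_lit 84) (nat_lit 0) (XT.lf (nat_lit 252) (nat_lit 9430827414) (nat_lit 0) (nat_lit 3402902918) (nat_lit 168) (nat_lit 2561791062) (nat_lit 43) (nat_lit 1) (nat_lit 40) (nat_lit 1) (nat_lit 42) (nat_lit 1) (nat_lit 331) (nat_lit 391) (nat_lit 358)) (XT.lf (nat_lit 168) (nat_lit 2371922637) (nat_lit 0) (nat_lit 3530140888) (nat_lit 84) (nat_lit 9076364643) (nat_lit 41) (nat_lit 1) (nat_lit 39) (nat_lit 1) (nat_lit 40) (nat_lit 1) (nat_lit 332) (nat_lit 391) (nat_lit 357)))))) (XT.nd (nat_lit 470) (nat_lit 588) (nat_lit 0) (XT.nd (nat_lit 188) (nat_lit 588) (nat_lit 0) (XT.nd (nat_lit 94) (nat_lit 84) (nat_lit 0) (XT.lf (nat_lit 252) (nat_lit 10267469777) (nat_lit 0) (nat_lit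 3700400627) (nat_lit 168) (nat_lit 607267420) (nat_lit 39) (nat_lit 1) (nat_lit 36) (nat_lit 1) (nat_lit 38) (nat_lit 1) (nat_lit 333) (nat_lit 391) (nat_lit 356)) (XT.lf (nat_lit 168) (nat_lit 3413522084) (nat_lit 0) (nat_lit 3857712119) (nat_lit 84) (nat_lit 6911424415) (nat_lit 37) (nat_lit 1) (nat_lit 35) (nat_lit 1) (nat_lit 36) (nat_lit 1) (nat_lit 334) (nat_lit 391) (nat_lit 355))) (XT.nd (nat_lit 94) (nat_lit 336) (nat_lit 0) (XT.lf (nat_lit 84) (nat_lit 985278319) (nat_lit 0) (nat_lit 3092526006) (nat_lit 252) (nat_lit 9726474928) (nat_lit 33) (nat_lit 1) (nat_lit 32) (nat_lit 1) (nat_lit 35) (nat_lit 1) (nat_lit 335) (nat_lit 391) (nat_lit 354)) (XT.nd (nat_lit 94) (nat_lit 252) (nat_lit 0) (XT.lf (nat_lit 168) (nat_lit 4096534478) (nat_lit 0) (nat_lit 4268394755) (nat_lit 84) (nat_lit 5070367475) (nat_lit 33) (nat_lit 1) (nat_lit 31) (nat_lit 1)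 (nat_lit 32) (nat_lit 1) (nat_lit 336) (nat_lit 391) (nat_lit 353)) (XT.lf (nat_lit 84) (nat_lit 2291390501) (nat_lit 0) (nat_lit 2219366644) (nat_lit 252) (nat_lit 8568523967) (nat_lit 29) (nat_lit 1) (nat_lit 28) (nat_lit 1) (nat_lit 31) (nat_lit 1) (nat_lit 337) (nat_lit 391) (nat_lit 352))))) (XT.nd (nat_lit 188) (nat_lit 336) (nat_lit 0) (XT.nd (nat_lit 94) (nat_lit 168) (nat_lit 0) (XT.lf (nat_lit 168) (nat_lit 4500052316) (nat_lit 0) (nat_lit 4729728819) (nat_lit 84) (nat_lit 3502580445) (nat_lit 29) (nat_lit 1) (nat_lit 27) (nat_lit 1) (nat_lit 28) (nat_lit 1) (nat_lit 338) (nat_lit 391) (nat_lit 351)) (XT.lf (nat_lit 84) (nat_lit 3373456679) (nat_lit 0) (nat_lit 1607391747) (nat_lit 168) (nat_lit 7416050776) (nat_lit 26) (nat_lit 1) (nat_lit 25) (nat_lit 1) (nat_lit 27) (nat_lit 1) (nat_lit 339) (nat_lit 391) (nat_lit 350))) (XT.nd (nat_lit 94) (nat_lit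 252) (nat_lit 0) (XT.lf (nat_lit 168) (nat_lit 4687730943) (nat_lit 0) (nat_lit 5216599065) (nat_lit 84) (nat_lit 2166025527) (nat_lit 26) (nat_lit 1) (nat_lit 24) (nat_lit 1) (nat_lit 25) (nat_lit 1) (nat_lit 340) (nat_lit 391) (nat_lit 349)) (XT.nd (nat_lit 94) (nat_lit 84) (nat_lit 0) (XT.lf (nat_lit 84) (nat_lit 4267109041) (nat_lit 0) (nat_lit 1199135202) (nat_lit 168) (nat_lit 6287611767) (nat_lit 23) (nat_lit 1) (nat_lit 22) (nat_lit 1) (nat_lit 24) (nat_lit 1) (nat_lit 341) (nat_lit 391) (nat_lit 348)) (XT.lf (nat_lit 168) (nat_lit 4710681075) (nat_lit 0) (nat_lit 5709789998) (nat_lit 84) (nat_lit 1025716835) (nat_lit 23) (nat_lit 1) (nat_lit 21) (nat_lit 1) (nat_lit 22) (nat_lit 1) (nat_lit 342) (nat_lit 391) (nat_lit 347))))))))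
noncomputable def ec115 : XT := (XT.nd (nat_lit 1786) (nat_lit 0) (nat_lit 0) (XT.nd (nat_lit 846) (nat_lit 588) (nat_lit 0) (XT.nd (nat_lit 376) (nat_lit 672) (nat_lit 0) (XT.nd (nat_lit 188) (nat_lit 252) (nat_lit 0) (XT.nd (nat_lit 94) (nat_lit 84) (nat_lit 0) (XT.lf (nat_lit 84) (nat_lit 5001961911) (nat_lit 0) (nat_lit 948388913) (nat_lit 168) (nat_lit 5196895330) (nat_lit 20) (nat_lit 1) (nat_lit 19) (nat_lit 1) (nat_lit 21) (nat_lit 1) (nat_lit 343) (nat_lit 391) (nat_lit 346)) (XT.lf (nat_lit 168) (nat_lit 4609826845) (nat_lit 0) (nat_lit 6194812380) (nat_lit 84) (nat_lit 52473064) (nat_lit 20) (nat_lit 1) (nat_lit 18) (nat_lit 1) (nat_lit 19) (nat_lit 1) (nat_lit 344) (nat_lit 391) (nat_lit 345))) (XT.nd (nat_lit 94) (nat_lit 84) (nat_lit 0) (XT.lf (nat_lit 84) (nat_lit 5602676971) (nat_lit 0) (nat_lit 818088905) (nat_lit 168) (nat_lit 4153713847)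 (nat_lit 17) (nat_lit 1) (nat_lit 16) (nat_lit 1) (nat_lit 18) (nat_lit 1) (nat_lit 345) (nat_lit 391) (nat_lit 344)) (XT.lf (nat_lit 0) (nat_lit 753199841) (nat_lit 0) (nat_lit 5894995346) (nat_lit 168) (nat_lit 3651872031) (nat_lit 15) (nat_lit 3) (nat_lit 15) (nat_lit 1) (nat_lit 17) (nat_lit 1) (nat_lit 346) (nat_lit 391) (nat_lit 343)))) (XT.nd (nat_lit 188) (nat_lit 420) (nat_lit 0) (XT.nd (nat_lit 94) (nat_lit 84) (nat_lit 0) (XT.lf (nat_lit 84) (nat_lit 6089835659) (nat_lit 0) (nat_lit 778592376) (nat_lit 168) (nat_lit 3164807393) (nat_lit 14) (nat_lit 1) (nat_lit 13) (nat_lit 1) (nat_lit 15) (nat_lit 1) (nat_lit 347) (nat_lit 391) (nat_lit 342)) (XT.lf (nat_lit 0) (nat_lit 1438890347) (nat_lit 0) (nat_lit 5637234054) (nat_lit 168) (nat_lit 2697385568) (nat_lit 12) (nat_lit 3) (nat_lit 12) (nat_lit 1) (nat_lit 14) (nat_lit 1) (nat_lit 348) (nat_lit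 391) (nat_lit 341))) (XT.nd (nat_lit 94) (nat_lit 252) (nat_lit 0) (XT.lf (nat_lit 84) (nat_lit 6480653966) (nat_lit 0) (nat_lit 806273772) (nat_lit 168) (nat_lit 2234494049) (nat_lit 11) (nat_lit 1) (nat_lit 10) (nat_lit 1) (nat_lit 12) (nat_lit 1) (nat_lit 349) (nat_lit 391) (nat_lit 340)) (XT.nd (nat_lit 94) (nat_lit 168) (nat_lit 0) (XT.lf (nat_lit 0) (nat_lit 2022919695) (nat_lit 0) (nat_lit 5450922591) (nat_lit 168) (nat_lit 1801635049) (nat_lit 9) (nat_lit 3) (nat_lit 9) (nat_lit 1) (nat_lit 11) (nat_lit 1) (nat_lit 350) (nat_lit 391) (nat_lit 339)) (XT.lf (nat_lit 84) (nat_lit 6789568378) (nat_lit 0) (nat_lit 882381173) (nat_lit 168) (nat_lit 1365195350) (nat_lit 8) (nat_lit 1) (nat_lit 7) (nat_lit 1) (nat_lit 9) (nat_lit 1) (nat_lit 351) (nat_lit 391) (nat_lit 338)))))) (XT.nd (nat_lit 470) (nat_lit 0) (nat_lit 0) (XT.nd (nat_lit 188) (nat_lit 336)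 (nat_lit 0) (XT.nd (nat_lit 94) (nat_lit 168) (nat_lit 0) (XT.lf (nat_lit 0) (nat_lit 2519318588) (nat_lit 0) (nat_lit 5318328073) (nat_lit 168) (nat_lit 966504858) (nat_lit 6) (nat_lit 3) (nat_lit 6) (nat_lit 1) (nat_lit 8) (nat_lit 1) (nat_lit 352) (nat_lit 391) (nat_lit 337)) (XT.lf (nat_lit 84) (nat_lit 7028716476) (nat_lit 0) (nat_lit 992105047) (nat_lit 168) (nat_lit 557860100) (nat_lit 5) (nat_lit 1) (nat_lit 4) (nat_lit 1) (nat_lit 6) (nat_lit 1) (nat_lit 353) (nat_lit 391) (nat_lit 336))) (XT.nd (nat_lit 94) (nat_lit 252) (nat_lit 0) (XT.lf (nat_lit 0) (nat_lit 2939953652) (nat_lit 0) (nat_lit 5225381738) (nat_lit 168) (nat_lit 192540687) (nat_lit 3) (nat_lit 3) (nat_lit 3) (nat_lit 1) (nat_lit 5) (nat_lit 1) (nat_lit 354) (nat_lit 391) (nat_lit 335)) (XT.nd (nat_lit 94) (nat_lit 0) (nat_lit 0) (XT.lf (nat_lit 0) (nat_lit 11814242995) (nat_lit 0)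 (nat_lit 0) (nat_lit 0) (nat_lit 0) (nat_lit 0) (nat_lit 0) (nat_lit 1) (nat_lit 0) (nat_lit 1) (nat_lit 0) (nat_lit 355) (nat_lit 391) (nat_lit 334)) (XT.lf (nat_lit 0) (nat_lit 11803489529) (nat_lit 0) (nat_lit 0) (nat_lit 0) (nat_lit 0) (nat_lit 0) (nat_lit 0) (nat_lit 1) (nat_lit 0) (nat_lit 1) (nat_lit 0) (nat_lit 356) (nat_lit 391) (nat_lit 333))))) (XT.nd (nat_lit 188) (nat_lit 0) (nat_lit 0) (XT.nd (nat_lit 94) (nat_lit 0) (nat_lit 0) (XT.lf (nat_lit 0) (nat_lit 11793532617) (nat_lit 0) (nat_lit 0) (nat_lit 0) (nat_lit 0) (nat_lit 0) (nat_lit 0) (nat_lit 1) (nat_lit 0) (nat_lit 1) (nat_lit 0) (nat_lit 357) (nat_lit 391) (nat_lit 332)) (XT.lf (nat_lit 0) (nat_lit 11784313253) (nat_lit 0) (nat_lit 0) (nat_lit 0) (nat_lit 0) (nat_lit 0) (nat_lit 0) (nat_lit 1) (nat_lit 0) (nat_lit 1) (nat_lit 0) (nat_lit 358) (nat_lit 391) (nat_lit 331))) (XT.nd (nat_lit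 94) (nat_lit 0) (nat_lit 0) (XT.lf (nat_lit 0) (nat_lit 11775776805) (nat_lit 0) (nat_lit 0) (nat_lit 0) (nat_lit 0) (nat_lit 0) (nat_lit 0) (nat_lit 1) (nat_lit 0) (nat_lit 1) (nat_lit 0) (nat_lit 359) (nat_lit 391) (nat_lit 330)) (XT.nd (nat_lit 94) (nat_lit 0) (nat_lit 0) (XT.lf (nat_lit 0) (nat_lit 11767872687) (nat_lit 0) (nat_lit 0) (nat_lit 0) (nat_lit 0) (nat_lit 0) (nat_lit 0) (nat_lit 1) (nat_lit 0) (nat_lit 1) (nat_lit 0) (nat_lit 360) (nat_lit 391) (nat_lit 329)) (XT.lf (nat_lit 0) (nat_lit 11760554059) (nat_lit 0) (nat_lit 0) (nat_lit 0) (nat_lit 0) (nat_lit 0) (nat_lit 0) (nat_lit 1) (nat_lit 0) (nat_lit 1) (nat_lit 0) (nat_lit 361) (nat_lit 391) (nat_lit 328))))))) (XT.nd (nat_lit 846) (nat_lit 0) (nat_lit 0) (XT.nd (nat_lit 376) (nat_lit 0) (nat_lit 0) (XT.nd (nat_lit 188) (nat_lit 0) (nat_lit 0) (XT.nd (nat_lit 94) (nat_lit 0) (nat_lit 0)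 (XT.lf (nat_lit 0) (nat_lit 11753777551) (nat_lit 0) (nat_lit 0) (nat_lit 0) (nat_lit 0) (nat_lit 0) (nat_lit 0) (nat_lit 1) (nat_lit 0) (nat_lit 1) (nat_lit 0) (nat_lit 362) (nat_lit 391) (nat_lit 327)) (XT.lf (nat_lit 0) (nat_lit 11747503007) (nat_lit 0) (nat_lit 0) (nat_lit 0) (nat_lit 0) (nat_lit 0) (nat_lit 0) (nat_lit 1) (nat_lit 0) (nat_lit 1) (nat_lit 0) (nat_lit 363) (nat_lit 391) (nat_lit 326))) (XT.nd (nat_lit 94) (nat_lit 0) (nat_lit 0) (XT.lf (nat_lit 0) (nat_lit 11741693244) (nat_lit 0) (nat_lit 0) (nat_lit 0) (nat_lit 0) (nat_lit 0) (nat_lit 0) (nat_lit 1) (nat_lit 0) (nat_lit 1) (nat_lit 0) (nat_lit 364) (nat_lit 391) (nat_lit 325)) (XT.lf (nat_lit 0) (nat_lit 11736313834) (nat_lit 0) (nat_lit 0) (nat_lit 0) (nat_lit 0) (nat_lit 0) (nat_lit 0) (nat_lit 1) (nat_lit 0) (nat_lit 1) (nat_lit 0) (nat_lit 365) (nat_lit 391) (nat_lit 324)))) (XT.nd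 (nat_lit 188) (nat_lit 0) (nat_lit 0) (XT.nd (nat_lit 94) (nat_lit 0) (nat_lit 0) (XT.lf (nat_lit 0) (nat_lit 11731332898) (nat_lit 0) (nat_lit 0) (nat_lit 0) (nat_lit 0) (nat_lit 0) (nat_lit 0) (nat_lit 1) (nat_lit 0) (nat_lit 1) (nat_lit 0) (nat_lit 366) (nat_lit 391) (nat_lit 323)) (XT.lf (nat_lit 0) (nat_lit 11726720921) (nat_lit 0) (nat_lit 0) (nat_lit 0) (nat_lit 0) (nat_lit 0) (nat_lit 0) (nat_lit 1) (nat_lit 0) (nat_lit 1) (nat_lit 0) (nat_lit 367) (nat_lit 391) (nat_lit 322))) (XT.nd (nat_lit 94) (nat_lit 0) (nat_lit 0) (XT.lf (nat_lit 0) (nat_lit 11722450572) (nat_lit 0) (nat_lit 0) (nat_lit 0) (nat_lit 0) (nat_lit 0) (nat_lit 0) (nat_lit 1) (nat_lit 0) (nat_lit 1) (nat_lit 0) (nat_lit 368) (nat_lit 391) (nat_lit 321)) (XT.nd (nat_lit 94) (nat_lit 0) (nat_lit 0) (XT.lf (nat_lit 0) (nat_lit 11718496545) (nat_lit 0) (nat_lit 0) (nat_lit 0) (nat_lit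 0) (nat_lit 0) (nat_lit 0) (nat_lit 1) (nat_lit 0) (nat_lit 1) (nat_lit 0) (nat_lit 369) (nat_lit 391) (nat_lit 320)) (XT.lf (nat_lit 0) (nat_lit 11714835409) (nat_lit 0) (nat_lit 0) (nat_lit 0) (nat_lit 0) (nat_lit 0) (nat_lit 0) (nat_lit 1) (nat_lit 0) (nat_lit 1) (nat_lit 0) (nat_lit 370) (nat_lit 391) (nat_lit 319)))))) (XT.nd (nat_lit 470) (nat_lit 0) (nat_lit 0) (XT.nd (nat_lit 188) (nat_lit 0) (nat_lit 0) (XT.nd (nat_lit 94) (nat_lit 0) (nat_lit 0) (XT.lf (nat_lit 0) (nat_lit 11711445468) (nat_lit 0) (nat_lit 0) (nat_lit 0) (nat_lit 0) (nat_lit 0) (nat_lit 0) (nat_lit 1) (nat_lit 0) (nat_lit 1) (nat_lit 0) (nat_lit 371) (nat_lit 391) (nat_lit 318)) (XT.lf (nat_lit 0) (nat_lit 11708306634) (nat_lit 0) (nat_lit 0) (nat_lit 0) (nat_lit 0) (nat_lit 0) (nat_lit 0) (nat_lit 1) (nat_lit 0) (nat_lit 1) (nat_lit 0) (nat_lit 372) (nat_lit 391) (nat_lit 317)))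 (XT.nd (nat_lit 94) (nat_lit 0) (nat_lit 0) (XT.lf (nat_lit 0) (nat_lit 11705400306) (nat_lit 0) (nat_lit 0) (nat_lit 0) (nat_lit 0) (nat_lit 0) (nat_lit 0) (nat_lit 1) (nat_lit 0) (nat_lit 1) (nat_lit 0) (nat_lit 373) (nat_lit 391) (nat_lit 316)) (XT.nd (nat_lit 94) (nat_lit 0) (nat_lit 0) (XT.lf (nat_lit 0) (nat_lit 11702709261) (nat_lit 0) (nat_lit 0) (nat_lit 0) (nat_lit 0) (nat_lit 0) (nat_lit 0) (nat_lit 1) (nat_lit 0) (nat_lit 1) (nat_lit 0) (nat_lit 374) (nat_lit 391) (nat_lit 315)) (XT.lf (nat_lit 0) (nat_lit 11700217554) (nat_lit 0) (nat_lit 0) (nat_lit 0) (nat_lit 0) (nat_lit 0) (nat_lit 0) (nat_lit 1) (nat_lit 0) (nat_lit 1) (nat_lit 0) (nat_lit 375) (nat_lit 391) (nat_lit 314))))) (XT.nd (nat_lit 188) (nat_lit 0) (nat_lit 0) (XT.nd (nat_lit 94) (nat_lit 0) (nat_lit 0) (XT.lf (nat_lit 0) (nat_lit 11697910417) (nat_lit 0) (nat_lit 0) (nat_lit 0)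 (nat_lit 0) (nat_lit 0) (nat_lit 0) (nat_lit 1) (nat_lit 0) (nat_lit 1) (nat_lit 0) (nat_lit 376) (nat_lit 391) (nat_lit 313)) (XT.lf (nat_lit 0) (nat_lit 11695774179) (nat_lit 0) (nat_lit 0) (nat_lit 0) (nat_lit 0) (nat_lit 0) (nat_lit 0) (nat_lit 1) (nat_lit 0) (nat_lit 1) (nat_lit 0) (nat_lit 377) (nat_lit 391) (nat_lit 312))) (XT.nd (nat_lit 94) (nat_lit 0) (nat_lit 0) (XT.lf (nat_lit 0) (nat_lit 11693796181) (nat_lit 0) (nat_lit 0) (nat_lit 0) (nat_lit 0) (nat_lit 0) (nat_lit 0) (nat_lit 1) (nat_lit 0) (nat_lit 1) (nat_lit 0) (nat_lit 378) (nat_lit 391) (nat_lit 311)) (XT.nd (nat_lit 94) (nat_lit 0) (nat_lit 0) (XT.lf (nat_lit 0) (nat_lit 11691964702) (nat_lit 0) (nat_lit 0) (nat_lit 0) (nat_lit 0) (nat_lit 0) (nat_lit 0) (nat_lit 1) (nat_lit 0) (nat_lit 1) (nat_lit 0) (nat_lit 379) (nat_lit 391) (nat_lit 310)) (XT.lf (nat_lit 0) (nat_lit 11690268887)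 (nat_lit 0) (nat_lit 0) (nat_lit 0) (nat_lit 0) (nat_lit 0) (nat_lit 0) (nat_lit 1) (nat_lit 0) (nat_lit 1) (nat_lit 0) (nat_lit 380) (nat_lit 391) (nat_lit 309))))))))
noncomputable def ec116 : XT := (XT.nd (nat_lit 1692) (nat_lit 0) (nat_lit 0) (XT.nd (nat_lit 846) (nat_lit 0) (nat_lit 0) (XT.nd (nat_lit 376) (nat_lit 0) (nat_lit 0) (XT.nd (nat_lit 188) (nat_lit 0) (nat_lit 0) (XT.nd (nat_lit 94) (nat_lit 0) (nat_lit 0) (XT.lf (nat_lit 0) (nat_lit 11688698689) (nat_lit 0) (nat_lit 0) (nat_lit 0) (nat_lit 0) (nat_lit 0) (nat_lit 0) (nat_lit 1) (nat_lit 0) (nat_lit 1) (nat_lit 0) (nat_lit 381) (nat_lit 391) (nat_lit 308)) (XT.lf (nat_lit 0) (nat_lit 11687244801) (nat_lit 0) (nat_lit 0) (nat_lit 0) (nat_lit 0) (nat_lit 0) (nat_lit 0) (nat_lit 1) (nat_lit 0) (nat_lit 1) (nat_lit 0) (nat_lit 382) (nat_lit 391) (nat_lit 307))) (XT.nd (nat_lit 94) (nat_lit 0) (nat_lit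 0) (XT.lf (nat_lit 0) (nat_lit 11685898609) (nat_lit 0) (nat_lit 0) (nat_lit 0) (nat_lit 0) (nat_lit 0) (nat_lit 0) (nat_lit 1) (nat_lit 0) (nat_lit 1) (nat_lit 0) (nat_lit 383) (nat_lit 391) (nat_lit 306)) (XT.lf (nat_lit 0) (nat_lit 11684652135) (nat_lit 0) (nat_lit 0) (nat_lit 0) (nat_lit 0) (nat_lit 0) (nat_lit 0) (nat_lit 1) (nat_lit 0) (nat_lit 1) (nat_lit 0) (nat_lit 384) (nat_lit 391) (nat_lit 305)))) (XT.nd (nat_lit 188) (nat_lit 0) (nat_lit 0) (XT.nd (nat_lit 94) (nat_lit 0) (nat_lit 0) (XT.lf (nat_lit 0) (nat_lit 11683497992) (nat_lit 0) (nat_lit 0) (nat_lit 0) (nat_lit 0) (nat_lit 0) (nat_lit 0) (nat_lit 1) (nat_lit 0) (nat_lit 1) (nat_lit 0) (nat_lit 385) (nat_lit 391) (nat_lit 304)) (XT.lf (nat_lit 0) (nat_lit 11682429341) (nat_lit 0) (nat_lit 0) (nat_lit 0) (nat_lit 0) (nat_lit 0) (nat_lit 0) (nat_lit 1) (nat_lit 0) (nat_lit 1) (nat_lit 0) (nat_lit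 386) (nat_lit 391) (nat_lit 303))) (XT.nd (nat_lit 94) (nat_lit 0) (nat_lit 0) (XT.lf (nat_lit 0) (nat_lit 11681439850) (nat_lit 0) (nat_lit 0) (nat_lit 0) (nat_lit 0) (nat_lit 0) (nat_lit 0) (nat_lit 1) (nat_lit 0) (nat_lit 1) (nat_lit 0) (nat_lit 387) (nat_lit 391) (nat_lit 302)) (XT.nd (nat_lit 94) (nat_lit 0) (nat_lit 0) (XT.lf (nat_lit 0) (nat_lit 11680523654) (nat_lit 0) (nat_lit 0) (nat_lit 0) (nat_lit 0) (nat_lit 0) (nat_lit 0) (nat_lit 1) (nat_lit 0) (nat_lit 1) (nat_lit 0) (nat_lit 388) (nat_lit 391) (nat_lit 301)) (XT.lf (nat_lit 0) (nat_lit 11679675324) (nat_lit 0) (nat_lit 0) (nat_lit 0) (nat_lit 0) (nat_lit 0) (nat_lit 0) (nat_lit 1) (nat_lit 0) (nat_lit 1) (nat_lit 0) (nat_lit 389) (nat_lit 391) (nat_lit 300)))))) (XT.nd (nat_lit 376) (nat_lit 0) (nat_lit 0) (XT.nd (nat_lit 188) (nat_lit 0) (nat_lit 0) (XT.nd (nat_lit 94) (nat_lit 0) (nat_lit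 0) (XT.lf (nat_lit 0) (nat_lit 11678889834) (nat_lit 0) (nat_lit 0) (nat_lit 0) (nat_lit 0) (nat_lit 0) (nat_lit 0) (nat_lit 1) (nat_lit 0) (nat_lit 1) (nat_lit 0) (nat_lit 390) (nat_lit 391) (nat_lit 299)) (XT.lf (nat_lit 0) (nat_lit 11678162529) (nat_lit 0) (nat_lit 0) (nat_lit 0) (nat_lit 0) (nat_lit 0) (nat_lit 0) (nat_lit 1) (nat_lit 0) (nat_lit 1) (nat_lit 0) (nat_lit 391) (nat_lit 391) (nat_lit 298))) (XT.nd (nat_lit 94) (nat_lit 0) (nat_lit 0) (XT.lf (nat_lit 0) (nat_lit 11677489097) (nat_lit 0) (nat_lit 0) (nat_lit 0) (nat_lit 0) (nat_lit 0) (nat_lit 0) (nat_lit 1) (nat_lit 0) (nat_lit 1) (nat_lit 0) (nat_lit 392) (nat_lit 391) (nat_lit 297)) (XT.lf (nat_lit 0) (nat_lit 11676865550) (nat_lit 0) (nat_lit 0) (nat_lit 0) (nat_lit 0) (nat_lit 0) (nat_lit 0) (nat_lit 1) (nat_lit 0) (nat_lit 1) (nat_lit 0) (nat_lit 393) (nat_lit 391) (nat_lit 296)))) (XT.nd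 (nat_lit 188) (nat_lit 0) (nat_lit 0) (XT.nd (nat_lit 94) (nat_lit 0) (nat_lit 0) (XT.lf (nat_lit 0) (nat_lit 11676288191) (nat_lit 0) (nat_lit 0) (nat_lit 0) (nat_lit 0) (nat_lit 0) (nat_lit 0) (nat_lit 1) (nat_lit 0) (nat_lit 1) (nat_lit 0) (nat_lit 394) (nat_lit 391) (nat_lit 295)) (XT.lf (nat_lit 0) (nat_lit 11675753600) (nat_lit 0) (nat_lit 0) (nat_lit 0) (nat_lit 0) (nat_lit 0) (nat_lit 0) (nat_lit 1) (nat_lit 0) (nat_lit 1) (nat_lit 0) (nat_lit 395) (nat_lit 391) (nat_lit 294))) (XT.nd (nat_lit 94) (nat_lit 0) (nat_lit 0) (XT.lf (nat_lit 0) (nat_lit 11675258608) (nat_lit 0) (nat_lit 0) (nat_lit 0) (nat_lit 0) (nat_lit 0) (nat_lit 0) (nat_lit 1) (nat_lit 0) (nat_lit 1) (nat_lit 0) (nat_lit 396) (nat_lit 391) (nat_lit 293)) (XT.nd (nat_lit 94) (nat_lit 0) (nat_lit 0) (XT.lf (nat_lit 0) (nat_lit 11674800282) (nat_lit 0) (nat_lit 0) (nat_lit 0) (nat_lit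 0) (nat_lit 0) (nat_lit 0) (nat_lit 1) (nat_lit 0) (nat_lit 1) (nat_lit 0) (nat_lit 397) (nat_lit 391) (nat_lit 292)) (XT.lf (nat_lit 0) (nat_lit 11674375906) (nat_lit 0) (nat_lit 0) (nat_lit 0) (nat_lit 0) (nat_lit 0) (nat_lit 0) (nat_lit 1) (nat_lit 0) (nat_lit 1) (nat_lit 0) (nat_lit 398) (nat_lit 391) (nat_lit 291))))))) (XT.nd (nat_lit 846) (nat_lit 0) (nat_lit 0) (XT.nd (nat_lit 376) (nat_lit 0) (nat_lit 0) (XT.nd (nat_lit 188) (nat_lit 0) (nat_lit 0) (XT.nd (nat_lit 94) (nat_lit 0) (nat_lit 0) (XT.lf (nat_lit 0) (nat_lit 11673982965) (nat_lit 0) (nat_lit 0) (nat_lit 0) (nat_lit 0) (nat_lit 0) (nat_lit 0) (nat_lit 1) (nat_lit 0) (nat_lit 1) (nat_lit 0) (nat_lit 399) (nat_lit 391) (nat_lit 290)) (XT.lf (nat_lit 0) (nat_lit 11673619131) (nat_lit 0) (nat_lit 0) (nat_lit 0) (nat_lit 0) (nat_lit 0) (nat_lit 0) (nat_lit 1) (nat_lit 0) (nat_lit 1) (nat_lit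 0) (nat_lit 400) (nat_lit 391) (nat_lit 289))) (XT.nd (nat_lit 94) (nat_lit 0) (nat_lit 0) (XT.lf (nat_lit 0) (nat_lit 11673282248) (nat_lit 0) (nat_lit 0) (nat_lit 0) (nat_lit 0) (nat_lit 0) (nat_lit 0) (nat_lit 1) (nat_lit 0) (nat_lit 1) (nat_lit 0) (nat_lit 401) (nat_lit 391) (nat_lit 288)) (XT.lf (nat_lit 0) (nat_lit 11672970319) (nat_lit 0) (nat_lit 0) (nat_lit 0) (nat_lit 0) (nat_lit 0) (nat_lit 0) (nat_lit 1) (nat_lit 0) (nat_lit 1) (nat_lit 0) (nat_lit 402) (nat_lit 391) (nat_lit 287)))) (XT.nd (nat_lit 188) (nat_lit 0) (nat_lit 0) (XT.nd (nat_lit 94) (nat_lit 0) (nat_lit 0) (XT.lf (nat_lit 0) (nat_lit 11672681496) (nat_lit 0) (nat_lit 0) (nat_lit 0) (nat_lit 0) (nat_lit 0) (nat_lit 0) (nat_lit 1) (nat_lit 0) (nat_lit 1) (nat_lit 0) (nat_lit 403) (nat_lit 391) (nat_lit 286)) (XT.lf (nat_lit 0) (nat_lit 11672414067) (nat_lit 0) (nat_lit 0) (nat_lit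 0) (nat_lit 0) (nat_lit 0) (nat_lit 0) (nat_lit 1) (nat_lit 0) (nat_lit 1) (nat_lit 0) (nat_lit 404) (nat_lit 391) (nat_lit 285))) (XT.nd (nat_lit 94) (nat_lit 0) (nat_lit 0) (XT.lf (nat_lit 0) (nat_lit 11672166448) (nat_lit 0) (nat_lit 0) (nat_lit 0) (nat_lit 0) (nat_lit 0) (nat_lit 0) (nat_lit 1) (nat_lit 0) (nat_lit 1) (nat_lit 0) (nat_lit 405) (nat_lit 391) (nat_lit 284)) (XT.nd (nat_lit 94) (nat_lit 0) (nat_lit 0) (XT.lf (nat_lit 0) (nat_lit 11671937171) (nat_lit 0) (nat_lit 0) (nat_lit 0) (nat_lit 0) (nat_lit 0) (nat_lit 0) (nat_lit 1) (nat_lit 0) (nat_lit 1) (nat_lit 0) (nat_lit 406) (nat_lit 391) (nat_lit 283)) (XT.lf (nat_lit 0) (nat_lit 11671724877) (nat_lit 0) (nat_lit 0) (nat_lit 0) (nat_lit 0) (nat_lit 0) (nat_lit 0) (nat_lit 1) (nat_lit 0) (nat_lit 1) (nat_lit 0) (nat_lit 407) (nat_lit 391) (nat_lit 282)))))) (XT.nd (nat_lit 470) (nat_lit 0)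 (nat_lit 0) (XT.nd (nat_lit 188) (nat_lit 0) (nat_lit 0) (XT.nd (nat_lit 94) (nat_lit 0) (nat_lit 0) (XT.lf (nat_lit 0) (nat_lit 11671528309) (nat_lit 0) (nat_lit 0) (nat_lit 0) (nat_lit 0) (nat_lit 0) (nat_lit 0) (nat_lit 1) (nat_lit 0) (nat_lit 1) (nat_lit 0) (nat_lit 408) (nat_lit 391) (nat_lit 281)) (XT.lf (nat_lit 0) (nat_lit 11671346301) (nat_lit 0) (nat_lit 0) (nat_lit 0) (nat_lit 0) (nat_lit 0) (nat_lit 0) (nat_lit 1) (nat_lit 0) (nat_lit 1) (nat_lit 0) (nat_lit 409) (nat_lit 391) (nat_lit 280))) (XT.nd (nat_lit 94) (nat_lit 0) (nat_lit 0) (XT.lf (nat_lit 0) (nat_lit 11671177776) (nat_lit 0) (nat_lit 0) (nat_lit 0) (nat_lit 0) (nat_lit 0) (nat_lit 0) (nat_lit 1) (nat_lit 0) (nat_lit 1) (nat_lit 0) (nat_lit 410) (nat_lit 391) (nat_lit 279)) (XT.nd (nat_lit 94) (nat_lit 0) (nat_lit 0) (XT.lf (nat_lit 0) (nat_lit 11671021734) (nat_lit 0) (nat_lit 0) (nat_lit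 0) (nat_lit 0) (nat_lit 0) (nat_lit 0) (nat_lit 1) (nat_lit 0) (nat_lit 1) (nat_lit 0) (nat_lit 411) (nat_lit 391) (nat_lit 278)) (XT.lf (nat_lit 0) (nat_lit 11670877250) (nat_lit 0) (nat_lit 0) (nat_lit 0) (nat_lit 0) (nat_lit 0) (nat_lit 0) (nat_lit 1) (nat_lit 0) (nat_lit 1) (nat_lit 0) (nat_lit 412) (nat_lit 391) (nat_lit 277))))) (XT.nd (nat_lit 188) (nat_lit 0) (nat_lit 0) (XT.nd (nat_lit 94) (nat_lit 0) (nat_lit 0) (XT.lf (nat_lit 0) (nat_lit 11670743469) (nat_lit 0) (nat_lit 0) (nat_lit 0) (nat_lit 0) (nat_lit 0) (nat_lit 0) (nat_lit 1) (nat_lit 0) (nat_lit 1) (nat_lit 0) (nat_lit 413) (nat_lit 391) (nat_lit 276)) (XT.lf (nat_lit 0) (nat_lit 11670619598) (nat_lit 0) (nat_lit 0) (nat_lit 0) (nat_lit 0) (nat_lit 0) (nat_lit 0) (nat_lit 1) (nat_lit 0) (nat_lit 1) (nat_lit 0) (nat_lit 414) (nat_lit 391) (nat_lit 275))) (XT.nd (nat_lit 94) (nat_lit 0) (nat_lit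 0) (XT.lf (nat_lit 0) (nat_lit 11670504902) (nat_lit 0) (nat_lit 0) (nat_lit 0) (nat_lit 0) (nat_lit 0) (nat_lit 0) (nat_lit 1) (nat_lit 0) (nat_lit 1) (nat_lit 0) (nat_lit 415) (nat_lit 391) (nat_lit 274)) (XT.nd (nat_lit 94) (nat_lit 0) (nat_lit 0) (XT.lf (nat_lit 0) (nat_lit 11670398702) (nat_lit 0) (nat_lit 0) (nat_lit 0) (nat_lit 0) (nat_lit 0) (nat_lit 0) (nat_lit 1) (nat_lit 0) (nat_lit 1) (nat_lit 0) (nat_lit 416) (nat_lit 391) (nat_lit 273)) (XT.lf (nat_lit 0) (nat_lit 11670300369) (nat_lit 0) (nat_lit 0) (nat_lit 0) (nat_lit 0) (nat_lit 0) (nat_lit 0) (nat_lit 1) (nat_lit 0) (nat_lit 1) (nat_lit 0) (nat_lit 417) (nat_lit 391) (nat_lit 272))))))))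
noncomputable def ec117 : XT := (XT.nd (nat_lit 1786) (nat_lit 0) (nat_lit 0) (XT.nd (nat_lit 846) (nat_lit 0) (nat_lit 0) (XT.nd (nat_lit 376) (nat_lit 0) (nat_lit 0) (XT.nd (nat_lit 188) (nat_lit 0) (nat_lit 0) (XT.nd (nat_lit 94) (nat_lit 0) (nat_lit 0) (XT.lf (nat_lit 0) (nat_lit 11670209320) (nat_lit 0) (nat_lit 0) (nat_lit 0) (nat_lit 0) (nat_lit 0) (nat_lit 0) (nat_lit 1) (nat_lit 0) (nat_lit 1) (nat_lit 0) (nat_lit 418) (nat_lit 391) (nat_lit 271)) (XT.lf (nat_lit 0) (nat_lit 11670125016) (nat_lit 0) (nat_lit 0) (nat_lit 0) (nat_lit 0) (nat_lit 0) (nat_lit 0) (nat_lit 1) (nat_lit 0) (nat_lit 1) (nat_lit 0) (nat_lit 419) (nat_lit 391) (nat_lit 270))) (XT.nd (nat_lit 94) (nat_lit 0) (nat_lit 0) (XT.lf (nat_lit 0) (nat_lit 11670046956) (nat_lit 0) (nat_lit 0) (nat_lit 0) (nat_lit 0) (nat_lit 0) (nat_lit 0) (nat_lit 1) (nat_lit 0) (nat_lit 1) (nat_lit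 0) (nat_lit 420) (nat_lit 391) (nat_lit 269)) (XT.lf (nat_lit 0) (nat_lit 11669974678) (nat_lit 0) (nat_lit 0) (nat_lit 0) (nat_lit 0) (nat_lit 0) (nat_lit 0) (nat_lit 1) (nat_lit 0) (nat_lit 1) (nat_lit 0) (nat_lit 421) (nat_lit 391) (nat_lit 268)))) (XT.nd (nat_lit 188) (nat_lit 0) (nat_lit 0) (XT.nd (nat_lit 94) (nat_lit 0) (nat_lit 0) (XT.lf (nat_lit 0) (nat_lit 11669907754) (nat_lit 0) (nat_lit 0) (nat_lit 0) (nat_lit 0) (nat_lit 0) (nat_lit 0) (nat_lit 1) (nat_lit 0) (nat_lit 1) (nat_lit 0) (nat_lit 422) (nat_lit 391) (nat_lit 267)) (XT.lf (nat_lit 0) (nat_lit 11669845788) (nat_lit 0) (nat_lit 0) (nat_lit 0) (nat_lit 0) (nat_lit 0) (nat_lit 0) (nat_lit 1) (nat_lit 0) (nat_lit 1) (nat_lit 0) (nat_lit 423) (nat_lit 391) (nat_lit 266))) (XT.nd (nat_lit 94) (nat_lit 0) (nat_lit 0) (XT.lf (nat_lit 0) (nat_lit 11669788411) (nat_lit 0) (nat_lit 0) (nat_lit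 0) (nat_lit 0) (nat_lit 0) (nat_lit 0) (nat_lit 1) (nat_lit 0) (nat_lit 1) (nat_lit 0) (nat_lit 424) (nat_lit 391) (nat_lit 265)) (XT.nd (nat_lit 94) (nat_lit 0) (nat_lit 0) (XT.lf (nat_lit 0) (nat_lit 11669735285) (nat_lit 0) (nat_lit 0) (nat_lit 0) (nat_lit 0) (nat_lit 0) (nat_lit 0) (nat_lit 1) (nat_lit 0) (nat_lit 1) (nat_lit 0) (nat_lit 425) (nat_lit 391) (nat_lit 264)) (XT.lf (nat_lit 0) (nat_lit 11669686094) (nat_lit 0) (nat_lit 0) (nat_lit 0) (nat_lit 0) (nat_lit 0) (nat_lit 0) (nat_lit 1) (nat_lit 0) (nat_lit 1) (nat_lit 0) (nat_lit 426) (nat_lit 391) (nat_lit 263)))))) (XT.nd (nat_lit 470) (nat_lit 0) (nat_lit 0) (XT.nd (nat_lit 188) (nat_lit 0) (nat_lit 0) (XT.nd (nat_lit 94) (nat_lit 0) (nat_lit 0) (XT.lf (nat_lit 0) (nat_lit 11669640547) (nat_lit 0) (nat_lit 0) (nat_lit 0) (nat_lit 0) (nat_lit 0) (nat_lit 0) (nat_lit 1) (nat_lit 0) (nat_lit 1)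 (nat_lit 0) (nat_lit 427) (nat_lit 391) (nat_lit 262)) (XT.lf (nat_lit 0) (nat_lit 11669598374) (nat_lit 0) (nat_lit 0) (nat_lit 0) (nat_lit 0) (nat_lit 0) (nat_lit 0) (nat_lit 1) (nat_lit 0) (nat_lit 1) (nat_lit 0) (nat_lit 428) (nat_lit 391) (nat_lit 261))) (XT.nd (nat_lit 94) (nat_lit 0) (nat_lit 0) (XT.lf (nat_lit 0) (nat_lit 11669559324) (nat_lit 0) (nat_lit 0) (nat_lit 0) (nat_lit 0) (nat_lit 0) (nat_lit 0) (nat_lit 1) (nat_lit 0) (nat_lit 1) (nat_lit 0) (nat_lit 429) (nat_lit 391) (nat_lit 260)) (XT.nd (nat_lit 94) (nat_lit 0) (nat_lit 0) (XT.lf (nat_lit 0) (nat_lit 11669523167) (nat_lit 0) (nat_lit 0) (nat_lit 0) (nat_lit 0) (nat_lit 0) (nat_lit 0) (nat_lit 1) (nat_lit 0) (nat_lit 1) (nat_lit 0) (nat_lit 430) (nat_lit 391) (nat_lit 259)) (XT.lf (nat_lit 0) (nat_lit 11669489689) (nat_lit 0) (nat_lit 0) (nat_lit 0) (nat_lit 0) (nat_lit 0) (nat_lit 0)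 (nat_lit 1) (nat_lit 0) (nat_lit 1) (nat_lit 0) (nat_lit 431) (nat_lit 391) (nat_lit 258))))) (XT.nd (nat_lit 188) (nat_lit 0) (nat_lit 0) (XT.nd (nat_lit 94) (nat_lit 0) (nat_lit 0) (XT.lf (nat_lit 0) (nat_lit 11669458690) (nat_lit 0) (nat_lit 0) (nat_lit 0) (nat_lit 0) (nat_lit 0) (nat_lit 0) (nat_lit 1) (nat_lit 0) (nat_lit 1) (nat_lit 0) (nat_lit 432) (nat_lit 391) (nat_lit 257)) (XT.lf (nat_lit 0) (nat_lit 11669429988) (nat_lit 0) (nat_lit 0) (nat_lit 0) (nat_lit 0) (nat_lit 0) (nat_lit 0) (nat_lit 1) (nat_lit 0) (nat_lit 1) (nat_lit 0) (nat_lit 433) (nat_lit 391) (nat_lit 256))) (XT.nd (nat_lit 94) (nat_lit 0) (nat_lit 0) (XT.lf (nat_lit 0) (nat_lit 11669403411) (nat_lit 0) (nat_lit 0) (nat_lit 0) (nat_lit 0) (nat_lit 0) (nat_lit 0) (nat_lit 1) (nat_lit 0) (nat_lit 1) (nat_lit 0) (nat_lit 434) (nat_lit 391) (nat_lit 255)) (XT.nd (nat_lit 94) (nat_lit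 0) (nat_lit 0) (XT.lf (nat_lit 0) (nat_lit 11669378804) (nat_lit 0) (nat_lit 0) (nat_lit 0) (nat_lit 0) (nat_lit 0) (nat_lit 0) (nat_lit 1) (nat_lit 0) (nat_lit 1) (nat_lit 0) (nat_lit 435) (nat_lit 391) (nat_lit 254)) (XT.lf (nat_lit 0) (nat_lit 11669356019) (nat_lit 0) (nat_lit 0) (nat_lit 0) (nat_lit 0) (nat_lit 0) (nat_lit 0) (nat_lit 1) (nat_lit 0) (nat_lit 1) (nat_lit 0) (nat_lit 436) (nat_lit 391) (nat_lit 253))))))) (XT.nd (nat_lit 55084) (nat_lit 0) (nat_lit 7476) (XT.nd (nat_lit 54614) (nat_lit 0) (nat_lit 10836) (XT.nd (nat_lit 188) (nat_lit 0) (nat_lit 0) (XT.nd (nat_lit 94) (nat_lit 0) (nat_lit 0) (XT.lf (nat_lit 0) (nat_lit 11669334921) (nat_lit 0) (nat_lit 0) (nat_lit 0) (nat_lit 0) (nat_lit 0) (nat_lit 0) (nat_lit 1) (nat_lit 0) (nat_lit 1) (nat_lit 0) (nat_lit 437) (nat_lit 391) (nat_lit 252)) (XT.lf (nat_lit 0) (nat_lit 11669315387) (nat_lit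 0) (nat_lit 0) (nat_lit 0) (nat_lit 0) (nat_lit 0) (nat_lit 0) (nat_lit 1) (nat_lit 0) (nat_lit 1) (nat_lit 0) (nat_lit 438) (nat_lit 391) (nat_lit 251))) (XT.nd (nat_lit 54332) (nat_lit 0) (nat_lit 10752) (XT.lf (nat_lit 0) (nat_lit 11669297300) (nat_lit 0) (nat_lit 0) (nat_lit 0) (nat_lit 0) (nat_lit 0) (nat_lit 0) (nat_lit 1) (nat_lit 0) (nat_lit 1) (nat_lit 0) (nat_lit 439) (nat_lit 391) (nat_lit 250)) (XT.lf (nat_lit 924) (nat_lit 6306811553) (nat_lit 0) (nat_lit 11197729416) (nat_lit 924) (nat_lit 6306811553) (nat_lit 139) (nat_lit 1) (nat_lit 128) (nat_lit 0) (nat_lit 139) (nat_lit 0) (nat_lit 296) (nat_lit 392) (nat_lit 392)))) (XT.nd (nat_lit 188) (nat_lit 0) (nat_lit 84) (XT.nd (nat_lit 94) (nat_lit 0) (nat_lit 0) (XT.lf (nat_lit 924) (nat_lit 2352634228) (nat_lit 0) (nat_lit 21984536611) (nat_lit 840) (nat_lit 21500803357) (nat_lit 140) (nat_lit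 1) (nat_lit 129) (nat_lit 1) (nat_lit 139) (nat_lit 1) (nat_lit 297) (nat_lit 392) (nat_lit 391)) (XT.lf (nat_lit 924) (nat_lit 21607587429) (nat_lit 84) (nat_lit 14723051579) (nat_lit 0) (nat_lit 7808434949) (nat_lit 140) (nat_lit 1) (nat_lit 130) (nat_lit 1) (nat_lit 129) (nat_lit 1) (nat_lit 298) (nat_lit 392) (nat_lit 390))) (XT.nd (nat_lit 94) (nat_lit 0) (nat_lit 84) (XT.lf (nat_lit 924) (nat_lit 18670725658) (nat_lit 84) (nat_lit 6170328866) (nat_lit 0) (nat_lit 17684136471) (nat_lit 141) (nat_lit 1) (nat_lit 131) (nat_lit 1) (nat_lit 130) (nat_lit 1) (nat_lit 299) (nat_lit 392) (nat_lit 389)) (XT.nd (nat_lit 94) (nat_lit 0) (nat_lit 84) (XT.lf (nat_lit 924) (nat_lit 13817924317) (nat_lit 0) (nat_lit 25852683252) (nat_lit 840) (nat_lit 1321585474) (nat_lit 142) (nat_lit 1) (nat_lit 131) (nat_lit 1) (nat_lit 141) (nat_lit 1) (nat_lit 300) (nat_lit 392)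 (nat_lit 388)) (XT.lf (nat_lit 924) (nat_lit 3315475458) (nat_lit 0) (nat_lit 28509765439) (nat_lit 840) (nat_lit 7707165575) (nat_lit 143) (nat_lit 1) (nat_lit 132) (nat_lit 1) (nat_lit 142) (nat_lit 1) (nat_lit 301) (nat_lit 392) (nat_lit 387)))))) (XT.nd (nat_lit 470) (nat_lit 1428) (nat_lit 0) (XT.nd (nat_lit 188) (nat_lit 1428) (nat_lit 0) (XT.nd (nat_lit 94) (nat_lit 756) (nat_lit 0) (XT.lf (nat_lit 924) (nat_lit 6370995313) (nat_lit 84) (nat_lit 24777307816) (nat_lit 0) (nat_lit 6992461959) (nat_lit 143) (nat_lit 1) (nat_lit 133) (nat_lit 1) (nat_lit 132) (nat_lit 1) (nat_lit 302) (nat_lit 392) (nat_lit 386)) (XT.lf (nat_lit 924) (nat_lit 1308457159) (nat_lit 0) (nat_lit 18522676548) (nat_lit 840) (nat_lit 16985100317) (nat_lit 134) (nat_lit 1) (nat_lit 123) (nat_lit 1) (nat_lit 133) (nat_lit 1) (nat_lit 303) (nat_lit 392) (nat_lit 385))) (XT.nd (nat_lit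 94) (nat_lit 840) (nat_lit 0) (XT.lf (nat_lit 84) (nat_lit 9060029933) (nat_lit 0) (nat_lit 3926132589) (nat_lit 588) (nat_lit 22568255705) (nat_lit 117) (nat_lit 1) (nat_lit 116) (nat_lit 1) (nat_lit 123) (nat_lit 1) (nat_lit 304) (nat_lit 392) (nat_lit 384)) (XT.nd (nat_lit 94) (nat_lit 420) (nat_lit 0) (XT.lf (nat_lit 504) (nat_lit 24968302139) (nat_lit 0) (nat_lit 8127720619) (nat_lit 420) (nat_lit 1256595828) (nat_lit 117) (nat_lit 1) (nat_lit 111) (nat_lit 1) (nat_lit 116) (nat_lit 1) (nat_lit 305) (nat_lit 392) (nat_lit 383)) (XT.lf (nat_lit 504) (nat_lit 18017364590) (nat_lit 0) (nat_lit 3788365592) (nat_lit 420) (nat_lit 11396763999) (nat_lit 112) (nat_lit 1) (nat_lit 106) (nat_lit 1) (nat_lit 111) (nat_lit 1) (nat_lit 306) (nat_lit 392) (nat_lit 382))))) (XT.nd (nat_lit 188) (nat_lit 1092) (nat_lit 0) (XT.nd (nat_lit 94) (nat_lit 0) (nat_lit 0) (XT.lf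 (nat_lit 420) (nat_lit 10963336560) (nat_lit 0) (nat_lit 69749966) (nat_lit 336) (nat_lit 21075050279) (nat_lit 107) (nat_lit 1) (nat_lit 102) (nat_lit 1) (nat_lit 106) (nat_lit 1) (nat_lit 307) (nat_lit 392) (nat_lit 381)) (XT.lf (nat_lit 84) (nat_lit 808823158) (nat_lit 0) (nat_lit 27277436136) (nat_lit 420) (nat_lit 2977862531) (nat_lit 103) (nat_lit 1) (nat_lit 102) (nat_lit 1) (nat_lit 107) (nat_lit 1) (nat_lit 308) (nat_lit 392) (nat_lit 380))) (XT.nd (nat_lit 94) (nat_lit 672) (nat_lit 0) (XT.lf (nat_lit 84) (nat_lit 20884023746) (nat_lit 0) (nat_lit 3463838795) (nat_lit 420) (nat_lit 5712499255) (nat_lit 98) (nat_lit 1) (nat_lit 97) (nat_lit 1) (nat_lit 102) (nat_lit 1) (nat_lit 309) (nat_lit 392) (nat_lit 379)) (XT.nd (nat_lit 94) (nat_lit 336) (nat_lit 0) (XT.lf (nat_lit 84) (nat_lit 10448806294) (nat_lit 0) (nat_lit 10610353119) (nat_lit 420) (nat_lit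 8041793589) (nat_lit 94) (nat_lit 1) (nat_lit 93) (nat_lit 1) (nat_lit 98) (nat_lit 1) (nat_lit 310) (nat_lit 392) (nat_lit 378)) (XT.lf (nat_lit 84) (nat_lit 515729908) (nat_lit 0) (nat_lit 17740345660) (nat_lit 420) (nat_lit 9930893476) (nat_lit 90) (nat_lit 1) (nat_lit 89) (nat_lit 1) (nat_lit 94) (nat_lit 1) (nat_lit 311) (nat_lit 392) (nat_lit 377))))))))
noncomputable def ec118 : XT := (XT.nd (nat_lit 1692) (nat_lit 2604) (nat_lit 0) (XT.nd (nat_lit 846) (nat_lit 1680) (nat_lit 0) (XT.nd (nat_lit 376) (nat_lit 1260) (nat_lit 0) (XT.nd (nat_lit 188) (nat_lit 504) (nat_lit 0) (XT.nd (nat_lit 94) (nat_lit 420) (nat_lit 0) (XT.lf (nat_lit 336) (nat_lit 2329007202) (nat_lit 0) (nat_lit 15749960883) (nat_lit 252) (nat_lit 9229839051) (nat_lit 90) (nat_lit 1) (nat_lit 86) (nat_lit 1) (nat_lit 89) (nat_lit 1) (nat_lit 312) (nat_lit 392) (nat_lit 376)) (XT.lf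 (nat_lit 84) (nat_lit 8047346059) (nat_lit 0) (nat_lit 5515700993) (nat_lit 420) (nat_lit 12903876636) (nat_lit 82) (nat_lit 1) (nat_lit 81) (nat_lit 1) (nat_lit 86) (nat_lit 1) (nat_lit 313) (nat_lit 392) (nat_lit 375))) (XT.nd (nat_lit 94) (nat_lit 252) (nat_lit 0) (XT.lf (nat_lit 336) (nat_lit 12459227338) (nat_lit 0) (nat_lit 11703833766) (nat_lit 252) (nat_lit 1498076831) (nat_lit 82) (nat_lit 1) (nat_lit 78) (nat_lit 1) (nat_lit 81) (nat_lit 1) (nat_lit 314) (nat_lit 392) (nat_lit 374)) (XT.lf (nat_lit 336) (nat_lit 3993122170) (nat_lit 0) (nat_lit 10076521606) (nat_lit 252) (nat_lit 10816674979) (nat_lit 79) (nat_lit 1) (nat_lit 75) (nat_lit 1) (nat_lit 78) (nat_lit 1) (nat_lit 315) (nat_lit 392) (nat_lit 373)))) (XT.nd (nat_lit 188) (nat_lit 672) (nat_lit 0) (XT.nd (nat_lit 94) (nat_lit 252) (nat_lit 0) (XT.lf (nat_lit 84) (nat_lit 4551194407) (nat_lit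 0) (nat_lit 4167013987) (nat_lit 336) (nat_lit 15425470879) (nat_lit 72) (nat_lit 1) (nat_lit 71) (nat_lit 1) (nat_lit 75) (nat_lit 1) (nat_lit 316) (nat_lit 392) (nat_lit 372)) (XT.lf (nat_lit 336) (nat_lit 11325049940) (nat_lit 0) (nat_lit 7535268556) (nat_lit 252) (nat_lit 4567904573) (nat_lit 72) (nat_lit 1) (nat_lit 68) (nat_lit 1) (nat_lit 71) (nat_lit 1) (nat_lit 317) (nat_lit 392) (nat_lit 371))) (XT.nd (nat_lit 94) (nat_lit 504) (nat_lit 0) (XT.lf (nat_lit 252) (nat_lit 2807496602) (nat_lit 0) (nat_lit 6573972191) (nat_lit 168) (nat_lit 13360161571) (nat_lit 69) (nat_lit 1) (nat_lit 66) (nat_lit 1) (nat_lit 68) (nat_lit 1) (nat_lit 318) (nat_lit 392) (nat_lit 370)) (XT.nd (nat_lit 94) (nat_lit 168) (nat_lit 0) (XT.lf (nat_lit 84) (nat_lit 475607860) (nat_lit 0) (nat_lit 5322155212) (nat_lit 336) (nat_lit 16283888728) (nat_lit 63) (nat_lit 1) (nat_lit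 62) (nat_lit 1) (nat_lit 66) (nat_lit 1) (nat_lit 319) (nat_lit 392) (nat_lit 369)) (XT.lf (nat_lit 252) (nat_lit 8158069987) (nat_lit 0) (nat_lit 5098093862) (nat_lit 168) (nat_lit 8186460152) (nat_lit 63) (nat_lit 1) (nat_lit 60) (nat_lit 1) (nat_lit 62) (nat_lit 1) (nat_lit 320) (nat_lit 392) (nat_lit 368)))))) (XT.nd (nat_lit 376) (nat_lit 840) (nat_lit 0) (XT.nd (nat_lit 188) (nat_lit 420) (nat_lit 0) (XT.nd (nat_lit 94) (nat_lit 168) (nat_lit 0) (XT.lf (nat_lit 84) (nat_lit 4426227847) (nat_lit 0) (nat_lit 204450239) (nat_lit 252) (nat_lit 16200803087) (nat_lit 58) (nat_lit 1) (nat_lit 57) (nat_lit 1) (nat_lit 60) (nat_lit 1) (nat_lit 321) (nat_lit 392) (nat_lit 367)) (XT.lf (nat_lit 252) (nat_lit 12100452209) (nat_lit 0) (nat_lit 4193078005) (nat_lit 168) (nat_lit 3944585841) (nat_lit 58) (nat_lit 1) (nat_lit 55) (nat_lit 1) (nat_lit 57) (nat_lit 1)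 (nat_lit 322) (nat_lit 392) (nat_lit 366))) (XT.nd (nat_lit 94) (nat_lit 252) (nat_lit 0) (XT.lf (nat_lit 252) (nat_lit 3758885355) (nat_lit 0) (nat_lit 3897929683) (nat_lit 168) (nat_lit 12010622844) (nat_lit 56) (nat_lit 1) (nat_lit 53) (nat_lit 1) (nat_lit 55) (nat_lit 1) (nat_lit 323) (nat_lit 392) (nat_lit 365)) (XT.lf (nat_lit 252) (nat_lit 14921393430) (nat_lit 0) (nat_lit 3724155437) (nat_lit 168) (nat_lit 472452323) (nat_lit 53) (nat_lit 1) (nat_lit 50) (nat_lit 1) (nat_lit 52) (nat_lit 1) (nat_lit 324) (nat_lit 392) (nat_lit 364)))) (XT.nd (nat_lit 188) (nat_lit 504) (nat_lit 0) (XT.nd (nat_lit 94) (nat_lit 168) (nat_lit 0) (XT.lf (nat_lit 252) (nat_lit 6678124151) (nat_lit 0) (nat_lit 3555312855) (nat_lit 168) (nat_lit 8350394604) (nat_lit 51) (nat_lit 1) (nat_lit 48) (nat_lit 1) (nat_lit 50) (nat_lit 1) (nat_lit 325) (nat_lit 392) (nat_lit 363))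 (XT.lf (nat_lit 84) (nat_lit 2287515357) (nat_lit 0) (nat_lit 1257321518) (nat_lit 168) (nat_lit 14526981129) (nat_lit 47) (nat_lit 1) (nat_lit 46) (nat_lit 1) (nat_lit 48) (nat_lit 1) (nat_lit 326) (nat_lit 392) (nat_lit 362))) (XT.nd (nat_lit 94) (nat_lit 336) (nat_lit 0) (XT.lf (nat_lit 252) (nat_lit 8762082950) (nat_lit 0) (nat_lit 3507300999) (nat_lit 168) (nat_lit 5303340626) (nat_lit 47) (nat_lit 1) (nat_lit 44) (nat_lit 1) (nat_lit 46) (nat_lit 1) (nat_lit 327) (nat_lit 392) (nat_lit 361)) (XT.nd (nat_lit 94) (nat_lit 252) (nat_lit 0) (XT.lf (nat_lit 168) (nat_lit 943551826) (nat_lit 0) (nat_lit 3593444844) (nat_lit 84) (nat_lit 12556338042) (nat_lit 45) (nat_lit 1) (nat_lit 43) (nat_lit 1) (nat_lit 44) (nat_lit 1) (nat_lit 328) (nat_lit 392) (nat_lit 360)) (XT.lf (nat_lit 252) (nat_lit 10185293608) (nat_lit 0) (nat_lit 3675135152) (nat_lit 168) (nat_lit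 2766734347) (nat_lit 43) (nat_lit 1) (nat_lit 40) (nat_lit 1) (nat_lit 42) (nat_lit 1) (nat_lit 329) (nat_lit 392) (nat_lit 359))))))) (XT.nd (nat_lit 846) (nat_lit 1260) (nat_lit 0) (XT.nd (nat_lit 376) (nat_lit 672) (nat_lit 0) (XT.nd (nat_lit 188) (nat_lit 336) (nat_lit 0) (XT.nd (nat_lit 94) (nat_lit 252) (nat_lit 0) (XT.lf (nat_lit 168) (nat_lit 2561676448) (nat_lit 0) (nat_lit 3812552159) (nat_lit 84) (nat_lit 9802473815) (nat_lit 41) (nat_lit 1) (nat_lit 39) (nat_lit 1) (nat_lit 40) (nat_lit 1) (nat_lit 330) (nat_lit 392) (nat_lit 358)) (XT.lf (nat_lit 252) (nat_lit 11088867359) (nat_lit 0) (nat_lit 3996432677) (nat_lit 168) (nat_lit 655848813) (nat_lit 39) (nat_lit 1) (nat_lit 36) (nat_lit 1) (nat_lit 38) (nat_lit 1) (nat_lit 331) (nat_lit 392) (nat_lit 357))) (XT.nd (nat_lit 94) (nat_lit 252) (nat_lit 0) (XT.lf (nat_lit 168) (nat_lit 3686603851) (nat_lit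 0) (nat_lit 4166329088) (nat_lit 84) (nat_lit 7464338368) (nat_lit 37) (nat_lit 1) (nat_lit 35) (nat_lit 1) (nat_lit 36) (nat_lit 1) (nat_lit 332) (nat_lit 392) (nat_lit 356)) (XT.lf (nat_lit 84) (nat_lit 1064100584) (nat_lit 0) (nat_lit 3339928087) (nat_lit 252) (nat_lit 10504592923) (nat_lit 33) (nat_lit 1) (nat_lit 32) (nat_lit 1) (nat_lit 35) (nat_lit 1) (nat_lit 333) (nat_lit 392) (nat_lit 355)))) (XT.nd (nat_lit 188) (nat_lit 336) (nat_lit 0) (XT.nd (nat_lit 94) (nat_lit 252) (nat_lit 0) (XT.lf (nat_lit 168) (nat_lit 4424257236) (nat_lit 0) (nat_lit 4609866335) (nat_lit 84) (nat_lit 5475996873) (nat_lit 33) (nat_lit 1) (nat_lit 31) (nat_lit 1) (nat_lit 32) (nat_lit 1) (nat_lit 334) (nat_lit 392) (nat_lit 354)) (XT.lf (nat_lit 84) (nat_lit 2474701741) (nat_lit 0) (nat_lit 2396915975) (nat_lit 252) (nat_lit 9254005885) (nat_lit 29) (nat_lit 1) (nat_lit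 28) (nat_lit 1) (nat_lit 31) (nat_lit 1) (nat_lit 335) (nat_lit 392) (nat_lit 353))) (XT.nd (nat_lit 94) (nat_lit 252) (nat_lit 0) (XT.lf (nat_lit 168) (nat_lit 4860056501) (nat_lit 0) (nat_lit 5108107125) (nat_lit 84) (nat_lit 3782786881) (nat_lit 29) (nat_lit 1) (nat_lit 27) (nat_lit 1) (nat_lit 28) (nat_lit 1) (nat_lit 336) (nat_lit 392) (nat_lit 352)) (XT.nd (nat_lit 94) (nat_lit 84) (nat_lit 0) (XT.lf (nat_lit 84) (nat_lit 3643333214) (nat_lit 0) (nat_lit 1735983086) (nat_lit 168) (nat_lit 8009334838) (nat_lit 26) (nat_lit 1) (nat_lit 25) (nat_lit 1) (nat_lit 27) (nat_lit 1) (nat_lit 337) (nat_lit 392) (nat_lit 351)) (XT.lf (nat_lit 168) (nat_lit 5062749419) (nat_lit 0) (nat_lit 5633926990) (nat_lit 84) (nat_lit 2339307569) (nat_lit 26) (nat_lit 1) (nat_lit 24) (nat_lit 1) (nat_lit 25) (nat_lit 1) (nat_lit 338) (nat_lit 392) (nat_lit 350)))))) (XT.nd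 (nat_lit 470) (nat_lit 588) (nat_lit 0) (XT.nd (nat_lit 188) (nat_lit 420) (nat_lit 0) (XT.nd (nat_lit 94) (nat_lit 84) (nat_lit 0) (XT.lf (nat_lit 84) (nat_lit 4608477764) (nat_lit 0) (nat_lit 1295066018) (nat_lit 168) (nat_lit 6790620708) (nat_lit 23) (nat_lit 1) (nat_lit 22) (nat_lit 1) (nat_lit 24) (nat_lit 1) (nat_lit 339) (nat_lit 392) (nat_lit 349)) (XT.lf (nat_lit 168) (nat_lit 5087535561) (nat_lit 0) (nat_lit 6166573198) (nat_lit 84) (nat_lit 1107774182) (nat_lit 23) (nat_lit 1) (nat_lit 21) (nat_lit 1) (nat_lit 22) (nat_lit 1) (nat_lit 340) (nat_lit 392) (nat_lit 348))) (XT.nd (nat_lit 94) (nat_lit 252) (nat_lit 0) (XT.lf (nat_lit 84) (nat_lit 5402118864) (nat_lit 0) (nat_lit 1024260026) (nat_lit 168) (nat_lit 5612646956) (nat_lit 20) (nat_lit 1) (nat_lit 19) (nat_lit 1) (nat_lit 21) (nat_lit 1) (nat_lit 341) (nat_lit 392) (nat_lit 347)) (XT.nd (nat_lit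 94) (nat_lit 168) (nat_lit 0) (XT.lf (nat_lit 168) (nat_lit 4978612993) (nat_lit 0) (nat_lit 6690397370) (nat_lit 84) (nat_lit 56670909) (nat_lit 20) (nat_lit 1) (nat_lit 18) (nat_lit 1) (nat_lit 19) (nat_lit 1) (nat_lit 342) (nat_lit 392) (nat_lit 346)) (XT.lf (nat_lit 84) (nat_lit 6050891129) (nat_lit 0) (nat_lit 883536017) (nat_lit 168) (nat_lit 4486010954) (nat_lit 17) (nat_lit 1) (nat_lit 16) (nat_lit 1) (nat_lit 18) (nat_lit 1) (nat_lit 343) (nat_lit 392) (nat_lit 345))))) (XT.nd (nat_lit 188) (nat_lit 336) (nat_lit 0) (XT.nd (nat_lit 94) (nat_lit 168) (nat_lit 0) (XT.lf (nat_lit 0) (nat_lit 813455829) (nat_lit 0) (nat_lit 6366594974) (nat_lit 168) (nat_lit 3944021793) (nat_lit 15) (nat_lit 3) (nat_lit 15) (nat_lit 1) (nat_lit 17) (nat_lit 1) (nat_lit 344) (nat_lit 392) (nat_lit 344)) (XT.lf (nat_lit 84) (nat_lit 6577022512) (nat_lit 0) (nat_lit 840879766)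 (nat_lit 168) (nat_lit 3417991984) (nat_lit 14) (nat_lit 1) (nat_lit 13) (nat_lit 1) (nat_lit 15) (nat_lit 1) (nat_lit 345) (nat_lit 392) (nat_lit 343))) (XT.nd (nat_lit 94) (nat_lit 252) (nat_lit 0) (XT.lf (nat_lit 0) (nat_lit 1554001574) (nat_lit 0) (nat_lit 6088212778) (nat_lit 168) (nat_lit 2913176414) (nat_lit 12) (nat_lit 3) (nat_lit 12) (nat_lit 1) (nat_lit 14) (nat_lit 1) (nat_lit 346) (nat_lit 392) (nat_lit 342)) (XT.nd (nat_lit 94) (nat_lit 84) (nat_lit 0) (XT.lf (nat_lit 84) (nat_lit 6999106283) (nat_lit 0) (nat_lit 870775674) (nat_lit 168) (nat_lit 2413253573) (nat_lit 11) (nat_lit 1) (nat_lit 10) (nat_lit 1) (nat_lit 12) (nat_lit 1) (nat_lit 347) (nat_lit 392) (nat_lit 341)) (XT.lf (nat_lit 0) (nat_lit 2184753271) (nat_lit 0) (nat_lit 5886996399) (nat_lit 168) (nat_lit 1945765853) (nat_lit 9) (nat_lit 3) (nat_lit 9) (nat_lit 1) (nat_lit 11) (nat_lit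 1) (nat_lit 348) (nat_lit 392) (nat_lit 340))))))))
noncomputable def ec119 : XT := (XT.nd (nat_lit 1786) (nat_lit 0) (nat_lit 0) (XT.nd (nat_lit 846) (nat_lit 0) (nat_lit 0) (XT.nd (nat_lit 376) (nat_lit 252) (nat_lit 0) (XT.nd (nat_lit 188) (nat_lit 252) (nat_lit 0) (XT.nd (nat_lit 94) (nat_lit 84) (nat_lit 0) (XT.lf (nat_lit 84) (nat_lit 7332733849) (nat_lit 0) (nat_lit 952971667) (nat_lit 168) (nat_lit 1474410978) (nat_lit 8) (nat_lit 1) (nat_lit 7) (nat_lit 1) (nat_lit 9) (nat_lit 1) (nat_lit 349) (nat_lit 392) (nat_lit 339)) (XT.lf (nat_lit 0) (nat_lit 2720864075) (nat_lit 0) (nat_lit 5743794318) (nat_lit 168) (nat_lit 1043825246) (nat_lit 6) (nat_lit 3) (nat_lit 6) (nat_lit 1) (nat_lit 8) (nat_lit 1) (nat_lit 350) (nat_lit 392) (nat_lit 338))) (XT.nd (nat_lit 94) (nat_lit 84) (nat_lit 0) (XT.lf (nat_lit 84) (nat_lit 7591013794) (nat_lit 0) (nat_lit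 1071473451) (nat_lit 168) (nat_lit 602488908) (nat_lit 5) (nat_lit 1) (nat_lit 4) (nat_lit 1) (nat_lit 6) (nat_lit 1) (nat_lit 351) (nat_lit 392) (nat_lit 337)) (XT.lf (nat_lit 0) (nat_lit 3175149944) (nat_lit 0) (nat_lit 5643412277) (nat_lit 168) (nat_lit 207943942) (nat_lit 3) (nat_lit 3) (nat_lit 3) (nat_lit 1) (nat_lit 5) (nat_lit 1) (nat_lit 352) (nat_lit 392) (nat_lit 336)))) (XT.nd (nat_lit 188) (nat_lit 0) (nat_lit 0) (XT.nd (nat_lit 94) (nat_lit 0) (nat_lit 0) (XT.lf (nat_lit 0) (nat_lit 12759382435) (nat_lit 0) (nat_lit 0) (nat_lit 0) (nat_lit 0) (nat_lit 0) (nat_lit 0) (nat_lit 1) (nat_lit 0) (nat_lit 1) (nat_lit 0) (nat_lit 353) (nat_lit 392) (nat_lit 335)) (XT.lf (nat_lit 0) (nat_lit 12747768692) (nat_lit 0) (nat_lit 0) (nat_lit 0) (nat_lit 0) (nat_lit 0) (nat_lit 0) (nat_lit 1) (nat_lit 0) (nat_lit 1) (nat_lit 0) (nat_lit 354) (nat_lit 392) (nat_lit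 334))) (XT.nd (nat_lit 94) (nat_lit 0) (nat_lit 0) (XT.lf (nat_lit 0) (nat_lit 12737015226) (nat_lit 0) (nat_lit 0) (nat_lit 0) (nat_lit 0) (nat_lit 0) (nat_lit 0) (nat_lit 1) (nat_lit 0) (nat_lit 1) (nat_lit 0) (nat_lit 355) (nat_lit 392) (nat_lit 333)) (XT.nd (nat_lit 94) (nat_lit 0) (nat_lit 0) (XT.lf (nat_lit 0) (nat_lit 12727058313) (nat_lit 0) (nat_lit 0) (nat_lit 0) (nat_lit 0) (nat_lit 0) (nat_lit 0) (nat_lit 1) (nat_lit 0) (nat_lit 1) (nat_lit 0) (nat_lit 356) (nat_lit 392) (nat_lit 332)) (XT.lf (nat_lit 0) (nat_lit 12717838949) (nat_lit 0) (nat_lit 0) (nat_lit 0) (nat_lit 0) (nat_lit 0) (nat_lit 0) (nat_lit 1) (nat_lit 0) (nat_lit 1) (nat_lit 0) (nat_lit 357) (nat_lit 392) (nat_lit 331)))))) (XT.nd (nat_lit 470) (nat_lit 0) (nat_lit 0) (XT.nd (nat_lit 188) (nat_lit 0) (nat_lit 0) (XT.nd (nat_lit 94) (nat_lit 0) (nat_lit 0) (XT.lf (nat_lit 0) (nat_lit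 12709302502) (nat_lit 0) (nat_lit 0) (nat_lit 0) (nat_lit 0) (nat_lit 0) (nat_lit 0) (nat_lit 1) (nat_lit 0) (nat_lit 1) (nat_lit 0) (nat_lit 358) (nat_lit 392) (nat_lit 330)) (XT.lf (nat_lit 0) (nat_lit 12701398383) (nat_lit 0) (nat_lit 0) (nat_lit 0) (nat_lit 0) (nat_lit 0) (nat_lit 0) (nat_lit 1) (nat_lit 0) (nat_lit 1) (nat_lit 0) (nat_lit 359) (nat_lit 392) (nat_lit 329))) (XT.nd (nat_lit 94) (nat_lit 0) (nat_lit 0) (XT.lf (nat_lit 0) (nat_lit 12694079755) (nat_lit 0) (nat_lit 0) (nat_lit 0) (nat_lit 0) (nat_lit 0) (nat_lit 0) (nat_lit 1) (nat_lit 0) (nat_lit 1) (nat_lit 0) (nat_lit 360) (nat_lit 392) (nat_lit 328)) (XT.nd (nat_lit 94) (nat_lit 0) (nat_lit 0) (XT.lf (nat_lit 0) (nat_lit 12687303248) (nat_lit 0) (nat_lit 0) (nat_lit 0) (nat_lit 0) (nat_lit 0) (nat_lit 0) (nat_lit 1) (nat_lit 0) (nat_lit 1) (nat_lit 0) (nat_lit 361) (nat_lit 392) (nat_lit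 327)) (XT.lf (nat_lit 0) (nat_lit 12681028704) (nat_lit 0) (nat_lit 0) (nat_lit 0) (nat_lit 0) (nat_lit 0) (nat_lit 0) (nat_lit 1) (nat_lit 0) (nat_lit 1) (nat_lit 0) (nat_lit 362) (nat_lit 392) (nat_lit 326))))) (XT.nd (nat_lit 188) (nat_lit 0) (nat_lit 0) (XT.nd (nat_lit 94) (nat_lit 0) (nat_lit 0) (XT.lf (nat_lit 0) (nat_lit 12675218941) (nat_lit 0) (nat_lit 0) (nat_lit 0) (nat_lit 0) (nat_lit 0) (nat_lit 0) (nat_lit 1) (nat_lit 0) (nat_lit 1) (nat_lit 0) (nat_lit 363) (nat_lit 392) (nat_lit 325)) (XT.lf (nat_lit 0) (nat_lit 12669839530) (nat_lit 0) (nat_lit 0) (nat_lit 0) (nat_lit 0) (nat_lit 0) (nat_lit 0) (nat_lit 1) (nat_lit 0) (nat_lit 1) (nat_lit 0) (nat_lit 364) (nat_lit 392) (nat_lit 324))) (XT.nd (nat_lit 94) (nat_lit 0) (nat_lit 0) (XT.lf (nat_lit 0) (nat_lit 12664858595) (nat_lit 0) (nat_lit 0) (nat_lit 0) (nat_lit 0) (nat_lit 0) (nat_lit 0)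 (nat_lit 1) (nat_lit 0) (nat_lit 1) (nat_lit 0) (nat_lit 365) (nat_lit 392) (nat_lit 323)) (XT.nd (nat_lit 94) (nat_lit 0) (nat_lit 0) (XT.lf (nat_lit 0) (nat_lit 12660246618) (nat_lit 0) (nat_lit 0) (nat_lit 0) (nat_lit 0) (nat_lit 0) (nat_lit 0) (nat_lit 1) (nat_lit 0) (nat_lit 1) (nat_lit 0) (nat_lit 366) (nat_lit 392) (nat_lit 322)) (XT.lf (nat_lit 0) (nat_lit 12655976269) (nat_lit 0) (nat_lit 0) (nat_lit 0) (nat_lit 0) (nat_lit 0) (nat_lit 0) (nat_lit 1) (nat_lit 0) (nat_lit 1) (nat_lit 0) (nat_lit 367) (nat_lit 392) (nat_lit 321))))))) (XT.nd (nat_lit 846) (nat_lit 0) (nat_lit 0) (XT.nd (nat_lit 376) (nat_lit 0) (nat_lit 0) (XT.nd (nat_lit 188) (nat_lit 0) (nat_lit 0) (XT.nd (nat_lit 94) (nat_lit 0) (nat_lit 0) (XT.lf (nat_lit 0) (nat_lit 12652022242) (nat_lit 0) (nat_lit 0) (nat_lit 0) (nat_lit 0) (nat_lit 0) (nat_lit 0) (nat_lit 1) (nat_lit 0) (nat_lit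 1) (nat_lit 0) (nat_lit 368) (nat_lit 392) (nat_lit 320)) (XT.lf (nat_lit 0) (nat_lit 12648361105) (nat_lit 0) (nat_lit 0) (nat_lit 0) (nat_lit 0) (nat_lit 0) (nat_lit 0) (nat_lit 1) (nat_lit 0) (nat_lit 1) (nat_lit 0) (nat_lit 369) (nat_lit 392) (nat_lit 319))) (XT.nd (nat_lit 94) (nat_lit 0) (nat_lit 0) (XT.lf (nat_lit 0) (nat_lit 12644971165) (nat_lit 0) (nat_lit 0) (nat_lit 0) (nat_lit 0) (nat_lit 0) (nat_lit 0) (nat_lit 1) (nat_lit 0) (nat_lit 1) (nat_lit 0) (nat_lit 370) (nat_lit 392) (nat_lit 318)) (XT.lf (nat_lit 0) (nat_lit 12641832330) (nat_lit 0) (nat_lit 0) (nat_lit 0) (nat_lit 0) (nat_lit 0) (nat_lit 0) (nat_lit 1) (nat_lit 0) (nat_lit 1) (nat_lit 0) (nat_lit 371) (nat_lit 392) (nat_lit 317)))) (XT.nd (nat_lit 188) (nat_lit 0) (nat_lit 0) (XT.nd (nat_lit 94) (nat_lit 0) (nat_lit 0) (XT.lf (nat_lit 0) (nat_lit 12638926002) (nat_lit 0) (nat_lit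 0) (nat_lit 0) (nat_lit 0) (nat_lit 0) (nat_lit 0) (nat_lit 1) (nat_lit 0) (nat_lit 1) (nat_lit 0) (nat_lit 372) (nat_lit 392) (nat_lit 316)) (XT.lf (nat_lit 0) (nat_lit 12636234958) (nat_lit 0) (nat_lit 0) (nat_lit 0) (nat_lit 0) (nat_lit 0) (nat_lit 0) (nat_lit 1) (nat_lit 0) (nat_lit 1) (nat_lit 0) (nat_lit 373) (nat_lit 392) (nat_lit 315))) (XT.nd (nat_lit 94) (nat_lit 0) (nat_lit 0) (XT.lf (nat_lit 0) (nat_lit 12633743250) (nat_lit 0) (nat_lit 0) (nat_lit 0) (nat_lit 0) (nat_lit 0) (nat_lit 0) (nat_lit 1) (nat_lit 0) (nat_lit 1) (nat_lit 0) (nat_lit 374) (nat_lit 392) (nat_lit 314)) (XT.nd (nat_lit 94) (nat_lit 0) (nat_lit 0) (XT.lf (nat_lit 0) (nat_lit 12631436113) (nat_lit 0) (nat_lit 0) (nat_lit 0) (nat_lit 0) (nat_lit 0) (nat_lit 0) (nat_lit 1) (nat_lit 0) (nat_lit 1) (nat_lit 0) (nat_lit 375) (nat_lit 392) (nat_lit 313)) (XT.lf (nat_lit 0) (nat_lit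 12629299876) (nat_lit 0) (nat_lit 0) (nat_lit 0) (nat_lit 0) (nat_lit 0) (nat_lit 0) (nat_lit 1) (nat_lit 0) (nat_lit 1) (nat_lit 0) (nat_lit 376) (nat_lit 392) (nat_lit 312)))))) (XT.nd (nat_lit 470) (nat_lit 0) (nat_lit 0) (XT.nd (nat_lit 188) (nat_lit 0) (nat_lit 0) (XT.nd (nat_lit 94) (nat_lit 0) (nat_lit 0) (XT.lf (nat_lit 0) (nat_lit 12627321878) (nat_lit 0) (nat_lit 0) (nat_lit 0) (nat_lit 0) (nat_lit 0) (nat_lit 0) (nat_lit 1) (nat_lit 0) (nat_lit 1) (nat_lit 0) (nat_lit 377) (nat_lit 392) (nat_lit 311)) (XT.lf (nat_lit 0) (nat_lit 12625490398) (nat_lit 0) (nat_lit 0) (nat_lit 0) (nat_lit 0) (nat_lit 0) (nat_lit 0) (nat_lit 1) (nat_lit 0) (nat_lit 1) (nat_lit 0) (nat_lit 378) (nat_lit 392) (nat_lit 310))) (XT.nd (nat_lit 94) (nat_lit 0) (nat_lit 0) (XT.lf (nat_lit 0) (nat_lit 12623794584) (nat_lit 0) (nat_lit 0) (nat_lit 0) (nat_lit 0) (nat_lit 0)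 (nat_lit 0) (nat_lit 1) (nat_lit 0) (nat_lit 1) (nat_lit 0) (nat_lit 379) (nat_lit 392) (nat_lit 309)) (XT.nd (nat_lit 94) (nat_lit 0) (nat_lit 0) (XT.lf (nat_lit 0) (nat_lit 12622224385) (nat_lit 0) (nat_lit 0) (nat_lit 0) (nat_lit 0) (nat_lit 0) (nat_lit 0) (nat_lit 1) (nat_lit 0) (nat_lit 1) (nat_lit 0) (nat_lit 380) (nat_lit 392) (nat_lit 308)) (XT.lf (nat_lit 0) (nat_lit 12620770498) (nat_lit 0) (nat_lit 0) (nat_lit 0) (nat_lit 0) (nat_lit 0) (nat_lit 0) (nat_lit 1) (nat_lit 0) (nat_lit 1) (nat_lit 0) (nat_lit 381) (nat_lit 392) (nat_lit 307))))) (XT.nd (nat_lit 188) (nat_lit 0) (nat_lit 0) (XT.nd (nat_lit 94) (nat_lit 0) (nat_lit 0) (XT.lf (nat_lit 0) (nat_lit 12619424305) (nat_lit 0) (nat_lit 0) (nat_lit 0) (nat_lit 0) (nat_lit 0) (nat_lit 0) (nat_lit 1) (nat_lit 0) (nat_lit 1) (nat_lit 0) (nat_lit 382) (nat_lit 392) (nat_lit 306)) (XT.lf (nat_lit 0)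 (nat_lit 12618177831) (nat_lit 0) (nat_lit 0) (nat_lit 0) (nat_lit 0) (nat_lit 0) (nat_lit 0) (nat_lit 1) (nat_lit 0) (nat_lit 1) (nat_lit 0) (nat_lit 383) (nat_lit 392) (nat_lit 305))) (XT.nd (nat_lit 94) (nat_lit 0) (nat_lit 0) (XT.lf (nat_lit 0) (nat_lit 12617023688) (nat_lit 0) (nat_lit 0) (nat_lit 0) (nat_lit 0) (nat_lit 0) (nat_lit 0) (nat_lit 1) (nat_lit 0) (nat_lit 1) (nat_lit 0) (nat_lit 384) (nat_lit 392) (nat_lit 304)) (XT.nd (nat_lit 94) (nat_lit 0) (nat_lit 0) (XT.lf (nat_lit 0) (nat_lit 12615955038) (nat_lit 0) (nat_lit 0) (nat_lit 0) (nat_lit 0) (nat_lit 0) (nat_lit 0) (nat_lit 1) (nat_lit 0) (nat_lit 1) (nat_lit 0) (nat_lit 385) (nat_lit 392) (nat_lit 303)) (XT.lf (nat_lit 0) (nat_lit 12614965546) (nat_lit 0) (nat_lit 0) (nat_lit 0) (nat_lit 0) (nat_lit 0) (nat_lit 0) (nat_lit 1) (nat_lit 0) (nat_lit 1) (nat_lit 0) (nat_lit 386) (nat_lit 392)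 (nat_lit 302))))))))
noncomputable def ec120 : XT := (XT.nd (nat_lit 1692) (nat_lit 0) (nat_lit 0) (XT.nd (nat_lit 846) (nat_lit 0) (nat_lit 0) (XT.nd (nat_lit 376) (nat_lit 0) (nat_lit 0) (XT.nd (nat_lit 188) (nat_lit 0) (nat_lit 0) (XT.nd (nat_lit 94) (nat_lit 0) (nat_lit 0) (XT.lf (nat_lit 0) (nat_lit 12614049350) (nat_lit 0) (nat_lit 0) (nat_lit 0) (nat_lit 0) (nat_lit 0) (nat_lit 0) (nat_lit 1) (nat_lit 0) (nat_lit 1) (nat_lit 0) (nat_lit 387) (nat_lit 392) (nat_lit 301)) (XT.lf (nat_lit 0) (nat_lit 12613201021) (nat_lit 0) (nat_lit 0) (nat_lit 0) (nat_lit 0) (nat_lit 0) (nat_lit 0) (nat_lit 1) (nat_lit 0) (nat_lit 1) (nat_lit 0) (nat_lit 388) (nat_lit 392) (nat_lit 300))) (XT.nd (nat_lit 94) (nat_lit 0) (nat_lit 0) (XT.lf (nat_lit 0) (nat_lit 12612415531) (nat_lit 0) (nat_lit 0) (nat_lit 0) (nat_lit 0) (nat_lit 0) (nat_lit 0) (nat_lit 1) (nat_lit 0)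 (nat_lit 1) (nat_lit 0) (nat_lit 389) (nat_lit 392) (nat_lit 299)) (XT.lf (nat_lit 0) (nat_lit 12611688225) (nat_lit 0) (nat_lit 0) (nat_lit 0) (nat_lit 0) (nat_lit 0) (nat_lit 0) (nat_lit 1) (nat_lit 0) (nat_lit 1) (nat_lit 0) (nat_lit 390) (nat_lit 392) (nat_lit 298)))) (XT.nd (nat_lit 188) (nat_lit 0) (nat_lit 0) (XT.nd (nat_lit 94) (nat_lit 0) (nat_lit 0) (XT.lf (nat_lit 0) (nat_lit 12611014794) (nat_lit 0) (nat_lit 0) (nat_lit 0) (nat_lit 0) (nat_lit 0) (nat_lit 0) (nat_lit 1) (nat_lit 0) (nat_lit 1) (nat_lit 0) (nat_lit 391) (nat_lit 392) (nat_lit 297)) (XT.lf (nat_lit 0) (nat_lit 12610391246) (nat_lit 0) (nat_lit 0) (nat_lit 0) (nat_lit 0) (nat_lit 0) (nat_lit 0) (nat_lit 1) (nat_lit 0) (nat_lit 1) (nat_lit 0) (nat_lit 392) (nat_lit 392) (nat_lit 296))) (XT.nd (nat_lit 94) (nat_lit 0) (nat_lit 0) (XT.lf (nat_lit 0) (nat_lit 12609813888) (nat_lit 0)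 (nat_lit 0) (nat_lit 0) (nat_lit 0) (nat_lit 0) (nat_lit 0) (nat_lit 1) (nat_lit 0) (nat_lit 1) (nat_lit 0) (nat_lit 393) (nat_lit 392) (nat_lit 295)) (XT.nd (nat_lit 94) (nat_lit 0) (nat_lit 0) (XT.lf (nat_lit 0) (nat_lit 12609279296) (nat_lit 0) (nat_lit 0) (nat_lit 0) (nat_lit 0) (nat_lit 0) (nat_lit 0) (nat_lit 1) (nat_lit 0) (nat_lit 1) (nat_lit 0) (nat_lit 394) (nat_lit 392) (nat_lit 294)) (XT.lf (nat_lit 0) (nat_lit 12608784304) (nat_lit 0) (nat_lit 0) (nat_lit 0) (nat_lit 0) (nat_lit 0) (nat_lit 0) (nat_lit 1) (nat_lit 0) (nat_lit 1) (nat_lit 0) (nat_lit 395) (nat_lit 392) (nat_lit 293)))))) (XT.nd (nat_lit 376) (nat_lit 0) (nat_lit 0) (XT.nd (nat_lit 188) (nat_lit 0) (nat_lit 0) (XT.nd (nat_lit 94) (nat_lit 0) (nat_lit 0) (XT.lf (nat_lit 0) (nat_lit 12608325978) (nat_lit 0) (nat_lit 0) (nat_lit 0) (nat_lit 0) (nat_lit 0) (nat_lit 0) (nat_lit 1) (nat_lit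 0) (nat_lit 1) (nat_lit 0) (nat_lit 396) (nat_lit 392) (nat_lit 292)) (XT.lf (nat_lit 0) (nat_lit 12607901602) (nat_lit 0) (nat_lit 0) (nat_lit 0) (nat_lit 0) (nat_lit 0) (nat_lit 0) (nat_lit 1) (nat_lit 0) (nat_lit 1) (nat_lit 0) (nat_lit 397) (nat_lit 392) (nat_lit 291))) (XT.nd (nat_lit 94) (nat_lit 0) (nat_lit 0) (XT.lf (nat_lit 0) (nat_lit 12607508662) (nat_lit 0) (nat_lit 0) (nat_lit 0) (nat_lit 0) (nat_lit 0) (nat_lit 0) (nat_lit 1) (nat_lit 0) (nat_lit 1) (nat_lit 0) (nat_lit 398) (nat_lit 392) (nat_lit 290)) (XT.lf (nat_lit 0) (nat_lit 12607144828) (nat_lit 0) (nat_lit 0) (nat_lit 0) (nat_lit 0) (nat_lit 0) (nat_lit 0) (nat_lit 1) (nat_lit 0) (nat_lit 1) (nat_lit 0) (nat_lit 399) (nat_lit 392) (nat_lit 289)))) (XT.nd (nat_lit 188) (nat_lit 0) (nat_lit 0) (XT.nd (nat_lit 94) (nat_lit 0) (nat_lit 0) (XT.lf (nat_lit 0) (nat_lit 12606807944) (nat_lit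 0) (nat_lit 0) (nat_lit 0) (nat_lit 0) (nat_lit 0) (nat_lit 0) (nat_lit 1) (nat_lit 0) (nat_lit 1) (nat_lit 0) (nat_lit 400) (nat_lit 392) (nat_lit 288)) (XT.lf (nat_lit 0) (nat_lit 12606496015) (nat_lit 0) (nat_lit 0) (nat_lit 0) (nat_lit 0) (nat_lit 0) (nat_lit 0) (nat_lit 1) (nat_lit 0) (nat_lit 1) (nat_lit 0) (nat_lit 401) (nat_lit 392) (nat_lit 287))) (XT.nd (nat_lit 94) (nat_lit 0) (nat_lit 0) (XT.lf (nat_lit 0) (nat_lit 12606207192) (nat_lit 0) (nat_lit 0) (nat_lit 0) (nat_lit 0) (nat_lit 0) (nat_lit 0) (nat_lit 1) (nat_lit 0) (nat_lit 1) (nat_lit 0) (nat_lit 402) (nat_lit 392) (nat_lit 286)) (XT.nd (nat_lit 94) (nat_lit 0) (nat_lit 0) (XT.lf (nat_lit 0) (nat_lit 12605939763) (nat_lit 0) (nat_lit 0) (nat_lit 0) (nat_lit 0) (nat_lit 0) (nat_lit 0) (nat_lit 1) (nat_lit 0) (nat_lit 1) (nat_lit 0) (nat_lit 403) (nat_lit 392) (nat_lit 285)) (XT.lf (nat_lit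 0) (nat_lit 12605692144) (nat_lit 0) (nat_lit 0) (nat_lit 0) (nat_lit 0) (nat_lit 0) (nat_lit 0) (nat_lit 1) (nat_lit 0) (nat_lit 1) (nat_lit 0) (nat_lit 404) (nat_lit 392) (nat_lit 284))))))) (XT.nd (nat_lit 846) (nat_lit 0) (nat_lit 0) (XT.nd (nat_lit 376) (nat_lit 0) (nat_lit 0) (XT.nd (nat_lit 188) (nat_lit 0) (nat_lit 0) (XT.nd (nat_lit 94) (nat_lit 0) (nat_lit 0) (XT.lf (nat_lit 0) (nat_lit 12605462867) (nat_lit 0) (nat_lit 0) (nat_lit 0) (nat_lit 0) (nat_lit 0) (nat_lit 0) (nat_lit 1) (nat_lit 0) (nat_lit 1) (nat_lit 0) (nat_lit 405) (nat_lit 392) (nat_lit 283)) (XT.lf (nat_lit 0) (nat_lit 12605250573) (nat_lit 0) (nat_lit 0) (nat_lit 0) (nat_lit 0) (nat_lit 0) (nat_lit 0) (nat_lit 1) (nat_lit 0) (nat_lit 1) (nat_lit 0) (nat_lit 406) (nat_lit 392) (nat_lit 282))) (XT.nd (nat_lit 94) (nat_lit 0) (nat_lit 0) (XT.lf (nat_lit 0) (nat_lit 12605054005) (nat_lit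 0) (nat_lit 0) (nat_lit 0) (nat_lit 0) (nat_lit 0) (nat_lit 0) (nat_lit 1) (nat_lit 0) (nat_lit 1) (nat_lit 0) (nat_lit 407) (nat_lit 392) (nat_lit 281)) (XT.lf (nat_lit 0) (nat_lit 12604871998) (nat_lit 0) (nat_lit 0) (nat_lit 0) (nat_lit 0) (nat_lit 0) (nat_lit 0) (nat_lit 1) (nat_lit 0) (nat_lit 1) (nat_lit 0) (nat_lit 408) (nat_lit 392) (nat_lit 280)))) (XT.nd (nat_lit 188) (nat_lit 0) (nat_lit 0) (XT.nd (nat_lit 94) (nat_lit 0) (nat_lit 0) (XT.lf (nat_lit 0) (nat_lit 12604703472) (nat_lit 0) (nat_lit 0) (nat_lit 0) (nat_lit 0) (nat_lit 0) (nat_lit 0) (nat_lit 1) (nat_lit 0) (nat_lit 1) (nat_lit 0) (nat_lit 409) (nat_lit 392) (nat_lit 279)) (XT.lf (nat_lit 0) (nat_lit 12604547430) (nat_lit 0) (nat_lit 0) (nat_lit 0) (nat_lit 0) (nat_lit 0) (nat_lit 0) (nat_lit 1) (nat_lit 0) (nat_lit 1) (nat_lit 0) (nat_lit 410) (nat_lit 392) (nat_lit 278))) (XT.nd (nat_lit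 94) (nat_lit 0) (nat_lit 0) (XT.lf (nat_lit 0) (nat_lit 12604402947) (nat_lit 0) (nat_lit 0) (nat_lit 0) (nat_lit 0) (nat_lit 0) (nat_lit 0) (nat_lit 1) (nat_lit 0) (nat_lit 1) (nat_lit 0) (nat_lit 411) (nat_lit 392) (nat_lit 277)) (XT.nd (nat_lit 94) (nat_lit 0) (nat_lit 0) (XT.lf (nat_lit 0) (nat_lit 12604269166) (nat_lit 0) (nat_lit 0) (nat_lit 0) (nat_lit 0) (nat_lit 0) (nat_lit 0) (nat_lit 1) (nat_lit 0) (nat_lit 1) (nat_lit 0) (nat_lit 412) (nat_lit 392) (nat_lit 276)) (XT.lf (nat_lit 0) (nat_lit 12604145294) (nat_lit 0) (nat_lit 0) (nat_lit 0) (nat_lit 0) (nat_lit 0) (nat_lit 0) (nat_lit 1) (nat_lit 0) (nat_lit 1) (nat_lit 0) (nat_lit 413) (nat_lit 392) (nat_lit 275)))))) (XT.nd (nat_lit 470) (nat_lit 0) (nat_lit 0) (XT.nd (nat_lit 188) (nat_lit 0) (nat_lit 0) (XT.nd (nat_lit 94) (nat_lit 0) (nat_lit 0) (XT.lf (nat_lit 0) (nat_lit 12604030599) (nat_lit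 0) (nat_lit 0) (nat_lit 0) (nat_lit 0) (nat_lit 0) (nat_lit 0) (nat_lit 1) (nat_lit 0) (nat_lit 1) (nat_lit 0) (nat_lit 414) (nat_lit 392) (nat_lit 274)) (XT.lf (nat_lit 0) (nat_lit 12603924399) (nat_lit 0) (nat_lit 0) (nat_lit 0) (nat_lit 0) (nat_lit 0) (nat_lit 0) (nat_lit 1) (nat_lit 0) (nat_lit 1) (nat_lit 0) (nat_lit 415) (nat_lit 392) (nat_lit 273))) (XT.nd (nat_lit 94) (nat_lit 0) (nat_lit 0) (XT.lf (nat_lit 0) (nat_lit 12603826066) (nat_lit 0) (nat_lit 0) (nat_lit 0) (nat_lit 0) (nat_lit 0) (nat_lit 0) (nat_lit 1) (nat_lit 0) (nat_lit 1) (nat_lit 0) (nat_lit 416) (nat_lit 392) (nat_lit 272)) (XT.nd (nat_lit 94) (nat_lit 0) (nat_lit 0) (XT.lf (nat_lit 0) (nat_lit 12603735017) (nat_lit 0) (nat_lit 0) (nat_lit 0) (nat_lit 0) (nat_lit 0) (nat_lit 0) (nat_lit 1) (nat_lit 0) (nat_lit 1) (nat_lit 0) (nat_lit 417) (nat_lit 392) (nat_lit 271)) (XT.lf (nat_lit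 0) (nat_lit 12603650712) (nat_lit 0) (nat_lit 0) (nat_lit 0) (nat_lit 0) (nat_lit 0) (nat_lit 0) (nat_lit 1) (nat_lit 0) (nat_lit 1) (nat_lit 0) (nat_lit 418) (nat_lit 392) (nat_lit 270))))) (XT.nd (nat_lit 188) (nat_lit 0) (nat_lit 0) (XT.nd (nat_lit 94) (nat_lit 0) (nat_lit 0) (XT.lf (nat_lit 0) (nat_lit 12603572652) (nat_lit 0) (nat_lit 0) (nat_lit 0) (nat_lit 0) (nat_lit 0) (nat_lit 0) (nat_lit 1) (nat_lit 0) (nat_lit 1) (nat_lit 0) (nat_lit 419) (nat_lit 392) (nat_lit 269)) (XT.lf (nat_lit 0) (nat_lit 12603500375) (nat_lit 0) (nat_lit 0) (nat_lit 0) (nat_lit 0) (nat_lit 0) (nat_lit 0) (nat_lit 1) (nat_lit 0) (nat_lit 1) (nat_lit 0) (nat_lit 420) (nat_lit 392) (nat_lit 268))) (XT.nd (nat_lit 94) (nat_lit 0) (nat_lit 0) (XT.lf (nat_lit 0) (nat_lit 12603433451) (nat_lit 0) (nat_lit 0) (nat_lit 0) (nat_lit 0) (nat_lit 0) (nat_lit 0) (nat_lit 1) (nat_lit 0)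 (nat_lit 1) (nat_lit 0) (nat_lit 421) (nat_lit 392) (nat_lit 267)) (XT.nd (nat_lit 94) (nat_lit 0) (nat_lit 0) (XT.lf (nat_lit 0) (nat_lit 12603371484) (nat_lit 0) (nat_lit 0) (nat_lit 0) (nat_lit 0) (nat_lit 0) (nat_lit 0) (nat_lit 1) (nat_lit 0) (nat_lit 1) (nat_lit 0) (nat_lit 422) (nat_lit 392) (nat_lit 266)) (XT.lf (nat_lit 0) (nat_lit 12603314108) (nat_lit 0) (nat_lit 0) (nat_lit 0) (nat_lit 0) (nat_lit 0) (nat_lit 0) (nat_lit 1) (nat_lit 0) (nat_lit 1) (nat_lit 0) (nat_lit 423) (nat_lit 392) (nat_lit 265))))))))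
noncomputable def ec121 : XT := (XT.nd (nat_lit 55930) (nat_lit 0) (nat_lit 5544) (XT.nd (nat_lit 846) (nat_lit 0) (nat_lit 0) (XT.nd (nat_lit 376) (nat_lit 0) (nat_lit 0) (XT.nd (nat_lit 188) (nat_lit 0) (nat_lit 0) (XT.nd (nat_lit 94) (nat_lit 0) (nat_lit 0) (XT.lf (nat_lit 0) (nat_lit 12603260982) (nat_lit 0) (nat_lit 0) (nat_lit 0) (nat_lit 0) (nat_lit 0) (nat_lit 0) (nat_lit 1) (nat_lit 0) (nat_lit 1) (nat_lit 0) (nat_lit 424) (nat_lit 392) (nat_lit 264)) (XT.lf (nat_lit 0) (nat_lit 12603211791) (nat_lit 0) (nat_lit 0) (nat_lit 0) (nat_lit 0) (nat_lit 0) (nat_lit 0) (nat_lit 1) (nat_lit 0) (nat_lit 1) (nat_lit 0) (nat_lit 425) (nat_lit 392) (nat_lit 263))) (XT.nd (nat_lit 94) (nat_lit 0) (nat_lit 0) (XT.lf (nat_lit 0) (nat_lit 12603166243) (nat_lit 0) (nat_lit 0) (nat_lit 0) (nat_lit 0) (nat_lit 0) (nat_lit 0) (nat_lit 1) (nat_lit 0) (nat_lit 1) (nat_lit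 0) (nat_lit 426) (nat_lit 392) (nat_lit 262)) (XT.lf (nat_lit 0) (nat_lit 12603124070) (nat_lit 0) (nat_lit 0) (nat_lit 0) (nat_lit 0) (nat_lit 0) (nat_lit 0) (nat_lit 1) (nat_lit 0) (nat_lit 1) (nat_lit 0) (nat_lit 427) (nat_lit 392) (nat_lit 261)))) (XT.nd (nat_lit 188) (nat_lit 0) (nat_lit 0) (XT.nd (nat_lit 94) (nat_lit 0) (nat_lit 0) (XT.lf (nat_lit 0) (nat_lit 12603085021) (nat_lit 0) (nat_lit 0) (nat_lit 0) (nat_lit 0) (nat_lit 0) (nat_lit 0) (nat_lit 1) (nat_lit 0) (nat_lit 1) (nat_lit 0) (nat_lit 428) (nat_lit 392) (nat_lit 260)) (XT.lf (nat_lit 0) (nat_lit 12603048864) (nat_lit 0) (nat_lit 0) (nat_lit 0) (nat_lit 0) (nat_lit 0) (nat_lit 0) (nat_lit 1) (nat_lit 0) (nat_lit 1) (nat_lit 0) (nat_lit 429) (nat_lit 392) (nat_lit 259))) (XT.nd (nat_lit 94) (nat_lit 0) (nat_lit 0) (XT.lf (nat_lit 0) (nat_lit 12603015385) (nat_lit 0) (nat_lit 0) (nat_lit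 0) (nat_lit 0) (nat_lit 0) (nat_lit 0) (nat_lit 1) (nat_lit 0) (nat_lit 1) (nat_lit 0) (nat_lit 430) (nat_lit 392) (nat_lit 258)) (XT.nd (nat_lit 94) (nat_lit 0) (nat_lit 0) (XT.lf (nat_lit 0) (nat_lit 12602984387) (nat_lit 0) (nat_lit 0) (nat_lit 0) (nat_lit 0) (nat_lit 0) (nat_lit 0) (nat_lit 1) (nat_lit 0) (nat_lit 1) (nat_lit 0) (nat_lit 431) (nat_lit 392) (nat_lit 257)) (XT.lf (nat_lit 0) (nat_lit 12602955684) (nat_lit 0) (nat_lit 0) (nat_lit 0) (nat_lit 0) (nat_lit 0) (nat_lit 0) (nat_lit 1) (nat_lit 0) (nat_lit 1) (nat_lit 0) (nat_lit 432) (nat_lit 392) (nat_lit 256)))))) (XT.nd (nat_lit 470) (nat_lit 0) (nat_lit 0) (XT.nd (nat_lit 188) (nat_lit 0) (nat_lit 0) (XT.nd (nat_lit 94) (nat_lit 0) (nat_lit 0) (XT.lf (nat_lit 0) (nat_lit 12602929108) (nat_lit 0) (nat_lit 0) (nat_lit 0) (nat_lit 0) (nat_lit 0) (nat_lit 0) (nat_lit 1) (nat_lit 0) (nat_lit 1)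 (nat_lit 0) (nat_lit 433) (nat_lit 392) (nat_lit 255)) (XT.lf (nat_lit 0) (nat_lit 12602904500) (nat_lit 0) (nat_lit 0) (nat_lit 0) (nat_lit 0) (nat_lit 0) (nat_lit 0) (nat_lit 1) (nat_lit 0) (nat_lit 1) (nat_lit 0) (nat_lit 434) (nat_lit 392) (nat_lit 254))) (XT.nd (nat_lit 94) (nat_lit 0) (nat_lit 0) (XT.lf (nat_lit 0) (nat_lit 12602881715) (nat_lit 0) (nat_lit 0) (nat_lit 0) (nat_lit 0) (nat_lit 0) (nat_lit 0) (nat_lit 1) (nat_lit 0) (nat_lit 1) (nat_lit 0) (nat_lit 435) (nat_lit 392) (nat_lit 253)) (XT.nd (nat_lit 94) (nat_lit 0) (nat_lit 0) (XT.lf (nat_lit 0) (nat_lit 12602860618) (nat_lit 0) (nat_lit 0) (nat_lit 0) (nat_lit 0) (nat_lit 0) (nat_lit 0) (nat_lit 1) (nat_lit 0) (nat_lit 1) (nat_lit 0) (nat_lit 436) (nat_lit 392) (nat_lit 252)) (XT.lf (nat_lit 0) (nat_lit 12602841084) (nat_lit 0) (nat_lit 0) (nat_lit 0) (nat_lit 0) (nat_lit 0) (nat_lit 0)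 (nat_lit 1) (nat_lit 0) (nat_lit 1) (nat_lit 0) (nat_lit 437) (nat_lit 392) (nat_lit 251))))) (XT.nd (nat_lit 54332) (nat_lit 0) (nat_lit 10836) (XT.nd (nat_lit 54238) (nat_lit 0) (nat_lit 10752) (XT.lf (nat_lit 0) (nat_lit 12602822996) (nat_lit 0) (nat_lit 0) (nat_lit 0) (nat_lit 0) (nat_lit 0) (nat_lit 0) (nat_lit 1) (nat_lit 0) (nat_lit 1) (nat_lit 0) (nat_lit 438) (nat_lit 392) (nat_lit 250)) (XT.lf (nat_lit 924) (nat_lit 6811356478) (nat_lit 0) (nat_lit 12093547770) (nat_lit 924) (nat_lit 6811356478) (nat_lit 139) (nat_lit 1) (nat_lit 128) (nat_lit 0) (nat_lit 139) (nat_lit 0) (nat_lit 294) (nat_lit 393) (nat_lit 393))) (XT.nd (nat_lit 94) (nat_lit 0) (nat_lit 0) (XT.lf (nat_lit 924) (nat_lit 2540844966) (nat_lit 0) (nat_lit 23743299540) (nat_lit 840) (nat_lit 23220867625) (nat_lit 140) (nat_lit 1) (nat_lit 129) (nat_lit 1) (nat_lit 139) (nat_lit 1) (nat_lit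 295) (nat_lit 393) (nat_lit 392)) (XT.nd (nat_lit 94) (nat_lit 0) (nat_lit 84) (XT.lf (nat_lit 924) (nat_lit 23336194423) (nat_lit 84) (nat_lit 15900895705) (nat_lit 0) (nat_lit 8433109745) (nat_lit 140) (nat_lit 1) (nat_lit 130) (nat_lit 1) (nat_lit 129) (nat_lit 1) (nat_lit 296) (nat_lit 393) (nat_lit 391)) (XT.lf (nat_lit 924) (nat_lit 20164383710) (nat_lit 84) (nat_lit 6663955175) (nat_lit 0) (nat_lit 19098867389) (nat_lit 141) (nat_lit 1) (nat_lit 131) (nat_lit 1) (nat_lit 130) (nat_lit 1) (nat_lit 297) (nat_lit 393) (nat_lit 390))))))) (XT.nd (nat_lit 846) (nat_lit 3024) (nat_lit 0) (XT.nd (nat_lit 376) (nat_lit 1764) (nat_lit 0) (XT.nd (nat_lit 188) (nat_lit 672) (nat_lit 0) (XT.nd (nat_lit 94) (nat_lit 0) (nat_lit 84) (XT.lf (nat_lit 924) (nat_lit 14923358262) (nat_lit 0) (nat_lit 27920897912) (nat_lit 840) (nat_lit 1427312312) (nat_lit 142) (nat_lit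 1) (nat_lit 131) (nat_lit 1) (nat_lit 141) (nat_lit 1) (nat_lit 298) (nat_lit 393) (nat_lit 389)) (XT.lf (nat_lit 924) (nat_lit 3580713495) (nat_lit 0) (nat_lit 30790546674) (nat_lit 840) (nat_lit 8323738821) (nat_lit 143) (nat_lit 1) (nat_lit 132) (nat_lit 1) (nat_lit 142) (nat_lit 1) (nat_lit 299) (nat_lit 393) (nat_lit 388))) (XT.nd (nat_lit 94) (nat_lit 756) (nat_lit 0) (XT.lf (nat_lit 924) (nat_lit 6880674939) (nat_lit 84) (nat_lit 26759492442) (nat_lit 0) (nat_lit 7551858916) (nat_lit 143) (nat_lit 1) (nat_lit 133) (nat_lit 1) (nat_lit 132) (nat_lit 1) (nat_lit 300) (nat_lit 393) (nat_lit 387)) (XT.lf (nat_lit 924) (nat_lit 1413133732) (nat_lit 0) (nat_lit 20004490672) (nat_lit 840) (nat_lit 18343908343) (nat_lit 134) (nat_lit 1) (nat_lit 123) (nat_lit 1) (nat_lit 133) (nat_lit 1) (nat_lit 301) (nat_lit 393) (nat_lit 386)))) (XT.nd (nat_lit 188) (nat_lit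 756) (nat_lit 0) (XT.nd (nat_lit 94) (nat_lit 420) (nat_lit 0) (XT.lf (nat_lit 84) (nat_lit 9784832328) (nat_lit 0) (nat_lit 4240223196) (nat_lit 588) (nat_lit 24373716161) (nat_lit 117) (nat_lit 1) (nat_lit 116) (nat_lit 1) (nat_lit 123) (nat_lit 1) (nat_lit 302) (nat_lit 393) (nat_lit 385)) (XT.lf (nat_lit 504) (nat_lit 26965766310) (nat_lit 0) (nat_lit 8777938269) (nat_lit 420) (nat_lit 1357123494) (nat_lit 117) (nat_lit 1) (nat_lit 111) (nat_lit 1) (nat_lit 116) (nat_lit 1) (nat_lit 303) (nat_lit 393) (nat_lit 384))) (XT.nd (nat_lit 94) (nat_lit 336) (nat_lit 0) (XT.lf (nat_lit 504) (nat_lit 19458753757) (nat_lit 0) (nat_lit 4091434839) (nat_lit 420) (nat_lit 12308505119) (nat_lit 112) (nat_lit 1) (nat_lit 106) (nat_lit 1) (nat_lit 111) (nat_lit 1) (nat_lit 304) (nat_lit 393) (nat_lit 383)) (XT.nd (nat_lit 94) (nat_lit 0) (nat_lit 0) (XT.lf (nat_lit 420)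 (nat_lit 11840403485) (nat_lit 0) (nat_lit 75329964) (nat_lit 336) (nat_lit 22761054302) (nat_lit 107) (nat_lit 1) (nat_lit 102) (nat_lit 1) (nat_lit 106) (nat_lit 1) (nat_lit 305) (nat_lit 393) (nat_lit 382)) (XT.lf (nat_lit 84) (nat_lit 873529011) (nat_lit 0) (nat_lit 29459631027) (nat_lit 420) (nat_lit 3216091533) (nat_lit 103) (nat_lit 1) (nat_lit 102) (nat_lit 1) (nat_lit 107) (nat_lit 1) (nat_lit 306) (nat_lit 393) (nat_lit 381)))))) (XT.nd (nat_lit 470) (nat_lit 1260) (nat_lit 0) (XT.nd (nat_lit 188) (nat_lit 1008) (nat_lit 0) (XT.nd (nat_lit 94) (nat_lit 336) (nat_lit 0) (XT.lf (nat_lit 84) (nat_lit 22554745645) (nat_lit 0) (nat_lit 3740945899) (nat_lit 420) (nat_lit 6169499195) (nat_lit 98) (nat_lit 1) (nat_lit 97) (nat_lit 1) (nat_lit 102) (nat_lit 1) (nat_lit 307) (nat_lit 393) (nat_lit 380)) (XT.lf (nat_lit 84) (nat_lit 11284710798) (nat_lit 0)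 (nat_lit 11459181369) (nat_lit 420) (nat_lit 8685137076) (nat_lit 94) (nat_lit 1) (nat_lit 93) (nat_lit 1) (nat_lit 98) (nat_lit 1) (nat_lit 308) (nat_lit 393) (nat_lit 379))) (XT.nd (nat_lit 94) (nat_lit 672) (nat_lit 0) (XT.lf (nat_lit 84) (nat_lit 556988301) (nat_lit 0) (nat_lit 19159573313) (nat_lit 420) (nat_lit 10725364954) (nat_lit 90) (nat_lit 1) (nat_lit 89) (nat_lit 1) (nat_lit 94) (nat_lit 1) (nat_lit 309) (nat_lit 393) (nat_lit 378)) (XT.nd (nat_lit 94) (nat_lit 420) (nat_lit 0) (XT.lf (nat_lit 336) (nat_lit 2515327778) (nat_lit 0) (nat_lit 17009957754) (nat_lit 252) (nat_lit 9968226175) (nat_lit 90) (nat_lit 1) (nat_lit 86) (nat_lit 1) (nat_lit 89) (nat_lit 1) (nat_lit 310) (nat_lit 393) (nat_lit 377)) (XT.lf (nat_lit 84) (nat_lit 8691133744) (nat_lit 0) (nat_lit 5956957072) (nat_lit 420) (nat_lit 13936186766) (nat_lit 82) (nat_lit 1) (nat_lit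 81) (nat_lit 1) (nat_lit 86) (nat_lit 1) (nat_lit 311) (nat_lit 393) (nat_lit 376))))) (XT.nd (nat_lit 188) (nat_lit 756) (nat_lit 0) (XT.nd (nat_lit 94) (nat_lit 252) (nat_lit 0) (XT.lf (nat_lit 336) (nat_lit 13455965525) (nat_lit 0) (nat_lit 12640140468) (nat_lit 252) (nat_lit 1617922978) (nat_lit 82) (nat_lit 1) (nat_lit 78) (nat_lit 1) (nat_lit 81) (nat_lit 1) (nat_lit 312) (nat_lit 393) (nat_lit 375)) (XT.lf (nat_lit 336) (nat_lit 4312571944) (nat_lit 0) (nat_lit 10882643334) (nat_lit 252) (nat_lit 11682008977) (nat_lit 79) (nat_lit 1) (nat_lit 75) (nat_lit 1) (nat_lit 78) (nat_lit 1) (nat_lit 313) (nat_lit 393) (nat_lit 374))) (XT.nd (nat_lit 94) (nat_lit 420) (nat_lit 0) (XT.lf (nat_lit 84) (nat_lit 4915289960) (nat_lit 0) (nat_lit 4500375106) (nat_lit 336) (nat_lit 16659508549) (nat_lit 72) (nat_lit 1) (nat_lit 71) (nat_lit 1) (nat_lit 75) (nat_lit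 1) (nat_lit 314) (nat_lit 393) (nat_lit 373)) (XT.nd (nat_lit 94) (nat_lit 168) (nat_lit 0) (XT.lf (nat_lit 336) (nat_lit 12231053935) (nat_lit 0) (nat_lit 8138090040) (nat_lit 252) (nat_lit 4933336939) (nat_lit 72) (nat_lit 1) (nat_lit 68) (nat_lit 1) (nat_lit 71) (nat_lit 1) (nat_lit 315) (nat_lit 393) (nat_lit 372)) (XT.lf (nat_lit 252) (nat_lit 3032096330) (nat_lit 0) (nat_lit 7099889966) (nat_lit 168) (nat_lit 14428974497) (nat_lit 69) (nat_lit 1) (nat_lit 66) (nat_lit 1) (nat_lit 68) (nat_lit 1) (nat_lit 316) (nat_lit 393) (nat_lit 371))))))))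
noncomputable def ec122 : XT := (XT.nd (nat_lit 1692) (nat_lit 2268) (nat_lit 0) (XT.nd (nat_lit 846) (nat_lit 1428) (nat_lit 0) (XT.nd (nat_lit 376) (nat_lit 924) (nat_lit 0) (XT.nd (nat_lit 188) (nat_lit 420) (nat_lit 0) (XT.nd (nat_lit 94) (nat_lit 168) (nat_lit 0) (XT.lf (nat_lit 84) (nat_lit 513656489) (nat_lit 0) (nat_lit 5747927629) (nat_lit 336) (nat_lit 17586599826) (nat_lit 63) (nat_lit 1) (nat_lit 62) (nat_lit 1) (nat_lit 66) (nat_lit 1) (nat_lit 317) (nat_lit 393) (nat_lit 370)) (XT.lf (nat_lit 252) (nat_lit 8810715586) (nat_lit 0) (nat_lit 5505941371) (nat_lit 168) (nat_lit 8841376965) (nat_lit 63) (nat_lit 1) (nat_lit 60) (nat_lit 1) (nat_lit 62) (nat_lit 1) (nat_lit 318) (nat_lit 393) (nat_lit 369))) (XT.nd (nat_lit 94) (nat_lit 168) (nat_lit 0) (XT.lf (nat_lit 84) (nat_lit 4780326075) (nat_lit 0) (nat_lit 220806258) (nat_lit 252) (nat_lit 17496867334)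 (nat_lit 58) (nat_lit 1) (nat_lit 57) (nat_lit 1) (nat_lit 60) (nat_lit 1) (nat_lit 319) (nat_lit 393) (nat_lit 368)) (XT.lf (nat_lit 252) (nat_lit 13068488386) (nat_lit 0) (nat_lit 4528524245) (nat_lit 168) (nat_lit 4260152708) (nat_lit 58) (nat_lit 1) (nat_lit 55) (nat_lit 1) (nat_lit 57) (nat_lit 1) (nat_lit 320) (nat_lit 393) (nat_lit 367)))) (XT.nd (nat_lit 188) (nat_lit 504) (nat_lit 0) (XT.nd (nat_lit 94) (nat_lit 252) (nat_lit 0) (XT.lf (nat_lit 252) (nat_lit 4059596183) (nat_lit 0) (nat_lit 4209764058) (nat_lit 168) (nat_lit 12971472671) (nat_lit 56) (nat_lit 1) (nat_lit 53) (nat_lit 1) (nat_lit 55) (nat_lit 1) (nat_lit 321) (nat_lit 393) (nat_lit 366)) (XT.lf (nat_lit 252) (nat_lit 16115104905) (nat_lit 0) (nat_lit 4022087872) (nat_lit 168) (nat_lit 510248509) (nat_lit 53) (nat_lit 1) (nat_lit 50) (nat_lit 1) (nat_lit 52) (nat_lit 1) (nat_lit 322)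 (nat_lit 393) (nat_lit 365))) (XT.nd (nat_lit 94) (nat_lit 336) (nat_lit 0) (XT.lf (nat_lit 252) (nat_lit 7212374083) (nat_lit 0) (nat_lit 3839737884) (nat_lit 168) (nat_lit 9018426172) (nat_lit 51) (nat_lit 1) (nat_lit 48) (nat_lit 1) (nat_lit 50) (nat_lit 1) (nat_lit 323) (nat_lit 393) (nat_lit 364)) (XT.nd (nat_lit 94) (nat_lit 168) (nat_lit 0) (XT.lf (nat_lit 84) (nat_lit 2470516585) (nat_lit 0) (nat_lit 1357907240) (nat_lit 168) (nat_lit 15689139619) (nat_lit 47) (nat_lit 1) (nat_lit 46) (nat_lit 1) (nat_lit 48) (nat_lit 1) (nat_lit 324) (nat_lit 393) (nat_lit 363)) (XT.lf (nat_lit 252) (nat_lit 9463049586) (nat_lit 0) (nat_lit 3787885079) (nat_lit 168) (nat_lit 5727607876) (nat_lit 47) (nat_lit 1) (nat_lit 44) (nat_lit 1) (nat_lit 46) (nat_lit 1) (nat_lit 325) (nat_lit 393) (nat_lit 362)))))) (XT.nd (nat_lit 376) (nat_lit 756) (nat_lit 0) (XT.nd (nat_lit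 188) (nat_lit 336) (nat_lit 0) (XT.nd (nat_lit 94) (nat_lit 252) (nat_lit 0) (XT.lf (nat_lit 168) (nat_lit 1019035972) (nat_lit 0) (nat_lit 3880920431) (nat_lit 84) (nat_lit 13560845085) (nat_lit 45) (nat_lit 1) (nat_lit 43) (nat_lit 1) (nat_lit 44) (nat_lit 1) (nat_lit 326) (nat_lit 393) (nat_lit 361)) (XT.lf (nat_lit 252) (nat_lit 11000117096) (nat_lit 0) (nat_lit 3969145964) (nat_lit 168) (nat_lit 2988073095) (nat_lit 43) (nat_lit 1) (nat_lit 40) (nat_lit 1) (nat_lit 42) (nat_lit 1) (nat_lit 327) (nat_lit 393) (nat_lit 360))) (XT.nd (nat_lit 94) (nat_lit 252) (nat_lit 0) (XT.lf (nat_lit 168) (nat_lit 2766610564) (nat_lit 0) (nat_lit 4117556331) (nat_lit 84) (nat_lit 10586671720) (nat_lit 41) (nat_lit 1) (nat_lit 39) (nat_lit 1) (nat_lit 40) (nat_lit 1) (nat_lit 328) (nat_lit 393) (nat_lit 359)) (XT.lf (nat_lit 252) (nat_lit 11975976748) (nat_lit 0) (nat_lit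 4316147291) (nat_lit 168) (nat_lit 708316718) (nat_lit 39) (nat_lit 1) (nat_lit 36) (nat_lit 1) (nat_lit 38) (nat_lit 1) (nat_lit 329) (nat_lit 393) (nat_lit 358)))) (XT.nd (nat_lit 188) (nat_lit 420) (nat_lit 0) (XT.nd (nat_lit 94) (nat_lit 252) (nat_lit 0) (XT.lf (nat_lit 168) (nat_lit 3981532159) (nat_lit 0) (nat_lit 4499635415) (nat_lit 84) (nat_lit 8061485438) (nat_lit 37) (nat_lit 1) (nat_lit 35) (nat_lit 1) (nat_lit 36) (nat_lit 1) (nat_lit 330) (nat_lit 393) (nat_lit 357)) (XT.lf (nat_lit 84) (nat_lit 1149228631) (nat_lit 0) (nat_lit 3607122334) (nat_lit 252) (nat_lit 11344960356) (nat_lit 33) (nat_lit 1) (nat_lit 32) (nat_lit 1) (nat_lit 35) (nat_lit 1) (nat_lit 331) (nat_lit 393) (nat_lit 356))) (XT.nd (nat_lit 94) (nat_lit 336) (nat_lit 0) (XT.lf (nat_lit 168) (nat_lit 4778197815) (nat_lit 0) (nat_lit 4978655642) (nat_lit 84) (nat_lit 5914076623)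 (nat_lit 33) (nat_lit 1) (nat_lit 31) (nat_lit 1) (nat_lit 32) (nat_lit 1) (nat_lit 332) (nat_lit 393) (nat_lit 355)) (XT.nd (nat_lit 94) (nat_lit 84) (nat_lit 0) (XT.lf (nat_lit 84) (nat_lit 2672677881) (nat_lit 0) (nat_lit 2588669253) (nat_lit 252) (nat_lit 9994326356) (nat_lit 29) (nat_lit 1) (nat_lit 28) (nat_lit 1) (nat_lit 31) (nat_lit 1) (nat_lit 333) (nat_lit 393) (nat_lit 354)) (XT.lf (nat_lit 168) (nat_lit 5248861021) (nat_lit 0) (nat_lit 5516755695) (nat_lit 84) (nat_lit 4085409831) (nat_lit 29) (nat_lit 1) (nat_lit 27) (nat_lit 1) (nat_lit 28) (nat_lit 1) (nat_lit 334) (nat_lit 393) (nat_lit 353))))))) (XT.nd (nat_lit 846) (nat_lit 1092) (nat_lit 0) (XT.nd (nat_lit 376) (nat_lit 672) (nat_lit 0) (XT.nd (nat_lit 188) (nat_lit 252) (nat_lit 0) (XT.nd (nat_lit 94) (nat_lit 84) (nat_lit 0) (XT.lf (nat_lit 84) (nat_lit 3934799871) (nat_lit 0) (nat_lit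 1874861733) (nat_lit 168) (nat_lit 8650081625) (nat_lit 26) (nat_lit 1) (nat_lit 25) (nat_lit 1) (nat_lit 27) (nat_lit 1) (nat_lit 335) (nat_lit 393) (nat_lit 352)) (XT.lf (nat_lit 168) (nat_lit 5467769372) (nat_lit 0) (nat_lit 6084641149) (nat_lit 84) (nat_lit 2526452175) (nat_lit 26) (nat_lit 1) (nat_lit 24) (nat_lit 1) (nat_lit 25) (nat_lit 1) (nat_lit 336) (nat_lit 393) (nat_lit 351))) (XT.nd (nat_lit 94) (nat_lit 84) (nat_lit 0) (XT.lf (nat_lit 84) (nat_lit 4977155986) (nat_lit 0) (nat_lit 1398671300) (nat_lit 168) (nat_lit 7333870365) (nat_lit 23) (nat_lit 1) (nat_lit 22) (nat_lit 1) (nat_lit 24) (nat_lit 1) (nat_lit 337) (nat_lit 393) (nat_lit 350)) (XT.lf (nat_lit 168) (nat_lit 5494538406) (nat_lit 0) (nat_lit 6659899054) (nat_lit 84) (nat_lit 1196396117) (nat_lit 23) (nat_lit 1) (nat_lit 21) (nat_lit 1) (nat_lit 22) (nat_lit 1) (nat_lit 338) (nat_lit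 393) (nat_lit 349)))) (XT.nd (nat_lit 188) (nat_lit 420) (nat_lit 0) (XT.nd (nat_lit 94) (nat_lit 84) (nat_lit 0) (XT.lf (nat_lit 84) (nat_lit 5834288373) (nat_lit 0) (nat_lit 1106200828) (nat_lit 168) (nat_lit 6061658713) (nat_lit 20) (nat_lit 1) (nat_lit 19) (nat_lit 1) (nat_lit 21) (nat_lit 1) (nat_lit 339) (nat_lit 393) (nat_lit 348)) (XT.lf (nat_lit 168) (nat_lit 5376902032) (nat_lit 0) (nat_lit 7225629160) (nat_lit 84) (nat_lit 61204581) (nat_lit 20) (nat_lit 1) (nat_lit 18) (nat_lit 1) (nat_lit 19) (nat_lit 1) (nat_lit 340) (nat_lit 393) (nat_lit 347))) (XT.nd (nat_lit 94) (nat_lit 252) (nat_lit 0) (XT.lf (nat_lit 84) (nat_lit 6534962419) (nat_lit 0) (nat_lit 954218898) (nat_lit 168) (nat_lit 4844891831) (nat_lit 17) (nat_lit 1) (nat_lit 16) (nat_lit 1) (nat_lit 18) (nat_lit 1) (nat_lit 341) (nat_lit 393) (nat_lit 346)) (XT.nd (nat_lit 94) (nat_lit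 168) (nat_lit 0) (XT.lf (nat_lit 0) (nat_lit 878532295) (nat_lit 0) (nat_lit 6875922572) (nat_lit 168) (nat_lit 4259543537) (nat_lit 15) (nat_lit 3) (nat_lit 15) (nat_lit 1) (nat_lit 17) (nat_lit 1) (nat_lit 342) (nat_lit 393) (nat_lit 345)) (XT.lf (nat_lit 84) (nat_lit 7103184313) (nat_lit 0) (nat_lit 908150147) (nat_lit 168) (nat_lit 3691431343) (nat_lit 14) (nat_lit 1) (nat_lit 13) (nat_lit 1) (nat_lit 15) (nat_lit 1) (nat_lit 343) (nat_lit 393) (nat_lit 344)))))) (XT.nd (nat_lit 470) (nat_lit 504) (nat_lit 0) (XT.nd (nat_lit 188) (nat_lit 336) (nat_lit 0) (XT.nd (nat_lit 94) (nat_lit 168) (nat_lit 0) (XT.lf (nat_lit 0) (nat_lit 1678321700) (nat_lit 0) (nat_lit 6575269800) (nat_lit 168) (nat_lit 3146230527) (nat_lit 12) (nat_lit 3) (nat_lit 12) (nat_lit 1) (nat_lit 14) (nat_lit 1) (nat_lit 344) (nat_lit 393) (nat_lit 343)) (XT.lf (nat_lit 84) (nat_lit 7559034786)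 (nat_lit 0) (nat_lit 940437728) (nat_lit 168) (nat_lit 2606313859) (nat_lit 11) (nat_lit 1) (nat_lit 10) (nat_lit 1) (nat_lit 12) (nat_lit 1) (nat_lit 345) (nat_lit 393) (nat_lit 342))) (XT.nd (nat_lit 94) (nat_lit 252) (nat_lit 0) (XT.lf (nat_lit 0) (nat_lit 2359533532) (nat_lit 0) (nat_lit 6357956111) (nat_lit 168) (nat_lit 2101427121) (nat_lit 9) (nat_lit 3) (nat_lit 9) (nat_lit 1) (nat_lit 11) (nat_lit 1) (nat_lit 346) (nat_lit 393) (nat_lit 341)) (XT.nd (nat_lit 94) (nat_lit 84) (nat_lit 0) (XT.lf (nat_lit 84) (nat_lit 7919352557) (nat_lit 0) (nat_lit 1029209400) (nat_lit 168) (nat_lit 1592363856) (nat_lit 8) (nat_lit 1) (nat_lit 7) (nat_lit 1) (nat_lit 9) (nat_lit 1) (nat_lit 347) (nat_lit 393) (nat_lit 340)) (XT.lf (nat_lit 0) (nat_lit 2938533201) (nat_lit 0) (nat_lit 6203297864) (nat_lit 168) (nat_lit 1127331266) (nat_lit 6) (nat_lit 3) (nat_lit 6)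 (nat_lit 1) (nat_lit 8) (nat_lit 1) (nat_lit 348) (nat_lit 393) (nat_lit 339))))) (XT.nd (nat_lit 188) (nat_lit 252) (nat_lit 0) (XT.nd (nat_lit 94) (nat_lit 84) (nat_lit 0) (XT.lf (nat_lit 84) (nat_lit 8198294898) (nat_lit 0) (nat_lit 1157191327) (nat_lit 168) (nat_lit 650688021) (nat_lit 5) (nat_lit 1) (nat_lit 4) (nat_lit 1) (nat_lit 6) (nat_lit 1) (nat_lit 349) (nat_lit 393) (nat_lit 338)) (XT.lf (nat_lit 0) (nat_lit 3429161940) (nat_lit 0) (nat_lit 6094885259) (nat_lit 168) (nat_lit 224579458) (nat_lit 3) (nat_lit 3) (nat_lit 3) (nat_lit 1) (nat_lit 5) (nat_lit 1) (nat_lit 350) (nat_lit 393) (nat_lit 337))) (XT.nd (nat_lit 94) (nat_lit 0) (nat_lit 0) (XT.lf (nat_lit 0) (nat_lit 13780133030) (nat_lit 0) (nat_lit 0) (nat_lit 0) (nat_lit 0) (nat_lit 0) (nat_lit 0) (nat_lit 1) (nat_lit 0) (nat_lit 1) (nat_lit 0) (nat_lit 351) (nat_lit 393) (nat_lit 336))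 (XT.nd (nat_lit 94) (nat_lit 0) (nat_lit 0) (XT.lf (nat_lit 0) (nat_lit 13767590187) (nat_lit 0) (nat_lit 0) (nat_lit 0) (nat_lit 0) (nat_lit 0) (nat_lit 0) (nat_lit 1) (nat_lit 0) (nat_lit 1) (nat_lit 0) (nat_lit 352) (nat_lit 393) (nat_lit 335)) (XT.lf (nat_lit 0) (nat_lit 13755976444) (nat_lit 0) (nat_lit 0) (nat_lit 0) (nat_lit 0) (nat_lit 0) (nat_lit 0) (nat_lit 1) (nat_lit 0) (nat_lit 1) (nat_lit 0) (nat_lit 353) (nat_lit 393) (nat_lit 334))))))))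
noncomputable def ec123 : XT := (XT.nd (nat_lit 1786) (nat_lit 0) (nat_lit 0) (XT.nd (nat_lit 846) (nat_lit 0) (nat_lit 0) (XT.nd (nat_lit 376) (nat_lit 0) (nat_lit 0) (XT.nd (nat_lit 188) (nat_lit 0) (nat_lit 0) (XT.nd (nat_lit 94) (nat_lit 0) (nat_lit 0) (XT.lf (nat_lit 0) (nat_lit 13745222978) (nat_lit 0) (nat_lit 0) (nat_lit 0) (nat_lit 0) (nat_lit 0) (nat_lit 0) (nat_lit 1) (nat_lit 0) (nat_lit 1) (nat_lit 0) (nat_lit 354) (nat_lit 393) (nat_lit 333)) (XT.lf (nat_lit 0) (nat_lit 13735266065) (nat_lit 0) (nat_lit 0) (nat_lit 0) (nat_lit 0) (nat_lit 0) (nat_lit 0) (nat_lit 1) (nat_lit 0) (nat_lit 1) (nat_lit 0) (nat_lit 355) (nat_lit 393) (nat_lit 332))) (XT.nd (nat_lit 94) (nat_lit 0) (nat_lit 0) (XT.lf (nat_lit 0) (nat_lit 13726046702) (nat_lit 0) (nat_lit 0) (nat_lit 0) (nat_lit 0) (nat_lit 0) (nat_lit 0) (nat_lit 1) (nat_lit 0) (nat_lit 1) (nat_lit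 0) (nat_lit 356) (nat_lit 393) (nat_lit 331)) (XT.lf (nat_lit 0) (nat_lit 13717510254) (nat_lit 0) (nat_lit 0) (nat_lit 0) (nat_lit 0) (nat_lit 0) (nat_lit 0) (nat_lit 1) (nat_lit 0) (nat_lit 1) (nat_lit 0) (nat_lit 357) (nat_lit 393) (nat_lit 330)))) (XT.nd (nat_lit 188) (nat_lit 0) (nat_lit 0) (XT.nd (nat_lit 94) (nat_lit 0) (nat_lit 0) (XT.lf (nat_lit 0) (nat_lit 13709606136) (nat_lit 0) (nat_lit 0) (nat_lit 0) (nat_lit 0) (nat_lit 0) (nat_lit 0) (nat_lit 1) (nat_lit 0) (nat_lit 1) (nat_lit 0) (nat_lit 358) (nat_lit 393) (nat_lit 329)) (XT.lf (nat_lit 0) (nat_lit 13702287507) (nat_lit 0) (nat_lit 0) (nat_lit 0) (nat_lit 0) (nat_lit 0) (nat_lit 0) (nat_lit 1) (nat_lit 0) (nat_lit 1) (nat_lit 0) (nat_lit 359) (nat_lit 393) (nat_lit 328))) (XT.nd (nat_lit 94) (nat_lit 0) (nat_lit 0) (XT.lf (nat_lit 0) (nat_lit 13695511000) (nat_lit 0) (nat_lit 0) (nat_lit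 0) (nat_lit 0) (nat_lit 0) (nat_lit 0) (nat_lit 1) (nat_lit 0) (nat_lit 1) (nat_lit 0) (nat_lit 360) (nat_lit 393) (nat_lit 327)) (XT.nd (nat_lit 94) (nat_lit 0) (nat_lit 0) (XT.lf (nat_lit 0) (nat_lit 13689236456) (nat_lit 0) (nat_lit 0) (nat_lit 0) (nat_lit 0) (nat_lit 0) (nat_lit 0) (nat_lit 1) (nat_lit 0) (nat_lit 1) (nat_lit 0) (nat_lit 361) (nat_lit 393) (nat_lit 326)) (XT.lf (nat_lit 0) (nat_lit 13683426693) (nat_lit 0) (nat_lit 0) (nat_lit 0) (nat_lit 0) (nat_lit 0) (nat_lit 0) (nat_lit 1) (nat_lit 0) (nat_lit 1) (nat_lit 0) (nat_lit 362) (nat_lit 393) (nat_lit 325)))))) (XT.nd (nat_lit 470) (nat_lit 0) (nat_lit 0) (XT.nd (nat_lit 188) (nat_lit 0) (nat_lit 0) (XT.nd (nat_lit 94) (nat_lit 0) (nat_lit 0) (XT.lf (nat_lit 0) (nat_lit 13678047283) (nat_lit 0) (nat_lit 0) (nat_lit 0) (nat_lit 0) (nat_lit 0) (nat_lit 0) (nat_lit 1) (nat_lit 0) (nat_lit 1)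 (nat_lit 0) (nat_lit 363) (nat_lit 393) (nat_lit 324)) (XT.lf (nat_lit 0) (nat_lit 13673066347) (nat_lit 0) (nat_lit 0) (nat_lit 0) (nat_lit 0) (nat_lit 0) (nat_lit 0) (nat_lit 1) (nat_lit 0) (nat_lit 1) (nat_lit 0) (nat_lit 364) (nat_lit 393) (nat_lit 323))) (XT.nd (nat_lit 94) (nat_lit 0) (nat_lit 0) (XT.lf (nat_lit 0) (nat_lit 13668454370) (nat_lit 0) (nat_lit 0) (nat_lit 0) (nat_lit 0) (nat_lit 0) (nat_lit 0) (nat_lit 1) (nat_lit 0) (nat_lit 1) (nat_lit 0) (nat_lit 365) (nat_lit 393) (nat_lit 322)) (XT.nd (nat_lit 94) (nat_lit 0) (nat_lit 0) (XT.lf (nat_lit 0) (nat_lit 13664184021) (nat_lit 0) (nat_lit 0) (nat_lit 0) (nat_lit 0) (nat_lit 0) (nat_lit 0) (nat_lit 1) (nat_lit 0) (nat_lit 1) (nat_lit 0) (nat_lit 366) (nat_lit 393) (nat_lit 321)) (XT.lf (nat_lit 0) (nat_lit 13660229994) (nat_lit 0) (nat_lit 0) (nat_lit 0) (nat_lit 0) (nat_lit 0) (nat_lit 0)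 (nat_lit 1) (nat_lit 0) (nat_lit 1) (nat_lit 0) (nat_lit 367) (nat_lit 393) (nat_lit 320))))) (XT.nd (nat_lit 188) (nat_lit 0) (nat_lit 0) (XT.nd (nat_lit 94) (nat_lit 0) (nat_lit 0) (XT.lf (nat_lit 0) (nat_lit 13656568858) (nat_lit 0) (nat_lit 0) (nat_lit 0) (nat_lit 0) (nat_lit 0) (nat_lit 0) (nat_lit 1) (nat_lit 0) (nat_lit 1) (nat_lit 0) (nat_lit 368) (nat_lit 393) (nat_lit 319)) (XT.lf (nat_lit 0) (nat_lit 13653178917) (nat_lit 0) (nat_lit 0) (nat_lit 0) (nat_lit 0) (nat_lit 0) (nat_lit 0) (nat_lit 1) (nat_lit 0) (nat_lit 1) (nat_lit 0) (nat_lit 369) (nat_lit 393) (nat_lit 318))) (XT.nd (nat_lit 94) (nat_lit 0) (nat_lit 0) (XT.lf (nat_lit 0) (nat_lit 13650040083) (nat_lit 0) (nat_lit 0) (nat_lit 0) (nat_lit 0) (nat_lit 0) (nat_lit 0) (nat_lit 1) (nat_lit 0) (nat_lit 1) (nat_lit 0) (nat_lit 370) (nat_lit 393) (nat_lit 317)) (XT.nd (nat_lit 94) (nat_lit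 0) (nat_lit 0) (XT.lf (nat_lit 0) (nat_lit 13647133755) (nat_lit 0) (nat_lit 0) (nat_lit 0) (nat_lit 0) (nat_lit 0) (nat_lit 0) (nat_lit 1) (nat_lit 0) (nat_lit 1) (nat_lit 0) (nat_lit 371) (nat_lit 393) (nat_lit 316)) (XT.lf (nat_lit 0) (nat_lit 13644442710) (nat_lit 0) (nat_lit 0) (nat_lit 0) (nat_lit 0) (nat_lit 0) (nat_lit 0) (nat_lit 1) (nat_lit 0) (nat_lit 1) (nat_lit 0) (nat_lit 372) (nat_lit 393) (nat_lit 315))))))) (XT.nd (nat_lit 846) (nat_lit 0) (nat_lit 0) (XT.nd (nat_lit 376) (nat_lit 0) (nat_lit 0) (XT.nd (nat_lit 188) (nat_lit 0) (nat_lit 0) (XT.nd (nat_lit 94) (nat_lit 0) (nat_lit 0) (XT.lf (nat_lit 0) (nat_lit 13641951003) (nat_lit 0) (nat_lit 0) (nat_lit 0) (nat_lit 0) (nat_lit 0) (nat_lit 0) (nat_lit 1) (nat_lit 0) (nat_lit 1) (nat_lit 0) (nat_lit 373) (nat_lit 393) (nat_lit 314)) (XT.lf (nat_lit 0) (nat_lit 13639643866) (nat_lit 0) (nat_lit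 0) (nat_lit 0) (nat_lit 0) (nat_lit 0) (nat_lit 0) (nat_lit 1) (nat_lit 0) (nat_lit 1) (nat_lit 0) (nat_lit 374) (nat_lit 393) (nat_lit 313))) (XT.nd (nat_lit 94) (nat_lit 0) (nat_lit 0) (XT.lf (nat_lit 0) (nat_lit 13637507628) (nat_lit 0) (nat_lit 0) (nat_lit 0) (nat_lit 0) (nat_lit 0) (nat_lit 0) (nat_lit 1) (nat_lit 0) (nat_lit 1) (nat_lit 0) (nat_lit 375) (nat_lit 393) (nat_lit 312)) (XT.lf (nat_lit 0) (nat_lit 13635529630) (nat_lit 0) (nat_lit 0) (nat_lit 0) (nat_lit 0) (nat_lit 0) (nat_lit 0) (nat_lit 1) (nat_lit 0) (nat_lit 1) (nat_lit 0) (nat_lit 376) (nat_lit 393) (nat_lit 311)))) (XT.nd (nat_lit 188) (nat_lit 0) (nat_lit 0) (XT.nd (nat_lit 94) (nat_lit 0) (nat_lit 0) (XT.lf (nat_lit 0) (nat_lit 13633698150) (nat_lit 0) (nat_lit 0) (nat_lit 0) (nat_lit 0) (nat_lit 0) (nat_lit 0) (nat_lit 1) (nat_lit 0) (nat_lit 1) (nat_lit 0) (nat_lit 377) (nat_lit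 393) (nat_lit 310)) (XT.lf (nat_lit 0) (nat_lit 13632002336) (nat_lit 0) (nat_lit 0) (nat_lit 0) (nat_lit 0) (nat_lit 0) (nat_lit 0) (nat_lit 1) (nat_lit 0) (nat_lit 1) (nat_lit 0) (nat_lit 378) (nat_lit 393) (nat_lit 309))) (XT.nd (nat_lit 94) (nat_lit 0) (nat_lit 0) (XT.lf (nat_lit 0) (nat_lit 13630432137) (nat_lit 0) (nat_lit 0) (nat_lit 0) (nat_lit 0) (nat_lit 0) (nat_lit 0) (nat_lit 1) (nat_lit 0) (nat_lit 1) (nat_lit 0) (nat_lit 379) (nat_lit 393) (nat_lit 308)) (XT.nd (nat_lit 94) (nat_lit 0) (nat_lit 0) (XT.lf (nat_lit 0) (nat_lit 13628978250) (nat_lit 0) (nat_lit 0) (nat_lit 0) (nat_lit 0) (nat_lit 0) (nat_lit 0) (nat_lit 1) (nat_lit 0) (nat_lit 1) (nat_lit 0) (nat_lit 380) (nat_lit 393) (nat_lit 307)) (XT.lf (nat_lit 0) (nat_lit 13627632058) (nat_lit 0) (nat_lit 0) (nat_lit 0) (nat_lit 0) (nat_lit 0) (nat_lit 0) (nat_lit 1) (nat_lit 0) (nat_lit 1)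 (nat_lit 0) (nat_lit 381) (nat_lit 393) (nat_lit 306)))))) (XT.nd (nat_lit 470) (nat_lit 0) (nat_lit 0) (XT.nd (nat_lit 188) (nat_lit 0) (nat_lit 0) (XT.nd (nat_lit 94) (nat_lit 0) (nat_lit 0) (XT.lf (nat_lit 0) (nat_lit 13626385584) (nat_lit 0) (nat_lit 0) (nat_lit 0) (nat_lit 0) (nat_lit 0) (nat_lit 0) (nat_lit 1) (nat_lit 0) (nat_lit 1) (nat_lit 0) (nat_lit 382) (nat_lit 393) (nat_lit 305)) (XT.lf (nat_lit 0) (nat_lit 13625231441) (nat_lit 0) (nat_lit 0) (nat_lit 0) (nat_lit 0) (nat_lit 0) (nat_lit 0) (nat_lit 1) (nat_lit 0) (nat_lit 1) (nat_lit 0) (nat_lit 383) (nat_lit 393) (nat_lit 304))) (XT.nd (nat_lit 94) (nat_lit 0) (nat_lit 0) (XT.lf (nat_lit 0) (nat_lit 13624162790) (nat_lit 0) (nat_lit 0) (nat_lit 0) (nat_lit 0) (nat_lit 0) (nat_lit 0) (nat_lit 1) (nat_lit 0) (nat_lit 1) (nat_lit 0) (nat_lit 384) (nat_lit 393) (nat_lit 303)) (XT.nd (nat_lit 94)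 (nat_lit 0) (nat_lit 0) (XT.lf (nat_lit 0) (nat_lit 13623173299) (nat_lit 0) (nat_lit 0) (nat_lit 0) (nat_lit 0) (nat_lit 0) (nat_lit 0) (nat_lit 1) (nat_lit 0) (nat_lit 1) (nat_lit 0) (nat_lit 385) (nat_lit 393) (nat_lit 302)) (XT.lf (nat_lit 0) (nat_lit 13622257103) (nat_lit 0) (nat_lit 0) (nat_lit 0) (nat_lit 0) (nat_lit 0) (nat_lit 0) (nat_lit 1) (nat_lit 0) (nat_lit 1) (nat_lit 0) (nat_lit 386) (nat_lit 393) (nat_lit 301))))) (XT.nd (nat_lit 188) (nat_lit 0) (nat_lit 0) (XT.nd (nat_lit 94) (nat_lit 0) (nat_lit 0) (XT.lf (nat_lit 0) (nat_lit 13621408773) (nat_lit 0) (nat_lit 0) (nat_lit 0) (nat_lit 0) (nat_lit 0) (nat_lit 0) (nat_lit 1) (nat_lit 0) (nat_lit 1) (nat_lit 0) (nat_lit 387) (nat_lit 393) (nat_lit 300)) (XT.lf (nat_lit 0) (nat_lit 13620623283) (nat_lit 0) (nat_lit 0) (nat_lit 0) (nat_lit 0) (nat_lit 0) (nat_lit 0) (nat_lit 1) (nat_lit 0) (nat_lit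 1) (nat_lit 0) (nat_lit 388) (nat_lit 393) (nat_lit 299))) (XT.nd (nat_lit 94) (nat_lit 0) (nat_lit 0) (XT.lf (nat_lit 0) (nat_lit 13619895977) (nat_lit 0) (nat_lit 0) (nat_lit 0) (nat_lit 0) (nat_lit 0) (nat_lit 0) (nat_lit 1) (nat_lit 0) (nat_lit 1) (nat_lit 0) (nat_lit 389) (nat_lit 393) (nat_lit 298)) (XT.nd (nat_lit 94) (nat_lit 0) (nat_lit 0) (XT.lf (nat_lit 0) (nat_lit 13619222546) (nat_lit 0) (nat_lit 0) (nat_lit 0) (nat_lit 0) (nat_lit 0) (nat_lit 0) (nat_lit 1) (nat_lit 0) (nat_lit 1) (nat_lit 0) (nat_lit 390) (nat_lit 393) (nat_lit 297)) (XT.lf (nat_lit 0) (nat_lit 13618598999) (nat_lit 0) (nat_lit 0) (nat_lit 0) (nat_lit 0) (nat_lit 0) (nat_lit 0) (nat_lit 1) (nat_lit 0) (nat_lit 1) (nat_lit 0) (nat_lit 391) (nat_lit 393) (nat_lit 296))))))))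
noncomputable def ec124 : XT := (XT.nd (nat_lit 1692) (nat_lit 0) (nat_lit 0) (XT.nd (nat_lit 846) (nat_lit 0) (nat_lit 0) (XT.nd (nat_lit 376) (nat_lit 0) (nat_lit 0) (XT.nd (nat_lit 188) (nat_lit 0) (nat_lit 0) (XT.nd (nat_lit 94) (nat_lit 0) (nat_lit 0) (XT.lf (nat_lit 0) (nat_lit 13618021640) (nat_lit 0) (nat_lit 0) (nat_lit 0) (nat_lit 0) (nat_lit 0) (nat_lit 0) (nat_lit 1) (nat_lit 0) (nat_lit 1) (nat_lit 0) (nat_lit 392) (nat_lit 393) (nat_lit 295)) (XT.lf (nat_lit 0) (nat_lit 13617487049) (nat_lit 0) (nat_lit 0) (nat_lit 0) (nat_lit 0) (nat_lit 0) (nat_lit 0) (nat_lit 1) (nat_lit 0) (nat_lit 1) (nat_lit 0) (nat_lit 393) (nat_lit 393) (nat_lit 294))) (XT.nd (nat_lit 94) (nat_lit 0) (nat_lit 0) (XT.lf (nat_lit 0) (nat_lit 13616992056) (nat_lit 0) (nat_lit 0) (nat_lit 0) (nat_lit 0) (nat_lit 0) (nat_lit 0) (nat_lit 1) (nat_lit 0) (nat_lit 1) (nat_lit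 0) (nat_lit 394) (nat_lit 393) (nat_lit 293)) (XT.lf (nat_lit 0) (nat_lit 13616533730) (nat_lit 0) (nat_lit 0) (nat_lit 0) (nat_lit 0) (nat_lit 0) (nat_lit 0) (nat_lit 1) (nat_lit 0) (nat_lit 1) (nat_lit 0) (nat_lit 395) (nat_lit 393) (nat_lit 292)))) (XT.nd (nat_lit 188) (nat_lit 0) (nat_lit 0) (XT.nd (nat_lit 94) (nat_lit 0) (nat_lit 0) (XT.lf (nat_lit 0) (nat_lit 13616109355) (nat_lit 0) (nat_lit 0) (nat_lit 0) (nat_lit 0) (nat_lit 0) (nat_lit 0) (nat_lit 1) (nat_lit 0) (nat_lit 1) (nat_lit 0) (nat_lit 396) (nat_lit 393) (nat_lit 291)) (XT.lf (nat_lit 0) (nat_lit 13615716414) (nat_lit 0) (nat_lit 0) (nat_lit 0) (nat_lit 0) (nat_lit 0) (nat_lit 0) (nat_lit 1) (nat_lit 0) (nat_lit 1) (nat_lit 0) (nat_lit 397) (nat_lit 393) (nat_lit 290))) (XT.nd (nat_lit 94) (nat_lit 0) (nat_lit 0) (XT.lf (nat_lit 0) (nat_lit 13615352580) (nat_lit 0) (nat_lit 0) (nat_lit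 0) (nat_lit 0) (nat_lit 0) (nat_lit 0) (nat_lit 1) (nat_lit 0) (nat_lit 1) (nat_lit 0) (nat_lit 398) (nat_lit 393) (nat_lit 289)) (XT.nd (nat_lit 94) (nat_lit 0) (nat_lit 0) (XT.lf (nat_lit 0) (nat_lit 13615015697) (nat_lit 0) (nat_lit 0) (nat_lit 0) (nat_lit 0) (nat_lit 0) (nat_lit 0) (nat_lit 1) (nat_lit 0) (nat_lit 1) (nat_lit 0) (nat_lit 399) (nat_lit 393) (nat_lit 288)) (XT.lf (nat_lit 0) (nat_lit 13614703768) (nat_lit 0) (nat_lit 0) (nat_lit 0) (nat_lit 0) (nat_lit 0) (nat_lit 0) (nat_lit 1) (nat_lit 0) (nat_lit 1) (nat_lit 0) (nat_lit 400) (nat_lit 393) (nat_lit 287)))))) (XT.nd (nat_lit 376) (nat_lit 0) (nat_lit 0) (XT.nd (nat_lit 188) (nat_lit 0) (nat_lit 0) (XT.nd (nat_lit 94) (nat_lit 0) (nat_lit 0) (XT.lf (nat_lit 0) (nat_lit 13614414945) (nat_lit 0) (nat_lit 0) (nat_lit 0) (nat_lit 0) (nat_lit 0) (nat_lit 0) (nat_lit 1) (nat_lit 0) (nat_lit 1)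 (nat_lit 0) (nat_lit 401) (nat_lit 393) (nat_lit 286)) (XT.lf (nat_lit 0) (nat_lit 13614147516) (nat_lit 0) (nat_lit 0) (nat_lit 0) (nat_lit 0) (nat_lit 0) (nat_lit 0) (nat_lit 1) (nat_lit 0) (nat_lit 1) (nat_lit 0) (nat_lit 402) (nat_lit 393) (nat_lit 285))) (XT.nd (nat_lit 94) (nat_lit 0) (nat_lit 0) (XT.lf (nat_lit 0) (nat_lit 13613899896) (nat_lit 0) (nat_lit 0) (nat_lit 0) (nat_lit 0) (nat_lit 0) (nat_lit 0) (nat_lit 1) (nat_lit 0) (nat_lit 1) (nat_lit 0) (nat_lit 403) (nat_lit 393) (nat_lit 284)) (XT.lf (nat_lit 0) (nat_lit 13613670619) (nat_lit 0) (nat_lit 0) (nat_lit 0) (nat_lit 0) (nat_lit 0) (nat_lit 0) (nat_lit 1) (nat_lit 0) (nat_lit 1) (nat_lit 0) (nat_lit 404) (nat_lit 393) (nat_lit 283)))) (XT.nd (nat_lit 188) (nat_lit 0) (nat_lit 0) (XT.nd (nat_lit 94) (nat_lit 0) (nat_lit 0) (XT.lf (nat_lit 0) (nat_lit 13613458326) (nat_lit 0) (nat_lit 0)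 (nat_lit 0) (nat_lit 0) (nat_lit 0) (nat_lit 0) (nat_lit 1) (nat_lit 0) (nat_lit 1) (nat_lit 0) (nat_lit 405) (nat_lit 393) (nat_lit 282)) (XT.lf (nat_lit 0) (nat_lit 13613261758) (nat_lit 0) (nat_lit 0) (nat_lit 0) (nat_lit 0) (nat_lit 0) (nat_lit 0) (nat_lit 1) (nat_lit 0) (nat_lit 1) (nat_lit 0) (nat_lit 406) (nat_lit 393) (nat_lit 281))) (XT.nd (nat_lit 94) (nat_lit 0) (nat_lit 0) (XT.lf (nat_lit 0) (nat_lit 13613079750) (nat_lit 0) (nat_lit 0) (nat_lit 0) (nat_lit 0) (nat_lit 0) (nat_lit 0) (nat_lit 1) (nat_lit 0) (nat_lit 1) (nat_lit 0) (nat_lit 407) (nat_lit 393) (nat_lit 280)) (XT.nd (nat_lit 94) (nat_lit 0) (nat_lit 0) (XT.lf (nat_lit 0) (nat_lit 13612911225) (nat_lit 0) (nat_lit 0) (nat_lit 0) (nat_lit 0) (nat_lit 0) (nat_lit 0) (nat_lit 1) (nat_lit 0) (nat_lit 1) (nat_lit 0) (nat_lit 408) (nat_lit 393) (nat_lit 279)) (XT.lf (nat_lit 0) (nat_lit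 13612755182) (nat_lit 0) (nat_lit 0) (nat_lit 0) (nat_lit 0) (nat_lit 0) (nat_lit 0) (nat_lit 1) (nat_lit 0) (nat_lit 1) (nat_lit 0) (nat_lit 409) (nat_lit 393) (nat_lit 278))))))) (XT.nd (nat_lit 846) (nat_lit 0) (nat_lit 0) (XT.nd (nat_lit 376) (nat_lit 0) (nat_lit 0) (XT.nd (nat_lit 188) (nat_lit 0) (nat_lit 0) (XT.nd (nat_lit 94) (nat_lit 0) (nat_lit 0) (XT.lf (nat_lit 0) (nat_lit 13612610699) (nat_lit 0) (nat_lit 0) (nat_lit 0) (nat_lit 0) (nat_lit 0) (nat_lit 0) (nat_lit 1) (nat_lit 0) (nat_lit 1) (nat_lit 0) (nat_lit 410) (nat_lit 393) (nat_lit 277)) (XT.lf (nat_lit 0) (nat_lit 13612476918) (nat_lit 0) (nat_lit 0) (nat_lit 0) (nat_lit 0) (nat_lit 0) (nat_lit 0) (nat_lit 1) (nat_lit 0) (nat_lit 1) (nat_lit 0) (nat_lit 411) (nat_lit 393) (nat_lit 276))) (XT.nd (nat_lit 94) (nat_lit 0) (nat_lit 0) (XT.lf (nat_lit 0) (nat_lit 13612353047) (nat_lit 0) (nat_lit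 0) (nat_lit 0) (nat_lit 0) (nat_lit 0) (nat_lit 0) (nat_lit 1) (nat_lit 0) (nat_lit 1) (nat_lit 0) (nat_lit 412) (nat_lit 393) (nat_lit 275)) (XT.lf (nat_lit 0) (nat_lit 13612238351) (nat_lit 0) (nat_lit 0) (nat_lit 0) (nat_lit 0) (nat_lit 0) (nat_lit 0) (nat_lit 1) (nat_lit 0) (nat_lit 1) (nat_lit 0) (nat_lit 413) (nat_lit 393) (nat_lit 274)))) (XT.nd (nat_lit 188) (nat_lit 0) (nat_lit 0) (XT.nd (nat_lit 94) (nat_lit 0) (nat_lit 0) (XT.lf (nat_lit 0) (nat_lit 13612132151) (nat_lit 0) (nat_lit 0) (nat_lit 0) (nat_lit 0) (nat_lit 0) (nat_lit 0) (nat_lit 1) (nat_lit 0) (nat_lit 1) (nat_lit 0) (nat_lit 414) (nat_lit 393) (nat_lit 273)) (XT.lf (nat_lit 0) (nat_lit 13612033818) (nat_lit 0) (nat_lit 0) (nat_lit 0) (nat_lit 0) (nat_lit 0) (nat_lit 0) (nat_lit 1) (nat_lit 0) (nat_lit 1) (nat_lit 0) (nat_lit 415) (nat_lit 393) (nat_lit 272))) (XT.nd (nat_lit 94) (nat_lit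 0) (nat_lit 0) (XT.lf (nat_lit 0) (nat_lit 13611942769) (nat_lit 0) (nat_lit 0) (nat_lit 0) (nat_lit 0) (nat_lit 0) (nat_lit 0) (nat_lit 1) (nat_lit 0) (nat_lit 1) (nat_lit 0) (nat_lit 416) (nat_lit 393) (nat_lit 271)) (XT.nd (nat_lit 94) (nat_lit 0) (nat_lit 0) (XT.lf (nat_lit 0) (nat_lit 13611858465) (nat_lit 0) (nat_lit 0) (nat_lit 0) (nat_lit 0) (nat_lit 0) (nat_lit 0) (nat_lit 1) (nat_lit 0) (nat_lit 1) (nat_lit 0) (nat_lit 417) (nat_lit 393) (nat_lit 270)) (XT.lf (nat_lit 0) (nat_lit 13611780405) (nat_lit 0) (nat_lit 0) (nat_lit 0) (nat_lit 0) (nat_lit 0) (nat_lit 0) (nat_lit 1) (nat_lit 0) (nat_lit 1) (nat_lit 0) (nat_lit 418) (nat_lit 393) (nat_lit 269)))))) (XT.nd (nat_lit 470) (nat_lit 0) (nat_lit 0) (XT.nd (nat_lit 188) (nat_lit 0) (nat_lit 0) (XT.nd (nat_lit 94) (nat_lit 0) (nat_lit 0) (XT.lf (nat_lit 0) (nat_lit 13611708127) (nat_lit 0) (nat_lit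 0) (nat_lit 0) (nat_lit 0) (nat_lit 0) (nat_lit 0) (nat_lit 1) (nat_lit 0) (nat_lit 1) (nat_lit 0) (nat_lit 419) (nat_lit 393) (nat_lit 268)) (XT.lf (nat_lit 0) (nat_lit 13611641203) (nat_lit 0) (nat_lit 0) (nat_lit 0) (nat_lit 0) (nat_lit 0) (nat_lit 0) (nat_lit 1) (nat_lit 0) (nat_lit 1) (nat_lit 0) (nat_lit 420) (nat_lit 393) (nat_lit 267))) (XT.nd (nat_lit 94) (nat_lit 0) (nat_lit 0) (XT.lf (nat_lit 0) (nat_lit 13611579237) (nat_lit 0) (nat_lit 0) (nat_lit 0) (nat_lit 0) (nat_lit 0) (nat_lit 0) (nat_lit 1) (nat_lit 0) (nat_lit 1) (nat_lit 0) (nat_lit 421) (nat_lit 393) (nat_lit 266)) (XT.nd (nat_lit 94) (nat_lit 0) (nat_lit 0) (XT.lf (nat_lit 0) (nat_lit 13611521860) (nat_lit 0) (nat_lit 0) (nat_lit 0) (nat_lit 0) (nat_lit 0) (nat_lit 0) (nat_lit 1) (nat_lit 0) (nat_lit 1) (nat_lit 0) (nat_lit 422) (nat_lit 393) (nat_lit 265)) (XT.lf (nat_lit 0) (nat_lit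 13611468734) (nat_lit 0) (nat_lit 0) (nat_lit 0) (nat_lit 0) (nat_lit 0) (nat_lit 0) (nat_lit 1) (nat_lit 0) (nat_lit 1) (nat_lit 0) (nat_lit 423) (nat_lit 393) (nat_lit 264))))) (XT.nd (nat_lit 188) (nat_lit 0) (nat_lit 0) (XT.nd (nat_lit 94) (nat_lit 0) (nat_lit 0) (XT.lf (nat_lit 0) (nat_lit 13611419543) (nat_lit 0) (nat_lit 0) (nat_lit 0) (nat_lit 0) (nat_lit 0) (nat_lit 0) (nat_lit 1) (nat_lit 0) (nat_lit 1) (nat_lit 0) (nat_lit 424) (nat_lit 393) (nat_lit 263)) (XT.lf (nat_lit 0) (nat_lit 13611373996) (nat_lit 0) (nat_lit 0) (nat_lit 0) (nat_lit 0) (nat_lit 0) (nat_lit 0) (nat_lit 1) (nat_lit 0) (nat_lit 1) (nat_lit 0) (nat_lit 425) (nat_lit 393) (nat_lit 262))) (XT.nd (nat_lit 94) (nat_lit 0) (nat_lit 0) (XT.lf (nat_lit 0) (nat_lit 13611331822) (nat_lit 0) (nat_lit 0) (nat_lit 0) (nat_lit 0) (nat_lit 0) (nat_lit 0) (nat_lit 1) (nat_lit 0) (nat_lit 1)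 (nat_lit 0) (nat_lit 426) (nat_lit 393) (nat_lit 261)) (XT.nd (nat_lit 94) (nat_lit 0) (nat_lit 0) (XT.lf (nat_lit 0) (nat_lit 13611292773) (nat_lit 0) (nat_lit 0) (nat_lit 0) (nat_lit 0) (nat_lit 0) (nat_lit 0) (nat_lit 1) (nat_lit 0) (nat_lit 1) (nat_lit 0) (nat_lit 427) (nat_lit 393) (nat_lit 260)) (XT.lf (nat_lit 0) (nat_lit 13611256616) (nat_lit 0) (nat_lit 0) (nat_lit 0) (nat_lit 0) (nat_lit 0) (nat_lit 0) (nat_lit 1) (nat_lit 0) (nat_lit 1) (nat_lit 0) (nat_lit 428) (nat_lit 393) (nat_lit 259))))))))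
noncomputable def ec125 : XT := (XT.nd (nat_lit 55648) (nat_lit 0) (nat_lit 4620) (XT.nd (nat_lit 846) (nat_lit 0) (nat_lit 0) (XT.nd (nat_lit 376) (nat_lit 0) (nat_lit 0) (XT.nd (nat_lit 188) (nat_lit 0) (nat_lit 0) (XT.nd (nat_lit 94) (nat_lit 0) (nat_lit 0) (XT.lf (nat_lit 0) (nat_lit 13611223138) (nat_lit 0) (nat_lit 0) (nat_lit 0) (nat_lit 0) (nat_lit 0) (nat_lit 0) (nat_lit 1) (nat_lit 0) (nat_lit 1) (nat_lit 0) (nat_lit 429) (nat_lit 393) (nat_lit 258)) (XT.lf (nat_lit 0) (nat_lit 13611192139) (nat_lit 0) (nat_lit 0) (nat_lit 0) (nat_lit 0) (nat_lit 0) (nat_lit 0) (nat_lit 1) (nat_lit 0) (nat_lit 1) (nat_lit 0) (nat_lit 430) (nat_lit 393) (nat_lit 257))) (XT.nd (nat_lit 94) (nat_lit 0) (nat_lit 0) (XT.lf (nat_lit 0) (nat_lit 13611163437) (nat_lit 0) (nat_lit 0) (nat_lit 0) (nat_lit 0) (nat_lit 0) (nat_lit 0) (nat_lit 1) (nat_lit 0) (nat_lit 1) (nat_lit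 0) (nat_lit 431) (nat_lit 393) (nat_lit 256)) (XT.lf (nat_lit 0) (nat_lit 13611136860) (nat_lit 0) (nat_lit 0) (nat_lit 0) (nat_lit 0) (nat_lit 0) (nat_lit 0) (nat_lit 1) (nat_lit 0) (nat_lit 1) (nat_lit 0) (nat_lit 432) (nat_lit 393) (nat_lit 255)))) (XT.nd (nat_lit 188) (nat_lit 0) (nat_lit 0) (XT.nd (nat_lit 94) (nat_lit 0) (nat_lit 0) (XT.lf (nat_lit 0) (nat_lit 13611112252) (nat_lit 0) (nat_lit 0) (nat_lit 0) (nat_lit 0) (nat_lit 0) (nat_lit 0) (nat_lit 1) (nat_lit 0) (nat_lit 1) (nat_lit 0) (nat_lit 433) (nat_lit 393) (nat_lit 254)) (XT.lf (nat_lit 0) (nat_lit 13611089467) (nat_lit 0) (nat_lit 0) (nat_lit 0) (nat_lit 0) (nat_lit 0) (nat_lit 0) (nat_lit 1) (nat_lit 0) (nat_lit 1) (nat_lit 0) (nat_lit 434) (nat_lit 393) (nat_lit 253))) (XT.nd (nat_lit 94) (nat_lit 0) (nat_lit 0) (XT.lf (nat_lit 0) (nat_lit 13611068370) (nat_lit 0) (nat_lit 0) (nat_lit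 0) (nat_lit 0) (nat_lit 0) (nat_lit 0) (nat_lit 1) (nat_lit 0) (nat_lit 1) (nat_lit 0) (nat_lit 435) (nat_lit 393) (nat_lit 252)) (XT.nd (nat_lit 94) (nat_lit 0) (nat_lit 0) (XT.lf (nat_lit 0) (nat_lit 13611048836) (nat_lit 0) (nat_lit 0) (nat_lit 0) (nat_lit 0) (nat_lit 0) (nat_lit 0) (nat_lit 1) (nat_lit 0) (nat_lit 1) (nat_lit 0) (nat_lit 436) (nat_lit 393) (nat_lit 251)) (XT.lf (nat_lit 0) (nat_lit 13611030748) (nat_lit 0) (nat_lit 0) (nat_lit 0) (nat_lit 0) (nat_lit 0) (nat_lit 0) (nat_lit 1) (nat_lit 0) (nat_lit 1) (nat_lit 0) (nat_lit 437) (nat_lit 393) (nat_lit 250)))))) (XT.nd (nat_lit 54332) (nat_lit 0) (nat_lit 10332) (XT.nd (nat_lit 54050) (nat_lit 0) (nat_lit 10752) (XT.nd (nat_lit 94) (nat_lit 0) (nat_lit 0) (XT.lf (nat_lit 0) (nat_lit 13611014001) (nat_lit 0) (nat_lit 0) (nat_lit 0) (nat_lit 0) (nat_lit 0) (nat_lit 0) (nat_lit 1) (nat_lit 0)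 (nat_lit 1) (nat_lit 0) (nat_lit 438) (nat_lit 393) (nat_lit 249)) (XT.lf (nat_lit 0) (nat_lit 13610998494) (nat_lit 0) (nat_lit 0) (nat_lit 0) (nat_lit 0) (nat_lit 0) (nat_lit 0) (nat_lit 1) (nat_lit 0) (nat_lit 1) (nat_lit 0) (nat_lit 439) (nat_lit 393) (nat_lit 248))) (XT.nd (nat_lit 94) (nat_lit 0) (nat_lit 84) (XT.lf (nat_lit 924) (nat_lit 7356264996) (nat_lit 0) (nat_lit 13061031591) (nat_lit 924) (nat_lit 7356264996) (nat_lit 139) (nat_lit 1) (nat_lit 128) (nat_lit 0) (nat_lit 139) (nat_lit 0) (nat_lit 292) (nat_lit 394) (nat_lit 394)) (XT.nd (nat_lit 94) (nat_lit 0) (nat_lit 0) (XT.lf (nat_lit 924) (nat_lit 2744112564) (nat_lit 0) (nat_lit 25642763503) (nat_lit 840) (nat_lit 25078537035) (nat_lit 140) (nat_lit 1) (nat_lit 129) (nat_lit 1) (nat_lit 139) (nat_lit 1) (nat_lit 293) (nat_lit 394) (nat_lit 393)) (XT.lf (nat_lit 924) (nat_lit 25203089977)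 (nat_lit 84) (nat_lit 17172967361) (nat_lit 0) (nat_lit 9107758524) (nat_lit 140) (nat_lit 1) (nat_lit 130) (nat_lit 1) (nat_lit 129) (nat_lit 1) (nat_lit 294) (nat_lit 394) (nat_lit 392))))) (XT.nd (nat_lit 188) (nat_lit 588) (nat_lit 0) (XT.nd (nat_lit 94) (nat_lit 0) (nat_lit 84) (XT.lf (nat_lit 924) (nat_lit 21777534407) (nat_lit 84) (nat_lit 7197071589) (nat_lit 0) (nat_lit 20626776780) (nat_lit 141) (nat_lit 1) (nat_lit 131) (nat_lit 1) (nat_lit 130) (nat_lit 1) (nat_lit 295) (nat_lit 394) (nat_lit 391)) (XT.lf (nat_lit 924) (nat_lit 16117226923) (nat_lit 0) (nat_lit 30154569745) (nat_lit 840) (nat_lit 1541497297) (nat_lit 142) (nat_lit 1) (nat_lit 131) (nat_lit 1) (nat_lit 141) (nat_lit 1) (nat_lit 296) (nat_lit 394) (nat_lit 390))) (XT.nd (nat_lit 94) (nat_lit 756) (nat_lit 0) (XT.lf (nat_lit 924) (nat_lit 3867170575) (nat_lit 0) (nat_lit 33253790408)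 (nat_lit 840) (nat_lit 8989637927) (nat_lit 143) (nat_lit 1) (nat_lit 132) (nat_lit 1) (nat_lit 142) (nat_lit 1) (nat_lit 297) (nat_lit 394) (nat_lit 389)) (XT.nd (nat_lit 94) (nat_lit 756) (nat_lit 0) (XT.lf (nat_lit 924) (nat_lit 7431128934) (nat_lit 84) (nat_lit 28900251837) (nat_lit 0) (nat_lit 8156007629) (nat_lit 143) (nat_lit 1) (nat_lit 133) (nat_lit 1) (nat_lit 132) (nat_lit 1) (nat_lit 298) (nat_lit 394) (nat_lit 388)) (XT.lf (nat_lit 924) (nat_lit 1526184430) (nat_lit 0) (nat_lit 21604849926) (nat_lit 840) (nat_lit 19811421010) (nat_lit 134) (nat_lit 1) (nat_lit 123) (nat_lit 1) (nat_lit 133) (nat_lit 1) (nat_lit 299) (nat_lit 394) (nat_lit 387))))))) (XT.nd (nat_lit 846) (nat_lit 2604) (nat_lit 0) (XT.nd (nat_lit 376) (nat_lit 1344) (nat_lit 0) (XT.nd (nat_lit 188) (nat_lit 756) (nat_lit 0) (XT.nd (nat_lit 94) (nat_lit 420) (nat_lit 0) (XT.lf (nat_lit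 84) (nat_lit 10567618914) (nat_lit 0) (nat_lit 4579441052) (nat_lit 588) (nat_lit 26323613454) (nat_lit 117) (nat_lit 1) (nat_lit 116) (nat_lit 1) (nat_lit 123) (nat_lit 1) (nat_lit 300) (nat_lit 394) (nat_lit 386)) (XT.lf (nat_lit 504) (nat_lit 29123027615) (nat_lit 0) (nat_lit 9480173330) (nat_lit 420) (nat_lit 1465693374) (nat_lit 117) (nat_lit 1) (nat_lit 111) (nat_lit 1) (nat_lit 116) (nat_lit 1) (nat_lit 301) (nat_lit 394) (nat_lit 385))) (XT.nd (nat_lit 94) (nat_lit 336) (nat_lit 0) (XT.lf (nat_lit 504) (nat_lit 21015454057) (nat_lit 0) (nat_lit 4418749626) (nat_lit 420) (nat_lit 13293185528) (nat_lit 112) (nat_lit 1) (nat_lit 106) (nat_lit 1) (nat_lit 111) (nat_lit 1) (nat_lit 302) (nat_lit 394) (nat_lit 384)) (XT.lf (nat_lit 420) (nat_lit 12787635764) (nat_lit 0) (nat_lit 81356361) (nat_lit 336) (nat_lit 24581938646) (nat_lit 107) (nat_lit 1) (nat_lit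 102) (nat_lit 1) (nat_lit 106) (nat_lit 1) (nat_lit 303) (nat_lit 394) (nat_lit 383)))) (XT.nd (nat_lit 188) (nat_lit 924) (nat_lit 0) (XT.nd (nat_lit 94) (nat_lit 420) (nat_lit 0) (XT.lf (nat_lit 84) (nat_lit 943411332) (nat_lit 0) (nat_lit 31816401509) (nat_lit 420) (nat_lit 3473378856) (nat_lit 103) (nat_lit 1) (nat_lit 102) (nat_lit 1) (nat_lit 107) (nat_lit 1) (nat_lit 304) (nat_lit 394) (nat_lit 382)) (XT.lf (nat_lit 84) (nat_lit 24359125297) (nat_lit 0) (nat_lit 4040221571) (nat_lit 420) (nat_lit 6663059131) (nat_lit 98) (nat_lit 1) (nat_lit 97) (nat_lit 1) (nat_lit 102) (nat_lit 1) (nat_lit 305) (nat_lit 394) (nat_lit 381))) (XT.nd (nat_lit 94) (nat_lit 588) (nat_lit 0) (XT.lf (nat_lit 84) (nat_lit 12187487662) (nat_lit 0) (nat_lit 12375915878) (nat_lit 420) (nat_lit 9379948042) (nat_lit 94) (nat_lit 1) (nat_lit 93) (nat_lit 1) (nat_lit 98) (nat_lit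 1) (nat_lit 306) (nat_lit 394) (nat_lit 380)) (XT.nd (nat_lit 94) (nat_lit 252) (nat_lit 0) (XT.lf (nat_lit 84) (nat_lit 601547365) (nat_lit 0) (nat_lit 20692339178) (nat_lit 420) (nat_lit 11583394151) (nat_lit 90) (nat_lit 1) (nat_lit 89) (nat_lit 1) (nat_lit 94) (nat_lit 1) (nat_lit 307) (nat_lit 394) (nat_lit 379)) (XT.lf (nat_lit 336) (nat_lit 2716554000) (nat_lit 0) (nat_lit 18370754374) (nat_lit 252) (nat_lit 10765684269) (nat_lit 90) (nat_lit 1) (nat_lit 86) (nat_lit 1) (nat_lit 89) (nat_lit 1) (nat_lit 308) (nat_lit 394) (nat_lit 378)))))) (XT.nd (nat_lit 470) (nat_lit 1092) (nat_lit 0) (XT.nd (nat_lit 188) (nat_lit 840) (nat_lit 0) (XT.nd (nat_lit 94) (nat_lit 252) (nat_lit 0) (XT.lf (nat_lit 84) (nat_lit 9386424444) (nat_lit 0) (nat_lit 6433513638) (nat_lit 420) (nat_lit 15051081708) (nat_lit 82) (nat_lit 1) (nat_lit 81) (nat_lit 1) (nat_lit 86)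 (nat_lit 1) (nat_lit 309) (nat_lit 394) (nat_lit 377)) (XT.lf (nat_lit 336) (nat_lit 14532442767) (nat_lit 0) (nat_lit 13651351705) (nat_lit 252) (nat_lit 1747356816) (nat_lit 82) (nat_lit 1) (nat_lit 78) (nat_lit 1) (nat_lit 81) (nat_lit 1) (nat_lit 310) (nat_lit 394) (nat_lit 376))) (XT.nd (nat_lit 94) (nat_lit 588) (nat_lit 0) (XT.lf (nat_lit 336) (nat_lit 4657577699) (nat_lit 0) (nat_lit 11753254801) (nat_lit 252) (nat_lit 12616569695) (nat_lit 79) (nat_lit 1) (nat_lit 75) (nat_lit 1) (nat_lit 78) (nat_lit 1) (nat_lit 311) (nat_lit 394) (nat_lit 375)) (XT.nd (nat_lit 94) (nat_lit 252) (nat_lit 0) (XT.lf (nat_lit 84) (nat_lit 5308513156) (nat_lit 0) (nat_lit 4860405115) (nat_lit 336) (nat_lit 17992269233) (nat_lit 72) (nat_lit 1) (nat_lit 71) (nat_lit 1) (nat_lit 75) (nat_lit 1) (nat_lit 312) (nat_lit 394) (nat_lit 374)) (XT.lf (nat_lit 336) (nat_lit 13209538250)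 (nat_lit 0) (nat_lit 8789137244) (nat_lit 252) (nat_lit 5328003894) (nat_lit 72) (nat_lit 1) (nat_lit 68) (nat_lit 1) (nat_lit 71) (nat_lit 1) (nat_lit 313) (nat_lit 394) (nat_lit 373))))) (XT.nd (nat_lit 188) (nat_lit 588) (nat_lit 0) (XT.nd (nat_lit 94) (nat_lit 336) (nat_lit 0) (XT.lf (nat_lit 252) (nat_lit 3274664037) (nat_lit 0) (nat_lit 7667881164) (nat_lit 168) (nat_lit 15583292456) (nat_lit 69) (nat_lit 1) (nat_lit 66) (nat_lit 1) (nat_lit 68) (nat_lit 1) (nat_lit 314) (nat_lit 394) (nat_lit 372)) (XT.lf (nat_lit 84) (nat_lit 554749008) (nat_lit 0) (nat_lit 6207761840) (nat_lit 336) (nat_lit 18993527812) (nat_lit 63) (nat_lit 1) (nat_lit 62) (nat_lit 1) (nat_lit 66) (nat_lit 1) (nat_lit 315) (nat_lit 394) (nat_lit 371))) (XT.nd (nat_lit 94) (nat_lit 420) (nat_lit 0) (XT.lf (nat_lit 252) (nat_lit 9515572833) (nat_lit 0) (nat_lit 5946416681) (nat_lit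 168) (nat_lit 9548687122) (nat_lit 63) (nat_lit 1) (nat_lit 60) (nat_lit 1) (nat_lit 62) (nat_lit 1) (nat_lit 316) (nat_lit 394) (nat_lit 370)) (XT.nd (nat_lit 94) (nat_lit 168) (nat_lit 0) (XT.lf (nat_lit 84) (nat_lit 5162752161) (nat_lit 0) (nat_lit 238470759) (nat_lit 252) (nat_lit 18896616721) (nat_lit 58) (nat_lit 1) (nat_lit 57) (nat_lit 1) (nat_lit 60) (nat_lit 1) (nat_lit 317) (nat_lit 394) (nat_lit 369)) (XT.lf (nat_lit 252) (nat_lit 14113967456) (nat_lit 0) (nat_lit 4890806185) (nat_lit 168) (nat_lit 4600964925) (nat_lit 58) (nat_lit 1) (nat_lit 55) (nat_lit 1) (nat_lit 57) (nat_lit 1) (nat_lit 318) (nat_lit 394) (nat_lit 368))))))))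
noncomputable def ec126 : XT := (XT.nd (nat_lit 1692) (nat_lit 1764) (nat_lit 0) (XT.nd (nat_lit 846) (nat_lit 1260) (nat_lit 0) (XT.nd (nat_lit 376) (nat_lit 840) (nat_lit 0) (XT.nd (nat_lit 188) (nat_lit 336) (nat_lit 0) (XT.nd (nat_lit 94) (nat_lit 252) (nat_lit 0) (XT.lf (nat_lit 252) (nat_lit 4384363878) (nat_lit 0) (nat_lit 4546545183) (nat_lit 168) (nat_lit 14009190485) (nat_lit 56) (nat_lit 1) (nat_lit 53) (nat_lit 1) (nat_lit 55) (nat_lit 1) (nat_lit 319) (nat_lit 394) (nat_lit 367)) (XT.lf (nat_lit 252) (nat_lit 17404313297) (nat_lit 0) (nat_lit 4343854901) (nat_lit 168) (nat_lit 551068390) (nat_lit 53) (nat_lit 1) (nat_lit 50) (nat_lit 1) (nat_lit 52) (nat_lit 1) (nat_lit 320) (nat_lit 394) (nat_lit 366))) (XT.nd (nat_lit 94) (nat_lit 168) (nat_lit 0) (XT.lf (nat_lit 252) (nat_lit 7789364010) (nat_lit 0) (nat_lit 4146916914) (nat_lit 168) (nat_lit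 9739900266) (nat_lit 51) (nat_lit 1) (nat_lit 48) (nat_lit 1) (nat_lit 50) (nat_lit 1) (nat_lit 321) (nat_lit 394) (nat_lit 365)) (XT.lf (nat_lit 84) (nat_lit 2668157912) (nat_lit 0) (nat_lit 1466539819) (nat_lit 168) (nat_lit 16944270789) (nat_lit 47) (nat_lit 1) (nat_lit 46) (nat_lit 1) (nat_lit 48) (nat_lit 1) (nat_lit 322) (nat_lit 394) (nat_lit 364)))) (XT.nd (nat_lit 188) (nat_lit 588) (nat_lit 0) (XT.nd (nat_lit 94) (nat_lit 84) (nat_lit 0) (XT.lf (nat_lit 252) (nat_lit 10220093553) (nat_lit 0) (nat_lit 4090915885) (nat_lit 168) (nat_lit 6185816506) (nat_lit 47) (nat_lit 1) (nat_lit 44) (nat_lit 1) (nat_lit 46) (nat_lit 1) (nat_lit 323) (nat_lit 394) (nat_lit 363)) (XT.lf (nat_lit 168) (nat_lit 1100558850) (nat_lit 0) (nat_lit 4191394066) (nat_lit 84) (nat_lit 14645712692) (nat_lit 45) (nat_lit 1) (nat_lit 43) (nat_lit 1) (nat_lit 44) (nat_lit 1) (nat_lit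 324) (nat_lit 394) (nat_lit 362))) (XT.nd (nat_lit 94) (nat_lit 336) (nat_lit 0) (XT.lf (nat_lit 252) (nat_lit 11880126464) (nat_lit 0) (nat_lit 4286677641) (nat_lit 168) (nat_lit 3227118942) (nat_lit 43) (nat_lit 1) (nat_lit 40) (nat_lit 1) (nat_lit 42) (nat_lit 1) (nat_lit 325) (nat_lit 394) (nat_lit 361)) (XT.nd (nat_lit 94) (nat_lit 252) (nat_lit 0) (XT.lf (nat_lit 168) (nat_lit 2987939409) (nat_lit 0) (nat_lit 4446960838) (nat_lit 84) (nat_lit 11433605458) (nat_lit 41) (nat_lit 1) (nat_lit 39) (nat_lit 1) (nat_lit 40) (nat_lit 1) (nat_lit 326) (nat_lit 394) (nat_lit 360)) (XT.lf (nat_lit 252) (nat_lit 12934054888) (nat_lit 0) (nat_lit 4661439075) (nat_lit 168) (nat_lit 764982056) (nat_lit 39) (nat_lit 1) (nat_lit 36) (nat_lit 1) (nat_lit 38) (nat_lit 1) (nat_lit 327) (nat_lit 394) (nat_lit 359)))))) (XT.nd (nat_lit 376) (nat_lit 588) (nat_lit 0) (XT.nd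 (nat_lit 188) (nat_lit 336) (nat_lit 0) (XT.nd (nat_lit 94) (nat_lit 252) (nat_lit 0) (XT.lf (nat_lit 168) (nat_lit 4300054731) (nat_lit 0) (nat_lit 4859606248) (nat_lit 84) (nat_lit 8706404273) (nat_lit 37) (nat_lit 1) (nat_lit 35) (nat_lit 1) (nat_lit 36) (nat_lit 1) (nat_lit 328) (nat_lit 394) (nat_lit 358)) (XT.lf (nat_lit 84) (nat_lit 1241166921) (nat_lit 0) (nat_lit 3895692121) (nat_lit 252) (nat_lit 12252557185) (nat_lit 33) (nat_lit 1) (nat_lit 32) (nat_lit 1) (nat_lit 35) (nat_lit 1) (nat_lit 329) (nat_lit 394) (nat_lit 357))) (XT.nd (nat_lit 94) (nat_lit 252) (nat_lit 0) (XT.lf (nat_lit 168) (nat_lit 5160453640) (nat_lit 0) (nat_lit 5376948093) (nat_lit 84) (nat_lit 6387202753) (nat_lit 33) (nat_lit 1) (nat_lit 31) (nat_lit 1) (nat_lit 32) (nat_lit 1) (nat_lit 330) (nat_lit 394) (nat_lit 356)) (XT.lf (nat_lit 84) (nat_lit 2886492111) (nat_lit 0)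 (nat_lit 2795762794) (nat_lit 252) (nat_lit 10793872464) (nat_lit 29) (nat_lit 1) (nat_lit 28) (nat_lit 1) (nat_lit 31) (nat_lit 1) (nat_lit 331) (nat_lit 394) (nat_lit 355)))) (XT.nd (nat_lit 188) (nat_lit 336) (nat_lit 0) (XT.nd (nat_lit 94) (nat_lit 168) (nat_lit 0) (XT.lf (nat_lit 168) (nat_lit 5668769903) (nat_lit 0) (nat_lit 5958096150) (nat_lit 84) (nat_lit 4412242618) (nat_lit 29) (nat_lit 1) (nat_lit 27) (nat_lit 1) (nat_lit 28) (nat_lit 1) (nat_lit 332) (nat_lit 394) (nat_lit 354)) (XT.lf (nat_lit 84) (nat_lit 4249583860) (nat_lit 0) (nat_lit 2024850672) (nat_lit 168) (nat_lit 9342088155) (nat_lit 26) (nat_lit 1) (nat_lit 25) (nat_lit 1) (nat_lit 27) (nat_lit 1) (nat_lit 333) (nat_lit 394) (nat_lit 353))) (XT.nd (nat_lit 94) (nat_lit 252) (nat_lit 0) (XT.lf (nat_lit 168) (nat_lit 5905190922) (nat_lit 0) (nat_lit 6571412441) (nat_lit 84) (nat_lit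 2728568349) (nat_lit 26) (nat_lit 1) (nat_lit 24) (nat_lit 1) (nat_lit 25) (nat_lit 1) (nat_lit 334) (nat_lit 394) (nat_lit 352)) (XT.nd (nat_lit 94) (nat_lit 84) (nat_lit 0) (XT.lf (nat_lit 84) (nat_lit 5375328465) (nat_lit 0) (nat_lit 1510565004) (nat_lit 168) (nat_lit 7920579994) (nat_lit 23) (nat_lit 1) (nat_lit 22) (nat_lit 1) (nat_lit 24) (nat_lit 1) (nat_lit 335) (nat_lit 394) (nat_lit 351)) (XT.lf (nat_lit 168) (nat_lit 5934101479) (nat_lit 0) (nat_lit 7192690978) (nat_lit 84) (nat_lit 1292107806) (nat_lit 23) (nat_lit 1) (nat_lit 21) (nat_lit 1) (nat_lit 22) (nat_lit 1) (nat_lit 336) (nat_lit 394) (nat_lit 350))))))) (XT.nd (nat_lit 846) (nat_lit 588) (nat_lit 0) (XT.nd (nat_lit 376) (nat_lit 672) (nat_lit 0) (XT.nd (nat_lit 188) (nat_lit 252) (nat_lit 0) (XT.nd (nat_lit 94) (nat_lit 84) (nat_lit 0) (XT.lf (nat_lit 84) (nat_lit 6301031443) (nat_lit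 0) (nat_lit 1194696895) (nat_lit 168) (nat_lit 6546591410) (nat_lit 20) (nat_lit 1) (nat_lit 19) (nat_lit 1) (nat_lit 21) (nat_lit 1) (nat_lit 337) (nat_lit 394) (nat_lit 349)) (XT.lf (nat_lit 168) (nat_lit 5807054195) (nat_lit 0) (nat_lit 7803679493) (nat_lit 84) (nat_lit 66100948) (nat_lit 20) (nat_lit 1) (nat_lit 18) (nat_lit 1) (nat_lit 19) (nat_lit 1) (nat_lit 338) (nat_lit 394) (nat_lit 348))) (XT.nd (nat_lit 94) (nat_lit 84) (nat_lit 0) (XT.lf (nat_lit 84) (nat_lit 7057759413) (nat_lit 0) (nat_lit 1030556410) (nat_lit 168) (nat_lit 5232483177) (nat_lit 17) (nat_lit 1) (nat_lit 16) (nat_lit 1) (nat_lit 18) (nat_lit 1) (nat_lit 339) (nat_lit 394) (nat_lit 347)) (XT.lf (nat_lit 0) (nat_lit 948814879) (nat_lit 0) (nat_lit 7425996378) (nat_lit 168) (nat_lit 4600307020) (nat_lit 15) (nat_lit 3) (nat_lit 15) (nat_lit 1) (nat_lit 17) (nat_lit 1) (nat_lit 340)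 (nat_lit 394) (nat_lit 346)))) (XT.nd (nat_lit 188) (nat_lit 420) (nat_lit 0) (XT.nd (nat_lit 94) (nat_lit 84) (nat_lit 0) (XT.lf (nat_lit 84) (nat_lit 7671439058) (nat_lit 0) (nat_lit 980802159) (nat_lit 168) (nat_lit 3986745850) (nat_lit 14) (nat_lit 1) (nat_lit 13) (nat_lit 1) (nat_lit 15) (nat_lit 1) (nat_lit 341) (nat_lit 394) (nat_lit 345)) (XT.lf (nat_lit 0) (nat_lit 1812587436) (nat_lit 0) (nat_lit 7101291385) (nat_lit 168) (nat_lit 3397928969) (nat_lit 12) (nat_lit 3) (nat_lit 12) (nat_lit 1) (nat_lit 14) (nat_lit 1) (nat_lit 342) (nat_lit 394) (nat_lit 344))) (XT.nd (nat_lit 94) (nat_lit 252) (nat_lit 0) (XT.lf (nat_lit 84) (nat_lit 8163757569) (nat_lit 0) (nat_lit 1015672747) (nat_lit 168) (nat_lit 2814818968) (nat_lit 11) (nat_lit 1) (nat_lit 10) (nat_lit 1) (nat_lit 12) (nat_lit 1) (nat_lit 343) (nat_lit 394) (nat_lit 343)) (XT.nd (nat_lit 94)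 (nat_lit 168) (nat_lit 0) (XT.lf (nat_lit 0) (nat_lit 2548296215) (nat_lit 0) (nat_lit 6866592599) (nat_lit 168) (nat_lit 2269541291) (nat_lit 9) (nat_lit 3) (nat_lit 9) (nat_lit 1) (nat_lit 11) (nat_lit 1) (nat_lit 344) (nat_lit 394) (nat_lit 342)) (XT.lf (nat_lit 84) (nat_lit 8552900761) (nat_lit 0) (nat_lit 1111546152) (nat_lit 168) (nat_lit 1719752964) (nat_lit 8) (nat_lit 1) (nat_lit 7) (nat_lit 1) (nat_lit 9) (nat_lit 1) (nat_lit 345) (nat_lit 394) (nat_lit 341)))))) (XT.nd (nat_lit 470) (nat_lit 0) (nat_lit 0) (XT.nd (nat_lit 188) (nat_lit 336) (nat_lit 0) (XT.nd (nat_lit 94) (nat_lit 168) (nat_lit 0) (XT.lf (nat_lit 0) (nat_lit 3173615857) (nat_lit 0) (nat_lit 6699561693) (nat_lit 168) (nat_lit 1217517768) (nat_lit 6) (nat_lit 3) (nat_lit 6) (nat_lit 1) (nat_lit 8) (nat_lit 1) (nat_lit 346) (nat_lit 394) (nat_lit 340)) (XT.lf (nat_lit 84) (nat_lit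 8854158490) (nat_lit 0) (nat_lit 1249766634) (nat_lit 168) (nat_lit 702743063) (nat_lit 5) (nat_lit 1) (nat_lit 4) (nat_lit 1) (nat_lit 6) (nat_lit 1) (nat_lit 347) (nat_lit 394) (nat_lit 339))) (XT.nd (nat_lit 94) (nat_lit 252) (nat_lit 0) (XT.lf (nat_lit 0) (nat_lit 3703494895) (nat_lit 0) (nat_lit 6582476080) (nat_lit 168) (nat_lit 242545814) (nat_lit 3) (nat_lit 3) (nat_lit 3) (nat_lit 1) (nat_lit 5) (nat_lit 1) (nat_lit 348) (nat_lit 394) (nat_lit 338)) (XT.nd (nat_lit 94) (nat_lit 0) (nat_lit 0) (XT.lf (nat_lit 0) (nat_lit 14882543672) (nat_lit 0) (nat_lit 0) (nat_lit 0) (nat_lit 0) (nat_lit 0) (nat_lit 0) (nat_lit 1) (nat_lit 0) (nat_lit 1) (nat_lit 0) (nat_lit 349) (nat_lit 394) (nat_lit 337)) (XT.lf (nat_lit 0) (nat_lit 14868997402) (nat_lit 0) (nat_lit 0) (nat_lit 0) (nat_lit 0) (nat_lit 0) (nat_lit 0) (nat_lit 1) (nat_lit 0) (nat_lit 1) (nat_lit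 0) (nat_lit 350) (nat_lit 394) (nat_lit 336))))) (XT.nd (nat_lit 188) (nat_lit 0) (nat_lit 0) (XT.nd (nat_lit 94) (nat_lit 0) (nat_lit 0) (XT.lf (nat_lit 0) (nat_lit 14856454560) (nat_lit 0) (nat_lit 0) (nat_lit 0) (nat_lit 0) (nat_lit 0) (nat_lit 0) (nat_lit 1) (nat_lit 0) (nat_lit 1) (nat_lit 0) (nat_lit 351) (nat_lit 394) (nat_lit 335)) (XT.lf (nat_lit 0) (nat_lit 14844840817) (nat_lit 0) (nat_lit 0) (nat_lit 0) (nat_lit 0) (nat_lit 0) (nat_lit 0) (nat_lit 1) (nat_lit 0) (nat_lit 1) (nat_lit 0) (nat_lit 352) (nat_lit 394) (nat_lit 334))) (XT.nd (nat_lit 94) (nat_lit 0) (nat_lit 0) (XT.lf (nat_lit 0) (nat_lit 14834087351) (nat_lit 0) (nat_lit 0) (nat_lit 0) (nat_lit 0) (nat_lit 0) (nat_lit 0) (nat_lit 1) (nat_lit 0) (nat_lit 1) (nat_lit 0) (nat_lit 353) (nat_lit 394) (nat_lit 333)) (XT.nd (nat_lit 94) (nat_lit 0) (nat_lit 0) (XT.lf (nat_lit 0) (nat_lit 14824130438)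 (nat_lit 0) (nat_lit 0) (nat_lit 0) (nat_lit 0) (nat_lit 0) (nat_lit 0) (nat_lit 1) (nat_lit 0) (nat_lit 1) (nat_lit 0) (nat_lit 354) (nat_lit 394) (nat_lit 332)) (XT.lf (nat_lit 0) (nat_lit 14814911074) (nat_lit 0) (nat_lit 0) (nat_lit 0) (nat_lit 0) (nat_lit 0) (nat_lit 0) (nat_lit 1) (nat_lit 0) (nat_lit 1) (nat_lit 0) (nat_lit 355) (nat_lit 394) (nat_lit 331))))))))
noncomputable def ec127 : XT := (XT.nd (nat_lit 1786) (nat_lit 0) (nat_lit 0) (XT.nd (nat_lit 846) (nat_lit 0) (nat_lit 0) (XT.nd (nat_lit 376) (nat_lit 0) (nat_lit 0) (XT.nd (nat_lit 188) (nat_lit 0) (nat_lit 0) (XT.nd (nat_lit 94) (nat_lit 0) (nat_lit 0) (XT.lf (nat_lit 0) (nat_lit 14806374626) (nat_lit 0) (nat_lit 0) (nat_lit 0) (nat_lit 0) (nat_lit 0) (nat_lit 0) (nat_lit 1) (nat_lit 0) (nat_lit 1) (nat_lit 0) (nat_lit 356) (nat_lit 394) (nat_lit 330)) (XT.lf (nat_lit 0) (nat_lit 14798470508)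 (nat_lit 0) (nat_lit 0) (nat_lit 0) (nat_lit 0) (nat_lit 0) (nat_lit 0) (nat_lit 1) (nat_lit 0) (nat_lit 1) (nat_lit 0) (nat_lit 357) (nat_lit 394) (nat_lit 329))) (XT.nd (nat_lit 94) (nat_lit 0) (nat_lit 0) (XT.lf (nat_lit 0) (nat_lit 14791151880) (nat_lit 0) (nat_lit 0) (nat_lit 0) (nat_lit 0) (nat_lit 0) (nat_lit 0) (nat_lit 1) (nat_lit 0) (nat_lit 1) (nat_lit 0) (nat_lit 358) (nat_lit 394) (nat_lit 328)) (XT.lf (nat_lit 0) (nat_lit 14784375372) (nat_lit 0) (nat_lit 0) (nat_lit 0) (nat_lit 0) (nat_lit 0) (nat_lit 0) (nat_lit 1) (nat_lit 0) (nat_lit 1) (nat_lit 0) (nat_lit 359) (nat_lit 394) (nat_lit 327)))) (XT.nd (nat_lit 188) (nat_lit 0) (nat_lit 0) (XT.nd (nat_lit 94) (nat_lit 0) (nat_lit 0) (XT.lf (nat_lit 0) (nat_lit 14778100828) (nat_lit 0) (nat_lit 0) (nat_lit 0) (nat_lit 0) (nat_lit 0) (nat_lit 0) (nat_lit 1) (nat_lit 0) (nat_lit 1) (nat_lit 0)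 (nat_lit 360) (nat_lit 394) (nat_lit 326)) (XT.lf (nat_lit 0) (nat_lit 14772291065) (nat_lit 0) (nat_lit 0) (nat_lit 0) (nat_lit 0) (nat_lit 0) (nat_lit 0) (nat_lit 1) (nat_lit 0) (nat_lit 1) (nat_lit 0) (nat_lit 361) (nat_lit 394) (nat_lit 325))) (XT.nd (nat_lit 94) (nat_lit 0) (nat_lit 0) (XT.lf (nat_lit 0) (nat_lit 14766911655) (nat_lit 0) (nat_lit 0) (nat_lit 0) (nat_lit 0) (nat_lit 0) (nat_lit 0) (nat_lit 1) (nat_lit 0) (nat_lit 1) (nat_lit 0) (nat_lit 362) (nat_lit 394) (nat_lit 324)) (XT.nd (nat_lit 94) (nat_lit 0) (nat_lit 0) (XT.lf (nat_lit 0) (nat_lit 14761930720) (nat_lit 0) (nat_lit 0) (nat_lit 0) (nat_lit 0) (nat_lit 0) (nat_lit 0) (nat_lit 1) (nat_lit 0) (nat_lit 1) (nat_lit 0) (nat_lit 363) (nat_lit 394) (nat_lit 323)) (XT.lf (nat_lit 0) (nat_lit 14757318743) (nat_lit 0) (nat_lit 0) (nat_lit 0) (nat_lit 0) (nat_lit 0) (nat_lit 0) (nat_lit 1)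 (nat_lit 0) (nat_lit 1) (nat_lit 0) (nat_lit 364) (nat_lit 394) (nat_lit 322)))))) (XT.nd (nat_lit 470) (nat_lit 0) (nat_lit 0) (XT.nd (nat_lit 188) (nat_lit 0) (nat_lit 0) (XT.nd (nat_lit 94) (nat_lit 0) (nat_lit 0) (XT.lf (nat_lit 0) (nat_lit 14753048393) (nat_lit 0) (nat_lit 0) (nat_lit 0) (nat_lit 0) (nat_lit 0) (nat_lit 0) (nat_lit 1) (nat_lit 0) (nat_lit 1) (nat_lit 0) (nat_lit 365) (nat_lit 394) (nat_lit 321)) (XT.lf (nat_lit 0) (nat_lit 14749094366) (nat_lit 0) (nat_lit 0) (nat_lit 0) (nat_lit 0) (nat_lit 0) (nat_lit 0) (nat_lit 1) (nat_lit 0) (nat_lit 1) (nat_lit 0) (nat_lit 366) (nat_lit 394) (nat_lit 320))) (XT.nd (nat_lit 94) (nat_lit 0) (nat_lit 0) (XT.lf (nat_lit 0) (nat_lit 14745433230) (nat_lit 0) (nat_lit 0) (nat_lit 0) (nat_lit 0) (nat_lit 0) (nat_lit 0) (nat_lit 1) (nat_lit 0) (nat_lit 1) (nat_lit 0) (nat_lit 367) (nat_lit 394) (nat_lit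 319)) (XT.nd (nat_lit 94) (nat_lit 0) (nat_lit 0) (XT.lf (nat_lit 0) (nat_lit 14742043289) (nat_lit 0) (nat_lit 0) (nat_lit 0) (nat_lit 0) (nat_lit 0) (nat_lit 0) (nat_lit 1) (nat_lit 0) (nat_lit 1) (nat_lit 0) (nat_lit 368) (nat_lit 394) (nat_lit 318)) (XT.lf (nat_lit 0) (nat_lit 14738904455) (nat_lit 0) (nat_lit 0) (nat_lit 0) (nat_lit 0) (nat_lit 0) (nat_lit 0) (nat_lit 1) (nat_lit 0) (nat_lit 1) (nat_lit 0) (nat_lit 369) (nat_lit 394) (nat_lit 317))))) (XT.nd (nat_lit 188) (nat_lit 0) (nat_lit 0) (XT.nd (nat_lit 94) (nat_lit 0) (nat_lit 0) (XT.lf (nat_lit 0) (nat_lit 14735998127) (nat_lit 0) (nat_lit 0) (nat_lit 0) (nat_lit 0) (nat_lit 0) (nat_lit 0) (nat_lit 1) (nat_lit 0) (nat_lit 1) (nat_lit 0) (nat_lit 370) (nat_lit 394) (nat_lit 316)) (XT.lf (nat_lit 0) (nat_lit 14733307083) (nat_lit 0) (nat_lit 0) (nat_lit 0) (nat_lit 0) (nat_lit 0) (nat_lit 0) (nat_lit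 1) (nat_lit 0) (nat_lit 1) (nat_lit 0) (nat_lit 371) (nat_lit 394) (nat_lit 315))) (XT.nd (nat_lit 94) (nat_lit 0) (nat_lit 0) (XT.lf (nat_lit 0) (nat_lit 14730815375) (nat_lit 0) (nat_lit 0) (nat_lit 0) (nat_lit 0) (nat_lit 0) (nat_lit 0) (nat_lit 1) (nat_lit 0) (nat_lit 1) (nat_lit 0) (nat_lit 372) (nat_lit 394) (nat_lit 314)) (XT.nd (nat_lit 94) (nat_lit 0) (nat_lit 0) (XT.lf (nat_lit 0) (nat_lit 14728508238) (nat_lit 0) (nat_lit 0) (nat_lit 0) (nat_lit 0) (nat_lit 0) (nat_lit 0) (nat_lit 1) (nat_lit 0) (nat_lit 1) (nat_lit 0) (nat_lit 373) (nat_lit 394) (nat_lit 313)) (XT.lf (nat_lit 0) (nat_lit 14726372000) (nat_lit 0) (nat_lit 0) (nat_lit 0) (nat_lit 0) (nat_lit 0) (nat_lit 0) (nat_lit 1) (nat_lit 0) (nat_lit 1) (nat_lit 0) (nat_lit 374) (nat_lit 394) (nat_lit 312))))))) (XT.nd (nat_lit 846) (nat_lit 0) (nat_lit 0) (XT.nd (nat_lit 376) (nat_lit 0) (nat_lit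 0) (XT.nd (nat_lit 188) (nat_lit 0) (nat_lit 0) (XT.nd (nat_lit 94) (nat_lit 0) (nat_lit 0) (XT.lf (nat_lit 0) (nat_lit 14724394003) (nat_lit 0) (nat_lit 0) (nat_lit 0) (nat_lit 0) (nat_lit 0) (nat_lit 0) (nat_lit 1) (nat_lit 0) (nat_lit 1) (nat_lit 0) (nat_lit 375) (nat_lit 394) (nat_lit 311)) (XT.lf (nat_lit 0) (nat_lit 14722562523) (nat_lit 0) (nat_lit 0) (nat_lit 0) (nat_lit 0) (nat_lit 0) (nat_lit 0) (nat_lit 1) (nat_lit 0) (nat_lit 1) (nat_lit 0) (nat_lit 376) (nat_lit 394) (nat_lit 310))) (XT.nd (nat_lit 94) (nat_lit 0) (nat_lit 0) (XT.lf (nat_lit 0) (nat_lit 14720866709) (nat_lit 0) (nat_lit 0) (nat_lit 0) (nat_lit 0) (nat_lit 0) (nat_lit 0) (nat_lit 1) (nat_lit 0) (nat_lit 1) (nat_lit 0) (nat_lit 377) (nat_lit 394) (nat_lit 309)) (XT.lf (nat_lit 0) (nat_lit 14719296510) (nat_lit 0) (nat_lit 0) (nat_lit 0) (nat_lit 0) (nat_lit 0) (nat_lit 0) (nat_lit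 1) (nat_lit 0) (nat_lit 1) (nat_lit 0) (nat_lit 378) (nat_lit 394) (nat_lit 308)))) (XT.nd (nat_lit 188) (nat_lit 0) (nat_lit 0) (XT.nd (nat_lit 94) (nat_lit 0) (nat_lit 0) (XT.lf (nat_lit 0) (nat_lit 14717842622) (nat_lit 0) (nat_lit 0) (nat_lit 0) (nat_lit 0) (nat_lit 0) (nat_lit 0) (nat_lit 1) (nat_lit 0) (nat_lit 1) (nat_lit 0) (nat_lit 379) (nat_lit 394) (nat_lit 307)) (XT.lf (nat_lit 0) (nat_lit 14716496430) (nat_lit 0) (nat_lit 0) (nat_lit 0) (nat_lit 0) (nat_lit 0) (nat_lit 0) (nat_lit 1) (nat_lit 0) (nat_lit 1) (nat_lit 0) (nat_lit 380) (nat_lit 394) (nat_lit 306))) (XT.nd (nat_lit 94) (nat_lit 0) (nat_lit 0) (XT.lf (nat_lit 0) (nat_lit 14715249956) (nat_lit 0) (nat_lit 0) (nat_lit 0) (nat_lit 0) (nat_lit 0) (nat_lit 0) (nat_lit 1) (nat_lit 0) (nat_lit 1) (nat_lit 0) (nat_lit 381) (nat_lit 394) (nat_lit 305)) (XT.nd (nat_lit 94) (nat_lit 0) (nat_lit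 0) (XT.lf (nat_lit 0) (nat_lit 14714095813) (nat_lit 0) (nat_lit 0) (nat_lit 0) (nat_lit 0) (nat_lit 0) (nat_lit 0) (nat_lit 1) (nat_lit 0) (nat_lit 1) (nat_lit 0) (nat_lit 382) (nat_lit 394) (nat_lit 304)) (XT.lf (nat_lit 0) (nat_lit 14713027162) (nat_lit 0) (nat_lit 0) (nat_lit 0) (nat_lit 0) (nat_lit 0) (nat_lit 0) (nat_lit 1) (nat_lit 0) (nat_lit 1) (nat_lit 0) (nat_lit 383) (nat_lit 394) (nat_lit 303)))))) (XT.nd (nat_lit 470) (nat_lit 0) (nat_lit 0) (XT.nd (nat_lit 188) (nat_lit 0) (nat_lit 0) (XT.nd (nat_lit 94) (nat_lit 0) (nat_lit 0) (XT.lf (nat_lit 0) (nat_lit 14712037671) (nat_lit 0) (nat_lit 0) (nat_lit 0) (nat_lit 0) (nat_lit 0) (nat_lit 0) (nat_lit 1) (nat_lit 0) (nat_lit 1) (nat_lit 0) (nat_lit 384) (nat_lit 394) (nat_lit 302)) (XT.lf (nat_lit 0) (nat_lit 14711121475) (nat_lit 0) (nat_lit 0) (nat_lit 0) (nat_lit 0) (nat_lit 0) (nat_lit 0) (nat_lit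 1) (nat_lit 0) (nat_lit 1) (nat_lit 0) (nat_lit 385) (nat_lit 394) (nat_lit 301))) (XT.nd (nat_lit 94) (nat_lit 0) (nat_lit 0) (XT.lf (nat_lit 0) (nat_lit 14710273146) (nat_lit 0) (nat_lit 0) (nat_lit 0) (nat_lit 0) (nat_lit 0) (nat_lit 0) (nat_lit 1) (nat_lit 0) (nat_lit 1) (nat_lit 0) (nat_lit 386) (nat_lit 394) (nat_lit 300)) (XT.nd (nat_lit 94) (nat_lit 0) (nat_lit 0) (XT.lf (nat_lit 0) (nat_lit 14709487656) (nat_lit 0) (nat_lit 0) (nat_lit 0) (nat_lit 0) (nat_lit 0) (nat_lit 0) (nat_lit 1) (nat_lit 0) (nat_lit 1) (nat_lit 0) (nat_lit 387) (nat_lit 394) (nat_lit 299)) (XT.lf (nat_lit 0) (nat_lit 14708760350) (nat_lit 0) (nat_lit 0) (nat_lit 0) (nat_lit 0) (nat_lit 0) (nat_lit 0) (nat_lit 1) (nat_lit 0) (nat_lit 1) (nat_lit 0) (nat_lit 388) (nat_lit 394) (nat_lit 298))))) (XT.nd (nat_lit 188) (nat_lit 0) (nat_lit 0) (XT.nd (nat_lit 94) (nat_lit 0) (nat_lit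 0) (XT.lf (nat_lit 0) (nat_lit 14708086919) (nat_lit 0) (nat_lit 0) (nat_lit 0) (nat_lit 0) (nat_lit 0) (nat_lit 0) (nat_lit 1) (nat_lit 0) (nat_lit 1) (nat_lit 0) (nat_lit 389) (nat_lit 394) (nat_lit 297)) (XT.lf (nat_lit 0) (nat_lit 14707463371) (nat_lit 0) (nat_lit 0) (nat_lit 0) (nat_lit 0) (nat_lit 0) (nat_lit 0) (nat_lit 1) (nat_lit 0) (nat_lit 1) (nat_lit 0) (nat_lit 390) (nat_lit 394) (nat_lit 296))) (XT.nd (nat_lit 94) (nat_lit 0) (nat_lit 0) (XT.lf (nat_lit 0) (nat_lit 14706886012) (nat_lit 0) (nat_lit 0) (nat_lit 0) (nat_lit 0) (nat_lit 0) (nat_lit 0) (nat_lit 1) (nat_lit 0) (nat_lit 1) (nat_lit 0) (nat_lit 391) (nat_lit 394) (nat_lit 295)) (XT.nd (nat_lit 94) (nat_lit 0) (nat_lit 0) (XT.lf (nat_lit 0) (nat_lit 14706351421) (nat_lit 0) (nat_lit 0) (nat_lit 0) (nat_lit 0) (nat_lit 0) (nat_lit 0) (nat_lit 1) (nat_lit 0) (nat_lit 1) (nat_lit 0) (nat_lit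 392) (nat_lit 394) (nat_lit 294)) (XT.lf (nat_lit 0) (nat_lit 14705856429) (nat_lit 0) (nat_lit 0) (nat_lit 0) (nat_lit 0) (nat_lit 0) (nat_lit 0) (nat_lit 1) (nat_lit 0) (nat_lit 1) (nat_lit 0) (nat_lit 393) (nat_lit 394) (nat_lit 293))))))))
noncomputable def ec128 : XT := (XT.nd (nat_lit 1692) (nat_lit 0) (nat_lit 0) (XT.nd (nat_lit 846) (nat_lit 0) (nat_lit 0) (XT.nd (nat_lit 376) (nat_lit 0) (nat_lit 0) (XT.nd (nat_lit 188) (nat_lit 0) (nat_lit 0) (XT.nd (nat_lit 94) (nat_lit 0) (nat_lit 0) (XT.lf (nat_lit 0) (nat_lit 14705398103) (nat_lit 0) (nat_lit 0) (nat_lit 0) (nat_lit 0) (nat_lit 0) (nat_lit 0) (nat_lit 1) (nat_lit 0) (nat_lit 1) (nat_lit 0) (nat_lit 394) (nat_lit 394) (nat_lit 292)) (XT.lf (nat_lit 0) (nat_lit 14704973727) (nat_lit 0) (nat_lit 0) (nat_lit 0) (nat_lit 0) (nat_lit 0) (nat_lit 0) (nat_lit 1) (nat_lit 0) (nat_lit 1) (nat_lit 0) (nat_lit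 395) (nat_lit 394) (nat_lit 291))) (XT.nd (nat_lit 94) (nat_lit 0) (nat_lit 0) (XT.lf (nat_lit 0) (nat_lit 14704580786) (nat_lit 0) (nat_lit 0) (nat_lit 0) (nat_lit 0) (nat_lit 0) (nat_lit 0) (nat_lit 1) (nat_lit 0) (nat_lit 1) (nat_lit 0) (nat_lit 396) (nat_lit 394) (nat_lit 290)) (XT.lf (nat_lit 0) (nat_lit 14704216952) (nat_lit 0) (nat_lit 0) (nat_lit 0) (nat_lit 0) (nat_lit 0) (nat_lit 0) (nat_lit 1) (nat_lit 0) (nat_lit 1) (nat_lit 0) (nat_lit 397) (nat_lit 394) (nat_lit 289)))) (XT.nd (nat_lit 188) (nat_lit 0) (nat_lit 0) (XT.nd (nat_lit 94) (nat_lit 0) (nat_lit 0) (XT.lf (nat_lit 0) (nat_lit 14703880069) (nat_lit 0) (nat_lit 0) (nat_lit 0) (nat_lit 0) (nat_lit 0) (nat_lit 0) (nat_lit 1) (nat_lit 0) (nat_lit 1) (nat_lit 0) (nat_lit 398) (nat_lit 394) (nat_lit 288)) (XT.lf (nat_lit 0) (nat_lit 14703568140) (nat_lit 0) (nat_lit 0) (nat_lit 0) (nat_lit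 0) (nat_lit 0) (nat_lit 0) (nat_lit 1) (nat_lit 0) (nat_lit 1) (nat_lit 0) (nat_lit 399) (nat_lit 394) (nat_lit 287))) (XT.nd (nat_lit 94) (nat_lit 0) (nat_lit 0) (XT.lf (nat_lit 0) (nat_lit 14703279317) (nat_lit 0) (nat_lit 0) (nat_lit 0) (nat_lit 0) (nat_lit 0) (nat_lit 0) (nat_lit 1) (nat_lit 0) (nat_lit 1) (nat_lit 0) (nat_lit 400) (nat_lit 394) (nat_lit 286)) (XT.nd (nat_lit 94) (nat_lit 0) (nat_lit 0) (XT.lf (nat_lit 0) (nat_lit 14703011888) (nat_lit 0) (nat_lit 0) (nat_lit 0) (nat_lit 0) (nat_lit 0) (nat_lit 0) (nat_lit 1) (nat_lit 0) (nat_lit 1) (nat_lit 0) (nat_lit 401) (nat_lit 394) (nat_lit 285)) (XT.lf (nat_lit 0) (nat_lit 14702764269) (nat_lit 0) (nat_lit 0) (nat_lit 0) (nat_lit 0) (nat_lit 0) (nat_lit 0) (nat_lit 1) (nat_lit 0) (nat_lit 1) (nat_lit 0) (nat_lit 402) (nat_lit 394) (nat_lit 284)))))) (XT.nd (nat_lit 376) (nat_lit 0) (nat_lit 0)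 (XT.nd (nat_lit 188) (nat_lit 0) (nat_lit 0) (XT.nd (nat_lit 94) (nat_lit 0) (nat_lit 0) (XT.lf (nat_lit 0) (nat_lit 14702534992) (nat_lit 0) (nat_lit 0) (nat_lit 0) (nat_lit 0) (nat_lit 0) (nat_lit 0) (nat_lit 1) (nat_lit 0) (nat_lit 1) (nat_lit 0) (nat_lit 403) (nat_lit 394) (nat_lit 283)) (XT.lf (nat_lit 0) (nat_lit 14702322698) (nat_lit 0) (nat_lit 0) (nat_lit 0) (nat_lit 0) (nat_lit 0) (nat_lit 0) (nat_lit 1) (nat_lit 0) (nat_lit 1) (nat_lit 0) (nat_lit 404) (nat_lit 394) (nat_lit 282))) (XT.nd (nat_lit 94) (nat_lit 0) (nat_lit 0) (XT.lf (nat_lit 0) (nat_lit 14702126130) (nat_lit 0) (nat_lit 0) (nat_lit 0) (nat_lit 0) (nat_lit 0) (nat_lit 0) (nat_lit 1) (nat_lit 0) (nat_lit 1) (nat_lit 0) (nat_lit 405) (nat_lit 394) (nat_lit 281)) (XT.lf (nat_lit 0) (nat_lit 14701944123) (nat_lit 0) (nat_lit 0) (nat_lit 0) (nat_lit 0) (nat_lit 0) (nat_lit 0) (nat_lit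 1) (nat_lit 0) (nat_lit 1) (nat_lit 0) (nat_lit 406) (nat_lit 394) (nat_lit 280)))) (XT.nd (nat_lit 188) (nat_lit 0) (nat_lit 0) (XT.nd (nat_lit 94) (nat_lit 0) (nat_lit 0) (XT.lf (nat_lit 0) (nat_lit 14701775597) (nat_lit 0) (nat_lit 0) (nat_lit 0) (nat_lit 0) (nat_lit 0) (nat_lit 0) (nat_lit 1) (nat_lit 0) (nat_lit 1) (nat_lit 0) (nat_lit 407) (nat_lit 394) (nat_lit 279)) (XT.lf (nat_lit 0) (nat_lit 14701619555) (nat_lit 0) (nat_lit 0) (nat_lit 0) (nat_lit 0) (nat_lit 0) (nat_lit 0) (nat_lit 1) (nat_lit 0) (nat_lit 1) (nat_lit 0) (nat_lit 408) (nat_lit 394) (nat_lit 278))) (XT.nd (nat_lit 94) (nat_lit 0) (nat_lit 0) (XT.lf (nat_lit 0) (nat_lit 14701475071) (nat_lit 0) (nat_lit 0) (nat_lit 0) (nat_lit 0) (nat_lit 0) (nat_lit 0) (nat_lit 1) (nat_lit 0) (nat_lit 1) (nat_lit 0) (nat_lit 409) (nat_lit 394) (nat_lit 277)) (XT.nd (nat_lit 94) (nat_lit 0) (nat_lit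 0) (XT.lf (nat_lit 0) (nat_lit 14701341290) (nat_lit 0) (nat_lit 0) (nat_lit 0) (nat_lit 0) (nat_lit 0) (nat_lit 0) (nat_lit 1) (nat_lit 0) (nat_lit 1) (nat_lit 0) (nat_lit 410) (nat_lit 394) (nat_lit 276)) (XT.lf (nat_lit 0) (nat_lit 14701217419) (nat_lit 0) (nat_lit 0) (nat_lit 0) (nat_lit 0) (nat_lit 0) (nat_lit 0) (nat_lit 1) (nat_lit 0) (nat_lit 1) (nat_lit 0) (nat_lit 411) (nat_lit 394) (nat_lit 275))))))) (XT.nd (nat_lit 846) (nat_lit 0) (nat_lit 0) (XT.nd (nat_lit 376) (nat_lit 0) (nat_lit 0) (XT.nd (nat_lit 188) (nat_lit 0) (nat_lit 0) (XT.nd (nat_lit 94) (nat_lit 0) (nat_lit 0) (XT.lf (nat_lit 0) (nat_lit 14701102724) (nat_lit 0) (nat_lit 0) (nat_lit 0) (nat_lit 0) (nat_lit 0) (nat_lit 0) (nat_lit 1) (nat_lit 0) (nat_lit 1) (nat_lit 0) (nat_lit 412) (nat_lit 394) (nat_lit 274)) (XT.lf (nat_lit 0) (nat_lit 14700996524) (nat_lit 0) (nat_lit 0) (nat_lit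 0) (nat_lit 0) (nat_lit 0) (nat_lit 0) (nat_lit 1) (nat_lit 0) (nat_lit 1) (nat_lit 0) (nat_lit 413) (nat_lit 394) (nat_lit 273))) (XT.nd (nat_lit 94) (nat_lit 0) (nat_lit 0) (XT.lf (nat_lit 0) (nat_lit 14700898191) (nat_lit 0) (nat_lit 0) (nat_lit 0) (nat_lit 0) (nat_lit 0) (nat_lit 0) (nat_lit 1) (nat_lit 0) (nat_lit 1) (nat_lit 0) (nat_lit 414) (nat_lit 394) (nat_lit 272)) (XT.lf (nat_lit 0) (nat_lit 14700807142) (nat_lit 0) (nat_lit 0) (nat_lit 0) (nat_lit 0) (nat_lit 0) (nat_lit 0) (nat_lit 1) (nat_lit 0) (nat_lit 1) (nat_lit 0) (nat_lit 415) (nat_lit 394) (nat_lit 271)))) (XT.nd (nat_lit 188) (nat_lit 0) (nat_lit 0) (XT.nd (nat_lit 94) (nat_lit 0) (nat_lit 0) (XT.lf (nat_lit 0) (nat_lit 14700722837) (nat_lit 0) (nat_lit 0) (nat_lit 0) (nat_lit 0) (nat_lit 0) (nat_lit 0) (nat_lit 1) (nat_lit 0) (nat_lit 1) (nat_lit 0) (nat_lit 416) (nat_lit 394) (nat_lit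 270)) (XT.lf (nat_lit 0) (nat_lit 14700644777) (nat_lit 0) (nat_lit 0) (nat_lit 0) (nat_lit 0) (nat_lit 0) (nat_lit 0) (nat_lit 1) (nat_lit 0) (nat_lit 1) (nat_lit 0) (nat_lit 417) (nat_lit 394) (nat_lit 269))) (XT.nd (nat_lit 94) (nat_lit 0) (nat_lit 0) (XT.lf (nat_lit 0) (nat_lit 14700572499) (nat_lit 0) (nat_lit 0) (nat_lit 0) (nat_lit 0) (nat_lit 0) (nat_lit 0) (nat_lit 1) (nat_lit 0) (nat_lit 1) (nat_lit 0) (nat_lit 418) (nat_lit 394) (nat_lit 268)) (XT.nd (nat_lit 94) (nat_lit 0) (nat_lit 0) (XT.lf (nat_lit 0) (nat_lit 14700505576) (nat_lit 0) (nat_lit 0) (nat_lit 0) (nat_lit 0) (nat_lit 0) (nat_lit 0) (nat_lit 1) (nat_lit 0) (nat_lit 1) (nat_lit 0) (nat_lit 419) (nat_lit 394) (nat_lit 267)) (XT.lf (nat_lit 0) (nat_lit 14700443609) (nat_lit 0) (nat_lit 0) (nat_lit 0) (nat_lit 0) (nat_lit 0) (nat_lit 0) (nat_lit 1) (nat_lit 0) (nat_lit 1) (nat_lit 0)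 (nat_lit 420) (nat_lit 394) (nat_lit 266)))))) (XT.nd (nat_lit 470) (nat_lit 0) (nat_lit 0) (XT.nd (nat_lit 188) (nat_lit 0) (nat_lit 0) (XT.nd (nat_lit 94) (nat_lit 0) (nat_lit 0) (XT.lf (nat_lit 0) (nat_lit 14700386233) (nat_lit 0) (nat_lit 0) (nat_lit 0) (nat_lit 0) (nat_lit 0) (nat_lit 0) (nat_lit 1) (nat_lit 0) (nat_lit 1) (nat_lit 0) (nat_lit 421) (nat_lit 394) (nat_lit 265)) (XT.lf (nat_lit 0) (nat_lit 14700333106) (nat_lit 0) (nat_lit 0) (nat_lit 0) (nat_lit 0) (nat_lit 0) (nat_lit 0) (nat_lit 1) (nat_lit 0) (nat_lit 1) (nat_lit 0) (nat_lit 422) (nat_lit 394) (nat_lit 264))) (XT.nd (nat_lit 94) (nat_lit 0) (nat_lit 0) (XT.lf (nat_lit 0) (nat_lit 14700283915) (nat_lit 0) (nat_lit 0) (nat_lit 0) (nat_lit 0) (nat_lit 0) (nat_lit 0) (nat_lit 1) (nat_lit 0) (nat_lit 1) (nat_lit 0) (nat_lit 423) (nat_lit 394) (nat_lit 263)) (XT.nd (nat_lit 94) (nat_lit 0)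 (nat_lit 0) (XT.lf (nat_lit 0) (nat_lit 14700238368) (nat_lit 0) (nat_lit 0) (nat_lit 0) (nat_lit 0) (nat_lit 0) (nat_lit 0) (nat_lit 1) (nat_lit 0) (nat_lit 1) (nat_lit 0) (nat_lit 424) (nat_lit 394) (nat_lit 262)) (XT.lf (nat_lit 0) (nat_lit 14700196195) (nat_lit 0) (nat_lit 0) (nat_lit 0) (nat_lit 0) (nat_lit 0) (nat_lit 0) (nat_lit 1) (nat_lit 0) (nat_lit 1) (nat_lit 0) (nat_lit 425) (nat_lit 394) (nat_lit 261))))) (XT.nd (nat_lit 188) (nat_lit 0) (nat_lit 0) (XT.nd (nat_lit 94) (nat_lit 0) (nat_lit 0) (XT.lf (nat_lit 0) (nat_lit 14700157146) (nat_lit 0) (nat_lit 0) (nat_lit 0) (nat_lit 0) (nat_lit 0) (nat_lit 0) (nat_lit 1) (nat_lit 0) (nat_lit 1) (nat_lit 0) (nat_lit 426) (nat_lit 394) (nat_lit 260)) (XT.lf (nat_lit 0) (nat_lit 14700120989) (nat_lit 0) (nat_lit 0) (nat_lit 0) (nat_lit 0) (nat_lit 0) (nat_lit 0) (nat_lit 1) (nat_lit 0) (nat_lit 1) (nat_lit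 0) (nat_lit 427) (nat_lit 394) (nat_lit 259))) (XT.nd (nat_lit 94) (nat_lit 0) (nat_lit 0) (XT.lf (nat_lit 0) (nat_lit 14700087510) (nat_lit 0) (nat_lit 0) (nat_lit 0) (nat_lit 0) (nat_lit 0) (nat_lit 0) (nat_lit 1) (nat_lit 0) (nat_lit 1) (nat_lit 0) (nat_lit 428) (nat_lit 394) (nat_lit 258)) (XT.nd (nat_lit 94) (nat_lit 0) (nat_lit 0) (XT.lf (nat_lit 0) (nat_lit 14700056511) (nat_lit 0) (nat_lit 0) (nat_lit 0) (nat_lit 0) (nat_lit 0) (nat_lit 0) (nat_lit 1) (nat_lit 0) (nat_lit 1) (nat_lit 0) (nat_lit 429) (nat_lit 394) (nat_lit 257)) (XT.lf (nat_lit 0) (nat_lit 14700027809) (nat_lit 0) (nat_lit 0) (nat_lit 0) (nat_lit 0) (nat_lit 0) (nat_lit 0) (nat_lit 1) (nat_lit 0) (nat_lit 1) (nat_lit 0) (nat_lit 430) (nat_lit 394) (nat_lit 256))))))))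
noncomputable def ec129 : XT := (XT.nd (nat_lit 55460) (nat_lit 0) (nat_lit 4200) (XT.nd (nat_lit 54520) (nat_lit 0) (nat_lit 9324) (XT.nd (nat_lit 376) (nat_lit 0) (nat_lit 0) (XT.nd (nat_lit 188) (nat_lit 0) (nat_lit 0) (XT.nd (nat_lit 94) (nat_lit 0) (nat_lit 0) (XT.lf (nat_lit 0) (nat_lit 14700001233) (nat_lit 0) (nat_lit 0) (nat_lit 0) (nat_lit 0) (nat_lit 0) (nat_lit 0) (nat_lit 1) (nat_lit 0) (nat_lit 1) (nat_lit 0) (nat_lit 431) (nat_lit 394) (nat_lit 255)) (XT.lf (nat_lit 0) (nat_lit 14699976625) (nat_lit 0) (nat_lit 0) (nat_lit 0) (nat_lit 0) (nat_lit 0) (nat_lit 0) (nat_lit 1) (nat_lit 0) (nat_lit 1) (nat_lit 0) (nat_lit 432) (nat_lit 394) (nat_lit 254))) (XT.nd (nat_lit 94) (nat_lit 0) (nat_lit 0) (XT.lf (nat_lit 0) (nat_lit 14699953840) (nat_lit 0) (nat_lit 0) (nat_lit 0) (nat_lit 0) (nat_lit 0) (nat_lit 0) (nat_lit 1) (nat_lit 0) (nat_lit 1)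 (nat_lit 0) (nat_lit 433) (nat_lit 394) (nat_lit 253)) (XT.lf (nat_lit 0) (nat_lit 14699932743) (nat_lit 0) (nat_lit 0) (nat_lit 0) (nat_lit 0) (nat_lit 0) (nat_lit 0) (nat_lit 1) (nat_lit 0) (nat_lit 1) (nat_lit 0) (nat_lit 434) (nat_lit 394) (nat_lit 252)))) (XT.nd (nat_lit 188) (nat_lit 0) (nat_lit 0) (XT.nd (nat_lit 94) (nat_lit 0) (nat_lit 0) (XT.lf (nat_lit 0) (nat_lit 14699913208) (nat_lit 0) (nat_lit 0) (nat_lit 0) (nat_lit 0) (nat_lit 0) (nat_lit 0) (nat_lit 1) (nat_lit 0) (nat_lit 1) (nat_lit 0) (nat_lit 435) (nat_lit 394) (nat_lit 251)) (XT.lf (nat_lit 0) (nat_lit 14699895121) (nat_lit 0) (nat_lit 0) (nat_lit 0) (nat_lit 0) (nat_lit 0) (nat_lit 0) (nat_lit 1) (nat_lit 0) (nat_lit 1) (nat_lit 0) (nat_lit 436) (nat_lit 394) (nat_lit 250))) (XT.nd (nat_lit 94) (nat_lit 0) (nat_lit 0) (XT.lf (nat_lit 0) (nat_lit 14699878373) (nat_lit 0) (nat_lit 0)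 (nat_lit 0) (nat_lit 0) (nat_lit 0) (nat_lit 0) (nat_lit 1) (nat_lit 0) (nat_lit 1) (nat_lit 0) (nat_lit 437) (nat_lit 394) (nat_lit 249)) (XT.nd (nat_lit 94) (nat_lit 0) (nat_lit 0) (XT.lf (nat_lit 0) (nat_lit 14699862866) (nat_lit 0) (nat_lit 0) (nat_lit 0) (nat_lit 0) (nat_lit 0) (nat_lit 0) (nat_lit 1) (nat_lit 0) (nat_lit 1) (nat_lit 0) (nat_lit 438) (nat_lit 394) (nat_lit 248)) (XT.lf (nat_lit 0) (nat_lit 14699848508) (nat_lit 0) (nat_lit 0) (nat_lit 0) (nat_lit 0) (nat_lit 0) (nat_lit 0) (nat_lit 1) (nat_lit 0) (nat_lit 1) (nat_lit 0) (nat_lit 439) (nat_lit 394) (nat_lit 247)))))) (XT.nd (nat_lit 470) (nat_lit 1428) (nat_lit 0) (XT.nd (nat_lit 188) (nat_lit 0) (nat_lit 84) (XT.nd (nat_lit 94) (nat_lit 0) (nat_lit 84) (XT.lf (nat_lit 924) (nat_lit 7944766195) (nat_lit 0) (nat_lit 14105914119) (nat_lit 924) (nat_lit 7944766195) (nat_lit 139) (nat_lit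 1) (nat_lit 128) (nat_lit 0) (nat_lit 139) (nat_lit 0) (nat_lit 290) (nat_lit 395) (nat_lit 395)) (XT.lf (nat_lit 924) (nat_lit 2963641569) (nat_lit 0) (nat_lit 27694184583) (nat_lit 840) (nat_lit 27084819998) (nat_lit 140) (nat_lit 1) (nat_lit 129) (nat_lit 1) (nat_lit 139) (nat_lit 1) (nat_lit 291) (nat_lit 395) (nat_lit 394))) (XT.nd (nat_lit 94) (nat_lit 0) (nat_lit 84) (XT.lf (nat_lit 924) (nat_lit 27219337176) (nat_lit 84) (nat_lit 18546804750) (nat_lit 0) (nat_lit 9836379206) (nat_lit 140) (nat_lit 1) (nat_lit 130) (nat_lit 1) (nat_lit 129) (nat_lit 1) (nat_lit 292) (nat_lit 395) (nat_lit 393)) (XT.nd (nat_lit 94) (nat_lit 0) (nat_lit 84) (XT.lf (nat_lit 924) (nat_lit 23519737160) (nat_lit 84) (nat_lit 7772837316) (nat_lit 0) (nat_lit 22276918922) (nat_lit 141) (nat_lit 1) (nat_lit 131) (nat_lit 1) (nat_lit 130) (nat_lit 1) (nat_lit 293) (nat_lit 395)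 (nat_lit 392)) (XT.lf (nat_lit 924) (nat_lit 17406605077) (nat_lit 0) (nat_lit 32566935324) (nat_lit 840) (nat_lit 1664817080) (nat_lit 142) (nat_lit 1) (nat_lit 131) (nat_lit 1) (nat_lit 141) (nat_lit 1) (nat_lit 294) (nat_lit 395) (nat_lit 391))))) (XT.nd (nat_lit 188) (nat_lit 1764) (nat_lit 0) (XT.nd (nat_lit 94) (nat_lit 0) (nat_lit 0) (XT.lf (nat_lit 924) (nat_lit 4176544221) (nat_lit 0) (nat_lit 35914093641) (nat_lit 840) (nat_lit 9708808961) (nat_lit 143) (nat_lit 1) (nat_lit 132) (nat_lit 1) (nat_lit 142) (nat_lit 1) (nat_lit 295) (nat_lit 395) (nat_lit 390)) (XT.lf (nat_lit 924) (nat_lit 8025619248) (nat_lit 84) (nat_lit 31212271984) (nat_lit 0) (nat_lit 8808488240) (nat_lit 143) (nat_lit 1) (nat_lit 133) (nat_lit 1) (nat_lit 132) (nat_lit 1) (nat_lit 296) (nat_lit 395) (nat_lit 389))) (XT.nd (nat_lit 94) (nat_lit 1008) (nat_lit 0) (XT.lf (nat_lit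 924) (nat_lit 1648279185) (nat_lit 0) (nat_lit 23333237920) (nat_lit 840) (nat_lit 21396334691) (nat_lit 134) (nat_lit 1) (nat_lit 123) (nat_lit 1) (nat_lit 133) (nat_lit 1) (nat_lit 297) (nat_lit 395) (nat_lit 388)) (XT.nd (nat_lit 94) (nat_lit 420) (nat_lit 0) (XT.lf (nat_lit 84) (nat_lit 11413028427) (nat_lit 0) (nat_lit 4945796336) (nat_lit 588) (nat_lit 28429502531) (nat_lit 117) (nat_lit 1) (nat_lit 116) (nat_lit 1) (nat_lit 123) (nat_lit 1) (nat_lit 298) (nat_lit 395) (nat_lit 387)) (XT.lf (nat_lit 504) (nat_lit 31452869824) (nat_lit 0) (nat_lit 10238587197) (nat_lit 420) (nat_lit 1582948843) (nat_lit 117) (nat_lit 1) (nat_lit 111) (nat_lit 1) (nat_lit 116) (nat_lit 1) (nat_lit 299) (nat_lit 395) (nat_lit 386))))))) (XT.nd (nat_lit 846) (nat_lit 2352) (nat_lit 0) (XT.nd (nat_lit 376) (nat_lit 1596) (nat_lit 0) (XT.nd (nat_lit 188) (nat_lit 420) (nat_lit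 0) (XT.nd (nat_lit 94) (nat_lit 336) (nat_lit 0) (XT.lf (nat_lit 504) (nat_lit 22696690382) (nat_lit 0) (nat_lit 4772249596) (nat_lit 420) (nat_lit 14356640371) (nat_lit 112) (nat_lit 1) (nat_lit 106) (nat_lit 1) (nat_lit 111) (nat_lit 1) (nat_lit 300) (nat_lit 395) (nat_lit 385)) (XT.lf (nat_lit 420) (nat_lit 13810646625) (nat_lit 0) (nat_lit 87864870) (nat_lit 336) (nat_lit 26548493738) (nat_lit 107) (nat_lit 1) (nat_lit 102) (nat_lit 1) (nat_lit 106) (nat_lit 1) (nat_lit 301) (nat_lit 395) (nat_lit 384))) (XT.nd (nat_lit 94) (nat_lit 420) (nat_lit 0) (XT.lf (nat_lit 84) (nat_lit 1018884239) (nat_lit 0) (nat_lit 34361713630) (nat_lit 420) (nat_lit 3751249164) (nat_lit 103) (nat_lit 1) (nat_lit 102) (nat_lit 1) (nat_lit 107) (nat_lit 1) (nat_lit 302) (nat_lit 395) (nat_lit 383)) (XT.lf (nat_lit 84) (nat_lit 26307855321) (nat_lit 0) (nat_lit 4363439297) (nat_lit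 420) (nat_lit 7196103861) (nat_lit 98) (nat_lit 1) (nat_lit 97) (nat_lit 1) (nat_lit 102) (nat_lit 1) (nat_lit 303) (nat_lit 395) (nat_lit 382)))) (XT.nd (nat_lit 188) (nat_lit 924) (nat_lit 0) (XT.nd (nat_lit 94) (nat_lit 336) (nat_lit 0) (XT.lf (nat_lit 84) (nat_lit 13162486675) (nat_lit 0) (nat_lit 13365989149) (nat_lit 420) (nat_lit 10130343886) (nat_lit 94) (nat_lit 1) (nat_lit 93) (nat_lit 1) (nat_lit 98) (nat_lit 1) (nat_lit 304) (nat_lit 395) (nat_lit 381)) (XT.lf (nat_lit 84) (nat_lit 649671154) (nat_lit 0) (nat_lit 22347726312) (nat_lit 420) (nat_lit 12510065683) (nat_lit 90) (nat_lit 1) (nat_lit 89) (nat_lit 1) (nat_lit 94) (nat_lit 1) (nat_lit 305) (nat_lit 395) (nat_lit 380))) (XT.nd (nat_lit 94) (nat_lit 672) (nat_lit 0) (XT.lf (nat_lit 336) (nat_lit 2933878320) (nat_lit 0) (nat_lit 19840414724) (nat_lit 252) (nat_lit 11626939011) (nat_lit 90)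 (nat_lit 1) (nat_lit 86) (nat_lit 1) (nat_lit 89) (nat_lit 1) (nat_lit 306) (nat_lit 395) (nat_lit 379)) (XT.nd (nat_lit 94) (nat_lit 252) (nat_lit 0) (XT.lf (nat_lit 84) (nat_lit 10137338399) (nat_lit 0) (nat_lit 6948194729) (nat_lit 420) (nat_lit 16255168245) (nat_lit 82) (nat_lit 1) (nat_lit 81) (nat_lit 1) (nat_lit 86) (nat_lit 1) (nat_lit 307) (nat_lit 395) (nat_lit 378)) (XT.lf (nat_lit 336) (nat_lit 15695038188) (nat_lit 0) (nat_lit 14743459842) (nat_lit 252) (nat_lit 1887145361) (nat_lit 82) (nat_lit 1) (nat_lit 78) (nat_lit 1) (nat_lit 81) (nat_lit 1) (nat_lit 308) (nat_lit 395) (nat_lit 377)))))) (XT.nd (nat_lit 470) (nat_lit 1008) (nat_lit 0) (XT.nd (nat_lit 188) (nat_lit 756) (nat_lit 0) (XT.nd (nat_lit 94) (nat_lit 336) (nat_lit 0) (XT.lf (nat_lit 336) (nat_lit 5030183915) (nat_lit 0) (nat_lit 12693515185) (nat_lit 252) (nat_lit 13625895271) (nat_lit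 79) (nat_lit 1) (nat_lit 75) (nat_lit 1) (nat_lit 78) (nat_lit 1) (nat_lit 309) (nat_lit 395) (nat_lit 376)) (XT.lf (nat_lit 84) (nat_lit 5733194209) (nat_lit 0) (nat_lit 5249237524) (nat_lit 336) (nat_lit 19431650772) (nat_lit 72) (nat_lit 1) (nat_lit 71) (nat_lit 1) (nat_lit 75) (nat_lit 1) (nat_lit 310) (nat_lit 395) (nat_lit 375))) (XT.nd (nat_lit 94) (nat_lit 504) (nat_lit 0) (XT.lf (nat_lit 336) (nat_lit 14266301310) (nat_lit 0) (nat_lit 9492268223) (nat_lit 252) (nat_lit 5754244206) (nat_lit 72) (nat_lit 1) (nat_lit 68) (nat_lit 1) (nat_lit 71) (nat_lit 1) (nat_lit 311) (nat_lit 395) (nat_lit 374)) (XT.nd (nat_lit 94) (nat_lit 336) (nat_lit 0) (XT.lf (nat_lit 252) (nat_lit 3536637159) (nat_lit 0) (nat_lit 8281311657) (nat_lit 168) (nat_lit 16829955853) (nat_lit 69) (nat_lit 1) (nat_lit 66) (nat_lit 1) (nat_lit 68) (nat_lit 1) (nat_lit 312) (nat_lit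 395) (nat_lit 373)) (XT.lf (nat_lit 84) (nat_lit 599128929) (nat_lit 0) (nat_lit 6704382787) (nat_lit 336) (nat_lit 20513010037) (nat_lit 63) (nat_lit 1) (nat_lit 62) (nat_lit 1) (nat_lit 66) (nat_lit 1) (nat_lit 313) (nat_lit 395) (nat_lit 372))))) (XT.nd (nat_lit 188) (nat_lit 588) (nat_lit 0) (XT.nd (nat_lit 94) (nat_lit 252) (nat_lit 0) (XT.lf (nat_lit 252) (nat_lit 10276818659) (nat_lit 0) (nat_lit 6422130015) (nat_lit 168) (nat_lit 10312582092) (nat_lit 63) (nat_lit 1) (nat_lit 60) (nat_lit 1) (nat_lit 62) (nat_lit 1) (nat_lit 314) (nat_lit 395) (nat_lit 371)) (XT.lf (nat_lit 84) (nat_lit 5575772333) (nat_lit 0) (nat_lit 257548419) (nat_lit 252) (nat_lit 20408346059) (nat_lit 58) (nat_lit 1) (nat_lit 57) (nat_lit 1) (nat_lit 60) (nat_lit 1) (nat_lit 315) (nat_lit 395) (nat_lit 370))) (XT.nd (nat_lit 94) (nat_lit 420) (nat_lit 0) (XT.lf (nat_lit 252)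 (nat_lit 15243084853) (nat_lit 0) (nat_lit 5282070680) (nat_lit 168) (nat_lit 4969042119) (nat_lit 58) (nat_lit 1) (nat_lit 55) (nat_lit 1) (nat_lit 57) (nat_lit 1) (nat_lit 316) (nat_lit 395) (nat_lit 369)) (XT.nd (nat_lit 94) (nat_lit 252) (nat_lit 0) (XT.lf (nat_lit 252) (nat_lit 4735112988) (nat_lit 0) (nat_lit 4910268797) (nat_lit 168) (nat_lit 15129925724) (nat_lit 56) (nat_lit 1) (nat_lit 53) (nat_lit 1) (nat_lit 55) (nat_lit 1) (nat_lit 317) (nat_lit 395) (nat_lit 368)) (XT.lf (nat_lit 252) (nat_lit 18796658361) (nat_lit 0) (nat_lit 4691363293) (nat_lit 168) (nat_lit 595153861) (nat_lit 53) (nat_lit 1) (nat_lit 50) (nat_lit 1) (nat_lit 52) (nat_lit 1) (nat_lit 318) (nat_lit 395) (nat_lit 367))))))))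
noncomputable def ec130 : XT := (XT.nd (nat_lit 1692) (nat_lit 1512) (nat_lit 0) (XT.nd (nat_lit 846) (nat_lit 1176) (nat_lit 0) (XT.nd (nat_lit 376) (nat_lit 924) (nat_lit 0) (XT.nd (nat_lit 188) (nat_lit 252) (nat_lit 0) (XT.nd (nat_lit 94) (nat_lit 168) (nat_lit 0) (XT.lf (nat_lit 252) (nat_lit 8412513131) (nat_lit 0) (nat_lit 4478670267) (nat_lit 168) (nat_lit 10519092287) (nat_lit 51) (nat_lit 1) (nat_lit 48) (nat_lit 1) (nat_lit 50) (nat_lit 1) (nat_lit 319) (nat_lit 395) (nat_lit 366)) (XT.lf (nat_lit 84) (nat_lit 2881610545) (nat_lit 0) (nat_lit 1583863005) (nat_lit 168) (nat_lit 18299812452) (nat_lit 47) (nat_lit 1) (nat_lit 46) (nat_lit 1) (nat_lit 48) (nat_lit 1) (nat_lit 320) (nat_lit 395) (nat_lit 365))) (XT.nd (nat_lit 94) (nat_lit 84) (nat_lit 0) (XT.lf (nat_lit 252) (nat_lit 11037701037) (nat_lit 0) (nat_lit 4418189156) (nat_lit 168) (nat_lit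 6680681826) (nat_lit 47) (nat_lit 1) (nat_lit 44) (nat_lit 1) (nat_lit 46) (nat_lit 1) (nat_lit 321) (nat_lit 395) (nat_lit 364)) (XT.lf (nat_lit 168) (nat_lit 1188603558) (nat_lit 0) (nat_lit 4526705591) (nat_lit 84) (nat_lit 15817369707) (nat_lit 45) (nat_lit 1) (nat_lit 43) (nat_lit 1) (nat_lit 44) (nat_lit 1) (nat_lit 322) (nat_lit 395) (nat_lit 363)))) (XT.nd (nat_lit 188) (nat_lit 588) (nat_lit 0) (XT.nd (nat_lit 94) (nat_lit 84) (nat_lit 0) (XT.lf (nat_lit 252) (nat_lit 12830536581) (nat_lit 0) (nat_lit 4629611853) (nat_lit 168) (nat_lit 3485288458) (nat_lit 43) (nat_lit 1) (nat_lit 40) (nat_lit 1) (nat_lit 42) (nat_lit 1) (nat_lit 323) (nat_lit 395) (nat_lit 362)) (XT.lf (nat_lit 168) (nat_lit 3226974562) (nat_lit 0) (nat_lit 4802717705) (nat_lit 84) (nat_lit 12348293894) (nat_lit 41) (nat_lit 1) (nat_lit 39) (nat_lit 1) (nat_lit 40) (nat_lit 1) (nat_lit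 324) (nat_lit 395) (nat_lit 361))) (XT.nd (nat_lit 94) (nat_lit 336) (nat_lit 0) (XT.lf (nat_lit 252) (nat_lit 13968779279) (nat_lit 0) (nat_lit 5034354201) (nat_lit 168) (nat_lit 826180620) (nat_lit 39) (nat_lit 1) (nat_lit 36) (nat_lit 1) (nat_lit 38) (nat_lit 1) (nat_lit 325) (nat_lit 395) (nat_lit 360)) (XT.nd (nat_lit 94) (nat_lit 252) (nat_lit 0) (XT.lf (nat_lit 168) (nat_lit 4644059110) (nat_lit 0) (nat_lit 5248374748) (nat_lit 84) (nat_lit 9402916615) (nat_lit 37) (nat_lit 1) (nat_lit 35) (nat_lit 1) (nat_lit 36) (nat_lit 1) (nat_lit 326) (nat_lit 395) (nat_lit 359)) (XT.lf (nat_lit 84) (nat_lit 1340460275) (nat_lit 0) (nat_lit 4207347490) (nat_lit 252) (nat_lit 13232761760) (nat_lit 33) (nat_lit 1) (nat_lit 32) (nat_lit 1) (nat_lit 35) (nat_lit 1) (nat_lit 327) (nat_lit 395) (nat_lit 358)))))) (XT.nd (nat_lit 376) (nat_lit 588) (nat_lit 0) (XT.nd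 (nat_lit 188) (nat_lit 252) (nat_lit 0) (XT.nd (nat_lit 94) (nat_lit 252) (nat_lit 0) (XT.lf (nat_lit 168) (nat_lit 5573289932) (nat_lit 0) (nat_lit 5807103941) (nat_lit 84) (nat_lit 6898178973) (nat_lit 33) (nat_lit 1) (nat_lit 31) (nat_lit 1) (nat_lit 32) (nat_lit 1) (nat_lit 328) (nat_lit 395) (nat_lit 357)) (XT.lf (nat_lit 84) (nat_lit 3117411480) (nat_lit 0) (nat_lit 3019423817) (nat_lit 252) (nat_lit 11657382261) (nat_lit 29) (nat_lit 1) (nat_lit 28) (nat_lit 1) (nat_lit 31) (nat_lit 1) (nat_lit 329) (nat_lit 395) (nat_lit 356))) (XT.nd (nat_lit 94) (nat_lit 168) (nat_lit 0) (XT.lf (nat_lit 168) (nat_lit 6122271495) (nat_lit 0) (nat_lit 6434743842) (nat_lit 84) (nat_lit 4765222028) (nat_lit 29) (nat_lit 1) (nat_lit 27) (nat_lit 1) (nat_lit 28) (nat_lit 1) (nat_lit 330) (nat_lit 395) (nat_lit 355)) (XT.lf (nat_lit 84) (nat_lit 4589550569) (nat_lit 0)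 (nat_lit 2186838726) (nat_lit 168) (nat_lit 10089455207) (nat_lit 26) (nat_lit 1) (nat_lit 25) (nat_lit 1) (nat_lit 27) (nat_lit 1) (nat_lit 331) (nat_lit 395) (nat_lit 354)))) (XT.nd (nat_lit 188) (nat_lit 336) (nat_lit 0) (XT.nd (nat_lit 94) (nat_lit 168) (nat_lit 0) (XT.lf (nat_lit 168) (nat_lit 6377606196) (nat_lit 0) (nat_lit 7097125437) (nat_lit 84) (nat_lit 2946853817) (nat_lit 26) (nat_lit 1) (nat_lit 24) (nat_lit 1) (nat_lit 25) (nat_lit 1) (nat_lit 332) (nat_lit 395) (nat_lit 353)) (XT.lf (nat_lit 84) (nat_lit 5805354742) (nat_lit 0) (nat_lit 1631410204) (nat_lit 168) (nat_lit 8554226394) (nat_lit 23) (nat_lit 1) (nat_lit 22) (nat_lit 1) (nat_lit 24) (nat_lit 1) (nat_lit 333) (nat_lit 395) (nat_lit 352))) (XT.nd (nat_lit 94) (nat_lit 252) (nat_lit 0) (XT.lf (nat_lit 168) (nat_lit 6408829597) (nat_lit 0) (nat_lit 7768106257) (nat_lit 84) (nat_lit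 1395476430) (nat_lit 23) (nat_lit 1) (nat_lit 21) (nat_lit 1) (nat_lit 22) (nat_lit 1) (nat_lit 334) (nat_lit 395) (nat_lit 351)) (XT.nd (nat_lit 94) (nat_lit 84) (nat_lit 0) (XT.lf (nat_lit 84) (nat_lit 6805113959) (nat_lit 0) (nat_lit 1290272646) (nat_lit 168) (nat_lit 7070318722) (nat_lit 20) (nat_lit 1) (nat_lit 19) (nat_lit 1) (nat_lit 21) (nat_lit 1) (nat_lit 335) (nat_lit 395) (nat_lit 350)) (XT.lf (nat_lit 168) (nat_lit 6271618530) (nat_lit 0) (nat_lit 8427973852) (nat_lit 84) (nat_lit 71389024) (nat_lit 20) (nat_lit 1) (nat_lit 18) (nat_lit 1) (nat_lit 19) (nat_lit 1) (nat_lit 336) (nat_lit 395) (nat_lit 349))))))) (XT.nd (nat_lit 846) (nat_lit 336) (nat_lit 0) (XT.nd (nat_lit 376) (nat_lit 672) (nat_lit 0) (XT.nd (nat_lit 188) (nat_lit 252) (nat_lit 0) (XT.nd (nat_lit 94) (nat_lit 84) (nat_lit 0) (XT.lf (nat_lit 84) (nat_lit 7622380166) (nat_lit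 0) (nat_lit 1113000923) (nat_lit 168) (nat_lit 5651081832) (nat_lit 17) (nat_lit 1) (nat_lit 16) (nat_lit 1) (nat_lit 18) (nat_lit 1) (nat_lit 337) (nat_lit 395) (nat_lit 348)) (XT.lf (nat_lit 0) (nat_lit 1024720069) (nat_lit 0) (nat_lit 8020076088) (nat_lit 168) (nat_lit 4968331581) (nat_lit 15) (nat_lit 3) (nat_lit 15) (nat_lit 1) (nat_lit 17) (nat_lit 1) (nat_lit 338) (nat_lit 395) (nat_lit 347))) (XT.nd (nat_lit 94) (nat_lit 84) (nat_lit 0) (XT.lf (nat_lit 84) (nat_lit 8285154183) (nat_lit 0) (nat_lit 1059266331) (nat_lit 168) (nat_lit 4305685518) (nat_lit 14) (nat_lit 1) (nat_lit 13) (nat_lit 1) (nat_lit 15) (nat_lit 1) (nat_lit 339) (nat_lit 395) (nat_lit 346)) (XT.lf (nat_lit 0) (nat_lit 1957594431) (nat_lit 0) (nat_lit 7669394695) (nat_lit 168) (nat_lit 3669763287) (nat_lit 12) (nat_lit 3) (nat_lit 12) (nat_lit 1) (nat_lit 14) (nat_lit 1) (nat_lit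 340) (nat_lit 395) (nat_lit 345)))) (XT.nd (nat_lit 188) (nat_lit 420) (nat_lit 0) (XT.nd (nat_lit 94) (nat_lit 84) (nat_lit 0) (XT.lf (nat_lit 84) (nat_lit 8816858174) (nat_lit 0) (nat_lit 1096926566) (nat_lit 168) (nat_lit 3040004486) (nat_lit 11) (nat_lit 1) (nat_lit 10) (nat_lit 1) (nat_lit 12) (nat_lit 1) (nat_lit 341) (nat_lit 395) (nat_lit 344)) (XT.lf (nat_lit 0) (nat_lit 2752159912) (nat_lit 0) (nat_lit 7415920007) (nat_lit 168) (nat_lit 2451104594) (nat_lit 9) (nat_lit 3) (nat_lit 9) (nat_lit 1) (nat_lit 11) (nat_lit 1) (nat_lit 342) (nat_lit 395) (nat_lit 343))) (XT.nd (nat_lit 94) (nat_lit 252) (nat_lit 0) (XT.lf (nat_lit 84) (nat_lit 9237132822) (nat_lit 0) (nat_lit 1200469845) (nat_lit 168) (nat_lit 1857333201) (nat_lit 8) (nat_lit 1) (nat_lit 7) (nat_lit 1) (nat_lit 9) (nat_lit 1) (nat_lit 343) (nat_lit 395) (nat_lit 342)) (XT.nd (nat_lit 94)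 (nat_lit 168) (nat_lit 0) (XT.lf (nat_lit 0) (nat_lit 3427505125) (nat_lit 0) (nat_lit 7235526629) (nat_lit 168) (nat_lit 1314919189) (nat_lit 6) (nat_lit 3) (nat_lit 6) (nat_lit 1) (nat_lit 8) (nat_lit 1) (nat_lit 344) (nat_lit 395) (nat_lit 341)) (XT.lf (nat_lit 84) (nat_lit 9562491169) (nat_lit 0) (nat_lit 1349747964) (nat_lit 168) (nat_lit 758962508) (nat_lit 5) (nat_lit 1) (nat_lit 4) (nat_lit 1) (nat_lit 6) (nat_lit 1) (nat_lit 345) (nat_lit 395) (nat_lit 340)))))) (XT.nd (nat_lit 470) (nat_lit 0) (nat_lit 0) (XT.nd (nat_lit 188) (nat_lit 0) (nat_lit 0) (XT.nd (nat_lit 94) (nat_lit 252) (nat_lit 0) (XT.lf (nat_lit 0) (nat_lit 3999774487) (nat_lit 0) (nat_lit 7109074166) (nat_lit 168) (nat_lit 261949479) (nat_lit 3) (nat_lit 3) (nat_lit 3) (nat_lit 1) (nat_lit 5) (nat_lit 1) (nat_lit 346) (nat_lit 395) (nat_lit 339)) (XT.lf (nat_lit 0) (nat_lit 16073147166)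 (nat_lit 0) (nat_lit 0) (nat_lit 0) (nat_lit 0) (nat_lit 0) (nat_lit 0) (nat_lit 1) (nat_lit 0) (nat_lit 1) (nat_lit 0) (nat_lit 347) (nat_lit 395) (nat_lit 338))) (XT.nd (nat_lit 94) (nat_lit 0) (nat_lit 0) (XT.lf (nat_lit 0) (nat_lit 16058517194) (nat_lit 0) (nat_lit 0) (nat_lit 0) (nat_lit 0) (nat_lit 0) (nat_lit 0) (nat_lit 1) (nat_lit 0) (nat_lit 1) (nat_lit 0) (nat_lit 348) (nat_lit 395) (nat_lit 337)) (XT.nd (nat_lit 94) (nat_lit 0) (nat_lit 0) (XT.lf (nat_lit 0) (nat_lit 16044970924) (nat_lit 0) (nat_lit 0) (nat_lit 0) (nat_lit 0) (nat_lit 0) (nat_lit 0) (nat_lit 1) (nat_lit 0) (nat_lit 1) (nat_lit 0) (nat_lit 349) (nat_lit 395) (nat_lit 336)) (XT.lf (nat_lit 0) (nat_lit 16032428082) (nat_lit 0) (nat_lit 0) (nat_lit 0) (nat_lit 0) (nat_lit 0) (nat_lit 0) (nat_lit 1) (nat_lit 0) (nat_lit 1) (nat_lit 0) (nat_lit 350) (nat_lit 395) (nat_lit 335))))) (XT.nd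 (nat_lit 188) (nat_lit 0) (nat_lit 0) (XT.nd (nat_lit 94) (nat_lit 0) (nat_lit 0) (XT.lf (nat_lit 0) (nat_lit 16020814339) (nat_lit 0) (nat_lit 0) (nat_lit 0) (nat_lit 0) (nat_lit 0) (nat_lit 0) (nat_lit 1) (nat_lit 0) (nat_lit 1) (nat_lit 0) (nat_lit 351) (nat_lit 395) (nat_lit 334)) (XT.lf (nat_lit 0) (nat_lit 16010060873) (nat_lit 0) (nat_lit 0) (nat_lit 0) (nat_lit 0) (nat_lit 0) (nat_lit 0) (nat_lit 1) (nat_lit 0) (nat_lit 1) (nat_lit 0) (nat_lit 352) (nat_lit 395) (nat_lit 333))) (XT.nd (nat_lit 94) (nat_lit 0) (nat_lit 0) (XT.lf (nat_lit 0) (nat_lit 16000103960) (nat_lit 0) (nat_lit 0) (nat_lit 0) (nat_lit 0) (nat_lit 0) (nat_lit 0) (nat_lit 1) (nat_lit 0) (nat_lit 1) (nat_lit 0) (nat_lit 353) (nat_lit 395) (nat_lit 332)) (XT.nd (nat_lit 94) (nat_lit 0) (nat_lit 0) (XT.lf (nat_lit 0) (nat_lit 15990884597) (nat_lit 0) (nat_lit 0) (nat_lit 0) (nat_lit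 0) (nat_lit 0) (nat_lit 0) (nat_lit 1) (nat_lit 0) (nat_lit 1) (nat_lit 0) (nat_lit 354) (nat_lit 395) (nat_lit 331)) (XT.lf (nat_lit 0) (nat_lit 15982348149) (nat_lit 0) (nat_lit 0) (nat_lit 0) (nat_lit 0) (nat_lit 0) (nat_lit 0) (nat_lit 1) (nat_lit 0) (nat_lit 1) (nat_lit 0) (nat_lit 355) (nat_lit 395) (nat_lit 330))))))))
noncomputable def ec131 : XT := (XT.nd (nat_lit 1786) (nat_lit 0) (nat_lit 0) (XT.nd (nat_lit 846) (nat_lit 0) (nat_lit 0) (XT.nd (nat_lit 376) (nat_lit 0) (nat_lit 0) (XT.nd (nat_lit 188) (nat_lit 0) (nat_lit 0) (XT.nd (nat_lit 94) (nat_lit 0) (nat_lit 0) (XT.lf (nat_lit 0) (nat_lit 15974444030) (nat_lit 0) (nat_lit 0) (nat_lit 0) (nat_lit 0) (nat_lit 0) (nat_lit 0) (nat_lit 1) (nat_lit 0) (nat_lit 1) (nat_lit 0) (nat_lit 356) (nat_lit 395) (nat_lit 329)) (XT.lf (nat_lit 0) (nat_lit 15967125402) (nat_lit 0) (nat_lit 0) (nat_lit 0) (nat_lit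 0) (nat_lit 0) (nat_lit 0) (nat_lit 1) (nat_lit 0) (nat_lit 1) (nat_lit 0) (nat_lit 357) (nat_lit 395) (nat_lit 328))) (XT.nd (nat_lit 94) (nat_lit 0) (nat_lit 0) (XT.lf (nat_lit 0) (nat_lit 15960348895) (nat_lit 0) (nat_lit 0) (nat_lit 0) (nat_lit 0) (nat_lit 0) (nat_lit 0) (nat_lit 1) (nat_lit 0) (nat_lit 1) (nat_lit 0) (nat_lit 358) (nat_lit 395) (nat_lit 327)) (XT.lf (nat_lit 0) (nat_lit 15954074351) (nat_lit 0) (nat_lit 0) (nat_lit 0) (nat_lit 0) (nat_lit 0) (nat_lit 0) (nat_lit 1) (nat_lit 0) (nat_lit 1) (nat_lit 0) (nat_lit 359) (nat_lit 395) (nat_lit 326)))) (XT.nd (nat_lit 188) (nat_lit 0) (nat_lit 0) (XT.nd (nat_lit 94) (nat_lit 0) (nat_lit 0) (XT.lf (nat_lit 0) (nat_lit 15948264588) (nat_lit 0) (nat_lit 0) (nat_lit 0) (nat_lit 0) (nat_lit 0) (nat_lit 0) (nat_lit 1) (nat_lit 0) (nat_lit 1) (nat_lit 0) (nat_lit 360) (nat_lit 395) (nat_lit 325)) (XT.lf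 (nat_lit 0) (nat_lit 15942885177) (nat_lit 0) (nat_lit 0) (nat_lit 0) (nat_lit 0) (nat_lit 0) (nat_lit 0) (nat_lit 1) (nat_lit 0) (nat_lit 1) (nat_lit 0) (nat_lit 361) (nat_lit 395) (nat_lit 324))) (XT.nd (nat_lit 94) (nat_lit 0) (nat_lit 0) (XT.lf (nat_lit 0) (nat_lit 15937904242) (nat_lit 0) (nat_lit 0) (nat_lit 0) (nat_lit 0) (nat_lit 0) (nat_lit 0) (nat_lit 1) (nat_lit 0) (nat_lit 1) (nat_lit 0) (nat_lit 362) (nat_lit 395) (nat_lit 323)) (XT.nd (nat_lit 94) (nat_lit 0) (nat_lit 0) (XT.lf (nat_lit 0) (nat_lit 15933292265) (nat_lit 0) (nat_lit 0) (nat_lit 0) (nat_lit 0) (nat_lit 0) (nat_lit 0) (nat_lit 1) (nat_lit 0) (nat_lit 1) (nat_lit 0) (nat_lit 363) (nat_lit 395) (nat_lit 322)) (XT.lf (nat_lit 0) (nat_lit 15929021916) (nat_lit 0) (nat_lit 0) (nat_lit 0) (nat_lit 0) (nat_lit 0) (nat_lit 0) (nat_lit 1) (nat_lit 0) (nat_lit 1) (nat_lit 0) (nat_lit 364)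 (nat_lit 395) (nat_lit 321)))))) (XT.nd (nat_lit 470) (nat_lit 0) (nat_lit 0) (XT.nd (nat_lit 188) (nat_lit 0) (nat_lit 0) (XT.nd (nat_lit 94) (nat_lit 0) (nat_lit 0) (XT.lf (nat_lit 0) (nat_lit 15925067889) (nat_lit 0) (nat_lit 0) (nat_lit 0) (nat_lit 0) (nat_lit 0) (nat_lit 0) (nat_lit 1) (nat_lit 0) (nat_lit 1) (nat_lit 0) (nat_lit 365) (nat_lit 395) (nat_lit 320)) (XT.lf (nat_lit 0) (nat_lit 15921406753) (nat_lit 0) (nat_lit 0) (nat_lit 0) (nat_lit 0) (nat_lit 0) (nat_lit 0) (nat_lit 1) (nat_lit 0) (nat_lit 1) (nat_lit 0) (nat_lit 366) (nat_lit 395) (nat_lit 319))) (XT.nd (nat_lit 94) (nat_lit 0) (nat_lit 0) (XT.lf (nat_lit 0) (nat_lit 15918016812) (nat_lit 0) (nat_lit 0) (nat_lit 0) (nat_lit 0) (nat_lit 0) (nat_lit 0) (nat_lit 1) (nat_lit 0) (nat_lit 1) (nat_lit 0) (nat_lit 367) (nat_lit 395) (nat_lit 318)) (XT.nd (nat_lit 94) (nat_lit 0) (nat_lit 0)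 (XT.lf (nat_lit 0) (nat_lit 15914877977) (nat_lit 0) (nat_lit 0) (nat_lit 0) (nat_lit 0) (nat_lit 0) (nat_lit 0) (nat_lit 1) (nat_lit 0) (nat_lit 1) (nat_lit 0) (nat_lit 368) (nat_lit 395) (nat_lit 317)) (XT.lf (nat_lit 0) (nat_lit 15911971650) (nat_lit 0) (nat_lit 0) (nat_lit 0) (nat_lit 0) (nat_lit 0) (nat_lit 0) (nat_lit 1) (nat_lit 0) (nat_lit 1) (nat_lit 0) (nat_lit 369) (nat_lit 395) (nat_lit 316))))) (XT.nd (nat_lit 188) (nat_lit 0) (nat_lit 0) (XT.nd (nat_lit 94) (nat_lit 0) (nat_lit 0) (XT.lf (nat_lit 0) (nat_lit 15909280605) (nat_lit 0) (nat_lit 0) (nat_lit 0) (nat_lit 0) (nat_lit 0) (nat_lit 0) (nat_lit 1) (nat_lit 0) (nat_lit 1) (nat_lit 0) (nat_lit 370) (nat_lit 395) (nat_lit 315)) (XT.lf (nat_lit 0) (nat_lit 15906788897) (nat_lit 0) (nat_lit 0) (nat_lit 0) (nat_lit 0) (nat_lit 0) (nat_lit 0) (nat_lit 1) (nat_lit 0) (nat_lit 1) (nat_lit 0) (nat_lit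 371) (nat_lit 395) (nat_lit 314))) (XT.nd (nat_lit 94) (nat_lit 0) (nat_lit 0) (XT.lf (nat_lit 0) (nat_lit 15904481761) (nat_lit 0) (nat_lit 0) (nat_lit 0) (nat_lit 0) (nat_lit 0) (nat_lit 0) (nat_lit 1) (nat_lit 0) (nat_lit 1) (nat_lit 0) (nat_lit 372) (nat_lit 395) (nat_lit 313)) (XT.nd (nat_lit 94) (nat_lit 0) (nat_lit 0) (XT.lf (nat_lit 0) (nat_lit 15902345523) (nat_lit 0) (nat_lit 0) (nat_lit 0) (nat_lit 0) (nat_lit 0) (nat_lit 0) (nat_lit 1) (nat_lit 0) (nat_lit 1) (nat_lit 0) (nat_lit 373) (nat_lit 395) (nat_lit 312)) (XT.lf (nat_lit 0) (nat_lit 15900367525) (nat_lit 0) (nat_lit 0) (nat_lit 0) (nat_lit 0) (nat_lit 0) (nat_lit 0) (nat_lit 1) (nat_lit 0) (nat_lit 1) (nat_lit 0) (nat_lit 374) (nat_lit 395) (nat_lit 311))))))) (XT.nd (nat_lit 846) (nat_lit 0) (nat_lit 0) (XT.nd (nat_lit 376) (nat_lit 0) (nat_lit 0) (XT.nd (nat_lit 188) (nat_lit 0) (nat_lit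 0) (XT.nd (nat_lit 94) (nat_lit 0) (nat_lit 0) (XT.lf (nat_lit 0) (nat_lit 15898536045) (nat_lit 0) (nat_lit 0) (nat_lit 0) (nat_lit 0) (nat_lit 0) (nat_lit 0) (nat_lit 1) (nat_lit 0) (nat_lit 1) (nat_lit 0) (nat_lit 375) (nat_lit 395) (nat_lit 310)) (XT.lf (nat_lit 0) (nat_lit 15896840231) (nat_lit 0) (nat_lit 0) (nat_lit 0) (nat_lit 0) (nat_lit 0) (nat_lit 0) (nat_lit 1) (nat_lit 0) (nat_lit 1) (nat_lit 0) (nat_lit 376) (nat_lit 395) (nat_lit 309))) (XT.nd (nat_lit 94) (nat_lit 0) (nat_lit 0) (XT.lf (nat_lit 0) (nat_lit 15895270032) (nat_lit 0) (nat_lit 0) (nat_lit 0) (nat_lit 0) (nat_lit 0) (nat_lit 0) (nat_lit 1) (nat_lit 0) (nat_lit 1) (nat_lit 0) (nat_lit 377) (nat_lit 395) (nat_lit 308)) (XT.lf (nat_lit 0) (nat_lit 15893816145) (nat_lit 0) (nat_lit 0) (nat_lit 0) (nat_lit 0) (nat_lit 0) (nat_lit 0) (nat_lit 1) (nat_lit 0) (nat_lit 1) (nat_lit 0) (nat_lit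 378) (nat_lit 395) (nat_lit 307)))) (XT.nd (nat_lit 188) (nat_lit 0) (nat_lit 0) (XT.nd (nat_lit 94) (nat_lit 0) (nat_lit 0) (XT.lf (nat_lit 0) (nat_lit 15892469953) (nat_lit 0) (nat_lit 0) (nat_lit 0) (nat_lit 0) (nat_lit 0) (nat_lit 0) (nat_lit 1) (nat_lit 0) (nat_lit 1) (nat_lit 0) (nat_lit 379) (nat_lit 395) (nat_lit 306)) (XT.lf (nat_lit 0) (nat_lit 15891223478) (nat_lit 0) (nat_lit 0) (nat_lit 0) (nat_lit 0) (nat_lit 0) (nat_lit 0) (nat_lit 1) (nat_lit 0) (nat_lit 1) (nat_lit 0) (nat_lit 380) (nat_lit 395) (nat_lit 305))) (XT.nd (nat_lit 94) (nat_lit 0) (nat_lit 0) (XT.lf (nat_lit 0) (nat_lit 15890069335) (nat_lit 0) (nat_lit 0) (nat_lit 0) (nat_lit 0) (nat_lit 0) (nat_lit 0) (nat_lit 1) (nat_lit 0) (nat_lit 1) (nat_lit 0) (nat_lit 381) (nat_lit 395) (nat_lit 304)) (XT.nd (nat_lit 94) (nat_lit 0) (nat_lit 0) (XT.lf (nat_lit 0) (nat_lit 15889000685) (nat_lit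 0) (nat_lit 0) (nat_lit 0) (nat_lit 0) (nat_lit 0) (nat_lit 0) (nat_lit 1) (nat_lit 0) (nat_lit 1) (nat_lit 0) (nat_lit 382) (nat_lit 395) (nat_lit 303)) (XT.lf (nat_lit 0) (nat_lit 15888011193) (nat_lit 0) (nat_lit 0) (nat_lit 0) (nat_lit 0) (nat_lit 0) (nat_lit 0) (nat_lit 1) (nat_lit 0) (nat_lit 1) (nat_lit 0) (nat_lit 383) (nat_lit 395) (nat_lit 302)))))) (XT.nd (nat_lit 470) (nat_lit 0) (nat_lit 0) (XT.nd (nat_lit 188) (nat_lit 0) (nat_lit 0) (XT.nd (nat_lit 94) (nat_lit 0) (nat_lit 0) (XT.lf (nat_lit 0) (nat_lit 15887094998) (nat_lit 0) (nat_lit 0) (nat_lit 0) (nat_lit 0) (nat_lit 0) (nat_lit 0) (nat_lit 1) (nat_lit 0) (nat_lit 1) (nat_lit 0) (nat_lit 384) (nat_lit 395) (nat_lit 301)) (XT.lf (nat_lit 0) (nat_lit 15886246668) (nat_lit 0) (nat_lit 0) (nat_lit 0) (nat_lit 0) (nat_lit 0) (nat_lit 0) (nat_lit 1) (nat_lit 0) (nat_lit 1) (nat_lit 0) (nat_lit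 385) (nat_lit 395) (nat_lit 300))) (XT.nd (nat_lit 94) (nat_lit 0) (nat_lit 0) (XT.lf (nat_lit 0) (nat_lit 15885461178) (nat_lit 0) (nat_lit 0) (nat_lit 0) (nat_lit 0) (nat_lit 0) (nat_lit 0) (nat_lit 1) (nat_lit 0) (nat_lit 1) (nat_lit 0) (nat_lit 386) (nat_lit 395) (nat_lit 299)) (XT.nd (nat_lit 94) (nat_lit 0) (nat_lit 0) (XT.lf (nat_lit 0) (nat_lit 15884733872) (nat_lit 0) (nat_lit 0) (nat_lit 0) (nat_lit 0) (nat_lit 0) (nat_lit 0) (nat_lit 1) (nat_lit 0) (nat_lit 1) (nat_lit 0) (nat_lit 387) (nat_lit 395) (nat_lit 298)) (XT.lf (nat_lit 0) (nat_lit 15884060441) (nat_lit 0) (nat_lit 0) (nat_lit 0) (nat_lit 0) (nat_lit 0) (nat_lit 0) (nat_lit 1) (nat_lit 0) (nat_lit 1) (nat_lit 0) (nat_lit 388) (nat_lit 395) (nat_lit 297))))) (XT.nd (nat_lit 188) (nat_lit 0) (nat_lit 0) (XT.nd (nat_lit 94) (nat_lit 0) (nat_lit 0) (XT.lf (nat_lit 0) (nat_lit 15883436893)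 (nat_lit 0) (nat_lit 0) (nat_lit 0) (nat_lit 0) (nat_lit 0) (nat_lit 0) (nat_lit 1) (nat_lit 0) (nat_lit 1) (nat_lit 0) (nat_lit 389) (nat_lit 395) (nat_lit 296)) (XT.lf (nat_lit 0) (nat_lit 15882859535) (nat_lit 0) (nat_lit 0) (nat_lit 0) (nat_lit 0) (nat_lit 0) (nat_lit 0) (nat_lit 1) (nat_lit 0) (nat_lit 1) (nat_lit 0) (nat_lit 390) (nat_lit 395) (nat_lit 295))) (XT.nd (nat_lit 94) (nat_lit 0) (nat_lit 0) (XT.lf (nat_lit 0) (nat_lit 15882324943) (nat_lit 0) (nat_lit 0) (nat_lit 0) (nat_lit 0) (nat_lit 0) (nat_lit 0) (nat_lit 1) (nat_lit 0) (nat_lit 1) (nat_lit 0) (nat_lit 391) (nat_lit 395) (nat_lit 294)) (XT.nd (nat_lit 94) (nat_lit 0) (nat_lit 0) (XT.lf (nat_lit 0) (nat_lit 15881829951) (nat_lit 0) (nat_lit 0) (nat_lit 0) (nat_lit 0) (nat_lit 0) (nat_lit 0) (nat_lit 1) (nat_lit 0) (nat_lit 1) (nat_lit 0) (nat_lit 392) (nat_lit 395) (nat_lit 293)) (XT.lf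 (nat_lit 0) (nat_lit 15881371625) (nat_lit 0) (nat_lit 0) (nat_lit 0) (nat_lit 0) (nat_lit 0) (nat_lit 0) (nat_lit 1) (nat_lit 0) (nat_lit 1) (nat_lit 0) (nat_lit 393) (nat_lit 395) (nat_lit 292))))))))
noncomputable def ec132 : XT := (XT.nd (nat_lit 1692) (nat_lit 0) (nat_lit 0) (XT.nd (nat_lit 846) (nat_lit 0) (nat_lit 0) (XT.nd (nat_lit 376) (nat_lit 0) (nat_lit 0) (XT.nd (nat_lit 188) (nat_lit 0) (nat_lit 0) (XT.nd (nat_lit 94) (nat_lit 0) (nat_lit 0) (XT.lf (nat_lit 0) (nat_lit 15880947249) (nat_lit 0) (nat_lit 0) (nat_lit 0) (nat_lit 0) (nat_lit 0) (nat_lit 0) (nat_lit 1) (nat_lit 0) (nat_lit 1) (nat_lit 0) (nat_lit 394) (nat_lit 395) (nat_lit 291)) (XT.lf (nat_lit 0) (nat_lit 15880554309) (nat_lit 0) (nat_lit 0) (nat_lit 0) (nat_lit 0) (nat_lit 0) (nat_lit 0) (nat_lit 1) (nat_lit 0) (nat_lit 1) (nat_lit 0) (nat_lit 395) (nat_lit 395) (nat_lit 290)))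 (XT.nd (nat_lit 94) (nat_lit 0) (nat_lit 0) (XT.lf (nat_lit 0) (nat_lit 15880190475) (nat_lit 0) (nat_lit 0) (nat_lit 0) (nat_lit 0) (nat_lit 0) (nat_lit 0) (nat_lit 1) (nat_lit 0) (nat_lit 1) (nat_lit 0) (nat_lit 396) (nat_lit 395) (nat_lit 289)) (XT.lf (nat_lit 0) (nat_lit 15879853591) (nat_lit 0) (nat_lit 0) (nat_lit 0) (nat_lit 0) (nat_lit 0) (nat_lit 0) (nat_lit 1) (nat_lit 0) (nat_lit 1) (nat_lit 0) (nat_lit 397) (nat_lit 395) (nat_lit 288)))) (XT.nd (nat_lit 188) (nat_lit 0) (nat_lit 0) (XT.nd (nat_lit 94) (nat_lit 0) (nat_lit 0) (XT.lf (nat_lit 0) (nat_lit 15879541662) (nat_lit 0) (nat_lit 0) (nat_lit 0) (nat_lit 0) (nat_lit 0) (nat_lit 0) (nat_lit 1) (nat_lit 0) (nat_lit 1) (nat_lit 0) (nat_lit 398) (nat_lit 395) (nat_lit 287)) (XT.lf (nat_lit 0) (nat_lit 15879252839) (nat_lit 0) (nat_lit 0) (nat_lit 0) (nat_lit 0) (nat_lit 0) (nat_lit 0) (nat_lit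 1) (nat_lit 0) (nat_lit 1) (nat_lit 0) (nat_lit 399) (nat_lit 395) (nat_lit 286))) (XT.nd (nat_lit 94) (nat_lit 0) (nat_lit 0) (XT.lf (nat_lit 0) (nat_lit 15878985411) (nat_lit 0) (nat_lit 0) (nat_lit 0) (nat_lit 0) (nat_lit 0) (nat_lit 0) (nat_lit 1) (nat_lit 0) (nat_lit 1) (nat_lit 0) (nat_lit 400) (nat_lit 395) (nat_lit 285)) (XT.nd (nat_lit 94) (nat_lit 0) (nat_lit 0) (XT.lf (nat_lit 0) (nat_lit 15878737791) (nat_lit 0) (nat_lit 0) (nat_lit 0) (nat_lit 0) (nat_lit 0) (nat_lit 0) (nat_lit 1) (nat_lit 0) (nat_lit 1) (nat_lit 0) (nat_lit 401) (nat_lit 395) (nat_lit 284)) (XT.lf (nat_lit 0) (nat_lit 15878508514) (nat_lit 0) (nat_lit 0) (nat_lit 0) (nat_lit 0) (nat_lit 0) (nat_lit 0) (nat_lit 1) (nat_lit 0) (nat_lit 1) (nat_lit 0) (nat_lit 402) (nat_lit 395) (nat_lit 283)))))) (XT.nd (nat_lit 376) (nat_lit 0) (nat_lit 0) (XT.nd (nat_lit 188) (nat_lit 0) (nat_lit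 0) (XT.nd (nat_lit 94) (nat_lit 0) (nat_lit 0) (XT.lf (nat_lit 0) (nat_lit 15878296221) (nat_lit 0) (nat_lit 0) (nat_lit 0) (nat_lit 0) (nat_lit 0) (nat_lit 0) (nat_lit 1) (nat_lit 0) (nat_lit 1) (nat_lit 0) (nat_lit 403) (nat_lit 395) (nat_lit 282)) (XT.lf (nat_lit 0) (nat_lit 15878099652) (nat_lit 0) (nat_lit 0) (nat_lit 0) (nat_lit 0) (nat_lit 0) (nat_lit 0) (nat_lit 1) (nat_lit 0) (nat_lit 1) (nat_lit 0) (nat_lit 404) (nat_lit 395) (nat_lit 281))) (XT.nd (nat_lit 94) (nat_lit 0) (nat_lit 0) (XT.lf (nat_lit 0) (nat_lit 15877917645) (nat_lit 0) (nat_lit 0) (nat_lit 0) (nat_lit 0) (nat_lit 0) (nat_lit 0) (nat_lit 1) (nat_lit 0) (nat_lit 1) (nat_lit 0) (nat_lit 405) (nat_lit 395) (nat_lit 280)) (XT.lf (nat_lit 0) (nat_lit 15877749119) (nat_lit 0) (nat_lit 0) (nat_lit 0) (nat_lit 0) (nat_lit 0) (nat_lit 0) (nat_lit 1) (nat_lit 0) (nat_lit 1) (nat_lit 0) (nat_lit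 406) (nat_lit 395) (nat_lit 279)))) (XT.nd (nat_lit 188) (nat_lit 0) (nat_lit 0) (XT.nd (nat_lit 94) (nat_lit 0) (nat_lit 0) (XT.lf (nat_lit 0) (nat_lit 15877593077) (nat_lit 0) (nat_lit 0) (nat_lit 0) (nat_lit 0) (nat_lit 0) (nat_lit 0) (nat_lit 1) (nat_lit 0) (nat_lit 1) (nat_lit 0) (nat_lit 407) (nat_lit 395) (nat_lit 278)) (XT.lf (nat_lit 0) (nat_lit 15877448594) (nat_lit 0) (nat_lit 0) (nat_lit 0) (nat_lit 0) (nat_lit 0) (nat_lit 0) (nat_lit 1) (nat_lit 0) (nat_lit 1) (nat_lit 0) (nat_lit 408) (nat_lit 395) (nat_lit 277))) (XT.nd (nat_lit 94) (nat_lit 0) (nat_lit 0) (XT.lf (nat_lit 0) (nat_lit 15877314813) (nat_lit 0) (nat_lit 0) (nat_lit 0) (nat_lit 0) (nat_lit 0) (nat_lit 0) (nat_lit 1) (nat_lit 0) (nat_lit 1) (nat_lit 0) (nat_lit 409) (nat_lit 395) (nat_lit 276)) (XT.nd (nat_lit 94) (nat_lit 0) (nat_lit 0) (XT.lf (nat_lit 0) (nat_lit 15877190941) (nat_lit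 0) (nat_lit 0) (nat_lit 0) (nat_lit 0) (nat_lit 0) (nat_lit 0) (nat_lit 1) (nat_lit 0) (nat_lit 1) (nat_lit 0) (nat_lit 410) (nat_lit 395) (nat_lit 275)) (XT.lf (nat_lit 0) (nat_lit 15877076246) (nat_lit 0) (nat_lit 0) (nat_lit 0) (nat_lit 0) (nat_lit 0) (nat_lit 0) (nat_lit 1) (nat_lit 0) (nat_lit 1) (nat_lit 0) (nat_lit 411) (nat_lit 395) (nat_lit 274))))))) (XT.nd (nat_lit 846) (nat_lit 0) (nat_lit 0) (XT.nd (nat_lit 376) (nat_lit 0) (nat_lit 0) (XT.nd (nat_lit 188) (nat_lit 0) (nat_lit 0) (XT.nd (nat_lit 94) (nat_lit 0) (nat_lit 0) (XT.lf (nat_lit 0) (nat_lit 15876970046) (nat_lit 0) (nat_lit 0) (nat_lit 0) (nat_lit 0) (nat_lit 0) (nat_lit 0) (nat_lit 1) (nat_lit 0) (nat_lit 1) (nat_lit 0) (nat_lit 412) (nat_lit 395) (nat_lit 273)) (XT.lf (nat_lit 0) (nat_lit 15876871713) (nat_lit 0) (nat_lit 0) (nat_lit 0) (nat_lit 0) (nat_lit 0) (nat_lit 0) (nat_lit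 1) (nat_lit 0) (nat_lit 1) (nat_lit 0) (nat_lit 413) (nat_lit 395) (nat_lit 272))) (XT.nd (nat_lit 94) (nat_lit 0) (nat_lit 0) (XT.lf (nat_lit 0) (nat_lit 15876780664) (nat_lit 0) (nat_lit 0) (nat_lit 0) (nat_lit 0) (nat_lit 0) (nat_lit 0) (nat_lit 1) (nat_lit 0) (nat_lit 1) (nat_lit 0) (nat_lit 414) (nat_lit 395) (nat_lit 271)) (XT.lf (nat_lit 0) (nat_lit 15876696359) (nat_lit 0) (nat_lit 0) (nat_lit 0) (nat_lit 0) (nat_lit 0) (nat_lit 0) (nat_lit 1) (nat_lit 0) (nat_lit 1) (nat_lit 0) (nat_lit 415) (nat_lit 395) (nat_lit 270)))) (XT.nd (nat_lit 188) (nat_lit 0) (nat_lit 0) (XT.nd (nat_lit 94) (nat_lit 0) (nat_lit 0) (XT.lf (nat_lit 0) (nat_lit 15876618299) (nat_lit 0) (nat_lit 0) (nat_lit 0) (nat_lit 0) (nat_lit 0) (nat_lit 0) (nat_lit 1) (nat_lit 0) (nat_lit 1) (nat_lit 0) (nat_lit 416) (nat_lit 395) (nat_lit 269)) (XT.lf (nat_lit 0) (nat_lit 15876546022)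 (nat_lit 0) (nat_lit 0) (nat_lit 0) (nat_lit 0) (nat_lit 0) (nat_lit 0) (nat_lit 1) (nat_lit 0) (nat_lit 1) (nat_lit 0) (nat_lit 417) (nat_lit 395) (nat_lit 268))) (XT.nd (nat_lit 94) (nat_lit 0) (nat_lit 0) (XT.lf (nat_lit 0) (nat_lit 15876479098) (nat_lit 0) (nat_lit 0) (nat_lit 0) (nat_lit 0) (nat_lit 0) (nat_lit 0) (nat_lit 1) (nat_lit 0) (nat_lit 1) (nat_lit 0) (nat_lit 418) (nat_lit 395) (nat_lit 267)) (XT.nd (nat_lit 94) (nat_lit 0) (nat_lit 0) (XT.lf (nat_lit 0) (nat_lit 15876417131) (nat_lit 0) (nat_lit 0) (nat_lit 0) (nat_lit 0) (nat_lit 0) (nat_lit 0) (nat_lit 1) (nat_lit 0) (nat_lit 1) (nat_lit 0) (nat_lit 419) (nat_lit 395) (nat_lit 266)) (XT.lf (nat_lit 0) (nat_lit 15876359755) (nat_lit 0) (nat_lit 0) (nat_lit 0) (nat_lit 0) (nat_lit 0) (nat_lit 0) (nat_lit 1) (nat_lit 0) (nat_lit 1) (nat_lit 0) (nat_lit 420) (nat_lit 395) (nat_lit 265))))))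 (XT.nd (nat_lit 470) (nat_lit 0) (nat_lit 0) (XT.nd (nat_lit 188) (nat_lit 0) (nat_lit 0) (XT.nd (nat_lit 94) (nat_lit 0) (nat_lit 0) (XT.lf (nat_lit 0) (nat_lit 15876306629) (nat_lit 0) (nat_lit 0) (nat_lit 0) (nat_lit 0) (nat_lit 0) (nat_lit 0) (nat_lit 1) (nat_lit 0) (nat_lit 1) (nat_lit 0) (nat_lit 421) (nat_lit 395) (nat_lit 264)) (XT.lf (nat_lit 0) (nat_lit 15876257438) (nat_lit 0) (nat_lit 0) (nat_lit 0) (nat_lit 0) (nat_lit 0) (nat_lit 0) (nat_lit 1) (nat_lit 0) (nat_lit 1) (nat_lit 0) (nat_lit 422) (nat_lit 395) (nat_lit 263))) (XT.nd (nat_lit 94) (nat_lit 0) (nat_lit 0) (XT.lf (nat_lit 0) (nat_lit 15876211891) (nat_lit 0) (nat_lit 0) (nat_lit 0) (nat_lit 0) (nat_lit 0) (nat_lit 0) (nat_lit 1) (nat_lit 0) (nat_lit 1) (nat_lit 0) (nat_lit 423) (nat_lit 395) (nat_lit 262)) (XT.nd (nat_lit 94) (nat_lit 0) (nat_lit 0) (XT.lf (nat_lit 0) (nat_lit 15876169717)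 (nat_lit 0) (nat_lit 0) (nat_lit 0) (nat_lit 0) (nat_lit 0) (nat_lit 0) (nat_lit 1) (nat_lit 0) (nat_lit 1) (nat_lit 0) (nat_lit 424) (nat_lit 395) (nat_lit 261)) (XT.lf (nat_lit 0) (nat_lit 15876130668) (nat_lit 0) (nat_lit 0) (nat_lit 0) (nat_lit 0) (nat_lit 0) (nat_lit 0) (nat_lit 1) (nat_lit 0) (nat_lit 1) (nat_lit 0) (nat_lit 425) (nat_lit 395) (nat_lit 260))))) (XT.nd (nat_lit 188) (nat_lit 0) (nat_lit 0) (XT.nd (nat_lit 94) (nat_lit 0) (nat_lit 0) (XT.lf (nat_lit 0) (nat_lit 15876094511) (nat_lit 0) (nat_lit 0) (nat_lit 0) (nat_lit 0) (nat_lit 0) (nat_lit 0) (nat_lit 1) (nat_lit 0) (nat_lit 1) (nat_lit 0) (nat_lit 426) (nat_lit 395) (nat_lit 259)) (XT.lf (nat_lit 0) (nat_lit 15876061032) (nat_lit 0) (nat_lit 0) (nat_lit 0) (nat_lit 0) (nat_lit 0) (nat_lit 0) (nat_lit 1) (nat_lit 0) (nat_lit 1) (nat_lit 0) (nat_lit 427) (nat_lit 395) (nat_lit 258)))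 (XT.nd (nat_lit 94) (nat_lit 0) (nat_lit 0) (XT.lf (nat_lit 0) (nat_lit 15876030034) (nat_lit 0) (nat_lit 0) (nat_lit 0) (nat_lit 0) (nat_lit 0) (nat_lit 0) (nat_lit 1) (nat_lit 0) (nat_lit 1) (nat_lit 0) (nat_lit 428) (nat_lit 395) (nat_lit 257)) (XT.nd (nat_lit 94) (nat_lit 0) (nat_lit 0) (XT.lf (nat_lit 0) (nat_lit 15876001331) (nat_lit 0) (nat_lit 0) (nat_lit 0) (nat_lit 0) (nat_lit 0) (nat_lit 0) (nat_lit 1) (nat_lit 0) (nat_lit 1) (nat_lit 0) (nat_lit 429) (nat_lit 395) (nat_lit 256)) (XT.lf (nat_lit 0) (nat_lit 15875974755) (nat_lit 0) (nat_lit 0) (nat_lit 0) (nat_lit 0) (nat_lit 0) (nat_lit 0) (nat_lit 1) (nat_lit 0) (nat_lit 1) (nat_lit 0) (nat_lit 430) (nat_lit 395) (nat_lit 255))))))))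
noncomputable def ec133 : XT := (XT.nd (nat_lit 55272) (nat_lit 0) (nat_lit 4200) (XT.nd (nat_lit 54332) (nat_lit 0) (nat_lit 9324) (XT.nd (nat_lit 376) (nat_lit 0) (nat_lit 0) (XT.nd (nat_lit 188) (nat_lit 0) (nat_lit 0) (XT.nd (nat_lit 94) (nat_lit 0) (nat_lit 0) (XT.lf (nat_lit 0) (nat_lit 15875950147) (nat_lit 0) (nat_lit 0) (nat_lit 0) (nat_lit 0) (nat_lit 0) (nat_lit 0) (nat_lit 1) (nat_lit 0) (nat_lit 1) (nat_lit 0) (nat_lit 431) (nat_lit 395) (nat_lit 254)) (XT.lf (nat_lit 0) (nat_lit 15875927362) (nat_lit 0) (nat_lit 0) (nat_lit 0) (nat_lit 0) (nat_lit 0) (nat_lit 0) (nat_lit 1) (nat_lit 0) (nat_lit 1) (nat_lit 0) (nat_lit 432) (nat_lit 395) (nat_lit 253))) (XT.nd (nat_lit 94) (nat_lit 0) (nat_lit 0) (XT.lf (nat_lit 0) (nat_lit 15875906265) (nat_lit 0) (nat_lit 0) (nat_lit 0) (nat_lit 0) (nat_lit 0) (nat_lit 0) (nat_lit 1) (nat_lit 0) (nat_lit 1)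 (nat_lit 0) (nat_lit 433) (nat_lit 395) (nat_lit 252)) (XT.lf (nat_lit 0) (nat_lit 15875886731) (nat_lit 0) (nat_lit 0) (nat_lit 0) (nat_lit 0) (nat_lit 0) (nat_lit 0) (nat_lit 1) (nat_lit 0) (nat_lit 1) (nat_lit 0) (nat_lit 434) (nat_lit 395) (nat_lit 251)))) (XT.nd (nat_lit 188) (nat_lit 0) (nat_lit 0) (XT.nd (nat_lit 94) (nat_lit 0) (nat_lit 0) (XT.lf (nat_lit 0) (nat_lit 15875868643) (nat_lit 0) (nat_lit 0) (nat_lit 0) (nat_lit 0) (nat_lit 0) (nat_lit 0) (nat_lit 1) (nat_lit 0) (nat_lit 1) (nat_lit 0) (nat_lit 435) (nat_lit 395) (nat_lit 250)) (XT.lf (nat_lit 0) (nat_lit 15875851896) (nat_lit 0) (nat_lit 0) (nat_lit 0) (nat_lit 0) (nat_lit 0) (nat_lit 0) (nat_lit 1) (nat_lit 0) (nat_lit 1) (nat_lit 0) (nat_lit 436) (nat_lit 395) (nat_lit 249))) (XT.nd (nat_lit 94) (nat_lit 0) (nat_lit 0) (XT.lf (nat_lit 0) (nat_lit 15875836389) (nat_lit 0) (nat_lit 0)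 (nat_lit 0) (nat_lit 0) (nat_lit 0) (nat_lit 0) (nat_lit 1) (nat_lit 0) (nat_lit 1) (nat_lit 0) (nat_lit 437) (nat_lit 395) (nat_lit 248)) (XT.nd (nat_lit 94) (nat_lit 0) (nat_lit 0) (XT.lf (nat_lit 0) (nat_lit 15875822030) (nat_lit 0) (nat_lit 0) (nat_lit 0) (nat_lit 0) (nat_lit 0) (nat_lit 0) (nat_lit 1) (nat_lit 0) (nat_lit 1) (nat_lit 0) (nat_lit 438) (nat_lit 395) (nat_lit 247)) (XT.lf (nat_lit 0) (nat_lit 15875808735) (nat_lit 0) (nat_lit 0) (nat_lit 0) (nat_lit 0) (nat_lit 0) (nat_lit 0) (nat_lit 1) (nat_lit 0) (nat_lit 1) (nat_lit 0) (nat_lit 439) (nat_lit 395) (nat_lit 246)))))) (XT.nd (nat_lit 470) (nat_lit 1428) (nat_lit 0) (XT.nd (nat_lit 188) (nat_lit 0) (nat_lit 84) (XT.nd (nat_lit 94) (nat_lit 0) (nat_lit 84) (XT.lf (nat_lit 924) (nat_lit 8580347491) (nat_lit 0) (nat_lit 15234387248) (nat_lit 924) (nat_lit 8580347491) (nat_lit 139) (nat_lit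 1) (nat_lit 128) (nat_lit 0) (nat_lit 139) (nat_lit 0) (nat_lit 288) (nat_lit 396) (nat_lit 396)) (XT.lf (nat_lit 924) (nat_lit 3200732894) (nat_lit 0) (nat_lit 29909719350) (nat_lit 840) (nat_lit 29251605598) (nat_lit 140) (nat_lit 1) (nat_lit 129) (nat_lit 1) (nat_lit 139) (nat_lit 1) (nat_lit 289) (nat_lit 396) (nat_lit 395))) (XT.nd (nat_lit 94) (nat_lit 0) (nat_lit 84) (XT.lf (nat_lit 924) (nat_lit 29396884150) (nat_lit 84) (nat_lit 20030549130) (nat_lit 0) (nat_lit 10623289543) (nat_lit 140) (nat_lit 1) (nat_lit 130) (nat_lit 1) (nat_lit 129) (nat_lit 1) (nat_lit 290) (nat_lit 396) (nat_lit 394)) (XT.nd (nat_lit 94) (nat_lit 0) (nat_lit 84) (XT.lf (nat_lit 924) (nat_lit 25401316133) (nat_lit 84) (nat_lit 8394664302) (nat_lit 0) (nat_lit 24059072436) (nat_lit 141) (nat_lit 1) (nat_lit 131) (nat_lit 1) (nat_lit 130) (nat_lit 1) (nat_lit 291) (nat_lit 396)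 (nat_lit 393)) (XT.lf (nat_lit 924) (nat_lit 18799133483) (nat_lit 0) (nat_lit 35172290150) (nat_lit 840) (nat_lit 1798002447) (nat_lit 142) (nat_lit 1) (nat_lit 131) (nat_lit 1) (nat_lit 141) (nat_lit 1) (nat_lit 292) (nat_lit 396) (nat_lit 392))))) (XT.nd (nat_lit 188) (nat_lit 1764) (nat_lit 0) (XT.nd (nat_lit 94) (nat_lit 0) (nat_lit 0) (XT.lf (nat_lit 924) (nat_lit 4510667758) (nat_lit 0) (nat_lit 38787221132) (nat_lit 840) (nat_lit 10485513678) (nat_lit 143) (nat_lit 1) (nat_lit 132) (nat_lit 1) (nat_lit 142) (nat_lit 1) (nat_lit 293) (nat_lit 396) (nat_lit 391)) (XT.lf (nat_lit 924) (nat_lit 8667668788) (nat_lit 84) (nat_lit 33709253743) (nat_lit 0) (nat_lit 9513167299) (nat_lit 143) (nat_lit 1) (nat_lit 133) (nat_lit 1) (nat_lit 132) (nat_lit 1) (nat_lit 294) (nat_lit 396) (nat_lit 390))) (XT.nd (nat_lit 94) (nat_lit 1008) (nat_lit 0) (XT.lf (nat_lit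 924) (nat_lit 1780141519) (nat_lit 0) (nat_lit 25199896954) (nat_lit 840) (nat_lit 23108041466) (nat_lit 134) (nat_lit 1) (nat_lit 123) (nat_lit 1) (nat_lit 133) (nat_lit 1) (nat_lit 295) (nat_lit 396) (nat_lit 389)) (XT.nd (nat_lit 94) (nat_lit 420) (nat_lit 0) (XT.lf (nat_lit 84) (nat_lit 12326070701) (nat_lit 0) (nat_lit 5341460043) (nat_lit 588) (nat_lit 30703862733) (nat_lit 117) (nat_lit 1) (nat_lit 116) (nat_lit 1) (nat_lit 123) (nat_lit 1) (nat_lit 296) (nat_lit 396) (nat_lit 388)) (XT.lf (nat_lit 504) (nat_lit 33969099410) (nat_lit 0) (nat_lit 11057674172) (nat_lit 420) (nat_lit 1709584751) (nat_lit 117) (nat_lit 1) (nat_lit 111) (nat_lit 1) (nat_lit 116) (nat_lit 1) (nat_lit 297) (nat_lit 396) (nat_lit 387))))))) (XT.nd (nat_lit 846) (nat_lit 2352) (nat_lit 0) (XT.nd (nat_lit 376) (nat_lit 1596) (nat_lit 0) (XT.nd (nat_lit 188) (nat_lit 420) (nat_lit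 0) (XT.nd (nat_lit 94) (nat_lit 336) (nat_lit 0) (XT.lf (nat_lit 504) (nat_lit 24512425613) (nat_lit 0) (nat_lit 5154029564) (nat_lit 420) (nat_lit 15505171600) (nat_lit 112) (nat_lit 1) (nat_lit 106) (nat_lit 1) (nat_lit 111) (nat_lit 1) (nat_lit 298) (nat_lit 396) (nat_lit 386)) (XT.lf (nat_lit 420) (nat_lit 14915498355) (nat_lit 0) (nat_lit 94894060) (nat_lit 336) (nat_lit 28672373237) (nat_lit 107) (nat_lit 1) (nat_lit 102) (nat_lit 1) (nat_lit 106) (nat_lit 1) (nat_lit 299) (nat_lit 396) (nat_lit 385))) (XT.nd (nat_lit 94) (nat_lit 420) (nat_lit 0) (XT.lf (nat_lit 84) (nat_lit 1100394978) (nat_lit 0) (nat_lit 37110650721) (nat_lit 420) (nat_lit 4051349098) (nat_lit 103) (nat_lit 1) (nat_lit 102) (nat_lit 1) (nat_lit 107) (nat_lit 1) (nat_lit 300) (nat_lit 396) (nat_lit 384)) (XT.lf (nat_lit 84) (nat_lit 28412483746) (nat_lit 0) (nat_lit 4712514441) (nat_lit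 420) (nat_lit 7771792170) (nat_lit 98) (nat_lit 1) (nat_lit 97) (nat_lit 1) (nat_lit 102) (nat_lit 1) (nat_lit 301) (nat_lit 396) (nat_lit 383)))) (XT.nd (nat_lit 188) (nat_lit 924) (nat_lit 0) (XT.nd (nat_lit 94) (nat_lit 336) (nat_lit 0) (XT.lf (nat_lit 84) (nat_lit 14215485609) (nat_lit 0) (nat_lit 14435268281) (nat_lit 420) (nat_lit 10940771397) (nat_lit 94) (nat_lit 1) (nat_lit 93) (nat_lit 1) (nat_lit 98) (nat_lit 1) (nat_lit 302) (nat_lit 396) (nat_lit 382)) (XT.lf (nat_lit 84) (nat_lit 701644847) (nat_lit 0) (nat_lit 24135544417) (nat_lit 420) (nat_lit 13510870937) (nat_lit 90) (nat_lit 1) (nat_lit 89) (nat_lit 1) (nat_lit 94) (nat_lit 1) (nat_lit 303) (nat_lit 396) (nat_lit 381))) (XT.nd (nat_lit 94) (nat_lit 672) (nat_lit 0) (XT.lf (nat_lit 336) (nat_lit 3168588586) (nat_lit 0) (nat_lit 21427647902) (nat_lit 252) (nat_lit 12557094132) (nat_lit 90)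 (nat_lit 1) (nat_lit 86) (nat_lit 1) (nat_lit 89) (nat_lit 1) (nat_lit 304) (nat_lit 396) (nat_lit 380)) (XT.nd (nat_lit 94) (nat_lit 252) (nat_lit 0) (XT.lf (nat_lit 84) (nat_lit 10948325471) (nat_lit 0) (nat_lit 7504050308) (nat_lit 420) (nat_lit 17555581704) (nat_lit 82) (nat_lit 1) (nat_lit 81) (nat_lit 1) (nat_lit 86) (nat_lit 1) (nat_lit 305) (nat_lit 396) (nat_lit 379)) (XT.lf (nat_lit 336) (nat_lit 16950641243) (nat_lit 0) (nat_lit 15922936629) (nat_lit 252) (nat_lit 2038116990) (nat_lit 82) (nat_lit 1) (nat_lit 78) (nat_lit 1) (nat_lit 81) (nat_lit 1) (nat_lit 306) (nat_lit 396) (nat_lit 378)))))) (XT.nd (nat_lit 470) (nat_lit 1008) (nat_lit 0) (XT.nd (nat_lit 188) (nat_lit 756) (nat_lit 0) (XT.nd (nat_lit 94) (nat_lit 336) (nat_lit 0) (XT.lf (nat_lit 336) (nat_lit 5432598628) (nat_lit 0) (nat_lit 13708996400) (nat_lit 252) (nat_lit 14715966893) (nat_lit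 79) (nat_lit 1) (nat_lit 75) (nat_lit 1) (nat_lit 78) (nat_lit 1) (nat_lit 307) (nat_lit 396) (nat_lit 377)) (XT.lf (nat_lit 84) (nat_lit 6191849746) (nat_lit 0) (nat_lit 5669176526) (nat_lit 336) (nat_lit 20986182834) (nat_lit 72) (nat_lit 1) (nat_lit 71) (nat_lit 1) (nat_lit 75) (nat_lit 1) (nat_lit 308) (nat_lit 396) (nat_lit 376))) (XT.nd (nat_lit 94) (nat_lit 504) (nat_lit 0) (XT.lf (nat_lit 336) (nat_lit 15407605415) (nat_lit 0) (nat_lit 10251649681) (nat_lit 252) (nat_lit 6214583742) (nat_lit 72) (nat_lit 1) (nat_lit 68) (nat_lit 1) (nat_lit 71) (nat_lit 1) (nat_lit 309) (nat_lit 396) (nat_lit 375)) (XT.nd (nat_lit 94) (nat_lit 336) (nat_lit 0) (XT.lf (nat_lit 252) (nat_lit 3819568132) (nat_lit 0) (nat_lit 8943816589) (nat_lit 168) (nat_lit 18176352321) (nat_lit 69) (nat_lit 1) (nat_lit 66) (nat_lit 1) (nat_lit 68) (nat_lit 1) (nat_lit 310) (nat_lit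 396) (nat_lit 374)) (XT.lf (nat_lit 84) (nat_lit 647059244) (nat_lit 0) (nat_lit 7240733410) (nat_lit 336) (nat_lit 22154050840) (nat_lit 63) (nat_lit 1) (nat_lit 62) (nat_lit 1) (nat_lit 66) (nat_lit 1) (nat_lit 311) (nat_lit 396) (nat_lit 373))))) (XT.nd (nat_lit 188) (nat_lit 588) (nat_lit 0) (XT.nd (nat_lit 94) (nat_lit 252) (nat_lit 0) (XT.lf (nat_lit 252) (nat_lit 11098964152) (nat_lit 0) (nat_lit 6935900416) (nat_lit 168) (nat_lit 11137588659) (nat_lit 63) (nat_lit 1) (nat_lit 60) (nat_lit 1) (nat_lit 62) (nat_lit 1) (nat_lit 312) (nat_lit 396) (nat_lit 372)) (XT.lf (nat_lit 84) (nat_lit 6021834120) (nat_lit 0) (nat_lit 278152293) (nat_lit 252) (nat_lit 22041013744) (nat_lit 58) (nat_lit 1) (nat_lit 57) (nat_lit 1) (nat_lit 60) (nat_lit 1) (nat_lit 313) (nat_lit 396) (nat_lit 371))) (XT.nd (nat_lit 94) (nat_lit 420) (nat_lit 0) (XT.lf (nat_lit 252)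 (nat_lit 16462531641) (nat_lit 0) (nat_lit 5704636334) (nat_lit 168) (nat_lit 5366565488) (nat_lit 58) (nat_lit 1) (nat_lit 55) (nat_lit 1) (nat_lit 57) (nat_lit 1) (nat_lit 314) (nat_lit 396) (nat_lit 370)) (XT.nd (nat_lit 94) (nat_lit 252) (nat_lit 0) (XT.lf (nat_lit 252) (nat_lit 5113922027) (nat_lit 0) (nat_lit 5303090301) (nat_lit 168) (nat_lit 16340319782) (nat_lit 56) (nat_lit 1) (nat_lit 53) (nat_lit 1) (nat_lit 55) (nat_lit 1) (nat_lit 315) (nat_lit 396) (nat_lit 369)) (XT.lf (nat_lit 252) (nat_lit 20300391030) (nat_lit 0) (nat_lit 5066672357) (nat_lit 168) (nat_lit 642766170) (nat_lit 53) (nat_lit 1) (nat_lit 50) (nat_lit 1) (nat_lit 52) (nat_lit 1) (nat_lit 316) (nat_lit 396) (nat_lit 368))))))))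
noncomputable def ec134 : XT := (XT.nd (nat_lit 1692) (nat_lit 1512) (nat_lit 0) (XT.nd (nat_lit 846) (nat_lit 1176) (nat_lit 0) (XT.nd (nat_lit 376) (nat_lit 924) (nat_lit 0) (XT.nd (nat_lit 188) (nat_lit 252) (nat_lit 0) (XT.nd (nat_lit 94) (nat_lit 168) (nat_lit 0) (XT.lf (nat_lit 252) (nat_lit 9085514181) (nat_lit 0) (nat_lit 4836963889) (nat_lit 168) (nat_lit 11360619670) (nat_lit 51) (nat_lit 1) (nat_lit 48) (nat_lit 1) (nat_lit 50) (nat_lit 1) (nat_lit 317) (nat_lit 396) (nat_lit 367)) (XT.lf (nat_lit 84) (nat_lit 3112139389) (nat_lit 0) (nat_lit 1710572045) (nat_lit 168) (nat_lit 19763797448) (nat_lit 47) (nat_lit 1) (nat_lit 46) (nat_lit 1) (nat_lit 48) (nat_lit 1) (nat_lit 318) (nat_lit 396) (nat_lit 366))) (XT.nd (nat_lit 94) (nat_lit 84) (nat_lit 0) (XT.lf (nat_lit 252) (nat_lit 11920717120) (nat_lit 0) (nat_lit 4771644288) (nat_lit 168) (nat_lit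 7215136372) (nat_lit 47) (nat_lit 1) (nat_lit 44) (nat_lit 1) (nat_lit 46) (nat_lit 1) (nat_lit 319) (nat_lit 396) (nat_lit 365)) (XT.lf (nat_lit 168) (nat_lit 1283691842) (nat_lit 0) (nat_lit 4888842038) (nat_lit 84) (nat_lit 17082759284) (nat_lit 45) (nat_lit 1) (nat_lit 43) (nat_lit 1) (nat_lit 44) (nat_lit 1) (nat_lit 320) (nat_lit 396) (nat_lit 364)))) (XT.nd (nat_lit 188) (nat_lit 588) (nat_lit 0) (XT.nd (nat_lit 94) (nat_lit 84) (nat_lit 0) (XT.lf (nat_lit 252) (nat_lit 13856979508) (nat_lit 0) (nat_lit 4999980801) (nat_lit 168) (nat_lit 3764111534) (nat_lit 43) (nat_lit 1) (nat_lit 40) (nat_lit 1) (nat_lit 42) (nat_lit 1) (nat_lit 321) (nat_lit 396) (nat_lit 363)) (XT.lf (nat_lit 168) (nat_lit 3485132527) (nat_lit 0) (nat_lit 5186935121) (nat_lit 84) (nat_lit 13336157406) (nat_lit 41) (nat_lit 1) (nat_lit 39) (nat_lit 1) (nat_lit 40) (nat_lit 1) (nat_lit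 322) (nat_lit 396) (nat_lit 362))) (XT.nd (nat_lit 94) (nat_lit 336) (nat_lit 0) (XT.lf (nat_lit 252) (nat_lit 15086281622) (nat_lit 0) (nat_lit 5437102537) (nat_lit 168) (nat_lit 892275070) (nat_lit 39) (nat_lit 1) (nat_lit 36) (nat_lit 1) (nat_lit 38) (nat_lit 1) (nat_lit 323) (nat_lit 396) (nat_lit 361)) (XT.nd (nat_lit 94) (nat_lit 252) (nat_lit 0) (XT.lf (nat_lit 168) (nat_lit 5015583839) (nat_lit 0) (nat_lit 5668244728) (nat_lit 84) (nat_lit 10155149944) (nat_lit 37) (nat_lit 1) (nat_lit 35) (nat_lit 1) (nat_lit 36) (nat_lit 1) (nat_lit 324) (nat_lit 396) (nat_lit 360)) (XT.lf (nat_lit 84) (nat_lit 1447697097) (nat_lit 0) (nat_lit 4543935290) (nat_lit 252) (nat_lit 14291382701) (nat_lit 33) (nat_lit 1) (nat_lit 32) (nat_lit 1) (nat_lit 35) (nat_lit 1) (nat_lit 325) (nat_lit 396) (nat_lit 359)))))) (XT.nd (nat_lit 376) (nat_lit 588) (nat_lit 0) (XT.nd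 (nat_lit 188) (nat_lit 252) (nat_lit 0) (XT.nd (nat_lit 94) (nat_lit 252) (nat_lit 0) (XT.lf (nat_lit 168) (nat_lit 6019153126) (nat_lit 0) (nat_lit 6271672256) (nat_lit 84) (nat_lit 7450033291) (nat_lit 33) (nat_lit 1) (nat_lit 31) (nat_lit 1) (nat_lit 32) (nat_lit 1) (nat_lit 326) (nat_lit 396) (nat_lit 358)) (XT.lf (nat_lit 84) (nat_lit 3366804398) (nat_lit 0) (nat_lit 3260977723) (nat_lit 252) (nat_lit 12589972842) (nat_lit 29) (nat_lit 1) (nat_lit 28) (nat_lit 1) (nat_lit 31) (nat_lit 1) (nat_lit 327) (nat_lit 396) (nat_lit 357))) (XT.nd (nat_lit 94) (nat_lit 168) (nat_lit 0) (XT.lf (nat_lit 168) (nat_lit 6612053215) (nat_lit 0) (nat_lit 6949523350) (nat_lit 84) (nat_lit 5146439790) (nat_lit 29) (nat_lit 1) (nat_lit 27) (nat_lit 1) (nat_lit 28) (nat_lit 1) (nat_lit 328) (nat_lit 396) (nat_lit 356)) (XT.lf (nat_lit 84) (nat_lit 4956714615) (nat_lit 0)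 (nat_lit 2361785824) (nat_lit 168) (nat_lit 10896611624) (nat_lit 26) (nat_lit 1) (nat_lit 25) (nat_lit 1) (nat_lit 27) (nat_lit 1) (nat_lit 329) (nat_lit 396) (nat_lit 355)))) (XT.nd (nat_lit 188) (nat_lit 336) (nat_lit 0) (XT.nd (nat_lit 94) (nat_lit 168) (nat_lit 0) (XT.lf (nat_lit 168) (nat_lit 6887814692) (nat_lit 0) (nat_lit 7664895472) (nat_lit 84) (nat_lit 3182602122) (nat_lit 26) (nat_lit 1) (nat_lit 24) (nat_lit 1) (nat_lit 25) (nat_lit 1) (nat_lit 330) (nat_lit 396) (nat_lit 354)) (XT.lf (nat_lit 84) (nat_lit 6269783121) (nat_lit 0) (nat_lit 1761923020) (nat_lit 168) (nat_lit 9238564505) (nat_lit 23) (nat_lit 1) (nat_lit 22) (nat_lit 1) (nat_lit 24) (nat_lit 1) (nat_lit 331) (nat_lit 396) (nat_lit 353))) (XT.nd (nat_lit 94) (nat_lit 252) (nat_lit 0) (XT.lf (nat_lit 168) (nat_lit 6921535965) (nat_lit 0) (nat_lit 8389554757) (nat_lit 84) (nat_lit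 1507114545) (nat_lit 23) (nat_lit 1) (nat_lit 21) (nat_lit 1) (nat_lit 22) (nat_lit 1) (nat_lit 332) (nat_lit 396) (nat_lit 352)) (XT.nd (nat_lit 94) (nat_lit 84) (nat_lit 0) (XT.lf (nat_lit 84) (nat_lit 7349523076) (nat_lit 0) (nat_lit 1393494458) (nat_lit 168) (nat_lit 7635944220) (nat_lit 20) (nat_lit 1) (nat_lit 19) (nat_lit 1) (nat_lit 21) (nat_lit 1) (nat_lit 333) (nat_lit 396) (nat_lit 351)) (XT.lf (nat_lit 168) (nat_lit 6773348013) (nat_lit 0) (nat_lit 9102211760) (nat_lit 84) (nat_lit 77100146) (nat_lit 20) (nat_lit 1) (nat_lit 18) (nat_lit 1) (nat_lit 19) (nat_lit 1) (nat_lit 334) (nat_lit 396) (nat_lit 350))))))) (XT.nd (nat_lit 846) (nat_lit 336) (nat_lit 0) (XT.nd (nat_lit 376) (nat_lit 672) (nat_lit 0) (XT.nd (nat_lit 188) (nat_lit 252) (nat_lit 0) (XT.nd (nat_lit 94) (nat_lit 84) (nat_lit 0) (XT.lf (nat_lit 84) (nat_lit 8232170579) (nat_lit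 0) (nat_lit 1202040997) (nat_lit 168) (nat_lit 6103168378) (nat_lit 17) (nat_lit 1) (nat_lit 16) (nat_lit 1) (nat_lit 18) (nat_lit 1) (nat_lit 335) (nat_lit 396) (nat_lit 349)) (XT.lf (nat_lit 0) (nat_lit 1106697674) (nat_lit 0) (nat_lit 8661682175) (nat_lit 168) (nat_lit 5365798108) (nat_lit 15) (nat_lit 3) (nat_lit 15) (nat_lit 1) (nat_lit 17) (nat_lit 1) (nat_lit 336) (nat_lit 396) (nat_lit 348))) (XT.nd (nat_lit 94) (nat_lit 84) (nat_lit 0) (XT.lf (nat_lit 84) (nat_lit 8947966518) (nat_lit 0) (nat_lit 1144007638) (nat_lit 168) (nat_lit 4650140360) (nat_lit 14) (nat_lit 1) (nat_lit 13) (nat_lit 1) (nat_lit 15) (nat_lit 1) (nat_lit 337) (nat_lit 396) (nat_lit 347)) (XT.lf (nat_lit 0) (nat_lit 2114201986) (nat_lit 0) (nat_lit 8282946271) (nat_lit 168) (nat_lit 3963344350) (nat_lit 12) (nat_lit 3) (nat_lit 12) (nat_lit 1) (nat_lit 14) (nat_lit 1) (nat_lit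 338) (nat_lit 396) (nat_lit 346)))) (XT.nd (nat_lit 188) (nat_lit 420) (nat_lit 0) (XT.nd (nat_lit 94) (nat_lit 84) (nat_lit 0) (XT.lf (nat_lit 84) (nat_lit 9522206828) (nat_lit 0) (nat_lit 1184680692) (nat_lit 168) (nat_lit 3283204844) (nat_lit 11) (nat_lit 1) (nat_lit 10) (nat_lit 1) (nat_lit 12) (nat_lit 1) (nat_lit 339) (nat_lit 396) (nat_lit 345)) (XT.lf (nat_lit 0) (nat_lit 2972332705) (nat_lit 0) (nat_lit 8009193608) (nat_lit 168) (nat_lit 2647192962) (nat_lit 9) (nat_lit 3) (nat_lit 9) (nat_lit 1) (nat_lit 11) (nat_lit 1) (nat_lit 340) (nat_lit 396) (nat_lit 344))) (XT.nd (nat_lit 94) (nat_lit 252) (nat_lit 0) (XT.lf (nat_lit 84) (nat_lit 9976103448) (nat_lit 0) (nat_lit 1296507432) (nat_lit 168) (nat_lit 2005919858) (nat_lit 8) (nat_lit 1) (nat_lit 7) (nat_lit 1) (nat_lit 9) (nat_lit 1) (nat_lit 341) (nat_lit 396) (nat_lit 343)) (XT.nd (nat_lit 94)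 (nat_lit 168) (nat_lit 0) (XT.lf (nat_lit 0) (nat_lit 3701705536) (nat_lit 0) (nat_lit 7814368759) (nat_lit 168) (nat_lit 1420112724) (nat_lit 6) (nat_lit 3) (nat_lit 6) (nat_lit 1) (nat_lit 8) (nat_lit 1) (nat_lit 342) (nat_lit 396) (nat_lit 342)) (XT.lf (nat_lit 84) (nat_lit 10327490462) (nat_lit 0) (nat_lit 1457727801) (nat_lit 168) (nat_lit 819679508) (nat_lit 5) (nat_lit 1) (nat_lit 4) (nat_lit 1) (nat_lit 6) (nat_lit 1) (nat_lit 343) (nat_lit 396) (nat_lit 341)))))) (XT.nd (nat_lit 470) (nat_lit 0) (nat_lit 0) (XT.nd (nat_lit 188) (nat_lit 0) (nat_lit 0) (XT.nd (nat_lit 94) (nat_lit 252) (nat_lit 0) (XT.lf (nat_lit 0) (nat_lit 4319756446) (nat_lit 0) (nat_lit 7677800099) (nat_lit 168) (nat_lit 282905438) (nat_lit 3) (nat_lit 3) (nat_lit 3) (nat_lit 1) (nat_lit 5) (nat_lit 1) (nat_lit 344) (nat_lit 396) (nat_lit 340)) (XT.lf (nat_lit 0) (nat_lit 17358998939)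 (nat_lit 0) (nat_lit 0) (nat_lit 0) (nat_lit 0) (nat_lit 0) (nat_lit 0) (nat_lit 1) (nat_lit 0) (nat_lit 1) (nat_lit 0) (nat_lit 345) (nat_lit 396) (nat_lit 339))) (XT.nd (nat_lit 94) (nat_lit 0) (nat_lit 0) (XT.lf (nat_lit 0) (nat_lit 17343198570) (nat_lit 0) (nat_lit 0) (nat_lit 0) (nat_lit 0) (nat_lit 0) (nat_lit 0) (nat_lit 1) (nat_lit 0) (nat_lit 1) (nat_lit 0) (nat_lit 346) (nat_lit 396) (nat_lit 338)) (XT.nd (nat_lit 94) (nat_lit 0) (nat_lit 0) (XT.lf (nat_lit 0) (nat_lit 17328568598) (nat_lit 0) (nat_lit 0) (nat_lit 0) (nat_lit 0) (nat_lit 0) (nat_lit 0) (nat_lit 1) (nat_lit 0) (nat_lit 1) (nat_lit 0) (nat_lit 347) (nat_lit 396) (nat_lit 337)) (XT.lf (nat_lit 0) (nat_lit 17315022329) (nat_lit 0) (nat_lit 0) (nat_lit 0) (nat_lit 0) (nat_lit 0) (nat_lit 0) (nat_lit 1) (nat_lit 0) (nat_lit 1) (nat_lit 0) (nat_lit 348) (nat_lit 396) (nat_lit 336))))) (XT.nd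 (nat_lit 188) (nat_lit 0) (nat_lit 0) (XT.nd (nat_lit 94) (nat_lit 0) (nat_lit 0) (XT.lf (nat_lit 0) (nat_lit 17302479486) (nat_lit 0) (nat_lit 0) (nat_lit 0) (nat_lit 0) (nat_lit 0) (nat_lit 0) (nat_lit 1) (nat_lit 0) (nat_lit 1) (nat_lit 0) (nat_lit 349) (nat_lit 396) (nat_lit 335)) (XT.lf (nat_lit 0) (nat_lit 17290865743) (nat_lit 0) (nat_lit 0) (nat_lit 0) (nat_lit 0) (nat_lit 0) (nat_lit 0) (nat_lit 1) (nat_lit 0) (nat_lit 1) (nat_lit 0) (nat_lit 350) (nat_lit 396) (nat_lit 334))) (XT.nd (nat_lit 94) (nat_lit 0) (nat_lit 0) (XT.lf (nat_lit 0) (nat_lit 17280112277) (nat_lit 0) (nat_lit 0) (nat_lit 0) (nat_lit 0) (nat_lit 0) (nat_lit 0) (nat_lit 1) (nat_lit 0) (nat_lit 1) (nat_lit 0) (nat_lit 351) (nat_lit 396) (nat_lit 333)) (XT.nd (nat_lit 94) (nat_lit 0) (nat_lit 0) (XT.lf (nat_lit 0) (nat_lit 17270155364) (nat_lit 0) (nat_lit 0) (nat_lit 0) (nat_lit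 0) (nat_lit 0) (nat_lit 0) (nat_lit 1) (nat_lit 0) (nat_lit 1) (nat_lit 0) (nat_lit 352) (nat_lit 396) (nat_lit 332)) (XT.lf (nat_lit 0) (nat_lit 17260936001) (nat_lit 0) (nat_lit 0) (nat_lit 0) (nat_lit 0) (nat_lit 0) (nat_lit 0) (nat_lit 1) (nat_lit 0) (nat_lit 1) (nat_lit 0) (nat_lit 353) (nat_lit 396) (nat_lit 331))))))))
noncomputable def ec135 : XT := (XT.nd (nat_lit 1786) (nat_lit 0) (nat_lit 0) (XT.nd (nat_lit 846) (nat_lit 0) (nat_lit 0) (XT.nd (nat_lit 376) (nat_lit 0) (nat_lit 0) (XT.nd (nat_lit 188) (nat_lit 0) (nat_lit 0) (XT.nd (nat_lit 94) (nat_lit 0) (nat_lit 0) (XT.lf (nat_lit 0) (nat_lit 17252399553) (nat_lit 0) (nat_lit 0) (nat_lit 0) (nat_lit 0) (nat_lit 0) (nat_lit 0) (nat_lit 1) (nat_lit 0) (nat_lit 1) (nat_lit 0) (nat_lit 354) (nat_lit 396) (nat_lit 330)) (XT.lf (nat_lit 0) (nat_lit 17244495434) (nat_lit 0) (nat_lit 0) (nat_lit 0) (nat_lit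 0) (nat_lit 0) (nat_lit 0) (nat_lit 1) (nat_lit 0) (nat_lit 1) (nat_lit 0) (nat_lit 355) (nat_lit 396) (nat_lit 329))) (XT.nd (nat_lit 94) (nat_lit 0) (nat_lit 0) (XT.lf (nat_lit 0) (nat_lit 17237176806) (nat_lit 0) (nat_lit 0) (nat_lit 0) (nat_lit 0) (nat_lit 0) (nat_lit 0) (nat_lit 1) (nat_lit 0) (nat_lit 1) (nat_lit 0) (nat_lit 356) (nat_lit 396) (nat_lit 328)) (XT.lf (nat_lit 0) (nat_lit 17230400299) (nat_lit 0) (nat_lit 0) (nat_lit 0) (nat_lit 0) (nat_lit 0) (nat_lit 0) (nat_lit 1) (nat_lit 0) (nat_lit 1) (nat_lit 0) (nat_lit 357) (nat_lit 396) (nat_lit 327)))) (XT.nd (nat_lit 188) (nat_lit 0) (nat_lit 0) (XT.nd (nat_lit 94) (nat_lit 0) (nat_lit 0) (XT.lf (nat_lit 0) (nat_lit 17224125755) (nat_lit 0) (nat_lit 0) (nat_lit 0) (nat_lit 0) (nat_lit 0) (nat_lit 0) (nat_lit 1) (nat_lit 0) (nat_lit 1) (nat_lit 0) (nat_lit 358) (nat_lit 396) (nat_lit 326)) (XT.lf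 (nat_lit 0) (nat_lit 17218315992) (nat_lit 0) (nat_lit 0) (nat_lit 0) (nat_lit 0) (nat_lit 0) (nat_lit 0) (nat_lit 1) (nat_lit 0) (nat_lit 1) (nat_lit 0) (nat_lit 359) (nat_lit 396) (nat_lit 325))) (XT.nd (nat_lit 94) (nat_lit 0) (nat_lit 0) (XT.lf (nat_lit 0) (nat_lit 17212936582) (nat_lit 0) (nat_lit 0) (nat_lit 0) (nat_lit 0) (nat_lit 0) (nat_lit 0) (nat_lit 1) (nat_lit 0) (nat_lit 1) (nat_lit 0) (nat_lit 360) (nat_lit 396) (nat_lit 324)) (XT.nd (nat_lit 94) (nat_lit 0) (nat_lit 0) (XT.lf (nat_lit 0) (nat_lit 17207955646) (nat_lit 0) (nat_lit 0) (nat_lit 0) (nat_lit 0) (nat_lit 0) (nat_lit 0) (nat_lit 1) (nat_lit 0) (nat_lit 1) (nat_lit 0) (nat_lit 361) (nat_lit 396) (nat_lit 323)) (XT.lf (nat_lit 0) (nat_lit 17203343669) (nat_lit 0) (nat_lit 0) (nat_lit 0) (nat_lit 0) (nat_lit 0) (nat_lit 0) (nat_lit 1) (nat_lit 0) (nat_lit 1) (nat_lit 0) (nat_lit 362)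 (nat_lit 396) (nat_lit 322)))))) (XT.nd (nat_lit 470) (nat_lit 0) (nat_lit 0) (XT.nd (nat_lit 188) (nat_lit 0) (nat_lit 0) (XT.nd (nat_lit 94) (nat_lit 0) (nat_lit 0) (XT.lf (nat_lit 0) (nat_lit 17199073320) (nat_lit 0) (nat_lit 0) (nat_lit 0) (nat_lit 0) (nat_lit 0) (nat_lit 0) (nat_lit 1) (nat_lit 0) (nat_lit 1) (nat_lit 0) (nat_lit 363) (nat_lit 396) (nat_lit 321)) (XT.lf (nat_lit 0) (nat_lit 17195119293) (nat_lit 0) (nat_lit 0) (nat_lit 0) (nat_lit 0) (nat_lit 0) (nat_lit 0) (nat_lit 1) (nat_lit 0) (nat_lit 1) (nat_lit 0) (nat_lit 364) (nat_lit 396) (nat_lit 320))) (XT.nd (nat_lit 94) (nat_lit 0) (nat_lit 0) (XT.lf (nat_lit 0) (nat_lit 17191458157) (nat_lit 0) (nat_lit 0) (nat_lit 0) (nat_lit 0) (nat_lit 0) (nat_lit 0) (nat_lit 1) (nat_lit 0) (nat_lit 1) (nat_lit 0) (nat_lit 365) (nat_lit 396) (nat_lit 319)) (XT.nd (nat_lit 94) (nat_lit 0) (nat_lit 0)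 (XT.lf (nat_lit 0) (nat_lit 17188068216) (nat_lit 0) (nat_lit 0) (nat_lit 0) (nat_lit 0) (nat_lit 0) (nat_lit 0) (nat_lit 1) (nat_lit 0) (nat_lit 1) (nat_lit 0) (nat_lit 366) (nat_lit 396) (nat_lit 318)) (XT.lf (nat_lit 0) (nat_lit 17184929382) (nat_lit 0) (nat_lit 0) (nat_lit 0) (nat_lit 0) (nat_lit 0) (nat_lit 0) (nat_lit 1) (nat_lit 0) (nat_lit 1) (nat_lit 0) (nat_lit 367) (nat_lit 396) (nat_lit 317))))) (XT.nd (nat_lit 188) (nat_lit 0) (nat_lit 0) (XT.nd (nat_lit 94) (nat_lit 0) (nat_lit 0) (XT.lf (nat_lit 0) (nat_lit 17182023054) (nat_lit 0) (nat_lit 0) (nat_lit 0) (nat_lit 0) (nat_lit 0) (nat_lit 0) (nat_lit 1) (nat_lit 0) (nat_lit 1) (nat_lit 0) (nat_lit 368) (nat_lit 396) (nat_lit 316)) (XT.lf (nat_lit 0) (nat_lit 17179332009) (nat_lit 0) (nat_lit 0) (nat_lit 0) (nat_lit 0) (nat_lit 0) (nat_lit 0) (nat_lit 1) (nat_lit 0) (nat_lit 1) (nat_lit 0) (nat_lit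 369) (nat_lit 396) (nat_lit 315))) (XT.nd (nat_lit 94) (nat_lit 0) (nat_lit 0) (XT.lf (nat_lit 0) (nat_lit 17176840301) (nat_lit 0) (nat_lit 0) (nat_lit 0) (nat_lit 0) (nat_lit 0) (nat_lit 0) (nat_lit 1) (nat_lit 0) (nat_lit 1) (nat_lit 0) (nat_lit 370) (nat_lit 396) (nat_lit 314)) (XT.nd (nat_lit 94) (nat_lit 0) (nat_lit 0) (XT.lf (nat_lit 0) (nat_lit 17174533165) (nat_lit 0) (nat_lit 0) (nat_lit 0) (nat_lit 0) (nat_lit 0) (nat_lit 0) (nat_lit 1) (nat_lit 0) (nat_lit 1) (nat_lit 0) (nat_lit 371) (nat_lit 396) (nat_lit 313)) (XT.lf (nat_lit 0) (nat_lit 17172396927) (nat_lit 0) (nat_lit 0) (nat_lit 0) (nat_lit 0) (nat_lit 0) (nat_lit 0) (nat_lit 1) (nat_lit 0) (nat_lit 1) (nat_lit 0) (nat_lit 372) (nat_lit 396) (nat_lit 312))))))) (XT.nd (nat_lit 846) (nat_lit 0) (nat_lit 0) (XT.nd (nat_lit 376) (nat_lit 0) (nat_lit 0) (XT.nd (nat_lit 188) (nat_lit 0) (nat_lit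 0) (XT.nd (nat_lit 94) (nat_lit 0) (nat_lit 0) (XT.lf (nat_lit 0) (nat_lit 17170418929) (nat_lit 0) (nat_lit 0) (nat_lit 0) (nat_lit 0) (nat_lit 0) (nat_lit 0) (nat_lit 1) (nat_lit 0) (nat_lit 1) (nat_lit 0) (nat_lit 373) (nat_lit 396) (nat_lit 311)) (XT.lf (nat_lit 0) (nat_lit 17168587449) (nat_lit 0) (nat_lit 0) (nat_lit 0) (nat_lit 0) (nat_lit 0) (nat_lit 0) (nat_lit 1) (nat_lit 0) (nat_lit 1) (nat_lit 0) (nat_lit 374) (nat_lit 396) (nat_lit 310))) (XT.nd (nat_lit 94) (nat_lit 0) (nat_lit 0) (XT.lf (nat_lit 0) (nat_lit 17166891635) (nat_lit 0) (nat_lit 0) (nat_lit 0) (nat_lit 0) (nat_lit 0) (nat_lit 0) (nat_lit 1) (nat_lit 0) (nat_lit 1) (nat_lit 0) (nat_lit 375) (nat_lit 396) (nat_lit 309)) (XT.lf (nat_lit 0) (nat_lit 17165321436) (nat_lit 0) (nat_lit 0) (nat_lit 0) (nat_lit 0) (nat_lit 0) (nat_lit 0) (nat_lit 1) (nat_lit 0) (nat_lit 1) (nat_lit 0) (nat_lit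 376) (nat_lit 396) (nat_lit 308)))) (XT.nd (nat_lit 188) (nat_lit 0) (nat_lit 0) (XT.nd (nat_lit 94) (nat_lit 0) (nat_lit 0) (XT.lf (nat_lit 0) (nat_lit 17163867549) (nat_lit 0) (nat_lit 0) (nat_lit 0) (nat_lit 0) (nat_lit 0) (nat_lit 0) (nat_lit 1) (nat_lit 0) (nat_lit 1) (nat_lit 0) (nat_lit 377) (nat_lit 396) (nat_lit 307)) (XT.lf (nat_lit 0) (nat_lit 17162521357) (nat_lit 0) (nat_lit 0) (nat_lit 0) (nat_lit 0) (nat_lit 0) (nat_lit 0) (nat_lit 1) (nat_lit 0) (nat_lit 1) (nat_lit 0) (nat_lit 378) (nat_lit 396) (nat_lit 306))) (XT.nd (nat_lit 94) (nat_lit 0) (nat_lit 0) (XT.lf (nat_lit 0) (nat_lit 17161274882) (nat_lit 0) (nat_lit 0) (nat_lit 0) (nat_lit 0) (nat_lit 0) (nat_lit 0) (nat_lit 1) (nat_lit 0) (nat_lit 1) (nat_lit 0) (nat_lit 379) (nat_lit 396) (nat_lit 305)) (XT.nd (nat_lit 94) (nat_lit 0) (nat_lit 0) (XT.lf (nat_lit 0) (nat_lit 17160120740) (nat_lit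 0) (nat_lit 0) (nat_lit 0) (nat_lit 0) (nat_lit 0) (nat_lit 0) (nat_lit 1) (nat_lit 0) (nat_lit 1) (nat_lit 0) (nat_lit 380) (nat_lit 396) (nat_lit 304)) (XT.lf (nat_lit 0) (nat_lit 17159052089) (nat_lit 0) (nat_lit 0) (nat_lit 0) (nat_lit 0) (nat_lit 0) (nat_lit 0) (nat_lit 1) (nat_lit 0) (nat_lit 1) (nat_lit 0) (nat_lit 381) (nat_lit 396) (nat_lit 303)))))) (XT.nd (nat_lit 470) (nat_lit 0) (nat_lit 0) (XT.nd (nat_lit 188) (nat_lit 0) (nat_lit 0) (XT.nd (nat_lit 94) (nat_lit 0) (nat_lit 0) (XT.lf (nat_lit 0) (nat_lit 17158062597) (nat_lit 0) (nat_lit 0) (nat_lit 0) (nat_lit 0) (nat_lit 0) (nat_lit 0) (nat_lit 1) (nat_lit 0) (nat_lit 1) (nat_lit 0) (nat_lit 382) (nat_lit 396) (nat_lit 302)) (XT.lf (nat_lit 0) (nat_lit 17157146402) (nat_lit 0) (nat_lit 0) (nat_lit 0) (nat_lit 0) (nat_lit 0) (nat_lit 0) (nat_lit 1) (nat_lit 0) (nat_lit 1) (nat_lit 0) (nat_lit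 383) (nat_lit 396) (nat_lit 301))) (XT.nd (nat_lit 94) (nat_lit 0) (nat_lit 0) (XT.lf (nat_lit 0) (nat_lit 17156298072) (nat_lit 0) (nat_lit 0) (nat_lit 0) (nat_lit 0) (nat_lit 0) (nat_lit 0) (nat_lit 1) (nat_lit 0) (nat_lit 1) (nat_lit 0) (nat_lit 384) (nat_lit 396) (nat_lit 300)) (XT.nd (nat_lit 94) (nat_lit 0) (nat_lit 0) (XT.lf (nat_lit 0) (nat_lit 17155512582) (nat_lit 0) (nat_lit 0) (nat_lit 0) (nat_lit 0) (nat_lit 0) (nat_lit 0) (nat_lit 1) (nat_lit 0) (nat_lit 1) (nat_lit 0) (nat_lit 385) (nat_lit 396) (nat_lit 299)) (XT.lf (nat_lit 0) (nat_lit 17154785276) (nat_lit 0) (nat_lit 0) (nat_lit 0) (nat_lit 0) (nat_lit 0) (nat_lit 0) (nat_lit 1) (nat_lit 0) (nat_lit 1) (nat_lit 0) (nat_lit 386) (nat_lit 396) (nat_lit 298))))) (XT.nd (nat_lit 188) (nat_lit 0) (nat_lit 0) (XT.nd (nat_lit 94) (nat_lit 0) (nat_lit 0) (XT.lf (nat_lit 0) (nat_lit 17154111845)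 (nat_lit 0) (nat_lit 0) (nat_lit 0) (nat_lit 0) (nat_lit 0) (nat_lit 0) (nat_lit 1) (nat_lit 0) (nat_lit 1) (nat_lit 0) (nat_lit 387) (nat_lit 396) (nat_lit 297)) (XT.lf (nat_lit 0) (nat_lit 17153488298) (nat_lit 0) (nat_lit 0) (nat_lit 0) (nat_lit 0) (nat_lit 0) (nat_lit 0) (nat_lit 1) (nat_lit 0) (nat_lit 1) (nat_lit 0) (nat_lit 388) (nat_lit 396) (nat_lit 296))) (XT.nd (nat_lit 94) (nat_lit 0) (nat_lit 0) (XT.lf (nat_lit 0) (nat_lit 17152910939) (nat_lit 0) (nat_lit 0) (nat_lit 0) (nat_lit 0) (nat_lit 0) (nat_lit 0) (nat_lit 1) (nat_lit 0) (nat_lit 1) (nat_lit 0) (nat_lit 389) (nat_lit 396) (nat_lit 295)) (XT.nd (nat_lit 94) (nat_lit 0) (nat_lit 0) (XT.lf (nat_lit 0) (nat_lit 17152376347) (nat_lit 0) (nat_lit 0) (nat_lit 0) (nat_lit 0) (nat_lit 0) (nat_lit 0) (nat_lit 1) (nat_lit 0) (nat_lit 1) (nat_lit 0) (nat_lit 390) (nat_lit 396) (nat_lit 294)) (XT.lf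 (nat_lit 0) (nat_lit 17151881355) (nat_lit 0) (nat_lit 0) (nat_lit 0) (nat_lit 0) (nat_lit 0) (nat_lit 0) (nat_lit 1) (nat_lit 0) (nat_lit 1) (nat_lit 0) (nat_lit 391) (nat_lit 396) (nat_lit 293))))))))
noncomputable def ec136 : XT := (XT.nd (nat_lit 1692) (nat_lit 0) (nat_lit 0) (XT.nd (nat_lit 846) (nat_lit 0) (nat_lit 0) (XT.nd (nat_lit 376) (nat_lit 0) (nat_lit 0) (XT.nd (nat_lit 188) (nat_lit 0) (nat_lit 0) (XT.nd (nat_lit 94) (nat_lit 0) (nat_lit 0) (XT.lf (nat_lit 0) (nat_lit 17151423029) (nat_lit 0) (nat_lit 0) (nat_lit 0) (nat_lit 0) (nat_lit 0) (nat_lit 0) (nat_lit 1) (nat_lit 0) (nat_lit 1) (nat_lit 0) (nat_lit 392) (nat_lit 396) (nat_lit 292)) (XT.lf (nat_lit 0) (nat_lit 17150998653) (nat_lit 0) (nat_lit 0) (nat_lit 0) (nat_lit 0) (nat_lit 0) (nat_lit 0) (nat_lit 1) (nat_lit 0) (nat_lit 1) (nat_lit 0) (nat_lit 393) (nat_lit 396) (nat_lit 291)))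 (XT.nd (nat_lit 94) (nat_lit 0) (nat_lit 0) (XT.lf (nat_lit 0) (nat_lit 17150605713) (nat_lit 0) (nat_lit 0) (nat_lit 0) (nat_lit 0) (nat_lit 0) (nat_lit 0) (nat_lit 1) (nat_lit 0) (nat_lit 1) (nat_lit 0) (nat_lit 394) (nat_lit 396) (nat_lit 290)) (XT.lf (nat_lit 0) (nat_lit 17150241879) (nat_lit 0) (nat_lit 0) (nat_lit 0) (nat_lit 0) (nat_lit 0) (nat_lit 0) (nat_lit 1) (nat_lit 0) (nat_lit 1) (nat_lit 0) (nat_lit 395) (nat_lit 396) (nat_lit 289)))) (XT.nd (nat_lit 188) (nat_lit 0) (nat_lit 0) (XT.nd (nat_lit 94) (nat_lit 0) (nat_lit 0) (XT.lf (nat_lit 0) (nat_lit 17149904996) (nat_lit 0) (nat_lit 0) (nat_lit 0) (nat_lit 0) (nat_lit 0) (nat_lit 0) (nat_lit 1) (nat_lit 0) (nat_lit 1) (nat_lit 0) (nat_lit 396) (nat_lit 396) (nat_lit 288)) (XT.lf (nat_lit 0) (nat_lit 17149593067) (nat_lit 0) (nat_lit 0) (nat_lit 0) (nat_lit 0) (nat_lit 0) (nat_lit 0) (nat_lit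 1) (nat_lit 0) (nat_lit 1) (nat_lit 0) (nat_lit 397) (nat_lit 396) (nat_lit 287))) (XT.nd (nat_lit 94) (nat_lit 0) (nat_lit 0) (XT.lf (nat_lit 0) (nat_lit 17149304243) (nat_lit 0) (nat_lit 0) (nat_lit 0) (nat_lit 0) (nat_lit 0) (nat_lit 0) (nat_lit 1) (nat_lit 0) (nat_lit 1) (nat_lit 0) (nat_lit 398) (nat_lit 396) (nat_lit 286)) (XT.nd (nat_lit 94) (nat_lit 0) (nat_lit 0) (XT.lf (nat_lit 0) (nat_lit 17149036815) (nat_lit 0) (nat_lit 0) (nat_lit 0) (nat_lit 0) (nat_lit 0) (nat_lit 0) (nat_lit 1) (nat_lit 0) (nat_lit 1) (nat_lit 0) (nat_lit 399) (nat_lit 396) (nat_lit 285)) (XT.lf (nat_lit 0) (nat_lit 17148789195) (nat_lit 0) (nat_lit 0) (nat_lit 0) (nat_lit 0) (nat_lit 0) (nat_lit 0) (nat_lit 1) (nat_lit 0) (nat_lit 1) (nat_lit 0) (nat_lit 400) (nat_lit 396) (nat_lit 284)))))) (XT.nd (nat_lit 376) (nat_lit 0) (nat_lit 0) (XT.nd (nat_lit 188) (nat_lit 0) (nat_lit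 0) (XT.nd (nat_lit 94) (nat_lit 0) (nat_lit 0) (XT.lf (nat_lit 0) (nat_lit 17148559918) (nat_lit 0) (nat_lit 0) (nat_lit 0) (nat_lit 0) (nat_lit 0) (nat_lit 0) (nat_lit 1) (nat_lit 0) (nat_lit 1) (nat_lit 0) (nat_lit 401) (nat_lit 396) (nat_lit 283)) (XT.lf (nat_lit 0) (nat_lit 17148347625) (nat_lit 0) (nat_lit 0) (nat_lit 0) (nat_lit 0) (nat_lit 0) (nat_lit 0) (nat_lit 1) (nat_lit 0) (nat_lit 1) (nat_lit 0) (nat_lit 402) (nat_lit 396) (nat_lit 282))) (XT.nd (nat_lit 94) (nat_lit 0) (nat_lit 0) (XT.lf (nat_lit 0) (nat_lit 17148151056) (nat_lit 0) (nat_lit 0) (nat_lit 0) (nat_lit 0) (nat_lit 0) (nat_lit 0) (nat_lit 1) (nat_lit 0) (nat_lit 1) (nat_lit 0) (nat_lit 403) (nat_lit 396) (nat_lit 281)) (XT.lf (nat_lit 0) (nat_lit 17147969049) (nat_lit 0) (nat_lit 0) (nat_lit 0) (nat_lit 0) (nat_lit 0) (nat_lit 0) (nat_lit 1) (nat_lit 0) (nat_lit 1) (nat_lit 0) (nat_lit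 404) (nat_lit 396) (nat_lit 280)))) (XT.nd (nat_lit 188) (nat_lit 0) (nat_lit 0) (XT.nd (nat_lit 94) (nat_lit 0) (nat_lit 0) (XT.lf (nat_lit 0) (nat_lit 17147800523) (nat_lit 0) (nat_lit 0) (nat_lit 0) (nat_lit 0) (nat_lit 0) (nat_lit 0) (nat_lit 1) (nat_lit 0) (nat_lit 1) (nat_lit 0) (nat_lit 405) (nat_lit 396) (nat_lit 279)) (XT.lf (nat_lit 0) (nat_lit 17147644481) (nat_lit 0) (nat_lit 0) (nat_lit 0) (nat_lit 0) (nat_lit 0) (nat_lit 0) (nat_lit 1) (nat_lit 0) (nat_lit 1) (nat_lit 0) (nat_lit 406) (nat_lit 396) (nat_lit 278))) (XT.nd (nat_lit 94) (nat_lit 0) (nat_lit 0) (XT.lf (nat_lit 0) (nat_lit 17147499998) (nat_lit 0) (nat_lit 0) (nat_lit 0) (nat_lit 0) (nat_lit 0) (nat_lit 0) (nat_lit 1) (nat_lit 0) (nat_lit 1) (nat_lit 0) (nat_lit 407) (nat_lit 396) (nat_lit 277)) (XT.nd (nat_lit 94) (nat_lit 0) (nat_lit 0) (XT.lf (nat_lit 0) (nat_lit 17147366217) (nat_lit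 0) (nat_lit 0) (nat_lit 0) (nat_lit 0) (nat_lit 0) (nat_lit 0) (nat_lit 1) (nat_lit 0) (nat_lit 1) (nat_lit 0) (nat_lit 408) (nat_lit 396) (nat_lit 276)) (XT.lf (nat_lit 0) (nat_lit 17147242346) (nat_lit 0) (nat_lit 0) (nat_lit 0) (nat_lit 0) (nat_lit 0) (nat_lit 0) (nat_lit 1) (nat_lit 0) (nat_lit 1) (nat_lit 0) (nat_lit 409) (nat_lit 396) (nat_lit 275))))))) (XT.nd (nat_lit 846) (nat_lit 0) (nat_lit 0) (XT.nd (nat_lit 376) (nat_lit 0) (nat_lit 0) (XT.nd (nat_lit 188) (nat_lit 0) (nat_lit 0) (XT.nd (nat_lit 94) (nat_lit 0) (nat_lit 0) (XT.lf (nat_lit 0) (nat_lit 17147127650) (nat_lit 0) (nat_lit 0) (nat_lit 0) (nat_lit 0) (nat_lit 0) (nat_lit 0) (nat_lit 1) (nat_lit 0) (nat_lit 1) (nat_lit 0) (nat_lit 410) (nat_lit 396) (nat_lit 274)) (XT.lf (nat_lit 0) (nat_lit 17147021450) (nat_lit 0) (nat_lit 0) (nat_lit 0) (nat_lit 0) (nat_lit 0) (nat_lit 0) (nat_lit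 1) (nat_lit 0) (nat_lit 1) (nat_lit 0) (nat_lit 411) (nat_lit 396) (nat_lit 273))) (XT.nd (nat_lit 94) (nat_lit 0) (nat_lit 0) (XT.lf (nat_lit 0) (nat_lit 17146923117) (nat_lit 0) (nat_lit 0) (nat_lit 0) (nat_lit 0) (nat_lit 0) (nat_lit 0) (nat_lit 1) (nat_lit 0) (nat_lit 1) (nat_lit 0) (nat_lit 412) (nat_lit 396) (nat_lit 272)) (XT.lf (nat_lit 0) (nat_lit 17146832068) (nat_lit 0) (nat_lit 0) (nat_lit 0) (nat_lit 0) (nat_lit 0) (nat_lit 0) (nat_lit 1) (nat_lit 0) (nat_lit 1) (nat_lit 0) (nat_lit 413) (nat_lit 396) (nat_lit 271)))) (XT.nd (nat_lit 188) (nat_lit 0) (nat_lit 0) (XT.nd (nat_lit 94) (nat_lit 0) (nat_lit 0) (XT.lf (nat_lit 0) (nat_lit 17146747763) (nat_lit 0) (nat_lit 0) (nat_lit 0) (nat_lit 0) (nat_lit 0) (nat_lit 0) (nat_lit 1) (nat_lit 0) (nat_lit 1) (nat_lit 0) (nat_lit 414) (nat_lit 396) (nat_lit 270)) (XT.lf (nat_lit 0) (nat_lit 17146669703)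 (nat_lit 0) (nat_lit 0) (nat_lit 0) (nat_lit 0) (nat_lit 0) (nat_lit 0) (nat_lit 1) (nat_lit 0) (nat_lit 1) (nat_lit 0) (nat_lit 415) (nat_lit 396) (nat_lit 269))) (XT.nd (nat_lit 94) (nat_lit 0) (nat_lit 0) (XT.lf (nat_lit 0) (nat_lit 17146597426) (nat_lit 0) (nat_lit 0) (nat_lit 0) (nat_lit 0) (nat_lit 0) (nat_lit 0) (nat_lit 1) (nat_lit 0) (nat_lit 1) (nat_lit 0) (nat_lit 416) (nat_lit 396) (nat_lit 268)) (XT.nd (nat_lit 94) (nat_lit 0) (nat_lit 0) (XT.lf (nat_lit 0) (nat_lit 17146530502) (nat_lit 0) (nat_lit 0) (nat_lit 0) (nat_lit 0) (nat_lit 0) (nat_lit 0) (nat_lit 1) (nat_lit 0) (nat_lit 1) (nat_lit 0) (nat_lit 417) (nat_lit 396) (nat_lit 267)) (XT.lf (nat_lit 0) (nat_lit 17146468535) (nat_lit 0) (nat_lit 0) (nat_lit 0) (nat_lit 0) (nat_lit 0) (nat_lit 0) (nat_lit 1) (nat_lit 0) (nat_lit 1) (nat_lit 0) (nat_lit 418) (nat_lit 396) (nat_lit 266))))))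 (XT.nd (nat_lit 470) (nat_lit 0) (nat_lit 0) (XT.nd (nat_lit 188) (nat_lit 0) (nat_lit 0) (XT.nd (nat_lit 94) (nat_lit 0) (nat_lit 0) (XT.lf (nat_lit 0) (nat_lit 17146411159) (nat_lit 0) (nat_lit 0) (nat_lit 0) (nat_lit 0) (nat_lit 0) (nat_lit 0) (nat_lit 1) (nat_lit 0) (nat_lit 1) (nat_lit 0) (nat_lit 419) (nat_lit 396) (nat_lit 265)) (XT.lf (nat_lit 0) (nat_lit 17146358033) (nat_lit 0) (nat_lit 0) (nat_lit 0) (nat_lit 0) (nat_lit 0) (nat_lit 0) (nat_lit 1) (nat_lit 0) (nat_lit 1) (nat_lit 0) (nat_lit 420) (nat_lit 396) (nat_lit 264))) (XT.nd (nat_lit 94) (nat_lit 0) (nat_lit 0) (XT.lf (nat_lit 0) (nat_lit 17146308842) (nat_lit 0) (nat_lit 0) (nat_lit 0) (nat_lit 0) (nat_lit 0) (nat_lit 0) (nat_lit 1) (nat_lit 0) (nat_lit 1) (nat_lit 0) (nat_lit 421) (nat_lit 396) (nat_lit 263)) (XT.nd (nat_lit 94) (nat_lit 0) (nat_lit 0) (XT.lf (nat_lit 0) (nat_lit 17146263295)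 (nat_lit 0) (nat_lit 0) (nat_lit 0) (nat_lit 0) (nat_lit 0) (nat_lit 0) (nat_lit 1) (nat_lit 0) (nat_lit 1) (nat_lit 0) (nat_lit 422) (nat_lit 396) (nat_lit 262)) (XT.lf (nat_lit 0) (nat_lit 17146221121) (nat_lit 0) (nat_lit 0) (nat_lit 0) (nat_lit 0) (nat_lit 0) (nat_lit 0) (nat_lit 1) (nat_lit 0) (nat_lit 1) (nat_lit 0) (nat_lit 423) (nat_lit 396) (nat_lit 261))))) (XT.nd (nat_lit 188) (nat_lit 0) (nat_lit 0) (XT.nd (nat_lit 94) (nat_lit 0) (nat_lit 0) (XT.lf (nat_lit 0) (nat_lit 17146182072) (nat_lit 0) (nat_lit 0) (nat_lit 0) (nat_lit 0) (nat_lit 0) (nat_lit 0) (nat_lit 1) (nat_lit 0) (nat_lit 1) (nat_lit 0) (nat_lit 424) (nat_lit 396) (nat_lit 260)) (XT.lf (nat_lit 0) (nat_lit 17146145915) (nat_lit 0) (nat_lit 0) (nat_lit 0) (nat_lit 0) (nat_lit 0) (nat_lit 0) (nat_lit 1) (nat_lit 0) (nat_lit 1) (nat_lit 0) (nat_lit 425) (nat_lit 396) (nat_lit 259)))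 (XT.nd (nat_lit 94) (nat_lit 0) (nat_lit 0) (XT.lf (nat_lit 0) (nat_lit 17146112436) (nat_lit 0) (nat_lit 0) (nat_lit 0) (nat_lit 0) (nat_lit 0) (nat_lit 0) (nat_lit 1) (nat_lit 0) (nat_lit 1) (nat_lit 0) (nat_lit 426) (nat_lit 396) (nat_lit 258)) (XT.nd (nat_lit 94) (nat_lit 0) (nat_lit 0) (XT.lf (nat_lit 0) (nat_lit 17146081438) (nat_lit 0) (nat_lit 0) (nat_lit 0) (nat_lit 0) (nat_lit 0) (nat_lit 0) (nat_lit 1) (nat_lit 0) (nat_lit 1) (nat_lit 0) (nat_lit 427) (nat_lit 396) (nat_lit 257)) (XT.lf (nat_lit 0) (nat_lit 17146052735) (nat_lit 0) (nat_lit 0) (nat_lit 0) (nat_lit 0) (nat_lit 0) (nat_lit 0) (nat_lit 1) (nat_lit 0) (nat_lit 1) (nat_lit 0) (nat_lit 428) (nat_lit 396) (nat_lit 256))))))))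
noncomputable def ec137 : XT := (XT.nd (nat_lit 55084) (nat_lit 0) (nat_lit 4620) (XT.nd (nat_lit 846) (nat_lit 0) (nat_lit 0) (XT.nd (nat_lit 376) (nat_lit 0) (nat_lit 0) (XT.nd (nat_lit 188) (nat_lit 0) (nat_lit 0) (XT.nd (nat_lit 94) (nat_lit 0) (nat_lit 0) (XT.lf (nat_lit 0) (nat_lit 17146026159) (nat_lit 0) (nat_lit 0) (nat_lit 0) (nat_lit 0) (nat_lit 0) (nat_lit 0) (nat_lit 1) (nat_lit 0) (nat_lit 1) (nat_lit 0) (nat_lit 429) (nat_lit 396) (nat_lit 255)) (XT.lf (nat_lit 0) (nat_lit 17146001551) (nat_lit 0) (nat_lit 0) (nat_lit 0) (nat_lit 0) (nat_lit 0) (nat_lit 0) (nat_lit 1) (nat_lit 0) (nat_lit 1) (nat_lit 0) (nat_lit 430) (nat_lit 396) (nat_lit 254))) (XT.nd (nat_lit 94) (nat_lit 0) (nat_lit 0) (XT.lf (nat_lit 0) (nat_lit 17145978766) (nat_lit 0) (nat_lit 0) (nat_lit 0) (nat_lit 0) (nat_lit 0) (nat_lit 0) (nat_lit 1) (nat_lit 0) (nat_lit 1) (nat_lit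 0) (nat_lit 431) (nat_lit 396) (nat_lit 253)) (XT.lf (nat_lit 0) (nat_lit 17145957669) (nat_lit 0) (nat_lit 0) (nat_lit 0) (nat_lit 0) (nat_lit 0) (nat_lit 0) (nat_lit 1) (nat_lit 0) (nat_lit 1) (nat_lit 0) (nat_lit 432) (nat_lit 396) (nat_lit 252)))) (XT.nd (nat_lit 188) (nat_lit 0) (nat_lit 0) (XT.nd (nat_lit 94) (nat_lit 0) (nat_lit 0) (XT.lf (nat_lit 0) (nat_lit 17145938135) (nat_lit 0) (nat_lit 0) (nat_lit 0) (nat_lit 0) (nat_lit 0) (nat_lit 0) (nat_lit 1) (nat_lit 0) (nat_lit 1) (nat_lit 0) (nat_lit 433) (nat_lit 396) (nat_lit 251)) (XT.lf (nat_lit 0) (nat_lit 17145920047) (nat_lit 0) (nat_lit 0) (nat_lit 0) (nat_lit 0) (nat_lit 0) (nat_lit 0) (nat_lit 1) (nat_lit 0) (nat_lit 1) (nat_lit 0) (nat_lit 434) (nat_lit 396) (nat_lit 250))) (XT.nd (nat_lit 94) (nat_lit 0) (nat_lit 0) (XT.lf (nat_lit 0) (nat_lit 17145903300) (nat_lit 0) (nat_lit 0) (nat_lit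 0) (nat_lit 0) (nat_lit 0) (nat_lit 0) (nat_lit 1) (nat_lit 0) (nat_lit 1) (nat_lit 0) (nat_lit 435) (nat_lit 396) (nat_lit 249)) (XT.nd (nat_lit 94) (nat_lit 0) (nat_lit 0) (XT.lf (nat_lit 0) (nat_lit 17145887793) (nat_lit 0) (nat_lit 0) (nat_lit 0) (nat_lit 0) (nat_lit 0) (nat_lit 0) (nat_lit 1) (nat_lit 0) (nat_lit 1) (nat_lit 0) (nat_lit 436) (nat_lit 396) (nat_lit 248)) (XT.lf (nat_lit 0) (nat_lit 17145873434) (nat_lit 0) (nat_lit 0) (nat_lit 0) (nat_lit 0) (nat_lit 0) (nat_lit 0) (nat_lit 1) (nat_lit 0) (nat_lit 1) (nat_lit 0) (nat_lit 437) (nat_lit 396) (nat_lit 247)))))) (XT.nd (nat_lit 53768) (nat_lit 0) (nat_lit 10332) (XT.nd (nat_lit 53486) (nat_lit 0) (nat_lit 10752) (XT.nd (nat_lit 94) (nat_lit 0) (nat_lit 0) (XT.lf (nat_lit 0) (nat_lit 17145860139) (nat_lit 0) (nat_lit 0) (nat_lit 0) (nat_lit 0) (nat_lit 0) (nat_lit 0) (nat_lit 1) (nat_lit 0)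 (nat_lit 1) (nat_lit 0) (nat_lit 438) (nat_lit 396) (nat_lit 246)) (XT.lf (nat_lit 0) (nat_lit 17145847829) (nat_lit 0) (nat_lit 0) (nat_lit 0) (nat_lit 0) (nat_lit 0) (nat_lit 0) (nat_lit 1) (nat_lit 0) (nat_lit 1) (nat_lit 0) (nat_lit 439) (nat_lit 396) (nat_lit 245))) (XT.nd (nat_lit 94) (nat_lit 0) (nat_lit 84) (XT.lf (nat_lit 924) (nat_lit 9266775290) (nat_lit 0) (nat_lit 16453138228) (nat_lit 924) (nat_lit 9266775290) (nat_lit 139) (nat_lit 1) (nat_lit 128) (nat_lit 0) (nat_lit 139) (nat_lit 0) (nat_lit 286) (nat_lit 397) (nat_lit 397)) (XT.nd (nat_lit 94) (nat_lit 0) (nat_lit 0) (XT.lf (nat_lit 924) (nat_lit 3456791526) (nat_lit 0) (nat_lit 32302496898) (nat_lit 840) (nat_lit 31591734046) (nat_lit 140) (nat_lit 1) (nat_lit 129) (nat_lit 1) (nat_lit 139) (nat_lit 1) (nat_lit 287) (nat_lit 397) (nat_lit 396)) (XT.lf (nat_lit 924) (nat_lit 31748634882)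 (nat_lit 84) (nat_lit 21632993061) (nat_lit 0) (nat_lit 11473152706) (nat_lit 140) (nat_lit 1) (nat_lit 130) (nat_lit 1) (nat_lit 129) (nat_lit 1) (nat_lit 288) (nat_lit 397) (nat_lit 395))))) (XT.nd (nat_lit 188) (nat_lit 588) (nat_lit 0) (XT.nd (nat_lit 94) (nat_lit 0) (nat_lit 84) (XT.lf (nat_lit 924) (nat_lit 27433421423) (nat_lit 84) (nat_lit 9066237446) (nat_lit 0) (nat_lit 25983798231) (nat_lit 141) (nat_lit 1) (nat_lit 131) (nat_lit 1) (nat_lit 130) (nat_lit 1) (nat_lit 289) (nat_lit 397) (nat_lit 394)) (XT.lf (nat_lit 924) (nat_lit 20303064162) (nat_lit 0) (nat_lit 37986073363) (nat_lit 840) (nat_lit 1941842643) (nat_lit 142) (nat_lit 1) (nat_lit 131) (nat_lit 1) (nat_lit 141) (nat_lit 1) (nat_lit 290) (nat_lit 397) (nat_lit 393))) (XT.nd (nat_lit 94) (nat_lit 756) (nat_lit 0) (XT.lf (nat_lit 924) (nat_lit 4871521179) (nat_lit 0) (nat_lit 41890198823)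 (nat_lit 840) (nat_lit 11324354772) (nat_lit 143) (nat_lit 1) (nat_lit 132) (nat_lit 1) (nat_lit 142) (nat_lit 1) (nat_lit 291) (nat_lit 397) (nat_lit 392)) (XT.nd (nat_lit 94) (nat_lit 756) (nat_lit 0) (XT.lf (nat_lit 924) (nat_lit 9361082291) (nat_lit 84) (nat_lit 36405994042) (nat_lit 0) (nat_lit 10274220683) (nat_lit 143) (nat_lit 1) (nat_lit 133) (nat_lit 1) (nat_lit 132) (nat_lit 1) (nat_lit 292) (nat_lit 397) (nat_lit 391)) (XT.lf (nat_lit 924) (nat_lit 1922552841) (nat_lit 0) (nat_lit 27215888710) (nat_lit 840) (nat_lit 24956684784) (nat_lit 134) (nat_lit 1) (nat_lit 123) (nat_lit 1) (nat_lit 133) (nat_lit 1) (nat_lit 293) (nat_lit 397) (nat_lit 390))))))) (XT.nd (nat_lit 846) (nat_lit 2604) (nat_lit 0) (XT.nd (nat_lit 376) (nat_lit 1344) (nat_lit 0) (XT.nd (nat_lit 188) (nat_lit 756) (nat_lit 0) (XT.nd (nat_lit 94) (nat_lit 420) (nat_lit 0) (XT.lf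 (nat_lit 84) (nat_lit 13312156357) (nat_lit 0) (nat_lit 5768776847) (nat_lit 588) (nat_lit 33160171752) (nat_lit 117) (nat_lit 1) (nat_lit 116) (nat_lit 1) (nat_lit 123) (nat_lit 1) (nat_lit 294) (nat_lit 397) (nat_lit 389)) (XT.lf (nat_lit 504) (nat_lit 36686627363) (nat_lit 0) (nat_lit 11942288106) (nat_lit 420) (nat_lit 1846351531) (nat_lit 117) (nat_lit 1) (nat_lit 111) (nat_lit 1) (nat_lit 116) (nat_lit 1) (nat_lit 295) (nat_lit 397) (nat_lit 388))) (XT.nd (nat_lit 94) (nat_lit 336) (nat_lit 0) (XT.lf (nat_lit 504) (nat_lit 26473419662) (nat_lit 0) (nat_lit 5566351929) (nat_lit 420) (nat_lit 16745585328) (nat_lit 112) (nat_lit 1) (nat_lit 106) (nat_lit 1) (nat_lit 111) (nat_lit 1) (nat_lit 296) (nat_lit 397) (nat_lit 387)) (XT.lf (nat_lit 420) (nat_lit 16108738224) (nat_lit 0) (nat_lit 102485584) (nat_lit 336) (nat_lit 30966163096) (nat_lit 107) (nat_lit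 1) (nat_lit 102) (nat_lit 1) (nat_lit 106) (nat_lit 1) (nat_lit 297) (nat_lit 397) (nat_lit 386)))) (XT.nd (nat_lit 188) (nat_lit 924) (nat_lit 0) (XT.nd (nat_lit 94) (nat_lit 420) (nat_lit 0) (XT.lf (nat_lit 84) (nat_lit 1188426576) (nat_lit 0) (nat_lit 40079502778) (nat_lit 420) (nat_lit 4375457025) (nat_lit 103) (nat_lit 1) (nat_lit 102) (nat_lit 1) (nat_lit 107) (nat_lit 1) (nat_lit 298) (nat_lit 397) (nat_lit 385)) (XT.lf (nat_lit 84) (nat_lit 30685482446) (nat_lit 0) (nat_lit 5089515596) (nat_lit 420) (nat_lit 8393535544) (nat_lit 98) (nat_lit 1) (nat_lit 97) (nat_lit 1) (nat_lit 102) (nat_lit 1) (nat_lit 299) (nat_lit 397) (nat_lit 384))) (XT.nd (nat_lit 94) (nat_lit 588) (nat_lit 0) (XT.lf (nat_lit 84) (nat_lit 15352724458) (nat_lit 0) (nat_lit 15590089743) (nat_lit 420) (nat_lit 11816033108) (nat_lit 94) (nat_lit 1) (nat_lit 93) (nat_lit 1) (nat_lit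 98) (nat_lit 1) (nat_lit 300) (nat_lit 397) (nat_lit 383)) (XT.nd (nat_lit 94) (nat_lit 252) (nat_lit 0) (XT.lf (nat_lit 84) (nat_lit 757776435) (nat_lit 0) (nat_lit 26066387971) (nat_lit 420) (nat_lit 14591740612) (nat_lit 90) (nat_lit 1) (nat_lit 89) (nat_lit 1) (nat_lit 94) (nat_lit 1) (nat_lit 301) (nat_lit 397) (nat_lit 382)) (XT.lf (nat_lit 336) (nat_lit 3422075673) (nat_lit 0) (nat_lit 23141859735) (nat_lit 252) (nat_lit 13561661662) (nat_lit 90) (nat_lit 1) (nat_lit 86) (nat_lit 1) (nat_lit 89) (nat_lit 1) (nat_lit 302) (nat_lit 397) (nat_lit 381)))))) (XT.nd (nat_lit 470) (nat_lit 1092) (nat_lit 0) (XT.nd (nat_lit 188) (nat_lit 840) (nat_lit 0) (XT.nd (nat_lit 94) (nat_lit 252) (nat_lit 0) (XT.lf (nat_lit 84) (nat_lit 11824191509) (nat_lit 0) (nat_lit 8104374332) (nat_lit 420) (nat_lit 18960028240) (nat_lit 82) (nat_lit 1) (nat_lit 81) (nat_lit 1)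 (nat_lit 86) (nat_lit 1) (nat_lit 303) (nat_lit 397) (nat_lit 380)) (XT.lf (nat_lit 336) (nat_lit 18306692543) (nat_lit 0) (nat_lit 17196771559) (nat_lit 252) (nat_lit 2201166350) (nat_lit 82) (nat_lit 1) (nat_lit 78) (nat_lit 1) (nat_lit 81) (nat_lit 1) (nat_lit 304) (nat_lit 397) (nat_lit 379))) (XT.nd (nat_lit 94) (nat_lit 588) (nat_lit 0) (XT.lf (nat_lit 336) (nat_lit 5867206519) (nat_lit 0) (nat_lit 14805716112) (nat_lit 252) (nat_lit 15893244244) (nat_lit 79) (nat_lit 1) (nat_lit 75) (nat_lit 1) (nat_lit 78) (nat_lit 1) (nat_lit 305) (nat_lit 397) (nat_lit 378)) (XT.nd (nat_lit 94) (nat_lit 252) (nat_lit 0) (XT.lf (nat_lit 84) (nat_lit 6687197725) (nat_lit 0) (nat_lit 6122710648) (nat_lit 336) (nat_lit 22665077461) (nat_lit 72) (nat_lit 1) (nat_lit 71) (nat_lit 1) (nat_lit 75) (nat_lit 1) (nat_lit 306) (nat_lit 397) (nat_lit 377)) (XT.lf (nat_lit 336)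 (nat_lit 16640213848) (nat_lit 0) (nat_lit 11071781656) (nat_lit 252) (nat_lit 6711750442) (nat_lit 72) (nat_lit 1) (nat_lit 68) (nat_lit 1) (nat_lit 71) (nat_lit 1) (nat_lit 307) (nat_lit 397) (nat_lit 376))))) (XT.nd (nat_lit 188) (nat_lit 588) (nat_lit 0) (XT.nd (nat_lit 94) (nat_lit 336) (nat_lit 0) (XT.lf (nat_lit 252) (nat_lit 4125133583) (nat_lit 0) (nat_lit 9659321916) (nat_lit 168) (nat_lit 19630460507) (nat_lit 69) (nat_lit 1) (nat_lit 66) (nat_lit 1) (nat_lit 68) (nat_lit 1) (nat_lit 308) (nat_lit 397) (nat_lit 375)) (XT.lf (nat_lit 84) (nat_lit 698823983) (nat_lit 0) (nat_lit 7819992083) (nat_lit 336) (nat_lit 23926374907) (nat_lit 63) (nat_lit 1) (nat_lit 62) (nat_lit 1) (nat_lit 66) (nat_lit 1) (nat_lit 309) (nat_lit 397) (nat_lit 374))) (XT.nd (nat_lit 94) (nat_lit 420) (nat_lit 0) (XT.lf (nat_lit 252) (nat_lit 11986881284) (nat_lit 0) (nat_lit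 7490772450) (nat_lit 168) (nat_lit 12028595752) (nat_lit 63) (nat_lit 1) (nat_lit 60) (nat_lit 1) (nat_lit 62) (nat_lit 1) (nat_lit 310) (nat_lit 397) (nat_lit 373)) (XT.nd (nat_lit 94) (nat_lit 168) (nat_lit 0) (XT.lf (nat_lit 84) (nat_lit 6503580850) (nat_lit 0) (nat_lit 300404476) (nat_lit 252) (nat_lit 23804294843) (nat_lit 58) (nat_lit 1) (nat_lit 57) (nat_lit 1) (nat_lit 60) (nat_lit 1) (nat_lit 311) (nat_lit 397) (nat_lit 372)) (XT.lf (nat_lit 252) (nat_lit 17779534173) (nat_lit 0) (nat_lit 6161007241) (nat_lit 168) (nat_lit 5795890727) (nat_lit 58) (nat_lit 1) (nat_lit 55) (nat_lit 1) (nat_lit 57) (nat_lit 1) (nat_lit 312) (nat_lit 397) (nat_lit 371))))))))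
noncomputable def ec138 : XT := (XT.nd (nat_lit 1692) (nat_lit 1764) (nat_lit 0) (XT.nd (nat_lit 846) (nat_lit 1260) (nat_lit 0) (XT.nd (nat_lit 376) (nat_lit 840) (nat_lit 0) (XT.nd (nat_lit 188) (nat_lit 336) (nat_lit 0) (XT.nd (nat_lit 94) (nat_lit 252) (nat_lit 0) (XT.lf (nat_lit 252) (nat_lit 5523035789) (nat_lit 0) (nat_lit 5727337525) (nat_lit 168) (nat_lit 17647545364) (nat_lit 56) (nat_lit 1) (nat_lit 53) (nat_lit 1) (nat_lit 55) (nat_lit 1) (nat_lit 313) (nat_lit 397) (nat_lit 370)) (XT.lf (nat_lit 252) (nat_lit 21924422313) (nat_lit 0) (nat_lit 5472006146) (nat_lit 168) (nat_lit 694187464) (nat_lit 53) (nat_lit 1) (nat_lit 50) (nat_lit 1) (nat_lit 52) (nat_lit 1) (nat_lit 314) (nat_lit 397) (nat_lit 369))) (XT.nd (nat_lit 94) (nat_lit 168) (nat_lit 0) (XT.lf (nat_lit 252) (nat_lit 9812355316) (nat_lit 0) (nat_lit 5223921000) (nat_lit 168) (nat_lit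 12269469244) (nat_lit 51) (nat_lit 1) (nat_lit 48) (nat_lit 1) (nat_lit 50) (nat_lit 1) (nat_lit 315) (nat_lit 397) (nat_lit 368)) (XT.lf (nat_lit 84) (nat_lit 3361110540) (nat_lit 0) (nat_lit 1847417809) (nat_lit 168) (nat_lit 21344901244) (nat_lit 47) (nat_lit 1) (nat_lit 46) (nat_lit 1) (nat_lit 48) (nat_lit 1) (nat_lit 316) (nat_lit 397) (nat_lit 367)))) (XT.nd (nat_lit 188) (nat_lit 588) (nat_lit 0) (XT.nd (nat_lit 94) (nat_lit 84) (nat_lit 0) (XT.lf (nat_lit 252) (nat_lit 12874374490) (nat_lit 0) (nat_lit 5153375831) (nat_lit 168) (nat_lit 7792347282) (nat_lit 47) (nat_lit 1) (nat_lit 44) (nat_lit 1) (nat_lit 46) (nat_lit 1) (nat_lit 317) (nat_lit 397) (nat_lit 366)) (XT.lf (nat_lit 168) (nat_lit 1386387190) (nat_lit 0) (nat_lit 5279949401) (nat_lit 84) (nat_lit 18449380027) (nat_lit 45) (nat_lit 1) (nat_lit 43) (nat_lit 1) (nat_lit 44) (nat_lit 1) (nat_lit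 318) (nat_lit 397) (nat_lit 365))) (XT.nd (nat_lit 94) (nat_lit 336) (nat_lit 0) (XT.lf (nat_lit 252) (nat_lit 14965537868) (nat_lit 0) (nat_lit 5399979265) (nat_lit 168) (nat_lit 4065240457) (nat_lit 43) (nat_lit 1) (nat_lit 40) (nat_lit 1) (nat_lit 42) (nat_lit 1) (nat_lit 319) (nat_lit 397) (nat_lit 364)) (XT.nd (nat_lit 94) (nat_lit 252) (nat_lit 0) (XT.lf (nat_lit 168) (nat_lit 3763943129) (nat_lit 0) (nat_lit 5601889931) (nat_lit 84) (nat_lit 14403049998) (nat_lit 41) (nat_lit 1) (nat_lit 39) (nat_lit 1) (nat_lit 40) (nat_lit 1) (nat_lit 320) (nat_lit 397) (nat_lit 363)) (XT.lf (nat_lit 252) (nat_lit 16293184151) (nat_lit 0) (nat_lit 5872070740) (nat_lit 168) (nat_lit 963657076) (nat_lit 39) (nat_lit 1) (nat_lit 36) (nat_lit 1) (nat_lit 38) (nat_lit 1) (nat_lit 321) (nat_lit 397) (nat_lit 362)))))) (XT.nd (nat_lit 376) (nat_lit 588) (nat_lit 0) (XT.nd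 (nat_lit 188) (nat_lit 336) (nat_lit 0) (XT.nd (nat_lit 94) (nat_lit 252) (nat_lit 0) (XT.lf (nat_lit 168) (nat_lit 5416830546) (nat_lit 0) (nat_lit 6121704306) (nat_lit 84) (nat_lit 10967561940) (nat_lit 37) (nat_lit 1) (nat_lit 35) (nat_lit 1) (nat_lit 36) (nat_lit 1) (nat_lit 322) (nat_lit 397) (nat_lit 361)) (XT.lf (nat_lit 84) (nat_lit 1563512865) (nat_lit 0) (nat_lit 4907450113) (nat_lit 252) (nat_lit 15434693317) (nat_lit 33) (nat_lit 1) (nat_lit 32) (nat_lit 1) (nat_lit 35) (nat_lit 1) (nat_lit 323) (nat_lit 397) (nat_lit 360))) (XT.nd (nat_lit 94) (nat_lit 252) (nat_lit 0) (XT.lf (nat_lit 168) (nat_lit 6500685376) (nat_lit 0) (nat_lit 6773406037) (nat_lit 84) (nat_lit 8046035954) (nat_lit 33) (nat_lit 1) (nat_lit 31) (nat_lit 1) (nat_lit 32) (nat_lit 1) (nat_lit 324) (nat_lit 397) (nat_lit 359)) (XT.lf (nat_lit 84) (nat_lit 3636148750) (nat_lit 0)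 (nat_lit 3521855940) (nat_lit 252) (nat_lit 13597170670) (nat_lit 29) (nat_lit 1) (nat_lit 28) (nat_lit 1) (nat_lit 31) (nat_lit 1) (nat_lit 325) (nat_lit 397) (nat_lit 358)))) (XT.nd (nat_lit 188) (nat_lit 336) (nat_lit 0) (XT.nd (nat_lit 94) (nat_lit 168) (nat_lit 0) (XT.lf (nat_lit 168) (nat_lit 7141017472) (nat_lit 0) (nat_lit 7505485218) (nat_lit 84) (nat_lit 5558154973) (nat_lit 29) (nat_lit 1) (nat_lit 27) (nat_lit 1) (nat_lit 28) (nat_lit 1) (nat_lit 326) (nat_lit 397) (nat_lit 357)) (XT.lf (nat_lit 84) (nat_lit 5353251784) (nat_lit 0) (nat_lit 2550728690) (nat_lit 168) (nat_lit 11768340554) (nat_lit 26) (nat_lit 1) (nat_lit 25) (nat_lit 1) (nat_lit 27) (nat_lit 1) (nat_lit 327) (nat_lit 397) (nat_lit 356))) (XT.nd (nat_lit 94) (nat_lit 252) (nat_lit 0) (XT.lf (nat_lit 168) (nat_lit 7438839867) (nat_lit 0) (nat_lit 8278087109) (nat_lit 84) (nat_lit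 3437210292) (nat_lit 26) (nat_lit 1) (nat_lit 24) (nat_lit 1) (nat_lit 25) (nat_lit 1) (nat_lit 328) (nat_lit 397) (nat_lit 355)) (XT.nd (nat_lit 94) (nat_lit 84) (nat_lit 0) (XT.lf (nat_lit 84) (nat_lit 6771365771) (nat_lit 0) (nat_lit 1902876862) (nat_lit 168) (nat_lit 9977649666) (nat_lit 23) (nat_lit 1) (nat_lit 22) (nat_lit 1) (nat_lit 24) (nat_lit 1) (nat_lit 329) (nat_lit 397) (nat_lit 354)) (XT.lf (nat_lit 168) (nat_lit 7475258842) (nat_lit 0) (nat_lit 9060719138) (nat_lit 84) (nat_lit 1627683709) (nat_lit 23) (nat_lit 1) (nat_lit 21) (nat_lit 1) (nat_lit 22) (nat_lit 1) (nat_lit 330) (nat_lit 397) (nat_lit 353))))))) (XT.nd (nat_lit 846) (nat_lit 588) (nat_lit 0) (XT.nd (nat_lit 376) (nat_lit 672) (nat_lit 0) (XT.nd (nat_lit 188) (nat_lit 252) (nat_lit 0) (XT.nd (nat_lit 94) (nat_lit 84) (nat_lit 0) (XT.lf (nat_lit 84) (nat_lit 7937484922) (nat_lit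 0) (nat_lit 1504974015) (nat_lit 168) (nat_lit 8246819758) (nat_lit 20) (nat_lit 1) (nat_lit 19) (nat_lit 1) (nat_lit 21) (nat_lit 1) (nat_lit 331) (nat_lit 397) (nat_lit 352)) (XT.lf (nat_lit 168) (nat_lit 7315215854) (nat_lit 0) (nat_lit 9830388701) (nat_lit 84) (nat_lit 83268157) (nat_lit 20) (nat_lit 1) (nat_lit 18) (nat_lit 1) (nat_lit 19) (nat_lit 1) (nat_lit 332) (nat_lit 397) (nat_lit 351))) (XT.nd (nat_lit 94) (nat_lit 84) (nat_lit 0) (XT.lf (nat_lit 84) (nat_lit 8890744225) (nat_lit 0) (nat_lit 1298204277) (nat_lit 168) (nat_lit 6591421848) (nat_lit 17) (nat_lit 1) (nat_lit 16) (nat_lit 1) (nat_lit 18) (nat_lit 1) (nat_lit 333) (nat_lit 397) (nat_lit 350)) (XT.lf (nat_lit 0) (nat_lit 1195233488) (nat_lit 0) (nat_lit 9354616749) (nat_lit 168) (nat_lit 5795061957) (nat_lit 15) (nat_lit 3) (nat_lit 15) (nat_lit 1) (nat_lit 17) (nat_lit 1) (nat_lit 334)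 (nat_lit 397) (nat_lit 349)))) (XT.nd (nat_lit 188) (nat_lit 420) (nat_lit 0) (XT.nd (nat_lit 94) (nat_lit 84) (nat_lit 0) (XT.lf (nat_lit 84) (nat_lit 9663803839) (nat_lit 0) (nat_lit 1235528249) (nat_lit 168) (nat_lit 5022151589) (nat_lit 14) (nat_lit 1) (nat_lit 13) (nat_lit 1) (nat_lit 15) (nat_lit 1) (nat_lit 335) (nat_lit 397) (nat_lit 348)) (XT.lf (nat_lit 0) (nat_lit 2283338145) (nat_lit 0) (nat_lit 8945581973) (nat_lit 168) (nat_lit 4280411898) (nat_lit 12) (nat_lit 3) (nat_lit 12) (nat_lit 1) (nat_lit 14) (nat_lit 1) (nat_lit 336) (nat_lit 397) (nat_lit 347))) (XT.nd (nat_lit 94) (nat_lit 252) (nat_lit 0) (XT.lf (nat_lit 84) (nat_lit 10283983375) (nat_lit 0) (nat_lit 1279455147) (nat_lit 168) (nat_lit 3545861232) (nat_lit 11) (nat_lit 1) (nat_lit 10) (nat_lit 1) (nat_lit 12) (nat_lit 1) (nat_lit 337) (nat_lit 397) (nat_lit 346)) (XT.nd (nat_lit 94)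 (nat_lit 168) (nat_lit 0) (XT.lf (nat_lit 0) (nat_lit 3210119322) (nat_lit 0) (nat_lit 8649929097) (nat_lit 168) (nat_lit 2858968399) (nat_lit 9) (nat_lit 3) (nat_lit 9) (nat_lit 1) (nat_lit 11) (nat_lit 1) (nat_lit 338) (nat_lit 397) (nat_lit 345)) (XT.lf (nat_lit 84) (nat_lit 10774191724) (nat_lit 0) (nat_lit 1400228027) (nat_lit 168) (nat_lit 2166393446) (nat_lit 8) (nat_lit 1) (nat_lit 7) (nat_lit 1) (nat_lit 9) (nat_lit 1) (nat_lit 339) (nat_lit 397) (nat_lit 344)))))) (XT.nd (nat_lit 470) (nat_lit 0) (nat_lit 0) (XT.nd (nat_lit 188) (nat_lit 336) (nat_lit 0) (XT.nd (nat_lit 94) (nat_lit 168) (nat_lit 0) (XT.lf (nat_lit 0) (nat_lit 3997841978) (nat_lit 0) (nat_lit 8439518260) (nat_lit 168) (nat_lit 1533721742) (nat_lit 6) (nat_lit 3) (nat_lit 6) (nat_lit 1) (nat_lit 8) (nat_lit 1) (nat_lit 340) (nat_lit 397) (nat_lit 343)) (XT.lf (nat_lit 84) (nat_lit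 11153689699) (nat_lit 0) (nat_lit 1574346026) (nat_lit 168) (nat_lit 885253869) (nat_lit 5) (nat_lit 1) (nat_lit 4) (nat_lit 1) (nat_lit 6) (nat_lit 1) (nat_lit 341) (nat_lit 397) (nat_lit 342))) (XT.nd (nat_lit 94) (nat_lit 252) (nat_lit 0) (XT.lf (nat_lit 0) (nat_lit 4665336961) (nat_lit 0) (nat_lit 8292024107) (nat_lit 168) (nat_lit 305537873) (nat_lit 3) (nat_lit 3) (nat_lit 3) (nat_lit 1) (nat_lit 5) (nat_lit 1) (nat_lit 342) (nat_lit 397) (nat_lit 341)) (XT.nd (nat_lit 94) (nat_lit 0) (nat_lit 0) (XT.lf (nat_lit 0) (nat_lit 18747718854) (nat_lit 0) (nat_lit 0) (nat_lit 0) (nat_lit 0) (nat_lit 0) (nat_lit 0) (nat_lit 1) (nat_lit 0) (nat_lit 1) (nat_lit 0) (nat_lit 343) (nat_lit 397) (nat_lit 340)) (XT.lf (nat_lit 0) (nat_lit 18730654456) (nat_lit 0) (nat_lit 0) (nat_lit 0) (nat_lit 0) (nat_lit 0) (nat_lit 0) (nat_lit 1) (nat_lit 0) (nat_lit 1) (nat_lit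 0) (nat_lit 344) (nat_lit 397) (nat_lit 339))))) (XT.nd (nat_lit 188) (nat_lit 0) (nat_lit 0) (XT.nd (nat_lit 94) (nat_lit 0) (nat_lit 0) (XT.lf (nat_lit 0) (nat_lit 18714854086) (nat_lit 0) (nat_lit 0) (nat_lit 0) (nat_lit 0) (nat_lit 0) (nat_lit 0) (nat_lit 1) (nat_lit 0) (nat_lit 1) (nat_lit 0) (nat_lit 345) (nat_lit 397) (nat_lit 338)) (XT.lf (nat_lit 0) (nat_lit 18700224115) (nat_lit 0) (nat_lit 0) (nat_lit 0) (nat_lit 0) (nat_lit 0) (nat_lit 0) (nat_lit 1) (nat_lit 0) (nat_lit 1) (nat_lit 0) (nat_lit 346) (nat_lit 397) (nat_lit 337))) (XT.nd (nat_lit 94) (nat_lit 0) (nat_lit 0) (XT.lf (nat_lit 0) (nat_lit 18686677845) (nat_lit 0) (nat_lit 0) (nat_lit 0) (nat_lit 0) (nat_lit 0) (nat_lit 0) (nat_lit 1) (nat_lit 0) (nat_lit 1) (nat_lit 0) (nat_lit 347) (nat_lit 397) (nat_lit 336)) (XT.nd (nat_lit 94) (nat_lit 0) (nat_lit 0) (XT.lf (nat_lit 0) (nat_lit 18674135002)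 (nat_lit 0) (nat_lit 0) (nat_lit 0) (nat_lit 0) (nat_lit 0) (nat_lit 0) (nat_lit 1) (nat_lit 0) (nat_lit 1) (nat_lit 0) (nat_lit 348) (nat_lit 397) (nat_lit 335)) (XT.lf (nat_lit 0) (nat_lit 18662521259) (nat_lit 0) (nat_lit 0) (nat_lit 0) (nat_lit 0) (nat_lit 0) (nat_lit 0) (nat_lit 1) (nat_lit 0) (nat_lit 1) (nat_lit 0) (nat_lit 349) (nat_lit 397) (nat_lit 334))))))))
noncomputable def ec139 : XT := (XT.nd (nat_lit 1786) (nat_lit 0) (nat_lit 0) (XT.nd (nat_lit 846) (nat_lit 0) (nat_lit 0) (XT.nd (nat_lit 376) (nat_lit 0) (nat_lit 0) (XT.nd (nat_lit 188) (nat_lit 0) (nat_lit 0) (XT.nd (nat_lit 94) (nat_lit 0) (nat_lit 0) (XT.lf (nat_lit 0) (nat_lit 18651767794) (nat_lit 0) (nat_lit 0) (nat_lit 0) (nat_lit 0) (nat_lit 0) (nat_lit 0) (nat_lit 1) (nat_lit 0) (nat_lit 1) (nat_lit 0) (nat_lit 350) (nat_lit 397) (nat_lit 333)) (XT.lf (nat_lit 0) (nat_lit 18641810881)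 (nat_lit 0) (nat_lit 0) (nat_lit 0) (nat_lit 0) (nat_lit 0) (nat_lit 0) (nat_lit 1) (nat_lit 0) (nat_lit 1) (nat_lit 0) (nat_lit 351) (nat_lit 397) (nat_lit 332))) (XT.nd (nat_lit 94) (nat_lit 0) (nat_lit 0) (XT.lf (nat_lit 0) (nat_lit 18632591517) (nat_lit 0) (nat_lit 0) (nat_lit 0) (nat_lit 0) (nat_lit 0) (nat_lit 0) (nat_lit 1) (nat_lit 0) (nat_lit 1) (nat_lit 0) (nat_lit 352) (nat_lit 397) (nat_lit 331)) (XT.lf (nat_lit 0) (nat_lit 18624055069) (nat_lit 0) (nat_lit 0) (nat_lit 0) (nat_lit 0) (nat_lit 0) (nat_lit 0) (nat_lit 1) (nat_lit 0) (nat_lit 1) (nat_lit 0) (nat_lit 353) (nat_lit 397) (nat_lit 330)))) (XT.nd (nat_lit 188) (nat_lit 0) (nat_lit 0) (XT.nd (nat_lit 94) (nat_lit 0) (nat_lit 0) (XT.lf (nat_lit 0) (nat_lit 18616150951) (nat_lit 0) (nat_lit 0) (nat_lit 0) (nat_lit 0) (nat_lit 0) (nat_lit 0) (nat_lit 1) (nat_lit 0) (nat_lit 1) (nat_lit 0)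 (nat_lit 354) (nat_lit 397) (nat_lit 329)) (XT.lf (nat_lit 0) (nat_lit 18608832323) (nat_lit 0) (nat_lit 0) (nat_lit 0) (nat_lit 0) (nat_lit 0) (nat_lit 0) (nat_lit 1) (nat_lit 0) (nat_lit 1) (nat_lit 0) (nat_lit 355) (nat_lit 397) (nat_lit 328))) (XT.nd (nat_lit 94) (nat_lit 0) (nat_lit 0) (XT.lf (nat_lit 0) (nat_lit 18602055815) (nat_lit 0) (nat_lit 0) (nat_lit 0) (nat_lit 0) (nat_lit 0) (nat_lit 0) (nat_lit 1) (nat_lit 0) (nat_lit 1) (nat_lit 0) (nat_lit 356) (nat_lit 397) (nat_lit 327)) (XT.nd (nat_lit 94) (nat_lit 0) (nat_lit 0) (XT.lf (nat_lit 0) (nat_lit 18595781271) (nat_lit 0) (nat_lit 0) (nat_lit 0) (nat_lit 0) (nat_lit 0) (nat_lit 0) (nat_lit 1) (nat_lit 0) (nat_lit 1) (nat_lit 0) (nat_lit 357) (nat_lit 397) (nat_lit 326)) (XT.lf (nat_lit 0) (nat_lit 18589971508) (nat_lit 0) (nat_lit 0) (nat_lit 0) (nat_lit 0) (nat_lit 0) (nat_lit 0) (nat_lit 1)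 (nat_lit 0) (nat_lit 1) (nat_lit 0) (nat_lit 358) (nat_lit 397) (nat_lit 325)))))) (XT.nd (nat_lit 470) (nat_lit 0) (nat_lit 0) (XT.nd (nat_lit 188) (nat_lit 0) (nat_lit 0) (XT.nd (nat_lit 94) (nat_lit 0) (nat_lit 0) (XT.lf (nat_lit 0) (nat_lit 18584592098) (nat_lit 0) (nat_lit 0) (nat_lit 0) (nat_lit 0) (nat_lit 0) (nat_lit 0) (nat_lit 1) (nat_lit 0) (nat_lit 1) (nat_lit 0) (nat_lit 359) (nat_lit 397) (nat_lit 324)) (XT.lf (nat_lit 0) (nat_lit 18579611163) (nat_lit 0) (nat_lit 0) (nat_lit 0) (nat_lit 0) (nat_lit 0) (nat_lit 0) (nat_lit 1) (nat_lit 0) (nat_lit 1) (nat_lit 0) (nat_lit 360) (nat_lit 397) (nat_lit 323))) (XT.nd (nat_lit 94) (nat_lit 0) (nat_lit 0) (XT.lf (nat_lit 0) (nat_lit 18574999185) (nat_lit 0) (nat_lit 0) (nat_lit 0) (nat_lit 0) (nat_lit 0) (nat_lit 0) (nat_lit 1) (nat_lit 0) (nat_lit 1) (nat_lit 0) (nat_lit 361) (nat_lit 397) (nat_lit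 322)) (XT.nd (nat_lit 94) (nat_lit 0) (nat_lit 0) (XT.lf (nat_lit 0) (nat_lit 18570728836) (nat_lit 0) (nat_lit 0) (nat_lit 0) (nat_lit 0) (nat_lit 0) (nat_lit 0) (nat_lit 1) (nat_lit 0) (nat_lit 1) (nat_lit 0) (nat_lit 362) (nat_lit 397) (nat_lit 321)) (XT.lf (nat_lit 0) (nat_lit 18566774809) (nat_lit 0) (nat_lit 0) (nat_lit 0) (nat_lit 0) (nat_lit 0) (nat_lit 0) (nat_lit 1) (nat_lit 0) (nat_lit 1) (nat_lit 0) (nat_lit 363) (nat_lit 397) (nat_lit 320))))) (XT.nd (nat_lit 188) (nat_lit 0) (nat_lit 0) (XT.nd (nat_lit 94) (nat_lit 0) (nat_lit 0) (XT.lf (nat_lit 0) (nat_lit 18563113673) (nat_lit 0) (nat_lit 0) (nat_lit 0) (nat_lit 0) (nat_lit 0) (nat_lit 0) (nat_lit 1) (nat_lit 0) (nat_lit 1) (nat_lit 0) (nat_lit 364) (nat_lit 397) (nat_lit 319)) (XT.lf (nat_lit 0) (nat_lit 18559723732) (nat_lit 0) (nat_lit 0) (nat_lit 0) (nat_lit 0) (nat_lit 0) (nat_lit 0) (nat_lit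 1) (nat_lit 0) (nat_lit 1) (nat_lit 0) (nat_lit 365) (nat_lit 397) (nat_lit 318))) (XT.nd (nat_lit 94) (nat_lit 0) (nat_lit 0) (XT.lf (nat_lit 0) (nat_lit 18556584898) (nat_lit 0) (nat_lit 0) (nat_lit 0) (nat_lit 0) (nat_lit 0) (nat_lit 0) (nat_lit 1) (nat_lit 0) (nat_lit 1) (nat_lit 0) (nat_lit 366) (nat_lit 397) (nat_lit 317)) (XT.nd (nat_lit 94) (nat_lit 0) (nat_lit 0) (XT.lf (nat_lit 0) (nat_lit 18553678570) (nat_lit 0) (nat_lit 0) (nat_lit 0) (nat_lit 0) (nat_lit 0) (nat_lit 0) (nat_lit 1) (nat_lit 0) (nat_lit 1) (nat_lit 0) (nat_lit 367) (nat_lit 397) (nat_lit 316)) (XT.lf (nat_lit 0) (nat_lit 18550987526) (nat_lit 0) (nat_lit 0) (nat_lit 0) (nat_lit 0) (nat_lit 0) (nat_lit 0) (nat_lit 1) (nat_lit 0) (nat_lit 1) (nat_lit 0) (nat_lit 368) (nat_lit 397) (nat_lit 315))))))) (XT.nd (nat_lit 846) (nat_lit 0) (nat_lit 0) (XT.nd (nat_lit 376) (nat_lit 0) (nat_lit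 0) (XT.nd (nat_lit 188) (nat_lit 0) (nat_lit 0) (XT.nd (nat_lit 94) (nat_lit 0) (nat_lit 0) (XT.lf (nat_lit 0) (nat_lit 18548495818) (nat_lit 0) (nat_lit 0) (nat_lit 0) (nat_lit 0) (nat_lit 0) (nat_lit 0) (nat_lit 1) (nat_lit 0) (nat_lit 1) (nat_lit 0) (nat_lit 369) (nat_lit 397) (nat_lit 314)) (XT.lf (nat_lit 0) (nat_lit 18546188681) (nat_lit 0) (nat_lit 0) (nat_lit 0) (nat_lit 0) (nat_lit 0) (nat_lit 0) (nat_lit 1) (nat_lit 0) (nat_lit 1) (nat_lit 0) (nat_lit 370) (nat_lit 397) (nat_lit 313))) (XT.nd (nat_lit 94) (nat_lit 0) (nat_lit 0) (XT.lf (nat_lit 0) (nat_lit 18544052443) (nat_lit 0) (nat_lit 0) (nat_lit 0) (nat_lit 0) (nat_lit 0) (nat_lit 0) (nat_lit 1) (nat_lit 0) (nat_lit 1) (nat_lit 0) (nat_lit 371) (nat_lit 397) (nat_lit 312)) (XT.lf (nat_lit 0) (nat_lit 18542074445) (nat_lit 0) (nat_lit 0) (nat_lit 0) (nat_lit 0) (nat_lit 0) (nat_lit 0) (nat_lit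 1) (nat_lit 0) (nat_lit 1) (nat_lit 0) (nat_lit 372) (nat_lit 397) (nat_lit 311)))) (XT.nd (nat_lit 188) (nat_lit 0) (nat_lit 0) (XT.nd (nat_lit 94) (nat_lit 0) (nat_lit 0) (XT.lf (nat_lit 0) (nat_lit 18540242966) (nat_lit 0) (nat_lit 0) (nat_lit 0) (nat_lit 0) (nat_lit 0) (nat_lit 0) (nat_lit 1) (nat_lit 0) (nat_lit 1) (nat_lit 0) (nat_lit 373) (nat_lit 397) (nat_lit 310)) (XT.lf (nat_lit 0) (nat_lit 18538547151) (nat_lit 0) (nat_lit 0) (nat_lit 0) (nat_lit 0) (nat_lit 0) (nat_lit 0) (nat_lit 1) (nat_lit 0) (nat_lit 1) (nat_lit 0) (nat_lit 374) (nat_lit 397) (nat_lit 309))) (XT.nd (nat_lit 94) (nat_lit 0) (nat_lit 0) (XT.lf (nat_lit 0) (nat_lit 18536976953) (nat_lit 0) (nat_lit 0) (nat_lit 0) (nat_lit 0) (nat_lit 0) (nat_lit 0) (nat_lit 1) (nat_lit 0) (nat_lit 1) (nat_lit 0) (nat_lit 375) (nat_lit 397) (nat_lit 308)) (XT.nd (nat_lit 94) (nat_lit 0) (nat_lit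 0) (XT.lf (nat_lit 0) (nat_lit 18535523065) (nat_lit 0) (nat_lit 0) (nat_lit 0) (nat_lit 0) (nat_lit 0) (nat_lit 0) (nat_lit 1) (nat_lit 0) (nat_lit 1) (nat_lit 0) (nat_lit 376) (nat_lit 397) (nat_lit 307)) (XT.lf (nat_lit 0) (nat_lit 18534176873) (nat_lit 0) (nat_lit 0) (nat_lit 0) (nat_lit 0) (nat_lit 0) (nat_lit 0) (nat_lit 1) (nat_lit 0) (nat_lit 1) (nat_lit 0) (nat_lit 377) (nat_lit 397) (nat_lit 306)))))) (XT.nd (nat_lit 470) (nat_lit 0) (nat_lit 0) (XT.nd (nat_lit 188) (nat_lit 0) (nat_lit 0) (XT.nd (nat_lit 94) (nat_lit 0) (nat_lit 0) (XT.lf (nat_lit 0) (nat_lit 18532930399) (nat_lit 0) (nat_lit 0) (nat_lit 0) (nat_lit 0) (nat_lit 0) (nat_lit 0) (nat_lit 1) (nat_lit 0) (nat_lit 1) (nat_lit 0) (nat_lit 378) (nat_lit 397) (nat_lit 305)) (XT.lf (nat_lit 0) (nat_lit 18531776256) (nat_lit 0) (nat_lit 0) (nat_lit 0) (nat_lit 0) (nat_lit 0) (nat_lit 0) (nat_lit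 1) (nat_lit 0) (nat_lit 1) (nat_lit 0) (nat_lit 379) (nat_lit 397) (nat_lit 304))) (XT.nd (nat_lit 94) (nat_lit 0) (nat_lit 0) (XT.lf (nat_lit 0) (nat_lit 18530707605) (nat_lit 0) (nat_lit 0) (nat_lit 0) (nat_lit 0) (nat_lit 0) (nat_lit 0) (nat_lit 1) (nat_lit 0) (nat_lit 1) (nat_lit 0) (nat_lit 380) (nat_lit 397) (nat_lit 303)) (XT.nd (nat_lit 94) (nat_lit 0) (nat_lit 0) (XT.lf (nat_lit 0) (nat_lit 18529718114) (nat_lit 0) (nat_lit 0) (nat_lit 0) (nat_lit 0) (nat_lit 0) (nat_lit 0) (nat_lit 1) (nat_lit 0) (nat_lit 1) (nat_lit 0) (nat_lit 381) (nat_lit 397) (nat_lit 302)) (XT.lf (nat_lit 0) (nat_lit 18528801918) (nat_lit 0) (nat_lit 0) (nat_lit 0) (nat_lit 0) (nat_lit 0) (nat_lit 0) (nat_lit 1) (nat_lit 0) (nat_lit 1) (nat_lit 0) (nat_lit 382) (nat_lit 397) (nat_lit 301))))) (XT.nd (nat_lit 188) (nat_lit 0) (nat_lit 0) (XT.nd (nat_lit 94) (nat_lit 0) (nat_lit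 0) (XT.lf (nat_lit 0) (nat_lit 18527953589) (nat_lit 0) (nat_lit 0) (nat_lit 0) (nat_lit 0) (nat_lit 0) (nat_lit 0) (nat_lit 1) (nat_lit 0) (nat_lit 1) (nat_lit 0) (nat_lit 383) (nat_lit 397) (nat_lit 300)) (XT.lf (nat_lit 0) (nat_lit 18527168098) (nat_lit 0) (nat_lit 0) (nat_lit 0) (nat_lit 0) (nat_lit 0) (nat_lit 0) (nat_lit 1) (nat_lit 0) (nat_lit 1) (nat_lit 0) (nat_lit 384) (nat_lit 397) (nat_lit 299))) (XT.nd (nat_lit 94) (nat_lit 0) (nat_lit 0) (XT.lf (nat_lit 0) (nat_lit 18526440793) (nat_lit 0) (nat_lit 0) (nat_lit 0) (nat_lit 0) (nat_lit 0) (nat_lit 0) (nat_lit 1) (nat_lit 0) (nat_lit 1) (nat_lit 0) (nat_lit 385) (nat_lit 397) (nat_lit 298)) (XT.nd (nat_lit 94) (nat_lit 0) (nat_lit 0) (XT.lf (nat_lit 0) (nat_lit 18525767361) (nat_lit 0) (nat_lit 0) (nat_lit 0) (nat_lit 0) (nat_lit 0) (nat_lit 0) (nat_lit 1) (nat_lit 0) (nat_lit 1) (nat_lit 0) (nat_lit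 386) (nat_lit 397) (nat_lit 297)) (XT.lf (nat_lit 0) (nat_lit 18525143814) (nat_lit 0) (nat_lit 0) (nat_lit 0) (nat_lit 0) (nat_lit 0) (nat_lit 0) (nat_lit 1) (nat_lit 0) (nat_lit 1) (nat_lit 0) (nat_lit 387) (nat_lit 397) (nat_lit 296))))))))
noncomputable def ec140 : XT := (XT.nd (nat_lit 1692) (nat_lit 0) (nat_lit 0) (XT.nd (nat_lit 846) (nat_lit 0) (nat_lit 0) (XT.nd (nat_lit 376) (nat_lit 0) (nat_lit 0) (XT.nd (nat_lit 188) (nat_lit 0) (nat_lit 0) (XT.nd (nat_lit 94) (nat_lit 0) (nat_lit 0) (XT.lf (nat_lit 0) (nat_lit 18524566455) (nat_lit 0) (nat_lit 0) (nat_lit 0) (nat_lit 0) (nat_lit 0) (nat_lit 0) (nat_lit 1) (nat_lit 0) (nat_lit 1) (nat_lit 0) (nat_lit 388) (nat_lit 397) (nat_lit 295)) (XT.lf (nat_lit 0) (nat_lit 18524031864) (nat_lit 0) (nat_lit 0) (nat_lit 0) (nat_lit 0) (nat_lit 0) (nat_lit 0) (nat_lit 1) (nat_lit 0) (nat_lit 1) (nat_lit 0) (nat_lit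 389) (nat_lit 397) (nat_lit 294))) (XT.nd (nat_lit 94) (nat_lit 0) (nat_lit 0) (XT.lf (nat_lit 0) (nat_lit 18523536872) (nat_lit 0) (nat_lit 0) (nat_lit 0) (nat_lit 0) (nat_lit 0) (nat_lit 0) (nat_lit 1) (nat_lit 0) (nat_lit 1) (nat_lit 0) (nat_lit 390) (nat_lit 397) (nat_lit 293)) (XT.lf (nat_lit 0) (nat_lit 18523078546) (nat_lit 0) (nat_lit 0) (nat_lit 0) (nat_lit 0) (nat_lit 0) (nat_lit 0) (nat_lit 1) (nat_lit 0) (nat_lit 1) (nat_lit 0) (nat_lit 391) (nat_lit 397) (nat_lit 292)))) (XT.nd (nat_lit 188) (nat_lit 0) (nat_lit 0) (XT.nd (nat_lit 94) (nat_lit 0) (nat_lit 0) (XT.lf (nat_lit 0) (nat_lit 18522654170) (nat_lit 0) (nat_lit 0) (nat_lit 0) (nat_lit 0) (nat_lit 0) (nat_lit 0) (nat_lit 1) (nat_lit 0) (nat_lit 1) (nat_lit 0) (nat_lit 392) (nat_lit 397) (nat_lit 291)) (XT.lf (nat_lit 0) (nat_lit 18522261229) (nat_lit 0) (nat_lit 0) (nat_lit 0) (nat_lit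 0) (nat_lit 0) (nat_lit 0) (nat_lit 1) (nat_lit 0) (nat_lit 1) (nat_lit 0) (nat_lit 393) (nat_lit 397) (nat_lit 290))) (XT.nd (nat_lit 94) (nat_lit 0) (nat_lit 0) (XT.lf (nat_lit 0) (nat_lit 18521897395) (nat_lit 0) (nat_lit 0) (nat_lit 0) (nat_lit 0) (nat_lit 0) (nat_lit 0) (nat_lit 1) (nat_lit 0) (nat_lit 1) (nat_lit 0) (nat_lit 394) (nat_lit 397) (nat_lit 289)) (XT.nd (nat_lit 94) (nat_lit 0) (nat_lit 0) (XT.lf (nat_lit 0) (nat_lit 18521560512) (nat_lit 0) (nat_lit 0) (nat_lit 0) (nat_lit 0) (nat_lit 0) (nat_lit 0) (nat_lit 1) (nat_lit 0) (nat_lit 1) (nat_lit 0) (nat_lit 395) (nat_lit 397) (nat_lit 288)) (XT.lf (nat_lit 0) (nat_lit 18521248583) (nat_lit 0) (nat_lit 0) (nat_lit 0) (nat_lit 0) (nat_lit 0) (nat_lit 0) (nat_lit 1) (nat_lit 0) (nat_lit 1) (nat_lit 0) (nat_lit 396) (nat_lit 397) (nat_lit 287)))))) (XT.nd (nat_lit 376) (nat_lit 0) (nat_lit 0)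 (XT.nd (nat_lit 188) (nat_lit 0) (nat_lit 0) (XT.nd (nat_lit 94) (nat_lit 0) (nat_lit 0) (XT.lf (nat_lit 0) (nat_lit 18520959760) (nat_lit 0) (nat_lit 0) (nat_lit 0) (nat_lit 0) (nat_lit 0) (nat_lit 0) (nat_lit 1) (nat_lit 0) (nat_lit 1) (nat_lit 0) (nat_lit 397) (nat_lit 397) (nat_lit 286)) (XT.lf (nat_lit 0) (nat_lit 18520692331) (nat_lit 0) (nat_lit 0) (nat_lit 0) (nat_lit 0) (nat_lit 0) (nat_lit 0) (nat_lit 1) (nat_lit 0) (nat_lit 1) (nat_lit 0) (nat_lit 398) (nat_lit 397) (nat_lit 285))) (XT.nd (nat_lit 94) (nat_lit 0) (nat_lit 0) (XT.lf (nat_lit 0) (nat_lit 18520444712) (nat_lit 0) (nat_lit 0) (nat_lit 0) (nat_lit 0) (nat_lit 0) (nat_lit 0) (nat_lit 1) (nat_lit 0) (nat_lit 1) (nat_lit 0) (nat_lit 399) (nat_lit 397) (nat_lit 284)) (XT.lf (nat_lit 0) (nat_lit 18520215435) (nat_lit 0) (nat_lit 0) (nat_lit 0) (nat_lit 0) (nat_lit 0) (nat_lit 0) (nat_lit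 1) (nat_lit 0) (nat_lit 1) (nat_lit 0) (nat_lit 400) (nat_lit 397) (nat_lit 283)))) (XT.nd (nat_lit 188) (nat_lit 0) (nat_lit 0) (XT.nd (nat_lit 94) (nat_lit 0) (nat_lit 0) (XT.lf (nat_lit 0) (nat_lit 18520003141) (nat_lit 0) (nat_lit 0) (nat_lit 0) (nat_lit 0) (nat_lit 0) (nat_lit 0) (nat_lit 1) (nat_lit 0) (nat_lit 1) (nat_lit 0) (nat_lit 401) (nat_lit 397) (nat_lit 282)) (XT.lf (nat_lit 0) (nat_lit 18519806573) (nat_lit 0) (nat_lit 0) (nat_lit 0) (nat_lit 0) (nat_lit 0) (nat_lit 0) (nat_lit 1) (nat_lit 0) (nat_lit 1) (nat_lit 0) (nat_lit 402) (nat_lit 397) (nat_lit 281))) (XT.nd (nat_lit 94) (nat_lit 0) (nat_lit 0) (XT.lf (nat_lit 0) (nat_lit 18519624565) (nat_lit 0) (nat_lit 0) (nat_lit 0) (nat_lit 0) (nat_lit 0) (nat_lit 0) (nat_lit 1) (nat_lit 0) (nat_lit 1) (nat_lit 0) (nat_lit 403) (nat_lit 397) (nat_lit 280)) (XT.nd (nat_lit 94) (nat_lit 0) (nat_lit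 0) (XT.lf (nat_lit 0) (nat_lit 18519456040) (nat_lit 0) (nat_lit 0) (nat_lit 0) (nat_lit 0) (nat_lit 0) (nat_lit 0) (nat_lit 1) (nat_lit 0) (nat_lit 1) (nat_lit 0) (nat_lit 404) (nat_lit 397) (nat_lit 279)) (XT.lf (nat_lit 0) (nat_lit 18519299998) (nat_lit 0) (nat_lit 0) (nat_lit 0) (nat_lit 0) (nat_lit 0) (nat_lit 0) (nat_lit 1) (nat_lit 0) (nat_lit 1) (nat_lit 0) (nat_lit 405) (nat_lit 397) (nat_lit 278))))))) (XT.nd (nat_lit 846) (nat_lit 0) (nat_lit 0) (XT.nd (nat_lit 376) (nat_lit 0) (nat_lit 0) (XT.nd (nat_lit 188) (nat_lit 0) (nat_lit 0) (XT.nd (nat_lit 94) (nat_lit 0) (nat_lit 0) (XT.lf (nat_lit 0) (nat_lit 18519155514) (nat_lit 0) (nat_lit 0) (nat_lit 0) (nat_lit 0) (nat_lit 0) (nat_lit 0) (nat_lit 1) (nat_lit 0) (nat_lit 1) (nat_lit 0) (nat_lit 406) (nat_lit 397) (nat_lit 277)) (XT.lf (nat_lit 0) (nat_lit 18519021733) (nat_lit 0) (nat_lit 0) (nat_lit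 0) (nat_lit 0) (nat_lit 0) (nat_lit 0) (nat_lit 1) (nat_lit 0) (nat_lit 1) (nat_lit 0) (nat_lit 407) (nat_lit 397) (nat_lit 276))) (XT.nd (nat_lit 94) (nat_lit 0) (nat_lit 0) (XT.lf (nat_lit 0) (nat_lit 18518897862) (nat_lit 0) (nat_lit 0) (nat_lit 0) (nat_lit 0) (nat_lit 0) (nat_lit 0) (nat_lit 1) (nat_lit 0) (nat_lit 1) (nat_lit 0) (nat_lit 408) (nat_lit 397) (nat_lit 275)) (XT.lf (nat_lit 0) (nat_lit 18518783166) (nat_lit 0) (nat_lit 0) (nat_lit 0) (nat_lit 0) (nat_lit 0) (nat_lit 0) (nat_lit 1) (nat_lit 0) (nat_lit 1) (nat_lit 0) (nat_lit 409) (nat_lit 397) (nat_lit 274)))) (XT.nd (nat_lit 188) (nat_lit 0) (nat_lit 0) (XT.nd (nat_lit 94) (nat_lit 0) (nat_lit 0) (XT.lf (nat_lit 0) (nat_lit 18518676967) (nat_lit 0) (nat_lit 0) (nat_lit 0) (nat_lit 0) (nat_lit 0) (nat_lit 0) (nat_lit 1) (nat_lit 0) (nat_lit 1) (nat_lit 0) (nat_lit 410) (nat_lit 397) (nat_lit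 273)) (XT.lf (nat_lit 0) (nat_lit 18518578634) (nat_lit 0) (nat_lit 0) (nat_lit 0) (nat_lit 0) (nat_lit 0) (nat_lit 0) (nat_lit 1) (nat_lit 0) (nat_lit 1) (nat_lit 0) (nat_lit 411) (nat_lit 397) (nat_lit 272))) (XT.nd (nat_lit 94) (nat_lit 0) (nat_lit 0) (XT.lf (nat_lit 0) (nat_lit 18518487585) (nat_lit 0) (nat_lit 0) (nat_lit 0) (nat_lit 0) (nat_lit 0) (nat_lit 0) (nat_lit 1) (nat_lit 0) (nat_lit 1) (nat_lit 0) (nat_lit 412) (nat_lit 397) (nat_lit 271)) (XT.nd (nat_lit 94) (nat_lit 0) (nat_lit 0) (XT.lf (nat_lit 0) (nat_lit 18518403280) (nat_lit 0) (nat_lit 0) (nat_lit 0) (nat_lit 0) (nat_lit 0) (nat_lit 0) (nat_lit 1) (nat_lit 0) (nat_lit 1) (nat_lit 0) (nat_lit 413) (nat_lit 397) (nat_lit 270)) (XT.lf (nat_lit 0) (nat_lit 18518325220) (nat_lit 0) (nat_lit 0) (nat_lit 0) (nat_lit 0) (nat_lit 0) (nat_lit 0) (nat_lit 1) (nat_lit 0) (nat_lit 1) (nat_lit 0)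 (nat_lit 414) (nat_lit 397) (nat_lit 269)))))) (XT.nd (nat_lit 470) (nat_lit 0) (nat_lit 0) (XT.nd (nat_lit 188) (nat_lit 0) (nat_lit 0) (XT.nd (nat_lit 94) (nat_lit 0) (nat_lit 0) (XT.lf (nat_lit 0) (nat_lit 18518252942) (nat_lit 0) (nat_lit 0) (nat_lit 0) (nat_lit 0) (nat_lit 0) (nat_lit 0) (nat_lit 1) (nat_lit 0) (nat_lit 1) (nat_lit 0) (nat_lit 415) (nat_lit 397) (nat_lit 268)) (XT.lf (nat_lit 0) (nat_lit 18518186018) (nat_lit 0) (nat_lit 0) (nat_lit 0) (nat_lit 0) (nat_lit 0) (nat_lit 0) (nat_lit 1) (nat_lit 0) (nat_lit 1) (nat_lit 0) (nat_lit 416) (nat_lit 397) (nat_lit 267))) (XT.nd (nat_lit 94) (nat_lit 0) (nat_lit 0) (XT.lf (nat_lit 0) (nat_lit 18518124052) (nat_lit 0) (nat_lit 0) (nat_lit 0) (nat_lit 0) (nat_lit 0) (nat_lit 0) (nat_lit 1) (nat_lit 0) (nat_lit 1) (nat_lit 0) (nat_lit 417) (nat_lit 397) (nat_lit 266)) (XT.nd (nat_lit 94) (nat_lit 0)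 (nat_lit 0) (XT.lf (nat_lit 0) (nat_lit 18518066676) (nat_lit 0) (nat_lit 0) (nat_lit 0) (nat_lit 0) (nat_lit 0) (nat_lit 0) (nat_lit 1) (nat_lit 0) (nat_lit 1) (nat_lit 0) (nat_lit 418) (nat_lit 397) (nat_lit 265)) (XT.lf (nat_lit 0) (nat_lit 18518013549) (nat_lit 0) (nat_lit 0) (nat_lit 0) (nat_lit 0) (nat_lit 0) (nat_lit 0) (nat_lit 1) (nat_lit 0) (nat_lit 1) (nat_lit 0) (nat_lit 419) (nat_lit 397) (nat_lit 264))))) (XT.nd (nat_lit 188) (nat_lit 0) (nat_lit 0) (XT.nd (nat_lit 94) (nat_lit 0) (nat_lit 0) (XT.lf (nat_lit 0) (nat_lit 18517964358) (nat_lit 0) (nat_lit 0) (nat_lit 0) (nat_lit 0) (nat_lit 0) (nat_lit 0) (nat_lit 1) (nat_lit 0) (nat_lit 1) (nat_lit 0) (nat_lit 420) (nat_lit 397) (nat_lit 263)) (XT.lf (nat_lit 0) (nat_lit 18517918811) (nat_lit 0) (nat_lit 0) (nat_lit 0) (nat_lit 0) (nat_lit 0) (nat_lit 0) (nat_lit 1) (nat_lit 0) (nat_lit 1) (nat_lit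 0) (nat_lit 421) (nat_lit 397) (nat_lit 262))) (XT.nd (nat_lit 94) (nat_lit 0) (nat_lit 0) (XT.lf (nat_lit 0) (nat_lit 18517876638) (nat_lit 0) (nat_lit 0) (nat_lit 0) (nat_lit 0) (nat_lit 0) (nat_lit 0) (nat_lit 1) (nat_lit 0) (nat_lit 1) (nat_lit 0) (nat_lit 422) (nat_lit 397) (nat_lit 261)) (XT.nd (nat_lit 94) (nat_lit 0) (nat_lit 0) (XT.lf (nat_lit 0) (nat_lit 18517837588) (nat_lit 0) (nat_lit 0) (nat_lit 0) (nat_lit 0) (nat_lit 0) (nat_lit 0) (nat_lit 1) (nat_lit 0) (nat_lit 1) (nat_lit 0) (nat_lit 423) (nat_lit 397) (nat_lit 260)) (XT.lf (nat_lit 0) (nat_lit 18517801431) (nat_lit 0) (nat_lit 0) (nat_lit 0) (nat_lit 0) (nat_lit 0) (nat_lit 0) (nat_lit 1) (nat_lit 0) (nat_lit 1) (nat_lit 0) (nat_lit 424) (nat_lit 397) (nat_lit 259))))))))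
noncomputable def ec141 : XT := (XT.nd (nat_lit 54896) (nat_lit 0) (nat_lit 5544) (XT.nd (nat_lit 846) (nat_lit 0) (nat_lit 0) (XT.nd (nat_lit 376) (nat_lit 0) (nat_lit 0) (XT.nd (nat_lit 188) (nat_lit 0) (nat_lit 0) (XT.nd (nat_lit 94) (nat_lit 0) (nat_lit 0) (XT.lf (nat_lit 0) (nat_lit 18517767953) (nat_lit 0) (nat_lit 0) (nat_lit 0) (nat_lit 0) (nat_lit 0) (nat_lit 0) (nat_lit 1) (nat_lit 0) (nat_lit 1) (nat_lit 0) (nat_lit 425) (nat_lit 397) (nat_lit 258)) (XT.lf (nat_lit 0) (nat_lit 18517736954) (nat_lit 0) (nat_lit 0) (nat_lit 0) (nat_lit 0) (nat_lit 0) (nat_lit 0) (nat_lit 1) (nat_lit 0) (nat_lit 1) (nat_lit 0) (nat_lit 426) (nat_lit 397) (nat_lit 257))) (XT.nd (nat_lit 94) (nat_lit 0) (nat_lit 0) (XT.lf (nat_lit 0) (nat_lit 18517708252) (nat_lit 0) (nat_lit 0) (nat_lit 0) (nat_lit 0) (nat_lit 0) (nat_lit 0) (nat_lit 1) (nat_lit 0) (nat_lit 1) (nat_lit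 0) (nat_lit 427) (nat_lit 397) (nat_lit 256)) (XT.lf (nat_lit 0) (nat_lit 18517681675) (nat_lit 0) (nat_lit 0) (nat_lit 0) (nat_lit 0) (nat_lit 0) (nat_lit 0) (nat_lit 1) (nat_lit 0) (nat_lit 1) (nat_lit 0) (nat_lit 428) (nat_lit 397) (nat_lit 255)))) (XT.nd (nat_lit 188) (nat_lit 0) (nat_lit 0) (XT.nd (nat_lit 94) (nat_lit 0) (nat_lit 0) (XT.lf (nat_lit 0) (nat_lit 18517657068) (nat_lit 0) (nat_lit 0) (nat_lit 0) (nat_lit 0) (nat_lit 0) (nat_lit 0) (nat_lit 1) (nat_lit 0) (nat_lit 1) (nat_lit 0) (nat_lit 429) (nat_lit 397) (nat_lit 254)) (XT.lf (nat_lit 0) (nat_lit 18517634283) (nat_lit 0) (nat_lit 0) (nat_lit 0) (nat_lit 0) (nat_lit 0) (nat_lit 0) (nat_lit 1) (nat_lit 0) (nat_lit 1) (nat_lit 0) (nat_lit 430) (nat_lit 397) (nat_lit 253))) (XT.nd (nat_lit 94) (nat_lit 0) (nat_lit 0) (XT.lf (nat_lit 0) (nat_lit 18517613186) (nat_lit 0) (nat_lit 0) (nat_lit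 0) (nat_lit 0) (nat_lit 0) (nat_lit 0) (nat_lit 1) (nat_lit 0) (nat_lit 1) (nat_lit 0) (nat_lit 431) (nat_lit 397) (nat_lit 252)) (XT.nd (nat_lit 94) (nat_lit 0) (nat_lit 0) (XT.lf (nat_lit 0) (nat_lit 18517593651) (nat_lit 0) (nat_lit 0) (nat_lit 0) (nat_lit 0) (nat_lit 0) (nat_lit 0) (nat_lit 1) (nat_lit 0) (nat_lit 1) (nat_lit 0) (nat_lit 432) (nat_lit 397) (nat_lit 251)) (XT.lf (nat_lit 0) (nat_lit 18517575564) (nat_lit 0) (nat_lit 0) (nat_lit 0) (nat_lit 0) (nat_lit 0) (nat_lit 0) (nat_lit 1) (nat_lit 0) (nat_lit 1) (nat_lit 0) (nat_lit 433) (nat_lit 397) (nat_lit 250)))))) (XT.nd (nat_lit 470) (nat_lit 0) (nat_lit 0) (XT.nd (nat_lit 188) (nat_lit 0) (nat_lit 0) (XT.nd (nat_lit 94) (nat_lit 0) (nat_lit 0) (XT.lf (nat_lit 0) (nat_lit 18517558816) (nat_lit 0) (nat_lit 0) (nat_lit 0) (nat_lit 0) (nat_lit 0) (nat_lit 0) (nat_lit 1) (nat_lit 0) (nat_lit 1)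 (nat_lit 0) (nat_lit 434) (nat_lit 397) (nat_lit 249)) (XT.lf (nat_lit 0) (nat_lit 18517543309) (nat_lit 0) (nat_lit 0) (nat_lit 0) (nat_lit 0) (nat_lit 0) (nat_lit 0) (nat_lit 1) (nat_lit 0) (nat_lit 1) (nat_lit 0) (nat_lit 435) (nat_lit 397) (nat_lit 248))) (XT.nd (nat_lit 94) (nat_lit 0) (nat_lit 0) (XT.lf (nat_lit 0) (nat_lit 18517528951) (nat_lit 0) (nat_lit 0) (nat_lit 0) (nat_lit 0) (nat_lit 0) (nat_lit 0) (nat_lit 1) (nat_lit 0) (nat_lit 1) (nat_lit 0) (nat_lit 436) (nat_lit 397) (nat_lit 247)) (XT.nd (nat_lit 94) (nat_lit 0) (nat_lit 0) (XT.lf (nat_lit 0) (nat_lit 18517515656) (nat_lit 0) (nat_lit 0) (nat_lit 0) (nat_lit 0) (nat_lit 0) (nat_lit 0) (nat_lit 1) (nat_lit 0) (nat_lit 1) (nat_lit 0) (nat_lit 437) (nat_lit 397) (nat_lit 246)) (XT.lf (nat_lit 0) (nat_lit 18517503346) (nat_lit 0) (nat_lit 0) (nat_lit 0) (nat_lit 0) (nat_lit 0) (nat_lit 0)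 (nat_lit 1) (nat_lit 0) (nat_lit 1) (nat_lit 0) (nat_lit 438) (nat_lit 397) (nat_lit 245))))) (XT.nd (nat_lit 53298) (nat_lit 0) (nat_lit 10836) (XT.nd (nat_lit 53204) (nat_lit 0) (nat_lit 10752) (XT.lf (nat_lit 0) (nat_lit 18517491948) (nat_lit 0) (nat_lit 0) (nat_lit 0) (nat_lit 0) (nat_lit 0) (nat_lit 0) (nat_lit 1) (nat_lit 0) (nat_lit 1) (nat_lit 0) (nat_lit 439) (nat_lit 397) (nat_lit 244)) (XT.lf (nat_lit 924) (nat_lit 10008117314) (nat_lit 0) (nat_lit 17769389286) (nat_lit 924) (nat_lit 10008117314) (nat_lit 139) (nat_lit 1) (nat_lit 128) (nat_lit 0) (nat_lit 139) (nat_lit 0) (nat_lit 284) (nat_lit 398) (nat_lit 398))) (XT.nd (nat_lit 94) (nat_lit 0) (nat_lit 0) (XT.lf (nat_lit 924) (nat_lit 3733334848) (nat_lit 0) (nat_lit 34886696650) (nat_lit 840) (nat_lit 34119072770) (nat_lit 140) (nat_lit 1) (nat_lit 129) (nat_lit 1) (nat_lit 139) (nat_lit 1)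 (nat_lit 285) (nat_lit 398) (nat_lit 397)) (XT.nd (nat_lit 94) (nat_lit 0) (nat_lit 84) (XT.lf (nat_lit 924) (nat_lit 34288525672) (nat_lit 84) (nat_lit 23363632506) (nat_lit 0) (nat_lit 12391004923) (nat_lit 140) (nat_lit 1) (nat_lit 130) (nat_lit 1) (nat_lit 129) (nat_lit 1) (nat_lit 286) (nat_lit 398) (nat_lit 396)) (XT.lf (nat_lit 924) (nat_lit 29628095137) (nat_lit 84) (nat_lit 9791536441) (nat_lit 0) (nat_lit 28062502090) (nat_lit 141) (nat_lit 1) (nat_lit 131) (nat_lit 1) (nat_lit 130) (nat_lit 1) (nat_lit 287) (nat_lit 398) (nat_lit 395))))))) (XT.nd (nat_lit 846) (nat_lit 3024) (nat_lit 0) (XT.nd (nat_lit 376) (nat_lit 1764) (nat_lit 0) (XT.nd (nat_lit 188) (nat_lit 672) (nat_lit 0) (XT.nd (nat_lit 94) (nat_lit 0) (nat_lit 84) (XT.lf (nat_lit 924) (nat_lit 21927309295) (nat_lit 0) (nat_lit 41024959232) (nat_lit 840) (nat_lit 2097190054) (nat_lit 142)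 (nat_lit 1) (nat_lit 131) (nat_lit 1) (nat_lit 141) (nat_lit 1) (nat_lit 288) (nat_lit 398) (nat_lit 394)) (XT.lf (nat_lit 924) (nat_lit 5261242874) (nat_lit 0) (nat_lit 45241414729) (nat_lit 840) (nat_lit 12230303154) (nat_lit 143) (nat_lit 1) (nat_lit 132) (nat_lit 1) (nat_lit 142) (nat_lit 1) (nat_lit 289) (nat_lit 398) (nat_lit 393))) (XT.nd (nat_lit 94) (nat_lit 756) (nat_lit 0) (XT.lf (nat_lit 924) (nat_lit 10109968875) (nat_lit 84) (nat_lit 39318473566) (nat_lit 0) (nat_lit 11096158338) (nat_lit 143) (nat_lit 1) (nat_lit 133) (nat_lit 1) (nat_lit 132) (nat_lit 1) (nat_lit 290) (nat_lit 398) (nat_lit 392)) (XT.lf (nat_lit 924) (nat_lit 2076357068) (nat_lit 0) (nat_lit 29393159807) (nat_lit 840) (nat_lit 26953219566) (nat_lit 134) (nat_lit 1) (nat_lit 123) (nat_lit 1) (nat_lit 133) (nat_lit 1) (nat_lit 291) (nat_lit 398) (nat_lit 391)))) (XT.nd (nat_lit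 188) (nat_lit 756) (nat_lit 0) (XT.nd (nat_lit 94) (nat_lit 420) (nat_lit 0) (XT.lf (nat_lit 84) (nat_lit 14377128866) (nat_lit 0) (nat_lit 6230278995) (nat_lit 588) (nat_lit 35812985492) (nat_lit 117) (nat_lit 1) (nat_lit 116) (nat_lit 1) (nat_lit 123) (nat_lit 1) (nat_lit 292) (nat_lit 398) (nat_lit 390)) (XT.lf (nat_lit 504) (nat_lit 39621557552) (nat_lit 0) (nat_lit 12897671155) (nat_lit 420) (nat_lit 1994059654) (nat_lit 117) (nat_lit 1) (nat_lit 111) (nat_lit 1) (nat_lit 116) (nat_lit 1) (nat_lit 293) (nat_lit 398) (nat_lit 389))) (XT.nd (nat_lit 94) (nat_lit 336) (nat_lit 0) (XT.lf (nat_lit 504) (nat_lit 28591293235) (nat_lit 0) (nat_lit 6011660084) (nat_lit 420) (nat_lit 18085232155) (nat_lit 112) (nat_lit 1) (nat_lit 106) (nat_lit 1) (nat_lit 111) (nat_lit 1) (nat_lit 294) (nat_lit 398) (nat_lit 388)) (XT.nd (nat_lit 94) (nat_lit 0) (nat_lit 0) (XT.lf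 (nat_lit 420) (nat_lit 17397437281) (nat_lit 0) (nat_lit 110684431) (nat_lit 336) (nat_lit 33443456143) (nat_lit 107) (nat_lit 1) (nat_lit 102) (nat_lit 1) (nat_lit 106) (nat_lit 1) (nat_lit 295) (nat_lit 398) (nat_lit 387)) (XT.lf (nat_lit 84) (nat_lit 1283500702) (nat_lit 0) (nat_lit 43285863001) (nat_lit 420) (nat_lit 4725493587) (nat_lit 103) (nat_lit 1) (nat_lit 102) (nat_lit 1) (nat_lit 107) (nat_lit 1) (nat_lit 296) (nat_lit 398) (nat_lit 386)))))) (XT.nd (nat_lit 470) (nat_lit 1260) (nat_lit 0) (XT.nd (nat_lit 188) (nat_lit 1008) (nat_lit 0) (XT.nd (nat_lit 94) (nat_lit 336) (nat_lit 0) (XT.lf (nat_lit 84) (nat_lit 33140321042) (nat_lit 0) (nat_lit 5496676844) (nat_lit 420) (nat_lit 9065018388) (nat_lit 98) (nat_lit 1) (nat_lit 97) (nat_lit 1) (nat_lit 102) (nat_lit 1) (nat_lit 297) (nat_lit 398) (nat_lit 385)) (XT.lf (nat_lit 84) (nat_lit 16580942414)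 (nat_lit 0) (nat_lit 16837296922) (nat_lit 420) (nat_lit 12761315757) (nat_lit 94) (nat_lit 1) (nat_lit 93) (nat_lit 1) (nat_lit 98) (nat_lit 1) (nat_lit 298) (nat_lit 398) (nat_lit 384))) (XT.nd (nat_lit 94) (nat_lit 672) (nat_lit 0) (XT.lf (nat_lit 84) (nat_lit 818398549) (nat_lit 0) (nat_lit 28151699009) (nat_lit 420) (nat_lit 15759079861) (nat_lit 90) (nat_lit 1) (nat_lit 89) (nat_lit 1) (nat_lit 94) (nat_lit 1) (nat_lit 299) (nat_lit 398) (nat_lit 383)) (XT.nd (nat_lit 94) (nat_lit 420) (nat_lit 0) (XT.lf (nat_lit 336) (nat_lit 3695841727) (nat_lit 0) (nat_lit 24993208513) (nat_lit 252) (nat_lit 14646594595) (nat_lit 90) (nat_lit 1) (nat_lit 86) (nat_lit 1) (nat_lit 89) (nat_lit 1) (nat_lit 300) (nat_lit 398) (nat_lit 382)) (XT.lf (nat_lit 84) (nat_lit 12770126829) (nat_lit 0) (nat_lit 8752724279) (nat_lit 420) (nat_lit 20476830500) (nat_lit 82) (nat_lit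 1) (nat_lit 81) (nat_lit 1) (nat_lit 86) (nat_lit 1) (nat_lit 301) (nat_lit 398) (nat_lit 381))))) (XT.nd (nat_lit 188) (nat_lit 756) (nat_lit 0) (XT.nd (nat_lit 94) (nat_lit 252) (nat_lit 0) (XT.lf (nat_lit 336) (nat_lit 19771227946) (nat_lit 0) (nat_lit 18572513284) (nat_lit 252) (nat_lit 2377259658) (nat_lit 82) (nat_lit 1) (nat_lit 78) (nat_lit 1) (nat_lit 81) (nat_lit 1) (nat_lit 302) (nat_lit 398) (nat_lit 380)) (XT.lf (nat_lit 336) (nat_lit 6336583040) (nat_lit 0) (nat_lit 15990173401) (nat_lit 252) (nat_lit 17164703784) (nat_lit 79) (nat_lit 1) (nat_lit 75) (nat_lit 1) (nat_lit 78) (nat_lit 1) (nat_lit 303) (nat_lit 398) (nat_lit 379))) (XT.nd (nat_lit 94) (nat_lit 420) (nat_lit 0) (XT.lf (nat_lit 84) (nat_lit 7222173543) (nat_lit 0) (nat_lit 6612527500) (nat_lit 336) (nat_lit 24478283658) (nat_lit 72) (nat_lit 1) (nat_lit 71) (nat_lit 1) (nat_lit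 75) (nat_lit 1) (nat_lit 304) (nat_lit 398) (nat_lit 378)) (XT.nd (nat_lit 94) (nat_lit 168) (nat_lit 0) (XT.lf (nat_lit 336) (nat_lit 17971430956) (nat_lit 0) (nat_lit 11957524188) (nat_lit 252) (nat_lit 7248690477) (nat_lit 72) (nat_lit 1) (nat_lit 68) (nat_lit 1) (nat_lit 71) (nat_lit 1) (nat_lit 305) (nat_lit 398) (nat_lit 377)) (XT.lf (nat_lit 252) (nat_lit 4455144270) (nat_lit 0) (nat_lit 10432067670) (nat_lit 168) (nat_lit 21200897347) (nat_lit 69) (nat_lit 1) (nat_lit 66) (nat_lit 1) (nat_lit 68) (nat_lit 1) (nat_lit 306) (nat_lit 398) (nat_lit 376))))))))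
noncomputable def ec142 : XT := (XT.nd (nat_lit 1692) (nat_lit 2268) (nat_lit 0) (XT.nd (nat_lit 846) (nat_lit 1428) (nat_lit 0) (XT.nd (nat_lit 376) (nat_lit 924) (nat_lit 0) (XT.nd (nat_lit 188) (nat_lit 420) (nat_lit 0) (XT.nd (nat_lit 94) (nat_lit 168) (nat_lit 0) (XT.lf (nat_lit 84) (nat_lit 754729902) (nat_lit 0) (nat_lit 8445591450) (nat_lit 336) (nat_lit 25840484900) (nat_lit 63) (nat_lit 1) (nat_lit 62) (nat_lit 1) (nat_lit 66) (nat_lit 1) (nat_lit 307) (nat_lit 398) (nat_lit 375)) (XT.lf (nat_lit 252) (nat_lit 12945831787) (nat_lit 0) (nat_lit 8090034246) (nat_lit 168) (nat_lit 12990883412) (nat_lit 63) (nat_lit 1) (nat_lit 60) (nat_lit 1) (nat_lit 62) (nat_lit 1) (nat_lit 308) (nat_lit 398) (nat_lit 374))) (XT.nd (nat_lit 94) (nat_lit 168) (nat_lit 0) (XT.lf (nat_lit 84) (nat_lit 7023867318) (nat_lit 0) (nat_lit 324436835) (nat_lit 252) (nat_lit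 25708638431) (nat_lit 58) (nat_lit 1) (nat_lit 57) (nat_lit 1) (nat_lit 60) (nat_lit 1) (nat_lit 309) (nat_lit 398) (nat_lit 373)) (XT.lf (nat_lit 252) (nat_lit 19201896907) (nat_lit 0) (nat_lit 6653887820) (nat_lit 168) (nat_lit 6259561986) (nat_lit 58) (nat_lit 1) (nat_lit 55) (nat_lit 1) (nat_lit 57) (nat_lit 1) (nat_lit 310) (nat_lit 398) (nat_lit 372)))) (XT.nd (nat_lit 188) (nat_lit 504) (nat_lit 0) (XT.nd (nat_lit 94) (nat_lit 252) (nat_lit 0) (XT.lf (nat_lit 252) (nat_lit 5964878653) (nat_lit 0) (nat_lit 6185524527) (nat_lit 168) (nat_lit 19059348993) (nat_lit 56) (nat_lit 1) (nat_lit 53) (nat_lit 1) (nat_lit 55) (nat_lit 1) (nat_lit 311) (nat_lit 398) (nat_lit 371)) (XT.lf (nat_lit 252) (nat_lit 23678376098) (nat_lit 0) (nat_lit 5909766637) (nat_lit 168) (nat_lit 749722461) (nat_lit 53) (nat_lit 1) (nat_lit 50) (nat_lit 1) (nat_lit 52) (nat_lit 1)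 (nat_lit 312) (nat_lit 398) (nat_lit 370))) (XT.nd (nat_lit 94) (nat_lit 336) (nat_lit 0) (XT.lf (nat_lit 252) (nat_lit 10597343741) (nat_lit 0) (nat_lit 5641834680) (nat_lit 168) (nat_lit 13251026784) (nat_lit 51) (nat_lit 1) (nat_lit 48) (nat_lit 1) (nat_lit 50) (nat_lit 1) (nat_lit 313) (nat_lit 398) (nat_lit 369)) (XT.nd (nat_lit 94) (nat_lit 168) (nat_lit 0) (XT.lf (nat_lit 84) (nat_lit 3629999383) (nat_lit 0) (nat_lit 1995211233) (nat_lit 168) (nat_lit 23052493344) (nat_lit 47) (nat_lit 1) (nat_lit 46) (nat_lit 1) (nat_lit 48) (nat_lit 1) (nat_lit 314) (nat_lit 398) (nat_lit 368)) (XT.lf (nat_lit 252) (nat_lit 13904324449) (nat_lit 0) (nat_lit 5565645898) (nat_lit 168) (nat_lit 8415735065) (nat_lit 47) (nat_lit 1) (nat_lit 44) (nat_lit 1) (nat_lit 46) (nat_lit 1) (nat_lit 315) (nat_lit 398) (nat_lit 367)))))) (XT.nd (nat_lit 376) (nat_lit 756) (nat_lit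 0) (XT.nd (nat_lit 188) (nat_lit 336) (nat_lit 0) (XT.nd (nat_lit 94) (nat_lit 252) (nat_lit 0) (XT.lf (nat_lit 168) (nat_lit 1497298165) (nat_lit 0) (nat_lit 5702345353) (nat_lit 84) (nat_lit 19925330429) (nat_lit 45) (nat_lit 1) (nat_lit 43) (nat_lit 1) (nat_lit 44) (nat_lit 1) (nat_lit 316) (nat_lit 398) (nat_lit 366)) (XT.lf (nat_lit 252) (nat_lit 16162780898) (nat_lit 0) (nat_lit 5831977606) (nat_lit 168) (nat_lit 4390459694) (nat_lit 43) (nat_lit 1) (nat_lit 40) (nat_lit 1) (nat_lit 42) (nat_lit 1) (nat_lit 317) (nat_lit 398) (nat_lit 365))) (XT.nd (nat_lit 94) (nat_lit 252) (nat_lit 0) (XT.lf (nat_lit 168) (nat_lit 4065058579) (nat_lit 0) (nat_lit 6050041126) (nat_lit 84) (nat_lit 15555293998) (nat_lit 41) (nat_lit 1) (nat_lit 39) (nat_lit 1) (nat_lit 40) (nat_lit 1) (nat_lit 318) (nat_lit 398) (nat_lit 364)) (XT.lf (nat_lit 252) (nat_lit 17596638884)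 (nat_lit 0) (nat_lit 6341836399) (nat_lit 168) (nat_lit 1040749642) (nat_lit 39) (nat_lit 1) (nat_lit 36) (nat_lit 1) (nat_lit 38) (nat_lit 1) (nat_lit 319) (nat_lit 398) (nat_lit 363)))) (XT.nd (nat_lit 188) (nat_lit 420) (nat_lit 0) (XT.nd (nat_lit 94) (nat_lit 252) (nat_lit 0) (XT.lf (nat_lit 168) (nat_lit 5850176990) (nat_lit 0) (nat_lit 6611440651) (nat_lit 84) (nat_lit 11844966895) (nat_lit 37) (nat_lit 1) (nat_lit 35) (nat_lit 1) (nat_lit 36) (nat_lit 1) (nat_lit 320) (nat_lit 398) (nat_lit 362)) (XT.lf (nat_lit 84) (nat_lit 1688593894) (nat_lit 0) (nat_lit 5300046122) (nat_lit 252) (nat_lit 16669468782) (nat_lit 33) (nat_lit 1) (nat_lit 32) (nat_lit 1) (nat_lit 35) (nat_lit 1) (nat_lit 321) (nat_lit 398) (nat_lit 361))) (XT.nd (nat_lit 94) (nat_lit 336) (nat_lit 0) (XT.lf (nat_lit 168) (nat_lit 7020740207) (nat_lit 0) (nat_lit 7315278520) (nat_lit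 84) (nat_lit 8689718830) (nat_lit 33) (nat_lit 1) (nat_lit 31) (nat_lit 1) (nat_lit 32) (nat_lit 1) (nat_lit 322) (nat_lit 398) (nat_lit 360)) (XT.nd (nat_lit 94) (nat_lit 84) (nat_lit 0) (XT.lf (nat_lit 84) (nat_lit 3927040650) (nat_lit 0) (nat_lit 3803604416) (nat_lit 252) (nat_lit 14684944323) (nat_lit 29) (nat_lit 1) (nat_lit 28) (nat_lit 1) (nat_lit 31) (nat_lit 1) (nat_lit 323) (nat_lit 398) (nat_lit 359)) (XT.lf (nat_lit 168) (nat_lit 7712298870) (nat_lit 0) (nat_lit 8105924035) (nat_lit 84) (nat_lit 6002807371) (nat_lit 29) (nat_lit 1) (nat_lit 27) (nat_lit 1) (nat_lit 28) (nat_lit 1) (nat_lit 324) (nat_lit 398) (nat_lit 358))))))) (XT.nd (nat_lit 846) (nat_lit 1092) (nat_lit 0) (XT.nd (nat_lit 376) (nat_lit 672) (nat_lit 0) (XT.nd (nat_lit 188) (nat_lit 252) (nat_lit 0) (XT.nd (nat_lit 94) (nat_lit 84) (nat_lit 0) (XT.lf (nat_lit 84) (nat_lit 5781511927)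 (nat_lit 0) (nat_lit 2754786985) (nat_lit 168) (nat_lit 12709807798) (nat_lit 26) (nat_lit 1) (nat_lit 25) (nat_lit 1) (nat_lit 27) (nat_lit 1) (nat_lit 325) (nat_lit 398) (nat_lit 357)) (XT.lf (nat_lit 168) (nat_lit 8033947056) (nat_lit 0) (nat_lit 8940334078) (nat_lit 84) (nat_lit 3712187115) (nat_lit 26) (nat_lit 1) (nat_lit 24) (nat_lit 1) (nat_lit 25) (nat_lit 1) (nat_lit 326) (nat_lit 398) (nat_lit 356))) (XT.nd (nat_lit 94) (nat_lit 84) (nat_lit 0) (XT.lf (nat_lit 84) (nat_lit 7313075033) (nat_lit 0) (nat_lit 2055107011) (nat_lit 168) (nat_lit 10775861639) (nat_lit 23) (nat_lit 1) (nat_lit 22) (nat_lit 1) (nat_lit 24) (nat_lit 1) (nat_lit 327) (nat_lit 398) (nat_lit 355)) (XT.lf (nat_lit 168) (nat_lit 8073279549) (nat_lit 0) (nat_lit 9785576669) (nat_lit 84) (nat_lit 1757898405) (nat_lit 23) (nat_lit 1) (nat_lit 21) (nat_lit 1) (nat_lit 22) (nat_lit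 1) (nat_lit 328) (nat_lit 398) (nat_lit 354)))) (XT.nd (nat_lit 188) (nat_lit 420) (nat_lit 0) (XT.nd (nat_lit 94) (nat_lit 84) (nat_lit 0) (XT.lf (nat_lit 84) (nat_lit 8572483716) (nat_lit 0) (nat_lit 1625371936) (nat_lit 168) (nat_lit 8906565339) (nat_lit 20) (nat_lit 1) (nat_lit 19) (nat_lit 1) (nat_lit 21) (nat_lit 1) (nat_lit 329) (nat_lit 398) (nat_lit 353)) (XT.lf (nat_lit 168) (nat_lit 7900433122) (nat_lit 0) (nat_lit 10616819797) (nat_lit 84) (nat_lit 89929610) (nat_lit 20) (nat_lit 1) (nat_lit 18) (nat_lit 1) (nat_lit 19) (nat_lit 1) (nat_lit 330) (nat_lit 398) (nat_lit 352))) (XT.nd (nat_lit 94) (nat_lit 252) (nat_lit 0) (XT.lf (nat_lit 84) (nat_lit 9602003764) (nat_lit 0) (nat_lit 1402060619) (nat_lit 168) (nat_lit 7118735596) (nat_lit 17) (nat_lit 1) (nat_lit 16) (nat_lit 1) (nat_lit 18) (nat_lit 1) (nat_lit 331) (nat_lit 398) (nat_lit 351)) (XT.nd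 (nat_lit 94) (nat_lit 168) (nat_lit 0) (XT.lf (nat_lit 0) (nat_lit 1290852168) (nat_lit 0) (nat_lit 10102986089) (nat_lit 168) (nat_lit 6258666913) (nat_lit 15) (nat_lit 3) (nat_lit 15) (nat_lit 1) (nat_lit 17) (nat_lit 1) (nat_lit 332) (nat_lit 398) (nat_lit 350)) (XT.lf (nat_lit 84) (nat_lit 10436908146) (nat_lit 0) (nat_lit 1334370509) (nat_lit 168) (nat_lit 5423923716) (nat_lit 14) (nat_lit 1) (nat_lit 13) (nat_lit 1) (nat_lit 15) (nat_lit 1) (nat_lit 333) (nat_lit 398) (nat_lit 349)))))) (XT.nd (nat_lit 470) (nat_lit 504) (nat_lit 0) (XT.nd (nat_lit 188) (nat_lit 336) (nat_lit 0) (XT.nd (nat_lit 94) (nat_lit 168) (nat_lit 0) (XT.lf (nat_lit 0) (nat_lit 2466005197) (nat_lit 0) (nat_lit 9661228531) (nat_lit 168) (nat_lit 4622844849) (nat_lit 12) (nat_lit 3) (nat_lit 12) (nat_lit 1) (nat_lit 14) (nat_lit 1) (nat_lit 334) (nat_lit 398) (nat_lit 348)) (XT.lf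 (nat_lit 84) (nat_lit 11106702045) (nat_lit 0) (nat_lit 1381811559) (nat_lit 168) (nat_lit 3829530131) (nat_lit 11) (nat_lit 1) (nat_lit 10) (nat_lit 1) (nat_lit 12) (nat_lit 1) (nat_lit 335) (nat_lit 398) (nat_lit 347))) (XT.nd (nat_lit 94) (nat_lit 252) (nat_lit 0) (XT.lf (nat_lit 0) (nat_lit 3466928867) (nat_lit 0) (nat_lit 9341923425) (nat_lit 168) (nat_lit 3087685871) (nat_lit 9) (nat_lit 3) (nat_lit 9) (nat_lit 1) (nat_lit 11) (nat_lit 1) (nat_lit 336) (nat_lit 398) (nat_lit 346)) (XT.nd (nat_lit 94) (nat_lit 84) (nat_lit 0) (XT.lf (nat_lit 84) (nat_lit 11636127062) (nat_lit 0) (nat_lit 1512246269) (nat_lit 168) (nat_lit 2339704922) (nat_lit 8) (nat_lit 1) (nat_lit 7) (nat_lit 1) (nat_lit 9) (nat_lit 1) (nat_lit 337) (nat_lit 398) (nat_lit 345)) (XT.lf (nat_lit 0) (nat_lit 4317669337) (nat_lit 0) (nat_lit 9114679720) (nat_lit 168) (nat_lit 1656419482)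 (nat_lit 6) (nat_lit 3) (nat_lit 6) (nat_lit 1) (nat_lit 8) (nat_lit 1) (nat_lit 338) (nat_lit 398) (nat_lit 344))))) (XT.nd (nat_lit 188) (nat_lit 252) (nat_lit 0) (XT.nd (nat_lit 94) (nat_lit 84) (nat_lit 0) (XT.lf (nat_lit 84) (nat_lit 12045984875) (nat_lit 0) (nat_lit 1700293708) (nat_lit 168) (nat_lit 956074179) (nat_lit 5) (nat_lit 1) (nat_lit 4) (nat_lit 1) (nat_lit 6) (nat_lit 1) (nat_lit 339) (nat_lit 398) (nat_lit 343)) (XT.lf (nat_lit 0) (nat_lit 5038563918) (nat_lit 0) (nat_lit 8955386036) (nat_lit 168) (nat_lit 329980903) (nat_lit 3) (nat_lit 3) (nat_lit 3) (nat_lit 1) (nat_lit 5) (nat_lit 1) (nat_lit 340) (nat_lit 398) (nat_lit 342))) (XT.nd (nat_lit 94) (nat_lit 0) (nat_lit 0) (XT.lf (nat_lit 0) (nat_lit 20247536363) (nat_lit 0) (nat_lit 0) (nat_lit 0) (nat_lit 0) (nat_lit 0) (nat_lit 0) (nat_lit 1) (nat_lit 0) (nat_lit 1) (nat_lit 0) (nat_lit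 341) (nat_lit 398) (nat_lit 341)) (XT.nd (nat_lit 94) (nat_lit 0) (nat_lit 0) (XT.lf (nat_lit 0) (nat_lit 20229106812) (nat_lit 0) (nat_lit 0) (nat_lit 0) (nat_lit 0) (nat_lit 0) (nat_lit 0) (nat_lit 1) (nat_lit 0) (nat_lit 1) (nat_lit 0) (nat_lit 342) (nat_lit 398) (nat_lit 340)) (XT.lf (nat_lit 0) (nat_lit 20212042413) (nat_lit 0) (nat_lit 0) (nat_lit 0) (nat_lit 0) (nat_lit 0) (nat_lit 0) (nat_lit 1) (nat_lit 0) (nat_lit 1) (nat_lit 0) (nat_lit 343) (nat_lit 398) (nat_lit 339))))))))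
noncomputable def ec143 : XT := (XT.nd (nat_lit 1786) (nat_lit 0) (nat_lit 0) (XT.nd (nat_lit 846) (nat_lit 0) (nat_lit 0) (XT.nd (nat_lit 376) (nat_lit 0) (nat_lit 0) (XT.nd (nat_lit 188) (nat_lit 0) (nat_lit 0) (XT.nd (nat_lit 94) (nat_lit 0) (nat_lit 0) (XT.lf (nat_lit 0) (nat_lit 20196242044) (nat_lit 0) (nat_lit 0) (nat_lit 0) (nat_lit 0) (nat_lit 0) (nat_lit 0) (nat_lit 1) (nat_lit 0) (nat_lit 1) (nat_lit 0) (nat_lit 344) (nat_lit 398) (nat_lit 338)) (XT.lf (nat_lit 0) (nat_lit 20181612073) (nat_lit 0) (nat_lit 0) (nat_lit 0) (nat_lit 0) (nat_lit 0) (nat_lit 0) (nat_lit 1) (nat_lit 0) (nat_lit 1) (nat_lit 0) (nat_lit 345) (nat_lit 398) (nat_lit 337))) (XT.nd (nat_lit 94) (nat_lit 0) (nat_lit 0) (XT.lf (nat_lit 0) (nat_lit 20168065803) (nat_lit 0) (nat_lit 0) (nat_lit 0) (nat_lit 0) (nat_lit 0) (nat_lit 0) (nat_lit 1) (nat_lit 0) (nat_lit 1) (nat_lit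 0) (nat_lit 346) (nat_lit 398) (nat_lit 336)) (XT.lf (nat_lit 0) (nat_lit 20155522960) (nat_lit 0) (nat_lit 0) (nat_lit 0) (nat_lit 0) (nat_lit 0) (nat_lit 0) (nat_lit 1) (nat_lit 0) (nat_lit 1) (nat_lit 0) (nat_lit 347) (nat_lit 398) (nat_lit 335)))) (XT.nd (nat_lit 188) (nat_lit 0) (nat_lit 0) (XT.nd (nat_lit 94) (nat_lit 0) (nat_lit 0) (XT.lf (nat_lit 0) (nat_lit 20143909217) (nat_lit 0) (nat_lit 0) (nat_lit 0) (nat_lit 0) (nat_lit 0) (nat_lit 0) (nat_lit 1) (nat_lit 0) (nat_lit 1) (nat_lit 0) (nat_lit 348) (nat_lit 398) (nat_lit 334)) (XT.lf (nat_lit 0) (nat_lit 20133155751) (nat_lit 0) (nat_lit 0) (nat_lit 0) (nat_lit 0) (nat_lit 0) (nat_lit 0) (nat_lit 1) (nat_lit 0) (nat_lit 1) (nat_lit 0) (nat_lit 349) (nat_lit 398) (nat_lit 333))) (XT.nd (nat_lit 94) (nat_lit 0) (nat_lit 0) (XT.lf (nat_lit 0) (nat_lit 20123198838) (nat_lit 0) (nat_lit 0) (nat_lit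 0) (nat_lit 0) (nat_lit 0) (nat_lit 0) (nat_lit 1) (nat_lit 0) (nat_lit 1) (nat_lit 0) (nat_lit 350) (nat_lit 398) (nat_lit 332)) (XT.nd (nat_lit 94) (nat_lit 0) (nat_lit 0) (XT.lf (nat_lit 0) (nat_lit 20113979475) (nat_lit 0) (nat_lit 0) (nat_lit 0) (nat_lit 0) (nat_lit 0) (nat_lit 0) (nat_lit 1) (nat_lit 0) (nat_lit 1) (nat_lit 0) (nat_lit 351) (nat_lit 398) (nat_lit 331)) (XT.lf (nat_lit 0) (nat_lit 20105443027) (nat_lit 0) (nat_lit 0) (nat_lit 0) (nat_lit 0) (nat_lit 0) (nat_lit 0) (nat_lit 1) (nat_lit 0) (nat_lit 1) (nat_lit 0) (nat_lit 352) (nat_lit 398) (nat_lit 330)))))) (XT.nd (nat_lit 470) (nat_lit 0) (nat_lit 0) (XT.nd (nat_lit 188) (nat_lit 0) (nat_lit 0) (XT.nd (nat_lit 94) (nat_lit 0) (nat_lit 0) (XT.lf (nat_lit 0) (nat_lit 20097538908) (nat_lit 0) (nat_lit 0) (nat_lit 0) (nat_lit 0) (nat_lit 0) (nat_lit 0) (nat_lit 1) (nat_lit 0) (nat_lit 1)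 (nat_lit 0) (nat_lit 353) (nat_lit 398) (nat_lit 329)) (XT.lf (nat_lit 0) (nat_lit 20090220280) (nat_lit 0) (nat_lit 0) (nat_lit 0) (nat_lit 0) (nat_lit 0) (nat_lit 0) (nat_lit 1) (nat_lit 0) (nat_lit 1) (nat_lit 0) (nat_lit 354) (nat_lit 398) (nat_lit 328))) (XT.nd (nat_lit 94) (nat_lit 0) (nat_lit 0) (XT.lf (nat_lit 0) (nat_lit 20083443773) (nat_lit 0) (nat_lit 0) (nat_lit 0) (nat_lit 0) (nat_lit 0) (nat_lit 0) (nat_lit 1) (nat_lit 0) (nat_lit 1) (nat_lit 0) (nat_lit 355) (nat_lit 398) (nat_lit 327)) (XT.nd (nat_lit 94) (nat_lit 0) (nat_lit 0) (XT.lf (nat_lit 0) (nat_lit 20077169229) (nat_lit 0) (nat_lit 0) (nat_lit 0) (nat_lit 0) (nat_lit 0) (nat_lit 0) (nat_lit 1) (nat_lit 0) (nat_lit 1) (nat_lit 0) (nat_lit 356) (nat_lit 398) (nat_lit 326)) (XT.lf (nat_lit 0) (nat_lit 20071359466) (nat_lit 0) (nat_lit 0) (nat_lit 0) (nat_lit 0) (nat_lit 0) (nat_lit 0)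 (nat_lit 1) (nat_lit 0) (nat_lit 1) (nat_lit 0) (nat_lit 357) (nat_lit 398) (nat_lit 325))))) (XT.nd (nat_lit 188) (nat_lit 0) (nat_lit 0) (XT.nd (nat_lit 94) (nat_lit 0) (nat_lit 0) (XT.lf (nat_lit 0) (nat_lit 20065980056) (nat_lit 0) (nat_lit 0) (nat_lit 0) (nat_lit 0) (nat_lit 0) (nat_lit 0) (nat_lit 1) (nat_lit 0) (nat_lit 1) (nat_lit 0) (nat_lit 358) (nat_lit 398) (nat_lit 324)) (XT.lf (nat_lit 0) (nat_lit 20060999120) (nat_lit 0) (nat_lit 0) (nat_lit 0) (nat_lit 0) (nat_lit 0) (nat_lit 0) (nat_lit 1) (nat_lit 0) (nat_lit 1) (nat_lit 0) (nat_lit 359) (nat_lit 398) (nat_lit 323))) (XT.nd (nat_lit 94) (nat_lit 0) (nat_lit 0) (XT.lf (nat_lit 0) (nat_lit 20056387143) (nat_lit 0) (nat_lit 0) (nat_lit 0) (nat_lit 0) (nat_lit 0) (nat_lit 0) (nat_lit 1) (nat_lit 0) (nat_lit 1) (nat_lit 0) (nat_lit 360) (nat_lit 398) (nat_lit 322)) (XT.nd (nat_lit 94) (nat_lit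 0) (nat_lit 0) (XT.lf (nat_lit 0) (nat_lit 20052116794) (nat_lit 0) (nat_lit 0) (nat_lit 0) (nat_lit 0) (nat_lit 0) (nat_lit 0) (nat_lit 1) (nat_lit 0) (nat_lit 1) (nat_lit 0) (nat_lit 361) (nat_lit 398) (nat_lit 321)) (XT.lf (nat_lit 0) (nat_lit 20048162767) (nat_lit 0) (nat_lit 0) (nat_lit 0) (nat_lit 0) (nat_lit 0) (nat_lit 0) (nat_lit 1) (nat_lit 0) (nat_lit 1) (nat_lit 0) (nat_lit 362) (nat_lit 398) (nat_lit 320))))))) (XT.nd (nat_lit 846) (nat_lit 0) (nat_lit 0) (XT.nd (nat_lit 376) (nat_lit 0) (nat_lit 0) (XT.nd (nat_lit 188) (nat_lit 0) (nat_lit 0) (XT.nd (nat_lit 94) (nat_lit 0) (nat_lit 0) (XT.lf (nat_lit 0) (nat_lit 20044501631) (nat_lit 0) (nat_lit 0) (nat_lit 0) (nat_lit 0) (nat_lit 0) (nat_lit 0) (nat_lit 1) (nat_lit 0) (nat_lit 1) (nat_lit 0) (nat_lit 363) (nat_lit 398) (nat_lit 319)) (XT.lf (nat_lit 0) (nat_lit 20041111690) (nat_lit 0) (nat_lit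 0) (nat_lit 0) (nat_lit 0) (nat_lit 0) (nat_lit 0) (nat_lit 1) (nat_lit 0) (nat_lit 1) (nat_lit 0) (nat_lit 364) (nat_lit 398) (nat_lit 318))) (XT.nd (nat_lit 94) (nat_lit 0) (nat_lit 0) (XT.lf (nat_lit 0) (nat_lit 20037972856) (nat_lit 0) (nat_lit 0) (nat_lit 0) (nat_lit 0) (nat_lit 0) (nat_lit 0) (nat_lit 1) (nat_lit 0) (nat_lit 1) (nat_lit 0) (nat_lit 365) (nat_lit 398) (nat_lit 317)) (XT.lf (nat_lit 0) (nat_lit 20035066528) (nat_lit 0) (nat_lit 0) (nat_lit 0) (nat_lit 0) (nat_lit 0) (nat_lit 0) (nat_lit 1) (nat_lit 0) (nat_lit 1) (nat_lit 0) (nat_lit 366) (nat_lit 398) (nat_lit 316)))) (XT.nd (nat_lit 188) (nat_lit 0) (nat_lit 0) (XT.nd (nat_lit 94) (nat_lit 0) (nat_lit 0) (XT.lf (nat_lit 0) (nat_lit 20032375483) (nat_lit 0) (nat_lit 0) (nat_lit 0) (nat_lit 0) (nat_lit 0) (nat_lit 0) (nat_lit 1) (nat_lit 0) (nat_lit 1) (nat_lit 0) (nat_lit 367) (nat_lit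 398) (nat_lit 315)) (XT.lf (nat_lit 0) (nat_lit 20029883776) (nat_lit 0) (nat_lit 0) (nat_lit 0) (nat_lit 0) (nat_lit 0) (nat_lit 0) (nat_lit 1) (nat_lit 0) (nat_lit 1) (nat_lit 0) (nat_lit 368) (nat_lit 398) (nat_lit 314))) (XT.nd (nat_lit 94) (nat_lit 0) (nat_lit 0) (XT.lf (nat_lit 0) (nat_lit 20027576639) (nat_lit 0) (nat_lit 0) (nat_lit 0) (nat_lit 0) (nat_lit 0) (nat_lit 0) (nat_lit 1) (nat_lit 0) (nat_lit 1) (nat_lit 0) (nat_lit 369) (nat_lit 398) (nat_lit 313)) (XT.nd (nat_lit 94) (nat_lit 0) (nat_lit 0) (XT.lf (nat_lit 0) (nat_lit 20025440401) (nat_lit 0) (nat_lit 0) (nat_lit 0) (nat_lit 0) (nat_lit 0) (nat_lit 0) (nat_lit 1) (nat_lit 0) (nat_lit 1) (nat_lit 0) (nat_lit 370) (nat_lit 398) (nat_lit 312)) (XT.lf (nat_lit 0) (nat_lit 20023462403) (nat_lit 0) (nat_lit 0) (nat_lit 0) (nat_lit 0) (nat_lit 0) (nat_lit 0) (nat_lit 1) (nat_lit 0) (nat_lit 1)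 (nat_lit 0) (nat_lit 371) (nat_lit 398) (nat_lit 311)))))) (XT.nd (nat_lit 470) (nat_lit 0) (nat_lit 0) (XT.nd (nat_lit 188) (nat_lit 0) (nat_lit 0) (XT.nd (nat_lit 94) (nat_lit 0) (nat_lit 0) (XT.lf (nat_lit 0) (nat_lit 20021630923) (nat_lit 0) (nat_lit 0) (nat_lit 0) (nat_lit 0) (nat_lit 0) (nat_lit 0) (nat_lit 1) (nat_lit 0) (nat_lit 1) (nat_lit 0) (nat_lit 372) (nat_lit 398) (nat_lit 310)) (XT.lf (nat_lit 0) (nat_lit 20019935109) (nat_lit 0) (nat_lit 0) (nat_lit 0) (nat_lit 0) (nat_lit 0) (nat_lit 0) (nat_lit 1) (nat_lit 0) (nat_lit 1) (nat_lit 0) (nat_lit 373) (nat_lit 398) (nat_lit 309))) (XT.nd (nat_lit 94) (nat_lit 0) (nat_lit 0) (XT.lf (nat_lit 0) (nat_lit 20018364910) (nat_lit 0) (nat_lit 0) (nat_lit 0) (nat_lit 0) (nat_lit 0) (nat_lit 0) (nat_lit 1) (nat_lit 0) (nat_lit 1) (nat_lit 0) (nat_lit 374) (nat_lit 398) (nat_lit 308)) (XT.nd (nat_lit 94)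 (nat_lit 0) (nat_lit 0) (XT.lf (nat_lit 0) (nat_lit 20016911023) (nat_lit 0) (nat_lit 0) (nat_lit 0) (nat_lit 0) (nat_lit 0) (nat_lit 0) (nat_lit 1) (nat_lit 0) (nat_lit 1) (nat_lit 0) (nat_lit 375) (nat_lit 398) (nat_lit 307)) (XT.lf (nat_lit 0) (nat_lit 20015564831) (nat_lit 0) (nat_lit 0) (nat_lit 0) (nat_lit 0) (nat_lit 0) (nat_lit 0) (nat_lit 1) (nat_lit 0) (nat_lit 1) (nat_lit 0) (nat_lit 376) (nat_lit 398) (nat_lit 306))))) (XT.nd (nat_lit 188) (nat_lit 0) (nat_lit 0) (XT.nd (nat_lit 94) (nat_lit 0) (nat_lit 0) (XT.lf (nat_lit 0) (nat_lit 20014318356) (nat_lit 0) (nat_lit 0) (nat_lit 0) (nat_lit 0) (nat_lit 0) (nat_lit 0) (nat_lit 1) (nat_lit 0) (nat_lit 1) (nat_lit 0) (nat_lit 377) (nat_lit 398) (nat_lit 305)) (XT.lf (nat_lit 0) (nat_lit 20013164214) (nat_lit 0) (nat_lit 0) (nat_lit 0) (nat_lit 0) (nat_lit 0) (nat_lit 0) (nat_lit 1) (nat_lit 0) (nat_lit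 1) (nat_lit 0) (nat_lit 378) (nat_lit 398) (nat_lit 304))) (XT.nd (nat_lit 94) (nat_lit 0) (nat_lit 0) (XT.lf (nat_lit 0) (nat_lit 20012095563) (nat_lit 0) (nat_lit 0) (nat_lit 0) (nat_lit 0) (nat_lit 0) (nat_lit 0) (nat_lit 1) (nat_lit 0) (nat_lit 1) (nat_lit 0) (nat_lit 379) (nat_lit 398) (nat_lit 303)) (XT.nd (nat_lit 94) (nat_lit 0) (nat_lit 0) (XT.lf (nat_lit 0) (nat_lit 20011106071) (nat_lit 0) (nat_lit 0) (nat_lit 0) (nat_lit 0) (nat_lit 0) (nat_lit 0) (nat_lit 1) (nat_lit 0) (nat_lit 1) (nat_lit 0) (nat_lit 380) (nat_lit 398) (nat_lit 302)) (XT.lf (nat_lit 0) (nat_lit 20010189876) (nat_lit 0) (nat_lit 0) (nat_lit 0) (nat_lit 0) (nat_lit 0) (nat_lit 0) (nat_lit 1) (nat_lit 0) (nat_lit 1) (nat_lit 0) (nat_lit 381) (nat_lit 398) (nat_lit 301))))))))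
noncomputable def ec144 : XT := (XT.nd (nat_lit 1692) (nat_lit 0) (nat_lit 0) (XT.nd (nat_lit 846) (nat_lit 0) (nat_lit 0) (XT.nd (nat_lit 376) (nat_lit 0) (nat_lit 0) (XT.nd (nat_lit 188) (nat_lit 0) (nat_lit 0) (XT.nd (nat_lit 94) (nat_lit 0) (nat_lit 0) (XT.lf (nat_lit 0) (nat_lit 20009341546) (nat_lit 0) (nat_lit 0) (nat_lit 0) (nat_lit 0) (nat_lit 0) (nat_lit 0) (nat_lit 1) (nat_lit 0) (nat_lit 1) (nat_lit 0) (nat_lit 382) (nat_lit 398) (nat_lit 300)) (XT.lf (nat_lit 0) (nat_lit 20008556056) (nat_lit 0) (nat_lit 0) (nat_lit 0) (nat_lit 0) (nat_lit 0) (nat_lit 0) (nat_lit 1) (nat_lit 0) (nat_lit 1) (nat_lit 0) (nat_lit 383) (nat_lit 398) (nat_lit 299))) (XT.nd (nat_lit 94) (nat_lit 0) (nat_lit 0) (XT.lf (nat_lit 0) (nat_lit 20007828750) (nat_lit 0) (nat_lit 0) (nat_lit 0) (nat_lit 0) (nat_lit 0) (nat_lit 0) (nat_lit 1) (nat_lit 0) (nat_lit 1) (nat_lit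 0) (nat_lit 384) (nat_lit 398) (nat_lit 298)) (XT.lf (nat_lit 0) (nat_lit 20007155319) (nat_lit 0) (nat_lit 0) (nat_lit 0) (nat_lit 0) (nat_lit 0) (nat_lit 0) (nat_lit 1) (nat_lit 0) (nat_lit 1) (nat_lit 0) (nat_lit 385) (nat_lit 398) (nat_lit 297)))) (XT.nd (nat_lit 188) (nat_lit 0) (nat_lit 0) (XT.nd (nat_lit 94) (nat_lit 0) (nat_lit 0) (XT.lf (nat_lit 0) (nat_lit 20006531772) (nat_lit 0) (nat_lit 0) (nat_lit 0) (nat_lit 0) (nat_lit 0) (nat_lit 0) (nat_lit 1) (nat_lit 0) (nat_lit 1) (nat_lit 0) (nat_lit 386) (nat_lit 398) (nat_lit 296)) (XT.lf (nat_lit 0) (nat_lit 20005954413) (nat_lit 0) (nat_lit 0) (nat_lit 0) (nat_lit 0) (nat_lit 0) (nat_lit 0) (nat_lit 1) (nat_lit 0) (nat_lit 1) (nat_lit 0) (nat_lit 387) (nat_lit 398) (nat_lit 295))) (XT.nd (nat_lit 94) (nat_lit 0) (nat_lit 0) (XT.lf (nat_lit 0) (nat_lit 20005419821) (nat_lit 0) (nat_lit 0) (nat_lit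 0) (nat_lit 0) (nat_lit 0) (nat_lit 0) (nat_lit 1) (nat_lit 0) (nat_lit 1) (nat_lit 0) (nat_lit 388) (nat_lit 398) (nat_lit 294)) (XT.nd (nat_lit 94) (nat_lit 0) (nat_lit 0) (XT.lf (nat_lit 0) (nat_lit 20004924829) (nat_lit 0) (nat_lit 0) (nat_lit 0) (nat_lit 0) (nat_lit 0) (nat_lit 0) (nat_lit 1) (nat_lit 0) (nat_lit 1) (nat_lit 0) (nat_lit 389) (nat_lit 398) (nat_lit 293)) (XT.lf (nat_lit 0) (nat_lit 20004466503) (nat_lit 0) (nat_lit 0) (nat_lit 0) (nat_lit 0) (nat_lit 0) (nat_lit 0) (nat_lit 1) (nat_lit 0) (nat_lit 1) (nat_lit 0) (nat_lit 390) (nat_lit 398) (nat_lit 292)))))) (XT.nd (nat_lit 376) (nat_lit 0) (nat_lit 0) (XT.nd (nat_lit 188) (nat_lit 0) (nat_lit 0) (XT.nd (nat_lit 94) (nat_lit 0) (nat_lit 0) (XT.lf (nat_lit 0) (nat_lit 20004042128) (nat_lit 0) (nat_lit 0) (nat_lit 0) (nat_lit 0) (nat_lit 0) (nat_lit 0) (nat_lit 1) (nat_lit 0) (nat_lit 1)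 (nat_lit 0) (nat_lit 391) (nat_lit 398) (nat_lit 291)) (XT.lf (nat_lit 0) (nat_lit 20003649187) (nat_lit 0) (nat_lit 0) (nat_lit 0) (nat_lit 0) (nat_lit 0) (nat_lit 0) (nat_lit 1) (nat_lit 0) (nat_lit 1) (nat_lit 0) (nat_lit 392) (nat_lit 398) (nat_lit 290))) (XT.nd (nat_lit 94) (nat_lit 0) (nat_lit 0) (XT.lf (nat_lit 0) (nat_lit 20003285353) (nat_lit 0) (nat_lit 0) (nat_lit 0) (nat_lit 0) (nat_lit 0) (nat_lit 0) (nat_lit 1) (nat_lit 0) (nat_lit 1) (nat_lit 0) (nat_lit 393) (nat_lit 398) (nat_lit 289)) (XT.lf (nat_lit 0) (nat_lit 20002948470) (nat_lit 0) (nat_lit 0) (nat_lit 0) (nat_lit 0) (nat_lit 0) (nat_lit 0) (nat_lit 1) (nat_lit 0) (nat_lit 1) (nat_lit 0) (nat_lit 394) (nat_lit 398) (nat_lit 288)))) (XT.nd (nat_lit 188) (nat_lit 0) (nat_lit 0) (XT.nd (nat_lit 94) (nat_lit 0) (nat_lit 0) (XT.lf (nat_lit 0) (nat_lit 20002636541) (nat_lit 0) (nat_lit 0)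 (nat_lit 0) (nat_lit 0) (nat_lit 0) (nat_lit 0) (nat_lit 1) (nat_lit 0) (nat_lit 1) (nat_lit 0) (nat_lit 395) (nat_lit 398) (nat_lit 287)) (XT.lf (nat_lit 0) (nat_lit 20002347718) (nat_lit 0) (nat_lit 0) (nat_lit 0) (nat_lit 0) (nat_lit 0) (nat_lit 0) (nat_lit 1) (nat_lit 0) (nat_lit 1) (nat_lit 0) (nat_lit 396) (nat_lit 398) (nat_lit 286))) (XT.nd (nat_lit 94) (nat_lit 0) (nat_lit 0) (XT.lf (nat_lit 0) (nat_lit 20002080289) (nat_lit 0) (nat_lit 0) (nat_lit 0) (nat_lit 0) (nat_lit 0) (nat_lit 0) (nat_lit 1) (nat_lit 0) (nat_lit 1) (nat_lit 0) (nat_lit 397) (nat_lit 398) (nat_lit 285)) (XT.nd (nat_lit 94) (nat_lit 0) (nat_lit 0) (XT.lf (nat_lit 0) (nat_lit 20001832669) (nat_lit 0) (nat_lit 0) (nat_lit 0) (nat_lit 0) (nat_lit 0) (nat_lit 0) (nat_lit 1) (nat_lit 0) (nat_lit 1) (nat_lit 0) (nat_lit 398) (nat_lit 398) (nat_lit 284)) (XT.lf (nat_lit 0) (nat_lit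 20001603392) (nat_lit 0) (nat_lit 0) (nat_lit 0) (nat_lit 0) (nat_lit 0) (nat_lit 0) (nat_lit 1) (nat_lit 0) (nat_lit 1) (nat_lit 0) (nat_lit 399) (nat_lit 398) (nat_lit 283))))))) (XT.nd (nat_lit 846) (nat_lit 0) (nat_lit 0) (XT.nd (nat_lit 376) (nat_lit 0) (nat_lit 0) (XT.nd (nat_lit 188) (nat_lit 0) (nat_lit 0) (XT.nd (nat_lit 94) (nat_lit 0) (nat_lit 0) (XT.lf (nat_lit 0) (nat_lit 20001391099) (nat_lit 0) (nat_lit 0) (nat_lit 0) (nat_lit 0) (nat_lit 0) (nat_lit 0) (nat_lit 1) (nat_lit 0) (nat_lit 1) (nat_lit 0) (nat_lit 400) (nat_lit 398) (nat_lit 282)) (XT.lf (nat_lit 0) (nat_lit 20001194531) (nat_lit 0) (nat_lit 0) (nat_lit 0) (nat_lit 0) (nat_lit 0) (nat_lit 0) (nat_lit 1) (nat_lit 0) (nat_lit 1) (nat_lit 0) (nat_lit 401) (nat_lit 398) (nat_lit 281))) (XT.nd (nat_lit 94) (nat_lit 0) (nat_lit 0) (XT.lf (nat_lit 0) (nat_lit 20001012523) (nat_lit 0) (nat_lit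 0) (nat_lit 0) (nat_lit 0) (nat_lit 0) (nat_lit 0) (nat_lit 1) (nat_lit 0) (nat_lit 1) (nat_lit 0) (nat_lit 402) (nat_lit 398) (nat_lit 280)) (XT.lf (nat_lit 0) (nat_lit 20000843998) (nat_lit 0) (nat_lit 0) (nat_lit 0) (nat_lit 0) (nat_lit 0) (nat_lit 0) (nat_lit 1) (nat_lit 0) (nat_lit 1) (nat_lit 0) (nat_lit 403) (nat_lit 398) (nat_lit 279)))) (XT.nd (nat_lit 188) (nat_lit 0) (nat_lit 0) (XT.nd (nat_lit 94) (nat_lit 0) (nat_lit 0) (XT.lf (nat_lit 0) (nat_lit 20000687955) (nat_lit 0) (nat_lit 0) (nat_lit 0) (nat_lit 0) (nat_lit 0) (nat_lit 0) (nat_lit 1) (nat_lit 0) (nat_lit 1) (nat_lit 0) (nat_lit 404) (nat_lit 398) (nat_lit 278)) (XT.lf (nat_lit 0) (nat_lit 20000543472) (nat_lit 0) (nat_lit 0) (nat_lit 0) (nat_lit 0) (nat_lit 0) (nat_lit 0) (nat_lit 1) (nat_lit 0) (nat_lit 1) (nat_lit 0) (nat_lit 405) (nat_lit 398) (nat_lit 277))) (XT.nd (nat_lit 94) (nat_lit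 0) (nat_lit 0) (XT.lf (nat_lit 0) (nat_lit 20000409691) (nat_lit 0) (nat_lit 0) (nat_lit 0) (nat_lit 0) (nat_lit 0) (nat_lit 0) (nat_lit 1) (nat_lit 0) (nat_lit 1) (nat_lit 0) (nat_lit 406) (nat_lit 398) (nat_lit 276)) (XT.nd (nat_lit 94) (nat_lit 0) (nat_lit 0) (XT.lf (nat_lit 0) (nat_lit 20000285820) (nat_lit 0) (nat_lit 0) (nat_lit 0) (nat_lit 0) (nat_lit 0) (nat_lit 0) (nat_lit 1) (nat_lit 0) (nat_lit 1) (nat_lit 0) (nat_lit 407) (nat_lit 398) (nat_lit 275)) (XT.lf (nat_lit 0) (nat_lit 20000171124) (nat_lit 0) (nat_lit 0) (nat_lit 0) (nat_lit 0) (nat_lit 0) (nat_lit 0) (nat_lit 1) (nat_lit 0) (nat_lit 1) (nat_lit 0) (nat_lit 408) (nat_lit 398) (nat_lit 274)))))) (XT.nd (nat_lit 470) (nat_lit 0) (nat_lit 0) (XT.nd (nat_lit 188) (nat_lit 0) (nat_lit 0) (XT.nd (nat_lit 94) (nat_lit 0) (nat_lit 0) (XT.lf (nat_lit 0) (nat_lit 20000064924) (nat_lit 0) (nat_lit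 0) (nat_lit 0) (nat_lit 0) (nat_lit 0) (nat_lit 0) (nat_lit 1) (nat_lit 0) (nat_lit 1) (nat_lit 0) (nat_lit 409) (nat_lit 398) (nat_lit 273)) (XT.lf (nat_lit 0) (nat_lit 19999966591) (nat_lit 0) (nat_lit 0) (nat_lit 0) (nat_lit 0) (nat_lit 0) (nat_lit 0) (nat_lit 1) (nat_lit 0) (nat_lit 1) (nat_lit 0) (nat_lit 410) (nat_lit 398) (nat_lit 272))) (XT.nd (nat_lit 94) (nat_lit 0) (nat_lit 0) (XT.lf (nat_lit 0) (nat_lit 19999875542) (nat_lit 0) (nat_lit 0) (nat_lit 0) (nat_lit 0) (nat_lit 0) (nat_lit 0) (nat_lit 1) (nat_lit 0) (nat_lit 1) (nat_lit 0) (nat_lit 411) (nat_lit 398) (nat_lit 271)) (XT.nd (nat_lit 94) (nat_lit 0) (nat_lit 0) (XT.lf (nat_lit 0) (nat_lit 19999791238) (nat_lit 0) (nat_lit 0) (nat_lit 0) (nat_lit 0) (nat_lit 0) (nat_lit 0) (nat_lit 1) (nat_lit 0) (nat_lit 1) (nat_lit 0) (nat_lit 412) (nat_lit 398) (nat_lit 270)) (XT.lf (nat_lit 0) (nat_lit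 19999713178) (nat_lit 0) (nat_lit 0) (nat_lit 0) (nat_lit 0) (nat_lit 0) (nat_lit 0) (nat_lit 1) (nat_lit 0) (nat_lit 1) (nat_lit 0) (nat_lit 413) (nat_lit 398) (nat_lit 269))))) (XT.nd (nat_lit 188) (nat_lit 0) (nat_lit 0) (XT.nd (nat_lit 94) (nat_lit 0) (nat_lit 0) (XT.lf (nat_lit 0) (nat_lit 19999640900) (nat_lit 0) (nat_lit 0) (nat_lit 0) (nat_lit 0) (nat_lit 0) (nat_lit 0) (nat_lit 1) (nat_lit 0) (nat_lit 1) (nat_lit 0) (nat_lit 414) (nat_lit 398) (nat_lit 268)) (XT.lf (nat_lit 0) (nat_lit 19999573976) (nat_lit 0) (nat_lit 0) (nat_lit 0) (nat_lit 0) (nat_lit 0) (nat_lit 0) (nat_lit 1) (nat_lit 0) (nat_lit 1) (nat_lit 0) (nat_lit 415) (nat_lit 398) (nat_lit 267))) (XT.nd (nat_lit 94) (nat_lit 0) (nat_lit 0) (XT.lf (nat_lit 0) (nat_lit 19999512010) (nat_lit 0) (nat_lit 0) (nat_lit 0) (nat_lit 0) (nat_lit 0) (nat_lit 0) (nat_lit 1) (nat_lit 0) (nat_lit 1)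 (nat_lit 0) (nat_lit 416) (nat_lit 398) (nat_lit 266)) (XT.nd (nat_lit 94) (nat_lit 0) (nat_lit 0) (XT.lf (nat_lit 0) (nat_lit 19999454633) (nat_lit 0) (nat_lit 0) (nat_lit 0) (nat_lit 0) (nat_lit 0) (nat_lit 0) (nat_lit 1) (nat_lit 0) (nat_lit 1) (nat_lit 0) (nat_lit 417) (nat_lit 398) (nat_lit 265)) (XT.lf (nat_lit 0) (nat_lit 19999401507) (nat_lit 0) (nat_lit 0) (nat_lit 0) (nat_lit 0) (nat_lit 0) (nat_lit 0) (nat_lit 1) (nat_lit 0) (nat_lit 1) (nat_lit 0) (nat_lit 418) (nat_lit 398) (nat_lit 264))))))))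
noncomputable def ec145 : XT := (XT.nd (nat_lit 1786) (nat_lit 0) (nat_lit 0) (XT.nd (nat_lit 846) (nat_lit 0) (nat_lit 0) (XT.nd (nat_lit 376) (nat_lit 0) (nat_lit 0) (XT.nd (nat_lit 188) (nat_lit 0) (nat_lit 0) (XT.nd (nat_lit 94) (nat_lit 0) (nat_lit 0) (XT.lf (nat_lit 0) (nat_lit 19999352316) (nat_lit 0) (nat_lit 0) (nat_lit 0) (nat_lit 0) (nat_lit 0) (nat_lit 0) (nat_lit 1) (nat_lit 0) (nat_lit 1) (nat_lit 0) (nat_lit 419) (nat_lit 398) (nat_lit 263)) (XT.lf (nat_lit 0) (nat_lit 19999306769) (nat_lit 0) (nat_lit 0) (nat_lit 0) (nat_lit 0) (nat_lit 0) (nat_lit 0) (nat_lit 1) (nat_lit 0) (nat_lit 1) (nat_lit 0) (nat_lit 420) (nat_lit 398) (nat_lit 262))) (XT.nd (nat_lit 94) (nat_lit 0) (nat_lit 0) (XT.lf (nat_lit 0) (nat_lit 19999264595) (nat_lit 0) (nat_lit 0) (nat_lit 0) (nat_lit 0) (nat_lit 0) (nat_lit 0) (nat_lit 1) (nat_lit 0) (nat_lit 1) (nat_lit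 0) (nat_lit 421) (nat_lit 398) (nat_lit 261)) (XT.lf (nat_lit 0) (nat_lit 19999225546) (nat_lit 0) (nat_lit 0) (nat_lit 0) (nat_lit 0) (nat_lit 0) (nat_lit 0) (nat_lit 1) (nat_lit 0) (nat_lit 1) (nat_lit 0) (nat_lit 422) (nat_lit 398) (nat_lit 260)))) (XT.nd (nat_lit 188) (nat_lit 0) (nat_lit 0) (XT.nd (nat_lit 94) (nat_lit 0) (nat_lit 0) (XT.lf (nat_lit 0) (nat_lit 19999189389) (nat_lit 0) (nat_lit 0) (nat_lit 0) (nat_lit 0) (nat_lit 0) (nat_lit 0) (nat_lit 1) (nat_lit 0) (nat_lit 1) (nat_lit 0) (nat_lit 423) (nat_lit 398) (nat_lit 259)) (XT.lf (nat_lit 0) (nat_lit 19999155911) (nat_lit 0) (nat_lit 0) (nat_lit 0) (nat_lit 0) (nat_lit 0) (nat_lit 0) (nat_lit 1) (nat_lit 0) (nat_lit 1) (nat_lit 0) (nat_lit 424) (nat_lit 398) (nat_lit 258))) (XT.nd (nat_lit 94) (nat_lit 0) (nat_lit 0) (XT.lf (nat_lit 0) (nat_lit 19999124912) (nat_lit 0) (nat_lit 0) (nat_lit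 0) (nat_lit 0) (nat_lit 0) (nat_lit 0) (nat_lit 1) (nat_lit 0) (nat_lit 1) (nat_lit 0) (nat_lit 425) (nat_lit 398) (nat_lit 257)) (XT.nd (nat_lit 94) (nat_lit 0) (nat_lit 0) (XT.lf (nat_lit 0) (nat_lit 19999096209) (nat_lit 0) (nat_lit 0) (nat_lit 0) (nat_lit 0) (nat_lit 0) (nat_lit 0) (nat_lit 1) (nat_lit 0) (nat_lit 1) (nat_lit 0) (nat_lit 426) (nat_lit 398) (nat_lit 256)) (XT.lf (nat_lit 0) (nat_lit 19999069633) (nat_lit 0) (nat_lit 0) (nat_lit 0) (nat_lit 0) (nat_lit 0) (nat_lit 0) (nat_lit 1) (nat_lit 0) (nat_lit 1) (nat_lit 0) (nat_lit 427) (nat_lit 398) (nat_lit 255)))))) (XT.nd (nat_lit 470) (nat_lit 0) (nat_lit 0) (XT.nd (nat_lit 188) (nat_lit 0) (nat_lit 0) (XT.nd (nat_lit 94) (nat_lit 0) (nat_lit 0) (XT.lf (nat_lit 0) (nat_lit 19999045025) (nat_lit 0) (nat_lit 0) (nat_lit 0) (nat_lit 0) (nat_lit 0) (nat_lit 0) (nat_lit 1) (nat_lit 0) (nat_lit 1)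 (nat_lit 0) (nat_lit 428) (nat_lit 398) (nat_lit 254)) (XT.lf (nat_lit 0) (nat_lit 19999022240) (nat_lit 0) (nat_lit 0) (nat_lit 0) (nat_lit 0) (nat_lit 0) (nat_lit 0) (nat_lit 1) (nat_lit 0) (nat_lit 1) (nat_lit 0) (nat_lit 429) (nat_lit 398) (nat_lit 253))) (XT.nd (nat_lit 94) (nat_lit 0) (nat_lit 0) (XT.lf (nat_lit 0) (nat_lit 19999001143) (nat_lit 0) (nat_lit 0) (nat_lit 0) (nat_lit 0) (nat_lit 0) (nat_lit 0) (nat_lit 1) (nat_lit 0) (nat_lit 1) (nat_lit 0) (nat_lit 430) (nat_lit 398) (nat_lit 252)) (XT.nd (nat_lit 94) (nat_lit 0) (nat_lit 0) (XT.lf (nat_lit 0) (nat_lit 19998981609) (nat_lit 0) (nat_lit 0) (nat_lit 0) (nat_lit 0) (nat_lit 0) (nat_lit 0) (nat_lit 1) (nat_lit 0) (nat_lit 1) (nat_lit 0) (nat_lit 431) (nat_lit 398) (nat_lit 251)) (XT.lf (nat_lit 0) (nat_lit 19998963521) (nat_lit 0) (nat_lit 0) (nat_lit 0) (nat_lit 0) (nat_lit 0) (nat_lit 0)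 (nat_lit 1) (nat_lit 0) (nat_lit 1) (nat_lit 0) (nat_lit 432) (nat_lit 398) (nat_lit 250))))) (XT.nd (nat_lit 188) (nat_lit 0) (nat_lit 0) (XT.nd (nat_lit 94) (nat_lit 0) (nat_lit 0) (XT.lf (nat_lit 0) (nat_lit 19998946774) (nat_lit 0) (nat_lit 0) (nat_lit 0) (nat_lit 0) (nat_lit 0) (nat_lit 0) (nat_lit 1) (nat_lit 0) (nat_lit 1) (nat_lit 0) (nat_lit 433) (nat_lit 398) (nat_lit 249)) (XT.lf (nat_lit 0) (nat_lit 19998931267) (nat_lit 0) (nat_lit 0) (nat_lit 0) (nat_lit 0) (nat_lit 0) (nat_lit 0) (nat_lit 1) (nat_lit 0) (nat_lit 1) (nat_lit 0) (nat_lit 434) (nat_lit 398) (nat_lit 248))) (XT.nd (nat_lit 94) (nat_lit 0) (nat_lit 0) (XT.lf (nat_lit 0) (nat_lit 19998916908) (nat_lit 0) (nat_lit 0) (nat_lit 0) (nat_lit 0) (nat_lit 0) (nat_lit 0) (nat_lit 1) (nat_lit 0) (nat_lit 1) (nat_lit 0) (nat_lit 435) (nat_lit 398) (nat_lit 247)) (XT.nd (nat_lit 94) (nat_lit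 0) (nat_lit 0) (XT.lf (nat_lit 0) (nat_lit 19998903614) (nat_lit 0) (nat_lit 0) (nat_lit 0) (nat_lit 0) (nat_lit 0) (nat_lit 0) (nat_lit 1) (nat_lit 0) (nat_lit 1) (nat_lit 0) (nat_lit 436) (nat_lit 398) (nat_lit 246)) (XT.lf (nat_lit 0) (nat_lit 19998891304) (nat_lit 0) (nat_lit 0) (nat_lit 0) (nat_lit 0) (nat_lit 0) (nat_lit 0) (nat_lit 1) (nat_lit 0) (nat_lit 1) (nat_lit 0) (nat_lit 437) (nat_lit 398) (nat_lit 245))))))) (XT.nd (nat_lit 53674) (nat_lit 0) (nat_lit 7476) (XT.nd (nat_lit 53204) (nat_lit 0) (nat_lit 10836) (XT.nd (nat_lit 188) (nat_lit 0) (nat_lit 0) (XT.nd (nat_lit 94) (nat_lit 0) (nat_lit 0) (XT.lf (nat_lit 0) (nat_lit 19998879905) (nat_lit 0) (nat_lit 0) (nat_lit 0) (nat_lit 0) (nat_lit 0) (nat_lit 0) (nat_lit 1) (nat_lit 0) (nat_lit 1) (nat_lit 0) (nat_lit 438) (nat_lit 398) (nat_lit 244)) (XT.lf (nat_lit 0) (nat_lit 19998869352) (nat_lit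 0) (nat_lit 0) (nat_lit 0) (nat_lit 0) (nat_lit 0) (nat_lit 0) (nat_lit 1) (nat_lit 0) (nat_lit 1) (nat_lit 0) (nat_lit 439) (nat_lit 398) (nat_lit 243))) (XT.nd (nat_lit 52922) (nat_lit 0) (nat_lit 10752) (XT.lf (nat_lit 0) (nat_lit 19998859579) (nat_lit 0) (nat_lit 0) (nat_lit 0) (nat_lit 0) (nat_lit 0) (nat_lit 0) (nat_lit 1) (nat_lit 0) (nat_lit 1) (nat_lit 0) (nat_lit 440) (nat_lit 398) (nat_lit 242)) (XT.lf (nat_lit 924) (nat_lit 10808766699) (nat_lit 0) (nat_lit 19190940429) (nat_lit 924) (nat_lit 10808766699) (nat_lit 139) (nat_lit 1) (nat_lit 128) (nat_lit 0) (nat_lit 139) (nat_lit 0) (nat_lit 282) (nat_lit 399) (nat_lit 399)))) (XT.nd (nat_lit 188) (nat_lit 0) (nat_lit 84) (XT.nd (nat_lit 94) (nat_lit 0) (nat_lit 0) (XT.lf (nat_lit 924) (nat_lit 4032001636) (nat_lit 0) (nat_lit 37677632382) (nat_lit 840) (nat_lit 36848598591) (nat_lit 140) (nat_lit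 1) (nat_lit 129) (nat_lit 1) (nat_lit 139) (nat_lit 1) (nat_lit 283) (nat_lit 399) (nat_lit 398)) (XT.lf (nat_lit 924) (nat_lit 37031607726) (nat_lit 84) (nat_lit 25232723106) (nat_lit 0) (nat_lit 13382285317) (nat_lit 140) (nat_lit 1) (nat_lit 130) (nat_lit 1) (nat_lit 129) (nat_lit 1) (nat_lit 284) (nat_lit 399) (nat_lit 397))) (XT.nd (nat_lit 94) (nat_lit 0) (nat_lit 84) (XT.lf (nat_lit 924) (nat_lit 31998342748) (nat_lit 84) (nat_lit 10574859357) (nat_lit 0) (nat_lit 30307502257) (nat_lit 141) (nat_lit 1) (nat_lit 131) (nat_lit 1) (nat_lit 130) (nat_lit 1) (nat_lit 285) (nat_lit 399) (nat_lit 396)) (XT.nd (nat_lit 94) (nat_lit 0) (nat_lit 84) (XT.lf (nat_lit 924) (nat_lit 23681494038) (nat_lit 0) (nat_lit 44306955970) (nat_lit 840) (nat_lit 2264965259) (nat_lit 142) (nat_lit 1) (nat_lit 131) (nat_lit 1) (nat_lit 141) (nat_lit 1) (nat_lit 286) (nat_lit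 399) (nat_lit 395)) (XT.lf (nat_lit 924) (nat_lit 5682142303) (nat_lit 0) (nat_lit 48860727907) (nat_lit 840) (nat_lit 13208727407) (nat_lit 143) (nat_lit 1) (nat_lit 132) (nat_lit 1) (nat_lit 142) (nat_lit 1) (nat_lit 287) (nat_lit 399) (nat_lit 394)))))) (XT.nd (nat_lit 470) (nat_lit 1428) (nat_lit 0) (XT.nd (nat_lit 188) (nat_lit 1428) (nat_lit 0) (XT.nd (nat_lit 94) (nat_lit 756) (nat_lit 0) (XT.lf (nat_lit 924) (nat_lit 10918766385) (nat_lit 84) (nat_lit 42463951451) (nat_lit 0) (nat_lit 11983851005) (nat_lit 143) (nat_lit 1) (nat_lit 133) (nat_lit 1) (nat_lit 132) (nat_lit 1) (nat_lit 288) (nat_lit 399) (nat_lit 393)) (XT.lf (nat_lit 924) (nat_lit 2242465634) (nat_lit 0) (nat_lit 31744612592) (nat_lit 840) (nat_lit 29109477132) (nat_lit 134) (nat_lit 1) (nat_lit 123) (nat_lit 1) (nat_lit 133) (nat_lit 1) (nat_lit 289) (nat_lit 399) (nat_lit 392))) (XT.nd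 (nat_lit 94) (nat_lit 840) (nat_lit 0) (XT.lf (nat_lit 84) (nat_lit 15527299175) (nat_lit 0) (nat_lit 6728701314) (nat_lit 588) (nat_lit 38678024331) (nat_lit 117) (nat_lit 1) (nat_lit 116) (nat_lit 1) (nat_lit 123) (nat_lit 1) (nat_lit 290) (nat_lit 399) (nat_lit 391)) (XT.nd (nat_lit 94) (nat_lit 420) (nat_lit 0) (XT.lf (nat_lit 504) (nat_lit 42791282156) (nat_lit 0) (nat_lit 13929484847) (nat_lit 420) (nat_lit 2153584426) (nat_lit 117) (nat_lit 1) (nat_lit 111) (nat_lit 1) (nat_lit 116) (nat_lit 1) (nat_lit 291) (nat_lit 399) (nat_lit 390)) (XT.lf (nat_lit 504) (nat_lit 30878596693) (nat_lit 0) (nat_lit 6492592890) (nat_lit 420) (nat_lit 19532050727) (nat_lit 112) (nat_lit 1) (nat_lit 106) (nat_lit 1) (nat_lit 111) (nat_lit 1) (nat_lit 292) (nat_lit 399) (nat_lit 389))))) (XT.nd (nat_lit 188) (nat_lit 1092) (nat_lit 0) (XT.nd (nat_lit 94) (nat_lit 0) (nat_lit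 0) (XT.lf (nat_lit 420) (nat_lit 18789232264) (nat_lit 0) (nat_lit 119539186) (nat_lit 336) (nat_lit 36118932635) (nat_lit 107) (nat_lit 1) (nat_lit 102) (nat_lit 1) (nat_lit 106) (nat_lit 1) (nat_lit 293) (nat_lit 399) (nat_lit 388)) (XT.lf (nat_lit 84) (nat_lit 1386180758) (nat_lit 0) (nat_lit 46748732041) (nat_lit 420) (nat_lit 5103533074) (nat_lit 103) (nat_lit 1) (nat_lit 102) (nat_lit 1) (nat_lit 107) (nat_lit 1) (nat_lit 294) (nat_lit 399) (nat_lit 387))) (XT.nd (nat_lit 94) (nat_lit 672) (nat_lit 0) (XT.lf (nat_lit 84) (nat_lit 35791546725) (nat_lit 0) (nat_lit 5936410991) (nat_lit 420) (nat_lit 9790219859) (nat_lit 98) (nat_lit 1) (nat_lit 97) (nat_lit 1) (nat_lit 102) (nat_lit 1) (nat_lit 295) (nat_lit 399) (nat_lit 386)) (XT.nd (nat_lit 94) (nat_lit 336) (nat_lit 0) (XT.lf (nat_lit 84) (nat_lit 17907417807) (nat_lit 0) (nat_lit 18184280676) (nat_lit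 420) (nat_lit 13782221018) (nat_lit 94) (nat_lit 1) (nat_lit 93) (nat_lit 1) (nat_lit 98) (nat_lit 1) (nat_lit 296) (nat_lit 399) (nat_lit 385)) (XT.lf (nat_lit 84) (nat_lit 883870433) (nat_lit 0) (nat_lit 30403834929) (nat_lit 420) (nat_lit 17019806250) (nat_lit 90) (nat_lit 1) (nat_lit 89) (nat_lit 1) (nat_lit 94) (nat_lit 1) (nat_lit 297) (nat_lit 399) (nat_lit 384))))))))
noncomputable def ec146 : XT := (XT.nd (nat_lit 1692) (nat_lit 2604) (nat_lit 0) (XT.nd (nat_lit 846) (nat_lit 1680) (nat_lit 0) (XT.nd (nat_lit 376) (nat_lit 1260) (nat_lit 0) (XT.nd (nat_lit 188) (nat_lit 504) (nat_lit 0) (XT.nd (nat_lit 94) (nat_lit 420) (nat_lit 0) (XT.lf (nat_lit 336) (nat_lit 3991509065) (nat_lit 0) (nat_lit 26992665194) (nat_lit 252) (nat_lit 15818322163) (nat_lit 90) (nat_lit 1) (nat_lit 86) (nat_lit 1) (nat_lit 89) (nat_lit 1) (nat_lit 298) (nat_lit 399) (nat_lit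 383)) (XT.lf (nat_lit 84) (nat_lit 13791736976) (nat_lit 0) (nat_lit 9452942221) (nat_lit 420) (nat_lit 22114976940) (nat_lit 82) (nat_lit 1) (nat_lit 81) (nat_lit 1) (nat_lit 86) (nat_lit 1) (nat_lit 299) (nat_lit 399) (nat_lit 382))) (XT.nd (nat_lit 94) (nat_lit 252) (nat_lit 0) (XT.lf (nat_lit 336) (nat_lit 21352926182) (nat_lit 0) (nat_lit 20058314347) (nat_lit 252) (nat_lit 2567440430) (nat_lit 82) (nat_lit 1) (nat_lit 78) (nat_lit 1) (nat_lit 81) (nat_lit 1) (nat_lit 300) (nat_lit 399) (nat_lit 381)) (XT.lf (nat_lit 336) (nat_lit 6843509684) (nat_lit 0) (nat_lit 17269387273) (nat_lit 252) (nat_lit 18537880087) (nat_lit 79) (nat_lit 1) (nat_lit 75) (nat_lit 1) (nat_lit 78) (nat_lit 1) (nat_lit 301) (nat_lit 399) (nat_lit 380)))) (XT.nd (nat_lit 188) (nat_lit 672) (nat_lit 0) (XT.nd (nat_lit 94) (nat_lit 252) (nat_lit 0) (XT.lf (nat_lit 84) (nat_lit 7799947427)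 (nat_lit 0) (nat_lit 7141529700) (nat_lit 336) (nat_lit 26436546350) (nat_lit 72) (nat_lit 1) (nat_lit 71) (nat_lit 1) (nat_lit 75) (nat_lit 1) (nat_lit 302) (nat_lit 399) (nat_lit 379)) (XT.lf (nat_lit 336) (nat_lit 19409145432) (nat_lit 0) (nat_lit 12914126123) (nat_lit 252) (nat_lit 7828585715) (nat_lit 72) (nat_lit 1) (nat_lit 68) (nat_lit 1) (nat_lit 71) (nat_lit 1) (nat_lit 303) (nat_lit 399) (nat_lit 378))) (XT.nd (nat_lit 94) (nat_lit 504) (nat_lit 0) (XT.lf (nat_lit 252) (nat_lit 4811555811) (nat_lit 0) (nat_lit 11266633083) (nat_lit 168) (nat_lit 22896969135) (nat_lit 69) (nat_lit 1) (nat_lit 66) (nat_lit 1) (nat_lit 68) (nat_lit 1) (nat_lit 304) (nat_lit 399) (nat_lit 377)) (XT.nd (nat_lit 94) (nat_lit 168) (nat_lit 0) (XT.lf (nat_lit 84) (nat_lit 815108294) (nat_lit 0) (nat_lit 9121238766) (nat_lit 336) (nat_lit 27907723692) (nat_lit 63) (nat_lit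 1) (nat_lit 62) (nat_lit 1) (nat_lit 66) (nat_lit 1) (nat_lit 305) (nat_lit 399) (nat_lit 376)) (XT.lf (nat_lit 252) (nat_lit 13981498330) (nat_lit 0) (nat_lit 8737236986) (nat_lit 168) (nat_lit 14030154085) (nat_lit 63) (nat_lit 1) (nat_lit 60) (nat_lit 1) (nat_lit 62) (nat_lit 1) (nat_lit 306) (nat_lit 399) (nat_lit 375)))))) (XT.nd (nat_lit 376) (nat_lit 840) (nat_lit 0) (XT.nd (nat_lit 188) (nat_lit 420) (nat_lit 0) (XT.nd (nat_lit 94) (nat_lit 168) (nat_lit 0) (XT.lf (nat_lit 84) (nat_lit 7585776703) (nat_lit 0) (nat_lit 350391781) (nat_lit 252) (nat_lit 27765329505) (nat_lit 58) (nat_lit 1) (nat_lit 57) (nat_lit 1) (nat_lit 60) (nat_lit 1) (nat_lit 307) (nat_lit 399) (nat_lit 374)) (XT.lf (nat_lit 252) (nat_lit 20738048659) (nat_lit 0) (nat_lit 7186198846) (nat_lit 168) (nat_lit 6760326944) (nat_lit 58) (nat_lit 1) (nat_lit 55) (nat_lit 1) (nat_lit 57)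 (nat_lit 1) (nat_lit 308) (nat_lit 399) (nat_lit 373))) (XT.nd (nat_lit 94) (nat_lit 252) (nat_lit 0) (XT.lf (nat_lit 252) (nat_lit 6442068945) (nat_lit 0) (nat_lit 6680366489) (nat_lit 168) (nat_lit 20584096913) (nat_lit 56) (nat_lit 1) (nat_lit 53) (nat_lit 1) (nat_lit 55) (nat_lit 1) (nat_lit 309) (nat_lit 399) (nat_lit 372)) (XT.lf (nat_lit 252) (nat_lit 25572646185) (nat_lit 0) (nat_lit 6382547968) (nat_lit 168) (nat_lit 809700258) (nat_lit 53) (nat_lit 1) (nat_lit 50) (nat_lit 1) (nat_lit 52) (nat_lit 1) (nat_lit 310) (nat_lit 399) (nat_lit 371)))) (XT.nd (nat_lit 188) (nat_lit 504) (nat_lit 0) (XT.nd (nat_lit 94) (nat_lit 168) (nat_lit 0) (XT.lf (nat_lit 252) (nat_lit 11445131240) (nat_lit 0) (nat_lit 6093181454) (nat_lit 168) (nat_lit 14311108926) (nat_lit 51) (nat_lit 1) (nat_lit 48) (nat_lit 1) (nat_lit 50) (nat_lit 1) (nat_lit 311) (nat_lit 399)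 (nat_lit 370)) (XT.lf (nat_lit 84) (nat_lit 3920399334) (nat_lit 0) (nat_lit 2154828132) (nat_lit 168) (nat_lit 24896692811) (nat_lit 47) (nat_lit 1) (nat_lit 46) (nat_lit 1) (nat_lit 48) (nat_lit 1) (nat_lit 312) (nat_lit 399) (nat_lit 369))) (XT.nd (nat_lit 94) (nat_lit 336) (nat_lit 0) (XT.lf (nat_lit 252) (nat_lit 15016670405) (nat_lit 0) (nat_lit 6010897570) (nat_lit 168) (nat_lit 9088993870) (nat_lit 47) (nat_lit 1) (nat_lit 44) (nat_lit 1) (nat_lit 46) (nat_lit 1) (nat_lit 313) (nat_lit 399) (nat_lit 368)) (XT.nd (nat_lit 94) (nat_lit 252) (nat_lit 0) (XT.lf (nat_lit 168) (nat_lit 1617082018) (nat_lit 0) (nat_lit 6158532982) (nat_lit 84) (nat_lit 21519356863) (nat_lit 45) (nat_lit 1) (nat_lit 43) (nat_lit 1) (nat_lit 44) (nat_lit 1) (nat_lit 314) (nat_lit 399) (nat_lit 367)) (XT.lf (nat_lit 252) (nat_lit 17455803370) (nat_lit 0) (nat_lit 6298535815)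 (nat_lit 168) (nat_lit 4741696469) (nat_lit 43) (nat_lit 1) (nat_lit 40) (nat_lit 1) (nat_lit 42) (nat_lit 1) (nat_lit 315) (nat_lit 399) (nat_lit 366))))))) (XT.nd (nat_lit 846) (nat_lit 1260) (nat_lit 0) (XT.nd (nat_lit 376) (nat_lit 672) (nat_lit 0) (XT.nd (nat_lit 188) (nat_lit 336) (nat_lit 0) (XT.nd (nat_lit 94) (nat_lit 252) (nat_lit 0) (XT.lf (nat_lit 168) (nat_lit 4390263266) (nat_lit 0) (nat_lit 6534044416) (nat_lit 84) (nat_lit 16799717518) (nat_lit 41) (nat_lit 1) (nat_lit 39) (nat_lit 1) (nat_lit 40) (nat_lit 1) (nat_lit 316) (nat_lit 399) (nat_lit 365)) (XT.lf (nat_lit 252) (nat_lit 19004369994) (nat_lit 0) (nat_lit 6849183311) (nat_lit 168) (nat_lit 1124009613) (nat_lit 39) (nat_lit 1) (nat_lit 36) (nat_lit 1) (nat_lit 38) (nat_lit 1) (nat_lit 317) (nat_lit 399) (nat_lit 364))) (XT.nd (nat_lit 94) (nat_lit 252) (nat_lit 0) (XT.lf (nat_lit 168)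 (nat_lit 6318191149) (nat_lit 0) (nat_lit 7140355903) (nat_lit 84) (nat_lit 12792564247) (nat_lit 37) (nat_lit 1) (nat_lit 35) (nat_lit 1) (nat_lit 36) (nat_lit 1) (nat_lit 318) (nat_lit 399) (nat_lit 363)) (XT.lf (nat_lit 84) (nat_lit 1823681406) (nat_lit 0) (nat_lit 5724049812) (nat_lit 252) (nat_lit 18003026285) (nat_lit 33) (nat_lit 1) (nat_lit 32) (nat_lit 1) (nat_lit 35) (nat_lit 1) (nat_lit 319) (nat_lit 399) (nat_lit 362)))) (XT.nd (nat_lit 188) (nat_lit 336) (nat_lit 0) (XT.nd (nat_lit 94) (nat_lit 252) (nat_lit 0) (XT.lf (nat_lit 168) (nat_lit 7582399423) (nat_lit 0) (nat_lit 7900500801) (nat_lit 84) (nat_lit 9384896337) (nat_lit 33) (nat_lit 1) (nat_lit 31) (nat_lit 1) (nat_lit 32) (nat_lit 1) (nat_lit 320) (nat_lit 399) (nat_lit 361)) (XT.lf (nat_lit 84) (nat_lit 4241203902) (nat_lit 0) (nat_lit 4107892769) (nat_lit 252) (nat_lit 15859739869) (nat_lit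 29) (nat_lit 1) (nat_lit 28) (nat_lit 1) (nat_lit 31) (nat_lit 1) (nat_lit 321) (nat_lit 399) (nat_lit 360))) (XT.nd (nat_lit 94) (nat_lit 252) (nat_lit 0) (XT.lf (nat_lit 168) (nat_lit 8329282780) (nat_lit 0) (nat_lit 8754397958) (nat_lit 84) (nat_lit 6483031961) (nat_lit 29) (nat_lit 1) (nat_lit 27) (nat_lit 1) (nat_lit 28) (nat_lit 1) (nat_lit 322) (nat_lit 399) (nat_lit 359)) (XT.nd (nat_lit 94) (nat_lit 84) (nat_lit 0) (XT.lf (nat_lit 84) (nat_lit 6244032881) (nat_lit 0) (nat_lit 2975169944) (nat_lit 168) (nat_lit 13726592422) (nat_lit 26) (nat_lit 1) (nat_lit 25) (nat_lit 1) (nat_lit 27) (nat_lit 1) (nat_lit 323) (nat_lit 399) (nat_lit 358)) (XT.lf (nat_lit 168) (nat_lit 8676662821) (nat_lit 0) (nat_lit 9655560804) (nat_lit 84) (nat_lit 4009162084) (nat_lit 26) (nat_lit 1) (nat_lit 24) (nat_lit 1) (nat_lit 25) (nat_lit 1) (nat_lit 324) (nat_lit 399)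 (nat_lit 357)))))) (XT.nd (nat_lit 470) (nat_lit 588) (nat_lit 0) (XT.nd (nat_lit 188) (nat_lit 420) (nat_lit 0) (XT.nd (nat_lit 94) (nat_lit 84) (nat_lit 0) (XT.lf (nat_lit 84) (nat_lit 7898121035) (nat_lit 0) (nat_lit 2219515572) (nat_lit 168) (nat_lit 11637930570) (nat_lit 23) (nat_lit 1) (nat_lit 22) (nat_lit 1) (nat_lit 24) (nat_lit 1) (nat_lit 325) (nat_lit 399) (nat_lit 356)) (XT.lf (nat_lit 168) (nat_lit 8719141913) (nat_lit 0) (nat_lit 10568422802) (nat_lit 84) (nat_lit 1898530278) (nat_lit 23) (nat_lit 1) (nat_lit 21) (nat_lit 1) (nat_lit 22) (nat_lit 1) (nat_lit 326) (nat_lit 399) (nat_lit 355))) (XT.nd (nat_lit 94) (nat_lit 252) (nat_lit 0) (XT.lf (nat_lit 84) (nat_lit 9258282413) (nat_lit 0) (nat_lit 1755401691) (nat_lit 168) (nat_lit 9619090566) (nat_lit 20) (nat_lit 1) (nat_lit 19) (nat_lit 1) (nat_lit 21) (nat_lit 1) (nat_lit 327) (nat_lit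 399) (nat_lit 354)) (XT.nd (nat_lit 94) (nat_lit 168) (nat_lit 0) (XT.lf (nat_lit 168) (nat_lit 8532467772) (nat_lit 0) (nat_lit 11466165381) (nat_lit 84) (nat_lit 97123979) (nat_lit 20) (nat_lit 1) (nat_lit 18) (nat_lit 1) (nat_lit 19) (nat_lit 1) (nat_lit 328) (nat_lit 399) (nat_lit 353)) (XT.lf (nat_lit 84) (nat_lit 10370164065) (nat_lit 0) (nat_lit 1514225469) (nat_lit 168) (nat_lit 7688234444) (nat_lit 17) (nat_lit 1) (nat_lit 16) (nat_lit 1) (nat_lit 18) (nat_lit 1) (nat_lit 329) (nat_lit 399) (nat_lit 352))))) (XT.nd (nat_lit 188) (nat_lit 336) (nat_lit 0) (XT.nd (nat_lit 94) (nat_lit 168) (nat_lit 0) (XT.lf (nat_lit 0) (nat_lit 1394120341) (nat_lit 0) (nat_lit 10911224976) (nat_lit 168) (nat_lit 6759360266) (nat_lit 15) (nat_lit 3) (nat_lit 15) (nat_lit 1) (nat_lit 17) (nat_lit 1) (nat_lit 330) (nat_lit 399) (nat_lit 351)) (XT.lf (nat_lit 84) (nat_lit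 11271860798) (nat_lit 0) (nat_lit 1441120150) (nat_lit 168) (nat_lit 5857837613) (nat_lit 14) (nat_lit 1) (nat_lit 13) (nat_lit 1) (nat_lit 15) (nat_lit 1) (nat_lit 331) (nat_lit 399) (nat_lit 350))) (XT.nd (nat_lit 94) (nat_lit 252) (nat_lit 0) (XT.lf (nat_lit 0) (nat_lit 2663285612) (nat_lit 0) (nat_lit 10434126813) (nat_lit 168) (nat_lit 4992672437) (nat_lit 12) (nat_lit 3) (nat_lit 12) (nat_lit 1) (nat_lit 14) (nat_lit 1) (nat_lit 332) (nat_lit 399) (nat_lit 349)) (XT.nd (nat_lit 94) (nat_lit 84) (nat_lit 0) (XT.lf (nat_lit 84) (nat_lit 11995238208) (nat_lit 0) (nat_lit 1492356484) (nat_lit 168) (nat_lit 4135892541) (nat_lit 11) (nat_lit 1) (nat_lit 10) (nat_lit 1) (nat_lit 12) (nat_lit 1) (nat_lit 333) (nat_lit 399) (nat_lit 348)) (XT.lf (nat_lit 0) (nat_lit 3744283177) (nat_lit 0) (nat_lit 10089277299) (nat_lit 168) (nat_lit 3334700740) (nat_lit 9) (nat_lit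 3) (nat_lit 9) (nat_lit 1) (nat_lit 11) (nat_lit 1) (nat_lit 334) (nat_lit 399) (nat_lit 347))))))))
noncomputable def ec147 : XT := (XT.nd (nat_lit 1786) (nat_lit 0) (nat_lit 0) (XT.nd (nat_lit 846) (nat_lit 0) (nat_lit 0) (XT.nd (nat_lit 376) (nat_lit 252) (nat_lit 0) (XT.nd (nat_lit 188) (nat_lit 252) (nat_lit 0) (XT.nd (nat_lit 94) (nat_lit 84) (nat_lit 0) (XT.lf (nat_lit 84) (nat_lit 12567017227) (nat_lit 0) (nat_lit 1633225971) (nat_lit 168) (nat_lit 2526881316) (nat_lit 8) (nat_lit 1) (nat_lit 7) (nat_lit 1) (nat_lit 9) (nat_lit 1) (nat_lit 335) (nat_lit 399) (nat_lit 346)) (XT.lf (nat_lit 0) (nat_lit 4663082884) (nat_lit 0) (nat_lit 9843854098) (nat_lit 168) (nat_lit 1788933040) (nat_lit 6) (nat_lit 3) (nat_lit 6) (nat_lit 1) (nat_lit 8) (nat_lit 1) (nat_lit 336) (nat_lit 399) (nat_lit 345))) (XT.nd (nat_lit 94) (nat_lit 84) (nat_lit 0) (XT.lf (nat_lit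 84) (nat_lit 13009663665) (nat_lit 0) (nat_lit 1836317204) (nat_lit 168) (nat_lit 1032560113) (nat_lit 5) (nat_lit 1) (nat_lit 4) (nat_lit 1) (nat_lit 6) (nat_lit 1) (nat_lit 337) (nat_lit 399) (nat_lit 344)) (XT.lf (nat_lit 0) (nat_lit 5441649032) (nat_lit 0) (nat_lit 9671816919) (nat_lit 168) (nat_lit 356379375) (nat_lit 3) (nat_lit 3) (nat_lit 3) (nat_lit 1) (nat_lit 5) (nat_lit 1) (nat_lit 338) (nat_lit 399) (nat_lit 343)))) (XT.nd (nat_lit 188) (nat_lit 0) (nat_lit 0) (XT.nd (nat_lit 94) (nat_lit 0) (nat_lit 0) (XT.lf (nat_lit 0) (nat_lit 21867339272) (nat_lit 0) (nat_lit 0) (nat_lit 0) (nat_lit 0) (nat_lit 0) (nat_lit 0) (nat_lit 1) (nat_lit 0) (nat_lit 1) (nat_lit 0) (nat_lit 339) (nat_lit 399) (nat_lit 342)) (XT.lf (nat_lit 0) (nat_lit 21847435357) (nat_lit 0) (nat_lit 0) (nat_lit 0) (nat_lit 0) (nat_lit 0) (nat_lit 0) (nat_lit 1) (nat_lit 0) (nat_lit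 1) (nat_lit 0) (nat_lit 340) (nat_lit 399) (nat_lit 341))) (XT.nd (nat_lit 94) (nat_lit 0) (nat_lit 0) (XT.lf (nat_lit 0) (nat_lit 21829005806) (nat_lit 0) (nat_lit 0) (nat_lit 0) (nat_lit 0) (nat_lit 0) (nat_lit 0) (nat_lit 1) (nat_lit 0) (nat_lit 1) (nat_lit 0) (nat_lit 341) (nat_lit 399) (nat_lit 340)) (XT.nd (nat_lit 94) (nat_lit 0) (nat_lit 0) (XT.lf (nat_lit 0) (nat_lit 21811941408) (nat_lit 0) (nat_lit 0) (nat_lit 0) (nat_lit 0) (nat_lit 0) (nat_lit 0) (nat_lit 1) (nat_lit 0) (nat_lit 1) (nat_lit 0) (nat_lit 342) (nat_lit 399) (nat_lit 339)) (XT.lf (nat_lit 0) (nat_lit 21796141038) (nat_lit 0) (nat_lit 0) (nat_lit 0) (nat_lit 0) (nat_lit 0) (nat_lit 0) (nat_lit 1) (nat_lit 0) (nat_lit 1) (nat_lit 0) (nat_lit 343) (nat_lit 399) (nat_lit 338)))))) (XT.nd (nat_lit 470) (nat_lit 0) (nat_lit 0) (XT.nd (nat_lit 188) (nat_lit 0) (nat_lit 0) (XT.nd (nat_lit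 94) (nat_lit 0) (nat_lit 0) (XT.lf (nat_lit 0) (nat_lit 21781511067) (nat_lit 0) (nat_lit 0) (nat_lit 0) (nat_lit 0) (nat_lit 0) (nat_lit 0) (nat_lit 1) (nat_lit 0) (nat_lit 1) (nat_lit 0) (nat_lit 344) (nat_lit 399) (nat_lit 337)) (XT.lf (nat_lit 0) (nat_lit 21767964797) (nat_lit 0) (nat_lit 0) (nat_lit 0) (nat_lit 0) (nat_lit 0) (nat_lit 0) (nat_lit 1) (nat_lit 0) (nat_lit 1) (nat_lit 0) (nat_lit 345) (nat_lit 399) (nat_lit 336))) (XT.nd (nat_lit 94) (nat_lit 0) (nat_lit 0) (XT.lf (nat_lit 0) (nat_lit 21755421954) (nat_lit 0) (nat_lit 0) (nat_lit 0) (nat_lit 0) (nat_lit 0) (nat_lit 0) (nat_lit 1) (nat_lit 0) (nat_lit 1) (nat_lit 0) (nat_lit 346) (nat_lit 399) (nat_lit 335)) (XT.nd (nat_lit 94) (nat_lit 0) (nat_lit 0) (XT.lf (nat_lit 0) (nat_lit 21743808211) (nat_lit 0) (nat_lit 0) (nat_lit 0) (nat_lit 0) (nat_lit 0) (nat_lit 0) (nat_lit 1) (nat_lit 0) (nat_lit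 1) (nat_lit 0) (nat_lit 347) (nat_lit 399) (nat_lit 334)) (XT.lf (nat_lit 0) (nat_lit 21733054746) (nat_lit 0) (nat_lit 0) (nat_lit 0) (nat_lit 0) (nat_lit 0) (nat_lit 0) (nat_lit 1) (nat_lit 0) (nat_lit 1) (nat_lit 0) (nat_lit 348) (nat_lit 399) (nat_lit 333))))) (XT.nd (nat_lit 188) (nat_lit 0) (nat_lit 0) (XT.nd (nat_lit 94) (nat_lit 0) (nat_lit 0) (XT.lf (nat_lit 0) (nat_lit 21723097833) (nat_lit 0) (nat_lit 0) (nat_lit 0) (nat_lit 0) (nat_lit 0) (nat_lit 0) (nat_lit 1) (nat_lit 0) (nat_lit 1) (nat_lit 0) (nat_lit 349) (nat_lit 399) (nat_lit 332)) (XT.lf (nat_lit 0) (nat_lit 21713878469) (nat_lit 0) (nat_lit 0) (nat_lit 0) (nat_lit 0) (nat_lit 0) (nat_lit 0) (nat_lit 1) (nat_lit 0) (nat_lit 1) (nat_lit 0) (nat_lit 350) (nat_lit 399) (nat_lit 331))) (XT.nd (nat_lit 94) (nat_lit 0) (nat_lit 0) (XT.lf (nat_lit 0) (nat_lit 21705342021) (nat_lit 0) (nat_lit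 0) (nat_lit 0) (nat_lit 0) (nat_lit 0) (nat_lit 0) (nat_lit 1) (nat_lit 0) (nat_lit 1) (nat_lit 0) (nat_lit 351) (nat_lit 399) (nat_lit 330)) (XT.nd (nat_lit 94) (nat_lit 0) (nat_lit 0) (XT.lf (nat_lit 0) (nat_lit 21697437903) (nat_lit 0) (nat_lit 0) (nat_lit 0) (nat_lit 0) (nat_lit 0) (nat_lit 0) (nat_lit 1) (nat_lit 0) (nat_lit 1) (nat_lit 0) (nat_lit 352) (nat_lit 399) (nat_lit 329)) (XT.lf (nat_lit 0) (nat_lit 21690119275) (nat_lit 0) (nat_lit 0) (nat_lit 0) (nat_lit 0) (nat_lit 0) (nat_lit 0) (nat_lit 1) (nat_lit 0) (nat_lit 1) (nat_lit 0) (nat_lit 353) (nat_lit 399) (nat_lit 328))))))) (XT.nd (nat_lit 846) (nat_lit 0) (nat_lit 0) (XT.nd (nat_lit 376) (nat_lit 0) (nat_lit 0) (XT.nd (nat_lit 188) (nat_lit 0) (nat_lit 0) (XT.nd (nat_lit 94) (nat_lit 0) (nat_lit 0) (XT.lf (nat_lit 0) (nat_lit 21683342767) (nat_lit 0) (nat_lit 0) (nat_lit 0) (nat_lit 0) (nat_lit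 0) (nat_lit 0) (nat_lit 1) (nat_lit 0) (nat_lit 1) (nat_lit 0) (nat_lit 354) (nat_lit 399) (nat_lit 327)) (XT.lf (nat_lit 0) (nat_lit 21677068223) (nat_lit 0) (nat_lit 0) (nat_lit 0) (nat_lit 0) (nat_lit 0) (nat_lit 0) (nat_lit 1) (nat_lit 0) (nat_lit 1) (nat_lit 0) (nat_lit 355) (nat_lit 399) (nat_lit 326))) (XT.nd (nat_lit 94) (nat_lit 0) (nat_lit 0) (XT.lf (nat_lit 0) (nat_lit 21671258460) (nat_lit 0) (nat_lit 0) (nat_lit 0) (nat_lit 0) (nat_lit 0) (nat_lit 0) (nat_lit 1) (nat_lit 0) (nat_lit 1) (nat_lit 0) (nat_lit 356) (nat_lit 399) (nat_lit 325)) (XT.lf (nat_lit 0) (nat_lit 21665879050) (nat_lit 0) (nat_lit 0) (nat_lit 0) (nat_lit 0) (nat_lit 0) (nat_lit 0) (nat_lit 1) (nat_lit 0) (nat_lit 1) (nat_lit 0) (nat_lit 357) (nat_lit 399) (nat_lit 324)))) (XT.nd (nat_lit 188) (nat_lit 0) (nat_lit 0) (XT.nd (nat_lit 94) (nat_lit 0) (nat_lit 0) (XT.lf (nat_lit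 0) (nat_lit 21660898115) (nat_lit 0) (nat_lit 0) (nat_lit 0) (nat_lit 0) (nat_lit 0) (nat_lit 0) (nat_lit 1) (nat_lit 0) (nat_lit 1) (nat_lit 0) (nat_lit 358) (nat_lit 399) (nat_lit 323)) (XT.lf (nat_lit 0) (nat_lit 21656286137) (nat_lit 0) (nat_lit 0) (nat_lit 0) (nat_lit 0) (nat_lit 0) (nat_lit 0) (nat_lit 1) (nat_lit 0) (nat_lit 1) (nat_lit 0) (nat_lit 359) (nat_lit 399) (nat_lit 322))) (XT.nd (nat_lit 94) (nat_lit 0) (nat_lit 0) (XT.lf (nat_lit 0) (nat_lit 21652015788) (nat_lit 0) (nat_lit 0) (nat_lit 0) (nat_lit 0) (nat_lit 0) (nat_lit 0) (nat_lit 1) (nat_lit 0) (nat_lit 1) (nat_lit 0) (nat_lit 360) (nat_lit 399) (nat_lit 321)) (XT.nd (nat_lit 94) (nat_lit 0) (nat_lit 0) (XT.lf (nat_lit 0) (nat_lit 21648061761) (nat_lit 0) (nat_lit 0) (nat_lit 0) (nat_lit 0) (nat_lit 0) (nat_lit 0) (nat_lit 1) (nat_lit 0) (nat_lit 1) (nat_lit 0) (nat_lit 361) (nat_lit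 399) (nat_lit 320)) (XT.lf (nat_lit 0) (nat_lit 21644400625) (nat_lit 0) (nat_lit 0) (nat_lit 0) (nat_lit 0) (nat_lit 0) (nat_lit 0) (nat_lit 1) (nat_lit 0) (nat_lit 1) (nat_lit 0) (nat_lit 362) (nat_lit 399) (nat_lit 319)))))) (XT.nd (nat_lit 470) (nat_lit 0) (nat_lit 0) (XT.nd (nat_lit 188) (nat_lit 0) (nat_lit 0) (XT.nd (nat_lit 94) (nat_lit 0) (nat_lit 0) (XT.lf (nat_lit 0) (nat_lit 21641010684) (nat_lit 0) (nat_lit 0) (nat_lit 0) (nat_lit 0) (nat_lit 0) (nat_lit 0) (nat_lit 1) (nat_lit 0) (nat_lit 1) (nat_lit 0) (nat_lit 363) (nat_lit 399) (nat_lit 318)) (XT.lf (nat_lit 0) (nat_lit 21637871850) (nat_lit 0) (nat_lit 0) (nat_lit 0) (nat_lit 0) (nat_lit 0) (nat_lit 0) (nat_lit 1) (nat_lit 0) (nat_lit 1) (nat_lit 0) (nat_lit 364) (nat_lit 399) (nat_lit 317))) (XT.nd (nat_lit 94) (nat_lit 0) (nat_lit 0) (XT.lf (nat_lit 0) (nat_lit 21634965522) (nat_lit 0)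 (nat_lit 0) (nat_lit 0) (nat_lit 0) (nat_lit 0) (nat_lit 0) (nat_lit 1) (nat_lit 0) (nat_lit 1) (nat_lit 0) (nat_lit 365) (nat_lit 399) (nat_lit 316)) (XT.nd (nat_lit 94) (nat_lit 0) (nat_lit 0) (XT.lf (nat_lit 0) (nat_lit 21632274478) (nat_lit 0) (nat_lit 0) (nat_lit 0) (nat_lit 0) (nat_lit 0) (nat_lit 0) (nat_lit 1) (nat_lit 0) (nat_lit 1) (nat_lit 0) (nat_lit 366) (nat_lit 399) (nat_lit 315)) (XT.lf (nat_lit 0) (nat_lit 21629782770) (nat_lit 0) (nat_lit 0) (nat_lit 0) (nat_lit 0) (nat_lit 0) (nat_lit 0) (nat_lit 1) (nat_lit 0) (nat_lit 1) (nat_lit 0) (nat_lit 367) (nat_lit 399) (nat_lit 314))))) (XT.nd (nat_lit 188) (nat_lit 0) (nat_lit 0) (XT.nd (nat_lit 94) (nat_lit 0) (nat_lit 0) (XT.lf (nat_lit 0) (nat_lit 21627475633) (nat_lit 0) (nat_lit 0) (nat_lit 0) (nat_lit 0) (nat_lit 0) (nat_lit 0) (nat_lit 1) (nat_lit 0) (nat_lit 1) (nat_lit 0) (nat_lit 368)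 (nat_lit 399) (nat_lit 313)) (XT.lf (nat_lit 0) (nat_lit 21625339395) (nat_lit 0) (nat_lit 0) (nat_lit 0) (nat_lit 0) (nat_lit 0) (nat_lit 0) (nat_lit 1) (nat_lit 0) (nat_lit 1) (nat_lit 0) (nat_lit 369) (nat_lit 399) (nat_lit 312))) (XT.nd (nat_lit 94) (nat_lit 0) (nat_lit 0) (XT.lf (nat_lit 0) (nat_lit 21623361397) (nat_lit 0) (nat_lit 0) (nat_lit 0) (nat_lit 0) (nat_lit 0) (nat_lit 0) (nat_lit 1) (nat_lit 0) (nat_lit 1) (nat_lit 0) (nat_lit 370) (nat_lit 399) (nat_lit 311)) (XT.nd (nat_lit 94) (nat_lit 0) (nat_lit 0) (XT.lf (nat_lit 0) (nat_lit 21621529918) (nat_lit 0) (nat_lit 0) (nat_lit 0) (nat_lit 0) (nat_lit 0) (nat_lit 0) (nat_lit 1) (nat_lit 0) (nat_lit 1) (nat_lit 0) (nat_lit 371) (nat_lit 399) (nat_lit 310)) (XT.lf (nat_lit 0) (nat_lit 21619834103) (nat_lit 0) (nat_lit 0) (nat_lit 0) (nat_lit 0) (nat_lit 0) (nat_lit 0) (nat_lit 1) (nat_lit 0) (nat_lit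 1) (nat_lit 0) (nat_lit 372) (nat_lit 399) (nat_lit 309))))))))
noncomputable def ec148 : XT := (XT.nd (nat_lit 1692) (nat_lit 0) (nat_lit 0) (XT.nd (nat_lit 846) (nat_lit 0) (nat_lit 0) (XT.nd (nat_lit 376) (nat_lit 0) (nat_lit 0) (XT.nd (nat_lit 188) (nat_lit 0) (nat_lit 0) (XT.nd (nat_lit 94) (nat_lit 0) (nat_lit 0) (XT.lf (nat_lit 0) (nat_lit 21618263905) (nat_lit 0) (nat_lit 0) (nat_lit 0) (nat_lit 0) (nat_lit 0) (nat_lit 0) (nat_lit 1) (nat_lit 0) (nat_lit 1) (nat_lit 0) (nat_lit 373) (nat_lit 399) (nat_lit 308)) (XT.lf (nat_lit 0) (nat_lit 21616810017) (nat_lit 0) (nat_lit 0) (nat_lit 0) (nat_lit 0) (nat_lit 0) (nat_lit 0) (nat_lit 1) (nat_lit 0) (nat_lit 1) (nat_lit 0) (nat_lit 374) (nat_lit 399) (nat_lit 307))) (XT.nd (nat_lit 94) (nat_lit 0) (nat_lit 0) (XT.lf (nat_lit 0) (nat_lit 21615463825) (nat_lit 0) (nat_lit 0) (nat_lit 0) (nat_lit 0) (nat_lit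 0) (nat_lit 0) (nat_lit 1) (nat_lit 0) (nat_lit 1) (nat_lit 0) (nat_lit 375) (nat_lit 399) (nat_lit 306)) (XT.lf (nat_lit 0) (nat_lit 21614217351) (nat_lit 0) (nat_lit 0) (nat_lit 0) (nat_lit 0) (nat_lit 0) (nat_lit 0) (nat_lit 1) (nat_lit 0) (nat_lit 1) (nat_lit 0) (nat_lit 376) (nat_lit 399) (nat_lit 305)))) (XT.nd (nat_lit 188) (nat_lit 0) (nat_lit 0) (XT.nd (nat_lit 94) (nat_lit 0) (nat_lit 0) (XT.lf (nat_lit 0) (nat_lit 21613063208) (nat_lit 0) (nat_lit 0) (nat_lit 0) (nat_lit 0) (nat_lit 0) (nat_lit 0) (nat_lit 1) (nat_lit 0) (nat_lit 1) (nat_lit 0) (nat_lit 377) (nat_lit 399) (nat_lit 304)) (XT.lf (nat_lit 0) (nat_lit 21611994557) (nat_lit 0) (nat_lit 0) (nat_lit 0) (nat_lit 0) (nat_lit 0) (nat_lit 0) (nat_lit 1) (nat_lit 0) (nat_lit 1) (nat_lit 0) (nat_lit 378) (nat_lit 399) (nat_lit 303))) (XT.nd (nat_lit 94) (nat_lit 0) (nat_lit 0) (XT.lf (nat_lit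 0) (nat_lit 21611005066) (nat_lit 0) (nat_lit 0) (nat_lit 0) (nat_lit 0) (nat_lit 0) (nat_lit 0) (nat_lit 1) (nat_lit 0) (nat_lit 1) (nat_lit 0) (nat_lit 379) (nat_lit 399) (nat_lit 302)) (XT.nd (nat_lit 94) (nat_lit 0) (nat_lit 0) (XT.lf (nat_lit 0) (nat_lit 21610088870) (nat_lit 0) (nat_lit 0) (nat_lit 0) (nat_lit 0) (nat_lit 0) (nat_lit 0) (nat_lit 1) (nat_lit 0) (nat_lit 1) (nat_lit 0) (nat_lit 380) (nat_lit 399) (nat_lit 301)) (XT.lf (nat_lit 0) (nat_lit 21609240541) (nat_lit 0) (nat_lit 0) (nat_lit 0) (nat_lit 0) (nat_lit 0) (nat_lit 0) (nat_lit 1) (nat_lit 0) (nat_lit 1) (nat_lit 0) (nat_lit 381) (nat_lit 399) (nat_lit 300)))))) (XT.nd (nat_lit 376) (nat_lit 0) (nat_lit 0) (XT.nd (nat_lit 188) (nat_lit 0) (nat_lit 0) (XT.nd (nat_lit 94) (nat_lit 0) (nat_lit 0) (XT.lf (nat_lit 0) (nat_lit 21608455050) (nat_lit 0) (nat_lit 0) (nat_lit 0) (nat_lit 0) (nat_lit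 0) (nat_lit 0) (nat_lit 1) (nat_lit 0) (nat_lit 1) (nat_lit 0) (nat_lit 382) (nat_lit 399) (nat_lit 299)) (XT.lf (nat_lit 0) (nat_lit 21607727745) (nat_lit 0) (nat_lit 0) (nat_lit 0) (nat_lit 0) (nat_lit 0) (nat_lit 0) (nat_lit 1) (nat_lit 0) (nat_lit 1) (nat_lit 0) (nat_lit 383) (nat_lit 399) (nat_lit 298))) (XT.nd (nat_lit 94) (nat_lit 0) (nat_lit 0) (XT.lf (nat_lit 0) (nat_lit 21607054313) (nat_lit 0) (nat_lit 0) (nat_lit 0) (nat_lit 0) (nat_lit 0) (nat_lit 0) (nat_lit 1) (nat_lit 0) (nat_lit 1) (nat_lit 0) (nat_lit 384) (nat_lit 399) (nat_lit 297)) (XT.lf (nat_lit 0) (nat_lit 21606430766) (nat_lit 0) (nat_lit 0) (nat_lit 0) (nat_lit 0) (nat_lit 0) (nat_lit 0) (nat_lit 1) (nat_lit 0) (nat_lit 1) (nat_lit 0) (nat_lit 385) (nat_lit 399) (nat_lit 296)))) (XT.nd (nat_lit 188) (nat_lit 0) (nat_lit 0) (XT.nd (nat_lit 94) (nat_lit 0) (nat_lit 0) (XT.lf (nat_lit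 0) (nat_lit 21605853407) (nat_lit 0) (nat_lit 0) (nat_lit 0) (nat_lit 0) (nat_lit 0) (nat_lit 0) (nat_lit 1) (nat_lit 0) (nat_lit 1) (nat_lit 0) (nat_lit 386) (nat_lit 399) (nat_lit 295)) (XT.lf (nat_lit 0) (nat_lit 21605318816) (nat_lit 0) (nat_lit 0) (nat_lit 0) (nat_lit 0) (nat_lit 0) (nat_lit 0) (nat_lit 1) (nat_lit 0) (nat_lit 1) (nat_lit 0) (nat_lit 387) (nat_lit 399) (nat_lit 294))) (XT.nd (nat_lit 94) (nat_lit 0) (nat_lit 0) (XT.lf (nat_lit 0) (nat_lit 21604823824) (nat_lit 0) (nat_lit 0) (nat_lit 0) (nat_lit 0) (nat_lit 0) (nat_lit 0) (nat_lit 1) (nat_lit 0) (nat_lit 1) (nat_lit 0) (nat_lit 388) (nat_lit 399) (nat_lit 293)) (XT.nd (nat_lit 94) (nat_lit 0) (nat_lit 0) (XT.lf (nat_lit 0) (nat_lit 21604365498) (nat_lit 0) (nat_lit 0) (nat_lit 0) (nat_lit 0) (nat_lit 0) (nat_lit 0) (nat_lit 1) (nat_lit 0) (nat_lit 1) (nat_lit 0) (nat_lit 389) (nat_lit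 399) (nat_lit 292)) (XT.lf (nat_lit 0) (nat_lit 21603941122) (nat_lit 0) (nat_lit 0) (nat_lit 0) (nat_lit 0) (nat_lit 0) (nat_lit 0) (nat_lit 1) (nat_lit 0) (nat_lit 1) (nat_lit 0) (nat_lit 390) (nat_lit 399) (nat_lit 291))))))) (XT.nd (nat_lit 846) (nat_lit 0) (nat_lit 0) (XT.nd (nat_lit 376) (nat_lit 0) (nat_lit 0) (XT.nd (nat_lit 188) (nat_lit 0) (nat_lit 0) (XT.nd (nat_lit 94) (nat_lit 0) (nat_lit 0) (XT.lf (nat_lit 0) (nat_lit 21603548181) (nat_lit 0) (nat_lit 0) (nat_lit 0) (nat_lit 0) (nat_lit 0) (nat_lit 0) (nat_lit 1) (nat_lit 0) (nat_lit 1) (nat_lit 0) (nat_lit 391) (nat_lit 399) (nat_lit 290)) (XT.lf (nat_lit 0) (nat_lit 21603184347) (nat_lit 0) (nat_lit 0) (nat_lit 0) (nat_lit 0) (nat_lit 0) (nat_lit 0) (nat_lit 1) (nat_lit 0) (nat_lit 1) (nat_lit 0) (nat_lit 392) (nat_lit 399) (nat_lit 289))) (XT.nd (nat_lit 94) (nat_lit 0) (nat_lit 0) (XT.lf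 (nat_lit 0) (nat_lit 21602847464) (nat_lit 0) (nat_lit 0) (nat_lit 0) (nat_lit 0) (nat_lit 0) (nat_lit 0) (nat_lit 1) (nat_lit 0) (nat_lit 1) (nat_lit 0) (nat_lit 393) (nat_lit 399) (nat_lit 288)) (XT.lf (nat_lit 0) (nat_lit 21602535535) (nat_lit 0) (nat_lit 0) (nat_lit 0) (nat_lit 0) (nat_lit 0) (nat_lit 0) (nat_lit 1) (nat_lit 0) (nat_lit 1) (nat_lit 0) (nat_lit 394) (nat_lit 399) (nat_lit 287)))) (XT.nd (nat_lit 188) (nat_lit 0) (nat_lit 0) (XT.nd (nat_lit 94) (nat_lit 0) (nat_lit 0) (XT.lf (nat_lit 0) (nat_lit 21602246712) (nat_lit 0) (nat_lit 0) (nat_lit 0) (nat_lit 0) (nat_lit 0) (nat_lit 0) (nat_lit 1) (nat_lit 0) (nat_lit 1) (nat_lit 0) (nat_lit 395) (nat_lit 399) (nat_lit 286)) (XT.lf (nat_lit 0) (nat_lit 21601979283) (nat_lit 0) (nat_lit 0) (nat_lit 0) (nat_lit 0) (nat_lit 0) (nat_lit 0) (nat_lit 1) (nat_lit 0) (nat_lit 1) (nat_lit 0) (nat_lit 396)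 (nat_lit 399) (nat_lit 285))) (XT.nd (nat_lit 94) (nat_lit 0) (nat_lit 0) (XT.lf (nat_lit 0) (nat_lit 21601731664) (nat_lit 0) (nat_lit 0) (nat_lit 0) (nat_lit 0) (nat_lit 0) (nat_lit 0) (nat_lit 1) (nat_lit 0) (nat_lit 1) (nat_lit 0) (nat_lit 397) (nat_lit 399) (nat_lit 284)) (XT.nd (nat_lit 94) (nat_lit 0) (nat_lit 0) (XT.lf (nat_lit 0) (nat_lit 21601502387) (nat_lit 0) (nat_lit 0) (nat_lit 0) (nat_lit 0) (nat_lit 0) (nat_lit 0) (nat_lit 1) (nat_lit 0) (nat_lit 1) (nat_lit 0) (nat_lit 398) (nat_lit 399) (nat_lit 283)) (XT.lf (nat_lit 0) (nat_lit 21601290093) (nat_lit 0) (nat_lit 0) (nat_lit 0) (nat_lit 0) (nat_lit 0) (nat_lit 0) (nat_lit 1) (nat_lit 0) (nat_lit 1) (nat_lit 0) (nat_lit 399) (nat_lit 399) (nat_lit 282)))))) (XT.nd (nat_lit 470) (nat_lit 0) (nat_lit 0) (XT.nd (nat_lit 188) (nat_lit 0) (nat_lit 0) (XT.nd (nat_lit 94) (nat_lit 0) (nat_lit 0)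 (XT.lf (nat_lit 0) (nat_lit 21601093525) (nat_lit 0) (nat_lit 0) (nat_lit 0) (nat_lit 0) (nat_lit 0) (nat_lit 0) (nat_lit 1) (nat_lit 0) (nat_lit 1) (nat_lit 0) (nat_lit 400) (nat_lit 399) (nat_lit 281)) (XT.lf (nat_lit 0) (nat_lit 21600911517) (nat_lit 0) (nat_lit 0) (nat_lit 0) (nat_lit 0) (nat_lit 0) (nat_lit 0) (nat_lit 1) (nat_lit 0) (nat_lit 1) (nat_lit 0) (nat_lit 401) (nat_lit 399) (nat_lit 280))) (XT.nd (nat_lit 94) (nat_lit 0) (nat_lit 0) (XT.lf (nat_lit 0) (nat_lit 21600742992) (nat_lit 0) (nat_lit 0) (nat_lit 0) (nat_lit 0) (nat_lit 0) (nat_lit 0) (nat_lit 1) (nat_lit 0) (nat_lit 1) (nat_lit 0) (nat_lit 402) (nat_lit 399) (nat_lit 279)) (XT.nd (nat_lit 94) (nat_lit 0) (nat_lit 0) (XT.lf (nat_lit 0) (nat_lit 21600586950) (nat_lit 0) (nat_lit 0) (nat_lit 0) (nat_lit 0) (nat_lit 0) (nat_lit 0) (nat_lit 1) (nat_lit 0) (nat_lit 1) (nat_lit 0) (nat_lit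 403) (nat_lit 399) (nat_lit 278)) (XT.lf (nat_lit 0) (nat_lit 21600442466) (nat_lit 0) (nat_lit 0) (nat_lit 0) (nat_lit 0) (nat_lit 0) (nat_lit 0) (nat_lit 1) (nat_lit 0) (nat_lit 1) (nat_lit 0) (nat_lit 404) (nat_lit 399) (nat_lit 277))))) (XT.nd (nat_lit 188) (nat_lit 0) (nat_lit 0) (XT.nd (nat_lit 94) (nat_lit 0) (nat_lit 0) (XT.lf (nat_lit 0) (nat_lit 21600308685) (nat_lit 0) (nat_lit 0) (nat_lit 0) (nat_lit 0) (nat_lit 0) (nat_lit 0) (nat_lit 1) (nat_lit 0) (nat_lit 1) (nat_lit 0) (nat_lit 405) (nat_lit 399) (nat_lit 276)) (XT.lf (nat_lit 0) (nat_lit 21600184814) (nat_lit 0) (nat_lit 0) (nat_lit 0) (nat_lit 0) (nat_lit 0) (nat_lit 0) (nat_lit 1) (nat_lit 0) (nat_lit 1) (nat_lit 0) (nat_lit 406) (nat_lit 399) (nat_lit 275))) (XT.nd (nat_lit 94) (nat_lit 0) (nat_lit 0) (XT.lf (nat_lit 0) (nat_lit 21600070118) (nat_lit 0) (nat_lit 0) (nat_lit 0) (nat_lit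 0) (nat_lit 0) (nat_lit 0) (nat_lit 1) (nat_lit 0) (nat_lit 1) (nat_lit 0) (nat_lit 407) (nat_lit 399) (nat_lit 274)) (XT.nd (nat_lit 94) (nat_lit 0) (nat_lit 0) (XT.lf (nat_lit 0) (nat_lit 21599963919) (nat_lit 0) (nat_lit 0) (nat_lit 0) (nat_lit 0) (nat_lit 0) (nat_lit 0) (nat_lit 1) (nat_lit 0) (nat_lit 1) (nat_lit 0) (nat_lit 408) (nat_lit 399) (nat_lit 273)) (XT.lf (nat_lit 0) (nat_lit 21599865586) (nat_lit 0) (nat_lit 0) (nat_lit 0) (nat_lit 0) (nat_lit 0) (nat_lit 0) (nat_lit 1) (nat_lit 0) (nat_lit 1) (nat_lit 0) (nat_lit 409) (nat_lit 399) (nat_lit 272))))))))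
noncomputable def ec149 : XT := (XT.nd (nat_lit 1786) (nat_lit 0) (nat_lit 0) (XT.nd (nat_lit 846) (nat_lit 0) (nat_lit 0) (XT.nd (nat_lit 376) (nat_lit 0) (nat_lit 0) (XT.nd (nat_lit 188) (nat_lit 0) (nat_lit 0) (XT.nd (nat_lit 94) (nat_lit 0) (nat_lit 0) (XT.lf (nat_lit 0) (nat_lit 21599774537) (nat_lit 0) (nat_lit 0) (nat_lit 0) (nat_lit 0) (nat_lit 0) (nat_lit 0) (nat_lit 1) (nat_lit 0) (nat_lit 1) (nat_lit 0) (nat_lit 410) (nat_lit 399) (nat_lit 271)) (XT.lf (nat_lit 0) (nat_lit 21599690232) (nat_lit 0) (nat_lit 0) (nat_lit 0) (nat_lit 0) (nat_lit 0) (nat_lit 0) (nat_lit 1) (nat_lit 0) (nat_lit 1) (nat_lit 0) (nat_lit 411) (nat_lit 399) (nat_lit 270))) (XT.nd (nat_lit 94) (nat_lit 0) (nat_lit 0) (XT.lf (nat_lit 0) (nat_lit 21599612172) (nat_lit 0) (nat_lit 0) (nat_lit 0) (nat_lit 0) (nat_lit 0) (nat_lit 0) (nat_lit 1) (nat_lit 0) (nat_lit 1) (nat_lit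 0) (nat_lit 412) (nat_lit 399) (nat_lit 269)) (XT.lf (nat_lit 0) (nat_lit 21599539894) (nat_lit 0) (nat_lit 0) (nat_lit 0) (nat_lit 0) (nat_lit 0) (nat_lit 0) (nat_lit 1) (nat_lit 0) (nat_lit 1) (nat_lit 0) (nat_lit 413) (nat_lit 399) (nat_lit 268)))) (XT.nd (nat_lit 188) (nat_lit 0) (nat_lit 0) (XT.nd (nat_lit 94) (nat_lit 0) (nat_lit 0) (XT.lf (nat_lit 0) (nat_lit 21599472970) (nat_lit 0) (nat_lit 0) (nat_lit 0) (nat_lit 0) (nat_lit 0) (nat_lit 0) (nat_lit 1) (nat_lit 0) (nat_lit 1) (nat_lit 0) (nat_lit 414) (nat_lit 399) (nat_lit 267)) (XT.lf (nat_lit 0) (nat_lit 21599411004) (nat_lit 0) (nat_lit 0) (nat_lit 0) (nat_lit 0) (nat_lit 0) (nat_lit 0) (nat_lit 1) (nat_lit 0) (nat_lit 1) (nat_lit 0) (nat_lit 415) (nat_lit 399) (nat_lit 266))) (XT.nd (nat_lit 94) (nat_lit 0) (nat_lit 0) (XT.lf (nat_lit 0) (nat_lit 21599353628) (nat_lit 0) (nat_lit 0) (nat_lit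 0) (nat_lit 0) (nat_lit 0) (nat_lit 0) (nat_lit 1) (nat_lit 0) (nat_lit 1) (nat_lit 0) (nat_lit 416) (nat_lit 399) (nat_lit 265)) (XT.nd (nat_lit 94) (nat_lit 0) (nat_lit 0) (XT.lf (nat_lit 0) (nat_lit 21599300501) (nat_lit 0) (nat_lit 0) (nat_lit 0) (nat_lit 0) (nat_lit 0) (nat_lit 0) (nat_lit 1) (nat_lit 0) (nat_lit 1) (nat_lit 0) (nat_lit 417) (nat_lit 399) (nat_lit 264)) (XT.lf (nat_lit 0) (nat_lit 21599251310) (nat_lit 0) (nat_lit 0) (nat_lit 0) (nat_lit 0) (nat_lit 0) (nat_lit 0) (nat_lit 1) (nat_lit 0) (nat_lit 1) (nat_lit 0) (nat_lit 418) (nat_lit 399) (nat_lit 263)))))) (XT.nd (nat_lit 470) (nat_lit 0) (nat_lit 0) (XT.nd (nat_lit 188) (nat_lit 0) (nat_lit 0) (XT.nd (nat_lit 94) (nat_lit 0) (nat_lit 0) (XT.lf (nat_lit 0) (nat_lit 21599205763) (nat_lit 0) (nat_lit 0) (nat_lit 0) (nat_lit 0) (nat_lit 0) (nat_lit 0) (nat_lit 1) (nat_lit 0) (nat_lit 1)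 (nat_lit 0) (nat_lit 419) (nat_lit 399) (nat_lit 262)) (XT.lf (nat_lit 0) (nat_lit 21599163590) (nat_lit 0) (nat_lit 0) (nat_lit 0) (nat_lit 0) (nat_lit 0) (nat_lit 0) (nat_lit 1) (nat_lit 0) (nat_lit 1) (nat_lit 0) (nat_lit 420) (nat_lit 399) (nat_lit 261))) (XT.nd (nat_lit 94) (nat_lit 0) (nat_lit 0) (XT.lf (nat_lit 0) (nat_lit 21599124540) (nat_lit 0) (nat_lit 0) (nat_lit 0) (nat_lit 0) (nat_lit 0) (nat_lit 0) (nat_lit 1) (nat_lit 0) (nat_lit 1) (nat_lit 0) (nat_lit 421) (nat_lit 399) (nat_lit 260)) (XT.nd (nat_lit 94) (nat_lit 0) (nat_lit 0) (XT.lf (nat_lit 0) (nat_lit 21599088383) (nat_lit 0) (nat_lit 0) (nat_lit 0) (nat_lit 0) (nat_lit 0) (nat_lit 0) (nat_lit 1) (nat_lit 0) (nat_lit 1) (nat_lit 0) (nat_lit 422) (nat_lit 399) (nat_lit 259)) (XT.lf (nat_lit 0) (nat_lit 21599054905) (nat_lit 0) (nat_lit 0) (nat_lit 0) (nat_lit 0) (nat_lit 0) (nat_lit 0)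 (nat_lit 1) (nat_lit 0) (nat_lit 1) (nat_lit 0) (nat_lit 423) (nat_lit 399) (nat_lit 258))))) (XT.nd (nat_lit 188) (nat_lit 0) (nat_lit 0) (XT.nd (nat_lit 94) (nat_lit 0) (nat_lit 0) (XT.lf (nat_lit 0) (nat_lit 21599023906) (nat_lit 0) (nat_lit 0) (nat_lit 0) (nat_lit 0) (nat_lit 0) (nat_lit 0) (nat_lit 1) (nat_lit 0) (nat_lit 1) (nat_lit 0) (nat_lit 424) (nat_lit 399) (nat_lit 257)) (XT.lf (nat_lit 0) (nat_lit 21598995204) (nat_lit 0) (nat_lit 0) (nat_lit 0) (nat_lit 0) (nat_lit 0) (nat_lit 0) (nat_lit 1) (nat_lit 0) (nat_lit 1) (nat_lit 0) (nat_lit 425) (nat_lit 399) (nat_lit 256))) (XT.nd (nat_lit 94) (nat_lit 0) (nat_lit 0) (XT.lf (nat_lit 0) (nat_lit 21598968627) (nat_lit 0) (nat_lit 0) (nat_lit 0) (nat_lit 0) (nat_lit 0) (nat_lit 0) (nat_lit 1) (nat_lit 0) (nat_lit 1) (nat_lit 0) (nat_lit 426) (nat_lit 399) (nat_lit 255)) (XT.nd (nat_lit 94) (nat_lit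 0) (nat_lit 0) (XT.lf (nat_lit 0) (nat_lit 21598944020) (nat_lit 0) (nat_lit 0) (nat_lit 0) (nat_lit 0) (nat_lit 0) (nat_lit 0) (nat_lit 1) (nat_lit 0) (nat_lit 1) (nat_lit 0) (nat_lit 427) (nat_lit 399) (nat_lit 254)) (XT.lf (nat_lit 0) (nat_lit 21598921235) (nat_lit 0) (nat_lit 0) (nat_lit 0) (nat_lit 0) (nat_lit 0) (nat_lit 0) (nat_lit 1) (nat_lit 0) (nat_lit 1) (nat_lit 0) (nat_lit 428) (nat_lit 399) (nat_lit 253))))))) (XT.nd (nat_lit 846) (nat_lit 0) (nat_lit 0) (XT.nd (nat_lit 376) (nat_lit 0) (nat_lit 0) (XT.nd (nat_lit 188) (nat_lit 0) (nat_lit 0) (XT.nd (nat_lit 94) (nat_lit 0) (nat_lit 0) (XT.lf (nat_lit 0) (nat_lit 21598900138) (nat_lit 0) (nat_lit 0) (nat_lit 0) (nat_lit 0) (nat_lit 0) (nat_lit 0) (nat_lit 1) (nat_lit 0) (nat_lit 1) (nat_lit 0) (nat_lit 429) (nat_lit 399) (nat_lit 252)) (XT.lf (nat_lit 0) (nat_lit 21598880603) (nat_lit 0) (nat_lit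 0) (nat_lit 0) (nat_lit 0) (nat_lit 0) (nat_lit 0) (nat_lit 1) (nat_lit 0) (nat_lit 1) (nat_lit 0) (nat_lit 430) (nat_lit 399) (nat_lit 251))) (XT.nd (nat_lit 94) (nat_lit 0) (nat_lit 0) (XT.lf (nat_lit 0) (nat_lit 21598862516) (nat_lit 0) (nat_lit 0) (nat_lit 0) (nat_lit 0) (nat_lit 0) (nat_lit 0) (nat_lit 1) (nat_lit 0) (nat_lit 1) (nat_lit 0) (nat_lit 431) (nat_lit 399) (nat_lit 250)) (XT.lf (nat_lit 0) (nat_lit 21598845768) (nat_lit 0) (nat_lit 0) (nat_lit 0) (nat_lit 0) (nat_lit 0) (nat_lit 0) (nat_lit 1) (nat_lit 0) (nat_lit 1) (nat_lit 0) (nat_lit 432) (nat_lit 399) (nat_lit 249)))) (XT.nd (nat_lit 188) (nat_lit 0) (nat_lit 0) (XT.nd (nat_lit 94) (nat_lit 0) (nat_lit 0) (XT.lf (nat_lit 0) (nat_lit 21598830261) (nat_lit 0) (nat_lit 0) (nat_lit 0) (nat_lit 0) (nat_lit 0) (nat_lit 0) (nat_lit 1) (nat_lit 0) (nat_lit 1) (nat_lit 0) (nat_lit 433) (nat_lit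 399) (nat_lit 248)) (XT.lf (nat_lit 0) (nat_lit 21598815903) (nat_lit 0) (nat_lit 0) (nat_lit 0) (nat_lit 0) (nat_lit 0) (nat_lit 0) (nat_lit 1) (nat_lit 0) (nat_lit 1) (nat_lit 0) (nat_lit 434) (nat_lit 399) (nat_lit 247))) (XT.nd (nat_lit 94) (nat_lit 0) (nat_lit 0) (XT.lf (nat_lit 0) (nat_lit 21598802608) (nat_lit 0) (nat_lit 0) (nat_lit 0) (nat_lit 0) (nat_lit 0) (nat_lit 0) (nat_lit 1) (nat_lit 0) (nat_lit 1) (nat_lit 0) (nat_lit 435) (nat_lit 399) (nat_lit 246)) (XT.nd (nat_lit 94) (nat_lit 0) (nat_lit 0) (XT.lf (nat_lit 0) (nat_lit 21598790298) (nat_lit 0) (nat_lit 0) (nat_lit 0) (nat_lit 0) (nat_lit 0) (nat_lit 0) (nat_lit 1) (nat_lit 0) (nat_lit 1) (nat_lit 0) (nat_lit 436) (nat_lit 399) (nat_lit 245)) (XT.lf (nat_lit 0) (nat_lit 21598778900) (nat_lit 0) (nat_lit 0) (nat_lit 0) (nat_lit 0) (nat_lit 0) (nat_lit 0) (nat_lit 1) (nat_lit 0) (nat_lit 1)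 (nat_lit 0) (nat_lit 437) (nat_lit 399) (nat_lit 244)))))) (XT.nd (nat_lit 53110) (nat_lit 0) (nat_lit 10836) (XT.nd (nat_lit 188) (nat_lit 0) (nat_lit 0) (XT.nd (nat_lit 94) (nat_lit 0) (nat_lit 0) (XT.lf (nat_lit 0) (nat_lit 21598768346) (nat_lit 0) (nat_lit 0) (nat_lit 0) (nat_lit 0) (nat_lit 0) (nat_lit 0) (nat_lit 1) (nat_lit 0) (nat_lit 1) (nat_lit 0) (nat_lit 438) (nat_lit 399) (nat_lit 243)) (XT.lf (nat_lit 0) (nat_lit 21598758574) (nat_lit 0) (nat_lit 0) (nat_lit 0) (nat_lit 0) (nat_lit 0) (nat_lit 0) (nat_lit 1) (nat_lit 0) (nat_lit 1) (nat_lit 0) (nat_lit 439) (nat_lit 399) (nat_lit 242))) (XT.nd (nat_lit 52734) (nat_lit 0) (nat_lit 10752) (XT.lf (nat_lit 0) (nat_lit 21598749526) (nat_lit 0) (nat_lit 0) (nat_lit 0) (nat_lit 0) (nat_lit 0) (nat_lit 0) (nat_lit 1) (nat_lit 0) (nat_lit 1) (nat_lit 0) (nat_lit 440) (nat_lit 399) (nat_lit 241)) (XT.nd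 (nat_lit 94) (nat_lit 0) (nat_lit 84) (XT.lf (nat_lit 924) (nat_lit 11673468035) (nat_lit 0) (nat_lit 20726215664) (nat_lit 924) (nat_lit 11673468035) (nat_lit 139) (nat_lit 1) (nat_lit 128) (nat_lit 0) (nat_lit 139) (nat_lit 0) (nat_lit 280) (nat_lit 400) (nat_lit 400)) (XT.lf (nat_lit 924) (nat_lit 4354561767) (nat_lit 0) (nat_lit 40691842972) (nat_lit 840) (nat_lit 39796486479) (nat_lit 140) (nat_lit 1) (nat_lit 129) (nat_lit 1) (nat_lit 139) (nat_lit 1) (nat_lit 281) (nat_lit 400) (nat_lit 399))))) (XT.nd (nat_lit 188) (nat_lit 0) (nat_lit 168) (XT.nd (nat_lit 94) (nat_lit 0) (nat_lit 84) (XT.lf (nat_lit 924) (nat_lit 39994136344) (nat_lit 84) (nat_lit 27251340955) (nat_lit 0) (nat_lit 14452868142) (nat_lit 140) (nat_lit 1) (nat_lit 130) (nat_lit 1) (nat_lit 129) (nat_lit 1) (nat_lit 282) (nat_lit 400) (nat_lit 398)) (XT.lf (nat_lit 924) (nat_lit 34558210168)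 (nat_lit 84) (nat_lit 11420848105) (nat_lit 0) (nat_lit 32732102438) (nat_lit 141) (nat_lit 1) (nat_lit 131) (nat_lit 1) (nat_lit 130) (nat_lit 1) (nat_lit 283) (nat_lit 400) (nat_lit 397))) (XT.nd (nat_lit 94) (nat_lit 0) (nat_lit 84) (XT.lf (nat_lit 924) (nat_lit 25576013561) (nat_lit 0) (nat_lit 47851512448) (nat_lit 840) (nat_lit 2446162479) (nat_lit 142) (nat_lit 1) (nat_lit 131) (nat_lit 1) (nat_lit 141) (nat_lit 1) (nat_lit 284) (nat_lit 400) (nat_lit 396)) (XT.nd (nat_lit 94) (nat_lit 0) (nat_lit 0) (XT.lf (nat_lit 924) (nat_lit 6136713688) (nat_lit 0) (nat_lit 52769586139) (nat_lit 840) (nat_lit 14265425599) (nat_lit 143) (nat_lit 1) (nat_lit 132) (nat_lit 1) (nat_lit 142) (nat_lit 1) (nat_lit 285) (nat_lit 400) (nat_lit 395)) (XT.lf (nat_lit 924) (nat_lit 11792267696) (nat_lit 84) (nat_lit 45861067567) (nat_lit 0) (nat_lit 12942559085) (nat_lit 143)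 (nat_lit 1) (nat_lit 133) (nat_lit 1) (nat_lit 132) (nat_lit 1) (nat_lit 286) (nat_lit 400) (nat_lit 394))))))))
noncomputable def ec150 : XT := (XT.nd (nat_lit 1692) (nat_lit 3192) (nat_lit 0) (XT.nd (nat_lit 846) (nat_lit 2436) (nat_lit 0) (XT.nd (nat_lit 376) (nat_lit 1428) (nat_lit 0) (XT.nd (nat_lit 188) (nat_lit 840) (nat_lit 0) (XT.nd (nat_lit 94) (nat_lit 588) (nat_lit 0) (XT.lf (nat_lit 924) (nat_lit 2421862885) (nat_lit 0) (nat_lit 34284181599) (nat_lit 840) (nat_lit 31438235302) (nat_lit 134) (nat_lit 1) (nat_lit 123) (nat_lit 1) (nat_lit 133) (nat_lit 1) (nat_lit 287) (nat_lit 400) (nat_lit 393)) (XT.lf (nat_lit 84) (nat_lit 16769483109) (nat_lit 0) (nat_lit 7266997420) (nat_lit 588) (nat_lit 41772266278) (nat_lit 117) (nat_lit 1) (nat_lit 116) (nat_lit 1) (nat_lit 123) (nat_lit 1) (nat_lit 288) (nat_lit 400) (nat_lit 392))) (XT.nd (nat_lit 94)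 (nat_lit 420) (nat_lit 0) (XT.lf (nat_lit 504) (nat_lit 46214584729) (nat_lit 0) (nat_lit 15043843635) (nat_lit 420) (nat_lit 2325871180) (nat_lit 117) (nat_lit 1) (nat_lit 111) (nat_lit 1) (nat_lit 116) (nat_lit 1) (nat_lit 289) (nat_lit 400) (nat_lit 391)) (XT.lf (nat_lit 504) (nat_lit 33348884429) (nat_lit 0) (nat_lit 7012000322) (nat_lit 420) (nat_lit 21094614785) (nat_lit 112) (nat_lit 1) (nat_lit 106) (nat_lit 1) (nat_lit 111) (nat_lit 1) (nat_lit 290) (nat_lit 400) (nat_lit 390)))) (XT.nd (nat_lit 188) (nat_lit 1092) (nat_lit 0) (XT.nd (nat_lit 94) (nat_lit 0) (nat_lit 0) (XT.lf (nat_lit 420) (nat_lit 20292370845) (nat_lit 0) (nat_lit 129102321) (nat_lit 336) (nat_lit 39008447246) (nat_lit 107) (nat_lit 1) (nat_lit 102) (nat_lit 1) (nat_lit 106) (nat_lit 1) (nat_lit 291) (nat_lit 400) (nat_lit 389)) (XT.lf (nat_lit 84) (nat_lit 1497075219) (nat_lit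 0) (nat_lit 50488630604) (nat_lit 420) (nat_lit 5511815720) (nat_lit 103) (nat_lit 1) (nat_lit 102) (nat_lit 1) (nat_lit 107) (nat_lit 1) (nat_lit 292) (nat_lit 400) (nat_lit 388))) (XT.nd (nat_lit 94) (nat_lit 672) (nat_lit 0) (XT.lf (nat_lit 84) (nat_lit 38654870463) (nat_lit 0) (nat_lit 6411323871) (nat_lit 420) (nat_lit 10573437448) (nat_lit 98) (nat_lit 1) (nat_lit 97) (nat_lit 1) (nat_lit 102) (nat_lit 1) (nat_lit 293) (nat_lit 400) (nat_lit 387)) (XT.nd (nat_lit 94) (nat_lit 336) (nat_lit 0) (XT.lf (nat_lit 84) (nat_lit 19340011232) (nat_lit 0) (nat_lit 19639023130) (nat_lit 420) (nat_lit 14884798699) (nat_lit 94) (nat_lit 1) (nat_lit 93) (nat_lit 1) (nat_lit 98) (nat_lit 1) (nat_lit 294) (nat_lit 400) (nat_lit 386)) (XT.lf (nat_lit 84) (nat_lit 954580068) (nat_lit 0) (nat_lit 32836141724) (nat_lit 420) (nat_lit 18381390751) (nat_lit 90) (nat_lit 1)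 (nat_lit 89) (nat_lit 1) (nat_lit 94) (nat_lit 1) (nat_lit 295) (nat_lit 400) (nat_lit 385)))))) (XT.nd (nat_lit 376) (nat_lit 1260) (nat_lit 0) (XT.nd (nat_lit 188) (nat_lit 504) (nat_lit 0) (XT.nd (nat_lit 94) (nat_lit 420) (nat_lit 0) (XT.lf (nat_lit 336) (nat_lit 4310829790) (nat_lit 0) (nat_lit 29152078410) (nat_lit 252) (nat_lit 17083787936) (nat_lit 90) (nat_lit 1) (nat_lit 86) (nat_lit 1) (nat_lit 89) (nat_lit 1) (nat_lit 296) (nat_lit 400) (nat_lit 384)) (XT.lf (nat_lit 84) (nat_lit 14895075934) (nat_lit 0) (nat_lit 10209177599) (nat_lit 420) (nat_lit 23884175095) (nat_lit 82) (nat_lit 1) (nat_lit 81) (nat_lit 1) (nat_lit 86) (nat_lit 1) (nat_lit 297) (nat_lit 400) (nat_lit 383))) (XT.nd (nat_lit 94) (nat_lit 252) (nat_lit 0) (XT.lf (nat_lit 336) (nat_lit 23061160276) (nat_lit 0) (nat_lit 21662979495) (nat_lit 252) (nat_lit 2772835665) (nat_lit 82)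 (nat_lit 1) (nat_lit 78) (nat_lit 1) (nat_lit 81) (nat_lit 1) (nat_lit 298) (nat_lit 400) (nat_lit 382)) (XT.lf (nat_lit 336) (nat_lit 7390990458) (nat_lit 0) (nat_lit 18650938255) (nat_lit 252) (nat_lit 20020910494) (nat_lit 79) (nat_lit 1) (nat_lit 75) (nat_lit 1) (nat_lit 78) (nat_lit 1) (nat_lit 299) (nat_lit 400) (nat_lit 381)))) (XT.nd (nat_lit 188) (nat_lit 672) (nat_lit 0) (XT.nd (nat_lit 94) (nat_lit 252) (nat_lit 0) (XT.lf (nat_lit 84) (nat_lit 8423943221) (nat_lit 0) (nat_lit 7712852076) (nat_lit 336) (nat_lit 28551470058) (nat_lit 72) (nat_lit 1) (nat_lit 71) (nat_lit 1) (nat_lit 75) (nat_lit 1) (nat_lit 300) (nat_lit 400) (nat_lit 380)) (XT.lf (nat_lit 336) (nat_lit 20961877067) (nat_lit 0) (nat_lit 13947256213) (nat_lit 252) (nat_lit 8454872572) (nat_lit 72) (nat_lit 1) (nat_lit 68) (nat_lit 1) (nat_lit 71) (nat_lit 1) (nat_lit 301) (nat_lit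 400) (nat_lit 379))) (XT.nd (nat_lit 94) (nat_lit 504) (nat_lit 0) (XT.lf (nat_lit 252) (nat_lit 5196480276) (nat_lit 0) (nat_lit 12167963730) (nat_lit 168) (nat_lit 24728726666) (nat_lit 69) (nat_lit 1) (nat_lit 66) (nat_lit 1) (nat_lit 68) (nat_lit 1) (nat_lit 302) (nat_lit 400) (nat_lit 378)) (XT.nd (nat_lit 94) (nat_lit 168) (nat_lit 0) (XT.lf (nat_lit 84) (nat_lit 880316958) (nat_lit 0) (nat_lit 9850937867) (nat_lit 336) (nat_lit 30140341587) (nat_lit 63) (nat_lit 1) (nat_lit 62) (nat_lit 1) (nat_lit 66) (nat_lit 1) (nat_lit 303) (nat_lit 400) (nat_lit 377)) (XT.lf (nat_lit 252) (nat_lit 15100018196) (nat_lit 0) (nat_lit 9436215944) (nat_lit 168) (nat_lit 15152566412) (nat_lit 63) (nat_lit 1) (nat_lit 60) (nat_lit 1) (nat_lit 62) (nat_lit 1) (nat_lit 304) (nat_lit 400) (nat_lit 376))))))) (XT.nd (nat_lit 846) (nat_lit 1512) (nat_lit 0) (XT.nd (nat_lit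 376) (nat_lit 840) (nat_lit 0) (XT.nd (nat_lit 188) (nat_lit 420) (nat_lit 0) (XT.nd (nat_lit 94) (nat_lit 168) (nat_lit 0) (XT.lf (nat_lit 84) (nat_lit 8192638840) (nat_lit 0) (nat_lit 378423124) (nat_lit 252) (nat_lit 29986555866) (nat_lit 58) (nat_lit 1) (nat_lit 57) (nat_lit 1) (nat_lit 60) (nat_lit 1) (nat_lit 305) (nat_lit 400) (nat_lit 375)) (XT.lf (nat_lit 252) (nat_lit 22397092552) (nat_lit 0) (nat_lit 7761094754) (nat_lit 168) (nat_lit 7301153100) (nat_lit 58) (nat_lit 1) (nat_lit 55) (nat_lit 1) (nat_lit 57) (nat_lit 1) (nat_lit 306) (nat_lit 400) (nat_lit 374))) (XT.nd (nat_lit 94) (nat_lit 252) (nat_lit 0) (XT.lf (nat_lit 252) (nat_lit 6957434460) (nat_lit 0) (nat_lit 7214795809) (nat_lit 168) (nat_lit 22230824666) (nat_lit 56) (nat_lit 1) (nat_lit 53) (nat_lit 1) (nat_lit 55) (nat_lit 1) (nat_lit 307) (nat_lit 400) (nat_lit 373)) (XT.lf (nat_lit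 252) (nat_lit 27618457880) (nat_lit 0) (nat_lit 6893151806) (nat_lit 168) (nat_lit 874476278) (nat_lit 53) (nat_lit 1) (nat_lit 50) (nat_lit 1) (nat_lit 52) (nat_lit 1) (nat_lit 308) (nat_lit 400) (nat_lit 372)))) (XT.nd (nat_lit 188) (nat_lit 504) (nat_lit 0) (XT.nd (nat_lit 94) (nat_lit 168) (nat_lit 0) (XT.lf (nat_lit 252) (nat_lit 12360741740) (nat_lit 0) (nat_lit 6580635971) (nat_lit 168) (nat_lit 15455997641) (nat_lit 51) (nat_lit 1) (nat_lit 48) (nat_lit 1) (nat_lit 50) (nat_lit 1) (nat_lit 309) (nat_lit 400) (nat_lit 371)) (XT.lf (nat_lit 84) (nat_lit 4234031280) (nat_lit 0) (nat_lit 2327214383) (nat_lit 168) (nat_lit 26888428236) (nat_lit 47) (nat_lit 1) (nat_lit 46) (nat_lit 1) (nat_lit 48) (nat_lit 1) (nat_lit 310) (nat_lit 400) (nat_lit 370))) (XT.nd (nat_lit 94) (nat_lit 336) (nat_lit 0) (XT.lf (nat_lit 252) (nat_lit 16218004038) (nat_lit 0) (nat_lit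 6491769375) (nat_lit 168) (nat_lit 9816113380) (nat_lit 47) (nat_lit 1) (nat_lit 44) (nat_lit 1) (nat_lit 46) (nat_lit 1) (nat_lit 311) (nat_lit 400) (nat_lit 369)) (XT.nd (nat_lit 94) (nat_lit 252) (nat_lit 0) (XT.lf (nat_lit 168) (nat_lit 1746448579) (nat_lit 0) (nat_lit 6651215620) (nat_lit 84) (nat_lit 23240905412) (nat_lit 45) (nat_lit 1) (nat_lit 43) (nat_lit 1) (nat_lit 44) (nat_lit 1) (nat_lit 312) (nat_lit 400) (nat_lit 368)) (XT.lf (nat_lit 252) (nat_lit 18852267639) (nat_lit 0) (nat_lit 6802418680) (nat_lit 168) (nat_lit 5121032187) (nat_lit 43) (nat_lit 1) (nat_lit 40) (nat_lit 1) (nat_lit 42) (nat_lit 1) (nat_lit 313) (nat_lit 400) (nat_lit 367)))))) (XT.nd (nat_lit 470) (nat_lit 756) (nat_lit 0) (XT.nd (nat_lit 188) (nat_lit 420) (nat_lit 0) (XT.nd (nat_lit 94) (nat_lit 252) (nat_lit 0) (XT.lf (nat_lit 168) (nat_lit 4741484327) (nat_lit 0) (nat_lit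 7056767969) (nat_lit 84) (nat_lit 18143694920) (nat_lit 41) (nat_lit 1) (nat_lit 39) (nat_lit 1) (nat_lit 40) (nat_lit 1) (nat_lit 314) (nat_lit 400) (nat_lit 366)) (XT.lf (nat_lit 252) (nat_lit 20524719594) (nat_lit 0) (nat_lit 7397117976) (nat_lit 168) (nat_lit 1213930382) (nat_lit 39) (nat_lit 1) (nat_lit 36) (nat_lit 1) (nat_lit 38) (nat_lit 1) (nat_lit 315) (nat_lit 400) (nat_lit 365))) (XT.nd (nat_lit 94) (nat_lit 336) (nat_lit 0) (XT.lf (nat_lit 168) (nat_lit 6823646441) (nat_lit 0) (nat_lit 7711584375) (nat_lit 84) (nat_lit 13815969386) (nat_lit 37) (nat_lit 1) (nat_lit 35) (nat_lit 1) (nat_lit 36) (nat_lit 1) (nat_lit 316) (nat_lit 400) (nat_lit 364)) (XT.nd (nat_lit 94) (nat_lit 84) (nat_lit 0) (XT.lf (nat_lit 84) (nat_lit 1969575918) (nat_lit 0) (nat_lit 6181973797) (nat_lit 252) (nat_lit 19443268387) (nat_lit 33) (nat_lit 1) (nat_lit 32) (nat_lit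 1) (nat_lit 35) (nat_lit 1) (nat_lit 317) (nat_lit 400) (nat_lit 363)) (XT.lf (nat_lit 168) (nat_lit 8188991377) (nat_lit 0) (nat_lit 8532540866) (nat_lit 84) (nat_lit 10135688044) (nat_lit 33) (nat_lit 1) (nat_lit 31) (nat_lit 1) (nat_lit 32) (nat_lit 1) (nat_lit 318) (nat_lit 400) (nat_lit 362))))) (XT.nd (nat_lit 188) (nat_lit 420) (nat_lit 0) (XT.nd (nat_lit 94) (nat_lit 84) (nat_lit 0) (XT.lf (nat_lit 84) (nat_lit 4580500215) (nat_lit 0) (nat_lit 4436524191) (nat_lit 252) (nat_lit 17128519059) (nat_lit 29) (nat_lit 1) (nat_lit 28) (nat_lit 1) (nat_lit 31) (nat_lit 1) (nat_lit 319) (nat_lit 400) (nat_lit 361)) (XT.lf (nat_lit 168) (nat_lit 8995625402) (nat_lit 0) (nat_lit 9454749795) (nat_lit 84) (nat_lit 7001674517) (nat_lit 29) (nat_lit 1) (nat_lit 27) (nat_lit 1) (nat_lit 28) (nat_lit 1) (nat_lit 320) (nat_lit 400) (nat_lit 360))) (XT.nd (nat_lit 94)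 (nat_lit 252) (nat_lit 0) (XT.lf (nat_lit 84) (nat_lit 6743555512) (nat_lit 0) (nat_lit 3213183539) (nat_lit 168) (nat_lit 14824719816) (nat_lit 26) (nat_lit 1) (nat_lit 25) (nat_lit 1) (nat_lit 27) (nat_lit 1) (nat_lit 321) (nat_lit 400) (nat_lit 359)) (XT.nd (nat_lit 94) (nat_lit 168) (nat_lit 0) (XT.lf (nat_lit 168) (nat_lit 9370795847) (nat_lit 0) (nat_lit 10428005669) (nat_lit 84) (nat_lit 4329895051) (nat_lit 26) (nat_lit 1) (nat_lit 24) (nat_lit 1) (nat_lit 25) (nat_lit 1) (nat_lit 322) (nat_lit 400) (nat_lit 358)) (XT.lf (nat_lit 84) (nat_lit 8529970718) (nat_lit 0) (nat_lit 2397076818) (nat_lit 168) (nat_lit 12568965016) (nat_lit 23) (nat_lit 1) (nat_lit 22) (nat_lit 1) (nat_lit 24) (nat_lit 1) (nat_lit 323) (nat_lit 400) (nat_lit 357))))))))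
noncomputable def ec151 : XT := (XT.nd (nat_lit 1786) (nat_lit 0) (nat_lit 0) (XT.nd (nat_lit 846) (nat_lit 756) (nat_lit 0) (XT.nd (nat_lit 376) (nat_lit 588) (nat_lit 0) (XT.nd (nat_lit 188) (nat_lit 252) (nat_lit 0) (XT.nd (nat_lit 94) (nat_lit 168) (nat_lit 0) (XT.lf (nat_lit 168) (nat_lit 9416673266) (nat_lit 0) (nat_lit 11413896627) (nat_lit 84) (nat_lit 2050412700) (nat_lit 23) (nat_lit 1) (nat_lit 21) (nat_lit 1) (nat_lit 22) (nat_lit 1) (nat_lit 324) (nat_lit 400) (nat_lit 356)) (XT.lf (nat_lit 84) (nat_lit 9998945006) (nat_lit 0) (nat_lit 1895833826) (nat_lit 168) (nat_lit 10388617811) (nat_lit 20) (nat_lit 1) (nat_lit 19) (nat_lit 1) (nat_lit 21) (nat_lit 1) (nat_lit 325) (nat_lit 400) (nat_lit 355))) (XT.nd (nat_lit 94) (nat_lit 168) (nat_lit 0) (XT.lf (nat_lit 168) (nat_lit 9215065194) (nat_lit 0) (nat_lit 12383458612) (nat_lit 84) (nat_lit 104893897)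 (nat_lit 20) (nat_lit 1) (nat_lit 18) (nat_lit 1) (nat_lit 19) (nat_lit 1) (nat_lit 326) (nat_lit 400) (nat_lit 354)) (XT.lf (nat_lit 84) (nat_lit 11199777190) (nat_lit 0) (nat_lit 1635363506) (nat_lit 168) (nat_lit 8303293200) (nat_lit 17) (nat_lit 1) (nat_lit 16) (nat_lit 1) (nat_lit 18) (nat_lit 1) (nat_lit 327) (nat_lit 400) (nat_lit 353)))) (XT.nd (nat_lit 188) (nat_lit 336) (nat_lit 0) (XT.nd (nat_lit 94) (nat_lit 168) (nat_lit 0) (XT.lf (nat_lit 0) (nat_lit 1505649968) (nat_lit 0) (nat_lit 11784122974) (nat_lit 168) (nat_lit 7300109088) (nat_lit 15) (nat_lit 3) (nat_lit 15) (nat_lit 1) (nat_lit 17) (nat_lit 1) (nat_lit 328) (nat_lit 400) (nat_lit 352)) (XT.lf (nat_lit 84) (nat_lit 12173609662) (nat_lit 0) (nat_lit 1556409762) (nat_lit 168) (nat_lit 6326464622) (nat_lit 14) (nat_lit 1) (nat_lit 13) (nat_lit 1) (nat_lit 15) (nat_lit 1) (nat_lit 329) (nat_lit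 400) (nat_lit 351))) (XT.nd (nat_lit 94) (nat_lit 252) (nat_lit 0) (XT.lf (nat_lit 0) (nat_lit 2876348461) (nat_lit 0) (nat_lit 11268856958) (nat_lit 168) (nat_lit 5392086232) (nat_lit 12) (nat_lit 3) (nat_lit 12) (nat_lit 1) (nat_lit 14) (nat_lit 1) (nat_lit 330) (nat_lit 400) (nat_lit 350)) (XT.nd (nat_lit 94) (nat_lit 84) (nat_lit 0) (XT.lf (nat_lit 84) (nat_lit 12954857265) (nat_lit 0) (nat_lit 1611745002) (nat_lit 168) (nat_lit 4466763944) (nat_lit 11) (nat_lit 1) (nat_lit 10) (nat_lit 1) (nat_lit 12) (nat_lit 1) (nat_lit 331) (nat_lit 400) (nat_lit 349)) (XT.lf (nat_lit 0) (nat_lit 4043825831) (nat_lit 0) (nat_lit 10896419482) (nat_lit 168) (nat_lit 3601476800) (nat_lit 9) (nat_lit 3) (nat_lit 9) (nat_lit 1) (nat_lit 11) (nat_lit 1) (nat_lit 332) (nat_lit 400) (nat_lit 348)))))) (XT.nd (nat_lit 470) (nat_lit 0) (nat_lit 0) (XT.nd (nat_lit 188) (nat_lit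 504) (nat_lit 0) (XT.nd (nat_lit 94) (nat_lit 84) (nat_lit 0) (XT.lf (nat_lit 84) (nat_lit 13572378605) (nat_lit 0) (nat_lit 1763884048) (nat_lit 168) (nat_lit 2729031821) (nat_lit 8) (nat_lit 1) (nat_lit 7) (nat_lit 1) (nat_lit 9) (nat_lit 1) (nat_lit 333) (nat_lit 400) (nat_lit 347)) (XT.lf (nat_lit 0) (nat_lit 5036129514) (nat_lit 0) (nat_lit 10631362426) (nat_lit 168) (nat_lit 1932047683) (nat_lit 6) (nat_lit 3) (nat_lit 6) (nat_lit 1) (nat_lit 8) (nat_lit 1) (nat_lit 334) (nat_lit 400) (nat_lit 346))) (XT.nd (nat_lit 94) (nat_lit 336) (nat_lit 0) (XT.lf (nat_lit 84) (nat_lit 14050436759) (nat_lit 0) (nat_lit 1983222581) (nat_lit 168) (nat_lit 1115164922) (nat_lit 5) (nat_lit 1) (nat_lit 4) (nat_lit 1) (nat_lit 6) (nat_lit 1) (nat_lit 335) (nat_lit 400) (nat_lit 345)) (XT.nd (nat_lit 94) (nat_lit 252) (nat_lit 0) (XT.lf (nat_lit 0) (nat_lit 5876980954)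 (nat_lit 0) (nat_lit 10445562272) (nat_lit 168) (nat_lit 384889725) (nat_lit 3) (nat_lit 3) (nat_lit 3) (nat_lit 1) (nat_lit 5) (nat_lit 1) (nat_lit 336) (nat_lit 400) (nat_lit 344)) (XT.lf (nat_lit 0) (nat_lit 23616726414) (nat_lit 0) (nat_lit 0) (nat_lit 0) (nat_lit 0) (nat_lit 0) (nat_lit 0) (nat_lit 1) (nat_lit 0) (nat_lit 1) (nat_lit 0) (nat_lit 337) (nat_lit 400) (nat_lit 343))))) (XT.nd (nat_lit 188) (nat_lit 0) (nat_lit 0) (XT.nd (nat_lit 94) (nat_lit 0) (nat_lit 0) (XT.lf (nat_lit 0) (nat_lit 23595230186) (nat_lit 0) (nat_lit 0) (nat_lit 0) (nat_lit 0) (nat_lit 0) (nat_lit 0) (nat_lit 1) (nat_lit 0) (nat_lit 1) (nat_lit 0) (nat_lit 338) (nat_lit 400) (nat_lit 342)) (XT.lf (nat_lit 0) (nat_lit 23575326271) (nat_lit 0) (nat_lit 0) (nat_lit 0) (nat_lit 0) (nat_lit 0) (nat_lit 0) (nat_lit 1) (nat_lit 0) (nat_lit 1) (nat_lit 0) (nat_lit 339) (nat_lit 400)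 (nat_lit 341))) (XT.nd (nat_lit 94) (nat_lit 0) (nat_lit 0) (XT.lf (nat_lit 0) (nat_lit 23556896720) (nat_lit 0) (nat_lit 0) (nat_lit 0) (nat_lit 0) (nat_lit 0) (nat_lit 0) (nat_lit 1) (nat_lit 0) (nat_lit 1) (nat_lit 0) (nat_lit 340) (nat_lit 400) (nat_lit 340)) (XT.nd (nat_lit 94) (nat_lit 0) (nat_lit 0) (XT.lf (nat_lit 0) (nat_lit 23539832322) (nat_lit 0) (nat_lit 0) (nat_lit 0) (nat_lit 0) (nat_lit 0) (nat_lit 0) (nat_lit 1) (nat_lit 0) (nat_lit 1) (nat_lit 0) (nat_lit 341) (nat_lit 400) (nat_lit 339)) (XT.lf (nat_lit 0) (nat_lit 23524031952) (nat_lit 0) (nat_lit 0) (nat_lit 0) (nat_lit 0) (nat_lit 0) (nat_lit 0) (nat_lit 1) (nat_lit 0) (nat_lit 1) (nat_lit 0) (nat_lit 342) (nat_lit 400) (nat_lit 338))))))) (XT.nd (nat_lit 846) (nat_lit 0) (nat_lit 0) (XT.nd (nat_lit 376) (nat_lit 0) (nat_lit 0) (XT.nd (nat_lit 188) (nat_lit 0) (nat_lit 0) (XT.nd (nat_lit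 94) (nat_lit 0) (nat_lit 0) (XT.lf (nat_lit 0) (nat_lit 23509401981) (nat_lit 0) (nat_lit 0) (nat_lit 0) (nat_lit 0) (nat_lit 0) (nat_lit 0) (nat_lit 1) (nat_lit 0) (nat_lit 1) (nat_lit 0) (nat_lit 343) (nat_lit 400) (nat_lit 337)) (XT.lf (nat_lit 0) (nat_lit 23495855711) (nat_lit 0) (nat_lit 0) (nat_lit 0) (nat_lit 0) (nat_lit 0) (nat_lit 0) (nat_lit 1) (nat_lit 0) (nat_lit 1) (nat_lit 0) (nat_lit 344) (nat_lit 400) (nat_lit 336))) (XT.nd (nat_lit 94) (nat_lit 0) (nat_lit 0) (XT.lf (nat_lit 0) (nat_lit 23483312868) (nat_lit 0) (nat_lit 0) (nat_lit 0) (nat_lit 0) (nat_lit 0) (nat_lit 0) (nat_lit 1) (nat_lit 0) (nat_lit 1) (nat_lit 0) (nat_lit 345) (nat_lit 400) (nat_lit 335)) (XT.lf (nat_lit 0) (nat_lit 23471699125) (nat_lit 0) (nat_lit 0) (nat_lit 0) (nat_lit 0) (nat_lit 0) (nat_lit 0) (nat_lit 1) (nat_lit 0) (nat_lit 1) (nat_lit 0) (nat_lit 346) (nat_lit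 400) (nat_lit 334)))) (XT.nd (nat_lit 188) (nat_lit 0) (nat_lit 0) (XT.nd (nat_lit 94) (nat_lit 0) (nat_lit 0) (XT.lf (nat_lit 0) (nat_lit 23460945659) (nat_lit 0) (nat_lit 0) (nat_lit 0) (nat_lit 0) (nat_lit 0) (nat_lit 0) (nat_lit 1) (nat_lit 0) (nat_lit 1) (nat_lit 0) (nat_lit 347) (nat_lit 400) (nat_lit 333)) (XT.lf (nat_lit 0) (nat_lit 23450988747) (nat_lit 0) (nat_lit 0) (nat_lit 0) (nat_lit 0) (nat_lit 0) (nat_lit 0) (nat_lit 1) (nat_lit 0) (nat_lit 1) (nat_lit 0) (nat_lit 348) (nat_lit 400) (nat_lit 332))) (XT.nd (nat_lit 94) (nat_lit 0) (nat_lit 0) (XT.lf (nat_lit 0) (nat_lit 23441769383) (nat_lit 0) (nat_lit 0) (nat_lit 0) (nat_lit 0) (nat_lit 0) (nat_lit 0) (nat_lit 1) (nat_lit 0) (nat_lit 1) (nat_lit 0) (nat_lit 349) (nat_lit 400) (nat_lit 331)) (XT.nd (nat_lit 94) (nat_lit 0) (nat_lit 0) (XT.lf (nat_lit 0) (nat_lit 23433232935) (nat_lit 0) (nat_lit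 0) (nat_lit 0) (nat_lit 0) (nat_lit 0) (nat_lit 0) (nat_lit 1) (nat_lit 0) (nat_lit 1) (nat_lit 0) (nat_lit 350) (nat_lit 400) (nat_lit 330)) (XT.lf (nat_lit 0) (nat_lit 23425328817) (nat_lit 0) (nat_lit 0) (nat_lit 0) (nat_lit 0) (nat_lit 0) (nat_lit 0) (nat_lit 1) (nat_lit 0) (nat_lit 1) (nat_lit 0) (nat_lit 351) (nat_lit 400) (nat_lit 329)))))) (XT.nd (nat_lit 470) (nat_lit 0) (nat_lit 0) (XT.nd (nat_lit 188) (nat_lit 0) (nat_lit 0) (XT.nd (nat_lit 94) (nat_lit 0) (nat_lit 0) (XT.lf (nat_lit 0) (nat_lit 23418010189) (nat_lit 0) (nat_lit 0) (nat_lit 0) (nat_lit 0) (nat_lit 0) (nat_lit 0) (nat_lit 1) (nat_lit 0) (nat_lit 1) (nat_lit 0) (nat_lit 352) (nat_lit 400) (nat_lit 328)) (XT.lf (nat_lit 0) (nat_lit 23411233681) (nat_lit 0) (nat_lit 0) (nat_lit 0) (nat_lit 0) (nat_lit 0) (nat_lit 0) (nat_lit 1) (nat_lit 0) (nat_lit 1) (nat_lit 0) (nat_lit 353) (nat_lit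 400) (nat_lit 327))) (XT.nd (nat_lit 94) (nat_lit 0) (nat_lit 0) (XT.lf (nat_lit 0) (nat_lit 23404959137) (nat_lit 0) (nat_lit 0) (nat_lit 0) (nat_lit 0) (nat_lit 0) (nat_lit 0) (nat_lit 1) (nat_lit 0) (nat_lit 1) (nat_lit 0) (nat_lit 354) (nat_lit 400) (nat_lit 326)) (XT.nd (nat_lit 94) (nat_lit 0) (nat_lit 0) (XT.lf (nat_lit 0) (nat_lit 23399149374) (nat_lit 0) (nat_lit 0) (nat_lit 0) (nat_lit 0) (nat_lit 0) (nat_lit 0) (nat_lit 1) (nat_lit 0) (nat_lit 1) (nat_lit 0) (nat_lit 355) (nat_lit 400) (nat_lit 325)) (XT.lf (nat_lit 0) (nat_lit 23393769964) (nat_lit 0) (nat_lit 0) (nat_lit 0) (nat_lit 0) (nat_lit 0) (nat_lit 0) (nat_lit 1) (nat_lit 0) (nat_lit 1) (nat_lit 0) (nat_lit 356) (nat_lit 400) (nat_lit 324))))) (XT.nd (nat_lit 188) (nat_lit 0) (nat_lit 0) (XT.nd (nat_lit 94) (nat_lit 0) (nat_lit 0) (XT.lf (nat_lit 0) (nat_lit 23388789029) (nat_lit 0) (nat_lit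 0) (nat_lit 0) (nat_lit 0) (nat_lit 0) (nat_lit 0) (nat_lit 1) (nat_lit 0) (nat_lit 1) (nat_lit 0) (nat_lit 357) (nat_lit 400) (nat_lit 323)) (XT.lf (nat_lit 0) (nat_lit 23384177051) (nat_lit 0) (nat_lit 0) (nat_lit 0) (nat_lit 0) (nat_lit 0) (nat_lit 0) (nat_lit 1) (nat_lit 0) (nat_lit 1) (nat_lit 0) (nat_lit 358) (nat_lit 400) (nat_lit 322))) (XT.nd (nat_lit 94) (nat_lit 0) (nat_lit 0) (XT.lf (nat_lit 0) (nat_lit 23379906702) (nat_lit 0) (nat_lit 0) (nat_lit 0) (nat_lit 0) (nat_lit 0) (nat_lit 0) (nat_lit 1) (nat_lit 0) (nat_lit 1) (nat_lit 0) (nat_lit 359) (nat_lit 400) (nat_lit 321)) (XT.nd (nat_lit 94) (nat_lit 0) (nat_lit 0) (XT.lf (nat_lit 0) (nat_lit 23375952675) (nat_lit 0) (nat_lit 0) (nat_lit 0) (nat_lit 0) (nat_lit 0) (nat_lit 0) (nat_lit 1) (nat_lit 0) (nat_lit 1) (nat_lit 0) (nat_lit 360) (nat_lit 400) (nat_lit 320)) (XT.lf (nat_lit 0) (nat_lit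 23372291539) (nat_lit 0) (nat_lit 0) (nat_lit 0) (nat_lit 0) (nat_lit 0) (nat_lit 0) (nat_lit 1) (nat_lit 0) (nat_lit 1) (nat_lit 0) (nat_lit 361) (nat_lit 400) (nat_lit 319))))))))
noncomputable def ec152 : XT := (XT.nd (nat_lit 1692) (nat_lit 0) (nat_lit 0) (XT.nd (nat_lit 846) (nat_lit 0) (nat_lit 0) (XT.nd (nat_lit 376) (nat_lit 0) (nat_lit 0) (XT.nd (nat_lit 188) (nat_lit 0) (nat_lit 0) (XT.nd (nat_lit 94) (nat_lit 0) (nat_lit 0) (XT.lf (nat_lit 0) (nat_lit 23368901598) (nat_lit 0) (nat_lit 0) (nat_lit 0) (nat_lit 0) (nat_lit 0) (nat_lit 0) (nat_lit 1) (nat_lit 0) (nat_lit 1) (nat_lit 0) (nat_lit 362) (nat_lit 400) (nat_lit 318)) (XT.lf (nat_lit 0) (nat_lit 23365762764) (nat_lit 0) (nat_lit 0) (nat_lit 0) (nat_lit 0) (nat_lit 0) (nat_lit 0) (nat_lit 1) (nat_lit 0) (nat_lit 1) (nat_lit 0) (nat_lit 363) (nat_lit 400) (nat_lit 317))) (XT.nd (nat_lit 94)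 (nat_lit 0) (nat_lit 0) (XT.lf (nat_lit 0) (nat_lit 23362856436) (nat_lit 0) (nat_lit 0) (nat_lit 0) (nat_lit 0) (nat_lit 0) (nat_lit 0) (nat_lit 1) (nat_lit 0) (nat_lit 1) (nat_lit 0) (nat_lit 364) (nat_lit 400) (nat_lit 316)) (XT.lf (nat_lit 0) (nat_lit 23360165392) (nat_lit 0) (nat_lit 0) (nat_lit 0) (nat_lit 0) (nat_lit 0) (nat_lit 0) (nat_lit 1) (nat_lit 0) (nat_lit 1) (nat_lit 0) (nat_lit 365) (nat_lit 400) (nat_lit 315)))) (XT.nd (nat_lit 188) (nat_lit 0) (nat_lit 0) (XT.nd (nat_lit 94) (nat_lit 0) (nat_lit 0) (XT.lf (nat_lit 0) (nat_lit 23357673684) (nat_lit 0) (nat_lit 0) (nat_lit 0) (nat_lit 0) (nat_lit 0) (nat_lit 0) (nat_lit 1) (nat_lit 0) (nat_lit 1) (nat_lit 0) (nat_lit 366) (nat_lit 400) (nat_lit 314)) (XT.lf (nat_lit 0) (nat_lit 23355366547) (nat_lit 0) (nat_lit 0) (nat_lit 0) (nat_lit 0) (nat_lit 0) (nat_lit 0) (nat_lit 1) (nat_lit 0) (nat_lit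 1) (nat_lit 0) (nat_lit 367) (nat_lit 400) (nat_lit 313))) (XT.nd (nat_lit 94) (nat_lit 0) (nat_lit 0) (XT.lf (nat_lit 0) (nat_lit 23353230309) (nat_lit 0) (nat_lit 0) (nat_lit 0) (nat_lit 0) (nat_lit 0) (nat_lit 0) (nat_lit 1) (nat_lit 0) (nat_lit 1) (nat_lit 0) (nat_lit 368) (nat_lit 400) (nat_lit 312)) (XT.nd (nat_lit 94) (nat_lit 0) (nat_lit 0) (XT.lf (nat_lit 0) (nat_lit 23351252311) (nat_lit 0) (nat_lit 0) (nat_lit 0) (nat_lit 0) (nat_lit 0) (nat_lit 0) (nat_lit 1) (nat_lit 0) (nat_lit 1) (nat_lit 0) (nat_lit 369) (nat_lit 400) (nat_lit 311)) (XT.lf (nat_lit 0) (nat_lit 23349420832) (nat_lit 0) (nat_lit 0) (nat_lit 0) (nat_lit 0) (nat_lit 0) (nat_lit 0) (nat_lit 1) (nat_lit 0) (nat_lit 1) (nat_lit 0) (nat_lit 370) (nat_lit 400) (nat_lit 310)))))) (XT.nd (nat_lit 376) (nat_lit 0) (nat_lit 0) (XT.nd (nat_lit 188) (nat_lit 0) (nat_lit 0) (XT.nd (nat_lit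 94) (nat_lit 0) (nat_lit 0) (XT.lf (nat_lit 0) (nat_lit 23347725017) (nat_lit 0) (nat_lit 0) (nat_lit 0) (nat_lit 0) (nat_lit 0) (nat_lit 0) (nat_lit 1) (nat_lit 0) (nat_lit 1) (nat_lit 0) (nat_lit 371) (nat_lit 400) (nat_lit 309)) (XT.lf (nat_lit 0) (nat_lit 23346154819) (nat_lit 0) (nat_lit 0) (nat_lit 0) (nat_lit 0) (nat_lit 0) (nat_lit 0) (nat_lit 1) (nat_lit 0) (nat_lit 1) (nat_lit 0) (nat_lit 372) (nat_lit 400) (nat_lit 308))) (XT.nd (nat_lit 94) (nat_lit 0) (nat_lit 0) (XT.lf (nat_lit 0) (nat_lit 23344700931) (nat_lit 0) (nat_lit 0) (nat_lit 0) (nat_lit 0) (nat_lit 0) (nat_lit 0) (nat_lit 1) (nat_lit 0) (nat_lit 1) (nat_lit 0) (nat_lit 373) (nat_lit 400) (nat_lit 307)) (XT.lf (nat_lit 0) (nat_lit 23343354739) (nat_lit 0) (nat_lit 0) (nat_lit 0) (nat_lit 0) (nat_lit 0) (nat_lit 0) (nat_lit 1) (nat_lit 0) (nat_lit 1) (nat_lit 0) (nat_lit 374) (nat_lit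 400) (nat_lit 306)))) (XT.nd (nat_lit 188) (nat_lit 0) (nat_lit 0) (XT.nd (nat_lit 94) (nat_lit 0) (nat_lit 0) (XT.lf (nat_lit 0) (nat_lit 23342108265) (nat_lit 0) (nat_lit 0) (nat_lit 0) (nat_lit 0) (nat_lit 0) (nat_lit 0) (nat_lit 1) (nat_lit 0) (nat_lit 1) (nat_lit 0) (nat_lit 375) (nat_lit 400) (nat_lit 305)) (XT.lf (nat_lit 0) (nat_lit 23340954122) (nat_lit 0) (nat_lit 0) (nat_lit 0) (nat_lit 0) (nat_lit 0) (nat_lit 0) (nat_lit 1) (nat_lit 0) (nat_lit 1) (nat_lit 0) (nat_lit 376) (nat_lit 400) (nat_lit 304))) (XT.nd (nat_lit 94) (nat_lit 0) (nat_lit 0) (XT.lf (nat_lit 0) (nat_lit 23339885471) (nat_lit 0) (nat_lit 0) (nat_lit 0) (nat_lit 0) (nat_lit 0) (nat_lit 0) (nat_lit 1) (nat_lit 0) (nat_lit 1) (nat_lit 0) (nat_lit 377) (nat_lit 400) (nat_lit 303)) (XT.nd (nat_lit 94) (nat_lit 0) (nat_lit 0) (XT.lf (nat_lit 0) (nat_lit 23338895980) (nat_lit 0) (nat_lit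 0) (nat_lit 0) (nat_lit 0) (nat_lit 0) (nat_lit 0) (nat_lit 1) (nat_lit 0) (nat_lit 1) (nat_lit 0) (nat_lit 378) (nat_lit 400) (nat_lit 302)) (XT.lf (nat_lit 0) (nat_lit 23337979784) (nat_lit 0) (nat_lit 0) (nat_lit 0) (nat_lit 0) (nat_lit 0) (nat_lit 0) (nat_lit 1) (nat_lit 0) (nat_lit 1) (nat_lit 0) (nat_lit 379) (nat_lit 400) (nat_lit 301))))))) (XT.nd (nat_lit 846) (nat_lit 0) (nat_lit 0) (XT.nd (nat_lit 376) (nat_lit 0) (nat_lit 0) (XT.nd (nat_lit 188) (nat_lit 0) (nat_lit 0) (XT.nd (nat_lit 94) (nat_lit 0) (nat_lit 0) (XT.lf (nat_lit 0) (nat_lit 23337131454) (nat_lit 0) (nat_lit 0) (nat_lit 0) (nat_lit 0) (nat_lit 0) (nat_lit 0) (nat_lit 1) (nat_lit 0) (nat_lit 1) (nat_lit 0) (nat_lit 380) (nat_lit 400) (nat_lit 300)) (XT.lf (nat_lit 0) (nat_lit 23336345964) (nat_lit 0) (nat_lit 0) (nat_lit 0) (nat_lit 0) (nat_lit 0) (nat_lit 0) (nat_lit 1) (nat_lit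 0) (nat_lit 1) (nat_lit 0) (nat_lit 381) (nat_lit 400) (nat_lit 299))) (XT.nd (nat_lit 94) (nat_lit 0) (nat_lit 0) (XT.lf (nat_lit 0) (nat_lit 23335618659) (nat_lit 0) (nat_lit 0) (nat_lit 0) (nat_lit 0) (nat_lit 0) (nat_lit 0) (nat_lit 1) (nat_lit 0) (nat_lit 1) (nat_lit 0) (nat_lit 382) (nat_lit 400) (nat_lit 298)) (XT.lf (nat_lit 0) (nat_lit 23334945227) (nat_lit 0) (nat_lit 0) (nat_lit 0) (nat_lit 0) (nat_lit 0) (nat_lit 0) (nat_lit 1) (nat_lit 0) (nat_lit 1) (nat_lit 0) (nat_lit 383) (nat_lit 400) (nat_lit 297)))) (XT.nd (nat_lit 188) (nat_lit 0) (nat_lit 0) (XT.nd (nat_lit 94) (nat_lit 0) (nat_lit 0) (XT.lf (nat_lit 0) (nat_lit 23334321680) (nat_lit 0) (nat_lit 0) (nat_lit 0) (nat_lit 0) (nat_lit 0) (nat_lit 0) (nat_lit 1) (nat_lit 0) (nat_lit 1) (nat_lit 0) (nat_lit 384) (nat_lit 400) (nat_lit 296)) (XT.lf (nat_lit 0) (nat_lit 23333744321) (nat_lit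 0) (nat_lit 0) (nat_lit 0) (nat_lit 0) (nat_lit 0) (nat_lit 0) (nat_lit 1) (nat_lit 0) (nat_lit 1) (nat_lit 0) (nat_lit 385) (nat_lit 400) (nat_lit 295))) (XT.nd (nat_lit 94) (nat_lit 0) (nat_lit 0) (XT.lf (nat_lit 0) (nat_lit 23333209730) (nat_lit 0) (nat_lit 0) (nat_lit 0) (nat_lit 0) (nat_lit 0) (nat_lit 0) (nat_lit 1) (nat_lit 0) (nat_lit 1) (nat_lit 0) (nat_lit 386) (nat_lit 400) (nat_lit 294)) (XT.nd (nat_lit 94) (nat_lit 0) (nat_lit 0) (XT.lf (nat_lit 0) (nat_lit 23332714738) (nat_lit 0) (nat_lit 0) (nat_lit 0) (nat_lit 0) (nat_lit 0) (nat_lit 0) (nat_lit 1) (nat_lit 0) (nat_lit 1) (nat_lit 0) (nat_lit 387) (nat_lit 400) (nat_lit 293)) (XT.lf (nat_lit 0) (nat_lit 23332256412) (nat_lit 0) (nat_lit 0) (nat_lit 0) (nat_lit 0) (nat_lit 0) (nat_lit 0) (nat_lit 1) (nat_lit 0) (nat_lit 1) (nat_lit 0) (nat_lit 388) (nat_lit 400) (nat_lit 292)))))) (XT.nd (nat_lit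 470) (nat_lit 0) (nat_lit 0) (XT.nd (nat_lit 188) (nat_lit 0) (nat_lit 0) (XT.nd (nat_lit 94) (nat_lit 0) (nat_lit 0) (XT.lf (nat_lit 0) (nat_lit 23331832036) (nat_lit 0) (nat_lit 0) (nat_lit 0) (nat_lit 0) (nat_lit 0) (nat_lit 0) (nat_lit 1) (nat_lit 0) (nat_lit 1) (nat_lit 0) (nat_lit 389) (nat_lit 400) (nat_lit 291)) (XT.lf (nat_lit 0) (nat_lit 23331439095) (nat_lit 0) (nat_lit 0) (nat_lit 0) (nat_lit 0) (nat_lit 0) (nat_lit 0) (nat_lit 1) (nat_lit 0) (nat_lit 1) (nat_lit 0) (nat_lit 390) (nat_lit 400) (nat_lit 290))) (XT.nd (nat_lit 94) (nat_lit 0) (nat_lit 0) (XT.lf (nat_lit 0) (nat_lit 23331075261) (nat_lit 0) (nat_lit 0) (nat_lit 0) (nat_lit 0) (nat_lit 0) (nat_lit 0) (nat_lit 1) (nat_lit 0) (nat_lit 1) (nat_lit 0) (nat_lit 391) (nat_lit 400) (nat_lit 289)) (XT.nd (nat_lit 94) (nat_lit 0) (nat_lit 0) (XT.lf (nat_lit 0) (nat_lit 23330738378) (nat_lit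 0) (nat_lit 0) (nat_lit 0) (nat_lit 0) (nat_lit 0) (nat_lit 0) (nat_lit 1) (nat_lit 0) (nat_lit 1) (nat_lit 0) (nat_lit 392) (nat_lit 400) (nat_lit 288)) (XT.lf (nat_lit 0) (nat_lit 23330426449) (nat_lit 0) (nat_lit 0) (nat_lit 0) (nat_lit 0) (nat_lit 0) (nat_lit 0) (nat_lit 1) (nat_lit 0) (nat_lit 1) (nat_lit 0) (nat_lit 393) (nat_lit 400) (nat_lit 287))))) (XT.nd (nat_lit 188) (nat_lit 0) (nat_lit 0) (XT.nd (nat_lit 94) (nat_lit 0) (nat_lit 0) (XT.lf (nat_lit 0) (nat_lit 23330137626) (nat_lit 0) (nat_lit 0) (nat_lit 0) (nat_lit 0) (nat_lit 0) (nat_lit 0) (nat_lit 1) (nat_lit 0) (nat_lit 1) (nat_lit 0) (nat_lit 394) (nat_lit 400) (nat_lit 286)) (XT.lf (nat_lit 0) (nat_lit 23329870197) (nat_lit 0) (nat_lit 0) (nat_lit 0) (nat_lit 0) (nat_lit 0) (nat_lit 0) (nat_lit 1) (nat_lit 0) (nat_lit 1) (nat_lit 0) (nat_lit 395) (nat_lit 400) (nat_lit 285))) (XT.nd (nat_lit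 94) (nat_lit 0) (nat_lit 0) (XT.lf (nat_lit 0) (nat_lit 23329622578) (nat_lit 0) (nat_lit 0) (nat_lit 0) (nat_lit 0) (nat_lit 0) (nat_lit 0) (nat_lit 1) (nat_lit 0) (nat_lit 1) (nat_lit 0) (nat_lit 396) (nat_lit 400) (nat_lit 284)) (XT.nd (nat_lit 94) (nat_lit 0) (nat_lit 0) (XT.lf (nat_lit 0) (nat_lit 23329393301) (nat_lit 0) (nat_lit 0) (nat_lit 0) (nat_lit 0) (nat_lit 0) (nat_lit 0) (nat_lit 1) (nat_lit 0) (nat_lit 1) (nat_lit 0) (nat_lit 397) (nat_lit 400) (nat_lit 283)) (XT.lf (nat_lit 0) (nat_lit 23329181007) (nat_lit 0) (nat_lit 0) (nat_lit 0) (nat_lit 0) (nat_lit 0) (nat_lit 0) (nat_lit 1) (nat_lit 0) (nat_lit 1) (nat_lit 0) (nat_lit 398) (nat_lit 400) (nat_lit 282))))))))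
noncomputable def ec153 : XT := (XT.nd (nat_lit 1786) (nat_lit 0) (nat_lit 0) (XT.nd (nat_lit 846) (nat_lit 0) (nat_lit 0) (XT.nd (nat_lit 376) (nat_lit 0) (nat_lit 0) (XT.nd (nat_lit 188) (nat_lit 0) (nat_lit 0) (XT.nd (nat_lit 94) (nat_lit 0) (nat_lit 0) (XT.lf (nat_lit 0) (nat_lit 23328984439) (nat_lit 0) (nat_lit 0) (nat_lit 0) (nat_lit 0) (nat_lit 0) (nat_lit 0) (nat_lit 1) (nat_lit 0) (nat_lit 1) (nat_lit 0) (nat_lit 399) (nat_lit 400) (nat_lit 281)) (XT.lf (nat_lit 0) (nat_lit 23328802431) (nat_lit 0) (nat_lit 0) (nat_lit 0) (nat_lit 0) (nat_lit 0) (nat_lit 0) (nat_lit 1) (nat_lit 0) (nat_lit 1) (nat_lit 0) (nat_lit 400) (nat_lit 400) (nat_lit 280))) (XT.nd (nat_lit 94) (nat_lit 0) (nat_lit 0) (XT.lf (nat_lit 0) (nat_lit 23328633906) (nat_lit 0) (nat_lit 0) (nat_lit 0) (nat_lit 0) (nat_lit 0) (nat_lit 0) (nat_lit 1) (nat_lit 0) (nat_lit 1) (nat_lit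 0) (nat_lit 401) (nat_lit 400) (nat_lit 279)) (XT.lf (nat_lit 0) (nat_lit 23328477864) (nat_lit 0) (nat_lit 0) (nat_lit 0) (nat_lit 0) (nat_lit 0) (nat_lit 0) (nat_lit 1) (nat_lit 0) (nat_lit 1) (nat_lit 0) (nat_lit 402) (nat_lit 400) (nat_lit 278)))) (XT.nd (nat_lit 188) (nat_lit 0) (nat_lit 0) (XT.nd (nat_lit 94) (nat_lit 0) (nat_lit 0) (XT.lf (nat_lit 0) (nat_lit 23328333380) (nat_lit 0) (nat_lit 0) (nat_lit 0) (nat_lit 0) (nat_lit 0) (nat_lit 0) (nat_lit 1) (nat_lit 0) (nat_lit 1) (nat_lit 0) (nat_lit 403) (nat_lit 400) (nat_lit 277)) (XT.lf (nat_lit 0) (nat_lit 23328199599) (nat_lit 0) (nat_lit 0) (nat_lit 0) (nat_lit 0) (nat_lit 0) (nat_lit 0) (nat_lit 1) (nat_lit 0) (nat_lit 1) (nat_lit 0) (nat_lit 404) (nat_lit 400) (nat_lit 276))) (XT.nd (nat_lit 94) (nat_lit 0) (nat_lit 0) (XT.lf (nat_lit 0) (nat_lit 23328075728) (nat_lit 0) (nat_lit 0) (nat_lit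 0) (nat_lit 0) (nat_lit 0) (nat_lit 0) (nat_lit 1) (nat_lit 0) (nat_lit 1) (nat_lit 0) (nat_lit 405) (nat_lit 400) (nat_lit 275)) (XT.nd (nat_lit 94) (nat_lit 0) (nat_lit 0) (XT.lf (nat_lit 0) (nat_lit 23327961032) (nat_lit 0) (nat_lit 0) (nat_lit 0) (nat_lit 0) (nat_lit 0) (nat_lit 0) (nat_lit 1) (nat_lit 0) (nat_lit 1) (nat_lit 0) (nat_lit 406) (nat_lit 400) (nat_lit 274)) (XT.lf (nat_lit 0) (nat_lit 23327854833) (nat_lit 0) (nat_lit 0) (nat_lit 0) (nat_lit 0) (nat_lit 0) (nat_lit 0) (nat_lit 1) (nat_lit 0) (nat_lit 1) (nat_lit 0) (nat_lit 407) (nat_lit 400) (nat_lit 273)))))) (XT.nd (nat_lit 470) (nat_lit 0) (nat_lit 0) (XT.nd (nat_lit 188) (nat_lit 0) (nat_lit 0) (XT.nd (nat_lit 94) (nat_lit 0) (nat_lit 0) (XT.lf (nat_lit 0) (nat_lit 23327756500) (nat_lit 0) (nat_lit 0) (nat_lit 0) (nat_lit 0) (nat_lit 0) (nat_lit 0) (nat_lit 1) (nat_lit 0) (nat_lit 1)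 (nat_lit 0) (nat_lit 408) (nat_lit 400) (nat_lit 272)) (XT.lf (nat_lit 0) (nat_lit 23327665450) (nat_lit 0) (nat_lit 0) (nat_lit 0) (nat_lit 0) (nat_lit 0) (nat_lit 0) (nat_lit 1) (nat_lit 0) (nat_lit 1) (nat_lit 0) (nat_lit 409) (nat_lit 400) (nat_lit 271))) (XT.nd (nat_lit 94) (nat_lit 0) (nat_lit 0) (XT.lf (nat_lit 0) (nat_lit 23327581146) (nat_lit 0) (nat_lit 0) (nat_lit 0) (nat_lit 0) (nat_lit 0) (nat_lit 0) (nat_lit 1) (nat_lit 0) (nat_lit 1) (nat_lit 0) (nat_lit 410) (nat_lit 400) (nat_lit 270)) (XT.nd (nat_lit 94) (nat_lit 0) (nat_lit 0) (XT.lf (nat_lit 0) (nat_lit 23327503086) (nat_lit 0) (nat_lit 0) (nat_lit 0) (nat_lit 0) (nat_lit 0) (nat_lit 0) (nat_lit 1) (nat_lit 0) (nat_lit 1) (nat_lit 0) (nat_lit 411) (nat_lit 400) (nat_lit 269)) (XT.lf (nat_lit 0) (nat_lit 23327430808) (nat_lit 0) (nat_lit 0) (nat_lit 0) (nat_lit 0) (nat_lit 0) (nat_lit 0)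 (nat_lit 1) (nat_lit 0) (nat_lit 1) (nat_lit 0) (nat_lit 412) (nat_lit 400) (nat_lit 268))))) (XT.nd (nat_lit 188) (nat_lit 0) (nat_lit 0) (XT.nd (nat_lit 94) (nat_lit 0) (nat_lit 0) (XT.lf (nat_lit 0) (nat_lit 23327363884) (nat_lit 0) (nat_lit 0) (nat_lit 0) (nat_lit 0) (nat_lit 0) (nat_lit 0) (nat_lit 1) (nat_lit 0) (nat_lit 1) (nat_lit 0) (nat_lit 413) (nat_lit 400) (nat_lit 267)) (XT.lf (nat_lit 0) (nat_lit 23327301918) (nat_lit 0) (nat_lit 0) (nat_lit 0) (nat_lit 0) (nat_lit 0) (nat_lit 0) (nat_lit 1) (nat_lit 0) (nat_lit 1) (nat_lit 0) (nat_lit 414) (nat_lit 400) (nat_lit 266))) (XT.nd (nat_lit 94) (nat_lit 0) (nat_lit 0) (XT.lf (nat_lit 0) (nat_lit 23327244541) (nat_lit 0) (nat_lit 0) (nat_lit 0) (nat_lit 0) (nat_lit 0) (nat_lit 0) (nat_lit 1) (nat_lit 0) (nat_lit 1) (nat_lit 0) (nat_lit 415) (nat_lit 400) (nat_lit 265)) (XT.nd (nat_lit 94) (nat_lit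 0) (nat_lit 0) (XT.lf (nat_lit 0) (nat_lit 23327191415) (nat_lit 0) (nat_lit 0) (nat_lit 0) (nat_lit 0) (nat_lit 0) (nat_lit 0) (nat_lit 1) (nat_lit 0) (nat_lit 1) (nat_lit 0) (nat_lit 416) (nat_lit 400) (nat_lit 264)) (XT.lf (nat_lit 0) (nat_lit 23327142224) (nat_lit 0) (nat_lit 0) (nat_lit 0) (nat_lit 0) (nat_lit 0) (nat_lit 0) (nat_lit 1) (nat_lit 0) (nat_lit 1) (nat_lit 0) (nat_lit 417) (nat_lit 400) (nat_lit 263))))))) (XT.nd (nat_lit 846) (nat_lit 0) (nat_lit 0) (XT.nd (nat_lit 376) (nat_lit 0) (nat_lit 0) (XT.nd (nat_lit 188) (nat_lit 0) (nat_lit 0) (XT.nd (nat_lit 94) (nat_lit 0) (nat_lit 0) (XT.lf (nat_lit 0) (nat_lit 23327096677) (nat_lit 0) (nat_lit 0) (nat_lit 0) (nat_lit 0) (nat_lit 0) (nat_lit 0) (nat_lit 1) (nat_lit 0) (nat_lit 1) (nat_lit 0) (nat_lit 418) (nat_lit 400) (nat_lit 262)) (XT.lf (nat_lit 0) (nat_lit 23327054504) (nat_lit 0) (nat_lit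 0) (nat_lit 0) (nat_lit 0) (nat_lit 0) (nat_lit 0) (nat_lit 1) (nat_lit 0) (nat_lit 1) (nat_lit 0) (nat_lit 419) (nat_lit 400) (nat_lit 261))) (XT.nd (nat_lit 94) (nat_lit 0) (nat_lit 0) (XT.lf (nat_lit 0) (nat_lit 23327015454) (nat_lit 0) (nat_lit 0) (nat_lit 0) (nat_lit 0) (nat_lit 0) (nat_lit 0) (nat_lit 1) (nat_lit 0) (nat_lit 1) (nat_lit 0) (nat_lit 420) (nat_lit 400) (nat_lit 260)) (XT.lf (nat_lit 0) (nat_lit 23326979297) (nat_lit 0) (nat_lit 0) (nat_lit 0) (nat_lit 0) (nat_lit 0) (nat_lit 0) (nat_lit 1) (nat_lit 0) (nat_lit 1) (nat_lit 0) (nat_lit 421) (nat_lit 400) (nat_lit 259)))) (XT.nd (nat_lit 188) (nat_lit 0) (nat_lit 0) (XT.nd (nat_lit 94) (nat_lit 0) (nat_lit 0) (XT.lf (nat_lit 0) (nat_lit 23326945819) (nat_lit 0) (nat_lit 0) (nat_lit 0) (nat_lit 0) (nat_lit 0) (nat_lit 0) (nat_lit 1) (nat_lit 0) (nat_lit 1) (nat_lit 0) (nat_lit 422) (nat_lit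 400) (nat_lit 258)) (XT.lf (nat_lit 0) (nat_lit 23326914820) (nat_lit 0) (nat_lit 0) (nat_lit 0) (nat_lit 0) (nat_lit 0) (nat_lit 0) (nat_lit 1) (nat_lit 0) (nat_lit 1) (nat_lit 0) (nat_lit 423) (nat_lit 400) (nat_lit 257))) (XT.nd (nat_lit 94) (nat_lit 0) (nat_lit 0) (XT.lf (nat_lit 0) (nat_lit 23326886118) (nat_lit 0) (nat_lit 0) (nat_lit 0) (nat_lit 0) (nat_lit 0) (nat_lit 0) (nat_lit 1) (nat_lit 0) (nat_lit 1) (nat_lit 0) (nat_lit 424) (nat_lit 400) (nat_lit 256)) (XT.nd (nat_lit 94) (nat_lit 0) (nat_lit 0) (XT.lf (nat_lit 0) (nat_lit 23326859541) (nat_lit 0) (nat_lit 0) (nat_lit 0) (nat_lit 0) (nat_lit 0) (nat_lit 0) (nat_lit 1) (nat_lit 0) (nat_lit 1) (nat_lit 0) (nat_lit 425) (nat_lit 400) (nat_lit 255)) (XT.lf (nat_lit 0) (nat_lit 23326834934) (nat_lit 0) (nat_lit 0) (nat_lit 0) (nat_lit 0) (nat_lit 0) (nat_lit 0) (nat_lit 1) (nat_lit 0) (nat_lit 1)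 (nat_lit 0) (nat_lit 426) (nat_lit 400) (nat_lit 254)))))) (XT.nd (nat_lit 470) (nat_lit 0) (nat_lit 0) (XT.nd (nat_lit 188) (nat_lit 0) (nat_lit 0) (XT.nd (nat_lit 94) (nat_lit 0) (nat_lit 0) (XT.lf (nat_lit 0) (nat_lit 23326812149) (nat_lit 0) (nat_lit 0) (nat_lit 0) (nat_lit 0) (nat_lit 0) (nat_lit 0) (nat_lit 1) (nat_lit 0) (nat_lit 1) (nat_lit 0) (nat_lit 427) (nat_lit 400) (nat_lit 253)) (XT.lf (nat_lit 0) (nat_lit 23326791051) (nat_lit 0) (nat_lit 0) (nat_lit 0) (nat_lit 0) (nat_lit 0) (nat_lit 0) (nat_lit 1) (nat_lit 0) (nat_lit 1) (nat_lit 0) (nat_lit 428) (nat_lit 400) (nat_lit 252))) (XT.nd (nat_lit 94) (nat_lit 0) (nat_lit 0) (XT.lf (nat_lit 0) (nat_lit 23326771517) (nat_lit 0) (nat_lit 0) (nat_lit 0) (nat_lit 0) (nat_lit 0) (nat_lit 0) (nat_lit 1) (nat_lit 0) (nat_lit 1) (nat_lit 0) (nat_lit 429) (nat_lit 400) (nat_lit 251)) (XT.nd (nat_lit 94)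 (nat_lit 0) (nat_lit 0) (XT.lf (nat_lit 0) (nat_lit 23326753430) (nat_lit 0) (nat_lit 0) (nat_lit 0) (nat_lit 0) (nat_lit 0) (nat_lit 0) (nat_lit 1) (nat_lit 0) (nat_lit 1) (nat_lit 0) (nat_lit 430) (nat_lit 400) (nat_lit 250)) (XT.lf (nat_lit 0) (nat_lit 23326736682) (nat_lit 0) (nat_lit 0) (nat_lit 0) (nat_lit 0) (nat_lit 0) (nat_lit 0) (nat_lit 1) (nat_lit 0) (nat_lit 1) (nat_lit 0) (nat_lit 431) (nat_lit 400) (nat_lit 249))))) (XT.nd (nat_lit 188) (nat_lit 0) (nat_lit 0) (XT.nd (nat_lit 94) (nat_lit 0) (nat_lit 0) (XT.lf (nat_lit 0) (nat_lit 23326721175) (nat_lit 0) (nat_lit 0) (nat_lit 0) (nat_lit 0) (nat_lit 0) (nat_lit 0) (nat_lit 1) (nat_lit 0) (nat_lit 1) (nat_lit 0) (nat_lit 432) (nat_lit 400) (nat_lit 248)) (XT.lf (nat_lit 0) (nat_lit 23326706817) (nat_lit 0) (nat_lit 0) (nat_lit 0) (nat_lit 0) (nat_lit 0) (nat_lit 0) (nat_lit 1) (nat_lit 0) (nat_lit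 1) (nat_lit 0) (nat_lit 433) (nat_lit 400) (nat_lit 247))) (XT.nd (nat_lit 94) (nat_lit 0) (nat_lit 0) (XT.lf (nat_lit 0) (nat_lit 23326693522) (nat_lit 0) (nat_lit 0) (nat_lit 0) (nat_lit 0) (nat_lit 0) (nat_lit 0) (nat_lit 1) (nat_lit 0) (nat_lit 1) (nat_lit 0) (nat_lit 434) (nat_lit 400) (nat_lit 246)) (XT.nd (nat_lit 94) (nat_lit 0) (nat_lit 0) (XT.lf (nat_lit 0) (nat_lit 23326681212) (nat_lit 0) (nat_lit 0) (nat_lit 0) (nat_lit 0) (nat_lit 0) (nat_lit 0) (nat_lit 1) (nat_lit 0) (nat_lit 1) (nat_lit 0) (nat_lit 435) (nat_lit 400) (nat_lit 245)) (XT.lf (nat_lit 0) (nat_lit 23326669814) (nat_lit 0) (nat_lit 0) (nat_lit 0) (nat_lit 0) (nat_lit 0) (nat_lit 0) (nat_lit 1) (nat_lit 0) (nat_lit 1) (nat_lit 0) (nat_lit 436) (nat_lit 400) (nat_lit 244))))))))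
noncomputable def ec154 : XT := (XT.nd (nat_lit 54144) (nat_lit 0) (nat_lit 3612) (XT.nd (nat_lit 53298) (nat_lit 0) (nat_lit 8148) (XT.nd (nat_lit 52828) (nat_lit 0) (nat_lit 10752) (XT.nd (nat_lit 188) (nat_lit 0) (nat_lit 0) (XT.nd (nat_lit 94) (nat_lit 0) (nat_lit 0) (XT.lf (nat_lit 0) (nat_lit 23326659260) (nat_lit 0) (nat_lit 0) (nat_lit 0) (nat_lit 0) (nat_lit 0) (nat_lit 0) (nat_lit 1) (nat_lit 0) (nat_lit 1) (nat_lit 0) (nat_lit 437) (nat_lit 400) (nat_lit 243)) (XT.lf (nat_lit 0) (nat_lit 23326649488) (nat_lit 0) (nat_lit 0) (nat_lit 0) (nat_lit 0) (nat_lit 0) (nat_lit 0) (nat_lit 1) (nat_lit 0) (nat_lit 1) (nat_lit 0) (nat_lit 438) (nat_lit 400) (nat_lit 242))) (XT.nd (nat_lit 94) (nat_lit 0) (nat_lit 0) (XT.lf (nat_lit 0) (nat_lit 23326640439) (nat_lit 0) (nat_lit 0) (nat_lit 0) (nat_lit 0) (nat_lit 0) (nat_lit 0) (nat_lit 1) (nat_lit 0) (nat_lit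 1) (nat_lit 0) (nat_lit 439) (nat_lit 400) (nat_lit 241)) (XT.lf (nat_lit 0) (nat_lit 23326632061) (nat_lit 0) (nat_lit 0) (nat_lit 0) (nat_lit 0) (nat_lit 0) (nat_lit 0) (nat_lit 1) (nat_lit 0) (nat_lit 1) (nat_lit 0) (nat_lit 440) (nat_lit 400) (nat_lit 240)))) (XT.nd (nat_lit 188) (nat_lit 0) (nat_lit 84) (XT.nd (nat_lit 94) (nat_lit 0) (nat_lit 84) (XT.lf (nat_lit 924) (nat_lit 12607345478) (nat_lit 0) (nat_lit 22384312917) (nat_lit 924) (nat_lit 12607345478) (nat_lit 139) (nat_lit 1) (nat_lit 128) (nat_lit 0) (nat_lit 139) (nat_lit 0) (nat_lit 278) (nat_lit 401) (nat_lit 401)) (XT.lf (nat_lit 924) (nat_lit 4702926708) (nat_lit 0) (nat_lit 43947190410) (nat_lit 840) (nat_lit 42980205397) (nat_lit 140) (nat_lit 1) (nat_lit 129) (nat_lit 1) (nat_lit 139) (nat_lit 1) (nat_lit 279) (nat_lit 401) (nat_lit 400))) (XT.nd (nat_lit 94) (nat_lit 0) (nat_lit 84)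 (XT.lf (nat_lit 924) (nat_lit 43193667252) (nat_lit 84) (nat_lit 29431448231) (nat_lit 0) (nat_lit 15609097594) (nat_lit 140) (nat_lit 1) (nat_lit 130) (nat_lit 1) (nat_lit 129) (nat_lit 1) (nat_lit 280) (nat_lit 401) (nat_lit 399)) (XT.nd (nat_lit 94) (nat_lit 0) (nat_lit 84) (XT.lf (nat_lit 924) (nat_lit 37322866982) (nat_lit 84) (nat_lit 12334515954) (nat_lit 0) (nat_lit 35350670633) (nat_lit 141) (nat_lit 1) (nat_lit 131) (nat_lit 1) (nat_lit 130) (nat_lit 1) (nat_lit 281) (nat_lit 401) (nat_lit 398)) (XT.lf (nat_lit 924) (nat_lit 27622094646) (nat_lit 0) (nat_lit 51679633444) (nat_lit 840) (nat_lit 2641855478) (nat_lit 142) (nat_lit 1) (nat_lit 131) (nat_lit 1) (nat_lit 141) (nat_lit 1) (nat_lit 282) (nat_lit 401) (nat_lit 397)))))) (XT.nd (nat_lit 376) (nat_lit 1596) (nat_lit 0) (XT.nd (nat_lit 188) (nat_lit 1344) (nat_lit 0) (XT.nd (nat_lit 94) (nat_lit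 0) (nat_lit 0) (XT.lf (nat_lit 924) (nat_lit 6627650783) (nat_lit 0) (nat_lit 56991153031) (nat_lit 840) (nat_lit 15406659647) (nat_lit 143) (nat_lit 1) (nat_lit 132) (nat_lit 1) (nat_lit 142) (nat_lit 1) (nat_lit 283) (nat_lit 401) (nat_lit 396)) (XT.lf (nat_lit 924) (nat_lit 12735649111) (nat_lit 84) (nat_lit 49529952972) (nat_lit 0) (nat_lit 13977963812) (nat_lit 143) (nat_lit 1) (nat_lit 133) (nat_lit 1) (nat_lit 132) (nat_lit 1) (nat_lit 284) (nat_lit 401) (nat_lit 395))) (XT.nd (nat_lit 94) (nat_lit 588) (nat_lit 0) (XT.lf (nat_lit 924) (nat_lit 2615611915) (nat_lit 0) (nat_lit 37026916127) (nat_lit 840) (nat_lit 33953294127) (nat_lit 134) (nat_lit 1) (nat_lit 123) (nat_lit 1) (nat_lit 133) (nat_lit 1) (nat_lit 285) (nat_lit 401) (nat_lit 394)) (XT.lf (nat_lit 84) (nat_lit 18111041758) (nat_lit 0) (nat_lit 7848357213) (nat_lit 588) (nat_lit 45114047580)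 (nat_lit 117) (nat_lit 1) (nat_lit 116) (nat_lit 1) (nat_lit 123) (nat_lit 1) (nat_lit 286) (nat_lit 401) (nat_lit 393)))) (XT.nd (nat_lit 188) (nat_lit 756) (nat_lit 0) (XT.nd (nat_lit 94) (nat_lit 420) (nat_lit 0) (XT.lf (nat_lit 504) (nat_lit 49911751507) (nat_lit 0) (nat_lit 16247351126) (nat_lit 420) (nat_lit 2511940874) (nat_lit 117) (nat_lit 1) (nat_lit 111) (nat_lit 1) (nat_lit 116) (nat_lit 1) (nat_lit 287) (nat_lit 401) (nat_lit 392)) (XT.lf (nat_lit 504) (nat_lit 36016795183) (nat_lit 0) (nat_lit 7572960347) (nat_lit 420) (nat_lit 22782183968) (nat_lit 112) (nat_lit 1) (nat_lit 106) (nat_lit 1) (nat_lit 111) (nat_lit 1) (nat_lit 288) (nat_lit 401) (nat_lit 391))) (XT.nd (nat_lit 94) (nat_lit 420) (nat_lit 0) (XT.lf (nat_lit 420) (nat_lit 21915760513) (nat_lit 0) (nat_lit 139430506) (nat_lit 336) (nat_lit 42129123025) (nat_lit 107) (nat_lit 1) (nat_lit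 102) (nat_lit 1) (nat_lit 106) (nat_lit 1) (nat_lit 289) (nat_lit 401) (nat_lit 390)) (XT.nd (nat_lit 94) (nat_lit 420) (nat_lit 0) (XT.lf (nat_lit 84) (nat_lit 1616841237) (nat_lit 0) (nat_lit 54527721052) (nat_lit 420) (nat_lit 5952760978) (nat_lit 103) (nat_lit 1) (nat_lit 102) (nat_lit 1) (nat_lit 107) (nat_lit 1) (nat_lit 290) (nat_lit 401) (nat_lit 389)) (XT.lf (nat_lit 84) (nat_lit 41747260100) (nat_lit 0) (nat_lit 6924229780) (nat_lit 420) (nat_lit 11419312443) (nat_lit 98) (nat_lit 1) (nat_lit 97) (nat_lit 1) (nat_lit 102) (nat_lit 1) (nat_lit 291) (nat_lit 401) (nat_lit 388))))))) (XT.nd (nat_lit 846) (nat_lit 1932) (nat_lit 0) (XT.nd (nat_lit 376) (nat_lit 1260) (nat_lit 0) (XT.nd (nat_lit 188) (nat_lit 672) (nat_lit 0) (XT.nd (nat_lit 94) (nat_lit 336) (nat_lit 0) (XT.lf (nat_lit 84) (nat_lit 20887212131) (nat_lit 0) (nat_lit 21210144981) (nat_lit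 420) (nat_lit 16075582595) (nat_lit 94) (nat_lit 1) (nat_lit 93) (nat_lit 1) (nat_lit 98) (nat_lit 1) (nat_lit 292) (nat_lit 401) (nat_lit 387)) (XT.lf (nat_lit 84) (nat_lit 1030946474) (nat_lit 0) (nat_lit 35463033062) (nat_lit 420) (nat_lit 19851902011) (nat_lit 90) (nat_lit 1) (nat_lit 89) (nat_lit 1) (nat_lit 94) (nat_lit 1) (nat_lit 293) (nat_lit 401) (nat_lit 386))) (XT.nd (nat_lit 94) (nat_lit 420) (nat_lit 0) (XT.lf (nat_lit 336) (nat_lit 4655696173) (nat_lit 0) (nat_lit 31484244683) (nat_lit 252) (nat_lit 18450490971) (nat_lit 90) (nat_lit 1) (nat_lit 86) (nat_lit 1) (nat_lit 89) (nat_lit 1) (nat_lit 294) (nat_lit 401) (nat_lit 385)) (XT.lf (nat_lit 84) (nat_lit 16086682009) (nat_lit 0) (nat_lit 11025911807) (nat_lit 420) (nat_lit 25794909103) (nat_lit 82) (nat_lit 1) (nat_lit 81) (nat_lit 1) (nat_lit 86) (nat_lit 1) (nat_lit 295) (nat_lit 401) (nat_lit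 384)))) (XT.nd (nat_lit 188) (nat_lit 756) (nat_lit 0) (XT.nd (nat_lit 94) (nat_lit 252) (nat_lit 0) (XT.lf (nat_lit 336) (nat_lit 24906053099) (nat_lit 0) (nat_lit 23396017854) (nat_lit 252) (nat_lit 2994662518) (nat_lit 82) (nat_lit 1) (nat_lit 78) (nat_lit 1) (nat_lit 81) (nat_lit 1) (nat_lit 296) (nat_lit 401) (nat_lit 383)) (XT.lf (nat_lit 336) (nat_lit 7982269695) (nat_lit 0) (nat_lit 20143013315) (nat_lit 252) (nat_lit 21622583333) (nat_lit 79) (nat_lit 1) (nat_lit 75) (nat_lit 1) (nat_lit 78) (nat_lit 1) (nat_lit 297) (nat_lit 401) (nat_lit 382))) (XT.nd (nat_lit 94) (nat_lit 420) (nat_lit 0) (XT.lf (nat_lit 84) (nat_lit 9097858679) (nat_lit 0) (nat_lit 8329880242) (nat_lit 336) (nat_lit 30835587663) (nat_lit 72) (nat_lit 1) (nat_lit 71) (nat_lit 1) (nat_lit 75) (nat_lit 1) (nat_lit 298) (nat_lit 401) (nat_lit 381)) (XT.nd (nat_lit 94) (nat_lit 168)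 (nat_lit 0) (XT.lf (nat_lit 336) (nat_lit 22638827232) (nat_lit 0) (nat_lit 15063036710) (nat_lit 252) (nat_lit 9131262378) (nat_lit 72) (nat_lit 1) (nat_lit 68) (nat_lit 1) (nat_lit 71) (nat_lit 1) (nat_lit 299) (nat_lit 401) (nat_lit 380)) (XT.lf (nat_lit 252) (nat_lit 5612198698) (nat_lit 0) (nat_lit 13141400829) (nat_lit 168) (nat_lit 26707024799) (nat_lit 69) (nat_lit 1) (nat_lit 66) (nat_lit 1) (nat_lit 68) (nat_lit 1) (nat_lit 300) (nat_lit 401) (nat_lit 379)))))) (XT.nd (nat_lit 470) (nat_lit 840) (nat_lit 0) (XT.nd (nat_lit 188) (nat_lit 588) (nat_lit 0) (XT.nd (nat_lit 94) (nat_lit 168) (nat_lit 0) (XT.lf (nat_lit 84) (nat_lit 950742314) (nat_lit 0) (nat_lit 10639012896) (nat_lit 336) (nat_lit 32551568914) (nat_lit 63) (nat_lit 1) (nat_lit 62) (nat_lit 1) (nat_lit 66) (nat_lit 1) (nat_lit 301) (nat_lit 401) (nat_lit 378)) (XT.lf (nat_lit 252) (nat_lit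 16308019652) (nat_lit 0) (nat_lit 10191113220) (nat_lit 168) (nat_lit 16364771725) (nat_lit 63) (nat_lit 1) (nat_lit 60) (nat_lit 1) (nat_lit 62) (nat_lit 1) (nat_lit 302) (nat_lit 401) (nat_lit 377))) (XT.nd (nat_lit 94) (nat_lit 336) (nat_lit 0) (XT.lf (nat_lit 84) (nat_lit 8848049947) (nat_lit 0) (nat_lit 408696974) (nat_lit 252) (nat_lit 32385480335) (nat_lit 58) (nat_lit 1) (nat_lit 57) (nat_lit 1) (nat_lit 60) (nat_lit 1) (nat_lit 303) (nat_lit 401) (nat_lit 376)) (XT.nd (nat_lit 94) (nat_lit 168) (nat_lit 0) (XT.lf (nat_lit 252) (nat_lit 24188859956) (nat_lit 0) (nat_lit 8381982334) (nat_lit 168) (nat_lit 7885245348) (nat_lit 58) (nat_lit 1) (nat_lit 55) (nat_lit 1) (nat_lit 57) (nat_lit 1) (nat_lit 304) (nat_lit 401) (nat_lit 375)) (XT.lf (nat_lit 252) (nat_lit 7514029217) (nat_lit 0) (nat_lit 7791979473) (nat_lit 168) (nat_lit 24009290639) (nat_lit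 56) (nat_lit 1) (nat_lit 53) (nat_lit 1) (nat_lit 55) (nat_lit 1) (nat_lit 305) (nat_lit 401) (nat_lit 374))))) (XT.nd (nat_lit 188) (nat_lit 420) (nat_lit 0) (XT.nd (nat_lit 94) (nat_lit 168) (nat_lit 0) (XT.lf (nat_lit 252) (nat_lit 29827934511) (nat_lit 0) (nat_lit 7444603950) (nat_lit 168) (nat_lit 944434381) (nat_lit 53) (nat_lit 1) (nat_lit 50) (nat_lit 1) (nat_lit 52) (nat_lit 1) (nat_lit 306) (nat_lit 401) (nat_lit 373)) (XT.lf (nat_lit 252) (nat_lit 13349601079) (nat_lit 0) (nat_lit 7107086849) (nat_lit 168) (nat_lit 16692477452) (nat_lit 51) (nat_lit 1) (nat_lit 48) (nat_lit 1) (nat_lit 50) (nat_lit 1) (nat_lit 307) (nat_lit 401) (nat_lit 372))) (XT.nd (nat_lit 94) (nat_lit 252) (nat_lit 0) (XT.lf (nat_lit 84) (nat_lit 4572753783) (nat_lit 0) (nat_lit 2513391533) (nat_lit 168) (nat_lit 29039502495) (nat_lit 47) (nat_lit 1) (nat_lit 46) (nat_lit 1)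 (nat_lit 48) (nat_lit 1) (nat_lit 308) (nat_lit 401) (nat_lit 371)) (XT.nd (nat_lit 94) (nat_lit 84) (nat_lit 0) (XT.lf (nat_lit 252) (nat_lit 17515444361) (nat_lit 0) (nat_lit 7011110925) (nat_lit 168) (nat_lit 10601402450) (nat_lit 47) (nat_lit 1) (nat_lit 44) (nat_lit 1) (nat_lit 46) (nat_lit 1) (nat_lit 309) (nat_lit 401) (nat_lit 370)) (XT.lf (nat_lit 168) (nat_lit 1886164466) (nat_lit 0) (nat_lit 7183312870) (nat_lit 84) (nat_lit 25100177845) (nat_lit 45) (nat_lit 1) (nat_lit 43) (nat_lit 1) (nat_lit 44) (nat_lit 1) (nat_lit 310) (nat_lit 401) (nat_lit 369))))))))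
noncomputable def ec155 : XT := (XT.nd (nat_lit 1786) (nat_lit 840) (nat_lit 0) (XT.nd (nat_lit 846) (nat_lit 1260) (nat_lit 0) (XT.nd (nat_lit 376) (nat_lit 840) (nat_lit 0) (XT.nd (nat_lit 188) (nat_lit 336) (nat_lit 0) (XT.nd (nat_lit 94) (nat_lit 84) (nat_lit 0) (XT.lf (nat_lit 252) (nat_lit 20360449051) (nat_lit 0) (nat_lit 7346612174) (nat_lit 168) (nat_lit 5530714762) (nat_lit 43) (nat_lit 1) (nat_lit 40) (nat_lit 1) (nat_lit 42) (nat_lit 1) (nat_lit 311) (nat_lit 401) (nat_lit 368)) (XT.lf (nat_lit 168) (nat_lit 5120803073) (nat_lit 0) (nat_lit 7621309407) (nat_lit 84) (nat_lit 19595190513) (nat_lit 41) (nat_lit 1) (nat_lit 39) (nat_lit 1) (nat_lit 40) (nat_lit 1) (nat_lit 312) (nat_lit 401) (nat_lit 367))) (XT.nd (nat_lit 94) (nat_lit 84) (nat_lit 0) (XT.lf (nat_lit 252) (nat_lit 22166697161) (nat_lit 0) (nat_lit 7988887414) (nat_lit 168) (nat_lit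 1311044813) (nat_lit 39) (nat_lit 1) (nat_lit 36) (nat_lit 1) (nat_lit 38) (nat_lit 1) (nat_lit 313) (nat_lit 401) (nat_lit 366)) (XT.lf (nat_lit 168) (nat_lit 7369538156) (nat_lit 0) (nat_lit 8328511126) (nat_lit 84) (nat_lit 14921246937) (nat_lit 37) (nat_lit 1) (nat_lit 35) (nat_lit 1) (nat_lit 36) (nat_lit 1) (nat_lit 314) (nat_lit 401) (nat_lit 365)))) (XT.nd (nat_lit 188) (nat_lit 504) (nat_lit 0) (XT.nd (nat_lit 94) (nat_lit 84) (nat_lit 0) (XT.lf (nat_lit 84) (nat_lit 2127141992) (nat_lit 0) (nat_lit 6676531700) (nat_lit 252) (nat_lit 20998729858) (nat_lit 33) (nat_lit 1) (nat_lit 32) (nat_lit 1) (nat_lit 35) (nat_lit 1) (nat_lit 315) (nat_lit 401) (nat_lit 364)) (XT.lf (nat_lit 168) (nat_lit 8844110687) (nat_lit 0) (nat_lit 9215144135) (nat_lit 84) (nat_lit 10946543087) (nat_lit 33) (nat_lit 1) (nat_lit 31) (nat_lit 1) (nat_lit 32) (nat_lit 1) (nat_lit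 316) (nat_lit 401) (nat_lit 363))) (XT.nd (nat_lit 94) (nat_lit 252) (nat_lit 0) (XT.lf (nat_lit 84) (nat_lit 4946940232) (nat_lit 0) (nat_lit 4791446126) (nat_lit 252) (nat_lit 18498800583) (nat_lit 29) (nat_lit 1) (nat_lit 28) (nat_lit 1) (nat_lit 31) (nat_lit 1) (nat_lit 317) (nat_lit 401) (nat_lit 362)) (XT.nd (nat_lit 94) (nat_lit 168) (nat_lit 0) (XT.lf (nat_lit 168) (nat_lit 9715275435) (nat_lit 0) (nat_lit 10211129779) (nat_lit 84) (nat_lit 7561808479) (nat_lit 29) (nat_lit 1) (nat_lit 27) (nat_lit 1) (nat_lit 28) (nat_lit 1) (nat_lit 318) (nat_lit 401) (nat_lit 361)) (XT.lf (nat_lit 84) (nat_lit 7283039953) (nat_lit 0) (nat_lit 3470238223) (nat_lit 168) (nat_lit 16010697401) (nat_lit 26) (nat_lit 1) (nat_lit 25) (nat_lit 1) (nat_lit 27) (nat_lit 1) (nat_lit 319) (nat_lit 401) (nat_lit 360)))))) (XT.nd (nat_lit 470) (nat_lit 672) (nat_lit 0) (XT.nd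 (nat_lit 188) (nat_lit 336) (nat_lit 0) (XT.nd (nat_lit 94) (nat_lit 168) (nat_lit 0) (XT.lf (nat_lit 168) (nat_lit 10120459515) (nat_lit 0) (nat_lit 11262246122) (nat_lit 84) (nat_lit 4676286655) (nat_lit 26) (nat_lit 1) (nat_lit 24) (nat_lit 1) (nat_lit 25) (nat_lit 1) (nat_lit 320) (nat_lit 401) (nat_lit 359)) (XT.lf (nat_lit 84) (nat_lit 9212368376) (nat_lit 0) (nat_lit 2588842963) (nat_lit 168) (nat_lit 13574482217) (nat_lit 23) (nat_lit 1) (nat_lit 22) (nat_lit 1) (nat_lit 24) (nat_lit 1) (nat_lit 321) (nat_lit 401) (nat_lit 358))) (XT.nd (nat_lit 94) (nat_lit 252) (nat_lit 0) (XT.lf (nat_lit 168) (nat_lit 10170007128) (nat_lit 0) (nat_lit 12327008357) (nat_lit 84) (nat_lit 2214445716) (nat_lit 23) (nat_lit 1) (nat_lit 21) (nat_lit 1) (nat_lit 22) (nat_lit 1) (nat_lit 322) (nat_lit 401) (nat_lit 357)) (XT.nd (nat_lit 94) (nat_lit 84) (nat_lit 0) (XT.lf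 (nat_lit 84) (nat_lit 10798860606) (nat_lit 0) (nat_lit 2047500532) (nat_lit 168) (nat_lit 11219707236) (nat_lit 20) (nat_lit 1) (nat_lit 19) (nat_lit 1) (nat_lit 21) (nat_lit 1) (nat_lit 323) (nat_lit 401) (nat_lit 356)) (XT.lf (nat_lit 168) (nat_lit 9952270410) (nat_lit 0) (nat_lit 13374135301) (nat_lit 84) (nat_lit 113285409) (nat_lit 20) (nat_lit 1) (nat_lit 18) (nat_lit 1) (nat_lit 19) (nat_lit 1) (nat_lit 324) (nat_lit 401) (nat_lit 355))))) (XT.nd (nat_lit 188) (nat_lit 420) (nat_lit 0) (XT.nd (nat_lit 94) (nat_lit 84) (nat_lit 0) (XT.lf (nat_lit 84) (nat_lit 12095759365) (nat_lit 0) (nat_lit 1766192587) (nat_lit 168) (nat_lit 8967556656) (nat_lit 17) (nat_lit 1) (nat_lit 16) (nat_lit 1) (nat_lit 18) (nat_lit 1) (nat_lit 325) (nat_lit 401) (nat_lit 354)) (XT.lf (nat_lit 0) (nat_lit 1626101966) (nat_lit 0) (nat_lit 12726852812) (nat_lit 168) (nat_lit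 7884117815) (nat_lit 15) (nat_lit 3) (nat_lit 15) (nat_lit 1) (nat_lit 17) (nat_lit 1) (nat_lit 326) (nat_lit 401) (nat_lit 353))) (XT.nd (nat_lit 94) (nat_lit 252) (nat_lit 0) (XT.lf (nat_lit 84) (nat_lit 13147498435) (nat_lit 0) (nat_lit 1680922543) (nat_lit 168) (nat_lit 6832581792) (nat_lit 14) (nat_lit 1) (nat_lit 13) (nat_lit 1) (nat_lit 15) (nat_lit 1) (nat_lit 327) (nat_lit 401) (nat_lit 352)) (XT.nd (nat_lit 94) (nat_lit 168) (nat_lit 0) (XT.lf (nat_lit 0) (nat_lit 3106456338) (nat_lit 0) (nat_lit 12170365515) (nat_lit 168) (nat_lit 5823453131) (nat_lit 12) (nat_lit 3) (nat_lit 12) (nat_lit 1) (nat_lit 14) (nat_lit 1) (nat_lit 328) (nat_lit 401) (nat_lit 351)) (XT.lf (nat_lit 84) (nat_lit 13991245846) (nat_lit 0) (nat_lit 1740684603) (nat_lit 168) (nat_lit 4824105060) (nat_lit 11) (nat_lit 1) (nat_lit 10) (nat_lit 1) (nat_lit 12) (nat_lit 1) (nat_lit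 329) (nat_lit 401) (nat_lit 350))))))) (XT.nd (nat_lit 846) (nat_lit 0) (nat_lit 0) (XT.nd (nat_lit 376) (nat_lit 336) (nat_lit 0) (XT.nd (nat_lit 188) (nat_lit 252) (nat_lit 0) (XT.nd (nat_lit 94) (nat_lit 168) (nat_lit 0) (XT.lf (nat_lit 0) (nat_lit 4367331898) (nat_lit 0) (nat_lit 11768133041) (nat_lit 168) (nat_lit 3889594944) (nat_lit 9) (nat_lit 3) (nat_lit 9) (nat_lit 1) (nat_lit 11) (nat_lit 1) (nat_lit 330) (nat_lit 401) (nat_lit 349)) (XT.lf (nat_lit 84) (nat_lit 14658168893) (nat_lit 0) (nat_lit 1904994772) (nat_lit 168) (nat_lit 2947354367) (nat_lit 8) (nat_lit 1) (nat_lit 7) (nat_lit 1) (nat_lit 9) (nat_lit 1) (nat_lit 331) (nat_lit 401) (nat_lit 348))) (XT.nd (nat_lit 94) (nat_lit 168) (nat_lit 0) (XT.lf (nat_lit 0) (nat_lit 5439019876) (nat_lit 0) (nat_lit 11481871420) (nat_lit 168) (nat_lit 2086611498) (nat_lit 6) (nat_lit 3) (nat_lit 6) (nat_lit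 1) (nat_lit 8) (nat_lit 1) (nat_lit 332) (nat_lit 401) (nat_lit 347)) (XT.lf (nat_lit 84) (nat_lit 15174471699) (nat_lit 0) (nat_lit 2141880387) (nat_lit 168) (nat_lit 1204378116) (nat_lit 5) (nat_lit 1) (nat_lit 4) (nat_lit 1) (nat_lit 6) (nat_lit 1) (nat_lit 333) (nat_lit 401) (nat_lit 346)))) (XT.nd (nat_lit 188) (nat_lit 0) (nat_lit 0) (XT.nd (nat_lit 94) (nat_lit 252) (nat_lit 0) (XT.lf (nat_lit 0) (nat_lit 6347139431) (nat_lit 0) (nat_lit 11281207254) (nat_lit 168) (nat_lit 415680903) (nat_lit 3) (nat_lit 3) (nat_lit 3) (nat_lit 1) (nat_lit 5) (nat_lit 1) (nat_lit 334) (nat_lit 401) (nat_lit 345)) (XT.lf (nat_lit 0) (nat_lit 25506064527) (nat_lit 0) (nat_lit 0) (nat_lit 0) (nat_lit 0) (nat_lit 0) (nat_lit 0) (nat_lit 1) (nat_lit 0) (nat_lit 1) (nat_lit 0) (nat_lit 335) (nat_lit 401) (nat_lit 344))) (XT.nd (nat_lit 94) (nat_lit 0) (nat_lit 0) (XT.lf (nat_lit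 0) (nat_lit 25482848601) (nat_lit 0) (nat_lit 0) (nat_lit 0) (nat_lit 0) (nat_lit 0) (nat_lit 0) (nat_lit 1) (nat_lit 0) (nat_lit 1) (nat_lit 0) (nat_lit 336) (nat_lit 401) (nat_lit 343)) (XT.nd (nat_lit 94) (nat_lit 0) (nat_lit 0) (XT.lf (nat_lit 0) (nat_lit 25461352373) (nat_lit 0) (nat_lit 0) (nat_lit 0) (nat_lit 0) (nat_lit 0) (nat_lit 0) (nat_lit 1) (nat_lit 0) (nat_lit 1) (nat_lit 0) (nat_lit 337) (nat_lit 401) (nat_lit 342)) (XT.lf (nat_lit 0) (nat_lit 25441448458) (nat_lit 0) (nat_lit 0) (nat_lit 0) (nat_lit 0) (nat_lit 0) (nat_lit 0) (nat_lit 1) (nat_lit 0) (nat_lit 1) (nat_lit 0) (nat_lit 338) (nat_lit 401) (nat_lit 341)))))) (XT.nd (nat_lit 470) (nat_lit 0) (nat_lit 0) (XT.nd (nat_lit 188) (nat_lit 0) (nat_lit 0) (XT.nd (nat_lit 94) (nat_lit 0) (nat_lit 0) (XT.lf (nat_lit 0) (nat_lit 25423018907) (nat_lit 0) (nat_lit 0) (nat_lit 0) (nat_lit 0) (nat_lit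 0) (nat_lit 0) (nat_lit 1) (nat_lit 0) (nat_lit 1) (nat_lit 0) (nat_lit 339) (nat_lit 401) (nat_lit 340)) (XT.lf (nat_lit 0) (nat_lit 25405954509) (nat_lit 0) (nat_lit 0) (nat_lit 0) (nat_lit 0) (nat_lit 0) (nat_lit 0) (nat_lit 1) (nat_lit 0) (nat_lit 1) (nat_lit 0) (nat_lit 340) (nat_lit 401) (nat_lit 339))) (XT.nd (nat_lit 94) (nat_lit 0) (nat_lit 0) (XT.lf (nat_lit 0) (nat_lit 25390154139) (nat_lit 0) (nat_lit 0) (nat_lit 0) (nat_lit 0) (nat_lit 0) (nat_lit 0) (nat_lit 1) (nat_lit 0) (nat_lit 1) (nat_lit 0) (nat_lit 341) (nat_lit 401) (nat_lit 338)) (XT.nd (nat_lit 94) (nat_lit 0) (nat_lit 0) (XT.lf (nat_lit 0) (nat_lit 25375524168) (nat_lit 0) (nat_lit 0) (nat_lit 0) (nat_lit 0) (nat_lit 0) (nat_lit 0) (nat_lit 1) (nat_lit 0) (nat_lit 1) (nat_lit 0) (nat_lit 342) (nat_lit 401) (nat_lit 337)) (XT.lf (nat_lit 0) (nat_lit 25361977898) (nat_lit 0) (nat_lit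 0) (nat_lit 0) (nat_lit 0) (nat_lit 0) (nat_lit 0) (nat_lit 1) (nat_lit 0) (nat_lit 1) (nat_lit 0) (nat_lit 343) (nat_lit 401) (nat_lit 336))))) (XT.nd (nat_lit 188) (nat_lit 0) (nat_lit 0) (XT.nd (nat_lit 94) (nat_lit 0) (nat_lit 0) (XT.lf (nat_lit 0) (nat_lit 25349435055) (nat_lit 0) (nat_lit 0) (nat_lit 0) (nat_lit 0) (nat_lit 0) (nat_lit 0) (nat_lit 1) (nat_lit 0) (nat_lit 1) (nat_lit 0) (nat_lit 344) (nat_lit 401) (nat_lit 335)) (XT.lf (nat_lit 0) (nat_lit 25337821312) (nat_lit 0) (nat_lit 0) (nat_lit 0) (nat_lit 0) (nat_lit 0) (nat_lit 0) (nat_lit 1) (nat_lit 0) (nat_lit 1) (nat_lit 0) (nat_lit 345) (nat_lit 401) (nat_lit 334))) (XT.nd (nat_lit 94) (nat_lit 0) (nat_lit 0) (XT.lf (nat_lit 0) (nat_lit 25327067846) (nat_lit 0) (nat_lit 0) (nat_lit 0) (nat_lit 0) (nat_lit 0) (nat_lit 0) (nat_lit 1) (nat_lit 0) (nat_lit 1) (nat_lit 0) (nat_lit 346) (nat_lit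 401) (nat_lit 333)) (XT.nd (nat_lit 94) (nat_lit 0) (nat_lit 0) (XT.lf (nat_lit 0) (nat_lit 25317110934) (nat_lit 0) (nat_lit 0) (nat_lit 0) (nat_lit 0) (nat_lit 0) (nat_lit 0) (nat_lit 1) (nat_lit 0) (nat_lit 1) (nat_lit 0) (nat_lit 347) (nat_lit 401) (nat_lit 332)) (XT.lf (nat_lit 0) (nat_lit 25307891570) (nat_lit 0) (nat_lit 0) (nat_lit 0) (nat_lit 0) (nat_lit 0) (nat_lit 0) (nat_lit 1) (nat_lit 0) (nat_lit 1) (nat_lit 0) (nat_lit 348) (nat_lit 401) (nat_lit 331))))))))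
noncomputable def ec156 : XT := (XT.nd (nat_lit 1692) (nat_lit 0) (nat_lit 0) (XT.nd (nat_lit 846) (nat_lit 0) (nat_lit 0) (XT.nd (nat_lit 376) (nat_lit 0) (nat_lit 0) (XT.nd (nat_lit 188) (nat_lit 0) (nat_lit 0) (XT.nd (nat_lit 94) (nat_lit 0) (nat_lit 0) (XT.lf (nat_lit 0) (nat_lit 25299355122) (nat_lit 0) (nat_lit 0) (nat_lit 0) (nat_lit 0) (nat_lit 0) (nat_lit 0) (nat_lit 1) (nat_lit 0) (nat_lit 1) (nat_lit 0) (nat_lit 349) (nat_lit 401) (nat_lit 330)) (XT.lf (nat_lit 0) (nat_lit 25291451004) (nat_lit 0) (nat_lit 0) (nat_lit 0) (nat_lit 0) (nat_lit 0) (nat_lit 0) (nat_lit 1) (nat_lit 0) (nat_lit 1) (nat_lit 0) (nat_lit 350) (nat_lit 401) (nat_lit 329))) (XT.nd (nat_lit 94) (nat_lit 0) (nat_lit 0) (XT.lf (nat_lit 0) (nat_lit 25284132376) (nat_lit 0) (nat_lit 0) (nat_lit 0) (nat_lit 0) (nat_lit 0) (nat_lit 0) (nat_lit 1) (nat_lit 0) (nat_lit 1) (nat_lit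 0) (nat_lit 351) (nat_lit 401) (nat_lit 328)) (XT.lf (nat_lit 0) (nat_lit 25277355868) (nat_lit 0) (nat_lit 0) (nat_lit 0) (nat_lit 0) (nat_lit 0) (nat_lit 0) (nat_lit 1) (nat_lit 0) (nat_lit 1) (nat_lit 0) (nat_lit 352) (nat_lit 401) (nat_lit 327)))) (XT.nd (nat_lit 188) (nat_lit 0) (nat_lit 0) (XT.nd (nat_lit 94) (nat_lit 0) (nat_lit 0) (XT.lf (nat_lit 0) (nat_lit 25271081324) (nat_lit 0) (nat_lit 0) (nat_lit 0) (nat_lit 0) (nat_lit 0) (nat_lit 0) (nat_lit 1) (nat_lit 0) (nat_lit 1) (nat_lit 0) (nat_lit 353) (nat_lit 401) (nat_lit 326)) (XT.lf (nat_lit 0) (nat_lit 25265271561) (nat_lit 0) (nat_lit 0) (nat_lit 0) (nat_lit 0) (nat_lit 0) (nat_lit 0) (nat_lit 1) (nat_lit 0) (nat_lit 1) (nat_lit 0) (nat_lit 354) (nat_lit 401) (nat_lit 325))) (XT.nd (nat_lit 94) (nat_lit 0) (nat_lit 0) (XT.lf (nat_lit 0) (nat_lit 25259892151) (nat_lit 0) (nat_lit 0) (nat_lit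 0) (nat_lit 0) (nat_lit 0) (nat_lit 0) (nat_lit 1) (nat_lit 0) (nat_lit 1) (nat_lit 0) (nat_lit 355) (nat_lit 401) (nat_lit 324)) (XT.nd (nat_lit 94) (nat_lit 0) (nat_lit 0) (XT.lf (nat_lit 0) (nat_lit 25254911215) (nat_lit 0) (nat_lit 0) (nat_lit 0) (nat_lit 0) (nat_lit 0) (nat_lit 0) (nat_lit 1) (nat_lit 0) (nat_lit 1) (nat_lit 0) (nat_lit 356) (nat_lit 401) (nat_lit 323)) (XT.lf (nat_lit 0) (nat_lit 25250299238) (nat_lit 0) (nat_lit 0) (nat_lit 0) (nat_lit 0) (nat_lit 0) (nat_lit 0) (nat_lit 1) (nat_lit 0) (nat_lit 1) (nat_lit 0) (nat_lit 357) (nat_lit 401) (nat_lit 322)))))) (XT.nd (nat_lit 376) (nat_lit 0) (nat_lit 0) (XT.nd (nat_lit 188) (nat_lit 0) (nat_lit 0) (XT.nd (nat_lit 94) (nat_lit 0) (nat_lit 0) (XT.lf (nat_lit 0) (nat_lit 25246028889) (nat_lit 0) (nat_lit 0) (nat_lit 0) (nat_lit 0) (nat_lit 0) (nat_lit 0) (nat_lit 1) (nat_lit 0) (nat_lit 1)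 (nat_lit 0) (nat_lit 358) (nat_lit 401) (nat_lit 321)) (XT.lf (nat_lit 0) (nat_lit 25242074862) (nat_lit 0) (nat_lit 0) (nat_lit 0) (nat_lit 0) (nat_lit 0) (nat_lit 0) (nat_lit 1) (nat_lit 0) (nat_lit 1) (nat_lit 0) (nat_lit 359) (nat_lit 401) (nat_lit 320))) (XT.nd (nat_lit 94) (nat_lit 0) (nat_lit 0) (XT.lf (nat_lit 0) (nat_lit 25238413726) (nat_lit 0) (nat_lit 0) (nat_lit 0) (nat_lit 0) (nat_lit 0) (nat_lit 0) (nat_lit 1) (nat_lit 0) (nat_lit 1) (nat_lit 0) (nat_lit 360) (nat_lit 401) (nat_lit 319)) (XT.lf (nat_lit 0) (nat_lit 25235023785) (nat_lit 0) (nat_lit 0) (nat_lit 0) (nat_lit 0) (nat_lit 0) (nat_lit 0) (nat_lit 1) (nat_lit 0) (nat_lit 1) (nat_lit 0) (nat_lit 361) (nat_lit 401) (nat_lit 318)))) (XT.nd (nat_lit 188) (nat_lit 0) (nat_lit 0) (XT.nd (nat_lit 94) (nat_lit 0) (nat_lit 0) (XT.lf (nat_lit 0) (nat_lit 25231884951) (nat_lit 0) (nat_lit 0)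 (nat_lit 0) (nat_lit 0) (nat_lit 0) (nat_lit 0) (nat_lit 1) (nat_lit 0) (nat_lit 1) (nat_lit 0) (nat_lit 362) (nat_lit 401) (nat_lit 317)) (XT.lf (nat_lit 0) (nat_lit 25228978623) (nat_lit 0) (nat_lit 0) (nat_lit 0) (nat_lit 0) (nat_lit 0) (nat_lit 0) (nat_lit 1) (nat_lit 0) (nat_lit 1) (nat_lit 0) (nat_lit 363) (nat_lit 401) (nat_lit 316))) (XT.nd (nat_lit 94) (nat_lit 0) (nat_lit 0) (XT.lf (nat_lit 0) (nat_lit 25226287578) (nat_lit 0) (nat_lit 0) (nat_lit 0) (nat_lit 0) (nat_lit 0) (nat_lit 0) (nat_lit 1) (nat_lit 0) (nat_lit 1) (nat_lit 0) (nat_lit 364) (nat_lit 401) (nat_lit 315)) (XT.nd (nat_lit 94) (nat_lit 0) (nat_lit 0) (XT.lf (nat_lit 0) (nat_lit 25223795871) (nat_lit 0) (nat_lit 0) (nat_lit 0) (nat_lit 0) (nat_lit 0) (nat_lit 0) (nat_lit 1) (nat_lit 0) (nat_lit 1) (nat_lit 0) (nat_lit 365) (nat_lit 401) (nat_lit 314)) (XT.lf (nat_lit 0) (nat_lit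 25221488734) (nat_lit 0) (nat_lit 0) (nat_lit 0) (nat_lit 0) (nat_lit 0) (nat_lit 0) (nat_lit 1) (nat_lit 0) (nat_lit 1) (nat_lit 0) (nat_lit 366) (nat_lit 401) (nat_lit 313))))))) (XT.nd (nat_lit 846) (nat_lit 0) (nat_lit 0) (XT.nd (nat_lit 376) (nat_lit 0) (nat_lit 0) (XT.nd (nat_lit 188) (nat_lit 0) (nat_lit 0) (XT.nd (nat_lit 94) (nat_lit 0) (nat_lit 0) (XT.lf (nat_lit 0) (nat_lit 25219352496) (nat_lit 0) (nat_lit 0) (nat_lit 0) (nat_lit 0) (nat_lit 0) (nat_lit 0) (nat_lit 1) (nat_lit 0) (nat_lit 1) (nat_lit 0) (nat_lit 367) (nat_lit 401) (nat_lit 312)) (XT.lf (nat_lit 0) (nat_lit 25217374498) (nat_lit 0) (nat_lit 0) (nat_lit 0) (nat_lit 0) (nat_lit 0) (nat_lit 0) (nat_lit 1) (nat_lit 0) (nat_lit 1) (nat_lit 0) (nat_lit 368) (nat_lit 401) (nat_lit 311))) (XT.nd (nat_lit 94) (nat_lit 0) (nat_lit 0) (XT.lf (nat_lit 0) (nat_lit 25215543019) (nat_lit 0) (nat_lit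 0) (nat_lit 0) (nat_lit 0) (nat_lit 0) (nat_lit 0) (nat_lit 1) (nat_lit 0) (nat_lit 1) (nat_lit 0) (nat_lit 369) (nat_lit 401) (nat_lit 310)) (XT.lf (nat_lit 0) (nat_lit 25213847204) (nat_lit 0) (nat_lit 0) (nat_lit 0) (nat_lit 0) (nat_lit 0) (nat_lit 0) (nat_lit 1) (nat_lit 0) (nat_lit 1) (nat_lit 0) (nat_lit 370) (nat_lit 401) (nat_lit 309)))) (XT.nd (nat_lit 188) (nat_lit 0) (nat_lit 0) (XT.nd (nat_lit 94) (nat_lit 0) (nat_lit 0) (XT.lf (nat_lit 0) (nat_lit 25212277006) (nat_lit 0) (nat_lit 0) (nat_lit 0) (nat_lit 0) (nat_lit 0) (nat_lit 0) (nat_lit 1) (nat_lit 0) (nat_lit 1) (nat_lit 0) (nat_lit 371) (nat_lit 401) (nat_lit 308)) (XT.lf (nat_lit 0) (nat_lit 25210823118) (nat_lit 0) (nat_lit 0) (nat_lit 0) (nat_lit 0) (nat_lit 0) (nat_lit 0) (nat_lit 1) (nat_lit 0) (nat_lit 1) (nat_lit 0) (nat_lit 372) (nat_lit 401) (nat_lit 307))) (XT.nd (nat_lit 94) (nat_lit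 0) (nat_lit 0) (XT.lf (nat_lit 0) (nat_lit 25209476926) (nat_lit 0) (nat_lit 0) (nat_lit 0) (nat_lit 0) (nat_lit 0) (nat_lit 0) (nat_lit 1) (nat_lit 0) (nat_lit 1) (nat_lit 0) (nat_lit 373) (nat_lit 401) (nat_lit 306)) (XT.nd (nat_lit 94) (nat_lit 0) (nat_lit 0) (XT.lf (nat_lit 0) (nat_lit 25208230452) (nat_lit 0) (nat_lit 0) (nat_lit 0) (nat_lit 0) (nat_lit 0) (nat_lit 0) (nat_lit 1) (nat_lit 0) (nat_lit 1) (nat_lit 0) (nat_lit 374) (nat_lit 401) (nat_lit 305)) (XT.lf (nat_lit 0) (nat_lit 25207076309) (nat_lit 0) (nat_lit 0) (nat_lit 0) (nat_lit 0) (nat_lit 0) (nat_lit 0) (nat_lit 1) (nat_lit 0) (nat_lit 1) (nat_lit 0) (nat_lit 375) (nat_lit 401) (nat_lit 304)))))) (XT.nd (nat_lit 470) (nat_lit 0) (nat_lit 0) (XT.nd (nat_lit 188) (nat_lit 0) (nat_lit 0) (XT.nd (nat_lit 94) (nat_lit 0) (nat_lit 0) (XT.lf (nat_lit 0) (nat_lit 25206007658) (nat_lit 0) (nat_lit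 0) (nat_lit 0) (nat_lit 0) (nat_lit 0) (nat_lit 0) (nat_lit 1) (nat_lit 0) (nat_lit 1) (nat_lit 0) (nat_lit 376) (nat_lit 401) (nat_lit 303)) (XT.lf (nat_lit 0) (nat_lit 25205018167) (nat_lit 0) (nat_lit 0) (nat_lit 0) (nat_lit 0) (nat_lit 0) (nat_lit 0) (nat_lit 1) (nat_lit 0) (nat_lit 1) (nat_lit 0) (nat_lit 377) (nat_lit 401) (nat_lit 302))) (XT.nd (nat_lit 94) (nat_lit 0) (nat_lit 0) (XT.lf (nat_lit 0) (nat_lit 25204101971) (nat_lit 0) (nat_lit 0) (nat_lit 0) (nat_lit 0) (nat_lit 0) (nat_lit 0) (nat_lit 1) (nat_lit 0) (nat_lit 1) (nat_lit 0) (nat_lit 378) (nat_lit 401) (nat_lit 301)) (XT.nd (nat_lit 94) (nat_lit 0) (nat_lit 0) (XT.lf (nat_lit 0) (nat_lit 25203253641) (nat_lit 0) (nat_lit 0) (nat_lit 0) (nat_lit 0) (nat_lit 0) (nat_lit 0) (nat_lit 1) (nat_lit 0) (nat_lit 1) (nat_lit 0) (nat_lit 379) (nat_lit 401) (nat_lit 300)) (XT.lf (nat_lit 0) (nat_lit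 25202468151) (nat_lit 0) (nat_lit 0) (nat_lit 0) (nat_lit 0) (nat_lit 0) (nat_lit 0) (nat_lit 1) (nat_lit 0) (nat_lit 1) (nat_lit 0) (nat_lit 380) (nat_lit 401) (nat_lit 299))))) (XT.nd (nat_lit 188) (nat_lit 0) (nat_lit 0) (XT.nd (nat_lit 94) (nat_lit 0) (nat_lit 0) (XT.lf (nat_lit 0) (nat_lit 25201740846) (nat_lit 0) (nat_lit 0) (nat_lit 0) (nat_lit 0) (nat_lit 0) (nat_lit 0) (nat_lit 1) (nat_lit 0) (nat_lit 1) (nat_lit 0) (nat_lit 381) (nat_lit 401) (nat_lit 298)) (XT.lf (nat_lit 0) (nat_lit 25201067414) (nat_lit 0) (nat_lit 0) (nat_lit 0) (nat_lit 0) (nat_lit 0) (nat_lit 0) (nat_lit 1) (nat_lit 0) (nat_lit 1) (nat_lit 0) (nat_lit 382) (nat_lit 401) (nat_lit 297))) (XT.nd (nat_lit 94) (nat_lit 0) (nat_lit 0) (XT.lf (nat_lit 0) (nat_lit 25200443867) (nat_lit 0) (nat_lit 0) (nat_lit 0) (nat_lit 0) (nat_lit 0) (nat_lit 0) (nat_lit 1) (nat_lit 0) (nat_lit 1)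 (nat_lit 0) (nat_lit 383) (nat_lit 401) (nat_lit 296)) (XT.nd (nat_lit 94) (nat_lit 0) (nat_lit 0) (XT.lf (nat_lit 0) (nat_lit 25199866508) (nat_lit 0) (nat_lit 0) (nat_lit 0) (nat_lit 0) (nat_lit 0) (nat_lit 0) (nat_lit 1) (nat_lit 0) (nat_lit 1) (nat_lit 0) (nat_lit 384) (nat_lit 401) (nat_lit 295)) (XT.lf (nat_lit 0) (nat_lit 25199331917) (nat_lit 0) (nat_lit 0) (nat_lit 0) (nat_lit 0) (nat_lit 0) (nat_lit 0) (nat_lit 1) (nat_lit 0) (nat_lit 1) (nat_lit 0) (nat_lit 385) (nat_lit 401) (nat_lit 294))))))))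
noncomputable def ec157 : XT := (XT.nd (nat_lit 1786) (nat_lit 0) (nat_lit 0) (XT.nd (nat_lit 846) (nat_lit 0) (nat_lit 0) (XT.nd (nat_lit 376) (nat_lit 0) (nat_lit 0) (XT.nd (nat_lit 188) (nat_lit 0) (nat_lit 0) (XT.nd (nat_lit 94) (nat_lit 0) (nat_lit 0) (XT.lf (nat_lit 0) (nat_lit 25198836925) (nat_lit 0) (nat_lit 0) (nat_lit 0) (nat_lit 0) (nat_lit 0) (nat_lit 0) (nat_lit 1) (nat_lit 0) (nat_lit 1) (nat_lit 0) (nat_lit 386) (nat_lit 401) (nat_lit 293)) (XT.lf (nat_lit 0) (nat_lit 25198378599) (nat_lit 0) (nat_lit 0) (nat_lit 0) (nat_lit 0) (nat_lit 0) (nat_lit 0) (nat_lit 1) (nat_lit 0) (nat_lit 1) (nat_lit 0) (nat_lit 387) (nat_lit 401) (nat_lit 292))) (XT.nd (nat_lit 94) (nat_lit 0) (nat_lit 0) (XT.lf (nat_lit 0) (nat_lit 25197954223) (nat_lit 0) (nat_lit 0) (nat_lit 0) (nat_lit 0) (nat_lit 0) (nat_lit 0) (nat_lit 1) (nat_lit 0) (nat_lit 1) (nat_lit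 0) (nat_lit 388) (nat_lit 401) (nat_lit 291)) (XT.lf (nat_lit 0) (nat_lit 25197561282) (nat_lit 0) (nat_lit 0) (nat_lit 0) (nat_lit 0) (nat_lit 0) (nat_lit 0) (nat_lit 1) (nat_lit 0) (nat_lit 1) (nat_lit 0) (nat_lit 389) (nat_lit 401) (nat_lit 290)))) (XT.nd (nat_lit 188) (nat_lit 0) (nat_lit 0) (XT.nd (nat_lit 94) (nat_lit 0) (nat_lit 0) (XT.lf (nat_lit 0) (nat_lit 25197197448) (nat_lit 0) (nat_lit 0) (nat_lit 0) (nat_lit 0) (nat_lit 0) (nat_lit 0) (nat_lit 1) (nat_lit 0) (nat_lit 1) (nat_lit 0) (nat_lit 390) (nat_lit 401) (nat_lit 289)) (XT.lf (nat_lit 0) (nat_lit 25196860565) (nat_lit 0) (nat_lit 0) (nat_lit 0) (nat_lit 0) (nat_lit 0) (nat_lit 0) (nat_lit 1) (nat_lit 0) (nat_lit 1) (nat_lit 0) (nat_lit 391) (nat_lit 401) (nat_lit 288))) (XT.nd (nat_lit 94) (nat_lit 0) (nat_lit 0) (XT.lf (nat_lit 0) (nat_lit 25196548636) (nat_lit 0) (nat_lit 0) (nat_lit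 0) (nat_lit 0) (nat_lit 0) (nat_lit 0) (nat_lit 1) (nat_lit 0) (nat_lit 1) (nat_lit 0) (nat_lit 392) (nat_lit 401) (nat_lit 287)) (XT.nd (nat_lit 94) (nat_lit 0) (nat_lit 0) (XT.lf (nat_lit 0) (nat_lit 25196259813) (nat_lit 0) (nat_lit 0) (nat_lit 0) (nat_lit 0) (nat_lit 0) (nat_lit 0) (nat_lit 1) (nat_lit 0) (nat_lit 1) (nat_lit 0) (nat_lit 393) (nat_lit 401) (nat_lit 286)) (XT.lf (nat_lit 0) (nat_lit 25195992384) (nat_lit 0) (nat_lit 0) (nat_lit 0) (nat_lit 0) (nat_lit 0) (nat_lit 0) (nat_lit 1) (nat_lit 0) (nat_lit 1) (nat_lit 0) (nat_lit 394) (nat_lit 401) (nat_lit 285)))))) (XT.nd (nat_lit 470) (nat_lit 0) (nat_lit 0) (XT.nd (nat_lit 188) (nat_lit 0) (nat_lit 0) (XT.nd (nat_lit 94) (nat_lit 0) (nat_lit 0) (XT.lf (nat_lit 0) (nat_lit 25195744765) (nat_lit 0) (nat_lit 0) (nat_lit 0) (nat_lit 0) (nat_lit 0) (nat_lit 0) (nat_lit 1) (nat_lit 0) (nat_lit 1)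 (nat_lit 0) (nat_lit 395) (nat_lit 401) (nat_lit 284)) (XT.lf (nat_lit 0) (nat_lit 25195515488) (nat_lit 0) (nat_lit 0) (nat_lit 0) (nat_lit 0) (nat_lit 0) (nat_lit 0) (nat_lit 1) (nat_lit 0) (nat_lit 1) (nat_lit 0) (nat_lit 396) (nat_lit 401) (nat_lit 283))) (XT.nd (nat_lit 94) (nat_lit 0) (nat_lit 0) (XT.lf (nat_lit 0) (nat_lit 25195303194) (nat_lit 0) (nat_lit 0) (nat_lit 0) (nat_lit 0) (nat_lit 0) (nat_lit 0) (nat_lit 1) (nat_lit 0) (nat_lit 1) (nat_lit 0) (nat_lit 397) (nat_lit 401) (nat_lit 282)) (XT.nd (nat_lit 94) (nat_lit 0) (nat_lit 0) (XT.lf (nat_lit 0) (nat_lit 25195106626) (nat_lit 0) (nat_lit 0) (nat_lit 0) (nat_lit 0) (nat_lit 0) (nat_lit 0) (nat_lit 1) (nat_lit 0) (nat_lit 1) (nat_lit 0) (nat_lit 398) (nat_lit 401) (nat_lit 281)) (XT.lf (nat_lit 0) (nat_lit 25194924618) (nat_lit 0) (nat_lit 0) (nat_lit 0) (nat_lit 0) (nat_lit 0) (nat_lit 0)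 (nat_lit 1) (nat_lit 0) (nat_lit 1) (nat_lit 0) (nat_lit 399) (nat_lit 401) (nat_lit 280))))) (XT.nd (nat_lit 188) (nat_lit 0) (nat_lit 0) (XT.nd (nat_lit 94) (nat_lit 0) (nat_lit 0) (XT.lf (nat_lit 0) (nat_lit 25194756093) (nat_lit 0) (nat_lit 0) (nat_lit 0) (nat_lit 0) (nat_lit 0) (nat_lit 0) (nat_lit 1) (nat_lit 0) (nat_lit 1) (nat_lit 0) (nat_lit 400) (nat_lit 401) (nat_lit 279)) (XT.lf (nat_lit 0) (nat_lit 25194600051) (nat_lit 0) (nat_lit 0) (nat_lit 0) (nat_lit 0) (nat_lit 0) (nat_lit 0) (nat_lit 1) (nat_lit 0) (nat_lit 1) (nat_lit 0) (nat_lit 401) (nat_lit 401) (nat_lit 278))) (XT.nd (nat_lit 94) (nat_lit 0) (nat_lit 0) (XT.lf (nat_lit 0) (nat_lit 25194455567) (nat_lit 0) (nat_lit 0) (nat_lit 0) (nat_lit 0) (nat_lit 0) (nat_lit 0) (nat_lit 1) (nat_lit 0) (nat_lit 1) (nat_lit 0) (nat_lit 402) (nat_lit 401) (nat_lit 277)) (XT.nd (nat_lit 94) (nat_lit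 0) (nat_lit 0) (XT.lf (nat_lit 0) (nat_lit 25194321786) (nat_lit 0) (nat_lit 0) (nat_lit 0) (nat_lit 0) (nat_lit 0) (nat_lit 0) (nat_lit 1) (nat_lit 0) (nat_lit 1) (nat_lit 0) (nat_lit 403) (nat_lit 401) (nat_lit 276)) (XT.lf (nat_lit 0) (nat_lit 25194197915) (nat_lit 0) (nat_lit 0) (nat_lit 0) (nat_lit 0) (nat_lit 0) (nat_lit 0) (nat_lit 1) (nat_lit 0) (nat_lit 1) (nat_lit 0) (nat_lit 404) (nat_lit 401) (nat_lit 275))))))) (XT.nd (nat_lit 846) (nat_lit 0) (nat_lit 0) (XT.nd (nat_lit 376) (nat_lit 0) (nat_lit 0) (XT.nd (nat_lit 188) (nat_lit 0) (nat_lit 0) (XT.nd (nat_lit 94) (nat_lit 0) (nat_lit 0) (XT.lf (nat_lit 0) (nat_lit 25194083219) (nat_lit 0) (nat_lit 0) (nat_lit 0) (nat_lit 0) (nat_lit 0) (nat_lit 0) (nat_lit 1) (nat_lit 0) (nat_lit 1) (nat_lit 0) (nat_lit 405) (nat_lit 401) (nat_lit 274)) (XT.lf (nat_lit 0) (nat_lit 25193977020) (nat_lit 0) (nat_lit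 0) (nat_lit 0) (nat_lit 0) (nat_lit 0) (nat_lit 0) (nat_lit 1) (nat_lit 0) (nat_lit 1) (nat_lit 0) (nat_lit 406) (nat_lit 401) (nat_lit 273))) (XT.nd (nat_lit 94) (nat_lit 0) (nat_lit 0) (XT.lf (nat_lit 0) (nat_lit 25193878686) (nat_lit 0) (nat_lit 0) (nat_lit 0) (nat_lit 0) (nat_lit 0) (nat_lit 0) (nat_lit 1) (nat_lit 0) (nat_lit 1) (nat_lit 0) (nat_lit 407) (nat_lit 401) (nat_lit 272)) (XT.lf (nat_lit 0) (nat_lit 25193787637) (nat_lit 0) (nat_lit 0) (nat_lit 0) (nat_lit 0) (nat_lit 0) (nat_lit 0) (nat_lit 1) (nat_lit 0) (nat_lit 1) (nat_lit 0) (nat_lit 408) (nat_lit 401) (nat_lit 271)))) (XT.nd (nat_lit 188) (nat_lit 0) (nat_lit 0) (XT.nd (nat_lit 94) (nat_lit 0) (nat_lit 0) (XT.lf (nat_lit 0) (nat_lit 25193703333) (nat_lit 0) (nat_lit 0) (nat_lit 0) (nat_lit 0) (nat_lit 0) (nat_lit 0) (nat_lit 1) (nat_lit 0) (nat_lit 1) (nat_lit 0) (nat_lit 409) (nat_lit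 401) (nat_lit 270)) (XT.lf (nat_lit 0) (nat_lit 25193625273) (nat_lit 0) (nat_lit 0) (nat_lit 0) (nat_lit 0) (nat_lit 0) (nat_lit 0) (nat_lit 1) (nat_lit 0) (nat_lit 1) (nat_lit 0) (nat_lit 410) (nat_lit 401) (nat_lit 269))) (XT.nd (nat_lit 94) (nat_lit 0) (nat_lit 0) (XT.lf (nat_lit 0) (nat_lit 25193552995) (nat_lit 0) (nat_lit 0) (nat_lit 0) (nat_lit 0) (nat_lit 0) (nat_lit 0) (nat_lit 1) (nat_lit 0) (nat_lit 1) (nat_lit 0) (nat_lit 411) (nat_lit 401) (nat_lit 268)) (XT.nd (nat_lit 94) (nat_lit 0) (nat_lit 0) (XT.lf (nat_lit 0) (nat_lit 25193486071) (nat_lit 0) (nat_lit 0) (nat_lit 0) (nat_lit 0) (nat_lit 0) (nat_lit 0) (nat_lit 1) (nat_lit 0) (nat_lit 1) (nat_lit 0) (nat_lit 412) (nat_lit 401) (nat_lit 267)) (XT.lf (nat_lit 0) (nat_lit 25193424105) (nat_lit 0) (nat_lit 0) (nat_lit 0) (nat_lit 0) (nat_lit 0) (nat_lit 0) (nat_lit 1) (nat_lit 0) (nat_lit 1)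 (nat_lit 0) (nat_lit 413) (nat_lit 401) (nat_lit 266)))))) (XT.nd (nat_lit 470) (nat_lit 0) (nat_lit 0) (XT.nd (nat_lit 188) (nat_lit 0) (nat_lit 0) (XT.nd (nat_lit 94) (nat_lit 0) (nat_lit 0) (XT.lf (nat_lit 0) (nat_lit 25193366728) (nat_lit 0) (nat_lit 0) (nat_lit 0) (nat_lit 0) (nat_lit 0) (nat_lit 0) (nat_lit 1) (nat_lit 0) (nat_lit 1) (nat_lit 0) (nat_lit 414) (nat_lit 401) (nat_lit 265)) (XT.lf (nat_lit 0) (nat_lit 25193313602) (nat_lit 0) (nat_lit 0) (nat_lit 0) (nat_lit 0) (nat_lit 0) (nat_lit 0) (nat_lit 1) (nat_lit 0) (nat_lit 1) (nat_lit 0) (nat_lit 415) (nat_lit 401) (nat_lit 264))) (XT.nd (nat_lit 94) (nat_lit 0) (nat_lit 0) (XT.lf (nat_lit 0) (nat_lit 25193264411) (nat_lit 0) (nat_lit 0) (nat_lit 0) (nat_lit 0) (nat_lit 0) (nat_lit 0) (nat_lit 1) (nat_lit 0) (nat_lit 1) (nat_lit 0) (nat_lit 416) (nat_lit 401) (nat_lit 263)) (XT.nd (nat_lit 94)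 (nat_lit 0) (nat_lit 0) (XT.lf (nat_lit 0) (nat_lit 25193218864) (nat_lit 0) (nat_lit 0) (nat_lit 0) (nat_lit 0) (nat_lit 0) (nat_lit 0) (nat_lit 1) (nat_lit 0) (nat_lit 1) (nat_lit 0) (nat_lit 417) (nat_lit 401) (nat_lit 262)) (XT.lf (nat_lit 0) (nat_lit 25193176691) (nat_lit 0) (nat_lit 0) (nat_lit 0) (nat_lit 0) (nat_lit 0) (nat_lit 0) (nat_lit 1) (nat_lit 0) (nat_lit 1) (nat_lit 0) (nat_lit 418) (nat_lit 401) (nat_lit 261))))) (XT.nd (nat_lit 188) (nat_lit 0) (nat_lit 0) (XT.nd (nat_lit 94) (nat_lit 0) (nat_lit 0) (XT.lf (nat_lit 0) (nat_lit 25193137641) (nat_lit 0) (nat_lit 0) (nat_lit 0) (nat_lit 0) (nat_lit 0) (nat_lit 0) (nat_lit 1) (nat_lit 0) (nat_lit 1) (nat_lit 0) (nat_lit 419) (nat_lit 401) (nat_lit 260)) (XT.lf (nat_lit 0) (nat_lit 25193101484) (nat_lit 0) (nat_lit 0) (nat_lit 0) (nat_lit 0) (nat_lit 0) (nat_lit 0) (nat_lit 1) (nat_lit 0) (nat_lit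 1) (nat_lit 0) (nat_lit 420) (nat_lit 401) (nat_lit 259))) (XT.nd (nat_lit 94) (nat_lit 0) (nat_lit 0) (XT.lf (nat_lit 0) (nat_lit 25193068006) (nat_lit 0) (nat_lit 0) (nat_lit 0) (nat_lit 0) (nat_lit 0) (nat_lit 0) (nat_lit 1) (nat_lit 0) (nat_lit 1) (nat_lit 0) (nat_lit 421) (nat_lit 401) (nat_lit 258)) (XT.nd (nat_lit 94) (nat_lit 0) (nat_lit 0) (XT.lf (nat_lit 0) (nat_lit 25193037007) (nat_lit 0) (nat_lit 0) (nat_lit 0) (nat_lit 0) (nat_lit 0) (nat_lit 0) (nat_lit 1) (nat_lit 0) (nat_lit 1) (nat_lit 0) (nat_lit 422) (nat_lit 401) (nat_lit 257)) (XT.lf (nat_lit 0) (nat_lit 25193008305) (nat_lit 0) (nat_lit 0) (nat_lit 0) (nat_lit 0) (nat_lit 0) (nat_lit 0) (nat_lit 1) (nat_lit 0) (nat_lit 1) (nat_lit 0) (nat_lit 423) (nat_lit 401) (nat_lit 256))))))))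
noncomputable def ec158 : XT := (XT.nd (nat_lit 53956) (nat_lit 0) (nat_lit 6300) (XT.nd (nat_lit 846) (nat_lit 0) (nat_lit 0) (XT.nd (nat_lit 376) (nat_lit 0) (nat_lit 0) (XT.nd (nat_lit 188) (nat_lit 0) (nat_lit 0) (XT.nd (nat_lit 94) (nat_lit 0) (nat_lit 0) (XT.lf (nat_lit 0) (nat_lit 25192981728) (nat_lit 0) (nat_lit 0) (nat_lit 0) (nat_lit 0) (nat_lit 0) (nat_lit 0) (nat_lit 1) (nat_lit 0) (nat_lit 1) (nat_lit 0) (nat_lit 424) (nat_lit 401) (nat_lit 255)) (XT.lf (nat_lit 0) (nat_lit 25192957121) (nat_lit 0) (nat_lit 0) (nat_lit 0) (nat_lit 0) (nat_lit 0) (nat_lit 0) (nat_lit 1) (nat_lit 0) (nat_lit 1) (nat_lit 0) (nat_lit 425) (nat_lit 401) (nat_lit 254))) (XT.nd (nat_lit 94) (nat_lit 0) (nat_lit 0) (XT.lf (nat_lit 0) (nat_lit 25192934336) (nat_lit 0) (nat_lit 0) (nat_lit 0) (nat_lit 0) (nat_lit 0) (nat_lit 0) (nat_lit 1) (nat_lit 0) (nat_lit 1) (nat_lit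 0) (nat_lit 426) (nat_lit 401) (nat_lit 253)) (XT.lf (nat_lit 0) (nat_lit 25192913238) (nat_lit 0) (nat_lit 0) (nat_lit 0) (nat_lit 0) (nat_lit 0) (nat_lit 0) (nat_lit 1) (nat_lit 0) (nat_lit 1) (nat_lit 0) (nat_lit 427) (nat_lit 401) (nat_lit 252)))) (XT.nd (nat_lit 188) (nat_lit 0) (nat_lit 0) (XT.nd (nat_lit 94) (nat_lit 0) (nat_lit 0) (XT.lf (nat_lit 0) (nat_lit 25192893704) (nat_lit 0) (nat_lit 0) (nat_lit 0) (nat_lit 0) (nat_lit 0) (nat_lit 0) (nat_lit 1) (nat_lit 0) (nat_lit 1) (nat_lit 0) (nat_lit 428) (nat_lit 401) (nat_lit 251)) (XT.lf (nat_lit 0) (nat_lit 25192875617) (nat_lit 0) (nat_lit 0) (nat_lit 0) (nat_lit 0) (nat_lit 0) (nat_lit 0) (nat_lit 1) (nat_lit 0) (nat_lit 1) (nat_lit 0) (nat_lit 429) (nat_lit 401) (nat_lit 250))) (XT.nd (nat_lit 94) (nat_lit 0) (nat_lit 0) (XT.lf (nat_lit 0) (nat_lit 25192858869) (nat_lit 0) (nat_lit 0) (nat_lit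 0) (nat_lit 0) (nat_lit 0) (nat_lit 0) (nat_lit 1) (nat_lit 0) (nat_lit 1) (nat_lit 0) (nat_lit 430) (nat_lit 401) (nat_lit 249)) (XT.nd (nat_lit 94) (nat_lit 0) (nat_lit 0) (XT.lf (nat_lit 0) (nat_lit 25192843362) (nat_lit 0) (nat_lit 0) (nat_lit 0) (nat_lit 0) (nat_lit 0) (nat_lit 0) (nat_lit 1) (nat_lit 0) (nat_lit 1) (nat_lit 0) (nat_lit 431) (nat_lit 401) (nat_lit 248)) (XT.lf (nat_lit 0) (nat_lit 25192829004) (nat_lit 0) (nat_lit 0) (nat_lit 0) (nat_lit 0) (nat_lit 0) (nat_lit 0) (nat_lit 1) (nat_lit 0) (nat_lit 1) (nat_lit 0) (nat_lit 432) (nat_lit 401) (nat_lit 247)))))) (XT.nd (nat_lit 376) (nat_lit 0) (nat_lit 0) (XT.nd (nat_lit 188) (nat_lit 0) (nat_lit 0) (XT.nd (nat_lit 94) (nat_lit 0) (nat_lit 0) (XT.lf (nat_lit 0) (nat_lit 25192815709) (nat_lit 0) (nat_lit 0) (nat_lit 0) (nat_lit 0) (nat_lit 0) (nat_lit 0) (nat_lit 1) (nat_lit 0) (nat_lit 1)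 (nat_lit 0) (nat_lit 433) (nat_lit 401) (nat_lit 246)) (XT.lf (nat_lit 0) (nat_lit 25192803399) (nat_lit 0) (nat_lit 0) (nat_lit 0) (nat_lit 0) (nat_lit 0) (nat_lit 0) (nat_lit 1) (nat_lit 0) (nat_lit 1) (nat_lit 0) (nat_lit 434) (nat_lit 401) (nat_lit 245))) (XT.nd (nat_lit 94) (nat_lit 0) (nat_lit 0) (XT.lf (nat_lit 0) (nat_lit 25192792001) (nat_lit 0) (nat_lit 0) (nat_lit 0) (nat_lit 0) (nat_lit 0) (nat_lit 0) (nat_lit 1) (nat_lit 0) (nat_lit 1) (nat_lit 0) (nat_lit 435) (nat_lit 401) (nat_lit 244)) (XT.lf (nat_lit 0) (nat_lit 25192781447) (nat_lit 0) (nat_lit 0) (nat_lit 0) (nat_lit 0) (nat_lit 0) (nat_lit 0) (nat_lit 1) (nat_lit 0) (nat_lit 1) (nat_lit 0) (nat_lit 436) (nat_lit 401) (nat_lit 243)))) (XT.nd (nat_lit 188) (nat_lit 0) (nat_lit 0) (XT.nd (nat_lit 94) (nat_lit 0) (nat_lit 0) (XT.lf (nat_lit 0) (nat_lit 25192771675) (nat_lit 0) (nat_lit 0)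 (nat_lit 0) (nat_lit 0) (nat_lit 0) (nat_lit 0) (nat_lit 1) (nat_lit 0) (nat_lit 1) (nat_lit 0) (nat_lit 437) (nat_lit 401) (nat_lit 242)) (XT.lf (nat_lit 0) (nat_lit 25192762626) (nat_lit 0) (nat_lit 0) (nat_lit 0) (nat_lit 0) (nat_lit 0) (nat_lit 0) (nat_lit 1) (nat_lit 0) (nat_lit 1) (nat_lit 0) (nat_lit 438) (nat_lit 401) (nat_lit 241))) (XT.nd (nat_lit 94) (nat_lit 0) (nat_lit 0) (XT.lf (nat_lit 0) (nat_lit 25192754248) (nat_lit 0) (nat_lit 0) (nat_lit 0) (nat_lit 0) (nat_lit 0) (nat_lit 0) (nat_lit 1) (nat_lit 0) (nat_lit 1) (nat_lit 0) (nat_lit 439) (nat_lit 401) (nat_lit 240)) (XT.nd (nat_lit 52358) (nat_lit 0) (nat_lit 10752) (XT.lf (nat_lit 0) (nat_lit 25192746491) (nat_lit 0) (nat_lit 0) (nat_lit 0) (nat_lit 0) (nat_lit 0) (nat_lit 0) (nat_lit 1) (nat_lit 0) (nat_lit 1) (nat_lit 0) (nat_lit 440) (nat_lit 401) (nat_lit 239)) (XT.lf (nat_lit 924)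 (nat_lit 13615933116) (nat_lit 0) (nat_lit 24175057950) (nat_lit 924) (nat_lit 13615933116) (nat_lit 139) (nat_lit 1) (nat_lit 128) (nat_lit 0) (nat_lit 139) (nat_lit 0) (nat_lit 276) (nat_lit 402) (nat_lit 402))))))) (XT.nd (nat_lit 846) (nat_lit 3024) (nat_lit 0) (XT.nd (nat_lit 376) (nat_lit 1512) (nat_lit 0) (XT.nd (nat_lit 188) (nat_lit 0) (nat_lit 84) (XT.nd (nat_lit 94) (nat_lit 0) (nat_lit 0) (XT.lf (nat_lit 924) (nat_lit 5079160845) (nat_lit 0) (nat_lit 47462965643) (nat_lit 840) (nat_lit 46418621829) (nat_lit 140) (nat_lit 1) (nat_lit 129) (nat_lit 1) (nat_lit 139) (nat_lit 1) (nat_lit 277) (nat_lit 402) (nat_lit 401)) (XT.lf (nat_lit 924) (nat_lit 46649160632) (nat_lit 84) (nat_lit 31785964090) (nat_lit 0) (nat_lit 16857825401) (nat_lit 140) (nat_lit 1) (nat_lit 130) (nat_lit 1) (nat_lit 129) (nat_lit 1) (nat_lit 278) (nat_lit 402) (nat_lit 400)))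 (XT.nd (nat_lit 94) (nat_lit 0) (nat_lit 84) (XT.lf (nat_lit 924) (nat_lit 40308696340) (nat_lit 84) (nat_lit 13321277230) (nat_lit 0) (nat_lit 38178724283) (nat_lit 141) (nat_lit 1) (nat_lit 131) (nat_lit 1) (nat_lit 130) (nat_lit 1) (nat_lit 279) (nat_lit 402) (nat_lit 399)) (XT.lf (nat_lit 924) (nat_lit 29831862218) (nat_lit 0) (nat_lit 55814004119) (nat_lit 840) (nat_lit 2853203916) (nat_lit 142) (nat_lit 1) (nat_lit 131) (nat_lit 1) (nat_lit 141) (nat_lit 1) (nat_lit 280) (nat_lit 402) (nat_lit 398)))) (XT.nd (nat_lit 188) (nat_lit 1764) (nat_lit 0) (XT.nd (nat_lit 94) (nat_lit 0) (nat_lit 0) (XT.lf (nat_lit 924) (nat_lit 7157862845) (nat_lit 0) (nat_lit 61550445273) (nat_lit 840) (nat_lit 16639192419) (nat_lit 143) (nat_lit 1) (nat_lit 132) (nat_lit 1) (nat_lit 142) (nat_lit 1) (nat_lit 281) (nat_lit 402) (nat_lit 397)) (XT.lf (nat_lit 924) (nat_lit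 13754501040) (nat_lit 84) (nat_lit 53492349210) (nat_lit 0) (nat_lit 15096200917) (nat_lit 143) (nat_lit 1) (nat_lit 133) (nat_lit 1) (nat_lit 132) (nat_lit 1) (nat_lit 282) (nat_lit 402) (nat_lit 396))) (XT.nd (nat_lit 94) (nat_lit 1008) (nat_lit 0) (XT.lf (nat_lit 924) (nat_lit 2824860869) (nat_lit 0) (nat_lit 39989069417) (nat_lit 840) (nat_lit 36669557657) (nat_lit 134) (nat_lit 1) (nat_lit 123) (nat_lit 1) (nat_lit 133) (nat_lit 1) (nat_lit 283) (nat_lit 402) (nat_lit 395)) (XT.nd (nat_lit 94) (nat_lit 420) (nat_lit 0) (XT.lf (nat_lit 84) (nat_lit 19559925099) (nat_lit 0) (nat_lit 8476225790) (nat_lit 588) (nat_lit 48723171386) (nat_lit 117) (nat_lit 1) (nat_lit 116) (nat_lit 1) (nat_lit 123) (nat_lit 1) (nat_lit 284) (nat_lit 402) (nat_lit 394)) (XT.lf (nat_lit 504) (nat_lit 53904691628) (nat_lit 0) (nat_lit 17547139216) (nat_lit 420) (nat_lit 2712896144)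 (nat_lit 117) (nat_lit 1) (nat_lit 111) (nat_lit 1) (nat_lit 116) (nat_lit 1) (nat_lit 285) (nat_lit 402) (nat_lit 393)))))) (XT.nd (nat_lit 470) (nat_lit 1512) (nat_lit 0) (XT.nd (nat_lit 188) (nat_lit 756) (nat_lit 0) (XT.nd (nat_lit 94) (nat_lit 336) (nat_lit 0) (XT.lf (nat_lit 504) (nat_lit 38898138798) (nat_lit 0) (nat_lit 8178797175) (nat_lit 420) (nat_lit 24604758686) (nat_lit 112) (nat_lit 1) (nat_lit 106) (nat_lit 1) (nat_lit 111) (nat_lit 1) (nat_lit 286) (nat_lit 402) (nat_lit 392)) (XT.lf (nat_lit 420) (nat_lit 23669021354) (nat_lit 0) (nat_lit 150584947) (nat_lit 336) (nat_lit 45499452868) (nat_lit 107) (nat_lit 1) (nat_lit 102) (nat_lit 1) (nat_lit 106) (nat_lit 1) (nat_lit 287) (nat_lit 402) (nat_lit 391))) (XT.nd (nat_lit 94) (nat_lit 756) (nat_lit 0) (XT.lf (nat_lit 84) (nat_lit 1746188536) (nat_lit 0) (nat_lit 58889938737) (nat_lit 420) (nat_lit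 6428981856) (nat_lit 103) (nat_lit 1) (nat_lit 102) (nat_lit 1) (nat_lit 107) (nat_lit 1) (nat_lit 288) (nat_lit 402) (nat_lit 390)) (XT.nd (nat_lit 94) (nat_lit 336) (nat_lit 0) (XT.lf (nat_lit 84) (nat_lit 45087040908) (nat_lit 0) (nat_lit 7478168163) (nat_lit 420) (nat_lit 12332857439) (nat_lit 98) (nat_lit 1) (nat_lit 97) (nat_lit 1) (nat_lit 102) (nat_lit 1) (nat_lit 289) (nat_lit 402) (nat_lit 389)) (XT.lf (nat_lit 84) (nat_lit 22558189101) (nat_lit 0) (nat_lit 22906956579) (nat_lit 420) (nat_lit 17361629203) (nat_lit 94) (nat_lit 1) (nat_lit 93) (nat_lit 1) (nat_lit 98) (nat_lit 1) (nat_lit 290) (nat_lit 402) (nat_lit 388))))) (XT.nd (nat_lit 188) (nat_lit 924) (nat_lit 0) (XT.nd (nat_lit 94) (nat_lit 252) (nat_lit 0) (XT.lf (nat_lit 84) (nat_lit 1113422192) (nat_lit 0) (nat_lit 38300075707) (nat_lit 420) (nat_lit 21440054171) (nat_lit 90) (nat_lit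 1) (nat_lit 89) (nat_lit 1) (nat_lit 94) (nat_lit 1) (nat_lit 291) (nat_lit 402) (nat_lit 387)) (XT.lf (nat_lit 336) (nat_lit 5028151867) (nat_lit 0) (nat_lit 34002984258) (nat_lit 252) (nat_lit 19926530249) (nat_lit 90) (nat_lit 1) (nat_lit 86) (nat_lit 1) (nat_lit 89) (nat_lit 1) (nat_lit 292) (nat_lit 402) (nat_lit 386))) (XT.nd (nat_lit 94) (nat_lit 504) (nat_lit 0) (XT.lf (nat_lit 84) (nat_lit 17373616569) (nat_lit 0) (nat_lit 11907984751) (nat_lit 420) (nat_lit 27858501831) (nat_lit 82) (nat_lit 1) (nat_lit 81) (nat_lit 1) (nat_lit 86) (nat_lit 1) (nat_lit 293) (nat_lit 402) (nat_lit 385)) (XT.nd (nat_lit 94) (nat_lit 252) (nat_lit 0) (XT.lf (nat_lit 336) (nat_lit 26898537346) (nat_lit 0) (nat_lit 25267699283) (nat_lit 252) (nat_lit 3234235519) (nat_lit 82) (nat_lit 1) (nat_lit 78) (nat_lit 1) (nat_lit 81) (nat_lit 1) (nat_lit 294) (nat_lit 402) (nat_lit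 384)) (XT.lf (nat_lit 336) (nat_lit 8620851271) (nat_lit 0) (nat_lit 21754454380) (nat_lit 252) (nat_lit 23352390000) (nat_lit 79) (nat_lit 1) (nat_lit 75) (nat_lit 1) (nat_lit 78) (nat_lit 1) (nat_lit 295) (nat_lit 402) (nat_lit 383))))))))
noncomputable def ec159 : XT := (XT.nd (nat_lit 1786) (nat_lit 2604) (nat_lit 0) (XT.nd (nat_lit 846) (nat_lit 1596) (nat_lit 0) (XT.nd (nat_lit 376) (nat_lit 1008) (nat_lit 0) (XT.nd (nat_lit 188) (nat_lit 504) (nat_lit 0) (XT.nd (nat_lit 94) (nat_lit 252) (nat_lit 0) (XT.lf (nat_lit 84) (nat_lit 9825687373) (nat_lit 0) (nat_lit 8996270661) (nat_lit 336) (nat_lit 33302434676) (nat_lit 72) (nat_lit 1) (nat_lit 71) (nat_lit 1) (nat_lit 75) (nat_lit 1) (nat_lit 296) (nat_lit 402) (nat_lit 382)) (XT.lf (nat_lit 336) (nat_lit 24449933411) (nat_lit 0) (nat_lit 16268079647) (nat_lit 252) (nat_lit 9861763369) (nat_lit 72) (nat_lit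 1) (nat_lit 68) (nat_lit 1) (nat_lit 71) (nat_lit 1) (nat_lit 297) (nat_lit 402) (nat_lit 381))) (XT.nd (nat_lit 94) (nat_lit 336) (nat_lit 0) (XT.lf (nat_lit 252) (nat_lit 6061174594) (nat_lit 0) (nat_lit 14192712895) (nat_lit 168) (nat_lit 28843586783) (nat_lit 69) (nat_lit 1) (nat_lit 66) (nat_lit 1) (nat_lit 68) (nat_lit 1) (nat_lit 298) (nat_lit 402) (nat_lit 380)) (XT.lf (nat_lit 84) (nat_lit 1026801699) (nat_lit 0) (nat_lit 11490133928) (nat_lit 336) (nat_lit 35155694428) (nat_lit 63) (nat_lit 1) (nat_lit 62) (nat_lit 1) (nat_lit 66) (nat_lit 1) (nat_lit 299) (nat_lit 402) (nat_lit 379)))) (XT.nd (nat_lit 188) (nat_lit 588) (nat_lit 0) (XT.nd (nat_lit 94) (nat_lit 252) (nat_lit 0) (XT.lf (nat_lit 252) (nat_lit 17612661224) (nat_lit 0) (nat_lit 11006402278) (nat_lit 168) (nat_lit 17673953463) (nat_lit 63) (nat_lit 1) (nat_lit 60) (nat_lit 1) (nat_lit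 62) (nat_lit 1) (nat_lit 300) (nat_lit 402) (nat_lit 378)) (XT.lf (nat_lit 84) (nat_lit 9555893943) (nat_lit 0) (nat_lit 441392732) (nat_lit 252) (nat_lit 34976318762) (nat_lit 58) (nat_lit 1) (nat_lit 57) (nat_lit 1) (nat_lit 60) (nat_lit 1) (nat_lit 301) (nat_lit 402) (nat_lit 377))) (XT.nd (nat_lit 94) (nat_lit 420) (nat_lit 0) (XT.lf (nat_lit 252) (nat_lit 26123968753) (nat_lit 0) (nat_lit 9052540921) (nat_lit 168) (nat_lit 8516064976) (nat_lit 58) (nat_lit 1) (nat_lit 55) (nat_lit 1) (nat_lit 57) (nat_lit 1) (nat_lit 302) (nat_lit 402) (nat_lit 376)) (XT.nd (nat_lit 94) (nat_lit 252) (nat_lit 0) (XT.lf (nat_lit 252) (nat_lit 8115151555) (nat_lit 0) (nat_lit 8415337831) (nat_lit 168) (nat_lit 25930033891) (nat_lit 56) (nat_lit 1) (nat_lit 53) (nat_lit 1) (nat_lit 55) (nat_lit 1) (nat_lit 303) (nat_lit 402) (nat_lit 375)) (XT.lf (nat_lit 252) (nat_lit 32214169272)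 (nat_lit 0) (nat_lit 8040172266) (nat_lit 168) (nat_lit 1019989131) (nat_lit 53) (nat_lit 1) (nat_lit 50) (nat_lit 1) (nat_lit 52) (nat_lit 1) (nat_lit 304) (nat_lit 402) (nat_lit 374)))))) (XT.nd (nat_lit 470) (nat_lit 756) (nat_lit 0) (XT.nd (nat_lit 188) (nat_lit 504) (nat_lit 0) (XT.nd (nat_lit 94) (nat_lit 168) (nat_lit 0) (XT.lf (nat_lit 252) (nat_lit 14417569165) (nat_lit 0) (nat_lit 7675653797) (nat_lit 168) (nat_lit 18027875648) (nat_lit 51) (nat_lit 1) (nat_lit 48) (nat_lit 1) (nat_lit 50) (nat_lit 1) (nat_lit 305) (nat_lit 402) (nat_lit 373)) (XT.lf (nat_lit 84) (nat_lit 4938574086) (nat_lit 0) (nat_lit 2714462856) (nat_lit 168) (nat_lit 31362662695) (nat_lit 47) (nat_lit 1) (nat_lit 46) (nat_lit 1) (nat_lit 48) (nat_lit 1) (nat_lit 306) (nat_lit 402) (nat_lit 372))) (XT.nd (nat_lit 94) (nat_lit 336) (nat_lit 0) (XT.lf (nat_lit 252) (nat_lit 18916679909)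 (nat_lit 0) (nat_lit 7571999800) (nat_lit 168) (nat_lit 11449514646) (nat_lit 47) (nat_lit 1) (nat_lit 44) (nat_lit 1) (nat_lit 46) (nat_lit 1) (nat_lit 307) (nat_lit 402) (nat_lit 371)) (XT.nd (nat_lit 94) (nat_lit 252) (nat_lit 0) (XT.lf (nat_lit 168) (nat_lit 2037057623) (nat_lit 0) (nat_lit 7757977900) (nat_lit 84) (nat_lit 27108192073) (nat_lit 45) (nat_lit 1) (nat_lit 43) (nat_lit 1) (nat_lit 44) (nat_lit 1) (nat_lit 308) (nat_lit 402) (nat_lit 370)) (XT.lf (nat_lit 252) (nat_lit 21989284975) (nat_lit 0) (nat_lit 7934341148) (nat_lit 168) (nat_lit 5973171943) (nat_lit 43) (nat_lit 1) (nat_lit 40) (nat_lit 1) (nat_lit 42) (nat_lit 1) (nat_lit 309) (nat_lit 402) (nat_lit 369))))) (XT.nd (nat_lit 188) (nat_lit 420) (nat_lit 0) (XT.nd (nat_lit 94) (nat_lit 252) (nat_lit 0) (XT.lf (nat_lit 168) (nat_lit 5530467319) (nat_lit 0) (nat_lit 8231014159) (nat_lit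 84) (nat_lit 21162805754) (nat_lit 41) (nat_lit 1) (nat_lit 39) (nat_lit 1) (nat_lit 40) (nat_lit 1) (nat_lit 310) (nat_lit 402) (nat_lit 368)) (XT.lf (nat_lit 252) (nat_lit 23940032934) (nat_lit 0) (nat_lit 8627998407) (nat_lit 168) (nat_lit 1415928398) (nat_lit 39) (nat_lit 1) (nat_lit 36) (nat_lit 1) (nat_lit 38) (nat_lit 1) (nat_lit 311) (nat_lit 402) (nat_lit 367))) (XT.nd (nat_lit 94) (nat_lit 336) (nat_lit 0) (XT.lf (nat_lit 168) (nat_lit 7959101208) (nat_lit 0) (nat_lit 8994792016) (nat_lit 84) (nat_lit 16114946692) (nat_lit 37) (nat_lit 1) (nat_lit 35) (nat_lit 1) (nat_lit 36) (nat_lit 1) (nat_lit 312) (nat_lit 402) (nat_lit 366)) (XT.nd (nat_lit 94) (nat_lit 84) (nat_lit 0) (XT.lf (nat_lit 84) (nat_lit 2297313351) (nat_lit 0) (nat_lit 7210654236) (nat_lit 252) (nat_lit 22678628247) (nat_lit 33) (nat_lit 1) (nat_lit 32) (nat_lit 1) (nat_lit 35) (nat_lit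 1) (nat_lit 313) (nat_lit 402) (nat_lit 365)) (XT.lf (nat_lit 168) (nat_lit 9551639542) (nat_lit 0) (nat_lit 9952355666) (nat_lit 84) (nat_lit 11822266534) (nat_lit 33) (nat_lit 1) (nat_lit 31) (nat_lit 1) (nat_lit 32) (nat_lit 1) (nat_lit 314) (nat_lit 402) (nat_lit 364))))))) (XT.nd (nat_lit 846) (nat_lit 1344) (nat_lit 0) (XT.nd (nat_lit 376) (nat_lit 672) (nat_lit 0) (XT.nd (nat_lit 188) (nat_lit 252) (nat_lit 0) (XT.nd (nat_lit 94) (nat_lit 84) (nat_lit 0) (XT.lf (nat_lit 84) (nat_lit 5342695451) (nat_lit 0) (nat_lit 5174761816) (nat_lit 252) (nat_lit 19978704630) (nat_lit 29) (nat_lit 1) (nat_lit 28) (nat_lit 1) (nat_lit 31) (nat_lit 1) (nat_lit 315) (nat_lit 402) (nat_lit 363)) (XT.lf (nat_lit 168) (nat_lit 10492497469) (nat_lit 0) (nat_lit 11028020161) (nat_lit 84) (nat_lit 8166753157) (nat_lit 29) (nat_lit 1) (nat_lit 27) (nat_lit 1) (nat_lit 28)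 (nat_lit 1) (nat_lit 316) (nat_lit 402) (nat_lit 362))) (XT.nd (nat_lit 94) (nat_lit 84) (nat_lit 0) (XT.lf (nat_lit 84) (nat_lit 7865683149) (nat_lit 0) (nat_lit 3747857281) (nat_lit 168) (nat_lit 17291553193) (nat_lit 26) (nat_lit 1) (nat_lit 25) (nat_lit 1) (nat_lit 27) (nat_lit 1) (nat_lit 317) (nat_lit 402) (nat_lit 361)) (XT.lf (nat_lit 168) (nat_lit 10930096276) (nat_lit 0) (nat_lit 12163225812) (nat_lit 84) (nat_lit 5050389588) (nat_lit 26) (nat_lit 1) (nat_lit 24) (nat_lit 1) (nat_lit 25) (nat_lit 1) (nat_lit 318) (nat_lit 402) (nat_lit 360)))) (XT.nd (nat_lit 188) (nat_lit 420) (nat_lit 0) (XT.nd (nat_lit 94) (nat_lit 84) (nat_lit 0) (XT.lf (nat_lit 84) (nat_lit 9949357846) (nat_lit 0) (nat_lit 2795950400) (nat_lit 168) (nat_lit 14660440795) (nat_lit 23) (nat_lit 1) (nat_lit 22) (nat_lit 1) (nat_lit 24) (nat_lit 1) (nat_lit 319) (nat_lit 402) (nat_lit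 359)) (XT.lf (nat_lit 168) (nat_lit 10983607698) (nat_lit 0) (nat_lit 13313169026) (nat_lit 84) (nat_lit 2391601373) (nat_lit 23) (nat_lit 1) (nat_lit 21) (nat_lit 1) (nat_lit 22) (nat_lit 1) (nat_lit 320) (nat_lit 402) (nat_lit 358))) (XT.nd (nat_lit 94) (nat_lit 252) (nat_lit 0) (XT.lf (nat_lit 84) (nat_lit 11662769455) (nat_lit 0) (nat_lit 2211300575) (nat_lit 168) (nat_lit 12117283815) (nat_lit 20) (nat_lit 1) (nat_lit 19) (nat_lit 1) (nat_lit 21) (nat_lit 1) (nat_lit 321) (nat_lit 402) (nat_lit 357)) (XT.nd (nat_lit 94) (nat_lit 168) (nat_lit 0) (XT.lf (nat_lit 168) (nat_lit 10748452042) (nat_lit 0) (nat_lit 14444066125) (nat_lit 84) (nat_lit 122348242) (nat_lit 20) (nat_lit 1) (nat_lit 18) (nat_lit 1) (nat_lit 19) (nat_lit 1) (nat_lit 322) (nat_lit 402) (nat_lit 356)) (XT.lf (nat_lit 84) (nat_lit 13063420114) (nat_lit 0) (nat_lit 1907487994) (nat_lit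 168) (nat_lit 9684961188) (nat_lit 17) (nat_lit 1) (nat_lit 16) (nat_lit 1) (nat_lit 18) (nat_lit 1) (nat_lit 323) (nat_lit 402) (nat_lit 355)))))) (XT.nd (nat_lit 470) (nat_lit 756) (nat_lit 0) (XT.nd (nat_lit 188) (nat_lit 336) (nat_lit 0) (XT.nd (nat_lit 94) (nat_lit 168) (nat_lit 0) (XT.lf (nat_lit 0) (nat_lit 1756190123) (nat_lit 0) (nat_lit 13745001037) (nat_lit 168) (nat_lit 8514847240) (nat_lit 15) (nat_lit 3) (nat_lit 15) (nat_lit 1) (nat_lit 17) (nat_lit 1) (nat_lit 324) (nat_lit 402) (nat_lit 354)) (XT.lf (nat_lit 84) (nat_lit 14199298310) (nat_lit 0) (nat_lit 1815396346) (nat_lit 168) (nat_lit 7379188335) (nat_lit 14) (nat_lit 1) (nat_lit 13) (nat_lit 1) (nat_lit 15) (nat_lit 1) (nat_lit 325) (nat_lit 402) (nat_lit 353))) (XT.nd (nat_lit 94) (nat_lit 252) (nat_lit 0) (XT.lf (nat_lit 0) (nat_lit 3354972845) (nat_lit 0) (nat_lit 13143994756) (nat_lit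 168) (nat_lit 6289329382) (nat_lit 12) (nat_lit 3) (nat_lit 12) (nat_lit 1) (nat_lit 14) (nat_lit 1) (nat_lit 326) (nat_lit 402) (nat_lit 352)) (XT.nd (nat_lit 94) (nat_lit 84) (nat_lit 0) (XT.lf (nat_lit 84) (nat_lit 15110545514) (nat_lit 0) (nat_lit 1879939371) (nat_lit 168) (nat_lit 5210033465) (nat_lit 11) (nat_lit 1) (nat_lit 10) (nat_lit 1) (nat_lit 12) (nat_lit 1) (nat_lit 327) (nat_lit 402) (nat_lit 351)) (XT.lf (nat_lit 0) (nat_lit 4716718449) (nat_lit 0) (nat_lit 12709583684) (nat_lit 168) (nat_lit 4200762539) (nat_lit 9) (nat_lit 3) (nat_lit 9) (nat_lit 1) (nat_lit 11) (nat_lit 1) (nat_lit 328) (nat_lit 402) (nat_lit 350))))) (XT.nd (nat_lit 188) (nat_lit 504) (nat_lit 0) (XT.nd (nat_lit 94) (nat_lit 84) (nat_lit 0) (XT.lf (nat_lit 84) (nat_lit 15830822405) (nat_lit 0) (nat_lit 2057394354) (nat_lit 168) (nat_lit 3183142716) (nat_lit 8) (nat_lit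 1) (nat_lit 7) (nat_lit 1) (nat_lit 9) (nat_lit 1) (nat_lit 329) (nat_lit 402) (nat_lit 349)) (XT.lf (nat_lit 0) (nat_lit 5874141466) (nat_lit 0) (nat_lit 12400421134) (nat_lit 168) (nat_lit 2253540418) (nat_lit 6) (nat_lit 3) (nat_lit 6) (nat_lit 1) (nat_lit 8) (nat_lit 1) (nat_lit 330) (nat_lit 402) (nat_lit 348))) (XT.nd (nat_lit 94) (nat_lit 336) (nat_lit 0) (XT.lf (nat_lit 84) (nat_lit 16388429435) (nat_lit 0) (nat_lit 2313230818) (nat_lit 168) (nat_lit 1300728365) (nat_lit 5) (nat_lit 1) (nat_lit 4) (nat_lit 1) (nat_lit 6) (nat_lit 1) (nat_lit 331) (nat_lit 402) (nat_lit 347)) (XT.nd (nat_lit 94) (nat_lit 252) (nat_lit 0) (XT.lf (nat_lit 0) (nat_lit 6854910585) (nat_lit 0) (nat_lit 12183703834) (nat_lit 168) (nat_lit 448935375) (nat_lit 3) (nat_lit 3) (nat_lit 3) (nat_lit 1) (nat_lit 5) (nat_lit 1) (nat_lit 332) (nat_lit 402) (nat_lit 346)) (XT.lf (nat_lit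 0) (nat_lit 27546549689) (nat_lit 0) (nat_lit 0) (nat_lit 0) (nat_lit 0) (nat_lit 0) (nat_lit 0) (nat_lit 1) (nat_lit 0) (nat_lit 1) (nat_lit 0) (nat_lit 333) (nat_lit 402) (nat_lit 345))))))))
noncomputable def ec160 : XT := (XT.nd (nat_lit 1692) (nat_lit 0) (nat_lit 0) (XT.nd (nat_lit 846) (nat_lit 0) (nat_lit 0) (XT.nd (nat_lit 376) (nat_lit 0) (nat_lit 0) (XT.nd (nat_lit 188) (nat_lit 0) (nat_lit 0) (XT.nd (nat_lit 94) (nat_lit 0) (nat_lit 0) (XT.lf (nat_lit 0) (nat_lit 27521476489) (nat_lit 0) (nat_lit 0) (nat_lit 0) (nat_lit 0) (nat_lit 0) (nat_lit 0) (nat_lit 1) (nat_lit 0) (nat_lit 1) (nat_lit 0) (nat_lit 334) (nat_lit 402) (nat_lit 344)) (XT.lf (nat_lit 0) (nat_lit 27498260563) (nat_lit 0) (nat_lit 0) (nat_lit 0) (nat_lit 0) (nat_lit 0) (nat_lit 0) (nat_lit 1) (nat_lit 0) (nat_lit 1) (nat_lit 0) (nat_lit 335) (nat_lit 402) (nat_lit 343))) (XT.nd (nat_lit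 94) (nat_lit 0) (nat_lit 0) (XT.lf (nat_lit 0) (nat_lit 27476764335) (nat_lit 0) (nat_lit 0) (nat_lit 0) (nat_lit 0) (nat_lit 0) (nat_lit 0) (nat_lit 1) (nat_lit 0) (nat_lit 1) (nat_lit 0) (nat_lit 336) (nat_lit 402) (nat_lit 342)) (XT.lf (nat_lit 0) (nat_lit 27456860420) (nat_lit 0) (nat_lit 0) (nat_lit 0) (nat_lit 0) (nat_lit 0) (nat_lit 0) (nat_lit 1) (nat_lit 0) (nat_lit 1) (nat_lit 0) (nat_lit 337) (nat_lit 402) (nat_lit 341)))) (XT.nd (nat_lit 188) (nat_lit 0) (nat_lit 0) (XT.nd (nat_lit 94) (nat_lit 0) (nat_lit 0) (XT.lf (nat_lit 0) (nat_lit 27438430869) (nat_lit 0) (nat_lit 0) (nat_lit 0) (nat_lit 0) (nat_lit 0) (nat_lit 0) (nat_lit 1) (nat_lit 0) (nat_lit 1) (nat_lit 0) (nat_lit 338) (nat_lit 402) (nat_lit 340)) (XT.lf (nat_lit 0) (nat_lit 27421366470) (nat_lit 0) (nat_lit 0) (nat_lit 0) (nat_lit 0) (nat_lit 0) (nat_lit 0) (nat_lit 1) (nat_lit 0)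 (nat_lit 1) (nat_lit 0) (nat_lit 339) (nat_lit 402) (nat_lit 339))) (XT.nd (nat_lit 94) (nat_lit 0) (nat_lit 0) (XT.lf (nat_lit 0) (nat_lit 27405566101) (nat_lit 0) (nat_lit 0) (nat_lit 0) (nat_lit 0) (nat_lit 0) (nat_lit 0) (nat_lit 1) (nat_lit 0) (nat_lit 1) (nat_lit 0) (nat_lit 340) (nat_lit 402) (nat_lit 338)) (XT.nd (nat_lit 94) (nat_lit 0) (nat_lit 0) (XT.lf (nat_lit 0) (nat_lit 27390936130) (nat_lit 0) (nat_lit 0) (nat_lit 0) (nat_lit 0) (nat_lit 0) (nat_lit 0) (nat_lit 1) (nat_lit 0) (nat_lit 1) (nat_lit 0) (nat_lit 341) (nat_lit 402) (nat_lit 337)) (XT.lf (nat_lit 0) (nat_lit 27377389860) (nat_lit 0) (nat_lit 0) (nat_lit 0) (nat_lit 0) (nat_lit 0) (nat_lit 0) (nat_lit 1) (nat_lit 0) (nat_lit 1) (nat_lit 0) (nat_lit 342) (nat_lit 402) (nat_lit 336)))))) (XT.nd (nat_lit 376) (nat_lit 0) (nat_lit 0) (XT.nd (nat_lit 188) (nat_lit 0) (nat_lit 0) (XT.nd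 (nat_lit 94) (nat_lit 0) (nat_lit 0) (XT.lf (nat_lit 0) (nat_lit 27364847017) (nat_lit 0) (nat_lit 0) (nat_lit 0) (nat_lit 0) (nat_lit 0) (nat_lit 0) (nat_lit 1) (nat_lit 0) (nat_lit 1) (nat_lit 0) (nat_lit 343) (nat_lit 402) (nat_lit 335)) (XT.lf (nat_lit 0) (nat_lit 27353233274) (nat_lit 0) (nat_lit 0) (nat_lit 0) (nat_lit 0) (nat_lit 0) (nat_lit 0) (nat_lit 1) (nat_lit 0) (nat_lit 1) (nat_lit 0) (nat_lit 344) (nat_lit 402) (nat_lit 334))) (XT.nd (nat_lit 94) (nat_lit 0) (nat_lit 0) (XT.lf (nat_lit 0) (nat_lit 27342479808) (nat_lit 0) (nat_lit 0) (nat_lit 0) (nat_lit 0) (nat_lit 0) (nat_lit 0) (nat_lit 1) (nat_lit 0) (nat_lit 1) (nat_lit 0) (nat_lit 345) (nat_lit 402) (nat_lit 333)) (XT.lf (nat_lit 0) (nat_lit 27332522896) (nat_lit 0) (nat_lit 0) (nat_lit 0) (nat_lit 0) (nat_lit 0) (nat_lit 0) (nat_lit 1) (nat_lit 0) (nat_lit 1) (nat_lit 0) (nat_lit 346)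 (nat_lit 402) (nat_lit 332)))) (XT.nd (nat_lit 188) (nat_lit 0) (nat_lit 0) (XT.nd (nat_lit 94) (nat_lit 0) (nat_lit 0) (XT.lf (nat_lit 0) (nat_lit 27323303532) (nat_lit 0) (nat_lit 0) (nat_lit 0) (nat_lit 0) (nat_lit 0) (nat_lit 0) (nat_lit 1) (nat_lit 0) (nat_lit 1) (nat_lit 0) (nat_lit 347) (nat_lit 402) (nat_lit 331)) (XT.lf (nat_lit 0) (nat_lit 27314767084) (nat_lit 0) (nat_lit 0) (nat_lit 0) (nat_lit 0) (nat_lit 0) (nat_lit 0) (nat_lit 1) (nat_lit 0) (nat_lit 1) (nat_lit 0) (nat_lit 348) (nat_lit 402) (nat_lit 330))) (XT.nd (nat_lit 94) (nat_lit 0) (nat_lit 0) (XT.lf (nat_lit 0) (nat_lit 27306862966) (nat_lit 0) (nat_lit 0) (nat_lit 0) (nat_lit 0) (nat_lit 0) (nat_lit 0) (nat_lit 1) (nat_lit 0) (nat_lit 1) (nat_lit 0) (nat_lit 349) (nat_lit 402) (nat_lit 329)) (XT.nd (nat_lit 94) (nat_lit 0) (nat_lit 0) (XT.lf (nat_lit 0) (nat_lit 27299544337) (nat_lit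 0) (nat_lit 0) (nat_lit 0) (nat_lit 0) (nat_lit 0) (nat_lit 0) (nat_lit 1) (nat_lit 0) (nat_lit 1) (nat_lit 0) (nat_lit 350) (nat_lit 402) (nat_lit 328)) (XT.lf (nat_lit 0) (nat_lit 27292767830) (nat_lit 0) (nat_lit 0) (nat_lit 0) (nat_lit 0) (nat_lit 0) (nat_lit 0) (nat_lit 1) (nat_lit 0) (nat_lit 1) (nat_lit 0) (nat_lit 351) (nat_lit 402) (nat_lit 327))))))) (XT.nd (nat_lit 846) (nat_lit 0) (nat_lit 0) (XT.nd (nat_lit 376) (nat_lit 0) (nat_lit 0) (XT.nd (nat_lit 188) (nat_lit 0) (nat_lit 0) (XT.nd (nat_lit 94) (nat_lit 0) (nat_lit 0) (XT.lf (nat_lit 0) (nat_lit 27286493286) (nat_lit 0) (nat_lit 0) (nat_lit 0) (nat_lit 0) (nat_lit 0) (nat_lit 0) (nat_lit 1) (nat_lit 0) (nat_lit 1) (nat_lit 0) (nat_lit 352) (nat_lit 402) (nat_lit 326)) (XT.lf (nat_lit 0) (nat_lit 27280683523) (nat_lit 0) (nat_lit 0) (nat_lit 0) (nat_lit 0) (nat_lit 0) (nat_lit 0) (nat_lit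 1) (nat_lit 0) (nat_lit 1) (nat_lit 0) (nat_lit 353) (nat_lit 402) (nat_lit 325))) (XT.nd (nat_lit 94) (nat_lit 0) (nat_lit 0) (XT.lf (nat_lit 0) (nat_lit 27275304113) (nat_lit 0) (nat_lit 0) (nat_lit 0) (nat_lit 0) (nat_lit 0) (nat_lit 0) (nat_lit 1) (nat_lit 0) (nat_lit 1) (nat_lit 0) (nat_lit 354) (nat_lit 402) (nat_lit 324)) (XT.lf (nat_lit 0) (nat_lit 27270323177) (nat_lit 0) (nat_lit 0) (nat_lit 0) (nat_lit 0) (nat_lit 0) (nat_lit 0) (nat_lit 1) (nat_lit 0) (nat_lit 1) (nat_lit 0) (nat_lit 355) (nat_lit 402) (nat_lit 323)))) (XT.nd (nat_lit 188) (nat_lit 0) (nat_lit 0) (XT.nd (nat_lit 94) (nat_lit 0) (nat_lit 0) (XT.lf (nat_lit 0) (nat_lit 27265711200) (nat_lit 0) (nat_lit 0) (nat_lit 0) (nat_lit 0) (nat_lit 0) (nat_lit 0) (nat_lit 1) (nat_lit 0) (nat_lit 1) (nat_lit 0) (nat_lit 356) (nat_lit 402) (nat_lit 322)) (XT.lf (nat_lit 0) (nat_lit 27261440851)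 (nat_lit 0) (nat_lit 0) (nat_lit 0) (nat_lit 0) (nat_lit 0) (nat_lit 0) (nat_lit 1) (nat_lit 0) (nat_lit 1) (nat_lit 0) (nat_lit 357) (nat_lit 402) (nat_lit 321))) (XT.nd (nat_lit 94) (nat_lit 0) (nat_lit 0) (XT.lf (nat_lit 0) (nat_lit 27257486824) (nat_lit 0) (nat_lit 0) (nat_lit 0) (nat_lit 0) (nat_lit 0) (nat_lit 0) (nat_lit 1) (nat_lit 0) (nat_lit 1) (nat_lit 0) (nat_lit 358) (nat_lit 402) (nat_lit 320)) (XT.nd (nat_lit 94) (nat_lit 0) (nat_lit 0) (XT.lf (nat_lit 0) (nat_lit 27253825688) (nat_lit 0) (nat_lit 0) (nat_lit 0) (nat_lit 0) (nat_lit 0) (nat_lit 0) (nat_lit 1) (nat_lit 0) (nat_lit 1) (nat_lit 0) (nat_lit 359) (nat_lit 402) (nat_lit 319)) (XT.lf (nat_lit 0) (nat_lit 27250435747) (nat_lit 0) (nat_lit 0) (nat_lit 0) (nat_lit 0) (nat_lit 0) (nat_lit 0) (nat_lit 1) (nat_lit 0) (nat_lit 1) (nat_lit 0) (nat_lit 360) (nat_lit 402) (nat_lit 318))))))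 (XT.nd (nat_lit 470) (nat_lit 0) (nat_lit 0) (XT.nd (nat_lit 188) (nat_lit 0) (nat_lit 0) (XT.nd (nat_lit 94) (nat_lit 0) (nat_lit 0) (XT.lf (nat_lit 0) (nat_lit 27247296913) (nat_lit 0) (nat_lit 0) (nat_lit 0) (nat_lit 0) (nat_lit 0) (nat_lit 0) (nat_lit 1) (nat_lit 0) (nat_lit 1) (nat_lit 0) (nat_lit 361) (nat_lit 402) (nat_lit 317)) (XT.lf (nat_lit 0) (nat_lit 27244390585) (nat_lit 0) (nat_lit 0) (nat_lit 0) (nat_lit 0) (nat_lit 0) (nat_lit 0) (nat_lit 1) (nat_lit 0) (nat_lit 1) (nat_lit 0) (nat_lit 362) (nat_lit 402) (nat_lit 316))) (XT.nd (nat_lit 94) (nat_lit 0) (nat_lit 0) (XT.lf (nat_lit 0) (nat_lit 27241699540) (nat_lit 0) (nat_lit 0) (nat_lit 0) (nat_lit 0) (nat_lit 0) (nat_lit 0) (nat_lit 1) (nat_lit 0) (nat_lit 1) (nat_lit 0) (nat_lit 363) (nat_lit 402) (nat_lit 315)) (XT.nd (nat_lit 94) (nat_lit 0) (nat_lit 0) (XT.lf (nat_lit 0) (nat_lit 27239207833)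 (nat_lit 0) (nat_lit 0) (nat_lit 0) (nat_lit 0) (nat_lit 0) (nat_lit 0) (nat_lit 1) (nat_lit 0) (nat_lit 1) (nat_lit 0) (nat_lit 364) (nat_lit 402) (nat_lit 314)) (XT.lf (nat_lit 0) (nat_lit 27236900696) (nat_lit 0) (nat_lit 0) (nat_lit 0) (nat_lit 0) (nat_lit 0) (nat_lit 0) (nat_lit 1) (nat_lit 0) (nat_lit 1) (nat_lit 0) (nat_lit 365) (nat_lit 402) (nat_lit 313))))) (XT.nd (nat_lit 188) (nat_lit 0) (nat_lit 0) (XT.nd (nat_lit 94) (nat_lit 0) (nat_lit 0) (XT.lf (nat_lit 0) (nat_lit 27234764458) (nat_lit 0) (nat_lit 0) (nat_lit 0) (nat_lit 0) (nat_lit 0) (nat_lit 0) (nat_lit 1) (nat_lit 0) (nat_lit 1) (nat_lit 0) (nat_lit 366) (nat_lit 402) (nat_lit 312)) (XT.lf (nat_lit 0) (nat_lit 27232786460) (nat_lit 0) (nat_lit 0) (nat_lit 0) (nat_lit 0) (nat_lit 0) (nat_lit 0) (nat_lit 1) (nat_lit 0) (nat_lit 1) (nat_lit 0) (nat_lit 367) (nat_lit 402) (nat_lit 311)))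 (XT.nd (nat_lit 94) (nat_lit 0) (nat_lit 0) (XT.lf (nat_lit 0) (nat_lit 27230954981) (nat_lit 0) (nat_lit 0) (nat_lit 0) (nat_lit 0) (nat_lit 0) (nat_lit 0) (nat_lit 1) (nat_lit 0) (nat_lit 1) (nat_lit 0) (nat_lit 368) (nat_lit 402) (nat_lit 310)) (XT.nd (nat_lit 94) (nat_lit 0) (nat_lit 0) (XT.lf (nat_lit 0) (nat_lit 27229259166) (nat_lit 0) (nat_lit 0) (nat_lit 0) (nat_lit 0) (nat_lit 0) (nat_lit 0) (nat_lit 1) (nat_lit 0) (nat_lit 1) (nat_lit 0) (nat_lit 369) (nat_lit 402) (nat_lit 309)) (XT.lf (nat_lit 0) (nat_lit 27227688968) (nat_lit 0) (nat_lit 0) (nat_lit 0) (nat_lit 0) (nat_lit 0) (nat_lit 0) (nat_lit 1) (nat_lit 0) (nat_lit 1) (nat_lit 0) (nat_lit 370) (nat_lit 402) (nat_lit 308))))))))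
noncomputable def ec161 : XT := (XT.nd (nat_lit 1786) (nat_lit 0) (nat_lit 0) (XT.nd (nat_lit 846) (nat_lit 0) (nat_lit 0) (XT.nd (nat_lit 376) (nat_lit 0) (nat_lit 0) (XT.nd (nat_lit 188) (nat_lit 0) (nat_lit 0) (XT.nd (nat_lit 94) (nat_lit 0) (nat_lit 0) (XT.lf (nat_lit 0) (nat_lit 27226235080) (nat_lit 0) (nat_lit 0) (nat_lit 0) (nat_lit 0) (nat_lit 0) (nat_lit 0) (nat_lit 1) (nat_lit 0) (nat_lit 1) (nat_lit 0) (nat_lit 371) (nat_lit 402) (nat_lit 307)) (XT.lf (nat_lit 0) (nat_lit 27224888888) (nat_lit 0) (nat_lit 0) (nat_lit 0) (nat_lit 0) (nat_lit 0) (nat_lit 0) (nat_lit 1) (nat_lit 0) (nat_lit 1) (nat_lit 0) (nat_lit 372) (nat_lit 402) (nat_lit 306))) (XT.nd (nat_lit 94) (nat_lit 0) (nat_lit 0) (XT.lf (nat_lit 0) (nat_lit 27223642414) (nat_lit 0) (nat_lit 0) (nat_lit 0) (nat_lit 0) (nat_lit 0) (nat_lit 0) (nat_lit 1) (nat_lit 0) (nat_lit 1) (nat_lit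 0) (nat_lit 373) (nat_lit 402) (nat_lit 305)) (XT.lf (nat_lit 0) (nat_lit 27222488271) (nat_lit 0) (nat_lit 0) (nat_lit 0) (nat_lit 0) (nat_lit 0) (nat_lit 0) (nat_lit 1) (nat_lit 0) (nat_lit 1) (nat_lit 0) (nat_lit 374) (nat_lit 402) (nat_lit 304)))) (XT.nd (nat_lit 188) (nat_lit 0) (nat_lit 0) (XT.nd (nat_lit 94) (nat_lit 0) (nat_lit 0) (XT.lf (nat_lit 0) (nat_lit 27221419620) (nat_lit 0) (nat_lit 0) (nat_lit 0) (nat_lit 0) (nat_lit 0) (nat_lit 0) (nat_lit 1) (nat_lit 0) (nat_lit 1) (nat_lit 0) (nat_lit 375) (nat_lit 402) (nat_lit 303)) (XT.lf (nat_lit 0) (nat_lit 27220430129) (nat_lit 0) (nat_lit 0) (nat_lit 0) (nat_lit 0) (nat_lit 0) (nat_lit 0) (nat_lit 1) (nat_lit 0) (nat_lit 1) (nat_lit 0) (nat_lit 376) (nat_lit 402) (nat_lit 302))) (XT.nd (nat_lit 94) (nat_lit 0) (nat_lit 0) (XT.lf (nat_lit 0) (nat_lit 27219513933) (nat_lit 0) (nat_lit 0) (nat_lit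 0) (nat_lit 0) (nat_lit 0) (nat_lit 0) (nat_lit 1) (nat_lit 0) (nat_lit 1) (nat_lit 0) (nat_lit 377) (nat_lit 402) (nat_lit 301)) (XT.nd (nat_lit 94) (nat_lit 0) (nat_lit 0) (XT.lf (nat_lit 0) (nat_lit 27218665603) (nat_lit 0) (nat_lit 0) (nat_lit 0) (nat_lit 0) (nat_lit 0) (nat_lit 0) (nat_lit 1) (nat_lit 0) (nat_lit 1) (nat_lit 0) (nat_lit 378) (nat_lit 402) (nat_lit 300)) (XT.lf (nat_lit 0) (nat_lit 27217880113) (nat_lit 0) (nat_lit 0) (nat_lit 0) (nat_lit 0) (nat_lit 0) (nat_lit 0) (nat_lit 1) (nat_lit 0) (nat_lit 1) (nat_lit 0) (nat_lit 379) (nat_lit 402) (nat_lit 299)))))) (XT.nd (nat_lit 470) (nat_lit 0) (nat_lit 0) (XT.nd (nat_lit 188) (nat_lit 0) (nat_lit 0) (XT.nd (nat_lit 94) (nat_lit 0) (nat_lit 0) (XT.lf (nat_lit 0) (nat_lit 27217152807) (nat_lit 0) (nat_lit 0) (nat_lit 0) (nat_lit 0) (nat_lit 0) (nat_lit 0) (nat_lit 1) (nat_lit 0) (nat_lit 1)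 (nat_lit 0) (nat_lit 380) (nat_lit 402) (nat_lit 298)) (XT.lf (nat_lit 0) (nat_lit 27216479376) (nat_lit 0) (nat_lit 0) (nat_lit 0) (nat_lit 0) (nat_lit 0) (nat_lit 0) (nat_lit 1) (nat_lit 0) (nat_lit 1) (nat_lit 0) (nat_lit 381) (nat_lit 402) (nat_lit 297))) (XT.nd (nat_lit 94) (nat_lit 0) (nat_lit 0) (XT.lf (nat_lit 0) (nat_lit 27215855829) (nat_lit 0) (nat_lit 0) (nat_lit 0) (nat_lit 0) (nat_lit 0) (nat_lit 0) (nat_lit 1) (nat_lit 0) (nat_lit 1) (nat_lit 0) (nat_lit 382) (nat_lit 402) (nat_lit 296)) (XT.nd (nat_lit 94) (nat_lit 0) (nat_lit 0) (XT.lf (nat_lit 0) (nat_lit 27215278470) (nat_lit 0) (nat_lit 0) (nat_lit 0) (nat_lit 0) (nat_lit 0) (nat_lit 0) (nat_lit 1) (nat_lit 0) (nat_lit 1) (nat_lit 0) (nat_lit 383) (nat_lit 402) (nat_lit 295)) (XT.lf (nat_lit 0) (nat_lit 27214743879) (nat_lit 0) (nat_lit 0) (nat_lit 0) (nat_lit 0) (nat_lit 0) (nat_lit 0)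 (nat_lit 1) (nat_lit 0) (nat_lit 1) (nat_lit 0) (nat_lit 384) (nat_lit 402) (nat_lit 294))))) (XT.nd (nat_lit 188) (nat_lit 0) (nat_lit 0) (XT.nd (nat_lit 94) (nat_lit 0) (nat_lit 0) (XT.lf (nat_lit 0) (nat_lit 27214248887) (nat_lit 0) (nat_lit 0) (nat_lit 0) (nat_lit 0) (nat_lit 0) (nat_lit 0) (nat_lit 1) (nat_lit 0) (nat_lit 1) (nat_lit 0) (nat_lit 385) (nat_lit 402) (nat_lit 293)) (XT.lf (nat_lit 0) (nat_lit 27213790561) (nat_lit 0) (nat_lit 0) (nat_lit 0) (nat_lit 0) (nat_lit 0) (nat_lit 0) (nat_lit 1) (nat_lit 0) (nat_lit 1) (nat_lit 0) (nat_lit 386) (nat_lit 402) (nat_lit 292))) (XT.nd (nat_lit 94) (nat_lit 0) (nat_lit 0) (XT.lf (nat_lit 0) (nat_lit 27213366185) (nat_lit 0) (nat_lit 0) (nat_lit 0) (nat_lit 0) (nat_lit 0) (nat_lit 0) (nat_lit 1) (nat_lit 0) (nat_lit 1) (nat_lit 0) (nat_lit 387) (nat_lit 402) (nat_lit 291)) (XT.nd (nat_lit 94) (nat_lit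 0) (nat_lit 0) (XT.lf (nat_lit 0) (nat_lit 27212973244) (nat_lit 0) (nat_lit 0) (nat_lit 0) (nat_lit 0) (nat_lit 0) (nat_lit 0) (nat_lit 1) (nat_lit 0) (nat_lit 1) (nat_lit 0) (nat_lit 388) (nat_lit 402) (nat_lit 290)) (XT.lf (nat_lit 0) (nat_lit 27212609410) (nat_lit 0) (nat_lit 0) (nat_lit 0) (nat_lit 0) (nat_lit 0) (nat_lit 0) (nat_lit 1) (nat_lit 0) (nat_lit 1) (nat_lit 0) (nat_lit 389) (nat_lit 402) (nat_lit 289))))))) (XT.nd (nat_lit 846) (nat_lit 0) (nat_lit 0) (XT.nd (nat_lit 376) (nat_lit 0) (nat_lit 0) (XT.nd (nat_lit 188) (nat_lit 0) (nat_lit 0) (XT.nd (nat_lit 94) (nat_lit 0) (nat_lit 0) (XT.lf (nat_lit 0) (nat_lit 27212272527) (nat_lit 0) (nat_lit 0) (nat_lit 0) (nat_lit 0) (nat_lit 0) (nat_lit 0) (nat_lit 1) (nat_lit 0) (nat_lit 1) (nat_lit 0) (nat_lit 390) (nat_lit 402) (nat_lit 288)) (XT.lf (nat_lit 0) (nat_lit 27211960598) (nat_lit 0) (nat_lit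 0) (nat_lit 0) (nat_lit 0) (nat_lit 0) (nat_lit 0) (nat_lit 1) (nat_lit 0) (nat_lit 1) (nat_lit 0) (nat_lit 391) (nat_lit 402) (nat_lit 287))) (XT.nd (nat_lit 94) (nat_lit 0) (nat_lit 0) (XT.lf (nat_lit 0) (nat_lit 27211671775) (nat_lit 0) (nat_lit 0) (nat_lit 0) (nat_lit 0) (nat_lit 0) (nat_lit 0) (nat_lit 1) (nat_lit 0) (nat_lit 1) (nat_lit 0) (nat_lit 392) (nat_lit 402) (nat_lit 286)) (XT.lf (nat_lit 0) (nat_lit 27211404346) (nat_lit 0) (nat_lit 0) (nat_lit 0) (nat_lit 0) (nat_lit 0) (nat_lit 0) (nat_lit 1) (nat_lit 0) (nat_lit 1) (nat_lit 0) (nat_lit 393) (nat_lit 402) (nat_lit 285)))) (XT.nd (nat_lit 188) (nat_lit 0) (nat_lit 0) (XT.nd (nat_lit 94) (nat_lit 0) (nat_lit 0) (XT.lf (nat_lit 0) (nat_lit 27211156727) (nat_lit 0) (nat_lit 0) (nat_lit 0) (nat_lit 0) (nat_lit 0) (nat_lit 0) (nat_lit 1) (nat_lit 0) (nat_lit 1) (nat_lit 0) (nat_lit 394) (nat_lit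 402) (nat_lit 284)) (XT.lf (nat_lit 0) (nat_lit 27210927449) (nat_lit 0) (nat_lit 0) (nat_lit 0) (nat_lit 0) (nat_lit 0) (nat_lit 0) (nat_lit 1) (nat_lit 0) (nat_lit 1) (nat_lit 0) (nat_lit 395) (nat_lit 402) (nat_lit 283))) (XT.nd (nat_lit 94) (nat_lit 0) (nat_lit 0) (XT.lf (nat_lit 0) (nat_lit 27210715156) (nat_lit 0) (nat_lit 0) (nat_lit 0) (nat_lit 0) (nat_lit 0) (nat_lit 0) (nat_lit 1) (nat_lit 0) (nat_lit 1) (nat_lit 0) (nat_lit 396) (nat_lit 402) (nat_lit 282)) (XT.nd (nat_lit 94) (nat_lit 0) (nat_lit 0) (XT.lf (nat_lit 0) (nat_lit 27210518588) (nat_lit 0) (nat_lit 0) (nat_lit 0) (nat_lit 0) (nat_lit 0) (nat_lit 0) (nat_lit 1) (nat_lit 0) (nat_lit 1) (nat_lit 0) (nat_lit 397) (nat_lit 402) (nat_lit 281)) (XT.lf (nat_lit 0) (nat_lit 27210336580) (nat_lit 0) (nat_lit 0) (nat_lit 0) (nat_lit 0) (nat_lit 0) (nat_lit 0) (nat_lit 1) (nat_lit 0) (nat_lit 1)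 (nat_lit 0) (nat_lit 398) (nat_lit 402) (nat_lit 280)))))) (XT.nd (nat_lit 470) (nat_lit 0) (nat_lit 0) (XT.nd (nat_lit 188) (nat_lit 0) (nat_lit 0) (XT.nd (nat_lit 94) (nat_lit 0) (nat_lit 0) (XT.lf (nat_lit 0) (nat_lit 27210168055) (nat_lit 0) (nat_lit 0) (nat_lit 0) (nat_lit 0) (nat_lit 0) (nat_lit 0) (nat_lit 1) (nat_lit 0) (nat_lit 1) (nat_lit 0) (nat_lit 399) (nat_lit 402) (nat_lit 279)) (XT.lf (nat_lit 0) (nat_lit 27210012012) (nat_lit 0) (nat_lit 0) (nat_lit 0) (nat_lit 0) (nat_lit 0) (nat_lit 0) (nat_lit 1) (nat_lit 0) (nat_lit 1) (nat_lit 0) (nat_lit 400) (nat_lit 402) (nat_lit 278))) (XT.nd (nat_lit 94) (nat_lit 0) (nat_lit 0) (XT.lf (nat_lit 0) (nat_lit 27209867529) (nat_lit 0) (nat_lit 0) (nat_lit 0) (nat_lit 0) (nat_lit 0) (nat_lit 0) (nat_lit 1) (nat_lit 0) (nat_lit 1) (nat_lit 0) (nat_lit 401) (nat_lit 402) (nat_lit 277)) (XT.nd (nat_lit 94)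 (nat_lit 0) (nat_lit 0) (XT.lf (nat_lit 0) (nat_lit 27209733748) (nat_lit 0) (nat_lit 0) (nat_lit 0) (nat_lit 0) (nat_lit 0) (nat_lit 0) (nat_lit 1) (nat_lit 0) (nat_lit 1) (nat_lit 0) (nat_lit 402) (nat_lit 402) (nat_lit 276)) (XT.lf (nat_lit 0) (nat_lit 27209609877) (nat_lit 0) (nat_lit 0) (nat_lit 0) (nat_lit 0) (nat_lit 0) (nat_lit 0) (nat_lit 1) (nat_lit 0) (nat_lit 1) (nat_lit 0) (nat_lit 403) (nat_lit 402) (nat_lit 275))))) (XT.nd (nat_lit 188) (nat_lit 0) (nat_lit 0) (XT.nd (nat_lit 94) (nat_lit 0) (nat_lit 0) (XT.lf (nat_lit 0) (nat_lit 27209495181) (nat_lit 0) (nat_lit 0) (nat_lit 0) (nat_lit 0) (nat_lit 0) (nat_lit 0) (nat_lit 1) (nat_lit 0) (nat_lit 1) (nat_lit 0) (nat_lit 404) (nat_lit 402) (nat_lit 274)) (XT.lf (nat_lit 0) (nat_lit 27209388981) (nat_lit 0) (nat_lit 0) (nat_lit 0) (nat_lit 0) (nat_lit 0) (nat_lit 0) (nat_lit 1) (nat_lit 0) (nat_lit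 1) (nat_lit 0) (nat_lit 405) (nat_lit 402) (nat_lit 273))) (XT.nd (nat_lit 94) (nat_lit 0) (nat_lit 0) (XT.lf (nat_lit 0) (nat_lit 27209290648) (nat_lit 0) (nat_lit 0) (nat_lit 0) (nat_lit 0) (nat_lit 0) (nat_lit 0) (nat_lit 1) (nat_lit 0) (nat_lit 1) (nat_lit 0) (nat_lit 406) (nat_lit 402) (nat_lit 272)) (XT.nd (nat_lit 94) (nat_lit 0) (nat_lit 0) (XT.lf (nat_lit 0) (nat_lit 27209199599) (nat_lit 0) (nat_lit 0) (nat_lit 0) (nat_lit 0) (nat_lit 0) (nat_lit 0) (nat_lit 1) (nat_lit 0) (nat_lit 1) (nat_lit 0) (nat_lit 407) (nat_lit 402) (nat_lit 271)) (XT.lf (nat_lit 0) (nat_lit 27209115295) (nat_lit 0) (nat_lit 0) (nat_lit 0) (nat_lit 0) (nat_lit 0) (nat_lit 0) (nat_lit 1) (nat_lit 0) (nat_lit 1) (nat_lit 0) (nat_lit 408) (nat_lit 402) (nat_lit 270))))))))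
noncomputable def ec162 : XT := (XT.nd (nat_lit 1692) (nat_lit 0) (nat_lit 0) (XT.nd (nat_lit 846) (nat_lit 0) (nat_lit 0) (XT.nd (nat_lit 376) (nat_lit 0) (nat_lit 0) (XT.nd (nat_lit 188) (nat_lit 0) (nat_lit 0) (XT.nd (nat_lit 94) (nat_lit 0) (nat_lit 0) (XT.lf (nat_lit 0) (nat_lit 27209037235) (nat_lit 0) (nat_lit 0) (nat_lit 0) (nat_lit 0) (nat_lit 0) (nat_lit 0) (nat_lit 1) (nat_lit 0) (nat_lit 1) (nat_lit 0) (nat_lit 409) (nat_lit 402) (nat_lit 269)) (XT.lf (nat_lit 0) (nat_lit 27208964957) (nat_lit 0) (nat_lit 0) (nat_lit 0) (nat_lit 0) (nat_lit 0) (nat_lit 0) (nat_lit 1) (nat_lit 0) (nat_lit 1) (nat_lit 0) (nat_lit 410) (nat_lit 402) (nat_lit 268))) (XT.nd (nat_lit 94) (nat_lit 0) (nat_lit 0) (XT.lf (nat_lit 0) (nat_lit 27208898033) (nat_lit 0) (nat_lit 0) (nat_lit 0) (nat_lit 0) (nat_lit 0) (nat_lit 0) (nat_lit 1) (nat_lit 0) (nat_lit 1) (nat_lit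 0) (nat_lit 411) (nat_lit 402) (nat_lit 267)) (XT.lf (nat_lit 0) (nat_lit 27208836067) (nat_lit 0) (nat_lit 0) (nat_lit 0) (nat_lit 0) (nat_lit 0) (nat_lit 0) (nat_lit 1) (nat_lit 0) (nat_lit 1) (nat_lit 0) (nat_lit 412) (nat_lit 402) (nat_lit 266)))) (XT.nd (nat_lit 188) (nat_lit 0) (nat_lit 0) (XT.nd (nat_lit 94) (nat_lit 0) (nat_lit 0) (XT.lf (nat_lit 0) (nat_lit 27208778690) (nat_lit 0) (nat_lit 0) (nat_lit 0) (nat_lit 0) (nat_lit 0) (nat_lit 0) (nat_lit 1) (nat_lit 0) (nat_lit 1) (nat_lit 0) (nat_lit 413) (nat_lit 402) (nat_lit 265)) (XT.lf (nat_lit 0) (nat_lit 27208725564) (nat_lit 0) (nat_lit 0) (nat_lit 0) (nat_lit 0) (nat_lit 0) (nat_lit 0) (nat_lit 1) (nat_lit 0) (nat_lit 1) (nat_lit 0) (nat_lit 414) (nat_lit 402) (nat_lit 264))) (XT.nd (nat_lit 94) (nat_lit 0) (nat_lit 0) (XT.lf (nat_lit 0) (nat_lit 27208676373) (nat_lit 0) (nat_lit 0) (nat_lit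 0) (nat_lit 0) (nat_lit 0) (nat_lit 0) (nat_lit 1) (nat_lit 0) (nat_lit 1) (nat_lit 0) (nat_lit 415) (nat_lit 402) (nat_lit 263)) (XT.nd (nat_lit 94) (nat_lit 0) (nat_lit 0) (XT.lf (nat_lit 0) (nat_lit 27208630826) (nat_lit 0) (nat_lit 0) (nat_lit 0) (nat_lit 0) (nat_lit 0) (nat_lit 0) (nat_lit 1) (nat_lit 0) (nat_lit 1) (nat_lit 0) (nat_lit 416) (nat_lit 402) (nat_lit 262)) (XT.lf (nat_lit 0) (nat_lit 27208588653) (nat_lit 0) (nat_lit 0) (nat_lit 0) (nat_lit 0) (nat_lit 0) (nat_lit 0) (nat_lit 1) (nat_lit 0) (nat_lit 1) (nat_lit 0) (nat_lit 417) (nat_lit 402) (nat_lit 261)))))) (XT.nd (nat_lit 376) (nat_lit 0) (nat_lit 0) (XT.nd (nat_lit 188) (nat_lit 0) (nat_lit 0) (XT.nd (nat_lit 94) (nat_lit 0) (nat_lit 0) (XT.lf (nat_lit 0) (nat_lit 27208549603) (nat_lit 0) (nat_lit 0) (nat_lit 0) (nat_lit 0) (nat_lit 0) (nat_lit 0) (nat_lit 1) (nat_lit 0) (nat_lit 1)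 (nat_lit 0) (nat_lit 418) (nat_lit 402) (nat_lit 260)) (XT.lf (nat_lit 0) (nat_lit 27208513446) (nat_lit 0) (nat_lit 0) (nat_lit 0) (nat_lit 0) (nat_lit 0) (nat_lit 0) (nat_lit 1) (nat_lit 0) (nat_lit 1) (nat_lit 0) (nat_lit 419) (nat_lit 402) (nat_lit 259))) (XT.nd (nat_lit 94) (nat_lit 0) (nat_lit 0) (XT.lf (nat_lit 0) (nat_lit 27208479968) (nat_lit 0) (nat_lit 0) (nat_lit 0) (nat_lit 0) (nat_lit 0) (nat_lit 0) (nat_lit 1) (nat_lit 0) (nat_lit 1) (nat_lit 0) (nat_lit 420) (nat_lit 402) (nat_lit 258)) (XT.lf (nat_lit 0) (nat_lit 27208448969) (nat_lit 0) (nat_lit 0) (nat_lit 0) (nat_lit 0) (nat_lit 0) (nat_lit 0) (nat_lit 1) (nat_lit 0) (nat_lit 1) (nat_lit 0) (nat_lit 421) (nat_lit 402) (nat_lit 257)))) (XT.nd (nat_lit 188) (nat_lit 0) (nat_lit 0) (XT.nd (nat_lit 94) (nat_lit 0) (nat_lit 0) (XT.lf (nat_lit 0) (nat_lit 27208420267) (nat_lit 0) (nat_lit 0)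 (nat_lit 0) (nat_lit 0) (nat_lit 0) (nat_lit 0) (nat_lit 1) (nat_lit 0) (nat_lit 1) (nat_lit 0) (nat_lit 422) (nat_lit 402) (nat_lit 256)) (XT.lf (nat_lit 0) (nat_lit 27208393690) (nat_lit 0) (nat_lit 0) (nat_lit 0) (nat_lit 0) (nat_lit 0) (nat_lit 0) (nat_lit 1) (nat_lit 0) (nat_lit 1) (nat_lit 0) (nat_lit 423) (nat_lit 402) (nat_lit 255))) (XT.nd (nat_lit 94) (nat_lit 0) (nat_lit 0) (XT.lf (nat_lit 0) (nat_lit 27208369082) (nat_lit 0) (nat_lit 0) (nat_lit 0) (nat_lit 0) (nat_lit 0) (nat_lit 0) (nat_lit 1) (nat_lit 0) (nat_lit 1) (nat_lit 0) (nat_lit 424) (nat_lit 402) (nat_lit 254)) (XT.nd (nat_lit 94) (nat_lit 0) (nat_lit 0) (XT.lf (nat_lit 0) (nat_lit 27208346298) (nat_lit 0) (nat_lit 0) (nat_lit 0) (nat_lit 0) (nat_lit 0) (nat_lit 0) (nat_lit 1) (nat_lit 0) (nat_lit 1) (nat_lit 0) (nat_lit 425) (nat_lit 402) (nat_lit 253)) (XT.lf (nat_lit 0) (nat_lit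 27208325200) (nat_lit 0) (nat_lit 0) (nat_lit 0) (nat_lit 0) (nat_lit 0) (nat_lit 0) (nat_lit 1) (nat_lit 0) (nat_lit 1) (nat_lit 0) (nat_lit 426) (nat_lit 402) (nat_lit 252))))))) (XT.nd (nat_lit 846) (nat_lit 0) (nat_lit 0) (XT.nd (nat_lit 376) (nat_lit 0) (nat_lit 0) (XT.nd (nat_lit 188) (nat_lit 0) (nat_lit 0) (XT.nd (nat_lit 94) (nat_lit 0) (nat_lit 0) (XT.lf (nat_lit 0) (nat_lit 27208305666) (nat_lit 0) (nat_lit 0) (nat_lit 0) (nat_lit 0) (nat_lit 0) (nat_lit 0) (nat_lit 1) (nat_lit 0) (nat_lit 1) (nat_lit 0) (nat_lit 427) (nat_lit 402) (nat_lit 251)) (XT.lf (nat_lit 0) (nat_lit 27208287579) (nat_lit 0) (nat_lit 0) (nat_lit 0) (nat_lit 0) (nat_lit 0) (nat_lit 0) (nat_lit 1) (nat_lit 0) (nat_lit 1) (nat_lit 0) (nat_lit 428) (nat_lit 402) (nat_lit 250))) (XT.nd (nat_lit 94) (nat_lit 0) (nat_lit 0) (XT.lf (nat_lit 0) (nat_lit 27208270831) (nat_lit 0) (nat_lit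 0) (nat_lit 0) (nat_lit 0) (nat_lit 0) (nat_lit 0) (nat_lit 1) (nat_lit 0) (nat_lit 1) (nat_lit 0) (nat_lit 429) (nat_lit 402) (nat_lit 249)) (XT.lf (nat_lit 0) (nat_lit 27208255324) (nat_lit 0) (nat_lit 0) (nat_lit 0) (nat_lit 0) (nat_lit 0) (nat_lit 0) (nat_lit 1) (nat_lit 0) (nat_lit 1) (nat_lit 0) (nat_lit 430) (nat_lit 402) (nat_lit 248)))) (XT.nd (nat_lit 188) (nat_lit 0) (nat_lit 0) (XT.nd (nat_lit 94) (nat_lit 0) (nat_lit 0) (XT.lf (nat_lit 0) (nat_lit 27208240965) (nat_lit 0) (nat_lit 0) (nat_lit 0) (nat_lit 0) (nat_lit 0) (nat_lit 0) (nat_lit 1) (nat_lit 0) (nat_lit 1) (nat_lit 0) (nat_lit 431) (nat_lit 402) (nat_lit 247)) (XT.lf (nat_lit 0) (nat_lit 27208227671) (nat_lit 0) (nat_lit 0) (nat_lit 0) (nat_lit 0) (nat_lit 0) (nat_lit 0) (nat_lit 1) (nat_lit 0) (nat_lit 1) (nat_lit 0) (nat_lit 432) (nat_lit 402) (nat_lit 246))) (XT.nd (nat_lit 94) (nat_lit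 0) (nat_lit 0) (XT.lf (nat_lit 0) (nat_lit 27208215361) (nat_lit 0) (nat_lit 0) (nat_lit 0) (nat_lit 0) (nat_lit 0) (nat_lit 0) (nat_lit 1) (nat_lit 0) (nat_lit 1) (nat_lit 0) (nat_lit 433) (nat_lit 402) (nat_lit 245)) (XT.nd (nat_lit 94) (nat_lit 0) (nat_lit 0) (XT.lf (nat_lit 0) (nat_lit 27208203963) (nat_lit 0) (nat_lit 0) (nat_lit 0) (nat_lit 0) (nat_lit 0) (nat_lit 0) (nat_lit 1) (nat_lit 0) (nat_lit 1) (nat_lit 0) (nat_lit 434) (nat_lit 402) (nat_lit 244)) (XT.lf (nat_lit 0) (nat_lit 27208193409) (nat_lit 0) (nat_lit 0) (nat_lit 0) (nat_lit 0) (nat_lit 0) (nat_lit 0) (nat_lit 1) (nat_lit 0) (nat_lit 1) (nat_lit 0) (nat_lit 435) (nat_lit 402) (nat_lit 243)))))) (XT.nd (nat_lit 52546) (nat_lit 0) (nat_lit 10752) (XT.nd (nat_lit 188) (nat_lit 0) (nat_lit 0) (XT.nd (nat_lit 94) (nat_lit 0) (nat_lit 0) (XT.lf (nat_lit 0) (nat_lit 27208183637) (nat_lit 0)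 (nat_lit 0) (nat_lit 0) (nat_lit 0) (nat_lit 0) (nat_lit 0) (nat_lit 1) (nat_lit 0) (nat_lit 1) (nat_lit 0) (nat_lit 436) (nat_lit 402) (nat_lit 242)) (XT.lf (nat_lit 0) (nat_lit 27208174588) (nat_lit 0) (nat_lit 0) (nat_lit 0) (nat_lit 0) (nat_lit 0) (nat_lit 0) (nat_lit 1) (nat_lit 0) (nat_lit 1) (nat_lit 0) (nat_lit 437) (nat_lit 402) (nat_lit 241))) (XT.nd (nat_lit 94) (nat_lit 0) (nat_lit 0) (XT.lf (nat_lit 0) (nat_lit 27208166210) (nat_lit 0) (nat_lit 0) (nat_lit 0) (nat_lit 0) (nat_lit 0) (nat_lit 0) (nat_lit 1) (nat_lit 0) (nat_lit 1) (nat_lit 0) (nat_lit 438) (nat_lit 402) (nat_lit 240)) (XT.nd (nat_lit 94) (nat_lit 0) (nat_lit 0) (XT.lf (nat_lit 0) (nat_lit 27208158453) (nat_lit 0) (nat_lit 0) (nat_lit 0) (nat_lit 0) (nat_lit 0) (nat_lit 0) (nat_lit 1) (nat_lit 0) (nat_lit 1) (nat_lit 0) (nat_lit 439) (nat_lit 402) (nat_lit 239)) (XT.lf (nat_lit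 0) (nat_lit 27208151270) (nat_lit 0) (nat_lit 0) (nat_lit 0) (nat_lit 0) (nat_lit 0) (nat_lit 0) (nat_lit 1) (nat_lit 0) (nat_lit 1) (nat_lit 0) (nat_lit 440) (nat_lit 402) (nat_lit 238))))) (XT.nd (nat_lit 188) (nat_lit 0) (nat_lit 84) (XT.nd (nat_lit 94) (nat_lit 0) (nat_lit 84) (XT.lf (nat_lit 924) (nat_lit 14705207765) (nat_lit 0) (nat_lit 26109062586) (nat_lit 924) (nat_lit 14705207765) (nat_lit 139) (nat_lit 1) (nat_lit 128) (nat_lit 0) (nat_lit 139) (nat_lit 0) (nat_lit 274) (nat_lit 403) (nat_lit 403)) (XT.lf (nat_lit 924) (nat_lit 5485493713) (nat_lit 0) (nat_lit 51260002895) (nat_lit 840) (nat_lit 50132111575) (nat_lit 140) (nat_lit 1) (nat_lit 129) (nat_lit 1) (nat_lit 139) (nat_lit 1) (nat_lit 275) (nat_lit 403) (nat_lit 402))) (XT.nd (nat_lit 94) (nat_lit 0) (nat_lit 84) (XT.lf (nat_lit 924) (nat_lit 50381093483) (nat_lit 84) (nat_lit 34328841217)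 (nat_lit 0) (nat_lit 18206451433) (nat_lit 140) (nat_lit 1) (nat_lit 130) (nat_lit 1) (nat_lit 129) (nat_lit 1) (nat_lit 276) (nat_lit 403) (nat_lit 401)) (XT.nd (nat_lit 94) (nat_lit 0) (nat_lit 84) (XT.lf (nat_lit 924) (nat_lit 43533392048) (nat_lit 84) (nat_lit 14386979409) (nat_lit 0) (nat_lit 41233022226) (nat_lit 141) (nat_lit 1) (nat_lit 131) (nat_lit 1) (nat_lit 130) (nat_lit 1) (nat_lit 277) (nat_lit 403) (nat_lit 400)) (XT.lf (nat_lit 924) (nat_lit 32218411196) (nat_lit 0) (nat_lit 60279124449) (nat_lit 840) (nat_lit 3081460229) (nat_lit 142) (nat_lit 1) (nat_lit 131) (nat_lit 1) (nat_lit 141) (nat_lit 1) (nat_lit 278) (nat_lit 403) (nat_lit 399))))))))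
noncomputable def ec163 : XT := (XT.nd (nat_lit 1786) (nat_lit 3192) (nat_lit 0) (XT.nd (nat_lit 846) (nat_lit 2940) (nat_lit 0) (XT.nd (nat_lit 376) (nat_lit 1596) (nat_lit 0) (XT.nd (nat_lit 188) (nat_lit 1344) (nat_lit 0) (XT.nd (nat_lit 94) (nat_lit 0) (nat_lit 0) (XT.lf (nat_lit 924) (nat_lit 7730491873) (nat_lit 0) (nat_lit 66474480895) (nat_lit 840) (nat_lit 17970327813) (nat_lit 143) (nat_lit 1) (nat_lit 132) (nat_lit 1) (nat_lit 142) (nat_lit 1) (nat_lit 279) (nat_lit 403) (nat_lit 398)) (XT.lf (nat_lit 924) (nat_lit 14854861123) (nat_lit 84) (nat_lit 57771737147) (nat_lit 0) (nat_lit 16303896990) (nat_lit 143) (nat_lit 1) (nat_lit 133) (nat_lit 1) (nat_lit 132) (nat_lit 1) (nat_lit 280) (nat_lit 403) (nat_lit 397))) (XT.nd (nat_lit 94) (nat_lit 588) (nat_lit 0) (XT.lf (nat_lit 924) (nat_lit 3050849738) (nat_lit 0) (nat_lit 43188194971) (nat_lit 840)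 (nat_lit 39603122269) (nat_lit 134) (nat_lit 1) (nat_lit 123) (nat_lit 1) (nat_lit 133) (nat_lit 1) (nat_lit 281) (nat_lit 403) (nat_lit 396)) (XT.lf (nat_lit 84) (nat_lit 21124719107) (nat_lit 0) (nat_lit 9154323853) (nat_lit 588) (nat_lit 52621025097) (nat_lit 117) (nat_lit 1) (nat_lit 116) (nat_lit 1) (nat_lit 123) (nat_lit 1) (nat_lit 282) (nat_lit 403) (nat_lit 395)))) (XT.nd (nat_lit 188) (nat_lit 756) (nat_lit 0) (XT.nd (nat_lit 94) (nat_lit 420) (nat_lit 0) (XT.lf (nat_lit 504) (nat_lit 58217066958) (nat_lit 0) (nat_lit 18950910353) (nat_lit 420) (nat_lit 2929927836) (nat_lit 117) (nat_lit 1) (nat_lit 111) (nat_lit 1) (nat_lit 116) (nat_lit 1) (nat_lit 283) (nat_lit 403) (nat_lit 394)) (XT.lf (nat_lit 504) (nat_lit 42009989902) (nat_lit 0) (nat_lit 8833100949) (nat_lit 420) (nat_lit 26573139381) (nat_lit 112) (nat_lit 1) (nat_lit 106) (nat_lit 1) (nat_lit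 111) (nat_lit 1) (nat_lit 284) (nat_lit 403) (nat_lit 393))) (XT.nd (nat_lit 94) (nat_lit 420) (nat_lit 0) (XT.lf (nat_lit 420) (nat_lit 25562543062) (nat_lit 0) (nat_lit 162631743) (nat_lit 336) (nat_lit 49139409097) (nat_lit 107) (nat_lit 1) (nat_lit 102) (nat_lit 1) (nat_lit 106) (nat_lit 1) (nat_lit 285) (nat_lit 403) (nat_lit 392)) (XT.nd (nat_lit 94) (nat_lit 420) (nat_lit 0) (XT.lf (nat_lit 84) (nat_lit 1885883618) (nat_lit 0) (nat_lit 63601133836) (nat_lit 420) (nat_lit 6943300405) (nat_lit 103) (nat_lit 1) (nat_lit 102) (nat_lit 1) (nat_lit 107) (nat_lit 1) (nat_lit 286) (nat_lit 403) (nat_lit 391)) (XT.lf (nat_lit 84) (nat_lit 48694004181) (nat_lit 0) (nat_lit 8076421616) (nat_lit 420) (nat_lit 13319486034) (nat_lit 98) (nat_lit 1) (nat_lit 97) (nat_lit 1) (nat_lit 102) (nat_lit 1) (nat_lit 287) (nat_lit 403) (nat_lit 390)))))) (XT.nd (nat_lit 470)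 (nat_lit 1344) (nat_lit 0) (XT.nd (nat_lit 188) (nat_lit 924) (nat_lit 0) (XT.nd (nat_lit 94) (nat_lit 336) (nat_lit 0) (XT.lf (nat_lit 84) (nat_lit 24362844229) (nat_lit 0) (nat_lit 24739513106) (nat_lit 420) (nat_lit 18750559539) (nat_lit 94) (nat_lit 1) (nat_lit 93) (nat_lit 1) (nat_lit 98) (nat_lit 1) (nat_lit 288) (nat_lit 403) (nat_lit 389)) (XT.lf (nat_lit 84) (nat_lit 1202495967) (nat_lit 0) (nat_lit 41364081763) (nat_lit 420) (nat_lit 23155258505) (nat_lit 90) (nat_lit 1) (nat_lit 89) (nat_lit 1) (nat_lit 94) (nat_lit 1) (nat_lit 289) (nat_lit 403) (nat_lit 388))) (XT.nd (nat_lit 94) (nat_lit 672) (nat_lit 0) (XT.lf (nat_lit 336) (nat_lit 5430404016) (nat_lit 0) (nat_lit 36723222998) (nat_lit 252) (nat_lit 21520652668) (nat_lit 90) (nat_lit 1) (nat_lit 86) (nat_lit 1) (nat_lit 89) (nat_lit 1) (nat_lit 290) (nat_lit 403) (nat_lit 387)) (XT.nd (nat_lit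 94) (nat_lit 252) (nat_lit 0) (XT.lf (nat_lit 84) (nat_lit 18763505895) (nat_lit 0) (nat_lit 12860623532) (nat_lit 420) (nat_lit 30087181977) (nat_lit 82) (nat_lit 1) (nat_lit 81) (nat_lit 1) (nat_lit 86) (nat_lit 1) (nat_lit 291) (nat_lit 403) (nat_lit 386)) (XT.lf (nat_lit 336) (nat_lit 29050420334) (nat_lit 0) (nat_lit 27289115226) (nat_lit 252) (nat_lit 3492974361) (nat_lit 82) (nat_lit 1) (nat_lit 78) (nat_lit 1) (nat_lit 81) (nat_lit 1) (nat_lit 292) (nat_lit 403) (nat_lit 385))))) (XT.nd (nat_lit 188) (nat_lit 756) (nat_lit 0) (XT.nd (nat_lit 94) (nat_lit 336) (nat_lit 0) (XT.lf (nat_lit 336) (nat_lit 9310519372) (nat_lit 0) (nat_lit 23494810731) (nat_lit 252) (nat_lit 25220581200) (nat_lit 79) (nat_lit 1) (nat_lit 75) (nat_lit 1) (nat_lit 78) (nat_lit 1) (nat_lit 293) (nat_lit 403) (nat_lit 384)) (XT.lf (nat_lit 84) (nat_lit 10611742363) (nat_lit 0)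 (nat_lit 9715972314) (nat_lit 336) (nat_lit 35966629450) (nat_lit 72) (nat_lit 1) (nat_lit 71) (nat_lit 1) (nat_lit 75) (nat_lit 1) (nat_lit 294) (nat_lit 403) (nat_lit 383))) (XT.nd (nat_lit 94) (nat_lit 504) (nat_lit 0) (XT.lf (nat_lit 336) (nat_lit 26405928084) (nat_lit 0) (nat_lit 17569526019) (nat_lit 252) (nat_lit 10650704438) (nat_lit 72) (nat_lit 1) (nat_lit 68) (nat_lit 1) (nat_lit 71) (nat_lit 1) (nat_lit 295) (nat_lit 403) (nat_lit 382)) (XT.nd (nat_lit 94) (nat_lit 336) (nat_lit 0) (XT.lf (nat_lit 252) (nat_lit 6546068562) (nat_lit 0) (nat_lit 15328129927) (nat_lit 168) (nat_lit 31151073726) (nat_lit 69) (nat_lit 1) (nat_lit 66) (nat_lit 1) (nat_lit 68) (nat_lit 1) (nat_lit 296) (nat_lit 403) (nat_lit 381)) (XT.lf (nat_lit 84) (nat_lit 1108945835) (nat_lit 0) (nat_lit 12409344642) (nat_lit 336) (nat_lit 37968149982) (nat_lit 63) (nat_lit 1) (nat_lit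 62) (nat_lit 1) (nat_lit 66) (nat_lit 1) (nat_lit 297) (nat_lit 403) (nat_lit 380))))))) (XT.nd (nat_lit 846) (nat_lit 1596) (nat_lit 0) (XT.nd (nat_lit 376) (nat_lit 840) (nat_lit 0) (XT.nd (nat_lit 188) (nat_lit 336) (nat_lit 0) (XT.nd (nat_lit 94) (nat_lit 252) (nat_lit 0) (XT.lf (nat_lit 252) (nat_lit 19021674122) (nat_lit 0) (nat_lit 11886914460) (nat_lit 168) (nat_lit 19087869740) (nat_lit 63) (nat_lit 1) (nat_lit 60) (nat_lit 1) (nat_lit 62) (nat_lit 1) (nat_lit 298) (nat_lit 403) (nat_lit 379)) (XT.lf (nat_lit 84) (nat_lit 10320365458) (nat_lit 0) (nat_lit 476704150) (nat_lit 252) (nat_lit 37774424263) (nat_lit 58) (nat_lit 1) (nat_lit 57) (nat_lit 1) (nat_lit 60) (nat_lit 1) (nat_lit 299) (nat_lit 403) (nat_lit 378))) (XT.nd (nat_lit 94) (nat_lit 168) (nat_lit 0) (XT.lf (nat_lit 252) (nat_lit 28213886253) (nat_lit 0) (nat_lit 9776744195) (nat_lit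 168) (nat_lit 9197350174) (nat_lit 58) (nat_lit 1) (nat_lit 55) (nat_lit 1) (nat_lit 57) (nat_lit 1) (nat_lit 300) (nat_lit 403) (nat_lit 377)) (XT.lf (nat_lit 252) (nat_lit 8764363679) (nat_lit 0) (nat_lit 9088564858) (nat_lit 168) (nat_lit 28004436602) (nat_lit 56) (nat_lit 1) (nat_lit 53) (nat_lit 1) (nat_lit 55) (nat_lit 1) (nat_lit 301) (nat_lit 403) (nat_lit 376)))) (XT.nd (nat_lit 188) (nat_lit 420) (nat_lit 0) (XT.nd (nat_lit 94) (nat_lit 168) (nat_lit 0) (XT.lf (nat_lit 252) (nat_lit 34791302813) (nat_lit 0) (nat_lit 8683386048) (nat_lit 168) (nat_lit 1101588262) (nat_lit 53) (nat_lit 1) (nat_lit 50) (nat_lit 1) (nat_lit 52) (nat_lit 1) (nat_lit 302) (nat_lit 403) (nat_lit 375)) (XT.lf (nat_lit 252) (nat_lit 15570974698) (nat_lit 0) (nat_lit 8289706100) (nat_lit 168) (nat_lit 19470105700) (nat_lit 51) (nat_lit 1) (nat_lit 48) (nat_lit 1) (nat_lit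 50) (nat_lit 1) (nat_lit 303) (nat_lit 403) (nat_lit 374))) (XT.nd (nat_lit 94) (nat_lit 252) (nat_lit 0) (XT.lf (nat_lit 84) (nat_lit 5333660012) (nat_lit 0) (nat_lit 2931619884) (nat_lit 168) (nat_lit 33871675711) (nat_lit 47) (nat_lit 1) (nat_lit 46) (nat_lit 1) (nat_lit 48) (nat_lit 1) (nat_lit 304) (nat_lit 403) (nat_lit 373)) (XT.nd (nat_lit 94) (nat_lit 84) (nat_lit 0) (XT.lf (nat_lit 252) (nat_lit 20430014302) (nat_lit 0) (nat_lit 8177759784) (nat_lit 168) (nat_lit 12365475818) (nat_lit 47) (nat_lit 1) (nat_lit 44) (nat_lit 1) (nat_lit 46) (nat_lit 1) (nat_lit 305) (nat_lit 403) (nat_lit 372)) (XT.lf (nat_lit 168) (nat_lit 2200022233) (nat_lit 0) (nat_lit 8378616132) (nat_lit 84) (nat_lit 29276847439) (nat_lit 45) (nat_lit 1) (nat_lit 43) (nat_lit 1) (nat_lit 44) (nat_lit 1) (nat_lit 306) (nat_lit 403) (nat_lit 371)))))) (XT.nd (nat_lit 470) (nat_lit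 672) (nat_lit 0) (XT.nd (nat_lit 188) (nat_lit 588) (nat_lit 0) (XT.nd (nat_lit 94) (nat_lit 84) (nat_lit 0) (XT.lf (nat_lit 252) (nat_lit 23748427773) (nat_lit 0) (nat_lit 8569088440) (nat_lit 168) (nat_lit 6451025698) (nat_lit 43) (nat_lit 1) (nat_lit 40) (nat_lit 1) (nat_lit 42) (nat_lit 1) (nat_lit 307) (nat_lit 403) (nat_lit 370)) (XT.lf (nat_lit 168) (nat_lit 5972904705) (nat_lit 0) (nat_lit 8889495292) (nat_lit 84) (nat_lit 22855830215) (nat_lit 41) (nat_lit 1) (nat_lit 39) (nat_lit 1) (nat_lit 40) (nat_lit 1) (nat_lit 308) (nat_lit 403) (nat_lit 369))) (XT.nd (nat_lit 94) (nat_lit 336) (nat_lit 0) (XT.lf (nat_lit 252) (nat_lit 25855235569) (nat_lit 0) (nat_lit 9318238280) (nat_lit 168) (nat_lit 1529202670) (nat_lit 39) (nat_lit 1) (nat_lit 36) (nat_lit 1) (nat_lit 38) (nat_lit 1) (nat_lit 309) (nat_lit 403) (nat_lit 368)) (XT.nd (nat_lit 94) (nat_lit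 252) (nat_lit 0) (XT.lf (nat_lit 168) (nat_lit 8595829305) (nat_lit 0) (nat_lit 9714375377) (nat_lit 84) (nat_lit 17404142428) (nat_lit 37) (nat_lit 1) (nat_lit 35) (nat_lit 1) (nat_lit 36) (nat_lit 1) (nat_lit 310) (nat_lit 403) (nat_lit 367)) (XT.lf (nat_lit 84) (nat_lit 2481098420) (nat_lit 0) (nat_lit 7787506575) (nat_lit 252) (nat_lit 24492918507) (nat_lit 33) (nat_lit 1) (nat_lit 32) (nat_lit 1) (nat_lit 35) (nat_lit 1) (nat_lit 311) (nat_lit 403) (nat_lit 366))))) (XT.nd (nat_lit 188) (nat_lit 336) (nat_lit 0) (XT.nd (nat_lit 94) (nat_lit 252) (nat_lit 0) (XT.lf (nat_lit 168) (nat_lit 10315770706) (nat_lit 0) (nat_lit 10748544119) (nat_lit 84) (nat_lit 12768047857) (nat_lit 33) (nat_lit 1) (nat_lit 31) (nat_lit 1) (nat_lit 32) (nat_lit 1) (nat_lit 312) (nat_lit 403) (nat_lit 365)) (XT.lf (nat_lit 84) (nat_lit 5770111087) (nat_lit 0) (nat_lit 5588742761)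 (nat_lit 252) (nat_lit 21577001000) (nat_lit 29) (nat_lit 1) (nat_lit 28) (nat_lit 1) (nat_lit 31) (nat_lit 1) (nat_lit 313) (nat_lit 403) (nat_lit 364))) (XT.nd (nat_lit 94) (nat_lit 252) (nat_lit 0) (XT.lf (nat_lit 168) (nat_lit 11331897267) (nat_lit 0) (nat_lit 11910261774) (nat_lit 84) (nat_lit 8820093410) (nat_lit 29) (nat_lit 1) (nat_lit 27) (nat_lit 1) (nat_lit 28) (nat_lit 1) (nat_lit 314) (nat_lit 403) (nat_lit 363)) (XT.nd (nat_lit 94) (nat_lit 84) (nat_lit 0) (XT.lf (nat_lit 84) (nat_lit 8494937801) (nat_lit 0) (nat_lit 4047685863) (nat_lit 168) (nat_lit 18674877449) (nat_lit 26) (nat_lit 1) (nat_lit 25) (nat_lit 1) (nat_lit 27) (nat_lit 1) (nat_lit 315) (nat_lit 403) (nat_lit 362)) (XT.lf (nat_lit 168) (nat_lit 11804503978) (nat_lit 0) (nat_lit 13136283877) (nat_lit 84) (nat_lit 5454420755) (nat_lit 26) (nat_lit 1) (nat_lit 24) (nat_lit 1) (nat_lit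 25) (nat_lit 1) (nat_lit 316) (nat_lit 403) (nat_lit 361))))))))
noncomputable def ec164 : XT := (XT.nd (nat_lit 1692) (nat_lit 0) (nat_lit 0) (XT.nd (nat_lit 846) (nat_lit 840) (nat_lit 0) (XT.nd (nat_lit 376) (nat_lit 672) (nat_lit 0) (XT.nd (nat_lit 188) (nat_lit 252) (nat_lit 0) (XT.nd (nat_lit 94) (nat_lit 84) (nat_lit 0) (XT.lf (nat_lit 84) (nat_lit 10745306473) (nat_lit 0) (nat_lit 3019626433) (nat_lit 168) (nat_lit 15833276058) (nat_lit 23) (nat_lit 1) (nat_lit 22) (nat_lit 1) (nat_lit 24) (nat_lit 1) (nat_lit 317) (nat_lit 403) (nat_lit 360)) (XT.lf (nat_lit 168) (nat_lit 11862296314) (nat_lit 0) (nat_lit 14378222548) (nat_lit 84) (nat_lit 2582929483) (nat_lit 23) (nat_lit 1) (nat_lit 21) (nat_lit 1) (nat_lit 22) (nat_lit 1) (nat_lit 318) (nat_lit 403) (nat_lit 359))) (XT.nd (nat_lit 94) (nat_lit 84) (nat_lit 0) (XT.lf (nat_lit 84) (nat_lit 12595791011)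 (nat_lit 0) (nat_lit 2388204621) (nat_lit 168) (nat_lit 13086666520) (nat_lit 20) (nat_lit 1) (nat_lit 19) (nat_lit 1) (nat_lit 21) (nat_lit 1) (nat_lit 319) (nat_lit 403) (nat_lit 358)) (XT.lf (nat_lit 168) (nat_lit 11608328206) (nat_lit 0) (nat_lit 15599591415) (nat_lit 84) (nat_lit 132136101) (nat_lit 20) (nat_lit 1) (nat_lit 18) (nat_lit 1) (nat_lit 19) (nat_lit 1) (nat_lit 320) (nat_lit 403) (nat_lit 357)))) (XT.nd (nat_lit 188) (nat_lit 420) (nat_lit 0) (XT.nd (nat_lit 94) (nat_lit 84) (nat_lit 0) (XT.lf (nat_lit 84) (nat_lit 14108493724) (nat_lit 0) (nat_lit 2060087033) (nat_lit 168) (nat_lit 10459758083) (nat_lit 17) (nat_lit 1) (nat_lit 16) (nat_lit 1) (nat_lit 18) (nat_lit 1) (nat_lit 321) (nat_lit 403) (nat_lit 356)) (XT.lf (nat_lit 0) (nat_lit 1896685333) (nat_lit 0) (nat_lit 14844601121) (nat_lit 168) (nat_lit 9196035019) (nat_lit 15) (nat_lit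 3) (nat_lit 15) (nat_lit 1) (nat_lit 17) (nat_lit 1) (nat_lit 322) (nat_lit 403) (nat_lit 355))) (XT.nd (nat_lit 94) (nat_lit 252) (nat_lit 0) (XT.lf (nat_lit 84) (nat_lit 15335242174) (nat_lit 0) (nat_lit 1960628054) (nat_lit 168) (nat_lit 7969523402) (nat_lit 14) (nat_lit 1) (nat_lit 13) (nat_lit 1) (nat_lit 15) (nat_lit 1) (nat_lit 323) (nat_lit 403) (nat_lit 354)) (XT.nd (nat_lit 94) (nat_lit 168) (nat_lit 0) (XT.lf (nat_lit 0) (nat_lit 3623370673) (nat_lit 0) (nat_lit 14195514337) (nat_lit 168) (nat_lit 6792475732) (nat_lit 12) (nat_lit 3) (nat_lit 12) (nat_lit 1) (nat_lit 14) (nat_lit 1) (nat_lit 324) (nat_lit 403) (nat_lit 353)) (XT.lf (nat_lit 84) (nat_lit 16319389155) (nat_lit 0) (nat_lit 2030334521) (nat_lit 168) (nat_lit 5626836142) (nat_lit 11) (nat_lit 1) (nat_lit 10) (nat_lit 1) (nat_lit 12) (nat_lit 1) (nat_lit 325) (nat_lit 403) (nat_lit 352))))))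 (XT.nd (nat_lit 376) (nat_lit 336) (nat_lit 0) (XT.nd (nat_lit 188) (nat_lit 252) (nat_lit 0) (XT.nd (nat_lit 94) (nat_lit 168) (nat_lit 0) (XT.lf (nat_lit 0) (nat_lit 5094055925) (nat_lit 0) (nat_lit 13726350379) (nat_lit 168) (nat_lit 4536823542) (nat_lit 9) (nat_lit 3) (nat_lit 9) (nat_lit 1) (nat_lit 11) (nat_lit 1) (nat_lit 326) (nat_lit 403) (nat_lit 351)) (XT.lf (nat_lit 84) (nat_lit 17097288197) (nat_lit 0) (nat_lit 2221985902) (nat_lit 168) (nat_lit 3437794134) (nat_lit 8) (nat_lit 1) (nat_lit 7) (nat_lit 1) (nat_lit 9) (nat_lit 1) (nat_lit 327) (nat_lit 403) (nat_lit 350))) (XT.nd (nat_lit 94) (nat_lit 168) (nat_lit 0) (XT.lf (nat_lit 0) (nat_lit 6344072783) (nat_lit 0) (nat_lit 13392454825) (nat_lit 168) (nat_lit 2433823651) (nat_lit 6) (nat_lit 3) (nat_lit 6) (nat_lit 1) (nat_lit 8) (nat_lit 1) (nat_lit 328) (nat_lit 403) (nat_lit 349)) (XT.lf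 (nat_lit 84) (nat_lit 17699503790) (nat_lit 0) (nat_lit 2498289284) (nat_lit 168) (nat_lit 1404786635) (nat_lit 5) (nat_lit 1) (nat_lit 4) (nat_lit 1) (nat_lit 6) (nat_lit 1) (nat_lit 329) (nat_lit 403) (nat_lit 348)))) (XT.nd (nat_lit 188) (nat_lit 0) (nat_lit 0) (XT.nd (nat_lit 94) (nat_lit 252) (nat_lit 0) (XT.lf (nat_lit 0) (nat_lit 7403303432) (nat_lit 0) (nat_lit 13158400141) (nat_lit 168) (nat_lit 484850205) (nat_lit 3) (nat_lit 3) (nat_lit 3) (nat_lit 1) (nat_lit 5) (nat_lit 1) (nat_lit 330) (nat_lit 403) (nat_lit 347)) (XT.lf (nat_lit 0) (nat_lit 29750273664) (nat_lit 0) (nat_lit 0) (nat_lit 0) (nat_lit 0) (nat_lit 0) (nat_lit 0) (nat_lit 1) (nat_lit 0) (nat_lit 1) (nat_lit 0) (nat_lit 331) (nat_lit 403) (nat_lit 346))) (XT.nd (nat_lit 94) (nat_lit 0) (nat_lit 0) (XT.lf (nat_lit 0) (nat_lit 29723194608) (nat_lit 0) (nat_lit 0) (nat_lit 0) (nat_lit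 0) (nat_lit 0) (nat_lit 0) (nat_lit 1) (nat_lit 0) (nat_lit 1) (nat_lit 0) (nat_lit 332) (nat_lit 403) (nat_lit 345)) (XT.nd (nat_lit 94) (nat_lit 0) (nat_lit 0) (XT.lf (nat_lit 0) (nat_lit 29698121408) (nat_lit 0) (nat_lit 0) (nat_lit 0) (nat_lit 0) (nat_lit 0) (nat_lit 0) (nat_lit 1) (nat_lit 0) (nat_lit 1) (nat_lit 0) (nat_lit 333) (nat_lit 403) (nat_lit 344)) (XT.lf (nat_lit 0) (nat_lit 29674905481) (nat_lit 0) (nat_lit 0) (nat_lit 0) (nat_lit 0) (nat_lit 0) (nat_lit 0) (nat_lit 1) (nat_lit 0) (nat_lit 1) (nat_lit 0) (nat_lit 334) (nat_lit 403) (nat_lit 343))))))) (XT.nd (nat_lit 846) (nat_lit 0) (nat_lit 0) (XT.nd (nat_lit 376) (nat_lit 0) (nat_lit 0) (XT.nd (nat_lit 188) (nat_lit 0) (nat_lit 0) (XT.nd (nat_lit 94) (nat_lit 0) (nat_lit 0) (XT.lf (nat_lit 0) (nat_lit 29653409254) (nat_lit 0) (nat_lit 0) (nat_lit 0) (nat_lit 0) (nat_lit 0) (nat_lit 0) (nat_lit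 1) (nat_lit 0) (nat_lit 1) (nat_lit 0) (nat_lit 335) (nat_lit 403) (nat_lit 342)) (XT.lf (nat_lit 0) (nat_lit 29633505339) (nat_lit 0) (nat_lit 0) (nat_lit 0) (nat_lit 0) (nat_lit 0) (nat_lit 0) (nat_lit 1) (nat_lit 0) (nat_lit 1) (nat_lit 0) (nat_lit 336) (nat_lit 403) (nat_lit 341))) (XT.nd (nat_lit 94) (nat_lit 0) (nat_lit 0) (XT.lf (nat_lit 0) (nat_lit 29615075788) (nat_lit 0) (nat_lit 0) (nat_lit 0) (nat_lit 0) (nat_lit 0) (nat_lit 0) (nat_lit 1) (nat_lit 0) (nat_lit 1) (nat_lit 0) (nat_lit 337) (nat_lit 403) (nat_lit 340)) (XT.lf (nat_lit 0) (nat_lit 29598011389) (nat_lit 0) (nat_lit 0) (nat_lit 0) (nat_lit 0) (nat_lit 0) (nat_lit 0) (nat_lit 1) (nat_lit 0) (nat_lit 1) (nat_lit 0) (nat_lit 338) (nat_lit 403) (nat_lit 339)))) (XT.nd (nat_lit 188) (nat_lit 0) (nat_lit 0) (XT.nd (nat_lit 94) (nat_lit 0) (nat_lit 0) (XT.lf (nat_lit 0) (nat_lit 29582211020)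 (nat_lit 0) (nat_lit 0) (nat_lit 0) (nat_lit 0) (nat_lit 0) (nat_lit 0) (nat_lit 1) (nat_lit 0) (nat_lit 1) (nat_lit 0) (nat_lit 339) (nat_lit 403) (nat_lit 338)) (XT.lf (nat_lit 0) (nat_lit 29567581049) (nat_lit 0) (nat_lit 0) (nat_lit 0) (nat_lit 0) (nat_lit 0) (nat_lit 0) (nat_lit 1) (nat_lit 0) (nat_lit 1) (nat_lit 0) (nat_lit 340) (nat_lit 403) (nat_lit 337))) (XT.nd (nat_lit 94) (nat_lit 0) (nat_lit 0) (XT.lf (nat_lit 0) (nat_lit 29554034779) (nat_lit 0) (nat_lit 0) (nat_lit 0) (nat_lit 0) (nat_lit 0) (nat_lit 0) (nat_lit 1) (nat_lit 0) (nat_lit 1) (nat_lit 0) (nat_lit 341) (nat_lit 403) (nat_lit 336)) (XT.nd (nat_lit 94) (nat_lit 0) (nat_lit 0) (XT.lf (nat_lit 0) (nat_lit 29541491936) (nat_lit 0) (nat_lit 0) (nat_lit 0) (nat_lit 0) (nat_lit 0) (nat_lit 0) (nat_lit 1) (nat_lit 0) (nat_lit 1) (nat_lit 0) (nat_lit 342) (nat_lit 403) (nat_lit 335)) (XT.lf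 (nat_lit 0) (nat_lit 29529878193) (nat_lit 0) (nat_lit 0) (nat_lit 0) (nat_lit 0) (nat_lit 0) (nat_lit 0) (nat_lit 1) (nat_lit 0) (nat_lit 1) (nat_lit 0) (nat_lit 343) (nat_lit 403) (nat_lit 334)))))) (XT.nd (nat_lit 470) (nat_lit 0) (nat_lit 0) (XT.nd (nat_lit 188) (nat_lit 0) (nat_lit 0) (XT.nd (nat_lit 94) (nat_lit 0) (nat_lit 0) (XT.lf (nat_lit 0) (nat_lit 29519124727) (nat_lit 0) (nat_lit 0) (nat_lit 0) (nat_lit 0) (nat_lit 0) (nat_lit 0) (nat_lit 1) (nat_lit 0) (nat_lit 1) (nat_lit 0) (nat_lit 344) (nat_lit 403) (nat_lit 333)) (XT.lf (nat_lit 0) (nat_lit 29509167814) (nat_lit 0) (nat_lit 0) (nat_lit 0) (nat_lit 0) (nat_lit 0) (nat_lit 0) (nat_lit 1) (nat_lit 0) (nat_lit 1) (nat_lit 0) (nat_lit 345) (nat_lit 403) (nat_lit 332))) (XT.nd (nat_lit 94) (nat_lit 0) (nat_lit 0) (XT.lf (nat_lit 0) (nat_lit 29499948451) (nat_lit 0) (nat_lit 0) (nat_lit 0) (nat_lit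 0) (nat_lit 0) (nat_lit 0) (nat_lit 1) (nat_lit 0) (nat_lit 1) (nat_lit 0) (nat_lit 346) (nat_lit 403) (nat_lit 331)) (XT.nd (nat_lit 94) (nat_lit 0) (nat_lit 0) (XT.lf (nat_lit 0) (nat_lit 29491412003) (nat_lit 0) (nat_lit 0) (nat_lit 0) (nat_lit 0) (nat_lit 0) (nat_lit 0) (nat_lit 1) (nat_lit 0) (nat_lit 1) (nat_lit 0) (nat_lit 347) (nat_lit 403) (nat_lit 330)) (XT.lf (nat_lit 0) (nat_lit 29483507885) (nat_lit 0) (nat_lit 0) (nat_lit 0) (nat_lit 0) (nat_lit 0) (nat_lit 0) (nat_lit 1) (nat_lit 0) (nat_lit 1) (nat_lit 0) (nat_lit 348) (nat_lit 403) (nat_lit 329))))) (XT.nd (nat_lit 188) (nat_lit 0) (nat_lit 0) (XT.nd (nat_lit 94) (nat_lit 0) (nat_lit 0) (XT.lf (nat_lit 0) (nat_lit 29476189256) (nat_lit 0) (nat_lit 0) (nat_lit 0) (nat_lit 0) (nat_lit 0) (nat_lit 0) (nat_lit 1) (nat_lit 0) (nat_lit 1) (nat_lit 0) (nat_lit 349) (nat_lit 403) (nat_lit 328)) (XT.lf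 (nat_lit 0) (nat_lit 29469412749) (nat_lit 0) (nat_lit 0) (nat_lit 0) (nat_lit 0) (nat_lit 0) (nat_lit 0) (nat_lit 1) (nat_lit 0) (nat_lit 1) (nat_lit 0) (nat_lit 350) (nat_lit 403) (nat_lit 327))) (XT.nd (nat_lit 94) (nat_lit 0) (nat_lit 0) (XT.lf (nat_lit 0) (nat_lit 29463138205) (nat_lit 0) (nat_lit 0) (nat_lit 0) (nat_lit 0) (nat_lit 0) (nat_lit 0) (nat_lit 1) (nat_lit 0) (nat_lit 1) (nat_lit 0) (nat_lit 351) (nat_lit 403) (nat_lit 326)) (XT.nd (nat_lit 94) (nat_lit 0) (nat_lit 0) (XT.lf (nat_lit 0) (nat_lit 29457328442) (nat_lit 0) (nat_lit 0) (nat_lit 0) (nat_lit 0) (nat_lit 0) (nat_lit 0) (nat_lit 1) (nat_lit 0) (nat_lit 1) (nat_lit 0) (nat_lit 352) (nat_lit 403) (nat_lit 325)) (XT.lf (nat_lit 0) (nat_lit 29451949032) (nat_lit 0) (nat_lit 0) (nat_lit 0) (nat_lit 0) (nat_lit 0) (nat_lit 0) (nat_lit 1) (nat_lit 0) (nat_lit 1) (nat_lit 0) (nat_lit 353)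 (nat_lit 403) (nat_lit 324))))))))
noncomputable def ec165 : XT := (XT.nd (nat_lit 1786) (nat_lit 0) (nat_lit 0) (XT.nd (nat_lit 846) (nat_lit 0) (nat_lit 0) (XT.nd (nat_lit 376) (nat_lit 0) (nat_lit 0) (XT.nd (nat_lit 188) (nat_lit 0) (nat_lit 0) (XT.nd (nat_lit 94) (nat_lit 0) (nat_lit 0) (XT.lf (nat_lit 0) (nat_lit 29446968096) (nat_lit 0) (nat_lit 0) (nat_lit 0) (nat_lit 0) (nat_lit 0) (nat_lit 0) (nat_lit 1) (nat_lit 0) (nat_lit 1) (nat_lit 0) (nat_lit 354) (nat_lit 403) (nat_lit 323)) (XT.lf (nat_lit 0) (nat_lit 29442356119) (nat_lit 0) (nat_lit 0) (nat_lit 0) (nat_lit 0) (nat_lit 0) (nat_lit 0) (nat_lit 1) (nat_lit 0) (nat_lit 1) (nat_lit 0) (nat_lit 355) (nat_lit 403) (nat_lit 322))) (XT.nd (nat_lit 94) (nat_lit 0) (nat_lit 0) (XT.lf (nat_lit 0) (nat_lit 29438085770) (nat_lit 0) (nat_lit 0) (nat_lit 0) (nat_lit 0) (nat_lit 0) (nat_lit 0) (nat_lit 1)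 (nat_lit 0) (nat_lit 1) (nat_lit 0) (nat_lit 356) (nat_lit 403) (nat_lit 321)) (XT.lf (nat_lit 0) (nat_lit 29434131743) (nat_lit 0) (nat_lit 0) (nat_lit 0) (nat_lit 0) (nat_lit 0) (nat_lit 0) (nat_lit 1) (nat_lit 0) (nat_lit 1) (nat_lit 0) (nat_lit 357) (nat_lit 403) (nat_lit 320)))) (XT.nd (nat_lit 188) (nat_lit 0) (nat_lit 0) (XT.nd (nat_lit 94) (nat_lit 0) (nat_lit 0) (XT.lf (nat_lit 0) (nat_lit 29430470607) (nat_lit 0) (nat_lit 0) (nat_lit 0) (nat_lit 0) (nat_lit 0) (nat_lit 0) (nat_lit 1) (nat_lit 0) (nat_lit 1) (nat_lit 0) (nat_lit 358) (nat_lit 403) (nat_lit 319)) (XT.lf (nat_lit 0) (nat_lit 29427080666) (nat_lit 0) (nat_lit 0) (nat_lit 0) (nat_lit 0) (nat_lit 0) (nat_lit 0) (nat_lit 1) (nat_lit 0) (nat_lit 1) (nat_lit 0) (nat_lit 359) (nat_lit 403) (nat_lit 318))) (XT.nd (nat_lit 94) (nat_lit 0) (nat_lit 0) (XT.lf (nat_lit 0) (nat_lit 29423941832)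 (nat_lit 0) (nat_lit 0) (nat_lit 0) (nat_lit 0) (nat_lit 0) (nat_lit 0) (nat_lit 1) (nat_lit 0) (nat_lit 1) (nat_lit 0) (nat_lit 360) (nat_lit 403) (nat_lit 317)) (XT.nd (nat_lit 94) (nat_lit 0) (nat_lit 0) (XT.lf (nat_lit 0) (nat_lit 29421035504) (nat_lit 0) (nat_lit 0) (nat_lit 0) (nat_lit 0) (nat_lit 0) (nat_lit 0) (nat_lit 1) (nat_lit 0) (nat_lit 1) (nat_lit 0) (nat_lit 361) (nat_lit 403) (nat_lit 316)) (XT.lf (nat_lit 0) (nat_lit 29418344459) (nat_lit 0) (nat_lit 0) (nat_lit 0) (nat_lit 0) (nat_lit 0) (nat_lit 0) (nat_lit 1) (nat_lit 0) (nat_lit 1) (nat_lit 0) (nat_lit 362) (nat_lit 403) (nat_lit 315)))))) (XT.nd (nat_lit 470) (nat_lit 0) (nat_lit 0) (XT.nd (nat_lit 188) (nat_lit 0) (nat_lit 0) (XT.nd (nat_lit 94) (nat_lit 0) (nat_lit 0) (XT.lf (nat_lit 0) (nat_lit 29415852752) (nat_lit 0) (nat_lit 0) (nat_lit 0) (nat_lit 0) (nat_lit 0) (nat_lit 0) (nat_lit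 1) (nat_lit 0) (nat_lit 1) (nat_lit 0) (nat_lit 363) (nat_lit 403) (nat_lit 314)) (XT.lf (nat_lit 0) (nat_lit 29413545615) (nat_lit 0) (nat_lit 0) (nat_lit 0) (nat_lit 0) (nat_lit 0) (nat_lit 0) (nat_lit 1) (nat_lit 0) (nat_lit 1) (nat_lit 0) (nat_lit 364) (nat_lit 403) (nat_lit 313))) (XT.nd (nat_lit 94) (nat_lit 0) (nat_lit 0) (XT.lf (nat_lit 0) (nat_lit 29411409377) (nat_lit 0) (nat_lit 0) (nat_lit 0) (nat_lit 0) (nat_lit 0) (nat_lit 0) (nat_lit 1) (nat_lit 0) (nat_lit 1) (nat_lit 0) (nat_lit 365) (nat_lit 403) (nat_lit 312)) (XT.nd (nat_lit 94) (nat_lit 0) (nat_lit 0) (XT.lf (nat_lit 0) (nat_lit 29409431379) (nat_lit 0) (nat_lit 0) (nat_lit 0) (nat_lit 0) (nat_lit 0) (nat_lit 0) (nat_lit 1) (nat_lit 0) (nat_lit 1) (nat_lit 0) (nat_lit 366) (nat_lit 403) (nat_lit 311)) (XT.lf (nat_lit 0) (nat_lit 29407599899) (nat_lit 0) (nat_lit 0) (nat_lit 0) (nat_lit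 0) (nat_lit 0) (nat_lit 0) (nat_lit 1) (nat_lit 0) (nat_lit 1) (nat_lit 0) (nat_lit 367) (nat_lit 403) (nat_lit 310))))) (XT.nd (nat_lit 188) (nat_lit 0) (nat_lit 0) (XT.nd (nat_lit 94) (nat_lit 0) (nat_lit 0) (XT.lf (nat_lit 0) (nat_lit 29405904085) (nat_lit 0) (nat_lit 0) (nat_lit 0) (nat_lit 0) (nat_lit 0) (nat_lit 0) (nat_lit 1) (nat_lit 0) (nat_lit 1) (nat_lit 0) (nat_lit 368) (nat_lit 403) (nat_lit 309)) (XT.lf (nat_lit 0) (nat_lit 29404333886) (nat_lit 0) (nat_lit 0) (nat_lit 0) (nat_lit 0) (nat_lit 0) (nat_lit 0) (nat_lit 1) (nat_lit 0) (nat_lit 1) (nat_lit 0) (nat_lit 369) (nat_lit 403) (nat_lit 308))) (XT.nd (nat_lit 94) (nat_lit 0) (nat_lit 0) (XT.lf (nat_lit 0) (nat_lit 29402879999) (nat_lit 0) (nat_lit 0) (nat_lit 0) (nat_lit 0) (nat_lit 0) (nat_lit 0) (nat_lit 1) (nat_lit 0) (nat_lit 1) (nat_lit 0) (nat_lit 370) (nat_lit 403) (nat_lit 307)) (XT.nd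 (nat_lit 94) (nat_lit 0) (nat_lit 0) (XT.lf (nat_lit 0) (nat_lit 29401533807) (nat_lit 0) (nat_lit 0) (nat_lit 0) (nat_lit 0) (nat_lit 0) (nat_lit 0) (nat_lit 1) (nat_lit 0) (nat_lit 1) (nat_lit 0) (nat_lit 371) (nat_lit 403) (nat_lit 306)) (XT.lf (nat_lit 0) (nat_lit 29400287332) (nat_lit 0) (nat_lit 0) (nat_lit 0) (nat_lit 0) (nat_lit 0) (nat_lit 0) (nat_lit 1) (nat_lit 0) (nat_lit 1) (nat_lit 0) (nat_lit 372) (nat_lit 403) (nat_lit 305))))))) (XT.nd (nat_lit 846) (nat_lit 0) (nat_lit 0) (XT.nd (nat_lit 376) (nat_lit 0) (nat_lit 0) (XT.nd (nat_lit 188) (nat_lit 0) (nat_lit 0) (XT.nd (nat_lit 94) (nat_lit 0) (nat_lit 0) (XT.lf (nat_lit 0) (nat_lit 29399133190) (nat_lit 0) (nat_lit 0) (nat_lit 0) (nat_lit 0) (nat_lit 0) (nat_lit 0) (nat_lit 1) (nat_lit 0) (nat_lit 1) (nat_lit 0) (nat_lit 373) (nat_lit 403) (nat_lit 304)) (XT.lf (nat_lit 0) (nat_lit 29398064539)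 (nat_lit 0) (nat_lit 0) (nat_lit 0) (nat_lit 0) (nat_lit 0) (nat_lit 0) (nat_lit 1) (nat_lit 0) (nat_lit 1) (nat_lit 0) (nat_lit 374) (nat_lit 403) (nat_lit 303))) (XT.nd (nat_lit 94) (nat_lit 0) (nat_lit 0) (XT.lf (nat_lit 0) (nat_lit 29397075048) (nat_lit 0) (nat_lit 0) (nat_lit 0) (nat_lit 0) (nat_lit 0) (nat_lit 0) (nat_lit 1) (nat_lit 0) (nat_lit 1) (nat_lit 0) (nat_lit 375) (nat_lit 403) (nat_lit 302)) (XT.lf (nat_lit 0) (nat_lit 29396158852) (nat_lit 0) (nat_lit 0) (nat_lit 0) (nat_lit 0) (nat_lit 0) (nat_lit 0) (nat_lit 1) (nat_lit 0) (nat_lit 1) (nat_lit 0) (nat_lit 376) (nat_lit 403) (nat_lit 301)))) (XT.nd (nat_lit 188) (nat_lit 0) (nat_lit 0) (XT.nd (nat_lit 94) (nat_lit 0) (nat_lit 0) (XT.lf (nat_lit 0) (nat_lit 29395310522) (nat_lit 0) (nat_lit 0) (nat_lit 0) (nat_lit 0) (nat_lit 0) (nat_lit 0) (nat_lit 1) (nat_lit 0) (nat_lit 1) (nat_lit 0)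 (nat_lit 377) (nat_lit 403) (nat_lit 300)) (XT.lf (nat_lit 0) (nat_lit 29394525032) (nat_lit 0) (nat_lit 0) (nat_lit 0) (nat_lit 0) (nat_lit 0) (nat_lit 0) (nat_lit 1) (nat_lit 0) (nat_lit 1) (nat_lit 0) (nat_lit 378) (nat_lit 403) (nat_lit 299))) (XT.nd (nat_lit 94) (nat_lit 0) (nat_lit 0) (XT.lf (nat_lit 0) (nat_lit 29393797726) (nat_lit 0) (nat_lit 0) (nat_lit 0) (nat_lit 0) (nat_lit 0) (nat_lit 0) (nat_lit 1) (nat_lit 0) (nat_lit 1) (nat_lit 0) (nat_lit 379) (nat_lit 403) (nat_lit 298)) (XT.nd (nat_lit 94) (nat_lit 0) (nat_lit 0) (XT.lf (nat_lit 0) (nat_lit 29393124295) (nat_lit 0) (nat_lit 0) (nat_lit 0) (nat_lit 0) (nat_lit 0) (nat_lit 0) (nat_lit 1) (nat_lit 0) (nat_lit 1) (nat_lit 0) (nat_lit 380) (nat_lit 403) (nat_lit 297)) (XT.lf (nat_lit 0) (nat_lit 29392500748) (nat_lit 0) (nat_lit 0) (nat_lit 0) (nat_lit 0) (nat_lit 0) (nat_lit 0) (nat_lit 1)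 (nat_lit 0) (nat_lit 1) (nat_lit 0) (nat_lit 381) (nat_lit 403) (nat_lit 296)))))) (XT.nd (nat_lit 470) (nat_lit 0) (nat_lit 0) (XT.nd (nat_lit 188) (nat_lit 0) (nat_lit 0) (XT.nd (nat_lit 94) (nat_lit 0) (nat_lit 0) (XT.lf (nat_lit 0) (nat_lit 29391923389) (nat_lit 0) (nat_lit 0) (nat_lit 0) (nat_lit 0) (nat_lit 0) (nat_lit 0) (nat_lit 1) (nat_lit 0) (nat_lit 1) (nat_lit 0) (nat_lit 382) (nat_lit 403) (nat_lit 295)) (XT.lf (nat_lit 0) (nat_lit 29391388797) (nat_lit 0) (nat_lit 0) (nat_lit 0) (nat_lit 0) (nat_lit 0) (nat_lit 0) (nat_lit 1) (nat_lit 0) (nat_lit 1) (nat_lit 0) (nat_lit 383) (nat_lit 403) (nat_lit 294))) (XT.nd (nat_lit 94) (nat_lit 0) (nat_lit 0) (XT.lf (nat_lit 0) (nat_lit 29390893805) (nat_lit 0) (nat_lit 0) (nat_lit 0) (nat_lit 0) (nat_lit 0) (nat_lit 0) (nat_lit 1) (nat_lit 0) (nat_lit 1) (nat_lit 0) (nat_lit 384) (nat_lit 403) (nat_lit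 293)) (XT.nd (nat_lit 94) (nat_lit 0) (nat_lit 0) (XT.lf (nat_lit 0) (nat_lit 29390435479) (nat_lit 0) (nat_lit 0) (nat_lit 0) (nat_lit 0) (nat_lit 0) (nat_lit 0) (nat_lit 1) (nat_lit 0) (nat_lit 1) (nat_lit 0) (nat_lit 385) (nat_lit 403) (nat_lit 292)) (XT.lf (nat_lit 0) (nat_lit 29390011104) (nat_lit 0) (nat_lit 0) (nat_lit 0) (nat_lit 0) (nat_lit 0) (nat_lit 0) (nat_lit 1) (nat_lit 0) (nat_lit 1) (nat_lit 0) (nat_lit 386) (nat_lit 403) (nat_lit 291))))) (XT.nd (nat_lit 188) (nat_lit 0) (nat_lit 0) (XT.nd (nat_lit 94) (nat_lit 0) (nat_lit 0) (XT.lf (nat_lit 0) (nat_lit 29389618163) (nat_lit 0) (nat_lit 0) (nat_lit 0) (nat_lit 0) (nat_lit 0) (nat_lit 0) (nat_lit 1) (nat_lit 0) (nat_lit 1) (nat_lit 0) (nat_lit 387) (nat_lit 403) (nat_lit 290)) (XT.lf (nat_lit 0) (nat_lit 29389254329) (nat_lit 0) (nat_lit 0) (nat_lit 0) (nat_lit 0) (nat_lit 0) (nat_lit 0) (nat_lit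 1) (nat_lit 0) (nat_lit 1) (nat_lit 0) (nat_lit 388) (nat_lit 403) (nat_lit 289))) (XT.nd (nat_lit 94) (nat_lit 0) (nat_lit 0) (XT.lf (nat_lit 0) (nat_lit 29388917446) (nat_lit 0) (nat_lit 0) (nat_lit 0) (nat_lit 0) (nat_lit 0) (nat_lit 0) (nat_lit 1) (nat_lit 0) (nat_lit 1) (nat_lit 0) (nat_lit 389) (nat_lit 403) (nat_lit 288)) (XT.nd (nat_lit 94) (nat_lit 0) (nat_lit 0) (XT.lf (nat_lit 0) (nat_lit 29388605517) (nat_lit 0) (nat_lit 0) (nat_lit 0) (nat_lit 0) (nat_lit 0) (nat_lit 0) (nat_lit 1) (nat_lit 0) (nat_lit 1) (nat_lit 0) (nat_lit 390) (nat_lit 403) (nat_lit 287)) (XT.lf (nat_lit 0) (nat_lit 29388316694) (nat_lit 0) (nat_lit 0) (nat_lit 0) (nat_lit 0) (nat_lit 0) (nat_lit 0) (nat_lit 1) (nat_lit 0) (nat_lit 1) (nat_lit 0) (nat_lit 391) (nat_lit 403) (nat_lit 286))))))))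
noncomputable def ec166 : XT := (XT.nd (nat_lit 1692) (nat_lit 0) (nat_lit 0) (XT.nd (nat_lit 846) (nat_lit 0) (nat_lit 0) (XT.nd (nat_lit 376) (nat_lit 0) (nat_lit 0) (XT.nd (nat_lit 188) (nat_lit 0) (nat_lit 0) (XT.nd (nat_lit 94) (nat_lit 0) (nat_lit 0) (XT.lf (nat_lit 0) (nat_lit 29388049265) (nat_lit 0) (nat_lit 0) (nat_lit 0) (nat_lit 0) (nat_lit 0) (nat_lit 0) (nat_lit 1) (nat_lit 0) (nat_lit 1) (nat_lit 0) (nat_lit 392) (nat_lit 403) (nat_lit 285)) (XT.lf (nat_lit 0) (nat_lit 29387801645) (nat_lit 0) (nat_lit 0) (nat_lit 0) (nat_lit 0) (nat_lit 0) (nat_lit 0) (nat_lit 1) (nat_lit 0) (nat_lit 1) (nat_lit 0) (nat_lit 393) (nat_lit 403) (nat_lit 284))) (XT.nd (nat_lit 94) (nat_lit 0) (nat_lit 0) (XT.lf (nat_lit 0) (nat_lit 29387572368) (nat_lit 0) (nat_lit 0) (nat_lit 0) (nat_lit 0) (nat_lit 0) (nat_lit 0) (nat_lit 1) (nat_lit 0) (nat_lit 1) (nat_lit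 0) (nat_lit 394) (nat_lit 403) (nat_lit 283)) (XT.lf (nat_lit 0) (nat_lit 29387360075) (nat_lit 0) (nat_lit 0) (nat_lit 0) (nat_lit 0) (nat_lit 0) (nat_lit 0) (nat_lit 1) (nat_lit 0) (nat_lit 1) (nat_lit 0) (nat_lit 395) (nat_lit 403) (nat_lit 282)))) (XT.nd (nat_lit 188) (nat_lit 0) (nat_lit 0) (XT.nd (nat_lit 94) (nat_lit 0) (nat_lit 0) (XT.lf (nat_lit 0) (nat_lit 29387163507) (nat_lit 0) (nat_lit 0) (nat_lit 0) (nat_lit 0) (nat_lit 0) (nat_lit 0) (nat_lit 1) (nat_lit 0) (nat_lit 1) (nat_lit 0) (nat_lit 396) (nat_lit 403) (nat_lit 281)) (XT.lf (nat_lit 0) (nat_lit 29386981499) (nat_lit 0) (nat_lit 0) (nat_lit 0) (nat_lit 0) (nat_lit 0) (nat_lit 0) (nat_lit 1) (nat_lit 0) (nat_lit 1) (nat_lit 0) (nat_lit 397) (nat_lit 403) (nat_lit 280))) (XT.nd (nat_lit 94) (nat_lit 0) (nat_lit 0) (XT.lf (nat_lit 0) (nat_lit 29386812974) (nat_lit 0) (nat_lit 0) (nat_lit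 0) (nat_lit 0) (nat_lit 0) (nat_lit 0) (nat_lit 1) (nat_lit 0) (nat_lit 1) (nat_lit 0) (nat_lit 398) (nat_lit 403) (nat_lit 279)) (XT.nd (nat_lit 94) (nat_lit 0) (nat_lit 0) (XT.lf (nat_lit 0) (nat_lit 29386656931) (nat_lit 0) (nat_lit 0) (nat_lit 0) (nat_lit 0) (nat_lit 0) (nat_lit 0) (nat_lit 1) (nat_lit 0) (nat_lit 1) (nat_lit 0) (nat_lit 399) (nat_lit 403) (nat_lit 278)) (XT.lf (nat_lit 0) (nat_lit 29386512448) (nat_lit 0) (nat_lit 0) (nat_lit 0) (nat_lit 0) (nat_lit 0) (nat_lit 0) (nat_lit 1) (nat_lit 0) (nat_lit 1) (nat_lit 0) (nat_lit 400) (nat_lit 403) (nat_lit 277)))))) (XT.nd (nat_lit 376) (nat_lit 0) (nat_lit 0) (XT.nd (nat_lit 188) (nat_lit 0) (nat_lit 0) (XT.nd (nat_lit 94) (nat_lit 0) (nat_lit 0) (XT.lf (nat_lit 0) (nat_lit 29386378667) (nat_lit 0) (nat_lit 0) (nat_lit 0) (nat_lit 0) (nat_lit 0) (nat_lit 0) (nat_lit 1) (nat_lit 0) (nat_lit 1)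 (nat_lit 0) (nat_lit 401) (nat_lit 403) (nat_lit 276)) (XT.lf (nat_lit 0) (nat_lit 29386254796) (nat_lit 0) (nat_lit 0) (nat_lit 0) (nat_lit 0) (nat_lit 0) (nat_lit 0) (nat_lit 1) (nat_lit 0) (nat_lit 1) (nat_lit 0) (nat_lit 402) (nat_lit 403) (nat_lit 275))) (XT.nd (nat_lit 94) (nat_lit 0) (nat_lit 0) (XT.lf (nat_lit 0) (nat_lit 29386140100) (nat_lit 0) (nat_lit 0) (nat_lit 0) (nat_lit 0) (nat_lit 0) (nat_lit 0) (nat_lit 1) (nat_lit 0) (nat_lit 1) (nat_lit 0) (nat_lit 403) (nat_lit 403) (nat_lit 274)) (XT.lf (nat_lit 0) (nat_lit 29386033900) (nat_lit 0) (nat_lit 0) (nat_lit 0) (nat_lit 0) (nat_lit 0) (nat_lit 0) (nat_lit 1) (nat_lit 0) (nat_lit 1) (nat_lit 0) (nat_lit 404) (nat_lit 403) (nat_lit 273)))) (XT.nd (nat_lit 188) (nat_lit 0) (nat_lit 0) (XT.nd (nat_lit 94) (nat_lit 0) (nat_lit 0) (XT.lf (nat_lit 0) (nat_lit 29385935567) (nat_lit 0) (nat_lit 0)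 (nat_lit 0) (nat_lit 0) (nat_lit 0) (nat_lit 0) (nat_lit 1) (nat_lit 0) (nat_lit 1) (nat_lit 0) (nat_lit 405) (nat_lit 403) (nat_lit 272)) (XT.lf (nat_lit 0) (nat_lit 29385844518) (nat_lit 0) (nat_lit 0) (nat_lit 0) (nat_lit 0) (nat_lit 0) (nat_lit 0) (nat_lit 1) (nat_lit 0) (nat_lit 1) (nat_lit 0) (nat_lit 406) (nat_lit 403) (nat_lit 271))) (XT.nd (nat_lit 94) (nat_lit 0) (nat_lit 0) (XT.lf (nat_lit 0) (nat_lit 29385760214) (nat_lit 0) (nat_lit 0) (nat_lit 0) (nat_lit 0) (nat_lit 0) (nat_lit 0) (nat_lit 1) (nat_lit 0) (nat_lit 1) (nat_lit 0) (nat_lit 407) (nat_lit 403) (nat_lit 270)) (XT.nd (nat_lit 94) (nat_lit 0) (nat_lit 0) (XT.lf (nat_lit 0) (nat_lit 29385682154) (nat_lit 0) (nat_lit 0) (nat_lit 0) (nat_lit 0) (nat_lit 0) (nat_lit 0) (nat_lit 1) (nat_lit 0) (nat_lit 1) (nat_lit 0) (nat_lit 408) (nat_lit 403) (nat_lit 269)) (XT.lf (nat_lit 0) (nat_lit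 29385609876) (nat_lit 0) (nat_lit 0) (nat_lit 0) (nat_lit 0) (nat_lit 0) (nat_lit 0) (nat_lit 1) (nat_lit 0) (nat_lit 1) (nat_lit 0) (nat_lit 409) (nat_lit 403) (nat_lit 268))))))) (XT.nd (nat_lit 846) (nat_lit 0) (nat_lit 0) (XT.nd (nat_lit 376) (nat_lit 0) (nat_lit 0) (XT.nd (nat_lit 188) (nat_lit 0) (nat_lit 0) (XT.nd (nat_lit 94) (nat_lit 0) (nat_lit 0) (XT.lf (nat_lit 0) (nat_lit 29385542952) (nat_lit 0) (nat_lit 0) (nat_lit 0) (nat_lit 0) (nat_lit 0) (nat_lit 0) (nat_lit 1) (nat_lit 0) (nat_lit 1) (nat_lit 0) (nat_lit 410) (nat_lit 403) (nat_lit 267)) (XT.lf (nat_lit 0) (nat_lit 29385480986) (nat_lit 0) (nat_lit 0) (nat_lit 0) (nat_lit 0) (nat_lit 0) (nat_lit 0) (nat_lit 1) (nat_lit 0) (nat_lit 1) (nat_lit 0) (nat_lit 411) (nat_lit 403) (nat_lit 266))) (XT.nd (nat_lit 94) (nat_lit 0) (nat_lit 0) (XT.lf (nat_lit 0) (nat_lit 29385423609) (nat_lit 0) (nat_lit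 0) (nat_lit 0) (nat_lit 0) (nat_lit 0) (nat_lit 0) (nat_lit 1) (nat_lit 0) (nat_lit 1) (nat_lit 0) (nat_lit 412) (nat_lit 403) (nat_lit 265)) (XT.lf (nat_lit 0) (nat_lit 29385370483) (nat_lit 0) (nat_lit 0) (nat_lit 0) (nat_lit 0) (nat_lit 0) (nat_lit 0) (nat_lit 1) (nat_lit 0) (nat_lit 1) (nat_lit 0) (nat_lit 413) (nat_lit 403) (nat_lit 264)))) (XT.nd (nat_lit 188) (nat_lit 0) (nat_lit 0) (XT.nd (nat_lit 94) (nat_lit 0) (nat_lit 0) (XT.lf (nat_lit 0) (nat_lit 29385321292) (nat_lit 0) (nat_lit 0) (nat_lit 0) (nat_lit 0) (nat_lit 0) (nat_lit 0) (nat_lit 1) (nat_lit 0) (nat_lit 1) (nat_lit 0) (nat_lit 414) (nat_lit 403) (nat_lit 263)) (XT.lf (nat_lit 0) (nat_lit 29385275745) (nat_lit 0) (nat_lit 0) (nat_lit 0) (nat_lit 0) (nat_lit 0) (nat_lit 0) (nat_lit 1) (nat_lit 0) (nat_lit 1) (nat_lit 0) (nat_lit 415) (nat_lit 403) (nat_lit 262))) (XT.nd (nat_lit 94) (nat_lit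 0) (nat_lit 0) (XT.lf (nat_lit 0) (nat_lit 29385233571) (nat_lit 0) (nat_lit 0) (nat_lit 0) (nat_lit 0) (nat_lit 0) (nat_lit 0) (nat_lit 1) (nat_lit 0) (nat_lit 1) (nat_lit 0) (nat_lit 416) (nat_lit 403) (nat_lit 261)) (XT.nd (nat_lit 94) (nat_lit 0) (nat_lit 0) (XT.lf (nat_lit 0) (nat_lit 29385194522) (nat_lit 0) (nat_lit 0) (nat_lit 0) (nat_lit 0) (nat_lit 0) (nat_lit 0) (nat_lit 1) (nat_lit 0) (nat_lit 1) (nat_lit 0) (nat_lit 417) (nat_lit 403) (nat_lit 260)) (XT.lf (nat_lit 0) (nat_lit 29385158365) (nat_lit 0) (nat_lit 0) (nat_lit 0) (nat_lit 0) (nat_lit 0) (nat_lit 0) (nat_lit 1) (nat_lit 0) (nat_lit 1) (nat_lit 0) (nat_lit 418) (nat_lit 403) (nat_lit 259)))))) (XT.nd (nat_lit 470) (nat_lit 0) (nat_lit 0) (XT.nd (nat_lit 188) (nat_lit 0) (nat_lit 0) (XT.nd (nat_lit 94) (nat_lit 0) (nat_lit 0) (XT.lf (nat_lit 0) (nat_lit 29385124887) (nat_lit 0) (nat_lit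 0) (nat_lit 0) (nat_lit 0) (nat_lit 0) (nat_lit 0) (nat_lit 1) (nat_lit 0) (nat_lit 1) (nat_lit 0) (nat_lit 419) (nat_lit 403) (nat_lit 258)) (XT.lf (nat_lit 0) (nat_lit 29385093888) (nat_lit 0) (nat_lit 0) (nat_lit 0) (nat_lit 0) (nat_lit 0) (nat_lit 0) (nat_lit 1) (nat_lit 0) (nat_lit 1) (nat_lit 0) (nat_lit 420) (nat_lit 403) (nat_lit 257))) (XT.nd (nat_lit 94) (nat_lit 0) (nat_lit 0) (XT.lf (nat_lit 0) (nat_lit 29385065185) (nat_lit 0) (nat_lit 0) (nat_lit 0) (nat_lit 0) (nat_lit 0) (nat_lit 0) (nat_lit 1) (nat_lit 0) (nat_lit 1) (nat_lit 0) (nat_lit 421) (nat_lit 403) (nat_lit 256)) (XT.nd (nat_lit 94) (nat_lit 0) (nat_lit 0) (XT.lf (nat_lit 0) (nat_lit 29385038609) (nat_lit 0) (nat_lit 0) (nat_lit 0) (nat_lit 0) (nat_lit 0) (nat_lit 0) (nat_lit 1) (nat_lit 0) (nat_lit 1) (nat_lit 0) (nat_lit 422) (nat_lit 403) (nat_lit 255)) (XT.lf (nat_lit 0) (nat_lit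 29385014001) (nat_lit 0) (nat_lit 0) (nat_lit 0) (nat_lit 0) (nat_lit 0) (nat_lit 0) (nat_lit 1) (nat_lit 0) (nat_lit 1) (nat_lit 0) (nat_lit 423) (nat_lit 403) (nat_lit 254))))) (XT.nd (nat_lit 188) (nat_lit 0) (nat_lit 0) (XT.nd (nat_lit 94) (nat_lit 0) (nat_lit 0) (XT.lf (nat_lit 0) (nat_lit 29384991216) (nat_lit 0) (nat_lit 0) (nat_lit 0) (nat_lit 0) (nat_lit 0) (nat_lit 0) (nat_lit 1) (nat_lit 0) (nat_lit 1) (nat_lit 0) (nat_lit 424) (nat_lit 403) (nat_lit 253)) (XT.lf (nat_lit 0) (nat_lit 29384970119) (nat_lit 0) (nat_lit 0) (nat_lit 0) (nat_lit 0) (nat_lit 0) (nat_lit 0) (nat_lit 1) (nat_lit 0) (nat_lit 1) (nat_lit 0) (nat_lit 425) (nat_lit 403) (nat_lit 252))) (XT.nd (nat_lit 94) (nat_lit 0) (nat_lit 0) (XT.lf (nat_lit 0) (nat_lit 29384950585) (nat_lit 0) (nat_lit 0) (nat_lit 0) (nat_lit 0) (nat_lit 0) (nat_lit 0) (nat_lit 1) (nat_lit 0) (nat_lit 1)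 (nat_lit 0) (nat_lit 426) (nat_lit 403) (nat_lit 251)) (XT.nd (nat_lit 94) (nat_lit 0) (nat_lit 0) (XT.lf (nat_lit 0) (nat_lit 29384932497) (nat_lit 0) (nat_lit 0) (nat_lit 0) (nat_lit 0) (nat_lit 0) (nat_lit 0) (nat_lit 1) (nat_lit 0) (nat_lit 1) (nat_lit 0) (nat_lit 427) (nat_lit 403) (nat_lit 250)) (XT.lf (nat_lit 0) (nat_lit 29384915750) (nat_lit 0) (nat_lit 0) (nat_lit 0) (nat_lit 0) (nat_lit 0) (nat_lit 0) (nat_lit 1) (nat_lit 0) (nat_lit 1) (nat_lit 0) (nat_lit 428) (nat_lit 403) (nat_lit 249))))))))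
noncomputable def ec167 : XT := (XT.nd (nat_lit 53674) (nat_lit 0) (nat_lit 4788) (XT.nd (nat_lit 846) (nat_lit 0) (nat_lit 0) (XT.nd (nat_lit 376) (nat_lit 0) (nat_lit 0) (XT.nd (nat_lit 188) (nat_lit 0) (nat_lit 0) (XT.nd (nat_lit 94) (nat_lit 0) (nat_lit 0) (XT.lf (nat_lit 0) (nat_lit 29384900243) (nat_lit 0) (nat_lit 0) (nat_lit 0) (nat_lit 0) (nat_lit 0) (nat_lit 0) (nat_lit 1) (nat_lit 0) (nat_lit 1) (nat_lit 0) (nat_lit 429) (nat_lit 403) (nat_lit 248)) (XT.lf (nat_lit 0) (nat_lit 29384885884) (nat_lit 0) (nat_lit 0) (nat_lit 0) (nat_lit 0) (nat_lit 0) (nat_lit 0) (nat_lit 1) (nat_lit 0) (nat_lit 1) (nat_lit 0) (nat_lit 430) (nat_lit 403) (nat_lit 247))) (XT.nd (nat_lit 94) (nat_lit 0) (nat_lit 0) (XT.lf (nat_lit 0) (nat_lit 29384872590) (nat_lit 0) (nat_lit 0) (nat_lit 0) (nat_lit 0) (nat_lit 0) (nat_lit 0) (nat_lit 1) (nat_lit 0) (nat_lit 1) (nat_lit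 0) (nat_lit 431) (nat_lit 403) (nat_lit 246)) (XT.lf (nat_lit 0) (nat_lit 29384860280) (nat_lit 0) (nat_lit 0) (nat_lit 0) (nat_lit 0) (nat_lit 0) (nat_lit 0) (nat_lit 1) (nat_lit 0) (nat_lit 1) (nat_lit 0) (nat_lit 432) (nat_lit 403) (nat_lit 245)))) (XT.nd (nat_lit 188) (nat_lit 0) (nat_lit 0) (XT.nd (nat_lit 94) (nat_lit 0) (nat_lit 0) (XT.lf (nat_lit 0) (nat_lit 29384848881) (nat_lit 0) (nat_lit 0) (nat_lit 0) (nat_lit 0) (nat_lit 0) (nat_lit 0) (nat_lit 1) (nat_lit 0) (nat_lit 1) (nat_lit 0) (nat_lit 433) (nat_lit 403) (nat_lit 244)) (XT.lf (nat_lit 0) (nat_lit 29384838328) (nat_lit 0) (nat_lit 0) (nat_lit 0) (nat_lit 0) (nat_lit 0) (nat_lit 0) (nat_lit 1) (nat_lit 0) (nat_lit 1) (nat_lit 0) (nat_lit 434) (nat_lit 403) (nat_lit 243))) (XT.nd (nat_lit 94) (nat_lit 0) (nat_lit 0) (XT.lf (nat_lit 0) (nat_lit 29384828555) (nat_lit 0) (nat_lit 0) (nat_lit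 0) (nat_lit 0) (nat_lit 0) (nat_lit 0) (nat_lit 1) (nat_lit 0) (nat_lit 1) (nat_lit 0) (nat_lit 435) (nat_lit 403) (nat_lit 242)) (XT.nd (nat_lit 94) (nat_lit 0) (nat_lit 0) (XT.lf (nat_lit 0) (nat_lit 29384819507) (nat_lit 0) (nat_lit 0) (nat_lit 0) (nat_lit 0) (nat_lit 0) (nat_lit 0) (nat_lit 1) (nat_lit 0) (nat_lit 1) (nat_lit 0) (nat_lit 436) (nat_lit 403) (nat_lit 241)) (XT.lf (nat_lit 0) (nat_lit 29384811129) (nat_lit 0) (nat_lit 0) (nat_lit 0) (nat_lit 0) (nat_lit 0) (nat_lit 0) (nat_lit 1) (nat_lit 0) (nat_lit 1) (nat_lit 0) (nat_lit 437) (nat_lit 403) (nat_lit 240)))))) (XT.nd (nat_lit 52358) (nat_lit 0) (nat_lit 10836) (XT.nd (nat_lit 188) (nat_lit 0) (nat_lit 0) (XT.nd (nat_lit 94) (nat_lit 0) (nat_lit 0) (XT.lf (nat_lit 0) (nat_lit 29384803372) (nat_lit 0) (nat_lit 0) (nat_lit 0) (nat_lit 0) (nat_lit 0) (nat_lit 0) (nat_lit 1) (nat_lit 0) (nat_lit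 1) (nat_lit 0) (nat_lit 438) (nat_lit 403) (nat_lit 239)) (XT.lf (nat_lit 0) (nat_lit 29384796189) (nat_lit 0) (nat_lit 0) (nat_lit 0) (nat_lit 0) (nat_lit 0) (nat_lit 0) (nat_lit 1) (nat_lit 0) (nat_lit 1) (nat_lit 0) (nat_lit 439) (nat_lit 403) (nat_lit 238))) (XT.nd (nat_lit 51982) (nat_lit 0) (nat_lit 10752) (XT.lf (nat_lit 0) (nat_lit 29384789538) (nat_lit 0) (nat_lit 0) (nat_lit 0) (nat_lit 0) (nat_lit 0) (nat_lit 0) (nat_lit 1) (nat_lit 0) (nat_lit 1) (nat_lit 0) (nat_lit 440) (nat_lit 403) (nat_lit 237)) (XT.nd (nat_lit 94) (nat_lit 0) (nat_lit 84) (XT.lf (nat_lit 924) (nat_lit 15881624386) (nat_lit 0) (nat_lit 28197787593) (nat_lit 924) (nat_lit 15881624386) (nat_lit 139) (nat_lit 1) (nat_lit 128) (nat_lit 0) (nat_lit 139) (nat_lit 0) (nat_lit 272) (nat_lit 404) (nat_lit 404)) (XT.lf (nat_lit 924) (nat_lit 5924333210) (nat_lit 0) (nat_lit 55360803126)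 (nat_lit 840) (nat_lit 54142680501) (nat_lit 140) (nat_lit 1) (nat_lit 129) (nat_lit 1) (nat_lit 139) (nat_lit 1) (nat_lit 273) (nat_lit 404) (nat_lit 403))))) (XT.nd (nat_lit 188) (nat_lit 0) (nat_lit 168) (XT.nd (nat_lit 94) (nat_lit 0) (nat_lit 84) (XT.lf (nat_lit 924) (nat_lit 54411580961) (nat_lit 84) (nat_lit 37075148514) (nat_lit 0) (nat_lit 19662967548) (nat_lit 140) (nat_lit 1) (nat_lit 130) (nat_lit 1) (nat_lit 129) (nat_lit 1) (nat_lit 274) (nat_lit 404) (nat_lit 402)) (XT.lf (nat_lit 924) (nat_lit 47016063411) (nat_lit 84) (nat_lit 15537937761) (nat_lit 0) (nat_lit 44531664004) (nat_lit 141) (nat_lit 1) (nat_lit 131) (nat_lit 1) (nat_lit 130) (nat_lit 1) (nat_lit 275) (nat_lit 404) (nat_lit 401))) (XT.nd (nat_lit 94) (nat_lit 0) (nat_lit 84) (XT.lf (nat_lit 924) (nat_lit 34795884091) (nat_lit 0) (nat_lit 65101454405) (nat_lit 840) (nat_lit 3327977048)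 (nat_lit 142) (nat_lit 1) (nat_lit 131) (nat_lit 1) (nat_lit 141) (nat_lit 1) (nat_lit 276) (nat_lit 404) (nat_lit 400)) (XT.nd (nat_lit 94) (nat_lit 0) (nat_lit 0) (XT.lf (nat_lit 924) (nat_lit 8348931223) (nat_lit 0) (nat_lit 71792439367) (nat_lit 840) (nat_lit 19407954038) (nat_lit 143) (nat_lit 1) (nat_lit 132) (nat_lit 1) (nat_lit 142) (nat_lit 1) (nat_lit 277) (nat_lit 404) (nat_lit 399)) (XT.lf (nat_lit 924) (nat_lit 16043250013) (nat_lit 84) (nat_lit 62393476119) (nat_lit 0) (nat_lit 17608208750) (nat_lit 143) (nat_lit 1) (nat_lit 133) (nat_lit 1) (nat_lit 132) (nat_lit 1) (nat_lit 278) (nat_lit 404) (nat_lit 398))))))) (XT.nd (nat_lit 846) (nat_lit 2688) (nat_lit 0) (XT.nd (nat_lit 376) (nat_lit 1428) (nat_lit 0) (XT.nd (nat_lit 188) (nat_lit 840) (nat_lit 0) (XT.nd (nat_lit 94) (nat_lit 588) (nat_lit 0) (XT.lf (nat_lit 924) (nat_lit 3294917717) (nat_lit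 0) (nat_lit 46643250569) (nat_lit 840) (nat_lit 42771372051) (nat_lit 134) (nat_lit 1) (nat_lit 123) (nat_lit 1) (nat_lit 133) (nat_lit 1) (nat_lit 279) (nat_lit 404) (nat_lit 397)) (XT.lf (nat_lit 84) (nat_lit 22814696635) (nat_lit 0) (nat_lit 9886669762) (nat_lit 588) (nat_lit 56830707105) (nat_lit 117) (nat_lit 1) (nat_lit 116) (nat_lit 1) (nat_lit 123) (nat_lit 1) (nat_lit 280) (nat_lit 404) (nat_lit 396))) (XT.nd (nat_lit 94) (nat_lit 420) (nat_lit 0) (XT.lf (nat_lit 504) (nat_lit 62874432315) (nat_lit 0) (nat_lit 20466983181) (nat_lit 420) (nat_lit 3164322063) (nat_lit 117) (nat_lit 1) (nat_lit 111) (nat_lit 1) (nat_lit 116) (nat_lit 1) (nat_lit 281) (nat_lit 404) (nat_lit 395)) (XT.lf (nat_lit 504) (nat_lit 45370789094) (nat_lit 0) (nat_lit 9539749025) (nat_lit 420) (nat_lit 28698990531) (nat_lit 112) (nat_lit 1) (nat_lit 106) (nat_lit 1) (nat_lit 111)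 (nat_lit 1) (nat_lit 282) (nat_lit 404) (nat_lit 394)))) (XT.nd (nat_lit 188) (nat_lit 1092) (nat_lit 0) (XT.nd (nat_lit 94) (nat_lit 0) (nat_lit 0) (XT.lf (nat_lit 420) (nat_lit 27607546507) (nat_lit 0) (nat_lit 175642282) (nat_lit 336) (nat_lit 53070561825) (nat_lit 107) (nat_lit 1) (nat_lit 102) (nat_lit 1) (nat_lit 106) (nat_lit 1) (nat_lit 283) (nat_lit 404) (nat_lit 393)) (XT.lf (nat_lit 84) (nat_lit 2036754308) (nat_lit 0) (nat_lit 68689224543) (nat_lit 420) (nat_lit 7498764437) (nat_lit 103) (nat_lit 1) (nat_lit 102) (nat_lit 1) (nat_lit 107) (nat_lit 1) (nat_lit 284) (nat_lit 404) (nat_lit 392))) (XT.nd (nat_lit 94) (nat_lit 672) (nat_lit 0) (XT.lf (nat_lit 84) (nat_lit 52589524516) (nat_lit 0) (nat_lit 8722535345) (nat_lit 420) (nat_lit 14385044917) (nat_lit 98) (nat_lit 1) (nat_lit 97) (nat_lit 1) (nat_lit 102) (nat_lit 1) (nat_lit 285) (nat_lit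 404) (nat_lit 391)) (XT.nd (nat_lit 94) (nat_lit 336) (nat_lit 0) (XT.lf (nat_lit 84) (nat_lit 26311871768) (nat_lit 0) (nat_lit 26718674154) (nat_lit 420) (nat_lit 20250604302) (nat_lit 94) (nat_lit 1) (nat_lit 93) (nat_lit 1) (nat_lit 98) (nat_lit 1) (nat_lit 286) (nat_lit 404) (nat_lit 390)) (XT.lf (nat_lit 84) (nat_lit 1298695644) (nat_lit 0) (nat_lit 44673208304) (nat_lit 420) (nat_lit 25007679186) (nat_lit 90) (nat_lit 1) (nat_lit 89) (nat_lit 1) (nat_lit 94) (nat_lit 1) (nat_lit 287) (nat_lit 404) (nat_lit 389)))))) (XT.nd (nat_lit 470) (nat_lit 1176) (nat_lit 0) (XT.nd (nat_lit 188) (nat_lit 840) (nat_lit 0) (XT.nd (nat_lit 94) (nat_lit 420) (nat_lit 0) (XT.lf (nat_lit 336) (nat_lit 5864836338) (nat_lit 0) (nat_lit 39661080838) (nat_lit 252) (nat_lit 23242304882) (nat_lit 90) (nat_lit 1) (nat_lit 86) (nat_lit 1) (nat_lit 89) (nat_lit 1) (nat_lit 288)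 (nat_lit 404) (nat_lit 388)) (XT.lf (nat_lit 84) (nat_lit 20264586367) (nat_lit 0) (nat_lit 13889473414) (nat_lit 420) (nat_lit 32494156536) (nat_lit 82) (nat_lit 1) (nat_lit 81) (nat_lit 1) (nat_lit 86) (nat_lit 1) (nat_lit 289) (nat_lit 404) (nat_lit 387))) (XT.nd (nat_lit 94) (nat_lit 588) (nat_lit 0) (XT.lf (nat_lit 336) (nat_lit 31374453961) (nat_lit 0) (nat_lit 29472244444) (nat_lit 252) (nat_lit 3772412310) (nat_lit 82) (nat_lit 1) (nat_lit 78) (nat_lit 1) (nat_lit 81) (nat_lit 1) (nat_lit 290) (nat_lit 404) (nat_lit 386)) (XT.nd (nat_lit 94) (nat_lit 336) (nat_lit 0) (XT.lf (nat_lit 336) (nat_lit 10055360922) (nat_lit 0) (nat_lit 25374395589) (nat_lit 252) (nat_lit 27238227696) (nat_lit 79) (nat_lit 1) (nat_lit 75) (nat_lit 1) (nat_lit 78) (nat_lit 1) (nat_lit 291) (nat_lit 404) (nat_lit 385)) (XT.lf (nat_lit 84) (nat_lit 11460681752) (nat_lit 0) (nat_lit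 10493250100) (nat_lit 336) (nat_lit 38843959806) (nat_lit 72) (nat_lit 1) (nat_lit 71) (nat_lit 1) (nat_lit 75) (nat_lit 1) (nat_lit 292) (nat_lit 404) (nat_lit 384))))) (XT.nd (nat_lit 188) (nat_lit 756) (nat_lit 0) (XT.nd (nat_lit 94) (nat_lit 168) (nat_lit 0) (XT.lf (nat_lit 336) (nat_lit 28518402331) (nat_lit 0) (nat_lit 18975088100) (nat_lit 252) (nat_lit 11502760793) (nat_lit 72) (nat_lit 1) (nat_lit 68) (nat_lit 1) (nat_lit 71) (nat_lit 1) (nat_lit 293) (nat_lit 404) (nat_lit 383)) (XT.lf (nat_lit 252) (nat_lit 7069754047) (nat_lit 0) (nat_lit 16554380321) (nat_lit 168) (nat_lit 33643159624) (nat_lit 69) (nat_lit 1) (nat_lit 66) (nat_lit 1) (nat_lit 68) (nat_lit 1) (nat_lit 294) (nat_lit 404) (nat_lit 382))) (XT.nd (nat_lit 94) (nat_lit 420) (nat_lit 0) (XT.lf (nat_lit 84) (nat_lit 1197661502) (nat_lit 0) (nat_lit 13402092214) (nat_lit 336) (nat_lit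 41005601980) (nat_lit 63) (nat_lit 1) (nat_lit 62) (nat_lit 1) (nat_lit 66) (nat_lit 1) (nat_lit 295) (nat_lit 404) (nat_lit 381)) (XT.nd (nat_lit 94) (nat_lit 252) (nat_lit 0) (XT.lf (nat_lit 252) (nat_lit 20543408052) (nat_lit 0) (nat_lit 12837867617) (nat_lit 168) (nat_lit 20614899319) (nat_lit 63) (nat_lit 1) (nat_lit 60) (nat_lit 1) (nat_lit 62) (nat_lit 1) (nat_lit 296) (nat_lit 404) (nat_lit 380)) (XT.lf (nat_lit 84) (nat_lit 11145994695) (nat_lit 0) (nat_lit 514840482) (nat_lit 252) (nat_lit 40796378204) (nat_lit 58) (nat_lit 1) (nat_lit 57) (nat_lit 1) (nat_lit 60) (nat_lit 1) (nat_lit 297) (nat_lit 404) (nat_lit 379))))))))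
noncomputable def ec168 : XT := (XT.nd (nat_lit 1692) (nat_lit 1848) (nat_lit 0) (XT.nd (nat_lit 846) (nat_lit 1428) (nat_lit 0) (XT.nd (nat_lit 376) (nat_lit 756) (nat_lit 0) (XT.nd (nat_lit 188) (nat_lit 420) (nat_lit 0) (XT.nd (nat_lit 94) (nat_lit 168) (nat_lit 0) (XT.lf (nat_lit 252) (nat_lit 30470997153) (nat_lit 0) (nat_lit 10558883730) (nat_lit 168) (nat_lit 9933138188) (nat_lit 58) (nat_lit 1) (nat_lit 55) (nat_lit 1) (nat_lit 57) (nat_lit 1) (nat_lit 298) (nat_lit 404) (nat_lit 378)) (XT.lf (nat_lit 252) (nat_lit 9465512774) (nat_lit 0) (nat_lit 9815650046) (nat_lit 168) (nat_lit 30244791530) (nat_lit 56) (nat_lit 1) (nat_lit 53) (nat_lit 1) (nat_lit 55) (nat_lit 1) (nat_lit 299) (nat_lit 404) (nat_lit 377))) (XT.nd (nat_lit 94) (nat_lit 168) (nat_lit 0) (XT.lf (nat_lit 252) (nat_lit 37574607039) (nat_lit 0) (nat_lit 9378056931) (nat_lit 168) (nat_lit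 1189715322) (nat_lit 53) (nat_lit 1) (nat_lit 50) (nat_lit 1) (nat_lit 52) (nat_lit 1) (nat_lit 300) (nat_lit 404) (nat_lit 376)) (XT.lf (nat_lit 252) (nat_lit 16816652674) (nat_lit 0) (nat_lit 8952882588) (nat_lit 168) (nat_lit 21027714156) (nat_lit 51) (nat_lit 1) (nat_lit 48) (nat_lit 1) (nat_lit 50) (nat_lit 1) (nat_lit 301) (nat_lit 404) (nat_lit 375)))) (XT.nd (nat_lit 188) (nat_lit 420) (nat_lit 0) (XT.nd (nat_lit 94) (nat_lit 168) (nat_lit 0) (XT.lf (nat_lit 84) (nat_lit 5760352813) (nat_lit 0) (nat_lit 3166149475) (nat_lit 168) (nat_lit 36581409768) (nat_lit 47) (nat_lit 1) (nat_lit 46) (nat_lit 1) (nat_lit 48) (nat_lit 1) (nat_lit 302) (nat_lit 404) (nat_lit 374)) (XT.lf (nat_lit 252) (nat_lit 22064415446) (nat_lit 0) (nat_lit 8831980566) (nat_lit 168) (nat_lit 13354713884) (nat_lit 47) (nat_lit 1) (nat_lit 44) (nat_lit 1) (nat_lit 46) (nat_lit 1)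 (nat_lit 303) (nat_lit 404) (nat_lit 373))) (XT.nd (nat_lit 94) (nat_lit 336) (nat_lit 0) (XT.lf (nat_lit 168) (nat_lit 2376024012) (nat_lit 0) (nat_lit 9048905422) (nat_lit 84) (nat_lit 31618995234) (nat_lit 45) (nat_lit 1) (nat_lit 43) (nat_lit 1) (nat_lit 44) (nat_lit 1) (nat_lit 304) (nat_lit 404) (nat_lit 372)) (XT.nd (nat_lit 94) (nat_lit 84) (nat_lit 0) (XT.lf (nat_lit 252) (nat_lit 25648301995) (nat_lit 0) (nat_lit 9254615516) (nat_lit 168) (nat_lit 6967107754) (nat_lit 43) (nat_lit 1) (nat_lit 40) (nat_lit 1) (nat_lit 42) (nat_lit 1) (nat_lit 305) (nat_lit 404) (nat_lit 371)) (XT.lf (nat_lit 168) (nat_lit 6450737081) (nat_lit 0) (nat_lit 9600654915) (nat_lit 84) (nat_lit 24684296632) (nat_lit 41) (nat_lit 1) (nat_lit 39) (nat_lit 1) (nat_lit 40) (nat_lit 1) (nat_lit 306) (nat_lit 404) (nat_lit 370)))))) (XT.nd (nat_lit 376) (nat_lit 756) (nat_lit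 0) (XT.nd (nat_lit 188) (nat_lit 336) (nat_lit 0) (XT.nd (nat_lit 94) (nat_lit 84) (nat_lit 0) (XT.lf (nat_lit 252) (nat_lit 27923654415) (nat_lit 0) (nat_lit 10063697342) (nat_lit 168) (nat_lit 1651538884) (nat_lit 39) (nat_lit 1) (nat_lit 36) (nat_lit 1) (nat_lit 38) (nat_lit 1) (nat_lit 307) (nat_lit 404) (nat_lit 369)) (XT.lf (nat_lit 168) (nat_lit 9283495650) (nat_lit 0) (nat_lit 10491525407) (nat_lit 84) (nat_lit 18796473822) (nat_lit 37) (nat_lit 1) (nat_lit 35) (nat_lit 1) (nat_lit 36) (nat_lit 1) (nat_lit 308) (nat_lit 404) (nat_lit 368))) (XT.nd (nat_lit 94) (nat_lit 84) (nat_lit 0) (XT.lf (nat_lit 84) (nat_lit 2679586293) (nat_lit 0) (nat_lit 8410507101) (nat_lit 252) (nat_lit 26452351988) (nat_lit 33) (nat_lit 1) (nat_lit 32) (nat_lit 1) (nat_lit 35) (nat_lit 1) (nat_lit 309) (nat_lit 404) (nat_lit 367)) (XT.lf (nat_lit 168) (nat_lit 11141032362)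 (nat_lit 0) (nat_lit 11608427648) (nat_lit 84) (nat_lit 13789491686) (nat_lit 33) (nat_lit 1) (nat_lit 31) (nat_lit 1) (nat_lit 32) (nat_lit 1) (nat_lit 310) (nat_lit 404) (nat_lit 366)))) (XT.nd (nat_lit 188) (nat_lit 420) (nat_lit 0) (XT.nd (nat_lit 94) (nat_lit 84) (nat_lit 0) (XT.lf (nat_lit 84) (nat_lit 6231719974) (nat_lit 0) (nat_lit 6035842182) (nat_lit 252) (nat_lit 23303161080) (nat_lit 29) (nat_lit 1) (nat_lit 28) (nat_lit 1) (nat_lit 31) (nat_lit 1) (nat_lit 311) (nat_lit 404) (nat_lit 365)) (XT.lf (nat_lit 168) (nat_lit 12238449048) (nat_lit 0) (nat_lit 12863082716) (nat_lit 84) (nat_lit 9525700883) (nat_lit 29) (nat_lit 1) (nat_lit 27) (nat_lit 1) (nat_lit 28) (nat_lit 1) (nat_lit 312) (nat_lit 404) (nat_lit 364))) (XT.nd (nat_lit 94) (nat_lit 252) (nat_lit 0) (XT.lf (nat_lit 84) (nat_lit 9174532825) (nat_lit 0) (nat_lit 4371500732) (nat_lit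 168) (nat_lit 20168867645) (nat_lit 26) (nat_lit 1) (nat_lit 25) (nat_lit 1) (nat_lit 27) (nat_lit 1) (nat_lit 313) (nat_lit 404) (nat_lit 363)) (XT.nd (nat_lit 94) (nat_lit 168) (nat_lit 0) (XT.lf (nat_lit 168) (nat_lit 12748864296) (nat_lit 0) (nat_lit 14187186587) (nat_lit 84) (nat_lit 5890774415) (nat_lit 26) (nat_lit 1) (nat_lit 24) (nat_lit 1) (nat_lit 25) (nat_lit 1) (nat_lit 314) (nat_lit 404) (nat_lit 362)) (XT.lf (nat_lit 84) (nat_lit 11604930991) (nat_lit 0) (nat_lit 3261196547) (nat_lit 168) (nat_lit 17099938143) (nat_lit 23) (nat_lit 1) (nat_lit 22) (nat_lit 1) (nat_lit 24) (nat_lit 1) (nat_lit 315) (nat_lit 404) (nat_lit 361))))))) (XT.nd (nat_lit 846) (nat_lit 756) (nat_lit 0) (XT.nd (nat_lit 376) (nat_lit 588) (nat_lit 0) (XT.nd (nat_lit 188) (nat_lit 252) (nat_lit 0) (XT.nd (nat_lit 94) (nat_lit 168) (nat_lit 0) (XT.lf (nat_lit 168) (nat_lit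 12811280019) (nat_lit 0) (nat_lit 15528480351) (nat_lit 84) (nat_lit 2789563842) (nat_lit 23) (nat_lit 1) (nat_lit 21) (nat_lit 1) (nat_lit 22) (nat_lit 1) (nat_lit 316) (nat_lit 404) (nat_lit 360)) (XT.lf (nat_lit 84) (nat_lit 13603454292) (nat_lit 0) (nat_lit 2579260990) (nat_lit 168) (nat_lit 14133599842) (nat_lit 20) (nat_lit 1) (nat_lit 19) (nat_lit 1) (nat_lit 21) (nat_lit 1) (nat_lit 317) (nat_lit 404) (nat_lit 359))) (XT.nd (nat_lit 94) (nat_lit 168) (nat_lit 0) (XT.lf (nat_lit 168) (nat_lit 12536994462) (nat_lit 0) (nat_lit 16847558728) (nat_lit 84) (nat_lit 142706989) (nat_lit 20) (nat_lit 1) (nat_lit 18) (nat_lit 1) (nat_lit 19) (nat_lit 1) (nat_lit 318) (nat_lit 404) (nat_lit 358)) (XT.lf (nat_lit 84) (nat_lit 15237173221) (nat_lit 0) (nat_lit 2224893996) (nat_lit 168) (nat_lit 11296538730) (nat_lit 17) (nat_lit 1) (nat_lit 16) (nat_lit 1) (nat_lit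 18) (nat_lit 1) (nat_lit 319) (nat_lit 404) (nat_lit 357)))) (XT.nd (nat_lit 188) (nat_lit 336) (nat_lit 0) (XT.nd (nat_lit 94) (nat_lit 168) (nat_lit 0) (XT.lf (nat_lit 0) (nat_lit 2048420160) (nat_lit 0) (nat_lit 16032169210) (nat_lit 168) (nat_lit 9931717821) (nat_lit 15) (nat_lit 3) (nat_lit 15) (nat_lit 1) (nat_lit 17) (nat_lit 1) (nat_lit 320) (nat_lit 404) (nat_lit 356)) (XT.lf (nat_lit 84) (nat_lit 16562061548) (nat_lit 0) (nat_lit 2117478298) (nat_lit 168) (nat_lit 8607085274) (nat_lit 14) (nat_lit 1) (nat_lit 13) (nat_lit 1) (nat_lit 15) (nat_lit 1) (nat_lit 321) (nat_lit 404) (nat_lit 355))) (XT.nd (nat_lit 94) (nat_lit 252) (nat_lit 0) (XT.lf (nat_lit 0) (nat_lit 3913240327) (nat_lit 0) (nat_lit 15331155484) (nat_lit 168) (nat_lit 7335873791) (nat_lit 12) (nat_lit 3) (nat_lit 12) (nat_lit 1) (nat_lit 14) (nat_lit 1) (nat_lit 322) (nat_lit 404)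 (nat_lit 354)) (XT.nd (nat_lit 94) (nat_lit 84) (nat_lit 0) (XT.lf (nat_lit 84) (nat_lit 17624940288) (nat_lit 0) (nat_lit 2192761282) (nat_lit 168) (nat_lit 6076983033) (nat_lit 11) (nat_lit 1) (nat_lit 10) (nat_lit 1) (nat_lit 12) (nat_lit 1) (nat_lit 323) (nat_lit 404) (nat_lit 353)) (XT.lf (nat_lit 0) (nat_lit 5501580399) (nat_lit 0) (nat_lit 14824458410) (nat_lit 168) (nat_lit 4899769426) (nat_lit 9) (nat_lit 3) (nat_lit 9) (nat_lit 1) (nat_lit 11) (nat_lit 1) (nat_lit 324) (nat_lit 404) (nat_lit 352)))))) (XT.nd (nat_lit 470) (nat_lit 0) (nat_lit 0) (XT.nd (nat_lit 188) (nat_lit 504) (nat_lit 0) (XT.nd (nat_lit 94) (nat_lit 84) (nat_lit 0) (XT.lf (nat_lit 84) (nat_lit 18465071253) (nat_lit 0) (nat_lit 2399744775) (nat_lit 168) (nat_lit 3712817664) (nat_lit 8) (nat_lit 1) (nat_lit 7) (nat_lit 1) (nat_lit 9) (nat_lit 1) (nat_lit 325) (nat_lit 404) (nat_lit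 351)) (XT.lf (nat_lit 0) (nat_lit 6851598606) (nat_lit 0) (nat_lit 14463851211) (nat_lit 168) (nat_lit 2628529544) (nat_lit 6) (nat_lit 3) (nat_lit 6) (nat_lit 1) (nat_lit 8) (nat_lit 1) (nat_lit 326) (nat_lit 404) (nat_lit 350))) (XT.nd (nat_lit 94) (nat_lit 336) (nat_lit 0) (XT.lf (nat_lit 84) (nat_lit 19115464094) (nat_lit 0) (nat_lit 2698152427) (nat_lit 168) (nat_lit 1517169565) (nat_lit 5) (nat_lit 1) (nat_lit 4) (nat_lit 1) (nat_lit 6) (nat_lit 1) (nat_lit 327) (nat_lit 404) (nat_lit 349)) (XT.nd (nat_lit 94) (nat_lit 252) (nat_lit 0) (XT.lf (nat_lit 0) (nat_lit 7995567707) (nat_lit 0) (nat_lit 14211072153) (nat_lit 168) (nat_lit 523638222) (nat_lit 3) (nat_lit 3) (nat_lit 3) (nat_lit 1) (nat_lit 5) (nat_lit 1) (nat_lit 328) (nat_lit 404) (nat_lit 348)) (XT.lf (nat_lit 0) (nat_lit 32130295557) (nat_lit 0) (nat_lit 0) (nat_lit 0) (nat_lit 0) (nat_lit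 0) (nat_lit 0) (nat_lit 1) (nat_lit 0) (nat_lit 1) (nat_lit 0) (nat_lit 329) (nat_lit 404) (nat_lit 347))))) (XT.nd (nat_lit 188) (nat_lit 0) (nat_lit 0) (XT.nd (nat_lit 94) (nat_lit 0) (nat_lit 0) (XT.lf (nat_lit 0) (nat_lit 32101050177) (nat_lit 0) (nat_lit 0) (nat_lit 0) (nat_lit 0) (nat_lit 0) (nat_lit 0) (nat_lit 1) (nat_lit 0) (nat_lit 1) (nat_lit 0) (nat_lit 330) (nat_lit 404) (nat_lit 346)) (XT.lf (nat_lit 0) (nat_lit 32073971120) (nat_lit 0) (nat_lit 0) (nat_lit 0) (nat_lit 0) (nat_lit 0) (nat_lit 0) (nat_lit 1) (nat_lit 0) (nat_lit 1) (nat_lit 0) (nat_lit 331) (nat_lit 404) (nat_lit 345))) (XT.nd (nat_lit 94) (nat_lit 0) (nat_lit 0) (XT.lf (nat_lit 0) (nat_lit 32048897920) (nat_lit 0) (nat_lit 0) (nat_lit 0) (nat_lit 0) (nat_lit 0) (nat_lit 0) (nat_lit 1) (nat_lit 0) (nat_lit 1) (nat_lit 0) (nat_lit 332) (nat_lit 404) (nat_lit 344)) (XT.nd (nat_lit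 94) (nat_lit 0) (nat_lit 0) (XT.lf (nat_lit 0) (nat_lit 32025681994) (nat_lit 0) (nat_lit 0) (nat_lit 0) (nat_lit 0) (nat_lit 0) (nat_lit 0) (nat_lit 1) (nat_lit 0) (nat_lit 1) (nat_lit 0) (nat_lit 333) (nat_lit 404) (nat_lit 343)) (XT.lf (nat_lit 0) (nat_lit 32004185766) (nat_lit 0) (nat_lit 0) (nat_lit 0) (nat_lit 0) (nat_lit 0) (nat_lit 0) (nat_lit 1) (nat_lit 0) (nat_lit 1) (nat_lit 0) (nat_lit 334) (nat_lit 404) (nat_lit 342))))))))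
noncomputable def ec169 : XT := (XT.nd (nat_lit 1786) (nat_lit 0) (nat_lit 0) (XT.nd (nat_lit 846) (nat_lit 0) (nat_lit 0) (XT.nd (nat_lit 376) (nat_lit 0) (nat_lit 0) (XT.nd (nat_lit 188) (nat_lit 0) (nat_lit 0) (XT.nd (nat_lit 94) (nat_lit 0) (nat_lit 0) (XT.lf (nat_lit 0) (nat_lit 31984281851) (nat_lit 0) (nat_lit 0) (nat_lit 0) (nat_lit 0) (nat_lit 0) (nat_lit 0) (nat_lit 1) (nat_lit 0) (nat_lit 1) (nat_lit 0) (nat_lit 335) (nat_lit 404) (nat_lit 341)) (XT.lf (nat_lit 0) (nat_lit 31965852301) (nat_lit 0) (nat_lit 0) (nat_lit 0) (nat_lit 0) (nat_lit 0) (nat_lit 0) (nat_lit 1) (nat_lit 0) (nat_lit 1) (nat_lit 0) (nat_lit 336) (nat_lit 404) (nat_lit 340))) (XT.nd (nat_lit 94) (nat_lit 0) (nat_lit 0) (XT.lf (nat_lit 0) (nat_lit 31948787902) (nat_lit 0) (nat_lit 0) (nat_lit 0) (nat_lit 0) (nat_lit 0) (nat_lit 0) (nat_lit 1) (nat_lit 0) (nat_lit 1) (nat_lit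 0) (nat_lit 337) (nat_lit 404) (nat_lit 339)) (XT.lf (nat_lit 0) (nat_lit 31932987533) (nat_lit 0) (nat_lit 0) (nat_lit 0) (nat_lit 0) (nat_lit 0) (nat_lit 0) (nat_lit 1) (nat_lit 0) (nat_lit 1) (nat_lit 0) (nat_lit 338) (nat_lit 404) (nat_lit 338)))) (XT.nd (nat_lit 188) (nat_lit 0) (nat_lit 0) (XT.nd (nat_lit 94) (nat_lit 0) (nat_lit 0) (XT.lf (nat_lit 0) (nat_lit 31918357561) (nat_lit 0) (nat_lit 0) (nat_lit 0) (nat_lit 0) (nat_lit 0) (nat_lit 0) (nat_lit 1) (nat_lit 0) (nat_lit 1) (nat_lit 0) (nat_lit 339) (nat_lit 404) (nat_lit 337)) (XT.lf (nat_lit 0) (nat_lit 31904811291) (nat_lit 0) (nat_lit 0) (nat_lit 0) (nat_lit 0) (nat_lit 0) (nat_lit 0) (nat_lit 1) (nat_lit 0) (nat_lit 1) (nat_lit 0) (nat_lit 340) (nat_lit 404) (nat_lit 336))) (XT.nd (nat_lit 94) (nat_lit 0) (nat_lit 0) (XT.lf (nat_lit 0) (nat_lit 31892268449) (nat_lit 0) (nat_lit 0) (nat_lit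 0) (nat_lit 0) (nat_lit 0) (nat_lit 0) (nat_lit 1) (nat_lit 0) (nat_lit 1) (nat_lit 0) (nat_lit 341) (nat_lit 404) (nat_lit 335)) (XT.nd (nat_lit 94) (nat_lit 0) (nat_lit 0) (XT.lf (nat_lit 0) (nat_lit 31880654705) (nat_lit 0) (nat_lit 0) (nat_lit 0) (nat_lit 0) (nat_lit 0) (nat_lit 0) (nat_lit 1) (nat_lit 0) (nat_lit 1) (nat_lit 0) (nat_lit 342) (nat_lit 404) (nat_lit 334)) (XT.lf (nat_lit 0) (nat_lit 31869901240) (nat_lit 0) (nat_lit 0) (nat_lit 0) (nat_lit 0) (nat_lit 0) (nat_lit 0) (nat_lit 1) (nat_lit 0) (nat_lit 1) (nat_lit 0) (nat_lit 343) (nat_lit 404) (nat_lit 333)))))) (XT.nd (nat_lit 470) (nat_lit 0) (nat_lit 0) (XT.nd (nat_lit 188) (nat_lit 0) (nat_lit 0) (XT.nd (nat_lit 94) (nat_lit 0) (nat_lit 0) (XT.lf (nat_lit 0) (nat_lit 31859944327) (nat_lit 0) (nat_lit 0) (nat_lit 0) (nat_lit 0) (nat_lit 0) (nat_lit 0) (nat_lit 1) (nat_lit 0) (nat_lit 1)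 (nat_lit 0) (nat_lit 344) (nat_lit 404) (nat_lit 332)) (XT.lf (nat_lit 0) (nat_lit 31850724963) (nat_lit 0) (nat_lit 0) (nat_lit 0) (nat_lit 0) (nat_lit 0) (nat_lit 0) (nat_lit 1) (nat_lit 0) (nat_lit 1) (nat_lit 0) (nat_lit 345) (nat_lit 404) (nat_lit 331))) (XT.nd (nat_lit 94) (nat_lit 0) (nat_lit 0) (XT.lf (nat_lit 0) (nat_lit 31842188515) (nat_lit 0) (nat_lit 0) (nat_lit 0) (nat_lit 0) (nat_lit 0) (nat_lit 0) (nat_lit 1) (nat_lit 0) (nat_lit 1) (nat_lit 0) (nat_lit 346) (nat_lit 404) (nat_lit 330)) (XT.nd (nat_lit 94) (nat_lit 0) (nat_lit 0) (XT.lf (nat_lit 0) (nat_lit 31834284397) (nat_lit 0) (nat_lit 0) (nat_lit 0) (nat_lit 0) (nat_lit 0) (nat_lit 0) (nat_lit 1) (nat_lit 0) (nat_lit 1) (nat_lit 0) (nat_lit 347) (nat_lit 404) (nat_lit 329)) (XT.lf (nat_lit 0) (nat_lit 31826965769) (nat_lit 0) (nat_lit 0) (nat_lit 0) (nat_lit 0) (nat_lit 0) (nat_lit 0)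 (nat_lit 1) (nat_lit 0) (nat_lit 1) (nat_lit 0) (nat_lit 348) (nat_lit 404) (nat_lit 328))))) (XT.nd (nat_lit 188) (nat_lit 0) (nat_lit 0) (XT.nd (nat_lit 94) (nat_lit 0) (nat_lit 0) (XT.lf (nat_lit 0) (nat_lit 31820189261) (nat_lit 0) (nat_lit 0) (nat_lit 0) (nat_lit 0) (nat_lit 0) (nat_lit 0) (nat_lit 1) (nat_lit 0) (nat_lit 1) (nat_lit 0) (nat_lit 349) (nat_lit 404) (nat_lit 327)) (XT.lf (nat_lit 0) (nat_lit 31813914717) (nat_lit 0) (nat_lit 0) (nat_lit 0) (nat_lit 0) (nat_lit 0) (nat_lit 0) (nat_lit 1) (nat_lit 0) (nat_lit 1) (nat_lit 0) (nat_lit 350) (nat_lit 404) (nat_lit 326))) (XT.nd (nat_lit 94) (nat_lit 0) (nat_lit 0) (XT.lf (nat_lit 0) (nat_lit 31808104954) (nat_lit 0) (nat_lit 0) (nat_lit 0) (nat_lit 0) (nat_lit 0) (nat_lit 0) (nat_lit 1) (nat_lit 0) (nat_lit 1) (nat_lit 0) (nat_lit 351) (nat_lit 404) (nat_lit 325)) (XT.nd (nat_lit 94) (nat_lit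 0) (nat_lit 0) (XT.lf (nat_lit 0) (nat_lit 31802725544) (nat_lit 0) (nat_lit 0) (nat_lit 0) (nat_lit 0) (nat_lit 0) (nat_lit 0) (nat_lit 1) (nat_lit 0) (nat_lit 1) (nat_lit 0) (nat_lit 352) (nat_lit 404) (nat_lit 324)) (XT.lf (nat_lit 0) (nat_lit 31797744609) (nat_lit 0) (nat_lit 0) (nat_lit 0) (nat_lit 0) (nat_lit 0) (nat_lit 0) (nat_lit 1) (nat_lit 0) (nat_lit 1) (nat_lit 0) (nat_lit 353) (nat_lit 404) (nat_lit 323))))))) (XT.nd (nat_lit 846) (nat_lit 0) (nat_lit 0) (XT.nd (nat_lit 376) (nat_lit 0) (nat_lit 0) (XT.nd (nat_lit 188) (nat_lit 0) (nat_lit 0) (XT.nd (nat_lit 94) (nat_lit 0) (nat_lit 0) (XT.lf (nat_lit 0) (nat_lit 31793132632) (nat_lit 0) (nat_lit 0) (nat_lit 0) (nat_lit 0) (nat_lit 0) (nat_lit 0) (nat_lit 1) (nat_lit 0) (nat_lit 1) (nat_lit 0) (nat_lit 354) (nat_lit 404) (nat_lit 322)) (XT.lf (nat_lit 0) (nat_lit 31788862282) (nat_lit 0) (nat_lit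 0) (nat_lit 0) (nat_lit 0) (nat_lit 0) (nat_lit 0) (nat_lit 1) (nat_lit 0) (nat_lit 1) (nat_lit 0) (nat_lit 355) (nat_lit 404) (nat_lit 321))) (XT.nd (nat_lit 94) (nat_lit 0) (nat_lit 0) (XT.lf (nat_lit 0) (nat_lit 31784908255) (nat_lit 0) (nat_lit 0) (nat_lit 0) (nat_lit 0) (nat_lit 0) (nat_lit 0) (nat_lit 1) (nat_lit 0) (nat_lit 1) (nat_lit 0) (nat_lit 356) (nat_lit 404) (nat_lit 320)) (XT.lf (nat_lit 0) (nat_lit 31781247119) (nat_lit 0) (nat_lit 0) (nat_lit 0) (nat_lit 0) (nat_lit 0) (nat_lit 0) (nat_lit 1) (nat_lit 0) (nat_lit 1) (nat_lit 0) (nat_lit 357) (nat_lit 404) (nat_lit 319)))) (XT.nd (nat_lit 188) (nat_lit 0) (nat_lit 0) (XT.nd (nat_lit 94) (nat_lit 0) (nat_lit 0) (XT.lf (nat_lit 0) (nat_lit 31777857178) (nat_lit 0) (nat_lit 0) (nat_lit 0) (nat_lit 0) (nat_lit 0) (nat_lit 0) (nat_lit 1) (nat_lit 0) (nat_lit 1) (nat_lit 0) (nat_lit 358) (nat_lit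 404) (nat_lit 318)) (XT.lf (nat_lit 0) (nat_lit 31774718344) (nat_lit 0) (nat_lit 0) (nat_lit 0) (nat_lit 0) (nat_lit 0) (nat_lit 0) (nat_lit 1) (nat_lit 0) (nat_lit 1) (nat_lit 0) (nat_lit 359) (nat_lit 404) (nat_lit 317))) (XT.nd (nat_lit 94) (nat_lit 0) (nat_lit 0) (XT.lf (nat_lit 0) (nat_lit 31771812016) (nat_lit 0) (nat_lit 0) (nat_lit 0) (nat_lit 0) (nat_lit 0) (nat_lit 0) (nat_lit 1) (nat_lit 0) (nat_lit 1) (nat_lit 0) (nat_lit 360) (nat_lit 404) (nat_lit 316)) (XT.nd (nat_lit 94) (nat_lit 0) (nat_lit 0) (XT.lf (nat_lit 0) (nat_lit 31769120972) (nat_lit 0) (nat_lit 0) (nat_lit 0) (nat_lit 0) (nat_lit 0) (nat_lit 0) (nat_lit 1) (nat_lit 0) (nat_lit 1) (nat_lit 0) (nat_lit 361) (nat_lit 404) (nat_lit 315)) (XT.lf (nat_lit 0) (nat_lit 31766629264) (nat_lit 0) (nat_lit 0) (nat_lit 0) (nat_lit 0) (nat_lit 0) (nat_lit 0) (nat_lit 1) (nat_lit 0) (nat_lit 1)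 (nat_lit 0) (nat_lit 362) (nat_lit 404) (nat_lit 314)))))) (XT.nd (nat_lit 470) (nat_lit 0) (nat_lit 0) (XT.nd (nat_lit 188) (nat_lit 0) (nat_lit 0) (XT.nd (nat_lit 94) (nat_lit 0) (nat_lit 0) (XT.lf (nat_lit 0) (nat_lit 31764322127) (nat_lit 0) (nat_lit 0) (nat_lit 0) (nat_lit 0) (nat_lit 0) (nat_lit 0) (nat_lit 1) (nat_lit 0) (nat_lit 1) (nat_lit 0) (nat_lit 363) (nat_lit 404) (nat_lit 313)) (XT.lf (nat_lit 0) (nat_lit 31762185889) (nat_lit 0) (nat_lit 0) (nat_lit 0) (nat_lit 0) (nat_lit 0) (nat_lit 0) (nat_lit 1) (nat_lit 0) (nat_lit 1) (nat_lit 0) (nat_lit 364) (nat_lit 404) (nat_lit 312))) (XT.nd (nat_lit 94) (nat_lit 0) (nat_lit 0) (XT.lf (nat_lit 0) (nat_lit 31760207891) (nat_lit 0) (nat_lit 0) (nat_lit 0) (nat_lit 0) (nat_lit 0) (nat_lit 0) (nat_lit 1) (nat_lit 0) (nat_lit 1) (nat_lit 0) (nat_lit 365) (nat_lit 404) (nat_lit 311)) (XT.nd (nat_lit 94)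 (nat_lit 0) (nat_lit 0) (XT.lf (nat_lit 0) (nat_lit 31758376412) (nat_lit 0) (nat_lit 0) (nat_lit 0) (nat_lit 0) (nat_lit 0) (nat_lit 0) (nat_lit 1) (nat_lit 0) (nat_lit 1) (nat_lit 0) (nat_lit 366) (nat_lit 404) (nat_lit 310)) (XT.lf (nat_lit 0) (nat_lit 31756680597) (nat_lit 0) (nat_lit 0) (nat_lit 0) (nat_lit 0) (nat_lit 0) (nat_lit 0) (nat_lit 1) (nat_lit 0) (nat_lit 1) (nat_lit 0) (nat_lit 367) (nat_lit 404) (nat_lit 309))))) (XT.nd (nat_lit 188) (nat_lit 0) (nat_lit 0) (XT.nd (nat_lit 94) (nat_lit 0) (nat_lit 0) (XT.lf (nat_lit 0) (nat_lit 31755110399) (nat_lit 0) (nat_lit 0) (nat_lit 0) (nat_lit 0) (nat_lit 0) (nat_lit 0) (nat_lit 1) (nat_lit 0) (nat_lit 1) (nat_lit 0) (nat_lit 368) (nat_lit 404) (nat_lit 308)) (XT.lf (nat_lit 0) (nat_lit 31753656511) (nat_lit 0) (nat_lit 0) (nat_lit 0) (nat_lit 0) (nat_lit 0) (nat_lit 0) (nat_lit 1) (nat_lit 0) (nat_lit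 1) (nat_lit 0) (nat_lit 369) (nat_lit 404) (nat_lit 307))) (XT.nd (nat_lit 94) (nat_lit 0) (nat_lit 0) (XT.lf (nat_lit 0) (nat_lit 31752310319) (nat_lit 0) (nat_lit 0) (nat_lit 0) (nat_lit 0) (nat_lit 0) (nat_lit 0) (nat_lit 1) (nat_lit 0) (nat_lit 1) (nat_lit 0) (nat_lit 370) (nat_lit 404) (nat_lit 306)) (XT.nd (nat_lit 94) (nat_lit 0) (nat_lit 0) (XT.lf (nat_lit 0) (nat_lit 31751063845) (nat_lit 0) (nat_lit 0) (nat_lit 0) (nat_lit 0) (nat_lit 0) (nat_lit 0) (nat_lit 1) (nat_lit 0) (nat_lit 1) (nat_lit 0) (nat_lit 371) (nat_lit 404) (nat_lit 305)) (XT.lf (nat_lit 0) (nat_lit 31749909702) (nat_lit 0) (nat_lit 0) (nat_lit 0) (nat_lit 0) (nat_lit 0) (nat_lit 0) (nat_lit 1) (nat_lit 0) (nat_lit 1) (nat_lit 0) (nat_lit 372) (nat_lit 404) (nat_lit 304))))))))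
noncomputable def ec170 : XT := (XT.nd (nat_lit 1692) (nat_lit 0) (nat_lit 0) (XT.nd (nat_lit 846) (nat_lit 0) (nat_lit 0) (XT.nd (nat_lit 376) (nat_lit 0) (nat_lit 0) (XT.nd (nat_lit 188) (nat_lit 0) (nat_lit 0) (XT.nd (nat_lit 94) (nat_lit 0) (nat_lit 0) (XT.lf (nat_lit 0) (nat_lit 31748841051) (nat_lit 0) (nat_lit 0) (nat_lit 0) (nat_lit 0) (nat_lit 0) (nat_lit 0) (nat_lit 1) (nat_lit 0) (nat_lit 1) (nat_lit 0) (nat_lit 373) (nat_lit 404) (nat_lit 303)) (XT.lf (nat_lit 0) (nat_lit 31747851560) (nat_lit 0) (nat_lit 0) (nat_lit 0) (nat_lit 0) (nat_lit 0) (nat_lit 0) (nat_lit 1) (nat_lit 0) (nat_lit 1) (nat_lit 0) (nat_lit 374) (nat_lit 404) (nat_lit 302))) (XT.nd (nat_lit 94) (nat_lit 0) (nat_lit 0) (XT.lf (nat_lit 0) (nat_lit 31746935364) (nat_lit 0) (nat_lit 0) (nat_lit 0) (nat_lit 0) (nat_lit 0) (nat_lit 0) (nat_lit 1) (nat_lit 0) (nat_lit 1) (nat_lit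 0) (nat_lit 375) (nat_lit 404) (nat_lit 301)) (XT.lf (nat_lit 0) (nat_lit 31746087035) (nat_lit 0) (nat_lit 0) (nat_lit 0) (nat_lit 0) (nat_lit 0) (nat_lit 0) (nat_lit 1) (nat_lit 0) (nat_lit 1) (nat_lit 0) (nat_lit 376) (nat_lit 404) (nat_lit 300)))) (XT.nd (nat_lit 188) (nat_lit 0) (nat_lit 0) (XT.nd (nat_lit 94) (nat_lit 0) (nat_lit 0) (XT.lf (nat_lit 0) (nat_lit 31745301545) (nat_lit 0) (nat_lit 0) (nat_lit 0) (nat_lit 0) (nat_lit 0) (nat_lit 0) (nat_lit 1) (nat_lit 0) (nat_lit 1) (nat_lit 0) (nat_lit 377) (nat_lit 404) (nat_lit 299)) (XT.lf (nat_lit 0) (nat_lit 31744574239) (nat_lit 0) (nat_lit 0) (nat_lit 0) (nat_lit 0) (nat_lit 0) (nat_lit 0) (nat_lit 1) (nat_lit 0) (nat_lit 1) (nat_lit 0) (nat_lit 378) (nat_lit 404) (nat_lit 298))) (XT.nd (nat_lit 94) (nat_lit 0) (nat_lit 0) (XT.lf (nat_lit 0) (nat_lit 31743900808) (nat_lit 0) (nat_lit 0) (nat_lit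 0) (nat_lit 0) (nat_lit 0) (nat_lit 0) (nat_lit 1) (nat_lit 0) (nat_lit 1) (nat_lit 0) (nat_lit 379) (nat_lit 404) (nat_lit 297)) (XT.nd (nat_lit 94) (nat_lit 0) (nat_lit 0) (XT.lf (nat_lit 0) (nat_lit 31743277260) (nat_lit 0) (nat_lit 0) (nat_lit 0) (nat_lit 0) (nat_lit 0) (nat_lit 0) (nat_lit 1) (nat_lit 0) (nat_lit 1) (nat_lit 0) (nat_lit 380) (nat_lit 404) (nat_lit 296)) (XT.lf (nat_lit 0) (nat_lit 31742699901) (nat_lit 0) (nat_lit 0) (nat_lit 0) (nat_lit 0) (nat_lit 0) (nat_lit 0) (nat_lit 1) (nat_lit 0) (nat_lit 1) (nat_lit 0) (nat_lit 381) (nat_lit 404) (nat_lit 295)))))) (XT.nd (nat_lit 376) (nat_lit 0) (nat_lit 0) (XT.nd (nat_lit 188) (nat_lit 0) (nat_lit 0) (XT.nd (nat_lit 94) (nat_lit 0) (nat_lit 0) (XT.lf (nat_lit 0) (nat_lit 31742165310) (nat_lit 0) (nat_lit 0) (nat_lit 0) (nat_lit 0) (nat_lit 0) (nat_lit 0) (nat_lit 1) (nat_lit 0) (nat_lit 1)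 (nat_lit 0) (nat_lit 382) (nat_lit 404) (nat_lit 294)) (XT.lf (nat_lit 0) (nat_lit 31741670318) (nat_lit 0) (nat_lit 0) (nat_lit 0) (nat_lit 0) (nat_lit 0) (nat_lit 0) (nat_lit 1) (nat_lit 0) (nat_lit 1) (nat_lit 0) (nat_lit 383) (nat_lit 404) (nat_lit 293))) (XT.nd (nat_lit 94) (nat_lit 0) (nat_lit 0) (XT.lf (nat_lit 0) (nat_lit 31741211992) (nat_lit 0) (nat_lit 0) (nat_lit 0) (nat_lit 0) (nat_lit 0) (nat_lit 0) (nat_lit 1) (nat_lit 0) (nat_lit 1) (nat_lit 0) (nat_lit 384) (nat_lit 404) (nat_lit 292)) (XT.lf (nat_lit 0) (nat_lit 31740787616) (nat_lit 0) (nat_lit 0) (nat_lit 0) (nat_lit 0) (nat_lit 0) (nat_lit 0) (nat_lit 1) (nat_lit 0) (nat_lit 1) (nat_lit 0) (nat_lit 385) (nat_lit 404) (nat_lit 291)))) (XT.nd (nat_lit 188) (nat_lit 0) (nat_lit 0) (XT.nd (nat_lit 94) (nat_lit 0) (nat_lit 0) (XT.lf (nat_lit 0) (nat_lit 31740394675) (nat_lit 0) (nat_lit 0)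 (nat_lit 0) (nat_lit 0) (nat_lit 0) (nat_lit 0) (nat_lit 1) (nat_lit 0) (nat_lit 1) (nat_lit 0) (nat_lit 386) (nat_lit 404) (nat_lit 290)) (XT.lf (nat_lit 0) (nat_lit 31740030841) (nat_lit 0) (nat_lit 0) (nat_lit 0) (nat_lit 0) (nat_lit 0) (nat_lit 0) (nat_lit 1) (nat_lit 0) (nat_lit 1) (nat_lit 0) (nat_lit 387) (nat_lit 404) (nat_lit 289))) (XT.nd (nat_lit 94) (nat_lit 0) (nat_lit 0) (XT.lf (nat_lit 0) (nat_lit 31739693958) (nat_lit 0) (nat_lit 0) (nat_lit 0) (nat_lit 0) (nat_lit 0) (nat_lit 0) (nat_lit 1) (nat_lit 0) (nat_lit 1) (nat_lit 0) (nat_lit 388) (nat_lit 404) (nat_lit 288)) (XT.nd (nat_lit 94) (nat_lit 0) (nat_lit 0) (XT.lf (nat_lit 0) (nat_lit 31739382029) (nat_lit 0) (nat_lit 0) (nat_lit 0) (nat_lit 0) (nat_lit 0) (nat_lit 0) (nat_lit 1) (nat_lit 0) (nat_lit 1) (nat_lit 0) (nat_lit 389) (nat_lit 404) (nat_lit 287)) (XT.lf (nat_lit 0) (nat_lit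 31739093206) (nat_lit 0) (nat_lit 0) (nat_lit 0) (nat_lit 0) (nat_lit 0) (nat_lit 0) (nat_lit 1) (nat_lit 0) (nat_lit 1) (nat_lit 0) (nat_lit 390) (nat_lit 404) (nat_lit 286))))))) (XT.nd (nat_lit 846) (nat_lit 0) (nat_lit 0) (XT.nd (nat_lit 376) (nat_lit 0) (nat_lit 0) (XT.nd (nat_lit 188) (nat_lit 0) (nat_lit 0) (XT.nd (nat_lit 94) (nat_lit 0) (nat_lit 0) (XT.lf (nat_lit 0) (nat_lit 31738825777) (nat_lit 0) (nat_lit 0) (nat_lit 0) (nat_lit 0) (nat_lit 0) (nat_lit 0) (nat_lit 1) (nat_lit 0) (nat_lit 1) (nat_lit 0) (nat_lit 391) (nat_lit 404) (nat_lit 285)) (XT.lf (nat_lit 0) (nat_lit 31738578158) (nat_lit 0) (nat_lit 0) (nat_lit 0) (nat_lit 0) (nat_lit 0) (nat_lit 0) (nat_lit 1) (nat_lit 0) (nat_lit 1) (nat_lit 0) (nat_lit 392) (nat_lit 404) (nat_lit 284))) (XT.nd (nat_lit 94) (nat_lit 0) (nat_lit 0) (XT.lf (nat_lit 0) (nat_lit 31738348881) (nat_lit 0) (nat_lit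 0) (nat_lit 0) (nat_lit 0) (nat_lit 0) (nat_lit 0) (nat_lit 1) (nat_lit 0) (nat_lit 1) (nat_lit 0) (nat_lit 393) (nat_lit 404) (nat_lit 283)) (XT.lf (nat_lit 0) (nat_lit 31738136587) (nat_lit 0) (nat_lit 0) (nat_lit 0) (nat_lit 0) (nat_lit 0) (nat_lit 0) (nat_lit 1) (nat_lit 0) (nat_lit 1) (nat_lit 0) (nat_lit 394) (nat_lit 404) (nat_lit 282)))) (XT.nd (nat_lit 188) (nat_lit 0) (nat_lit 0) (XT.nd (nat_lit 94) (nat_lit 0) (nat_lit 0) (XT.lf (nat_lit 0) (nat_lit 31737940019) (nat_lit 0) (nat_lit 0) (nat_lit 0) (nat_lit 0) (nat_lit 0) (nat_lit 0) (nat_lit 1) (nat_lit 0) (nat_lit 1) (nat_lit 0) (nat_lit 395) (nat_lit 404) (nat_lit 281)) (XT.lf (nat_lit 0) (nat_lit 31737758011) (nat_lit 0) (nat_lit 0) (nat_lit 0) (nat_lit 0) (nat_lit 0) (nat_lit 0) (nat_lit 1) (nat_lit 0) (nat_lit 1) (nat_lit 0) (nat_lit 396) (nat_lit 404) (nat_lit 280))) (XT.nd (nat_lit 94) (nat_lit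 0) (nat_lit 0) (XT.lf (nat_lit 0) (nat_lit 31737589486) (nat_lit 0) (nat_lit 0) (nat_lit 0) (nat_lit 0) (nat_lit 0) (nat_lit 0) (nat_lit 1) (nat_lit 0) (nat_lit 1) (nat_lit 0) (nat_lit 397) (nat_lit 404) (nat_lit 279)) (XT.nd (nat_lit 94) (nat_lit 0) (nat_lit 0) (XT.lf (nat_lit 0) (nat_lit 31737433444) (nat_lit 0) (nat_lit 0) (nat_lit 0) (nat_lit 0) (nat_lit 0) (nat_lit 0) (nat_lit 1) (nat_lit 0) (nat_lit 1) (nat_lit 0) (nat_lit 398) (nat_lit 404) (nat_lit 278)) (XT.lf (nat_lit 0) (nat_lit 31737288960) (nat_lit 0) (nat_lit 0) (nat_lit 0) (nat_lit 0) (nat_lit 0) (nat_lit 0) (nat_lit 1) (nat_lit 0) (nat_lit 1) (nat_lit 0) (nat_lit 399) (nat_lit 404) (nat_lit 277)))))) (XT.nd (nat_lit 470) (nat_lit 0) (nat_lit 0) (XT.nd (nat_lit 188) (nat_lit 0) (nat_lit 0) (XT.nd (nat_lit 94) (nat_lit 0) (nat_lit 0) (XT.lf (nat_lit 0) (nat_lit 31737155179) (nat_lit 0) (nat_lit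 0) (nat_lit 0) (nat_lit 0) (nat_lit 0) (nat_lit 0) (nat_lit 1) (nat_lit 0) (nat_lit 1) (nat_lit 0) (nat_lit 400) (nat_lit 404) (nat_lit 276)) (XT.lf (nat_lit 0) (nat_lit 31737031308) (nat_lit 0) (nat_lit 0) (nat_lit 0) (nat_lit 0) (nat_lit 0) (nat_lit 0) (nat_lit 1) (nat_lit 0) (nat_lit 1) (nat_lit 0) (nat_lit 401) (nat_lit 404) (nat_lit 275))) (XT.nd (nat_lit 94) (nat_lit 0) (nat_lit 0) (XT.lf (nat_lit 0) (nat_lit 31736916612) (nat_lit 0) (nat_lit 0) (nat_lit 0) (nat_lit 0) (nat_lit 0) (nat_lit 0) (nat_lit 1) (nat_lit 0) (nat_lit 1) (nat_lit 0) (nat_lit 402) (nat_lit 404) (nat_lit 274)) (XT.nd (nat_lit 94) (nat_lit 0) (nat_lit 0) (XT.lf (nat_lit 0) (nat_lit 31736810413) (nat_lit 0) (nat_lit 0) (nat_lit 0) (nat_lit 0) (nat_lit 0) (nat_lit 0) (nat_lit 1) (nat_lit 0) (nat_lit 1) (nat_lit 0) (nat_lit 403) (nat_lit 404) (nat_lit 273)) (XT.lf (nat_lit 0) (nat_lit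 31736712080) (nat_lit 0) (nat_lit 0) (nat_lit 0) (nat_lit 0) (nat_lit 0) (nat_lit 0) (nat_lit 1) (nat_lit 0) (nat_lit 1) (nat_lit 0) (nat_lit 404) (nat_lit 404) (nat_lit 272))))) (XT.nd (nat_lit 188) (nat_lit 0) (nat_lit 0) (XT.nd (nat_lit 94) (nat_lit 0) (nat_lit 0) (XT.lf (nat_lit 0) (nat_lit 31736621031) (nat_lit 0) (nat_lit 0) (nat_lit 0) (nat_lit 0) (nat_lit 0) (nat_lit 0) (nat_lit 1) (nat_lit 0) (nat_lit 1) (nat_lit 0) (nat_lit 405) (nat_lit 404) (nat_lit 271)) (XT.lf (nat_lit 0) (nat_lit 31736536726) (nat_lit 0) (nat_lit 0) (nat_lit 0) (nat_lit 0) (nat_lit 0) (nat_lit 0) (nat_lit 1) (nat_lit 0) (nat_lit 1) (nat_lit 0) (nat_lit 406) (nat_lit 404) (nat_lit 270))) (XT.nd (nat_lit 94) (nat_lit 0) (nat_lit 0) (XT.lf (nat_lit 0) (nat_lit 31736458666) (nat_lit 0) (nat_lit 0) (nat_lit 0) (nat_lit 0) (nat_lit 0) (nat_lit 0) (nat_lit 1) (nat_lit 0) (nat_lit 1)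 (nat_lit 0) (nat_lit 407) (nat_lit 404) (nat_lit 269)) (XT.nd (nat_lit 94) (nat_lit 0) (nat_lit 0) (XT.lf (nat_lit 0) (nat_lit 31736386388) (nat_lit 0) (nat_lit 0) (nat_lit 0) (nat_lit 0) (nat_lit 0) (nat_lit 0) (nat_lit 1) (nat_lit 0) (nat_lit 1) (nat_lit 0) (nat_lit 408) (nat_lit 404) (nat_lit 268)) (XT.lf (nat_lit 0) (nat_lit 31736319464) (nat_lit 0) (nat_lit 0) (nat_lit 0) (nat_lit 0) (nat_lit 0) (nat_lit 0) (nat_lit 1) (nat_lit 0) (nat_lit 1) (nat_lit 0) (nat_lit 409) (nat_lit 404) (nat_lit 267))))))))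
noncomputable def ec171 : XT := (XT.nd (nat_lit 1786) (nat_lit 0) (nat_lit 0) (XT.nd (nat_lit 846) (nat_lit 0) (nat_lit 0) (XT.nd (nat_lit 376) (nat_lit 0) (nat_lit 0) (XT.nd (nat_lit 188) (nat_lit 0) (nat_lit 0) (XT.nd (nat_lit 94) (nat_lit 0) (nat_lit 0) (XT.lf (nat_lit 0) (nat_lit 31736257498) (nat_lit 0) (nat_lit 0) (nat_lit 0) (nat_lit 0) (nat_lit 0) (nat_lit 0) (nat_lit 1) (nat_lit 0) (nat_lit 1) (nat_lit 0) (nat_lit 410) (nat_lit 404) (nat_lit 266)) (XT.lf (nat_lit 0) (nat_lit 31736200122) (nat_lit 0) (nat_lit 0) (nat_lit 0) (nat_lit 0) (nat_lit 0) (nat_lit 0) (nat_lit 1) (nat_lit 0) (nat_lit 1) (nat_lit 0) (nat_lit 411) (nat_lit 404) (nat_lit 265))) (XT.nd (nat_lit 94) (nat_lit 0) (nat_lit 0) (XT.lf (nat_lit 0) (nat_lit 31736146995) (nat_lit 0) (nat_lit 0) (nat_lit 0) (nat_lit 0) (nat_lit 0) (nat_lit 0) (nat_lit 1) (nat_lit 0) (nat_lit 1) (nat_lit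 0) (nat_lit 412) (nat_lit 404) (nat_lit 264)) (XT.lf (nat_lit 0) (nat_lit 31736097804) (nat_lit 0) (nat_lit 0) (nat_lit 0) (nat_lit 0) (nat_lit 0) (nat_lit 0) (nat_lit 1) (nat_lit 0) (nat_lit 1) (nat_lit 0) (nat_lit 413) (nat_lit 404) (nat_lit 263)))) (XT.nd (nat_lit 188) (nat_lit 0) (nat_lit 0) (XT.nd (nat_lit 94) (nat_lit 0) (nat_lit 0) (XT.lf (nat_lit 0) (nat_lit 31736052257) (nat_lit 0) (nat_lit 0) (nat_lit 0) (nat_lit 0) (nat_lit 0) (nat_lit 0) (nat_lit 1) (nat_lit 0) (nat_lit 1) (nat_lit 0) (nat_lit 414) (nat_lit 404) (nat_lit 262)) (XT.lf (nat_lit 0) (nat_lit 31736010084) (nat_lit 0) (nat_lit 0) (nat_lit 0) (nat_lit 0) (nat_lit 0) (nat_lit 0) (nat_lit 1) (nat_lit 0) (nat_lit 1) (nat_lit 0) (nat_lit 415) (nat_lit 404) (nat_lit 261))) (XT.nd (nat_lit 94) (nat_lit 0) (nat_lit 0) (XT.lf (nat_lit 0) (nat_lit 31735971034) (nat_lit 0) (nat_lit 0) (nat_lit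 0) (nat_lit 0) (nat_lit 0) (nat_lit 0) (nat_lit 1) (nat_lit 0) (nat_lit 1) (nat_lit 0) (nat_lit 416) (nat_lit 404) (nat_lit 260)) (XT.nd (nat_lit 94) (nat_lit 0) (nat_lit 0) (XT.lf (nat_lit 0) (nat_lit 31735934878) (nat_lit 0) (nat_lit 0) (nat_lit 0) (nat_lit 0) (nat_lit 0) (nat_lit 0) (nat_lit 1) (nat_lit 0) (nat_lit 1) (nat_lit 0) (nat_lit 417) (nat_lit 404) (nat_lit 259)) (XT.lf (nat_lit 0) (nat_lit 31735901399) (nat_lit 0) (nat_lit 0) (nat_lit 0) (nat_lit 0) (nat_lit 0) (nat_lit 0) (nat_lit 1) (nat_lit 0) (nat_lit 1) (nat_lit 0) (nat_lit 418) (nat_lit 404) (nat_lit 258)))))) (XT.nd (nat_lit 470) (nat_lit 0) (nat_lit 0) (XT.nd (nat_lit 188) (nat_lit 0) (nat_lit 0) (XT.nd (nat_lit 94) (nat_lit 0) (nat_lit 0) (XT.lf (nat_lit 0) (nat_lit 31735870400) (nat_lit 0) (nat_lit 0) (nat_lit 0) (nat_lit 0) (nat_lit 0) (nat_lit 0) (nat_lit 1) (nat_lit 0) (nat_lit 1)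 (nat_lit 0) (nat_lit 419) (nat_lit 404) (nat_lit 257)) (XT.lf (nat_lit 0) (nat_lit 31735841698) (nat_lit 0) (nat_lit 0) (nat_lit 0) (nat_lit 0) (nat_lit 0) (nat_lit 0) (nat_lit 1) (nat_lit 0) (nat_lit 1) (nat_lit 0) (nat_lit 420) (nat_lit 404) (nat_lit 256))) (XT.nd (nat_lit 94) (nat_lit 0) (nat_lit 0) (XT.lf (nat_lit 0) (nat_lit 31735815122) (nat_lit 0) (nat_lit 0) (nat_lit 0) (nat_lit 0) (nat_lit 0) (nat_lit 0) (nat_lit 1) (nat_lit 0) (nat_lit 1) (nat_lit 0) (nat_lit 421) (nat_lit 404) (nat_lit 255)) (XT.nd (nat_lit 94) (nat_lit 0) (nat_lit 0) (XT.lf (nat_lit 0) (nat_lit 31735790514) (nat_lit 0) (nat_lit 0) (nat_lit 0) (nat_lit 0) (nat_lit 0) (nat_lit 0) (nat_lit 1) (nat_lit 0) (nat_lit 1) (nat_lit 0) (nat_lit 422) (nat_lit 404) (nat_lit 254)) (XT.lf (nat_lit 0) (nat_lit 31735767729) (nat_lit 0) (nat_lit 0) (nat_lit 0) (nat_lit 0) (nat_lit 0) (nat_lit 0)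 (nat_lit 1) (nat_lit 0) (nat_lit 1) (nat_lit 0) (nat_lit 423) (nat_lit 404) (nat_lit 253))))) (XT.nd (nat_lit 188) (nat_lit 0) (nat_lit 0) (XT.nd (nat_lit 94) (nat_lit 0) (nat_lit 0) (XT.lf (nat_lit 0) (nat_lit 31735746632) (nat_lit 0) (nat_lit 0) (nat_lit 0) (nat_lit 0) (nat_lit 0) (nat_lit 0) (nat_lit 1) (nat_lit 0) (nat_lit 1) (nat_lit 0) (nat_lit 424) (nat_lit 404) (nat_lit 252)) (XT.lf (nat_lit 0) (nat_lit 31735727097) (nat_lit 0) (nat_lit 0) (nat_lit 0) (nat_lit 0) (nat_lit 0) (nat_lit 0) (nat_lit 1) (nat_lit 0) (nat_lit 1) (nat_lit 0) (nat_lit 425) (nat_lit 404) (nat_lit 251))) (XT.nd (nat_lit 94) (nat_lit 0) (nat_lit 0) (XT.lf (nat_lit 0) (nat_lit 31735709010) (nat_lit 0) (nat_lit 0) (nat_lit 0) (nat_lit 0) (nat_lit 0) (nat_lit 0) (nat_lit 1) (nat_lit 0) (nat_lit 1) (nat_lit 0) (nat_lit 426) (nat_lit 404) (nat_lit 250)) (XT.nd (nat_lit 94) (nat_lit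 0) (nat_lit 0) (XT.lf (nat_lit 0) (nat_lit 31735692262) (nat_lit 0) (nat_lit 0) (nat_lit 0) (nat_lit 0) (nat_lit 0) (nat_lit 0) (nat_lit 1) (nat_lit 0) (nat_lit 1) (nat_lit 0) (nat_lit 427) (nat_lit 404) (nat_lit 249)) (XT.lf (nat_lit 0) (nat_lit 31735676755) (nat_lit 0) (nat_lit 0) (nat_lit 0) (nat_lit 0) (nat_lit 0) (nat_lit 0) (nat_lit 1) (nat_lit 0) (nat_lit 1) (nat_lit 0) (nat_lit 428) (nat_lit 404) (nat_lit 248))))))) (XT.nd (nat_lit 846) (nat_lit 0) (nat_lit 0) (XT.nd (nat_lit 376) (nat_lit 0) (nat_lit 0) (XT.nd (nat_lit 188) (nat_lit 0) (nat_lit 0) (XT.nd (nat_lit 94) (nat_lit 0) (nat_lit 0) (XT.lf (nat_lit 0) (nat_lit 31735662397) (nat_lit 0) (nat_lit 0) (nat_lit 0) (nat_lit 0) (nat_lit 0) (nat_lit 0) (nat_lit 1) (nat_lit 0) (nat_lit 1) (nat_lit 0) (nat_lit 429) (nat_lit 404) (nat_lit 247)) (XT.lf (nat_lit 0) (nat_lit 31735649102) (nat_lit 0) (nat_lit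 0) (nat_lit 0) (nat_lit 0) (nat_lit 0) (nat_lit 0) (nat_lit 1) (nat_lit 0) (nat_lit 1) (nat_lit 0) (nat_lit 430) (nat_lit 404) (nat_lit 246))) (XT.nd (nat_lit 94) (nat_lit 0) (nat_lit 0) (XT.lf (nat_lit 0) (nat_lit 31735636792) (nat_lit 0) (nat_lit 0) (nat_lit 0) (nat_lit 0) (nat_lit 0) (nat_lit 0) (nat_lit 1) (nat_lit 0) (nat_lit 1) (nat_lit 0) (nat_lit 431) (nat_lit 404) (nat_lit 245)) (XT.lf (nat_lit 0) (nat_lit 31735625394) (nat_lit 0) (nat_lit 0) (nat_lit 0) (nat_lit 0) (nat_lit 0) (nat_lit 0) (nat_lit 1) (nat_lit 0) (nat_lit 1) (nat_lit 0) (nat_lit 432) (nat_lit 404) (nat_lit 244)))) (XT.nd (nat_lit 188) (nat_lit 0) (nat_lit 0) (XT.nd (nat_lit 94) (nat_lit 0) (nat_lit 0) (XT.lf (nat_lit 0) (nat_lit 31735614840) (nat_lit 0) (nat_lit 0) (nat_lit 0) (nat_lit 0) (nat_lit 0) (nat_lit 0) (nat_lit 1) (nat_lit 0) (nat_lit 1) (nat_lit 0) (nat_lit 433) (nat_lit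 404) (nat_lit 243)) (XT.lf (nat_lit 0) (nat_lit 31735605068) (nat_lit 0) (nat_lit 0) (nat_lit 0) (nat_lit 0) (nat_lit 0) (nat_lit 0) (nat_lit 1) (nat_lit 0) (nat_lit 1) (nat_lit 0) (nat_lit 434) (nat_lit 404) (nat_lit 242))) (XT.nd (nat_lit 94) (nat_lit 0) (nat_lit 0) (XT.lf (nat_lit 0) (nat_lit 31735596020) (nat_lit 0) (nat_lit 0) (nat_lit 0) (nat_lit 0) (nat_lit 0) (nat_lit 0) (nat_lit 1) (nat_lit 0) (nat_lit 1) (nat_lit 0) (nat_lit 435) (nat_lit 404) (nat_lit 241)) (XT.nd (nat_lit 94) (nat_lit 0) (nat_lit 0) (XT.lf (nat_lit 0) (nat_lit 31735587642) (nat_lit 0) (nat_lit 0) (nat_lit 0) (nat_lit 0) (nat_lit 0) (nat_lit 0) (nat_lit 1) (nat_lit 0) (nat_lit 1) (nat_lit 0) (nat_lit 436) (nat_lit 404) (nat_lit 240)) (XT.lf (nat_lit 0) (nat_lit 31735579884) (nat_lit 0) (nat_lit 0) (nat_lit 0) (nat_lit 0) (nat_lit 0) (nat_lit 0) (nat_lit 1) (nat_lit 0) (nat_lit 1)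 (nat_lit 0) (nat_lit 437) (nat_lit 404) (nat_lit 239)))))) (XT.nd (nat_lit 52170) (nat_lit 0) (nat_lit 10836) (XT.nd (nat_lit 188) (nat_lit 0) (nat_lit 0) (XT.nd (nat_lit 94) (nat_lit 0) (nat_lit 0) (XT.lf (nat_lit 0) (nat_lit 31735572702) (nat_lit 0) (nat_lit 0) (nat_lit 0) (nat_lit 0) (nat_lit 0) (nat_lit 0) (nat_lit 1) (nat_lit 0) (nat_lit 1) (nat_lit 0) (nat_lit 438) (nat_lit 404) (nat_lit 238)) (XT.lf (nat_lit 0) (nat_lit 31735566051) (nat_lit 0) (nat_lit 0) (nat_lit 0) (nat_lit 0) (nat_lit 0) (nat_lit 0) (nat_lit 1) (nat_lit 0) (nat_lit 1) (nat_lit 0) (nat_lit 439) (nat_lit 404) (nat_lit 237))) (XT.nd (nat_lit 51794) (nat_lit 0) (nat_lit 10752) (XT.lf (nat_lit 0) (nat_lit 31735559893) (nat_lit 0) (nat_lit 0) (nat_lit 0) (nat_lit 0) (nat_lit 0) (nat_lit 0) (nat_lit 1) (nat_lit 0) (nat_lit 1) (nat_lit 0) (nat_lit 440) (nat_lit 404) (nat_lit 236)) (XT.nd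 (nat_lit 94) (nat_lit 0) (nat_lit 84) (XT.lf (nat_lit 924) (nat_lit 17152154337) (nat_lit 0) (nat_lit 30453610601) (nat_lit 924) (nat_lit 17152154337) (nat_lit 139) (nat_lit 1) (nat_lit 128) (nat_lit 0) (nat_lit 139) (nat_lit 0) (nat_lit 270) (nat_lit 405) (nat_lit 405)) (XT.lf (nat_lit 924) (nat_lit 6398279867) (nat_lit 0) (nat_lit 59789667376) (nat_lit 840) (nat_lit 58474094941) (nat_lit 140) (nat_lit 1) (nat_lit 129) (nat_lit 1) (nat_lit 139) (nat_lit 1) (nat_lit 271) (nat_lit 405) (nat_lit 404))))) (XT.nd (nat_lit 188) (nat_lit 0) (nat_lit 168) (XT.nd (nat_lit 94) (nat_lit 0) (nat_lit 84) (XT.lf (nat_lit 924) (nat_lit 58764507438) (nat_lit 84) (nat_lit 40041160396) (nat_lit 0) (nat_lit 21236004952) (nat_lit 140) (nat_lit 1) (nat_lit 130) (nat_lit 1) (nat_lit 129) (nat_lit 1) (nat_lit 272) (nat_lit 405) (nat_lit 403)) (XT.lf (nat_lit 924) (nat_lit 50777348484)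 (nat_lit 84) (nat_lit 16780972782) (nat_lit 0) (nat_lit 48094197124) (nat_lit 141) (nat_lit 1) (nat_lit 131) (nat_lit 1) (nat_lit 130) (nat_lit 1) (nat_lit 273) (nat_lit 405) (nat_lit 402))) (XT.nd (nat_lit 94) (nat_lit 0) (nat_lit 84) (XT.lf (nat_lit 924) (nat_lit 37579554819) (nat_lit 0) (nat_lit 70309570757) (nat_lit 840) (nat_lit 3594215211) (nat_lit 142) (nat_lit 1) (nat_lit 131) (nat_lit 1) (nat_lit 141) (nat_lit 1) (nat_lit 274) (nat_lit 405) (nat_lit 401)) (XT.nd (nat_lit 94) (nat_lit 0) (nat_lit 0) (XT.lf (nat_lit 924) (nat_lit 9016845721) (nat_lit 0) (nat_lit 77535834516) (nat_lit 840) (nat_lit 20960590361) (nat_lit 143) (nat_lit 1) (nat_lit 132) (nat_lit 1) (nat_lit 142) (nat_lit 1) (nat_lit 275) (nat_lit 405) (nat_lit 400)) (XT.lf (nat_lit 924) (nat_lit 17326710015) (nat_lit 84) (nat_lit 67384954208) (nat_lit 0) (nat_lit 19016865450) (nat_lit 143)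 (nat_lit 1) (nat_lit 133) (nat_lit 1) (nat_lit 132) (nat_lit 1) (nat_lit 276) (nat_lit 405) (nat_lit 399))))))))
noncomputable def ec172 : XT := (XT.nd (nat_lit 1692) (nat_lit 3192) (nat_lit 0) (XT.nd (nat_lit 846) (nat_lit 2436) (nat_lit 0) (XT.nd (nat_lit 376) (nat_lit 1428) (nat_lit 0) (XT.nd (nat_lit 188) (nat_lit 840) (nat_lit 0) (XT.nd (nat_lit 94) (nat_lit 588) (nat_lit 0) (XT.lf (nat_lit 924) (nat_lit 3558511135) (nat_lit 0) (nat_lit 50374710614) (nat_lit 840) (nat_lit 46193081815) (nat_lit 134) (nat_lit 1) (nat_lit 123) (nat_lit 1) (nat_lit 133) (nat_lit 1) (nat_lit 277) (nat_lit 405) (nat_lit 398)) (XT.lf (nat_lit 84) (nat_lit 24639872366) (nat_lit 0) (nat_lit 10677603343) (nat_lit 588) (nat_lit 61377163674) (nat_lit 117) (nat_lit 1) (nat_lit 116) (nat_lit 1) (nat_lit 123) (nat_lit 1) (nat_lit 278) (nat_lit 405) (nat_lit 397))) (XT.nd (nat_lit 94)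 (nat_lit 420) (nat_lit 0) (XT.lf (nat_lit 504) (nat_lit 67904386900) (nat_lit 0) (nat_lit 22104341836) (nat_lit 420) (nat_lit 3417467828) (nat_lit 117) (nat_lit 1) (nat_lit 111) (nat_lit 1) (nat_lit 116) (nat_lit 1) (nat_lit 279) (nat_lit 405) (nat_lit 396)) (XT.lf (nat_lit 504) (nat_lit 49000452222) (nat_lit 0) (nat_lit 10302928947) (nat_lit 420) (nat_lit 30994909774) (nat_lit 112) (nat_lit 1) (nat_lit 106) (nat_lit 1) (nat_lit 111) (nat_lit 1) (nat_lit 280) (nat_lit 405) (nat_lit 395)))) (XT.nd (nat_lit 188) (nat_lit 1092) (nat_lit 0) (XT.nd (nat_lit 94) (nat_lit 0) (nat_lit 0) (XT.lf (nat_lit 420) (nat_lit 29816150228) (nat_lit 0) (nat_lit 189693665) (nat_lit 336) (nat_lit 57316206771) (nat_lit 107) (nat_lit 1) (nat_lit 102) (nat_lit 1) (nat_lit 106) (nat_lit 1) (nat_lit 281) (nat_lit 405) (nat_lit 394)) (XT.lf (nat_lit 84) (nat_lit 2199694653) (nat_lit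 0) (nat_lit 74184362506) (nat_lit 420) (nat_lit 8098665592) (nat_lit 103) (nat_lit 1) (nat_lit 102) (nat_lit 1) (nat_lit 107) (nat_lit 1) (nat_lit 282) (nat_lit 405) (nat_lit 393))) (XT.nd (nat_lit 94) (nat_lit 672) (nat_lit 0) (XT.lf (nat_lit 84) (nat_lit 56796686477) (nat_lit 0) (nat_lit 9420338173) (nat_lit 420) (nat_lit 15535848510) (nat_lit 98) (nat_lit 1) (nat_lit 97) (nat_lit 1) (nat_lit 102) (nat_lit 1) (nat_lit 283) (nat_lit 405) (nat_lit 392)) (XT.nd (nat_lit 94) (nat_lit 336) (nat_lit 0) (XT.lf (nat_lit 84) (nat_lit 28416821509) (nat_lit 0) (nat_lit 28856168087) (nat_lit 420) (nat_lit 21870652646) (nat_lit 94) (nat_lit 1) (nat_lit 93) (nat_lit 1) (nat_lit 98) (nat_lit 1) (nat_lit 284) (nat_lit 405) (nat_lit 391)) (XT.lf (nat_lit 84) (nat_lit 1402591296) (nat_lit 0) (nat_lit 48247064969) (nat_lit 420) (nat_lit 27008293521) (nat_lit 90) (nat_lit 1)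 (nat_lit 89) (nat_lit 1) (nat_lit 94) (nat_lit 1) (nat_lit 285) (nat_lit 405) (nat_lit 390)))))) (XT.nd (nat_lit 376) (nat_lit 1260) (nat_lit 0) (XT.nd (nat_lit 188) (nat_lit 504) (nat_lit 0) (XT.nd (nat_lit 94) (nat_lit 420) (nat_lit 0) (XT.lf (nat_lit 336) (nat_lit 6334023245) (nat_lit 0) (nat_lit 42833967305) (nat_lit 252) (nat_lit 25101689273) (nat_lit 90) (nat_lit 1) (nat_lit 86) (nat_lit 1) (nat_lit 89) (nat_lit 1) (nat_lit 286) (nat_lit 405) (nat_lit 389)) (XT.lf (nat_lit 84) (nat_lit 21885753276) (nat_lit 0) (nat_lit 15000631287) (nat_lit 420) (nat_lit 35093689059) (nat_lit 82) (nat_lit 1) (nat_lit 81) (nat_lit 1) (nat_lit 86) (nat_lit 1) (nat_lit 287) (nat_lit 405) (nat_lit 388))) (XT.nd (nat_lit 94) (nat_lit 252) (nat_lit 0) (XT.lf (nat_lit 336) (nat_lit 33884410278) (nat_lit 0) (nat_lit 31830023999) (nat_lit 252) (nat_lit 4074205295) (nat_lit 82)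 (nat_lit 1) (nat_lit 78) (nat_lit 1) (nat_lit 81) (nat_lit 1) (nat_lit 288) (nat_lit 405) (nat_lit 387)) (XT.lf (nat_lit 336) (nat_lit 10859789796) (nat_lit 0) (nat_lit 27404347236) (nat_lit 252) (nat_lit 29417285912) (nat_lit 79) (nat_lit 1) (nat_lit 75) (nat_lit 1) (nat_lit 78) (nat_lit 1) (nat_lit 289) (nat_lit 405) (nat_lit 386)))) (XT.nd (nat_lit 188) (nat_lit 672) (nat_lit 0) (XT.nd (nat_lit 94) (nat_lit 252) (nat_lit 0) (XT.lf (nat_lit 84) (nat_lit 12377536293) (nat_lit 0) (nat_lit 11332710108) (nat_lit 336) (nat_lit 41951476591) (nat_lit 72) (nat_lit 1) (nat_lit 71) (nat_lit 1) (nat_lit 75) (nat_lit 1) (nat_lit 290) (nat_lit 405) (nat_lit 385)) (XT.lf (nat_lit 336) (nat_lit 30799874517) (nat_lit 0) (nat_lit 20493095148) (nat_lit 252) (nat_lit 12422981657) (nat_lit 72) (nat_lit 1) (nat_lit 68) (nat_lit 1) (nat_lit 71) (nat_lit 1) (nat_lit 291) (nat_lit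 405) (nat_lit 384))) (XT.nd (nat_lit 94) (nat_lit 504) (nat_lit 0) (XT.lf (nat_lit 252) (nat_lit 7635334370) (nat_lit 0) (nat_lit 17878730746) (nat_lit 168) (nat_lit 36334612394) (nat_lit 69) (nat_lit 1) (nat_lit 66) (nat_lit 1) (nat_lit 68) (nat_lit 1) (nat_lit 292) (nat_lit 405) (nat_lit 383)) (XT.nd (nat_lit 94) (nat_lit 168) (nat_lit 0) (XT.lf (nat_lit 84) (nat_lit 1293474422) (nat_lit 0) (nat_lit 14474259591) (nat_lit 336) (nat_lit 44286050139) (nat_lit 63) (nat_lit 1) (nat_lit 62) (nat_lit 1) (nat_lit 66) (nat_lit 1) (nat_lit 293) (nat_lit 405) (nat_lit 382)) (XT.lf (nat_lit 252) (nat_lit 22186880696) (nat_lit 0) (nat_lit 13864897026) (nat_lit 168) (nat_lit 22264091265) (nat_lit 63) (nat_lit 1) (nat_lit 60) (nat_lit 1) (nat_lit 62) (nat_lit 1) (nat_lit 294) (nat_lit 405) (nat_lit 381))))))) (XT.nd (nat_lit 846) (nat_lit 1512) (nat_lit 0) (XT.nd (nat_lit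 376) (nat_lit 840) (nat_lit 0) (XT.nd (nat_lit 188) (nat_lit 420) (nat_lit 0) (XT.nd (nat_lit 94) (nat_lit 168) (nat_lit 0) (XT.lf (nat_lit 84) (nat_lit 12037674270) (nat_lit 0) (nat_lit 556027721) (nat_lit 252) (nat_lit 44060088460) (nat_lit 58) (nat_lit 1) (nat_lit 57) (nat_lit 1) (nat_lit 60) (nat_lit 1) (nat_lit 295) (nat_lit 405) (nat_lit 380)) (XT.lf (nat_lit 252) (nat_lit 32908676925) (nat_lit 0) (nat_lit 11403594429) (nat_lit 168) (nat_lit 10727789243) (nat_lit 58) (nat_lit 1) (nat_lit 55) (nat_lit 1) (nat_lit 57) (nat_lit 1) (nat_lit 296) (nat_lit 405) (nat_lit 379))) (XT.nd (nat_lit 94) (nat_lit 252) (nat_lit 0) (XT.lf (nat_lit 252) (nat_lit 10222753795) (nat_lit 0) (nat_lit 10600902050) (nat_lit 168) (nat_lit 32664374852) (nat_lit 56) (nat_lit 1) (nat_lit 53) (nat_lit 1) (nat_lit 55) (nat_lit 1) (nat_lit 297) (nat_lit 405) (nat_lit 378)) (XT.lf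 (nat_lit 252) (nat_lit 40580575602) (nat_lit 0) (nat_lit 10128301486) (nat_lit 168) (nat_lit 1284892548) (nat_lit 53) (nat_lit 1) (nat_lit 50) (nat_lit 1) (nat_lit 52) (nat_lit 1) (nat_lit 298) (nat_lit 405) (nat_lit 377)))) (XT.nd (nat_lit 188) (nat_lit 504) (nat_lit 0) (XT.nd (nat_lit 94) (nat_lit 168) (nat_lit 0) (XT.lf (nat_lit 252) (nat_lit 18161984888) (nat_lit 0) (nat_lit 9669113195) (nat_lit 168) (nat_lit 22709931289) (nat_lit 51) (nat_lit 1) (nat_lit 48) (nat_lit 1) (nat_lit 50) (nat_lit 1) (nat_lit 299) (nat_lit 405) (nat_lit 376)) (XT.lf (nat_lit 84) (nat_lit 6221181039) (nat_lit 0) (nat_lit 3419441433) (nat_lit 168) (nat_lit 39507922549) (nat_lit 47) (nat_lit 1) (nat_lit 46) (nat_lit 1) (nat_lit 48) (nat_lit 1) (nat_lit 300) (nat_lit 405) (nat_lit 375))) (XT.nd (nat_lit 94) (nat_lit 336) (nat_lit 0) (XT.lf (nat_lit 252) (nat_lit 23829568682) (nat_lit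 0) (nat_lit 9538539012) (nat_lit 168) (nat_lit 14423090994) (nat_lit 47) (nat_lit 1) (nat_lit 44) (nat_lit 1) (nat_lit 46) (nat_lit 1) (nat_lit 301) (nat_lit 405) (nat_lit 374)) (XT.nd (nat_lit 94) (nat_lit 252) (nat_lit 0) (XT.lf (nat_lit 168) (nat_lit 2566105933) (nat_lit 0) (nat_lit 9772817856) (nat_lit 84) (nat_lit 34148514853) (nat_lit 45) (nat_lit 1) (nat_lit 43) (nat_lit 1) (nat_lit 44) (nat_lit 1) (nat_lit 302) (nat_lit 405) (nat_lit 373)) (XT.lf (nat_lit 252) (nat_lit 27700166154) (nat_lit 0) (nat_lit 9994984757) (nat_lit 168) (nat_lit 7524476374) (nat_lit 43) (nat_lit 1) (nat_lit 40) (nat_lit 1) (nat_lit 42) (nat_lit 1) (nat_lit 303) (nat_lit 405) (nat_lit 372)))))) (XT.nd (nat_lit 470) (nat_lit 756) (nat_lit 0) (XT.nd (nat_lit 188) (nat_lit 420) (nat_lit 0) (XT.nd (nat_lit 94) (nat_lit 252) (nat_lit 0) (XT.lf (nat_lit 168) (nat_lit 6966796048) (nat_lit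 0) (nat_lit 10368707309) (nat_lit 84) (nat_lit 26659040362) (nat_lit 41) (nat_lit 1) (nat_lit 39) (nat_lit 1) (nat_lit 40) (nat_lit 1) (nat_lit 304) (nat_lit 405) (nat_lit 371)) (XT.lf (nat_lit 252) (nat_lit 30157546768) (nat_lit 0) (nat_lit 10868793130) (nat_lit 168) (nat_lit 1783661994) (nat_lit 39) (nat_lit 1) (nat_lit 36) (nat_lit 1) (nat_lit 38) (nat_lit 1) (nat_lit 305) (nat_lit 405) (nat_lit 370))) (XT.nd (nat_lit 94) (nat_lit 336) (nat_lit 0) (XT.lf (nat_lit 168) (nat_lit 10026175302) (nat_lit 0) (nat_lit 11330847440) (nat_lit 84) (nat_lit 20300191728) (nat_lit 37) (nat_lit 1) (nat_lit 35) (nat_lit 1) (nat_lit 36) (nat_lit 1) (nat_lit 306) (nat_lit 405) (nat_lit 369)) (XT.nd (nat_lit 94) (nat_lit 84) (nat_lit 0) (XT.lf (nat_lit 84) (nat_lit 2893953197) (nat_lit 0) (nat_lit 9083347670) (nat_lit 252) (nat_lit 28568540147) (nat_lit 33) (nat_lit 1) (nat_lit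 32) (nat_lit 1) (nat_lit 35) (nat_lit 1) (nat_lit 307) (nat_lit 405) (nat_lit 368)) (XT.lf (nat_lit 168) (nat_lit 12032314951) (nat_lit 0) (nat_lit 12537101860) (nat_lit 84) (nat_lit 14892651021) (nat_lit 33) (nat_lit 1) (nat_lit 31) (nat_lit 1) (nat_lit 32) (nat_lit 1) (nat_lit 308) (nat_lit 405) (nat_lit 367))))) (XT.nd (nat_lit 188) (nat_lit 420) (nat_lit 0) (XT.nd (nat_lit 94) (nat_lit 84) (nat_lit 0) (XT.lf (nat_lit 84) (nat_lit 6730257572) (nat_lit 0) (nat_lit 6518709557) (nat_lit 252) (nat_lit 25167413967) (nat_lit 29) (nat_lit 1) (nat_lit 28) (nat_lit 1) (nat_lit 31) (nat_lit 1) (nat_lit 309) (nat_lit 405) (nat_lit 366)) (XT.lf (nat_lit 168) (nat_lit 13217524972) (nat_lit 0) (nat_lit 13892129333) (nat_lit 84) (nat_lit 10287756953) (nat_lit 29) (nat_lit 1) (nat_lit 27) (nat_lit 1) (nat_lit 28) (nat_lit 1) (nat_lit 310) (nat_lit 405) (nat_lit 365)))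 (XT.nd (nat_lit 94) (nat_lit 252) (nat_lit 0) (XT.lf (nat_lit 84) (nat_lit 9908495451) (nat_lit 0) (nat_lit 4721220791) (nat_lit 168) (nat_lit 21782377056) (nat_lit 26) (nat_lit 1) (nat_lit 25) (nat_lit 1) (nat_lit 27) (nat_lit 1) (nat_lit 311) (nat_lit 405) (nat_lit 364)) (XT.nd (nat_lit 94) (nat_lit 168) (nat_lit 0) (XT.lf (nat_lit 168) (nat_lit 13768773440) (nat_lit 0) (nat_lit 15322161514) (nat_lit 84) (nat_lit 6362036368) (nat_lit 26) (nat_lit 1) (nat_lit 24) (nat_lit 1) (nat_lit 25) (nat_lit 1) (nat_lit 312) (nat_lit 405) (nat_lit 363)) (XT.lf (nat_lit 84) (nat_lit 12533325471) (nat_lit 0) (nat_lit 3522092271) (nat_lit 168) (nat_lit 18467933195) (nat_lit 23) (nat_lit 1) (nat_lit 22) (nat_lit 1) (nat_lit 24) (nat_lit 1) (nat_lit 313) (nat_lit 405) (nat_lit 362))))))))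
noncomputable def ec173 : XT := (XT.nd (nat_lit 1786) (nat_lit 0) (nat_lit 0) (XT.nd (nat_lit 846) (nat_lit 756) (nat_lit 0) (XT.nd (nat_lit 376) (nat_lit 588) (nat_lit 0) (XT.nd (nat_lit 188) (nat_lit 252) (nat_lit 0) (XT.nd (nat_lit 94) (nat_lit 168) (nat_lit 0) (XT.lf (nat_lit 168) (nat_lit 13836182421) (nat_lit 0) (nat_lit 16770758780) (nat_lit 84) (nat_lit 3012728949) (nat_lit 23) (nat_lit 1) (nat_lit 21) (nat_lit 1) (nat_lit 22) (nat_lit 1) (nat_lit 314) (nat_lit 405) (nat_lit 361)) (XT.lf (nat_lit 84) (nat_lit 14691730636) (nat_lit 0) (nat_lit 2785601870) (nat_lit 168) (nat_lit 15264287829) (nat_lit 20) (nat_lit 1) (nat_lit 19) (nat_lit 1) (nat_lit 21) (nat_lit 1) (nat_lit 315) (nat_lit 405) (nat_lit 360))) (XT.nd (nat_lit 94) (nat_lit 168) (nat_lit 0) (XT.lf (nat_lit 168) (nat_lit 13539954019) (nat_lit 0) (nat_lit 18195363426) (nat_lit 84) (nat_lit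 154123549) (nat_lit 20) (nat_lit 1) (nat_lit 18) (nat_lit 1) (nat_lit 19) (nat_lit 1) (nat_lit 316) (nat_lit 405) (nat_lit 359)) (XT.lf (nat_lit 84) (nat_lit 16456147079) (nat_lit 0) (nat_lit 2402885516) (nat_lit 168) (nat_lit 12200261828) (nat_lit 17) (nat_lit 1) (nat_lit 16) (nat_lit 1) (nat_lit 18) (nat_lit 1) (nat_lit 317) (nat_lit 405) (nat_lit 358)))) (XT.nd (nat_lit 188) (nat_lit 336) (nat_lit 0) (XT.nd (nat_lit 94) (nat_lit 168) (nat_lit 0) (XT.lf (nat_lit 0) (nat_lit 2212293772) (nat_lit 0) (nat_lit 17314742747) (nat_lit 168) (nat_lit 10726255246) (nat_lit 15) (nat_lit 3) (nat_lit 15) (nat_lit 1) (nat_lit 17) (nat_lit 1) (nat_lit 318) (nat_lit 405) (nat_lit 357)) (XT.lf (nat_lit 84) (nat_lit 17887026472) (nat_lit 0) (nat_lit 2286876562) (nat_lit 168) (nat_lit 9295652096) (nat_lit 14) (nat_lit 1) (nat_lit 13) (nat_lit 1) (nat_lit 15) (nat_lit 1) (nat_lit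 319) (nat_lit 405) (nat_lit 356))) (XT.nd (nat_lit 94) (nat_lit 252) (nat_lit 0) (XT.lf (nat_lit 0) (nat_lit 4226299553) (nat_lit 0) (nat_lit 16557647922) (nat_lit 168) (nat_lit 7922743694) (nat_lit 12) (nat_lit 3) (nat_lit 12) (nat_lit 1) (nat_lit 14) (nat_lit 1) (nat_lit 320) (nat_lit 405) (nat_lit 355)) (XT.nd (nat_lit 94) (nat_lit 84) (nat_lit 0) (XT.lf (nat_lit 84) (nat_lit 19034935511) (nat_lit 0) (nat_lit 2368182185) (nat_lit 168) (nat_lit 6563141676) (nat_lit 11) (nat_lit 1) (nat_lit 10) (nat_lit 1) (nat_lit 12) (nat_lit 1) (nat_lit 321) (nat_lit 405) (nat_lit 354)) (XT.lf (nat_lit 0) (nat_lit 5941706831) (nat_lit 0) (nat_lit 16010415082) (nat_lit 168) (nat_lit 5291750980) (nat_lit 9) (nat_lit 3) (nat_lit 9) (nat_lit 1) (nat_lit 11) (nat_lit 1) (nat_lit 322) (nat_lit 405) (nat_lit 353)))))) (XT.nd (nat_lit 470) (nat_lit 0) (nat_lit 0) (XT.nd (nat_lit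 188) (nat_lit 504) (nat_lit 0) (XT.nd (nat_lit 94) (nat_lit 84) (nat_lit 0) (XT.lf (nat_lit 84) (nat_lit 19942276954) (nat_lit 0) (nat_lit 2591724357) (nat_lit 168) (nat_lit 4009843077) (nat_lit 8) (nat_lit 1) (nat_lit 7) (nat_lit 1) (nat_lit 9) (nat_lit 1) (nat_lit 323) (nat_lit 405) (nat_lit 352)) (XT.lf (nat_lit 0) (nat_lit 7399726494) (nat_lit 0) (nat_lit 15620959307) (nat_lit 168) (nat_lit 2838811907) (nat_lit 6) (nat_lit 3) (nat_lit 6) (nat_lit 1) (nat_lit 8) (nat_lit 1) (nat_lit 324) (nat_lit 405) (nat_lit 351))) (XT.nd (nat_lit 94) (nat_lit 336) (nat_lit 0) (XT.lf (nat_lit 84) (nat_lit 20644701221) (nat_lit 0) (nat_lit 2914004621) (nat_lit 168) (nat_lit 1638543131) (nat_lit 5) (nat_lit 1) (nat_lit 4) (nat_lit 1) (nat_lit 6) (nat_lit 1) (nat_lit 325) (nat_lit 405) (nat_lit 350)) (XT.nd (nat_lit 94) (nat_lit 252) (nat_lit 0) (XT.lf (nat_lit 0) (nat_lit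 8635213123) (nat_lit 0) (nat_lit 15347957925) (nat_lit 168) (nat_lit 565529280) (nat_lit 3) (nat_lit 3) (nat_lit 3) (nat_lit 1) (nat_lit 5) (nat_lit 1) (nat_lit 326) (nat_lit 405) (nat_lit 349)) (XT.lf (nat_lit 0) (nat_lit 34700719202) (nat_lit 0) (nat_lit 0) (nat_lit 0) (nat_lit 0) (nat_lit 0) (nat_lit 0) (nat_lit 1) (nat_lit 0) (nat_lit 1) (nat_lit 0) (nat_lit 327) (nat_lit 405) (nat_lit 348))))) (XT.nd (nat_lit 188) (nat_lit 0) (nat_lit 0) (XT.nd (nat_lit 94) (nat_lit 0) (nat_lit 0) (XT.lf (nat_lit 0) (nat_lit 34669134191) (nat_lit 0) (nat_lit 0) (nat_lit 0) (nat_lit 0) (nat_lit 0) (nat_lit 0) (nat_lit 1) (nat_lit 0) (nat_lit 1) (nat_lit 0) (nat_lit 328) (nat_lit 405) (nat_lit 347)) (XT.lf (nat_lit 0) (nat_lit 34639888810) (nat_lit 0) (nat_lit 0) (nat_lit 0) (nat_lit 0) (nat_lit 0) (nat_lit 0) (nat_lit 1) (nat_lit 0) (nat_lit 1) (nat_lit 0) (nat_lit 329)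 (nat_lit 405) (nat_lit 346))) (XT.nd (nat_lit 94) (nat_lit 0) (nat_lit 0) (XT.lf (nat_lit 0) (nat_lit 34612809754) (nat_lit 0) (nat_lit 0) (nat_lit 0) (nat_lit 0) (nat_lit 0) (nat_lit 0) (nat_lit 1) (nat_lit 0) (nat_lit 1) (nat_lit 0) (nat_lit 330) (nat_lit 405) (nat_lit 345)) (XT.nd (nat_lit 94) (nat_lit 0) (nat_lit 0) (XT.lf (nat_lit 0) (nat_lit 34587736553) (nat_lit 0) (nat_lit 0) (nat_lit 0) (nat_lit 0) (nat_lit 0) (nat_lit 0) (nat_lit 1) (nat_lit 0) (nat_lit 1) (nat_lit 0) (nat_lit 331) (nat_lit 405) (nat_lit 344)) (XT.lf (nat_lit 0) (nat_lit 34564520627) (nat_lit 0) (nat_lit 0) (nat_lit 0) (nat_lit 0) (nat_lit 0) (nat_lit 0) (nat_lit 1) (nat_lit 0) (nat_lit 1) (nat_lit 0) (nat_lit 332) (nat_lit 405) (nat_lit 343))))))) (XT.nd (nat_lit 846) (nat_lit 0) (nat_lit 0) (XT.nd (nat_lit 376) (nat_lit 0) (nat_lit 0) (XT.nd (nat_lit 188) (nat_lit 0) (nat_lit 0)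 (XT.nd (nat_lit 94) (nat_lit 0) (nat_lit 0) (XT.lf (nat_lit 0) (nat_lit 34543024399) (nat_lit 0) (nat_lit 0) (nat_lit 0) (nat_lit 0) (nat_lit 0) (nat_lit 0) (nat_lit 1) (nat_lit 0) (nat_lit 1) (nat_lit 0) (nat_lit 333) (nat_lit 405) (nat_lit 342)) (XT.lf (nat_lit 0) (nat_lit 34523120485) (nat_lit 0) (nat_lit 0) (nat_lit 0) (nat_lit 0) (nat_lit 0) (nat_lit 0) (nat_lit 1) (nat_lit 0) (nat_lit 1) (nat_lit 0) (nat_lit 334) (nat_lit 405) (nat_lit 341))) (XT.nd (nat_lit 94) (nat_lit 0) (nat_lit 0) (XT.lf (nat_lit 0) (nat_lit 34504690934) (nat_lit 0) (nat_lit 0) (nat_lit 0) (nat_lit 0) (nat_lit 0) (nat_lit 0) (nat_lit 1) (nat_lit 0) (nat_lit 1) (nat_lit 0) (nat_lit 335) (nat_lit 405) (nat_lit 340)) (XT.lf (nat_lit 0) (nat_lit 34487626535) (nat_lit 0) (nat_lit 0) (nat_lit 0) (nat_lit 0) (nat_lit 0) (nat_lit 0) (nat_lit 1) (nat_lit 0) (nat_lit 1) (nat_lit 0) (nat_lit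 336) (nat_lit 405) (nat_lit 339)))) (XT.nd (nat_lit 188) (nat_lit 0) (nat_lit 0) (XT.nd (nat_lit 94) (nat_lit 0) (nat_lit 0) (XT.lf (nat_lit 0) (nat_lit 34471826166) (nat_lit 0) (nat_lit 0) (nat_lit 0) (nat_lit 0) (nat_lit 0) (nat_lit 0) (nat_lit 1) (nat_lit 0) (nat_lit 1) (nat_lit 0) (nat_lit 337) (nat_lit 405) (nat_lit 338)) (XT.lf (nat_lit 0) (nat_lit 34457196194) (nat_lit 0) (nat_lit 0) (nat_lit 0) (nat_lit 0) (nat_lit 0) (nat_lit 0) (nat_lit 1) (nat_lit 0) (nat_lit 1) (nat_lit 0) (nat_lit 338) (nat_lit 405) (nat_lit 337))) (XT.nd (nat_lit 94) (nat_lit 0) (nat_lit 0) (XT.lf (nat_lit 0) (nat_lit 34443649924) (nat_lit 0) (nat_lit 0) (nat_lit 0) (nat_lit 0) (nat_lit 0) (nat_lit 0) (nat_lit 1) (nat_lit 0) (nat_lit 1) (nat_lit 0) (nat_lit 339) (nat_lit 405) (nat_lit 336)) (XT.nd (nat_lit 94) (nat_lit 0) (nat_lit 0) (XT.lf (nat_lit 0) (nat_lit 34431107082) (nat_lit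 0) (nat_lit 0) (nat_lit 0) (nat_lit 0) (nat_lit 0) (nat_lit 0) (nat_lit 1) (nat_lit 0) (nat_lit 1) (nat_lit 0) (nat_lit 340) (nat_lit 405) (nat_lit 335)) (XT.lf (nat_lit 0) (nat_lit 34419493339) (nat_lit 0) (nat_lit 0) (nat_lit 0) (nat_lit 0) (nat_lit 0) (nat_lit 0) (nat_lit 1) (nat_lit 0) (nat_lit 1) (nat_lit 0) (nat_lit 341) (nat_lit 405) (nat_lit 334)))))) (XT.nd (nat_lit 470) (nat_lit 0) (nat_lit 0) (XT.nd (nat_lit 188) (nat_lit 0) (nat_lit 0) (XT.nd (nat_lit 94) (nat_lit 0) (nat_lit 0) (XT.lf (nat_lit 0) (nat_lit 34408739873) (nat_lit 0) (nat_lit 0) (nat_lit 0) (nat_lit 0) (nat_lit 0) (nat_lit 0) (nat_lit 1) (nat_lit 0) (nat_lit 1) (nat_lit 0) (nat_lit 342) (nat_lit 405) (nat_lit 333)) (XT.lf (nat_lit 0) (nat_lit 34398782960) (nat_lit 0) (nat_lit 0) (nat_lit 0) (nat_lit 0) (nat_lit 0) (nat_lit 0) (nat_lit 1) (nat_lit 0) (nat_lit 1) (nat_lit 0) (nat_lit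 343) (nat_lit 405) (nat_lit 332))) (XT.nd (nat_lit 94) (nat_lit 0) (nat_lit 0) (XT.lf (nat_lit 0) (nat_lit 34389563597) (nat_lit 0) (nat_lit 0) (nat_lit 0) (nat_lit 0) (nat_lit 0) (nat_lit 0) (nat_lit 1) (nat_lit 0) (nat_lit 1) (nat_lit 0) (nat_lit 344) (nat_lit 405) (nat_lit 331)) (XT.nd (nat_lit 94) (nat_lit 0) (nat_lit 0) (XT.lf (nat_lit 0) (nat_lit 34381027149) (nat_lit 0) (nat_lit 0) (nat_lit 0) (nat_lit 0) (nat_lit 0) (nat_lit 0) (nat_lit 1) (nat_lit 0) (nat_lit 1) (nat_lit 0) (nat_lit 345) (nat_lit 405) (nat_lit 330)) (XT.lf (nat_lit 0) (nat_lit 34373123030) (nat_lit 0) (nat_lit 0) (nat_lit 0) (nat_lit 0) (nat_lit 0) (nat_lit 0) (nat_lit 1) (nat_lit 0) (nat_lit 1) (nat_lit 0) (nat_lit 346) (nat_lit 405) (nat_lit 329))))) (XT.nd (nat_lit 188) (nat_lit 0) (nat_lit 0) (XT.nd (nat_lit 94) (nat_lit 0) (nat_lit 0) (XT.lf (nat_lit 0) (nat_lit 34365804402)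 (nat_lit 0) (nat_lit 0) (nat_lit 0) (nat_lit 0) (nat_lit 0) (nat_lit 0) (nat_lit 1) (nat_lit 0) (nat_lit 1) (nat_lit 0) (nat_lit 347) (nat_lit 405) (nat_lit 328)) (XT.lf (nat_lit 0) (nat_lit 34359027895) (nat_lit 0) (nat_lit 0) (nat_lit 0) (nat_lit 0) (nat_lit 0) (nat_lit 0) (nat_lit 1) (nat_lit 0) (nat_lit 1) (nat_lit 0) (nat_lit 348) (nat_lit 405) (nat_lit 327))) (XT.nd (nat_lit 94) (nat_lit 0) (nat_lit 0) (XT.lf (nat_lit 0) (nat_lit 34352753351) (nat_lit 0) (nat_lit 0) (nat_lit 0) (nat_lit 0) (nat_lit 0) (nat_lit 0) (nat_lit 1) (nat_lit 0) (nat_lit 1) (nat_lit 0) (nat_lit 349) (nat_lit 405) (nat_lit 326)) (XT.nd (nat_lit 94) (nat_lit 0) (nat_lit 0) (XT.lf (nat_lit 0) (nat_lit 34346943588) (nat_lit 0) (nat_lit 0) (nat_lit 0) (nat_lit 0) (nat_lit 0) (nat_lit 0) (nat_lit 1) (nat_lit 0) (nat_lit 1) (nat_lit 0) (nat_lit 350) (nat_lit 405) (nat_lit 325)) (XT.lf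 (nat_lit 0) (nat_lit 34341564177) (nat_lit 0) (nat_lit 0) (nat_lit 0) (nat_lit 0) (nat_lit 0) (nat_lit 0) (nat_lit 1) (nat_lit 0) (nat_lit 1) (nat_lit 0) (nat_lit 351) (nat_lit 405) (nat_lit 324))))))))
noncomputable def ec174 : XT := (XT.nd (nat_lit 1692) (nat_lit 0) (nat_lit 0) (XT.nd (nat_lit 846) (nat_lit 0) (nat_lit 0) (XT.nd (nat_lit 376) (nat_lit 0) (nat_lit 0) (XT.nd (nat_lit 188) (nat_lit 0) (nat_lit 0) (XT.nd (nat_lit 94) (nat_lit 0) (nat_lit 0) (XT.lf (nat_lit 0) (nat_lit 34336583242) (nat_lit 0) (nat_lit 0) (nat_lit 0) (nat_lit 0) (nat_lit 0) (nat_lit 0) (nat_lit 1) (nat_lit 0) (nat_lit 1) (nat_lit 0) (nat_lit 352) (nat_lit 405) (nat_lit 323)) (XT.lf (nat_lit 0) (nat_lit 34331971265) (nat_lit 0) (nat_lit 0) (nat_lit 0) (nat_lit 0) (nat_lit 0) (nat_lit 0) (nat_lit 1) (nat_lit 0) (nat_lit 1) (nat_lit 0) (nat_lit 353) (nat_lit 405) (nat_lit 322)))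 (XT.nd (nat_lit 94) (nat_lit 0) (nat_lit 0) (XT.lf (nat_lit 0) (nat_lit 34327700916) (nat_lit 0) (nat_lit 0) (nat_lit 0) (nat_lit 0) (nat_lit 0) (nat_lit 0) (nat_lit 1) (nat_lit 0) (nat_lit 1) (nat_lit 0) (nat_lit 354) (nat_lit 405) (nat_lit 321)) (XT.lf (nat_lit 0) (nat_lit 34323746889) (nat_lit 0) (nat_lit 0) (nat_lit 0) (nat_lit 0) (nat_lit 0) (nat_lit 0) (nat_lit 1) (nat_lit 0) (nat_lit 1) (nat_lit 0) (nat_lit 355) (nat_lit 405) (nat_lit 320)))) (XT.nd (nat_lit 188) (nat_lit 0) (nat_lit 0) (XT.nd (nat_lit 94) (nat_lit 0) (nat_lit 0) (XT.lf (nat_lit 0) (nat_lit 34320085753) (nat_lit 0) (nat_lit 0) (nat_lit 0) (nat_lit 0) (nat_lit 0) (nat_lit 0) (nat_lit 1) (nat_lit 0) (nat_lit 1) (nat_lit 0) (nat_lit 356) (nat_lit 405) (nat_lit 319)) (XT.lf (nat_lit 0) (nat_lit 34316695812) (nat_lit 0) (nat_lit 0) (nat_lit 0) (nat_lit 0) (nat_lit 0) (nat_lit 0) (nat_lit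 1) (nat_lit 0) (nat_lit 1) (nat_lit 0) (nat_lit 357) (nat_lit 405) (nat_lit 318))) (XT.nd (nat_lit 94) (nat_lit 0) (nat_lit 0) (XT.lf (nat_lit 0) (nat_lit 34313556977) (nat_lit 0) (nat_lit 0) (nat_lit 0) (nat_lit 0) (nat_lit 0) (nat_lit 0) (nat_lit 1) (nat_lit 0) (nat_lit 1) (nat_lit 0) (nat_lit 358) (nat_lit 405) (nat_lit 317)) (XT.nd (nat_lit 94) (nat_lit 0) (nat_lit 0) (XT.lf (nat_lit 0) (nat_lit 34310650650) (nat_lit 0) (nat_lit 0) (nat_lit 0) (nat_lit 0) (nat_lit 0) (nat_lit 0) (nat_lit 1) (nat_lit 0) (nat_lit 1) (nat_lit 0) (nat_lit 359) (nat_lit 405) (nat_lit 316)) (XT.lf (nat_lit 0) (nat_lit 34307959605) (nat_lit 0) (nat_lit 0) (nat_lit 0) (nat_lit 0) (nat_lit 0) (nat_lit 0) (nat_lit 1) (nat_lit 0) (nat_lit 1) (nat_lit 0) (nat_lit 360) (nat_lit 405) (nat_lit 315)))))) (XT.nd (nat_lit 376) (nat_lit 0) (nat_lit 0) (XT.nd (nat_lit 188) (nat_lit 0) (nat_lit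 0) (XT.nd (nat_lit 94) (nat_lit 0) (nat_lit 0) (XT.lf (nat_lit 0) (nat_lit 34305467897) (nat_lit 0) (nat_lit 0) (nat_lit 0) (nat_lit 0) (nat_lit 0) (nat_lit 0) (nat_lit 1) (nat_lit 0) (nat_lit 1) (nat_lit 0) (nat_lit 361) (nat_lit 405) (nat_lit 314)) (XT.lf (nat_lit 0) (nat_lit 34303160761) (nat_lit 0) (nat_lit 0) (nat_lit 0) (nat_lit 0) (nat_lit 0) (nat_lit 0) (nat_lit 1) (nat_lit 0) (nat_lit 1) (nat_lit 0) (nat_lit 362) (nat_lit 405) (nat_lit 313))) (XT.nd (nat_lit 94) (nat_lit 0) (nat_lit 0) (XT.lf (nat_lit 0) (nat_lit 34301024523) (nat_lit 0) (nat_lit 0) (nat_lit 0) (nat_lit 0) (nat_lit 0) (nat_lit 0) (nat_lit 1) (nat_lit 0) (nat_lit 1) (nat_lit 0) (nat_lit 363) (nat_lit 405) (nat_lit 312)) (XT.lf (nat_lit 0) (nat_lit 34299046525) (nat_lit 0) (nat_lit 0) (nat_lit 0) (nat_lit 0) (nat_lit 0) (nat_lit 0) (nat_lit 1) (nat_lit 0) (nat_lit 1) (nat_lit 0) (nat_lit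 364) (nat_lit 405) (nat_lit 311)))) (XT.nd (nat_lit 188) (nat_lit 0) (nat_lit 0) (XT.nd (nat_lit 94) (nat_lit 0) (nat_lit 0) (XT.lf (nat_lit 0) (nat_lit 34297215045) (nat_lit 0) (nat_lit 0) (nat_lit 0) (nat_lit 0) (nat_lit 0) (nat_lit 0) (nat_lit 1) (nat_lit 0) (nat_lit 1) (nat_lit 0) (nat_lit 365) (nat_lit 405) (nat_lit 310)) (XT.lf (nat_lit 0) (nat_lit 34295519231) (nat_lit 0) (nat_lit 0) (nat_lit 0) (nat_lit 0) (nat_lit 0) (nat_lit 0) (nat_lit 1) (nat_lit 0) (nat_lit 1) (nat_lit 0) (nat_lit 366) (nat_lit 405) (nat_lit 309))) (XT.nd (nat_lit 94) (nat_lit 0) (nat_lit 0) (XT.lf (nat_lit 0) (nat_lit 34293949032) (nat_lit 0) (nat_lit 0) (nat_lit 0) (nat_lit 0) (nat_lit 0) (nat_lit 0) (nat_lit 1) (nat_lit 0) (nat_lit 1) (nat_lit 0) (nat_lit 367) (nat_lit 405) (nat_lit 308)) (XT.nd (nat_lit 94) (nat_lit 0) (nat_lit 0) (XT.lf (nat_lit 0) (nat_lit 34292495145) (nat_lit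 0) (nat_lit 0) (nat_lit 0) (nat_lit 0) (nat_lit 0) (nat_lit 0) (nat_lit 1) (nat_lit 0) (nat_lit 1) (nat_lit 0) (nat_lit 368) (nat_lit 405) (nat_lit 307)) (XT.lf (nat_lit 0) (nat_lit 34291148953) (nat_lit 0) (nat_lit 0) (nat_lit 0) (nat_lit 0) (nat_lit 0) (nat_lit 0) (nat_lit 1) (nat_lit 0) (nat_lit 1) (nat_lit 0) (nat_lit 369) (nat_lit 405) (nat_lit 306))))))) (XT.nd (nat_lit 846) (nat_lit 0) (nat_lit 0) (XT.nd (nat_lit 376) (nat_lit 0) (nat_lit 0) (XT.nd (nat_lit 188) (nat_lit 0) (nat_lit 0) (XT.nd (nat_lit 94) (nat_lit 0) (nat_lit 0) (XT.lf (nat_lit 0) (nat_lit 34289902478) (nat_lit 0) (nat_lit 0) (nat_lit 0) (nat_lit 0) (nat_lit 0) (nat_lit 0) (nat_lit 1) (nat_lit 0) (nat_lit 1) (nat_lit 0) (nat_lit 370) (nat_lit 405) (nat_lit 305)) (XT.lf (nat_lit 0) (nat_lit 34288748335) (nat_lit 0) (nat_lit 0) (nat_lit 0) (nat_lit 0) (nat_lit 0) (nat_lit 0) (nat_lit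 1) (nat_lit 0) (nat_lit 1) (nat_lit 0) (nat_lit 371) (nat_lit 405) (nat_lit 304))) (XT.nd (nat_lit 94) (nat_lit 0) (nat_lit 0) (XT.lf (nat_lit 0) (nat_lit 34287679685) (nat_lit 0) (nat_lit 0) (nat_lit 0) (nat_lit 0) (nat_lit 0) (nat_lit 0) (nat_lit 1) (nat_lit 0) (nat_lit 1) (nat_lit 0) (nat_lit 372) (nat_lit 405) (nat_lit 303)) (XT.lf (nat_lit 0) (nat_lit 34286690193) (nat_lit 0) (nat_lit 0) (nat_lit 0) (nat_lit 0) (nat_lit 0) (nat_lit 0) (nat_lit 1) (nat_lit 0) (nat_lit 1) (nat_lit 0) (nat_lit 373) (nat_lit 405) (nat_lit 302)))) (XT.nd (nat_lit 188) (nat_lit 0) (nat_lit 0) (XT.nd (nat_lit 94) (nat_lit 0) (nat_lit 0) (XT.lf (nat_lit 0) (nat_lit 34285773998) (nat_lit 0) (nat_lit 0) (nat_lit 0) (nat_lit 0) (nat_lit 0) (nat_lit 0) (nat_lit 1) (nat_lit 0) (nat_lit 1) (nat_lit 0) (nat_lit 374) (nat_lit 405) (nat_lit 301)) (XT.lf (nat_lit 0) (nat_lit 34284925668)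 (nat_lit 0) (nat_lit 0) (nat_lit 0) (nat_lit 0) (nat_lit 0) (nat_lit 0) (nat_lit 1) (nat_lit 0) (nat_lit 1) (nat_lit 0) (nat_lit 375) (nat_lit 405) (nat_lit 300))) (XT.nd (nat_lit 94) (nat_lit 0) (nat_lit 0) (XT.lf (nat_lit 0) (nat_lit 34284140178) (nat_lit 0) (nat_lit 0) (nat_lit 0) (nat_lit 0) (nat_lit 0) (nat_lit 0) (nat_lit 1) (nat_lit 0) (nat_lit 1) (nat_lit 0) (nat_lit 376) (nat_lit 405) (nat_lit 299)) (XT.nd (nat_lit 94) (nat_lit 0) (nat_lit 0) (XT.lf (nat_lit 0) (nat_lit 34283412872) (nat_lit 0) (nat_lit 0) (nat_lit 0) (nat_lit 0) (nat_lit 0) (nat_lit 0) (nat_lit 1) (nat_lit 0) (nat_lit 1) (nat_lit 0) (nat_lit 377) (nat_lit 405) (nat_lit 298)) (XT.lf (nat_lit 0) (nat_lit 34282739441) (nat_lit 0) (nat_lit 0) (nat_lit 0) (nat_lit 0) (nat_lit 0) (nat_lit 0) (nat_lit 1) (nat_lit 0) (nat_lit 1) (nat_lit 0) (nat_lit 378) (nat_lit 405) (nat_lit 297))))))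 (XT.nd (nat_lit 470) (nat_lit 0) (nat_lit 0) (XT.nd (nat_lit 188) (nat_lit 0) (nat_lit 0) (XT.nd (nat_lit 94) (nat_lit 0) (nat_lit 0) (XT.lf (nat_lit 0) (nat_lit 34282115893) (nat_lit 0) (nat_lit 0) (nat_lit 0) (nat_lit 0) (nat_lit 0) (nat_lit 0) (nat_lit 1) (nat_lit 0) (nat_lit 1) (nat_lit 0) (nat_lit 379) (nat_lit 405) (nat_lit 296)) (XT.lf (nat_lit 0) (nat_lit 34281538535) (nat_lit 0) (nat_lit 0) (nat_lit 0) (nat_lit 0) (nat_lit 0) (nat_lit 0) (nat_lit 1) (nat_lit 0) (nat_lit 1) (nat_lit 0) (nat_lit 380) (nat_lit 405) (nat_lit 295))) (XT.nd (nat_lit 94) (nat_lit 0) (nat_lit 0) (XT.lf (nat_lit 0) (nat_lit 34281003943) (nat_lit 0) (nat_lit 0) (nat_lit 0) (nat_lit 0) (nat_lit 0) (nat_lit 0) (nat_lit 1) (nat_lit 0) (nat_lit 1) (nat_lit 0) (nat_lit 381) (nat_lit 405) (nat_lit 294)) (XT.nd (nat_lit 94) (nat_lit 0) (nat_lit 0) (XT.lf (nat_lit 0) (nat_lit 34280508951)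 (nat_lit 0) (nat_lit 0) (nat_lit 0) (nat_lit 0) (nat_lit 0) (nat_lit 0) (nat_lit 1) (nat_lit 0) (nat_lit 1) (nat_lit 0) (nat_lit 382) (nat_lit 405) (nat_lit 293)) (XT.lf (nat_lit 0) (nat_lit 34280050625) (nat_lit 0) (nat_lit 0) (nat_lit 0) (nat_lit 0) (nat_lit 0) (nat_lit 0) (nat_lit 1) (nat_lit 0) (nat_lit 1) (nat_lit 0) (nat_lit 383) (nat_lit 405) (nat_lit 292))))) (XT.nd (nat_lit 188) (nat_lit 0) (nat_lit 0) (XT.nd (nat_lit 94) (nat_lit 0) (nat_lit 0) (XT.lf (nat_lit 0) (nat_lit 34279626249) (nat_lit 0) (nat_lit 0) (nat_lit 0) (nat_lit 0) (nat_lit 0) (nat_lit 0) (nat_lit 1) (nat_lit 0) (nat_lit 1) (nat_lit 0) (nat_lit 384) (nat_lit 405) (nat_lit 291)) (XT.lf (nat_lit 0) (nat_lit 34279233309) (nat_lit 0) (nat_lit 0) (nat_lit 0) (nat_lit 0) (nat_lit 0) (nat_lit 0) (nat_lit 1) (nat_lit 0) (nat_lit 1) (nat_lit 0) (nat_lit 385) (nat_lit 405) (nat_lit 290)))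 (XT.nd (nat_lit 94) (nat_lit 0) (nat_lit 0) (XT.lf (nat_lit 0) (nat_lit 34278869475) (nat_lit 0) (nat_lit 0) (nat_lit 0) (nat_lit 0) (nat_lit 0) (nat_lit 0) (nat_lit 1) (nat_lit 0) (nat_lit 1) (nat_lit 0) (nat_lit 386) (nat_lit 405) (nat_lit 289)) (XT.nd (nat_lit 94) (nat_lit 0) (nat_lit 0) (XT.lf (nat_lit 0) (nat_lit 34278532591) (nat_lit 0) (nat_lit 0) (nat_lit 0) (nat_lit 0) (nat_lit 0) (nat_lit 0) (nat_lit 1) (nat_lit 0) (nat_lit 1) (nat_lit 0) (nat_lit 387) (nat_lit 405) (nat_lit 288)) (XT.lf (nat_lit 0) (nat_lit 34278220662) (nat_lit 0) (nat_lit 0) (nat_lit 0) (nat_lit 0) (nat_lit 0) (nat_lit 0) (nat_lit 1) (nat_lit 0) (nat_lit 1) (nat_lit 0) (nat_lit 388) (nat_lit 405) (nat_lit 287))))))))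
noncomputable def ec175 : XT := (XT.nd (nat_lit 1786) (nat_lit 0) (nat_lit 0) (XT.nd (nat_lit 846) (nat_lit 0) (nat_lit 0) (XT.nd (nat_lit 376) (nat_lit 0) (nat_lit 0) (XT.nd (nat_lit 188) (nat_lit 0) (nat_lit 0) (XT.nd (nat_lit 94) (nat_lit 0) (nat_lit 0) (XT.lf (nat_lit 0) (nat_lit 34277931839) (nat_lit 0) (nat_lit 0) (nat_lit 0) (nat_lit 0) (nat_lit 0) (nat_lit 0) (nat_lit 1) (nat_lit 0) (nat_lit 1) (nat_lit 0) (nat_lit 389) (nat_lit 405) (nat_lit 286)) (XT.lf (nat_lit 0) (nat_lit 34277664411) (nat_lit 0) (nat_lit 0) (nat_lit 0) (nat_lit 0) (nat_lit 0) (nat_lit 0) (nat_lit 1) (nat_lit 0) (nat_lit 1) (nat_lit 0) (nat_lit 390) (nat_lit 405) (nat_lit 285))) (XT.nd (nat_lit 94) (nat_lit 0) (nat_lit 0) (XT.lf (nat_lit 0) (nat_lit 34277416791) (nat_lit 0) (nat_lit 0) (nat_lit 0) (nat_lit 0) (nat_lit 0) (nat_lit 0) (nat_lit 1) (nat_lit 0) (nat_lit 1) (nat_lit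 0) (nat_lit 391) (nat_lit 405) (nat_lit 284)) (XT.lf (nat_lit 0) (nat_lit 34277187514) (nat_lit 0) (nat_lit 0) (nat_lit 0) (nat_lit 0) (nat_lit 0) (nat_lit 0) (nat_lit 1) (nat_lit 0) (nat_lit 1) (nat_lit 0) (nat_lit 392) (nat_lit 405) (nat_lit 283)))) (XT.nd (nat_lit 188) (nat_lit 0) (nat_lit 0) (XT.nd (nat_lit 94) (nat_lit 0) (nat_lit 0) (XT.lf (nat_lit 0) (nat_lit 34276975221) (nat_lit 0) (nat_lit 0) (nat_lit 0) (nat_lit 0) (nat_lit 0) (nat_lit 0) (nat_lit 1) (nat_lit 0) (nat_lit 1) (nat_lit 0) (nat_lit 393) (nat_lit 405) (nat_lit 282)) (XT.lf (nat_lit 0) (nat_lit 34276778652) (nat_lit 0) (nat_lit 0) (nat_lit 0) (nat_lit 0) (nat_lit 0) (nat_lit 0) (nat_lit 1) (nat_lit 0) (nat_lit 1) (nat_lit 0) (nat_lit 394) (nat_lit 405) (nat_lit 281))) (XT.nd (nat_lit 94) (nat_lit 0) (nat_lit 0) (XT.lf (nat_lit 0) (nat_lit 34276596645) (nat_lit 0) (nat_lit 0) (nat_lit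 0) (nat_lit 0) (nat_lit 0) (nat_lit 0) (nat_lit 1) (nat_lit 0) (nat_lit 1) (nat_lit 0) (nat_lit 395) (nat_lit 405) (nat_lit 280)) (XT.nd (nat_lit 94) (nat_lit 0) (nat_lit 0) (XT.lf (nat_lit 0) (nat_lit 34276428119) (nat_lit 0) (nat_lit 0) (nat_lit 0) (nat_lit 0) (nat_lit 0) (nat_lit 0) (nat_lit 1) (nat_lit 0) (nat_lit 1) (nat_lit 0) (nat_lit 396) (nat_lit 405) (nat_lit 279)) (XT.lf (nat_lit 0) (nat_lit 34276272077) (nat_lit 0) (nat_lit 0) (nat_lit 0) (nat_lit 0) (nat_lit 0) (nat_lit 0) (nat_lit 1) (nat_lit 0) (nat_lit 1) (nat_lit 0) (nat_lit 397) (nat_lit 405) (nat_lit 278)))))) (XT.nd (nat_lit 470) (nat_lit 0) (nat_lit 0) (XT.nd (nat_lit 188) (nat_lit 0) (nat_lit 0) (XT.nd (nat_lit 94) (nat_lit 0) (nat_lit 0) (XT.lf (nat_lit 0) (nat_lit 34276127594) (nat_lit 0) (nat_lit 0) (nat_lit 0) (nat_lit 0) (nat_lit 0) (nat_lit 0) (nat_lit 1) (nat_lit 0) (nat_lit 1)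 (nat_lit 0) (nat_lit 398) (nat_lit 405) (nat_lit 277)) (XT.lf (nat_lit 0) (nat_lit 34275993813) (nat_lit 0) (nat_lit 0) (nat_lit 0) (nat_lit 0) (nat_lit 0) (nat_lit 0) (nat_lit 1) (nat_lit 0) (nat_lit 1) (nat_lit 0) (nat_lit 399) (nat_lit 405) (nat_lit 276))) (XT.nd (nat_lit 94) (nat_lit 0) (nat_lit 0) (XT.lf (nat_lit 0) (nat_lit 34275869941) (nat_lit 0) (nat_lit 0) (nat_lit 0) (nat_lit 0) (nat_lit 0) (nat_lit 0) (nat_lit 1) (nat_lit 0) (nat_lit 1) (nat_lit 0) (nat_lit 400) (nat_lit 405) (nat_lit 275)) (XT.nd (nat_lit 94) (nat_lit 0) (nat_lit 0) (XT.lf (nat_lit 0) (nat_lit 34275755246) (nat_lit 0) (nat_lit 0) (nat_lit 0) (nat_lit 0) (nat_lit 0) (nat_lit 0) (nat_lit 1) (nat_lit 0) (nat_lit 1) (nat_lit 0) (nat_lit 401) (nat_lit 405) (nat_lit 274)) (XT.lf (nat_lit 0) (nat_lit 34275649046) (nat_lit 0) (nat_lit 0) (nat_lit 0) (nat_lit 0) (nat_lit 0) (nat_lit 0)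 (nat_lit 1) (nat_lit 0) (nat_lit 1) (nat_lit 0) (nat_lit 402) (nat_lit 405) (nat_lit 273))))) (XT.nd (nat_lit 188) (nat_lit 0) (nat_lit 0) (XT.nd (nat_lit 94) (nat_lit 0) (nat_lit 0) (XT.lf (nat_lit 0) (nat_lit 34275550713) (nat_lit 0) (nat_lit 0) (nat_lit 0) (nat_lit 0) (nat_lit 0) (nat_lit 0) (nat_lit 1) (nat_lit 0) (nat_lit 1) (nat_lit 0) (nat_lit 403) (nat_lit 405) (nat_lit 272)) (XT.lf (nat_lit 0) (nat_lit 34275459664) (nat_lit 0) (nat_lit 0) (nat_lit 0) (nat_lit 0) (nat_lit 0) (nat_lit 0) (nat_lit 1) (nat_lit 0) (nat_lit 1) (nat_lit 0) (nat_lit 404) (nat_lit 405) (nat_lit 271))) (XT.nd (nat_lit 94) (nat_lit 0) (nat_lit 0) (XT.lf (nat_lit 0) (nat_lit 34275375359) (nat_lit 0) (nat_lit 0) (nat_lit 0) (nat_lit 0) (nat_lit 0) (nat_lit 0) (nat_lit 1) (nat_lit 0) (nat_lit 1) (nat_lit 0) (nat_lit 405) (nat_lit 405) (nat_lit 270)) (XT.nd (nat_lit 94) (nat_lit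 0) (nat_lit 0) (XT.lf (nat_lit 0) (nat_lit 34275297299) (nat_lit 0) (nat_lit 0) (nat_lit 0) (nat_lit 0) (nat_lit 0) (nat_lit 0) (nat_lit 1) (nat_lit 0) (nat_lit 1) (nat_lit 0) (nat_lit 406) (nat_lit 405) (nat_lit 269)) (XT.lf (nat_lit 0) (nat_lit 34275225022) (nat_lit 0) (nat_lit 0) (nat_lit 0) (nat_lit 0) (nat_lit 0) (nat_lit 0) (nat_lit 1) (nat_lit 0) (nat_lit 1) (nat_lit 0) (nat_lit 407) (nat_lit 405) (nat_lit 268))))))) (XT.nd (nat_lit 846) (nat_lit 0) (nat_lit 0) (XT.nd (nat_lit 376) (nat_lit 0) (nat_lit 0) (XT.nd (nat_lit 188) (nat_lit 0) (nat_lit 0) (XT.nd (nat_lit 94) (nat_lit 0) (nat_lit 0) (XT.lf (nat_lit 0) (nat_lit 34275158098) (nat_lit 0) (nat_lit 0) (nat_lit 0) (nat_lit 0) (nat_lit 0) (nat_lit 0) (nat_lit 1) (nat_lit 0) (nat_lit 1) (nat_lit 0) (nat_lit 408) (nat_lit 405) (nat_lit 267)) (XT.lf (nat_lit 0) (nat_lit 34275096131) (nat_lit 0) (nat_lit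 0) (nat_lit 0) (nat_lit 0) (nat_lit 0) (nat_lit 0) (nat_lit 1) (nat_lit 0) (nat_lit 1) (nat_lit 0) (nat_lit 409) (nat_lit 405) (nat_lit 266))) (XT.nd (nat_lit 94) (nat_lit 0) (nat_lit 0) (XT.lf (nat_lit 0) (nat_lit 34275038755) (nat_lit 0) (nat_lit 0) (nat_lit 0) (nat_lit 0) (nat_lit 0) (nat_lit 0) (nat_lit 1) (nat_lit 0) (nat_lit 1) (nat_lit 0) (nat_lit 410) (nat_lit 405) (nat_lit 265)) (XT.lf (nat_lit 0) (nat_lit 34274985629) (nat_lit 0) (nat_lit 0) (nat_lit 0) (nat_lit 0) (nat_lit 0) (nat_lit 0) (nat_lit 1) (nat_lit 0) (nat_lit 1) (nat_lit 0) (nat_lit 411) (nat_lit 405) (nat_lit 264)))) (XT.nd (nat_lit 188) (nat_lit 0) (nat_lit 0) (XT.nd (nat_lit 94) (nat_lit 0) (nat_lit 0) (XT.lf (nat_lit 0) (nat_lit 34274936438) (nat_lit 0) (nat_lit 0) (nat_lit 0) (nat_lit 0) (nat_lit 0) (nat_lit 0) (nat_lit 1) (nat_lit 0) (nat_lit 1) (nat_lit 0) (nat_lit 412) (nat_lit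 405) (nat_lit 263)) (XT.lf (nat_lit 0) (nat_lit 34274890891) (nat_lit 0) (nat_lit 0) (nat_lit 0) (nat_lit 0) (nat_lit 0) (nat_lit 0) (nat_lit 1) (nat_lit 0) (nat_lit 1) (nat_lit 0) (nat_lit 413) (nat_lit 405) (nat_lit 262))) (XT.nd (nat_lit 94) (nat_lit 0) (nat_lit 0) (XT.lf (nat_lit 0) (nat_lit 34274848717) (nat_lit 0) (nat_lit 0) (nat_lit 0) (nat_lit 0) (nat_lit 0) (nat_lit 0) (nat_lit 1) (nat_lit 0) (nat_lit 1) (nat_lit 0) (nat_lit 414) (nat_lit 405) (nat_lit 261)) (XT.nd (nat_lit 94) (nat_lit 0) (nat_lit 0) (XT.lf (nat_lit 0) (nat_lit 34274809668) (nat_lit 0) (nat_lit 0) (nat_lit 0) (nat_lit 0) (nat_lit 0) (nat_lit 0) (nat_lit 1) (nat_lit 0) (nat_lit 1) (nat_lit 0) (nat_lit 415) (nat_lit 405) (nat_lit 260)) (XT.lf (nat_lit 0) (nat_lit 34274773511) (nat_lit 0) (nat_lit 0) (nat_lit 0) (nat_lit 0) (nat_lit 0) (nat_lit 0) (nat_lit 1) (nat_lit 0) (nat_lit 1)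 (nat_lit 0) (nat_lit 416) (nat_lit 405) (nat_lit 259)))))) (XT.nd (nat_lit 470) (nat_lit 0) (nat_lit 0) (XT.nd (nat_lit 188) (nat_lit 0) (nat_lit 0) (XT.nd (nat_lit 94) (nat_lit 0) (nat_lit 0) (XT.lf (nat_lit 0) (nat_lit 34274740032) (nat_lit 0) (nat_lit 0) (nat_lit 0) (nat_lit 0) (nat_lit 0) (nat_lit 0) (nat_lit 1) (nat_lit 0) (nat_lit 1) (nat_lit 0) (nat_lit 417) (nat_lit 405) (nat_lit 258)) (XT.lf (nat_lit 0) (nat_lit 34274709034) (nat_lit 0) (nat_lit 0) (nat_lit 0) (nat_lit 0) (nat_lit 0) (nat_lit 0) (nat_lit 1) (nat_lit 0) (nat_lit 1) (nat_lit 0) (nat_lit 418) (nat_lit 405) (nat_lit 257))) (XT.nd (nat_lit 94) (nat_lit 0) (nat_lit 0) (XT.lf (nat_lit 0) (nat_lit 34274680331) (nat_lit 0) (nat_lit 0) (nat_lit 0) (nat_lit 0) (nat_lit 0) (nat_lit 0) (nat_lit 1) (nat_lit 0) (nat_lit 1) (nat_lit 0) (nat_lit 419) (nat_lit 405) (nat_lit 256)) (XT.nd (nat_lit 94)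 (nat_lit 0) (nat_lit 0) (XT.lf (nat_lit 0) (nat_lit 34274653755) (nat_lit 0) (nat_lit 0) (nat_lit 0) (nat_lit 0) (nat_lit 0) (nat_lit 0) (nat_lit 1) (nat_lit 0) (nat_lit 1) (nat_lit 0) (nat_lit 420) (nat_lit 405) (nat_lit 255)) (XT.lf (nat_lit 0) (nat_lit 34274629147) (nat_lit 0) (nat_lit 0) (nat_lit 0) (nat_lit 0) (nat_lit 0) (nat_lit 0) (nat_lit 1) (nat_lit 0) (nat_lit 1) (nat_lit 0) (nat_lit 421) (nat_lit 405) (nat_lit 254))))) (XT.nd (nat_lit 188) (nat_lit 0) (nat_lit 0) (XT.nd (nat_lit 94) (nat_lit 0) (nat_lit 0) (XT.lf (nat_lit 0) (nat_lit 34274606362) (nat_lit 0) (nat_lit 0) (nat_lit 0) (nat_lit 0) (nat_lit 0) (nat_lit 0) (nat_lit 1) (nat_lit 0) (nat_lit 1) (nat_lit 0) (nat_lit 422) (nat_lit 405) (nat_lit 253)) (XT.lf (nat_lit 0) (nat_lit 34274585265) (nat_lit 0) (nat_lit 0) (nat_lit 0) (nat_lit 0) (nat_lit 0) (nat_lit 0) (nat_lit 1) (nat_lit 0) (nat_lit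 1) (nat_lit 0) (nat_lit 423) (nat_lit 405) (nat_lit 252))) (XT.nd (nat_lit 94) (nat_lit 0) (nat_lit 0) (XT.lf (nat_lit 0) (nat_lit 34274565731) (nat_lit 0) (nat_lit 0) (nat_lit 0) (nat_lit 0) (nat_lit 0) (nat_lit 0) (nat_lit 1) (nat_lit 0) (nat_lit 1) (nat_lit 0) (nat_lit 424) (nat_lit 405) (nat_lit 251)) (XT.nd (nat_lit 94) (nat_lit 0) (nat_lit 0) (XT.lf (nat_lit 0) (nat_lit 34274547643) (nat_lit 0) (nat_lit 0) (nat_lit 0) (nat_lit 0) (nat_lit 0) (nat_lit 0) (nat_lit 1) (nat_lit 0) (nat_lit 1) (nat_lit 0) (nat_lit 425) (nat_lit 405) (nat_lit 250)) (XT.lf (nat_lit 0) (nat_lit 34274530896) (nat_lit 0) (nat_lit 0) (nat_lit 0) (nat_lit 0) (nat_lit 0) (nat_lit 0) (nat_lit 1) (nat_lit 0) (nat_lit 1) (nat_lit 0) (nat_lit 426) (nat_lit 405) (nat_lit 249))))))))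
noncomputable def ec176 : XT := (XT.nd (nat_lit 53110) (nat_lit 0) (nat_lit 5712) (XT.nd (nat_lit 846) (nat_lit 0) (nat_lit 0) (XT.nd (nat_lit 376) (nat_lit 0) (nat_lit 0) (XT.nd (nat_lit 188) (nat_lit 0) (nat_lit 0) (XT.nd (nat_lit 94) (nat_lit 0) (nat_lit 0) (XT.lf (nat_lit 0) (nat_lit 34274515389) (nat_lit 0) (nat_lit 0) (nat_lit 0) (nat_lit 0) (nat_lit 0) (nat_lit 0) (nat_lit 1) (nat_lit 0) (nat_lit 1) (nat_lit 0) (nat_lit 427) (nat_lit 405) (nat_lit 248)) (XT.lf (nat_lit 0) (nat_lit 34274501030) (nat_lit 0) (nat_lit 0) (nat_lit 0) (nat_lit 0) (nat_lit 0) (nat_lit 0) (nat_lit 1) (nat_lit 0) (nat_lit 1) (nat_lit 0) (nat_lit 428) (nat_lit 405) (nat_lit 247))) (XT.nd (nat_lit 94) (nat_lit 0) (nat_lit 0) (XT.lf (nat_lit 0) (nat_lit 34274487735) (nat_lit 0) (nat_lit 0) (nat_lit 0) (nat_lit 0) (nat_lit 0) (nat_lit 0) (nat_lit 1) (nat_lit 0) (nat_lit 1) (nat_lit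 0) (nat_lit 429) (nat_lit 405) (nat_lit 246)) (XT.lf (nat_lit 0) (nat_lit 34274475425) (nat_lit 0) (nat_lit 0) (nat_lit 0) (nat_lit 0) (nat_lit 0) (nat_lit 0) (nat_lit 1) (nat_lit 0) (nat_lit 1) (nat_lit 0) (nat_lit 430) (nat_lit 405) (nat_lit 245)))) (XT.nd (nat_lit 188) (nat_lit 0) (nat_lit 0) (XT.nd (nat_lit 94) (nat_lit 0) (nat_lit 0) (XT.lf (nat_lit 0) (nat_lit 34274464027) (nat_lit 0) (nat_lit 0) (nat_lit 0) (nat_lit 0) (nat_lit 0) (nat_lit 0) (nat_lit 1) (nat_lit 0) (nat_lit 1) (nat_lit 0) (nat_lit 431) (nat_lit 405) (nat_lit 244)) (XT.lf (nat_lit 0) (nat_lit 34274453473) (nat_lit 0) (nat_lit 0) (nat_lit 0) (nat_lit 0) (nat_lit 0) (nat_lit 0) (nat_lit 1) (nat_lit 0) (nat_lit 1) (nat_lit 0) (nat_lit 432) (nat_lit 405) (nat_lit 243))) (XT.nd (nat_lit 94) (nat_lit 0) (nat_lit 0) (XT.lf (nat_lit 0) (nat_lit 34274443701) (nat_lit 0) (nat_lit 0) (nat_lit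 0) (nat_lit 0) (nat_lit 0) (nat_lit 0) (nat_lit 1) (nat_lit 0) (nat_lit 1) (nat_lit 0) (nat_lit 433) (nat_lit 405) (nat_lit 242)) (XT.nd (nat_lit 94) (nat_lit 0) (nat_lit 0) (XT.lf (nat_lit 0) (nat_lit 34274434653) (nat_lit 0) (nat_lit 0) (nat_lit 0) (nat_lit 0) (nat_lit 0) (nat_lit 0) (nat_lit 1) (nat_lit 0) (nat_lit 1) (nat_lit 0) (nat_lit 434) (nat_lit 405) (nat_lit 241)) (XT.lf (nat_lit 0) (nat_lit 34274426275) (nat_lit 0) (nat_lit 0) (nat_lit 0) (nat_lit 0) (nat_lit 0) (nat_lit 0) (nat_lit 1) (nat_lit 0) (nat_lit 1) (nat_lit 0) (nat_lit 435) (nat_lit 405) (nat_lit 240)))))) (XT.nd (nat_lit 376) (nat_lit 0) (nat_lit 0) (XT.nd (nat_lit 188) (nat_lit 0) (nat_lit 0) (XT.nd (nat_lit 94) (nat_lit 0) (nat_lit 0) (XT.lf (nat_lit 0) (nat_lit 34274418518) (nat_lit 0) (nat_lit 0) (nat_lit 0) (nat_lit 0) (nat_lit 0) (nat_lit 0) (nat_lit 1) (nat_lit 0) (nat_lit 1)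 (nat_lit 0) (nat_lit 436) (nat_lit 405) (nat_lit 239)) (XT.lf (nat_lit 0) (nat_lit 34274411335) (nat_lit 0) (nat_lit 0) (nat_lit 0) (nat_lit 0) (nat_lit 0) (nat_lit 0) (nat_lit 1) (nat_lit 0) (nat_lit 1) (nat_lit 0) (nat_lit 437) (nat_lit 405) (nat_lit 238))) (XT.nd (nat_lit 94) (nat_lit 0) (nat_lit 0) (XT.lf (nat_lit 0) (nat_lit 34274404684) (nat_lit 0) (nat_lit 0) (nat_lit 0) (nat_lit 0) (nat_lit 0) (nat_lit 0) (nat_lit 1) (nat_lit 0) (nat_lit 1) (nat_lit 0) (nat_lit 438) (nat_lit 405) (nat_lit 237)) (XT.lf (nat_lit 0) (nat_lit 34274398526) (nat_lit 0) (nat_lit 0) (nat_lit 0) (nat_lit 0) (nat_lit 0) (nat_lit 0) (nat_lit 1) (nat_lit 0) (nat_lit 1) (nat_lit 0) (nat_lit 439) (nat_lit 405) (nat_lit 236)))) (XT.nd (nat_lit 51606) (nat_lit 0) (nat_lit 10752) (XT.nd (nat_lit 94) (nat_lit 0) (nat_lit 0) (XT.lf (nat_lit 0) (nat_lit 34274392824) (nat_lit 0) (nat_lit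 0) (nat_lit 0) (nat_lit 0) (nat_lit 0) (nat_lit 0) (nat_lit 1) (nat_lit 0) (nat_lit 1) (nat_lit 0) (nat_lit 440) (nat_lit 405) (nat_lit 235)) (XT.lf (nat_lit 0) (nat_lit 34274387545) (nat_lit 0) (nat_lit 0) (nat_lit 0) (nat_lit 0) (nat_lit 0) (nat_lit 0) (nat_lit 1) (nat_lit 0) (nat_lit 1) (nat_lit 0) (nat_lit 441) (nat_lit 405) (nat_lit 234))) (XT.nd (nat_lit 94) (nat_lit 0) (nat_lit 84) (XT.lf (nat_lit 924) (nat_lit 18524326684) (nat_lit 0) (nat_lit 32889899449) (nat_lit 924) (nat_lit 18524326684) (nat_lit 139) (nat_lit 1) (nat_lit 128) (nat_lit 0) (nat_lit 139) (nat_lit 0) (nat_lit 268) (nat_lit 406) (nat_lit 406)) (XT.nd (nat_lit 94) (nat_lit 0) (nat_lit 0) (XT.lf (nat_lit 924) (nat_lit 6910142256) (nat_lit 0) (nat_lit 64572840766) (nat_lit 840) (nat_lit 63152022536) (nat_lit 140) (nat_lit 1) (nat_lit 129) (nat_lit 1) (nat_lit 139) (nat_lit 1) (nat_lit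 269) (nat_lit 406) (nat_lit 405)) (XT.lf (nat_lit 924) (nat_lit 63465668033) (nat_lit 84) (nat_lit 43244453227) (nat_lit 0) (nat_lit 22934885348) (nat_lit 140) (nat_lit 1) (nat_lit 130) (nat_lit 1) (nat_lit 129) (nat_lit 1) (nat_lit 270) (nat_lit 406) (nat_lit 404))))))) (XT.nd (nat_lit 846) (nat_lit 2856) (nat_lit 0) (XT.nd (nat_lit 376) (nat_lit 2352) (nat_lit 0) (XT.nd (nat_lit 188) (nat_lit 0) (nat_lit 168) (XT.nd (nat_lit 94) (nat_lit 0) (nat_lit 84) (XT.lf (nat_lit 924) (nat_lit 54839536363) (nat_lit 84) (nat_lit 18123450605) (nat_lit 0) (nat_lit 51941732894) (nat_lit 141) (nat_lit 1) (nat_lit 131) (nat_lit 1) (nat_lit 130) (nat_lit 1) (nat_lit 271) (nat_lit 406) (nat_lit 403)) (XT.lf (nat_lit 924) (nat_lit 40585919204) (nat_lit 0) (nat_lit 75934336418) (nat_lit 840) (nat_lit 3881752428) (nat_lit 142) (nat_lit 1) (nat_lit 131) (nat_lit 1) (nat_lit 141)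 (nat_lit 1) (nat_lit 272) (nat_lit 406) (nat_lit 402))) (XT.nd (nat_lit 94) (nat_lit 0) (nat_lit 0) (XT.lf (nat_lit 924) (nat_lit 9738193379) (nat_lit 0) (nat_lit 83738701277) (nat_lit 840) (nat_lit 22637437590) (nat_lit 143) (nat_lit 1) (nat_lit 132) (nat_lit 1) (nat_lit 142) (nat_lit 1) (nat_lit 273) (nat_lit 406) (nat_lit 401)) (XT.lf (nat_lit 924) (nat_lit 18712846816) (nat_lit 84) (nat_lit 72775750545) (nat_lit 0) (nat_lit 20538214686) (nat_lit 143) (nat_lit 1) (nat_lit 133) (nat_lit 1) (nat_lit 132) (nat_lit 1) (nat_lit 274) (nat_lit 406) (nat_lit 400)))) (XT.nd (nat_lit 188) (nat_lit 1176) (nat_lit 0) (XT.nd (nat_lit 94) (nat_lit 588) (nat_lit 0) (XT.lf (nat_lit 924) (nat_lit 3843192025) (nat_lit 0) (nat_lit 54404687463) (nat_lit 840) (nat_lit 49888528360) (nat_lit 134) (nat_lit 1) (nat_lit 123) (nat_lit 1) (nat_lit 133) (nat_lit 1) (nat_lit 275) (nat_lit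 406) (nat_lit 399)) (XT.lf (nat_lit 84) (nat_lit 26611062156) (nat_lit 0) (nat_lit 11531811610) (nat_lit 588) (nat_lit 66287336768) (nat_lit 117) (nat_lit 1) (nat_lit 116) (nat_lit 1) (nat_lit 123) (nat_lit 1) (nat_lit 276) (nat_lit 406) (nat_lit 398))) (XT.nd (nat_lit 94) (nat_lit 756) (nat_lit 0) (XT.lf (nat_lit 504) (nat_lit 73336737852) (nat_lit 0) (nat_lit 23872689183) (nat_lit 420) (nat_lit 3690865254) (nat_lit 117) (nat_lit 1) (nat_lit 111) (nat_lit 1) (nat_lit 116) (nat_lit 1) (nat_lit 277) (nat_lit 406) (nat_lit 397)) (XT.nd (nat_lit 94) (nat_lit 336) (nat_lit 0) (XT.lf (nat_lit 504) (nat_lit 52920488399) (nat_lit 0) (nat_lit 11127163263) (nat_lit 420) (nat_lit 33474502556) (nat_lit 112) (nat_lit 1) (nat_lit 106) (nat_lit 1) (nat_lit 111) (nat_lit 1) (nat_lit 278) (nat_lit 406) (nat_lit 396)) (XT.lf (nat_lit 420) (nat_lit 32201442246) (nat_lit 0)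 (nat_lit 204869158) (nat_lit 336) (nat_lit 61901503313) (nat_lit 107) (nat_lit 1) (nat_lit 102) (nat_lit 1) (nat_lit 106) (nat_lit 1) (nat_lit 279) (nat_lit 406) (nat_lit 395)))))) (XT.nd (nat_lit 470) (nat_lit 1512) (nat_lit 0) (XT.nd (nat_lit 188) (nat_lit 924) (nat_lit 0) (XT.nd (nat_lit 94) (nat_lit 420) (nat_lit 0) (XT.lf (nat_lit 84) (nat_lit 2375670225) (nat_lit 0) (nat_lit 80119111506) (nat_lit 420) (nat_lit 8746558840) (nat_lit 103) (nat_lit 1) (nat_lit 102) (nat_lit 1) (nat_lit 107) (nat_lit 1) (nat_lit 280) (nat_lit 406) (nat_lit 394)) (XT.lf (nat_lit 84) (nat_lit 61340421395) (nat_lit 0) (nat_lit 10173965227) (nat_lit 420) (nat_lit 16778716391) (nat_lit 98) (nat_lit 1) (nat_lit 97) (nat_lit 1) (nat_lit 102) (nat_lit 1) (nat_lit 281) (nat_lit 406) (nat_lit 393))) (XT.nd (nat_lit 94) (nat_lit 588) (nat_lit 0) (XT.lf (nat_lit 84) (nat_lit 30690167230)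 (nat_lit 0) (nat_lit 31164661534) (nat_lit 420) (nat_lit 23620304858) (nat_lit 94) (nat_lit 1) (nat_lit 93) (nat_lit 1) (nat_lit 98) (nat_lit 1) (nat_lit 282) (nat_lit 406) (nat_lit 392)) (XT.nd (nat_lit 94) (nat_lit 252) (nat_lit 0) (XT.lf (nat_lit 84) (nat_lit 1514798600) (nat_lit 0) (nat_lit 52106830166) (nat_lit 420) (nat_lit 29168957002) (nat_lit 90) (nat_lit 1) (nat_lit 89) (nat_lit 1) (nat_lit 94) (nat_lit 1) (nat_lit 283) (nat_lit 406) (nat_lit 391)) (XT.lf (nat_lit 336) (nat_lit 6840745105) (nat_lit 0) (nat_lit 46260684690) (nat_lit 252) (nat_lit 27109824414) (nat_lit 90) (nat_lit 1) (nat_lit 86) (nat_lit 1) (nat_lit 89) (nat_lit 1) (nat_lit 284) (nat_lit 406) (nat_lit 390))))) (XT.nd (nat_lit 188) (nat_lit 840) (nat_lit 0) (XT.nd (nat_lit 94) (nat_lit 252) (nat_lit 0) (XT.lf (nat_lit 84) (nat_lit 23636613538) (nat_lit 0) (nat_lit 16200681790) (nat_lit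 420) (nat_lit 37901184183) (nat_lit 82) (nat_lit 1) (nat_lit 81) (nat_lit 1) (nat_lit 86) (nat_lit 1) (nat_lit 285) (nat_lit 406) (nat_lit 389)) (XT.lf (nat_lit 336) (nat_lit 36595163100) (nat_lit 0) (nat_lit 34376425919) (nat_lit 252) (nat_lit 4400141718) (nat_lit 82) (nat_lit 1) (nat_lit 78) (nat_lit 1) (nat_lit 81) (nat_lit 1) (nat_lit 286) (nat_lit 406) (nat_lit 388))) (XT.nd (nat_lit 94) (nat_lit 588) (nat_lit 0) (XT.lf (nat_lit 336) (nat_lit 11728572980) (nat_lit 0) (nat_lit 29596695015) (nat_lit 252) (nat_lit 31770668785) (nat_lit 79) (nat_lit 1) (nat_lit 75) (nat_lit 1) (nat_lit 78) (nat_lit 1) (nat_lit 287) (nat_lit 406) (nat_lit 387)) (XT.nd (nat_lit 94) (nat_lit 252) (nat_lit 0) (XT.lf (nat_lit 84) (nat_lit 13367739196) (nat_lit 0) (nat_lit 12239326916) (nat_lit 336) (nat_lit 45307594718) (nat_lit 72) (nat_lit 1) (nat_lit 71) (nat_lit 1) (nat_lit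 75) (nat_lit 1) (nat_lit 288) (nat_lit 406) (nat_lit 386)) (XT.lf (nat_lit 336) (nat_lit 33263864478) (nat_lit 0) (nat_lit 22132542760) (nat_lit 252) (nat_lit 13416820189) (nat_lit 72) (nat_lit 1) (nat_lit 68) (nat_lit 1) (nat_lit 71) (nat_lit 1) (nat_lit 289) (nat_lit 406) (nat_lit 385))))))))
noncomputable def ec177 : XT := (XT.nd (nat_lit 1786) (nat_lit 2268) (nat_lit 0) (XT.nd (nat_lit 846) (nat_lit 1596) (nat_lit 0) (XT.nd (nat_lit 376) (nat_lit 924) (nat_lit 0) (XT.nd (nat_lit 188) (nat_lit 420) (nat_lit 0) (XT.nd (nat_lit 94) (nat_lit 336) (nat_lit 0) (XT.lf (nat_lit 252) (nat_lit 8246161120) (nat_lit 0) (nat_lit 19309029206) (nat_lit 168) (nat_lit 39241381386) (nat_lit 69) (nat_lit 1) (nat_lit 66) (nat_lit 1) (nat_lit 68) (nat_lit 1) (nat_lit 290) (nat_lit 406) (nat_lit 384)) (XT.lf (nat_lit 84) (nat_lit 1396952376) (nat_lit 0) (nat_lit 15632200358)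 (nat_lit 336) (nat_lit 47828934150) (nat_lit 63) (nat_lit 1) (nat_lit 62) (nat_lit 1) (nat_lit 66) (nat_lit 1) (nat_lit 291) (nat_lit 406) (nat_lit 383))) (XT.nd (nat_lit 94) (nat_lit 252) (nat_lit 0) (XT.lf (nat_lit 252) (nat_lit 23961831152) (nat_lit 0) (nat_lit 14974088788) (nat_lit 168) (nat_lit 24045218566) (nat_lit 63) (nat_lit 1) (nat_lit 60) (nat_lit 1) (nat_lit 62) (nat_lit 1) (nat_lit 292) (nat_lit 406) (nat_lit 382)) (XT.lf (nat_lit 84) (nat_lit 13000688212) (nat_lit 0) (nat_lit 600509939) (nat_lit 252) (nat_lit 47584895537) (nat_lit 58) (nat_lit 1) (nat_lit 57) (nat_lit 1) (nat_lit 60) (nat_lit 1) (nat_lit 293) (nat_lit 406) (nat_lit 381)))) (XT.nd (nat_lit 188) (nat_lit 588) (nat_lit 0) (XT.nd (nat_lit 94) (nat_lit 168) (nat_lit 0) (XT.lf (nat_lit 252) (nat_lit 35541371079) (nat_lit 0) (nat_lit 12315881983) (nat_lit 168) (nat_lit 11586012383)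 (nat_lit 58) (nat_lit 1) (nat_lit 55) (nat_lit 1) (nat_lit 57) (nat_lit 1) (nat_lit 294) (nat_lit 406) (nat_lit 380)) (XT.lf (nat_lit 252) (nat_lit 11040574099) (nat_lit 0) (nat_lit 11448974214) (nat_lit 168) (nat_lit 35277524841) (nat_lit 56) (nat_lit 1) (nat_lit 53) (nat_lit 1) (nat_lit 55) (nat_lit 1) (nat_lit 295) (nat_lit 406) (nat_lit 379))) (XT.nd (nat_lit 94) (nat_lit 336) (nat_lit 0) (XT.lf (nat_lit 252) (nat_lit 43827021650) (nat_lit 0) (nat_lit 10938565605) (nat_lit 168) (nat_lit 1387683952) (nat_lit 53) (nat_lit 1) (nat_lit 50) (nat_lit 1) (nat_lit 52) (nat_lit 1) (nat_lit 296) (nat_lit 406) (nat_lit 378)) (XT.nd (nat_lit 94) (nat_lit 168) (nat_lit 0) (XT.lf (nat_lit 252) (nat_lit 19614943679) (nat_lit 0) (nat_lit 10442642251) (nat_lit 168) (nat_lit 24526725792) (nat_lit 51) (nat_lit 1) (nat_lit 48) (nat_lit 1) (nat_lit 50) (nat_lit 1) (nat_lit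 297) (nat_lit 406) (nat_lit 377)) (XT.lf (nat_lit 84) (nat_lit 6718875522) (nat_lit 0) (nat_lit 3692996748) (nat_lit 168) (nat_lit 42668556353) (nat_lit 47) (nat_lit 1) (nat_lit 46) (nat_lit 1) (nat_lit 48) (nat_lit 1) (nat_lit 298) (nat_lit 406) (nat_lit 376)))))) (XT.nd (nat_lit 470) (nat_lit 756) (nat_lit 0) (XT.nd (nat_lit 188) (nat_lit 588) (nat_lit 0) (XT.nd (nat_lit 94) (nat_lit 84) (nat_lit 0) (XT.lf (nat_lit 252) (nat_lit 25735934177) (nat_lit 0) (nat_lit 10301622133) (nat_lit 168) (nat_lit 15576938274) (nat_lit 47) (nat_lit 1) (nat_lit 44) (nat_lit 1) (nat_lit 46) (nat_lit 1) (nat_lit 299) (nat_lit 406) (nat_lit 375)) (XT.lf (nat_lit 168) (nat_lit 2771394407) (nat_lit 0) (nat_lit 10554643285) (nat_lit 84) (nat_lit 36880396041) (nat_lit 45) (nat_lit 1) (nat_lit 43) (nat_lit 1) (nat_lit 44) (nat_lit 1) (nat_lit 300) (nat_lit 406) (nat_lit 374))) (XT.nd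 (nat_lit 94) (nat_lit 336) (nat_lit 0) (XT.lf (nat_lit 252) (nat_lit 29916179447) (nat_lit 0) (nat_lit 10794583537) (nat_lit 168) (nat_lit 8126434484) (nat_lit 43) (nat_lit 1) (nat_lit 40) (nat_lit 1) (nat_lit 42) (nat_lit 1) (nat_lit 301) (nat_lit 406) (nat_lit 373)) (XT.nd (nat_lit 94) (nat_lit 252) (nat_lit 0) (XT.lf (nat_lit 168) (nat_lit 7524139732) (nat_lit 0) (nat_lit 11198203893) (nat_lit 84) (nat_lit 28791763592) (nat_lit 41) (nat_lit 1) (nat_lit 39) (nat_lit 1) (nat_lit 40) (nat_lit 1) (nat_lit 302) (nat_lit 406) (nat_lit 372)) (XT.lf (nat_lit 252) (nat_lit 32570150509) (nat_lit 0) (nat_lit 11738296580) (nat_lit 168) (nat_lit 1926354954) (nat_lit 39) (nat_lit 1) (nat_lit 36) (nat_lit 1) (nat_lit 38) (nat_lit 1) (nat_lit 303) (nat_lit 406) (nat_lit 371))))) (XT.nd (nat_lit 188) (nat_lit 420) (nat_lit 0) (XT.nd (nat_lit 94) (nat_lit 252) (nat_lit 0)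 (XT.lf (nat_lit 168) (nat_lit 10828269326) (nat_lit 0) (nat_lit 12237315235) (nat_lit 84) (nat_lit 21924207066) (nat_lit 37) (nat_lit 1) (nat_lit 35) (nat_lit 1) (nat_lit 36) (nat_lit 1) (nat_lit 304) (nat_lit 406) (nat_lit 370)) (XT.lf (nat_lit 84) (nat_lit 3125469452) (nat_lit 0) (nat_lit 9810015483) (nat_lit 252) (nat_lit 30854023358) (nat_lit 33) (nat_lit 1) (nat_lit 32) (nat_lit 1) (nat_lit 35) (nat_lit 1) (nat_lit 305) (nat_lit 406) (nat_lit 369))) (XT.nd (nat_lit 94) (nat_lit 336) (nat_lit 0) (XT.lf (nat_lit 168) (nat_lit 12994900147) (nat_lit 0) (nat_lit 13540070009) (nat_lit 84) (nat_lit 16084063102) (nat_lit 33) (nat_lit 1) (nat_lit 31) (nat_lit 1) (nat_lit 32) (nat_lit 1) (nat_lit 306) (nat_lit 406) (nat_lit 368)) (XT.nd (nat_lit 94) (nat_lit 84) (nat_lit 0) (XT.lf (nat_lit 84) (nat_lit 7268678177) (nat_lit 0) (nat_lit 7040206321) (nat_lit 252)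 (nat_lit 27180807084) (nat_lit 29) (nat_lit 1) (nat_lit 28) (nat_lit 1) (nat_lit 31) (nat_lit 1) (nat_lit 307) (nat_lit 406) (nat_lit 367)) (XT.lf (nat_lit 168) (nat_lit 14274926970) (nat_lit 0) (nat_lit 15003499680) (nat_lit 84) (nat_lit 11110777510) (nat_lit 29) (nat_lit 1) (nat_lit 27) (nat_lit 1) (nat_lit 28) (nat_lit 1) (nat_lit 308) (nat_lit 406) (nat_lit 366))))))) (XT.nd (nat_lit 846) (nat_lit 1092) (nat_lit 0) (XT.nd (nat_lit 376) (nat_lit 672) (nat_lit 0) (XT.nd (nat_lit 188) (nat_lit 252) (nat_lit 0) (XT.nd (nat_lit 94) (nat_lit 84) (nat_lit 0) (XT.lf (nat_lit 84) (nat_lit 10701175087) (nat_lit 0) (nat_lit 5098918454) (nat_lit 168) (nat_lit 23524967221) (nat_lit 26) (nat_lit 1) (nat_lit 25) (nat_lit 1) (nat_lit 27) (nat_lit 1) (nat_lit 309) (nat_lit 406) (nat_lit 365)) (XT.lf (nat_lit 168) (nat_lit 14870275315) (nat_lit 0) (nat_lit 16547934436)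 (nat_lit 84) (nat_lit 6870999278) (nat_lit 26) (nat_lit 1) (nat_lit 24) (nat_lit 1) (nat_lit 25) (nat_lit 1) (nat_lit 310) (nat_lit 406) (nat_lit 364))) (XT.nd (nat_lit 94) (nat_lit 84) (nat_lit 0) (XT.lf (nat_lit 84) (nat_lit 13535991508) (nat_lit 0) (nat_lit 3803859653) (nat_lit 168) (nat_lit 19945367850) (nat_lit 23) (nat_lit 1) (nat_lit 22) (nat_lit 1) (nat_lit 24) (nat_lit 1) (nat_lit 311) (nat_lit 406) (nat_lit 363)) (XT.lf (nat_lit 168) (nat_lit 14943077014) (nat_lit 0) (nat_lit 18112419482) (nat_lit 84) (nat_lit 3253747265) (nat_lit 23) (nat_lit 1) (nat_lit 21) (nat_lit 1) (nat_lit 22) (nat_lit 1) (nat_lit 312) (nat_lit 406) (nat_lit 362)))) (XT.nd (nat_lit 188) (nat_lit 420) (nat_lit 0) (XT.nd (nat_lit 94) (nat_lit 84) (nat_lit 0) (XT.lf (nat_lit 84) (nat_lit 15867069087) (nat_lit 0) (nat_lit 3008450019) (nat_lit 168) (nat_lit 16485430855) (nat_lit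 20) (nat_lit 1) (nat_lit 19) (nat_lit 1) (nat_lit 21) (nat_lit 1) (nat_lit 313) (nat_lit 406) (nat_lit 361)) (XT.lf (nat_lit 168) (nat_lit 14623150341) (nat_lit 0) (nat_lit 19650992500) (nat_lit 84) (nat_lit 166453433) (nat_lit 20) (nat_lit 1) (nat_lit 18) (nat_lit 1) (nat_lit 19) (nat_lit 1) (nat_lit 314) (nat_lit 406) (nat_lit 360))) (XT.nd (nat_lit 94) (nat_lit 252) (nat_lit 0) (XT.lf (nat_lit 84) (nat_lit 17772638846) (nat_lit 0) (nat_lit 2595116357) (nat_lit 168) (nat_lit 13176282775) (nat_lit 17) (nat_lit 1) (nat_lit 16) (nat_lit 1) (nat_lit 18) (nat_lit 1) (nat_lit 315) (nat_lit 406) (nat_lit 359)) (XT.nd (nat_lit 94) (nat_lit 168) (nat_lit 0) (XT.lf (nat_lit 0) (nat_lit 2389277274) (nat_lit 0) (nat_lit 18699922167) (nat_lit 168) (nat_lit 11584355666) (nat_lit 15) (nat_lit 3) (nat_lit 15) (nat_lit 1) (nat_lit 17) (nat_lit 1) (nat_lit 316) (nat_lit 406)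 (nat_lit 358)) (XT.lf (nat_lit 84) (nat_lit 19317988590) (nat_lit 0) (nat_lit 2469826687) (nat_lit 168) (nat_lit 10039304264) (nat_lit 14) (nat_lit 1) (nat_lit 13) (nat_lit 1) (nat_lit 15) (nat_lit 1) (nat_lit 317) (nat_lit 406) (nat_lit 357)))))) (XT.nd (nat_lit 470) (nat_lit 504) (nat_lit 0) (XT.nd (nat_lit 188) (nat_lit 336) (nat_lit 0) (XT.nd (nat_lit 94) (nat_lit 168) (nat_lit 0) (XT.lf (nat_lit 0) (nat_lit 4564403517) (nat_lit 0) (nat_lit 17882259756) (nat_lit 168) (nat_lit 8556563190) (nat_lit 12) (nat_lit 3) (nat_lit 12) (nat_lit 1) (nat_lit 14) (nat_lit 1) (nat_lit 318) (nat_lit 406) (nat_lit 356)) (XT.lf (nat_lit 84) (nat_lit 20557730352) (nat_lit 0) (nat_lit 2557636760) (nat_lit 168) (nat_lit 7088193010) (nat_lit 11) (nat_lit 1) (nat_lit 10) (nat_lit 1) (nat_lit 12) (nat_lit 1) (nat_lit 319) (nat_lit 406) (nat_lit 355))) (XT.nd (nat_lit 94) (nat_lit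 252) (nat_lit 0) (XT.lf (nat_lit 0) (nat_lit 6417043378) (nat_lit 0) (nat_lit 17291248289) (nat_lit 168) (nat_lit 5715091058) (nat_lit 9) (nat_lit 3) (nat_lit 9) (nat_lit 1) (nat_lit 11) (nat_lit 1) (nat_lit 320) (nat_lit 406) (nat_lit 354)) (XT.nd (nat_lit 94) (nat_lit 84) (nat_lit 0) (XT.lf (nat_lit 84) (nat_lit 21537659110) (nat_lit 0) (nat_lit 2799062305) (nat_lit 168) (nat_lit 4330630524) (nat_lit 8) (nat_lit 1) (nat_lit 7) (nat_lit 1) (nat_lit 9) (nat_lit 1) (nat_lit 321) (nat_lit 406) (nat_lit 353)) (XT.lf (nat_lit 0) (nat_lit 7991704614) (nat_lit 0) (nat_lit 16870636052) (nat_lit 168) (nat_lit 3065916860) (nat_lit 6) (nat_lit 3) (nat_lit 6) (nat_lit 1) (nat_lit 8) (nat_lit 1) (nat_lit 322) (nat_lit 406) (nat_lit 352))))) (XT.nd (nat_lit 188) (nat_lit 252) (nat_lit 0) (XT.nd (nat_lit 94) (nat_lit 84) (nat_lit 0) (XT.lf (nat_lit 84) (nat_lit 22296277319)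 (nat_lit 0) (nat_lit 3147124990) (nat_lit 168) (nat_lit 1769626581) (nat_lit 5) (nat_lit 1) (nat_lit 4) (nat_lit 1) (nat_lit 6) (nat_lit 1) (nat_lit 323) (nat_lit 406) (nat_lit 351)) (XT.lf (nat_lit 0) (nat_lit 9326030173) (nat_lit 0) (nat_lit 16575794559) (nat_lit 168) (nat_lit 610771622) (nat_lit 3) (nat_lit 3) (nat_lit 3) (nat_lit 1) (nat_lit 5) (nat_lit 1) (nat_lit 324) (nat_lit 406) (nat_lit 350))) (XT.nd (nat_lit 94) (nat_lit 0) (nat_lit 0) (XT.lf (nat_lit 0) (nat_lit 37476776738) (nat_lit 0) (nat_lit 0) (nat_lit 0) (nat_lit 0) (nat_lit 0) (nat_lit 0) (nat_lit 1) (nat_lit 0) (nat_lit 1) (nat_lit 0) (nat_lit 325) (nat_lit 406) (nat_lit 349)) (XT.nd (nat_lit 94) (nat_lit 0) (nat_lit 0) (XT.lf (nat_lit 0) (nat_lit 37442664926) (nat_lit 0) (nat_lit 0) (nat_lit 0) (nat_lit 0) (nat_lit 0) (nat_lit 0) (nat_lit 1) (nat_lit 0) (nat_lit 1) (nat_lit 0) (nat_lit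 326) (nat_lit 406) (nat_lit 348)) (XT.lf (nat_lit 0) (nat_lit 37411079915) (nat_lit 0) (nat_lit 0) (nat_lit 0) (nat_lit 0) (nat_lit 0) (nat_lit 0) (nat_lit 1) (nat_lit 0) (nat_lit 1) (nat_lit 0) (nat_lit 327) (nat_lit 406) (nat_lit 347))))))))
noncomputable def ec178 : XT := (XT.nd (nat_lit 1692) (nat_lit 0) (nat_lit 0) (XT.nd (nat_lit 846) (nat_lit 0) (nat_lit 0) (XT.nd (nat_lit 376) (nat_lit 0) (nat_lit 0) (XT.nd (nat_lit 188) (nat_lit 0) (nat_lit 0) (XT.nd (nat_lit 94) (nat_lit 0) (nat_lit 0) (XT.lf (nat_lit 0) (nat_lit 37381834534) (nat_lit 0) (nat_lit 0) (nat_lit 0) (nat_lit 0) (nat_lit 0) (nat_lit 0) (nat_lit 1) (nat_lit 0) (nat_lit 1) (nat_lit 0) (nat_lit 328) (nat_lit 406) (nat_lit 346)) (XT.lf (nat_lit 0) (nat_lit 37354755478) (nat_lit 0) (nat_lit 0) (nat_lit 0) (nat_lit 0) (nat_lit 0) (nat_lit 0) (nat_lit 1) (nat_lit 0) (nat_lit 1) (nat_lit 0) (nat_lit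 329) (nat_lit 406) (nat_lit 345))) (XT.nd (nat_lit 94) (nat_lit 0) (nat_lit 0) (XT.lf (nat_lit 0) (nat_lit 37329682278) (nat_lit 0) (nat_lit 0) (nat_lit 0) (nat_lit 0) (nat_lit 0) (nat_lit 0) (nat_lit 1) (nat_lit 0) (nat_lit 1) (nat_lit 0) (nat_lit 330) (nat_lit 406) (nat_lit 344)) (XT.lf (nat_lit 0) (nat_lit 37306466351) (nat_lit 0) (nat_lit 0) (nat_lit 0) (nat_lit 0) (nat_lit 0) (nat_lit 0) (nat_lit 1) (nat_lit 0) (nat_lit 1) (nat_lit 0) (nat_lit 331) (nat_lit 406) (nat_lit 343)))) (XT.nd (nat_lit 188) (nat_lit 0) (nat_lit 0) (XT.nd (nat_lit 94) (nat_lit 0) (nat_lit 0) (XT.lf (nat_lit 0) (nat_lit 37284970123) (nat_lit 0) (nat_lit 0) (nat_lit 0) (nat_lit 0) (nat_lit 0) (nat_lit 0) (nat_lit 1) (nat_lit 0) (nat_lit 1) (nat_lit 0) (nat_lit 332) (nat_lit 406) (nat_lit 342)) (XT.lf (nat_lit 0) (nat_lit 37265066209) (nat_lit 0) (nat_lit 0) (nat_lit 0) (nat_lit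 0) (nat_lit 0) (nat_lit 0) (nat_lit 1) (nat_lit 0) (nat_lit 1) (nat_lit 0) (nat_lit 333) (nat_lit 406) (nat_lit 341))) (XT.nd (nat_lit 94) (nat_lit 0) (nat_lit 0) (XT.lf (nat_lit 0) (nat_lit 37246636658) (nat_lit 0) (nat_lit 0) (nat_lit 0) (nat_lit 0) (nat_lit 0) (nat_lit 0) (nat_lit 1) (nat_lit 0) (nat_lit 1) (nat_lit 0) (nat_lit 334) (nat_lit 406) (nat_lit 340)) (XT.nd (nat_lit 94) (nat_lit 0) (nat_lit 0) (XT.lf (nat_lit 0) (nat_lit 37229572259) (nat_lit 0) (nat_lit 0) (nat_lit 0) (nat_lit 0) (nat_lit 0) (nat_lit 0) (nat_lit 1) (nat_lit 0) (nat_lit 1) (nat_lit 0) (nat_lit 335) (nat_lit 406) (nat_lit 339)) (XT.lf (nat_lit 0) (nat_lit 37213771890) (nat_lit 0) (nat_lit 0) (nat_lit 0) (nat_lit 0) (nat_lit 0) (nat_lit 0) (nat_lit 1) (nat_lit 0) (nat_lit 1) (nat_lit 0) (nat_lit 336) (nat_lit 406) (nat_lit 338)))))) (XT.nd (nat_lit 376) (nat_lit 0) (nat_lit 0)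 (XT.nd (nat_lit 188) (nat_lit 0) (nat_lit 0) (XT.nd (nat_lit 94) (nat_lit 0) (nat_lit 0) (XT.lf (nat_lit 0) (nat_lit 37199141918) (nat_lit 0) (nat_lit 0) (nat_lit 0) (nat_lit 0) (nat_lit 0) (nat_lit 0) (nat_lit 1) (nat_lit 0) (nat_lit 1) (nat_lit 0) (nat_lit 337) (nat_lit 406) (nat_lit 337)) (XT.lf (nat_lit 0) (nat_lit 37185595649) (nat_lit 0) (nat_lit 0) (nat_lit 0) (nat_lit 0) (nat_lit 0) (nat_lit 0) (nat_lit 1) (nat_lit 0) (nat_lit 1) (nat_lit 0) (nat_lit 338) (nat_lit 406) (nat_lit 336))) (XT.nd (nat_lit 94) (nat_lit 0) (nat_lit 0) (XT.lf (nat_lit 0) (nat_lit 37173052806) (nat_lit 0) (nat_lit 0) (nat_lit 0) (nat_lit 0) (nat_lit 0) (nat_lit 0) (nat_lit 1) (nat_lit 0) (nat_lit 1) (nat_lit 0) (nat_lit 339) (nat_lit 406) (nat_lit 335)) (XT.lf (nat_lit 0) (nat_lit 37161439063) (nat_lit 0) (nat_lit 0) (nat_lit 0) (nat_lit 0) (nat_lit 0) (nat_lit 0) (nat_lit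 1) (nat_lit 0) (nat_lit 1) (nat_lit 0) (nat_lit 340) (nat_lit 406) (nat_lit 334)))) (XT.nd (nat_lit 188) (nat_lit 0) (nat_lit 0) (XT.nd (nat_lit 94) (nat_lit 0) (nat_lit 0) (XT.lf (nat_lit 0) (nat_lit 37150685597) (nat_lit 0) (nat_lit 0) (nat_lit 0) (nat_lit 0) (nat_lit 0) (nat_lit 0) (nat_lit 1) (nat_lit 0) (nat_lit 1) (nat_lit 0) (nat_lit 341) (nat_lit 406) (nat_lit 333)) (XT.lf (nat_lit 0) (nat_lit 37140728684) (nat_lit 0) (nat_lit 0) (nat_lit 0) (nat_lit 0) (nat_lit 0) (nat_lit 0) (nat_lit 1) (nat_lit 0) (nat_lit 1) (nat_lit 0) (nat_lit 342) (nat_lit 406) (nat_lit 332))) (XT.nd (nat_lit 94) (nat_lit 0) (nat_lit 0) (XT.lf (nat_lit 0) (nat_lit 37131509321) (nat_lit 0) (nat_lit 0) (nat_lit 0) (nat_lit 0) (nat_lit 0) (nat_lit 0) (nat_lit 1) (nat_lit 0) (nat_lit 1) (nat_lit 0) (nat_lit 343) (nat_lit 406) (nat_lit 331)) (XT.nd (nat_lit 94) (nat_lit 0) (nat_lit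 0) (XT.lf (nat_lit 0) (nat_lit 37122972873) (nat_lit 0) (nat_lit 0) (nat_lit 0) (nat_lit 0) (nat_lit 0) (nat_lit 0) (nat_lit 1) (nat_lit 0) (nat_lit 1) (nat_lit 0) (nat_lit 344) (nat_lit 406) (nat_lit 330)) (XT.lf (nat_lit 0) (nat_lit 37115068754) (nat_lit 0) (nat_lit 0) (nat_lit 0) (nat_lit 0) (nat_lit 0) (nat_lit 0) (nat_lit 1) (nat_lit 0) (nat_lit 1) (nat_lit 0) (nat_lit 345) (nat_lit 406) (nat_lit 329))))))) (XT.nd (nat_lit 846) (nat_lit 0) (nat_lit 0) (XT.nd (nat_lit 376) (nat_lit 0) (nat_lit 0) (XT.nd (nat_lit 188) (nat_lit 0) (nat_lit 0) (XT.nd (nat_lit 94) (nat_lit 0) (nat_lit 0) (XT.lf (nat_lit 0) (nat_lit 37107750126) (nat_lit 0) (nat_lit 0) (nat_lit 0) (nat_lit 0) (nat_lit 0) (nat_lit 0) (nat_lit 1) (nat_lit 0) (nat_lit 1) (nat_lit 0) (nat_lit 346) (nat_lit 406) (nat_lit 328)) (XT.lf (nat_lit 0) (nat_lit 37100973619) (nat_lit 0) (nat_lit 0) (nat_lit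 0) (nat_lit 0) (nat_lit 0) (nat_lit 0) (nat_lit 1) (nat_lit 0) (nat_lit 1) (nat_lit 0) (nat_lit 347) (nat_lit 406) (nat_lit 327))) (XT.nd (nat_lit 94) (nat_lit 0) (nat_lit 0) (XT.lf (nat_lit 0) (nat_lit 37094699075) (nat_lit 0) (nat_lit 0) (nat_lit 0) (nat_lit 0) (nat_lit 0) (nat_lit 0) (nat_lit 1) (nat_lit 0) (nat_lit 1) (nat_lit 0) (nat_lit 348) (nat_lit 406) (nat_lit 326)) (XT.lf (nat_lit 0) (nat_lit 37088889312) (nat_lit 0) (nat_lit 0) (nat_lit 0) (nat_lit 0) (nat_lit 0) (nat_lit 0) (nat_lit 1) (nat_lit 0) (nat_lit 1) (nat_lit 0) (nat_lit 349) (nat_lit 406) (nat_lit 325)))) (XT.nd (nat_lit 188) (nat_lit 0) (nat_lit 0) (XT.nd (nat_lit 94) (nat_lit 0) (nat_lit 0) (XT.lf (nat_lit 0) (nat_lit 37083509902) (nat_lit 0) (nat_lit 0) (nat_lit 0) (nat_lit 0) (nat_lit 0) (nat_lit 0) (nat_lit 1) (nat_lit 0) (nat_lit 1) (nat_lit 0) (nat_lit 350) (nat_lit 406) (nat_lit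 324)) (XT.lf (nat_lit 0) (nat_lit 37078528966) (nat_lit 0) (nat_lit 0) (nat_lit 0) (nat_lit 0) (nat_lit 0) (nat_lit 0) (nat_lit 1) (nat_lit 0) (nat_lit 1) (nat_lit 0) (nat_lit 351) (nat_lit 406) (nat_lit 323))) (XT.nd (nat_lit 94) (nat_lit 0) (nat_lit 0) (XT.lf (nat_lit 0) (nat_lit 37073916989) (nat_lit 0) (nat_lit 0) (nat_lit 0) (nat_lit 0) (nat_lit 0) (nat_lit 0) (nat_lit 1) (nat_lit 0) (nat_lit 1) (nat_lit 0) (nat_lit 352) (nat_lit 406) (nat_lit 322)) (XT.nd (nat_lit 94) (nat_lit 0) (nat_lit 0) (XT.lf (nat_lit 0) (nat_lit 37069646640) (nat_lit 0) (nat_lit 0) (nat_lit 0) (nat_lit 0) (nat_lit 0) (nat_lit 0) (nat_lit 1) (nat_lit 0) (nat_lit 1) (nat_lit 0) (nat_lit 353) (nat_lit 406) (nat_lit 321)) (XT.lf (nat_lit 0) (nat_lit 37065692613) (nat_lit 0) (nat_lit 0) (nat_lit 0) (nat_lit 0) (nat_lit 0) (nat_lit 0) (nat_lit 1) (nat_lit 0) (nat_lit 1) (nat_lit 0)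 (nat_lit 354) (nat_lit 406) (nat_lit 320)))))) (XT.nd (nat_lit 470) (nat_lit 0) (nat_lit 0) (XT.nd (nat_lit 188) (nat_lit 0) (nat_lit 0) (XT.nd (nat_lit 94) (nat_lit 0) (nat_lit 0) (XT.lf (nat_lit 0) (nat_lit 37062031477) (nat_lit 0) (nat_lit 0) (nat_lit 0) (nat_lit 0) (nat_lit 0) (nat_lit 0) (nat_lit 1) (nat_lit 0) (nat_lit 1) (nat_lit 0) (nat_lit 355) (nat_lit 406) (nat_lit 319)) (XT.lf (nat_lit 0) (nat_lit 37058641536) (nat_lit 0) (nat_lit 0) (nat_lit 0) (nat_lit 0) (nat_lit 0) (nat_lit 0) (nat_lit 1) (nat_lit 0) (nat_lit 1) (nat_lit 0) (nat_lit 356) (nat_lit 406) (nat_lit 318))) (XT.nd (nat_lit 94) (nat_lit 0) (nat_lit 0) (XT.lf (nat_lit 0) (nat_lit 37055502702) (nat_lit 0) (nat_lit 0) (nat_lit 0) (nat_lit 0) (nat_lit 0) (nat_lit 0) (nat_lit 1) (nat_lit 0) (nat_lit 1) (nat_lit 0) (nat_lit 357) (nat_lit 406) (nat_lit 317)) (XT.nd (nat_lit 94) (nat_lit 0)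 (nat_lit 0) (XT.lf (nat_lit 0) (nat_lit 37052596374) (nat_lit 0) (nat_lit 0) (nat_lit 0) (nat_lit 0) (nat_lit 0) (nat_lit 0) (nat_lit 1) (nat_lit 0) (nat_lit 1) (nat_lit 0) (nat_lit 358) (nat_lit 406) (nat_lit 316)) (XT.lf (nat_lit 0) (nat_lit 37049905329) (nat_lit 0) (nat_lit 0) (nat_lit 0) (nat_lit 0) (nat_lit 0) (nat_lit 0) (nat_lit 1) (nat_lit 0) (nat_lit 1) (nat_lit 0) (nat_lit 359) (nat_lit 406) (nat_lit 315))))) (XT.nd (nat_lit 188) (nat_lit 0) (nat_lit 0) (XT.nd (nat_lit 94) (nat_lit 0) (nat_lit 0) (XT.lf (nat_lit 0) (nat_lit 37047413621) (nat_lit 0) (nat_lit 0) (nat_lit 0) (nat_lit 0) (nat_lit 0) (nat_lit 0) (nat_lit 1) (nat_lit 0) (nat_lit 1) (nat_lit 0) (nat_lit 360) (nat_lit 406) (nat_lit 314)) (XT.lf (nat_lit 0) (nat_lit 37045106485) (nat_lit 0) (nat_lit 0) (nat_lit 0) (nat_lit 0) (nat_lit 0) (nat_lit 0) (nat_lit 1) (nat_lit 0) (nat_lit 1) (nat_lit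 0) (nat_lit 361) (nat_lit 406) (nat_lit 313))) (XT.nd (nat_lit 94) (nat_lit 0) (nat_lit 0) (XT.lf (nat_lit 0) (nat_lit 37042970247) (nat_lit 0) (nat_lit 0) (nat_lit 0) (nat_lit 0) (nat_lit 0) (nat_lit 0) (nat_lit 1) (nat_lit 0) (nat_lit 1) (nat_lit 0) (nat_lit 362) (nat_lit 406) (nat_lit 312)) (XT.nd (nat_lit 94) (nat_lit 0) (nat_lit 0) (XT.lf (nat_lit 0) (nat_lit 37040992249) (nat_lit 0) (nat_lit 0) (nat_lit 0) (nat_lit 0) (nat_lit 0) (nat_lit 0) (nat_lit 1) (nat_lit 0) (nat_lit 1) (nat_lit 0) (nat_lit 363) (nat_lit 406) (nat_lit 311)) (XT.lf (nat_lit 0) (nat_lit 37039160769) (nat_lit 0) (nat_lit 0) (nat_lit 0) (nat_lit 0) (nat_lit 0) (nat_lit 0) (nat_lit 1) (nat_lit 0) (nat_lit 1) (nat_lit 0) (nat_lit 364) (nat_lit 406) (nat_lit 310))))))))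
noncomputable def ec179 : XT := (XT.nd (nat_lit 1786) (nat_lit 0) (nat_lit 0) (XT.nd (nat_lit 846) (nat_lit 0) (nat_lit 0) (XT.nd (nat_lit 376) (nat_lit 0) (nat_lit 0) (XT.nd (nat_lit 188) (nat_lit 0) (nat_lit 0) (XT.nd (nat_lit 94) (nat_lit 0) (nat_lit 0) (XT.lf (nat_lit 0) (nat_lit 37037464955) (nat_lit 0) (nat_lit 0) (nat_lit 0) (nat_lit 0) (nat_lit 0) (nat_lit 0) (nat_lit 1) (nat_lit 0) (nat_lit 1) (nat_lit 0) (nat_lit 365) (nat_lit 406) (nat_lit 309)) (XT.lf (nat_lit 0) (nat_lit 37035894756) (nat_lit 0) (nat_lit 0) (nat_lit 0) (nat_lit 0) (nat_lit 0) (nat_lit 0) (nat_lit 1) (nat_lit 0) (nat_lit 1) (nat_lit 0) (nat_lit 366) (nat_lit 406) (nat_lit 308))) (XT.nd (nat_lit 94) (nat_lit 0) (nat_lit 0) (XT.lf (nat_lit 0) (nat_lit 37034440869) (nat_lit 0) (nat_lit 0) (nat_lit 0) (nat_lit 0) (nat_lit 0) (nat_lit 0) (nat_lit 1) (nat_lit 0) (nat_lit 1) (nat_lit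 0) (nat_lit 367) (nat_lit 406) (nat_lit 307)) (XT.lf (nat_lit 0) (nat_lit 37033094677) (nat_lit 0) (nat_lit 0) (nat_lit 0) (nat_lit 0) (nat_lit 0) (nat_lit 0) (nat_lit 1) (nat_lit 0) (nat_lit 1) (nat_lit 0) (nat_lit 368) (nat_lit 406) (nat_lit 306)))) (XT.nd (nat_lit 188) (nat_lit 0) (nat_lit 0) (XT.nd (nat_lit 94) (nat_lit 0) (nat_lit 0) (XT.lf (nat_lit 0) (nat_lit 37031848202) (nat_lit 0) (nat_lit 0) (nat_lit 0) (nat_lit 0) (nat_lit 0) (nat_lit 0) (nat_lit 1) (nat_lit 0) (nat_lit 1) (nat_lit 0) (nat_lit 369) (nat_lit 406) (nat_lit 305)) (XT.lf (nat_lit 0) (nat_lit 37030694060) (nat_lit 0) (nat_lit 0) (nat_lit 0) (nat_lit 0) (nat_lit 0) (nat_lit 0) (nat_lit 1) (nat_lit 0) (nat_lit 1) (nat_lit 0) (nat_lit 370) (nat_lit 406) (nat_lit 304))) (XT.nd (nat_lit 94) (nat_lit 0) (nat_lit 0) (XT.lf (nat_lit 0) (nat_lit 37029625409) (nat_lit 0) (nat_lit 0) (nat_lit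 0) (nat_lit 0) (nat_lit 0) (nat_lit 0) (nat_lit 1) (nat_lit 0) (nat_lit 1) (nat_lit 0) (nat_lit 371) (nat_lit 406) (nat_lit 303)) (XT.nd (nat_lit 94) (nat_lit 0) (nat_lit 0) (XT.lf (nat_lit 0) (nat_lit 37028635917) (nat_lit 0) (nat_lit 0) (nat_lit 0) (nat_lit 0) (nat_lit 0) (nat_lit 0) (nat_lit 1) (nat_lit 0) (nat_lit 1) (nat_lit 0) (nat_lit 372) (nat_lit 406) (nat_lit 302)) (XT.lf (nat_lit 0) (nat_lit 37027719722) (nat_lit 0) (nat_lit 0) (nat_lit 0) (nat_lit 0) (nat_lit 0) (nat_lit 0) (nat_lit 1) (nat_lit 0) (nat_lit 1) (nat_lit 0) (nat_lit 373) (nat_lit 406) (nat_lit 301)))))) (XT.nd (nat_lit 470) (nat_lit 0) (nat_lit 0) (XT.nd (nat_lit 188) (nat_lit 0) (nat_lit 0) (XT.nd (nat_lit 94) (nat_lit 0) (nat_lit 0) (XT.lf (nat_lit 0) (nat_lit 37026871392) (nat_lit 0) (nat_lit 0) (nat_lit 0) (nat_lit 0) (nat_lit 0) (nat_lit 0) (nat_lit 1) (nat_lit 0) (nat_lit 1)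 (nat_lit 0) (nat_lit 374) (nat_lit 406) (nat_lit 300)) (XT.lf (nat_lit 0) (nat_lit 37026085902) (nat_lit 0) (nat_lit 0) (nat_lit 0) (nat_lit 0) (nat_lit 0) (nat_lit 0) (nat_lit 1) (nat_lit 0) (nat_lit 1) (nat_lit 0) (nat_lit 375) (nat_lit 406) (nat_lit 299))) (XT.nd (nat_lit 94) (nat_lit 0) (nat_lit 0) (XT.lf (nat_lit 0) (nat_lit 37025358596) (nat_lit 0) (nat_lit 0) (nat_lit 0) (nat_lit 0) (nat_lit 0) (nat_lit 0) (nat_lit 1) (nat_lit 0) (nat_lit 1) (nat_lit 0) (nat_lit 376) (nat_lit 406) (nat_lit 298)) (XT.nd (nat_lit 94) (nat_lit 0) (nat_lit 0) (XT.lf (nat_lit 0) (nat_lit 37024685165) (nat_lit 0) (nat_lit 0) (nat_lit 0) (nat_lit 0) (nat_lit 0) (nat_lit 0) (nat_lit 1) (nat_lit 0) (nat_lit 1) (nat_lit 0) (nat_lit 377) (nat_lit 406) (nat_lit 297)) (XT.lf (nat_lit 0) (nat_lit 37024061618) (nat_lit 0) (nat_lit 0) (nat_lit 0) (nat_lit 0) (nat_lit 0) (nat_lit 0)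 (nat_lit 1) (nat_lit 0) (nat_lit 1) (nat_lit 0) (nat_lit 378) (nat_lit 406) (nat_lit 296))))) (XT.nd (nat_lit 188) (nat_lit 0) (nat_lit 0) (XT.nd (nat_lit 94) (nat_lit 0) (nat_lit 0) (XT.lf (nat_lit 0) (nat_lit 37023484259) (nat_lit 0) (nat_lit 0) (nat_lit 0) (nat_lit 0) (nat_lit 0) (nat_lit 0) (nat_lit 1) (nat_lit 0) (nat_lit 1) (nat_lit 0) (nat_lit 379) (nat_lit 406) (nat_lit 295)) (XT.lf (nat_lit 0) (nat_lit 37022949667) (nat_lit 0) (nat_lit 0) (nat_lit 0) (nat_lit 0) (nat_lit 0) (nat_lit 0) (nat_lit 1) (nat_lit 0) (nat_lit 1) (nat_lit 0) (nat_lit 380) (nat_lit 406) (nat_lit 294))) (XT.nd (nat_lit 94) (nat_lit 0) (nat_lit 0) (XT.lf (nat_lit 0) (nat_lit 37022454675) (nat_lit 0) (nat_lit 0) (nat_lit 0) (nat_lit 0) (nat_lit 0) (nat_lit 0) (nat_lit 1) (nat_lit 0) (nat_lit 1) (nat_lit 0) (nat_lit 381) (nat_lit 406) (nat_lit 293)) (XT.nd (nat_lit 94) (nat_lit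 0) (nat_lit 0) (XT.lf (nat_lit 0) (nat_lit 37021996349) (nat_lit 0) (nat_lit 0) (nat_lit 0) (nat_lit 0) (nat_lit 0) (nat_lit 0) (nat_lit 1) (nat_lit 0) (nat_lit 1) (nat_lit 0) (nat_lit 382) (nat_lit 406) (nat_lit 292)) (XT.lf (nat_lit 0) (nat_lit 37021571973) (nat_lit 0) (nat_lit 0) (nat_lit 0) (nat_lit 0) (nat_lit 0) (nat_lit 0) (nat_lit 1) (nat_lit 0) (nat_lit 1) (nat_lit 0) (nat_lit 383) (nat_lit 406) (nat_lit 291))))))) (XT.nd (nat_lit 846) (nat_lit 0) (nat_lit 0) (XT.nd (nat_lit 376) (nat_lit 0) (nat_lit 0) (XT.nd (nat_lit 188) (nat_lit 0) (nat_lit 0) (XT.nd (nat_lit 94) (nat_lit 0) (nat_lit 0) (XT.lf (nat_lit 0) (nat_lit 37021179033) (nat_lit 0) (nat_lit 0) (nat_lit 0) (nat_lit 0) (nat_lit 0) (nat_lit 0) (nat_lit 1) (nat_lit 0) (nat_lit 1) (nat_lit 0) (nat_lit 384) (nat_lit 406) (nat_lit 290)) (XT.lf (nat_lit 0) (nat_lit 37020815199) (nat_lit 0) (nat_lit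 0) (nat_lit 0) (nat_lit 0) (nat_lit 0) (nat_lit 0) (nat_lit 1) (nat_lit 0) (nat_lit 1) (nat_lit 0) (nat_lit 385) (nat_lit 406) (nat_lit 289))) (XT.nd (nat_lit 94) (nat_lit 0) (nat_lit 0) (XT.lf (nat_lit 0) (nat_lit 37020478316) (nat_lit 0) (nat_lit 0) (nat_lit 0) (nat_lit 0) (nat_lit 0) (nat_lit 0) (nat_lit 1) (nat_lit 0) (nat_lit 1) (nat_lit 0) (nat_lit 386) (nat_lit 406) (nat_lit 288)) (XT.lf (nat_lit 0) (nat_lit 37020166387) (nat_lit 0) (nat_lit 0) (nat_lit 0) (nat_lit 0) (nat_lit 0) (nat_lit 0) (nat_lit 1) (nat_lit 0) (nat_lit 1) (nat_lit 0) (nat_lit 387) (nat_lit 406) (nat_lit 287)))) (XT.nd (nat_lit 188) (nat_lit 0) (nat_lit 0) (XT.nd (nat_lit 94) (nat_lit 0) (nat_lit 0) (XT.lf (nat_lit 0) (nat_lit 37019877563) (nat_lit 0) (nat_lit 0) (nat_lit 0) (nat_lit 0) (nat_lit 0) (nat_lit 0) (nat_lit 1) (nat_lit 0) (nat_lit 1) (nat_lit 0) (nat_lit 388) (nat_lit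 406) (nat_lit 286)) (XT.lf (nat_lit 0) (nat_lit 37019610135) (nat_lit 0) (nat_lit 0) (nat_lit 0) (nat_lit 0) (nat_lit 0) (nat_lit 0) (nat_lit 1) (nat_lit 0) (nat_lit 1) (nat_lit 0) (nat_lit 389) (nat_lit 406) (nat_lit 285))) (XT.nd (nat_lit 94) (nat_lit 0) (nat_lit 0) (XT.lf (nat_lit 0) (nat_lit 37019362515) (nat_lit 0) (nat_lit 0) (nat_lit 0) (nat_lit 0) (nat_lit 0) (nat_lit 0) (nat_lit 1) (nat_lit 0) (nat_lit 1) (nat_lit 0) (nat_lit 390) (nat_lit 406) (nat_lit 284)) (XT.nd (nat_lit 94) (nat_lit 0) (nat_lit 0) (XT.lf (nat_lit 0) (nat_lit 37019133238) (nat_lit 0) (nat_lit 0) (nat_lit 0) (nat_lit 0) (nat_lit 0) (nat_lit 0) (nat_lit 1) (nat_lit 0) (nat_lit 1) (nat_lit 0) (nat_lit 391) (nat_lit 406) (nat_lit 283)) (XT.lf (nat_lit 0) (nat_lit 37018920945) (nat_lit 0) (nat_lit 0) (nat_lit 0) (nat_lit 0) (nat_lit 0) (nat_lit 0) (nat_lit 1) (nat_lit 0) (nat_lit 1)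 (nat_lit 0) (nat_lit 392) (nat_lit 406) (nat_lit 282)))))) (XT.nd (nat_lit 470) (nat_lit 0) (nat_lit 0) (XT.nd (nat_lit 188) (nat_lit 0) (nat_lit 0) (XT.nd (nat_lit 94) (nat_lit 0) (nat_lit 0) (XT.lf (nat_lit 0) (nat_lit 37018724376) (nat_lit 0) (nat_lit 0) (nat_lit 0) (nat_lit 0) (nat_lit 0) (nat_lit 0) (nat_lit 1) (nat_lit 0) (nat_lit 1) (nat_lit 0) (nat_lit 393) (nat_lit 406) (nat_lit 281)) (XT.lf (nat_lit 0) (nat_lit 37018542369) (nat_lit 0) (nat_lit 0) (nat_lit 0) (nat_lit 0) (nat_lit 0) (nat_lit 0) (nat_lit 1) (nat_lit 0) (nat_lit 1) (nat_lit 0) (nat_lit 394) (nat_lit 406) (nat_lit 280))) (XT.nd (nat_lit 94) (nat_lit 0) (nat_lit 0) (XT.lf (nat_lit 0) (nat_lit 37018373843) (nat_lit 0) (nat_lit 0) (nat_lit 0) (nat_lit 0) (nat_lit 0) (nat_lit 0) (nat_lit 1) (nat_lit 0) (nat_lit 1) (nat_lit 0) (nat_lit 395) (nat_lit 406) (nat_lit 279)) (XT.nd (nat_lit 94)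 (nat_lit 0) (nat_lit 0) (XT.lf (nat_lit 0) (nat_lit 37018217801) (nat_lit 0) (nat_lit 0) (nat_lit 0) (nat_lit 0) (nat_lit 0) (nat_lit 0) (nat_lit 1) (nat_lit 0) (nat_lit 1) (nat_lit 0) (nat_lit 396) (nat_lit 406) (nat_lit 278)) (XT.lf (nat_lit 0) (nat_lit 37018073318) (nat_lit 0) (nat_lit 0) (nat_lit 0) (nat_lit 0) (nat_lit 0) (nat_lit 0) (nat_lit 1) (nat_lit 0) (nat_lit 1) (nat_lit 0) (nat_lit 397) (nat_lit 406) (nat_lit 277))))) (XT.nd (nat_lit 188) (nat_lit 0) (nat_lit 0) (XT.nd (nat_lit 94) (nat_lit 0) (nat_lit 0) (XT.lf (nat_lit 0) (nat_lit 37017939537) (nat_lit 0) (nat_lit 0) (nat_lit 0) (nat_lit 0) (nat_lit 0) (nat_lit 0) (nat_lit 1) (nat_lit 0) (nat_lit 1) (nat_lit 0) (nat_lit 398) (nat_lit 406) (nat_lit 276)) (XT.lf (nat_lit 0) (nat_lit 37017815666) (nat_lit 0) (nat_lit 0) (nat_lit 0) (nat_lit 0) (nat_lit 0) (nat_lit 0) (nat_lit 1) (nat_lit 0) (nat_lit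 1) (nat_lit 0) (nat_lit 399) (nat_lit 406) (nat_lit 275))) (XT.nd (nat_lit 94) (nat_lit 0) (nat_lit 0) (XT.lf (nat_lit 0) (nat_lit 37017700970) (nat_lit 0) (nat_lit 0) (nat_lit 0) (nat_lit 0) (nat_lit 0) (nat_lit 0) (nat_lit 1) (nat_lit 0) (nat_lit 1) (nat_lit 0) (nat_lit 400) (nat_lit 406) (nat_lit 274)) (XT.nd (nat_lit 94) (nat_lit 0) (nat_lit 0) (XT.lf (nat_lit 0) (nat_lit 37017594770) (nat_lit 0) (nat_lit 0) (nat_lit 0) (nat_lit 0) (nat_lit 0) (nat_lit 0) (nat_lit 1) (nat_lit 0) (nat_lit 1) (nat_lit 0) (nat_lit 401) (nat_lit 406) (nat_lit 273)) (XT.lf (nat_lit 0) (nat_lit 37017496437) (nat_lit 0) (nat_lit 0) (nat_lit 0) (nat_lit 0) (nat_lit 0) (nat_lit 0) (nat_lit 1) (nat_lit 0) (nat_lit 1) (nat_lit 0) (nat_lit 402) (nat_lit 406) (nat_lit 272))))))))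
noncomputable def ec180 : XT := (XT.nd (nat_lit 1692) (nat_lit 0) (nat_lit 0) (XT.nd (nat_lit 846) (nat_lit 0) (nat_lit 0) (XT.nd (nat_lit 376) (nat_lit 0) (nat_lit 0) (XT.nd (nat_lit 188) (nat_lit 0) (nat_lit 0) (XT.nd (nat_lit 94) (nat_lit 0) (nat_lit 0) (XT.lf (nat_lit 0) (nat_lit 37017405388) (nat_lit 0) (nat_lit 0) (nat_lit 0) (nat_lit 0) (nat_lit 0) (nat_lit 0) (nat_lit 1) (nat_lit 0) (nat_lit 1) (nat_lit 0) (nat_lit 403) (nat_lit 406) (nat_lit 271)) (XT.lf (nat_lit 0) (nat_lit 37017321083) (nat_lit 0) (nat_lit 0) (nat_lit 0) (nat_lit 0) (nat_lit 0) (nat_lit 0) (nat_lit 1) (nat_lit 0) (nat_lit 1) (nat_lit 0) (nat_lit 404) (nat_lit 406) (nat_lit 270))) (XT.nd (nat_lit 94) (nat_lit 0) (nat_lit 0) (XT.lf (nat_lit 0) (nat_lit 37017243023) (nat_lit 0) (nat_lit 0) (nat_lit 0) (nat_lit 0) (nat_lit 0) (nat_lit 0) (nat_lit 1) (nat_lit 0) (nat_lit 1) (nat_lit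 0) (nat_lit 405) (nat_lit 406) (nat_lit 269)) (XT.lf (nat_lit 0) (nat_lit 37017170746) (nat_lit 0) (nat_lit 0) (nat_lit 0) (nat_lit 0) (nat_lit 0) (nat_lit 0) (nat_lit 1) (nat_lit 0) (nat_lit 1) (nat_lit 0) (nat_lit 406) (nat_lit 406) (nat_lit 268)))) (XT.nd (nat_lit 188) (nat_lit 0) (nat_lit 0) (XT.nd (nat_lit 94) (nat_lit 0) (nat_lit 0) (XT.lf (nat_lit 0) (nat_lit 37017103822) (nat_lit 0) (nat_lit 0) (nat_lit 0) (nat_lit 0) (nat_lit 0) (nat_lit 0) (nat_lit 1) (nat_lit 0) (nat_lit 1) (nat_lit 0) (nat_lit 407) (nat_lit 406) (nat_lit 267)) (XT.lf (nat_lit 0) (nat_lit 37017041855) (nat_lit 0) (nat_lit 0) (nat_lit 0) (nat_lit 0) (nat_lit 0) (nat_lit 0) (nat_lit 1) (nat_lit 0) (nat_lit 1) (nat_lit 0) (nat_lit 408) (nat_lit 406) (nat_lit 266))) (XT.nd (nat_lit 94) (nat_lit 0) (nat_lit 0) (XT.lf (nat_lit 0) (nat_lit 37016984479) (nat_lit 0) (nat_lit 0) (nat_lit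 0) (nat_lit 0) (nat_lit 0) (nat_lit 0) (nat_lit 1) (nat_lit 0) (nat_lit 1) (nat_lit 0) (nat_lit 409) (nat_lit 406) (nat_lit 265)) (XT.nd (nat_lit 94) (nat_lit 0) (nat_lit 0) (XT.lf (nat_lit 0) (nat_lit 37016931353) (nat_lit 0) (nat_lit 0) (nat_lit 0) (nat_lit 0) (nat_lit 0) (nat_lit 0) (nat_lit 1) (nat_lit 0) (nat_lit 1) (nat_lit 0) (nat_lit 410) (nat_lit 406) (nat_lit 264)) (XT.lf (nat_lit 0) (nat_lit 37016882162) (nat_lit 0) (nat_lit 0) (nat_lit 0) (nat_lit 0) (nat_lit 0) (nat_lit 0) (nat_lit 1) (nat_lit 0) (nat_lit 1) (nat_lit 0) (nat_lit 411) (nat_lit 406) (nat_lit 263)))))) (XT.nd (nat_lit 376) (nat_lit 0) (nat_lit 0) (XT.nd (nat_lit 188) (nat_lit 0) (nat_lit 0) (XT.nd (nat_lit 94) (nat_lit 0) (nat_lit 0) (XT.lf (nat_lit 0) (nat_lit 37016836615) (nat_lit 0) (nat_lit 0) (nat_lit 0) (nat_lit 0) (nat_lit 0) (nat_lit 0) (nat_lit 1) (nat_lit 0) (nat_lit 1)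 (nat_lit 0) (nat_lit 412) (nat_lit 406) (nat_lit 262)) (XT.lf (nat_lit 0) (nat_lit 37016794441) (nat_lit 0) (nat_lit 0) (nat_lit 0) (nat_lit 0) (nat_lit 0) (nat_lit 0) (nat_lit 1) (nat_lit 0) (nat_lit 1) (nat_lit 0) (nat_lit 413) (nat_lit 406) (nat_lit 261))) (XT.nd (nat_lit 94) (nat_lit 0) (nat_lit 0) (XT.lf (nat_lit 0) (nat_lit 37016755392) (nat_lit 0) (nat_lit 0) (nat_lit 0) (nat_lit 0) (nat_lit 0) (nat_lit 0) (nat_lit 1) (nat_lit 0) (nat_lit 1) (nat_lit 0) (nat_lit 414) (nat_lit 406) (nat_lit 260)) (XT.lf (nat_lit 0) (nat_lit 37016719235) (nat_lit 0) (nat_lit 0) (nat_lit 0) (nat_lit 0) (nat_lit 0) (nat_lit 0) (nat_lit 1) (nat_lit 0) (nat_lit 1) (nat_lit 0) (nat_lit 415) (nat_lit 406) (nat_lit 259)))) (XT.nd (nat_lit 188) (nat_lit 0) (nat_lit 0) (XT.nd (nat_lit 94) (nat_lit 0) (nat_lit 0) (XT.lf (nat_lit 0) (nat_lit 37016685756) (nat_lit 0) (nat_lit 0)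 (nat_lit 0) (nat_lit 0) (nat_lit 0) (nat_lit 0) (nat_lit 1) (nat_lit 0) (nat_lit 1) (nat_lit 0) (nat_lit 416) (nat_lit 406) (nat_lit 258)) (XT.lf (nat_lit 0) (nat_lit 37016654758) (nat_lit 0) (nat_lit 0) (nat_lit 0) (nat_lit 0) (nat_lit 0) (nat_lit 0) (nat_lit 1) (nat_lit 0) (nat_lit 1) (nat_lit 0) (nat_lit 417) (nat_lit 406) (nat_lit 257))) (XT.nd (nat_lit 94) (nat_lit 0) (nat_lit 0) (XT.lf (nat_lit 0) (nat_lit 37016626055) (nat_lit 0) (nat_lit 0) (nat_lit 0) (nat_lit 0) (nat_lit 0) (nat_lit 0) (nat_lit 1) (nat_lit 0) (nat_lit 1) (nat_lit 0) (nat_lit 418) (nat_lit 406) (nat_lit 256)) (XT.nd (nat_lit 94) (nat_lit 0) (nat_lit 0) (XT.lf (nat_lit 0) (nat_lit 37016599479) (nat_lit 0) (nat_lit 0) (nat_lit 0) (nat_lit 0) (nat_lit 0) (nat_lit 0) (nat_lit 1) (nat_lit 0) (nat_lit 1) (nat_lit 0) (nat_lit 419) (nat_lit 406) (nat_lit 255)) (XT.lf (nat_lit 0) (nat_lit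 37016574871) (nat_lit 0) (nat_lit 0) (nat_lit 0) (nat_lit 0) (nat_lit 0) (nat_lit 0) (nat_lit 1) (nat_lit 0) (nat_lit 1) (nat_lit 0) (nat_lit 420) (nat_lit 406) (nat_lit 254))))))) (XT.nd (nat_lit 846) (nat_lit 0) (nat_lit 0) (XT.nd (nat_lit 376) (nat_lit 0) (nat_lit 0) (XT.nd (nat_lit 188) (nat_lit 0) (nat_lit 0) (XT.nd (nat_lit 94) (nat_lit 0) (nat_lit 0) (XT.lf (nat_lit 0) (nat_lit 37016552086) (nat_lit 0) (nat_lit 0) (nat_lit 0) (nat_lit 0) (nat_lit 0) (nat_lit 0) (nat_lit 1) (nat_lit 0) (nat_lit 1) (nat_lit 0) (nat_lit 421) (nat_lit 406) (nat_lit 253)) (XT.lf (nat_lit 0) (nat_lit 37016530989) (nat_lit 0) (nat_lit 0) (nat_lit 0) (nat_lit 0) (nat_lit 0) (nat_lit 0) (nat_lit 1) (nat_lit 0) (nat_lit 1) (nat_lit 0) (nat_lit 422) (nat_lit 406) (nat_lit 252))) (XT.nd (nat_lit 94) (nat_lit 0) (nat_lit 0) (XT.lf (nat_lit 0) (nat_lit 37016511455) (nat_lit 0) (nat_lit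 0) (nat_lit 0) (nat_lit 0) (nat_lit 0) (nat_lit 0) (nat_lit 1) (nat_lit 0) (nat_lit 1) (nat_lit 0) (nat_lit 423) (nat_lit 406) (nat_lit 251)) (XT.lf (nat_lit 0) (nat_lit 37016493367) (nat_lit 0) (nat_lit 0) (nat_lit 0) (nat_lit 0) (nat_lit 0) (nat_lit 0) (nat_lit 1) (nat_lit 0) (nat_lit 1) (nat_lit 0) (nat_lit 424) (nat_lit 406) (nat_lit 250)))) (XT.nd (nat_lit 188) (nat_lit 0) (nat_lit 0) (XT.nd (nat_lit 94) (nat_lit 0) (nat_lit 0) (XT.lf (nat_lit 0) (nat_lit 37016476620) (nat_lit 0) (nat_lit 0) (nat_lit 0) (nat_lit 0) (nat_lit 0) (nat_lit 0) (nat_lit 1) (nat_lit 0) (nat_lit 1) (nat_lit 0) (nat_lit 425) (nat_lit 406) (nat_lit 249)) (XT.lf (nat_lit 0) (nat_lit 37016461113) (nat_lit 0) (nat_lit 0) (nat_lit 0) (nat_lit 0) (nat_lit 0) (nat_lit 0) (nat_lit 1) (nat_lit 0) (nat_lit 1) (nat_lit 0) (nat_lit 426) (nat_lit 406) (nat_lit 248))) (XT.nd (nat_lit 94) (nat_lit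 0) (nat_lit 0) (XT.lf (nat_lit 0) (nat_lit 37016446754) (nat_lit 0) (nat_lit 0) (nat_lit 0) (nat_lit 0) (nat_lit 0) (nat_lit 0) (nat_lit 1) (nat_lit 0) (nat_lit 1) (nat_lit 0) (nat_lit 427) (nat_lit 406) (nat_lit 247)) (XT.nd (nat_lit 94) (nat_lit 0) (nat_lit 0) (XT.lf (nat_lit 0) (nat_lit 37016433459) (nat_lit 0) (nat_lit 0) (nat_lit 0) (nat_lit 0) (nat_lit 0) (nat_lit 0) (nat_lit 1) (nat_lit 0) (nat_lit 1) (nat_lit 0) (nat_lit 428) (nat_lit 406) (nat_lit 246)) (XT.lf (nat_lit 0) (nat_lit 37016421149) (nat_lit 0) (nat_lit 0) (nat_lit 0) (nat_lit 0) (nat_lit 0) (nat_lit 0) (nat_lit 1) (nat_lit 0) (nat_lit 1) (nat_lit 0) (nat_lit 429) (nat_lit 406) (nat_lit 245)))))) (XT.nd (nat_lit 470) (nat_lit 0) (nat_lit 0) (XT.nd (nat_lit 188) (nat_lit 0) (nat_lit 0) (XT.nd (nat_lit 94) (nat_lit 0) (nat_lit 0) (XT.lf (nat_lit 0) (nat_lit 37016409751) (nat_lit 0) (nat_lit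 0) (nat_lit 0) (nat_lit 0) (nat_lit 0) (nat_lit 0) (nat_lit 1) (nat_lit 0) (nat_lit 1) (nat_lit 0) (nat_lit 430) (nat_lit 406) (nat_lit 244)) (XT.lf (nat_lit 0) (nat_lit 37016399197) (nat_lit 0) (nat_lit 0) (nat_lit 0) (nat_lit 0) (nat_lit 0) (nat_lit 0) (nat_lit 1) (nat_lit 0) (nat_lit 1) (nat_lit 0) (nat_lit 431) (nat_lit 406) (nat_lit 243))) (XT.nd (nat_lit 94) (nat_lit 0) (nat_lit 0) (XT.lf (nat_lit 0) (nat_lit 37016389425) (nat_lit 0) (nat_lit 0) (nat_lit 0) (nat_lit 0) (nat_lit 0) (nat_lit 0) (nat_lit 1) (nat_lit 0) (nat_lit 1) (nat_lit 0) (nat_lit 432) (nat_lit 406) (nat_lit 242)) (XT.nd (nat_lit 94) (nat_lit 0) (nat_lit 0) (XT.lf (nat_lit 0) (nat_lit 37016380377) (nat_lit 0) (nat_lit 0) (nat_lit 0) (nat_lit 0) (nat_lit 0) (nat_lit 0) (nat_lit 1) (nat_lit 0) (nat_lit 1) (nat_lit 0) (nat_lit 433) (nat_lit 406) (nat_lit 241)) (XT.lf (nat_lit 0) (nat_lit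 37016371999) (nat_lit 0) (nat_lit 0) (nat_lit 0) (nat_lit 0) (nat_lit 0) (nat_lit 0) (nat_lit 1) (nat_lit 0) (nat_lit 1) (nat_lit 0) (nat_lit 434) (nat_lit 406) (nat_lit 240))))) (XT.nd (nat_lit 188) (nat_lit 0) (nat_lit 0) (XT.nd (nat_lit 94) (nat_lit 0) (nat_lit 0) (XT.lf (nat_lit 0) (nat_lit 37016364242) (nat_lit 0) (nat_lit 0) (nat_lit 0) (nat_lit 0) (nat_lit 0) (nat_lit 0) (nat_lit 1) (nat_lit 0) (nat_lit 1) (nat_lit 0) (nat_lit 435) (nat_lit 406) (nat_lit 239)) (XT.lf (nat_lit 0) (nat_lit 37016357059) (nat_lit 0) (nat_lit 0) (nat_lit 0) (nat_lit 0) (nat_lit 0) (nat_lit 0) (nat_lit 1) (nat_lit 0) (nat_lit 1) (nat_lit 0) (nat_lit 436) (nat_lit 406) (nat_lit 238))) (XT.nd (nat_lit 94) (nat_lit 0) (nat_lit 0) (XT.lf (nat_lit 0) (nat_lit 37016350408) (nat_lit 0) (nat_lit 0) (nat_lit 0) (nat_lit 0) (nat_lit 0) (nat_lit 0) (nat_lit 1) (nat_lit 0) (nat_lit 1)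 (nat_lit 0) (nat_lit 437) (nat_lit 406) (nat_lit 237)) (XT.nd (nat_lit 94) (nat_lit 0) (nat_lit 0) (XT.lf (nat_lit 0) (nat_lit 37016344250) (nat_lit 0) (nat_lit 0) (nat_lit 0) (nat_lit 0) (nat_lit 0) (nat_lit 0) (nat_lit 1) (nat_lit 0) (nat_lit 1) (nat_lit 0) (nat_lit 438) (nat_lit 406) (nat_lit 236)) (XT.lf (nat_lit 0) (nat_lit 37016338548) (nat_lit 0) (nat_lit 0) (nat_lit 0) (nat_lit 0) (nat_lit 0) (nat_lit 0) (nat_lit 1) (nat_lit 0) (nat_lit 1) (nat_lit 0) (nat_lit 439) (nat_lit 406) (nat_lit 235))))))))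
noncomputable def ec181 : XT := (XT.nd (nat_lit 53016) (nat_lit 0) (nat_lit 3024) (XT.nd (nat_lit 52076) (nat_lit 0) (nat_lit 7224) (XT.nd (nat_lit 51606) (nat_lit 0) (nat_lit 10836) (XT.nd (nat_lit 51418) (nat_lit 0) (nat_lit 10752) (XT.nd (nat_lit 94) (nat_lit 0) (nat_lit 0) (XT.lf (nat_lit 0) (nat_lit 37016333269) (nat_lit 0) (nat_lit 0) (nat_lit 0) (nat_lit 0) (nat_lit 0) (nat_lit 0) (nat_lit 1) (nat_lit 0) (nat_lit 1) (nat_lit 0) (nat_lit 440) (nat_lit 406) (nat_lit 234)) (XT.lf (nat_lit 0) (nat_lit 37016328380) (nat_lit 0) (nat_lit 0) (nat_lit 0) (nat_lit 0) (nat_lit 0) (nat_lit 0) (nat_lit 1) (nat_lit 0) (nat_lit 1) (nat_lit 0) (nat_lit 441) (nat_lit 406) (nat_lit 233))) (XT.nd (nat_lit 94) (nat_lit 0) (nat_lit 84) (XT.lf (nat_lit 924) (nat_lit 20006272819) (nat_lit 0) (nat_lit 35521091405) (nat_lit 924) (nat_lit 20006272819) (nat_lit 139) (nat_lit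 1) (nat_lit 128) (nat_lit 0) (nat_lit 139) (nat_lit 0) (nat_lit 266) (nat_lit 407) (nat_lit 407)) (XT.lf (nat_lit 924) (nat_lit 7462953636) (nat_lit 0) (nat_lit 69738668028) (nat_lit 840) (nat_lit 68204184339) (nat_lit 140) (nat_lit 1) (nat_lit 129) (nat_lit 1) (nat_lit 139) (nat_lit 1) (nat_lit 267) (nat_lit 407) (nat_lit 406)))) (XT.nd (nat_lit 188) (nat_lit 0) (nat_lit 168) (XT.nd (nat_lit 94) (nat_lit 0) (nat_lit 84) (XT.lf (nat_lit 924) (nat_lit 68542921476) (nat_lit 84) (nat_lit 46704009485) (nat_lit 0) (nat_lit 24769676176) (nat_lit 140) (nat_lit 1) (nat_lit 130) (nat_lit 1) (nat_lit 129) (nat_lit 1) (nat_lit 268) (nat_lit 407) (nat_lit 405)) (XT.lf (nat_lit 924) (nat_lit 59226699272) (nat_lit 84) (nat_lit 19573326653) (nat_lit 0) (nat_lit 56097071526) (nat_lit 141) (nat_lit 1) (nat_lit 131) (nat_lit 1) (nat_lit 130) (nat_lit 1) (nat_lit 269) (nat_lit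 407) (nat_lit 404))) (XT.nd (nat_lit 94) (nat_lit 0) (nat_lit 84) (XT.lf (nat_lit 924) (nat_lit 43832792740) (nat_lit 0) (nat_lit 82009083331) (nat_lit 840) (nat_lit 4192292623) (nat_lit 142) (nat_lit 1) (nat_lit 131) (nat_lit 1) (nat_lit 141) (nat_lit 1) (nat_lit 270) (nat_lit 407) (nat_lit 403)) (XT.nd (nat_lit 94) (nat_lit 0) (nat_lit 0) (XT.lf (nat_lit 924) (nat_lit 10517248849) (nat_lit 0) (nat_lit 90437797380) (nat_lit 840) (nat_lit 24448432597) (nat_lit 143) (nat_lit 1) (nat_lit 132) (nat_lit 1) (nat_lit 142) (nat_lit 1) (nat_lit 271) (nat_lit 407) (nat_lit 402)) (XT.lf (nat_lit 924) (nat_lit 20209874561) (nat_lit 84) (nat_lit 78597810589) (nat_lit 0) (nat_lit 22181271861) (nat_lit 143) (nat_lit 1) (nat_lit 133) (nat_lit 1) (nat_lit 132) (nat_lit 1) (nat_lit 272) (nat_lit 407) (nat_lit 401)))))) (XT.nd (nat_lit 470) (nat_lit 1344) (nat_lit 0) (XT.nd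 (nat_lit 188) (nat_lit 1176) (nat_lit 0) (XT.nd (nat_lit 94) (nat_lit 588) (nat_lit 0) (XT.lf (nat_lit 924) (nat_lit 4150647387) (nat_lit 0) (nat_lit 58757062460) (nat_lit 840) (nat_lit 53879610629) (nat_lit 134) (nat_lit 1) (nat_lit 123) (nat_lit 1) (nat_lit 133) (nat_lit 1) (nat_lit 273) (nat_lit 407) (nat_lit 400)) (XT.lf (nat_lit 84) (nat_lit 28739947128) (nat_lit 0) (nat_lit 12454356539) (nat_lit 588) (nat_lit 71590323709) (nat_lit 117) (nat_lit 1) (nat_lit 116) (nat_lit 1) (nat_lit 123) (nat_lit 1) (nat_lit 274) (nat_lit 407) (nat_lit 399))) (XT.nd (nat_lit 94) (nat_lit 756) (nat_lit 0) (XT.lf (nat_lit 504) (nat_lit 79203676880) (nat_lit 0) (nat_lit 25782504318) (nat_lit 420) (nat_lit 3986134475) (nat_lit 117) (nat_lit 1) (nat_lit 111) (nat_lit 1) (nat_lit 116) (nat_lit 1) (nat_lit 275) (nat_lit 407) (nat_lit 398)) (XT.nd (nat_lit 94) (nat_lit 336) (nat_lit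 0) (XT.lf (nat_lit 504) (nat_lit 57154127471) (nat_lit 0) (nat_lit 12017336324) (nat_lit 420) (nat_lit 36152462760) (nat_lit 112) (nat_lit 1) (nat_lit 106) (nat_lit 1) (nat_lit 111) (nat_lit 1) (nat_lit 276) (nat_lit 407) (nat_lit 397)) (XT.lf (nat_lit 420) (nat_lit 34777557626) (nat_lit 0) (nat_lit 221258690) (nat_lit 336) (nat_lit 66853623578) (nat_lit 107) (nat_lit 1) (nat_lit 102) (nat_lit 1) (nat_lit 106) (nat_lit 1) (nat_lit 277) (nat_lit 407) (nat_lit 396))))) (XT.nd (nat_lit 188) (nat_lit 924) (nat_lit 0) (XT.nd (nat_lit 94) (nat_lit 420) (nat_lit 0) (XT.lf (nat_lit 84) (nat_lit 2565723843) (nat_lit 0) (nat_lit 86528640427) (nat_lit 420) (nat_lit 9446283547) (nat_lit 103) (nat_lit 1) (nat_lit 102) (nat_lit 1) (nat_lit 107) (nat_lit 1) (nat_lit 278) (nat_lit 407) (nat_lit 395)) (XT.lf (nat_lit 84) (nat_lit 66247655107) (nat_lit 0) (nat_lit 10987882445)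 (nat_lit 420) (nat_lit 18121013702) (nat_lit 98) (nat_lit 1) (nat_lit 97) (nat_lit 1) (nat_lit 102) (nat_lit 1) (nat_lit 279) (nat_lit 407) (nat_lit 394))) (XT.nd (nat_lit 94) (nat_lit 588) (nat_lit 0) (XT.lf (nat_lit 84) (nat_lit 33145380608) (nat_lit 0) (nat_lit 33657834456) (nat_lit 420) (nat_lit 25509929247) (nat_lit 94) (nat_lit 1) (nat_lit 93) (nat_lit 1) (nat_lit 98) (nat_lit 1) (nat_lit 280) (nat_lit 407) (nat_lit 393)) (XT.nd (nat_lit 94) (nat_lit 252) (nat_lit 0) (XT.lf (nat_lit 84) (nat_lit 1635982488) (nat_lit 0) (nat_lit 56275376580) (nat_lit 420) (nat_lit 31502473563) (nat_lit 90) (nat_lit 1) (nat_lit 89) (nat_lit 1) (nat_lit 94) (nat_lit 1) (nat_lit 281) (nat_lit 407) (nat_lit 392)) (XT.lf (nat_lit 336) (nat_lit 7388004713) (nat_lit 0) (nat_lit 49961539465) (nat_lit 252) (nat_lit 29278610368) (nat_lit 90) (nat_lit 1) (nat_lit 86) (nat_lit 1)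 (nat_lit 89) (nat_lit 1) (nat_lit 282) (nat_lit 407) (nat_lit 391))))))) (XT.nd (nat_lit 846) (nat_lit 1764) (nat_lit 0) (XT.nd (nat_lit 376) (nat_lit 1176) (nat_lit 0) (XT.nd (nat_lit 188) (nat_lit 588) (nat_lit 0) (XT.nd (nat_lit 94) (nat_lit 252) (nat_lit 0) (XT.lf (nat_lit 84) (nat_lit 25527542621) (nat_lit 0) (nat_lit 17496736334) (nat_lit 420) (nat_lit 40933278918) (nat_lit 82) (nat_lit 1) (nat_lit 81) (nat_lit 1) (nat_lit 86) (nat_lit 1) (nat_lit 283) (nat_lit 407) (nat_lit 390)) (XT.lf (nat_lit 336) (nat_lit 39522776148) (nat_lit 0) (nat_lit 37126539993) (nat_lit 252) (nat_lit 4752153056) (nat_lit 82) (nat_lit 1) (nat_lit 78) (nat_lit 1) (nat_lit 81) (nat_lit 1) (nat_lit 284) (nat_lit 407) (nat_lit 389))) (XT.nd (nat_lit 94) (nat_lit 336) (nat_lit 0) (XT.lf (nat_lit 336) (nat_lit 12666858818) (nat_lit 0) (nat_lit 31964430617) (nat_lit 252) (nat_lit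 34312322287) (nat_lit 79) (nat_lit 1) (nat_lit 75) (nat_lit 1) (nat_lit 78) (nat_lit 1) (nat_lit 285) (nat_lit 407) (nat_lit 388)) (XT.lf (nat_lit 84) (nat_lit 14437158332) (nat_lit 0) (nat_lit 13218473070) (nat_lit 336) (nat_lit 48932202296) (nat_lit 72) (nat_lit 1) (nat_lit 71) (nat_lit 1) (nat_lit 75) (nat_lit 1) (nat_lit 286) (nat_lit 407) (nat_lit 387)))) (XT.nd (nat_lit 188) (nat_lit 756) (nat_lit 0) (XT.nd (nat_lit 94) (nat_lit 168) (nat_lit 0) (XT.lf (nat_lit 336) (nat_lit 35924973637) (nat_lit 0) (nat_lit 23903146181) (nat_lit 252) (nat_lit 14490165804) (nat_lit 72) (nat_lit 1) (nat_lit 68) (nat_lit 1) (nat_lit 71) (nat_lit 1) (nat_lit 287) (nat_lit 407) (nat_lit 386)) (XT.lf (nat_lit 252) (nat_lit 8905854010) (nat_lit 0) (nat_lit 20853751543) (nat_lit 168) (nat_lit 42380691897) (nat_lit 69) (nat_lit 1) (nat_lit 66) (nat_lit 1) (nat_lit 68) (nat_lit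 1) (nat_lit 288) (nat_lit 407) (nat_lit 385))) (XT.nd (nat_lit 94) (nat_lit 420) (nat_lit 0) (XT.lf (nat_lit 84) (nat_lit 1508708566) (nat_lit 0) (nat_lit 16882776387) (nat_lit 336) (nat_lit 51655248882) (nat_lit 63) (nat_lit 1) (nat_lit 62) (nat_lit 1) (nat_lit 66) (nat_lit 1) (nat_lit 289) (nat_lit 407) (nat_lit 384)) (XT.nd (nat_lit 94) (nat_lit 252) (nat_lit 0) (XT.lf (nat_lit 252) (nat_lit 25878777644) (nat_lit 0) (nat_lit 16172015891) (nat_lit 168) (nat_lit 25968836051) (nat_lit 63) (nat_lit 1) (nat_lit 60) (nat_lit 1) (nat_lit 62) (nat_lit 1) (nat_lit 290) (nat_lit 407) (nat_lit 383)) (XT.lf (nat_lit 84) (nat_lit 14040743269) (nat_lit 0) (nat_lit 648550734) (nat_lit 252) (nat_lit 51391687180) (nat_lit 58) (nat_lit 1) (nat_lit 57) (nat_lit 1) (nat_lit 60) (nat_lit 1) (nat_lit 291) (nat_lit 407) (nat_lit 382)))))) (XT.nd (nat_lit 470) (nat_lit 840) (nat_lit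 0) (XT.nd (nat_lit 188) (nat_lit 588) (nat_lit 0) (XT.nd (nat_lit 94) (nat_lit 168) (nat_lit 0) (XT.lf (nat_lit 252) (nat_lit 38384680766) (nat_lit 0) (nat_lit 13301152542) (nat_lit 168) (nat_lit 12512893373) (nat_lit 58) (nat_lit 1) (nat_lit 55) (nat_lit 1) (nat_lit 57) (nat_lit 1) (nat_lit 292) (nat_lit 407) (nat_lit 381)) (XT.lf (nat_lit 252) (nat_lit 11923820027) (nat_lit 0) (nat_lit 12364892151) (nat_lit 168) (nat_lit 38099726828) (nat_lit 56) (nat_lit 1) (nat_lit 53) (nat_lit 1) (nat_lit 55) (nat_lit 1) (nat_lit 293) (nat_lit 407) (nat_lit 380))) (XT.nd (nat_lit 94) (nat_lit 336) (nat_lit 0) (XT.lf (nat_lit 252) (nat_lit 47333183382) (nat_lit 0) (nat_lit 11813650853) (nat_lit 168) (nat_lit 1498698668) (nat_lit 53) (nat_lit 1) (nat_lit 50) (nat_lit 1) (nat_lit 52) (nat_lit 1) (nat_lit 294) (nat_lit 407) (nat_lit 379)) (XT.nd (nat_lit 94) (nat_lit 168)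 (nat_lit 0) (XT.lf (nat_lit 252) (nat_lit 21184139174) (nat_lit 0) (nat_lit 11278053631) (nat_lit 168) (nat_lit 26488863855) (nat_lit 51) (nat_lit 1) (nat_lit 48) (nat_lit 1) (nat_lit 50) (nat_lit 1) (nat_lit 295) (nat_lit 407) (nat_lit 378)) (XT.lf (nat_lit 84) (nat_lit 7256385564) (nat_lit 0) (nat_lit 3988436488) (nat_lit 168) (nat_lit 46082040861) (nat_lit 47) (nat_lit 1) (nat_lit 46) (nat_lit 1) (nat_lit 48) (nat_lit 1) (nat_lit 296) (nat_lit 407) (nat_lit 377))))) (XT.nd (nat_lit 188) (nat_lit 588) (nat_lit 0) (XT.nd (nat_lit 94) (nat_lit 84) (nat_lit 0) (XT.lf (nat_lit 252) (nat_lit 27794808911) (nat_lit 0) (nat_lit 11125751903) (nat_lit 168) (nat_lit 16823093336) (nat_lit 47) (nat_lit 1) (nat_lit 44) (nat_lit 1) (nat_lit 46) (nat_lit 1) (nat_lit 297) (nat_lit 407) (nat_lit 376)) (XT.lf (nat_lit 168) (nat_lit 2993105960) (nat_lit 0) (nat_lit 11399014747)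 (nat_lit 84) (nat_lit 39830827724) (nat_lit 45) (nat_lit 1) (nat_lit 43) (nat_lit 1) (nat_lit 44) (nat_lit 1) (nat_lit 298) (nat_lit 407) (nat_lit 375))) (XT.nd (nat_lit 94) (nat_lit 336) (nat_lit 0) (XT.lf (nat_lit 252) (nat_lit 32309473802) (nat_lit 0) (nat_lit 11658150220) (nat_lit 168) (nat_lit 8776549243) (nat_lit 43) (nat_lit 1) (nat_lit 40) (nat_lit 1) (nat_lit 42) (nat_lit 1) (nat_lit 299) (nat_lit 407) (nat_lit 374)) (XT.nd (nat_lit 94) (nat_lit 252) (nat_lit 0) (XT.lf (nat_lit 168) (nat_lit 8126070910) (nat_lit 0) (nat_lit 12094060205) (nat_lit 84) (nat_lit 31095104679) (nat_lit 41) (nat_lit 1) (nat_lit 39) (nat_lit 1) (nat_lit 40) (nat_lit 1) (nat_lit 300) (nat_lit 407) (nat_lit 373)) (XT.lf (nat_lit 252) (nat_lit 35175762550) (nat_lit 0) (nat_lit 12677360307) (nat_lit 168) (nat_lit 2080463350) (nat_lit 39) (nat_lit 1) (nat_lit 36) (nat_lit 1) (nat_lit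 38) (nat_lit 1) (nat_lit 301) (nat_lit 407) (nat_lit 372))))))))
noncomputable def ec182 : XT := (XT.nd (nat_lit 1692) (nat_lit 588) (nat_lit 0) (XT.nd (nat_lit 846) (nat_lit 1176) (nat_lit 0) (XT.nd (nat_lit 376) (nat_lit 588) (nat_lit 0) (XT.nd (nat_lit 188) (nat_lit 336) (nat_lit 0) (XT.nd (nat_lit 94) (nat_lit 252) (nat_lit 0) (XT.lf (nat_lit 168) (nat_lit 11694530872) (nat_lit 0) (nat_lit 13216300454) (nat_lit 84) (nat_lit 23678143631) (nat_lit 37) (nat_lit 1) (nat_lit 35) (nat_lit 1) (nat_lit 36) (nat_lit 1) (nat_lit 302) (nat_lit 407) (nat_lit 371)) (XT.lf (nat_lit 84) (nat_lit 3375507009) (nat_lit 0) (nat_lit 10594816722) (nat_lit 252) (nat_lit 33322345227) (nat_lit 33) (nat_lit 1) (nat_lit 32) (nat_lit 1) (nat_lit 35) (nat_lit 1) (nat_lit 303) (nat_lit 407) (nat_lit 370))) (XT.nd (nat_lit 94) (nat_lit 252) (nat_lit 0) (XT.lf (nat_lit 168) (nat_lit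 14034492159) (nat_lit 0) (nat_lit 14623275610) (nat_lit 84) (nat_lit 17370788150) (nat_lit 33) (nat_lit 1) (nat_lit 31) (nat_lit 1) (nat_lit 32) (nat_lit 1) (nat_lit 304) (nat_lit 407) (nat_lit 369)) (XT.lf (nat_lit 84) (nat_lit 7850172432) (nat_lit 0) (nat_lit 7603422827) (nat_lit 252) (nat_lit 29355271651) (nat_lit 29) (nat_lit 1) (nat_lit 28) (nat_lit 1) (nat_lit 31) (nat_lit 1) (nat_lit 305) (nat_lit 407) (nat_lit 368)))) (XT.nd (nat_lit 188) (nat_lit 336) (nat_lit 0) (XT.nd (nat_lit 94) (nat_lit 168) (nat_lit 0) (XT.lf (nat_lit 168) (nat_lit 15416921128) (nat_lit 0) (nat_lit 16203779654) (nat_lit 84) (nat_lit 11999639710) (nat_lit 29) (nat_lit 1) (nat_lit 27) (nat_lit 1) (nat_lit 28) (nat_lit 1) (nat_lit 306) (nat_lit 407) (nat_lit 367)) (XT.lf (nat_lit 84) (nat_lit 11557269094) (nat_lit 0) (nat_lit 5506831930) (nat_lit 168) (nat_lit 25406964598) (nat_lit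 26) (nat_lit 1) (nat_lit 25) (nat_lit 1) (nat_lit 27) (nat_lit 1) (nat_lit 307) (nat_lit 407) (nat_lit 366))) (XT.nd (nat_lit 94) (nat_lit 252) (nat_lit 0) (XT.lf (nat_lit 168) (nat_lit 16059897340) (nat_lit 0) (nat_lit 17871769190) (nat_lit 84) (nat_lit 7420679220) (nat_lit 26) (nat_lit 1) (nat_lit 24) (nat_lit 1) (nat_lit 25) (nat_lit 1) (nat_lit 308) (nat_lit 407) (nat_lit 365)) (XT.nd (nat_lit 94) (nat_lit 84) (nat_lit 0) (XT.lf (nat_lit 84) (nat_lit 14618870829) (nat_lit 0) (nat_lit 4108168425) (nat_lit 168) (nat_lit 21540997278) (nat_lit 23) (nat_lit 1) (nat_lit 22) (nat_lit 1) (nat_lit 24) (nat_lit 1) (nat_lit 309) (nat_lit 407) (nat_lit 364)) (XT.lf (nat_lit 168) (nat_lit 16138523176) (nat_lit 0) (nat_lit 19561413041) (nat_lit 84) (nat_lit 3514047047) (nat_lit 23) (nat_lit 1) (nat_lit 21) (nat_lit 1) (nat_lit 22) (nat_lit 1) (nat_lit 310) (nat_lit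 407) (nat_lit 363)))))) (XT.nd (nat_lit 376) (nat_lit 672) (nat_lit 0) (XT.nd (nat_lit 188) (nat_lit 252) (nat_lit 0) (XT.nd (nat_lit 94) (nat_lit 84) (nat_lit 0) (XT.lf (nat_lit 84) (nat_lit 17136434614) (nat_lit 0) (nat_lit 3249126021) (nat_lit 168) (nat_lit 17804265324) (nat_lit 20) (nat_lit 1) (nat_lit 19) (nat_lit 1) (nat_lit 21) (nat_lit 1) (nat_lit 311) (nat_lit 407) (nat_lit 362)) (XT.lf (nat_lit 168) (nat_lit 15793002368) (nat_lit 0) (nat_lit 21223071900) (nat_lit 84) (nat_lit 179769707) (nat_lit 20) (nat_lit 1) (nat_lit 18) (nat_lit 1) (nat_lit 19) (nat_lit 1) (nat_lit 312) (nat_lit 407) (nat_lit 361))) (XT.nd (nat_lit 94) (nat_lit 84) (nat_lit 0) (XT.lf (nat_lit 84) (nat_lit 19194449953) (nat_lit 0) (nat_lit 2802725666) (nat_lit 168) (nat_lit 14230385397) (nat_lit 17) (nat_lit 1) (nat_lit 16) (nat_lit 1) (nat_lit 18) (nat_lit 1) (nat_lit 313) (nat_lit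 407) (nat_lit 360)) (XT.lf (nat_lit 0) (nat_lit 2580419456) (nat_lit 0) (nat_lit 20195915940) (nat_lit 168) (nat_lit 12511104120) (nat_lit 15) (nat_lit 3) (nat_lit 15) (nat_lit 1) (nat_lit 17) (nat_lit 1) (nat_lit 314) (nat_lit 407) (nat_lit 359)))) (XT.nd (nat_lit 188) (nat_lit 420) (nat_lit 0) (XT.nd (nat_lit 94) (nat_lit 84) (nat_lit 0) (XT.lf (nat_lit 84) (nat_lit 20863427677) (nat_lit 0) (nat_lit 2667412822) (nat_lit 168) (nat_lit 10842448605) (nat_lit 14) (nat_lit 1) (nat_lit 13) (nat_lit 1) (nat_lit 15) (nat_lit 1) (nat_lit 315) (nat_lit 407) (nat_lit 358)) (XT.lf (nat_lit 0) (nat_lit 4929555799) (nat_lit 0) (nat_lit 19312840537) (nat_lit 168) (nat_lit 9241088245) (nat_lit 12) (nat_lit 3) (nat_lit 12) (nat_lit 1) (nat_lit 14) (nat_lit 1) (nat_lit 316) (nat_lit 407) (nat_lit 357))) (XT.nd (nat_lit 94) (nat_lit 252) (nat_lit 0) (XT.lf (nat_lit 84) (nat_lit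 22202348780) (nat_lit 0) (nat_lit 2762247700) (nat_lit 168) (nat_lit 7655248451) (nat_lit 11) (nat_lit 1) (nat_lit 10) (nat_lit 1) (nat_lit 12) (nat_lit 1) (nat_lit 317) (nat_lit 407) (nat_lit 356)) (XT.nd (nat_lit 94) (nat_lit 168) (nat_lit 0) (XT.lf (nat_lit 0) (nat_lit 6930406848) (nat_lit 0) (nat_lit 18674548152) (nat_lit 168) (nat_lit 6172298343) (nat_lit 9) (nat_lit 3) (nat_lit 9) (nat_lit 1) (nat_lit 11) (nat_lit 1) (nat_lit 318) (nat_lit 407) (nat_lit 355)) (XT.lf (nat_lit 84) (nat_lit 23260671839) (nat_lit 0) (nat_lit 3022987290) (nat_lit 168) (nat_lit 4677080966) (nat_lit 8) (nat_lit 1) (nat_lit 7) (nat_lit 1) (nat_lit 9) (nat_lit 1) (nat_lit 319) (nat_lit 407) (nat_lit 354))))))) (XT.nd (nat_lit 846) (nat_lit 0) (nat_lit 0) (XT.nd (nat_lit 376) (nat_lit 0) (nat_lit 0) (XT.nd (nat_lit 188) (nat_lit 336) (nat_lit 0) (XT.nd (nat_lit 94) (nat_lit 168)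 (nat_lit 0) (XT.lf (nat_lit 0) (nat_lit 8631040983) (nat_lit 0) (nat_lit 18220286936) (nat_lit 168) (nat_lit 3311190209) (nat_lit 6) (nat_lit 3) (nat_lit 6) (nat_lit 1) (nat_lit 8) (nat_lit 1) (nat_lit 320) (nat_lit 407) (nat_lit 353)) (XT.lf (nat_lit 84) (nat_lit 24079979504) (nat_lit 0) (nat_lit 3398894990) (nat_lit 168) (nat_lit 1911196708) (nat_lit 5) (nat_lit 1) (nat_lit 4) (nat_lit 1) (nat_lit 6) (nat_lit 1) (nat_lit 321) (nat_lit 407) (nat_lit 352))) (XT.nd (nat_lit 94) (nat_lit 252) (nat_lit 0) (XT.lf (nat_lit 0) (nat_lit 10072112587) (nat_lit 0) (nat_lit 17901858124) (nat_lit 168) (nat_lit 659633352) (nat_lit 3) (nat_lit 3) (nat_lit 3) (nat_lit 1) (nat_lit 5) (nat_lit 1) (nat_lit 322) (nat_lit 407) (nat_lit 351)) (XT.lf (nat_lit 0) (nat_lit 40474918877) (nat_lit 0) (nat_lit 0) (nat_lit 0) (nat_lit 0) (nat_lit 0) (nat_lit 0) (nat_lit 1) (nat_lit 0)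 (nat_lit 1) (nat_lit 0) (nat_lit 323) (nat_lit 407) (nat_lit 350)))) (XT.nd (nat_lit 188) (nat_lit 0) (nat_lit 0) (XT.nd (nat_lit 94) (nat_lit 0) (nat_lit 0) (XT.lf (nat_lit 0) (nat_lit 40438078120) (nat_lit 0) (nat_lit 0) (nat_lit 0) (nat_lit 0) (nat_lit 0) (nat_lit 0) (nat_lit 1) (nat_lit 0) (nat_lit 1) (nat_lit 0) (nat_lit 324) (nat_lit 407) (nat_lit 349)) (XT.lf (nat_lit 0) (nat_lit 40403966308) (nat_lit 0) (nat_lit 0) (nat_lit 0) (nat_lit 0) (nat_lit 0) (nat_lit 0) (nat_lit 1) (nat_lit 0) (nat_lit 1) (nat_lit 0) (nat_lit 325) (nat_lit 407) (nat_lit 348))) (XT.nd (nat_lit 94) (nat_lit 0) (nat_lit 0) (XT.lf (nat_lit 0) (nat_lit 40372381297) (nat_lit 0) (nat_lit 0) (nat_lit 0) (nat_lit 0) (nat_lit 0) (nat_lit 0) (nat_lit 1) (nat_lit 0) (nat_lit 1) (nat_lit 0) (nat_lit 326) (nat_lit 407) (nat_lit 347)) (XT.nd (nat_lit 94) (nat_lit 0) (nat_lit 0) (XT.lf (nat_lit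 0) (nat_lit 40343135916) (nat_lit 0) (nat_lit 0) (nat_lit 0) (nat_lit 0) (nat_lit 0) (nat_lit 0) (nat_lit 1) (nat_lit 0) (nat_lit 1) (nat_lit 0) (nat_lit 327) (nat_lit 407) (nat_lit 346)) (XT.lf (nat_lit 0) (nat_lit 40316056860) (nat_lit 0) (nat_lit 0) (nat_lit 0) (nat_lit 0) (nat_lit 0) (nat_lit 0) (nat_lit 1) (nat_lit 0) (nat_lit 1) (nat_lit 0) (nat_lit 328) (nat_lit 407) (nat_lit 345)))))) (XT.nd (nat_lit 470) (nat_lit 0) (nat_lit 0) (XT.nd (nat_lit 188) (nat_lit 0) (nat_lit 0) (XT.nd (nat_lit 94) (nat_lit 0) (nat_lit 0) (XT.lf (nat_lit 0) (nat_lit 40290983660) (nat_lit 0) (nat_lit 0) (nat_lit 0) (nat_lit 0) (nat_lit 0) (nat_lit 0) (nat_lit 1) (nat_lit 0) (nat_lit 1) (nat_lit 0) (nat_lit 329) (nat_lit 407) (nat_lit 344)) (XT.lf (nat_lit 0) (nat_lit 40267767733) (nat_lit 0) (nat_lit 0) (nat_lit 0) (nat_lit 0) (nat_lit 0) (nat_lit 0) (nat_lit 1) (nat_lit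 0) (nat_lit 1) (nat_lit 0) (nat_lit 330) (nat_lit 407) (nat_lit 343))) (XT.nd (nat_lit 94) (nat_lit 0) (nat_lit 0) (XT.lf (nat_lit 0) (nat_lit 40246271505) (nat_lit 0) (nat_lit 0) (nat_lit 0) (nat_lit 0) (nat_lit 0) (nat_lit 0) (nat_lit 1) (nat_lit 0) (nat_lit 1) (nat_lit 0) (nat_lit 331) (nat_lit 407) (nat_lit 342)) (XT.nd (nat_lit 94) (nat_lit 0) (nat_lit 0) (XT.lf (nat_lit 0) (nat_lit 40226367591) (nat_lit 0) (nat_lit 0) (nat_lit 0) (nat_lit 0) (nat_lit 0) (nat_lit 0) (nat_lit 1) (nat_lit 0) (nat_lit 1) (nat_lit 0) (nat_lit 332) (nat_lit 407) (nat_lit 341)) (XT.lf (nat_lit 0) (nat_lit 40207938040) (nat_lit 0) (nat_lit 0) (nat_lit 0) (nat_lit 0) (nat_lit 0) (nat_lit 0) (nat_lit 1) (nat_lit 0) (nat_lit 1) (nat_lit 0) (nat_lit 333) (nat_lit 407) (nat_lit 340))))) (XT.nd (nat_lit 188) (nat_lit 0) (nat_lit 0) (XT.nd (nat_lit 94) (nat_lit 0) (nat_lit 0) (XT.lf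 (nat_lit 0) (nat_lit 40190873641) (nat_lit 0) (nat_lit 0) (nat_lit 0) (nat_lit 0) (nat_lit 0) (nat_lit 0) (nat_lit 1) (nat_lit 0) (nat_lit 1) (nat_lit 0) (nat_lit 334) (nat_lit 407) (nat_lit 339)) (XT.lf (nat_lit 0) (nat_lit 40175073272) (nat_lit 0) (nat_lit 0) (nat_lit 0) (nat_lit 0) (nat_lit 0) (nat_lit 0) (nat_lit 1) (nat_lit 0) (nat_lit 1) (nat_lit 0) (nat_lit 335) (nat_lit 407) (nat_lit 338))) (XT.nd (nat_lit 94) (nat_lit 0) (nat_lit 0) (XT.lf (nat_lit 0) (nat_lit 40160443300) (nat_lit 0) (nat_lit 0) (nat_lit 0) (nat_lit 0) (nat_lit 0) (nat_lit 0) (nat_lit 1) (nat_lit 0) (nat_lit 1) (nat_lit 0) (nat_lit 336) (nat_lit 407) (nat_lit 337)) (XT.nd (nat_lit 94) (nat_lit 0) (nat_lit 0) (XT.lf (nat_lit 0) (nat_lit 40146897031) (nat_lit 0) (nat_lit 0) (nat_lit 0) (nat_lit 0) (nat_lit 0) (nat_lit 0) (nat_lit 1) (nat_lit 0) (nat_lit 1) (nat_lit 0) (nat_lit 337)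 (nat_lit 407) (nat_lit 336)) (XT.lf (nat_lit 0) (nat_lit 40134354188) (nat_lit 0) (nat_lit 0) (nat_lit 0) (nat_lit 0) (nat_lit 0) (nat_lit 0) (nat_lit 1) (nat_lit 0) (nat_lit 1) (nat_lit 0) (nat_lit 338) (nat_lit 407) (nat_lit 335))))))))
noncomputable def ec183 : XT := (XT.nd (nat_lit 1786) (nat_lit 0) (nat_lit 0) (XT.nd (nat_lit 846) (nat_lit 0) (nat_lit 0) (XT.nd (nat_lit 376) (nat_lit 0) (nat_lit 0) (XT.nd (nat_lit 188) (nat_lit 0) (nat_lit 0) (XT.nd (nat_lit 94) (nat_lit 0) (nat_lit 0) (XT.lf (nat_lit 0) (nat_lit 40122740445) (nat_lit 0) (nat_lit 0) (nat_lit 0) (nat_lit 0) (nat_lit 0) (nat_lit 0) (nat_lit 1) (nat_lit 0) (nat_lit 1) (nat_lit 0) (nat_lit 339) (nat_lit 407) (nat_lit 334)) (XT.lf (nat_lit 0) (nat_lit 40111986979) (nat_lit 0) (nat_lit 0) (nat_lit 0) (nat_lit 0) (nat_lit 0) (nat_lit 0) (nat_lit 1) (nat_lit 0) (nat_lit 1) (nat_lit 0) (nat_lit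 340) (nat_lit 407) (nat_lit 333))) (XT.nd (nat_lit 94) (nat_lit 0) (nat_lit 0) (XT.lf (nat_lit 0) (nat_lit 40102030066) (nat_lit 0) (nat_lit 0) (nat_lit 0) (nat_lit 0) (nat_lit 0) (nat_lit 0) (nat_lit 1) (nat_lit 0) (nat_lit 1) (nat_lit 0) (nat_lit 341) (nat_lit 407) (nat_lit 332)) (XT.lf (nat_lit 0) (nat_lit 40092810703) (nat_lit 0) (nat_lit 0) (nat_lit 0) (nat_lit 0) (nat_lit 0) (nat_lit 0) (nat_lit 1) (nat_lit 0) (nat_lit 1) (nat_lit 0) (nat_lit 342) (nat_lit 407) (nat_lit 331)))) (XT.nd (nat_lit 188) (nat_lit 0) (nat_lit 0) (XT.nd (nat_lit 94) (nat_lit 0) (nat_lit 0) (XT.lf (nat_lit 0) (nat_lit 40084274255) (nat_lit 0) (nat_lit 0) (nat_lit 0) (nat_lit 0) (nat_lit 0) (nat_lit 0) (nat_lit 1) (nat_lit 0) (nat_lit 1) (nat_lit 0) (nat_lit 343) (nat_lit 407) (nat_lit 330)) (XT.lf (nat_lit 0) (nat_lit 40076370136) (nat_lit 0) (nat_lit 0) (nat_lit 0) (nat_lit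 0) (nat_lit 0) (nat_lit 0) (nat_lit 1) (nat_lit 0) (nat_lit 1) (nat_lit 0) (nat_lit 344) (nat_lit 407) (nat_lit 329))) (XT.nd (nat_lit 94) (nat_lit 0) (nat_lit 0) (XT.lf (nat_lit 0) (nat_lit 40069051508) (nat_lit 0) (nat_lit 0) (nat_lit 0) (nat_lit 0) (nat_lit 0) (nat_lit 0) (nat_lit 1) (nat_lit 0) (nat_lit 1) (nat_lit 0) (nat_lit 345) (nat_lit 407) (nat_lit 328)) (XT.nd (nat_lit 94) (nat_lit 0) (nat_lit 0) (XT.lf (nat_lit 0) (nat_lit 40062275001) (nat_lit 0) (nat_lit 0) (nat_lit 0) (nat_lit 0) (nat_lit 0) (nat_lit 0) (nat_lit 1) (nat_lit 0) (nat_lit 1) (nat_lit 0) (nat_lit 346) (nat_lit 407) (nat_lit 327)) (XT.lf (nat_lit 0) (nat_lit 40056000457) (nat_lit 0) (nat_lit 0) (nat_lit 0) (nat_lit 0) (nat_lit 0) (nat_lit 0) (nat_lit 1) (nat_lit 0) (nat_lit 1) (nat_lit 0) (nat_lit 347) (nat_lit 407) (nat_lit 326)))))) (XT.nd (nat_lit 470) (nat_lit 0) (nat_lit 0)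 (XT.nd (nat_lit 188) (nat_lit 0) (nat_lit 0) (XT.nd (nat_lit 94) (nat_lit 0) (nat_lit 0) (XT.lf (nat_lit 0) (nat_lit 40050190694) (nat_lit 0) (nat_lit 0) (nat_lit 0) (nat_lit 0) (nat_lit 0) (nat_lit 0) (nat_lit 1) (nat_lit 0) (nat_lit 1) (nat_lit 0) (nat_lit 348) (nat_lit 407) (nat_lit 325)) (XT.lf (nat_lit 0) (nat_lit 40044811284) (nat_lit 0) (nat_lit 0) (nat_lit 0) (nat_lit 0) (nat_lit 0) (nat_lit 0) (nat_lit 1) (nat_lit 0) (nat_lit 1) (nat_lit 0) (nat_lit 349) (nat_lit 407) (nat_lit 324))) (XT.nd (nat_lit 94) (nat_lit 0) (nat_lit 0) (XT.lf (nat_lit 0) (nat_lit 40039830348) (nat_lit 0) (nat_lit 0) (nat_lit 0) (nat_lit 0) (nat_lit 0) (nat_lit 0) (nat_lit 1) (nat_lit 0) (nat_lit 1) (nat_lit 0) (nat_lit 350) (nat_lit 407) (nat_lit 323)) (XT.nd (nat_lit 94) (nat_lit 0) (nat_lit 0) (XT.lf (nat_lit 0) (nat_lit 40035218371) (nat_lit 0) (nat_lit 0) (nat_lit 0) (nat_lit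 0) (nat_lit 0) (nat_lit 0) (nat_lit 1) (nat_lit 0) (nat_lit 1) (nat_lit 0) (nat_lit 351) (nat_lit 407) (nat_lit 322)) (XT.lf (nat_lit 0) (nat_lit 40030948022) (nat_lit 0) (nat_lit 0) (nat_lit 0) (nat_lit 0) (nat_lit 0) (nat_lit 0) (nat_lit 1) (nat_lit 0) (nat_lit 1) (nat_lit 0) (nat_lit 352) (nat_lit 407) (nat_lit 321))))) (XT.nd (nat_lit 188) (nat_lit 0) (nat_lit 0) (XT.nd (nat_lit 94) (nat_lit 0) (nat_lit 0) (XT.lf (nat_lit 0) (nat_lit 40026993995) (nat_lit 0) (nat_lit 0) (nat_lit 0) (nat_lit 0) (nat_lit 0) (nat_lit 0) (nat_lit 1) (nat_lit 0) (nat_lit 1) (nat_lit 0) (nat_lit 353) (nat_lit 407) (nat_lit 320)) (XT.lf (nat_lit 0) (nat_lit 40023332859) (nat_lit 0) (nat_lit 0) (nat_lit 0) (nat_lit 0) (nat_lit 0) (nat_lit 0) (nat_lit 1) (nat_lit 0) (nat_lit 1) (nat_lit 0) (nat_lit 354) (nat_lit 407) (nat_lit 319))) (XT.nd (nat_lit 94) (nat_lit 0) (nat_lit 0) (XT.lf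 (nat_lit 0) (nat_lit 40019942918) (nat_lit 0) (nat_lit 0) (nat_lit 0) (nat_lit 0) (nat_lit 0) (nat_lit 0) (nat_lit 1) (nat_lit 0) (nat_lit 1) (nat_lit 0) (nat_lit 355) (nat_lit 407) (nat_lit 318)) (XT.nd (nat_lit 94) (nat_lit 0) (nat_lit 0) (XT.lf (nat_lit 0) (nat_lit 40016804084) (nat_lit 0) (nat_lit 0) (nat_lit 0) (nat_lit 0) (nat_lit 0) (nat_lit 0) (nat_lit 1) (nat_lit 0) (nat_lit 1) (nat_lit 0) (nat_lit 356) (nat_lit 407) (nat_lit 317)) (XT.lf (nat_lit 0) (nat_lit 40013897756) (nat_lit 0) (nat_lit 0) (nat_lit 0) (nat_lit 0) (nat_lit 0) (nat_lit 0) (nat_lit 1) (nat_lit 0) (nat_lit 1) (nat_lit 0) (nat_lit 357) (nat_lit 407) (nat_lit 316))))))) (XT.nd (nat_lit 846) (nat_lit 0) (nat_lit 0) (XT.nd (nat_lit 376) (nat_lit 0) (nat_lit 0) (XT.nd (nat_lit 188) (nat_lit 0) (nat_lit 0) (XT.nd (nat_lit 94) (nat_lit 0) (nat_lit 0) (XT.lf (nat_lit 0) (nat_lit 40011206711)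 (nat_lit 0) (nat_lit 0) (nat_lit 0) (nat_lit 0) (nat_lit 0) (nat_lit 0) (nat_lit 1) (nat_lit 0) (nat_lit 1) (nat_lit 0) (nat_lit 358) (nat_lit 407) (nat_lit 315)) (XT.lf (nat_lit 0) (nat_lit 40008715003) (nat_lit 0) (nat_lit 0) (nat_lit 0) (nat_lit 0) (nat_lit 0) (nat_lit 0) (nat_lit 1) (nat_lit 0) (nat_lit 1) (nat_lit 0) (nat_lit 359) (nat_lit 407) (nat_lit 314))) (XT.nd (nat_lit 94) (nat_lit 0) (nat_lit 0) (XT.lf (nat_lit 0) (nat_lit 40006407867) (nat_lit 0) (nat_lit 0) (nat_lit 0) (nat_lit 0) (nat_lit 0) (nat_lit 0) (nat_lit 1) (nat_lit 0) (nat_lit 1) (nat_lit 0) (nat_lit 360) (nat_lit 407) (nat_lit 313)) (XT.lf (nat_lit 0) (nat_lit 40004271629) (nat_lit 0) (nat_lit 0) (nat_lit 0) (nat_lit 0) (nat_lit 0) (nat_lit 0) (nat_lit 1) (nat_lit 0) (nat_lit 1) (nat_lit 0) (nat_lit 361) (nat_lit 407) (nat_lit 312)))) (XT.nd (nat_lit 188) (nat_lit 0) (nat_lit 0) (XT.nd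 (nat_lit 94) (nat_lit 0) (nat_lit 0) (XT.lf (nat_lit 0) (nat_lit 40002293631) (nat_lit 0) (nat_lit 0) (nat_lit 0) (nat_lit 0) (nat_lit 0) (nat_lit 0) (nat_lit 1) (nat_lit 0) (nat_lit 1) (nat_lit 0) (nat_lit 362) (nat_lit 407) (nat_lit 311)) (XT.lf (nat_lit 0) (nat_lit 40000462151) (nat_lit 0) (nat_lit 0) (nat_lit 0) (nat_lit 0) (nat_lit 0) (nat_lit 0) (nat_lit 1) (nat_lit 0) (nat_lit 1) (nat_lit 0) (nat_lit 363) (nat_lit 407) (nat_lit 310))) (XT.nd (nat_lit 94) (nat_lit 0) (nat_lit 0) (XT.lf (nat_lit 0) (nat_lit 39998766337) (nat_lit 0) (nat_lit 0) (nat_lit 0) (nat_lit 0) (nat_lit 0) (nat_lit 0) (nat_lit 1) (nat_lit 0) (nat_lit 1) (nat_lit 0) (nat_lit 364) (nat_lit 407) (nat_lit 309)) (XT.nd (nat_lit 94) (nat_lit 0) (nat_lit 0) (XT.lf (nat_lit 0) (nat_lit 39997196138) (nat_lit 0) (nat_lit 0) (nat_lit 0) (nat_lit 0) (nat_lit 0) (nat_lit 0) (nat_lit 1) (nat_lit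 0) (nat_lit 1) (nat_lit 0) (nat_lit 365) (nat_lit 407) (nat_lit 308)) (XT.lf (nat_lit 0) (nat_lit 39995742251) (nat_lit 0) (nat_lit 0) (nat_lit 0) (nat_lit 0) (nat_lit 0) (nat_lit 0) (nat_lit 1) (nat_lit 0) (nat_lit 1) (nat_lit 0) (nat_lit 366) (nat_lit 407) (nat_lit 307)))))) (XT.nd (nat_lit 470) (nat_lit 0) (nat_lit 0) (XT.nd (nat_lit 188) (nat_lit 0) (nat_lit 0) (XT.nd (nat_lit 94) (nat_lit 0) (nat_lit 0) (XT.lf (nat_lit 0) (nat_lit 39994396059) (nat_lit 0) (nat_lit 0) (nat_lit 0) (nat_lit 0) (nat_lit 0) (nat_lit 0) (nat_lit 1) (nat_lit 0) (nat_lit 1) (nat_lit 0) (nat_lit 367) (nat_lit 407) (nat_lit 306)) (XT.lf (nat_lit 0) (nat_lit 39993149584) (nat_lit 0) (nat_lit 0) (nat_lit 0) (nat_lit 0) (nat_lit 0) (nat_lit 0) (nat_lit 1) (nat_lit 0) (nat_lit 1) (nat_lit 0) (nat_lit 368) (nat_lit 407) (nat_lit 305))) (XT.nd (nat_lit 94) (nat_lit 0) (nat_lit 0) (XT.lf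 (nat_lit 0) (nat_lit 39991995442) (nat_lit 0) (nat_lit 0) (nat_lit 0) (nat_lit 0) (nat_lit 0) (nat_lit 0) (nat_lit 1) (nat_lit 0) (nat_lit 1) (nat_lit 0) (nat_lit 369) (nat_lit 407) (nat_lit 304)) (XT.nd (nat_lit 94) (nat_lit 0) (nat_lit 0) (XT.lf (nat_lit 0) (nat_lit 39990926791) (nat_lit 0) (nat_lit 0) (nat_lit 0) (nat_lit 0) (nat_lit 0) (nat_lit 0) (nat_lit 1) (nat_lit 0) (nat_lit 1) (nat_lit 0) (nat_lit 370) (nat_lit 407) (nat_lit 303)) (XT.lf (nat_lit 0) (nat_lit 39989937299) (nat_lit 0) (nat_lit 0) (nat_lit 0) (nat_lit 0) (nat_lit 0) (nat_lit 0) (nat_lit 1) (nat_lit 0) (nat_lit 1) (nat_lit 0) (nat_lit 371) (nat_lit 407) (nat_lit 302))))) (XT.nd (nat_lit 188) (nat_lit 0) (nat_lit 0) (XT.nd (nat_lit 94) (nat_lit 0) (nat_lit 0) (XT.lf (nat_lit 0) (nat_lit 39989021104) (nat_lit 0) (nat_lit 0) (nat_lit 0) (nat_lit 0) (nat_lit 0) (nat_lit 0) (nat_lit 1) (nat_lit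 0) (nat_lit 1) (nat_lit 0) (nat_lit 372) (nat_lit 407) (nat_lit 301)) (XT.lf (nat_lit 0) (nat_lit 39988172774) (nat_lit 0) (nat_lit 0) (nat_lit 0) (nat_lit 0) (nat_lit 0) (nat_lit 0) (nat_lit 1) (nat_lit 0) (nat_lit 1) (nat_lit 0) (nat_lit 373) (nat_lit 407) (nat_lit 300))) (XT.nd (nat_lit 94) (nat_lit 0) (nat_lit 0) (XT.lf (nat_lit 0) (nat_lit 39987387284) (nat_lit 0) (nat_lit 0) (nat_lit 0) (nat_lit 0) (nat_lit 0) (nat_lit 0) (nat_lit 1) (nat_lit 0) (nat_lit 1) (nat_lit 0) (nat_lit 374) (nat_lit 407) (nat_lit 299)) (XT.nd (nat_lit 94) (nat_lit 0) (nat_lit 0) (XT.lf (nat_lit 0) (nat_lit 39986659978) (nat_lit 0) (nat_lit 0) (nat_lit 0) (nat_lit 0) (nat_lit 0) (nat_lit 0) (nat_lit 1) (nat_lit 0) (nat_lit 1) (nat_lit 0) (nat_lit 375) (nat_lit 407) (nat_lit 298)) (XT.lf (nat_lit 0) (nat_lit 39985986547) (nat_lit 0) (nat_lit 0) (nat_lit 0) (nat_lit 0) (nat_lit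 0) (nat_lit 0) (nat_lit 1) (nat_lit 0) (nat_lit 1) (nat_lit 0) (nat_lit 376) (nat_lit 407) (nat_lit 297))))))))
noncomputable def ec184 : XT := (XT.nd (nat_lit 1692) (nat_lit 0) (nat_lit 0) (XT.nd (nat_lit 846) (nat_lit 0) (nat_lit 0) (XT.nd (nat_lit 376) (nat_lit 0) (nat_lit 0) (XT.nd (nat_lit 188) (nat_lit 0) (nat_lit 0) (XT.nd (nat_lit 94) (nat_lit 0) (nat_lit 0) (XT.lf (nat_lit 0) (nat_lit 39985363000) (nat_lit 0) (nat_lit 0) (nat_lit 0) (nat_lit 0) (nat_lit 0) (nat_lit 0) (nat_lit 1) (nat_lit 0) (nat_lit 1) (nat_lit 0) (nat_lit 377) (nat_lit 407) (nat_lit 296)) (XT.lf (nat_lit 0) (nat_lit 39984785641) (nat_lit 0) (nat_lit 0) (nat_lit 0) (nat_lit 0) (nat_lit 0) (nat_lit 0) (nat_lit 1) (nat_lit 0) (nat_lit 1) (nat_lit 0) (nat_lit 378) (nat_lit 407) (nat_lit 295))) (XT.nd (nat_lit 94) (nat_lit 0) (nat_lit 0) (XT.lf (nat_lit 0) (nat_lit 39984251049) (nat_lit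 0) (nat_lit 0) (nat_lit 0) (nat_lit 0) (nat_lit 0) (nat_lit 0) (nat_lit 1) (nat_lit 0) (nat_lit 1) (nat_lit 0) (nat_lit 379) (nat_lit 407) (nat_lit 294)) (XT.lf (nat_lit 0) (nat_lit 39983756057) (nat_lit 0) (nat_lit 0) (nat_lit 0) (nat_lit 0) (nat_lit 0) (nat_lit 0) (nat_lit 1) (nat_lit 0) (nat_lit 1) (nat_lit 0) (nat_lit 380) (nat_lit 407) (nat_lit 293)))) (XT.nd (nat_lit 188) (nat_lit 0) (nat_lit 0) (XT.nd (nat_lit 94) (nat_lit 0) (nat_lit 0) (XT.lf (nat_lit 0) (nat_lit 39983297731) (nat_lit 0) (nat_lit 0) (nat_lit 0) (nat_lit 0) (nat_lit 0) (nat_lit 0) (nat_lit 1) (nat_lit 0) (nat_lit 1) (nat_lit 0) (nat_lit 381) (nat_lit 407) (nat_lit 292)) (XT.lf (nat_lit 0) (nat_lit 39982873355) (nat_lit 0) (nat_lit 0) (nat_lit 0) (nat_lit 0) (nat_lit 0) (nat_lit 0) (nat_lit 1) (nat_lit 0) (nat_lit 1) (nat_lit 0) (nat_lit 382) (nat_lit 407) (nat_lit 291))) (XT.nd (nat_lit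 94) (nat_lit 0) (nat_lit 0) (XT.lf (nat_lit 0) (nat_lit 39982480415) (nat_lit 0) (nat_lit 0) (nat_lit 0) (nat_lit 0) (nat_lit 0) (nat_lit 0) (nat_lit 1) (nat_lit 0) (nat_lit 1) (nat_lit 0) (nat_lit 383) (nat_lit 407) (nat_lit 290)) (XT.nd (nat_lit 94) (nat_lit 0) (nat_lit 0) (XT.lf (nat_lit 0) (nat_lit 39982116581) (nat_lit 0) (nat_lit 0) (nat_lit 0) (nat_lit 0) (nat_lit 0) (nat_lit 0) (nat_lit 1) (nat_lit 0) (nat_lit 1) (nat_lit 0) (nat_lit 384) (nat_lit 407) (nat_lit 289)) (XT.lf (nat_lit 0) (nat_lit 39981779698) (nat_lit 0) (nat_lit 0) (nat_lit 0) (nat_lit 0) (nat_lit 0) (nat_lit 0) (nat_lit 1) (nat_lit 0) (nat_lit 1) (nat_lit 0) (nat_lit 385) (nat_lit 407) (nat_lit 288)))))) (XT.nd (nat_lit 376) (nat_lit 0) (nat_lit 0) (XT.nd (nat_lit 188) (nat_lit 0) (nat_lit 0) (XT.nd (nat_lit 94) (nat_lit 0) (nat_lit 0) (XT.lf (nat_lit 0) (nat_lit 39981467769) (nat_lit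 0) (nat_lit 0) (nat_lit 0) (nat_lit 0) (nat_lit 0) (nat_lit 0) (nat_lit 1) (nat_lit 0) (nat_lit 1) (nat_lit 0) (nat_lit 386) (nat_lit 407) (nat_lit 287)) (XT.lf (nat_lit 0) (nat_lit 39981178945) (nat_lit 0) (nat_lit 0) (nat_lit 0) (nat_lit 0) (nat_lit 0) (nat_lit 0) (nat_lit 1) (nat_lit 0) (nat_lit 1) (nat_lit 0) (nat_lit 387) (nat_lit 407) (nat_lit 286))) (XT.nd (nat_lit 94) (nat_lit 0) (nat_lit 0) (XT.lf (nat_lit 0) (nat_lit 39980911517) (nat_lit 0) (nat_lit 0) (nat_lit 0) (nat_lit 0) (nat_lit 0) (nat_lit 0) (nat_lit 1) (nat_lit 0) (nat_lit 1) (nat_lit 0) (nat_lit 388) (nat_lit 407) (nat_lit 285)) (XT.lf (nat_lit 0) (nat_lit 39980663897) (nat_lit 0) (nat_lit 0) (nat_lit 0) (nat_lit 0) (nat_lit 0) (nat_lit 0) (nat_lit 1) (nat_lit 0) (nat_lit 1) (nat_lit 0) (nat_lit 389) (nat_lit 407) (nat_lit 284)))) (XT.nd (nat_lit 188) (nat_lit 0) (nat_lit 0) (XT.nd (nat_lit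 94) (nat_lit 0) (nat_lit 0) (XT.lf (nat_lit 0) (nat_lit 39980434620) (nat_lit 0) (nat_lit 0) (nat_lit 0) (nat_lit 0) (nat_lit 0) (nat_lit 0) (nat_lit 1) (nat_lit 0) (nat_lit 1) (nat_lit 0) (nat_lit 390) (nat_lit 407) (nat_lit 283)) (XT.lf (nat_lit 0) (nat_lit 39980222327) (nat_lit 0) (nat_lit 0) (nat_lit 0) (nat_lit 0) (nat_lit 0) (nat_lit 0) (nat_lit 1) (nat_lit 0) (nat_lit 1) (nat_lit 0) (nat_lit 391) (nat_lit 407) (nat_lit 282))) (XT.nd (nat_lit 94) (nat_lit 0) (nat_lit 0) (XT.lf (nat_lit 0) (nat_lit 39980025758) (nat_lit 0) (nat_lit 0) (nat_lit 0) (nat_lit 0) (nat_lit 0) (nat_lit 0) (nat_lit 1) (nat_lit 0) (nat_lit 1) (nat_lit 0) (nat_lit 392) (nat_lit 407) (nat_lit 281)) (XT.nd (nat_lit 94) (nat_lit 0) (nat_lit 0) (XT.lf (nat_lit 0) (nat_lit 39979843751) (nat_lit 0) (nat_lit 0) (nat_lit 0) (nat_lit 0) (nat_lit 0) (nat_lit 0) (nat_lit 1) (nat_lit 0) (nat_lit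 1) (nat_lit 0) (nat_lit 393) (nat_lit 407) (nat_lit 280)) (XT.lf (nat_lit 0) (nat_lit 39979675225) (nat_lit 0) (nat_lit 0) (nat_lit 0) (nat_lit 0) (nat_lit 0) (nat_lit 0) (nat_lit 1) (nat_lit 0) (nat_lit 1) (nat_lit 0) (nat_lit 394) (nat_lit 407) (nat_lit 279))))))) (XT.nd (nat_lit 846) (nat_lit 0) (nat_lit 0) (XT.nd (nat_lit 376) (nat_lit 0) (nat_lit 0) (XT.nd (nat_lit 188) (nat_lit 0) (nat_lit 0) (XT.nd (nat_lit 94) (nat_lit 0) (nat_lit 0) (XT.lf (nat_lit 0) (nat_lit 39979519183) (nat_lit 0) (nat_lit 0) (nat_lit 0) (nat_lit 0) (nat_lit 0) (nat_lit 0) (nat_lit 1) (nat_lit 0) (nat_lit 1) (nat_lit 0) (nat_lit 395) (nat_lit 407) (nat_lit 278)) (XT.lf (nat_lit 0) (nat_lit 39979374700) (nat_lit 0) (nat_lit 0) (nat_lit 0) (nat_lit 0) (nat_lit 0) (nat_lit 0) (nat_lit 1) (nat_lit 0) (nat_lit 1) (nat_lit 0) (nat_lit 396) (nat_lit 407) (nat_lit 277))) (XT.nd (nat_lit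 94) (nat_lit 0) (nat_lit 0) (XT.lf (nat_lit 0) (nat_lit 39979240919) (nat_lit 0) (nat_lit 0) (nat_lit 0) (nat_lit 0) (nat_lit 0) (nat_lit 0) (nat_lit 1) (nat_lit 0) (nat_lit 1) (nat_lit 0) (nat_lit 397) (nat_lit 407) (nat_lit 276)) (XT.lf (nat_lit 0) (nat_lit 39979117048) (nat_lit 0) (nat_lit 0) (nat_lit 0) (nat_lit 0) (nat_lit 0) (nat_lit 0) (nat_lit 1) (nat_lit 0) (nat_lit 1) (nat_lit 0) (nat_lit 398) (nat_lit 407) (nat_lit 275)))) (XT.nd (nat_lit 188) (nat_lit 0) (nat_lit 0) (XT.nd (nat_lit 94) (nat_lit 0) (nat_lit 0) (XT.lf (nat_lit 0) (nat_lit 39979002352) (nat_lit 0) (nat_lit 0) (nat_lit 0) (nat_lit 0) (nat_lit 0) (nat_lit 0) (nat_lit 1) (nat_lit 0) (nat_lit 1) (nat_lit 0) (nat_lit 399) (nat_lit 407) (nat_lit 274)) (XT.lf (nat_lit 0) (nat_lit 39978896152) (nat_lit 0) (nat_lit 0) (nat_lit 0) (nat_lit 0) (nat_lit 0) (nat_lit 0) (nat_lit 1) (nat_lit 0)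 (nat_lit 1) (nat_lit 0) (nat_lit 400) (nat_lit 407) (nat_lit 273))) (XT.nd (nat_lit 94) (nat_lit 0) (nat_lit 0) (XT.lf (nat_lit 0) (nat_lit 39978797819) (nat_lit 0) (nat_lit 0) (nat_lit 0) (nat_lit 0) (nat_lit 0) (nat_lit 0) (nat_lit 1) (nat_lit 0) (nat_lit 1) (nat_lit 0) (nat_lit 401) (nat_lit 407) (nat_lit 272)) (XT.nd (nat_lit 94) (nat_lit 0) (nat_lit 0) (XT.lf (nat_lit 0) (nat_lit 39978706770) (nat_lit 0) (nat_lit 0) (nat_lit 0) (nat_lit 0) (nat_lit 0) (nat_lit 0) (nat_lit 1) (nat_lit 0) (nat_lit 1) (nat_lit 0) (nat_lit 402) (nat_lit 407) (nat_lit 271)) (XT.lf (nat_lit 0) (nat_lit 39978622465) (nat_lit 0) (nat_lit 0) (nat_lit 0) (nat_lit 0) (nat_lit 0) (nat_lit 0) (nat_lit 1) (nat_lit 0) (nat_lit 1) (nat_lit 0) (nat_lit 403) (nat_lit 407) (nat_lit 270)))))) (XT.nd (nat_lit 470) (nat_lit 0) (nat_lit 0) (XT.nd (nat_lit 188) (nat_lit 0) (nat_lit 0) (XT.nd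 (nat_lit 94) (nat_lit 0) (nat_lit 0) (XT.lf (nat_lit 0) (nat_lit 39978544405) (nat_lit 0) (nat_lit 0) (nat_lit 0) (nat_lit 0) (nat_lit 0) (nat_lit 0) (nat_lit 1) (nat_lit 0) (nat_lit 1) (nat_lit 0) (nat_lit 404) (nat_lit 407) (nat_lit 269)) (XT.lf (nat_lit 0) (nat_lit 39978472128) (nat_lit 0) (nat_lit 0) (nat_lit 0) (nat_lit 0) (nat_lit 0) (nat_lit 0) (nat_lit 1) (nat_lit 0) (nat_lit 1) (nat_lit 0) (nat_lit 405) (nat_lit 407) (nat_lit 268))) (XT.nd (nat_lit 94) (nat_lit 0) (nat_lit 0) (XT.lf (nat_lit 0) (nat_lit 39978405204) (nat_lit 0) (nat_lit 0) (nat_lit 0) (nat_lit 0) (nat_lit 0) (nat_lit 0) (nat_lit 1) (nat_lit 0) (nat_lit 1) (nat_lit 0) (nat_lit 406) (nat_lit 407) (nat_lit 267)) (XT.nd (nat_lit 94) (nat_lit 0) (nat_lit 0) (XT.lf (nat_lit 0) (nat_lit 39978343237) (nat_lit 0) (nat_lit 0) (nat_lit 0) (nat_lit 0) (nat_lit 0) (nat_lit 0) (nat_lit 1) (nat_lit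 0) (nat_lit 1) (nat_lit 0) (nat_lit 407) (nat_lit 407) (nat_lit 266)) (XT.lf (nat_lit 0) (nat_lit 39978285861) (nat_lit 0) (nat_lit 0) (nat_lit 0) (nat_lit 0) (nat_lit 0) (nat_lit 0) (nat_lit 1) (nat_lit 0) (nat_lit 1) (nat_lit 0) (nat_lit 408) (nat_lit 407) (nat_lit 265))))) (XT.nd (nat_lit 188) (nat_lit 0) (nat_lit 0) (XT.nd (nat_lit 94) (nat_lit 0) (nat_lit 0) (XT.lf (nat_lit 0) (nat_lit 39978232735) (nat_lit 0) (nat_lit 0) (nat_lit 0) (nat_lit 0) (nat_lit 0) (nat_lit 0) (nat_lit 1) (nat_lit 0) (nat_lit 1) (nat_lit 0) (nat_lit 409) (nat_lit 407) (nat_lit 264)) (XT.lf (nat_lit 0) (nat_lit 39978183544) (nat_lit 0) (nat_lit 0) (nat_lit 0) (nat_lit 0) (nat_lit 0) (nat_lit 0) (nat_lit 1) (nat_lit 0) (nat_lit 1) (nat_lit 0) (nat_lit 410) (nat_lit 407) (nat_lit 263))) (XT.nd (nat_lit 94) (nat_lit 0) (nat_lit 0) (XT.lf (nat_lit 0) (nat_lit 39978137997) (nat_lit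 0) (nat_lit 0) (nat_lit 0) (nat_lit 0) (nat_lit 0) (nat_lit 0) (nat_lit 1) (nat_lit 0) (nat_lit 1) (nat_lit 0) (nat_lit 411) (nat_lit 407) (nat_lit 262)) (XT.nd (nat_lit 94) (nat_lit 0) (nat_lit 0) (XT.lf (nat_lit 0) (nat_lit 39978095823) (nat_lit 0) (nat_lit 0) (nat_lit 0) (nat_lit 0) (nat_lit 0) (nat_lit 0) (nat_lit 1) (nat_lit 0) (nat_lit 1) (nat_lit 0) (nat_lit 412) (nat_lit 407) (nat_lit 261)) (XT.lf (nat_lit 0) (nat_lit 39978056774) (nat_lit 0) (nat_lit 0) (nat_lit 0) (nat_lit 0) (nat_lit 0) (nat_lit 0) (nat_lit 1) (nat_lit 0) (nat_lit 1) (nat_lit 0) (nat_lit 413) (nat_lit 407) (nat_lit 260))))))))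
noncomputable def ec185 : XT := (XT.nd (nat_lit 1786) (nat_lit 0) (nat_lit 0) (XT.nd (nat_lit 846) (nat_lit 0) (nat_lit 0) (XT.nd (nat_lit 376) (nat_lit 0) (nat_lit 0) (XT.nd (nat_lit 188) (nat_lit 0) (nat_lit 0) (XT.nd (nat_lit 94) (nat_lit 0) (nat_lit 0) (XT.lf (nat_lit 0) (nat_lit 39978020617) (nat_lit 0) (nat_lit 0) (nat_lit 0) (nat_lit 0) (nat_lit 0) (nat_lit 0) (nat_lit 1) (nat_lit 0) (nat_lit 1) (nat_lit 0) (nat_lit 414) (nat_lit 407) (nat_lit 259)) (XT.lf (nat_lit 0) (nat_lit 39977987138) (nat_lit 0) (nat_lit 0) (nat_lit 0) (nat_lit 0) (nat_lit 0) (nat_lit 0) (nat_lit 1) (nat_lit 0) (nat_lit 1) (nat_lit 0) (nat_lit 415) (nat_lit 407) (nat_lit 258))) (XT.nd (nat_lit 94) (nat_lit 0) (nat_lit 0) (XT.lf (nat_lit 0) (nat_lit 39977956140) (nat_lit 0) (nat_lit 0) (nat_lit 0) (nat_lit 0) (nat_lit 0) (nat_lit 0) (nat_lit 1) (nat_lit 0) (nat_lit 1) (nat_lit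 0) (nat_lit 416) (nat_lit 407) (nat_lit 257)) (XT.lf (nat_lit 0) (nat_lit 39977927437) (nat_lit 0) (nat_lit 0) (nat_lit 0) (nat_lit 0) (nat_lit 0) (nat_lit 0) (nat_lit 1) (nat_lit 0) (nat_lit 1) (nat_lit 0) (nat_lit 417) (nat_lit 407) (nat_lit 256)))) (XT.nd (nat_lit 188) (nat_lit 0) (nat_lit 0) (XT.nd (nat_lit 94) (nat_lit 0) (nat_lit 0) (XT.lf (nat_lit 0) (nat_lit 39977900861) (nat_lit 0) (nat_lit 0) (nat_lit 0) (nat_lit 0) (nat_lit 0) (nat_lit 0) (nat_lit 1) (nat_lit 0) (nat_lit 1) (nat_lit 0) (nat_lit 418) (nat_lit 407) (nat_lit 255)) (XT.lf (nat_lit 0) (nat_lit 39977876253) (nat_lit 0) (nat_lit 0) (nat_lit 0) (nat_lit 0) (nat_lit 0) (nat_lit 0) (nat_lit 1) (nat_lit 0) (nat_lit 1) (nat_lit 0) (nat_lit 419) (nat_lit 407) (nat_lit 254))) (XT.nd (nat_lit 94) (nat_lit 0) (nat_lit 0) (XT.lf (nat_lit 0) (nat_lit 39977853468) (nat_lit 0) (nat_lit 0) (nat_lit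 0) (nat_lit 0) (nat_lit 0) (nat_lit 0) (nat_lit 1) (nat_lit 0) (nat_lit 1) (nat_lit 0) (nat_lit 420) (nat_lit 407) (nat_lit 253)) (XT.nd (nat_lit 94) (nat_lit 0) (nat_lit 0) (XT.lf (nat_lit 0) (nat_lit 39977832371) (nat_lit 0) (nat_lit 0) (nat_lit 0) (nat_lit 0) (nat_lit 0) (nat_lit 0) (nat_lit 1) (nat_lit 0) (nat_lit 1) (nat_lit 0) (nat_lit 421) (nat_lit 407) (nat_lit 252)) (XT.lf (nat_lit 0) (nat_lit 39977812837) (nat_lit 0) (nat_lit 0) (nat_lit 0) (nat_lit 0) (nat_lit 0) (nat_lit 0) (nat_lit 1) (nat_lit 0) (nat_lit 1) (nat_lit 0) (nat_lit 422) (nat_lit 407) (nat_lit 251)))))) (XT.nd (nat_lit 470) (nat_lit 0) (nat_lit 0) (XT.nd (nat_lit 188) (nat_lit 0) (nat_lit 0) (XT.nd (nat_lit 94) (nat_lit 0) (nat_lit 0) (XT.lf (nat_lit 0) (nat_lit 39977794749) (nat_lit 0) (nat_lit 0) (nat_lit 0) (nat_lit 0) (nat_lit 0) (nat_lit 0) (nat_lit 1) (nat_lit 0) (nat_lit 1)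 (nat_lit 0) (nat_lit 423) (nat_lit 407) (nat_lit 250)) (XT.lf (nat_lit 0) (nat_lit 39977778002) (nat_lit 0) (nat_lit 0) (nat_lit 0) (nat_lit 0) (nat_lit 0) (nat_lit 0) (nat_lit 1) (nat_lit 0) (nat_lit 1) (nat_lit 0) (nat_lit 424) (nat_lit 407) (nat_lit 249))) (XT.nd (nat_lit 94) (nat_lit 0) (nat_lit 0) (XT.lf (nat_lit 0) (nat_lit 39977762495) (nat_lit 0) (nat_lit 0) (nat_lit 0) (nat_lit 0) (nat_lit 0) (nat_lit 0) (nat_lit 1) (nat_lit 0) (nat_lit 1) (nat_lit 0) (nat_lit 425) (nat_lit 407) (nat_lit 248)) (XT.nd (nat_lit 94) (nat_lit 0) (nat_lit 0) (XT.lf (nat_lit 0) (nat_lit 39977748136) (nat_lit 0) (nat_lit 0) (nat_lit 0) (nat_lit 0) (nat_lit 0) (nat_lit 0) (nat_lit 1) (nat_lit 0) (nat_lit 1) (nat_lit 0) (nat_lit 426) (nat_lit 407) (nat_lit 247)) (XT.lf (nat_lit 0) (nat_lit 39977734841) (nat_lit 0) (nat_lit 0) (nat_lit 0) (nat_lit 0) (nat_lit 0) (nat_lit 0)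 (nat_lit 1) (nat_lit 0) (nat_lit 1) (nat_lit 0) (nat_lit 427) (nat_lit 407) (nat_lit 246))))) (XT.nd (nat_lit 188) (nat_lit 0) (nat_lit 0) (XT.nd (nat_lit 94) (nat_lit 0) (nat_lit 0) (XT.lf (nat_lit 0) (nat_lit 39977722531) (nat_lit 0) (nat_lit 0) (nat_lit 0) (nat_lit 0) (nat_lit 0) (nat_lit 0) (nat_lit 1) (nat_lit 0) (nat_lit 1) (nat_lit 0) (nat_lit 428) (nat_lit 407) (nat_lit 245)) (XT.lf (nat_lit 0) (nat_lit 39977711133) (nat_lit 0) (nat_lit 0) (nat_lit 0) (nat_lit 0) (nat_lit 0) (nat_lit 0) (nat_lit 1) (nat_lit 0) (nat_lit 1) (nat_lit 0) (nat_lit 429) (nat_lit 407) (nat_lit 244))) (XT.nd (nat_lit 94) (nat_lit 0) (nat_lit 0) (XT.lf (nat_lit 0) (nat_lit 39977700579) (nat_lit 0) (nat_lit 0) (nat_lit 0) (nat_lit 0) (nat_lit 0) (nat_lit 0) (nat_lit 1) (nat_lit 0) (nat_lit 1) (nat_lit 0) (nat_lit 430) (nat_lit 407) (nat_lit 243)) (XT.nd (nat_lit 94) (nat_lit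 0) (nat_lit 0) (XT.lf (nat_lit 0) (nat_lit 39977690807) (nat_lit 0) (nat_lit 0) (nat_lit 0) (nat_lit 0) (nat_lit 0) (nat_lit 0) (nat_lit 1) (nat_lit 0) (nat_lit 1) (nat_lit 0) (nat_lit 431) (nat_lit 407) (nat_lit 242)) (XT.lf (nat_lit 0) (nat_lit 39977681759) (nat_lit 0) (nat_lit 0) (nat_lit 0) (nat_lit 0) (nat_lit 0) (nat_lit 0) (nat_lit 1) (nat_lit 0) (nat_lit 1) (nat_lit 0) (nat_lit 432) (nat_lit 407) (nat_lit 241))))))) (XT.nd (nat_lit 51888) (nat_lit 0) (nat_lit 9324) (XT.nd (nat_lit 376) (nat_lit 0) (nat_lit 0) (XT.nd (nat_lit 188) (nat_lit 0) (nat_lit 0) (XT.nd (nat_lit 94) (nat_lit 0) (nat_lit 0) (XT.lf (nat_lit 0) (nat_lit 39977673381) (nat_lit 0) (nat_lit 0) (nat_lit 0) (nat_lit 0) (nat_lit 0) (nat_lit 0) (nat_lit 1) (nat_lit 0) (nat_lit 1) (nat_lit 0) (nat_lit 433) (nat_lit 407) (nat_lit 240)) (XT.lf (nat_lit 0) (nat_lit 39977665624) (nat_lit 0)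 (nat_lit 0) (nat_lit 0) (nat_lit 0) (nat_lit 0) (nat_lit 0) (nat_lit 1) (nat_lit 0) (nat_lit 1) (nat_lit 0) (nat_lit 434) (nat_lit 407) (nat_lit 239))) (XT.nd (nat_lit 94) (nat_lit 0) (nat_lit 0) (XT.lf (nat_lit 0) (nat_lit 39977658441) (nat_lit 0) (nat_lit 0) (nat_lit 0) (nat_lit 0) (nat_lit 0) (nat_lit 0) (nat_lit 1) (nat_lit 0) (nat_lit 1) (nat_lit 0) (nat_lit 435) (nat_lit 407) (nat_lit 238)) (XT.lf (nat_lit 0) (nat_lit 39977651790) (nat_lit 0) (nat_lit 0) (nat_lit 0) (nat_lit 0) (nat_lit 0) (nat_lit 0) (nat_lit 1) (nat_lit 0) (nat_lit 1) (nat_lit 0) (nat_lit 436) (nat_lit 407) (nat_lit 237)))) (XT.nd (nat_lit 188) (nat_lit 0) (nat_lit 0) (XT.nd (nat_lit 94) (nat_lit 0) (nat_lit 0) (XT.lf (nat_lit 0) (nat_lit 39977645632) (nat_lit 0) (nat_lit 0) (nat_lit 0) (nat_lit 0) (nat_lit 0) (nat_lit 0) (nat_lit 1) (nat_lit 0) (nat_lit 1) (nat_lit 0) (nat_lit 437)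 (nat_lit 407) (nat_lit 236)) (XT.lf (nat_lit 0) (nat_lit 39977639930) (nat_lit 0) (nat_lit 0) (nat_lit 0) (nat_lit 0) (nat_lit 0) (nat_lit 0) (nat_lit 1) (nat_lit 0) (nat_lit 1) (nat_lit 0) (nat_lit 438) (nat_lit 407) (nat_lit 235))) (XT.nd (nat_lit 94) (nat_lit 0) (nat_lit 0) (XT.lf (nat_lit 0) (nat_lit 39977634651) (nat_lit 0) (nat_lit 0) (nat_lit 0) (nat_lit 0) (nat_lit 0) (nat_lit 0) (nat_lit 1) (nat_lit 0) (nat_lit 1) (nat_lit 0) (nat_lit 439) (nat_lit 407) (nat_lit 234)) (XT.nd (nat_lit 94) (nat_lit 0) (nat_lit 0) (XT.lf (nat_lit 0) (nat_lit 39977629762) (nat_lit 0) (nat_lit 0) (nat_lit 0) (nat_lit 0) (nat_lit 0) (nat_lit 0) (nat_lit 1) (nat_lit 0) (nat_lit 1) (nat_lit 0) (nat_lit 440) (nat_lit 407) (nat_lit 233)) (XT.lf (nat_lit 0) (nat_lit 39977625236) (nat_lit 0) (nat_lit 0) (nat_lit 0) (nat_lit 0) (nat_lit 0) (nat_lit 0) (nat_lit 1) (nat_lit 0) (nat_lit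 1) (nat_lit 0) (nat_lit 441) (nat_lit 407) (nat_lit 232)))))) (XT.nd (nat_lit 470) (nat_lit 1428) (nat_lit 0) (XT.nd (nat_lit 188) (nat_lit 0) (nat_lit 84) (XT.nd (nat_lit 94) (nat_lit 0) (nat_lit 84) (XT.lf (nat_lit 924) (nat_lit 21606774645) (nat_lit 0) (nat_lit 38362778717) (nat_lit 924) (nat_lit 21606774645) (nat_lit 139) (nat_lit 1) (nat_lit 128) (nat_lit 0) (nat_lit 139) (nat_lit 0) (nat_lit 264) (nat_lit 408) (nat_lit 408)) (XT.lf (nat_lit 924) (nat_lit 8059989927) (nat_lit 0) (nat_lit 75317761470) (nat_lit 840) (nat_lit 73660519087) (nat_lit 140) (nat_lit 1) (nat_lit 129) (nat_lit 1) (nat_lit 139) (nat_lit 1) (nat_lit 265) (nat_lit 408) (nat_lit 407))) (XT.nd (nat_lit 94) (nat_lit 0) (nat_lit 84) (XT.lf (nat_lit 924) (nat_lit 74026355194) (nat_lit 84) (nat_lit 50440330244) (nat_lit 0) (nat_lit 26751250270) (nat_lit 140) (nat_lit 1) (nat_lit 130) (nat_lit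 1) (nat_lit 129) (nat_lit 1) (nat_lit 266) (nat_lit 408) (nat_lit 406)) (XT.nd (nat_lit 94) (nat_lit 0) (nat_lit 84) (XT.lf (nat_lit 924) (nat_lit 63964835214) (nat_lit 84) (nat_lit 21139192786) (nat_lit 0) (nat_lit 60584837248) (nat_lit 141) (nat_lit 1) (nat_lit 131) (nat_lit 1) (nat_lit 130) (nat_lit 1) (nat_lit 267) (nat_lit 408) (nat_lit 405)) (XT.lf (nat_lit 924) (nat_lit 47339416160) (nat_lit 0) (nat_lit 88569809998) (nat_lit 840) (nat_lit 4527676033) (nat_lit 142) (nat_lit 1) (nat_lit 131) (nat_lit 1) (nat_lit 141) (nat_lit 1) (nat_lit 268) (nat_lit 408) (nat_lit 404))))) (XT.nd (nat_lit 188) (nat_lit 1764) (nat_lit 0) (XT.nd (nat_lit 94) (nat_lit 0) (nat_lit 0) (XT.lf (nat_lit 924) (nat_lit 11358628757) (nat_lit 0) (nat_lit 97672821170) (nat_lit 840) (nat_lit 26404307205) (nat_lit 143) (nat_lit 1) (nat_lit 132) (nat_lit 1) (nat_lit 142) (nat_lit 1)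 (nat_lit 269) (nat_lit 408) (nat_lit 403)) (XT.lf (nat_lit 924) (nat_lit 21826664526) (nat_lit 84) (nat_lit 84885635436) (nat_lit 0) (nat_lit 23955773609) (nat_lit 143) (nat_lit 1) (nat_lit 133) (nat_lit 1) (nat_lit 132) (nat_lit 1) (nat_lit 270) (nat_lit 408) (nat_lit 402))) (XT.nd (nat_lit 94) (nat_lit 1008) (nat_lit 0) (XT.lf (nat_lit 924) (nat_lit 4482699179) (nat_lit 0) (nat_lit 63457627457) (nat_lit 840) (nat_lit 58189979479) (nat_lit 134) (nat_lit 1) (nat_lit 123) (nat_lit 1) (nat_lit 133) (nat_lit 1) (nat_lit 271) (nat_lit 408) (nat_lit 401)) (XT.nd (nat_lit 94) (nat_lit 420) (nat_lit 0) (XT.lf (nat_lit 84) (nat_lit 31039142898) (nat_lit 0) (nat_lit 13450705062) (nat_lit 588) (nat_lit 77317549606) (nat_lit 117) (nat_lit 1) (nat_lit 116) (nat_lit 1) (nat_lit 123) (nat_lit 1) (nat_lit 272) (nat_lit 408) (nat_lit 400)) (XT.lf (nat_lit 504) (nat_lit 85539971031)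 (nat_lit 0) (nat_lit 27845104663) (nat_lit 420) (nat_lit 4305025233) (nat_lit 117) (nat_lit 1) (nat_lit 111) (nat_lit 1) (nat_lit 116) (nat_lit 1) (nat_lit 273) (nat_lit 408) (nat_lit 399))))))))
noncomputable def ec186 : XT := (XT.nd (nat_lit 1692) (nat_lit 2940) (nat_lit 0) (XT.nd (nat_lit 846) (nat_lit 2100) (nat_lit 0) (XT.nd (nat_lit 376) (nat_lit 1596) (nat_lit 0) (XT.nd (nat_lit 188) (nat_lit 420) (nat_lit 0) (XT.nd (nat_lit 94) (nat_lit 336) (nat_lit 0) (XT.lf (nat_lit 504) (nat_lit 61726457669) (nat_lit 0) (nat_lit 12978723230) (nat_lit 420) (nat_lit 39044659781) (nat_lit 112) (nat_lit 1) (nat_lit 106) (nat_lit 1) (nat_lit 111) (nat_lit 1) (nat_lit 274) (nat_lit 408) (nat_lit 398)) (XT.lf (nat_lit 420) (nat_lit 37559762236) (nat_lit 0) (nat_lit 238959386) (nat_lit 336) (nat_lit 72201913464) (nat_lit 107) (nat_lit 1) (nat_lit 102) (nat_lit 1) (nat_lit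 106) (nat_lit 1) (nat_lit 275) (nat_lit 408) (nat_lit 397))) (XT.nd (nat_lit 94) (nat_lit 420) (nat_lit 0) (XT.lf (nat_lit 84) (nat_lit 2770981750) (nat_lit 0) (nat_lit 93450931661) (nat_lit 420) (nat_lit 10201986231) (nat_lit 103) (nat_lit 1) (nat_lit 102) (nat_lit 1) (nat_lit 107) (nat_lit 1) (nat_lit 276) (nat_lit 408) (nat_lit 396)) (XT.lf (nat_lit 84) (nat_lit 71547467515) (nat_lit 0) (nat_lit 11866913040) (nat_lit 420) (nat_lit 19570694799) (nat_lit 98) (nat_lit 1) (nat_lit 97) (nat_lit 1) (nat_lit 102) (nat_lit 1) (nat_lit 277) (nat_lit 408) (nat_lit 395)))) (XT.nd (nat_lit 188) (nat_lit 924) (nat_lit 0) (XT.nd (nat_lit 94) (nat_lit 336) (nat_lit 0) (XT.lf (nat_lit 84) (nat_lit 35797011057) (nat_lit 0) (nat_lit 36350461213) (nat_lit 420) (nat_lit 27550723587) (nat_lit 94) (nat_lit 1) (nat_lit 93) (nat_lit 1) (nat_lit 98) (nat_lit 1) (nat_lit 278) (nat_lit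 408) (nat_lit 394)) (XT.lf (nat_lit 84) (nat_lit 1766861087) (nat_lit 0) (nat_lit 60777406706) (nat_lit 420) (nat_lit 34022671448) (nat_lit 90) (nat_lit 1) (nat_lit 89) (nat_lit 1) (nat_lit 94) (nat_lit 1) (nat_lit 279) (nat_lit 408) (nat_lit 393))) (XT.nd (nat_lit 94) (nat_lit 672) (nat_lit 0) (XT.lf (nat_lit 336) (nat_lit 7979045090) (nat_lit 0) (nat_lit 53958462622) (nat_lit 252) (nat_lit 31620899197) (nat_lit 90) (nat_lit 1) (nat_lit 86) (nat_lit 1) (nat_lit 89) (nat_lit 1) (nat_lit 280) (nat_lit 408) (nat_lit 392)) (XT.nd (nat_lit 94) (nat_lit 252) (nat_lit 0) (XT.lf (nat_lit 84) (nat_lit 27569746031) (nat_lit 0) (nat_lit 18896475240) (nat_lit 420) (nat_lit 44207941231) (nat_lit 82) (nat_lit 1) (nat_lit 81) (nat_lit 1) (nat_lit 86) (nat_lit 1) (nat_lit 281) (nat_lit 408) (nat_lit 391)) (XT.lf (nat_lit 336) (nat_lit 42684598240) (nat_lit 0) (nat_lit 40096663192)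 (nat_lit 252) (nat_lit 5132325300) (nat_lit 82) (nat_lit 1) (nat_lit 78) (nat_lit 1) (nat_lit 81) (nat_lit 1) (nat_lit 282) (nat_lit 408) (nat_lit 390)))))) (XT.nd (nat_lit 376) (nat_lit 1092) (nat_lit 0) (XT.nd (nat_lit 188) (nat_lit 420) (nat_lit 0) (XT.nd (nat_lit 94) (nat_lit 336) (nat_lit 0) (XT.lf (nat_lit 336) (nat_lit 13680207524) (nat_lit 0) (nat_lit 34521585066) (nat_lit 252) (nat_lit 37057308071) (nat_lit 79) (nat_lit 1) (nat_lit 75) (nat_lit 1) (nat_lit 78) (nat_lit 1) (nat_lit 283) (nat_lit 408) (nat_lit 389)) (XT.lf (nat_lit 84) (nat_lit 15592130998) (nat_lit 0) (nat_lit 14275950915) (nat_lit 336) (nat_lit 52846778479) (nat_lit 72) (nat_lit 1) (nat_lit 71) (nat_lit 1) (nat_lit 75) (nat_lit 1) (nat_lit 284) (nat_lit 408) (nat_lit 388))) (XT.nd (nat_lit 94) (nat_lit 168) (nat_lit 0) (XT.lf (nat_lit 336) (nat_lit 38798971528) (nat_lit 0) (nat_lit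 25815397876) (nat_lit 252) (nat_lit 15649379069) (nat_lit 72) (nat_lit 1) (nat_lit 68) (nat_lit 1) (nat_lit 71) (nat_lit 1) (nat_lit 285) (nat_lit 408) (nat_lit 387)) (XT.lf (nat_lit 252) (nat_lit 9618322331) (nat_lit 0) (nat_lit 22522051666) (nat_lit 168) (nat_lit 45771147249) (nat_lit 69) (nat_lit 1) (nat_lit 66) (nat_lit 1) (nat_lit 68) (nat_lit 1) (nat_lit 286) (nat_lit 408) (nat_lit 386)))) (XT.nd (nat_lit 188) (nat_lit 588) (nat_lit 0) (XT.nd (nat_lit 94) (nat_lit 168) (nat_lit 0) (XT.lf (nat_lit 84) (nat_lit 1629405252) (nat_lit 0) (nat_lit 18233398498) (nat_lit 336) (nat_lit 55787668793) (nat_lit 63) (nat_lit 1) (nat_lit 62) (nat_lit 1) (nat_lit 66) (nat_lit 1) (nat_lit 287) (nat_lit 408) (nat_lit 385)) (XT.lf (nat_lit 252) (nat_lit 27949079856) (nat_lit 0) (nat_lit 17465777163) (nat_lit 168) (nat_lit 28046342935) (nat_lit 63) (nat_lit 1) (nat_lit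 60) (nat_lit 1) (nat_lit 62) (nat_lit 1) (nat_lit 288) (nat_lit 408) (nat_lit 384))) (XT.nd (nat_lit 94) (nat_lit 336) (nat_lit 0) (XT.lf (nat_lit 84) (nat_lit 15164002730) (nat_lit 0) (nat_lit 700434793) (nat_lit 252) (nat_lit 55503022155) (nat_lit 58) (nat_lit 1) (nat_lit 57) (nat_lit 1) (nat_lit 60) (nat_lit 1) (nat_lit 289) (nat_lit 408) (nat_lit 383)) (XT.nd (nat_lit 94) (nat_lit 168) (nat_lit 0) (XT.lf (nat_lit 252) (nat_lit 41455455227) (nat_lit 0) (nat_lit 14365244745) (nat_lit 168) (nat_lit 13513924843) (nat_lit 58) (nat_lit 1) (nat_lit 55) (nat_lit 1) (nat_lit 57) (nat_lit 1) (nat_lit 290) (nat_lit 408) (nat_lit 382)) (XT.lf (nat_lit 252) (nat_lit 12877725629) (nat_lit 0) (nat_lit 13354083524) (nat_lit 168) (nat_lit 41147704974) (nat_lit 56) (nat_lit 1) (nat_lit 53) (nat_lit 1) (nat_lit 55) (nat_lit 1) (nat_lit 291) (nat_lit 408) (nat_lit 381)))))))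 (XT.nd (nat_lit 846) (nat_lit 1428) (nat_lit 0) (XT.nd (nat_lit 376) (nat_lit 756) (nat_lit 0) (XT.nd (nat_lit 188) (nat_lit 336) (nat_lit 0) (XT.nd (nat_lit 94) (nat_lit 168) (nat_lit 0) (XT.lf (nat_lit 252) (nat_lit 51119838052) (nat_lit 0) (nat_lit 12758742922) (nat_lit 168) (nat_lit 1618594562) (nat_lit 53) (nat_lit 1) (nat_lit 50) (nat_lit 1) (nat_lit 52) (nat_lit 1) (nat_lit 292) (nat_lit 408) (nat_lit 380)) (XT.lf (nat_lit 252) (nat_lit 22878870308) (nat_lit 0) (nat_lit 12180297922) (nat_lit 168) (nat_lit 28607972963) (nat_lit 51) (nat_lit 1) (nat_lit 48) (nat_lit 1) (nat_lit 50) (nat_lit 1) (nat_lit 293) (nat_lit 408) (nat_lit 379))) (XT.nd (nat_lit 94) (nat_lit 168) (nat_lit 0) (XT.lf (nat_lit 84) (nat_lit 7836896409) (nat_lit 0) (nat_lit 4307511407) (nat_lit 168) (nat_lit 49768604130) (nat_lit 47) (nat_lit 1) (nat_lit 46) (nat_lit 1) (nat_lit 48)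 (nat_lit 1) (nat_lit 294) (nat_lit 408) (nat_lit 378)) (XT.lf (nat_lit 252) (nat_lit 30018393624) (nat_lit 0) (nat_lit 12015812056) (nat_lit 168) (nat_lit 18168940803) (nat_lit 47) (nat_lit 1) (nat_lit 44) (nat_lit 1) (nat_lit 46) (nat_lit 1) (nat_lit 295) (nat_lit 408) (nat_lit 377)))) (XT.nd (nat_lit 188) (nat_lit 420) (nat_lit 0) (XT.nd (nat_lit 94) (nat_lit 252) (nat_lit 0) (XT.lf (nat_lit 168) (nat_lit 3232554437) (nat_lit 0) (nat_lit 12310935927) (nat_lit 84) (nat_lit 43017293942) (nat_lit 45) (nat_lit 1) (nat_lit 43) (nat_lit 1) (nat_lit 44) (nat_lit 1) (nat_lit 296) (nat_lit 408) (nat_lit 376)) (XT.lf (nat_lit 252) (nat_lit 34894231707) (nat_lit 0) (nat_lit 12590802238) (nat_lit 168) (nat_lit 9478673183) (nat_lit 43) (nat_lit 1) (nat_lit 40) (nat_lit 1) (nat_lit 42) (nat_lit 1) (nat_lit 297) (nat_lit 408) (nat_lit 375))) (XT.nd (nat_lit 94) (nat_lit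 336) (nat_lit 0) (XT.lf (nat_lit 168) (nat_lit 8776156583) (nat_lit 0) (nat_lit 13061585021) (nat_lit 84) (nat_lit 33582713053) (nat_lit 41) (nat_lit 1) (nat_lit 39) (nat_lit 1) (nat_lit 40) (nat_lit 1) (nat_lit 298) (nat_lit 408) (nat_lit 374)) (XT.nd (nat_lit 94) (nat_lit 84) (nat_lit 0) (XT.lf (nat_lit 252) (nat_lit 37989823554) (nat_lit 0) (nat_lit 13691549131) (nat_lit 168) (nat_lit 2246900418) (nat_lit 39) (nat_lit 1) (nat_lit 36) (nat_lit 1) (nat_lit 38) (nat_lit 1) (nat_lit 299) (nat_lit 408) (nat_lit 373)) (XT.lf (nat_lit 168) (nat_lit 12630093342) (nat_lit 0) (nat_lit 14273604490) (nat_lit 84) (nat_lit 25572395122) (nat_lit 37) (nat_lit 1) (nat_lit 35) (nat_lit 1) (nat_lit 36) (nat_lit 1) (nat_lit 300) (nat_lit 408) (nat_lit 372)))))) (XT.nd (nat_lit 470) (nat_lit 588) (nat_lit 0) (XT.nd (nat_lit 188) (nat_lit 504) (nat_lit 0) (XT.nd (nat_lit 94)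 (nat_lit 84) (nat_lit 0) (XT.lf (nat_lit 84) (nat_lit 3645547569) (nat_lit 0) (nat_lit 11442402060) (nat_lit 252) (nat_lit 35988132845) (nat_lit 33) (nat_lit 1) (nat_lit 32) (nat_lit 1) (nat_lit 35) (nat_lit 1) (nat_lit 301) (nat_lit 408) (nat_lit 371)) (XT.lf (nat_lit 168) (nat_lit 15157251532) (nat_lit 0) (nat_lit 15793137659) (nat_lit 84) (nat_lit 18760451202) (nat_lit 33) (nat_lit 1) (nat_lit 31) (nat_lit 1) (nat_lit 32) (nat_lit 1) (nat_lit 302) (nat_lit 408) (nat_lit 370))) (XT.nd (nat_lit 94) (nat_lit 252) (nat_lit 0) (XT.lf (nat_lit 84) (nat_lit 8478186226) (nat_lit 0) (nat_lit 8211696653) (nat_lit 252) (nat_lit 31703693383) (nat_lit 29) (nat_lit 1) (nat_lit 28) (nat_lit 1) (nat_lit 31) (nat_lit 1) (nat_lit 303) (nat_lit 408) (nat_lit 369)) (XT.nd (nat_lit 94) (nat_lit 168) (nat_lit 0) (XT.lf (nat_lit 168) (nat_lit 16650274818) (nat_lit 0) (nat_lit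 17500082026) (nat_lit 84) (nat_lit 12959610887) (nat_lit 29) (nat_lit 1) (nat_lit 27) (nat_lit 1) (nat_lit 28) (nat_lit 1) (nat_lit 304) (nat_lit 408) (nat_lit 368)) (XT.lf (nat_lit 84) (nat_lit 12481850622) (nat_lit 0) (nat_lit 5947378485) (nat_lit 168) (nat_lit 27439521766) (nat_lit 26) (nat_lit 1) (nat_lit 25) (nat_lit 1) (nat_lit 27) (nat_lit 1) (nat_lit 305) (nat_lit 408) (nat_lit 367))))) (XT.nd (nat_lit 188) (nat_lit 336) (nat_lit 0) (XT.nd (nat_lit 94) (nat_lit 168) (nat_lit 0) (XT.lf (nat_lit 168) (nat_lit 17344689128) (nat_lit 0) (nat_lit 19301510726) (nat_lit 84) (nat_lit 8014333558) (nat_lit 26) (nat_lit 1) (nat_lit 24) (nat_lit 1) (nat_lit 25) (nat_lit 1) (nat_lit 306) (nat_lit 408) (nat_lit 366)) (XT.lf (nat_lit 84) (nat_lit 15788380495) (nat_lit 0) (nat_lit 4436821899) (nat_lit 168) (nat_lit 23264277061) (nat_lit 23) (nat_lit 1) (nat_lit 22)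 (nat_lit 1) (nat_lit 24) (nat_lit 1) (nat_lit 307) (nat_lit 408) (nat_lit 365))) (XT.nd (nat_lit 94) (nat_lit 252) (nat_lit 0) (XT.lf (nat_lit 168) (nat_lit 17429605030) (nat_lit 0) (nat_lit 21126326084) (nat_lit 84) (nat_lit 3795170810) (nat_lit 23) (nat_lit 1) (nat_lit 21) (nat_lit 1) (nat_lit 22) (nat_lit 1) (nat_lit 308) (nat_lit 408) (nat_lit 364)) (XT.nd (nat_lit 94) (nat_lit 84) (nat_lit 0) (XT.lf (nat_lit 84) (nat_lit 18507349383) (nat_lit 0) (nat_lit 3509056103) (nat_lit 168) (nat_lit 19228606550) (nat_lit 20) (nat_lit 1) (nat_lit 19) (nat_lit 1) (nat_lit 21) (nat_lit 1) (nat_lit 309) (nat_lit 408) (nat_lit 363)) (XT.lf (nat_lit 168) (nat_lit 17056442558) (nat_lit 0) (nat_lit 22920917652) (nat_lit 84) (nat_lit 194151284) (nat_lit 20) (nat_lit 1) (nat_lit 18) (nat_lit 1) (nat_lit 19) (nat_lit 1) (nat_lit 310) (nat_lit 408) (nat_lit 362))))))))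
noncomputable def ec187 : XT := (XT.nd (nat_lit 1786) (nat_lit 0) (nat_lit 0) (XT.nd (nat_lit 846) (nat_lit 336) (nat_lit 0) (XT.nd (nat_lit 376) (nat_lit 672) (nat_lit 0) (XT.nd (nat_lit 188) (nat_lit 252) (nat_lit 0) (XT.nd (nat_lit 94) (nat_lit 84) (nat_lit 0) (XT.lf (nat_lit 84) (nat_lit 20730005950) (nat_lit 0) (nat_lit 3026943719) (nat_lit 168) (nat_lit 15368816229) (nat_lit 17) (nat_lit 1) (nat_lit 16) (nat_lit 1) (nat_lit 18) (nat_lit 1) (nat_lit 311) (nat_lit 408) (nat_lit 361)) (XT.lf (nat_lit 0) (nat_lit 2786853013) (nat_lit 0) (nat_lit 21811589216) (nat_lit 168) (nat_lit 13511992449) (nat_lit 15) (nat_lit 3) (nat_lit 15) (nat_lit 1) (nat_lit 17) (nat_lit 1) (nat_lit 312) (nat_lit 408) (nat_lit 360))) (XT.nd (nat_lit 94) (nat_lit 84) (nat_lit 0) (XT.lf (nat_lit 84) (nat_lit 22532501892) (nat_lit 0) (nat_lit 2880805848) (nat_lit 168) (nat_lit 11709844494)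 (nat_lit 14) (nat_lit 1) (nat_lit 13) (nat_lit 1) (nat_lit 15) (nat_lit 1) (nat_lit 313) (nat_lit 408) (nat_lit 359)) (XT.lf (nat_lit 0) (nat_lit 5323920263) (nat_lit 0) (nat_lit 20857867780) (nat_lit 168) (nat_lit 9980375305) (nat_lit 12) (nat_lit 3) (nat_lit 12) (nat_lit 1) (nat_lit 14) (nat_lit 1) (nat_lit 314) (nat_lit 408) (nat_lit 358)))) (XT.nd (nat_lit 188) (nat_lit 420) (nat_lit 0) (XT.nd (nat_lit 94) (nat_lit 84) (nat_lit 0) (XT.lf (nat_lit 84) (nat_lit 23978536682) (nat_lit 0) (nat_lit 2983227517) (nat_lit 168) (nat_lit 8267668327) (nat_lit 11) (nat_lit 1) (nat_lit 10) (nat_lit 1) (nat_lit 12) (nat_lit 1) (nat_lit 315) (nat_lit 408) (nat_lit 357)) (XT.lf (nat_lit 0) (nat_lit 7484839396) (nat_lit 0) (nat_lit 20168512004) (nat_lit 168) (nat_lit 6666082211) (nat_lit 9) (nat_lit 3) (nat_lit 9) (nat_lit 1) (nat_lit 11) (nat_lit 1) (nat_lit 316) (nat_lit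 408) (nat_lit 356))) (XT.nd (nat_lit 94) (nat_lit 252) (nat_lit 0) (XT.lf (nat_lit 84) (nat_lit 25121525586) (nat_lit 0) (nat_lit 3264826273) (nat_lit 168) (nat_lit 5051247443) (nat_lit 8) (nat_lit 1) (nat_lit 7) (nat_lit 1) (nat_lit 9) (nat_lit 1) (nat_lit 317) (nat_lit 408) (nat_lit 355)) (XT.nd (nat_lit 94) (nat_lit 168) (nat_lit 0) (XT.lf (nat_lit 0) (nat_lit 9321524262) (nat_lit 0) (nat_lit 19677909891) (nat_lit 168) (nat_lit 3576085425) (nat_lit 6) (nat_lit 3) (nat_lit 6) (nat_lit 1) (nat_lit 8) (nat_lit 1) (nat_lit 318) (nat_lit 408) (nat_lit 354)) (XT.lf (nat_lit 84) (nat_lit 26006377865) (nat_lit 0) (nat_lit 3670806589) (nat_lit 168) (nat_lit 2064092444) (nat_lit 5) (nat_lit 1) (nat_lit 4) (nat_lit 1) (nat_lit 6) (nat_lit 1) (nat_lit 319) (nat_lit 408) (nat_lit 353)))))) (XT.nd (nat_lit 470) (nat_lit 0) (nat_lit 0) (XT.nd (nat_lit 188) (nat_lit 0)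 (nat_lit 0) (XT.nd (nat_lit 94) (nat_lit 252) (nat_lit 0) (XT.lf (nat_lit 0) (nat_lit 10877881594) (nat_lit 0) (nat_lit 19334006774) (nat_lit 168) (nat_lit 712404020) (nat_lit 3) (nat_lit 3) (nat_lit 3) (nat_lit 1) (nat_lit 5) (nat_lit 1) (nat_lit 320) (nat_lit 408) (nat_lit 352)) (XT.lf (nat_lit 0) (nat_lit 43712912387) (nat_lit 0) (nat_lit 0) (nat_lit 0) (nat_lit 0) (nat_lit 0) (nat_lit 0) (nat_lit 1) (nat_lit 0) (nat_lit 1) (nat_lit 0) (nat_lit 321) (nat_lit 408) (nat_lit 351))) (XT.nd (nat_lit 94) (nat_lit 0) (nat_lit 0) (XT.lf (nat_lit 0) (nat_lit 43673124370) (nat_lit 0) (nat_lit 0) (nat_lit 0) (nat_lit 0) (nat_lit 0) (nat_lit 0) (nat_lit 1) (nat_lit 0) (nat_lit 1) (nat_lit 0) (nat_lit 322) (nat_lit 408) (nat_lit 350)) (XT.nd (nat_lit 94) (nat_lit 0) (nat_lit 0) (XT.lf (nat_lit 0) (nat_lit 43636283613) (nat_lit 0) (nat_lit 0) (nat_lit 0) (nat_lit 0)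 (nat_lit 0) (nat_lit 0) (nat_lit 1) (nat_lit 0) (nat_lit 1) (nat_lit 0) (nat_lit 323) (nat_lit 408) (nat_lit 349)) (XT.lf (nat_lit 0) (nat_lit 43602171801) (nat_lit 0) (nat_lit 0) (nat_lit 0) (nat_lit 0) (nat_lit 0) (nat_lit 0) (nat_lit 1) (nat_lit 0) (nat_lit 1) (nat_lit 0) (nat_lit 324) (nat_lit 408) (nat_lit 348))))) (XT.nd (nat_lit 188) (nat_lit 0) (nat_lit 0) (XT.nd (nat_lit 94) (nat_lit 0) (nat_lit 0) (XT.lf (nat_lit 0) (nat_lit 43570586789) (nat_lit 0) (nat_lit 0) (nat_lit 0) (nat_lit 0) (nat_lit 0) (nat_lit 0) (nat_lit 1) (nat_lit 0) (nat_lit 1) (nat_lit 0) (nat_lit 325) (nat_lit 408) (nat_lit 347)) (XT.lf (nat_lit 0) (nat_lit 43541341409) (nat_lit 0) (nat_lit 0) (nat_lit 0) (nat_lit 0) (nat_lit 0) (nat_lit 0) (nat_lit 1) (nat_lit 0) (nat_lit 1) (nat_lit 0) (nat_lit 326) (nat_lit 408) (nat_lit 346))) (XT.nd (nat_lit 94) (nat_lit 0) (nat_lit 0) (XT.lf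 (nat_lit 0) (nat_lit 43514262352) (nat_lit 0) (nat_lit 0) (nat_lit 0) (nat_lit 0) (nat_lit 0) (nat_lit 0) (nat_lit 1) (nat_lit 0) (nat_lit 1) (nat_lit 0) (nat_lit 327) (nat_lit 408) (nat_lit 345)) (XT.nd (nat_lit 94) (nat_lit 0) (nat_lit 0) (XT.lf (nat_lit 0) (nat_lit 43489189152) (nat_lit 0) (nat_lit 0) (nat_lit 0) (nat_lit 0) (nat_lit 0) (nat_lit 0) (nat_lit 1) (nat_lit 0) (nat_lit 1) (nat_lit 0) (nat_lit 328) (nat_lit 408) (nat_lit 344)) (XT.lf (nat_lit 0) (nat_lit 43465973226) (nat_lit 0) (nat_lit 0) (nat_lit 0) (nat_lit 0) (nat_lit 0) (nat_lit 0) (nat_lit 1) (nat_lit 0) (nat_lit 1) (nat_lit 0) (nat_lit 329) (nat_lit 408) (nat_lit 343))))))) (XT.nd (nat_lit 846) (nat_lit 0) (nat_lit 0) (XT.nd (nat_lit 376) (nat_lit 0) (nat_lit 0) (XT.nd (nat_lit 188) (nat_lit 0) (nat_lit 0) (XT.nd (nat_lit 94) (nat_lit 0) (nat_lit 0) (XT.lf (nat_lit 0) (nat_lit 43444476998)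 (nat_lit 0) (nat_lit 0) (nat_lit 0) (nat_lit 0) (nat_lit 0) (nat_lit 0) (nat_lit 1) (nat_lit 0) (nat_lit 1) (nat_lit 0) (nat_lit 330) (nat_lit 408) (nat_lit 342)) (XT.lf (nat_lit 0) (nat_lit 43424573083) (nat_lit 0) (nat_lit 0) (nat_lit 0) (nat_lit 0) (nat_lit 0) (nat_lit 0) (nat_lit 1) (nat_lit 0) (nat_lit 1) (nat_lit 0) (nat_lit 331) (nat_lit 408) (nat_lit 341))) (XT.nd (nat_lit 94) (nat_lit 0) (nat_lit 0) (XT.lf (nat_lit 0) (nat_lit 43406143533) (nat_lit 0) (nat_lit 0) (nat_lit 0) (nat_lit 0) (nat_lit 0) (nat_lit 0) (nat_lit 1) (nat_lit 0) (nat_lit 1) (nat_lit 0) (nat_lit 332) (nat_lit 408) (nat_lit 340)) (XT.lf (nat_lit 0) (nat_lit 43389079134) (nat_lit 0) (nat_lit 0) (nat_lit 0) (nat_lit 0) (nat_lit 0) (nat_lit 0) (nat_lit 1) (nat_lit 0) (nat_lit 1) (nat_lit 0) (nat_lit 333) (nat_lit 408) (nat_lit 339)))) (XT.nd (nat_lit 188) (nat_lit 0) (nat_lit 0) (XT.nd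 (nat_lit 94) (nat_lit 0) (nat_lit 0) (XT.lf (nat_lit 0) (nat_lit 43373278765) (nat_lit 0) (nat_lit 0) (nat_lit 0) (nat_lit 0) (nat_lit 0) (nat_lit 0) (nat_lit 1) (nat_lit 0) (nat_lit 1) (nat_lit 0) (nat_lit 334) (nat_lit 408) (nat_lit 338)) (XT.lf (nat_lit 0) (nat_lit 43358648793) (nat_lit 0) (nat_lit 0) (nat_lit 0) (nat_lit 0) (nat_lit 0) (nat_lit 0) (nat_lit 1) (nat_lit 0) (nat_lit 1) (nat_lit 0) (nat_lit 335) (nat_lit 408) (nat_lit 337))) (XT.nd (nat_lit 94) (nat_lit 0) (nat_lit 0) (XT.lf (nat_lit 0) (nat_lit 43345102523) (nat_lit 0) (nat_lit 0) (nat_lit 0) (nat_lit 0) (nat_lit 0) (nat_lit 0) (nat_lit 1) (nat_lit 0) (nat_lit 1) (nat_lit 0) (nat_lit 336) (nat_lit 408) (nat_lit 336)) (XT.nd (nat_lit 94) (nat_lit 0) (nat_lit 0) (XT.lf (nat_lit 0) (nat_lit 43332559681) (nat_lit 0) (nat_lit 0) (nat_lit 0) (nat_lit 0) (nat_lit 0) (nat_lit 0) (nat_lit 1) (nat_lit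 0) (nat_lit 1) (nat_lit 0) (nat_lit 337) (nat_lit 408) (nat_lit 335)) (XT.lf (nat_lit 0) (nat_lit 43320945937) (nat_lit 0) (nat_lit 0) (nat_lit 0) (nat_lit 0) (nat_lit 0) (nat_lit 0) (nat_lit 1) (nat_lit 0) (nat_lit 1) (nat_lit 0) (nat_lit 338) (nat_lit 408) (nat_lit 334)))))) (XT.nd (nat_lit 470) (nat_lit 0) (nat_lit 0) (XT.nd (nat_lit 188) (nat_lit 0) (nat_lit 0) (XT.nd (nat_lit 94) (nat_lit 0) (nat_lit 0) (XT.lf (nat_lit 0) (nat_lit 43310192472) (nat_lit 0) (nat_lit 0) (nat_lit 0) (nat_lit 0) (nat_lit 0) (nat_lit 0) (nat_lit 1) (nat_lit 0) (nat_lit 1) (nat_lit 0) (nat_lit 339) (nat_lit 408) (nat_lit 333)) (XT.lf (nat_lit 0) (nat_lit 43300235559) (nat_lit 0) (nat_lit 0) (nat_lit 0) (nat_lit 0) (nat_lit 0) (nat_lit 0) (nat_lit 1) (nat_lit 0) (nat_lit 1) (nat_lit 0) (nat_lit 340) (nat_lit 408) (nat_lit 332))) (XT.nd (nat_lit 94) (nat_lit 0) (nat_lit 0) (XT.lf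 (nat_lit 0) (nat_lit 43291016195) (nat_lit 0) (nat_lit 0) (nat_lit 0) (nat_lit 0) (nat_lit 0) (nat_lit 0) (nat_lit 1) (nat_lit 0) (nat_lit 1) (nat_lit 0) (nat_lit 341) (nat_lit 408) (nat_lit 331)) (XT.nd (nat_lit 94) (nat_lit 0) (nat_lit 0) (XT.lf (nat_lit 0) (nat_lit 43282479747) (nat_lit 0) (nat_lit 0) (nat_lit 0) (nat_lit 0) (nat_lit 0) (nat_lit 0) (nat_lit 1) (nat_lit 0) (nat_lit 1) (nat_lit 0) (nat_lit 342) (nat_lit 408) (nat_lit 330)) (XT.lf (nat_lit 0) (nat_lit 43274575629) (nat_lit 0) (nat_lit 0) (nat_lit 0) (nat_lit 0) (nat_lit 0) (nat_lit 0) (nat_lit 1) (nat_lit 0) (nat_lit 1) (nat_lit 0) (nat_lit 343) (nat_lit 408) (nat_lit 329))))) (XT.nd (nat_lit 188) (nat_lit 0) (nat_lit 0) (XT.nd (nat_lit 94) (nat_lit 0) (nat_lit 0) (XT.lf (nat_lit 0) (nat_lit 43267257001) (nat_lit 0) (nat_lit 0) (nat_lit 0) (nat_lit 0) (nat_lit 0) (nat_lit 0) (nat_lit 1) (nat_lit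 0) (nat_lit 1) (nat_lit 0) (nat_lit 344) (nat_lit 408) (nat_lit 328)) (XT.lf (nat_lit 0) (nat_lit 43260480493) (nat_lit 0) (nat_lit 0) (nat_lit 0) (nat_lit 0) (nat_lit 0) (nat_lit 0) (nat_lit 1) (nat_lit 0) (nat_lit 1) (nat_lit 0) (nat_lit 345) (nat_lit 408) (nat_lit 327))) (XT.nd (nat_lit 94) (nat_lit 0) (nat_lit 0) (XT.lf (nat_lit 0) (nat_lit 43254205949) (nat_lit 0) (nat_lit 0) (nat_lit 0) (nat_lit 0) (nat_lit 0) (nat_lit 0) (nat_lit 1) (nat_lit 0) (nat_lit 1) (nat_lit 0) (nat_lit 346) (nat_lit 408) (nat_lit 326)) (XT.nd (nat_lit 94) (nat_lit 0) (nat_lit 0) (XT.lf (nat_lit 0) (nat_lit 43248396186) (nat_lit 0) (nat_lit 0) (nat_lit 0) (nat_lit 0) (nat_lit 0) (nat_lit 0) (nat_lit 1) (nat_lit 0) (nat_lit 1) (nat_lit 0) (nat_lit 347) (nat_lit 408) (nat_lit 325)) (XT.lf (nat_lit 0) (nat_lit 43243016776) (nat_lit 0) (nat_lit 0) (nat_lit 0) (nat_lit 0) (nat_lit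 0) (nat_lit 0) (nat_lit 1) (nat_lit 0) (nat_lit 1) (nat_lit 0) (nat_lit 348) (nat_lit 408) (nat_lit 324))))))))
noncomputable def ec188 : XT := (XT.nd (nat_lit 1692) (nat_lit 0) (nat_lit 0) (XT.nd (nat_lit 846) (nat_lit 0) (nat_lit 0) (XT.nd (nat_lit 376) (nat_lit 0) (nat_lit 0) (XT.nd (nat_lit 188) (nat_lit 0) (nat_lit 0) (XT.nd (nat_lit 94) (nat_lit 0) (nat_lit 0) (XT.lf (nat_lit 0) (nat_lit 43238035841) (nat_lit 0) (nat_lit 0) (nat_lit 0) (nat_lit 0) (nat_lit 0) (nat_lit 0) (nat_lit 1) (nat_lit 0) (nat_lit 1) (nat_lit 0) (nat_lit 349) (nat_lit 408) (nat_lit 323)) (XT.lf (nat_lit 0) (nat_lit 43233423864) (nat_lit 0) (nat_lit 0) (nat_lit 0) (nat_lit 0) (nat_lit 0) (nat_lit 0) (nat_lit 1) (nat_lit 0) (nat_lit 1) (nat_lit 0) (nat_lit 350) (nat_lit 408) (nat_lit 322))) (XT.nd (nat_lit 94) (nat_lit 0) (nat_lit 0) (XT.lf (nat_lit 0) (nat_lit 43229153514) (nat_lit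 0) (nat_lit 0) (nat_lit 0) (nat_lit 0) (nat_lit 0) (nat_lit 0) (nat_lit 1) (nat_lit 0) (nat_lit 1) (nat_lit 0) (nat_lit 351) (nat_lit 408) (nat_lit 321)) (XT.lf (nat_lit 0) (nat_lit 43225199487) (nat_lit 0) (nat_lit 0) (nat_lit 0) (nat_lit 0) (nat_lit 0) (nat_lit 0) (nat_lit 1) (nat_lit 0) (nat_lit 1) (nat_lit 0) (nat_lit 352) (nat_lit 408) (nat_lit 320)))) (XT.nd (nat_lit 188) (nat_lit 0) (nat_lit 0) (XT.nd (nat_lit 94) (nat_lit 0) (nat_lit 0) (XT.lf (nat_lit 0) (nat_lit 43221538351) (nat_lit 0) (nat_lit 0) (nat_lit 0) (nat_lit 0) (nat_lit 0) (nat_lit 0) (nat_lit 1) (nat_lit 0) (nat_lit 1) (nat_lit 0) (nat_lit 353) (nat_lit 408) (nat_lit 319)) (XT.lf (nat_lit 0) (nat_lit 43218148410) (nat_lit 0) (nat_lit 0) (nat_lit 0) (nat_lit 0) (nat_lit 0) (nat_lit 0) (nat_lit 1) (nat_lit 0) (nat_lit 1) (nat_lit 0) (nat_lit 354) (nat_lit 408) (nat_lit 318))) (XT.nd (nat_lit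 94) (nat_lit 0) (nat_lit 0) (XT.lf (nat_lit 0) (nat_lit 43215009576) (nat_lit 0) (nat_lit 0) (nat_lit 0) (nat_lit 0) (nat_lit 0) (nat_lit 0) (nat_lit 1) (nat_lit 0) (nat_lit 1) (nat_lit 0) (nat_lit 355) (nat_lit 408) (nat_lit 317)) (XT.nd (nat_lit 94) (nat_lit 0) (nat_lit 0) (XT.lf (nat_lit 0) (nat_lit 43212103248) (nat_lit 0) (nat_lit 0) (nat_lit 0) (nat_lit 0) (nat_lit 0) (nat_lit 0) (nat_lit 1) (nat_lit 0) (nat_lit 1) (nat_lit 0) (nat_lit 356) (nat_lit 408) (nat_lit 316)) (XT.lf (nat_lit 0) (nat_lit 43209412204) (nat_lit 0) (nat_lit 0) (nat_lit 0) (nat_lit 0) (nat_lit 0) (nat_lit 0) (nat_lit 1) (nat_lit 0) (nat_lit 1) (nat_lit 0) (nat_lit 357) (nat_lit 408) (nat_lit 315)))))) (XT.nd (nat_lit 376) (nat_lit 0) (nat_lit 0) (XT.nd (nat_lit 188) (nat_lit 0) (nat_lit 0) (XT.nd (nat_lit 94) (nat_lit 0) (nat_lit 0) (XT.lf (nat_lit 0) (nat_lit 43206920496) (nat_lit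 0) (nat_lit 0) (nat_lit 0) (nat_lit 0) (nat_lit 0) (nat_lit 0) (nat_lit 1) (nat_lit 0) (nat_lit 1) (nat_lit 0) (nat_lit 358) (nat_lit 408) (nat_lit 314)) (XT.lf (nat_lit 0) (nat_lit 43204613359) (nat_lit 0) (nat_lit 0) (nat_lit 0) (nat_lit 0) (nat_lit 0) (nat_lit 0) (nat_lit 1) (nat_lit 0) (nat_lit 1) (nat_lit 0) (nat_lit 359) (nat_lit 408) (nat_lit 313))) (XT.nd (nat_lit 94) (nat_lit 0) (nat_lit 0) (XT.lf (nat_lit 0) (nat_lit 43202477121) (nat_lit 0) (nat_lit 0) (nat_lit 0) (nat_lit 0) (nat_lit 0) (nat_lit 0) (nat_lit 1) (nat_lit 0) (nat_lit 1) (nat_lit 0) (nat_lit 360) (nat_lit 408) (nat_lit 312)) (XT.lf (nat_lit 0) (nat_lit 43200499123) (nat_lit 0) (nat_lit 0) (nat_lit 0) (nat_lit 0) (nat_lit 0) (nat_lit 0) (nat_lit 1) (nat_lit 0) (nat_lit 1) (nat_lit 0) (nat_lit 361) (nat_lit 408) (nat_lit 311)))) (XT.nd (nat_lit 188) (nat_lit 0) (nat_lit 0) (XT.nd (nat_lit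 94) (nat_lit 0) (nat_lit 0) (XT.lf (nat_lit 0) (nat_lit 43198667644) (nat_lit 0) (nat_lit 0) (nat_lit 0) (nat_lit 0) (nat_lit 0) (nat_lit 0) (nat_lit 1) (nat_lit 0) (nat_lit 1) (nat_lit 0) (nat_lit 362) (nat_lit 408) (nat_lit 310)) (XT.lf (nat_lit 0) (nat_lit 43196971829) (nat_lit 0) (nat_lit 0) (nat_lit 0) (nat_lit 0) (nat_lit 0) (nat_lit 0) (nat_lit 1) (nat_lit 0) (nat_lit 1) (nat_lit 0) (nat_lit 363) (nat_lit 408) (nat_lit 309))) (XT.nd (nat_lit 94) (nat_lit 0) (nat_lit 0) (XT.lf (nat_lit 0) (nat_lit 43195401631) (nat_lit 0) (nat_lit 0) (nat_lit 0) (nat_lit 0) (nat_lit 0) (nat_lit 0) (nat_lit 1) (nat_lit 0) (nat_lit 1) (nat_lit 0) (nat_lit 364) (nat_lit 408) (nat_lit 308)) (XT.nd (nat_lit 94) (nat_lit 0) (nat_lit 0) (XT.lf (nat_lit 0) (nat_lit 43193947743) (nat_lit 0) (nat_lit 0) (nat_lit 0) (nat_lit 0) (nat_lit 0) (nat_lit 0) (nat_lit 1) (nat_lit 0) (nat_lit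 1) (nat_lit 0) (nat_lit 365) (nat_lit 408) (nat_lit 307)) (XT.lf (nat_lit 0) (nat_lit 43192601551) (nat_lit 0) (nat_lit 0) (nat_lit 0) (nat_lit 0) (nat_lit 0) (nat_lit 0) (nat_lit 1) (nat_lit 0) (nat_lit 1) (nat_lit 0) (nat_lit 366) (nat_lit 408) (nat_lit 306))))))) (XT.nd (nat_lit 846) (nat_lit 0) (nat_lit 0) (XT.nd (nat_lit 376) (nat_lit 0) (nat_lit 0) (XT.nd (nat_lit 188) (nat_lit 0) (nat_lit 0) (XT.nd (nat_lit 94) (nat_lit 0) (nat_lit 0) (XT.lf (nat_lit 0) (nat_lit 43191355077) (nat_lit 0) (nat_lit 0) (nat_lit 0) (nat_lit 0) (nat_lit 0) (nat_lit 0) (nat_lit 1) (nat_lit 0) (nat_lit 1) (nat_lit 0) (nat_lit 367) (nat_lit 408) (nat_lit 305)) (XT.lf (nat_lit 0) (nat_lit 43190200934) (nat_lit 0) (nat_lit 0) (nat_lit 0) (nat_lit 0) (nat_lit 0) (nat_lit 0) (nat_lit 1) (nat_lit 0) (nat_lit 1) (nat_lit 0) (nat_lit 368) (nat_lit 408) (nat_lit 304))) (XT.nd (nat_lit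 94) (nat_lit 0) (nat_lit 0) (XT.lf (nat_lit 0) (nat_lit 43189132283) (nat_lit 0) (nat_lit 0) (nat_lit 0) (nat_lit 0) (nat_lit 0) (nat_lit 0) (nat_lit 1) (nat_lit 0) (nat_lit 1) (nat_lit 0) (nat_lit 369) (nat_lit 408) (nat_lit 303)) (XT.lf (nat_lit 0) (nat_lit 43188142792) (nat_lit 0) (nat_lit 0) (nat_lit 0) (nat_lit 0) (nat_lit 0) (nat_lit 0) (nat_lit 1) (nat_lit 0) (nat_lit 1) (nat_lit 0) (nat_lit 370) (nat_lit 408) (nat_lit 302)))) (XT.nd (nat_lit 188) (nat_lit 0) (nat_lit 0) (XT.nd (nat_lit 94) (nat_lit 0) (nat_lit 0) (XT.lf (nat_lit 0) (nat_lit 43187226596) (nat_lit 0) (nat_lit 0) (nat_lit 0) (nat_lit 0) (nat_lit 0) (nat_lit 0) (nat_lit 1) (nat_lit 0) (nat_lit 1) (nat_lit 0) (nat_lit 371) (nat_lit 408) (nat_lit 301)) (XT.lf (nat_lit 0) (nat_lit 43186378267) (nat_lit 0) (nat_lit 0) (nat_lit 0) (nat_lit 0) (nat_lit 0) (nat_lit 0) (nat_lit 1) (nat_lit 0)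 (nat_lit 1) (nat_lit 0) (nat_lit 372) (nat_lit 408) (nat_lit 300))) (XT.nd (nat_lit 94) (nat_lit 0) (nat_lit 0) (XT.lf (nat_lit 0) (nat_lit 43185592777) (nat_lit 0) (nat_lit 0) (nat_lit 0) (nat_lit 0) (nat_lit 0) (nat_lit 0) (nat_lit 1) (nat_lit 0) (nat_lit 1) (nat_lit 0) (nat_lit 373) (nat_lit 408) (nat_lit 299)) (XT.nd (nat_lit 94) (nat_lit 0) (nat_lit 0) (XT.lf (nat_lit 0) (nat_lit 43184865471) (nat_lit 0) (nat_lit 0) (nat_lit 0) (nat_lit 0) (nat_lit 0) (nat_lit 0) (nat_lit 1) (nat_lit 0) (nat_lit 1) (nat_lit 0) (nat_lit 374) (nat_lit 408) (nat_lit 298)) (XT.lf (nat_lit 0) (nat_lit 43184192040) (nat_lit 0) (nat_lit 0) (nat_lit 0) (nat_lit 0) (nat_lit 0) (nat_lit 0) (nat_lit 1) (nat_lit 0) (nat_lit 1) (nat_lit 0) (nat_lit 375) (nat_lit 408) (nat_lit 297)))))) (XT.nd (nat_lit 470) (nat_lit 0) (nat_lit 0) (XT.nd (nat_lit 188) (nat_lit 0) (nat_lit 0) (XT.nd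 (nat_lit 94) (nat_lit 0) (nat_lit 0) (XT.lf (nat_lit 0) (nat_lit 43183568492) (nat_lit 0) (nat_lit 0) (nat_lit 0) (nat_lit 0) (nat_lit 0) (nat_lit 0) (nat_lit 1) (nat_lit 0) (nat_lit 1) (nat_lit 0) (nat_lit 376) (nat_lit 408) (nat_lit 296)) (XT.lf (nat_lit 0) (nat_lit 43182991133) (nat_lit 0) (nat_lit 0) (nat_lit 0) (nat_lit 0) (nat_lit 0) (nat_lit 0) (nat_lit 1) (nat_lit 0) (nat_lit 1) (nat_lit 0) (nat_lit 377) (nat_lit 408) (nat_lit 295))) (XT.nd (nat_lit 94) (nat_lit 0) (nat_lit 0) (XT.lf (nat_lit 0) (nat_lit 43182456542) (nat_lit 0) (nat_lit 0) (nat_lit 0) (nat_lit 0) (nat_lit 0) (nat_lit 0) (nat_lit 1) (nat_lit 0) (nat_lit 1) (nat_lit 0) (nat_lit 378) (nat_lit 408) (nat_lit 294)) (XT.nd (nat_lit 94) (nat_lit 0) (nat_lit 0) (XT.lf (nat_lit 0) (nat_lit 43181961550) (nat_lit 0) (nat_lit 0) (nat_lit 0) (nat_lit 0) (nat_lit 0) (nat_lit 0) (nat_lit 1) (nat_lit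 0) (nat_lit 1) (nat_lit 0) (nat_lit 379) (nat_lit 408) (nat_lit 293)) (XT.lf (nat_lit 0) (nat_lit 43181503224) (nat_lit 0) (nat_lit 0) (nat_lit 0) (nat_lit 0) (nat_lit 0) (nat_lit 0) (nat_lit 1) (nat_lit 0) (nat_lit 1) (nat_lit 0) (nat_lit 380) (nat_lit 408) (nat_lit 292))))) (XT.nd (nat_lit 188) (nat_lit 0) (nat_lit 0) (XT.nd (nat_lit 94) (nat_lit 0) (nat_lit 0) (XT.lf (nat_lit 0) (nat_lit 43181078848) (nat_lit 0) (nat_lit 0) (nat_lit 0) (nat_lit 0) (nat_lit 0) (nat_lit 0) (nat_lit 1) (nat_lit 0) (nat_lit 1) (nat_lit 0) (nat_lit 381) (nat_lit 408) (nat_lit 291)) (XT.lf (nat_lit 0) (nat_lit 43180685907) (nat_lit 0) (nat_lit 0) (nat_lit 0) (nat_lit 0) (nat_lit 0) (nat_lit 0) (nat_lit 1) (nat_lit 0) (nat_lit 1) (nat_lit 0) (nat_lit 382) (nat_lit 408) (nat_lit 290))) (XT.nd (nat_lit 94) (nat_lit 0) (nat_lit 0) (XT.lf (nat_lit 0) (nat_lit 43180322073) (nat_lit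 0) (nat_lit 0) (nat_lit 0) (nat_lit 0) (nat_lit 0) (nat_lit 0) (nat_lit 1) (nat_lit 0) (nat_lit 1) (nat_lit 0) (nat_lit 383) (nat_lit 408) (nat_lit 289)) (XT.nd (nat_lit 94) (nat_lit 0) (nat_lit 0) (XT.lf (nat_lit 0) (nat_lit 43179985190) (nat_lit 0) (nat_lit 0) (nat_lit 0) (nat_lit 0) (nat_lit 0) (nat_lit 0) (nat_lit 1) (nat_lit 0) (nat_lit 1) (nat_lit 0) (nat_lit 384) (nat_lit 408) (nat_lit 288)) (XT.lf (nat_lit 0) (nat_lit 43179673261) (nat_lit 0) (nat_lit 0) (nat_lit 0) (nat_lit 0) (nat_lit 0) (nat_lit 0) (nat_lit 1) (nat_lit 0) (nat_lit 1) (nat_lit 0) (nat_lit 385) (nat_lit 408) (nat_lit 287))))))))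
noncomputable def ec189 : XT := (XT.nd (nat_lit 1786) (nat_lit 0) (nat_lit 0) (XT.nd (nat_lit 846) (nat_lit 0) (nat_lit 0) (XT.nd (nat_lit 376) (nat_lit 0) (nat_lit 0) (XT.nd (nat_lit 188) (nat_lit 0) (nat_lit 0) (XT.nd (nat_lit 94) (nat_lit 0) (nat_lit 0) (XT.lf (nat_lit 0) (nat_lit 43179384438) (nat_lit 0) (nat_lit 0) (nat_lit 0) (nat_lit 0) (nat_lit 0) (nat_lit 0) (nat_lit 1) (nat_lit 0) (nat_lit 1) (nat_lit 0) (nat_lit 386) (nat_lit 408) (nat_lit 286)) (XT.lf (nat_lit 0) (nat_lit 43179117009) (nat_lit 0) (nat_lit 0) (nat_lit 0) (nat_lit 0) (nat_lit 0) (nat_lit 0) (nat_lit 1) (nat_lit 0) (nat_lit 1) (nat_lit 0) (nat_lit 387) (nat_lit 408) (nat_lit 285))) (XT.nd (nat_lit 94) (nat_lit 0) (nat_lit 0) (XT.lf (nat_lit 0) (nat_lit 43178869390) (nat_lit 0) (nat_lit 0) (nat_lit 0) (nat_lit 0) (nat_lit 0) (nat_lit 0) (nat_lit 1) (nat_lit 0) (nat_lit 1) (nat_lit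 0) (nat_lit 388) (nat_lit 408) (nat_lit 284)) (XT.lf (nat_lit 0) (nat_lit 43178640113) (nat_lit 0) (nat_lit 0) (nat_lit 0) (nat_lit 0) (nat_lit 0) (nat_lit 0) (nat_lit 1) (nat_lit 0) (nat_lit 1) (nat_lit 0) (nat_lit 389) (nat_lit 408) (nat_lit 283)))) (XT.nd (nat_lit 188) (nat_lit 0) (nat_lit 0) (XT.nd (nat_lit 94) (nat_lit 0) (nat_lit 0) (XT.lf (nat_lit 0) (nat_lit 43178427819) (nat_lit 0) (nat_lit 0) (nat_lit 0) (nat_lit 0) (nat_lit 0) (nat_lit 0) (nat_lit 1) (nat_lit 0) (nat_lit 1) (nat_lit 0) (nat_lit 390) (nat_lit 408) (nat_lit 282)) (XT.lf (nat_lit 0) (nat_lit 43178231251) (nat_lit 0) (nat_lit 0) (nat_lit 0) (nat_lit 0) (nat_lit 0) (nat_lit 0) (nat_lit 1) (nat_lit 0) (nat_lit 1) (nat_lit 0) (nat_lit 391) (nat_lit 408) (nat_lit 281))) (XT.nd (nat_lit 94) (nat_lit 0) (nat_lit 0) (XT.lf (nat_lit 0) (nat_lit 43178049243) (nat_lit 0) (nat_lit 0) (nat_lit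 0) (nat_lit 0) (nat_lit 0) (nat_lit 0) (nat_lit 1) (nat_lit 0) (nat_lit 1) (nat_lit 0) (nat_lit 392) (nat_lit 408) (nat_lit 280)) (XT.nd (nat_lit 94) (nat_lit 0) (nat_lit 0) (XT.lf (nat_lit 0) (nat_lit 43177880718) (nat_lit 0) (nat_lit 0) (nat_lit 0) (nat_lit 0) (nat_lit 0) (nat_lit 0) (nat_lit 1) (nat_lit 0) (nat_lit 1) (nat_lit 0) (nat_lit 393) (nat_lit 408) (nat_lit 279)) (XT.lf (nat_lit 0) (nat_lit 43177724676) (nat_lit 0) (nat_lit 0) (nat_lit 0) (nat_lit 0) (nat_lit 0) (nat_lit 0) (nat_lit 1) (nat_lit 0) (nat_lit 1) (nat_lit 0) (nat_lit 394) (nat_lit 408) (nat_lit 278)))))) (XT.nd (nat_lit 470) (nat_lit 0) (nat_lit 0) (XT.nd (nat_lit 188) (nat_lit 0) (nat_lit 0) (XT.nd (nat_lit 94) (nat_lit 0) (nat_lit 0) (XT.lf (nat_lit 0) (nat_lit 43177580192) (nat_lit 0) (nat_lit 0) (nat_lit 0) (nat_lit 0) (nat_lit 0) (nat_lit 0) (nat_lit 1) (nat_lit 0) (nat_lit 1)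 (nat_lit 0) (nat_lit 395) (nat_lit 408) (nat_lit 277)) (XT.lf (nat_lit 0) (nat_lit 43177446411) (nat_lit 0) (nat_lit 0) (nat_lit 0) (nat_lit 0) (nat_lit 0) (nat_lit 0) (nat_lit 1) (nat_lit 0) (nat_lit 1) (nat_lit 0) (nat_lit 396) (nat_lit 408) (nat_lit 276))) (XT.nd (nat_lit 94) (nat_lit 0) (nat_lit 0) (XT.lf (nat_lit 0) (nat_lit 43177322540) (nat_lit 0) (nat_lit 0) (nat_lit 0) (nat_lit 0) (nat_lit 0) (nat_lit 0) (nat_lit 1) (nat_lit 0) (nat_lit 1) (nat_lit 0) (nat_lit 397) (nat_lit 408) (nat_lit 275)) (XT.nd (nat_lit 94) (nat_lit 0) (nat_lit 0) (XT.lf (nat_lit 0) (nat_lit 43177207844) (nat_lit 0) (nat_lit 0) (nat_lit 0) (nat_lit 0) (nat_lit 0) (nat_lit 0) (nat_lit 1) (nat_lit 0) (nat_lit 1) (nat_lit 0) (nat_lit 398) (nat_lit 408) (nat_lit 274)) (XT.lf (nat_lit 0) (nat_lit 43177101645) (nat_lit 0) (nat_lit 0) (nat_lit 0) (nat_lit 0) (nat_lit 0) (nat_lit 0)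 (nat_lit 1) (nat_lit 0) (nat_lit 1) (nat_lit 0) (nat_lit 399) (nat_lit 408) (nat_lit 273))))) (XT.nd (nat_lit 188) (nat_lit 0) (nat_lit 0) (XT.nd (nat_lit 94) (nat_lit 0) (nat_lit 0) (XT.lf (nat_lit 0) (nat_lit 43177003312) (nat_lit 0) (nat_lit 0) (nat_lit 0) (nat_lit 0) (nat_lit 0) (nat_lit 0) (nat_lit 1) (nat_lit 0) (nat_lit 1) (nat_lit 0) (nat_lit 400) (nat_lit 408) (nat_lit 272)) (XT.lf (nat_lit 0) (nat_lit 43176912263) (nat_lit 0) (nat_lit 0) (nat_lit 0) (nat_lit 0) (nat_lit 0) (nat_lit 0) (nat_lit 1) (nat_lit 0) (nat_lit 1) (nat_lit 0) (nat_lit 401) (nat_lit 408) (nat_lit 271))) (XT.nd (nat_lit 94) (nat_lit 0) (nat_lit 0) (XT.lf (nat_lit 0) (nat_lit 43176827958) (nat_lit 0) (nat_lit 0) (nat_lit 0) (nat_lit 0) (nat_lit 0) (nat_lit 0) (nat_lit 1) (nat_lit 0) (nat_lit 1) (nat_lit 0) (nat_lit 402) (nat_lit 408) (nat_lit 270)) (XT.nd (nat_lit 94) (nat_lit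 0) (nat_lit 0) (XT.lf (nat_lit 0) (nat_lit 43176749898) (nat_lit 0) (nat_lit 0) (nat_lit 0) (nat_lit 0) (nat_lit 0) (nat_lit 0) (nat_lit 1) (nat_lit 0) (nat_lit 1) (nat_lit 0) (nat_lit 403) (nat_lit 408) (nat_lit 269)) (XT.lf (nat_lit 0) (nat_lit 43176677620) (nat_lit 0) (nat_lit 0) (nat_lit 0) (nat_lit 0) (nat_lit 0) (nat_lit 0) (nat_lit 1) (nat_lit 0) (nat_lit 1) (nat_lit 0) (nat_lit 404) (nat_lit 408) (nat_lit 268))))))) (XT.nd (nat_lit 846) (nat_lit 0) (nat_lit 0) (XT.nd (nat_lit 376) (nat_lit 0) (nat_lit 0) (XT.nd (nat_lit 188) (nat_lit 0) (nat_lit 0) (XT.nd (nat_lit 94) (nat_lit 0) (nat_lit 0) (XT.lf (nat_lit 0) (nat_lit 43176610697) (nat_lit 0) (nat_lit 0) (nat_lit 0) (nat_lit 0) (nat_lit 0) (nat_lit 0) (nat_lit 1) (nat_lit 0) (nat_lit 1) (nat_lit 0) (nat_lit 405) (nat_lit 408) (nat_lit 267)) (XT.lf (nat_lit 0) (nat_lit 43176548730) (nat_lit 0) (nat_lit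 0) (nat_lit 0) (nat_lit 0) (nat_lit 0) (nat_lit 0) (nat_lit 1) (nat_lit 0) (nat_lit 1) (nat_lit 0) (nat_lit 406) (nat_lit 408) (nat_lit 266))) (XT.nd (nat_lit 94) (nat_lit 0) (nat_lit 0) (XT.lf (nat_lit 0) (nat_lit 43176491354) (nat_lit 0) (nat_lit 0) (nat_lit 0) (nat_lit 0) (nat_lit 0) (nat_lit 0) (nat_lit 1) (nat_lit 0) (nat_lit 1) (nat_lit 0) (nat_lit 407) (nat_lit 408) (nat_lit 265)) (XT.lf (nat_lit 0) (nat_lit 43176438227) (nat_lit 0) (nat_lit 0) (nat_lit 0) (nat_lit 0) (nat_lit 0) (nat_lit 0) (nat_lit 1) (nat_lit 0) (nat_lit 1) (nat_lit 0) (nat_lit 408) (nat_lit 408) (nat_lit 264)))) (XT.nd (nat_lit 188) (nat_lit 0) (nat_lit 0) (XT.nd (nat_lit 94) (nat_lit 0) (nat_lit 0) (XT.lf (nat_lit 0) (nat_lit 43176389036) (nat_lit 0) (nat_lit 0) (nat_lit 0) (nat_lit 0) (nat_lit 0) (nat_lit 0) (nat_lit 1) (nat_lit 0) (nat_lit 1) (nat_lit 0) (nat_lit 409) (nat_lit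 408) (nat_lit 263)) (XT.lf (nat_lit 0) (nat_lit 43176343489) (nat_lit 0) (nat_lit 0) (nat_lit 0) (nat_lit 0) (nat_lit 0) (nat_lit 0) (nat_lit 1) (nat_lit 0) (nat_lit 1) (nat_lit 0) (nat_lit 410) (nat_lit 408) (nat_lit 262))) (XT.nd (nat_lit 94) (nat_lit 0) (nat_lit 0) (XT.lf (nat_lit 0) (nat_lit 43176301316) (nat_lit 0) (nat_lit 0) (nat_lit 0) (nat_lit 0) (nat_lit 0) (nat_lit 0) (nat_lit 1) (nat_lit 0) (nat_lit 1) (nat_lit 0) (nat_lit 411) (nat_lit 408) (nat_lit 261)) (XT.nd (nat_lit 94) (nat_lit 0) (nat_lit 0) (XT.lf (nat_lit 0) (nat_lit 43176262266) (nat_lit 0) (nat_lit 0) (nat_lit 0) (nat_lit 0) (nat_lit 0) (nat_lit 0) (nat_lit 1) (nat_lit 0) (nat_lit 1) (nat_lit 0) (nat_lit 412) (nat_lit 408) (nat_lit 260)) (XT.lf (nat_lit 0) (nat_lit 43176226110) (nat_lit 0) (nat_lit 0) (nat_lit 0) (nat_lit 0) (nat_lit 0) (nat_lit 0) (nat_lit 1) (nat_lit 0) (nat_lit 1)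 (nat_lit 0) (nat_lit 413) (nat_lit 408) (nat_lit 259)))))) (XT.nd (nat_lit 470) (nat_lit 0) (nat_lit 0) (XT.nd (nat_lit 188) (nat_lit 0) (nat_lit 0) (XT.nd (nat_lit 94) (nat_lit 0) (nat_lit 0) (XT.lf (nat_lit 0) (nat_lit 43176192631) (nat_lit 0) (nat_lit 0) (nat_lit 0) (nat_lit 0) (nat_lit 0) (nat_lit 0) (nat_lit 1) (nat_lit 0) (nat_lit 1) (nat_lit 0) (nat_lit 414) (nat_lit 408) (nat_lit 258)) (XT.lf (nat_lit 0) (nat_lit 43176161632) (nat_lit 0) (nat_lit 0) (nat_lit 0) (nat_lit 0) (nat_lit 0) (nat_lit 0) (nat_lit 1) (nat_lit 0) (nat_lit 1) (nat_lit 0) (nat_lit 415) (nat_lit 408) (nat_lit 257))) (XT.nd (nat_lit 94) (nat_lit 0) (nat_lit 0) (XT.lf (nat_lit 0) (nat_lit 43176132930) (nat_lit 0) (nat_lit 0) (nat_lit 0) (nat_lit 0) (nat_lit 0) (nat_lit 0) (nat_lit 1) (nat_lit 0) (nat_lit 1) (nat_lit 0) (nat_lit 416) (nat_lit 408) (nat_lit 256)) (XT.nd (nat_lit 94)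 (nat_lit 0) (nat_lit 0) (XT.lf (nat_lit 0) (nat_lit 43176106354) (nat_lit 0) (nat_lit 0) (nat_lit 0) (nat_lit 0) (nat_lit 0) (nat_lit 0) (nat_lit 1) (nat_lit 0) (nat_lit 1) (nat_lit 0) (nat_lit 417) (nat_lit 408) (nat_lit 255)) (XT.lf (nat_lit 0) (nat_lit 43176081746) (nat_lit 0) (nat_lit 0) (nat_lit 0) (nat_lit 0) (nat_lit 0) (nat_lit 0) (nat_lit 1) (nat_lit 0) (nat_lit 1) (nat_lit 0) (nat_lit 418) (nat_lit 408) (nat_lit 254))))) (XT.nd (nat_lit 188) (nat_lit 0) (nat_lit 0) (XT.nd (nat_lit 94) (nat_lit 0) (nat_lit 0) (XT.lf (nat_lit 0) (nat_lit 43176058961) (nat_lit 0) (nat_lit 0) (nat_lit 0) (nat_lit 0) (nat_lit 0) (nat_lit 0) (nat_lit 1) (nat_lit 0) (nat_lit 1) (nat_lit 0) (nat_lit 419) (nat_lit 408) (nat_lit 253)) (XT.lf (nat_lit 0) (nat_lit 43176037864) (nat_lit 0) (nat_lit 0) (nat_lit 0) (nat_lit 0) (nat_lit 0) (nat_lit 0) (nat_lit 1) (nat_lit 0) (nat_lit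 1) (nat_lit 0) (nat_lit 420) (nat_lit 408) (nat_lit 252))) (XT.nd (nat_lit 94) (nat_lit 0) (nat_lit 0) (XT.lf (nat_lit 0) (nat_lit 43176018329) (nat_lit 0) (nat_lit 0) (nat_lit 0) (nat_lit 0) (nat_lit 0) (nat_lit 0) (nat_lit 1) (nat_lit 0) (nat_lit 1) (nat_lit 0) (nat_lit 421) (nat_lit 408) (nat_lit 251)) (XT.nd (nat_lit 94) (nat_lit 0) (nat_lit 0) (XT.lf (nat_lit 0) (nat_lit 43176000242) (nat_lit 0) (nat_lit 0) (nat_lit 0) (nat_lit 0) (nat_lit 0) (nat_lit 0) (nat_lit 1) (nat_lit 0) (nat_lit 1) (nat_lit 0) (nat_lit 422) (nat_lit 408) (nat_lit 250)) (XT.lf (nat_lit 0) (nat_lit 43175983494) (nat_lit 0) (nat_lit 0) (nat_lit 0) (nat_lit 0) (nat_lit 0) (nat_lit 0) (nat_lit 1) (nat_lit 0) (nat_lit 1) (nat_lit 0) (nat_lit 423) (nat_lit 408) (nat_lit 249))))))))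
noncomputable def ec190 : XT := (XT.nd (nat_lit 52546) (nat_lit 0) (nat_lit 6552) (XT.nd (nat_lit 846) (nat_lit 0) (nat_lit 0) (XT.nd (nat_lit 376) (nat_lit 0) (nat_lit 0) (XT.nd (nat_lit 188) (nat_lit 0) (nat_lit 0) (XT.nd (nat_lit 94) (nat_lit 0) (nat_lit 0) (XT.lf (nat_lit 0) (nat_lit 43175967987) (nat_lit 0) (nat_lit 0) (nat_lit 0) (nat_lit 0) (nat_lit 0) (nat_lit 0) (nat_lit 1) (nat_lit 0) (nat_lit 1) (nat_lit 0) (nat_lit 424) (nat_lit 408) (nat_lit 248)) (XT.lf (nat_lit 0) (nat_lit 43175953629) (nat_lit 0) (nat_lit 0) (nat_lit 0) (nat_lit 0) (nat_lit 0) (nat_lit 0) (nat_lit 1) (nat_lit 0) (nat_lit 1) (nat_lit 0) (nat_lit 425) (nat_lit 408) (nat_lit 247))) (XT.nd (nat_lit 94) (nat_lit 0) (nat_lit 0) (XT.lf (nat_lit 0) (nat_lit 43175940334) (nat_lit 0) (nat_lit 0) (nat_lit 0) (nat_lit 0) (nat_lit 0) (nat_lit 0) (nat_lit 1) (nat_lit 0) (nat_lit 1) (nat_lit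 0) (nat_lit 426) (nat_lit 408) (nat_lit 246)) (XT.lf (nat_lit 0) (nat_lit 43175928024) (nat_lit 0) (nat_lit 0) (nat_lit 0) (nat_lit 0) (nat_lit 0) (nat_lit 0) (nat_lit 1) (nat_lit 0) (nat_lit 1) (nat_lit 0) (nat_lit 427) (nat_lit 408) (nat_lit 245)))) (XT.nd (nat_lit 188) (nat_lit 0) (nat_lit 0) (XT.nd (nat_lit 94) (nat_lit 0) (nat_lit 0) (XT.lf (nat_lit 0) (nat_lit 43175916626) (nat_lit 0) (nat_lit 0) (nat_lit 0) (nat_lit 0) (nat_lit 0) (nat_lit 0) (nat_lit 1) (nat_lit 0) (nat_lit 1) (nat_lit 0) (nat_lit 428) (nat_lit 408) (nat_lit 244)) (XT.lf (nat_lit 0) (nat_lit 43175906072) (nat_lit 0) (nat_lit 0) (nat_lit 0) (nat_lit 0) (nat_lit 0) (nat_lit 0) (nat_lit 1) (nat_lit 0) (nat_lit 1) (nat_lit 0) (nat_lit 429) (nat_lit 408) (nat_lit 243))) (XT.nd (nat_lit 94) (nat_lit 0) (nat_lit 0) (XT.lf (nat_lit 0) (nat_lit 43175896300) (nat_lit 0) (nat_lit 0) (nat_lit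 0) (nat_lit 0) (nat_lit 0) (nat_lit 0) (nat_lit 1) (nat_lit 0) (nat_lit 1) (nat_lit 0) (nat_lit 430) (nat_lit 408) (nat_lit 242)) (XT.nd (nat_lit 94) (nat_lit 0) (nat_lit 0) (XT.lf (nat_lit 0) (nat_lit 43175887252) (nat_lit 0) (nat_lit 0) (nat_lit 0) (nat_lit 0) (nat_lit 0) (nat_lit 0) (nat_lit 1) (nat_lit 0) (nat_lit 1) (nat_lit 0) (nat_lit 431) (nat_lit 408) (nat_lit 241)) (XT.lf (nat_lit 0) (nat_lit 43175878874) (nat_lit 0) (nat_lit 0) (nat_lit 0) (nat_lit 0) (nat_lit 0) (nat_lit 0) (nat_lit 1) (nat_lit 0) (nat_lit 1) (nat_lit 0) (nat_lit 432) (nat_lit 408) (nat_lit 240)))))) (XT.nd (nat_lit 376) (nat_lit 0) (nat_lit 0) (XT.nd (nat_lit 188) (nat_lit 0) (nat_lit 0) (XT.nd (nat_lit 94) (nat_lit 0) (nat_lit 0) (XT.lf (nat_lit 0) (nat_lit 43175871116) (nat_lit 0) (nat_lit 0) (nat_lit 0) (nat_lit 0) (nat_lit 0) (nat_lit 0) (nat_lit 1) (nat_lit 0) (nat_lit 1)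 (nat_lit 0) (nat_lit 433) (nat_lit 408) (nat_lit 239)) (XT.lf (nat_lit 0) (nat_lit 43175863934) (nat_lit 0) (nat_lit 0) (nat_lit 0) (nat_lit 0) (nat_lit 0) (nat_lit 0) (nat_lit 1) (nat_lit 0) (nat_lit 1) (nat_lit 0) (nat_lit 434) (nat_lit 408) (nat_lit 238))) (XT.nd (nat_lit 94) (nat_lit 0) (nat_lit 0) (XT.lf (nat_lit 0) (nat_lit 43175857283) (nat_lit 0) (nat_lit 0) (nat_lit 0) (nat_lit 0) (nat_lit 0) (nat_lit 0) (nat_lit 1) (nat_lit 0) (nat_lit 1) (nat_lit 0) (nat_lit 435) (nat_lit 408) (nat_lit 237)) (XT.lf (nat_lit 0) (nat_lit 43175851125) (nat_lit 0) (nat_lit 0) (nat_lit 0) (nat_lit 0) (nat_lit 0) (nat_lit 0) (nat_lit 1) (nat_lit 0) (nat_lit 1) (nat_lit 0) (nat_lit 436) (nat_lit 408) (nat_lit 236)))) (XT.nd (nat_lit 188) (nat_lit 0) (nat_lit 0) (XT.nd (nat_lit 94) (nat_lit 0) (nat_lit 0) (XT.lf (nat_lit 0) (nat_lit 43175845423) (nat_lit 0) (nat_lit 0)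 (nat_lit 0) (nat_lit 0) (nat_lit 0) (nat_lit 0) (nat_lit 1) (nat_lit 0) (nat_lit 1) (nat_lit 0) (nat_lit 437) (nat_lit 408) (nat_lit 235)) (XT.lf (nat_lit 0) (nat_lit 43175840143) (nat_lit 0) (nat_lit 0) (nat_lit 0) (nat_lit 0) (nat_lit 0) (nat_lit 0) (nat_lit 1) (nat_lit 0) (nat_lit 1) (nat_lit 0) (nat_lit 438) (nat_lit 408) (nat_lit 234))) (XT.nd (nat_lit 94) (nat_lit 0) (nat_lit 0) (XT.lf (nat_lit 0) (nat_lit 43175835255) (nat_lit 0) (nat_lit 0) (nat_lit 0) (nat_lit 0) (nat_lit 0) (nat_lit 0) (nat_lit 1) (nat_lit 0) (nat_lit 1) (nat_lit 0) (nat_lit 439) (nat_lit 408) (nat_lit 233)) (XT.nd (nat_lit 94) (nat_lit 0) (nat_lit 0) (XT.lf (nat_lit 0) (nat_lit 43175830729) (nat_lit 0) (nat_lit 0) (nat_lit 0) (nat_lit 0) (nat_lit 0) (nat_lit 0) (nat_lit 1) (nat_lit 0) (nat_lit 1) (nat_lit 0) (nat_lit 440) (nat_lit 408) (nat_lit 232)) (XT.lf (nat_lit 0) (nat_lit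 43175826537) (nat_lit 0) (nat_lit 0) (nat_lit 0) (nat_lit 0) (nat_lit 0) (nat_lit 0) (nat_lit 1) (nat_lit 0) (nat_lit 1) (nat_lit 0) (nat_lit 441) (nat_lit 408) (nat_lit 231))))))) (XT.nd (nat_lit 846) (nat_lit 3192) (nat_lit 0) (XT.nd (nat_lit 376) (nat_lit 1008) (nat_lit 0) (XT.nd (nat_lit 188) (nat_lit 0) (nat_lit 84) (XT.nd (nat_lit 94) (nat_lit 0) (nat_lit 84) (XT.lf (nat_lit 924) (nat_lit 23335316616) (nat_lit 0) (nat_lit 41431801015) (nat_lit 924) (nat_lit 23335316616) (nat_lit 139) (nat_lit 1) (nat_lit 128) (nat_lit 0) (nat_lit 139) (nat_lit 0) (nat_lit 262) (nat_lit 409) (nat_lit 409)) (XT.lf (nat_lit 924) (nat_lit 8704789122) (nat_lit 0) (nat_lit 81343182388) (nat_lit 840) (nat_lit 79553360614) (nat_lit 140) (nat_lit 1) (nat_lit 129) (nat_lit 1) (nat_lit 139) (nat_lit 1) (nat_lit 263) (nat_lit 409) (nat_lit 408))) (XT.nd (nat_lit 94) (nat_lit 0)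 (nat_lit 84) (XT.lf (nat_lit 924) (nat_lit 79948463610) (nat_lit 84) (nat_lit 54475556664) (nat_lit 0) (nat_lit 28891350292) (nat_lit 140) (nat_lit 1) (nat_lit 130) (nat_lit 1) (nat_lit 129) (nat_lit 1) (nat_lit 264) (nat_lit 409) (nat_lit 407)) (XT.lf (nat_lit 924) (nat_lit 69082022031) (nat_lit 84) (nat_lit 22830328209) (nat_lit 0) (nat_lit 65431624228) (nat_lit 141) (nat_lit 1) (nat_lit 131) (nat_lit 1) (nat_lit 130) (nat_lit 1) (nat_lit 265) (nat_lit 409) (nat_lit 406)))) (XT.nd (nat_lit 188) (nat_lit 1260) (nat_lit 0) (XT.nd (nat_lit 94) (nat_lit 0) (nat_lit 84) (XT.lf (nat_lit 924) (nat_lit 51126569452) (nat_lit 0) (nat_lit 95655394798) (nat_lit 840) (nat_lit 4889890115) (nat_lit 142) (nat_lit 1) (nat_lit 131) (nat_lit 1) (nat_lit 141) (nat_lit 1) (nat_lit 266) (nat_lit 409) (nat_lit 405)) (XT.lf (nat_lit 924) (nat_lit 12267319058) (nat_lit 0) (nat_lit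 105486646864) (nat_lit 840) (nat_lit 28516651781) (nat_lit 143) (nat_lit 1) (nat_lit 132) (nat_lit 1) (nat_lit 142) (nat_lit 1) (nat_lit 267) (nat_lit 409) (nat_lit 404))) (XT.nd (nat_lit 94) (nat_lit 1344) (nat_lit 0) (XT.lf (nat_lit 924) (nat_lit 23572797688) (nat_lit 84) (nat_lit 91676486271) (nat_lit 0) (nat_lit 25872235498) (nat_lit 143) (nat_lit 1) (nat_lit 133) (nat_lit 1) (nat_lit 132) (nat_lit 1) (nat_lit 268) (nat_lit 409) (nat_lit 403)) (XT.nd (nat_lit 94) (nat_lit 588) (nat_lit 0) (XT.lf (nat_lit 924) (nat_lit 4841315113) (nat_lit 0) (nat_lit 68534237654) (nat_lit 840) (nat_lit 62845177838) (nat_lit 134) (nat_lit 1) (nat_lit 123) (nat_lit 1) (nat_lit 133) (nat_lit 1) (nat_lit 269) (nat_lit 409) (nat_lit 402)) (XT.lf (nat_lit 84) (nat_lit 33522274330) (nat_lit 0) (nat_lit 14526761467) (nat_lit 588) (nat_lit 83502953574) (nat_lit 117) (nat_lit 1)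 (nat_lit 116) (nat_lit 1) (nat_lit 123) (nat_lit 1) (nat_lit 270) (nat_lit 409) (nat_lit 401)))))) (XT.nd (nat_lit 470) (nat_lit 1596) (nat_lit 0) (XT.nd (nat_lit 188) (nat_lit 756) (nat_lit 0) (XT.nd (nat_lit 94) (nat_lit 420) (nat_lit 0) (XT.lf (nat_lit 504) (nat_lit 92383168713) (nat_lit 0) (nat_lit 30072713036) (nat_lit 420) (nat_lit 4649427251) (nat_lit 117) (nat_lit 1) (nat_lit 111) (nat_lit 1) (nat_lit 116) (nat_lit 1) (nat_lit 271) (nat_lit 409) (nat_lit 400)) (XT.lf (nat_lit 504) (nat_lit 66664574283) (nat_lit 0) (nat_lit 14017021088) (nat_lit 420) (nat_lit 42168232564) (nat_lit 112) (nat_lit 1) (nat_lit 106) (nat_lit 1) (nat_lit 111) (nat_lit 1) (nat_lit 272) (nat_lit 409) (nat_lit 399))) (XT.nd (nat_lit 94) (nat_lit 420) (nat_lit 0) (XT.lf (nat_lit 420) (nat_lit 40564543215) (nat_lit 0) (nat_lit 258076137) (nat_lit 336) (nat_lit 77978066541) (nat_lit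 107) (nat_lit 1) (nat_lit 102) (nat_lit 1) (nat_lit 106) (nat_lit 1) (nat_lit 273) (nat_lit 409) (nat_lit 398)) (XT.nd (nat_lit 94) (nat_lit 420) (nat_lit 0) (XT.lf (nat_lit 84) (nat_lit 2992660290) (nat_lit 0) (nat_lit 100927006194) (nat_lit 420) (nat_lit 11018145129) (nat_lit 103) (nat_lit 1) (nat_lit 102) (nat_lit 1) (nat_lit 107) (nat_lit 1) (nat_lit 274) (nat_lit 409) (nat_lit 397)) (XT.lf (nat_lit 84) (nat_lit 77271264917) (nat_lit 0) (nat_lit 12816266084) (nat_lit 420) (nat_lit 21136350382) (nat_lit 98) (nat_lit 1) (nat_lit 97) (nat_lit 1) (nat_lit 102) (nat_lit 1) (nat_lit 275) (nat_lit 409) (nat_lit 396))))) (XT.nd (nat_lit 188) (nat_lit 924) (nat_lit 0) (XT.nd (nat_lit 94) (nat_lit 336) (nat_lit 0) (XT.lf (nat_lit 84) (nat_lit 38660771942) (nat_lit 0) (nat_lit 39258498110) (nat_lit 420) (nat_lit 29754781474) (nat_lit 94) (nat_lit 1) (nat_lit 93)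 (nat_lit 1) (nat_lit 98) (nat_lit 1) (nat_lit 276) (nat_lit 409) (nat_lit 395)) (XT.lf (nat_lit 84) (nat_lit 1908209974) (nat_lit 0) (nat_lit 65639599243) (nat_lit 420) (nat_lit 36744485163) (nat_lit 90) (nat_lit 1) (nat_lit 89) (nat_lit 1) (nat_lit 94) (nat_lit 1) (nat_lit 277) (nat_lit 409) (nat_lit 394))) (XT.nd (nat_lit 94) (nat_lit 672) (nat_lit 0) (XT.lf (nat_lit 336) (nat_lit 8617368697) (nat_lit 0) (nat_lit 58275139632) (nat_lit 252) (nat_lit 34150571133) (nat_lit 90) (nat_lit 1) (nat_lit 86) (nat_lit 1) (nat_lit 89) (nat_lit 1) (nat_lit 278) (nat_lit 409) (nat_lit 393)) (XT.nd (nat_lit 94) (nat_lit 252) (nat_lit 0) (XT.lf (nat_lit 84) (nat_lit 29775325714) (nat_lit 0) (nat_lit 20408193260) (nat_lit 420) (nat_lit 47744576530) (nat_lit 82) (nat_lit 1) (nat_lit 81) (nat_lit 1) (nat_lit 86) (nat_lit 1) (nat_lit 279) (nat_lit 409) (nat_lit 392)) (XT.lf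 (nat_lit 336) (nat_lit 46099366099) (nat_lit 0) (nat_lit 43304396248) (nat_lit 252) (nat_lit 5542911324) (nat_lit 82) (nat_lit 1) (nat_lit 78) (nat_lit 1) (nat_lit 81) (nat_lit 1) (nat_lit 280) (nat_lit 409) (nat_lit 391))))))))
noncomputable def ec191 : XT := (XT.nd (nat_lit 1786) (nat_lit 2436) (nat_lit 0) (XT.nd (nat_lit 846) (nat_lit 1764) (nat_lit 0) (XT.nd (nat_lit 376) (nat_lit 1092) (nat_lit 0) (XT.nd (nat_lit 188) (nat_lit 420) (nat_lit 0) (XT.nd (nat_lit 94) (nat_lit 336) (nat_lit 0) (XT.lf (nat_lit 336) (nat_lit 14774624126) (nat_lit 0) (nat_lit 37283311871) (nat_lit 252) (nat_lit 40021892716) (nat_lit 79) (nat_lit 1) (nat_lit 75) (nat_lit 1) (nat_lit 78) (nat_lit 1) (nat_lit 281) (nat_lit 409) (nat_lit 390)) (XT.lf (nat_lit 84) (nat_lit 16839501478) (nat_lit 0) (nat_lit 15418026988) (nat_lit 336) (nat_lit 57074520758) (nat_lit 72) (nat_lit 1) (nat_lit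 71) (nat_lit 1) (nat_lit 75) (nat_lit 1) (nat_lit 282) (nat_lit 409) (nat_lit 389))) (XT.nd (nat_lit 94) (nat_lit 168) (nat_lit 0) (XT.lf (nat_lit 336) (nat_lit 41902889250) (nat_lit 0) (nat_lit 27880629706) (nat_lit 252) (nat_lit 16901329394) (nat_lit 72) (nat_lit 1) (nat_lit 68) (nat_lit 1) (nat_lit 71) (nat_lit 1) (nat_lit 283) (nat_lit 409) (nat_lit 388)) (XT.lf (nat_lit 252) (nat_lit 10387788117) (nat_lit 0) (nat_lit 24323815800) (nat_lit 168) (nat_lit 49432839028) (nat_lit 69) (nat_lit 1) (nat_lit 66) (nat_lit 1) (nat_lit 68) (nat_lit 1) (nat_lit 284) (nat_lit 409) (nat_lit 387)))) (XT.nd (nat_lit 188) (nat_lit 588) (nat_lit 0) (XT.nd (nat_lit 94) (nat_lit 168) (nat_lit 0) (XT.lf (nat_lit 84) (nat_lit 1759757672) (nat_lit 0) (nat_lit 19692070378) (nat_lit 336) (nat_lit 60250682296) (nat_lit 63) (nat_lit 1) (nat_lit 62) (nat_lit 1) (nat_lit 66) (nat_lit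 1) (nat_lit 285) (nat_lit 409) (nat_lit 386)) (XT.lf (nat_lit 252) (nat_lit 30185006245) (nat_lit 0) (nat_lit 18863039336) (nat_lit 168) (nat_lit 30290050370) (nat_lit 63) (nat_lit 1) (nat_lit 60) (nat_lit 1) (nat_lit 62) (nat_lit 1) (nat_lit 286) (nat_lit 409) (nat_lit 385))) (XT.nd (nat_lit 94) (nat_lit 336) (nat_lit 0) (XT.lf (nat_lit 84) (nat_lit 16377122949) (nat_lit 0) (nat_lit 756469576) (nat_lit 252) (nat_lit 59943263927) (nat_lit 58) (nat_lit 1) (nat_lit 57) (nat_lit 1) (nat_lit 60) (nat_lit 1) (nat_lit 287) (nat_lit 409) (nat_lit 384)) (XT.nd (nat_lit 94) (nat_lit 168) (nat_lit 0) (XT.lf (nat_lit 252) (nat_lit 44771891645) (nat_lit 0) (nat_lit 15514464325) (nat_lit 168) (nat_lit 14595038831) (nat_lit 58) (nat_lit 1) (nat_lit 55) (nat_lit 1) (nat_lit 57) (nat_lit 1) (nat_lit 288) (nat_lit 409) (nat_lit 383)) (XT.lf (nat_lit 252) (nat_lit 13907943680)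 (nat_lit 0) (nat_lit 14422410205) (nat_lit 168) (nat_lit 44439521372) (nat_lit 56) (nat_lit 1) (nat_lit 53) (nat_lit 1) (nat_lit 55) (nat_lit 1) (nat_lit 289) (nat_lit 409) (nat_lit 382)))))) (XT.nd (nat_lit 470) (nat_lit 924) (nat_lit 0) (XT.nd (nat_lit 188) (nat_lit 420) (nat_lit 0) (XT.nd (nat_lit 94) (nat_lit 168) (nat_lit 0) (XT.lf (nat_lit 252) (nat_lit 55209425097) (nat_lit 0) (nat_lit 13779442355) (nat_lit 168) (nat_lit 1748082127) (nat_lit 53) (nat_lit 1) (nat_lit 50) (nat_lit 1) (nat_lit 52) (nat_lit 1) (nat_lit 290) (nat_lit 409) (nat_lit 381)) (XT.lf (nat_lit 252) (nat_lit 24709179932) (nat_lit 0) (nat_lit 13154721756) (nat_lit 168) (nat_lit 30896610801) (nat_lit 51) (nat_lit 1) (nat_lit 48) (nat_lit 1) (nat_lit 50) (nat_lit 1) (nat_lit 291) (nat_lit 409) (nat_lit 380))) (XT.nd (nat_lit 94) (nat_lit 252) (nat_lit 0) (XT.lf (nat_lit 84) (nat_lit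 8463848121) (nat_lit 0) (nat_lit 4652112320) (nat_lit 168) (nat_lit 53750092461) (nat_lit 47) (nat_lit 1) (nat_lit 46) (nat_lit 1) (nat_lit 48) (nat_lit 1) (nat_lit 292) (nat_lit 409) (nat_lit 379)) (XT.nd (nat_lit 94) (nat_lit 84) (nat_lit 0) (XT.lf (nat_lit 252) (nat_lit 32419865114) (nat_lit 0) (nat_lit 12977077020) (nat_lit 168) (nat_lit 19622456067) (nat_lit 47) (nat_lit 1) (nat_lit 44) (nat_lit 1) (nat_lit 46) (nat_lit 1) (nat_lit 293) (nat_lit 409) (nat_lit 378)) (XT.lf (nat_lit 168) (nat_lit 3491158792) (nat_lit 0) (nat_lit 13295810801) (nat_lit 84) (nat_lit 46458677458) (nat_lit 45) (nat_lit 1) (nat_lit 43) (nat_lit 1) (nat_lit 44) (nat_lit 1) (nat_lit 294) (nat_lit 409) (nat_lit 377))))) (XT.nd (nat_lit 188) (nat_lit 588) (nat_lit 0) (XT.nd (nat_lit 94) (nat_lit 84) (nat_lit 0) (XT.lf (nat_lit 252) (nat_lit 37685770243) (nat_lit 0) (nat_lit 13598066417)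 (nat_lit 168) (nat_lit 10236967037) (nat_lit 43) (nat_lit 1) (nat_lit 40) (nat_lit 1) (nat_lit 42) (nat_lit 1) (nat_lit 295) (nat_lit 409) (nat_lit 376)) (XT.lf (nat_lit 168) (nat_lit 9478249110) (nat_lit 0) (nat_lit 14106511823) (nat_lit 84) (nat_lit 36269330098) (nat_lit 41) (nat_lit 1) (nat_lit 39) (nat_lit 1) (nat_lit 40) (nat_lit 1) (nat_lit 296) (nat_lit 409) (nat_lit 375))) (XT.nd (nat_lit 94) (nat_lit 336) (nat_lit 0) (XT.lf (nat_lit 252) (nat_lit 41029009439) (nat_lit 0) (nat_lit 14786873062) (nat_lit 168) (nat_lit 2426652452) (nat_lit 39) (nat_lit 1) (nat_lit 36) (nat_lit 1) (nat_lit 38) (nat_lit 1) (nat_lit 297) (nat_lit 409) (nat_lit 374)) (XT.nd (nat_lit 94) (nat_lit 252) (nat_lit 0) (XT.lf (nat_lit 168) (nat_lit 13640500809) (nat_lit 0) (nat_lit 15415492849) (nat_lit 84) (nat_lit 27618186732) (nat_lit 37) (nat_lit 1) (nat_lit 35) (nat_lit 1)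 (nat_lit 36) (nat_lit 1) (nat_lit 298) (nat_lit 409) (nat_lit 373)) (XT.lf (nat_lit 84) (nat_lit 3937191375) (nat_lit 0) (nat_lit 12357794224) (nat_lit 252) (nat_lit 38867183473) (nat_lit 33) (nat_lit 1) (nat_lit 32) (nat_lit 1) (nat_lit 35) (nat_lit 1) (nat_lit 299) (nat_lit 409) (nat_lit 372))))))) (XT.nd (nat_lit 846) (nat_lit 1260) (nat_lit 0) (XT.nd (nat_lit 376) (nat_lit 588) (nat_lit 0) (XT.nd (nat_lit 188) (nat_lit 252) (nat_lit 0) (XT.nd (nat_lit 94) (nat_lit 252) (nat_lit 0) (XT.lf (nat_lit 168) (nat_lit 16369831654) (nat_lit 0) (nat_lit 17056588672) (nat_lit 84) (nat_lit 20261287299) (nat_lit 33) (nat_lit 1) (nat_lit 31) (nat_lit 1) (nat_lit 32) (nat_lit 1) (nat_lit 300) (nat_lit 409) (nat_lit 371)) (XT.lf (nat_lit 84) (nat_lit 9156441124) (nat_lit 0) (nat_lit 8868632386) (nat_lit 252) (nat_lit 34239988854) (nat_lit 29) (nat_lit 1) (nat_lit 28)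 (nat_lit 1) (nat_lit 31) (nat_lit 1) (nat_lit 301) (nat_lit 409) (nat_lit 370))) (XT.nd (nat_lit 94) (nat_lit 168) (nat_lit 0) (XT.lf (nat_lit 168) (nat_lit 17982296803) (nat_lit 0) (nat_lit 18900088589) (nat_lit 84) (nat_lit 13996379758) (nat_lit 29) (nat_lit 1) (nat_lit 27) (nat_lit 1) (nat_lit 28) (nat_lit 1) (nat_lit 302) (nat_lit 409) (nat_lit 369)) (XT.lf (nat_lit 84) (nat_lit 13480398671) (nat_lit 0) (nat_lit 6423168764) (nat_lit 168) (nat_lit 29634683508) (nat_lit 26) (nat_lit 1) (nat_lit 25) (nat_lit 1) (nat_lit 27) (nat_lit 1) (nat_lit 303) (nat_lit 409) (nat_lit 368)))) (XT.nd (nat_lit 188) (nat_lit 336) (nat_lit 0) (XT.nd (nat_lit 94) (nat_lit 168) (nat_lit 0) (XT.lf (nat_lit 168) (nat_lit 18732264258) (nat_lit 0) (nat_lit 20845631584) (nat_lit 84) (nat_lit 8655480243) (nat_lit 26) (nat_lit 1) (nat_lit 24) (nat_lit 1) (nat_lit 25) (nat_lit 1) (nat_lit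 304) (nat_lit 409) (nat_lit 367)) (XT.lf (nat_lit 84) (nat_lit 17051450935) (nat_lit 0) (nat_lit 4791767651) (nat_lit 168) (nat_lit 25125419225) (nat_lit 23) (nat_lit 1) (nat_lit 22) (nat_lit 1) (nat_lit 24) (nat_lit 1) (nat_lit 305) (nat_lit 409) (nat_lit 366))) (XT.nd (nat_lit 94) (nat_lit 252) (nat_lit 0) (XT.lf (nat_lit 168) (nat_lit 18823973432) (nat_lit 0) (nat_lit 22816432171) (nat_lit 84) (nat_lit 4098784475) (nat_lit 23) (nat_lit 1) (nat_lit 21) (nat_lit 1) (nat_lit 22) (nat_lit 1) (nat_lit 306) (nat_lit 409) (nat_lit 365)) (XT.nd (nat_lit 94) (nat_lit 84) (nat_lit 0) (XT.lf (nat_lit 84) (nat_lit 19987937333) (nat_lit 0) (nat_lit 3789780591) (nat_lit 168) (nat_lit 20766895074) (nat_lit 20) (nat_lit 1) (nat_lit 19) (nat_lit 1) (nat_lit 21) (nat_lit 1) (nat_lit 307) (nat_lit 409) (nat_lit 364)) (XT.lf (nat_lit 168) (nat_lit 18420957962) (nat_lit 0)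 (nat_lit 24754591065) (nat_lit 84) (nat_lit 209683387) (nat_lit 20) (nat_lit 1) (nat_lit 18) (nat_lit 1) (nat_lit 19) (nat_lit 1) (nat_lit 308) (nat_lit 409) (nat_lit 363)))))) (XT.nd (nat_lit 470) (nat_lit 588) (nat_lit 0) (XT.nd (nat_lit 188) (nat_lit 420) (nat_lit 0) (XT.nd (nat_lit 94) (nat_lit 84) (nat_lit 0) (XT.lf (nat_lit 84) (nat_lit 22388406426) (nat_lit 0) (nat_lit 3269099216) (nat_lit 168) (nat_lit 16598321527) (nat_lit 17) (nat_lit 1) (nat_lit 16) (nat_lit 1) (nat_lit 18) (nat_lit 1) (nat_lit 309) (nat_lit 409) (nat_lit 362)) (XT.lf (nat_lit 0) (nat_lit 3009801254) (nat_lit 0) (nat_lit 23556516353) (nat_lit 168) (nat_lit 14592951845) (nat_lit 15) (nat_lit 3) (nat_lit 15) (nat_lit 1) (nat_lit 17) (nat_lit 1) (nat_lit 310) (nat_lit 409) (nat_lit 361))) (XT.nd (nat_lit 94) (nat_lit 252) (nat_lit 0) (XT.lf (nat_lit 84) (nat_lit 24335102043) (nat_lit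 0) (nat_lit 3111270316) (nat_lit 168) (nat_lit 12646632053) (nat_lit 14) (nat_lit 1) (nat_lit 13) (nat_lit 1) (nat_lit 15) (nat_lit 1) (nat_lit 311) (nat_lit 409) (nat_lit 360)) (XT.nd (nat_lit 94) (nat_lit 168) (nat_lit 0) (XT.lf (nat_lit 0) (nat_lit 5749833884) (nat_lit 0) (nat_lit 22526497202) (nat_lit 168) (nat_lit 10778805329) (nat_lit 12) (nat_lit 3) (nat_lit 12) (nat_lit 1) (nat_lit 14) (nat_lit 1) (nat_lit 312) (nat_lit 409) (nat_lit 359)) (XT.lf (nat_lit 84) (nat_lit 25896819617) (nat_lit 0) (nat_lit 3221885718) (nat_lit 168) (nat_lit 8929081794) (nat_lit 11) (nat_lit 1) (nat_lit 10) (nat_lit 1) (nat_lit 12) (nat_lit 1) (nat_lit 313) (nat_lit 409) (nat_lit 358))))) (XT.nd (nat_lit 188) (nat_lit 336) (nat_lit 0) (XT.nd (nat_lit 94) (nat_lit 168) (nat_lit 0) (XT.lf (nat_lit 0) (nat_lit 8083626548) (nat_lit 0) (nat_lit 21781992965) (nat_lit 168) (nat_lit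 7199368787) (nat_lit 9) (nat_lit 3) (nat_lit 9) (nat_lit 1) (nat_lit 11) (nat_lit 1) (nat_lit 314) (nat_lit 409) (nat_lit 357)) (XT.lf (nat_lit 84) (nat_lit 27131247633) (nat_lit 0) (nat_lit 3526012375) (nat_lit 168) (nat_lit 5455347238) (nat_lit 8) (nat_lit 1) (nat_lit 7) (nat_lit 1) (nat_lit 9) (nat_lit 1) (nat_lit 315) (nat_lit 409) (nat_lit 356))) (XT.nd (nat_lit 94) (nat_lit 252) (nat_lit 0) (XT.lf (nat_lit 0) (nat_lit 10067246203) (nat_lit 0) (nat_lit 21252142683) (nat_lit 168) (nat_lit 3862172259) (nat_lit 6) (nat_lit 3) (nat_lit 6) (nat_lit 1) (nat_lit 8) (nat_lit 1) (nat_lit 316) (nat_lit 409) (nat_lit 355)) (XT.nd (nat_lit 94) (nat_lit 84) (nat_lit 0) (XT.lf (nat_lit 84) (nat_lit 28086888094) (nat_lit 0) (nat_lit 3964471116) (nat_lit 168) (nat_lit 2229219840) (nat_lit 5) (nat_lit 1) (nat_lit 4) (nat_lit 1) (nat_lit 6) (nat_lit 1) (nat_lit 317) (nat_lit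 409) (nat_lit 354)) (XT.lf (nat_lit 0) (nat_lit 11748112122) (nat_lit 0) (nat_lit 20880727316) (nat_lit 168) (nat_lit 769396342) (nat_lit 3) (nat_lit 3) (nat_lit 3) (nat_lit 1) (nat_lit 5) (nat_lit 1) (nat_lit 318) (nat_lit 409) (nat_lit 353))))))))
noncomputable def ec192 : XT := (XT.nd (nat_lit 1692) (nat_lit 0) (nat_lit 0) (XT.nd (nat_lit 846) (nat_lit 0) (nat_lit 0) (XT.nd (nat_lit 376) (nat_lit 0) (nat_lit 0) (XT.nd (nat_lit 188) (nat_lit 0) (nat_lit 0) (XT.nd (nat_lit 94) (nat_lit 0) (nat_lit 0) (XT.lf (nat_lit 0) (nat_lit 47209945378) (nat_lit 0) (nat_lit 0) (nat_lit 0) (nat_lit 0) (nat_lit 0) (nat_lit 0) (nat_lit 1) (nat_lit 0) (nat_lit 1) (nat_lit 0) (nat_lit 319) (nat_lit 409) (nat_lit 352)) (XT.lf (nat_lit 0) (nat_lit 47166974319) (nat_lit 0) (nat_lit 0) (nat_lit 0) (nat_lit 0) (nat_lit 0) (nat_lit 0) (nat_lit 1) (nat_lit 0) (nat_lit 1) (nat_lit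 0) (nat_lit 320) (nat_lit 409) (nat_lit 351))) (XT.nd (nat_lit 94) (nat_lit 0) (nat_lit 0) (XT.lf (nat_lit 0) (nat_lit 47127186302) (nat_lit 0) (nat_lit 0) (nat_lit 0) (nat_lit 0) (nat_lit 0) (nat_lit 0) (nat_lit 1) (nat_lit 0) (nat_lit 1) (nat_lit 0) (nat_lit 321) (nat_lit 409) (nat_lit 350)) (XT.lf (nat_lit 0) (nat_lit 47090345545) (nat_lit 0) (nat_lit 0) (nat_lit 0) (nat_lit 0) (nat_lit 0) (nat_lit 0) (nat_lit 1) (nat_lit 0) (nat_lit 1) (nat_lit 0) (nat_lit 322) (nat_lit 409) (nat_lit 349)))) (XT.nd (nat_lit 188) (nat_lit 0) (nat_lit 0) (XT.nd (nat_lit 94) (nat_lit 0) (nat_lit 0) (XT.lf (nat_lit 0) (nat_lit 47056233733) (nat_lit 0) (nat_lit 0) (nat_lit 0) (nat_lit 0) (nat_lit 0) (nat_lit 0) (nat_lit 1) (nat_lit 0) (nat_lit 1) (nat_lit 0) (nat_lit 323) (nat_lit 409) (nat_lit 348)) (XT.lf (nat_lit 0) (nat_lit 47024648721) (nat_lit 0) (nat_lit 0) (nat_lit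 0) (nat_lit 0) (nat_lit 0) (nat_lit 0) (nat_lit 1) (nat_lit 0) (nat_lit 1) (nat_lit 0) (nat_lit 324) (nat_lit 409) (nat_lit 347))) (XT.nd (nat_lit 94) (nat_lit 0) (nat_lit 0) (XT.lf (nat_lit 0) (nat_lit 46995403341) (nat_lit 0) (nat_lit 0) (nat_lit 0) (nat_lit 0) (nat_lit 0) (nat_lit 0) (nat_lit 1) (nat_lit 0) (nat_lit 1) (nat_lit 0) (nat_lit 325) (nat_lit 409) (nat_lit 346)) (XT.nd (nat_lit 94) (nat_lit 0) (nat_lit 0) (XT.lf (nat_lit 0) (nat_lit 46968324284) (nat_lit 0) (nat_lit 0) (nat_lit 0) (nat_lit 0) (nat_lit 0) (nat_lit 0) (nat_lit 1) (nat_lit 0) (nat_lit 1) (nat_lit 0) (nat_lit 326) (nat_lit 409) (nat_lit 345)) (XT.lf (nat_lit 0) (nat_lit 46943251084) (nat_lit 0) (nat_lit 0) (nat_lit 0) (nat_lit 0) (nat_lit 0) (nat_lit 0) (nat_lit 1) (nat_lit 0) (nat_lit 1) (nat_lit 0) (nat_lit 327) (nat_lit 409) (nat_lit 344)))))) (XT.nd (nat_lit 376) (nat_lit 0)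 (nat_lit 0) (XT.nd (nat_lit 188) (nat_lit 0) (nat_lit 0) (XT.nd (nat_lit 94) (nat_lit 0) (nat_lit 0) (XT.lf (nat_lit 0) (nat_lit 46920035158) (nat_lit 0) (nat_lit 0) (nat_lit 0) (nat_lit 0) (nat_lit 0) (nat_lit 0) (nat_lit 1) (nat_lit 0) (nat_lit 1) (nat_lit 0) (nat_lit 328) (nat_lit 409) (nat_lit 343)) (XT.lf (nat_lit 0) (nat_lit 46898538930) (nat_lit 0) (nat_lit 0) (nat_lit 0) (nat_lit 0) (nat_lit 0) (nat_lit 0) (nat_lit 1) (nat_lit 0) (nat_lit 1) (nat_lit 0) (nat_lit 329) (nat_lit 409) (nat_lit 342))) (XT.nd (nat_lit 94) (nat_lit 0) (nat_lit 0) (XT.lf (nat_lit 0) (nat_lit 46878635015) (nat_lit 0) (nat_lit 0) (nat_lit 0) (nat_lit 0) (nat_lit 0) (nat_lit 0) (nat_lit 1) (nat_lit 0) (nat_lit 1) (nat_lit 0) (nat_lit 330) (nat_lit 409) (nat_lit 341)) (XT.lf (nat_lit 0) (nat_lit 46860205465) (nat_lit 0) (nat_lit 0) (nat_lit 0) (nat_lit 0) (nat_lit 0) (nat_lit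 0) (nat_lit 1) (nat_lit 0) (nat_lit 1) (nat_lit 0) (nat_lit 331) (nat_lit 409) (nat_lit 340)))) (XT.nd (nat_lit 188) (nat_lit 0) (nat_lit 0) (XT.nd (nat_lit 94) (nat_lit 0) (nat_lit 0) (XT.lf (nat_lit 0) (nat_lit 46843141066) (nat_lit 0) (nat_lit 0) (nat_lit 0) (nat_lit 0) (nat_lit 0) (nat_lit 0) (nat_lit 1) (nat_lit 0) (nat_lit 1) (nat_lit 0) (nat_lit 332) (nat_lit 409) (nat_lit 339)) (XT.lf (nat_lit 0) (nat_lit 46827340697) (nat_lit 0) (nat_lit 0) (nat_lit 0) (nat_lit 0) (nat_lit 0) (nat_lit 0) (nat_lit 1) (nat_lit 0) (nat_lit 1) (nat_lit 0) (nat_lit 333) (nat_lit 409) (nat_lit 338))) (XT.nd (nat_lit 94) (nat_lit 0) (nat_lit 0) (XT.lf (nat_lit 0) (nat_lit 46812710725) (nat_lit 0) (nat_lit 0) (nat_lit 0) (nat_lit 0) (nat_lit 0) (nat_lit 0) (nat_lit 1) (nat_lit 0) (nat_lit 1) (nat_lit 0) (nat_lit 334) (nat_lit 409) (nat_lit 337)) (XT.nd (nat_lit 94) (nat_lit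 0) (nat_lit 0) (XT.lf (nat_lit 0) (nat_lit 46799164455) (nat_lit 0) (nat_lit 0) (nat_lit 0) (nat_lit 0) (nat_lit 0) (nat_lit 0) (nat_lit 1) (nat_lit 0) (nat_lit 1) (nat_lit 0) (nat_lit 335) (nat_lit 409) (nat_lit 336)) (XT.lf (nat_lit 0) (nat_lit 46786621613) (nat_lit 0) (nat_lit 0) (nat_lit 0) (nat_lit 0) (nat_lit 0) (nat_lit 0) (nat_lit 1) (nat_lit 0) (nat_lit 1) (nat_lit 0) (nat_lit 336) (nat_lit 409) (nat_lit 335))))))) (XT.nd (nat_lit 846) (nat_lit 0) (nat_lit 0) (XT.nd (nat_lit 376) (nat_lit 0) (nat_lit 0) (XT.nd (nat_lit 188) (nat_lit 0) (nat_lit 0) (XT.nd (nat_lit 94) (nat_lit 0) (nat_lit 0) (XT.lf (nat_lit 0) (nat_lit 46775007869) (nat_lit 0) (nat_lit 0) (nat_lit 0) (nat_lit 0) (nat_lit 0) (nat_lit 0) (nat_lit 1) (nat_lit 0) (nat_lit 1) (nat_lit 0) (nat_lit 337) (nat_lit 409) (nat_lit 334)) (XT.lf (nat_lit 0) (nat_lit 46764254404) (nat_lit 0) (nat_lit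 0) (nat_lit 0) (nat_lit 0) (nat_lit 0) (nat_lit 0) (nat_lit 1) (nat_lit 0) (nat_lit 1) (nat_lit 0) (nat_lit 338) (nat_lit 409) (nat_lit 333))) (XT.nd (nat_lit 94) (nat_lit 0) (nat_lit 0) (XT.lf (nat_lit 0) (nat_lit 46754297491) (nat_lit 0) (nat_lit 0) (nat_lit 0) (nat_lit 0) (nat_lit 0) (nat_lit 0) (nat_lit 1) (nat_lit 0) (nat_lit 1) (nat_lit 0) (nat_lit 339) (nat_lit 409) (nat_lit 332)) (XT.lf (nat_lit 0) (nat_lit 46745078127) (nat_lit 0) (nat_lit 0) (nat_lit 0) (nat_lit 0) (nat_lit 0) (nat_lit 0) (nat_lit 1) (nat_lit 0) (nat_lit 1) (nat_lit 0) (nat_lit 340) (nat_lit 409) (nat_lit 331)))) (XT.nd (nat_lit 188) (nat_lit 0) (nat_lit 0) (XT.nd (nat_lit 94) (nat_lit 0) (nat_lit 0) (XT.lf (nat_lit 0) (nat_lit 46736541679) (nat_lit 0) (nat_lit 0) (nat_lit 0) (nat_lit 0) (nat_lit 0) (nat_lit 0) (nat_lit 1) (nat_lit 0) (nat_lit 1) (nat_lit 0) (nat_lit 341) (nat_lit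 409) (nat_lit 330)) (XT.lf (nat_lit 0) (nat_lit 46728637561) (nat_lit 0) (nat_lit 0) (nat_lit 0) (nat_lit 0) (nat_lit 0) (nat_lit 0) (nat_lit 1) (nat_lit 0) (nat_lit 1) (nat_lit 0) (nat_lit 342) (nat_lit 409) (nat_lit 329))) (XT.nd (nat_lit 94) (nat_lit 0) (nat_lit 0) (XT.lf (nat_lit 0) (nat_lit 46721318933) (nat_lit 0) (nat_lit 0) (nat_lit 0) (nat_lit 0) (nat_lit 0) (nat_lit 0) (nat_lit 1) (nat_lit 0) (nat_lit 1) (nat_lit 0) (nat_lit 343) (nat_lit 409) (nat_lit 328)) (XT.nd (nat_lit 94) (nat_lit 0) (nat_lit 0) (XT.lf (nat_lit 0) (nat_lit 46714542425) (nat_lit 0) (nat_lit 0) (nat_lit 0) (nat_lit 0) (nat_lit 0) (nat_lit 0) (nat_lit 1) (nat_lit 0) (nat_lit 1) (nat_lit 0) (nat_lit 344) (nat_lit 409) (nat_lit 327)) (XT.lf (nat_lit 0) (nat_lit 46708267881) (nat_lit 0) (nat_lit 0) (nat_lit 0) (nat_lit 0) (nat_lit 0) (nat_lit 0) (nat_lit 1) (nat_lit 0) (nat_lit 1)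 (nat_lit 0) (nat_lit 345) (nat_lit 409) (nat_lit 326)))))) (XT.nd (nat_lit 470) (nat_lit 0) (nat_lit 0) (XT.nd (nat_lit 188) (nat_lit 0) (nat_lit 0) (XT.nd (nat_lit 94) (nat_lit 0) (nat_lit 0) (XT.lf (nat_lit 0) (nat_lit 46702458118) (nat_lit 0) (nat_lit 0) (nat_lit 0) (nat_lit 0) (nat_lit 0) (nat_lit 0) (nat_lit 1) (nat_lit 0) (nat_lit 1) (nat_lit 0) (nat_lit 346) (nat_lit 409) (nat_lit 325)) (XT.lf (nat_lit 0) (nat_lit 46697078708) (nat_lit 0) (nat_lit 0) (nat_lit 0) (nat_lit 0) (nat_lit 0) (nat_lit 0) (nat_lit 1) (nat_lit 0) (nat_lit 1) (nat_lit 0) (nat_lit 347) (nat_lit 409) (nat_lit 324))) (XT.nd (nat_lit 94) (nat_lit 0) (nat_lit 0) (XT.lf (nat_lit 0) (nat_lit 46692097773) (nat_lit 0) (nat_lit 0) (nat_lit 0) (nat_lit 0) (nat_lit 0) (nat_lit 0) (nat_lit 1) (nat_lit 0) (nat_lit 1) (nat_lit 0) (nat_lit 348) (nat_lit 409) (nat_lit 323)) (XT.nd (nat_lit 94)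 (nat_lit 0) (nat_lit 0) (XT.lf (nat_lit 0) (nat_lit 46687485796) (nat_lit 0) (nat_lit 0) (nat_lit 0) (nat_lit 0) (nat_lit 0) (nat_lit 0) (nat_lit 1) (nat_lit 0) (nat_lit 1) (nat_lit 0) (nat_lit 349) (nat_lit 409) (nat_lit 322)) (XT.lf (nat_lit 0) (nat_lit 46683215446) (nat_lit 0) (nat_lit 0) (nat_lit 0) (nat_lit 0) (nat_lit 0) (nat_lit 0) (nat_lit 1) (nat_lit 0) (nat_lit 1) (nat_lit 0) (nat_lit 350) (nat_lit 409) (nat_lit 321))))) (XT.nd (nat_lit 188) (nat_lit 0) (nat_lit 0) (XT.nd (nat_lit 94) (nat_lit 0) (nat_lit 0) (XT.lf (nat_lit 0) (nat_lit 46679261419) (nat_lit 0) (nat_lit 0) (nat_lit 0) (nat_lit 0) (nat_lit 0) (nat_lit 0) (nat_lit 1) (nat_lit 0) (nat_lit 1) (nat_lit 0) (nat_lit 351) (nat_lit 409) (nat_lit 320)) (XT.lf (nat_lit 0) (nat_lit 46675600283) (nat_lit 0) (nat_lit 0) (nat_lit 0) (nat_lit 0) (nat_lit 0) (nat_lit 0) (nat_lit 1) (nat_lit 0) (nat_lit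 1) (nat_lit 0) (nat_lit 352) (nat_lit 409) (nat_lit 319))) (XT.nd (nat_lit 94) (nat_lit 0) (nat_lit 0) (XT.lf (nat_lit 0) (nat_lit 46672210342) (nat_lit 0) (nat_lit 0) (nat_lit 0) (nat_lit 0) (nat_lit 0) (nat_lit 0) (nat_lit 1) (nat_lit 0) (nat_lit 1) (nat_lit 0) (nat_lit 353) (nat_lit 409) (nat_lit 318)) (XT.nd (nat_lit 94) (nat_lit 0) (nat_lit 0) (XT.lf (nat_lit 0) (nat_lit 46669071508) (nat_lit 0) (nat_lit 0) (nat_lit 0) (nat_lit 0) (nat_lit 0) (nat_lit 0) (nat_lit 1) (nat_lit 0) (nat_lit 1) (nat_lit 0) (nat_lit 354) (nat_lit 409) (nat_lit 317)) (XT.lf (nat_lit 0) (nat_lit 46666165180) (nat_lit 0) (nat_lit 0) (nat_lit 0) (nat_lit 0) (nat_lit 0) (nat_lit 0) (nat_lit 1) (nat_lit 0) (nat_lit 1) (nat_lit 0) (nat_lit 355) (nat_lit 409) (nat_lit 316))))))))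
noncomputable def ec193 : XT := (XT.nd (nat_lit 1786) (nat_lit 0) (nat_lit 0) (XT.nd (nat_lit 846) (nat_lit 0) (nat_lit 0) (XT.nd (nat_lit 376) (nat_lit 0) (nat_lit 0) (XT.nd (nat_lit 188) (nat_lit 0) (nat_lit 0) (XT.nd (nat_lit 94) (nat_lit 0) (nat_lit 0) (XT.lf (nat_lit 0) (nat_lit 46663474136) (nat_lit 0) (nat_lit 0) (nat_lit 0) (nat_lit 0) (nat_lit 0) (nat_lit 0) (nat_lit 1) (nat_lit 0) (nat_lit 1) (nat_lit 0) (nat_lit 356) (nat_lit 409) (nat_lit 315)) (XT.lf (nat_lit 0) (nat_lit 46660982428) (nat_lit 0) (nat_lit 0) (nat_lit 0) (nat_lit 0) (nat_lit 0) (nat_lit 0) (nat_lit 1) (nat_lit 0) (nat_lit 1) (nat_lit 0) (nat_lit 357) (nat_lit 409) (nat_lit 314))) (XT.nd (nat_lit 94) (nat_lit 0) (nat_lit 0) (XT.lf (nat_lit 0) (nat_lit 46658675291) (nat_lit 0) (nat_lit 0) (nat_lit 0) (nat_lit 0) (nat_lit 0) (nat_lit 0) (nat_lit 1) (nat_lit 0) (nat_lit 1) (nat_lit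 0) (nat_lit 358) (nat_lit 409) (nat_lit 313)) (XT.lf (nat_lit 0) (nat_lit 46656539053) (nat_lit 0) (nat_lit 0) (nat_lit 0) (nat_lit 0) (nat_lit 0) (nat_lit 0) (nat_lit 1) (nat_lit 0) (nat_lit 1) (nat_lit 0) (nat_lit 359) (nat_lit 409) (nat_lit 312)))) (XT.nd (nat_lit 188) (nat_lit 0) (nat_lit 0) (XT.nd (nat_lit 94) (nat_lit 0) (nat_lit 0) (XT.lf (nat_lit 0) (nat_lit 46654561055) (nat_lit 0) (nat_lit 0) (nat_lit 0) (nat_lit 0) (nat_lit 0) (nat_lit 0) (nat_lit 1) (nat_lit 0) (nat_lit 1) (nat_lit 0) (nat_lit 360) (nat_lit 409) (nat_lit 311)) (XT.lf (nat_lit 0) (nat_lit 46652729576) (nat_lit 0) (nat_lit 0) (nat_lit 0) (nat_lit 0) (nat_lit 0) (nat_lit 0) (nat_lit 1) (nat_lit 0) (nat_lit 1) (nat_lit 0) (nat_lit 361) (nat_lit 409) (nat_lit 310))) (XT.nd (nat_lit 94) (nat_lit 0) (nat_lit 0) (XT.lf (nat_lit 0) (nat_lit 46651033761) (nat_lit 0) (nat_lit 0) (nat_lit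 0) (nat_lit 0) (nat_lit 0) (nat_lit 0) (nat_lit 1) (nat_lit 0) (nat_lit 1) (nat_lit 0) (nat_lit 362) (nat_lit 409) (nat_lit 309)) (XT.nd (nat_lit 94) (nat_lit 0) (nat_lit 0) (XT.lf (nat_lit 0) (nat_lit 46649463563) (nat_lit 0) (nat_lit 0) (nat_lit 0) (nat_lit 0) (nat_lit 0) (nat_lit 0) (nat_lit 1) (nat_lit 0) (nat_lit 1) (nat_lit 0) (nat_lit 363) (nat_lit 409) (nat_lit 308)) (XT.lf (nat_lit 0) (nat_lit 46648009675) (nat_lit 0) (nat_lit 0) (nat_lit 0) (nat_lit 0) (nat_lit 0) (nat_lit 0) (nat_lit 1) (nat_lit 0) (nat_lit 1) (nat_lit 0) (nat_lit 364) (nat_lit 409) (nat_lit 307)))))) (XT.nd (nat_lit 470) (nat_lit 0) (nat_lit 0) (XT.nd (nat_lit 188) (nat_lit 0) (nat_lit 0) (XT.nd (nat_lit 94) (nat_lit 0) (nat_lit 0) (XT.lf (nat_lit 0) (nat_lit 46646663483) (nat_lit 0) (nat_lit 0) (nat_lit 0) (nat_lit 0) (nat_lit 0) (nat_lit 0) (nat_lit 1) (nat_lit 0) (nat_lit 1)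 (nat_lit 0) (nat_lit 365) (nat_lit 409) (nat_lit 306)) (XT.lf (nat_lit 0) (nat_lit 46645417009) (nat_lit 0) (nat_lit 0) (nat_lit 0) (nat_lit 0) (nat_lit 0) (nat_lit 0) (nat_lit 1) (nat_lit 0) (nat_lit 1) (nat_lit 0) (nat_lit 366) (nat_lit 409) (nat_lit 305))) (XT.nd (nat_lit 94) (nat_lit 0) (nat_lit 0) (XT.lf (nat_lit 0) (nat_lit 46644262866) (nat_lit 0) (nat_lit 0) (nat_lit 0) (nat_lit 0) (nat_lit 0) (nat_lit 0) (nat_lit 1) (nat_lit 0) (nat_lit 1) (nat_lit 0) (nat_lit 367) (nat_lit 409) (nat_lit 304)) (XT.nd (nat_lit 94) (nat_lit 0) (nat_lit 0) (XT.lf (nat_lit 0) (nat_lit 46643194215) (nat_lit 0) (nat_lit 0) (nat_lit 0) (nat_lit 0) (nat_lit 0) (nat_lit 0) (nat_lit 1) (nat_lit 0) (nat_lit 1) (nat_lit 0) (nat_lit 368) (nat_lit 409) (nat_lit 303)) (XT.lf (nat_lit 0) (nat_lit 46642204724) (nat_lit 0) (nat_lit 0) (nat_lit 0) (nat_lit 0) (nat_lit 0) (nat_lit 0)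 (nat_lit 1) (nat_lit 0) (nat_lit 1) (nat_lit 0) (nat_lit 369) (nat_lit 409) (nat_lit 302))))) (XT.nd (nat_lit 188) (nat_lit 0) (nat_lit 0) (XT.nd (nat_lit 94) (nat_lit 0) (nat_lit 0) (XT.lf (nat_lit 0) (nat_lit 46641288528) (nat_lit 0) (nat_lit 0) (nat_lit 0) (nat_lit 0) (nat_lit 0) (nat_lit 0) (nat_lit 1) (nat_lit 0) (nat_lit 1) (nat_lit 0) (nat_lit 370) (nat_lit 409) (nat_lit 301)) (XT.lf (nat_lit 0) (nat_lit 46640440199) (nat_lit 0) (nat_lit 0) (nat_lit 0) (nat_lit 0) (nat_lit 0) (nat_lit 0) (nat_lit 1) (nat_lit 0) (nat_lit 1) (nat_lit 0) (nat_lit 371) (nat_lit 409) (nat_lit 300))) (XT.nd (nat_lit 94) (nat_lit 0) (nat_lit 0) (XT.lf (nat_lit 0) (nat_lit 46639654709) (nat_lit 0) (nat_lit 0) (nat_lit 0) (nat_lit 0) (nat_lit 0) (nat_lit 0) (nat_lit 1) (nat_lit 0) (nat_lit 1) (nat_lit 0) (nat_lit 372) (nat_lit 409) (nat_lit 299)) (XT.nd (nat_lit 94) (nat_lit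 0) (nat_lit 0) (XT.lf (nat_lit 0) (nat_lit 46638927403) (nat_lit 0) (nat_lit 0) (nat_lit 0) (nat_lit 0) (nat_lit 0) (nat_lit 0) (nat_lit 1) (nat_lit 0) (nat_lit 1) (nat_lit 0) (nat_lit 373) (nat_lit 409) (nat_lit 298)) (XT.lf (nat_lit 0) (nat_lit 46638253972) (nat_lit 0) (nat_lit 0) (nat_lit 0) (nat_lit 0) (nat_lit 0) (nat_lit 0) (nat_lit 1) (nat_lit 0) (nat_lit 1) (nat_lit 0) (nat_lit 374) (nat_lit 409) (nat_lit 297))))))) (XT.nd (nat_lit 846) (nat_lit 0) (nat_lit 0) (XT.nd (nat_lit 376) (nat_lit 0) (nat_lit 0) (XT.nd (nat_lit 188) (nat_lit 0) (nat_lit 0) (XT.nd (nat_lit 94) (nat_lit 0) (nat_lit 0) (XT.lf (nat_lit 0) (nat_lit 46637630424) (nat_lit 0) (nat_lit 0) (nat_lit 0) (nat_lit 0) (nat_lit 0) (nat_lit 0) (nat_lit 1) (nat_lit 0) (nat_lit 1) (nat_lit 0) (nat_lit 375) (nat_lit 409) (nat_lit 296)) (XT.lf (nat_lit 0) (nat_lit 46637053065) (nat_lit 0) (nat_lit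 0) (nat_lit 0) (nat_lit 0) (nat_lit 0) (nat_lit 0) (nat_lit 1) (nat_lit 0) (nat_lit 1) (nat_lit 0) (nat_lit 376) (nat_lit 409) (nat_lit 295))) (XT.nd (nat_lit 94) (nat_lit 0) (nat_lit 0) (XT.lf (nat_lit 0) (nat_lit 46636518474) (nat_lit 0) (nat_lit 0) (nat_lit 0) (nat_lit 0) (nat_lit 0) (nat_lit 0) (nat_lit 1) (nat_lit 0) (nat_lit 1) (nat_lit 0) (nat_lit 377) (nat_lit 409) (nat_lit 294)) (XT.lf (nat_lit 0) (nat_lit 46636023482) (nat_lit 0) (nat_lit 0) (nat_lit 0) (nat_lit 0) (nat_lit 0) (nat_lit 0) (nat_lit 1) (nat_lit 0) (nat_lit 1) (nat_lit 0) (nat_lit 378) (nat_lit 409) (nat_lit 293)))) (XT.nd (nat_lit 188) (nat_lit 0) (nat_lit 0) (XT.nd (nat_lit 94) (nat_lit 0) (nat_lit 0) (XT.lf (nat_lit 0) (nat_lit 46635565156) (nat_lit 0) (nat_lit 0) (nat_lit 0) (nat_lit 0) (nat_lit 0) (nat_lit 0) (nat_lit 1) (nat_lit 0) (nat_lit 1) (nat_lit 0) (nat_lit 379) (nat_lit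 409) (nat_lit 292)) (XT.lf (nat_lit 0) (nat_lit 46635140780) (nat_lit 0) (nat_lit 0) (nat_lit 0) (nat_lit 0) (nat_lit 0) (nat_lit 0) (nat_lit 1) (nat_lit 0) (nat_lit 1) (nat_lit 0) (nat_lit 380) (nat_lit 409) (nat_lit 291))) (XT.nd (nat_lit 94) (nat_lit 0) (nat_lit 0) (XT.lf (nat_lit 0) (nat_lit 46634747839) (nat_lit 0) (nat_lit 0) (nat_lit 0) (nat_lit 0) (nat_lit 0) (nat_lit 0) (nat_lit 1) (nat_lit 0) (nat_lit 1) (nat_lit 0) (nat_lit 381) (nat_lit 409) (nat_lit 290)) (XT.nd (nat_lit 94) (nat_lit 0) (nat_lit 0) (XT.lf (nat_lit 0) (nat_lit 46634384005) (nat_lit 0) (nat_lit 0) (nat_lit 0) (nat_lit 0) (nat_lit 0) (nat_lit 0) (nat_lit 1) (nat_lit 0) (nat_lit 1) (nat_lit 0) (nat_lit 382) (nat_lit 409) (nat_lit 289)) (XT.lf (nat_lit 0) (nat_lit 46634047122) (nat_lit 0) (nat_lit 0) (nat_lit 0) (nat_lit 0) (nat_lit 0) (nat_lit 0) (nat_lit 1) (nat_lit 0) (nat_lit 1)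 (nat_lit 0) (nat_lit 383) (nat_lit 409) (nat_lit 288)))))) (XT.nd (nat_lit 470) (nat_lit 0) (nat_lit 0) (XT.nd (nat_lit 188) (nat_lit 0) (nat_lit 0) (XT.nd (nat_lit 94) (nat_lit 0) (nat_lit 0) (XT.lf (nat_lit 0) (nat_lit 46633735193) (nat_lit 0) (nat_lit 0) (nat_lit 0) (nat_lit 0) (nat_lit 0) (nat_lit 0) (nat_lit 1) (nat_lit 0) (nat_lit 1) (nat_lit 0) (nat_lit 384) (nat_lit 409) (nat_lit 287)) (XT.lf (nat_lit 0) (nat_lit 46633446370) (nat_lit 0) (nat_lit 0) (nat_lit 0) (nat_lit 0) (nat_lit 0) (nat_lit 0) (nat_lit 1) (nat_lit 0) (nat_lit 1) (nat_lit 0) (nat_lit 385) (nat_lit 409) (nat_lit 286))) (XT.nd (nat_lit 94) (nat_lit 0) (nat_lit 0) (XT.lf (nat_lit 0) (nat_lit 46633178941) (nat_lit 0) (nat_lit 0) (nat_lit 0) (nat_lit 0) (nat_lit 0) (nat_lit 0) (nat_lit 1) (nat_lit 0) (nat_lit 1) (nat_lit 0) (nat_lit 386) (nat_lit 409) (nat_lit 285)) (XT.nd (nat_lit 94)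 (nat_lit 0) (nat_lit 0) (XT.lf (nat_lit 0) (nat_lit 46632931322) (nat_lit 0) (nat_lit 0) (nat_lit 0) (nat_lit 0) (nat_lit 0) (nat_lit 0) (nat_lit 1) (nat_lit 0) (nat_lit 1) (nat_lit 0) (nat_lit 387) (nat_lit 409) (nat_lit 284)) (XT.lf (nat_lit 0) (nat_lit 46632702045) (nat_lit 0) (nat_lit 0) (nat_lit 0) (nat_lit 0) (nat_lit 0) (nat_lit 0) (nat_lit 1) (nat_lit 0) (nat_lit 1) (nat_lit 0) (nat_lit 388) (nat_lit 409) (nat_lit 283))))) (XT.nd (nat_lit 188) (nat_lit 0) (nat_lit 0) (XT.nd (nat_lit 94) (nat_lit 0) (nat_lit 0) (XT.lf (nat_lit 0) (nat_lit 46632489751) (nat_lit 0) (nat_lit 0) (nat_lit 0) (nat_lit 0) (nat_lit 0) (nat_lit 0) (nat_lit 1) (nat_lit 0) (nat_lit 1) (nat_lit 0) (nat_lit 389) (nat_lit 409) (nat_lit 282)) (XT.lf (nat_lit 0) (nat_lit 46632293183) (nat_lit 0) (nat_lit 0) (nat_lit 0) (nat_lit 0) (nat_lit 0) (nat_lit 0) (nat_lit 1) (nat_lit 0) (nat_lit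 1) (nat_lit 0) (nat_lit 390) (nat_lit 409) (nat_lit 281))) (XT.nd (nat_lit 94) (nat_lit 0) (nat_lit 0) (XT.lf (nat_lit 0) (nat_lit 46632111175) (nat_lit 0) (nat_lit 0) (nat_lit 0) (nat_lit 0) (nat_lit 0) (nat_lit 0) (nat_lit 1) (nat_lit 0) (nat_lit 1) (nat_lit 0) (nat_lit 391) (nat_lit 409) (nat_lit 280)) (XT.nd (nat_lit 94) (nat_lit 0) (nat_lit 0) (XT.lf (nat_lit 0) (nat_lit 46631942650) (nat_lit 0) (nat_lit 0) (nat_lit 0) (nat_lit 0) (nat_lit 0) (nat_lit 0) (nat_lit 1) (nat_lit 0) (nat_lit 1) (nat_lit 0) (nat_lit 392) (nat_lit 409) (nat_lit 279)) (XT.lf (nat_lit 0) (nat_lit 46631786608) (nat_lit 0) (nat_lit 0) (nat_lit 0) (nat_lit 0) (nat_lit 0) (nat_lit 0) (nat_lit 1) (nat_lit 0) (nat_lit 1) (nat_lit 0) (nat_lit 393) (nat_lit 409) (nat_lit 278))))))))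
noncomputable def ec194 : XT := (XT.nd (nat_lit 1692) (nat_lit 0) (nat_lit 0) (XT.nd (nat_lit 846) (nat_lit 0) (nat_lit 0) (XT.nd (nat_lit 376) (nat_lit 0) (nat_lit 0) (XT.nd (nat_lit 188) (nat_lit 0) (nat_lit 0) (XT.nd (nat_lit 94) (nat_lit 0) (nat_lit 0) (XT.lf (nat_lit 0) (nat_lit 46631642124) (nat_lit 0) (nat_lit 0) (nat_lit 0) (nat_lit 0) (nat_lit 0) (nat_lit 0) (nat_lit 1) (nat_lit 0) (nat_lit 1) (nat_lit 0) (nat_lit 394) (nat_lit 409) (nat_lit 277)) (XT.lf (nat_lit 0) (nat_lit 46631508343) (nat_lit 0) (nat_lit 0) (nat_lit 0) (nat_lit 0) (nat_lit 0) (nat_lit 0) (nat_lit 1) (nat_lit 0) (nat_lit 1) (nat_lit 0) (nat_lit 395) (nat_lit 409) (nat_lit 276))) (XT.nd (nat_lit 94) (nat_lit 0) (nat_lit 0) (XT.lf (nat_lit 0) (nat_lit 46631384472) (nat_lit 0) (nat_lit 0) (nat_lit 0) (nat_lit 0) (nat_lit 0) (nat_lit 0) (nat_lit 1) (nat_lit 0) (nat_lit 1) (nat_lit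 0) (nat_lit 396) (nat_lit 409) (nat_lit 275)) (XT.lf (nat_lit 0) (nat_lit 46631269776) (nat_lit 0) (nat_lit 0) (nat_lit 0) (nat_lit 0) (nat_lit 0) (nat_lit 0) (nat_lit 1) (nat_lit 0) (nat_lit 1) (nat_lit 0) (nat_lit 397) (nat_lit 409) (nat_lit 274)))) (XT.nd (nat_lit 188) (nat_lit 0) (nat_lit 0) (XT.nd (nat_lit 94) (nat_lit 0) (nat_lit 0) (XT.lf (nat_lit 0) (nat_lit 46631163577) (nat_lit 0) (nat_lit 0) (nat_lit 0) (nat_lit 0) (nat_lit 0) (nat_lit 0) (nat_lit 1) (nat_lit 0) (nat_lit 1) (nat_lit 0) (nat_lit 398) (nat_lit 409) (nat_lit 273)) (XT.lf (nat_lit 0) (nat_lit 46631065244) (nat_lit 0) (nat_lit 0) (nat_lit 0) (nat_lit 0) (nat_lit 0) (nat_lit 0) (nat_lit 1) (nat_lit 0) (nat_lit 1) (nat_lit 0) (nat_lit 399) (nat_lit 409) (nat_lit 272))) (XT.nd (nat_lit 94) (nat_lit 0) (nat_lit 0) (XT.lf (nat_lit 0) (nat_lit 46630974195) (nat_lit 0) (nat_lit 0) (nat_lit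 0) (nat_lit 0) (nat_lit 0) (nat_lit 0) (nat_lit 1) (nat_lit 0) (nat_lit 1) (nat_lit 0) (nat_lit 400) (nat_lit 409) (nat_lit 271)) (XT.nd (nat_lit 94) (nat_lit 0) (nat_lit 0) (XT.lf (nat_lit 0) (nat_lit 46630889890) (nat_lit 0) (nat_lit 0) (nat_lit 0) (nat_lit 0) (nat_lit 0) (nat_lit 0) (nat_lit 1) (nat_lit 0) (nat_lit 1) (nat_lit 0) (nat_lit 401) (nat_lit 409) (nat_lit 270)) (XT.lf (nat_lit 0) (nat_lit 46630811830) (nat_lit 0) (nat_lit 0) (nat_lit 0) (nat_lit 0) (nat_lit 0) (nat_lit 0) (nat_lit 1) (nat_lit 0) (nat_lit 1) (nat_lit 0) (nat_lit 402) (nat_lit 409) (nat_lit 269)))))) (XT.nd (nat_lit 376) (nat_lit 0) (nat_lit 0) (XT.nd (nat_lit 188) (nat_lit 0) (nat_lit 0) (XT.nd (nat_lit 94) (nat_lit 0) (nat_lit 0) (XT.lf (nat_lit 0) (nat_lit 46630739552) (nat_lit 0) (nat_lit 0) (nat_lit 0) (nat_lit 0) (nat_lit 0) (nat_lit 0) (nat_lit 1) (nat_lit 0) (nat_lit 1)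 (nat_lit 0) (nat_lit 403) (nat_lit 409) (nat_lit 268)) (XT.lf (nat_lit 0) (nat_lit 46630672628) (nat_lit 0) (nat_lit 0) (nat_lit 0) (nat_lit 0) (nat_lit 0) (nat_lit 0) (nat_lit 1) (nat_lit 0) (nat_lit 1) (nat_lit 0) (nat_lit 404) (nat_lit 409) (nat_lit 267))) (XT.nd (nat_lit 94) (nat_lit 0) (nat_lit 0) (XT.lf (nat_lit 0) (nat_lit 46630610662) (nat_lit 0) (nat_lit 0) (nat_lit 0) (nat_lit 0) (nat_lit 0) (nat_lit 0) (nat_lit 1) (nat_lit 0) (nat_lit 1) (nat_lit 0) (nat_lit 405) (nat_lit 409) (nat_lit 266)) (XT.lf (nat_lit 0) (nat_lit 46630553286) (nat_lit 0) (nat_lit 0) (nat_lit 0) (nat_lit 0) (nat_lit 0) (nat_lit 0) (nat_lit 1) (nat_lit 0) (nat_lit 1) (nat_lit 0) (nat_lit 406) (nat_lit 409) (nat_lit 265)))) (XT.nd (nat_lit 188) (nat_lit 0) (nat_lit 0) (XT.nd (nat_lit 94) (nat_lit 0) (nat_lit 0) (XT.lf (nat_lit 0) (nat_lit 46630500159) (nat_lit 0) (nat_lit 0)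 (nat_lit 0) (nat_lit 0) (nat_lit 0) (nat_lit 0) (nat_lit 1) (nat_lit 0) (nat_lit 1) (nat_lit 0) (nat_lit 407) (nat_lit 409) (nat_lit 264)) (XT.lf (nat_lit 0) (nat_lit 46630450968) (nat_lit 0) (nat_lit 0) (nat_lit 0) (nat_lit 0) (nat_lit 0) (nat_lit 0) (nat_lit 1) (nat_lit 0) (nat_lit 1) (nat_lit 0) (nat_lit 408) (nat_lit 409) (nat_lit 263))) (XT.nd (nat_lit 94) (nat_lit 0) (nat_lit 0) (XT.lf (nat_lit 0) (nat_lit 46630405421) (nat_lit 0) (nat_lit 0) (nat_lit 0) (nat_lit 0) (nat_lit 0) (nat_lit 0) (nat_lit 1) (nat_lit 0) (nat_lit 1) (nat_lit 0) (nat_lit 409) (nat_lit 409) (nat_lit 262)) (XT.nd (nat_lit 94) (nat_lit 0) (nat_lit 0) (XT.lf (nat_lit 0) (nat_lit 46630363248) (nat_lit 0) (nat_lit 0) (nat_lit 0) (nat_lit 0) (nat_lit 0) (nat_lit 0) (nat_lit 1) (nat_lit 0) (nat_lit 1) (nat_lit 0) (nat_lit 410) (nat_lit 409) (nat_lit 261)) (XT.lf (nat_lit 0) (nat_lit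 46630324198) (nat_lit 0) (nat_lit 0) (nat_lit 0) (nat_lit 0) (nat_lit 0) (nat_lit 0) (nat_lit 1) (nat_lit 0) (nat_lit 1) (nat_lit 0) (nat_lit 411) (nat_lit 409) (nat_lit 260))))))) (XT.nd (nat_lit 846) (nat_lit 0) (nat_lit 0) (XT.nd (nat_lit 376) (nat_lit 0) (nat_lit 0) (XT.nd (nat_lit 188) (nat_lit 0) (nat_lit 0) (XT.nd (nat_lit 94) (nat_lit 0) (nat_lit 0) (XT.lf (nat_lit 0) (nat_lit 46630288042) (nat_lit 0) (nat_lit 0) (nat_lit 0) (nat_lit 0) (nat_lit 0) (nat_lit 0) (nat_lit 1) (nat_lit 0) (nat_lit 1) (nat_lit 0) (nat_lit 412) (nat_lit 409) (nat_lit 259)) (XT.lf (nat_lit 0) (nat_lit 46630254563) (nat_lit 0) (nat_lit 0) (nat_lit 0) (nat_lit 0) (nat_lit 0) (nat_lit 0) (nat_lit 1) (nat_lit 0) (nat_lit 1) (nat_lit 0) (nat_lit 413) (nat_lit 409) (nat_lit 258))) (XT.nd (nat_lit 94) (nat_lit 0) (nat_lit 0) (XT.lf (nat_lit 0) (nat_lit 46630223564) (nat_lit 0) (nat_lit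 0) (nat_lit 0) (nat_lit 0) (nat_lit 0) (nat_lit 0) (nat_lit 1) (nat_lit 0) (nat_lit 1) (nat_lit 0) (nat_lit 414) (nat_lit 409) (nat_lit 257)) (XT.lf (nat_lit 0) (nat_lit 46630194862) (nat_lit 0) (nat_lit 0) (nat_lit 0) (nat_lit 0) (nat_lit 0) (nat_lit 0) (nat_lit 1) (nat_lit 0) (nat_lit 1) (nat_lit 0) (nat_lit 415) (nat_lit 409) (nat_lit 256)))) (XT.nd (nat_lit 188) (nat_lit 0) (nat_lit 0) (XT.nd (nat_lit 94) (nat_lit 0) (nat_lit 0) (XT.lf (nat_lit 0) (nat_lit 46630168286) (nat_lit 0) (nat_lit 0) (nat_lit 0) (nat_lit 0) (nat_lit 0) (nat_lit 0) (nat_lit 1) (nat_lit 0) (nat_lit 1) (nat_lit 0) (nat_lit 416) (nat_lit 409) (nat_lit 255)) (XT.lf (nat_lit 0) (nat_lit 46630143678) (nat_lit 0) (nat_lit 0) (nat_lit 0) (nat_lit 0) (nat_lit 0) (nat_lit 0) (nat_lit 1) (nat_lit 0) (nat_lit 1) (nat_lit 0) (nat_lit 417) (nat_lit 409) (nat_lit 254))) (XT.nd (nat_lit 94) (nat_lit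 0) (nat_lit 0) (XT.lf (nat_lit 0) (nat_lit 46630120893) (nat_lit 0) (nat_lit 0) (nat_lit 0) (nat_lit 0) (nat_lit 0) (nat_lit 0) (nat_lit 1) (nat_lit 0) (nat_lit 1) (nat_lit 0) (nat_lit 418) (nat_lit 409) (nat_lit 253)) (XT.nd (nat_lit 94) (nat_lit 0) (nat_lit 0) (XT.lf (nat_lit 0) (nat_lit 46630099796) (nat_lit 0) (nat_lit 0) (nat_lit 0) (nat_lit 0) (nat_lit 0) (nat_lit 0) (nat_lit 1) (nat_lit 0) (nat_lit 1) (nat_lit 0) (nat_lit 419) (nat_lit 409) (nat_lit 252)) (XT.lf (nat_lit 0) (nat_lit 46630080261) (nat_lit 0) (nat_lit 0) (nat_lit 0) (nat_lit 0) (nat_lit 0) (nat_lit 0) (nat_lit 1) (nat_lit 0) (nat_lit 1) (nat_lit 0) (nat_lit 420) (nat_lit 409) (nat_lit 251)))))) (XT.nd (nat_lit 470) (nat_lit 0) (nat_lit 0) (XT.nd (nat_lit 188) (nat_lit 0) (nat_lit 0) (XT.nd (nat_lit 94) (nat_lit 0) (nat_lit 0) (XT.lf (nat_lit 0) (nat_lit 46630062174) (nat_lit 0) (nat_lit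 0) (nat_lit 0) (nat_lit 0) (nat_lit 0) (nat_lit 0) (nat_lit 1) (nat_lit 0) (nat_lit 1) (nat_lit 0) (nat_lit 421) (nat_lit 409) (nat_lit 250)) (XT.lf (nat_lit 0) (nat_lit 46630045426) (nat_lit 0) (nat_lit 0) (nat_lit 0) (nat_lit 0) (nat_lit 0) (nat_lit 0) (nat_lit 1) (nat_lit 0) (nat_lit 1) (nat_lit 0) (nat_lit 422) (nat_lit 409) (nat_lit 249))) (XT.nd (nat_lit 94) (nat_lit 0) (nat_lit 0) (XT.lf (nat_lit 0) (nat_lit 46630029919) (nat_lit 0) (nat_lit 0) (nat_lit 0) (nat_lit 0) (nat_lit 0) (nat_lit 0) (nat_lit 1) (nat_lit 0) (nat_lit 1) (nat_lit 0) (nat_lit 423) (nat_lit 409) (nat_lit 248)) (XT.nd (nat_lit 94) (nat_lit 0) (nat_lit 0) (XT.lf (nat_lit 0) (nat_lit 46630015561) (nat_lit 0) (nat_lit 0) (nat_lit 0) (nat_lit 0) (nat_lit 0) (nat_lit 0) (nat_lit 1) (nat_lit 0) (nat_lit 1) (nat_lit 0) (nat_lit 424) (nat_lit 409) (nat_lit 247)) (XT.lf (nat_lit 0) (nat_lit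 46630002266) (nat_lit 0) (nat_lit 0) (nat_lit 0) (nat_lit 0) (nat_lit 0) (nat_lit 0) (nat_lit 1) (nat_lit 0) (nat_lit 1) (nat_lit 0) (nat_lit 425) (nat_lit 409) (nat_lit 246))))) (XT.nd (nat_lit 188) (nat_lit 0) (nat_lit 0) (XT.nd (nat_lit 94) (nat_lit 0) (nat_lit 0) (XT.lf (nat_lit 0) (nat_lit 46629989956) (nat_lit 0) (nat_lit 0) (nat_lit 0) (nat_lit 0) (nat_lit 0) (nat_lit 0) (nat_lit 1) (nat_lit 0) (nat_lit 1) (nat_lit 0) (nat_lit 426) (nat_lit 409) (nat_lit 245)) (XT.lf (nat_lit 0) (nat_lit 46629978558) (nat_lit 0) (nat_lit 0) (nat_lit 0) (nat_lit 0) (nat_lit 0) (nat_lit 0) (nat_lit 1) (nat_lit 0) (nat_lit 1) (nat_lit 0) (nat_lit 427) (nat_lit 409) (nat_lit 244))) (XT.nd (nat_lit 94) (nat_lit 0) (nat_lit 0) (XT.lf (nat_lit 0) (nat_lit 46629968004) (nat_lit 0) (nat_lit 0) (nat_lit 0) (nat_lit 0) (nat_lit 0) (nat_lit 0) (nat_lit 1) (nat_lit 0) (nat_lit 1)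 (nat_lit 0) (nat_lit 428) (nat_lit 409) (nat_lit 243)) (XT.nd (nat_lit 94) (nat_lit 0) (nat_lit 0) (XT.lf (nat_lit 0) (nat_lit 46629958232) (nat_lit 0) (nat_lit 0) (nat_lit 0) (nat_lit 0) (nat_lit 0) (nat_lit 0) (nat_lit 1) (nat_lit 0) (nat_lit 1) (nat_lit 0) (nat_lit 429) (nat_lit 409) (nat_lit 242)) (XT.lf (nat_lit 0) (nat_lit 46629949184) (nat_lit 0) (nat_lit 0) (nat_lit 0) (nat_lit 0) (nat_lit 0) (nat_lit 0) (nat_lit 1) (nat_lit 0) (nat_lit 1) (nat_lit 0) (nat_lit 430) (nat_lit 409) (nat_lit 241))))))))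
noncomputable def ec195 : XT := (XT.nd (nat_lit 52452) (nat_lit 0) (nat_lit 4620) (XT.nd (nat_lit 846) (nat_lit 0) (nat_lit 0) (XT.nd (nat_lit 376) (nat_lit 0) (nat_lit 0) (XT.nd (nat_lit 188) (nat_lit 0) (nat_lit 0) (XT.nd (nat_lit 94) (nat_lit 0) (nat_lit 0) (XT.lf (nat_lit 0) (nat_lit 46629940806) (nat_lit 0) (nat_lit 0) (nat_lit 0) (nat_lit 0) (nat_lit 0) (nat_lit 0) (nat_lit 1) (nat_lit 0) (nat_lit 1) (nat_lit 0) (nat_lit 431) (nat_lit 409) (nat_lit 240)) (XT.lf (nat_lit 0) (nat_lit 46629933048) (nat_lit 0) (nat_lit 0) (nat_lit 0) (nat_lit 0) (nat_lit 0) (nat_lit 0) (nat_lit 1) (nat_lit 0) (nat_lit 1) (nat_lit 0) (nat_lit 432) (nat_lit 409) (nat_lit 239))) (XT.nd (nat_lit 94) (nat_lit 0) (nat_lit 0) (XT.lf (nat_lit 0) (nat_lit 46629925866) (nat_lit 0) (nat_lit 0) (nat_lit 0) (nat_lit 0) (nat_lit 0) (nat_lit 0) (nat_lit 1) (nat_lit 0) (nat_lit 1) (nat_lit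 0) (nat_lit 433) (nat_lit 409) (nat_lit 238)) (XT.lf (nat_lit 0) (nat_lit 46629919215) (nat_lit 0) (nat_lit 0) (nat_lit 0) (nat_lit 0) (nat_lit 0) (nat_lit 0) (nat_lit 1) (nat_lit 0) (nat_lit 1) (nat_lit 0) (nat_lit 434) (nat_lit 409) (nat_lit 237)))) (XT.nd (nat_lit 188) (nat_lit 0) (nat_lit 0) (XT.nd (nat_lit 94) (nat_lit 0) (nat_lit 0) (XT.lf (nat_lit 0) (nat_lit 46629913057) (nat_lit 0) (nat_lit 0) (nat_lit 0) (nat_lit 0) (nat_lit 0) (nat_lit 0) (nat_lit 1) (nat_lit 0) (nat_lit 1) (nat_lit 0) (nat_lit 435) (nat_lit 409) (nat_lit 236)) (XT.lf (nat_lit 0) (nat_lit 46629907355) (nat_lit 0) (nat_lit 0) (nat_lit 0) (nat_lit 0) (nat_lit 0) (nat_lit 0) (nat_lit 1) (nat_lit 0) (nat_lit 1) (nat_lit 0) (nat_lit 436) (nat_lit 409) (nat_lit 235))) (XT.nd (nat_lit 94) (nat_lit 0) (nat_lit 0) (XT.lf (nat_lit 0) (nat_lit 46629902075) (nat_lit 0) (nat_lit 0) (nat_lit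 0) (nat_lit 0) (nat_lit 0) (nat_lit 0) (nat_lit 1) (nat_lit 0) (nat_lit 1) (nat_lit 0) (nat_lit 437) (nat_lit 409) (nat_lit 234)) (XT.nd (nat_lit 94) (nat_lit 0) (nat_lit 0) (XT.lf (nat_lit 0) (nat_lit 46629897187) (nat_lit 0) (nat_lit 0) (nat_lit 0) (nat_lit 0) (nat_lit 0) (nat_lit 0) (nat_lit 1) (nat_lit 0) (nat_lit 1) (nat_lit 0) (nat_lit 438) (nat_lit 409) (nat_lit 233)) (XT.lf (nat_lit 0) (nat_lit 46629892660) (nat_lit 0) (nat_lit 0) (nat_lit 0) (nat_lit 0) (nat_lit 0) (nat_lit 0) (nat_lit 1) (nat_lit 0) (nat_lit 1) (nat_lit 0) (nat_lit 439) (nat_lit 409) (nat_lit 232)))))) (XT.nd (nat_lit 51136) (nat_lit 0) (nat_lit 10332) (XT.nd (nat_lit 50854) (nat_lit 0) (nat_lit 10752) (XT.nd (nat_lit 94) (nat_lit 0) (nat_lit 0) (XT.lf (nat_lit 0) (nat_lit 46629888469) (nat_lit 0) (nat_lit 0) (nat_lit 0) (nat_lit 0) (nat_lit 0) (nat_lit 0) (nat_lit 1) (nat_lit 0)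 (nat_lit 1) (nat_lit 0) (nat_lit 440) (nat_lit 409) (nat_lit 231)) (XT.lf (nat_lit 0) (nat_lit 46629884589) (nat_lit 0) (nat_lit 0) (nat_lit 0) (nat_lit 0) (nat_lit 0) (nat_lit 0) (nat_lit 1) (nat_lit 0) (nat_lit 1) (nat_lit 0) (nat_lit 441) (nat_lit 409) (nat_lit 230))) (XT.nd (nat_lit 94) (nat_lit 0) (nat_lit 84) (XT.lf (nat_lit 924) (nat_lit 25202141946) (nat_lit 0) (nat_lit 44746345096) (nat_lit 924) (nat_lit 25202141946) (nat_lit 139) (nat_lit 1) (nat_lit 128) (nat_lit 0) (nat_lit 139) (nat_lit 0) (nat_lit 260) (nat_lit 410) (nat_lit 410)) (XT.nd (nat_lit 94) (nat_lit 0) (nat_lit 0) (XT.lf (nat_lit 924) (nat_lit 9401172251) (nat_lit 0) (nat_lit 87850636979) (nat_lit 840) (nat_lit 85917629463) (nat_lit 140) (nat_lit 1) (nat_lit 129) (nat_lit 1) (nat_lit 139) (nat_lit 1) (nat_lit 261) (nat_lit 410) (nat_lit 409)) (XT.lf (nat_lit 924) (nat_lit 86344340698)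 (nat_lit 84) (nat_lit 58833601197) (nat_lit 0) (nat_lit 31202658315) (nat_lit 140) (nat_lit 1) (nat_lit 130) (nat_lit 1) (nat_lit 129) (nat_lit 1) (nat_lit 262) (nat_lit 410) (nat_lit 408))))) (XT.nd (nat_lit 188) (nat_lit 588) (nat_lit 0) (XT.nd (nat_lit 94) (nat_lit 0) (nat_lit 84) (XT.lf (nat_lit 924) (nat_lit 74608583794) (nat_lit 84) (nat_lit 24656754465) (nat_lit 0) (nat_lit 70666154166) (nat_lit 141) (nat_lit 1) (nat_lit 131) (nat_lit 1) (nat_lit 130) (nat_lit 1) (nat_lit 263) (nat_lit 410) (nat_lit 407)) (XT.lf (nat_lit 924) (nat_lit 55216695009) (nat_lit 0) (nat_lit 103307826381) (nat_lit 840) (nat_lit 5281081324) (nat_lit 142) (nat_lit 1) (nat_lit 131) (nat_lit 1) (nat_lit 141) (nat_lit 1) (nat_lit 264) (nat_lit 410) (nat_lit 406))) (XT.nd (nat_lit 94) (nat_lit 756) (nat_lit 0) (XT.lf (nat_lit 924) (nat_lit 13248704582) (nat_lit 0) (nat_lit 113925578613)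 (nat_lit 840) (nat_lit 30797983924) (nat_lit 143) (nat_lit 1) (nat_lit 132) (nat_lit 1) (nat_lit 142) (nat_lit 1) (nat_lit 265) (nat_lit 410) (nat_lit 405)) (XT.nd (nat_lit 94) (nat_lit 756) (nat_lit 0) (XT.lf (nat_lit 924) (nat_lit 25458621503) (nat_lit 84) (nat_lit 99010605173) (nat_lit 0) (nat_lit 27942014338) (nat_lit 143) (nat_lit 1) (nat_lit 133) (nat_lit 1) (nat_lit 132) (nat_lit 1) (nat_lit 266) (nat_lit 410) (nat_lit 404)) (XT.lf (nat_lit 924) (nat_lit 5228620322) (nat_lit 0) (nat_lit 74016976666) (nat_lit 840) (nat_lit 67872792065) (nat_lit 134) (nat_lit 1) (nat_lit 123) (nat_lit 1) (nat_lit 133) (nat_lit 1) (nat_lit 267) (nat_lit 410) (nat_lit 403))))))) (XT.nd (nat_lit 846) (nat_lit 2604) (nat_lit 0) (XT.nd (nat_lit 376) (nat_lit 1344) (nat_lit 0) (XT.nd (nat_lit 188) (nat_lit 756) (nat_lit 0) (XT.nd (nat_lit 94) (nat_lit 420) (nat_lit 0) (XT.lf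 (nat_lit 84) (nat_lit 36204056277) (nat_lit 0) (nat_lit 15688902385) (nat_lit 588) (nat_lit 90183189860) (nat_lit 117) (nat_lit 1) (nat_lit 116) (nat_lit 1) (nat_lit 123) (nat_lit 1) (nat_lit 268) (nat_lit 410) (nat_lit 402)) (XT.lf (nat_lit 504) (nat_lit 99773822210) (nat_lit 0) (nat_lit 32478530079) (nat_lit 420) (nat_lit 5021381432) (nat_lit 117) (nat_lit 1) (nat_lit 111) (nat_lit 1) (nat_lit 116) (nat_lit 1) (nat_lit 269) (nat_lit 410) (nat_lit 401))) (XT.nd (nat_lit 94) (nat_lit 336) (nat_lit 0) (XT.lf (nat_lit 504) (nat_lit 71997740225) (nat_lit 0) (nat_lit 15138382776) (nat_lit 420) (nat_lit 45541691169) (nat_lit 112) (nat_lit 1) (nat_lit 106) (nat_lit 1) (nat_lit 111) (nat_lit 1) (nat_lit 270) (nat_lit 410) (nat_lit 400)) (XT.lf (nat_lit 420) (nat_lit 43809706672) (nat_lit 0) (nat_lit 278722228) (nat_lit 336) (nat_lit 84216311864) (nat_lit 107) (nat_lit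 1) (nat_lit 102) (nat_lit 1) (nat_lit 106) (nat_lit 1) (nat_lit 271) (nat_lit 410) (nat_lit 399)))) (XT.nd (nat_lit 188) (nat_lit 924) (nat_lit 0) (XT.nd (nat_lit 94) (nat_lit 420) (nat_lit 0) (XT.lf (nat_lit 84) (nat_lit 3232073114) (nat_lit 0) (nat_lit 109001166690) (nat_lit 420) (nat_lit 11899596740) (nat_lit 103) (nat_lit 1) (nat_lit 102) (nat_lit 1) (nat_lit 107) (nat_lit 1) (nat_lit 272) (nat_lit 410) (nat_lit 398)) (XT.lf (nat_lit 84) (nat_lit 83452966110) (nat_lit 0) (nat_lit 13841567370) (nat_lit 420) (nat_lit 22827258413) (nat_lit 98) (nat_lit 1) (nat_lit 97) (nat_lit 1) (nat_lit 102) (nat_lit 1) (nat_lit 273) (nat_lit 410) (nat_lit 397))) (XT.nd (nat_lit 94) (nat_lit 588) (nat_lit 0) (XT.lf (nat_lit 84) (nat_lit 41753633697) (nat_lit 0) (nat_lit 42399177959) (nat_lit 420) (nat_lit 32135163992) (nat_lit 94) (nat_lit 1) (nat_lit 93) (nat_lit 1) (nat_lit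 98) (nat_lit 1) (nat_lit 274) (nat_lit 410) (nat_lit 396)) (XT.nd (nat_lit 94) (nat_lit 252) (nat_lit 0) (XT.lf (nat_lit 84) (nat_lit 2060866772) (nat_lit 0) (nat_lit 70890767182) (nat_lit 420) (nat_lit 39684043976) (nat_lit 90) (nat_lit 1) (nat_lit 89) (nat_lit 1) (nat_lit 94) (nat_lit 1) (nat_lit 275) (nat_lit 410) (nat_lit 395)) (XT.lf (nat_lit 336) (nat_lit 9306758193) (nat_lit 0) (nat_lit 62937150802) (nat_lit 252) (nat_lit 36882616824) (nat_lit 90) (nat_lit 1) (nat_lit 86) (nat_lit 1) (nat_lit 89) (nat_lit 1) (nat_lit 276) (nat_lit 410) (nat_lit 394)))))) (XT.nd (nat_lit 470) (nat_lit 1092) (nat_lit 0) (XT.nd (nat_lit 188) (nat_lit 840) (nat_lit 0) (XT.nd (nat_lit 94) (nat_lit 252) (nat_lit 0) (XT.lf (nat_lit 84) (nat_lit 32157351771) (nat_lit 0) (nat_lit 22040848721) (nat_lit 420) (nat_lit 51564142652) (nat_lit 82) (nat_lit 1) (nat_lit 81) (nat_lit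 1) (nat_lit 86) (nat_lit 1) (nat_lit 277) (nat_lit 410) (nat_lit 393)) (XT.lf (nat_lit 336) (nat_lit 49787315387) (nat_lit 0) (nat_lit 46768747947) (nat_lit 252) (nat_lit 5986344230) (nat_lit 82) (nat_lit 1) (nat_lit 78) (nat_lit 1) (nat_lit 81) (nat_lit 1) (nat_lit 278) (nat_lit 410) (nat_lit 392))) (XT.nd (nat_lit 94) (nat_lit 588) (nat_lit 0) (XT.lf (nat_lit 336) (nat_lit 15956594056) (nat_lit 0) (nat_lit 40265976821) (nat_lit 252) (nat_lit 43223644134) (nat_lit 79) (nat_lit 1) (nat_lit 75) (nat_lit 1) (nat_lit 78) (nat_lit 1) (nat_lit 279) (nat_lit 410) (nat_lit 391)) (XT.nd (nat_lit 94) (nat_lit 252) (nat_lit 0) (XT.lf (nat_lit 84) (nat_lit 18186661596) (nat_lit 0) (nat_lit 16651469148) (nat_lit 336) (nat_lit 61640482418) (nat_lit 72) (nat_lit 1) (nat_lit 71) (nat_lit 1) (nat_lit 75) (nat_lit 1) (nat_lit 280) (nat_lit 410) (nat_lit 390)) (XT.lf (nat_lit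 336) (nat_lit 45255120390) (nat_lit 0) (nat_lit 30111080082) (nat_lit 252) (nat_lit 18253435746) (nat_lit 72) (nat_lit 1) (nat_lit 68) (nat_lit 1) (nat_lit 71) (nat_lit 1) (nat_lit 281) (nat_lit 410) (nat_lit 389))))) (XT.nd (nat_lit 188) (nat_lit 588) (nat_lit 0) (XT.nd (nat_lit 94) (nat_lit 336) (nat_lit 0) (XT.lf (nat_lit 252) (nat_lit 11218811167) (nat_lit 0) (nat_lit 26269721064) (nat_lit 168) (nat_lit 53387466151) (nat_lit 69) (nat_lit 1) (nat_lit 66) (nat_lit 1) (nat_lit 68) (nat_lit 1) (nat_lit 282) (nat_lit 410) (nat_lit 388)) (XT.lf (nat_lit 84) (nat_lit 1900538286) (nat_lit 0) (nat_lit 21267436008) (nat_lit 336) (nat_lit 65070736880) (nat_lit 63) (nat_lit 1) (nat_lit 62) (nat_lit 1) (nat_lit 66) (nat_lit 1) (nat_lit 283) (nat_lit 410) (nat_lit 387))) (XT.nd (nat_lit 94) (nat_lit 420) (nat_lit 0) (XT.lf (nat_lit 252) (nat_lit 32599806744) (nat_lit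 0) (nat_lit 20372082483) (nat_lit 168) (nat_lit 32713254400) (nat_lit 63) (nat_lit 1) (nat_lit 60) (nat_lit 1) (nat_lit 62) (nat_lit 1) (nat_lit 284) (nat_lit 410) (nat_lit 386)) (XT.nd (nat_lit 94) (nat_lit 168) (nat_lit 0) (XT.lf (nat_lit 84) (nat_lit 17687292785) (nat_lit 0) (nat_lit 816987142) (nat_lit 252) (nat_lit 64738725041) (nat_lit 58) (nat_lit 1) (nat_lit 57) (nat_lit 1) (nat_lit 60) (nat_lit 1) (nat_lit 285) (nat_lit 410) (nat_lit 385)) (XT.lf (nat_lit 252) (nat_lit 48353642977) (nat_lit 0) (nat_lit 16755621471) (nat_lit 168) (nat_lit 15762641937) (nat_lit 58) (nat_lit 1) (nat_lit 55) (nat_lit 1) (nat_lit 57) (nat_lit 1) (nat_lit 286) (nat_lit 410) (nat_lit 384))))))))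
noncomputable def ec196 : XT := (XT.nd (nat_lit 1692) (nat_lit 1764) (nat_lit 0) (XT.nd (nat_lit 846) (nat_lit 1260) (nat_lit 0) (XT.nd (nat_lit 376) (nat_lit 840) (nat_lit 0) (XT.nd (nat_lit 188) (nat_lit 336) (nat_lit 0) (XT.nd (nat_lit 94) (nat_lit 252) (nat_lit 0) (XT.lf (nat_lit 252) (nat_lit 15020579174) (nat_lit 0) (nat_lit 15576203022) (nat_lit 168) (nat_lit 47994683082) (nat_lit 56) (nat_lit 1) (nat_lit 53) (nat_lit 1) (nat_lit 55) (nat_lit 1) (nat_lit 287) (nat_lit 410) (nat_lit 383)) (XT.lf (nat_lit 252) (nat_lit 59626179104) (nat_lit 0) (nat_lit 14881797744) (nat_lit 168) (nat_lit 1887928697) (nat_lit 53) (nat_lit 1) (nat_lit 50) (nat_lit 1) (nat_lit 52) (nat_lit 1) (nat_lit 288) (nat_lit 410) (nat_lit 382))) (XT.nd (nat_lit 94) (nat_lit 168) (nat_lit 0) (XT.lf (nat_lit 252) (nat_lit 26685914327) (nat_lit 0) (nat_lit 14207099496) (nat_lit 168)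 (nat_lit 33368339665) (nat_lit 51) (nat_lit 1) (nat_lit 48) (nat_lit 1) (nat_lit 50) (nat_lit 1) (nat_lit 289) (nat_lit 410) (nat_lit 381)) (XT.lf (nat_lit 84) (nat_lit 9140955971) (nat_lit 0) (nat_lit 5024281305) (nat_lit 168) (nat_lit 58050099857) (nat_lit 47) (nat_lit 1) (nat_lit 46) (nat_lit 1) (nat_lit 48) (nat_lit 1) (nat_lit 290) (nat_lit 410) (nat_lit 380)))) (XT.nd (nat_lit 188) (nat_lit 588) (nat_lit 0) (XT.nd (nat_lit 94) (nat_lit 84) (nat_lit 0) (XT.lf (nat_lit 252) (nat_lit 35013454323) (nat_lit 0) (nat_lit 14015243182) (nat_lit 168) (nat_lit 21192252552) (nat_lit 47) (nat_lit 1) (nat_lit 44) (nat_lit 1) (nat_lit 46) (nat_lit 1) (nat_lit 291) (nat_lit 410) (nat_lit 379)) (XT.lf (nat_lit 168) (nat_lit 3770451495) (nat_lit 0) (nat_lit 14359475666) (nat_lit 84) (nat_lit 50175371655) (nat_lit 45) (nat_lit 1) (nat_lit 43) (nat_lit 1) (nat_lit 44) (nat_lit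 1) (nat_lit 292) (nat_lit 410) (nat_lit 378))) (XT.nd (nat_lit 94) (nat_lit 336) (nat_lit 0) (XT.lf (nat_lit 252) (nat_lit 40700631863) (nat_lit 0) (nat_lit 14685911731) (nat_lit 168) (nat_lit 11055924400) (nat_lit 43) (nat_lit 1) (nat_lit 40) (nat_lit 1) (nat_lit 42) (nat_lit 1) (nat_lit 293) (nat_lit 410) (nat_lit 377)) (XT.nd (nat_lit 94) (nat_lit 252) (nat_lit 0) (XT.lf (nat_lit 168) (nat_lit 10236509039) (nat_lit 0) (nat_lit 15235032769) (nat_lit 84) (nat_lit 39170876505) (nat_lit 41) (nat_lit 1) (nat_lit 39) (nat_lit 1) (nat_lit 40) (nat_lit 1) (nat_lit 294) (nat_lit 410) (nat_lit 376)) (XT.lf (nat_lit 252) (nat_lit 44311330194) (nat_lit 0) (nat_lit 15969822907) (nat_lit 168) (nat_lit 2620784648) (nat_lit 39) (nat_lit 1) (nat_lit 36) (nat_lit 1) (nat_lit 38) (nat_lit 1) (nat_lit 295) (nat_lit 410) (nat_lit 375)))))) (XT.nd (nat_lit 376) (nat_lit 588)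 (nat_lit 0) (XT.nd (nat_lit 188) (nat_lit 336) (nat_lit 0) (XT.nd (nat_lit 94) (nat_lit 252) (nat_lit 0) (XT.lf (nat_lit 168) (nat_lit 14731740874) (nat_lit 0) (nat_lit 16648732277) (nat_lit 84) (nat_lit 29827641670) (nat_lit 37) (nat_lit 1) (nat_lit 35) (nat_lit 1) (nat_lit 36) (nat_lit 1) (nat_lit 296) (nat_lit 410) (nat_lit 374)) (XT.lf (nat_lit 84) (nat_lit 4252166685) (nat_lit 0) (nat_lit 13346417762) (nat_lit 252) (nat_lit 41976558151) (nat_lit 33) (nat_lit 1) (nat_lit 32) (nat_lit 1) (nat_lit 35) (nat_lit 1) (nat_lit 297) (nat_lit 410) (nat_lit 373))) (XT.nd (nat_lit 94) (nat_lit 252) (nat_lit 0) (XT.lf (nat_lit 168) (nat_lit 17679418187) (nat_lit 0) (nat_lit 18421115765) (nat_lit 84) (nat_lit 21882190283) (nat_lit 33) (nat_lit 1) (nat_lit 31) (nat_lit 1) (nat_lit 32) (nat_lit 1) (nat_lit 298) (nat_lit 410) (nat_lit 372)) (XT.lf (nat_lit 84) (nat_lit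 9888956414) (nat_lit 0) (nat_lit 9578122977) (nat_lit 252) (nat_lit 36979187962) (nat_lit 29) (nat_lit 1) (nat_lit 28) (nat_lit 1) (nat_lit 31) (nat_lit 1) (nat_lit 299) (nat_lit 410) (nat_lit 371)))) (XT.nd (nat_lit 188) (nat_lit 336) (nat_lit 0) (XT.nd (nat_lit 94) (nat_lit 168) (nat_lit 0) (XT.lf (nat_lit 168) (nat_lit 19420880548) (nat_lit 0) (nat_lit 20412095676) (nat_lit 84) (nat_lit 15116090139) (nat_lit 29) (nat_lit 1) (nat_lit 27) (nat_lit 1) (nat_lit 28) (nat_lit 1) (nat_lit 300) (nat_lit 410) (nat_lit 370)) (XT.lf (nat_lit 84) (nat_lit 14558830565) (nat_lit 0) (nat_lit 6937022265) (nat_lit 168) (nat_lit 32005458188) (nat_lit 26) (nat_lit 1) (nat_lit 25) (nat_lit 1) (nat_lit 27) (nat_lit 1) (nat_lit 301) (nat_lit 410) (nat_lit 369))) (XT.nd (nat_lit 94) (nat_lit 252) (nat_lit 0) (XT.lf (nat_lit 168) (nat_lit 20230845398) (nat_lit 0) (nat_lit 22513282110)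 (nat_lit 84) (nat_lit 9347918662) (nat_lit 26) (nat_lit 1) (nat_lit 24) (nat_lit 1) (nat_lit 25) (nat_lit 1) (nat_lit 302) (nat_lit 410) (nat_lit 368)) (XT.nd (nat_lit 94) (nat_lit 84) (nat_lit 0) (XT.lf (nat_lit 84) (nat_lit 18415567010) (nat_lit 0) (nat_lit 5175109063) (nat_lit 168) (nat_lit 27135452763) (nat_lit 23) (nat_lit 1) (nat_lit 22) (nat_lit 1) (nat_lit 24) (nat_lit 1) (nat_lit 303) (nat_lit 410) (nat_lit 367)) (XT.lf (nat_lit 168) (nat_lit 20329891307) (nat_lit 0) (nat_lit 24641746744) (nat_lit 84) (nat_lit 4426687233) (nat_lit 23) (nat_lit 1) (nat_lit 21) (nat_lit 1) (nat_lit 22) (nat_lit 1) (nat_lit 304) (nat_lit 410) (nat_lit 366))))))) (XT.nd (nat_lit 846) (nat_lit 588) (nat_lit 0) (XT.nd (nat_lit 376) (nat_lit 672) (nat_lit 0) (XT.nd (nat_lit 188) (nat_lit 252) (nat_lit 0) (XT.nd (nat_lit 94) (nat_lit 84) (nat_lit 0) (XT.lf (nat_lit 84) (nat_lit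 21586972320) (nat_lit 0) (nat_lit 4092963038) (nat_lit 168) (nat_lit 22428246680) (nat_lit 20) (nat_lit 1) (nat_lit 19) (nat_lit 1) (nat_lit 21) (nat_lit 1) (nat_lit 305) (nat_lit 410) (nat_lit 365)) (XT.lf (nat_lit 168) (nat_lit 19894634599) (nat_lit 0) (nat_lit 26734958350) (nat_lit 84) (nat_lit 226458058) (nat_lit 20) (nat_lit 1) (nat_lit 18) (nat_lit 1) (nat_lit 19) (nat_lit 1) (nat_lit 306) (nat_lit 410) (nat_lit 364))) (XT.nd (nat_lit 94) (nat_lit 84) (nat_lit 0) (XT.lf (nat_lit 84) (nat_lit 24179478940) (nat_lit 0) (nat_lit 3530627154) (nat_lit 168) (nat_lit 17926187249) (nat_lit 17) (nat_lit 1) (nat_lit 16) (nat_lit 1) (nat_lit 18) (nat_lit 1) (nat_lit 307) (nat_lit 410) (nat_lit 363)) (XT.lf (nat_lit 0) (nat_lit 3250585354) (nat_lit 0) (nat_lit 25441037661) (nat_lit 168) (nat_lit 15760387993) (nat_lit 15) (nat_lit 3) (nat_lit 15) (nat_lit 1) (nat_lit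 17) (nat_lit 1) (nat_lit 308) (nat_lit 410) (nat_lit 362)))) (XT.nd (nat_lit 188) (nat_lit 420) (nat_lit 0) (XT.nd (nat_lit 94) (nat_lit 84) (nat_lit 0) (XT.lf (nat_lit 84) (nat_lit 26281910206) (nat_lit 0) (nat_lit 3360171941) (nat_lit 168) (nat_lit 13658362618) (nat_lit 14) (nat_lit 1) (nat_lit 13) (nat_lit 1) (nat_lit 15) (nat_lit 1) (nat_lit 309) (nat_lit 410) (nat_lit 361)) (XT.lf (nat_lit 0) (nat_lit 6209820595) (nat_lit 0) (nat_lit 24328616978) (nat_lit 168) (nat_lit 11641109755) (nat_lit 12) (nat_lit 3) (nat_lit 12) (nat_lit 1) (nat_lit 14) (nat_lit 1) (nat_lit 310) (nat_lit 410) (nat_lit 360))) (XT.nd (nat_lit 94) (nat_lit 252) (nat_lit 0) (XT.lf (nat_lit 84) (nat_lit 27968565186) (nat_lit 0) (nat_lit 3479636575) (nat_lit 168) (nat_lit 9643408337) (nat_lit 11) (nat_lit 1) (nat_lit 10) (nat_lit 1) (nat_lit 12) (nat_lit 1) (nat_lit 311) (nat_lit 410)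 (nat_lit 359)) (XT.nd (nat_lit 94) (nat_lit 168) (nat_lit 0) (XT.lf (nat_lit 0) (nat_lit 8730316672) (nat_lit 0) (nat_lit 23524552402) (nat_lit 168) (nat_lit 7775318291) (nat_lit 9) (nat_lit 3) (nat_lit 9) (nat_lit 1) (nat_lit 11) (nat_lit 1) (nat_lit 312) (nat_lit 410) (nat_lit 358)) (XT.lf (nat_lit 84) (nat_lit 29301747443) (nat_lit 0) (nat_lit 3808093365) (nat_lit 168) (nat_lit 5891775017) (nat_lit 8) (nat_lit 1) (nat_lit 7) (nat_lit 1) (nat_lit 9) (nat_lit 1) (nat_lit 313) (nat_lit 410) (nat_lit 357)))))) (XT.nd (nat_lit 470) (nat_lit 0) (nat_lit 0) (XT.nd (nat_lit 188) (nat_lit 336) (nat_lit 0) (XT.nd (nat_lit 94) (nat_lit 168) (nat_lit 0) (XT.lf (nat_lit 0) (nat_lit 10872625899) (nat_lit 0) (nat_lit 22952314097) (nat_lit 168) (nat_lit 4171146040) (nat_lit 6) (nat_lit 3) (nat_lit 6) (nat_lit 1) (nat_lit 8) (nat_lit 1) (nat_lit 314) (nat_lit 410) (nat_lit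 356)) (XT.lf (nat_lit 84) (nat_lit 30333839141) (nat_lit 0) (nat_lit 4281628805) (nat_lit 168) (nat_lit 2407557427) (nat_lit 5) (nat_lit 1) (nat_lit 4) (nat_lit 1) (nat_lit 6) (nat_lit 1) (nat_lit 315) (nat_lit 410) (nat_lit 355))) (XT.nd (nat_lit 94) (nat_lit 252) (nat_lit 0) (XT.lf (nat_lit 0) (nat_lit 12687961092) (nat_lit 0) (nat_lit 22551185501) (nat_lit 168) (nat_lit 830948049) (nat_lit 3) (nat_lit 3) (nat_lit 3) (nat_lit 1) (nat_lit 5) (nat_lit 1) (nat_lit 316) (nat_lit 410) (nat_lit 354)) (XT.nd (nat_lit 94) (nat_lit 0) (nat_lit 0) (XT.lf (nat_lit 0) (nat_lit 50986741009) (nat_lit 0) (nat_lit 0) (nat_lit 0) (nat_lit 0) (nat_lit 0) (nat_lit 0) (nat_lit 1) (nat_lit 0) (nat_lit 1) (nat_lit 0) (nat_lit 317) (nat_lit 410) (nat_lit 353)) (XT.lf (nat_lit 0) (nat_lit 50940332265) (nat_lit 0) (nat_lit 0) (nat_lit 0) (nat_lit 0) (nat_lit 0) (nat_lit 0) (nat_lit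 1) (nat_lit 0) (nat_lit 1) (nat_lit 0) (nat_lit 318) (nat_lit 410) (nat_lit 352))))) (XT.nd (nat_lit 188) (nat_lit 0) (nat_lit 0) (XT.nd (nat_lit 94) (nat_lit 0) (nat_lit 0) (XT.lf (nat_lit 0) (nat_lit 50897361206) (nat_lit 0) (nat_lit 0) (nat_lit 0) (nat_lit 0) (nat_lit 0) (nat_lit 0) (nat_lit 1) (nat_lit 0) (nat_lit 1) (nat_lit 0) (nat_lit 319) (nat_lit 410) (nat_lit 351)) (XT.lf (nat_lit 0) (nat_lit 50857573188) (nat_lit 0) (nat_lit 0) (nat_lit 0) (nat_lit 0) (nat_lit 0) (nat_lit 0) (nat_lit 1) (nat_lit 0) (nat_lit 1) (nat_lit 0) (nat_lit 320) (nat_lit 410) (nat_lit 350))) (XT.nd (nat_lit 94) (nat_lit 0) (nat_lit 0) (XT.lf (nat_lit 0) (nat_lit 50820732431) (nat_lit 0) (nat_lit 0) (nat_lit 0) (nat_lit 0) (nat_lit 0) (nat_lit 0) (nat_lit 1) (nat_lit 0) (nat_lit 1) (nat_lit 0) (nat_lit 321) (nat_lit 410) (nat_lit 349)) (XT.nd (nat_lit 94) (nat_lit 0) (nat_lit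 0) (XT.lf (nat_lit 0) (nat_lit 50786620619) (nat_lit 0) (nat_lit 0) (nat_lit 0) (nat_lit 0) (nat_lit 0) (nat_lit 0) (nat_lit 1) (nat_lit 0) (nat_lit 1) (nat_lit 0) (nat_lit 322) (nat_lit 410) (nat_lit 348)) (XT.lf (nat_lit 0) (nat_lit 50755035608) (nat_lit 0) (nat_lit 0) (nat_lit 0) (nat_lit 0) (nat_lit 0) (nat_lit 0) (nat_lit 1) (nat_lit 0) (nat_lit 1) (nat_lit 0) (nat_lit 323) (nat_lit 410) (nat_lit 347))))))))
noncomputable def ec197 : XT := (XT.nd (nat_lit 1786) (nat_lit 0) (nat_lit 0) (XT.nd (nat_lit 846) (nat_lit 0) (nat_lit 0) (XT.nd (nat_lit 376) (nat_lit 0) (nat_lit 0) (XT.nd (nat_lit 188) (nat_lit 0) (nat_lit 0) (XT.nd (nat_lit 94) (nat_lit 0) (nat_lit 0) (XT.lf (nat_lit 0) (nat_lit 50725790227) (nat_lit 0) (nat_lit 0) (nat_lit 0) (nat_lit 0) (nat_lit 0) (nat_lit 0) (nat_lit 1) (nat_lit 0) (nat_lit 1) (nat_lit 0) (nat_lit 324) (nat_lit 410) (nat_lit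 346)) (XT.lf (nat_lit 0) (nat_lit 50698711171) (nat_lit 0) (nat_lit 0) (nat_lit 0) (nat_lit 0) (nat_lit 0) (nat_lit 0) (nat_lit 1) (nat_lit 0) (nat_lit 1) (nat_lit 0) (nat_lit 325) (nat_lit 410) (nat_lit 345))) (XT.nd (nat_lit 94) (nat_lit 0) (nat_lit 0) (XT.lf (nat_lit 0) (nat_lit 50673637971) (nat_lit 0) (nat_lit 0) (nat_lit 0) (nat_lit 0) (nat_lit 0) (nat_lit 0) (nat_lit 1) (nat_lit 0) (nat_lit 1) (nat_lit 0) (nat_lit 326) (nat_lit 410) (nat_lit 344)) (XT.lf (nat_lit 0) (nat_lit 50650422044) (nat_lit 0) (nat_lit 0) (nat_lit 0) (nat_lit 0) (nat_lit 0) (nat_lit 0) (nat_lit 1) (nat_lit 0) (nat_lit 1) (nat_lit 0) (nat_lit 327) (nat_lit 410) (nat_lit 343)))) (XT.nd (nat_lit 188) (nat_lit 0) (nat_lit 0) (XT.nd (nat_lit 94) (nat_lit 0) (nat_lit 0) (XT.lf (nat_lit 0) (nat_lit 50628925816) (nat_lit 0) (nat_lit 0) (nat_lit 0) (nat_lit 0) (nat_lit 0) (nat_lit 0) (nat_lit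 1) (nat_lit 0) (nat_lit 1) (nat_lit 0) (nat_lit 328) (nat_lit 410) (nat_lit 342)) (XT.lf (nat_lit 0) (nat_lit 50609021902) (nat_lit 0) (nat_lit 0) (nat_lit 0) (nat_lit 0) (nat_lit 0) (nat_lit 0) (nat_lit 1) (nat_lit 0) (nat_lit 1) (nat_lit 0) (nat_lit 329) (nat_lit 410) (nat_lit 341))) (XT.nd (nat_lit 94) (nat_lit 0) (nat_lit 0) (XT.lf (nat_lit 0) (nat_lit 50590592351) (nat_lit 0) (nat_lit 0) (nat_lit 0) (nat_lit 0) (nat_lit 0) (nat_lit 0) (nat_lit 1) (nat_lit 0) (nat_lit 1) (nat_lit 0) (nat_lit 330) (nat_lit 410) (nat_lit 340)) (XT.nd (nat_lit 94) (nat_lit 0) (nat_lit 0) (XT.lf (nat_lit 0) (nat_lit 50573527952) (nat_lit 0) (nat_lit 0) (nat_lit 0) (nat_lit 0) (nat_lit 0) (nat_lit 0) (nat_lit 1) (nat_lit 0) (nat_lit 1) (nat_lit 0) (nat_lit 331) (nat_lit 410) (nat_lit 339)) (XT.lf (nat_lit 0) (nat_lit 50557727583) (nat_lit 0) (nat_lit 0) (nat_lit 0) (nat_lit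 0) (nat_lit 0) (nat_lit 0) (nat_lit 1) (nat_lit 0) (nat_lit 1) (nat_lit 0) (nat_lit 332) (nat_lit 410) (nat_lit 338)))))) (XT.nd (nat_lit 470) (nat_lit 0) (nat_lit 0) (XT.nd (nat_lit 188) (nat_lit 0) (nat_lit 0) (XT.nd (nat_lit 94) (nat_lit 0) (nat_lit 0) (XT.lf (nat_lit 0) (nat_lit 50543097612) (nat_lit 0) (nat_lit 0) (nat_lit 0) (nat_lit 0) (nat_lit 0) (nat_lit 0) (nat_lit 1) (nat_lit 0) (nat_lit 1) (nat_lit 0) (nat_lit 333) (nat_lit 410) (nat_lit 337)) (XT.lf (nat_lit 0) (nat_lit 50529551342) (nat_lit 0) (nat_lit 0) (nat_lit 0) (nat_lit 0) (nat_lit 0) (nat_lit 0) (nat_lit 1) (nat_lit 0) (nat_lit 1) (nat_lit 0) (nat_lit 334) (nat_lit 410) (nat_lit 336))) (XT.nd (nat_lit 94) (nat_lit 0) (nat_lit 0) (XT.lf (nat_lit 0) (nat_lit 50517008499) (nat_lit 0) (nat_lit 0) (nat_lit 0) (nat_lit 0) (nat_lit 0) (nat_lit 0) (nat_lit 1) (nat_lit 0) (nat_lit 1) (nat_lit 0)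 (nat_lit 335) (nat_lit 410) (nat_lit 335)) (XT.nd (nat_lit 94) (nat_lit 0) (nat_lit 0) (XT.lf (nat_lit 0) (nat_lit 50505394756) (nat_lit 0) (nat_lit 0) (nat_lit 0) (nat_lit 0) (nat_lit 0) (nat_lit 0) (nat_lit 1) (nat_lit 0) (nat_lit 1) (nat_lit 0) (nat_lit 336) (nat_lit 410) (nat_lit 334)) (XT.lf (nat_lit 0) (nat_lit 50494641290) (nat_lit 0) (nat_lit 0) (nat_lit 0) (nat_lit 0) (nat_lit 0) (nat_lit 0) (nat_lit 1) (nat_lit 0) (nat_lit 1) (nat_lit 0) (nat_lit 337) (nat_lit 410) (nat_lit 333))))) (XT.nd (nat_lit 188) (nat_lit 0) (nat_lit 0) (XT.nd (nat_lit 94) (nat_lit 0) (nat_lit 0) (XT.lf (nat_lit 0) (nat_lit 50484684377) (nat_lit 0) (nat_lit 0) (nat_lit 0) (nat_lit 0) (nat_lit 0) (nat_lit 0) (nat_lit 1) (nat_lit 0) (nat_lit 1) (nat_lit 0) (nat_lit 338) (nat_lit 410) (nat_lit 332)) (XT.lf (nat_lit 0) (nat_lit 50475465014) (nat_lit 0) (nat_lit 0) (nat_lit 0)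 (nat_lit 0) (nat_lit 0) (nat_lit 0) (nat_lit 1) (nat_lit 0) (nat_lit 1) (nat_lit 0) (nat_lit 339) (nat_lit 410) (nat_lit 331))) (XT.nd (nat_lit 94) (nat_lit 0) (nat_lit 0) (XT.lf (nat_lit 0) (nat_lit 50466928566) (nat_lit 0) (nat_lit 0) (nat_lit 0) (nat_lit 0) (nat_lit 0) (nat_lit 0) (nat_lit 1) (nat_lit 0) (nat_lit 1) (nat_lit 0) (nat_lit 340) (nat_lit 410) (nat_lit 330)) (XT.nd (nat_lit 94) (nat_lit 0) (nat_lit 0) (XT.lf (nat_lit 0) (nat_lit 50459024447) (nat_lit 0) (nat_lit 0) (nat_lit 0) (nat_lit 0) (nat_lit 0) (nat_lit 0) (nat_lit 1) (nat_lit 0) (nat_lit 1) (nat_lit 0) (nat_lit 341) (nat_lit 410) (nat_lit 329)) (XT.lf (nat_lit 0) (nat_lit 50451705819) (nat_lit 0) (nat_lit 0) (nat_lit 0) (nat_lit 0) (nat_lit 0) (nat_lit 0) (nat_lit 1) (nat_lit 0) (nat_lit 1) (nat_lit 0) (nat_lit 342) (nat_lit 410) (nat_lit 328))))))) (XT.nd (nat_lit 846) (nat_lit 0) (nat_lit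 0) (XT.nd (nat_lit 376) (nat_lit 0) (nat_lit 0) (XT.nd (nat_lit 188) (nat_lit 0) (nat_lit 0) (XT.nd (nat_lit 94) (nat_lit 0) (nat_lit 0) (XT.lf (nat_lit 0) (nat_lit 50444929312) (nat_lit 0) (nat_lit 0) (nat_lit 0) (nat_lit 0) (nat_lit 0) (nat_lit 0) (nat_lit 1) (nat_lit 0) (nat_lit 1) (nat_lit 0) (nat_lit 343) (nat_lit 410) (nat_lit 327)) (XT.lf (nat_lit 0) (nat_lit 50438654768) (nat_lit 0) (nat_lit 0) (nat_lit 0) (nat_lit 0) (nat_lit 0) (nat_lit 0) (nat_lit 1) (nat_lit 0) (nat_lit 1) (nat_lit 0) (nat_lit 344) (nat_lit 410) (nat_lit 326))) (XT.nd (nat_lit 94) (nat_lit 0) (nat_lit 0) (XT.lf (nat_lit 0) (nat_lit 50432845005) (nat_lit 0) (nat_lit 0) (nat_lit 0) (nat_lit 0) (nat_lit 0) (nat_lit 0) (nat_lit 1) (nat_lit 0) (nat_lit 1) (nat_lit 0) (nat_lit 345) (nat_lit 410) (nat_lit 325)) (XT.lf (nat_lit 0) (nat_lit 50427465595) (nat_lit 0) (nat_lit 0) (nat_lit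 0) (nat_lit 0) (nat_lit 0) (nat_lit 0) (nat_lit 1) (nat_lit 0) (nat_lit 1) (nat_lit 0) (nat_lit 346) (nat_lit 410) (nat_lit 324)))) (XT.nd (nat_lit 188) (nat_lit 0) (nat_lit 0) (XT.nd (nat_lit 94) (nat_lit 0) (nat_lit 0) (XT.lf (nat_lit 0) (nat_lit 50422484659) (nat_lit 0) (nat_lit 0) (nat_lit 0) (nat_lit 0) (nat_lit 0) (nat_lit 0) (nat_lit 1) (nat_lit 0) (nat_lit 1) (nat_lit 0) (nat_lit 347) (nat_lit 410) (nat_lit 323)) (XT.lf (nat_lit 0) (nat_lit 50417872682) (nat_lit 0) (nat_lit 0) (nat_lit 0) (nat_lit 0) (nat_lit 0) (nat_lit 0) (nat_lit 1) (nat_lit 0) (nat_lit 1) (nat_lit 0) (nat_lit 348) (nat_lit 410) (nat_lit 322))) (XT.nd (nat_lit 94) (nat_lit 0) (nat_lit 0) (XT.lf (nat_lit 0) (nat_lit 50413602333) (nat_lit 0) (nat_lit 0) (nat_lit 0) (nat_lit 0) (nat_lit 0) (nat_lit 0) (nat_lit 1) (nat_lit 0) (nat_lit 1) (nat_lit 0) (nat_lit 349) (nat_lit 410) (nat_lit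 321)) (XT.nd (nat_lit 94) (nat_lit 0) (nat_lit 0) (XT.lf (nat_lit 0) (nat_lit 50409648306) (nat_lit 0) (nat_lit 0) (nat_lit 0) (nat_lit 0) (nat_lit 0) (nat_lit 0) (nat_lit 1) (nat_lit 0) (nat_lit 1) (nat_lit 0) (nat_lit 350) (nat_lit 410) (nat_lit 320)) (XT.lf (nat_lit 0) (nat_lit 50405987170) (nat_lit 0) (nat_lit 0) (nat_lit 0) (nat_lit 0) (nat_lit 0) (nat_lit 0) (nat_lit 1) (nat_lit 0) (nat_lit 1) (nat_lit 0) (nat_lit 351) (nat_lit 410) (nat_lit 319)))))) (XT.nd (nat_lit 470) (nat_lit 0) (nat_lit 0) (XT.nd (nat_lit 188) (nat_lit 0) (nat_lit 0) (XT.nd (nat_lit 94) (nat_lit 0) (nat_lit 0) (XT.lf (nat_lit 0) (nat_lit 50402597229) (nat_lit 0) (nat_lit 0) (nat_lit 0) (nat_lit 0) (nat_lit 0) (nat_lit 0) (nat_lit 1) (nat_lit 0) (nat_lit 1) (nat_lit 0) (nat_lit 352) (nat_lit 410) (nat_lit 318)) (XT.lf (nat_lit 0) (nat_lit 50399458395) (nat_lit 0) (nat_lit 0) (nat_lit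 0) (nat_lit 0) (nat_lit 0) (nat_lit 0) (nat_lit 1) (nat_lit 0) (nat_lit 1) (nat_lit 0) (nat_lit 353) (nat_lit 410) (nat_lit 317))) (XT.nd (nat_lit 94) (nat_lit 0) (nat_lit 0) (XT.lf (nat_lit 0) (nat_lit 50396552067) (nat_lit 0) (nat_lit 0) (nat_lit 0) (nat_lit 0) (nat_lit 0) (nat_lit 0) (nat_lit 1) (nat_lit 0) (nat_lit 1) (nat_lit 0) (nat_lit 354) (nat_lit 410) (nat_lit 316)) (XT.nd (nat_lit 94) (nat_lit 0) (nat_lit 0) (XT.lf (nat_lit 0) (nat_lit 50393861022) (nat_lit 0) (nat_lit 0) (nat_lit 0) (nat_lit 0) (nat_lit 0) (nat_lit 0) (nat_lit 1) (nat_lit 0) (nat_lit 1) (nat_lit 0) (nat_lit 355) (nat_lit 410) (nat_lit 315)) (XT.lf (nat_lit 0) (nat_lit 50391369314) (nat_lit 0) (nat_lit 0) (nat_lit 0) (nat_lit 0) (nat_lit 0) (nat_lit 0) (nat_lit 1) (nat_lit 0) (nat_lit 1) (nat_lit 0) (nat_lit 356) (nat_lit 410) (nat_lit 314))))) (XT.nd (nat_lit 188) (nat_lit 0) (nat_lit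 0) (XT.nd (nat_lit 94) (nat_lit 0) (nat_lit 0) (XT.lf (nat_lit 0) (nat_lit 50389062178) (nat_lit 0) (nat_lit 0) (nat_lit 0) (nat_lit 0) (nat_lit 0) (nat_lit 0) (nat_lit 1) (nat_lit 0) (nat_lit 1) (nat_lit 0) (nat_lit 357) (nat_lit 410) (nat_lit 313)) (XT.lf (nat_lit 0) (nat_lit 50386925940) (nat_lit 0) (nat_lit 0) (nat_lit 0) (nat_lit 0) (nat_lit 0) (nat_lit 0) (nat_lit 1) (nat_lit 0) (nat_lit 1) (nat_lit 0) (nat_lit 358) (nat_lit 410) (nat_lit 312))) (XT.nd (nat_lit 94) (nat_lit 0) (nat_lit 0) (XT.lf (nat_lit 0) (nat_lit 50384947942) (nat_lit 0) (nat_lit 0) (nat_lit 0) (nat_lit 0) (nat_lit 0) (nat_lit 0) (nat_lit 1) (nat_lit 0) (nat_lit 1) (nat_lit 0) (nat_lit 359) (nat_lit 410) (nat_lit 311)) (XT.nd (nat_lit 94) (nat_lit 0) (nat_lit 0) (XT.lf (nat_lit 0) (nat_lit 50383116462) (nat_lit 0) (nat_lit 0) (nat_lit 0) (nat_lit 0) (nat_lit 0) (nat_lit 0) (nat_lit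 1) (nat_lit 0) (nat_lit 1) (nat_lit 0) (nat_lit 360) (nat_lit 410) (nat_lit 310)) (XT.lf (nat_lit 0) (nat_lit 50381420648) (nat_lit 0) (nat_lit 0) (nat_lit 0) (nat_lit 0) (nat_lit 0) (nat_lit 0) (nat_lit 1) (nat_lit 0) (nat_lit 1) (nat_lit 0) (nat_lit 361) (nat_lit 410) (nat_lit 309))))))))
noncomputable def ec198 : XT := (XT.nd (nat_lit 1692) (nat_lit 0) (nat_lit 0) (XT.nd (nat_lit 846) (nat_lit 0) (nat_lit 0) (XT.nd (nat_lit 376) (nat_lit 0) (nat_lit 0) (XT.nd (nat_lit 188) (nat_lit 0) (nat_lit 0) (XT.nd (nat_lit 94) (nat_lit 0) (nat_lit 0) (XT.lf (nat_lit 0) (nat_lit 50379850449) (nat_lit 0) (nat_lit 0) (nat_lit 0) (nat_lit 0) (nat_lit 0) (nat_lit 0) (nat_lit 1) (nat_lit 0) (nat_lit 1) (nat_lit 0) (nat_lit 362) (nat_lit 410) (nat_lit 308)) (XT.lf (nat_lit 0) (nat_lit 50378396562) (nat_lit 0) (nat_lit 0) (nat_lit 0) (nat_lit 0) (nat_lit 0) (nat_lit 0) (nat_lit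 1) (nat_lit 0) (nat_lit 1) (nat_lit 0) (nat_lit 363) (nat_lit 410) (nat_lit 307))) (XT.nd (nat_lit 94) (nat_lit 0) (nat_lit 0) (XT.lf (nat_lit 0) (nat_lit 50377050370) (nat_lit 0) (nat_lit 0) (nat_lit 0) (nat_lit 0) (nat_lit 0) (nat_lit 0) (nat_lit 1) (nat_lit 0) (nat_lit 1) (nat_lit 0) (nat_lit 364) (nat_lit 410) (nat_lit 306)) (XT.lf (nat_lit 0) (nat_lit 50375803895) (nat_lit 0) (nat_lit 0) (nat_lit 0) (nat_lit 0) (nat_lit 0) (nat_lit 0) (nat_lit 1) (nat_lit 0) (nat_lit 1) (nat_lit 0) (nat_lit 365) (nat_lit 410) (nat_lit 305)))) (XT.nd (nat_lit 188) (nat_lit 0) (nat_lit 0) (XT.nd (nat_lit 94) (nat_lit 0) (nat_lit 0) (XT.lf (nat_lit 0) (nat_lit 50374649753) (nat_lit 0) (nat_lit 0) (nat_lit 0) (nat_lit 0) (nat_lit 0) (nat_lit 0) (nat_lit 1) (nat_lit 0) (nat_lit 1) (nat_lit 0) (nat_lit 366) (nat_lit 410) (nat_lit 304)) (XT.lf (nat_lit 0) (nat_lit 50373581102)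 (nat_lit 0) (nat_lit 0) (nat_lit 0) (nat_lit 0) (nat_lit 0) (nat_lit 0) (nat_lit 1) (nat_lit 0) (nat_lit 1) (nat_lit 0) (nat_lit 367) (nat_lit 410) (nat_lit 303))) (XT.nd (nat_lit 94) (nat_lit 0) (nat_lit 0) (XT.lf (nat_lit 0) (nat_lit 50372591610) (nat_lit 0) (nat_lit 0) (nat_lit 0) (nat_lit 0) (nat_lit 0) (nat_lit 0) (nat_lit 1) (nat_lit 0) (nat_lit 1) (nat_lit 0) (nat_lit 368) (nat_lit 410) (nat_lit 302)) (XT.nd (nat_lit 94) (nat_lit 0) (nat_lit 0) (XT.lf (nat_lit 0) (nat_lit 50371675415) (nat_lit 0) (nat_lit 0) (nat_lit 0) (nat_lit 0) (nat_lit 0) (nat_lit 0) (nat_lit 1) (nat_lit 0) (nat_lit 1) (nat_lit 0) (nat_lit 369) (nat_lit 410) (nat_lit 301)) (XT.lf (nat_lit 0) (nat_lit 50370827085) (nat_lit 0) (nat_lit 0) (nat_lit 0) (nat_lit 0) (nat_lit 0) (nat_lit 0) (nat_lit 1) (nat_lit 0) (nat_lit 1) (nat_lit 0) (nat_lit 370) (nat_lit 410) (nat_lit 300))))))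 (XT.nd (nat_lit 376) (nat_lit 0) (nat_lit 0) (XT.nd (nat_lit 188) (nat_lit 0) (nat_lit 0) (XT.nd (nat_lit 94) (nat_lit 0) (nat_lit 0) (XT.lf (nat_lit 0) (nat_lit 50370041595) (nat_lit 0) (nat_lit 0) (nat_lit 0) (nat_lit 0) (nat_lit 0) (nat_lit 0) (nat_lit 1) (nat_lit 0) (nat_lit 1) (nat_lit 0) (nat_lit 371) (nat_lit 410) (nat_lit 299)) (XT.lf (nat_lit 0) (nat_lit 50369314289) (nat_lit 0) (nat_lit 0) (nat_lit 0) (nat_lit 0) (nat_lit 0) (nat_lit 0) (nat_lit 1) (nat_lit 0) (nat_lit 1) (nat_lit 0) (nat_lit 372) (nat_lit 410) (nat_lit 298))) (XT.nd (nat_lit 94) (nat_lit 0) (nat_lit 0) (XT.lf (nat_lit 0) (nat_lit 50368640858) (nat_lit 0) (nat_lit 0) (nat_lit 0) (nat_lit 0) (nat_lit 0) (nat_lit 0) (nat_lit 1) (nat_lit 0) (nat_lit 1) (nat_lit 0) (nat_lit 373) (nat_lit 410) (nat_lit 297)) (XT.lf (nat_lit 0) (nat_lit 50368017311) (nat_lit 0) (nat_lit 0) (nat_lit 0)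 (nat_lit 0) (nat_lit 0) (nat_lit 0) (nat_lit 1) (nat_lit 0) (nat_lit 1) (nat_lit 0) (nat_lit 374) (nat_lit 410) (nat_lit 296)))) (XT.nd (nat_lit 188) (nat_lit 0) (nat_lit 0) (XT.nd (nat_lit 94) (nat_lit 0) (nat_lit 0) (XT.lf (nat_lit 0) (nat_lit 50367439952) (nat_lit 0) (nat_lit 0) (nat_lit 0) (nat_lit 0) (nat_lit 0) (nat_lit 0) (nat_lit 1) (nat_lit 0) (nat_lit 1) (nat_lit 0) (nat_lit 375) (nat_lit 410) (nat_lit 295)) (XT.lf (nat_lit 0) (nat_lit 50366905360) (nat_lit 0) (nat_lit 0) (nat_lit 0) (nat_lit 0) (nat_lit 0) (nat_lit 0) (nat_lit 1) (nat_lit 0) (nat_lit 1) (nat_lit 0) (nat_lit 376) (nat_lit 410) (nat_lit 294))) (XT.nd (nat_lit 94) (nat_lit 0) (nat_lit 0) (XT.lf (nat_lit 0) (nat_lit 50366410368) (nat_lit 0) (nat_lit 0) (nat_lit 0) (nat_lit 0) (nat_lit 0) (nat_lit 0) (nat_lit 1) (nat_lit 0) (nat_lit 1) (nat_lit 0) (nat_lit 377) (nat_lit 410) (nat_lit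 293)) (XT.nd (nat_lit 94) (nat_lit 0) (nat_lit 0) (XT.lf (nat_lit 0) (nat_lit 50365952042) (nat_lit 0) (nat_lit 0) (nat_lit 0) (nat_lit 0) (nat_lit 0) (nat_lit 0) (nat_lit 1) (nat_lit 0) (nat_lit 1) (nat_lit 0) (nat_lit 378) (nat_lit 410) (nat_lit 292)) (XT.lf (nat_lit 0) (nat_lit 50365527666) (nat_lit 0) (nat_lit 0) (nat_lit 0) (nat_lit 0) (nat_lit 0) (nat_lit 0) (nat_lit 1) (nat_lit 0) (nat_lit 1) (nat_lit 0) (nat_lit 379) (nat_lit 410) (nat_lit 291))))))) (XT.nd (nat_lit 846) (nat_lit 0) (nat_lit 0) (XT.nd (nat_lit 376) (nat_lit 0) (nat_lit 0) (XT.nd (nat_lit 188) (nat_lit 0) (nat_lit 0) (XT.nd (nat_lit 94) (nat_lit 0) (nat_lit 0) (XT.lf (nat_lit 0) (nat_lit 50365134726) (nat_lit 0) (nat_lit 0) (nat_lit 0) (nat_lit 0) (nat_lit 0) (nat_lit 0) (nat_lit 1) (nat_lit 0) (nat_lit 1) (nat_lit 0) (nat_lit 380) (nat_lit 410) (nat_lit 290)) (XT.lf (nat_lit 0) (nat_lit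 50364770892) (nat_lit 0) (nat_lit 0) (nat_lit 0) (nat_lit 0) (nat_lit 0) (nat_lit 0) (nat_lit 1) (nat_lit 0) (nat_lit 1) (nat_lit 0) (nat_lit 381) (nat_lit 410) (nat_lit 289))) (XT.nd (nat_lit 94) (nat_lit 0) (nat_lit 0) (XT.lf (nat_lit 0) (nat_lit 50364434009) (nat_lit 0) (nat_lit 0) (nat_lit 0) (nat_lit 0) (nat_lit 0) (nat_lit 0) (nat_lit 1) (nat_lit 0) (nat_lit 1) (nat_lit 0) (nat_lit 382) (nat_lit 410) (nat_lit 288)) (XT.lf (nat_lit 0) (nat_lit 50364122080) (nat_lit 0) (nat_lit 0) (nat_lit 0) (nat_lit 0) (nat_lit 0) (nat_lit 0) (nat_lit 1) (nat_lit 0) (nat_lit 1) (nat_lit 0) (nat_lit 383) (nat_lit 410) (nat_lit 287)))) (XT.nd (nat_lit 188) (nat_lit 0) (nat_lit 0) (XT.nd (nat_lit 94) (nat_lit 0) (nat_lit 0) (XT.lf (nat_lit 0) (nat_lit 50363833256) (nat_lit 0) (nat_lit 0) (nat_lit 0) (nat_lit 0) (nat_lit 0) (nat_lit 0) (nat_lit 1) (nat_lit 0) (nat_lit 1)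 (nat_lit 0) (nat_lit 384) (nat_lit 410) (nat_lit 286)) (XT.lf (nat_lit 0) (nat_lit 50363565828) (nat_lit 0) (nat_lit 0) (nat_lit 0) (nat_lit 0) (nat_lit 0) (nat_lit 0) (nat_lit 1) (nat_lit 0) (nat_lit 1) (nat_lit 0) (nat_lit 385) (nat_lit 410) (nat_lit 285))) (XT.nd (nat_lit 94) (nat_lit 0) (nat_lit 0) (XT.lf (nat_lit 0) (nat_lit 50363318208) (nat_lit 0) (nat_lit 0) (nat_lit 0) (nat_lit 0) (nat_lit 0) (nat_lit 0) (nat_lit 1) (nat_lit 0) (nat_lit 1) (nat_lit 0) (nat_lit 386) (nat_lit 410) (nat_lit 284)) (XT.nd (nat_lit 94) (nat_lit 0) (nat_lit 0) (XT.lf (nat_lit 0) (nat_lit 50363088931) (nat_lit 0) (nat_lit 0) (nat_lit 0) (nat_lit 0) (nat_lit 0) (nat_lit 0) (nat_lit 1) (nat_lit 0) (nat_lit 1) (nat_lit 0) (nat_lit 387) (nat_lit 410) (nat_lit 283)) (XT.lf (nat_lit 0) (nat_lit 50362876638) (nat_lit 0) (nat_lit 0) (nat_lit 0) (nat_lit 0) (nat_lit 0) (nat_lit 0)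 (nat_lit 1) (nat_lit 0) (nat_lit 1) (nat_lit 0) (nat_lit 388) (nat_lit 410) (nat_lit 282)))))) (XT.nd (nat_lit 470) (nat_lit 0) (nat_lit 0) (XT.nd (nat_lit 188) (nat_lit 0) (nat_lit 0) (XT.nd (nat_lit 94) (nat_lit 0) (nat_lit 0) (XT.lf (nat_lit 0) (nat_lit 50362680070) (nat_lit 0) (nat_lit 0) (nat_lit 0) (nat_lit 0) (nat_lit 0) (nat_lit 0) (nat_lit 1) (nat_lit 0) (nat_lit 1) (nat_lit 0) (nat_lit 389) (nat_lit 410) (nat_lit 281)) (XT.lf (nat_lit 0) (nat_lit 50362498062) (nat_lit 0) (nat_lit 0) (nat_lit 0) (nat_lit 0) (nat_lit 0) (nat_lit 0) (nat_lit 1) (nat_lit 0) (nat_lit 1) (nat_lit 0) (nat_lit 390) (nat_lit 410) (nat_lit 280))) (XT.nd (nat_lit 94) (nat_lit 0) (nat_lit 0) (XT.lf (nat_lit 0) (nat_lit 50362329536) (nat_lit 0) (nat_lit 0) (nat_lit 0) (nat_lit 0) (nat_lit 0) (nat_lit 0) (nat_lit 1) (nat_lit 0) (nat_lit 1) (nat_lit 0) (nat_lit 391) (nat_lit 410)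 (nat_lit 279)) (XT.nd (nat_lit 94) (nat_lit 0) (nat_lit 0) (XT.lf (nat_lit 0) (nat_lit 50362173494) (nat_lit 0) (nat_lit 0) (nat_lit 0) (nat_lit 0) (nat_lit 0) (nat_lit 0) (nat_lit 1) (nat_lit 0) (nat_lit 1) (nat_lit 0) (nat_lit 392) (nat_lit 410) (nat_lit 278)) (XT.lf (nat_lit 0) (nat_lit 50362029011) (nat_lit 0) (nat_lit 0) (nat_lit 0) (nat_lit 0) (nat_lit 0) (nat_lit 0) (nat_lit 1) (nat_lit 0) (nat_lit 1) (nat_lit 0) (nat_lit 393) (nat_lit 410) (nat_lit 277))))) (XT.nd (nat_lit 188) (nat_lit 0) (nat_lit 0) (XT.nd (nat_lit 94) (nat_lit 0) (nat_lit 0) (XT.lf (nat_lit 0) (nat_lit 50361895230) (nat_lit 0) (nat_lit 0) (nat_lit 0) (nat_lit 0) (nat_lit 0) (nat_lit 0) (nat_lit 1) (nat_lit 0) (nat_lit 1) (nat_lit 0) (nat_lit 394) (nat_lit 410) (nat_lit 276)) (XT.lf (nat_lit 0) (nat_lit 50361771359) (nat_lit 0) (nat_lit 0) (nat_lit 0) (nat_lit 0) (nat_lit 0) (nat_lit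 0) (nat_lit 1) (nat_lit 0) (nat_lit 1) (nat_lit 0) (nat_lit 395) (nat_lit 410) (nat_lit 275))) (XT.nd (nat_lit 94) (nat_lit 0) (nat_lit 0) (XT.lf (nat_lit 0) (nat_lit 50361656663) (nat_lit 0) (nat_lit 0) (nat_lit 0) (nat_lit 0) (nat_lit 0) (nat_lit 0) (nat_lit 1) (nat_lit 0) (nat_lit 1) (nat_lit 0) (nat_lit 396) (nat_lit 410) (nat_lit 274)) (XT.nd (nat_lit 94) (nat_lit 0) (nat_lit 0) (XT.lf (nat_lit 0) (nat_lit 50361550463) (nat_lit 0) (nat_lit 0) (nat_lit 0) (nat_lit 0) (nat_lit 0) (nat_lit 0) (nat_lit 1) (nat_lit 0) (nat_lit 1) (nat_lit 0) (nat_lit 397) (nat_lit 410) (nat_lit 273)) (XT.lf (nat_lit 0) (nat_lit 50361452130) (nat_lit 0) (nat_lit 0) (nat_lit 0) (nat_lit 0) (nat_lit 0) (nat_lit 0) (nat_lit 1) (nat_lit 0) (nat_lit 1) (nat_lit 0) (nat_lit 398) (nat_lit 410) (nat_lit 272))))))))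
noncomputable def ec199 : XT := (XT.nd (nat_lit 1786) (nat_lit 0) (nat_lit 0) (XT.nd (nat_lit 846) (nat_lit 0) (nat_lit 0) (XT.nd (nat_lit 376) (nat_lit 0) (nat_lit 0) (XT.nd (nat_lit 188) (nat_lit 0) (nat_lit 0) (XT.nd (nat_lit 94) (nat_lit 0) (nat_lit 0) (XT.lf (nat_lit 0) (nat_lit 50361361081) (nat_lit 0) (nat_lit 0) (nat_lit 0) (nat_lit 0) (nat_lit 0) (nat_lit 0) (nat_lit 1) (nat_lit 0) (nat_lit 1) (nat_lit 0) (nat_lit 399) (nat_lit 410) (nat_lit 271)) (XT.lf (nat_lit 0) (nat_lit 50361276776) (nat_lit 0) (nat_lit 0) (nat_lit 0) (nat_lit 0) (nat_lit 0) (nat_lit 0) (nat_lit 1) (nat_lit 0) (nat_lit 1) (nat_lit 0) (nat_lit 400) (nat_lit 410) (nat_lit 270))) (XT.nd (nat_lit 94) (nat_lit 0) (nat_lit 0) (XT.lf (nat_lit 0) (nat_lit 50361198717) (nat_lit 0) (nat_lit 0) (nat_lit 0) (nat_lit 0) (nat_lit 0) (nat_lit 0) (nat_lit 1) (nat_lit 0) (nat_lit 1) (nat_lit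 0) (nat_lit 401) (nat_lit 410) (nat_lit 269)) (XT.lf (nat_lit 0) (nat_lit 50361126439) (nat_lit 0) (nat_lit 0) (nat_lit 0) (nat_lit 0) (nat_lit 0) (nat_lit 0) (nat_lit 1) (nat_lit 0) (nat_lit 1) (nat_lit 0) (nat_lit 402) (nat_lit 410) (nat_lit 268)))) (XT.nd (nat_lit 188) (nat_lit 0) (nat_lit 0) (XT.nd (nat_lit 94) (nat_lit 0) (nat_lit 0) (XT.lf (nat_lit 0) (nat_lit 50361059515) (nat_lit 0) (nat_lit 0) (nat_lit 0) (nat_lit 0) (nat_lit 0) (nat_lit 0) (nat_lit 1) (nat_lit 0) (nat_lit 1) (nat_lit 0) (nat_lit 403) (nat_lit 410) (nat_lit 267)) (XT.lf (nat_lit 0) (nat_lit 50360997549) (nat_lit 0) (nat_lit 0) (nat_lit 0) (nat_lit 0) (nat_lit 0) (nat_lit 0) (nat_lit 1) (nat_lit 0) (nat_lit 1) (nat_lit 0) (nat_lit 404) (nat_lit 410) (nat_lit 266))) (XT.nd (nat_lit 94) (nat_lit 0) (nat_lit 0) (XT.lf (nat_lit 0) (nat_lit 50360940172) (nat_lit 0) (nat_lit 0) (nat_lit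 0) (nat_lit 0) (nat_lit 0) (nat_lit 0) (nat_lit 1) (nat_lit 0) (nat_lit 1) (nat_lit 0) (nat_lit 405) (nat_lit 410) (nat_lit 265)) (XT.nd (nat_lit 94) (nat_lit 0) (nat_lit 0) (XT.lf (nat_lit 0) (nat_lit 50360887046) (nat_lit 0) (nat_lit 0) (nat_lit 0) (nat_lit 0) (nat_lit 0) (nat_lit 0) (nat_lit 1) (nat_lit 0) (nat_lit 1) (nat_lit 0) (nat_lit 406) (nat_lit 410) (nat_lit 264)) (XT.lf (nat_lit 0) (nat_lit 50360837855) (nat_lit 0) (nat_lit 0) (nat_lit 0) (nat_lit 0) (nat_lit 0) (nat_lit 0) (nat_lit 1) (nat_lit 0) (nat_lit 1) (nat_lit 0) (nat_lit 407) (nat_lit 410) (nat_lit 263)))))) (XT.nd (nat_lit 470) (nat_lit 0) (nat_lit 0) (XT.nd (nat_lit 188) (nat_lit 0) (nat_lit 0) (XT.nd (nat_lit 94) (nat_lit 0) (nat_lit 0) (XT.lf (nat_lit 0) (nat_lit 50360792308) (nat_lit 0) (nat_lit 0) (nat_lit 0) (nat_lit 0) (nat_lit 0) (nat_lit 0) (nat_lit 1) (nat_lit 0) (nat_lit 1)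 (nat_lit 0) (nat_lit 408) (nat_lit 410) (nat_lit 262)) (XT.lf (nat_lit 0) (nat_lit 50360750134) (nat_lit 0) (nat_lit 0) (nat_lit 0) (nat_lit 0) (nat_lit 0) (nat_lit 0) (nat_lit 1) (nat_lit 0) (nat_lit 1) (nat_lit 0) (nat_lit 409) (nat_lit 410) (nat_lit 261))) (XT.nd (nat_lit 94) (nat_lit 0) (nat_lit 0) (XT.lf (nat_lit 0) (nat_lit 50360711085) (nat_lit 0) (nat_lit 0) (nat_lit 0) (nat_lit 0) (nat_lit 0) (nat_lit 0) (nat_lit 1) (nat_lit 0) (nat_lit 1) (nat_lit 0) (nat_lit 410) (nat_lit 410) (nat_lit 260)) (XT.nd (nat_lit 94) (nat_lit 0) (nat_lit 0) (XT.lf (nat_lit 0) (nat_lit 50360674928) (nat_lit 0) (nat_lit 0) (nat_lit 0) (nat_lit 0) (nat_lit 0) (nat_lit 0) (nat_lit 1) (nat_lit 0) (nat_lit 1) (nat_lit 0) (nat_lit 411) (nat_lit 410) (nat_lit 259)) (XT.lf (nat_lit 0) (nat_lit 50360641450) (nat_lit 0) (nat_lit 0) (nat_lit 0) (nat_lit 0) (nat_lit 0) (nat_lit 0)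 (nat_lit 1) (nat_lit 0) (nat_lit 1) (nat_lit 0) (nat_lit 412) (nat_lit 410) (nat_lit 258))))) (XT.nd (nat_lit 188) (nat_lit 0) (nat_lit 0) (XT.nd (nat_lit 94) (nat_lit 0) (nat_lit 0) (XT.lf (nat_lit 0) (nat_lit 50360610451) (nat_lit 0) (nat_lit 0) (nat_lit 0) (nat_lit 0) (nat_lit 0) (nat_lit 0) (nat_lit 1) (nat_lit 0) (nat_lit 1) (nat_lit 0) (nat_lit 413) (nat_lit 410) (nat_lit 257)) (XT.lf (nat_lit 0) (nat_lit 50360581748) (nat_lit 0) (nat_lit 0) (nat_lit 0) (nat_lit 0) (nat_lit 0) (nat_lit 0) (nat_lit 1) (nat_lit 0) (nat_lit 1) (nat_lit 0) (nat_lit 414) (nat_lit 410) (nat_lit 256))) (XT.nd (nat_lit 94) (nat_lit 0) (nat_lit 0) (XT.lf (nat_lit 0) (nat_lit 50360555172) (nat_lit 0) (nat_lit 0) (nat_lit 0) (nat_lit 0) (nat_lit 0) (nat_lit 0) (nat_lit 1) (nat_lit 0) (nat_lit 1) (nat_lit 0) (nat_lit 415) (nat_lit 410) (nat_lit 255)) (XT.nd (nat_lit 94) (nat_lit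 0) (nat_lit 0) (XT.lf (nat_lit 0) (nat_lit 50360530564) (nat_lit 0) (nat_lit 0) (nat_lit 0) (nat_lit 0) (nat_lit 0) (nat_lit 0) (nat_lit 1) (nat_lit 0) (nat_lit 1) (nat_lit 0) (nat_lit 416) (nat_lit 410) (nat_lit 254)) (XT.lf (nat_lit 0) (nat_lit 50360507779) (nat_lit 0) (nat_lit 0) (nat_lit 0) (nat_lit 0) (nat_lit 0) (nat_lit 0) (nat_lit 1) (nat_lit 0) (nat_lit 1) (nat_lit 0) (nat_lit 417) (nat_lit 410) (nat_lit 253))))))) (XT.nd (nat_lit 846) (nat_lit 0) (nat_lit 0) (XT.nd (nat_lit 376) (nat_lit 0) (nat_lit 0) (XT.nd (nat_lit 188) (nat_lit 0) (nat_lit 0) (XT.nd (nat_lit 94) (nat_lit 0) (nat_lit 0) (XT.lf (nat_lit 0) (nat_lit 50360486682) (nat_lit 0) (nat_lit 0) (nat_lit 0) (nat_lit 0) (nat_lit 0) (nat_lit 0) (nat_lit 1) (nat_lit 0) (nat_lit 1) (nat_lit 0) (nat_lit 418) (nat_lit 410) (nat_lit 252)) (XT.lf (nat_lit 0) (nat_lit 50360467148) (nat_lit 0) (nat_lit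 0) (nat_lit 0) (nat_lit 0) (nat_lit 0) (nat_lit 0) (nat_lit 1) (nat_lit 0) (nat_lit 1) (nat_lit 0) (nat_lit 419) (nat_lit 410) (nat_lit 251))) (XT.nd (nat_lit 94) (nat_lit 0) (nat_lit 0) (XT.lf (nat_lit 0) (nat_lit 50360449060) (nat_lit 0) (nat_lit 0) (nat_lit 0) (nat_lit 0) (nat_lit 0) (nat_lit 0) (nat_lit 1) (nat_lit 0) (nat_lit 1) (nat_lit 0) (nat_lit 420) (nat_lit 410) (nat_lit 250)) (XT.lf (nat_lit 0) (nat_lit 50360432313) (nat_lit 0) (nat_lit 0) (nat_lit 0) (nat_lit 0) (nat_lit 0) (nat_lit 0) (nat_lit 1) (nat_lit 0) (nat_lit 1) (nat_lit 0) (nat_lit 421) (nat_lit 410) (nat_lit 249)))) (XT.nd (nat_lit 188) (nat_lit 0) (nat_lit 0) (XT.nd (nat_lit 94) (nat_lit 0) (nat_lit 0) (XT.lf (nat_lit 0) (nat_lit 50360416806) (nat_lit 0) (nat_lit 0) (nat_lit 0) (nat_lit 0) (nat_lit 0) (nat_lit 0) (nat_lit 1) (nat_lit 0) (nat_lit 1) (nat_lit 0) (nat_lit 422) (nat_lit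 410) (nat_lit 248)) (XT.lf (nat_lit 0) (nat_lit 50360402447) (nat_lit 0) (nat_lit 0) (nat_lit 0) (nat_lit 0) (nat_lit 0) (nat_lit 0) (nat_lit 1) (nat_lit 0) (nat_lit 1) (nat_lit 0) (nat_lit 423) (nat_lit 410) (nat_lit 247))) (XT.nd (nat_lit 94) (nat_lit 0) (nat_lit 0) (XT.lf (nat_lit 0) (nat_lit 50360389152) (nat_lit 0) (nat_lit 0) (nat_lit 0) (nat_lit 0) (nat_lit 0) (nat_lit 0) (nat_lit 1) (nat_lit 0) (nat_lit 1) (nat_lit 0) (nat_lit 424) (nat_lit 410) (nat_lit 246)) (XT.nd (nat_lit 94) (nat_lit 0) (nat_lit 0) (XT.lf (nat_lit 0) (nat_lit 50360376842) (nat_lit 0) (nat_lit 0) (nat_lit 0) (nat_lit 0) (nat_lit 0) (nat_lit 0) (nat_lit 1) (nat_lit 0) (nat_lit 1) (nat_lit 0) (nat_lit 425) (nat_lit 410) (nat_lit 245)) (XT.lf (nat_lit 0) (nat_lit 50360365444) (nat_lit 0) (nat_lit 0) (nat_lit 0) (nat_lit 0) (nat_lit 0) (nat_lit 0) (nat_lit 1) (nat_lit 0) (nat_lit 1)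 (nat_lit 0) (nat_lit 426) (nat_lit 410) (nat_lit 244)))))) (XT.nd (nat_lit 470) (nat_lit 0) (nat_lit 0) (XT.nd (nat_lit 188) (nat_lit 0) (nat_lit 0) (XT.nd (nat_lit 94) (nat_lit 0) (nat_lit 0) (XT.lf (nat_lit 0) (nat_lit 50360354890) (nat_lit 0) (nat_lit 0) (nat_lit 0) (nat_lit 0) (nat_lit 0) (nat_lit 0) (nat_lit 1) (nat_lit 0) (nat_lit 1) (nat_lit 0) (nat_lit 427) (nat_lit 410) (nat_lit 243)) (XT.lf (nat_lit 0) (nat_lit 50360345118) (nat_lit 0) (nat_lit 0) (nat_lit 0) (nat_lit 0) (nat_lit 0) (nat_lit 0) (nat_lit 1) (nat_lit 0) (nat_lit 1) (nat_lit 0) (nat_lit 428) (nat_lit 410) (nat_lit 242))) (XT.nd (nat_lit 94) (nat_lit 0) (nat_lit 0) (XT.lf (nat_lit 0) (nat_lit 50360336070) (nat_lit 0) (nat_lit 0) (nat_lit 0) (nat_lit 0) (nat_lit 0) (nat_lit 0) (nat_lit 1) (nat_lit 0) (nat_lit 1) (nat_lit 0) (nat_lit 429) (nat_lit 410) (nat_lit 241)) (XT.nd (nat_lit 94)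 (nat_lit 0) (nat_lit 0) (XT.lf (nat_lit 0) (nat_lit 50360327692) (nat_lit 0) (nat_lit 0) (nat_lit 0) (nat_lit 0) (nat_lit 0) (nat_lit 0) (nat_lit 1) (nat_lit 0) (nat_lit 1) (nat_lit 0) (nat_lit 430) (nat_lit 410) (nat_lit 240)) (XT.lf (nat_lit 0) (nat_lit 50360319935) (nat_lit 0) (nat_lit 0) (nat_lit 0) (nat_lit 0) (nat_lit 0) (nat_lit 0) (nat_lit 1) (nat_lit 0) (nat_lit 1) (nat_lit 0) (nat_lit 431) (nat_lit 410) (nat_lit 239))))) (XT.nd (nat_lit 188) (nat_lit 0) (nat_lit 0) (XT.nd (nat_lit 94) (nat_lit 0) (nat_lit 0) (XT.lf (nat_lit 0) (nat_lit 50360312752) (nat_lit 0) (nat_lit 0) (nat_lit 0) (nat_lit 0) (nat_lit 0) (nat_lit 0) (nat_lit 1) (nat_lit 0) (nat_lit 1) (nat_lit 0) (nat_lit 432) (nat_lit 410) (nat_lit 238)) (XT.lf (nat_lit 0) (nat_lit 50360306101) (nat_lit 0) (nat_lit 0) (nat_lit 0) (nat_lit 0) (nat_lit 0) (nat_lit 0) (nat_lit 1) (nat_lit 0) (nat_lit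 1) (nat_lit 0) (nat_lit 433) (nat_lit 410) (nat_lit 237))) (XT.nd (nat_lit 94) (nat_lit 0) (nat_lit 0) (XT.lf (nat_lit 0) (nat_lit 50360299943) (nat_lit 0) (nat_lit 0) (nat_lit 0) (nat_lit 0) (nat_lit 0) (nat_lit 0) (nat_lit 1) (nat_lit 0) (nat_lit 1) (nat_lit 0) (nat_lit 434) (nat_lit 410) (nat_lit 236)) (XT.nd (nat_lit 94) (nat_lit 0) (nat_lit 0) (XT.lf (nat_lit 0) (nat_lit 50360294241) (nat_lit 0) (nat_lit 0) (nat_lit 0) (nat_lit 0) (nat_lit 0) (nat_lit 0) (nat_lit 1) (nat_lit 0) (nat_lit 1) (nat_lit 0) (nat_lit 435) (nat_lit 410) (nat_lit 235)) (XT.lf (nat_lit 0) (nat_lit 50360288962) (nat_lit 0) (nat_lit 0) (nat_lit 0) (nat_lit 0) (nat_lit 0) (nat_lit 0) (nat_lit 1) (nat_lit 0) (nat_lit 1) (nat_lit 0) (nat_lit 436) (nat_lit 410) (nat_lit 234))))))))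
noncomputable def ec200 : XT := (XT.nd (nat_lit 52170) (nat_lit 0) (nat_lit 3696) (XT.nd (nat_lit 51324) (nat_lit 0) (nat_lit 8568) (XT.nd (nat_lit 376) (nat_lit 0) (nat_lit 0) (XT.nd (nat_lit 188) (nat_lit 0) (nat_lit 0) (XT.nd (nat_lit 94) (nat_lit 0) (nat_lit 0) (XT.lf (nat_lit 0) (nat_lit 50360284073) (nat_lit 0) (nat_lit 0) (nat_lit 0) (nat_lit 0) (nat_lit 0) (nat_lit 0) (nat_lit 1) (nat_lit 0) (nat_lit 1) (nat_lit 0) (nat_lit 437) (nat_lit 410) (nat_lit 233)) (XT.lf (nat_lit 0) (nat_lit 50360279547) (nat_lit 0) (nat_lit 0) (nat_lit 0) (nat_lit 0) (nat_lit 0) (nat_lit 0) (nat_lit 1) (nat_lit 0) (nat_lit 1) (nat_lit 0) (nat_lit 438) (nat_lit 410) (nat_lit 232))) (XT.nd (nat_lit 94) (nat_lit 0) (nat_lit 0) (XT.lf (nat_lit 0) (nat_lit 50360275356) (nat_lit 0) (nat_lit 0) (nat_lit 0) (nat_lit 0) (nat_lit 0) (nat_lit 0) (nat_lit 1) (nat_lit 0) (nat_lit 1)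 (nat_lit 0) (nat_lit 439) (nat_lit 410) (nat_lit 231)) (XT.lf (nat_lit 0) (nat_lit 50360271475) (nat_lit 0) (nat_lit 0) (nat_lit 0) (nat_lit 0) (nat_lit 0) (nat_lit 0) (nat_lit 1) (nat_lit 0) (nat_lit 1) (nat_lit 0) (nat_lit 440) (nat_lit 410) (nat_lit 230)))) (XT.nd (nat_lit 50666) (nat_lit 0) (nat_lit 10836) (XT.nd (nat_lit 50572) (nat_lit 0) (nat_lit 10752) (XT.lf (nat_lit 0) (nat_lit 50360267882) (nat_lit 0) (nat_lit 0) (nat_lit 0) (nat_lit 0) (nat_lit 0) (nat_lit 0) (nat_lit 1) (nat_lit 0) (nat_lit 1) (nat_lit 0) (nat_lit 441) (nat_lit 410) (nat_lit 229)) (XT.lf (nat_lit 924) (nat_lit 27218313302) (nat_lit 0) (nat_lit 48326052703) (nat_lit 924) (nat_lit 27218313302) (nat_lit 139) (nat_lit 1) (nat_lit 128) (nat_lit 0) (nat_lit 139) (nat_lit 0) (nat_lit 258) (nat_lit 411) (nat_lit 411))) (XT.nd (nat_lit 94) (nat_lit 0) (nat_lit 0) (XT.lf (nat_lit 924) (nat_lit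 10153266032) (nat_lit 0) (nat_lit 94878687937) (nat_lit 840) (nat_lit 92791039820) (nat_lit 140) (nat_lit 1) (nat_lit 129) (nat_lit 1) (nat_lit 139) (nat_lit 1) (nat_lit 259) (nat_lit 411) (nat_lit 410)) (XT.nd (nat_lit 94) (nat_lit 0) (nat_lit 84) (XT.lf (nat_lit 924) (nat_lit 93251887954) (nat_lit 84) (nat_lit 63540289293) (nat_lit 0) (nat_lit 33698870980) (nat_lit 140) (nat_lit 1) (nat_lit 130) (nat_lit 1) (nat_lit 129) (nat_lit 1) (nat_lit 260) (nat_lit 411) (nat_lit 409)) (XT.lf (nat_lit 924) (nat_lit 80577270497) (nat_lit 84) (nat_lit 26629294823) (nat_lit 0) (nat_lit 76319446500) (nat_lit 141) (nat_lit 1) (nat_lit 131) (nat_lit 1) (nat_lit 130) (nat_lit 1) (nat_lit 261) (nat_lit 411) (nat_lit 408)))))) (XT.nd (nat_lit 376) (nat_lit 1764) (nat_lit 0) (XT.nd (nat_lit 188) (nat_lit 672) (nat_lit 0) (XT.nd (nat_lit 94) (nat_lit 0) (nat_lit 84) (XT.lf (nat_lit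 924) (nat_lit 59634030609) (nat_lit 0) (nat_lit 111572452492) (nat_lit 840) (nat_lit 5703567830) (nat_lit 142) (nat_lit 1) (nat_lit 131) (nat_lit 1) (nat_lit 141) (nat_lit 1) (nat_lit 262) (nat_lit 411) (nat_lit 407)) (XT.lf (nat_lit 924) (nat_lit 14308600949) (nat_lit 0) (nat_lit 123039624902) (nat_lit 840) (nat_lit 33261822637) (nat_lit 143) (nat_lit 1) (nat_lit 132) (nat_lit 1) (nat_lit 142) (nat_lit 1) (nat_lit 263) (nat_lit 411) (nat_lit 406))) (XT.nd (nat_lit 94) (nat_lit 756) (nat_lit 0) (XT.lf (nat_lit 924) (nat_lit 27495311223) (nat_lit 84) (nat_lit 106931453586) (nat_lit 0) (nat_lit 30177375485) (nat_lit 143) (nat_lit 1) (nat_lit 133) (nat_lit 1) (nat_lit 132) (nat_lit 1) (nat_lit 264) (nat_lit 411) (nat_lit 405)) (XT.lf (nat_lit 924) (nat_lit 5646909948) (nat_lit 0) (nat_lit 79938334799) (nat_lit 840) (nat_lit 73302615430) (nat_lit 134) (nat_lit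 1) (nat_lit 123) (nat_lit 1) (nat_lit 133) (nat_lit 1) (nat_lit 265) (nat_lit 411) (nat_lit 404)))) (XT.nd (nat_lit 188) (nat_lit 756) (nat_lit 0) (XT.nd (nat_lit 94) (nat_lit 420) (nat_lit 0) (XT.lf (nat_lit 84) (nat_lit 39100380779) (nat_lit 0) (nat_lit 16944014576) (nat_lit 588) (nat_lit 97397845049) (nat_lit 117) (nat_lit 1) (nat_lit 116) (nat_lit 1) (nat_lit 123) (nat_lit 1) (nat_lit 266) (nat_lit 411) (nat_lit 403)) (XT.lf (nat_lit 504) (nat_lit 107755727987) (nat_lit 0) (nat_lit 35076812486) (nat_lit 420) (nat_lit 5423091946) (nat_lit 117) (nat_lit 1) (nat_lit 111) (nat_lit 1) (nat_lit 116) (nat_lit 1) (nat_lit 267) (nat_lit 411) (nat_lit 402))) (XT.nd (nat_lit 94) (nat_lit 336) (nat_lit 0) (XT.lf (nat_lit 504) (nat_lit 77757559443) (nat_lit 0) (nat_lit 16349453398) (nat_lit 420) (nat_lit 49185026462) (nat_lit 112) (nat_lit 1) (nat_lit 106) (nat_lit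 1) (nat_lit 111) (nat_lit 1) (nat_lit 268) (nat_lit 411) (nat_lit 401)) (XT.nd (nat_lit 94) (nat_lit 0) (nat_lit 0) (XT.lf (nat_lit 420) (nat_lit 47314483206) (nat_lit 0) (nat_lit 301020006) (nat_lit 336) (nat_lit 90953616813) (nat_lit 107) (nat_lit 1) (nat_lit 102) (nat_lit 1) (nat_lit 106) (nat_lit 1) (nat_lit 269) (nat_lit 411) (nat_lit 400)) (XT.lf (nat_lit 84) (nat_lit 3490638963) (nat_lit 0) (nat_lit 117721260025) (nat_lit 420) (nat_lit 12851564479) (nat_lit 103) (nat_lit 1) (nat_lit 102) (nat_lit 1) (nat_lit 107) (nat_lit 1) (nat_lit 270) (nat_lit 411) (nat_lit 399))))))) (XT.nd (nat_lit 846) (nat_lit 2016) (nat_lit 0) (XT.nd (nat_lit 376) (nat_lit 1512) (nat_lit 0) (XT.nd (nat_lit 188) (nat_lit 588) (nat_lit 0) (XT.nd (nat_lit 94) (nat_lit 336) (nat_lit 0) (XT.lf (nat_lit 84) (nat_lit 90129203399) (nat_lit 0) (nat_lit 14948892760) (nat_lit 420) (nat_lit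 24653439086) (nat_lit 98) (nat_lit 1) (nat_lit 97) (nat_lit 1) (nat_lit 102) (nat_lit 1) (nat_lit 271) (nat_lit 411) (nat_lit 398)) (XT.lf (nat_lit 84) (nat_lit 45093924393) (nat_lit 0) (nat_lit 45791112196) (nat_lit 420) (nat_lit 34705977111) (nat_lit 94) (nat_lit 1) (nat_lit 93) (nat_lit 1) (nat_lit 98) (nat_lit 1) (nat_lit 272) (nat_lit 411) (nat_lit 397))) (XT.nd (nat_lit 94) (nat_lit 252) (nat_lit 0) (XT.lf (nat_lit 84) (nat_lit 2225736114) (nat_lit 0) (nat_lit 76562028557) (nat_lit 420) (nat_lit 42858767495) (nat_lit 90) (nat_lit 1) (nat_lit 89) (nat_lit 1) (nat_lit 94) (nat_lit 1) (nat_lit 273) (nat_lit 411) (nat_lit 396)) (XT.lf (nat_lit 336) (nat_lit 10051298849) (nat_lit 0) (nat_lit 67972122867) (nat_lit 252) (nat_lit 39833226169) (nat_lit 90) (nat_lit 1) (nat_lit 86) (nat_lit 1) (nat_lit 89) (nat_lit 1) (nat_lit 274) (nat_lit 411) (nat_lit 395))))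 (XT.nd (nat_lit 188) (nat_lit 840) (nat_lit 0) (XT.nd (nat_lit 94) (nat_lit 252) (nat_lit 0) (XT.lf (nat_lit 84) (nat_lit 34729939912) (nat_lit 0) (nat_lit 23804116618) (nat_lit 420) (nat_lit 55689274065) (nat_lit 82) (nat_lit 1) (nat_lit 81) (nat_lit 1) (nat_lit 86) (nat_lit 1) (nat_lit 275) (nat_lit 411) (nat_lit 394)) (XT.lf (nat_lit 336) (nat_lit 53770300618) (nat_lit 0) (nat_lit 50510247783) (nat_lit 252) (nat_lit 6465251769) (nat_lit 82) (nat_lit 1) (nat_lit 78) (nat_lit 1) (nat_lit 81) (nat_lit 1) (nat_lit 276) (nat_lit 411) (nat_lit 393))) (XT.nd (nat_lit 94) (nat_lit 588) (nat_lit 0) (XT.lf (nat_lit 336) (nat_lit 17233121580) (nat_lit 0) (nat_lit 43487254967) (nat_lit 252) (nat_lit 46681535664) (nat_lit 79) (nat_lit 1) (nat_lit 75) (nat_lit 1) (nat_lit 78) (nat_lit 1) (nat_lit 277) (nat_lit 411) (nat_lit 392)) (XT.nd (nat_lit 94) (nat_lit 252) (nat_lit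 0) (XT.lf (nat_lit 84) (nat_lit 19641594524) (nat_lit 0) (nat_lit 17983586679) (nat_lit 336) (nat_lit 66571721012) (nat_lit 72) (nat_lit 1) (nat_lit 71) (nat_lit 1) (nat_lit 75) (nat_lit 1) (nat_lit 278) (nat_lit 411) (nat_lit 391)) (XT.lf (nat_lit 336) (nat_lit 48875530021) (nat_lit 0) (nat_lit 32519966489) (nat_lit 252) (nat_lit 19713710606) (nat_lit 72) (nat_lit 1) (nat_lit 68) (nat_lit 1) (nat_lit 71) (nat_lit 1) (nat_lit 279) (nat_lit 411) (nat_lit 390)))))) (XT.nd (nat_lit 470) (nat_lit 924) (nat_lit 0) (XT.nd (nat_lit 188) (nat_lit 588) (nat_lit 0) (XT.nd (nat_lit 94) (nat_lit 336) (nat_lit 0) (XT.lf (nat_lit 252) (nat_lit 12116316060) (nat_lit 0) (nat_lit 28371298749) (nat_lit 168) (nat_lit 57658463443) (nat_lit 69) (nat_lit 1) (nat_lit 66) (nat_lit 1) (nat_lit 68) (nat_lit 1) (nat_lit 280) (nat_lit 411) (nat_lit 389)) (XT.lf (nat_lit 84) (nat_lit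 2052581349) (nat_lit 0) (nat_lit 22968830889) (nat_lit 336) (nat_lit 70276395830) (nat_lit 63) (nat_lit 1) (nat_lit 62) (nat_lit 1) (nat_lit 66) (nat_lit 1) (nat_lit 281) (nat_lit 411) (nat_lit 388))) (XT.nd (nat_lit 94) (nat_lit 420) (nat_lit 0) (XT.lf (nat_lit 252) (nat_lit 35207791284) (nat_lit 0) (nat_lit 22001849081) (nat_lit 168) (nat_lit 35330314752) (nat_lit 63) (nat_lit 1) (nat_lit 60) (nat_lit 1) (nat_lit 62) (nat_lit 1) (nat_lit 282) (nat_lit 411) (nat_lit 387)) (XT.nd (nat_lit 94) (nat_lit 168) (nat_lit 0) (XT.lf (nat_lit 84) (nat_lit 19102276208) (nat_lit 0) (nat_lit 882346114) (nat_lit 252) (nat_lit 69917823045) (nat_lit 58) (nat_lit 1) (nat_lit 57) (nat_lit 1) (nat_lit 60) (nat_lit 1) (nat_lit 283) (nat_lit 411) (nat_lit 386)) (XT.lf (nat_lit 252) (nat_lit 52221934415) (nat_lit 0) (nat_lit 18096071189) (nat_lit 168) (nat_lit 17023653292) (nat_lit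 58) (nat_lit 1) (nat_lit 55) (nat_lit 1) (nat_lit 57) (nat_lit 1) (nat_lit 284) (nat_lit 411) (nat_lit 385))))) (XT.nd (nat_lit 188) (nat_lit 504) (nat_lit 0) (XT.nd (nat_lit 94) (nat_lit 252) (nat_lit 0) (XT.lf (nat_lit 252) (nat_lit 16222225508) (nat_lit 0) (nat_lit 16822299264) (nat_lit 168) (nat_lit 51834257729) (nat_lit 56) (nat_lit 1) (nat_lit 53) (nat_lit 1) (nat_lit 55) (nat_lit 1) (nat_lit 285) (nat_lit 411) (nat_lit 384)) (XT.lf (nat_lit 252) (nat_lit 64396273433) (nat_lit 0) (nat_lit 16072341564) (nat_lit 168) (nat_lit 2038962993) (nat_lit 53) (nat_lit 1) (nat_lit 50) (nat_lit 1) (nat_lit 52) (nat_lit 1) (nat_lit 286) (nat_lit 411) (nat_lit 383))) (XT.nd (nat_lit 94) (nat_lit 336) (nat_lit 0) (XT.lf (nat_lit 252) (nat_lit 28820787473) (nat_lit 0) (nat_lit 15343667456) (nat_lit 168) (nat_lit 36037806838) (nat_lit 51) (nat_lit 1) (nat_lit 48) (nat_lit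 1) (nat_lit 50) (nat_lit 1) (nat_lit 287) (nat_lit 411) (nat_lit 382)) (XT.nd (nat_lit 94) (nat_lit 168) (nat_lit 0) (XT.lf (nat_lit 84) (nat_lit 9872232449) (nat_lit 0) (nat_lit 5426223810) (nat_lit 168) (nat_lit 62694107846) (nat_lit 47) (nat_lit 1) (nat_lit 46) (nat_lit 1) (nat_lit 48) (nat_lit 1) (nat_lit 288) (nat_lit 411) (nat_lit 381)) (XT.lf (nat_lit 252) (nat_lit 37814530669) (nat_lit 0) (nat_lit 15136462636) (nat_lit 168) (nat_lit 22887632757) (nat_lit 47) (nat_lit 1) (nat_lit 44) (nat_lit 1) (nat_lit 46) (nat_lit 1) (nat_lit 289) (nat_lit 411) (nat_lit 380))))))))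
noncomputable def ec201 : XT := (XT.nd (nat_lit 1786) (nat_lit 1008) (nat_lit 0) (XT.nd (nat_lit 846) (nat_lit 1260) (nat_lit 0) (XT.nd (nat_lit 376) (nat_lit 756) (nat_lit 0) (XT.nd (nat_lit 188) (nat_lit 336) (nat_lit 0) (XT.nd (nat_lit 94) (nat_lit 252) (nat_lit 0) (XT.lf (nat_lit 168) (nat_lit 4072087615) (nat_lit 0) (nat_lit 15508233719) (nat_lit 84) (nat_lit 54189401387) (nat_lit 45) (nat_lit 1) (nat_lit 43) (nat_lit 1) (nat_lit 44) (nat_lit 1) (nat_lit 290) (nat_lit 411) (nat_lit 379)) (XT.lf (nat_lit 252) (nat_lit 43956682412) (nat_lit 0) (nat_lit 15860784669) (nat_lit 168) (nat_lit 11940398353) (nat_lit 43) (nat_lit 1) (nat_lit 40) (nat_lit 1) (nat_lit 42) (nat_lit 1) (nat_lit 291) (nat_lit 411) (nat_lit 378))) (XT.nd (nat_lit 94) (nat_lit 252) (nat_lit 0) (XT.lf (nat_lit 168) (nat_lit 11055429762) (nat_lit 0) (nat_lit 16453835390) (nat_lit 84) (nat_lit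 42304546626) (nat_lit 41) (nat_lit 1) (nat_lit 39) (nat_lit 1) (nat_lit 40) (nat_lit 1) (nat_lit 292) (nat_lit 411) (nat_lit 377)) (XT.lf (nat_lit 252) (nat_lit 47856236609) (nat_lit 0) (nat_lit 17247408739) (nat_lit 168) (nat_lit 2830447420) (nat_lit 39) (nat_lit 1) (nat_lit 36) (nat_lit 1) (nat_lit 38) (nat_lit 1) (nat_lit 293) (nat_lit 411) (nat_lit 376)))) (XT.nd (nat_lit 188) (nat_lit 420) (nat_lit 0) (XT.nd (nat_lit 94) (nat_lit 252) (nat_lit 0) (XT.lf (nat_lit 168) (nat_lit 15910280144) (nat_lit 0) (nat_lit 17980630860) (nat_lit 84) (nat_lit 32213853004) (nat_lit 37) (nat_lit 1) (nat_lit 35) (nat_lit 1) (nat_lit 36) (nat_lit 1) (nat_lit 294) (nat_lit 411) (nat_lit 375)) (XT.lf (nat_lit 84) (nat_lit 4592340020) (nat_lit 0) (nat_lit 14414131183) (nat_lit 252) (nat_lit 45334682803) (nat_lit 33) (nat_lit 1) (nat_lit 32) (nat_lit 1) (nat_lit 35) (nat_lit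 1) (nat_lit 295) (nat_lit 411) (nat_lit 374))) (XT.nd (nat_lit 94) (nat_lit 336) (nat_lit 0) (XT.lf (nat_lit 168) (nat_lit 19093771642) (nat_lit 0) (nat_lit 19894805027) (nat_lit 84) (nat_lit 23632765505) (nat_lit 33) (nat_lit 1) (nat_lit 31) (nat_lit 1) (nat_lit 32) (nat_lit 1) (nat_lit 296) (nat_lit 411) (nat_lit 373)) (XT.nd (nat_lit 94) (nat_lit 84) (nat_lit 0) (XT.lf (nat_lit 84) (nat_lit 10680072927) (nat_lit 0) (nat_lit 10344372815) (nat_lit 252) (nat_lit 39937522999) (nat_lit 29) (nat_lit 1) (nat_lit 28) (nat_lit 1) (nat_lit 31) (nat_lit 1) (nat_lit 297) (nat_lit 411) (nat_lit 372)) (XT.lf (nat_lit 168) (nat_lit 20974550992) (nat_lit 0) (nat_lit 22045063330) (nat_lit 84) (nat_lit 16325377350) (nat_lit 29) (nat_lit 1) (nat_lit 27) (nat_lit 1) (nat_lit 28) (nat_lit 1) (nat_lit 298) (nat_lit 411) (nat_lit 371)))))) (XT.nd (nat_lit 470) (nat_lit 588) (nat_lit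 0) (XT.nd (nat_lit 188) (nat_lit 420) (nat_lit 0) (XT.nd (nat_lit 94) (nat_lit 84) (nat_lit 0) (XT.lf (nat_lit 84) (nat_lit 15723537010) (nat_lit 0) (nat_lit 7491984046) (nat_lit 168) (nat_lit 34565894843) (nat_lit 26) (nat_lit 1) (nat_lit 25) (nat_lit 1) (nat_lit 27) (nat_lit 1) (nat_lit 299) (nat_lit 411) (nat_lit 370)) (XT.lf (nat_lit 168) (nat_lit 21849313030) (nat_lit 0) (nat_lit 24314344679) (nat_lit 84) (nat_lit 10095752155) (nat_lit 26) (nat_lit 1) (nat_lit 24) (nat_lit 1) (nat_lit 25) (nat_lit 1) (nat_lit 300) (nat_lit 411) (nat_lit 369))) (XT.nd (nat_lit 94) (nat_lit 252) (nat_lit 0) (XT.lf (nat_lit 84) (nat_lit 19888812371) (nat_lit 0) (nat_lit 5589117788) (nat_lit 168) (nat_lit 29306288985) (nat_lit 23) (nat_lit 1) (nat_lit 22) (nat_lit 1) (nat_lit 24) (nat_lit 1) (nat_lit 301) (nat_lit 411) (nat_lit 368)) (XT.nd (nat_lit 94) (nat_lit 168) (nat_lit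 0) (XT.lf (nat_lit 168) (nat_lit 21956282611) (nat_lit 0) (nat_lit 26613086484) (nat_lit 84) (nat_lit 4780822212) (nat_lit 23) (nat_lit 1) (nat_lit 21) (nat_lit 1) (nat_lit 22) (nat_lit 1) (nat_lit 302) (nat_lit 411) (nat_lit 367)) (XT.lf (nat_lit 84) (nat_lit 23313930106) (nat_lit 0) (nat_lit 4420400081) (nat_lit 168) (nat_lit 24222506414) (nat_lit 20) (nat_lit 1) (nat_lit 19) (nat_lit 1) (nat_lit 21) (nat_lit 1) (nat_lit 303) (nat_lit 411) (nat_lit 366))))) (XT.nd (nat_lit 188) (nat_lit 336) (nat_lit 0) (XT.nd (nat_lit 94) (nat_lit 168) (nat_lit 0) (XT.lf (nat_lit 168) (nat_lit 21486205367) (nat_lit 0) (nat_lit 28873755018) (nat_lit 84) (nat_lit 244574702) (nat_lit 20) (nat_lit 1) (nat_lit 18) (nat_lit 1) (nat_lit 19) (nat_lit 1) (nat_lit 304) (nat_lit 411) (nat_lit 365)) (XT.lf (nat_lit 84) (nat_lit 26113837255) (nat_lit 0) (nat_lit 3813077326) (nat_lit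 168) (nat_lit 19360282229) (nat_lit 17) (nat_lit 1) (nat_lit 16) (nat_lit 1) (nat_lit 18) (nat_lit 1) (nat_lit 305) (nat_lit 411) (nat_lit 364))) (XT.nd (nat_lit 94) (nat_lit 252) (nat_lit 0) (XT.lf (nat_lit 0) (nat_lit 3510632183) (nat_lit 0) (nat_lit 27476320674) (nat_lit 168) (nat_lit 17021219032) (nat_lit 15) (nat_lit 3) (nat_lit 15) (nat_lit 1) (nat_lit 17) (nat_lit 1) (nat_lit 306) (nat_lit 411) (nat_lit 363)) (XT.nd (nat_lit 94) (nat_lit 84) (nat_lit 0) (XT.lf (nat_lit 84) (nat_lit 28384463023) (nat_lit 0) (nat_lit 3628985697) (nat_lit 168) (nat_lit 14751031627) (nat_lit 14) (nat_lit 1) (nat_lit 13) (nat_lit 1) (nat_lit 15) (nat_lit 1) (nat_lit 307) (nat_lit 411) (nat_lit 362)) (XT.lf (nat_lit 0) (nat_lit 6706606242) (nat_lit 0) (nat_lit 26274906336) (nat_lit 168) (nat_lit 12572398536) (nat_lit 12) (nat_lit 3) (nat_lit 12) (nat_lit 1) (nat_lit 14) (nat_lit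 1) (nat_lit 308) (nat_lit 411) (nat_lit 361))))))) (XT.nd (nat_lit 846) (nat_lit 0) (nat_lit 0) (XT.nd (nat_lit 376) (nat_lit 504) (nat_lit 0) (XT.nd (nat_lit 188) (nat_lit 252) (nat_lit 0) (XT.nd (nat_lit 94) (nat_lit 84) (nat_lit 0) (XT.lf (nat_lit 84) (nat_lit 30206050401) (nat_lit 0) (nat_lit 3758007501) (nat_lit 168) (nat_lit 10414881004) (nat_lit 11) (nat_lit 1) (nat_lit 10) (nat_lit 1) (nat_lit 12) (nat_lit 1) (nat_lit 309) (nat_lit 411) (nat_lit 360)) (XT.lf (nat_lit 0) (nat_lit 9428742006) (nat_lit 0) (nat_lit 25406516594) (nat_lit 168) (nat_lit 8397343754) (nat_lit 9) (nat_lit 3) (nat_lit 9) (nat_lit 1) (nat_lit 11) (nat_lit 1) (nat_lit 310) (nat_lit 411) (nat_lit 359))) (XT.nd (nat_lit 94) (nat_lit 84) (nat_lit 0) (XT.lf (nat_lit 84) (nat_lit 31645887239) (nat_lit 0) (nat_lit 4112740834) (nat_lit 168) (nat_lit 6363117019) (nat_lit 8) (nat_lit 1)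 (nat_lit 7) (nat_lit 1) (nat_lit 9) (nat_lit 1) (nat_lit 311) (nat_lit 411) (nat_lit 358)) (XT.lf (nat_lit 0) (nat_lit 11742435971) (nat_lit 0) (nat_lit 24788499225) (nat_lit 168) (nat_lit 4504837723) (nat_lit 6) (nat_lit 3) (nat_lit 6) (nat_lit 1) (nat_lit 8) (nat_lit 1) (nat_lit 312) (nat_lit 411) (nat_lit 357)))) (XT.nd (nat_lit 188) (nat_lit 252) (nat_lit 0) (XT.nd (nat_lit 94) (nat_lit 84) (nat_lit 0) (XT.lf (nat_lit 84) (nat_lit 32760546273) (nat_lit 0) (nat_lit 4624159110) (nat_lit 168) (nat_lit 2600162021) (nat_lit 5) (nat_lit 1) (nat_lit 4) (nat_lit 1) (nat_lit 6) (nat_lit 1) (nat_lit 313) (nat_lit 411) (nat_lit 356)) (XT.lf (nat_lit 0) (nat_lit 13702997979) (nat_lit 0) (nat_lit 24355280341) (nat_lit 168) (nat_lit 897423893) (nat_lit 3) (nat_lit 3) (nat_lit 3) (nat_lit 1) (nat_lit 5) (nat_lit 1) (nat_lit 314) (nat_lit 411) (nat_lit 355))) (XT.nd (nat_lit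 94) (nat_lit 0) (nat_lit 0) (XT.lf (nat_lit 0) (nat_lit 55065680290) (nat_lit 0) (nat_lit 0) (nat_lit 0) (nat_lit 0) (nat_lit 0) (nat_lit 0) (nat_lit 1) (nat_lit 0) (nat_lit 1) (nat_lit 0) (nat_lit 315) (nat_lit 411) (nat_lit 354)) (XT.nd (nat_lit 94) (nat_lit 0) (nat_lit 0) (XT.lf (nat_lit 0) (nat_lit 55015558846) (nat_lit 0) (nat_lit 0) (nat_lit 0) (nat_lit 0) (nat_lit 0) (nat_lit 0) (nat_lit 1) (nat_lit 0) (nat_lit 1) (nat_lit 0) (nat_lit 316) (nat_lit 411) (nat_lit 353)) (XT.lf (nat_lit 0) (nat_lit 54969150102) (nat_lit 0) (nat_lit 0) (nat_lit 0) (nat_lit 0) (nat_lit 0) (nat_lit 0) (nat_lit 1) (nat_lit 0) (nat_lit 1) (nat_lit 0) (nat_lit 317) (nat_lit 411) (nat_lit 352)))))) (XT.nd (nat_lit 470) (nat_lit 0) (nat_lit 0) (XT.nd (nat_lit 188) (nat_lit 0) (nat_lit 0) (XT.nd (nat_lit 94) (nat_lit 0) (nat_lit 0) (XT.lf (nat_lit 0) (nat_lit 54926179043) (nat_lit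 0) (nat_lit 0) (nat_lit 0) (nat_lit 0) (nat_lit 0) (nat_lit 0) (nat_lit 1) (nat_lit 0) (nat_lit 1) (nat_lit 0) (nat_lit 318) (nat_lit 411) (nat_lit 351)) (XT.lf (nat_lit 0) (nat_lit 54886391026) (nat_lit 0) (nat_lit 0) (nat_lit 0) (nat_lit 0) (nat_lit 0) (nat_lit 0) (nat_lit 1) (nat_lit 0) (nat_lit 1) (nat_lit 0) (nat_lit 319) (nat_lit 411) (nat_lit 350))) (XT.nd (nat_lit 94) (nat_lit 0) (nat_lit 0) (XT.lf (nat_lit 0) (nat_lit 54849550269) (nat_lit 0) (nat_lit 0) (nat_lit 0) (nat_lit 0) (nat_lit 0) (nat_lit 0) (nat_lit 1) (nat_lit 0) (nat_lit 1) (nat_lit 0) (nat_lit 320) (nat_lit 411) (nat_lit 349)) (XT.nd (nat_lit 94) (nat_lit 0) (nat_lit 0) (XT.lf (nat_lit 0) (nat_lit 54815438456) (nat_lit 0) (nat_lit 0) (nat_lit 0) (nat_lit 0) (nat_lit 0) (nat_lit 0) (nat_lit 1) (nat_lit 0) (nat_lit 1) (nat_lit 0) (nat_lit 321) (nat_lit 411) (nat_lit 348)) (XT.lf (nat_lit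 0) (nat_lit 54783853445) (nat_lit 0) (nat_lit 0) (nat_lit 0) (nat_lit 0) (nat_lit 0) (nat_lit 0) (nat_lit 1) (nat_lit 0) (nat_lit 1) (nat_lit 0) (nat_lit 322) (nat_lit 411) (nat_lit 347))))) (XT.nd (nat_lit 188) (nat_lit 0) (nat_lit 0) (XT.nd (nat_lit 94) (nat_lit 0) (nat_lit 0) (XT.lf (nat_lit 0) (nat_lit 54754608064) (nat_lit 0) (nat_lit 0) (nat_lit 0) (nat_lit 0) (nat_lit 0) (nat_lit 0) (nat_lit 1) (nat_lit 0) (nat_lit 1) (nat_lit 0) (nat_lit 323) (nat_lit 411) (nat_lit 346)) (XT.lf (nat_lit 0) (nat_lit 54727529008) (nat_lit 0) (nat_lit 0) (nat_lit 0) (nat_lit 0) (nat_lit 0) (nat_lit 0) (nat_lit 1) (nat_lit 0) (nat_lit 1) (nat_lit 0) (nat_lit 324) (nat_lit 411) (nat_lit 345))) (XT.nd (nat_lit 94) (nat_lit 0) (nat_lit 0) (XT.lf (nat_lit 0) (nat_lit 54702455808) (nat_lit 0) (nat_lit 0) (nat_lit 0) (nat_lit 0) (nat_lit 0) (nat_lit 0) (nat_lit 1) (nat_lit 0)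 (nat_lit 1) (nat_lit 0) (nat_lit 325) (nat_lit 411) (nat_lit 344)) (XT.nd (nat_lit 94) (nat_lit 0) (nat_lit 0) (XT.lf (nat_lit 0) (nat_lit 54679239882) (nat_lit 0) (nat_lit 0) (nat_lit 0) (nat_lit 0) (nat_lit 0) (nat_lit 0) (nat_lit 1) (nat_lit 0) (nat_lit 1) (nat_lit 0) (nat_lit 326) (nat_lit 411) (nat_lit 343)) (XT.lf (nat_lit 0) (nat_lit 54657743654) (nat_lit 0) (nat_lit 0) (nat_lit 0) (nat_lit 0) (nat_lit 0) (nat_lit 0) (nat_lit 1) (nat_lit 0) (nat_lit 1) (nat_lit 0) (nat_lit 327) (nat_lit 411) (nat_lit 342))))))))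
noncomputable def ec202 : XT := (XT.nd (nat_lit 1692) (nat_lit 0) (nat_lit 0) (XT.nd (nat_lit 846) (nat_lit 0) (nat_lit 0) (XT.nd (nat_lit 376) (nat_lit 0) (nat_lit 0) (XT.nd (nat_lit 188) (nat_lit 0) (nat_lit 0) (XT.nd (nat_lit 94) (nat_lit 0) (nat_lit 0) (XT.lf (nat_lit 0) (nat_lit 54637839739) (nat_lit 0) (nat_lit 0) (nat_lit 0) (nat_lit 0) (nat_lit 0) (nat_lit 0) (nat_lit 1) (nat_lit 0) (nat_lit 1) (nat_lit 0) (nat_lit 328) (nat_lit 411) (nat_lit 341)) (XT.lf (nat_lit 0) (nat_lit 54619410188) (nat_lit 0) (nat_lit 0) (nat_lit 0) (nat_lit 0) (nat_lit 0) (nat_lit 0) (nat_lit 1) (nat_lit 0) (nat_lit 1) (nat_lit 0) (nat_lit 329) (nat_lit 411) (nat_lit 340))) (XT.nd (nat_lit 94) (nat_lit 0) (nat_lit 0) (XT.lf (nat_lit 0) (nat_lit 54602345790) (nat_lit 0) (nat_lit 0) (nat_lit 0) (nat_lit 0) (nat_lit 0) (nat_lit 0) (nat_lit 1) (nat_lit 0) (nat_lit 1) (nat_lit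 0) (nat_lit 330) (nat_lit 411) (nat_lit 339)) (XT.lf (nat_lit 0) (nat_lit 54586545420) (nat_lit 0) (nat_lit 0) (nat_lit 0) (nat_lit 0) (nat_lit 0) (nat_lit 0) (nat_lit 1) (nat_lit 0) (nat_lit 1) (nat_lit 0) (nat_lit 331) (nat_lit 411) (nat_lit 338)))) (XT.nd (nat_lit 188) (nat_lit 0) (nat_lit 0) (XT.nd (nat_lit 94) (nat_lit 0) (nat_lit 0) (XT.lf (nat_lit 0) (nat_lit 54571915449) (nat_lit 0) (nat_lit 0) (nat_lit 0) (nat_lit 0) (nat_lit 0) (nat_lit 0) (nat_lit 1) (nat_lit 0) (nat_lit 1) (nat_lit 0) (nat_lit 332) (nat_lit 411) (nat_lit 337)) (XT.lf (nat_lit 0) (nat_lit 54558369179) (nat_lit 0) (nat_lit 0) (nat_lit 0) (nat_lit 0) (nat_lit 0) (nat_lit 0) (nat_lit 1) (nat_lit 0) (nat_lit 1) (nat_lit 0) (nat_lit 333) (nat_lit 411) (nat_lit 336))) (XT.nd (nat_lit 94) (nat_lit 0) (nat_lit 0) (XT.lf (nat_lit 0) (nat_lit 54545826336) (nat_lit 0) (nat_lit 0) (nat_lit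 0) (nat_lit 0) (nat_lit 0) (nat_lit 0) (nat_lit 1) (nat_lit 0) (nat_lit 1) (nat_lit 0) (nat_lit 334) (nat_lit 411) (nat_lit 335)) (XT.nd (nat_lit 94) (nat_lit 0) (nat_lit 0) (XT.lf (nat_lit 0) (nat_lit 54534212593) (nat_lit 0) (nat_lit 0) (nat_lit 0) (nat_lit 0) (nat_lit 0) (nat_lit 0) (nat_lit 1) (nat_lit 0) (nat_lit 1) (nat_lit 0) (nat_lit 335) (nat_lit 411) (nat_lit 334)) (XT.lf (nat_lit 0) (nat_lit 54523459128) (nat_lit 0) (nat_lit 0) (nat_lit 0) (nat_lit 0) (nat_lit 0) (nat_lit 0) (nat_lit 1) (nat_lit 0) (nat_lit 1) (nat_lit 0) (nat_lit 336) (nat_lit 411) (nat_lit 333)))))) (XT.nd (nat_lit 376) (nat_lit 0) (nat_lit 0) (XT.nd (nat_lit 188) (nat_lit 0) (nat_lit 0) (XT.nd (nat_lit 94) (nat_lit 0) (nat_lit 0) (XT.lf (nat_lit 0) (nat_lit 54513502215) (nat_lit 0) (nat_lit 0) (nat_lit 0) (nat_lit 0) (nat_lit 0) (nat_lit 0) (nat_lit 1) (nat_lit 0) (nat_lit 1)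 (nat_lit 0) (nat_lit 337) (nat_lit 411) (nat_lit 332)) (XT.lf (nat_lit 0) (nat_lit 54504282851) (nat_lit 0) (nat_lit 0) (nat_lit 0) (nat_lit 0) (nat_lit 0) (nat_lit 0) (nat_lit 1) (nat_lit 0) (nat_lit 1) (nat_lit 0) (nat_lit 338) (nat_lit 411) (nat_lit 331))) (XT.nd (nat_lit 94) (nat_lit 0) (nat_lit 0) (XT.lf (nat_lit 0) (nat_lit 54495746403) (nat_lit 0) (nat_lit 0) (nat_lit 0) (nat_lit 0) (nat_lit 0) (nat_lit 0) (nat_lit 1) (nat_lit 0) (nat_lit 1) (nat_lit 0) (nat_lit 339) (nat_lit 411) (nat_lit 330)) (XT.lf (nat_lit 0) (nat_lit 54487842285) (nat_lit 0) (nat_lit 0) (nat_lit 0) (nat_lit 0) (nat_lit 0) (nat_lit 0) (nat_lit 1) (nat_lit 0) (nat_lit 1) (nat_lit 0) (nat_lit 340) (nat_lit 411) (nat_lit 329)))) (XT.nd (nat_lit 188) (nat_lit 0) (nat_lit 0) (XT.nd (nat_lit 94) (nat_lit 0) (nat_lit 0) (XT.lf (nat_lit 0) (nat_lit 54480523657) (nat_lit 0) (nat_lit 0)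 (nat_lit 0) (nat_lit 0) (nat_lit 0) (nat_lit 0) (nat_lit 1) (nat_lit 0) (nat_lit 1) (nat_lit 0) (nat_lit 341) (nat_lit 411) (nat_lit 328)) (XT.lf (nat_lit 0) (nat_lit 54473747149) (nat_lit 0) (nat_lit 0) (nat_lit 0) (nat_lit 0) (nat_lit 0) (nat_lit 0) (nat_lit 1) (nat_lit 0) (nat_lit 1) (nat_lit 0) (nat_lit 342) (nat_lit 411) (nat_lit 327))) (XT.nd (nat_lit 94) (nat_lit 0) (nat_lit 0) (XT.lf (nat_lit 0) (nat_lit 54467472605) (nat_lit 0) (nat_lit 0) (nat_lit 0) (nat_lit 0) (nat_lit 0) (nat_lit 0) (nat_lit 1) (nat_lit 0) (nat_lit 1) (nat_lit 0) (nat_lit 343) (nat_lit 411) (nat_lit 326)) (XT.nd (nat_lit 94) (nat_lit 0) (nat_lit 0) (XT.lf (nat_lit 0) (nat_lit 54461662842) (nat_lit 0) (nat_lit 0) (nat_lit 0) (nat_lit 0) (nat_lit 0) (nat_lit 0) (nat_lit 1) (nat_lit 0) (nat_lit 1) (nat_lit 0) (nat_lit 344) (nat_lit 411) (nat_lit 325)) (XT.lf (nat_lit 0) (nat_lit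 54456283432) (nat_lit 0) (nat_lit 0) (nat_lit 0) (nat_lit 0) (nat_lit 0) (nat_lit 0) (nat_lit 1) (nat_lit 0) (nat_lit 1) (nat_lit 0) (nat_lit 345) (nat_lit 411) (nat_lit 324))))))) (XT.nd (nat_lit 846) (nat_lit 0) (nat_lit 0) (XT.nd (nat_lit 376) (nat_lit 0) (nat_lit 0) (XT.nd (nat_lit 188) (nat_lit 0) (nat_lit 0) (XT.nd (nat_lit 94) (nat_lit 0) (nat_lit 0) (XT.lf (nat_lit 0) (nat_lit 54451302497) (nat_lit 0) (nat_lit 0) (nat_lit 0) (nat_lit 0) (nat_lit 0) (nat_lit 0) (nat_lit 1) (nat_lit 0) (nat_lit 1) (nat_lit 0) (nat_lit 346) (nat_lit 411) (nat_lit 323)) (XT.lf (nat_lit 0) (nat_lit 54446690520) (nat_lit 0) (nat_lit 0) (nat_lit 0) (nat_lit 0) (nat_lit 0) (nat_lit 0) (nat_lit 1) (nat_lit 0) (nat_lit 1) (nat_lit 0) (nat_lit 347) (nat_lit 411) (nat_lit 322))) (XT.nd (nat_lit 94) (nat_lit 0) (nat_lit 0) (XT.lf (nat_lit 0) (nat_lit 54442420170) (nat_lit 0) (nat_lit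 0) (nat_lit 0) (nat_lit 0) (nat_lit 0) (nat_lit 0) (nat_lit 1) (nat_lit 0) (nat_lit 1) (nat_lit 0) (nat_lit 348) (nat_lit 411) (nat_lit 321)) (XT.lf (nat_lit 0) (nat_lit 54438466143) (nat_lit 0) (nat_lit 0) (nat_lit 0) (nat_lit 0) (nat_lit 0) (nat_lit 0) (nat_lit 1) (nat_lit 0) (nat_lit 1) (nat_lit 0) (nat_lit 349) (nat_lit 411) (nat_lit 320)))) (XT.nd (nat_lit 188) (nat_lit 0) (nat_lit 0) (XT.nd (nat_lit 94) (nat_lit 0) (nat_lit 0) (XT.lf (nat_lit 0) (nat_lit 54434805007) (nat_lit 0) (nat_lit 0) (nat_lit 0) (nat_lit 0) (nat_lit 0) (nat_lit 0) (nat_lit 1) (nat_lit 0) (nat_lit 1) (nat_lit 0) (nat_lit 350) (nat_lit 411) (nat_lit 319)) (XT.lf (nat_lit 0) (nat_lit 54431415066) (nat_lit 0) (nat_lit 0) (nat_lit 0) (nat_lit 0) (nat_lit 0) (nat_lit 0) (nat_lit 1) (nat_lit 0) (nat_lit 1) (nat_lit 0) (nat_lit 351) (nat_lit 411) (nat_lit 318))) (XT.nd (nat_lit 94) (nat_lit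 0) (nat_lit 0) (XT.lf (nat_lit 0) (nat_lit 54428276232) (nat_lit 0) (nat_lit 0) (nat_lit 0) (nat_lit 0) (nat_lit 0) (nat_lit 0) (nat_lit 1) (nat_lit 0) (nat_lit 1) (nat_lit 0) (nat_lit 352) (nat_lit 411) (nat_lit 317)) (XT.nd (nat_lit 94) (nat_lit 0) (nat_lit 0) (XT.lf (nat_lit 0) (nat_lit 54425369904) (nat_lit 0) (nat_lit 0) (nat_lit 0) (nat_lit 0) (nat_lit 0) (nat_lit 0) (nat_lit 1) (nat_lit 0) (nat_lit 1) (nat_lit 0) (nat_lit 353) (nat_lit 411) (nat_lit 316)) (XT.lf (nat_lit 0) (nat_lit 54422678860) (nat_lit 0) (nat_lit 0) (nat_lit 0) (nat_lit 0) (nat_lit 0) (nat_lit 0) (nat_lit 1) (nat_lit 0) (nat_lit 1) (nat_lit 0) (nat_lit 354) (nat_lit 411) (nat_lit 315)))))) (XT.nd (nat_lit 470) (nat_lit 0) (nat_lit 0) (XT.nd (nat_lit 188) (nat_lit 0) (nat_lit 0) (XT.nd (nat_lit 94) (nat_lit 0) (nat_lit 0) (XT.lf (nat_lit 0) (nat_lit 54420187152) (nat_lit 0) (nat_lit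 0) (nat_lit 0) (nat_lit 0) (nat_lit 0) (nat_lit 0) (nat_lit 1) (nat_lit 0) (nat_lit 1) (nat_lit 0) (nat_lit 355) (nat_lit 411) (nat_lit 314)) (XT.lf (nat_lit 0) (nat_lit 54417880015) (nat_lit 0) (nat_lit 0) (nat_lit 0) (nat_lit 0) (nat_lit 0) (nat_lit 0) (nat_lit 1) (nat_lit 0) (nat_lit 1) (nat_lit 0) (nat_lit 356) (nat_lit 411) (nat_lit 313))) (XT.nd (nat_lit 94) (nat_lit 0) (nat_lit 0) (XT.lf (nat_lit 0) (nat_lit 54415743777) (nat_lit 0) (nat_lit 0) (nat_lit 0) (nat_lit 0) (nat_lit 0) (nat_lit 0) (nat_lit 1) (nat_lit 0) (nat_lit 1) (nat_lit 0) (nat_lit 357) (nat_lit 411) (nat_lit 312)) (XT.nd (nat_lit 94) (nat_lit 0) (nat_lit 0) (XT.lf (nat_lit 0) (nat_lit 54413765779) (nat_lit 0) (nat_lit 0) (nat_lit 0) (nat_lit 0) (nat_lit 0) (nat_lit 0) (nat_lit 1) (nat_lit 0) (nat_lit 1) (nat_lit 0) (nat_lit 358) (nat_lit 411) (nat_lit 311)) (XT.lf (nat_lit 0) (nat_lit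 54411934300) (nat_lit 0) (nat_lit 0) (nat_lit 0) (nat_lit 0) (nat_lit 0) (nat_lit 0) (nat_lit 1) (nat_lit 0) (nat_lit 1) (nat_lit 0) (nat_lit 359) (nat_lit 411) (nat_lit 310))))) (XT.nd (nat_lit 188) (nat_lit 0) (nat_lit 0) (XT.nd (nat_lit 94) (nat_lit 0) (nat_lit 0) (XT.lf (nat_lit 0) (nat_lit 54410238485) (nat_lit 0) (nat_lit 0) (nat_lit 0) (nat_lit 0) (nat_lit 0) (nat_lit 0) (nat_lit 1) (nat_lit 0) (nat_lit 1) (nat_lit 0) (nat_lit 360) (nat_lit 411) (nat_lit 309)) (XT.lf (nat_lit 0) (nat_lit 54408668287) (nat_lit 0) (nat_lit 0) (nat_lit 0) (nat_lit 0) (nat_lit 0) (nat_lit 0) (nat_lit 1) (nat_lit 0) (nat_lit 1) (nat_lit 0) (nat_lit 361) (nat_lit 411) (nat_lit 308))) (XT.nd (nat_lit 94) (nat_lit 0) (nat_lit 0) (XT.lf (nat_lit 0) (nat_lit 54407214399) (nat_lit 0) (nat_lit 0) (nat_lit 0) (nat_lit 0) (nat_lit 0) (nat_lit 0) (nat_lit 1) (nat_lit 0) (nat_lit 1)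 (nat_lit 0) (nat_lit 362) (nat_lit 411) (nat_lit 307)) (XT.nd (nat_lit 94) (nat_lit 0) (nat_lit 0) (XT.lf (nat_lit 0) (nat_lit 54405868207) (nat_lit 0) (nat_lit 0) (nat_lit 0) (nat_lit 0) (nat_lit 0) (nat_lit 0) (nat_lit 1) (nat_lit 0) (nat_lit 1) (nat_lit 0) (nat_lit 363) (nat_lit 411) (nat_lit 306)) (XT.lf (nat_lit 0) (nat_lit 54404621733) (nat_lit 0) (nat_lit 0) (nat_lit 0) (nat_lit 0) (nat_lit 0) (nat_lit 0) (nat_lit 1) (nat_lit 0) (nat_lit 1) (nat_lit 0) (nat_lit 364) (nat_lit 411) (nat_lit 305))))))))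
noncomputable def ec203 : XT := (XT.nd (nat_lit 1786) (nat_lit 0) (nat_lit 0) (XT.nd (nat_lit 846) (nat_lit 0) (nat_lit 0) (XT.nd (nat_lit 376) (nat_lit 0) (nat_lit 0) (XT.nd (nat_lit 188) (nat_lit 0) (nat_lit 0) (XT.nd (nat_lit 94) (nat_lit 0) (nat_lit 0) (XT.lf (nat_lit 0) (nat_lit 54403467590) (nat_lit 0) (nat_lit 0) (nat_lit 0) (nat_lit 0) (nat_lit 0) (nat_lit 0) (nat_lit 1) (nat_lit 0) (nat_lit 1) (nat_lit 0) (nat_lit 365) (nat_lit 411) (nat_lit 304)) (XT.lf (nat_lit 0) (nat_lit 54402398939) (nat_lit 0) (nat_lit 0) (nat_lit 0) (nat_lit 0) (nat_lit 0) (nat_lit 0) (nat_lit 1) (nat_lit 0) (nat_lit 1) (nat_lit 0) (nat_lit 366) (nat_lit 411) (nat_lit 303))) (XT.nd (nat_lit 94) (nat_lit 0) (nat_lit 0) (XT.lf (nat_lit 0) (nat_lit 54401409448) (nat_lit 0) (nat_lit 0) (nat_lit 0) (nat_lit 0) (nat_lit 0) (nat_lit 0) (nat_lit 1) (nat_lit 0) (nat_lit 1) (nat_lit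 0) (nat_lit 367) (nat_lit 411) (nat_lit 302)) (XT.lf (nat_lit 0) (nat_lit 54400493252) (nat_lit 0) (nat_lit 0) (nat_lit 0) (nat_lit 0) (nat_lit 0) (nat_lit 0) (nat_lit 1) (nat_lit 0) (nat_lit 1) (nat_lit 0) (nat_lit 368) (nat_lit 411) (nat_lit 301)))) (XT.nd (nat_lit 188) (nat_lit 0) (nat_lit 0) (XT.nd (nat_lit 94) (nat_lit 0) (nat_lit 0) (XT.lf (nat_lit 0) (nat_lit 54399644923) (nat_lit 0) (nat_lit 0) (nat_lit 0) (nat_lit 0) (nat_lit 0) (nat_lit 0) (nat_lit 1) (nat_lit 0) (nat_lit 1) (nat_lit 0) (nat_lit 369) (nat_lit 411) (nat_lit 300)) (XT.lf (nat_lit 0) (nat_lit 54398859432) (nat_lit 0) (nat_lit 0) (nat_lit 0) (nat_lit 0) (nat_lit 0) (nat_lit 0) (nat_lit 1) (nat_lit 0) (nat_lit 1) (nat_lit 0) (nat_lit 370) (nat_lit 411) (nat_lit 299))) (XT.nd (nat_lit 94) (nat_lit 0) (nat_lit 0) (XT.lf (nat_lit 0) (nat_lit 54398132127) (nat_lit 0) (nat_lit 0) (nat_lit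 0) (nat_lit 0) (nat_lit 0) (nat_lit 0) (nat_lit 1) (nat_lit 0) (nat_lit 1) (nat_lit 0) (nat_lit 371) (nat_lit 411) (nat_lit 298)) (XT.nd (nat_lit 94) (nat_lit 0) (nat_lit 0) (XT.lf (nat_lit 0) (nat_lit 54397458695) (nat_lit 0) (nat_lit 0) (nat_lit 0) (nat_lit 0) (nat_lit 0) (nat_lit 0) (nat_lit 1) (nat_lit 0) (nat_lit 1) (nat_lit 0) (nat_lit 372) (nat_lit 411) (nat_lit 297)) (XT.lf (nat_lit 0) (nat_lit 54396835148) (nat_lit 0) (nat_lit 0) (nat_lit 0) (nat_lit 0) (nat_lit 0) (nat_lit 0) (nat_lit 1) (nat_lit 0) (nat_lit 1) (nat_lit 0) (nat_lit 373) (nat_lit 411) (nat_lit 296)))))) (XT.nd (nat_lit 470) (nat_lit 0) (nat_lit 0) (XT.nd (nat_lit 188) (nat_lit 0) (nat_lit 0) (XT.nd (nat_lit 94) (nat_lit 0) (nat_lit 0) (XT.lf (nat_lit 0) (nat_lit 54396257789) (nat_lit 0) (nat_lit 0) (nat_lit 0) (nat_lit 0) (nat_lit 0) (nat_lit 0) (nat_lit 1) (nat_lit 0) (nat_lit 1)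 (nat_lit 0) (nat_lit 374) (nat_lit 411) (nat_lit 295)) (XT.lf (nat_lit 0) (nat_lit 54395723198) (nat_lit 0) (nat_lit 0) (nat_lit 0) (nat_lit 0) (nat_lit 0) (nat_lit 0) (nat_lit 1) (nat_lit 0) (nat_lit 1) (nat_lit 0) (nat_lit 375) (nat_lit 411) (nat_lit 294))) (XT.nd (nat_lit 94) (nat_lit 0) (nat_lit 0) (XT.lf (nat_lit 0) (nat_lit 54395228206) (nat_lit 0) (nat_lit 0) (nat_lit 0) (nat_lit 0) (nat_lit 0) (nat_lit 0) (nat_lit 1) (nat_lit 0) (nat_lit 1) (nat_lit 0) (nat_lit 376) (nat_lit 411) (nat_lit 293)) (XT.nd (nat_lit 94) (nat_lit 0) (nat_lit 0) (XT.lf (nat_lit 0) (nat_lit 54394769880) (nat_lit 0) (nat_lit 0) (nat_lit 0) (nat_lit 0) (nat_lit 0) (nat_lit 0) (nat_lit 1) (nat_lit 0) (nat_lit 1) (nat_lit 0) (nat_lit 377) (nat_lit 411) (nat_lit 292)) (XT.lf (nat_lit 0) (nat_lit 54394345504) (nat_lit 0) (nat_lit 0) (nat_lit 0) (nat_lit 0) (nat_lit 0) (nat_lit 0)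 (nat_lit 1) (nat_lit 0) (nat_lit 1) (nat_lit 0) (nat_lit 378) (nat_lit 411) (nat_lit 291))))) (XT.nd (nat_lit 188) (nat_lit 0) (nat_lit 0) (XT.nd (nat_lit 94) (nat_lit 0) (nat_lit 0) (XT.lf (nat_lit 0) (nat_lit 54393952563) (nat_lit 0) (nat_lit 0) (nat_lit 0) (nat_lit 0) (nat_lit 0) (nat_lit 0) (nat_lit 1) (nat_lit 0) (nat_lit 1) (nat_lit 0) (nat_lit 379) (nat_lit 411) (nat_lit 290)) (XT.lf (nat_lit 0) (nat_lit 54393588729) (nat_lit 0) (nat_lit 0) (nat_lit 0) (nat_lit 0) (nat_lit 0) (nat_lit 0) (nat_lit 1) (nat_lit 0) (nat_lit 1) (nat_lit 0) (nat_lit 380) (nat_lit 411) (nat_lit 289))) (XT.nd (nat_lit 94) (nat_lit 0) (nat_lit 0) (XT.lf (nat_lit 0) (nat_lit 54393251846) (nat_lit 0) (nat_lit 0) (nat_lit 0) (nat_lit 0) (nat_lit 0) (nat_lit 0) (nat_lit 1) (nat_lit 0) (nat_lit 1) (nat_lit 0) (nat_lit 381) (nat_lit 411) (nat_lit 288)) (XT.nd (nat_lit 94) (nat_lit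 0) (nat_lit 0) (XT.lf (nat_lit 0) (nat_lit 54392939917) (nat_lit 0) (nat_lit 0) (nat_lit 0) (nat_lit 0) (nat_lit 0) (nat_lit 0) (nat_lit 1) (nat_lit 0) (nat_lit 1) (nat_lit 0) (nat_lit 382) (nat_lit 411) (nat_lit 287)) (XT.lf (nat_lit 0) (nat_lit 54392651094) (nat_lit 0) (nat_lit 0) (nat_lit 0) (nat_lit 0) (nat_lit 0) (nat_lit 0) (nat_lit 1) (nat_lit 0) (nat_lit 1) (nat_lit 0) (nat_lit 383) (nat_lit 411) (nat_lit 286))))))) (XT.nd (nat_lit 846) (nat_lit 0) (nat_lit 0) (XT.nd (nat_lit 376) (nat_lit 0) (nat_lit 0) (XT.nd (nat_lit 188) (nat_lit 0) (nat_lit 0) (XT.nd (nat_lit 94) (nat_lit 0) (nat_lit 0) (XT.lf (nat_lit 0) (nat_lit 54392383665) (nat_lit 0) (nat_lit 0) (nat_lit 0) (nat_lit 0) (nat_lit 0) (nat_lit 0) (nat_lit 1) (nat_lit 0) (nat_lit 1) (nat_lit 0) (nat_lit 384) (nat_lit 411) (nat_lit 285)) (XT.lf (nat_lit 0) (nat_lit 54392136046) (nat_lit 0) (nat_lit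 0) (nat_lit 0) (nat_lit 0) (nat_lit 0) (nat_lit 0) (nat_lit 1) (nat_lit 0) (nat_lit 1) (nat_lit 0) (nat_lit 385) (nat_lit 411) (nat_lit 284))) (XT.nd (nat_lit 94) (nat_lit 0) (nat_lit 0) (XT.lf (nat_lit 0) (nat_lit 54391906769) (nat_lit 0) (nat_lit 0) (nat_lit 0) (nat_lit 0) (nat_lit 0) (nat_lit 0) (nat_lit 1) (nat_lit 0) (nat_lit 1) (nat_lit 0) (nat_lit 386) (nat_lit 411) (nat_lit 283)) (XT.lf (nat_lit 0) (nat_lit 54391694475) (nat_lit 0) (nat_lit 0) (nat_lit 0) (nat_lit 0) (nat_lit 0) (nat_lit 0) (nat_lit 1) (nat_lit 0) (nat_lit 1) (nat_lit 0) (nat_lit 387) (nat_lit 411) (nat_lit 282)))) (XT.nd (nat_lit 188) (nat_lit 0) (nat_lit 0) (XT.nd (nat_lit 94) (nat_lit 0) (nat_lit 0) (XT.lf (nat_lit 0) (nat_lit 54391497907) (nat_lit 0) (nat_lit 0) (nat_lit 0) (nat_lit 0) (nat_lit 0) (nat_lit 0) (nat_lit 1) (nat_lit 0) (nat_lit 1) (nat_lit 0) (nat_lit 388) (nat_lit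 411) (nat_lit 281)) (XT.lf (nat_lit 0) (nat_lit 54391315899) (nat_lit 0) (nat_lit 0) (nat_lit 0) (nat_lit 0) (nat_lit 0) (nat_lit 0) (nat_lit 1) (nat_lit 0) (nat_lit 1) (nat_lit 0) (nat_lit 389) (nat_lit 411) (nat_lit 280))) (XT.nd (nat_lit 94) (nat_lit 0) (nat_lit 0) (XT.lf (nat_lit 0) (nat_lit 54391147374) (nat_lit 0) (nat_lit 0) (nat_lit 0) (nat_lit 0) (nat_lit 0) (nat_lit 0) (nat_lit 1) (nat_lit 0) (nat_lit 1) (nat_lit 0) (nat_lit 390) (nat_lit 411) (nat_lit 279)) (XT.nd (nat_lit 94) (nat_lit 0) (nat_lit 0) (XT.lf (nat_lit 0) (nat_lit 54390991332) (nat_lit 0) (nat_lit 0) (nat_lit 0) (nat_lit 0) (nat_lit 0) (nat_lit 0) (nat_lit 1) (nat_lit 0) (nat_lit 1) (nat_lit 0) (nat_lit 391) (nat_lit 411) (nat_lit 278)) (XT.lf (nat_lit 0) (nat_lit 54390846848) (nat_lit 0) (nat_lit 0) (nat_lit 0) (nat_lit 0) (nat_lit 0) (nat_lit 0) (nat_lit 1) (nat_lit 0) (nat_lit 1)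 (nat_lit 0) (nat_lit 392) (nat_lit 411) (nat_lit 277)))))) (XT.nd (nat_lit 470) (nat_lit 0) (nat_lit 0) (XT.nd (nat_lit 188) (nat_lit 0) (nat_lit 0) (XT.nd (nat_lit 94) (nat_lit 0) (nat_lit 0) (XT.lf (nat_lit 0) (nat_lit 54390713067) (nat_lit 0) (nat_lit 0) (nat_lit 0) (nat_lit 0) (nat_lit 0) (nat_lit 0) (nat_lit 1) (nat_lit 0) (nat_lit 1) (nat_lit 0) (nat_lit 393) (nat_lit 411) (nat_lit 276)) (XT.lf (nat_lit 0) (nat_lit 54390589196) (nat_lit 0) (nat_lit 0) (nat_lit 0) (nat_lit 0) (nat_lit 0) (nat_lit 0) (nat_lit 1) (nat_lit 0) (nat_lit 1) (nat_lit 0) (nat_lit 394) (nat_lit 411) (nat_lit 275))) (XT.nd (nat_lit 94) (nat_lit 0) (nat_lit 0) (XT.lf (nat_lit 0) (nat_lit 54390474500) (nat_lit 0) (nat_lit 0) (nat_lit 0) (nat_lit 0) (nat_lit 0) (nat_lit 0) (nat_lit 1) (nat_lit 0) (nat_lit 1) (nat_lit 0) (nat_lit 395) (nat_lit 411) (nat_lit 274)) (XT.nd (nat_lit 94)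 (nat_lit 0) (nat_lit 0) (XT.lf (nat_lit 0) (nat_lit 54390368301) (nat_lit 0) (nat_lit 0) (nat_lit 0) (nat_lit 0) (nat_lit 0) (nat_lit 0) (nat_lit 1) (nat_lit 0) (nat_lit 1) (nat_lit 0) (nat_lit 396) (nat_lit 411) (nat_lit 273)) (XT.lf (nat_lit 0) (nat_lit 54390269968) (nat_lit 0) (nat_lit 0) (nat_lit 0) (nat_lit 0) (nat_lit 0) (nat_lit 0) (nat_lit 1) (nat_lit 0) (nat_lit 1) (nat_lit 0) (nat_lit 397) (nat_lit 411) (nat_lit 272))))) (XT.nd (nat_lit 188) (nat_lit 0) (nat_lit 0) (XT.nd (nat_lit 94) (nat_lit 0) (nat_lit 0) (XT.lf (nat_lit 0) (nat_lit 54390178919) (nat_lit 0) (nat_lit 0) (nat_lit 0) (nat_lit 0) (nat_lit 0) (nat_lit 0) (nat_lit 1) (nat_lit 0) (nat_lit 1) (nat_lit 0) (nat_lit 398) (nat_lit 411) (nat_lit 271)) (XT.lf (nat_lit 0) (nat_lit 54390094614) (nat_lit 0) (nat_lit 0) (nat_lit 0) (nat_lit 0) (nat_lit 0) (nat_lit 0) (nat_lit 1) (nat_lit 0) (nat_lit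 1) (nat_lit 0) (nat_lit 399) (nat_lit 411) (nat_lit 270))) (XT.nd (nat_lit 94) (nat_lit 0) (nat_lit 0) (XT.lf (nat_lit 0) (nat_lit 54390016554) (nat_lit 0) (nat_lit 0) (nat_lit 0) (nat_lit 0) (nat_lit 0) (nat_lit 0) (nat_lit 1) (nat_lit 0) (nat_lit 1) (nat_lit 0) (nat_lit 400) (nat_lit 411) (nat_lit 269)) (XT.nd (nat_lit 94) (nat_lit 0) (nat_lit 0) (XT.lf (nat_lit 0) (nat_lit 54389944276) (nat_lit 0) (nat_lit 0) (nat_lit 0) (nat_lit 0) (nat_lit 0) (nat_lit 0) (nat_lit 1) (nat_lit 0) (nat_lit 1) (nat_lit 0) (nat_lit 401) (nat_lit 411) (nat_lit 268)) (XT.lf (nat_lit 0) (nat_lit 54389877352) (nat_lit 0) (nat_lit 0) (nat_lit 0) (nat_lit 0) (nat_lit 0) (nat_lit 0) (nat_lit 1) (nat_lit 0) (nat_lit 1) (nat_lit 0) (nat_lit 402) (nat_lit 411) (nat_lit 267))))))))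
noncomputable def ec204 : XT := (XT.nd (nat_lit 1692) (nat_lit 0) (nat_lit 0) (XT.nd (nat_lit 846) (nat_lit 0) (nat_lit 0) (XT.nd (nat_lit 376) (nat_lit 0) (nat_lit 0) (XT.nd (nat_lit 188) (nat_lit 0) (nat_lit 0) (XT.nd (nat_lit 94) (nat_lit 0) (nat_lit 0) (XT.lf (nat_lit 0) (nat_lit 54389815386) (nat_lit 0) (nat_lit 0) (nat_lit 0) (nat_lit 0) (nat_lit 0) (nat_lit 0) (nat_lit 1) (nat_lit 0) (nat_lit 1) (nat_lit 0) (nat_lit 403) (nat_lit 411) (nat_lit 266)) (XT.lf (nat_lit 0) (nat_lit 54389758010) (nat_lit 0) (nat_lit 0) (nat_lit 0) (nat_lit 0) (nat_lit 0) (nat_lit 0) (nat_lit 1) (nat_lit 0) (nat_lit 1) (nat_lit 0) (nat_lit 404) (nat_lit 411) (nat_lit 265))) (XT.nd (nat_lit 94) (nat_lit 0) (nat_lit 0) (XT.lf (nat_lit 0) (nat_lit 54389704883) (nat_lit 0) (nat_lit 0) (nat_lit 0) (nat_lit 0) (nat_lit 0) (nat_lit 0) (nat_lit 1) (nat_lit 0) (nat_lit 1) (nat_lit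 0) (nat_lit 405) (nat_lit 411) (nat_lit 264)) (XT.lf (nat_lit 0) (nat_lit 54389655692) (nat_lit 0) (nat_lit 0) (nat_lit 0) (nat_lit 0) (nat_lit 0) (nat_lit 0) (nat_lit 1) (nat_lit 0) (nat_lit 1) (nat_lit 0) (nat_lit 406) (nat_lit 411) (nat_lit 263)))) (XT.nd (nat_lit 188) (nat_lit 0) (nat_lit 0) (XT.nd (nat_lit 94) (nat_lit 0) (nat_lit 0) (XT.lf (nat_lit 0) (nat_lit 54389610145) (nat_lit 0) (nat_lit 0) (nat_lit 0) (nat_lit 0) (nat_lit 0) (nat_lit 0) (nat_lit 1) (nat_lit 0) (nat_lit 1) (nat_lit 0) (nat_lit 407) (nat_lit 411) (nat_lit 262)) (XT.lf (nat_lit 0) (nat_lit 54389567972) (nat_lit 0) (nat_lit 0) (nat_lit 0) (nat_lit 0) (nat_lit 0) (nat_lit 0) (nat_lit 1) (nat_lit 0) (nat_lit 1) (nat_lit 0) (nat_lit 408) (nat_lit 411) (nat_lit 261))) (XT.nd (nat_lit 94) (nat_lit 0) (nat_lit 0) (XT.lf (nat_lit 0) (nat_lit 54389528922) (nat_lit 0) (nat_lit 0) (nat_lit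 0) (nat_lit 0) (nat_lit 0) (nat_lit 0) (nat_lit 1) (nat_lit 0) (nat_lit 1) (nat_lit 0) (nat_lit 409) (nat_lit 411) (nat_lit 260)) (XT.nd (nat_lit 94) (nat_lit 0) (nat_lit 0) (XT.lf (nat_lit 0) (nat_lit 54389492766) (nat_lit 0) (nat_lit 0) (nat_lit 0) (nat_lit 0) (nat_lit 0) (nat_lit 0) (nat_lit 1) (nat_lit 0) (nat_lit 1) (nat_lit 0) (nat_lit 410) (nat_lit 411) (nat_lit 259)) (XT.lf (nat_lit 0) (nat_lit 54389459287) (nat_lit 0) (nat_lit 0) (nat_lit 0) (nat_lit 0) (nat_lit 0) (nat_lit 0) (nat_lit 1) (nat_lit 0) (nat_lit 1) (nat_lit 0) (nat_lit 411) (nat_lit 411) (nat_lit 258)))))) (XT.nd (nat_lit 376) (nat_lit 0) (nat_lit 0) (XT.nd (nat_lit 188) (nat_lit 0) (nat_lit 0) (XT.nd (nat_lit 94) (nat_lit 0) (nat_lit 0) (XT.lf (nat_lit 0) (nat_lit 54389428288) (nat_lit 0) (nat_lit 0) (nat_lit 0) (nat_lit 0) (nat_lit 0) (nat_lit 0) (nat_lit 1) (nat_lit 0) (nat_lit 1)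 (nat_lit 0) (nat_lit 412) (nat_lit 411) (nat_lit 257)) (XT.lf (nat_lit 0) (nat_lit 54389399586) (nat_lit 0) (nat_lit 0) (nat_lit 0) (nat_lit 0) (nat_lit 0) (nat_lit 0) (nat_lit 1) (nat_lit 0) (nat_lit 1) (nat_lit 0) (nat_lit 413) (nat_lit 411) (nat_lit 256))) (XT.nd (nat_lit 94) (nat_lit 0) (nat_lit 0) (XT.lf (nat_lit 0) (nat_lit 54389373009) (nat_lit 0) (nat_lit 0) (nat_lit 0) (nat_lit 0) (nat_lit 0) (nat_lit 0) (nat_lit 1) (nat_lit 0) (nat_lit 1) (nat_lit 0) (nat_lit 414) (nat_lit 411) (nat_lit 255)) (XT.lf (nat_lit 0) (nat_lit 54389348402) (nat_lit 0) (nat_lit 0) (nat_lit 0) (nat_lit 0) (nat_lit 0) (nat_lit 0) (nat_lit 1) (nat_lit 0) (nat_lit 1) (nat_lit 0) (nat_lit 415) (nat_lit 411) (nat_lit 254)))) (XT.nd (nat_lit 188) (nat_lit 0) (nat_lit 0) (XT.nd (nat_lit 94) (nat_lit 0) (nat_lit 0) (XT.lf (nat_lit 0) (nat_lit 54389325617) (nat_lit 0) (nat_lit 0)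 (nat_lit 0) (nat_lit 0) (nat_lit 0) (nat_lit 0) (nat_lit 1) (nat_lit 0) (nat_lit 1) (nat_lit 0) (nat_lit 416) (nat_lit 411) (nat_lit 253)) (XT.lf (nat_lit 0) (nat_lit 54389304520) (nat_lit 0) (nat_lit 0) (nat_lit 0) (nat_lit 0) (nat_lit 0) (nat_lit 0) (nat_lit 1) (nat_lit 0) (nat_lit 1) (nat_lit 0) (nat_lit 417) (nat_lit 411) (nat_lit 252))) (XT.nd (nat_lit 94) (nat_lit 0) (nat_lit 0) (XT.lf (nat_lit 0) (nat_lit 54389284985) (nat_lit 0) (nat_lit 0) (nat_lit 0) (nat_lit 0) (nat_lit 0) (nat_lit 0) (nat_lit 1) (nat_lit 0) (nat_lit 1) (nat_lit 0) (nat_lit 418) (nat_lit 411) (nat_lit 251)) (XT.nd (nat_lit 94) (nat_lit 0) (nat_lit 0) (XT.lf (nat_lit 0) (nat_lit 54389266898) (nat_lit 0) (nat_lit 0) (nat_lit 0) (nat_lit 0) (nat_lit 0) (nat_lit 0) (nat_lit 1) (nat_lit 0) (nat_lit 1) (nat_lit 0) (nat_lit 419) (nat_lit 411) (nat_lit 250)) (XT.lf (nat_lit 0) (nat_lit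 54389250150) (nat_lit 0) (nat_lit 0) (nat_lit 0) (nat_lit 0) (nat_lit 0) (nat_lit 0) (nat_lit 1) (nat_lit 0) (nat_lit 1) (nat_lit 0) (nat_lit 420) (nat_lit 411) (nat_lit 249))))))) (XT.nd (nat_lit 846) (nat_lit 0) (nat_lit 0) (XT.nd (nat_lit 376) (nat_lit 0) (nat_lit 0) (XT.nd (nat_lit 188) (nat_lit 0) (nat_lit 0) (XT.nd (nat_lit 94) (nat_lit 0) (nat_lit 0) (XT.lf (nat_lit 0) (nat_lit 54389234643) (nat_lit 0) (nat_lit 0) (nat_lit 0) (nat_lit 0) (nat_lit 0) (nat_lit 0) (nat_lit 1) (nat_lit 0) (nat_lit 1) (nat_lit 0) (nat_lit 421) (nat_lit 411) (nat_lit 248)) (XT.lf (nat_lit 0) (nat_lit 54389220285) (nat_lit 0) (nat_lit 0) (nat_lit 0) (nat_lit 0) (nat_lit 0) (nat_lit 0) (nat_lit 1) (nat_lit 0) (nat_lit 1) (nat_lit 0) (nat_lit 422) (nat_lit 411) (nat_lit 247))) (XT.nd (nat_lit 94) (nat_lit 0) (nat_lit 0) (XT.lf (nat_lit 0) (nat_lit 54389206990) (nat_lit 0) (nat_lit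 0) (nat_lit 0) (nat_lit 0) (nat_lit 0) (nat_lit 0) (nat_lit 1) (nat_lit 0) (nat_lit 1) (nat_lit 0) (nat_lit 423) (nat_lit 411) (nat_lit 246)) (XT.lf (nat_lit 0) (nat_lit 54389194680) (nat_lit 0) (nat_lit 0) (nat_lit 0) (nat_lit 0) (nat_lit 0) (nat_lit 0) (nat_lit 1) (nat_lit 0) (nat_lit 1) (nat_lit 0) (nat_lit 424) (nat_lit 411) (nat_lit 245)))) (XT.nd (nat_lit 188) (nat_lit 0) (nat_lit 0) (XT.nd (nat_lit 94) (nat_lit 0) (nat_lit 0) (XT.lf (nat_lit 0) (nat_lit 54389183282) (nat_lit 0) (nat_lit 0) (nat_lit 0) (nat_lit 0) (nat_lit 0) (nat_lit 0) (nat_lit 1) (nat_lit 0) (nat_lit 1) (nat_lit 0) (nat_lit 425) (nat_lit 411) (nat_lit 244)) (XT.lf (nat_lit 0) (nat_lit 54389172728) (nat_lit 0) (nat_lit 0) (nat_lit 0) (nat_lit 0) (nat_lit 0) (nat_lit 0) (nat_lit 1) (nat_lit 0) (nat_lit 1) (nat_lit 0) (nat_lit 426) (nat_lit 411) (nat_lit 243))) (XT.nd (nat_lit 94) (nat_lit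 0) (nat_lit 0) (XT.lf (nat_lit 0) (nat_lit 54389162956) (nat_lit 0) (nat_lit 0) (nat_lit 0) (nat_lit 0) (nat_lit 0) (nat_lit 0) (nat_lit 1) (nat_lit 0) (nat_lit 1) (nat_lit 0) (nat_lit 427) (nat_lit 411) (nat_lit 242)) (XT.nd (nat_lit 94) (nat_lit 0) (nat_lit 0) (XT.lf (nat_lit 0) (nat_lit 54389153908) (nat_lit 0) (nat_lit 0) (nat_lit 0) (nat_lit 0) (nat_lit 0) (nat_lit 0) (nat_lit 1) (nat_lit 0) (nat_lit 1) (nat_lit 0) (nat_lit 428) (nat_lit 411) (nat_lit 241)) (XT.lf (nat_lit 0) (nat_lit 54389145530) (nat_lit 0) (nat_lit 0) (nat_lit 0) (nat_lit 0) (nat_lit 0) (nat_lit 0) (nat_lit 1) (nat_lit 0) (nat_lit 1) (nat_lit 0) (nat_lit 429) (nat_lit 411) (nat_lit 240)))))) (XT.nd (nat_lit 470) (nat_lit 0) (nat_lit 0) (XT.nd (nat_lit 188) (nat_lit 0) (nat_lit 0) (XT.nd (nat_lit 94) (nat_lit 0) (nat_lit 0) (XT.lf (nat_lit 0) (nat_lit 54389137772) (nat_lit 0) (nat_lit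 0) (nat_lit 0) (nat_lit 0) (nat_lit 0) (nat_lit 0) (nat_lit 1) (nat_lit 0) (nat_lit 1) (nat_lit 0) (nat_lit 430) (nat_lit 411) (nat_lit 239)) (XT.lf (nat_lit 0) (nat_lit 54389130590) (nat_lit 0) (nat_lit 0) (nat_lit 0) (nat_lit 0) (nat_lit 0) (nat_lit 0) (nat_lit 1) (nat_lit 0) (nat_lit 1) (nat_lit 0) (nat_lit 431) (nat_lit 411) (nat_lit 238))) (XT.nd (nat_lit 94) (nat_lit 0) (nat_lit 0) (XT.lf (nat_lit 0) (nat_lit 54389123939) (nat_lit 0) (nat_lit 0) (nat_lit 0) (nat_lit 0) (nat_lit 0) (nat_lit 0) (nat_lit 1) (nat_lit 0) (nat_lit 1) (nat_lit 0) (nat_lit 432) (nat_lit 411) (nat_lit 237)) (XT.nd (nat_lit 94) (nat_lit 0) (nat_lit 0) (XT.lf (nat_lit 0) (nat_lit 54389117781) (nat_lit 0) (nat_lit 0) (nat_lit 0) (nat_lit 0) (nat_lit 0) (nat_lit 0) (nat_lit 1) (nat_lit 0) (nat_lit 1) (nat_lit 0) (nat_lit 433) (nat_lit 411) (nat_lit 236)) (XT.lf (nat_lit 0) (nat_lit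 54389112079) (nat_lit 0) (nat_lit 0) (nat_lit 0) (nat_lit 0) (nat_lit 0) (nat_lit 0) (nat_lit 1) (nat_lit 0) (nat_lit 1) (nat_lit 0) (nat_lit 434) (nat_lit 411) (nat_lit 235))))) (XT.nd (nat_lit 188) (nat_lit 0) (nat_lit 0) (XT.nd (nat_lit 94) (nat_lit 0) (nat_lit 0) (XT.lf (nat_lit 0) (nat_lit 54389106799) (nat_lit 0) (nat_lit 0) (nat_lit 0) (nat_lit 0) (nat_lit 0) (nat_lit 0) (nat_lit 1) (nat_lit 0) (nat_lit 1) (nat_lit 0) (nat_lit 435) (nat_lit 411) (nat_lit 234)) (XT.lf (nat_lit 0) (nat_lit 54389101911) (nat_lit 0) (nat_lit 0) (nat_lit 0) (nat_lit 0) (nat_lit 0) (nat_lit 0) (nat_lit 1) (nat_lit 0) (nat_lit 1) (nat_lit 0) (nat_lit 436) (nat_lit 411) (nat_lit 233))) (XT.nd (nat_lit 94) (nat_lit 0) (nat_lit 0) (XT.lf (nat_lit 0) (nat_lit 54389097384) (nat_lit 0) (nat_lit 0) (nat_lit 0) (nat_lit 0) (nat_lit 0) (nat_lit 0) (nat_lit 1) (nat_lit 0) (nat_lit 1)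 (nat_lit 0) (nat_lit 437) (nat_lit 411) (nat_lit 232)) (XT.nd (nat_lit 94) (nat_lit 0) (nat_lit 0) (XT.lf (nat_lit 0) (nat_lit 54389093193) (nat_lit 0) (nat_lit 0) (nat_lit 0) (nat_lit 0) (nat_lit 0) (nat_lit 0) (nat_lit 1) (nat_lit 0) (nat_lit 1) (nat_lit 0) (nat_lit 438) (nat_lit 411) (nat_lit 231)) (XT.lf (nat_lit 0) (nat_lit 54389089313) (nat_lit 0) (nat_lit 0) (nat_lit 0) (nat_lit 0) (nat_lit 0) (nat_lit 0) (nat_lit 1) (nat_lit 0) (nat_lit 1) (nat_lit 0) (nat_lit 439) (nat_lit 411) (nat_lit 230))))))))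
noncomputable def ec205 : XT := (XT.nd (nat_lit 52076) (nat_lit 0) (nat_lit 3024) (XT.nd (nat_lit 51136) (nat_lit 0) (nat_lit 7224) (XT.nd (nat_lit 50666) (nat_lit 0) (nat_lit 10836) (XT.nd (nat_lit 50478) (nat_lit 0) (nat_lit 10752) (XT.nd (nat_lit 94) (nat_lit 0) (nat_lit 0) (XT.lf (nat_lit 0) (nat_lit 54389085720) (nat_lit 0) (nat_lit 0) (nat_lit 0) (nat_lit 0) (nat_lit 0) (nat_lit 0) (nat_lit 1) (nat_lit 0) (nat_lit 1) (nat_lit 0) (nat_lit 440) (nat_lit 411) (nat_lit 229)) (XT.lf (nat_lit 0) (nat_lit 54389082393) (nat_lit 0) (nat_lit 0) (nat_lit 0) (nat_lit 0) (nat_lit 0) (nat_lit 0) (nat_lit 1) (nat_lit 0) (nat_lit 1) (nat_lit 0) (nat_lit 441) (nat_lit 411) (nat_lit 228))) (XT.nd (nat_lit 94) (nat_lit 0) (nat_lit 84) (XT.lf (nat_lit 924) (nat_lit 29395778366) (nat_lit 0) (nat_lit 52192136920) (nat_lit 924) (nat_lit 29395778366) (nat_lit 139) (nat_lit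 1) (nat_lit 128) (nat_lit 0) (nat_lit 139) (nat_lit 0) (nat_lit 256) (nat_lit 412) (nat_lit 412)) (XT.lf (nat_lit 924) (nat_lit 10965527314) (nat_lit 0) (nat_lit 102468982972) (nat_lit 840) (nat_lit 100214323005) (nat_lit 140) (nat_lit 1) (nat_lit 129) (nat_lit 1) (nat_lit 139) (nat_lit 1) (nat_lit 257) (nat_lit 412) (nat_lit 411)))) (XT.nd (nat_lit 188) (nat_lit 0) (nat_lit 168) (XT.nd (nat_lit 94) (nat_lit 0) (nat_lit 84) (XT.lf (nat_lit 924) (nat_lit 100712038991) (nat_lit 84) (nat_lit 68623512436) (nat_lit 0) (nat_lit 36394780659) (nat_lit 140) (nat_lit 1) (nat_lit 130) (nat_lit 1) (nat_lit 129) (nat_lit 1) (nat_lit 258) (nat_lit 412) (nat_lit 410)) (XT.lf (nat_lit 924) (nat_lit 87023452137) (nat_lit 84) (nat_lit 28759638409) (nat_lit 0) (nat_lit 82425002220) (nat_lit 141) (nat_lit 1) (nat_lit 131) (nat_lit 1) (nat_lit 130) (nat_lit 1) (nat_lit 259) (nat_lit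 412) (nat_lit 409))) (XT.nd (nat_lit 94) (nat_lit 0) (nat_lit 84) (XT.lf (nat_lit 924) (nat_lit 64404753058) (nat_lit 0) (nat_lit 120498248691) (nat_lit 840) (nat_lit 6159853257) (nat_lit 142) (nat_lit 1) (nat_lit 131) (nat_lit 1) (nat_lit 141) (nat_lit 1) (nat_lit 260) (nat_lit 412) (nat_lit 408)) (XT.nd (nat_lit 94) (nat_lit 0) (nat_lit 0) (XT.lf (nat_lit 924) (nat_lit 15453289025) (nat_lit 0) (nat_lit 132882794894) (nat_lit 840) (nat_lit 35922768448) (nat_lit 143) (nat_lit 1) (nat_lit 132) (nat_lit 1) (nat_lit 142) (nat_lit 1) (nat_lit 261) (nat_lit 412) (nat_lit 407)) (XT.lf (nat_lit 924) (nat_lit 29694936121) (nat_lit 84) (nat_lit 115485969873) (nat_lit 0) (nat_lit 32591565524) (nat_lit 143) (nat_lit 1) (nat_lit 133) (nat_lit 1) (nat_lit 132) (nat_lit 1) (nat_lit 262) (nat_lit 412) (nat_lit 406)))))) (XT.nd (nat_lit 470) (nat_lit 1344) (nat_lit 0) (XT.nd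 (nat_lit 188) (nat_lit 1176) (nat_lit 0) (XT.nd (nat_lit 94) (nat_lit 588) (nat_lit 0) (XT.lf (nat_lit 924) (nat_lit 6098662744) (nat_lit 0) (nat_lit 86333401583) (nat_lit 840) (nat_lit 79166824665) (nat_lit 134) (nat_lit 1) (nat_lit 123) (nat_lit 1) (nat_lit 133) (nat_lit 1) (nat_lit 263) (nat_lit 412) (nat_lit 405)) (XT.lf (nat_lit 84) (nat_lit 42228411241) (nat_lit 0) (nat_lit 18299535742) (nat_lit 588) (nat_lit 105189672653) (nat_lit 117) (nat_lit 1) (nat_lit 116) (nat_lit 1) (nat_lit 123) (nat_lit 1) (nat_lit 264) (nat_lit 412) (nat_lit 404))) (XT.nd (nat_lit 94) (nat_lit 756) (nat_lit 0) (XT.lf (nat_lit 504) (nat_lit 116376186226) (nat_lit 0) (nat_lit 37882957484) (nat_lit 420) (nat_lit 5856939302) (nat_lit 117) (nat_lit 1) (nat_lit 111) (nat_lit 1) (nat_lit 116) (nat_lit 1) (nat_lit 265) (nat_lit 412) (nat_lit 403)) (XT.nd (nat_lit 94) (nat_lit 336)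 (nat_lit 0) (XT.lf (nat_lit 504) (nat_lit 83978164199) (nat_lit 0) (nat_lit 17657409669) (nat_lit 420) (nat_lit 53119828579) (nat_lit 112) (nat_lit 1) (nat_lit 106) (nat_lit 1) (nat_lit 111) (nat_lit 1) (nat_lit 266) (nat_lit 412) (nat_lit 402)) (XT.lf (nat_lit 420) (nat_lit 51099641862) (nat_lit 0) (nat_lit 325101606) (nat_lit 336) (nat_lit 98229906159) (nat_lit 107) (nat_lit 1) (nat_lit 102) (nat_lit 1) (nat_lit 106) (nat_lit 1) (nat_lit 267) (nat_lit 412) (nat_lit 401))))) (XT.nd (nat_lit 188) (nat_lit 924) (nat_lit 0) (XT.nd (nat_lit 94) (nat_lit 420) (nat_lit 0) (XT.lf (nat_lit 84) (nat_lit 3769890080) (nat_lit 0) (nat_lit 127138960827) (nat_lit 420) (nat_lit 13879689637) (nat_lit 103) (nat_lit 1) (nat_lit 102) (nat_lit 1) (nat_lit 107) (nat_lit 1) (nat_lit 268) (nat_lit 412) (nat_lit 400)) (XT.lf (nat_lit 84) (nat_lit 97339539671) (nat_lit 0) (nat_lit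 16144804181) (nat_lit 420) (nat_lit 26625714213) (nat_lit 98) (nat_lit 1) (nat_lit 97) (nat_lit 1) (nat_lit 102) (nat_lit 1) (nat_lit 269) (nat_lit 412) (nat_lit 399))) (XT.nd (nat_lit 94) (nat_lit 588) (nat_lit 0) (XT.lf (nat_lit 84) (nat_lit 48701438344) (nat_lit 0) (nat_lit 49454401171) (nat_lit 420) (nat_lit 37482455280) (nat_lit 94) (nat_lit 1) (nat_lit 93) (nat_lit 1) (nat_lit 98) (nat_lit 1) (nat_lit 270) (nat_lit 412) (nat_lit 398)) (XT.nd (nat_lit 94) (nat_lit 252) (nat_lit 0) (XT.lf (nat_lit 84) (nat_lit 2403795003) (nat_lit 0) (nat_lit 82686990841) (nat_lit 420) (nat_lit 46287468894) (nat_lit 90) (nat_lit 1) (nat_lit 89) (nat_lit 1) (nat_lit 94) (nat_lit 1) (nat_lit 271) (nat_lit 412) (nat_lit 397)) (XT.lf (nat_lit 336) (nat_lit 10855402756) (nat_lit 0) (nat_lit 73409892696) (nat_lit 252) (nat_lit 43019884263) (nat_lit 90) (nat_lit 1) (nat_lit 86)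 (nat_lit 1) (nat_lit 89) (nat_lit 1) (nat_lit 272) (nat_lit 412) (nat_lit 396))))))) (XT.nd (nat_lit 846) (nat_lit 1764) (nat_lit 0) (XT.nd (nat_lit 376) (nat_lit 1176) (nat_lit 0) (XT.nd (nat_lit 188) (nat_lit 588) (nat_lit 0) (XT.nd (nat_lit 94) (nat_lit 252) (nat_lit 0) (XT.lf (nat_lit 84) (nat_lit 37508335105) (nat_lit 0) (nat_lit 25708445948) (nat_lit 420) (nat_lit 60144415990) (nat_lit 82) (nat_lit 1) (nat_lit 81) (nat_lit 1) (nat_lit 86) (nat_lit 1) (nat_lit 273) (nat_lit 412) (nat_lit 395)) (XT.lf (nat_lit 336) (nat_lit 58071924668) (nat_lit 0) (nat_lit 54551067606) (nat_lit 252) (nat_lit 6982471911) (nat_lit 82) (nat_lit 1) (nat_lit 78) (nat_lit 1) (nat_lit 81) (nat_lit 1) (nat_lit 274) (nat_lit 412) (nat_lit 394))) (XT.nd (nat_lit 94) (nat_lit 336) (nat_lit 0) (XT.lf (nat_lit 336) (nat_lit 18611771307) (nat_lit 0) (nat_lit 46966235364) (nat_lit 252)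 (nat_lit 50416058517) (nat_lit 79) (nat_lit 1) (nat_lit 75) (nat_lit 1) (nat_lit 78) (nat_lit 1) (nat_lit 275) (nat_lit 412) (nat_lit 393)) (XT.lf (nat_lit 84) (nat_lit 21212922086) (nat_lit 0) (nat_lit 19422273614) (nat_lit 336) (nat_lit 71897458693) (nat_lit 72) (nat_lit 1) (nat_lit 71) (nat_lit 1) (nat_lit 75) (nat_lit 1) (nat_lit 276) (nat_lit 412) (nat_lit 392)))) (XT.nd (nat_lit 188) (nat_lit 756) (nat_lit 0) (XT.nd (nat_lit 94) (nat_lit 168) (nat_lit 0) (XT.lf (nat_lit 336) (nat_lit 52785572423) (nat_lit 0) (nat_lit 35121563808) (nat_lit 252) (nat_lit 21290807454) (nat_lit 72) (nat_lit 1) (nat_lit 68) (nat_lit 1) (nat_lit 71) (nat_lit 1) (nat_lit 277) (nat_lit 412) (nat_lit 391)) (XT.lf (nat_lit 252) (nat_lit 13085621345) (nat_lit 0) (nat_lit 30641002649) (nat_lit 168) (nat_lit 62271140518) (nat_lit 69) (nat_lit 1) (nat_lit 66) (nat_lit 1) (nat_lit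 68) (nat_lit 1) (nat_lit 278) (nat_lit 412) (nat_lit 390))) (XT.nd (nat_lit 94) (nat_lit 420) (nat_lit 0) (XT.lf (nat_lit 84) (nat_lit 2216787857) (nat_lit 0) (nat_lit 24806337360) (nat_lit 336) (nat_lit 75898507497) (nat_lit 63) (nat_lit 1) (nat_lit 62) (nat_lit 1) (nat_lit 66) (nat_lit 1) (nat_lit 279) (nat_lit 412) (nat_lit 389)) (XT.nd (nat_lit 94) (nat_lit 252) (nat_lit 0) (XT.lf (nat_lit 252) (nat_lit 38024414586) (nat_lit 0) (nat_lit 23761997008) (nat_lit 168) (nat_lit 38156739932) (nat_lit 63) (nat_lit 1) (nat_lit 60) (nat_lit 1) (nat_lit 62) (nat_lit 1) (nat_lit 280) (nat_lit 412) (nat_lit 388)) (XT.lf (nat_lit 84) (nat_lit 20630458304) (nat_lit 0) (nat_lit 952933803) (nat_lit 252) (nat_lit 75511248888) (nat_lit 58) (nat_lit 1) (nat_lit 57) (nat_lit 1) (nat_lit 60) (nat_lit 1) (nat_lit 281) (nat_lit 412) (nat_lit 387)))))) (XT.nd (nat_lit 470) (nat_lit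 840) (nat_lit 0) (XT.nd (nat_lit 188) (nat_lit 588) (nat_lit 0) (XT.nd (nat_lit 94) (nat_lit 168) (nat_lit 0) (XT.lf (nat_lit 252) (nat_lit 56399689168) (nat_lit 0) (nat_lit 19543756884) (nat_lit 168) (nat_lit 18385545556) (nat_lit 58) (nat_lit 1) (nat_lit 55) (nat_lit 1) (nat_lit 57) (nat_lit 1) (nat_lit 282) (nat_lit 412) (nat_lit 386)) (XT.lf (nat_lit 252) (nat_lit 17520003549) (nat_lit 0) (nat_lit 18168083205) (nat_lit 168) (nat_lit 55980998347) (nat_lit 56) (nat_lit 1) (nat_lit 53) (nat_lit 1) (nat_lit 55) (nat_lit 1) (nat_lit 283) (nat_lit 412) (nat_lit 385))) (XT.nd (nat_lit 94) (nat_lit 336) (nat_lit 0) (XT.lf (nat_lit 252) (nat_lit 69547975308) (nat_lit 0) (nat_lit 17358128889) (nat_lit 168) (nat_lit 2202080032) (nat_lit 53) (nat_lit 1) (nat_lit 50) (nat_lit 1) (nat_lit 52) (nat_lit 1) (nat_lit 284) (nat_lit 412) (nat_lit 384)) (XT.nd (nat_lit 94)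 (nat_lit 168) (nat_lit 0) (XT.lf (nat_lit 252) (nat_lit 31126450471) (nat_lit 0) (nat_lit 16571160852) (nat_lit 168) (nat_lit 38920831385) (nat_lit 51) (nat_lit 1) (nat_lit 48) (nat_lit 1) (nat_lit 50) (nat_lit 1) (nat_lit 285) (nat_lit 412) (nat_lit 383)) (XT.lf (nat_lit 84) (nat_lit 10662011045) (nat_lit 0) (nat_lit 5860321714) (nat_lit 168) (nat_lit 67709636474) (nat_lit 47) (nat_lit 1) (nat_lit 46) (nat_lit 1) (nat_lit 48) (nat_lit 1) (nat_lit 286) (nat_lit 412) (nat_lit 382))))) (XT.nd (nat_lit 188) (nat_lit 588) (nat_lit 0) (XT.nd (nat_lit 94) (nat_lit 84) (nat_lit 0) (XT.lf (nat_lit 252) (nat_lit 40839693122) (nat_lit 0) (nat_lit 16347379647) (nat_lit 168) (nat_lit 24718643377) (nat_lit 47) (nat_lit 1) (nat_lit 44) (nat_lit 1) (nat_lit 46) (nat_lit 1) (nat_lit 287) (nat_lit 412) (nat_lit 381)) (XT.lf (nat_lit 168) (nat_lit 4397854624) (nat_lit 0) (nat_lit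 16748892416) (nat_lit 84) (nat_lit 58524553498) (nat_lit 45) (nat_lit 1) (nat_lit 43) (nat_lit 1) (nat_lit 44) (nat_lit 1) (nat_lit 288) (nat_lit 412) (nat_lit 380))) (XT.nd (nat_lit 94) (nat_lit 336) (nat_lit 0) (XT.lf (nat_lit 252) (nat_lit 47473217005) (nat_lit 0) (nat_lit 17129647443) (nat_lit 168) (nat_lit 12895630221) (nat_lit 43) (nat_lit 1) (nat_lit 40) (nat_lit 1) (nat_lit 42) (nat_lit 1) (nat_lit 289) (nat_lit 412) (nat_lit 379)) (XT.nd (nat_lit 94) (nat_lit 252) (nat_lit 0) (XT.lf (nat_lit 168) (nat_lit 11939864143) (nat_lit 0) (nat_lit 17770142222) (nat_lit 84) (nat_lit 45688910356) (nat_lit 41) (nat_lit 1) (nat_lit 39) (nat_lit 1) (nat_lit 40) (nat_lit 1) (nat_lit 290) (nat_lit 412) (nat_lit 378)) (XT.lf (nat_lit 252) (nat_lit 51684735538) (nat_lit 0) (nat_lit 18627201439) (nat_lit 168) (nat_lit 3056883213) (nat_lit 39) (nat_lit 1) (nat_lit 36)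 (nat_lit 1) (nat_lit 38) (nat_lit 1) (nat_lit 291) (nat_lit 412) (nat_lit 377))))))))
noncomputable def ec206 : XT := (XT.nd (nat_lit 1692) (nat_lit 588) (nat_lit 0) (XT.nd (nat_lit 846) (nat_lit 1176) (nat_lit 0) (XT.nd (nat_lit 376) (nat_lit 588) (nat_lit 0) (XT.nd (nat_lit 188) (nat_lit 336) (nat_lit 0) (XT.nd (nat_lit 94) (nat_lit 252) (nat_lit 0) (XT.lf (nat_lit 168) (nat_lit 17183102555) (nat_lit 0) (nat_lit 19419081328) (nat_lit 84) (nat_lit 34790961244) (nat_lit 37) (nat_lit 1) (nat_lit 35) (nat_lit 1) (nat_lit 36) (nat_lit 1) (nat_lit 292) (nat_lit 412) (nat_lit 376)) (XT.lf (nat_lit 84) (nat_lit 4959727221) (nat_lit 0) (nat_lit 15567261678) (nat_lit 252) (nat_lit 48961457427) (nat_lit 33) (nat_lit 1) (nat_lit 32) (nat_lit 1) (nat_lit 35) (nat_lit 1) (nat_lit 293) (nat_lit 412) (nat_lit 375))) (XT.nd (nat_lit 94) (nat_lit 252) (nat_lit 0) (XT.lf (nat_lit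 168) (nat_lit 20621273373) (nat_lit 0) (nat_lit 21486389429) (nat_lit 84) (nat_lit 25523386746) (nat_lit 33) (nat_lit 1) (nat_lit 31) (nat_lit 1) (nat_lit 32) (nat_lit 1) (nat_lit 294) (nat_lit 412) (nat_lit 374)) (XT.lf (nat_lit 84) (nat_lit 11534478762) (nat_lit 0) (nat_lit 11171922640) (nat_lit 252) (nat_lit 43132524839) (nat_lit 29) (nat_lit 1) (nat_lit 28) (nat_lit 1) (nat_lit 31) (nat_lit 1) (nat_lit 295) (nat_lit 412) (nat_lit 373)))) (XT.nd (nat_lit 188) (nat_lit 336) (nat_lit 0) (XT.nd (nat_lit 94) (nat_lit 168) (nat_lit 0) (XT.lf (nat_lit 168) (nat_lit 22652515071) (nat_lit 0) (nat_lit 23808668396) (nat_lit 84) (nat_lit 17631407538) (nat_lit 29) (nat_lit 1) (nat_lit 27) (nat_lit 1) (nat_lit 28) (nat_lit 1) (nat_lit 296) (nat_lit 412) (nat_lit 372)) (XT.lf (nat_lit 84) (nat_lit 16981419971) (nat_lit 0) (nat_lit 8091342770) (nat_lit 168) (nat_lit 37331166431)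 (nat_lit 26) (nat_lit 1) (nat_lit 25) (nat_lit 1) (nat_lit 27) (nat_lit 1) (nat_lit 297) (nat_lit 412) (nat_lit 371))) (XT.nd (nat_lit 94) (nat_lit 252) (nat_lit 0) (XT.lf (nat_lit 168) (nat_lit 23597258073) (nat_lit 0) (nat_lit 26259492254) (nat_lit 84) (nat_lit 10903412327) (nat_lit 26) (nat_lit 1) (nat_lit 24) (nat_lit 1) (nat_lit 25) (nat_lit 1) (nat_lit 298) (nat_lit 412) (nat_lit 370)) (XT.nd (nat_lit 94) (nat_lit 84) (nat_lit 0) (XT.lf (nat_lit 84) (nat_lit 21479917360) (nat_lit 0) (nat_lit 6036247211) (nat_lit 168) (nat_lit 31650792103) (nat_lit 23) (nat_lit 1) (nat_lit 22) (nat_lit 1) (nat_lit 24) (nat_lit 1) (nat_lit 299) (nat_lit 412) (nat_lit 369)) (XT.lf (nat_lit 168) (nat_lit 23712785220) (nat_lit 0) (nat_lit 28742133403) (nat_lit 84) (nat_lit 5163287989) (nat_lit 23) (nat_lit 1) (nat_lit 21) (nat_lit 1) (nat_lit 22) (nat_lit 1) (nat_lit 300)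 (nat_lit 412) (nat_lit 368)))))) (XT.nd (nat_lit 376) (nat_lit 672) (nat_lit 0) (XT.nd (nat_lit 188) (nat_lit 252) (nat_lit 0) (XT.nd (nat_lit 94) (nat_lit 84) (nat_lit 0) (XT.lf (nat_lit 84) (nat_lit 25179044514) (nat_lit 0) (nat_lit 4774032088) (nat_lit 168) (nat_lit 26160306928) (nat_lit 20) (nat_lit 1) (nat_lit 19) (nat_lit 1) (nat_lit 21) (nat_lit 1) (nat_lit 301) (nat_lit 412) (nat_lit 367)) (XT.lf (nat_lit 168) (nat_lit 23205101797) (nat_lit 0) (nat_lit 31183655419) (nat_lit 84) (nat_lit 264140678) (nat_lit 20) (nat_lit 1) (nat_lit 18) (nat_lit 1) (nat_lit 19) (nat_lit 1) (nat_lit 302) (nat_lit 412) (nat_lit 366))) (XT.nd (nat_lit 94) (nat_lit 84) (nat_lit 0) (XT.lf (nat_lit 84) (nat_lit 28202944235) (nat_lit 0) (nat_lit 4118123512) (nat_lit 168) (nat_lit 20909104807) (nat_lit 17) (nat_lit 1) (nat_lit 16) (nat_lit 1) (nat_lit 18) (nat_lit 1) (nat_lit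 303) (nat_lit 412) (nat_lit 365)) (XT.lf (nat_lit 0) (nat_lit 3791482757) (nat_lit 0) (nat_lit 29674426328) (nat_lit 168) (nat_lit 18382916555) (nat_lit 15) (nat_lit 3) (nat_lit 15) (nat_lit 1) (nat_lit 17) (nat_lit 1) (nat_lit 304) (nat_lit 412) (nat_lit 364)))) (XT.nd (nat_lit 188) (nat_lit 420) (nat_lit 0) (XT.nd (nat_lit 94) (nat_lit 84) (nat_lit 0) (XT.lf (nat_lit 84) (nat_lit 30655220065) (nat_lit 0) (nat_lit 3919304552) (nat_lit 168) (nat_lit 15931114157) (nat_lit 14) (nat_lit 1) (nat_lit 13) (nat_lit 1) (nat_lit 15) (nat_lit 1) (nat_lit 305) (nat_lit 412) (nat_lit 363)) (XT.lf (nat_lit 0) (nat_lit 7243134742) (nat_lit 0) (nat_lit 28376898843) (nat_lit 168) (nat_lit 13578190419) (nat_lit 12) (nat_lit 3) (nat_lit 12) (nat_lit 1) (nat_lit 14) (nat_lit 1) (nat_lit 306) (nat_lit 412) (nat_lit 362))) (XT.nd (nat_lit 94) (nat_lit 252) (nat_lit 0) (XT.lf (nat_lit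 84) (nat_lit 32622534433) (nat_lit 0) (nat_lit 4058648102) (nat_lit 168) (nat_lit 11248071484) (nat_lit 11) (nat_lit 1) (nat_lit 10) (nat_lit 1) (nat_lit 12) (nat_lit 1) (nat_lit 307) (nat_lit 412) (nat_lit 361)) (XT.nd (nat_lit 94) (nat_lit 168) (nat_lit 0) (XT.lf (nat_lit 0) (nat_lit 10183041366) (nat_lit 0) (nat_lit 27439037922) (nat_lit 168) (nat_lit 9069131254) (nat_lit 9) (nat_lit 3) (nat_lit 9) (nat_lit 1) (nat_lit 11) (nat_lit 1) (nat_lit 308) (nat_lit 412) (nat_lit 360)) (XT.lf (nat_lit 84) (nat_lit 34177558218) (nat_lit 0) (nat_lit 4441760101) (nat_lit 168) (nat_lit 6872166380) (nat_lit 8) (nat_lit 1) (nat_lit 7) (nat_lit 1) (nat_lit 9) (nat_lit 1) (nat_lit 309) (nat_lit 412) (nat_lit 359))))))) (XT.nd (nat_lit 846) (nat_lit 0) (nat_lit 0) (XT.nd (nat_lit 376) (nat_lit 0) (nat_lit 0) (XT.nd (nat_lit 188) (nat_lit 336) (nat_lit 0) (XT.nd (nat_lit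 94) (nat_lit 168) (nat_lit 0) (XT.lf (nat_lit 0) (nat_lit 12681830849) (nat_lit 0) (nat_lit 26771579163) (nat_lit 168) (nat_lit 4865224741) (nat_lit 6) (nat_lit 3) (nat_lit 6) (nat_lit 1) (nat_lit 8) (nat_lit 1) (nat_lit 310) (nat_lit 412) (nat_lit 358)) (XT.lf (nat_lit 84) (nat_lit 35381389975) (nat_lit 0) (nat_lit 4994091839) (nat_lit 168) (nat_lit 2808174983) (nat_lit 5) (nat_lit 1) (nat_lit 4) (nat_lit 1) (nat_lit 6) (nat_lit 1) (nat_lit 311) (nat_lit 412) (nat_lit 357))) (XT.nd (nat_lit 94) (nat_lit 252) (nat_lit 0) (XT.lf (nat_lit 0) (nat_lit 14799237817) (nat_lit 0) (nat_lit 26303702768) (nat_lit 168) (nat_lit 969217805) (nat_lit 3) (nat_lit 3) (nat_lit 3) (nat_lit 1) (nat_lit 5) (nat_lit 1) (nat_lit 312) (nat_lit 412) (nat_lit 356)) (XT.lf (nat_lit 0) (nat_lit 59470934713) (nat_lit 0) (nat_lit 0) (nat_lit 0) (nat_lit 0) (nat_lit 0) (nat_lit 0) (nat_lit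 1) (nat_lit 0) (nat_lit 1) (nat_lit 0) (nat_lit 313) (nat_lit 412) (nat_lit 355)))) (XT.nd (nat_lit 188) (nat_lit 0) (nat_lit 0) (XT.nd (nat_lit 94) (nat_lit 0) (nat_lit 0) (XT.lf (nat_lit 0) (nat_lit 59416803554) (nat_lit 0) (nat_lit 0) (nat_lit 0) (nat_lit 0) (nat_lit 0) (nat_lit 0) (nat_lit 1) (nat_lit 0) (nat_lit 1) (nat_lit 0) (nat_lit 314) (nat_lit 412) (nat_lit 354)) (XT.lf (nat_lit 0) (nat_lit 59366682111) (nat_lit 0) (nat_lit 0) (nat_lit 0) (nat_lit 0) (nat_lit 0) (nat_lit 0) (nat_lit 1) (nat_lit 0) (nat_lit 1) (nat_lit 0) (nat_lit 315) (nat_lit 412) (nat_lit 353))) (XT.nd (nat_lit 94) (nat_lit 0) (nat_lit 0) (XT.lf (nat_lit 0) (nat_lit 59320273367) (nat_lit 0) (nat_lit 0) (nat_lit 0) (nat_lit 0) (nat_lit 0) (nat_lit 0) (nat_lit 1) (nat_lit 0) (nat_lit 1) (nat_lit 0) (nat_lit 316) (nat_lit 412) (nat_lit 352)) (XT.nd (nat_lit 94) (nat_lit 0) (nat_lit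 0) (XT.lf (nat_lit 0) (nat_lit 59277302308) (nat_lit 0) (nat_lit 0) (nat_lit 0) (nat_lit 0) (nat_lit 0) (nat_lit 0) (nat_lit 1) (nat_lit 0) (nat_lit 1) (nat_lit 0) (nat_lit 317) (nat_lit 412) (nat_lit 351)) (XT.lf (nat_lit 0) (nat_lit 59237514290) (nat_lit 0) (nat_lit 0) (nat_lit 0) (nat_lit 0) (nat_lit 0) (nat_lit 0) (nat_lit 1) (nat_lit 0) (nat_lit 1) (nat_lit 0) (nat_lit 318) (nat_lit 412) (nat_lit 350)))))) (XT.nd (nat_lit 470) (nat_lit 0) (nat_lit 0) (XT.nd (nat_lit 188) (nat_lit 0) (nat_lit 0) (XT.nd (nat_lit 94) (nat_lit 0) (nat_lit 0) (XT.lf (nat_lit 0) (nat_lit 59200673533) (nat_lit 0) (nat_lit 0) (nat_lit 0) (nat_lit 0) (nat_lit 0) (nat_lit 0) (nat_lit 1) (nat_lit 0) (nat_lit 1) (nat_lit 0) (nat_lit 319) (nat_lit 412) (nat_lit 349)) (XT.lf (nat_lit 0) (nat_lit 59166561721) (nat_lit 0) (nat_lit 0) (nat_lit 0) (nat_lit 0) (nat_lit 0) (nat_lit 0) (nat_lit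 1) (nat_lit 0) (nat_lit 1) (nat_lit 0) (nat_lit 320) (nat_lit 412) (nat_lit 348))) (XT.nd (nat_lit 94) (nat_lit 0) (nat_lit 0) (XT.lf (nat_lit 0) (nat_lit 59134976710) (nat_lit 0) (nat_lit 0) (nat_lit 0) (nat_lit 0) (nat_lit 0) (nat_lit 0) (nat_lit 1) (nat_lit 0) (nat_lit 1) (nat_lit 0) (nat_lit 321) (nat_lit 412) (nat_lit 347)) (XT.nd (nat_lit 94) (nat_lit 0) (nat_lit 0) (XT.lf (nat_lit 0) (nat_lit 59105731329) (nat_lit 0) (nat_lit 0) (nat_lit 0) (nat_lit 0) (nat_lit 0) (nat_lit 0) (nat_lit 1) (nat_lit 0) (nat_lit 1) (nat_lit 0) (nat_lit 322) (nat_lit 412) (nat_lit 346)) (XT.lf (nat_lit 0) (nat_lit 59078652273) (nat_lit 0) (nat_lit 0) (nat_lit 0) (nat_lit 0) (nat_lit 0) (nat_lit 0) (nat_lit 1) (nat_lit 0) (nat_lit 1) (nat_lit 0) (nat_lit 323) (nat_lit 412) (nat_lit 345))))) (XT.nd (nat_lit 188) (nat_lit 0) (nat_lit 0) (XT.nd (nat_lit 94) (nat_lit 0) (nat_lit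 0) (XT.lf (nat_lit 0) (nat_lit 59053579072) (nat_lit 0) (nat_lit 0) (nat_lit 0) (nat_lit 0) (nat_lit 0) (nat_lit 0) (nat_lit 1) (nat_lit 0) (nat_lit 1) (nat_lit 0) (nat_lit 324) (nat_lit 412) (nat_lit 344)) (XT.lf (nat_lit 0) (nat_lit 59030363146) (nat_lit 0) (nat_lit 0) (nat_lit 0) (nat_lit 0) (nat_lit 0) (nat_lit 0) (nat_lit 1) (nat_lit 0) (nat_lit 1) (nat_lit 0) (nat_lit 325) (nat_lit 412) (nat_lit 343))) (XT.nd (nat_lit 94) (nat_lit 0) (nat_lit 0) (XT.lf (nat_lit 0) (nat_lit 59008866918) (nat_lit 0) (nat_lit 0) (nat_lit 0) (nat_lit 0) (nat_lit 0) (nat_lit 0) (nat_lit 1) (nat_lit 0) (nat_lit 1) (nat_lit 0) (nat_lit 326) (nat_lit 412) (nat_lit 342)) (XT.nd (nat_lit 94) (nat_lit 0) (nat_lit 0) (XT.lf (nat_lit 0) (nat_lit 58988963004) (nat_lit 0) (nat_lit 0) (nat_lit 0) (nat_lit 0) (nat_lit 0) (nat_lit 0) (nat_lit 1) (nat_lit 0) (nat_lit 1) (nat_lit 0) (nat_lit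 327) (nat_lit 412) (nat_lit 341)) (XT.lf (nat_lit 0) (nat_lit 58970533453) (nat_lit 0) (nat_lit 0) (nat_lit 0) (nat_lit 0) (nat_lit 0) (nat_lit 0) (nat_lit 1) (nat_lit 0) (nat_lit 1) (nat_lit 0) (nat_lit 328) (nat_lit 412) (nat_lit 340))))))))
noncomputable def ec207 : XT := (XT.nd (nat_lit 1786) (nat_lit 0) (nat_lit 0) (XT.nd (nat_lit 846) (nat_lit 0) (nat_lit 0) (XT.nd (nat_lit 376) (nat_lit 0) (nat_lit 0) (XT.nd (nat_lit 188) (nat_lit 0) (nat_lit 0) (XT.nd (nat_lit 94) (nat_lit 0) (nat_lit 0) (XT.lf (nat_lit 0) (nat_lit 58953469054) (nat_lit 0) (nat_lit 0) (nat_lit 0) (nat_lit 0) (nat_lit 0) (nat_lit 0) (nat_lit 1) (nat_lit 0) (nat_lit 1) (nat_lit 0) (nat_lit 329) (nat_lit 412) (nat_lit 339)) (XT.lf (nat_lit 0) (nat_lit 58937668685) (nat_lit 0) (nat_lit 0) (nat_lit 0) (nat_lit 0) (nat_lit 0) (nat_lit 0) (nat_lit 1) (nat_lit 0) (nat_lit 1) (nat_lit 0) (nat_lit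 330) (nat_lit 412) (nat_lit 338))) (XT.nd (nat_lit 94) (nat_lit 0) (nat_lit 0) (XT.lf (nat_lit 0) (nat_lit 58923038713) (nat_lit 0) (nat_lit 0) (nat_lit 0) (nat_lit 0) (nat_lit 0) (nat_lit 0) (nat_lit 1) (nat_lit 0) (nat_lit 1) (nat_lit 0) (nat_lit 331) (nat_lit 412) (nat_lit 337)) (XT.lf (nat_lit 0) (nat_lit 58909492443) (nat_lit 0) (nat_lit 0) (nat_lit 0) (nat_lit 0) (nat_lit 0) (nat_lit 0) (nat_lit 1) (nat_lit 0) (nat_lit 1) (nat_lit 0) (nat_lit 332) (nat_lit 412) (nat_lit 336)))) (XT.nd (nat_lit 188) (nat_lit 0) (nat_lit 0) (XT.nd (nat_lit 94) (nat_lit 0) (nat_lit 0) (XT.lf (nat_lit 0) (nat_lit 58896949601) (nat_lit 0) (nat_lit 0) (nat_lit 0) (nat_lit 0) (nat_lit 0) (nat_lit 0) (nat_lit 1) (nat_lit 0) (nat_lit 1) (nat_lit 0) (nat_lit 333) (nat_lit 412) (nat_lit 335)) (XT.lf (nat_lit 0) (nat_lit 58885335858) (nat_lit 0) (nat_lit 0) (nat_lit 0) (nat_lit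 0) (nat_lit 0) (nat_lit 0) (nat_lit 1) (nat_lit 0) (nat_lit 1) (nat_lit 0) (nat_lit 334) (nat_lit 412) (nat_lit 334))) (XT.nd (nat_lit 94) (nat_lit 0) (nat_lit 0) (XT.lf (nat_lit 0) (nat_lit 58874582392) (nat_lit 0) (nat_lit 0) (nat_lit 0) (nat_lit 0) (nat_lit 0) (nat_lit 0) (nat_lit 1) (nat_lit 0) (nat_lit 1) (nat_lit 0) (nat_lit 335) (nat_lit 412) (nat_lit 333)) (XT.nd (nat_lit 94) (nat_lit 0) (nat_lit 0) (XT.lf (nat_lit 0) (nat_lit 58864625479) (nat_lit 0) (nat_lit 0) (nat_lit 0) (nat_lit 0) (nat_lit 0) (nat_lit 0) (nat_lit 1) (nat_lit 0) (nat_lit 1) (nat_lit 0) (nat_lit 336) (nat_lit 412) (nat_lit 332)) (XT.lf (nat_lit 0) (nat_lit 58855406116) (nat_lit 0) (nat_lit 0) (nat_lit 0) (nat_lit 0) (nat_lit 0) (nat_lit 0) (nat_lit 1) (nat_lit 0) (nat_lit 1) (nat_lit 0) (nat_lit 337) (nat_lit 412) (nat_lit 331)))))) (XT.nd (nat_lit 470) (nat_lit 0) (nat_lit 0)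 (XT.nd (nat_lit 188) (nat_lit 0) (nat_lit 0) (XT.nd (nat_lit 94) (nat_lit 0) (nat_lit 0) (XT.lf (nat_lit 0) (nat_lit 58846869668) (nat_lit 0) (nat_lit 0) (nat_lit 0) (nat_lit 0) (nat_lit 0) (nat_lit 0) (nat_lit 1) (nat_lit 0) (nat_lit 1) (nat_lit 0) (nat_lit 338) (nat_lit 412) (nat_lit 330)) (XT.lf (nat_lit 0) (nat_lit 58838965549) (nat_lit 0) (nat_lit 0) (nat_lit 0) (nat_lit 0) (nat_lit 0) (nat_lit 0) (nat_lit 1) (nat_lit 0) (nat_lit 1) (nat_lit 0) (nat_lit 339) (nat_lit 412) (nat_lit 329))) (XT.nd (nat_lit 94) (nat_lit 0) (nat_lit 0) (XT.lf (nat_lit 0) (nat_lit 58831646921) (nat_lit 0) (nat_lit 0) (nat_lit 0) (nat_lit 0) (nat_lit 0) (nat_lit 0) (nat_lit 1) (nat_lit 0) (nat_lit 1) (nat_lit 0) (nat_lit 340) (nat_lit 412) (nat_lit 328)) (XT.nd (nat_lit 94) (nat_lit 0) (nat_lit 0) (XT.lf (nat_lit 0) (nat_lit 58824870414) (nat_lit 0) (nat_lit 0) (nat_lit 0) (nat_lit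 0) (nat_lit 0) (nat_lit 0) (nat_lit 1) (nat_lit 0) (nat_lit 1) (nat_lit 0) (nat_lit 341) (nat_lit 412) (nat_lit 327)) (XT.lf (nat_lit 0) (nat_lit 58818595870) (nat_lit 0) (nat_lit 0) (nat_lit 0) (nat_lit 0) (nat_lit 0) (nat_lit 0) (nat_lit 1) (nat_lit 0) (nat_lit 1) (nat_lit 0) (nat_lit 342) (nat_lit 412) (nat_lit 326))))) (XT.nd (nat_lit 188) (nat_lit 0) (nat_lit 0) (XT.nd (nat_lit 94) (nat_lit 0) (nat_lit 0) (XT.lf (nat_lit 0) (nat_lit 58812786107) (nat_lit 0) (nat_lit 0) (nat_lit 0) (nat_lit 0) (nat_lit 0) (nat_lit 0) (nat_lit 1) (nat_lit 0) (nat_lit 1) (nat_lit 0) (nat_lit 343) (nat_lit 412) (nat_lit 325)) (XT.lf (nat_lit 0) (nat_lit 58807406696) (nat_lit 0) (nat_lit 0) (nat_lit 0) (nat_lit 0) (nat_lit 0) (nat_lit 0) (nat_lit 1) (nat_lit 0) (nat_lit 1) (nat_lit 0) (nat_lit 344) (nat_lit 412) (nat_lit 324))) (XT.nd (nat_lit 94) (nat_lit 0) (nat_lit 0) (XT.lf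 (nat_lit 0) (nat_lit 58802425761) (nat_lit 0) (nat_lit 0) (nat_lit 0) (nat_lit 0) (nat_lit 0) (nat_lit 0) (nat_lit 1) (nat_lit 0) (nat_lit 1) (nat_lit 0) (nat_lit 345) (nat_lit 412) (nat_lit 323)) (XT.nd (nat_lit 94) (nat_lit 0) (nat_lit 0) (XT.lf (nat_lit 0) (nat_lit 58797813784) (nat_lit 0) (nat_lit 0) (nat_lit 0) (nat_lit 0) (nat_lit 0) (nat_lit 0) (nat_lit 1) (nat_lit 0) (nat_lit 1) (nat_lit 0) (nat_lit 346) (nat_lit 412) (nat_lit 322)) (XT.lf (nat_lit 0) (nat_lit 58793543435) (nat_lit 0) (nat_lit 0) (nat_lit 0) (nat_lit 0) (nat_lit 0) (nat_lit 0) (nat_lit 1) (nat_lit 0) (nat_lit 1) (nat_lit 0) (nat_lit 347) (nat_lit 412) (nat_lit 321))))))) (XT.nd (nat_lit 846) (nat_lit 0) (nat_lit 0) (XT.nd (nat_lit 376) (nat_lit 0) (nat_lit 0) (XT.nd (nat_lit 188) (nat_lit 0) (nat_lit 0) (XT.nd (nat_lit 94) (nat_lit 0) (nat_lit 0) (XT.lf (nat_lit 0) (nat_lit 58789589408)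 (nat_lit 0) (nat_lit 0) (nat_lit 0) (nat_lit 0) (nat_lit 0) (nat_lit 0) (nat_lit 1) (nat_lit 0) (nat_lit 1) (nat_lit 0) (nat_lit 348) (nat_lit 412) (nat_lit 320)) (XT.lf (nat_lit 0) (nat_lit 58785928271) (nat_lit 0) (nat_lit 0) (nat_lit 0) (nat_lit 0) (nat_lit 0) (nat_lit 0) (nat_lit 1) (nat_lit 0) (nat_lit 1) (nat_lit 0) (nat_lit 349) (nat_lit 412) (nat_lit 319))) (XT.nd (nat_lit 94) (nat_lit 0) (nat_lit 0) (XT.lf (nat_lit 0) (nat_lit 58782538331) (nat_lit 0) (nat_lit 0) (nat_lit 0) (nat_lit 0) (nat_lit 0) (nat_lit 0) (nat_lit 1) (nat_lit 0) (nat_lit 1) (nat_lit 0) (nat_lit 350) (nat_lit 412) (nat_lit 318)) (XT.lf (nat_lit 0) (nat_lit 58779399496) (nat_lit 0) (nat_lit 0) (nat_lit 0) (nat_lit 0) (nat_lit 0) (nat_lit 0) (nat_lit 1) (nat_lit 0) (nat_lit 1) (nat_lit 0) (nat_lit 351) (nat_lit 412) (nat_lit 317)))) (XT.nd (nat_lit 188) (nat_lit 0) (nat_lit 0) (XT.nd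 (nat_lit 94) (nat_lit 0) (nat_lit 0) (XT.lf (nat_lit 0) (nat_lit 58776493168) (nat_lit 0) (nat_lit 0) (nat_lit 0) (nat_lit 0) (nat_lit 0) (nat_lit 0) (nat_lit 1) (nat_lit 0) (nat_lit 1) (nat_lit 0) (nat_lit 352) (nat_lit 412) (nat_lit 316)) (XT.lf (nat_lit 0) (nat_lit 58773802124) (nat_lit 0) (nat_lit 0) (nat_lit 0) (nat_lit 0) (nat_lit 0) (nat_lit 0) (nat_lit 1) (nat_lit 0) (nat_lit 1) (nat_lit 0) (nat_lit 353) (nat_lit 412) (nat_lit 315))) (XT.nd (nat_lit 94) (nat_lit 0) (nat_lit 0) (XT.lf (nat_lit 0) (nat_lit 58771310416) (nat_lit 0) (nat_lit 0) (nat_lit 0) (nat_lit 0) (nat_lit 0) (nat_lit 0) (nat_lit 1) (nat_lit 0) (nat_lit 1) (nat_lit 0) (nat_lit 354) (nat_lit 412) (nat_lit 314)) (XT.nd (nat_lit 94) (nat_lit 0) (nat_lit 0) (XT.lf (nat_lit 0) (nat_lit 58769003280) (nat_lit 0) (nat_lit 0) (nat_lit 0) (nat_lit 0) (nat_lit 0) (nat_lit 0) (nat_lit 1) (nat_lit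 0) (nat_lit 1) (nat_lit 0) (nat_lit 355) (nat_lit 412) (nat_lit 313)) (XT.lf (nat_lit 0) (nat_lit 58766867042) (nat_lit 0) (nat_lit 0) (nat_lit 0) (nat_lit 0) (nat_lit 0) (nat_lit 0) (nat_lit 1) (nat_lit 0) (nat_lit 1) (nat_lit 0) (nat_lit 356) (nat_lit 412) (nat_lit 312)))))) (XT.nd (nat_lit 470) (nat_lit 0) (nat_lit 0) (XT.nd (nat_lit 188) (nat_lit 0) (nat_lit 0) (XT.nd (nat_lit 94) (nat_lit 0) (nat_lit 0) (XT.lf (nat_lit 0) (nat_lit 58764889044) (nat_lit 0) (nat_lit 0) (nat_lit 0) (nat_lit 0) (nat_lit 0) (nat_lit 0) (nat_lit 1) (nat_lit 0) (nat_lit 1) (nat_lit 0) (nat_lit 357) (nat_lit 412) (nat_lit 311)) (XT.lf (nat_lit 0) (nat_lit 58763057564) (nat_lit 0) (nat_lit 0) (nat_lit 0) (nat_lit 0) (nat_lit 0) (nat_lit 0) (nat_lit 1) (nat_lit 0) (nat_lit 1) (nat_lit 0) (nat_lit 358) (nat_lit 412) (nat_lit 310))) (XT.nd (nat_lit 94) (nat_lit 0) (nat_lit 0) (XT.lf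 (nat_lit 0) (nat_lit 58761361750) (nat_lit 0) (nat_lit 0) (nat_lit 0) (nat_lit 0) (nat_lit 0) (nat_lit 0) (nat_lit 1) (nat_lit 0) (nat_lit 1) (nat_lit 0) (nat_lit 359) (nat_lit 412) (nat_lit 309)) (XT.nd (nat_lit 94) (nat_lit 0) (nat_lit 0) (XT.lf (nat_lit 0) (nat_lit 58759791551) (nat_lit 0) (nat_lit 0) (nat_lit 0) (nat_lit 0) (nat_lit 0) (nat_lit 0) (nat_lit 1) (nat_lit 0) (nat_lit 1) (nat_lit 0) (nat_lit 360) (nat_lit 412) (nat_lit 308)) (XT.lf (nat_lit 0) (nat_lit 58758337664) (nat_lit 0) (nat_lit 0) (nat_lit 0) (nat_lit 0) (nat_lit 0) (nat_lit 0) (nat_lit 1) (nat_lit 0) (nat_lit 1) (nat_lit 0) (nat_lit 361) (nat_lit 412) (nat_lit 307))))) (XT.nd (nat_lit 188) (nat_lit 0) (nat_lit 0) (XT.nd (nat_lit 94) (nat_lit 0) (nat_lit 0) (XT.lf (nat_lit 0) (nat_lit 58756991472) (nat_lit 0) (nat_lit 0) (nat_lit 0) (nat_lit 0) (nat_lit 0) (nat_lit 0) (nat_lit 1) (nat_lit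 0) (nat_lit 1) (nat_lit 0) (nat_lit 362) (nat_lit 412) (nat_lit 306)) (XT.lf (nat_lit 0) (nat_lit 58755744997) (nat_lit 0) (nat_lit 0) (nat_lit 0) (nat_lit 0) (nat_lit 0) (nat_lit 0) (nat_lit 1) (nat_lit 0) (nat_lit 1) (nat_lit 0) (nat_lit 363) (nat_lit 412) (nat_lit 305))) (XT.nd (nat_lit 94) (nat_lit 0) (nat_lit 0) (XT.lf (nat_lit 0) (nat_lit 58754590854) (nat_lit 0) (nat_lit 0) (nat_lit 0) (nat_lit 0) (nat_lit 0) (nat_lit 0) (nat_lit 1) (nat_lit 0) (nat_lit 1) (nat_lit 0) (nat_lit 364) (nat_lit 412) (nat_lit 304)) (XT.nd (nat_lit 94) (nat_lit 0) (nat_lit 0) (XT.lf (nat_lit 0) (nat_lit 58753522204) (nat_lit 0) (nat_lit 0) (nat_lit 0) (nat_lit 0) (nat_lit 0) (nat_lit 0) (nat_lit 1) (nat_lit 0) (nat_lit 1) (nat_lit 0) (nat_lit 365) (nat_lit 412) (nat_lit 303)) (XT.lf (nat_lit 0) (nat_lit 58752532712) (nat_lit 0) (nat_lit 0) (nat_lit 0) (nat_lit 0) (nat_lit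 0) (nat_lit 0) (nat_lit 1) (nat_lit 0) (nat_lit 1) (nat_lit 0) (nat_lit 366) (nat_lit 412) (nat_lit 302))))))))
noncomputable def ec208 : XT := (XT.nd (nat_lit 1692) (nat_lit 0) (nat_lit 0) (XT.nd (nat_lit 846) (nat_lit 0) (nat_lit 0) (XT.nd (nat_lit 376) (nat_lit 0) (nat_lit 0) (XT.nd (nat_lit 188) (nat_lit 0) (nat_lit 0) (XT.nd (nat_lit 94) (nat_lit 0) (nat_lit 0) (XT.lf (nat_lit 0) (nat_lit 58751616517) (nat_lit 0) (nat_lit 0) (nat_lit 0) (nat_lit 0) (nat_lit 0) (nat_lit 0) (nat_lit 1) (nat_lit 0) (nat_lit 1) (nat_lit 0) (nat_lit 367) (nat_lit 412) (nat_lit 301)) (XT.lf (nat_lit 0) (nat_lit 58750768187) (nat_lit 0) (nat_lit 0) (nat_lit 0) (nat_lit 0) (nat_lit 0) (nat_lit 0) (nat_lit 1) (nat_lit 0) (nat_lit 1) (nat_lit 0) (nat_lit 368) (nat_lit 412) (nat_lit 300))) (XT.nd (nat_lit 94) (nat_lit 0) (nat_lit 0) (XT.lf (nat_lit 0) (nat_lit 58749982697) (nat_lit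 0) (nat_lit 0) (nat_lit 0) (nat_lit 0) (nat_lit 0) (nat_lit 0) (nat_lit 1) (nat_lit 0) (nat_lit 1) (nat_lit 0) (nat_lit 369) (nat_lit 412) (nat_lit 299)) (XT.lf (nat_lit 0) (nat_lit 58749255391) (nat_lit 0) (nat_lit 0) (nat_lit 0) (nat_lit 0) (nat_lit 0) (nat_lit 0) (nat_lit 1) (nat_lit 0) (nat_lit 1) (nat_lit 0) (nat_lit 370) (nat_lit 412) (nat_lit 298)))) (XT.nd (nat_lit 188) (nat_lit 0) (nat_lit 0) (XT.nd (nat_lit 94) (nat_lit 0) (nat_lit 0) (XT.lf (nat_lit 0) (nat_lit 58748581960) (nat_lit 0) (nat_lit 0) (nat_lit 0) (nat_lit 0) (nat_lit 0) (nat_lit 0) (nat_lit 1) (nat_lit 0) (nat_lit 1) (nat_lit 0) (nat_lit 371) (nat_lit 412) (nat_lit 297)) (XT.lf (nat_lit 0) (nat_lit 58747958412) (nat_lit 0) (nat_lit 0) (nat_lit 0) (nat_lit 0) (nat_lit 0) (nat_lit 0) (nat_lit 1) (nat_lit 0) (nat_lit 1) (nat_lit 0) (nat_lit 372) (nat_lit 412) (nat_lit 296))) (XT.nd (nat_lit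 94) (nat_lit 0) (nat_lit 0) (XT.lf (nat_lit 0) (nat_lit 58747381054) (nat_lit 0) (nat_lit 0) (nat_lit 0) (nat_lit 0) (nat_lit 0) (nat_lit 0) (nat_lit 1) (nat_lit 0) (nat_lit 1) (nat_lit 0) (nat_lit 373) (nat_lit 412) (nat_lit 295)) (XT.nd (nat_lit 94) (nat_lit 0) (nat_lit 0) (XT.lf (nat_lit 0) (nat_lit 58746846462) (nat_lit 0) (nat_lit 0) (nat_lit 0) (nat_lit 0) (nat_lit 0) (nat_lit 0) (nat_lit 1) (nat_lit 0) (nat_lit 1) (nat_lit 0) (nat_lit 374) (nat_lit 412) (nat_lit 294)) (XT.lf (nat_lit 0) (nat_lit 58746351470) (nat_lit 0) (nat_lit 0) (nat_lit 0) (nat_lit 0) (nat_lit 0) (nat_lit 0) (nat_lit 1) (nat_lit 0) (nat_lit 1) (nat_lit 0) (nat_lit 375) (nat_lit 412) (nat_lit 293)))))) (XT.nd (nat_lit 376) (nat_lit 0) (nat_lit 0) (XT.nd (nat_lit 188) (nat_lit 0) (nat_lit 0) (XT.nd (nat_lit 94) (nat_lit 0) (nat_lit 0) (XT.lf (nat_lit 0) (nat_lit 58745893144) (nat_lit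 0) (nat_lit 0) (nat_lit 0) (nat_lit 0) (nat_lit 0) (nat_lit 0) (nat_lit 1) (nat_lit 0) (nat_lit 1) (nat_lit 0) (nat_lit 376) (nat_lit 412) (nat_lit 292)) (XT.lf (nat_lit 0) (nat_lit 58745468768) (nat_lit 0) (nat_lit 0) (nat_lit 0) (nat_lit 0) (nat_lit 0) (nat_lit 0) (nat_lit 1) (nat_lit 0) (nat_lit 1) (nat_lit 0) (nat_lit 377) (nat_lit 412) (nat_lit 291))) (XT.nd (nat_lit 94) (nat_lit 0) (nat_lit 0) (XT.lf (nat_lit 0) (nat_lit 58745075828) (nat_lit 0) (nat_lit 0) (nat_lit 0) (nat_lit 0) (nat_lit 0) (nat_lit 0) (nat_lit 1) (nat_lit 0) (nat_lit 1) (nat_lit 0) (nat_lit 378) (nat_lit 412) (nat_lit 290)) (XT.lf (nat_lit 0) (nat_lit 58744711994) (nat_lit 0) (nat_lit 0) (nat_lit 0) (nat_lit 0) (nat_lit 0) (nat_lit 0) (nat_lit 1) (nat_lit 0) (nat_lit 1) (nat_lit 0) (nat_lit 379) (nat_lit 412) (nat_lit 289)))) (XT.nd (nat_lit 188) (nat_lit 0) (nat_lit 0) (XT.nd (nat_lit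 94) (nat_lit 0) (nat_lit 0) (XT.lf (nat_lit 0) (nat_lit 58744375110) (nat_lit 0) (nat_lit 0) (nat_lit 0) (nat_lit 0) (nat_lit 0) (nat_lit 0) (nat_lit 1) (nat_lit 0) (nat_lit 1) (nat_lit 0) (nat_lit 380) (nat_lit 412) (nat_lit 288)) (XT.lf (nat_lit 0) (nat_lit 58744063181) (nat_lit 0) (nat_lit 0) (nat_lit 0) (nat_lit 0) (nat_lit 0) (nat_lit 0) (nat_lit 1) (nat_lit 0) (nat_lit 1) (nat_lit 0) (nat_lit 381) (nat_lit 412) (nat_lit 287))) (XT.nd (nat_lit 94) (nat_lit 0) (nat_lit 0) (XT.lf (nat_lit 0) (nat_lit 58743774358) (nat_lit 0) (nat_lit 0) (nat_lit 0) (nat_lit 0) (nat_lit 0) (nat_lit 0) (nat_lit 1) (nat_lit 0) (nat_lit 1) (nat_lit 0) (nat_lit 382) (nat_lit 412) (nat_lit 286)) (XT.nd (nat_lit 94) (nat_lit 0) (nat_lit 0) (XT.lf (nat_lit 0) (nat_lit 58743506930) (nat_lit 0) (nat_lit 0) (nat_lit 0) (nat_lit 0) (nat_lit 0) (nat_lit 0) (nat_lit 1) (nat_lit 0) (nat_lit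 1) (nat_lit 0) (nat_lit 383) (nat_lit 412) (nat_lit 285)) (XT.lf (nat_lit 0) (nat_lit 58743259310) (nat_lit 0) (nat_lit 0) (nat_lit 0) (nat_lit 0) (nat_lit 0) (nat_lit 0) (nat_lit 1) (nat_lit 0) (nat_lit 1) (nat_lit 0) (nat_lit 384) (nat_lit 412) (nat_lit 284))))))) (XT.nd (nat_lit 846) (nat_lit 0) (nat_lit 0) (XT.nd (nat_lit 376) (nat_lit 0) (nat_lit 0) (XT.nd (nat_lit 188) (nat_lit 0) (nat_lit 0) (XT.nd (nat_lit 94) (nat_lit 0) (nat_lit 0) (XT.lf (nat_lit 0) (nat_lit 58743030033) (nat_lit 0) (nat_lit 0) (nat_lit 0) (nat_lit 0) (nat_lit 0) (nat_lit 0) (nat_lit 1) (nat_lit 0) (nat_lit 1) (nat_lit 0) (nat_lit 385) (nat_lit 412) (nat_lit 283)) (XT.lf (nat_lit 0) (nat_lit 58742817740) (nat_lit 0) (nat_lit 0) (nat_lit 0) (nat_lit 0) (nat_lit 0) (nat_lit 0) (nat_lit 1) (nat_lit 0) (nat_lit 1) (nat_lit 0) (nat_lit 386) (nat_lit 412) (nat_lit 282))) (XT.nd (nat_lit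 94) (nat_lit 0) (nat_lit 0) (XT.lf (nat_lit 0) (nat_lit 58742621171) (nat_lit 0) (nat_lit 0) (nat_lit 0) (nat_lit 0) (nat_lit 0) (nat_lit 0) (nat_lit 1) (nat_lit 0) (nat_lit 1) (nat_lit 0) (nat_lit 387) (nat_lit 412) (nat_lit 281)) (XT.lf (nat_lit 0) (nat_lit 58742439164) (nat_lit 0) (nat_lit 0) (nat_lit 0) (nat_lit 0) (nat_lit 0) (nat_lit 0) (nat_lit 1) (nat_lit 0) (nat_lit 1) (nat_lit 0) (nat_lit 388) (nat_lit 412) (nat_lit 280)))) (XT.nd (nat_lit 188) (nat_lit 0) (nat_lit 0) (XT.nd (nat_lit 94) (nat_lit 0) (nat_lit 0) (XT.lf (nat_lit 0) (nat_lit 58742270638) (nat_lit 0) (nat_lit 0) (nat_lit 0) (nat_lit 0) (nat_lit 0) (nat_lit 0) (nat_lit 1) (nat_lit 0) (nat_lit 1) (nat_lit 0) (nat_lit 389) (nat_lit 412) (nat_lit 279)) (XT.lf (nat_lit 0) (nat_lit 58742114596) (nat_lit 0) (nat_lit 0) (nat_lit 0) (nat_lit 0) (nat_lit 0) (nat_lit 0) (nat_lit 1) (nat_lit 0)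 (nat_lit 1) (nat_lit 0) (nat_lit 390) (nat_lit 412) (nat_lit 278))) (XT.nd (nat_lit 94) (nat_lit 0) (nat_lit 0) (XT.lf (nat_lit 0) (nat_lit 58741970113) (nat_lit 0) (nat_lit 0) (nat_lit 0) (nat_lit 0) (nat_lit 0) (nat_lit 0) (nat_lit 1) (nat_lit 0) (nat_lit 1) (nat_lit 0) (nat_lit 391) (nat_lit 412) (nat_lit 277)) (XT.nd (nat_lit 94) (nat_lit 0) (nat_lit 0) (XT.lf (nat_lit 0) (nat_lit 58741836332) (nat_lit 0) (nat_lit 0) (nat_lit 0) (nat_lit 0) (nat_lit 0) (nat_lit 0) (nat_lit 1) (nat_lit 0) (nat_lit 1) (nat_lit 0) (nat_lit 392) (nat_lit 412) (nat_lit 276)) (XT.lf (nat_lit 0) (nat_lit 58741712460) (nat_lit 0) (nat_lit 0) (nat_lit 0) (nat_lit 0) (nat_lit 0) (nat_lit 0) (nat_lit 1) (nat_lit 0) (nat_lit 1) (nat_lit 0) (nat_lit 393) (nat_lit 412) (nat_lit 275)))))) (XT.nd (nat_lit 470) (nat_lit 0) (nat_lit 0) (XT.nd (nat_lit 188) (nat_lit 0) (nat_lit 0) (XT.nd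 (nat_lit 94) (nat_lit 0) (nat_lit 0) (XT.lf (nat_lit 0) (nat_lit 58741597765) (nat_lit 0) (nat_lit 0) (nat_lit 0) (nat_lit 0) (nat_lit 0) (nat_lit 0) (nat_lit 1) (nat_lit 0) (nat_lit 1) (nat_lit 0) (nat_lit 394) (nat_lit 412) (nat_lit 274)) (XT.lf (nat_lit 0) (nat_lit 58741491565) (nat_lit 0) (nat_lit 0) (nat_lit 0) (nat_lit 0) (nat_lit 0) (nat_lit 0) (nat_lit 1) (nat_lit 0) (nat_lit 1) (nat_lit 0) (nat_lit 395) (nat_lit 412) (nat_lit 273))) (XT.nd (nat_lit 94) (nat_lit 0) (nat_lit 0) (XT.lf (nat_lit 0) (nat_lit 58741393232) (nat_lit 0) (nat_lit 0) (nat_lit 0) (nat_lit 0) (nat_lit 0) (nat_lit 0) (nat_lit 1) (nat_lit 0) (nat_lit 1) (nat_lit 0) (nat_lit 396) (nat_lit 412) (nat_lit 272)) (XT.nd (nat_lit 94) (nat_lit 0) (nat_lit 0) (XT.lf (nat_lit 0) (nat_lit 58741302183) (nat_lit 0) (nat_lit 0) (nat_lit 0) (nat_lit 0) (nat_lit 0) (nat_lit 0) (nat_lit 1) (nat_lit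 0) (nat_lit 1) (nat_lit 0) (nat_lit 397) (nat_lit 412) (nat_lit 271)) (XT.lf (nat_lit 0) (nat_lit 58741217878) (nat_lit 0) (nat_lit 0) (nat_lit 0) (nat_lit 0) (nat_lit 0) (nat_lit 0) (nat_lit 1) (nat_lit 0) (nat_lit 1) (nat_lit 0) (nat_lit 398) (nat_lit 412) (nat_lit 270))))) (XT.nd (nat_lit 188) (nat_lit 0) (nat_lit 0) (XT.nd (nat_lit 94) (nat_lit 0) (nat_lit 0) (XT.lf (nat_lit 0) (nat_lit 58741139818) (nat_lit 0) (nat_lit 0) (nat_lit 0) (nat_lit 0) (nat_lit 0) (nat_lit 0) (nat_lit 1) (nat_lit 0) (nat_lit 1) (nat_lit 0) (nat_lit 399) (nat_lit 412) (nat_lit 269)) (XT.lf (nat_lit 0) (nat_lit 58741067541) (nat_lit 0) (nat_lit 0) (nat_lit 0) (nat_lit 0) (nat_lit 0) (nat_lit 0) (nat_lit 1) (nat_lit 0) (nat_lit 1) (nat_lit 0) (nat_lit 400) (nat_lit 412) (nat_lit 268))) (XT.nd (nat_lit 94) (nat_lit 0) (nat_lit 0) (XT.lf (nat_lit 0) (nat_lit 58741000617) (nat_lit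 0) (nat_lit 0) (nat_lit 0) (nat_lit 0) (nat_lit 0) (nat_lit 0) (nat_lit 1) (nat_lit 0) (nat_lit 1) (nat_lit 0) (nat_lit 401) (nat_lit 412) (nat_lit 267)) (XT.nd (nat_lit 94) (nat_lit 0) (nat_lit 0) (XT.lf (nat_lit 0) (nat_lit 58740938650) (nat_lit 0) (nat_lit 0) (nat_lit 0) (nat_lit 0) (nat_lit 0) (nat_lit 0) (nat_lit 1) (nat_lit 0) (nat_lit 1) (nat_lit 0) (nat_lit 402) (nat_lit 412) (nat_lit 266)) (XT.lf (nat_lit 0) (nat_lit 58740881274) (nat_lit 0) (nat_lit 0) (nat_lit 0) (nat_lit 0) (nat_lit 0) (nat_lit 0) (nat_lit 1) (nat_lit 0) (nat_lit 1) (nat_lit 0) (nat_lit 403) (nat_lit 412) (nat_lit 265))))))))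
noncomputable def ec209 : XT := (XT.nd (nat_lit 1786) (nat_lit 0) (nat_lit 0) (XT.nd (nat_lit 846) (nat_lit 0) (nat_lit 0) (XT.nd (nat_lit 376) (nat_lit 0) (nat_lit 0) (XT.nd (nat_lit 188) (nat_lit 0) (nat_lit 0) (XT.nd (nat_lit 94) (nat_lit 0) (nat_lit 0) (XT.lf (nat_lit 0) (nat_lit 58740828148) (nat_lit 0) (nat_lit 0) (nat_lit 0) (nat_lit 0) (nat_lit 0) (nat_lit 0) (nat_lit 1) (nat_lit 0) (nat_lit 1) (nat_lit 0) (nat_lit 404) (nat_lit 412) (nat_lit 264)) (XT.lf (nat_lit 0) (nat_lit 58740778957) (nat_lit 0) (nat_lit 0) (nat_lit 0) (nat_lit 0) (nat_lit 0) (nat_lit 0) (nat_lit 1) (nat_lit 0) (nat_lit 1) (nat_lit 0) (nat_lit 405) (nat_lit 412) (nat_lit 263))) (XT.nd (nat_lit 94) (nat_lit 0) (nat_lit 0) (XT.lf (nat_lit 0) (nat_lit 58740733410) (nat_lit 0) (nat_lit 0) (nat_lit 0) (nat_lit 0) (nat_lit 0) (nat_lit 0) (nat_lit 1) (nat_lit 0) (nat_lit 1) (nat_lit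 0) (nat_lit 406) (nat_lit 412) (nat_lit 262)) (XT.lf (nat_lit 0) (nat_lit 58740691236) (nat_lit 0) (nat_lit 0) (nat_lit 0) (nat_lit 0) (nat_lit 0) (nat_lit 0) (nat_lit 1) (nat_lit 0) (nat_lit 1) (nat_lit 0) (nat_lit 407) (nat_lit 412) (nat_lit 261)))) (XT.nd (nat_lit 188) (nat_lit 0) (nat_lit 0) (XT.nd (nat_lit 94) (nat_lit 0) (nat_lit 0) (XT.lf (nat_lit 0) (nat_lit 58740652187) (nat_lit 0) (nat_lit 0) (nat_lit 0) (nat_lit 0) (nat_lit 0) (nat_lit 0) (nat_lit 1) (nat_lit 0) (nat_lit 1) (nat_lit 0) (nat_lit 408) (nat_lit 412) (nat_lit 260)) (XT.lf (nat_lit 0) (nat_lit 58740616030) (nat_lit 0) (nat_lit 0) (nat_lit 0) (nat_lit 0) (nat_lit 0) (nat_lit 0) (nat_lit 1) (nat_lit 0) (nat_lit 1) (nat_lit 0) (nat_lit 409) (nat_lit 412) (nat_lit 259))) (XT.nd (nat_lit 94) (nat_lit 0) (nat_lit 0) (XT.lf (nat_lit 0) (nat_lit 58740582551) (nat_lit 0) (nat_lit 0) (nat_lit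 0) (nat_lit 0) (nat_lit 0) (nat_lit 0) (nat_lit 1) (nat_lit 0) (nat_lit 1) (nat_lit 0) (nat_lit 410) (nat_lit 412) (nat_lit 258)) (XT.nd (nat_lit 94) (nat_lit 0) (nat_lit 0) (XT.lf (nat_lit 0) (nat_lit 58740551553) (nat_lit 0) (nat_lit 0) (nat_lit 0) (nat_lit 0) (nat_lit 0) (nat_lit 0) (nat_lit 1) (nat_lit 0) (nat_lit 1) (nat_lit 0) (nat_lit 411) (nat_lit 412) (nat_lit 257)) (XT.lf (nat_lit 0) (nat_lit 58740522850) (nat_lit 0) (nat_lit 0) (nat_lit 0) (nat_lit 0) (nat_lit 0) (nat_lit 0) (nat_lit 1) (nat_lit 0) (nat_lit 1) (nat_lit 0) (nat_lit 412) (nat_lit 412) (nat_lit 256)))))) (XT.nd (nat_lit 470) (nat_lit 0) (nat_lit 0) (XT.nd (nat_lit 188) (nat_lit 0) (nat_lit 0) (XT.nd (nat_lit 94) (nat_lit 0) (nat_lit 0) (XT.lf (nat_lit 0) (nat_lit 58740496274) (nat_lit 0) (nat_lit 0) (nat_lit 0) (nat_lit 0) (nat_lit 0) (nat_lit 0) (nat_lit 1) (nat_lit 0) (nat_lit 1)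 (nat_lit 0) (nat_lit 413) (nat_lit 412) (nat_lit 255)) (XT.lf (nat_lit 0) (nat_lit 58740471666) (nat_lit 0) (nat_lit 0) (nat_lit 0) (nat_lit 0) (nat_lit 0) (nat_lit 0) (nat_lit 1) (nat_lit 0) (nat_lit 1) (nat_lit 0) (nat_lit 414) (nat_lit 412) (nat_lit 254))) (XT.nd (nat_lit 94) (nat_lit 0) (nat_lit 0) (XT.lf (nat_lit 0) (nat_lit 58740448881) (nat_lit 0) (nat_lit 0) (nat_lit 0) (nat_lit 0) (nat_lit 0) (nat_lit 0) (nat_lit 1) (nat_lit 0) (nat_lit 1) (nat_lit 0) (nat_lit 415) (nat_lit 412) (nat_lit 253)) (XT.nd (nat_lit 94) (nat_lit 0) (nat_lit 0) (XT.lf (nat_lit 0) (nat_lit 58740427784) (nat_lit 0) (nat_lit 0) (nat_lit 0) (nat_lit 0) (nat_lit 0) (nat_lit 0) (nat_lit 1) (nat_lit 0) (nat_lit 1) (nat_lit 0) (nat_lit 416) (nat_lit 412) (nat_lit 252)) (XT.lf (nat_lit 0) (nat_lit 58740408250) (nat_lit 0) (nat_lit 0) (nat_lit 0) (nat_lit 0) (nat_lit 0) (nat_lit 0)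 (nat_lit 1) (nat_lit 0) (nat_lit 1) (nat_lit 0) (nat_lit 417) (nat_lit 412) (nat_lit 251))))) (XT.nd (nat_lit 188) (nat_lit 0) (nat_lit 0) (XT.nd (nat_lit 94) (nat_lit 0) (nat_lit 0) (XT.lf (nat_lit 0) (nat_lit 58740390162) (nat_lit 0) (nat_lit 0) (nat_lit 0) (nat_lit 0) (nat_lit 0) (nat_lit 0) (nat_lit 1) (nat_lit 0) (nat_lit 1) (nat_lit 0) (nat_lit 418) (nat_lit 412) (nat_lit 250)) (XT.lf (nat_lit 0) (nat_lit 58740373415) (nat_lit 0) (nat_lit 0) (nat_lit 0) (nat_lit 0) (nat_lit 0) (nat_lit 0) (nat_lit 1) (nat_lit 0) (nat_lit 1) (nat_lit 0) (nat_lit 419) (nat_lit 412) (nat_lit 249))) (XT.nd (nat_lit 94) (nat_lit 0) (nat_lit 0) (XT.lf (nat_lit 0) (nat_lit 58740357908) (nat_lit 0) (nat_lit 0) (nat_lit 0) (nat_lit 0) (nat_lit 0) (nat_lit 0) (nat_lit 1) (nat_lit 0) (nat_lit 1) (nat_lit 0) (nat_lit 420) (nat_lit 412) (nat_lit 248)) (XT.nd (nat_lit 94) (nat_lit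 0) (nat_lit 0) (XT.lf (nat_lit 0) (nat_lit 58740343549) (nat_lit 0) (nat_lit 0) (nat_lit 0) (nat_lit 0) (nat_lit 0) (nat_lit 0) (nat_lit 1) (nat_lit 0) (nat_lit 1) (nat_lit 0) (nat_lit 421) (nat_lit 412) (nat_lit 247)) (XT.lf (nat_lit 0) (nat_lit 58740330254) (nat_lit 0) (nat_lit 0) (nat_lit 0) (nat_lit 0) (nat_lit 0) (nat_lit 0) (nat_lit 1) (nat_lit 0) (nat_lit 1) (nat_lit 0) (nat_lit 422) (nat_lit 412) (nat_lit 246))))))) (XT.nd (nat_lit 846) (nat_lit 0) (nat_lit 0) (XT.nd (nat_lit 376) (nat_lit 0) (nat_lit 0) (XT.nd (nat_lit 188) (nat_lit 0) (nat_lit 0) (XT.nd (nat_lit 94) (nat_lit 0) (nat_lit 0) (XT.lf (nat_lit 0) (nat_lit 58740317944) (nat_lit 0) (nat_lit 0) (nat_lit 0) (nat_lit 0) (nat_lit 0) (nat_lit 0) (nat_lit 1) (nat_lit 0) (nat_lit 1) (nat_lit 0) (nat_lit 423) (nat_lit 412) (nat_lit 245)) (XT.lf (nat_lit 0) (nat_lit 58740306546) (nat_lit 0) (nat_lit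 0) (nat_lit 0) (nat_lit 0) (nat_lit 0) (nat_lit 0) (nat_lit 1) (nat_lit 0) (nat_lit 1) (nat_lit 0) (nat_lit 424) (nat_lit 412) (nat_lit 244))) (XT.nd (nat_lit 94) (nat_lit 0) (nat_lit 0) (XT.lf (nat_lit 0) (nat_lit 58740295992) (nat_lit 0) (nat_lit 0) (nat_lit 0) (nat_lit 0) (nat_lit 0) (nat_lit 0) (nat_lit 1) (nat_lit 0) (nat_lit 1) (nat_lit 0) (nat_lit 425) (nat_lit 412) (nat_lit 243)) (XT.lf (nat_lit 0) (nat_lit 58740286220) (nat_lit 0) (nat_lit 0) (nat_lit 0) (nat_lit 0) (nat_lit 0) (nat_lit 0) (nat_lit 1) (nat_lit 0) (nat_lit 1) (nat_lit 0) (nat_lit 426) (nat_lit 412) (nat_lit 242)))) (XT.nd (nat_lit 188) (nat_lit 0) (nat_lit 0) (XT.nd (nat_lit 94) (nat_lit 0) (nat_lit 0) (XT.lf (nat_lit 0) (nat_lit 58740277172) (nat_lit 0) (nat_lit 0) (nat_lit 0) (nat_lit 0) (nat_lit 0) (nat_lit 0) (nat_lit 1) (nat_lit 0) (nat_lit 1) (nat_lit 0) (nat_lit 427) (nat_lit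 412) (nat_lit 241)) (XT.lf (nat_lit 0) (nat_lit 58740268794) (nat_lit 0) (nat_lit 0) (nat_lit 0) (nat_lit 0) (nat_lit 0) (nat_lit 0) (nat_lit 1) (nat_lit 0) (nat_lit 1) (nat_lit 0) (nat_lit 428) (nat_lit 412) (nat_lit 240))) (XT.nd (nat_lit 94) (nat_lit 0) (nat_lit 0) (XT.lf (nat_lit 0) (nat_lit 58740261037) (nat_lit 0) (nat_lit 0) (nat_lit 0) (nat_lit 0) (nat_lit 0) (nat_lit 0) (nat_lit 1) (nat_lit 0) (nat_lit 1) (nat_lit 0) (nat_lit 429) (nat_lit 412) (nat_lit 239)) (XT.nd (nat_lit 94) (nat_lit 0) (nat_lit 0) (XT.lf (nat_lit 0) (nat_lit 58740253854) (nat_lit 0) (nat_lit 0) (nat_lit 0) (nat_lit 0) (nat_lit 0) (nat_lit 0) (nat_lit 1) (nat_lit 0) (nat_lit 1) (nat_lit 0) (nat_lit 430) (nat_lit 412) (nat_lit 238)) (XT.lf (nat_lit 0) (nat_lit 58740247203) (nat_lit 0) (nat_lit 0) (nat_lit 0) (nat_lit 0) (nat_lit 0) (nat_lit 0) (nat_lit 1) (nat_lit 0) (nat_lit 1)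 (nat_lit 0) (nat_lit 431) (nat_lit 412) (nat_lit 237)))))) (XT.nd (nat_lit 470) (nat_lit 0) (nat_lit 0) (XT.nd (nat_lit 188) (nat_lit 0) (nat_lit 0) (XT.nd (nat_lit 94) (nat_lit 0) (nat_lit 0) (XT.lf (nat_lit 0) (nat_lit 58740241045) (nat_lit 0) (nat_lit 0) (nat_lit 0) (nat_lit 0) (nat_lit 0) (nat_lit 0) (nat_lit 1) (nat_lit 0) (nat_lit 1) (nat_lit 0) (nat_lit 432) (nat_lit 412) (nat_lit 236)) (XT.lf (nat_lit 0) (nat_lit 58740235343) (nat_lit 0) (nat_lit 0) (nat_lit 0) (nat_lit 0) (nat_lit 0) (nat_lit 0) (nat_lit 1) (nat_lit 0) (nat_lit 1) (nat_lit 0) (nat_lit 433) (nat_lit 412) (nat_lit 235))) (XT.nd (nat_lit 94) (nat_lit 0) (nat_lit 0) (XT.lf (nat_lit 0) (nat_lit 58740230064) (nat_lit 0) (nat_lit 0) (nat_lit 0) (nat_lit 0) (nat_lit 0) (nat_lit 0) (nat_lit 1) (nat_lit 0) (nat_lit 1) (nat_lit 0) (nat_lit 434) (nat_lit 412) (nat_lit 234)) (XT.nd (nat_lit 94)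 (nat_lit 0) (nat_lit 0) (XT.lf (nat_lit 0) (nat_lit 58740225175) (nat_lit 0) (nat_lit 0) (nat_lit 0) (nat_lit 0) (nat_lit 0) (nat_lit 0) (nat_lit 1) (nat_lit 0) (nat_lit 1) (nat_lit 0) (nat_lit 435) (nat_lit 412) (nat_lit 233)) (XT.lf (nat_lit 0) (nat_lit 58740220649) (nat_lit 0) (nat_lit 0) (nat_lit 0) (nat_lit 0) (nat_lit 0) (nat_lit 0) (nat_lit 1) (nat_lit 0) (nat_lit 1) (nat_lit 0) (nat_lit 436) (nat_lit 412) (nat_lit 232))))) (XT.nd (nat_lit 188) (nat_lit 0) (nat_lit 0) (XT.nd (nat_lit 94) (nat_lit 0) (nat_lit 0) (XT.lf (nat_lit 0) (nat_lit 58740216458) (nat_lit 0) (nat_lit 0) (nat_lit 0) (nat_lit 0) (nat_lit 0) (nat_lit 0) (nat_lit 1) (nat_lit 0) (nat_lit 1) (nat_lit 0) (nat_lit 437) (nat_lit 412) (nat_lit 231)) (XT.lf (nat_lit 0) (nat_lit 58740212577) (nat_lit 0) (nat_lit 0) (nat_lit 0) (nat_lit 0) (nat_lit 0) (nat_lit 0) (nat_lit 1) (nat_lit 0) (nat_lit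 1) (nat_lit 0) (nat_lit 438) (nat_lit 412) (nat_lit 230))) (XT.nd (nat_lit 94) (nat_lit 0) (nat_lit 0) (XT.lf (nat_lit 0) (nat_lit 58740208984) (nat_lit 0) (nat_lit 0) (nat_lit 0) (nat_lit 0) (nat_lit 0) (nat_lit 0) (nat_lit 1) (nat_lit 0) (nat_lit 1) (nat_lit 0) (nat_lit 439) (nat_lit 412) (nat_lit 229)) (XT.nd (nat_lit 94) (nat_lit 0) (nat_lit 0) (XT.lf (nat_lit 0) (nat_lit 58740205657) (nat_lit 0) (nat_lit 0) (nat_lit 0) (nat_lit 0) (nat_lit 0) (nat_lit 0) (nat_lit 1) (nat_lit 0) (nat_lit 1) (nat_lit 0) (nat_lit 440) (nat_lit 412) (nat_lit 228)) (XT.lf (nat_lit 0) (nat_lit 58740202576) (nat_lit 0) (nat_lit 0) (nat_lit 0) (nat_lit 0) (nat_lit 0) (nat_lit 0) (nat_lit 1) (nat_lit 0) (nat_lit 1) (nat_lit 0) (nat_lit 441) (nat_lit 412) (nat_lit 227))))))))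
noncomputable def ec210 : XT := (XT.nd (nat_lit 1692) (nat_lit 3864) (nat_lit 0) (XT.nd (nat_lit 846) (nat_lit 2940) (nat_lit 0) (XT.nd (nat_lit 376) (nat_lit 1008) (nat_lit 0) (XT.nd (nat_lit 188) (nat_lit 0) (nat_lit 84) (XT.nd (nat_lit 94) (nat_lit 0) (nat_lit 84) (XT.lf (nat_lit 924) (nat_lit 31747440635) (nat_lit 0) (nat_lit 56367507873) (nat_lit 924) (nat_lit 31747440635) (nat_lit 139) (nat_lit 1) (nat_lit 128) (nat_lit 0) (nat_lit 139) (nat_lit 0) (nat_lit 254) (nat_lit 413) (nat_lit 413)) (XT.lf (nat_lit 924) (nat_lit 11842769499) (nat_lit 0) (nat_lit 110666501610) (nat_lit 840) (nat_lit 108231468846) (nat_lit 140) (nat_lit 1) (nat_lit 129) (nat_lit 1) (nat_lit 139) (nat_lit 1) (nat_lit 255) (nat_lit 413) (nat_lit 412))) (XT.nd (nat_lit 94) (nat_lit 0) (nat_lit 84) (XT.lf (nat_lit 924) (nat_lit 108769002110) (nat_lit 84) (nat_lit 74113393431) (nat_lit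 0) (nat_lit 39306363112) (nat_lit 140) (nat_lit 1) (nat_lit 130) (nat_lit 1) (nat_lit 129) (nat_lit 1) (nat_lit 256) (nat_lit 413) (nat_lit 411)) (XT.lf (nat_lit 924) (nat_lit 93985328308) (nat_lit 84) (nat_lit 31060409481) (nat_lit 0) (nat_lit 89019002397) (nat_lit 141) (nat_lit 1) (nat_lit 131) (nat_lit 1) (nat_lit 130) (nat_lit 1) (nat_lit 257) (nat_lit 413) (nat_lit 410)))) (XT.nd (nat_lit 188) (nat_lit 1260) (nat_lit 0) (XT.nd (nat_lit 94) (nat_lit 0) (nat_lit 84) (XT.lf (nat_lit 924) (nat_lit 69557133303) (nat_lit 0) (nat_lit 130138108587) (nat_lit 840) (nat_lit 6652641518) (nat_lit 142) (nat_lit 1) (nat_lit 131) (nat_lit 1) (nat_lit 141) (nat_lit 1) (nat_lit 258) (nat_lit 413) (nat_lit 409)) (XT.lf (nat_lit 924) (nat_lit 16689552147) (nat_lit 0) (nat_lit 143513418486) (nat_lit 840) (nat_lit 38796589924) (nat_lit 143) (nat_lit 1) (nat_lit 132) (nat_lit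 1) (nat_lit 142) (nat_lit 1) (nat_lit 259) (nat_lit 413) (nat_lit 408))) (XT.nd (nat_lit 94) (nat_lit 1344) (nat_lit 0) (XT.lf (nat_lit 924) (nat_lit 32070531011) (nat_lit 84) (nat_lit 124724847463) (nat_lit 0) (nat_lit 35198890766) (nat_lit 143) (nat_lit 1) (nat_lit 133) (nat_lit 1) (nat_lit 132) (nat_lit 1) (nat_lit 260) (nat_lit 413) (nat_lit 407)) (XT.nd (nat_lit 94) (nat_lit 588) (nat_lit 0) (XT.lf (nat_lit 924) (nat_lit 6586555763) (nat_lit 0) (nat_lit 93240073710) (nat_lit 840) (nat_lit 85500170638) (nat_lit 134) (nat_lit 1) (nat_lit 123) (nat_lit 1) (nat_lit 133) (nat_lit 1) (nat_lit 261) (nat_lit 413) (nat_lit 406)) (XT.lf (nat_lit 84) (nat_lit 45606684141) (nat_lit 0) (nat_lit 19763498601) (nat_lit 588) (nat_lit 113604846466) (nat_lit 117) (nat_lit 1) (nat_lit 116) (nat_lit 1) (nat_lit 123) (nat_lit 1) (nat_lit 262) (nat_lit 413) (nat_lit 405))))))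 (XT.nd (nat_lit 376) (nat_lit 1764) (nat_lit 0) (XT.nd (nat_lit 188) (nat_lit 336) (nat_lit 0) (XT.nd (nat_lit 94) (nat_lit 420) (nat_lit 0) (XT.lf (nat_lit 504) (nat_lit 125686281124) (nat_lit 0) (nat_lit 40913594083) (nat_lit 420) (nat_lit 6325494446) (nat_lit 117) (nat_lit 1) (nat_lit 111) (nat_lit 1) (nat_lit 116) (nat_lit 1) (nat_lit 263) (nat_lit 413) (nat_lit 404)) (XT.lf (nat_lit 504) (nat_lit 90696417335) (nat_lit 0) (nat_lit 19070002443) (nat_lit 420) (nat_lit 57369414866) (nat_lit 112) (nat_lit 1) (nat_lit 106) (nat_lit 1) (nat_lit 111) (nat_lit 1) (nat_lit 264) (nat_lit 413) (nat_lit 403))) (XT.nd (nat_lit 94) (nat_lit 0) (nat_lit 0) (XT.lf (nat_lit 420) (nat_lit 55187613211) (nat_lit 0) (nat_lit 351109735) (nat_lit 336) (nat_lit 106088298651) (nat_lit 107) (nat_lit 1) (nat_lit 102) (nat_lit 1) (nat_lit 106) (nat_lit 1) (nat_lit 265) (nat_lit 413)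 (nat_lit 402)) (XT.lf (nat_lit 84) (nat_lit 4071481286) (nat_lit 0) (nat_lit 137310077693) (nat_lit 420) (nat_lit 14990064809) (nat_lit 103) (nat_lit 1) (nat_lit 102) (nat_lit 1) (nat_lit 107) (nat_lit 1) (nat_lit 266) (nat_lit 413) (nat_lit 401)))) (XT.nd (nat_lit 188) (nat_lit 1008) (nat_lit 0) (XT.nd (nat_lit 94) (nat_lit 336) (nat_lit 0) (XT.lf (nat_lit 84) (nat_lit 105126702845) (nat_lit 0) (nat_lit 17436388515) (nat_lit 420) (nat_lit 28755771350) (nat_lit 98) (nat_lit 1) (nat_lit 97) (nat_lit 1) (nat_lit 102) (nat_lit 1) (nat_lit 267) (nat_lit 413) (nat_lit 400)) (XT.lf (nat_lit 84) (nat_lit 52597553412) (nat_lit 0) (nat_lit 53410753265) (nat_lit 420) (nat_lit 40481051702) (nat_lit 94) (nat_lit 1) (nat_lit 93) (nat_lit 1) (nat_lit 98) (nat_lit 1) (nat_lit 268) (nat_lit 413) (nat_lit 399))) (XT.nd (nat_lit 94) (nat_lit 672) (nat_lit 0) (XT.lf (nat_lit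 84) (nat_lit 2596098603) (nat_lit 0) (nat_lit 89301950108) (nat_lit 420) (nat_lit 49990466406) (nat_lit 90) (nat_lit 1) (nat_lit 89) (nat_lit 1) (nat_lit 94) (nat_lit 1) (nat_lit 269) (nat_lit 413) (nat_lit 398)) (XT.nd (nat_lit 94) (nat_lit 420) (nat_lit 0) (XT.lf (nat_lit 336) (nat_lit 11723834977) (nat_lit 0) (nat_lit 79282684112) (nat_lit 252) (nat_lit 46461475004) (nat_lit 90) (nat_lit 1) (nat_lit 86) (nat_lit 1) (nat_lit 89) (nat_lit 1) (nat_lit 270) (nat_lit 413) (nat_lit 397)) (XT.lf (nat_lit 84) (nat_lit 40509001914) (nat_lit 0) (nat_lit 27765121624) (nat_lit 420) (nat_lit 64955969269) (nat_lit 82) (nat_lit 1) (nat_lit 81) (nat_lit 1) (nat_lit 86) (nat_lit 1) (nat_lit 271) (nat_lit 413) (nat_lit 396))))))) (XT.nd (nat_lit 846) (nat_lit 1680) (nat_lit 0) (XT.nd (nat_lit 376) (nat_lit 1092) (nat_lit 0) (XT.nd (nat_lit 188) (nat_lit 588) (nat_lit 0)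 (XT.nd (nat_lit 94) (nat_lit 252) (nat_lit 0) (XT.lf (nat_lit 336) (nat_lit 62717678641) (nat_lit 0) (nat_lit 58915153014) (nat_lit 252) (nat_lit 7541069663) (nat_lit 82) (nat_lit 1) (nat_lit 78) (nat_lit 1) (nat_lit 81) (nat_lit 1) (nat_lit 272) (nat_lit 413) (nat_lit 395)) (XT.lf (nat_lit 336) (nat_lit 20100713011) (nat_lit 0) (nat_lit 50723534194) (nat_lit 252) (nat_lit 54449343199) (nat_lit 79) (nat_lit 1) (nat_lit 75) (nat_lit 1) (nat_lit 78) (nat_lit 1) (nat_lit 273) (nat_lit 413) (nat_lit 394))) (XT.nd (nat_lit 94) (nat_lit 252) (nat_lit 0) (XT.lf (nat_lit 84) (nat_lit 22909955853) (nat_lit 0) (nat_lit 20976055503) (nat_lit 336) (nat_lit 77649255388) (nat_lit 72) (nat_lit 1) (nat_lit 71) (nat_lit 1) (nat_lit 75) (nat_lit 1) (nat_lit 274) (nat_lit 413) (nat_lit 393)) (XT.lf (nat_lit 336) (nat_lit 57008418217) (nat_lit 0) (nat_lit 37931288913) (nat_lit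 252) (nat_lit 22994072051) (nat_lit 72) (nat_lit 1) (nat_lit 68) (nat_lit 1) (nat_lit 71) (nat_lit 1) (nat_lit 275) (nat_lit 413) (nat_lit 392)))) (XT.nd (nat_lit 188) (nat_lit 588) (nat_lit 0) (XT.nd (nat_lit 94) (nat_lit 336) (nat_lit 0) (XT.lf (nat_lit 252) (nat_lit 14132471052) (nat_lit 0) (nat_lit 33092282861) (nat_lit 168) (nat_lit 67252831760) (nat_lit 69) (nat_lit 1) (nat_lit 66) (nat_lit 1) (nat_lit 68) (nat_lit 1) (nat_lit 276) (nat_lit 413) (nat_lit 391)) (XT.lf (nat_lit 84) (nat_lit 2394130885) (nat_lit 0) (nat_lit 26790844349) (nat_lit 336) (nat_lit 81970388097) (nat_lit 63) (nat_lit 1) (nat_lit 62) (nat_lit 1) (nat_lit 66) (nat_lit 1) (nat_lit 277) (nat_lit 413) (nat_lit 390))) (XT.nd (nat_lit 94) (nat_lit 420) (nat_lit 0) (XT.lf (nat_lit 252) (nat_lit 41066367753) (nat_lit 0) (nat_lit 25662956769) (nat_lit 168) (nat_lit 41209279126) (nat_lit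 63) (nat_lit 1) (nat_lit 60) (nat_lit 1) (nat_lit 62) (nat_lit 1) (nat_lit 278) (nat_lit 413) (nat_lit 389)) (XT.nd (nat_lit 94) (nat_lit 168) (nat_lit 0) (XT.lf (nat_lit 84) (nat_lit 22280894969) (nat_lit 0) (nat_lit 1029168507) (nat_lit 252) (nat_lit 81552148799) (nat_lit 58) (nat_lit 1) (nat_lit 57) (nat_lit 1) (nat_lit 60) (nat_lit 1) (nat_lit 279) (nat_lit 413) (nat_lit 388)) (XT.lf (nat_lit 252) (nat_lit 60911664302) (nat_lit 0) (nat_lit 21107257434) (nat_lit 168) (nat_lit 19856389200) (nat_lit 58) (nat_lit 1) (nat_lit 55) (nat_lit 1) (nat_lit 57) (nat_lit 1) (nat_lit 280) (nat_lit 413) (nat_lit 387)))))) (XT.nd (nat_lit 470) (nat_lit 756) (nat_lit 0) (XT.nd (nat_lit 188) (nat_lit 504) (nat_lit 0) (XT.nd (nat_lit 94) (nat_lit 252) (nat_lit 0) (XT.lf (nat_lit 252) (nat_lit 18921603833) (nat_lit 0) (nat_lit 19621529861) (nat_lit 168) (nat_lit 60459478215)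 (nat_lit 56) (nat_lit 1) (nat_lit 53) (nat_lit 1) (nat_lit 55) (nat_lit 1) (nat_lit 281) (nat_lit 413) (nat_lit 386)) (XT.lf (nat_lit 252) (nat_lit 75111813332) (nat_lit 0) (nat_lit 18746779200) (nat_lit 168) (nat_lit 2378246435) (nat_lit 53) (nat_lit 1) (nat_lit 50) (nat_lit 1) (nat_lit 52) (nat_lit 1) (nat_lit 282) (nat_lit 413) (nat_lit 385))) (XT.nd (nat_lit 94) (nat_lit 336) (nat_lit 0) (XT.lf (nat_lit 252) (nat_lit 33616566509) (nat_lit 0) (nat_lit 17896853720) (nat_lit 168) (nat_lit 42034497896) (nat_lit 51) (nat_lit 1) (nat_lit 48) (nat_lit 1) (nat_lit 50) (nat_lit 1) (nat_lit 283) (nat_lit 413) (nat_lit 384)) (XT.nd (nat_lit 94) (nat_lit 168) (nat_lit 0) (XT.lf (nat_lit 84) (nat_lit 11514971928) (nat_lit 0) (nat_lit 6329147452) (nat_lit 168) (nat_lit 73126407392) (nat_lit 47) (nat_lit 1) (nat_lit 46) (nat_lit 1) (nat_lit 48) (nat_lit 1) (nat_lit 284)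 (nat_lit 413) (nat_lit 383)) (XT.lf (nat_lit 252) (nat_lit 44106868572) (nat_lit 0) (nat_lit 17655170019) (nat_lit 168) (nat_lit 26696134847) (nat_lit 47) (nat_lit 1) (nat_lit 44) (nat_lit 1) (nat_lit 46) (nat_lit 1) (nat_lit 285) (nat_lit 413) (nat_lit 382))))) (XT.nd (nat_lit 188) (nat_lit 420) (nat_lit 0) (XT.nd (nat_lit 94) (nat_lit 252) (nat_lit 0) (XT.lf (nat_lit 168) (nat_lit 4749682994) (nat_lit 0) (nat_lit 18088803810) (nat_lit 84) (nat_lit 63206517778) (nat_lit 45) (nat_lit 1) (nat_lit 43) (nat_lit 1) (nat_lit 44) (nat_lit 1) (nat_lit 286) (nat_lit 413) (nat_lit 381)) (XT.lf (nat_lit 252) (nat_lit 51271074365) (nat_lit 0) (nat_lit 18500019238) (nat_lit 168) (nat_lit 13927280638) (nat_lit 43) (nat_lit 1) (nat_lit 40) (nat_lit 1) (nat_lit 42) (nat_lit 1) (nat_lit 287) (nat_lit 413) (nat_lit 380))) (XT.nd (nat_lit 94) (nat_lit 336) (nat_lit 0) (XT.lf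 (nat_lit 168) (nat_lit 12895053274) (nat_lit 0) (nat_lit 19191753599) (nat_lit 84) (nat_lit 49344023184) (nat_lit 41) (nat_lit 1) (nat_lit 39) (nat_lit 1) (nat_lit 40) (nat_lit 1) (nat_lit 288) (nat_lit 413) (nat_lit 379)) (XT.nd (nat_lit 94) (nat_lit 84) (nat_lit 0) (XT.lf (nat_lit 252) (nat_lit 55819514381) (nat_lit 0) (nat_lit 20117377554) (nat_lit 168) (nat_lit 3301433870) (nat_lit 39) (nat_lit 1) (nat_lit 36) (nat_lit 1) (nat_lit 38) (nat_lit 1) (nat_lit 289) (nat_lit 413) (nat_lit 378)) (XT.lf (nat_lit 168) (nat_lit 18557750760) (nat_lit 0) (nat_lit 20972607835) (nat_lit 84) (nat_lit 37574238144) (nat_lit 37) (nat_lit 1) (nat_lit 35) (nat_lit 1) (nat_lit 36) (nat_lit 1) (nat_lit 290) (nat_lit 413) (nat_lit 377))))))))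
noncomputable def ec211 : XT := (XT.nd (nat_lit 1786) (nat_lit 336) (nat_lit 0) (XT.nd (nat_lit 846) (nat_lit 1260) (nat_lit 0) (XT.nd (nat_lit 376) (nat_lit 672) (nat_lit 0) (XT.nd (nat_lit 188) (nat_lit 336) (nat_lit 0) (XT.nd (nat_lit 94) (nat_lit 84) (nat_lit 0) (XT.lf (nat_lit 84) (nat_lit 5356505399) (nat_lit 0) (nat_lit 16812642613) (nat_lit 252) (nat_lit 52878374021) (nat_lit 33) (nat_lit 1) (nat_lit 32) (nat_lit 1) (nat_lit 35) (nat_lit 1) (nat_lit 291) (nat_lit 413) (nat_lit 376)) (XT.lf (nat_lit 168) (nat_lit 22270975243) (nat_lit 0) (nat_lit 23205300583) (nat_lit 84) (nat_lit 27565257685) (nat_lit 33) (nat_lit 1) (nat_lit 31) (nat_lit 1) (nat_lit 32) (nat_lit 1) (nat_lit 292) (nat_lit 413) (nat_lit 375))) (XT.nd (nat_lit 94) (nat_lit 84) (nat_lit 0) (XT.lf (nat_lit 84) (nat_lit 12457237063) (nat_lit 0) (nat_lit 12065676451) (nat_lit 252) (nat_lit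 46583126827) (nat_lit 29) (nat_lit 1) (nat_lit 28) (nat_lit 1) (nat_lit 31) (nat_lit 1) (nat_lit 293) (nat_lit 413) (nat_lit 374)) (XT.lf (nat_lit 168) (nat_lit 24464716277) (nat_lit 0) (nat_lit 25713361868) (nat_lit 84) (nat_lit 19041920141) (nat_lit 29) (nat_lit 1) (nat_lit 27) (nat_lit 1) (nat_lit 28) (nat_lit 1) (nat_lit 294) (nat_lit 413) (nat_lit 373)))) (XT.nd (nat_lit 188) (nat_lit 420) (nat_lit 0) (XT.nd (nat_lit 94) (nat_lit 84) (nat_lit 0) (XT.lf (nat_lit 84) (nat_lit 18339933569) (nat_lit 0) (nat_lit 8738650191) (nat_lit 168) (nat_lit 40317659745) (nat_lit 26) (nat_lit 1) (nat_lit 25) (nat_lit 1) (nat_lit 27) (nat_lit 1) (nat_lit 295) (nat_lit 413) (nat_lit 372)) (XT.lf (nat_lit 168) (nat_lit 25485038719) (nat_lit 0) (nat_lit 28360251634) (nat_lit 84) (nat_lit 11775685314) (nat_lit 26) (nat_lit 1) (nat_lit 24) (nat_lit 1) (nat_lit 25) (nat_lit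 1) (nat_lit 296) (nat_lit 413) (nat_lit 371))) (XT.nd (nat_lit 94) (nat_lit 252) (nat_lit 0) (XT.lf (nat_lit 84) (nat_lit 23198310749) (nat_lit 0) (nat_lit 6519146988) (nat_lit 168) (nat_lit 34182855472) (nat_lit 23) (nat_lit 1) (nat_lit 22) (nat_lit 1) (nat_lit 24) (nat_lit 1) (nat_lit 297) (nat_lit 413) (nat_lit 370)) (XT.nd (nat_lit 94) (nat_lit 168) (nat_lit 0) (XT.lf (nat_lit 168) (nat_lit 25609808038) (nat_lit 0) (nat_lit 31041504075) (nat_lit 84) (nat_lit 5576351028) (nat_lit 23) (nat_lit 1) (nat_lit 21) (nat_lit 1) (nat_lit 22) (nat_lit 1) (nat_lit 298) (nat_lit 413) (nat_lit 369)) (XT.lf (nat_lit 84) (nat_lit 27193368075) (nat_lit 0) (nat_lit 5155954655) (nat_lit 168) (nat_lit 28253131482) (nat_lit 20) (nat_lit 1) (nat_lit 19) (nat_lit 1) (nat_lit 21) (nat_lit 1) (nat_lit 299) (nat_lit 413) (nat_lit 368)))))) (XT.nd (nat_lit 470) (nat_lit 672) (nat_lit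 0) (XT.nd (nat_lit 188) (nat_lit 336) (nat_lit 0) (XT.nd (nat_lit 94) (nat_lit 168) (nat_lit 0) (XT.lf (nat_lit 168) (nat_lit 25061509941) (nat_lit 0) (nat_lit 33678347853) (nat_lit 84) (nat_lit 285271933) (nat_lit 20) (nat_lit 1) (nat_lit 18) (nat_lit 1) (nat_lit 19) (nat_lit 1) (nat_lit 300) (nat_lit 413) (nat_lit 367)) (XT.lf (nat_lit 84) (nat_lit 30459179774) (nat_lit 0) (nat_lit 4447573393) (nat_lit 168) (nat_lit 22581833192) (nat_lit 17) (nat_lit 1) (nat_lit 16) (nat_lit 1) (nat_lit 18) (nat_lit 1) (nat_lit 301) (nat_lit 413) (nat_lit 366))) (XT.nd (nat_lit 94) (nat_lit 252) (nat_lit 0) (XT.lf (nat_lit 0) (nat_lit 4094801378) (nat_lit 0) (nat_lit 32048380434) (nat_lit 168) (nat_lit 19853549879) (nat_lit 15) (nat_lit 3) (nat_lit 15) (nat_lit 1) (nat_lit 17) (nat_lit 1) (nat_lit 302) (nat_lit 413) (nat_lit 365)) (XT.nd (nat_lit 94) (nat_lit 84) (nat_lit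 0) (XT.lf (nat_lit 84) (nat_lit 33107637670) (nat_lit 0) (nat_lit 4232848917) (nat_lit 168) (nat_lit 17205603290) (nat_lit 14) (nat_lit 1) (nat_lit 13) (nat_lit 1) (nat_lit 15) (nat_lit 1) (nat_lit 303) (nat_lit 413) (nat_lit 364)) (XT.lf (nat_lit 0) (nat_lit 7822585521) (nat_lit 0) (nat_lit 30647050751) (nat_lit 168) (nat_lit 14664445652) (nat_lit 12) (nat_lit 3) (nat_lit 12) (nat_lit 1) (nat_lit 14) (nat_lit 1) (nat_lit 304) (nat_lit 413) (nat_lit 363))))) (XT.nd (nat_lit 188) (nat_lit 420) (nat_lit 0) (XT.nd (nat_lit 94) (nat_lit 84) (nat_lit 0) (XT.lf (nat_lit 84) (nat_lit 35232337188) (nat_lit 0) (nat_lit 4383339950) (nat_lit 168) (nat_lit 12147917203) (nat_lit 11) (nat_lit 1) (nat_lit 10) (nat_lit 1) (nat_lit 12) (nat_lit 1) (nat_lit 305) (nat_lit 413) (nat_lit 362)) (XT.lf (nat_lit 0) (nat_lit 10997684675) (nat_lit 0) (nat_lit 29634160956) (nat_lit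 168) (nat_lit 9794661754) (nat_lit 9) (nat_lit 3) (nat_lit 9) (nat_lit 1) (nat_lit 11) (nat_lit 1) (nat_lit 306) (nat_lit 413) (nat_lit 361))) (XT.nd (nat_lit 94) (nat_lit 252) (nat_lit 0) (XT.lf (nat_lit 84) (nat_lit 36911762876) (nat_lit 0) (nat_lit 4797100909) (nat_lit 168) (nat_lit 7421939691) (nat_lit 8) (nat_lit 1) (nat_lit 7) (nat_lit 1) (nat_lit 9) (nat_lit 1) (nat_lit 307) (nat_lit 413) (nat_lit 360)) (XT.nd (nat_lit 94) (nat_lit 168) (nat_lit 0) (XT.lf (nat_lit 0) (nat_lit 13696377316) (nat_lit 0) (nat_lit 28913305496) (nat_lit 168) (nat_lit 5254442721) (nat_lit 6) (nat_lit 3) (nat_lit 6) (nat_lit 1) (nat_lit 8) (nat_lit 1) (nat_lit 308) (nat_lit 413) (nat_lit 359)) (XT.lf (nat_lit 84) (nat_lit 38211901173) (nat_lit 0) (nat_lit 5393619186) (nat_lit 168) (nat_lit 3032828982) (nat_lit 5) (nat_lit 1) (nat_lit 4) (nat_lit 1) (nat_lit 6) (nat_lit 1) (nat_lit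 309) (nat_lit 413) (nat_lit 358))))))) (XT.nd (nat_lit 846) (nat_lit 0) (nat_lit 0) (XT.nd (nat_lit 376) (nat_lit 0) (nat_lit 0) (XT.nd (nat_lit 188) (nat_lit 0) (nat_lit 0) (XT.nd (nat_lit 94) (nat_lit 252) (nat_lit 0) (XT.lf (nat_lit 0) (nat_lit 15983176843) (nat_lit 0) (nat_lit 28407998990) (nat_lit 168) (nat_lit 1046755229) (nat_lit 3) (nat_lit 3) (nat_lit 3) (nat_lit 1) (nat_lit 5) (nat_lit 1) (nat_lit 310) (nat_lit 413) (nat_lit 357)) (XT.lf (nat_lit 0) (nat_lit 64228609490) (nat_lit 0) (nat_lit 0) (nat_lit 0) (nat_lit 0) (nat_lit 0) (nat_lit 0) (nat_lit 1) (nat_lit 0) (nat_lit 1) (nat_lit 0) (nat_lit 311) (nat_lit 413) (nat_lit 356))) (XT.nd (nat_lit 94) (nat_lit 0) (nat_lit 0) (XT.lf (nat_lit 0) (nat_lit 64170147838) (nat_lit 0) (nat_lit 0) (nat_lit 0) (nat_lit 0) (nat_lit 0) (nat_lit 0) (nat_lit 1) (nat_lit 0) (nat_lit 1) (nat_lit 0) (nat_lit 312)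 (nat_lit 413) (nat_lit 355)) (XT.lf (nat_lit 0) (nat_lit 64116016680) (nat_lit 0) (nat_lit 0) (nat_lit 0) (nat_lit 0) (nat_lit 0) (nat_lit 0) (nat_lit 1) (nat_lit 0) (nat_lit 1) (nat_lit 0) (nat_lit 313) (nat_lit 413) (nat_lit 354)))) (XT.nd (nat_lit 188) (nat_lit 0) (nat_lit 0) (XT.nd (nat_lit 94) (nat_lit 0) (nat_lit 0) (XT.lf (nat_lit 0) (nat_lit 64065895236) (nat_lit 0) (nat_lit 0) (nat_lit 0) (nat_lit 0) (nat_lit 0) (nat_lit 0) (nat_lit 1) (nat_lit 0) (nat_lit 1) (nat_lit 0) (nat_lit 314) (nat_lit 413) (nat_lit 353)) (XT.lf (nat_lit 0) (nat_lit 64019486492) (nat_lit 0) (nat_lit 0) (nat_lit 0) (nat_lit 0) (nat_lit 0) (nat_lit 0) (nat_lit 1) (nat_lit 0) (nat_lit 1) (nat_lit 0) (nat_lit 315) (nat_lit 413) (nat_lit 352))) (XT.nd (nat_lit 94) (nat_lit 0) (nat_lit 0) (XT.lf (nat_lit 0) (nat_lit 63976515433) (nat_lit 0) (nat_lit 0) (nat_lit 0) (nat_lit 0) (nat_lit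 0) (nat_lit 0) (nat_lit 1) (nat_lit 0) (nat_lit 1) (nat_lit 0) (nat_lit 316) (nat_lit 413) (nat_lit 351)) (XT.nd (nat_lit 94) (nat_lit 0) (nat_lit 0) (XT.lf (nat_lit 0) (nat_lit 63936727416) (nat_lit 0) (nat_lit 0) (nat_lit 0) (nat_lit 0) (nat_lit 0) (nat_lit 0) (nat_lit 1) (nat_lit 0) (nat_lit 1) (nat_lit 0) (nat_lit 317) (nat_lit 413) (nat_lit 350)) (XT.lf (nat_lit 0) (nat_lit 63899886659) (nat_lit 0) (nat_lit 0) (nat_lit 0) (nat_lit 0) (nat_lit 0) (nat_lit 0) (nat_lit 1) (nat_lit 0) (nat_lit 1) (nat_lit 0) (nat_lit 318) (nat_lit 413) (nat_lit 349)))))) (XT.nd (nat_lit 470) (nat_lit 0) (nat_lit 0) (XT.nd (nat_lit 188) (nat_lit 0) (nat_lit 0) (XT.nd (nat_lit 94) (nat_lit 0) (nat_lit 0) (XT.lf (nat_lit 0) (nat_lit 63865774846) (nat_lit 0) (nat_lit 0) (nat_lit 0) (nat_lit 0) (nat_lit 0) (nat_lit 0) (nat_lit 1) (nat_lit 0) (nat_lit 1) (nat_lit 0) (nat_lit 319)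 (nat_lit 413) (nat_lit 348)) (XT.lf (nat_lit 0) (nat_lit 63834189835) (nat_lit 0) (nat_lit 0) (nat_lit 0) (nat_lit 0) (nat_lit 0) (nat_lit 0) (nat_lit 1) (nat_lit 0) (nat_lit 1) (nat_lit 0) (nat_lit 320) (nat_lit 413) (nat_lit 347))) (XT.nd (nat_lit 94) (nat_lit 0) (nat_lit 0) (XT.lf (nat_lit 0) (nat_lit 63804944455) (nat_lit 0) (nat_lit 0) (nat_lit 0) (nat_lit 0) (nat_lit 0) (nat_lit 0) (nat_lit 1) (nat_lit 0) (nat_lit 1) (nat_lit 0) (nat_lit 321) (nat_lit 413) (nat_lit 346)) (XT.nd (nat_lit 94) (nat_lit 0) (nat_lit 0) (XT.lf (nat_lit 0) (nat_lit 63777865398) (nat_lit 0) (nat_lit 0) (nat_lit 0) (nat_lit 0) (nat_lit 0) (nat_lit 0) (nat_lit 1) (nat_lit 0) (nat_lit 1) (nat_lit 0) (nat_lit 322) (nat_lit 413) (nat_lit 345)) (XT.lf (nat_lit 0) (nat_lit 63752792198) (nat_lit 0) (nat_lit 0) (nat_lit 0) (nat_lit 0) (nat_lit 0) (nat_lit 0) (nat_lit 1) (nat_lit 0) (nat_lit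 1) (nat_lit 0) (nat_lit 323) (nat_lit 413) (nat_lit 344))))) (XT.nd (nat_lit 188) (nat_lit 0) (nat_lit 0) (XT.nd (nat_lit 94) (nat_lit 0) (nat_lit 0) (XT.lf (nat_lit 0) (nat_lit 63729576272) (nat_lit 0) (nat_lit 0) (nat_lit 0) (nat_lit 0) (nat_lit 0) (nat_lit 0) (nat_lit 1) (nat_lit 0) (nat_lit 1) (nat_lit 0) (nat_lit 324) (nat_lit 413) (nat_lit 343)) (XT.lf (nat_lit 0) (nat_lit 63708080044) (nat_lit 0) (nat_lit 0) (nat_lit 0) (nat_lit 0) (nat_lit 0) (nat_lit 0) (nat_lit 1) (nat_lit 0) (nat_lit 1) (nat_lit 0) (nat_lit 325) (nat_lit 413) (nat_lit 342))) (XT.nd (nat_lit 94) (nat_lit 0) (nat_lit 0) (XT.lf (nat_lit 0) (nat_lit 63688176129) (nat_lit 0) (nat_lit 0) (nat_lit 0) (nat_lit 0) (nat_lit 0) (nat_lit 0) (nat_lit 1) (nat_lit 0) (nat_lit 1) (nat_lit 0) (nat_lit 326) (nat_lit 413) (nat_lit 341)) (XT.nd (nat_lit 94) (nat_lit 0) (nat_lit 0) (XT.lf (nat_lit 0)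 (nat_lit 63669746579) (nat_lit 0) (nat_lit 0) (nat_lit 0) (nat_lit 0) (nat_lit 0) (nat_lit 0) (nat_lit 1) (nat_lit 0) (nat_lit 1) (nat_lit 0) (nat_lit 327) (nat_lit 413) (nat_lit 340)) (XT.lf (nat_lit 0) (nat_lit 63652682180) (nat_lit 0) (nat_lit 0) (nat_lit 0) (nat_lit 0) (nat_lit 0) (nat_lit 0) (nat_lit 1) (nat_lit 0) (nat_lit 1) (nat_lit 0) (nat_lit 328) (nat_lit 413) (nat_lit 339))))))))
noncomputable def ec212 : XT := (XT.nd (nat_lit 1692) (nat_lit 0) (nat_lit 0) (XT.nd (nat_lit 846) (nat_lit 0) (nat_lit 0) (XT.nd (nat_lit 376) (nat_lit 0) (nat_lit 0) (XT.nd (nat_lit 188) (nat_lit 0) (nat_lit 0) (XT.nd (nat_lit 94) (nat_lit 0) (nat_lit 0) (XT.lf (nat_lit 0) (nat_lit 63636881810) (nat_lit 0) (nat_lit 0) (nat_lit 0) (nat_lit 0) (nat_lit 0) (nat_lit 0) (nat_lit 1) (nat_lit 0) (nat_lit 1) (nat_lit 0) (nat_lit 329) (nat_lit 413) (nat_lit 338)) (XT.lf (nat_lit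 0) (nat_lit 63622251839) (nat_lit 0) (nat_lit 0) (nat_lit 0) (nat_lit 0) (nat_lit 0) (nat_lit 0) (nat_lit 1) (nat_lit 0) (nat_lit 1) (nat_lit 0) (nat_lit 330) (nat_lit 413) (nat_lit 337))) (XT.nd (nat_lit 94) (nat_lit 0) (nat_lit 0) (XT.lf (nat_lit 0) (nat_lit 63608705569) (nat_lit 0) (nat_lit 0) (nat_lit 0) (nat_lit 0) (nat_lit 0) (nat_lit 0) (nat_lit 1) (nat_lit 0) (nat_lit 1) (nat_lit 0) (nat_lit 331) (nat_lit 413) (nat_lit 336)) (XT.lf (nat_lit 0) (nat_lit 63596162727) (nat_lit 0) (nat_lit 0) (nat_lit 0) (nat_lit 0) (nat_lit 0) (nat_lit 0) (nat_lit 1) (nat_lit 0) (nat_lit 1) (nat_lit 0) (nat_lit 332) (nat_lit 413) (nat_lit 335)))) (XT.nd (nat_lit 188) (nat_lit 0) (nat_lit 0) (XT.nd (nat_lit 94) (nat_lit 0) (nat_lit 0) (XT.lf (nat_lit 0) (nat_lit 63584548983) (nat_lit 0) (nat_lit 0) (nat_lit 0) (nat_lit 0) (nat_lit 0) (nat_lit 0) (nat_lit 1) (nat_lit 0)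 (nat_lit 1) (nat_lit 0) (nat_lit 333) (nat_lit 413) (nat_lit 334)) (XT.lf (nat_lit 0) (nat_lit 63573795518) (nat_lit 0) (nat_lit 0) (nat_lit 0) (nat_lit 0) (nat_lit 0) (nat_lit 0) (nat_lit 1) (nat_lit 0) (nat_lit 1) (nat_lit 0) (nat_lit 334) (nat_lit 413) (nat_lit 333))) (XT.nd (nat_lit 94) (nat_lit 0) (nat_lit 0) (XT.lf (nat_lit 0) (nat_lit 63563838605) (nat_lit 0) (nat_lit 0) (nat_lit 0) (nat_lit 0) (nat_lit 0) (nat_lit 0) (nat_lit 1) (nat_lit 0) (nat_lit 1) (nat_lit 0) (nat_lit 335) (nat_lit 413) (nat_lit 332)) (XT.nd (nat_lit 94) (nat_lit 0) (nat_lit 0) (XT.lf (nat_lit 0) (nat_lit 63554619241) (nat_lit 0) (nat_lit 0) (nat_lit 0) (nat_lit 0) (nat_lit 0) (nat_lit 0) (nat_lit 1) (nat_lit 0) (nat_lit 1) (nat_lit 0) (nat_lit 336) (nat_lit 413) (nat_lit 331)) (XT.lf (nat_lit 0) (nat_lit 63546082793) (nat_lit 0) (nat_lit 0) (nat_lit 0) (nat_lit 0) (nat_lit 0)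 (nat_lit 0) (nat_lit 1) (nat_lit 0) (nat_lit 1) (nat_lit 0) (nat_lit 337) (nat_lit 413) (nat_lit 330)))))) (XT.nd (nat_lit 376) (nat_lit 0) (nat_lit 0) (XT.nd (nat_lit 188) (nat_lit 0) (nat_lit 0) (XT.nd (nat_lit 94) (nat_lit 0) (nat_lit 0) (XT.lf (nat_lit 0) (nat_lit 63538178675) (nat_lit 0) (nat_lit 0) (nat_lit 0) (nat_lit 0) (nat_lit 0) (nat_lit 0) (nat_lit 1) (nat_lit 0) (nat_lit 1) (nat_lit 0) (nat_lit 338) (nat_lit 413) (nat_lit 329)) (XT.lf (nat_lit 0) (nat_lit 63530860047) (nat_lit 0) (nat_lit 0) (nat_lit 0) (nat_lit 0) (nat_lit 0) (nat_lit 0) (nat_lit 1) (nat_lit 0) (nat_lit 1) (nat_lit 0) (nat_lit 339) (nat_lit 413) (nat_lit 328))) (XT.nd (nat_lit 94) (nat_lit 0) (nat_lit 0) (XT.lf (nat_lit 0) (nat_lit 63524083539) (nat_lit 0) (nat_lit 0) (nat_lit 0) (nat_lit 0) (nat_lit 0) (nat_lit 0) (nat_lit 1) (nat_lit 0) (nat_lit 1) (nat_lit 0) (nat_lit 340)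 (nat_lit 413) (nat_lit 327)) (XT.lf (nat_lit 0) (nat_lit 63517808995) (nat_lit 0) (nat_lit 0) (nat_lit 0) (nat_lit 0) (nat_lit 0) (nat_lit 0) (nat_lit 1) (nat_lit 0) (nat_lit 1) (nat_lit 0) (nat_lit 341) (nat_lit 413) (nat_lit 326)))) (XT.nd (nat_lit 188) (nat_lit 0) (nat_lit 0) (XT.nd (nat_lit 94) (nat_lit 0) (nat_lit 0) (XT.lf (nat_lit 0) (nat_lit 63511999232) (nat_lit 0) (nat_lit 0) (nat_lit 0) (nat_lit 0) (nat_lit 0) (nat_lit 0) (nat_lit 1) (nat_lit 0) (nat_lit 1) (nat_lit 0) (nat_lit 342) (nat_lit 413) (nat_lit 325)) (XT.lf (nat_lit 0) (nat_lit 63506619822) (nat_lit 0) (nat_lit 0) (nat_lit 0) (nat_lit 0) (nat_lit 0) (nat_lit 0) (nat_lit 1) (nat_lit 0) (nat_lit 1) (nat_lit 0) (nat_lit 343) (nat_lit 413) (nat_lit 324))) (XT.nd (nat_lit 94) (nat_lit 0) (nat_lit 0) (XT.lf (nat_lit 0) (nat_lit 63501638887) (nat_lit 0) (nat_lit 0) (nat_lit 0) (nat_lit 0) (nat_lit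 0) (nat_lit 0) (nat_lit 1) (nat_lit 0) (nat_lit 1) (nat_lit 0) (nat_lit 344) (nat_lit 413) (nat_lit 323)) (XT.nd (nat_lit 94) (nat_lit 0) (nat_lit 0) (XT.lf (nat_lit 0) (nat_lit 63497026910) (nat_lit 0) (nat_lit 0) (nat_lit 0) (nat_lit 0) (nat_lit 0) (nat_lit 0) (nat_lit 1) (nat_lit 0) (nat_lit 1) (nat_lit 0) (nat_lit 345) (nat_lit 413) (nat_lit 322)) (XT.lf (nat_lit 0) (nat_lit 63492756560) (nat_lit 0) (nat_lit 0) (nat_lit 0) (nat_lit 0) (nat_lit 0) (nat_lit 0) (nat_lit 1) (nat_lit 0) (nat_lit 1) (nat_lit 0) (nat_lit 346) (nat_lit 413) (nat_lit 321))))))) (XT.nd (nat_lit 846) (nat_lit 0) (nat_lit 0) (XT.nd (nat_lit 376) (nat_lit 0) (nat_lit 0) (XT.nd (nat_lit 188) (nat_lit 0) (nat_lit 0) (XT.nd (nat_lit 94) (nat_lit 0) (nat_lit 0) (XT.lf (nat_lit 0) (nat_lit 63488802533) (nat_lit 0) (nat_lit 0) (nat_lit 0) (nat_lit 0) (nat_lit 0) (nat_lit 0) (nat_lit 1) (nat_lit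 0) (nat_lit 1) (nat_lit 0) (nat_lit 347) (nat_lit 413) (nat_lit 320)) (XT.lf (nat_lit 0) (nat_lit 63485141397) (nat_lit 0) (nat_lit 0) (nat_lit 0) (nat_lit 0) (nat_lit 0) (nat_lit 0) (nat_lit 1) (nat_lit 0) (nat_lit 1) (nat_lit 0) (nat_lit 348) (nat_lit 413) (nat_lit 319))) (XT.nd (nat_lit 94) (nat_lit 0) (nat_lit 0) (XT.lf (nat_lit 0) (nat_lit 63481751456) (nat_lit 0) (nat_lit 0) (nat_lit 0) (nat_lit 0) (nat_lit 0) (nat_lit 0) (nat_lit 1) (nat_lit 0) (nat_lit 1) (nat_lit 0) (nat_lit 349) (nat_lit 413) (nat_lit 318)) (XT.lf (nat_lit 0) (nat_lit 63478612622) (nat_lit 0) (nat_lit 0) (nat_lit 0) (nat_lit 0) (nat_lit 0) (nat_lit 0) (nat_lit 1) (nat_lit 0) (nat_lit 1) (nat_lit 0) (nat_lit 350) (nat_lit 413) (nat_lit 317)))) (XT.nd (nat_lit 188) (nat_lit 0) (nat_lit 0) (XT.nd (nat_lit 94) (nat_lit 0) (nat_lit 0) (XT.lf (nat_lit 0) (nat_lit 63475706294) (nat_lit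 0) (nat_lit 0) (nat_lit 0) (nat_lit 0) (nat_lit 0) (nat_lit 0) (nat_lit 1) (nat_lit 0) (nat_lit 1) (nat_lit 0) (nat_lit 351) (nat_lit 413) (nat_lit 316)) (XT.lf (nat_lit 0) (nat_lit 63473015250) (nat_lit 0) (nat_lit 0) (nat_lit 0) (nat_lit 0) (nat_lit 0) (nat_lit 0) (nat_lit 1) (nat_lit 0) (nat_lit 1) (nat_lit 0) (nat_lit 352) (nat_lit 413) (nat_lit 315))) (XT.nd (nat_lit 94) (nat_lit 0) (nat_lit 0) (XT.lf (nat_lit 0) (nat_lit 63470523542) (nat_lit 0) (nat_lit 0) (nat_lit 0) (nat_lit 0) (nat_lit 0) (nat_lit 0) (nat_lit 1) (nat_lit 0) (nat_lit 1) (nat_lit 0) (nat_lit 353) (nat_lit 413) (nat_lit 314)) (XT.nd (nat_lit 94) (nat_lit 0) (nat_lit 0) (XT.lf (nat_lit 0) (nat_lit 63468216405) (nat_lit 0) (nat_lit 0) (nat_lit 0) (nat_lit 0) (nat_lit 0) (nat_lit 0) (nat_lit 1) (nat_lit 0) (nat_lit 1) (nat_lit 0) (nat_lit 354) (nat_lit 413) (nat_lit 313)) (XT.lf (nat_lit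 0) (nat_lit 63466080167) (nat_lit 0) (nat_lit 0) (nat_lit 0) (nat_lit 0) (nat_lit 0) (nat_lit 0) (nat_lit 1) (nat_lit 0) (nat_lit 1) (nat_lit 0) (nat_lit 355) (nat_lit 413) (nat_lit 312)))))) (XT.nd (nat_lit 470) (nat_lit 0) (nat_lit 0) (XT.nd (nat_lit 188) (nat_lit 0) (nat_lit 0) (XT.nd (nat_lit 94) (nat_lit 0) (nat_lit 0) (XT.lf (nat_lit 0) (nat_lit 63464102169) (nat_lit 0) (nat_lit 0) (nat_lit 0) (nat_lit 0) (nat_lit 0) (nat_lit 0) (nat_lit 1) (nat_lit 0) (nat_lit 1) (nat_lit 0) (nat_lit 356) (nat_lit 413) (nat_lit 311)) (XT.lf (nat_lit 0) (nat_lit 63462270690) (nat_lit 0) (nat_lit 0) (nat_lit 0) (nat_lit 0) (nat_lit 0) (nat_lit 0) (nat_lit 1) (nat_lit 0) (nat_lit 1) (nat_lit 0) (nat_lit 357) (nat_lit 413) (nat_lit 310))) (XT.nd (nat_lit 94) (nat_lit 0) (nat_lit 0) (XT.lf (nat_lit 0) (nat_lit 63460574875) (nat_lit 0) (nat_lit 0) (nat_lit 0) (nat_lit 0)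 (nat_lit 0) (nat_lit 0) (nat_lit 1) (nat_lit 0) (nat_lit 1) (nat_lit 0) (nat_lit 358) (nat_lit 413) (nat_lit 309)) (XT.nd (nat_lit 94) (nat_lit 0) (nat_lit 0) (XT.lf (nat_lit 0) (nat_lit 63459004677) (nat_lit 0) (nat_lit 0) (nat_lit 0) (nat_lit 0) (nat_lit 0) (nat_lit 0) (nat_lit 1) (nat_lit 0) (nat_lit 1) (nat_lit 0) (nat_lit 359) (nat_lit 413) (nat_lit 308)) (XT.lf (nat_lit 0) (nat_lit 63457550789) (nat_lit 0) (nat_lit 0) (nat_lit 0) (nat_lit 0) (nat_lit 0) (nat_lit 0) (nat_lit 1) (nat_lit 0) (nat_lit 1) (nat_lit 0) (nat_lit 360) (nat_lit 413) (nat_lit 307))))) (XT.nd (nat_lit 188) (nat_lit 0) (nat_lit 0) (XT.nd (nat_lit 94) (nat_lit 0) (nat_lit 0) (XT.lf (nat_lit 0) (nat_lit 63456204597) (nat_lit 0) (nat_lit 0) (nat_lit 0) (nat_lit 0) (nat_lit 0) (nat_lit 0) (nat_lit 1) (nat_lit 0) (nat_lit 1) (nat_lit 0) (nat_lit 361) (nat_lit 413) (nat_lit 306)) (XT.lf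 (nat_lit 0) (nat_lit 63454958123) (nat_lit 0) (nat_lit 0) (nat_lit 0) (nat_lit 0) (nat_lit 0) (nat_lit 0) (nat_lit 1) (nat_lit 0) (nat_lit 1) (nat_lit 0) (nat_lit 362) (nat_lit 413) (nat_lit 305))) (XT.nd (nat_lit 94) (nat_lit 0) (nat_lit 0) (XT.lf (nat_lit 0) (nat_lit 63453803980) (nat_lit 0) (nat_lit 0) (nat_lit 0) (nat_lit 0) (nat_lit 0) (nat_lit 0) (nat_lit 1) (nat_lit 0) (nat_lit 1) (nat_lit 0) (nat_lit 363) (nat_lit 413) (nat_lit 304)) (XT.nd (nat_lit 94) (nat_lit 0) (nat_lit 0) (XT.lf (nat_lit 0) (nat_lit 63452735329) (nat_lit 0) (nat_lit 0) (nat_lit 0) (nat_lit 0) (nat_lit 0) (nat_lit 0) (nat_lit 1) (nat_lit 0) (nat_lit 1) (nat_lit 0) (nat_lit 364) (nat_lit 413) (nat_lit 303)) (XT.lf (nat_lit 0) (nat_lit 63451745838) (nat_lit 0) (nat_lit 0) (nat_lit 0) (nat_lit 0) (nat_lit 0) (nat_lit 0) (nat_lit 1) (nat_lit 0) (nat_lit 1) (nat_lit 0) (nat_lit 365)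 (nat_lit 413) (nat_lit 302))))))))
noncomputable def ec213 : XT := (XT.nd (nat_lit 1786) (nat_lit 0) (nat_lit 0) (XT.nd (nat_lit 846) (nat_lit 0) (nat_lit 0) (XT.nd (nat_lit 376) (nat_lit 0) (nat_lit 0) (XT.nd (nat_lit 188) (nat_lit 0) (nat_lit 0) (XT.nd (nat_lit 94) (nat_lit 0) (nat_lit 0) (XT.lf (nat_lit 0) (nat_lit 63450829642) (nat_lit 0) (nat_lit 0) (nat_lit 0) (nat_lit 0) (nat_lit 0) (nat_lit 0) (nat_lit 1) (nat_lit 0) (nat_lit 1) (nat_lit 0) (nat_lit 366) (nat_lit 413) (nat_lit 301)) (XT.lf (nat_lit 0) (nat_lit 63449981313) (nat_lit 0) (nat_lit 0) (nat_lit 0) (nat_lit 0) (nat_lit 0) (nat_lit 0) (nat_lit 1) (nat_lit 0) (nat_lit 1) (nat_lit 0) (nat_lit 367) (nat_lit 413) (nat_lit 300))) (XT.nd (nat_lit 94) (nat_lit 0) (nat_lit 0) (XT.lf (nat_lit 0) (nat_lit 63449195822) (nat_lit 0) (nat_lit 0) (nat_lit 0) (nat_lit 0) (nat_lit 0) (nat_lit 0) (nat_lit 1)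 (nat_lit 0) (nat_lit 1) (nat_lit 0) (nat_lit 368) (nat_lit 413) (nat_lit 299)) (XT.lf (nat_lit 0) (nat_lit 63448468517) (nat_lit 0) (nat_lit 0) (nat_lit 0) (nat_lit 0) (nat_lit 0) (nat_lit 0) (nat_lit 1) (nat_lit 0) (nat_lit 1) (nat_lit 0) (nat_lit 369) (nat_lit 413) (nat_lit 298)))) (XT.nd (nat_lit 188) (nat_lit 0) (nat_lit 0) (XT.nd (nat_lit 94) (nat_lit 0) (nat_lit 0) (XT.lf (nat_lit 0) (nat_lit 63447795085) (nat_lit 0) (nat_lit 0) (nat_lit 0) (nat_lit 0) (nat_lit 0) (nat_lit 0) (nat_lit 1) (nat_lit 0) (nat_lit 1) (nat_lit 0) (nat_lit 370) (nat_lit 413) (nat_lit 297)) (XT.lf (nat_lit 0) (nat_lit 63447171538) (nat_lit 0) (nat_lit 0) (nat_lit 0) (nat_lit 0) (nat_lit 0) (nat_lit 0) (nat_lit 1) (nat_lit 0) (nat_lit 1) (nat_lit 0) (nat_lit 371) (nat_lit 413) (nat_lit 296))) (XT.nd (nat_lit 94) (nat_lit 0) (nat_lit 0) (XT.lf (nat_lit 0) (nat_lit 63446594179)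 (nat_lit 0) (nat_lit 0) (nat_lit 0) (nat_lit 0) (nat_lit 0) (nat_lit 0) (nat_lit 1) (nat_lit 0) (nat_lit 1) (nat_lit 0) (nat_lit 372) (nat_lit 413) (nat_lit 295)) (XT.nd (nat_lit 94) (nat_lit 0) (nat_lit 0) (XT.lf (nat_lit 0) (nat_lit 63446059588) (nat_lit 0) (nat_lit 0) (nat_lit 0) (nat_lit 0) (nat_lit 0) (nat_lit 0) (nat_lit 1) (nat_lit 0) (nat_lit 1) (nat_lit 0) (nat_lit 373) (nat_lit 413) (nat_lit 294)) (XT.lf (nat_lit 0) (nat_lit 63445564596) (nat_lit 0) (nat_lit 0) (nat_lit 0) (nat_lit 0) (nat_lit 0) (nat_lit 0) (nat_lit 1) (nat_lit 0) (nat_lit 1) (nat_lit 0) (nat_lit 374) (nat_lit 413) (nat_lit 293)))))) (XT.nd (nat_lit 470) (nat_lit 0) (nat_lit 0) (XT.nd (nat_lit 188) (nat_lit 0) (nat_lit 0) (XT.nd (nat_lit 94) (nat_lit 0) (nat_lit 0) (XT.lf (nat_lit 0) (nat_lit 63445106270) (nat_lit 0) (nat_lit 0) (nat_lit 0) (nat_lit 0) (nat_lit 0) (nat_lit 0) (nat_lit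 1) (nat_lit 0) (nat_lit 1) (nat_lit 0) (nat_lit 375) (nat_lit 413) (nat_lit 292)) (XT.lf (nat_lit 0) (nat_lit 63444681894) (nat_lit 0) (nat_lit 0) (nat_lit 0) (nat_lit 0) (nat_lit 0) (nat_lit 0) (nat_lit 1) (nat_lit 0) (nat_lit 1) (nat_lit 0) (nat_lit 376) (nat_lit 413) (nat_lit 291))) (XT.nd (nat_lit 94) (nat_lit 0) (nat_lit 0) (XT.lf (nat_lit 0) (nat_lit 63444288953) (nat_lit 0) (nat_lit 0) (nat_lit 0) (nat_lit 0) (nat_lit 0) (nat_lit 0) (nat_lit 1) (nat_lit 0) (nat_lit 1) (nat_lit 0) (nat_lit 377) (nat_lit 413) (nat_lit 290)) (XT.nd (nat_lit 94) (nat_lit 0) (nat_lit 0) (XT.lf (nat_lit 0) (nat_lit 63443925119) (nat_lit 0) (nat_lit 0) (nat_lit 0) (nat_lit 0) (nat_lit 0) (nat_lit 0) (nat_lit 1) (nat_lit 0) (nat_lit 1) (nat_lit 0) (nat_lit 378) (nat_lit 413) (nat_lit 289)) (XT.lf (nat_lit 0) (nat_lit 63443588236) (nat_lit 0) (nat_lit 0) (nat_lit 0) (nat_lit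 0) (nat_lit 0) (nat_lit 0) (nat_lit 1) (nat_lit 0) (nat_lit 1) (nat_lit 0) (nat_lit 379) (nat_lit 413) (nat_lit 288))))) (XT.nd (nat_lit 188) (nat_lit 0) (nat_lit 0) (XT.nd (nat_lit 94) (nat_lit 0) (nat_lit 0) (XT.lf (nat_lit 0) (nat_lit 63443276307) (nat_lit 0) (nat_lit 0) (nat_lit 0) (nat_lit 0) (nat_lit 0) (nat_lit 0) (nat_lit 1) (nat_lit 0) (nat_lit 1) (nat_lit 0) (nat_lit 380) (nat_lit 413) (nat_lit 287)) (XT.lf (nat_lit 0) (nat_lit 63442987484) (nat_lit 0) (nat_lit 0) (nat_lit 0) (nat_lit 0) (nat_lit 0) (nat_lit 0) (nat_lit 1) (nat_lit 0) (nat_lit 1) (nat_lit 0) (nat_lit 381) (nat_lit 413) (nat_lit 286))) (XT.nd (nat_lit 94) (nat_lit 0) (nat_lit 0) (XT.lf (nat_lit 0) (nat_lit 63442720055) (nat_lit 0) (nat_lit 0) (nat_lit 0) (nat_lit 0) (nat_lit 0) (nat_lit 0) (nat_lit 1) (nat_lit 0) (nat_lit 1) (nat_lit 0) (nat_lit 382) (nat_lit 413) (nat_lit 285)) (XT.nd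 (nat_lit 94) (nat_lit 0) (nat_lit 0) (XT.lf (nat_lit 0) (nat_lit 63442472436) (nat_lit 0) (nat_lit 0) (nat_lit 0) (nat_lit 0) (nat_lit 0) (nat_lit 0) (nat_lit 1) (nat_lit 0) (nat_lit 1) (nat_lit 0) (nat_lit 383) (nat_lit 413) (nat_lit 284)) (XT.lf (nat_lit 0) (nat_lit 63442243159) (nat_lit 0) (nat_lit 0) (nat_lit 0) (nat_lit 0) (nat_lit 0) (nat_lit 0) (nat_lit 1) (nat_lit 0) (nat_lit 1) (nat_lit 0) (nat_lit 384) (nat_lit 413) (nat_lit 283))))))) (XT.nd (nat_lit 846) (nat_lit 0) (nat_lit 0) (XT.nd (nat_lit 376) (nat_lit 0) (nat_lit 0) (XT.nd (nat_lit 188) (nat_lit 0) (nat_lit 0) (XT.nd (nat_lit 94) (nat_lit 0) (nat_lit 0) (XT.lf (nat_lit 0) (nat_lit 63442030865) (nat_lit 0) (nat_lit 0) (nat_lit 0) (nat_lit 0) (nat_lit 0) (nat_lit 0) (nat_lit 1) (nat_lit 0) (nat_lit 1) (nat_lit 0) (nat_lit 385) (nat_lit 413) (nat_lit 282)) (XT.lf (nat_lit 0) (nat_lit 63441834297)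 (nat_lit 0) (nat_lit 0) (nat_lit 0) (nat_lit 0) (nat_lit 0) (nat_lit 0) (nat_lit 1) (nat_lit 0) (nat_lit 1) (nat_lit 0) (nat_lit 386) (nat_lit 413) (nat_lit 281))) (XT.nd (nat_lit 94) (nat_lit 0) (nat_lit 0) (XT.lf (nat_lit 0) (nat_lit 63441652289) (nat_lit 0) (nat_lit 0) (nat_lit 0) (nat_lit 0) (nat_lit 0) (nat_lit 0) (nat_lit 1) (nat_lit 0) (nat_lit 1) (nat_lit 0) (nat_lit 387) (nat_lit 413) (nat_lit 280)) (XT.lf (nat_lit 0) (nat_lit 63441483764) (nat_lit 0) (nat_lit 0) (nat_lit 0) (nat_lit 0) (nat_lit 0) (nat_lit 0) (nat_lit 1) (nat_lit 0) (nat_lit 1) (nat_lit 0) (nat_lit 388) (nat_lit 413) (nat_lit 279)))) (XT.nd (nat_lit 188) (nat_lit 0) (nat_lit 0) (XT.nd (nat_lit 94) (nat_lit 0) (nat_lit 0) (XT.lf (nat_lit 0) (nat_lit 63441327722) (nat_lit 0) (nat_lit 0) (nat_lit 0) (nat_lit 0) (nat_lit 0) (nat_lit 0) (nat_lit 1) (nat_lit 0) (nat_lit 1) (nat_lit 0)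 (nat_lit 389) (nat_lit 413) (nat_lit 278)) (XT.lf (nat_lit 0) (nat_lit 63441183238) (nat_lit 0) (nat_lit 0) (nat_lit 0) (nat_lit 0) (nat_lit 0) (nat_lit 0) (nat_lit 1) (nat_lit 0) (nat_lit 1) (nat_lit 0) (nat_lit 390) (nat_lit 413) (nat_lit 277))) (XT.nd (nat_lit 94) (nat_lit 0) (nat_lit 0) (XT.lf (nat_lit 0) (nat_lit 63441049457) (nat_lit 0) (nat_lit 0) (nat_lit 0) (nat_lit 0) (nat_lit 0) (nat_lit 0) (nat_lit 1) (nat_lit 0) (nat_lit 1) (nat_lit 0) (nat_lit 391) (nat_lit 413) (nat_lit 276)) (XT.nd (nat_lit 94) (nat_lit 0) (nat_lit 0) (XT.lf (nat_lit 0) (nat_lit 63440925586) (nat_lit 0) (nat_lit 0) (nat_lit 0) (nat_lit 0) (nat_lit 0) (nat_lit 0) (nat_lit 1) (nat_lit 0) (nat_lit 1) (nat_lit 0) (nat_lit 392) (nat_lit 413) (nat_lit 275)) (XT.lf (nat_lit 0) (nat_lit 63440810890) (nat_lit 0) (nat_lit 0) (nat_lit 0) (nat_lit 0) (nat_lit 0) (nat_lit 0) (nat_lit 1)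 (nat_lit 0) (nat_lit 1) (nat_lit 0) (nat_lit 393) (nat_lit 413) (nat_lit 274)))))) (XT.nd (nat_lit 470) (nat_lit 0) (nat_lit 0) (XT.nd (nat_lit 188) (nat_lit 0) (nat_lit 0) (XT.nd (nat_lit 94) (nat_lit 0) (nat_lit 0) (XT.lf (nat_lit 0) (nat_lit 63440704691) (nat_lit 0) (nat_lit 0) (nat_lit 0) (nat_lit 0) (nat_lit 0) (nat_lit 0) (nat_lit 1) (nat_lit 0) (nat_lit 1) (nat_lit 0) (nat_lit 394) (nat_lit 413) (nat_lit 273)) (XT.lf (nat_lit 0) (nat_lit 63440606358) (nat_lit 0) (nat_lit 0) (nat_lit 0) (nat_lit 0) (nat_lit 0) (nat_lit 0) (nat_lit 1) (nat_lit 0) (nat_lit 1) (nat_lit 0) (nat_lit 395) (nat_lit 413) (nat_lit 272))) (XT.nd (nat_lit 94) (nat_lit 0) (nat_lit 0) (XT.lf (nat_lit 0) (nat_lit 63440515309) (nat_lit 0) (nat_lit 0) (nat_lit 0) (nat_lit 0) (nat_lit 0) (nat_lit 0) (nat_lit 1) (nat_lit 0) (nat_lit 1) (nat_lit 0) (nat_lit 396) (nat_lit 413) (nat_lit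 271)) (XT.nd (nat_lit 94) (nat_lit 0) (nat_lit 0) (XT.lf (nat_lit 0) (nat_lit 63440431004) (nat_lit 0) (nat_lit 0) (nat_lit 0) (nat_lit 0) (nat_lit 0) (nat_lit 0) (nat_lit 1) (nat_lit 0) (nat_lit 1) (nat_lit 0) (nat_lit 397) (nat_lit 413) (nat_lit 270)) (XT.lf (nat_lit 0) (nat_lit 63440352944) (nat_lit 0) (nat_lit 0) (nat_lit 0) (nat_lit 0) (nat_lit 0) (nat_lit 0) (nat_lit 1) (nat_lit 0) (nat_lit 1) (nat_lit 0) (nat_lit 398) (nat_lit 413) (nat_lit 269))))) (XT.nd (nat_lit 188) (nat_lit 0) (nat_lit 0) (XT.nd (nat_lit 94) (nat_lit 0) (nat_lit 0) (XT.lf (nat_lit 0) (nat_lit 63440280666) (nat_lit 0) (nat_lit 0) (nat_lit 0) (nat_lit 0) (nat_lit 0) (nat_lit 0) (nat_lit 1) (nat_lit 0) (nat_lit 1) (nat_lit 0) (nat_lit 399) (nat_lit 413) (nat_lit 268)) (XT.lf (nat_lit 0) (nat_lit 63440213742) (nat_lit 0) (nat_lit 0) (nat_lit 0) (nat_lit 0) (nat_lit 0) (nat_lit 0) (nat_lit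 1) (nat_lit 0) (nat_lit 1) (nat_lit 0) (nat_lit 400) (nat_lit 413) (nat_lit 267))) (XT.nd (nat_lit 94) (nat_lit 0) (nat_lit 0) (XT.lf (nat_lit 0) (nat_lit 63440151776) (nat_lit 0) (nat_lit 0) (nat_lit 0) (nat_lit 0) (nat_lit 0) (nat_lit 0) (nat_lit 1) (nat_lit 0) (nat_lit 1) (nat_lit 0) (nat_lit 401) (nat_lit 413) (nat_lit 266)) (XT.nd (nat_lit 94) (nat_lit 0) (nat_lit 0) (XT.lf (nat_lit 0) (nat_lit 63440094400) (nat_lit 0) (nat_lit 0) (nat_lit 0) (nat_lit 0) (nat_lit 0) (nat_lit 0) (nat_lit 1) (nat_lit 0) (nat_lit 1) (nat_lit 0) (nat_lit 402) (nat_lit 413) (nat_lit 265)) (XT.lf (nat_lit 0) (nat_lit 63440041273) (nat_lit 0) (nat_lit 0) (nat_lit 0) (nat_lit 0) (nat_lit 0) (nat_lit 0) (nat_lit 1) (nat_lit 0) (nat_lit 1) (nat_lit 0) (nat_lit 403) (nat_lit 413) (nat_lit 264))))))))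
noncomputable def ec214 : XT := (XT.nd (nat_lit 1692) (nat_lit 0) (nat_lit 0) (XT.nd (nat_lit 846) (nat_lit 0) (nat_lit 0) (XT.nd (nat_lit 376) (nat_lit 0) (nat_lit 0) (XT.nd (nat_lit 188) (nat_lit 0) (nat_lit 0) (XT.nd (nat_lit 94) (nat_lit 0) (nat_lit 0) (XT.lf (nat_lit 0) (nat_lit 63439992082) (nat_lit 0) (nat_lit 0) (nat_lit 0) (nat_lit 0) (nat_lit 0) (nat_lit 0) (nat_lit 1) (nat_lit 0) (nat_lit 1) (nat_lit 0) (nat_lit 404) (nat_lit 413) (nat_lit 263)) (XT.lf (nat_lit 0) (nat_lit 63439946535) (nat_lit 0) (nat_lit 0) (nat_lit 0) (nat_lit 0) (nat_lit 0) (nat_lit 0) (nat_lit 1) (nat_lit 0) (nat_lit 1) (nat_lit 0) (nat_lit 405) (nat_lit 413) (nat_lit 262))) (XT.nd (nat_lit 94) (nat_lit 0) (nat_lit 0) (XT.lf (nat_lit 0) (nat_lit 63439904362) (nat_lit 0) (nat_lit 0) (nat_lit 0) (nat_lit 0) (nat_lit 0) (nat_lit 0) (nat_lit 1) (nat_lit 0) (nat_lit 1) (nat_lit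 0) (nat_lit 406) (nat_lit 413) (nat_lit 261)) (XT.lf (nat_lit 0) (nat_lit 63439865312) (nat_lit 0) (nat_lit 0) (nat_lit 0) (nat_lit 0) (nat_lit 0) (nat_lit 0) (nat_lit 1) (nat_lit 0) (nat_lit 1) (nat_lit 0) (nat_lit 407) (nat_lit 413) (nat_lit 260)))) (XT.nd (nat_lit 188) (nat_lit 0) (nat_lit 0) (XT.nd (nat_lit 94) (nat_lit 0) (nat_lit 0) (XT.lf (nat_lit 0) (nat_lit 63439829156) (nat_lit 0) (nat_lit 0) (nat_lit 0) (nat_lit 0) (nat_lit 0) (nat_lit 0) (nat_lit 1) (nat_lit 0) (nat_lit 1) (nat_lit 0) (nat_lit 408) (nat_lit 413) (nat_lit 259)) (XT.lf (nat_lit 0) (nat_lit 63439795677) (nat_lit 0) (nat_lit 0) (nat_lit 0) (nat_lit 0) (nat_lit 0) (nat_lit 0) (nat_lit 1) (nat_lit 0) (nat_lit 1) (nat_lit 0) (nat_lit 409) (nat_lit 413) (nat_lit 258))) (XT.nd (nat_lit 94) (nat_lit 0) (nat_lit 0) (XT.lf (nat_lit 0) (nat_lit 63439764678) (nat_lit 0) (nat_lit 0) (nat_lit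 0) (nat_lit 0) (nat_lit 0) (nat_lit 0) (nat_lit 1) (nat_lit 0) (nat_lit 1) (nat_lit 0) (nat_lit 410) (nat_lit 413) (nat_lit 257)) (XT.nd (nat_lit 94) (nat_lit 0) (nat_lit 0) (XT.lf (nat_lit 0) (nat_lit 63439735976) (nat_lit 0) (nat_lit 0) (nat_lit 0) (nat_lit 0) (nat_lit 0) (nat_lit 0) (nat_lit 1) (nat_lit 0) (nat_lit 1) (nat_lit 0) (nat_lit 411) (nat_lit 413) (nat_lit 256)) (XT.lf (nat_lit 0) (nat_lit 63439709399) (nat_lit 0) (nat_lit 0) (nat_lit 0) (nat_lit 0) (nat_lit 0) (nat_lit 0) (nat_lit 1) (nat_lit 0) (nat_lit 1) (nat_lit 0) (nat_lit 412) (nat_lit 413) (nat_lit 255)))))) (XT.nd (nat_lit 376) (nat_lit 0) (nat_lit 0) (XT.nd (nat_lit 188) (nat_lit 0) (nat_lit 0) (XT.nd (nat_lit 94) (nat_lit 0) (nat_lit 0) (XT.lf (nat_lit 0) (nat_lit 63439684792) (nat_lit 0) (nat_lit 0) (nat_lit 0) (nat_lit 0) (nat_lit 0) (nat_lit 0) (nat_lit 1) (nat_lit 0) (nat_lit 1)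 (nat_lit 0) (nat_lit 413) (nat_lit 413) (nat_lit 254)) (XT.lf (nat_lit 0) (nat_lit 63439662007) (nat_lit 0) (nat_lit 0) (nat_lit 0) (nat_lit 0) (nat_lit 0) (nat_lit 0) (nat_lit 1) (nat_lit 0) (nat_lit 1) (nat_lit 0) (nat_lit 414) (nat_lit 413) (nat_lit 253))) (XT.nd (nat_lit 94) (nat_lit 0) (nat_lit 0) (XT.lf (nat_lit 0) (nat_lit 63439640910) (nat_lit 0) (nat_lit 0) (nat_lit 0) (nat_lit 0) (nat_lit 0) (nat_lit 0) (nat_lit 1) (nat_lit 0) (nat_lit 1) (nat_lit 0) (nat_lit 415) (nat_lit 413) (nat_lit 252)) (XT.lf (nat_lit 0) (nat_lit 63439621375) (nat_lit 0) (nat_lit 0) (nat_lit 0) (nat_lit 0) (nat_lit 0) (nat_lit 0) (nat_lit 1) (nat_lit 0) (nat_lit 1) (nat_lit 0) (nat_lit 416) (nat_lit 413) (nat_lit 251)))) (XT.nd (nat_lit 188) (nat_lit 0) (nat_lit 0) (XT.nd (nat_lit 94) (nat_lit 0) (nat_lit 0) (XT.lf (nat_lit 0) (nat_lit 63439603288) (nat_lit 0) (nat_lit 0)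 (nat_lit 0) (nat_lit 0) (nat_lit 0) (nat_lit 0) (nat_lit 1) (nat_lit 0) (nat_lit 1) (nat_lit 0) (nat_lit 417) (nat_lit 413) (nat_lit 250)) (XT.lf (nat_lit 0) (nat_lit 63439586540) (nat_lit 0) (nat_lit 0) (nat_lit 0) (nat_lit 0) (nat_lit 0) (nat_lit 0) (nat_lit 1) (nat_lit 0) (nat_lit 1) (nat_lit 0) (nat_lit 418) (nat_lit 413) (nat_lit 249))) (XT.nd (nat_lit 94) (nat_lit 0) (nat_lit 0) (XT.lf (nat_lit 0) (nat_lit 63439571033) (nat_lit 0) (nat_lit 0) (nat_lit 0) (nat_lit 0) (nat_lit 0) (nat_lit 0) (nat_lit 1) (nat_lit 0) (nat_lit 1) (nat_lit 0) (nat_lit 419) (nat_lit 413) (nat_lit 248)) (XT.nd (nat_lit 94) (nat_lit 0) (nat_lit 0) (XT.lf (nat_lit 0) (nat_lit 63439556675) (nat_lit 0) (nat_lit 0) (nat_lit 0) (nat_lit 0) (nat_lit 0) (nat_lit 0) (nat_lit 1) (nat_lit 0) (nat_lit 1) (nat_lit 0) (nat_lit 420) (nat_lit 413) (nat_lit 247)) (XT.lf (nat_lit 0) (nat_lit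 63439543380) (nat_lit 0) (nat_lit 0) (nat_lit 0) (nat_lit 0) (nat_lit 0) (nat_lit 0) (nat_lit 1) (nat_lit 0) (nat_lit 1) (nat_lit 0) (nat_lit 421) (nat_lit 413) (nat_lit 246))))))) (XT.nd (nat_lit 846) (nat_lit 0) (nat_lit 0) (XT.nd (nat_lit 376) (nat_lit 0) (nat_lit 0) (XT.nd (nat_lit 188) (nat_lit 0) (nat_lit 0) (XT.nd (nat_lit 94) (nat_lit 0) (nat_lit 0) (XT.lf (nat_lit 0) (nat_lit 63439531070) (nat_lit 0) (nat_lit 0) (nat_lit 0) (nat_lit 0) (nat_lit 0) (nat_lit 0) (nat_lit 1) (nat_lit 0) (nat_lit 1) (nat_lit 0) (nat_lit 422) (nat_lit 413) (nat_lit 245)) (XT.lf (nat_lit 0) (nat_lit 63439519672) (nat_lit 0) (nat_lit 0) (nat_lit 0) (nat_lit 0) (nat_lit 0) (nat_lit 0) (nat_lit 1) (nat_lit 0) (nat_lit 1) (nat_lit 0) (nat_lit 423) (nat_lit 413) (nat_lit 244))) (XT.nd (nat_lit 94) (nat_lit 0) (nat_lit 0) (XT.lf (nat_lit 0) (nat_lit 63439509118) (nat_lit 0) (nat_lit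 0) (nat_lit 0) (nat_lit 0) (nat_lit 0) (nat_lit 0) (nat_lit 1) (nat_lit 0) (nat_lit 1) (nat_lit 0) (nat_lit 424) (nat_lit 413) (nat_lit 243)) (XT.lf (nat_lit 0) (nat_lit 63439499346) (nat_lit 0) (nat_lit 0) (nat_lit 0) (nat_lit 0) (nat_lit 0) (nat_lit 0) (nat_lit 1) (nat_lit 0) (nat_lit 1) (nat_lit 0) (nat_lit 425) (nat_lit 413) (nat_lit 242)))) (XT.nd (nat_lit 188) (nat_lit 0) (nat_lit 0) (XT.nd (nat_lit 94) (nat_lit 0) (nat_lit 0) (XT.lf (nat_lit 0) (nat_lit 63439490298) (nat_lit 0) (nat_lit 0) (nat_lit 0) (nat_lit 0) (nat_lit 0) (nat_lit 0) (nat_lit 1) (nat_lit 0) (nat_lit 1) (nat_lit 0) (nat_lit 426) (nat_lit 413) (nat_lit 241)) (XT.lf (nat_lit 0) (nat_lit 63439481920) (nat_lit 0) (nat_lit 0) (nat_lit 0) (nat_lit 0) (nat_lit 0) (nat_lit 0) (nat_lit 1) (nat_lit 0) (nat_lit 1) (nat_lit 0) (nat_lit 427) (nat_lit 413) (nat_lit 240))) (XT.nd (nat_lit 94) (nat_lit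 0) (nat_lit 0) (XT.lf (nat_lit 0) (nat_lit 63439474162) (nat_lit 0) (nat_lit 0) (nat_lit 0) (nat_lit 0) (nat_lit 0) (nat_lit 0) (nat_lit 1) (nat_lit 0) (nat_lit 1) (nat_lit 0) (nat_lit 428) (nat_lit 413) (nat_lit 239)) (XT.nd (nat_lit 94) (nat_lit 0) (nat_lit 0) (XT.lf (nat_lit 0) (nat_lit 63439466980) (nat_lit 0) (nat_lit 0) (nat_lit 0) (nat_lit 0) (nat_lit 0) (nat_lit 0) (nat_lit 1) (nat_lit 0) (nat_lit 1) (nat_lit 0) (nat_lit 429) (nat_lit 413) (nat_lit 238)) (XT.lf (nat_lit 0) (nat_lit 63439460329) (nat_lit 0) (nat_lit 0) (nat_lit 0) (nat_lit 0) (nat_lit 0) (nat_lit 0) (nat_lit 1) (nat_lit 0) (nat_lit 1) (nat_lit 0) (nat_lit 430) (nat_lit 413) (nat_lit 237)))))) (XT.nd (nat_lit 470) (nat_lit 0) (nat_lit 0) (XT.nd (nat_lit 188) (nat_lit 0) (nat_lit 0) (XT.nd (nat_lit 94) (nat_lit 0) (nat_lit 0) (XT.lf (nat_lit 0) (nat_lit 63439454171) (nat_lit 0) (nat_lit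 0) (nat_lit 0) (nat_lit 0) (nat_lit 0) (nat_lit 0) (nat_lit 1) (nat_lit 0) (nat_lit 1) (nat_lit 0) (nat_lit 431) (nat_lit 413) (nat_lit 236)) (XT.lf (nat_lit 0) (nat_lit 63439448469) (nat_lit 0) (nat_lit 0) (nat_lit 0) (nat_lit 0) (nat_lit 0) (nat_lit 0) (nat_lit 1) (nat_lit 0) (nat_lit 1) (nat_lit 0) (nat_lit 432) (nat_lit 413) (nat_lit 235))) (XT.nd (nat_lit 94) (nat_lit 0) (nat_lit 0) (XT.lf (nat_lit 0) (nat_lit 63439443189) (nat_lit 0) (nat_lit 0) (nat_lit 0) (nat_lit 0) (nat_lit 0) (nat_lit 0) (nat_lit 1) (nat_lit 0) (nat_lit 1) (nat_lit 0) (nat_lit 433) (nat_lit 413) (nat_lit 234)) (XT.nd (nat_lit 94) (nat_lit 0) (nat_lit 0) (XT.lf (nat_lit 0) (nat_lit 63439438301) (nat_lit 0) (nat_lit 0) (nat_lit 0) (nat_lit 0) (nat_lit 0) (nat_lit 0) (nat_lit 1) (nat_lit 0) (nat_lit 1) (nat_lit 0) (nat_lit 434) (nat_lit 413) (nat_lit 233)) (XT.lf (nat_lit 0) (nat_lit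 63439433774) (nat_lit 0) (nat_lit 0) (nat_lit 0) (nat_lit 0) (nat_lit 0) (nat_lit 0) (nat_lit 1) (nat_lit 0) (nat_lit 1) (nat_lit 0) (nat_lit 435) (nat_lit 413) (nat_lit 232))))) (XT.nd (nat_lit 188) (nat_lit 0) (nat_lit 0) (XT.nd (nat_lit 94) (nat_lit 0) (nat_lit 0) (XT.lf (nat_lit 0) (nat_lit 63439429583) (nat_lit 0) (nat_lit 0) (nat_lit 0) (nat_lit 0) (nat_lit 0) (nat_lit 0) (nat_lit 1) (nat_lit 0) (nat_lit 1) (nat_lit 0) (nat_lit 436) (nat_lit 413) (nat_lit 231)) (XT.lf (nat_lit 0) (nat_lit 63439425703) (nat_lit 0) (nat_lit 0) (nat_lit 0) (nat_lit 0) (nat_lit 0) (nat_lit 0) (nat_lit 1) (nat_lit 0) (nat_lit 1) (nat_lit 0) (nat_lit 437) (nat_lit 413) (nat_lit 230))) (XT.nd (nat_lit 94) (nat_lit 0) (nat_lit 0) (XT.lf (nat_lit 0) (nat_lit 63439422110) (nat_lit 0) (nat_lit 0) (nat_lit 0) (nat_lit 0) (nat_lit 0) (nat_lit 0) (nat_lit 1) (nat_lit 0) (nat_lit 1)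 (nat_lit 0) (nat_lit 438) (nat_lit 413) (nat_lit 229)) (XT.nd (nat_lit 94) (nat_lit 0) (nat_lit 0) (XT.lf (nat_lit 0) (nat_lit 63439418783) (nat_lit 0) (nat_lit 0) (nat_lit 0) (nat_lit 0) (nat_lit 0) (nat_lit 0) (nat_lit 1) (nat_lit 0) (nat_lit 1) (nat_lit 0) (nat_lit 439) (nat_lit 413) (nat_lit 228)) (XT.lf (nat_lit 0) (nat_lit 63439415702) (nat_lit 0) (nat_lit 0) (nat_lit 0) (nat_lit 0) (nat_lit 0) (nat_lit 0) (nat_lit 1) (nat_lit 0) (nat_lit 1) (nat_lit 0) (nat_lit 440) (nat_lit 413) (nat_lit 227))))))))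
noncomputable def ec215 : XT := (XT.nd (nat_lit 51606) (nat_lit 0) (nat_lit 3024) (XT.nd (nat_lit 50666) (nat_lit 0) (nat_lit 7224) (XT.nd (nat_lit 50196) (nat_lit 0) (nat_lit 10836) (XT.nd (nat_lit 50008) (nat_lit 0) (nat_lit 10752) (XT.nd (nat_lit 94) (nat_lit 0) (nat_lit 0) (XT.lf (nat_lit 0) (nat_lit 63439412850) (nat_lit 0) (nat_lit 0) (nat_lit 0) (nat_lit 0) (nat_lit 0) (nat_lit 0) (nat_lit 1) (nat_lit 0) (nat_lit 1) (nat_lit 0) (nat_lit 441) (nat_lit 413) (nat_lit 226)) (XT.lf (nat_lit 0) (nat_lit 63439410209) (nat_lit 0) (nat_lit 0) (nat_lit 0) (nat_lit 0) (nat_lit 0) (nat_lit 0) (nat_lit 1) (nat_lit 0) (nat_lit 1) (nat_lit 0) (nat_lit 442) (nat_lit 413) (nat_lit 225))) (XT.nd (nat_lit 94) (nat_lit 0) (nat_lit 84) (XT.lf (nat_lit 924) (nat_lit 34287235886) (nat_lit 0) (nat_lit 60876908503) (nat_lit 924) (nat_lit 34287235886) (nat_lit 139) (nat_lit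 1) (nat_lit 128) (nat_lit 0) (nat_lit 139) (nat_lit 0) (nat_lit 252) (nat_lit 414) (nat_lit 414)) (XT.lf (nat_lit 924) (nat_lit 12790191059) (nat_lit 0) (nat_lit 119519821739) (nat_lit 840) (nat_lit 116889986354) (nat_lit 140) (nat_lit 1) (nat_lit 129) (nat_lit 1) (nat_lit 139) (nat_lit 1) (nat_lit 253) (nat_lit 414) (nat_lit 413)))) (XT.nd (nat_lit 188) (nat_lit 0) (nat_lit 168) (XT.nd (nat_lit 94) (nat_lit 0) (nat_lit 84) (XT.lf (nat_lit 924) (nat_lit 117470522279) (nat_lit 84) (nat_lit 80042464906) (nat_lit 0) (nat_lit 42450872161) (nat_lit 140) (nat_lit 1) (nat_lit 130) (nat_lit 1) (nat_lit 129) (nat_lit 1) (nat_lit 254) (nat_lit 414) (nat_lit 412)) (XT.lf (nat_lit 924) (nat_lit 101504154573) (nat_lit 84) (nat_lit 33545242240) (nat_lit 0) (nat_lit 96140522589) (nat_lit 141) (nat_lit 1) (nat_lit 131) (nat_lit 1) (nat_lit 130) (nat_lit 1) (nat_lit 255) (nat_lit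 414) (nat_lit 411))) (XT.nd (nat_lit 94) (nat_lit 0) (nat_lit 84) (XT.lf (nat_lit 924) (nat_lit 75121703967) (nat_lit 0) (nat_lit 140549157274) (nat_lit 840) (nat_lit 7184852839) (nat_lit 142) (nat_lit 1) (nat_lit 131) (nat_lit 1) (nat_lit 141) (nat_lit 1) (nat_lit 256) (nat_lit 414) (nat_lit 410)) (XT.nd (nat_lit 94) (nat_lit 0) (nat_lit 0) (XT.lf (nat_lit 924) (nat_lit 18024716319) (nat_lit 0) (nat_lit 154994491965) (nat_lit 840) (nat_lit 41900317118) (nat_lit 143) (nat_lit 1) (nat_lit 132) (nat_lit 1) (nat_lit 142) (nat_lit 1) (nat_lit 257) (nat_lit 414) (nat_lit 409)) (XT.lf (nat_lit 924) (nat_lit 34636173492) (nat_lit 84) (nat_lit 134702835260) (nat_lit 0) (nat_lit 38014802027) (nat_lit 143) (nat_lit 1) (nat_lit 133) (nat_lit 1) (nat_lit 132) (nat_lit 1) (nat_lit 258) (nat_lit 414) (nat_lit 408)))))) (XT.nd (nat_lit 470) (nat_lit 1344) (nat_lit 0) (XT.nd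 (nat_lit 188) (nat_lit 1176) (nat_lit 0) (XT.nd (nat_lit 94) (nat_lit 588) (nat_lit 0) (XT.lf (nat_lit 924) (nat_lit 7113480224) (nat_lit 0) (nat_lit 100699279607) (nat_lit 840) (nat_lit 92340184289) (nat_lit 134) (nat_lit 1) (nat_lit 123) (nat_lit 1) (nat_lit 133) (nat_lit 1) (nat_lit 259) (nat_lit 414) (nat_lit 407)) (XT.lf (nat_lit 84) (nat_lit 49255218872) (nat_lit 0) (nat_lit 21344578489) (nat_lit 588) (nat_lit 122693234183) (nat_lit 117) (nat_lit 1) (nat_lit 116) (nat_lit 1) (nat_lit 123) (nat_lit 1) (nat_lit 260) (nat_lit 414) (nat_lit 406))) (XT.nd (nat_lit 94) (nat_lit 756) (nat_lit 0) (XT.lf (nat_lit 504) (nat_lit 135741183614) (nat_lit 0) (nat_lit 44186681610) (nat_lit 420) (nat_lit 6831534002) (nat_lit 117) (nat_lit 1) (nat_lit 111) (nat_lit 1) (nat_lit 116) (nat_lit 1) (nat_lit 261) (nat_lit 414) (nat_lit 405)) (XT.nd (nat_lit 94) (nat_lit 336)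 (nat_lit 0) (XT.lf (nat_lit 504) (nat_lit 97952130722) (nat_lit 0) (nat_lit 20595602639) (nat_lit 420) (nat_lit 61958968055) (nat_lit 112) (nat_lit 1) (nat_lit 106) (nat_lit 1) (nat_lit 111) (nat_lit 1) (nat_lit 262) (nat_lit 414) (nat_lit 404)) (XT.lf (nat_lit 420) (nat_lit 59602622268) (nat_lit 0) (nat_lit 379198514) (nat_lit 336) (nat_lit 114575362543) (nat_lit 107) (nat_lit 1) (nat_lit 102) (nat_lit 1) (nat_lit 106) (nat_lit 1) (nat_lit 263) (nat_lit 414) (nat_lit 403))))) (XT.nd (nat_lit 188) (nat_lit 924) (nat_lit 0) (XT.nd (nat_lit 94) (nat_lit 420) (nat_lit 0) (XT.lf (nat_lit 84) (nat_lit 4397199789) (nat_lit 0) (nat_lit 148294883909) (nat_lit 420) (nat_lit 16189269993) (nat_lit 103) (nat_lit 1) (nat_lit 102) (nat_lit 1) (nat_lit 107) (nat_lit 1) (nat_lit 264) (nat_lit 414) (nat_lit 402)) (XT.lf (nat_lit 84) (nat_lit 113536839072) (nat_lit 0) (nat_lit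 18831299597) (nat_lit 420) (nat_lit 31056233058) (nat_lit 98) (nat_lit 1) (nat_lit 97) (nat_lit 1) (nat_lit 102) (nat_lit 1) (nat_lit 265) (nat_lit 414) (nat_lit 401))) (XT.nd (nat_lit 94) (nat_lit 588) (nat_lit 0) (XT.lf (nat_lit 84) (nat_lit 56805357685) (nat_lit 0) (nat_lit 57683613526) (nat_lit 420) (nat_lit 43719535839) (nat_lit 94) (nat_lit 1) (nat_lit 93) (nat_lit 1) (nat_lit 98) (nat_lit 1) (nat_lit 266) (nat_lit 414) (nat_lit 400)) (XT.nd (nat_lit 94) (nat_lit 252) (nat_lit 0) (XT.lf (nat_lit 84) (nat_lit 2803786491) (nat_lit 0) (nat_lit 96446106117) (nat_lit 420) (nat_lit 53989703718) (nat_lit 90) (nat_lit 1) (nat_lit 89) (nat_lit 1) (nat_lit 94) (nat_lit 1) (nat_lit 267) (nat_lit 414) (nat_lit 399)) (XT.lf (nat_lit 336) (nat_lit 12661741775) (nat_lit 0) (nat_lit 85625298841) (nat_lit 252) (nat_lit 50178393004) (nat_lit 90) (nat_lit 1) (nat_lit 86)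 (nat_lit 1) (nat_lit 89) (nat_lit 1) (nat_lit 268) (nat_lit 414) (nat_lit 398))))))) (XT.nd (nat_lit 846) (nat_lit 1764) (nat_lit 0) (XT.nd (nat_lit 376) (nat_lit 1176) (nat_lit 0) (XT.nd (nat_lit 188) (nat_lit 588) (nat_lit 0) (XT.nd (nat_lit 94) (nat_lit 252) (nat_lit 0) (XT.lf (nat_lit 84) (nat_lit 43749722067) (nat_lit 0) (nat_lit 29986331353) (nat_lit 420) (nat_lit 70152446811) (nat_lit 82) (nat_lit 1) (nat_lit 81) (nat_lit 1) (nat_lit 86) (nat_lit 1) (nat_lit 269) (nat_lit 414) (nat_lit 397)) (XT.lf (nat_lit 336) (nat_lit 67735092933) (nat_lit 0) (nat_lit 63628365256) (nat_lit 252) (nat_lit 8144355236) (nat_lit 82) (nat_lit 1) (nat_lit 78) (nat_lit 1) (nat_lit 81) (nat_lit 1) (nat_lit 270) (nat_lit 414) (nat_lit 396))) (XT.nd (nat_lit 94) (nat_lit 336) (nat_lit 0) (XT.lf (nat_lit 336) (nat_lit 21708770052) (nat_lit 0) (nat_lit 54781416929) (nat_lit 252)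 (nat_lit 58805290655) (nat_lit 79) (nat_lit 1) (nat_lit 75) (nat_lit 1) (nat_lit 78) (nat_lit 1) (nat_lit 271) (nat_lit 414) (nat_lit 395)) (XT.lf (nat_lit 84) (nat_lit 24742752321) (nat_lit 0) (nat_lit 22654139943) (nat_lit 336) (nat_lit 83861195819) (nat_lit 72) (nat_lit 1) (nat_lit 71) (nat_lit 1) (nat_lit 75) (nat_lit 1) (nat_lit 272) (nat_lit 414) (nat_lit 394)))) (XT.nd (nat_lit 188) (nat_lit 756) (nat_lit 0) (XT.nd (nat_lit 94) (nat_lit 168) (nat_lit 0) (XT.lf (nat_lit 336) (nat_lit 61569091674) (nat_lit 0) (nat_lit 40965792026) (nat_lit 252) (nat_lit 24833597815) (nat_lit 72) (nat_lit 1) (nat_lit 68) (nat_lit 1) (nat_lit 71) (nat_lit 1) (nat_lit 273) (nat_lit 414) (nat_lit 393)) (XT.lf (nat_lit 252) (nat_lit 15263068737) (nat_lit 0) (nat_lit 35739665489) (nat_lit 168) (nat_lit 72633058301) (nat_lit 69) (nat_lit 1) (nat_lit 66) (nat_lit 1) (nat_lit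 68) (nat_lit 1) (nat_lit 274) (nat_lit 414) (nat_lit 392))) (XT.nd (nat_lit 94) (nat_lit 420) (nat_lit 0) (XT.lf (nat_lit 84) (nat_lit 2585661356) (nat_lit 0) (nat_lit 28934111897) (nat_lit 336) (nat_lit 88528019144) (nat_lit 63) (nat_lit 1) (nat_lit 62) (nat_lit 1) (nat_lit 66) (nat_lit 1) (nat_lit 275) (nat_lit 414) (nat_lit 391)) (XT.nd (nat_lit 94) (nat_lit 252) (nat_lit 0) (XT.lf (nat_lit 252) (nat_lit 44351677174) (nat_lit 0) (nat_lit 27715993310) (nat_lit 168) (nat_lit 44506021457) (nat_lit 63) (nat_lit 1) (nat_lit 60) (nat_lit 1) (nat_lit 62) (nat_lit 1) (nat_lit 276) (nat_lit 414) (nat_lit 390)) (XT.lf (nat_lit 84) (nat_lit 24063366566) (nat_lit 0) (nat_lit 1111501988) (nat_lit 252) (nat_lit 88076320703) (nat_lit 58) (nat_lit 1) (nat_lit 57) (nat_lit 1) (nat_lit 60) (nat_lit 1) (nat_lit 277) (nat_lit 414) (nat_lit 389)))))) (XT.nd (nat_lit 470) (nat_lit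 840) (nat_lit 0) (XT.nd (nat_lit 188) (nat_lit 588) (nat_lit 0) (XT.nd (nat_lit 94) (nat_lit 168) (nat_lit 0) (XT.lf (nat_lit 252) (nat_lit 65784597446) (nat_lit 0) (nat_lit 22795838029) (nat_lit 168) (nat_lit 21444900336) (nat_lit 58) (nat_lit 1) (nat_lit 55) (nat_lit 1) (nat_lit 57) (nat_lit 1) (nat_lit 278) (nat_lit 414) (nat_lit 388)) (XT.lf (nat_lit 252) (nat_lit 20435332139) (nat_lit 0) (nat_lit 21191252250) (nat_lit 168) (nat_lit 65296236472) (nat_lit 56) (nat_lit 1) (nat_lit 53) (nat_lit 1) (nat_lit 55) (nat_lit 1) (nat_lit 279) (nat_lit 414) (nat_lit 387))) (XT.nd (nat_lit 94) (nat_lit 336) (nat_lit 0) (XT.lf (nat_lit 252) (nat_lit 81120758399) (nat_lit 0) (nat_lit 20246521536) (nat_lit 168) (nat_lit 2568506150) (nat_lit 53) (nat_lit 1) (nat_lit 50) (nat_lit 1) (nat_lit 52) (nat_lit 1) (nat_lit 280) (nat_lit 414) (nat_lit 386)) (XT.nd (nat_lit 94)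 (nat_lit 168) (nat_lit 0) (XT.lf (nat_lit 252) (nat_lit 36305891830) (nat_lit 0) (nat_lit 19328602018) (nat_lit 168) (nat_lit 45397257727) (nat_lit 51) (nat_lit 1) (nat_lit 48) (nat_lit 1) (nat_lit 50) (nat_lit 1) (nat_lit 281) (nat_lit 414) (nat_lit 385)) (XT.lf (nat_lit 84) (nat_lit 12436169683) (nat_lit 0) (nat_lit 6835479248) (nat_lit 168) (nat_lit 78976519983) (nat_lit 47) (nat_lit 1) (nat_lit 46) (nat_lit 1) (nat_lit 48) (nat_lit 1) (nat_lit 282) (nat_lit 414) (nat_lit 384))))) (XT.nd (nat_lit 188) (nat_lit 588) (nat_lit 0) (XT.nd (nat_lit 94) (nat_lit 84) (nat_lit 0) (XT.lf (nat_lit 252) (nat_lit 47635418058) (nat_lit 0) (nat_lit 19067583621) (nat_lit 168) (nat_lit 28831825635) (nat_lit 47) (nat_lit 1) (nat_lit 44) (nat_lit 1) (nat_lit 46) (nat_lit 1) (nat_lit 283) (nat_lit 414) (nat_lit 383)) (XT.lf (nat_lit 168) (nat_lit 5129657634) (nat_lit 0) (nat_lit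 19535908115) (nat_lit 84) (nat_lit 68263039200) (nat_lit 45) (nat_lit 1) (nat_lit 43) (nat_lit 1) (nat_lit 44) (nat_lit 1) (nat_lit 284) (nat_lit 414) (nat_lit 382))) (XT.nd (nat_lit 94) (nat_lit 336) (nat_lit 0) (XT.lf (nat_lit 252) (nat_lit 55372760314) (nat_lit 0) (nat_lit 19980020777) (nat_lit 168) (nat_lit 15041463090) (nat_lit 43) (nat_lit 1) (nat_lit 40) (nat_lit 1) (nat_lit 42) (nat_lit 1) (nat_lit 285) (nat_lit 414) (nat_lit 381)) (XT.nd (nat_lit 94) (nat_lit 252) (nat_lit 0) (XT.lf (nat_lit 168) (nat_lit 13926657536) (nat_lit 0) (nat_lit 20727093887) (nat_lit 84) (nat_lit 53291545039) (nat_lit 41) (nat_lit 1) (nat_lit 39) (nat_lit 1) (nat_lit 40) (nat_lit 1) (nat_lit 286) (nat_lit 414) (nat_lit 380)) (XT.lf (nat_lit 252) (nat_lit 60285075532) (nat_lit 0) (nat_lit 21726767758) (nat_lit 168) (nat_lit 3565548580) (nat_lit 39) (nat_lit 1) (nat_lit 36)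 (nat_lit 1) (nat_lit 38) (nat_lit 1) (nat_lit 287) (nat_lit 414) (nat_lit 379))))))))
noncomputable def ec216 : XT := (XT.nd (nat_lit 1692) (nat_lit 588) (nat_lit 0) (XT.nd (nat_lit 846) (nat_lit 1176) (nat_lit 0) (XT.nd (nat_lit 376) (nat_lit 588) (nat_lit 0) (XT.nd (nat_lit 188) (nat_lit 336) (nat_lit 0) (XT.nd (nat_lit 94) (nat_lit 252) (nat_lit 0) (XT.lf (nat_lit 168) (nat_lit 20042370821) (nat_lit 0) (nat_lit 22650416462) (nat_lit 84) (nat_lit 40580177196) (nat_lit 37) (nat_lit 1) (nat_lit 35) (nat_lit 1) (nat_lit 36) (nat_lit 1) (nat_lit 288) (nat_lit 414) (nat_lit 378)) (XT.lf (nat_lit 84) (nat_lit 5785025831) (nat_lit 0) (nat_lit 18157654022) (nat_lit 252) (nat_lit 57108643943) (nat_lit 33) (nat_lit 1) (nat_lit 32) (nat_lit 1) (nat_lit 35) (nat_lit 1) (nat_lit 289) (nat_lit 414) (nat_lit 377))) (XT.nd (nat_lit 94) (nat_lit 252) (nat_lit 0) (XT.lf (nat_lit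 168) (nat_lit 24052653263) (nat_lit 0) (nat_lit 25061724630) (nat_lit 84) (nat_lit 29770478300) (nat_lit 33) (nat_lit 1) (nat_lit 31) (nat_lit 1) (nat_lit 32) (nat_lit 1) (nat_lit 290) (nat_lit 414) (nat_lit 376)) (XT.lf (nat_lit 84) (nat_lit 13453816028) (nat_lit 0) (nat_lit 13030930567) (nat_lit 252) (nat_lit 50309776973) (nat_lit 29) (nat_lit 1) (nat_lit 28) (nat_lit 1) (nat_lit 31) (nat_lit 1) (nat_lit 291) (nat_lit 414) (nat_lit 375)))) (XT.nd (nat_lit 188) (nat_lit 336) (nat_lit 0) (XT.nd (nat_lit 94) (nat_lit 168) (nat_lit 0) (XT.lf (nat_lit 168) (nat_lit 26421893579) (nat_lit 0) (nat_lit 27770430817) (nat_lit 84) (nat_lit 20565273753) (nat_lit 29) (nat_lit 1) (nat_lit 27) (nat_lit 1) (nat_lit 28) (nat_lit 1) (nat_lit 292) (nat_lit 414) (nat_lit 374)) (XT.lf (nat_lit 84) (nat_lit 19807128255) (nat_lit 0) (nat_lit 9437742207) (nat_lit 168) (nat_lit 43543072525)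 (nat_lit 26) (nat_lit 1) (nat_lit 25) (nat_lit 1) (nat_lit 27) (nat_lit 1) (nat_lit 293) (nat_lit 414) (nat_lit 373))) (XT.nd (nat_lit 94) (nat_lit 252) (nat_lit 0) (XT.lf (nat_lit 168) (nat_lit 27523841816) (nat_lit 0) (nat_lit 30629071765) (nat_lit 84) (nat_lit 12717740139) (nat_lit 26) (nat_lit 1) (nat_lit 24) (nat_lit 1) (nat_lit 25) (nat_lit 1) (nat_lit 294) (nat_lit 414) (nat_lit 372)) (XT.nd (nat_lit 94) (nat_lit 84) (nat_lit 0) (XT.lf (nat_lit 84) (nat_lit 25054175609) (nat_lit 0) (nat_lit 7040678747) (nat_lit 168) (nat_lit 36917483909) (nat_lit 23) (nat_lit 1) (nat_lit 22) (nat_lit 1) (nat_lit 24) (nat_lit 1) (nat_lit 295) (nat_lit 414) (nat_lit 371)) (XT.lf (nat_lit 168) (nat_lit 27658592681) (nat_lit 0) (nat_lit 33524824401) (nat_lit 84) (nat_lit 6022459111) (nat_lit 23) (nat_lit 1) (nat_lit 21) (nat_lit 1) (nat_lit 22) (nat_lit 1) (nat_lit 296)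 (nat_lit 414) (nat_lit 370)))))) (XT.nd (nat_lit 376) (nat_lit 672) (nat_lit 0) (XT.nd (nat_lit 188) (nat_lit 252) (nat_lit 0) (XT.nd (nat_lit 94) (nat_lit 84) (nat_lit 0) (XT.lf (nat_lit 84) (nat_lit 29368837522) (nat_lit 0) (nat_lit 5568431027) (nat_lit 168) (nat_lit 30513382000) (nat_lit 20) (nat_lit 1) (nat_lit 19) (nat_lit 1) (nat_lit 21) (nat_lit 1) (nat_lit 297) (nat_lit 414) (nat_lit 369)) (XT.lf (nat_lit 168) (nat_lit 27066430736) (nat_lit 0) (nat_lit 36372615681) (nat_lit 84) (nat_lit 308093687) (nat_lit 20) (nat_lit 1) (nat_lit 18) (nat_lit 1) (nat_lit 19) (nat_lit 1) (nat_lit 298) (nat_lit 414) (nat_lit 368))) (XT.nd (nat_lit 94) (nat_lit 84) (nat_lit 0) (XT.lf (nat_lit 84) (nat_lit 32895914156) (nat_lit 0) (nat_lit 4803379265) (nat_lit 168) (nat_lit 24388379848) (nat_lit 17) (nat_lit 1) (nat_lit 16) (nat_lit 1) (nat_lit 18) (nat_lit 1) (nat_lit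 299) (nat_lit 414) (nat_lit 367)) (XT.lf (nat_lit 0) (nat_lit 4422385488) (nat_lit 0) (nat_lit 34612250869) (nat_lit 168) (nat_lit 21441833870) (nat_lit 15) (nat_lit 3) (nat_lit 15) (nat_lit 1) (nat_lit 17) (nat_lit 1) (nat_lit 300) (nat_lit 414) (nat_lit 366)))) (XT.nd (nat_lit 188) (nat_lit 420) (nat_lit 0) (XT.nd (nat_lit 94) (nat_lit 84) (nat_lit 0) (XT.lf (nat_lit 84) (nat_lit 35756248684) (nat_lit 0) (nat_lit 4571476830) (nat_lit 168) (nat_lit 18582051553) (nat_lit 14) (nat_lit 1) (nat_lit 13) (nat_lit 1) (nat_lit 15) (nat_lit 1) (nat_lit 301) (nat_lit 414) (nat_lit 365)) (XT.lf (nat_lit 0) (nat_lit 8448392363) (nat_lit 0) (nat_lit 33098814811) (nat_lit 168) (nat_lit 15837601304) (nat_lit 12) (nat_lit 3) (nat_lit 12) (nat_lit 1) (nat_lit 14) (nat_lit 1) (nat_lit 302) (nat_lit 414) (nat_lit 364))) (XT.nd (nat_lit 94) (nat_lit 252) (nat_lit 0) (XT.lf (nat_lit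 84) (nat_lit 38050924163) (nat_lit 0) (nat_lit 4734007146) (nat_lit 168) (nat_lit 13119750580) (nat_lit 11) (nat_lit 1) (nat_lit 10) (nat_lit 1) (nat_lit 12) (nat_lit 1) (nat_lit 303) (nat_lit 414) (nat_lit 363)) (XT.nd (nat_lit 94) (nat_lit 168) (nat_lit 0) (XT.lf (nat_lit 0) (nat_lit 11877499449) (nat_lit 0) (nat_lit 32004893832) (nat_lit 168) (nat_lit 10578234695) (nat_lit 9) (nat_lit 3) (nat_lit 9) (nat_lit 1) (nat_lit 11) (nat_lit 1) (nat_lit 304) (nat_lit 414) (nat_lit 362)) (XT.lf (nat_lit 84) (nat_lit 39864703906) (nat_lit 0) (nat_lit 5180868982) (nat_lit 168) (nat_lit 8015694866) (nat_lit 8) (nat_lit 1) (nat_lit 7) (nat_lit 1) (nat_lit 9) (nat_lit 1) (nat_lit 305) (nat_lit 414) (nat_lit 361))))))) (XT.nd (nat_lit 846) (nat_lit 0) (nat_lit 0) (XT.nd (nat_lit 376) (nat_lit 0) (nat_lit 0) (XT.nd (nat_lit 188) (nat_lit 336) (nat_lit 0) (XT.nd (nat_lit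 94) (nat_lit 168) (nat_lit 0) (XT.lf (nat_lit 0) (nat_lit 14792087502) (nat_lit 0) (nat_lit 31226369936) (nat_lit 168) (nat_lit 5674798138) (nat_lit 6) (nat_lit 3) (nat_lit 6) (nat_lit 1) (nat_lit 8) (nat_lit 1) (nat_lit 306) (nat_lit 414) (nat_lit 360)) (XT.lf (nat_lit 84) (nat_lit 41268853267) (nat_lit 0) (nat_lit 5825108721) (nat_lit 168) (nat_lit 3275455301) (nat_lit 5) (nat_lit 1) (nat_lit 4) (nat_lit 1) (nat_lit 6) (nat_lit 1) (nat_lit 307) (nat_lit 414) (nat_lit 359))) (XT.nd (nat_lit 94) (nat_lit 252) (nat_lit 0) (XT.lf (nat_lit 0) (nat_lit 17261830990) (nat_lit 0) (nat_lit 30680638909) (nat_lit 168) (nat_lit 1130495648) (nat_lit 3) (nat_lit 3) (nat_lit 3) (nat_lit 1) (nat_lit 5) (nat_lit 1) (nat_lit 308) (nat_lit 414) (nat_lit 358)) (XT.lf (nat_lit 0) (nat_lit 69366898249) (nat_lit 0) (nat_lit 0) (nat_lit 0) (nat_lit 0) (nat_lit 0) (nat_lit 0) (nat_lit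 1) (nat_lit 0) (nat_lit 1) (nat_lit 0) (nat_lit 309) (nat_lit 414) (nat_lit 357)))) (XT.nd (nat_lit 188) (nat_lit 0) (nat_lit 0) (XT.nd (nat_lit 94) (nat_lit 0) (nat_lit 0) (XT.lf (nat_lit 0) (nat_lit 69303759665) (nat_lit 0) (nat_lit 0) (nat_lit 0) (nat_lit 0) (nat_lit 0) (nat_lit 0) (nat_lit 1) (nat_lit 0) (nat_lit 1) (nat_lit 0) (nat_lit 310) (nat_lit 414) (nat_lit 356)) (XT.lf (nat_lit 0) (nat_lit 69245298014) (nat_lit 0) (nat_lit 0) (nat_lit 0) (nat_lit 0) (nat_lit 0) (nat_lit 0) (nat_lit 1) (nat_lit 0) (nat_lit 1) (nat_lit 0) (nat_lit 311) (nat_lit 414) (nat_lit 355))) (XT.nd (nat_lit 94) (nat_lit 0) (nat_lit 0) (XT.lf (nat_lit 0) (nat_lit 69191166855) (nat_lit 0) (nat_lit 0) (nat_lit 0) (nat_lit 0) (nat_lit 0) (nat_lit 0) (nat_lit 1) (nat_lit 0) (nat_lit 1) (nat_lit 0) (nat_lit 312) (nat_lit 414) (nat_lit 354)) (XT.nd (nat_lit 94) (nat_lit 0) (nat_lit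 0) (XT.lf (nat_lit 0) (nat_lit 69141045412) (nat_lit 0) (nat_lit 0) (nat_lit 0) (nat_lit 0) (nat_lit 0) (nat_lit 0) (nat_lit 1) (nat_lit 0) (nat_lit 1) (nat_lit 0) (nat_lit 313) (nat_lit 414) (nat_lit 353)) (XT.lf (nat_lit 0) (nat_lit 69094636668) (nat_lit 0) (nat_lit 0) (nat_lit 0) (nat_lit 0) (nat_lit 0) (nat_lit 0) (nat_lit 1) (nat_lit 0) (nat_lit 1) (nat_lit 0) (nat_lit 314) (nat_lit 414) (nat_lit 352)))))) (XT.nd (nat_lit 470) (nat_lit 0) (nat_lit 0) (XT.nd (nat_lit 188) (nat_lit 0) (nat_lit 0) (XT.nd (nat_lit 94) (nat_lit 0) (nat_lit 0) (XT.lf (nat_lit 0) (nat_lit 69051665609) (nat_lit 0) (nat_lit 0) (nat_lit 0) (nat_lit 0) (nat_lit 0) (nat_lit 0) (nat_lit 1) (nat_lit 0) (nat_lit 1) (nat_lit 0) (nat_lit 315) (nat_lit 414) (nat_lit 351)) (XT.lf (nat_lit 0) (nat_lit 69011877591) (nat_lit 0) (nat_lit 0) (nat_lit 0) (nat_lit 0) (nat_lit 0) (nat_lit 0) (nat_lit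 1) (nat_lit 0) (nat_lit 1) (nat_lit 0) (nat_lit 316) (nat_lit 414) (nat_lit 350))) (XT.nd (nat_lit 94) (nat_lit 0) (nat_lit 0) (XT.lf (nat_lit 0) (nat_lit 68975036834) (nat_lit 0) (nat_lit 0) (nat_lit 0) (nat_lit 0) (nat_lit 0) (nat_lit 0) (nat_lit 1) (nat_lit 0) (nat_lit 1) (nat_lit 0) (nat_lit 317) (nat_lit 414) (nat_lit 349)) (XT.nd (nat_lit 94) (nat_lit 0) (nat_lit 0) (XT.lf (nat_lit 0) (nat_lit 68940925022) (nat_lit 0) (nat_lit 0) (nat_lit 0) (nat_lit 0) (nat_lit 0) (nat_lit 0) (nat_lit 1) (nat_lit 0) (nat_lit 1) (nat_lit 0) (nat_lit 318) (nat_lit 414) (nat_lit 348)) (XT.lf (nat_lit 0) (nat_lit 68909340011) (nat_lit 0) (nat_lit 0) (nat_lit 0) (nat_lit 0) (nat_lit 0) (nat_lit 0) (nat_lit 1) (nat_lit 0) (nat_lit 1) (nat_lit 0) (nat_lit 319) (nat_lit 414) (nat_lit 347))))) (XT.nd (nat_lit 188) (nat_lit 0) (nat_lit 0) (XT.nd (nat_lit 94) (nat_lit 0) (nat_lit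 0) (XT.lf (nat_lit 0) (nat_lit 68880094630) (nat_lit 0) (nat_lit 0) (nat_lit 0) (nat_lit 0) (nat_lit 0) (nat_lit 0) (nat_lit 1) (nat_lit 0) (nat_lit 1) (nat_lit 0) (nat_lit 320) (nat_lit 414) (nat_lit 346)) (XT.lf (nat_lit 0) (nat_lit 68853015574) (nat_lit 0) (nat_lit 0) (nat_lit 0) (nat_lit 0) (nat_lit 0) (nat_lit 0) (nat_lit 1) (nat_lit 0) (nat_lit 1) (nat_lit 0) (nat_lit 321) (nat_lit 414) (nat_lit 345))) (XT.nd (nat_lit 94) (nat_lit 0) (nat_lit 0) (XT.lf (nat_lit 0) (nat_lit 68827942374) (nat_lit 0) (nat_lit 0) (nat_lit 0) (nat_lit 0) (nat_lit 0) (nat_lit 0) (nat_lit 1) (nat_lit 0) (nat_lit 1) (nat_lit 0) (nat_lit 322) (nat_lit 414) (nat_lit 344)) (XT.nd (nat_lit 94) (nat_lit 0) (nat_lit 0) (XT.lf (nat_lit 0) (nat_lit 68804726447) (nat_lit 0) (nat_lit 0) (nat_lit 0) (nat_lit 0) (nat_lit 0) (nat_lit 0) (nat_lit 1) (nat_lit 0) (nat_lit 1) (nat_lit 0) (nat_lit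 323) (nat_lit 414) (nat_lit 343)) (XT.lf (nat_lit 0) (nat_lit 68783230220) (nat_lit 0) (nat_lit 0) (nat_lit 0) (nat_lit 0) (nat_lit 0) (nat_lit 0) (nat_lit 1) (nat_lit 0) (nat_lit 1) (nat_lit 0) (nat_lit 324) (nat_lit 414) (nat_lit 342))))))))
noncomputable def ec217 : XT := (XT.nd (nat_lit 1786) (nat_lit 0) (nat_lit 0) (XT.nd (nat_lit 846) (nat_lit 0) (nat_lit 0) (XT.nd (nat_lit 376) (nat_lit 0) (nat_lit 0) (XT.nd (nat_lit 188) (nat_lit 0) (nat_lit 0) (XT.nd (nat_lit 94) (nat_lit 0) (nat_lit 0) (XT.lf (nat_lit 0) (nat_lit 68763326305) (nat_lit 0) (nat_lit 0) (nat_lit 0) (nat_lit 0) (nat_lit 0) (nat_lit 0) (nat_lit 1) (nat_lit 0) (nat_lit 1) (nat_lit 0) (nat_lit 325) (nat_lit 414) (nat_lit 341)) (XT.lf (nat_lit 0) (nat_lit 68744896754) (nat_lit 0) (nat_lit 0) (nat_lit 0) (nat_lit 0) (nat_lit 0) (nat_lit 0) (nat_lit 1) (nat_lit 0) (nat_lit 1) (nat_lit 0) (nat_lit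 326) (nat_lit 414) (nat_lit 340))) (XT.nd (nat_lit 94) (nat_lit 0) (nat_lit 0) (XT.lf (nat_lit 0) (nat_lit 68727832355) (nat_lit 0) (nat_lit 0) (nat_lit 0) (nat_lit 0) (nat_lit 0) (nat_lit 0) (nat_lit 1) (nat_lit 0) (nat_lit 1) (nat_lit 0) (nat_lit 327) (nat_lit 414) (nat_lit 339)) (XT.lf (nat_lit 0) (nat_lit 68712031986) (nat_lit 0) (nat_lit 0) (nat_lit 0) (nat_lit 0) (nat_lit 0) (nat_lit 0) (nat_lit 1) (nat_lit 0) (nat_lit 1) (nat_lit 0) (nat_lit 328) (nat_lit 414) (nat_lit 338)))) (XT.nd (nat_lit 188) (nat_lit 0) (nat_lit 0) (XT.nd (nat_lit 94) (nat_lit 0) (nat_lit 0) (XT.lf (nat_lit 0) (nat_lit 68697402015) (nat_lit 0) (nat_lit 0) (nat_lit 0) (nat_lit 0) (nat_lit 0) (nat_lit 0) (nat_lit 1) (nat_lit 0) (nat_lit 1) (nat_lit 0) (nat_lit 329) (nat_lit 414) (nat_lit 337)) (XT.lf (nat_lit 0) (nat_lit 68683855745) (nat_lit 0) (nat_lit 0) (nat_lit 0) (nat_lit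 0) (nat_lit 0) (nat_lit 0) (nat_lit 1) (nat_lit 0) (nat_lit 1) (nat_lit 0) (nat_lit 330) (nat_lit 414) (nat_lit 336))) (XT.nd (nat_lit 94) (nat_lit 0) (nat_lit 0) (XT.lf (nat_lit 0) (nat_lit 68671312902) (nat_lit 0) (nat_lit 0) (nat_lit 0) (nat_lit 0) (nat_lit 0) (nat_lit 0) (nat_lit 1) (nat_lit 0) (nat_lit 1) (nat_lit 0) (nat_lit 331) (nat_lit 414) (nat_lit 335)) (XT.nd (nat_lit 94) (nat_lit 0) (nat_lit 0) (XT.lf (nat_lit 0) (nat_lit 68659699159) (nat_lit 0) (nat_lit 0) (nat_lit 0) (nat_lit 0) (nat_lit 0) (nat_lit 0) (nat_lit 1) (nat_lit 0) (nat_lit 1) (nat_lit 0) (nat_lit 332) (nat_lit 414) (nat_lit 334)) (XT.lf (nat_lit 0) (nat_lit 68648945693) (nat_lit 0) (nat_lit 0) (nat_lit 0) (nat_lit 0) (nat_lit 0) (nat_lit 0) (nat_lit 1) (nat_lit 0) (nat_lit 1) (nat_lit 0) (nat_lit 333) (nat_lit 414) (nat_lit 333)))))) (XT.nd (nat_lit 470) (nat_lit 0) (nat_lit 0)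 (XT.nd (nat_lit 188) (nat_lit 0) (nat_lit 0) (XT.nd (nat_lit 94) (nat_lit 0) (nat_lit 0) (XT.lf (nat_lit 0) (nat_lit 68638988780) (nat_lit 0) (nat_lit 0) (nat_lit 0) (nat_lit 0) (nat_lit 0) (nat_lit 0) (nat_lit 1) (nat_lit 0) (nat_lit 1) (nat_lit 0) (nat_lit 334) (nat_lit 414) (nat_lit 332)) (XT.lf (nat_lit 0) (nat_lit 68629769417) (nat_lit 0) (nat_lit 0) (nat_lit 0) (nat_lit 0) (nat_lit 0) (nat_lit 0) (nat_lit 1) (nat_lit 0) (nat_lit 1) (nat_lit 0) (nat_lit 335) (nat_lit 414) (nat_lit 331))) (XT.nd (nat_lit 94) (nat_lit 0) (nat_lit 0) (XT.lf (nat_lit 0) (nat_lit 68621232969) (nat_lit 0) (nat_lit 0) (nat_lit 0) (nat_lit 0) (nat_lit 0) (nat_lit 0) (nat_lit 1) (nat_lit 0) (nat_lit 1) (nat_lit 0) (nat_lit 336) (nat_lit 414) (nat_lit 330)) (XT.nd (nat_lit 94) (nat_lit 0) (nat_lit 0) (XT.lf (nat_lit 0) (nat_lit 68613328851) (nat_lit 0) (nat_lit 0) (nat_lit 0) (nat_lit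 0) (nat_lit 0) (nat_lit 0) (nat_lit 1) (nat_lit 0) (nat_lit 1) (nat_lit 0) (nat_lit 337) (nat_lit 414) (nat_lit 329)) (XT.lf (nat_lit 0) (nat_lit 68606010222) (nat_lit 0) (nat_lit 0) (nat_lit 0) (nat_lit 0) (nat_lit 0) (nat_lit 0) (nat_lit 1) (nat_lit 0) (nat_lit 1) (nat_lit 0) (nat_lit 338) (nat_lit 414) (nat_lit 328))))) (XT.nd (nat_lit 188) (nat_lit 0) (nat_lit 0) (XT.nd (nat_lit 94) (nat_lit 0) (nat_lit 0) (XT.lf (nat_lit 0) (nat_lit 68599233715) (nat_lit 0) (nat_lit 0) (nat_lit 0) (nat_lit 0) (nat_lit 0) (nat_lit 0) (nat_lit 1) (nat_lit 0) (nat_lit 1) (nat_lit 0) (nat_lit 339) (nat_lit 414) (nat_lit 327)) (XT.lf (nat_lit 0) (nat_lit 68592959171) (nat_lit 0) (nat_lit 0) (nat_lit 0) (nat_lit 0) (nat_lit 0) (nat_lit 0) (nat_lit 1) (nat_lit 0) (nat_lit 1) (nat_lit 0) (nat_lit 340) (nat_lit 414) (nat_lit 326))) (XT.nd (nat_lit 94) (nat_lit 0) (nat_lit 0) (XT.lf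 (nat_lit 0) (nat_lit 68587149408) (nat_lit 0) (nat_lit 0) (nat_lit 0) (nat_lit 0) (nat_lit 0) (nat_lit 0) (nat_lit 1) (nat_lit 0) (nat_lit 1) (nat_lit 0) (nat_lit 341) (nat_lit 414) (nat_lit 325)) (XT.nd (nat_lit 94) (nat_lit 0) (nat_lit 0) (XT.lf (nat_lit 0) (nat_lit 68581769998) (nat_lit 0) (nat_lit 0) (nat_lit 0) (nat_lit 0) (nat_lit 0) (nat_lit 0) (nat_lit 1) (nat_lit 0) (nat_lit 1) (nat_lit 0) (nat_lit 342) (nat_lit 414) (nat_lit 324)) (XT.lf (nat_lit 0) (nat_lit 68576789062) (nat_lit 0) (nat_lit 0) (nat_lit 0) (nat_lit 0) (nat_lit 0) (nat_lit 0) (nat_lit 1) (nat_lit 0) (nat_lit 1) (nat_lit 0) (nat_lit 343) (nat_lit 414) (nat_lit 323))))))) (XT.nd (nat_lit 846) (nat_lit 0) (nat_lit 0) (XT.nd (nat_lit 376) (nat_lit 0) (nat_lit 0) (XT.nd (nat_lit 188) (nat_lit 0) (nat_lit 0) (XT.nd (nat_lit 94) (nat_lit 0) (nat_lit 0) (XT.lf (nat_lit 0) (nat_lit 68572177085)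 (nat_lit 0) (nat_lit 0) (nat_lit 0) (nat_lit 0) (nat_lit 0) (nat_lit 0) (nat_lit 1) (nat_lit 0) (nat_lit 1) (nat_lit 0) (nat_lit 344) (nat_lit 414) (nat_lit 322)) (XT.lf (nat_lit 0) (nat_lit 68567906736) (nat_lit 0) (nat_lit 0) (nat_lit 0) (nat_lit 0) (nat_lit 0) (nat_lit 0) (nat_lit 1) (nat_lit 0) (nat_lit 1) (nat_lit 0) (nat_lit 345) (nat_lit 414) (nat_lit 321))) (XT.nd (nat_lit 94) (nat_lit 0) (nat_lit 0) (XT.lf (nat_lit 0) (nat_lit 68563952709) (nat_lit 0) (nat_lit 0) (nat_lit 0) (nat_lit 0) (nat_lit 0) (nat_lit 0) (nat_lit 1) (nat_lit 0) (nat_lit 1) (nat_lit 0) (nat_lit 346) (nat_lit 414) (nat_lit 320)) (XT.lf (nat_lit 0) (nat_lit 68560291573) (nat_lit 0) (nat_lit 0) (nat_lit 0) (nat_lit 0) (nat_lit 0) (nat_lit 0) (nat_lit 1) (nat_lit 0) (nat_lit 1) (nat_lit 0) (nat_lit 347) (nat_lit 414) (nat_lit 319)))) (XT.nd (nat_lit 188) (nat_lit 0) (nat_lit 0) (XT.nd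 (nat_lit 94) (nat_lit 0) (nat_lit 0) (XT.lf (nat_lit 0) (nat_lit 68556901632) (nat_lit 0) (nat_lit 0) (nat_lit 0) (nat_lit 0) (nat_lit 0) (nat_lit 0) (nat_lit 1) (nat_lit 0) (nat_lit 1) (nat_lit 0) (nat_lit 348) (nat_lit 414) (nat_lit 318)) (XT.lf (nat_lit 0) (nat_lit 68553762798) (nat_lit 0) (nat_lit 0) (nat_lit 0) (nat_lit 0) (nat_lit 0) (nat_lit 0) (nat_lit 1) (nat_lit 0) (nat_lit 1) (nat_lit 0) (nat_lit 349) (nat_lit 414) (nat_lit 317))) (XT.nd (nat_lit 94) (nat_lit 0) (nat_lit 0) (XT.lf (nat_lit 0) (nat_lit 68550856470) (nat_lit 0) (nat_lit 0) (nat_lit 0) (nat_lit 0) (nat_lit 0) (nat_lit 0) (nat_lit 1) (nat_lit 0) (nat_lit 1) (nat_lit 0) (nat_lit 350) (nat_lit 414) (nat_lit 316)) (XT.nd (nat_lit 94) (nat_lit 0) (nat_lit 0) (XT.lf (nat_lit 0) (nat_lit 68548165425) (nat_lit 0) (nat_lit 0) (nat_lit 0) (nat_lit 0) (nat_lit 0) (nat_lit 0) (nat_lit 1) (nat_lit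 0) (nat_lit 1) (nat_lit 0) (nat_lit 351) (nat_lit 414) (nat_lit 315)) (XT.lf (nat_lit 0) (nat_lit 68545673718) (nat_lit 0) (nat_lit 0) (nat_lit 0) (nat_lit 0) (nat_lit 0) (nat_lit 0) (nat_lit 1) (nat_lit 0) (nat_lit 1) (nat_lit 0) (nat_lit 352) (nat_lit 414) (nat_lit 314)))))) (XT.nd (nat_lit 470) (nat_lit 0) (nat_lit 0) (XT.nd (nat_lit 188) (nat_lit 0) (nat_lit 0) (XT.nd (nat_lit 94) (nat_lit 0) (nat_lit 0) (XT.lf (nat_lit 0) (nat_lit 68543366581) (nat_lit 0) (nat_lit 0) (nat_lit 0) (nat_lit 0) (nat_lit 0) (nat_lit 0) (nat_lit 1) (nat_lit 0) (nat_lit 1) (nat_lit 0) (nat_lit 353) (nat_lit 414) (nat_lit 313)) (XT.lf (nat_lit 0) (nat_lit 68541230343) (nat_lit 0) (nat_lit 0) (nat_lit 0) (nat_lit 0) (nat_lit 0) (nat_lit 0) (nat_lit 1) (nat_lit 0) (nat_lit 1) (nat_lit 0) (nat_lit 354) (nat_lit 414) (nat_lit 312))) (XT.nd (nat_lit 94) (nat_lit 0) (nat_lit 0) (XT.lf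 (nat_lit 0) (nat_lit 68539252345) (nat_lit 0) (nat_lit 0) (nat_lit 0) (nat_lit 0) (nat_lit 0) (nat_lit 0) (nat_lit 1) (nat_lit 0) (nat_lit 1) (nat_lit 0) (nat_lit 355) (nat_lit 414) (nat_lit 311)) (XT.nd (nat_lit 94) (nat_lit 0) (nat_lit 0) (XT.lf (nat_lit 0) (nat_lit 68537420865) (nat_lit 0) (nat_lit 0) (nat_lit 0) (nat_lit 0) (nat_lit 0) (nat_lit 0) (nat_lit 1) (nat_lit 0) (nat_lit 1) (nat_lit 0) (nat_lit 356) (nat_lit 414) (nat_lit 310)) (XT.lf (nat_lit 0) (nat_lit 68535725051) (nat_lit 0) (nat_lit 0) (nat_lit 0) (nat_lit 0) (nat_lit 0) (nat_lit 0) (nat_lit 1) (nat_lit 0) (nat_lit 1) (nat_lit 0) (nat_lit 357) (nat_lit 414) (nat_lit 309))))) (XT.nd (nat_lit 188) (nat_lit 0) (nat_lit 0) (XT.nd (nat_lit 94) (nat_lit 0) (nat_lit 0) (XT.lf (nat_lit 0) (nat_lit 68534154852) (nat_lit 0) (nat_lit 0) (nat_lit 0) (nat_lit 0) (nat_lit 0) (nat_lit 0) (nat_lit 1) (nat_lit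 0) (nat_lit 1) (nat_lit 0) (nat_lit 358) (nat_lit 414) (nat_lit 308)) (XT.lf (nat_lit 0) (nat_lit 68532700965) (nat_lit 0) (nat_lit 0) (nat_lit 0) (nat_lit 0) (nat_lit 0) (nat_lit 0) (nat_lit 1) (nat_lit 0) (nat_lit 1) (nat_lit 0) (nat_lit 359) (nat_lit 414) (nat_lit 307))) (XT.nd (nat_lit 94) (nat_lit 0) (nat_lit 0) (XT.lf (nat_lit 0) (nat_lit 68531354773) (nat_lit 0) (nat_lit 0) (nat_lit 0) (nat_lit 0) (nat_lit 0) (nat_lit 0) (nat_lit 1) (nat_lit 0) (nat_lit 1) (nat_lit 0) (nat_lit 360) (nat_lit 414) (nat_lit 306)) (XT.nd (nat_lit 94) (nat_lit 0) (nat_lit 0) (XT.lf (nat_lit 0) (nat_lit 68530108299) (nat_lit 0) (nat_lit 0) (nat_lit 0) (nat_lit 0) (nat_lit 0) (nat_lit 0) (nat_lit 1) (nat_lit 0) (nat_lit 1) (nat_lit 0) (nat_lit 361) (nat_lit 414) (nat_lit 305)) (XT.lf (nat_lit 0) (nat_lit 68528954156) (nat_lit 0) (nat_lit 0) (nat_lit 0) (nat_lit 0) (nat_lit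 0) (nat_lit 0) (nat_lit 1) (nat_lit 0) (nat_lit 1) (nat_lit 0) (nat_lit 362) (nat_lit 414) (nat_lit 304))))))))
noncomputable def ec218 : XT := (XT.nd (nat_lit 1692) (nat_lit 0) (nat_lit 0) (XT.nd (nat_lit 846) (nat_lit 0) (nat_lit 0) (XT.nd (nat_lit 376) (nat_lit 0) (nat_lit 0) (XT.nd (nat_lit 188) (nat_lit 0) (nat_lit 0) (XT.nd (nat_lit 94) (nat_lit 0) (nat_lit 0) (XT.lf (nat_lit 0) (nat_lit 68527885505) (nat_lit 0) (nat_lit 0) (nat_lit 0) (nat_lit 0) (nat_lit 0) (nat_lit 0) (nat_lit 1) (nat_lit 0) (nat_lit 1) (nat_lit 0) (nat_lit 363) (nat_lit 414) (nat_lit 303)) (XT.lf (nat_lit 0) (nat_lit 68526896014) (nat_lit 0) (nat_lit 0) (nat_lit 0) (nat_lit 0) (nat_lit 0) (nat_lit 0) (nat_lit 1) (nat_lit 0) (nat_lit 1) (nat_lit 0) (nat_lit 364) (nat_lit 414) (nat_lit 302))) (XT.nd (nat_lit 94) (nat_lit 0) (nat_lit 0) (XT.lf (nat_lit 0) (nat_lit 68525979818) (nat_lit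 0) (nat_lit 0) (nat_lit 0) (nat_lit 0) (nat_lit 0) (nat_lit 0) (nat_lit 1) (nat_lit 0) (nat_lit 1) (nat_lit 0) (nat_lit 365) (nat_lit 414) (nat_lit 301)) (XT.lf (nat_lit 0) (nat_lit 68525131488) (nat_lit 0) (nat_lit 0) (nat_lit 0) (nat_lit 0) (nat_lit 0) (nat_lit 0) (nat_lit 1) (nat_lit 0) (nat_lit 1) (nat_lit 0) (nat_lit 366) (nat_lit 414) (nat_lit 300)))) (XT.nd (nat_lit 188) (nat_lit 0) (nat_lit 0) (XT.nd (nat_lit 94) (nat_lit 0) (nat_lit 0) (XT.lf (nat_lit 0) (nat_lit 68524345998) (nat_lit 0) (nat_lit 0) (nat_lit 0) (nat_lit 0) (nat_lit 0) (nat_lit 0) (nat_lit 1) (nat_lit 0) (nat_lit 1) (nat_lit 0) (nat_lit 367) (nat_lit 414) (nat_lit 299)) (XT.lf (nat_lit 0) (nat_lit 68523618692) (nat_lit 0) (nat_lit 0) (nat_lit 0) (nat_lit 0) (nat_lit 0) (nat_lit 0) (nat_lit 1) (nat_lit 0) (nat_lit 1) (nat_lit 0) (nat_lit 368) (nat_lit 414) (nat_lit 298))) (XT.nd (nat_lit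 94) (nat_lit 0) (nat_lit 0) (XT.lf (nat_lit 0) (nat_lit 68522945261) (nat_lit 0) (nat_lit 0) (nat_lit 0) (nat_lit 0) (nat_lit 0) (nat_lit 0) (nat_lit 1) (nat_lit 0) (nat_lit 1) (nat_lit 0) (nat_lit 369) (nat_lit 414) (nat_lit 297)) (XT.nd (nat_lit 94) (nat_lit 0) (nat_lit 0) (XT.lf (nat_lit 0) (nat_lit 68522321714) (nat_lit 0) (nat_lit 0) (nat_lit 0) (nat_lit 0) (nat_lit 0) (nat_lit 0) (nat_lit 1) (nat_lit 0) (nat_lit 1) (nat_lit 0) (nat_lit 370) (nat_lit 414) (nat_lit 296)) (XT.lf (nat_lit 0) (nat_lit 68521744355) (nat_lit 0) (nat_lit 0) (nat_lit 0) (nat_lit 0) (nat_lit 0) (nat_lit 0) (nat_lit 1) (nat_lit 0) (nat_lit 1) (nat_lit 0) (nat_lit 371) (nat_lit 414) (nat_lit 295)))))) (XT.nd (nat_lit 376) (nat_lit 0) (nat_lit 0) (XT.nd (nat_lit 188) (nat_lit 0) (nat_lit 0) (XT.nd (nat_lit 94) (nat_lit 0) (nat_lit 0) (XT.lf (nat_lit 0) (nat_lit 68521209764) (nat_lit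 0) (nat_lit 0) (nat_lit 0) (nat_lit 0) (nat_lit 0) (nat_lit 0) (nat_lit 1) (nat_lit 0) (nat_lit 1) (nat_lit 0) (nat_lit 372) (nat_lit 414) (nat_lit 294)) (XT.lf (nat_lit 0) (nat_lit 68520714771) (nat_lit 0) (nat_lit 0) (nat_lit 0) (nat_lit 0) (nat_lit 0) (nat_lit 0) (nat_lit 1) (nat_lit 0) (nat_lit 1) (nat_lit 0) (nat_lit 373) (nat_lit 414) (nat_lit 293))) (XT.nd (nat_lit 94) (nat_lit 0) (nat_lit 0) (XT.lf (nat_lit 0) (nat_lit 68520256445) (nat_lit 0) (nat_lit 0) (nat_lit 0) (nat_lit 0) (nat_lit 0) (nat_lit 0) (nat_lit 1) (nat_lit 0) (nat_lit 1) (nat_lit 0) (nat_lit 374) (nat_lit 414) (nat_lit 292)) (XT.lf (nat_lit 0) (nat_lit 68519832070) (nat_lit 0) (nat_lit 0) (nat_lit 0) (nat_lit 0) (nat_lit 0) (nat_lit 0) (nat_lit 1) (nat_lit 0) (nat_lit 1) (nat_lit 0) (nat_lit 375) (nat_lit 414) (nat_lit 291)))) (XT.nd (nat_lit 188) (nat_lit 0) (nat_lit 0) (XT.nd (nat_lit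 94) (nat_lit 0) (nat_lit 0) (XT.lf (nat_lit 0) (nat_lit 68519439129) (nat_lit 0) (nat_lit 0) (nat_lit 0) (nat_lit 0) (nat_lit 0) (nat_lit 0) (nat_lit 1) (nat_lit 0) (nat_lit 1) (nat_lit 0) (nat_lit 376) (nat_lit 414) (nat_lit 290)) (XT.lf (nat_lit 0) (nat_lit 68519075295) (nat_lit 0) (nat_lit 0) (nat_lit 0) (nat_lit 0) (nat_lit 0) (nat_lit 0) (nat_lit 1) (nat_lit 0) (nat_lit 1) (nat_lit 0) (nat_lit 377) (nat_lit 414) (nat_lit 289))) (XT.nd (nat_lit 94) (nat_lit 0) (nat_lit 0) (XT.lf (nat_lit 0) (nat_lit 68518738412) (nat_lit 0) (nat_lit 0) (nat_lit 0) (nat_lit 0) (nat_lit 0) (nat_lit 0) (nat_lit 1) (nat_lit 0) (nat_lit 1) (nat_lit 0) (nat_lit 378) (nat_lit 414) (nat_lit 288)) (XT.nd (nat_lit 94) (nat_lit 0) (nat_lit 0) (XT.lf (nat_lit 0) (nat_lit 68518426483) (nat_lit 0) (nat_lit 0) (nat_lit 0) (nat_lit 0) (nat_lit 0) (nat_lit 0) (nat_lit 1) (nat_lit 0) (nat_lit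 1) (nat_lit 0) (nat_lit 379) (nat_lit 414) (nat_lit 287)) (XT.lf (nat_lit 0) (nat_lit 68518137660) (nat_lit 0) (nat_lit 0) (nat_lit 0) (nat_lit 0) (nat_lit 0) (nat_lit 0) (nat_lit 1) (nat_lit 0) (nat_lit 1) (nat_lit 0) (nat_lit 380) (nat_lit 414) (nat_lit 286))))))) (XT.nd (nat_lit 846) (nat_lit 0) (nat_lit 0) (XT.nd (nat_lit 376) (nat_lit 0) (nat_lit 0) (XT.nd (nat_lit 188) (nat_lit 0) (nat_lit 0) (XT.nd (nat_lit 94) (nat_lit 0) (nat_lit 0) (XT.lf (nat_lit 0) (nat_lit 68517870231) (nat_lit 0) (nat_lit 0) (nat_lit 0) (nat_lit 0) (nat_lit 0) (nat_lit 0) (nat_lit 1) (nat_lit 0) (nat_lit 1) (nat_lit 0) (nat_lit 381) (nat_lit 414) (nat_lit 285)) (XT.lf (nat_lit 0) (nat_lit 68517622611) (nat_lit 0) (nat_lit 0) (nat_lit 0) (nat_lit 0) (nat_lit 0) (nat_lit 0) (nat_lit 1) (nat_lit 0) (nat_lit 1) (nat_lit 0) (nat_lit 382) (nat_lit 414) (nat_lit 284))) (XT.nd (nat_lit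 94) (nat_lit 0) (nat_lit 0) (XT.lf (nat_lit 0) (nat_lit 68517393334) (nat_lit 0) (nat_lit 0) (nat_lit 0) (nat_lit 0) (nat_lit 0) (nat_lit 0) (nat_lit 1) (nat_lit 0) (nat_lit 1) (nat_lit 0) (nat_lit 383) (nat_lit 414) (nat_lit 283)) (XT.lf (nat_lit 0) (nat_lit 68517181041) (nat_lit 0) (nat_lit 0) (nat_lit 0) (nat_lit 0) (nat_lit 0) (nat_lit 0) (nat_lit 1) (nat_lit 0) (nat_lit 1) (nat_lit 0) (nat_lit 384) (nat_lit 414) (nat_lit 282)))) (XT.nd (nat_lit 188) (nat_lit 0) (nat_lit 0) (XT.nd (nat_lit 94) (nat_lit 0) (nat_lit 0) (XT.lf (nat_lit 0) (nat_lit 68516984473) (nat_lit 0) (nat_lit 0) (nat_lit 0) (nat_lit 0) (nat_lit 0) (nat_lit 0) (nat_lit 1) (nat_lit 0) (nat_lit 1) (nat_lit 0) (nat_lit 385) (nat_lit 414) (nat_lit 281)) (XT.lf (nat_lit 0) (nat_lit 68516802465) (nat_lit 0) (nat_lit 0) (nat_lit 0) (nat_lit 0) (nat_lit 0) (nat_lit 0) (nat_lit 1) (nat_lit 0)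 (nat_lit 1) (nat_lit 0) (nat_lit 386) (nat_lit 414) (nat_lit 280))) (XT.nd (nat_lit 94) (nat_lit 0) (nat_lit 0) (XT.lf (nat_lit 0) (nat_lit 68516633940) (nat_lit 0) (nat_lit 0) (nat_lit 0) (nat_lit 0) (nat_lit 0) (nat_lit 0) (nat_lit 1) (nat_lit 0) (nat_lit 1) (nat_lit 0) (nat_lit 387) (nat_lit 414) (nat_lit 279)) (XT.nd (nat_lit 94) (nat_lit 0) (nat_lit 0) (XT.lf (nat_lit 0) (nat_lit 68516477897) (nat_lit 0) (nat_lit 0) (nat_lit 0) (nat_lit 0) (nat_lit 0) (nat_lit 0) (nat_lit 1) (nat_lit 0) (nat_lit 1) (nat_lit 0) (nat_lit 388) (nat_lit 414) (nat_lit 278)) (XT.lf (nat_lit 0) (nat_lit 68516333414) (nat_lit 0) (nat_lit 0) (nat_lit 0) (nat_lit 0) (nat_lit 0) (nat_lit 0) (nat_lit 1) (nat_lit 0) (nat_lit 1) (nat_lit 0) (nat_lit 389) (nat_lit 414) (nat_lit 277)))))) (XT.nd (nat_lit 470) (nat_lit 0) (nat_lit 0) (XT.nd (nat_lit 188) (nat_lit 0) (nat_lit 0) (XT.nd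 (nat_lit 94) (nat_lit 0) (nat_lit 0) (XT.lf (nat_lit 0) (nat_lit 68516199633) (nat_lit 0) (nat_lit 0) (nat_lit 0) (nat_lit 0) (nat_lit 0) (nat_lit 0) (nat_lit 1) (nat_lit 0) (nat_lit 1) (nat_lit 0) (nat_lit 390) (nat_lit 414) (nat_lit 276)) (XT.lf (nat_lit 0) (nat_lit 68516075762) (nat_lit 0) (nat_lit 0) (nat_lit 0) (nat_lit 0) (nat_lit 0) (nat_lit 0) (nat_lit 1) (nat_lit 0) (nat_lit 1) (nat_lit 0) (nat_lit 391) (nat_lit 414) (nat_lit 275))) (XT.nd (nat_lit 94) (nat_lit 0) (nat_lit 0) (XT.lf (nat_lit 0) (nat_lit 68515961066) (nat_lit 0) (nat_lit 0) (nat_lit 0) (nat_lit 0) (nat_lit 0) (nat_lit 0) (nat_lit 1) (nat_lit 0) (nat_lit 1) (nat_lit 0) (nat_lit 392) (nat_lit 414) (nat_lit 274)) (XT.nd (nat_lit 94) (nat_lit 0) (nat_lit 0) (XT.lf (nat_lit 0) (nat_lit 68515854866) (nat_lit 0) (nat_lit 0) (nat_lit 0) (nat_lit 0) (nat_lit 0) (nat_lit 0) (nat_lit 1) (nat_lit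 0) (nat_lit 1) (nat_lit 0) (nat_lit 393) (nat_lit 414) (nat_lit 273)) (XT.lf (nat_lit 0) (nat_lit 68515756533) (nat_lit 0) (nat_lit 0) (nat_lit 0) (nat_lit 0) (nat_lit 0) (nat_lit 0) (nat_lit 1) (nat_lit 0) (nat_lit 1) (nat_lit 0) (nat_lit 394) (nat_lit 414) (nat_lit 272))))) (XT.nd (nat_lit 188) (nat_lit 0) (nat_lit 0) (XT.nd (nat_lit 94) (nat_lit 0) (nat_lit 0) (XT.lf (nat_lit 0) (nat_lit 68515665484) (nat_lit 0) (nat_lit 0) (nat_lit 0) (nat_lit 0) (nat_lit 0) (nat_lit 0) (nat_lit 1) (nat_lit 0) (nat_lit 1) (nat_lit 0) (nat_lit 395) (nat_lit 414) (nat_lit 271)) (XT.lf (nat_lit 0) (nat_lit 68515581180) (nat_lit 0) (nat_lit 0) (nat_lit 0) (nat_lit 0) (nat_lit 0) (nat_lit 0) (nat_lit 1) (nat_lit 0) (nat_lit 1) (nat_lit 0) (nat_lit 396) (nat_lit 414) (nat_lit 270))) (XT.nd (nat_lit 94) (nat_lit 0) (nat_lit 0) (XT.lf (nat_lit 0) (nat_lit 68515503120) (nat_lit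 0) (nat_lit 0) (nat_lit 0) (nat_lit 0) (nat_lit 0) (nat_lit 0) (nat_lit 1) (nat_lit 0) (nat_lit 1) (nat_lit 0) (nat_lit 397) (nat_lit 414) (nat_lit 269)) (XT.nd (nat_lit 94) (nat_lit 0) (nat_lit 0) (XT.lf (nat_lit 0) (nat_lit 68515430842) (nat_lit 0) (nat_lit 0) (nat_lit 0) (nat_lit 0) (nat_lit 0) (nat_lit 0) (nat_lit 1) (nat_lit 0) (nat_lit 1) (nat_lit 0) (nat_lit 398) (nat_lit 414) (nat_lit 268)) (XT.lf (nat_lit 0) (nat_lit 68515363918) (nat_lit 0) (nat_lit 0) (nat_lit 0) (nat_lit 0) (nat_lit 0) (nat_lit 0) (nat_lit 1) (nat_lit 0) (nat_lit 1) (nat_lit 0) (nat_lit 399) (nat_lit 414) (nat_lit 267))))))))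
noncomputable def ec219 : XT := (XT.nd (nat_lit 1786) (nat_lit 0) (nat_lit 0) (XT.nd (nat_lit 846) (nat_lit 0) (nat_lit 0) (XT.nd (nat_lit 376) (nat_lit 0) (nat_lit 0) (XT.nd (nat_lit 188) (nat_lit 0) (nat_lit 0) (XT.nd (nat_lit 94) (nat_lit 0) (nat_lit 0) (XT.lf (nat_lit 0) (nat_lit 68515301952) (nat_lit 0) (nat_lit 0) (nat_lit 0) (nat_lit 0) (nat_lit 0) (nat_lit 0) (nat_lit 1) (nat_lit 0) (nat_lit 1) (nat_lit 0) (nat_lit 400) (nat_lit 414) (nat_lit 266)) (XT.lf (nat_lit 0) (nat_lit 68515244575) (nat_lit 0) (nat_lit 0) (nat_lit 0) (nat_lit 0) (nat_lit 0) (nat_lit 0) (nat_lit 1) (nat_lit 0) (nat_lit 1) (nat_lit 0) (nat_lit 401) (nat_lit 414) (nat_lit 265))) (XT.nd (nat_lit 94) (nat_lit 0) (nat_lit 0) (XT.lf (nat_lit 0) (nat_lit 68515191449) (nat_lit 0) (nat_lit 0) (nat_lit 0) (nat_lit 0) (nat_lit 0) (nat_lit 0) (nat_lit 1) (nat_lit 0) (nat_lit 1) (nat_lit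 0) (nat_lit 402) (nat_lit 414) (nat_lit 264)) (XT.lf (nat_lit 0) (nat_lit 68515142258) (nat_lit 0) (nat_lit 0) (nat_lit 0) (nat_lit 0) (nat_lit 0) (nat_lit 0) (nat_lit 1) (nat_lit 0) (nat_lit 1) (nat_lit 0) (nat_lit 403) (nat_lit 414) (nat_lit 263)))) (XT.nd (nat_lit 188) (nat_lit 0) (nat_lit 0) (XT.nd (nat_lit 94) (nat_lit 0) (nat_lit 0) (XT.lf (nat_lit 0) (nat_lit 68515096711) (nat_lit 0) (nat_lit 0) (nat_lit 0) (nat_lit 0) (nat_lit 0) (nat_lit 0) (nat_lit 1) (nat_lit 0) (nat_lit 1) (nat_lit 0) (nat_lit 404) (nat_lit 414) (nat_lit 262)) (XT.lf (nat_lit 0) (nat_lit 68515054537) (nat_lit 0) (nat_lit 0) (nat_lit 0) (nat_lit 0) (nat_lit 0) (nat_lit 0) (nat_lit 1) (nat_lit 0) (nat_lit 1) (nat_lit 0) (nat_lit 405) (nat_lit 414) (nat_lit 261))) (XT.nd (nat_lit 94) (nat_lit 0) (nat_lit 0) (XT.lf (nat_lit 0) (nat_lit 68515015488) (nat_lit 0) (nat_lit 0) (nat_lit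 0) (nat_lit 0) (nat_lit 0) (nat_lit 0) (nat_lit 1) (nat_lit 0) (nat_lit 1) (nat_lit 0) (nat_lit 406) (nat_lit 414) (nat_lit 260)) (XT.nd (nat_lit 94) (nat_lit 0) (nat_lit 0) (XT.lf (nat_lit 0) (nat_lit 68514979331) (nat_lit 0) (nat_lit 0) (nat_lit 0) (nat_lit 0) (nat_lit 0) (nat_lit 0) (nat_lit 1) (nat_lit 0) (nat_lit 1) (nat_lit 0) (nat_lit 407) (nat_lit 414) (nat_lit 259)) (XT.lf (nat_lit 0) (nat_lit 68514945853) (nat_lit 0) (nat_lit 0) (nat_lit 0) (nat_lit 0) (nat_lit 0) (nat_lit 0) (nat_lit 1) (nat_lit 0) (nat_lit 1) (nat_lit 0) (nat_lit 408) (nat_lit 414) (nat_lit 258)))))) (XT.nd (nat_lit 470) (nat_lit 0) (nat_lit 0) (XT.nd (nat_lit 188) (nat_lit 0) (nat_lit 0) (XT.nd (nat_lit 94) (nat_lit 0) (nat_lit 0) (XT.lf (nat_lit 0) (nat_lit 68514914854) (nat_lit 0) (nat_lit 0) (nat_lit 0) (nat_lit 0) (nat_lit 0) (nat_lit 0) (nat_lit 1) (nat_lit 0) (nat_lit 1)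 (nat_lit 0) (nat_lit 409) (nat_lit 414) (nat_lit 257)) (XT.lf (nat_lit 0) (nat_lit 68514886151) (nat_lit 0) (nat_lit 0) (nat_lit 0) (nat_lit 0) (nat_lit 0) (nat_lit 0) (nat_lit 1) (nat_lit 0) (nat_lit 1) (nat_lit 0) (nat_lit 410) (nat_lit 414) (nat_lit 256))) (XT.nd (nat_lit 94) (nat_lit 0) (nat_lit 0) (XT.lf (nat_lit 0) (nat_lit 68514859575) (nat_lit 0) (nat_lit 0) (nat_lit 0) (nat_lit 0) (nat_lit 0) (nat_lit 0) (nat_lit 1) (nat_lit 0) (nat_lit 1) (nat_lit 0) (nat_lit 411) (nat_lit 414) (nat_lit 255)) (XT.nd (nat_lit 94) (nat_lit 0) (nat_lit 0) (XT.lf (nat_lit 0) (nat_lit 68514834967) (nat_lit 0) (nat_lit 0) (nat_lit 0) (nat_lit 0) (nat_lit 0) (nat_lit 0) (nat_lit 1) (nat_lit 0) (nat_lit 1) (nat_lit 0) (nat_lit 412) (nat_lit 414) (nat_lit 254)) (XT.lf (nat_lit 0) (nat_lit 68514812182) (nat_lit 0) (nat_lit 0) (nat_lit 0) (nat_lit 0) (nat_lit 0) (nat_lit 0)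 (nat_lit 1) (nat_lit 0) (nat_lit 1) (nat_lit 0) (nat_lit 413) (nat_lit 414) (nat_lit 253))))) (XT.nd (nat_lit 188) (nat_lit 0) (nat_lit 0) (XT.nd (nat_lit 94) (nat_lit 0) (nat_lit 0) (XT.lf (nat_lit 0) (nat_lit 68514791085) (nat_lit 0) (nat_lit 0) (nat_lit 0) (nat_lit 0) (nat_lit 0) (nat_lit 0) (nat_lit 1) (nat_lit 0) (nat_lit 1) (nat_lit 0) (nat_lit 414) (nat_lit 414) (nat_lit 252)) (XT.lf (nat_lit 0) (nat_lit 68514771551) (nat_lit 0) (nat_lit 0) (nat_lit 0) (nat_lit 0) (nat_lit 0) (nat_lit 0) (nat_lit 1) (nat_lit 0) (nat_lit 1) (nat_lit 0) (nat_lit 415) (nat_lit 414) (nat_lit 251))) (XT.nd (nat_lit 94) (nat_lit 0) (nat_lit 0) (XT.lf (nat_lit 0) (nat_lit 68514753463) (nat_lit 0) (nat_lit 0) (nat_lit 0) (nat_lit 0) (nat_lit 0) (nat_lit 0) (nat_lit 1) (nat_lit 0) (nat_lit 1) (nat_lit 0) (nat_lit 416) (nat_lit 414) (nat_lit 250)) (XT.nd (nat_lit 94) (nat_lit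 0) (nat_lit 0) (XT.lf (nat_lit 0) (nat_lit 68514736716) (nat_lit 0) (nat_lit 0) (nat_lit 0) (nat_lit 0) (nat_lit 0) (nat_lit 0) (nat_lit 1) (nat_lit 0) (nat_lit 1) (nat_lit 0) (nat_lit 417) (nat_lit 414) (nat_lit 249)) (XT.lf (nat_lit 0) (nat_lit 68514721209) (nat_lit 0) (nat_lit 0) (nat_lit 0) (nat_lit 0) (nat_lit 0) (nat_lit 0) (nat_lit 1) (nat_lit 0) (nat_lit 1) (nat_lit 0) (nat_lit 418) (nat_lit 414) (nat_lit 248))))))) (XT.nd (nat_lit 846) (nat_lit 0) (nat_lit 0) (XT.nd (nat_lit 376) (nat_lit 0) (nat_lit 0) (XT.nd (nat_lit 188) (nat_lit 0) (nat_lit 0) (XT.nd (nat_lit 94) (nat_lit 0) (nat_lit 0) (XT.lf (nat_lit 0) (nat_lit 68514706850) (nat_lit 0) (nat_lit 0) (nat_lit 0) (nat_lit 0) (nat_lit 0) (nat_lit 0) (nat_lit 1) (nat_lit 0) (nat_lit 1) (nat_lit 0) (nat_lit 419) (nat_lit 414) (nat_lit 247)) (XT.lf (nat_lit 0) (nat_lit 68514693556) (nat_lit 0) (nat_lit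 0) (nat_lit 0) (nat_lit 0) (nat_lit 0) (nat_lit 0) (nat_lit 1) (nat_lit 0) (nat_lit 1) (nat_lit 0) (nat_lit 420) (nat_lit 414) (nat_lit 246))) (XT.nd (nat_lit 94) (nat_lit 0) (nat_lit 0) (XT.lf (nat_lit 0) (nat_lit 68514681246) (nat_lit 0) (nat_lit 0) (nat_lit 0) (nat_lit 0) (nat_lit 0) (nat_lit 0) (nat_lit 1) (nat_lit 0) (nat_lit 1) (nat_lit 0) (nat_lit 421) (nat_lit 414) (nat_lit 245)) (XT.lf (nat_lit 0) (nat_lit 68514669847) (nat_lit 0) (nat_lit 0) (nat_lit 0) (nat_lit 0) (nat_lit 0) (nat_lit 0) (nat_lit 1) (nat_lit 0) (nat_lit 1) (nat_lit 0) (nat_lit 422) (nat_lit 414) (nat_lit 244)))) (XT.nd (nat_lit 188) (nat_lit 0) (nat_lit 0) (XT.nd (nat_lit 94) (nat_lit 0) (nat_lit 0) (XT.lf (nat_lit 0) (nat_lit 68514659294) (nat_lit 0) (nat_lit 0) (nat_lit 0) (nat_lit 0) (nat_lit 0) (nat_lit 0) (nat_lit 1) (nat_lit 0) (nat_lit 1) (nat_lit 0) (nat_lit 423) (nat_lit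 414) (nat_lit 243)) (XT.lf (nat_lit 0) (nat_lit 68514649522) (nat_lit 0) (nat_lit 0) (nat_lit 0) (nat_lit 0) (nat_lit 0) (nat_lit 0) (nat_lit 1) (nat_lit 0) (nat_lit 1) (nat_lit 0) (nat_lit 424) (nat_lit 414) (nat_lit 242))) (XT.nd (nat_lit 94) (nat_lit 0) (nat_lit 0) (XT.lf (nat_lit 0) (nat_lit 68514640473) (nat_lit 0) (nat_lit 0) (nat_lit 0) (nat_lit 0) (nat_lit 0) (nat_lit 0) (nat_lit 1) (nat_lit 0) (nat_lit 1) (nat_lit 0) (nat_lit 425) (nat_lit 414) (nat_lit 241)) (XT.nd (nat_lit 94) (nat_lit 0) (nat_lit 0) (XT.lf (nat_lit 0) (nat_lit 68514632095) (nat_lit 0) (nat_lit 0) (nat_lit 0) (nat_lit 0) (nat_lit 0) (nat_lit 0) (nat_lit 1) (nat_lit 0) (nat_lit 1) (nat_lit 0) (nat_lit 426) (nat_lit 414) (nat_lit 240)) (XT.lf (nat_lit 0) (nat_lit 68514624338) (nat_lit 0) (nat_lit 0) (nat_lit 0) (nat_lit 0) (nat_lit 0) (nat_lit 0) (nat_lit 1) (nat_lit 0) (nat_lit 1)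 (nat_lit 0) (nat_lit 427) (nat_lit 414) (nat_lit 239)))))) (XT.nd (nat_lit 470) (nat_lit 0) (nat_lit 0) (XT.nd (nat_lit 188) (nat_lit 0) (nat_lit 0) (XT.nd (nat_lit 94) (nat_lit 0) (nat_lit 0) (XT.lf (nat_lit 0) (nat_lit 68514617155) (nat_lit 0) (nat_lit 0) (nat_lit 0) (nat_lit 0) (nat_lit 0) (nat_lit 0) (nat_lit 1) (nat_lit 0) (nat_lit 1) (nat_lit 0) (nat_lit 428) (nat_lit 414) (nat_lit 238)) (XT.lf (nat_lit 0) (nat_lit 68514610504) (nat_lit 0) (nat_lit 0) (nat_lit 0) (nat_lit 0) (nat_lit 0) (nat_lit 0) (nat_lit 1) (nat_lit 0) (nat_lit 1) (nat_lit 0) (nat_lit 429) (nat_lit 414) (nat_lit 237))) (XT.nd (nat_lit 94) (nat_lit 0) (nat_lit 0) (XT.lf (nat_lit 0) (nat_lit 68514604346) (nat_lit 0) (nat_lit 0) (nat_lit 0) (nat_lit 0) (nat_lit 0) (nat_lit 0) (nat_lit 1) (nat_lit 0) (nat_lit 1) (nat_lit 0) (nat_lit 430) (nat_lit 414) (nat_lit 236)) (XT.nd (nat_lit 94)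 (nat_lit 0) (nat_lit 0) (XT.lf (nat_lit 0) (nat_lit 68514598644) (nat_lit 0) (nat_lit 0) (nat_lit 0) (nat_lit 0) (nat_lit 0) (nat_lit 0) (nat_lit 1) (nat_lit 0) (nat_lit 1) (nat_lit 0) (nat_lit 431) (nat_lit 414) (nat_lit 235)) (XT.lf (nat_lit 0) (nat_lit 68514593365) (nat_lit 0) (nat_lit 0) (nat_lit 0) (nat_lit 0) (nat_lit 0) (nat_lit 0) (nat_lit 1) (nat_lit 0) (nat_lit 1) (nat_lit 0) (nat_lit 432) (nat_lit 414) (nat_lit 234))))) (XT.nd (nat_lit 188) (nat_lit 0) (nat_lit 0) (XT.nd (nat_lit 94) (nat_lit 0) (nat_lit 0) (XT.lf (nat_lit 0) (nat_lit 68514588476) (nat_lit 0) (nat_lit 0) (nat_lit 0) (nat_lit 0) (nat_lit 0) (nat_lit 0) (nat_lit 1) (nat_lit 0) (nat_lit 1) (nat_lit 0) (nat_lit 433) (nat_lit 414) (nat_lit 233)) (XT.lf (nat_lit 0) (nat_lit 68514583950) (nat_lit 0) (nat_lit 0) (nat_lit 0) (nat_lit 0) (nat_lit 0) (nat_lit 0) (nat_lit 1) (nat_lit 0) (nat_lit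 1) (nat_lit 0) (nat_lit 434) (nat_lit 414) (nat_lit 232))) (XT.nd (nat_lit 94) (nat_lit 0) (nat_lit 0) (XT.lf (nat_lit 0) (nat_lit 68514579759) (nat_lit 0) (nat_lit 0) (nat_lit 0) (nat_lit 0) (nat_lit 0) (nat_lit 0) (nat_lit 1) (nat_lit 0) (nat_lit 1) (nat_lit 0) (nat_lit 435) (nat_lit 414) (nat_lit 231)) (XT.nd (nat_lit 94) (nat_lit 0) (nat_lit 0) (XT.lf (nat_lit 0) (nat_lit 68514575878) (nat_lit 0) (nat_lit 0) (nat_lit 0) (nat_lit 0) (nat_lit 0) (nat_lit 0) (nat_lit 1) (nat_lit 0) (nat_lit 1) (nat_lit 0) (nat_lit 436) (nat_lit 414) (nat_lit 230)) (XT.lf (nat_lit 0) (nat_lit 68514572285) (nat_lit 0) (nat_lit 0) (nat_lit 0) (nat_lit 0) (nat_lit 0) (nat_lit 0) (nat_lit 1) (nat_lit 0) (nat_lit 1) (nat_lit 0) (nat_lit 437) (nat_lit 414) (nat_lit 229))))))))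
noncomputable def ec220 : XT := (XT.nd (nat_lit 51324) (nat_lit 0) (nat_lit 3696) (XT.nd (nat_lit 50478) (nat_lit 0) (nat_lit 8568) (XT.nd (nat_lit 376) (nat_lit 0) (nat_lit 0) (XT.nd (nat_lit 188) (nat_lit 0) (nat_lit 0) (XT.nd (nat_lit 94) (nat_lit 0) (nat_lit 0) (XT.lf (nat_lit 0) (nat_lit 68514568958) (nat_lit 0) (nat_lit 0) (nat_lit 0) (nat_lit 0) (nat_lit 0) (nat_lit 0) (nat_lit 1) (nat_lit 0) (nat_lit 1) (nat_lit 0) (nat_lit 438) (nat_lit 414) (nat_lit 228)) (XT.lf (nat_lit 0) (nat_lit 68514565878) (nat_lit 0) (nat_lit 0) (nat_lit 0) (nat_lit 0) (nat_lit 0) (nat_lit 0) (nat_lit 1) (nat_lit 0) (nat_lit 1) (nat_lit 0) (nat_lit 439) (nat_lit 414) (nat_lit 227))) (XT.nd (nat_lit 94) (nat_lit 0) (nat_lit 0) (XT.lf (nat_lit 0) (nat_lit 68514563025) (nat_lit 0) (nat_lit 0) (nat_lit 0) (nat_lit 0) (nat_lit 0) (nat_lit 0) (nat_lit 1) (nat_lit 0) (nat_lit 1)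 (nat_lit 0) (nat_lit 440) (nat_lit 414) (nat_lit 226)) (XT.lf (nat_lit 0) (nat_lit 68514560384) (nat_lit 0) (nat_lit 0) (nat_lit 0) (nat_lit 0) (nat_lit 0) (nat_lit 0) (nat_lit 1) (nat_lit 0) (nat_lit 1) (nat_lit 0) (nat_lit 441) (nat_lit 414) (nat_lit 225)))) (XT.nd (nat_lit 49820) (nat_lit 0) (nat_lit 10836) (XT.nd (nat_lit 49726) (nat_lit 0) (nat_lit 10752) (XT.lf (nat_lit 0) (nat_lit 68514557939) (nat_lit 0) (nat_lit 0) (nat_lit 0) (nat_lit 0) (nat_lit 0) (nat_lit 0) (nat_lit 1) (nat_lit 0) (nat_lit 1) (nat_lit 0) (nat_lit 442) (nat_lit 414) (nat_lit 224)) (XT.lf (nat_lit 924) (nat_lit 37030214757) (nat_lit 0) (nat_lit 65747061184) (nat_lit 924) (nat_lit 37030214757) (nat_lit 139) (nat_lit 1) (nat_lit 128) (nat_lit 0) (nat_lit 139) (nat_lit 0) (nat_lit 250) (nat_lit 415) (nat_lit 415))) (XT.nd (nat_lit 94) (nat_lit 0) (nat_lit 0) (XT.lf (nat_lit 924) (nat_lit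 13813406344) (nat_lit 0) (nat_lit 129081407478) (nat_lit 840) (nat_lit 126241185262) (nat_lit 140) (nat_lit 1) (nat_lit 129) (nat_lit 1) (nat_lit 139) (nat_lit 1) (nat_lit 251) (nat_lit 415) (nat_lit 414)) (XT.nd (nat_lit 94) (nat_lit 0) (nat_lit 84) (XT.lf (nat_lit 924) (nat_lit 126868164061) (nat_lit 84) (nat_lit 86445862098) (nat_lit 0) (nat_lit 45846941934) (nat_lit 140) (nat_lit 1) (nat_lit 130) (nat_lit 1) (nat_lit 129) (nat_lit 1) (nat_lit 252) (nat_lit 415) (nat_lit 413)) (XT.lf (nat_lit 924) (nat_lit 109624486939) (nat_lit 84) (nat_lit 36228861619) (nat_lit 0) (nat_lit 103831764396) (nat_lit 141) (nat_lit 1) (nat_lit 131) (nat_lit 1) (nat_lit 130) (nat_lit 1) (nat_lit 253) (nat_lit 415) (nat_lit 412)))))) (XT.nd (nat_lit 376) (nat_lit 1764) (nat_lit 0) (XT.nd (nat_lit 188) (nat_lit 672) (nat_lit 0) (XT.nd (nat_lit 94) (nat_lit 0) (nat_lit 84) (XT.lf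 (nat_lit 924) (nat_lit 81131440285) (nat_lit 0) (nat_lit 151793089856) (nat_lit 840) (nat_lit 7759641066) (nat_lit 142) (nat_lit 1) (nat_lit 131) (nat_lit 1) (nat_lit 141) (nat_lit 1) (nat_lit 254) (nat_lit 415) (nat_lit 411)) (XT.lf (nat_lit 924) (nat_lit 19466693624) (nat_lit 0) (nat_lit 167394051322) (nat_lit 840) (nat_lit 45252342488) (nat_lit 143) (nat_lit 1) (nat_lit 132) (nat_lit 1) (nat_lit 142) (nat_lit 1) (nat_lit 255) (nat_lit 415) (nat_lit 410))) (XT.nd (nat_lit 94) (nat_lit 756) (nat_lit 0) (XT.lf (nat_lit 924) (nat_lit 37407067371) (nat_lit 84) (nat_lit 145479062081) (nat_lit 0) (nat_lit 41055986190) (nat_lit 143) (nat_lit 1) (nat_lit 133) (nat_lit 1) (nat_lit 132) (nat_lit 1) (nat_lit 256) (nat_lit 415) (nat_lit 409)) (XT.lf (nat_lit 924) (nat_lit 7682558642) (nat_lit 0) (nat_lit 108755221976) (nat_lit 840) (nat_lit 99727399032) (nat_lit 134)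 (nat_lit 1) (nat_lit 123) (nat_lit 1) (nat_lit 133) (nat_lit 1) (nat_lit 257) (nat_lit 415) (nat_lit 408)))) (XT.nd (nat_lit 188) (nat_lit 756) (nat_lit 0) (XT.nd (nat_lit 94) (nat_lit 420) (nat_lit 0) (XT.lf (nat_lit 84) (nat_lit 53195636382) (nat_lit 0) (nat_lit 23052144768) (nat_lit 588) (nat_lit 132508692918) (nat_lit 117) (nat_lit 1) (nat_lit 116) (nat_lit 1) (nat_lit 123) (nat_lit 1) (nat_lit 258) (nat_lit 415) (nat_lit 407)) (XT.lf (nat_lit 504) (nat_lit 146600478304) (nat_lit 0) (nat_lit 47721616139) (nat_lit 420) (nat_lit 7378056722) (nat_lit 117) (nat_lit 1) (nat_lit 111) (nat_lit 1) (nat_lit 116) (nat_lit 1) (nat_lit 259) (nat_lit 415) (nat_lit 406))) (XT.nd (nat_lit 94) (nat_lit 336) (nat_lit 0) (XT.lf (nat_lit 504) (nat_lit 105788301179) (nat_lit 0) (nat_lit 22243250850) (nat_lit 420) (nat_lit 66915685499) (nat_lit 112) (nat_lit 1) (nat_lit 106)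 (nat_lit 1) (nat_lit 111) (nat_lit 1) (nat_lit 260) (nat_lit 415) (nat_lit 405)) (XT.nd (nat_lit 94) (nat_lit 0) (nat_lit 0) (XT.lf (nat_lit 420) (nat_lit 64370832050) (nat_lit 0) (nat_lit 409534395) (nat_lit 336) (nat_lit 123741391547) (nat_lit 107) (nat_lit 1) (nat_lit 102) (nat_lit 1) (nat_lit 106) (nat_lit 1) (nat_lit 261) (nat_lit 415) (nat_lit 404)) (XT.lf (nat_lit 84) (nat_lit 4748975772) (nat_lit 0) (nat_lit 160158474621) (nat_lit 420) (nat_lit 17484411593) (nat_lit 103) (nat_lit 1) (nat_lit 102) (nat_lit 1) (nat_lit 107) (nat_lit 1) (nat_lit 262) (nat_lit 415) (nat_lit 403))))))) (XT.nd (nat_lit 846) (nat_lit 2016) (nat_lit 0) (XT.nd (nat_lit 376) (nat_lit 1512) (nat_lit 0) (XT.nd (nat_lit 188) (nat_lit 588) (nat_lit 0) (XT.nd (nat_lit 94) (nat_lit 336) (nat_lit 0) (XT.lf (nat_lit 84) (nat_lit 122619786198) (nat_lit 0) (nat_lit 20337803564) (nat_lit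 420) (nat_lit 33540731703) (nat_lit 98) (nat_lit 1) (nat_lit 97) (nat_lit 1) (nat_lit 102) (nat_lit 1) (nat_lit 263) (nat_lit 415) (nat_lit 402)) (XT.lf (nat_lit 84) (nat_lit 61349786299) (nat_lit 0) (nat_lit 62298302609) (nat_lit 420) (nat_lit 47217098706) (nat_lit 94) (nat_lit 1) (nat_lit 93) (nat_lit 1) (nat_lit 98) (nat_lit 1) (nat_lit 264) (nat_lit 415) (nat_lit 401))) (XT.nd (nat_lit 94) (nat_lit 252) (nat_lit 0) (XT.lf (nat_lit 84) (nat_lit 3028089411) (nat_lit 0) (nat_lit 104161794607) (nat_lit 420) (nat_lit 58308880016) (nat_lit 90) (nat_lit 1) (nat_lit 89) (nat_lit 1) (nat_lit 94) (nat_lit 1) (nat_lit 265) (nat_lit 415) (nat_lit 400)) (XT.lf (nat_lit 336) (nat_lit 13674681117) (nat_lit 0) (nat_lit 92475322748) (nat_lit 252) (nat_lit 54192664445) (nat_lit 90) (nat_lit 1) (nat_lit 86) (nat_lit 1) (nat_lit 89) (nat_lit 1) (nat_lit 266) (nat_lit 415)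 (nat_lit 399)))) (XT.nd (nat_lit 188) (nat_lit 840) (nat_lit 0) (XT.nd (nat_lit 94) (nat_lit 252) (nat_lit 0) (XT.lf (nat_lit 84) (nat_lit 47249699832) (nat_lit 0) (nat_lit 32385237862) (nat_lit 420) (nat_lit 75764642556) (nat_lit 82) (nat_lit 1) (nat_lit 81) (nat_lit 1) (nat_lit 86) (nat_lit 1) (nat_lit 267) (nat_lit 415) (nat_lit 398)) (XT.lf (nat_lit 336) (nat_lit 73153900367) (nat_lit 0) (nat_lit 68718634476) (nat_lit 252) (nat_lit 8795903655) (nat_lit 82) (nat_lit 1) (nat_lit 78) (nat_lit 1) (nat_lit 81) (nat_lit 1) (nat_lit 268) (nat_lit 415) (nat_lit 397))) (XT.nd (nat_lit 94) (nat_lit 588) (nat_lit 0) (XT.lf (nat_lit 336) (nat_lit 23445471656) (nat_lit 0) (nat_lit 59163930283) (nat_lit 252) (nat_lit 63509713907) (nat_lit 79) (nat_lit 1) (nat_lit 75) (nat_lit 1) (nat_lit 78) (nat_lit 1) (nat_lit 269) (nat_lit 415) (nat_lit 396)) (XT.nd (nat_lit 94)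 (nat_lit 252) (nat_lit 0) (XT.lf (nat_lit 84) (nat_lit 26722172507) (nat_lit 0) (nat_lit 24466471139) (nat_lit 336) (nat_lit 90570091485) (nat_lit 72) (nat_lit 1) (nat_lit 71) (nat_lit 1) (nat_lit 75) (nat_lit 1) (nat_lit 270) (nat_lit 415) (nat_lit 395)) (XT.lf (nat_lit 336) (nat_lit 66494619008) (nat_lit 0) (nat_lit 44243055388) (nat_lit 252) (nat_lit 26820285640) (nat_lit 72) (nat_lit 1) (nat_lit 68) (nat_lit 1) (nat_lit 71) (nat_lit 1) (nat_lit 271) (nat_lit 415) (nat_lit 394)))))) (XT.nd (nat_lit 470) (nat_lit 924) (nat_lit 0) (XT.nd (nat_lit 188) (nat_lit 588) (nat_lit 0) (XT.nd (nat_lit 94) (nat_lit 336) (nat_lit 0) (XT.lf (nat_lit 252) (nat_lit 16484114236) (nat_lit 0) (nat_lit 38598838729) (nat_lit 168) (nat_lit 78443702965) (nat_lit 69) (nat_lit 1) (nat_lit 66) (nat_lit 1) (nat_lit 68) (nat_lit 1) (nat_lit 272) (nat_lit 415) (nat_lit 393)) (XT.lf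 (nat_lit 84) (nat_lit 2792514264) (nat_lit 0) (nat_lit 31248840848) (nat_lit 336) (nat_lit 95610260676) (nat_lit 63) (nat_lit 1) (nat_lit 62) (nat_lit 1) (nat_lit 66) (nat_lit 1) (nat_lit 273) (nat_lit 415) (nat_lit 392))) (XT.nd (nat_lit 94) (nat_lit 420) (nat_lit 0) (XT.lf (nat_lit 252) (nat_lit 47899811348) (nat_lit 0) (nat_lit 29933272775) (nat_lit 168) (nat_lit 48066503173) (nat_lit 63) (nat_lit 1) (nat_lit 60) (nat_lit 1) (nat_lit 62) (nat_lit 1) (nat_lit 274) (nat_lit 415) (nat_lit 391)) (XT.nd (nat_lit 94) (nat_lit 168) (nat_lit 0) (XT.lf (nat_lit 84) (nat_lit 25988435892) (nat_lit 0) (nat_lit 1200422147) (nat_lit 252) (nat_lit 95122426359) (nat_lit 58) (nat_lit 1) (nat_lit 57) (nat_lit 1) (nat_lit 60) (nat_lit 1) (nat_lit 275) (nat_lit 415) (nat_lit 390)) (XT.lf (nat_lit 252) (nat_lit 71047365242) (nat_lit 0) (nat_lit 24619505072) (nat_lit 168) (nat_lit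 23160492363) (nat_lit 58) (nat_lit 1) (nat_lit 55) (nat_lit 1) (nat_lit 57) (nat_lit 1) (nat_lit 276) (nat_lit 415) (nat_lit 389))))) (XT.nd (nat_lit 188) (nat_lit 504) (nat_lit 0) (XT.nd (nat_lit 94) (nat_lit 252) (nat_lit 0) (XT.lf (nat_lit 252) (nat_lit 22070158711) (nat_lit 0) (nat_lit 22886552430) (nat_lit 168) (nat_lit 70519935390) (nat_lit 56) (nat_lit 1) (nat_lit 53) (nat_lit 1) (nat_lit 55) (nat_lit 1) (nat_lit 277) (nat_lit 415) (nat_lit 388)) (XT.lf (nat_lit 252) (nat_lit 87610419071) (nat_lit 0) (nat_lit 21866243259) (nat_lit 168) (nat_lit 2773986642) (nat_lit 53) (nat_lit 1) (nat_lit 50) (nat_lit 1) (nat_lit 52) (nat_lit 1) (nat_lit 278) (nat_lit 415) (nat_lit 387))) (XT.nd (nat_lit 94) (nat_lit 336) (nat_lit 0) (XT.lf (nat_lit 252) (nat_lit 39210363176) (nat_lit 0) (nat_lit 20874890180) (nat_lit 168) (nat_lit 49029038346) (nat_lit 51) (nat_lit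 1) (nat_lit 48) (nat_lit 1) (nat_lit 50) (nat_lit 1) (nat_lit 279) (nat_lit 415) (nat_lit 386)) (XT.nd (nat_lit 94) (nat_lit 168) (nat_lit 0) (XT.lf (nat_lit 84) (nat_lit 13431063257) (nat_lit 0) (nat_lit 7382317588) (nat_lit 168) (nat_lit 85294641582) (nat_lit 47) (nat_lit 1) (nat_lit 46) (nat_lit 1) (nat_lit 48) (nat_lit 1) (nat_lit 280) (nat_lit 415) (nat_lit 385)) (XT.lf (nat_lit 252) (nat_lit 51446251503) (nat_lit 0) (nat_lit 20592990310) (nat_lit 168) (nat_lit 31138371686) (nat_lit 47) (nat_lit 1) (nat_lit 44) (nat_lit 1) (nat_lit 46) (nat_lit 1) (nat_lit 281) (nat_lit 415) (nat_lit 384))))))))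
noncomputable def ec221 : XT := (XT.nd (nat_lit 1786) (nat_lit 1008) (nat_lit 0) (XT.nd (nat_lit 846) (nat_lit 1260) (nat_lit 0) (XT.nd (nat_lit 376) (nat_lit 756) (nat_lit 0) (XT.nd (nat_lit 188) (nat_lit 336) (nat_lit 0) (XT.nd (nat_lit 94) (nat_lit 252) (nat_lit 0) (XT.lf (nat_lit 168) (nat_lit 5540030244) (nat_lit 0) (nat_lit 21098780764) (nat_lit 84) (nat_lit 73724082336) (nat_lit 45) (nat_lit 1) (nat_lit 43) (nat_lit 1) (nat_lit 44) (nat_lit 1) (nat_lit 282) (nat_lit 415) (nat_lit 383)) (XT.lf (nat_lit 252) (nat_lit 59802581140) (nat_lit 0) (nat_lit 21578422440) (nat_lit 168) (nat_lit 16244780137) (nat_lit 43) (nat_lit 1) (nat_lit 40) (nat_lit 1) (nat_lit 42) (nat_lit 1) (nat_lit 283) (nat_lit 415) (nat_lit 382))) (XT.nd (nat_lit 94) (nat_lit 252) (nat_lit 0) (XT.lf (nat_lit 168) (nat_lit 15040790139) (nat_lit 0) (nat_lit 22385261399) (nat_lit 84) (nat_lit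 57554868642) (nat_lit 41) (nat_lit 1) (nat_lit 39) (nat_lit 1) (nat_lit 40) (nat_lit 1) (nat_lit 284) (nat_lit 415) (nat_lit 381)) (XT.lf (nat_lit 252) (nat_lit 65107881574) (nat_lit 0) (nat_lit 23464909179) (nat_lit 168) (nat_lit 3850792467) (nat_lit 39) (nat_lit 1) (nat_lit 36) (nat_lit 1) (nat_lit 38) (nat_lit 1) (nat_lit 285) (nat_lit 415) (nat_lit 380)))) (XT.nd (nat_lit 188) (nat_lit 420) (nat_lit 0) (XT.nd (nat_lit 94) (nat_lit 252) (nat_lit 0) (XT.lf (nat_lit 168) (nat_lit 21645760486) (nat_lit 0) (nat_lit 24462449778) (nat_lit 84) (nat_lit 43826591371) (nat_lit 37) (nat_lit 1) (nat_lit 35) (nat_lit 1) (nat_lit 36) (nat_lit 1) (nat_lit 286) (nat_lit 415) (nat_lit 379)) (XT.lf (nat_lit 84) (nat_lit 6247827898) (nat_lit 0) (nat_lit 19610266343) (nat_lit 252) (nat_lit 61677335459) (nat_lit 33) (nat_lit 1) (nat_lit 32) (nat_lit 1) (nat_lit 35) (nat_lit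 1) (nat_lit 287) (nat_lit 415) (nat_lit 378))) (XT.nd (nat_lit 94) (nat_lit 336) (nat_lit 0) (XT.lf (nat_lit 168) (nat_lit 25976865524) (nat_lit 0) (nat_lit 27066662600) (nat_lit 84) (nat_lit 32152116564) (nat_lit 33) (nat_lit 1) (nat_lit 31) (nat_lit 1) (nat_lit 32) (nat_lit 1) (nat_lit 288) (nat_lit 415) (nat_lit 377)) (XT.nd (nat_lit 94) (nat_lit 84) (nat_lit 0) (XT.lf (nat_lit 84) (nat_lit 14530121310) (nat_lit 0) (nat_lit 14073405013) (nat_lit 252) (nat_lit 54334559131) (nat_lit 29) (nat_lit 1) (nat_lit 28) (nat_lit 1) (nat_lit 31) (nat_lit 1) (nat_lit 289) (nat_lit 415) (nat_lit 376)) (XT.lf (nat_lit 168) (nat_lit 28535645065) (nat_lit 0) (nat_lit 29992065283) (nat_lit 84) (nat_lit 22210495653) (nat_lit 29) (nat_lit 1) (nat_lit 27) (nat_lit 1) (nat_lit 28) (nat_lit 1) (nat_lit 290) (nat_lit 415) (nat_lit 375)))))) (XT.nd (nat_lit 470) (nat_lit 588) (nat_lit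 0) (XT.nd (nat_lit 188) (nat_lit 420) (nat_lit 0) (XT.nd (nat_lit 94) (nat_lit 84) (nat_lit 0) (XT.lf (nat_lit 84) (nat_lit 21391698515) (nat_lit 0) (nat_lit 10192761583) (nat_lit 168) (nat_lit 47026518327) (nat_lit 26) (nat_lit 1) (nat_lit 25) (nat_lit 1) (nat_lit 27) (nat_lit 1) (nat_lit 291) (nat_lit 415) (nat_lit 374)) (XT.lf (nat_lit 168) (nat_lit 29725749162) (nat_lit 0) (nat_lit 33079397506) (nat_lit 84) (nat_lit 13735159350) (nat_lit 26) (nat_lit 1) (nat_lit 24) (nat_lit 1) (nat_lit 25) (nat_lit 1) (nat_lit 292) (nat_lit 415) (nat_lit 373))) (XT.nd (nat_lit 94) (nat_lit 252) (nat_lit 0) (XT.lf (nat_lit 84) (nat_lit 27058509658) (nat_lit 0) (nat_lit 7603933047) (nat_lit 168) (nat_lit 39870882622) (nat_lit 23) (nat_lit 1) (nat_lit 22) (nat_lit 1) (nat_lit 24) (nat_lit 1) (nat_lit 293) (nat_lit 415) (nat_lit 372)) (XT.nd (nat_lit 94) (nat_lit 168) (nat_lit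 0) (XT.lf (nat_lit 168) (nat_lit 29871280095) (nat_lit 0) (nat_lit 36206810353) (nat_lit 84) (nat_lit 6504255839) (nat_lit 23) (nat_lit 1) (nat_lit 21) (nat_lit 1) (nat_lit 22) (nat_lit 1) (nat_lit 294) (nat_lit 415) (nat_lit 371)) (XT.lf (nat_lit 84) (nat_lit 31718344523) (nat_lit 0) (nat_lit 6013905509) (nat_lit 168) (nat_lit 32954452560) (nat_lit 20) (nat_lit 1) (nat_lit 19) (nat_lit 1) (nat_lit 21) (nat_lit 1) (nat_lit 295) (nat_lit 415) (nat_lit 370))))) (XT.nd (nat_lit 188) (nat_lit 336) (nat_lit 0) (XT.nd (nat_lit 94) (nat_lit 168) (nat_lit 0) (XT.lf (nat_lit 168) (nat_lit 29231745195) (nat_lit 0) (nat_lit 39282424936) (nat_lit 84) (nat_lit 332741182) (nat_lit 20) (nat_lit 1) (nat_lit 18) (nat_lit 1) (nat_lit 19) (nat_lit 1) (nat_lit 296) (nat_lit 415) (nat_lit 369)) (XT.lf (nat_lit 84) (nat_lit 35527587289) (nat_lit 0) (nat_lit 5187649606) (nat_lit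 168) (nat_lit 26339450235) (nat_lit 17) (nat_lit 1) (nat_lit 16) (nat_lit 1) (nat_lit 18) (nat_lit 1) (nat_lit 297) (nat_lit 415) (nat_lit 368))) (XT.nd (nat_lit 94) (nat_lit 252) (nat_lit 0) (XT.lf (nat_lit 0) (nat_lit 4776176327) (nat_lit 0) (nat_lit 37381230939) (nat_lit 168) (nat_lit 23157180579) (nat_lit 15) (nat_lit 3) (nat_lit 15) (nat_lit 1) (nat_lit 17) (nat_lit 1) (nat_lit 298) (nat_lit 415) (nat_lit 367)) (XT.nd (nat_lit 94) (nat_lit 84) (nat_lit 0) (XT.lf (nat_lit 84) (nat_lit 38616748579) (nat_lit 0) (nat_lit 4937194977) (nat_lit 168) (nat_lit 20068615677) (nat_lit 14) (nat_lit 1) (nat_lit 13) (nat_lit 1) (nat_lit 15) (nat_lit 1) (nat_lit 299) (nat_lit 415) (nat_lit 366)) (XT.lf (nat_lit 0) (nat_lit 9124263752) (nat_lit 0) (nat_lit 35746719996) (nat_lit 168) (nat_lit 17104609409) (nat_lit 12) (nat_lit 3) (nat_lit 12) (nat_lit 1) (nat_lit 14) (nat_lit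 1) (nat_lit 300) (nat_lit 415) (nat_lit 365))))))) (XT.nd (nat_lit 846) (nat_lit 0) (nat_lit 0) (XT.nd (nat_lit 376) (nat_lit 504) (nat_lit 0) (XT.nd (nat_lit 188) (nat_lit 252) (nat_lit 0) (XT.nd (nat_lit 94) (nat_lit 84) (nat_lit 0) (XT.lf (nat_lit 84) (nat_lit 41094998096) (nat_lit 0) (nat_lit 5112727717) (nat_lit 168) (nat_lit 14169330626) (nat_lit 11) (nat_lit 1) (nat_lit 10) (nat_lit 1) (nat_lit 12) (nat_lit 1) (nat_lit 301) (nat_lit 415) (nat_lit 364)) (XT.lf (nat_lit 0) (nat_lit 12827699405) (nat_lit 0) (nat_lit 34565285339) (nat_lit 168) (nat_lit 11424493471) (nat_lit 9) (nat_lit 3) (nat_lit 9) (nat_lit 1) (nat_lit 11) (nat_lit 1) (nat_lit 302) (nat_lit 415) (nat_lit 363))) (XT.nd (nat_lit 94) (nat_lit 84) (nat_lit 0) (XT.lf (nat_lit 84) (nat_lit 43053880218) (nat_lit 0) (nat_lit 5595338500) (nat_lit 168) (nat_lit 8656950456) (nat_lit 8) (nat_lit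 1) (nat_lit 7) (nat_lit 1) (nat_lit 9) (nat_lit 1) (nat_lit 303) (nat_lit 415) (nat_lit 362)) (XT.lf (nat_lit 0) (nat_lit 15975454502) (nat_lit 0) (nat_lit 33724479531) (nat_lit 168) (nat_lit 6128781989) (nat_lit 6) (nat_lit 3) (nat_lit 6) (nat_lit 1) (nat_lit 8) (nat_lit 1) (nat_lit 304) (nat_lit 415) (nat_lit 361)))) (XT.nd (nat_lit 188) (nat_lit 252) (nat_lit 0) (XT.nd (nat_lit 94) (nat_lit 84) (nat_lit 0) (XT.lf (nat_lit 84) (nat_lit 44570361528) (nat_lit 0) (nat_lit 6291117418) (nat_lit 168) (nat_lit 3537491725) (nat_lit 5) (nat_lit 1) (nat_lit 4) (nat_lit 1) (nat_lit 6) (nat_lit 1) (nat_lit 305) (nat_lit 415) (nat_lit 360)) (XT.lf (nat_lit 0) (nat_lit 18642777470) (nat_lit 0) (nat_lit 33135090022) (nat_lit 168) (nat_lit 1220935299) (nat_lit 3) (nat_lit 3) (nat_lit 3) (nat_lit 1) (nat_lit 5) (nat_lit 1) (nat_lit 306) (nat_lit 415) (nat_lit 359))) (XT.nd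 (nat_lit 94) (nat_lit 0) (nat_lit 0) (XT.lf (nat_lit 0) (nat_lit 74916250109) (nat_lit 0) (nat_lit 0) (nat_lit 0) (nat_lit 0) (nat_lit 0) (nat_lit 0) (nat_lit 1) (nat_lit 0) (nat_lit 1) (nat_lit 0) (nat_lit 307) (nat_lit 415) (nat_lit 358)) (XT.nd (nat_lit 94) (nat_lit 0) (nat_lit 0) (XT.lf (nat_lit 0) (nat_lit 74848060439) (nat_lit 0) (nat_lit 0) (nat_lit 0) (nat_lit 0) (nat_lit 0) (nat_lit 0) (nat_lit 1) (nat_lit 0) (nat_lit 1) (nat_lit 0) (nat_lit 308) (nat_lit 415) (nat_lit 357)) (XT.lf (nat_lit 0) (nat_lit 74784921855) (nat_lit 0) (nat_lit 0) (nat_lit 0) (nat_lit 0) (nat_lit 0) (nat_lit 0) (nat_lit 1) (nat_lit 0) (nat_lit 1) (nat_lit 0) (nat_lit 309) (nat_lit 415) (nat_lit 356)))))) (XT.nd (nat_lit 470) (nat_lit 0) (nat_lit 0) (XT.nd (nat_lit 188) (nat_lit 0) (nat_lit 0) (XT.nd (nat_lit 94) (nat_lit 0) (nat_lit 0) (XT.lf (nat_lit 0) (nat_lit 74726460204)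 (nat_lit 0) (nat_lit 0) (nat_lit 0) (nat_lit 0) (nat_lit 0) (nat_lit 0) (nat_lit 1) (nat_lit 0) (nat_lit 1) (nat_lit 0) (nat_lit 310) (nat_lit 415) (nat_lit 355)) (XT.lf (nat_lit 0) (nat_lit 74672329045) (nat_lit 0) (nat_lit 0) (nat_lit 0) (nat_lit 0) (nat_lit 0) (nat_lit 0) (nat_lit 1) (nat_lit 0) (nat_lit 1) (nat_lit 0) (nat_lit 311) (nat_lit 415) (nat_lit 354))) (XT.nd (nat_lit 94) (nat_lit 0) (nat_lit 0) (XT.lf (nat_lit 0) (nat_lit 74622207602) (nat_lit 0) (nat_lit 0) (nat_lit 0) (nat_lit 0) (nat_lit 0) (nat_lit 0) (nat_lit 1) (nat_lit 0) (nat_lit 1) (nat_lit 0) (nat_lit 312) (nat_lit 415) (nat_lit 353)) (XT.nd (nat_lit 94) (nat_lit 0) (nat_lit 0) (XT.lf (nat_lit 0) (nat_lit 74575798858) (nat_lit 0) (nat_lit 0) (nat_lit 0) (nat_lit 0) (nat_lit 0) (nat_lit 0) (nat_lit 1) (nat_lit 0) (nat_lit 1) (nat_lit 0) (nat_lit 313) (nat_lit 415) (nat_lit 352)) (XT.lf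 (nat_lit 0) (nat_lit 74532827799) (nat_lit 0) (nat_lit 0) (nat_lit 0) (nat_lit 0) (nat_lit 0) (nat_lit 0) (nat_lit 1) (nat_lit 0) (nat_lit 1) (nat_lit 0) (nat_lit 314) (nat_lit 415) (nat_lit 351))))) (XT.nd (nat_lit 188) (nat_lit 0) (nat_lit 0) (XT.nd (nat_lit 94) (nat_lit 0) (nat_lit 0) (XT.lf (nat_lit 0) (nat_lit 74493039781) (nat_lit 0) (nat_lit 0) (nat_lit 0) (nat_lit 0) (nat_lit 0) (nat_lit 0) (nat_lit 1) (nat_lit 0) (nat_lit 1) (nat_lit 0) (nat_lit 315) (nat_lit 415) (nat_lit 350)) (XT.lf (nat_lit 0) (nat_lit 74456199024) (nat_lit 0) (nat_lit 0) (nat_lit 0) (nat_lit 0) (nat_lit 0) (nat_lit 0) (nat_lit 1) (nat_lit 0) (nat_lit 1) (nat_lit 0) (nat_lit 316) (nat_lit 415) (nat_lit 349))) (XT.nd (nat_lit 94) (nat_lit 0) (nat_lit 0) (XT.lf (nat_lit 0) (nat_lit 74422087212) (nat_lit 0) (nat_lit 0) (nat_lit 0) (nat_lit 0) (nat_lit 0) (nat_lit 0) (nat_lit 1) (nat_lit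 0) (nat_lit 1) (nat_lit 0) (nat_lit 317) (nat_lit 415) (nat_lit 348)) (XT.nd (nat_lit 94) (nat_lit 0) (nat_lit 0) (XT.lf (nat_lit 0) (nat_lit 74390502201) (nat_lit 0) (nat_lit 0) (nat_lit 0) (nat_lit 0) (nat_lit 0) (nat_lit 0) (nat_lit 1) (nat_lit 0) (nat_lit 1) (nat_lit 0) (nat_lit 318) (nat_lit 415) (nat_lit 347)) (XT.lf (nat_lit 0) (nat_lit 74361256820) (nat_lit 0) (nat_lit 0) (nat_lit 0) (nat_lit 0) (nat_lit 0) (nat_lit 0) (nat_lit 1) (nat_lit 0) (nat_lit 1) (nat_lit 0) (nat_lit 319) (nat_lit 415) (nat_lit 346))))))))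
noncomputable def ec222 : XT := (XT.nd (nat_lit 1692) (nat_lit 0) (nat_lit 0) (XT.nd (nat_lit 846) (nat_lit 0) (nat_lit 0) (XT.nd (nat_lit 376) (nat_lit 0) (nat_lit 0) (XT.nd (nat_lit 188) (nat_lit 0) (nat_lit 0) (XT.nd (nat_lit 94) (nat_lit 0) (nat_lit 0) (XT.lf (nat_lit 0) (nat_lit 74334177764) (nat_lit 0) (nat_lit 0) (nat_lit 0) (nat_lit 0) (nat_lit 0) (nat_lit 0) (nat_lit 1) (nat_lit 0) (nat_lit 1) (nat_lit 0) (nat_lit 320) (nat_lit 415) (nat_lit 345)) (XT.lf (nat_lit 0) (nat_lit 74309104563) (nat_lit 0) (nat_lit 0) (nat_lit 0) (nat_lit 0) (nat_lit 0) (nat_lit 0) (nat_lit 1) (nat_lit 0) (nat_lit 1) (nat_lit 0) (nat_lit 321) (nat_lit 415) (nat_lit 344))) (XT.nd (nat_lit 94) (nat_lit 0) (nat_lit 0) (XT.lf (nat_lit 0) (nat_lit 74285888637) (nat_lit 0) (nat_lit 0) (nat_lit 0) (nat_lit 0) (nat_lit 0) (nat_lit 0) (nat_lit 1) (nat_lit 0) (nat_lit 1) (nat_lit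 0) (nat_lit 322) (nat_lit 415) (nat_lit 343)) (XT.lf (nat_lit 0) (nat_lit 74264392409) (nat_lit 0) (nat_lit 0) (nat_lit 0) (nat_lit 0) (nat_lit 0) (nat_lit 0) (nat_lit 1) (nat_lit 0) (nat_lit 1) (nat_lit 0) (nat_lit 323) (nat_lit 415) (nat_lit 342)))) (XT.nd (nat_lit 188) (nat_lit 0) (nat_lit 0) (XT.nd (nat_lit 94) (nat_lit 0) (nat_lit 0) (XT.lf (nat_lit 0) (nat_lit 74244488495) (nat_lit 0) (nat_lit 0) (nat_lit 0) (nat_lit 0) (nat_lit 0) (nat_lit 0) (nat_lit 1) (nat_lit 0) (nat_lit 1) (nat_lit 0) (nat_lit 324) (nat_lit 415) (nat_lit 341)) (XT.lf (nat_lit 0) (nat_lit 74226058944) (nat_lit 0) (nat_lit 0) (nat_lit 0) (nat_lit 0) (nat_lit 0) (nat_lit 0) (nat_lit 1) (nat_lit 0) (nat_lit 1) (nat_lit 0) (nat_lit 325) (nat_lit 415) (nat_lit 340))) (XT.nd (nat_lit 94) (nat_lit 0) (nat_lit 0) (XT.lf (nat_lit 0) (nat_lit 74208994545) (nat_lit 0) (nat_lit 0) (nat_lit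 0) (nat_lit 0) (nat_lit 0) (nat_lit 0) (nat_lit 1) (nat_lit 0) (nat_lit 1) (nat_lit 0) (nat_lit 326) (nat_lit 415) (nat_lit 339)) (XT.nd (nat_lit 94) (nat_lit 0) (nat_lit 0) (XT.lf (nat_lit 0) (nat_lit 74193194176) (nat_lit 0) (nat_lit 0) (nat_lit 0) (nat_lit 0) (nat_lit 0) (nat_lit 0) (nat_lit 1) (nat_lit 0) (nat_lit 1) (nat_lit 0) (nat_lit 327) (nat_lit 415) (nat_lit 338)) (XT.lf (nat_lit 0) (nat_lit 74178564204) (nat_lit 0) (nat_lit 0) (nat_lit 0) (nat_lit 0) (nat_lit 0) (nat_lit 0) (nat_lit 1) (nat_lit 0) (nat_lit 1) (nat_lit 0) (nat_lit 328) (nat_lit 415) (nat_lit 337)))))) (XT.nd (nat_lit 376) (nat_lit 0) (nat_lit 0) (XT.nd (nat_lit 188) (nat_lit 0) (nat_lit 0) (XT.nd (nat_lit 94) (nat_lit 0) (nat_lit 0) (XT.lf (nat_lit 0) (nat_lit 74165017934) (nat_lit 0) (nat_lit 0) (nat_lit 0) (nat_lit 0) (nat_lit 0) (nat_lit 0) (nat_lit 1) (nat_lit 0) (nat_lit 1)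 (nat_lit 0) (nat_lit 329) (nat_lit 415) (nat_lit 336)) (XT.lf (nat_lit 0) (nat_lit 74152475092) (nat_lit 0) (nat_lit 0) (nat_lit 0) (nat_lit 0) (nat_lit 0) (nat_lit 0) (nat_lit 1) (nat_lit 0) (nat_lit 1) (nat_lit 0) (nat_lit 330) (nat_lit 415) (nat_lit 335))) (XT.nd (nat_lit 94) (nat_lit 0) (nat_lit 0) (XT.lf (nat_lit 0) (nat_lit 74140861349) (nat_lit 0) (nat_lit 0) (nat_lit 0) (nat_lit 0) (nat_lit 0) (nat_lit 0) (nat_lit 1) (nat_lit 0) (nat_lit 1) (nat_lit 0) (nat_lit 331) (nat_lit 415) (nat_lit 334)) (XT.lf (nat_lit 0) (nat_lit 74130107883) (nat_lit 0) (nat_lit 0) (nat_lit 0) (nat_lit 0) (nat_lit 0) (nat_lit 0) (nat_lit 1) (nat_lit 0) (nat_lit 1) (nat_lit 0) (nat_lit 332) (nat_lit 415) (nat_lit 333)))) (XT.nd (nat_lit 188) (nat_lit 0) (nat_lit 0) (XT.nd (nat_lit 94) (nat_lit 0) (nat_lit 0) (XT.lf (nat_lit 0) (nat_lit 74120150970) (nat_lit 0) (nat_lit 0)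 (nat_lit 0) (nat_lit 0) (nat_lit 0) (nat_lit 0) (nat_lit 1) (nat_lit 0) (nat_lit 1) (nat_lit 0) (nat_lit 333) (nat_lit 415) (nat_lit 332)) (XT.lf (nat_lit 0) (nat_lit 74110931606) (nat_lit 0) (nat_lit 0) (nat_lit 0) (nat_lit 0) (nat_lit 0) (nat_lit 0) (nat_lit 1) (nat_lit 0) (nat_lit 1) (nat_lit 0) (nat_lit 334) (nat_lit 415) (nat_lit 331))) (XT.nd (nat_lit 94) (nat_lit 0) (nat_lit 0) (XT.lf (nat_lit 0) (nat_lit 74102395159) (nat_lit 0) (nat_lit 0) (nat_lit 0) (nat_lit 0) (nat_lit 0) (nat_lit 0) (nat_lit 1) (nat_lit 0) (nat_lit 1) (nat_lit 0) (nat_lit 335) (nat_lit 415) (nat_lit 330)) (XT.nd (nat_lit 94) (nat_lit 0) (nat_lit 0) (XT.lf (nat_lit 0) (nat_lit 74094491040) (nat_lit 0) (nat_lit 0) (nat_lit 0) (nat_lit 0) (nat_lit 0) (nat_lit 0) (nat_lit 1) (nat_lit 0) (nat_lit 1) (nat_lit 0) (nat_lit 336) (nat_lit 415) (nat_lit 329)) (XT.lf (nat_lit 0) (nat_lit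 74087172412) (nat_lit 0) (nat_lit 0) (nat_lit 0) (nat_lit 0) (nat_lit 0) (nat_lit 0) (nat_lit 1) (nat_lit 0) (nat_lit 1) (nat_lit 0) (nat_lit 337) (nat_lit 415) (nat_lit 328))))))) (XT.nd (nat_lit 846) (nat_lit 0) (nat_lit 0) (XT.nd (nat_lit 376) (nat_lit 0) (nat_lit 0) (XT.nd (nat_lit 188) (nat_lit 0) (nat_lit 0) (XT.nd (nat_lit 94) (nat_lit 0) (nat_lit 0) (XT.lf (nat_lit 0) (nat_lit 74080395905) (nat_lit 0) (nat_lit 0) (nat_lit 0) (nat_lit 0) (nat_lit 0) (nat_lit 0) (nat_lit 1) (nat_lit 0) (nat_lit 1) (nat_lit 0) (nat_lit 338) (nat_lit 415) (nat_lit 327)) (XT.lf (nat_lit 0) (nat_lit 74074121361) (nat_lit 0) (nat_lit 0) (nat_lit 0) (nat_lit 0) (nat_lit 0) (nat_lit 0) (nat_lit 1) (nat_lit 0) (nat_lit 1) (nat_lit 0) (nat_lit 339) (nat_lit 415) (nat_lit 326))) (XT.nd (nat_lit 94) (nat_lit 0) (nat_lit 0) (XT.lf (nat_lit 0) (nat_lit 74068311598) (nat_lit 0) (nat_lit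 0) (nat_lit 0) (nat_lit 0) (nat_lit 0) (nat_lit 0) (nat_lit 1) (nat_lit 0) (nat_lit 1) (nat_lit 0) (nat_lit 340) (nat_lit 415) (nat_lit 325)) (XT.lf (nat_lit 0) (nat_lit 74062932187) (nat_lit 0) (nat_lit 0) (nat_lit 0) (nat_lit 0) (nat_lit 0) (nat_lit 0) (nat_lit 1) (nat_lit 0) (nat_lit 1) (nat_lit 0) (nat_lit 341) (nat_lit 415) (nat_lit 324)))) (XT.nd (nat_lit 188) (nat_lit 0) (nat_lit 0) (XT.nd (nat_lit 94) (nat_lit 0) (nat_lit 0) (XT.lf (nat_lit 0) (nat_lit 74057951252) (nat_lit 0) (nat_lit 0) (nat_lit 0) (nat_lit 0) (nat_lit 0) (nat_lit 0) (nat_lit 1) (nat_lit 0) (nat_lit 1) (nat_lit 0) (nat_lit 342) (nat_lit 415) (nat_lit 323)) (XT.lf (nat_lit 0) (nat_lit 74053339275) (nat_lit 0) (nat_lit 0) (nat_lit 0) (nat_lit 0) (nat_lit 0) (nat_lit 0) (nat_lit 1) (nat_lit 0) (nat_lit 1) (nat_lit 0) (nat_lit 343) (nat_lit 415) (nat_lit 322))) (XT.nd (nat_lit 94) (nat_lit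 0) (nat_lit 0) (XT.lf (nat_lit 0) (nat_lit 74049068926) (nat_lit 0) (nat_lit 0) (nat_lit 0) (nat_lit 0) (nat_lit 0) (nat_lit 0) (nat_lit 1) (nat_lit 0) (nat_lit 1) (nat_lit 0) (nat_lit 344) (nat_lit 415) (nat_lit 321)) (XT.nd (nat_lit 94) (nat_lit 0) (nat_lit 0) (XT.lf (nat_lit 0) (nat_lit 74045114899) (nat_lit 0) (nat_lit 0) (nat_lit 0) (nat_lit 0) (nat_lit 0) (nat_lit 0) (nat_lit 1) (nat_lit 0) (nat_lit 1) (nat_lit 0) (nat_lit 345) (nat_lit 415) (nat_lit 320)) (XT.lf (nat_lit 0) (nat_lit 74041453762) (nat_lit 0) (nat_lit 0) (nat_lit 0) (nat_lit 0) (nat_lit 0) (nat_lit 0) (nat_lit 1) (nat_lit 0) (nat_lit 1) (nat_lit 0) (nat_lit 346) (nat_lit 415) (nat_lit 319)))))) (XT.nd (nat_lit 470) (nat_lit 0) (nat_lit 0) (XT.nd (nat_lit 188) (nat_lit 0) (nat_lit 0) (XT.nd (nat_lit 94) (nat_lit 0) (nat_lit 0) (XT.lf (nat_lit 0) (nat_lit 74038063821) (nat_lit 0) (nat_lit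 0) (nat_lit 0) (nat_lit 0) (nat_lit 0) (nat_lit 0) (nat_lit 1) (nat_lit 0) (nat_lit 1) (nat_lit 0) (nat_lit 347) (nat_lit 415) (nat_lit 318)) (XT.lf (nat_lit 0) (nat_lit 74034924987) (nat_lit 0) (nat_lit 0) (nat_lit 0) (nat_lit 0) (nat_lit 0) (nat_lit 0) (nat_lit 1) (nat_lit 0) (nat_lit 1) (nat_lit 0) (nat_lit 348) (nat_lit 415) (nat_lit 317))) (XT.nd (nat_lit 94) (nat_lit 0) (nat_lit 0) (XT.lf (nat_lit 0) (nat_lit 74032018659) (nat_lit 0) (nat_lit 0) (nat_lit 0) (nat_lit 0) (nat_lit 0) (nat_lit 0) (nat_lit 1) (nat_lit 0) (nat_lit 1) (nat_lit 0) (nat_lit 349) (nat_lit 415) (nat_lit 316)) (XT.nd (nat_lit 94) (nat_lit 0) (nat_lit 0) (XT.lf (nat_lit 0) (nat_lit 74029327615) (nat_lit 0) (nat_lit 0) (nat_lit 0) (nat_lit 0) (nat_lit 0) (nat_lit 0) (nat_lit 1) (nat_lit 0) (nat_lit 1) (nat_lit 0) (nat_lit 350) (nat_lit 415) (nat_lit 315)) (XT.lf (nat_lit 0) (nat_lit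 74026835907) (nat_lit 0) (nat_lit 0) (nat_lit 0) (nat_lit 0) (nat_lit 0) (nat_lit 0) (nat_lit 1) (nat_lit 0) (nat_lit 1) (nat_lit 0) (nat_lit 351) (nat_lit 415) (nat_lit 314))))) (XT.nd (nat_lit 188) (nat_lit 0) (nat_lit 0) (XT.nd (nat_lit 94) (nat_lit 0) (nat_lit 0) (XT.lf (nat_lit 0) (nat_lit 74024528770) (nat_lit 0) (nat_lit 0) (nat_lit 0) (nat_lit 0) (nat_lit 0) (nat_lit 0) (nat_lit 1) (nat_lit 0) (nat_lit 1) (nat_lit 0) (nat_lit 352) (nat_lit 415) (nat_lit 313)) (XT.lf (nat_lit 0) (nat_lit 74022392533) (nat_lit 0) (nat_lit 0) (nat_lit 0) (nat_lit 0) (nat_lit 0) (nat_lit 0) (nat_lit 1) (nat_lit 0) (nat_lit 1) (nat_lit 0) (nat_lit 353) (nat_lit 415) (nat_lit 312))) (XT.nd (nat_lit 94) (nat_lit 0) (nat_lit 0) (XT.lf (nat_lit 0) (nat_lit 74020414535) (nat_lit 0) (nat_lit 0) (nat_lit 0) (nat_lit 0) (nat_lit 0) (nat_lit 0) (nat_lit 1) (nat_lit 0) (nat_lit 1)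 (nat_lit 0) (nat_lit 354) (nat_lit 415) (nat_lit 311)) (XT.nd (nat_lit 94) (nat_lit 0) (nat_lit 0) (XT.lf (nat_lit 0) (nat_lit 74018583055) (nat_lit 0) (nat_lit 0) (nat_lit 0) (nat_lit 0) (nat_lit 0) (nat_lit 0) (nat_lit 1) (nat_lit 0) (nat_lit 1) (nat_lit 0) (nat_lit 355) (nat_lit 415) (nat_lit 310)) (XT.lf (nat_lit 0) (nat_lit 74016887241) (nat_lit 0) (nat_lit 0) (nat_lit 0) (nat_lit 0) (nat_lit 0) (nat_lit 0) (nat_lit 1) (nat_lit 0) (nat_lit 1) (nat_lit 0) (nat_lit 356) (nat_lit 415) (nat_lit 309))))))))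
noncomputable def ec223 : XT := (XT.nd (nat_lit 1786) (nat_lit 0) (nat_lit 0) (XT.nd (nat_lit 846) (nat_lit 0) (nat_lit 0) (XT.nd (nat_lit 376) (nat_lit 0) (nat_lit 0) (XT.nd (nat_lit 188) (nat_lit 0) (nat_lit 0) (XT.nd (nat_lit 94) (nat_lit 0) (nat_lit 0) (XT.lf (nat_lit 0) (nat_lit 74015317042) (nat_lit 0) (nat_lit 0) (nat_lit 0) (nat_lit 0) (nat_lit 0) (nat_lit 0) (nat_lit 1) (nat_lit 0) (nat_lit 1) (nat_lit 0) (nat_lit 357) (nat_lit 415) (nat_lit 308)) (XT.lf (nat_lit 0) (nat_lit 74013863155) (nat_lit 0) (nat_lit 0) (nat_lit 0) (nat_lit 0) (nat_lit 0) (nat_lit 0) (nat_lit 1) (nat_lit 0) (nat_lit 1) (nat_lit 0) (nat_lit 358) (nat_lit 415) (nat_lit 307))) (XT.nd (nat_lit 94) (nat_lit 0) (nat_lit 0) (XT.lf (nat_lit 0) (nat_lit 74012516962) (nat_lit 0) (nat_lit 0) (nat_lit 0) (nat_lit 0) (nat_lit 0) (nat_lit 0) (nat_lit 1) (nat_lit 0) (nat_lit 1) (nat_lit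 0) (nat_lit 359) (nat_lit 415) (nat_lit 306)) (XT.lf (nat_lit 0) (nat_lit 74011270488) (nat_lit 0) (nat_lit 0) (nat_lit 0) (nat_lit 0) (nat_lit 0) (nat_lit 0) (nat_lit 1) (nat_lit 0) (nat_lit 1) (nat_lit 0) (nat_lit 360) (nat_lit 415) (nat_lit 305)))) (XT.nd (nat_lit 188) (nat_lit 0) (nat_lit 0) (XT.nd (nat_lit 94) (nat_lit 0) (nat_lit 0) (XT.lf (nat_lit 0) (nat_lit 74010116345) (nat_lit 0) (nat_lit 0) (nat_lit 0) (nat_lit 0) (nat_lit 0) (nat_lit 0) (nat_lit 1) (nat_lit 0) (nat_lit 1) (nat_lit 0) (nat_lit 361) (nat_lit 415) (nat_lit 304)) (XT.lf (nat_lit 0) (nat_lit 74009047695) (nat_lit 0) (nat_lit 0) (nat_lit 0) (nat_lit 0) (nat_lit 0) (nat_lit 0) (nat_lit 1) (nat_lit 0) (nat_lit 1) (nat_lit 0) (nat_lit 362) (nat_lit 415) (nat_lit 303))) (XT.nd (nat_lit 94) (nat_lit 0) (nat_lit 0) (XT.lf (nat_lit 0) (nat_lit 74008058203) (nat_lit 0) (nat_lit 0) (nat_lit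 0) (nat_lit 0) (nat_lit 0) (nat_lit 0) (nat_lit 1) (nat_lit 0) (nat_lit 1) (nat_lit 0) (nat_lit 363) (nat_lit 415) (nat_lit 302)) (XT.nd (nat_lit 94) (nat_lit 0) (nat_lit 0) (XT.lf (nat_lit 0) (nat_lit 74007142007) (nat_lit 0) (nat_lit 0) (nat_lit 0) (nat_lit 0) (nat_lit 0) (nat_lit 0) (nat_lit 1) (nat_lit 0) (nat_lit 1) (nat_lit 0) (nat_lit 364) (nat_lit 415) (nat_lit 301)) (XT.lf (nat_lit 0) (nat_lit 74006293678) (nat_lit 0) (nat_lit 0) (nat_lit 0) (nat_lit 0) (nat_lit 0) (nat_lit 0) (nat_lit 1) (nat_lit 0) (nat_lit 1) (nat_lit 0) (nat_lit 365) (nat_lit 415) (nat_lit 300)))))) (XT.nd (nat_lit 470) (nat_lit 0) (nat_lit 0) (XT.nd (nat_lit 188) (nat_lit 0) (nat_lit 0) (XT.nd (nat_lit 94) (nat_lit 0) (nat_lit 0) (XT.lf (nat_lit 0) (nat_lit 74005508188) (nat_lit 0) (nat_lit 0) (nat_lit 0) (nat_lit 0) (nat_lit 0) (nat_lit 0) (nat_lit 1) (nat_lit 0) (nat_lit 1)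 (nat_lit 0) (nat_lit 366) (nat_lit 415) (nat_lit 299)) (XT.lf (nat_lit 0) (nat_lit 74004780882) (nat_lit 0) (nat_lit 0) (nat_lit 0) (nat_lit 0) (nat_lit 0) (nat_lit 0) (nat_lit 1) (nat_lit 0) (nat_lit 1) (nat_lit 0) (nat_lit 367) (nat_lit 415) (nat_lit 298))) (XT.nd (nat_lit 94) (nat_lit 0) (nat_lit 0) (XT.lf (nat_lit 0) (nat_lit 74004107451) (nat_lit 0) (nat_lit 0) (nat_lit 0) (nat_lit 0) (nat_lit 0) (nat_lit 0) (nat_lit 1) (nat_lit 0) (nat_lit 1) (nat_lit 0) (nat_lit 368) (nat_lit 415) (nat_lit 297)) (XT.nd (nat_lit 94) (nat_lit 0) (nat_lit 0) (XT.lf (nat_lit 0) (nat_lit 74003483903) (nat_lit 0) (nat_lit 0) (nat_lit 0) (nat_lit 0) (nat_lit 0) (nat_lit 0) (nat_lit 1) (nat_lit 0) (nat_lit 1) (nat_lit 0) (nat_lit 369) (nat_lit 415) (nat_lit 296)) (XT.lf (nat_lit 0) (nat_lit 74002906545) (nat_lit 0) (nat_lit 0) (nat_lit 0) (nat_lit 0) (nat_lit 0) (nat_lit 0)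 (nat_lit 1) (nat_lit 0) (nat_lit 1) (nat_lit 0) (nat_lit 370) (nat_lit 415) (nat_lit 295))))) (XT.nd (nat_lit 188) (nat_lit 0) (nat_lit 0) (XT.nd (nat_lit 94) (nat_lit 0) (nat_lit 0) (XT.lf (nat_lit 0) (nat_lit 74002371953) (nat_lit 0) (nat_lit 0) (nat_lit 0) (nat_lit 0) (nat_lit 0) (nat_lit 0) (nat_lit 1) (nat_lit 0) (nat_lit 1) (nat_lit 0) (nat_lit 371) (nat_lit 415) (nat_lit 294)) (XT.lf (nat_lit 0) (nat_lit 74001876961) (nat_lit 0) (nat_lit 0) (nat_lit 0) (nat_lit 0) (nat_lit 0) (nat_lit 0) (nat_lit 1) (nat_lit 0) (nat_lit 1) (nat_lit 0) (nat_lit 372) (nat_lit 415) (nat_lit 293))) (XT.nd (nat_lit 94) (nat_lit 0) (nat_lit 0) (XT.lf (nat_lit 0) (nat_lit 74001418635) (nat_lit 0) (nat_lit 0) (nat_lit 0) (nat_lit 0) (nat_lit 0) (nat_lit 0) (nat_lit 1) (nat_lit 0) (nat_lit 1) (nat_lit 0) (nat_lit 373) (nat_lit 415) (nat_lit 292)) (XT.nd (nat_lit 94) (nat_lit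 0) (nat_lit 0) (XT.lf (nat_lit 0) (nat_lit 74000994259) (nat_lit 0) (nat_lit 0) (nat_lit 0) (nat_lit 0) (nat_lit 0) (nat_lit 0) (nat_lit 1) (nat_lit 0) (nat_lit 1) (nat_lit 0) (nat_lit 374) (nat_lit 415) (nat_lit 291)) (XT.lf (nat_lit 0) (nat_lit 74000601319) (nat_lit 0) (nat_lit 0) (nat_lit 0) (nat_lit 0) (nat_lit 0) (nat_lit 0) (nat_lit 1) (nat_lit 0) (nat_lit 1) (nat_lit 0) (nat_lit 375) (nat_lit 415) (nat_lit 290))))))) (XT.nd (nat_lit 846) (nat_lit 0) (nat_lit 0) (XT.nd (nat_lit 376) (nat_lit 0) (nat_lit 0) (XT.nd (nat_lit 188) (nat_lit 0) (nat_lit 0) (XT.nd (nat_lit 94) (nat_lit 0) (nat_lit 0) (XT.lf (nat_lit 0) (nat_lit 74000237485) (nat_lit 0) (nat_lit 0) (nat_lit 0) (nat_lit 0) (nat_lit 0) (nat_lit 0) (nat_lit 1) (nat_lit 0) (nat_lit 1) (nat_lit 0) (nat_lit 376) (nat_lit 415) (nat_lit 289)) (XT.lf (nat_lit 0) (nat_lit 73999900601) (nat_lit 0) (nat_lit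 0) (nat_lit 0) (nat_lit 0) (nat_lit 0) (nat_lit 0) (nat_lit 1) (nat_lit 0) (nat_lit 1) (nat_lit 0) (nat_lit 377) (nat_lit 415) (nat_lit 288))) (XT.nd (nat_lit 94) (nat_lit 0) (nat_lit 0) (XT.lf (nat_lit 0) (nat_lit 73999588672) (nat_lit 0) (nat_lit 0) (nat_lit 0) (nat_lit 0) (nat_lit 0) (nat_lit 0) (nat_lit 1) (nat_lit 0) (nat_lit 1) (nat_lit 0) (nat_lit 378) (nat_lit 415) (nat_lit 287)) (XT.lf (nat_lit 0) (nat_lit 73999299849) (nat_lit 0) (nat_lit 0) (nat_lit 0) (nat_lit 0) (nat_lit 0) (nat_lit 0) (nat_lit 1) (nat_lit 0) (nat_lit 1) (nat_lit 0) (nat_lit 379) (nat_lit 415) (nat_lit 286)))) (XT.nd (nat_lit 188) (nat_lit 0) (nat_lit 0) (XT.nd (nat_lit 94) (nat_lit 0) (nat_lit 0) (XT.lf (nat_lit 0) (nat_lit 73999032420) (nat_lit 0) (nat_lit 0) (nat_lit 0) (nat_lit 0) (nat_lit 0) (nat_lit 0) (nat_lit 1) (nat_lit 0) (nat_lit 1) (nat_lit 0) (nat_lit 380) (nat_lit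 415) (nat_lit 285)) (XT.lf (nat_lit 0) (nat_lit 73998784801) (nat_lit 0) (nat_lit 0) (nat_lit 0) (nat_lit 0) (nat_lit 0) (nat_lit 0) (nat_lit 1) (nat_lit 0) (nat_lit 1) (nat_lit 0) (nat_lit 381) (nat_lit 415) (nat_lit 284))) (XT.nd (nat_lit 94) (nat_lit 0) (nat_lit 0) (XT.lf (nat_lit 0) (nat_lit 73998555524) (nat_lit 0) (nat_lit 0) (nat_lit 0) (nat_lit 0) (nat_lit 0) (nat_lit 0) (nat_lit 1) (nat_lit 0) (nat_lit 1) (nat_lit 0) (nat_lit 382) (nat_lit 415) (nat_lit 283)) (XT.nd (nat_lit 94) (nat_lit 0) (nat_lit 0) (XT.lf (nat_lit 0) (nat_lit 73998343230) (nat_lit 0) (nat_lit 0) (nat_lit 0) (nat_lit 0) (nat_lit 0) (nat_lit 0) (nat_lit 1) (nat_lit 0) (nat_lit 1) (nat_lit 0) (nat_lit 383) (nat_lit 415) (nat_lit 282)) (XT.lf (nat_lit 0) (nat_lit 73998146662) (nat_lit 0) (nat_lit 0) (nat_lit 0) (nat_lit 0) (nat_lit 0) (nat_lit 0) (nat_lit 1) (nat_lit 0) (nat_lit 1)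 (nat_lit 0) (nat_lit 384) (nat_lit 415) (nat_lit 281)))))) (XT.nd (nat_lit 470) (nat_lit 0) (nat_lit 0) (XT.nd (nat_lit 188) (nat_lit 0) (nat_lit 0) (XT.nd (nat_lit 94) (nat_lit 0) (nat_lit 0) (XT.lf (nat_lit 0) (nat_lit 73997964655) (nat_lit 0) (nat_lit 0) (nat_lit 0) (nat_lit 0) (nat_lit 0) (nat_lit 0) (nat_lit 1) (nat_lit 0) (nat_lit 1) (nat_lit 0) (nat_lit 385) (nat_lit 415) (nat_lit 280)) (XT.lf (nat_lit 0) (nat_lit 73997796129) (nat_lit 0) (nat_lit 0) (nat_lit 0) (nat_lit 0) (nat_lit 0) (nat_lit 0) (nat_lit 1) (nat_lit 0) (nat_lit 1) (nat_lit 0) (nat_lit 386) (nat_lit 415) (nat_lit 279))) (XT.nd (nat_lit 94) (nat_lit 0) (nat_lit 0) (XT.lf (nat_lit 0) (nat_lit 73997640087) (nat_lit 0) (nat_lit 0) (nat_lit 0) (nat_lit 0) (nat_lit 0) (nat_lit 0) (nat_lit 1) (nat_lit 0) (nat_lit 1) (nat_lit 0) (nat_lit 387) (nat_lit 415) (nat_lit 278)) (XT.nd (nat_lit 94)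 (nat_lit 0) (nat_lit 0) (XT.lf (nat_lit 0) (nat_lit 73997495604) (nat_lit 0) (nat_lit 0) (nat_lit 0) (nat_lit 0) (nat_lit 0) (nat_lit 0) (nat_lit 1) (nat_lit 0) (nat_lit 1) (nat_lit 0) (nat_lit 388) (nat_lit 415) (nat_lit 277)) (XT.lf (nat_lit 0) (nat_lit 73997361823) (nat_lit 0) (nat_lit 0) (nat_lit 0) (nat_lit 0) (nat_lit 0) (nat_lit 0) (nat_lit 1) (nat_lit 0) (nat_lit 1) (nat_lit 0) (nat_lit 389) (nat_lit 415) (nat_lit 276))))) (XT.nd (nat_lit 188) (nat_lit 0) (nat_lit 0) (XT.nd (nat_lit 94) (nat_lit 0) (nat_lit 0) (XT.lf (nat_lit 0) (nat_lit 73997237951) (nat_lit 0) (nat_lit 0) (nat_lit 0) (nat_lit 0) (nat_lit 0) (nat_lit 0) (nat_lit 1) (nat_lit 0) (nat_lit 1) (nat_lit 0) (nat_lit 390) (nat_lit 415) (nat_lit 275)) (XT.lf (nat_lit 0) (nat_lit 73997123256) (nat_lit 0) (nat_lit 0) (nat_lit 0) (nat_lit 0) (nat_lit 0) (nat_lit 0) (nat_lit 1) (nat_lit 0) (nat_lit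 1) (nat_lit 0) (nat_lit 391) (nat_lit 415) (nat_lit 274))) (XT.nd (nat_lit 94) (nat_lit 0) (nat_lit 0) (XT.lf (nat_lit 0) (nat_lit 73997017056) (nat_lit 0) (nat_lit 0) (nat_lit 0) (nat_lit 0) (nat_lit 0) (nat_lit 0) (nat_lit 1) (nat_lit 0) (nat_lit 1) (nat_lit 0) (nat_lit 392) (nat_lit 415) (nat_lit 273)) (XT.nd (nat_lit 94) (nat_lit 0) (nat_lit 0) (XT.lf (nat_lit 0) (nat_lit 73996918723) (nat_lit 0) (nat_lit 0) (nat_lit 0) (nat_lit 0) (nat_lit 0) (nat_lit 0) (nat_lit 1) (nat_lit 0) (nat_lit 1) (nat_lit 0) (nat_lit 393) (nat_lit 415) (nat_lit 272)) (XT.lf (nat_lit 0) (nat_lit 73996827674) (nat_lit 0) (nat_lit 0) (nat_lit 0) (nat_lit 0) (nat_lit 0) (nat_lit 0) (nat_lit 1) (nat_lit 0) (nat_lit 1) (nat_lit 0) (nat_lit 394) (nat_lit 415) (nat_lit 271))))))))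
noncomputable def ec224 : XT := (XT.nd (nat_lit 1692) (nat_lit 0) (nat_lit 0) (XT.nd (nat_lit 846) (nat_lit 0) (nat_lit 0) (XT.nd (nat_lit 376) (nat_lit 0) (nat_lit 0) (XT.nd (nat_lit 188) (nat_lit 0) (nat_lit 0) (XT.nd (nat_lit 94) (nat_lit 0) (nat_lit 0) (XT.lf (nat_lit 0) (nat_lit 73996743369) (nat_lit 0) (nat_lit 0) (nat_lit 0) (nat_lit 0) (nat_lit 0) (nat_lit 0) (nat_lit 1) (nat_lit 0) (nat_lit 1) (nat_lit 0) (nat_lit 395) (nat_lit 415) (nat_lit 270)) (XT.lf (nat_lit 0) (nat_lit 73996665309) (nat_lit 0) (nat_lit 0) (nat_lit 0) (nat_lit 0) (nat_lit 0) (nat_lit 0) (nat_lit 1) (nat_lit 0) (nat_lit 1) (nat_lit 0) (nat_lit 396) (nat_lit 415) (nat_lit 269))) (XT.nd (nat_lit 94) (nat_lit 0) (nat_lit 0) (XT.lf (nat_lit 0) (nat_lit 73996593032) (nat_lit 0) (nat_lit 0) (nat_lit 0) (nat_lit 0) (nat_lit 0) (nat_lit 0) (nat_lit 1) (nat_lit 0) (nat_lit 1) (nat_lit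 0) (nat_lit 397) (nat_lit 415) (nat_lit 268)) (XT.lf (nat_lit 0) (nat_lit 73996526108) (nat_lit 0) (nat_lit 0) (nat_lit 0) (nat_lit 0) (nat_lit 0) (nat_lit 0) (nat_lit 1) (nat_lit 0) (nat_lit 1) (nat_lit 0) (nat_lit 398) (nat_lit 415) (nat_lit 267)))) (XT.nd (nat_lit 188) (nat_lit 0) (nat_lit 0) (XT.nd (nat_lit 94) (nat_lit 0) (nat_lit 0) (XT.lf (nat_lit 0) (nat_lit 73996464141) (nat_lit 0) (nat_lit 0) (nat_lit 0) (nat_lit 0) (nat_lit 0) (nat_lit 0) (nat_lit 1) (nat_lit 0) (nat_lit 1) (nat_lit 0) (nat_lit 399) (nat_lit 415) (nat_lit 266)) (XT.lf (nat_lit 0) (nat_lit 73996406765) (nat_lit 0) (nat_lit 0) (nat_lit 0) (nat_lit 0) (nat_lit 0) (nat_lit 0) (nat_lit 1) (nat_lit 0) (nat_lit 1) (nat_lit 0) (nat_lit 400) (nat_lit 415) (nat_lit 265))) (XT.nd (nat_lit 94) (nat_lit 0) (nat_lit 0) (XT.lf (nat_lit 0) (nat_lit 73996353639) (nat_lit 0) (nat_lit 0) (nat_lit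 0) (nat_lit 0) (nat_lit 0) (nat_lit 0) (nat_lit 1) (nat_lit 0) (nat_lit 1) (nat_lit 0) (nat_lit 401) (nat_lit 415) (nat_lit 264)) (XT.nd (nat_lit 94) (nat_lit 0) (nat_lit 0) (XT.lf (nat_lit 0) (nat_lit 73996304448) (nat_lit 0) (nat_lit 0) (nat_lit 0) (nat_lit 0) (nat_lit 0) (nat_lit 0) (nat_lit 1) (nat_lit 0) (nat_lit 1) (nat_lit 0) (nat_lit 402) (nat_lit 415) (nat_lit 263)) (XT.lf (nat_lit 0) (nat_lit 73996258900) (nat_lit 0) (nat_lit 0) (nat_lit 0) (nat_lit 0) (nat_lit 0) (nat_lit 0) (nat_lit 1) (nat_lit 0) (nat_lit 1) (nat_lit 0) (nat_lit 403) (nat_lit 415) (nat_lit 262)))))) (XT.nd (nat_lit 376) (nat_lit 0) (nat_lit 0) (XT.nd (nat_lit 188) (nat_lit 0) (nat_lit 0) (XT.nd (nat_lit 94) (nat_lit 0) (nat_lit 0) (XT.lf (nat_lit 0) (nat_lit 73996216727) (nat_lit 0) (nat_lit 0) (nat_lit 0) (nat_lit 0) (nat_lit 0) (nat_lit 0) (nat_lit 1) (nat_lit 0) (nat_lit 1)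 (nat_lit 0) (nat_lit 404) (nat_lit 415) (nat_lit 261)) (XT.lf (nat_lit 0) (nat_lit 73996177678) (nat_lit 0) (nat_lit 0) (nat_lit 0) (nat_lit 0) (nat_lit 0) (nat_lit 0) (nat_lit 1) (nat_lit 0) (nat_lit 1) (nat_lit 0) (nat_lit 405) (nat_lit 415) (nat_lit 260))) (XT.nd (nat_lit 94) (nat_lit 0) (nat_lit 0) (XT.lf (nat_lit 0) (nat_lit 73996141521) (nat_lit 0) (nat_lit 0) (nat_lit 0) (nat_lit 0) (nat_lit 0) (nat_lit 0) (nat_lit 1) (nat_lit 0) (nat_lit 1) (nat_lit 0) (nat_lit 406) (nat_lit 415) (nat_lit 259)) (XT.lf (nat_lit 0) (nat_lit 73996108042) (nat_lit 0) (nat_lit 0) (nat_lit 0) (nat_lit 0) (nat_lit 0) (nat_lit 0) (nat_lit 1) (nat_lit 0) (nat_lit 1) (nat_lit 0) (nat_lit 407) (nat_lit 415) (nat_lit 258)))) (XT.nd (nat_lit 188) (nat_lit 0) (nat_lit 0) (XT.nd (nat_lit 94) (nat_lit 0) (nat_lit 0) (XT.lf (nat_lit 0) (nat_lit 73996077044) (nat_lit 0) (nat_lit 0)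 (nat_lit 0) (nat_lit 0) (nat_lit 0) (nat_lit 0) (nat_lit 1) (nat_lit 0) (nat_lit 1) (nat_lit 0) (nat_lit 408) (nat_lit 415) (nat_lit 257)) (XT.lf (nat_lit 0) (nat_lit 73996048341) (nat_lit 0) (nat_lit 0) (nat_lit 0) (nat_lit 0) (nat_lit 0) (nat_lit 0) (nat_lit 1) (nat_lit 0) (nat_lit 1) (nat_lit 0) (nat_lit 409) (nat_lit 415) (nat_lit 256))) (XT.nd (nat_lit 94) (nat_lit 0) (nat_lit 0) (XT.lf (nat_lit 0) (nat_lit 73996021765) (nat_lit 0) (nat_lit 0) (nat_lit 0) (nat_lit 0) (nat_lit 0) (nat_lit 0) (nat_lit 1) (nat_lit 0) (nat_lit 1) (nat_lit 0) (nat_lit 410) (nat_lit 415) (nat_lit 255)) (XT.nd (nat_lit 94) (nat_lit 0) (nat_lit 0) (XT.lf (nat_lit 0) (nat_lit 73995997157) (nat_lit 0) (nat_lit 0) (nat_lit 0) (nat_lit 0) (nat_lit 0) (nat_lit 0) (nat_lit 1) (nat_lit 0) (nat_lit 1) (nat_lit 0) (nat_lit 411) (nat_lit 415) (nat_lit 254)) (XT.lf (nat_lit 0) (nat_lit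 73995974372) (nat_lit 0) (nat_lit 0) (nat_lit 0) (nat_lit 0) (nat_lit 0) (nat_lit 0) (nat_lit 1) (nat_lit 0) (nat_lit 1) (nat_lit 0) (nat_lit 412) (nat_lit 415) (nat_lit 253))))))) (XT.nd (nat_lit 846) (nat_lit 0) (nat_lit 0) (XT.nd (nat_lit 376) (nat_lit 0) (nat_lit 0) (XT.nd (nat_lit 188) (nat_lit 0) (nat_lit 0) (XT.nd (nat_lit 94) (nat_lit 0) (nat_lit 0) (XT.lf (nat_lit 0) (nat_lit 73995953275) (nat_lit 0) (nat_lit 0) (nat_lit 0) (nat_lit 0) (nat_lit 0) (nat_lit 0) (nat_lit 1) (nat_lit 0) (nat_lit 1) (nat_lit 0) (nat_lit 413) (nat_lit 415) (nat_lit 252)) (XT.lf (nat_lit 0) (nat_lit 73995933741) (nat_lit 0) (nat_lit 0) (nat_lit 0) (nat_lit 0) (nat_lit 0) (nat_lit 0) (nat_lit 1) (nat_lit 0) (nat_lit 1) (nat_lit 0) (nat_lit 414) (nat_lit 415) (nat_lit 251))) (XT.nd (nat_lit 94) (nat_lit 0) (nat_lit 0) (XT.lf (nat_lit 0) (nat_lit 73995915653) (nat_lit 0) (nat_lit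 0) (nat_lit 0) (nat_lit 0) (nat_lit 0) (nat_lit 0) (nat_lit 1) (nat_lit 0) (nat_lit 1) (nat_lit 0) (nat_lit 415) (nat_lit 415) (nat_lit 250)) (XT.lf (nat_lit 0) (nat_lit 73995898905) (nat_lit 0) (nat_lit 0) (nat_lit 0) (nat_lit 0) (nat_lit 0) (nat_lit 0) (nat_lit 1) (nat_lit 0) (nat_lit 1) (nat_lit 0) (nat_lit 416) (nat_lit 415) (nat_lit 249)))) (XT.nd (nat_lit 188) (nat_lit 0) (nat_lit 0) (XT.nd (nat_lit 94) (nat_lit 0) (nat_lit 0) (XT.lf (nat_lit 0) (nat_lit 73995883398) (nat_lit 0) (nat_lit 0) (nat_lit 0) (nat_lit 0) (nat_lit 0) (nat_lit 0) (nat_lit 1) (nat_lit 0) (nat_lit 1) (nat_lit 0) (nat_lit 417) (nat_lit 415) (nat_lit 248)) (XT.lf (nat_lit 0) (nat_lit 73995869040) (nat_lit 0) (nat_lit 0) (nat_lit 0) (nat_lit 0) (nat_lit 0) (nat_lit 0) (nat_lit 1) (nat_lit 0) (nat_lit 1) (nat_lit 0) (nat_lit 418) (nat_lit 415) (nat_lit 247))) (XT.nd (nat_lit 94) (nat_lit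 0) (nat_lit 0) (XT.lf (nat_lit 0) (nat_lit 73995855745) (nat_lit 0) (nat_lit 0) (nat_lit 0) (nat_lit 0) (nat_lit 0) (nat_lit 0) (nat_lit 1) (nat_lit 0) (nat_lit 1) (nat_lit 0) (nat_lit 419) (nat_lit 415) (nat_lit 246)) (XT.nd (nat_lit 94) (nat_lit 0) (nat_lit 0) (XT.lf (nat_lit 0) (nat_lit 73995843435) (nat_lit 0) (nat_lit 0) (nat_lit 0) (nat_lit 0) (nat_lit 0) (nat_lit 0) (nat_lit 1) (nat_lit 0) (nat_lit 1) (nat_lit 0) (nat_lit 420) (nat_lit 415) (nat_lit 245)) (XT.lf (nat_lit 0) (nat_lit 73995832037) (nat_lit 0) (nat_lit 0) (nat_lit 0) (nat_lit 0) (nat_lit 0) (nat_lit 0) (nat_lit 1) (nat_lit 0) (nat_lit 1) (nat_lit 0) (nat_lit 421) (nat_lit 415) (nat_lit 244)))))) (XT.nd (nat_lit 470) (nat_lit 0) (nat_lit 0) (XT.nd (nat_lit 188) (nat_lit 0) (nat_lit 0) (XT.nd (nat_lit 94) (nat_lit 0) (nat_lit 0) (XT.lf (nat_lit 0) (nat_lit 73995821483) (nat_lit 0) (nat_lit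 0) (nat_lit 0) (nat_lit 0) (nat_lit 0) (nat_lit 0) (nat_lit 1) (nat_lit 0) (nat_lit 1) (nat_lit 0) (nat_lit 422) (nat_lit 415) (nat_lit 243)) (XT.lf (nat_lit 0) (nat_lit 73995811711) (nat_lit 0) (nat_lit 0) (nat_lit 0) (nat_lit 0) (nat_lit 0) (nat_lit 0) (nat_lit 1) (nat_lit 0) (nat_lit 1) (nat_lit 0) (nat_lit 423) (nat_lit 415) (nat_lit 242))) (XT.nd (nat_lit 94) (nat_lit 0) (nat_lit 0) (XT.lf (nat_lit 0) (nat_lit 73995802663) (nat_lit 0) (nat_lit 0) (nat_lit 0) (nat_lit 0) (nat_lit 0) (nat_lit 0) (nat_lit 1) (nat_lit 0) (nat_lit 1) (nat_lit 0) (nat_lit 424) (nat_lit 415) (nat_lit 241)) (XT.nd (nat_lit 94) (nat_lit 0) (nat_lit 0) (XT.lf (nat_lit 0) (nat_lit 73995794285) (nat_lit 0) (nat_lit 0) (nat_lit 0) (nat_lit 0) (nat_lit 0) (nat_lit 0) (nat_lit 1) (nat_lit 0) (nat_lit 1) (nat_lit 0) (nat_lit 425) (nat_lit 415) (nat_lit 240)) (XT.lf (nat_lit 0) (nat_lit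 73995786528) (nat_lit 0) (nat_lit 0) (nat_lit 0) (nat_lit 0) (nat_lit 0) (nat_lit 0) (nat_lit 1) (nat_lit 0) (nat_lit 1) (nat_lit 0) (nat_lit 426) (nat_lit 415) (nat_lit 239))))) (XT.nd (nat_lit 188) (nat_lit 0) (nat_lit 0) (XT.nd (nat_lit 94) (nat_lit 0) (nat_lit 0) (XT.lf (nat_lit 0) (nat_lit 73995779345) (nat_lit 0) (nat_lit 0) (nat_lit 0) (nat_lit 0) (nat_lit 0) (nat_lit 0) (nat_lit 1) (nat_lit 0) (nat_lit 1) (nat_lit 0) (nat_lit 427) (nat_lit 415) (nat_lit 238)) (XT.lf (nat_lit 0) (nat_lit 73995772694) (nat_lit 0) (nat_lit 0) (nat_lit 0) (nat_lit 0) (nat_lit 0) (nat_lit 0) (nat_lit 1) (nat_lit 0) (nat_lit 1) (nat_lit 0) (nat_lit 428) (nat_lit 415) (nat_lit 237))) (XT.nd (nat_lit 94) (nat_lit 0) (nat_lit 0) (XT.lf (nat_lit 0) (nat_lit 73995766536) (nat_lit 0) (nat_lit 0) (nat_lit 0) (nat_lit 0) (nat_lit 0) (nat_lit 0) (nat_lit 1) (nat_lit 0) (nat_lit 1)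 (nat_lit 0) (nat_lit 429) (nat_lit 415) (nat_lit 236)) (XT.nd (nat_lit 94) (nat_lit 0) (nat_lit 0) (XT.lf (nat_lit 0) (nat_lit 73995760834) (nat_lit 0) (nat_lit 0) (nat_lit 0) (nat_lit 0) (nat_lit 0) (nat_lit 0) (nat_lit 1) (nat_lit 0) (nat_lit 1) (nat_lit 0) (nat_lit 430) (nat_lit 415) (nat_lit 235)) (XT.lf (nat_lit 0) (nat_lit 73995755555) (nat_lit 0) (nat_lit 0) (nat_lit 0) (nat_lit 0) (nat_lit 0) (nat_lit 0) (nat_lit 1) (nat_lit 0) (nat_lit 1) (nat_lit 0) (nat_lit 431) (nat_lit 415) (nat_lit 234))))))))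
noncomputable def ec225 : XT := (XT.nd (nat_lit 51230) (nat_lit 0) (nat_lit 4620) (XT.nd (nat_lit 846) (nat_lit 0) (nat_lit 0) (XT.nd (nat_lit 376) (nat_lit 0) (nat_lit 0) (XT.nd (nat_lit 188) (nat_lit 0) (nat_lit 0) (XT.nd (nat_lit 94) (nat_lit 0) (nat_lit 0) (XT.lf (nat_lit 0) (nat_lit 73995750666) (nat_lit 0) (nat_lit 0) (nat_lit 0) (nat_lit 0) (nat_lit 0) (nat_lit 0) (nat_lit 1) (nat_lit 0) (nat_lit 1) (nat_lit 0) (nat_lit 432) (nat_lit 415) (nat_lit 233)) (XT.lf (nat_lit 0) (nat_lit 73995746140) (nat_lit 0) (nat_lit 0) (nat_lit 0) (nat_lit 0) (nat_lit 0) (nat_lit 0) (nat_lit 1) (nat_lit 0) (nat_lit 1) (nat_lit 0) (nat_lit 433) (nat_lit 415) (nat_lit 232))) (XT.nd (nat_lit 94) (nat_lit 0) (nat_lit 0) (XT.lf (nat_lit 0) (nat_lit 73995741949) (nat_lit 0) (nat_lit 0) (nat_lit 0) (nat_lit 0) (nat_lit 0) (nat_lit 0) (nat_lit 1) (nat_lit 0) (nat_lit 1) (nat_lit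 0) (nat_lit 434) (nat_lit 415) (nat_lit 231)) (XT.lf (nat_lit 0) (nat_lit 73995738068) (nat_lit 0) (nat_lit 0) (nat_lit 0) (nat_lit 0) (nat_lit 0) (nat_lit 0) (nat_lit 1) (nat_lit 0) (nat_lit 1) (nat_lit 0) (nat_lit 435) (nat_lit 415) (nat_lit 230)))) (XT.nd (nat_lit 188) (nat_lit 0) (nat_lit 0) (XT.nd (nat_lit 94) (nat_lit 0) (nat_lit 0) (XT.lf (nat_lit 0) (nat_lit 73995734475) (nat_lit 0) (nat_lit 0) (nat_lit 0) (nat_lit 0) (nat_lit 0) (nat_lit 0) (nat_lit 1) (nat_lit 0) (nat_lit 1) (nat_lit 0) (nat_lit 436) (nat_lit 415) (nat_lit 229)) (XT.lf (nat_lit 0) (nat_lit 73995731148) (nat_lit 0) (nat_lit 0) (nat_lit 0) (nat_lit 0) (nat_lit 0) (nat_lit 0) (nat_lit 1) (nat_lit 0) (nat_lit 1) (nat_lit 0) (nat_lit 437) (nat_lit 415) (nat_lit 228))) (XT.nd (nat_lit 94) (nat_lit 0) (nat_lit 0) (XT.lf (nat_lit 0) (nat_lit 73995728067) (nat_lit 0) (nat_lit 0) (nat_lit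 0) (nat_lit 0) (nat_lit 0) (nat_lit 0) (nat_lit 1) (nat_lit 0) (nat_lit 1) (nat_lit 0) (nat_lit 438) (nat_lit 415) (nat_lit 227)) (XT.nd (nat_lit 94) (nat_lit 0) (nat_lit 0) (XT.lf (nat_lit 0) (nat_lit 73995725215) (nat_lit 0) (nat_lit 0) (nat_lit 0) (nat_lit 0) (nat_lit 0) (nat_lit 0) (nat_lit 1) (nat_lit 0) (nat_lit 1) (nat_lit 0) (nat_lit 439) (nat_lit 415) (nat_lit 226)) (XT.lf (nat_lit 0) (nat_lit 73995722574) (nat_lit 0) (nat_lit 0) (nat_lit 0) (nat_lit 0) (nat_lit 0) (nat_lit 0) (nat_lit 1) (nat_lit 0) (nat_lit 1) (nat_lit 0) (nat_lit 440) (nat_lit 415) (nat_lit 225)))))) (XT.nd (nat_lit 49914) (nat_lit 0) (nat_lit 10332) (XT.nd (nat_lit 49632) (nat_lit 0) (nat_lit 10752) (XT.nd (nat_lit 94) (nat_lit 0) (nat_lit 0) (XT.lf (nat_lit 0) (nat_lit 73995720128) (nat_lit 0) (nat_lit 0) (nat_lit 0) (nat_lit 0) (nat_lit 0) (nat_lit 0) (nat_lit 1) (nat_lit 0)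 (nat_lit 1) (nat_lit 0) (nat_lit 441) (nat_lit 415) (nat_lit 224)) (XT.lf (nat_lit 0) (nat_lit 73995717864) (nat_lit 0) (nat_lit 0) (nat_lit 0) (nat_lit 0) (nat_lit 0) (nat_lit 0) (nat_lit 1) (nat_lit 0) (nat_lit 1) (nat_lit 0) (nat_lit 442) (nat_lit 415) (nat_lit 223))) (XT.nd (nat_lit 94) (nat_lit 0) (nat_lit 84) (XT.lf (nat_lit 924) (nat_lit 39992631937) (nat_lit 0) (nat_lit 71006826078) (nat_lit 924) (nat_lit 39992631937) (nat_lit 139) (nat_lit 1) (nat_lit 128) (nat_lit 0) (nat_lit 139) (nat_lit 0) (nat_lit 248) (nat_lit 416) (nat_lit 416)) (XT.nd (nat_lit 94) (nat_lit 0) (nat_lit 0) (XT.lf (nat_lit 924) (nat_lit 14918478852) (nat_lit 0) (nat_lit 139407920076) (nat_lit 840) (nat_lit 136340480083) (nat_lit 140) (nat_lit 1) (nat_lit 129) (nat_lit 1) (nat_lit 139) (nat_lit 1) (nat_lit 249) (nat_lit 416) (nat_lit 415)) (XT.lf (nat_lit 924) (nat_lit 137017617186)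 (nat_lit 84) (nat_lit 93361531066) (nat_lit 0) (nat_lit 49514697288) (nat_lit 140) (nat_lit 1) (nat_lit 130) (nat_lit 1) (nat_lit 129) (nat_lit 1) (nat_lit 250) (nat_lit 416) (nat_lit 414))))) (XT.nd (nat_lit 188) (nat_lit 588) (nat_lit 0) (XT.nd (nat_lit 94) (nat_lit 0) (nat_lit 84) (XT.lf (nat_lit 924) (nat_lit 118394445894) (nat_lit 84) (nat_lit 39127170549) (nat_lit 0) (nat_lit 112138305548) (nat_lit 141) (nat_lit 1) (nat_lit 131) (nat_lit 1) (nat_lit 130) (nat_lit 1) (nat_lit 251) (nat_lit 416) (nat_lit 413)) (XT.lf (nat_lit 924) (nat_lit 87621955507) (nat_lit 0) (nat_lit 163936537044) (nat_lit 840) (nat_lit 8380412351) (nat_lit 142) (nat_lit 1) (nat_lit 131) (nat_lit 1) (nat_lit 141) (nat_lit 1) (nat_lit 252) (nat_lit 416) (nat_lit 412))) (XT.nd (nat_lit 94) (nat_lit 756) (nat_lit 0) (XT.lf (nat_lit 924) (nat_lit 21024029114) (nat_lit 0) (nat_lit 180785575428)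 (nat_lit 840) (nat_lit 48872529887) (nat_lit 143) (nat_lit 1) (nat_lit 132) (nat_lit 1) (nat_lit 142) (nat_lit 1) (nat_lit 253) (nat_lit 416) (nat_lit 411)) (XT.nd (nat_lit 94) (nat_lit 756) (nat_lit 0) (XT.lf (nat_lit 924) (nat_lit 40399632761) (nat_lit 84) (nat_lit 157117387048) (nat_lit 0) (nat_lit 44340465085) (nat_lit 143) (nat_lit 1) (nat_lit 133) (nat_lit 1) (nat_lit 132) (nat_lit 1) (nat_lit 254) (nat_lit 416) (nat_lit 410)) (XT.lf (nat_lit 924) (nat_lit 8297163334) (nat_lit 0) (nat_lit 117455639734) (nat_lit 840) (nat_lit 107705590955) (nat_lit 134) (nat_lit 1) (nat_lit 123) (nat_lit 1) (nat_lit 133) (nat_lit 1) (nat_lit 255) (nat_lit 416) (nat_lit 409))))))) (XT.nd (nat_lit 846) (nat_lit 2604) (nat_lit 0) (XT.nd (nat_lit 376) (nat_lit 1344) (nat_lit 0) (XT.nd (nat_lit 188) (nat_lit 756) (nat_lit 0) (XT.nd (nat_lit 94) (nat_lit 420) (nat_lit 0) (XT.lf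 (nat_lit 84) (nat_lit 57451287292) (nat_lit 0) (nat_lit 24896316350) (nat_lit 588) (nat_lit 143109388351) (nat_lit 117) (nat_lit 1) (nat_lit 116) (nat_lit 1) (nat_lit 123) (nat_lit 1) (nat_lit 256) (nat_lit 416) (nat_lit 408)) (XT.lf (nat_lit 504) (nat_lit 158328516568) (nat_lit 0) (nat_lit 51539345430) (nat_lit 420) (nat_lit 7968301260) (nat_lit 117) (nat_lit 1) (nat_lit 111) (nat_lit 1) (nat_lit 116) (nat_lit 1) (nat_lit 257) (nat_lit 416) (nat_lit 407))) (XT.nd (nat_lit 94) (nat_lit 336) (nat_lit 0) (XT.lf (nat_lit 504) (nat_lit 114251365274) (nat_lit 0) (nat_lit 24022710918) (nat_lit 420) (nat_lit 72268940339) (nat_lit 112) (nat_lit 1) (nat_lit 106) (nat_lit 1) (nat_lit 111) (nat_lit 1) (nat_lit 258) (nat_lit 416) (nat_lit 406)) (XT.lf (nat_lit 420) (nat_lit 69520498614) (nat_lit 0) (nat_lit 442297147) (nat_lit 336) (nat_lit 133640702871) (nat_lit 107)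 (nat_lit 1) (nat_lit 102) (nat_lit 1) (nat_lit 106) (nat_lit 1) (nat_lit 259) (nat_lit 416) (nat_lit 405)))) (XT.nd (nat_lit 188) (nat_lit 924) (nat_lit 0) (XT.nd (nat_lit 94) (nat_lit 420) (nat_lit 0) (XT.lf (nat_lit 84) (nat_lit 5128893834) (nat_lit 0) (nat_lit 172971152591) (nat_lit 420) (nat_lit 18883164520) (nat_lit 103) (nat_lit 1) (nat_lit 102) (nat_lit 1) (nat_lit 107) (nat_lit 1) (nat_lit 260) (nat_lit 416) (nat_lit 404)) (XT.lf (nat_lit 84) (nat_lit 132429369094) (nat_lit 0) (nat_lit 21964827849) (nat_lit 420) (nat_lit 36223990239) (nat_lit 98) (nat_lit 1) (nat_lit 97) (nat_lit 1) (nat_lit 102) (nat_lit 1) (nat_lit 261) (nat_lit 416) (nat_lit 403))) (XT.nd (nat_lit 94) (nat_lit 588) (nat_lit 0) (XT.lf (nat_lit 84) (nat_lit 66257769203) (nat_lit 0) (nat_lit 67282166817) (nat_lit 420) (nat_lit 50994466602) (nat_lit 94) (nat_lit 1) (nat_lit 93) (nat_lit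 1) (nat_lit 98) (nat_lit 1) (nat_lit 262) (nat_lit 416) (nat_lit 402)) (XT.nd (nat_lit 94) (nat_lit 252) (nat_lit 0) (XT.lf (nat_lit 84) (nat_lit 3270336563) (nat_lit 0) (nat_lit 112494738175) (nat_lit 420) (nat_lit 62973590417) (nat_lit 90) (nat_lit 1) (nat_lit 89) (nat_lit 1) (nat_lit 94) (nat_lit 1) (nat_lit 263) (nat_lit 416) (nat_lit 401)) (XT.lf (nat_lit 336) (nat_lit 14768655607) (nat_lit 0) (nat_lit 99873348568) (nat_lit 252) (nat_lit 58528077601) (nat_lit 90) (nat_lit 1) (nat_lit 86) (nat_lit 1) (nat_lit 89) (nat_lit 1) (nat_lit 264) (nat_lit 416) (nat_lit 400)))))) (XT.nd (nat_lit 470) (nat_lit 1092) (nat_lit 0) (XT.nd (nat_lit 188) (nat_lit 840) (nat_lit 0) (XT.nd (nat_lit 94) (nat_lit 252) (nat_lit 0) (XT.lf (nat_lit 84) (nat_lit 51029675819) (nat_lit 0) (nat_lit 34976056891) (nat_lit 420) (nat_lit 81825813960) (nat_lit 82) (nat_lit 1) (nat_lit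 81) (nat_lit 1) (nat_lit 86) (nat_lit 1) (nat_lit 265) (nat_lit 416) (nat_lit 399)) (XT.lf (nat_lit 336) (nat_lit 79006212397) (nat_lit 0) (nat_lit 74216125234) (nat_lit 252) (nat_lit 9499575948) (nat_lit 82) (nat_lit 1) (nat_lit 78) (nat_lit 1) (nat_lit 81) (nat_lit 1) (nat_lit 266) (nat_lit 416) (nat_lit 398))) (XT.nd (nat_lit 94) (nat_lit 588) (nat_lit 0) (XT.lf (nat_lit 336) (nat_lit 25321109389) (nat_lit 0) (nat_lit 63897044706) (nat_lit 252) (nat_lit 68590491020) (nat_lit 79) (nat_lit 1) (nat_lit 75) (nat_lit 1) (nat_lit 78) (nat_lit 1) (nat_lit 267) (nat_lit 416) (nat_lit 397)) (XT.nd (nat_lit 94) (nat_lit 252) (nat_lit 0) (XT.lf (nat_lit 84) (nat_lit 28859946308) (nat_lit 0) (nat_lit 26423788830) (nat_lit 336) (nat_lit 97815698804) (nat_lit 72) (nat_lit 1) (nat_lit 71) (nat_lit 1) (nat_lit 75) (nat_lit 1) (nat_lit 268) (nat_lit 416) (nat_lit 396))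 (XT.lf (nat_lit 336) (nat_lit 71814188529) (nat_lit 0) (nat_lit 47782499819) (nat_lit 252) (nat_lit 28965908491) (nat_lit 72) (nat_lit 1) (nat_lit 68) (nat_lit 1) (nat_lit 71) (nat_lit 1) (nat_lit 269) (nat_lit 416) (nat_lit 395))))) (XT.nd (nat_lit 188) (nat_lit 588) (nat_lit 0) (XT.nd (nat_lit 94) (nat_lit 336) (nat_lit 0) (XT.lf (nat_lit 252) (nat_lit 17802843374) (nat_lit 0) (nat_lit 41686745827) (nat_lit 168) (nat_lit 84719199202) (nat_lit 69) (nat_lit 1) (nat_lit 66) (nat_lit 1) (nat_lit 68) (nat_lit 1) (nat_lit 270) (nat_lit 416) (nat_lit 394)) (XT.lf (nat_lit 84) (nat_lit 3015915406) (nat_lit 0) (nat_lit 33748748116) (nat_lit 336) (nat_lit 103259081530) (nat_lit 63) (nat_lit 1) (nat_lit 62) (nat_lit 1) (nat_lit 66) (nat_lit 1) (nat_lit 271) (nat_lit 416) (nat_lit 393))) (XT.nd (nat_lit 94) (nat_lit 420) (nat_lit 0) (XT.lf (nat_lit 252) (nat_lit 51731796255)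 (nat_lit 0) (nat_lit 32327934597) (nat_lit 168) (nat_lit 51911823427) (nat_lit 63) (nat_lit 1) (nat_lit 60) (nat_lit 1) (nat_lit 62) (nat_lit 1) (nat_lit 272) (nat_lit 416) (nat_lit 392)) (XT.nd (nat_lit 94) (nat_lit 168) (nat_lit 0) (XT.lf (nat_lit 84) (nat_lit 28067510763) (nat_lit 0) (nat_lit 1296455918) (nat_lit 252) (nat_lit 102732220468) (nat_lit 58) (nat_lit 1) (nat_lit 57) (nat_lit 1) (nat_lit 60) (nat_lit 1) (nat_lit 273) (nat_lit 416) (nat_lit 391)) (XT.lf (nat_lit 252) (nat_lit 76731154461) (nat_lit 0) (nat_lit 26589065477) (nat_lit 168) (nat_lit 25013331752) (nat_lit 58) (nat_lit 1) (nat_lit 55) (nat_lit 1) (nat_lit 57) (nat_lit 1) (nat_lit 274) (nat_lit 416) (nat_lit 390))))))))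
noncomputable def ec226 : XT := (XT.nd (nat_lit 1692) (nat_lit 1764) (nat_lit 0) (XT.nd (nat_lit 846) (nat_lit 1260) (nat_lit 0) (XT.nd (nat_lit 376) (nat_lit 840) (nat_lit 0) (XT.nd (nat_lit 188) (nat_lit 336) (nat_lit 0) (XT.nd (nat_lit 94) (nat_lit 252) (nat_lit 0) (XT.lf (nat_lit 252) (nat_lit 23835771407) (nat_lit 0) (nat_lit 24717476625) (nat_lit 168) (nat_lit 76161530221) (nat_lit 56) (nat_lit 1) (nat_lit 53) (nat_lit 1) (nat_lit 55) (nat_lit 1) (nat_lit 275) (nat_lit 416) (nat_lit 389)) (XT.lf (nat_lit 252) (nat_lit 94619252596) (nat_lit 0) (nat_lit 23615542719) (nat_lit 168) (nat_lit 2995905573) (nat_lit 53) (nat_lit 1) (nat_lit 50) (nat_lit 1) (nat_lit 52) (nat_lit 1) (nat_lit 276) (nat_lit 416) (nat_lit 388))) (XT.nd (nat_lit 94) (nat_lit 168) (nat_lit 0) (XT.lf (nat_lit 252) (nat_lit 42347192230) (nat_lit 0) (nat_lit 22544881394) (nat_lit 168)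 (nat_lit 52951361413) (nat_lit 51) (nat_lit 1) (nat_lit 48) (nat_lit 1) (nat_lit 50) (nat_lit 1) (nat_lit 277) (nat_lit 416) (nat_lit 387)) (XT.lf (nat_lit 84) (nat_lit 14505548318) (nat_lit 0) (nat_lit 7972902995) (nat_lit 168) (nat_lit 92118212908) (nat_lit 47) (nat_lit 1) (nat_lit 46) (nat_lit 1) (nat_lit 48) (nat_lit 1) (nat_lit 278) (nat_lit 416) (nat_lit 386)))) (XT.nd (nat_lit 188) (nat_lit 588) (nat_lit 0) (XT.nd (nat_lit 94) (nat_lit 84) (nat_lit 0) (XT.lf (nat_lit 252) (nat_lit 55561951623) (nat_lit 0) (nat_lit 22240429535) (nat_lit 168) (nat_lit 33629441421) (nat_lit 47) (nat_lit 1) (nat_lit 44) (nat_lit 1) (nat_lit 46) (nat_lit 1) (nat_lit 279) (nat_lit 416) (nat_lit 385)) (XT.lf (nat_lit 168) (nat_lit 5983232664) (nat_lit 0) (nat_lit 22786683225) (nat_lit 84) (nat_lit 79622008923) (nat_lit 45) (nat_lit 1) (nat_lit 43) (nat_lit 1) (nat_lit 44)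 (nat_lit 1) (nat_lit 280) (nat_lit 416) (nat_lit 384))) (XT.nd (nat_lit 94) (nat_lit 336) (nat_lit 0) (XT.lf (nat_lit 252) (nat_lit 64586787631) (nat_lit 0) (nat_lit 23304696235) (nat_lit 168) (nat_lit 17544362548) (nat_lit 43) (nat_lit 1) (nat_lit 40) (nat_lit 1) (nat_lit 42) (nat_lit 1) (nat_lit 281) (nat_lit 416) (nat_lit 383)) (XT.nd (nat_lit 94) (nat_lit 252) (nat_lit 0) (XT.lf (nat_lit 168) (nat_lit 16244053350) (nat_lit 0) (nat_lit 24176082310) (nat_lit 84) (nat_lit 62159258134) (nat_lit 41) (nat_lit 1) (nat_lit 39) (nat_lit 1) (nat_lit 40) (nat_lit 1) (nat_lit 282) (nat_lit 416) (nat_lit 382)) (XT.lf (nat_lit 252) (nat_lit 70316512100) (nat_lit 0) (nat_lit 25342101913) (nat_lit 168) (nat_lit 4158855864) (nat_lit 39) (nat_lit 1) (nat_lit 36) (nat_lit 1) (nat_lit 38) (nat_lit 1) (nat_lit 283) (nat_lit 416) (nat_lit 381)))))) (XT.nd (nat_lit 376) (nat_lit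 588) (nat_lit 0) (XT.nd (nat_lit 188) (nat_lit 336) (nat_lit 0) (XT.nd (nat_lit 94) (nat_lit 252) (nat_lit 0) (XT.lf (nat_lit 168) (nat_lit 23377421325) (nat_lit 0) (nat_lit 26419445761) (nat_lit 84) (nat_lit 47332718681) (nat_lit 37) (nat_lit 1) (nat_lit 35) (nat_lit 1) (nat_lit 36) (nat_lit 1) (nat_lit 284) (nat_lit 416) (nat_lit 380)) (XT.lf (nat_lit 84) (nat_lit 6747654130) (nat_lit 0) (nat_lit 21179087651) (nat_lit 252) (nat_lit 66611522295) (nat_lit 33) (nat_lit 1) (nat_lit 32) (nat_lit 1) (nat_lit 35) (nat_lit 1) (nat_lit 285) (nat_lit 416) (nat_lit 379))) (XT.nd (nat_lit 94) (nat_lit 252) (nat_lit 0) (XT.lf (nat_lit 168) (nat_lit 28055014766) (nat_lit 0) (nat_lit 29231995608) (nat_lit 84) (nat_lit 34724285890) (nat_lit 33) (nat_lit 1) (nat_lit 31) (nat_lit 1) (nat_lit 32) (nat_lit 1) (nat_lit 286) (nat_lit 416) (nat_lit 378)) (XT.lf (nat_lit 84) (nat_lit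 15692531015) (nat_lit 0) (nat_lit 15199277414) (nat_lit 252) (nat_lit 58681323861) (nat_lit 29) (nat_lit 1) (nat_lit 28) (nat_lit 1) (nat_lit 31) (nat_lit 1) (nat_lit 287) (nat_lit 416) (nat_lit 377)))) (XT.nd (nat_lit 188) (nat_lit 336) (nat_lit 0) (XT.nd (nat_lit 94) (nat_lit 168) (nat_lit 0) (XT.lf (nat_lit 168) (nat_lit 30818496671) (nat_lit 0) (nat_lit 32391430506) (nat_lit 84) (nat_lit 23987335305) (nat_lit 29) (nat_lit 1) (nat_lit 27) (nat_lit 1) (nat_lit 28) (nat_lit 1) (nat_lit 288) (nat_lit 416) (nat_lit 376)) (XT.lf (nat_lit 84) (nat_lit 23103034396) (nat_lit 0) (nat_lit 11008182510) (nat_lit 168) (nat_lit 50788639793) (nat_lit 26) (nat_lit 1) (nat_lit 25) (nat_lit 1) (nat_lit 27) (nat_lit 1) (nat_lit 289) (nat_lit 416) (nat_lit 375))) (XT.nd (nat_lit 94) (nat_lit 252) (nat_lit 0) (XT.lf (nat_lit 168) (nat_lit 32103809095) (nat_lit 0) (nat_lit 35725749307)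 (nat_lit 84) (nat_lit 14833972098) (nat_lit 26) (nat_lit 1) (nat_lit 24) (nat_lit 1) (nat_lit 25) (nat_lit 1) (nat_lit 290) (nat_lit 416) (nat_lit 374)) (XT.nd (nat_lit 94) (nat_lit 84) (nat_lit 0) (XT.lf (nat_lit 84) (nat_lit 29223190431) (nat_lit 0) (nat_lit 8212247691) (nat_lit 168) (nat_lit 43060553232) (nat_lit 23) (nat_lit 1) (nat_lit 22) (nat_lit 1) (nat_lit 24) (nat_lit 1) (nat_lit 291) (nat_lit 416) (nat_lit 373)) (XT.lf (nat_lit 168) (nat_lit 32260982503) (nat_lit 0) (nat_lit 39103355181) (nat_lit 84) (nat_lit 7024596307) (nat_lit 23) (nat_lit 1) (nat_lit 21) (nat_lit 1) (nat_lit 22) (nat_lit 1) (nat_lit 292) (nat_lit 416) (nat_lit 372))))))) (XT.nd (nat_lit 846) (nat_lit 588) (nat_lit 0) (XT.nd (nat_lit 376) (nat_lit 672) (nat_lit 0) (XT.nd (nat_lit 188) (nat_lit 252) (nat_lit 0) (XT.nd (nat_lit 94) (nat_lit 84) (nat_lit 0) (XT.lf (nat_lit 84) (nat_lit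 34255812085) (nat_lit 0) (nat_lit 6495017950) (nat_lit 168) (nat_lit 35590808765) (nat_lit 20) (nat_lit 1) (nat_lit 19) (nat_lit 1) (nat_lit 21) (nat_lit 1) (nat_lit 293) (nat_lit 416) (nat_lit 371)) (XT.lf (nat_lit 168) (nat_lit 31570284810) (nat_lit 0) (nat_lit 42425018931) (nat_lit 84) (nat_lit 359360477) (nat_lit 20) (nat_lit 1) (nat_lit 18) (nat_lit 1) (nat_lit 19) (nat_lit 1) (nat_lit 294) (nat_lit 416) (nat_lit 370))) (XT.nd (nat_lit 94) (nat_lit 84) (nat_lit 0) (XT.lf (nat_lit 84) (nat_lit 38369794272) (nat_lit 0) (nat_lit 5602661575) (nat_lit 168) (nat_lit 28446606254) (nat_lit 17) (nat_lit 1) (nat_lit 16) (nat_lit 1) (nat_lit 18) (nat_lit 1) (nat_lit 295) (nat_lit 416) (nat_lit 369)) (XT.lf (nat_lit 0) (nat_lit 5158270433) (nat_lit 0) (nat_lit 40371729414) (nat_lit 168) (nat_lit 25009755026) (nat_lit 15) (nat_lit 3) (nat_lit 15) (nat_lit 1) (nat_lit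 17) (nat_lit 1) (nat_lit 296) (nat_lit 416) (nat_lit 368)))) (XT.nd (nat_lit 188) (nat_lit 420) (nat_lit 0) (XT.nd (nat_lit 94) (nat_lit 84) (nat_lit 0) (XT.lf (nat_lit 84) (nat_lit 41706088465) (nat_lit 0) (nat_lit 5332170575) (nat_lit 168) (nat_lit 21674104932) (nat_lit 14) (nat_lit 1) (nat_lit 13) (nat_lit 1) (nat_lit 15) (nat_lit 1) (nat_lit 297) (nat_lit 416) (nat_lit 367)) (XT.lf (nat_lit 0) (nat_lit 9854204852) (nat_lit 0) (nat_lit 38606457596) (nat_lit 168) (nat_lit 18472978161) (nat_lit 12) (nat_lit 3) (nat_lit 12) (nat_lit 1) (nat_lit 14) (nat_lit 1) (nat_lit 298) (nat_lit 416) (nat_lit 366))) (XT.nd (nat_lit 94) (nat_lit 252) (nat_lit 0) (XT.lf (nat_lit 84) (nat_lit 44382597944) (nat_lit 0) (nat_lit 5521745935) (nat_lit 168) (nat_lit 15302877076) (nat_lit 11) (nat_lit 1) (nat_lit 10) (nat_lit 1) (nat_lit 12) (nat_lit 1) (nat_lit 299) (nat_lit 416)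 (nat_lit 365)) (XT.nd (nat_lit 94) (nat_lit 168) (nat_lit 0) (XT.lf (nat_lit 0) (nat_lit 13853915358) (nat_lit 0) (nat_lit 37330508166) (nat_lit 168) (nat_lit 12338452948) (nat_lit 9) (nat_lit 3) (nat_lit 9) (nat_lit 1) (nat_lit 11) (nat_lit 1) (nat_lit 300) (nat_lit 416) (nat_lit 364)) (XT.lf (nat_lit 84) (nat_lit 46498190636) (nat_lit 0) (nat_lit 6042965580) (nat_lit 168) (nat_lit 9349506492) (nat_lit 8) (nat_lit 1) (nat_lit 7) (nat_lit 1) (nat_lit 9) (nat_lit 1) (nat_lit 301) (nat_lit 416) (nat_lit 363)))))) (XT.nd (nat_lit 470) (nat_lit 0) (nat_lit 0) (XT.nd (nat_lit 188) (nat_lit 336) (nat_lit 0) (XT.nd (nat_lit 94) (nat_lit 168) (nat_lit 0) (XT.lf (nat_lit 0) (nat_lit 17253490862) (nat_lit 0) (nat_lit 36422437893) (nat_lit 168) (nat_lit 6619084549) (nat_lit 6) (nat_lit 3) (nat_lit 6) (nat_lit 1) (nat_lit 8) (nat_lit 1) (nat_lit 302) (nat_lit 416) (nat_lit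 362)) (XT.lf (nat_lit 84) (nat_lit 48135990450) (nat_lit 0) (nat_lit 6794406812) (nat_lit 168) (nat_lit 3820491063) (nat_lit 5) (nat_lit 1) (nat_lit 4) (nat_lit 1) (nat_lit 6) (nat_lit 1) (nat_lit 303) (nat_lit 416) (nat_lit 361))) (XT.nd (nat_lit 94) (nat_lit 252) (nat_lit 0) (XT.lf (nat_lit 0) (nat_lit 20134199667) (nat_lit 0) (nat_lit 35785897223) (nat_lit 168) (nat_lit 1318610123) (nat_lit 3) (nat_lit 3) (nat_lit 3) (nat_lit 1) (nat_lit 5) (nat_lit 1) (nat_lit 304) (nat_lit 416) (nat_lit 360)) (XT.nd (nat_lit 94) (nat_lit 0) (nat_lit 0) (XT.lf (nat_lit 0) (nat_lit 80909550118) (nat_lit 0) (nat_lit 0) (nat_lit 0) (nat_lit 0) (nat_lit 0) (nat_lit 0) (nat_lit 1) (nat_lit 0) (nat_lit 1) (nat_lit 0) (nat_lit 305) (nat_lit 416) (nat_lit 359)) (XT.lf (nat_lit 0) (nat_lit 80835905274) (nat_lit 0) (nat_lit 0) (nat_lit 0) (nat_lit 0) (nat_lit 0) (nat_lit 0) (nat_lit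 1) (nat_lit 0) (nat_lit 1) (nat_lit 0) (nat_lit 306) (nat_lit 416) (nat_lit 358))))) (XT.nd (nat_lit 188) (nat_lit 0) (nat_lit 0) (XT.nd (nat_lit 94) (nat_lit 0) (nat_lit 0) (XT.lf (nat_lit 0) (nat_lit 80767715604) (nat_lit 0) (nat_lit 0) (nat_lit 0) (nat_lit 0) (nat_lit 0) (nat_lit 0) (nat_lit 1) (nat_lit 0) (nat_lit 1) (nat_lit 0) (nat_lit 307) (nat_lit 416) (nat_lit 357)) (XT.lf (nat_lit 0) (nat_lit 80704577020) (nat_lit 0) (nat_lit 0) (nat_lit 0) (nat_lit 0) (nat_lit 0) (nat_lit 0) (nat_lit 1) (nat_lit 0) (nat_lit 1) (nat_lit 0) (nat_lit 308) (nat_lit 416) (nat_lit 356))) (XT.nd (nat_lit 94) (nat_lit 0) (nat_lit 0) (XT.lf (nat_lit 0) (nat_lit 80646115369) (nat_lit 0) (nat_lit 0) (nat_lit 0) (nat_lit 0) (nat_lit 0) (nat_lit 0) (nat_lit 1) (nat_lit 0) (nat_lit 1) (nat_lit 0) (nat_lit 309) (nat_lit 416) (nat_lit 355)) (XT.nd (nat_lit 94) (nat_lit 0) (nat_lit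 0) (XT.lf (nat_lit 0) (nat_lit 80591984210) (nat_lit 0) (nat_lit 0) (nat_lit 0) (nat_lit 0) (nat_lit 0) (nat_lit 0) (nat_lit 1) (nat_lit 0) (nat_lit 1) (nat_lit 0) (nat_lit 310) (nat_lit 416) (nat_lit 354)) (XT.lf (nat_lit 0) (nat_lit 80541862766) (nat_lit 0) (nat_lit 0) (nat_lit 0) (nat_lit 0) (nat_lit 0) (nat_lit 0) (nat_lit 1) (nat_lit 0) (nat_lit 1) (nat_lit 0) (nat_lit 311) (nat_lit 416) (nat_lit 353))))))))
noncomputable def ec227 : XT := (XT.nd (nat_lit 1786) (nat_lit 0) (nat_lit 0) (XT.nd (nat_lit 846) (nat_lit 0) (nat_lit 0) (XT.nd (nat_lit 376) (nat_lit 0) (nat_lit 0) (XT.nd (nat_lit 188) (nat_lit 0) (nat_lit 0) (XT.nd (nat_lit 94) (nat_lit 0) (nat_lit 0) (XT.lf (nat_lit 0) (nat_lit 80495454023) (nat_lit 0) (nat_lit 0) (nat_lit 0) (nat_lit 0) (nat_lit 0) (nat_lit 0) (nat_lit 1) (nat_lit 0) (nat_lit 1) (nat_lit 0) (nat_lit 312) (nat_lit 416) (nat_lit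 352)) (XT.lf (nat_lit 0) (nat_lit 80452482964) (nat_lit 0) (nat_lit 0) (nat_lit 0) (nat_lit 0) (nat_lit 0) (nat_lit 0) (nat_lit 1) (nat_lit 0) (nat_lit 1) (nat_lit 0) (nat_lit 313) (nat_lit 416) (nat_lit 351))) (XT.nd (nat_lit 94) (nat_lit 0) (nat_lit 0) (XT.lf (nat_lit 0) (nat_lit 80412694946) (nat_lit 0) (nat_lit 0) (nat_lit 0) (nat_lit 0) (nat_lit 0) (nat_lit 0) (nat_lit 1) (nat_lit 0) (nat_lit 1) (nat_lit 0) (nat_lit 314) (nat_lit 416) (nat_lit 350)) (XT.lf (nat_lit 0) (nat_lit 80375854189) (nat_lit 0) (nat_lit 0) (nat_lit 0) (nat_lit 0) (nat_lit 0) (nat_lit 0) (nat_lit 1) (nat_lit 0) (nat_lit 1) (nat_lit 0) (nat_lit 315) (nat_lit 416) (nat_lit 349)))) (XT.nd (nat_lit 188) (nat_lit 0) (nat_lit 0) (XT.nd (nat_lit 94) (nat_lit 0) (nat_lit 0) (XT.lf (nat_lit 0) (nat_lit 80341742377) (nat_lit 0) (nat_lit 0) (nat_lit 0) (nat_lit 0) (nat_lit 0) (nat_lit 0) (nat_lit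 1) (nat_lit 0) (nat_lit 1) (nat_lit 0) (nat_lit 316) (nat_lit 416) (nat_lit 348)) (XT.lf (nat_lit 0) (nat_lit 80310157365) (nat_lit 0) (nat_lit 0) (nat_lit 0) (nat_lit 0) (nat_lit 0) (nat_lit 0) (nat_lit 1) (nat_lit 0) (nat_lit 1) (nat_lit 0) (nat_lit 317) (nat_lit 416) (nat_lit 347))) (XT.nd (nat_lit 94) (nat_lit 0) (nat_lit 0) (XT.lf (nat_lit 0) (nat_lit 80280911985) (nat_lit 0) (nat_lit 0) (nat_lit 0) (nat_lit 0) (nat_lit 0) (nat_lit 0) (nat_lit 1) (nat_lit 0) (nat_lit 1) (nat_lit 0) (nat_lit 318) (nat_lit 416) (nat_lit 346)) (XT.nd (nat_lit 94) (nat_lit 0) (nat_lit 0) (XT.lf (nat_lit 0) (nat_lit 80253832928) (nat_lit 0) (nat_lit 0) (nat_lit 0) (nat_lit 0) (nat_lit 0) (nat_lit 0) (nat_lit 1) (nat_lit 0) (nat_lit 1) (nat_lit 0) (nat_lit 319) (nat_lit 416) (nat_lit 345)) (XT.lf (nat_lit 0) (nat_lit 80228759728) (nat_lit 0) (nat_lit 0) (nat_lit 0) (nat_lit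 0) (nat_lit 0) (nat_lit 0) (nat_lit 1) (nat_lit 0) (nat_lit 1) (nat_lit 0) (nat_lit 320) (nat_lit 416) (nat_lit 344)))))) (XT.nd (nat_lit 470) (nat_lit 0) (nat_lit 0) (XT.nd (nat_lit 188) (nat_lit 0) (nat_lit 0) (XT.nd (nat_lit 94) (nat_lit 0) (nat_lit 0) (XT.lf (nat_lit 0) (nat_lit 80205543802) (nat_lit 0) (nat_lit 0) (nat_lit 0) (nat_lit 0) (nat_lit 0) (nat_lit 0) (nat_lit 1) (nat_lit 0) (nat_lit 1) (nat_lit 0) (nat_lit 321) (nat_lit 416) (nat_lit 343)) (XT.lf (nat_lit 0) (nat_lit 80184047574) (nat_lit 0) (nat_lit 0) (nat_lit 0) (nat_lit 0) (nat_lit 0) (nat_lit 0) (nat_lit 1) (nat_lit 0) (nat_lit 1) (nat_lit 0) (nat_lit 322) (nat_lit 416) (nat_lit 342))) (XT.nd (nat_lit 94) (nat_lit 0) (nat_lit 0) (XT.lf (nat_lit 0) (nat_lit 80164143659) (nat_lit 0) (nat_lit 0) (nat_lit 0) (nat_lit 0) (nat_lit 0) (nat_lit 0) (nat_lit 1) (nat_lit 0) (nat_lit 1) (nat_lit 0)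 (nat_lit 323) (nat_lit 416) (nat_lit 341)) (XT.nd (nat_lit 94) (nat_lit 0) (nat_lit 0) (XT.lf (nat_lit 0) (nat_lit 80145714109) (nat_lit 0) (nat_lit 0) (nat_lit 0) (nat_lit 0) (nat_lit 0) (nat_lit 0) (nat_lit 1) (nat_lit 0) (nat_lit 1) (nat_lit 0) (nat_lit 324) (nat_lit 416) (nat_lit 340)) (XT.lf (nat_lit 0) (nat_lit 80128649710) (nat_lit 0) (nat_lit 0) (nat_lit 0) (nat_lit 0) (nat_lit 0) (nat_lit 0) (nat_lit 1) (nat_lit 0) (nat_lit 1) (nat_lit 0) (nat_lit 325) (nat_lit 416) (nat_lit 339))))) (XT.nd (nat_lit 188) (nat_lit 0) (nat_lit 0) (XT.nd (nat_lit 94) (nat_lit 0) (nat_lit 0) (XT.lf (nat_lit 0) (nat_lit 80112849341) (nat_lit 0) (nat_lit 0) (nat_lit 0) (nat_lit 0) (nat_lit 0) (nat_lit 0) (nat_lit 1) (nat_lit 0) (nat_lit 1) (nat_lit 0) (nat_lit 326) (nat_lit 416) (nat_lit 338)) (XT.lf (nat_lit 0) (nat_lit 80098219369) (nat_lit 0) (nat_lit 0) (nat_lit 0)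 (nat_lit 0) (nat_lit 0) (nat_lit 0) (nat_lit 1) (nat_lit 0) (nat_lit 1) (nat_lit 0) (nat_lit 327) (nat_lit 416) (nat_lit 337))) (XT.nd (nat_lit 94) (nat_lit 0) (nat_lit 0) (XT.lf (nat_lit 0) (nat_lit 80084673099) (nat_lit 0) (nat_lit 0) (nat_lit 0) (nat_lit 0) (nat_lit 0) (nat_lit 0) (nat_lit 1) (nat_lit 0) (nat_lit 1) (nat_lit 0) (nat_lit 328) (nat_lit 416) (nat_lit 336)) (XT.nd (nat_lit 94) (nat_lit 0) (nat_lit 0) (XT.lf (nat_lit 0) (nat_lit 80072130257) (nat_lit 0) (nat_lit 0) (nat_lit 0) (nat_lit 0) (nat_lit 0) (nat_lit 0) (nat_lit 1) (nat_lit 0) (nat_lit 1) (nat_lit 0) (nat_lit 329) (nat_lit 416) (nat_lit 335)) (XT.lf (nat_lit 0) (nat_lit 80060516514) (nat_lit 0) (nat_lit 0) (nat_lit 0) (nat_lit 0) (nat_lit 0) (nat_lit 0) (nat_lit 1) (nat_lit 0) (nat_lit 1) (nat_lit 0) (nat_lit 330) (nat_lit 416) (nat_lit 334))))))) (XT.nd (nat_lit 846) (nat_lit 0) (nat_lit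 0) (XT.nd (nat_lit 376) (nat_lit 0) (nat_lit 0) (XT.nd (nat_lit 188) (nat_lit 0) (nat_lit 0) (XT.nd (nat_lit 94) (nat_lit 0) (nat_lit 0) (XT.lf (nat_lit 0) (nat_lit 80049763048) (nat_lit 0) (nat_lit 0) (nat_lit 0) (nat_lit 0) (nat_lit 0) (nat_lit 0) (nat_lit 1) (nat_lit 0) (nat_lit 1) (nat_lit 0) (nat_lit 331) (nat_lit 416) (nat_lit 333)) (XT.lf (nat_lit 0) (nat_lit 80039806135) (nat_lit 0) (nat_lit 0) (nat_lit 0) (nat_lit 0) (nat_lit 0) (nat_lit 0) (nat_lit 1) (nat_lit 0) (nat_lit 1) (nat_lit 0) (nat_lit 332) (nat_lit 416) (nat_lit 332))) (XT.nd (nat_lit 94) (nat_lit 0) (nat_lit 0) (XT.lf (nat_lit 0) (nat_lit 80030586771) (nat_lit 0) (nat_lit 0) (nat_lit 0) (nat_lit 0) (nat_lit 0) (nat_lit 0) (nat_lit 1) (nat_lit 0) (nat_lit 1) (nat_lit 0) (nat_lit 333) (nat_lit 416) (nat_lit 331)) (XT.lf (nat_lit 0) (nat_lit 80022050323) (nat_lit 0) (nat_lit 0) (nat_lit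 0) (nat_lit 0) (nat_lit 0) (nat_lit 0) (nat_lit 1) (nat_lit 0) (nat_lit 1) (nat_lit 0) (nat_lit 334) (nat_lit 416) (nat_lit 330)))) (XT.nd (nat_lit 188) (nat_lit 0) (nat_lit 0) (XT.nd (nat_lit 94) (nat_lit 0) (nat_lit 0) (XT.lf (nat_lit 0) (nat_lit 80014146205) (nat_lit 0) (nat_lit 0) (nat_lit 0) (nat_lit 0) (nat_lit 0) (nat_lit 0) (nat_lit 1) (nat_lit 0) (nat_lit 1) (nat_lit 0) (nat_lit 335) (nat_lit 416) (nat_lit 329)) (XT.lf (nat_lit 0) (nat_lit 80006827577) (nat_lit 0) (nat_lit 0) (nat_lit 0) (nat_lit 0) (nat_lit 0) (nat_lit 0) (nat_lit 1) (nat_lit 0) (nat_lit 1) (nat_lit 0) (nat_lit 336) (nat_lit 416) (nat_lit 328))) (XT.nd (nat_lit 94) (nat_lit 0) (nat_lit 0) (XT.lf (nat_lit 0) (nat_lit 80000051069) (nat_lit 0) (nat_lit 0) (nat_lit 0) (nat_lit 0) (nat_lit 0) (nat_lit 0) (nat_lit 1) (nat_lit 0) (nat_lit 1) (nat_lit 0) (nat_lit 337) (nat_lit 416) (nat_lit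 327)) (XT.nd (nat_lit 94) (nat_lit 0) (nat_lit 0) (XT.lf (nat_lit 0) (nat_lit 79993776525) (nat_lit 0) (nat_lit 0) (nat_lit 0) (nat_lit 0) (nat_lit 0) (nat_lit 0) (nat_lit 1) (nat_lit 0) (nat_lit 1) (nat_lit 0) (nat_lit 338) (nat_lit 416) (nat_lit 326)) (XT.lf (nat_lit 0) (nat_lit 79987966762) (nat_lit 0) (nat_lit 0) (nat_lit 0) (nat_lit 0) (nat_lit 0) (nat_lit 0) (nat_lit 1) (nat_lit 0) (nat_lit 1) (nat_lit 0) (nat_lit 339) (nat_lit 416) (nat_lit 325)))))) (XT.nd (nat_lit 470) (nat_lit 0) (nat_lit 0) (XT.nd (nat_lit 188) (nat_lit 0) (nat_lit 0) (XT.nd (nat_lit 94) (nat_lit 0) (nat_lit 0) (XT.lf (nat_lit 0) (nat_lit 79982587352) (nat_lit 0) (nat_lit 0) (nat_lit 0) (nat_lit 0) (nat_lit 0) (nat_lit 0) (nat_lit 1) (nat_lit 0) (nat_lit 1) (nat_lit 0) (nat_lit 340) (nat_lit 416) (nat_lit 324)) (XT.lf (nat_lit 0) (nat_lit 79977606417) (nat_lit 0) (nat_lit 0) (nat_lit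 0) (nat_lit 0) (nat_lit 0) (nat_lit 0) (nat_lit 1) (nat_lit 0) (nat_lit 1) (nat_lit 0) (nat_lit 341) (nat_lit 416) (nat_lit 323))) (XT.nd (nat_lit 94) (nat_lit 0) (nat_lit 0) (XT.lf (nat_lit 0) (nat_lit 79972994440) (nat_lit 0) (nat_lit 0) (nat_lit 0) (nat_lit 0) (nat_lit 0) (nat_lit 0) (nat_lit 1) (nat_lit 0) (nat_lit 1) (nat_lit 0) (nat_lit 342) (nat_lit 416) (nat_lit 322)) (XT.nd (nat_lit 94) (nat_lit 0) (nat_lit 0) (XT.lf (nat_lit 0) (nat_lit 79968724090) (nat_lit 0) (nat_lit 0) (nat_lit 0) (nat_lit 0) (nat_lit 0) (nat_lit 0) (nat_lit 1) (nat_lit 0) (nat_lit 1) (nat_lit 0) (nat_lit 343) (nat_lit 416) (nat_lit 321)) (XT.lf (nat_lit 0) (nat_lit 79964770063) (nat_lit 0) (nat_lit 0) (nat_lit 0) (nat_lit 0) (nat_lit 0) (nat_lit 0) (nat_lit 1) (nat_lit 0) (nat_lit 1) (nat_lit 0) (nat_lit 344) (nat_lit 416) (nat_lit 320))))) (XT.nd (nat_lit 188) (nat_lit 0) (nat_lit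 0) (XT.nd (nat_lit 94) (nat_lit 0) (nat_lit 0) (XT.lf (nat_lit 0) (nat_lit 79961108927) (nat_lit 0) (nat_lit 0) (nat_lit 0) (nat_lit 0) (nat_lit 0) (nat_lit 0) (nat_lit 1) (nat_lit 0) (nat_lit 1) (nat_lit 0) (nat_lit 345) (nat_lit 416) (nat_lit 319)) (XT.lf (nat_lit 0) (nat_lit 79957718986) (nat_lit 0) (nat_lit 0) (nat_lit 0) (nat_lit 0) (nat_lit 0) (nat_lit 0) (nat_lit 1) (nat_lit 0) (nat_lit 1) (nat_lit 0) (nat_lit 346) (nat_lit 416) (nat_lit 318))) (XT.nd (nat_lit 94) (nat_lit 0) (nat_lit 0) (XT.lf (nat_lit 0) (nat_lit 79954580152) (nat_lit 0) (nat_lit 0) (nat_lit 0) (nat_lit 0) (nat_lit 0) (nat_lit 0) (nat_lit 1) (nat_lit 0) (nat_lit 1) (nat_lit 0) (nat_lit 347) (nat_lit 416) (nat_lit 317)) (XT.nd (nat_lit 94) (nat_lit 0) (nat_lit 0) (XT.lf (nat_lit 0) (nat_lit 79951673824) (nat_lit 0) (nat_lit 0) (nat_lit 0) (nat_lit 0) (nat_lit 0) (nat_lit 0) (nat_lit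 1) (nat_lit 0) (nat_lit 1) (nat_lit 0) (nat_lit 348) (nat_lit 416) (nat_lit 316)) (XT.lf (nat_lit 0) (nat_lit 79948982780) (nat_lit 0) (nat_lit 0) (nat_lit 0) (nat_lit 0) (nat_lit 0) (nat_lit 0) (nat_lit 1) (nat_lit 0) (nat_lit 1) (nat_lit 0) (nat_lit 349) (nat_lit 416) (nat_lit 315))))))))
noncomputable def ec228 : XT := (XT.nd (nat_lit 1692) (nat_lit 0) (nat_lit 0) (XT.nd (nat_lit 846) (nat_lit 0) (nat_lit 0) (XT.nd (nat_lit 376) (nat_lit 0) (nat_lit 0) (XT.nd (nat_lit 188) (nat_lit 0) (nat_lit 0) (XT.nd (nat_lit 94) (nat_lit 0) (nat_lit 0) (XT.lf (nat_lit 0) (nat_lit 79946491072) (nat_lit 0) (nat_lit 0) (nat_lit 0) (nat_lit 0) (nat_lit 0) (nat_lit 0) (nat_lit 1) (nat_lit 0) (nat_lit 1) (nat_lit 0) (nat_lit 350) (nat_lit 416) (nat_lit 314)) (XT.lf (nat_lit 0) (nat_lit 79944183935) (nat_lit 0) (nat_lit 0) (nat_lit 0) (nat_lit 0) (nat_lit 0) (nat_lit 0) (nat_lit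 1) (nat_lit 0) (nat_lit 1) (nat_lit 0) (nat_lit 351) (nat_lit 416) (nat_lit 313))) (XT.nd (nat_lit 94) (nat_lit 0) (nat_lit 0) (XT.lf (nat_lit 0) (nat_lit 79942047698) (nat_lit 0) (nat_lit 0) (nat_lit 0) (nat_lit 0) (nat_lit 0) (nat_lit 0) (nat_lit 1) (nat_lit 0) (nat_lit 1) (nat_lit 0) (nat_lit 352) (nat_lit 416) (nat_lit 312)) (XT.lf (nat_lit 0) (nat_lit 79940069700) (nat_lit 0) (nat_lit 0) (nat_lit 0) (nat_lit 0) (nat_lit 0) (nat_lit 0) (nat_lit 1) (nat_lit 0) (nat_lit 1) (nat_lit 0) (nat_lit 353) (nat_lit 416) (nat_lit 311)))) (XT.nd (nat_lit 188) (nat_lit 0) (nat_lit 0) (XT.nd (nat_lit 94) (nat_lit 0) (nat_lit 0) (XT.lf (nat_lit 0) (nat_lit 79938238220) (nat_lit 0) (nat_lit 0) (nat_lit 0) (nat_lit 0) (nat_lit 0) (nat_lit 0) (nat_lit 1) (nat_lit 0) (nat_lit 1) (nat_lit 0) (nat_lit 354) (nat_lit 416) (nat_lit 310)) (XT.lf (nat_lit 0) (nat_lit 79936542406)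 (nat_lit 0) (nat_lit 0) (nat_lit 0) (nat_lit 0) (nat_lit 0) (nat_lit 0) (nat_lit 1) (nat_lit 0) (nat_lit 1) (nat_lit 0) (nat_lit 355) (nat_lit 416) (nat_lit 309))) (XT.nd (nat_lit 94) (nat_lit 0) (nat_lit 0) (XT.lf (nat_lit 0) (nat_lit 79934972207) (nat_lit 0) (nat_lit 0) (nat_lit 0) (nat_lit 0) (nat_lit 0) (nat_lit 0) (nat_lit 1) (nat_lit 0) (nat_lit 1) (nat_lit 0) (nat_lit 356) (nat_lit 416) (nat_lit 308)) (XT.nd (nat_lit 94) (nat_lit 0) (nat_lit 0) (XT.lf (nat_lit 0) (nat_lit 79933518319) (nat_lit 0) (nat_lit 0) (nat_lit 0) (nat_lit 0) (nat_lit 0) (nat_lit 0) (nat_lit 1) (nat_lit 0) (nat_lit 1) (nat_lit 0) (nat_lit 357) (nat_lit 416) (nat_lit 307)) (XT.lf (nat_lit 0) (nat_lit 79932172127) (nat_lit 0) (nat_lit 0) (nat_lit 0) (nat_lit 0) (nat_lit 0) (nat_lit 0) (nat_lit 1) (nat_lit 0) (nat_lit 1) (nat_lit 0) (nat_lit 358) (nat_lit 416) (nat_lit 306))))))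 (XT.nd (nat_lit 376) (nat_lit 0) (nat_lit 0) (XT.nd (nat_lit 188) (nat_lit 0) (nat_lit 0) (XT.nd (nat_lit 94) (nat_lit 0) (nat_lit 0) (XT.lf (nat_lit 0) (nat_lit 79930925653) (nat_lit 0) (nat_lit 0) (nat_lit 0) (nat_lit 0) (nat_lit 0) (nat_lit 0) (nat_lit 1) (nat_lit 0) (nat_lit 1) (nat_lit 0) (nat_lit 359) (nat_lit 416) (nat_lit 305)) (XT.lf (nat_lit 0) (nat_lit 79929771510) (nat_lit 0) (nat_lit 0) (nat_lit 0) (nat_lit 0) (nat_lit 0) (nat_lit 0) (nat_lit 1) (nat_lit 0) (nat_lit 1) (nat_lit 0) (nat_lit 360) (nat_lit 416) (nat_lit 304))) (XT.nd (nat_lit 94) (nat_lit 0) (nat_lit 0) (XT.lf (nat_lit 0) (nat_lit 79928702859) (nat_lit 0) (nat_lit 0) (nat_lit 0) (nat_lit 0) (nat_lit 0) (nat_lit 0) (nat_lit 1) (nat_lit 0) (nat_lit 1) (nat_lit 0) (nat_lit 361) (nat_lit 416) (nat_lit 303)) (XT.lf (nat_lit 0) (nat_lit 79927713368) (nat_lit 0) (nat_lit 0) (nat_lit 0)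 (nat_lit 0) (nat_lit 0) (nat_lit 0) (nat_lit 1) (nat_lit 0) (nat_lit 1) (nat_lit 0) (nat_lit 362) (nat_lit 416) (nat_lit 302)))) (XT.nd (nat_lit 188) (nat_lit 0) (nat_lit 0) (XT.nd (nat_lit 94) (nat_lit 0) (nat_lit 0) (XT.lf (nat_lit 0) (nat_lit 79926797172) (nat_lit 0) (nat_lit 0) (nat_lit 0) (nat_lit 0) (nat_lit 0) (nat_lit 0) (nat_lit 1) (nat_lit 0) (nat_lit 1) (nat_lit 0) (nat_lit 363) (nat_lit 416) (nat_lit 301)) (XT.lf (nat_lit 0) (nat_lit 79925948843) (nat_lit 0) (nat_lit 0) (nat_lit 0) (nat_lit 0) (nat_lit 0) (nat_lit 0) (nat_lit 1) (nat_lit 0) (nat_lit 1) (nat_lit 0) (nat_lit 364) (nat_lit 416) (nat_lit 300))) (XT.nd (nat_lit 94) (nat_lit 0) (nat_lit 0) (XT.lf (nat_lit 0) (nat_lit 79925163353) (nat_lit 0) (nat_lit 0) (nat_lit 0) (nat_lit 0) (nat_lit 0) (nat_lit 0) (nat_lit 1) (nat_lit 0) (nat_lit 1) (nat_lit 0) (nat_lit 365) (nat_lit 416) (nat_lit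 299)) (XT.nd (nat_lit 94) (nat_lit 0) (nat_lit 0) (XT.lf (nat_lit 0) (nat_lit 79924436047) (nat_lit 0) (nat_lit 0) (nat_lit 0) (nat_lit 0) (nat_lit 0) (nat_lit 0) (nat_lit 1) (nat_lit 0) (nat_lit 1) (nat_lit 0) (nat_lit 366) (nat_lit 416) (nat_lit 298)) (XT.lf (nat_lit 0) (nat_lit 79923762616) (nat_lit 0) (nat_lit 0) (nat_lit 0) (nat_lit 0) (nat_lit 0) (nat_lit 0) (nat_lit 1) (nat_lit 0) (nat_lit 1) (nat_lit 0) (nat_lit 367) (nat_lit 416) (nat_lit 297))))))) (XT.nd (nat_lit 846) (nat_lit 0) (nat_lit 0) (XT.nd (nat_lit 376) (nat_lit 0) (nat_lit 0) (XT.nd (nat_lit 188) (nat_lit 0) (nat_lit 0) (XT.nd (nat_lit 94) (nat_lit 0) (nat_lit 0) (XT.lf (nat_lit 0) (nat_lit 79923139068) (nat_lit 0) (nat_lit 0) (nat_lit 0) (nat_lit 0) (nat_lit 0) (nat_lit 0) (nat_lit 1) (nat_lit 0) (nat_lit 1) (nat_lit 0) (nat_lit 368) (nat_lit 416) (nat_lit 296)) (XT.lf (nat_lit 0) (nat_lit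 79922561709) (nat_lit 0) (nat_lit 0) (nat_lit 0) (nat_lit 0) (nat_lit 0) (nat_lit 0) (nat_lit 1) (nat_lit 0) (nat_lit 1) (nat_lit 0) (nat_lit 369) (nat_lit 416) (nat_lit 295))) (XT.nd (nat_lit 94) (nat_lit 0) (nat_lit 0) (XT.lf (nat_lit 0) (nat_lit 79922027118) (nat_lit 0) (nat_lit 0) (nat_lit 0) (nat_lit 0) (nat_lit 0) (nat_lit 0) (nat_lit 1) (nat_lit 0) (nat_lit 1) (nat_lit 0) (nat_lit 370) (nat_lit 416) (nat_lit 294)) (XT.lf (nat_lit 0) (nat_lit 79921532126) (nat_lit 0) (nat_lit 0) (nat_lit 0) (nat_lit 0) (nat_lit 0) (nat_lit 0) (nat_lit 1) (nat_lit 0) (nat_lit 1) (nat_lit 0) (nat_lit 371) (nat_lit 416) (nat_lit 293)))) (XT.nd (nat_lit 188) (nat_lit 0) (nat_lit 0) (XT.nd (nat_lit 94) (nat_lit 0) (nat_lit 0) (XT.lf (nat_lit 0) (nat_lit 79921073800) (nat_lit 0) (nat_lit 0) (nat_lit 0) (nat_lit 0) (nat_lit 0) (nat_lit 0) (nat_lit 1) (nat_lit 0) (nat_lit 1)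 (nat_lit 0) (nat_lit 372) (nat_lit 416) (nat_lit 292)) (XT.lf (nat_lit 0) (nat_lit 79920649424) (nat_lit 0) (nat_lit 0) (nat_lit 0) (nat_lit 0) (nat_lit 0) (nat_lit 0) (nat_lit 1) (nat_lit 0) (nat_lit 1) (nat_lit 0) (nat_lit 373) (nat_lit 416) (nat_lit 291))) (XT.nd (nat_lit 94) (nat_lit 0) (nat_lit 0) (XT.lf (nat_lit 0) (nat_lit 79920256483) (nat_lit 0) (nat_lit 0) (nat_lit 0) (nat_lit 0) (nat_lit 0) (nat_lit 0) (nat_lit 1) (nat_lit 0) (nat_lit 1) (nat_lit 0) (nat_lit 374) (nat_lit 416) (nat_lit 290)) (XT.nd (nat_lit 94) (nat_lit 0) (nat_lit 0) (XT.lf (nat_lit 0) (nat_lit 79919892649) (nat_lit 0) (nat_lit 0) (nat_lit 0) (nat_lit 0) (nat_lit 0) (nat_lit 0) (nat_lit 1) (nat_lit 0) (nat_lit 1) (nat_lit 0) (nat_lit 375) (nat_lit 416) (nat_lit 289)) (XT.lf (nat_lit 0) (nat_lit 79919555766) (nat_lit 0) (nat_lit 0) (nat_lit 0) (nat_lit 0) (nat_lit 0) (nat_lit 0)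 (nat_lit 1) (nat_lit 0) (nat_lit 1) (nat_lit 0) (nat_lit 376) (nat_lit 416) (nat_lit 288)))))) (XT.nd (nat_lit 470) (nat_lit 0) (nat_lit 0) (XT.nd (nat_lit 188) (nat_lit 0) (nat_lit 0) (XT.nd (nat_lit 94) (nat_lit 0) (nat_lit 0) (XT.lf (nat_lit 0) (nat_lit 79919243837) (nat_lit 0) (nat_lit 0) (nat_lit 0) (nat_lit 0) (nat_lit 0) (nat_lit 0) (nat_lit 1) (nat_lit 0) (nat_lit 1) (nat_lit 0) (nat_lit 377) (nat_lit 416) (nat_lit 287)) (XT.lf (nat_lit 0) (nat_lit 79918955014) (nat_lit 0) (nat_lit 0) (nat_lit 0) (nat_lit 0) (nat_lit 0) (nat_lit 0) (nat_lit 1) (nat_lit 0) (nat_lit 1) (nat_lit 0) (nat_lit 378) (nat_lit 416) (nat_lit 286))) (XT.nd (nat_lit 94) (nat_lit 0) (nat_lit 0) (XT.lf (nat_lit 0) (nat_lit 79918687585) (nat_lit 0) (nat_lit 0) (nat_lit 0) (nat_lit 0) (nat_lit 0) (nat_lit 0) (nat_lit 1) (nat_lit 0) (nat_lit 1) (nat_lit 0) (nat_lit 379) (nat_lit 416)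 (nat_lit 285)) (XT.nd (nat_lit 94) (nat_lit 0) (nat_lit 0) (XT.lf (nat_lit 0) (nat_lit 79918439966) (nat_lit 0) (nat_lit 0) (nat_lit 0) (nat_lit 0) (nat_lit 0) (nat_lit 0) (nat_lit 1) (nat_lit 0) (nat_lit 1) (nat_lit 0) (nat_lit 380) (nat_lit 416) (nat_lit 284)) (XT.lf (nat_lit 0) (nat_lit 79918210689) (nat_lit 0) (nat_lit 0) (nat_lit 0) (nat_lit 0) (nat_lit 0) (nat_lit 0) (nat_lit 1) (nat_lit 0) (nat_lit 1) (nat_lit 0) (nat_lit 381) (nat_lit 416) (nat_lit 283))))) (XT.nd (nat_lit 188) (nat_lit 0) (nat_lit 0) (XT.nd (nat_lit 94) (nat_lit 0) (nat_lit 0) (XT.lf (nat_lit 0) (nat_lit 79917998395) (nat_lit 0) (nat_lit 0) (nat_lit 0) (nat_lit 0) (nat_lit 0) (nat_lit 0) (nat_lit 1) (nat_lit 0) (nat_lit 1) (nat_lit 0) (nat_lit 382) (nat_lit 416) (nat_lit 282)) (XT.lf (nat_lit 0) (nat_lit 79917801827) (nat_lit 0) (nat_lit 0) (nat_lit 0) (nat_lit 0) (nat_lit 0) (nat_lit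 0) (nat_lit 1) (nat_lit 0) (nat_lit 1) (nat_lit 0) (nat_lit 383) (nat_lit 416) (nat_lit 281))) (XT.nd (nat_lit 94) (nat_lit 0) (nat_lit 0) (XT.lf (nat_lit 0) (nat_lit 79917619820) (nat_lit 0) (nat_lit 0) (nat_lit 0) (nat_lit 0) (nat_lit 0) (nat_lit 0) (nat_lit 1) (nat_lit 0) (nat_lit 1) (nat_lit 0) (nat_lit 384) (nat_lit 416) (nat_lit 280)) (XT.nd (nat_lit 94) (nat_lit 0) (nat_lit 0) (XT.lf (nat_lit 0) (nat_lit 79917451294) (nat_lit 0) (nat_lit 0) (nat_lit 0) (nat_lit 0) (nat_lit 0) (nat_lit 0) (nat_lit 1) (nat_lit 0) (nat_lit 1) (nat_lit 0) (nat_lit 385) (nat_lit 416) (nat_lit 279)) (XT.lf (nat_lit 0) (nat_lit 79917295252) (nat_lit 0) (nat_lit 0) (nat_lit 0) (nat_lit 0) (nat_lit 0) (nat_lit 0) (nat_lit 1) (nat_lit 0) (nat_lit 1) (nat_lit 0) (nat_lit 386) (nat_lit 416) (nat_lit 278))))))))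
noncomputable def ec229 : XT := (XT.nd (nat_lit 1786) (nat_lit 0) (nat_lit 0) (XT.nd (nat_lit 846) (nat_lit 0) (nat_lit 0) (XT.nd (nat_lit 376) (nat_lit 0) (nat_lit 0) (XT.nd (nat_lit 188) (nat_lit 0) (nat_lit 0) (XT.nd (nat_lit 94) (nat_lit 0) (nat_lit 0) (XT.lf (nat_lit 0) (nat_lit 79917150768) (nat_lit 0) (nat_lit 0) (nat_lit 0) (nat_lit 0) (nat_lit 0) (nat_lit 0) (nat_lit 1) (nat_lit 0) (nat_lit 1) (nat_lit 0) (nat_lit 387) (nat_lit 416) (nat_lit 277)) (XT.lf (nat_lit 0) (nat_lit 79917016987) (nat_lit 0) (nat_lit 0) (nat_lit 0) (nat_lit 0) (nat_lit 0) (nat_lit 0) (nat_lit 1) (nat_lit 0) (nat_lit 1) (nat_lit 0) (nat_lit 388) (nat_lit 416) (nat_lit 276))) (XT.nd (nat_lit 94) (nat_lit 0) (nat_lit 0) (XT.lf (nat_lit 0) (nat_lit 79916893116) (nat_lit 0) (nat_lit 0) (nat_lit 0) (nat_lit 0) (nat_lit 0) (nat_lit 0) (nat_lit 1) (nat_lit 0) (nat_lit 1) (nat_lit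 0) (nat_lit 389) (nat_lit 416) (nat_lit 275)) (XT.lf (nat_lit 0) (nat_lit 79916778421) (nat_lit 0) (nat_lit 0) (nat_lit 0) (nat_lit 0) (nat_lit 0) (nat_lit 0) (nat_lit 1) (nat_lit 0) (nat_lit 1) (nat_lit 0) (nat_lit 390) (nat_lit 416) (nat_lit 274)))) (XT.nd (nat_lit 188) (nat_lit 0) (nat_lit 0) (XT.nd (nat_lit 94) (nat_lit 0) (nat_lit 0) (XT.lf (nat_lit 0) (nat_lit 79916672221) (nat_lit 0) (nat_lit 0) (nat_lit 0) (nat_lit 0) (nat_lit 0) (nat_lit 0) (nat_lit 1) (nat_lit 0) (nat_lit 1) (nat_lit 0) (nat_lit 391) (nat_lit 416) (nat_lit 273)) (XT.lf (nat_lit 0) (nat_lit 79916573888) (nat_lit 0) (nat_lit 0) (nat_lit 0) (nat_lit 0) (nat_lit 0) (nat_lit 0) (nat_lit 1) (nat_lit 0) (nat_lit 1) (nat_lit 0) (nat_lit 392) (nat_lit 416) (nat_lit 272))) (XT.nd (nat_lit 94) (nat_lit 0) (nat_lit 0) (XT.lf (nat_lit 0) (nat_lit 79916482839) (nat_lit 0) (nat_lit 0) (nat_lit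 0) (nat_lit 0) (nat_lit 0) (nat_lit 0) (nat_lit 1) (nat_lit 0) (nat_lit 1) (nat_lit 0) (nat_lit 393) (nat_lit 416) (nat_lit 271)) (XT.nd (nat_lit 94) (nat_lit 0) (nat_lit 0) (XT.lf (nat_lit 0) (nat_lit 79916398534) (nat_lit 0) (nat_lit 0) (nat_lit 0) (nat_lit 0) (nat_lit 0) (nat_lit 0) (nat_lit 1) (nat_lit 0) (nat_lit 1) (nat_lit 0) (nat_lit 394) (nat_lit 416) (nat_lit 270)) (XT.lf (nat_lit 0) (nat_lit 79916320474) (nat_lit 0) (nat_lit 0) (nat_lit 0) (nat_lit 0) (nat_lit 0) (nat_lit 0) (nat_lit 1) (nat_lit 0) (nat_lit 1) (nat_lit 0) (nat_lit 395) (nat_lit 416) (nat_lit 269)))))) (XT.nd (nat_lit 470) (nat_lit 0) (nat_lit 0) (XT.nd (nat_lit 188) (nat_lit 0) (nat_lit 0) (XT.nd (nat_lit 94) (nat_lit 0) (nat_lit 0) (XT.lf (nat_lit 0) (nat_lit 79916248196) (nat_lit 0) (nat_lit 0) (nat_lit 0) (nat_lit 0) (nat_lit 0) (nat_lit 0) (nat_lit 1) (nat_lit 0) (nat_lit 1)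 (nat_lit 0) (nat_lit 396) (nat_lit 416) (nat_lit 268)) (XT.lf (nat_lit 0) (nat_lit 79916181273) (nat_lit 0) (nat_lit 0) (nat_lit 0) (nat_lit 0) (nat_lit 0) (nat_lit 0) (nat_lit 1) (nat_lit 0) (nat_lit 1) (nat_lit 0) (nat_lit 397) (nat_lit 416) (nat_lit 267))) (XT.nd (nat_lit 94) (nat_lit 0) (nat_lit 0) (XT.lf (nat_lit 0) (nat_lit 79916119306) (nat_lit 0) (nat_lit 0) (nat_lit 0) (nat_lit 0) (nat_lit 0) (nat_lit 0) (nat_lit 1) (nat_lit 0) (nat_lit 1) (nat_lit 0) (nat_lit 398) (nat_lit 416) (nat_lit 266)) (XT.nd (nat_lit 94) (nat_lit 0) (nat_lit 0) (XT.lf (nat_lit 0) (nat_lit 79916061930) (nat_lit 0) (nat_lit 0) (nat_lit 0) (nat_lit 0) (nat_lit 0) (nat_lit 0) (nat_lit 1) (nat_lit 0) (nat_lit 1) (nat_lit 0) (nat_lit 399) (nat_lit 416) (nat_lit 265)) (XT.lf (nat_lit 0) (nat_lit 79916008804) (nat_lit 0) (nat_lit 0) (nat_lit 0) (nat_lit 0) (nat_lit 0) (nat_lit 0)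 (nat_lit 1) (nat_lit 0) (nat_lit 1) (nat_lit 0) (nat_lit 400) (nat_lit 416) (nat_lit 264))))) (XT.nd (nat_lit 188) (nat_lit 0) (nat_lit 0) (XT.nd (nat_lit 94) (nat_lit 0) (nat_lit 0) (XT.lf (nat_lit 0) (nat_lit 79915959613) (nat_lit 0) (nat_lit 0) (nat_lit 0) (nat_lit 0) (nat_lit 0) (nat_lit 0) (nat_lit 1) (nat_lit 0) (nat_lit 1) (nat_lit 0) (nat_lit 401) (nat_lit 416) (nat_lit 263)) (XT.lf (nat_lit 0) (nat_lit 79915914065) (nat_lit 0) (nat_lit 0) (nat_lit 0) (nat_lit 0) (nat_lit 0) (nat_lit 0) (nat_lit 1) (nat_lit 0) (nat_lit 1) (nat_lit 0) (nat_lit 402) (nat_lit 416) (nat_lit 262))) (XT.nd (nat_lit 94) (nat_lit 0) (nat_lit 0) (XT.lf (nat_lit 0) (nat_lit 79915871892) (nat_lit 0) (nat_lit 0) (nat_lit 0) (nat_lit 0) (nat_lit 0) (nat_lit 0) (nat_lit 1) (nat_lit 0) (nat_lit 1) (nat_lit 0) (nat_lit 403) (nat_lit 416) (nat_lit 261)) (XT.nd (nat_lit 94) (nat_lit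 0) (nat_lit 0) (XT.lf (nat_lit 0) (nat_lit 79915832843) (nat_lit 0) (nat_lit 0) (nat_lit 0) (nat_lit 0) (nat_lit 0) (nat_lit 0) (nat_lit 1) (nat_lit 0) (nat_lit 1) (nat_lit 0) (nat_lit 404) (nat_lit 416) (nat_lit 260)) (XT.lf (nat_lit 0) (nat_lit 79915796686) (nat_lit 0) (nat_lit 0) (nat_lit 0) (nat_lit 0) (nat_lit 0) (nat_lit 0) (nat_lit 1) (nat_lit 0) (nat_lit 1) (nat_lit 0) (nat_lit 405) (nat_lit 416) (nat_lit 259))))))) (XT.nd (nat_lit 846) (nat_lit 0) (nat_lit 0) (XT.nd (nat_lit 376) (nat_lit 0) (nat_lit 0) (XT.nd (nat_lit 188) (nat_lit 0) (nat_lit 0) (XT.nd (nat_lit 94) (nat_lit 0) (nat_lit 0) (XT.lf (nat_lit 0) (nat_lit 79915763207) (nat_lit 0) (nat_lit 0) (nat_lit 0) (nat_lit 0) (nat_lit 0) (nat_lit 0) (nat_lit 1) (nat_lit 0) (nat_lit 1) (nat_lit 0) (nat_lit 406) (nat_lit 416) (nat_lit 258)) (XT.lf (nat_lit 0) (nat_lit 79915732209) (nat_lit 0) (nat_lit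 0) (nat_lit 0) (nat_lit 0) (nat_lit 0) (nat_lit 0) (nat_lit 1) (nat_lit 0) (nat_lit 1) (nat_lit 0) (nat_lit 407) (nat_lit 416) (nat_lit 257))) (XT.nd (nat_lit 94) (nat_lit 0) (nat_lit 0) (XT.lf (nat_lit 0) (nat_lit 79915703506) (nat_lit 0) (nat_lit 0) (nat_lit 0) (nat_lit 0) (nat_lit 0) (nat_lit 0) (nat_lit 1) (nat_lit 0) (nat_lit 1) (nat_lit 0) (nat_lit 408) (nat_lit 416) (nat_lit 256)) (XT.lf (nat_lit 0) (nat_lit 79915676930) (nat_lit 0) (nat_lit 0) (nat_lit 0) (nat_lit 0) (nat_lit 0) (nat_lit 0) (nat_lit 1) (nat_lit 0) (nat_lit 1) (nat_lit 0) (nat_lit 409) (nat_lit 416) (nat_lit 255)))) (XT.nd (nat_lit 188) (nat_lit 0) (nat_lit 0) (XT.nd (nat_lit 94) (nat_lit 0) (nat_lit 0) (XT.lf (nat_lit 0) (nat_lit 79915652322) (nat_lit 0) (nat_lit 0) (nat_lit 0) (nat_lit 0) (nat_lit 0) (nat_lit 0) (nat_lit 1) (nat_lit 0) (nat_lit 1) (nat_lit 0) (nat_lit 410) (nat_lit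 416) (nat_lit 254)) (XT.lf (nat_lit 0) (nat_lit 79915629537) (nat_lit 0) (nat_lit 0) (nat_lit 0) (nat_lit 0) (nat_lit 0) (nat_lit 0) (nat_lit 1) (nat_lit 0) (nat_lit 1) (nat_lit 0) (nat_lit 411) (nat_lit 416) (nat_lit 253))) (XT.nd (nat_lit 94) (nat_lit 0) (nat_lit 0) (XT.lf (nat_lit 0) (nat_lit 79915608440) (nat_lit 0) (nat_lit 0) (nat_lit 0) (nat_lit 0) (nat_lit 0) (nat_lit 0) (nat_lit 1) (nat_lit 0) (nat_lit 1) (nat_lit 0) (nat_lit 412) (nat_lit 416) (nat_lit 252)) (XT.nd (nat_lit 94) (nat_lit 0) (nat_lit 0) (XT.lf (nat_lit 0) (nat_lit 79915588905) (nat_lit 0) (nat_lit 0) (nat_lit 0) (nat_lit 0) (nat_lit 0) (nat_lit 0) (nat_lit 1) (nat_lit 0) (nat_lit 1) (nat_lit 0) (nat_lit 413) (nat_lit 416) (nat_lit 251)) (XT.lf (nat_lit 0) (nat_lit 79915570818) (nat_lit 0) (nat_lit 0) (nat_lit 0) (nat_lit 0) (nat_lit 0) (nat_lit 0) (nat_lit 1) (nat_lit 0) (nat_lit 1)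 (nat_lit 0) (nat_lit 414) (nat_lit 416) (nat_lit 250)))))) (XT.nd (nat_lit 470) (nat_lit 0) (nat_lit 0) (XT.nd (nat_lit 188) (nat_lit 0) (nat_lit 0) (XT.nd (nat_lit 94) (nat_lit 0) (nat_lit 0) (XT.lf (nat_lit 0) (nat_lit 79915554070) (nat_lit 0) (nat_lit 0) (nat_lit 0) (nat_lit 0) (nat_lit 0) (nat_lit 0) (nat_lit 1) (nat_lit 0) (nat_lit 1) (nat_lit 0) (nat_lit 415) (nat_lit 416) (nat_lit 249)) (XT.lf (nat_lit 0) (nat_lit 79915538563) (nat_lit 0) (nat_lit 0) (nat_lit 0) (nat_lit 0) (nat_lit 0) (nat_lit 0) (nat_lit 1) (nat_lit 0) (nat_lit 1) (nat_lit 0) (nat_lit 416) (nat_lit 416) (nat_lit 248))) (XT.nd (nat_lit 94) (nat_lit 0) (nat_lit 0) (XT.lf (nat_lit 0) (nat_lit 79915524205) (nat_lit 0) (nat_lit 0) (nat_lit 0) (nat_lit 0) (nat_lit 0) (nat_lit 0) (nat_lit 1) (nat_lit 0) (nat_lit 1) (nat_lit 0) (nat_lit 417) (nat_lit 416) (nat_lit 247)) (XT.nd (nat_lit 94)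 (nat_lit 0) (nat_lit 0) (XT.lf (nat_lit 0) (nat_lit 79915510910) (nat_lit 0) (nat_lit 0) (nat_lit 0) (nat_lit 0) (nat_lit 0) (nat_lit 0) (nat_lit 1) (nat_lit 0) (nat_lit 1) (nat_lit 0) (nat_lit 418) (nat_lit 416) (nat_lit 246)) (XT.lf (nat_lit 0) (nat_lit 79915498600) (nat_lit 0) (nat_lit 0) (nat_lit 0) (nat_lit 0) (nat_lit 0) (nat_lit 0) (nat_lit 1) (nat_lit 0) (nat_lit 1) (nat_lit 0) (nat_lit 419) (nat_lit 416) (nat_lit 245))))) (XT.nd (nat_lit 188) (nat_lit 0) (nat_lit 0) (XT.nd (nat_lit 94) (nat_lit 0) (nat_lit 0) (XT.lf (nat_lit 0) (nat_lit 79915487202) (nat_lit 0) (nat_lit 0) (nat_lit 0) (nat_lit 0) (nat_lit 0) (nat_lit 0) (nat_lit 1) (nat_lit 0) (nat_lit 1) (nat_lit 0) (nat_lit 420) (nat_lit 416) (nat_lit 244)) (XT.lf (nat_lit 0) (nat_lit 79915476648) (nat_lit 0) (nat_lit 0) (nat_lit 0) (nat_lit 0) (nat_lit 0) (nat_lit 0) (nat_lit 1) (nat_lit 0) (nat_lit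 1) (nat_lit 0) (nat_lit 421) (nat_lit 416) (nat_lit 243))) (XT.nd (nat_lit 94) (nat_lit 0) (nat_lit 0) (XT.lf (nat_lit 0) (nat_lit 79915466876) (nat_lit 0) (nat_lit 0) (nat_lit 0) (nat_lit 0) (nat_lit 0) (nat_lit 0) (nat_lit 1) (nat_lit 0) (nat_lit 1) (nat_lit 0) (nat_lit 422) (nat_lit 416) (nat_lit 242)) (XT.nd (nat_lit 94) (nat_lit 0) (nat_lit 0) (XT.lf (nat_lit 0) (nat_lit 79915457828) (nat_lit 0) (nat_lit 0) (nat_lit 0) (nat_lit 0) (nat_lit 0) (nat_lit 0) (nat_lit 1) (nat_lit 0) (nat_lit 1) (nat_lit 0) (nat_lit 423) (nat_lit 416) (nat_lit 241)) (XT.lf (nat_lit 0) (nat_lit 79915449450) (nat_lit 0) (nat_lit 0) (nat_lit 0) (nat_lit 0) (nat_lit 0) (nat_lit 0) (nat_lit 1) (nat_lit 0) (nat_lit 1) (nat_lit 0) (nat_lit 424) (nat_lit 416) (nat_lit 240))))))))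
noncomputable def ec230 : XT := (XT.nd (nat_lit 50948) (nat_lit 0) (nat_lit 6552) (XT.nd (nat_lit 846) (nat_lit 0) (nat_lit 0) (XT.nd (nat_lit 376) (nat_lit 0) (nat_lit 0) (XT.nd (nat_lit 188) (nat_lit 0) (nat_lit 0) (XT.nd (nat_lit 94) (nat_lit 0) (nat_lit 0) (XT.lf (nat_lit 0) (nat_lit 79915441692) (nat_lit 0) (nat_lit 0) (nat_lit 0) (nat_lit 0) (nat_lit 0) (nat_lit 0) (nat_lit 1) (nat_lit 0) (nat_lit 1) (nat_lit 0) (nat_lit 425) (nat_lit 416) (nat_lit 239)) (XT.lf (nat_lit 0) (nat_lit 79915434510) (nat_lit 0) (nat_lit 0) (nat_lit 0) (nat_lit 0) (nat_lit 0) (nat_lit 0) (nat_lit 1) (nat_lit 0) (nat_lit 1) (nat_lit 0) (nat_lit 426) (nat_lit 416) (nat_lit 238))) (XT.nd (nat_lit 94) (nat_lit 0) (nat_lit 0) (XT.lf (nat_lit 0) (nat_lit 79915427859) (nat_lit 0) (nat_lit 0) (nat_lit 0) (nat_lit 0) (nat_lit 0) (nat_lit 0) (nat_lit 1) (nat_lit 0) (nat_lit 1) (nat_lit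 0) (nat_lit 427) (nat_lit 416) (nat_lit 237)) (XT.lf (nat_lit 0) (nat_lit 79915421701) (nat_lit 0) (nat_lit 0) (nat_lit 0) (nat_lit 0) (nat_lit 0) (nat_lit 0) (nat_lit 1) (nat_lit 0) (nat_lit 1) (nat_lit 0) (nat_lit 428) (nat_lit 416) (nat_lit 236)))) (XT.nd (nat_lit 188) (nat_lit 0) (nat_lit 0) (XT.nd (nat_lit 94) (nat_lit 0) (nat_lit 0) (XT.lf (nat_lit 0) (nat_lit 79915415999) (nat_lit 0) (nat_lit 0) (nat_lit 0) (nat_lit 0) (nat_lit 0) (nat_lit 0) (nat_lit 1) (nat_lit 0) (nat_lit 1) (nat_lit 0) (nat_lit 429) (nat_lit 416) (nat_lit 235)) (XT.lf (nat_lit 0) (nat_lit 79915410719) (nat_lit 0) (nat_lit 0) (nat_lit 0) (nat_lit 0) (nat_lit 0) (nat_lit 0) (nat_lit 1) (nat_lit 0) (nat_lit 1) (nat_lit 0) (nat_lit 430) (nat_lit 416) (nat_lit 234))) (XT.nd (nat_lit 94) (nat_lit 0) (nat_lit 0) (XT.lf (nat_lit 0) (nat_lit 79915405831) (nat_lit 0) (nat_lit 0) (nat_lit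 0) (nat_lit 0) (nat_lit 0) (nat_lit 0) (nat_lit 1) (nat_lit 0) (nat_lit 1) (nat_lit 0) (nat_lit 431) (nat_lit 416) (nat_lit 233)) (XT.nd (nat_lit 94) (nat_lit 0) (nat_lit 0) (XT.lf (nat_lit 0) (nat_lit 79915401305) (nat_lit 0) (nat_lit 0) (nat_lit 0) (nat_lit 0) (nat_lit 0) (nat_lit 0) (nat_lit 1) (nat_lit 0) (nat_lit 1) (nat_lit 0) (nat_lit 432) (nat_lit 416) (nat_lit 232)) (XT.lf (nat_lit 0) (nat_lit 79915397114) (nat_lit 0) (nat_lit 0) (nat_lit 0) (nat_lit 0) (nat_lit 0) (nat_lit 0) (nat_lit 1) (nat_lit 0) (nat_lit 1) (nat_lit 0) (nat_lit 433) (nat_lit 416) (nat_lit 231)))))) (XT.nd (nat_lit 376) (nat_lit 0) (nat_lit 0) (XT.nd (nat_lit 188) (nat_lit 0) (nat_lit 0) (XT.nd (nat_lit 94) (nat_lit 0) (nat_lit 0) (XT.lf (nat_lit 0) (nat_lit 79915393233) (nat_lit 0) (nat_lit 0) (nat_lit 0) (nat_lit 0) (nat_lit 0) (nat_lit 0) (nat_lit 1) (nat_lit 0) (nat_lit 1)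 (nat_lit 0) (nat_lit 434) (nat_lit 416) (nat_lit 230)) (XT.lf (nat_lit 0) (nat_lit 79915389640) (nat_lit 0) (nat_lit 0) (nat_lit 0) (nat_lit 0) (nat_lit 0) (nat_lit 0) (nat_lit 1) (nat_lit 0) (nat_lit 1) (nat_lit 0) (nat_lit 435) (nat_lit 416) (nat_lit 229))) (XT.nd (nat_lit 94) (nat_lit 0) (nat_lit 0) (XT.lf (nat_lit 0) (nat_lit 79915386313) (nat_lit 0) (nat_lit 0) (nat_lit 0) (nat_lit 0) (nat_lit 0) (nat_lit 0) (nat_lit 1) (nat_lit 0) (nat_lit 1) (nat_lit 0) (nat_lit 436) (nat_lit 416) (nat_lit 228)) (XT.lf (nat_lit 0) (nat_lit 79915383232) (nat_lit 0) (nat_lit 0) (nat_lit 0) (nat_lit 0) (nat_lit 0) (nat_lit 0) (nat_lit 1) (nat_lit 0) (nat_lit 1) (nat_lit 0) (nat_lit 437) (nat_lit 416) (nat_lit 227)))) (XT.nd (nat_lit 188) (nat_lit 0) (nat_lit 0) (XT.nd (nat_lit 94) (nat_lit 0) (nat_lit 0) (XT.lf (nat_lit 0) (nat_lit 79915380380) (nat_lit 0) (nat_lit 0)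 (nat_lit 0) (nat_lit 0) (nat_lit 0) (nat_lit 0) (nat_lit 1) (nat_lit 0) (nat_lit 1) (nat_lit 0) (nat_lit 438) (nat_lit 416) (nat_lit 226)) (XT.lf (nat_lit 0) (nat_lit 79915377739) (nat_lit 0) (nat_lit 0) (nat_lit 0) (nat_lit 0) (nat_lit 0) (nat_lit 0) (nat_lit 1) (nat_lit 0) (nat_lit 1) (nat_lit 0) (nat_lit 439) (nat_lit 416) (nat_lit 225))) (XT.nd (nat_lit 94) (nat_lit 0) (nat_lit 0) (XT.lf (nat_lit 0) (nat_lit 79915375293) (nat_lit 0) (nat_lit 0) (nat_lit 0) (nat_lit 0) (nat_lit 0) (nat_lit 0) (nat_lit 1) (nat_lit 0) (nat_lit 1) (nat_lit 0) (nat_lit 440) (nat_lit 416) (nat_lit 224)) (XT.nd (nat_lit 94) (nat_lit 0) (nat_lit 0) (XT.lf (nat_lit 0) (nat_lit 79915373029) (nat_lit 0) (nat_lit 0) (nat_lit 0) (nat_lit 0) (nat_lit 0) (nat_lit 0) (nat_lit 1) (nat_lit 0) (nat_lit 1) (nat_lit 0) (nat_lit 441) (nat_lit 416) (nat_lit 223)) (XT.lf (nat_lit 0) (nat_lit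 79915370932) (nat_lit 0) (nat_lit 0) (nat_lit 0) (nat_lit 0) (nat_lit 0) (nat_lit 0) (nat_lit 1) (nat_lit 0) (nat_lit 1) (nat_lit 0) (nat_lit 442) (nat_lit 416) (nat_lit 222))))))) (XT.nd (nat_lit 846) (nat_lit 3192) (nat_lit 0) (XT.nd (nat_lit 376) (nat_lit 1008) (nat_lit 0) (XT.nd (nat_lit 188) (nat_lit 0) (nat_lit 84) (XT.nd (nat_lit 94) (nat_lit 0) (nat_lit 84) (XT.lf (nat_lit 924) (nat_lit 43192042492) (nat_lit 0) (nat_lit 76687372165) (nat_lit 924) (nat_lit 43192042492) (nat_lit 139) (nat_lit 1) (nat_lit 128) (nat_lit 0) (nat_lit 139) (nat_lit 0) (nat_lit 246) (nat_lit 417) (nat_lit 417)) (XT.lf (nat_lit 924) (nat_lit 16111957160) (nat_lit 0) (nat_lit 150560553682) (nat_lit 840) (nat_lit 147247718490) (nat_lit 140) (nat_lit 1) (nat_lit 129) (nat_lit 1) (nat_lit 139) (nat_lit 1) (nat_lit 247) (nat_lit 417) (nat_lit 416))) (XT.nd (nat_lit 94) (nat_lit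 0) (nat_lit 84) (XT.lf (nat_lit 924) (nat_lit 147979026561) (nat_lit 84) (nat_lit 100830453551) (nat_lit 0) (nat_lit 53475873071) (nat_lit 140) (nat_lit 1) (nat_lit 130) (nat_lit 1) (nat_lit 129) (nat_lit 1) (nat_lit 248) (nat_lit 417) (nat_lit 415)) (XT.lf (nat_lit 924) (nat_lit 127866001565) (nat_lit 84) (nat_lit 42257344193) (nat_lit 0) (nat_lit 121109369992) (nat_lit 141) (nat_lit 1) (nat_lit 131) (nat_lit 1) (nat_lit 130) (nat_lit 1) (nat_lit 249) (nat_lit 417) (nat_lit 414)))) (XT.nd (nat_lit 188) (nat_lit 1260) (nat_lit 0) (XT.nd (nat_lit 94) (nat_lit 0) (nat_lit 84) (XT.lf (nat_lit 924) (nat_lit 94631711948) (nat_lit 0) (nat_lit 177051460008) (nat_lit 840) (nat_lit 9050845340) (nat_lit 142) (nat_lit 1) (nat_lit 131) (nat_lit 1) (nat_lit 141) (nat_lit 1) (nat_lit 250) (nat_lit 417) (nat_lit 413)) (XT.lf (nat_lit 924) (nat_lit 22705951443) (nat_lit 0)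 (nat_lit 195248421462) (nat_lit 840) (nat_lit 52782332278) (nat_lit 143) (nat_lit 1) (nat_lit 132) (nat_lit 1) (nat_lit 142) (nat_lit 1) (nat_lit 251) (nat_lit 417) (nat_lit 412))) (XT.nd (nat_lit 94) (nat_lit 1344) (nat_lit 0) (XT.lf (nat_lit 924) (nat_lit 43631603382) (nat_lit 84) (nat_lit 169686778012) (nat_lit 0) (nat_lit 47887702292) (nat_lit 143) (nat_lit 1) (nat_lit 133) (nat_lit 1) (nat_lit 132) (nat_lit 1) (nat_lit 252) (nat_lit 417) (nat_lit 411)) (XT.nd (nat_lit 94) (nat_lit 588) (nat_lit 0) (XT.lf (nat_lit 924) (nat_lit 8960936400) (nat_lit 0) (nat_lit 126852090912) (nat_lit 840) (nat_lit 116322038231) (nat_lit 134) (nat_lit 1) (nat_lit 123) (nat_lit 1) (nat_lit 133) (nat_lit 1) (nat_lit 253) (nat_lit 417) (nat_lit 410)) (XT.lf (nat_lit 84) (nat_lit 62047390276) (nat_lit 0) (nat_lit 26888021658) (nat_lit 588) (nat_lit 154558139419) (nat_lit 117)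 (nat_lit 1) (nat_lit 116) (nat_lit 1) (nat_lit 123) (nat_lit 1) (nat_lit 254) (nat_lit 417) (nat_lit 409)))))) (XT.nd (nat_lit 470) (nat_lit 1596) (nat_lit 0) (XT.nd (nat_lit 188) (nat_lit 756) (nat_lit 0) (XT.nd (nat_lit 94) (nat_lit 420) (nat_lit 0) (XT.lf (nat_lit 504) (nat_lit 170994797893) (nat_lit 0) (nat_lit 55662493064) (nat_lit 420) (nat_lit 8605765361) (nat_lit 117) (nat_lit 1) (nat_lit 111) (nat_lit 1) (nat_lit 116) (nat_lit 1) (nat_lit 255) (nat_lit 417) (nat_lit 408)) (XT.lf (nat_lit 504) (nat_lit 123391474496) (nat_lit 0) (nat_lit 25944527791) (nat_lit 420) (nat_lit 78050455567) (nat_lit 112) (nat_lit 1) (nat_lit 106) (nat_lit 1) (nat_lit 111) (nat_lit 1) (nat_lit 256) (nat_lit 417) (nat_lit 407))) (XT.nd (nat_lit 94) (nat_lit 420) (nat_lit 0) (XT.lf (nat_lit 420) (nat_lit 75082138503) (nat_lit 0) (nat_lit 477680918) (nat_lit 336) (nat_lit 144331959100)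 (nat_lit 107) (nat_lit 1) (nat_lit 102) (nat_lit 1) (nat_lit 106) (nat_lit 1) (nat_lit 257) (nat_lit 417) (nat_lit 406)) (XT.nd (nat_lit 94) (nat_lit 420) (nat_lit 0) (XT.lf (nat_lit 84) (nat_lit 5539205341) (nat_lit 0) (nat_lit 186808844799) (nat_lit 420) (nat_lit 20393817682) (nat_lit 103) (nat_lit 1) (nat_lit 102) (nat_lit 1) (nat_lit 107) (nat_lit 1) (nat_lit 258) (nat_lit 417) (nat_lit 405)) (XT.lf (nat_lit 84) (nat_lit 143023718622) (nat_lit 0) (nat_lit 23722014077) (nat_lit 420) (nat_lit 39121909458) (nat_lit 98) (nat_lit 1) (nat_lit 97) (nat_lit 1) (nat_lit 102) (nat_lit 1) (nat_lit 259) (nat_lit 417) (nat_lit 404))))) (XT.nd (nat_lit 188) (nat_lit 924) (nat_lit 0) (XT.nd (nat_lit 94) (nat_lit 336) (nat_lit 0) (XT.lf (nat_lit 84) (nat_lit 71558390740) (nat_lit 0) (nat_lit 72664740163) (nat_lit 420) (nat_lit 55074023930) (nat_lit 94) (nat_lit 1) (nat_lit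 93) (nat_lit 1) (nat_lit 98) (nat_lit 1) (nat_lit 260) (nat_lit 417) (nat_lit 403)) (XT.lf (nat_lit 84) (nat_lit 3531963488) (nat_lit 0) (nat_lit 121494317229) (nat_lit 420) (nat_lit 68011477651) (nat_lit 90) (nat_lit 1) (nat_lit 89) (nat_lit 1) (nat_lit 94) (nat_lit 1) (nat_lit 261) (nat_lit 417) (nat_lit 402))) (XT.nd (nat_lit 94) (nat_lit 672) (nat_lit 0) (XT.lf (nat_lit 336) (nat_lit 15950148055) (nat_lit 0) (nat_lit 107863216453) (nat_lit 252) (nat_lit 63210323809) (nat_lit 90) (nat_lit 1) (nat_lit 86) (nat_lit 1) (nat_lit 89) (nat_lit 1) (nat_lit 262) (nat_lit 417) (nat_lit 401)) (XT.nd (nat_lit 94) (nat_lit 252) (nat_lit 0) (XT.lf (nat_lit 84) (nat_lit 55112049885) (nat_lit 0) (nat_lit 37774141442) (nat_lit 420) (nat_lit 88371879077) (nat_lit 82) (nat_lit 1) (nat_lit 81) (nat_lit 1) (nat_lit 86) (nat_lit 1) (nat_lit 263) (nat_lit 417) (nat_lit 400))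 (XT.lf (nat_lit 336) (nat_lit 85326709389) (nat_lit 0) (nat_lit 80153415253) (nat_lit 252) (nat_lit 10259542024) (nat_lit 82) (nat_lit 1) (nat_lit 78) (nat_lit 1) (nat_lit 81) (nat_lit 1) (nat_lit 264) (nat_lit 417) (nat_lit 399))))))))
noncomputable def ec231 : XT := (XT.nd (nat_lit 1786) (nat_lit 2436) (nat_lit 0) (XT.nd (nat_lit 846) (nat_lit 1764) (nat_lit 0) (XT.nd (nat_lit 376) (nat_lit 1092) (nat_lit 0) (XT.nd (nat_lit 188) (nat_lit 420) (nat_lit 0) (XT.nd (nat_lit 94) (nat_lit 336) (nat_lit 0) (XT.lf (nat_lit 336) (nat_lit 27346798140) (nat_lit 0) (nat_lit 69008808283) (nat_lit 252) (nat_lit 74077730301) (nat_lit 79) (nat_lit 1) (nat_lit 75) (nat_lit 1) (nat_lit 78) (nat_lit 1) (nat_lit 265) (nat_lit 417) (nat_lit 398)) (XT.lf (nat_lit 84) (nat_lit 31168742012) (nat_lit 0) (nat_lit 28537691936) (nat_lit 336) (nat_lit 105640954708) (nat_lit 72) (nat_lit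 1) (nat_lit 71) (nat_lit 1) (nat_lit 75) (nat_lit 1) (nat_lit 266) (nat_lit 417) (nat_lit 397))) (XT.nd (nat_lit 94) (nat_lit 168) (nat_lit 0) (XT.lf (nat_lit 336) (nat_lit 77559323611) (nat_lit 0) (nat_lit 51605099805) (nat_lit 252) (nat_lit 31283181171) (nat_lit 72) (nat_lit 1) (nat_lit 68) (nat_lit 1) (nat_lit 71) (nat_lit 1) (nat_lit 267) (nat_lit 417) (nat_lit 396)) (XT.lf (nat_lit 252) (nat_lit 19227070844) (nat_lit 0) (nat_lit 45021685493) (nat_lit 168) (nat_lit 91496735138) (nat_lit 69) (nat_lit 1) (nat_lit 66) (nat_lit 1) (nat_lit 68) (nat_lit 1) (nat_lit 268) (nat_lit 417) (nat_lit 395)))) (XT.nd (nat_lit 188) (nat_lit 588) (nat_lit 0) (XT.nd (nat_lit 94) (nat_lit 168) (nat_lit 0) (XT.lf (nat_lit 84) (nat_lit 3257188638) (nat_lit 0) (nat_lit 36448647966) (nat_lit 336) (nat_lit 111519808053) (nat_lit 63) (nat_lit 1) (nat_lit 62) (nat_lit 1) (nat_lit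 66) (nat_lit 1) (nat_lit 269) (nat_lit 417) (nat_lit 394)) (XT.lf (nat_lit 252) (nat_lit 55870339956) (nat_lit 0) (nat_lit 34914169365) (nat_lit 168) (nat_lit 56064769301) (nat_lit 63) (nat_lit 1) (nat_lit 60) (nat_lit 1) (nat_lit 62) (nat_lit 1) (nat_lit 270) (nat_lit 417) (nat_lit 393))) (XT.nd (nat_lit 94) (nat_lit 336) (nat_lit 0) (XT.lf (nat_lit 84) (nat_lit 30312911624) (nat_lit 0) (nat_lit 1400172392) (nat_lit 252) (nat_lit 110950798106) (nat_lit 58) (nat_lit 1) (nat_lit 57) (nat_lit 1) (nat_lit 60) (nat_lit 1) (nat_lit 271) (nat_lit 417) (nat_lit 392)) (XT.nd (nat_lit 94) (nat_lit 168) (nat_lit 0) (XT.lf (nat_lit 252) (nat_lit 82869646818) (nat_lit 0) (nat_lit 28716190716) (nat_lit 168) (nat_lit 27014398292) (nat_lit 58) (nat_lit 1) (nat_lit 55) (nat_lit 1) (nat_lit 57) (nat_lit 1) (nat_lit 272) (nat_lit 417) (nat_lit 391)) (XT.lf (nat_lit 252) (nat_lit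 25742633120) (nat_lit 0) (nat_lit 26694874755) (nat_lit 168) (nat_lit 82254452639) (nat_lit 56) (nat_lit 1) (nat_lit 53) (nat_lit 1) (nat_lit 55) (nat_lit 1) (nat_lit 273) (nat_lit 417) (nat_lit 390)))))) (XT.nd (nat_lit 470) (nat_lit 924) (nat_lit 0) (XT.nd (nat_lit 188) (nat_lit 420) (nat_lit 0) (XT.nd (nat_lit 94) (nat_lit 168) (nat_lit 0) (XT.lf (nat_lit 252) (nat_lit 102188792804) (nat_lit 0) (nat_lit 25504786137) (nat_lit 168) (nat_lit 3235578019) (nat_lit 53) (nat_lit 1) (nat_lit 50) (nat_lit 1) (nat_lit 52) (nat_lit 1) (nat_lit 274) (nat_lit 417) (nat_lit 389)) (XT.lf (nat_lit 252) (nat_lit 45734967609) (nat_lit 0) (nat_lit 24348471906) (nat_lit 168) (nat_lit 57187470327) (nat_lit 51) (nat_lit 1) (nat_lit 48) (nat_lit 1) (nat_lit 50) (nat_lit 1) (nat_lit 275) (nat_lit 417) (nat_lit 388))) (XT.nd (nat_lit 94) (nat_lit 252) (nat_lit 0) (XT.lf (nat_lit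 84) (nat_lit 15665992184) (nat_lit 0) (nat_lit 8610735234) (nat_lit 168) (nat_lit 99487669941) (nat_lit 47) (nat_lit 1) (nat_lit 46) (nat_lit 1) (nat_lit 48) (nat_lit 1) (nat_lit 276) (nat_lit 417) (nat_lit 387)) (XT.nd (nat_lit 94) (nat_lit 84) (nat_lit 0) (XT.lf (nat_lit 252) (nat_lit 60006907753) (nat_lit 0) (nat_lit 24019663898) (nat_lit 168) (nat_lit 36319796735) (nat_lit 47) (nat_lit 1) (nat_lit 44) (nat_lit 1) (nat_lit 46) (nat_lit 1) (nat_lit 277) (nat_lit 417) (nat_lit 386)) (XT.lf (nat_lit 168) (nat_lit 6461891277) (nat_lit 0) (nat_lit 24609617883) (nat_lit 84) (nat_lit 85991769637) (nat_lit 45) (nat_lit 1) (nat_lit 43) (nat_lit 1) (nat_lit 44) (nat_lit 1) (nat_lit 278) (nat_lit 417) (nat_lit 385))))) (XT.nd (nat_lit 188) (nat_lit 588) (nat_lit 0) (XT.nd (nat_lit 94) (nat_lit 84) (nat_lit 0) (XT.lf (nat_lit 252) (nat_lit 69753730641) (nat_lit 0)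 (nat_lit 25169071934) (nat_lit 168) (nat_lit 18947911552) (nat_lit 43) (nat_lit 1) (nat_lit 40) (nat_lit 1) (nat_lit 42) (nat_lit 1) (nat_lit 279) (nat_lit 417) (nat_lit 384)) (XT.lf (nat_lit 168) (nat_lit 17543577618) (nat_lit 0) (nat_lit 26110168895) (nat_lit 84) (nat_lit 67131998785) (nat_lit 41) (nat_lit 1) (nat_lit 39) (nat_lit 1) (nat_lit 40) (nat_lit 1) (nat_lit 280) (nat_lit 417) (nat_lit 383))) (XT.nd (nat_lit 94) (nat_lit 336) (nat_lit 0) (XT.lf (nat_lit 252) (nat_lit 75941833068) (nat_lit 0) (nat_lit 27369470066) (nat_lit 168) (nat_lit 4491564333) (nat_lit 39) (nat_lit 1) (nat_lit 36) (nat_lit 1) (nat_lit 38) (nat_lit 1) (nat_lit 281) (nat_lit 417) (nat_lit 382)) (XT.nd (nat_lit 94) (nat_lit 252) (nat_lit 0) (XT.lf (nat_lit 168) (nat_lit 25247615031) (nat_lit 0) (nat_lit 28533001422) (nat_lit 84) (nat_lit 51119336176) (nat_lit 37) (nat_lit 1) (nat_lit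 35) (nat_lit 1) (nat_lit 36) (nat_lit 1) (nat_lit 282) (nat_lit 417) (nat_lit 381)) (XT.lf (nat_lit 84) (nat_lit 7287466460) (nat_lit 0) (nat_lit 22873414663) (nat_lit 252) (nat_lit 71940444079) (nat_lit 33) (nat_lit 1) (nat_lit 32) (nat_lit 1) (nat_lit 35) (nat_lit 1) (nat_lit 283) (nat_lit 417) (nat_lit 380))))))) (XT.nd (nat_lit 846) (nat_lit 1260) (nat_lit 0) (XT.nd (nat_lit 376) (nat_lit 588) (nat_lit 0) (XT.nd (nat_lit 188) (nat_lit 252) (nat_lit 0) (XT.nd (nat_lit 94) (nat_lit 252) (nat_lit 0) (XT.lf (nat_lit 168) (nat_lit 30299415947) (nat_lit 0) (nat_lit 31570555257) (nat_lit 84) (nat_lit 37502228761) (nat_lit 33) (nat_lit 1) (nat_lit 31) (nat_lit 1) (nat_lit 32) (nat_lit 1) (nat_lit 284) (nat_lit 417) (nat_lit 379)) (XT.lf (nat_lit 84) (nat_lit 16947933496) (nat_lit 0) (nat_lit 16415219607) (nat_lit 252) (nat_lit 63375829770) (nat_lit 29) (nat_lit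 1) (nat_lit 28) (nat_lit 1) (nat_lit 31) (nat_lit 1) (nat_lit 285) (nat_lit 417) (nat_lit 378))) (XT.nd (nat_lit 94) (nat_lit 168) (nat_lit 0) (XT.lf (nat_lit 168) (nat_lit 33283976404) (nat_lit 0) (nat_lit 34982744946) (nat_lit 84) (nat_lit 25906322130) (nat_lit 29) (nat_lit 1) (nat_lit 27) (nat_lit 1) (nat_lit 28) (nat_lit 1) (nat_lit 286) (nat_lit 417) (nat_lit 377)) (XT.lf (nat_lit 84) (nat_lit 24951277148) (nat_lit 0) (nat_lit 11888837111) (nat_lit 168) (nat_lit 54851730977) (nat_lit 26) (nat_lit 1) (nat_lit 25) (nat_lit 1) (nat_lit 27) (nat_lit 1) (nat_lit 287) (nat_lit 417) (nat_lit 376)))) (XT.nd (nat_lit 188) (nat_lit 336) (nat_lit 0) (XT.nd (nat_lit 94) (nat_lit 168) (nat_lit 0) (XT.lf (nat_lit 168) (nat_lit 34672113822) (nat_lit 0) (nat_lit 38583809251) (nat_lit 84) (nat_lit 16020689866) (nat_lit 26) (nat_lit 1) (nat_lit 24) (nat_lit 1) (nat_lit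 25) (nat_lit 1) (nat_lit 288) (nat_lit 417) (nat_lit 375)) (XT.lf (nat_lit 84) (nat_lit 31561045665) (nat_lit 0) (nat_lit 8869227506) (nat_lit 168) (nat_lit 46505397491) (nat_lit 23) (nat_lit 1) (nat_lit 22) (nat_lit 1) (nat_lit 24) (nat_lit 1) (nat_lit 289) (nat_lit 417) (nat_lit 374))) (XT.nd (nat_lit 94) (nat_lit 252) (nat_lit 0) (XT.lf (nat_lit 168) (nat_lit 34841861103) (nat_lit 0) (nat_lit 42231623596) (nat_lit 84) (nat_lit 7586564011) (nat_lit 23) (nat_lit 1) (nat_lit 21) (nat_lit 1) (nat_lit 22) (nat_lit 1) (nat_lit 290) (nat_lit 417) (nat_lit 373)) (XT.nd (nat_lit 94) (nat_lit 84) (nat_lit 0) (XT.lf (nat_lit 84) (nat_lit 36996277052) (nat_lit 0) (nat_lit 7014619386) (nat_lit 168) (nat_lit 38438073467) (nat_lit 20) (nat_lit 1) (nat_lit 19) (nat_lit 1) (nat_lit 21) (nat_lit 1) (nat_lit 291) (nat_lit 417) (nat_lit 372)) (XT.lf (nat_lit 168) (nat_lit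 34095907595) (nat_lit 0) (nat_lit 45819020445) (nat_lit 84) (nat_lit 388109315) (nat_lit 20) (nat_lit 1) (nat_lit 18) (nat_lit 1) (nat_lit 19) (nat_lit 1) (nat_lit 292) (nat_lit 417) (nat_lit 371)))))) (XT.nd (nat_lit 470) (nat_lit 588) (nat_lit 0) (XT.nd (nat_lit 188) (nat_lit 420) (nat_lit 0) (XT.nd (nat_lit 94) (nat_lit 84) (nat_lit 0) (XT.lf (nat_lit 84) (nat_lit 41439377814) (nat_lit 0) (nat_lit 6050874501) (nat_lit 168) (nat_lit 30722334755) (nat_lit 17) (nat_lit 1) (nat_lit 16) (nat_lit 1) (nat_lit 18) (nat_lit 1) (nat_lit 293) (nat_lit 417) (nat_lit 370)) (XT.lf (nat_lit 0) (nat_lit 5570932068) (nat_lit 0) (nat_lit 43601467767) (nat_lit 168) (nat_lit 27010535428) (nat_lit 15) (nat_lit 3) (nat_lit 15) (nat_lit 1) (nat_lit 17) (nat_lit 1) (nat_lit 294) (nat_lit 417) (nat_lit 369))) (XT.nd (nat_lit 94) (nat_lit 252) (nat_lit 0) (XT.lf (nat_lit 84) (nat_lit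 45042575542) (nat_lit 0) (nat_lit 5758744221) (nat_lit 168) (nat_lit 23408033326) (nat_lit 14) (nat_lit 1) (nat_lit 13) (nat_lit 1) (nat_lit 15) (nat_lit 1) (nat_lit 295) (nat_lit 417) (nat_lit 368)) (XT.nd (nat_lit 94) (nat_lit 168) (nat_lit 0) (XT.lf (nat_lit 0) (nat_lit 10642541240) (nat_lit 0) (nat_lit 41694974203) (nat_lit 168) (nat_lit 19950816414) (nat_lit 12) (nat_lit 3) (nat_lit 12) (nat_lit 1) (nat_lit 14) (nat_lit 1) (nat_lit 296) (nat_lit 417) (nat_lit 367)) (XT.lf (nat_lit 84) (nat_lit 47933205779) (nat_lit 0) (nat_lit 5963485610) (nat_lit 168) (nat_lit 16527107242) (nat_lit 11) (nat_lit 1) (nat_lit 10) (nat_lit 1) (nat_lit 12) (nat_lit 1) (nat_lit 297) (nat_lit 417) (nat_lit 366))))) (XT.nd (nat_lit 188) (nat_lit 336) (nat_lit 0) (XT.nd (nat_lit 94) (nat_lit 168) (nat_lit 0) (XT.lf (nat_lit 0) (nat_lit 14962228587) (nat_lit 0) (nat_lit 40316948819)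 (nat_lit 168) (nat_lit 13325529184) (nat_lit 9) (nat_lit 3) (nat_lit 9) (nat_lit 1) (nat_lit 11) (nat_lit 1) (nat_lit 298) (nat_lit 417) (nat_lit 365)) (XT.lf (nat_lit 84) (nat_lit 50218045886) (nat_lit 0) (nat_lit 6526402827) (nat_lit 168) (nat_lit 10097467012) (nat_lit 8) (nat_lit 1) (nat_lit 7) (nat_lit 1) (nat_lit 9) (nat_lit 1) (nat_lit 299) (nat_lit 417) (nat_lit 364))) (XT.nd (nat_lit 94) (nat_lit 252) (nat_lit 0) (XT.lf (nat_lit 0) (nat_lit 18633770131) (nat_lit 0) (nat_lit 39336232925) (nat_lit 168) (nat_lit 7148611313) (nat_lit 6) (nat_lit 3) (nat_lit 6) (nat_lit 1) (nat_lit 8) (nat_lit 1) (nat_lit 300) (nat_lit 417) (nat_lit 363)) (XT.nd (nat_lit 94) (nat_lit 84) (nat_lit 0) (XT.lf (nat_lit 84) (nat_lit 51986869686) (nat_lit 0) (nat_lit 7337959357) (nat_lit 168) (nat_lit 4126130348) (nat_lit 5) (nat_lit 1) (nat_lit 4) (nat_lit 1) (nat_lit 6) (nat_lit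 1) (nat_lit 301) (nat_lit 417) (nat_lit 362)) (XT.lf (nat_lit 0) (nat_lit 21744935641) (nat_lit 0) (nat_lit 38648769001) (nat_lit 168) (nat_lit 1424098933) (nat_lit 3) (nat_lit 3) (nat_lit 3) (nat_lit 1) (nat_lit 5) (nat_lit 1) (nat_lit 302) (nat_lit 417) (nat_lit 361))))))))
noncomputable def ec232 : XT := (XT.nd (nat_lit 1692) (nat_lit 0) (nat_lit 0) (XT.nd (nat_lit 846) (nat_lit 0) (nat_lit 0) (XT.nd (nat_lit 376) (nat_lit 0) (nat_lit 0) (XT.nd (nat_lit 188) (nat_lit 0) (nat_lit 0) (XT.nd (nat_lit 94) (nat_lit 0) (nat_lit 0) (XT.lf (nat_lit 0) (nat_lit 87382314127) (nat_lit 0) (nat_lit 0) (nat_lit 0) (nat_lit 0) (nat_lit 0) (nat_lit 0) (nat_lit 1) (nat_lit 0) (nat_lit 1) (nat_lit 0) (nat_lit 303) (nat_lit 417) (nat_lit 360)) (XT.lf (nat_lit 0) (nat_lit 87302777696) (nat_lit 0) (nat_lit 0) (nat_lit 0) (nat_lit 0) (nat_lit 0) (nat_lit 0) (nat_lit 1) (nat_lit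 0) (nat_lit 1) (nat_lit 0) (nat_lit 304) (nat_lit 417) (nat_lit 359))) (XT.nd (nat_lit 94) (nat_lit 0) (nat_lit 0) (XT.lf (nat_lit 0) (nat_lit 87229132852) (nat_lit 0) (nat_lit 0) (nat_lit 0) (nat_lit 0) (nat_lit 0) (nat_lit 0) (nat_lit 1) (nat_lit 0) (nat_lit 1) (nat_lit 0) (nat_lit 305) (nat_lit 417) (nat_lit 358)) (XT.lf (nat_lit 0) (nat_lit 87160943182) (nat_lit 0) (nat_lit 0) (nat_lit 0) (nat_lit 0) (nat_lit 0) (nat_lit 0) (nat_lit 1) (nat_lit 0) (nat_lit 1) (nat_lit 0) (nat_lit 306) (nat_lit 417) (nat_lit 357)))) (XT.nd (nat_lit 188) (nat_lit 0) (nat_lit 0) (XT.nd (nat_lit 94) (nat_lit 0) (nat_lit 0) (XT.lf (nat_lit 0) (nat_lit 87097804598) (nat_lit 0) (nat_lit 0) (nat_lit 0) (nat_lit 0) (nat_lit 0) (nat_lit 0) (nat_lit 1) (nat_lit 0) (nat_lit 1) (nat_lit 0) (nat_lit 307) (nat_lit 417) (nat_lit 356)) (XT.lf (nat_lit 0) (nat_lit 87039342947) (nat_lit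 0) (nat_lit 0) (nat_lit 0) (nat_lit 0) (nat_lit 0) (nat_lit 0) (nat_lit 1) (nat_lit 0) (nat_lit 1) (nat_lit 0) (nat_lit 308) (nat_lit 417) (nat_lit 355))) (XT.nd (nat_lit 94) (nat_lit 0) (nat_lit 0) (XT.lf (nat_lit 0) (nat_lit 86985211788) (nat_lit 0) (nat_lit 0) (nat_lit 0) (nat_lit 0) (nat_lit 0) (nat_lit 0) (nat_lit 1) (nat_lit 0) (nat_lit 1) (nat_lit 0) (nat_lit 309) (nat_lit 417) (nat_lit 354)) (XT.nd (nat_lit 94) (nat_lit 0) (nat_lit 0) (XT.lf (nat_lit 0) (nat_lit 86935090344) (nat_lit 0) (nat_lit 0) (nat_lit 0) (nat_lit 0) (nat_lit 0) (nat_lit 0) (nat_lit 1) (nat_lit 0) (nat_lit 1) (nat_lit 0) (nat_lit 310) (nat_lit 417) (nat_lit 353)) (XT.lf (nat_lit 0) (nat_lit 86888681601) (nat_lit 0) (nat_lit 0) (nat_lit 0) (nat_lit 0) (nat_lit 0) (nat_lit 0) (nat_lit 1) (nat_lit 0) (nat_lit 1) (nat_lit 0) (nat_lit 311) (nat_lit 417) (nat_lit 352)))))) (XT.nd (nat_lit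 376) (nat_lit 0) (nat_lit 0) (XT.nd (nat_lit 188) (nat_lit 0) (nat_lit 0) (XT.nd (nat_lit 94) (nat_lit 0) (nat_lit 0) (XT.lf (nat_lit 0) (nat_lit 86845710542) (nat_lit 0) (nat_lit 0) (nat_lit 0) (nat_lit 0) (nat_lit 0) (nat_lit 0) (nat_lit 1) (nat_lit 0) (nat_lit 1) (nat_lit 0) (nat_lit 312) (nat_lit 417) (nat_lit 351)) (XT.lf (nat_lit 0) (nat_lit 86805922524) (nat_lit 0) (nat_lit 0) (nat_lit 0) (nat_lit 0) (nat_lit 0) (nat_lit 0) (nat_lit 1) (nat_lit 0) (nat_lit 1) (nat_lit 0) (nat_lit 313) (nat_lit 417) (nat_lit 350))) (XT.nd (nat_lit 94) (nat_lit 0) (nat_lit 0) (XT.lf (nat_lit 0) (nat_lit 86769081767) (nat_lit 0) (nat_lit 0) (nat_lit 0) (nat_lit 0) (nat_lit 0) (nat_lit 0) (nat_lit 1) (nat_lit 0) (nat_lit 1) (nat_lit 0) (nat_lit 314) (nat_lit 417) (nat_lit 349)) (XT.lf (nat_lit 0) (nat_lit 86734969955) (nat_lit 0) (nat_lit 0) (nat_lit 0) (nat_lit 0) (nat_lit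 0) (nat_lit 0) (nat_lit 1) (nat_lit 0) (nat_lit 1) (nat_lit 0) (nat_lit 315) (nat_lit 417) (nat_lit 348)))) (XT.nd (nat_lit 188) (nat_lit 0) (nat_lit 0) (XT.nd (nat_lit 94) (nat_lit 0) (nat_lit 0) (XT.lf (nat_lit 0) (nat_lit 86703384944) (nat_lit 0) (nat_lit 0) (nat_lit 0) (nat_lit 0) (nat_lit 0) (nat_lit 0) (nat_lit 1) (nat_lit 0) (nat_lit 1) (nat_lit 0) (nat_lit 316) (nat_lit 417) (nat_lit 347)) (XT.lf (nat_lit 0) (nat_lit 86674139563) (nat_lit 0) (nat_lit 0) (nat_lit 0) (nat_lit 0) (nat_lit 0) (nat_lit 0) (nat_lit 1) (nat_lit 0) (nat_lit 1) (nat_lit 0) (nat_lit 317) (nat_lit 417) (nat_lit 346))) (XT.nd (nat_lit 94) (nat_lit 0) (nat_lit 0) (XT.lf (nat_lit 0) (nat_lit 86647060506) (nat_lit 0) (nat_lit 0) (nat_lit 0) (nat_lit 0) (nat_lit 0) (nat_lit 0) (nat_lit 1) (nat_lit 0) (nat_lit 1) (nat_lit 0) (nat_lit 318) (nat_lit 417) (nat_lit 345)) (XT.nd (nat_lit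 94) (nat_lit 0) (nat_lit 0) (XT.lf (nat_lit 0) (nat_lit 86621987306) (nat_lit 0) (nat_lit 0) (nat_lit 0) (nat_lit 0) (nat_lit 0) (nat_lit 0) (nat_lit 1) (nat_lit 0) (nat_lit 1) (nat_lit 0) (nat_lit 319) (nat_lit 417) (nat_lit 344)) (XT.lf (nat_lit 0) (nat_lit 86598771380) (nat_lit 0) (nat_lit 0) (nat_lit 0) (nat_lit 0) (nat_lit 0) (nat_lit 0) (nat_lit 1) (nat_lit 0) (nat_lit 1) (nat_lit 0) (nat_lit 320) (nat_lit 417) (nat_lit 343))))))) (XT.nd (nat_lit 846) (nat_lit 0) (nat_lit 0) (XT.nd (nat_lit 376) (nat_lit 0) (nat_lit 0) (XT.nd (nat_lit 188) (nat_lit 0) (nat_lit 0) (XT.nd (nat_lit 94) (nat_lit 0) (nat_lit 0) (XT.lf (nat_lit 0) (nat_lit 86577275152) (nat_lit 0) (nat_lit 0) (nat_lit 0) (nat_lit 0) (nat_lit 0) (nat_lit 0) (nat_lit 1) (nat_lit 0) (nat_lit 1) (nat_lit 0) (nat_lit 321) (nat_lit 417) (nat_lit 342)) (XT.lf (nat_lit 0) (nat_lit 86557371237) (nat_lit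 0) (nat_lit 0) (nat_lit 0) (nat_lit 0) (nat_lit 0) (nat_lit 0) (nat_lit 1) (nat_lit 0) (nat_lit 1) (nat_lit 0) (nat_lit 322) (nat_lit 417) (nat_lit 341))) (XT.nd (nat_lit 94) (nat_lit 0) (nat_lit 0) (XT.lf (nat_lit 0) (nat_lit 86538941687) (nat_lit 0) (nat_lit 0) (nat_lit 0) (nat_lit 0) (nat_lit 0) (nat_lit 0) (nat_lit 1) (nat_lit 0) (nat_lit 1) (nat_lit 0) (nat_lit 323) (nat_lit 417) (nat_lit 340)) (XT.lf (nat_lit 0) (nat_lit 86521877288) (nat_lit 0) (nat_lit 0) (nat_lit 0) (nat_lit 0) (nat_lit 0) (nat_lit 0) (nat_lit 1) (nat_lit 0) (nat_lit 1) (nat_lit 0) (nat_lit 324) (nat_lit 417) (nat_lit 339)))) (XT.nd (nat_lit 188) (nat_lit 0) (nat_lit 0) (XT.nd (nat_lit 94) (nat_lit 0) (nat_lit 0) (XT.lf (nat_lit 0) (nat_lit 86506076919) (nat_lit 0) (nat_lit 0) (nat_lit 0) (nat_lit 0) (nat_lit 0) (nat_lit 0) (nat_lit 1) (nat_lit 0) (nat_lit 1) (nat_lit 0) (nat_lit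 325) (nat_lit 417) (nat_lit 338)) (XT.lf (nat_lit 0) (nat_lit 86491446947) (nat_lit 0) (nat_lit 0) (nat_lit 0) (nat_lit 0) (nat_lit 0) (nat_lit 0) (nat_lit 1) (nat_lit 0) (nat_lit 1) (nat_lit 0) (nat_lit 326) (nat_lit 417) (nat_lit 337))) (XT.nd (nat_lit 94) (nat_lit 0) (nat_lit 0) (XT.lf (nat_lit 0) (nat_lit 86477900677) (nat_lit 0) (nat_lit 0) (nat_lit 0) (nat_lit 0) (nat_lit 0) (nat_lit 0) (nat_lit 1) (nat_lit 0) (nat_lit 1) (nat_lit 0) (nat_lit 327) (nat_lit 417) (nat_lit 336)) (XT.nd (nat_lit 94) (nat_lit 0) (nat_lit 0) (XT.lf (nat_lit 0) (nat_lit 86465357835) (nat_lit 0) (nat_lit 0) (nat_lit 0) (nat_lit 0) (nat_lit 0) (nat_lit 0) (nat_lit 1) (nat_lit 0) (nat_lit 1) (nat_lit 0) (nat_lit 328) (nat_lit 417) (nat_lit 335)) (XT.lf (nat_lit 0) (nat_lit 86453744092) (nat_lit 0) (nat_lit 0) (nat_lit 0) (nat_lit 0) (nat_lit 0) (nat_lit 0) (nat_lit 1) (nat_lit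 0) (nat_lit 1) (nat_lit 0) (nat_lit 329) (nat_lit 417) (nat_lit 334)))))) (XT.nd (nat_lit 470) (nat_lit 0) (nat_lit 0) (XT.nd (nat_lit 188) (nat_lit 0) (nat_lit 0) (XT.nd (nat_lit 94) (nat_lit 0) (nat_lit 0) (XT.lf (nat_lit 0) (nat_lit 86442990626) (nat_lit 0) (nat_lit 0) (nat_lit 0) (nat_lit 0) (nat_lit 0) (nat_lit 0) (nat_lit 1) (nat_lit 0) (nat_lit 1) (nat_lit 0) (nat_lit 330) (nat_lit 417) (nat_lit 333)) (XT.lf (nat_lit 0) (nat_lit 86433033713) (nat_lit 0) (nat_lit 0) (nat_lit 0) (nat_lit 0) (nat_lit 0) (nat_lit 0) (nat_lit 1) (nat_lit 0) (nat_lit 1) (nat_lit 0) (nat_lit 331) (nat_lit 417) (nat_lit 332))) (XT.nd (nat_lit 94) (nat_lit 0) (nat_lit 0) (XT.lf (nat_lit 0) (nat_lit 86423814349) (nat_lit 0) (nat_lit 0) (nat_lit 0) (nat_lit 0) (nat_lit 0) (nat_lit 0) (nat_lit 1) (nat_lit 0) (nat_lit 1) (nat_lit 0) (nat_lit 332) (nat_lit 417) (nat_lit 331)) (XT.nd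 (nat_lit 94) (nat_lit 0) (nat_lit 0) (XT.lf (nat_lit 0) (nat_lit 86415277902) (nat_lit 0) (nat_lit 0) (nat_lit 0) (nat_lit 0) (nat_lit 0) (nat_lit 0) (nat_lit 1) (nat_lit 0) (nat_lit 1) (nat_lit 0) (nat_lit 333) (nat_lit 417) (nat_lit 330)) (XT.lf (nat_lit 0) (nat_lit 86407373783) (nat_lit 0) (nat_lit 0) (nat_lit 0) (nat_lit 0) (nat_lit 0) (nat_lit 0) (nat_lit 1) (nat_lit 0) (nat_lit 1) (nat_lit 0) (nat_lit 334) (nat_lit 417) (nat_lit 329))))) (XT.nd (nat_lit 188) (nat_lit 0) (nat_lit 0) (XT.nd (nat_lit 94) (nat_lit 0) (nat_lit 0) (XT.lf (nat_lit 0) (nat_lit 86400055155) (nat_lit 0) (nat_lit 0) (nat_lit 0) (nat_lit 0) (nat_lit 0) (nat_lit 0) (nat_lit 1) (nat_lit 0) (nat_lit 1) (nat_lit 0) (nat_lit 335) (nat_lit 417) (nat_lit 328)) (XT.lf (nat_lit 0) (nat_lit 86393278647) (nat_lit 0) (nat_lit 0) (nat_lit 0) (nat_lit 0) (nat_lit 0) (nat_lit 0) (nat_lit 1) (nat_lit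 0) (nat_lit 1) (nat_lit 0) (nat_lit 336) (nat_lit 417) (nat_lit 327))) (XT.nd (nat_lit 94) (nat_lit 0) (nat_lit 0) (XT.lf (nat_lit 0) (nat_lit 86387004103) (nat_lit 0) (nat_lit 0) (nat_lit 0) (nat_lit 0) (nat_lit 0) (nat_lit 0) (nat_lit 1) (nat_lit 0) (nat_lit 1) (nat_lit 0) (nat_lit 337) (nat_lit 417) (nat_lit 326)) (XT.nd (nat_lit 94) (nat_lit 0) (nat_lit 0) (XT.lf (nat_lit 0) (nat_lit 86381194340) (nat_lit 0) (nat_lit 0) (nat_lit 0) (nat_lit 0) (nat_lit 0) (nat_lit 0) (nat_lit 1) (nat_lit 0) (nat_lit 1) (nat_lit 0) (nat_lit 338) (nat_lit 417) (nat_lit 325)) (XT.lf (nat_lit 0) (nat_lit 86375814930) (nat_lit 0) (nat_lit 0) (nat_lit 0) (nat_lit 0) (nat_lit 0) (nat_lit 0) (nat_lit 1) (nat_lit 0) (nat_lit 1) (nat_lit 0) (nat_lit 339) (nat_lit 417) (nat_lit 324))))))))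
noncomputable def ec233 : XT := (XT.nd (nat_lit 1786) (nat_lit 0) (nat_lit 0) (XT.nd (nat_lit 846) (nat_lit 0) (nat_lit 0) (XT.nd (nat_lit 376) (nat_lit 0) (nat_lit 0) (XT.nd (nat_lit 188) (nat_lit 0) (nat_lit 0) (XT.nd (nat_lit 94) (nat_lit 0) (nat_lit 0) (XT.lf (nat_lit 0) (nat_lit 86370833995) (nat_lit 0) (nat_lit 0) (nat_lit 0) (nat_lit 0) (nat_lit 0) (nat_lit 0) (nat_lit 1) (nat_lit 0) (nat_lit 1) (nat_lit 0) (nat_lit 340) (nat_lit 417) (nat_lit 323)) (XT.lf (nat_lit 0) (nat_lit 86366222018) (nat_lit 0) (nat_lit 0) (nat_lit 0) (nat_lit 0) (nat_lit 0) (nat_lit 0) (nat_lit 1) (nat_lit 0) (nat_lit 1) (nat_lit 0) (nat_lit 341) (nat_lit 417) (nat_lit 322))) (XT.nd (nat_lit 94) (nat_lit 0) (nat_lit 0) (XT.lf (nat_lit 0) (nat_lit 86361951669) (nat_lit 0) (nat_lit 0) (nat_lit 0) (nat_lit 0) (nat_lit 0) (nat_lit 0) (nat_lit 1) (nat_lit 0) (nat_lit 1) (nat_lit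 0) (nat_lit 342) (nat_lit 417) (nat_lit 321)) (XT.lf (nat_lit 0) (nat_lit 86357997641) (nat_lit 0) (nat_lit 0) (nat_lit 0) (nat_lit 0) (nat_lit 0) (nat_lit 0) (nat_lit 1) (nat_lit 0) (nat_lit 1) (nat_lit 0) (nat_lit 343) (nat_lit 417) (nat_lit 320)))) (XT.nd (nat_lit 188) (nat_lit 0) (nat_lit 0) (XT.nd (nat_lit 94) (nat_lit 0) (nat_lit 0) (XT.lf (nat_lit 0) (nat_lit 86354336505) (nat_lit 0) (nat_lit 0) (nat_lit 0) (nat_lit 0) (nat_lit 0) (nat_lit 0) (nat_lit 1) (nat_lit 0) (nat_lit 1) (nat_lit 0) (nat_lit 344) (nat_lit 417) (nat_lit 319)) (XT.lf (nat_lit 0) (nat_lit 86350946564) (nat_lit 0) (nat_lit 0) (nat_lit 0) (nat_lit 0) (nat_lit 0) (nat_lit 0) (nat_lit 1) (nat_lit 0) (nat_lit 1) (nat_lit 0) (nat_lit 345) (nat_lit 417) (nat_lit 318))) (XT.nd (nat_lit 94) (nat_lit 0) (nat_lit 0) (XT.lf (nat_lit 0) (nat_lit 86347807730) (nat_lit 0) (nat_lit 0) (nat_lit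 0) (nat_lit 0) (nat_lit 0) (nat_lit 0) (nat_lit 1) (nat_lit 0) (nat_lit 1) (nat_lit 0) (nat_lit 346) (nat_lit 417) (nat_lit 317)) (XT.nd (nat_lit 94) (nat_lit 0) (nat_lit 0) (XT.lf (nat_lit 0) (nat_lit 86344901402) (nat_lit 0) (nat_lit 0) (nat_lit 0) (nat_lit 0) (nat_lit 0) (nat_lit 0) (nat_lit 1) (nat_lit 0) (nat_lit 1) (nat_lit 0) (nat_lit 347) (nat_lit 417) (nat_lit 316)) (XT.lf (nat_lit 0) (nat_lit 86342210358) (nat_lit 0) (nat_lit 0) (nat_lit 0) (nat_lit 0) (nat_lit 0) (nat_lit 0) (nat_lit 1) (nat_lit 0) (nat_lit 1) (nat_lit 0) (nat_lit 348) (nat_lit 417) (nat_lit 315)))))) (XT.nd (nat_lit 470) (nat_lit 0) (nat_lit 0) (XT.nd (nat_lit 188) (nat_lit 0) (nat_lit 0) (XT.nd (nat_lit 94) (nat_lit 0) (nat_lit 0) (XT.lf (nat_lit 0) (nat_lit 86339718650) (nat_lit 0) (nat_lit 0) (nat_lit 0) (nat_lit 0) (nat_lit 0) (nat_lit 0) (nat_lit 1) (nat_lit 0) (nat_lit 1)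 (nat_lit 0) (nat_lit 349) (nat_lit 417) (nat_lit 314)) (XT.lf (nat_lit 0) (nat_lit 86337411513) (nat_lit 0) (nat_lit 0) (nat_lit 0) (nat_lit 0) (nat_lit 0) (nat_lit 0) (nat_lit 1) (nat_lit 0) (nat_lit 1) (nat_lit 0) (nat_lit 350) (nat_lit 417) (nat_lit 313))) (XT.nd (nat_lit 94) (nat_lit 0) (nat_lit 0) (XT.lf (nat_lit 0) (nat_lit 86335275276) (nat_lit 0) (nat_lit 0) (nat_lit 0) (nat_lit 0) (nat_lit 0) (nat_lit 0) (nat_lit 1) (nat_lit 0) (nat_lit 1) (nat_lit 0) (nat_lit 351) (nat_lit 417) (nat_lit 312)) (XT.nd (nat_lit 94) (nat_lit 0) (nat_lit 0) (XT.lf (nat_lit 0) (nat_lit 86333297278) (nat_lit 0) (nat_lit 0) (nat_lit 0) (nat_lit 0) (nat_lit 0) (nat_lit 0) (nat_lit 1) (nat_lit 0) (nat_lit 1) (nat_lit 0) (nat_lit 352) (nat_lit 417) (nat_lit 311)) (XT.lf (nat_lit 0) (nat_lit 86331465798) (nat_lit 0) (nat_lit 0) (nat_lit 0) (nat_lit 0) (nat_lit 0) (nat_lit 0)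 (nat_lit 1) (nat_lit 0) (nat_lit 1) (nat_lit 0) (nat_lit 353) (nat_lit 417) (nat_lit 310))))) (XT.nd (nat_lit 188) (nat_lit 0) (nat_lit 0) (XT.nd (nat_lit 94) (nat_lit 0) (nat_lit 0) (XT.lf (nat_lit 0) (nat_lit 86329769984) (nat_lit 0) (nat_lit 0) (nat_lit 0) (nat_lit 0) (nat_lit 0) (nat_lit 0) (nat_lit 1) (nat_lit 0) (nat_lit 1) (nat_lit 0) (nat_lit 354) (nat_lit 417) (nat_lit 309)) (XT.lf (nat_lit 0) (nat_lit 86328199785) (nat_lit 0) (nat_lit 0) (nat_lit 0) (nat_lit 0) (nat_lit 0) (nat_lit 0) (nat_lit 1) (nat_lit 0) (nat_lit 1) (nat_lit 0) (nat_lit 355) (nat_lit 417) (nat_lit 308))) (XT.nd (nat_lit 94) (nat_lit 0) (nat_lit 0) (XT.lf (nat_lit 0) (nat_lit 86326745898) (nat_lit 0) (nat_lit 0) (nat_lit 0) (nat_lit 0) (nat_lit 0) (nat_lit 0) (nat_lit 1) (nat_lit 0) (nat_lit 1) (nat_lit 0) (nat_lit 356) (nat_lit 417) (nat_lit 307)) (XT.nd (nat_lit 94) (nat_lit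 0) (nat_lit 0) (XT.lf (nat_lit 0) (nat_lit 86325399705) (nat_lit 0) (nat_lit 0) (nat_lit 0) (nat_lit 0) (nat_lit 0) (nat_lit 0) (nat_lit 1) (nat_lit 0) (nat_lit 1) (nat_lit 0) (nat_lit 357) (nat_lit 417) (nat_lit 306)) (XT.lf (nat_lit 0) (nat_lit 86324153231) (nat_lit 0) (nat_lit 0) (nat_lit 0) (nat_lit 0) (nat_lit 0) (nat_lit 0) (nat_lit 1) (nat_lit 0) (nat_lit 1) (nat_lit 0) (nat_lit 358) (nat_lit 417) (nat_lit 305))))))) (XT.nd (nat_lit 846) (nat_lit 0) (nat_lit 0) (XT.nd (nat_lit 376) (nat_lit 0) (nat_lit 0) (XT.nd (nat_lit 188) (nat_lit 0) (nat_lit 0) (XT.nd (nat_lit 94) (nat_lit 0) (nat_lit 0) (XT.lf (nat_lit 0) (nat_lit 86322999088) (nat_lit 0) (nat_lit 0) (nat_lit 0) (nat_lit 0) (nat_lit 0) (nat_lit 0) (nat_lit 1) (nat_lit 0) (nat_lit 1) (nat_lit 0) (nat_lit 359) (nat_lit 417) (nat_lit 304)) (XT.lf (nat_lit 0) (nat_lit 86321930438) (nat_lit 0) (nat_lit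 0) (nat_lit 0) (nat_lit 0) (nat_lit 0) (nat_lit 0) (nat_lit 1) (nat_lit 0) (nat_lit 1) (nat_lit 0) (nat_lit 360) (nat_lit 417) (nat_lit 303))) (XT.nd (nat_lit 94) (nat_lit 0) (nat_lit 0) (XT.lf (nat_lit 0) (nat_lit 86320940946) (nat_lit 0) (nat_lit 0) (nat_lit 0) (nat_lit 0) (nat_lit 0) (nat_lit 0) (nat_lit 1) (nat_lit 0) (nat_lit 1) (nat_lit 0) (nat_lit 361) (nat_lit 417) (nat_lit 302)) (XT.lf (nat_lit 0) (nat_lit 86320024750) (nat_lit 0) (nat_lit 0) (nat_lit 0) (nat_lit 0) (nat_lit 0) (nat_lit 0) (nat_lit 1) (nat_lit 0) (nat_lit 1) (nat_lit 0) (nat_lit 362) (nat_lit 417) (nat_lit 301)))) (XT.nd (nat_lit 188) (nat_lit 0) (nat_lit 0) (XT.nd (nat_lit 94) (nat_lit 0) (nat_lit 0) (XT.lf (nat_lit 0) (nat_lit 86319176421) (nat_lit 0) (nat_lit 0) (nat_lit 0) (nat_lit 0) (nat_lit 0) (nat_lit 0) (nat_lit 1) (nat_lit 0) (nat_lit 1) (nat_lit 0) (nat_lit 363) (nat_lit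 417) (nat_lit 300)) (XT.lf (nat_lit 0) (nat_lit 86318390931) (nat_lit 0) (nat_lit 0) (nat_lit 0) (nat_lit 0) (nat_lit 0) (nat_lit 0) (nat_lit 1) (nat_lit 0) (nat_lit 1) (nat_lit 0) (nat_lit 364) (nat_lit 417) (nat_lit 299))) (XT.nd (nat_lit 94) (nat_lit 0) (nat_lit 0) (XT.lf (nat_lit 0) (nat_lit 86317663625) (nat_lit 0) (nat_lit 0) (nat_lit 0) (nat_lit 0) (nat_lit 0) (nat_lit 0) (nat_lit 1) (nat_lit 0) (nat_lit 1) (nat_lit 0) (nat_lit 365) (nat_lit 417) (nat_lit 298)) (XT.nd (nat_lit 94) (nat_lit 0) (nat_lit 0) (XT.lf (nat_lit 0) (nat_lit 86316990194) (nat_lit 0) (nat_lit 0) (nat_lit 0) (nat_lit 0) (nat_lit 0) (nat_lit 0) (nat_lit 1) (nat_lit 0) (nat_lit 1) (nat_lit 0) (nat_lit 366) (nat_lit 417) (nat_lit 297)) (XT.lf (nat_lit 0) (nat_lit 86316366646) (nat_lit 0) (nat_lit 0) (nat_lit 0) (nat_lit 0) (nat_lit 0) (nat_lit 0) (nat_lit 1) (nat_lit 0) (nat_lit 1)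 (nat_lit 0) (nat_lit 367) (nat_lit 417) (nat_lit 296)))))) (XT.nd (nat_lit 470) (nat_lit 0) (nat_lit 0) (XT.nd (nat_lit 188) (nat_lit 0) (nat_lit 0) (XT.nd (nat_lit 94) (nat_lit 0) (nat_lit 0) (XT.lf (nat_lit 0) (nat_lit 86315789288) (nat_lit 0) (nat_lit 0) (nat_lit 0) (nat_lit 0) (nat_lit 0) (nat_lit 0) (nat_lit 1) (nat_lit 0) (nat_lit 1) (nat_lit 0) (nat_lit 368) (nat_lit 417) (nat_lit 295)) (XT.lf (nat_lit 0) (nat_lit 86315254696) (nat_lit 0) (nat_lit 0) (nat_lit 0) (nat_lit 0) (nat_lit 0) (nat_lit 0) (nat_lit 1) (nat_lit 0) (nat_lit 1) (nat_lit 0) (nat_lit 369) (nat_lit 417) (nat_lit 294))) (XT.nd (nat_lit 94) (nat_lit 0) (nat_lit 0) (XT.lf (nat_lit 0) (nat_lit 86314759704) (nat_lit 0) (nat_lit 0) (nat_lit 0) (nat_lit 0) (nat_lit 0) (nat_lit 0) (nat_lit 1) (nat_lit 0) (nat_lit 1) (nat_lit 0) (nat_lit 370) (nat_lit 417) (nat_lit 293)) (XT.nd (nat_lit 94)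 (nat_lit 0) (nat_lit 0) (XT.lf (nat_lit 0) (nat_lit 86314301378) (nat_lit 0) (nat_lit 0) (nat_lit 0) (nat_lit 0) (nat_lit 0) (nat_lit 0) (nat_lit 1) (nat_lit 0) (nat_lit 1) (nat_lit 0) (nat_lit 371) (nat_lit 417) (nat_lit 292)) (XT.lf (nat_lit 0) (nat_lit 86313877002) (nat_lit 0) (nat_lit 0) (nat_lit 0) (nat_lit 0) (nat_lit 0) (nat_lit 0) (nat_lit 1) (nat_lit 0) (nat_lit 1) (nat_lit 0) (nat_lit 372) (nat_lit 417) (nat_lit 291))))) (XT.nd (nat_lit 188) (nat_lit 0) (nat_lit 0) (XT.nd (nat_lit 94) (nat_lit 0) (nat_lit 0) (XT.lf (nat_lit 0) (nat_lit 86313484061) (nat_lit 0) (nat_lit 0) (nat_lit 0) (nat_lit 0) (nat_lit 0) (nat_lit 0) (nat_lit 1) (nat_lit 0) (nat_lit 1) (nat_lit 0) (nat_lit 373) (nat_lit 417) (nat_lit 290)) (XT.lf (nat_lit 0) (nat_lit 86313120228) (nat_lit 0) (nat_lit 0) (nat_lit 0) (nat_lit 0) (nat_lit 0) (nat_lit 0) (nat_lit 1) (nat_lit 0) (nat_lit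 1) (nat_lit 0) (nat_lit 374) (nat_lit 417) (nat_lit 289))) (XT.nd (nat_lit 94) (nat_lit 0) (nat_lit 0) (XT.lf (nat_lit 0) (nat_lit 86312783344) (nat_lit 0) (nat_lit 0) (nat_lit 0) (nat_lit 0) (nat_lit 0) (nat_lit 0) (nat_lit 1) (nat_lit 0) (nat_lit 1) (nat_lit 0) (nat_lit 375) (nat_lit 417) (nat_lit 288)) (XT.nd (nat_lit 94) (nat_lit 0) (nat_lit 0) (XT.lf (nat_lit 0) (nat_lit 86312471415) (nat_lit 0) (nat_lit 0) (nat_lit 0) (nat_lit 0) (nat_lit 0) (nat_lit 0) (nat_lit 1) (nat_lit 0) (nat_lit 1) (nat_lit 0) (nat_lit 376) (nat_lit 417) (nat_lit 287)) (XT.lf (nat_lit 0) (nat_lit 86312182592) (nat_lit 0) (nat_lit 0) (nat_lit 0) (nat_lit 0) (nat_lit 0) (nat_lit 0) (nat_lit 1) (nat_lit 0) (nat_lit 1) (nat_lit 0) (nat_lit 377) (nat_lit 417) (nat_lit 286))))))))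
noncomputable def ec234 : XT := (XT.nd (nat_lit 1692) (nat_lit 0) (nat_lit 0) (XT.nd (nat_lit 846) (nat_lit 0) (nat_lit 0) (XT.nd (nat_lit 376) (nat_lit 0) (nat_lit 0) (XT.nd (nat_lit 188) (nat_lit 0) (nat_lit 0) (XT.nd (nat_lit 94) (nat_lit 0) (nat_lit 0) (XT.lf (nat_lit 0) (nat_lit 86311915163) (nat_lit 0) (nat_lit 0) (nat_lit 0) (nat_lit 0) (nat_lit 0) (nat_lit 0) (nat_lit 1) (nat_lit 0) (nat_lit 1) (nat_lit 0) (nat_lit 378) (nat_lit 417) (nat_lit 285)) (XT.lf (nat_lit 0) (nat_lit 86311667544) (nat_lit 0) (nat_lit 0) (nat_lit 0) (nat_lit 0) (nat_lit 0) (nat_lit 0) (nat_lit 1) (nat_lit 0) (nat_lit 1) (nat_lit 0) (nat_lit 379) (nat_lit 417) (nat_lit 284))) (XT.nd (nat_lit 94) (nat_lit 0) (nat_lit 0) (XT.lf (nat_lit 0) (nat_lit 86311438267) (nat_lit 0) (nat_lit 0) (nat_lit 0) (nat_lit 0) (nat_lit 0) (nat_lit 0) (nat_lit 1) (nat_lit 0) (nat_lit 1) (nat_lit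 0) (nat_lit 380) (nat_lit 417) (nat_lit 283)) (XT.lf (nat_lit 0) (nat_lit 86311225973) (nat_lit 0) (nat_lit 0) (nat_lit 0) (nat_lit 0) (nat_lit 0) (nat_lit 0) (nat_lit 1) (nat_lit 0) (nat_lit 1) (nat_lit 0) (nat_lit 381) (nat_lit 417) (nat_lit 282)))) (XT.nd (nat_lit 188) (nat_lit 0) (nat_lit 0) (XT.nd (nat_lit 94) (nat_lit 0) (nat_lit 0) (XT.lf (nat_lit 0) (nat_lit 86311029405) (nat_lit 0) (nat_lit 0) (nat_lit 0) (nat_lit 0) (nat_lit 0) (nat_lit 0) (nat_lit 1) (nat_lit 0) (nat_lit 1) (nat_lit 0) (nat_lit 382) (nat_lit 417) (nat_lit 281)) (XT.lf (nat_lit 0) (nat_lit 86310847398) (nat_lit 0) (nat_lit 0) (nat_lit 0) (nat_lit 0) (nat_lit 0) (nat_lit 0) (nat_lit 1) (nat_lit 0) (nat_lit 1) (nat_lit 0) (nat_lit 383) (nat_lit 417) (nat_lit 280))) (XT.nd (nat_lit 94) (nat_lit 0) (nat_lit 0) (XT.lf (nat_lit 0) (nat_lit 86310678872) (nat_lit 0) (nat_lit 0) (nat_lit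 0) (nat_lit 0) (nat_lit 0) (nat_lit 0) (nat_lit 1) (nat_lit 0) (nat_lit 1) (nat_lit 0) (nat_lit 384) (nat_lit 417) (nat_lit 279)) (XT.nd (nat_lit 94) (nat_lit 0) (nat_lit 0) (XT.lf (nat_lit 0) (nat_lit 86310522830) (nat_lit 0) (nat_lit 0) (nat_lit 0) (nat_lit 0) (nat_lit 0) (nat_lit 0) (nat_lit 1) (nat_lit 0) (nat_lit 1) (nat_lit 0) (nat_lit 385) (nat_lit 417) (nat_lit 278)) (XT.lf (nat_lit 0) (nat_lit 86310378347) (nat_lit 0) (nat_lit 0) (nat_lit 0) (nat_lit 0) (nat_lit 0) (nat_lit 0) (nat_lit 1) (nat_lit 0) (nat_lit 1) (nat_lit 0) (nat_lit 386) (nat_lit 417) (nat_lit 277)))))) (XT.nd (nat_lit 376) (nat_lit 0) (nat_lit 0) (XT.nd (nat_lit 188) (nat_lit 0) (nat_lit 0) (XT.nd (nat_lit 94) (nat_lit 0) (nat_lit 0) (XT.lf (nat_lit 0) (nat_lit 86310244566) (nat_lit 0) (nat_lit 0) (nat_lit 0) (nat_lit 0) (nat_lit 0) (nat_lit 0) (nat_lit 1) (nat_lit 0) (nat_lit 1)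 (nat_lit 0) (nat_lit 387) (nat_lit 417) (nat_lit 276)) (XT.lf (nat_lit 0) (nat_lit 86310120694) (nat_lit 0) (nat_lit 0) (nat_lit 0) (nat_lit 0) (nat_lit 0) (nat_lit 0) (nat_lit 1) (nat_lit 0) (nat_lit 1) (nat_lit 0) (nat_lit 388) (nat_lit 417) (nat_lit 275))) (XT.nd (nat_lit 94) (nat_lit 0) (nat_lit 0) (XT.lf (nat_lit 0) (nat_lit 86310005999) (nat_lit 0) (nat_lit 0) (nat_lit 0) (nat_lit 0) (nat_lit 0) (nat_lit 0) (nat_lit 1) (nat_lit 0) (nat_lit 1) (nat_lit 0) (nat_lit 389) (nat_lit 417) (nat_lit 274)) (XT.lf (nat_lit 0) (nat_lit 86309899799) (nat_lit 0) (nat_lit 0) (nat_lit 0) (nat_lit 0) (nat_lit 0) (nat_lit 0) (nat_lit 1) (nat_lit 0) (nat_lit 1) (nat_lit 0) (nat_lit 390) (nat_lit 417) (nat_lit 273)))) (XT.nd (nat_lit 188) (nat_lit 0) (nat_lit 0) (XT.nd (nat_lit 94) (nat_lit 0) (nat_lit 0) (XT.lf (nat_lit 0) (nat_lit 86309801466) (nat_lit 0) (nat_lit 0)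 (nat_lit 0) (nat_lit 0) (nat_lit 0) (nat_lit 0) (nat_lit 1) (nat_lit 0) (nat_lit 1) (nat_lit 0) (nat_lit 391) (nat_lit 417) (nat_lit 272)) (XT.lf (nat_lit 0) (nat_lit 86309710417) (nat_lit 0) (nat_lit 0) (nat_lit 0) (nat_lit 0) (nat_lit 0) (nat_lit 0) (nat_lit 1) (nat_lit 0) (nat_lit 1) (nat_lit 0) (nat_lit 392) (nat_lit 417) (nat_lit 271))) (XT.nd (nat_lit 94) (nat_lit 0) (nat_lit 0) (XT.lf (nat_lit 0) (nat_lit 86309626112) (nat_lit 0) (nat_lit 0) (nat_lit 0) (nat_lit 0) (nat_lit 0) (nat_lit 0) (nat_lit 1) (nat_lit 0) (nat_lit 1) (nat_lit 0) (nat_lit 393) (nat_lit 417) (nat_lit 270)) (XT.nd (nat_lit 94) (nat_lit 0) (nat_lit 0) (XT.lf (nat_lit 0) (nat_lit 86309548052) (nat_lit 0) (nat_lit 0) (nat_lit 0) (nat_lit 0) (nat_lit 0) (nat_lit 0) (nat_lit 1) (nat_lit 0) (nat_lit 1) (nat_lit 0) (nat_lit 394) (nat_lit 417) (nat_lit 269)) (XT.lf (nat_lit 0) (nat_lit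 86309475775) (nat_lit 0) (nat_lit 0) (nat_lit 0) (nat_lit 0) (nat_lit 0) (nat_lit 0) (nat_lit 1) (nat_lit 0) (nat_lit 1) (nat_lit 0) (nat_lit 395) (nat_lit 417) (nat_lit 268))))))) (XT.nd (nat_lit 846) (nat_lit 0) (nat_lit 0) (XT.nd (nat_lit 376) (nat_lit 0) (nat_lit 0) (XT.nd (nat_lit 188) (nat_lit 0) (nat_lit 0) (XT.nd (nat_lit 94) (nat_lit 0) (nat_lit 0) (XT.lf (nat_lit 0) (nat_lit 86309408851) (nat_lit 0) (nat_lit 0) (nat_lit 0) (nat_lit 0) (nat_lit 0) (nat_lit 0) (nat_lit 1) (nat_lit 0) (nat_lit 1) (nat_lit 0) (nat_lit 396) (nat_lit 417) (nat_lit 267)) (XT.lf (nat_lit 0) (nat_lit 86309346884) (nat_lit 0) (nat_lit 0) (nat_lit 0) (nat_lit 0) (nat_lit 0) (nat_lit 0) (nat_lit 1) (nat_lit 0) (nat_lit 1) (nat_lit 0) (nat_lit 397) (nat_lit 417) (nat_lit 266))) (XT.nd (nat_lit 94) (nat_lit 0) (nat_lit 0) (XT.lf (nat_lit 0) (nat_lit 86309289508) (nat_lit 0) (nat_lit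 0) (nat_lit 0) (nat_lit 0) (nat_lit 0) (nat_lit 0) (nat_lit 1) (nat_lit 0) (nat_lit 1) (nat_lit 0) (nat_lit 398) (nat_lit 417) (nat_lit 265)) (XT.lf (nat_lit 0) (nat_lit 86309236382) (nat_lit 0) (nat_lit 0) (nat_lit 0) (nat_lit 0) (nat_lit 0) (nat_lit 0) (nat_lit 1) (nat_lit 0) (nat_lit 1) (nat_lit 0) (nat_lit 399) (nat_lit 417) (nat_lit 264)))) (XT.nd (nat_lit 188) (nat_lit 0) (nat_lit 0) (XT.nd (nat_lit 94) (nat_lit 0) (nat_lit 0) (XT.lf (nat_lit 0) (nat_lit 86309187191) (nat_lit 0) (nat_lit 0) (nat_lit 0) (nat_lit 0) (nat_lit 0) (nat_lit 0) (nat_lit 1) (nat_lit 0) (nat_lit 1) (nat_lit 0) (nat_lit 400) (nat_lit 417) (nat_lit 263)) (XT.lf (nat_lit 0) (nat_lit 86309141643) (nat_lit 0) (nat_lit 0) (nat_lit 0) (nat_lit 0) (nat_lit 0) (nat_lit 0) (nat_lit 1) (nat_lit 0) (nat_lit 1) (nat_lit 0) (nat_lit 401) (nat_lit 417) (nat_lit 262))) (XT.nd (nat_lit 94) (nat_lit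 0) (nat_lit 0) (XT.lf (nat_lit 0) (nat_lit 86309099470) (nat_lit 0) (nat_lit 0) (nat_lit 0) (nat_lit 0) (nat_lit 0) (nat_lit 0) (nat_lit 1) (nat_lit 0) (nat_lit 1) (nat_lit 0) (nat_lit 402) (nat_lit 417) (nat_lit 261)) (XT.nd (nat_lit 94) (nat_lit 0) (nat_lit 0) (XT.lf (nat_lit 0) (nat_lit 86309060421) (nat_lit 0) (nat_lit 0) (nat_lit 0) (nat_lit 0) (nat_lit 0) (nat_lit 0) (nat_lit 1) (nat_lit 0) (nat_lit 1) (nat_lit 0) (nat_lit 403) (nat_lit 417) (nat_lit 260)) (XT.lf (nat_lit 0) (nat_lit 86309024264) (nat_lit 0) (nat_lit 0) (nat_lit 0) (nat_lit 0) (nat_lit 0) (nat_lit 0) (nat_lit 1) (nat_lit 0) (nat_lit 1) (nat_lit 0) (nat_lit 404) (nat_lit 417) (nat_lit 259)))))) (XT.nd (nat_lit 470) (nat_lit 0) (nat_lit 0) (XT.nd (nat_lit 188) (nat_lit 0) (nat_lit 0) (XT.nd (nat_lit 94) (nat_lit 0) (nat_lit 0) (XT.lf (nat_lit 0) (nat_lit 86308990785) (nat_lit 0) (nat_lit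 0) (nat_lit 0) (nat_lit 0) (nat_lit 0) (nat_lit 0) (nat_lit 1) (nat_lit 0) (nat_lit 1) (nat_lit 0) (nat_lit 405) (nat_lit 417) (nat_lit 258)) (XT.lf (nat_lit 0) (nat_lit 86308959787) (nat_lit 0) (nat_lit 0) (nat_lit 0) (nat_lit 0) (nat_lit 0) (nat_lit 0) (nat_lit 1) (nat_lit 0) (nat_lit 1) (nat_lit 0) (nat_lit 406) (nat_lit 417) (nat_lit 257))) (XT.nd (nat_lit 94) (nat_lit 0) (nat_lit 0) (XT.lf (nat_lit 0) (nat_lit 86308931084) (nat_lit 0) (nat_lit 0) (nat_lit 0) (nat_lit 0) (nat_lit 0) (nat_lit 0) (nat_lit 1) (nat_lit 0) (nat_lit 1) (nat_lit 0) (nat_lit 407) (nat_lit 417) (nat_lit 256)) (XT.nd (nat_lit 94) (nat_lit 0) (nat_lit 0) (XT.lf (nat_lit 0) (nat_lit 86308904508) (nat_lit 0) (nat_lit 0) (nat_lit 0) (nat_lit 0) (nat_lit 0) (nat_lit 0) (nat_lit 1) (nat_lit 0) (nat_lit 1) (nat_lit 0) (nat_lit 408) (nat_lit 417) (nat_lit 255)) (XT.lf (nat_lit 0) (nat_lit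 86308879900) (nat_lit 0) (nat_lit 0) (nat_lit 0) (nat_lit 0) (nat_lit 0) (nat_lit 0) (nat_lit 1) (nat_lit 0) (nat_lit 1) (nat_lit 0) (nat_lit 409) (nat_lit 417) (nat_lit 254))))) (XT.nd (nat_lit 188) (nat_lit 0) (nat_lit 0) (XT.nd (nat_lit 94) (nat_lit 0) (nat_lit 0) (XT.lf (nat_lit 0) (nat_lit 86308857115) (nat_lit 0) (nat_lit 0) (nat_lit 0) (nat_lit 0) (nat_lit 0) (nat_lit 0) (nat_lit 1) (nat_lit 0) (nat_lit 1) (nat_lit 0) (nat_lit 410) (nat_lit 417) (nat_lit 253)) (XT.lf (nat_lit 0) (nat_lit 86308836018) (nat_lit 0) (nat_lit 0) (nat_lit 0) (nat_lit 0) (nat_lit 0) (nat_lit 0) (nat_lit 1) (nat_lit 0) (nat_lit 1) (nat_lit 0) (nat_lit 411) (nat_lit 417) (nat_lit 252))) (XT.nd (nat_lit 94) (nat_lit 0) (nat_lit 0) (XT.lf (nat_lit 0) (nat_lit 86308816483) (nat_lit 0) (nat_lit 0) (nat_lit 0) (nat_lit 0) (nat_lit 0) (nat_lit 0) (nat_lit 1) (nat_lit 0) (nat_lit 1)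 (nat_lit 0) (nat_lit 412) (nat_lit 417) (nat_lit 251)) (XT.nd (nat_lit 94) (nat_lit 0) (nat_lit 0) (XT.lf (nat_lit 0) (nat_lit 86308798396) (nat_lit 0) (nat_lit 0) (nat_lit 0) (nat_lit 0) (nat_lit 0) (nat_lit 0) (nat_lit 1) (nat_lit 0) (nat_lit 1) (nat_lit 0) (nat_lit 413) (nat_lit 417) (nat_lit 250)) (XT.lf (nat_lit 0) (nat_lit 86308781648) (nat_lit 0) (nat_lit 0) (nat_lit 0) (nat_lit 0) (nat_lit 0) (nat_lit 0) (nat_lit 1) (nat_lit 0) (nat_lit 1) (nat_lit 0) (nat_lit 414) (nat_lit 417) (nat_lit 249))))))))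
noncomputable def ec235 : XT := (XT.nd (nat_lit 1786) (nat_lit 0) (nat_lit 0) (XT.nd (nat_lit 846) (nat_lit 0) (nat_lit 0) (XT.nd (nat_lit 376) (nat_lit 0) (nat_lit 0) (XT.nd (nat_lit 188) (nat_lit 0) (nat_lit 0) (XT.nd (nat_lit 94) (nat_lit 0) (nat_lit 0) (XT.lf (nat_lit 0) (nat_lit 86308766141) (nat_lit 0) (nat_lit 0) (nat_lit 0) (nat_lit 0) (nat_lit 0) (nat_lit 0) (nat_lit 1) (nat_lit 0) (nat_lit 1) (nat_lit 0) (nat_lit 415) (nat_lit 417) (nat_lit 248)) (XT.lf (nat_lit 0) (nat_lit 86308751783) (nat_lit 0) (nat_lit 0) (nat_lit 0) (nat_lit 0) (nat_lit 0) (nat_lit 0) (nat_lit 1) (nat_lit 0) (nat_lit 1) (nat_lit 0) (nat_lit 416) (nat_lit 417) (nat_lit 247))) (XT.nd (nat_lit 94) (nat_lit 0) (nat_lit 0) (XT.lf (nat_lit 0) (nat_lit 86308738488) (nat_lit 0) (nat_lit 0) (nat_lit 0) (nat_lit 0) (nat_lit 0) (nat_lit 0) (nat_lit 1) (nat_lit 0) (nat_lit 1) (nat_lit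 0) (nat_lit 417) (nat_lit 417) (nat_lit 246)) (XT.lf (nat_lit 0) (nat_lit 86308726178) (nat_lit 0) (nat_lit 0) (nat_lit 0) (nat_lit 0) (nat_lit 0) (nat_lit 0) (nat_lit 1) (nat_lit 0) (nat_lit 1) (nat_lit 0) (nat_lit 418) (nat_lit 417) (nat_lit 245)))) (XT.nd (nat_lit 188) (nat_lit 0) (nat_lit 0) (XT.nd (nat_lit 94) (nat_lit 0) (nat_lit 0) (XT.lf (nat_lit 0) (nat_lit 86308714780) (nat_lit 0) (nat_lit 0) (nat_lit 0) (nat_lit 0) (nat_lit 0) (nat_lit 0) (nat_lit 1) (nat_lit 0) (nat_lit 1) (nat_lit 0) (nat_lit 419) (nat_lit 417) (nat_lit 244)) (XT.lf (nat_lit 0) (nat_lit 86308704226) (nat_lit 0) (nat_lit 0) (nat_lit 0) (nat_lit 0) (nat_lit 0) (nat_lit 0) (nat_lit 1) (nat_lit 0) (nat_lit 1) (nat_lit 0) (nat_lit 420) (nat_lit 417) (nat_lit 243))) (XT.nd (nat_lit 94) (nat_lit 0) (nat_lit 0) (XT.lf (nat_lit 0) (nat_lit 86308694454) (nat_lit 0) (nat_lit 0) (nat_lit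 0) (nat_lit 0) (nat_lit 0) (nat_lit 0) (nat_lit 1) (nat_lit 0) (nat_lit 1) (nat_lit 0) (nat_lit 421) (nat_lit 417) (nat_lit 242)) (XT.nd (nat_lit 94) (nat_lit 0) (nat_lit 0) (XT.lf (nat_lit 0) (nat_lit 86308685406) (nat_lit 0) (nat_lit 0) (nat_lit 0) (nat_lit 0) (nat_lit 0) (nat_lit 0) (nat_lit 1) (nat_lit 0) (nat_lit 1) (nat_lit 0) (nat_lit 422) (nat_lit 417) (nat_lit 241)) (XT.lf (nat_lit 0) (nat_lit 86308677028) (nat_lit 0) (nat_lit 0) (nat_lit 0) (nat_lit 0) (nat_lit 0) (nat_lit 0) (nat_lit 1) (nat_lit 0) (nat_lit 1) (nat_lit 0) (nat_lit 423) (nat_lit 417) (nat_lit 240)))))) (XT.nd (nat_lit 470) (nat_lit 0) (nat_lit 0) (XT.nd (nat_lit 188) (nat_lit 0) (nat_lit 0) (XT.nd (nat_lit 94) (nat_lit 0) (nat_lit 0) (XT.lf (nat_lit 0) (nat_lit 86308669271) (nat_lit 0) (nat_lit 0) (nat_lit 0) (nat_lit 0) (nat_lit 0) (nat_lit 0) (nat_lit 1) (nat_lit 0) (nat_lit 1)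 (nat_lit 0) (nat_lit 424) (nat_lit 417) (nat_lit 239)) (XT.lf (nat_lit 0) (nat_lit 86308662088) (nat_lit 0) (nat_lit 0) (nat_lit 0) (nat_lit 0) (nat_lit 0) (nat_lit 0) (nat_lit 1) (nat_lit 0) (nat_lit 1) (nat_lit 0) (nat_lit 425) (nat_lit 417) (nat_lit 238))) (XT.nd (nat_lit 94) (nat_lit 0) (nat_lit 0) (XT.lf (nat_lit 0) (nat_lit 86308655437) (nat_lit 0) (nat_lit 0) (nat_lit 0) (nat_lit 0) (nat_lit 0) (nat_lit 0) (nat_lit 1) (nat_lit 0) (nat_lit 1) (nat_lit 0) (nat_lit 426) (nat_lit 417) (nat_lit 237)) (XT.nd (nat_lit 94) (nat_lit 0) (nat_lit 0) (XT.lf (nat_lit 0) (nat_lit 86308649279) (nat_lit 0) (nat_lit 0) (nat_lit 0) (nat_lit 0) (nat_lit 0) (nat_lit 0) (nat_lit 1) (nat_lit 0) (nat_lit 1) (nat_lit 0) (nat_lit 427) (nat_lit 417) (nat_lit 236)) (XT.lf (nat_lit 0) (nat_lit 86308643577) (nat_lit 0) (nat_lit 0) (nat_lit 0) (nat_lit 0) (nat_lit 0) (nat_lit 0)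 (nat_lit 1) (nat_lit 0) (nat_lit 1) (nat_lit 0) (nat_lit 428) (nat_lit 417) (nat_lit 235))))) (XT.nd (nat_lit 188) (nat_lit 0) (nat_lit 0) (XT.nd (nat_lit 94) (nat_lit 0) (nat_lit 0) (XT.lf (nat_lit 0) (nat_lit 86308638298) (nat_lit 0) (nat_lit 0) (nat_lit 0) (nat_lit 0) (nat_lit 0) (nat_lit 0) (nat_lit 1) (nat_lit 0) (nat_lit 1) (nat_lit 0) (nat_lit 429) (nat_lit 417) (nat_lit 234)) (XT.lf (nat_lit 0) (nat_lit 86308633409) (nat_lit 0) (nat_lit 0) (nat_lit 0) (nat_lit 0) (nat_lit 0) (nat_lit 0) (nat_lit 1) (nat_lit 0) (nat_lit 1) (nat_lit 0) (nat_lit 430) (nat_lit 417) (nat_lit 233))) (XT.nd (nat_lit 94) (nat_lit 0) (nat_lit 0) (XT.lf (nat_lit 0) (nat_lit 86308628883) (nat_lit 0) (nat_lit 0) (nat_lit 0) (nat_lit 0) (nat_lit 0) (nat_lit 0) (nat_lit 1) (nat_lit 0) (nat_lit 1) (nat_lit 0) (nat_lit 431) (nat_lit 417) (nat_lit 232)) (XT.nd (nat_lit 94) (nat_lit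 0) (nat_lit 0) (XT.lf (nat_lit 0) (nat_lit 86308624692) (nat_lit 0) (nat_lit 0) (nat_lit 0) (nat_lit 0) (nat_lit 0) (nat_lit 0) (nat_lit 1) (nat_lit 0) (nat_lit 1) (nat_lit 0) (nat_lit 432) (nat_lit 417) (nat_lit 231)) (XT.lf (nat_lit 0) (nat_lit 86308620811) (nat_lit 0) (nat_lit 0) (nat_lit 0) (nat_lit 0) (nat_lit 0) (nat_lit 0) (nat_lit 1) (nat_lit 0) (nat_lit 1) (nat_lit 0) (nat_lit 433) (nat_lit 417) (nat_lit 230))))))) (XT.nd (nat_lit 49914) (nat_lit 0) (nat_lit 9324) (XT.nd (nat_lit 376) (nat_lit 0) (nat_lit 0) (XT.nd (nat_lit 188) (nat_lit 0) (nat_lit 0) (XT.nd (nat_lit 94) (nat_lit 0) (nat_lit 0) (XT.lf (nat_lit 0) (nat_lit 86308617218) (nat_lit 0) (nat_lit 0) (nat_lit 0) (nat_lit 0) (nat_lit 0) (nat_lit 0) (nat_lit 1) (nat_lit 0) (nat_lit 1) (nat_lit 0) (nat_lit 434) (nat_lit 417) (nat_lit 229)) (XT.lf (nat_lit 0) (nat_lit 86308613891) (nat_lit 0)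 (nat_lit 0) (nat_lit 0) (nat_lit 0) (nat_lit 0) (nat_lit 0) (nat_lit 1) (nat_lit 0) (nat_lit 1) (nat_lit 0) (nat_lit 435) (nat_lit 417) (nat_lit 228))) (XT.nd (nat_lit 94) (nat_lit 0) (nat_lit 0) (XT.lf (nat_lit 0) (nat_lit 86308610810) (nat_lit 0) (nat_lit 0) (nat_lit 0) (nat_lit 0) (nat_lit 0) (nat_lit 0) (nat_lit 1) (nat_lit 0) (nat_lit 1) (nat_lit 0) (nat_lit 436) (nat_lit 417) (nat_lit 227)) (XT.lf (nat_lit 0) (nat_lit 86308607958) (nat_lit 0) (nat_lit 0) (nat_lit 0) (nat_lit 0) (nat_lit 0) (nat_lit 0) (nat_lit 1) (nat_lit 0) (nat_lit 1) (nat_lit 0) (nat_lit 437) (nat_lit 417) (nat_lit 226)))) (XT.nd (nat_lit 188) (nat_lit 0) (nat_lit 0) (XT.nd (nat_lit 94) (nat_lit 0) (nat_lit 0) (XT.lf (nat_lit 0) (nat_lit 86308605317) (nat_lit 0) (nat_lit 0) (nat_lit 0) (nat_lit 0) (nat_lit 0) (nat_lit 0) (nat_lit 1) (nat_lit 0) (nat_lit 1) (nat_lit 0) (nat_lit 438)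 (nat_lit 417) (nat_lit 225)) (XT.lf (nat_lit 0) (nat_lit 86308602871) (nat_lit 0) (nat_lit 0) (nat_lit 0) (nat_lit 0) (nat_lit 0) (nat_lit 0) (nat_lit 1) (nat_lit 0) (nat_lit 1) (nat_lit 0) (nat_lit 439) (nat_lit 417) (nat_lit 224))) (XT.nd (nat_lit 94) (nat_lit 0) (nat_lit 0) (XT.lf (nat_lit 0) (nat_lit 86308600607) (nat_lit 0) (nat_lit 0) (nat_lit 0) (nat_lit 0) (nat_lit 0) (nat_lit 0) (nat_lit 1) (nat_lit 0) (nat_lit 1) (nat_lit 0) (nat_lit 440) (nat_lit 417) (nat_lit 223)) (XT.nd (nat_lit 94) (nat_lit 0) (nat_lit 0) (XT.lf (nat_lit 0) (nat_lit 86308598510) (nat_lit 0) (nat_lit 0) (nat_lit 0) (nat_lit 0) (nat_lit 0) (nat_lit 0) (nat_lit 1) (nat_lit 0) (nat_lit 1) (nat_lit 0) (nat_lit 441) (nat_lit 417) (nat_lit 222)) (XT.lf (nat_lit 0) (nat_lit 86308596569) (nat_lit 0) (nat_lit 0) (nat_lit 0) (nat_lit 0) (nat_lit 0) (nat_lit 0) (nat_lit 1) (nat_lit 0) (nat_lit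 1) (nat_lit 0) (nat_lit 442) (nat_lit 417) (nat_lit 221)))))) (XT.nd (nat_lit 470) (nat_lit 1428) (nat_lit 0) (XT.nd (nat_lit 188) (nat_lit 0) (nat_lit 84) (XT.nd (nat_lit 94) (nat_lit 0) (nat_lit 84) (XT.lf (nat_lit 924) (nat_lit 46647405892) (nat_lit 0) (nat_lit 82822361938) (nat_lit 924) (nat_lit 46647405892) (nat_lit 139) (nat_lit 1) (nat_lit 128) (nat_lit 0) (nat_lit 139) (nat_lit 0) (nat_lit 244) (nat_lit 418) (nat_lit 418)) (XT.lf (nat_lit 924) (nat_lit 17400913733) (nat_lit 0) (nat_lit 162605397977) (nat_lit 840) (nat_lit 159027535969) (nat_lit 140) (nat_lit 1) (nat_lit 129) (nat_lit 1) (nat_lit 139) (nat_lit 1) (nat_lit 245) (nat_lit 418) (nat_lit 417))) (XT.nd (nat_lit 94) (nat_lit 0) (nat_lit 84) (XT.lf (nat_lit 924) (nat_lit 159817348686) (nat_lit 84) (nat_lit 108896889836) (nat_lit 0) (nat_lit 57753942917) (nat_lit 140) (nat_lit 1) (nat_lit 130)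 (nat_lit 1) (nat_lit 129) (nat_lit 1) (nat_lit 246) (nat_lit 418) (nat_lit 416)) (XT.nd (nat_lit 94) (nat_lit 0) (nat_lit 84) (XT.lf (nat_lit 924) (nat_lit 138095281690) (nat_lit 84) (nat_lit 45637931728) (nat_lit 0) (nat_lit 130798119591) (nat_lit 141) (nat_lit 1) (nat_lit 131) (nat_lit 1) (nat_lit 130) (nat_lit 1) (nat_lit 247) (nat_lit 418) (nat_lit 415)) (XT.lf (nat_lit 924) (nat_lit 102202248904) (nat_lit 0) (nat_lit 191215576808) (nat_lit 840) (nat_lit 9774912967) (nat_lit 142) (nat_lit 1) (nat_lit 131) (nat_lit 1) (nat_lit 141) (nat_lit 1) (nat_lit 248) (nat_lit 418) (nat_lit 414))))) (XT.nd (nat_lit 188) (nat_lit 1764) (nat_lit 0) (XT.nd (nat_lit 94) (nat_lit 0) (nat_lit 0) (XT.lf (nat_lit 924) (nat_lit 24522427559) (nat_lit 0) (nat_lit 210868295179) (nat_lit 840) (nat_lit 57004918860) (nat_lit 143) (nat_lit 1) (nat_lit 132) (nat_lit 1) (nat_lit 142)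 (nat_lit 1) (nat_lit 249) (nat_lit 418) (nat_lit 413)) (XT.lf (nat_lit 924) (nat_lit 47122131653) (nat_lit 84) (nat_lit 183261720253) (nat_lit 0) (nat_lit 51718718475) (nat_lit 143) (nat_lit 1) (nat_lit 133) (nat_lit 1) (nat_lit 132) (nat_lit 1) (nat_lit 250) (nat_lit 418) (nat_lit 412))) (XT.nd (nat_lit 94) (nat_lit 1008) (nat_lit 0) (XT.lf (nat_lit 924) (nat_lit 9677811312) (nat_lit 0) (nat_lit 137000258186) (nat_lit 840) (nat_lit 125627801290) (nat_lit 134) (nat_lit 1) (nat_lit 123) (nat_lit 1) (nat_lit 133) (nat_lit 1) (nat_lit 251) (nat_lit 418) (nat_lit 411)) (XT.nd (nat_lit 94) (nat_lit 420) (nat_lit 0) (XT.lf (nat_lit 84) (nat_lit 67011181498) (nat_lit 0) (nat_lit 29039063390) (nat_lit 588) (nat_lit 166922790573) (nat_lit 117) (nat_lit 1) (nat_lit 116) (nat_lit 1) (nat_lit 123) (nat_lit 1) (nat_lit 252) (nat_lit 418) (nat_lit 410)) (XT.lf (nat_lit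 504) (nat_lit 184674381725) (nat_lit 0) (nat_lit 60115492509) (nat_lit 420) (nat_lit 9294226590) (nat_lit 117) (nat_lit 1) (nat_lit 111) (nat_lit 1) (nat_lit 116) (nat_lit 1) (nat_lit 253) (nat_lit 418) (nat_lit 409))))))))
noncomputable def ec236 : XT := (XT.nd (nat_lit 1692) (nat_lit 2940) (nat_lit 0) (XT.nd (nat_lit 846) (nat_lit 2100) (nat_lit 0) (XT.nd (nat_lit 376) (nat_lit 1596) (nat_lit 0) (XT.nd (nat_lit 188) (nat_lit 420) (nat_lit 0) (XT.nd (nat_lit 94) (nat_lit 336) (nat_lit 0) (XT.lf (nat_lit 504) (nat_lit 133262792455) (nat_lit 0) (nat_lit 28020090015) (nat_lit 420) (nat_lit 84294492012) (nat_lit 112) (nat_lit 1) (nat_lit 106) (nat_lit 1) (nat_lit 111) (nat_lit 1) (nat_lit 254) (nat_lit 418) (nat_lit 408)) (XT.lf (nat_lit 420) (nat_lit 81088709583) (nat_lit 0) (nat_lit 515895392) (nat_lit 336) (nat_lit 155878515828) (nat_lit 107) (nat_lit 1) (nat_lit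 102) (nat_lit 1) (nat_lit 106) (nat_lit 1) (nat_lit 255) (nat_lit 418) (nat_lit 407))) (XT.nd (nat_lit 94) (nat_lit 420) (nat_lit 0) (XT.lf (nat_lit 84) (nat_lit 5982341768) (nat_lit 0) (nat_lit 201753552382) (nat_lit 420) (nat_lit 22025323096) (nat_lit 103) (nat_lit 1) (nat_lit 102) (nat_lit 1) (nat_lit 107) (nat_lit 1) (nat_lit 256) (nat_lit 418) (nat_lit 406)) (XT.lf (nat_lit 84) (nat_lit 154465616111) (nat_lit 0) (nat_lit 25619775204) (nat_lit 420) (nat_lit 42251662215) (nat_lit 98) (nat_lit 1) (nat_lit 97) (nat_lit 1) (nat_lit 102) (nat_lit 1) (nat_lit 257) (nat_lit 418) (nat_lit 405)))) (XT.nd (nat_lit 188) (nat_lit 924) (nat_lit 0) (XT.nd (nat_lit 94) (nat_lit 336) (nat_lit 0) (XT.lf (nat_lit 84) (nat_lit 77283061999) (nat_lit 0) (nat_lit 78477919376) (nat_lit 420) (nat_lit 59479945845) (nat_lit 94) (nat_lit 1) (nat_lit 93) (nat_lit 1) (nat_lit 98)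 (nat_lit 1) (nat_lit 258) (nat_lit 418) (nat_lit 404)) (XT.lf (nat_lit 84) (nat_lit 3814520568) (nat_lit 0) (nat_lit 131213862608) (nat_lit 420) (nat_lit 73452395863) (nat_lit 90) (nat_lit 1) (nat_lit 89) (nat_lit 1) (nat_lit 94) (nat_lit 1) (nat_lit 259) (nat_lit 418) (nat_lit 403))) (XT.nd (nat_lit 94) (nat_lit 672) (nat_lit 0) (XT.lf (nat_lit 336) (nat_lit 17226159900) (nat_lit 0) (nat_lit 116492273770) (nat_lit 252) (nat_lit 68267149713) (nat_lit 90) (nat_lit 1) (nat_lit 86) (nat_lit 1) (nat_lit 89) (nat_lit 1) (nat_lit 260) (nat_lit 418) (nat_lit 402)) (XT.nd (nat_lit 94) (nat_lit 252) (nat_lit 0) (XT.lf (nat_lit 84) (nat_lit 59521013875) (nat_lit 0) (nat_lit 40796072757) (nat_lit 420) (nat_lit 95441629403) (nat_lit 82) (nat_lit 1) (nat_lit 81) (nat_lit 1) (nat_lit 86) (nat_lit 1) (nat_lit 261) (nat_lit 418) (nat_lit 401)) (XT.lf (nat_lit 336) (nat_lit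 92152846140) (nat_lit 0) (nat_lit 86565688473) (nat_lit 252) (nat_lit 11080305386) (nat_lit 82) (nat_lit 1) (nat_lit 78) (nat_lit 1) (nat_lit 81) (nat_lit 1) (nat_lit 262) (nat_lit 418) (nat_lit 400)))))) (XT.nd (nat_lit 376) (nat_lit 1092) (nat_lit 0) (XT.nd (nat_lit 188) (nat_lit 420) (nat_lit 0) (XT.nd (nat_lit 94) (nat_lit 336) (nat_lit 0) (XT.lf (nat_lit 336) (nat_lit 29534541991) (nat_lit 0) (nat_lit 74529512945) (nat_lit 252) (nat_lit 80003948726) (nat_lit 79) (nat_lit 1) (nat_lit 75) (nat_lit 1) (nat_lit 78) (nat_lit 1) (nat_lit 263) (nat_lit 418) (nat_lit 399)) (XT.lf (nat_lit 84) (nat_lit 33662241374) (nat_lit 0) (nat_lit 30820707291) (nat_lit 336) (nat_lit 114092231085) (nat_lit 72) (nat_lit 1) (nat_lit 71) (nat_lit 1) (nat_lit 75) (nat_lit 1) (nat_lit 264) (nat_lit 418) (nat_lit 398))) (XT.nd (nat_lit 94) (nat_lit 168) (nat_lit 0) (XT.lf (nat_lit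 336) (nat_lit 83764069500) (nat_lit 0) (nat_lit 55733507789) (nat_lit 252) (nat_lit 33785835664) (nat_lit 72) (nat_lit 1) (nat_lit 68) (nat_lit 1) (nat_lit 71) (nat_lit 1) (nat_lit 265) (nat_lit 418) (nat_lit 397)) (XT.lf (nat_lit 252) (nat_lit 20765236512) (nat_lit 0) (nat_lit 48623420333) (nat_lit 168) (nat_lit 98816473949) (nat_lit 69) (nat_lit 1) (nat_lit 66) (nat_lit 1) (nat_lit 68) (nat_lit 1) (nat_lit 266) (nat_lit 418) (nat_lit 396)))) (XT.nd (nat_lit 188) (nat_lit 588) (nat_lit 0) (XT.nd (nat_lit 94) (nat_lit 168) (nat_lit 0) (XT.lf (nat_lit 84) (nat_lit 3517763729) (nat_lit 0) (nat_lit 39364539803) (nat_lit 336) (nat_lit 120441392697) (nat_lit 63) (nat_lit 1) (nat_lit 62) (nat_lit 1) (nat_lit 66) (nat_lit 1) (nat_lit 267) (nat_lit 418) (nat_lit 395)) (XT.lf (nat_lit 252) (nat_lit 60339967152) (nat_lit 0) (nat_lit 37707302914) (nat_lit 168) (nat_lit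 60549950845) (nat_lit 63) (nat_lit 1) (nat_lit 60) (nat_lit 1) (nat_lit 62) (nat_lit 1) (nat_lit 268) (nat_lit 418) (nat_lit 394))) (XT.nd (nat_lit 94) (nat_lit 336) (nat_lit 0) (XT.lf (nat_lit 84) (nat_lit 32737944554) (nat_lit 0) (nat_lit 1512186183) (nat_lit 252) (nat_lit 119826861954) (nat_lit 58) (nat_lit 1) (nat_lit 57) (nat_lit 1) (nat_lit 60) (nat_lit 1) (nat_lit 269) (nat_lit 418) (nat_lit 393)) (XT.nd (nat_lit 94) (nat_lit 168) (nat_lit 0) (XT.lf (nat_lit 252) (nat_lit 89499218564) (nat_lit 0) (nat_lit 31013485973) (nat_lit 168) (nat_lit 29175550156) (nat_lit 58) (nat_lit 1) (nat_lit 55) (nat_lit 1) (nat_lit 57) (nat_lit 1) (nat_lit 270) (nat_lit 418) (nat_lit 392)) (XT.lf (nat_lit 252) (nat_lit 27802043770) (nat_lit 0) (nat_lit 28830464735) (nat_lit 168) (nat_lit 88834808850) (nat_lit 56) (nat_lit 1) (nat_lit 53) (nat_lit 1) (nat_lit 55) (nat_lit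 1) (nat_lit 271) (nat_lit 418) (nat_lit 391))))))) (XT.nd (nat_lit 846) (nat_lit 1428) (nat_lit 0) (XT.nd (nat_lit 376) (nat_lit 756) (nat_lit 0) (XT.nd (nat_lit 188) (nat_lit 336) (nat_lit 0) (XT.nd (nat_lit 94) (nat_lit 168) (nat_lit 0) (XT.lf (nat_lit 252) (nat_lit 110363896229) (nat_lit 0) (nat_lit 27545169028) (nat_lit 168) (nat_lit 3494424261) (nat_lit 53) (nat_lit 1) (nat_lit 50) (nat_lit 1) (nat_lit 52) (nat_lit 1) (nat_lit 272) (nat_lit 418) (nat_lit 390)) (XT.lf (nat_lit 252) (nat_lit 49393765018) (nat_lit 0) (nat_lit 26296349658) (nat_lit 168) (nat_lit 61762467953) (nat_lit 51) (nat_lit 1) (nat_lit 48) (nat_lit 1) (nat_lit 50) (nat_lit 1) (nat_lit 273) (nat_lit 418) (nat_lit 389))) (XT.nd (nat_lit 94) (nat_lit 168) (nat_lit 0) (XT.lf (nat_lit 84) (nat_lit 16919271558) (nat_lit 0) (nat_lit 9299594053) (nat_lit 168) (nat_lit 107446683537) (nat_lit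 47) (nat_lit 1) (nat_lit 46) (nat_lit 1) (nat_lit 48) (nat_lit 1) (nat_lit 274) (nat_lit 418) (nat_lit 388)) (XT.lf (nat_lit 252) (nat_lit 64807460373) (nat_lit 0) (nat_lit 25941237010) (nat_lit 168) (nat_lit 39225380474) (nat_lit 47) (nat_lit 1) (nat_lit 44) (nat_lit 1) (nat_lit 46) (nat_lit 1) (nat_lit 275) (nat_lit 418) (nat_lit 387)))) (XT.nd (nat_lit 188) (nat_lit 420) (nat_lit 0) (XT.nd (nat_lit 94) (nat_lit 252) (nat_lit 0) (XT.lf (nat_lit 168) (nat_lit 6978842579) (nat_lit 0) (nat_lit 26578387314) (nat_lit 84) (nat_lit 92871111208) (nat_lit 45) (nat_lit 1) (nat_lit 43) (nat_lit 1) (nat_lit 44) (nat_lit 1) (nat_lit 276) (nat_lit 418) (nat_lit 386)) (XT.lf (nat_lit 252) (nat_lit 75334029093) (nat_lit 0) (nat_lit 27182597688) (nat_lit 168) (nat_lit 20463744476) (nat_lit 43) (nat_lit 1) (nat_lit 40) (nat_lit 1) (nat_lit 42) (nat_lit 1) (nat_lit 277) (nat_lit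 418) (nat_lit 385))) (XT.nd (nat_lit 94) (nat_lit 336) (nat_lit 0) (XT.lf (nat_lit 168) (nat_lit 18947063828) (nat_lit 0) (nat_lit 28198982407) (nat_lit 84) (nat_lit 72502558687) (nat_lit 41) (nat_lit 1) (nat_lit 39) (nat_lit 1) (nat_lit 40) (nat_lit 1) (nat_lit 278) (nat_lit 418) (nat_lit 384)) (XT.nd (nat_lit 94) (nat_lit 84) (nat_lit 0) (XT.lf (nat_lit 252) (nat_lit 82017179714) (nat_lit 0) (nat_lit 29559027671) (nat_lit 168) (nat_lit 4850889480) (nat_lit 39) (nat_lit 1) (nat_lit 36) (nat_lit 1) (nat_lit 38) (nat_lit 1) (nat_lit 279) (nat_lit 418) (nat_lit 383)) (XT.lf (nat_lit 168) (nat_lit 27267424234) (nat_lit 0) (nat_lit 30815641535) (nat_lit 84) (nat_lit 55208883070) (nat_lit 37) (nat_lit 1) (nat_lit 35) (nat_lit 1) (nat_lit 36) (nat_lit 1) (nat_lit 280) (nat_lit 418) (nat_lit 382)))))) (XT.nd (nat_lit 470) (nat_lit 588) (nat_lit 0) (XT.nd (nat_lit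 188) (nat_lit 504) (nat_lit 0) (XT.nd (nat_lit 94) (nat_lit 84) (nat_lit 0) (XT.lf (nat_lit 84) (nat_lit 7870463777) (nat_lit 0) (nat_lit 24703287836) (nat_lit 252) (nat_lit 77695679605) (nat_lit 33) (nat_lit 1) (nat_lit 32) (nat_lit 1) (nat_lit 35) (nat_lit 1) (nat_lit 281) (nat_lit 418) (nat_lit 381)) (XT.lf (nat_lit 168) (nat_lit 32723369223) (nat_lit 0) (nat_lit 34096199678) (nat_lit 84) (nat_lit 40502407062) (nat_lit 33) (nat_lit 1) (nat_lit 31) (nat_lit 1) (nat_lit 32) (nat_lit 1) (nat_lit 282) (nat_lit 418) (nat_lit 380))) (XT.nd (nat_lit 94) (nat_lit 252) (nat_lit 0) (XT.lf (nat_lit 84) (nat_lit 18303768176) (nat_lit 0) (nat_lit 17728437176) (nat_lit 252) (nat_lit 68445896152) (nat_lit 29) (nat_lit 1) (nat_lit 28) (nat_lit 1) (nat_lit 31) (nat_lit 1) (nat_lit 283) (nat_lit 418) (nat_lit 379)) (XT.nd (nat_lit 94) (nat_lit 168) (nat_lit 0) (XT.lf (nat_lit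 168) (nat_lit 35946694517) (nat_lit 0) (nat_lit 37781364542) (nat_lit 84) (nat_lit 27978827900) (nat_lit 29) (nat_lit 1) (nat_lit 27) (nat_lit 1) (nat_lit 28) (nat_lit 1) (nat_lit 284) (nat_lit 418) (nat_lit 378)) (XT.lf (nat_lit 84) (nat_lit 26947379320) (nat_lit 0) (nat_lit 12839944080) (nat_lit 168) (nat_lit 59239869455) (nat_lit 26) (nat_lit 1) (nat_lit 25) (nat_lit 1) (nat_lit 27) (nat_lit 1) (nat_lit 285) (nat_lit 418) (nat_lit 377))))) (XT.nd (nat_lit 188) (nat_lit 336) (nat_lit 0) (XT.nd (nat_lit 94) (nat_lit 168) (nat_lit 0) (XT.lf (nat_lit 168) (nat_lit 37445882928) (nat_lit 0) (nat_lit 41670513991) (nat_lit 84) (nat_lit 17302345055) (nat_lit 26) (nat_lit 1) (nat_lit 24) (nat_lit 1) (nat_lit 25) (nat_lit 1) (nat_lit 286) (nat_lit 418) (nat_lit 376)) (XT.lf (nat_lit 84) (nat_lit 34085929318) (nat_lit 0) (nat_lit 9578765707) (nat_lit 168) (nat_lit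 50225829290) (nat_lit 23) (nat_lit 1) (nat_lit 22) (nat_lit 1) (nat_lit 24) (nat_lit 1) (nat_lit 287) (nat_lit 418) (nat_lit 375))) (XT.nd (nat_lit 94) (nat_lit 252) (nat_lit 0) (XT.lf (nat_lit 168) (nat_lit 37629209992) (nat_lit 0) (nat_lit 45610153484) (nat_lit 84) (nat_lit 8193489132) (nat_lit 23) (nat_lit 1) (nat_lit 21) (nat_lit 1) (nat_lit 22) (nat_lit 1) (nat_lit 288) (nat_lit 418) (nat_lit 374)) (XT.nd (nat_lit 94) (nat_lit 84) (nat_lit 0) (XT.lf (nat_lit 84) (nat_lit 39955979216) (nat_lit 0) (nat_lit 7575788937) (nat_lit 168) (nat_lit 41513119344) (nat_lit 20) (nat_lit 1) (nat_lit 19) (nat_lit 1) (nat_lit 21) (nat_lit 1) (nat_lit 289) (nat_lit 418) (nat_lit 373)) (XT.lf (nat_lit 168) (nat_lit 36823580203) (nat_lit 0) (nat_lit 49484542081) (nat_lit 84) (nat_lit 419158060) (nat_lit 20) (nat_lit 1) (nat_lit 18) (nat_lit 1) (nat_lit 19) (nat_lit 1) (nat_lit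 290) (nat_lit 418) (nat_lit 372))))))))
noncomputable def ec237 : XT := (XT.nd (nat_lit 1786) (nat_lit 0) (nat_lit 0) (XT.nd (nat_lit 846) (nat_lit 336) (nat_lit 0) (XT.nd (nat_lit 376) (nat_lit 672) (nat_lit 0) (XT.nd (nat_lit 188) (nat_lit 252) (nat_lit 0) (XT.nd (nat_lit 94) (nat_lit 84) (nat_lit 0) (XT.lf (nat_lit 84) (nat_lit 44754528039) (nat_lit 0) (nat_lit 6534944461) (nat_lit 168) (nat_lit 33180121535) (nat_lit 17) (nat_lit 1) (nat_lit 16) (nat_lit 1) (nat_lit 18) (nat_lit 1) (nat_lit 291) (nat_lit 418) (nat_lit 371)) (XT.lf (nat_lit 0) (nat_lit 6016606634) (nat_lit 0) (nat_lit 47089585188) (nat_lit 168) (nat_lit 29171378262) (nat_lit 15) (nat_lit 3) (nat_lit 15) (nat_lit 1) (nat_lit 17) (nat_lit 1) (nat_lit 292) (nat_lit 418) (nat_lit 370))) (XT.nd (nat_lit 94) (nat_lit 84) (nat_lit 0) (XT.lf (nat_lit 84) (nat_lit 48645981585) (nat_lit 0) (nat_lit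 6219443758) (nat_lit 168) (nat_lit 25280675992) (nat_lit 14) (nat_lit 1) (nat_lit 13) (nat_lit 1) (nat_lit 15) (nat_lit 1) (nat_lit 293) (nat_lit 418) (nat_lit 369)) (XT.lf (nat_lit 0) (nat_lit 11493944539) (nat_lit 0) (nat_lit 45030572140) (nat_lit 168) (nat_lit 21546881728) (nat_lit 12) (nat_lit 3) (nat_lit 12) (nat_lit 1) (nat_lit 14) (nat_lit 1) (nat_lit 294) (nat_lit 418) (nat_lit 368)))) (XT.nd (nat_lit 188) (nat_lit 420) (nat_lit 0) (XT.nd (nat_lit 94) (nat_lit 84) (nat_lit 0) (XT.lf (nat_lit 84) (nat_lit 51767862242) (nat_lit 0) (nat_lit 6440564459) (nat_lit 168) (nat_lit 17849275822) (nat_lit 11) (nat_lit 1) (nat_lit 10) (nat_lit 1) (nat_lit 12) (nat_lit 1) (nat_lit 295) (nat_lit 418) (nat_lit 367)) (XT.lf (nat_lit 0) (nat_lit 16159206874) (nat_lit 0) (nat_lit 43542304725) (nat_lit 168) (nat_lit 14391571519) (nat_lit 9) (nat_lit 3) (nat_lit 9) (nat_lit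 1) (nat_lit 11) (nat_lit 1) (nat_lit 296) (nat_lit 418) (nat_lit 366))) (XT.nd (nat_lit 94) (nat_lit 252) (nat_lit 0) (XT.lf (nat_lit 84) (nat_lit 54235489557) (nat_lit 0) (nat_lit 7048515053) (nat_lit 168) (nat_lit 10905264372) (nat_lit 8) (nat_lit 1) (nat_lit 7) (nat_lit 1) (nat_lit 9) (nat_lit 1) (nat_lit 297) (nat_lit 418) (nat_lit 365)) (XT.nd (nat_lit 94) (nat_lit 168) (nat_lit 0) (XT.lf (nat_lit 0) (nat_lit 20124471742) (nat_lit 0) (nat_lit 42483131559) (nat_lit 168) (nat_lit 7720500218) (nat_lit 6) (nat_lit 3) (nat_lit 6) (nat_lit 1) (nat_lit 8) (nat_lit 1) (nat_lit 298) (nat_lit 418) (nat_lit 364)) (XT.lf (nat_lit 84) (nat_lit 56145819261) (nat_lit 0) (nat_lit 7924996106) (nat_lit 168) (nat_lit 4456220776) (nat_lit 5) (nat_lit 1) (nat_lit 4) (nat_lit 1) (nat_lit 6) (nat_lit 1) (nat_lit 299) (nat_lit 418) (nat_lit 363)))))) (XT.nd (nat_lit 470) (nat_lit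 0) (nat_lit 0) (XT.nd (nat_lit 188) (nat_lit 0) (nat_lit 0) (XT.nd (nat_lit 94) (nat_lit 252) (nat_lit 0) (XT.lf (nat_lit 0) (nat_lit 23484530492) (nat_lit 0) (nat_lit 41740670522) (nat_lit 168) (nat_lit 1538026848) (nat_lit 3) (nat_lit 3) (nat_lit 3) (nat_lit 1) (nat_lit 5) (nat_lit 1) (nat_lit 300) (nat_lit 418) (nat_lit 362)) (XT.lf (nat_lit 0) (nat_lit 94372899257) (nat_lit 0) (nat_lit 0) (nat_lit 0) (nat_lit 0) (nat_lit 0) (nat_lit 0) (nat_lit 1) (nat_lit 0) (nat_lit 1) (nat_lit 0) (nat_lit 301) (nat_lit 418) (nat_lit 361))) (XT.nd (nat_lit 94) (nat_lit 0) (nat_lit 0) (XT.lf (nat_lit 0) (nat_lit 94286999911) (nat_lit 0) (nat_lit 0) (nat_lit 0) (nat_lit 0) (nat_lit 0) (nat_lit 0) (nat_lit 1) (nat_lit 0) (nat_lit 1) (nat_lit 0) (nat_lit 302) (nat_lit 418) (nat_lit 360)) (XT.nd (nat_lit 94) (nat_lit 0) (nat_lit 0) (XT.lf (nat_lit 0) (nat_lit 94207463480)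 (nat_lit 0) (nat_lit 0) (nat_lit 0) (nat_lit 0) (nat_lit 0) (nat_lit 0) (nat_lit 1) (nat_lit 0) (nat_lit 1) (nat_lit 0) (nat_lit 303) (nat_lit 418) (nat_lit 359)) (XT.lf (nat_lit 0) (nat_lit 94133818636) (nat_lit 0) (nat_lit 0) (nat_lit 0) (nat_lit 0) (nat_lit 0) (nat_lit 0) (nat_lit 1) (nat_lit 0) (nat_lit 1) (nat_lit 0) (nat_lit 304) (nat_lit 418) (nat_lit 358))))) (XT.nd (nat_lit 188) (nat_lit 0) (nat_lit 0) (XT.nd (nat_lit 94) (nat_lit 0) (nat_lit 0) (XT.lf (nat_lit 0) (nat_lit 94065628966) (nat_lit 0) (nat_lit 0) (nat_lit 0) (nat_lit 0) (nat_lit 0) (nat_lit 0) (nat_lit 1) (nat_lit 0) (nat_lit 1) (nat_lit 0) (nat_lit 305) (nat_lit 418) (nat_lit 357)) (XT.lf (nat_lit 0) (nat_lit 94002490382) (nat_lit 0) (nat_lit 0) (nat_lit 0) (nat_lit 0) (nat_lit 0) (nat_lit 0) (nat_lit 1) (nat_lit 0) (nat_lit 1) (nat_lit 0) (nat_lit 306) (nat_lit 418) (nat_lit 356)))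 (XT.nd (nat_lit 94) (nat_lit 0) (nat_lit 0) (XT.lf (nat_lit 0) (nat_lit 93944028731) (nat_lit 0) (nat_lit 0) (nat_lit 0) (nat_lit 0) (nat_lit 0) (nat_lit 0) (nat_lit 1) (nat_lit 0) (nat_lit 1) (nat_lit 0) (nat_lit 307) (nat_lit 418) (nat_lit 355)) (XT.nd (nat_lit 94) (nat_lit 0) (nat_lit 0) (XT.lf (nat_lit 0) (nat_lit 93889897572) (nat_lit 0) (nat_lit 0) (nat_lit 0) (nat_lit 0) (nat_lit 0) (nat_lit 0) (nat_lit 1) (nat_lit 0) (nat_lit 1) (nat_lit 0) (nat_lit 308) (nat_lit 418) (nat_lit 354)) (XT.lf (nat_lit 0) (nat_lit 93839776129) (nat_lit 0) (nat_lit 0) (nat_lit 0) (nat_lit 0) (nat_lit 0) (nat_lit 0) (nat_lit 1) (nat_lit 0) (nat_lit 1) (nat_lit 0) (nat_lit 309) (nat_lit 418) (nat_lit 353))))))) (XT.nd (nat_lit 846) (nat_lit 0) (nat_lit 0) (XT.nd (nat_lit 376) (nat_lit 0) (nat_lit 0) (XT.nd (nat_lit 188) (nat_lit 0) (nat_lit 0) (XT.nd (nat_lit 94) (nat_lit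 0) (nat_lit 0) (XT.lf (nat_lit 0) (nat_lit 93793367385) (nat_lit 0) (nat_lit 0) (nat_lit 0) (nat_lit 0) (nat_lit 0) (nat_lit 0) (nat_lit 1) (nat_lit 0) (nat_lit 1) (nat_lit 0) (nat_lit 310) (nat_lit 418) (nat_lit 352)) (XT.lf (nat_lit 0) (nat_lit 93750396326) (nat_lit 0) (nat_lit 0) (nat_lit 0) (nat_lit 0) (nat_lit 0) (nat_lit 0) (nat_lit 1) (nat_lit 0) (nat_lit 1) (nat_lit 0) (nat_lit 311) (nat_lit 418) (nat_lit 351))) (XT.nd (nat_lit 94) (nat_lit 0) (nat_lit 0) (XT.lf (nat_lit 0) (nat_lit 93710608308) (nat_lit 0) (nat_lit 0) (nat_lit 0) (nat_lit 0) (nat_lit 0) (nat_lit 0) (nat_lit 1) (nat_lit 0) (nat_lit 1) (nat_lit 0) (nat_lit 312) (nat_lit 418) (nat_lit 350)) (XT.lf (nat_lit 0) (nat_lit 93673767551) (nat_lit 0) (nat_lit 0) (nat_lit 0) (nat_lit 0) (nat_lit 0) (nat_lit 0) (nat_lit 1) (nat_lit 0) (nat_lit 1) (nat_lit 0) (nat_lit 313) (nat_lit 418) (nat_lit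 349)))) (XT.nd (nat_lit 188) (nat_lit 0) (nat_lit 0) (XT.nd (nat_lit 94) (nat_lit 0) (nat_lit 0) (XT.lf (nat_lit 0) (nat_lit 93639655739) (nat_lit 0) (nat_lit 0) (nat_lit 0) (nat_lit 0) (nat_lit 0) (nat_lit 0) (nat_lit 1) (nat_lit 0) (nat_lit 1) (nat_lit 0) (nat_lit 314) (nat_lit 418) (nat_lit 348)) (XT.lf (nat_lit 0) (nat_lit 93608070728) (nat_lit 0) (nat_lit 0) (nat_lit 0) (nat_lit 0) (nat_lit 0) (nat_lit 0) (nat_lit 1) (nat_lit 0) (nat_lit 1) (nat_lit 0) (nat_lit 315) (nat_lit 418) (nat_lit 347))) (XT.nd (nat_lit 94) (nat_lit 0) (nat_lit 0) (XT.lf (nat_lit 0) (nat_lit 93578825347) (nat_lit 0) (nat_lit 0) (nat_lit 0) (nat_lit 0) (nat_lit 0) (nat_lit 0) (nat_lit 1) (nat_lit 0) (nat_lit 1) (nat_lit 0) (nat_lit 316) (nat_lit 418) (nat_lit 346)) (XT.nd (nat_lit 94) (nat_lit 0) (nat_lit 0) (XT.lf (nat_lit 0) (nat_lit 93551746291) (nat_lit 0) (nat_lit 0) (nat_lit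 0) (nat_lit 0) (nat_lit 0) (nat_lit 0) (nat_lit 1) (nat_lit 0) (nat_lit 1) (nat_lit 0) (nat_lit 317) (nat_lit 418) (nat_lit 345)) (XT.lf (nat_lit 0) (nat_lit 93526673091) (nat_lit 0) (nat_lit 0) (nat_lit 0) (nat_lit 0) (nat_lit 0) (nat_lit 0) (nat_lit 1) (nat_lit 0) (nat_lit 1) (nat_lit 0) (nat_lit 318) (nat_lit 418) (nat_lit 344)))))) (XT.nd (nat_lit 470) (nat_lit 0) (nat_lit 0) (XT.nd (nat_lit 188) (nat_lit 0) (nat_lit 0) (XT.nd (nat_lit 94) (nat_lit 0) (nat_lit 0) (XT.lf (nat_lit 0) (nat_lit 93503457164) (nat_lit 0) (nat_lit 0) (nat_lit 0) (nat_lit 0) (nat_lit 0) (nat_lit 0) (nat_lit 1) (nat_lit 0) (nat_lit 1) (nat_lit 0) (nat_lit 319) (nat_lit 418) (nat_lit 343)) (XT.lf (nat_lit 0) (nat_lit 93481960936) (nat_lit 0) (nat_lit 0) (nat_lit 0) (nat_lit 0) (nat_lit 0) (nat_lit 0) (nat_lit 1) (nat_lit 0) (nat_lit 1) (nat_lit 0) (nat_lit 320) (nat_lit 418) (nat_lit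 342))) (XT.nd (nat_lit 94) (nat_lit 0) (nat_lit 0) (XT.lf (nat_lit 0) (nat_lit 93462057022) (nat_lit 0) (nat_lit 0) (nat_lit 0) (nat_lit 0) (nat_lit 0) (nat_lit 0) (nat_lit 1) (nat_lit 0) (nat_lit 1) (nat_lit 0) (nat_lit 321) (nat_lit 418) (nat_lit 341)) (XT.nd (nat_lit 94) (nat_lit 0) (nat_lit 0) (XT.lf (nat_lit 0) (nat_lit 93443627471) (nat_lit 0) (nat_lit 0) (nat_lit 0) (nat_lit 0) (nat_lit 0) (nat_lit 0) (nat_lit 1) (nat_lit 0) (nat_lit 1) (nat_lit 0) (nat_lit 322) (nat_lit 418) (nat_lit 340)) (XT.lf (nat_lit 0) (nat_lit 93426563072) (nat_lit 0) (nat_lit 0) (nat_lit 0) (nat_lit 0) (nat_lit 0) (nat_lit 0) (nat_lit 1) (nat_lit 0) (nat_lit 1) (nat_lit 0) (nat_lit 323) (nat_lit 418) (nat_lit 339))))) (XT.nd (nat_lit 188) (nat_lit 0) (nat_lit 0) (XT.nd (nat_lit 94) (nat_lit 0) (nat_lit 0) (XT.lf (nat_lit 0) (nat_lit 93410762703) (nat_lit 0) (nat_lit 0) (nat_lit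 0) (nat_lit 0) (nat_lit 0) (nat_lit 0) (nat_lit 1) (nat_lit 0) (nat_lit 1) (nat_lit 0) (nat_lit 324) (nat_lit 418) (nat_lit 338)) (XT.lf (nat_lit 0) (nat_lit 93396132732) (nat_lit 0) (nat_lit 0) (nat_lit 0) (nat_lit 0) (nat_lit 0) (nat_lit 0) (nat_lit 1) (nat_lit 0) (nat_lit 1) (nat_lit 0) (nat_lit 325) (nat_lit 418) (nat_lit 337))) (XT.nd (nat_lit 94) (nat_lit 0) (nat_lit 0) (XT.lf (nat_lit 0) (nat_lit 93382586462) (nat_lit 0) (nat_lit 0) (nat_lit 0) (nat_lit 0) (nat_lit 0) (nat_lit 0) (nat_lit 1) (nat_lit 0) (nat_lit 1) (nat_lit 0) (nat_lit 326) (nat_lit 418) (nat_lit 336)) (XT.nd (nat_lit 94) (nat_lit 0) (nat_lit 0) (XT.lf (nat_lit 0) (nat_lit 93370043619) (nat_lit 0) (nat_lit 0) (nat_lit 0) (nat_lit 0) (nat_lit 0) (nat_lit 0) (nat_lit 1) (nat_lit 0) (nat_lit 1) (nat_lit 0) (nat_lit 327) (nat_lit 418) (nat_lit 335)) (XT.lf (nat_lit 0) (nat_lit 93358429876)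 (nat_lit 0) (nat_lit 0) (nat_lit 0) (nat_lit 0) (nat_lit 0) (nat_lit 0) (nat_lit 1) (nat_lit 0) (nat_lit 1) (nat_lit 0) (nat_lit 328) (nat_lit 418) (nat_lit 334))))))))
noncomputable def ec238 : XT := (XT.nd (nat_lit 1692) (nat_lit 0) (nat_lit 0) (XT.nd (nat_lit 846) (nat_lit 0) (nat_lit 0) (XT.nd (nat_lit 376) (nat_lit 0) (nat_lit 0) (XT.nd (nat_lit 188) (nat_lit 0) (nat_lit 0) (XT.nd (nat_lit 94) (nat_lit 0) (nat_lit 0) (XT.lf (nat_lit 0) (nat_lit 93347676410) (nat_lit 0) (nat_lit 0) (nat_lit 0) (nat_lit 0) (nat_lit 0) (nat_lit 0) (nat_lit 1) (nat_lit 0) (nat_lit 1) (nat_lit 0) (nat_lit 329) (nat_lit 418) (nat_lit 333)) (XT.lf (nat_lit 0) (nat_lit 93337719497) (nat_lit 0) (nat_lit 0) (nat_lit 0) (nat_lit 0) (nat_lit 0) (nat_lit 0) (nat_lit 1) (nat_lit 0) (nat_lit 1) (nat_lit 0) (nat_lit 330) (nat_lit 418) (nat_lit 332))) (XT.nd (nat_lit 94) (nat_lit 0) (nat_lit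 0) (XT.lf (nat_lit 0) (nat_lit 93328500134) (nat_lit 0) (nat_lit 0) (nat_lit 0) (nat_lit 0) (nat_lit 0) (nat_lit 0) (nat_lit 1) (nat_lit 0) (nat_lit 1) (nat_lit 0) (nat_lit 331) (nat_lit 418) (nat_lit 331)) (XT.lf (nat_lit 0) (nat_lit 93319963686) (nat_lit 0) (nat_lit 0) (nat_lit 0) (nat_lit 0) (nat_lit 0) (nat_lit 0) (nat_lit 1) (nat_lit 0) (nat_lit 1) (nat_lit 0) (nat_lit 332) (nat_lit 418) (nat_lit 330)))) (XT.nd (nat_lit 188) (nat_lit 0) (nat_lit 0) (XT.nd (nat_lit 94) (nat_lit 0) (nat_lit 0) (XT.lf (nat_lit 0) (nat_lit 93312059567) (nat_lit 0) (nat_lit 0) (nat_lit 0) (nat_lit 0) (nat_lit 0) (nat_lit 0) (nat_lit 1) (nat_lit 0) (nat_lit 1) (nat_lit 0) (nat_lit 333) (nat_lit 418) (nat_lit 329)) (XT.lf (nat_lit 0) (nat_lit 93304740939) (nat_lit 0) (nat_lit 0) (nat_lit 0) (nat_lit 0) (nat_lit 0) (nat_lit 0) (nat_lit 1) (nat_lit 0) (nat_lit 1) (nat_lit 0) (nat_lit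 334) (nat_lit 418) (nat_lit 328))) (XT.nd (nat_lit 94) (nat_lit 0) (nat_lit 0) (XT.lf (nat_lit 0) (nat_lit 93297964432) (nat_lit 0) (nat_lit 0) (nat_lit 0) (nat_lit 0) (nat_lit 0) (nat_lit 0) (nat_lit 1) (nat_lit 0) (nat_lit 1) (nat_lit 0) (nat_lit 335) (nat_lit 418) (nat_lit 327)) (XT.nd (nat_lit 94) (nat_lit 0) (nat_lit 0) (XT.lf (nat_lit 0) (nat_lit 93291689888) (nat_lit 0) (nat_lit 0) (nat_lit 0) (nat_lit 0) (nat_lit 0) (nat_lit 0) (nat_lit 1) (nat_lit 0) (nat_lit 1) (nat_lit 0) (nat_lit 336) (nat_lit 418) (nat_lit 326)) (XT.lf (nat_lit 0) (nat_lit 93285880125) (nat_lit 0) (nat_lit 0) (nat_lit 0) (nat_lit 0) (nat_lit 0) (nat_lit 0) (nat_lit 1) (nat_lit 0) (nat_lit 1) (nat_lit 0) (nat_lit 337) (nat_lit 418) (nat_lit 325)))))) (XT.nd (nat_lit 376) (nat_lit 0) (nat_lit 0) (XT.nd (nat_lit 188) (nat_lit 0) (nat_lit 0) (XT.nd (nat_lit 94) (nat_lit 0) (nat_lit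 0) (XT.lf (nat_lit 0) (nat_lit 93280500715) (nat_lit 0) (nat_lit 0) (nat_lit 0) (nat_lit 0) (nat_lit 0) (nat_lit 0) (nat_lit 1) (nat_lit 0) (nat_lit 1) (nat_lit 0) (nat_lit 338) (nat_lit 418) (nat_lit 324)) (XT.lf (nat_lit 0) (nat_lit 93275519779) (nat_lit 0) (nat_lit 0) (nat_lit 0) (nat_lit 0) (nat_lit 0) (nat_lit 0) (nat_lit 1) (nat_lit 0) (nat_lit 1) (nat_lit 0) (nat_lit 339) (nat_lit 418) (nat_lit 323))) (XT.nd (nat_lit 94) (nat_lit 0) (nat_lit 0) (XT.lf (nat_lit 0) (nat_lit 93270907802) (nat_lit 0) (nat_lit 0) (nat_lit 0) (nat_lit 0) (nat_lit 0) (nat_lit 0) (nat_lit 1) (nat_lit 0) (nat_lit 1) (nat_lit 0) (nat_lit 340) (nat_lit 418) (nat_lit 322)) (XT.lf (nat_lit 0) (nat_lit 93266637453) (nat_lit 0) (nat_lit 0) (nat_lit 0) (nat_lit 0) (nat_lit 0) (nat_lit 0) (nat_lit 1) (nat_lit 0) (nat_lit 1) (nat_lit 0) (nat_lit 341) (nat_lit 418) (nat_lit 321)))) (XT.nd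 (nat_lit 188) (nat_lit 0) (nat_lit 0) (XT.nd (nat_lit 94) (nat_lit 0) (nat_lit 0) (XT.lf (nat_lit 0) (nat_lit 93262683426) (nat_lit 0) (nat_lit 0) (nat_lit 0) (nat_lit 0) (nat_lit 0) (nat_lit 0) (nat_lit 1) (nat_lit 0) (nat_lit 1) (nat_lit 0) (nat_lit 342) (nat_lit 418) (nat_lit 320)) (XT.lf (nat_lit 0) (nat_lit 93259022290) (nat_lit 0) (nat_lit 0) (nat_lit 0) (nat_lit 0) (nat_lit 0) (nat_lit 0) (nat_lit 1) (nat_lit 0) (nat_lit 1) (nat_lit 0) (nat_lit 343) (nat_lit 418) (nat_lit 319))) (XT.nd (nat_lit 94) (nat_lit 0) (nat_lit 0) (XT.lf (nat_lit 0) (nat_lit 93255632349) (nat_lit 0) (nat_lit 0) (nat_lit 0) (nat_lit 0) (nat_lit 0) (nat_lit 0) (nat_lit 1) (nat_lit 0) (nat_lit 1) (nat_lit 0) (nat_lit 344) (nat_lit 418) (nat_lit 318)) (XT.nd (nat_lit 94) (nat_lit 0) (nat_lit 0) (XT.lf (nat_lit 0) (nat_lit 93252493515) (nat_lit 0) (nat_lit 0) (nat_lit 0) (nat_lit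 0) (nat_lit 0) (nat_lit 0) (nat_lit 1) (nat_lit 0) (nat_lit 1) (nat_lit 0) (nat_lit 345) (nat_lit 418) (nat_lit 317)) (XT.lf (nat_lit 0) (nat_lit 93249587187) (nat_lit 0) (nat_lit 0) (nat_lit 0) (nat_lit 0) (nat_lit 0) (nat_lit 0) (nat_lit 1) (nat_lit 0) (nat_lit 1) (nat_lit 0) (nat_lit 346) (nat_lit 418) (nat_lit 316))))))) (XT.nd (nat_lit 846) (nat_lit 0) (nat_lit 0) (XT.nd (nat_lit 376) (nat_lit 0) (nat_lit 0) (XT.nd (nat_lit 188) (nat_lit 0) (nat_lit 0) (XT.nd (nat_lit 94) (nat_lit 0) (nat_lit 0) (XT.lf (nat_lit 0) (nat_lit 93246896142) (nat_lit 0) (nat_lit 0) (nat_lit 0) (nat_lit 0) (nat_lit 0) (nat_lit 0) (nat_lit 1) (nat_lit 0) (nat_lit 1) (nat_lit 0) (nat_lit 347) (nat_lit 418) (nat_lit 315)) (XT.lf (nat_lit 0) (nat_lit 93244404434) (nat_lit 0) (nat_lit 0) (nat_lit 0) (nat_lit 0) (nat_lit 0) (nat_lit 0) (nat_lit 1) (nat_lit 0) (nat_lit 1) (nat_lit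 0) (nat_lit 348) (nat_lit 418) (nat_lit 314))) (XT.nd (nat_lit 94) (nat_lit 0) (nat_lit 0) (XT.lf (nat_lit 0) (nat_lit 93242097298) (nat_lit 0) (nat_lit 0) (nat_lit 0) (nat_lit 0) (nat_lit 0) (nat_lit 0) (nat_lit 1) (nat_lit 0) (nat_lit 1) (nat_lit 0) (nat_lit 349) (nat_lit 418) (nat_lit 313)) (XT.lf (nat_lit 0) (nat_lit 93239961060) (nat_lit 0) (nat_lit 0) (nat_lit 0) (nat_lit 0) (nat_lit 0) (nat_lit 0) (nat_lit 1) (nat_lit 0) (nat_lit 1) (nat_lit 0) (nat_lit 350) (nat_lit 418) (nat_lit 312)))) (XT.nd (nat_lit 188) (nat_lit 0) (nat_lit 0) (XT.nd (nat_lit 94) (nat_lit 0) (nat_lit 0) (XT.lf (nat_lit 0) (nat_lit 93237983062) (nat_lit 0) (nat_lit 0) (nat_lit 0) (nat_lit 0) (nat_lit 0) (nat_lit 0) (nat_lit 1) (nat_lit 0) (nat_lit 1) (nat_lit 0) (nat_lit 351) (nat_lit 418) (nat_lit 311)) (XT.lf (nat_lit 0) (nat_lit 93236151582) (nat_lit 0) (nat_lit 0) (nat_lit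 0) (nat_lit 0) (nat_lit 0) (nat_lit 0) (nat_lit 1) (nat_lit 0) (nat_lit 1) (nat_lit 0) (nat_lit 352) (nat_lit 418) (nat_lit 310))) (XT.nd (nat_lit 94) (nat_lit 0) (nat_lit 0) (XT.lf (nat_lit 0) (nat_lit 93234455768) (nat_lit 0) (nat_lit 0) (nat_lit 0) (nat_lit 0) (nat_lit 0) (nat_lit 0) (nat_lit 1) (nat_lit 0) (nat_lit 1) (nat_lit 0) (nat_lit 353) (nat_lit 418) (nat_lit 309)) (XT.nd (nat_lit 94) (nat_lit 0) (nat_lit 0) (XT.lf (nat_lit 0) (nat_lit 93232885569) (nat_lit 0) (nat_lit 0) (nat_lit 0) (nat_lit 0) (nat_lit 0) (nat_lit 0) (nat_lit 1) (nat_lit 0) (nat_lit 1) (nat_lit 0) (nat_lit 354) (nat_lit 418) (nat_lit 308)) (XT.lf (nat_lit 0) (nat_lit 93231431682) (nat_lit 0) (nat_lit 0) (nat_lit 0) (nat_lit 0) (nat_lit 0) (nat_lit 0) (nat_lit 1) (nat_lit 0) (nat_lit 1) (nat_lit 0) (nat_lit 355) (nat_lit 418) (nat_lit 307)))))) (XT.nd (nat_lit 470) (nat_lit 0)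 (nat_lit 0) (XT.nd (nat_lit 188) (nat_lit 0) (nat_lit 0) (XT.nd (nat_lit 94) (nat_lit 0) (nat_lit 0) (XT.lf (nat_lit 0) (nat_lit 93230085490) (nat_lit 0) (nat_lit 0) (nat_lit 0) (nat_lit 0) (nat_lit 0) (nat_lit 0) (nat_lit 1) (nat_lit 0) (nat_lit 1) (nat_lit 0) (nat_lit 356) (nat_lit 418) (nat_lit 306)) (XT.lf (nat_lit 0) (nat_lit 93228839015) (nat_lit 0) (nat_lit 0) (nat_lit 0) (nat_lit 0) (nat_lit 0) (nat_lit 0) (nat_lit 1) (nat_lit 0) (nat_lit 1) (nat_lit 0) (nat_lit 357) (nat_lit 418) (nat_lit 305))) (XT.nd (nat_lit 94) (nat_lit 0) (nat_lit 0) (XT.lf (nat_lit 0) (nat_lit 93227684873) (nat_lit 0) (nat_lit 0) (nat_lit 0) (nat_lit 0) (nat_lit 0) (nat_lit 0) (nat_lit 1) (nat_lit 0) (nat_lit 1) (nat_lit 0) (nat_lit 358) (nat_lit 418) (nat_lit 304)) (XT.nd (nat_lit 94) (nat_lit 0) (nat_lit 0) (XT.lf (nat_lit 0) (nat_lit 93226616222) (nat_lit 0) (nat_lit 0) (nat_lit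 0) (nat_lit 0) (nat_lit 0) (nat_lit 0) (nat_lit 1) (nat_lit 0) (nat_lit 1) (nat_lit 0) (nat_lit 359) (nat_lit 418) (nat_lit 303)) (XT.lf (nat_lit 0) (nat_lit 93225626730) (nat_lit 0) (nat_lit 0) (nat_lit 0) (nat_lit 0) (nat_lit 0) (nat_lit 0) (nat_lit 1) (nat_lit 0) (nat_lit 1) (nat_lit 0) (nat_lit 360) (nat_lit 418) (nat_lit 302))))) (XT.nd (nat_lit 188) (nat_lit 0) (nat_lit 0) (XT.nd (nat_lit 94) (nat_lit 0) (nat_lit 0) (XT.lf (nat_lit 0) (nat_lit 93224710535) (nat_lit 0) (nat_lit 0) (nat_lit 0) (nat_lit 0) (nat_lit 0) (nat_lit 0) (nat_lit 1) (nat_lit 0) (nat_lit 1) (nat_lit 0) (nat_lit 361) (nat_lit 418) (nat_lit 301)) (XT.lf (nat_lit 0) (nat_lit 93223862205) (nat_lit 0) (nat_lit 0) (nat_lit 0) (nat_lit 0) (nat_lit 0) (nat_lit 0) (nat_lit 1) (nat_lit 0) (nat_lit 1) (nat_lit 0) (nat_lit 362) (nat_lit 418) (nat_lit 300))) (XT.nd (nat_lit 94) (nat_lit 0) (nat_lit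 0) (XT.lf (nat_lit 0) (nat_lit 93223076715) (nat_lit 0) (nat_lit 0) (nat_lit 0) (nat_lit 0) (nat_lit 0) (nat_lit 0) (nat_lit 1) (nat_lit 0) (nat_lit 1) (nat_lit 0) (nat_lit 363) (nat_lit 418) (nat_lit 299)) (XT.nd (nat_lit 94) (nat_lit 0) (nat_lit 0) (XT.lf (nat_lit 0) (nat_lit 93222349409) (nat_lit 0) (nat_lit 0) (nat_lit 0) (nat_lit 0) (nat_lit 0) (nat_lit 0) (nat_lit 1) (nat_lit 0) (nat_lit 1) (nat_lit 0) (nat_lit 364) (nat_lit 418) (nat_lit 298)) (XT.lf (nat_lit 0) (nat_lit 93221675978) (nat_lit 0) (nat_lit 0) (nat_lit 0) (nat_lit 0) (nat_lit 0) (nat_lit 0) (nat_lit 1) (nat_lit 0) (nat_lit 1) (nat_lit 0) (nat_lit 365) (nat_lit 418) (nat_lit 297))))))))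
noncomputable def ec239 : XT := (XT.nd (nat_lit 1786) (nat_lit 0) (nat_lit 0) (XT.nd (nat_lit 846) (nat_lit 0) (nat_lit 0) (XT.nd (nat_lit 376) (nat_lit 0) (nat_lit 0) (XT.nd (nat_lit 188) (nat_lit 0) (nat_lit 0) (XT.nd (nat_lit 94) (nat_lit 0) (nat_lit 0) (XT.lf (nat_lit 0) (nat_lit 93221052431) (nat_lit 0) (nat_lit 0) (nat_lit 0) (nat_lit 0) (nat_lit 0) (nat_lit 0) (nat_lit 1) (nat_lit 0) (nat_lit 1) (nat_lit 0) (nat_lit 366) (nat_lit 418) (nat_lit 296)) (XT.lf (nat_lit 0) (nat_lit 93220475072) (nat_lit 0) (nat_lit 0) (nat_lit 0) (nat_lit 0) (nat_lit 0) (nat_lit 0) (nat_lit 1) (nat_lit 0) (nat_lit 1) (nat_lit 0) (nat_lit 367) (nat_lit 418) (nat_lit 295))) (XT.nd (nat_lit 94) (nat_lit 0) (nat_lit 0) (XT.lf (nat_lit 0) (nat_lit 93219940480) (nat_lit 0) (nat_lit 0) (nat_lit 0) (nat_lit 0) (nat_lit 0) (nat_lit 0) (nat_lit 1) (nat_lit 0) (nat_lit 1) (nat_lit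 0) (nat_lit 368) (nat_lit 418) (nat_lit 294)) (XT.lf (nat_lit 0) (nat_lit 93219445488) (nat_lit 0) (nat_lit 0) (nat_lit 0) (nat_lit 0) (nat_lit 0) (nat_lit 0) (nat_lit 1) (nat_lit 0) (nat_lit 1) (nat_lit 0) (nat_lit 369) (nat_lit 418) (nat_lit 293)))) (XT.nd (nat_lit 188) (nat_lit 0) (nat_lit 0) (XT.nd (nat_lit 94) (nat_lit 0) (nat_lit 0) (XT.lf (nat_lit 0) (nat_lit 93218987162) (nat_lit 0) (nat_lit 0) (nat_lit 0) (nat_lit 0) (nat_lit 0) (nat_lit 0) (nat_lit 1) (nat_lit 0) (nat_lit 1) (nat_lit 0) (nat_lit 370) (nat_lit 418) (nat_lit 292)) (XT.lf (nat_lit 0) (nat_lit 93218562786) (nat_lit 0) (nat_lit 0) (nat_lit 0) (nat_lit 0) (nat_lit 0) (nat_lit 0) (nat_lit 1) (nat_lit 0) (nat_lit 1) (nat_lit 0) (nat_lit 371) (nat_lit 418) (nat_lit 291))) (XT.nd (nat_lit 94) (nat_lit 0) (nat_lit 0) (XT.lf (nat_lit 0) (nat_lit 93218169846) (nat_lit 0) (nat_lit 0) (nat_lit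 0) (nat_lit 0) (nat_lit 0) (nat_lit 0) (nat_lit 1) (nat_lit 0) (nat_lit 1) (nat_lit 0) (nat_lit 372) (nat_lit 418) (nat_lit 290)) (XT.nd (nat_lit 94) (nat_lit 0) (nat_lit 0) (XT.lf (nat_lit 0) (nat_lit 93217806012) (nat_lit 0) (nat_lit 0) (nat_lit 0) (nat_lit 0) (nat_lit 0) (nat_lit 0) (nat_lit 1) (nat_lit 0) (nat_lit 1) (nat_lit 0) (nat_lit 373) (nat_lit 418) (nat_lit 289)) (XT.lf (nat_lit 0) (nat_lit 93217469129) (nat_lit 0) (nat_lit 0) (nat_lit 0) (nat_lit 0) (nat_lit 0) (nat_lit 0) (nat_lit 1) (nat_lit 0) (nat_lit 1) (nat_lit 0) (nat_lit 374) (nat_lit 418) (nat_lit 288)))))) (XT.nd (nat_lit 470) (nat_lit 0) (nat_lit 0) (XT.nd (nat_lit 188) (nat_lit 0) (nat_lit 0) (XT.nd (nat_lit 94) (nat_lit 0) (nat_lit 0) (XT.lf (nat_lit 0) (nat_lit 93217157200) (nat_lit 0) (nat_lit 0) (nat_lit 0) (nat_lit 0) (nat_lit 0) (nat_lit 0) (nat_lit 1) (nat_lit 0) (nat_lit 1)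 (nat_lit 0) (nat_lit 375) (nat_lit 418) (nat_lit 287)) (XT.lf (nat_lit 0) (nat_lit 93216868376) (nat_lit 0) (nat_lit 0) (nat_lit 0) (nat_lit 0) (nat_lit 0) (nat_lit 0) (nat_lit 1) (nat_lit 0) (nat_lit 1) (nat_lit 0) (nat_lit 376) (nat_lit 418) (nat_lit 286))) (XT.nd (nat_lit 94) (nat_lit 0) (nat_lit 0) (XT.lf (nat_lit 0) (nat_lit 93216600948) (nat_lit 0) (nat_lit 0) (nat_lit 0) (nat_lit 0) (nat_lit 0) (nat_lit 0) (nat_lit 1) (nat_lit 0) (nat_lit 1) (nat_lit 0) (nat_lit 377) (nat_lit 418) (nat_lit 285)) (XT.nd (nat_lit 94) (nat_lit 0) (nat_lit 0) (XT.lf (nat_lit 0) (nat_lit 93216353328) (nat_lit 0) (nat_lit 0) (nat_lit 0) (nat_lit 0) (nat_lit 0) (nat_lit 0) (nat_lit 1) (nat_lit 0) (nat_lit 1) (nat_lit 0) (nat_lit 378) (nat_lit 418) (nat_lit 284)) (XT.lf (nat_lit 0) (nat_lit 93216124051) (nat_lit 0) (nat_lit 0) (nat_lit 0) (nat_lit 0) (nat_lit 0) (nat_lit 0)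 (nat_lit 1) (nat_lit 0) (nat_lit 1) (nat_lit 0) (nat_lit 379) (nat_lit 418) (nat_lit 283))))) (XT.nd (nat_lit 188) (nat_lit 0) (nat_lit 0) (XT.nd (nat_lit 94) (nat_lit 0) (nat_lit 0) (XT.lf (nat_lit 0) (nat_lit 93215911758) (nat_lit 0) (nat_lit 0) (nat_lit 0) (nat_lit 0) (nat_lit 0) (nat_lit 0) (nat_lit 1) (nat_lit 0) (nat_lit 1) (nat_lit 0) (nat_lit 380) (nat_lit 418) (nat_lit 282)) (XT.lf (nat_lit 0) (nat_lit 93215715189) (nat_lit 0) (nat_lit 0) (nat_lit 0) (nat_lit 0) (nat_lit 0) (nat_lit 0) (nat_lit 1) (nat_lit 0) (nat_lit 1) (nat_lit 0) (nat_lit 381) (nat_lit 418) (nat_lit 281))) (XT.nd (nat_lit 94) (nat_lit 0) (nat_lit 0) (XT.lf (nat_lit 0) (nat_lit 93215533182) (nat_lit 0) (nat_lit 0) (nat_lit 0) (nat_lit 0) (nat_lit 0) (nat_lit 0) (nat_lit 1) (nat_lit 0) (nat_lit 1) (nat_lit 0) (nat_lit 382) (nat_lit 418) (nat_lit 280)) (XT.nd (nat_lit 94) (nat_lit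 0) (nat_lit 0) (XT.lf (nat_lit 0) (nat_lit 93215364656) (nat_lit 0) (nat_lit 0) (nat_lit 0) (nat_lit 0) (nat_lit 0) (nat_lit 0) (nat_lit 1) (nat_lit 0) (nat_lit 1) (nat_lit 0) (nat_lit 383) (nat_lit 418) (nat_lit 279)) (XT.lf (nat_lit 0) (nat_lit 93215208614) (nat_lit 0) (nat_lit 0) (nat_lit 0) (nat_lit 0) (nat_lit 0) (nat_lit 0) (nat_lit 1) (nat_lit 0) (nat_lit 1) (nat_lit 0) (nat_lit 384) (nat_lit 418) (nat_lit 278))))))) (XT.nd (nat_lit 846) (nat_lit 0) (nat_lit 0) (XT.nd (nat_lit 376) (nat_lit 0) (nat_lit 0) (XT.nd (nat_lit 188) (nat_lit 0) (nat_lit 0) (XT.nd (nat_lit 94) (nat_lit 0) (nat_lit 0) (XT.lf (nat_lit 0) (nat_lit 93215064131) (nat_lit 0) (nat_lit 0) (nat_lit 0) (nat_lit 0) (nat_lit 0) (nat_lit 0) (nat_lit 1) (nat_lit 0) (nat_lit 1) (nat_lit 0) (nat_lit 385) (nat_lit 418) (nat_lit 277)) (XT.lf (nat_lit 0) (nat_lit 93214930350) (nat_lit 0) (nat_lit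 0) (nat_lit 0) (nat_lit 0) (nat_lit 0) (nat_lit 0) (nat_lit 1) (nat_lit 0) (nat_lit 1) (nat_lit 0) (nat_lit 386) (nat_lit 418) (nat_lit 276))) (XT.nd (nat_lit 94) (nat_lit 0) (nat_lit 0) (XT.lf (nat_lit 0) (nat_lit 93214806479) (nat_lit 0) (nat_lit 0) (nat_lit 0) (nat_lit 0) (nat_lit 0) (nat_lit 0) (nat_lit 1) (nat_lit 0) (nat_lit 1) (nat_lit 0) (nat_lit 387) (nat_lit 418) (nat_lit 275)) (XT.lf (nat_lit 0) (nat_lit 93214691783) (nat_lit 0) (nat_lit 0) (nat_lit 0) (nat_lit 0) (nat_lit 0) (nat_lit 0) (nat_lit 1) (nat_lit 0) (nat_lit 1) (nat_lit 0) (nat_lit 388) (nat_lit 418) (nat_lit 274)))) (XT.nd (nat_lit 188) (nat_lit 0) (nat_lit 0) (XT.nd (nat_lit 94) (nat_lit 0) (nat_lit 0) (XT.lf (nat_lit 0) (nat_lit 93214585583) (nat_lit 0) (nat_lit 0) (nat_lit 0) (nat_lit 0) (nat_lit 0) (nat_lit 0) (nat_lit 1) (nat_lit 0) (nat_lit 1) (nat_lit 0) (nat_lit 389) (nat_lit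 418) (nat_lit 273)) (XT.lf (nat_lit 0) (nat_lit 93214487250) (nat_lit 0) (nat_lit 0) (nat_lit 0) (nat_lit 0) (nat_lit 0) (nat_lit 0) (nat_lit 1) (nat_lit 0) (nat_lit 1) (nat_lit 0) (nat_lit 390) (nat_lit 418) (nat_lit 272))) (XT.nd (nat_lit 94) (nat_lit 0) (nat_lit 0) (XT.lf (nat_lit 0) (nat_lit 93214396201) (nat_lit 0) (nat_lit 0) (nat_lit 0) (nat_lit 0) (nat_lit 0) (nat_lit 0) (nat_lit 1) (nat_lit 0) (nat_lit 1) (nat_lit 0) (nat_lit 391) (nat_lit 418) (nat_lit 271)) (XT.nd (nat_lit 94) (nat_lit 0) (nat_lit 0) (XT.lf (nat_lit 0) (nat_lit 93214311896) (nat_lit 0) (nat_lit 0) (nat_lit 0) (nat_lit 0) (nat_lit 0) (nat_lit 0) (nat_lit 1) (nat_lit 0) (nat_lit 1) (nat_lit 0) (nat_lit 392) (nat_lit 418) (nat_lit 270)) (XT.lf (nat_lit 0) (nat_lit 93214233837) (nat_lit 0) (nat_lit 0) (nat_lit 0) (nat_lit 0) (nat_lit 0) (nat_lit 0) (nat_lit 1) (nat_lit 0) (nat_lit 1)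 (nat_lit 0) (nat_lit 393) (nat_lit 418) (nat_lit 269)))))) (XT.nd (nat_lit 470) (nat_lit 0) (nat_lit 0) (XT.nd (nat_lit 188) (nat_lit 0) (nat_lit 0) (XT.nd (nat_lit 94) (nat_lit 0) (nat_lit 0) (XT.lf (nat_lit 0) (nat_lit 93214161559) (nat_lit 0) (nat_lit 0) (nat_lit 0) (nat_lit 0) (nat_lit 0) (nat_lit 0) (nat_lit 1) (nat_lit 0) (nat_lit 1) (nat_lit 0) (nat_lit 394) (nat_lit 418) (nat_lit 268)) (XT.lf (nat_lit 0) (nat_lit 93214094635) (nat_lit 0) (nat_lit 0) (nat_lit 0) (nat_lit 0) (nat_lit 0) (nat_lit 0) (nat_lit 1) (nat_lit 0) (nat_lit 1) (nat_lit 0) (nat_lit 395) (nat_lit 418) (nat_lit 267))) (XT.nd (nat_lit 94) (nat_lit 0) (nat_lit 0) (XT.lf (nat_lit 0) (nat_lit 93214032669) (nat_lit 0) (nat_lit 0) (nat_lit 0) (nat_lit 0) (nat_lit 0) (nat_lit 0) (nat_lit 1) (nat_lit 0) (nat_lit 1) (nat_lit 0) (nat_lit 396) (nat_lit 418) (nat_lit 266)) (XT.nd (nat_lit 94)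 (nat_lit 0) (nat_lit 0) (XT.lf (nat_lit 0) (nat_lit 93213975292) (nat_lit 0) (nat_lit 0) (nat_lit 0) (nat_lit 0) (nat_lit 0) (nat_lit 0) (nat_lit 1) (nat_lit 0) (nat_lit 1) (nat_lit 0) (nat_lit 397) (nat_lit 418) (nat_lit 265)) (XT.lf (nat_lit 0) (nat_lit 93213922166) (nat_lit 0) (nat_lit 0) (nat_lit 0) (nat_lit 0) (nat_lit 0) (nat_lit 0) (nat_lit 1) (nat_lit 0) (nat_lit 1) (nat_lit 0) (nat_lit 398) (nat_lit 418) (nat_lit 264))))) (XT.nd (nat_lit 188) (nat_lit 0) (nat_lit 0) (XT.nd (nat_lit 94) (nat_lit 0) (nat_lit 0) (XT.lf (nat_lit 0) (nat_lit 93213872975) (nat_lit 0) (nat_lit 0) (nat_lit 0) (nat_lit 0) (nat_lit 0) (nat_lit 0) (nat_lit 1) (nat_lit 0) (nat_lit 1) (nat_lit 0) (nat_lit 399) (nat_lit 418) (nat_lit 263)) (XT.lf (nat_lit 0) (nat_lit 93213827428) (nat_lit 0) (nat_lit 0) (nat_lit 0) (nat_lit 0) (nat_lit 0) (nat_lit 0) (nat_lit 1) (nat_lit 0) (nat_lit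 1) (nat_lit 0) (nat_lit 400) (nat_lit 418) (nat_lit 262))) (XT.nd (nat_lit 94) (nat_lit 0) (nat_lit 0) (XT.lf (nat_lit 0) (nat_lit 93213785254) (nat_lit 0) (nat_lit 0) (nat_lit 0) (nat_lit 0) (nat_lit 0) (nat_lit 0) (nat_lit 1) (nat_lit 0) (nat_lit 1) (nat_lit 0) (nat_lit 401) (nat_lit 418) (nat_lit 261)) (XT.nd (nat_lit 94) (nat_lit 0) (nat_lit 0) (XT.lf (nat_lit 0) (nat_lit 93213746205) (nat_lit 0) (nat_lit 0) (nat_lit 0) (nat_lit 0) (nat_lit 0) (nat_lit 0) (nat_lit 1) (nat_lit 0) (nat_lit 1) (nat_lit 0) (nat_lit 402) (nat_lit 418) (nat_lit 260)) (XT.lf (nat_lit 0) (nat_lit 93213710048) (nat_lit 0) (nat_lit 0) (nat_lit 0) (nat_lit 0) (nat_lit 0) (nat_lit 0) (nat_lit 1) (nat_lit 0) (nat_lit 1) (nat_lit 0) (nat_lit 403) (nat_lit 418) (nat_lit 259))))))))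
noncomputable def ec240 : XT := (XT.nd (nat_lit 1692) (nat_lit 0) (nat_lit 0) (XT.nd (nat_lit 846) (nat_lit 0) (nat_lit 0) (XT.nd (nat_lit 376) (nat_lit 0) (nat_lit 0) (XT.nd (nat_lit 188) (nat_lit 0) (nat_lit 0) (XT.nd (nat_lit 94) (nat_lit 0) (nat_lit 0) (XT.lf (nat_lit 0) (nat_lit 93213676570) (nat_lit 0) (nat_lit 0) (nat_lit 0) (nat_lit 0) (nat_lit 0) (nat_lit 0) (nat_lit 1) (nat_lit 0) (nat_lit 1) (nat_lit 0) (nat_lit 404) (nat_lit 418) (nat_lit 258)) (XT.lf (nat_lit 0) (nat_lit 93213645571) (nat_lit 0) (nat_lit 0) (nat_lit 0) (nat_lit 0) (nat_lit 0) (nat_lit 0) (nat_lit 1) (nat_lit 0) (nat_lit 1) (nat_lit 0) (nat_lit 405) (nat_lit 418) (nat_lit 257))) (XT.nd (nat_lit 94) (nat_lit 0) (nat_lit 0) (XT.lf (nat_lit 0) (nat_lit 93213616868) (nat_lit 0) (nat_lit 0) (nat_lit 0) (nat_lit 0) (nat_lit 0) (nat_lit 0) (nat_lit 1) (nat_lit 0) (nat_lit 1) (nat_lit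 0) (nat_lit 406) (nat_lit 418) (nat_lit 256)) (XT.lf (nat_lit 0) (nat_lit 93213590292) (nat_lit 0) (nat_lit 0) (nat_lit 0) (nat_lit 0) (nat_lit 0) (nat_lit 0) (nat_lit 1) (nat_lit 0) (nat_lit 1) (nat_lit 0) (nat_lit 407) (nat_lit 418) (nat_lit 255)))) (XT.nd (nat_lit 188) (nat_lit 0) (nat_lit 0) (XT.nd (nat_lit 94) (nat_lit 0) (nat_lit 0) (XT.lf (nat_lit 0) (nat_lit 93213565684) (nat_lit 0) (nat_lit 0) (nat_lit 0) (nat_lit 0) (nat_lit 0) (nat_lit 0) (nat_lit 1) (nat_lit 0) (nat_lit 1) (nat_lit 0) (nat_lit 408) (nat_lit 418) (nat_lit 254)) (XT.lf (nat_lit 0) (nat_lit 93213542899) (nat_lit 0) (nat_lit 0) (nat_lit 0) (nat_lit 0) (nat_lit 0) (nat_lit 0) (nat_lit 1) (nat_lit 0) (nat_lit 1) (nat_lit 0) (nat_lit 409) (nat_lit 418) (nat_lit 253))) (XT.nd (nat_lit 94) (nat_lit 0) (nat_lit 0) (XT.lf (nat_lit 0) (nat_lit 93213521802) (nat_lit 0) (nat_lit 0) (nat_lit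 0) (nat_lit 0) (nat_lit 0) (nat_lit 0) (nat_lit 1) (nat_lit 0) (nat_lit 1) (nat_lit 0) (nat_lit 410) (nat_lit 418) (nat_lit 252)) (XT.nd (nat_lit 94) (nat_lit 0) (nat_lit 0) (XT.lf (nat_lit 0) (nat_lit 93213502268) (nat_lit 0) (nat_lit 0) (nat_lit 0) (nat_lit 0) (nat_lit 0) (nat_lit 0) (nat_lit 1) (nat_lit 0) (nat_lit 1) (nat_lit 0) (nat_lit 411) (nat_lit 418) (nat_lit 251)) (XT.lf (nat_lit 0) (nat_lit 93213484180) (nat_lit 0) (nat_lit 0) (nat_lit 0) (nat_lit 0) (nat_lit 0) (nat_lit 0) (nat_lit 1) (nat_lit 0) (nat_lit 1) (nat_lit 0) (nat_lit 412) (nat_lit 418) (nat_lit 250)))))) (XT.nd (nat_lit 376) (nat_lit 0) (nat_lit 0) (XT.nd (nat_lit 188) (nat_lit 0) (nat_lit 0) (XT.nd (nat_lit 94) (nat_lit 0) (nat_lit 0) (XT.lf (nat_lit 0) (nat_lit 93213467433) (nat_lit 0) (nat_lit 0) (nat_lit 0) (nat_lit 0) (nat_lit 0) (nat_lit 0) (nat_lit 1) (nat_lit 0) (nat_lit 1)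 (nat_lit 0) (nat_lit 413) (nat_lit 418) (nat_lit 249)) (XT.lf (nat_lit 0) (nat_lit 93213451926) (nat_lit 0) (nat_lit 0) (nat_lit 0) (nat_lit 0) (nat_lit 0) (nat_lit 0) (nat_lit 1) (nat_lit 0) (nat_lit 1) (nat_lit 0) (nat_lit 414) (nat_lit 418) (nat_lit 248))) (XT.nd (nat_lit 94) (nat_lit 0) (nat_lit 0) (XT.lf (nat_lit 0) (nat_lit 93213437567) (nat_lit 0) (nat_lit 0) (nat_lit 0) (nat_lit 0) (nat_lit 0) (nat_lit 0) (nat_lit 1) (nat_lit 0) (nat_lit 1) (nat_lit 0) (nat_lit 415) (nat_lit 418) (nat_lit 247)) (XT.lf (nat_lit 0) (nat_lit 93213424272) (nat_lit 0) (nat_lit 0) (nat_lit 0) (nat_lit 0) (nat_lit 0) (nat_lit 0) (nat_lit 1) (nat_lit 0) (nat_lit 1) (nat_lit 0) (nat_lit 416) (nat_lit 418) (nat_lit 246)))) (XT.nd (nat_lit 188) (nat_lit 0) (nat_lit 0) (XT.nd (nat_lit 94) (nat_lit 0) (nat_lit 0) (XT.lf (nat_lit 0) (nat_lit 93213411962) (nat_lit 0) (nat_lit 0)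 (nat_lit 0) (nat_lit 0) (nat_lit 0) (nat_lit 0) (nat_lit 1) (nat_lit 0) (nat_lit 1) (nat_lit 0) (nat_lit 417) (nat_lit 418) (nat_lit 245)) (XT.lf (nat_lit 0) (nat_lit 93213400564) (nat_lit 0) (nat_lit 0) (nat_lit 0) (nat_lit 0) (nat_lit 0) (nat_lit 0) (nat_lit 1) (nat_lit 0) (nat_lit 1) (nat_lit 0) (nat_lit 418) (nat_lit 418) (nat_lit 244))) (XT.nd (nat_lit 94) (nat_lit 0) (nat_lit 0) (XT.lf (nat_lit 0) (nat_lit 93213390010) (nat_lit 0) (nat_lit 0) (nat_lit 0) (nat_lit 0) (nat_lit 0) (nat_lit 0) (nat_lit 1) (nat_lit 0) (nat_lit 1) (nat_lit 0) (nat_lit 419) (nat_lit 418) (nat_lit 243)) (XT.nd (nat_lit 94) (nat_lit 0) (nat_lit 0) (XT.lf (nat_lit 0) (nat_lit 93213380238) (nat_lit 0) (nat_lit 0) (nat_lit 0) (nat_lit 0) (nat_lit 0) (nat_lit 0) (nat_lit 1) (nat_lit 0) (nat_lit 1) (nat_lit 0) (nat_lit 420) (nat_lit 418) (nat_lit 242)) (XT.lf (nat_lit 0) (nat_lit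 93213371190) (nat_lit 0) (nat_lit 0) (nat_lit 0) (nat_lit 0) (nat_lit 0) (nat_lit 0) (nat_lit 1) (nat_lit 0) (nat_lit 1) (nat_lit 0) (nat_lit 421) (nat_lit 418) (nat_lit 241))))))) (XT.nd (nat_lit 846) (nat_lit 0) (nat_lit 0) (XT.nd (nat_lit 376) (nat_lit 0) (nat_lit 0) (XT.nd (nat_lit 188) (nat_lit 0) (nat_lit 0) (XT.nd (nat_lit 94) (nat_lit 0) (nat_lit 0) (XT.lf (nat_lit 0) (nat_lit 93213362812) (nat_lit 0) (nat_lit 0) (nat_lit 0) (nat_lit 0) (nat_lit 0) (nat_lit 0) (nat_lit 1) (nat_lit 0) (nat_lit 1) (nat_lit 0) (nat_lit 422) (nat_lit 418) (nat_lit 240)) (XT.lf (nat_lit 0) (nat_lit 93213355055) (nat_lit 0) (nat_lit 0) (nat_lit 0) (nat_lit 0) (nat_lit 0) (nat_lit 0) (nat_lit 1) (nat_lit 0) (nat_lit 1) (nat_lit 0) (nat_lit 423) (nat_lit 418) (nat_lit 239))) (XT.nd (nat_lit 94) (nat_lit 0) (nat_lit 0) (XT.lf (nat_lit 0) (nat_lit 93213347872) (nat_lit 0) (nat_lit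 0) (nat_lit 0) (nat_lit 0) (nat_lit 0) (nat_lit 0) (nat_lit 1) (nat_lit 0) (nat_lit 1) (nat_lit 0) (nat_lit 424) (nat_lit 418) (nat_lit 238)) (XT.lf (nat_lit 0) (nat_lit 93213341221) (nat_lit 0) (nat_lit 0) (nat_lit 0) (nat_lit 0) (nat_lit 0) (nat_lit 0) (nat_lit 1) (nat_lit 0) (nat_lit 1) (nat_lit 0) (nat_lit 425) (nat_lit 418) (nat_lit 237)))) (XT.nd (nat_lit 188) (nat_lit 0) (nat_lit 0) (XT.nd (nat_lit 94) (nat_lit 0) (nat_lit 0) (XT.lf (nat_lit 0) (nat_lit 93213335063) (nat_lit 0) (nat_lit 0) (nat_lit 0) (nat_lit 0) (nat_lit 0) (nat_lit 0) (nat_lit 1) (nat_lit 0) (nat_lit 1) (nat_lit 0) (nat_lit 426) (nat_lit 418) (nat_lit 236)) (XT.lf (nat_lit 0) (nat_lit 93213329361) (nat_lit 0) (nat_lit 0) (nat_lit 0) (nat_lit 0) (nat_lit 0) (nat_lit 0) (nat_lit 1) (nat_lit 0) (nat_lit 1) (nat_lit 0) (nat_lit 427) (nat_lit 418) (nat_lit 235))) (XT.nd (nat_lit 94) (nat_lit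 0) (nat_lit 0) (XT.lf (nat_lit 0) (nat_lit 93213324082) (nat_lit 0) (nat_lit 0) (nat_lit 0) (nat_lit 0) (nat_lit 0) (nat_lit 0) (nat_lit 1) (nat_lit 0) (nat_lit 1) (nat_lit 0) (nat_lit 428) (nat_lit 418) (nat_lit 234)) (XT.nd (nat_lit 94) (nat_lit 0) (nat_lit 0) (XT.lf (nat_lit 0) (nat_lit 93213319193) (nat_lit 0) (nat_lit 0) (nat_lit 0) (nat_lit 0) (nat_lit 0) (nat_lit 0) (nat_lit 1) (nat_lit 0) (nat_lit 1) (nat_lit 0) (nat_lit 429) (nat_lit 418) (nat_lit 233)) (XT.lf (nat_lit 0) (nat_lit 93213314667) (nat_lit 0) (nat_lit 0) (nat_lit 0) (nat_lit 0) (nat_lit 0) (nat_lit 0) (nat_lit 1) (nat_lit 0) (nat_lit 1) (nat_lit 0) (nat_lit 430) (nat_lit 418) (nat_lit 232)))))) (XT.nd (nat_lit 470) (nat_lit 0) (nat_lit 0) (XT.nd (nat_lit 188) (nat_lit 0) (nat_lit 0) (XT.nd (nat_lit 94) (nat_lit 0) (nat_lit 0) (XT.lf (nat_lit 0) (nat_lit 93213310476) (nat_lit 0) (nat_lit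 0) (nat_lit 0) (nat_lit 0) (nat_lit 0) (nat_lit 0) (nat_lit 1) (nat_lit 0) (nat_lit 1) (nat_lit 0) (nat_lit 431) (nat_lit 418) (nat_lit 231)) (XT.lf (nat_lit 0) (nat_lit 93213306595) (nat_lit 0) (nat_lit 0) (nat_lit 0) (nat_lit 0) (nat_lit 0) (nat_lit 0) (nat_lit 1) (nat_lit 0) (nat_lit 1) (nat_lit 0) (nat_lit 432) (nat_lit 418) (nat_lit 230))) (XT.nd (nat_lit 94) (nat_lit 0) (nat_lit 0) (XT.lf (nat_lit 0) (nat_lit 93213303002) (nat_lit 0) (nat_lit 0) (nat_lit 0) (nat_lit 0) (nat_lit 0) (nat_lit 0) (nat_lit 1) (nat_lit 0) (nat_lit 1) (nat_lit 0) (nat_lit 433) (nat_lit 418) (nat_lit 229)) (XT.nd (nat_lit 94) (nat_lit 0) (nat_lit 0) (XT.lf (nat_lit 0) (nat_lit 93213299675) (nat_lit 0) (nat_lit 0) (nat_lit 0) (nat_lit 0) (nat_lit 0) (nat_lit 0) (nat_lit 1) (nat_lit 0) (nat_lit 1) (nat_lit 0) (nat_lit 434) (nat_lit 418) (nat_lit 228)) (XT.lf (nat_lit 0) (nat_lit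 93213296595) (nat_lit 0) (nat_lit 0) (nat_lit 0) (nat_lit 0) (nat_lit 0) (nat_lit 0) (nat_lit 1) (nat_lit 0) (nat_lit 1) (nat_lit 0) (nat_lit 435) (nat_lit 418) (nat_lit 227))))) (XT.nd (nat_lit 188) (nat_lit 0) (nat_lit 0) (XT.nd (nat_lit 94) (nat_lit 0) (nat_lit 0) (XT.lf (nat_lit 0) (nat_lit 93213293742) (nat_lit 0) (nat_lit 0) (nat_lit 0) (nat_lit 0) (nat_lit 0) (nat_lit 0) (nat_lit 1) (nat_lit 0) (nat_lit 1) (nat_lit 0) (nat_lit 436) (nat_lit 418) (nat_lit 226)) (XT.lf (nat_lit 0) (nat_lit 93213291101) (nat_lit 0) (nat_lit 0) (nat_lit 0) (nat_lit 0) (nat_lit 0) (nat_lit 0) (nat_lit 1) (nat_lit 0) (nat_lit 1) (nat_lit 0) (nat_lit 437) (nat_lit 418) (nat_lit 225))) (XT.nd (nat_lit 94) (nat_lit 0) (nat_lit 0) (XT.lf (nat_lit 0) (nat_lit 93213288656) (nat_lit 0) (nat_lit 0) (nat_lit 0) (nat_lit 0) (nat_lit 0) (nat_lit 0) (nat_lit 1) (nat_lit 0) (nat_lit 1)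 (nat_lit 0) (nat_lit 438) (nat_lit 418) (nat_lit 224)) (XT.nd (nat_lit 94) (nat_lit 0) (nat_lit 0) (XT.lf (nat_lit 0) (nat_lit 93213286391) (nat_lit 0) (nat_lit 0) (nat_lit 0) (nat_lit 0) (nat_lit 0) (nat_lit 0) (nat_lit 1) (nat_lit 0) (nat_lit 1) (nat_lit 0) (nat_lit 439) (nat_lit 418) (nat_lit 223)) (XT.lf (nat_lit 0) (nat_lit 93213284295) (nat_lit 0) (nat_lit 0) (nat_lit 0) (nat_lit 0) (nat_lit 0) (nat_lit 0) (nat_lit 1) (nat_lit 0) (nat_lit 1) (nat_lit 0) (nat_lit 440) (nat_lit 418) (nat_lit 222))))))))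
noncomputable def ec241 : XT := (XT.nd (nat_lit 50666) (nat_lit 0) (nat_lit 3024) (XT.nd (nat_lit 49726) (nat_lit 0) (nat_lit 7224) (XT.nd (nat_lit 49256) (nat_lit 0) (nat_lit 10836) (XT.nd (nat_lit 49068) (nat_lit 0) (nat_lit 10752) (XT.nd (nat_lit 94) (nat_lit 0) (nat_lit 0) (XT.lf (nat_lit 0) (nat_lit 93213282353) (nat_lit 0) (nat_lit 0) (nat_lit 0) (nat_lit 0) (nat_lit 0) (nat_lit 0) (nat_lit 1) (nat_lit 0) (nat_lit 1) (nat_lit 0) (nat_lit 441) (nat_lit 418) (nat_lit 221)) (XT.lf (nat_lit 0) (nat_lit 93213280556) (nat_lit 0) (nat_lit 0) (nat_lit 0) (nat_lit 0) (nat_lit 0) (nat_lit 0) (nat_lit 1) (nat_lit 0) (nat_lit 1) (nat_lit 0) (nat_lit 442) (nat_lit 418) (nat_lit 220))) (XT.nd (nat_lit 94) (nat_lit 0) (nat_lit 84) (XT.lf (nat_lit 924) (nat_lit 50379198363) (nat_lit 0) (nat_lit 89448150893) (nat_lit 924) (nat_lit 50379198363) (nat_lit 139) (nat_lit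 1) (nat_lit 128) (nat_lit 0) (nat_lit 139) (nat_lit 0) (nat_lit 242) (nat_lit 419) (nat_lit 419)) (XT.lf (nat_lit 924) (nat_lit 18792986831) (nat_lit 0) (nat_lit 175613829815) (nat_lit 840) (nat_lit 171749738846) (nat_lit 140) (nat_lit 1) (nat_lit 129) (nat_lit 1) (nat_lit 139) (nat_lit 1) (nat_lit 243) (nat_lit 419) (nat_lit 418)))) (XT.nd (nat_lit 188) (nat_lit 0) (nat_lit 168) (XT.nd (nat_lit 94) (nat_lit 0) (nat_lit 84) (XT.lf (nat_lit 924) (nat_lit 172602736581) (nat_lit 84) (nat_lit 117608641023) (nat_lit 0) (nat_lit 62374258350) (nat_lit 140) (nat_lit 1) (nat_lit 130) (nat_lit 1) (nat_lit 129) (nat_lit 1) (nat_lit 244) (nat_lit 419) (nat_lit 417)) (XT.lf (nat_lit 924) (nat_lit 149142904226) (nat_lit 84) (nat_lit 49288966266) (nat_lit 0) (nat_lit 141261969159) (nat_lit 141) (nat_lit 1) (nat_lit 131) (nat_lit 1) (nat_lit 130) (nat_lit 1) (nat_lit 245)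 (nat_lit 419) (nat_lit 416))) (XT.nd (nat_lit 94) (nat_lit 0) (nat_lit 84) (XT.lf (nat_lit 924) (nat_lit 110378428816) (nat_lit 0) (nat_lit 206512822953) (nat_lit 840) (nat_lit 10556906004) (nat_lit 142) (nat_lit 1) (nat_lit 131) (nat_lit 1) (nat_lit 141) (nat_lit 1) (nat_lit 246) (nat_lit 419) (nat_lit 415)) (XT.nd (nat_lit 94) (nat_lit 0) (nat_lit 0) (XT.lf (nat_lit 924) (nat_lit 26484221763) (nat_lit 0) (nat_lit 227737758793) (nat_lit 840) (nat_lit 61565312369) (nat_lit 143) (nat_lit 1) (nat_lit 132) (nat_lit 1) (nat_lit 142) (nat_lit 1) (nat_lit 247) (nat_lit 419) (nat_lit 414)) (XT.lf (nat_lit 924) (nat_lit 50891902185) (nat_lit 84) (nat_lit 197922657873) (nat_lit 0) (nat_lit 55856215953) (nat_lit 143) (nat_lit 1) (nat_lit 133) (nat_lit 1) (nat_lit 132) (nat_lit 1) (nat_lit 248) (nat_lit 419) (nat_lit 413)))))) (XT.nd (nat_lit 470) (nat_lit 1344) (nat_lit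 0) (XT.nd (nat_lit 188) (nat_lit 1176) (nat_lit 0) (XT.nd (nat_lit 94) (nat_lit 588) (nat_lit 0) (XT.lf (nat_lit 924) (nat_lit 10452036217) (nat_lit 0) (nat_lit 147960278840) (nat_lit 840) (nat_lit 135678025393) (nat_lit 134) (nat_lit 1) (nat_lit 123) (nat_lit 1) (nat_lit 133) (nat_lit 1) (nat_lit 249) (nat_lit 419) (nat_lit 412)) (XT.lf (nat_lit 84) (nat_lit 72372076017) (nat_lit 0) (nat_lit 31362188462) (nat_lit 588) (nat_lit 180276613819) (nat_lit 117) (nat_lit 1) (nat_lit 116) (nat_lit 1) (nat_lit 123) (nat_lit 1) (nat_lit 250) (nat_lit 419) (nat_lit 411))) (XT.nd (nat_lit 94) (nat_lit 756) (nat_lit 0) (XT.lf (nat_lit 504) (nat_lit 199448332263) (nat_lit 0) (nat_lit 64924731910) (nat_lit 420) (nat_lit 10037764717) (nat_lit 117) (nat_lit 1) (nat_lit 111) (nat_lit 1) (nat_lit 116) (nat_lit 1) (nat_lit 251) (nat_lit 419) (nat_lit 410)) (XT.nd (nat_lit 94)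 (nat_lit 336) (nat_lit 0) (XT.lf (nat_lit 504) (nat_lit 143923815852) (nat_lit 0) (nat_lit 30261697216) (nat_lit 420) (nat_lit 91038051373) (nat_lit 112) (nat_lit 1) (nat_lit 106) (nat_lit 1) (nat_lit 111) (nat_lit 1) (nat_lit 252) (nat_lit 419) (nat_lit 409)) (XT.lf (nat_lit 420) (nat_lit 87575806350) (nat_lit 0) (nat_lit 557167023) (nat_lit 336) (nat_lit 168348797095) (nat_lit 107) (nat_lit 1) (nat_lit 102) (nat_lit 1) (nat_lit 106) (nat_lit 1) (nat_lit 253) (nat_lit 419) (nat_lit 408))))) (XT.nd (nat_lit 188) (nat_lit 924) (nat_lit 0) (XT.nd (nat_lit 94) (nat_lit 420) (nat_lit 0) (XT.lf (nat_lit 84) (nat_lit 6460929110) (nat_lit 0) (nat_lit 217893836573) (nat_lit 420) (nat_lit 23787348944) (nat_lit 103) (nat_lit 1) (nat_lit 102) (nat_lit 1) (nat_lit 107) (nat_lit 1) (nat_lit 254) (nat_lit 419) (nat_lit 407)) (XT.lf (nat_lit 84) (nat_lit 166822865400) (nat_lit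 0) (nat_lit 27669357220) (nat_lit 420) (nat_lit 45631795192) (nat_lit 98) (nat_lit 1) (nat_lit 97) (nat_lit 1) (nat_lit 102) (nat_lit 1) (nat_lit 255) (nat_lit 419) (nat_lit 406))) (XT.nd (nat_lit 94) (nat_lit 588) (nat_lit 0) (XT.lf (nat_lit 84) (nat_lit 83465706959) (nat_lit 0) (nat_lit 84756152926) (nat_lit 420) (nat_lit 64238341513) (nat_lit 94) (nat_lit 1) (nat_lit 93) (nat_lit 1) (nat_lit 98) (nat_lit 1) (nat_lit 256) (nat_lit 419) (nat_lit 405)) (XT.nd (nat_lit 94) (nat_lit 252) (nat_lit 0) (XT.lf (nat_lit 84) (nat_lit 4119682213) (nat_lit 0) (nat_lit 141710971616) (nat_lit 420) (nat_lit 79328587532) (nat_lit 90) (nat_lit 1) (nat_lit 89) (nat_lit 1) (nat_lit 94) (nat_lit 1) (nat_lit 257) (nat_lit 419) (nat_lit 404)) (XT.lf (nat_lit 336) (nat_lit 18604252692) (nat_lit 0) (nat_lit 125811655671) (nat_lit 252) (nat_lit 73728521690) (nat_lit 90) (nat_lit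 1) (nat_lit 86) (nat_lit 1) (nat_lit 89) (nat_lit 1) (nat_lit 258) (nat_lit 419) (nat_lit 403))))))) (XT.nd (nat_lit 846) (nat_lit 1764) (nat_lit 0) (XT.nd (nat_lit 376) (nat_lit 1176) (nat_lit 0) (XT.nd (nat_lit 188) (nat_lit 588) (nat_lit 0) (XT.nd (nat_lit 94) (nat_lit 252) (nat_lit 0) (XT.lf (nat_lit 84) (nat_lit 64282694985) (nat_lit 0) (nat_lit 44059758578) (nat_lit 420) (nat_lit 103076959755) (nat_lit 82) (nat_lit 1) (nat_lit 81) (nat_lit 1) (nat_lit 86) (nat_lit 1) (nat_lit 259) (nat_lit 419) (nat_lit 402)) (XT.lf (nat_lit 336) (nat_lit 99525073831) (nat_lit 0) (nat_lit 93490943551) (nat_lit 252) (nat_lit 11966729817) (nat_lit 82) (nat_lit 1) (nat_lit 78) (nat_lit 1) (nat_lit 81) (nat_lit 1) (nat_lit 260) (nat_lit 419) (nat_lit 401))) (XT.nd (nat_lit 94) (nat_lit 336) (nat_lit 0) (XT.lf (nat_lit 336) (nat_lit 31897305351) (nat_lit 0) (nat_lit 80491873981)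 (nat_lit 252) (nat_lit 86404264624) (nat_lit 79) (nat_lit 1) (nat_lit 75) (nat_lit 1) (nat_lit 78) (nat_lit 1) (nat_lit 261) (nat_lit 419) (nat_lit 400)) (XT.lf (nat_lit 84) (nat_lit 36355220683) (nat_lit 0) (nat_lit 33286363874) (nat_lit 336) (nat_lit 123219609572) (nat_lit 72) (nat_lit 1) (nat_lit 71) (nat_lit 1) (nat_lit 75) (nat_lit 1) (nat_lit 262) (nat_lit 419) (nat_lit 399)))) (XT.nd (nat_lit 188) (nat_lit 756) (nat_lit 0) (XT.nd (nat_lit 94) (nat_lit 168) (nat_lit 0) (XT.lf (nat_lit 336) (nat_lit 90465195060) (nat_lit 0) (nat_lit 60192188412) (nat_lit 252) (nat_lit 36488702517) (nat_lit 72) (nat_lit 1) (nat_lit 68) (nat_lit 1) (nat_lit 71) (nat_lit 1) (nat_lit 263) (nat_lit 419) (nat_lit 398)) (XT.lf (nat_lit 252) (nat_lit 22426455433) (nat_lit 0) (nat_lit 52513293959) (nat_lit 168) (nat_lit 106721791865) (nat_lit 69) (nat_lit 1) (nat_lit 66) (nat_lit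 1) (nat_lit 68) (nat_lit 1) (nat_lit 264) (nat_lit 419) (nat_lit 397))) (XT.nd (nat_lit 94) (nat_lit 420) (nat_lit 0) (XT.lf (nat_lit 84) (nat_lit 3799184828) (nat_lit 0) (nat_lit 42513702987) (nat_lit 336) (nat_lit 130076704113) (nat_lit 63) (nat_lit 1) (nat_lit 62) (nat_lit 1) (nat_lit 66) (nat_lit 1) (nat_lit 265) (nat_lit 419) (nat_lit 396)) (XT.nd (nat_lit 94) (nat_lit 252) (nat_lit 0) (XT.lf (nat_lit 252) (nat_lit 65167164525) (nat_lit 0) (nat_lit 40723887147) (nat_lit 168) (nat_lit 65393946913) (nat_lit 63) (nat_lit 1) (nat_lit 60) (nat_lit 1) (nat_lit 62) (nat_lit 1) (nat_lit 266) (nat_lit 419) (nat_lit 395)) (XT.lf (nat_lit 84) (nat_lit 35356980118) (nat_lit 0) (nat_lit 1633161078) (nat_lit 252) (nat_lit 129413010911) (nat_lit 58) (nat_lit 1) (nat_lit 57) (nat_lit 1) (nat_lit 60) (nat_lit 1) (nat_lit 267) (nat_lit 419) (nat_lit 394)))))) (XT.nd (nat_lit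 470) (nat_lit 840) (nat_lit 0) (XT.nd (nat_lit 188) (nat_lit 588) (nat_lit 0) (XT.nd (nat_lit 94) (nat_lit 168) (nat_lit 0) (XT.lf (nat_lit 252) (nat_lit 96659156049) (nat_lit 0) (nat_lit 33494564851) (nat_lit 168) (nat_lit 31509594168) (nat_lit 58) (nat_lit 1) (nat_lit 55) (nat_lit 1) (nat_lit 57) (nat_lit 1) (nat_lit 268) (nat_lit 419) (nat_lit 393)) (XT.lf (nat_lit 252) (nat_lit 30026207271) (nat_lit 0) (nat_lit 31136901914) (nat_lit 168) (nat_lit 95941593558) (nat_lit 56) (nat_lit 1) (nat_lit 53) (nat_lit 1) (nat_lit 55) (nat_lit 1) (nat_lit 269) (nat_lit 419) (nat_lit 392))) (XT.nd (nat_lit 94) (nat_lit 336) (nat_lit 0) (XT.lf (nat_lit 252) (nat_lit 119193007927) (nat_lit 0) (nat_lit 29748782550) (nat_lit 168) (nat_lit 3773978202) (nat_lit 53) (nat_lit 1) (nat_lit 50) (nat_lit 1) (nat_lit 52) (nat_lit 1) (nat_lit 270) (nat_lit 419) (nat_lit 391)) (XT.nd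 (nat_lit 94) (nat_lit 168) (nat_lit 0) (XT.lf (nat_lit 252) (nat_lit 53345266219) (nat_lit 0) (nat_lit 28400057631) (nat_lit 168) (nat_lit 66703465389) (nat_lit 51) (nat_lit 1) (nat_lit 48) (nat_lit 1) (nat_lit 50) (nat_lit 1) (nat_lit 271) (nat_lit 419) (nat_lit 390)) (XT.lf (nat_lit 84) (nat_lit 18272813283) (nat_lit 0) (nat_lit 10043561577) (nat_lit 168) (nat_lit 116042418219) (nat_lit 47) (nat_lit 1) (nat_lit 46) (nat_lit 1) (nat_lit 48) (nat_lit 1) (nat_lit 272) (nat_lit 419) (nat_lit 389))))) (XT.nd (nat_lit 188) (nat_lit 588) (nat_lit 0) (XT.nd (nat_lit 94) (nat_lit 84) (nat_lit 0) (XT.lf (nat_lit 252) (nat_lit 69992057203) (nat_lit 0) (nat_lit 28016535971) (nat_lit 168) (nat_lit 42363410911) (nat_lit 47) (nat_lit 1) (nat_lit 44) (nat_lit 1) (nat_lit 46) (nat_lit 1) (nat_lit 273) (nat_lit 419) (nat_lit 388)) (XT.lf (nat_lit 168) (nat_lit 7537149986)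 (nat_lit 0) (nat_lit 28704658299) (nat_lit 84) (nat_lit 100300800105) (nat_lit 45) (nat_lit 1) (nat_lit 43) (nat_lit 1) (nat_lit 44) (nat_lit 1) (nat_lit 274) (nat_lit 419) (nat_lit 387))) (XT.nd (nat_lit 94) (nat_lit 336) (nat_lit 0) (XT.lf (nat_lit 252) (nat_lit 81360751420) (nat_lit 0) (nat_lit 29357205503) (nat_lit 168) (nat_lit 22100844034) (nat_lit 43) (nat_lit 1) (nat_lit 40) (nat_lit 1) (nat_lit 42) (nat_lit 1) (nat_lit 275) (nat_lit 419) (nat_lit 386)) (XT.nd (nat_lit 94) (nat_lit 252) (nat_lit 0) (XT.lf (nat_lit 168) (nat_lit 20462828934) (nat_lit 0) (nat_lit 30454901000) (nat_lit 84) (nat_lit 78302763383) (nat_lit 41) (nat_lit 1) (nat_lit 39) (nat_lit 1) (nat_lit 40) (nat_lit 1) (nat_lit 276) (nat_lit 419) (nat_lit 385)) (XT.lf (nat_lit 252) (nat_lit 88578554091) (nat_lit 0) (nat_lit 31923749885) (nat_lit 168) (nat_lit 5238960638) (nat_lit 39) (nat_lit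 1) (nat_lit 36) (nat_lit 1) (nat_lit 38) (nat_lit 1) (nat_lit 277) (nat_lit 419) (nat_lit 384))))))))
noncomputable def ec242 : XT := (XT.nd (nat_lit 1692) (nat_lit 588) (nat_lit 0) (XT.nd (nat_lit 846) (nat_lit 1176) (nat_lit 0) (XT.nd (nat_lit 376) (nat_lit 588) (nat_lit 0) (XT.nd (nat_lit 188) (nat_lit 336) (nat_lit 0) (XT.nd (nat_lit 94) (nat_lit 252) (nat_lit 0) (XT.lf (nat_lit 168) (nat_lit 29448818173) (nat_lit 0) (nat_lit 33280892858) (nat_lit 84) (nat_lit 59625593715) (nat_lit 37) (nat_lit 1) (nat_lit 35) (nat_lit 1) (nat_lit 36) (nat_lit 1) (nat_lit 278) (nat_lit 419) (nat_lit 383)) (XT.lf (nat_lit 84) (nat_lit 8500100879) (nat_lit 0) (nat_lit 26679550863) (nat_lit 252) (nat_lit 83911333974) (nat_lit 33) (nat_lit 1) (nat_lit 32) (nat_lit 1) (nat_lit 35) (nat_lit 1) (nat_lit 279) (nat_lit 419) (nat_lit 382))) (XT.nd (nat_lit 94) (nat_lit 252) (nat_lit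 0) (XT.lf (nat_lit 168) (nat_lit 35341238761) (nat_lit 0) (nat_lit 36823895652) (nat_lit 84) (nat_lit 43742599627) (nat_lit 33) (nat_lit 1) (nat_lit 31) (nat_lit 1) (nat_lit 32) (nat_lit 1) (nat_lit 280) (nat_lit 419) (nat_lit 381)) (XT.lf (nat_lit 84) (nat_lit 19768069630) (nat_lit 0) (nat_lit 19146712150) (nat_lit 252) (nat_lit 73921567844) (nat_lit 29) (nat_lit 1) (nat_lit 28) (nat_lit 1) (nat_lit 31) (nat_lit 1) (nat_lit 281) (nat_lit 419) (nat_lit 380)))) (XT.nd (nat_lit 188) (nat_lit 336) (nat_lit 0) (XT.nd (nat_lit 94) (nat_lit 168) (nat_lit 0) (XT.lf (nat_lit 168) (nat_lit 38822430078) (nat_lit 0) (nat_lit 40803873705) (nat_lit 84) (nat_lit 30217134132) (nat_lit 29) (nat_lit 1) (nat_lit 27) (nat_lit 1) (nat_lit 28) (nat_lit 1) (nat_lit 282) (nat_lit 419) (nat_lit 379)) (XT.lf (nat_lit 84) (nat_lit 29103169665) (nat_lit 0) (nat_lit 13867139606) (nat_lit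 168) (nat_lit 63979059012) (nat_lit 26) (nat_lit 1) (nat_lit 25) (nat_lit 1) (nat_lit 27) (nat_lit 1) (nat_lit 283) (nat_lit 419) (nat_lit 378))) (XT.nd (nat_lit 94) (nat_lit 252) (nat_lit 0) (XT.lf (nat_lit 168) (nat_lit 40441553562) (nat_lit 0) (nat_lit 45004155111) (nat_lit 84) (nat_lit 18686532660) (nat_lit 26) (nat_lit 1) (nat_lit 24) (nat_lit 1) (nat_lit 25) (nat_lit 1) (nat_lit 284) (nat_lit 419) (nat_lit 377)) (XT.nd (nat_lit 94) (nat_lit 84) (nat_lit 0) (XT.lf (nat_lit 84) (nat_lit 36812803664) (nat_lit 0) (nat_lit 10345066963) (nat_lit 168) (nat_lit 54243895633) (nat_lit 23) (nat_lit 1) (nat_lit 22) (nat_lit 1) (nat_lit 24) (nat_lit 1) (nat_lit 285) (nat_lit 419) (nat_lit 376)) (XT.lf (nat_lit 168) (nat_lit 40639546791) (nat_lit 0) (nat_lit 49258965762) (nat_lit 84) (nat_lit 8848968263) (nat_lit 23) (nat_lit 1) (nat_lit 21) (nat_lit 1) (nat_lit 22)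 (nat_lit 1) (nat_lit 286) (nat_lit 419) (nat_lit 375)))))) (XT.nd (nat_lit 376) (nat_lit 672) (nat_lit 0) (XT.nd (nat_lit 188) (nat_lit 252) (nat_lit 0) (XT.nd (nat_lit 94) (nat_lit 84) (nat_lit 0) (XT.lf (nat_lit 84) (nat_lit 43152457554) (nat_lit 0) (nat_lit 8181852052) (nat_lit 168) (nat_lit 44834168892) (nat_lit 20) (nat_lit 1) (nat_lit 19) (nat_lit 1) (nat_lit 21) (nat_lit 1) (nat_lit 287) (nat_lit 419) (nat_lit 374)) (XT.lf (nat_lit 168) (nat_lit 39769466619) (nat_lit 0) (nat_lit 53443305447) (nat_lit 84) (nat_lit 452690705) (nat_lit 20) (nat_lit 1) (nat_lit 18) (nat_lit 1) (nat_lit 19) (nat_lit 1) (nat_lit 288) (nat_lit 419) (nat_lit 373))) (XT.nd (nat_lit 94) (nat_lit 84) (nat_lit 0) (XT.lf (nat_lit 84) (nat_lit 48334890282) (nat_lit 0) (nat_lit 7057740018) (nat_lit 168) (nat_lit 35834531258) (nat_lit 17) (nat_lit 1) (nat_lit 16) (nat_lit 1) (nat_lit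 18) (nat_lit 1) (nat_lit 289) (nat_lit 419) (nat_lit 372)) (XT.lf (nat_lit 0) (nat_lit 6497935164) (nat_lit 0) (nat_lit 50856752003) (nat_lit 168) (nat_lit 31505088523) (nat_lit 15) (nat_lit 3) (nat_lit 15) (nat_lit 1) (nat_lit 17) (nat_lit 1) (nat_lit 290) (nat_lit 419) (nat_lit 371)))) (XT.nd (nat_lit 188) (nat_lit 420) (nat_lit 0) (XT.nd (nat_lit 94) (nat_lit 84) (nat_lit 0) (XT.lf (nat_lit 84) (nat_lit 52537660112) (nat_lit 0) (nat_lit 6716999259) (nat_lit 168) (nat_lit 27303130072) (nat_lit 14) (nat_lit 1) (nat_lit 13) (nat_lit 1) (nat_lit 15) (nat_lit 1) (nat_lit 291) (nat_lit 419) (nat_lit 370)) (XT.lf (nat_lit 0) (nat_lit 12413460103) (nat_lit 0) (nat_lit 48633017911) (nat_lit 168) (nat_lit 23270632266) (nat_lit 12) (nat_lit 3) (nat_lit 12) (nat_lit 1) (nat_lit 14) (nat_lit 1) (nat_lit 292) (nat_lit 419) (nat_lit 369))) (XT.nd (nat_lit 94) (nat_lit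 252) (nat_lit 0) (XT.lf (nat_lit 84) (nat_lit 55909291221) (nat_lit 0) (nat_lit 6955809615) (nat_lit 168) (nat_lit 19277217887) (nat_lit 11) (nat_lit 1) (nat_lit 10) (nat_lit 1) (nat_lit 12) (nat_lit 1) (nat_lit 293) (nat_lit 419) (nat_lit 368)) (XT.nd (nat_lit 94) (nat_lit 168) (nat_lit 0) (XT.lf (nat_lit 0) (nat_lit 17451943423) (nat_lit 0) (nat_lit 47025689103) (nat_lit 168) (nat_lit 15542897240) (nat_lit 9) (nat_lit 3) (nat_lit 9) (nat_lit 1) (nat_lit 11) (nat_lit 1) (nat_lit 294) (nat_lit 419) (nat_lit 367)) (XT.lf (nat_lit 84) (nat_lit 58574328722) (nat_lit 0) (nat_lit 7612396257) (nat_lit 168) (nat_lit 11777685522) (nat_lit 8) (nat_lit 1) (nat_lit 7) (nat_lit 1) (nat_lit 9) (nat_lit 1) (nat_lit 295) (nat_lit 419) (nat_lit 366))))))) (XT.nd (nat_lit 846) (nat_lit 0) (nat_lit 0) (XT.nd (nat_lit 376) (nat_lit 0) (nat_lit 0) (XT.nd (nat_lit 188) (nat_lit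 336) (nat_lit 0) (XT.nd (nat_lit 94) (nat_lit 168) (nat_lit 0) (XT.lf (nat_lit 0) (nat_lit 21734429481) (nat_lit 0) (nat_lit 45881782084) (nat_lit 168) (nat_lit 8338140235) (nat_lit 6) (nat_lit 3) (nat_lit 6) (nat_lit 1) (nat_lit 8) (nat_lit 1) (nat_lit 296) (nat_lit 419) (nat_lit 365)) (XT.lf (nat_lit 84) (nat_lit 60637484802) (nat_lit 0) (nat_lit 8558995794) (nat_lit 168) (nat_lit 4812718438) (nat_lit 5) (nat_lit 1) (nat_lit 4) (nat_lit 1) (nat_lit 6) (nat_lit 1) (nat_lit 297) (nat_lit 419) (nat_lit 364))) (XT.nd (nat_lit 94) (nat_lit 252) (nat_lit 0) (XT.lf (nat_lit 0) (nat_lit 25363292931) (nat_lit 0) (nat_lit 45079924163) (nat_lit 168) (nat_lit 1661068996) (nat_lit 3) (nat_lit 3) (nat_lit 3) (nat_lit 1) (nat_lit 5) (nat_lit 1) (nat_lit 298) (nat_lit 419) (nat_lit 363)) (XT.lf (nat_lit 0) (nat_lit 101922731198) (nat_lit 0) (nat_lit 0) (nat_lit 0) (nat_lit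 0) (nat_lit 0) (nat_lit 0) (nat_lit 1) (nat_lit 0) (nat_lit 1) (nat_lit 0) (nat_lit 299) (nat_lit 419) (nat_lit 362)))) (XT.nd (nat_lit 188) (nat_lit 0) (nat_lit 0) (XT.nd (nat_lit 94) (nat_lit 0) (nat_lit 0) (XT.lf (nat_lit 0) (nat_lit 101829959904) (nat_lit 0) (nat_lit 0) (nat_lit 0) (nat_lit 0) (nat_lit 0) (nat_lit 0) (nat_lit 1) (nat_lit 0) (nat_lit 1) (nat_lit 0) (nat_lit 300) (nat_lit 419) (nat_lit 361)) (XT.lf (nat_lit 0) (nat_lit 101744060559) (nat_lit 0) (nat_lit 0) (nat_lit 0) (nat_lit 0) (nat_lit 0) (nat_lit 0) (nat_lit 1) (nat_lit 0) (nat_lit 1) (nat_lit 0) (nat_lit 301) (nat_lit 419) (nat_lit 360))) (XT.nd (nat_lit 94) (nat_lit 0) (nat_lit 0) (XT.lf (nat_lit 0) (nat_lit 101664524127) (nat_lit 0) (nat_lit 0) (nat_lit 0) (nat_lit 0) (nat_lit 0) (nat_lit 0) (nat_lit 1) (nat_lit 0) (nat_lit 1) (nat_lit 0) (nat_lit 302) (nat_lit 419) (nat_lit 359))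 (XT.nd (nat_lit 94) (nat_lit 0) (nat_lit 0) (XT.lf (nat_lit 0) (nat_lit 101590879283) (nat_lit 0) (nat_lit 0) (nat_lit 0) (nat_lit 0) (nat_lit 0) (nat_lit 0) (nat_lit 1) (nat_lit 0) (nat_lit 1) (nat_lit 0) (nat_lit 303) (nat_lit 419) (nat_lit 358)) (XT.lf (nat_lit 0) (nat_lit 101522689613) (nat_lit 0) (nat_lit 0) (nat_lit 0) (nat_lit 0) (nat_lit 0) (nat_lit 0) (nat_lit 1) (nat_lit 0) (nat_lit 1) (nat_lit 0) (nat_lit 304) (nat_lit 419) (nat_lit 357)))))) (XT.nd (nat_lit 470) (nat_lit 0) (nat_lit 0) (XT.nd (nat_lit 188) (nat_lit 0) (nat_lit 0) (XT.nd (nat_lit 94) (nat_lit 0) (nat_lit 0) (XT.lf (nat_lit 0) (nat_lit 101459551029) (nat_lit 0) (nat_lit 0) (nat_lit 0) (nat_lit 0) (nat_lit 0) (nat_lit 0) (nat_lit 1) (nat_lit 0) (nat_lit 1) (nat_lit 0) (nat_lit 305) (nat_lit 419) (nat_lit 356)) (XT.lf (nat_lit 0) (nat_lit 101401089378) (nat_lit 0) (nat_lit 0) (nat_lit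 0) (nat_lit 0) (nat_lit 0) (nat_lit 0) (nat_lit 1) (nat_lit 0) (nat_lit 1) (nat_lit 0) (nat_lit 306) (nat_lit 419) (nat_lit 355))) (XT.nd (nat_lit 94) (nat_lit 0) (nat_lit 0) (XT.lf (nat_lit 0) (nat_lit 101346958219) (nat_lit 0) (nat_lit 0) (nat_lit 0) (nat_lit 0) (nat_lit 0) (nat_lit 0) (nat_lit 1) (nat_lit 0) (nat_lit 1) (nat_lit 0) (nat_lit 307) (nat_lit 419) (nat_lit 354)) (XT.nd (nat_lit 94) (nat_lit 0) (nat_lit 0) (XT.lf (nat_lit 0) (nat_lit 101296836776) (nat_lit 0) (nat_lit 0) (nat_lit 0) (nat_lit 0) (nat_lit 0) (nat_lit 0) (nat_lit 1) (nat_lit 0) (nat_lit 1) (nat_lit 0) (nat_lit 308) (nat_lit 419) (nat_lit 353)) (XT.lf (nat_lit 0) (nat_lit 101250428032) (nat_lit 0) (nat_lit 0) (nat_lit 0) (nat_lit 0) (nat_lit 0) (nat_lit 0) (nat_lit 1) (nat_lit 0) (nat_lit 1) (nat_lit 0) (nat_lit 309) (nat_lit 419) (nat_lit 352))))) (XT.nd (nat_lit 188) (nat_lit 0)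 (nat_lit 0) (XT.nd (nat_lit 94) (nat_lit 0) (nat_lit 0) (XT.lf (nat_lit 0) (nat_lit 101207456973) (nat_lit 0) (nat_lit 0) (nat_lit 0) (nat_lit 0) (nat_lit 0) (nat_lit 0) (nat_lit 1) (nat_lit 0) (nat_lit 1) (nat_lit 0) (nat_lit 310) (nat_lit 419) (nat_lit 351)) (XT.lf (nat_lit 0) (nat_lit 101167668955) (nat_lit 0) (nat_lit 0) (nat_lit 0) (nat_lit 0) (nat_lit 0) (nat_lit 0) (nat_lit 1) (nat_lit 0) (nat_lit 1) (nat_lit 0) (nat_lit 311) (nat_lit 419) (nat_lit 350))) (XT.nd (nat_lit 94) (nat_lit 0) (nat_lit 0) (XT.lf (nat_lit 0) (nat_lit 101130828198) (nat_lit 0) (nat_lit 0) (nat_lit 0) (nat_lit 0) (nat_lit 0) (nat_lit 0) (nat_lit 1) (nat_lit 0) (nat_lit 1) (nat_lit 0) (nat_lit 312) (nat_lit 419) (nat_lit 349)) (XT.nd (nat_lit 94) (nat_lit 0) (nat_lit 0) (XT.lf (nat_lit 0) (nat_lit 101096716386) (nat_lit 0) (nat_lit 0) (nat_lit 0) (nat_lit 0) (nat_lit 0) (nat_lit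 0) (nat_lit 1) (nat_lit 0) (nat_lit 1) (nat_lit 0) (nat_lit 313) (nat_lit 419) (nat_lit 348)) (XT.lf (nat_lit 0) (nat_lit 101065131375) (nat_lit 0) (nat_lit 0) (nat_lit 0) (nat_lit 0) (nat_lit 0) (nat_lit 0) (nat_lit 1) (nat_lit 0) (nat_lit 1) (nat_lit 0) (nat_lit 314) (nat_lit 419) (nat_lit 347))))))))
noncomputable def ec243 : XT := (XT.nd (nat_lit 1786) (nat_lit 0) (nat_lit 0) (XT.nd (nat_lit 846) (nat_lit 0) (nat_lit 0) (XT.nd (nat_lit 376) (nat_lit 0) (nat_lit 0) (XT.nd (nat_lit 188) (nat_lit 0) (nat_lit 0) (XT.nd (nat_lit 94) (nat_lit 0) (nat_lit 0) (XT.lf (nat_lit 0) (nat_lit 101035885994) (nat_lit 0) (nat_lit 0) (nat_lit 0) (nat_lit 0) (nat_lit 0) (nat_lit 0) (nat_lit 1) (nat_lit 0) (nat_lit 1) (nat_lit 0) (nat_lit 315) (nat_lit 419) (nat_lit 346)) (XT.lf (nat_lit 0) (nat_lit 101008806938) (nat_lit 0) (nat_lit 0) (nat_lit 0) (nat_lit 0) (nat_lit 0)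 (nat_lit 0) (nat_lit 1) (nat_lit 0) (nat_lit 1) (nat_lit 0) (nat_lit 316) (nat_lit 419) (nat_lit 345))) (XT.nd (nat_lit 94) (nat_lit 0) (nat_lit 0) (XT.lf (nat_lit 0) (nat_lit 100983733738) (nat_lit 0) (nat_lit 0) (nat_lit 0) (nat_lit 0) (nat_lit 0) (nat_lit 0) (nat_lit 1) (nat_lit 0) (nat_lit 1) (nat_lit 0) (nat_lit 317) (nat_lit 419) (nat_lit 344)) (XT.lf (nat_lit 0) (nat_lit 100960517811) (nat_lit 0) (nat_lit 0) (nat_lit 0) (nat_lit 0) (nat_lit 0) (nat_lit 0) (nat_lit 1) (nat_lit 0) (nat_lit 1) (nat_lit 0) (nat_lit 318) (nat_lit 419) (nat_lit 343)))) (XT.nd (nat_lit 188) (nat_lit 0) (nat_lit 0) (XT.nd (nat_lit 94) (nat_lit 0) (nat_lit 0) (XT.lf (nat_lit 0) (nat_lit 100939021584) (nat_lit 0) (nat_lit 0) (nat_lit 0) (nat_lit 0) (nat_lit 0) (nat_lit 0) (nat_lit 1) (nat_lit 0) (nat_lit 1) (nat_lit 0) (nat_lit 319) (nat_lit 419) (nat_lit 342)) (XT.lf (nat_lit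 0) (nat_lit 100919117669) (nat_lit 0) (nat_lit 0) (nat_lit 0) (nat_lit 0) (nat_lit 0) (nat_lit 0) (nat_lit 1) (nat_lit 0) (nat_lit 1) (nat_lit 0) (nat_lit 320) (nat_lit 419) (nat_lit 341))) (XT.nd (nat_lit 94) (nat_lit 0) (nat_lit 0) (XT.lf (nat_lit 0) (nat_lit 100900688118) (nat_lit 0) (nat_lit 0) (nat_lit 0) (nat_lit 0) (nat_lit 0) (nat_lit 0) (nat_lit 1) (nat_lit 0) (nat_lit 1) (nat_lit 0) (nat_lit 321) (nat_lit 419) (nat_lit 340)) (XT.nd (nat_lit 94) (nat_lit 0) (nat_lit 0) (XT.lf (nat_lit 0) (nat_lit 100883623719) (nat_lit 0) (nat_lit 0) (nat_lit 0) (nat_lit 0) (nat_lit 0) (nat_lit 0) (nat_lit 1) (nat_lit 0) (nat_lit 1) (nat_lit 0) (nat_lit 322) (nat_lit 419) (nat_lit 339)) (XT.lf (nat_lit 0) (nat_lit 100867823350) (nat_lit 0) (nat_lit 0) (nat_lit 0) (nat_lit 0) (nat_lit 0) (nat_lit 0) (nat_lit 1) (nat_lit 0) (nat_lit 1) (nat_lit 0) (nat_lit 323) (nat_lit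 419) (nat_lit 338)))))) (XT.nd (nat_lit 470) (nat_lit 0) (nat_lit 0) (XT.nd (nat_lit 188) (nat_lit 0) (nat_lit 0) (XT.nd (nat_lit 94) (nat_lit 0) (nat_lit 0) (XT.lf (nat_lit 0) (nat_lit 100853193379) (nat_lit 0) (nat_lit 0) (nat_lit 0) (nat_lit 0) (nat_lit 0) (nat_lit 0) (nat_lit 1) (nat_lit 0) (nat_lit 1) (nat_lit 0) (nat_lit 324) (nat_lit 419) (nat_lit 337)) (XT.lf (nat_lit 0) (nat_lit 100839647109) (nat_lit 0) (nat_lit 0) (nat_lit 0) (nat_lit 0) (nat_lit 0) (nat_lit 0) (nat_lit 1) (nat_lit 0) (nat_lit 1) (nat_lit 0) (nat_lit 325) (nat_lit 419) (nat_lit 336))) (XT.nd (nat_lit 94) (nat_lit 0) (nat_lit 0) (XT.lf (nat_lit 0) (nat_lit 100827104266) (nat_lit 0) (nat_lit 0) (nat_lit 0) (nat_lit 0) (nat_lit 0) (nat_lit 0) (nat_lit 1) (nat_lit 0) (nat_lit 1) (nat_lit 0) (nat_lit 326) (nat_lit 419) (nat_lit 335)) (XT.nd (nat_lit 94) (nat_lit 0) (nat_lit 0) (XT.lf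 (nat_lit 0) (nat_lit 100815490523) (nat_lit 0) (nat_lit 0) (nat_lit 0) (nat_lit 0) (nat_lit 0) (nat_lit 0) (nat_lit 1) (nat_lit 0) (nat_lit 1) (nat_lit 0) (nat_lit 327) (nat_lit 419) (nat_lit 334)) (XT.lf (nat_lit 0) (nat_lit 100804737057) (nat_lit 0) (nat_lit 0) (nat_lit 0) (nat_lit 0) (nat_lit 0) (nat_lit 0) (nat_lit 1) (nat_lit 0) (nat_lit 1) (nat_lit 0) (nat_lit 328) (nat_lit 419) (nat_lit 333))))) (XT.nd (nat_lit 188) (nat_lit 0) (nat_lit 0) (XT.nd (nat_lit 94) (nat_lit 0) (nat_lit 0) (XT.lf (nat_lit 0) (nat_lit 100794780144) (nat_lit 0) (nat_lit 0) (nat_lit 0) (nat_lit 0) (nat_lit 0) (nat_lit 0) (nat_lit 1) (nat_lit 0) (nat_lit 1) (nat_lit 0) (nat_lit 329) (nat_lit 419) (nat_lit 332)) (XT.lf (nat_lit 0) (nat_lit 100785560781) (nat_lit 0) (nat_lit 0) (nat_lit 0) (nat_lit 0) (nat_lit 0) (nat_lit 0) (nat_lit 1) (nat_lit 0) (nat_lit 1) (nat_lit 0) (nat_lit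 330) (nat_lit 419) (nat_lit 331))) (XT.nd (nat_lit 94) (nat_lit 0) (nat_lit 0) (XT.lf (nat_lit 0) (nat_lit 100777024333) (nat_lit 0) (nat_lit 0) (nat_lit 0) (nat_lit 0) (nat_lit 0) (nat_lit 0) (nat_lit 1) (nat_lit 0) (nat_lit 1) (nat_lit 0) (nat_lit 331) (nat_lit 419) (nat_lit 330)) (XT.nd (nat_lit 94) (nat_lit 0) (nat_lit 0) (XT.lf (nat_lit 0) (nat_lit 100769120214) (nat_lit 0) (nat_lit 0) (nat_lit 0) (nat_lit 0) (nat_lit 0) (nat_lit 0) (nat_lit 1) (nat_lit 0) (nat_lit 1) (nat_lit 0) (nat_lit 332) (nat_lit 419) (nat_lit 329)) (XT.lf (nat_lit 0) (nat_lit 100761801586) (nat_lit 0) (nat_lit 0) (nat_lit 0) (nat_lit 0) (nat_lit 0) (nat_lit 0) (nat_lit 1) (nat_lit 0) (nat_lit 1) (nat_lit 0) (nat_lit 333) (nat_lit 419) (nat_lit 328))))))) (XT.nd (nat_lit 846) (nat_lit 0) (nat_lit 0) (XT.nd (nat_lit 376) (nat_lit 0) (nat_lit 0) (XT.nd (nat_lit 188) (nat_lit 0) (nat_lit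 0) (XT.nd (nat_lit 94) (nat_lit 0) (nat_lit 0) (XT.lf (nat_lit 0) (nat_lit 100755025079) (nat_lit 0) (nat_lit 0) (nat_lit 0) (nat_lit 0) (nat_lit 0) (nat_lit 0) (nat_lit 1) (nat_lit 0) (nat_lit 1) (nat_lit 0) (nat_lit 334) (nat_lit 419) (nat_lit 327)) (XT.lf (nat_lit 0) (nat_lit 100748750535) (nat_lit 0) (nat_lit 0) (nat_lit 0) (nat_lit 0) (nat_lit 0) (nat_lit 0) (nat_lit 1) (nat_lit 0) (nat_lit 1) (nat_lit 0) (nat_lit 335) (nat_lit 419) (nat_lit 326))) (XT.nd (nat_lit 94) (nat_lit 0) (nat_lit 0) (XT.lf (nat_lit 0) (nat_lit 100742940772) (nat_lit 0) (nat_lit 0) (nat_lit 0) (nat_lit 0) (nat_lit 0) (nat_lit 0) (nat_lit 1) (nat_lit 0) (nat_lit 1) (nat_lit 0) (nat_lit 336) (nat_lit 419) (nat_lit 325)) (XT.lf (nat_lit 0) (nat_lit 100737561362) (nat_lit 0) (nat_lit 0) (nat_lit 0) (nat_lit 0) (nat_lit 0) (nat_lit 0) (nat_lit 1) (nat_lit 0) (nat_lit 1) (nat_lit 0)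 (nat_lit 337) (nat_lit 419) (nat_lit 324)))) (XT.nd (nat_lit 188) (nat_lit 0) (nat_lit 0) (XT.nd (nat_lit 94) (nat_lit 0) (nat_lit 0) (XT.lf (nat_lit 0) (nat_lit 100732580426) (nat_lit 0) (nat_lit 0) (nat_lit 0) (nat_lit 0) (nat_lit 0) (nat_lit 0) (nat_lit 1) (nat_lit 0) (nat_lit 1) (nat_lit 0) (nat_lit 338) (nat_lit 419) (nat_lit 323)) (XT.lf (nat_lit 0) (nat_lit 100727968449) (nat_lit 0) (nat_lit 0) (nat_lit 0) (nat_lit 0) (nat_lit 0) (nat_lit 0) (nat_lit 1) (nat_lit 0) (nat_lit 1) (nat_lit 0) (nat_lit 339) (nat_lit 419) (nat_lit 322))) (XT.nd (nat_lit 94) (nat_lit 0) (nat_lit 0) (XT.lf (nat_lit 0) (nat_lit 100723698100) (nat_lit 0) (nat_lit 0) (nat_lit 0) (nat_lit 0) (nat_lit 0) (nat_lit 0) (nat_lit 1) (nat_lit 0) (nat_lit 1) (nat_lit 0) (nat_lit 340) (nat_lit 419) (nat_lit 321)) (XT.nd (nat_lit 94) (nat_lit 0) (nat_lit 0) (XT.lf (nat_lit 0) (nat_lit 100719744073)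 (nat_lit 0) (nat_lit 0) (nat_lit 0) (nat_lit 0) (nat_lit 0) (nat_lit 0) (nat_lit 1) (nat_lit 0) (nat_lit 1) (nat_lit 0) (nat_lit 341) (nat_lit 419) (nat_lit 320)) (XT.lf (nat_lit 0) (nat_lit 100716082937) (nat_lit 0) (nat_lit 0) (nat_lit 0) (nat_lit 0) (nat_lit 0) (nat_lit 0) (nat_lit 1) (nat_lit 0) (nat_lit 1) (nat_lit 0) (nat_lit 342) (nat_lit 419) (nat_lit 319)))))) (XT.nd (nat_lit 470) (nat_lit 0) (nat_lit 0) (XT.nd (nat_lit 188) (nat_lit 0) (nat_lit 0) (XT.nd (nat_lit 94) (nat_lit 0) (nat_lit 0) (XT.lf (nat_lit 0) (nat_lit 100712692996) (nat_lit 0) (nat_lit 0) (nat_lit 0) (nat_lit 0) (nat_lit 0) (nat_lit 0) (nat_lit 1) (nat_lit 0) (nat_lit 1) (nat_lit 0) (nat_lit 343) (nat_lit 419) (nat_lit 318)) (XT.lf (nat_lit 0) (nat_lit 100709554162) (nat_lit 0) (nat_lit 0) (nat_lit 0) (nat_lit 0) (nat_lit 0) (nat_lit 0) (nat_lit 1) (nat_lit 0) (nat_lit 1) (nat_lit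 0) (nat_lit 344) (nat_lit 419) (nat_lit 317))) (XT.nd (nat_lit 94) (nat_lit 0) (nat_lit 0) (XT.lf (nat_lit 0) (nat_lit 100706647834) (nat_lit 0) (nat_lit 0) (nat_lit 0) (nat_lit 0) (nat_lit 0) (nat_lit 0) (nat_lit 1) (nat_lit 0) (nat_lit 1) (nat_lit 0) (nat_lit 345) (nat_lit 419) (nat_lit 316)) (XT.nd (nat_lit 94) (nat_lit 0) (nat_lit 0) (XT.lf (nat_lit 0) (nat_lit 100703956789) (nat_lit 0) (nat_lit 0) (nat_lit 0) (nat_lit 0) (nat_lit 0) (nat_lit 0) (nat_lit 1) (nat_lit 0) (nat_lit 1) (nat_lit 0) (nat_lit 346) (nat_lit 419) (nat_lit 315)) (XT.lf (nat_lit 0) (nat_lit 100701465082) (nat_lit 0) (nat_lit 0) (nat_lit 0) (nat_lit 0) (nat_lit 0) (nat_lit 0) (nat_lit 1) (nat_lit 0) (nat_lit 1) (nat_lit 0) (nat_lit 347) (nat_lit 419) (nat_lit 314))))) (XT.nd (nat_lit 188) (nat_lit 0) (nat_lit 0) (XT.nd (nat_lit 94) (nat_lit 0) (nat_lit 0) (XT.lf (nat_lit 0) (nat_lit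 100699157945) (nat_lit 0) (nat_lit 0) (nat_lit 0) (nat_lit 0) (nat_lit 0) (nat_lit 0) (nat_lit 1) (nat_lit 0) (nat_lit 1) (nat_lit 0) (nat_lit 348) (nat_lit 419) (nat_lit 313)) (XT.lf (nat_lit 0) (nat_lit 100697021707) (nat_lit 0) (nat_lit 0) (nat_lit 0) (nat_lit 0) (nat_lit 0) (nat_lit 0) (nat_lit 1) (nat_lit 0) (nat_lit 1) (nat_lit 0) (nat_lit 349) (nat_lit 419) (nat_lit 312))) (XT.nd (nat_lit 94) (nat_lit 0) (nat_lit 0) (XT.lf (nat_lit 0) (nat_lit 100695043709) (nat_lit 0) (nat_lit 0) (nat_lit 0) (nat_lit 0) (nat_lit 0) (nat_lit 0) (nat_lit 1) (nat_lit 0) (nat_lit 1) (nat_lit 0) (nat_lit 350) (nat_lit 419) (nat_lit 311)) (XT.nd (nat_lit 94) (nat_lit 0) (nat_lit 0) (XT.lf (nat_lit 0) (nat_lit 100693212229) (nat_lit 0) (nat_lit 0) (nat_lit 0) (nat_lit 0) (nat_lit 0) (nat_lit 0) (nat_lit 1) (nat_lit 0) (nat_lit 1) (nat_lit 0) (nat_lit 351) (nat_lit 419) (nat_lit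 310)) (XT.lf (nat_lit 0) (nat_lit 100691516415) (nat_lit 0) (nat_lit 0) (nat_lit 0) (nat_lit 0) (nat_lit 0) (nat_lit 0) (nat_lit 1) (nat_lit 0) (nat_lit 1) (nat_lit 0) (nat_lit 352) (nat_lit 419) (nat_lit 309))))))))
noncomputable def ec244 : XT := (XT.nd (nat_lit 1692) (nat_lit 0) (nat_lit 0) (XT.nd (nat_lit 846) (nat_lit 0) (nat_lit 0) (XT.nd (nat_lit 376) (nat_lit 0) (nat_lit 0) (XT.nd (nat_lit 188) (nat_lit 0) (nat_lit 0) (XT.nd (nat_lit 94) (nat_lit 0) (nat_lit 0) (XT.lf (nat_lit 0) (nat_lit 100689946216) (nat_lit 0) (nat_lit 0) (nat_lit 0) (nat_lit 0) (nat_lit 0) (nat_lit 0) (nat_lit 1) (nat_lit 0) (nat_lit 1) (nat_lit 0) (nat_lit 353) (nat_lit 419) (nat_lit 308)) (XT.lf (nat_lit 0) (nat_lit 100688492329) (nat_lit 0) (nat_lit 0) (nat_lit 0) (nat_lit 0) (nat_lit 0) (nat_lit 0) (nat_lit 1) (nat_lit 0) (nat_lit 1) (nat_lit 0) (nat_lit 354) (nat_lit 419)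 (nat_lit 307))) (XT.nd (nat_lit 94) (nat_lit 0) (nat_lit 0) (XT.lf (nat_lit 0) (nat_lit 100687146137) (nat_lit 0) (nat_lit 0) (nat_lit 0) (nat_lit 0) (nat_lit 0) (nat_lit 0) (nat_lit 1) (nat_lit 0) (nat_lit 1) (nat_lit 0) (nat_lit 355) (nat_lit 419) (nat_lit 306)) (XT.lf (nat_lit 0) (nat_lit 100685899662) (nat_lit 0) (nat_lit 0) (nat_lit 0) (nat_lit 0) (nat_lit 0) (nat_lit 0) (nat_lit 1) (nat_lit 0) (nat_lit 1) (nat_lit 0) (nat_lit 356) (nat_lit 419) (nat_lit 305)))) (XT.nd (nat_lit 188) (nat_lit 0) (nat_lit 0) (XT.nd (nat_lit 94) (nat_lit 0) (nat_lit 0) (XT.lf (nat_lit 0) (nat_lit 100684745520) (nat_lit 0) (nat_lit 0) (nat_lit 0) (nat_lit 0) (nat_lit 0) (nat_lit 0) (nat_lit 1) (nat_lit 0) (nat_lit 1) (nat_lit 0) (nat_lit 357) (nat_lit 419) (nat_lit 304)) (XT.lf (nat_lit 0) (nat_lit 100683676869) (nat_lit 0) (nat_lit 0) (nat_lit 0) (nat_lit 0) (nat_lit 0)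 (nat_lit 0) (nat_lit 1) (nat_lit 0) (nat_lit 1) (nat_lit 0) (nat_lit 358) (nat_lit 419) (nat_lit 303))) (XT.nd (nat_lit 94) (nat_lit 0) (nat_lit 0) (XT.lf (nat_lit 0) (nat_lit 100682687377) (nat_lit 0) (nat_lit 0) (nat_lit 0) (nat_lit 0) (nat_lit 0) (nat_lit 0) (nat_lit 1) (nat_lit 0) (nat_lit 1) (nat_lit 0) (nat_lit 359) (nat_lit 419) (nat_lit 302)) (XT.nd (nat_lit 94) (nat_lit 0) (nat_lit 0) (XT.lf (nat_lit 0) (nat_lit 100681771182) (nat_lit 0) (nat_lit 0) (nat_lit 0) (nat_lit 0) (nat_lit 0) (nat_lit 0) (nat_lit 1) (nat_lit 0) (nat_lit 1) (nat_lit 0) (nat_lit 360) (nat_lit 419) (nat_lit 301)) (XT.lf (nat_lit 0) (nat_lit 100680922852) (nat_lit 0) (nat_lit 0) (nat_lit 0) (nat_lit 0) (nat_lit 0) (nat_lit 0) (nat_lit 1) (nat_lit 0) (nat_lit 1) (nat_lit 0) (nat_lit 361) (nat_lit 419) (nat_lit 300)))))) (XT.nd (nat_lit 376) (nat_lit 0) (nat_lit 0) (XT.nd (nat_lit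 188) (nat_lit 0) (nat_lit 0) (XT.nd (nat_lit 94) (nat_lit 0) (nat_lit 0) (XT.lf (nat_lit 0) (nat_lit 100680137362) (nat_lit 0) (nat_lit 0) (nat_lit 0) (nat_lit 0) (nat_lit 0) (nat_lit 0) (nat_lit 1) (nat_lit 0) (nat_lit 1) (nat_lit 0) (nat_lit 362) (nat_lit 419) (nat_lit 299)) (XT.lf (nat_lit 0) (nat_lit 100679410056) (nat_lit 0) (nat_lit 0) (nat_lit 0) (nat_lit 0) (nat_lit 0) (nat_lit 0) (nat_lit 1) (nat_lit 0) (nat_lit 1) (nat_lit 0) (nat_lit 363) (nat_lit 419) (nat_lit 298))) (XT.nd (nat_lit 94) (nat_lit 0) (nat_lit 0) (XT.lf (nat_lit 0) (nat_lit 100678736625) (nat_lit 0) (nat_lit 0) (nat_lit 0) (nat_lit 0) (nat_lit 0) (nat_lit 0) (nat_lit 1) (nat_lit 0) (nat_lit 1) (nat_lit 0) (nat_lit 364) (nat_lit 419) (nat_lit 297)) (XT.lf (nat_lit 0) (nat_lit 100678113078) (nat_lit 0) (nat_lit 0) (nat_lit 0) (nat_lit 0) (nat_lit 0) (nat_lit 0) (nat_lit 1) (nat_lit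 0) (nat_lit 1) (nat_lit 0) (nat_lit 365) (nat_lit 419) (nat_lit 296)))) (XT.nd (nat_lit 188) (nat_lit 0) (nat_lit 0) (XT.nd (nat_lit 94) (nat_lit 0) (nat_lit 0) (XT.lf (nat_lit 0) (nat_lit 100677535719) (nat_lit 0) (nat_lit 0) (nat_lit 0) (nat_lit 0) (nat_lit 0) (nat_lit 0) (nat_lit 1) (nat_lit 0) (nat_lit 1) (nat_lit 0) (nat_lit 366) (nat_lit 419) (nat_lit 295)) (XT.lf (nat_lit 0) (nat_lit 100677001127) (nat_lit 0) (nat_lit 0) (nat_lit 0) (nat_lit 0) (nat_lit 0) (nat_lit 0) (nat_lit 1) (nat_lit 0) (nat_lit 1) (nat_lit 0) (nat_lit 367) (nat_lit 419) (nat_lit 294))) (XT.nd (nat_lit 94) (nat_lit 0) (nat_lit 0) (XT.lf (nat_lit 0) (nat_lit 100676506135) (nat_lit 0) (nat_lit 0) (nat_lit 0) (nat_lit 0) (nat_lit 0) (nat_lit 0) (nat_lit 1) (nat_lit 0) (nat_lit 1) (nat_lit 0) (nat_lit 368) (nat_lit 419) (nat_lit 293)) (XT.nd (nat_lit 94) (nat_lit 0) (nat_lit 0) (XT.lf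 (nat_lit 0) (nat_lit 100676047809) (nat_lit 0) (nat_lit 0) (nat_lit 0) (nat_lit 0) (nat_lit 0) (nat_lit 0) (nat_lit 1) (nat_lit 0) (nat_lit 1) (nat_lit 0) (nat_lit 369) (nat_lit 419) (nat_lit 292)) (XT.lf (nat_lit 0) (nat_lit 100675623433) (nat_lit 0) (nat_lit 0) (nat_lit 0) (nat_lit 0) (nat_lit 0) (nat_lit 0) (nat_lit 1) (nat_lit 0) (nat_lit 1) (nat_lit 0) (nat_lit 370) (nat_lit 419) (nat_lit 291))))))) (XT.nd (nat_lit 846) (nat_lit 0) (nat_lit 0) (XT.nd (nat_lit 376) (nat_lit 0) (nat_lit 0) (XT.nd (nat_lit 188) (nat_lit 0) (nat_lit 0) (XT.nd (nat_lit 94) (nat_lit 0) (nat_lit 0) (XT.lf (nat_lit 0) (nat_lit 100675230493) (nat_lit 0) (nat_lit 0) (nat_lit 0) (nat_lit 0) (nat_lit 0) (nat_lit 0) (nat_lit 1) (nat_lit 0) (nat_lit 1) (nat_lit 0) (nat_lit 371) (nat_lit 419) (nat_lit 290)) (XT.lf (nat_lit 0) (nat_lit 100674866659) (nat_lit 0) (nat_lit 0) (nat_lit 0)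 (nat_lit 0) (nat_lit 0) (nat_lit 0) (nat_lit 1) (nat_lit 0) (nat_lit 1) (nat_lit 0) (nat_lit 372) (nat_lit 419) (nat_lit 289))) (XT.nd (nat_lit 94) (nat_lit 0) (nat_lit 0) (XT.lf (nat_lit 0) (nat_lit 100674529776) (nat_lit 0) (nat_lit 0) (nat_lit 0) (nat_lit 0) (nat_lit 0) (nat_lit 0) (nat_lit 1) (nat_lit 0) (nat_lit 1) (nat_lit 0) (nat_lit 373) (nat_lit 419) (nat_lit 288)) (XT.lf (nat_lit 0) (nat_lit 100674217847) (nat_lit 0) (nat_lit 0) (nat_lit 0) (nat_lit 0) (nat_lit 0) (nat_lit 0) (nat_lit 1) (nat_lit 0) (nat_lit 1) (nat_lit 0) (nat_lit 374) (nat_lit 419) (nat_lit 287)))) (XT.nd (nat_lit 188) (nat_lit 0) (nat_lit 0) (XT.nd (nat_lit 94) (nat_lit 0) (nat_lit 0) (XT.lf (nat_lit 0) (nat_lit 100673929023) (nat_lit 0) (nat_lit 0) (nat_lit 0) (nat_lit 0) (nat_lit 0) (nat_lit 0) (nat_lit 1) (nat_lit 0) (nat_lit 1) (nat_lit 0) (nat_lit 375) (nat_lit 419) (nat_lit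 286)) (XT.lf (nat_lit 0) (nat_lit 100673661595) (nat_lit 0) (nat_lit 0) (nat_lit 0) (nat_lit 0) (nat_lit 0) (nat_lit 0) (nat_lit 1) (nat_lit 0) (nat_lit 1) (nat_lit 0) (nat_lit 376) (nat_lit 419) (nat_lit 285))) (XT.nd (nat_lit 94) (nat_lit 0) (nat_lit 0) (XT.lf (nat_lit 0) (nat_lit 100673413975) (nat_lit 0) (nat_lit 0) (nat_lit 0) (nat_lit 0) (nat_lit 0) (nat_lit 0) (nat_lit 1) (nat_lit 0) (nat_lit 1) (nat_lit 0) (nat_lit 377) (nat_lit 419) (nat_lit 284)) (XT.nd (nat_lit 94) (nat_lit 0) (nat_lit 0) (XT.lf (nat_lit 0) (nat_lit 100673184698) (nat_lit 0) (nat_lit 0) (nat_lit 0) (nat_lit 0) (nat_lit 0) (nat_lit 0) (nat_lit 1) (nat_lit 0) (nat_lit 1) (nat_lit 0) (nat_lit 378) (nat_lit 419) (nat_lit 283)) (XT.lf (nat_lit 0) (nat_lit 100672972405) (nat_lit 0) (nat_lit 0) (nat_lit 0) (nat_lit 0) (nat_lit 0) (nat_lit 0) (nat_lit 1) (nat_lit 0) (nat_lit 1) (nat_lit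 0) (nat_lit 379) (nat_lit 419) (nat_lit 282)))))) (XT.nd (nat_lit 470) (nat_lit 0) (nat_lit 0) (XT.nd (nat_lit 188) (nat_lit 0) (nat_lit 0) (XT.nd (nat_lit 94) (nat_lit 0) (nat_lit 0) (XT.lf (nat_lit 0) (nat_lit 100672775837) (nat_lit 0) (nat_lit 0) (nat_lit 0) (nat_lit 0) (nat_lit 0) (nat_lit 0) (nat_lit 1) (nat_lit 0) (nat_lit 1) (nat_lit 0) (nat_lit 380) (nat_lit 419) (nat_lit 281)) (XT.lf (nat_lit 0) (nat_lit 100672593829) (nat_lit 0) (nat_lit 0) (nat_lit 0) (nat_lit 0) (nat_lit 0) (nat_lit 0) (nat_lit 1) (nat_lit 0) (nat_lit 1) (nat_lit 0) (nat_lit 381) (nat_lit 419) (nat_lit 280))) (XT.nd (nat_lit 94) (nat_lit 0) (nat_lit 0) (XT.lf (nat_lit 0) (nat_lit 100672425303) (nat_lit 0) (nat_lit 0) (nat_lit 0) (nat_lit 0) (nat_lit 0) (nat_lit 0) (nat_lit 1) (nat_lit 0) (nat_lit 1) (nat_lit 0) (nat_lit 382) (nat_lit 419) (nat_lit 279)) (XT.nd (nat_lit 94) (nat_lit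 0) (nat_lit 0) (XT.lf (nat_lit 0) (nat_lit 100672269261) (nat_lit 0) (nat_lit 0) (nat_lit 0) (nat_lit 0) (nat_lit 0) (nat_lit 0) (nat_lit 1) (nat_lit 0) (nat_lit 1) (nat_lit 0) (nat_lit 383) (nat_lit 419) (nat_lit 278)) (XT.lf (nat_lit 0) (nat_lit 100672124778) (nat_lit 0) (nat_lit 0) (nat_lit 0) (nat_lit 0) (nat_lit 0) (nat_lit 0) (nat_lit 1) (nat_lit 0) (nat_lit 1) (nat_lit 0) (nat_lit 384) (nat_lit 419) (nat_lit 277))))) (XT.nd (nat_lit 188) (nat_lit 0) (nat_lit 0) (XT.nd (nat_lit 94) (nat_lit 0) (nat_lit 0) (XT.lf (nat_lit 0) (nat_lit 100671990997) (nat_lit 0) (nat_lit 0) (nat_lit 0) (nat_lit 0) (nat_lit 0) (nat_lit 0) (nat_lit 1) (nat_lit 0) (nat_lit 1) (nat_lit 0) (nat_lit 385) (nat_lit 419) (nat_lit 276)) (XT.lf (nat_lit 0) (nat_lit 100671867126) (nat_lit 0) (nat_lit 0) (nat_lit 0) (nat_lit 0) (nat_lit 0) (nat_lit 0) (nat_lit 1) (nat_lit 0) (nat_lit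 1) (nat_lit 0) (nat_lit 386) (nat_lit 419) (nat_lit 275))) (XT.nd (nat_lit 94) (nat_lit 0) (nat_lit 0) (XT.lf (nat_lit 0) (nat_lit 100671752430) (nat_lit 0) (nat_lit 0) (nat_lit 0) (nat_lit 0) (nat_lit 0) (nat_lit 0) (nat_lit 1) (nat_lit 0) (nat_lit 1) (nat_lit 0) (nat_lit 387) (nat_lit 419) (nat_lit 274)) (XT.nd (nat_lit 94) (nat_lit 0) (nat_lit 0) (XT.lf (nat_lit 0) (nat_lit 100671646230) (nat_lit 0) (nat_lit 0) (nat_lit 0) (nat_lit 0) (nat_lit 0) (nat_lit 0) (nat_lit 1) (nat_lit 0) (nat_lit 1) (nat_lit 0) (nat_lit 388) (nat_lit 419) (nat_lit 273)) (XT.lf (nat_lit 0) (nat_lit 100671547897) (nat_lit 0) (nat_lit 0) (nat_lit 0) (nat_lit 0) (nat_lit 0) (nat_lit 0) (nat_lit 1) (nat_lit 0) (nat_lit 1) (nat_lit 0) (nat_lit 389) (nat_lit 419) (nat_lit 272))))))))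
noncomputable def ec245 : XT := (XT.nd (nat_lit 1786) (nat_lit 0) (nat_lit 0) (XT.nd (nat_lit 846) (nat_lit 0) (nat_lit 0) (XT.nd (nat_lit 376) (nat_lit 0) (nat_lit 0) (XT.nd (nat_lit 188) (nat_lit 0) (nat_lit 0) (XT.nd (nat_lit 94) (nat_lit 0) (nat_lit 0) (XT.lf (nat_lit 0) (nat_lit 100671456848) (nat_lit 0) (nat_lit 0) (nat_lit 0) (nat_lit 0) (nat_lit 0) (nat_lit 0) (nat_lit 1) (nat_lit 0) (nat_lit 1) (nat_lit 0) (nat_lit 390) (nat_lit 419) (nat_lit 271)) (XT.lf (nat_lit 0) (nat_lit 100671372543) (nat_lit 0) (nat_lit 0) (nat_lit 0) (nat_lit 0) (nat_lit 0) (nat_lit 0) (nat_lit 1) (nat_lit 0) (nat_lit 1) (nat_lit 0) (nat_lit 391) (nat_lit 419) (nat_lit 270))) (XT.nd (nat_lit 94) (nat_lit 0) (nat_lit 0) (XT.lf (nat_lit 0) (nat_lit 100671294484) (nat_lit 0) (nat_lit 0) (nat_lit 0) (nat_lit 0) (nat_lit 0) (nat_lit 0) (nat_lit 1) (nat_lit 0) (nat_lit 1) (nat_lit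 0) (nat_lit 392) (nat_lit 419) (nat_lit 269)) (XT.lf (nat_lit 0) (nat_lit 100671222206) (nat_lit 0) (nat_lit 0) (nat_lit 0) (nat_lit 0) (nat_lit 0) (nat_lit 0) (nat_lit 1) (nat_lit 0) (nat_lit 1) (nat_lit 0) (nat_lit 393) (nat_lit 419) (nat_lit 268)))) (XT.nd (nat_lit 188) (nat_lit 0) (nat_lit 0) (XT.nd (nat_lit 94) (nat_lit 0) (nat_lit 0) (XT.lf (nat_lit 0) (nat_lit 100671155282) (nat_lit 0) (nat_lit 0) (nat_lit 0) (nat_lit 0) (nat_lit 0) (nat_lit 0) (nat_lit 1) (nat_lit 0) (nat_lit 1) (nat_lit 0) (nat_lit 394) (nat_lit 419) (nat_lit 267)) (XT.lf (nat_lit 0) (nat_lit 100671093316) (nat_lit 0) (nat_lit 0) (nat_lit 0) (nat_lit 0) (nat_lit 0) (nat_lit 0) (nat_lit 1) (nat_lit 0) (nat_lit 1) (nat_lit 0) (nat_lit 395) (nat_lit 419) (nat_lit 266))) (XT.nd (nat_lit 94) (nat_lit 0) (nat_lit 0) (XT.lf (nat_lit 0) (nat_lit 100671035939) (nat_lit 0) (nat_lit 0) (nat_lit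 0) (nat_lit 0) (nat_lit 0) (nat_lit 0) (nat_lit 1) (nat_lit 0) (nat_lit 1) (nat_lit 0) (nat_lit 396) (nat_lit 419) (nat_lit 265)) (XT.nd (nat_lit 94) (nat_lit 0) (nat_lit 0) (XT.lf (nat_lit 0) (nat_lit 100670982813) (nat_lit 0) (nat_lit 0) (nat_lit 0) (nat_lit 0) (nat_lit 0) (nat_lit 0) (nat_lit 1) (nat_lit 0) (nat_lit 1) (nat_lit 0) (nat_lit 397) (nat_lit 419) (nat_lit 264)) (XT.lf (nat_lit 0) (nat_lit 100670933622) (nat_lit 0) (nat_lit 0) (nat_lit 0) (nat_lit 0) (nat_lit 0) (nat_lit 0) (nat_lit 1) (nat_lit 0) (nat_lit 1) (nat_lit 0) (nat_lit 398) (nat_lit 419) (nat_lit 263)))))) (XT.nd (nat_lit 470) (nat_lit 0) (nat_lit 0) (XT.nd (nat_lit 188) (nat_lit 0) (nat_lit 0) (XT.nd (nat_lit 94) (nat_lit 0) (nat_lit 0) (XT.lf (nat_lit 0) (nat_lit 100670888075) (nat_lit 0) (nat_lit 0) (nat_lit 0) (nat_lit 0) (nat_lit 0) (nat_lit 0) (nat_lit 1) (nat_lit 0) (nat_lit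 1) (nat_lit 0) (nat_lit 399) (nat_lit 419) (nat_lit 262)) (XT.lf (nat_lit 0) (nat_lit 100670845901) (nat_lit 0) (nat_lit 0) (nat_lit 0) (nat_lit 0) (nat_lit 0) (nat_lit 0) (nat_lit 1) (nat_lit 0) (nat_lit 1) (nat_lit 0) (nat_lit 400) (nat_lit 419) (nat_lit 261))) (XT.nd (nat_lit 94) (nat_lit 0) (nat_lit 0) (XT.lf (nat_lit 0) (nat_lit 100670806852) (nat_lit 0) (nat_lit 0) (nat_lit 0) (nat_lit 0) (nat_lit 0) (nat_lit 0) (nat_lit 1) (nat_lit 0) (nat_lit 1) (nat_lit 0) (nat_lit 401) (nat_lit 419) (nat_lit 260)) (XT.nd (nat_lit 94) (nat_lit 0) (nat_lit 0) (XT.lf (nat_lit 0) (nat_lit 100670770695) (nat_lit 0) (nat_lit 0) (nat_lit 0) (nat_lit 0) (nat_lit 0) (nat_lit 0) (nat_lit 1) (nat_lit 0) (nat_lit 1) (nat_lit 0) (nat_lit 402) (nat_lit 419) (nat_lit 259)) (XT.lf (nat_lit 0) (nat_lit 100670737217) (nat_lit 0) (nat_lit 0) (nat_lit 0) (nat_lit 0) (nat_lit 0) (nat_lit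 0) (nat_lit 1) (nat_lit 0) (nat_lit 1) (nat_lit 0) (nat_lit 403) (nat_lit 419) (nat_lit 258))))) (XT.nd (nat_lit 188) (nat_lit 0) (nat_lit 0) (XT.nd (nat_lit 94) (nat_lit 0) (nat_lit 0) (XT.lf (nat_lit 0) (nat_lit 100670706218) (nat_lit 0) (nat_lit 0) (nat_lit 0) (nat_lit 0) (nat_lit 0) (nat_lit 0) (nat_lit 1) (nat_lit 0) (nat_lit 1) (nat_lit 0) (nat_lit 404) (nat_lit 419) (nat_lit 257)) (XT.lf (nat_lit 0) (nat_lit 100670677515) (nat_lit 0) (nat_lit 0) (nat_lit 0) (nat_lit 0) (nat_lit 0) (nat_lit 0) (nat_lit 1) (nat_lit 0) (nat_lit 1) (nat_lit 0) (nat_lit 405) (nat_lit 419) (nat_lit 256))) (XT.nd (nat_lit 94) (nat_lit 0) (nat_lit 0) (XT.lf (nat_lit 0) (nat_lit 100670650939) (nat_lit 0) (nat_lit 0) (nat_lit 0) (nat_lit 0) (nat_lit 0) (nat_lit 0) (nat_lit 1) (nat_lit 0) (nat_lit 1) (nat_lit 0) (nat_lit 406) (nat_lit 419) (nat_lit 255)) (XT.nd (nat_lit 94) (nat_lit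 0) (nat_lit 0) (XT.lf (nat_lit 0) (nat_lit 100670626331) (nat_lit 0) (nat_lit 0) (nat_lit 0) (nat_lit 0) (nat_lit 0) (nat_lit 0) (nat_lit 1) (nat_lit 0) (nat_lit 1) (nat_lit 0) (nat_lit 407) (nat_lit 419) (nat_lit 254)) (XT.lf (nat_lit 0) (nat_lit 100670603546) (nat_lit 0) (nat_lit 0) (nat_lit 0) (nat_lit 0) (nat_lit 0) (nat_lit 0) (nat_lit 1) (nat_lit 0) (nat_lit 1) (nat_lit 0) (nat_lit 408) (nat_lit 419) (nat_lit 253))))))) (XT.nd (nat_lit 846) (nat_lit 0) (nat_lit 0) (XT.nd (nat_lit 376) (nat_lit 0) (nat_lit 0) (XT.nd (nat_lit 188) (nat_lit 0) (nat_lit 0) (XT.nd (nat_lit 94) (nat_lit 0) (nat_lit 0) (XT.lf (nat_lit 0) (nat_lit 100670582449) (nat_lit 0) (nat_lit 0) (nat_lit 0) (nat_lit 0) (nat_lit 0) (nat_lit 0) (nat_lit 1) (nat_lit 0) (nat_lit 1) (nat_lit 0) (nat_lit 409) (nat_lit 419) (nat_lit 252)) (XT.lf (nat_lit 0) (nat_lit 100670562915) (nat_lit 0)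 (nat_lit 0) (nat_lit 0) (nat_lit 0) (nat_lit 0) (nat_lit 0) (nat_lit 1) (nat_lit 0) (nat_lit 1) (nat_lit 0) (nat_lit 410) (nat_lit 419) (nat_lit 251))) (XT.nd (nat_lit 94) (nat_lit 0) (nat_lit 0) (XT.lf (nat_lit 0) (nat_lit 100670544827) (nat_lit 0) (nat_lit 0) (nat_lit 0) (nat_lit 0) (nat_lit 0) (nat_lit 0) (nat_lit 1) (nat_lit 0) (nat_lit 1) (nat_lit 0) (nat_lit 411) (nat_lit 419) (nat_lit 250)) (XT.lf (nat_lit 0) (nat_lit 100670528080) (nat_lit 0) (nat_lit 0) (nat_lit 0) (nat_lit 0) (nat_lit 0) (nat_lit 0) (nat_lit 1) (nat_lit 0) (nat_lit 1) (nat_lit 0) (nat_lit 412) (nat_lit 419) (nat_lit 249)))) (XT.nd (nat_lit 188) (nat_lit 0) (nat_lit 0) (XT.nd (nat_lit 94) (nat_lit 0) (nat_lit 0) (XT.lf (nat_lit 0) (nat_lit 100670512573) (nat_lit 0) (nat_lit 0) (nat_lit 0) (nat_lit 0) (nat_lit 0) (nat_lit 0) (nat_lit 1) (nat_lit 0) (nat_lit 1) (nat_lit 0) (nat_lit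 413) (nat_lit 419) (nat_lit 248)) (XT.lf (nat_lit 0) (nat_lit 100670498214) (nat_lit 0) (nat_lit 0) (nat_lit 0) (nat_lit 0) (nat_lit 0) (nat_lit 0) (nat_lit 1) (nat_lit 0) (nat_lit 1) (nat_lit 0) (nat_lit 414) (nat_lit 419) (nat_lit 247))) (XT.nd (nat_lit 94) (nat_lit 0) (nat_lit 0) (XT.lf (nat_lit 0) (nat_lit 100670484920) (nat_lit 0) (nat_lit 0) (nat_lit 0) (nat_lit 0) (nat_lit 0) (nat_lit 0) (nat_lit 1) (nat_lit 0) (nat_lit 1) (nat_lit 0) (nat_lit 415) (nat_lit 419) (nat_lit 246)) (XT.nd (nat_lit 94) (nat_lit 0) (nat_lit 0) (XT.lf (nat_lit 0) (nat_lit 100670472610) (nat_lit 0) (nat_lit 0) (nat_lit 0) (nat_lit 0) (nat_lit 0) (nat_lit 0) (nat_lit 1) (nat_lit 0) (nat_lit 1) (nat_lit 0) (nat_lit 416) (nat_lit 419) (nat_lit 245)) (XT.lf (nat_lit 0) (nat_lit 100670461211) (nat_lit 0) (nat_lit 0) (nat_lit 0) (nat_lit 0) (nat_lit 0) (nat_lit 0) (nat_lit 1) (nat_lit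 0) (nat_lit 1) (nat_lit 0) (nat_lit 417) (nat_lit 419) (nat_lit 244)))))) (XT.nd (nat_lit 470) (nat_lit 0) (nat_lit 0) (XT.nd (nat_lit 188) (nat_lit 0) (nat_lit 0) (XT.nd (nat_lit 94) (nat_lit 0) (nat_lit 0) (XT.lf (nat_lit 0) (nat_lit 100670450658) (nat_lit 0) (nat_lit 0) (nat_lit 0) (nat_lit 0) (nat_lit 0) (nat_lit 0) (nat_lit 1) (nat_lit 0) (nat_lit 1) (nat_lit 0) (nat_lit 418) (nat_lit 419) (nat_lit 243)) (XT.lf (nat_lit 0) (nat_lit 100670440885) (nat_lit 0) (nat_lit 0) (nat_lit 0) (nat_lit 0) (nat_lit 0) (nat_lit 0) (nat_lit 1) (nat_lit 0) (nat_lit 1) (nat_lit 0) (nat_lit 419) (nat_lit 419) (nat_lit 242))) (XT.nd (nat_lit 94) (nat_lit 0) (nat_lit 0) (XT.lf (nat_lit 0) (nat_lit 100670431837) (nat_lit 0) (nat_lit 0) (nat_lit 0) (nat_lit 0) (nat_lit 0) (nat_lit 0) (nat_lit 1) (nat_lit 0) (nat_lit 1) (nat_lit 0) (nat_lit 420) (nat_lit 419) (nat_lit 241))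 (XT.nd (nat_lit 94) (nat_lit 0) (nat_lit 0) (XT.lf (nat_lit 0) (nat_lit 100670423459) (nat_lit 0) (nat_lit 0) (nat_lit 0) (nat_lit 0) (nat_lit 0) (nat_lit 0) (nat_lit 1) (nat_lit 0) (nat_lit 1) (nat_lit 0) (nat_lit 421) (nat_lit 419) (nat_lit 240)) (XT.lf (nat_lit 0) (nat_lit 100670415702) (nat_lit 0) (nat_lit 0) (nat_lit 0) (nat_lit 0) (nat_lit 0) (nat_lit 0) (nat_lit 1) (nat_lit 0) (nat_lit 1) (nat_lit 0) (nat_lit 422) (nat_lit 419) (nat_lit 239))))) (XT.nd (nat_lit 188) (nat_lit 0) (nat_lit 0) (XT.nd (nat_lit 94) (nat_lit 0) (nat_lit 0) (XT.lf (nat_lit 0) (nat_lit 100670408519) (nat_lit 0) (nat_lit 0) (nat_lit 0) (nat_lit 0) (nat_lit 0) (nat_lit 0) (nat_lit 1) (nat_lit 0) (nat_lit 1) (nat_lit 0) (nat_lit 423) (nat_lit 419) (nat_lit 238)) (XT.lf (nat_lit 0) (nat_lit 100670401868) (nat_lit 0) (nat_lit 0) (nat_lit 0) (nat_lit 0) (nat_lit 0) (nat_lit 0) (nat_lit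 1) (nat_lit 0) (nat_lit 1) (nat_lit 0) (nat_lit 424) (nat_lit 419) (nat_lit 237))) (XT.nd (nat_lit 94) (nat_lit 0) (nat_lit 0) (XT.lf (nat_lit 0) (nat_lit 100670395710) (nat_lit 0) (nat_lit 0) (nat_lit 0) (nat_lit 0) (nat_lit 0) (nat_lit 0) (nat_lit 1) (nat_lit 0) (nat_lit 1) (nat_lit 0) (nat_lit 425) (nat_lit 419) (nat_lit 236)) (XT.nd (nat_lit 94) (nat_lit 0) (nat_lit 0) (XT.lf (nat_lit 0) (nat_lit 100670390008) (nat_lit 0) (nat_lit 0) (nat_lit 0) (nat_lit 0) (nat_lit 0) (nat_lit 0) (nat_lit 1) (nat_lit 0) (nat_lit 1) (nat_lit 0) (nat_lit 426) (nat_lit 419) (nat_lit 235)) (XT.lf (nat_lit 0) (nat_lit 100670384729) (nat_lit 0) (nat_lit 0) (nat_lit 0) (nat_lit 0) (nat_lit 0) (nat_lit 0) (nat_lit 1) (nat_lit 0) (nat_lit 1) (nat_lit 0) (nat_lit 427) (nat_lit 419) (nat_lit 234))))))))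
noncomputable def ec246 : XT := (XT.nd (nat_lit 50384) (nat_lit 0) (nat_lit 5712) (XT.nd (nat_lit 846) (nat_lit 0) (nat_lit 0) (XT.nd (nat_lit 376) (nat_lit 0) (nat_lit 0) (XT.nd (nat_lit 188) (nat_lit 0) (nat_lit 0) (XT.nd (nat_lit 94) (nat_lit 0) (nat_lit 0) (XT.lf (nat_lit 0) (nat_lit 100670379840) (nat_lit 0) (nat_lit 0) (nat_lit 0) (nat_lit 0) (nat_lit 0) (nat_lit 0) (nat_lit 1) (nat_lit 0) (nat_lit 1) (nat_lit 0) (nat_lit 428) (nat_lit 419) (nat_lit 233)) (XT.lf (nat_lit 0) (nat_lit 100670375314) (nat_lit 0) (nat_lit 0) (nat_lit 0) (nat_lit 0) (nat_lit 0) (nat_lit 0) (nat_lit 1) (nat_lit 0) (nat_lit 1) (nat_lit 0) (nat_lit 429) (nat_lit 419) (nat_lit 232))) (XT.nd (nat_lit 94) (nat_lit 0) (nat_lit 0) (XT.lf (nat_lit 0) (nat_lit 100670371123) (nat_lit 0) (nat_lit 0) (nat_lit 0) (nat_lit 0) (nat_lit 0) (nat_lit 0) (nat_lit 1) (nat_lit 0) (nat_lit 1) (nat_lit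 0) (nat_lit 430) (nat_lit 419) (nat_lit 231)) (XT.lf (nat_lit 0) (nat_lit 100670367242) (nat_lit 0) (nat_lit 0) (nat_lit 0) (nat_lit 0) (nat_lit 0) (nat_lit 0) (nat_lit 1) (nat_lit 0) (nat_lit 1) (nat_lit 0) (nat_lit 431) (nat_lit 419) (nat_lit 230)))) (XT.nd (nat_lit 188) (nat_lit 0) (nat_lit 0) (XT.nd (nat_lit 94) (nat_lit 0) (nat_lit 0) (XT.lf (nat_lit 0) (nat_lit 100670363649) (nat_lit 0) (nat_lit 0) (nat_lit 0) (nat_lit 0) (nat_lit 0) (nat_lit 0) (nat_lit 1) (nat_lit 0) (nat_lit 1) (nat_lit 0) (nat_lit 432) (nat_lit 419) (nat_lit 229)) (XT.lf (nat_lit 0) (nat_lit 100670360322) (nat_lit 0) (nat_lit 0) (nat_lit 0) (nat_lit 0) (nat_lit 0) (nat_lit 0) (nat_lit 1) (nat_lit 0) (nat_lit 1) (nat_lit 0) (nat_lit 433) (nat_lit 419) (nat_lit 228))) (XT.nd (nat_lit 94) (nat_lit 0) (nat_lit 0) (XT.lf (nat_lit 0) (nat_lit 100670357242) (nat_lit 0) (nat_lit 0) (nat_lit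 0) (nat_lit 0) (nat_lit 0) (nat_lit 0) (nat_lit 1) (nat_lit 0) (nat_lit 1) (nat_lit 0) (nat_lit 434) (nat_lit 419) (nat_lit 227)) (XT.nd (nat_lit 94) (nat_lit 0) (nat_lit 0) (XT.lf (nat_lit 0) (nat_lit 100670354389) (nat_lit 0) (nat_lit 0) (nat_lit 0) (nat_lit 0) (nat_lit 0) (nat_lit 0) (nat_lit 1) (nat_lit 0) (nat_lit 1) (nat_lit 0) (nat_lit 435) (nat_lit 419) (nat_lit 226)) (XT.lf (nat_lit 0) (nat_lit 100670351748) (nat_lit 0) (nat_lit 0) (nat_lit 0) (nat_lit 0) (nat_lit 0) (nat_lit 0) (nat_lit 1) (nat_lit 0) (nat_lit 1) (nat_lit 0) (nat_lit 436) (nat_lit 419) (nat_lit 225)))))) (XT.nd (nat_lit 376) (nat_lit 0) (nat_lit 0) (XT.nd (nat_lit 188) (nat_lit 0) (nat_lit 0) (XT.nd (nat_lit 94) (nat_lit 0) (nat_lit 0) (XT.lf (nat_lit 0) (nat_lit 100670349303) (nat_lit 0) (nat_lit 0) (nat_lit 0) (nat_lit 0) (nat_lit 0) (nat_lit 0) (nat_lit 1) (nat_lit 0) (nat_lit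 1) (nat_lit 0) (nat_lit 437) (nat_lit 419) (nat_lit 224)) (XT.lf (nat_lit 0) (nat_lit 100670347038) (nat_lit 0) (nat_lit 0) (nat_lit 0) (nat_lit 0) (nat_lit 0) (nat_lit 0) (nat_lit 1) (nat_lit 0) (nat_lit 1) (nat_lit 0) (nat_lit 438) (nat_lit 419) (nat_lit 223))) (XT.nd (nat_lit 94) (nat_lit 0) (nat_lit 0) (XT.lf (nat_lit 0) (nat_lit 100670344942) (nat_lit 0) (nat_lit 0) (nat_lit 0) (nat_lit 0) (nat_lit 0) (nat_lit 0) (nat_lit 1) (nat_lit 0) (nat_lit 1) (nat_lit 0) (nat_lit 439) (nat_lit 419) (nat_lit 222)) (XT.lf (nat_lit 0) (nat_lit 100670343001) (nat_lit 0) (nat_lit 0) (nat_lit 0) (nat_lit 0) (nat_lit 0) (nat_lit 0) (nat_lit 1) (nat_lit 0) (nat_lit 1) (nat_lit 0) (nat_lit 440) (nat_lit 419) (nat_lit 221)))) (XT.nd (nat_lit 48880) (nat_lit 0) (nat_lit 10752) (XT.nd (nat_lit 94) (nat_lit 0) (nat_lit 0) (XT.lf (nat_lit 0) (nat_lit 100670341203) (nat_lit 0)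 (nat_lit 0) (nat_lit 0) (nat_lit 0) (nat_lit 0) (nat_lit 0) (nat_lit 1) (nat_lit 0) (nat_lit 1) (nat_lit 0) (nat_lit 441) (nat_lit 419) (nat_lit 220)) (XT.lf (nat_lit 0) (nat_lit 100670339539) (nat_lit 0) (nat_lit 0) (nat_lit 0) (nat_lit 0) (nat_lit 0) (nat_lit 0) (nat_lit 1) (nat_lit 0) (nat_lit 1) (nat_lit 0) (nat_lit 442) (nat_lit 419) (nat_lit 219))) (XT.nd (nat_lit 94) (nat_lit 0) (nat_lit 84) (XT.lf (nat_lit 924) (nat_lit 54409534232) (nat_lit 0) (nat_lit 96604002964) (nat_lit 924) (nat_lit 54409534232) (nat_lit 139) (nat_lit 1) (nat_lit 128) (nat_lit 0) (nat_lit 139) (nat_lit 0) (nat_lit 240) (nat_lit 420) (nat_lit 420)) (XT.nd (nat_lit 94) (nat_lit 0) (nat_lit 0) (XT.lf (nat_lit 924) (nat_lit 20296425778) (nat_lit 0) (nat_lit 189662936200) (nat_lit 840) (nat_lit 185489717954) (nat_lit 140) (nat_lit 1) (nat_lit 129) (nat_lit 1) (nat_lit 139) (nat_lit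 1) (nat_lit 241) (nat_lit 420) (nat_lit 419)) (XT.lf (nat_lit 924) (nat_lit 186410955508) (nat_lit 84) (nat_lit 127017332304) (nat_lit 0) (nat_lit 67364199019) (nat_lit 140) (nat_lit 1) (nat_lit 130) (nat_lit 1) (nat_lit 129) (nat_lit 1) (nat_lit 242) (nat_lit 420) (nat_lit 418))))))) (XT.nd (nat_lit 846) (nat_lit 2856) (nat_lit 0) (XT.nd (nat_lit 376) (nat_lit 2352) (nat_lit 0) (XT.nd (nat_lit 188) (nat_lit 0) (nat_lit 168) (XT.nd (nat_lit 94) (nat_lit 0) (nat_lit 84) (XT.lf (nat_lit 924) (nat_lit 161074336564) (nat_lit 84) (nat_lit 53232083568) (nat_lit 0) (nat_lit 152562926692) (nat_lit 141) (nat_lit 1) (nat_lit 131) (nat_lit 1) (nat_lit 130) (nat_lit 1) (nat_lit 243) (nat_lit 420) (nat_lit 417)) (XT.lf (nat_lit 924) (nat_lit 119208703122) (nat_lit 0) (nat_lit 223033848790) (nat_lit 840) (nat_lit 11401458485) (nat_lit 142) (nat_lit 1) (nat_lit 131) (nat_lit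 1) (nat_lit 141) (nat_lit 1) (nat_lit 244) (nat_lit 420) (nat_lit 416))) (XT.nd (nat_lit 94) (nat_lit 0) (nat_lit 0) (XT.lf (nat_lit 924) (nat_lit 28602959505) (nat_lit 0) (nat_lit 245956779497) (nat_lit 840) (nat_lit 66490537359) (nat_lit 143) (nat_lit 1) (nat_lit 132) (nat_lit 1) (nat_lit 142) (nat_lit 1) (nat_lit 245) (nat_lit 420) (nat_lit 415)) (XT.lf (nat_lit 924) (nat_lit 54963254360) (nat_lit 84) (nat_lit 213756470503) (nat_lit 0) (nat_lit 60324713229) (nat_lit 143) (nat_lit 1) (nat_lit 133) (nat_lit 1) (nat_lit 132) (nat_lit 1) (nat_lit 246) (nat_lit 420) (nat_lit 414)))) (XT.nd (nat_lit 188) (nat_lit 1176) (nat_lit 0) (XT.nd (nat_lit 94) (nat_lit 588) (nat_lit 0) (XT.lf (nat_lit 924) (nat_lit 11288199115) (nat_lit 0) (nat_lit 159797101148) (nat_lit 840) (nat_lit 146532267424) (nat_lit 134) (nat_lit 1) (nat_lit 123) (nat_lit 1) (nat_lit 133) (nat_lit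 1) (nat_lit 247) (nat_lit 420) (nat_lit 413)) (XT.lf (nat_lit 84) (nat_lit 78161842099) (nat_lit 0) (nat_lit 33871163539) (nat_lit 588) (nat_lit 194698742924) (nat_lit 117) (nat_lit 1) (nat_lit 116) (nat_lit 1) (nat_lit 123) (nat_lit 1) (nat_lit 248) (nat_lit 420) (nat_lit 412))) (XT.nd (nat_lit 94) (nat_lit 756) (nat_lit 0) (XT.lf (nat_lit 504) (nat_lit 215404198844) (nat_lit 0) (nat_lit 70118710463) (nat_lit 420) (nat_lit 10840785894) (nat_lit 117) (nat_lit 1) (nat_lit 111) (nat_lit 1) (nat_lit 116) (nat_lit 1) (nat_lit 249) (nat_lit 420) (nat_lit 411)) (XT.nd (nat_lit 94) (nat_lit 336) (nat_lit 0) (XT.lf (nat_lit 504) (nat_lit 155437721120) (nat_lit 0) (nat_lit 32682632993) (nat_lit 420) (nat_lit 98321095483) (nat_lit 112) (nat_lit 1) (nat_lit 106) (nat_lit 1) (nat_lit 111) (nat_lit 1) (nat_lit 250) (nat_lit 420) (nat_lit 410)) (XT.lf (nat_lit 420) (nat_lit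 94581870858) (nat_lit 0) (nat_lit 601740385) (nat_lit 336) (nat_lit 181816700862) (nat_lit 107) (nat_lit 1) (nat_lit 102) (nat_lit 1) (nat_lit 106) (nat_lit 1) (nat_lit 251) (nat_lit 420) (nat_lit 409)))))) (XT.nd (nat_lit 470) (nat_lit 1512) (nat_lit 0) (XT.nd (nat_lit 188) (nat_lit 924) (nat_lit 0) (XT.nd (nat_lit 94) (nat_lit 420) (nat_lit 0) (XT.lf (nat_lit 84) (nat_lit 6977803439) (nat_lit 0) (nat_lit 235325343499) (nat_lit 420) (nat_lit 25690336860) (nat_lit 103) (nat_lit 1) (nat_lit 102) (nat_lit 1) (nat_lit 107) (nat_lit 1) (nat_lit 252) (nat_lit 420) (nat_lit 408)) (XT.lf (nat_lit 84) (nat_lit 180168694632) (nat_lit 0) (nat_lit 29882905798) (nat_lit 420) (nat_lit 49282338808) (nat_lit 98) (nat_lit 1) (nat_lit 97) (nat_lit 1) (nat_lit 102) (nat_lit 1) (nat_lit 253) (nat_lit 420) (nat_lit 407))) (XT.nd (nat_lit 94) (nat_lit 588) (nat_lit 0) (XT.lf (nat_lit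 84) (nat_lit 90142963516) (nat_lit 0) (nat_lit 91536645160) (nat_lit 420) (nat_lit 69377408834) (nat_lit 94) (nat_lit 1) (nat_lit 93) (nat_lit 1) (nat_lit 98) (nat_lit 1) (nat_lit 254) (nat_lit 420) (nat_lit 406)) (XT.nd (nat_lit 94) (nat_lit 252) (nat_lit 0) (XT.lf (nat_lit 84) (nat_lit 4449256790) (nat_lit 0) (nat_lit 153047849346) (nat_lit 420) (nat_lit 85674874534) (nat_lit 90) (nat_lit 1) (nat_lit 89) (nat_lit 1) (nat_lit 94) (nat_lit 1) (nat_lit 255) (nat_lit 420) (nat_lit 405)) (XT.lf (nat_lit 336) (nat_lit 20092592907) (nat_lit 0) (nat_lit 135876588125) (nat_lit 252) (nat_lit 79626803426) (nat_lit 90) (nat_lit 1) (nat_lit 86) (nat_lit 1) (nat_lit 89) (nat_lit 1) (nat_lit 256) (nat_lit 420) (nat_lit 404))))) (XT.nd (nat_lit 188) (nat_lit 840) (nat_lit 0) (XT.nd (nat_lit 94) (nat_lit 252) (nat_lit 0) (XT.lf (nat_lit 84) (nat_lit 69425310584) (nat_lit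 0) (nat_lit 47584539264) (nat_lit 420) (nat_lit 111323116536) (nat_lit 82) (nat_lit 1) (nat_lit 81) (nat_lit 1) (nat_lit 86) (nat_lit 1) (nat_lit 257) (nat_lit 420) (nat_lit 403)) (XT.lf (nat_lit 336) (nat_lit 107487079738) (nat_lit 0) (nat_lit 100970219035) (nat_lit 252) (nat_lit 12924068202) (nat_lit 82) (nat_lit 1) (nat_lit 78) (nat_lit 1) (nat_lit 81) (nat_lit 1) (nat_lit 258) (nat_lit 420) (nat_lit 402))) (XT.nd (nat_lit 94) (nat_lit 588) (nat_lit 0) (XT.lf (nat_lit 336) (nat_lit 34449089779) (nat_lit 0) (nat_lit 86931223899) (nat_lit 252) (nat_lit 93316605794) (nat_lit 79) (nat_lit 1) (nat_lit 75) (nat_lit 1) (nat_lit 78) (nat_lit 1) (nat_lit 259) (nat_lit 420) (nat_lit 401)) (XT.nd (nat_lit 94) (nat_lit 252) (nat_lit 0) (XT.lf (nat_lit 84) (nat_lit 39263638338) (nat_lit 0) (nat_lit 35949272984) (nat_lit 336) (nat_lit 133077178337) (nat_lit 72) (nat_lit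 1) (nat_lit 71) (nat_lit 1) (nat_lit 75) (nat_lit 1) (nat_lit 260) (nat_lit 420) (nat_lit 400)) (XT.lf (nat_lit 336) (nat_lit 97702410665) (nat_lit 0) (nat_lit 65007563485) (nat_lit 252) (nat_lit 39407798719) (nat_lit 72) (nat_lit 1) (nat_lit 68) (nat_lit 1) (nat_lit 71) (nat_lit 1) (nat_lit 261) (nat_lit 420) (nat_lit 399))))))))
noncomputable def ec247 : XT := (XT.nd (nat_lit 1786) (nat_lit 2268) (nat_lit 0) (XT.nd (nat_lit 846) (nat_lit 1596) (nat_lit 0) (XT.nd (nat_lit 376) (nat_lit 924) (nat_lit 0) (XT.nd (nat_lit 188) (nat_lit 420) (nat_lit 0) (XT.nd (nat_lit 94) (nat_lit 336) (nat_lit 0) (XT.lf (nat_lit 252) (nat_lit 24220571868) (nat_lit 0) (nat_lit 56714357476) (nat_lit 168) (nat_lit 115259535214) (nat_lit 69) (nat_lit 1) (nat_lit 66) (nat_lit 1) (nat_lit 68) (nat_lit 1) (nat_lit 262) (nat_lit 420) (nat_lit 398)) (XT.lf (nat_lit 84) (nat_lit 4103119614)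 (nat_lit 0) (nat_lit 45914799226) (nat_lit 336) (nat_lit 140482840442) (nat_lit 63) (nat_lit 1) (nat_lit 62) (nat_lit 1) (nat_lit 66) (nat_lit 1) (nat_lit 263) (nat_lit 420) (nat_lit 397))) (XT.nd (nat_lit 94) (nat_lit 252) (nat_lit 0) (XT.lf (nat_lit 252) (nat_lit 70380537687) (nat_lit 0) (nat_lit 43981798119) (nat_lit 168) (nat_lit 70625462666) (nat_lit 63) (nat_lit 1) (nat_lit 60) (nat_lit 1) (nat_lit 62) (nat_lit 1) (nat_lit 264) (nat_lit 420) (nat_lit 396)) (XT.lf (nat_lit 84) (nat_lit 38185538528) (nat_lit 0) (nat_lit 1763813964) (nat_lit 252) (nat_lit 139766051784) (nat_lit 58) (nat_lit 1) (nat_lit 57) (nat_lit 1) (nat_lit 60) (nat_lit 1) (nat_lit 265) (nat_lit 420) (nat_lit 395)))) (XT.nd (nat_lit 188) (nat_lit 588) (nat_lit 0) (XT.nd (nat_lit 94) (nat_lit 168) (nat_lit 0) (XT.lf (nat_lit 252) (nat_lit 104391888533) (nat_lit 0) (nat_lit 36174130039)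 (nat_lit 168) (nat_lit 34030361702) (nat_lit 58) (nat_lit 1) (nat_lit 55) (nat_lit 1) (nat_lit 57) (nat_lit 1) (nat_lit 266) (nat_lit 420) (nat_lit 394)) (XT.lf (nat_lit 252) (nat_lit 32428303853) (nat_lit 0) (nat_lit 33627854067) (nat_lit 168) (nat_lit 103616921043) (nat_lit 56) (nat_lit 1) (nat_lit 53) (nat_lit 1) (nat_lit 55) (nat_lit 1) (nat_lit 267) (nat_lit 420) (nat_lit 393))) (XT.nd (nat_lit 94) (nat_lit 336) (nat_lit 0) (XT.lf (nat_lit 252) (nat_lit 128728448561) (nat_lit 0) (nat_lit 32128685154) (nat_lit 168) (nat_lit 4075896458) (nat_lit 53) (nat_lit 1) (nat_lit 50) (nat_lit 1) (nat_lit 52) (nat_lit 1) (nat_lit 268) (nat_lit 420) (nat_lit 392)) (XT.nd (nat_lit 94) (nat_lit 168) (nat_lit 0) (XT.lf (nat_lit 252) (nat_lit 57612887517) (nat_lit 0) (nat_lit 30672062241) (nat_lit 168) (nat_lit 72039742620) (nat_lit 51) (nat_lit 1) (nat_lit 48) (nat_lit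 1) (nat_lit 50) (nat_lit 1) (nat_lit 269) (nat_lit 420) (nat_lit 391)) (XT.lf (nat_lit 84) (nat_lit 19734638346) (nat_lit 0) (nat_lit 10847046504) (nat_lit 168) (nat_lit 125325811677) (nat_lit 47) (nat_lit 1) (nat_lit 46) (nat_lit 1) (nat_lit 48) (nat_lit 1) (nat_lit 270) (nat_lit 420) (nat_lit 390)))))) (XT.nd (nat_lit 470) (nat_lit 756) (nat_lit 0) (XT.nd (nat_lit 188) (nat_lit 588) (nat_lit 0) (XT.nd (nat_lit 94) (nat_lit 84) (nat_lit 0) (XT.lf (nat_lit 252) (nat_lit 75591421780) (nat_lit 0) (nat_lit 30257858848) (nat_lit 168) (nat_lit 45752483784) (nat_lit 47) (nat_lit 1) (nat_lit 44) (nat_lit 1) (nat_lit 46) (nat_lit 1) (nat_lit 271) (nat_lit 420) (nat_lit 389)) (XT.lf (nat_lit 168) (nat_lit 8140121985) (nat_lit 0) (nat_lit 31001030963) (nat_lit 84) (nat_lit 108324864113) (nat_lit 45) (nat_lit 1) (nat_lit 43) (nat_lit 1) (nat_lit 44) (nat_lit 1) (nat_lit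 272) (nat_lit 420) (nat_lit 388))) (XT.nd (nat_lit 94) (nat_lit 336) (nat_lit 0) (XT.lf (nat_lit 252) (nat_lit 87869611534) (nat_lit 0) (nat_lit 31705781944) (nat_lit 168) (nat_lit 23868911557) (nat_lit 43) (nat_lit 1) (nat_lit 40) (nat_lit 1) (nat_lit 42) (nat_lit 1) (nat_lit 273) (nat_lit 420) (nat_lit 387)) (XT.nd (nat_lit 94) (nat_lit 252) (nat_lit 0) (XT.lf (nat_lit 168) (nat_lit 22099855249) (nat_lit 0) (nat_lit 32891293080) (nat_lit 84) (nat_lit 84566984453) (nat_lit 41) (nat_lit 1) (nat_lit 39) (nat_lit 1) (nat_lit 40) (nat_lit 1) (nat_lit 274) (nat_lit 420) (nat_lit 386)) (XT.lf (nat_lit 252) (nat_lit 95664838418) (nat_lit 0) (nat_lit 34477649876) (nat_lit 168) (nat_lit 5658077489) (nat_lit 39) (nat_lit 1) (nat_lit 36) (nat_lit 1) (nat_lit 38) (nat_lit 1) (nat_lit 275) (nat_lit 420) (nat_lit 385))))) (XT.nd (nat_lit 188) (nat_lit 420) (nat_lit 0)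 (XT.nd (nat_lit 94) (nat_lit 252) (nat_lit 0) (XT.lf (nat_lit 168) (nat_lit 31804723627) (nat_lit 0) (nat_lit 35943364287) (nat_lit 84) (nat_lit 64395641213) (nat_lit 37) (nat_lit 1) (nat_lit 35) (nat_lit 1) (nat_lit 36) (nat_lit 1) (nat_lit 276) (nat_lit 420) (nat_lit 384)) (XT.lf (nat_lit 84) (nat_lit 9180108949) (nat_lit 0) (nat_lit 28813914932) (nat_lit 252) (nat_lit 90624240692) (nat_lit 33) (nat_lit 1) (nat_lit 32) (nat_lit 1) (nat_lit 35) (nat_lit 1) (nat_lit 277) (nat_lit 420) (nat_lit 383))) (XT.nd (nat_lit 94) (nat_lit 336) (nat_lit 0) (XT.lf (nat_lit 168) (nat_lit 38168537862) (nat_lit 0) (nat_lit 39769807304) (nat_lit 84) (nat_lit 47242007597) (nat_lit 33) (nat_lit 1) (nat_lit 31) (nat_lit 1) (nat_lit 32) (nat_lit 1) (nat_lit 278) (nat_lit 420) (nat_lit 382)) (XT.nd (nat_lit 94) (nat_lit 84) (nat_lit 0) (XT.lf (nat_lit 84) (nat_lit 21349515200)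 (nat_lit 0) (nat_lit 20678449122) (nat_lit 252) (nat_lit 79835293271) (nat_lit 29) (nat_lit 1) (nat_lit 28) (nat_lit 1) (nat_lit 31) (nat_lit 1) (nat_lit 279) (nat_lit 420) (nat_lit 381)) (XT.lf (nat_lit 168) (nat_lit 41928224484) (nat_lit 0) (nat_lit 44068183602) (nat_lit 84) (nat_lit 32634504863) (nat_lit 29) (nat_lit 1) (nat_lit 27) (nat_lit 1) (nat_lit 28) (nat_lit 1) (nat_lit 280) (nat_lit 420) (nat_lit 380))))))) (XT.nd (nat_lit 846) (nat_lit 1092) (nat_lit 0) (XT.nd (nat_lit 376) (nat_lit 672) (nat_lit 0) (XT.nd (nat_lit 188) (nat_lit 252) (nat_lit 0) (XT.nd (nat_lit 94) (nat_lit 84) (nat_lit 0) (XT.lf (nat_lit 84) (nat_lit 31431423239) (nat_lit 0) (nat_lit 14976510775) (nat_lit 168) (nat_lit 69097383732) (nat_lit 26) (nat_lit 1) (nat_lit 25) (nat_lit 1) (nat_lit 27) (nat_lit 1) (nat_lit 281) (nat_lit 420) (nat_lit 379)) (XT.lf (nat_lit 168) (nat_lit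 43676877847) (nat_lit 0) (nat_lit 48604487520) (nat_lit 84) (nat_lit 20181455272) (nat_lit 26) (nat_lit 1) (nat_lit 24) (nat_lit 1) (nat_lit 25) (nat_lit 1) (nat_lit 282) (nat_lit 420) (nat_lit 378))) (XT.nd (nat_lit 94) (nat_lit 84) (nat_lit 0) (XT.lf (nat_lit 84) (nat_lit 39757827957) (nat_lit 0) (nat_lit 11172672321) (nat_lit 168) (nat_lit 58583407284) (nat_lit 23) (nat_lit 1) (nat_lit 22) (nat_lit 1) (nat_lit 24) (nat_lit 1) (nat_lit 283) (nat_lit 420) (nat_lit 377)) (XT.lf (nat_lit 168) (nat_lit 43890710534) (nat_lit 0) (nat_lit 53199683023) (nat_lit 84) (nat_lit 9556885724) (nat_lit 23) (nat_lit 1) (nat_lit 21) (nat_lit 1) (nat_lit 22) (nat_lit 1) (nat_lit 284) (nat_lit 420) (nat_lit 376)))) (XT.nd (nat_lit 188) (nat_lit 420) (nat_lit 0) (XT.nd (nat_lit 94) (nat_lit 84) (nat_lit 0) (XT.lf (nat_lit 84) (nat_lit 46604654158) (nat_lit 0) (nat_lit 8836400217)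 (nat_lit 168) (nat_lit 48420902403) (nat_lit 20) (nat_lit 1) (nat_lit 19) (nat_lit 1) (nat_lit 21) (nat_lit 1) (nat_lit 285) (nat_lit 420) (nat_lit 375)) (XT.lf (nat_lit 168) (nat_lit 42951023949) (nat_lit 0) (nat_lit 57718769883) (nat_lit 84) (nat_lit 488905962) (nat_lit 20) (nat_lit 1) (nat_lit 18) (nat_lit 1) (nat_lit 19) (nat_lit 1) (nat_lit 286) (nat_lit 420) (nat_lit 374))) (XT.nd (nat_lit 94) (nat_lit 252) (nat_lit 0) (XT.lf (nat_lit 84) (nat_lit 52201681505) (nat_lit 0) (nat_lit 7622359219) (nat_lit 168) (nat_lit 38701293758) (nat_lit 17) (nat_lit 1) (nat_lit 16) (nat_lit 1) (nat_lit 18) (nat_lit 1) (nat_lit 287) (nat_lit 420) (nat_lit 373)) (XT.nd (nat_lit 94) (nat_lit 168) (nat_lit 0) (XT.lf (nat_lit 0) (nat_lit 7017769978) (nat_lit 0) (nat_lit 54925292164) (nat_lit 168) (nat_lit 34025495605) (nat_lit 15) (nat_lit 3) (nat_lit 15) (nat_lit 1) (nat_lit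 17) (nat_lit 1) (nat_lit 288) (nat_lit 420) (nat_lit 372)) (XT.lf (nat_lit 84) (nat_lit 56740672921) (nat_lit 0) (nat_lit 7254359200) (nat_lit 168) (nat_lit 29487380478) (nat_lit 14) (nat_lit 1) (nat_lit 13) (nat_lit 1) (nat_lit 15) (nat_lit 1) (nat_lit 289) (nat_lit 420) (nat_lit 371)))))) (XT.nd (nat_lit 470) (nat_lit 504) (nat_lit 0) (XT.nd (nat_lit 188) (nat_lit 336) (nat_lit 0) (XT.nd (nat_lit 94) (nat_lit 168) (nat_lit 0) (XT.lf (nat_lit 0) (nat_lit 13406536911) (nat_lit 0) (nat_lit 52523659344) (nat_lit 168) (nat_lit 25132282847) (nat_lit 12) (nat_lit 3) (nat_lit 12) (nat_lit 1) (nat_lit 14) (nat_lit 1) (nat_lit 290) (nat_lit 420) (nat_lit 370)) (XT.lf (nat_lit 84) (nat_lit 60382034519) (nat_lit 0) (nat_lit 7512274385) (nat_lit 168) (nat_lit 20819395318) (nat_lit 11) (nat_lit 1) (nat_lit 10) (nat_lit 1) (nat_lit 12) (nat_lit 1) (nat_lit 291) (nat_lit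 420) (nat_lit 369))) (XT.nd (nat_lit 94) (nat_lit 252) (nat_lit 0) (XT.lf (nat_lit 0) (nat_lit 18848098897) (nat_lit 0) (nat_lit 50787744231) (nat_lit 168) (nat_lit 16786329020) (nat_lit 9) (nat_lit 3) (nat_lit 9) (nat_lit 1) (nat_lit 11) (nat_lit 1) (nat_lit 292) (nat_lit 420) (nat_lit 368)) (XT.nd (nat_lit 94) (nat_lit 84) (nat_lit 0) (XT.lf (nat_lit 84) (nat_lit 63260275020) (nat_lit 0) (nat_lit 8221387958) (nat_lit 168) (nat_lit 12719900364) (nat_lit 8) (nat_lit 1) (nat_lit 7) (nat_lit 1) (nat_lit 9) (nat_lit 1) (nat_lit 293) (nat_lit 420) (nat_lit 367)) (XT.lf (nat_lit 0) (nat_lit 23473183840) (nat_lit 0) (nat_lit 49552324650) (nat_lit 168) (nat_lit 9005191454) (nat_lit 6) (nat_lit 3) (nat_lit 6) (nat_lit 1) (nat_lit 8) (nat_lit 1) (nat_lit 294) (nat_lit 420) (nat_lit 366))))) (XT.nd (nat_lit 188) (nat_lit 252) (nat_lit 0) (XT.nd (nat_lit 94) (nat_lit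 84) (nat_lit 0) (XT.lf (nat_lit 84) (nat_lit 65488483586) (nat_lit 0) (nat_lit 9243715458) (nat_lit 168) (nat_lit 5197735913) (nat_lit 5) (nat_lit 1) (nat_lit 4) (nat_lit 1) (nat_lit 6) (nat_lit 1) (nat_lit 295) (nat_lit 420) (nat_lit 365)) (XT.lf (nat_lit 0) (nat_lit 27392356366) (nat_lit 0) (nat_lit 48686318096) (nat_lit 168) (nat_lit 1793954516) (nat_lit 3) (nat_lit 3) (nat_lit 3) (nat_lit 1) (nat_lit 5) (nat_lit 1) (nat_lit 296) (nat_lit 420) (nat_lit 364))) (XT.nd (nat_lit 94) (nat_lit 0) (nat_lit 0) (XT.lf (nat_lit 0) (nat_lit 110076549694) (nat_lit 0) (nat_lit 0) (nat_lit 0) (nat_lit 0) (nat_lit 0) (nat_lit 0) (nat_lit 1) (nat_lit 0) (nat_lit 1) (nat_lit 0) (nat_lit 297) (nat_lit 420) (nat_lit 363)) (XT.nd (nat_lit 94) (nat_lit 0) (nat_lit 0) (XT.lf (nat_lit 0) (nat_lit 109976356697) (nat_lit 0) (nat_lit 0) (nat_lit 0) (nat_lit 0) (nat_lit 0) (nat_lit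 0) (nat_lit 1) (nat_lit 0) (nat_lit 1) (nat_lit 0) (nat_lit 298) (nat_lit 420) (nat_lit 362)) (XT.lf (nat_lit 0) (nat_lit 109883585403) (nat_lit 0) (nat_lit 0) (nat_lit 0) (nat_lit 0) (nat_lit 0) (nat_lit 0) (nat_lit 1) (nat_lit 0) (nat_lit 1) (nat_lit 0) (nat_lit 299) (nat_lit 420) (nat_lit 361))))))))
noncomputable def ec248 : XT := (XT.nd (nat_lit 1692) (nat_lit 0) (nat_lit 0) (XT.nd (nat_lit 846) (nat_lit 0) (nat_lit 0) (XT.nd (nat_lit 376) (nat_lit 0) (nat_lit 0) (XT.nd (nat_lit 188) (nat_lit 0) (nat_lit 0) (XT.nd (nat_lit 94) (nat_lit 0) (nat_lit 0) (XT.lf (nat_lit 0) (nat_lit 109797686057) (nat_lit 0) (nat_lit 0) (nat_lit 0) (nat_lit 0) (nat_lit 0) (nat_lit 0) (nat_lit 1) (nat_lit 0) (nat_lit 1) (nat_lit 0) (nat_lit 300) (nat_lit 420) (nat_lit 360)) (XT.lf (nat_lit 0) (nat_lit 109718149626) (nat_lit 0) (nat_lit 0) (nat_lit 0) (nat_lit 0) (nat_lit 0)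 (nat_lit 0) (nat_lit 1) (nat_lit 0) (nat_lit 1) (nat_lit 0) (nat_lit 301) (nat_lit 420) (nat_lit 359))) (XT.nd (nat_lit 94) (nat_lit 0) (nat_lit 0) (XT.lf (nat_lit 0) (nat_lit 109644504782) (nat_lit 0) (nat_lit 0) (nat_lit 0) (nat_lit 0) (nat_lit 0) (nat_lit 0) (nat_lit 1) (nat_lit 0) (nat_lit 1) (nat_lit 0) (nat_lit 302) (nat_lit 420) (nat_lit 358)) (XT.lf (nat_lit 0) (nat_lit 109576315112) (nat_lit 0) (nat_lit 0) (nat_lit 0) (nat_lit 0) (nat_lit 0) (nat_lit 0) (nat_lit 1) (nat_lit 0) (nat_lit 1) (nat_lit 0) (nat_lit 303) (nat_lit 420) (nat_lit 357)))) (XT.nd (nat_lit 188) (nat_lit 0) (nat_lit 0) (XT.nd (nat_lit 94) (nat_lit 0) (nat_lit 0) (XT.lf (nat_lit 0) (nat_lit 109513176528) (nat_lit 0) (nat_lit 0) (nat_lit 0) (nat_lit 0) (nat_lit 0) (nat_lit 0) (nat_lit 1) (nat_lit 0) (nat_lit 1) (nat_lit 0) (nat_lit 304) (nat_lit 420) (nat_lit 356)) (XT.lf (nat_lit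 0) (nat_lit 109454714877) (nat_lit 0) (nat_lit 0) (nat_lit 0) (nat_lit 0) (nat_lit 0) (nat_lit 0) (nat_lit 1) (nat_lit 0) (nat_lit 1) (nat_lit 0) (nat_lit 305) (nat_lit 420) (nat_lit 355))) (XT.nd (nat_lit 94) (nat_lit 0) (nat_lit 0) (XT.lf (nat_lit 0) (nat_lit 109400583718) (nat_lit 0) (nat_lit 0) (nat_lit 0) (nat_lit 0) (nat_lit 0) (nat_lit 0) (nat_lit 1) (nat_lit 0) (nat_lit 1) (nat_lit 0) (nat_lit 306) (nat_lit 420) (nat_lit 354)) (XT.nd (nat_lit 94) (nat_lit 0) (nat_lit 0) (XT.lf (nat_lit 0) (nat_lit 109350462275) (nat_lit 0) (nat_lit 0) (nat_lit 0) (nat_lit 0) (nat_lit 0) (nat_lit 0) (nat_lit 1) (nat_lit 0) (nat_lit 1) (nat_lit 0) (nat_lit 307) (nat_lit 420) (nat_lit 353)) (XT.lf (nat_lit 0) (nat_lit 109304053531) (nat_lit 0) (nat_lit 0) (nat_lit 0) (nat_lit 0) (nat_lit 0) (nat_lit 0) (nat_lit 1) (nat_lit 0) (nat_lit 1) (nat_lit 0) (nat_lit 308) (nat_lit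 420) (nat_lit 352)))))) (XT.nd (nat_lit 376) (nat_lit 0) (nat_lit 0) (XT.nd (nat_lit 188) (nat_lit 0) (nat_lit 0) (XT.nd (nat_lit 94) (nat_lit 0) (nat_lit 0) (XT.lf (nat_lit 0) (nat_lit 109261082472) (nat_lit 0) (nat_lit 0) (nat_lit 0) (nat_lit 0) (nat_lit 0) (nat_lit 0) (nat_lit 1) (nat_lit 0) (nat_lit 1) (nat_lit 0) (nat_lit 309) (nat_lit 420) (nat_lit 351)) (XT.lf (nat_lit 0) (nat_lit 109221294454) (nat_lit 0) (nat_lit 0) (nat_lit 0) (nat_lit 0) (nat_lit 0) (nat_lit 0) (nat_lit 1) (nat_lit 0) (nat_lit 1) (nat_lit 0) (nat_lit 310) (nat_lit 420) (nat_lit 350))) (XT.nd (nat_lit 94) (nat_lit 0) (nat_lit 0) (XT.lf (nat_lit 0) (nat_lit 109184453697) (nat_lit 0) (nat_lit 0) (nat_lit 0) (nat_lit 0) (nat_lit 0) (nat_lit 0) (nat_lit 1) (nat_lit 0) (nat_lit 1) (nat_lit 0) (nat_lit 311) (nat_lit 420) (nat_lit 349)) (XT.lf (nat_lit 0) (nat_lit 109150341885) (nat_lit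 0) (nat_lit 0) (nat_lit 0) (nat_lit 0) (nat_lit 0) (nat_lit 0) (nat_lit 1) (nat_lit 0) (nat_lit 1) (nat_lit 0) (nat_lit 312) (nat_lit 420) (nat_lit 348)))) (XT.nd (nat_lit 188) (nat_lit 0) (nat_lit 0) (XT.nd (nat_lit 94) (nat_lit 0) (nat_lit 0) (XT.lf (nat_lit 0) (nat_lit 109118756874) (nat_lit 0) (nat_lit 0) (nat_lit 0) (nat_lit 0) (nat_lit 0) (nat_lit 0) (nat_lit 1) (nat_lit 0) (nat_lit 1) (nat_lit 0) (nat_lit 313) (nat_lit 420) (nat_lit 347)) (XT.lf (nat_lit 0) (nat_lit 109089511493) (nat_lit 0) (nat_lit 0) (nat_lit 0) (nat_lit 0) (nat_lit 0) (nat_lit 0) (nat_lit 1) (nat_lit 0) (nat_lit 1) (nat_lit 0) (nat_lit 314) (nat_lit 420) (nat_lit 346))) (XT.nd (nat_lit 94) (nat_lit 0) (nat_lit 0) (XT.lf (nat_lit 0) (nat_lit 109062432437) (nat_lit 0) (nat_lit 0) (nat_lit 0) (nat_lit 0) (nat_lit 0) (nat_lit 0) (nat_lit 1) (nat_lit 0) (nat_lit 1) (nat_lit 0) (nat_lit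 315) (nat_lit 420) (nat_lit 345)) (XT.nd (nat_lit 94) (nat_lit 0) (nat_lit 0) (XT.lf (nat_lit 0) (nat_lit 109037359236) (nat_lit 0) (nat_lit 0) (nat_lit 0) (nat_lit 0) (nat_lit 0) (nat_lit 0) (nat_lit 1) (nat_lit 0) (nat_lit 1) (nat_lit 0) (nat_lit 316) (nat_lit 420) (nat_lit 344)) (XT.lf (nat_lit 0) (nat_lit 109014143310) (nat_lit 0) (nat_lit 0) (nat_lit 0) (nat_lit 0) (nat_lit 0) (nat_lit 0) (nat_lit 1) (nat_lit 0) (nat_lit 1) (nat_lit 0) (nat_lit 317) (nat_lit 420) (nat_lit 343))))))) (XT.nd (nat_lit 846) (nat_lit 0) (nat_lit 0) (XT.nd (nat_lit 376) (nat_lit 0) (nat_lit 0) (XT.nd (nat_lit 188) (nat_lit 0) (nat_lit 0) (XT.nd (nat_lit 94) (nat_lit 0) (nat_lit 0) (XT.lf (nat_lit 0) (nat_lit 108992647082) (nat_lit 0) (nat_lit 0) (nat_lit 0) (nat_lit 0) (nat_lit 0) (nat_lit 0) (nat_lit 1) (nat_lit 0) (nat_lit 1) (nat_lit 0) (nat_lit 318) (nat_lit 420) (nat_lit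 342)) (XT.lf (nat_lit 0) (nat_lit 108972743168) (nat_lit 0) (nat_lit 0) (nat_lit 0) (nat_lit 0) (nat_lit 0) (nat_lit 0) (nat_lit 1) (nat_lit 0) (nat_lit 1) (nat_lit 0) (nat_lit 319) (nat_lit 420) (nat_lit 341))) (XT.nd (nat_lit 94) (nat_lit 0) (nat_lit 0) (XT.lf (nat_lit 0) (nat_lit 108954313617) (nat_lit 0) (nat_lit 0) (nat_lit 0) (nat_lit 0) (nat_lit 0) (nat_lit 0) (nat_lit 1) (nat_lit 0) (nat_lit 1) (nat_lit 0) (nat_lit 320) (nat_lit 420) (nat_lit 340)) (XT.lf (nat_lit 0) (nat_lit 108937249218) (nat_lit 0) (nat_lit 0) (nat_lit 0) (nat_lit 0) (nat_lit 0) (nat_lit 0) (nat_lit 1) (nat_lit 0) (nat_lit 1) (nat_lit 0) (nat_lit 321) (nat_lit 420) (nat_lit 339)))) (XT.nd (nat_lit 188) (nat_lit 0) (nat_lit 0) (XT.nd (nat_lit 94) (nat_lit 0) (nat_lit 0) (XT.lf (nat_lit 0) (nat_lit 108921448849) (nat_lit 0) (nat_lit 0) (nat_lit 0) (nat_lit 0) (nat_lit 0) (nat_lit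 0) (nat_lit 1) (nat_lit 0) (nat_lit 1) (nat_lit 0) (nat_lit 322) (nat_lit 420) (nat_lit 338)) (XT.lf (nat_lit 0) (nat_lit 108906818877) (nat_lit 0) (nat_lit 0) (nat_lit 0) (nat_lit 0) (nat_lit 0) (nat_lit 0) (nat_lit 1) (nat_lit 0) (nat_lit 1) (nat_lit 0) (nat_lit 323) (nat_lit 420) (nat_lit 337))) (XT.nd (nat_lit 94) (nat_lit 0) (nat_lit 0) (XT.lf (nat_lit 0) (nat_lit 108893272607) (nat_lit 0) (nat_lit 0) (nat_lit 0) (nat_lit 0) (nat_lit 0) (nat_lit 0) (nat_lit 1) (nat_lit 0) (nat_lit 1) (nat_lit 0) (nat_lit 324) (nat_lit 420) (nat_lit 336)) (XT.nd (nat_lit 94) (nat_lit 0) (nat_lit 0) (XT.lf (nat_lit 0) (nat_lit 108880729765) (nat_lit 0) (nat_lit 0) (nat_lit 0) (nat_lit 0) (nat_lit 0) (nat_lit 0) (nat_lit 1) (nat_lit 0) (nat_lit 1) (nat_lit 0) (nat_lit 325) (nat_lit 420) (nat_lit 335)) (XT.lf (nat_lit 0) (nat_lit 108869116022) (nat_lit 0) (nat_lit 0) (nat_lit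 0) (nat_lit 0) (nat_lit 0) (nat_lit 0) (nat_lit 1) (nat_lit 0) (nat_lit 1) (nat_lit 0) (nat_lit 326) (nat_lit 420) (nat_lit 334)))))) (XT.nd (nat_lit 470) (nat_lit 0) (nat_lit 0) (XT.nd (nat_lit 188) (nat_lit 0) (nat_lit 0) (XT.nd (nat_lit 94) (nat_lit 0) (nat_lit 0) (XT.lf (nat_lit 0) (nat_lit 108858362556) (nat_lit 0) (nat_lit 0) (nat_lit 0) (nat_lit 0) (nat_lit 0) (nat_lit 0) (nat_lit 1) (nat_lit 0) (nat_lit 1) (nat_lit 0) (nat_lit 327) (nat_lit 420) (nat_lit 333)) (XT.lf (nat_lit 0) (nat_lit 108848405643) (nat_lit 0) (nat_lit 0) (nat_lit 0) (nat_lit 0) (nat_lit 0) (nat_lit 0) (nat_lit 1) (nat_lit 0) (nat_lit 1) (nat_lit 0) (nat_lit 328) (nat_lit 420) (nat_lit 332))) (XT.nd (nat_lit 94) (nat_lit 0) (nat_lit 0) (XT.lf (nat_lit 0) (nat_lit 108839186280) (nat_lit 0) (nat_lit 0) (nat_lit 0) (nat_lit 0) (nat_lit 0) (nat_lit 0) (nat_lit 1) (nat_lit 0) (nat_lit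 1) (nat_lit 0) (nat_lit 329) (nat_lit 420) (nat_lit 331)) (XT.nd (nat_lit 94) (nat_lit 0) (nat_lit 0) (XT.lf (nat_lit 0) (nat_lit 108830649832) (nat_lit 0) (nat_lit 0) (nat_lit 0) (nat_lit 0) (nat_lit 0) (nat_lit 0) (nat_lit 1) (nat_lit 0) (nat_lit 1) (nat_lit 0) (nat_lit 330) (nat_lit 420) (nat_lit 330)) (XT.lf (nat_lit 0) (nat_lit 108822745713) (nat_lit 0) (nat_lit 0) (nat_lit 0) (nat_lit 0) (nat_lit 0) (nat_lit 0) (nat_lit 1) (nat_lit 0) (nat_lit 1) (nat_lit 0) (nat_lit 331) (nat_lit 420) (nat_lit 329))))) (XT.nd (nat_lit 188) (nat_lit 0) (nat_lit 0) (XT.nd (nat_lit 94) (nat_lit 0) (nat_lit 0) (XT.lf (nat_lit 0) (nat_lit 108815427085) (nat_lit 0) (nat_lit 0) (nat_lit 0) (nat_lit 0) (nat_lit 0) (nat_lit 0) (nat_lit 1) (nat_lit 0) (nat_lit 1) (nat_lit 0) (nat_lit 332) (nat_lit 420) (nat_lit 328)) (XT.lf (nat_lit 0) (nat_lit 108808650578) (nat_lit 0) (nat_lit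 0) (nat_lit 0) (nat_lit 0) (nat_lit 0) (nat_lit 0) (nat_lit 1) (nat_lit 0) (nat_lit 1) (nat_lit 0) (nat_lit 333) (nat_lit 420) (nat_lit 327))) (XT.nd (nat_lit 94) (nat_lit 0) (nat_lit 0) (XT.lf (nat_lit 0) (nat_lit 108802376034) (nat_lit 0) (nat_lit 0) (nat_lit 0) (nat_lit 0) (nat_lit 0) (nat_lit 0) (nat_lit 1) (nat_lit 0) (nat_lit 1) (nat_lit 0) (nat_lit 334) (nat_lit 420) (nat_lit 326)) (XT.nd (nat_lit 94) (nat_lit 0) (nat_lit 0) (XT.lf (nat_lit 0) (nat_lit 108796566271) (nat_lit 0) (nat_lit 0) (nat_lit 0) (nat_lit 0) (nat_lit 0) (nat_lit 0) (nat_lit 1) (nat_lit 0) (nat_lit 1) (nat_lit 0) (nat_lit 335) (nat_lit 420) (nat_lit 325)) (XT.lf (nat_lit 0) (nat_lit 108791186860) (nat_lit 0) (nat_lit 0) (nat_lit 0) (nat_lit 0) (nat_lit 0) (nat_lit 0) (nat_lit 1) (nat_lit 0) (nat_lit 1) (nat_lit 0) (nat_lit 336) (nat_lit 420) (nat_lit 324))))))))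
noncomputable def ec249 : XT := (XT.nd (nat_lit 1786) (nat_lit 0) (nat_lit 0) (XT.nd (nat_lit 846) (nat_lit 0) (nat_lit 0) (XT.nd (nat_lit 376) (nat_lit 0) (nat_lit 0) (XT.nd (nat_lit 188) (nat_lit 0) (nat_lit 0) (XT.nd (nat_lit 94) (nat_lit 0) (nat_lit 0) (XT.lf (nat_lit 0) (nat_lit 108786205925) (nat_lit 0) (nat_lit 0) (nat_lit 0) (nat_lit 0) (nat_lit 0) (nat_lit 0) (nat_lit 1) (nat_lit 0) (nat_lit 1) (nat_lit 0) (nat_lit 337) (nat_lit 420) (nat_lit 323)) (XT.lf (nat_lit 0) (nat_lit 108781593948) (nat_lit 0) (nat_lit 0) (nat_lit 0) (nat_lit 0) (nat_lit 0) (nat_lit 0) (nat_lit 1) (nat_lit 0) (nat_lit 1) (nat_lit 0) (nat_lit 338) (nat_lit 420) (nat_lit 322))) (XT.nd (nat_lit 94) (nat_lit 0) (nat_lit 0) (XT.lf (nat_lit 0) (nat_lit 108777323599) (nat_lit 0) (nat_lit 0) (nat_lit 0) (nat_lit 0) (nat_lit 0) (nat_lit 0) (nat_lit 1) (nat_lit 0) (nat_lit 1) (nat_lit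 0) (nat_lit 339) (nat_lit 420) (nat_lit 321)) (XT.lf (nat_lit 0) (nat_lit 108773369572) (nat_lit 0) (nat_lit 0) (nat_lit 0) (nat_lit 0) (nat_lit 0) (nat_lit 0) (nat_lit 1) (nat_lit 0) (nat_lit 1) (nat_lit 0) (nat_lit 340) (nat_lit 420) (nat_lit 320)))) (XT.nd (nat_lit 188) (nat_lit 0) (nat_lit 0) (XT.nd (nat_lit 94) (nat_lit 0) (nat_lit 0) (XT.lf (nat_lit 0) (nat_lit 108769708435) (nat_lit 0) (nat_lit 0) (nat_lit 0) (nat_lit 0) (nat_lit 0) (nat_lit 0) (nat_lit 1) (nat_lit 0) (nat_lit 1) (nat_lit 0) (nat_lit 341) (nat_lit 420) (nat_lit 319)) (XT.lf (nat_lit 0) (nat_lit 108766318495) (nat_lit 0) (nat_lit 0) (nat_lit 0) (nat_lit 0) (nat_lit 0) (nat_lit 0) (nat_lit 1) (nat_lit 0) (nat_lit 1) (nat_lit 0) (nat_lit 342) (nat_lit 420) (nat_lit 318))) (XT.nd (nat_lit 94) (nat_lit 0) (nat_lit 0) (XT.lf (nat_lit 0) (nat_lit 108763179660) (nat_lit 0) (nat_lit 0) (nat_lit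 0) (nat_lit 0) (nat_lit 0) (nat_lit 0) (nat_lit 1) (nat_lit 0) (nat_lit 1) (nat_lit 0) (nat_lit 343) (nat_lit 420) (nat_lit 317)) (XT.nd (nat_lit 94) (nat_lit 0) (nat_lit 0) (XT.lf (nat_lit 0) (nat_lit 108760273332) (nat_lit 0) (nat_lit 0) (nat_lit 0) (nat_lit 0) (nat_lit 0) (nat_lit 0) (nat_lit 1) (nat_lit 0) (nat_lit 1) (nat_lit 0) (nat_lit 344) (nat_lit 420) (nat_lit 316)) (XT.lf (nat_lit 0) (nat_lit 108757582288) (nat_lit 0) (nat_lit 0) (nat_lit 0) (nat_lit 0) (nat_lit 0) (nat_lit 0) (nat_lit 1) (nat_lit 0) (nat_lit 1) (nat_lit 0) (nat_lit 345) (nat_lit 420) (nat_lit 315)))))) (XT.nd (nat_lit 470) (nat_lit 0) (nat_lit 0) (XT.nd (nat_lit 188) (nat_lit 0) (nat_lit 0) (XT.nd (nat_lit 94) (nat_lit 0) (nat_lit 0) (XT.lf (nat_lit 0) (nat_lit 108755090580) (nat_lit 0) (nat_lit 0) (nat_lit 0) (nat_lit 0) (nat_lit 0) (nat_lit 0) (nat_lit 1) (nat_lit 0) (nat_lit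 1) (nat_lit 0) (nat_lit 346) (nat_lit 420) (nat_lit 314)) (XT.lf (nat_lit 0) (nat_lit 108752783444) (nat_lit 0) (nat_lit 0) (nat_lit 0) (nat_lit 0) (nat_lit 0) (nat_lit 0) (nat_lit 1) (nat_lit 0) (nat_lit 1) (nat_lit 0) (nat_lit 347) (nat_lit 420) (nat_lit 313))) (XT.nd (nat_lit 94) (nat_lit 0) (nat_lit 0) (XT.lf (nat_lit 0) (nat_lit 108750647206) (nat_lit 0) (nat_lit 0) (nat_lit 0) (nat_lit 0) (nat_lit 0) (nat_lit 0) (nat_lit 1) (nat_lit 0) (nat_lit 1) (nat_lit 0) (nat_lit 348) (nat_lit 420) (nat_lit 312)) (XT.nd (nat_lit 94) (nat_lit 0) (nat_lit 0) (XT.lf (nat_lit 0) (nat_lit 108748669208) (nat_lit 0) (nat_lit 0) (nat_lit 0) (nat_lit 0) (nat_lit 0) (nat_lit 0) (nat_lit 1) (nat_lit 0) (nat_lit 1) (nat_lit 0) (nat_lit 349) (nat_lit 420) (nat_lit 311)) (XT.lf (nat_lit 0) (nat_lit 108746837728) (nat_lit 0) (nat_lit 0) (nat_lit 0) (nat_lit 0) (nat_lit 0) (nat_lit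 0) (nat_lit 1) (nat_lit 0) (nat_lit 1) (nat_lit 0) (nat_lit 350) (nat_lit 420) (nat_lit 310))))) (XT.nd (nat_lit 188) (nat_lit 0) (nat_lit 0) (XT.nd (nat_lit 94) (nat_lit 0) (nat_lit 0) (XT.lf (nat_lit 0) (nat_lit 108745141914) (nat_lit 0) (nat_lit 0) (nat_lit 0) (nat_lit 0) (nat_lit 0) (nat_lit 0) (nat_lit 1) (nat_lit 0) (nat_lit 1) (nat_lit 0) (nat_lit 351) (nat_lit 420) (nat_lit 309)) (XT.lf (nat_lit 0) (nat_lit 108743571715) (nat_lit 0) (nat_lit 0) (nat_lit 0) (nat_lit 0) (nat_lit 0) (nat_lit 0) (nat_lit 1) (nat_lit 0) (nat_lit 1) (nat_lit 0) (nat_lit 352) (nat_lit 420) (nat_lit 308))) (XT.nd (nat_lit 94) (nat_lit 0) (nat_lit 0) (XT.lf (nat_lit 0) (nat_lit 108742117828) (nat_lit 0) (nat_lit 0) (nat_lit 0) (nat_lit 0) (nat_lit 0) (nat_lit 0) (nat_lit 1) (nat_lit 0) (nat_lit 1) (nat_lit 0) (nat_lit 353) (nat_lit 420) (nat_lit 307)) (XT.nd (nat_lit 94) (nat_lit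 0) (nat_lit 0) (XT.lf (nat_lit 0) (nat_lit 108740771635) (nat_lit 0) (nat_lit 0) (nat_lit 0) (nat_lit 0) (nat_lit 0) (nat_lit 0) (nat_lit 1) (nat_lit 0) (nat_lit 1) (nat_lit 0) (nat_lit 354) (nat_lit 420) (nat_lit 306)) (XT.lf (nat_lit 0) (nat_lit 108739525161) (nat_lit 0) (nat_lit 0) (nat_lit 0) (nat_lit 0) (nat_lit 0) (nat_lit 0) (nat_lit 1) (nat_lit 0) (nat_lit 1) (nat_lit 0) (nat_lit 355) (nat_lit 420) (nat_lit 305))))))) (XT.nd (nat_lit 846) (nat_lit 0) (nat_lit 0) (XT.nd (nat_lit 376) (nat_lit 0) (nat_lit 0) (XT.nd (nat_lit 188) (nat_lit 0) (nat_lit 0) (XT.nd (nat_lit 94) (nat_lit 0) (nat_lit 0) (XT.lf (nat_lit 0) (nat_lit 108738371018) (nat_lit 0) (nat_lit 0) (nat_lit 0) (nat_lit 0) (nat_lit 0) (nat_lit 0) (nat_lit 1) (nat_lit 0) (nat_lit 1) (nat_lit 0) (nat_lit 356) (nat_lit 420) (nat_lit 304)) (XT.lf (nat_lit 0) (nat_lit 108737302368) (nat_lit 0)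 (nat_lit 0) (nat_lit 0) (nat_lit 0) (nat_lit 0) (nat_lit 0) (nat_lit 1) (nat_lit 0) (nat_lit 1) (nat_lit 0) (nat_lit 357) (nat_lit 420) (nat_lit 303))) (XT.nd (nat_lit 94) (nat_lit 0) (nat_lit 0) (XT.lf (nat_lit 0) (nat_lit 108736312876) (nat_lit 0) (nat_lit 0) (nat_lit 0) (nat_lit 0) (nat_lit 0) (nat_lit 0) (nat_lit 1) (nat_lit 0) (nat_lit 1) (nat_lit 0) (nat_lit 358) (nat_lit 420) (nat_lit 302)) (XT.lf (nat_lit 0) (nat_lit 108735396680) (nat_lit 0) (nat_lit 0) (nat_lit 0) (nat_lit 0) (nat_lit 0) (nat_lit 0) (nat_lit 1) (nat_lit 0) (nat_lit 1) (nat_lit 0) (nat_lit 359) (nat_lit 420) (nat_lit 301)))) (XT.nd (nat_lit 188) (nat_lit 0) (nat_lit 0) (XT.nd (nat_lit 94) (nat_lit 0) (nat_lit 0) (XT.lf (nat_lit 0) (nat_lit 108734548351) (nat_lit 0) (nat_lit 0) (nat_lit 0) (nat_lit 0) (nat_lit 0) (nat_lit 0) (nat_lit 1) (nat_lit 0) (nat_lit 1) (nat_lit 0) (nat_lit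 360) (nat_lit 420) (nat_lit 300)) (XT.lf (nat_lit 0) (nat_lit 108733762861) (nat_lit 0) (nat_lit 0) (nat_lit 0) (nat_lit 0) (nat_lit 0) (nat_lit 0) (nat_lit 1) (nat_lit 0) (nat_lit 1) (nat_lit 0) (nat_lit 361) (nat_lit 420) (nat_lit 299))) (XT.nd (nat_lit 94) (nat_lit 0) (nat_lit 0) (XT.lf (nat_lit 0) (nat_lit 108733035555) (nat_lit 0) (nat_lit 0) (nat_lit 0) (nat_lit 0) (nat_lit 0) (nat_lit 0) (nat_lit 1) (nat_lit 0) (nat_lit 1) (nat_lit 0) (nat_lit 362) (nat_lit 420) (nat_lit 298)) (XT.nd (nat_lit 94) (nat_lit 0) (nat_lit 0) (XT.lf (nat_lit 0) (nat_lit 108732362124) (nat_lit 0) (nat_lit 0) (nat_lit 0) (nat_lit 0) (nat_lit 0) (nat_lit 0) (nat_lit 1) (nat_lit 0) (nat_lit 1) (nat_lit 0) (nat_lit 363) (nat_lit 420) (nat_lit 297)) (XT.lf (nat_lit 0) (nat_lit 108731738576) (nat_lit 0) (nat_lit 0) (nat_lit 0) (nat_lit 0) (nat_lit 0) (nat_lit 0) (nat_lit 1) (nat_lit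 0) (nat_lit 1) (nat_lit 0) (nat_lit 364) (nat_lit 420) (nat_lit 296)))))) (XT.nd (nat_lit 470) (nat_lit 0) (nat_lit 0) (XT.nd (nat_lit 188) (nat_lit 0) (nat_lit 0) (XT.nd (nat_lit 94) (nat_lit 0) (nat_lit 0) (XT.lf (nat_lit 0) (nat_lit 108731161218) (nat_lit 0) (nat_lit 0) (nat_lit 0) (nat_lit 0) (nat_lit 0) (nat_lit 0) (nat_lit 1) (nat_lit 0) (nat_lit 1) (nat_lit 0) (nat_lit 365) (nat_lit 420) (nat_lit 295)) (XT.lf (nat_lit 0) (nat_lit 108730626626) (nat_lit 0) (nat_lit 0) (nat_lit 0) (nat_lit 0) (nat_lit 0) (nat_lit 0) (nat_lit 1) (nat_lit 0) (nat_lit 1) (nat_lit 0) (nat_lit 366) (nat_lit 420) (nat_lit 294))) (XT.nd (nat_lit 94) (nat_lit 0) (nat_lit 0) (XT.lf (nat_lit 0) (nat_lit 108730131634) (nat_lit 0) (nat_lit 0) (nat_lit 0) (nat_lit 0) (nat_lit 0) (nat_lit 0) (nat_lit 1) (nat_lit 0) (nat_lit 1) (nat_lit 0) (nat_lit 367) (nat_lit 420) (nat_lit 293))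 (XT.nd (nat_lit 94) (nat_lit 0) (nat_lit 0) (XT.lf (nat_lit 0) (nat_lit 108729673308) (nat_lit 0) (nat_lit 0) (nat_lit 0) (nat_lit 0) (nat_lit 0) (nat_lit 0) (nat_lit 1) (nat_lit 0) (nat_lit 1) (nat_lit 0) (nat_lit 368) (nat_lit 420) (nat_lit 292)) (XT.lf (nat_lit 0) (nat_lit 108729248932) (nat_lit 0) (nat_lit 0) (nat_lit 0) (nat_lit 0) (nat_lit 0) (nat_lit 0) (nat_lit 1) (nat_lit 0) (nat_lit 1) (nat_lit 0) (nat_lit 369) (nat_lit 420) (nat_lit 291))))) (XT.nd (nat_lit 188) (nat_lit 0) (nat_lit 0) (XT.nd (nat_lit 94) (nat_lit 0) (nat_lit 0) (XT.lf (nat_lit 0) (nat_lit 108728855992) (nat_lit 0) (nat_lit 0) (nat_lit 0) (nat_lit 0) (nat_lit 0) (nat_lit 0) (nat_lit 1) (nat_lit 0) (nat_lit 1) (nat_lit 0) (nat_lit 370) (nat_lit 420) (nat_lit 290)) (XT.lf (nat_lit 0) (nat_lit 108728492158) (nat_lit 0) (nat_lit 0) (nat_lit 0) (nat_lit 0) (nat_lit 0) (nat_lit 0) (nat_lit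 1) (nat_lit 0) (nat_lit 1) (nat_lit 0) (nat_lit 371) (nat_lit 420) (nat_lit 289))) (XT.nd (nat_lit 94) (nat_lit 0) (nat_lit 0) (XT.lf (nat_lit 0) (nat_lit 108728155274) (nat_lit 0) (nat_lit 0) (nat_lit 0) (nat_lit 0) (nat_lit 0) (nat_lit 0) (nat_lit 1) (nat_lit 0) (nat_lit 1) (nat_lit 0) (nat_lit 372) (nat_lit 420) (nat_lit 288)) (XT.nd (nat_lit 94) (nat_lit 0) (nat_lit 0) (XT.lf (nat_lit 0) (nat_lit 108727843345) (nat_lit 0) (nat_lit 0) (nat_lit 0) (nat_lit 0) (nat_lit 0) (nat_lit 0) (nat_lit 1) (nat_lit 0) (nat_lit 1) (nat_lit 0) (nat_lit 373) (nat_lit 420) (nat_lit 287)) (XT.lf (nat_lit 0) (nat_lit 108727554522) (nat_lit 0) (nat_lit 0) (nat_lit 0) (nat_lit 0) (nat_lit 0) (nat_lit 0) (nat_lit 1) (nat_lit 0) (nat_lit 1) (nat_lit 0) (nat_lit 374) (nat_lit 420) (nat_lit 286))))))))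
noncomputable def ec250 : XT := (XT.nd (nat_lit 1692) (nat_lit 0) (nat_lit 0) (XT.nd (nat_lit 846) (nat_lit 0) (nat_lit 0) (XT.nd (nat_lit 376) (nat_lit 0) (nat_lit 0) (XT.nd (nat_lit 188) (nat_lit 0) (nat_lit 0) (XT.nd (nat_lit 94) (nat_lit 0) (nat_lit 0) (XT.lf (nat_lit 0) (nat_lit 108727287093) (nat_lit 0) (nat_lit 0) (nat_lit 0) (nat_lit 0) (nat_lit 0) (nat_lit 0) (nat_lit 1) (nat_lit 0) (nat_lit 1) (nat_lit 0) (nat_lit 375) (nat_lit 420) (nat_lit 285)) (XT.lf (nat_lit 0) (nat_lit 108727039474) (nat_lit 0) (nat_lit 0) (nat_lit 0) (nat_lit 0) (nat_lit 0) (nat_lit 0) (nat_lit 1) (nat_lit 0) (nat_lit 1) (nat_lit 0) (nat_lit 376) (nat_lit 420) (nat_lit 284))) (XT.nd (nat_lit 94) (nat_lit 0) (nat_lit 0) (XT.lf (nat_lit 0) (nat_lit 108726810197) (nat_lit 0) (nat_lit 0) (nat_lit 0) (nat_lit 0) (nat_lit 0) (nat_lit 0) (nat_lit 1) (nat_lit 0) (nat_lit 1) (nat_lit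 0) (nat_lit 377) (nat_lit 420) (nat_lit 283)) (XT.lf (nat_lit 0) (nat_lit 108726597904) (nat_lit 0) (nat_lit 0) (nat_lit 0) (nat_lit 0) (nat_lit 0) (nat_lit 0) (nat_lit 1) (nat_lit 0) (nat_lit 1) (nat_lit 0) (nat_lit 378) (nat_lit 420) (nat_lit 282)))) (XT.nd (nat_lit 188) (nat_lit 0) (nat_lit 0) (XT.nd (nat_lit 94) (nat_lit 0) (nat_lit 0) (XT.lf (nat_lit 0) (nat_lit 108726401335) (nat_lit 0) (nat_lit 0) (nat_lit 0) (nat_lit 0) (nat_lit 0) (nat_lit 0) (nat_lit 1) (nat_lit 0) (nat_lit 1) (nat_lit 0) (nat_lit 379) (nat_lit 420) (nat_lit 281)) (XT.lf (nat_lit 0) (nat_lit 108726219328) (nat_lit 0) (nat_lit 0) (nat_lit 0) (nat_lit 0) (nat_lit 0) (nat_lit 0) (nat_lit 1) (nat_lit 0) (nat_lit 1) (nat_lit 0) (nat_lit 380) (nat_lit 420) (nat_lit 280))) (XT.nd (nat_lit 94) (nat_lit 0) (nat_lit 0) (XT.lf (nat_lit 0) (nat_lit 108726050802) (nat_lit 0) (nat_lit 0) (nat_lit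 0) (nat_lit 0) (nat_lit 0) (nat_lit 0) (nat_lit 1) (nat_lit 0) (nat_lit 1) (nat_lit 0) (nat_lit 381) (nat_lit 420) (nat_lit 279)) (XT.nd (nat_lit 94) (nat_lit 0) (nat_lit 0) (XT.lf (nat_lit 0) (nat_lit 108725894760) (nat_lit 0) (nat_lit 0) (nat_lit 0) (nat_lit 0) (nat_lit 0) (nat_lit 0) (nat_lit 1) (nat_lit 0) (nat_lit 1) (nat_lit 0) (nat_lit 382) (nat_lit 420) (nat_lit 278)) (XT.lf (nat_lit 0) (nat_lit 108725750277) (nat_lit 0) (nat_lit 0) (nat_lit 0) (nat_lit 0) (nat_lit 0) (nat_lit 0) (nat_lit 1) (nat_lit 0) (nat_lit 1) (nat_lit 0) (nat_lit 383) (nat_lit 420) (nat_lit 277)))))) (XT.nd (nat_lit 376) (nat_lit 0) (nat_lit 0) (XT.nd (nat_lit 188) (nat_lit 0) (nat_lit 0) (XT.nd (nat_lit 94) (nat_lit 0) (nat_lit 0) (XT.lf (nat_lit 0) (nat_lit 108725616496) (nat_lit 0) (nat_lit 0) (nat_lit 0) (nat_lit 0) (nat_lit 0) (nat_lit 0) (nat_lit 1) (nat_lit 0) (nat_lit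 1) (nat_lit 0) (nat_lit 384) (nat_lit 420) (nat_lit 276)) (XT.lf (nat_lit 0) (nat_lit 108725492624) (nat_lit 0) (nat_lit 0) (nat_lit 0) (nat_lit 0) (nat_lit 0) (nat_lit 0) (nat_lit 1) (nat_lit 0) (nat_lit 1) (nat_lit 0) (nat_lit 385) (nat_lit 420) (nat_lit 275))) (XT.nd (nat_lit 94) (nat_lit 0) (nat_lit 0) (XT.lf (nat_lit 0) (nat_lit 108725377929) (nat_lit 0) (nat_lit 0) (nat_lit 0) (nat_lit 0) (nat_lit 0) (nat_lit 0) (nat_lit 1) (nat_lit 0) (nat_lit 1) (nat_lit 0) (nat_lit 386) (nat_lit 420) (nat_lit 274)) (XT.lf (nat_lit 0) (nat_lit 108725271729) (nat_lit 0) (nat_lit 0) (nat_lit 0) (nat_lit 0) (nat_lit 0) (nat_lit 0) (nat_lit 1) (nat_lit 0) (nat_lit 1) (nat_lit 0) (nat_lit 387) (nat_lit 420) (nat_lit 273)))) (XT.nd (nat_lit 188) (nat_lit 0) (nat_lit 0) (XT.nd (nat_lit 94) (nat_lit 0) (nat_lit 0) (XT.lf (nat_lit 0) (nat_lit 108725173396) (nat_lit 0) (nat_lit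 0) (nat_lit 0) (nat_lit 0) (nat_lit 0) (nat_lit 0) (nat_lit 1) (nat_lit 0) (nat_lit 1) (nat_lit 0) (nat_lit 388) (nat_lit 420) (nat_lit 272)) (XT.lf (nat_lit 0) (nat_lit 108725082347) (nat_lit 0) (nat_lit 0) (nat_lit 0) (nat_lit 0) (nat_lit 0) (nat_lit 0) (nat_lit 1) (nat_lit 0) (nat_lit 1) (nat_lit 0) (nat_lit 389) (nat_lit 420) (nat_lit 271))) (XT.nd (nat_lit 94) (nat_lit 0) (nat_lit 0) (XT.lf (nat_lit 0) (nat_lit 108724998042) (nat_lit 0) (nat_lit 0) (nat_lit 0) (nat_lit 0) (nat_lit 0) (nat_lit 0) (nat_lit 1) (nat_lit 0) (nat_lit 1) (nat_lit 0) (nat_lit 390) (nat_lit 420) (nat_lit 270)) (XT.nd (nat_lit 94) (nat_lit 0) (nat_lit 0) (XT.lf (nat_lit 0) (nat_lit 108724919982) (nat_lit 0) (nat_lit 0) (nat_lit 0) (nat_lit 0) (nat_lit 0) (nat_lit 0) (nat_lit 1) (nat_lit 0) (nat_lit 1) (nat_lit 0) (nat_lit 391) (nat_lit 420) (nat_lit 269)) (XT.lf (nat_lit 0) (nat_lit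 108724847705) (nat_lit 0) (nat_lit 0) (nat_lit 0) (nat_lit 0) (nat_lit 0) (nat_lit 0) (nat_lit 1) (nat_lit 0) (nat_lit 1) (nat_lit 0) (nat_lit 392) (nat_lit 420) (nat_lit 268))))))) (XT.nd (nat_lit 846) (nat_lit 0) (nat_lit 0) (XT.nd (nat_lit 376) (nat_lit 0) (nat_lit 0) (XT.nd (nat_lit 188) (nat_lit 0) (nat_lit 0) (XT.nd (nat_lit 94) (nat_lit 0) (nat_lit 0) (XT.lf (nat_lit 0) (nat_lit 108724780781) (nat_lit 0) (nat_lit 0) (nat_lit 0) (nat_lit 0) (nat_lit 0) (nat_lit 0) (nat_lit 1) (nat_lit 0) (nat_lit 1) (nat_lit 0) (nat_lit 393) (nat_lit 420) (nat_lit 267)) (XT.lf (nat_lit 0) (nat_lit 108724718814) (nat_lit 0) (nat_lit 0) (nat_lit 0) (nat_lit 0) (nat_lit 0) (nat_lit 0) (nat_lit 1) (nat_lit 0) (nat_lit 1) (nat_lit 0) (nat_lit 394) (nat_lit 420) (nat_lit 266))) (XT.nd (nat_lit 94) (nat_lit 0) (nat_lit 0) (XT.lf (nat_lit 0) (nat_lit 108724661438) (nat_lit 0)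 (nat_lit 0) (nat_lit 0) (nat_lit 0) (nat_lit 0) (nat_lit 0) (nat_lit 1) (nat_lit 0) (nat_lit 1) (nat_lit 0) (nat_lit 395) (nat_lit 420) (nat_lit 265)) (XT.lf (nat_lit 0) (nat_lit 108724608312) (nat_lit 0) (nat_lit 0) (nat_lit 0) (nat_lit 0) (nat_lit 0) (nat_lit 0) (nat_lit 1) (nat_lit 0) (nat_lit 1) (nat_lit 0) (nat_lit 396) (nat_lit 420) (nat_lit 264)))) (XT.nd (nat_lit 188) (nat_lit 0) (nat_lit 0) (XT.nd (nat_lit 94) (nat_lit 0) (nat_lit 0) (XT.lf (nat_lit 0) (nat_lit 108724559121) (nat_lit 0) (nat_lit 0) (nat_lit 0) (nat_lit 0) (nat_lit 0) (nat_lit 0) (nat_lit 1) (nat_lit 0) (nat_lit 1) (nat_lit 0) (nat_lit 397) (nat_lit 420) (nat_lit 263)) (XT.lf (nat_lit 0) (nat_lit 108724513574) (nat_lit 0) (nat_lit 0) (nat_lit 0) (nat_lit 0) (nat_lit 0) (nat_lit 0) (nat_lit 1) (nat_lit 0) (nat_lit 1) (nat_lit 0) (nat_lit 398) (nat_lit 420) (nat_lit 262))) (XT.nd (nat_lit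 94) (nat_lit 0) (nat_lit 0) (XT.lf (nat_lit 0) (nat_lit 108724471400) (nat_lit 0) (nat_lit 0) (nat_lit 0) (nat_lit 0) (nat_lit 0) (nat_lit 0) (nat_lit 1) (nat_lit 0) (nat_lit 1) (nat_lit 0) (nat_lit 399) (nat_lit 420) (nat_lit 261)) (XT.nd (nat_lit 94) (nat_lit 0) (nat_lit 0) (XT.lf (nat_lit 0) (nat_lit 108724432351) (nat_lit 0) (nat_lit 0) (nat_lit 0) (nat_lit 0) (nat_lit 0) (nat_lit 0) (nat_lit 1) (nat_lit 0) (nat_lit 1) (nat_lit 0) (nat_lit 400) (nat_lit 420) (nat_lit 260)) (XT.lf (nat_lit 0) (nat_lit 108724396194) (nat_lit 0) (nat_lit 0) (nat_lit 0) (nat_lit 0) (nat_lit 0) (nat_lit 0) (nat_lit 1) (nat_lit 0) (nat_lit 1) (nat_lit 0) (nat_lit 401) (nat_lit 420) (nat_lit 259)))))) (XT.nd (nat_lit 470) (nat_lit 0) (nat_lit 0) (XT.nd (nat_lit 188) (nat_lit 0) (nat_lit 0) (XT.nd (nat_lit 94) (nat_lit 0) (nat_lit 0) (XT.lf (nat_lit 0) (nat_lit 108724362715) (nat_lit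 0) (nat_lit 0) (nat_lit 0) (nat_lit 0) (nat_lit 0) (nat_lit 0) (nat_lit 1) (nat_lit 0) (nat_lit 1) (nat_lit 0) (nat_lit 402) (nat_lit 420) (nat_lit 258)) (XT.lf (nat_lit 0) (nat_lit 108724331717) (nat_lit 0) (nat_lit 0) (nat_lit 0) (nat_lit 0) (nat_lit 0) (nat_lit 0) (nat_lit 1) (nat_lit 0) (nat_lit 1) (nat_lit 0) (nat_lit 403) (nat_lit 420) (nat_lit 257))) (XT.nd (nat_lit 94) (nat_lit 0) (nat_lit 0) (XT.lf (nat_lit 0) (nat_lit 108724303014) (nat_lit 0) (nat_lit 0) (nat_lit 0) (nat_lit 0) (nat_lit 0) (nat_lit 0) (nat_lit 1) (nat_lit 0) (nat_lit 1) (nat_lit 0) (nat_lit 404) (nat_lit 420) (nat_lit 256)) (XT.nd (nat_lit 94) (nat_lit 0) (nat_lit 0) (XT.lf (nat_lit 0) (nat_lit 108724276438) (nat_lit 0) (nat_lit 0) (nat_lit 0) (nat_lit 0) (nat_lit 0) (nat_lit 0) (nat_lit 1) (nat_lit 0) (nat_lit 1) (nat_lit 0) (nat_lit 405) (nat_lit 420) (nat_lit 255)) (XT.lf (nat_lit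 0) (nat_lit 108724251830) (nat_lit 0) (nat_lit 0) (nat_lit 0) (nat_lit 0) (nat_lit 0) (nat_lit 0) (nat_lit 1) (nat_lit 0) (nat_lit 1) (nat_lit 0) (nat_lit 406) (nat_lit 420) (nat_lit 254))))) (XT.nd (nat_lit 188) (nat_lit 0) (nat_lit 0) (XT.nd (nat_lit 94) (nat_lit 0) (nat_lit 0) (XT.lf (nat_lit 0) (nat_lit 108724229045) (nat_lit 0) (nat_lit 0) (nat_lit 0) (nat_lit 0) (nat_lit 0) (nat_lit 0) (nat_lit 1) (nat_lit 0) (nat_lit 1) (nat_lit 0) (nat_lit 407) (nat_lit 420) (nat_lit 253)) (XT.lf (nat_lit 0) (nat_lit 108724207948) (nat_lit 0) (nat_lit 0) (nat_lit 0) (nat_lit 0) (nat_lit 0) (nat_lit 0) (nat_lit 1) (nat_lit 0) (nat_lit 1) (nat_lit 0) (nat_lit 408) (nat_lit 420) (nat_lit 252))) (XT.nd (nat_lit 94) (nat_lit 0) (nat_lit 0) (XT.lf (nat_lit 0) (nat_lit 108724188414) (nat_lit 0) (nat_lit 0) (nat_lit 0) (nat_lit 0) (nat_lit 0) (nat_lit 0) (nat_lit 1) (nat_lit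 0) (nat_lit 1) (nat_lit 0) (nat_lit 409) (nat_lit 420) (nat_lit 251)) (XT.nd (nat_lit 94) (nat_lit 0) (nat_lit 0) (XT.lf (nat_lit 0) (nat_lit 108724170326) (nat_lit 0) (nat_lit 0) (nat_lit 0) (nat_lit 0) (nat_lit 0) (nat_lit 0) (nat_lit 1) (nat_lit 0) (nat_lit 1) (nat_lit 0) (nat_lit 410) (nat_lit 420) (nat_lit 250)) (XT.lf (nat_lit 0) (nat_lit 108724153579) (nat_lit 0) (nat_lit 0) (nat_lit 0) (nat_lit 0) (nat_lit 0) (nat_lit 0) (nat_lit 1) (nat_lit 0) (nat_lit 1) (nat_lit 0) (nat_lit 411) (nat_lit 420) (nat_lit 249))))))))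
noncomputable def ec251 : XT := (XT.nd (nat_lit 1786) (nat_lit 0) (nat_lit 0) (XT.nd (nat_lit 846) (nat_lit 0) (nat_lit 0) (XT.nd (nat_lit 376) (nat_lit 0) (nat_lit 0) (XT.nd (nat_lit 188) (nat_lit 0) (nat_lit 0) (XT.nd (nat_lit 94) (nat_lit 0) (nat_lit 0) (XT.lf (nat_lit 0) (nat_lit 108724138071) (nat_lit 0) (nat_lit 0) (nat_lit 0) (nat_lit 0) (nat_lit 0) (nat_lit 0) (nat_lit 1) (nat_lit 0) (nat_lit 1) (nat_lit 0) (nat_lit 412) (nat_lit 420) (nat_lit 248)) (XT.lf (nat_lit 0) (nat_lit 108724123713) (nat_lit 0) (nat_lit 0) (nat_lit 0) (nat_lit 0) (nat_lit 0) (nat_lit 0) (nat_lit 1) (nat_lit 0) (nat_lit 1) (nat_lit 0) (nat_lit 413) (nat_lit 420) (nat_lit 247))) (XT.nd (nat_lit 94) (nat_lit 0) (nat_lit 0) (XT.lf (nat_lit 0) (nat_lit 108724110418) (nat_lit 0) (nat_lit 0) (nat_lit 0) (nat_lit 0) (nat_lit 0) (nat_lit 0) (nat_lit 1) (nat_lit 0) (nat_lit 1) (nat_lit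 0) (nat_lit 414) (nat_lit 420) (nat_lit 246)) (XT.lf (nat_lit 0) (nat_lit 108724098108) (nat_lit 0) (nat_lit 0) (nat_lit 0) (nat_lit 0) (nat_lit 0) (nat_lit 0) (nat_lit 1) (nat_lit 0) (nat_lit 1) (nat_lit 0) (nat_lit 415) (nat_lit 420) (nat_lit 245)))) (XT.nd (nat_lit 188) (nat_lit 0) (nat_lit 0) (XT.nd (nat_lit 94) (nat_lit 0) (nat_lit 0) (XT.lf (nat_lit 0) (nat_lit 108724086710) (nat_lit 0) (nat_lit 0) (nat_lit 0) (nat_lit 0) (nat_lit 0) (nat_lit 0) (nat_lit 1) (nat_lit 0) (nat_lit 1) (nat_lit 0) (nat_lit 416) (nat_lit 420) (nat_lit 244)) (XT.lf (nat_lit 0) (nat_lit 108724076156) (nat_lit 0) (nat_lit 0) (nat_lit 0) (nat_lit 0) (nat_lit 0) (nat_lit 0) (nat_lit 1) (nat_lit 0) (nat_lit 1) (nat_lit 0) (nat_lit 417) (nat_lit 420) (nat_lit 243))) (XT.nd (nat_lit 94) (nat_lit 0) (nat_lit 0) (XT.lf (nat_lit 0) (nat_lit 108724066384) (nat_lit 0) (nat_lit 0) (nat_lit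 0) (nat_lit 0) (nat_lit 0) (nat_lit 0) (nat_lit 1) (nat_lit 0) (nat_lit 1) (nat_lit 0) (nat_lit 418) (nat_lit 420) (nat_lit 242)) (XT.nd (nat_lit 94) (nat_lit 0) (nat_lit 0) (XT.lf (nat_lit 0) (nat_lit 108724057336) (nat_lit 0) (nat_lit 0) (nat_lit 0) (nat_lit 0) (nat_lit 0) (nat_lit 0) (nat_lit 1) (nat_lit 0) (nat_lit 1) (nat_lit 0) (nat_lit 419) (nat_lit 420) (nat_lit 241)) (XT.lf (nat_lit 0) (nat_lit 108724048958) (nat_lit 0) (nat_lit 0) (nat_lit 0) (nat_lit 0) (nat_lit 0) (nat_lit 0) (nat_lit 1) (nat_lit 0) (nat_lit 1) (nat_lit 0) (nat_lit 420) (nat_lit 420) (nat_lit 240)))))) (XT.nd (nat_lit 470) (nat_lit 0) (nat_lit 0) (XT.nd (nat_lit 188) (nat_lit 0) (nat_lit 0) (XT.nd (nat_lit 94) (nat_lit 0) (nat_lit 0) (XT.lf (nat_lit 0) (nat_lit 108724041201) (nat_lit 0) (nat_lit 0) (nat_lit 0) (nat_lit 0) (nat_lit 0) (nat_lit 0) (nat_lit 1) (nat_lit 0) (nat_lit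 1) (nat_lit 0) (nat_lit 421) (nat_lit 420) (nat_lit 239)) (XT.lf (nat_lit 0) (nat_lit 108724034018) (nat_lit 0) (nat_lit 0) (nat_lit 0) (nat_lit 0) (nat_lit 0) (nat_lit 0) (nat_lit 1) (nat_lit 0) (nat_lit 1) (nat_lit 0) (nat_lit 422) (nat_lit 420) (nat_lit 238))) (XT.nd (nat_lit 94) (nat_lit 0) (nat_lit 0) (XT.lf (nat_lit 0) (nat_lit 108724027367) (nat_lit 0) (nat_lit 0) (nat_lit 0) (nat_lit 0) (nat_lit 0) (nat_lit 0) (nat_lit 1) (nat_lit 0) (nat_lit 1) (nat_lit 0) (nat_lit 423) (nat_lit 420) (nat_lit 237)) (XT.nd (nat_lit 94) (nat_lit 0) (nat_lit 0) (XT.lf (nat_lit 0) (nat_lit 108724021209) (nat_lit 0) (nat_lit 0) (nat_lit 0) (nat_lit 0) (nat_lit 0) (nat_lit 0) (nat_lit 1) (nat_lit 0) (nat_lit 1) (nat_lit 0) (nat_lit 424) (nat_lit 420) (nat_lit 236)) (XT.lf (nat_lit 0) (nat_lit 108724015507) (nat_lit 0) (nat_lit 0) (nat_lit 0) (nat_lit 0) (nat_lit 0) (nat_lit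 0) (nat_lit 1) (nat_lit 0) (nat_lit 1) (nat_lit 0) (nat_lit 425) (nat_lit 420) (nat_lit 235))))) (XT.nd (nat_lit 188) (nat_lit 0) (nat_lit 0) (XT.nd (nat_lit 94) (nat_lit 0) (nat_lit 0) (XT.lf (nat_lit 0) (nat_lit 108724010228) (nat_lit 0) (nat_lit 0) (nat_lit 0) (nat_lit 0) (nat_lit 0) (nat_lit 0) (nat_lit 1) (nat_lit 0) (nat_lit 1) (nat_lit 0) (nat_lit 426) (nat_lit 420) (nat_lit 234)) (XT.lf (nat_lit 0) (nat_lit 108724005339) (nat_lit 0) (nat_lit 0) (nat_lit 0) (nat_lit 0) (nat_lit 0) (nat_lit 0) (nat_lit 1) (nat_lit 0) (nat_lit 1) (nat_lit 0) (nat_lit 427) (nat_lit 420) (nat_lit 233))) (XT.nd (nat_lit 94) (nat_lit 0) (nat_lit 0) (XT.lf (nat_lit 0) (nat_lit 108724000813) (nat_lit 0) (nat_lit 0) (nat_lit 0) (nat_lit 0) (nat_lit 0) (nat_lit 0) (nat_lit 1) (nat_lit 0) (nat_lit 1) (nat_lit 0) (nat_lit 428) (nat_lit 420) (nat_lit 232)) (XT.nd (nat_lit 94) (nat_lit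 0) (nat_lit 0) (XT.lf (nat_lit 0) (nat_lit 108723996622) (nat_lit 0) (nat_lit 0) (nat_lit 0) (nat_lit 0) (nat_lit 0) (nat_lit 0) (nat_lit 1) (nat_lit 0) (nat_lit 1) (nat_lit 0) (nat_lit 429) (nat_lit 420) (nat_lit 231)) (XT.lf (nat_lit 0) (nat_lit 108723992741) (nat_lit 0) (nat_lit 0) (nat_lit 0) (nat_lit 0) (nat_lit 0) (nat_lit 0) (nat_lit 1) (nat_lit 0) (nat_lit 1) (nat_lit 0) (nat_lit 430) (nat_lit 420) (nat_lit 230))))))) (XT.nd (nat_lit 846) (nat_lit 0) (nat_lit 0) (XT.nd (nat_lit 376) (nat_lit 0) (nat_lit 0) (XT.nd (nat_lit 188) (nat_lit 0) (nat_lit 0) (XT.nd (nat_lit 94) (nat_lit 0) (nat_lit 0) (XT.lf (nat_lit 0) (nat_lit 108723989148) (nat_lit 0) (nat_lit 0) (nat_lit 0) (nat_lit 0) (nat_lit 0) (nat_lit 0) (nat_lit 1) (nat_lit 0) (nat_lit 1) (nat_lit 0) (nat_lit 431) (nat_lit 420) (nat_lit 229)) (XT.lf (nat_lit 0) (nat_lit 108723985821) (nat_lit 0)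 (nat_lit 0) (nat_lit 0) (nat_lit 0) (nat_lit 0) (nat_lit 0) (nat_lit 1) (nat_lit 0) (nat_lit 1) (nat_lit 0) (nat_lit 432) (nat_lit 420) (nat_lit 228))) (XT.nd (nat_lit 94) (nat_lit 0) (nat_lit 0) (XT.lf (nat_lit 0) (nat_lit 108723982740) (nat_lit 0) (nat_lit 0) (nat_lit 0) (nat_lit 0) (nat_lit 0) (nat_lit 0) (nat_lit 1) (nat_lit 0) (nat_lit 1) (nat_lit 0) (nat_lit 433) (nat_lit 420) (nat_lit 227)) (XT.lf (nat_lit 0) (nat_lit 108723979888) (nat_lit 0) (nat_lit 0) (nat_lit 0) (nat_lit 0) (nat_lit 0) (nat_lit 0) (nat_lit 1) (nat_lit 0) (nat_lit 1) (nat_lit 0) (nat_lit 434) (nat_lit 420) (nat_lit 226)))) (XT.nd (nat_lit 188) (nat_lit 0) (nat_lit 0) (XT.nd (nat_lit 94) (nat_lit 0) (nat_lit 0) (XT.lf (nat_lit 0) (nat_lit 108723977247) (nat_lit 0) (nat_lit 0) (nat_lit 0) (nat_lit 0) (nat_lit 0) (nat_lit 0) (nat_lit 1) (nat_lit 0) (nat_lit 1) (nat_lit 0) (nat_lit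 435) (nat_lit 420) (nat_lit 225)) (XT.lf (nat_lit 0) (nat_lit 108723974801) (nat_lit 0) (nat_lit 0) (nat_lit 0) (nat_lit 0) (nat_lit 0) (nat_lit 0) (nat_lit 1) (nat_lit 0) (nat_lit 1) (nat_lit 0) (nat_lit 436) (nat_lit 420) (nat_lit 224))) (XT.nd (nat_lit 94) (nat_lit 0) (nat_lit 0) (XT.lf (nat_lit 0) (nat_lit 108723972537) (nat_lit 0) (nat_lit 0) (nat_lit 0) (nat_lit 0) (nat_lit 0) (nat_lit 0) (nat_lit 1) (nat_lit 0) (nat_lit 1) (nat_lit 0) (nat_lit 437) (nat_lit 420) (nat_lit 223)) (XT.nd (nat_lit 94) (nat_lit 0) (nat_lit 0) (XT.lf (nat_lit 0) (nat_lit 108723970441) (nat_lit 0) (nat_lit 0) (nat_lit 0) (nat_lit 0) (nat_lit 0) (nat_lit 0) (nat_lit 1) (nat_lit 0) (nat_lit 1) (nat_lit 0) (nat_lit 438) (nat_lit 420) (nat_lit 222)) (XT.lf (nat_lit 0) (nat_lit 108723968499) (nat_lit 0) (nat_lit 0) (nat_lit 0) (nat_lit 0) (nat_lit 0) (nat_lit 0) (nat_lit 1) (nat_lit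 0) (nat_lit 1) (nat_lit 0) (nat_lit 439) (nat_lit 420) (nat_lit 221)))))) (XT.nd (nat_lit 48974) (nat_lit 0) (nat_lit 10836) (XT.nd (nat_lit 188) (nat_lit 0) (nat_lit 0) (XT.nd (nat_lit 94) (nat_lit 0) (nat_lit 0) (XT.lf (nat_lit 0) (nat_lit 108723966702) (nat_lit 0) (nat_lit 0) (nat_lit 0) (nat_lit 0) (nat_lit 0) (nat_lit 0) (nat_lit 1) (nat_lit 0) (nat_lit 1) (nat_lit 0) (nat_lit 440) (nat_lit 420) (nat_lit 220)) (XT.lf (nat_lit 0) (nat_lit 108723965038) (nat_lit 0) (nat_lit 0) (nat_lit 0) (nat_lit 0) (nat_lit 0) (nat_lit 0) (nat_lit 1) (nat_lit 0) (nat_lit 1) (nat_lit 0) (nat_lit 441) (nat_lit 420) (nat_lit 219))) (XT.nd (nat_lit 48598) (nat_lit 0) (nat_lit 10752) (XT.lf (nat_lit 0) (nat_lit 108723963496) (nat_lit 0) (nat_lit 0) (nat_lit 0) (nat_lit 0) (nat_lit 0) (nat_lit 0) (nat_lit 1) (nat_lit 0) (nat_lit 1) (nat_lit 0) (nat_lit 442) (nat_lit 420) (nat_lit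 218)) (XT.nd (nat_lit 94) (nat_lit 0) (nat_lit 84) (XT.lf (nat_lit 924) (nat_lit 58762296971) (nat_lit 0) (nat_lit 104332323202) (nat_lit 924) (nat_lit 58762296971) (nat_lit 139) (nat_lit 1) (nat_lit 128) (nat_lit 0) (nat_lit 139) (nat_lit 0) (nat_lit 238) (nat_lit 421) (nat_lit 421)) (XT.lf (nat_lit 924) (nat_lit 21920139840) (nat_lit 0) (nat_lit 204835971096) (nat_lit 840) (nat_lit 200328895390) (nat_lit 140) (nat_lit 1) (nat_lit 129) (nat_lit 1) (nat_lit 139) (nat_lit 1) (nat_lit 239) (nat_lit 421) (nat_lit 420))))) (XT.nd (nat_lit 188) (nat_lit 0) (nat_lit 168) (XT.nd (nat_lit 94) (nat_lit 0) (nat_lit 84) (XT.lf (nat_lit 924) (nat_lit 201323831948) (nat_lit 84) (nat_lit 137178718889) (nat_lit 0) (nat_lit 72753334940) (nat_lit 140) (nat_lit 1) (nat_lit 130) (nat_lit 1) (nat_lit 129) (nat_lit 1) (nat_lit 240) (nat_lit 421) (nat_lit 419)) (XT.lf (nat_lit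 924) (nat_lit 173960283489) (nat_lit 84) (nat_lit 57490650253) (nat_lit 0) (nat_lit 164767960827) (nat_lit 141) (nat_lit 1) (nat_lit 131) (nat_lit 1) (nat_lit 130) (nat_lit 1) (nat_lit 241) (nat_lit 421) (nat_lit 418))) (XT.nd (nat_lit 94) (nat_lit 0) (nat_lit 84) (XT.lf (nat_lit 924) (nat_lit 128745399371) (nat_lit 0) (nat_lit 240876556693) (nat_lit 840) (nat_lit 12313575163) (nat_lit 142) (nat_lit 1) (nat_lit 131) (nat_lit 1) (nat_lit 141) (nat_lit 1) (nat_lit 242) (nat_lit 421) (nat_lit 417)) (XT.nd (nat_lit 94) (nat_lit 0) (nat_lit 0) (XT.lf (nat_lit 924) (nat_lit 30891196265) (nat_lit 0) (nat_lit 265633321856) (nat_lit 840) (nat_lit 71809780347) (nat_lit 143) (nat_lit 1) (nat_lit 132) (nat_lit 1) (nat_lit 142) (nat_lit 1) (nat_lit 243) (nat_lit 421) (nat_lit 416)) (XT.lf (nat_lit 924) (nat_lit 59360314709) (nat_lit 84) (nat_lit 230856988143) (nat_lit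 0) (nat_lit 65150690288) (nat_lit 143) (nat_lit 1) (nat_lit 133) (nat_lit 1) (nat_lit 132) (nat_lit 1) (nat_lit 244) (nat_lit 421) (nat_lit 415))))))))
noncomputable def ec252 : XT := (XT.nd (nat_lit 1692) (nat_lit 3192) (nat_lit 0) (XT.nd (nat_lit 846) (nat_lit 2436) (nat_lit 0) (XT.nd (nat_lit 376) (nat_lit 1428) (nat_lit 0) (XT.nd (nat_lit 188) (nat_lit 840) (nat_lit 0) (XT.nd (nat_lit 94) (nat_lit 588) (nat_lit 0) (XT.lf (nat_lit 924) (nat_lit 12191255044) (nat_lit 0) (nat_lit 172580869240) (nat_lit 840) (nat_lit 158254848818) (nat_lit 134) (nat_lit 1) (nat_lit 123) (nat_lit 1) (nat_lit 133) (nat_lit 1) (nat_lit 245) (nat_lit 421) (nat_lit 414)) (XT.lf (nat_lit 84) (nat_lit 84414789467) (nat_lit 0) (nat_lit 36580856622) (nat_lit 588) (nat_lit 210274642358) (nat_lit 117) (nat_lit 1) (nat_lit 116) (nat_lit 1) (nat_lit 123) (nat_lit 1) (nat_lit 246) (nat_lit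 421) (nat_lit 413))) (XT.nd (nat_lit 94) (nat_lit 420) (nat_lit 0) (XT.lf (nat_lit 504) (nat_lit 232636534752) (nat_lit 0) (nat_lit 75728207300) (nat_lit 420) (nat_lit 11708048766) (nat_lit 117) (nat_lit 1) (nat_lit 111) (nat_lit 1) (nat_lit 116) (nat_lit 1) (nat_lit 247) (nat_lit 421) (nat_lit 412)) (XT.lf (nat_lit 504) (nat_lit 167872738810) (nat_lit 0) (nat_lit 35297243633) (nat_lit 420) (nat_lit 106186783121) (nat_lit 112) (nat_lit 1) (nat_lit 106) (nat_lit 1) (nat_lit 111) (nat_lit 1) (nat_lit 248) (nat_lit 421) (nat_lit 411)))) (XT.nd (nat_lit 188) (nat_lit 1092) (nat_lit 0) (XT.nd (nat_lit 94) (nat_lit 0) (nat_lit 0) (XT.lf (nat_lit 420) (nat_lit 102148420527) (nat_lit 0) (nat_lit 649879616) (nat_lit 336) (nat_lit 196362036931) (nat_lit 107) (nat_lit 1) (nat_lit 102) (nat_lit 1) (nat_lit 106) (nat_lit 1) (nat_lit 249) (nat_lit 421) (nat_lit 410)) (XT.lf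 (nat_lit 84) (nat_lit 7536027714) (nat_lit 0) (nat_lit 254151370979) (nat_lit 420) (nat_lit 27745563809) (nat_lit 103) (nat_lit 1) (nat_lit 102) (nat_lit 1) (nat_lit 107) (nat_lit 1) (nat_lit 250) (nat_lit 421) (nat_lit 409))) (XT.nd (nat_lit 94) (nat_lit 672) (nat_lit 0) (XT.lf (nat_lit 84) (nat_lit 194582190203) (nat_lit 0) (nat_lit 32273538262) (nat_lit 420) (nat_lit 53224925912) (nat_lit 98) (nat_lit 1) (nat_lit 97) (nat_lit 1) (nat_lit 102) (nat_lit 1) (nat_lit 251) (nat_lit 421) (nat_lit 408)) (XT.nd (nat_lit 94) (nat_lit 336) (nat_lit 0) (XT.lf (nat_lit 84) (nat_lit 97354400597) (nat_lit 0) (nat_lit 98859576773) (nat_lit 420) (nat_lit 74927601540) (nat_lit 94) (nat_lit 1) (nat_lit 93) (nat_lit 1) (nat_lit 98) (nat_lit 1) (nat_lit 252) (nat_lit 421) (nat_lit 407)) (XT.lf (nat_lit 84) (nat_lit 4805197333) (nat_lit 0) (nat_lit 165291677293) (nat_lit 420)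 (nat_lit 92528864497) (nat_lit 90) (nat_lit 1) (nat_lit 89) (nat_lit 1) (nat_lit 94) (nat_lit 1) (nat_lit 253) (nat_lit 421) (nat_lit 406)))))) (XT.nd (nat_lit 376) (nat_lit 1260) (nat_lit 0) (XT.nd (nat_lit 188) (nat_lit 504) (nat_lit 0) (XT.nd (nat_lit 94) (nat_lit 420) (nat_lit 0) (XT.lf (nat_lit 336) (nat_lit 21700000340) (nat_lit 0) (nat_lit 146746715175) (nat_lit 252) (nat_lit 85996947700) (nat_lit 90) (nat_lit 1) (nat_lit 86) (nat_lit 1) (nat_lit 89) (nat_lit 1) (nat_lit 254) (nat_lit 421) (nat_lit 405)) (XT.lf (nat_lit 84) (nat_lit 74979335431) (nat_lit 0) (nat_lit 51391302406) (nat_lit 420) (nat_lit 120228965859) (nat_lit 82) (nat_lit 1) (nat_lit 81) (nat_lit 1) (nat_lit 86) (nat_lit 1) (nat_lit 255) (nat_lit 421) (nat_lit 404))) (XT.nd (nat_lit 94) (nat_lit 252) (nat_lit 0) (XT.lf (nat_lit 336) (nat_lit 116086046117) (nat_lit 0) (nat_lit 109047836558)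 (nat_lit 252) (nat_lit 13957993658) (nat_lit 82) (nat_lit 1) (nat_lit 78) (nat_lit 1) (nat_lit 81) (nat_lit 1) (nat_lit 256) (nat_lit 421) (nat_lit 403)) (XT.lf (nat_lit 336) (nat_lit 37205016961) (nat_lit 0) (nat_lit 93885721811) (nat_lit 252) (nat_lit 100781934257) (nat_lit 79) (nat_lit 1) (nat_lit 75) (nat_lit 1) (nat_lit 78) (nat_lit 1) (nat_lit 257) (nat_lit 421) (nat_lit 402)))) (XT.nd (nat_lit 188) (nat_lit 672) (nat_lit 0) (XT.nd (nat_lit 94) (nat_lit 252) (nat_lit 0) (XT.lf (nat_lit 84) (nat_lit 42404729405) (nat_lit 0) (nat_lit 38825214823) (nat_lit 336) (nat_lit 143723352604) (nat_lit 72) (nat_lit 1) (nat_lit 71) (nat_lit 1) (nat_lit 75) (nat_lit 1) (nat_lit 258) (nat_lit 421) (nat_lit 401)) (XT.lf (nat_lit 336) (nat_lit 105518603518) (nat_lit 0) (nat_lit 70208168564) (nat_lit 252) (nat_lit 42560422616) (nat_lit 72) (nat_lit 1) (nat_lit 68) (nat_lit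 1) (nat_lit 71) (nat_lit 1) (nat_lit 259) (nat_lit 421) (nat_lit 400))) (XT.nd (nat_lit 94) (nat_lit 504) (nat_lit 0) (XT.lf (nat_lit 252) (nat_lit 26158217617) (nat_lit 0) (nat_lit 61251506074) (nat_lit 168) (nat_lit 124480298032) (nat_lit 69) (nat_lit 1) (nat_lit 66) (nat_lit 1) (nat_lit 68) (nat_lit 1) (nat_lit 260) (nat_lit 421) (nat_lit 399)) (XT.nd (nat_lit 94) (nat_lit 168) (nat_lit 0) (XT.lf (nat_lit 84) (nat_lit 4431369183) (nat_lit 0) (nat_lit 49587983164) (nat_lit 336) (nat_lit 151721467677) (nat_lit 63) (nat_lit 1) (nat_lit 62) (nat_lit 1) (nat_lit 66) (nat_lit 1) (nat_lit 261) (nat_lit 421) (nat_lit 398)) (XT.lf (nat_lit 252) (nat_lit 76010980702) (nat_lit 0) (nat_lit 47500341969) (nat_lit 168) (nat_lit 76275499680) (nat_lit 63) (nat_lit 1) (nat_lit 60) (nat_lit 1) (nat_lit 62) (nat_lit 1) (nat_lit 262) (nat_lit 421) (nat_lit 397))))))) (XT.nd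 (nat_lit 846) (nat_lit 1512) (nat_lit 0) (XT.nd (nat_lit 376) (nat_lit 840) (nat_lit 0) (XT.nd (nat_lit 188) (nat_lit 420) (nat_lit 0) (XT.nd (nat_lit 94) (nat_lit 168) (nat_lit 0) (XT.lf (nat_lit 84) (nat_lit 41240381610) (nat_lit 0) (nat_lit 1904919082) (nat_lit 252) (nat_lit 150947335926) (nat_lit 58) (nat_lit 1) (nat_lit 57) (nat_lit 1) (nat_lit 60) (nat_lit 1) (nat_lit 263) (nat_lit 421) (nat_lit 396)) (XT.lf (nat_lit 252) (nat_lit 112743239616) (nat_lit 0) (nat_lit 39068060442) (nat_lit 168) (nat_lit 36752790638) (nat_lit 58) (nat_lit 1) (nat_lit 55) (nat_lit 1) (nat_lit 57) (nat_lit 1) (nat_lit 264) (nat_lit 421) (nat_lit 395))) (XT.nd (nat_lit 94) (nat_lit 252) (nat_lit 0) (XT.lf (nat_lit 252) (nat_lit 35022568161) (nat_lit 0) (nat_lit 36318082393) (nat_lit 168) (nat_lit 111906274726) (nat_lit 56) (nat_lit 1) (nat_lit 53) (nat_lit 1) (nat_lit 55) (nat_lit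 1) (nat_lit 265) (nat_lit 421) (nat_lit 394)) (XT.lf (nat_lit 252) (nat_lit 139026724446) (nat_lit 0) (nat_lit 34698979967) (nat_lit 168) (nat_lit 4401968175) (nat_lit 53) (nat_lit 1) (nat_lit 50) (nat_lit 1) (nat_lit 52) (nat_lit 1) (nat_lit 266) (nat_lit 421) (nat_lit 393)))) (XT.nd (nat_lit 188) (nat_lit 504) (nat_lit 0) (XT.nd (nat_lit 94) (nat_lit 168) (nat_lit 0) (XT.lf (nat_lit 252) (nat_lit 62221918518) (nat_lit 0) (nat_lit 33125827221) (nat_lit 168) (nat_lit 77802922030) (nat_lit 51) (nat_lit 1) (nat_lit 48) (nat_lit 1) (nat_lit 50) (nat_lit 1) (nat_lit 267) (nat_lit 421) (nat_lit 392)) (XT.lf (nat_lit 84) (nat_lit 21313409413) (nat_lit 0) (nat_lit 11714810224) (nat_lit 168) (nat_lit 135351876611) (nat_lit 47) (nat_lit 1) (nat_lit 46) (nat_lit 1) (nat_lit 48) (nat_lit 1) (nat_lit 268) (nat_lit 421) (nat_lit 391))) (XT.nd (nat_lit 94) (nat_lit 336)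 (nat_lit 0) (XT.lf (nat_lit 252) (nat_lit 81638735522) (nat_lit 0) (nat_lit 32678487556) (nat_lit 168) (nat_lit 49412682487) (nat_lit 47) (nat_lit 1) (nat_lit 44) (nat_lit 1) (nat_lit 46) (nat_lit 1) (nat_lit 269) (nat_lit 421) (nat_lit 390)) (XT.nd (nat_lit 94) (nat_lit 252) (nat_lit 0) (XT.lf (nat_lit 168) (nat_lit 8791331744) (nat_lit 0) (nat_lit 33481113440) (nat_lit 84) (nat_lit 116990853242) (nat_lit 45) (nat_lit 1) (nat_lit 43) (nat_lit 1) (nat_lit 44) (nat_lit 1) (nat_lit 270) (nat_lit 421) (nat_lit 389)) (XT.lf (nat_lit 252) (nat_lit 94899180457) (nat_lit 0) (nat_lit 34242244499) (nat_lit 168) (nat_lit 25778424481) (nat_lit 43) (nat_lit 1) (nat_lit 40) (nat_lit 1) (nat_lit 42) (nat_lit 1) (nat_lit 271) (nat_lit 421) (nat_lit 388)))))) (XT.nd (nat_lit 470) (nat_lit 756) (nat_lit 0) (XT.nd (nat_lit 188) (nat_lit 420) (nat_lit 0) (XT.nd (nat_lit 94)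 (nat_lit 252) (nat_lit 0) (XT.lf (nat_lit 168) (nat_lit 23867843669) (nat_lit 0) (nat_lit 35522596526) (nat_lit 84) (nat_lit 91332343209) (nat_lit 41) (nat_lit 1) (nat_lit 39) (nat_lit 1) (nat_lit 40) (nat_lit 1) (nat_lit 272) (nat_lit 421) (nat_lit 387)) (XT.lf (nat_lit 252) (nat_lit 103318025492) (nat_lit 0) (nat_lit 37235861866) (nat_lit 168) (nat_lit 6110723689) (nat_lit 39) (nat_lit 1) (nat_lit 36) (nat_lit 1) (nat_lit 38) (nat_lit 1) (nat_lit 273) (nat_lit 421) (nat_lit 386))) (XT.nd (nat_lit 94) (nat_lit 336) (nat_lit 0) (XT.lf (nat_lit 168) (nat_lit 34349101517) (nat_lit 0) (nat_lit 38818833430) (nat_lit 84) (nat_lit 69547292510) (nat_lit 37) (nat_lit 1) (nat_lit 35) (nat_lit 1) (nat_lit 36) (nat_lit 1) (nat_lit 274) (nat_lit 421) (nat_lit 385)) (XT.nd (nat_lit 94) (nat_lit 84) (nat_lit 0) (XT.lf (nat_lit 84) (nat_lit 9914517665) (nat_lit 0) (nat_lit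 31119028127) (nat_lit 252) (nat_lit 97874179947) (nat_lit 33) (nat_lit 1) (nat_lit 32) (nat_lit 1) (nat_lit 35) (nat_lit 1) (nat_lit 275) (nat_lit 421) (nat_lit 384)) (XT.lf (nat_lit 168) (nat_lit 41222020890) (nat_lit 0) (nat_lit 42951391888) (nat_lit 84) (nat_lit 51021368205) (nat_lit 33) (nat_lit 1) (nat_lit 31) (nat_lit 1) (nat_lit 32) (nat_lit 1) (nat_lit 276) (nat_lit 421) (nat_lit 383))))) (XT.nd (nat_lit 188) (nat_lit 420) (nat_lit 0) (XT.nd (nat_lit 94) (nat_lit 84) (nat_lit 0) (XT.lf (nat_lit 84) (nat_lit 23057476416) (nat_lit 0) (nat_lit 22332725051) (nat_lit 252) (nat_lit 86222116733) (nat_lit 29) (nat_lit 1) (nat_lit 28) (nat_lit 1) (nat_lit 31) (nat_lit 1) (nat_lit 277) (nat_lit 421) (nat_lit 382)) (XT.lf (nat_lit 168) (nat_lit 45282482443) (nat_lit 0) (nat_lit 47593638290) (nat_lit 84) (nat_lit 35245265252) (nat_lit 29) (nat_lit 1) (nat_lit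 27) (nat_lit 1) (nat_lit 28) (nat_lit 1) (nat_lit 278) (nat_lit 421) (nat_lit 381))) (XT.nd (nat_lit 94) (nat_lit 252) (nat_lit 0) (XT.lf (nat_lit 84) (nat_lit 33945937098) (nat_lit 0) (nat_lit 16174631637) (nat_lit 168) (nat_lit 74625174431) (nat_lit 26) (nat_lit 1) (nat_lit 25) (nat_lit 1) (nat_lit 27) (nat_lit 1) (nat_lit 279) (nat_lit 421) (nat_lit 380)) (XT.nd (nat_lit 94) (nat_lit 168) (nat_lit 0) (XT.lf (nat_lit 168) (nat_lit 47171028075) (nat_lit 0) (nat_lit 52492846521) (nat_lit 84) (nat_lit 21795971694) (nat_lit 26) (nat_lit 1) (nat_lit 24) (nat_lit 1) (nat_lit 25) (nat_lit 1) (nat_lit 280) (nat_lit 421) (nat_lit 379)) (XT.lf (nat_lit 84) (nat_lit 42938454194) (nat_lit 0) (nat_lit 12066486106) (nat_lit 168) (nat_lit 63270079867) (nat_lit 23) (nat_lit 1) (nat_lit 22) (nat_lit 1) (nat_lit 24) (nat_lit 1) (nat_lit 281) (nat_lit 421) (nat_lit 378))))))))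
noncomputable def ec253 : XT := (XT.nd (nat_lit 1786) (nat_lit 0) (nat_lit 0) (XT.nd (nat_lit 846) (nat_lit 756) (nat_lit 0) (XT.nd (nat_lit 376) (nat_lit 588) (nat_lit 0) (XT.nd (nat_lit 188) (nat_lit 252) (nat_lit 0) (XT.nd (nat_lit 94) (nat_lit 168) (nat_lit 0) (XT.lf (nat_lit 168) (nat_lit 47401967377) (nat_lit 0) (nat_lit 57455657665) (nat_lit 84) (nat_lit 10321436582) (nat_lit 23) (nat_lit 1) (nat_lit 21) (nat_lit 1) (nat_lit 22) (nat_lit 1) (nat_lit 282) (nat_lit 421) (nat_lit 377)) (XT.lf (nat_lit 84) (nat_lit 50333026491) (nat_lit 0) (nat_lit 9543312234) (nat_lit 168) (nat_lit 52294574595) (nat_lit 20) (nat_lit 1) (nat_lit 19) (nat_lit 1) (nat_lit 21) (nat_lit 1) (nat_lit 283) (nat_lit 421) (nat_lit 376))) (XT.nd (nat_lit 94) (nat_lit 168) (nat_lit 0) (XT.lf (nat_lit 168) (nat_lit 46387105865) (nat_lit 0) (nat_lit 62336271474) (nat_lit 84) (nat_lit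 528018439) (nat_lit 20) (nat_lit 1) (nat_lit 18) (nat_lit 1) (nat_lit 19) (nat_lit 1) (nat_lit 284) (nat_lit 421) (nat_lit 375)) (XT.lf (nat_lit 84) (nat_lit 56377816025) (nat_lit 0) (nat_lit 8232147957) (nat_lit 168) (nat_lit 41797397259) (nat_lit 17) (nat_lit 1) (nat_lit 16) (nat_lit 1) (nat_lit 18) (nat_lit 1) (nat_lit 285) (nat_lit 421) (nat_lit 374)))) (XT.nd (nat_lit 188) (nat_lit 336) (nat_lit 0) (XT.nd (nat_lit 94) (nat_lit 168) (nat_lit 0) (XT.lf (nat_lit 0) (nat_lit 7579191576) (nat_lit 0) (nat_lit 59319315537) (nat_lit 168) (nat_lit 36747535253) (nat_lit 15) (nat_lit 3) (nat_lit 15) (nat_lit 1) (nat_lit 17) (nat_lit 1) (nat_lit 286) (nat_lit 421) (nat_lit 373)) (XT.lf (nat_lit 84) (nat_lit 61279926755) (nat_lit 0) (nat_lit 7834707936) (nat_lit 168) (nat_lit 31846370916) (nat_lit 14) (nat_lit 1) (nat_lit 13) (nat_lit 1) (nat_lit 15) (nat_lit 1) (nat_lit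 287) (nat_lit 421) (nat_lit 372))) (XT.nd (nat_lit 94) (nat_lit 252) (nat_lit 0) (XT.lf (nat_lit 0) (nat_lit 14479059864) (nat_lit 0) (nat_lit 56725552091) (nat_lit 168) (nat_lit 27142865475) (nat_lit 12) (nat_lit 3) (nat_lit 12) (nat_lit 1) (nat_lit 14) (nat_lit 1) (nat_lit 288) (nat_lit 421) (nat_lit 371)) (XT.nd (nat_lit 94) (nat_lit 84) (nat_lit 0) (XT.lf (nat_lit 84) (nat_lit 65212597280) (nat_lit 0) (nat_lit 8113256335) (nat_lit 168) (nat_lit 22484946944) (nat_lit 11) (nat_lit 1) (nat_lit 10) (nat_lit 1) (nat_lit 12) (nat_lit 1) (nat_lit 289) (nat_lit 421) (nat_lit 370)) (XT.lf (nat_lit 0) (nat_lit 20355946809) (nat_lit 0) (nat_lit 54850763769) (nat_lit 168) (nat_lit 18129235341) (nat_lit 9) (nat_lit 3) (nat_lit 9) (nat_lit 1) (nat_lit 11) (nat_lit 1) (nat_lit 290) (nat_lit 421) (nat_lit 369)))))) (XT.nd (nat_lit 470) (nat_lit 0) (nat_lit 0) (XT.nd (nat_lit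 188) (nat_lit 504) (nat_lit 0) (XT.nd (nat_lit 94) (nat_lit 84) (nat_lit 0) (XT.lf (nat_lit 84) (nat_lit 68321097021) (nat_lit 0) (nat_lit 8879098994) (nat_lit 168) (nat_lit 13737492393) (nat_lit 8) (nat_lit 1) (nat_lit 7) (nat_lit 1) (nat_lit 9) (nat_lit 1) (nat_lit 291) (nat_lit 421) (nat_lit 368)) (XT.lf (nat_lit 0) (nat_lit 25351038547) (nat_lit 0) (nat_lit 53516510622) (nat_lit 168) (nat_lit 9725606770) (nat_lit 6) (nat_lit 3) (nat_lit 6) (nat_lit 1) (nat_lit 8) (nat_lit 1) (nat_lit 292) (nat_lit 421) (nat_lit 367))) (XT.nd (nat_lit 94) (nat_lit 336) (nat_lit 0) (XT.lf (nat_lit 84) (nat_lit 70727562273) (nat_lit 0) (nat_lit 9983212694) (nat_lit 168) (nat_lit 5613554786) (nat_lit 5) (nat_lit 1) (nat_lit 4) (nat_lit 1) (nat_lit 6) (nat_lit 1) (nat_lit 293) (nat_lit 421) (nat_lit 366)) (XT.nd (nat_lit 94) (nat_lit 252) (nat_lit 0) (XT.lf (nat_lit 0) (nat_lit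 29583744875) (nat_lit 0) (nat_lit 52581223544) (nat_lit 168) (nat_lit 1937470877) (nat_lit 3) (nat_lit 3) (nat_lit 3) (nat_lit 1) (nat_lit 5) (nat_lit 1) (nat_lit 294) (nat_lit 421) (nat_lit 365)) (XT.lf (nat_lit 0) (nat_lit 118882673669) (nat_lit 0) (nat_lit 0) (nat_lit 0) (nat_lit 0) (nat_lit 0) (nat_lit 0) (nat_lit 1) (nat_lit 0) (nat_lit 1) (nat_lit 0) (nat_lit 295) (nat_lit 421) (nat_lit 364))))) (XT.nd (nat_lit 188) (nat_lit 0) (nat_lit 0) (XT.nd (nat_lit 94) (nat_lit 0) (nat_lit 0) (XT.lf (nat_lit 0) (nat_lit 118774465233) (nat_lit 0) (nat_lit 0) (nat_lit 0) (nat_lit 0) (nat_lit 0) (nat_lit 0) (nat_lit 1) (nat_lit 0) (nat_lit 1) (nat_lit 0) (nat_lit 296) (nat_lit 421) (nat_lit 363)) (XT.lf (nat_lit 0) (nat_lit 118674272236) (nat_lit 0) (nat_lit 0) (nat_lit 0) (nat_lit 0) (nat_lit 0) (nat_lit 0) (nat_lit 1) (nat_lit 0) (nat_lit 1) (nat_lit 0) (nat_lit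 297) (nat_lit 421) (nat_lit 362))) (XT.nd (nat_lit 94) (nat_lit 0) (nat_lit 0) (XT.lf (nat_lit 0) (nat_lit 118581500942) (nat_lit 0) (nat_lit 0) (nat_lit 0) (nat_lit 0) (nat_lit 0) (nat_lit 0) (nat_lit 1) (nat_lit 0) (nat_lit 1) (nat_lit 0) (nat_lit 298) (nat_lit 421) (nat_lit 361)) (XT.nd (nat_lit 94) (nat_lit 0) (nat_lit 0) (XT.lf (nat_lit 0) (nat_lit 118495601596) (nat_lit 0) (nat_lit 0) (nat_lit 0) (nat_lit 0) (nat_lit 0) (nat_lit 0) (nat_lit 1) (nat_lit 0) (nat_lit 1) (nat_lit 0) (nat_lit 299) (nat_lit 421) (nat_lit 360)) (XT.lf (nat_lit 0) (nat_lit 118416065165) (nat_lit 0) (nat_lit 0) (nat_lit 0) (nat_lit 0) (nat_lit 0) (nat_lit 0) (nat_lit 1) (nat_lit 0) (nat_lit 1) (nat_lit 0) (nat_lit 300) (nat_lit 421) (nat_lit 359))))))) (XT.nd (nat_lit 846) (nat_lit 0) (nat_lit 0) (XT.nd (nat_lit 376) (nat_lit 0) (nat_lit 0) (XT.nd (nat_lit 188) (nat_lit 0) (nat_lit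 0) (XT.nd (nat_lit 94) (nat_lit 0) (nat_lit 0) (XT.lf (nat_lit 0) (nat_lit 118342420321) (nat_lit 0) (nat_lit 0) (nat_lit 0) (nat_lit 0) (nat_lit 0) (nat_lit 0) (nat_lit 1) (nat_lit 0) (nat_lit 1) (nat_lit 0) (nat_lit 301) (nat_lit 421) (nat_lit 358)) (XT.lf (nat_lit 0) (nat_lit 118274230650) (nat_lit 0) (nat_lit 0) (nat_lit 0) (nat_lit 0) (nat_lit 0) (nat_lit 0) (nat_lit 1) (nat_lit 0) (nat_lit 1) (nat_lit 0) (nat_lit 302) (nat_lit 421) (nat_lit 357))) (XT.nd (nat_lit 94) (nat_lit 0) (nat_lit 0) (XT.lf (nat_lit 0) (nat_lit 118211092067) (nat_lit 0) (nat_lit 0) (nat_lit 0) (nat_lit 0) (nat_lit 0) (nat_lit 0) (nat_lit 1) (nat_lit 0) (nat_lit 1) (nat_lit 0) (nat_lit 303) (nat_lit 421) (nat_lit 356)) (XT.lf (nat_lit 0) (nat_lit 118152630415) (nat_lit 0) (nat_lit 0) (nat_lit 0) (nat_lit 0) (nat_lit 0) (nat_lit 0) (nat_lit 1) (nat_lit 0) (nat_lit 1) (nat_lit 0)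 (nat_lit 304) (nat_lit 421) (nat_lit 355)))) (XT.nd (nat_lit 188) (nat_lit 0) (nat_lit 0) (XT.nd (nat_lit 94) (nat_lit 0) (nat_lit 0) (XT.lf (nat_lit 0) (nat_lit 118098499257) (nat_lit 0) (nat_lit 0) (nat_lit 0) (nat_lit 0) (nat_lit 0) (nat_lit 0) (nat_lit 1) (nat_lit 0) (nat_lit 1) (nat_lit 0) (nat_lit 305) (nat_lit 421) (nat_lit 354)) (XT.lf (nat_lit 0) (nat_lit 118048377813) (nat_lit 0) (nat_lit 0) (nat_lit 0) (nat_lit 0) (nat_lit 0) (nat_lit 0) (nat_lit 1) (nat_lit 0) (nat_lit 1) (nat_lit 0) (nat_lit 306) (nat_lit 421) (nat_lit 353))) (XT.nd (nat_lit 94) (nat_lit 0) (nat_lit 0) (XT.lf (nat_lit 0) (nat_lit 118001969070) (nat_lit 0) (nat_lit 0) (nat_lit 0) (nat_lit 0) (nat_lit 0) (nat_lit 0) (nat_lit 1) (nat_lit 0) (nat_lit 1) (nat_lit 0) (nat_lit 307) (nat_lit 421) (nat_lit 352)) (XT.nd (nat_lit 94) (nat_lit 0) (nat_lit 0) (XT.lf (nat_lit 0) (nat_lit 117958998010)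 (nat_lit 0) (nat_lit 0) (nat_lit 0) (nat_lit 0) (nat_lit 0) (nat_lit 0) (nat_lit 1) (nat_lit 0) (nat_lit 1) (nat_lit 0) (nat_lit 308) (nat_lit 421) (nat_lit 351)) (XT.lf (nat_lit 0) (nat_lit 117919209993) (nat_lit 0) (nat_lit 0) (nat_lit 0) (nat_lit 0) (nat_lit 0) (nat_lit 0) (nat_lit 1) (nat_lit 0) (nat_lit 1) (nat_lit 0) (nat_lit 309) (nat_lit 421) (nat_lit 350)))))) (XT.nd (nat_lit 470) (nat_lit 0) (nat_lit 0) (XT.nd (nat_lit 188) (nat_lit 0) (nat_lit 0) (XT.nd (nat_lit 94) (nat_lit 0) (nat_lit 0) (XT.lf (nat_lit 0) (nat_lit 117882369236) (nat_lit 0) (nat_lit 0) (nat_lit 0) (nat_lit 0) (nat_lit 0) (nat_lit 0) (nat_lit 1) (nat_lit 0) (nat_lit 1) (nat_lit 0) (nat_lit 310) (nat_lit 421) (nat_lit 349)) (XT.lf (nat_lit 0) (nat_lit 117848257424) (nat_lit 0) (nat_lit 0) (nat_lit 0) (nat_lit 0) (nat_lit 0) (nat_lit 0) (nat_lit 1) (nat_lit 0) (nat_lit 1) (nat_lit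 0) (nat_lit 311) (nat_lit 421) (nat_lit 348))) (XT.nd (nat_lit 94) (nat_lit 0) (nat_lit 0) (XT.lf (nat_lit 0) (nat_lit 117816672412) (nat_lit 0) (nat_lit 0) (nat_lit 0) (nat_lit 0) (nat_lit 0) (nat_lit 0) (nat_lit 1) (nat_lit 0) (nat_lit 1) (nat_lit 0) (nat_lit 312) (nat_lit 421) (nat_lit 347)) (XT.nd (nat_lit 94) (nat_lit 0) (nat_lit 0) (XT.lf (nat_lit 0) (nat_lit 117787427032) (nat_lit 0) (nat_lit 0) (nat_lit 0) (nat_lit 0) (nat_lit 0) (nat_lit 0) (nat_lit 1) (nat_lit 0) (nat_lit 1) (nat_lit 0) (nat_lit 313) (nat_lit 421) (nat_lit 346)) (XT.lf (nat_lit 0) (nat_lit 117760347975) (nat_lit 0) (nat_lit 0) (nat_lit 0) (nat_lit 0) (nat_lit 0) (nat_lit 0) (nat_lit 1) (nat_lit 0) (nat_lit 1) (nat_lit 0) (nat_lit 314) (nat_lit 421) (nat_lit 345))))) (XT.nd (nat_lit 188) (nat_lit 0) (nat_lit 0) (XT.nd (nat_lit 94) (nat_lit 0) (nat_lit 0) (XT.lf (nat_lit 0) (nat_lit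 117735274775) (nat_lit 0) (nat_lit 0) (nat_lit 0) (nat_lit 0) (nat_lit 0) (nat_lit 0) (nat_lit 1) (nat_lit 0) (nat_lit 1) (nat_lit 0) (nat_lit 315) (nat_lit 421) (nat_lit 344)) (XT.lf (nat_lit 0) (nat_lit 117712058849) (nat_lit 0) (nat_lit 0) (nat_lit 0) (nat_lit 0) (nat_lit 0) (nat_lit 0) (nat_lit 1) (nat_lit 0) (nat_lit 1) (nat_lit 0) (nat_lit 316) (nat_lit 421) (nat_lit 343))) (XT.nd (nat_lit 94) (nat_lit 0) (nat_lit 0) (XT.lf (nat_lit 0) (nat_lit 117690562621) (nat_lit 0) (nat_lit 0) (nat_lit 0) (nat_lit 0) (nat_lit 0) (nat_lit 0) (nat_lit 1) (nat_lit 0) (nat_lit 1) (nat_lit 0) (nat_lit 317) (nat_lit 421) (nat_lit 342)) (XT.nd (nat_lit 94) (nat_lit 0) (nat_lit 0) (XT.lf (nat_lit 0) (nat_lit 117670658706) (nat_lit 0) (nat_lit 0) (nat_lit 0) (nat_lit 0) (nat_lit 0) (nat_lit 0) (nat_lit 1) (nat_lit 0) (nat_lit 1) (nat_lit 0) (nat_lit 318) (nat_lit 421) (nat_lit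 341)) (XT.lf (nat_lit 0) (nat_lit 117652229156) (nat_lit 0) (nat_lit 0) (nat_lit 0) (nat_lit 0) (nat_lit 0) (nat_lit 0) (nat_lit 1) (nat_lit 0) (nat_lit 1) (nat_lit 0) (nat_lit 319) (nat_lit 421) (nat_lit 340))))))))
noncomputable def ec254 : XT := (XT.nd (nat_lit 1786) (nat_lit 0) (nat_lit 0) (XT.nd (nat_lit 846) (nat_lit 0) (nat_lit 0) (XT.nd (nat_lit 376) (nat_lit 0) (nat_lit 0) (XT.nd (nat_lit 188) (nat_lit 0) (nat_lit 0) (XT.nd (nat_lit 94) (nat_lit 0) (nat_lit 0) (XT.lf (nat_lit 0) (nat_lit 117635164757) (nat_lit 0) (nat_lit 0) (nat_lit 0) (nat_lit 0) (nat_lit 0) (nat_lit 0) (nat_lit 1) (nat_lit 0) (nat_lit 1) (nat_lit 0) (nat_lit 320) (nat_lit 421) (nat_lit 339)) (XT.lf (nat_lit 0) (nat_lit 117619364388) (nat_lit 0) (nat_lit 0) (nat_lit 0) (nat_lit 0) (nat_lit 0) (nat_lit 0) (nat_lit 1) (nat_lit 0) (nat_lit 1) (nat_lit 0) (nat_lit 321) (nat_lit 421)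 (nat_lit 338))) (XT.nd (nat_lit 94) (nat_lit 0) (nat_lit 0) (XT.lf (nat_lit 0) (nat_lit 117604734416) (nat_lit 0) (nat_lit 0) (nat_lit 0) (nat_lit 0) (nat_lit 0) (nat_lit 0) (nat_lit 1) (nat_lit 0) (nat_lit 1) (nat_lit 0) (nat_lit 322) (nat_lit 421) (nat_lit 337)) (XT.lf (nat_lit 0) (nat_lit 117591188146) (nat_lit 0) (nat_lit 0) (nat_lit 0) (nat_lit 0) (nat_lit 0) (nat_lit 0) (nat_lit 1) (nat_lit 0) (nat_lit 1) (nat_lit 0) (nat_lit 323) (nat_lit 421) (nat_lit 336)))) (XT.nd (nat_lit 188) (nat_lit 0) (nat_lit 0) (XT.nd (nat_lit 94) (nat_lit 0) (nat_lit 0) (XT.lf (nat_lit 0) (nat_lit 117578645304) (nat_lit 0) (nat_lit 0) (nat_lit 0) (nat_lit 0) (nat_lit 0) (nat_lit 0) (nat_lit 1) (nat_lit 0) (nat_lit 1) (nat_lit 0) (nat_lit 324) (nat_lit 421) (nat_lit 335)) (XT.lf (nat_lit 0) (nat_lit 117567031561) (nat_lit 0) (nat_lit 0) (nat_lit 0) (nat_lit 0) (nat_lit 0)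 (nat_lit 0) (nat_lit 1) (nat_lit 0) (nat_lit 1) (nat_lit 0) (nat_lit 325) (nat_lit 421) (nat_lit 334))) (XT.nd (nat_lit 94) (nat_lit 0) (nat_lit 0) (XT.lf (nat_lit 0) (nat_lit 117556278095) (nat_lit 0) (nat_lit 0) (nat_lit 0) (nat_lit 0) (nat_lit 0) (nat_lit 0) (nat_lit 1) (nat_lit 0) (nat_lit 1) (nat_lit 0) (nat_lit 326) (nat_lit 421) (nat_lit 333)) (XT.nd (nat_lit 94) (nat_lit 0) (nat_lit 0) (XT.lf (nat_lit 0) (nat_lit 117546321182) (nat_lit 0) (nat_lit 0) (nat_lit 0) (nat_lit 0) (nat_lit 0) (nat_lit 0) (nat_lit 1) (nat_lit 0) (nat_lit 1) (nat_lit 0) (nat_lit 327) (nat_lit 421) (nat_lit 332)) (XT.lf (nat_lit 0) (nat_lit 117537101818) (nat_lit 0) (nat_lit 0) (nat_lit 0) (nat_lit 0) (nat_lit 0) (nat_lit 0) (nat_lit 1) (nat_lit 0) (nat_lit 1) (nat_lit 0) (nat_lit 328) (nat_lit 421) (nat_lit 331)))))) (XT.nd (nat_lit 470) (nat_lit 0) (nat_lit 0) (XT.nd (nat_lit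 188) (nat_lit 0) (nat_lit 0) (XT.nd (nat_lit 94) (nat_lit 0) (nat_lit 0) (XT.lf (nat_lit 0) (nat_lit 117528565370) (nat_lit 0) (nat_lit 0) (nat_lit 0) (nat_lit 0) (nat_lit 0) (nat_lit 0) (nat_lit 1) (nat_lit 0) (nat_lit 1) (nat_lit 0) (nat_lit 329) (nat_lit 421) (nat_lit 330)) (XT.lf (nat_lit 0) (nat_lit 117520661252) (nat_lit 0) (nat_lit 0) (nat_lit 0) (nat_lit 0) (nat_lit 0) (nat_lit 0) (nat_lit 1) (nat_lit 0) (nat_lit 1) (nat_lit 0) (nat_lit 330) (nat_lit 421) (nat_lit 329))) (XT.nd (nat_lit 94) (nat_lit 0) (nat_lit 0) (XT.lf (nat_lit 0) (nat_lit 117513342624) (nat_lit 0) (nat_lit 0) (nat_lit 0) (nat_lit 0) (nat_lit 0) (nat_lit 0) (nat_lit 1) (nat_lit 0) (nat_lit 1) (nat_lit 0) (nat_lit 331) (nat_lit 421) (nat_lit 328)) (XT.nd (nat_lit 94) (nat_lit 0) (nat_lit 0) (XT.lf (nat_lit 0) (nat_lit 117506566116) (nat_lit 0) (nat_lit 0) (nat_lit 0) (nat_lit 0) (nat_lit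 0) (nat_lit 0) (nat_lit 1) (nat_lit 0) (nat_lit 1) (nat_lit 0) (nat_lit 332) (nat_lit 421) (nat_lit 327)) (XT.lf (nat_lit 0) (nat_lit 117500291572) (nat_lit 0) (nat_lit 0) (nat_lit 0) (nat_lit 0) (nat_lit 0) (nat_lit 0) (nat_lit 1) (nat_lit 0) (nat_lit 1) (nat_lit 0) (nat_lit 333) (nat_lit 421) (nat_lit 326))))) (XT.nd (nat_lit 188) (nat_lit 0) (nat_lit 0) (XT.nd (nat_lit 94) (nat_lit 0) (nat_lit 0) (XT.lf (nat_lit 0) (nat_lit 117494481809) (nat_lit 0) (nat_lit 0) (nat_lit 0) (nat_lit 0) (nat_lit 0) (nat_lit 0) (nat_lit 1) (nat_lit 0) (nat_lit 1) (nat_lit 0) (nat_lit 334) (nat_lit 421) (nat_lit 325)) (XT.lf (nat_lit 0) (nat_lit 117489102399) (nat_lit 0) (nat_lit 0) (nat_lit 0) (nat_lit 0) (nat_lit 0) (nat_lit 0) (nat_lit 1) (nat_lit 0) (nat_lit 1) (nat_lit 0) (nat_lit 335) (nat_lit 421) (nat_lit 324))) (XT.nd (nat_lit 94) (nat_lit 0) (nat_lit 0) (XT.lf (nat_lit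 0) (nat_lit 117484121464) (nat_lit 0) (nat_lit 0) (nat_lit 0) (nat_lit 0) (nat_lit 0) (nat_lit 0) (nat_lit 1) (nat_lit 0) (nat_lit 1) (nat_lit 0) (nat_lit 336) (nat_lit 421) (nat_lit 323)) (XT.nd (nat_lit 94) (nat_lit 0) (nat_lit 0) (XT.lf (nat_lit 0) (nat_lit 117479509487) (nat_lit 0) (nat_lit 0) (nat_lit 0) (nat_lit 0) (nat_lit 0) (nat_lit 0) (nat_lit 1) (nat_lit 0) (nat_lit 1) (nat_lit 0) (nat_lit 337) (nat_lit 421) (nat_lit 322)) (XT.lf (nat_lit 0) (nat_lit 117475239137) (nat_lit 0) (nat_lit 0) (nat_lit 0) (nat_lit 0) (nat_lit 0) (nat_lit 0) (nat_lit 1) (nat_lit 0) (nat_lit 1) (nat_lit 0) (nat_lit 338) (nat_lit 421) (nat_lit 321))))))) (XT.nd (nat_lit 846) (nat_lit 0) (nat_lit 0) (XT.nd (nat_lit 376) (nat_lit 0) (nat_lit 0) (XT.nd (nat_lit 188) (nat_lit 0) (nat_lit 0) (XT.nd (nat_lit 94) (nat_lit 0) (nat_lit 0) (XT.lf (nat_lit 0) (nat_lit 117471285110)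 (nat_lit 0) (nat_lit 0) (nat_lit 0) (nat_lit 0) (nat_lit 0) (nat_lit 0) (nat_lit 1) (nat_lit 0) (nat_lit 1) (nat_lit 0) (nat_lit 339) (nat_lit 421) (nat_lit 320)) (XT.lf (nat_lit 0) (nat_lit 117467623974) (nat_lit 0) (nat_lit 0) (nat_lit 0) (nat_lit 0) (nat_lit 0) (nat_lit 0) (nat_lit 1) (nat_lit 0) (nat_lit 1) (nat_lit 0) (nat_lit 340) (nat_lit 421) (nat_lit 319))) (XT.nd (nat_lit 94) (nat_lit 0) (nat_lit 0) (XT.lf (nat_lit 0) (nat_lit 117464234033) (nat_lit 0) (nat_lit 0) (nat_lit 0) (nat_lit 0) (nat_lit 0) (nat_lit 0) (nat_lit 1) (nat_lit 0) (nat_lit 1) (nat_lit 0) (nat_lit 341) (nat_lit 421) (nat_lit 318)) (XT.lf (nat_lit 0) (nat_lit 117461095199) (nat_lit 0) (nat_lit 0) (nat_lit 0) (nat_lit 0) (nat_lit 0) (nat_lit 0) (nat_lit 1) (nat_lit 0) (nat_lit 1) (nat_lit 0) (nat_lit 342) (nat_lit 421) (nat_lit 317)))) (XT.nd (nat_lit 188) (nat_lit 0) (nat_lit 0)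 (XT.nd (nat_lit 94) (nat_lit 0) (nat_lit 0) (XT.lf (nat_lit 0) (nat_lit 117458188871) (nat_lit 0) (nat_lit 0) (nat_lit 0) (nat_lit 0) (nat_lit 0) (nat_lit 0) (nat_lit 1) (nat_lit 0) (nat_lit 1) (nat_lit 0) (nat_lit 343) (nat_lit 421) (nat_lit 316)) (XT.lf (nat_lit 0) (nat_lit 117455497827) (nat_lit 0) (nat_lit 0) (nat_lit 0) (nat_lit 0) (nat_lit 0) (nat_lit 0) (nat_lit 1) (nat_lit 0) (nat_lit 1) (nat_lit 0) (nat_lit 344) (nat_lit 421) (nat_lit 315))) (XT.nd (nat_lit 94) (nat_lit 0) (nat_lit 0) (XT.lf (nat_lit 0) (nat_lit 117453006119) (nat_lit 0) (nat_lit 0) (nat_lit 0) (nat_lit 0) (nat_lit 0) (nat_lit 0) (nat_lit 1) (nat_lit 0) (nat_lit 1) (nat_lit 0) (nat_lit 345) (nat_lit 421) (nat_lit 314)) (XT.nd (nat_lit 94) (nat_lit 0) (nat_lit 0) (XT.lf (nat_lit 0) (nat_lit 117450698982) (nat_lit 0) (nat_lit 0) (nat_lit 0) (nat_lit 0) (nat_lit 0) (nat_lit 0) (nat_lit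 1) (nat_lit 0) (nat_lit 1) (nat_lit 0) (nat_lit 346) (nat_lit 421) (nat_lit 313)) (XT.lf (nat_lit 0) (nat_lit 117448562744) (nat_lit 0) (nat_lit 0) (nat_lit 0) (nat_lit 0) (nat_lit 0) (nat_lit 0) (nat_lit 1) (nat_lit 0) (nat_lit 1) (nat_lit 0) (nat_lit 347) (nat_lit 421) (nat_lit 312)))))) (XT.nd (nat_lit 470) (nat_lit 0) (nat_lit 0) (XT.nd (nat_lit 188) (nat_lit 0) (nat_lit 0) (XT.nd (nat_lit 94) (nat_lit 0) (nat_lit 0) (XT.lf (nat_lit 0) (nat_lit 117446584746) (nat_lit 0) (nat_lit 0) (nat_lit 0) (nat_lit 0) (nat_lit 0) (nat_lit 0) (nat_lit 1) (nat_lit 0) (nat_lit 1) (nat_lit 0) (nat_lit 348) (nat_lit 421) (nat_lit 311)) (XT.lf (nat_lit 0) (nat_lit 117444753267) (nat_lit 0) (nat_lit 0) (nat_lit 0) (nat_lit 0) (nat_lit 0) (nat_lit 0) (nat_lit 1) (nat_lit 0) (nat_lit 1) (nat_lit 0) (nat_lit 349) (nat_lit 421) (nat_lit 310))) (XT.nd (nat_lit 94) (nat_lit 0)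 (nat_lit 0) (XT.lf (nat_lit 0) (nat_lit 117443057452) (nat_lit 0) (nat_lit 0) (nat_lit 0) (nat_lit 0) (nat_lit 0) (nat_lit 0) (nat_lit 1) (nat_lit 0) (nat_lit 1) (nat_lit 0) (nat_lit 350) (nat_lit 421) (nat_lit 309)) (XT.nd (nat_lit 94) (nat_lit 0) (nat_lit 0) (XT.lf (nat_lit 0) (nat_lit 117441487254) (nat_lit 0) (nat_lit 0) (nat_lit 0) (nat_lit 0) (nat_lit 0) (nat_lit 0) (nat_lit 1) (nat_lit 0) (nat_lit 1) (nat_lit 0) (nat_lit 351) (nat_lit 421) (nat_lit 308)) (XT.lf (nat_lit 0) (nat_lit 117440033366) (nat_lit 0) (nat_lit 0) (nat_lit 0) (nat_lit 0) (nat_lit 0) (nat_lit 0) (nat_lit 1) (nat_lit 0) (nat_lit 1) (nat_lit 0) (nat_lit 352) (nat_lit 421) (nat_lit 307))))) (XT.nd (nat_lit 188) (nat_lit 0) (nat_lit 0) (XT.nd (nat_lit 94) (nat_lit 0) (nat_lit 0) (XT.lf (nat_lit 0) (nat_lit 117438687174) (nat_lit 0) (nat_lit 0) (nat_lit 0) (nat_lit 0) (nat_lit 0) (nat_lit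 0) (nat_lit 1) (nat_lit 0) (nat_lit 1) (nat_lit 0) (nat_lit 353) (nat_lit 421) (nat_lit 306)) (XT.lf (nat_lit 0) (nat_lit 117437440700) (nat_lit 0) (nat_lit 0) (nat_lit 0) (nat_lit 0) (nat_lit 0) (nat_lit 0) (nat_lit 1) (nat_lit 0) (nat_lit 1) (nat_lit 0) (nat_lit 354) (nat_lit 421) (nat_lit 305))) (XT.nd (nat_lit 94) (nat_lit 0) (nat_lit 0) (XT.lf (nat_lit 0) (nat_lit 117436286557) (nat_lit 0) (nat_lit 0) (nat_lit 0) (nat_lit 0) (nat_lit 0) (nat_lit 0) (nat_lit 1) (nat_lit 0) (nat_lit 1) (nat_lit 0) (nat_lit 355) (nat_lit 421) (nat_lit 304)) (XT.nd (nat_lit 94) (nat_lit 0) (nat_lit 0) (XT.lf (nat_lit 0) (nat_lit 117435217906) (nat_lit 0) (nat_lit 0) (nat_lit 0) (nat_lit 0) (nat_lit 0) (nat_lit 0) (nat_lit 1) (nat_lit 0) (nat_lit 1) (nat_lit 0) (nat_lit 356) (nat_lit 421) (nat_lit 303)) (XT.lf (nat_lit 0) (nat_lit 117434228415) (nat_lit 0) (nat_lit 0) (nat_lit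 0) (nat_lit 0) (nat_lit 0) (nat_lit 0) (nat_lit 1) (nat_lit 0) (nat_lit 1) (nat_lit 0) (nat_lit 357) (nat_lit 421) (nat_lit 302))))))))
noncomputable def ec255 : XT := (XT.nd (nat_lit 1786) (nat_lit 0) (nat_lit 0) (XT.nd (nat_lit 846) (nat_lit 0) (nat_lit 0) (XT.nd (nat_lit 376) (nat_lit 0) (nat_lit 0) (XT.nd (nat_lit 188) (nat_lit 0) (nat_lit 0) (XT.nd (nat_lit 94) (nat_lit 0) (nat_lit 0) (XT.lf (nat_lit 0) (nat_lit 117433312219) (nat_lit 0) (nat_lit 0) (nat_lit 0) (nat_lit 0) (nat_lit 0) (nat_lit 0) (nat_lit 1) (nat_lit 0) (nat_lit 1) (nat_lit 0) (nat_lit 358) (nat_lit 421) (nat_lit 301)) (XT.lf (nat_lit 0) (nat_lit 117432463890) (nat_lit 0) (nat_lit 0) (nat_lit 0) (nat_lit 0) (nat_lit 0) (nat_lit 0) (nat_lit 1) (nat_lit 0) (nat_lit 1) (nat_lit 0) (nat_lit 359) (nat_lit 421) (nat_lit 300))) (XT.nd (nat_lit 94) (nat_lit 0) (nat_lit 0) (XT.lf (nat_lit 0) (nat_lit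 117431678400) (nat_lit 0) (nat_lit 0) (nat_lit 0) (nat_lit 0) (nat_lit 0) (nat_lit 0) (nat_lit 1) (nat_lit 0) (nat_lit 1) (nat_lit 0) (nat_lit 360) (nat_lit 421) (nat_lit 299)) (XT.lf (nat_lit 0) (nat_lit 117430951094) (nat_lit 0) (nat_lit 0) (nat_lit 0) (nat_lit 0) (nat_lit 0) (nat_lit 0) (nat_lit 1) (nat_lit 0) (nat_lit 1) (nat_lit 0) (nat_lit 361) (nat_lit 421) (nat_lit 298)))) (XT.nd (nat_lit 188) (nat_lit 0) (nat_lit 0) (XT.nd (nat_lit 94) (nat_lit 0) (nat_lit 0) (XT.lf (nat_lit 0) (nat_lit 117430277663) (nat_lit 0) (nat_lit 0) (nat_lit 0) (nat_lit 0) (nat_lit 0) (nat_lit 0) (nat_lit 1) (nat_lit 0) (nat_lit 1) (nat_lit 0) (nat_lit 362) (nat_lit 421) (nat_lit 297)) (XT.lf (nat_lit 0) (nat_lit 117429654115) (nat_lit 0) (nat_lit 0) (nat_lit 0) (nat_lit 0) (nat_lit 0) (nat_lit 0) (nat_lit 1) (nat_lit 0) (nat_lit 1) (nat_lit 0) (nat_lit 363) (nat_lit 421)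 (nat_lit 296))) (XT.nd (nat_lit 94) (nat_lit 0) (nat_lit 0) (XT.lf (nat_lit 0) (nat_lit 117429076756) (nat_lit 0) (nat_lit 0) (nat_lit 0) (nat_lit 0) (nat_lit 0) (nat_lit 0) (nat_lit 1) (nat_lit 0) (nat_lit 1) (nat_lit 0) (nat_lit 364) (nat_lit 421) (nat_lit 295)) (XT.nd (nat_lit 94) (nat_lit 0) (nat_lit 0) (XT.lf (nat_lit 0) (nat_lit 117428542165) (nat_lit 0) (nat_lit 0) (nat_lit 0) (nat_lit 0) (nat_lit 0) (nat_lit 0) (nat_lit 1) (nat_lit 0) (nat_lit 1) (nat_lit 0) (nat_lit 365) (nat_lit 421) (nat_lit 294)) (XT.lf (nat_lit 0) (nat_lit 117428047173) (nat_lit 0) (nat_lit 0) (nat_lit 0) (nat_lit 0) (nat_lit 0) (nat_lit 0) (nat_lit 1) (nat_lit 0) (nat_lit 1) (nat_lit 0) (nat_lit 366) (nat_lit 421) (nat_lit 293)))))) (XT.nd (nat_lit 470) (nat_lit 0) (nat_lit 0) (XT.nd (nat_lit 188) (nat_lit 0) (nat_lit 0) (XT.nd (nat_lit 94) (nat_lit 0) (nat_lit 0) (XT.lf (nat_lit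 0) (nat_lit 117427588847) (nat_lit 0) (nat_lit 0) (nat_lit 0) (nat_lit 0) (nat_lit 0) (nat_lit 0) (nat_lit 1) (nat_lit 0) (nat_lit 1) (nat_lit 0) (nat_lit 367) (nat_lit 421) (nat_lit 292)) (XT.lf (nat_lit 0) (nat_lit 117427164471) (nat_lit 0) (nat_lit 0) (nat_lit 0) (nat_lit 0) (nat_lit 0) (nat_lit 0) (nat_lit 1) (nat_lit 0) (nat_lit 1) (nat_lit 0) (nat_lit 368) (nat_lit 421) (nat_lit 291))) (XT.nd (nat_lit 94) (nat_lit 0) (nat_lit 0) (XT.lf (nat_lit 0) (nat_lit 117426771530) (nat_lit 0) (nat_lit 0) (nat_lit 0) (nat_lit 0) (nat_lit 0) (nat_lit 0) (nat_lit 1) (nat_lit 0) (nat_lit 1) (nat_lit 0) (nat_lit 369) (nat_lit 421) (nat_lit 290)) (XT.nd (nat_lit 94) (nat_lit 0) (nat_lit 0) (XT.lf (nat_lit 0) (nat_lit 117426407696) (nat_lit 0) (nat_lit 0) (nat_lit 0) (nat_lit 0) (nat_lit 0) (nat_lit 0) (nat_lit 1) (nat_lit 0) (nat_lit 1) (nat_lit 0) (nat_lit 370) (nat_lit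 421) (nat_lit 289)) (XT.lf (nat_lit 0) (nat_lit 117426070813) (nat_lit 0) (nat_lit 0) (nat_lit 0) (nat_lit 0) (nat_lit 0) (nat_lit 0) (nat_lit 1) (nat_lit 0) (nat_lit 1) (nat_lit 0) (nat_lit 371) (nat_lit 421) (nat_lit 288))))) (XT.nd (nat_lit 188) (nat_lit 0) (nat_lit 0) (XT.nd (nat_lit 94) (nat_lit 0) (nat_lit 0) (XT.lf (nat_lit 0) (nat_lit 117425758884) (nat_lit 0) (nat_lit 0) (nat_lit 0) (nat_lit 0) (nat_lit 0) (nat_lit 0) (nat_lit 1) (nat_lit 0) (nat_lit 1) (nat_lit 0) (nat_lit 372) (nat_lit 421) (nat_lit 287)) (XT.lf (nat_lit 0) (nat_lit 117425470061) (nat_lit 0) (nat_lit 0) (nat_lit 0) (nat_lit 0) (nat_lit 0) (nat_lit 0) (nat_lit 1) (nat_lit 0) (nat_lit 1) (nat_lit 0) (nat_lit 373) (nat_lit 421) (nat_lit 286))) (XT.nd (nat_lit 94) (nat_lit 0) (nat_lit 0) (XT.lf (nat_lit 0) (nat_lit 117425202632) (nat_lit 0) (nat_lit 0) (nat_lit 0) (nat_lit 0) (nat_lit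 0) (nat_lit 0) (nat_lit 1) (nat_lit 0) (nat_lit 1) (nat_lit 0) (nat_lit 374) (nat_lit 421) (nat_lit 285)) (XT.nd (nat_lit 94) (nat_lit 0) (nat_lit 0) (XT.lf (nat_lit 0) (nat_lit 117424955013) (nat_lit 0) (nat_lit 0) (nat_lit 0) (nat_lit 0) (nat_lit 0) (nat_lit 0) (nat_lit 1) (nat_lit 0) (nat_lit 1) (nat_lit 0) (nat_lit 375) (nat_lit 421) (nat_lit 284)) (XT.lf (nat_lit 0) (nat_lit 117424725736) (nat_lit 0) (nat_lit 0) (nat_lit 0) (nat_lit 0) (nat_lit 0) (nat_lit 0) (nat_lit 1) (nat_lit 0) (nat_lit 1) (nat_lit 0) (nat_lit 376) (nat_lit 421) (nat_lit 283))))))) (XT.nd (nat_lit 846) (nat_lit 0) (nat_lit 0) (XT.nd (nat_lit 376) (nat_lit 0) (nat_lit 0) (XT.nd (nat_lit 188) (nat_lit 0) (nat_lit 0) (XT.nd (nat_lit 94) (nat_lit 0) (nat_lit 0) (XT.lf (nat_lit 0) (nat_lit 117424513442) (nat_lit 0) (nat_lit 0) (nat_lit 0) (nat_lit 0) (nat_lit 0) (nat_lit 0) (nat_lit 1)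 (nat_lit 0) (nat_lit 1) (nat_lit 0) (nat_lit 377) (nat_lit 421) (nat_lit 282)) (XT.lf (nat_lit 0) (nat_lit 117424316874) (nat_lit 0) (nat_lit 0) (nat_lit 0) (nat_lit 0) (nat_lit 0) (nat_lit 0) (nat_lit 1) (nat_lit 0) (nat_lit 1) (nat_lit 0) (nat_lit 378) (nat_lit 421) (nat_lit 281))) (XT.nd (nat_lit 94) (nat_lit 0) (nat_lit 0) (XT.lf (nat_lit 0) (nat_lit 117424134866) (nat_lit 0) (nat_lit 0) (nat_lit 0) (nat_lit 0) (nat_lit 0) (nat_lit 0) (nat_lit 1) (nat_lit 0) (nat_lit 1) (nat_lit 0) (nat_lit 379) (nat_lit 421) (nat_lit 280)) (XT.lf (nat_lit 0) (nat_lit 117423966341) (nat_lit 0) (nat_lit 0) (nat_lit 0) (nat_lit 0) (nat_lit 0) (nat_lit 0) (nat_lit 1) (nat_lit 0) (nat_lit 1) (nat_lit 0) (nat_lit 380) (nat_lit 421) (nat_lit 279)))) (XT.nd (nat_lit 188) (nat_lit 0) (nat_lit 0) (XT.nd (nat_lit 94) (nat_lit 0) (nat_lit 0) (XT.lf (nat_lit 0) (nat_lit 117423810299)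 (nat_lit 0) (nat_lit 0) (nat_lit 0) (nat_lit 0) (nat_lit 0) (nat_lit 0) (nat_lit 1) (nat_lit 0) (nat_lit 1) (nat_lit 0) (nat_lit 381) (nat_lit 421) (nat_lit 278)) (XT.lf (nat_lit 0) (nat_lit 117423665815) (nat_lit 0) (nat_lit 0) (nat_lit 0) (nat_lit 0) (nat_lit 0) (nat_lit 0) (nat_lit 1) (nat_lit 0) (nat_lit 1) (nat_lit 0) (nat_lit 382) (nat_lit 421) (nat_lit 277))) (XT.nd (nat_lit 94) (nat_lit 0) (nat_lit 0) (XT.lf (nat_lit 0) (nat_lit 117423532034) (nat_lit 0) (nat_lit 0) (nat_lit 0) (nat_lit 0) (nat_lit 0) (nat_lit 0) (nat_lit 1) (nat_lit 0) (nat_lit 1) (nat_lit 0) (nat_lit 383) (nat_lit 421) (nat_lit 276)) (XT.nd (nat_lit 94) (nat_lit 0) (nat_lit 0) (XT.lf (nat_lit 0) (nat_lit 117423408163) (nat_lit 0) (nat_lit 0) (nat_lit 0) (nat_lit 0) (nat_lit 0) (nat_lit 0) (nat_lit 1) (nat_lit 0) (nat_lit 1) (nat_lit 0) (nat_lit 384) (nat_lit 421) (nat_lit 275)) (XT.lf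 (nat_lit 0) (nat_lit 117423293467) (nat_lit 0) (nat_lit 0) (nat_lit 0) (nat_lit 0) (nat_lit 0) (nat_lit 0) (nat_lit 1) (nat_lit 0) (nat_lit 1) (nat_lit 0) (nat_lit 385) (nat_lit 421) (nat_lit 274)))))) (XT.nd (nat_lit 470) (nat_lit 0) (nat_lit 0) (XT.nd (nat_lit 188) (nat_lit 0) (nat_lit 0) (XT.nd (nat_lit 94) (nat_lit 0) (nat_lit 0) (XT.lf (nat_lit 0) (nat_lit 117423187268) (nat_lit 0) (nat_lit 0) (nat_lit 0) (nat_lit 0) (nat_lit 0) (nat_lit 0) (nat_lit 1) (nat_lit 0) (nat_lit 1) (nat_lit 0) (nat_lit 386) (nat_lit 421) (nat_lit 273)) (XT.lf (nat_lit 0) (nat_lit 117423088935) (nat_lit 0) (nat_lit 0) (nat_lit 0) (nat_lit 0) (nat_lit 0) (nat_lit 0) (nat_lit 1) (nat_lit 0) (nat_lit 1) (nat_lit 0) (nat_lit 387) (nat_lit 421) (nat_lit 272))) (XT.nd (nat_lit 94) (nat_lit 0) (nat_lit 0) (XT.lf (nat_lit 0) (nat_lit 117422997886) (nat_lit 0) (nat_lit 0) (nat_lit 0)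 (nat_lit 0) (nat_lit 0) (nat_lit 0) (nat_lit 1) (nat_lit 0) (nat_lit 1) (nat_lit 0) (nat_lit 388) (nat_lit 421) (nat_lit 271)) (XT.nd (nat_lit 94) (nat_lit 0) (nat_lit 0) (XT.lf (nat_lit 0) (nat_lit 117422913581) (nat_lit 0) (nat_lit 0) (nat_lit 0) (nat_lit 0) (nat_lit 0) (nat_lit 0) (nat_lit 1) (nat_lit 0) (nat_lit 1) (nat_lit 0) (nat_lit 389) (nat_lit 421) (nat_lit 270)) (XT.lf (nat_lit 0) (nat_lit 117422835521) (nat_lit 0) (nat_lit 0) (nat_lit 0) (nat_lit 0) (nat_lit 0) (nat_lit 0) (nat_lit 1) (nat_lit 0) (nat_lit 1) (nat_lit 0) (nat_lit 390) (nat_lit 421) (nat_lit 269))))) (XT.nd (nat_lit 188) (nat_lit 0) (nat_lit 0) (XT.nd (nat_lit 94) (nat_lit 0) (nat_lit 0) (XT.lf (nat_lit 0) (nat_lit 117422763243) (nat_lit 0) (nat_lit 0) (nat_lit 0) (nat_lit 0) (nat_lit 0) (nat_lit 0) (nat_lit 1) (nat_lit 0) (nat_lit 1) (nat_lit 0) (nat_lit 391) (nat_lit 421) (nat_lit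 268)) (XT.lf (nat_lit 0) (nat_lit 117422696320) (nat_lit 0) (nat_lit 0) (nat_lit 0) (nat_lit 0) (nat_lit 0) (nat_lit 0) (nat_lit 1) (nat_lit 0) (nat_lit 1) (nat_lit 0) (nat_lit 392) (nat_lit 421) (nat_lit 267))) (XT.nd (nat_lit 94) (nat_lit 0) (nat_lit 0) (XT.lf (nat_lit 0) (nat_lit 117422634353) (nat_lit 0) (nat_lit 0) (nat_lit 0) (nat_lit 0) (nat_lit 0) (nat_lit 0) (nat_lit 1) (nat_lit 0) (nat_lit 1) (nat_lit 0) (nat_lit 393) (nat_lit 421) (nat_lit 266)) (XT.nd (nat_lit 94) (nat_lit 0) (nat_lit 0) (XT.lf (nat_lit 0) (nat_lit 117422576977) (nat_lit 0) (nat_lit 0) (nat_lit 0) (nat_lit 0) (nat_lit 0) (nat_lit 0) (nat_lit 1) (nat_lit 0) (nat_lit 1) (nat_lit 0) (nat_lit 394) (nat_lit 421) (nat_lit 265)) (XT.lf (nat_lit 0) (nat_lit 117422523850) (nat_lit 0) (nat_lit 0) (nat_lit 0) (nat_lit 0) (nat_lit 0) (nat_lit 0) (nat_lit 1) (nat_lit 0) (nat_lit 1) (nat_lit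 0) (nat_lit 395) (nat_lit 421) (nat_lit 264))))))))
noncomputable def ec256 : XT := (XT.nd (nat_lit 1692) (nat_lit 0) (nat_lit 0) (XT.nd (nat_lit 846) (nat_lit 0) (nat_lit 0) (XT.nd (nat_lit 376) (nat_lit 0) (nat_lit 0) (XT.nd (nat_lit 188) (nat_lit 0) (nat_lit 0) (XT.nd (nat_lit 94) (nat_lit 0) (nat_lit 0) (XT.lf (nat_lit 0) (nat_lit 117422474659) (nat_lit 0) (nat_lit 0) (nat_lit 0) (nat_lit 0) (nat_lit 0) (nat_lit 0) (nat_lit 1) (nat_lit 0) (nat_lit 1) (nat_lit 0) (nat_lit 396) (nat_lit 421) (nat_lit 263)) (XT.lf (nat_lit 0) (nat_lit 117422429112) (nat_lit 0) (nat_lit 0) (nat_lit 0) (nat_lit 0) (nat_lit 0) (nat_lit 0) (nat_lit 1) (nat_lit 0) (nat_lit 1) (nat_lit 0) (nat_lit 397) (nat_lit 421) (nat_lit 262))) (XT.nd (nat_lit 94) (nat_lit 0) (nat_lit 0) (XT.lf (nat_lit 0) (nat_lit 117422386939) (nat_lit 0) (nat_lit 0) (nat_lit 0) (nat_lit 0) (nat_lit 0) (nat_lit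 0) (nat_lit 1) (nat_lit 0) (nat_lit 1) (nat_lit 0) (nat_lit 398) (nat_lit 421) (nat_lit 261)) (XT.lf (nat_lit 0) (nat_lit 117422347889) (nat_lit 0) (nat_lit 0) (nat_lit 0) (nat_lit 0) (nat_lit 0) (nat_lit 0) (nat_lit 1) (nat_lit 0) (nat_lit 1) (nat_lit 0) (nat_lit 399) (nat_lit 421) (nat_lit 260)))) (XT.nd (nat_lit 188) (nat_lit 0) (nat_lit 0) (XT.nd (nat_lit 94) (nat_lit 0) (nat_lit 0) (XT.lf (nat_lit 0) (nat_lit 117422311733) (nat_lit 0) (nat_lit 0) (nat_lit 0) (nat_lit 0) (nat_lit 0) (nat_lit 0) (nat_lit 1) (nat_lit 0) (nat_lit 1) (nat_lit 0) (nat_lit 400) (nat_lit 421) (nat_lit 259)) (XT.lf (nat_lit 0) (nat_lit 117422278254) (nat_lit 0) (nat_lit 0) (nat_lit 0) (nat_lit 0) (nat_lit 0) (nat_lit 0) (nat_lit 1) (nat_lit 0) (nat_lit 1) (nat_lit 0) (nat_lit 401) (nat_lit 421) (nat_lit 258))) (XT.nd (nat_lit 94) (nat_lit 0) (nat_lit 0) (XT.lf (nat_lit 0) (nat_lit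 117422247255) (nat_lit 0) (nat_lit 0) (nat_lit 0) (nat_lit 0) (nat_lit 0) (nat_lit 0) (nat_lit 1) (nat_lit 0) (nat_lit 1) (nat_lit 0) (nat_lit 402) (nat_lit 421) (nat_lit 257)) (XT.nd (nat_lit 94) (nat_lit 0) (nat_lit 0) (XT.lf (nat_lit 0) (nat_lit 117422218553) (nat_lit 0) (nat_lit 0) (nat_lit 0) (nat_lit 0) (nat_lit 0) (nat_lit 0) (nat_lit 1) (nat_lit 0) (nat_lit 1) (nat_lit 0) (nat_lit 403) (nat_lit 421) (nat_lit 256)) (XT.lf (nat_lit 0) (nat_lit 117422191977) (nat_lit 0) (nat_lit 0) (nat_lit 0) (nat_lit 0) (nat_lit 0) (nat_lit 0) (nat_lit 1) (nat_lit 0) (nat_lit 1) (nat_lit 0) (nat_lit 404) (nat_lit 421) (nat_lit 255)))))) (XT.nd (nat_lit 376) (nat_lit 0) (nat_lit 0) (XT.nd (nat_lit 188) (nat_lit 0) (nat_lit 0) (XT.nd (nat_lit 94) (nat_lit 0) (nat_lit 0) (XT.lf (nat_lit 0) (nat_lit 117422167369) (nat_lit 0) (nat_lit 0) (nat_lit 0) (nat_lit 0) (nat_lit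 0) (nat_lit 0) (nat_lit 1) (nat_lit 0) (nat_lit 1) (nat_lit 0) (nat_lit 405) (nat_lit 421) (nat_lit 254)) (XT.lf (nat_lit 0) (nat_lit 117422144584) (nat_lit 0) (nat_lit 0) (nat_lit 0) (nat_lit 0) (nat_lit 0) (nat_lit 0) (nat_lit 1) (nat_lit 0) (nat_lit 1) (nat_lit 0) (nat_lit 406) (nat_lit 421) (nat_lit 253))) (XT.nd (nat_lit 94) (nat_lit 0) (nat_lit 0) (XT.lf (nat_lit 0) (nat_lit 117422123487) (nat_lit 0) (nat_lit 0) (nat_lit 0) (nat_lit 0) (nat_lit 0) (nat_lit 0) (nat_lit 1) (nat_lit 0) (nat_lit 1) (nat_lit 0) (nat_lit 407) (nat_lit 421) (nat_lit 252)) (XT.lf (nat_lit 0) (nat_lit 117422103952) (nat_lit 0) (nat_lit 0) (nat_lit 0) (nat_lit 0) (nat_lit 0) (nat_lit 0) (nat_lit 1) (nat_lit 0) (nat_lit 1) (nat_lit 0) (nat_lit 408) (nat_lit 421) (nat_lit 251)))) (XT.nd (nat_lit 188) (nat_lit 0) (nat_lit 0) (XT.nd (nat_lit 94) (nat_lit 0) (nat_lit 0) (XT.lf (nat_lit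 0) (nat_lit 117422085865) (nat_lit 0) (nat_lit 0) (nat_lit 0) (nat_lit 0) (nat_lit 0) (nat_lit 0) (nat_lit 1) (nat_lit 0) (nat_lit 1) (nat_lit 0) (nat_lit 409) (nat_lit 421) (nat_lit 250)) (XT.lf (nat_lit 0) (nat_lit 117422069117) (nat_lit 0) (nat_lit 0) (nat_lit 0) (nat_lit 0) (nat_lit 0) (nat_lit 0) (nat_lit 1) (nat_lit 0) (nat_lit 1) (nat_lit 0) (nat_lit 410) (nat_lit 421) (nat_lit 249))) (XT.nd (nat_lit 94) (nat_lit 0) (nat_lit 0) (XT.lf (nat_lit 0) (nat_lit 117422053610) (nat_lit 0) (nat_lit 0) (nat_lit 0) (nat_lit 0) (nat_lit 0) (nat_lit 0) (nat_lit 1) (nat_lit 0) (nat_lit 1) (nat_lit 0) (nat_lit 411) (nat_lit 421) (nat_lit 248)) (XT.nd (nat_lit 94) (nat_lit 0) (nat_lit 0) (XT.lf (nat_lit 0) (nat_lit 117422039252) (nat_lit 0) (nat_lit 0) (nat_lit 0) (nat_lit 0) (nat_lit 0) (nat_lit 0) (nat_lit 1) (nat_lit 0) (nat_lit 1) (nat_lit 0) (nat_lit 412) (nat_lit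 421) (nat_lit 247)) (XT.lf (nat_lit 0) (nat_lit 117422025957) (nat_lit 0) (nat_lit 0) (nat_lit 0) (nat_lit 0) (nat_lit 0) (nat_lit 0) (nat_lit 1) (nat_lit 0) (nat_lit 1) (nat_lit 0) (nat_lit 413) (nat_lit 421) (nat_lit 246))))))) (XT.nd (nat_lit 846) (nat_lit 0) (nat_lit 0) (XT.nd (nat_lit 376) (nat_lit 0) (nat_lit 0) (XT.nd (nat_lit 188) (nat_lit 0) (nat_lit 0) (XT.nd (nat_lit 94) (nat_lit 0) (nat_lit 0) (XT.lf (nat_lit 0) (nat_lit 117422013647) (nat_lit 0) (nat_lit 0) (nat_lit 0) (nat_lit 0) (nat_lit 0) (nat_lit 0) (nat_lit 1) (nat_lit 0) (nat_lit 1) (nat_lit 0) (nat_lit 414) (nat_lit 421) (nat_lit 245)) (XT.lf (nat_lit 0) (nat_lit 117422002249) (nat_lit 0) (nat_lit 0) (nat_lit 0) (nat_lit 0) (nat_lit 0) (nat_lit 0) (nat_lit 1) (nat_lit 0) (nat_lit 1) (nat_lit 0) (nat_lit 415) (nat_lit 421) (nat_lit 244))) (XT.nd (nat_lit 94) (nat_lit 0) (nat_lit 0) (XT.lf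 (nat_lit 0) (nat_lit 117421991695) (nat_lit 0) (nat_lit 0) (nat_lit 0) (nat_lit 0) (nat_lit 0) (nat_lit 0) (nat_lit 1) (nat_lit 0) (nat_lit 1) (nat_lit 0) (nat_lit 416) (nat_lit 421) (nat_lit 243)) (XT.lf (nat_lit 0) (nat_lit 117421981923) (nat_lit 0) (nat_lit 0) (nat_lit 0) (nat_lit 0) (nat_lit 0) (nat_lit 0) (nat_lit 1) (nat_lit 0) (nat_lit 1) (nat_lit 0) (nat_lit 417) (nat_lit 421) (nat_lit 242)))) (XT.nd (nat_lit 188) (nat_lit 0) (nat_lit 0) (XT.nd (nat_lit 94) (nat_lit 0) (nat_lit 0) (XT.lf (nat_lit 0) (nat_lit 117421972875) (nat_lit 0) (nat_lit 0) (nat_lit 0) (nat_lit 0) (nat_lit 0) (nat_lit 0) (nat_lit 1) (nat_lit 0) (nat_lit 1) (nat_lit 0) (nat_lit 418) (nat_lit 421) (nat_lit 241)) (XT.lf (nat_lit 0) (nat_lit 117421964497) (nat_lit 0) (nat_lit 0) (nat_lit 0) (nat_lit 0) (nat_lit 0) (nat_lit 0) (nat_lit 1) (nat_lit 0) (nat_lit 1) (nat_lit 0) (nat_lit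 419) (nat_lit 421) (nat_lit 240))) (XT.nd (nat_lit 94) (nat_lit 0) (nat_lit 0) (XT.lf (nat_lit 0) (nat_lit 117421956739) (nat_lit 0) (nat_lit 0) (nat_lit 0) (nat_lit 0) (nat_lit 0) (nat_lit 0) (nat_lit 1) (nat_lit 0) (nat_lit 1) (nat_lit 0) (nat_lit 420) (nat_lit 421) (nat_lit 239)) (XT.nd (nat_lit 94) (nat_lit 0) (nat_lit 0) (XT.lf (nat_lit 0) (nat_lit 117421949557) (nat_lit 0) (nat_lit 0) (nat_lit 0) (nat_lit 0) (nat_lit 0) (nat_lit 0) (nat_lit 1) (nat_lit 0) (nat_lit 1) (nat_lit 0) (nat_lit 421) (nat_lit 421) (nat_lit 238)) (XT.lf (nat_lit 0) (nat_lit 117421942906) (nat_lit 0) (nat_lit 0) (nat_lit 0) (nat_lit 0) (nat_lit 0) (nat_lit 0) (nat_lit 1) (nat_lit 0) (nat_lit 1) (nat_lit 0) (nat_lit 422) (nat_lit 421) (nat_lit 237)))))) (XT.nd (nat_lit 470) (nat_lit 0) (nat_lit 0) (XT.nd (nat_lit 188) (nat_lit 0) (nat_lit 0) (XT.nd (nat_lit 94) (nat_lit 0) (nat_lit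 0) (XT.lf (nat_lit 0) (nat_lit 117421936748) (nat_lit 0) (nat_lit 0) (nat_lit 0) (nat_lit 0) (nat_lit 0) (nat_lit 0) (nat_lit 1) (nat_lit 0) (nat_lit 1) (nat_lit 0) (nat_lit 423) (nat_lit 421) (nat_lit 236)) (XT.lf (nat_lit 0) (nat_lit 117421931046) (nat_lit 0) (nat_lit 0) (nat_lit 0) (nat_lit 0) (nat_lit 0) (nat_lit 0) (nat_lit 1) (nat_lit 0) (nat_lit 1) (nat_lit 0) (nat_lit 424) (nat_lit 421) (nat_lit 235))) (XT.nd (nat_lit 94) (nat_lit 0) (nat_lit 0) (XT.lf (nat_lit 0) (nat_lit 117421925766) (nat_lit 0) (nat_lit 0) (nat_lit 0) (nat_lit 0) (nat_lit 0) (nat_lit 0) (nat_lit 1) (nat_lit 0) (nat_lit 1) (nat_lit 0) (nat_lit 425) (nat_lit 421) (nat_lit 234)) (XT.nd (nat_lit 94) (nat_lit 0) (nat_lit 0) (XT.lf (nat_lit 0) (nat_lit 117421920878) (nat_lit 0) (nat_lit 0) (nat_lit 0) (nat_lit 0) (nat_lit 0) (nat_lit 0) (nat_lit 1) (nat_lit 0) (nat_lit 1) (nat_lit 0)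 (nat_lit 426) (nat_lit 421) (nat_lit 233)) (XT.lf (nat_lit 0) (nat_lit 117421916352) (nat_lit 0) (nat_lit 0) (nat_lit 0) (nat_lit 0) (nat_lit 0) (nat_lit 0) (nat_lit 1) (nat_lit 0) (nat_lit 1) (nat_lit 0) (nat_lit 427) (nat_lit 421) (nat_lit 232))))) (XT.nd (nat_lit 188) (nat_lit 0) (nat_lit 0) (XT.nd (nat_lit 94) (nat_lit 0) (nat_lit 0) (XT.lf (nat_lit 0) (nat_lit 117421912160) (nat_lit 0) (nat_lit 0) (nat_lit 0) (nat_lit 0) (nat_lit 0) (nat_lit 0) (nat_lit 1) (nat_lit 0) (nat_lit 1) (nat_lit 0) (nat_lit 428) (nat_lit 421) (nat_lit 231)) (XT.lf (nat_lit 0) (nat_lit 117421908280) (nat_lit 0) (nat_lit 0) (nat_lit 0) (nat_lit 0) (nat_lit 0) (nat_lit 0) (nat_lit 1) (nat_lit 0) (nat_lit 1) (nat_lit 0) (nat_lit 429) (nat_lit 421) (nat_lit 230))) (XT.nd (nat_lit 94) (nat_lit 0) (nat_lit 0) (XT.lf (nat_lit 0) (nat_lit 117421904687) (nat_lit 0) (nat_lit 0) (nat_lit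 0) (nat_lit 0) (nat_lit 0) (nat_lit 0) (nat_lit 1) (nat_lit 0) (nat_lit 1) (nat_lit 0) (nat_lit 430) (nat_lit 421) (nat_lit 229)) (XT.nd (nat_lit 94) (nat_lit 0) (nat_lit 0) (XT.lf (nat_lit 0) (nat_lit 117421901360) (nat_lit 0) (nat_lit 0) (nat_lit 0) (nat_lit 0) (nat_lit 0) (nat_lit 0) (nat_lit 1) (nat_lit 0) (nat_lit 1) (nat_lit 0) (nat_lit 431) (nat_lit 421) (nat_lit 228)) (XT.lf (nat_lit 0) (nat_lit 117421898279) (nat_lit 0) (nat_lit 0) (nat_lit 0) (nat_lit 0) (nat_lit 0) (nat_lit 0) (nat_lit 1) (nat_lit 0) (nat_lit 1) (nat_lit 0) (nat_lit 432) (nat_lit 421) (nat_lit 227))))))))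
noncomputable def ec257 : XT := (XT.nd (nat_lit 50008) (nat_lit 0) (nat_lit 4620) (XT.nd (nat_lit 846) (nat_lit 0) (nat_lit 0) (XT.nd (nat_lit 376) (nat_lit 0) (nat_lit 0) (XT.nd (nat_lit 188) (nat_lit 0) (nat_lit 0) (XT.nd (nat_lit 94) (nat_lit 0) (nat_lit 0) (XT.lf (nat_lit 0) (nat_lit 117421895427) (nat_lit 0) (nat_lit 0) (nat_lit 0) (nat_lit 0) (nat_lit 0) (nat_lit 0) (nat_lit 1) (nat_lit 0) (nat_lit 1) (nat_lit 0) (nat_lit 433) (nat_lit 421) (nat_lit 226)) (XT.lf (nat_lit 0) (nat_lit 117421892786) (nat_lit 0) (nat_lit 0) (nat_lit 0) (nat_lit 0) (nat_lit 0) (nat_lit 0) (nat_lit 1) (nat_lit 0) (nat_lit 1) (nat_lit 0) (nat_lit 434) (nat_lit 421) (nat_lit 225))) (XT.nd (nat_lit 94) (nat_lit 0) (nat_lit 0) (XT.lf (nat_lit 0) (nat_lit 117421890340) (nat_lit 0) (nat_lit 0) (nat_lit 0) (nat_lit 0) (nat_lit 0) (nat_lit 0) (nat_lit 1) (nat_lit 0) (nat_lit 1) (nat_lit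 0) (nat_lit 435) (nat_lit 421) (nat_lit 224)) (XT.lf (nat_lit 0) (nat_lit 117421888076) (nat_lit 0) (nat_lit 0) (nat_lit 0) (nat_lit 0) (nat_lit 0) (nat_lit 0) (nat_lit 1) (nat_lit 0) (nat_lit 1) (nat_lit 0) (nat_lit 436) (nat_lit 421) (nat_lit 223)))) (XT.nd (nat_lit 188) (nat_lit 0) (nat_lit 0) (XT.nd (nat_lit 94) (nat_lit 0) (nat_lit 0) (XT.lf (nat_lit 0) (nat_lit 117421885979) (nat_lit 0) (nat_lit 0) (nat_lit 0) (nat_lit 0) (nat_lit 0) (nat_lit 0) (nat_lit 1) (nat_lit 0) (nat_lit 1) (nat_lit 0) (nat_lit 437) (nat_lit 421) (nat_lit 222)) (XT.lf (nat_lit 0) (nat_lit 117421884038) (nat_lit 0) (nat_lit 0) (nat_lit 0) (nat_lit 0) (nat_lit 0) (nat_lit 0) (nat_lit 1) (nat_lit 0) (nat_lit 1) (nat_lit 0) (nat_lit 438) (nat_lit 421) (nat_lit 221))) (XT.nd (nat_lit 94) (nat_lit 0) (nat_lit 0) (XT.lf (nat_lit 0) (nat_lit 117421882241) (nat_lit 0) (nat_lit 0) (nat_lit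 0) (nat_lit 0) (nat_lit 0) (nat_lit 0) (nat_lit 1) (nat_lit 0) (nat_lit 1) (nat_lit 0) (nat_lit 439) (nat_lit 421) (nat_lit 220)) (XT.nd (nat_lit 94) (nat_lit 0) (nat_lit 0) (XT.lf (nat_lit 0) (nat_lit 117421880576) (nat_lit 0) (nat_lit 0) (nat_lit 0) (nat_lit 0) (nat_lit 0) (nat_lit 0) (nat_lit 1) (nat_lit 0) (nat_lit 1) (nat_lit 0) (nat_lit 440) (nat_lit 421) (nat_lit 219)) (XT.lf (nat_lit 0) (nat_lit 117421879035) (nat_lit 0) (nat_lit 0) (nat_lit 0) (nat_lit 0) (nat_lit 0) (nat_lit 0) (nat_lit 1) (nat_lit 0) (nat_lit 1) (nat_lit 0) (nat_lit 441) (nat_lit 421) (nat_lit 218)))))) (XT.nd (nat_lit 48692) (nat_lit 0) (nat_lit 10332) (XT.nd (nat_lit 48410) (nat_lit 0) (nat_lit 10752) (XT.nd (nat_lit 94) (nat_lit 0) (nat_lit 0) (XT.lf (nat_lit 0) (nat_lit 117421877608) (nat_lit 0) (nat_lit 0) (nat_lit 0) (nat_lit 0) (nat_lit 0) (nat_lit 0) (nat_lit 1) (nat_lit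 0) (nat_lit 1) (nat_lit 0) (nat_lit 442) (nat_lit 421) (nat_lit 217)) (XT.lf (nat_lit 0) (nat_lit 117421876287) (nat_lit 0) (nat_lit 0) (nat_lit 0) (nat_lit 0) (nat_lit 0) (nat_lit 0) (nat_lit 1) (nat_lit 0) (nat_lit 1) (nat_lit 0) (nat_lit 443) (nat_lit 421) (nat_lit 216))) (XT.nd (nat_lit 94) (nat_lit 0) (nat_lit 84) (XT.lf (nat_lit 924) (nat_lit 63463280729) (nat_lit 0) (nat_lit 112678909058) (nat_lit 924) (nat_lit 63463280729) (nat_lit 139) (nat_lit 1) (nat_lit 128) (nat_lit 0) (nat_lit 139) (nat_lit 0) (nat_lit 236) (nat_lit 422) (nat_lit 422)) (XT.nd (nat_lit 94) (nat_lit 0) (nat_lit 0) (XT.lf (nat_lit 924) (nat_lit 23673751027) (nat_lit 0) (nat_lit 221222848784) (nat_lit 840) (nat_lit 216355207022) (nat_lit 140) (nat_lit 1) (nat_lit 129) (nat_lit 1) (nat_lit 139) (nat_lit 1) (nat_lit 237) (nat_lit 422) (nat_lit 421)) (XT.lf (nat_lit 924) (nat_lit 217429738504)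 (nat_lit 84) (nat_lit 148153016400) (nat_lit 0) (nat_lit 78573601735) (nat_lit 140) (nat_lit 1) (nat_lit 130) (nat_lit 1) (nat_lit 129) (nat_lit 1) (nat_lit 238) (nat_lit 422) (nat_lit 420))))) (XT.nd (nat_lit 188) (nat_lit 588) (nat_lit 0) (XT.nd (nat_lit 94) (nat_lit 0) (nat_lit 84) (XT.lf (nat_lit 924) (nat_lit 187877106168) (nat_lit 84) (nat_lit 62089902273) (nat_lit 0) (nat_lit 177949397693) (nat_lit 141) (nat_lit 1) (nat_lit 131) (nat_lit 1) (nat_lit 130) (nat_lit 1) (nat_lit 239) (nat_lit 422) (nat_lit 419)) (XT.lf (nat_lit 924) (nat_lit 139045031321) (nat_lit 0) (nat_lit 260146681228) (nat_lit 840) (nat_lit 13298661177) (nat_lit 142) (nat_lit 1) (nat_lit 131) (nat_lit 1) (nat_lit 141) (nat_lit 1) (nat_lit 240) (nat_lit 422) (nat_lit 418))) (XT.nd (nat_lit 94) (nat_lit 756) (nat_lit 0) (XT.lf (nat_lit 924) (nat_lit 33362491966) (nat_lit 0) (nat_lit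 286883987605) (nat_lit 840) (nat_lit 77554562775) (nat_lit 143) (nat_lit 1) (nat_lit 132) (nat_lit 1) (nat_lit 142) (nat_lit 1) (nat_lit 241) (nat_lit 422) (nat_lit 417)) (XT.nd (nat_lit 94) (nat_lit 756) (nat_lit 0) (XT.lf (nat_lit 924) (nat_lit 64109139885) (nat_lit 84) (nat_lit 249325547194) (nat_lit 0) (nat_lit 70362745511) (nat_lit 143) (nat_lit 1) (nat_lit 133) (nat_lit 1) (nat_lit 132) (nat_lit 1) (nat_lit 242) (nat_lit 422) (nat_lit 416)) (XT.lf (nat_lit 924) (nat_lit 13166555448) (nat_lit 0) (nat_lit 186387338779) (nat_lit 840) (nat_lit 170915236724) (nat_lit 134) (nat_lit 1) (nat_lit 123) (nat_lit 1) (nat_lit 133) (nat_lit 1) (nat_lit 243) (nat_lit 422) (nat_lit 415))))))) (XT.nd (nat_lit 846) (nat_lit 2604) (nat_lit 0) (XT.nd (nat_lit 376) (nat_lit 1344) (nat_lit 0) (XT.nd (nat_lit 188) (nat_lit 756) (nat_lit 0) (XT.nd (nat_lit 94) (nat_lit 420)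 (nat_lit 0) (XT.lf (nat_lit 84) (nat_lit 91167972624) (nat_lit 0) (nat_lit 39507325152) (nat_lit 588) (nat_lit 227096613747) (nat_lit 117) (nat_lit 1) (nat_lit 116) (nat_lit 1) (nat_lit 123) (nat_lit 1) (nat_lit 244) (nat_lit 422) (nat_lit 414)) (XT.lf (nat_lit 504) (nat_lit 251247457532) (nat_lit 0) (nat_lit 81786463884) (nat_lit 420) (nat_lit 12644692667) (nat_lit 117) (nat_lit 1) (nat_lit 111) (nat_lit 1) (nat_lit 116) (nat_lit 1) (nat_lit 245) (nat_lit 422) (nat_lit 413))) (XT.nd (nat_lit 94) (nat_lit 336) (nat_lit 0) (XT.lf (nat_lit 504) (nat_lit 181302557914) (nat_lit 0) (nat_lit 38121023123) (nat_lit 420) (nat_lit 114681725771) (nat_lit 112) (nat_lit 1) (nat_lit 106) (nat_lit 1) (nat_lit 111) (nat_lit 1) (nat_lit 246) (nat_lit 422) (nat_lit 412)) (XT.lf (nat_lit 420) (nat_lit 110320294169) (nat_lit 0) (nat_lit 701869985) (nat_lit 336) (nat_lit 212070999886)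 (nat_lit 107) (nat_lit 1) (nat_lit 102) (nat_lit 1) (nat_lit 106) (nat_lit 1) (nat_lit 247) (nat_lit 422) (nat_lit 411)))) (XT.nd (nat_lit 188) (nat_lit 924) (nat_lit 0) (XT.nd (nat_lit 94) (nat_lit 420) (nat_lit 0) (XT.lf (nat_lit 84) (nat_lit 8138909931) (nat_lit 0) (nat_lit 274483480657) (nat_lit 420) (nat_lit 29965208913) (nat_lit 103) (nat_lit 1) (nat_lit 102) (nat_lit 1) (nat_lit 107) (nat_lit 1) (nat_lit 248) (nat_lit 422) (nat_lit 410)) (XT.lf (nat_lit 84) (nat_lit 210148765419) (nat_lit 0) (nat_lit 34855421322) (nat_lit 420) (nat_lit 57482919986) (nat_lit 98) (nat_lit 1) (nat_lit 97) (nat_lit 1) (nat_lit 102) (nat_lit 1) (nat_lit 249) (nat_lit 422) (nat_lit 409))) (XT.nd (nat_lit 94) (nat_lit 588) (nat_lit 0) (XT.lf (nat_lit 84) (nat_lit 105142752645) (nat_lit 0) (nat_lit 106768342915) (nat_lit 420) (nat_lit 80921809664) (nat_lit 94) (nat_lit 1) (nat_lit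 93) (nat_lit 1) (nat_lit 98) (nat_lit 1) (nat_lit 250) (nat_lit 422) (nat_lit 408)) (XT.nd (nat_lit 94) (nat_lit 252) (nat_lit 0) (XT.lf (nat_lit 84) (nat_lit 5189613120) (nat_lit 0) (nat_lit 178515011477) (nat_lit 420) (nat_lit 99931173657) (nat_lit 90) (nat_lit 1) (nat_lit 89) (nat_lit 1) (nat_lit 94) (nat_lit 1) (nat_lit 251) (nat_lit 422) (nat_lit 407)) (XT.lf (nat_lit 336) (nat_lit 23436000367) (nat_lit 0) (nat_lit 158486452389) (nat_lit 252) (nat_lit 92876703516) (nat_lit 90) (nat_lit 1) (nat_lit 86) (nat_lit 1) (nat_lit 89) (nat_lit 1) (nat_lit 252) (nat_lit 422) (nat_lit 406)))))) (XT.nd (nat_lit 470) (nat_lit 1092) (nat_lit 0) (XT.nd (nat_lit 188) (nat_lit 840) (nat_lit 0) (XT.nd (nat_lit 94) (nat_lit 252) (nat_lit 0) (XT.lf (nat_lit 84) (nat_lit 80977682266) (nat_lit 0) (nat_lit 55502606598) (nat_lit 420) (nat_lit 129847283127) (nat_lit 82) (nat_lit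 1) (nat_lit 81) (nat_lit 1) (nat_lit 86) (nat_lit 1) (nat_lit 253) (nat_lit 422) (nat_lit 405)) (XT.lf (nat_lit 336) (nat_lit 125372929806) (nat_lit 0) (nat_lit 117771663483) (nat_lit 252) (nat_lit 15074633151) (nat_lit 82) (nat_lit 1) (nat_lit 78) (nat_lit 1) (nat_lit 81) (nat_lit 1) (nat_lit 254) (nat_lit 422) (nat_lit 404))) (XT.nd (nat_lit 94) (nat_lit 588) (nat_lit 0) (XT.lf (nat_lit 336) (nat_lit 40181418318) (nat_lit 0) (nat_lit 101396579556) (nat_lit 252) (nat_lit 108844488998) (nat_lit 79) (nat_lit 1) (nat_lit 75) (nat_lit 1) (nat_lit 78) (nat_lit 1) (nat_lit 255) (nat_lit 422) (nat_lit 403)) (XT.nd (nat_lit 94) (nat_lit 252) (nat_lit 0) (XT.lf (nat_lit 84) (nat_lit 45797107758) (nat_lit 0) (nat_lit 41931232009) (nat_lit 336) (nat_lit 155221220813) (nat_lit 72) (nat_lit 1) (nat_lit 71) (nat_lit 1) (nat_lit 75) (nat_lit 1) (nat_lit 256) (nat_lit 422)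 (nat_lit 402)) (XT.lf (nat_lit 336) (nat_lit 113960091800) (nat_lit 0) (nat_lit 75824822049) (nat_lit 252) (nat_lit 45965256426) (nat_lit 72) (nat_lit 1) (nat_lit 68) (nat_lit 1) (nat_lit 71) (nat_lit 1) (nat_lit 257) (nat_lit 422) (nat_lit 401))))) (XT.nd (nat_lit 188) (nat_lit 588) (nat_lit 0) (XT.nd (nat_lit 94) (nat_lit 336) (nat_lit 0) (XT.lf (nat_lit 252) (nat_lit 28250875027) (nat_lit 0) (nat_lit 66151626560) (nat_lit 168) (nat_lit 134438721874) (nat_lit 69) (nat_lit 1) (nat_lit 66) (nat_lit 1) (nat_lit 68) (nat_lit 1) (nat_lit 258) (nat_lit 422) (nat_lit 400)) (XT.lf (nat_lit 84) (nat_lit 4785878718) (nat_lit 0) (nat_lit 53555021818) (nat_lit 336) (nat_lit 163859185091) (nat_lit 63) (nat_lit 1) (nat_lit 62) (nat_lit 1) (nat_lit 66) (nat_lit 1) (nat_lit 259) (nat_lit 422) (nat_lit 399))) (XT.nd (nat_lit 94) (nat_lit 420) (nat_lit 0) (XT.lf (nat_lit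 252) (nat_lit 82091859158) (nat_lit 0) (nat_lit 51300369326) (nat_lit 168) (nat_lit 82377539654) (nat_lit 63) (nat_lit 1) (nat_lit 60) (nat_lit 1) (nat_lit 62) (nat_lit 1) (nat_lit 260) (nat_lit 422) (nat_lit 398)) (XT.nd (nat_lit 94) (nat_lit 168) (nat_lit 0) (XT.lf (nat_lit 84) (nat_lit 44539612139) (nat_lit 0) (nat_lit 2057312608) (nat_lit 252) (nat_lit 163023122800) (nat_lit 58) (nat_lit 1) (nat_lit 57) (nat_lit 1) (nat_lit 60) (nat_lit 1) (nat_lit 261) (nat_lit 422) (nat_lit 397)) (XT.lf (nat_lit 252) (nat_lit 121762698785) (nat_lit 0) (nat_lit 42193505277) (nat_lit 168) (nat_lit 39693013889) (nat_lit 58) (nat_lit 1) (nat_lit 55) (nat_lit 1) (nat_lit 57) (nat_lit 1) (nat_lit 262) (nat_lit 422) (nat_lit 396))))))))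
noncomputable def ec258 : XT := (XT.nd (nat_lit 1692) (nat_lit 1764) (nat_lit 0) (XT.nd (nat_lit 846) (nat_lit 1260) (nat_lit 0) (XT.nd (nat_lit 376) (nat_lit 840) (nat_lit 0) (XT.nd (nat_lit 188) (nat_lit 336) (nat_lit 0) (XT.nd (nat_lit 94) (nat_lit 252) (nat_lit 0) (XT.lf (nat_lit 252) (nat_lit 37824373614) (nat_lit 0) (nat_lit 39223528984) (nat_lit 168) (nat_lit 120858776704) (nat_lit 56) (nat_lit 1) (nat_lit 53) (nat_lit 1) (nat_lit 55) (nat_lit 1) (nat_lit 263) (nat_lit 422) (nat_lit 395)) (XT.lf (nat_lit 252) (nat_lit 150148862402) (nat_lit 0) (nat_lit 37474898364) (nat_lit 168) (nat_lit 4754125629) (nat_lit 53) (nat_lit 1) (nat_lit 50) (nat_lit 1) (nat_lit 52) (nat_lit 1) (nat_lit 264) (nat_lit 422) (nat_lit 394))) (XT.nd (nat_lit 94) (nat_lit 168) (nat_lit 0) (XT.lf (nat_lit 252) (nat_lit 67199671999) (nat_lit 0) (nat_lit 35775893398) (nat_lit 168)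 (nat_lit 84027155792) (nat_lit 51) (nat_lit 1) (nat_lit 48) (nat_lit 1) (nat_lit 50) (nat_lit 1) (nat_lit 265) (nat_lit 422) (nat_lit 393)) (XT.lf (nat_lit 84) (nat_lit 23018482166) (nat_lit 0) (nat_lit 12651995042) (nat_lit 168) (nat_lit 146180026740) (nat_lit 47) (nat_lit 1) (nat_lit 46) (nat_lit 1) (nat_lit 48) (nat_lit 1) (nat_lit 266) (nat_lit 422) (nat_lit 392)))) (XT.nd (nat_lit 188) (nat_lit 588) (nat_lit 0) (XT.nd (nat_lit 94) (nat_lit 84) (nat_lit 0) (XT.lf (nat_lit 252) (nat_lit 88169834364) (nat_lit 0) (nat_lit 35292766561) (nat_lit 168) (nat_lit 53365697086) (nat_lit 47) (nat_lit 1) (nat_lit 44) (nat_lit 1) (nat_lit 46) (nat_lit 1) (nat_lit 267) (nat_lit 422) (nat_lit 391)) (XT.lf (nat_lit 168) (nat_lit 9494638283) (nat_lit 0) (nat_lit 36159602515) (nat_lit 84) (nat_lit 126350121502) (nat_lit 45) (nat_lit 1) (nat_lit 43) (nat_lit 1) (nat_lit 44)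 (nat_lit 1) (nat_lit 268) (nat_lit 422) (nat_lit 390))) (XT.nd (nat_lit 94) (nat_lit 336) (nat_lit 0) (XT.lf (nat_lit 252) (nat_lit 102491114893) (nat_lit 0) (nat_lit 36981624059) (nat_lit 168) (nat_lit 27840698440) (nat_lit 43) (nat_lit 1) (nat_lit 40) (nat_lit 1) (nat_lit 42) (nat_lit 1) (nat_lit 269) (nat_lit 422) (nat_lit 389)) (XT.nd (nat_lit 94) (nat_lit 252) (nat_lit 0) (XT.lf (nat_lit 168) (nat_lit 25777271162) (nat_lit 0) (nat_lit 38364404248) (nat_lit 84) (nat_lit 98638930666) (nat_lit 41) (nat_lit 1) (nat_lit 39) (nat_lit 1) (nat_lit 40) (nat_lit 1) (nat_lit 270) (nat_lit 422) (nat_lit 388)) (XT.lf (nat_lit 252) (nat_lit 111583467531) (nat_lit 0) (nat_lit 40214730815) (nat_lit 168) (nat_lit 6599581584) (nat_lit 39) (nat_lit 1) (nat_lit 36) (nat_lit 1) (nat_lit 38) (nat_lit 1) (nat_lit 271) (nat_lit 422) (nat_lit 387)))))) (XT.nd (nat_lit 376) (nat_lit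 588) (nat_lit 0) (XT.nd (nat_lit 188) (nat_lit 336) (nat_lit 0) (XT.nd (nat_lit 94) (nat_lit 252) (nat_lit 0) (XT.lf (nat_lit 168) (nat_lit 37097029638) (nat_lit 0) (nat_lit 41924340105) (nat_lit 84) (nat_lit 75111075910) (nat_lit 37) (nat_lit 1) (nat_lit 35) (nat_lit 1) (nat_lit 36) (nat_lit 1) (nat_lit 272) (nat_lit 422) (nat_lit 386)) (XT.lf (nat_lit 84) (nat_lit 10707679079) (nat_lit 0) (nat_lit 33608550377) (nat_lit 252) (nat_lit 105704114343) (nat_lit 33) (nat_lit 1) (nat_lit 32) (nat_lit 1) (nat_lit 35) (nat_lit 1) (nat_lit 273) (nat_lit 422) (nat_lit 385))) (XT.nd (nat_lit 94) (nat_lit 252) (nat_lit 0) (XT.lf (nat_lit 168) (nat_lit 44519782562) (nat_lit 0) (nat_lit 46387503240) (nat_lit 84) (nat_lit 55103077661) (nat_lit 33) (nat_lit 1) (nat_lit 31) (nat_lit 1) (nat_lit 32) (nat_lit 1) (nat_lit 274) (nat_lit 422) (nat_lit 384)) (XT.lf (nat_lit 84)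 (nat_lit 24902074529) (nat_lit 0) (nat_lit 24119343056) (nat_lit 252) (nat_lit 93119886072) (nat_lit 29) (nat_lit 1) (nat_lit 28) (nat_lit 1) (nat_lit 31) (nat_lit 1) (nat_lit 275) (nat_lit 422) (nat_lit 383)))) (XT.nd (nat_lit 188) (nat_lit 336) (nat_lit 0) (XT.nd (nat_lit 94) (nat_lit 168) (nat_lit 0) (XT.lf (nat_lit 168) (nat_lit 48905081039) (nat_lit 0) (nat_lit 51401129353) (nat_lit 84) (nat_lit 38064886472) (nat_lit 29) (nat_lit 1) (nat_lit 27) (nat_lit 1) (nat_lit 28) (nat_lit 1) (nat_lit 276) (nat_lit 422) (nat_lit 382)) (XT.lf (nat_lit 84) (nat_lit 36661612066) (nat_lit 0) (nat_lit 17468602168) (nat_lit 168) (nat_lit 80595188386) (nat_lit 26) (nat_lit 1) (nat_lit 25) (nat_lit 1) (nat_lit 27) (nat_lit 1) (nat_lit 277) (nat_lit 422) (nat_lit 381))) (XT.nd (nat_lit 94) (nat_lit 252) (nat_lit 0) (XT.lf (nat_lit 168) (nat_lit 50944710321) (nat_lit 0) (nat_lit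 56692274243) (nat_lit 84) (nat_lit 23539649430) (nat_lit 26) (nat_lit 1) (nat_lit 24) (nat_lit 1) (nat_lit 25) (nat_lit 1) (nat_lit 278) (nat_lit 422) (nat_lit 380)) (XT.nd (nat_lit 94) (nat_lit 84) (nat_lit 0) (XT.lf (nat_lit 84) (nat_lit 46373530529) (nat_lit 0) (nat_lit 13031804995) (nat_lit 168) (nat_lit 68331686256) (nat_lit 23) (nat_lit 1) (nat_lit 22) (nat_lit 1) (nat_lit 24) (nat_lit 1) (nat_lit 279) (nat_lit 422) (nat_lit 379)) (XT.lf (nat_lit 168) (nat_lit 51194124767) (nat_lit 0) (nat_lit 62052110279) (nat_lit 84) (nat_lit 11147151508) (nat_lit 23) (nat_lit 1) (nat_lit 21) (nat_lit 1) (nat_lit 22) (nat_lit 1) (nat_lit 280) (nat_lit 422) (nat_lit 378))))))) (XT.nd (nat_lit 846) (nat_lit 588) (nat_lit 0) (XT.nd (nat_lit 376) (nat_lit 672) (nat_lit 0) (XT.nd (nat_lit 188) (nat_lit 252) (nat_lit 0) (XT.nd (nat_lit 94) (nat_lit 84) (nat_lit 0) (XT.lf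 (nat_lit 84) (nat_lit 54359668610) (nat_lit 0) (nat_lit 10306777213) (nat_lit 168) (nat_lit 56478140563) (nat_lit 20) (nat_lit 1) (nat_lit 19) (nat_lit 1) (nat_lit 21) (nat_lit 1) (nat_lit 281) (nat_lit 422) (nat_lit 377)) (XT.lf (nat_lit 168) (nat_lit 50098074334) (nat_lit 0) (nat_lit 67323173192) (nat_lit 84) (nat_lit 570259914) (nat_lit 20) (nat_lit 1) (nat_lit 18) (nat_lit 1) (nat_lit 19) (nat_lit 1) (nat_lit 282) (nat_lit 422) (nat_lit 376))) (XT.nd (nat_lit 94) (nat_lit 84) (nat_lit 0) (XT.lf (nat_lit 84) (nat_lit 60888041307) (nat_lit 0) (nat_lit 8890719793) (nat_lit 168) (nat_lit 45141189040) (nat_lit 17) (nat_lit 1) (nat_lit 16) (nat_lit 1) (nat_lit 18) (nat_lit 1) (nat_lit 283) (nat_lit 422) (nat_lit 375)) (XT.lf (nat_lit 0) (nat_lit 8185526902) (nat_lit 0) (nat_lit 64064860780) (nat_lit 168) (nat_lit 39687338074) (nat_lit 15) (nat_lit 3) (nat_lit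 15) (nat_lit 1) (nat_lit 17) (nat_lit 1) (nat_lit 284) (nat_lit 422) (nat_lit 374)))) (XT.nd (nat_lit 188) (nat_lit 420) (nat_lit 0) (XT.nd (nat_lit 94) (nat_lit 84) (nat_lit 0) (XT.lf (nat_lit 84) (nat_lit 66182320896) (nat_lit 0) (nat_lit 8461484571) (nat_lit 168) (nat_lit 34394080589) (nat_lit 14) (nat_lit 1) (nat_lit 13) (nat_lit 1) (nat_lit 15) (nat_lit 1) (nat_lit 285) (nat_lit 422) (nat_lit 373)) (XT.lf (nat_lit 0) (nat_lit 15637384653) (nat_lit 0) (nat_lit 61263596259) (nat_lit 168) (nat_lit 29314294713) (nat_lit 12) (nat_lit 3) (nat_lit 12) (nat_lit 1) (nat_lit 14) (nat_lit 1) (nat_lit 286) (nat_lit 422) (nat_lit 372))) (XT.nd (nat_lit 94) (nat_lit 252) (nat_lit 0) (XT.lf (nat_lit 84) (nat_lit 70429605063) (nat_lit 0) (nat_lit 8762316842) (nat_lit 168) (nat_lit 24283742699) (nat_lit 11) (nat_lit 1) (nat_lit 10) (nat_lit 1) (nat_lit 12) (nat_lit 1)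 (nat_lit 287) (nat_lit 422) (nat_lit 371)) (XT.nd (nat_lit 94) (nat_lit 168) (nat_lit 0) (XT.lf (nat_lit 0) (nat_lit 21984422554) (nat_lit 0) (nat_lit 59238824871) (nat_lit 168) (nat_lit 19579574169) (nat_lit 9) (nat_lit 3) (nat_lit 9) (nat_lit 1) (nat_lit 11) (nat_lit 1) (nat_lit 288) (nat_lit 422) (nat_lit 370)) (XT.lf (nat_lit 84) (nat_lit 73786784783) (nat_lit 0) (nat_lit 9589426914) (nat_lit 168) (nat_lit 14836491785) (nat_lit 8) (nat_lit 1) (nat_lit 7) (nat_lit 1) (nat_lit 9) (nat_lit 1) (nat_lit 289) (nat_lit 422) (nat_lit 369)))))) (XT.nd (nat_lit 470) (nat_lit 0) (nat_lit 0) (XT.nd (nat_lit 188) (nat_lit 336) (nat_lit 0) (XT.nd (nat_lit 94) (nat_lit 168) (nat_lit 0) (XT.lf (nat_lit 0) (nat_lit 27379121631) (nat_lit 0) (nat_lit 57797831472) (nat_lit 168) (nat_lit 10503655312) (nat_lit 6) (nat_lit 3) (nat_lit 6) (nat_lit 1) (nat_lit 8) (nat_lit 1) (nat_lit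 290) (nat_lit 422) (nat_lit 368)) (XT.lf (nat_lit 84) (nat_lit 76385767255) (nat_lit 0) (nat_lit 10781869710) (nat_lit 168) (nat_lit 6062639169) (nat_lit 5) (nat_lit 1) (nat_lit 4) (nat_lit 1) (nat_lit 6) (nat_lit 1) (nat_lit 291) (nat_lit 422) (nat_lit 367))) (XT.nd (nat_lit 94) (nat_lit 252) (nat_lit 0) (XT.lf (nat_lit 0) (nat_lit 31950444465) (nat_lit 0) (nat_lit 56787721428) (nat_lit 168) (nat_lit 2092468547) (nat_lit 3) (nat_lit 3) (nat_lit 3) (nat_lit 1) (nat_lit 5) (nat_lit 1) (nat_lit 292) (nat_lit 422) (nat_lit 366)) (XT.nd (nat_lit 94) (nat_lit 0) (nat_lit 0) (XT.lf (nat_lit 0) (nat_lit 128393287563) (nat_lit 0) (nat_lit 0) (nat_lit 0) (nat_lit 0) (nat_lit 0) (nat_lit 0) (nat_lit 1) (nat_lit 0) (nat_lit 1) (nat_lit 0) (nat_lit 293) (nat_lit 422) (nat_lit 365)) (XT.lf (nat_lit 0) (nat_lit 128276422451) (nat_lit 0) (nat_lit 0) (nat_lit 0) (nat_lit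 0) (nat_lit 0) (nat_lit 0) (nat_lit 1) (nat_lit 0) (nat_lit 1) (nat_lit 0) (nat_lit 294) (nat_lit 422) (nat_lit 364))))) (XT.nd (nat_lit 188) (nat_lit 0) (nat_lit 0) (XT.nd (nat_lit 94) (nat_lit 0) (nat_lit 0) (XT.lf (nat_lit 0) (nat_lit 128168214014) (nat_lit 0) (nat_lit 0) (nat_lit 0) (nat_lit 0) (nat_lit 0) (nat_lit 0) (nat_lit 1) (nat_lit 0) (nat_lit 1) (nat_lit 0) (nat_lit 295) (nat_lit 422) (nat_lit 363)) (XT.lf (nat_lit 0) (nat_lit 128068021017) (nat_lit 0) (nat_lit 0) (nat_lit 0) (nat_lit 0) (nat_lit 0) (nat_lit 0) (nat_lit 1) (nat_lit 0) (nat_lit 1) (nat_lit 0) (nat_lit 296) (nat_lit 422) (nat_lit 362))) (XT.nd (nat_lit 94) (nat_lit 0) (nat_lit 0) (XT.lf (nat_lit 0) (nat_lit 127975249724) (nat_lit 0) (nat_lit 0) (nat_lit 0) (nat_lit 0) (nat_lit 0) (nat_lit 0) (nat_lit 1) (nat_lit 0) (nat_lit 1) (nat_lit 0) (nat_lit 297) (nat_lit 422) (nat_lit 361))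 (XT.nd (nat_lit 94) (nat_lit 0) (nat_lit 0) (XT.lf (nat_lit 0) (nat_lit 127889350378) (nat_lit 0) (nat_lit 0) (nat_lit 0) (nat_lit 0) (nat_lit 0) (nat_lit 0) (nat_lit 1) (nat_lit 0) (nat_lit 1) (nat_lit 0) (nat_lit 298) (nat_lit 422) (nat_lit 360)) (XT.lf (nat_lit 0) (nat_lit 127809813946) (nat_lit 0) (nat_lit 0) (nat_lit 0) (nat_lit 0) (nat_lit 0) (nat_lit 0) (nat_lit 1) (nat_lit 0) (nat_lit 1) (nat_lit 0) (nat_lit 299) (nat_lit 422) (nat_lit 359))))))))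
noncomputable def ec259 : XT := (XT.nd (nat_lit 1786) (nat_lit 0) (nat_lit 0) (XT.nd (nat_lit 846) (nat_lit 0) (nat_lit 0) (XT.nd (nat_lit 376) (nat_lit 0) (nat_lit 0) (XT.nd (nat_lit 188) (nat_lit 0) (nat_lit 0) (XT.nd (nat_lit 94) (nat_lit 0) (nat_lit 0) (XT.lf (nat_lit 0) (nat_lit 127736169103) (nat_lit 0) (nat_lit 0) (nat_lit 0) (nat_lit 0) (nat_lit 0) (nat_lit 0) (nat_lit 1) (nat_lit 0) (nat_lit 1) (nat_lit 0) (nat_lit 300) (nat_lit 422) (nat_lit 358)) (XT.lf (nat_lit 0) (nat_lit 127667979432) (nat_lit 0) (nat_lit 0) (nat_lit 0) (nat_lit 0) (nat_lit 0) (nat_lit 0) (nat_lit 1) (nat_lit 0) (nat_lit 1) (nat_lit 0) (nat_lit 301) (nat_lit 422) (nat_lit 357))) (XT.nd (nat_lit 94) (nat_lit 0) (nat_lit 0) (XT.lf (nat_lit 0) (nat_lit 127604840849) (nat_lit 0) (nat_lit 0) (nat_lit 0) (nat_lit 0) (nat_lit 0) (nat_lit 0) (nat_lit 1) (nat_lit 0) (nat_lit 1) (nat_lit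 0) (nat_lit 302) (nat_lit 422) (nat_lit 356)) (XT.lf (nat_lit 0) (nat_lit 127546379197) (nat_lit 0) (nat_lit 0) (nat_lit 0) (nat_lit 0) (nat_lit 0) (nat_lit 0) (nat_lit 1) (nat_lit 0) (nat_lit 1) (nat_lit 0) (nat_lit 303) (nat_lit 422) (nat_lit 355)))) (XT.nd (nat_lit 188) (nat_lit 0) (nat_lit 0) (XT.nd (nat_lit 94) (nat_lit 0) (nat_lit 0) (XT.lf (nat_lit 0) (nat_lit 127492248038) (nat_lit 0) (nat_lit 0) (nat_lit 0) (nat_lit 0) (nat_lit 0) (nat_lit 0) (nat_lit 1) (nat_lit 0) (nat_lit 1) (nat_lit 0) (nat_lit 304) (nat_lit 422) (nat_lit 354)) (XT.lf (nat_lit 0) (nat_lit 127442126595) (nat_lit 0) (nat_lit 0) (nat_lit 0) (nat_lit 0) (nat_lit 0) (nat_lit 0) (nat_lit 1) (nat_lit 0) (nat_lit 1) (nat_lit 0) (nat_lit 305) (nat_lit 422) (nat_lit 353))) (XT.nd (nat_lit 94) (nat_lit 0) (nat_lit 0) (XT.lf (nat_lit 0) (nat_lit 127395717851) (nat_lit 0) (nat_lit 0) (nat_lit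 0) (nat_lit 0) (nat_lit 0) (nat_lit 0) (nat_lit 1) (nat_lit 0) (nat_lit 1) (nat_lit 0) (nat_lit 306) (nat_lit 422) (nat_lit 352)) (XT.nd (nat_lit 94) (nat_lit 0) (nat_lit 0) (XT.lf (nat_lit 0) (nat_lit 127352746792) (nat_lit 0) (nat_lit 0) (nat_lit 0) (nat_lit 0) (nat_lit 0) (nat_lit 0) (nat_lit 1) (nat_lit 0) (nat_lit 1) (nat_lit 0) (nat_lit 307) (nat_lit 422) (nat_lit 351)) (XT.lf (nat_lit 0) (nat_lit 127312958775) (nat_lit 0) (nat_lit 0) (nat_lit 0) (nat_lit 0) (nat_lit 0) (nat_lit 0) (nat_lit 1) (nat_lit 0) (nat_lit 1) (nat_lit 0) (nat_lit 308) (nat_lit 422) (nat_lit 350)))))) (XT.nd (nat_lit 470) (nat_lit 0) (nat_lit 0) (XT.nd (nat_lit 188) (nat_lit 0) (nat_lit 0) (XT.nd (nat_lit 94) (nat_lit 0) (nat_lit 0) (XT.lf (nat_lit 0) (nat_lit 127276118018) (nat_lit 0) (nat_lit 0) (nat_lit 0) (nat_lit 0) (nat_lit 0) (nat_lit 0) (nat_lit 1) (nat_lit 0) (nat_lit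 1) (nat_lit 0) (nat_lit 309) (nat_lit 422) (nat_lit 349)) (XT.lf (nat_lit 0) (nat_lit 127242006205) (nat_lit 0) (nat_lit 0) (nat_lit 0) (nat_lit 0) (nat_lit 0) (nat_lit 0) (nat_lit 1) (nat_lit 0) (nat_lit 1) (nat_lit 0) (nat_lit 310) (nat_lit 422) (nat_lit 348))) (XT.nd (nat_lit 94) (nat_lit 0) (nat_lit 0) (XT.lf (nat_lit 0) (nat_lit 127210421194) (nat_lit 0) (nat_lit 0) (nat_lit 0) (nat_lit 0) (nat_lit 0) (nat_lit 0) (nat_lit 1) (nat_lit 0) (nat_lit 1) (nat_lit 0) (nat_lit 311) (nat_lit 422) (nat_lit 347)) (XT.nd (nat_lit 94) (nat_lit 0) (nat_lit 0) (XT.lf (nat_lit 0) (nat_lit 127181175813) (nat_lit 0) (nat_lit 0) (nat_lit 0) (nat_lit 0) (nat_lit 0) (nat_lit 0) (nat_lit 1) (nat_lit 0) (nat_lit 1) (nat_lit 0) (nat_lit 312) (nat_lit 422) (nat_lit 346)) (XT.lf (nat_lit 0) (nat_lit 127154096757) (nat_lit 0) (nat_lit 0) (nat_lit 0) (nat_lit 0) (nat_lit 0) (nat_lit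 0) (nat_lit 1) (nat_lit 0) (nat_lit 1) (nat_lit 0) (nat_lit 313) (nat_lit 422) (nat_lit 345))))) (XT.nd (nat_lit 188) (nat_lit 0) (nat_lit 0) (XT.nd (nat_lit 94) (nat_lit 0) (nat_lit 0) (XT.lf (nat_lit 0) (nat_lit 127129023557) (nat_lit 0) (nat_lit 0) (nat_lit 0) (nat_lit 0) (nat_lit 0) (nat_lit 0) (nat_lit 1) (nat_lit 0) (nat_lit 1) (nat_lit 0) (nat_lit 314) (nat_lit 422) (nat_lit 344)) (XT.lf (nat_lit 0) (nat_lit 127105807631) (nat_lit 0) (nat_lit 0) (nat_lit 0) (nat_lit 0) (nat_lit 0) (nat_lit 0) (nat_lit 1) (nat_lit 0) (nat_lit 1) (nat_lit 0) (nat_lit 315) (nat_lit 422) (nat_lit 343))) (XT.nd (nat_lit 94) (nat_lit 0) (nat_lit 0) (XT.lf (nat_lit 0) (nat_lit 127084311403) (nat_lit 0) (nat_lit 0) (nat_lit 0) (nat_lit 0) (nat_lit 0) (nat_lit 0) (nat_lit 1) (nat_lit 0) (nat_lit 1) (nat_lit 0) (nat_lit 316) (nat_lit 422) (nat_lit 342)) (XT.nd (nat_lit 94) (nat_lit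 0) (nat_lit 0) (XT.lf (nat_lit 0) (nat_lit 127064407488) (nat_lit 0) (nat_lit 0) (nat_lit 0) (nat_lit 0) (nat_lit 0) (nat_lit 0) (nat_lit 1) (nat_lit 0) (nat_lit 1) (nat_lit 0) (nat_lit 317) (nat_lit 422) (nat_lit 341)) (XT.lf (nat_lit 0) (nat_lit 127045977937) (nat_lit 0) (nat_lit 0) (nat_lit 0) (nat_lit 0) (nat_lit 0) (nat_lit 0) (nat_lit 1) (nat_lit 0) (nat_lit 1) (nat_lit 0) (nat_lit 318) (nat_lit 422) (nat_lit 340))))))) (XT.nd (nat_lit 846) (nat_lit 0) (nat_lit 0) (XT.nd (nat_lit 376) (nat_lit 0) (nat_lit 0) (XT.nd (nat_lit 188) (nat_lit 0) (nat_lit 0) (XT.nd (nat_lit 94) (nat_lit 0) (nat_lit 0) (XT.lf (nat_lit 0) (nat_lit 127028913539) (nat_lit 0) (nat_lit 0) (nat_lit 0) (nat_lit 0) (nat_lit 0) (nat_lit 0) (nat_lit 1) (nat_lit 0) (nat_lit 1) (nat_lit 0) (nat_lit 319) (nat_lit 422) (nat_lit 339)) (XT.lf (nat_lit 0) (nat_lit 127013113169) (nat_lit 0)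 (nat_lit 0) (nat_lit 0) (nat_lit 0) (nat_lit 0) (nat_lit 0) (nat_lit 1) (nat_lit 0) (nat_lit 1) (nat_lit 0) (nat_lit 320) (nat_lit 422) (nat_lit 338))) (XT.nd (nat_lit 94) (nat_lit 0) (nat_lit 0) (XT.lf (nat_lit 0) (nat_lit 126998483198) (nat_lit 0) (nat_lit 0) (nat_lit 0) (nat_lit 0) (nat_lit 0) (nat_lit 0) (nat_lit 1) (nat_lit 0) (nat_lit 1) (nat_lit 0) (nat_lit 321) (nat_lit 422) (nat_lit 337)) (XT.lf (nat_lit 0) (nat_lit 126984936928) (nat_lit 0) (nat_lit 0) (nat_lit 0) (nat_lit 0) (nat_lit 0) (nat_lit 0) (nat_lit 1) (nat_lit 0) (nat_lit 1) (nat_lit 0) (nat_lit 322) (nat_lit 422) (nat_lit 336)))) (XT.nd (nat_lit 188) (nat_lit 0) (nat_lit 0) (XT.nd (nat_lit 94) (nat_lit 0) (nat_lit 0) (XT.lf (nat_lit 0) (nat_lit 126972394085) (nat_lit 0) (nat_lit 0) (nat_lit 0) (nat_lit 0) (nat_lit 0) (nat_lit 0) (nat_lit 1) (nat_lit 0) (nat_lit 1) (nat_lit 0) (nat_lit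 323) (nat_lit 422) (nat_lit 335)) (XT.lf (nat_lit 0) (nat_lit 126960780342) (nat_lit 0) (nat_lit 0) (nat_lit 0) (nat_lit 0) (nat_lit 0) (nat_lit 0) (nat_lit 1) (nat_lit 0) (nat_lit 1) (nat_lit 0) (nat_lit 324) (nat_lit 422) (nat_lit 334))) (XT.nd (nat_lit 94) (nat_lit 0) (nat_lit 0) (XT.lf (nat_lit 0) (nat_lit 126950026877) (nat_lit 0) (nat_lit 0) (nat_lit 0) (nat_lit 0) (nat_lit 0) (nat_lit 0) (nat_lit 1) (nat_lit 0) (nat_lit 1) (nat_lit 0) (nat_lit 325) (nat_lit 422) (nat_lit 333)) (XT.nd (nat_lit 94) (nat_lit 0) (nat_lit 0) (XT.lf (nat_lit 0) (nat_lit 126940069964) (nat_lit 0) (nat_lit 0) (nat_lit 0) (nat_lit 0) (nat_lit 0) (nat_lit 0) (nat_lit 1) (nat_lit 0) (nat_lit 1) (nat_lit 0) (nat_lit 326) (nat_lit 422) (nat_lit 332)) (XT.lf (nat_lit 0) (nat_lit 126930850600) (nat_lit 0) (nat_lit 0) (nat_lit 0) (nat_lit 0) (nat_lit 0) (nat_lit 0) (nat_lit 1) (nat_lit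 0) (nat_lit 1) (nat_lit 0) (nat_lit 327) (nat_lit 422) (nat_lit 331)))))) (XT.nd (nat_lit 470) (nat_lit 0) (nat_lit 0) (XT.nd (nat_lit 188) (nat_lit 0) (nat_lit 0) (XT.nd (nat_lit 94) (nat_lit 0) (nat_lit 0) (XT.lf (nat_lit 0) (nat_lit 126922314152) (nat_lit 0) (nat_lit 0) (nat_lit 0) (nat_lit 0) (nat_lit 0) (nat_lit 0) (nat_lit 1) (nat_lit 0) (nat_lit 1) (nat_lit 0) (nat_lit 328) (nat_lit 422) (nat_lit 330)) (XT.lf (nat_lit 0) (nat_lit 126914410034) (nat_lit 0) (nat_lit 0) (nat_lit 0) (nat_lit 0) (nat_lit 0) (nat_lit 0) (nat_lit 1) (nat_lit 0) (nat_lit 1) (nat_lit 0) (nat_lit 329) (nat_lit 422) (nat_lit 329))) (XT.nd (nat_lit 94) (nat_lit 0) (nat_lit 0) (XT.lf (nat_lit 0) (nat_lit 126907091406) (nat_lit 0) (nat_lit 0) (nat_lit 0) (nat_lit 0) (nat_lit 0) (nat_lit 0) (nat_lit 1) (nat_lit 0) (nat_lit 1) (nat_lit 0) (nat_lit 330) (nat_lit 422) (nat_lit 328))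 (XT.nd (nat_lit 94) (nat_lit 0) (nat_lit 0) (XT.lf (nat_lit 0) (nat_lit 126900314898) (nat_lit 0) (nat_lit 0) (nat_lit 0) (nat_lit 0) (nat_lit 0) (nat_lit 0) (nat_lit 1) (nat_lit 0) (nat_lit 1) (nat_lit 0) (nat_lit 331) (nat_lit 422) (nat_lit 327)) (XT.lf (nat_lit 0) (nat_lit 126894040354) (nat_lit 0) (nat_lit 0) (nat_lit 0) (nat_lit 0) (nat_lit 0) (nat_lit 0) (nat_lit 1) (nat_lit 0) (nat_lit 1) (nat_lit 0) (nat_lit 332) (nat_lit 422) (nat_lit 326))))) (XT.nd (nat_lit 188) (nat_lit 0) (nat_lit 0) (XT.nd (nat_lit 94) (nat_lit 0) (nat_lit 0) (XT.lf (nat_lit 0) (nat_lit 126888230591) (nat_lit 0) (nat_lit 0) (nat_lit 0) (nat_lit 0) (nat_lit 0) (nat_lit 0) (nat_lit 1) (nat_lit 0) (nat_lit 1) (nat_lit 0) (nat_lit 333) (nat_lit 422) (nat_lit 325)) (XT.lf (nat_lit 0) (nat_lit 126882851181) (nat_lit 0) (nat_lit 0) (nat_lit 0) (nat_lit 0) (nat_lit 0) (nat_lit 0) (nat_lit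 1) (nat_lit 0) (nat_lit 1) (nat_lit 0) (nat_lit 334) (nat_lit 422) (nat_lit 324))) (XT.nd (nat_lit 94) (nat_lit 0) (nat_lit 0) (XT.lf (nat_lit 0) (nat_lit 126877870246) (nat_lit 0) (nat_lit 0) (nat_lit 0) (nat_lit 0) (nat_lit 0) (nat_lit 0) (nat_lit 1) (nat_lit 0) (nat_lit 1) (nat_lit 0) (nat_lit 335) (nat_lit 422) (nat_lit 323)) (XT.nd (nat_lit 94) (nat_lit 0) (nat_lit 0) (XT.lf (nat_lit 0) (nat_lit 126873258268) (nat_lit 0) (nat_lit 0) (nat_lit 0) (nat_lit 0) (nat_lit 0) (nat_lit 0) (nat_lit 1) (nat_lit 0) (nat_lit 1) (nat_lit 0) (nat_lit 336) (nat_lit 422) (nat_lit 322)) (XT.lf (nat_lit 0) (nat_lit 126868987919) (nat_lit 0) (nat_lit 0) (nat_lit 0) (nat_lit 0) (nat_lit 0) (nat_lit 0) (nat_lit 1) (nat_lit 0) (nat_lit 1) (nat_lit 0) (nat_lit 337) (nat_lit 422) (nat_lit 321))))))))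
noncomputable def ec260 : XT := (XT.nd (nat_lit 1692) (nat_lit 0) (nat_lit 0) (XT.nd (nat_lit 846) (nat_lit 0) (nat_lit 0) (XT.nd (nat_lit 376) (nat_lit 0) (nat_lit 0) (XT.nd (nat_lit 188) (nat_lit 0) (nat_lit 0) (XT.nd (nat_lit 94) (nat_lit 0) (nat_lit 0) (XT.lf (nat_lit 0) (nat_lit 126865033892) (nat_lit 0) (nat_lit 0) (nat_lit 0) (nat_lit 0) (nat_lit 0) (nat_lit 0) (nat_lit 1) (nat_lit 0) (nat_lit 1) (nat_lit 0) (nat_lit 338) (nat_lit 422) (nat_lit 320)) (XT.lf (nat_lit 0) (nat_lit 126861372756) (nat_lit 0) (nat_lit 0) (nat_lit 0) (nat_lit 0) (nat_lit 0) (nat_lit 0) (nat_lit 1) (nat_lit 0) (nat_lit 1) (nat_lit 0) (nat_lit 339) (nat_lit 422) (nat_lit 319))) (XT.nd (nat_lit 94) (nat_lit 0) (nat_lit 0) (XT.lf (nat_lit 0) (nat_lit 126857982815) (nat_lit 0) (nat_lit 0) (nat_lit 0) (nat_lit 0) (nat_lit 0) (nat_lit 0) (nat_lit 1) (nat_lit 0) (nat_lit 1) (nat_lit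 0) (nat_lit 340) (nat_lit 422) (nat_lit 318)) (XT.lf (nat_lit 0) (nat_lit 126854843981) (nat_lit 0) (nat_lit 0) (nat_lit 0) (nat_lit 0) (nat_lit 0) (nat_lit 0) (nat_lit 1) (nat_lit 0) (nat_lit 1) (nat_lit 0) (nat_lit 341) (nat_lit 422) (nat_lit 317)))) (XT.nd (nat_lit 188) (nat_lit 0) (nat_lit 0) (XT.nd (nat_lit 94) (nat_lit 0) (nat_lit 0) (XT.lf (nat_lit 0) (nat_lit 126851937653) (nat_lit 0) (nat_lit 0) (nat_lit 0) (nat_lit 0) (nat_lit 0) (nat_lit 0) (nat_lit 1) (nat_lit 0) (nat_lit 1) (nat_lit 0) (nat_lit 342) (nat_lit 422) (nat_lit 316)) (XT.lf (nat_lit 0) (nat_lit 126849246609) (nat_lit 0) (nat_lit 0) (nat_lit 0) (nat_lit 0) (nat_lit 0) (nat_lit 0) (nat_lit 1) (nat_lit 0) (nat_lit 1) (nat_lit 0) (nat_lit 343) (nat_lit 422) (nat_lit 315))) (XT.nd (nat_lit 94) (nat_lit 0) (nat_lit 0) (XT.lf (nat_lit 0) (nat_lit 126846754901) (nat_lit 0) (nat_lit 0) (nat_lit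 0) (nat_lit 0) (nat_lit 0) (nat_lit 0) (nat_lit 1) (nat_lit 0) (nat_lit 1) (nat_lit 0) (nat_lit 344) (nat_lit 422) (nat_lit 314)) (XT.nd (nat_lit 94) (nat_lit 0) (nat_lit 0) (XT.lf (nat_lit 0) (nat_lit 126844447764) (nat_lit 0) (nat_lit 0) (nat_lit 0) (nat_lit 0) (nat_lit 0) (nat_lit 0) (nat_lit 1) (nat_lit 0) (nat_lit 1) (nat_lit 0) (nat_lit 345) (nat_lit 422) (nat_lit 313)) (XT.lf (nat_lit 0) (nat_lit 126842311526) (nat_lit 0) (nat_lit 0) (nat_lit 0) (nat_lit 0) (nat_lit 0) (nat_lit 0) (nat_lit 1) (nat_lit 0) (nat_lit 1) (nat_lit 0) (nat_lit 346) (nat_lit 422) (nat_lit 312)))))) (XT.nd (nat_lit 376) (nat_lit 0) (nat_lit 0) (XT.nd (nat_lit 188) (nat_lit 0) (nat_lit 0) (XT.nd (nat_lit 94) (nat_lit 0) (nat_lit 0) (XT.lf (nat_lit 0) (nat_lit 126840333528) (nat_lit 0) (nat_lit 0) (nat_lit 0) (nat_lit 0) (nat_lit 0) (nat_lit 0) (nat_lit 1) (nat_lit 0) (nat_lit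 1) (nat_lit 0) (nat_lit 347) (nat_lit 422) (nat_lit 311)) (XT.lf (nat_lit 0) (nat_lit 126838502049) (nat_lit 0) (nat_lit 0) (nat_lit 0) (nat_lit 0) (nat_lit 0) (nat_lit 0) (nat_lit 1) (nat_lit 0) (nat_lit 1) (nat_lit 0) (nat_lit 348) (nat_lit 422) (nat_lit 310))) (XT.nd (nat_lit 94) (nat_lit 0) (nat_lit 0) (XT.lf (nat_lit 0) (nat_lit 126836806234) (nat_lit 0) (nat_lit 0) (nat_lit 0) (nat_lit 0) (nat_lit 0) (nat_lit 0) (nat_lit 1) (nat_lit 0) (nat_lit 1) (nat_lit 0) (nat_lit 349) (nat_lit 422) (nat_lit 309)) (XT.lf (nat_lit 0) (nat_lit 126835236036) (nat_lit 0) (nat_lit 0) (nat_lit 0) (nat_lit 0) (nat_lit 0) (nat_lit 0) (nat_lit 1) (nat_lit 0) (nat_lit 1) (nat_lit 0) (nat_lit 350) (nat_lit 422) (nat_lit 308)))) (XT.nd (nat_lit 188) (nat_lit 0) (nat_lit 0) (XT.nd (nat_lit 94) (nat_lit 0) (nat_lit 0) (XT.lf (nat_lit 0) (nat_lit 126833782148) (nat_lit 0) (nat_lit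 0) (nat_lit 0) (nat_lit 0) (nat_lit 0) (nat_lit 0) (nat_lit 1) (nat_lit 0) (nat_lit 1) (nat_lit 0) (nat_lit 351) (nat_lit 422) (nat_lit 307)) (XT.lf (nat_lit 0) (nat_lit 126832435956) (nat_lit 0) (nat_lit 0) (nat_lit 0) (nat_lit 0) (nat_lit 0) (nat_lit 0) (nat_lit 1) (nat_lit 0) (nat_lit 1) (nat_lit 0) (nat_lit 352) (nat_lit 422) (nat_lit 306))) (XT.nd (nat_lit 94) (nat_lit 0) (nat_lit 0) (XT.lf (nat_lit 0) (nat_lit 126831189482) (nat_lit 0) (nat_lit 0) (nat_lit 0) (nat_lit 0) (nat_lit 0) (nat_lit 0) (nat_lit 1) (nat_lit 0) (nat_lit 1) (nat_lit 0) (nat_lit 353) (nat_lit 422) (nat_lit 305)) (XT.nd (nat_lit 94) (nat_lit 0) (nat_lit 0) (XT.lf (nat_lit 0) (nat_lit 126830035339) (nat_lit 0) (nat_lit 0) (nat_lit 0) (nat_lit 0) (nat_lit 0) (nat_lit 0) (nat_lit 1) (nat_lit 0) (nat_lit 1) (nat_lit 0) (nat_lit 354) (nat_lit 422) (nat_lit 304)) (XT.lf (nat_lit 0) (nat_lit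 126828966688) (nat_lit 0) (nat_lit 0) (nat_lit 0) (nat_lit 0) (nat_lit 0) (nat_lit 0) (nat_lit 1) (nat_lit 0) (nat_lit 1) (nat_lit 0) (nat_lit 355) (nat_lit 422) (nat_lit 303))))))) (XT.nd (nat_lit 846) (nat_lit 0) (nat_lit 0) (XT.nd (nat_lit 376) (nat_lit 0) (nat_lit 0) (XT.nd (nat_lit 188) (nat_lit 0) (nat_lit 0) (XT.nd (nat_lit 94) (nat_lit 0) (nat_lit 0) (XT.lf (nat_lit 0) (nat_lit 126827977197) (nat_lit 0) (nat_lit 0) (nat_lit 0) (nat_lit 0) (nat_lit 0) (nat_lit 0) (nat_lit 1) (nat_lit 0) (nat_lit 1) (nat_lit 0) (nat_lit 356) (nat_lit 422) (nat_lit 302)) (XT.lf (nat_lit 0) (nat_lit 126827061001) (nat_lit 0) (nat_lit 0) (nat_lit 0) (nat_lit 0) (nat_lit 0) (nat_lit 0) (nat_lit 1) (nat_lit 0) (nat_lit 1) (nat_lit 0) (nat_lit 357) (nat_lit 422) (nat_lit 301))) (XT.nd (nat_lit 94) (nat_lit 0) (nat_lit 0) (XT.lf (nat_lit 0) (nat_lit 126826212672) (nat_lit 0)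 (nat_lit 0) (nat_lit 0) (nat_lit 0) (nat_lit 0) (nat_lit 0) (nat_lit 1) (nat_lit 0) (nat_lit 1) (nat_lit 0) (nat_lit 358) (nat_lit 422) (nat_lit 300)) (XT.lf (nat_lit 0) (nat_lit 126825427181) (nat_lit 0) (nat_lit 0) (nat_lit 0) (nat_lit 0) (nat_lit 0) (nat_lit 0) (nat_lit 1) (nat_lit 0) (nat_lit 1) (nat_lit 0) (nat_lit 359) (nat_lit 422) (nat_lit 299)))) (XT.nd (nat_lit 188) (nat_lit 0) (nat_lit 0) (XT.nd (nat_lit 94) (nat_lit 0) (nat_lit 0) (XT.lf (nat_lit 0) (nat_lit 126824699876) (nat_lit 0) (nat_lit 0) (nat_lit 0) (nat_lit 0) (nat_lit 0) (nat_lit 0) (nat_lit 1) (nat_lit 0) (nat_lit 1) (nat_lit 0) (nat_lit 360) (nat_lit 422) (nat_lit 298)) (XT.lf (nat_lit 0) (nat_lit 126824026444) (nat_lit 0) (nat_lit 0) (nat_lit 0) (nat_lit 0) (nat_lit 0) (nat_lit 0) (nat_lit 1) (nat_lit 0) (nat_lit 1) (nat_lit 0) (nat_lit 361) (nat_lit 422) (nat_lit 297))) (XT.nd (nat_lit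 94) (nat_lit 0) (nat_lit 0) (XT.lf (nat_lit 0) (nat_lit 126823402897) (nat_lit 0) (nat_lit 0) (nat_lit 0) (nat_lit 0) (nat_lit 0) (nat_lit 0) (nat_lit 1) (nat_lit 0) (nat_lit 1) (nat_lit 0) (nat_lit 362) (nat_lit 422) (nat_lit 296)) (XT.nd (nat_lit 94) (nat_lit 0) (nat_lit 0) (XT.lf (nat_lit 0) (nat_lit 126822825538) (nat_lit 0) (nat_lit 0) (nat_lit 0) (nat_lit 0) (nat_lit 0) (nat_lit 0) (nat_lit 1) (nat_lit 0) (nat_lit 1) (nat_lit 0) (nat_lit 363) (nat_lit 422) (nat_lit 295)) (XT.lf (nat_lit 0) (nat_lit 126822290947) (nat_lit 0) (nat_lit 0) (nat_lit 0) (nat_lit 0) (nat_lit 0) (nat_lit 0) (nat_lit 1) (nat_lit 0) (nat_lit 1) (nat_lit 0) (nat_lit 364) (nat_lit 422) (nat_lit 294)))))) (XT.nd (nat_lit 470) (nat_lit 0) (nat_lit 0) (XT.nd (nat_lit 188) (nat_lit 0) (nat_lit 0) (XT.nd (nat_lit 94) (nat_lit 0) (nat_lit 0) (XT.lf (nat_lit 0) (nat_lit 126821795955) (nat_lit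 0) (nat_lit 0) (nat_lit 0) (nat_lit 0) (nat_lit 0) (nat_lit 0) (nat_lit 1) (nat_lit 0) (nat_lit 1) (nat_lit 0) (nat_lit 365) (nat_lit 422) (nat_lit 293)) (XT.lf (nat_lit 0) (nat_lit 126821337629) (nat_lit 0) (nat_lit 0) (nat_lit 0) (nat_lit 0) (nat_lit 0) (nat_lit 0) (nat_lit 1) (nat_lit 0) (nat_lit 1) (nat_lit 0) (nat_lit 366) (nat_lit 422) (nat_lit 292))) (XT.nd (nat_lit 94) (nat_lit 0) (nat_lit 0) (XT.lf (nat_lit 0) (nat_lit 126820913253) (nat_lit 0) (nat_lit 0) (nat_lit 0) (nat_lit 0) (nat_lit 0) (nat_lit 0) (nat_lit 1) (nat_lit 0) (nat_lit 1) (nat_lit 0) (nat_lit 367) (nat_lit 422) (nat_lit 291)) (XT.nd (nat_lit 94) (nat_lit 0) (nat_lit 0) (XT.lf (nat_lit 0) (nat_lit 126820520312) (nat_lit 0) (nat_lit 0) (nat_lit 0) (nat_lit 0) (nat_lit 0) (nat_lit 0) (nat_lit 1) (nat_lit 0) (nat_lit 1) (nat_lit 0) (nat_lit 368) (nat_lit 422) (nat_lit 290)) (XT.lf (nat_lit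 0) (nat_lit 126820156478) (nat_lit 0) (nat_lit 0) (nat_lit 0) (nat_lit 0) (nat_lit 0) (nat_lit 0) (nat_lit 1) (nat_lit 0) (nat_lit 1) (nat_lit 0) (nat_lit 369) (nat_lit 422) (nat_lit 289))))) (XT.nd (nat_lit 188) (nat_lit 0) (nat_lit 0) (XT.nd (nat_lit 94) (nat_lit 0) (nat_lit 0) (XT.lf (nat_lit 0) (nat_lit 126819819595) (nat_lit 0) (nat_lit 0) (nat_lit 0) (nat_lit 0) (nat_lit 0) (nat_lit 0) (nat_lit 1) (nat_lit 0) (nat_lit 1) (nat_lit 0) (nat_lit 370) (nat_lit 422) (nat_lit 288)) (XT.lf (nat_lit 0) (nat_lit 126819507666) (nat_lit 0) (nat_lit 0) (nat_lit 0) (nat_lit 0) (nat_lit 0) (nat_lit 0) (nat_lit 1) (nat_lit 0) (nat_lit 1) (nat_lit 0) (nat_lit 371) (nat_lit 422) (nat_lit 287))) (XT.nd (nat_lit 94) (nat_lit 0) (nat_lit 0) (XT.lf (nat_lit 0) (nat_lit 126819218843) (nat_lit 0) (nat_lit 0) (nat_lit 0) (nat_lit 0) (nat_lit 0) (nat_lit 0) (nat_lit 1) (nat_lit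 0) (nat_lit 1) (nat_lit 0) (nat_lit 372) (nat_lit 422) (nat_lit 286)) (XT.nd (nat_lit 94) (nat_lit 0) (nat_lit 0) (XT.lf (nat_lit 0) (nat_lit 126818951414) (nat_lit 0) (nat_lit 0) (nat_lit 0) (nat_lit 0) (nat_lit 0) (nat_lit 0) (nat_lit 1) (nat_lit 0) (nat_lit 1) (nat_lit 0) (nat_lit 373) (nat_lit 422) (nat_lit 285)) (XT.lf (nat_lit 0) (nat_lit 126818703795) (nat_lit 0) (nat_lit 0) (nat_lit 0) (nat_lit 0) (nat_lit 0) (nat_lit 0) (nat_lit 1) (nat_lit 0) (nat_lit 1) (nat_lit 0) (nat_lit 374) (nat_lit 422) (nat_lit 284))))))))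
noncomputable def ec261 : XT := (XT.nd (nat_lit 1786) (nat_lit 0) (nat_lit 0) (XT.nd (nat_lit 846) (nat_lit 0) (nat_lit 0) (XT.nd (nat_lit 376) (nat_lit 0) (nat_lit 0) (XT.nd (nat_lit 188) (nat_lit 0) (nat_lit 0) (XT.nd (nat_lit 94) (nat_lit 0) (nat_lit 0) (XT.lf (nat_lit 0) (nat_lit 126818474518) (nat_lit 0) (nat_lit 0) (nat_lit 0) (nat_lit 0) (nat_lit 0) (nat_lit 0) (nat_lit 1) (nat_lit 0) (nat_lit 1) (nat_lit 0) (nat_lit 375) (nat_lit 422) (nat_lit 283)) (XT.lf (nat_lit 0) (nat_lit 126818262224) (nat_lit 0) (nat_lit 0) (nat_lit 0) (nat_lit 0) (nat_lit 0) (nat_lit 0) (nat_lit 1) (nat_lit 0) (nat_lit 1) (nat_lit 0) (nat_lit 376) (nat_lit 422) (nat_lit 282))) (XT.nd (nat_lit 94) (nat_lit 0) (nat_lit 0) (XT.lf (nat_lit 0) (nat_lit 126818065656) (nat_lit 0) (nat_lit 0) (nat_lit 0) (nat_lit 0) (nat_lit 0) (nat_lit 0) (nat_lit 1) (nat_lit 0) (nat_lit 1) (nat_lit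 0) (nat_lit 377) (nat_lit 422) (nat_lit 281)) (XT.lf (nat_lit 0) (nat_lit 126817883648) (nat_lit 0) (nat_lit 0) (nat_lit 0) (nat_lit 0) (nat_lit 0) (nat_lit 0) (nat_lit 1) (nat_lit 0) (nat_lit 1) (nat_lit 0) (nat_lit 378) (nat_lit 422) (nat_lit 280)))) (XT.nd (nat_lit 188) (nat_lit 0) (nat_lit 0) (XT.nd (nat_lit 94) (nat_lit 0) (nat_lit 0) (XT.lf (nat_lit 0) (nat_lit 126817715123) (nat_lit 0) (nat_lit 0) (nat_lit 0) (nat_lit 0) (nat_lit 0) (nat_lit 0) (nat_lit 1) (nat_lit 0) (nat_lit 1) (nat_lit 0) (nat_lit 379) (nat_lit 422) (nat_lit 279)) (XT.lf (nat_lit 0) (nat_lit 126817559081) (nat_lit 0) (nat_lit 0) (nat_lit 0) (nat_lit 0) (nat_lit 0) (nat_lit 0) (nat_lit 1) (nat_lit 0) (nat_lit 1) (nat_lit 0) (nat_lit 380) (nat_lit 422) (nat_lit 278))) (XT.nd (nat_lit 94) (nat_lit 0) (nat_lit 0) (XT.lf (nat_lit 0) (nat_lit 126817414597) (nat_lit 0) (nat_lit 0) (nat_lit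 0) (nat_lit 0) (nat_lit 0) (nat_lit 0) (nat_lit 1) (nat_lit 0) (nat_lit 1) (nat_lit 0) (nat_lit 381) (nat_lit 422) (nat_lit 277)) (XT.nd (nat_lit 94) (nat_lit 0) (nat_lit 0) (XT.lf (nat_lit 0) (nat_lit 126817280816) (nat_lit 0) (nat_lit 0) (nat_lit 0) (nat_lit 0) (nat_lit 0) (nat_lit 0) (nat_lit 1) (nat_lit 0) (nat_lit 1) (nat_lit 0) (nat_lit 382) (nat_lit 422) (nat_lit 276)) (XT.lf (nat_lit 0) (nat_lit 126817156945) (nat_lit 0) (nat_lit 0) (nat_lit 0) (nat_lit 0) (nat_lit 0) (nat_lit 0) (nat_lit 1) (nat_lit 0) (nat_lit 1) (nat_lit 0) (nat_lit 383) (nat_lit 422) (nat_lit 275)))))) (XT.nd (nat_lit 470) (nat_lit 0) (nat_lit 0) (XT.nd (nat_lit 188) (nat_lit 0) (nat_lit 0) (XT.nd (nat_lit 94) (nat_lit 0) (nat_lit 0) (XT.lf (nat_lit 0) (nat_lit 126817042249) (nat_lit 0) (nat_lit 0) (nat_lit 0) (nat_lit 0) (nat_lit 0) (nat_lit 0) (nat_lit 1) (nat_lit 0) (nat_lit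 1) (nat_lit 0) (nat_lit 384) (nat_lit 422) (nat_lit 274)) (XT.lf (nat_lit 0) (nat_lit 126816936050) (nat_lit 0) (nat_lit 0) (nat_lit 0) (nat_lit 0) (nat_lit 0) (nat_lit 0) (nat_lit 1) (nat_lit 0) (nat_lit 1) (nat_lit 0) (nat_lit 385) (nat_lit 422) (nat_lit 273))) (XT.nd (nat_lit 94) (nat_lit 0) (nat_lit 0) (XT.lf (nat_lit 0) (nat_lit 126816837717) (nat_lit 0) (nat_lit 0) (nat_lit 0) (nat_lit 0) (nat_lit 0) (nat_lit 0) (nat_lit 1) (nat_lit 0) (nat_lit 1) (nat_lit 0) (nat_lit 386) (nat_lit 422) (nat_lit 272)) (XT.nd (nat_lit 94) (nat_lit 0) (nat_lit 0) (XT.lf (nat_lit 0) (nat_lit 126816746667) (nat_lit 0) (nat_lit 0) (nat_lit 0) (nat_lit 0) (nat_lit 0) (nat_lit 0) (nat_lit 1) (nat_lit 0) (nat_lit 1) (nat_lit 0) (nat_lit 387) (nat_lit 422) (nat_lit 271)) (XT.lf (nat_lit 0) (nat_lit 126816662363) (nat_lit 0) (nat_lit 0) (nat_lit 0) (nat_lit 0) (nat_lit 0) (nat_lit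 0) (nat_lit 1) (nat_lit 0) (nat_lit 1) (nat_lit 0) (nat_lit 388) (nat_lit 422) (nat_lit 270))))) (XT.nd (nat_lit 188) (nat_lit 0) (nat_lit 0) (XT.nd (nat_lit 94) (nat_lit 0) (nat_lit 0) (XT.lf (nat_lit 0) (nat_lit 126816584303) (nat_lit 0) (nat_lit 0) (nat_lit 0) (nat_lit 0) (nat_lit 0) (nat_lit 0) (nat_lit 1) (nat_lit 0) (nat_lit 1) (nat_lit 0) (nat_lit 389) (nat_lit 422) (nat_lit 269)) (XT.lf (nat_lit 0) (nat_lit 126816512025) (nat_lit 0) (nat_lit 0) (nat_lit 0) (nat_lit 0) (nat_lit 0) (nat_lit 0) (nat_lit 1) (nat_lit 0) (nat_lit 1) (nat_lit 0) (nat_lit 390) (nat_lit 422) (nat_lit 268))) (XT.nd (nat_lit 94) (nat_lit 0) (nat_lit 0) (XT.lf (nat_lit 0) (nat_lit 126816445101) (nat_lit 0) (nat_lit 0) (nat_lit 0) (nat_lit 0) (nat_lit 0) (nat_lit 0) (nat_lit 1) (nat_lit 0) (nat_lit 1) (nat_lit 0) (nat_lit 391) (nat_lit 422) (nat_lit 267)) (XT.nd (nat_lit 94) (nat_lit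 0) (nat_lit 0) (XT.lf (nat_lit 0) (nat_lit 126816383135) (nat_lit 0) (nat_lit 0) (nat_lit 0) (nat_lit 0) (nat_lit 0) (nat_lit 0) (nat_lit 1) (nat_lit 0) (nat_lit 1) (nat_lit 0) (nat_lit 392) (nat_lit 422) (nat_lit 266)) (XT.lf (nat_lit 0) (nat_lit 126816325758) (nat_lit 0) (nat_lit 0) (nat_lit 0) (nat_lit 0) (nat_lit 0) (nat_lit 0) (nat_lit 1) (nat_lit 0) (nat_lit 1) (nat_lit 0) (nat_lit 393) (nat_lit 422) (nat_lit 265))))))) (XT.nd (nat_lit 846) (nat_lit 0) (nat_lit 0) (XT.nd (nat_lit 376) (nat_lit 0) (nat_lit 0) (XT.nd (nat_lit 188) (nat_lit 0) (nat_lit 0) (XT.nd (nat_lit 94) (nat_lit 0) (nat_lit 0) (XT.lf (nat_lit 0) (nat_lit 126816272632) (nat_lit 0) (nat_lit 0) (nat_lit 0) (nat_lit 0) (nat_lit 0) (nat_lit 0) (nat_lit 1) (nat_lit 0) (nat_lit 1) (nat_lit 0) (nat_lit 394) (nat_lit 422) (nat_lit 264)) (XT.lf (nat_lit 0) (nat_lit 126816223441) (nat_lit 0)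 (nat_lit 0) (nat_lit 0) (nat_lit 0) (nat_lit 0) (nat_lit 0) (nat_lit 1) (nat_lit 0) (nat_lit 1) (nat_lit 0) (nat_lit 395) (nat_lit 422) (nat_lit 263))) (XT.nd (nat_lit 94) (nat_lit 0) (nat_lit 0) (XT.lf (nat_lit 0) (nat_lit 126816177894) (nat_lit 0) (nat_lit 0) (nat_lit 0) (nat_lit 0) (nat_lit 0) (nat_lit 0) (nat_lit 1) (nat_lit 0) (nat_lit 1) (nat_lit 0) (nat_lit 396) (nat_lit 422) (nat_lit 262)) (XT.lf (nat_lit 0) (nat_lit 126816135721) (nat_lit 0) (nat_lit 0) (nat_lit 0) (nat_lit 0) (nat_lit 0) (nat_lit 0) (nat_lit 1) (nat_lit 0) (nat_lit 1) (nat_lit 0) (nat_lit 397) (nat_lit 422) (nat_lit 261)))) (XT.nd (nat_lit 188) (nat_lit 0) (nat_lit 0) (XT.nd (nat_lit 94) (nat_lit 0) (nat_lit 0) (XT.lf (nat_lit 0) (nat_lit 126816096671) (nat_lit 0) (nat_lit 0) (nat_lit 0) (nat_lit 0) (nat_lit 0) (nat_lit 0) (nat_lit 1) (nat_lit 0) (nat_lit 1) (nat_lit 0) (nat_lit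 398) (nat_lit 422) (nat_lit 260)) (XT.lf (nat_lit 0) (nat_lit 126816060514) (nat_lit 0) (nat_lit 0) (nat_lit 0) (nat_lit 0) (nat_lit 0) (nat_lit 0) (nat_lit 1) (nat_lit 0) (nat_lit 1) (nat_lit 0) (nat_lit 399) (nat_lit 422) (nat_lit 259))) (XT.nd (nat_lit 94) (nat_lit 0) (nat_lit 0) (XT.lf (nat_lit 0) (nat_lit 126816027036) (nat_lit 0) (nat_lit 0) (nat_lit 0) (nat_lit 0) (nat_lit 0) (nat_lit 0) (nat_lit 1) (nat_lit 0) (nat_lit 1) (nat_lit 0) (nat_lit 400) (nat_lit 422) (nat_lit 258)) (XT.nd (nat_lit 94) (nat_lit 0) (nat_lit 0) (XT.lf (nat_lit 0) (nat_lit 126815996037) (nat_lit 0) (nat_lit 0) (nat_lit 0) (nat_lit 0) (nat_lit 0) (nat_lit 0) (nat_lit 1) (nat_lit 0) (nat_lit 1) (nat_lit 0) (nat_lit 401) (nat_lit 422) (nat_lit 257)) (XT.lf (nat_lit 0) (nat_lit 126815967335) (nat_lit 0) (nat_lit 0) (nat_lit 0) (nat_lit 0) (nat_lit 0) (nat_lit 0) (nat_lit 1) (nat_lit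 0) (nat_lit 1) (nat_lit 0) (nat_lit 402) (nat_lit 422) (nat_lit 256)))))) (XT.nd (nat_lit 470) (nat_lit 0) (nat_lit 0) (XT.nd (nat_lit 188) (nat_lit 0) (nat_lit 0) (XT.nd (nat_lit 94) (nat_lit 0) (nat_lit 0) (XT.lf (nat_lit 0) (nat_lit 126815940758) (nat_lit 0) (nat_lit 0) (nat_lit 0) (nat_lit 0) (nat_lit 0) (nat_lit 0) (nat_lit 1) (nat_lit 0) (nat_lit 1) (nat_lit 0) (nat_lit 403) (nat_lit 422) (nat_lit 255)) (XT.lf (nat_lit 0) (nat_lit 126815916151) (nat_lit 0) (nat_lit 0) (nat_lit 0) (nat_lit 0) (nat_lit 0) (nat_lit 0) (nat_lit 1) (nat_lit 0) (nat_lit 1) (nat_lit 0) (nat_lit 404) (nat_lit 422) (nat_lit 254))) (XT.nd (nat_lit 94) (nat_lit 0) (nat_lit 0) (XT.lf (nat_lit 0) (nat_lit 126815893366) (nat_lit 0) (nat_lit 0) (nat_lit 0) (nat_lit 0) (nat_lit 0) (nat_lit 0) (nat_lit 1) (nat_lit 0) (nat_lit 1) (nat_lit 0) (nat_lit 405) (nat_lit 422) (nat_lit 253))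 (XT.nd (nat_lit 94) (nat_lit 0) (nat_lit 0) (XT.lf (nat_lit 0) (nat_lit 126815872269) (nat_lit 0) (nat_lit 0) (nat_lit 0) (nat_lit 0) (nat_lit 0) (nat_lit 0) (nat_lit 1) (nat_lit 0) (nat_lit 1) (nat_lit 0) (nat_lit 406) (nat_lit 422) (nat_lit 252)) (XT.lf (nat_lit 0) (nat_lit 126815852734) (nat_lit 0) (nat_lit 0) (nat_lit 0) (nat_lit 0) (nat_lit 0) (nat_lit 0) (nat_lit 1) (nat_lit 0) (nat_lit 1) (nat_lit 0) (nat_lit 407) (nat_lit 422) (nat_lit 251))))) (XT.nd (nat_lit 188) (nat_lit 0) (nat_lit 0) (XT.nd (nat_lit 94) (nat_lit 0) (nat_lit 0) (XT.lf (nat_lit 0) (nat_lit 126815834647) (nat_lit 0) (nat_lit 0) (nat_lit 0) (nat_lit 0) (nat_lit 0) (nat_lit 0) (nat_lit 1) (nat_lit 0) (nat_lit 1) (nat_lit 0) (nat_lit 408) (nat_lit 422) (nat_lit 250)) (XT.lf (nat_lit 0) (nat_lit 126815817899) (nat_lit 0) (nat_lit 0) (nat_lit 0) (nat_lit 0) (nat_lit 0) (nat_lit 0) (nat_lit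 1) (nat_lit 0) (nat_lit 1) (nat_lit 0) (nat_lit 409) (nat_lit 422) (nat_lit 249))) (XT.nd (nat_lit 94) (nat_lit 0) (nat_lit 0) (XT.lf (nat_lit 0) (nat_lit 126815802392) (nat_lit 0) (nat_lit 0) (nat_lit 0) (nat_lit 0) (nat_lit 0) (nat_lit 0) (nat_lit 1) (nat_lit 0) (nat_lit 1) (nat_lit 0) (nat_lit 410) (nat_lit 422) (nat_lit 248)) (XT.nd (nat_lit 94) (nat_lit 0) (nat_lit 0) (XT.lf (nat_lit 0) (nat_lit 126815788034) (nat_lit 0) (nat_lit 0) (nat_lit 0) (nat_lit 0) (nat_lit 0) (nat_lit 0) (nat_lit 1) (nat_lit 0) (nat_lit 1) (nat_lit 0) (nat_lit 411) (nat_lit 422) (nat_lit 247)) (XT.lf (nat_lit 0) (nat_lit 126815774739) (nat_lit 0) (nat_lit 0) (nat_lit 0) (nat_lit 0) (nat_lit 0) (nat_lit 0) (nat_lit 1) (nat_lit 0) (nat_lit 1) (nat_lit 0) (nat_lit 412) (nat_lit 422) (nat_lit 246))))))))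
noncomputable def ec262 : XT := (XT.nd (nat_lit 1692) (nat_lit 0) (nat_lit 0) (XT.nd (nat_lit 846) (nat_lit 0) (nat_lit 0) (XT.nd (nat_lit 376) (nat_lit 0) (nat_lit 0) (XT.nd (nat_lit 188) (nat_lit 0) (nat_lit 0) (XT.nd (nat_lit 94) (nat_lit 0) (nat_lit 0) (XT.lf (nat_lit 0) (nat_lit 126815762429) (nat_lit 0) (nat_lit 0) (nat_lit 0) (nat_lit 0) (nat_lit 0) (nat_lit 0) (nat_lit 1) (nat_lit 0) (nat_lit 1) (nat_lit 0) (nat_lit 413) (nat_lit 422) (nat_lit 245)) (XT.lf (nat_lit 0) (nat_lit 126815751031) (nat_lit 0) (nat_lit 0) (nat_lit 0) (nat_lit 0) (nat_lit 0) (nat_lit 0) (nat_lit 1) (nat_lit 0) (nat_lit 1) (nat_lit 0) (nat_lit 414) (nat_lit 422) (nat_lit 244))) (XT.nd (nat_lit 94) (nat_lit 0) (nat_lit 0) (XT.lf (nat_lit 0) (nat_lit 126815740477) (nat_lit 0) (nat_lit 0) (nat_lit 0) (nat_lit 0) (nat_lit 0) (nat_lit 0) (nat_lit 1) (nat_lit 0) (nat_lit 1) (nat_lit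 0) (nat_lit 415) (nat_lit 422) (nat_lit 243)) (XT.lf (nat_lit 0) (nat_lit 126815730705) (nat_lit 0) (nat_lit 0) (nat_lit 0) (nat_lit 0) (nat_lit 0) (nat_lit 0) (nat_lit 1) (nat_lit 0) (nat_lit 1) (nat_lit 0) (nat_lit 416) (nat_lit 422) (nat_lit 242)))) (XT.nd (nat_lit 188) (nat_lit 0) (nat_lit 0) (XT.nd (nat_lit 94) (nat_lit 0) (nat_lit 0) (XT.lf (nat_lit 0) (nat_lit 126815721657) (nat_lit 0) (nat_lit 0) (nat_lit 0) (nat_lit 0) (nat_lit 0) (nat_lit 0) (nat_lit 1) (nat_lit 0) (nat_lit 1) (nat_lit 0) (nat_lit 417) (nat_lit 422) (nat_lit 241)) (XT.lf (nat_lit 0) (nat_lit 126815713279) (nat_lit 0) (nat_lit 0) (nat_lit 0) (nat_lit 0) (nat_lit 0) (nat_lit 0) (nat_lit 1) (nat_lit 0) (nat_lit 1) (nat_lit 0) (nat_lit 418) (nat_lit 422) (nat_lit 240))) (XT.nd (nat_lit 94) (nat_lit 0) (nat_lit 0) (XT.lf (nat_lit 0) (nat_lit 126815705521) (nat_lit 0) (nat_lit 0) (nat_lit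 0) (nat_lit 0) (nat_lit 0) (nat_lit 0) (nat_lit 1) (nat_lit 0) (nat_lit 1) (nat_lit 0) (nat_lit 419) (nat_lit 422) (nat_lit 239)) (XT.nd (nat_lit 94) (nat_lit 0) (nat_lit 0) (XT.lf (nat_lit 0) (nat_lit 126815698338) (nat_lit 0) (nat_lit 0) (nat_lit 0) (nat_lit 0) (nat_lit 0) (nat_lit 0) (nat_lit 1) (nat_lit 0) (nat_lit 1) (nat_lit 0) (nat_lit 420) (nat_lit 422) (nat_lit 238)) (XT.lf (nat_lit 0) (nat_lit 126815691688) (nat_lit 0) (nat_lit 0) (nat_lit 0) (nat_lit 0) (nat_lit 0) (nat_lit 0) (nat_lit 1) (nat_lit 0) (nat_lit 1) (nat_lit 0) (nat_lit 421) (nat_lit 422) (nat_lit 237)))))) (XT.nd (nat_lit 376) (nat_lit 0) (nat_lit 0) (XT.nd (nat_lit 188) (nat_lit 0) (nat_lit 0) (XT.nd (nat_lit 94) (nat_lit 0) (nat_lit 0) (XT.lf (nat_lit 0) (nat_lit 126815685530) (nat_lit 0) (nat_lit 0) (nat_lit 0) (nat_lit 0) (nat_lit 0) (nat_lit 0) (nat_lit 1) (nat_lit 0) (nat_lit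 1) (nat_lit 0) (nat_lit 422) (nat_lit 422) (nat_lit 236)) (XT.lf (nat_lit 0) (nat_lit 126815679828) (nat_lit 0) (nat_lit 0) (nat_lit 0) (nat_lit 0) (nat_lit 0) (nat_lit 0) (nat_lit 1) (nat_lit 0) (nat_lit 1) (nat_lit 0) (nat_lit 423) (nat_lit 422) (nat_lit 235))) (XT.nd (nat_lit 94) (nat_lit 0) (nat_lit 0) (XT.lf (nat_lit 0) (nat_lit 126815674548) (nat_lit 0) (nat_lit 0) (nat_lit 0) (nat_lit 0) (nat_lit 0) (nat_lit 0) (nat_lit 1) (nat_lit 0) (nat_lit 1) (nat_lit 0) (nat_lit 424) (nat_lit 422) (nat_lit 234)) (XT.lf (nat_lit 0) (nat_lit 126815669660) (nat_lit 0) (nat_lit 0) (nat_lit 0) (nat_lit 0) (nat_lit 0) (nat_lit 0) (nat_lit 1) (nat_lit 0) (nat_lit 1) (nat_lit 0) (nat_lit 425) (nat_lit 422) (nat_lit 233)))) (XT.nd (nat_lit 188) (nat_lit 0) (nat_lit 0) (XT.nd (nat_lit 94) (nat_lit 0) (nat_lit 0) (XT.lf (nat_lit 0) (nat_lit 126815665133) (nat_lit 0) (nat_lit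 0) (nat_lit 0) (nat_lit 0) (nat_lit 0) (nat_lit 0) (nat_lit 1) (nat_lit 0) (nat_lit 1) (nat_lit 0) (nat_lit 426) (nat_lit 422) (nat_lit 232)) (XT.lf (nat_lit 0) (nat_lit 126815660942) (nat_lit 0) (nat_lit 0) (nat_lit 0) (nat_lit 0) (nat_lit 0) (nat_lit 0) (nat_lit 1) (nat_lit 0) (nat_lit 1) (nat_lit 0) (nat_lit 427) (nat_lit 422) (nat_lit 231))) (XT.nd (nat_lit 94) (nat_lit 0) (nat_lit 0) (XT.lf (nat_lit 0) (nat_lit 126815657062) (nat_lit 0) (nat_lit 0) (nat_lit 0) (nat_lit 0) (nat_lit 0) (nat_lit 0) (nat_lit 1) (nat_lit 0) (nat_lit 1) (nat_lit 0) (nat_lit 428) (nat_lit 422) (nat_lit 230)) (XT.nd (nat_lit 94) (nat_lit 0) (nat_lit 0) (XT.lf (nat_lit 0) (nat_lit 126815653468) (nat_lit 0) (nat_lit 0) (nat_lit 0) (nat_lit 0) (nat_lit 0) (nat_lit 0) (nat_lit 1) (nat_lit 0) (nat_lit 1) (nat_lit 0) (nat_lit 429) (nat_lit 422) (nat_lit 229)) (XT.lf (nat_lit 0) (nat_lit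 126815650141) (nat_lit 0) (nat_lit 0) (nat_lit 0) (nat_lit 0) (nat_lit 0) (nat_lit 0) (nat_lit 1) (nat_lit 0) (nat_lit 1) (nat_lit 0) (nat_lit 430) (nat_lit 422) (nat_lit 228))))))) (XT.nd (nat_lit 846) (nat_lit 0) (nat_lit 0) (XT.nd (nat_lit 376) (nat_lit 0) (nat_lit 0) (XT.nd (nat_lit 188) (nat_lit 0) (nat_lit 0) (XT.nd (nat_lit 94) (nat_lit 0) (nat_lit 0) (XT.lf (nat_lit 0) (nat_lit 126815647061) (nat_lit 0) (nat_lit 0) (nat_lit 0) (nat_lit 0) (nat_lit 0) (nat_lit 0) (nat_lit 1) (nat_lit 0) (nat_lit 1) (nat_lit 0) (nat_lit 431) (nat_lit 422) (nat_lit 227)) (XT.lf (nat_lit 0) (nat_lit 126815644209) (nat_lit 0) (nat_lit 0) (nat_lit 0) (nat_lit 0) (nat_lit 0) (nat_lit 0) (nat_lit 1) (nat_lit 0) (nat_lit 1) (nat_lit 0) (nat_lit 432) (nat_lit 422) (nat_lit 226))) (XT.nd (nat_lit 94) (nat_lit 0) (nat_lit 0) (XT.lf (nat_lit 0) (nat_lit 126815641567) (nat_lit 0)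 (nat_lit 0) (nat_lit 0) (nat_lit 0) (nat_lit 0) (nat_lit 0) (nat_lit 1) (nat_lit 0) (nat_lit 1) (nat_lit 0) (nat_lit 433) (nat_lit 422) (nat_lit 225)) (XT.lf (nat_lit 0) (nat_lit 126815639122) (nat_lit 0) (nat_lit 0) (nat_lit 0) (nat_lit 0) (nat_lit 0) (nat_lit 0) (nat_lit 1) (nat_lit 0) (nat_lit 1) (nat_lit 0) (nat_lit 434) (nat_lit 422) (nat_lit 224)))) (XT.nd (nat_lit 188) (nat_lit 0) (nat_lit 0) (XT.nd (nat_lit 94) (nat_lit 0) (nat_lit 0) (XT.lf (nat_lit 0) (nat_lit 126815636858) (nat_lit 0) (nat_lit 0) (nat_lit 0) (nat_lit 0) (nat_lit 0) (nat_lit 0) (nat_lit 1) (nat_lit 0) (nat_lit 1) (nat_lit 0) (nat_lit 435) (nat_lit 422) (nat_lit 223)) (XT.lf (nat_lit 0) (nat_lit 126815634761) (nat_lit 0) (nat_lit 0) (nat_lit 0) (nat_lit 0) (nat_lit 0) (nat_lit 0) (nat_lit 1) (nat_lit 0) (nat_lit 1) (nat_lit 0) (nat_lit 436) (nat_lit 422) (nat_lit 222))) (XT.nd (nat_lit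 94) (nat_lit 0) (nat_lit 0) (XT.lf (nat_lit 0) (nat_lit 126815632820) (nat_lit 0) (nat_lit 0) (nat_lit 0) (nat_lit 0) (nat_lit 0) (nat_lit 0) (nat_lit 1) (nat_lit 0) (nat_lit 1) (nat_lit 0) (nat_lit 437) (nat_lit 422) (nat_lit 221)) (XT.nd (nat_lit 94) (nat_lit 0) (nat_lit 0) (XT.lf (nat_lit 0) (nat_lit 126815631022) (nat_lit 0) (nat_lit 0) (nat_lit 0) (nat_lit 0) (nat_lit 0) (nat_lit 0) (nat_lit 1) (nat_lit 0) (nat_lit 1) (nat_lit 0) (nat_lit 438) (nat_lit 422) (nat_lit 220)) (XT.lf (nat_lit 0) (nat_lit 126815629358) (nat_lit 0) (nat_lit 0) (nat_lit 0) (nat_lit 0) (nat_lit 0) (nat_lit 0) (nat_lit 1) (nat_lit 0) (nat_lit 1) (nat_lit 0) (nat_lit 439) (nat_lit 422) (nat_lit 219)))))) (XT.nd (nat_lit 48504) (nat_lit 0) (nat_lit 10836) (XT.nd (nat_lit 188) (nat_lit 0) (nat_lit 0) (XT.nd (nat_lit 94) (nat_lit 0) (nat_lit 0) (XT.lf (nat_lit 0) (nat_lit 126815627817)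 (nat_lit 0) (nat_lit 0) (nat_lit 0) (nat_lit 0) (nat_lit 0) (nat_lit 0) (nat_lit 1) (nat_lit 0) (nat_lit 1) (nat_lit 0) (nat_lit 440) (nat_lit 422) (nat_lit 218)) (XT.lf (nat_lit 0) (nat_lit 126815626390) (nat_lit 0) (nat_lit 0) (nat_lit 0) (nat_lit 0) (nat_lit 0) (nat_lit 0) (nat_lit 1) (nat_lit 0) (nat_lit 1) (nat_lit 0) (nat_lit 441) (nat_lit 422) (nat_lit 217))) (XT.nd (nat_lit 94) (nat_lit 0) (nat_lit 0) (XT.lf (nat_lit 0) (nat_lit 126815625069) (nat_lit 0) (nat_lit 0) (nat_lit 0) (nat_lit 0) (nat_lit 0) (nat_lit 0) (nat_lit 1) (nat_lit 0) (nat_lit 1) (nat_lit 0) (nat_lit 442) (nat_lit 422) (nat_lit 216)) (XT.nd (nat_lit 48128) (nat_lit 0) (nat_lit 10752) (XT.lf (nat_lit 0) (nat_lit 126815623846) (nat_lit 0) (nat_lit 0) (nat_lit 0) (nat_lit 0) (nat_lit 0) (nat_lit 0) (nat_lit 1) (nat_lit 0) (nat_lit 1) (nat_lit 0) (nat_lit 443) (nat_lit 422) (nat_lit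 215)) (XT.lf (nat_lit 924) (nat_lit 68540343187) (nat_lit 0) (nat_lit 121693221782) (nat_lit 924) (nat_lit 68540343187) (nat_lit 139) (nat_lit 1) (nat_lit 128) (nat_lit 0) (nat_lit 139) (nat_lit 0) (nat_lit 234) (nat_lit 423) (nat_lit 423))))) (XT.nd (nat_lit 188) (nat_lit 0) (nat_lit 84) (XT.nd (nat_lit 94) (nat_lit 0) (nat_lit 0) (XT.lf (nat_lit 924) (nat_lit 25567651110) (nat_lit 0) (nat_lit 238920676687) (nat_lit 840) (nat_lit 233663623583) (nat_lit 140) (nat_lit 1) (nat_lit 129) (nat_lit 1) (nat_lit 139) (nat_lit 1) (nat_lit 235) (nat_lit 423) (nat_lit 422)) (XT.lf (nat_lit 924) (nat_lit 234824117584) (nat_lit 84) (nat_lit 160005257712) (nat_lit 0) (nat_lit 84859489874) (nat_lit 140) (nat_lit 1) (nat_lit 130) (nat_lit 1) (nat_lit 129) (nat_lit 1) (nat_lit 236) (nat_lit 423) (nat_lit 421))) (XT.nd (nat_lit 94) (nat_lit 0) (nat_lit 84) (XT.lf (nat_lit 924)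 (nat_lit 202907274662) (nat_lit 84) (nat_lit 67057094455) (nat_lit 0) (nat_lit 192185349509) (nat_lit 141) (nat_lit 1) (nat_lit 131) (nat_lit 1) (nat_lit 130) (nat_lit 1) (nat_lit 237) (nat_lit 423) (nat_lit 420)) (XT.nd (nat_lit 94) (nat_lit 0) (nat_lit 84) (XT.lf (nat_lit 924) (nat_lit 150168633827) (nat_lit 0) (nat_lit 280958415726) (nat_lit 840) (nat_lit 14362554071) (nat_lit 142) (nat_lit 1) (nat_lit 131) (nat_lit 1) (nat_lit 141) (nat_lit 1) (nat_lit 238) (nat_lit 423) (nat_lit 419)) (XT.lf (nat_lit 924) (nat_lit 36031491324) (nat_lit 0) (nat_lit 309834706613) (nat_lit 840) (nat_lit 83758927797) (nat_lit 143) (nat_lit 1) (nat_lit 132) (nat_lit 1) (nat_lit 142) (nat_lit 1) (nat_lit 239) (nat_lit 423) (nat_lit 418))))))))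
noncomputable def ec263 : XT := (XT.nd (nat_lit 1786) (nat_lit 3192) (nat_lit 0) (XT.nd (nat_lit 846) (nat_lit 2772) (nat_lit 0) (XT.nd (nat_lit 376) (nat_lit 1512) (nat_lit 0) (XT.nd (nat_lit 188) (nat_lit 1008) (nat_lit 0) (XT.nd (nat_lit 94) (nat_lit 756) (nat_lit 0) (XT.lf (nat_lit 924) (nat_lit 69237871076) (nat_lit 84) (nat_lit 269271590970) (nat_lit 0) (nat_lit 75991765152) (nat_lit 143) (nat_lit 1) (nat_lit 133) (nat_lit 1) (nat_lit 132) (nat_lit 1) (nat_lit 240) (nat_lit 423) (nat_lit 417)) (XT.lf (nat_lit 924) (nat_lit 14219879883) (nat_lit 0) (nat_lit 201298325881) (nat_lit 840) (nat_lit 184588455662) (nat_lit 134) (nat_lit 1) (nat_lit 123) (nat_lit 1) (nat_lit 133) (nat_lit 1) (nat_lit 241) (nat_lit 423) (nat_lit 416))) (XT.nd (nat_lit 94) (nat_lit 420) (nat_lit 0) (XT.lf (nat_lit 84) (nat_lit 98461410434) (nat_lit 0) (nat_lit 42667911164) (nat_lit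 588) (nat_lit 245264342846) (nat_lit 117) (nat_lit 1) (nat_lit 116) (nat_lit 1) (nat_lit 123) (nat_lit 1) (nat_lit 242) (nat_lit 423) (nat_lit 415)) (XT.lf (nat_lit 504) (nat_lit 271347254134) (nat_lit 0) (nat_lit 88329380995) (nat_lit 420) (nat_lit 13656268080) (nat_lit 117) (nat_lit 1) (nat_lit 111) (nat_lit 1) (nat_lit 116) (nat_lit 1) (nat_lit 243) (nat_lit 423) (nat_lit 414)))) (XT.nd (nat_lit 188) (nat_lit 756) (nat_lit 0) (XT.nd (nat_lit 94) (nat_lit 336) (nat_lit 0) (XT.lf (nat_lit 504) (nat_lit 195806762548) (nat_lit 0) (nat_lit 41170704973) (nat_lit 420) (nat_lit 123856263833) (nat_lit 112) (nat_lit 1) (nat_lit 106) (nat_lit 1) (nat_lit 111) (nat_lit 1) (nat_lit 244) (nat_lit 423) (nat_lit 413)) (XT.lf (nat_lit 420) (nat_lit 119145917703) (nat_lit 0) (nat_lit 758019584) (nat_lit 336) (nat_lit 229036679877) (nat_lit 107) (nat_lit 1) (nat_lit 102)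 (nat_lit 1) (nat_lit 106) (nat_lit 1) (nat_lit 245) (nat_lit 423) (nat_lit 412))) (XT.nd (nat_lit 94) (nat_lit 756) (nat_lit 0) (XT.lf (nat_lit 84) (nat_lit 8790022726) (nat_lit 0) (nat_lit 296442159110) (nat_lit 420) (nat_lit 32362425626) (nat_lit 103) (nat_lit 1) (nat_lit 102) (nat_lit 1) (nat_lit 107) (nat_lit 1) (nat_lit 246) (nat_lit 423) (nat_lit 411)) (XT.nd (nat_lit 94) (nat_lit 336) (nat_lit 0) (XT.lf (nat_lit 84) (nat_lit 226960666653) (nat_lit 0) (nat_lit 37643855028) (nat_lit 420) (nat_lit 62081553584) (nat_lit 98) (nat_lit 1) (nat_lit 97) (nat_lit 1) (nat_lit 102) (nat_lit 1) (nat_lit 247) (nat_lit 423) (nat_lit 410)) (XT.lf (nat_lit 84) (nat_lit 113554172856) (nat_lit 0) (nat_lit 115309810348) (nat_lit 420) (nat_lit 87395554437) (nat_lit 94) (nat_lit 1) (nat_lit 93) (nat_lit 1) (nat_lit 98) (nat_lit 1) (nat_lit 248) (nat_lit 423) (nat_lit 409))))))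 (XT.nd (nat_lit 470) (nat_lit 1260) (nat_lit 0) (XT.nd (nat_lit 188) (nat_lit 924) (nat_lit 0) (XT.nd (nat_lit 94) (nat_lit 252) (nat_lit 0) (XT.lf (nat_lit 84) (nat_lit 5604782170) (nat_lit 0) (nat_lit 192796212395) (nat_lit 420) (nat_lit 107925667549) (nat_lit 90) (nat_lit 1) (nat_lit 89) (nat_lit 1) (nat_lit 94) (nat_lit 1) (nat_lit 249) (nat_lit 423) (nat_lit 408)) (XT.lf (nat_lit 336) (nat_lit 25310880396) (nat_lit 0) (nat_lit 171165368580) (nat_lit 252) (nat_lit 100306839797) (nat_lit 90) (nat_lit 1) (nat_lit 86) (nat_lit 1) (nat_lit 89) (nat_lit 1) (nat_lit 250) (nat_lit 423) (nat_lit 407))) (XT.nd (nat_lit 94) (nat_lit 504) (nat_lit 0) (XT.lf (nat_lit 84) (nat_lit 87455896847) (nat_lit 0) (nat_lit 59942815126) (nat_lit 420) (nat_lit 140235065778) (nat_lit 82) (nat_lit 1) (nat_lit 81) (nat_lit 1) (nat_lit 86) (nat_lit 1) (nat_lit 251) (nat_lit 423)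 (nat_lit 406)) (XT.nd (nat_lit 94) (nat_lit 252) (nat_lit 0) (XT.lf (nat_lit 336) (nat_lit 135402764191) (nat_lit 0) (nat_lit 127193396562) (nat_lit 252) (nat_lit 16280603803) (nat_lit 82) (nat_lit 1) (nat_lit 78) (nat_lit 1) (nat_lit 81) (nat_lit 1) (nat_lit 252) (nat_lit 423) (nat_lit 405)) (XT.lf (nat_lit 336) (nat_lit 43395931784) (nat_lit 0) (nat_lit 109508305921) (nat_lit 252) (nat_lit 117552048118) (nat_lit 79) (nat_lit 1) (nat_lit 75) (nat_lit 1) (nat_lit 78) (nat_lit 1) (nat_lit 253) (nat_lit 423) (nat_lit 404))))) (XT.nd (nat_lit 188) (nat_lit 672) (nat_lit 0) (XT.nd (nat_lit 94) (nat_lit 252) (nat_lit 0) (XT.lf (nat_lit 84) (nat_lit 49460876378) (nat_lit 0) (nat_lit 45285730570) (nat_lit 336) (nat_lit 167638918478) (nat_lit 72) (nat_lit 1) (nat_lit 71) (nat_lit 1) (nat_lit 75) (nat_lit 1) (nat_lit 254) (nat_lit 423) (nat_lit 403)) (XT.lf (nat_lit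 336) (nat_lit 123076899144) (nat_lit 0) (nat_lit 81890807813) (nat_lit 252) (nat_lit 49642476940) (nat_lit 72) (nat_lit 1) (nat_lit 68) (nat_lit 1) (nat_lit 71) (nat_lit 1) (nat_lit 255) (nat_lit 423) (nat_lit 402))) (XT.nd (nat_lit 94) (nat_lit 504) (nat_lit 0) (XT.lf (nat_lit 252) (nat_lit 30510945029) (nat_lit 0) (nat_lit 71443756685) (nat_lit 168) (nat_lit 145193819624) (nat_lit 69) (nat_lit 1) (nat_lit 66) (nat_lit 1) (nat_lit 68) (nat_lit 1) (nat_lit 256) (nat_lit 423) (nat_lit 401)) (XT.nd (nat_lit 94) (nat_lit 168) (nat_lit 0) (XT.lf (nat_lit 84) (nat_lit 5168749015) (nat_lit 0) (nat_lit 57839423563) (nat_lit 336) (nat_lit 176967919899) (nat_lit 63) (nat_lit 1) (nat_lit 62) (nat_lit 1) (nat_lit 66) (nat_lit 1) (nat_lit 257) (nat_lit 423) (nat_lit 400)) (XT.lf (nat_lit 252) (nat_lit 88659207891) (nat_lit 0) (nat_lit 55404398872) (nat_lit 168) (nat_lit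 88967742826) (nat_lit 63) (nat_lit 1) (nat_lit 60) (nat_lit 1) (nat_lit 62) (nat_lit 1) (nat_lit 258) (nat_lit 423) (nat_lit 399))))))) (XT.nd (nat_lit 846) (nat_lit 1512) (nat_lit 0) (XT.nd (nat_lit 376) (nat_lit 840) (nat_lit 0) (XT.nd (nat_lit 188) (nat_lit 420) (nat_lit 0) (XT.nd (nat_lit 94) (nat_lit 168) (nat_lit 0) (XT.lf (nat_lit 84) (nat_lit 48102781110) (nat_lit 0) (nat_lit 2221897617) (nat_lit 252) (nat_lit 176064972624) (nat_lit 58) (nat_lit 1) (nat_lit 57) (nat_lit 1) (nat_lit 60) (nat_lit 1) (nat_lit 259) (nat_lit 423) (nat_lit 398)) (XT.lf (nat_lit 252) (nat_lit 131503714688) (nat_lit 0) (nat_lit 45568985700) (nat_lit 168) (nat_lit 42868455000) (nat_lit 58) (nat_lit 1) (nat_lit 55) (nat_lit 1) (nat_lit 57) (nat_lit 1) (nat_lit 260) (nat_lit 423) (nat_lit 397))) (XT.nd (nat_lit 94) (nat_lit 252) (nat_lit 0) (XT.lf (nat_lit 252) (nat_lit 40850323504)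 (nat_lit 0) (nat_lit 42361411303) (nat_lit 168) (nat_lit 130527478841) (nat_lit 56) (nat_lit 1) (nat_lit 53) (nat_lit 1) (nat_lit 55) (nat_lit 1) (nat_lit 261) (nat_lit 423) (nat_lit 396)) (XT.lf (nat_lit 252) (nat_lit 162160771394) (nat_lit 0) (nat_lit 40472890233) (nat_lit 168) (nat_lit 5134455679) (nat_lit 53) (nat_lit 1) (nat_lit 50) (nat_lit 1) (nat_lit 52) (nat_lit 1) (nat_lit 262) (nat_lit 423) (nat_lit 395)))) (XT.nd (nat_lit 188) (nat_lit 504) (nat_lit 0) (XT.nd (nat_lit 94) (nat_lit 168) (nat_lit 0) (XT.lf (nat_lit 252) (nat_lit 72575645759) (nat_lit 0) (nat_lit 38637964870) (nat_lit 168) (nat_lit 90749328256) (nat_lit 51) (nat_lit 1) (nat_lit 48) (nat_lit 1) (nat_lit 50) (nat_lit 1) (nat_lit 263) (nat_lit 423) (nat_lit 394)) (XT.lf (nat_lit 84) (nat_lit 24859960740) (nat_lit 0) (nat_lit 13664154645) (nat_lit 168) (nat_lit 157874428879) (nat_lit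 47) (nat_lit 1) (nat_lit 46) (nat_lit 1) (nat_lit 48) (nat_lit 1) (nat_lit 264) (nat_lit 423) (nat_lit 393))) (XT.nd (nat_lit 94) (nat_lit 336) (nat_lit 0) (XT.lf (nat_lit 252) (nat_lit 95223421113) (nat_lit 0) (nat_lit 38116187886) (nat_lit 168) (nat_lit 57634952853) (nat_lit 47) (nat_lit 1) (nat_lit 44) (nat_lit 1) (nat_lit 46) (nat_lit 1) (nat_lit 265) (nat_lit 423) (nat_lit 392)) (XT.nd (nat_lit 94) (nat_lit 252) (nat_lit 0) (XT.lf (nat_lit 168) (nat_lit 10254209346) (nat_lit 0) (nat_lit 39052370716) (nat_lit 84) (nat_lit 136458131222) (nat_lit 45) (nat_lit 1) (nat_lit 43) (nat_lit 1) (nat_lit 44) (nat_lit 1) (nat_lit 266) (nat_lit 423) (nat_lit 391)) (XT.lf (nat_lit 252) (nat_lit 110690404085) (nat_lit 0) (nat_lit 39940153984) (nat_lit 168) (nat_lit 30067954315) (nat_lit 43) (nat_lit 1) (nat_lit 40) (nat_lit 1) (nat_lit 42) (nat_lit 1) (nat_lit 267) (nat_lit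 423) (nat_lit 390)))))) (XT.nd (nat_lit 470) (nat_lit 756) (nat_lit 0) (XT.nd (nat_lit 188) (nat_lit 420) (nat_lit 0) (XT.nd (nat_lit 94) (nat_lit 252) (nat_lit 0) (XT.lf (nat_lit 168) (nat_lit 27839452855) (nat_lit 0) (nat_lit 41433556588) (nat_lit 84) (nat_lit 106530045120) (nat_lit 41) (nat_lit 1) (nat_lit 39) (nat_lit 1) (nat_lit 40) (nat_lit 1) (nat_lit 268) (nat_lit 423) (nat_lit 389)) (XT.lf (nat_lit 252) (nat_lit 120510144933) (nat_lit 0) (nat_lit 43431909281) (nat_lit 168) (nat_lit 7127548110) (nat_lit 39) (nat_lit 1) (nat_lit 36) (nat_lit 1) (nat_lit 38) (nat_lit 1) (nat_lit 269) (nat_lit 423) (nat_lit 388))) (XT.nd (nat_lit 94) (nat_lit 336) (nat_lit 0) (XT.lf (nat_lit 168) (nat_lit 40064792009) (nat_lit 0) (nat_lit 45278287313) (nat_lit 84) (nat_lit 81119961983) (nat_lit 37) (nat_lit 1) (nat_lit 35) (nat_lit 1) (nat_lit 36) (nat_lit 1) (nat_lit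 270) (nat_lit 423) (nat_lit 387)) (XT.nd (nat_lit 94) (nat_lit 84) (nat_lit 0) (XT.lf (nat_lit 84) (nat_lit 11564293405) (nat_lit 0) (nat_lit 36297234407) (nat_lit 252) (nat_lit 114160443491) (nat_lit 33) (nat_lit 1) (nat_lit 32) (nat_lit 1) (nat_lit 35) (nat_lit 1) (nat_lit 271) (nat_lit 423) (nat_lit 386)) (XT.lf (nat_lit 168) (nat_lit 48081365167) (nat_lit 0) (nat_lit 50098503499) (nat_lit 84) (nat_lit 59511323874) (nat_lit 33) (nat_lit 1) (nat_lit 31) (nat_lit 1) (nat_lit 32) (nat_lit 1) (nat_lit 272) (nat_lit 423) (nat_lit 385))))) (XT.nd (nat_lit 188) (nat_lit 420) (nat_lit 0) (XT.nd (nat_lit 94) (nat_lit 84) (nat_lit 0) (XT.lf (nat_lit 84) (nat_lit 26894240492) (nat_lit 0) (nat_lit 26048890500) (nat_lit 252) (nat_lit 100569476958) (nat_lit 29) (nat_lit 1) (nat_lit 28) (nat_lit 1) (nat_lit 31) (nat_lit 1) (nat_lit 273) (nat_lit 423) (nat_lit 384)) (XT.lf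 (nat_lit 168) (nat_lit 52817487522) (nat_lit 0) (nat_lit 55513219701) (nat_lit 84) (nat_lit 41110077390) (nat_lit 29) (nat_lit 1) (nat_lit 27) (nat_lit 1) (nat_lit 28) (nat_lit 1) (nat_lit 274) (nat_lit 423) (nat_lit 383))) (XT.nd (nat_lit 94) (nat_lit 252) (nat_lit 0) (XT.lf (nat_lit 84) (nat_lit 39594541031) (nat_lit 0) (nat_lit 18866090341) (nat_lit 168) (nat_lit 87042803457) (nat_lit 26) (nat_lit 1) (nat_lit 25) (nat_lit 1) (nat_lit 27) (nat_lit 1) (nat_lit 275) (nat_lit 423) (nat_lit 382)) (XT.nd (nat_lit 94) (nat_lit 168) (nat_lit 0) (XT.lf (nat_lit 168) (nat_lit 55020287147) (nat_lit 0) (nat_lit 61227656182) (nat_lit 84) (nat_lit 25422821384) (nat_lit 26) (nat_lit 1) (nat_lit 24) (nat_lit 1) (nat_lit 25) (nat_lit 1) (nat_lit 276) (nat_lit 423) (nat_lit 381)) (XT.lf (nat_lit 84) (nat_lit 50083412972) (nat_lit 0) (nat_lit 14074349394) (nat_lit 168) (nat_lit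 73798221157) (nat_lit 23) (nat_lit 1) (nat_lit 22) (nat_lit 1) (nat_lit 24) (nat_lit 1) (nat_lit 277) (nat_lit 423) (nat_lit 380))))))))
noncomputable def ec264 : XT := (XT.nd (nat_lit 1692) (nat_lit 0) (nat_lit 0) (XT.nd (nat_lit 846) (nat_lit 756) (nat_lit 0) (XT.nd (nat_lit 376) (nat_lit 588) (nat_lit 0) (XT.nd (nat_lit 188) (nat_lit 252) (nat_lit 0) (XT.nd (nat_lit 94) (nat_lit 168) (nat_lit 0) (XT.lf (nat_lit 168) (nat_lit 55289654749) (nat_lit 0) (nat_lit 67016279101) (nat_lit 84) (nat_lit 12038923629) (nat_lit 23) (nat_lit 1) (nat_lit 21) (nat_lit 1) (nat_lit 22) (nat_lit 1) (nat_lit 278) (nat_lit 423) (nat_lit 379)) (XT.lf (nat_lit 84) (nat_lit 58708442099) (nat_lit 0) (nat_lit 11131319390) (nat_lit 168) (nat_lit 60996391808) (nat_lit 20) (nat_lit 1) (nat_lit 19) (nat_lit 1) (nat_lit 21) (nat_lit 1) (nat_lit 279) (nat_lit 423) (nat_lit 378))) (XT.nd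 (nat_lit 94) (nat_lit 168) (nat_lit 0) (XT.lf (nat_lit 168) (nat_lit 54105920281) (nat_lit 0) (nat_lit 72709027047) (nat_lit 84) (nat_lit 615880707) (nat_lit 20) (nat_lit 1) (nat_lit 18) (nat_lit 1) (nat_lit 19) (nat_lit 1) (nat_lit 280) (nat_lit 423) (nat_lit 377)) (XT.lf (nat_lit 84) (nat_lit 65759084612) (nat_lit 0) (nat_lit 9601977377) (nat_lit 168) (nat_lit 48752484163) (nat_lit 17) (nat_lit 1) (nat_lit 16) (nat_lit 1) (nat_lit 18) (nat_lit 1) (nat_lit 281) (nat_lit 423) (nat_lit 376)))) (XT.nd (nat_lit 188) (nat_lit 336) (nat_lit 0) (XT.nd (nat_lit 94) (nat_lit 168) (nat_lit 0) (XT.lf (nat_lit 0) (nat_lit 8840369054) (nat_lit 0) (nat_lit 69190049642) (nat_lit 168) (nat_lit 42862325120) (nat_lit 15) (nat_lit 3) (nat_lit 15) (nat_lit 1) (nat_lit 17) (nat_lit 1) (nat_lit 282) (nat_lit 423) (nat_lit 375)) (XT.lf (nat_lit 84) (nat_lit 71476906567) (nat_lit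 0) (nat_lit 9138403337) (nat_lit 168) (nat_lit 37145607036) (nat_lit 14) (nat_lit 1) (nat_lit 13) (nat_lit 1) (nat_lit 15) (nat_lit 1) (nat_lit 283) (nat_lit 423) (nat_lit 374))) (XT.nd (nat_lit 94) (nat_lit 252) (nat_lit 0) (XT.lf (nat_lit 0) (nat_lit 16888375425) (nat_lit 0) (nat_lit 66164683959) (nat_lit 168) (nat_lit 31659438290) (nat_lit 12) (nat_lit 3) (nat_lit 12) (nat_lit 1) (nat_lit 14) (nat_lit 1) (nat_lit 284) (nat_lit 423) (nat_lit 373)) (XT.nd (nat_lit 94) (nat_lit 84) (nat_lit 0) (XT.lf (nat_lit 84) (nat_lit 76063973468) (nat_lit 0) (nat_lit 9463302190) (nat_lit 168) (nat_lit 26226442115) (nat_lit 11) (nat_lit 1) (nat_lit 10) (nat_lit 1) (nat_lit 12) (nat_lit 1) (nat_lit 285) (nat_lit 423) (nat_lit 372)) (XT.lf (nat_lit 0) (nat_lit 23743176358) (nat_lit 0) (nat_lit 63977930861) (nat_lit 168) (nat_lit 21145940102) (nat_lit 9) (nat_lit 3) (nat_lit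 9) (nat_lit 1) (nat_lit 11) (nat_lit 1) (nat_lit 286) (nat_lit 423) (nat_lit 371)))))) (XT.nd (nat_lit 376) (nat_lit 252) (nat_lit 0) (XT.nd (nat_lit 188) (nat_lit 252) (nat_lit 0) (XT.nd (nat_lit 94) (nat_lit 84) (nat_lit 0) (XT.lf (nat_lit 84) (nat_lit 79689727566) (nat_lit 0) (nat_lit 10356581067) (nat_lit 168) (nat_lit 16023411128) (nat_lit 8) (nat_lit 1) (nat_lit 7) (nat_lit 1) (nat_lit 9) (nat_lit 1) (nat_lit 287) (nat_lit 423) (nat_lit 370)) (XT.lf (nat_lit 0) (nat_lit 29569451361) (nat_lit 0) (nat_lit 62421657990) (nat_lit 168) (nat_lit 11343947737) (nat_lit 6) (nat_lit 3) (nat_lit 6) (nat_lit 1) (nat_lit 8) (nat_lit 1) (nat_lit 288) (nat_lit 423) (nat_lit 369))) (XT.nd (nat_lit 94) (nat_lit 84) (nat_lit 0) (XT.lf (nat_lit 84) (nat_lit 82496628636) (nat_lit 0) (nat_lit 11644419287) (nat_lit 168) (nat_lit 6547650302) (nat_lit 5) (nat_lit 1) (nat_lit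 4) (nat_lit 1) (nat_lit 6) (nat_lit 1) (nat_lit 289) (nat_lit 423) (nat_lit 368)) (XT.lf (nat_lit 0) (nat_lit 34506480022) (nat_lit 0) (nat_lit 61330739142) (nat_lit 168) (nat_lit 2259866031) (nat_lit 3) (nat_lit 3) (nat_lit 3) (nat_lit 1) (nat_lit 5) (nat_lit 1) (nat_lit 290) (nat_lit 423) (nat_lit 367)))) (XT.nd (nat_lit 188) (nat_lit 0) (nat_lit 0) (XT.nd (nat_lit 94) (nat_lit 0) (nat_lit 0) (XT.lf (nat_lit 0) (nat_lit 138664750568) (nat_lit 0) (nat_lit 0) (nat_lit 0) (nat_lit 0) (nat_lit 0) (nat_lit 0) (nat_lit 1) (nat_lit 0) (nat_lit 1) (nat_lit 0) (nat_lit 291) (nat_lit 423) (nat_lit 366)) (XT.lf (nat_lit 0) (nat_lit 138538536247) (nat_lit 0) (nat_lit 0) (nat_lit 0) (nat_lit 0) (nat_lit 0) (nat_lit 0) (nat_lit 1) (nat_lit 0) (nat_lit 1) (nat_lit 0) (nat_lit 292) (nat_lit 423) (nat_lit 365))) (XT.nd (nat_lit 94) (nat_lit 0) (nat_lit 0) (XT.lf (nat_lit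 0) (nat_lit 138421671136) (nat_lit 0) (nat_lit 0) (nat_lit 0) (nat_lit 0) (nat_lit 0) (nat_lit 0) (nat_lit 1) (nat_lit 0) (nat_lit 1) (nat_lit 0) (nat_lit 293) (nat_lit 423) (nat_lit 364)) (XT.nd (nat_lit 94) (nat_lit 0) (nat_lit 0) (XT.lf (nat_lit 0) (nat_lit 138313462699) (nat_lit 0) (nat_lit 0) (nat_lit 0) (nat_lit 0) (nat_lit 0) (nat_lit 0) (nat_lit 1) (nat_lit 0) (nat_lit 1) (nat_lit 0) (nat_lit 294) (nat_lit 423) (nat_lit 363)) (XT.lf (nat_lit 0) (nat_lit 138213269702) (nat_lit 0) (nat_lit 0) (nat_lit 0) (nat_lit 0) (nat_lit 0) (nat_lit 0) (nat_lit 1) (nat_lit 0) (nat_lit 1) (nat_lit 0) (nat_lit 295) (nat_lit 423) (nat_lit 362))))))) (XT.nd (nat_lit 846) (nat_lit 0) (nat_lit 0) (XT.nd (nat_lit 376) (nat_lit 0) (nat_lit 0) (XT.nd (nat_lit 188) (nat_lit 0) (nat_lit 0) (XT.nd (nat_lit 94) (nat_lit 0) (nat_lit 0) (XT.lf (nat_lit 0) (nat_lit 138120498408)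 (nat_lit 0) (nat_lit 0) (nat_lit 0) (nat_lit 0) (nat_lit 0) (nat_lit 0) (nat_lit 1) (nat_lit 0) (nat_lit 1) (nat_lit 0) (nat_lit 296) (nat_lit 423) (nat_lit 361)) (XT.lf (nat_lit 0) (nat_lit 138034599062) (nat_lit 0) (nat_lit 0) (nat_lit 0) (nat_lit 0) (nat_lit 0) (nat_lit 0) (nat_lit 1) (nat_lit 0) (nat_lit 1) (nat_lit 0) (nat_lit 297) (nat_lit 423) (nat_lit 360))) (XT.nd (nat_lit 94) (nat_lit 0) (nat_lit 0) (XT.lf (nat_lit 0) (nat_lit 137955062631) (nat_lit 0) (nat_lit 0) (nat_lit 0) (nat_lit 0) (nat_lit 0) (nat_lit 0) (nat_lit 1) (nat_lit 0) (nat_lit 1) (nat_lit 0) (nat_lit 298) (nat_lit 423) (nat_lit 359)) (XT.lf (nat_lit 0) (nat_lit 137881417787) (nat_lit 0) (nat_lit 0) (nat_lit 0) (nat_lit 0) (nat_lit 0) (nat_lit 0) (nat_lit 1) (nat_lit 0) (nat_lit 1) (nat_lit 0) (nat_lit 299) (nat_lit 423) (nat_lit 358)))) (XT.nd (nat_lit 188) (nat_lit 0) (nat_lit 0)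 (XT.nd (nat_lit 94) (nat_lit 0) (nat_lit 0) (XT.lf (nat_lit 0) (nat_lit 137813228117) (nat_lit 0) (nat_lit 0) (nat_lit 0) (nat_lit 0) (nat_lit 0) (nat_lit 0) (nat_lit 1) (nat_lit 0) (nat_lit 1) (nat_lit 0) (nat_lit 300) (nat_lit 423) (nat_lit 357)) (XT.lf (nat_lit 0) (nat_lit 137750089533) (nat_lit 0) (nat_lit 0) (nat_lit 0) (nat_lit 0) (nat_lit 0) (nat_lit 0) (nat_lit 1) (nat_lit 0) (nat_lit 1) (nat_lit 0) (nat_lit 301) (nat_lit 423) (nat_lit 356))) (XT.nd (nat_lit 94) (nat_lit 0) (nat_lit 0) (XT.lf (nat_lit 0) (nat_lit 137691627882) (nat_lit 0) (nat_lit 0) (nat_lit 0) (nat_lit 0) (nat_lit 0) (nat_lit 0) (nat_lit 1) (nat_lit 0) (nat_lit 1) (nat_lit 0) (nat_lit 302) (nat_lit 423) (nat_lit 355)) (XT.nd (nat_lit 94) (nat_lit 0) (nat_lit 0) (XT.lf (nat_lit 0) (nat_lit 137637496723) (nat_lit 0) (nat_lit 0) (nat_lit 0) (nat_lit 0) (nat_lit 0) (nat_lit 0) (nat_lit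 1) (nat_lit 0) (nat_lit 1) (nat_lit 0) (nat_lit 303) (nat_lit 423) (nat_lit 354)) (XT.lf (nat_lit 0) (nat_lit 137587375279) (nat_lit 0) (nat_lit 0) (nat_lit 0) (nat_lit 0) (nat_lit 0) (nat_lit 0) (nat_lit 1) (nat_lit 0) (nat_lit 1) (nat_lit 0) (nat_lit 304) (nat_lit 423) (nat_lit 353)))))) (XT.nd (nat_lit 470) (nat_lit 0) (nat_lit 0) (XT.nd (nat_lit 188) (nat_lit 0) (nat_lit 0) (XT.nd (nat_lit 94) (nat_lit 0) (nat_lit 0) (XT.lf (nat_lit 0) (nat_lit 137540966536) (nat_lit 0) (nat_lit 0) (nat_lit 0) (nat_lit 0) (nat_lit 0) (nat_lit 0) (nat_lit 1) (nat_lit 0) (nat_lit 1) (nat_lit 0) (nat_lit 305) (nat_lit 423) (nat_lit 352)) (XT.lf (nat_lit 0) (nat_lit 137497995477) (nat_lit 0) (nat_lit 0) (nat_lit 0) (nat_lit 0) (nat_lit 0) (nat_lit 0) (nat_lit 1) (nat_lit 0) (nat_lit 1) (nat_lit 0) (nat_lit 306) (nat_lit 423) (nat_lit 351))) (XT.nd (nat_lit 94) (nat_lit 0)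 (nat_lit 0) (XT.lf (nat_lit 0) (nat_lit 137458207459) (nat_lit 0) (nat_lit 0) (nat_lit 0) (nat_lit 0) (nat_lit 0) (nat_lit 0) (nat_lit 1) (nat_lit 0) (nat_lit 1) (nat_lit 0) (nat_lit 307) (nat_lit 423) (nat_lit 350)) (XT.nd (nat_lit 94) (nat_lit 0) (nat_lit 0) (XT.lf (nat_lit 0) (nat_lit 137421366702) (nat_lit 0) (nat_lit 0) (nat_lit 0) (nat_lit 0) (nat_lit 0) (nat_lit 0) (nat_lit 1) (nat_lit 0) (nat_lit 1) (nat_lit 0) (nat_lit 308) (nat_lit 423) (nat_lit 349)) (XT.lf (nat_lit 0) (nat_lit 137387254890) (nat_lit 0) (nat_lit 0) (nat_lit 0) (nat_lit 0) (nat_lit 0) (nat_lit 0) (nat_lit 1) (nat_lit 0) (nat_lit 1) (nat_lit 0) (nat_lit 309) (nat_lit 423) (nat_lit 348))))) (XT.nd (nat_lit 188) (nat_lit 0) (nat_lit 0) (XT.nd (nat_lit 94) (nat_lit 0) (nat_lit 0) (XT.lf (nat_lit 0) (nat_lit 137355669879) (nat_lit 0) (nat_lit 0) (nat_lit 0) (nat_lit 0) (nat_lit 0) (nat_lit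 0) (nat_lit 1) (nat_lit 0) (nat_lit 1) (nat_lit 0) (nat_lit 310) (nat_lit 423) (nat_lit 347)) (XT.lf (nat_lit 0) (nat_lit 137326424498) (nat_lit 0) (nat_lit 0) (nat_lit 0) (nat_lit 0) (nat_lit 0) (nat_lit 0) (nat_lit 1) (nat_lit 0) (nat_lit 1) (nat_lit 0) (nat_lit 311) (nat_lit 423) (nat_lit 346))) (XT.nd (nat_lit 94) (nat_lit 0) (nat_lit 0) (XT.lf (nat_lit 0) (nat_lit 137299345441) (nat_lit 0) (nat_lit 0) (nat_lit 0) (nat_lit 0) (nat_lit 0) (nat_lit 0) (nat_lit 1) (nat_lit 0) (nat_lit 1) (nat_lit 0) (nat_lit 312) (nat_lit 423) (nat_lit 345)) (XT.nd (nat_lit 94) (nat_lit 0) (nat_lit 0) (XT.lf (nat_lit 0) (nat_lit 137274272241) (nat_lit 0) (nat_lit 0) (nat_lit 0) (nat_lit 0) (nat_lit 0) (nat_lit 0) (nat_lit 1) (nat_lit 0) (nat_lit 1) (nat_lit 0) (nat_lit 313) (nat_lit 423) (nat_lit 344)) (XT.lf (nat_lit 0) (nat_lit 137251056315) (nat_lit 0) (nat_lit 0) (nat_lit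 0) (nat_lit 0) (nat_lit 0) (nat_lit 0) (nat_lit 1) (nat_lit 0) (nat_lit 1) (nat_lit 0) (nat_lit 314) (nat_lit 423) (nat_lit 343))))))))
noncomputable def ec265 : XT := (XT.nd (nat_lit 1786) (nat_lit 0) (nat_lit 0) (XT.nd (nat_lit 846) (nat_lit 0) (nat_lit 0) (XT.nd (nat_lit 376) (nat_lit 0) (nat_lit 0) (XT.nd (nat_lit 188) (nat_lit 0) (nat_lit 0) (XT.nd (nat_lit 94) (nat_lit 0) (nat_lit 0) (XT.lf (nat_lit 0) (nat_lit 137229560087) (nat_lit 0) (nat_lit 0) (nat_lit 0) (nat_lit 0) (nat_lit 0) (nat_lit 0) (nat_lit 1) (nat_lit 0) (nat_lit 1) (nat_lit 0) (nat_lit 315) (nat_lit 423) (nat_lit 342)) (XT.lf (nat_lit 0) (nat_lit 137209656172) (nat_lit 0) (nat_lit 0) (nat_lit 0) (nat_lit 0) (nat_lit 0) (nat_lit 0) (nat_lit 1) (nat_lit 0) (nat_lit 1) (nat_lit 0) (nat_lit 316) (nat_lit 423) (nat_lit 341))) (XT.nd (nat_lit 94) (nat_lit 0) (nat_lit 0) (XT.lf (nat_lit 0) (nat_lit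 137191226622) (nat_lit 0) (nat_lit 0) (nat_lit 0) (nat_lit 0) (nat_lit 0) (nat_lit 0) (nat_lit 1) (nat_lit 0) (nat_lit 1) (nat_lit 0) (nat_lit 317) (nat_lit 423) (nat_lit 340)) (XT.lf (nat_lit 0) (nat_lit 137174162223) (nat_lit 0) (nat_lit 0) (nat_lit 0) (nat_lit 0) (nat_lit 0) (nat_lit 0) (nat_lit 1) (nat_lit 0) (nat_lit 1) (nat_lit 0) (nat_lit 318) (nat_lit 423) (nat_lit 339)))) (XT.nd (nat_lit 188) (nat_lit 0) (nat_lit 0) (XT.nd (nat_lit 94) (nat_lit 0) (nat_lit 0) (XT.lf (nat_lit 0) (nat_lit 137158361854) (nat_lit 0) (nat_lit 0) (nat_lit 0) (nat_lit 0) (nat_lit 0) (nat_lit 0) (nat_lit 1) (nat_lit 0) (nat_lit 1) (nat_lit 0) (nat_lit 319) (nat_lit 423) (nat_lit 338)) (XT.lf (nat_lit 0) (nat_lit 137143731882) (nat_lit 0) (nat_lit 0) (nat_lit 0) (nat_lit 0) (nat_lit 0) (nat_lit 0) (nat_lit 1) (nat_lit 0) (nat_lit 1) (nat_lit 0) (nat_lit 320) (nat_lit 423)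 (nat_lit 337))) (XT.nd (nat_lit 94) (nat_lit 0) (nat_lit 0) (XT.lf (nat_lit 0) (nat_lit 137130185612) (nat_lit 0) (nat_lit 0) (nat_lit 0) (nat_lit 0) (nat_lit 0) (nat_lit 0) (nat_lit 1) (nat_lit 0) (nat_lit 1) (nat_lit 0) (nat_lit 321) (nat_lit 423) (nat_lit 336)) (XT.nd (nat_lit 94) (nat_lit 0) (nat_lit 0) (XT.lf (nat_lit 0) (nat_lit 137117642770) (nat_lit 0) (nat_lit 0) (nat_lit 0) (nat_lit 0) (nat_lit 0) (nat_lit 0) (nat_lit 1) (nat_lit 0) (nat_lit 1) (nat_lit 0) (nat_lit 322) (nat_lit 423) (nat_lit 335)) (XT.lf (nat_lit 0) (nat_lit 137106029027) (nat_lit 0) (nat_lit 0) (nat_lit 0) (nat_lit 0) (nat_lit 0) (nat_lit 0) (nat_lit 1) (nat_lit 0) (nat_lit 1) (nat_lit 0) (nat_lit 323) (nat_lit 423) (nat_lit 334)))))) (XT.nd (nat_lit 470) (nat_lit 0) (nat_lit 0) (XT.nd (nat_lit 188) (nat_lit 0) (nat_lit 0) (XT.nd (nat_lit 94) (nat_lit 0) (nat_lit 0) (XT.lf (nat_lit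 0) (nat_lit 137095275561) (nat_lit 0) (nat_lit 0) (nat_lit 0) (nat_lit 0) (nat_lit 0) (nat_lit 0) (nat_lit 1) (nat_lit 0) (nat_lit 1) (nat_lit 0) (nat_lit 324) (nat_lit 423) (nat_lit 333)) (XT.lf (nat_lit 0) (nat_lit 137085318648) (nat_lit 0) (nat_lit 0) (nat_lit 0) (nat_lit 0) (nat_lit 0) (nat_lit 0) (nat_lit 1) (nat_lit 0) (nat_lit 1) (nat_lit 0) (nat_lit 325) (nat_lit 423) (nat_lit 332))) (XT.nd (nat_lit 94) (nat_lit 0) (nat_lit 0) (XT.lf (nat_lit 0) (nat_lit 137076099284) (nat_lit 0) (nat_lit 0) (nat_lit 0) (nat_lit 0) (nat_lit 0) (nat_lit 0) (nat_lit 1) (nat_lit 0) (nat_lit 1) (nat_lit 0) (nat_lit 326) (nat_lit 423) (nat_lit 331)) (XT.nd (nat_lit 94) (nat_lit 0) (nat_lit 0) (XT.lf (nat_lit 0) (nat_lit 137067562837) (nat_lit 0) (nat_lit 0) (nat_lit 0) (nat_lit 0) (nat_lit 0) (nat_lit 0) (nat_lit 1) (nat_lit 0) (nat_lit 1) (nat_lit 0) (nat_lit 327) (nat_lit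 423) (nat_lit 330)) (XT.lf (nat_lit 0) (nat_lit 137059658718) (nat_lit 0) (nat_lit 0) (nat_lit 0) (nat_lit 0) (nat_lit 0) (nat_lit 0) (nat_lit 1) (nat_lit 0) (nat_lit 1) (nat_lit 0) (nat_lit 328) (nat_lit 423) (nat_lit 329))))) (XT.nd (nat_lit 188) (nat_lit 0) (nat_lit 0) (XT.nd (nat_lit 94) (nat_lit 0) (nat_lit 0) (XT.lf (nat_lit 0) (nat_lit 137052340090) (nat_lit 0) (nat_lit 0) (nat_lit 0) (nat_lit 0) (nat_lit 0) (nat_lit 0) (nat_lit 1) (nat_lit 0) (nat_lit 1) (nat_lit 0) (nat_lit 329) (nat_lit 423) (nat_lit 328)) (XT.lf (nat_lit 0) (nat_lit 137045563582) (nat_lit 0) (nat_lit 0) (nat_lit 0) (nat_lit 0) (nat_lit 0) (nat_lit 0) (nat_lit 1) (nat_lit 0) (nat_lit 1) (nat_lit 0) (nat_lit 330) (nat_lit 423) (nat_lit 327))) (XT.nd (nat_lit 94) (nat_lit 0) (nat_lit 0) (XT.lf (nat_lit 0) (nat_lit 137039289038) (nat_lit 0) (nat_lit 0) (nat_lit 0) (nat_lit 0) (nat_lit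 0) (nat_lit 0) (nat_lit 1) (nat_lit 0) (nat_lit 1) (nat_lit 0) (nat_lit 331) (nat_lit 423) (nat_lit 326)) (XT.nd (nat_lit 94) (nat_lit 0) (nat_lit 0) (XT.lf (nat_lit 0) (nat_lit 137033479275) (nat_lit 0) (nat_lit 0) (nat_lit 0) (nat_lit 0) (nat_lit 0) (nat_lit 0) (nat_lit 1) (nat_lit 0) (nat_lit 1) (nat_lit 0) (nat_lit 332) (nat_lit 423) (nat_lit 325)) (XT.lf (nat_lit 0) (nat_lit 137028099865) (nat_lit 0) (nat_lit 0) (nat_lit 0) (nat_lit 0) (nat_lit 0) (nat_lit 0) (nat_lit 1) (nat_lit 0) (nat_lit 1) (nat_lit 0) (nat_lit 333) (nat_lit 423) (nat_lit 324))))))) (XT.nd (nat_lit 846) (nat_lit 0) (nat_lit 0) (XT.nd (nat_lit 376) (nat_lit 0) (nat_lit 0) (XT.nd (nat_lit 188) (nat_lit 0) (nat_lit 0) (XT.nd (nat_lit 94) (nat_lit 0) (nat_lit 0) (XT.lf (nat_lit 0) (nat_lit 137023118930) (nat_lit 0) (nat_lit 0) (nat_lit 0) (nat_lit 0) (nat_lit 0) (nat_lit 0) (nat_lit 1)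 (nat_lit 0) (nat_lit 1) (nat_lit 0) (nat_lit 334) (nat_lit 423) (nat_lit 323)) (XT.lf (nat_lit 0) (nat_lit 137018506953) (nat_lit 0) (nat_lit 0) (nat_lit 0) (nat_lit 0) (nat_lit 0) (nat_lit 0) (nat_lit 1) (nat_lit 0) (nat_lit 1) (nat_lit 0) (nat_lit 335) (nat_lit 423) (nat_lit 322))) (XT.nd (nat_lit 94) (nat_lit 0) (nat_lit 0) (XT.lf (nat_lit 0) (nat_lit 137014236604) (nat_lit 0) (nat_lit 0) (nat_lit 0) (nat_lit 0) (nat_lit 0) (nat_lit 0) (nat_lit 1) (nat_lit 0) (nat_lit 1) (nat_lit 0) (nat_lit 336) (nat_lit 423) (nat_lit 321)) (XT.lf (nat_lit 0) (nat_lit 137010282576) (nat_lit 0) (nat_lit 0) (nat_lit 0) (nat_lit 0) (nat_lit 0) (nat_lit 0) (nat_lit 1) (nat_lit 0) (nat_lit 1) (nat_lit 0) (nat_lit 337) (nat_lit 423) (nat_lit 320)))) (XT.nd (nat_lit 188) (nat_lit 0) (nat_lit 0) (XT.nd (nat_lit 94) (nat_lit 0) (nat_lit 0) (XT.lf (nat_lit 0) (nat_lit 137006621440)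 (nat_lit 0) (nat_lit 0) (nat_lit 0) (nat_lit 0) (nat_lit 0) (nat_lit 0) (nat_lit 1) (nat_lit 0) (nat_lit 1) (nat_lit 0) (nat_lit 338) (nat_lit 423) (nat_lit 319)) (XT.lf (nat_lit 0) (nat_lit 137003231499) (nat_lit 0) (nat_lit 0) (nat_lit 0) (nat_lit 0) (nat_lit 0) (nat_lit 0) (nat_lit 1) (nat_lit 0) (nat_lit 1) (nat_lit 0) (nat_lit 339) (nat_lit 423) (nat_lit 318))) (XT.nd (nat_lit 94) (nat_lit 0) (nat_lit 0) (XT.lf (nat_lit 0) (nat_lit 137000092665) (nat_lit 0) (nat_lit 0) (nat_lit 0) (nat_lit 0) (nat_lit 0) (nat_lit 0) (nat_lit 1) (nat_lit 0) (nat_lit 1) (nat_lit 0) (nat_lit 340) (nat_lit 423) (nat_lit 317)) (XT.nd (nat_lit 94) (nat_lit 0) (nat_lit 0) (XT.lf (nat_lit 0) (nat_lit 136997186337) (nat_lit 0) (nat_lit 0) (nat_lit 0) (nat_lit 0) (nat_lit 0) (nat_lit 0) (nat_lit 1) (nat_lit 0) (nat_lit 1) (nat_lit 0) (nat_lit 341) (nat_lit 423) (nat_lit 316)) (XT.lf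 (nat_lit 0) (nat_lit 136994495293) (nat_lit 0) (nat_lit 0) (nat_lit 0) (nat_lit 0) (nat_lit 0) (nat_lit 0) (nat_lit 1) (nat_lit 0) (nat_lit 1) (nat_lit 0) (nat_lit 342) (nat_lit 423) (nat_lit 315)))))) (XT.nd (nat_lit 470) (nat_lit 0) (nat_lit 0) (XT.nd (nat_lit 188) (nat_lit 0) (nat_lit 0) (XT.nd (nat_lit 94) (nat_lit 0) (nat_lit 0) (XT.lf (nat_lit 0) (nat_lit 136992003585) (nat_lit 0) (nat_lit 0) (nat_lit 0) (nat_lit 0) (nat_lit 0) (nat_lit 0) (nat_lit 1) (nat_lit 0) (nat_lit 1) (nat_lit 0) (nat_lit 343) (nat_lit 423) (nat_lit 314)) (XT.lf (nat_lit 0) (nat_lit 136989696448) (nat_lit 0) (nat_lit 0) (nat_lit 0) (nat_lit 0) (nat_lit 0) (nat_lit 0) (nat_lit 1) (nat_lit 0) (nat_lit 1) (nat_lit 0) (nat_lit 344) (nat_lit 423) (nat_lit 313))) (XT.nd (nat_lit 94) (nat_lit 0) (nat_lit 0) (XT.lf (nat_lit 0) (nat_lit 136987560211) (nat_lit 0) (nat_lit 0) (nat_lit 0)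 (nat_lit 0) (nat_lit 0) (nat_lit 0) (nat_lit 1) (nat_lit 0) (nat_lit 1) (nat_lit 0) (nat_lit 345) (nat_lit 423) (nat_lit 312)) (XT.nd (nat_lit 94) (nat_lit 0) (nat_lit 0) (XT.lf (nat_lit 0) (nat_lit 136985582213) (nat_lit 0) (nat_lit 0) (nat_lit 0) (nat_lit 0) (nat_lit 0) (nat_lit 0) (nat_lit 1) (nat_lit 0) (nat_lit 1) (nat_lit 0) (nat_lit 346) (nat_lit 423) (nat_lit 311)) (XT.lf (nat_lit 0) (nat_lit 136983750733) (nat_lit 0) (nat_lit 0) (nat_lit 0) (nat_lit 0) (nat_lit 0) (nat_lit 0) (nat_lit 1) (nat_lit 0) (nat_lit 1) (nat_lit 0) (nat_lit 347) (nat_lit 423) (nat_lit 310))))) (XT.nd (nat_lit 188) (nat_lit 0) (nat_lit 0) (XT.nd (nat_lit 94) (nat_lit 0) (nat_lit 0) (XT.lf (nat_lit 0) (nat_lit 136982054919) (nat_lit 0) (nat_lit 0) (nat_lit 0) (nat_lit 0) (nat_lit 0) (nat_lit 0) (nat_lit 1) (nat_lit 0) (nat_lit 1) (nat_lit 0) (nat_lit 348) (nat_lit 423) (nat_lit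 309)) (XT.lf (nat_lit 0) (nat_lit 136980484720) (nat_lit 0) (nat_lit 0) (nat_lit 0) (nat_lit 0) (nat_lit 0) (nat_lit 0) (nat_lit 1) (nat_lit 0) (nat_lit 1) (nat_lit 0) (nat_lit 349) (nat_lit 423) (nat_lit 308))) (XT.nd (nat_lit 94) (nat_lit 0) (nat_lit 0) (XT.lf (nat_lit 0) (nat_lit 136979030833) (nat_lit 0) (nat_lit 0) (nat_lit 0) (nat_lit 0) (nat_lit 0) (nat_lit 0) (nat_lit 1) (nat_lit 0) (nat_lit 1) (nat_lit 0) (nat_lit 350) (nat_lit 423) (nat_lit 307)) (XT.nd (nat_lit 94) (nat_lit 0) (nat_lit 0) (XT.lf (nat_lit 0) (nat_lit 136977684640) (nat_lit 0) (nat_lit 0) (nat_lit 0) (nat_lit 0) (nat_lit 0) (nat_lit 0) (nat_lit 1) (nat_lit 0) (nat_lit 1) (nat_lit 0) (nat_lit 351) (nat_lit 423) (nat_lit 306)) (XT.lf (nat_lit 0) (nat_lit 136976438166) (nat_lit 0) (nat_lit 0) (nat_lit 0) (nat_lit 0) (nat_lit 0) (nat_lit 0) (nat_lit 1) (nat_lit 0) (nat_lit 1) (nat_lit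 0) (nat_lit 352) (nat_lit 423) (nat_lit 305))))))))
noncomputable def ec266 : XT := (XT.nd (nat_lit 1692) (nat_lit 0) (nat_lit 0) (XT.nd (nat_lit 846) (nat_lit 0) (nat_lit 0) (XT.nd (nat_lit 376) (nat_lit 0) (nat_lit 0) (XT.nd (nat_lit 188) (nat_lit 0) (nat_lit 0) (XT.nd (nat_lit 94) (nat_lit 0) (nat_lit 0) (XT.lf (nat_lit 0) (nat_lit 136975284023) (nat_lit 0) (nat_lit 0) (nat_lit 0) (nat_lit 0) (nat_lit 0) (nat_lit 0) (nat_lit 1) (nat_lit 0) (nat_lit 1) (nat_lit 0) (nat_lit 353) (nat_lit 423) (nat_lit 304)) (XT.lf (nat_lit 0) (nat_lit 136974215373) (nat_lit 0) (nat_lit 0) (nat_lit 0) (nat_lit 0) (nat_lit 0) (nat_lit 0) (nat_lit 1) (nat_lit 0) (nat_lit 1) (nat_lit 0) (nat_lit 354) (nat_lit 423) (nat_lit 303))) (XT.nd (nat_lit 94) (nat_lit 0) (nat_lit 0) (XT.lf (nat_lit 0) (nat_lit 136973225881) (nat_lit 0) (nat_lit 0) (nat_lit 0) (nat_lit 0) (nat_lit 0) (nat_lit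 0) (nat_lit 1) (nat_lit 0) (nat_lit 1) (nat_lit 0) (nat_lit 355) (nat_lit 423) (nat_lit 302)) (XT.lf (nat_lit 0) (nat_lit 136972309685) (nat_lit 0) (nat_lit 0) (nat_lit 0) (nat_lit 0) (nat_lit 0) (nat_lit 0) (nat_lit 1) (nat_lit 0) (nat_lit 1) (nat_lit 0) (nat_lit 356) (nat_lit 423) (nat_lit 301)))) (XT.nd (nat_lit 188) (nat_lit 0) (nat_lit 0) (XT.nd (nat_lit 94) (nat_lit 0) (nat_lit 0) (XT.lf (nat_lit 0) (nat_lit 136971461356) (nat_lit 0) (nat_lit 0) (nat_lit 0) (nat_lit 0) (nat_lit 0) (nat_lit 0) (nat_lit 1) (nat_lit 0) (nat_lit 1) (nat_lit 0) (nat_lit 357) (nat_lit 423) (nat_lit 300)) (XT.lf (nat_lit 0) (nat_lit 136970675866) (nat_lit 0) (nat_lit 0) (nat_lit 0) (nat_lit 0) (nat_lit 0) (nat_lit 0) (nat_lit 1) (nat_lit 0) (nat_lit 1) (nat_lit 0) (nat_lit 358) (nat_lit 423) (nat_lit 299))) (XT.nd (nat_lit 94) (nat_lit 0) (nat_lit 0) (XT.lf (nat_lit 0) (nat_lit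 136969948560) (nat_lit 0) (nat_lit 0) (nat_lit 0) (nat_lit 0) (nat_lit 0) (nat_lit 0) (nat_lit 1) (nat_lit 0) (nat_lit 1) (nat_lit 0) (nat_lit 359) (nat_lit 423) (nat_lit 298)) (XT.nd (nat_lit 94) (nat_lit 0) (nat_lit 0) (XT.lf (nat_lit 0) (nat_lit 136969275129) (nat_lit 0) (nat_lit 0) (nat_lit 0) (nat_lit 0) (nat_lit 0) (nat_lit 0) (nat_lit 1) (nat_lit 0) (nat_lit 1) (nat_lit 0) (nat_lit 360) (nat_lit 423) (nat_lit 297)) (XT.lf (nat_lit 0) (nat_lit 136968651581) (nat_lit 0) (nat_lit 0) (nat_lit 0) (nat_lit 0) (nat_lit 0) (nat_lit 0) (nat_lit 1) (nat_lit 0) (nat_lit 1) (nat_lit 0) (nat_lit 361) (nat_lit 423) (nat_lit 296)))))) (XT.nd (nat_lit 376) (nat_lit 0) (nat_lit 0) (XT.nd (nat_lit 188) (nat_lit 0) (nat_lit 0) (XT.nd (nat_lit 94) (nat_lit 0) (nat_lit 0) (XT.lf (nat_lit 0) (nat_lit 136968074223) (nat_lit 0) (nat_lit 0) (nat_lit 0) (nat_lit 0) (nat_lit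 0) (nat_lit 0) (nat_lit 1) (nat_lit 0) (nat_lit 1) (nat_lit 0) (nat_lit 362) (nat_lit 423) (nat_lit 295)) (XT.lf (nat_lit 0) (nat_lit 136967539631) (nat_lit 0) (nat_lit 0) (nat_lit 0) (nat_lit 0) (nat_lit 0) (nat_lit 0) (nat_lit 1) (nat_lit 0) (nat_lit 1) (nat_lit 0) (nat_lit 363) (nat_lit 423) (nat_lit 294))) (XT.nd (nat_lit 94) (nat_lit 0) (nat_lit 0) (XT.lf (nat_lit 0) (nat_lit 136967044639) (nat_lit 0) (nat_lit 0) (nat_lit 0) (nat_lit 0) (nat_lit 0) (nat_lit 0) (nat_lit 1) (nat_lit 0) (nat_lit 1) (nat_lit 0) (nat_lit 364) (nat_lit 423) (nat_lit 293)) (XT.lf (nat_lit 0) (nat_lit 136966586313) (nat_lit 0) (nat_lit 0) (nat_lit 0) (nat_lit 0) (nat_lit 0) (nat_lit 0) (nat_lit 1) (nat_lit 0) (nat_lit 1) (nat_lit 0) (nat_lit 365) (nat_lit 423) (nat_lit 292)))) (XT.nd (nat_lit 188) (nat_lit 0) (nat_lit 0) (XT.nd (nat_lit 94) (nat_lit 0) (nat_lit 0) (XT.lf (nat_lit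 0) (nat_lit 136966161937) (nat_lit 0) (nat_lit 0) (nat_lit 0) (nat_lit 0) (nat_lit 0) (nat_lit 0) (nat_lit 1) (nat_lit 0) (nat_lit 1) (nat_lit 0) (nat_lit 366) (nat_lit 423) (nat_lit 291)) (XT.lf (nat_lit 0) (nat_lit 136965768996) (nat_lit 0) (nat_lit 0) (nat_lit 0) (nat_lit 0) (nat_lit 0) (nat_lit 0) (nat_lit 1) (nat_lit 0) (nat_lit 1) (nat_lit 0) (nat_lit 367) (nat_lit 423) (nat_lit 290))) (XT.nd (nat_lit 94) (nat_lit 0) (nat_lit 0) (XT.lf (nat_lit 0) (nat_lit 136965405163) (nat_lit 0) (nat_lit 0) (nat_lit 0) (nat_lit 0) (nat_lit 0) (nat_lit 0) (nat_lit 1) (nat_lit 0) (nat_lit 1) (nat_lit 0) (nat_lit 368) (nat_lit 423) (nat_lit 289)) (XT.nd (nat_lit 94) (nat_lit 0) (nat_lit 0) (XT.lf (nat_lit 0) (nat_lit 136965068279) (nat_lit 0) (nat_lit 0) (nat_lit 0) (nat_lit 0) (nat_lit 0) (nat_lit 0) (nat_lit 1) (nat_lit 0) (nat_lit 1) (nat_lit 0) (nat_lit 369) (nat_lit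 423) (nat_lit 288)) (XT.lf (nat_lit 0) (nat_lit 136964756350) (nat_lit 0) (nat_lit 0) (nat_lit 0) (nat_lit 0) (nat_lit 0) (nat_lit 0) (nat_lit 1) (nat_lit 0) (nat_lit 1) (nat_lit 0) (nat_lit 370) (nat_lit 423) (nat_lit 287))))))) (XT.nd (nat_lit 846) (nat_lit 0) (nat_lit 0) (XT.nd (nat_lit 376) (nat_lit 0) (nat_lit 0) (XT.nd (nat_lit 188) (nat_lit 0) (nat_lit 0) (XT.nd (nat_lit 94) (nat_lit 0) (nat_lit 0) (XT.lf (nat_lit 0) (nat_lit 136964467527) (nat_lit 0) (nat_lit 0) (nat_lit 0) (nat_lit 0) (nat_lit 0) (nat_lit 0) (nat_lit 1) (nat_lit 0) (nat_lit 1) (nat_lit 0) (nat_lit 371) (nat_lit 423) (nat_lit 286)) (XT.lf (nat_lit 0) (nat_lit 136964200098) (nat_lit 0) (nat_lit 0) (nat_lit 0) (nat_lit 0) (nat_lit 0) (nat_lit 0) (nat_lit 1) (nat_lit 0) (nat_lit 1) (nat_lit 0) (nat_lit 372) (nat_lit 423) (nat_lit 285))) (XT.nd (nat_lit 94) (nat_lit 0) (nat_lit 0) (XT.lf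 (nat_lit 0) (nat_lit 136963952479) (nat_lit 0) (nat_lit 0) (nat_lit 0) (nat_lit 0) (nat_lit 0) (nat_lit 0) (nat_lit 1) (nat_lit 0) (nat_lit 1) (nat_lit 0) (nat_lit 373) (nat_lit 423) (nat_lit 284)) (XT.lf (nat_lit 0) (nat_lit 136963723202) (nat_lit 0) (nat_lit 0) (nat_lit 0) (nat_lit 0) (nat_lit 0) (nat_lit 0) (nat_lit 1) (nat_lit 0) (nat_lit 1) (nat_lit 0) (nat_lit 374) (nat_lit 423) (nat_lit 283)))) (XT.nd (nat_lit 188) (nat_lit 0) (nat_lit 0) (XT.nd (nat_lit 94) (nat_lit 0) (nat_lit 0) (XT.lf (nat_lit 0) (nat_lit 136963510908) (nat_lit 0) (nat_lit 0) (nat_lit 0) (nat_lit 0) (nat_lit 0) (nat_lit 0) (nat_lit 1) (nat_lit 0) (nat_lit 1) (nat_lit 0) (nat_lit 375) (nat_lit 423) (nat_lit 282)) (XT.lf (nat_lit 0) (nat_lit 136963314340) (nat_lit 0) (nat_lit 0) (nat_lit 0) (nat_lit 0) (nat_lit 0) (nat_lit 0) (nat_lit 1) (nat_lit 0) (nat_lit 1) (nat_lit 0) (nat_lit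 376) (nat_lit 423) (nat_lit 281))) (XT.nd (nat_lit 94) (nat_lit 0) (nat_lit 0) (XT.lf (nat_lit 0) (nat_lit 136963132333) (nat_lit 0) (nat_lit 0) (nat_lit 0) (nat_lit 0) (nat_lit 0) (nat_lit 0) (nat_lit 1) (nat_lit 0) (nat_lit 1) (nat_lit 0) (nat_lit 377) (nat_lit 423) (nat_lit 280)) (XT.nd (nat_lit 94) (nat_lit 0) (nat_lit 0) (XT.lf (nat_lit 0) (nat_lit 136962963807) (nat_lit 0) (nat_lit 0) (nat_lit 0) (nat_lit 0) (nat_lit 0) (nat_lit 0) (nat_lit 1) (nat_lit 0) (nat_lit 1) (nat_lit 0) (nat_lit 378) (nat_lit 423) (nat_lit 279)) (XT.lf (nat_lit 0) (nat_lit 136962807765) (nat_lit 0) (nat_lit 0) (nat_lit 0) (nat_lit 0) (nat_lit 0) (nat_lit 0) (nat_lit 1) (nat_lit 0) (nat_lit 1) (nat_lit 0) (nat_lit 379) (nat_lit 423) (nat_lit 278)))))) (XT.nd (nat_lit 470) (nat_lit 0) (nat_lit 0) (XT.nd (nat_lit 188) (nat_lit 0) (nat_lit 0) (XT.nd (nat_lit 94) (nat_lit 0) (nat_lit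 0) (XT.lf (nat_lit 0) (nat_lit 136962663282) (nat_lit 0) (nat_lit 0) (nat_lit 0) (nat_lit 0) (nat_lit 0) (nat_lit 0) (nat_lit 1) (nat_lit 0) (nat_lit 1) (nat_lit 0) (nat_lit 380) (nat_lit 423) (nat_lit 277)) (XT.lf (nat_lit 0) (nat_lit 136962529501) (nat_lit 0) (nat_lit 0) (nat_lit 0) (nat_lit 0) (nat_lit 0) (nat_lit 0) (nat_lit 1) (nat_lit 0) (nat_lit 1) (nat_lit 0) (nat_lit 381) (nat_lit 423) (nat_lit 276))) (XT.nd (nat_lit 94) (nat_lit 0) (nat_lit 0) (XT.lf (nat_lit 0) (nat_lit 136962405629) (nat_lit 0) (nat_lit 0) (nat_lit 0) (nat_lit 0) (nat_lit 0) (nat_lit 0) (nat_lit 1) (nat_lit 0) (nat_lit 1) (nat_lit 0) (nat_lit 382) (nat_lit 423) (nat_lit 275)) (XT.nd (nat_lit 94) (nat_lit 0) (nat_lit 0) (XT.lf (nat_lit 0) (nat_lit 136962290934) (nat_lit 0) (nat_lit 0) (nat_lit 0) (nat_lit 0) (nat_lit 0) (nat_lit 0) (nat_lit 1) (nat_lit 0) (nat_lit 1) (nat_lit 0)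 (nat_lit 383) (nat_lit 423) (nat_lit 274)) (XT.lf (nat_lit 0) (nat_lit 136962184734) (nat_lit 0) (nat_lit 0) (nat_lit 0) (nat_lit 0) (nat_lit 0) (nat_lit 0) (nat_lit 1) (nat_lit 0) (nat_lit 1) (nat_lit 0) (nat_lit 384) (nat_lit 423) (nat_lit 273))))) (XT.nd (nat_lit 188) (nat_lit 0) (nat_lit 0) (XT.nd (nat_lit 94) (nat_lit 0) (nat_lit 0) (XT.lf (nat_lit 0) (nat_lit 136962086401) (nat_lit 0) (nat_lit 0) (nat_lit 0) (nat_lit 0) (nat_lit 0) (nat_lit 0) (nat_lit 1) (nat_lit 0) (nat_lit 1) (nat_lit 0) (nat_lit 385) (nat_lit 423) (nat_lit 272)) (XT.lf (nat_lit 0) (nat_lit 136961995352) (nat_lit 0) (nat_lit 0) (nat_lit 0) (nat_lit 0) (nat_lit 0) (nat_lit 0) (nat_lit 1) (nat_lit 0) (nat_lit 1) (nat_lit 0) (nat_lit 386) (nat_lit 423) (nat_lit 271))) (XT.nd (nat_lit 94) (nat_lit 0) (nat_lit 0) (XT.lf (nat_lit 0) (nat_lit 136961911047) (nat_lit 0) (nat_lit 0) (nat_lit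 0) (nat_lit 0) (nat_lit 0) (nat_lit 0) (nat_lit 1) (nat_lit 0) (nat_lit 1) (nat_lit 0) (nat_lit 387) (nat_lit 423) (nat_lit 270)) (XT.nd (nat_lit 94) (nat_lit 0) (nat_lit 0) (XT.lf (nat_lit 0) (nat_lit 136961832987) (nat_lit 0) (nat_lit 0) (nat_lit 0) (nat_lit 0) (nat_lit 0) (nat_lit 0) (nat_lit 1) (nat_lit 0) (nat_lit 1) (nat_lit 0) (nat_lit 388) (nat_lit 423) (nat_lit 269)) (XT.lf (nat_lit 0) (nat_lit 136961760710) (nat_lit 0) (nat_lit 0) (nat_lit 0) (nat_lit 0) (nat_lit 0) (nat_lit 0) (nat_lit 1) (nat_lit 0) (nat_lit 1) (nat_lit 0) (nat_lit 389) (nat_lit 423) (nat_lit 268))))))))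
noncomputable def ec267 : XT := (XT.nd (nat_lit 1786) (nat_lit 0) (nat_lit 0) (XT.nd (nat_lit 846) (nat_lit 0) (nat_lit 0) (XT.nd (nat_lit 376) (nat_lit 0) (nat_lit 0) (XT.nd (nat_lit 188) (nat_lit 0) (nat_lit 0) (XT.nd (nat_lit 94) (nat_lit 0) (nat_lit 0) (XT.lf (nat_lit 0) (nat_lit 136961693786) (nat_lit 0) (nat_lit 0) (nat_lit 0) (nat_lit 0) (nat_lit 0) (nat_lit 0) (nat_lit 1) (nat_lit 0) (nat_lit 1) (nat_lit 0) (nat_lit 390) (nat_lit 423) (nat_lit 267)) (XT.lf (nat_lit 0) (nat_lit 136961631819) (nat_lit 0) (nat_lit 0) (nat_lit 0) (nat_lit 0) (nat_lit 0) (nat_lit 0) (nat_lit 1) (nat_lit 0) (nat_lit 1) (nat_lit 0) (nat_lit 391) (nat_lit 423) (nat_lit 266))) (XT.nd (nat_lit 94) (nat_lit 0) (nat_lit 0) (XT.lf (nat_lit 0) (nat_lit 136961574443) (nat_lit 0) (nat_lit 0) (nat_lit 0) (nat_lit 0) (nat_lit 0) (nat_lit 0) (nat_lit 1) (nat_lit 0) (nat_lit 1) (nat_lit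 0) (nat_lit 392) (nat_lit 423) (nat_lit 265)) (XT.lf (nat_lit 0) (nat_lit 136961521317) (nat_lit 0) (nat_lit 0) (nat_lit 0) (nat_lit 0) (nat_lit 0) (nat_lit 0) (nat_lit 1) (nat_lit 0) (nat_lit 1) (nat_lit 0) (nat_lit 393) (nat_lit 423) (nat_lit 264)))) (XT.nd (nat_lit 188) (nat_lit 0) (nat_lit 0) (XT.nd (nat_lit 94) (nat_lit 0) (nat_lit 0) (XT.lf (nat_lit 0) (nat_lit 136961472126) (nat_lit 0) (nat_lit 0) (nat_lit 0) (nat_lit 0) (nat_lit 0) (nat_lit 0) (nat_lit 1) (nat_lit 0) (nat_lit 1) (nat_lit 0) (nat_lit 394) (nat_lit 423) (nat_lit 263)) (XT.lf (nat_lit 0) (nat_lit 136961426578) (nat_lit 0) (nat_lit 0) (nat_lit 0) (nat_lit 0) (nat_lit 0) (nat_lit 0) (nat_lit 1) (nat_lit 0) (nat_lit 1) (nat_lit 0) (nat_lit 395) (nat_lit 423) (nat_lit 262))) (XT.nd (nat_lit 94) (nat_lit 0) (nat_lit 0) (XT.lf (nat_lit 0) (nat_lit 136961384405) (nat_lit 0) (nat_lit 0) (nat_lit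 0) (nat_lit 0) (nat_lit 0) (nat_lit 0) (nat_lit 1) (nat_lit 0) (nat_lit 1) (nat_lit 0) (nat_lit 396) (nat_lit 423) (nat_lit 261)) (XT.nd (nat_lit 94) (nat_lit 0) (nat_lit 0) (XT.lf (nat_lit 0) (nat_lit 136961345356) (nat_lit 0) (nat_lit 0) (nat_lit 0) (nat_lit 0) (nat_lit 0) (nat_lit 0) (nat_lit 1) (nat_lit 0) (nat_lit 1) (nat_lit 0) (nat_lit 397) (nat_lit 423) (nat_lit 260)) (XT.lf (nat_lit 0) (nat_lit 136961309199) (nat_lit 0) (nat_lit 0) (nat_lit 0) (nat_lit 0) (nat_lit 0) (nat_lit 0) (nat_lit 1) (nat_lit 0) (nat_lit 1) (nat_lit 0) (nat_lit 398) (nat_lit 423) (nat_lit 259)))))) (XT.nd (nat_lit 470) (nat_lit 0) (nat_lit 0) (XT.nd (nat_lit 188) (nat_lit 0) (nat_lit 0) (XT.nd (nat_lit 94) (nat_lit 0) (nat_lit 0) (XT.lf (nat_lit 0) (nat_lit 136961275720) (nat_lit 0) (nat_lit 0) (nat_lit 0) (nat_lit 0) (nat_lit 0) (nat_lit 0) (nat_lit 1) (nat_lit 0) (nat_lit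 1) (nat_lit 0) (nat_lit 399) (nat_lit 423) (nat_lit 258)) (XT.lf (nat_lit 0) (nat_lit 136961244722) (nat_lit 0) (nat_lit 0) (nat_lit 0) (nat_lit 0) (nat_lit 0) (nat_lit 0) (nat_lit 1) (nat_lit 0) (nat_lit 1) (nat_lit 0) (nat_lit 400) (nat_lit 423) (nat_lit 257))) (XT.nd (nat_lit 94) (nat_lit 0) (nat_lit 0) (XT.lf (nat_lit 0) (nat_lit 136961216019) (nat_lit 0) (nat_lit 0) (nat_lit 0) (nat_lit 0) (nat_lit 0) (nat_lit 0) (nat_lit 1) (nat_lit 0) (nat_lit 1) (nat_lit 0) (nat_lit 401) (nat_lit 423) (nat_lit 256)) (XT.nd (nat_lit 94) (nat_lit 0) (nat_lit 0) (XT.lf (nat_lit 0) (nat_lit 136961189443) (nat_lit 0) (nat_lit 0) (nat_lit 0) (nat_lit 0) (nat_lit 0) (nat_lit 0) (nat_lit 1) (nat_lit 0) (nat_lit 1) (nat_lit 0) (nat_lit 402) (nat_lit 423) (nat_lit 255)) (XT.lf (nat_lit 0) (nat_lit 136961164835) (nat_lit 0) (nat_lit 0) (nat_lit 0) (nat_lit 0) (nat_lit 0) (nat_lit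 0) (nat_lit 1) (nat_lit 0) (nat_lit 1) (nat_lit 0) (nat_lit 403) (nat_lit 423) (nat_lit 254))))) (XT.nd (nat_lit 188) (nat_lit 0) (nat_lit 0) (XT.nd (nat_lit 94) (nat_lit 0) (nat_lit 0) (XT.lf (nat_lit 0) (nat_lit 136961142050) (nat_lit 0) (nat_lit 0) (nat_lit 0) (nat_lit 0) (nat_lit 0) (nat_lit 0) (nat_lit 1) (nat_lit 0) (nat_lit 1) (nat_lit 0) (nat_lit 404) (nat_lit 423) (nat_lit 253)) (XT.lf (nat_lit 0) (nat_lit 136961120953) (nat_lit 0) (nat_lit 0) (nat_lit 0) (nat_lit 0) (nat_lit 0) (nat_lit 0) (nat_lit 1) (nat_lit 0) (nat_lit 1) (nat_lit 0) (nat_lit 405) (nat_lit 423) (nat_lit 252))) (XT.nd (nat_lit 94) (nat_lit 0) (nat_lit 0) (XT.lf (nat_lit 0) (nat_lit 136961101418) (nat_lit 0) (nat_lit 0) (nat_lit 0) (nat_lit 0) (nat_lit 0) (nat_lit 0) (nat_lit 1) (nat_lit 0) (nat_lit 1) (nat_lit 0) (nat_lit 406) (nat_lit 423) (nat_lit 251)) (XT.nd (nat_lit 94) (nat_lit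 0) (nat_lit 0) (XT.lf (nat_lit 0) (nat_lit 136961083331) (nat_lit 0) (nat_lit 0) (nat_lit 0) (nat_lit 0) (nat_lit 0) (nat_lit 0) (nat_lit 1) (nat_lit 0) (nat_lit 1) (nat_lit 0) (nat_lit 407) (nat_lit 423) (nat_lit 250)) (XT.lf (nat_lit 0) (nat_lit 136961066583) (nat_lit 0) (nat_lit 0) (nat_lit 0) (nat_lit 0) (nat_lit 0) (nat_lit 0) (nat_lit 1) (nat_lit 0) (nat_lit 1) (nat_lit 0) (nat_lit 408) (nat_lit 423) (nat_lit 249))))))) (XT.nd (nat_lit 846) (nat_lit 0) (nat_lit 0) (XT.nd (nat_lit 376) (nat_lit 0) (nat_lit 0) (XT.nd (nat_lit 188) (nat_lit 0) (nat_lit 0) (XT.nd (nat_lit 94) (nat_lit 0) (nat_lit 0) (XT.lf (nat_lit 0) (nat_lit 136961051076) (nat_lit 0) (nat_lit 0) (nat_lit 0) (nat_lit 0) (nat_lit 0) (nat_lit 0) (nat_lit 1) (nat_lit 0) (nat_lit 1) (nat_lit 0) (nat_lit 409) (nat_lit 423) (nat_lit 248)) (XT.lf (nat_lit 0) (nat_lit 136961036718) (nat_lit 0)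 (nat_lit 0) (nat_lit 0) (nat_lit 0) (nat_lit 0) (nat_lit 0) (nat_lit 1) (nat_lit 0) (nat_lit 1) (nat_lit 0) (nat_lit 410) (nat_lit 423) (nat_lit 247))) (XT.nd (nat_lit 94) (nat_lit 0) (nat_lit 0) (XT.lf (nat_lit 0) (nat_lit 136961023423) (nat_lit 0) (nat_lit 0) (nat_lit 0) (nat_lit 0) (nat_lit 0) (nat_lit 0) (nat_lit 1) (nat_lit 0) (nat_lit 1) (nat_lit 0) (nat_lit 411) (nat_lit 423) (nat_lit 246)) (XT.lf (nat_lit 0) (nat_lit 136961011113) (nat_lit 0) (nat_lit 0) (nat_lit 0) (nat_lit 0) (nat_lit 0) (nat_lit 0) (nat_lit 1) (nat_lit 0) (nat_lit 1) (nat_lit 0) (nat_lit 412) (nat_lit 423) (nat_lit 245)))) (XT.nd (nat_lit 188) (nat_lit 0) (nat_lit 0) (XT.nd (nat_lit 94) (nat_lit 0) (nat_lit 0) (XT.lf (nat_lit 0) (nat_lit 136960999715) (nat_lit 0) (nat_lit 0) (nat_lit 0) (nat_lit 0) (nat_lit 0) (nat_lit 0) (nat_lit 1) (nat_lit 0) (nat_lit 1) (nat_lit 0) (nat_lit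 413) (nat_lit 423) (nat_lit 244)) (XT.lf (nat_lit 0) (nat_lit 136960989161) (nat_lit 0) (nat_lit 0) (nat_lit 0) (nat_lit 0) (nat_lit 0) (nat_lit 0) (nat_lit 1) (nat_lit 0) (nat_lit 1) (nat_lit 0) (nat_lit 414) (nat_lit 423) (nat_lit 243))) (XT.nd (nat_lit 94) (nat_lit 0) (nat_lit 0) (XT.lf (nat_lit 0) (nat_lit 136960979389) (nat_lit 0) (nat_lit 0) (nat_lit 0) (nat_lit 0) (nat_lit 0) (nat_lit 0) (nat_lit 1) (nat_lit 0) (nat_lit 1) (nat_lit 0) (nat_lit 415) (nat_lit 423) (nat_lit 242)) (XT.nd (nat_lit 94) (nat_lit 0) (nat_lit 0) (XT.lf (nat_lit 0) (nat_lit 136960970341) (nat_lit 0) (nat_lit 0) (nat_lit 0) (nat_lit 0) (nat_lit 0) (nat_lit 0) (nat_lit 1) (nat_lit 0) (nat_lit 1) (nat_lit 0) (nat_lit 416) (nat_lit 423) (nat_lit 241)) (XT.lf (nat_lit 0) (nat_lit 136960961963) (nat_lit 0) (nat_lit 0) (nat_lit 0) (nat_lit 0) (nat_lit 0) (nat_lit 0) (nat_lit 1) (nat_lit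 0) (nat_lit 1) (nat_lit 0) (nat_lit 417) (nat_lit 423) (nat_lit 240)))))) (XT.nd (nat_lit 470) (nat_lit 0) (nat_lit 0) (XT.nd (nat_lit 188) (nat_lit 0) (nat_lit 0) (XT.nd (nat_lit 94) (nat_lit 0) (nat_lit 0) (XT.lf (nat_lit 0) (nat_lit 136960954206) (nat_lit 0) (nat_lit 0) (nat_lit 0) (nat_lit 0) (nat_lit 0) (nat_lit 0) (nat_lit 1) (nat_lit 0) (nat_lit 1) (nat_lit 0) (nat_lit 418) (nat_lit 423) (nat_lit 239)) (XT.lf (nat_lit 0) (nat_lit 136960947023) (nat_lit 0) (nat_lit 0) (nat_lit 0) (nat_lit 0) (nat_lit 0) (nat_lit 0) (nat_lit 1) (nat_lit 0) (nat_lit 1) (nat_lit 0) (nat_lit 419) (nat_lit 423) (nat_lit 238))) (XT.nd (nat_lit 94) (nat_lit 0) (nat_lit 0) (XT.lf (nat_lit 0) (nat_lit 136960940372) (nat_lit 0) (nat_lit 0) (nat_lit 0) (nat_lit 0) (nat_lit 0) (nat_lit 0) (nat_lit 1) (nat_lit 0) (nat_lit 1) (nat_lit 0) (nat_lit 420) (nat_lit 423) (nat_lit 237))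 (XT.nd (nat_lit 94) (nat_lit 0) (nat_lit 0) (XT.lf (nat_lit 0) (nat_lit 136960934214) (nat_lit 0) (nat_lit 0) (nat_lit 0) (nat_lit 0) (nat_lit 0) (nat_lit 0) (nat_lit 1) (nat_lit 0) (nat_lit 1) (nat_lit 0) (nat_lit 421) (nat_lit 423) (nat_lit 236)) (XT.lf (nat_lit 0) (nat_lit 136960928512) (nat_lit 0) (nat_lit 0) (nat_lit 0) (nat_lit 0) (nat_lit 0) (nat_lit 0) (nat_lit 1) (nat_lit 0) (nat_lit 1) (nat_lit 0) (nat_lit 422) (nat_lit 423) (nat_lit 235))))) (XT.nd (nat_lit 188) (nat_lit 0) (nat_lit 0) (XT.nd (nat_lit 94) (nat_lit 0) (nat_lit 0) (XT.lf (nat_lit 0) (nat_lit 136960923233) (nat_lit 0) (nat_lit 0) (nat_lit 0) (nat_lit 0) (nat_lit 0) (nat_lit 0) (nat_lit 1) (nat_lit 0) (nat_lit 1) (nat_lit 0) (nat_lit 423) (nat_lit 423) (nat_lit 234)) (XT.lf (nat_lit 0) (nat_lit 136960918344) (nat_lit 0) (nat_lit 0) (nat_lit 0) (nat_lit 0) (nat_lit 0) (nat_lit 0) (nat_lit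 1) (nat_lit 0) (nat_lit 1) (nat_lit 0) (nat_lit 424) (nat_lit 423) (nat_lit 233))) (XT.nd (nat_lit 94) (nat_lit 0) (nat_lit 0) (XT.lf (nat_lit 0) (nat_lit 136960913818) (nat_lit 0) (nat_lit 0) (nat_lit 0) (nat_lit 0) (nat_lit 0) (nat_lit 0) (nat_lit 1) (nat_lit 0) (nat_lit 1) (nat_lit 0) (nat_lit 425) (nat_lit 423) (nat_lit 232)) (XT.nd (nat_lit 94) (nat_lit 0) (nat_lit 0) (XT.lf (nat_lit 0) (nat_lit 136960909627) (nat_lit 0) (nat_lit 0) (nat_lit 0) (nat_lit 0) (nat_lit 0) (nat_lit 0) (nat_lit 1) (nat_lit 0) (nat_lit 1) (nat_lit 0) (nat_lit 426) (nat_lit 423) (nat_lit 231)) (XT.lf (nat_lit 0) (nat_lit 136960905746) (nat_lit 0) (nat_lit 0) (nat_lit 0) (nat_lit 0) (nat_lit 0) (nat_lit 0) (nat_lit 1) (nat_lit 0) (nat_lit 1) (nat_lit 0) (nat_lit 427) (nat_lit 423) (nat_lit 230))))))))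
noncomputable def ec268 : XT := (XT.nd (nat_lit 49538) (nat_lit 0) (nat_lit 5964) (XT.nd (nat_lit 846) (nat_lit 0) (nat_lit 0) (XT.nd (nat_lit 376) (nat_lit 0) (nat_lit 0) (XT.nd (nat_lit 188) (nat_lit 0) (nat_lit 0) (XT.nd (nat_lit 94) (nat_lit 0) (nat_lit 0) (XT.lf (nat_lit 0) (nat_lit 136960902153) (nat_lit 0) (nat_lit 0) (nat_lit 0) (nat_lit 0) (nat_lit 0) (nat_lit 0) (nat_lit 1) (nat_lit 0) (nat_lit 1) (nat_lit 0) (nat_lit 428) (nat_lit 423) (nat_lit 229)) (XT.lf (nat_lit 0) (nat_lit 136960898826) (nat_lit 0) (nat_lit 0) (nat_lit 0) (nat_lit 0) (nat_lit 0) (nat_lit 0) (nat_lit 1) (nat_lit 0) (nat_lit 1) (nat_lit 0) (nat_lit 429) (nat_lit 423) (nat_lit 228))) (XT.nd (nat_lit 94) (nat_lit 0) (nat_lit 0) (XT.lf (nat_lit 0) (nat_lit 136960895745) (nat_lit 0) (nat_lit 0) (nat_lit 0) (nat_lit 0) (nat_lit 0) (nat_lit 0) (nat_lit 1) (nat_lit 0) (nat_lit 1) (nat_lit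 0) (nat_lit 430) (nat_lit 423) (nat_lit 227)) (XT.lf (nat_lit 0) (nat_lit 136960892893) (nat_lit 0) (nat_lit 0) (nat_lit 0) (nat_lit 0) (nat_lit 0) (nat_lit 0) (nat_lit 1) (nat_lit 0) (nat_lit 1) (nat_lit 0) (nat_lit 431) (nat_lit 423) (nat_lit 226)))) (XT.nd (nat_lit 188) (nat_lit 0) (nat_lit 0) (XT.nd (nat_lit 94) (nat_lit 0) (nat_lit 0) (XT.lf (nat_lit 0) (nat_lit 136960890252) (nat_lit 0) (nat_lit 0) (nat_lit 0) (nat_lit 0) (nat_lit 0) (nat_lit 0) (nat_lit 1) (nat_lit 0) (nat_lit 1) (nat_lit 0) (nat_lit 432) (nat_lit 423) (nat_lit 225)) (XT.lf (nat_lit 0) (nat_lit 136960887806) (nat_lit 0) (nat_lit 0) (nat_lit 0) (nat_lit 0) (nat_lit 0) (nat_lit 0) (nat_lit 1) (nat_lit 0) (nat_lit 1) (nat_lit 0) (nat_lit 433) (nat_lit 423) (nat_lit 224))) (XT.nd (nat_lit 94) (nat_lit 0) (nat_lit 0) (XT.lf (nat_lit 0) (nat_lit 136960885542) (nat_lit 0) (nat_lit 0) (nat_lit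 0) (nat_lit 0) (nat_lit 0) (nat_lit 0) (nat_lit 1) (nat_lit 0) (nat_lit 1) (nat_lit 0) (nat_lit 434) (nat_lit 423) (nat_lit 223)) (XT.nd (nat_lit 94) (nat_lit 0) (nat_lit 0) (XT.lf (nat_lit 0) (nat_lit 136960883445) (nat_lit 0) (nat_lit 0) (nat_lit 0) (nat_lit 0) (nat_lit 0) (nat_lit 0) (nat_lit 1) (nat_lit 0) (nat_lit 1) (nat_lit 0) (nat_lit 435) (nat_lit 423) (nat_lit 222)) (XT.lf (nat_lit 0) (nat_lit 136960881504) (nat_lit 0) (nat_lit 0) (nat_lit 0) (nat_lit 0) (nat_lit 0) (nat_lit 0) (nat_lit 1) (nat_lit 0) (nat_lit 1) (nat_lit 0) (nat_lit 436) (nat_lit 423) (nat_lit 221)))))) (XT.nd (nat_lit 376) (nat_lit 0) (nat_lit 0) (XT.nd (nat_lit 188) (nat_lit 0) (nat_lit 0) (XT.nd (nat_lit 94) (nat_lit 0) (nat_lit 0) (XT.lf (nat_lit 0) (nat_lit 136960879707) (nat_lit 0) (nat_lit 0) (nat_lit 0) (nat_lit 0) (nat_lit 0) (nat_lit 0) (nat_lit 1) (nat_lit 0) (nat_lit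 1) (nat_lit 0) (nat_lit 437) (nat_lit 423) (nat_lit 220)) (XT.lf (nat_lit 0) (nat_lit 136960878042) (nat_lit 0) (nat_lit 0) (nat_lit 0) (nat_lit 0) (nat_lit 0) (nat_lit 0) (nat_lit 1) (nat_lit 0) (nat_lit 1) (nat_lit 0) (nat_lit 438) (nat_lit 423) (nat_lit 219))) (XT.nd (nat_lit 94) (nat_lit 0) (nat_lit 0) (XT.lf (nat_lit 0) (nat_lit 136960876501) (nat_lit 0) (nat_lit 0) (nat_lit 0) (nat_lit 0) (nat_lit 0) (nat_lit 0) (nat_lit 1) (nat_lit 0) (nat_lit 1) (nat_lit 0) (nat_lit 439) (nat_lit 423) (nat_lit 218)) (XT.lf (nat_lit 0) (nat_lit 136960875074) (nat_lit 0) (nat_lit 0) (nat_lit 0) (nat_lit 0) (nat_lit 0) (nat_lit 0) (nat_lit 1) (nat_lit 0) (nat_lit 1) (nat_lit 0) (nat_lit 440) (nat_lit 423) (nat_lit 217)))) (XT.nd (nat_lit 188) (nat_lit 0) (nat_lit 0) (XT.nd (nat_lit 94) (nat_lit 0) (nat_lit 0) (XT.lf (nat_lit 0) (nat_lit 136960873753) (nat_lit 0) (nat_lit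 0) (nat_lit 0) (nat_lit 0) (nat_lit 0) (nat_lit 0) (nat_lit 1) (nat_lit 0) (nat_lit 1) (nat_lit 0) (nat_lit 441) (nat_lit 423) (nat_lit 216)) (XT.lf (nat_lit 0) (nat_lit 136960872530) (nat_lit 0) (nat_lit 0) (nat_lit 0) (nat_lit 0) (nat_lit 0) (nat_lit 0) (nat_lit 1) (nat_lit 0) (nat_lit 1) (nat_lit 0) (nat_lit 442) (nat_lit 423) (nat_lit 215))) (XT.nd (nat_lit 47940) (nat_lit 0) (nat_lit 10752) (XT.lf (nat_lit 0) (nat_lit 136960871397) (nat_lit 0) (nat_lit 0) (nat_lit 0) (nat_lit 0) (nat_lit 0) (nat_lit 0) (nat_lit 1) (nat_lit 0) (nat_lit 1) (nat_lit 0) (nat_lit 443) (nat_lit 423) (nat_lit 214)) (XT.nd (nat_lit 94) (nat_lit 0) (nat_lit 84) (XT.lf (nat_lit 924) (nat_lit 74023570642) (nat_lit 0) (nat_lit 131428679525) (nat_lit 924) (nat_lit 74023570642) (nat_lit 139) (nat_lit 1) (nat_lit 128) (nat_lit 0) (nat_lit 139) (nat_lit 0) (nat_lit 232) (nat_lit 424)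 (nat_lit 424)) (XT.lf (nat_lit 924) (nat_lit 27613063198) (nat_lit 0) (nat_lit 258034330822) (nat_lit 840) (nat_lit 252356713470) (nat_lit 140) (nat_lit 1) (nat_lit 129) (nat_lit 1) (nat_lit 139) (nat_lit 1) (nat_lit 233) (nat_lit 424) (nat_lit 423))))))) (XT.nd (nat_lit 846) (nat_lit 2940) (nat_lit 0) (XT.nd (nat_lit 376) (nat_lit 1932) (nat_lit 0) (XT.nd (nat_lit 188) (nat_lit 0) (nat_lit 168) (XT.nd (nat_lit 94) (nat_lit 0) (nat_lit 84) (XT.lf (nat_lit 924) (nat_lit 253610046991) (nat_lit 84) (nat_lit 172805678329) (nat_lit 0) (nat_lit 91648249064) (nat_lit 140) (nat_lit 1) (nat_lit 130) (nat_lit 1) (nat_lit 129) (nat_lit 1) (nat_lit 234) (nat_lit 424) (nat_lit 422)) (XT.lf (nat_lit 924) (nat_lit 219139856635) (nat_lit 84) (nat_lit 72421662012) (nat_lit 0) (nat_lit 207560177469) (nat_lit 141) (nat_lit 1) (nat_lit 131) (nat_lit 1) (nat_lit 130) (nat_lit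 1) (nat_lit 235) (nat_lit 424) (nat_lit 421))) (XT.nd (nat_lit 94) (nat_lit 0) (nat_lit 84) (XT.lf (nat_lit 924) (nat_lit 162182124533) (nat_lit 0) (nat_lit 303435088985) (nat_lit 840) (nat_lit 15511558396) (nat_lit 142) (nat_lit 1) (nat_lit 131) (nat_lit 1) (nat_lit 141) (nat_lit 1) (nat_lit 236) (nat_lit 424) (nat_lit 420)) (XT.lf (nat_lit 924) (nat_lit 38914010629) (nat_lit 0) (nat_lit 334621483142) (nat_lit 840) (nat_lit 90459642021) (nat_lit 143) (nat_lit 1) (nat_lit 132) (nat_lit 1) (nat_lit 142) (nat_lit 1) (nat_lit 237) (nat_lit 424) (nat_lit 419)))) (XT.nd (nat_lit 188) (nat_lit 1428) (nat_lit 0) (XT.nd (nat_lit 94) (nat_lit 756) (nat_lit 0) (XT.lf (nat_lit 924) (nat_lit 74776900762) (nat_lit 84) (nat_lit 290813318248) (nat_lit 0) (nat_lit 82071106364) (nat_lit 143) (nat_lit 1) (nat_lit 133) (nat_lit 1) (nat_lit 132) (nat_lit 1) (nat_lit 238) (nat_lit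 424) (nat_lit 418)) (XT.lf (nat_lit 924) (nat_lit 15357470274) (nat_lit 0) (nat_lit 217402191952) (nat_lit 840) (nat_lit 199355532115) (nat_lit 134) (nat_lit 1) (nat_lit 123) (nat_lit 1) (nat_lit 133) (nat_lit 1) (nat_lit 239) (nat_lit 424) (nat_lit 417))) (XT.nd (nat_lit 94) (nat_lit 840) (nat_lit 0) (XT.lf (nat_lit 84) (nat_lit 106338323269) (nat_lit 0) (nat_lit 46081344057) (nat_lit 588) (nat_lit 264885490274) (nat_lit 117) (nat_lit 1) (nat_lit 116) (nat_lit 1) (nat_lit 123) (nat_lit 1) (nat_lit 240) (nat_lit 424) (nat_lit 416)) (XT.nd (nat_lit 94) (nat_lit 420) (nat_lit 0) (XT.lf (nat_lit 504) (nat_lit 293055034465) (nat_lit 0) (nat_lit 95395731475) (nat_lit 420) (nat_lit 14748769527) (nat_lit 117) (nat_lit 1) (nat_lit 111) (nat_lit 1) (nat_lit 116) (nat_lit 1) (nat_lit 241) (nat_lit 424) (nat_lit 415)) (XT.lf (nat_lit 504) (nat_lit 211471303551) (nat_lit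 0) (nat_lit 44464361371) (nat_lit 420) (nat_lit 133764764940) (nat_lit 112) (nat_lit 1) (nat_lit 106) (nat_lit 1) (nat_lit 111) (nat_lit 1) (nat_lit 242) (nat_lit 424) (nat_lit 414)))))) (XT.nd (nat_lit 470) (nat_lit 1512) (nat_lit 0) (XT.nd (nat_lit 188) (nat_lit 1092) (nat_lit 0) (XT.nd (nat_lit 94) (nat_lit 0) (nat_lit 0) (XT.lf (nat_lit 420) (nat_lit 128677591119) (nat_lit 0) (nat_lit 818661151) (nat_lit 336) (nat_lit 247359614267) (nat_lit 107) (nat_lit 1) (nat_lit 102) (nat_lit 1) (nat_lit 106) (nat_lit 1) (nat_lit 243) (nat_lit 424) (nat_lit 413)) (XT.lf (nat_lit 84) (nat_lit 9493224544) (nat_lit 0) (nat_lit 320157531839) (nat_lit 420) (nat_lit 34951419677) (nat_lit 103) (nat_lit 1) (nat_lit 102) (nat_lit 1) (nat_lit 107) (nat_lit 1) (nat_lit 244) (nat_lit 424) (nat_lit 412))) (XT.nd (nat_lit 94) (nat_lit 672) (nat_lit 0) (XT.lf (nat_lit 84) (nat_lit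 245117519985) (nat_lit 0) (nat_lit 40655363431) (nat_lit 420) (nat_lit 67048077871) (nat_lit 98) (nat_lit 1) (nat_lit 97) (nat_lit 1) (nat_lit 102) (nat_lit 1) (nat_lit 245) (nat_lit 424) (nat_lit 411)) (XT.nd (nat_lit 94) (nat_lit 336) (nat_lit 0) (XT.lf (nat_lit 84) (nat_lit 122638506685) (nat_lit 0) (nat_lit 124534595176) (nat_lit 420) (nat_lit 94387198792) (nat_lit 94) (nat_lit 1) (nat_lit 93) (nat_lit 1) (nat_lit 98) (nat_lit 1) (nat_lit 246) (nat_lit 424) (nat_lit 410)) (XT.lf (nat_lit 84) (nat_lit 6053164743) (nat_lit 0) (nat_lit 208219909387) (nat_lit 420) (nat_lit 116559720954) (nat_lit 90) (nat_lit 1) (nat_lit 89) (nat_lit 1) (nat_lit 94) (nat_lit 1) (nat_lit 247) (nat_lit 424) (nat_lit 409))))) (XT.nd (nat_lit 188) (nat_lit 840) (nat_lit 0) (XT.nd (nat_lit 94) (nat_lit 420) (nat_lit 0) (XT.lf (nat_lit 336) (nat_lit 27335750828) (nat_lit 0) (nat_lit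 184858598067) (nat_lit 252) (nat_lit 108331386981) (nat_lit 90) (nat_lit 1) (nat_lit 86) (nat_lit 1) (nat_lit 89) (nat_lit 1) (nat_lit 248) (nat_lit 424) (nat_lit 408)) (XT.lf (nat_lit 84) (nat_lit 94452368595) (nat_lit 0) (nat_lit 64738240336) (nat_lit 420) (nat_lit 151453871040) (nat_lit 82) (nat_lit 1) (nat_lit 81) (nat_lit 1) (nat_lit 86) (nat_lit 1) (nat_lit 249) (nat_lit 424) (nat_lit 407))) (XT.nd (nat_lit 94) (nat_lit 588) (nat_lit 0) (XT.lf (nat_lit 336) (nat_lit 146234985326) (nat_lit 0) (nat_lit 137368868287) (nat_lit 252) (nat_lit 17583052107) (nat_lit 82) (nat_lit 1) (nat_lit 78) (nat_lit 1) (nat_lit 81) (nat_lit 1) (nat_lit 250) (nat_lit 424) (nat_lit 406)) (XT.nd (nat_lit 94) (nat_lit 336) (nat_lit 0) (XT.lf (nat_lit 336) (nat_lit 46867606326) (nat_lit 0) (nat_lit 118268970395) (nat_lit 252) (nat_lit 126956211967) (nat_lit 79) (nat_lit 1) (nat_lit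 75) (nat_lit 1) (nat_lit 78) (nat_lit 1) (nat_lit 251) (nat_lit 424) (nat_lit 405)) (XT.lf (nat_lit 84) (nat_lit 53417746489) (nat_lit 0) (nat_lit 48908589016) (nat_lit 336) (nat_lit 181050031956) (nat_lit 72) (nat_lit 1) (nat_lit 71) (nat_lit 1) (nat_lit 75) (nat_lit 1) (nat_lit 252) (nat_lit 424) (nat_lit 404))))))))
noncomputable def ec269 : XT := (XT.nd (nat_lit 1786) (nat_lit 2352) (nat_lit 0) (XT.nd (nat_lit 846) (nat_lit 1680) (nat_lit 0) (XT.nd (nat_lit 376) (nat_lit 1008) (nat_lit 0) (XT.nd (nat_lit 188) (nat_lit 504) (nat_lit 0) (XT.nd (nat_lit 94) (nat_lit 168) (nat_lit 0) (XT.lf (nat_lit 336) (nat_lit 132923051076) (nat_lit 0) (nat_lit 88442072439) (nat_lit 252) (nat_lit 53613875095) (nat_lit 72) (nat_lit 1) (nat_lit 68) (nat_lit 1) (nat_lit 71) (nat_lit 1) (nat_lit 253) (nat_lit 424) (nat_lit 403)) (XT.lf (nat_lit 252) (nat_lit 32951820631) (nat_lit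 0) (nat_lit 77159257220) (nat_lit 168) (nat_lit 156809325194) (nat_lit 69) (nat_lit 1) (nat_lit 66) (nat_lit 1) (nat_lit 68) (nat_lit 1) (nat_lit 254) (nat_lit 424) (nat_lit 402))) (XT.nd (nat_lit 94) (nat_lit 168) (nat_lit 0) (XT.lf (nat_lit 84) (nat_lit 5582248936) (nat_lit 0) (nat_lit 62466577448) (nat_lit 336) (nat_lit 191125353490) (nat_lit 63) (nat_lit 1) (nat_lit 62) (nat_lit 1) (nat_lit 66) (nat_lit 1) (nat_lit 255) (nat_lit 424) (nat_lit 401)) (XT.lf (nat_lit 252) (nat_lit 95751944522) (nat_lit 0) (nat_lit 59836750782) (nat_lit 168) (nat_lit 96085162252) (nat_lit 63) (nat_lit 1) (nat_lit 60) (nat_lit 1) (nat_lit 62) (nat_lit 1) (nat_lit 256) (nat_lit 424) (nat_lit 400)))) (XT.nd (nat_lit 188) (nat_lit 588) (nat_lit 0) (XT.nd (nat_lit 94) (nat_lit 168) (nat_lit 0) (XT.lf (nat_lit 84) (nat_lit 51951003599) (nat_lit 0) (nat_lit 2399649426) (nat_lit 252)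 (nat_lit 190150170434) (nat_lit 58) (nat_lit 1) (nat_lit 57) (nat_lit 1) (nat_lit 60) (nat_lit 1) (nat_lit 257) (nat_lit 424) (nat_lit 399)) (XT.lf (nat_lit 252) (nat_lit 142024011863) (nat_lit 0) (nat_lit 49214504556) (nat_lit 168) (nat_lit 46297931400) (nat_lit 58) (nat_lit 1) (nat_lit 55) (nat_lit 1) (nat_lit 57) (nat_lit 1) (nat_lit 258) (nat_lit 424) (nat_lit 398))) (XT.nd (nat_lit 94) (nat_lit 420) (nat_lit 0) (XT.lf (nat_lit 252) (nat_lit 44118349384) (nat_lit 0) (nat_lit 45750324207) (nat_lit 168) (nat_lit 140969677148) (nat_lit 56) (nat_lit 1) (nat_lit 53) (nat_lit 1) (nat_lit 55) (nat_lit 1) (nat_lit 259) (nat_lit 424) (nat_lit 397)) (XT.nd (nat_lit 94) (nat_lit 168) (nat_lit 0) (XT.lf (nat_lit 252) (nat_lit 175133633105) (nat_lit 0) (nat_lit 43710721452) (nat_lit 168) (nat_lit 5545212133) (nat_lit 53) (nat_lit 1) (nat_lit 50) (nat_lit 1) (nat_lit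 52) (nat_lit 1) (nat_lit 260) (nat_lit 424) (nat_lit 396)) (XT.lf (nat_lit 252) (nat_lit 78381697420) (nat_lit 0) (nat_lit 41729002060) (nat_lit 168) (nat_lit 98009274516) (nat_lit 51) (nat_lit 1) (nat_lit 48) (nat_lit 1) (nat_lit 50) (nat_lit 1) (nat_lit 261) (nat_lit 424) (nat_lit 395)))))) (XT.nd (nat_lit 470) (nat_lit 924) (nat_lit 0) (XT.nd (nat_lit 188) (nat_lit 420) (nat_lit 0) (XT.nd (nat_lit 94) (nat_lit 168) (nat_lit 0) (XT.lf (nat_lit 84) (nat_lit 26848757599) (nat_lit 0) (nat_lit 14757287017) (nat_lit 168) (nat_lit 170504383190) (nat_lit 47) (nat_lit 1) (nat_lit 46) (nat_lit 1) (nat_lit 48) (nat_lit 1) (nat_lit 262) (nat_lit 424) (nat_lit 394)) (XT.lf (nat_lit 252) (nat_lit 102841294802) (nat_lit 0) (nat_lit 41165482916) (nat_lit 168) (nat_lit 62245749081) (nat_lit 47) (nat_lit 1) (nat_lit 44) (nat_lit 1) (nat_lit 46) (nat_lit 1) (nat_lit 263)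 (nat_lit 424) (nat_lit 393))) (XT.nd (nat_lit 94) (nat_lit 336) (nat_lit 0) (XT.lf (nat_lit 168) (nat_lit 11074546094) (nat_lit 0) (nat_lit 42176560374) (nat_lit 84) (nat_lit 147374781719) (nat_lit 45) (nat_lit 1) (nat_lit 43) (nat_lit 1) (nat_lit 44) (nat_lit 1) (nat_lit 264) (nat_lit 424) (nat_lit 392)) (XT.nd (nat_lit 94) (nat_lit 84) (nat_lit 0) (XT.lf (nat_lit 252) (nat_lit 119545636411) (nat_lit 0) (nat_lit 43135366303) (nat_lit 168) (nat_lit 32473390660) (nat_lit 43) (nat_lit 1) (nat_lit 40) (nat_lit 1) (nat_lit 42) (nat_lit 1) (nat_lit 265) (nat_lit 424) (nat_lit 391)) (XT.lf (nat_lit 168) (nat_lit 30066609084) (nat_lit 0) (nat_lit 44748241115) (nat_lit 84) (nat_lit 115052448729) (nat_lit 41) (nat_lit 1) (nat_lit 39) (nat_lit 1) (nat_lit 40) (nat_lit 1) (nat_lit 266) (nat_lit 424) (nat_lit 390))))) (XT.nd (nat_lit 188) (nat_lit 588) (nat_lit 0) (XT.nd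 (nat_lit 94) (nat_lit 84) (nat_lit 0) (XT.lf (nat_lit 252) (nat_lit 130150956528) (nat_lit 0) (nat_lit 46906462023) (nat_lit 168) (nat_lit 7697751959) (nat_lit 39) (nat_lit 1) (nat_lit 36) (nat_lit 1) (nat_lit 38) (nat_lit 1) (nat_lit 267) (nat_lit 424) (nat_lit 389)) (XT.lf (nat_lit 168) (nat_lit 43269975370) (nat_lit 0) (nat_lit 48900550298) (nat_lit 84) (nat_lit 87609558942) (nat_lit 37) (nat_lit 1) (nat_lit 35) (nat_lit 1) (nat_lit 36) (nat_lit 1) (nat_lit 268) (nat_lit 424) (nat_lit 388))) (XT.nd (nat_lit 94) (nat_lit 336) (nat_lit 0) (XT.lf (nat_lit 84) (nat_lit 12489436877) (nat_lit 0) (nat_lit 39201013160) (nat_lit 252) (nat_lit 123293278970) (nat_lit 33) (nat_lit 1) (nat_lit 32) (nat_lit 1) (nat_lit 35) (nat_lit 1) (nat_lit 269) (nat_lit 424) (nat_lit 387)) (XT.nd (nat_lit 94) (nat_lit 252) (nat_lit 0) (XT.lf (nat_lit 168) (nat_lit 51927874380) (nat_lit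 0) (nat_lit 54106383779) (nat_lit 84) (nat_lit 64272229784) (nat_lit 33) (nat_lit 1) (nat_lit 31) (nat_lit 1) (nat_lit 32) (nat_lit 1) (nat_lit 270) (nat_lit 424) (nat_lit 386)) (XT.lf (nat_lit 84) (nat_lit 29045779731) (nat_lit 0) (nat_lit 28132801740) (nat_lit 252) (nat_lit 108615035114) (nat_lit 29) (nat_lit 1) (nat_lit 28) (nat_lit 1) (nat_lit 31) (nat_lit 1) (nat_lit 271) (nat_lit 424) (nat_lit 385))))))) (XT.nd (nat_lit 846) (nat_lit 1260) (nat_lit 0) (XT.nd (nat_lit 376) (nat_lit 588) (nat_lit 0) (XT.nd (nat_lit 188) (nat_lit 252) (nat_lit 0) (XT.nd (nat_lit 94) (nat_lit 168) (nat_lit 0) (XT.lf (nat_lit 168) (nat_lit 57042886523) (nat_lit 0) (nat_lit 59954277277) (nat_lit 84) (nat_lit 44398883581) (nat_lit 29) (nat_lit 1) (nat_lit 27) (nat_lit 1) (nat_lit 28) (nat_lit 1) (nat_lit 272) (nat_lit 424) (nat_lit 384)) (XT.lf (nat_lit 84) (nat_lit 42762104313)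 (nat_lit 0) (nat_lit 20375377568) (nat_lit 168) (nat_lit 94006227733) (nat_lit 26) (nat_lit 1) (nat_lit 25) (nat_lit 1) (nat_lit 27) (nat_lit 1) (nat_lit 273) (nat_lit 424) (nat_lit 383))) (XT.nd (nat_lit 94) (nat_lit 168) (nat_lit 0) (XT.lf (nat_lit 168) (nat_lit 59421910119) (nat_lit 0) (nat_lit 66125868677) (nat_lit 84) (nat_lit 27456647095) (nat_lit 26) (nat_lit 1) (nat_lit 24) (nat_lit 1) (nat_lit 25) (nat_lit 1) (nat_lit 274) (nat_lit 424) (nat_lit 382)) (XT.lf (nat_lit 84) (nat_lit 54090086009) (nat_lit 0) (nat_lit 15200297346) (nat_lit 168) (nat_lit 79702078849) (nat_lit 23) (nat_lit 1) (nat_lit 22) (nat_lit 1) (nat_lit 24) (nat_lit 1) (nat_lit 275) (nat_lit 424) (nat_lit 381)))) (XT.nd (nat_lit 188) (nat_lit 336) (nat_lit 0) (XT.nd (nat_lit 94) (nat_lit 168) (nat_lit 0) (XT.lf (nat_lit 168) (nat_lit 59712827129) (nat_lit 0) (nat_lit 72377581429) (nat_lit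 84) (nat_lit 13002037519) (nat_lit 23) (nat_lit 1) (nat_lit 21) (nat_lit 1) (nat_lit 22) (nat_lit 1) (nat_lit 276) (nat_lit 424) (nat_lit 380)) (XT.lf (nat_lit 84) (nat_lit 63405117467) (nat_lit 0) (nat_lit 12021824941) (nat_lit 168) (nat_lit 65876103153) (nat_lit 20) (nat_lit 1) (nat_lit 19) (nat_lit 1) (nat_lit 21) (nat_lit 1) (nat_lit 277) (nat_lit 424) (nat_lit 379))) (XT.nd (nat_lit 94) (nat_lit 252) (nat_lit 0) (XT.lf (nat_lit 168) (nat_lit 58434393903) (nat_lit 0) (nat_lit 78525749211) (nat_lit 84) (nat_lit 665151164) (nat_lit 20) (nat_lit 1) (nat_lit 18) (nat_lit 1) (nat_lit 19) (nat_lit 1) (nat_lit 278) (nat_lit 424) (nat_lit 378)) (XT.nd (nat_lit 94) (nat_lit 84) (nat_lit 0) (XT.lf (nat_lit 84) (nat_lit 71019811381) (nat_lit 0) (nat_lit 10370135567) (nat_lit 168) (nat_lit 52652682896) (nat_lit 17) (nat_lit 1) (nat_lit 16) (nat_lit 1) (nat_lit 18)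 (nat_lit 1) (nat_lit 279) (nat_lit 424) (nat_lit 377)) (XT.lf (nat_lit 0) (nat_lit 9547598578) (nat_lit 0) (nat_lit 74725253614) (nat_lit 168) (nat_lit 46291311129) (nat_lit 15) (nat_lit 3) (nat_lit 15) (nat_lit 1) (nat_lit 17) (nat_lit 1) (nat_lit 280) (nat_lit 424) (nat_lit 376)))))) (XT.nd (nat_lit 470) (nat_lit 588) (nat_lit 0) (XT.nd (nat_lit 188) (nat_lit 420) (nat_lit 0) (XT.nd (nat_lit 94) (nat_lit 84) (nat_lit 0) (XT.lf (nat_lit 84) (nat_lit 77195059093) (nat_lit 0) (nat_lit 9869475603) (nat_lit 168) (nat_lit 40117255599) (nat_lit 14) (nat_lit 1) (nat_lit 13) (nat_lit 1) (nat_lit 15) (nat_lit 1) (nat_lit 281) (nat_lit 424) (nat_lit 375)) (XT.lf (nat_lit 0) (nat_lit 18239445459) (nat_lit 0) (nat_lit 71457858676) (nat_lit 168) (nat_lit 34192193353) (nat_lit 12) (nat_lit 3) (nat_lit 12) (nat_lit 1) (nat_lit 14) (nat_lit 1) (nat_lit 282) (nat_lit 424)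 (nat_lit 374))) (XT.nd (nat_lit 94) (nat_lit 252) (nat_lit 0) (XT.lf (nat_lit 84) (nat_lit 82149091345) (nat_lit 0) (nat_lit 10220366365) (nat_lit 168) (nat_lit 28324557485) (nat_lit 11) (nat_lit 1) (nat_lit 10) (nat_lit 1) (nat_lit 12) (nat_lit 1) (nat_lit 283) (nat_lit 424) (nat_lit 373)) (XT.nd (nat_lit 94) (nat_lit 168) (nat_lit 0) (XT.lf (nat_lit 0) (nat_lit 25642630467) (nat_lit 0) (nat_lit 69096165330) (nat_lit 168) (nat_lit 22837615310) (nat_lit 9) (nat_lit 3) (nat_lit 9) (nat_lit 1) (nat_lit 11) (nat_lit 1) (nat_lit 284) (nat_lit 424) (nat_lit 372)) (XT.lf (nat_lit 84) (nat_lit 86064905771) (nat_lit 0) (nat_lit 11185107553) (nat_lit 168) (nat_lit 17305284018) (nat_lit 8) (nat_lit 1) (nat_lit 7) (nat_lit 1) (nat_lit 9) (nat_lit 1) (nat_lit 285) (nat_lit 424) (nat_lit 371))))) (XT.nd (nat_lit 188) (nat_lit 336) (nat_lit 0) (XT.nd (nat_lit 94) (nat_lit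 168) (nat_lit 0) (XT.lf (nat_lit 0) (nat_lit 31935007470) (nat_lit 0) (nat_lit 67415390629) (nat_lit 168) (nat_lit 12251463556) (nat_lit 6) (nat_lit 3) (nat_lit 6) (nat_lit 1) (nat_lit 8) (nat_lit 1) (nat_lit 286) (nat_lit 424) (nat_lit 370)) (XT.lf (nat_lit 84) (nat_lit 89096358926) (nat_lit 0) (nat_lit 12575972830) (nat_lit 168) (nat_lit 7071462326) (nat_lit 5) (nat_lit 1) (nat_lit 4) (nat_lit 1) (nat_lit 6) (nat_lit 1) (nat_lit 287) (nat_lit 424) (nat_lit 369))) (XT.nd (nat_lit 94) (nat_lit 252) (nat_lit 0) (XT.lf (nat_lit 0) (nat_lit 37266998424) (nat_lit 0) (nat_lit 66237198273) (nat_lit 168) (nat_lit 2440655313) (nat_lit 3) (nat_lit 3) (nat_lit 3) (nat_lit 1) (nat_lit 5) (nat_lit 1) (nat_lit 288) (nat_lit 424) (nat_lit 368)) (XT.nd (nat_lit 94) (nat_lit 0) (nat_lit 0) (XT.lf (nat_lit 0) (nat_lit 149757930614) (nat_lit 0) (nat_lit 0) (nat_lit 0) (nat_lit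 0) (nat_lit 0) (nat_lit 0) (nat_lit 1) (nat_lit 0) (nat_lit 1) (nat_lit 0) (nat_lit 289) (nat_lit 424) (nat_lit 367)) (XT.lf (nat_lit 0) (nat_lit 149621619147) (nat_lit 0) (nat_lit 0) (nat_lit 0) (nat_lit 0) (nat_lit 0) (nat_lit 0) (nat_lit 1) (nat_lit 0) (nat_lit 1) (nat_lit 0) (nat_lit 290) (nat_lit 424) (nat_lit 366))))))))
noncomputable def ec270 : XT := (XT.nd (nat_lit 1692) (nat_lit 0) (nat_lit 0) (XT.nd (nat_lit 846) (nat_lit 0) (nat_lit 0) (XT.nd (nat_lit 376) (nat_lit 0) (nat_lit 0) (XT.nd (nat_lit 188) (nat_lit 0) (nat_lit 0) (XT.nd (nat_lit 94) (nat_lit 0) (nat_lit 0) (XT.lf (nat_lit 0) (nat_lit 149495404827) (nat_lit 0) (nat_lit 0) (nat_lit 0) (nat_lit 0) (nat_lit 0) (nat_lit 0) (nat_lit 1) (nat_lit 0) (nat_lit 1) (nat_lit 0) (nat_lit 291) (nat_lit 424) (nat_lit 365)) (XT.lf (nat_lit 0) (nat_lit 149378539715) (nat_lit 0) (nat_lit 0) (nat_lit 0)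 (nat_lit 0) (nat_lit 0) (nat_lit 0) (nat_lit 1) (nat_lit 0) (nat_lit 1) (nat_lit 0) (nat_lit 292) (nat_lit 424) (nat_lit 364))) (XT.nd (nat_lit 94) (nat_lit 0) (nat_lit 0) (XT.lf (nat_lit 0) (nat_lit 149270331278) (nat_lit 0) (nat_lit 0) (nat_lit 0) (nat_lit 0) (nat_lit 0) (nat_lit 0) (nat_lit 1) (nat_lit 0) (nat_lit 1) (nat_lit 0) (nat_lit 293) (nat_lit 424) (nat_lit 363)) (XT.lf (nat_lit 0) (nat_lit 149170138281) (nat_lit 0) (nat_lit 0) (nat_lit 0) (nat_lit 0) (nat_lit 0) (nat_lit 0) (nat_lit 1) (nat_lit 0) (nat_lit 1) (nat_lit 0) (nat_lit 294) (nat_lit 424) (nat_lit 362)))) (XT.nd (nat_lit 188) (nat_lit 0) (nat_lit 0) (XT.nd (nat_lit 94) (nat_lit 0) (nat_lit 0) (XT.lf (nat_lit 0) (nat_lit 149077366987) (nat_lit 0) (nat_lit 0) (nat_lit 0) (nat_lit 0) (nat_lit 0) (nat_lit 0) (nat_lit 1) (nat_lit 0) (nat_lit 1) (nat_lit 0) (nat_lit 295) (nat_lit 424) (nat_lit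 361)) (XT.lf (nat_lit 0) (nat_lit 148991467641) (nat_lit 0) (nat_lit 0) (nat_lit 0) (nat_lit 0) (nat_lit 0) (nat_lit 0) (nat_lit 1) (nat_lit 0) (nat_lit 1) (nat_lit 0) (nat_lit 296) (nat_lit 424) (nat_lit 360))) (XT.nd (nat_lit 94) (nat_lit 0) (nat_lit 0) (XT.lf (nat_lit 0) (nat_lit 148911931210) (nat_lit 0) (nat_lit 0) (nat_lit 0) (nat_lit 0) (nat_lit 0) (nat_lit 0) (nat_lit 1) (nat_lit 0) (nat_lit 1) (nat_lit 0) (nat_lit 297) (nat_lit 424) (nat_lit 359)) (XT.nd (nat_lit 94) (nat_lit 0) (nat_lit 0) (XT.lf (nat_lit 0) (nat_lit 148838286366) (nat_lit 0) (nat_lit 0) (nat_lit 0) (nat_lit 0) (nat_lit 0) (nat_lit 0) (nat_lit 1) (nat_lit 0) (nat_lit 1) (nat_lit 0) (nat_lit 298) (nat_lit 424) (nat_lit 358)) (XT.lf (nat_lit 0) (nat_lit 148770096696) (nat_lit 0) (nat_lit 0) (nat_lit 0) (nat_lit 0) (nat_lit 0) (nat_lit 0) (nat_lit 1) (nat_lit 0) (nat_lit 1) (nat_lit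 0) (nat_lit 299) (nat_lit 424) (nat_lit 357)))))) (XT.nd (nat_lit 376) (nat_lit 0) (nat_lit 0) (XT.nd (nat_lit 188) (nat_lit 0) (nat_lit 0) (XT.nd (nat_lit 94) (nat_lit 0) (nat_lit 0) (XT.lf (nat_lit 0) (nat_lit 148706958112) (nat_lit 0) (nat_lit 0) (nat_lit 0) (nat_lit 0) (nat_lit 0) (nat_lit 0) (nat_lit 1) (nat_lit 0) (nat_lit 1) (nat_lit 0) (nat_lit 300) (nat_lit 424) (nat_lit 356)) (XT.lf (nat_lit 0) (nat_lit 148648496461) (nat_lit 0) (nat_lit 0) (nat_lit 0) (nat_lit 0) (nat_lit 0) (nat_lit 0) (nat_lit 1) (nat_lit 0) (nat_lit 1) (nat_lit 0) (nat_lit 301) (nat_lit 424) (nat_lit 355))) (XT.nd (nat_lit 94) (nat_lit 0) (nat_lit 0) (XT.lf (nat_lit 0) (nat_lit 148594365302) (nat_lit 0) (nat_lit 0) (nat_lit 0) (nat_lit 0) (nat_lit 0) (nat_lit 0) (nat_lit 1) (nat_lit 0) (nat_lit 1) (nat_lit 0) (nat_lit 302) (nat_lit 424) (nat_lit 354)) (XT.lf (nat_lit 0) (nat_lit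 148544243859) (nat_lit 0) (nat_lit 0) (nat_lit 0) (nat_lit 0) (nat_lit 0) (nat_lit 0) (nat_lit 1) (nat_lit 0) (nat_lit 1) (nat_lit 0) (nat_lit 303) (nat_lit 424) (nat_lit 353)))) (XT.nd (nat_lit 188) (nat_lit 0) (nat_lit 0) (XT.nd (nat_lit 94) (nat_lit 0) (nat_lit 0) (XT.lf (nat_lit 0) (nat_lit 148497835115) (nat_lit 0) (nat_lit 0) (nat_lit 0) (nat_lit 0) (nat_lit 0) (nat_lit 0) (nat_lit 1) (nat_lit 0) (nat_lit 1) (nat_lit 0) (nat_lit 304) (nat_lit 424) (nat_lit 352)) (XT.lf (nat_lit 0) (nat_lit 148454864056) (nat_lit 0) (nat_lit 0) (nat_lit 0) (nat_lit 0) (nat_lit 0) (nat_lit 0) (nat_lit 1) (nat_lit 0) (nat_lit 1) (nat_lit 0) (nat_lit 305) (nat_lit 424) (nat_lit 351))) (XT.nd (nat_lit 94) (nat_lit 0) (nat_lit 0) (XT.lf (nat_lit 0) (nat_lit 148415076038) (nat_lit 0) (nat_lit 0) (nat_lit 0) (nat_lit 0) (nat_lit 0) (nat_lit 0) (nat_lit 1) (nat_lit 0) (nat_lit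 1) (nat_lit 0) (nat_lit 306) (nat_lit 424) (nat_lit 350)) (XT.nd (nat_lit 94) (nat_lit 0) (nat_lit 0) (XT.lf (nat_lit 0) (nat_lit 148378235281) (nat_lit 0) (nat_lit 0) (nat_lit 0) (nat_lit 0) (nat_lit 0) (nat_lit 0) (nat_lit 1) (nat_lit 0) (nat_lit 1) (nat_lit 0) (nat_lit 307) (nat_lit 424) (nat_lit 349)) (XT.lf (nat_lit 0) (nat_lit 148344123469) (nat_lit 0) (nat_lit 0) (nat_lit 0) (nat_lit 0) (nat_lit 0) (nat_lit 0) (nat_lit 1) (nat_lit 0) (nat_lit 1) (nat_lit 0) (nat_lit 308) (nat_lit 424) (nat_lit 348))))))) (XT.nd (nat_lit 846) (nat_lit 0) (nat_lit 0) (XT.nd (nat_lit 376) (nat_lit 0) (nat_lit 0) (XT.nd (nat_lit 188) (nat_lit 0) (nat_lit 0) (XT.nd (nat_lit 94) (nat_lit 0) (nat_lit 0) (XT.lf (nat_lit 0) (nat_lit 148312538458) (nat_lit 0) (nat_lit 0) (nat_lit 0) (nat_lit 0) (nat_lit 0) (nat_lit 0) (nat_lit 1) (nat_lit 0) (nat_lit 1) (nat_lit 0) (nat_lit 309)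 (nat_lit 424) (nat_lit 347)) (XT.lf (nat_lit 0) (nat_lit 148283293077) (nat_lit 0) (nat_lit 0) (nat_lit 0) (nat_lit 0) (nat_lit 0) (nat_lit 0) (nat_lit 1) (nat_lit 0) (nat_lit 1) (nat_lit 0) (nat_lit 310) (nat_lit 424) (nat_lit 346))) (XT.nd (nat_lit 94) (nat_lit 0) (nat_lit 0) (XT.lf (nat_lit 0) (nat_lit 148256214021) (nat_lit 0) (nat_lit 0) (nat_lit 0) (nat_lit 0) (nat_lit 0) (nat_lit 0) (nat_lit 1) (nat_lit 0) (nat_lit 1) (nat_lit 0) (nat_lit 311) (nat_lit 424) (nat_lit 345)) (XT.lf (nat_lit 0) (nat_lit 148231140820) (nat_lit 0) (nat_lit 0) (nat_lit 0) (nat_lit 0) (nat_lit 0) (nat_lit 0) (nat_lit 1) (nat_lit 0) (nat_lit 1) (nat_lit 0) (nat_lit 312) (nat_lit 424) (nat_lit 344)))) (XT.nd (nat_lit 188) (nat_lit 0) (nat_lit 0) (XT.nd (nat_lit 94) (nat_lit 0) (nat_lit 0) (XT.lf (nat_lit 0) (nat_lit 148207924894) (nat_lit 0) (nat_lit 0) (nat_lit 0) (nat_lit 0)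 (nat_lit 0) (nat_lit 0) (nat_lit 1) (nat_lit 0) (nat_lit 1) (nat_lit 0) (nat_lit 313) (nat_lit 424) (nat_lit 343)) (XT.lf (nat_lit 0) (nat_lit 148186428666) (nat_lit 0) (nat_lit 0) (nat_lit 0) (nat_lit 0) (nat_lit 0) (nat_lit 0) (nat_lit 1) (nat_lit 0) (nat_lit 1) (nat_lit 0) (nat_lit 314) (nat_lit 424) (nat_lit 342))) (XT.nd (nat_lit 94) (nat_lit 0) (nat_lit 0) (XT.lf (nat_lit 0) (nat_lit 148166524752) (nat_lit 0) (nat_lit 0) (nat_lit 0) (nat_lit 0) (nat_lit 0) (nat_lit 0) (nat_lit 1) (nat_lit 0) (nat_lit 1) (nat_lit 0) (nat_lit 315) (nat_lit 424) (nat_lit 341)) (XT.nd (nat_lit 94) (nat_lit 0) (nat_lit 0) (XT.lf (nat_lit 0) (nat_lit 148148095201) (nat_lit 0) (nat_lit 0) (nat_lit 0) (nat_lit 0) (nat_lit 0) (nat_lit 0) (nat_lit 1) (nat_lit 0) (nat_lit 1) (nat_lit 0) (nat_lit 316) (nat_lit 424) (nat_lit 340)) (XT.lf (nat_lit 0) (nat_lit 148131030802) (nat_lit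 0) (nat_lit 0) (nat_lit 0) (nat_lit 0) (nat_lit 0) (nat_lit 0) (nat_lit 1) (nat_lit 0) (nat_lit 1) (nat_lit 0) (nat_lit 317) (nat_lit 424) (nat_lit 339)))))) (XT.nd (nat_lit 470) (nat_lit 0) (nat_lit 0) (XT.nd (nat_lit 188) (nat_lit 0) (nat_lit 0) (XT.nd (nat_lit 94) (nat_lit 0) (nat_lit 0) (XT.lf (nat_lit 0) (nat_lit 148115230433) (nat_lit 0) (nat_lit 0) (nat_lit 0) (nat_lit 0) (nat_lit 0) (nat_lit 0) (nat_lit 1) (nat_lit 0) (nat_lit 1) (nat_lit 0) (nat_lit 318) (nat_lit 424) (nat_lit 338)) (XT.lf (nat_lit 0) (nat_lit 148100600461) (nat_lit 0) (nat_lit 0) (nat_lit 0) (nat_lit 0) (nat_lit 0) (nat_lit 0) (nat_lit 1) (nat_lit 0) (nat_lit 1) (nat_lit 0) (nat_lit 319) (nat_lit 424) (nat_lit 337))) (XT.nd (nat_lit 94) (nat_lit 0) (nat_lit 0) (XT.lf (nat_lit 0) (nat_lit 148087054191) (nat_lit 0) (nat_lit 0) (nat_lit 0) (nat_lit 0) (nat_lit 0) (nat_lit 0) (nat_lit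 1) (nat_lit 0) (nat_lit 1) (nat_lit 0) (nat_lit 320) (nat_lit 424) (nat_lit 336)) (XT.nd (nat_lit 94) (nat_lit 0) (nat_lit 0) (XT.lf (nat_lit 0) (nat_lit 148074511349) (nat_lit 0) (nat_lit 0) (nat_lit 0) (nat_lit 0) (nat_lit 0) (nat_lit 0) (nat_lit 1) (nat_lit 0) (nat_lit 1) (nat_lit 0) (nat_lit 321) (nat_lit 424) (nat_lit 335)) (XT.lf (nat_lit 0) (nat_lit 148062897606) (nat_lit 0) (nat_lit 0) (nat_lit 0) (nat_lit 0) (nat_lit 0) (nat_lit 0) (nat_lit 1) (nat_lit 0) (nat_lit 1) (nat_lit 0) (nat_lit 322) (nat_lit 424) (nat_lit 334))))) (XT.nd (nat_lit 188) (nat_lit 0) (nat_lit 0) (XT.nd (nat_lit 94) (nat_lit 0) (nat_lit 0) (XT.lf (nat_lit 0) (nat_lit 148052144140) (nat_lit 0) (nat_lit 0) (nat_lit 0) (nat_lit 0) (nat_lit 0) (nat_lit 0) (nat_lit 1) (nat_lit 0) (nat_lit 1) (nat_lit 0) (nat_lit 323) (nat_lit 424) (nat_lit 333)) (XT.lf (nat_lit 0) (nat_lit 148042187227)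 (nat_lit 0) (nat_lit 0) (nat_lit 0) (nat_lit 0) (nat_lit 0) (nat_lit 0) (nat_lit 1) (nat_lit 0) (nat_lit 1) (nat_lit 0) (nat_lit 324) (nat_lit 424) (nat_lit 332))) (XT.nd (nat_lit 94) (nat_lit 0) (nat_lit 0) (XT.lf (nat_lit 0) (nat_lit 148032967863) (nat_lit 0) (nat_lit 0) (nat_lit 0) (nat_lit 0) (nat_lit 0) (nat_lit 0) (nat_lit 1) (nat_lit 0) (nat_lit 1) (nat_lit 0) (nat_lit 325) (nat_lit 424) (nat_lit 331)) (XT.nd (nat_lit 94) (nat_lit 0) (nat_lit 0) (XT.lf (nat_lit 0) (nat_lit 148024431416) (nat_lit 0) (nat_lit 0) (nat_lit 0) (nat_lit 0) (nat_lit 0) (nat_lit 0) (nat_lit 1) (nat_lit 0) (nat_lit 1) (nat_lit 0) (nat_lit 326) (nat_lit 424) (nat_lit 330)) (XT.lf (nat_lit 0) (nat_lit 148016527297) (nat_lit 0) (nat_lit 0) (nat_lit 0) (nat_lit 0) (nat_lit 0) (nat_lit 0) (nat_lit 1) (nat_lit 0) (nat_lit 1) (nat_lit 0) (nat_lit 327) (nat_lit 424) (nat_lit 329))))))))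
noncomputable def ec271 : XT := (XT.nd (nat_lit 1786) (nat_lit 0) (nat_lit 0) (XT.nd (nat_lit 846) (nat_lit 0) (nat_lit 0) (XT.nd (nat_lit 376) (nat_lit 0) (nat_lit 0) (XT.nd (nat_lit 188) (nat_lit 0) (nat_lit 0) (XT.nd (nat_lit 94) (nat_lit 0) (nat_lit 0) (XT.lf (nat_lit 0) (nat_lit 148009208669) (nat_lit 0) (nat_lit 0) (nat_lit 0) (nat_lit 0) (nat_lit 0) (nat_lit 0) (nat_lit 1) (nat_lit 0) (nat_lit 1) (nat_lit 0) (nat_lit 328) (nat_lit 424) (nat_lit 328)) (XT.lf (nat_lit 0) (nat_lit 148002432162) (nat_lit 0) (nat_lit 0) (nat_lit 0) (nat_lit 0) (nat_lit 0) (nat_lit 0) (nat_lit 1) (nat_lit 0) (nat_lit 1) (nat_lit 0) (nat_lit 329) (nat_lit 424) (nat_lit 327))) (XT.nd (nat_lit 94) (nat_lit 0) (nat_lit 0) (XT.lf (nat_lit 0) (nat_lit 147996157618) (nat_lit 0) (nat_lit 0) (nat_lit 0) (nat_lit 0) (nat_lit 0) (nat_lit 0) (nat_lit 1) (nat_lit 0) (nat_lit 1) (nat_lit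 0) (nat_lit 330) (nat_lit 424) (nat_lit 326)) (XT.lf (nat_lit 0) (nat_lit 147990347855) (nat_lit 0) (nat_lit 0) (nat_lit 0) (nat_lit 0) (nat_lit 0) (nat_lit 0) (nat_lit 1) (nat_lit 0) (nat_lit 1) (nat_lit 0) (nat_lit 331) (nat_lit 424) (nat_lit 325)))) (XT.nd (nat_lit 188) (nat_lit 0) (nat_lit 0) (XT.nd (nat_lit 94) (nat_lit 0) (nat_lit 0) (XT.lf (nat_lit 0) (nat_lit 147984968444) (nat_lit 0) (nat_lit 0) (nat_lit 0) (nat_lit 0) (nat_lit 0) (nat_lit 0) (nat_lit 1) (nat_lit 0) (nat_lit 1) (nat_lit 0) (nat_lit 332) (nat_lit 424) (nat_lit 324)) (XT.lf (nat_lit 0) (nat_lit 147979987509) (nat_lit 0) (nat_lit 0) (nat_lit 0) (nat_lit 0) (nat_lit 0) (nat_lit 0) (nat_lit 1) (nat_lit 0) (nat_lit 1) (nat_lit 0) (nat_lit 333) (nat_lit 424) (nat_lit 323))) (XT.nd (nat_lit 94) (nat_lit 0) (nat_lit 0) (XT.lf (nat_lit 0) (nat_lit 147975375532) (nat_lit 0) (nat_lit 0) (nat_lit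 0) (nat_lit 0) (nat_lit 0) (nat_lit 0) (nat_lit 1) (nat_lit 0) (nat_lit 1) (nat_lit 0) (nat_lit 334) (nat_lit 424) (nat_lit 322)) (XT.nd (nat_lit 94) (nat_lit 0) (nat_lit 0) (XT.lf (nat_lit 0) (nat_lit 147971105183) (nat_lit 0) (nat_lit 0) (nat_lit 0) (nat_lit 0) (nat_lit 0) (nat_lit 0) (nat_lit 1) (nat_lit 0) (nat_lit 1) (nat_lit 0) (nat_lit 335) (nat_lit 424) (nat_lit 321)) (XT.lf (nat_lit 0) (nat_lit 147967151156) (nat_lit 0) (nat_lit 0) (nat_lit 0) (nat_lit 0) (nat_lit 0) (nat_lit 0) (nat_lit 1) (nat_lit 0) (nat_lit 1) (nat_lit 0) (nat_lit 336) (nat_lit 424) (nat_lit 320)))))) (XT.nd (nat_lit 470) (nat_lit 0) (nat_lit 0) (XT.nd (nat_lit 188) (nat_lit 0) (nat_lit 0) (XT.nd (nat_lit 94) (nat_lit 0) (nat_lit 0) (XT.lf (nat_lit 0) (nat_lit 147963490019) (nat_lit 0) (nat_lit 0) (nat_lit 0) (nat_lit 0) (nat_lit 0) (nat_lit 0) (nat_lit 1) (nat_lit 0) (nat_lit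 1) (nat_lit 0) (nat_lit 337) (nat_lit 424) (nat_lit 319)) (XT.lf (nat_lit 0) (nat_lit 147960100079) (nat_lit 0) (nat_lit 0) (nat_lit 0) (nat_lit 0) (nat_lit 0) (nat_lit 0) (nat_lit 1) (nat_lit 0) (nat_lit 1) (nat_lit 0) (nat_lit 338) (nat_lit 424) (nat_lit 318))) (XT.nd (nat_lit 94) (nat_lit 0) (nat_lit 0) (XT.lf (nat_lit 0) (nat_lit 147956961244) (nat_lit 0) (nat_lit 0) (nat_lit 0) (nat_lit 0) (nat_lit 0) (nat_lit 0) (nat_lit 1) (nat_lit 0) (nat_lit 1) (nat_lit 0) (nat_lit 339) (nat_lit 424) (nat_lit 317)) (XT.nd (nat_lit 94) (nat_lit 0) (nat_lit 0) (XT.lf (nat_lit 0) (nat_lit 147954054916) (nat_lit 0) (nat_lit 0) (nat_lit 0) (nat_lit 0) (nat_lit 0) (nat_lit 0) (nat_lit 1) (nat_lit 0) (nat_lit 1) (nat_lit 0) (nat_lit 340) (nat_lit 424) (nat_lit 316)) (XT.lf (nat_lit 0) (nat_lit 147951363872) (nat_lit 0) (nat_lit 0) (nat_lit 0) (nat_lit 0) (nat_lit 0) (nat_lit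 0) (nat_lit 1) (nat_lit 0) (nat_lit 1) (nat_lit 0) (nat_lit 341) (nat_lit 424) (nat_lit 315))))) (XT.nd (nat_lit 188) (nat_lit 0) (nat_lit 0) (XT.nd (nat_lit 94) (nat_lit 0) (nat_lit 0) (XT.lf (nat_lit 0) (nat_lit 147948872164) (nat_lit 0) (nat_lit 0) (nat_lit 0) (nat_lit 0) (nat_lit 0) (nat_lit 0) (nat_lit 1) (nat_lit 0) (nat_lit 1) (nat_lit 0) (nat_lit 342) (nat_lit 424) (nat_lit 314)) (XT.lf (nat_lit 0) (nat_lit 147946565027) (nat_lit 0) (nat_lit 0) (nat_lit 0) (nat_lit 0) (nat_lit 0) (nat_lit 0) (nat_lit 1) (nat_lit 0) (nat_lit 1) (nat_lit 0) (nat_lit 343) (nat_lit 424) (nat_lit 313))) (XT.nd (nat_lit 94) (nat_lit 0) (nat_lit 0) (XT.lf (nat_lit 0) (nat_lit 147944428790) (nat_lit 0) (nat_lit 0) (nat_lit 0) (nat_lit 0) (nat_lit 0) (nat_lit 0) (nat_lit 1) (nat_lit 0) (nat_lit 1) (nat_lit 0) (nat_lit 344) (nat_lit 424) (nat_lit 312)) (XT.nd (nat_lit 94) (nat_lit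 0) (nat_lit 0) (XT.lf (nat_lit 0) (nat_lit 147942450792) (nat_lit 0) (nat_lit 0) (nat_lit 0) (nat_lit 0) (nat_lit 0) (nat_lit 0) (nat_lit 1) (nat_lit 0) (nat_lit 1) (nat_lit 0) (nat_lit 345) (nat_lit 424) (nat_lit 311)) (XT.lf (nat_lit 0) (nat_lit 147940619312) (nat_lit 0) (nat_lit 0) (nat_lit 0) (nat_lit 0) (nat_lit 0) (nat_lit 0) (nat_lit 1) (nat_lit 0) (nat_lit 1) (nat_lit 0) (nat_lit 346) (nat_lit 424) (nat_lit 310))))))) (XT.nd (nat_lit 846) (nat_lit 0) (nat_lit 0) (XT.nd (nat_lit 376) (nat_lit 0) (nat_lit 0) (XT.nd (nat_lit 188) (nat_lit 0) (nat_lit 0) (XT.nd (nat_lit 94) (nat_lit 0) (nat_lit 0) (XT.lf (nat_lit 0) (nat_lit 147938923498) (nat_lit 0) (nat_lit 0) (nat_lit 0) (nat_lit 0) (nat_lit 0) (nat_lit 0) (nat_lit 1) (nat_lit 0) (nat_lit 1) (nat_lit 0) (nat_lit 347) (nat_lit 424) (nat_lit 309)) (XT.lf (nat_lit 0) (nat_lit 147937353299) (nat_lit 0)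 (nat_lit 0) (nat_lit 0) (nat_lit 0) (nat_lit 0) (nat_lit 0) (nat_lit 1) (nat_lit 0) (nat_lit 1) (nat_lit 0) (nat_lit 348) (nat_lit 424) (nat_lit 308))) (XT.nd (nat_lit 94) (nat_lit 0) (nat_lit 0) (XT.lf (nat_lit 0) (nat_lit 147935899412) (nat_lit 0) (nat_lit 0) (nat_lit 0) (nat_lit 0) (nat_lit 0) (nat_lit 0) (nat_lit 1) (nat_lit 0) (nat_lit 1) (nat_lit 0) (nat_lit 349) (nat_lit 424) (nat_lit 307)) (XT.lf (nat_lit 0) (nat_lit 147934553219) (nat_lit 0) (nat_lit 0) (nat_lit 0) (nat_lit 0) (nat_lit 0) (nat_lit 0) (nat_lit 1) (nat_lit 0) (nat_lit 1) (nat_lit 0) (nat_lit 350) (nat_lit 424) (nat_lit 306)))) (XT.nd (nat_lit 188) (nat_lit 0) (nat_lit 0) (XT.nd (nat_lit 94) (nat_lit 0) (nat_lit 0) (XT.lf (nat_lit 0) (nat_lit 147933306745) (nat_lit 0) (nat_lit 0) (nat_lit 0) (nat_lit 0) (nat_lit 0) (nat_lit 0) (nat_lit 1) (nat_lit 0) (nat_lit 1) (nat_lit 0) (nat_lit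 351) (nat_lit 424) (nat_lit 305)) (XT.lf (nat_lit 0) (nat_lit 147932152602) (nat_lit 0) (nat_lit 0) (nat_lit 0) (nat_lit 0) (nat_lit 0) (nat_lit 0) (nat_lit 1) (nat_lit 0) (nat_lit 1) (nat_lit 0) (nat_lit 352) (nat_lit 424) (nat_lit 304))) (XT.nd (nat_lit 94) (nat_lit 0) (nat_lit 0) (XT.lf (nat_lit 0) (nat_lit 147931083952) (nat_lit 0) (nat_lit 0) (nat_lit 0) (nat_lit 0) (nat_lit 0) (nat_lit 0) (nat_lit 1) (nat_lit 0) (nat_lit 1) (nat_lit 0) (nat_lit 353) (nat_lit 424) (nat_lit 303)) (XT.nd (nat_lit 94) (nat_lit 0) (nat_lit 0) (XT.lf (nat_lit 0) (nat_lit 147930094460) (nat_lit 0) (nat_lit 0) (nat_lit 0) (nat_lit 0) (nat_lit 0) (nat_lit 0) (nat_lit 1) (nat_lit 0) (nat_lit 1) (nat_lit 0) (nat_lit 354) (nat_lit 424) (nat_lit 302)) (XT.lf (nat_lit 0) (nat_lit 147929178264) (nat_lit 0) (nat_lit 0) (nat_lit 0) (nat_lit 0) (nat_lit 0) (nat_lit 0) (nat_lit 1) (nat_lit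 0) (nat_lit 1) (nat_lit 0) (nat_lit 355) (nat_lit 424) (nat_lit 301)))))) (XT.nd (nat_lit 470) (nat_lit 0) (nat_lit 0) (XT.nd (nat_lit 188) (nat_lit 0) (nat_lit 0) (XT.nd (nat_lit 94) (nat_lit 0) (nat_lit 0) (XT.lf (nat_lit 0) (nat_lit 147928329935) (nat_lit 0) (nat_lit 0) (nat_lit 0) (nat_lit 0) (nat_lit 0) (nat_lit 0) (nat_lit 1) (nat_lit 0) (nat_lit 1) (nat_lit 0) (nat_lit 356) (nat_lit 424) (nat_lit 300)) (XT.lf (nat_lit 0) (nat_lit 147927544445) (nat_lit 0) (nat_lit 0) (nat_lit 0) (nat_lit 0) (nat_lit 0) (nat_lit 0) (nat_lit 1) (nat_lit 0) (nat_lit 1) (nat_lit 0) (nat_lit 357) (nat_lit 424) (nat_lit 299))) (XT.nd (nat_lit 94) (nat_lit 0) (nat_lit 0) (XT.lf (nat_lit 0) (nat_lit 147926817139) (nat_lit 0) (nat_lit 0) (nat_lit 0) (nat_lit 0) (nat_lit 0) (nat_lit 0) (nat_lit 1) (nat_lit 0) (nat_lit 1) (nat_lit 0) (nat_lit 358) (nat_lit 424) (nat_lit 298))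 (XT.nd (nat_lit 94) (nat_lit 0) (nat_lit 0) (XT.lf (nat_lit 0) (nat_lit 147926143708) (nat_lit 0) (nat_lit 0) (nat_lit 0) (nat_lit 0) (nat_lit 0) (nat_lit 0) (nat_lit 1) (nat_lit 0) (nat_lit 1) (nat_lit 0) (nat_lit 359) (nat_lit 424) (nat_lit 297)) (XT.lf (nat_lit 0) (nat_lit 147925520160) (nat_lit 0) (nat_lit 0) (nat_lit 0) (nat_lit 0) (nat_lit 0) (nat_lit 0) (nat_lit 1) (nat_lit 0) (nat_lit 1) (nat_lit 0) (nat_lit 360) (nat_lit 424) (nat_lit 296))))) (XT.nd (nat_lit 188) (nat_lit 0) (nat_lit 0) (XT.nd (nat_lit 94) (nat_lit 0) (nat_lit 0) (XT.lf (nat_lit 0) (nat_lit 147924942802) (nat_lit 0) (nat_lit 0) (nat_lit 0) (nat_lit 0) (nat_lit 0) (nat_lit 0) (nat_lit 1) (nat_lit 0) (nat_lit 1) (nat_lit 0) (nat_lit 361) (nat_lit 424) (nat_lit 295)) (XT.lf (nat_lit 0) (nat_lit 147924408210) (nat_lit 0) (nat_lit 0) (nat_lit 0) (nat_lit 0) (nat_lit 0) (nat_lit 0) (nat_lit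 1) (nat_lit 0) (nat_lit 1) (nat_lit 0) (nat_lit 362) (nat_lit 424) (nat_lit 294))) (XT.nd (nat_lit 94) (nat_lit 0) (nat_lit 0) (XT.lf (nat_lit 0) (nat_lit 147923913218) (nat_lit 0) (nat_lit 0) (nat_lit 0) (nat_lit 0) (nat_lit 0) (nat_lit 0) (nat_lit 1) (nat_lit 0) (nat_lit 1) (nat_lit 0) (nat_lit 363) (nat_lit 424) (nat_lit 293)) (XT.nd (nat_lit 94) (nat_lit 0) (nat_lit 0) (XT.lf (nat_lit 0) (nat_lit 147923454892) (nat_lit 0) (nat_lit 0) (nat_lit 0) (nat_lit 0) (nat_lit 0) (nat_lit 0) (nat_lit 1) (nat_lit 0) (nat_lit 1) (nat_lit 0) (nat_lit 364) (nat_lit 424) (nat_lit 292)) (XT.lf (nat_lit 0) (nat_lit 147923030516) (nat_lit 0) (nat_lit 0) (nat_lit 0) (nat_lit 0) (nat_lit 0) (nat_lit 0) (nat_lit 1) (nat_lit 0) (nat_lit 1) (nat_lit 0) (nat_lit 365) (nat_lit 424) (nat_lit 291))))))))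
noncomputable def ec272 : XT := (XT.nd (nat_lit 1692) (nat_lit 0) (nat_lit 0) (XT.nd (nat_lit 846) (nat_lit 0) (nat_lit 0) (XT.nd (nat_lit 376) (nat_lit 0) (nat_lit 0) (XT.nd (nat_lit 188) (nat_lit 0) (nat_lit 0) (XT.nd (nat_lit 94) (nat_lit 0) (nat_lit 0) (XT.lf (nat_lit 0) (nat_lit 147922637576) (nat_lit 0) (nat_lit 0) (nat_lit 0) (nat_lit 0) (nat_lit 0) (nat_lit 0) (nat_lit 1) (nat_lit 0) (nat_lit 1) (nat_lit 0) (nat_lit 366) (nat_lit 424) (nat_lit 290)) (XT.lf (nat_lit 0) (nat_lit 147922273742) (nat_lit 0) (nat_lit 0) (nat_lit 0) (nat_lit 0) (nat_lit 0) (nat_lit 0) (nat_lit 1) (nat_lit 0) (nat_lit 1) (nat_lit 0) (nat_lit 367) (nat_lit 424) (nat_lit 289))) (XT.nd (nat_lit 94) (nat_lit 0) (nat_lit 0) (XT.lf (nat_lit 0) (nat_lit 147921936858) (nat_lit 0) (nat_lit 0) (nat_lit 0) (nat_lit 0) (nat_lit 0) (nat_lit 0) (nat_lit 1) (nat_lit 0) (nat_lit 1) (nat_lit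 0) (nat_lit 368) (nat_lit 424) (nat_lit 288)) (XT.lf (nat_lit 0) (nat_lit 147921624929) (nat_lit 0) (nat_lit 0) (nat_lit 0) (nat_lit 0) (nat_lit 0) (nat_lit 0) (nat_lit 1) (nat_lit 0) (nat_lit 1) (nat_lit 0) (nat_lit 369) (nat_lit 424) (nat_lit 287)))) (XT.nd (nat_lit 188) (nat_lit 0) (nat_lit 0) (XT.nd (nat_lit 94) (nat_lit 0) (nat_lit 0) (XT.lf (nat_lit 0) (nat_lit 147921336106) (nat_lit 0) (nat_lit 0) (nat_lit 0) (nat_lit 0) (nat_lit 0) (nat_lit 0) (nat_lit 1) (nat_lit 0) (nat_lit 1) (nat_lit 0) (nat_lit 370) (nat_lit 424) (nat_lit 286)) (XT.lf (nat_lit 0) (nat_lit 147921068677) (nat_lit 0) (nat_lit 0) (nat_lit 0) (nat_lit 0) (nat_lit 0) (nat_lit 0) (nat_lit 1) (nat_lit 0) (nat_lit 1) (nat_lit 0) (nat_lit 371) (nat_lit 424) (nat_lit 285))) (XT.nd (nat_lit 94) (nat_lit 0) (nat_lit 0) (XT.lf (nat_lit 0) (nat_lit 147920821058) (nat_lit 0) (nat_lit 0) (nat_lit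 0) (nat_lit 0) (nat_lit 0) (nat_lit 0) (nat_lit 1) (nat_lit 0) (nat_lit 1) (nat_lit 0) (nat_lit 372) (nat_lit 424) (nat_lit 284)) (XT.nd (nat_lit 94) (nat_lit 0) (nat_lit 0) (XT.lf (nat_lit 0) (nat_lit 147920591781) (nat_lit 0) (nat_lit 0) (nat_lit 0) (nat_lit 0) (nat_lit 0) (nat_lit 0) (nat_lit 1) (nat_lit 0) (nat_lit 1) (nat_lit 0) (nat_lit 373) (nat_lit 424) (nat_lit 283)) (XT.lf (nat_lit 0) (nat_lit 147920379487) (nat_lit 0) (nat_lit 0) (nat_lit 0) (nat_lit 0) (nat_lit 0) (nat_lit 0) (nat_lit 1) (nat_lit 0) (nat_lit 1) (nat_lit 0) (nat_lit 374) (nat_lit 424) (nat_lit 282)))))) (XT.nd (nat_lit 376) (nat_lit 0) (nat_lit 0) (XT.nd (nat_lit 188) (nat_lit 0) (nat_lit 0) (XT.nd (nat_lit 94) (nat_lit 0) (nat_lit 0) (XT.lf (nat_lit 0) (nat_lit 147920182919) (nat_lit 0) (nat_lit 0) (nat_lit 0) (nat_lit 0) (nat_lit 0) (nat_lit 0) (nat_lit 1) (nat_lit 0) (nat_lit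 1) (nat_lit 0) (nat_lit 375) (nat_lit 424) (nat_lit 281)) (XT.lf (nat_lit 0) (nat_lit 147920000912) (nat_lit 0) (nat_lit 0) (nat_lit 0) (nat_lit 0) (nat_lit 0) (nat_lit 0) (nat_lit 1) (nat_lit 0) (nat_lit 1) (nat_lit 0) (nat_lit 376) (nat_lit 424) (nat_lit 280))) (XT.nd (nat_lit 94) (nat_lit 0) (nat_lit 0) (XT.lf (nat_lit 0) (nat_lit 147919832386) (nat_lit 0) (nat_lit 0) (nat_lit 0) (nat_lit 0) (nat_lit 0) (nat_lit 0) (nat_lit 1) (nat_lit 0) (nat_lit 1) (nat_lit 0) (nat_lit 377) (nat_lit 424) (nat_lit 279)) (XT.lf (nat_lit 0) (nat_lit 147919676344) (nat_lit 0) (nat_lit 0) (nat_lit 0) (nat_lit 0) (nat_lit 0) (nat_lit 0) (nat_lit 1) (nat_lit 0) (nat_lit 1) (nat_lit 0) (nat_lit 378) (nat_lit 424) (nat_lit 278)))) (XT.nd (nat_lit 188) (nat_lit 0) (nat_lit 0) (XT.nd (nat_lit 94) (nat_lit 0) (nat_lit 0) (XT.lf (nat_lit 0) (nat_lit 147919531861) (nat_lit 0) (nat_lit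 0) (nat_lit 0) (nat_lit 0) (nat_lit 0) (nat_lit 0) (nat_lit 1) (nat_lit 0) (nat_lit 1) (nat_lit 0) (nat_lit 379) (nat_lit 424) (nat_lit 277)) (XT.lf (nat_lit 0) (nat_lit 147919398080) (nat_lit 0) (nat_lit 0) (nat_lit 0) (nat_lit 0) (nat_lit 0) (nat_lit 0) (nat_lit 1) (nat_lit 0) (nat_lit 1) (nat_lit 0) (nat_lit 380) (nat_lit 424) (nat_lit 276))) (XT.nd (nat_lit 94) (nat_lit 0) (nat_lit 0) (XT.lf (nat_lit 0) (nat_lit 147919274208) (nat_lit 0) (nat_lit 0) (nat_lit 0) (nat_lit 0) (nat_lit 0) (nat_lit 0) (nat_lit 1) (nat_lit 0) (nat_lit 1) (nat_lit 0) (nat_lit 381) (nat_lit 424) (nat_lit 275)) (XT.nd (nat_lit 94) (nat_lit 0) (nat_lit 0) (XT.lf (nat_lit 0) (nat_lit 147919159513) (nat_lit 0) (nat_lit 0) (nat_lit 0) (nat_lit 0) (nat_lit 0) (nat_lit 0) (nat_lit 1) (nat_lit 0) (nat_lit 1) (nat_lit 0) (nat_lit 382) (nat_lit 424) (nat_lit 274)) (XT.lf (nat_lit 0) (nat_lit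 147919053313) (nat_lit 0) (nat_lit 0) (nat_lit 0) (nat_lit 0) (nat_lit 0) (nat_lit 0) (nat_lit 1) (nat_lit 0) (nat_lit 1) (nat_lit 0) (nat_lit 383) (nat_lit 424) (nat_lit 273))))))) (XT.nd (nat_lit 846) (nat_lit 0) (nat_lit 0) (XT.nd (nat_lit 376) (nat_lit 0) (nat_lit 0) (XT.nd (nat_lit 188) (nat_lit 0) (nat_lit 0) (XT.nd (nat_lit 94) (nat_lit 0) (nat_lit 0) (XT.lf (nat_lit 0) (nat_lit 147918954980) (nat_lit 0) (nat_lit 0) (nat_lit 0) (nat_lit 0) (nat_lit 0) (nat_lit 0) (nat_lit 1) (nat_lit 0) (nat_lit 1) (nat_lit 0) (nat_lit 384) (nat_lit 424) (nat_lit 272)) (XT.lf (nat_lit 0) (nat_lit 147918863931) (nat_lit 0) (nat_lit 0) (nat_lit 0) (nat_lit 0) (nat_lit 0) (nat_lit 0) (nat_lit 1) (nat_lit 0) (nat_lit 1) (nat_lit 0) (nat_lit 385) (nat_lit 424) (nat_lit 271))) (XT.nd (nat_lit 94) (nat_lit 0) (nat_lit 0) (XT.lf (nat_lit 0) (nat_lit 147918779626) (nat_lit 0)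 (nat_lit 0) (nat_lit 0) (nat_lit 0) (nat_lit 0) (nat_lit 0) (nat_lit 1) (nat_lit 0) (nat_lit 1) (nat_lit 0) (nat_lit 386) (nat_lit 424) (nat_lit 270)) (XT.lf (nat_lit 0) (nat_lit 147918701566) (nat_lit 0) (nat_lit 0) (nat_lit 0) (nat_lit 0) (nat_lit 0) (nat_lit 0) (nat_lit 1) (nat_lit 0) (nat_lit 1) (nat_lit 0) (nat_lit 387) (nat_lit 424) (nat_lit 269)))) (XT.nd (nat_lit 188) (nat_lit 0) (nat_lit 0) (XT.nd (nat_lit 94) (nat_lit 0) (nat_lit 0) (XT.lf (nat_lit 0) (nat_lit 147918629289) (nat_lit 0) (nat_lit 0) (nat_lit 0) (nat_lit 0) (nat_lit 0) (nat_lit 0) (nat_lit 1) (nat_lit 0) (nat_lit 1) (nat_lit 0) (nat_lit 388) (nat_lit 424) (nat_lit 268)) (XT.lf (nat_lit 0) (nat_lit 147918562365) (nat_lit 0) (nat_lit 0) (nat_lit 0) (nat_lit 0) (nat_lit 0) (nat_lit 0) (nat_lit 1) (nat_lit 0) (nat_lit 1) (nat_lit 0) (nat_lit 389) (nat_lit 424) (nat_lit 267))) (XT.nd (nat_lit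 94) (nat_lit 0) (nat_lit 0) (XT.lf (nat_lit 0) (nat_lit 147918500398) (nat_lit 0) (nat_lit 0) (nat_lit 0) (nat_lit 0) (nat_lit 0) (nat_lit 0) (nat_lit 1) (nat_lit 0) (nat_lit 1) (nat_lit 0) (nat_lit 390) (nat_lit 424) (nat_lit 266)) (XT.nd (nat_lit 94) (nat_lit 0) (nat_lit 0) (XT.lf (nat_lit 0) (nat_lit 147918443022) (nat_lit 0) (nat_lit 0) (nat_lit 0) (nat_lit 0) (nat_lit 0) (nat_lit 0) (nat_lit 1) (nat_lit 0) (nat_lit 1) (nat_lit 0) (nat_lit 391) (nat_lit 424) (nat_lit 265)) (XT.lf (nat_lit 0) (nat_lit 147918389896) (nat_lit 0) (nat_lit 0) (nat_lit 0) (nat_lit 0) (nat_lit 0) (nat_lit 0) (nat_lit 1) (nat_lit 0) (nat_lit 1) (nat_lit 0) (nat_lit 392) (nat_lit 424) (nat_lit 264)))))) (XT.nd (nat_lit 470) (nat_lit 0) (nat_lit 0) (XT.nd (nat_lit 188) (nat_lit 0) (nat_lit 0) (XT.nd (nat_lit 94) (nat_lit 0) (nat_lit 0) (XT.lf (nat_lit 0) (nat_lit 147918340705) (nat_lit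 0) (nat_lit 0) (nat_lit 0) (nat_lit 0) (nat_lit 0) (nat_lit 0) (nat_lit 1) (nat_lit 0) (nat_lit 1) (nat_lit 0) (nat_lit 393) (nat_lit 424) (nat_lit 263)) (XT.lf (nat_lit 0) (nat_lit 147918295157) (nat_lit 0) (nat_lit 0) (nat_lit 0) (nat_lit 0) (nat_lit 0) (nat_lit 0) (nat_lit 1) (nat_lit 0) (nat_lit 1) (nat_lit 0) (nat_lit 394) (nat_lit 424) (nat_lit 262))) (XT.nd (nat_lit 94) (nat_lit 0) (nat_lit 0) (XT.lf (nat_lit 0) (nat_lit 147918252984) (nat_lit 0) (nat_lit 0) (nat_lit 0) (nat_lit 0) (nat_lit 0) (nat_lit 0) (nat_lit 1) (nat_lit 0) (nat_lit 1) (nat_lit 0) (nat_lit 395) (nat_lit 424) (nat_lit 261)) (XT.nd (nat_lit 94) (nat_lit 0) (nat_lit 0) (XT.lf (nat_lit 0) (nat_lit 147918213935) (nat_lit 0) (nat_lit 0) (nat_lit 0) (nat_lit 0) (nat_lit 0) (nat_lit 0) (nat_lit 1) (nat_lit 0) (nat_lit 1) (nat_lit 0) (nat_lit 396) (nat_lit 424) (nat_lit 260)) (XT.lf (nat_lit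 0) (nat_lit 147918177778) (nat_lit 0) (nat_lit 0) (nat_lit 0) (nat_lit 0) (nat_lit 0) (nat_lit 0) (nat_lit 1) (nat_lit 0) (nat_lit 1) (nat_lit 0) (nat_lit 397) (nat_lit 424) (nat_lit 259))))) (XT.nd (nat_lit 188) (nat_lit 0) (nat_lit 0) (XT.nd (nat_lit 94) (nat_lit 0) (nat_lit 0) (XT.lf (nat_lit 0) (nat_lit 147918144299) (nat_lit 0) (nat_lit 0) (nat_lit 0) (nat_lit 0) (nat_lit 0) (nat_lit 0) (nat_lit 1) (nat_lit 0) (nat_lit 1) (nat_lit 0) (nat_lit 398) (nat_lit 424) (nat_lit 258)) (XT.lf (nat_lit 0) (nat_lit 147918113301) (nat_lit 0) (nat_lit 0) (nat_lit 0) (nat_lit 0) (nat_lit 0) (nat_lit 0) (nat_lit 1) (nat_lit 0) (nat_lit 1) (nat_lit 0) (nat_lit 399) (nat_lit 424) (nat_lit 257))) (XT.nd (nat_lit 94) (nat_lit 0) (nat_lit 0) (XT.lf (nat_lit 0) (nat_lit 147918084598) (nat_lit 0) (nat_lit 0) (nat_lit 0) (nat_lit 0) (nat_lit 0) (nat_lit 0) (nat_lit 1) (nat_lit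 0) (nat_lit 1) (nat_lit 0) (nat_lit 400) (nat_lit 424) (nat_lit 256)) (XT.nd (nat_lit 94) (nat_lit 0) (nat_lit 0) (XT.lf (nat_lit 0) (nat_lit 147918058022) (nat_lit 0) (nat_lit 0) (nat_lit 0) (nat_lit 0) (nat_lit 0) (nat_lit 0) (nat_lit 1) (nat_lit 0) (nat_lit 1) (nat_lit 0) (nat_lit 401) (nat_lit 424) (nat_lit 255)) (XT.lf (nat_lit 0) (nat_lit 147918033414) (nat_lit 0) (nat_lit 0) (nat_lit 0) (nat_lit 0) (nat_lit 0) (nat_lit 0) (nat_lit 1) (nat_lit 0) (nat_lit 1) (nat_lit 0) (nat_lit 402) (nat_lit 424) (nat_lit 254))))))))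
noncomputable def ec273 : XT := (XT.nd (nat_lit 1786) (nat_lit 0) (nat_lit 0) (XT.nd (nat_lit 846) (nat_lit 0) (nat_lit 0) (XT.nd (nat_lit 376) (nat_lit 0) (nat_lit 0) (XT.nd (nat_lit 188) (nat_lit 0) (nat_lit 0) (XT.nd (nat_lit 94) (nat_lit 0) (nat_lit 0) (XT.lf (nat_lit 0) (nat_lit 147918010629) (nat_lit 0) (nat_lit 0) (nat_lit 0) (nat_lit 0) (nat_lit 0) (nat_lit 0) (nat_lit 1) (nat_lit 0) (nat_lit 1) (nat_lit 0) (nat_lit 403) (nat_lit 424) (nat_lit 253)) (XT.lf (nat_lit 0) (nat_lit 147917989532) (nat_lit 0) (nat_lit 0) (nat_lit 0) (nat_lit 0) (nat_lit 0) (nat_lit 0) (nat_lit 1) (nat_lit 0) (nat_lit 1) (nat_lit 0) (nat_lit 404) (nat_lit 424) (nat_lit 252))) (XT.nd (nat_lit 94) (nat_lit 0) (nat_lit 0) (XT.lf (nat_lit 0) (nat_lit 147917969998) (nat_lit 0) (nat_lit 0) (nat_lit 0) (nat_lit 0) (nat_lit 0) (nat_lit 0) (nat_lit 1) (nat_lit 0) (nat_lit 1) (nat_lit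 0) (nat_lit 405) (nat_lit 424) (nat_lit 251)) (XT.lf (nat_lit 0) (nat_lit 147917951910) (nat_lit 0) (nat_lit 0) (nat_lit 0) (nat_lit 0) (nat_lit 0) (nat_lit 0) (nat_lit 1) (nat_lit 0) (nat_lit 1) (nat_lit 0) (nat_lit 406) (nat_lit 424) (nat_lit 250)))) (XT.nd (nat_lit 188) (nat_lit 0) (nat_lit 0) (XT.nd (nat_lit 94) (nat_lit 0) (nat_lit 0) (XT.lf (nat_lit 0) (nat_lit 147917935162) (nat_lit 0) (nat_lit 0) (nat_lit 0) (nat_lit 0) (nat_lit 0) (nat_lit 0) (nat_lit 1) (nat_lit 0) (nat_lit 1) (nat_lit 0) (nat_lit 407) (nat_lit 424) (nat_lit 249)) (XT.lf (nat_lit 0) (nat_lit 147917919655) (nat_lit 0) (nat_lit 0) (nat_lit 0) (nat_lit 0) (nat_lit 0) (nat_lit 0) (nat_lit 1) (nat_lit 0) (nat_lit 1) (nat_lit 0) (nat_lit 408) (nat_lit 424) (nat_lit 248))) (XT.nd (nat_lit 94) (nat_lit 0) (nat_lit 0) (XT.lf (nat_lit 0) (nat_lit 147917905297) (nat_lit 0) (nat_lit 0) (nat_lit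 0) (nat_lit 0) (nat_lit 0) (nat_lit 0) (nat_lit 1) (nat_lit 0) (nat_lit 1) (nat_lit 0) (nat_lit 409) (nat_lit 424) (nat_lit 247)) (XT.nd (nat_lit 94) (nat_lit 0) (nat_lit 0) (XT.lf (nat_lit 0) (nat_lit 147917892002) (nat_lit 0) (nat_lit 0) (nat_lit 0) (nat_lit 0) (nat_lit 0) (nat_lit 0) (nat_lit 1) (nat_lit 0) (nat_lit 1) (nat_lit 0) (nat_lit 410) (nat_lit 424) (nat_lit 246)) (XT.lf (nat_lit 0) (nat_lit 147917879692) (nat_lit 0) (nat_lit 0) (nat_lit 0) (nat_lit 0) (nat_lit 0) (nat_lit 0) (nat_lit 1) (nat_lit 0) (nat_lit 1) (nat_lit 0) (nat_lit 411) (nat_lit 424) (nat_lit 245)))))) (XT.nd (nat_lit 470) (nat_lit 0) (nat_lit 0) (XT.nd (nat_lit 188) (nat_lit 0) (nat_lit 0) (XT.nd (nat_lit 94) (nat_lit 0) (nat_lit 0) (XT.lf (nat_lit 0) (nat_lit 147917868294) (nat_lit 0) (nat_lit 0) (nat_lit 0) (nat_lit 0) (nat_lit 0) (nat_lit 0) (nat_lit 1) (nat_lit 0) (nat_lit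 1) (nat_lit 0) (nat_lit 412) (nat_lit 424) (nat_lit 244)) (XT.lf (nat_lit 0) (nat_lit 147917857740) (nat_lit 0) (nat_lit 0) (nat_lit 0) (nat_lit 0) (nat_lit 0) (nat_lit 0) (nat_lit 1) (nat_lit 0) (nat_lit 1) (nat_lit 0) (nat_lit 413) (nat_lit 424) (nat_lit 243))) (XT.nd (nat_lit 94) (nat_lit 0) (nat_lit 0) (XT.lf (nat_lit 0) (nat_lit 147917847968) (nat_lit 0) (nat_lit 0) (nat_lit 0) (nat_lit 0) (nat_lit 0) (nat_lit 0) (nat_lit 1) (nat_lit 0) (nat_lit 1) (nat_lit 0) (nat_lit 414) (nat_lit 424) (nat_lit 242)) (XT.nd (nat_lit 94) (nat_lit 0) (nat_lit 0) (XT.lf (nat_lit 0) (nat_lit 147917838920) (nat_lit 0) (nat_lit 0) (nat_lit 0) (nat_lit 0) (nat_lit 0) (nat_lit 0) (nat_lit 1) (nat_lit 0) (nat_lit 1) (nat_lit 0) (nat_lit 415) (nat_lit 424) (nat_lit 241)) (XT.lf (nat_lit 0) (nat_lit 147917830542) (nat_lit 0) (nat_lit 0) (nat_lit 0) (nat_lit 0) (nat_lit 0) (nat_lit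 0) (nat_lit 1) (nat_lit 0) (nat_lit 1) (nat_lit 0) (nat_lit 416) (nat_lit 424) (nat_lit 240))))) (XT.nd (nat_lit 188) (nat_lit 0) (nat_lit 0) (XT.nd (nat_lit 94) (nat_lit 0) (nat_lit 0) (XT.lf (nat_lit 0) (nat_lit 147917822785) (nat_lit 0) (nat_lit 0) (nat_lit 0) (nat_lit 0) (nat_lit 0) (nat_lit 0) (nat_lit 1) (nat_lit 0) (nat_lit 1) (nat_lit 0) (nat_lit 417) (nat_lit 424) (nat_lit 239)) (XT.lf (nat_lit 0) (nat_lit 147917815602) (nat_lit 0) (nat_lit 0) (nat_lit 0) (nat_lit 0) (nat_lit 0) (nat_lit 0) (nat_lit 1) (nat_lit 0) (nat_lit 1) (nat_lit 0) (nat_lit 418) (nat_lit 424) (nat_lit 238))) (XT.nd (nat_lit 94) (nat_lit 0) (nat_lit 0) (XT.lf (nat_lit 0) (nat_lit 147917808951) (nat_lit 0) (nat_lit 0) (nat_lit 0) (nat_lit 0) (nat_lit 0) (nat_lit 0) (nat_lit 1) (nat_lit 0) (nat_lit 1) (nat_lit 0) (nat_lit 419) (nat_lit 424) (nat_lit 237)) (XT.nd (nat_lit 94) (nat_lit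 0) (nat_lit 0) (XT.lf (nat_lit 0) (nat_lit 147917802793) (nat_lit 0) (nat_lit 0) (nat_lit 0) (nat_lit 0) (nat_lit 0) (nat_lit 0) (nat_lit 1) (nat_lit 0) (nat_lit 1) (nat_lit 0) (nat_lit 420) (nat_lit 424) (nat_lit 236)) (XT.lf (nat_lit 0) (nat_lit 147917797091) (nat_lit 0) (nat_lit 0) (nat_lit 0) (nat_lit 0) (nat_lit 0) (nat_lit 0) (nat_lit 1) (nat_lit 0) (nat_lit 1) (nat_lit 0) (nat_lit 421) (nat_lit 424) (nat_lit 235))))))) (XT.nd (nat_lit 846) (nat_lit 0) (nat_lit 0) (XT.nd (nat_lit 376) (nat_lit 0) (nat_lit 0) (XT.nd (nat_lit 188) (nat_lit 0) (nat_lit 0) (XT.nd (nat_lit 94) (nat_lit 0) (nat_lit 0) (XT.lf (nat_lit 0) (nat_lit 147917791812) (nat_lit 0) (nat_lit 0) (nat_lit 0) (nat_lit 0) (nat_lit 0) (nat_lit 0) (nat_lit 1) (nat_lit 0) (nat_lit 1) (nat_lit 0) (nat_lit 422) (nat_lit 424) (nat_lit 234)) (XT.lf (nat_lit 0) (nat_lit 147917786923) (nat_lit 0)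 (nat_lit 0) (nat_lit 0) (nat_lit 0) (nat_lit 0) (nat_lit 0) (nat_lit 1) (nat_lit 0) (nat_lit 1) (nat_lit 0) (nat_lit 423) (nat_lit 424) (nat_lit 233))) (XT.nd (nat_lit 94) (nat_lit 0) (nat_lit 0) (XT.lf (nat_lit 0) (nat_lit 147917782397) (nat_lit 0) (nat_lit 0) (nat_lit 0) (nat_lit 0) (nat_lit 0) (nat_lit 0) (nat_lit 1) (nat_lit 0) (nat_lit 1) (nat_lit 0) (nat_lit 424) (nat_lit 424) (nat_lit 232)) (XT.lf (nat_lit 0) (nat_lit 147917778206) (nat_lit 0) (nat_lit 0) (nat_lit 0) (nat_lit 0) (nat_lit 0) (nat_lit 0) (nat_lit 1) (nat_lit 0) (nat_lit 1) (nat_lit 0) (nat_lit 425) (nat_lit 424) (nat_lit 231)))) (XT.nd (nat_lit 188) (nat_lit 0) (nat_lit 0) (XT.nd (nat_lit 94) (nat_lit 0) (nat_lit 0) (XT.lf (nat_lit 0) (nat_lit 147917774325) (nat_lit 0) (nat_lit 0) (nat_lit 0) (nat_lit 0) (nat_lit 0) (nat_lit 0) (nat_lit 1) (nat_lit 0) (nat_lit 1) (nat_lit 0) (nat_lit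 426) (nat_lit 424) (nat_lit 230)) (XT.lf (nat_lit 0) (nat_lit 147917770732) (nat_lit 0) (nat_lit 0) (nat_lit 0) (nat_lit 0) (nat_lit 0) (nat_lit 0) (nat_lit 1) (nat_lit 0) (nat_lit 1) (nat_lit 0) (nat_lit 427) (nat_lit 424) (nat_lit 229))) (XT.nd (nat_lit 94) (nat_lit 0) (nat_lit 0) (XT.lf (nat_lit 0) (nat_lit 147917767405) (nat_lit 0) (nat_lit 0) (nat_lit 0) (nat_lit 0) (nat_lit 0) (nat_lit 0) (nat_lit 1) (nat_lit 0) (nat_lit 1) (nat_lit 0) (nat_lit 428) (nat_lit 424) (nat_lit 228)) (XT.nd (nat_lit 94) (nat_lit 0) (nat_lit 0) (XT.lf (nat_lit 0) (nat_lit 147917764324) (nat_lit 0) (nat_lit 0) (nat_lit 0) (nat_lit 0) (nat_lit 0) (nat_lit 0) (nat_lit 1) (nat_lit 0) (nat_lit 1) (nat_lit 0) (nat_lit 429) (nat_lit 424) (nat_lit 227)) (XT.lf (nat_lit 0) (nat_lit 147917761472) (nat_lit 0) (nat_lit 0) (nat_lit 0) (nat_lit 0) (nat_lit 0) (nat_lit 0) (nat_lit 1) (nat_lit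 0) (nat_lit 1) (nat_lit 0) (nat_lit 430) (nat_lit 424) (nat_lit 226)))))) (XT.nd (nat_lit 470) (nat_lit 0) (nat_lit 0) (XT.nd (nat_lit 188) (nat_lit 0) (nat_lit 0) (XT.nd (nat_lit 94) (nat_lit 0) (nat_lit 0) (XT.lf (nat_lit 0) (nat_lit 147917758831) (nat_lit 0) (nat_lit 0) (nat_lit 0) (nat_lit 0) (nat_lit 0) (nat_lit 0) (nat_lit 1) (nat_lit 0) (nat_lit 1) (nat_lit 0) (nat_lit 431) (nat_lit 424) (nat_lit 225)) (XT.lf (nat_lit 0) (nat_lit 147917756385) (nat_lit 0) (nat_lit 0) (nat_lit 0) (nat_lit 0) (nat_lit 0) (nat_lit 0) (nat_lit 1) (nat_lit 0) (nat_lit 1) (nat_lit 0) (nat_lit 432) (nat_lit 424) (nat_lit 224))) (XT.nd (nat_lit 94) (nat_lit 0) (nat_lit 0) (XT.lf (nat_lit 0) (nat_lit 147917754121) (nat_lit 0) (nat_lit 0) (nat_lit 0) (nat_lit 0) (nat_lit 0) (nat_lit 0) (nat_lit 1) (nat_lit 0) (nat_lit 1) (nat_lit 0) (nat_lit 433) (nat_lit 424) (nat_lit 223))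 (XT.nd (nat_lit 94) (nat_lit 0) (nat_lit 0) (XT.lf (nat_lit 0) (nat_lit 147917752025) (nat_lit 0) (nat_lit 0) (nat_lit 0) (nat_lit 0) (nat_lit 0) (nat_lit 0) (nat_lit 1) (nat_lit 0) (nat_lit 1) (nat_lit 0) (nat_lit 434) (nat_lit 424) (nat_lit 222)) (XT.lf (nat_lit 0) (nat_lit 147917750083) (nat_lit 0) (nat_lit 0) (nat_lit 0) (nat_lit 0) (nat_lit 0) (nat_lit 0) (nat_lit 1) (nat_lit 0) (nat_lit 1) (nat_lit 0) (nat_lit 435) (nat_lit 424) (nat_lit 221))))) (XT.nd (nat_lit 188) (nat_lit 0) (nat_lit 0) (XT.nd (nat_lit 94) (nat_lit 0) (nat_lit 0) (XT.lf (nat_lit 0) (nat_lit 147917748286) (nat_lit 0) (nat_lit 0) (nat_lit 0) (nat_lit 0) (nat_lit 0) (nat_lit 0) (nat_lit 1) (nat_lit 0) (nat_lit 1) (nat_lit 0) (nat_lit 436) (nat_lit 424) (nat_lit 220)) (XT.lf (nat_lit 0) (nat_lit 147917746621) (nat_lit 0) (nat_lit 0) (nat_lit 0) (nat_lit 0) (nat_lit 0) (nat_lit 0) (nat_lit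 1) (nat_lit 0) (nat_lit 1) (nat_lit 0) (nat_lit 437) (nat_lit 424) (nat_lit 219))) (XT.nd (nat_lit 94) (nat_lit 0) (nat_lit 0) (XT.lf (nat_lit 0) (nat_lit 147917745080) (nat_lit 0) (nat_lit 0) (nat_lit 0) (nat_lit 0) (nat_lit 0) (nat_lit 0) (nat_lit 1) (nat_lit 0) (nat_lit 1) (nat_lit 0) (nat_lit 438) (nat_lit 424) (nat_lit 218)) (XT.nd (nat_lit 94) (nat_lit 0) (nat_lit 0) (XT.lf (nat_lit 0) (nat_lit 147917743654) (nat_lit 0) (nat_lit 0) (nat_lit 0) (nat_lit 0) (nat_lit 0) (nat_lit 0) (nat_lit 1) (nat_lit 0) (nat_lit 1) (nat_lit 0) (nat_lit 439) (nat_lit 424) (nat_lit 217)) (XT.lf (nat_lit 0) (nat_lit 147917742332) (nat_lit 0) (nat_lit 0) (nat_lit 0) (nat_lit 0) (nat_lit 0) (nat_lit 0) (nat_lit 1) (nat_lit 0) (nat_lit 1) (nat_lit 0) (nat_lit 440) (nat_lit 424) (nat_lit 216))))))))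
noncomputable def ec274 : XT := (XT.nd (nat_lit 49350) (nat_lit 0) (nat_lit 3360) (XT.nd (nat_lit 48504) (nat_lit 0) (nat_lit 7812) (XT.nd (nat_lit 48034) (nat_lit 0) (nat_lit 10836) (XT.nd (nat_lit 188) (nat_lit 0) (nat_lit 0) (XT.nd (nat_lit 94) (nat_lit 0) (nat_lit 0) (XT.lf (nat_lit 0) (nat_lit 147917741109) (nat_lit 0) (nat_lit 0) (nat_lit 0) (nat_lit 0) (nat_lit 0) (nat_lit 0) (nat_lit 1) (nat_lit 0) (nat_lit 1) (nat_lit 0) (nat_lit 441) (nat_lit 424) (nat_lit 215)) (XT.lf (nat_lit 0) (nat_lit 147917739976) (nat_lit 0) (nat_lit 0) (nat_lit 0) (nat_lit 0) (nat_lit 0) (nat_lit 0) (nat_lit 1) (nat_lit 0) (nat_lit 1) (nat_lit 0) (nat_lit 442) (nat_lit 424) (nat_lit 214))) (XT.nd (nat_lit 47752) (nat_lit 0) (nat_lit 10752) (XT.lf (nat_lit 0) (nat_lit 147917738927) (nat_lit 0) (nat_lit 0) (nat_lit 0) (nat_lit 0) (nat_lit 0) (nat_lit 0) (nat_lit 1) (nat_lit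 0) (nat_lit 1) (nat_lit 0) (nat_lit 443) (nat_lit 424) (nat_lit 213)) (XT.lf (nat_lit 924) (nat_lit 79945456293) (nat_lit 0) (nat_lit 141942973887) (nat_lit 924) (nat_lit 79945456293) (nat_lit 139) (nat_lit 1) (nat_lit 128) (nat_lit 0) (nat_lit 139) (nat_lit 0) (nat_lit 230) (nat_lit 425) (nat_lit 425)))) (XT.nd (nat_lit 188) (nat_lit 0) (nat_lit 84) (XT.nd (nat_lit 94) (nat_lit 0) (nat_lit 0) (XT.lf (nat_lit 924) (nat_lit 29822108254) (nat_lit 0) (nat_lit 278677077288) (nat_lit 840) (nat_lit 272545250548) (nat_lit 140) (nat_lit 1) (nat_lit 129) (nat_lit 1) (nat_lit 139) (nat_lit 1) (nat_lit 231) (nat_lit 425) (nat_lit 424)) (XT.lf (nat_lit 924) (nat_lit 273898850751) (nat_lit 84) (nat_lit 186630132595) (nat_lit 0) (nat_lit 98980108989) (nat_lit 140) (nat_lit 1) (nat_lit 130) (nat_lit 1) (nat_lit 129) (nat_lit 1) (nat_lit 232) (nat_lit 425) (nat_lit 423)))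 (XT.nd (nat_lit 94) (nat_lit 0) (nat_lit 84) (XT.lf (nat_lit 924) (nat_lit 236671045165) (nat_lit 84) (nat_lit 78215394973) (nat_lit 0) (nat_lit 224164991667) (nat_lit 141) (nat_lit 1) (nat_lit 131) (nat_lit 1) (nat_lit 130) (nat_lit 1) (nat_lit 233) (nat_lit 425) (nat_lit 422)) (XT.nd (nat_lit 94) (nat_lit 0) (nat_lit 84) (XT.lf (nat_lit 924) (nat_lit 175156694496) (nat_lit 0) (nat_lit 327709896103) (nat_lit 840) (nat_lit 16752483068) (nat_lit 142) (nat_lit 1) (nat_lit 131) (nat_lit 1) (nat_lit 141) (nat_lit 1) (nat_lit 234) (nat_lit 425) (nat_lit 421)) (XT.lf (nat_lit 924) (nat_lit 42027131480) (nat_lit 0) (nat_lit 361391201794) (nat_lit 840) (nat_lit 97696413383) (nat_lit 143) (nat_lit 1) (nat_lit 132) (nat_lit 1) (nat_lit 142) (nat_lit 1) (nat_lit 235) (nat_lit 425) (nat_lit 420)))))) (XT.nd (nat_lit 376) (nat_lit 1512) (nat_lit 0) (XT.nd (nat_lit 188)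 (nat_lit 1008) (nat_lit 0) (XT.nd (nat_lit 94) (nat_lit 756) (nat_lit 0) (XT.lf (nat_lit 924) (nat_lit 80759052823) (nat_lit 84) (nat_lit 314078383707) (nat_lit 0) (nat_lit 88636794873) (nat_lit 143) (nat_lit 1) (nat_lit 133) (nat_lit 1) (nat_lit 132) (nat_lit 1) (nat_lit 236) (nat_lit 425) (nat_lit 419)) (XT.lf (nat_lit 924) (nat_lit 16586067896) (nat_lit 0) (nat_lit 234794367308) (nat_lit 840) (nat_lit 215303974684) (nat_lit 134) (nat_lit 1) (nat_lit 123) (nat_lit 1) (nat_lit 133) (nat_lit 1) (nat_lit 237) (nat_lit 425) (nat_lit 418))) (XT.nd (nat_lit 94) (nat_lit 420) (nat_lit 0) (XT.lf (nat_lit 84) (nat_lit 114845389131) (nat_lit 0) (nat_lit 49767851581) (nat_lit 588) (nat_lit 286076329496) (nat_lit 117) (nat_lit 1) (nat_lit 116) (nat_lit 1) (nat_lit 123) (nat_lit 1) (nat_lit 238) (nat_lit 425) (nat_lit 417)) (XT.lf (nat_lit 504) (nat_lit 316499437222)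 (nat_lit 0) (nat_lit 103027389993) (nat_lit 420) (nat_lit 15928671089) (nat_lit 117) (nat_lit 1) (nat_lit 111) (nat_lit 1) (nat_lit 116) (nat_lit 1) (nat_lit 239) (nat_lit 425) (nat_lit 416)))) (XT.nd (nat_lit 188) (nat_lit 756) (nat_lit 0) (XT.nd (nat_lit 94) (nat_lit 336) (nat_lit 0) (XT.lf (nat_lit 504) (nat_lit 228389007836) (nat_lit 0) (nat_lit 48021510281) (nat_lit 420) (nat_lit 144465946135) (nat_lit 112) (nat_lit 1) (nat_lit 106) (nat_lit 1) (nat_lit 111) (nat_lit 1) (nat_lit 240) (nat_lit 425) (nat_lit 415)) (XT.lf (nat_lit 420) (nat_lit 138971798409) (nat_lit 0) (nat_lit 884154043) (nat_lit 336) (nat_lit 267148383409) (nat_lit 107) (nat_lit 1) (nat_lit 102) (nat_lit 1) (nat_lit 106) (nat_lit 1) (nat_lit 241) (nat_lit 425) (nat_lit 414))) (XT.nd (nat_lit 94) (nat_lit 756) (nat_lit 0) (XT.lf (nat_lit 84) (nat_lit 10252682507) (nat_lit 0) (nat_lit 345770134386)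 (nat_lit 420) (nat_lit 37747533251) (nat_lit 103) (nat_lit 1) (nat_lit 102) (nat_lit 1) (nat_lit 107) (nat_lit 1) (nat_lit 242) (nat_lit 425) (nat_lit 413)) (XT.nd (nat_lit 94) (nat_lit 336) (nat_lit 0) (XT.lf (nat_lit 84) (nat_lit 264726921584) (nat_lit 0) (nat_lit 43907792505) (nat_lit 420) (nat_lit 72411924101) (nat_lit 98) (nat_lit 1) (nat_lit 97) (nat_lit 1) (nat_lit 102) (nat_lit 1) (nat_lit 243) (nat_lit 425) (nat_lit 412)) (XT.lf (nat_lit 84) (nat_lit 132449587220) (nat_lit 0) (nat_lit 134497362790) (nat_lit 420) (nat_lit 101938174695) (nat_lit 94) (nat_lit 1) (nat_lit 93) (nat_lit 1) (nat_lit 98) (nat_lit 1) (nat_lit 244) (nat_lit 425) (nat_lit 411))))))) (XT.nd (nat_lit 846) (nat_lit 1848) (nat_lit 0) (XT.nd (nat_lit 376) (nat_lit 1344) (nat_lit 0) (XT.nd (nat_lit 188) (nat_lit 672) (nat_lit 0) (XT.nd (nat_lit 94) (nat_lit 252) (nat_lit 0) (XT.lf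 (nat_lit 84) (nat_lit 6537417923) (nat_lit 0) (nat_lit 224877502138) (nat_lit 420) (nat_lit 125884498630) (nat_lit 90) (nat_lit 1) (nat_lit 89) (nat_lit 1) (nat_lit 94) (nat_lit 1) (nat_lit 245) (nat_lit 425) (nat_lit 410)) (XT.lf (nat_lit 336) (nat_lit 29522610894) (nat_lit 0) (nat_lit 199647285912) (nat_lit 252) (nat_lit 116997897939) (nat_lit 90) (nat_lit 1) (nat_lit 86) (nat_lit 1) (nat_lit 89) (nat_lit 1) (nat_lit 246) (nat_lit 425) (nat_lit 409))) (XT.nd (nat_lit 94) (nat_lit 252) (nat_lit 0) (XT.lf (nat_lit 84) (nat_lit 102008558082) (nat_lit 0) (nat_lit 69917299563) (nat_lit 420) (nat_lit 163570180723) (nat_lit 82) (nat_lit 1) (nat_lit 81) (nat_lit 1) (nat_lit 86) (nat_lit 1) (nat_lit 247) (nat_lit 425) (nat_lit 408)) (XT.lf (nat_lit 336) (nat_lit 157933784152) (nat_lit 0) (nat_lit 148358377750) (nat_lit 252) (nat_lit 18989696276) (nat_lit 82) (nat_lit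 1) (nat_lit 78) (nat_lit 1) (nat_lit 81) (nat_lit 1) (nat_lit 248) (nat_lit 425) (nat_lit 407)))) (XT.nd (nat_lit 188) (nat_lit 756) (nat_lit 0) (XT.nd (nat_lit 94) (nat_lit 336) (nat_lit 0) (XT.lf (nat_lit 336) (nat_lit 50617014833) (nat_lit 0) (nat_lit 127730488026) (nat_lit 252) (nat_lit 137112708925) (nat_lit 79) (nat_lit 1) (nat_lit 75) (nat_lit 1) (nat_lit 78) (nat_lit 1) (nat_lit 249) (nat_lit 425) (nat_lit 406)) (XT.lf (nat_lit 84) (nat_lit 57691166208) (nat_lit 0) (nat_lit 52821276137) (nat_lit 336) (nat_lit 195534034513) (nat_lit 72) (nat_lit 1) (nat_lit 71) (nat_lit 1) (nat_lit 75) (nat_lit 1) (nat_lit 250) (nat_lit 425) (nat_lit 405))) (XT.nd (nat_lit 94) (nat_lit 504) (nat_lit 0) (XT.lf (nat_lit 336) (nat_lit 143556895162) (nat_lit 0) (nat_lit 95517438234) (nat_lit 252) (nat_lit 57902985103) (nat_lit 72) (nat_lit 1) (nat_lit 68) (nat_lit 1) (nat_lit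 71) (nat_lit 1) (nat_lit 251) (nat_lit 425) (nat_lit 404)) (XT.nd (nat_lit 94) (nat_lit 336) (nat_lit 0) (XT.lf (nat_lit 252) (nat_lit 35587966282) (nat_lit 0) (nat_lit 83331997798) (nat_lit 168) (nat_lit 169354071210) (nat_lit 69) (nat_lit 1) (nat_lit 66) (nat_lit 1) (nat_lit 68) (nat_lit 1) (nat_lit 252) (nat_lit 425) (nat_lit 403)) (XT.lf (nat_lit 84) (nat_lit 6028828851) (nat_lit 0) (nat_lit 67463903644) (nat_lit 336) (nat_lit 206415381770) (nat_lit 63) (nat_lit 1) (nat_lit 62) (nat_lit 1) (nat_lit 66) (nat_lit 1) (nat_lit 253) (nat_lit 425) (nat_lit 402)))))) (XT.nd (nat_lit 470) (nat_lit 840) (nat_lit 0) (XT.nd (nat_lit 188) (nat_lit 588) (nat_lit 0) (XT.nd (nat_lit 94) (nat_lit 252) (nat_lit 0) (XT.lf (nat_lit 252) (nat_lit 103412100084) (nat_lit 0) (nat_lit 64623690845) (nat_lit 168) (nat_lit 103771975233) (nat_lit 63) (nat_lit 1) (nat_lit 60) (nat_lit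 1) (nat_lit 62) (nat_lit 1) (nat_lit 254) (nat_lit 425) (nat_lit 401)) (XT.lf (nat_lit 84) (nat_lit 56107083887) (nat_lit 0) (nat_lit 2591621380) (nat_lit 252) (nat_lit 205362184069) (nat_lit 58) (nat_lit 1) (nat_lit 57) (nat_lit 1) (nat_lit 60) (nat_lit 1) (nat_lit 255) (nat_lit 425) (nat_lit 400))) (XT.nd (nat_lit 94) (nat_lit 420) (nat_lit 0) (XT.lf (nat_lit 252) (nat_lit 153385932812) (nat_lit 0) (nat_lit 53151664920) (nat_lit 168) (nat_lit 50001765913) (nat_lit 58) (nat_lit 1) (nat_lit 55) (nat_lit 1) (nat_lit 57) (nat_lit 1) (nat_lit 256) (nat_lit 425) (nat_lit 399)) (XT.nd (nat_lit 94) (nat_lit 252) (nat_lit 0) (XT.lf (nat_lit 252) (nat_lit 47647817335) (nat_lit 0) (nat_lit 49410350144) (nat_lit 168) (nat_lit 152247251320) (nat_lit 56) (nat_lit 1) (nat_lit 53) (nat_lit 1) (nat_lit 55) (nat_lit 1) (nat_lit 257) (nat_lit 425) (nat_lit 398)) (XT.lf (nat_lit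 252) (nat_lit 189144323754) (nat_lit 0) (nat_lit 47207579168) (nat_lit 168) (nat_lit 5988829104) (nat_lit 53) (nat_lit 1) (nat_lit 50) (nat_lit 1) (nat_lit 52) (nat_lit 1) (nat_lit 258) (nat_lit 425) (nat_lit 397))))) (XT.nd (nat_lit 188) (nat_lit 504) (nat_lit 0) (XT.nd (nat_lit 94) (nat_lit 168) (nat_lit 0) (XT.lf (nat_lit 252) (nat_lit 84652233214) (nat_lit 0) (nat_lit 45067322225) (nat_lit 168) (nat_lit 105850016477) (nat_lit 51) (nat_lit 1) (nat_lit 48) (nat_lit 1) (nat_lit 50) (nat_lit 1) (nat_lit 259) (nat_lit 425) (nat_lit 396)) (XT.lf (nat_lit 84) (nat_lit 28996658207) (nat_lit 0) (nat_lit 15937869978) (nat_lit 168) (nat_lit 184144733845) (nat_lit 47) (nat_lit 1) (nat_lit 46) (nat_lit 1) (nat_lit 48) (nat_lit 1) (nat_lit 260) (nat_lit 425) (nat_lit 395))) (XT.nd (nat_lit 94) (nat_lit 336) (nat_lit 0) (XT.lf (nat_lit 252) (nat_lit 111068598386) (nat_lit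 0) (nat_lit 44458721550) (nat_lit 168) (nat_lit 67225409008) (nat_lit 47) (nat_lit 1) (nat_lit 44) (nat_lit 1) (nat_lit 46) (nat_lit 1) (nat_lit 261) (nat_lit 425) (nat_lit 394)) (XT.nd (nat_lit 94) (nat_lit 252) (nat_lit 0) (XT.lf (nat_lit 168) (nat_lit 11960509781) (nat_lit 0) (nat_lit 45550685204) (nat_lit 84) (nat_lit 159164764257) (nat_lit 45) (nat_lit 1) (nat_lit 43) (nat_lit 1) (nat_lit 44) (nat_lit 1) (nat_lit 262) (nat_lit 425) (nat_lit 393)) (XT.lf (nat_lit 252) (nat_lit 129109287324) (nat_lit 0) (nat_lit 46586195607) (nat_lit 168) (nat_lit 35071261913) (nat_lit 43) (nat_lit 1) (nat_lit 40) (nat_lit 1) (nat_lit 42) (nat_lit 1) (nat_lit 263) (nat_lit 425) (nat_lit 392))))))))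
noncomputable def ec275 : XT := (XT.nd (nat_lit 1786) (nat_lit 756) (nat_lit 0) (XT.nd (nat_lit 846) (nat_lit 1260) (nat_lit 0) (XT.nd (nat_lit 376) (nat_lit 672) (nat_lit 0) (XT.nd (nat_lit 188) (nat_lit 336) (nat_lit 0) (XT.nd (nat_lit 94) (nat_lit 252) (nat_lit 0) (XT.lf (nat_lit 168) (nat_lit 32471937811) (nat_lit 0) (nat_lit 48328100404) (nat_lit 84) (nat_lit 124256644628) (nat_lit 41) (nat_lit 1) (nat_lit 39) (nat_lit 1) (nat_lit 40) (nat_lit 1) (nat_lit 264) (nat_lit 425) (nat_lit 391)) (XT.lf (nat_lit 252) (nat_lit 140563033050) (nat_lit 0) (nat_lit 50658978985) (nat_lit 168) (nat_lit 8313572116) (nat_lit 39) (nat_lit 1) (nat_lit 36) (nat_lit 1) (nat_lit 38) (nat_lit 1) (nat_lit 265) (nat_lit 425) (nat_lit 390))) (XT.nd (nat_lit 94) (nat_lit 252) (nat_lit 0) (XT.lf (nat_lit 168) (nat_lit 46731573400) (nat_lit 0) (nat_lit 52812594322) (nat_lit 84) (nat_lit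 94618323657) (nat_lit 37) (nat_lit 1) (nat_lit 35) (nat_lit 1) (nat_lit 36) (nat_lit 1) (nat_lit 266) (nat_lit 425) (nat_lit 389)) (XT.lf (nat_lit 84) (nat_lit 13488591828) (nat_lit 0) (nat_lit 42337094212) (nat_lit 252) (nat_lit 133156741288) (nat_lit 33) (nat_lit 1) (nat_lit 32) (nat_lit 1) (nat_lit 35) (nat_lit 1) (nat_lit 267) (nat_lit 425) (nat_lit 388)))) (XT.nd (nat_lit 188) (nat_lit 336) (nat_lit 0) (XT.nd (nat_lit 94) (nat_lit 252) (nat_lit 0) (XT.lf (nat_lit 168) (nat_lit 56082104331) (nat_lit 0) (nat_lit 58434894481) (nat_lit 84) (nat_lit 69414008167) (nat_lit 33) (nat_lit 1) (nat_lit 31) (nat_lit 1) (nat_lit 32) (nat_lit 1) (nat_lit 268) (nat_lit 425) (nat_lit 387)) (XT.lf (nat_lit 84) (nat_lit 31369442110) (nat_lit 0) (nat_lit 30383425879) (nat_lit 252) (nat_lit 117304237923) (nat_lit 29) (nat_lit 1) (nat_lit 28) (nat_lit 1) (nat_lit 31) (nat_lit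 1) (nat_lit 269) (nat_lit 425) (nat_lit 386))) (XT.nd (nat_lit 94) (nat_lit 252) (nat_lit 0) (XT.lf (nat_lit 168) (nat_lit 61606317445) (nat_lit 0) (nat_lit 64750619460) (nat_lit 84) (nat_lit 47950794268) (nat_lit 29) (nat_lit 1) (nat_lit 27) (nat_lit 1) (nat_lit 28) (nat_lit 1) (nat_lit 270) (nat_lit 425) (nat_lit 385)) (XT.nd (nat_lit 94) (nat_lit 84) (nat_lit 0) (XT.lf (nat_lit 84) (nat_lit 46183072659) (nat_lit 0) (nat_lit 22005407774) (nat_lit 168) (nat_lit 101526725952) (nat_lit 26) (nat_lit 1) (nat_lit 25) (nat_lit 1) (nat_lit 27) (nat_lit 1) (nat_lit 271) (nat_lit 425) (nat_lit 384)) (XT.lf (nat_lit 168) (nat_lit 64175662928) (nat_lit 0) (nat_lit 71415938171) (nat_lit 84) (nat_lit 29653178863) (nat_lit 26) (nat_lit 1) (nat_lit 24) (nat_lit 1) (nat_lit 25) (nat_lit 1) (nat_lit 272) (nat_lit 425) (nat_lit 383)))))) (XT.nd (nat_lit 470) (nat_lit 588)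 (nat_lit 0) (XT.nd (nat_lit 188) (nat_lit 420) (nat_lit 0) (XT.nd (nat_lit 94) (nat_lit 84) (nat_lit 0) (XT.lf (nat_lit 84) (nat_lit 58417292890) (nat_lit 0) (nat_lit 16416321134) (nat_lit 168) (nat_lit 86078245157) (nat_lit 23) (nat_lit 1) (nat_lit 22) (nat_lit 1) (nat_lit 24) (nat_lit 1) (nat_lit 273) (nat_lit 425) (nat_lit 382)) (XT.lf (nat_lit 168) (nat_lit 64489853299) (nat_lit 0) (nat_lit 78167787943) (nat_lit 84) (nat_lit 14042200521) (nat_lit 23) (nat_lit 1) (nat_lit 21) (nat_lit 1) (nat_lit 22) (nat_lit 1) (nat_lit 274) (nat_lit 425) (nat_lit 381))) (XT.nd (nat_lit 94) (nat_lit 252) (nat_lit 0) (XT.lf (nat_lit 84) (nat_lit 68477526864) (nat_lit 0) (nat_lit 12983570936) (nat_lit 168) (nat_lit 71146191405) (nat_lit 20) (nat_lit 1) (nat_lit 19) (nat_lit 1) (nat_lit 21) (nat_lit 1) (nat_lit 275) (nat_lit 425) (nat_lit 380)) (XT.nd (nat_lit 94) (nat_lit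 168) (nat_lit 0) (XT.lf (nat_lit 168) (nat_lit 63109145416) (nat_lit 0) (nat_lit 84807809148) (nat_lit 84) (nat_lit 718363257) (nat_lit 20) (nat_lit 1) (nat_lit 18) (nat_lit 1) (nat_lit 19) (nat_lit 1) (nat_lit 276) (nat_lit 425) (nat_lit 379)) (XT.lf (nat_lit 84) (nat_lit 76701396291) (nat_lit 0) (nat_lit 11199746412) (nat_lit 168) (nat_lit 56864897528) (nat_lit 17) (nat_lit 1) (nat_lit 16) (nat_lit 1) (nat_lit 18) (nat_lit 1) (nat_lit 277) (nat_lit 425) (nat_lit 378))))) (XT.nd (nat_lit 188) (nat_lit 336) (nat_lit 0) (XT.nd (nat_lit 94) (nat_lit 168) (nat_lit 0) (XT.lf (nat_lit 0) (nat_lit 10311406465) (nat_lit 0) (nat_lit 80703273903) (nat_lit 168) (nat_lit 49994616020) (nat_lit 15) (nat_lit 3) (nat_lit 15) (nat_lit 1) (nat_lit 17) (nat_lit 1) (nat_lit 278) (nat_lit 425) (nat_lit 377)) (XT.lf (nat_lit 84) (nat_lit 83370663820) (nat_lit 0) (nat_lit 10659033652)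 (nat_lit 168) (nat_lit 43326636047) (nat_lit 14) (nat_lit 1) (nat_lit 13) (nat_lit 1) (nat_lit 15) (nat_lit 1) (nat_lit 279) (nat_lit 425) (nat_lit 376))) (XT.nd (nat_lit 94) (nat_lit 252) (nat_lit 0) (XT.lf (nat_lit 0) (nat_lit 19698601096) (nat_lit 0) (nat_lit 77174487370) (nat_lit 168) (nat_lit 36927568822) (nat_lit 12) (nat_lit 3) (nat_lit 12) (nat_lit 1) (nat_lit 14) (nat_lit 1) (nat_lit 280) (nat_lit 425) (nat_lit 375)) (XT.nd (nat_lit 94) (nat_lit 84) (nat_lit 0) (XT.lf (nat_lit 84) (nat_lit 88721018653) (nat_lit 0) (nat_lit 11037995674) (nat_lit 168) (nat_lit 30590522083) (nat_lit 11) (nat_lit 1) (nat_lit 10) (nat_lit 1) (nat_lit 12) (nat_lit 1) (nat_lit 281) (nat_lit 425) (nat_lit 374)) (XT.lf (nat_lit 0) (nat_lit 27694040904) (nat_lit 0) (nat_lit 74623858556) (nat_lit 168) (nat_lit 24664624535) (nat_lit 9) (nat_lit 3) (nat_lit 9) (nat_lit 1) (nat_lit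 11) (nat_lit 1) (nat_lit 282) (nat_lit 425) (nat_lit 373))))))) (XT.nd (nat_lit 846) (nat_lit 0) (nat_lit 0) (XT.nd (nat_lit 376) (nat_lit 252) (nat_lit 0) (XT.nd (nat_lit 188) (nat_lit 252) (nat_lit 0) (XT.nd (nat_lit 94) (nat_lit 84) (nat_lit 0) (XT.lf (nat_lit 84) (nat_lit 92950098233) (nat_lit 0) (nat_lit 12079916157) (nat_lit 168) (nat_lit 18689706739) (nat_lit 8) (nat_lit 1) (nat_lit 7) (nat_lit 1) (nat_lit 9) (nat_lit 1) (nat_lit 283) (nat_lit 425) (nat_lit 372)) (XT.lf (nat_lit 0) (nat_lit 34489808068) (nat_lit 0) (nat_lit 72808621880) (nat_lit 168) (nat_lit 13231580641) (nat_lit 6) (nat_lit 3) (nat_lit 6) (nat_lit 1) (nat_lit 8) (nat_lit 1) (nat_lit 284) (nat_lit 425) (nat_lit 371))) (XT.nd (nat_lit 94) (nat_lit 84) (nat_lit 0) (XT.lf (nat_lit 84) (nat_lit 96224067641) (nat_lit 0) (nat_lit 13582050656) (nat_lit 168) (nat_lit 7637179313) (nat_lit 5)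 (nat_lit 1) (nat_lit 4) (nat_lit 1) (nat_lit 6) (nat_lit 1) (nat_lit 285) (nat_lit 425) (nat_lit 370)) (XT.lf (nat_lit 0) (nat_lit 40248358298) (nat_lit 0) (nat_lit 71536174135) (nat_lit 168) (nat_lit 2635907738) (nat_lit 3) (nat_lit 3) (nat_lit 3) (nat_lit 1) (nat_lit 5) (nat_lit 1) (nat_lit 286) (nat_lit 425) (nat_lit 369)))) (XT.nd (nat_lit 188) (nat_lit 0) (nat_lit 0) (XT.nd (nat_lit 94) (nat_lit 0) (nat_lit 0) (XT.lf (nat_lit 0) (nat_lit 161738565063) (nat_lit 0) (nat_lit 0) (nat_lit 0) (nat_lit 0) (nat_lit 0) (nat_lit 0) (nat_lit 1) (nat_lit 0) (nat_lit 1) (nat_lit 0) (nat_lit 287) (nat_lit 425) (nat_lit 368)) (XT.lf (nat_lit 0) (nat_lit 161591348679) (nat_lit 0) (nat_lit 0) (nat_lit 0) (nat_lit 0) (nat_lit 0) (nat_lit 0) (nat_lit 1) (nat_lit 0) (nat_lit 1) (nat_lit 0) (nat_lit 288) (nat_lit 425) (nat_lit 367))) (XT.nd (nat_lit 94) (nat_lit 0) (nat_lit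 0) (XT.lf (nat_lit 0) (nat_lit 161455037213) (nat_lit 0) (nat_lit 0) (nat_lit 0) (nat_lit 0) (nat_lit 0) (nat_lit 0) (nat_lit 1) (nat_lit 0) (nat_lit 1) (nat_lit 0) (nat_lit 289) (nat_lit 425) (nat_lit 366)) (XT.nd (nat_lit 94) (nat_lit 0) (nat_lit 0) (XT.lf (nat_lit 0) (nat_lit 161328822892) (nat_lit 0) (nat_lit 0) (nat_lit 0) (nat_lit 0) (nat_lit 0) (nat_lit 0) (nat_lit 1) (nat_lit 0) (nat_lit 1) (nat_lit 0) (nat_lit 290) (nat_lit 425) (nat_lit 365)) (XT.lf (nat_lit 0) (nat_lit 161211957780) (nat_lit 0) (nat_lit 0) (nat_lit 0) (nat_lit 0) (nat_lit 0) (nat_lit 0) (nat_lit 1) (nat_lit 0) (nat_lit 1) (nat_lit 0) (nat_lit 291) (nat_lit 425) (nat_lit 364)))))) (XT.nd (nat_lit 470) (nat_lit 0) (nat_lit 0) (XT.nd (nat_lit 188) (nat_lit 0) (nat_lit 0) (XT.nd (nat_lit 94) (nat_lit 0) (nat_lit 0) (XT.lf (nat_lit 0) (nat_lit 161103749343) (nat_lit 0) (nat_lit 0) (nat_lit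 0) (nat_lit 0) (nat_lit 0) (nat_lit 0) (nat_lit 1) (nat_lit 0) (nat_lit 1) (nat_lit 0) (nat_lit 292) (nat_lit 425) (nat_lit 363)) (XT.lf (nat_lit 0) (nat_lit 161003556346) (nat_lit 0) (nat_lit 0) (nat_lit 0) (nat_lit 0) (nat_lit 0) (nat_lit 0) (nat_lit 1) (nat_lit 0) (nat_lit 1) (nat_lit 0) (nat_lit 293) (nat_lit 425) (nat_lit 362))) (XT.nd (nat_lit 94) (nat_lit 0) (nat_lit 0) (XT.lf (nat_lit 0) (nat_lit 160910785053) (nat_lit 0) (nat_lit 0) (nat_lit 0) (nat_lit 0) (nat_lit 0) (nat_lit 0) (nat_lit 1) (nat_lit 0) (nat_lit 1) (nat_lit 0) (nat_lit 294) (nat_lit 425) (nat_lit 361)) (XT.nd (nat_lit 94) (nat_lit 0) (nat_lit 0) (XT.lf (nat_lit 0) (nat_lit 160824885707) (nat_lit 0) (nat_lit 0) (nat_lit 0) (nat_lit 0) (nat_lit 0) (nat_lit 0) (nat_lit 1) (nat_lit 0) (nat_lit 1) (nat_lit 0) (nat_lit 295) (nat_lit 425) (nat_lit 360)) (XT.lf (nat_lit 0) (nat_lit 160745349275)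 (nat_lit 0) (nat_lit 0) (nat_lit 0) (nat_lit 0) (nat_lit 0) (nat_lit 0) (nat_lit 1) (nat_lit 0) (nat_lit 1) (nat_lit 0) (nat_lit 296) (nat_lit 425) (nat_lit 359))))) (XT.nd (nat_lit 188) (nat_lit 0) (nat_lit 0) (XT.nd (nat_lit 94) (nat_lit 0) (nat_lit 0) (XT.lf (nat_lit 0) (nat_lit 160671704431) (nat_lit 0) (nat_lit 0) (nat_lit 0) (nat_lit 0) (nat_lit 0) (nat_lit 0) (nat_lit 1) (nat_lit 0) (nat_lit 1) (nat_lit 0) (nat_lit 297) (nat_lit 425) (nat_lit 358)) (XT.lf (nat_lit 0) (nat_lit 160603514761) (nat_lit 0) (nat_lit 0) (nat_lit 0) (nat_lit 0) (nat_lit 0) (nat_lit 0) (nat_lit 1) (nat_lit 0) (nat_lit 1) (nat_lit 0) (nat_lit 298) (nat_lit 425) (nat_lit 357))) (XT.nd (nat_lit 94) (nat_lit 0) (nat_lit 0) (XT.lf (nat_lit 0) (nat_lit 160540376178) (nat_lit 0) (nat_lit 0) (nat_lit 0) (nat_lit 0) (nat_lit 0) (nat_lit 0) (nat_lit 1) (nat_lit 0) (nat_lit 1) (nat_lit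 0) (nat_lit 299) (nat_lit 425) (nat_lit 356)) (XT.nd (nat_lit 94) (nat_lit 0) (nat_lit 0) (XT.lf (nat_lit 0) (nat_lit 160481914526) (nat_lit 0) (nat_lit 0) (nat_lit 0) (nat_lit 0) (nat_lit 0) (nat_lit 0) (nat_lit 1) (nat_lit 0) (nat_lit 1) (nat_lit 0) (nat_lit 300) (nat_lit 425) (nat_lit 355)) (XT.lf (nat_lit 0) (nat_lit 160427783367) (nat_lit 0) (nat_lit 0) (nat_lit 0) (nat_lit 0) (nat_lit 0) (nat_lit 0) (nat_lit 1) (nat_lit 0) (nat_lit 1) (nat_lit 0) (nat_lit 301) (nat_lit 425) (nat_lit 354))))))))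
noncomputable def ec276 : XT := (XT.nd (nat_lit 1692) (nat_lit 0) (nat_lit 0) (XT.nd (nat_lit 846) (nat_lit 0) (nat_lit 0) (XT.nd (nat_lit 376) (nat_lit 0) (nat_lit 0) (XT.nd (nat_lit 188) (nat_lit 0) (nat_lit 0) (XT.nd (nat_lit 94) (nat_lit 0) (nat_lit 0) (XT.lf (nat_lit 0) (nat_lit 160377661924) (nat_lit 0) (nat_lit 0) (nat_lit 0) (nat_lit 0) (nat_lit 0) (nat_lit 0) (nat_lit 1) (nat_lit 0) (nat_lit 1) (nat_lit 0) (nat_lit 302) (nat_lit 425) (nat_lit 353)) (XT.lf (nat_lit 0) (nat_lit 160331253180) (nat_lit 0) (nat_lit 0) (nat_lit 0) (nat_lit 0) (nat_lit 0) (nat_lit 0) (nat_lit 1) (nat_lit 0) (nat_lit 1) (nat_lit 0) (nat_lit 303) (nat_lit 425) (nat_lit 352))) (XT.nd (nat_lit 94) (nat_lit 0) (nat_lit 0) (XT.lf (nat_lit 0) (nat_lit 160288282121) (nat_lit 0) (nat_lit 0) (nat_lit 0) (nat_lit 0) (nat_lit 0) (nat_lit 0) (nat_lit 1) (nat_lit 0) (nat_lit 1) (nat_lit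 0) (nat_lit 304) (nat_lit 425) (nat_lit 351)) (XT.lf (nat_lit 0) (nat_lit 160248494103) (nat_lit 0) (nat_lit 0) (nat_lit 0) (nat_lit 0) (nat_lit 0) (nat_lit 0) (nat_lit 1) (nat_lit 0) (nat_lit 1) (nat_lit 0) (nat_lit 305) (nat_lit 425) (nat_lit 350)))) (XT.nd (nat_lit 188) (nat_lit 0) (nat_lit 0) (XT.nd (nat_lit 94) (nat_lit 0) (nat_lit 0) (XT.lf (nat_lit 0) (nat_lit 160211653346) (nat_lit 0) (nat_lit 0) (nat_lit 0) (nat_lit 0) (nat_lit 0) (nat_lit 0) (nat_lit 1) (nat_lit 0) (nat_lit 1) (nat_lit 0) (nat_lit 306) (nat_lit 425) (nat_lit 349)) (XT.lf (nat_lit 0) (nat_lit 160177541534) (nat_lit 0) (nat_lit 0) (nat_lit 0) (nat_lit 0) (nat_lit 0) (nat_lit 0) (nat_lit 1) (nat_lit 0) (nat_lit 1) (nat_lit 0) (nat_lit 307) (nat_lit 425) (nat_lit 348))) (XT.nd (nat_lit 94) (nat_lit 0) (nat_lit 0) (XT.lf (nat_lit 0) (nat_lit 160145956523) (nat_lit 0) (nat_lit 0) (nat_lit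 0) (nat_lit 0) (nat_lit 0) (nat_lit 0) (nat_lit 1) (nat_lit 0) (nat_lit 1) (nat_lit 0) (nat_lit 308) (nat_lit 425) (nat_lit 347)) (XT.nd (nat_lit 94) (nat_lit 0) (nat_lit 0) (XT.lf (nat_lit 0) (nat_lit 160116711142) (nat_lit 0) (nat_lit 0) (nat_lit 0) (nat_lit 0) (nat_lit 0) (nat_lit 0) (nat_lit 1) (nat_lit 0) (nat_lit 1) (nat_lit 0) (nat_lit 309) (nat_lit 425) (nat_lit 346)) (XT.lf (nat_lit 0) (nat_lit 160089632086) (nat_lit 0) (nat_lit 0) (nat_lit 0) (nat_lit 0) (nat_lit 0) (nat_lit 0) (nat_lit 1) (nat_lit 0) (nat_lit 1) (nat_lit 0) (nat_lit 310) (nat_lit 425) (nat_lit 345)))))) (XT.nd (nat_lit 376) (nat_lit 0) (nat_lit 0) (XT.nd (nat_lit 188) (nat_lit 0) (nat_lit 0) (XT.nd (nat_lit 94) (nat_lit 0) (nat_lit 0) (XT.lf (nat_lit 0) (nat_lit 160064558886) (nat_lit 0) (nat_lit 0) (nat_lit 0) (nat_lit 0) (nat_lit 0) (nat_lit 0) (nat_lit 1) (nat_lit 0) (nat_lit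 1) (nat_lit 0) (nat_lit 311) (nat_lit 425) (nat_lit 344)) (XT.lf (nat_lit 0) (nat_lit 160041342960) (nat_lit 0) (nat_lit 0) (nat_lit 0) (nat_lit 0) (nat_lit 0) (nat_lit 0) (nat_lit 1) (nat_lit 0) (nat_lit 1) (nat_lit 0) (nat_lit 312) (nat_lit 425) (nat_lit 343))) (XT.nd (nat_lit 94) (nat_lit 0) (nat_lit 0) (XT.lf (nat_lit 0) (nat_lit 160019846732) (nat_lit 0) (nat_lit 0) (nat_lit 0) (nat_lit 0) (nat_lit 0) (nat_lit 0) (nat_lit 1) (nat_lit 0) (nat_lit 1) (nat_lit 0) (nat_lit 313) (nat_lit 425) (nat_lit 342)) (XT.lf (nat_lit 0) (nat_lit 159999942817) (nat_lit 0) (nat_lit 0) (nat_lit 0) (nat_lit 0) (nat_lit 0) (nat_lit 0) (nat_lit 1) (nat_lit 0) (nat_lit 1) (nat_lit 0) (nat_lit 314) (nat_lit 425) (nat_lit 341)))) (XT.nd (nat_lit 188) (nat_lit 0) (nat_lit 0) (XT.nd (nat_lit 94) (nat_lit 0) (nat_lit 0) (XT.lf (nat_lit 0) (nat_lit 159981513266) (nat_lit 0) (nat_lit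 0) (nat_lit 0) (nat_lit 0) (nat_lit 0) (nat_lit 0) (nat_lit 1) (nat_lit 0) (nat_lit 1) (nat_lit 0) (nat_lit 315) (nat_lit 425) (nat_lit 340)) (XT.lf (nat_lit 0) (nat_lit 159964448867) (nat_lit 0) (nat_lit 0) (nat_lit 0) (nat_lit 0) (nat_lit 0) (nat_lit 0) (nat_lit 1) (nat_lit 0) (nat_lit 1) (nat_lit 0) (nat_lit 316) (nat_lit 425) (nat_lit 339))) (XT.nd (nat_lit 94) (nat_lit 0) (nat_lit 0) (XT.lf (nat_lit 0) (nat_lit 159948648498) (nat_lit 0) (nat_lit 0) (nat_lit 0) (nat_lit 0) (nat_lit 0) (nat_lit 0) (nat_lit 1) (nat_lit 0) (nat_lit 1) (nat_lit 0) (nat_lit 317) (nat_lit 425) (nat_lit 338)) (XT.nd (nat_lit 94) (nat_lit 0) (nat_lit 0) (XT.lf (nat_lit 0) (nat_lit 159934018527) (nat_lit 0) (nat_lit 0) (nat_lit 0) (nat_lit 0) (nat_lit 0) (nat_lit 0) (nat_lit 1) (nat_lit 0) (nat_lit 1) (nat_lit 0) (nat_lit 318) (nat_lit 425) (nat_lit 337)) (XT.lf (nat_lit 0) (nat_lit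 159920472257) (nat_lit 0) (nat_lit 0) (nat_lit 0) (nat_lit 0) (nat_lit 0) (nat_lit 0) (nat_lit 1) (nat_lit 0) (nat_lit 1) (nat_lit 0) (nat_lit 319) (nat_lit 425) (nat_lit 336))))))) (XT.nd (nat_lit 846) (nat_lit 0) (nat_lit 0) (XT.nd (nat_lit 376) (nat_lit 0) (nat_lit 0) (XT.nd (nat_lit 188) (nat_lit 0) (nat_lit 0) (XT.nd (nat_lit 94) (nat_lit 0) (nat_lit 0) (XT.lf (nat_lit 0) (nat_lit 159907929414) (nat_lit 0) (nat_lit 0) (nat_lit 0) (nat_lit 0) (nat_lit 0) (nat_lit 0) (nat_lit 1) (nat_lit 0) (nat_lit 1) (nat_lit 0) (nat_lit 320) (nat_lit 425) (nat_lit 335)) (XT.lf (nat_lit 0) (nat_lit 159896315671) (nat_lit 0) (nat_lit 0) (nat_lit 0) (nat_lit 0) (nat_lit 0) (nat_lit 0) (nat_lit 1) (nat_lit 0) (nat_lit 1) (nat_lit 0) (nat_lit 321) (nat_lit 425) (nat_lit 334))) (XT.nd (nat_lit 94) (nat_lit 0) (nat_lit 0) (XT.lf (nat_lit 0) (nat_lit 159885562205) (nat_lit 0)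 (nat_lit 0) (nat_lit 0) (nat_lit 0) (nat_lit 0) (nat_lit 0) (nat_lit 1) (nat_lit 0) (nat_lit 1) (nat_lit 0) (nat_lit 322) (nat_lit 425) (nat_lit 333)) (XT.lf (nat_lit 0) (nat_lit 159875605293) (nat_lit 0) (nat_lit 0) (nat_lit 0) (nat_lit 0) (nat_lit 0) (nat_lit 0) (nat_lit 1) (nat_lit 0) (nat_lit 1) (nat_lit 0) (nat_lit 323) (nat_lit 425) (nat_lit 332)))) (XT.nd (nat_lit 188) (nat_lit 0) (nat_lit 0) (XT.nd (nat_lit 94) (nat_lit 0) (nat_lit 0) (XT.lf (nat_lit 0) (nat_lit 159866385929) (nat_lit 0) (nat_lit 0) (nat_lit 0) (nat_lit 0) (nat_lit 0) (nat_lit 0) (nat_lit 1) (nat_lit 0) (nat_lit 1) (nat_lit 0) (nat_lit 324) (nat_lit 425) (nat_lit 331)) (XT.lf (nat_lit 0) (nat_lit 159857849481) (nat_lit 0) (nat_lit 0) (nat_lit 0) (nat_lit 0) (nat_lit 0) (nat_lit 0) (nat_lit 1) (nat_lit 0) (nat_lit 1) (nat_lit 0) (nat_lit 325) (nat_lit 425) (nat_lit 330))) (XT.nd (nat_lit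 94) (nat_lit 0) (nat_lit 0) (XT.lf (nat_lit 0) (nat_lit 159849945363) (nat_lit 0) (nat_lit 0) (nat_lit 0) (nat_lit 0) (nat_lit 0) (nat_lit 0) (nat_lit 1) (nat_lit 0) (nat_lit 1) (nat_lit 0) (nat_lit 326) (nat_lit 425) (nat_lit 329)) (XT.nd (nat_lit 94) (nat_lit 0) (nat_lit 0) (XT.lf (nat_lit 0) (nat_lit 159842626734) (nat_lit 0) (nat_lit 0) (nat_lit 0) (nat_lit 0) (nat_lit 0) (nat_lit 0) (nat_lit 1) (nat_lit 0) (nat_lit 1) (nat_lit 0) (nat_lit 327) (nat_lit 425) (nat_lit 328)) (XT.lf (nat_lit 0) (nat_lit 159835850227) (nat_lit 0) (nat_lit 0) (nat_lit 0) (nat_lit 0) (nat_lit 0) (nat_lit 0) (nat_lit 1) (nat_lit 0) (nat_lit 1) (nat_lit 0) (nat_lit 328) (nat_lit 425) (nat_lit 327)))))) (XT.nd (nat_lit 470) (nat_lit 0) (nat_lit 0) (XT.nd (nat_lit 188) (nat_lit 0) (nat_lit 0) (XT.nd (nat_lit 94) (nat_lit 0) (nat_lit 0) (XT.lf (nat_lit 0) (nat_lit 159829575683) (nat_lit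 0) (nat_lit 0) (nat_lit 0) (nat_lit 0) (nat_lit 0) (nat_lit 0) (nat_lit 1) (nat_lit 0) (nat_lit 1) (nat_lit 0) (nat_lit 329) (nat_lit 425) (nat_lit 326)) (XT.lf (nat_lit 0) (nat_lit 159823765920) (nat_lit 0) (nat_lit 0) (nat_lit 0) (nat_lit 0) (nat_lit 0) (nat_lit 0) (nat_lit 1) (nat_lit 0) (nat_lit 1) (nat_lit 0) (nat_lit 330) (nat_lit 425) (nat_lit 325))) (XT.nd (nat_lit 94) (nat_lit 0) (nat_lit 0) (XT.lf (nat_lit 0) (nat_lit 159818386510) (nat_lit 0) (nat_lit 0) (nat_lit 0) (nat_lit 0) (nat_lit 0) (nat_lit 0) (nat_lit 1) (nat_lit 0) (nat_lit 1) (nat_lit 0) (nat_lit 331) (nat_lit 425) (nat_lit 324)) (XT.nd (nat_lit 94) (nat_lit 0) (nat_lit 0) (XT.lf (nat_lit 0) (nat_lit 159813405574) (nat_lit 0) (nat_lit 0) (nat_lit 0) (nat_lit 0) (nat_lit 0) (nat_lit 0) (nat_lit 1) (nat_lit 0) (nat_lit 1) (nat_lit 0) (nat_lit 332) (nat_lit 425) (nat_lit 323)) (XT.lf (nat_lit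 0) (nat_lit 159808793597) (nat_lit 0) (nat_lit 0) (nat_lit 0) (nat_lit 0) (nat_lit 0) (nat_lit 0) (nat_lit 1) (nat_lit 0) (nat_lit 1) (nat_lit 0) (nat_lit 333) (nat_lit 425) (nat_lit 322))))) (XT.nd (nat_lit 188) (nat_lit 0) (nat_lit 0) (XT.nd (nat_lit 94) (nat_lit 0) (nat_lit 0) (XT.lf (nat_lit 0) (nat_lit 159804523248) (nat_lit 0) (nat_lit 0) (nat_lit 0) (nat_lit 0) (nat_lit 0) (nat_lit 0) (nat_lit 1) (nat_lit 0) (nat_lit 1) (nat_lit 0) (nat_lit 334) (nat_lit 425) (nat_lit 321)) (XT.lf (nat_lit 0) (nat_lit 159800569221) (nat_lit 0) (nat_lit 0) (nat_lit 0) (nat_lit 0) (nat_lit 0) (nat_lit 0) (nat_lit 1) (nat_lit 0) (nat_lit 1) (nat_lit 0) (nat_lit 335) (nat_lit 425) (nat_lit 320))) (XT.nd (nat_lit 94) (nat_lit 0) (nat_lit 0) (XT.lf (nat_lit 0) (nat_lit 159796908085) (nat_lit 0) (nat_lit 0) (nat_lit 0) (nat_lit 0) (nat_lit 0) (nat_lit 0) (nat_lit 1) (nat_lit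 0) (nat_lit 1) (nat_lit 0) (nat_lit 336) (nat_lit 425) (nat_lit 319)) (XT.nd (nat_lit 94) (nat_lit 0) (nat_lit 0) (XT.lf (nat_lit 0) (nat_lit 159793518144) (nat_lit 0) (nat_lit 0) (nat_lit 0) (nat_lit 0) (nat_lit 0) (nat_lit 0) (nat_lit 1) (nat_lit 0) (nat_lit 1) (nat_lit 0) (nat_lit 337) (nat_lit 425) (nat_lit 318)) (XT.lf (nat_lit 0) (nat_lit 159790379310) (nat_lit 0) (nat_lit 0) (nat_lit 0) (nat_lit 0) (nat_lit 0) (nat_lit 0) (nat_lit 1) (nat_lit 0) (nat_lit 1) (nat_lit 0) (nat_lit 338) (nat_lit 425) (nat_lit 317))))))))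
noncomputable def ec277 : XT := (XT.nd (nat_lit 1786) (nat_lit 0) (nat_lit 0) (XT.nd (nat_lit 846) (nat_lit 0) (nat_lit 0) (XT.nd (nat_lit 376) (nat_lit 0) (nat_lit 0) (XT.nd (nat_lit 188) (nat_lit 0) (nat_lit 0) (XT.nd (nat_lit 94) (nat_lit 0) (nat_lit 0) (XT.lf (nat_lit 0) (nat_lit 159787472982) (nat_lit 0) (nat_lit 0) (nat_lit 0) (nat_lit 0) (nat_lit 0) (nat_lit 0) (nat_lit 1) (nat_lit 0) (nat_lit 1) (nat_lit 0) (nat_lit 339) (nat_lit 425) (nat_lit 316)) (XT.lf (nat_lit 0) (nat_lit 159784781937) (nat_lit 0) (nat_lit 0) (nat_lit 0) (nat_lit 0) (nat_lit 0) (nat_lit 0) (nat_lit 1) (nat_lit 0) (nat_lit 1) (nat_lit 0) (nat_lit 340) (nat_lit 425) (nat_lit 315))) (XT.nd (nat_lit 94) (nat_lit 0) (nat_lit 0) (XT.lf (nat_lit 0) (nat_lit 159782290230) (nat_lit 0) (nat_lit 0) (nat_lit 0) (nat_lit 0) (nat_lit 0) (nat_lit 0) (nat_lit 1) (nat_lit 0) (nat_lit 1) (nat_lit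 0) (nat_lit 341) (nat_lit 425) (nat_lit 314)) (XT.lf (nat_lit 0) (nat_lit 159779983093) (nat_lit 0) (nat_lit 0) (nat_lit 0) (nat_lit 0) (nat_lit 0) (nat_lit 0) (nat_lit 1) (nat_lit 0) (nat_lit 1) (nat_lit 0) (nat_lit 342) (nat_lit 425) (nat_lit 313)))) (XT.nd (nat_lit 188) (nat_lit 0) (nat_lit 0) (XT.nd (nat_lit 94) (nat_lit 0) (nat_lit 0) (XT.lf (nat_lit 0) (nat_lit 159777846855) (nat_lit 0) (nat_lit 0) (nat_lit 0) (nat_lit 0) (nat_lit 0) (nat_lit 0) (nat_lit 1) (nat_lit 0) (nat_lit 1) (nat_lit 0) (nat_lit 343) (nat_lit 425) (nat_lit 312)) (XT.lf (nat_lit 0) (nat_lit 159775868857) (nat_lit 0) (nat_lit 0) (nat_lit 0) (nat_lit 0) (nat_lit 0) (nat_lit 0) (nat_lit 1) (nat_lit 0) (nat_lit 1) (nat_lit 0) (nat_lit 344) (nat_lit 425) (nat_lit 311))) (XT.nd (nat_lit 94) (nat_lit 0) (nat_lit 0) (XT.lf (nat_lit 0) (nat_lit 159774037378) (nat_lit 0) (nat_lit 0) (nat_lit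 0) (nat_lit 0) (nat_lit 0) (nat_lit 0) (nat_lit 1) (nat_lit 0) (nat_lit 1) (nat_lit 0) (nat_lit 345) (nat_lit 425) (nat_lit 310)) (XT.nd (nat_lit 94) (nat_lit 0) (nat_lit 0) (XT.lf (nat_lit 0) (nat_lit 159772341563) (nat_lit 0) (nat_lit 0) (nat_lit 0) (nat_lit 0) (nat_lit 0) (nat_lit 0) (nat_lit 1) (nat_lit 0) (nat_lit 1) (nat_lit 0) (nat_lit 346) (nat_lit 425) (nat_lit 309)) (XT.lf (nat_lit 0) (nat_lit 159770771365) (nat_lit 0) (nat_lit 0) (nat_lit 0) (nat_lit 0) (nat_lit 0) (nat_lit 0) (nat_lit 1) (nat_lit 0) (nat_lit 1) (nat_lit 0) (nat_lit 347) (nat_lit 425) (nat_lit 308)))))) (XT.nd (nat_lit 470) (nat_lit 0) (nat_lit 0) (XT.nd (nat_lit 188) (nat_lit 0) (nat_lit 0) (XT.nd (nat_lit 94) (nat_lit 0) (nat_lit 0) (XT.lf (nat_lit 0) (nat_lit 159769317477) (nat_lit 0) (nat_lit 0) (nat_lit 0) (nat_lit 0) (nat_lit 0) (nat_lit 0) (nat_lit 1) (nat_lit 0) (nat_lit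 1) (nat_lit 0) (nat_lit 348) (nat_lit 425) (nat_lit 307)) (XT.lf (nat_lit 0) (nat_lit 159767971285) (nat_lit 0) (nat_lit 0) (nat_lit 0) (nat_lit 0) (nat_lit 0) (nat_lit 0) (nat_lit 1) (nat_lit 0) (nat_lit 1) (nat_lit 0) (nat_lit 349) (nat_lit 425) (nat_lit 306))) (XT.nd (nat_lit 94) (nat_lit 0) (nat_lit 0) (XT.lf (nat_lit 0) (nat_lit 159766724811) (nat_lit 0) (nat_lit 0) (nat_lit 0) (nat_lit 0) (nat_lit 0) (nat_lit 0) (nat_lit 1) (nat_lit 0) (nat_lit 1) (nat_lit 0) (nat_lit 350) (nat_lit 425) (nat_lit 305)) (XT.nd (nat_lit 94) (nat_lit 0) (nat_lit 0) (XT.lf (nat_lit 0) (nat_lit 159765570668) (nat_lit 0) (nat_lit 0) (nat_lit 0) (nat_lit 0) (nat_lit 0) (nat_lit 0) (nat_lit 1) (nat_lit 0) (nat_lit 1) (nat_lit 0) (nat_lit 351) (nat_lit 425) (nat_lit 304)) (XT.lf (nat_lit 0) (nat_lit 159764502017) (nat_lit 0) (nat_lit 0) (nat_lit 0) (nat_lit 0) (nat_lit 0) (nat_lit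 0) (nat_lit 1) (nat_lit 0) (nat_lit 1) (nat_lit 0) (nat_lit 352) (nat_lit 425) (nat_lit 303))))) (XT.nd (nat_lit 188) (nat_lit 0) (nat_lit 0) (XT.nd (nat_lit 94) (nat_lit 0) (nat_lit 0) (XT.lf (nat_lit 0) (nat_lit 159763512526) (nat_lit 0) (nat_lit 0) (nat_lit 0) (nat_lit 0) (nat_lit 0) (nat_lit 0) (nat_lit 1) (nat_lit 0) (nat_lit 1) (nat_lit 0) (nat_lit 353) (nat_lit 425) (nat_lit 302)) (XT.lf (nat_lit 0) (nat_lit 159762596330) (nat_lit 0) (nat_lit 0) (nat_lit 0) (nat_lit 0) (nat_lit 0) (nat_lit 0) (nat_lit 1) (nat_lit 0) (nat_lit 1) (nat_lit 0) (nat_lit 354) (nat_lit 425) (nat_lit 301))) (XT.nd (nat_lit 94) (nat_lit 0) (nat_lit 0) (XT.lf (nat_lit 0) (nat_lit 159761748000) (nat_lit 0) (nat_lit 0) (nat_lit 0) (nat_lit 0) (nat_lit 0) (nat_lit 0) (nat_lit 1) (nat_lit 0) (nat_lit 1) (nat_lit 0) (nat_lit 355) (nat_lit 425) (nat_lit 300)) (XT.nd (nat_lit 94) (nat_lit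 0) (nat_lit 0) (XT.lf (nat_lit 0) (nat_lit 159760962510) (nat_lit 0) (nat_lit 0) (nat_lit 0) (nat_lit 0) (nat_lit 0) (nat_lit 0) (nat_lit 1) (nat_lit 0) (nat_lit 1) (nat_lit 0) (nat_lit 356) (nat_lit 425) (nat_lit 299)) (XT.lf (nat_lit 0) (nat_lit 159760235204) (nat_lit 0) (nat_lit 0) (nat_lit 0) (nat_lit 0) (nat_lit 0) (nat_lit 0) (nat_lit 1) (nat_lit 0) (nat_lit 1) (nat_lit 0) (nat_lit 357) (nat_lit 425) (nat_lit 298))))))) (XT.nd (nat_lit 846) (nat_lit 0) (nat_lit 0) (XT.nd (nat_lit 376) (nat_lit 0) (nat_lit 0) (XT.nd (nat_lit 188) (nat_lit 0) (nat_lit 0) (XT.nd (nat_lit 94) (nat_lit 0) (nat_lit 0) (XT.lf (nat_lit 0) (nat_lit 159759561773) (nat_lit 0) (nat_lit 0) (nat_lit 0) (nat_lit 0) (nat_lit 0) (nat_lit 0) (nat_lit 1) (nat_lit 0) (nat_lit 1) (nat_lit 0) (nat_lit 358) (nat_lit 425) (nat_lit 297)) (XT.lf (nat_lit 0) (nat_lit 159758938226) (nat_lit 0)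 (nat_lit 0) (nat_lit 0) (nat_lit 0) (nat_lit 0) (nat_lit 0) (nat_lit 1) (nat_lit 0) (nat_lit 1) (nat_lit 0) (nat_lit 359) (nat_lit 425) (nat_lit 296))) (XT.nd (nat_lit 94) (nat_lit 0) (nat_lit 0) (XT.lf (nat_lit 0) (nat_lit 159758360867) (nat_lit 0) (nat_lit 0) (nat_lit 0) (nat_lit 0) (nat_lit 0) (nat_lit 0) (nat_lit 1) (nat_lit 0) (nat_lit 1) (nat_lit 0) (nat_lit 360) (nat_lit 425) (nat_lit 295)) (XT.lf (nat_lit 0) (nat_lit 159757826276) (nat_lit 0) (nat_lit 0) (nat_lit 0) (nat_lit 0) (nat_lit 0) (nat_lit 0) (nat_lit 1) (nat_lit 0) (nat_lit 1) (nat_lit 0) (nat_lit 361) (nat_lit 425) (nat_lit 294)))) (XT.nd (nat_lit 188) (nat_lit 0) (nat_lit 0) (XT.nd (nat_lit 94) (nat_lit 0) (nat_lit 0) (XT.lf (nat_lit 0) (nat_lit 159757331284) (nat_lit 0) (nat_lit 0) (nat_lit 0) (nat_lit 0) (nat_lit 0) (nat_lit 0) (nat_lit 1) (nat_lit 0) (nat_lit 1) (nat_lit 0) (nat_lit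 362) (nat_lit 425) (nat_lit 293)) (XT.lf (nat_lit 0) (nat_lit 159756872958) (nat_lit 0) (nat_lit 0) (nat_lit 0) (nat_lit 0) (nat_lit 0) (nat_lit 0) (nat_lit 1) (nat_lit 0) (nat_lit 1) (nat_lit 0) (nat_lit 363) (nat_lit 425) (nat_lit 292))) (XT.nd (nat_lit 94) (nat_lit 0) (nat_lit 0) (XT.lf (nat_lit 0) (nat_lit 159756448582) (nat_lit 0) (nat_lit 0) (nat_lit 0) (nat_lit 0) (nat_lit 0) (nat_lit 0) (nat_lit 1) (nat_lit 0) (nat_lit 1) (nat_lit 0) (nat_lit 364) (nat_lit 425) (nat_lit 291)) (XT.nd (nat_lit 94) (nat_lit 0) (nat_lit 0) (XT.lf (nat_lit 0) (nat_lit 159756055641) (nat_lit 0) (nat_lit 0) (nat_lit 0) (nat_lit 0) (nat_lit 0) (nat_lit 0) (nat_lit 1) (nat_lit 0) (nat_lit 1) (nat_lit 0) (nat_lit 365) (nat_lit 425) (nat_lit 290)) (XT.lf (nat_lit 0) (nat_lit 159755691807) (nat_lit 0) (nat_lit 0) (nat_lit 0) (nat_lit 0) (nat_lit 0) (nat_lit 0) (nat_lit 1) (nat_lit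 0) (nat_lit 1) (nat_lit 0) (nat_lit 366) (nat_lit 425) (nat_lit 289)))))) (XT.nd (nat_lit 470) (nat_lit 0) (nat_lit 0) (XT.nd (nat_lit 188) (nat_lit 0) (nat_lit 0) (XT.nd (nat_lit 94) (nat_lit 0) (nat_lit 0) (XT.lf (nat_lit 0) (nat_lit 159755354924) (nat_lit 0) (nat_lit 0) (nat_lit 0) (nat_lit 0) (nat_lit 0) (nat_lit 0) (nat_lit 1) (nat_lit 0) (nat_lit 1) (nat_lit 0) (nat_lit 367) (nat_lit 425) (nat_lit 288)) (XT.lf (nat_lit 0) (nat_lit 159755042995) (nat_lit 0) (nat_lit 0) (nat_lit 0) (nat_lit 0) (nat_lit 0) (nat_lit 0) (nat_lit 1) (nat_lit 0) (nat_lit 1) (nat_lit 0) (nat_lit 368) (nat_lit 425) (nat_lit 287))) (XT.nd (nat_lit 94) (nat_lit 0) (nat_lit 0) (XT.lf (nat_lit 0) (nat_lit 159754754172) (nat_lit 0) (nat_lit 0) (nat_lit 0) (nat_lit 0) (nat_lit 0) (nat_lit 0) (nat_lit 1) (nat_lit 0) (nat_lit 1) (nat_lit 0) (nat_lit 369) (nat_lit 425) (nat_lit 286))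 (XT.nd (nat_lit 94) (nat_lit 0) (nat_lit 0) (XT.lf (nat_lit 0) (nat_lit 159754486743) (nat_lit 0) (nat_lit 0) (nat_lit 0) (nat_lit 0) (nat_lit 0) (nat_lit 0) (nat_lit 1) (nat_lit 0) (nat_lit 1) (nat_lit 0) (nat_lit 370) (nat_lit 425) (nat_lit 285)) (XT.lf (nat_lit 0) (nat_lit 159754239124) (nat_lit 0) (nat_lit 0) (nat_lit 0) (nat_lit 0) (nat_lit 0) (nat_lit 0) (nat_lit 1) (nat_lit 0) (nat_lit 1) (nat_lit 0) (nat_lit 371) (nat_lit 425) (nat_lit 284))))) (XT.nd (nat_lit 188) (nat_lit 0) (nat_lit 0) (XT.nd (nat_lit 94) (nat_lit 0) (nat_lit 0) (XT.lf (nat_lit 0) (nat_lit 159754009846) (nat_lit 0) (nat_lit 0) (nat_lit 0) (nat_lit 0) (nat_lit 0) (nat_lit 0) (nat_lit 1) (nat_lit 0) (nat_lit 1) (nat_lit 0) (nat_lit 372) (nat_lit 425) (nat_lit 283)) (XT.lf (nat_lit 0) (nat_lit 159753797553) (nat_lit 0) (nat_lit 0) (nat_lit 0) (nat_lit 0) (nat_lit 0) (nat_lit 0) (nat_lit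 1) (nat_lit 0) (nat_lit 1) (nat_lit 0) (nat_lit 373) (nat_lit 425) (nat_lit 282))) (XT.nd (nat_lit 94) (nat_lit 0) (nat_lit 0) (XT.lf (nat_lit 0) (nat_lit 159753600985) (nat_lit 0) (nat_lit 0) (nat_lit 0) (nat_lit 0) (nat_lit 0) (nat_lit 0) (nat_lit 1) (nat_lit 0) (nat_lit 1) (nat_lit 0) (nat_lit 374) (nat_lit 425) (nat_lit 281)) (XT.nd (nat_lit 94) (nat_lit 0) (nat_lit 0) (XT.lf (nat_lit 0) (nat_lit 159753418977) (nat_lit 0) (nat_lit 0) (nat_lit 0) (nat_lit 0) (nat_lit 0) (nat_lit 0) (nat_lit 1) (nat_lit 0) (nat_lit 1) (nat_lit 0) (nat_lit 375) (nat_lit 425) (nat_lit 280)) (XT.lf (nat_lit 0) (nat_lit 159753250452) (nat_lit 0) (nat_lit 0) (nat_lit 0) (nat_lit 0) (nat_lit 0) (nat_lit 0) (nat_lit 1) (nat_lit 0) (nat_lit 1) (nat_lit 0) (nat_lit 376) (nat_lit 425) (nat_lit 279))))))))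
noncomputable def ec278 : XT := (XT.nd (nat_lit 1692) (nat_lit 0) (nat_lit 0) (XT.nd (nat_lit 846) (nat_lit 0) (nat_lit 0) (XT.nd (nat_lit 376) (nat_lit 0) (nat_lit 0) (XT.nd (nat_lit 188) (nat_lit 0) (nat_lit 0) (XT.nd (nat_lit 94) (nat_lit 0) (nat_lit 0) (XT.lf (nat_lit 0) (nat_lit 159753094410) (nat_lit 0) (nat_lit 0) (nat_lit 0) (nat_lit 0) (nat_lit 0) (nat_lit 0) (nat_lit 1) (nat_lit 0) (nat_lit 1) (nat_lit 0) (nat_lit 377) (nat_lit 425) (nat_lit 278)) (XT.lf (nat_lit 0) (nat_lit 159752949926) (nat_lit 0) (nat_lit 0) (nat_lit 0) (nat_lit 0) (nat_lit 0) (nat_lit 0) (nat_lit 1) (nat_lit 0) (nat_lit 1) (nat_lit 0) (nat_lit 378) (nat_lit 425) (nat_lit 277))) (XT.nd (nat_lit 94) (nat_lit 0) (nat_lit 0) (XT.lf (nat_lit 0) (nat_lit 159752816145) (nat_lit 0) (nat_lit 0) (nat_lit 0) (nat_lit 0) (nat_lit 0) (nat_lit 0) (nat_lit 1) (nat_lit 0) (nat_lit 1) (nat_lit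 0) (nat_lit 379) (nat_lit 425) (nat_lit 276)) (XT.lf (nat_lit 0) (nat_lit 159752692274) (nat_lit 0) (nat_lit 0) (nat_lit 0) (nat_lit 0) (nat_lit 0) (nat_lit 0) (nat_lit 1) (nat_lit 0) (nat_lit 1) (nat_lit 0) (nat_lit 380) (nat_lit 425) (nat_lit 275)))) (XT.nd (nat_lit 188) (nat_lit 0) (nat_lit 0) (XT.nd (nat_lit 94) (nat_lit 0) (nat_lit 0) (XT.lf (nat_lit 0) (nat_lit 159752577578) (nat_lit 0) (nat_lit 0) (nat_lit 0) (nat_lit 0) (nat_lit 0) (nat_lit 0) (nat_lit 1) (nat_lit 0) (nat_lit 1) (nat_lit 0) (nat_lit 381) (nat_lit 425) (nat_lit 274)) (XT.lf (nat_lit 0) (nat_lit 159752471378) (nat_lit 0) (nat_lit 0) (nat_lit 0) (nat_lit 0) (nat_lit 0) (nat_lit 0) (nat_lit 1) (nat_lit 0) (nat_lit 1) (nat_lit 0) (nat_lit 382) (nat_lit 425) (nat_lit 273))) (XT.nd (nat_lit 94) (nat_lit 0) (nat_lit 0) (XT.lf (nat_lit 0) (nat_lit 159752373045) (nat_lit 0) (nat_lit 0) (nat_lit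 0) (nat_lit 0) (nat_lit 0) (nat_lit 0) (nat_lit 1) (nat_lit 0) (nat_lit 1) (nat_lit 0) (nat_lit 383) (nat_lit 425) (nat_lit 272)) (XT.nd (nat_lit 94) (nat_lit 0) (nat_lit 0) (XT.lf (nat_lit 0) (nat_lit 159752281996) (nat_lit 0) (nat_lit 0) (nat_lit 0) (nat_lit 0) (nat_lit 0) (nat_lit 0) (nat_lit 1) (nat_lit 0) (nat_lit 1) (nat_lit 0) (nat_lit 384) (nat_lit 425) (nat_lit 271)) (XT.lf (nat_lit 0) (nat_lit 159752197692) (nat_lit 0) (nat_lit 0) (nat_lit 0) (nat_lit 0) (nat_lit 0) (nat_lit 0) (nat_lit 1) (nat_lit 0) (nat_lit 1) (nat_lit 0) (nat_lit 385) (nat_lit 425) (nat_lit 270)))))) (XT.nd (nat_lit 376) (nat_lit 0) (nat_lit 0) (XT.nd (nat_lit 188) (nat_lit 0) (nat_lit 0) (XT.nd (nat_lit 94) (nat_lit 0) (nat_lit 0) (XT.lf (nat_lit 0) (nat_lit 159752119632) (nat_lit 0) (nat_lit 0) (nat_lit 0) (nat_lit 0) (nat_lit 0) (nat_lit 0) (nat_lit 1) (nat_lit 0) (nat_lit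 1) (nat_lit 0) (nat_lit 386) (nat_lit 425) (nat_lit 269)) (XT.lf (nat_lit 0) (nat_lit 159752047354) (nat_lit 0) (nat_lit 0) (nat_lit 0) (nat_lit 0) (nat_lit 0) (nat_lit 0) (nat_lit 1) (nat_lit 0) (nat_lit 1) (nat_lit 0) (nat_lit 387) (nat_lit 425) (nat_lit 268))) (XT.nd (nat_lit 94) (nat_lit 0) (nat_lit 0) (XT.lf (nat_lit 0) (nat_lit 159751980430) (nat_lit 0) (nat_lit 0) (nat_lit 0) (nat_lit 0) (nat_lit 0) (nat_lit 0) (nat_lit 1) (nat_lit 0) (nat_lit 1) (nat_lit 0) (nat_lit 388) (nat_lit 425) (nat_lit 267)) (XT.lf (nat_lit 0) (nat_lit 159751918464) (nat_lit 0) (nat_lit 0) (nat_lit 0) (nat_lit 0) (nat_lit 0) (nat_lit 0) (nat_lit 1) (nat_lit 0) (nat_lit 1) (nat_lit 0) (nat_lit 389) (nat_lit 425) (nat_lit 266)))) (XT.nd (nat_lit 188) (nat_lit 0) (nat_lit 0) (XT.nd (nat_lit 94) (nat_lit 0) (nat_lit 0) (XT.lf (nat_lit 0) (nat_lit 159751861087) (nat_lit 0) (nat_lit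 0) (nat_lit 0) (nat_lit 0) (nat_lit 0) (nat_lit 0) (nat_lit 1) (nat_lit 0) (nat_lit 1) (nat_lit 0) (nat_lit 390) (nat_lit 425) (nat_lit 265)) (XT.lf (nat_lit 0) (nat_lit 159751807961) (nat_lit 0) (nat_lit 0) (nat_lit 0) (nat_lit 0) (nat_lit 0) (nat_lit 0) (nat_lit 1) (nat_lit 0) (nat_lit 1) (nat_lit 0) (nat_lit 391) (nat_lit 425) (nat_lit 264))) (XT.nd (nat_lit 94) (nat_lit 0) (nat_lit 0) (XT.lf (nat_lit 0) (nat_lit 159751758770) (nat_lit 0) (nat_lit 0) (nat_lit 0) (nat_lit 0) (nat_lit 0) (nat_lit 0) (nat_lit 1) (nat_lit 0) (nat_lit 1) (nat_lit 0) (nat_lit 392) (nat_lit 425) (nat_lit 263)) (XT.nd (nat_lit 94) (nat_lit 0) (nat_lit 0) (XT.lf (nat_lit 0) (nat_lit 159751713223) (nat_lit 0) (nat_lit 0) (nat_lit 0) (nat_lit 0) (nat_lit 0) (nat_lit 0) (nat_lit 1) (nat_lit 0) (nat_lit 1) (nat_lit 0) (nat_lit 393) (nat_lit 425) (nat_lit 262)) (XT.lf (nat_lit 0) (nat_lit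 159751671050) (nat_lit 0) (nat_lit 0) (nat_lit 0) (nat_lit 0) (nat_lit 0) (nat_lit 0) (nat_lit 1) (nat_lit 0) (nat_lit 1) (nat_lit 0) (nat_lit 394) (nat_lit 425) (nat_lit 261))))))) (XT.nd (nat_lit 846) (nat_lit 0) (nat_lit 0) (XT.nd (nat_lit 376) (nat_lit 0) (nat_lit 0) (XT.nd (nat_lit 188) (nat_lit 0) (nat_lit 0) (XT.nd (nat_lit 94) (nat_lit 0) (nat_lit 0) (XT.lf (nat_lit 0) (nat_lit 159751632000) (nat_lit 0) (nat_lit 0) (nat_lit 0) (nat_lit 0) (nat_lit 0) (nat_lit 0) (nat_lit 1) (nat_lit 0) (nat_lit 1) (nat_lit 0) (nat_lit 395) (nat_lit 425) (nat_lit 260)) (XT.lf (nat_lit 0) (nat_lit 159751595843) (nat_lit 0) (nat_lit 0) (nat_lit 0) (nat_lit 0) (nat_lit 0) (nat_lit 0) (nat_lit 1) (nat_lit 0) (nat_lit 1) (nat_lit 0) (nat_lit 396) (nat_lit 425) (nat_lit 259))) (XT.nd (nat_lit 94) (nat_lit 0) (nat_lit 0) (XT.lf (nat_lit 0) (nat_lit 159751562365) (nat_lit 0)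 (nat_lit 0) (nat_lit 0) (nat_lit 0) (nat_lit 0) (nat_lit 0) (nat_lit 1) (nat_lit 0) (nat_lit 1) (nat_lit 0) (nat_lit 397) (nat_lit 425) (nat_lit 258)) (XT.lf (nat_lit 0) (nat_lit 159751531366) (nat_lit 0) (nat_lit 0) (nat_lit 0) (nat_lit 0) (nat_lit 0) (nat_lit 0) (nat_lit 1) (nat_lit 0) (nat_lit 1) (nat_lit 0) (nat_lit 398) (nat_lit 425) (nat_lit 257)))) (XT.nd (nat_lit 188) (nat_lit 0) (nat_lit 0) (XT.nd (nat_lit 94) (nat_lit 0) (nat_lit 0) (XT.lf (nat_lit 0) (nat_lit 159751502664) (nat_lit 0) (nat_lit 0) (nat_lit 0) (nat_lit 0) (nat_lit 0) (nat_lit 0) (nat_lit 1) (nat_lit 0) (nat_lit 1) (nat_lit 0) (nat_lit 399) (nat_lit 425) (nat_lit 256)) (XT.lf (nat_lit 0) (nat_lit 159751476087) (nat_lit 0) (nat_lit 0) (nat_lit 0) (nat_lit 0) (nat_lit 0) (nat_lit 0) (nat_lit 1) (nat_lit 0) (nat_lit 1) (nat_lit 0) (nat_lit 400) (nat_lit 425) (nat_lit 255))) (XT.nd (nat_lit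 94) (nat_lit 0) (nat_lit 0) (XT.lf (nat_lit 0) (nat_lit 159751451479) (nat_lit 0) (nat_lit 0) (nat_lit 0) (nat_lit 0) (nat_lit 0) (nat_lit 0) (nat_lit 1) (nat_lit 0) (nat_lit 1) (nat_lit 0) (nat_lit 401) (nat_lit 425) (nat_lit 254)) (XT.nd (nat_lit 94) (nat_lit 0) (nat_lit 0) (XT.lf (nat_lit 0) (nat_lit 159751428695) (nat_lit 0) (nat_lit 0) (nat_lit 0) (nat_lit 0) (nat_lit 0) (nat_lit 0) (nat_lit 1) (nat_lit 0) (nat_lit 1) (nat_lit 0) (nat_lit 402) (nat_lit 425) (nat_lit 253)) (XT.lf (nat_lit 0) (nat_lit 159751407597) (nat_lit 0) (nat_lit 0) (nat_lit 0) (nat_lit 0) (nat_lit 0) (nat_lit 0) (nat_lit 1) (nat_lit 0) (nat_lit 1) (nat_lit 0) (nat_lit 403) (nat_lit 425) (nat_lit 252)))))) (XT.nd (nat_lit 470) (nat_lit 0) (nat_lit 0) (XT.nd (nat_lit 188) (nat_lit 0) (nat_lit 0) (XT.nd (nat_lit 94) (nat_lit 0) (nat_lit 0) (XT.lf (nat_lit 0) (nat_lit 159751388063) (nat_lit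 0) (nat_lit 0) (nat_lit 0) (nat_lit 0) (nat_lit 0) (nat_lit 0) (nat_lit 1) (nat_lit 0) (nat_lit 1) (nat_lit 0) (nat_lit 404) (nat_lit 425) (nat_lit 251)) (XT.lf (nat_lit 0) (nat_lit 159751369976) (nat_lit 0) (nat_lit 0) (nat_lit 0) (nat_lit 0) (nat_lit 0) (nat_lit 0) (nat_lit 1) (nat_lit 0) (nat_lit 1) (nat_lit 0) (nat_lit 405) (nat_lit 425) (nat_lit 250))) (XT.nd (nat_lit 94) (nat_lit 0) (nat_lit 0) (XT.lf (nat_lit 0) (nat_lit 159751353228) (nat_lit 0) (nat_lit 0) (nat_lit 0) (nat_lit 0) (nat_lit 0) (nat_lit 0) (nat_lit 1) (nat_lit 0) (nat_lit 1) (nat_lit 0) (nat_lit 406) (nat_lit 425) (nat_lit 249)) (XT.nd (nat_lit 94) (nat_lit 0) (nat_lit 0) (XT.lf (nat_lit 0) (nat_lit 159751337721) (nat_lit 0) (nat_lit 0) (nat_lit 0) (nat_lit 0) (nat_lit 0) (nat_lit 0) (nat_lit 1) (nat_lit 0) (nat_lit 1) (nat_lit 0) (nat_lit 407) (nat_lit 425) (nat_lit 248)) (XT.lf (nat_lit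 0) (nat_lit 159751323362) (nat_lit 0) (nat_lit 0) (nat_lit 0) (nat_lit 0) (nat_lit 0) (nat_lit 0) (nat_lit 1) (nat_lit 0) (nat_lit 1) (nat_lit 0) (nat_lit 408) (nat_lit 425) (nat_lit 247))))) (XT.nd (nat_lit 188) (nat_lit 0) (nat_lit 0) (XT.nd (nat_lit 94) (nat_lit 0) (nat_lit 0) (XT.lf (nat_lit 0) (nat_lit 159751310068) (nat_lit 0) (nat_lit 0) (nat_lit 0) (nat_lit 0) (nat_lit 0) (nat_lit 0) (nat_lit 1) (nat_lit 0) (nat_lit 1) (nat_lit 0) (nat_lit 409) (nat_lit 425) (nat_lit 246)) (XT.lf (nat_lit 0) (nat_lit 159751297758) (nat_lit 0) (nat_lit 0) (nat_lit 0) (nat_lit 0) (nat_lit 0) (nat_lit 0) (nat_lit 1) (nat_lit 0) (nat_lit 1) (nat_lit 0) (nat_lit 410) (nat_lit 425) (nat_lit 245))) (XT.nd (nat_lit 94) (nat_lit 0) (nat_lit 0) (XT.lf (nat_lit 0) (nat_lit 159751286360) (nat_lit 0) (nat_lit 0) (nat_lit 0) (nat_lit 0) (nat_lit 0) (nat_lit 0) (nat_lit 1) (nat_lit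 0) (nat_lit 1) (nat_lit 0) (nat_lit 411) (nat_lit 425) (nat_lit 244)) (XT.nd (nat_lit 94) (nat_lit 0) (nat_lit 0) (XT.lf (nat_lit 0) (nat_lit 159751275806) (nat_lit 0) (nat_lit 0) (nat_lit 0) (nat_lit 0) (nat_lit 0) (nat_lit 0) (nat_lit 1) (nat_lit 0) (nat_lit 1) (nat_lit 0) (nat_lit 412) (nat_lit 425) (nat_lit 243)) (XT.lf (nat_lit 0) (nat_lit 159751266034) (nat_lit 0) (nat_lit 0) (nat_lit 0) (nat_lit 0) (nat_lit 0) (nat_lit 0) (nat_lit 1) (nat_lit 0) (nat_lit 1) (nat_lit 0) (nat_lit 413) (nat_lit 425) (nat_lit 242))))))))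
noncomputable def ec279 : XT := (XT.nd (nat_lit 1786) (nat_lit 0) (nat_lit 0) (XT.nd (nat_lit 846) (nat_lit 0) (nat_lit 0) (XT.nd (nat_lit 376) (nat_lit 0) (nat_lit 0) (XT.nd (nat_lit 188) (nat_lit 0) (nat_lit 0) (XT.nd (nat_lit 94) (nat_lit 0) (nat_lit 0) (XT.lf (nat_lit 0) (nat_lit 159751256985) (nat_lit 0) (nat_lit 0) (nat_lit 0) (nat_lit 0) (nat_lit 0) (nat_lit 0) (nat_lit 1) (nat_lit 0) (nat_lit 1) (nat_lit 0) (nat_lit 414) (nat_lit 425) (nat_lit 241)) (XT.lf (nat_lit 0) (nat_lit 159751248607) (nat_lit 0) (nat_lit 0) (nat_lit 0) (nat_lit 0) (nat_lit 0) (nat_lit 0) (nat_lit 1) (nat_lit 0) (nat_lit 1) (nat_lit 0) (nat_lit 415) (nat_lit 425) (nat_lit 240))) (XT.nd (nat_lit 94) (nat_lit 0) (nat_lit 0) (XT.lf (nat_lit 0) (nat_lit 159751240850) (nat_lit 0) (nat_lit 0) (nat_lit 0) (nat_lit 0) (nat_lit 0) (nat_lit 0) (nat_lit 1) (nat_lit 0) (nat_lit 1) (nat_lit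 0) (nat_lit 416) (nat_lit 425) (nat_lit 239)) (XT.lf (nat_lit 0) (nat_lit 159751233667) (nat_lit 0) (nat_lit 0) (nat_lit 0) (nat_lit 0) (nat_lit 0) (nat_lit 0) (nat_lit 1) (nat_lit 0) (nat_lit 1) (nat_lit 0) (nat_lit 417) (nat_lit 425) (nat_lit 238)))) (XT.nd (nat_lit 188) (nat_lit 0) (nat_lit 0) (XT.nd (nat_lit 94) (nat_lit 0) (nat_lit 0) (XT.lf (nat_lit 0) (nat_lit 159751227017) (nat_lit 0) (nat_lit 0) (nat_lit 0) (nat_lit 0) (nat_lit 0) (nat_lit 0) (nat_lit 1) (nat_lit 0) (nat_lit 1) (nat_lit 0) (nat_lit 418) (nat_lit 425) (nat_lit 237)) (XT.lf (nat_lit 0) (nat_lit 159751220859) (nat_lit 0) (nat_lit 0) (nat_lit 0) (nat_lit 0) (nat_lit 0) (nat_lit 0) (nat_lit 1) (nat_lit 0) (nat_lit 1) (nat_lit 0) (nat_lit 419) (nat_lit 425) (nat_lit 236))) (XT.nd (nat_lit 94) (nat_lit 0) (nat_lit 0) (XT.lf (nat_lit 0) (nat_lit 159751215157) (nat_lit 0) (nat_lit 0) (nat_lit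 0) (nat_lit 0) (nat_lit 0) (nat_lit 0) (nat_lit 1) (nat_lit 0) (nat_lit 1) (nat_lit 0) (nat_lit 420) (nat_lit 425) (nat_lit 235)) (XT.nd (nat_lit 94) (nat_lit 0) (nat_lit 0) (XT.lf (nat_lit 0) (nat_lit 159751209877) (nat_lit 0) (nat_lit 0) (nat_lit 0) (nat_lit 0) (nat_lit 0) (nat_lit 0) (nat_lit 1) (nat_lit 0) (nat_lit 1) (nat_lit 0) (nat_lit 421) (nat_lit 425) (nat_lit 234)) (XT.lf (nat_lit 0) (nat_lit 159751204989) (nat_lit 0) (nat_lit 0) (nat_lit 0) (nat_lit 0) (nat_lit 0) (nat_lit 0) (nat_lit 1) (nat_lit 0) (nat_lit 1) (nat_lit 0) (nat_lit 422) (nat_lit 425) (nat_lit 233)))))) (XT.nd (nat_lit 470) (nat_lit 0) (nat_lit 0) (XT.nd (nat_lit 188) (nat_lit 0) (nat_lit 0) (XT.nd (nat_lit 94) (nat_lit 0) (nat_lit 0) (XT.lf (nat_lit 0) (nat_lit 159751200462) (nat_lit 0) (nat_lit 0) (nat_lit 0) (nat_lit 0) (nat_lit 0) (nat_lit 0) (nat_lit 1) (nat_lit 0) (nat_lit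 1) (nat_lit 0) (nat_lit 423) (nat_lit 425) (nat_lit 232)) (XT.lf (nat_lit 0) (nat_lit 159751196271) (nat_lit 0) (nat_lit 0) (nat_lit 0) (nat_lit 0) (nat_lit 0) (nat_lit 0) (nat_lit 1) (nat_lit 0) (nat_lit 1) (nat_lit 0) (nat_lit 424) (nat_lit 425) (nat_lit 231))) (XT.nd (nat_lit 94) (nat_lit 0) (nat_lit 0) (XT.lf (nat_lit 0) (nat_lit 159751192391) (nat_lit 0) (nat_lit 0) (nat_lit 0) (nat_lit 0) (nat_lit 0) (nat_lit 0) (nat_lit 1) (nat_lit 0) (nat_lit 1) (nat_lit 0) (nat_lit 425) (nat_lit 425) (nat_lit 230)) (XT.nd (nat_lit 94) (nat_lit 0) (nat_lit 0) (XT.lf (nat_lit 0) (nat_lit 159751188797) (nat_lit 0) (nat_lit 0) (nat_lit 0) (nat_lit 0) (nat_lit 0) (nat_lit 0) (nat_lit 1) (nat_lit 0) (nat_lit 1) (nat_lit 0) (nat_lit 426) (nat_lit 425) (nat_lit 229)) (XT.lf (nat_lit 0) (nat_lit 159751185470) (nat_lit 0) (nat_lit 0) (nat_lit 0) (nat_lit 0) (nat_lit 0) (nat_lit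 0) (nat_lit 1) (nat_lit 0) (nat_lit 1) (nat_lit 0) (nat_lit 427) (nat_lit 425) (nat_lit 228))))) (XT.nd (nat_lit 188) (nat_lit 0) (nat_lit 0) (XT.nd (nat_lit 94) (nat_lit 0) (nat_lit 0) (XT.lf (nat_lit 0) (nat_lit 159751182390) (nat_lit 0) (nat_lit 0) (nat_lit 0) (nat_lit 0) (nat_lit 0) (nat_lit 0) (nat_lit 1) (nat_lit 0) (nat_lit 1) (nat_lit 0) (nat_lit 428) (nat_lit 425) (nat_lit 227)) (XT.lf (nat_lit 0) (nat_lit 159751179537) (nat_lit 0) (nat_lit 0) (nat_lit 0) (nat_lit 0) (nat_lit 0) (nat_lit 0) (nat_lit 1) (nat_lit 0) (nat_lit 1) (nat_lit 0) (nat_lit 429) (nat_lit 425) (nat_lit 226))) (XT.nd (nat_lit 94) (nat_lit 0) (nat_lit 0) (XT.lf (nat_lit 0) (nat_lit 159751176896) (nat_lit 0) (nat_lit 0) (nat_lit 0) (nat_lit 0) (nat_lit 0) (nat_lit 0) (nat_lit 1) (nat_lit 0) (nat_lit 1) (nat_lit 0) (nat_lit 430) (nat_lit 425) (nat_lit 225)) (XT.nd (nat_lit 94) (nat_lit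 0) (nat_lit 0) (XT.lf (nat_lit 0) (nat_lit 159751174451) (nat_lit 0) (nat_lit 0) (nat_lit 0) (nat_lit 0) (nat_lit 0) (nat_lit 0) (nat_lit 1) (nat_lit 0) (nat_lit 1) (nat_lit 0) (nat_lit 431) (nat_lit 425) (nat_lit 224)) (XT.lf (nat_lit 0) (nat_lit 159751172187) (nat_lit 0) (nat_lit 0) (nat_lit 0) (nat_lit 0) (nat_lit 0) (nat_lit 0) (nat_lit 1) (nat_lit 0) (nat_lit 1) (nat_lit 0) (nat_lit 432) (nat_lit 425) (nat_lit 223))))))) (XT.nd (nat_lit 846) (nat_lit 0) (nat_lit 0) (XT.nd (nat_lit 376) (nat_lit 0) (nat_lit 0) (XT.nd (nat_lit 188) (nat_lit 0) (nat_lit 0) (XT.nd (nat_lit 94) (nat_lit 0) (nat_lit 0) (XT.lf (nat_lit 0) (nat_lit 159751170090) (nat_lit 0) (nat_lit 0) (nat_lit 0) (nat_lit 0) (nat_lit 0) (nat_lit 0) (nat_lit 1) (nat_lit 0) (nat_lit 1) (nat_lit 0) (nat_lit 433) (nat_lit 425) (nat_lit 222)) (XT.lf (nat_lit 0) (nat_lit 159751168149) (nat_lit 0)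 (nat_lit 0) (nat_lit 0) (nat_lit 0) (nat_lit 0) (nat_lit 0) (nat_lit 1) (nat_lit 0) (nat_lit 1) (nat_lit 0) (nat_lit 434) (nat_lit 425) (nat_lit 221))) (XT.nd (nat_lit 94) (nat_lit 0) (nat_lit 0) (XT.lf (nat_lit 0) (nat_lit 159751166351) (nat_lit 0) (nat_lit 0) (nat_lit 0) (nat_lit 0) (nat_lit 0) (nat_lit 0) (nat_lit 1) (nat_lit 0) (nat_lit 1) (nat_lit 0) (nat_lit 435) (nat_lit 425) (nat_lit 220)) (XT.lf (nat_lit 0) (nat_lit 159751164687) (nat_lit 0) (nat_lit 0) (nat_lit 0) (nat_lit 0) (nat_lit 0) (nat_lit 0) (nat_lit 1) (nat_lit 0) (nat_lit 1) (nat_lit 0) (nat_lit 436) (nat_lit 425) (nat_lit 219)))) (XT.nd (nat_lit 188) (nat_lit 0) (nat_lit 0) (XT.nd (nat_lit 94) (nat_lit 0) (nat_lit 0) (XT.lf (nat_lit 0) (nat_lit 159751163146) (nat_lit 0) (nat_lit 0) (nat_lit 0) (nat_lit 0) (nat_lit 0) (nat_lit 0) (nat_lit 1) (nat_lit 0) (nat_lit 1) (nat_lit 0) (nat_lit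 437) (nat_lit 425) (nat_lit 218)) (XT.lf (nat_lit 0) (nat_lit 159751161719) (nat_lit 0) (nat_lit 0) (nat_lit 0) (nat_lit 0) (nat_lit 0) (nat_lit 0) (nat_lit 1) (nat_lit 0) (nat_lit 1) (nat_lit 0) (nat_lit 438) (nat_lit 425) (nat_lit 217))) (XT.nd (nat_lit 94) (nat_lit 0) (nat_lit 0) (XT.lf (nat_lit 0) (nat_lit 159751160398) (nat_lit 0) (nat_lit 0) (nat_lit 0) (nat_lit 0) (nat_lit 0) (nat_lit 0) (nat_lit 1) (nat_lit 0) (nat_lit 1) (nat_lit 0) (nat_lit 439) (nat_lit 425) (nat_lit 216)) (XT.nd (nat_lit 94) (nat_lit 0) (nat_lit 0) (XT.lf (nat_lit 0) (nat_lit 159751159174) (nat_lit 0) (nat_lit 0) (nat_lit 0) (nat_lit 0) (nat_lit 0) (nat_lit 0) (nat_lit 1) (nat_lit 0) (nat_lit 1) (nat_lit 0) (nat_lit 440) (nat_lit 425) (nat_lit 215)) (XT.lf (nat_lit 0) (nat_lit 159751158042) (nat_lit 0) (nat_lit 0) (nat_lit 0) (nat_lit 0) (nat_lit 0) (nat_lit 0) (nat_lit 1) (nat_lit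 0) (nat_lit 1) (nat_lit 0) (nat_lit 441) (nat_lit 425) (nat_lit 214)))))) (XT.nd (nat_lit 47940) (nat_lit 0) (nat_lit 10332) (XT.nd (nat_lit 47658) (nat_lit 0) (nat_lit 10752) (XT.nd (nat_lit 94) (nat_lit 0) (nat_lit 0) (XT.lf (nat_lit 0) (nat_lit 159751156993) (nat_lit 0) (nat_lit 0) (nat_lit 0) (nat_lit 0) (nat_lit 0) (nat_lit 0) (nat_lit 1) (nat_lit 0) (nat_lit 1) (nat_lit 0) (nat_lit 442) (nat_lit 425) (nat_lit 213)) (XT.lf (nat_lit 0) (nat_lit 159751156022) (nat_lit 0) (nat_lit 0) (nat_lit 0) (nat_lit 0) (nat_lit 0) (nat_lit 0) (nat_lit 1) (nat_lit 0) (nat_lit 1) (nat_lit 0) (nat_lit 443) (nat_lit 425) (nat_lit 212))) (XT.nd (nat_lit 94) (nat_lit 0) (nat_lit 84) (XT.lf (nat_lit 924) (nat_lit 86341092797) (nat_lit 0) (nat_lit 153298411798) (nat_lit 924) (nat_lit 86341092797) (nat_lit 139) (nat_lit 1) (nat_lit 128) (nat_lit 0) (nat_lit 139) (nat_lit 0)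 (nat_lit 228) (nat_lit 426) (nat_lit 426)) (XT.nd (nat_lit 94) (nat_lit 0) (nat_lit 0) (XT.lf (nat_lit 924) (nat_lit 32207876915) (nat_lit 0) (nat_lit 300971243471) (nat_lit 840) (nat_lit 294348870592) (nat_lit 140) (nat_lit 1) (nat_lit 129) (nat_lit 1) (nat_lit 139) (nat_lit 1) (nat_lit 229) (nat_lit 426) (nat_lit 425)) (XT.lf (nat_lit 924) (nat_lit 295810758811) (nat_lit 84) (nat_lit 201560543203) (nat_lit 0) (nat_lit 106898517709) (nat_lit 140) (nat_lit 1) (nat_lit 130) (nat_lit 1) (nat_lit 129) (nat_lit 1) (nat_lit 230) (nat_lit 426) (nat_lit 424))))) (XT.nd (nat_lit 188) (nat_lit 588) (nat_lit 0) (XT.nd (nat_lit 94) (nat_lit 0) (nat_lit 84) (XT.lf (nat_lit 924) (nat_lit 255604728779) (nat_lit 84) (nat_lit 84472626570) (nat_lit 0) (nat_lit 242098191000) (nat_lit 141) (nat_lit 1) (nat_lit 131) (nat_lit 1) (nat_lit 130) (nat_lit 1) (nat_lit 231) (nat_lit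 426) (nat_lit 423)) (XT.lf (nat_lit 924) (nat_lit 189169230056) (nat_lit 0) (nat_lit 353926687792) (nat_lit 840) (nat_lit 18092681714) (nat_lit 142) (nat_lit 1) (nat_lit 131) (nat_lit 1) (nat_lit 141) (nat_lit 1) (nat_lit 232) (nat_lit 426) (nat_lit 422))) (XT.nd (nat_lit 94) (nat_lit 756) (nat_lit 0) (XT.lf (nat_lit 924) (nat_lit 45389301998) (nat_lit 0) (nat_lit 390302497937) (nat_lit 840) (nat_lit 105512126454) (nat_lit 143) (nat_lit 1) (nat_lit 132) (nat_lit 1) (nat_lit 142) (nat_lit 1) (nat_lit 233) (nat_lit 426) (nat_lit 421)) (XT.nd (nat_lit 94) (nat_lit 756) (nat_lit 0) (XT.lf (nat_lit 924) (nat_lit 87219777049) (nat_lit 84) (nat_lit 339204654404) (nat_lit 0) (nat_lit 95727738463) (nat_lit 143) (nat_lit 1) (nat_lit 133) (nat_lit 1) (nat_lit 132) (nat_lit 1) (nat_lit 234) (nat_lit 426) (nat_lit 420)) (XT.lf (nat_lit 924) (nat_lit 17912953328) (nat_lit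 0) (nat_lit 253577916692) (nat_lit 840) (nat_lit 232528292659) (nat_lit 134) (nat_lit 1) (nat_lit 123) (nat_lit 1) (nat_lit 133) (nat_lit 1) (nat_lit 235) (nat_lit 426) (nat_lit 419))))))))
noncomputable def ec280 : XT := (XT.nd (nat_lit 1692) (nat_lit 3024) (nat_lit 0) (XT.nd (nat_lit 846) (nat_lit 2436) (nat_lit 0) (XT.nd (nat_lit 376) (nat_lit 1344) (nat_lit 0) (XT.nd (nat_lit 188) (nat_lit 756) (nat_lit 0) (XT.nd (nat_lit 94) (nat_lit 420) (nat_lit 0) (XT.lf (nat_lit 84) (nat_lit 124033020261) (nat_lit 0) (nat_lit 53749279708) (nat_lit 588) (nat_lit 308962435856) (nat_lit 117) (nat_lit 1) (nat_lit 116) (nat_lit 1) (nat_lit 123) (nat_lit 1) (nat_lit 236) (nat_lit 426) (nat_lit 418)) (XT.lf (nat_lit 504) (nat_lit 341819392200) (nat_lit 0) (nat_lit 111269581192) (nat_lit 420) (nat_lit 17202964776) (nat_lit 117) (nat_lit 1) (nat_lit 111) (nat_lit 1) (nat_lit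 116) (nat_lit 1) (nat_lit 237) (nat_lit 426) (nat_lit 417))) (XT.nd (nat_lit 94) (nat_lit 336) (nat_lit 0) (XT.lf (nat_lit 504) (nat_lit 246660128463) (nat_lit 0) (nat_lit 51863231103) (nat_lit 420) (nat_lit 156023221826) (nat_lit 112) (nat_lit 1) (nat_lit 106) (nat_lit 1) (nat_lit 111) (nat_lit 1) (nat_lit 238) (nat_lit 426) (nat_lit 416)) (XT.lf (nat_lit 420) (nat_lit 150089542281) (nat_lit 0) (nat_lit 954886367) (nat_lit 336) (nat_lit 288520254081) (nat_lit 107) (nat_lit 1) (nat_lit 102) (nat_lit 1) (nat_lit 106) (nat_lit 1) (nat_lit 239) (nat_lit 426) (nat_lit 415)))) (XT.nd (nat_lit 188) (nat_lit 924) (nat_lit 0) (XT.nd (nat_lit 94) (nat_lit 420) (nat_lit 0) (XT.lf (nat_lit 84) (nat_lit 11072897108) (nat_lit 0) (nat_lit 373431745137) (nat_lit 420) (nat_lit 40767335911) (nat_lit 103) (nat_lit 1) (nat_lit 102) (nat_lit 1) (nat_lit 107) (nat_lit 1) (nat_lit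 240) (nat_lit 426) (nat_lit 414)) (XT.lf (nat_lit 84) (nat_lit 285905075311) (nat_lit 0) (nat_lit 47420415906) (nat_lit 420) (nat_lit 78204878029) (nat_lit 98) (nat_lit 1) (nat_lit 97) (nat_lit 1) (nat_lit 102) (nat_lit 1) (nat_lit 241) (nat_lit 426) (nat_lit 413))) (XT.nd (nat_lit 94) (nat_lit 588) (nat_lit 0) (XT.lf (nat_lit 84) (nat_lit 143045554198) (nat_lit 0) (nat_lit 145257151813) (nat_lit 420) (nat_lit 110093228671) (nat_lit 94) (nat_lit 1) (nat_lit 93) (nat_lit 1) (nat_lit 98) (nat_lit 1) (nat_lit 242) (nat_lit 426) (nat_lit 412)) (XT.nd (nat_lit 94) (nat_lit 252) (nat_lit 0) (XT.lf (nat_lit 84) (nat_lit 7060411357) (nat_lit 0) (nat_lit 242867702309) (nat_lit 420) (nat_lit 135955258520) (nat_lit 90) (nat_lit 1) (nat_lit 89) (nat_lit 1) (nat_lit 94) (nat_lit 1) (nat_lit 243) (nat_lit 426) (nat_lit 411)) (XT.lf (nat_lit 336) (nat_lit 31884419766) (nat_lit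 0) (nat_lit 215619068785) (nat_lit 252) (nat_lit 126357729775) (nat_lit 90) (nat_lit 1) (nat_lit 86) (nat_lit 1) (nat_lit 89) (nat_lit 1) (nat_lit 244) (nat_lit 426) (nat_lit 410)))))) (XT.nd (nat_lit 376) (nat_lit 1176) (nat_lit 0) (XT.nd (nat_lit 188) (nat_lit 588) (nat_lit 0) (XT.nd (nat_lit 94) (nat_lit 252) (nat_lit 0) (XT.lf (nat_lit 84) (nat_lit 110169242729) (nat_lit 0) (nat_lit 75510683528) (nat_lit 420) (nat_lit 176655795181) (nat_lit 82) (nat_lit 1) (nat_lit 81) (nat_lit 1) (nat_lit 86) (nat_lit 1) (nat_lit 245) (nat_lit 426) (nat_lit 409)) (XT.lf (nat_lit 336) (nat_lit 170568486884) (nat_lit 0) (nat_lit 160227047970) (nat_lit 252) (nat_lit 20508871978) (nat_lit 82) (nat_lit 1) (nat_lit 78) (nat_lit 1) (nat_lit 81) (nat_lit 1) (nat_lit 246) (nat_lit 426) (nat_lit 408))) (XT.nd (nat_lit 94) (nat_lit 336) (nat_lit 0) (XT.lf (nat_lit 336) (nat_lit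 54666376019) (nat_lit 0) (nat_lit 137948927068) (nat_lit 252) (nat_lit 148081725639) (nat_lit 79) (nat_lit 1) (nat_lit 75) (nat_lit 1) (nat_lit 78) (nat_lit 1) (nat_lit 247) (nat_lit 426) (nat_lit 407)) (XT.lf (nat_lit 84) (nat_lit 62306459504) (nat_lit 0) (nat_lit 57046978228) (nat_lit 336) (nat_lit 211176757274) (nat_lit 72) (nat_lit 1) (nat_lit 71) (nat_lit 1) (nat_lit 75) (nat_lit 1) (nat_lit 248) (nat_lit 426) (nat_lit 406)))) (XT.nd (nat_lit 188) (nat_lit 756) (nat_lit 0) (XT.nd (nat_lit 94) (nat_lit 168) (nat_lit 0) (XT.lf (nat_lit 336) (nat_lit 155041446775) (nat_lit 0) (nat_lit 103158833292) (nat_lit 252) (nat_lit 62535223911) (nat_lit 72) (nat_lit 1) (nat_lit 68) (nat_lit 1) (nat_lit 71) (nat_lit 1) (nat_lit 249) (nat_lit 426) (nat_lit 405)) (XT.lf (nat_lit 252) (nat_lit 38435003584) (nat_lit 0) (nat_lit 89998557621) (nat_lit 168) (nat_lit 182902396907)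 (nat_lit 69) (nat_lit 1) (nat_lit 66) (nat_lit 1) (nat_lit 68) (nat_lit 1) (nat_lit 250) (nat_lit 426) (nat_lit 404))) (XT.nd (nat_lit 94) (nat_lit 420) (nat_lit 0) (XT.lf (nat_lit 84) (nat_lit 6511135159) (nat_lit 0) (nat_lit 72861015936) (nat_lit 336) (nat_lit 222928612311) (nat_lit 63) (nat_lit 1) (nat_lit 62) (nat_lit 1) (nat_lit 66) (nat_lit 1) (nat_lit 251) (nat_lit 426) (nat_lit 403)) (XT.nd (nat_lit 94) (nat_lit 252) (nat_lit 0) (XT.lf (nat_lit 252) (nat_lit 111685068090) (nat_lit 0) (nat_lit 69793586113) (nat_lit 168) (nat_lit 112073733251) (nat_lit 63) (nat_lit 1) (nat_lit 60) (nat_lit 1) (nat_lit 62) (nat_lit 1) (nat_lit 252) (nat_lit 426) (nat_lit 402)) (XT.lf (nat_lit 84) (nat_lit 60595650598) (nat_lit 0) (nat_lit 2798951091) (nat_lit 252) (nat_lit 221791158795) (nat_lit 58) (nat_lit 1) (nat_lit 57) (nat_lit 1) (nat_lit 60) (nat_lit 1) (nat_lit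 253) (nat_lit 426) (nat_lit 401))))))) (XT.nd (nat_lit 846) (nat_lit 1512) (nat_lit 0) (XT.nd (nat_lit 376) (nat_lit 756) (nat_lit 0) (XT.nd (nat_lit 188) (nat_lit 420) (nat_lit 0) (XT.nd (nat_lit 94) (nat_lit 168) (nat_lit 0) (XT.lf (nat_lit 252) (nat_lit 165656807437) (nat_lit 0) (nat_lit 57403798114) (nat_lit 168) (nat_lit 54001907186) (nat_lit 58) (nat_lit 1) (nat_lit 55) (nat_lit 1) (nat_lit 57) (nat_lit 1) (nat_lit 254) (nat_lit 426) (nat_lit 400)) (XT.lf (nat_lit 252) (nat_lit 51459642721) (nat_lit 0) (nat_lit 53363178155) (nat_lit 168) (nat_lit 164427031426) (nat_lit 56) (nat_lit 1) (nat_lit 53) (nat_lit 1) (nat_lit 55) (nat_lit 1) (nat_lit 255) (nat_lit 426) (nat_lit 399))) (XT.nd (nat_lit 94) (nat_lit 168) (nat_lit 0) (XT.lf (nat_lit 252) (nat_lit 204275869654) (nat_lit 0) (nat_lit 50984185502) (nat_lit 168) (nat_lit 6467935432) (nat_lit 53) (nat_lit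 1) (nat_lit 50) (nat_lit 1) (nat_lit 52) (nat_lit 1) (nat_lit 256) (nat_lit 426) (nat_lit 398)) (XT.lf (nat_lit 252) (nat_lit 91424411871) (nat_lit 0) (nat_lit 48672708003) (nat_lit 168) (nat_lit 114318017796) (nat_lit 51) (nat_lit 1) (nat_lit 48) (nat_lit 1) (nat_lit 50) (nat_lit 1) (nat_lit 257) (nat_lit 426) (nat_lit 397)))) (XT.nd (nat_lit 188) (nat_lit 420) (nat_lit 0) (XT.nd (nat_lit 94) (nat_lit 168) (nat_lit 0) (XT.lf (nat_lit 84) (nat_lit 31316390864) (nat_lit 0) (nat_lit 17212899577) (nat_lit 168) (nat_lit 198876312553) (nat_lit 47) (nat_lit 1) (nat_lit 46) (nat_lit 1) (nat_lit 48) (nat_lit 1) (nat_lit 258) (nat_lit 426) (nat_lit 396)) (XT.lf (nat_lit 252) (nat_lit 119954086257) (nat_lit 0) (nat_lit 48015419274) (nat_lit 168) (nat_lit 72603441729) (nat_lit 47) (nat_lit 1) (nat_lit 44) (nat_lit 1) (nat_lit 46) (nat_lit 1) (nat_lit 259) (nat_lit 426)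 (nat_lit 395))) (XT.nd (nat_lit 94) (nat_lit 336) (nat_lit 0) (XT.lf (nat_lit 168) (nat_lit 12917350564) (nat_lit 0) (nat_lit 49194740020) (nat_lit 84) (nat_lit 171897945398) (nat_lit 45) (nat_lit 1) (nat_lit 43) (nat_lit 1) (nat_lit 44) (nat_lit 1) (nat_lit 260) (nat_lit 426) (nat_lit 394)) (XT.nd (nat_lit 94) (nat_lit 84) (nat_lit 0) (XT.lf (nat_lit 252) (nat_lit 139438030310) (nat_lit 0) (nat_lit 50313091256) (nat_lit 168) (nat_lit 37876962866) (nat_lit 43) (nat_lit 1) (nat_lit 40) (nat_lit 1) (nat_lit 42) (nat_lit 1) (nat_lit 261) (nat_lit 426) (nat_lit 393)) (XT.lf (nat_lit 168) (nat_lit 35069692836) (nat_lit 0) (nat_lit 52194348437) (nat_lit 84) (nat_lit 134197176198) (nat_lit 41) (nat_lit 1) (nat_lit 39) (nat_lit 1) (nat_lit 40) (nat_lit 1) (nat_lit 262) (nat_lit 426) (nat_lit 392)))))) (XT.nd (nat_lit 470) (nat_lit 588) (nat_lit 0) (XT.nd (nat_lit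 188) (nat_lit 588) (nat_lit 0) (XT.nd (nat_lit 94) (nat_lit 84) (nat_lit 0) (XT.lf (nat_lit 252) (nat_lit 151808075695) (nat_lit 0) (nat_lit 54711697304) (nat_lit 168) (nat_lit 8978657885) (nat_lit 39) (nat_lit 1) (nat_lit 36) (nat_lit 1) (nat_lit 38) (nat_lit 1) (nat_lit 263) (nat_lit 426) (nat_lit 391)) (XT.lf (nat_lit 168) (nat_lit 50470099272) (nat_lit 0) (nat_lit 57037601868) (nat_lit 84) (nat_lit 102187789550) (nat_lit 37) (nat_lit 1) (nat_lit 35) (nat_lit 1) (nat_lit 36) (nat_lit 1) (nat_lit 264) (nat_lit 426) (nat_lit 390))) (XT.nd (nat_lit 94) (nat_lit 336) (nat_lit 0) (XT.lf (nat_lit 84) (nat_lit 14567679174) (nat_lit 0) (nat_lit 45724061749) (nat_lit 252) (nat_lit 143809280591) (nat_lit 33) (nat_lit 1) (nat_lit 32) (nat_lit 1) (nat_lit 35) (nat_lit 1) (nat_lit 265) (nat_lit 426) (nat_lit 389)) (XT.nd (nat_lit 94) (nat_lit 252) (nat_lit 0) (XT.lf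 (nat_lit 168) (nat_lit 60568672677) (nat_lit 0) (nat_lit 63109686040) (nat_lit 84) (nat_lit 74967128820) (nat_lit 33) (nat_lit 1) (nat_lit 31) (nat_lit 1) (nat_lit 32) (nat_lit 1) (nat_lit 266) (nat_lit 426) (nat_lit 388)) (XT.lf (nat_lit 84) (nat_lit 33878997479) (nat_lit 0) (nat_lit 32814099950) (nat_lit 252) (nat_lit 126688576957) (nat_lit 29) (nat_lit 1) (nat_lit 28) (nat_lit 1) (nat_lit 31) (nat_lit 1) (nat_lit 267) (nat_lit 426) (nat_lit 387))))) (XT.nd (nat_lit 188) (nat_lit 336) (nat_lit 0) (XT.nd (nat_lit 94) (nat_lit 168) (nat_lit 0) (XT.lf (nat_lit 168) (nat_lit 66534822841) (nat_lit 0) (nat_lit 69930669017) (nat_lit 84) (nat_lit 51786857809) (nat_lit 29) (nat_lit 1) (nat_lit 27) (nat_lit 1) (nat_lit 28) (nat_lit 1) (nat_lit 268) (nat_lit 426) (nat_lit 386)) (XT.lf (nat_lit 84) (nat_lit 49877718471) (nat_lit 0) (nat_lit 23765840396) (nat_lit 168)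 (nat_lit 109648864028) (nat_lit 26) (nat_lit 1) (nat_lit 25) (nat_lit 1) (nat_lit 27) (nat_lit 1) (nat_lit 269) (nat_lit 426) (nat_lit 385))) (XT.nd (nat_lit 94) (nat_lit 252) (nat_lit 0) (XT.lf (nat_lit 168) (nat_lit 69309715963) (nat_lit 0) (nat_lit 77129213225) (nat_lit 84) (nat_lit 32025433172) (nat_lit 26) (nat_lit 1) (nat_lit 24) (nat_lit 1) (nat_lit 25) (nat_lit 1) (nat_lit 270) (nat_lit 426) (nat_lit 384)) (XT.nd (nat_lit 94) (nat_lit 84) (nat_lit 0) (XT.lf (nat_lit 84) (nat_lit 63090676322) (nat_lit 0) (nat_lit 17729626825) (nat_lit 168) (nat_lit 92964504770) (nat_lit 23) (nat_lit 1) (nat_lit 22) (nat_lit 1) (nat_lit 24) (nat_lit 1) (nat_lit 271) (nat_lit 426) (nat_lit 383)) (XT.lf (nat_lit 168) (nat_lit 69649041563) (nat_lit 0) (nat_lit 84421210979) (nat_lit 84) (nat_lit 15165576563) (nat_lit 23) (nat_lit 1) (nat_lit 21) (nat_lit 1) (nat_lit 22)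 (nat_lit 1) (nat_lit 272) (nat_lit 426) (nat_lit 382))))))))
noncomputable def ec281 : XT := (XT.nd (nat_lit 1786) (nat_lit 0) (nat_lit 0) (XT.nd (nat_lit 846) (nat_lit 588) (nat_lit 0) (XT.nd (nat_lit 376) (nat_lit 672) (nat_lit 0) (XT.nd (nat_lit 188) (nat_lit 252) (nat_lit 0) (XT.nd (nat_lit 94) (nat_lit 84) (nat_lit 0) (XT.lf (nat_lit 84) (nat_lit 73955729013) (nat_lit 0) (nat_lit 14022256611) (nat_lit 168) (nat_lit 76837886717) (nat_lit 20) (nat_lit 1) (nat_lit 19) (nat_lit 1) (nat_lit 21) (nat_lit 1) (nat_lit 273) (nat_lit 426) (nat_lit 381)) (XT.lf (nat_lit 168) (nat_lit 68157877049) (nat_lit 0) (nat_lit 91592433879) (nat_lit 84) (nat_lit 775832317) (nat_lit 20) (nat_lit 1) (nat_lit 18) (nat_lit 1) (nat_lit 19) (nat_lit 1) (nat_lit 274) (nat_lit 426) (nat_lit 380))) (XT.nd (nat_lit 94) (nat_lit 84) (nat_lit 0) (XT.lf (nat_lit 84) (nat_lit 82837507994)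 (nat_lit 0) (nat_lit 12095726125) (nat_lit 168) (nat_lit 61414089330) (nat_lit 17) (nat_lit 1) (nat_lit 16) (nat_lit 1) (nat_lit 18) (nat_lit 1) (nat_lit 275) (nat_lit 426) (nat_lit 379)) (XT.lf (nat_lit 0) (nat_lit 11136318982) (nat_lit 0) (nat_lit 87159535815) (nat_lit 168) (nat_lit 53994185301) (nat_lit 15) (nat_lit 3) (nat_lit 15) (nat_lit 1) (nat_lit 17) (nat_lit 1) (nat_lit 276) (nat_lit 426) (nat_lit 378)))) (XT.nd (nat_lit 188) (nat_lit 420) (nat_lit 0) (XT.nd (nat_lit 94) (nat_lit 84) (nat_lit 0) (XT.lf (nat_lit 84) (nat_lit 90040316926) (nat_lit 0) (nat_lit 11511756344) (nat_lit 168) (nat_lit 46792766931) (nat_lit 14) (nat_lit 1) (nat_lit 13) (nat_lit 1) (nat_lit 15) (nat_lit 1) (nat_lit 277) (nat_lit 426) (nat_lit 377)) (XT.lf (nat_lit 0) (nat_lit 21274489184) (nat_lit 0) (nat_lit 83348446360) (nat_lit 168) (nat_lit 39881774328) (nat_lit 12) (nat_lit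 3) (nat_lit 12) (nat_lit 1) (nat_lit 14) (nat_lit 1) (nat_lit 278) (nat_lit 426) (nat_lit 376))) (XT.nd (nat_lit 94) (nat_lit 252) (nat_lit 0) (XT.lf (nat_lit 84) (nat_lit 95818700145) (nat_lit 0) (nat_lit 11921035328) (nat_lit 168) (nat_lit 33037763850) (nat_lit 11) (nat_lit 1) (nat_lit 10) (nat_lit 1) (nat_lit 12) (nat_lit 1) (nat_lit 279) (nat_lit 426) (nat_lit 375)) (XT.nd (nat_lit 94) (nat_lit 168) (nat_lit 0) (XT.lf (nat_lit 0) (nat_lit 29909564177) (nat_lit 0) (nat_lit 80593767241) (nat_lit 168) (nat_lit 26637794498) (nat_lit 9) (nat_lit 3) (nat_lit 9) (nat_lit 1) (nat_lit 11) (nat_lit 1) (nat_lit 280) (nat_lit 426) (nat_lit 374)) (XT.lf (nat_lit 84) (nat_lit 100386106092) (nat_lit 0) (nat_lit 13046309450) (nat_lit 168) (nat_lit 20184883279) (nat_lit 8) (nat_lit 1) (nat_lit 7) (nat_lit 1) (nat_lit 9) (nat_lit 1) (nat_lit 281) (nat_lit 426) (nat_lit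 373)))))) (XT.nd (nat_lit 470) (nat_lit 0) (nat_lit 0) (XT.nd (nat_lit 188) (nat_lit 336) (nat_lit 0) (XT.nd (nat_lit 94) (nat_lit 168) (nat_lit 0) (XT.lf (nat_lit 0) (nat_lit 37248992713) (nat_lit 0) (nat_lit 78633311630) (nat_lit 168) (nat_lit 14290107092) (nat_lit 6) (nat_lit 3) (nat_lit 6) (nat_lit 1) (nat_lit 8) (nat_lit 1) (nat_lit 282) (nat_lit 426) (nat_lit 372)) (XT.lf (nat_lit 84) (nat_lit 103921993052) (nat_lit 0) (nat_lit 14668614709) (nat_lit 168) (nat_lit 8248153658) (nat_lit 5) (nat_lit 1) (nat_lit 4) (nat_lit 1) (nat_lit 6) (nat_lit 1) (nat_lit 283) (nat_lit 426) (nat_lit 371))) (XT.nd (nat_lit 94) (nat_lit 252) (nat_lit 0) (XT.lf (nat_lit 0) (nat_lit 43468226962) (nat_lit 0) (nat_lit 77259068066) (nat_lit 168) (nat_lit 2846780357) (nat_lit 3) (nat_lit 3) (nat_lit 3) (nat_lit 1) (nat_lit 5) (nat_lit 1) (nat_lit 284) (nat_lit 426) (nat_lit 370))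 (XT.nd (nat_lit 94) (nat_lit 0) (nat_lit 0) (XT.lf (nat_lit 0) (nat_lit 174677650268) (nat_lit 0) (nat_lit 0) (nat_lit 0) (nat_lit 0) (nat_lit 0) (nat_lit 0) (nat_lit 1) (nat_lit 0) (nat_lit 1) (nat_lit 0) (nat_lit 285) (nat_lit 426) (nat_lit 369)) (XT.lf (nat_lit 0) (nat_lit 174518656573) (nat_lit 0) (nat_lit 0) (nat_lit 0) (nat_lit 0) (nat_lit 0) (nat_lit 0) (nat_lit 1) (nat_lit 0) (nat_lit 1) (nat_lit 0) (nat_lit 286) (nat_lit 426) (nat_lit 368))))) (XT.nd (nat_lit 188) (nat_lit 0) (nat_lit 0) (XT.nd (nat_lit 94) (nat_lit 0) (nat_lit 0) (XT.lf (nat_lit 0) (nat_lit 174371440190) (nat_lit 0) (nat_lit 0) (nat_lit 0) (nat_lit 0) (nat_lit 0) (nat_lit 0) (nat_lit 1) (nat_lit 0) (nat_lit 1) (nat_lit 0) (nat_lit 287) (nat_lit 426) (nat_lit 367)) (XT.lf (nat_lit 0) (nat_lit 174235128723) (nat_lit 0) (nat_lit 0) (nat_lit 0) (nat_lit 0) (nat_lit 0) (nat_lit 0) (nat_lit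 1) (nat_lit 0) (nat_lit 1) (nat_lit 0) (nat_lit 288) (nat_lit 426) (nat_lit 366))) (XT.nd (nat_lit 94) (nat_lit 0) (nat_lit 0) (XT.lf (nat_lit 0) (nat_lit 174108914403) (nat_lit 0) (nat_lit 0) (nat_lit 0) (nat_lit 0) (nat_lit 0) (nat_lit 0) (nat_lit 1) (nat_lit 0) (nat_lit 1) (nat_lit 0) (nat_lit 289) (nat_lit 426) (nat_lit 365)) (XT.nd (nat_lit 94) (nat_lit 0) (nat_lit 0) (XT.lf (nat_lit 0) (nat_lit 173992049291) (nat_lit 0) (nat_lit 0) (nat_lit 0) (nat_lit 0) (nat_lit 0) (nat_lit 0) (nat_lit 1) (nat_lit 0) (nat_lit 1) (nat_lit 0) (nat_lit 290) (nat_lit 426) (nat_lit 364)) (XT.lf (nat_lit 0) (nat_lit 173883840854) (nat_lit 0) (nat_lit 0) (nat_lit 0) (nat_lit 0) (nat_lit 0) (nat_lit 0) (nat_lit 1) (nat_lit 0) (nat_lit 1) (nat_lit 0) (nat_lit 291) (nat_lit 426) (nat_lit 363))))))) (XT.nd (nat_lit 846) (nat_lit 0) (nat_lit 0) (XT.nd (nat_lit 376) (nat_lit 0)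 (nat_lit 0) (XT.nd (nat_lit 188) (nat_lit 0) (nat_lit 0) (XT.nd (nat_lit 94) (nat_lit 0) (nat_lit 0) (XT.lf (nat_lit 0) (nat_lit 173783647857) (nat_lit 0) (nat_lit 0) (nat_lit 0) (nat_lit 0) (nat_lit 0) (nat_lit 0) (nat_lit 1) (nat_lit 0) (nat_lit 1) (nat_lit 0) (nat_lit 292) (nat_lit 426) (nat_lit 362)) (XT.lf (nat_lit 0) (nat_lit 173690876563) (nat_lit 0) (nat_lit 0) (nat_lit 0) (nat_lit 0) (nat_lit 0) (nat_lit 0) (nat_lit 1) (nat_lit 0) (nat_lit 1) (nat_lit 0) (nat_lit 293) (nat_lit 426) (nat_lit 361))) (XT.nd (nat_lit 94) (nat_lit 0) (nat_lit 0) (XT.lf (nat_lit 0) (nat_lit 173604977217) (nat_lit 0) (nat_lit 0) (nat_lit 0) (nat_lit 0) (nat_lit 0) (nat_lit 0) (nat_lit 1) (nat_lit 0) (nat_lit 1) (nat_lit 0) (nat_lit 294) (nat_lit 426) (nat_lit 360)) (XT.lf (nat_lit 0) (nat_lit 173525440786) (nat_lit 0) (nat_lit 0) (nat_lit 0) (nat_lit 0) (nat_lit 0) (nat_lit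 0) (nat_lit 1) (nat_lit 0) (nat_lit 1) (nat_lit 0) (nat_lit 295) (nat_lit 426) (nat_lit 359)))) (XT.nd (nat_lit 188) (nat_lit 0) (nat_lit 0) (XT.nd (nat_lit 94) (nat_lit 0) (nat_lit 0) (XT.lf (nat_lit 0) (nat_lit 173451795942) (nat_lit 0) (nat_lit 0) (nat_lit 0) (nat_lit 0) (nat_lit 0) (nat_lit 0) (nat_lit 1) (nat_lit 0) (nat_lit 1) (nat_lit 0) (nat_lit 296) (nat_lit 426) (nat_lit 358)) (XT.lf (nat_lit 0) (nat_lit 173383606272) (nat_lit 0) (nat_lit 0) (nat_lit 0) (nat_lit 0) (nat_lit 0) (nat_lit 0) (nat_lit 1) (nat_lit 0) (nat_lit 1) (nat_lit 0) (nat_lit 297) (nat_lit 426) (nat_lit 357))) (XT.nd (nat_lit 94) (nat_lit 0) (nat_lit 0) (XT.lf (nat_lit 0) (nat_lit 173320467688) (nat_lit 0) (nat_lit 0) (nat_lit 0) (nat_lit 0) (nat_lit 0) (nat_lit 0) (nat_lit 1) (nat_lit 0) (nat_lit 1) (nat_lit 0) (nat_lit 298) (nat_lit 426) (nat_lit 356)) (XT.nd (nat_lit 94) (nat_lit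 0) (nat_lit 0) (XT.lf (nat_lit 0) (nat_lit 173262006037) (nat_lit 0) (nat_lit 0) (nat_lit 0) (nat_lit 0) (nat_lit 0) (nat_lit 0) (nat_lit 1) (nat_lit 0) (nat_lit 1) (nat_lit 0) (nat_lit 299) (nat_lit 426) (nat_lit 355)) (XT.lf (nat_lit 0) (nat_lit 173207874878) (nat_lit 0) (nat_lit 0) (nat_lit 0) (nat_lit 0) (nat_lit 0) (nat_lit 0) (nat_lit 1) (nat_lit 0) (nat_lit 1) (nat_lit 0) (nat_lit 300) (nat_lit 426) (nat_lit 354)))))) (XT.nd (nat_lit 470) (nat_lit 0) (nat_lit 0) (XT.nd (nat_lit 188) (nat_lit 0) (nat_lit 0) (XT.nd (nat_lit 94) (nat_lit 0) (nat_lit 0) (XT.lf (nat_lit 0) (nat_lit 173157753435) (nat_lit 0) (nat_lit 0) (nat_lit 0) (nat_lit 0) (nat_lit 0) (nat_lit 0) (nat_lit 1) (nat_lit 0) (nat_lit 1) (nat_lit 0) (nat_lit 301) (nat_lit 426) (nat_lit 353)) (XT.lf (nat_lit 0) (nat_lit 173111344691) (nat_lit 0) (nat_lit 0) (nat_lit 0) (nat_lit 0) (nat_lit 0)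 (nat_lit 0) (nat_lit 1) (nat_lit 0) (nat_lit 1) (nat_lit 0) (nat_lit 302) (nat_lit 426) (nat_lit 352))) (XT.nd (nat_lit 94) (nat_lit 0) (nat_lit 0) (XT.lf (nat_lit 0) (nat_lit 173068373632) (nat_lit 0) (nat_lit 0) (nat_lit 0) (nat_lit 0) (nat_lit 0) (nat_lit 0) (nat_lit 1) (nat_lit 0) (nat_lit 1) (nat_lit 0) (nat_lit 303) (nat_lit 426) (nat_lit 351)) (XT.nd (nat_lit 94) (nat_lit 0) (nat_lit 0) (XT.lf (nat_lit 0) (nat_lit 173028585614) (nat_lit 0) (nat_lit 0) (nat_lit 0) (nat_lit 0) (nat_lit 0) (nat_lit 0) (nat_lit 1) (nat_lit 0) (nat_lit 1) (nat_lit 0) (nat_lit 304) (nat_lit 426) (nat_lit 350)) (XT.lf (nat_lit 0) (nat_lit 172991744857) (nat_lit 0) (nat_lit 0) (nat_lit 0) (nat_lit 0) (nat_lit 0) (nat_lit 0) (nat_lit 1) (nat_lit 0) (nat_lit 1) (nat_lit 0) (nat_lit 305) (nat_lit 426) (nat_lit 349))))) (XT.nd (nat_lit 188) (nat_lit 0) (nat_lit 0) (XT.nd (nat_lit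 94) (nat_lit 0) (nat_lit 0) (XT.lf (nat_lit 0) (nat_lit 172957633045) (nat_lit 0) (nat_lit 0) (nat_lit 0) (nat_lit 0) (nat_lit 0) (nat_lit 0) (nat_lit 1) (nat_lit 0) (nat_lit 1) (nat_lit 0) (nat_lit 306) (nat_lit 426) (nat_lit 348)) (XT.lf (nat_lit 0) (nat_lit 172926048034) (nat_lit 0) (nat_lit 0) (nat_lit 0) (nat_lit 0) (nat_lit 0) (nat_lit 0) (nat_lit 1) (nat_lit 0) (nat_lit 1) (nat_lit 0) (nat_lit 307) (nat_lit 426) (nat_lit 347))) (XT.nd (nat_lit 94) (nat_lit 0) (nat_lit 0) (XT.lf (nat_lit 0) (nat_lit 172896802653) (nat_lit 0) (nat_lit 0) (nat_lit 0) (nat_lit 0) (nat_lit 0) (nat_lit 0) (nat_lit 1) (nat_lit 0) (nat_lit 1) (nat_lit 0) (nat_lit 308) (nat_lit 426) (nat_lit 346)) (XT.nd (nat_lit 94) (nat_lit 0) (nat_lit 0) (XT.lf (nat_lit 0) (nat_lit 172869723597) (nat_lit 0) (nat_lit 0) (nat_lit 0) (nat_lit 0) (nat_lit 0) (nat_lit 0) (nat_lit 1) (nat_lit 0)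 (nat_lit 1) (nat_lit 0) (nat_lit 309) (nat_lit 426) (nat_lit 345)) (XT.lf (nat_lit 0) (nat_lit 172844650396) (nat_lit 0) (nat_lit 0) (nat_lit 0) (nat_lit 0) (nat_lit 0) (nat_lit 0) (nat_lit 1) (nat_lit 0) (nat_lit 1) (nat_lit 0) (nat_lit 310) (nat_lit 426) (nat_lit 344))))))))
noncomputable def ec282 : XT := (XT.nd (nat_lit 1692) (nat_lit 0) (nat_lit 0) (XT.nd (nat_lit 846) (nat_lit 0) (nat_lit 0) (XT.nd (nat_lit 376) (nat_lit 0) (nat_lit 0) (XT.nd (nat_lit 188) (nat_lit 0) (nat_lit 0) (XT.nd (nat_lit 94) (nat_lit 0) (nat_lit 0) (XT.lf (nat_lit 0) (nat_lit 172821434470) (nat_lit 0) (nat_lit 0) (nat_lit 0) (nat_lit 0) (nat_lit 0) (nat_lit 0) (nat_lit 1) (nat_lit 0) (nat_lit 1) (nat_lit 0) (nat_lit 311) (nat_lit 426) (nat_lit 343)) (XT.lf (nat_lit 0) (nat_lit 172799938242) (nat_lit 0) (nat_lit 0) (nat_lit 0) (nat_lit 0) (nat_lit 0) (nat_lit 0) (nat_lit 1) (nat_lit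 0) (nat_lit 1) (nat_lit 0) (nat_lit 312) (nat_lit 426) (nat_lit 342))) (XT.nd (nat_lit 94) (nat_lit 0) (nat_lit 0) (XT.lf (nat_lit 0) (nat_lit 172780034328) (nat_lit 0) (nat_lit 0) (nat_lit 0) (nat_lit 0) (nat_lit 0) (nat_lit 0) (nat_lit 1) (nat_lit 0) (nat_lit 1) (nat_lit 0) (nat_lit 313) (nat_lit 426) (nat_lit 341)) (XT.lf (nat_lit 0) (nat_lit 172761604777) (nat_lit 0) (nat_lit 0) (nat_lit 0) (nat_lit 0) (nat_lit 0) (nat_lit 0) (nat_lit 1) (nat_lit 0) (nat_lit 1) (nat_lit 0) (nat_lit 314) (nat_lit 426) (nat_lit 340)))) (XT.nd (nat_lit 188) (nat_lit 0) (nat_lit 0) (XT.nd (nat_lit 94) (nat_lit 0) (nat_lit 0) (XT.lf (nat_lit 0) (nat_lit 172744540378) (nat_lit 0) (nat_lit 0) (nat_lit 0) (nat_lit 0) (nat_lit 0) (nat_lit 0) (nat_lit 1) (nat_lit 0) (nat_lit 1) (nat_lit 0) (nat_lit 315) (nat_lit 426) (nat_lit 339)) (XT.lf (nat_lit 0) (nat_lit 172728740009) (nat_lit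 0) (nat_lit 0) (nat_lit 0) (nat_lit 0) (nat_lit 0) (nat_lit 0) (nat_lit 1) (nat_lit 0) (nat_lit 1) (nat_lit 0) (nat_lit 316) (nat_lit 426) (nat_lit 338))) (XT.nd (nat_lit 94) (nat_lit 0) (nat_lit 0) (XT.lf (nat_lit 0) (nat_lit 172714110037) (nat_lit 0) (nat_lit 0) (nat_lit 0) (nat_lit 0) (nat_lit 0) (nat_lit 0) (nat_lit 1) (nat_lit 0) (nat_lit 1) (nat_lit 0) (nat_lit 317) (nat_lit 426) (nat_lit 337)) (XT.nd (nat_lit 94) (nat_lit 0) (nat_lit 0) (XT.lf (nat_lit 0) (nat_lit 172700563767) (nat_lit 0) (nat_lit 0) (nat_lit 0) (nat_lit 0) (nat_lit 0) (nat_lit 0) (nat_lit 1) (nat_lit 0) (nat_lit 1) (nat_lit 0) (nat_lit 318) (nat_lit 426) (nat_lit 336)) (XT.lf (nat_lit 0) (nat_lit 172688020925) (nat_lit 0) (nat_lit 0) (nat_lit 0) (nat_lit 0) (nat_lit 0) (nat_lit 0) (nat_lit 1) (nat_lit 0) (nat_lit 1) (nat_lit 0) (nat_lit 319) (nat_lit 426) (nat_lit 335)))))) (XT.nd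 (nat_lit 376) (nat_lit 0) (nat_lit 0) (XT.nd (nat_lit 188) (nat_lit 0) (nat_lit 0) (XT.nd (nat_lit 94) (nat_lit 0) (nat_lit 0) (XT.lf (nat_lit 0) (nat_lit 172676407182) (nat_lit 0) (nat_lit 0) (nat_lit 0) (nat_lit 0) (nat_lit 0) (nat_lit 0) (nat_lit 1) (nat_lit 0) (nat_lit 1) (nat_lit 0) (nat_lit 320) (nat_lit 426) (nat_lit 334)) (XT.lf (nat_lit 0) (nat_lit 172665653716) (nat_lit 0) (nat_lit 0) (nat_lit 0) (nat_lit 0) (nat_lit 0) (nat_lit 0) (nat_lit 1) (nat_lit 0) (nat_lit 1) (nat_lit 0) (nat_lit 321) (nat_lit 426) (nat_lit 333))) (XT.nd (nat_lit 94) (nat_lit 0) (nat_lit 0) (XT.lf (nat_lit 0) (nat_lit 172655696803) (nat_lit 0) (nat_lit 0) (nat_lit 0) (nat_lit 0) (nat_lit 0) (nat_lit 0) (nat_lit 1) (nat_lit 0) (nat_lit 1) (nat_lit 0) (nat_lit 322) (nat_lit 426) (nat_lit 332)) (XT.lf (nat_lit 0) (nat_lit 172646477440) (nat_lit 0) (nat_lit 0) (nat_lit 0) (nat_lit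 0) (nat_lit 0) (nat_lit 0) (nat_lit 1) (nat_lit 0) (nat_lit 1) (nat_lit 0) (nat_lit 323) (nat_lit 426) (nat_lit 331)))) (XT.nd (nat_lit 188) (nat_lit 0) (nat_lit 0) (XT.nd (nat_lit 94) (nat_lit 0) (nat_lit 0) (XT.lf (nat_lit 0) (nat_lit 172637940992) (nat_lit 0) (nat_lit 0) (nat_lit 0) (nat_lit 0) (nat_lit 0) (nat_lit 0) (nat_lit 1) (nat_lit 0) (nat_lit 1) (nat_lit 0) (nat_lit 324) (nat_lit 426) (nat_lit 330)) (XT.lf (nat_lit 0) (nat_lit 172630036873) (nat_lit 0) (nat_lit 0) (nat_lit 0) (nat_lit 0) (nat_lit 0) (nat_lit 0) (nat_lit 1) (nat_lit 0) (nat_lit 1) (nat_lit 0) (nat_lit 325) (nat_lit 426) (nat_lit 329))) (XT.nd (nat_lit 94) (nat_lit 0) (nat_lit 0) (XT.lf (nat_lit 0) (nat_lit 172622718245) (nat_lit 0) (nat_lit 0) (nat_lit 0) (nat_lit 0) (nat_lit 0) (nat_lit 0) (nat_lit 1) (nat_lit 0) (nat_lit 1) (nat_lit 0) (nat_lit 326) (nat_lit 426) (nat_lit 328))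 (XT.nd (nat_lit 94) (nat_lit 0) (nat_lit 0) (XT.lf (nat_lit 0) (nat_lit 172615941738) (nat_lit 0) (nat_lit 0) (nat_lit 0) (nat_lit 0) (nat_lit 0) (nat_lit 0) (nat_lit 1) (nat_lit 0) (nat_lit 1) (nat_lit 0) (nat_lit 327) (nat_lit 426) (nat_lit 327)) (XT.lf (nat_lit 0) (nat_lit 172609667194) (nat_lit 0) (nat_lit 0) (nat_lit 0) (nat_lit 0) (nat_lit 0) (nat_lit 0) (nat_lit 1) (nat_lit 0) (nat_lit 1) (nat_lit 0) (nat_lit 328) (nat_lit 426) (nat_lit 326))))))) (XT.nd (nat_lit 846) (nat_lit 0) (nat_lit 0) (XT.nd (nat_lit 376) (nat_lit 0) (nat_lit 0) (XT.nd (nat_lit 188) (nat_lit 0) (nat_lit 0) (XT.nd (nat_lit 94) (nat_lit 0) (nat_lit 0) (XT.lf (nat_lit 0) (nat_lit 172603857431) (nat_lit 0) (nat_lit 0) (nat_lit 0) (nat_lit 0) (nat_lit 0) (nat_lit 0) (nat_lit 1) (nat_lit 0) (nat_lit 1) (nat_lit 0) (nat_lit 329) (nat_lit 426) (nat_lit 325)) (XT.lf (nat_lit 0) (nat_lit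 172598478020) (nat_lit 0) (nat_lit 0) (nat_lit 0) (nat_lit 0) (nat_lit 0) (nat_lit 0) (nat_lit 1) (nat_lit 0) (nat_lit 1) (nat_lit 0) (nat_lit 330) (nat_lit 426) (nat_lit 324))) (XT.nd (nat_lit 94) (nat_lit 0) (nat_lit 0) (XT.lf (nat_lit 0) (nat_lit 172593497085) (nat_lit 0) (nat_lit 0) (nat_lit 0) (nat_lit 0) (nat_lit 0) (nat_lit 0) (nat_lit 1) (nat_lit 0) (nat_lit 1) (nat_lit 0) (nat_lit 331) (nat_lit 426) (nat_lit 323)) (XT.lf (nat_lit 0) (nat_lit 172588885108) (nat_lit 0) (nat_lit 0) (nat_lit 0) (nat_lit 0) (nat_lit 0) (nat_lit 0) (nat_lit 1) (nat_lit 0) (nat_lit 1) (nat_lit 0) (nat_lit 332) (nat_lit 426) (nat_lit 322)))) (XT.nd (nat_lit 188) (nat_lit 0) (nat_lit 0) (XT.nd (nat_lit 94) (nat_lit 0) (nat_lit 0) (XT.lf (nat_lit 0) (nat_lit 172584614759) (nat_lit 0) (nat_lit 0) (nat_lit 0) (nat_lit 0) (nat_lit 0) (nat_lit 0) (nat_lit 1) (nat_lit 0) (nat_lit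 1) (nat_lit 0) (nat_lit 333) (nat_lit 426) (nat_lit 321)) (XT.lf (nat_lit 0) (nat_lit 172580660732) (nat_lit 0) (nat_lit 0) (nat_lit 0) (nat_lit 0) (nat_lit 0) (nat_lit 0) (nat_lit 1) (nat_lit 0) (nat_lit 1) (nat_lit 0) (nat_lit 334) (nat_lit 426) (nat_lit 320))) (XT.nd (nat_lit 94) (nat_lit 0) (nat_lit 0) (XT.lf (nat_lit 0) (nat_lit 172576999595) (nat_lit 0) (nat_lit 0) (nat_lit 0) (nat_lit 0) (nat_lit 0) (nat_lit 0) (nat_lit 1) (nat_lit 0) (nat_lit 1) (nat_lit 0) (nat_lit 335) (nat_lit 426) (nat_lit 319)) (XT.nd (nat_lit 94) (nat_lit 0) (nat_lit 0) (XT.lf (nat_lit 0) (nat_lit 172573609655) (nat_lit 0) (nat_lit 0) (nat_lit 0) (nat_lit 0) (nat_lit 0) (nat_lit 0) (nat_lit 1) (nat_lit 0) (nat_lit 1) (nat_lit 0) (nat_lit 336) (nat_lit 426) (nat_lit 318)) (XT.lf (nat_lit 0) (nat_lit 172570470820) (nat_lit 0) (nat_lit 0) (nat_lit 0) (nat_lit 0) (nat_lit 0) (nat_lit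 0) (nat_lit 1) (nat_lit 0) (nat_lit 1) (nat_lit 0) (nat_lit 337) (nat_lit 426) (nat_lit 317)))))) (XT.nd (nat_lit 470) (nat_lit 0) (nat_lit 0) (XT.nd (nat_lit 188) (nat_lit 0) (nat_lit 0) (XT.nd (nat_lit 94) (nat_lit 0) (nat_lit 0) (XT.lf (nat_lit 0) (nat_lit 172567564492) (nat_lit 0) (nat_lit 0) (nat_lit 0) (nat_lit 0) (nat_lit 0) (nat_lit 0) (nat_lit 1) (nat_lit 0) (nat_lit 1) (nat_lit 0) (nat_lit 338) (nat_lit 426) (nat_lit 316)) (XT.lf (nat_lit 0) (nat_lit 172564873448) (nat_lit 0) (nat_lit 0) (nat_lit 0) (nat_lit 0) (nat_lit 0) (nat_lit 0) (nat_lit 1) (nat_lit 0) (nat_lit 1) (nat_lit 0) (nat_lit 339) (nat_lit 426) (nat_lit 315))) (XT.nd (nat_lit 94) (nat_lit 0) (nat_lit 0) (XT.lf (nat_lit 0) (nat_lit 172562381740) (nat_lit 0) (nat_lit 0) (nat_lit 0) (nat_lit 0) (nat_lit 0) (nat_lit 0) (nat_lit 1) (nat_lit 0) (nat_lit 1) (nat_lit 0) (nat_lit 340) (nat_lit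 426) (nat_lit 314)) (XT.nd (nat_lit 94) (nat_lit 0) (nat_lit 0) (XT.lf (nat_lit 0) (nat_lit 172560074604) (nat_lit 0) (nat_lit 0) (nat_lit 0) (nat_lit 0) (nat_lit 0) (nat_lit 0) (nat_lit 1) (nat_lit 0) (nat_lit 1) (nat_lit 0) (nat_lit 341) (nat_lit 426) (nat_lit 313)) (XT.lf (nat_lit 0) (nat_lit 172557938366) (nat_lit 0) (nat_lit 0) (nat_lit 0) (nat_lit 0) (nat_lit 0) (nat_lit 0) (nat_lit 1) (nat_lit 0) (nat_lit 1) (nat_lit 0) (nat_lit 342) (nat_lit 426) (nat_lit 312))))) (XT.nd (nat_lit 188) (nat_lit 0) (nat_lit 0) (XT.nd (nat_lit 94) (nat_lit 0) (nat_lit 0) (XT.lf (nat_lit 0) (nat_lit 172555960368) (nat_lit 0) (nat_lit 0) (nat_lit 0) (nat_lit 0) (nat_lit 0) (nat_lit 0) (nat_lit 1) (nat_lit 0) (nat_lit 1) (nat_lit 0) (nat_lit 343) (nat_lit 426) (nat_lit 311)) (XT.lf (nat_lit 0) (nat_lit 172554128888) (nat_lit 0) (nat_lit 0) (nat_lit 0) (nat_lit 0) (nat_lit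 0) (nat_lit 0) (nat_lit 1) (nat_lit 0) (nat_lit 1) (nat_lit 0) (nat_lit 344) (nat_lit 426) (nat_lit 310))) (XT.nd (nat_lit 94) (nat_lit 0) (nat_lit 0) (XT.lf (nat_lit 0) (nat_lit 172552433074) (nat_lit 0) (nat_lit 0) (nat_lit 0) (nat_lit 0) (nat_lit 0) (nat_lit 0) (nat_lit 1) (nat_lit 0) (nat_lit 1) (nat_lit 0) (nat_lit 345) (nat_lit 426) (nat_lit 309)) (XT.nd (nat_lit 94) (nat_lit 0) (nat_lit 0) (XT.lf (nat_lit 0) (nat_lit 172550862875) (nat_lit 0) (nat_lit 0) (nat_lit 0) (nat_lit 0) (nat_lit 0) (nat_lit 0) (nat_lit 1) (nat_lit 0) (nat_lit 1) (nat_lit 0) (nat_lit 346) (nat_lit 426) (nat_lit 308)) (XT.lf (nat_lit 0) (nat_lit 172549408988) (nat_lit 0) (nat_lit 0) (nat_lit 0) (nat_lit 0) (nat_lit 0) (nat_lit 0) (nat_lit 1) (nat_lit 0) (nat_lit 1) (nat_lit 0) (nat_lit 347) (nat_lit 426) (nat_lit 307))))))))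
noncomputable def ec283 : XT := (XT.nd (nat_lit 1786) (nat_lit 0) (nat_lit 0) (XT.nd (nat_lit 846) (nat_lit 0) (nat_lit 0) (XT.nd (nat_lit 376) (nat_lit 0) (nat_lit 0) (XT.nd (nat_lit 188) (nat_lit 0) (nat_lit 0) (XT.nd (nat_lit 94) (nat_lit 0) (nat_lit 0) (XT.lf (nat_lit 0) (nat_lit 172548062796) (nat_lit 0) (nat_lit 0) (nat_lit 0) (nat_lit 0) (nat_lit 0) (nat_lit 0) (nat_lit 1) (nat_lit 0) (nat_lit 1) (nat_lit 0) (nat_lit 348) (nat_lit 426) (nat_lit 306)) (XT.lf (nat_lit 0) (nat_lit 172546816321) (nat_lit 0) (nat_lit 0) (nat_lit 0) (nat_lit 0) (nat_lit 0) (nat_lit 0) (nat_lit 1) (nat_lit 0) (nat_lit 1) (nat_lit 0) (nat_lit 349) (nat_lit 426) (nat_lit 305))) (XT.nd (nat_lit 94) (nat_lit 0) (nat_lit 0) (XT.lf (nat_lit 0) (nat_lit 172545662178) (nat_lit 0) (nat_lit 0) (nat_lit 0) (nat_lit 0) (nat_lit 0) (nat_lit 0) (nat_lit 1) (nat_lit 0) (nat_lit 1) (nat_lit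 0) (nat_lit 350) (nat_lit 426) (nat_lit 304)) (XT.lf (nat_lit 0) (nat_lit 172544593528) (nat_lit 0) (nat_lit 0) (nat_lit 0) (nat_lit 0) (nat_lit 0) (nat_lit 0) (nat_lit 1) (nat_lit 0) (nat_lit 1) (nat_lit 0) (nat_lit 351) (nat_lit 426) (nat_lit 303)))) (XT.nd (nat_lit 188) (nat_lit 0) (nat_lit 0) (XT.nd (nat_lit 94) (nat_lit 0) (nat_lit 0) (XT.lf (nat_lit 0) (nat_lit 172543604036) (nat_lit 0) (nat_lit 0) (nat_lit 0) (nat_lit 0) (nat_lit 0) (nat_lit 0) (nat_lit 1) (nat_lit 0) (nat_lit 1) (nat_lit 0) (nat_lit 352) (nat_lit 426) (nat_lit 302)) (XT.lf (nat_lit 0) (nat_lit 172542687841) (nat_lit 0) (nat_lit 0) (nat_lit 0) (nat_lit 0) (nat_lit 0) (nat_lit 0) (nat_lit 1) (nat_lit 0) (nat_lit 1) (nat_lit 0) (nat_lit 353) (nat_lit 426) (nat_lit 301))) (XT.nd (nat_lit 94) (nat_lit 0) (nat_lit 0) (XT.lf (nat_lit 0) (nat_lit 172541839511) (nat_lit 0) (nat_lit 0) (nat_lit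 0) (nat_lit 0) (nat_lit 0) (nat_lit 0) (nat_lit 1) (nat_lit 0) (nat_lit 1) (nat_lit 0) (nat_lit 354) (nat_lit 426) (nat_lit 300)) (XT.nd (nat_lit 94) (nat_lit 0) (nat_lit 0) (XT.lf (nat_lit 0) (nat_lit 172541054021) (nat_lit 0) (nat_lit 0) (nat_lit 0) (nat_lit 0) (nat_lit 0) (nat_lit 0) (nat_lit 1) (nat_lit 0) (nat_lit 1) (nat_lit 0) (nat_lit 355) (nat_lit 426) (nat_lit 299)) (XT.lf (nat_lit 0) (nat_lit 172540326715) (nat_lit 0) (nat_lit 0) (nat_lit 0) (nat_lit 0) (nat_lit 0) (nat_lit 0) (nat_lit 1) (nat_lit 0) (nat_lit 1) (nat_lit 0) (nat_lit 356) (nat_lit 426) (nat_lit 298)))))) (XT.nd (nat_lit 470) (nat_lit 0) (nat_lit 0) (XT.nd (nat_lit 188) (nat_lit 0) (nat_lit 0) (XT.nd (nat_lit 94) (nat_lit 0) (nat_lit 0) (XT.lf (nat_lit 0) (nat_lit 172539653284) (nat_lit 0) (nat_lit 0) (nat_lit 0) (nat_lit 0) (nat_lit 0) (nat_lit 0) (nat_lit 1) (nat_lit 0) (nat_lit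 1) (nat_lit 0) (nat_lit 357) (nat_lit 426) (nat_lit 297)) (XT.lf (nat_lit 0) (nat_lit 172539029736) (nat_lit 0) (nat_lit 0) (nat_lit 0) (nat_lit 0) (nat_lit 0) (nat_lit 0) (nat_lit 1) (nat_lit 0) (nat_lit 1) (nat_lit 0) (nat_lit 358) (nat_lit 426) (nat_lit 296))) (XT.nd (nat_lit 94) (nat_lit 0) (nat_lit 0) (XT.lf (nat_lit 0) (nat_lit 172538452378) (nat_lit 0) (nat_lit 0) (nat_lit 0) (nat_lit 0) (nat_lit 0) (nat_lit 0) (nat_lit 1) (nat_lit 0) (nat_lit 1) (nat_lit 0) (nat_lit 359) (nat_lit 426) (nat_lit 295)) (XT.nd (nat_lit 94) (nat_lit 0) (nat_lit 0) (XT.lf (nat_lit 0) (nat_lit 172537917786) (nat_lit 0) (nat_lit 0) (nat_lit 0) (nat_lit 0) (nat_lit 0) (nat_lit 0) (nat_lit 1) (nat_lit 0) (nat_lit 1) (nat_lit 0) (nat_lit 360) (nat_lit 426) (nat_lit 294)) (XT.lf (nat_lit 0) (nat_lit 172537422794) (nat_lit 0) (nat_lit 0) (nat_lit 0) (nat_lit 0) (nat_lit 0) (nat_lit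 0) (nat_lit 1) (nat_lit 0) (nat_lit 1) (nat_lit 0) (nat_lit 361) (nat_lit 426) (nat_lit 293))))) (XT.nd (nat_lit 188) (nat_lit 0) (nat_lit 0) (XT.nd (nat_lit 94) (nat_lit 0) (nat_lit 0) (XT.lf (nat_lit 0) (nat_lit 172536964468) (nat_lit 0) (nat_lit 0) (nat_lit 0) (nat_lit 0) (nat_lit 0) (nat_lit 0) (nat_lit 1) (nat_lit 0) (nat_lit 1) (nat_lit 0) (nat_lit 362) (nat_lit 426) (nat_lit 292)) (XT.lf (nat_lit 0) (nat_lit 172536540092) (nat_lit 0) (nat_lit 0) (nat_lit 0) (nat_lit 0) (nat_lit 0) (nat_lit 0) (nat_lit 1) (nat_lit 0) (nat_lit 1) (nat_lit 0) (nat_lit 363) (nat_lit 426) (nat_lit 291))) (XT.nd (nat_lit 94) (nat_lit 0) (nat_lit 0) (XT.lf (nat_lit 0) (nat_lit 172536147152) (nat_lit 0) (nat_lit 0) (nat_lit 0) (nat_lit 0) (nat_lit 0) (nat_lit 0) (nat_lit 1) (nat_lit 0) (nat_lit 1) (nat_lit 0) (nat_lit 364) (nat_lit 426) (nat_lit 290)) (XT.nd (nat_lit 94) (nat_lit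 0) (nat_lit 0) (XT.lf (nat_lit 0) (nat_lit 172535783318) (nat_lit 0) (nat_lit 0) (nat_lit 0) (nat_lit 0) (nat_lit 0) (nat_lit 0) (nat_lit 1) (nat_lit 0) (nat_lit 1) (nat_lit 0) (nat_lit 365) (nat_lit 426) (nat_lit 289)) (XT.lf (nat_lit 0) (nat_lit 172535446434) (nat_lit 0) (nat_lit 0) (nat_lit 0) (nat_lit 0) (nat_lit 0) (nat_lit 0) (nat_lit 1) (nat_lit 0) (nat_lit 1) (nat_lit 0) (nat_lit 366) (nat_lit 426) (nat_lit 288))))))) (XT.nd (nat_lit 846) (nat_lit 0) (nat_lit 0) (XT.nd (nat_lit 376) (nat_lit 0) (nat_lit 0) (XT.nd (nat_lit 188) (nat_lit 0) (nat_lit 0) (XT.nd (nat_lit 94) (nat_lit 0) (nat_lit 0) (XT.lf (nat_lit 0) (nat_lit 172535134505) (nat_lit 0) (nat_lit 0) (nat_lit 0) (nat_lit 0) (nat_lit 0) (nat_lit 0) (nat_lit 1) (nat_lit 0) (nat_lit 1) (nat_lit 0) (nat_lit 367) (nat_lit 426) (nat_lit 287)) (XT.lf (nat_lit 0) (nat_lit 172534845682) (nat_lit 0)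 (nat_lit 0) (nat_lit 0) (nat_lit 0) (nat_lit 0) (nat_lit 0) (nat_lit 1) (nat_lit 0) (nat_lit 1) (nat_lit 0) (nat_lit 368) (nat_lit 426) (nat_lit 286))) (XT.nd (nat_lit 94) (nat_lit 0) (nat_lit 0) (XT.lf (nat_lit 0) (nat_lit 172534578254) (nat_lit 0) (nat_lit 0) (nat_lit 0) (nat_lit 0) (nat_lit 0) (nat_lit 0) (nat_lit 1) (nat_lit 0) (nat_lit 1) (nat_lit 0) (nat_lit 369) (nat_lit 426) (nat_lit 285)) (XT.lf (nat_lit 0) (nat_lit 172534330634) (nat_lit 0) (nat_lit 0) (nat_lit 0) (nat_lit 0) (nat_lit 0) (nat_lit 0) (nat_lit 1) (nat_lit 0) (nat_lit 1) (nat_lit 0) (nat_lit 370) (nat_lit 426) (nat_lit 284)))) (XT.nd (nat_lit 188) (nat_lit 0) (nat_lit 0) (XT.nd (nat_lit 94) (nat_lit 0) (nat_lit 0) (XT.lf (nat_lit 0) (nat_lit 172534101357) (nat_lit 0) (nat_lit 0) (nat_lit 0) (nat_lit 0) (nat_lit 0) (nat_lit 0) (nat_lit 1) (nat_lit 0) (nat_lit 1) (nat_lit 0) (nat_lit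 371) (nat_lit 426) (nat_lit 283)) (XT.lf (nat_lit 0) (nat_lit 172533889064) (nat_lit 0) (nat_lit 0) (nat_lit 0) (nat_lit 0) (nat_lit 0) (nat_lit 0) (nat_lit 1) (nat_lit 0) (nat_lit 1) (nat_lit 0) (nat_lit 372) (nat_lit 426) (nat_lit 282))) (XT.nd (nat_lit 94) (nat_lit 0) (nat_lit 0) (XT.lf (nat_lit 0) (nat_lit 172533692495) (nat_lit 0) (nat_lit 0) (nat_lit 0) (nat_lit 0) (nat_lit 0) (nat_lit 0) (nat_lit 1) (nat_lit 0) (nat_lit 1) (nat_lit 0) (nat_lit 373) (nat_lit 426) (nat_lit 281)) (XT.nd (nat_lit 94) (nat_lit 0) (nat_lit 0) (XT.lf (nat_lit 0) (nat_lit 172533510488) (nat_lit 0) (nat_lit 0) (nat_lit 0) (nat_lit 0) (nat_lit 0) (nat_lit 0) (nat_lit 1) (nat_lit 0) (nat_lit 1) (nat_lit 0) (nat_lit 374) (nat_lit 426) (nat_lit 280)) (XT.lf (nat_lit 0) (nat_lit 172533341962) (nat_lit 0) (nat_lit 0) (nat_lit 0) (nat_lit 0) (nat_lit 0) (nat_lit 0) (nat_lit 1) (nat_lit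 0) (nat_lit 1) (nat_lit 0) (nat_lit 375) (nat_lit 426) (nat_lit 279)))))) (XT.nd (nat_lit 470) (nat_lit 0) (nat_lit 0) (XT.nd (nat_lit 188) (nat_lit 0) (nat_lit 0) (XT.nd (nat_lit 94) (nat_lit 0) (nat_lit 0) (XT.lf (nat_lit 0) (nat_lit 172533185920) (nat_lit 0) (nat_lit 0) (nat_lit 0) (nat_lit 0) (nat_lit 0) (nat_lit 0) (nat_lit 1) (nat_lit 0) (nat_lit 1) (nat_lit 0) (nat_lit 376) (nat_lit 426) (nat_lit 278)) (XT.lf (nat_lit 0) (nat_lit 172533041437) (nat_lit 0) (nat_lit 0) (nat_lit 0) (nat_lit 0) (nat_lit 0) (nat_lit 0) (nat_lit 1) (nat_lit 0) (nat_lit 1) (nat_lit 0) (nat_lit 377) (nat_lit 426) (nat_lit 277))) (XT.nd (nat_lit 94) (nat_lit 0) (nat_lit 0) (XT.lf (nat_lit 0) (nat_lit 172532907656) (nat_lit 0) (nat_lit 0) (nat_lit 0) (nat_lit 0) (nat_lit 0) (nat_lit 0) (nat_lit 1) (nat_lit 0) (nat_lit 1) (nat_lit 0) (nat_lit 378) (nat_lit 426) (nat_lit 276))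 (XT.nd (nat_lit 94) (nat_lit 0) (nat_lit 0) (XT.lf (nat_lit 0) (nat_lit 172532783784) (nat_lit 0) (nat_lit 0) (nat_lit 0) (nat_lit 0) (nat_lit 0) (nat_lit 0) (nat_lit 1) (nat_lit 0) (nat_lit 1) (nat_lit 0) (nat_lit 379) (nat_lit 426) (nat_lit 275)) (XT.lf (nat_lit 0) (nat_lit 172532669089) (nat_lit 0) (nat_lit 0) (nat_lit 0) (nat_lit 0) (nat_lit 0) (nat_lit 0) (nat_lit 1) (nat_lit 0) (nat_lit 1) (nat_lit 0) (nat_lit 380) (nat_lit 426) (nat_lit 274))))) (XT.nd (nat_lit 188) (nat_lit 0) (nat_lit 0) (XT.nd (nat_lit 94) (nat_lit 0) (nat_lit 0) (XT.lf (nat_lit 0) (nat_lit 172532562889) (nat_lit 0) (nat_lit 0) (nat_lit 0) (nat_lit 0) (nat_lit 0) (nat_lit 0) (nat_lit 1) (nat_lit 0) (nat_lit 1) (nat_lit 0) (nat_lit 381) (nat_lit 426) (nat_lit 273)) (XT.lf (nat_lit 0) (nat_lit 172532464556) (nat_lit 0) (nat_lit 0) (nat_lit 0) (nat_lit 0) (nat_lit 0) (nat_lit 0) (nat_lit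 1) (nat_lit 0) (nat_lit 1) (nat_lit 0) (nat_lit 382) (nat_lit 426) (nat_lit 272))) (XT.nd (nat_lit 94) (nat_lit 0) (nat_lit 0) (XT.lf (nat_lit 0) (nat_lit 172532373507) (nat_lit 0) (nat_lit 0) (nat_lit 0) (nat_lit 0) (nat_lit 0) (nat_lit 0) (nat_lit 1) (nat_lit 0) (nat_lit 1) (nat_lit 0) (nat_lit 383) (nat_lit 426) (nat_lit 271)) (XT.nd (nat_lit 94) (nat_lit 0) (nat_lit 0) (XT.lf (nat_lit 0) (nat_lit 172532289202) (nat_lit 0) (nat_lit 0) (nat_lit 0) (nat_lit 0) (nat_lit 0) (nat_lit 0) (nat_lit 1) (nat_lit 0) (nat_lit 1) (nat_lit 0) (nat_lit 384) (nat_lit 426) (nat_lit 270)) (XT.lf (nat_lit 0) (nat_lit 172532211142) (nat_lit 0) (nat_lit 0) (nat_lit 0) (nat_lit 0) (nat_lit 0) (nat_lit 0) (nat_lit 1) (nat_lit 0) (nat_lit 1) (nat_lit 0) (nat_lit 385) (nat_lit 426) (nat_lit 269))))))))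
noncomputable def ec284 : XT := (XT.nd (nat_lit 1692) (nat_lit 0) (nat_lit 0) (XT.nd (nat_lit 846) (nat_lit 0) (nat_lit 0) (XT.nd (nat_lit 376) (nat_lit 0) (nat_lit 0) (XT.nd (nat_lit 188) (nat_lit 0) (nat_lit 0) (XT.nd (nat_lit 94) (nat_lit 0) (nat_lit 0) (XT.lf (nat_lit 0) (nat_lit 172532138865) (nat_lit 0) (nat_lit 0) (nat_lit 0) (nat_lit 0) (nat_lit 0) (nat_lit 0) (nat_lit 1) (nat_lit 0) (nat_lit 1) (nat_lit 0) (nat_lit 386) (nat_lit 426) (nat_lit 268)) (XT.lf (nat_lit 0) (nat_lit 172532071941) (nat_lit 0) (nat_lit 0) (nat_lit 0) (nat_lit 0) (nat_lit 0) (nat_lit 0) (nat_lit 1) (nat_lit 0) (nat_lit 1) (nat_lit 0) (nat_lit 387) (nat_lit 426) (nat_lit 267))) (XT.nd (nat_lit 94) (nat_lit 0) (nat_lit 0) (XT.lf (nat_lit 0) (nat_lit 172532009974) (nat_lit 0) (nat_lit 0) (nat_lit 0) (nat_lit 0) (nat_lit 0) (nat_lit 0) (nat_lit 1) (nat_lit 0) (nat_lit 1) (nat_lit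 0) (nat_lit 388) (nat_lit 426) (nat_lit 266)) (XT.lf (nat_lit 0) (nat_lit 172531952598) (nat_lit 0) (nat_lit 0) (nat_lit 0) (nat_lit 0) (nat_lit 0) (nat_lit 0) (nat_lit 1) (nat_lit 0) (nat_lit 1) (nat_lit 0) (nat_lit 389) (nat_lit 426) (nat_lit 265)))) (XT.nd (nat_lit 188) (nat_lit 0) (nat_lit 0) (XT.nd (nat_lit 94) (nat_lit 0) (nat_lit 0) (XT.lf (nat_lit 0) (nat_lit 172531899472) (nat_lit 0) (nat_lit 0) (nat_lit 0) (nat_lit 0) (nat_lit 0) (nat_lit 0) (nat_lit 1) (nat_lit 0) (nat_lit 1) (nat_lit 0) (nat_lit 390) (nat_lit 426) (nat_lit 264)) (XT.lf (nat_lit 0) (nat_lit 172531850281) (nat_lit 0) (nat_lit 0) (nat_lit 0) (nat_lit 0) (nat_lit 0) (nat_lit 0) (nat_lit 1) (nat_lit 0) (nat_lit 1) (nat_lit 0) (nat_lit 391) (nat_lit 426) (nat_lit 263))) (XT.nd (nat_lit 94) (nat_lit 0) (nat_lit 0) (XT.lf (nat_lit 0) (nat_lit 172531804734) (nat_lit 0) (nat_lit 0) (nat_lit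 0) (nat_lit 0) (nat_lit 0) (nat_lit 0) (nat_lit 1) (nat_lit 0) (nat_lit 1) (nat_lit 0) (nat_lit 392) (nat_lit 426) (nat_lit 262)) (XT.nd (nat_lit 94) (nat_lit 0) (nat_lit 0) (XT.lf (nat_lit 0) (nat_lit 172531762560) (nat_lit 0) (nat_lit 0) (nat_lit 0) (nat_lit 0) (nat_lit 0) (nat_lit 0) (nat_lit 1) (nat_lit 0) (nat_lit 1) (nat_lit 0) (nat_lit 393) (nat_lit 426) (nat_lit 261)) (XT.lf (nat_lit 0) (nat_lit 172531723511) (nat_lit 0) (nat_lit 0) (nat_lit 0) (nat_lit 0) (nat_lit 0) (nat_lit 0) (nat_lit 1) (nat_lit 0) (nat_lit 1) (nat_lit 0) (nat_lit 394) (nat_lit 426) (nat_lit 260)))))) (XT.nd (nat_lit 376) (nat_lit 0) (nat_lit 0) (XT.nd (nat_lit 188) (nat_lit 0) (nat_lit 0) (XT.nd (nat_lit 94) (nat_lit 0) (nat_lit 0) (XT.lf (nat_lit 0) (nat_lit 172531687354) (nat_lit 0) (nat_lit 0) (nat_lit 0) (nat_lit 0) (nat_lit 0) (nat_lit 0) (nat_lit 1) (nat_lit 0) (nat_lit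 1) (nat_lit 0) (nat_lit 395) (nat_lit 426) (nat_lit 259)) (XT.lf (nat_lit 0) (nat_lit 172531653875) (nat_lit 0) (nat_lit 0) (nat_lit 0) (nat_lit 0) (nat_lit 0) (nat_lit 0) (nat_lit 1) (nat_lit 0) (nat_lit 1) (nat_lit 0) (nat_lit 396) (nat_lit 426) (nat_lit 258))) (XT.nd (nat_lit 94) (nat_lit 0) (nat_lit 0) (XT.lf (nat_lit 0) (nat_lit 172531622877) (nat_lit 0) (nat_lit 0) (nat_lit 0) (nat_lit 0) (nat_lit 0) (nat_lit 0) (nat_lit 1) (nat_lit 0) (nat_lit 1) (nat_lit 0) (nat_lit 397) (nat_lit 426) (nat_lit 257)) (XT.lf (nat_lit 0) (nat_lit 172531594174) (nat_lit 0) (nat_lit 0) (nat_lit 0) (nat_lit 0) (nat_lit 0) (nat_lit 0) (nat_lit 1) (nat_lit 0) (nat_lit 1) (nat_lit 0) (nat_lit 398) (nat_lit 426) (nat_lit 256)))) (XT.nd (nat_lit 188) (nat_lit 0) (nat_lit 0) (XT.nd (nat_lit 94) (nat_lit 0) (nat_lit 0) (XT.lf (nat_lit 0) (nat_lit 172531567598) (nat_lit 0) (nat_lit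 0) (nat_lit 0) (nat_lit 0) (nat_lit 0) (nat_lit 0) (nat_lit 1) (nat_lit 0) (nat_lit 1) (nat_lit 0) (nat_lit 399) (nat_lit 426) (nat_lit 255)) (XT.lf (nat_lit 0) (nat_lit 172531542990) (nat_lit 0) (nat_lit 0) (nat_lit 0) (nat_lit 0) (nat_lit 0) (nat_lit 0) (nat_lit 1) (nat_lit 0) (nat_lit 1) (nat_lit 0) (nat_lit 400) (nat_lit 426) (nat_lit 254))) (XT.nd (nat_lit 94) (nat_lit 0) (nat_lit 0) (XT.lf (nat_lit 0) (nat_lit 172531520205) (nat_lit 0) (nat_lit 0) (nat_lit 0) (nat_lit 0) (nat_lit 0) (nat_lit 0) (nat_lit 1) (nat_lit 0) (nat_lit 1) (nat_lit 0) (nat_lit 401) (nat_lit 426) (nat_lit 253)) (XT.nd (nat_lit 94) (nat_lit 0) (nat_lit 0) (XT.lf (nat_lit 0) (nat_lit 172531499108) (nat_lit 0) (nat_lit 0) (nat_lit 0) (nat_lit 0) (nat_lit 0) (nat_lit 0) (nat_lit 1) (nat_lit 0) (nat_lit 1) (nat_lit 0) (nat_lit 402) (nat_lit 426) (nat_lit 252)) (XT.lf (nat_lit 0) (nat_lit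 172531479574) (nat_lit 0) (nat_lit 0) (nat_lit 0) (nat_lit 0) (nat_lit 0) (nat_lit 0) (nat_lit 1) (nat_lit 0) (nat_lit 1) (nat_lit 0) (nat_lit 403) (nat_lit 426) (nat_lit 251))))))) (XT.nd (nat_lit 846) (nat_lit 0) (nat_lit 0) (XT.nd (nat_lit 376) (nat_lit 0) (nat_lit 0) (XT.nd (nat_lit 188) (nat_lit 0) (nat_lit 0) (XT.nd (nat_lit 94) (nat_lit 0) (nat_lit 0) (XT.lf (nat_lit 0) (nat_lit 172531461486) (nat_lit 0) (nat_lit 0) (nat_lit 0) (nat_lit 0) (nat_lit 0) (nat_lit 0) (nat_lit 1) (nat_lit 0) (nat_lit 1) (nat_lit 0) (nat_lit 404) (nat_lit 426) (nat_lit 250)) (XT.lf (nat_lit 0) (nat_lit 172531444739) (nat_lit 0) (nat_lit 0) (nat_lit 0) (nat_lit 0) (nat_lit 0) (nat_lit 0) (nat_lit 1) (nat_lit 0) (nat_lit 1) (nat_lit 0) (nat_lit 405) (nat_lit 426) (nat_lit 249))) (XT.nd (nat_lit 94) (nat_lit 0) (nat_lit 0) (XT.lf (nat_lit 0) (nat_lit 172531429232) (nat_lit 0)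 (nat_lit 0) (nat_lit 0) (nat_lit 0) (nat_lit 0) (nat_lit 0) (nat_lit 1) (nat_lit 0) (nat_lit 1) (nat_lit 0) (nat_lit 406) (nat_lit 426) (nat_lit 248)) (XT.lf (nat_lit 0) (nat_lit 172531414873) (nat_lit 0) (nat_lit 0) (nat_lit 0) (nat_lit 0) (nat_lit 0) (nat_lit 0) (nat_lit 1) (nat_lit 0) (nat_lit 1) (nat_lit 0) (nat_lit 407) (nat_lit 426) (nat_lit 247)))) (XT.nd (nat_lit 188) (nat_lit 0) (nat_lit 0) (XT.nd (nat_lit 94) (nat_lit 0) (nat_lit 0) (XT.lf (nat_lit 0) (nat_lit 172531401578) (nat_lit 0) (nat_lit 0) (nat_lit 0) (nat_lit 0) (nat_lit 0) (nat_lit 0) (nat_lit 1) (nat_lit 0) (nat_lit 1) (nat_lit 0) (nat_lit 408) (nat_lit 426) (nat_lit 246)) (XT.lf (nat_lit 0) (nat_lit 172531389268) (nat_lit 0) (nat_lit 0) (nat_lit 0) (nat_lit 0) (nat_lit 0) (nat_lit 0) (nat_lit 1) (nat_lit 0) (nat_lit 1) (nat_lit 0) (nat_lit 409) (nat_lit 426) (nat_lit 245))) (XT.nd (nat_lit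 94) (nat_lit 0) (nat_lit 0) (XT.lf (nat_lit 0) (nat_lit 172531377870) (nat_lit 0) (nat_lit 0) (nat_lit 0) (nat_lit 0) (nat_lit 0) (nat_lit 0) (nat_lit 1) (nat_lit 0) (nat_lit 1) (nat_lit 0) (nat_lit 410) (nat_lit 426) (nat_lit 244)) (XT.nd (nat_lit 94) (nat_lit 0) (nat_lit 0) (XT.lf (nat_lit 0) (nat_lit 172531367316) (nat_lit 0) (nat_lit 0) (nat_lit 0) (nat_lit 0) (nat_lit 0) (nat_lit 0) (nat_lit 1) (nat_lit 0) (nat_lit 1) (nat_lit 0) (nat_lit 411) (nat_lit 426) (nat_lit 243)) (XT.lf (nat_lit 0) (nat_lit 172531357544) (nat_lit 0) (nat_lit 0) (nat_lit 0) (nat_lit 0) (nat_lit 0) (nat_lit 0) (nat_lit 1) (nat_lit 0) (nat_lit 1) (nat_lit 0) (nat_lit 412) (nat_lit 426) (nat_lit 242)))))) (XT.nd (nat_lit 470) (nat_lit 0) (nat_lit 0) (XT.nd (nat_lit 188) (nat_lit 0) (nat_lit 0) (XT.nd (nat_lit 94) (nat_lit 0) (nat_lit 0) (XT.lf (nat_lit 0) (nat_lit 172531348496) (nat_lit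 0) (nat_lit 0) (nat_lit 0) (nat_lit 0) (nat_lit 0) (nat_lit 0) (nat_lit 1) (nat_lit 0) (nat_lit 1) (nat_lit 0) (nat_lit 413) (nat_lit 426) (nat_lit 241)) (XT.lf (nat_lit 0) (nat_lit 172531340118) (nat_lit 0) (nat_lit 0) (nat_lit 0) (nat_lit 0) (nat_lit 0) (nat_lit 0) (nat_lit 1) (nat_lit 0) (nat_lit 1) (nat_lit 0) (nat_lit 414) (nat_lit 426) (nat_lit 240))) (XT.nd (nat_lit 94) (nat_lit 0) (nat_lit 0) (XT.lf (nat_lit 0) (nat_lit 172531332361) (nat_lit 0) (nat_lit 0) (nat_lit 0) (nat_lit 0) (nat_lit 0) (nat_lit 0) (nat_lit 1) (nat_lit 0) (nat_lit 1) (nat_lit 0) (nat_lit 415) (nat_lit 426) (nat_lit 239)) (XT.nd (nat_lit 94) (nat_lit 0) (nat_lit 0) (XT.lf (nat_lit 0) (nat_lit 172531325178) (nat_lit 0) (nat_lit 0) (nat_lit 0) (nat_lit 0) (nat_lit 0) (nat_lit 0) (nat_lit 1) (nat_lit 0) (nat_lit 1) (nat_lit 0) (nat_lit 416) (nat_lit 426) (nat_lit 238)) (XT.lf (nat_lit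 0) (nat_lit 172531318527) (nat_lit 0) (nat_lit 0) (nat_lit 0) (nat_lit 0) (nat_lit 0) (nat_lit 0) (nat_lit 1) (nat_lit 0) (nat_lit 1) (nat_lit 0) (nat_lit 417) (nat_lit 426) (nat_lit 237))))) (XT.nd (nat_lit 188) (nat_lit 0) (nat_lit 0) (XT.nd (nat_lit 94) (nat_lit 0) (nat_lit 0) (XT.lf (nat_lit 0) (nat_lit 172531312369) (nat_lit 0) (nat_lit 0) (nat_lit 0) (nat_lit 0) (nat_lit 0) (nat_lit 0) (nat_lit 1) (nat_lit 0) (nat_lit 1) (nat_lit 0) (nat_lit 418) (nat_lit 426) (nat_lit 236)) (XT.lf (nat_lit 0) (nat_lit 172531306667) (nat_lit 0) (nat_lit 0) (nat_lit 0) (nat_lit 0) (nat_lit 0) (nat_lit 0) (nat_lit 1) (nat_lit 0) (nat_lit 1) (nat_lit 0) (nat_lit 419) (nat_lit 426) (nat_lit 235))) (XT.nd (nat_lit 94) (nat_lit 0) (nat_lit 0) (XT.lf (nat_lit 0) (nat_lit 172531301388) (nat_lit 0) (nat_lit 0) (nat_lit 0) (nat_lit 0) (nat_lit 0) (nat_lit 0) (nat_lit 1) (nat_lit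 0) (nat_lit 1) (nat_lit 0) (nat_lit 420) (nat_lit 426) (nat_lit 234)) (XT.nd (nat_lit 94) (nat_lit 0) (nat_lit 0) (XT.lf (nat_lit 0) (nat_lit 172531296499) (nat_lit 0) (nat_lit 0) (nat_lit 0) (nat_lit 0) (nat_lit 0) (nat_lit 0) (nat_lit 1) (nat_lit 0) (nat_lit 1) (nat_lit 0) (nat_lit 421) (nat_lit 426) (nat_lit 233)) (XT.lf (nat_lit 0) (nat_lit 172531291973) (nat_lit 0) (nat_lit 0) (nat_lit 0) (nat_lit 0) (nat_lit 0) (nat_lit 0) (nat_lit 1) (nat_lit 0) (nat_lit 1) (nat_lit 0) (nat_lit 422) (nat_lit 426) (nat_lit 232))))))))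
noncomputable def ec285 : XT := (XT.nd (nat_lit 1786) (nat_lit 0) (nat_lit 0) (XT.nd (nat_lit 846) (nat_lit 0) (nat_lit 0) (XT.nd (nat_lit 376) (nat_lit 0) (nat_lit 0) (XT.nd (nat_lit 188) (nat_lit 0) (nat_lit 0) (XT.nd (nat_lit 94) (nat_lit 0) (nat_lit 0) (XT.lf (nat_lit 0) (nat_lit 172531287782) (nat_lit 0) (nat_lit 0) (nat_lit 0) (nat_lit 0) (nat_lit 0) (nat_lit 0) (nat_lit 1) (nat_lit 0) (nat_lit 1) (nat_lit 0) (nat_lit 423) (nat_lit 426) (nat_lit 231)) (XT.lf (nat_lit 0) (nat_lit 172531283901) (nat_lit 0) (nat_lit 0) (nat_lit 0) (nat_lit 0) (nat_lit 0) (nat_lit 0) (nat_lit 1) (nat_lit 0) (nat_lit 1) (nat_lit 0) (nat_lit 424) (nat_lit 426) (nat_lit 230))) (XT.nd (nat_lit 94) (nat_lit 0) (nat_lit 0) (XT.lf (nat_lit 0) (nat_lit 172531280308) (nat_lit 0) (nat_lit 0) (nat_lit 0) (nat_lit 0) (nat_lit 0) (nat_lit 0) (nat_lit 1) (nat_lit 0) (nat_lit 1) (nat_lit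 0) (nat_lit 425) (nat_lit 426) (nat_lit 229)) (XT.lf (nat_lit 0) (nat_lit 172531276981) (nat_lit 0) (nat_lit 0) (nat_lit 0) (nat_lit 0) (nat_lit 0) (nat_lit 0) (nat_lit 1) (nat_lit 0) (nat_lit 1) (nat_lit 0) (nat_lit 426) (nat_lit 426) (nat_lit 228)))) (XT.nd (nat_lit 188) (nat_lit 0) (nat_lit 0) (XT.nd (nat_lit 94) (nat_lit 0) (nat_lit 0) (XT.lf (nat_lit 0) (nat_lit 172531273900) (nat_lit 0) (nat_lit 0) (nat_lit 0) (nat_lit 0) (nat_lit 0) (nat_lit 0) (nat_lit 1) (nat_lit 0) (nat_lit 1) (nat_lit 0) (nat_lit 427) (nat_lit 426) (nat_lit 227)) (XT.lf (nat_lit 0) (nat_lit 172531271048) (nat_lit 0) (nat_lit 0) (nat_lit 0) (nat_lit 0) (nat_lit 0) (nat_lit 0) (nat_lit 1) (nat_lit 0) (nat_lit 1) (nat_lit 0) (nat_lit 428) (nat_lit 426) (nat_lit 226))) (XT.nd (nat_lit 94) (nat_lit 0) (nat_lit 0) (XT.lf (nat_lit 0) (nat_lit 172531268407) (nat_lit 0) (nat_lit 0) (nat_lit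 0) (nat_lit 0) (nat_lit 0) (nat_lit 0) (nat_lit 1) (nat_lit 0) (nat_lit 1) (nat_lit 0) (nat_lit 429) (nat_lit 426) (nat_lit 225)) (XT.nd (nat_lit 94) (nat_lit 0) (nat_lit 0) (XT.lf (nat_lit 0) (nat_lit 172531265962) (nat_lit 0) (nat_lit 0) (nat_lit 0) (nat_lit 0) (nat_lit 0) (nat_lit 0) (nat_lit 1) (nat_lit 0) (nat_lit 1) (nat_lit 0) (nat_lit 430) (nat_lit 426) (nat_lit 224)) (XT.lf (nat_lit 0) (nat_lit 172531263697) (nat_lit 0) (nat_lit 0) (nat_lit 0) (nat_lit 0) (nat_lit 0) (nat_lit 0) (nat_lit 1) (nat_lit 0) (nat_lit 1) (nat_lit 0) (nat_lit 431) (nat_lit 426) (nat_lit 223)))))) (XT.nd (nat_lit 470) (nat_lit 0) (nat_lit 0) (XT.nd (nat_lit 188) (nat_lit 0) (nat_lit 0) (XT.nd (nat_lit 94) (nat_lit 0) (nat_lit 0) (XT.lf (nat_lit 0) (nat_lit 172531261601) (nat_lit 0) (nat_lit 0) (nat_lit 0) (nat_lit 0) (nat_lit 0) (nat_lit 0) (nat_lit 1) (nat_lit 0) (nat_lit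 1) (nat_lit 0) (nat_lit 432) (nat_lit 426) (nat_lit 222)) (XT.lf (nat_lit 0) (nat_lit 172531259659) (nat_lit 0) (nat_lit 0) (nat_lit 0) (nat_lit 0) (nat_lit 0) (nat_lit 0) (nat_lit 1) (nat_lit 0) (nat_lit 1) (nat_lit 0) (nat_lit 433) (nat_lit 426) (nat_lit 221))) (XT.nd (nat_lit 94) (nat_lit 0) (nat_lit 0) (XT.lf (nat_lit 0) (nat_lit 172531257862) (nat_lit 0) (nat_lit 0) (nat_lit 0) (nat_lit 0) (nat_lit 0) (nat_lit 0) (nat_lit 1) (nat_lit 0) (nat_lit 1) (nat_lit 0) (nat_lit 434) (nat_lit 426) (nat_lit 220)) (XT.nd (nat_lit 94) (nat_lit 0) (nat_lit 0) (XT.lf (nat_lit 0) (nat_lit 172531256198) (nat_lit 0) (nat_lit 0) (nat_lit 0) (nat_lit 0) (nat_lit 0) (nat_lit 0) (nat_lit 1) (nat_lit 0) (nat_lit 1) (nat_lit 0) (nat_lit 435) (nat_lit 426) (nat_lit 219)) (XT.lf (nat_lit 0) (nat_lit 172531254656) (nat_lit 0) (nat_lit 0) (nat_lit 0) (nat_lit 0) (nat_lit 0) (nat_lit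 0) (nat_lit 1) (nat_lit 0) (nat_lit 1) (nat_lit 0) (nat_lit 436) (nat_lit 426) (nat_lit 218))))) (XT.nd (nat_lit 188) (nat_lit 0) (nat_lit 0) (XT.nd (nat_lit 94) (nat_lit 0) (nat_lit 0) (XT.lf (nat_lit 0) (nat_lit 172531253230) (nat_lit 0) (nat_lit 0) (nat_lit 0) (nat_lit 0) (nat_lit 0) (nat_lit 0) (nat_lit 1) (nat_lit 0) (nat_lit 1) (nat_lit 0) (nat_lit 437) (nat_lit 426) (nat_lit 217)) (XT.lf (nat_lit 0) (nat_lit 172531251908) (nat_lit 0) (nat_lit 0) (nat_lit 0) (nat_lit 0) (nat_lit 0) (nat_lit 0) (nat_lit 1) (nat_lit 0) (nat_lit 1) (nat_lit 0) (nat_lit 438) (nat_lit 426) (nat_lit 216))) (XT.nd (nat_lit 94) (nat_lit 0) (nat_lit 0) (XT.lf (nat_lit 0) (nat_lit 172531250685) (nat_lit 0) (nat_lit 0) (nat_lit 0) (nat_lit 0) (nat_lit 0) (nat_lit 0) (nat_lit 1) (nat_lit 0) (nat_lit 1) (nat_lit 0) (nat_lit 439) (nat_lit 426) (nat_lit 215)) (XT.nd (nat_lit 94) (nat_lit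 0) (nat_lit 0) (XT.lf (nat_lit 0) (nat_lit 172531249552) (nat_lit 0) (nat_lit 0) (nat_lit 0) (nat_lit 0) (nat_lit 0) (nat_lit 0) (nat_lit 1) (nat_lit 0) (nat_lit 1) (nat_lit 0) (nat_lit 440) (nat_lit 426) (nat_lit 214)) (XT.lf (nat_lit 0) (nat_lit 172531248504) (nat_lit 0) (nat_lit 0) (nat_lit 0) (nat_lit 0) (nat_lit 0) (nat_lit 0) (nat_lit 1) (nat_lit 0) (nat_lit 1) (nat_lit 0) (nat_lit 441) (nat_lit 426) (nat_lit 213))))))) (XT.nd (nat_lit 48128) (nat_lit 0) (nat_lit 7224) (XT.nd (nat_lit 47658) (nat_lit 0) (nat_lit 10836) (XT.nd (nat_lit 47470) (nat_lit 0) (nat_lit 10752) (XT.nd (nat_lit 94) (nat_lit 0) (nat_lit 0) (XT.lf (nat_lit 0) (nat_lit 172531247532) (nat_lit 0) (nat_lit 0) (nat_lit 0) (nat_lit 0) (nat_lit 0) (nat_lit 0) (nat_lit 1) (nat_lit 0) (nat_lit 1) (nat_lit 0) (nat_lit 442) (nat_lit 426) (nat_lit 212)) (XT.lf (nat_lit 0) (nat_lit 172531246633)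 (nat_lit 0) (nat_lit 0) (nat_lit 0) (nat_lit 0) (nat_lit 0) (nat_lit 0) (nat_lit 1) (nat_lit 0) (nat_lit 1) (nat_lit 0) (nat_lit 443) (nat_lit 426) (nat_lit 211))) (XT.nd (nat_lit 94) (nat_lit 0) (nat_lit 84) (XT.lf (nat_lit 924) (nat_lit 93248380220) (nat_lit 0) (nat_lit 165562284742) (nat_lit 924) (nat_lit 93248380220) (nat_lit 139) (nat_lit 1) (nat_lit 128) (nat_lit 0) (nat_lit 139) (nat_lit 0) (nat_lit 226) (nat_lit 427) (nat_lit 427)) (XT.lf (nat_lit 924) (nat_lit 34784507068) (nat_lit 0) (nat_lit 325048942949) (nat_lit 840) (nat_lit 317896780239) (nat_lit 140) (nat_lit 1) (nat_lit 129) (nat_lit 1) (nat_lit 139) (nat_lit 1) (nat_lit 227) (nat_lit 427) (nat_lit 426)))) (XT.nd (nat_lit 188) (nat_lit 0) (nat_lit 168) (XT.nd (nat_lit 94) (nat_lit 0) (nat_lit 84) (XT.lf (nat_lit 924) (nat_lit 319475619516) (nat_lit 84) (nat_lit 217685386659) (nat_lit 0) (nat_lit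 115450399125) (nat_lit 140) (nat_lit 1) (nat_lit 130) (nat_lit 1) (nat_lit 129) (nat_lit 1) (nat_lit 228) (nat_lit 427) (nat_lit 425)) (XT.lf (nat_lit 924) (nat_lit 276053107081) (nat_lit 84) (nat_lit 91230436696) (nat_lit 0) (nat_lit 261466046280) (nat_lit 141) (nat_lit 1) (nat_lit 131) (nat_lit 1) (nat_lit 130) (nat_lit 1) (nat_lit 229) (nat_lit 427) (nat_lit 424))) (XT.nd (nat_lit 94) (nat_lit 0) (nat_lit 84) (XT.lf (nat_lit 924) (nat_lit 204302768460) (nat_lit 0) (nat_lit 382240822815) (nat_lit 840) (nat_lit 19540096251) (nat_lit 142) (nat_lit 1) (nat_lit 131) (nat_lit 1) (nat_lit 141) (nat_lit 1) (nat_lit 230) (nat_lit 427) (nat_lit 423)) (XT.nd (nat_lit 94) (nat_lit 0) (nat_lit 0) (XT.lf (nat_lit 924) (nat_lit 49020446158) (nat_lit 0) (nat_lit 421526697772) (nat_lit 840) (nat_lit 113953096570) (nat_lit 143) (nat_lit 1) (nat_lit 132) (nat_lit 1) (nat_lit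 142) (nat_lit 1) (nat_lit 231) (nat_lit 427) (nat_lit 422)) (XT.lf (nat_lit 924) (nat_lit 94197359213) (nat_lit 84) (nat_lit 366341026756) (nat_lit 0) (nat_lit 103385957540) (nat_lit 143) (nat_lit 1) (nat_lit 133) (nat_lit 1) (nat_lit 132) (nat_lit 1) (nat_lit 232) (nat_lit 427) (nat_lit 421)))))) (XT.nd (nat_lit 470) (nat_lit 1344) (nat_lit 0) (XT.nd (nat_lit 188) (nat_lit 1176) (nat_lit 0) (XT.nd (nat_lit 94) (nat_lit 588) (nat_lit 0) (XT.lf (nat_lit 924) (nat_lit 19345989594) (nat_lit 0) (nat_lit 273864150028) (nat_lit 840) (nat_lit 251130556071) (nat_lit 134) (nat_lit 1) (nat_lit 123) (nat_lit 1) (nat_lit 133) (nat_lit 1) (nat_lit 233) (nat_lit 427) (nat_lit 420)) (XT.lf (nat_lit 84) (nat_lit 133955661882) (nat_lit 0) (nat_lit 58049222085) (nat_lit 588) (nat_lit 333679430724) (nat_lit 117) (nat_lit 1) (nat_lit 116) (nat_lit 1) (nat_lit 123) (nat_lit 1)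 (nat_lit 234) (nat_lit 427) (nat_lit 419))) (XT.nd (nat_lit 94) (nat_lit 756) (nat_lit 0) (XT.lf (nat_lit 504) (nat_lit 369164943576) (nat_lit 0) (nat_lit 120171147688) (nat_lit 420) (nat_lit 18579201958) (nat_lit 117) (nat_lit 1) (nat_lit 111) (nat_lit 1) (nat_lit 116) (nat_lit 1) (nat_lit 235) (nat_lit 427) (nat_lit 418)) (XT.nd (nat_lit 94) (nat_lit 336) (nat_lit 0) (XT.lf (nat_lit 504) (nat_lit 266392938740) (nat_lit 0) (nat_lit 56012289591) (nat_lit 420) (nat_lit 168505079572) (nat_lit 112) (nat_lit 1) (nat_lit 106) (nat_lit 1) (nat_lit 111) (nat_lit 1) (nat_lit 236) (nat_lit 427) (nat_lit 417)) (XT.lf (nat_lit 420) (nat_lit 162096705664) (nat_lit 0) (nat_lit 1031277276) (nat_lit 336) (nat_lit 311601874408) (nat_lit 107) (nat_lit 1) (nat_lit 102) (nat_lit 1) (nat_lit 106) (nat_lit 1) (nat_lit 237) (nat_lit 427) (nat_lit 416))))) (XT.nd (nat_lit 188) (nat_lit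 924) (nat_lit 0) (XT.nd (nat_lit 94) (nat_lit 420) (nat_lit 0) (XT.lf (nat_lit 84) (nat_lit 11958728876) (nat_lit 0) (nat_lit 403306284748) (nat_lit 420) (nat_lit 44028722784) (nat_lit 103) (nat_lit 1) (nat_lit 102) (nat_lit 1) (nat_lit 107) (nat_lit 1) (nat_lit 238) (nat_lit 427) (nat_lit 415)) (XT.lf (nat_lit 84) (nat_lit 308777481336) (nat_lit 0) (nat_lit 51214049178) (nat_lit 420) (nat_lit 84461268271) (nat_lit 98) (nat_lit 1) (nat_lit 97) (nat_lit 1) (nat_lit 102) (nat_lit 1) (nat_lit 239) (nat_lit 427) (nat_lit 414))) (XT.nd (nat_lit 94) (nat_lit 588) (nat_lit 0) (XT.lf (nat_lit 84) (nat_lit 154489198533) (nat_lit 0) (nat_lit 156877723958) (nat_lit 420) (nat_lit 118900686964) (nat_lit 94) (nat_lit 1) (nat_lit 93) (nat_lit 1) (nat_lit 98) (nat_lit 1) (nat_lit 240) (nat_lit 427) (nat_lit 413)) (XT.nd (nat_lit 94) (nat_lit 252) (nat_lit 0) (XT.lf (nat_lit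 84) (nat_lit 7625244265) (nat_lit 0) (nat_lit 262297118493) (nat_lit 420) (nat_lit 146831679202) (nat_lit 90) (nat_lit 1) (nat_lit 89) (nat_lit 1) (nat_lit 94) (nat_lit 1) (nat_lit 241) (nat_lit 427) (nat_lit 412)) (XT.lf (nat_lit 336) (nat_lit 34435173347) (nat_lit 0) (nat_lit 232868594288) (nat_lit 252) (nat_lit 136466348157) (nat_lit 90) (nat_lit 1) (nat_lit 86) (nat_lit 1) (nat_lit 89) (nat_lit 1) (nat_lit 242) (nat_lit 427) (nat_lit 411))))))))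
noncomputable def ec286 : XT := (XT.nd (nat_lit 1692) (nat_lit 2688) (nat_lit 0) (XT.nd (nat_lit 846) (nat_lit 1512) (nat_lit 0) (XT.nd (nat_lit 376) (nat_lit 1176) (nat_lit 0) (XT.nd (nat_lit 188) (nat_lit 588) (nat_lit 0) (XT.nd (nat_lit 94) (nat_lit 252) (nat_lit 0) (XT.lf (nat_lit 84) (nat_lit 118982782147) (nat_lit 0) (nat_lit 81551538210) (nat_lit 420) (nat_lit 190788258796) (nat_lit 82) (nat_lit 1) (nat_lit 81) (nat_lit 1) (nat_lit 86) (nat_lit 1) (nat_lit 243) (nat_lit 427) (nat_lit 410)) (XT.lf (nat_lit 336) (nat_lit 184213965835) (nat_lit 0) (nat_lit 173045211807) (nat_lit 252) (nat_lit 22149581736) (nat_lit 82) (nat_lit 1) (nat_lit 78) (nat_lit 1) (nat_lit 81) (nat_lit 1) (nat_lit 244) (nat_lit 427) (nat_lit 409))) (XT.nd (nat_lit 94) (nat_lit 336) (nat_lit 0) (XT.lf (nat_lit 336) (nat_lit 59039686101) (nat_lit 0) (nat_lit 148984841234) (nat_lit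 252) (nat_lit 159928263690) (nat_lit 79) (nat_lit 1) (nat_lit 75) (nat_lit 1) (nat_lit 78) (nat_lit 1) (nat_lit 245) (nat_lit 427) (nat_lit 408)) (XT.lf (nat_lit 84) (nat_lit 67290976265) (nat_lit 0) (nat_lit 61610736486) (nat_lit 336) (nat_lit 228070897856) (nat_lit 72) (nat_lit 1) (nat_lit 71) (nat_lit 1) (nat_lit 75) (nat_lit 1) (nat_lit 246) (nat_lit 427) (nat_lit 407)))) (XT.nd (nat_lit 188) (nat_lit 756) (nat_lit 0) (XT.nd (nat_lit 94) (nat_lit 168) (nat_lit 0) (XT.lf (nat_lit 336) (nat_lit 167444762517) (nat_lit 0) (nat_lit 111411539956) (nat_lit 252) (nat_lit 67538041824) (nat_lit 72) (nat_lit 1) (nat_lit 68) (nat_lit 1) (nat_lit 71) (nat_lit 1) (nat_lit 247) (nat_lit 427) (nat_lit 406)) (XT.lf (nat_lit 252) (nat_lit 41509803871) (nat_lit 0) (nat_lit 97198442231) (nat_lit 168) (nat_lit 197534588659) (nat_lit 69) (nat_lit 1) (nat_lit 66) (nat_lit 1)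 (nat_lit 68) (nat_lit 1) (nat_lit 248) (nat_lit 427) (nat_lit 405))) (XT.nd (nat_lit 94) (nat_lit 420) (nat_lit 0) (XT.lf (nat_lit 84) (nat_lit 7032025972) (nat_lit 0) (nat_lit 78689897210) (nat_lit 336) (nat_lit 240762901296) (nat_lit 63) (nat_lit 1) (nat_lit 62) (nat_lit 1) (nat_lit 66) (nat_lit 1) (nat_lit 249) (nat_lit 427) (nat_lit 404)) (XT.nd (nat_lit 94) (nat_lit 252) (nat_lit 0) (XT.lf (nat_lit 252) (nat_lit 120619873538) (nat_lit 0) (nat_lit 75377073002) (nat_lit 168) (nat_lit 121039631911) (nat_lit 63) (nat_lit 1) (nat_lit 60) (nat_lit 1) (nat_lit 62) (nat_lit 1) (nat_lit 250) (nat_lit 427) (nat_lit 403)) (XT.lf (nat_lit 84) (nat_lit 65443302646) (nat_lit 0) (nat_lit 3022867178) (nat_lit 252) (nat_lit 239534451498) (nat_lit 58) (nat_lit 1) (nat_lit 57) (nat_lit 1) (nat_lit 60) (nat_lit 1) (nat_lit 251) (nat_lit 427) (nat_lit 402)))))) (XT.nd (nat_lit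 376) (nat_lit 756) (nat_lit 0) (XT.nd (nat_lit 188) (nat_lit 420) (nat_lit 0) (XT.nd (nat_lit 94) (nat_lit 168) (nat_lit 0) (XT.lf (nat_lit 252) (nat_lit 178909352032) (nat_lit 0) (nat_lit 61996101963) (nat_lit 168) (nat_lit 58322059760) (nat_lit 58) (nat_lit 1) (nat_lit 55) (nat_lit 1) (nat_lit 57) (nat_lit 1) (nat_lit 252) (nat_lit 427) (nat_lit 401)) (XT.lf (nat_lit 252) (nat_lit 55576414139) (nat_lit 0) (nat_lit 57632232408) (nat_lit 168) (nat_lit 177581193940) (nat_lit 56) (nat_lit 1) (nat_lit 53) (nat_lit 1) (nat_lit 55) (nat_lit 1) (nat_lit 253) (nat_lit 427) (nat_lit 400))) (XT.nd (nat_lit 94) (nat_lit 168) (nat_lit 0) (XT.lf (nat_lit 252) (nat_lit 220617939227) (nat_lit 0) (nat_lit 55062920342) (nat_lit 168) (nat_lit 6985370267) (nat_lit 53) (nat_lit 1) (nat_lit 50) (nat_lit 1) (nat_lit 52) (nat_lit 1) (nat_lit 254) (nat_lit 427) (nat_lit 399)) (XT.lf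 (nat_lit 252) (nat_lit 98738364821) (nat_lit 0) (nat_lit 52566524643) (nat_lit 168) (nat_lit 123463459219) (nat_lit 51) (nat_lit 1) (nat_lit 48) (nat_lit 1) (nat_lit 50) (nat_lit 1) (nat_lit 255) (nat_lit 427) (nat_lit 398)))) (XT.nd (nat_lit 188) (nat_lit 420) (nat_lit 0) (XT.nd (nat_lit 94) (nat_lit 168) (nat_lit 0) (XT.lf (nat_lit 84) (nat_lit 33821702133) (nat_lit 0) (nat_lit 18589931543) (nat_lit 168) (nat_lit 214786417557) (nat_lit 47) (nat_lit 1) (nat_lit 46) (nat_lit 1) (nat_lit 48) (nat_lit 1) (nat_lit 256) (nat_lit 427) (nat_lit 397)) (XT.lf (nat_lit 252) (nat_lit 129550413158) (nat_lit 0) (nat_lit 51856652816) (nat_lit 168) (nat_lit 78411717067) (nat_lit 47) (nat_lit 1) (nat_lit 44) (nat_lit 1) (nat_lit 46) (nat_lit 1) (nat_lit 257) (nat_lit 427) (nat_lit 396))) (XT.nd (nat_lit 94) (nat_lit 336) (nat_lit 0) (XT.lf (nat_lit 168) (nat_lit 13950738609)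 (nat_lit 0) (nat_lit 53130319222) (nat_lit 84) (nat_lit 185649781030) (nat_lit 45) (nat_lit 1) (nat_lit 43) (nat_lit 1) (nat_lit 44) (nat_lit 1) (nat_lit 258) (nat_lit 427) (nat_lit 395)) (XT.nd (nat_lit 94) (nat_lit 84) (nat_lit 0) (XT.lf (nat_lit 252) (nat_lit 150593072735) (nat_lit 0) (nat_lit 54338138556) (nat_lit 168) (nat_lit 40907119896) (nat_lit 43) (nat_lit 1) (nat_lit 40) (nat_lit 1) (nat_lit 42) (nat_lit 1) (nat_lit 259) (nat_lit 427) (nat_lit 394)) (XT.lf (nat_lit 168) (nat_lit 37875268262) (nat_lit 0) (nat_lit 56369896312) (nat_lit 84) (nat_lit 144932950294) (nat_lit 41) (nat_lit 1) (nat_lit 39) (nat_lit 1) (nat_lit 40) (nat_lit 1) (nat_lit 260) (nat_lit 427) (nat_lit 393))))))) (XT.nd (nat_lit 846) (nat_lit 1260) (nat_lit 0) (XT.nd (nat_lit 376) (nat_lit 756) (nat_lit 0) (XT.nd (nat_lit 188) (nat_lit 336) (nat_lit 0) (XT.nd (nat_lit 94) (nat_lit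 84) (nat_lit 0) (XT.lf (nat_lit 252) (nat_lit 163952721750) (nat_lit 0) (nat_lit 59088633088) (nat_lit 168) (nat_lit 9696950516) (nat_lit 39) (nat_lit 1) (nat_lit 36) (nat_lit 1) (nat_lit 38) (nat_lit 1) (nat_lit 261) (nat_lit 427) (nat_lit 392)) (XT.lf (nat_lit 168) (nat_lit 54507707213) (nat_lit 0) (nat_lit 61600610017) (nat_lit 84) (nat_lit 110362812714) (nat_lit 37) (nat_lit 1) (nat_lit 35) (nat_lit 1) (nat_lit 36) (nat_lit 1) (nat_lit 262) (nat_lit 427) (nat_lit 391))) (XT.nd (nat_lit 94) (nat_lit 84) (nat_lit 0) (XT.lf (nat_lit 84) (nat_lit 15733093508) (nat_lit 0) (nat_lit 49381986689) (nat_lit 252) (nat_lit 155314023038) (nat_lit 33) (nat_lit 1) (nat_lit 32) (nat_lit 1) (nat_lit 35) (nat_lit 1) (nat_lit 263) (nat_lit 427) (nat_lit 390)) (XT.lf (nat_lit 168) (nat_lit 65414166491) (nat_lit 0) (nat_lit 68158460923) (nat_lit 84) (nat_lit 80964499126) (nat_lit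 33) (nat_lit 1) (nat_lit 31) (nat_lit 1) (nat_lit 32) (nat_lit 1) (nat_lit 264) (nat_lit 427) (nat_lit 389)))) (XT.nd (nat_lit 188) (nat_lit 420) (nat_lit 0) (XT.nd (nat_lit 94) (nat_lit 84) (nat_lit 0) (XT.lf (nat_lit 84) (nat_lit 36589317277) (nat_lit 0) (nat_lit 35439227946) (nat_lit 252) (nat_lit 136823663114) (nat_lit 29) (nat_lit 1) (nat_lit 28) (nat_lit 1) (nat_lit 31) (nat_lit 1) (nat_lit 265) (nat_lit 427) (nat_lit 388)) (XT.lf (nat_lit 168) (nat_lit 71857608668) (nat_lit 0) (nat_lit 75525122538) (nat_lit 84) (nat_lit 55929806434) (nat_lit 29) (nat_lit 1) (nat_lit 27) (nat_lit 1) (nat_lit 28) (nat_lit 1) (nat_lit 266) (nat_lit 427) (nat_lit 387))) (XT.nd (nat_lit 94) (nat_lit 252) (nat_lit 0) (XT.lf (nat_lit 84) (nat_lit 53867935949) (nat_lit 0) (nat_lit 25667107627) (nat_lit 168) (nat_lit 118420773150) (nat_lit 26) (nat_lit 1) (nat_lit 25) (nat_lit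 1) (nat_lit 27) (nat_lit 1) (nat_lit 267) (nat_lit 427) (nat_lit 386)) (XT.nd (nat_lit 94) (nat_lit 168) (nat_lit 0) (XT.lf (nat_lit 168) (nat_lit 74854493240) (nat_lit 0) (nat_lit 83299550283) (nat_lit 84) (nat_lit 34587467825) (nat_lit 26) (nat_lit 1) (nat_lit 24) (nat_lit 1) (nat_lit 25) (nat_lit 1) (nat_lit 268) (nat_lit 427) (nat_lit 385)) (XT.lf (nat_lit 84) (nat_lit 68137930427) (nat_lit 0) (nat_lit 19147996971) (nat_lit 168) (nat_lit 100401665151) (nat_lit 23) (nat_lit 1) (nat_lit 22) (nat_lit 1) (nat_lit 24) (nat_lit 1) (nat_lit 269) (nat_lit 427) (nat_lit 384)))))) (XT.nd (nat_lit 470) (nat_lit 672) (nat_lit 0) (XT.nd (nat_lit 188) (nat_lit 336) (nat_lit 0) (XT.nd (nat_lit 94) (nat_lit 168) (nat_lit 0) (XT.lf (nat_lit 168) (nat_lit 75220964888) (nat_lit 0) (nat_lit 91174907857) (nat_lit 84) (nat_lit 16378822688) (nat_lit 23) (nat_lit 1) (nat_lit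 21) (nat_lit 1) (nat_lit 22) (nat_lit 1) (nat_lit 270) (nat_lit 427) (nat_lit 383)) (XT.lf (nat_lit 84) (nat_lit 79872187334) (nat_lit 0) (nat_lit 15144037140) (nat_lit 168) (nat_lit 82984917655) (nat_lit 20) (nat_lit 1) (nat_lit 19) (nat_lit 1) (nat_lit 21) (nat_lit 1) (nat_lit 271) (nat_lit 427) (nat_lit 382))) (XT.nd (nat_lit 94) (nat_lit 252) (nat_lit 0) (XT.lf (nat_lit 168) (nat_lit 73610507213) (nat_lit 0) (nat_lit 98919828590) (nat_lit 84) (nat_lit 837898903) (nat_lit 20) (nat_lit 1) (nat_lit 18) (nat_lit 1) (nat_lit 19) (nat_lit 1) (nat_lit 272) (nat_lit 427) (nat_lit 381)) (XT.nd (nat_lit 94) (nat_lit 84) (nat_lit 0) (XT.lf (nat_lit 84) (nat_lit 89464508634) (nat_lit 0) (nat_lit 13063384215) (nat_lit 168) (nat_lit 66327216477) (nat_lit 17) (nat_lit 1) (nat_lit 16) (nat_lit 1) (nat_lit 18) (nat_lit 1) (nat_lit 273) (nat_lit 427) (nat_lit 380)) (XT.lf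 (nat_lit 0) (nat_lit 12027224501) (nat_lit 0) (nat_lit 94132298680) (nat_lit 168) (nat_lit 58313720125) (nat_lit 15) (nat_lit 3) (nat_lit 15) (nat_lit 1) (nat_lit 17) (nat_lit 1) (nat_lit 274) (nat_lit 427) (nat_lit 379))))) (XT.nd (nat_lit 188) (nat_lit 420) (nat_lit 0) (XT.nd (nat_lit 94) (nat_lit 84) (nat_lit 0) (XT.lf (nat_lit 84) (nat_lit 97243542280) (nat_lit 0) (nat_lit 12432696852) (nat_lit 168) (nat_lit 50536188286) (nat_lit 14) (nat_lit 1) (nat_lit 13) (nat_lit 1) (nat_lit 15) (nat_lit 1) (nat_lit 275) (nat_lit 427) (nat_lit 378)) (XT.lf (nat_lit 0) (nat_lit 22976448319) (nat_lit 0) (nat_lit 90016322069) (nat_lit 168) (nat_lit 43072316274) (nat_lit 12) (nat_lit 3) (nat_lit 12) (nat_lit 1) (nat_lit 14) (nat_lit 1) (nat_lit 276) (nat_lit 427) (nat_lit 377))) (XT.nd (nat_lit 94) (nat_lit 252) (nat_lit 0) (XT.lf (nat_lit 84) (nat_lit 103484196157) (nat_lit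 0) (nat_lit 12874718154) (nat_lit 168) (nat_lit 35680784958) (nat_lit 11) (nat_lit 1) (nat_lit 10) (nat_lit 1) (nat_lit 12) (nat_lit 1) (nat_lit 277) (nat_lit 427) (nat_lit 376)) (XT.nd (nat_lit 94) (nat_lit 168) (nat_lit 0) (XT.lf (nat_lit 0) (nat_lit 32302329311) (nat_lit 0) (nat_lit 87041268620) (nat_lit 168) (nat_lit 28768818058) (nat_lit 9) (nat_lit 3) (nat_lit 9) (nat_lit 1) (nat_lit 11) (nat_lit 1) (nat_lit 278) (nat_lit 427) (nat_lit 375)) (XT.lf (nat_lit 84) (nat_lit 108416994579) (nat_lit 0) (nat_lit 14090014206) (nat_lit 168) (nat_lit 21799673941) (nat_lit 8) (nat_lit 1) (nat_lit 7) (nat_lit 1) (nat_lit 9) (nat_lit 1) (nat_lit 279) (nat_lit 427) (nat_lit 374))))))))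
noncomputable def ec287 : XT := (XT.nd (nat_lit 1786) (nat_lit 0) (nat_lit 0) (XT.nd (nat_lit 846) (nat_lit 0) (nat_lit 0) (XT.nd (nat_lit 376) (nat_lit 0) (nat_lit 0) (XT.nd (nat_lit 188) (nat_lit 336) (nat_lit 0) (XT.nd (nat_lit 94) (nat_lit 168) (nat_lit 0) (XT.lf (nat_lit 0) (nat_lit 40228912130) (nat_lit 0) (nat_lit 84923976560) (nat_lit 168) (nat_lit 15433315659) (nat_lit 6) (nat_lit 3) (nat_lit 6) (nat_lit 1) (nat_lit 8) (nat_lit 1) (nat_lit 280) (nat_lit 427) (nat_lit 373)) (XT.lf (nat_lit 84) (nat_lit 112235752496) (nat_lit 0) (nat_lit 15842103885) (nat_lit 168) (nat_lit 8908005950) (nat_lit 5) (nat_lit 1) (nat_lit 4) (nat_lit 1) (nat_lit 6) (nat_lit 1) (nat_lit 281) (nat_lit 427) (nat_lit 372))) (XT.nd (nat_lit 94) (nat_lit 252) (nat_lit 0) (XT.lf (nat_lit 0) (nat_lit 46945685119) (nat_lit 0) (nat_lit 83439793511) (nat_lit 168) (nat_lit 3074522786)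 (nat_lit 3) (nat_lit 3) (nat_lit 3) (nat_lit 1) (nat_lit 5) (nat_lit 1) (nat_lit 282) (nat_lit 427) (nat_lit 371)) (XT.lf (nat_lit 0) (nat_lit 188651862289) (nat_lit 0) (nat_lit 0) (nat_lit 0) (nat_lit 0) (nat_lit 0) (nat_lit 0) (nat_lit 1) (nat_lit 0) (nat_lit 1) (nat_lit 0) (nat_lit 283) (nat_lit 427) (nat_lit 370)))) (XT.nd (nat_lit 188) (nat_lit 0) (nat_lit 0) (XT.nd (nat_lit 94) (nat_lit 0) (nat_lit 0) (XT.lf (nat_lit 0) (nat_lit 188480149099) (nat_lit 0) (nat_lit 0) (nat_lit 0) (nat_lit 0) (nat_lit 0) (nat_lit 0) (nat_lit 1) (nat_lit 0) (nat_lit 1) (nat_lit 0) (nat_lit 284) (nat_lit 427) (nat_lit 369)) (XT.lf (nat_lit 0) (nat_lit 188321155405) (nat_lit 0) (nat_lit 0) (nat_lit 0) (nat_lit 0) (nat_lit 0) (nat_lit 0) (nat_lit 1) (nat_lit 0) (nat_lit 1) (nat_lit 0) (nat_lit 285) (nat_lit 427) (nat_lit 368))) (XT.nd (nat_lit 94) (nat_lit 0) (nat_lit 0) (XT.lf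 (nat_lit 0) (nat_lit 188173939021) (nat_lit 0) (nat_lit 0) (nat_lit 0) (nat_lit 0) (nat_lit 0) (nat_lit 0) (nat_lit 1) (nat_lit 0) (nat_lit 1) (nat_lit 0) (nat_lit 286) (nat_lit 427) (nat_lit 367)) (XT.nd (nat_lit 94) (nat_lit 0) (nat_lit 0) (XT.lf (nat_lit 0) (nat_lit 188037627555) (nat_lit 0) (nat_lit 0) (nat_lit 0) (nat_lit 0) (nat_lit 0) (nat_lit 0) (nat_lit 1) (nat_lit 0) (nat_lit 1) (nat_lit 0) (nat_lit 287) (nat_lit 427) (nat_lit 366)) (XT.lf (nat_lit 0) (nat_lit 187911413234) (nat_lit 0) (nat_lit 0) (nat_lit 0) (nat_lit 0) (nat_lit 0) (nat_lit 0) (nat_lit 1) (nat_lit 0) (nat_lit 1) (nat_lit 0) (nat_lit 288) (nat_lit 427) (nat_lit 365)))))) (XT.nd (nat_lit 470) (nat_lit 0) (nat_lit 0) (XT.nd (nat_lit 188) (nat_lit 0) (nat_lit 0) (XT.nd (nat_lit 94) (nat_lit 0) (nat_lit 0) (XT.lf (nat_lit 0) (nat_lit 187794548122) (nat_lit 0) (nat_lit 0) (nat_lit 0)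 (nat_lit 0) (nat_lit 0) (nat_lit 0) (nat_lit 1) (nat_lit 0) (nat_lit 1) (nat_lit 0) (nat_lit 289) (nat_lit 427) (nat_lit 364)) (XT.lf (nat_lit 0) (nat_lit 187686339685) (nat_lit 0) (nat_lit 0) (nat_lit 0) (nat_lit 0) (nat_lit 0) (nat_lit 0) (nat_lit 1) (nat_lit 0) (nat_lit 1) (nat_lit 0) (nat_lit 290) (nat_lit 427) (nat_lit 363))) (XT.nd (nat_lit 94) (nat_lit 0) (nat_lit 0) (XT.lf (nat_lit 0) (nat_lit 187586146688) (nat_lit 0) (nat_lit 0) (nat_lit 0) (nat_lit 0) (nat_lit 0) (nat_lit 0) (nat_lit 1) (nat_lit 0) (nat_lit 1) (nat_lit 0) (nat_lit 291) (nat_lit 427) (nat_lit 362)) (XT.nd (nat_lit 94) (nat_lit 0) (nat_lit 0) (XT.lf (nat_lit 0) (nat_lit 187493375395) (nat_lit 0) (nat_lit 0) (nat_lit 0) (nat_lit 0) (nat_lit 0) (nat_lit 0) (nat_lit 1) (nat_lit 0) (nat_lit 1) (nat_lit 0) (nat_lit 292) (nat_lit 427) (nat_lit 361)) (XT.lf (nat_lit 0) (nat_lit 187407476049)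 (nat_lit 0) (nat_lit 0) (nat_lit 0) (nat_lit 0) (nat_lit 0) (nat_lit 0) (nat_lit 1) (nat_lit 0) (nat_lit 1) (nat_lit 0) (nat_lit 293) (nat_lit 427) (nat_lit 360))))) (XT.nd (nat_lit 188) (nat_lit 0) (nat_lit 0) (XT.nd (nat_lit 94) (nat_lit 0) (nat_lit 0) (XT.lf (nat_lit 0) (nat_lit 187327939617) (nat_lit 0) (nat_lit 0) (nat_lit 0) (nat_lit 0) (nat_lit 0) (nat_lit 0) (nat_lit 1) (nat_lit 0) (nat_lit 1) (nat_lit 0) (nat_lit 294) (nat_lit 427) (nat_lit 359)) (XT.lf (nat_lit 0) (nat_lit 187254294774) (nat_lit 0) (nat_lit 0) (nat_lit 0) (nat_lit 0) (nat_lit 0) (nat_lit 0) (nat_lit 1) (nat_lit 0) (nat_lit 1) (nat_lit 0) (nat_lit 295) (nat_lit 427) (nat_lit 358))) (XT.nd (nat_lit 94) (nat_lit 0) (nat_lit 0) (XT.lf (nat_lit 0) (nat_lit 187186105103) (nat_lit 0) (nat_lit 0) (nat_lit 0) (nat_lit 0) (nat_lit 0) (nat_lit 0) (nat_lit 1) (nat_lit 0) (nat_lit 1) (nat_lit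 0) (nat_lit 296) (nat_lit 427) (nat_lit 357)) (XT.nd (nat_lit 94) (nat_lit 0) (nat_lit 0) (XT.lf (nat_lit 0) (nat_lit 187122966520) (nat_lit 0) (nat_lit 0) (nat_lit 0) (nat_lit 0) (nat_lit 0) (nat_lit 0) (nat_lit 1) (nat_lit 0) (nat_lit 1) (nat_lit 0) (nat_lit 297) (nat_lit 427) (nat_lit 356)) (XT.lf (nat_lit 0) (nat_lit 187064504868) (nat_lit 0) (nat_lit 0) (nat_lit 0) (nat_lit 0) (nat_lit 0) (nat_lit 0) (nat_lit 1) (nat_lit 0) (nat_lit 1) (nat_lit 0) (nat_lit 298) (nat_lit 427) (nat_lit 355))))))) (XT.nd (nat_lit 846) (nat_lit 0) (nat_lit 0) (XT.nd (nat_lit 376) (nat_lit 0) (nat_lit 0) (XT.nd (nat_lit 188) (nat_lit 0) (nat_lit 0) (XT.nd (nat_lit 94) (nat_lit 0) (nat_lit 0) (XT.lf (nat_lit 0) (nat_lit 187010373709) (nat_lit 0) (nat_lit 0) (nat_lit 0) (nat_lit 0) (nat_lit 0) (nat_lit 0) (nat_lit 1) (nat_lit 0) (nat_lit 1) (nat_lit 0) (nat_lit 299) (nat_lit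 427) (nat_lit 354)) (XT.lf (nat_lit 0) (nat_lit 186960252266) (nat_lit 0) (nat_lit 0) (nat_lit 0) (nat_lit 0) (nat_lit 0) (nat_lit 0) (nat_lit 1) (nat_lit 0) (nat_lit 1) (nat_lit 0) (nat_lit 300) (nat_lit 427) (nat_lit 353))) (XT.nd (nat_lit 94) (nat_lit 0) (nat_lit 0) (XT.lf (nat_lit 0) (nat_lit 186913843522) (nat_lit 0) (nat_lit 0) (nat_lit 0) (nat_lit 0) (nat_lit 0) (nat_lit 0) (nat_lit 1) (nat_lit 0) (nat_lit 1) (nat_lit 0) (nat_lit 301) (nat_lit 427) (nat_lit 352)) (XT.lf (nat_lit 0) (nat_lit 186870872463) (nat_lit 0) (nat_lit 0) (nat_lit 0) (nat_lit 0) (nat_lit 0) (nat_lit 0) (nat_lit 1) (nat_lit 0) (nat_lit 1) (nat_lit 0) (nat_lit 302) (nat_lit 427) (nat_lit 351)))) (XT.nd (nat_lit 188) (nat_lit 0) (nat_lit 0) (XT.nd (nat_lit 94) (nat_lit 0) (nat_lit 0) (XT.lf (nat_lit 0) (nat_lit 186831084446) (nat_lit 0) (nat_lit 0) (nat_lit 0) (nat_lit 0) (nat_lit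 0) (nat_lit 0) (nat_lit 1) (nat_lit 0) (nat_lit 1) (nat_lit 0) (nat_lit 303) (nat_lit 427) (nat_lit 350)) (XT.lf (nat_lit 0) (nat_lit 186794243689) (nat_lit 0) (nat_lit 0) (nat_lit 0) (nat_lit 0) (nat_lit 0) (nat_lit 0) (nat_lit 1) (nat_lit 0) (nat_lit 1) (nat_lit 0) (nat_lit 304) (nat_lit 427) (nat_lit 349))) (XT.nd (nat_lit 94) (nat_lit 0) (nat_lit 0) (XT.lf (nat_lit 0) (nat_lit 186760131876) (nat_lit 0) (nat_lit 0) (nat_lit 0) (nat_lit 0) (nat_lit 0) (nat_lit 0) (nat_lit 1) (nat_lit 0) (nat_lit 1) (nat_lit 0) (nat_lit 305) (nat_lit 427) (nat_lit 348)) (XT.nd (nat_lit 94) (nat_lit 0) (nat_lit 0) (XT.lf (nat_lit 0) (nat_lit 186728546865) (nat_lit 0) (nat_lit 0) (nat_lit 0) (nat_lit 0) (nat_lit 0) (nat_lit 0) (nat_lit 1) (nat_lit 0) (nat_lit 1) (nat_lit 0) (nat_lit 306) (nat_lit 427) (nat_lit 347)) (XT.lf (nat_lit 0) (nat_lit 186699301484) (nat_lit 0) (nat_lit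 0) (nat_lit 0) (nat_lit 0) (nat_lit 0) (nat_lit 0) (nat_lit 1) (nat_lit 0) (nat_lit 1) (nat_lit 0) (nat_lit 307) (nat_lit 427) (nat_lit 346)))))) (XT.nd (nat_lit 470) (nat_lit 0) (nat_lit 0) (XT.nd (nat_lit 188) (nat_lit 0) (nat_lit 0) (XT.nd (nat_lit 94) (nat_lit 0) (nat_lit 0) (XT.lf (nat_lit 0) (nat_lit 186672222428) (nat_lit 0) (nat_lit 0) (nat_lit 0) (nat_lit 0) (nat_lit 0) (nat_lit 0) (nat_lit 1) (nat_lit 0) (nat_lit 1) (nat_lit 0) (nat_lit 308) (nat_lit 427) (nat_lit 345)) (XT.lf (nat_lit 0) (nat_lit 186647149228) (nat_lit 0) (nat_lit 0) (nat_lit 0) (nat_lit 0) (nat_lit 0) (nat_lit 0) (nat_lit 1) (nat_lit 0) (nat_lit 1) (nat_lit 0) (nat_lit 309) (nat_lit 427) (nat_lit 344))) (XT.nd (nat_lit 94) (nat_lit 0) (nat_lit 0) (XT.lf (nat_lit 0) (nat_lit 186623933302) (nat_lit 0) (nat_lit 0) (nat_lit 0) (nat_lit 0) (nat_lit 0) (nat_lit 0) (nat_lit 1) (nat_lit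 0) (nat_lit 1) (nat_lit 0) (nat_lit 310) (nat_lit 427) (nat_lit 343)) (XT.nd (nat_lit 94) (nat_lit 0) (nat_lit 0) (XT.lf (nat_lit 0) (nat_lit 186602437074) (nat_lit 0) (nat_lit 0) (nat_lit 0) (nat_lit 0) (nat_lit 0) (nat_lit 0) (nat_lit 1) (nat_lit 0) (nat_lit 1) (nat_lit 0) (nat_lit 311) (nat_lit 427) (nat_lit 342)) (XT.lf (nat_lit 0) (nat_lit 186582533159) (nat_lit 0) (nat_lit 0) (nat_lit 0) (nat_lit 0) (nat_lit 0) (nat_lit 0) (nat_lit 1) (nat_lit 0) (nat_lit 1) (nat_lit 0) (nat_lit 312) (nat_lit 427) (nat_lit 341))))) (XT.nd (nat_lit 188) (nat_lit 0) (nat_lit 0) (XT.nd (nat_lit 94) (nat_lit 0) (nat_lit 0) (XT.lf (nat_lit 0) (nat_lit 186564103608) (nat_lit 0) (nat_lit 0) (nat_lit 0) (nat_lit 0) (nat_lit 0) (nat_lit 0) (nat_lit 1) (nat_lit 0) (nat_lit 1) (nat_lit 0) (nat_lit 313) (nat_lit 427) (nat_lit 340)) (XT.lf (nat_lit 0) (nat_lit 186547039210) (nat_lit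 0) (nat_lit 0) (nat_lit 0) (nat_lit 0) (nat_lit 0) (nat_lit 0) (nat_lit 1) (nat_lit 0) (nat_lit 1) (nat_lit 0) (nat_lit 314) (nat_lit 427) (nat_lit 339))) (XT.nd (nat_lit 94) (nat_lit 0) (nat_lit 0) (XT.lf (nat_lit 0) (nat_lit 186531238840) (nat_lit 0) (nat_lit 0) (nat_lit 0) (nat_lit 0) (nat_lit 0) (nat_lit 0) (nat_lit 1) (nat_lit 0) (nat_lit 1) (nat_lit 0) (nat_lit 315) (nat_lit 427) (nat_lit 338)) (XT.nd (nat_lit 94) (nat_lit 0) (nat_lit 0) (XT.lf (nat_lit 0) (nat_lit 186516608869) (nat_lit 0) (nat_lit 0) (nat_lit 0) (nat_lit 0) (nat_lit 0) (nat_lit 0) (nat_lit 1) (nat_lit 0) (nat_lit 1) (nat_lit 0) (nat_lit 316) (nat_lit 427) (nat_lit 337)) (XT.lf (nat_lit 0) (nat_lit 186503062599) (nat_lit 0) (nat_lit 0) (nat_lit 0) (nat_lit 0) (nat_lit 0) (nat_lit 0) (nat_lit 1) (nat_lit 0) (nat_lit 1) (nat_lit 0) (nat_lit 317) (nat_lit 427) (nat_lit 336))))))))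
noncomputable def ec288 : XT := (XT.nd (nat_lit 1692) (nat_lit 0) (nat_lit 0) (XT.nd (nat_lit 846) (nat_lit 0) (nat_lit 0) (XT.nd (nat_lit 376) (nat_lit 0) (nat_lit 0) (XT.nd (nat_lit 188) (nat_lit 0) (nat_lit 0) (XT.nd (nat_lit 94) (nat_lit 0) (nat_lit 0) (XT.lf (nat_lit 0) (nat_lit 186490519756) (nat_lit 0) (nat_lit 0) (nat_lit 0) (nat_lit 0) (nat_lit 0) (nat_lit 0) (nat_lit 1) (nat_lit 0) (nat_lit 1) (nat_lit 0) (nat_lit 318) (nat_lit 427) (nat_lit 335)) (XT.lf (nat_lit 0) (nat_lit 186478906013) (nat_lit 0) (nat_lit 0) (nat_lit 0) (nat_lit 0) (nat_lit 0) (nat_lit 0) (nat_lit 1) (nat_lit 0) (nat_lit 1) (nat_lit 0) (nat_lit 319) (nat_lit 427) (nat_lit 334))) (XT.nd (nat_lit 94) (nat_lit 0) (nat_lit 0) (XT.lf (nat_lit 0) (nat_lit 186468152548) (nat_lit 0) (nat_lit 0) (nat_lit 0) (nat_lit 0) (nat_lit 0) (nat_lit 0) (nat_lit 1) (nat_lit 0) (nat_lit 1) (nat_lit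 0) (nat_lit 320) (nat_lit 427) (nat_lit 333)) (XT.lf (nat_lit 0) (nat_lit 186458195635) (nat_lit 0) (nat_lit 0) (nat_lit 0) (nat_lit 0) (nat_lit 0) (nat_lit 0) (nat_lit 1) (nat_lit 0) (nat_lit 1) (nat_lit 0) (nat_lit 321) (nat_lit 427) (nat_lit 332)))) (XT.nd (nat_lit 188) (nat_lit 0) (nat_lit 0) (XT.nd (nat_lit 94) (nat_lit 0) (nat_lit 0) (XT.lf (nat_lit 0) (nat_lit 186448976271) (nat_lit 0) (nat_lit 0) (nat_lit 0) (nat_lit 0) (nat_lit 0) (nat_lit 0) (nat_lit 1) (nat_lit 0) (nat_lit 1) (nat_lit 0) (nat_lit 322) (nat_lit 427) (nat_lit 331)) (XT.lf (nat_lit 0) (nat_lit 186440439823) (nat_lit 0) (nat_lit 0) (nat_lit 0) (nat_lit 0) (nat_lit 0) (nat_lit 0) (nat_lit 1) (nat_lit 0) (nat_lit 1) (nat_lit 0) (nat_lit 323) (nat_lit 427) (nat_lit 330))) (XT.nd (nat_lit 94) (nat_lit 0) (nat_lit 0) (XT.lf (nat_lit 0) (nat_lit 186432535705) (nat_lit 0) (nat_lit 0) (nat_lit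 0) (nat_lit 0) (nat_lit 0) (nat_lit 0) (nat_lit 1) (nat_lit 0) (nat_lit 1) (nat_lit 0) (nat_lit 324) (nat_lit 427) (nat_lit 329)) (XT.nd (nat_lit 94) (nat_lit 0) (nat_lit 0) (XT.lf (nat_lit 0) (nat_lit 186425217077) (nat_lit 0) (nat_lit 0) (nat_lit 0) (nat_lit 0) (nat_lit 0) (nat_lit 0) (nat_lit 1) (nat_lit 0) (nat_lit 1) (nat_lit 0) (nat_lit 325) (nat_lit 427) (nat_lit 328)) (XT.lf (nat_lit 0) (nat_lit 186418440569) (nat_lit 0) (nat_lit 0) (nat_lit 0) (nat_lit 0) (nat_lit 0) (nat_lit 0) (nat_lit 1) (nat_lit 0) (nat_lit 1) (nat_lit 0) (nat_lit 326) (nat_lit 427) (nat_lit 327)))))) (XT.nd (nat_lit 376) (nat_lit 0) (nat_lit 0) (XT.nd (nat_lit 188) (nat_lit 0) (nat_lit 0) (XT.nd (nat_lit 94) (nat_lit 0) (nat_lit 0) (XT.lf (nat_lit 0) (nat_lit 186412166025) (nat_lit 0) (nat_lit 0) (nat_lit 0) (nat_lit 0) (nat_lit 0) (nat_lit 0) (nat_lit 1) (nat_lit 0) (nat_lit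 1) (nat_lit 0) (nat_lit 327) (nat_lit 427) (nat_lit 326)) (XT.lf (nat_lit 0) (nat_lit 186406356262) (nat_lit 0) (nat_lit 0) (nat_lit 0) (nat_lit 0) (nat_lit 0) (nat_lit 0) (nat_lit 1) (nat_lit 0) (nat_lit 1) (nat_lit 0) (nat_lit 328) (nat_lit 427) (nat_lit 325))) (XT.nd (nat_lit 94) (nat_lit 0) (nat_lit 0) (XT.lf (nat_lit 0) (nat_lit 186400976852) (nat_lit 0) (nat_lit 0) (nat_lit 0) (nat_lit 0) (nat_lit 0) (nat_lit 0) (nat_lit 1) (nat_lit 0) (nat_lit 1) (nat_lit 0) (nat_lit 329) (nat_lit 427) (nat_lit 324)) (XT.lf (nat_lit 0) (nat_lit 186395995917) (nat_lit 0) (nat_lit 0) (nat_lit 0) (nat_lit 0) (nat_lit 0) (nat_lit 0) (nat_lit 1) (nat_lit 0) (nat_lit 1) (nat_lit 0) (nat_lit 330) (nat_lit 427) (nat_lit 323)))) (XT.nd (nat_lit 188) (nat_lit 0) (nat_lit 0) (XT.nd (nat_lit 94) (nat_lit 0) (nat_lit 0) (XT.lf (nat_lit 0) (nat_lit 186391383939) (nat_lit 0) (nat_lit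 0) (nat_lit 0) (nat_lit 0) (nat_lit 0) (nat_lit 0) (nat_lit 1) (nat_lit 0) (nat_lit 1) (nat_lit 0) (nat_lit 331) (nat_lit 427) (nat_lit 322)) (XT.lf (nat_lit 0) (nat_lit 186387113590) (nat_lit 0) (nat_lit 0) (nat_lit 0) (nat_lit 0) (nat_lit 0) (nat_lit 0) (nat_lit 1) (nat_lit 0) (nat_lit 1) (nat_lit 0) (nat_lit 332) (nat_lit 427) (nat_lit 321))) (XT.nd (nat_lit 94) (nat_lit 0) (nat_lit 0) (XT.lf (nat_lit 0) (nat_lit 186383159563) (nat_lit 0) (nat_lit 0) (nat_lit 0) (nat_lit 0) (nat_lit 0) (nat_lit 0) (nat_lit 1) (nat_lit 0) (nat_lit 1) (nat_lit 0) (nat_lit 333) (nat_lit 427) (nat_lit 320)) (XT.nd (nat_lit 94) (nat_lit 0) (nat_lit 0) (XT.lf (nat_lit 0) (nat_lit 186379498427) (nat_lit 0) (nat_lit 0) (nat_lit 0) (nat_lit 0) (nat_lit 0) (nat_lit 0) (nat_lit 1) (nat_lit 0) (nat_lit 1) (nat_lit 0) (nat_lit 334) (nat_lit 427) (nat_lit 319)) (XT.lf (nat_lit 0) (nat_lit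 186376108486) (nat_lit 0) (nat_lit 0) (nat_lit 0) (nat_lit 0) (nat_lit 0) (nat_lit 0) (nat_lit 1) (nat_lit 0) (nat_lit 1) (nat_lit 0) (nat_lit 335) (nat_lit 427) (nat_lit 318))))))) (XT.nd (nat_lit 846) (nat_lit 0) (nat_lit 0) (XT.nd (nat_lit 376) (nat_lit 0) (nat_lit 0) (XT.nd (nat_lit 188) (nat_lit 0) (nat_lit 0) (XT.nd (nat_lit 94) (nat_lit 0) (nat_lit 0) (XT.lf (nat_lit 0) (nat_lit 186372969652) (nat_lit 0) (nat_lit 0) (nat_lit 0) (nat_lit 0) (nat_lit 0) (nat_lit 0) (nat_lit 1) (nat_lit 0) (nat_lit 1) (nat_lit 0) (nat_lit 336) (nat_lit 427) (nat_lit 317)) (XT.lf (nat_lit 0) (nat_lit 186370063324) (nat_lit 0) (nat_lit 0) (nat_lit 0) (nat_lit 0) (nat_lit 0) (nat_lit 0) (nat_lit 1) (nat_lit 0) (nat_lit 1) (nat_lit 0) (nat_lit 337) (nat_lit 427) (nat_lit 316))) (XT.nd (nat_lit 94) (nat_lit 0) (nat_lit 0) (XT.lf (nat_lit 0) (nat_lit 186367372280) (nat_lit 0)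 (nat_lit 0) (nat_lit 0) (nat_lit 0) (nat_lit 0) (nat_lit 0) (nat_lit 1) (nat_lit 0) (nat_lit 1) (nat_lit 0) (nat_lit 338) (nat_lit 427) (nat_lit 315)) (XT.lf (nat_lit 0) (nat_lit 186364880572) (nat_lit 0) (nat_lit 0) (nat_lit 0) (nat_lit 0) (nat_lit 0) (nat_lit 0) (nat_lit 1) (nat_lit 0) (nat_lit 1) (nat_lit 0) (nat_lit 339) (nat_lit 427) (nat_lit 314)))) (XT.nd (nat_lit 188) (nat_lit 0) (nat_lit 0) (XT.nd (nat_lit 94) (nat_lit 0) (nat_lit 0) (XT.lf (nat_lit 0) (nat_lit 186362573435) (nat_lit 0) (nat_lit 0) (nat_lit 0) (nat_lit 0) (nat_lit 0) (nat_lit 0) (nat_lit 1) (nat_lit 0) (nat_lit 1) (nat_lit 0) (nat_lit 340) (nat_lit 427) (nat_lit 313)) (XT.lf (nat_lit 0) (nat_lit 186360437197) (nat_lit 0) (nat_lit 0) (nat_lit 0) (nat_lit 0) (nat_lit 0) (nat_lit 0) (nat_lit 1) (nat_lit 0) (nat_lit 1) (nat_lit 0) (nat_lit 341) (nat_lit 427) (nat_lit 312))) (XT.nd (nat_lit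 94) (nat_lit 0) (nat_lit 0) (XT.lf (nat_lit 0) (nat_lit 186358459199) (nat_lit 0) (nat_lit 0) (nat_lit 0) (nat_lit 0) (nat_lit 0) (nat_lit 0) (nat_lit 1) (nat_lit 0) (nat_lit 1) (nat_lit 0) (nat_lit 342) (nat_lit 427) (nat_lit 311)) (XT.nd (nat_lit 94) (nat_lit 0) (nat_lit 0) (XT.lf (nat_lit 0) (nat_lit 186356627720) (nat_lit 0) (nat_lit 0) (nat_lit 0) (nat_lit 0) (nat_lit 0) (nat_lit 0) (nat_lit 1) (nat_lit 0) (nat_lit 1) (nat_lit 0) (nat_lit 343) (nat_lit 427) (nat_lit 310)) (XT.lf (nat_lit 0) (nat_lit 186354931905) (nat_lit 0) (nat_lit 0) (nat_lit 0) (nat_lit 0) (nat_lit 0) (nat_lit 0) (nat_lit 1) (nat_lit 0) (nat_lit 1) (nat_lit 0) (nat_lit 344) (nat_lit 427) (nat_lit 309)))))) (XT.nd (nat_lit 470) (nat_lit 0) (nat_lit 0) (XT.nd (nat_lit 188) (nat_lit 0) (nat_lit 0) (XT.nd (nat_lit 94) (nat_lit 0) (nat_lit 0) (XT.lf (nat_lit 0) (nat_lit 186353361707) (nat_lit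 0) (nat_lit 0) (nat_lit 0) (nat_lit 0) (nat_lit 0) (nat_lit 0) (nat_lit 1) (nat_lit 0) (nat_lit 1) (nat_lit 0) (nat_lit 345) (nat_lit 427) (nat_lit 308)) (XT.lf (nat_lit 0) (nat_lit 186351907819) (nat_lit 0) (nat_lit 0) (nat_lit 0) (nat_lit 0) (nat_lit 0) (nat_lit 0) (nat_lit 1) (nat_lit 0) (nat_lit 1) (nat_lit 0) (nat_lit 346) (nat_lit 427) (nat_lit 307))) (XT.nd (nat_lit 94) (nat_lit 0) (nat_lit 0) (XT.lf (nat_lit 0) (nat_lit 186350561627) (nat_lit 0) (nat_lit 0) (nat_lit 0) (nat_lit 0) (nat_lit 0) (nat_lit 0) (nat_lit 1) (nat_lit 0) (nat_lit 1) (nat_lit 0) (nat_lit 347) (nat_lit 427) (nat_lit 306)) (XT.nd (nat_lit 94) (nat_lit 0) (nat_lit 0) (XT.lf (nat_lit 0) (nat_lit 186349315153) (nat_lit 0) (nat_lit 0) (nat_lit 0) (nat_lit 0) (nat_lit 0) (nat_lit 0) (nat_lit 1) (nat_lit 0) (nat_lit 1) (nat_lit 0) (nat_lit 348) (nat_lit 427) (nat_lit 305)) (XT.lf (nat_lit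 0) (nat_lit 186348161010) (nat_lit 0) (nat_lit 0) (nat_lit 0) (nat_lit 0) (nat_lit 0) (nat_lit 0) (nat_lit 1) (nat_lit 0) (nat_lit 1) (nat_lit 0) (nat_lit 349) (nat_lit 427) (nat_lit 304))))) (XT.nd (nat_lit 188) (nat_lit 0) (nat_lit 0) (XT.nd (nat_lit 94) (nat_lit 0) (nat_lit 0) (XT.lf (nat_lit 0) (nat_lit 186347092359) (nat_lit 0) (nat_lit 0) (nat_lit 0) (nat_lit 0) (nat_lit 0) (nat_lit 0) (nat_lit 1) (nat_lit 0) (nat_lit 1) (nat_lit 0) (nat_lit 350) (nat_lit 427) (nat_lit 303)) (XT.lf (nat_lit 0) (nat_lit 186346102868) (nat_lit 0) (nat_lit 0) (nat_lit 0) (nat_lit 0) (nat_lit 0) (nat_lit 0) (nat_lit 1) (nat_lit 0) (nat_lit 1) (nat_lit 0) (nat_lit 351) (nat_lit 427) (nat_lit 302))) (XT.nd (nat_lit 94) (nat_lit 0) (nat_lit 0) (XT.lf (nat_lit 0) (nat_lit 186345186672) (nat_lit 0) (nat_lit 0) (nat_lit 0) (nat_lit 0) (nat_lit 0) (nat_lit 0) (nat_lit 1) (nat_lit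 0) (nat_lit 1) (nat_lit 0) (nat_lit 352) (nat_lit 427) (nat_lit 301)) (XT.nd (nat_lit 94) (nat_lit 0) (nat_lit 0) (XT.lf (nat_lit 0) (nat_lit 186344338343) (nat_lit 0) (nat_lit 0) (nat_lit 0) (nat_lit 0) (nat_lit 0) (nat_lit 0) (nat_lit 1) (nat_lit 0) (nat_lit 1) (nat_lit 0) (nat_lit 353) (nat_lit 427) (nat_lit 300)) (XT.lf (nat_lit 0) (nat_lit 186343552852) (nat_lit 0) (nat_lit 0) (nat_lit 0) (nat_lit 0) (nat_lit 0) (nat_lit 0) (nat_lit 1) (nat_lit 0) (nat_lit 1) (nat_lit 0) (nat_lit 354) (nat_lit 427) (nat_lit 299))))))))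
noncomputable def ec289 : XT := (XT.nd (nat_lit 1786) (nat_lit 0) (nat_lit 0) (XT.nd (nat_lit 846) (nat_lit 0) (nat_lit 0) (XT.nd (nat_lit 376) (nat_lit 0) (nat_lit 0) (XT.nd (nat_lit 188) (nat_lit 0) (nat_lit 0) (XT.nd (nat_lit 94) (nat_lit 0) (nat_lit 0) (XT.lf (nat_lit 0) (nat_lit 186342825547) (nat_lit 0) (nat_lit 0) (nat_lit 0) (nat_lit 0) (nat_lit 0) (nat_lit 0) (nat_lit 1) (nat_lit 0) (nat_lit 1) (nat_lit 0) (nat_lit 355) (nat_lit 427) (nat_lit 298)) (XT.lf (nat_lit 0) (nat_lit 186342152115) (nat_lit 0) (nat_lit 0) (nat_lit 0) (nat_lit 0) (nat_lit 0) (nat_lit 0) (nat_lit 1) (nat_lit 0) (nat_lit 1) (nat_lit 0) (nat_lit 356) (nat_lit 427) (nat_lit 297))) (XT.nd (nat_lit 94) (nat_lit 0) (nat_lit 0) (XT.lf (nat_lit 0) (nat_lit 186341528568) (nat_lit 0) (nat_lit 0) (nat_lit 0) (nat_lit 0) (nat_lit 0) (nat_lit 0) (nat_lit 1) (nat_lit 0) (nat_lit 1) (nat_lit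 0) (nat_lit 357) (nat_lit 427) (nat_lit 296)) (XT.lf (nat_lit 0) (nat_lit 186340951209) (nat_lit 0) (nat_lit 0) (nat_lit 0) (nat_lit 0) (nat_lit 0) (nat_lit 0) (nat_lit 1) (nat_lit 0) (nat_lit 1) (nat_lit 0) (nat_lit 358) (nat_lit 427) (nat_lit 295)))) (XT.nd (nat_lit 188) (nat_lit 0) (nat_lit 0) (XT.nd (nat_lit 94) (nat_lit 0) (nat_lit 0) (XT.lf (nat_lit 0) (nat_lit 186340416618) (nat_lit 0) (nat_lit 0) (nat_lit 0) (nat_lit 0) (nat_lit 0) (nat_lit 0) (nat_lit 1) (nat_lit 0) (nat_lit 1) (nat_lit 0) (nat_lit 359) (nat_lit 427) (nat_lit 294)) (XT.lf (nat_lit 0) (nat_lit 186339921626) (nat_lit 0) (nat_lit 0) (nat_lit 0) (nat_lit 0) (nat_lit 0) (nat_lit 0) (nat_lit 1) (nat_lit 0) (nat_lit 1) (nat_lit 0) (nat_lit 360) (nat_lit 427) (nat_lit 293))) (XT.nd (nat_lit 94) (nat_lit 0) (nat_lit 0) (XT.lf (nat_lit 0) (nat_lit 186339463300) (nat_lit 0) (nat_lit 0) (nat_lit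 0) (nat_lit 0) (nat_lit 0) (nat_lit 0) (nat_lit 1) (nat_lit 0) (nat_lit 1) (nat_lit 0) (nat_lit 361) (nat_lit 427) (nat_lit 292)) (XT.nd (nat_lit 94) (nat_lit 0) (nat_lit 0) (XT.lf (nat_lit 0) (nat_lit 186339038924) (nat_lit 0) (nat_lit 0) (nat_lit 0) (nat_lit 0) (nat_lit 0) (nat_lit 0) (nat_lit 1) (nat_lit 0) (nat_lit 1) (nat_lit 0) (nat_lit 362) (nat_lit 427) (nat_lit 291)) (XT.lf (nat_lit 0) (nat_lit 186338645983) (nat_lit 0) (nat_lit 0) (nat_lit 0) (nat_lit 0) (nat_lit 0) (nat_lit 0) (nat_lit 1) (nat_lit 0) (nat_lit 1) (nat_lit 0) (nat_lit 363) (nat_lit 427) (nat_lit 290)))))) (XT.nd (nat_lit 470) (nat_lit 0) (nat_lit 0) (XT.nd (nat_lit 188) (nat_lit 0) (nat_lit 0) (XT.nd (nat_lit 94) (nat_lit 0) (nat_lit 0) (XT.lf (nat_lit 0) (nat_lit 186338282149) (nat_lit 0) (nat_lit 0) (nat_lit 0) (nat_lit 0) (nat_lit 0) (nat_lit 0) (nat_lit 1) (nat_lit 0) (nat_lit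 1) (nat_lit 0) (nat_lit 364) (nat_lit 427) (nat_lit 289)) (XT.lf (nat_lit 0) (nat_lit 186337945266) (nat_lit 0) (nat_lit 0) (nat_lit 0) (nat_lit 0) (nat_lit 0) (nat_lit 0) (nat_lit 1) (nat_lit 0) (nat_lit 1) (nat_lit 0) (nat_lit 365) (nat_lit 427) (nat_lit 288))) (XT.nd (nat_lit 94) (nat_lit 0) (nat_lit 0) (XT.lf (nat_lit 0) (nat_lit 186337633337) (nat_lit 0) (nat_lit 0) (nat_lit 0) (nat_lit 0) (nat_lit 0) (nat_lit 0) (nat_lit 1) (nat_lit 0) (nat_lit 1) (nat_lit 0) (nat_lit 366) (nat_lit 427) (nat_lit 287)) (XT.nd (nat_lit 94) (nat_lit 0) (nat_lit 0) (XT.lf (nat_lit 0) (nat_lit 186337344514) (nat_lit 0) (nat_lit 0) (nat_lit 0) (nat_lit 0) (nat_lit 0) (nat_lit 0) (nat_lit 1) (nat_lit 0) (nat_lit 1) (nat_lit 0) (nat_lit 367) (nat_lit 427) (nat_lit 286)) (XT.lf (nat_lit 0) (nat_lit 186337077085) (nat_lit 0) (nat_lit 0) (nat_lit 0) (nat_lit 0) (nat_lit 0) (nat_lit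 0) (nat_lit 1) (nat_lit 0) (nat_lit 1) (nat_lit 0) (nat_lit 368) (nat_lit 427) (nat_lit 285))))) (XT.nd (nat_lit 188) (nat_lit 0) (nat_lit 0) (XT.nd (nat_lit 94) (nat_lit 0) (nat_lit 0) (XT.lf (nat_lit 0) (nat_lit 186336829466) (nat_lit 0) (nat_lit 0) (nat_lit 0) (nat_lit 0) (nat_lit 0) (nat_lit 0) (nat_lit 1) (nat_lit 0) (nat_lit 1) (nat_lit 0) (nat_lit 369) (nat_lit 427) (nat_lit 284)) (XT.lf (nat_lit 0) (nat_lit 186336600189) (nat_lit 0) (nat_lit 0) (nat_lit 0) (nat_lit 0) (nat_lit 0) (nat_lit 0) (nat_lit 1) (nat_lit 0) (nat_lit 1) (nat_lit 0) (nat_lit 370) (nat_lit 427) (nat_lit 283))) (XT.nd (nat_lit 94) (nat_lit 0) (nat_lit 0) (XT.lf (nat_lit 0) (nat_lit 186336387895) (nat_lit 0) (nat_lit 0) (nat_lit 0) (nat_lit 0) (nat_lit 0) (nat_lit 0) (nat_lit 1) (nat_lit 0) (nat_lit 1) (nat_lit 0) (nat_lit 371) (nat_lit 427) (nat_lit 282)) (XT.nd (nat_lit 94) (nat_lit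 0) (nat_lit 0) (XT.lf (nat_lit 0) (nat_lit 186336191327) (nat_lit 0) (nat_lit 0) (nat_lit 0) (nat_lit 0) (nat_lit 0) (nat_lit 0) (nat_lit 1) (nat_lit 0) (nat_lit 1) (nat_lit 0) (nat_lit 372) (nat_lit 427) (nat_lit 281)) (XT.lf (nat_lit 0) (nat_lit 186336009319) (nat_lit 0) (nat_lit 0) (nat_lit 0) (nat_lit 0) (nat_lit 0) (nat_lit 0) (nat_lit 1) (nat_lit 0) (nat_lit 1) (nat_lit 0) (nat_lit 373) (nat_lit 427) (nat_lit 280))))))) (XT.nd (nat_lit 846) (nat_lit 0) (nat_lit 0) (XT.nd (nat_lit 376) (nat_lit 0) (nat_lit 0) (XT.nd (nat_lit 188) (nat_lit 0) (nat_lit 0) (XT.nd (nat_lit 94) (nat_lit 0) (nat_lit 0) (XT.lf (nat_lit 0) (nat_lit 186335840794) (nat_lit 0) (nat_lit 0) (nat_lit 0) (nat_lit 0) (nat_lit 0) (nat_lit 0) (nat_lit 1) (nat_lit 0) (nat_lit 1) (nat_lit 0) (nat_lit 374) (nat_lit 427) (nat_lit 279)) (XT.lf (nat_lit 0) (nat_lit 186335684752) (nat_lit 0)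 (nat_lit 0) (nat_lit 0) (nat_lit 0) (nat_lit 0) (nat_lit 0) (nat_lit 1) (nat_lit 0) (nat_lit 1) (nat_lit 0) (nat_lit 375) (nat_lit 427) (nat_lit 278))) (XT.nd (nat_lit 94) (nat_lit 0) (nat_lit 0) (XT.lf (nat_lit 0) (nat_lit 186335540268) (nat_lit 0) (nat_lit 0) (nat_lit 0) (nat_lit 0) (nat_lit 0) (nat_lit 0) (nat_lit 1) (nat_lit 0) (nat_lit 1) (nat_lit 0) (nat_lit 376) (nat_lit 427) (nat_lit 277)) (XT.lf (nat_lit 0) (nat_lit 186335406487) (nat_lit 0) (nat_lit 0) (nat_lit 0) (nat_lit 0) (nat_lit 0) (nat_lit 0) (nat_lit 1) (nat_lit 0) (nat_lit 1) (nat_lit 0) (nat_lit 377) (nat_lit 427) (nat_lit 276)))) (XT.nd (nat_lit 188) (nat_lit 0) (nat_lit 0) (XT.nd (nat_lit 94) (nat_lit 0) (nat_lit 0) (XT.lf (nat_lit 0) (nat_lit 186335282616) (nat_lit 0) (nat_lit 0) (nat_lit 0) (nat_lit 0) (nat_lit 0) (nat_lit 0) (nat_lit 1) (nat_lit 0) (nat_lit 1) (nat_lit 0) (nat_lit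 378) (nat_lit 427) (nat_lit 275)) (XT.lf (nat_lit 0) (nat_lit 186335167920) (nat_lit 0) (nat_lit 0) (nat_lit 0) (nat_lit 0) (nat_lit 0) (nat_lit 0) (nat_lit 1) (nat_lit 0) (nat_lit 1) (nat_lit 0) (nat_lit 379) (nat_lit 427) (nat_lit 274))) (XT.nd (nat_lit 94) (nat_lit 0) (nat_lit 0) (XT.lf (nat_lit 0) (nat_lit 186335061721) (nat_lit 0) (nat_lit 0) (nat_lit 0) (nat_lit 0) (nat_lit 0) (nat_lit 0) (nat_lit 1) (nat_lit 0) (nat_lit 1) (nat_lit 0) (nat_lit 380) (nat_lit 427) (nat_lit 273)) (XT.nd (nat_lit 94) (nat_lit 0) (nat_lit 0) (XT.lf (nat_lit 0) (nat_lit 186334963388) (nat_lit 0) (nat_lit 0) (nat_lit 0) (nat_lit 0) (nat_lit 0) (nat_lit 0) (nat_lit 1) (nat_lit 0) (nat_lit 1) (nat_lit 0) (nat_lit 381) (nat_lit 427) (nat_lit 272)) (XT.lf (nat_lit 0) (nat_lit 186334872339) (nat_lit 0) (nat_lit 0) (nat_lit 0) (nat_lit 0) (nat_lit 0) (nat_lit 0) (nat_lit 1) (nat_lit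 0) (nat_lit 1) (nat_lit 0) (nat_lit 382) (nat_lit 427) (nat_lit 271)))))) (XT.nd (nat_lit 470) (nat_lit 0) (nat_lit 0) (XT.nd (nat_lit 188) (nat_lit 0) (nat_lit 0) (XT.nd (nat_lit 94) (nat_lit 0) (nat_lit 0) (XT.lf (nat_lit 0) (nat_lit 186334788034) (nat_lit 0) (nat_lit 0) (nat_lit 0) (nat_lit 0) (nat_lit 0) (nat_lit 0) (nat_lit 1) (nat_lit 0) (nat_lit 1) (nat_lit 0) (nat_lit 383) (nat_lit 427) (nat_lit 270)) (XT.lf (nat_lit 0) (nat_lit 186334709974) (nat_lit 0) (nat_lit 0) (nat_lit 0) (nat_lit 0) (nat_lit 0) (nat_lit 0) (nat_lit 1) (nat_lit 0) (nat_lit 1) (nat_lit 0) (nat_lit 384) (nat_lit 427) (nat_lit 269))) (XT.nd (nat_lit 94) (nat_lit 0) (nat_lit 0) (XT.lf (nat_lit 0) (nat_lit 186334637696) (nat_lit 0) (nat_lit 0) (nat_lit 0) (nat_lit 0) (nat_lit 0) (nat_lit 0) (nat_lit 1) (nat_lit 0) (nat_lit 1) (nat_lit 0) (nat_lit 385) (nat_lit 427) (nat_lit 268))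 (XT.nd (nat_lit 94) (nat_lit 0) (nat_lit 0) (XT.lf (nat_lit 0) (nat_lit 186334570772) (nat_lit 0) (nat_lit 0) (nat_lit 0) (nat_lit 0) (nat_lit 0) (nat_lit 0) (nat_lit 1) (nat_lit 0) (nat_lit 1) (nat_lit 0) (nat_lit 386) (nat_lit 427) (nat_lit 267)) (XT.lf (nat_lit 0) (nat_lit 186334508806) (nat_lit 0) (nat_lit 0) (nat_lit 0) (nat_lit 0) (nat_lit 0) (nat_lit 0) (nat_lit 1) (nat_lit 0) (nat_lit 1) (nat_lit 0) (nat_lit 387) (nat_lit 427) (nat_lit 266))))) (XT.nd (nat_lit 188) (nat_lit 0) (nat_lit 0) (XT.nd (nat_lit 94) (nat_lit 0) (nat_lit 0) (XT.lf (nat_lit 0) (nat_lit 186334451430) (nat_lit 0) (nat_lit 0) (nat_lit 0) (nat_lit 0) (nat_lit 0) (nat_lit 0) (nat_lit 1) (nat_lit 0) (nat_lit 1) (nat_lit 0) (nat_lit 388) (nat_lit 427) (nat_lit 265)) (XT.lf (nat_lit 0) (nat_lit 186334398303) (nat_lit 0) (nat_lit 0) (nat_lit 0) (nat_lit 0) (nat_lit 0) (nat_lit 0) (nat_lit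 1) (nat_lit 0) (nat_lit 1) (nat_lit 0) (nat_lit 389) (nat_lit 427) (nat_lit 264))) (XT.nd (nat_lit 94) (nat_lit 0) (nat_lit 0) (XT.lf (nat_lit 0) (nat_lit 186334349112) (nat_lit 0) (nat_lit 0) (nat_lit 0) (nat_lit 0) (nat_lit 0) (nat_lit 0) (nat_lit 1) (nat_lit 0) (nat_lit 1) (nat_lit 0) (nat_lit 390) (nat_lit 427) (nat_lit 263)) (XT.nd (nat_lit 94) (nat_lit 0) (nat_lit 0) (XT.lf (nat_lit 0) (nat_lit 186334303565) (nat_lit 0) (nat_lit 0) (nat_lit 0) (nat_lit 0) (nat_lit 0) (nat_lit 0) (nat_lit 1) (nat_lit 0) (nat_lit 1) (nat_lit 0) (nat_lit 391) (nat_lit 427) (nat_lit 262)) (XT.lf (nat_lit 0) (nat_lit 186334261392) (nat_lit 0) (nat_lit 0) (nat_lit 0) (nat_lit 0) (nat_lit 0) (nat_lit 0) (nat_lit 1) (nat_lit 0) (nat_lit 1) (nat_lit 0) (nat_lit 392) (nat_lit 427) (nat_lit 261))))))))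
noncomputable def ec290 : XT := (XT.nd (nat_lit 1692) (nat_lit 0) (nat_lit 0) (XT.nd (nat_lit 846) (nat_lit 0) (nat_lit 0) (XT.nd (nat_lit 376) (nat_lit 0) (nat_lit 0) (XT.nd (nat_lit 188) (nat_lit 0) (nat_lit 0) (XT.nd (nat_lit 94) (nat_lit 0) (nat_lit 0) (XT.lf (nat_lit 0) (nat_lit 186334222342) (nat_lit 0) (nat_lit 0) (nat_lit 0) (nat_lit 0) (nat_lit 0) (nat_lit 0) (nat_lit 1) (nat_lit 0) (nat_lit 1) (nat_lit 0) (nat_lit 393) (nat_lit 427) (nat_lit 260)) (XT.lf (nat_lit 0) (nat_lit 186334186185) (nat_lit 0) (nat_lit 0) (nat_lit 0) (nat_lit 0) (nat_lit 0) (nat_lit 0) (nat_lit 1) (nat_lit 0) (nat_lit 1) (nat_lit 0) (nat_lit 394) (nat_lit 427) (nat_lit 259))) (XT.nd (nat_lit 94) (nat_lit 0) (nat_lit 0) (XT.lf (nat_lit 0) (nat_lit 186334152707) (nat_lit 0) (nat_lit 0) (nat_lit 0) (nat_lit 0) (nat_lit 0) (nat_lit 0) (nat_lit 1) (nat_lit 0) (nat_lit 1) (nat_lit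 0) (nat_lit 395) (nat_lit 427) (nat_lit 258)) (XT.lf (nat_lit 0) (nat_lit 186334121708) (nat_lit 0) (nat_lit 0) (nat_lit 0) (nat_lit 0) (nat_lit 0) (nat_lit 0) (nat_lit 1) (nat_lit 0) (nat_lit 1) (nat_lit 0) (nat_lit 396) (nat_lit 427) (nat_lit 257)))) (XT.nd (nat_lit 188) (nat_lit 0) (nat_lit 0) (XT.nd (nat_lit 94) (nat_lit 0) (nat_lit 0) (XT.lf (nat_lit 0) (nat_lit 186334093006) (nat_lit 0) (nat_lit 0) (nat_lit 0) (nat_lit 0) (nat_lit 0) (nat_lit 0) (nat_lit 1) (nat_lit 0) (nat_lit 1) (nat_lit 0) (nat_lit 397) (nat_lit 427) (nat_lit 256)) (XT.lf (nat_lit 0) (nat_lit 186334066429) (nat_lit 0) (nat_lit 0) (nat_lit 0) (nat_lit 0) (nat_lit 0) (nat_lit 0) (nat_lit 1) (nat_lit 0) (nat_lit 1) (nat_lit 0) (nat_lit 398) (nat_lit 427) (nat_lit 255))) (XT.nd (nat_lit 94) (nat_lit 0) (nat_lit 0) (XT.lf (nat_lit 0) (nat_lit 186334041822) (nat_lit 0) (nat_lit 0) (nat_lit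 0) (nat_lit 0) (nat_lit 0) (nat_lit 0) (nat_lit 1) (nat_lit 0) (nat_lit 1) (nat_lit 0) (nat_lit 399) (nat_lit 427) (nat_lit 254)) (XT.nd (nat_lit 94) (nat_lit 0) (nat_lit 0) (XT.lf (nat_lit 0) (nat_lit 186334019037) (nat_lit 0) (nat_lit 0) (nat_lit 0) (nat_lit 0) (nat_lit 0) (nat_lit 0) (nat_lit 1) (nat_lit 0) (nat_lit 1) (nat_lit 0) (nat_lit 400) (nat_lit 427) (nat_lit 253)) (XT.lf (nat_lit 0) (nat_lit 186333997940) (nat_lit 0) (nat_lit 0) (nat_lit 0) (nat_lit 0) (nat_lit 0) (nat_lit 0) (nat_lit 1) (nat_lit 0) (nat_lit 1) (nat_lit 0) (nat_lit 401) (nat_lit 427) (nat_lit 252)))))) (XT.nd (nat_lit 376) (nat_lit 0) (nat_lit 0) (XT.nd (nat_lit 188) (nat_lit 0) (nat_lit 0) (XT.nd (nat_lit 94) (nat_lit 0) (nat_lit 0) (XT.lf (nat_lit 0) (nat_lit 186333978405) (nat_lit 0) (nat_lit 0) (nat_lit 0) (nat_lit 0) (nat_lit 0) (nat_lit 0) (nat_lit 1) (nat_lit 0) (nat_lit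 1) (nat_lit 0) (nat_lit 402) (nat_lit 427) (nat_lit 251)) (XT.lf (nat_lit 0) (nat_lit 186333960318) (nat_lit 0) (nat_lit 0) (nat_lit 0) (nat_lit 0) (nat_lit 0) (nat_lit 0) (nat_lit 1) (nat_lit 0) (nat_lit 1) (nat_lit 0) (nat_lit 403) (nat_lit 427) (nat_lit 250))) (XT.nd (nat_lit 94) (nat_lit 0) (nat_lit 0) (XT.lf (nat_lit 0) (nat_lit 186333943570) (nat_lit 0) (nat_lit 0) (nat_lit 0) (nat_lit 0) (nat_lit 0) (nat_lit 0) (nat_lit 1) (nat_lit 0) (nat_lit 1) (nat_lit 0) (nat_lit 404) (nat_lit 427) (nat_lit 249)) (XT.lf (nat_lit 0) (nat_lit 186333928063) (nat_lit 0) (nat_lit 0) (nat_lit 0) (nat_lit 0) (nat_lit 0) (nat_lit 0) (nat_lit 1) (nat_lit 0) (nat_lit 1) (nat_lit 0) (nat_lit 405) (nat_lit 427) (nat_lit 248)))) (XT.nd (nat_lit 188) (nat_lit 0) (nat_lit 0) (XT.nd (nat_lit 94) (nat_lit 0) (nat_lit 0) (XT.lf (nat_lit 0) (nat_lit 186333913705) (nat_lit 0) (nat_lit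 0) (nat_lit 0) (nat_lit 0) (nat_lit 0) (nat_lit 0) (nat_lit 1) (nat_lit 0) (nat_lit 1) (nat_lit 0) (nat_lit 406) (nat_lit 427) (nat_lit 247)) (XT.lf (nat_lit 0) (nat_lit 186333900410) (nat_lit 0) (nat_lit 0) (nat_lit 0) (nat_lit 0) (nat_lit 0) (nat_lit 0) (nat_lit 1) (nat_lit 0) (nat_lit 1) (nat_lit 0) (nat_lit 407) (nat_lit 427) (nat_lit 246))) (XT.nd (nat_lit 94) (nat_lit 0) (nat_lit 0) (XT.lf (nat_lit 0) (nat_lit 186333888100) (nat_lit 0) (nat_lit 0) (nat_lit 0) (nat_lit 0) (nat_lit 0) (nat_lit 0) (nat_lit 1) (nat_lit 0) (nat_lit 1) (nat_lit 0) (nat_lit 408) (nat_lit 427) (nat_lit 245)) (XT.nd (nat_lit 94) (nat_lit 0) (nat_lit 0) (XT.lf (nat_lit 0) (nat_lit 186333876702) (nat_lit 0) (nat_lit 0) (nat_lit 0) (nat_lit 0) (nat_lit 0) (nat_lit 0) (nat_lit 1) (nat_lit 0) (nat_lit 1) (nat_lit 0) (nat_lit 409) (nat_lit 427) (nat_lit 244)) (XT.lf (nat_lit 0) (nat_lit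 186333866148) (nat_lit 0) (nat_lit 0) (nat_lit 0) (nat_lit 0) (nat_lit 0) (nat_lit 0) (nat_lit 1) (nat_lit 0) (nat_lit 1) (nat_lit 0) (nat_lit 410) (nat_lit 427) (nat_lit 243))))))) (XT.nd (nat_lit 846) (nat_lit 0) (nat_lit 0) (XT.nd (nat_lit 376) (nat_lit 0) (nat_lit 0) (XT.nd (nat_lit 188) (nat_lit 0) (nat_lit 0) (XT.nd (nat_lit 94) (nat_lit 0) (nat_lit 0) (XT.lf (nat_lit 0) (nat_lit 186333856376) (nat_lit 0) (nat_lit 0) (nat_lit 0) (nat_lit 0) (nat_lit 0) (nat_lit 0) (nat_lit 1) (nat_lit 0) (nat_lit 1) (nat_lit 0) (nat_lit 411) (nat_lit 427) (nat_lit 242)) (XT.lf (nat_lit 0) (nat_lit 186333847328) (nat_lit 0) (nat_lit 0) (nat_lit 0) (nat_lit 0) (nat_lit 0) (nat_lit 0) (nat_lit 1) (nat_lit 0) (nat_lit 1) (nat_lit 0) (nat_lit 412) (nat_lit 427) (nat_lit 241))) (XT.nd (nat_lit 94) (nat_lit 0) (nat_lit 0) (XT.lf (nat_lit 0) (nat_lit 186333838950) (nat_lit 0)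 (nat_lit 0) (nat_lit 0) (nat_lit 0) (nat_lit 0) (nat_lit 0) (nat_lit 1) (nat_lit 0) (nat_lit 1) (nat_lit 0) (nat_lit 413) (nat_lit 427) (nat_lit 240)) (XT.lf (nat_lit 0) (nat_lit 186333831192) (nat_lit 0) (nat_lit 0) (nat_lit 0) (nat_lit 0) (nat_lit 0) (nat_lit 0) (nat_lit 1) (nat_lit 0) (nat_lit 1) (nat_lit 0) (nat_lit 414) (nat_lit 427) (nat_lit 239)))) (XT.nd (nat_lit 188) (nat_lit 0) (nat_lit 0) (XT.nd (nat_lit 94) (nat_lit 0) (nat_lit 0) (XT.lf (nat_lit 0) (nat_lit 186333824009) (nat_lit 0) (nat_lit 0) (nat_lit 0) (nat_lit 0) (nat_lit 0) (nat_lit 0) (nat_lit 1) (nat_lit 0) (nat_lit 1) (nat_lit 0) (nat_lit 415) (nat_lit 427) (nat_lit 238)) (XT.lf (nat_lit 0) (nat_lit 186333817359) (nat_lit 0) (nat_lit 0) (nat_lit 0) (nat_lit 0) (nat_lit 0) (nat_lit 0) (nat_lit 1) (nat_lit 0) (nat_lit 1) (nat_lit 0) (nat_lit 416) (nat_lit 427) (nat_lit 237))) (XT.nd (nat_lit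 94) (nat_lit 0) (nat_lit 0) (XT.lf (nat_lit 0) (nat_lit 186333811201) (nat_lit 0) (nat_lit 0) (nat_lit 0) (nat_lit 0) (nat_lit 0) (nat_lit 0) (nat_lit 1) (nat_lit 0) (nat_lit 1) (nat_lit 0) (nat_lit 417) (nat_lit 427) (nat_lit 236)) (XT.nd (nat_lit 94) (nat_lit 0) (nat_lit 0) (XT.lf (nat_lit 0) (nat_lit 186333805499) (nat_lit 0) (nat_lit 0) (nat_lit 0) (nat_lit 0) (nat_lit 0) (nat_lit 0) (nat_lit 1) (nat_lit 0) (nat_lit 1) (nat_lit 0) (nat_lit 418) (nat_lit 427) (nat_lit 235)) (XT.lf (nat_lit 0) (nat_lit 186333800219) (nat_lit 0) (nat_lit 0) (nat_lit 0) (nat_lit 0) (nat_lit 0) (nat_lit 0) (nat_lit 1) (nat_lit 0) (nat_lit 1) (nat_lit 0) (nat_lit 419) (nat_lit 427) (nat_lit 234)))))) (XT.nd (nat_lit 470) (nat_lit 0) (nat_lit 0) (XT.nd (nat_lit 188) (nat_lit 0) (nat_lit 0) (XT.nd (nat_lit 94) (nat_lit 0) (nat_lit 0) (XT.lf (nat_lit 0) (nat_lit 186333795331) (nat_lit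 0) (nat_lit 0) (nat_lit 0) (nat_lit 0) (nat_lit 0) (nat_lit 0) (nat_lit 1) (nat_lit 0) (nat_lit 1) (nat_lit 0) (nat_lit 420) (nat_lit 427) (nat_lit 233)) (XT.lf (nat_lit 0) (nat_lit 186333790804) (nat_lit 0) (nat_lit 0) (nat_lit 0) (nat_lit 0) (nat_lit 0) (nat_lit 0) (nat_lit 1) (nat_lit 0) (nat_lit 1) (nat_lit 0) (nat_lit 421) (nat_lit 427) (nat_lit 232))) (XT.nd (nat_lit 94) (nat_lit 0) (nat_lit 0) (XT.lf (nat_lit 0) (nat_lit 186333786613) (nat_lit 0) (nat_lit 0) (nat_lit 0) (nat_lit 0) (nat_lit 0) (nat_lit 0) (nat_lit 1) (nat_lit 0) (nat_lit 1) (nat_lit 0) (nat_lit 422) (nat_lit 427) (nat_lit 231)) (XT.nd (nat_lit 94) (nat_lit 0) (nat_lit 0) (XT.lf (nat_lit 0) (nat_lit 186333782733) (nat_lit 0) (nat_lit 0) (nat_lit 0) (nat_lit 0) (nat_lit 0) (nat_lit 0) (nat_lit 1) (nat_lit 0) (nat_lit 1) (nat_lit 0) (nat_lit 423) (nat_lit 427) (nat_lit 230)) (XT.lf (nat_lit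 0) (nat_lit 186333779140) (nat_lit 0) (nat_lit 0) (nat_lit 0) (nat_lit 0) (nat_lit 0) (nat_lit 0) (nat_lit 1) (nat_lit 0) (nat_lit 1) (nat_lit 0) (nat_lit 424) (nat_lit 427) (nat_lit 229))))) (XT.nd (nat_lit 188) (nat_lit 0) (nat_lit 0) (XT.nd (nat_lit 94) (nat_lit 0) (nat_lit 0) (XT.lf (nat_lit 0) (nat_lit 186333775813) (nat_lit 0) (nat_lit 0) (nat_lit 0) (nat_lit 0) (nat_lit 0) (nat_lit 0) (nat_lit 1) (nat_lit 0) (nat_lit 1) (nat_lit 0) (nat_lit 425) (nat_lit 427) (nat_lit 228)) (XT.lf (nat_lit 0) (nat_lit 186333772732) (nat_lit 0) (nat_lit 0) (nat_lit 0) (nat_lit 0) (nat_lit 0) (nat_lit 0) (nat_lit 1) (nat_lit 0) (nat_lit 1) (nat_lit 0) (nat_lit 426) (nat_lit 427) (nat_lit 227))) (XT.nd (nat_lit 94) (nat_lit 0) (nat_lit 0) (XT.lf (nat_lit 0) (nat_lit 186333769880) (nat_lit 0) (nat_lit 0) (nat_lit 0) (nat_lit 0) (nat_lit 0) (nat_lit 0) (nat_lit 1) (nat_lit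 0) (nat_lit 1) (nat_lit 0) (nat_lit 427) (nat_lit 427) (nat_lit 226)) (XT.nd (nat_lit 94) (nat_lit 0) (nat_lit 0) (XT.lf (nat_lit 0) (nat_lit 186333767238) (nat_lit 0) (nat_lit 0) (nat_lit 0) (nat_lit 0) (nat_lit 0) (nat_lit 0) (nat_lit 1) (nat_lit 0) (nat_lit 1) (nat_lit 0) (nat_lit 428) (nat_lit 427) (nat_lit 225)) (XT.lf (nat_lit 0) (nat_lit 186333764793) (nat_lit 0) (nat_lit 0) (nat_lit 0) (nat_lit 0) (nat_lit 0) (nat_lit 0) (nat_lit 1) (nat_lit 0) (nat_lit 1) (nat_lit 0) (nat_lit 429) (nat_lit 427) (nat_lit 224))))))))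
noncomputable def ec291 : XT := (XT.nd (nat_lit 48786) (nat_lit 0) (nat_lit 5544) (XT.nd (nat_lit 846) (nat_lit 0) (nat_lit 0) (XT.nd (nat_lit 376) (nat_lit 0) (nat_lit 0) (XT.nd (nat_lit 188) (nat_lit 0) (nat_lit 0) (XT.nd (nat_lit 94) (nat_lit 0) (nat_lit 0) (XT.lf (nat_lit 0) (nat_lit 186333762529) (nat_lit 0) (nat_lit 0) (nat_lit 0) (nat_lit 0) (nat_lit 0) (nat_lit 0) (nat_lit 1) (nat_lit 0) (nat_lit 1) (nat_lit 0) (nat_lit 430) (nat_lit 427) (nat_lit 223)) (XT.lf (nat_lit 0) (nat_lit 186333760432) (nat_lit 0) (nat_lit 0) (nat_lit 0) (nat_lit 0) (nat_lit 0) (nat_lit 0) (nat_lit 1) (nat_lit 0) (nat_lit 1) (nat_lit 0) (nat_lit 431) (nat_lit 427) (nat_lit 222))) (XT.nd (nat_lit 94) (nat_lit 0) (nat_lit 0) (XT.lf (nat_lit 0) (nat_lit 186333758491) (nat_lit 0) (nat_lit 0) (nat_lit 0) (nat_lit 0) (nat_lit 0) (nat_lit 0) (nat_lit 1) (nat_lit 0) (nat_lit 1) (nat_lit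 0) (nat_lit 432) (nat_lit 427) (nat_lit 221)) (XT.lf (nat_lit 0) (nat_lit 186333756693) (nat_lit 0) (nat_lit 0) (nat_lit 0) (nat_lit 0) (nat_lit 0) (nat_lit 0) (nat_lit 1) (nat_lit 0) (nat_lit 1) (nat_lit 0) (nat_lit 433) (nat_lit 427) (nat_lit 220)))) (XT.nd (nat_lit 188) (nat_lit 0) (nat_lit 0) (XT.nd (nat_lit 94) (nat_lit 0) (nat_lit 0) (XT.lf (nat_lit 0) (nat_lit 186333755029) (nat_lit 0) (nat_lit 0) (nat_lit 0) (nat_lit 0) (nat_lit 0) (nat_lit 0) (nat_lit 1) (nat_lit 0) (nat_lit 1) (nat_lit 0) (nat_lit 434) (nat_lit 427) (nat_lit 219)) (XT.lf (nat_lit 0) (nat_lit 186333753488) (nat_lit 0) (nat_lit 0) (nat_lit 0) (nat_lit 0) (nat_lit 0) (nat_lit 0) (nat_lit 1) (nat_lit 0) (nat_lit 1) (nat_lit 0) (nat_lit 435) (nat_lit 427) (nat_lit 218))) (XT.nd (nat_lit 94) (nat_lit 0) (nat_lit 0) (XT.lf (nat_lit 0) (nat_lit 186333752061) (nat_lit 0) (nat_lit 0) (nat_lit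 0) (nat_lit 0) (nat_lit 0) (nat_lit 0) (nat_lit 1) (nat_lit 0) (nat_lit 1) (nat_lit 0) (nat_lit 436) (nat_lit 427) (nat_lit 217)) (XT.nd (nat_lit 94) (nat_lit 0) (nat_lit 0) (XT.lf (nat_lit 0) (nat_lit 186333750740) (nat_lit 0) (nat_lit 0) (nat_lit 0) (nat_lit 0) (nat_lit 0) (nat_lit 0) (nat_lit 1) (nat_lit 0) (nat_lit 1) (nat_lit 0) (nat_lit 437) (nat_lit 427) (nat_lit 216)) (XT.lf (nat_lit 0) (nat_lit 186333749517) (nat_lit 0) (nat_lit 0) (nat_lit 0) (nat_lit 0) (nat_lit 0) (nat_lit 0) (nat_lit 1) (nat_lit 0) (nat_lit 1) (nat_lit 0) (nat_lit 438) (nat_lit 427) (nat_lit 215)))))) (XT.nd (nat_lit 470) (nat_lit 0) (nat_lit 0) (XT.nd (nat_lit 188) (nat_lit 0) (nat_lit 0) (XT.nd (nat_lit 94) (nat_lit 0) (nat_lit 0) (XT.lf (nat_lit 0) (nat_lit 186333748384) (nat_lit 0) (nat_lit 0) (nat_lit 0) (nat_lit 0) (nat_lit 0) (nat_lit 0) (nat_lit 1) (nat_lit 0) (nat_lit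 1) (nat_lit 0) (nat_lit 439) (nat_lit 427) (nat_lit 214)) (XT.lf (nat_lit 0) (nat_lit 186333747335) (nat_lit 0) (nat_lit 0) (nat_lit 0) (nat_lit 0) (nat_lit 0) (nat_lit 0) (nat_lit 1) (nat_lit 0) (nat_lit 1) (nat_lit 0) (nat_lit 440) (nat_lit 427) (nat_lit 213))) (XT.nd (nat_lit 94) (nat_lit 0) (nat_lit 0) (XT.lf (nat_lit 0) (nat_lit 186333746364) (nat_lit 0) (nat_lit 0) (nat_lit 0) (nat_lit 0) (nat_lit 0) (nat_lit 0) (nat_lit 1) (nat_lit 0) (nat_lit 1) (nat_lit 0) (nat_lit 441) (nat_lit 427) (nat_lit 212)) (XT.nd (nat_lit 94) (nat_lit 0) (nat_lit 0) (XT.lf (nat_lit 0) (nat_lit 186333745465) (nat_lit 0) (nat_lit 0) (nat_lit 0) (nat_lit 0) (nat_lit 0) (nat_lit 0) (nat_lit 1) (nat_lit 0) (nat_lit 1) (nat_lit 0) (nat_lit 442) (nat_lit 427) (nat_lit 211)) (XT.lf (nat_lit 0) (nat_lit 186333744632) (nat_lit 0) (nat_lit 0) (nat_lit 0) (nat_lit 0) (nat_lit 0) (nat_lit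 0) (nat_lit 1) (nat_lit 0) (nat_lit 1) (nat_lit 0) (nat_lit 443) (nat_lit 427) (nat_lit 210))))) (XT.nd (nat_lit 47188) (nat_lit 0) (nat_lit 10836) (XT.nd (nat_lit 47094) (nat_lit 0) (nat_lit 10752) (XT.lf (nat_lit 0) (nat_lit 186333743861) (nat_lit 0) (nat_lit 0) (nat_lit 0) (nat_lit 0) (nat_lit 0) (nat_lit 0) (nat_lit 1) (nat_lit 0) (nat_lit 1) (nat_lit 0) (nat_lit 444) (nat_lit 427) (nat_lit 209)) (XT.lf (nat_lit 924) (nat_lit 100708250638) (nat_lit 0) (nat_lit 178807267521) (nat_lit 924) (nat_lit 100708250638) (nat_lit 139) (nat_lit 1) (nat_lit 128) (nat_lit 0) (nat_lit 139) (nat_lit 0) (nat_lit 224) (nat_lit 428) (nat_lit 428))) (XT.nd (nat_lit 94) (nat_lit 0) (nat_lit 0) (XT.lf (nat_lit 924) (nat_lit 37567267633) (nat_lit 0) (nat_lit 351052858384) (nat_lit 840) (nat_lit 343328522658) (nat_lit 140) (nat_lit 1) (nat_lit 129) (nat_lit 1) (nat_lit 139) (nat_lit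 1) (nat_lit 225) (nat_lit 428) (nat_lit 427)) (XT.nd (nat_lit 94) (nat_lit 0) (nat_lit 84) (XT.lf (nat_lit 924) (nat_lit 345033669077) (nat_lit 84) (nat_lit 235100217592) (nat_lit 0) (nat_lit 124686431055) (nat_lit 140) (nat_lit 1) (nat_lit 130) (nat_lit 1) (nat_lit 129) (nat_lit 1) (nat_lit 226) (nat_lit 428) (nat_lit 426)) (XT.lf (nat_lit 924) (nat_lit 298137355648) (nat_lit 84) (nat_lit 98528871632) (nat_lit 0) (nat_lit 282383329983) (nat_lit 141) (nat_lit 1) (nat_lit 131) (nat_lit 1) (nat_lit 130) (nat_lit 1) (nat_lit 227) (nat_lit 428) (nat_lit 425))))))) (XT.nd (nat_lit 846) (nat_lit 3024) (nat_lit 0) (XT.nd (nat_lit 376) (nat_lit 1764) (nat_lit 0) (XT.nd (nat_lit 188) (nat_lit 672) (nat_lit 0) (XT.nd (nat_lit 94) (nat_lit 0) (nat_lit 84) (XT.lf (nat_lit 924) (nat_lit 220646989937) (nat_lit 0) (nat_lit 412820088640) (nat_lit 840) (nat_lit 21103303951)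 (nat_lit 142) (nat_lit 1) (nat_lit 131) (nat_lit 1) (nat_lit 141) (nat_lit 1) (nat_lit 228) (nat_lit 428) (nat_lit 424)) (XT.lf (nat_lit 924) (nat_lit 52942081851) (nat_lit 0) (nat_lit 455248833594) (nat_lit 840) (nat_lit 123069344296) (nat_lit 143) (nat_lit 1) (nat_lit 132) (nat_lit 1) (nat_lit 142) (nat_lit 1) (nat_lit 229) (nat_lit 428) (nat_lit 423))) (XT.nd (nat_lit 94) (nat_lit 756) (nat_lit 0) (XT.lf (nat_lit 924) (nat_lit 101733147950) (nat_lit 84) (nat_lit 395648308897) (nat_lit 0) (nat_lit 111656834143) (nat_lit 143) (nat_lit 1) (nat_lit 133) (nat_lit 1) (nat_lit 132) (nat_lit 1) (nat_lit 230) (nat_lit 428) (nat_lit 422)) (XT.lf (nat_lit 924) (nat_lit 20893668762) (nat_lit 0) (nat_lit 295773282030) (nat_lit 840) (nat_lit 271221000557) (nat_lit 134) (nat_lit 1) (nat_lit 123) (nat_lit 1) (nat_lit 133) (nat_lit 1) (nat_lit 231) (nat_lit 428) (nat_lit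 421)))) (XT.nd (nat_lit 188) (nat_lit 756) (nat_lit 0) (XT.nd (nat_lit 94) (nat_lit 420) (nat_lit 0) (XT.lf (nat_lit 84) (nat_lit 144672114833) (nat_lit 0) (nat_lit 62693159852) (nat_lit 588) (nat_lit 360373785182) (nat_lit 117) (nat_lit 1) (nat_lit 116) (nat_lit 1) (nat_lit 123) (nat_lit 1) (nat_lit 232) (nat_lit 428) (nat_lit 420)) (XT.lf (nat_lit 504) (nat_lit 398698139062) (nat_lit 0) (nat_lit 129784839503) (nat_lit 420) (nat_lit 20065538115) (nat_lit 117) (nat_lit 1) (nat_lit 111) (nat_lit 1) (nat_lit 116) (nat_lit 1) (nat_lit 233) (nat_lit 428) (nat_lit 419))) (XT.nd (nat_lit 94) (nat_lit 336) (nat_lit 0) (XT.lf (nat_lit 504) (nat_lit 287704373839) (nat_lit 0) (nat_lit 60493272759) (nat_lit 420) (nat_lit 181985485937) (nat_lit 112) (nat_lit 1) (nat_lit 106) (nat_lit 1) (nat_lit 111) (nat_lit 1) (nat_lit 234) (nat_lit 428) (nat_lit 418)) (XT.nd (nat_lit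 94) (nat_lit 0) (nat_lit 0) (XT.lf (nat_lit 420) (nat_lit 175064442117) (nat_lit 0) (nat_lit 1113779458) (nat_lit 336) (nat_lit 336530024360) (nat_lit 107) (nat_lit 1) (nat_lit 102) (nat_lit 1) (nat_lit 106) (nat_lit 1) (nat_lit 235) (nat_lit 428) (nat_lit 417)) (XT.lf (nat_lit 84) (nat_lit 12915427187) (nat_lit 0) (nat_lit 435570787528) (nat_lit 420) (nat_lit 47551020607) (nat_lit 103) (nat_lit 1) (nat_lit 102) (nat_lit 1) (nat_lit 107) (nat_lit 1) (nat_lit 236) (nat_lit 428) (nat_lit 416)))))) (XT.nd (nat_lit 470) (nat_lit 1260) (nat_lit 0) (XT.nd (nat_lit 188) (nat_lit 1008) (nat_lit 0) (XT.nd (nat_lit 94) (nat_lit 336) (nat_lit 0) (XT.lf (nat_lit 84) (nat_lit 333479679842) (nat_lit 0) (nat_lit 55311173112) (nat_lit 420) (nat_lit 91218169733) (nat_lit 98) (nat_lit 1) (nat_lit 97) (nat_lit 1) (nat_lit 102) (nat_lit 1) (nat_lit 237) (nat_lit 428) (nat_lit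 415)) (XT.lf (nat_lit 84) (nat_lit 166848334416) (nat_lit 0) (nat_lit 169427941875) (nat_lit 420) (nat_lit 128412741922) (nat_lit 94) (nat_lit 1) (nat_lit 93) (nat_lit 1) (nat_lit 98) (nat_lit 1) (nat_lit 238) (nat_lit 428) (nat_lit 414))) (XT.nd (nat_lit 94) (nat_lit 672) (nat_lit 0) (XT.lf (nat_lit 84) (nat_lit 8235263807) (nat_lit 0) (nat_lit 283280887973) (nat_lit 420) (nat_lit 158578213538) (nat_lit 90) (nat_lit 1) (nat_lit 89) (nat_lit 1) (nat_lit 94) (nat_lit 1) (nat_lit 239) (nat_lit 428) (nat_lit 413)) (XT.nd (nat_lit 94) (nat_lit 420) (nat_lit 0) (XT.lf (nat_lit 336) (nat_lit 37189987215) (nat_lit 0) (nat_lit 251498081831) (nat_lit 252) (nat_lit 147383656009) (nat_lit 90) (nat_lit 1) (nat_lit 86) (nat_lit 1) (nat_lit 89) (nat_lit 1) (nat_lit 240) (nat_lit 428) (nat_lit 412)) (XT.lf (nat_lit 84) (nat_lit 128501404719) (nat_lit 0) (nat_lit 88075661267)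 (nat_lit 420) (nat_lit 206051319499) (nat_lit 82) (nat_lit 1) (nat_lit 81) (nat_lit 1) (nat_lit 86) (nat_lit 1) (nat_lit 241) (nat_lit 428) (nat_lit 411))))) (XT.nd (nat_lit 188) (nat_lit 756) (nat_lit 0) (XT.nd (nat_lit 94) (nat_lit 252) (nat_lit 0) (XT.lf (nat_lit 336) (nat_lit 198951083102) (nat_lit 0) (nat_lit 186888828752) (nat_lit 252) (nat_lit 23921548275) (nat_lit 82) (nat_lit 1) (nat_lit 78) (nat_lit 1) (nat_lit 81) (nat_lit 1) (nat_lit 242) (nat_lit 428) (nat_lit 410)) (XT.lf (nat_lit 336) (nat_lit 63762860989) (nat_lit 0) (nat_lit 160903628533) (nat_lit 252) (nat_lit 172722524785) (nat_lit 79) (nat_lit 1) (nat_lit 75) (nat_lit 1) (nat_lit 78) (nat_lit 1) (nat_lit 243) (nat_lit 428) (nat_lit 409))) (XT.nd (nat_lit 94) (nat_lit 420) (nat_lit 0) (XT.lf (nat_lit 84) (nat_lit 72674254366) (nat_lit 0) (nat_lit 66539595405) (nat_lit 336) (nat_lit 246316569684)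 (nat_lit 72) (nat_lit 1) (nat_lit 71) (nat_lit 1) (nat_lit 75) (nat_lit 1) (nat_lit 244) (nat_lit 428) (nat_lit 408)) (XT.nd (nat_lit 94) (nat_lit 168) (nat_lit 0) (XT.lf (nat_lit 336) (nat_lit 180840343518) (nat_lit 0) (nat_lit 120324463152) (nat_lit 252) (nat_lit 72941085170) (nat_lit 72) (nat_lit 1) (nat_lit 68) (nat_lit 1) (nat_lit 71) (nat_lit 1) (nat_lit 245) (nat_lit 428) (nat_lit 407)) (XT.lf (nat_lit 252) (nat_lit 44830588181) (nat_lit 0) (nat_lit 104974317610) (nat_lit 168) (nat_lit 213337355752) (nat_lit 69) (nat_lit 1) (nat_lit 66) (nat_lit 1) (nat_lit 68) (nat_lit 1) (nat_lit 246) (nat_lit 428) (nat_lit 406))))))))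
noncomputable def ec292 : XT := (XT.nd (nat_lit 1692) (nat_lit 2268) (nat_lit 0) (XT.nd (nat_lit 846) (nat_lit 1428) (nat_lit 0) (XT.nd (nat_lit 376) (nat_lit 924) (nat_lit 0) (XT.nd (nat_lit 188) (nat_lit 420) (nat_lit 0) (XT.nd (nat_lit 94) (nat_lit 168) (nat_lit 0) (XT.lf (nat_lit 84) (nat_lit 7594588050) (nat_lit 0) (nat_lit 84985088987) (nat_lit 336) (nat_lit 260023933400) (nat_lit 63) (nat_lit 1) (nat_lit 62) (nat_lit 1) (nat_lit 66) (nat_lit 1) (nat_lit 247) (nat_lit 428) (nat_lit 405)) (XT.lf (nat_lit 252) (nat_lit 130269463421) (nat_lit 0) (nat_lit 81407238842) (nat_lit 168) (nat_lit 130722802464) (nat_lit 63) (nat_lit 1) (nat_lit 60) (nat_lit 1) (nat_lit 62) (nat_lit 1) (nat_lit 248) (nat_lit 428) (nat_lit 404))) (XT.nd (nat_lit 94) (nat_lit 168) (nat_lit 0) (XT.lf (nat_lit 84) (nat_lit 70678766858) (nat_lit 0) (nat_lit 3264696552) (nat_lit 252)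 (nat_lit 258697207618) (nat_lit 58) (nat_lit 1) (nat_lit 57) (nat_lit 1) (nat_lit 60) (nat_lit 1) (nat_lit 249) (nat_lit 428) (nat_lit 403)) (XT.lf (nat_lit 252) (nat_lit 193222100194) (nat_lit 0) (nat_lit 66955790120) (nat_lit 168) (nat_lit 62987824541) (nat_lit 58) (nat_lit 1) (nat_lit 55) (nat_lit 1) (nat_lit 57) (nat_lit 1) (nat_lit 250) (nat_lit 428) (nat_lit 402)))) (XT.nd (nat_lit 188) (nat_lit 504) (nat_lit 0) (XT.nd (nat_lit 94) (nat_lit 252) (nat_lit 0) (XT.lf (nat_lit 252) (nat_lit 60022527270) (nat_lit 0) (nat_lit 62242811000) (nat_lit 168) (nat_lit 191787689455) (nat_lit 56) (nat_lit 1) (nat_lit 53) (nat_lit 1) (nat_lit 55) (nat_lit 1) (nat_lit 251) (nat_lit 428) (nat_lit 401)) (XT.lf (nat_lit 252) (nat_lit 238267374365) (nat_lit 0) (nat_lit 59467953969) (nat_lit 168) (nat_lit 7544199888) (nat_lit 53) (nat_lit 1) (nat_lit 50) (nat_lit 1) (nat_lit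 52) (nat_lit 1) (nat_lit 252) (nat_lit 428) (nat_lit 400))) (XT.nd (nat_lit 94) (nat_lit 336) (nat_lit 0) (XT.lf (nat_lit 252) (nat_lit 106637434006) (nat_lit 0) (nat_lit 56771846615) (nat_lit 168) (nat_lit 133340535957) (nat_lit 51) (nat_lit 1) (nat_lit 48) (nat_lit 1) (nat_lit 50) (nat_lit 1) (nat_lit 253) (nat_lit 428) (nat_lit 399)) (XT.nd (nat_lit 94) (nat_lit 168) (nat_lit 0) (XT.lf (nat_lit 84) (nat_lit 36527438303) (nat_lit 0) (nat_lit 20077126066) (nat_lit 168) (nat_lit 231969330962) (nat_lit 47) (nat_lit 1) (nat_lit 46) (nat_lit 1) (nat_lit 48) (nat_lit 1) (nat_lit 254) (nat_lit 428) (nat_lit 398)) (XT.lf (nat_lit 252) (nat_lit 139914446210) (nat_lit 0) (nat_lit 56005185041) (nat_lit 168) (nat_lit 84684654432) (nat_lit 47) (nat_lit 1) (nat_lit 44) (nat_lit 1) (nat_lit 46) (nat_lit 1) (nat_lit 255) (nat_lit 428) (nat_lit 397)))))) (XT.nd (nat_lit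 376) (nat_lit 756) (nat_lit 0) (XT.nd (nat_lit 188) (nat_lit 336) (nat_lit 0) (XT.nd (nat_lit 94) (nat_lit 252) (nat_lit 0) (XT.lf (nat_lit 168) (nat_lit 15066797697) (nat_lit 0) (nat_lit 57380744759) (nat_lit 84) (nat_lit 200501763512) (nat_lit 45) (nat_lit 1) (nat_lit 43) (nat_lit 1) (nat_lit 44) (nat_lit 1) (nat_lit 256) (nat_lit 428) (nat_lit 396)) (XT.lf (nat_lit 252) (nat_lit 162640518554) (nat_lit 0) (nat_lit 58685189641) (nat_lit 168) (nat_lit 44179689487) (nat_lit 43) (nat_lit 1) (nat_lit 40) (nat_lit 1) (nat_lit 42) (nat_lit 1) (nat_lit 257) (nat_lit 428) (nat_lit 395))) (XT.nd (nat_lit 94) (nat_lit 252) (nat_lit 0) (XT.lf (nat_lit 168) (nat_lit 40905289723) (nat_lit 0) (nat_lit 60879488017) (nat_lit 84) (nat_lit 156527586317) (nat_lit 41) (nat_lit 1) (nat_lit 39) (nat_lit 1) (nat_lit 40) (nat_lit 1) (nat_lit 258) (nat_lit 428) (nat_lit 394)) (XT.lf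 (nat_lit 252) (nat_lit 177068939490) (nat_lit 0) (nat_lit 63815723735) (nat_lit 168) (nat_lit 10472706558) (nat_lit 39) (nat_lit 1) (nat_lit 36) (nat_lit 1) (nat_lit 38) (nat_lit 1) (nat_lit 259) (nat_lit 428) (nat_lit 393)))) (XT.nd (nat_lit 188) (nat_lit 420) (nat_lit 0) (XT.nd (nat_lit 94) (nat_lit 252) (nat_lit 0) (XT.lf (nat_lit 168) (nat_lit 58868323791) (nat_lit 0) (nat_lit 66528658819) (nat_lit 84) (nat_lit 119191837731) (nat_lit 37) (nat_lit 1) (nat_lit 35) (nat_lit 1) (nat_lit 36) (nat_lit 1) (nat_lit 260) (nat_lit 428) (nat_lit 392)) (XT.lf (nat_lit 84) (nat_lit 16991740989) (nat_lit 0) (nat_lit 53332545625) (nat_lit 252) (nat_lit 167739144881) (nat_lit 33) (nat_lit 1) (nat_lit 32) (nat_lit 1) (nat_lit 35) (nat_lit 1) (nat_lit 261) (nat_lit 428) (nat_lit 391))) (XT.nd (nat_lit 94) (nat_lit 336) (nat_lit 0) (XT.lf (nat_lit 168) (nat_lit 70647299811)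 (nat_lit 0) (nat_lit 73611137797) (nat_lit 84) (nat_lit 87441659056) (nat_lit 33) (nat_lit 1) (nat_lit 31) (nat_lit 1) (nat_lit 32) (nat_lit 1) (nat_lit 262) (nat_lit 428) (nat_lit 390)) (XT.nd (nat_lit 94) (nat_lit 84) (nat_lit 0) (XT.lf (nat_lit 84) (nat_lit 39516462659) (nat_lit 0) (nat_lit 38274366181) (nat_lit 252) (nat_lit 147769556163) (nat_lit 29) (nat_lit 1) (nat_lit 28) (nat_lit 1) (nat_lit 31) (nat_lit 1) (nat_lit 263) (nat_lit 428) (nat_lit 389)) (XT.lf (nat_lit 168) (nat_lit 77606217362) (nat_lit 0) (nat_lit 81567132341) (nat_lit 84) (nat_lit 60404190949) (nat_lit 29) (nat_lit 1) (nat_lit 27) (nat_lit 1) (nat_lit 28) (nat_lit 1) (nat_lit 264) (nat_lit 428) (nat_lit 388))))))) (XT.nd (nat_lit 846) (nat_lit 1092) (nat_lit 0) (XT.nd (nat_lit 376) (nat_lit 672) (nat_lit 0) (XT.nd (nat_lit 188) (nat_lit 252) (nat_lit 0) (XT.nd (nat_lit 94) (nat_lit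 84) (nat_lit 0) (XT.lf (nat_lit 84) (nat_lit 58177370825) (nat_lit 0) (nat_lit 27720476238) (nat_lit 168) (nat_lit 127894435002) (nat_lit 26) (nat_lit 1) (nat_lit 25) (nat_lit 1) (nat_lit 27) (nat_lit 1) (nat_lit 265) (nat_lit 428) (nat_lit 387)) (XT.lf (nat_lit 168) (nat_lit 80842852699) (nat_lit 0) (nat_lit 89963514306) (nat_lit 84) (nat_lit 37354465252) (nat_lit 26) (nat_lit 1) (nat_lit 24) (nat_lit 1) (nat_lit 25) (nat_lit 1) (nat_lit 266) (nat_lit 428) (nat_lit 386))) (XT.nd (nat_lit 94) (nat_lit 84) (nat_lit 0) (XT.lf (nat_lit 84) (nat_lit 73588964861) (nat_lit 0) (nat_lit 20679836728) (nat_lit 168) (nat_lit 108433798364) (nat_lit 23) (nat_lit 1) (nat_lit 22) (nat_lit 1) (nat_lit 24) (nat_lit 1) (nat_lit 267) (nat_lit 428) (nat_lit 385)) (XT.lf (nat_lit 168) (nat_lit 81238642079) (nat_lit 0) (nat_lit 98468900486) (nat_lit 84) (nat_lit 17689128503) (nat_lit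 23) (nat_lit 1) (nat_lit 21) (nat_lit 1) (nat_lit 22) (nat_lit 1) (nat_lit 268) (nat_lit 428) (nat_lit 384)))) (XT.nd (nat_lit 188) (nat_lit 420) (nat_lit 0) (XT.nd (nat_lit 94) (nat_lit 84) (nat_lit 0) (XT.lf (nat_lit 84) (nat_lit 86261962321) (nat_lit 0) (nat_lit 16355560111) (nat_lit 168) (nat_lit 89623711067) (nat_lit 20) (nat_lit 1) (nat_lit 19) (nat_lit 1) (nat_lit 21) (nat_lit 1) (nat_lit 269) (nat_lit 428) (nat_lit 383)) (XT.lf (nat_lit 168) (nat_lit 79499347790) (nat_lit 0) (nat_lit 106833414877) (nat_lit 84) (nat_lit 904930815) (nat_lit 20) (nat_lit 1) (nat_lit 18) (nat_lit 1) (nat_lit 19) (nat_lit 1) (nat_lit 270) (nat_lit 428) (nat_lit 382))) (XT.nd (nat_lit 94) (nat_lit 252) (nat_lit 0) (XT.lf (nat_lit 84) (nat_lit 96621669325) (nat_lit 0) (nat_lit 14108454952) (nat_lit 168) (nat_lit 71633393795) (nat_lit 17) (nat_lit 1) (nat_lit 16) (nat_lit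 1) (nat_lit 18) (nat_lit 1) (nat_lit 271) (nat_lit 428) (nat_lit 381)) (XT.nd (nat_lit 94) (nat_lit 168) (nat_lit 0) (XT.lf (nat_lit 0) (nat_lit 12989402461) (nat_lit 0) (nat_lit 101662882575) (nat_lit 168) (nat_lit 62978817735) (nat_lit 15) (nat_lit 3) (nat_lit 15) (nat_lit 1) (nat_lit 17) (nat_lit 1) (nat_lit 272) (nat_lit 428) (nat_lit 380)) (XT.lf (nat_lit 84) (nat_lit 105023025662) (nat_lit 0) (nat_lit 13427312600) (nat_lit 168) (nat_lit 54579083349) (nat_lit 14) (nat_lit 1) (nat_lit 13) (nat_lit 1) (nat_lit 15) (nat_lit 1) (nat_lit 273) (nat_lit 428) (nat_lit 379)))))) (XT.nd (nat_lit 470) (nat_lit 504) (nat_lit 0) (XT.nd (nat_lit 188) (nat_lit 336) (nat_lit 0) (XT.nd (nat_lit 94) (nat_lit 168) (nat_lit 0) (XT.lf (nat_lit 0) (nat_lit 24814564184) (nat_lit 0) (nat_lit 97217627834) (nat_lit 168) (nat_lit 46518101576) (nat_lit 12) (nat_lit 3) (nat_lit 12)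 (nat_lit 1) (nat_lit 14) (nat_lit 1) (nat_lit 274) (nat_lit 428) (nat_lit 378)) (XT.lf (nat_lit 84) (nat_lit 111762931849) (nat_lit 0) (nat_lit 13904695607) (nat_lit 168) (nat_lit 38535247755) (nat_lit 11) (nat_lit 1) (nat_lit 10) (nat_lit 1) (nat_lit 12) (nat_lit 1) (nat_lit 275) (nat_lit 428) (nat_lit 377))) (XT.nd (nat_lit 94) (nat_lit 252) (nat_lit 0) (XT.lf (nat_lit 0) (nat_lit 34886515656) (nat_lit 0) (nat_lit 94004570109) (nat_lit 168) (nat_lit 31070323503) (nat_lit 9) (nat_lit 3) (nat_lit 9) (nat_lit 1) (nat_lit 11) (nat_lit 1) (nat_lit 276) (nat_lit 428) (nat_lit 376)) (XT.nd (nat_lit 94) (nat_lit 84) (nat_lit 0) (XT.lf (nat_lit 84) (nat_lit 117090354145) (nat_lit 0) (nat_lit 15217215342) (nat_lit 168) (nat_lit 23543647856) (nat_lit 8) (nat_lit 1) (nat_lit 7) (nat_lit 1) (nat_lit 9) (nat_lit 1) (nat_lit 277) (nat_lit 428) (nat_lit 375)) (XT.lf (nat_lit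 0) (nat_lit 43447225101) (nat_lit 0) (nat_lit 91717894685) (nat_lit 168) (nat_lit 16667980912) (nat_lit 6) (nat_lit 3) (nat_lit 6) (nat_lit 1) (nat_lit 8) (nat_lit 1) (nat_lit 278) (nat_lit 428) (nat_lit 374))))) (XT.nd (nat_lit 188) (nat_lit 252) (nat_lit 0) (XT.nd (nat_lit 94) (nat_lit 84) (nat_lit 0) (XT.lf (nat_lit 84) (nat_lit 121214612696) (nat_lit 0) (nat_lit 17109472196) (nat_lit 168) (nat_lit 9620646426) (nat_lit 5) (nat_lit 1) (nat_lit 4) (nat_lit 1) (nat_lit 6) (nat_lit 1) (nat_lit 279) (nat_lit 428) (nat_lit 373)) (XT.lf (nat_lit 0) (nat_lit 50701339929) (nat_lit 0) (nat_lit 90114976992) (nat_lit 168) (nat_lit 3320484609) (nat_lit 3) (nat_lit 3) (nat_lit 3) (nat_lit 1) (nat_lit 5) (nat_lit 1) (nat_lit 280) (nat_lit 428) (nat_lit 372))) (XT.nd (nat_lit 94) (nat_lit 0) (nat_lit 0) (XT.lf (nat_lit 0) (nat_lit 203744011272) (nat_lit 0) (nat_lit 0)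 (nat_lit 0) (nat_lit 0) (nat_lit 0) (nat_lit 0) (nat_lit 1) (nat_lit 0) (nat_lit 1) (nat_lit 0) (nat_lit 281) (nat_lit 428) (nat_lit 371)) (XT.nd (nat_lit 94) (nat_lit 0) (nat_lit 0) (XT.lf (nat_lit 0) (nat_lit 203558561027) (nat_lit 0) (nat_lit 0) (nat_lit 0) (nat_lit 0) (nat_lit 0) (nat_lit 0) (nat_lit 1) (nat_lit 0) (nat_lit 1) (nat_lit 0) (nat_lit 282) (nat_lit 428) (nat_lit 370)) (XT.lf (nat_lit 0) (nat_lit 203386847837) (nat_lit 0) (nat_lit 0) (nat_lit 0) (nat_lit 0) (nat_lit 0) (nat_lit 0) (nat_lit 1) (nat_lit 0) (nat_lit 1) (nat_lit 0) (nat_lit 283) (nat_lit 428) (nat_lit 369))))))))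
noncomputable def ec293 : XT := (XT.nd (nat_lit 1786) (nat_lit 0) (nat_lit 0) (XT.nd (nat_lit 846) (nat_lit 0) (nat_lit 0) (XT.nd (nat_lit 376) (nat_lit 0) (nat_lit 0) (XT.nd (nat_lit 188) (nat_lit 0) (nat_lit 0) (XT.nd (nat_lit 94) (nat_lit 0) (nat_lit 0) (XT.lf (nat_lit 0) (nat_lit 203227854143) (nat_lit 0) (nat_lit 0) (nat_lit 0) (nat_lit 0) (nat_lit 0) (nat_lit 0) (nat_lit 1) (nat_lit 0) (nat_lit 1) (nat_lit 0) (nat_lit 284) (nat_lit 428) (nat_lit 368)) (XT.lf (nat_lit 0) (nat_lit 203080637759) (nat_lit 0) (nat_lit 0) (nat_lit 0) (nat_lit 0) (nat_lit 0) (nat_lit 0) (nat_lit 1) (nat_lit 0) (nat_lit 1) (nat_lit 0) (nat_lit 285) (nat_lit 428) (nat_lit 367))) (XT.nd (nat_lit 94) (nat_lit 0) (nat_lit 0) (XT.lf (nat_lit 0) (nat_lit 202944326293) (nat_lit 0) (nat_lit 0) (nat_lit 0) (nat_lit 0) (nat_lit 0) (nat_lit 0) (nat_lit 1) (nat_lit 0) (nat_lit 1) (nat_lit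 0) (nat_lit 286) (nat_lit 428) (nat_lit 366)) (XT.lf (nat_lit 0) (nat_lit 202818111972) (nat_lit 0) (nat_lit 0) (nat_lit 0) (nat_lit 0) (nat_lit 0) (nat_lit 0) (nat_lit 1) (nat_lit 0) (nat_lit 1) (nat_lit 0) (nat_lit 287) (nat_lit 428) (nat_lit 365)))) (XT.nd (nat_lit 188) (nat_lit 0) (nat_lit 0) (XT.nd (nat_lit 94) (nat_lit 0) (nat_lit 0) (XT.lf (nat_lit 0) (nat_lit 202701246860) (nat_lit 0) (nat_lit 0) (nat_lit 0) (nat_lit 0) (nat_lit 0) (nat_lit 0) (nat_lit 1) (nat_lit 0) (nat_lit 1) (nat_lit 0) (nat_lit 288) (nat_lit 428) (nat_lit 364)) (XT.lf (nat_lit 0) (nat_lit 202593038423) (nat_lit 0) (nat_lit 0) (nat_lit 0) (nat_lit 0) (nat_lit 0) (nat_lit 0) (nat_lit 1) (nat_lit 0) (nat_lit 1) (nat_lit 0) (nat_lit 289) (nat_lit 428) (nat_lit 363))) (XT.nd (nat_lit 94) (nat_lit 0) (nat_lit 0) (XT.lf (nat_lit 0) (nat_lit 202492845426) (nat_lit 0) (nat_lit 0) (nat_lit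 0) (nat_lit 0) (nat_lit 0) (nat_lit 0) (nat_lit 1) (nat_lit 0) (nat_lit 1) (nat_lit 0) (nat_lit 290) (nat_lit 428) (nat_lit 362)) (XT.nd (nat_lit 94) (nat_lit 0) (nat_lit 0) (XT.lf (nat_lit 0) (nat_lit 202400074133) (nat_lit 0) (nat_lit 0) (nat_lit 0) (nat_lit 0) (nat_lit 0) (nat_lit 0) (nat_lit 1) (nat_lit 0) (nat_lit 1) (nat_lit 0) (nat_lit 291) (nat_lit 428) (nat_lit 361)) (XT.lf (nat_lit 0) (nat_lit 202314174787) (nat_lit 0) (nat_lit 0) (nat_lit 0) (nat_lit 0) (nat_lit 0) (nat_lit 0) (nat_lit 1) (nat_lit 0) (nat_lit 1) (nat_lit 0) (nat_lit 292) (nat_lit 428) (nat_lit 360)))))) (XT.nd (nat_lit 470) (nat_lit 0) (nat_lit 0) (XT.nd (nat_lit 188) (nat_lit 0) (nat_lit 0) (XT.nd (nat_lit 94) (nat_lit 0) (nat_lit 0) (XT.lf (nat_lit 0) (nat_lit 202234638355) (nat_lit 0) (nat_lit 0) (nat_lit 0) (nat_lit 0) (nat_lit 0) (nat_lit 0) (nat_lit 1) (nat_lit 0) (nat_lit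 1) (nat_lit 0) (nat_lit 293) (nat_lit 428) (nat_lit 359)) (XT.lf (nat_lit 0) (nat_lit 202160993512) (nat_lit 0) (nat_lit 0) (nat_lit 0) (nat_lit 0) (nat_lit 0) (nat_lit 0) (nat_lit 1) (nat_lit 0) (nat_lit 1) (nat_lit 0) (nat_lit 294) (nat_lit 428) (nat_lit 358))) (XT.nd (nat_lit 94) (nat_lit 0) (nat_lit 0) (XT.lf (nat_lit 0) (nat_lit 202092803841) (nat_lit 0) (nat_lit 0) (nat_lit 0) (nat_lit 0) (nat_lit 0) (nat_lit 0) (nat_lit 1) (nat_lit 0) (nat_lit 1) (nat_lit 0) (nat_lit 295) (nat_lit 428) (nat_lit 357)) (XT.nd (nat_lit 94) (nat_lit 0) (nat_lit 0) (XT.lf (nat_lit 0) (nat_lit 202029665258) (nat_lit 0) (nat_lit 0) (nat_lit 0) (nat_lit 0) (nat_lit 0) (nat_lit 0) (nat_lit 1) (nat_lit 0) (nat_lit 1) (nat_lit 0) (nat_lit 296) (nat_lit 428) (nat_lit 356)) (XT.lf (nat_lit 0) (nat_lit 201971203606) (nat_lit 0) (nat_lit 0) (nat_lit 0) (nat_lit 0) (nat_lit 0) (nat_lit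 0) (nat_lit 1) (nat_lit 0) (nat_lit 1) (nat_lit 0) (nat_lit 297) (nat_lit 428) (nat_lit 355))))) (XT.nd (nat_lit 188) (nat_lit 0) (nat_lit 0) (XT.nd (nat_lit 94) (nat_lit 0) (nat_lit 0) (XT.lf (nat_lit 0) (nat_lit 201917072447) (nat_lit 0) (nat_lit 0) (nat_lit 0) (nat_lit 0) (nat_lit 0) (nat_lit 0) (nat_lit 1) (nat_lit 0) (nat_lit 1) (nat_lit 0) (nat_lit 298) (nat_lit 428) (nat_lit 354)) (XT.lf (nat_lit 0) (nat_lit 201866951004) (nat_lit 0) (nat_lit 0) (nat_lit 0) (nat_lit 0) (nat_lit 0) (nat_lit 0) (nat_lit 1) (nat_lit 0) (nat_lit 1) (nat_lit 0) (nat_lit 299) (nat_lit 428) (nat_lit 353))) (XT.nd (nat_lit 94) (nat_lit 0) (nat_lit 0) (XT.lf (nat_lit 0) (nat_lit 201820542260) (nat_lit 0) (nat_lit 0) (nat_lit 0) (nat_lit 0) (nat_lit 0) (nat_lit 0) (nat_lit 1) (nat_lit 0) (nat_lit 1) (nat_lit 0) (nat_lit 300) (nat_lit 428) (nat_lit 352)) (XT.nd (nat_lit 94) (nat_lit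 0) (nat_lit 0) (XT.lf (nat_lit 0) (nat_lit 201777571201) (nat_lit 0) (nat_lit 0) (nat_lit 0) (nat_lit 0) (nat_lit 0) (nat_lit 0) (nat_lit 1) (nat_lit 0) (nat_lit 1) (nat_lit 0) (nat_lit 301) (nat_lit 428) (nat_lit 351)) (XT.lf (nat_lit 0) (nat_lit 201737783184) (nat_lit 0) (nat_lit 0) (nat_lit 0) (nat_lit 0) (nat_lit 0) (nat_lit 0) (nat_lit 1) (nat_lit 0) (nat_lit 1) (nat_lit 0) (nat_lit 302) (nat_lit 428) (nat_lit 350))))))) (XT.nd (nat_lit 846) (nat_lit 0) (nat_lit 0) (XT.nd (nat_lit 376) (nat_lit 0) (nat_lit 0) (XT.nd (nat_lit 188) (nat_lit 0) (nat_lit 0) (XT.nd (nat_lit 94) (nat_lit 0) (nat_lit 0) (XT.lf (nat_lit 0) (nat_lit 201700942427) (nat_lit 0) (nat_lit 0) (nat_lit 0) (nat_lit 0) (nat_lit 0) (nat_lit 0) (nat_lit 1) (nat_lit 0) (nat_lit 1) (nat_lit 0) (nat_lit 303) (nat_lit 428) (nat_lit 349)) (XT.lf (nat_lit 0) (nat_lit 201666830614) (nat_lit 0)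 (nat_lit 0) (nat_lit 0) (nat_lit 0) (nat_lit 0) (nat_lit 0) (nat_lit 1) (nat_lit 0) (nat_lit 1) (nat_lit 0) (nat_lit 304) (nat_lit 428) (nat_lit 348))) (XT.nd (nat_lit 94) (nat_lit 0) (nat_lit 0) (XT.lf (nat_lit 0) (nat_lit 201635245603) (nat_lit 0) (nat_lit 0) (nat_lit 0) (nat_lit 0) (nat_lit 0) (nat_lit 0) (nat_lit 1) (nat_lit 0) (nat_lit 1) (nat_lit 0) (nat_lit 305) (nat_lit 428) (nat_lit 347)) (XT.lf (nat_lit 0) (nat_lit 201606000222) (nat_lit 0) (nat_lit 0) (nat_lit 0) (nat_lit 0) (nat_lit 0) (nat_lit 0) (nat_lit 1) (nat_lit 0) (nat_lit 1) (nat_lit 0) (nat_lit 306) (nat_lit 428) (nat_lit 346)))) (XT.nd (nat_lit 188) (nat_lit 0) (nat_lit 0) (XT.nd (nat_lit 94) (nat_lit 0) (nat_lit 0) (XT.lf (nat_lit 0) (nat_lit 201578921166) (nat_lit 0) (nat_lit 0) (nat_lit 0) (nat_lit 0) (nat_lit 0) (nat_lit 0) (nat_lit 1) (nat_lit 0) (nat_lit 1) (nat_lit 0) (nat_lit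 307) (nat_lit 428) (nat_lit 345)) (XT.lf (nat_lit 0) (nat_lit 201553847966) (nat_lit 0) (nat_lit 0) (nat_lit 0) (nat_lit 0) (nat_lit 0) (nat_lit 0) (nat_lit 1) (nat_lit 0) (nat_lit 1) (nat_lit 0) (nat_lit 308) (nat_lit 428) (nat_lit 344))) (XT.nd (nat_lit 94) (nat_lit 0) (nat_lit 0) (XT.lf (nat_lit 0) (nat_lit 201530632040) (nat_lit 0) (nat_lit 0) (nat_lit 0) (nat_lit 0) (nat_lit 0) (nat_lit 0) (nat_lit 1) (nat_lit 0) (nat_lit 1) (nat_lit 0) (nat_lit 309) (nat_lit 428) (nat_lit 343)) (XT.nd (nat_lit 94) (nat_lit 0) (nat_lit 0) (XT.lf (nat_lit 0) (nat_lit 201509135812) (nat_lit 0) (nat_lit 0) (nat_lit 0) (nat_lit 0) (nat_lit 0) (nat_lit 0) (nat_lit 1) (nat_lit 0) (nat_lit 1) (nat_lit 0) (nat_lit 310) (nat_lit 428) (nat_lit 342)) (XT.lf (nat_lit 0) (nat_lit 201489231897) (nat_lit 0) (nat_lit 0) (nat_lit 0) (nat_lit 0) (nat_lit 0) (nat_lit 0) (nat_lit 1) (nat_lit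 0) (nat_lit 1) (nat_lit 0) (nat_lit 311) (nat_lit 428) (nat_lit 341)))))) (XT.nd (nat_lit 470) (nat_lit 0) (nat_lit 0) (XT.nd (nat_lit 188) (nat_lit 0) (nat_lit 0) (XT.nd (nat_lit 94) (nat_lit 0) (nat_lit 0) (XT.lf (nat_lit 0) (nat_lit 201470802346) (nat_lit 0) (nat_lit 0) (nat_lit 0) (nat_lit 0) (nat_lit 0) (nat_lit 0) (nat_lit 1) (nat_lit 0) (nat_lit 1) (nat_lit 0) (nat_lit 312) (nat_lit 428) (nat_lit 340)) (XT.lf (nat_lit 0) (nat_lit 201453737948) (nat_lit 0) (nat_lit 0) (nat_lit 0) (nat_lit 0) (nat_lit 0) (nat_lit 0) (nat_lit 1) (nat_lit 0) (nat_lit 1) (nat_lit 0) (nat_lit 313) (nat_lit 428) (nat_lit 339))) (XT.nd (nat_lit 94) (nat_lit 0) (nat_lit 0) (XT.lf (nat_lit 0) (nat_lit 201437937578) (nat_lit 0) (nat_lit 0) (nat_lit 0) (nat_lit 0) (nat_lit 0) (nat_lit 0) (nat_lit 1) (nat_lit 0) (nat_lit 1) (nat_lit 0) (nat_lit 314) (nat_lit 428) (nat_lit 338))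 (XT.nd (nat_lit 94) (nat_lit 0) (nat_lit 0) (XT.lf (nat_lit 0) (nat_lit 201423307607) (nat_lit 0) (nat_lit 0) (nat_lit 0) (nat_lit 0) (nat_lit 0) (nat_lit 0) (nat_lit 1) (nat_lit 0) (nat_lit 1) (nat_lit 0) (nat_lit 315) (nat_lit 428) (nat_lit 337)) (XT.lf (nat_lit 0) (nat_lit 201409761337) (nat_lit 0) (nat_lit 0) (nat_lit 0) (nat_lit 0) (nat_lit 0) (nat_lit 0) (nat_lit 1) (nat_lit 0) (nat_lit 1) (nat_lit 0) (nat_lit 316) (nat_lit 428) (nat_lit 336))))) (XT.nd (nat_lit 188) (nat_lit 0) (nat_lit 0) (XT.nd (nat_lit 94) (nat_lit 0) (nat_lit 0) (XT.lf (nat_lit 0) (nat_lit 201397218494) (nat_lit 0) (nat_lit 0) (nat_lit 0) (nat_lit 0) (nat_lit 0) (nat_lit 0) (nat_lit 1) (nat_lit 0) (nat_lit 1) (nat_lit 0) (nat_lit 317) (nat_lit 428) (nat_lit 335)) (XT.lf (nat_lit 0) (nat_lit 201385604751) (nat_lit 0) (nat_lit 0) (nat_lit 0) (nat_lit 0) (nat_lit 0) (nat_lit 0) (nat_lit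 1) (nat_lit 0) (nat_lit 1) (nat_lit 0) (nat_lit 318) (nat_lit 428) (nat_lit 334))) (XT.nd (nat_lit 94) (nat_lit 0) (nat_lit 0) (XT.lf (nat_lit 0) (nat_lit 201374851286) (nat_lit 0) (nat_lit 0) (nat_lit 0) (nat_lit 0) (nat_lit 0) (nat_lit 0) (nat_lit 1) (nat_lit 0) (nat_lit 1) (nat_lit 0) (nat_lit 319) (nat_lit 428) (nat_lit 333)) (XT.nd (nat_lit 94) (nat_lit 0) (nat_lit 0) (XT.lf (nat_lit 0) (nat_lit 201364894373) (nat_lit 0) (nat_lit 0) (nat_lit 0) (nat_lit 0) (nat_lit 0) (nat_lit 0) (nat_lit 1) (nat_lit 0) (nat_lit 1) (nat_lit 0) (nat_lit 320) (nat_lit 428) (nat_lit 332)) (XT.lf (nat_lit 0) (nat_lit 201355675009) (nat_lit 0) (nat_lit 0) (nat_lit 0) (nat_lit 0) (nat_lit 0) (nat_lit 0) (nat_lit 1) (nat_lit 0) (nat_lit 1) (nat_lit 0) (nat_lit 321) (nat_lit 428) (nat_lit 331))))))))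
noncomputable def ec294 : XT := (XT.nd (nat_lit 1692) (nat_lit 0) (nat_lit 0) (XT.nd (nat_lit 846) (nat_lit 0) (nat_lit 0) (XT.nd (nat_lit 376) (nat_lit 0) (nat_lit 0) (XT.nd (nat_lit 188) (nat_lit 0) (nat_lit 0) (XT.nd (nat_lit 94) (nat_lit 0) (nat_lit 0) (XT.lf (nat_lit 0) (nat_lit 201347138561) (nat_lit 0) (nat_lit 0) (nat_lit 0) (nat_lit 0) (nat_lit 0) (nat_lit 0) (nat_lit 1) (nat_lit 0) (nat_lit 1) (nat_lit 0) (nat_lit 322) (nat_lit 428) (nat_lit 330)) (XT.lf (nat_lit 0) (nat_lit 201339234443) (nat_lit 0) (nat_lit 0) (nat_lit 0) (nat_lit 0) (nat_lit 0) (nat_lit 0) (nat_lit 1) (nat_lit 0) (nat_lit 1) (nat_lit 0) (nat_lit 323) (nat_lit 428) (nat_lit 329))) (XT.nd (nat_lit 94) (nat_lit 0) (nat_lit 0) (XT.lf (nat_lit 0) (nat_lit 201331915815) (nat_lit 0) (nat_lit 0) (nat_lit 0) (nat_lit 0) (nat_lit 0) (nat_lit 0) (nat_lit 1) (nat_lit 0) (nat_lit 1) (nat_lit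 0) (nat_lit 324) (nat_lit 428) (nat_lit 328)) (XT.lf (nat_lit 0) (nat_lit 201325139307) (nat_lit 0) (nat_lit 0) (nat_lit 0) (nat_lit 0) (nat_lit 0) (nat_lit 0) (nat_lit 1) (nat_lit 0) (nat_lit 1) (nat_lit 0) (nat_lit 325) (nat_lit 428) (nat_lit 327)))) (XT.nd (nat_lit 188) (nat_lit 0) (nat_lit 0) (XT.nd (nat_lit 94) (nat_lit 0) (nat_lit 0) (XT.lf (nat_lit 0) (nat_lit 201318864763) (nat_lit 0) (nat_lit 0) (nat_lit 0) (nat_lit 0) (nat_lit 0) (nat_lit 0) (nat_lit 1) (nat_lit 0) (nat_lit 1) (nat_lit 0) (nat_lit 326) (nat_lit 428) (nat_lit 326)) (XT.lf (nat_lit 0) (nat_lit 201313055000) (nat_lit 0) (nat_lit 0) (nat_lit 0) (nat_lit 0) (nat_lit 0) (nat_lit 0) (nat_lit 1) (nat_lit 0) (nat_lit 1) (nat_lit 0) (nat_lit 327) (nat_lit 428) (nat_lit 325))) (XT.nd (nat_lit 94) (nat_lit 0) (nat_lit 0) (XT.lf (nat_lit 0) (nat_lit 201307675590) (nat_lit 0) (nat_lit 0) (nat_lit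 0) (nat_lit 0) (nat_lit 0) (nat_lit 0) (nat_lit 1) (nat_lit 0) (nat_lit 1) (nat_lit 0) (nat_lit 328) (nat_lit 428) (nat_lit 324)) (XT.nd (nat_lit 94) (nat_lit 0) (nat_lit 0) (XT.lf (nat_lit 0) (nat_lit 201302694655) (nat_lit 0) (nat_lit 0) (nat_lit 0) (nat_lit 0) (nat_lit 0) (nat_lit 0) (nat_lit 1) (nat_lit 0) (nat_lit 1) (nat_lit 0) (nat_lit 329) (nat_lit 428) (nat_lit 323)) (XT.lf (nat_lit 0) (nat_lit 201298082677) (nat_lit 0) (nat_lit 0) (nat_lit 0) (nat_lit 0) (nat_lit 0) (nat_lit 0) (nat_lit 1) (nat_lit 0) (nat_lit 1) (nat_lit 0) (nat_lit 330) (nat_lit 428) (nat_lit 322)))))) (XT.nd (nat_lit 376) (nat_lit 0) (nat_lit 0) (XT.nd (nat_lit 188) (nat_lit 0) (nat_lit 0) (XT.nd (nat_lit 94) (nat_lit 0) (nat_lit 0) (XT.lf (nat_lit 0) (nat_lit 201293812328) (nat_lit 0) (nat_lit 0) (nat_lit 0) (nat_lit 0) (nat_lit 0) (nat_lit 0) (nat_lit 1) (nat_lit 0) (nat_lit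 1) (nat_lit 0) (nat_lit 331) (nat_lit 428) (nat_lit 321)) (XT.lf (nat_lit 0) (nat_lit 201289858301) (nat_lit 0) (nat_lit 0) (nat_lit 0) (nat_lit 0) (nat_lit 0) (nat_lit 0) (nat_lit 1) (nat_lit 0) (nat_lit 1) (nat_lit 0) (nat_lit 332) (nat_lit 428) (nat_lit 320))) (XT.nd (nat_lit 94) (nat_lit 0) (nat_lit 0) (XT.lf (nat_lit 0) (nat_lit 201286197165) (nat_lit 0) (nat_lit 0) (nat_lit 0) (nat_lit 0) (nat_lit 0) (nat_lit 0) (nat_lit 1) (nat_lit 0) (nat_lit 1) (nat_lit 0) (nat_lit 333) (nat_lit 428) (nat_lit 319)) (XT.lf (nat_lit 0) (nat_lit 201282807224) (nat_lit 0) (nat_lit 0) (nat_lit 0) (nat_lit 0) (nat_lit 0) (nat_lit 0) (nat_lit 1) (nat_lit 0) (nat_lit 1) (nat_lit 0) (nat_lit 334) (nat_lit 428) (nat_lit 318)))) (XT.nd (nat_lit 188) (nat_lit 0) (nat_lit 0) (XT.nd (nat_lit 94) (nat_lit 0) (nat_lit 0) (XT.lf (nat_lit 0) (nat_lit 201279668390) (nat_lit 0) (nat_lit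 0) (nat_lit 0) (nat_lit 0) (nat_lit 0) (nat_lit 0) (nat_lit 1) (nat_lit 0) (nat_lit 1) (nat_lit 0) (nat_lit 335) (nat_lit 428) (nat_lit 317)) (XT.lf (nat_lit 0) (nat_lit 201276762062) (nat_lit 0) (nat_lit 0) (nat_lit 0) (nat_lit 0) (nat_lit 0) (nat_lit 0) (nat_lit 1) (nat_lit 0) (nat_lit 1) (nat_lit 0) (nat_lit 336) (nat_lit 428) (nat_lit 316))) (XT.nd (nat_lit 94) (nat_lit 0) (nat_lit 0) (XT.lf (nat_lit 0) (nat_lit 201274071018) (nat_lit 0) (nat_lit 0) (nat_lit 0) (nat_lit 0) (nat_lit 0) (nat_lit 0) (nat_lit 1) (nat_lit 0) (nat_lit 1) (nat_lit 0) (nat_lit 337) (nat_lit 428) (nat_lit 315)) (XT.nd (nat_lit 94) (nat_lit 0) (nat_lit 0) (XT.lf (nat_lit 0) (nat_lit 201271579310) (nat_lit 0) (nat_lit 0) (nat_lit 0) (nat_lit 0) (nat_lit 0) (nat_lit 0) (nat_lit 1) (nat_lit 0) (nat_lit 1) (nat_lit 0) (nat_lit 338) (nat_lit 428) (nat_lit 314)) (XT.lf (nat_lit 0) (nat_lit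 201269272173) (nat_lit 0) (nat_lit 0) (nat_lit 0) (nat_lit 0) (nat_lit 0) (nat_lit 0) (nat_lit 1) (nat_lit 0) (nat_lit 1) (nat_lit 0) (nat_lit 339) (nat_lit 428) (nat_lit 313))))))) (XT.nd (nat_lit 846) (nat_lit 0) (nat_lit 0) (XT.nd (nat_lit 376) (nat_lit 0) (nat_lit 0) (XT.nd (nat_lit 188) (nat_lit 0) (nat_lit 0) (XT.nd (nat_lit 94) (nat_lit 0) (nat_lit 0) (XT.lf (nat_lit 0) (nat_lit 201267135935) (nat_lit 0) (nat_lit 0) (nat_lit 0) (nat_lit 0) (nat_lit 0) (nat_lit 0) (nat_lit 1) (nat_lit 0) (nat_lit 1) (nat_lit 0) (nat_lit 340) (nat_lit 428) (nat_lit 312)) (XT.lf (nat_lit 0) (nat_lit 201265157937) (nat_lit 0) (nat_lit 0) (nat_lit 0) (nat_lit 0) (nat_lit 0) (nat_lit 0) (nat_lit 1) (nat_lit 0) (nat_lit 1) (nat_lit 0) (nat_lit 341) (nat_lit 428) (nat_lit 311))) (XT.nd (nat_lit 94) (nat_lit 0) (nat_lit 0) (XT.lf (nat_lit 0) (nat_lit 201263326458) (nat_lit 0)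 (nat_lit 0) (nat_lit 0) (nat_lit 0) (nat_lit 0) (nat_lit 0) (nat_lit 1) (nat_lit 0) (nat_lit 1) (nat_lit 0) (nat_lit 342) (nat_lit 428) (nat_lit 310)) (XT.lf (nat_lit 0) (nat_lit 201261630643) (nat_lit 0) (nat_lit 0) (nat_lit 0) (nat_lit 0) (nat_lit 0) (nat_lit 0) (nat_lit 1) (nat_lit 0) (nat_lit 1) (nat_lit 0) (nat_lit 343) (nat_lit 428) (nat_lit 309)))) (XT.nd (nat_lit 188) (nat_lit 0) (nat_lit 0) (XT.nd (nat_lit 94) (nat_lit 0) (nat_lit 0) (XT.lf (nat_lit 0) (nat_lit 201260060445) (nat_lit 0) (nat_lit 0) (nat_lit 0) (nat_lit 0) (nat_lit 0) (nat_lit 0) (nat_lit 1) (nat_lit 0) (nat_lit 1) (nat_lit 0) (nat_lit 344) (nat_lit 428) (nat_lit 308)) (XT.lf (nat_lit 0) (nat_lit 201258606557) (nat_lit 0) (nat_lit 0) (nat_lit 0) (nat_lit 0) (nat_lit 0) (nat_lit 0) (nat_lit 1) (nat_lit 0) (nat_lit 1) (nat_lit 0) (nat_lit 345) (nat_lit 428) (nat_lit 307))) (XT.nd (nat_lit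 94) (nat_lit 0) (nat_lit 0) (XT.lf (nat_lit 0) (nat_lit 201257260365) (nat_lit 0) (nat_lit 0) (nat_lit 0) (nat_lit 0) (nat_lit 0) (nat_lit 0) (nat_lit 1) (nat_lit 0) (nat_lit 1) (nat_lit 0) (nat_lit 346) (nat_lit 428) (nat_lit 306)) (XT.nd (nat_lit 94) (nat_lit 0) (nat_lit 0) (XT.lf (nat_lit 0) (nat_lit 201256013891) (nat_lit 0) (nat_lit 0) (nat_lit 0) (nat_lit 0) (nat_lit 0) (nat_lit 0) (nat_lit 1) (nat_lit 0) (nat_lit 1) (nat_lit 0) (nat_lit 347) (nat_lit 428) (nat_lit 305)) (XT.lf (nat_lit 0) (nat_lit 201254859748) (nat_lit 0) (nat_lit 0) (nat_lit 0) (nat_lit 0) (nat_lit 0) (nat_lit 0) (nat_lit 1) (nat_lit 0) (nat_lit 1) (nat_lit 0) (nat_lit 348) (nat_lit 428) (nat_lit 304)))))) (XT.nd (nat_lit 470) (nat_lit 0) (nat_lit 0) (XT.nd (nat_lit 188) (nat_lit 0) (nat_lit 0) (XT.nd (nat_lit 94) (nat_lit 0) (nat_lit 0) (XT.lf (nat_lit 0) (nat_lit 201253791097) (nat_lit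 0) (nat_lit 0) (nat_lit 0) (nat_lit 0) (nat_lit 0) (nat_lit 0) (nat_lit 1) (nat_lit 0) (nat_lit 1) (nat_lit 0) (nat_lit 349) (nat_lit 428) (nat_lit 303)) (XT.lf (nat_lit 0) (nat_lit 201252801606) (nat_lit 0) (nat_lit 0) (nat_lit 0) (nat_lit 0) (nat_lit 0) (nat_lit 0) (nat_lit 1) (nat_lit 0) (nat_lit 1) (nat_lit 0) (nat_lit 350) (nat_lit 428) (nat_lit 302))) (XT.nd (nat_lit 94) (nat_lit 0) (nat_lit 0) (XT.lf (nat_lit 0) (nat_lit 201251885410) (nat_lit 0) (nat_lit 0) (nat_lit 0) (nat_lit 0) (nat_lit 0) (nat_lit 0) (nat_lit 1) (nat_lit 0) (nat_lit 1) (nat_lit 0) (nat_lit 351) (nat_lit 428) (nat_lit 301)) (XT.nd (nat_lit 94) (nat_lit 0) (nat_lit 0) (XT.lf (nat_lit 0) (nat_lit 201251037081) (nat_lit 0) (nat_lit 0) (nat_lit 0) (nat_lit 0) (nat_lit 0) (nat_lit 0) (nat_lit 1) (nat_lit 0) (nat_lit 1) (nat_lit 0) (nat_lit 352) (nat_lit 428) (nat_lit 300)) (XT.lf (nat_lit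 0) (nat_lit 201250251590) (nat_lit 0) (nat_lit 0) (nat_lit 0) (nat_lit 0) (nat_lit 0) (nat_lit 0) (nat_lit 1) (nat_lit 0) (nat_lit 1) (nat_lit 0) (nat_lit 353) (nat_lit 428) (nat_lit 299))))) (XT.nd (nat_lit 188) (nat_lit 0) (nat_lit 0) (XT.nd (nat_lit 94) (nat_lit 0) (nat_lit 0) (XT.lf (nat_lit 0) (nat_lit 201249524285) (nat_lit 0) (nat_lit 0) (nat_lit 0) (nat_lit 0) (nat_lit 0) (nat_lit 0) (nat_lit 1) (nat_lit 0) (nat_lit 1) (nat_lit 0) (nat_lit 354) (nat_lit 428) (nat_lit 298)) (XT.lf (nat_lit 0) (nat_lit 201248850853) (nat_lit 0) (nat_lit 0) (nat_lit 0) (nat_lit 0) (nat_lit 0) (nat_lit 0) (nat_lit 1) (nat_lit 0) (nat_lit 1) (nat_lit 0) (nat_lit 355) (nat_lit 428) (nat_lit 297))) (XT.nd (nat_lit 94) (nat_lit 0) (nat_lit 0) (XT.lf (nat_lit 0) (nat_lit 201248227306) (nat_lit 0) (nat_lit 0) (nat_lit 0) (nat_lit 0) (nat_lit 0) (nat_lit 0) (nat_lit 1) (nat_lit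 0) (nat_lit 1) (nat_lit 0) (nat_lit 356) (nat_lit 428) (nat_lit 296)) (XT.nd (nat_lit 94) (nat_lit 0) (nat_lit 0) (XT.lf (nat_lit 0) (nat_lit 201247649947) (nat_lit 0) (nat_lit 0) (nat_lit 0) (nat_lit 0) (nat_lit 0) (nat_lit 0) (nat_lit 1) (nat_lit 0) (nat_lit 1) (nat_lit 0) (nat_lit 357) (nat_lit 428) (nat_lit 295)) (XT.lf (nat_lit 0) (nat_lit 201247115356) (nat_lit 0) (nat_lit 0) (nat_lit 0) (nat_lit 0) (nat_lit 0) (nat_lit 0) (nat_lit 1) (nat_lit 0) (nat_lit 1) (nat_lit 0) (nat_lit 358) (nat_lit 428) (nat_lit 294))))))))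
noncomputable def ec295 : XT := (XT.nd (nat_lit 1786) (nat_lit 0) (nat_lit 0) (XT.nd (nat_lit 846) (nat_lit 0) (nat_lit 0) (XT.nd (nat_lit 376) (nat_lit 0) (nat_lit 0) (XT.nd (nat_lit 188) (nat_lit 0) (nat_lit 0) (XT.nd (nat_lit 94) (nat_lit 0) (nat_lit 0) (XT.lf (nat_lit 0) (nat_lit 201246620364) (nat_lit 0) (nat_lit 0) (nat_lit 0) (nat_lit 0) (nat_lit 0) (nat_lit 0) (nat_lit 1) (nat_lit 0) (nat_lit 1) (nat_lit 0) (nat_lit 359) (nat_lit 428) (nat_lit 293)) (XT.lf (nat_lit 0) (nat_lit 201246162038) (nat_lit 0) (nat_lit 0) (nat_lit 0) (nat_lit 0) (nat_lit 0) (nat_lit 0) (nat_lit 1) (nat_lit 0) (nat_lit 1) (nat_lit 0) (nat_lit 360) (nat_lit 428) (nat_lit 292))) (XT.nd (nat_lit 94) (nat_lit 0) (nat_lit 0) (XT.lf (nat_lit 0) (nat_lit 201245737662) (nat_lit 0) (nat_lit 0) (nat_lit 0) (nat_lit 0) (nat_lit 0) (nat_lit 0) (nat_lit 1) (nat_lit 0) (nat_lit 1) (nat_lit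 0) (nat_lit 361) (nat_lit 428) (nat_lit 291)) (XT.lf (nat_lit 0) (nat_lit 201245344721) (nat_lit 0) (nat_lit 0) (nat_lit 0) (nat_lit 0) (nat_lit 0) (nat_lit 0) (nat_lit 1) (nat_lit 0) (nat_lit 1) (nat_lit 0) (nat_lit 362) (nat_lit 428) (nat_lit 290)))) (XT.nd (nat_lit 188) (nat_lit 0) (nat_lit 0) (XT.nd (nat_lit 94) (nat_lit 0) (nat_lit 0) (XT.lf (nat_lit 0) (nat_lit 201244980887) (nat_lit 0) (nat_lit 0) (nat_lit 0) (nat_lit 0) (nat_lit 0) (nat_lit 0) (nat_lit 1) (nat_lit 0) (nat_lit 1) (nat_lit 0) (nat_lit 363) (nat_lit 428) (nat_lit 289)) (XT.lf (nat_lit 0) (nat_lit 201244644004) (nat_lit 0) (nat_lit 0) (nat_lit 0) (nat_lit 0) (nat_lit 0) (nat_lit 0) (nat_lit 1) (nat_lit 0) (nat_lit 1) (nat_lit 0) (nat_lit 364) (nat_lit 428) (nat_lit 288))) (XT.nd (nat_lit 94) (nat_lit 0) (nat_lit 0) (XT.lf (nat_lit 0) (nat_lit 201244332075) (nat_lit 0) (nat_lit 0) (nat_lit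 0) (nat_lit 0) (nat_lit 0) (nat_lit 0) (nat_lit 1) (nat_lit 0) (nat_lit 1) (nat_lit 0) (nat_lit 365) (nat_lit 428) (nat_lit 287)) (XT.nd (nat_lit 94) (nat_lit 0) (nat_lit 0) (XT.lf (nat_lit 0) (nat_lit 201244043252) (nat_lit 0) (nat_lit 0) (nat_lit 0) (nat_lit 0) (nat_lit 0) (nat_lit 0) (nat_lit 1) (nat_lit 0) (nat_lit 1) (nat_lit 0) (nat_lit 366) (nat_lit 428) (nat_lit 286)) (XT.lf (nat_lit 0) (nat_lit 201243775823) (nat_lit 0) (nat_lit 0) (nat_lit 0) (nat_lit 0) (nat_lit 0) (nat_lit 0) (nat_lit 1) (nat_lit 0) (nat_lit 1) (nat_lit 0) (nat_lit 367) (nat_lit 428) (nat_lit 285)))))) (XT.nd (nat_lit 470) (nat_lit 0) (nat_lit 0) (XT.nd (nat_lit 188) (nat_lit 0) (nat_lit 0) (XT.nd (nat_lit 94) (nat_lit 0) (nat_lit 0) (XT.lf (nat_lit 0) (nat_lit 201243528204) (nat_lit 0) (nat_lit 0) (nat_lit 0) (nat_lit 0) (nat_lit 0) (nat_lit 0) (nat_lit 1) (nat_lit 0) (nat_lit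 1) (nat_lit 0) (nat_lit 368) (nat_lit 428) (nat_lit 284)) (XT.lf (nat_lit 0) (nat_lit 201243298927) (nat_lit 0) (nat_lit 0) (nat_lit 0) (nat_lit 0) (nat_lit 0) (nat_lit 0) (nat_lit 1) (nat_lit 0) (nat_lit 1) (nat_lit 0) (nat_lit 369) (nat_lit 428) (nat_lit 283))) (XT.nd (nat_lit 94) (nat_lit 0) (nat_lit 0) (XT.lf (nat_lit 0) (nat_lit 201243086633) (nat_lit 0) (nat_lit 0) (nat_lit 0) (nat_lit 0) (nat_lit 0) (nat_lit 0) (nat_lit 1) (nat_lit 0) (nat_lit 1) (nat_lit 0) (nat_lit 370) (nat_lit 428) (nat_lit 282)) (XT.nd (nat_lit 94) (nat_lit 0) (nat_lit 0) (XT.lf (nat_lit 0) (nat_lit 201242890065) (nat_lit 0) (nat_lit 0) (nat_lit 0) (nat_lit 0) (nat_lit 0) (nat_lit 0) (nat_lit 1) (nat_lit 0) (nat_lit 1) (nat_lit 0) (nat_lit 371) (nat_lit 428) (nat_lit 281)) (XT.lf (nat_lit 0) (nat_lit 201242708057) (nat_lit 0) (nat_lit 0) (nat_lit 0) (nat_lit 0) (nat_lit 0) (nat_lit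 0) (nat_lit 1) (nat_lit 0) (nat_lit 1) (nat_lit 0) (nat_lit 372) (nat_lit 428) (nat_lit 280))))) (XT.nd (nat_lit 188) (nat_lit 0) (nat_lit 0) (XT.nd (nat_lit 94) (nat_lit 0) (nat_lit 0) (XT.lf (nat_lit 0) (nat_lit 201242539532) (nat_lit 0) (nat_lit 0) (nat_lit 0) (nat_lit 0) (nat_lit 0) (nat_lit 0) (nat_lit 1) (nat_lit 0) (nat_lit 1) (nat_lit 0) (nat_lit 373) (nat_lit 428) (nat_lit 279)) (XT.lf (nat_lit 0) (nat_lit 201242383490) (nat_lit 0) (nat_lit 0) (nat_lit 0) (nat_lit 0) (nat_lit 0) (nat_lit 0) (nat_lit 1) (nat_lit 0) (nat_lit 1) (nat_lit 0) (nat_lit 374) (nat_lit 428) (nat_lit 278))) (XT.nd (nat_lit 94) (nat_lit 0) (nat_lit 0) (XT.lf (nat_lit 0) (nat_lit 201242239006) (nat_lit 0) (nat_lit 0) (nat_lit 0) (nat_lit 0) (nat_lit 0) (nat_lit 0) (nat_lit 1) (nat_lit 0) (nat_lit 1) (nat_lit 0) (nat_lit 375) (nat_lit 428) (nat_lit 277)) (XT.nd (nat_lit 94) (nat_lit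 0) (nat_lit 0) (XT.lf (nat_lit 0) (nat_lit 201242105225) (nat_lit 0) (nat_lit 0) (nat_lit 0) (nat_lit 0) (nat_lit 0) (nat_lit 0) (nat_lit 1) (nat_lit 0) (nat_lit 1) (nat_lit 0) (nat_lit 376) (nat_lit 428) (nat_lit 276)) (XT.lf (nat_lit 0) (nat_lit 201241981354) (nat_lit 0) (nat_lit 0) (nat_lit 0) (nat_lit 0) (nat_lit 0) (nat_lit 0) (nat_lit 1) (nat_lit 0) (nat_lit 1) (nat_lit 0) (nat_lit 377) (nat_lit 428) (nat_lit 275))))))) (XT.nd (nat_lit 846) (nat_lit 0) (nat_lit 0) (XT.nd (nat_lit 376) (nat_lit 0) (nat_lit 0) (XT.nd (nat_lit 188) (nat_lit 0) (nat_lit 0) (XT.nd (nat_lit 94) (nat_lit 0) (nat_lit 0) (XT.lf (nat_lit 0) (nat_lit 201241866658) (nat_lit 0) (nat_lit 0) (nat_lit 0) (nat_lit 0) (nat_lit 0) (nat_lit 0) (nat_lit 1) (nat_lit 0) (nat_lit 1) (nat_lit 0) (nat_lit 378) (nat_lit 428) (nat_lit 274)) (XT.lf (nat_lit 0) (nat_lit 201241760459) (nat_lit 0)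 (nat_lit 0) (nat_lit 0) (nat_lit 0) (nat_lit 0) (nat_lit 0) (nat_lit 1) (nat_lit 0) (nat_lit 1) (nat_lit 0) (nat_lit 379) (nat_lit 428) (nat_lit 273))) (XT.nd (nat_lit 94) (nat_lit 0) (nat_lit 0) (XT.lf (nat_lit 0) (nat_lit 201241662126) (nat_lit 0) (nat_lit 0) (nat_lit 0) (nat_lit 0) (nat_lit 0) (nat_lit 0) (nat_lit 1) (nat_lit 0) (nat_lit 1) (nat_lit 0) (nat_lit 380) (nat_lit 428) (nat_lit 272)) (XT.lf (nat_lit 0) (nat_lit 201241571077) (nat_lit 0) (nat_lit 0) (nat_lit 0) (nat_lit 0) (nat_lit 0) (nat_lit 0) (nat_lit 1) (nat_lit 0) (nat_lit 1) (nat_lit 0) (nat_lit 381) (nat_lit 428) (nat_lit 271)))) (XT.nd (nat_lit 188) (nat_lit 0) (nat_lit 0) (XT.nd (nat_lit 94) (nat_lit 0) (nat_lit 0) (XT.lf (nat_lit 0) (nat_lit 201241486772) (nat_lit 0) (nat_lit 0) (nat_lit 0) (nat_lit 0) (nat_lit 0) (nat_lit 0) (nat_lit 1) (nat_lit 0) (nat_lit 1) (nat_lit 0) (nat_lit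 382) (nat_lit 428) (nat_lit 270)) (XT.lf (nat_lit 0) (nat_lit 201241408712) (nat_lit 0) (nat_lit 0) (nat_lit 0) (nat_lit 0) (nat_lit 0) (nat_lit 0) (nat_lit 1) (nat_lit 0) (nat_lit 1) (nat_lit 0) (nat_lit 383) (nat_lit 428) (nat_lit 269))) (XT.nd (nat_lit 94) (nat_lit 0) (nat_lit 0) (XT.lf (nat_lit 0) (nat_lit 201241336434) (nat_lit 0) (nat_lit 0) (nat_lit 0) (nat_lit 0) (nat_lit 0) (nat_lit 0) (nat_lit 1) (nat_lit 0) (nat_lit 1) (nat_lit 0) (nat_lit 384) (nat_lit 428) (nat_lit 268)) (XT.nd (nat_lit 94) (nat_lit 0) (nat_lit 0) (XT.lf (nat_lit 0) (nat_lit 201241269510) (nat_lit 0) (nat_lit 0) (nat_lit 0) (nat_lit 0) (nat_lit 0) (nat_lit 0) (nat_lit 1) (nat_lit 0) (nat_lit 1) (nat_lit 0) (nat_lit 385) (nat_lit 428) (nat_lit 267)) (XT.lf (nat_lit 0) (nat_lit 201241207544) (nat_lit 0) (nat_lit 0) (nat_lit 0) (nat_lit 0) (nat_lit 0) (nat_lit 0) (nat_lit 1) (nat_lit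 0) (nat_lit 1) (nat_lit 0) (nat_lit 386) (nat_lit 428) (nat_lit 266)))))) (XT.nd (nat_lit 470) (nat_lit 0) (nat_lit 0) (XT.nd (nat_lit 188) (nat_lit 0) (nat_lit 0) (XT.nd (nat_lit 94) (nat_lit 0) (nat_lit 0) (XT.lf (nat_lit 0) (nat_lit 201241150168) (nat_lit 0) (nat_lit 0) (nat_lit 0) (nat_lit 0) (nat_lit 0) (nat_lit 0) (nat_lit 1) (nat_lit 0) (nat_lit 1) (nat_lit 0) (nat_lit 387) (nat_lit 428) (nat_lit 265)) (XT.lf (nat_lit 0) (nat_lit 201241097041) (nat_lit 0) (nat_lit 0) (nat_lit 0) (nat_lit 0) (nat_lit 0) (nat_lit 0) (nat_lit 1) (nat_lit 0) (nat_lit 1) (nat_lit 0) (nat_lit 388) (nat_lit 428) (nat_lit 264))) (XT.nd (nat_lit 94) (nat_lit 0) (nat_lit 0) (XT.lf (nat_lit 0) (nat_lit 201241047850) (nat_lit 0) (nat_lit 0) (nat_lit 0) (nat_lit 0) (nat_lit 0) (nat_lit 0) (nat_lit 1) (nat_lit 0) (nat_lit 1) (nat_lit 0) (nat_lit 389) (nat_lit 428) (nat_lit 263))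 (XT.nd (nat_lit 94) (nat_lit 0) (nat_lit 0) (XT.lf (nat_lit 0) (nat_lit 201241002303) (nat_lit 0) (nat_lit 0) (nat_lit 0) (nat_lit 0) (nat_lit 0) (nat_lit 0) (nat_lit 1) (nat_lit 0) (nat_lit 1) (nat_lit 0) (nat_lit 390) (nat_lit 428) (nat_lit 262)) (XT.lf (nat_lit 0) (nat_lit 201240960130) (nat_lit 0) (nat_lit 0) (nat_lit 0) (nat_lit 0) (nat_lit 0) (nat_lit 0) (nat_lit 1) (nat_lit 0) (nat_lit 1) (nat_lit 0) (nat_lit 391) (nat_lit 428) (nat_lit 261))))) (XT.nd (nat_lit 188) (nat_lit 0) (nat_lit 0) (XT.nd (nat_lit 94) (nat_lit 0) (nat_lit 0) (XT.lf (nat_lit 0) (nat_lit 201240921080) (nat_lit 0) (nat_lit 0) (nat_lit 0) (nat_lit 0) (nat_lit 0) (nat_lit 0) (nat_lit 1) (nat_lit 0) (nat_lit 1) (nat_lit 0) (nat_lit 392) (nat_lit 428) (nat_lit 260)) (XT.lf (nat_lit 0) (nat_lit 201240884923) (nat_lit 0) (nat_lit 0) (nat_lit 0) (nat_lit 0) (nat_lit 0) (nat_lit 0) (nat_lit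 1) (nat_lit 0) (nat_lit 1) (nat_lit 0) (nat_lit 393) (nat_lit 428) (nat_lit 259))) (XT.nd (nat_lit 94) (nat_lit 0) (nat_lit 0) (XT.lf (nat_lit 0) (nat_lit 201240851445) (nat_lit 0) (nat_lit 0) (nat_lit 0) (nat_lit 0) (nat_lit 0) (nat_lit 0) (nat_lit 1) (nat_lit 0) (nat_lit 1) (nat_lit 0) (nat_lit 394) (nat_lit 428) (nat_lit 258)) (XT.nd (nat_lit 94) (nat_lit 0) (nat_lit 0) (XT.lf (nat_lit 0) (nat_lit 201240820446) (nat_lit 0) (nat_lit 0) (nat_lit 0) (nat_lit 0) (nat_lit 0) (nat_lit 0) (nat_lit 1) (nat_lit 0) (nat_lit 1) (nat_lit 0) (nat_lit 395) (nat_lit 428) (nat_lit 257)) (XT.lf (nat_lit 0) (nat_lit 201240791744) (nat_lit 0) (nat_lit 0) (nat_lit 0) (nat_lit 0) (nat_lit 0) (nat_lit 0) (nat_lit 1) (nat_lit 0) (nat_lit 1) (nat_lit 0) (nat_lit 396) (nat_lit 428) (nat_lit 256))))))))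
noncomputable def ec296 : XT := (XT.nd (nat_lit 1692) (nat_lit 0) (nat_lit 0) (XT.nd (nat_lit 846) (nat_lit 0) (nat_lit 0) (XT.nd (nat_lit 376) (nat_lit 0) (nat_lit 0) (XT.nd (nat_lit 188) (nat_lit 0) (nat_lit 0) (XT.nd (nat_lit 94) (nat_lit 0) (nat_lit 0) (XT.lf (nat_lit 0) (nat_lit 201240765167) (nat_lit 0) (nat_lit 0) (nat_lit 0) (nat_lit 0) (nat_lit 0) (nat_lit 0) (nat_lit 1) (nat_lit 0) (nat_lit 1) (nat_lit 0) (nat_lit 397) (nat_lit 428) (nat_lit 255)) (XT.lf (nat_lit 0) (nat_lit 201240740560) (nat_lit 0) (nat_lit 0) (nat_lit 0) (nat_lit 0) (nat_lit 0) (nat_lit 0) (nat_lit 1) (nat_lit 0) (nat_lit 1) (nat_lit 0) (nat_lit 398) (nat_lit 428) (nat_lit 254))) (XT.nd (nat_lit 94) (nat_lit 0) (nat_lit 0) (XT.lf (nat_lit 0) (nat_lit 201240717775) (nat_lit 0) (nat_lit 0) (nat_lit 0) (nat_lit 0) (nat_lit 0) (nat_lit 0) (nat_lit 1) (nat_lit 0) (nat_lit 1) (nat_lit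 0) (nat_lit 399) (nat_lit 428) (nat_lit 253)) (XT.lf (nat_lit 0) (nat_lit 201240696678) (nat_lit 0) (nat_lit 0) (nat_lit 0) (nat_lit 0) (nat_lit 0) (nat_lit 0) (nat_lit 1) (nat_lit 0) (nat_lit 1) (nat_lit 0) (nat_lit 400) (nat_lit 428) (nat_lit 252)))) (XT.nd (nat_lit 188) (nat_lit 0) (nat_lit 0) (XT.nd (nat_lit 94) (nat_lit 0) (nat_lit 0) (XT.lf (nat_lit 0) (nat_lit 201240677143) (nat_lit 0) (nat_lit 0) (nat_lit 0) (nat_lit 0) (nat_lit 0) (nat_lit 0) (nat_lit 1) (nat_lit 0) (nat_lit 1) (nat_lit 0) (nat_lit 401) (nat_lit 428) (nat_lit 251)) (XT.lf (nat_lit 0) (nat_lit 201240659056) (nat_lit 0) (nat_lit 0) (nat_lit 0) (nat_lit 0) (nat_lit 0) (nat_lit 0) (nat_lit 1) (nat_lit 0) (nat_lit 1) (nat_lit 0) (nat_lit 402) (nat_lit 428) (nat_lit 250))) (XT.nd (nat_lit 94) (nat_lit 0) (nat_lit 0) (XT.lf (nat_lit 0) (nat_lit 201240642308) (nat_lit 0) (nat_lit 0) (nat_lit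 0) (nat_lit 0) (nat_lit 0) (nat_lit 0) (nat_lit 1) (nat_lit 0) (nat_lit 1) (nat_lit 0) (nat_lit 403) (nat_lit 428) (nat_lit 249)) (XT.nd (nat_lit 94) (nat_lit 0) (nat_lit 0) (XT.lf (nat_lit 0) (nat_lit 201240626801) (nat_lit 0) (nat_lit 0) (nat_lit 0) (nat_lit 0) (nat_lit 0) (nat_lit 0) (nat_lit 1) (nat_lit 0) (nat_lit 1) (nat_lit 0) (nat_lit 404) (nat_lit 428) (nat_lit 248)) (XT.lf (nat_lit 0) (nat_lit 201240612443) (nat_lit 0) (nat_lit 0) (nat_lit 0) (nat_lit 0) (nat_lit 0) (nat_lit 0) (nat_lit 1) (nat_lit 0) (nat_lit 1) (nat_lit 0) (nat_lit 405) (nat_lit 428) (nat_lit 247)))))) (XT.nd (nat_lit 376) (nat_lit 0) (nat_lit 0) (XT.nd (nat_lit 188) (nat_lit 0) (nat_lit 0) (XT.nd (nat_lit 94) (nat_lit 0) (nat_lit 0) (XT.lf (nat_lit 0) (nat_lit 201240599148) (nat_lit 0) (nat_lit 0) (nat_lit 0) (nat_lit 0) (nat_lit 0) (nat_lit 0) (nat_lit 1) (nat_lit 0) (nat_lit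 1) (nat_lit 0) (nat_lit 406) (nat_lit 428) (nat_lit 246)) (XT.lf (nat_lit 0) (nat_lit 201240586838) (nat_lit 0) (nat_lit 0) (nat_lit 0) (nat_lit 0) (nat_lit 0) (nat_lit 0) (nat_lit 1) (nat_lit 0) (nat_lit 1) (nat_lit 0) (nat_lit 407) (nat_lit 428) (nat_lit 245))) (XT.nd (nat_lit 94) (nat_lit 0) (nat_lit 0) (XT.lf (nat_lit 0) (nat_lit 201240575440) (nat_lit 0) (nat_lit 0) (nat_lit 0) (nat_lit 0) (nat_lit 0) (nat_lit 0) (nat_lit 1) (nat_lit 0) (nat_lit 1) (nat_lit 0) (nat_lit 408) (nat_lit 428) (nat_lit 244)) (XT.lf (nat_lit 0) (nat_lit 201240564886) (nat_lit 0) (nat_lit 0) (nat_lit 0) (nat_lit 0) (nat_lit 0) (nat_lit 0) (nat_lit 1) (nat_lit 0) (nat_lit 1) (nat_lit 0) (nat_lit 409) (nat_lit 428) (nat_lit 243)))) (XT.nd (nat_lit 188) (nat_lit 0) (nat_lit 0) (XT.nd (nat_lit 94) (nat_lit 0) (nat_lit 0) (XT.lf (nat_lit 0) (nat_lit 201240555114) (nat_lit 0) (nat_lit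 0) (nat_lit 0) (nat_lit 0) (nat_lit 0) (nat_lit 0) (nat_lit 1) (nat_lit 0) (nat_lit 1) (nat_lit 0) (nat_lit 410) (nat_lit 428) (nat_lit 242)) (XT.lf (nat_lit 0) (nat_lit 201240546066) (nat_lit 0) (nat_lit 0) (nat_lit 0) (nat_lit 0) (nat_lit 0) (nat_lit 0) (nat_lit 1) (nat_lit 0) (nat_lit 1) (nat_lit 0) (nat_lit 411) (nat_lit 428) (nat_lit 241))) (XT.nd (nat_lit 94) (nat_lit 0) (nat_lit 0) (XT.lf (nat_lit 0) (nat_lit 201240537688) (nat_lit 0) (nat_lit 0) (nat_lit 0) (nat_lit 0) (nat_lit 0) (nat_lit 0) (nat_lit 1) (nat_lit 0) (nat_lit 1) (nat_lit 0) (nat_lit 412) (nat_lit 428) (nat_lit 240)) (XT.nd (nat_lit 94) (nat_lit 0) (nat_lit 0) (XT.lf (nat_lit 0) (nat_lit 201240529930) (nat_lit 0) (nat_lit 0) (nat_lit 0) (nat_lit 0) (nat_lit 0) (nat_lit 0) (nat_lit 1) (nat_lit 0) (nat_lit 1) (nat_lit 0) (nat_lit 413) (nat_lit 428) (nat_lit 239)) (XT.lf (nat_lit 0) (nat_lit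 201240522747) (nat_lit 0) (nat_lit 0) (nat_lit 0) (nat_lit 0) (nat_lit 0) (nat_lit 0) (nat_lit 1) (nat_lit 0) (nat_lit 1) (nat_lit 0) (nat_lit 414) (nat_lit 428) (nat_lit 238))))))) (XT.nd (nat_lit 846) (nat_lit 0) (nat_lit 0) (XT.nd (nat_lit 376) (nat_lit 0) (nat_lit 0) (XT.nd (nat_lit 188) (nat_lit 0) (nat_lit 0) (XT.nd (nat_lit 94) (nat_lit 0) (nat_lit 0) (XT.lf (nat_lit 0) (nat_lit 201240516097) (nat_lit 0) (nat_lit 0) (nat_lit 0) (nat_lit 0) (nat_lit 0) (nat_lit 0) (nat_lit 1) (nat_lit 0) (nat_lit 1) (nat_lit 0) (nat_lit 415) (nat_lit 428) (nat_lit 237)) (XT.lf (nat_lit 0) (nat_lit 201240509939) (nat_lit 0) (nat_lit 0) (nat_lit 0) (nat_lit 0) (nat_lit 0) (nat_lit 0) (nat_lit 1) (nat_lit 0) (nat_lit 1) (nat_lit 0) (nat_lit 416) (nat_lit 428) (nat_lit 236))) (XT.nd (nat_lit 94) (nat_lit 0) (nat_lit 0) (XT.lf (nat_lit 0) (nat_lit 201240504237) (nat_lit 0)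 (nat_lit 0) (nat_lit 0) (nat_lit 0) (nat_lit 0) (nat_lit 0) (nat_lit 1) (nat_lit 0) (nat_lit 1) (nat_lit 0) (nat_lit 417) (nat_lit 428) (nat_lit 235)) (XT.lf (nat_lit 0) (nat_lit 201240498957) (nat_lit 0) (nat_lit 0) (nat_lit 0) (nat_lit 0) (nat_lit 0) (nat_lit 0) (nat_lit 1) (nat_lit 0) (nat_lit 1) (nat_lit 0) (nat_lit 418) (nat_lit 428) (nat_lit 234)))) (XT.nd (nat_lit 188) (nat_lit 0) (nat_lit 0) (XT.nd (nat_lit 94) (nat_lit 0) (nat_lit 0) (XT.lf (nat_lit 0) (nat_lit 201240494069) (nat_lit 0) (nat_lit 0) (nat_lit 0) (nat_lit 0) (nat_lit 0) (nat_lit 0) (nat_lit 1) (nat_lit 0) (nat_lit 1) (nat_lit 0) (nat_lit 419) (nat_lit 428) (nat_lit 233)) (XT.lf (nat_lit 0) (nat_lit 201240489542) (nat_lit 0) (nat_lit 0) (nat_lit 0) (nat_lit 0) (nat_lit 0) (nat_lit 0) (nat_lit 1) (nat_lit 0) (nat_lit 1) (nat_lit 0) (nat_lit 420) (nat_lit 428) (nat_lit 232))) (XT.nd (nat_lit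 94) (nat_lit 0) (nat_lit 0) (XT.lf (nat_lit 0) (nat_lit 201240485351) (nat_lit 0) (nat_lit 0) (nat_lit 0) (nat_lit 0) (nat_lit 0) (nat_lit 0) (nat_lit 1) (nat_lit 0) (nat_lit 1) (nat_lit 0) (nat_lit 421) (nat_lit 428) (nat_lit 231)) (XT.nd (nat_lit 94) (nat_lit 0) (nat_lit 0) (XT.lf (nat_lit 0) (nat_lit 201240481471) (nat_lit 0) (nat_lit 0) (nat_lit 0) (nat_lit 0) (nat_lit 0) (nat_lit 0) (nat_lit 1) (nat_lit 0) (nat_lit 1) (nat_lit 0) (nat_lit 422) (nat_lit 428) (nat_lit 230)) (XT.lf (nat_lit 0) (nat_lit 201240477878) (nat_lit 0) (nat_lit 0) (nat_lit 0) (nat_lit 0) (nat_lit 0) (nat_lit 0) (nat_lit 1) (nat_lit 0) (nat_lit 1) (nat_lit 0) (nat_lit 423) (nat_lit 428) (nat_lit 229)))))) (XT.nd (nat_lit 470) (nat_lit 0) (nat_lit 0) (XT.nd (nat_lit 188) (nat_lit 0) (nat_lit 0) (XT.nd (nat_lit 94) (nat_lit 0) (nat_lit 0) (XT.lf (nat_lit 0) (nat_lit 201240474551) (nat_lit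 0) (nat_lit 0) (nat_lit 0) (nat_lit 0) (nat_lit 0) (nat_lit 0) (nat_lit 1) (nat_lit 0) (nat_lit 1) (nat_lit 0) (nat_lit 424) (nat_lit 428) (nat_lit 228)) (XT.lf (nat_lit 0) (nat_lit 201240471470) (nat_lit 0) (nat_lit 0) (nat_lit 0) (nat_lit 0) (nat_lit 0) (nat_lit 0) (nat_lit 1) (nat_lit 0) (nat_lit 1) (nat_lit 0) (nat_lit 425) (nat_lit 428) (nat_lit 227))) (XT.nd (nat_lit 94) (nat_lit 0) (nat_lit 0) (XT.lf (nat_lit 0) (nat_lit 201240468618) (nat_lit 0) (nat_lit 0) (nat_lit 0) (nat_lit 0) (nat_lit 0) (nat_lit 0) (nat_lit 1) (nat_lit 0) (nat_lit 1) (nat_lit 0) (nat_lit 426) (nat_lit 428) (nat_lit 226)) (XT.nd (nat_lit 94) (nat_lit 0) (nat_lit 0) (XT.lf (nat_lit 0) (nat_lit 201240465977) (nat_lit 0) (nat_lit 0) (nat_lit 0) (nat_lit 0) (nat_lit 0) (nat_lit 0) (nat_lit 1) (nat_lit 0) (nat_lit 1) (nat_lit 0) (nat_lit 427) (nat_lit 428) (nat_lit 225)) (XT.lf (nat_lit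 0) (nat_lit 201240463531) (nat_lit 0) (nat_lit 0) (nat_lit 0) (nat_lit 0) (nat_lit 0) (nat_lit 0) (nat_lit 1) (nat_lit 0) (nat_lit 1) (nat_lit 0) (nat_lit 428) (nat_lit 428) (nat_lit 224))))) (XT.nd (nat_lit 188) (nat_lit 0) (nat_lit 0) (XT.nd (nat_lit 94) (nat_lit 0) (nat_lit 0) (XT.lf (nat_lit 0) (nat_lit 201240461267) (nat_lit 0) (nat_lit 0) (nat_lit 0) (nat_lit 0) (nat_lit 0) (nat_lit 0) (nat_lit 1) (nat_lit 0) (nat_lit 1) (nat_lit 0) (nat_lit 429) (nat_lit 428) (nat_lit 223)) (XT.lf (nat_lit 0) (nat_lit 201240459170) (nat_lit 0) (nat_lit 0) (nat_lit 0) (nat_lit 0) (nat_lit 0) (nat_lit 0) (nat_lit 1) (nat_lit 0) (nat_lit 1) (nat_lit 0) (nat_lit 430) (nat_lit 428) (nat_lit 222))) (XT.nd (nat_lit 94) (nat_lit 0) (nat_lit 0) (XT.lf (nat_lit 0) (nat_lit 201240457229) (nat_lit 0) (nat_lit 0) (nat_lit 0) (nat_lit 0) (nat_lit 0) (nat_lit 0) (nat_lit 1) (nat_lit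 0) (nat_lit 1) (nat_lit 0) (nat_lit 431) (nat_lit 428) (nat_lit 221)) (XT.nd (nat_lit 94) (nat_lit 0) (nat_lit 0) (XT.lf (nat_lit 0) (nat_lit 201240455431) (nat_lit 0) (nat_lit 0) (nat_lit 0) (nat_lit 0) (nat_lit 0) (nat_lit 0) (nat_lit 1) (nat_lit 0) (nat_lit 1) (nat_lit 0) (nat_lit 432) (nat_lit 428) (nat_lit 220)) (XT.lf (nat_lit 0) (nat_lit 201240453767) (nat_lit 0) (nat_lit 0) (nat_lit 0) (nat_lit 0) (nat_lit 0) (nat_lit 0) (nat_lit 1) (nat_lit 0) (nat_lit 1) (nat_lit 0) (nat_lit 433) (nat_lit 428) (nat_lit 219))))))))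
noncomputable def ec297 : XT := (XT.nd (nat_lit 48598) (nat_lit 0) (nat_lit 4620) (XT.nd (nat_lit 846) (nat_lit 0) (nat_lit 0) (XT.nd (nat_lit 376) (nat_lit 0) (nat_lit 0) (XT.nd (nat_lit 188) (nat_lit 0) (nat_lit 0) (XT.nd (nat_lit 94) (nat_lit 0) (nat_lit 0) (XT.lf (nat_lit 0) (nat_lit 201240452226) (nat_lit 0) (nat_lit 0) (nat_lit 0) (nat_lit 0) (nat_lit 0) (nat_lit 0) (nat_lit 1) (nat_lit 0) (nat_lit 1) (nat_lit 0) (nat_lit 434) (nat_lit 428) (nat_lit 218)) (XT.lf (nat_lit 0) (nat_lit 201240450799) (nat_lit 0) (nat_lit 0) (nat_lit 0) (nat_lit 0) (nat_lit 0) (nat_lit 0) (nat_lit 1) (nat_lit 0) (nat_lit 1) (nat_lit 0) (nat_lit 435) (nat_lit 428) (nat_lit 217))) (XT.nd (nat_lit 94) (nat_lit 0) (nat_lit 0) (XT.lf (nat_lit 0) (nat_lit 201240449478) (nat_lit 0) (nat_lit 0) (nat_lit 0) (nat_lit 0) (nat_lit 0) (nat_lit 0) (nat_lit 1) (nat_lit 0) (nat_lit 1) (nat_lit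 0) (nat_lit 436) (nat_lit 428) (nat_lit 216)) (XT.lf (nat_lit 0) (nat_lit 201240448255) (nat_lit 0) (nat_lit 0) (nat_lit 0) (nat_lit 0) (nat_lit 0) (nat_lit 0) (nat_lit 1) (nat_lit 0) (nat_lit 1) (nat_lit 0) (nat_lit 437) (nat_lit 428) (nat_lit 215)))) (XT.nd (nat_lit 188) (nat_lit 0) (nat_lit 0) (XT.nd (nat_lit 94) (nat_lit 0) (nat_lit 0) (XT.lf (nat_lit 0) (nat_lit 201240447122) (nat_lit 0) (nat_lit 0) (nat_lit 0) (nat_lit 0) (nat_lit 0) (nat_lit 0) (nat_lit 1) (nat_lit 0) (nat_lit 1) (nat_lit 0) (nat_lit 438) (nat_lit 428) (nat_lit 214)) (XT.lf (nat_lit 0) (nat_lit 201240446073) (nat_lit 0) (nat_lit 0) (nat_lit 0) (nat_lit 0) (nat_lit 0) (nat_lit 0) (nat_lit 1) (nat_lit 0) (nat_lit 1) (nat_lit 0) (nat_lit 439) (nat_lit 428) (nat_lit 213))) (XT.nd (nat_lit 94) (nat_lit 0) (nat_lit 0) (XT.lf (nat_lit 0) (nat_lit 201240445102) (nat_lit 0) (nat_lit 0) (nat_lit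 0) (nat_lit 0) (nat_lit 0) (nat_lit 0) (nat_lit 1) (nat_lit 0) (nat_lit 1) (nat_lit 0) (nat_lit 440) (nat_lit 428) (nat_lit 212)) (XT.nd (nat_lit 94) (nat_lit 0) (nat_lit 0) (XT.lf (nat_lit 0) (nat_lit 201240444203) (nat_lit 0) (nat_lit 0) (nat_lit 0) (nat_lit 0) (nat_lit 0) (nat_lit 0) (nat_lit 1) (nat_lit 0) (nat_lit 1) (nat_lit 0) (nat_lit 441) (nat_lit 428) (nat_lit 211)) (XT.lf (nat_lit 0) (nat_lit 201240443370) (nat_lit 0) (nat_lit 0) (nat_lit 0) (nat_lit 0) (nat_lit 0) (nat_lit 0) (nat_lit 1) (nat_lit 0) (nat_lit 1) (nat_lit 0) (nat_lit 442) (nat_lit 428) (nat_lit 210)))))) (XT.nd (nat_lit 47282) (nat_lit 0) (nat_lit 10332) (XT.nd (nat_lit 47000) (nat_lit 0) (nat_lit 10752) (XT.nd (nat_lit 94) (nat_lit 0) (nat_lit 0) (XT.lf (nat_lit 0) (nat_lit 201240442599) (nat_lit 0) (nat_lit 0) (nat_lit 0) (nat_lit 0) (nat_lit 0) (nat_lit 0) (nat_lit 1) (nat_lit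 0) (nat_lit 1) (nat_lit 0) (nat_lit 443) (nat_lit 428) (nat_lit 209)) (XT.lf (nat_lit 0) (nat_lit 201240441885) (nat_lit 0) (nat_lit 0) (nat_lit 0) (nat_lit 0) (nat_lit 0) (nat_lit 0) (nat_lit 1) (nat_lit 0) (nat_lit 1) (nat_lit 0) (nat_lit 444) (nat_lit 428) (nat_lit 208))) (XT.nd (nat_lit 94) (nat_lit 0) (nat_lit 84) (XT.lf (nat_lit 924) (nat_lit 108764910689) (nat_lit 0) (nat_lit 193111848923) (nat_lit 924) (nat_lit 108764910689) (nat_lit 139) (nat_lit 1) (nat_lit 128) (nat_lit 0) (nat_lit 139) (nat_lit 0) (nat_lit 222) (nat_lit 429) (nat_lit 429)) (XT.nd (nat_lit 94) (nat_lit 0) (nat_lit 0) (XT.lf (nat_lit 924) (nat_lit 40572649044) (nat_lit 0) (nat_lit 379137087055) (nat_lit 840) (nat_lit 370794804471) (nat_lit 140) (nat_lit 1) (nat_lit 129) (nat_lit 1) (nat_lit 139) (nat_lit 1) (nat_lit 223) (nat_lit 429) (nat_lit 428)) (XT.lf (nat_lit 924) (nat_lit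 372636362603) (nat_lit 84) (nat_lit 253908234999) (nat_lit 0) (nat_lit 134661345540) (nat_lit 140) (nat_lit 1) (nat_lit 130) (nat_lit 1) (nat_lit 129) (nat_lit 1) (nat_lit 224) (nat_lit 429) (nat_lit 427))))) (XT.nd (nat_lit 188) (nat_lit 588) (nat_lit 0) (XT.nd (nat_lit 94) (nat_lit 0) (nat_lit 84) (XT.lf (nat_lit 924) (nat_lit 321988344099) (nat_lit 84) (nat_lit 106411181362) (nat_lit 0) (nat_lit 304973996381) (nat_lit 141) (nat_lit 1) (nat_lit 131) (nat_lit 1) (nat_lit 130) (nat_lit 1) (nat_lit 225) (nat_lit 429) (nat_lit 426)) (XT.lf (nat_lit 924) (nat_lit 238298749132) (nat_lit 0) (nat_lit 445845695732) (nat_lit 840) (nat_lit 22791568267) (nat_lit 142) (nat_lit 1) (nat_lit 131) (nat_lit 1) (nat_lit 141) (nat_lit 1) (nat_lit 226) (nat_lit 429) (nat_lit 425))) (XT.nd (nat_lit 94) (nat_lit 756) (nat_lit 0) (XT.lf (nat_lit 924) (nat_lit 57177448399) (nat_lit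 0) (nat_lit 491668740282) (nat_lit 840) (nat_lit 132914891839) (nat_lit 143) (nat_lit 1) (nat_lit 132) (nat_lit 1) (nat_lit 142) (nat_lit 1) (nat_lit 227) (nat_lit 429) (nat_lit 424)) (XT.nd (nat_lit 94) (nat_lit 756) (nat_lit 0) (XT.lf (nat_lit 924) (nat_lit 109871799787) (nat_lit 84) (nat_lit 427300173609) (nat_lit 0) (nat_lit 120589380875) (nat_lit 143) (nat_lit 1) (nat_lit 133) (nat_lit 1) (nat_lit 132) (nat_lit 1) (nat_lit 228) (nat_lit 429) (nat_lit 423)) (XT.lf (nat_lit 924) (nat_lit 22565162263) (nat_lit 0) (nat_lit 319435144593) (nat_lit 840) (nat_lit 292918680602) (nat_lit 134) (nat_lit 1) (nat_lit 123) (nat_lit 1) (nat_lit 133) (nat_lit 1) (nat_lit 229) (nat_lit 429) (nat_lit 422))))))) (XT.nd (nat_lit 846) (nat_lit 2604) (nat_lit 0) (XT.nd (nat_lit 376) (nat_lit 1344) (nat_lit 0) (XT.nd (nat_lit 188) (nat_lit 756) (nat_lit 0) (XT.nd (nat_lit 94)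 (nat_lit 420) (nat_lit 0) (XT.lf (nat_lit 84) (nat_lit 156245884019) (nat_lit 0) (nat_lit 67708612640) (nat_lit 588) (nat_lit 389203687997) (nat_lit 117) (nat_lit 1) (nat_lit 116) (nat_lit 1) (nat_lit 123) (nat_lit 1) (nat_lit 230) (nat_lit 429) (nat_lit 421)) (XT.lf (nat_lit 504) (nat_lit 430593990187) (nat_lit 0) (nat_lit 140167626663) (nat_lit 420) (nat_lit 21670781164) (nat_lit 117) (nat_lit 1) (nat_lit 111) (nat_lit 1) (nat_lit 116) (nat_lit 1) (nat_lit 231) (nat_lit 429) (nat_lit 420))) (XT.nd (nat_lit 94) (nat_lit 336) (nat_lit 0) (XT.lf (nat_lit 504) (nat_lit 310720723746) (nat_lit 0) (nat_lit 65332734580) (nat_lit 420) (nat_lit 196544324813) (nat_lit 112) (nat_lit 1) (nat_lit 106) (nat_lit 1) (nat_lit 111) (nat_lit 1) (nat_lit 232) (nat_lit 429) (nat_lit 419)) (XT.lf (nat_lit 420) (nat_lit 189069597486) (nat_lit 0) (nat_lit 1202881815) (nat_lit 336)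 (nat_lit 363452426309) (nat_lit 107) (nat_lit 1) (nat_lit 102) (nat_lit 1) (nat_lit 106) (nat_lit 1) (nat_lit 233) (nat_lit 429) (nat_lit 418)))) (XT.nd (nat_lit 188) (nat_lit 924) (nat_lit 0) (XT.nd (nat_lit 94) (nat_lit 420) (nat_lit 0) (XT.lf (nat_lit 84) (nat_lit 13948661362) (nat_lit 0) (nat_lit 470416450530) (nat_lit 420) (nat_lit 51355102255) (nat_lit 103) (nat_lit 1) (nat_lit 102) (nat_lit 1) (nat_lit 107) (nat_lit 1) (nat_lit 234) (nat_lit 429) (nat_lit 417)) (XT.lf (nat_lit 84) (nat_lit 360158054230) (nat_lit 0) (nat_lit 59736066961) (nat_lit 420) (nat_lit 98515623312) (nat_lit 98) (nat_lit 1) (nat_lit 97) (nat_lit 1) (nat_lit 102) (nat_lit 1) (nat_lit 235) (nat_lit 429) (nat_lit 416))) (XT.nd (nat_lit 94) (nat_lit 588) (nat_lit 0) (XT.lf (nat_lit 84) (nat_lit 180196201169) (nat_lit 0) (nat_lit 182982177225) (nat_lit 420) (nat_lit 138685761275) (nat_lit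 94) (nat_lit 1) (nat_lit 93) (nat_lit 1) (nat_lit 98) (nat_lit 1) (nat_lit 236) (nat_lit 429) (nat_lit 415)) (XT.nd (nat_lit 94) (nat_lit 252) (nat_lit 0) (XT.lf (nat_lit 84) (nat_lit 8894084911) (nat_lit 0) (nat_lit 305943359011) (nat_lit 420) (nat_lit 171264470621) (nat_lit 90) (nat_lit 1) (nat_lit 89) (nat_lit 1) (nat_lit 94) (nat_lit 1) (nat_lit 237) (nat_lit 429) (nat_lit 414)) (XT.lf (nat_lit 336) (nat_lit 40165186192) (nat_lit 0) (nat_lit 271617928378) (nat_lit 252) (nat_lit 159174348490) (nat_lit 90) (nat_lit 1) (nat_lit 86) (nat_lit 1) (nat_lit 89) (nat_lit 1) (nat_lit 238) (nat_lit 429) (nat_lit 413)))))) (XT.nd (nat_lit 470) (nat_lit 1092) (nat_lit 0) (XT.nd (nat_lit 188) (nat_lit 840) (nat_lit 0) (XT.nd (nat_lit 94) (nat_lit 252) (nat_lit 0) (XT.lf (nat_lit 84) (nat_lit 138781517097) (nat_lit 0) (nat_lit 95121714169) (nat_lit 420) (nat_lit 222535425059)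 (nat_lit 82) (nat_lit 1) (nat_lit 81) (nat_lit 1) (nat_lit 86) (nat_lit 1) (nat_lit 239) (nat_lit 429) (nat_lit 412)) (XT.lf (nat_lit 336) (nat_lit 214867169750) (nat_lit 0) (nat_lit 201839935052) (nat_lit 252) (nat_lit 25835272137) (nat_lit 82) (nat_lit 1) (nat_lit 78) (nat_lit 1) (nat_lit 81) (nat_lit 1) (nat_lit 240) (nat_lit 429) (nat_lit 411))) (XT.nd (nat_lit 94) (nat_lit 588) (nat_lit 0) (XT.lf (nat_lit 336) (nat_lit 68863889868) (nat_lit 0) (nat_lit 173775918815) (nat_lit 252) (nat_lit 186540326768) (nat_lit 79) (nat_lit 1) (nat_lit 75) (nat_lit 1) (nat_lit 78) (nat_lit 1) (nat_lit 241) (nat_lit 429) (nat_lit 410)) (XT.nd (nat_lit 94) (nat_lit 252) (nat_lit 0) (XT.lf (nat_lit 84) (nat_lit 78488194715) (nat_lit 0) (nat_lit 71862763038) (nat_lit 336) (nat_lit 266021895259) (nat_lit 72) (nat_lit 1) (nat_lit 71) (nat_lit 1) (nat_lit 75) (nat_lit 1) (nat_lit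 242) (nat_lit 429) (nat_lit 409)) (XT.lf (nat_lit 336) (nat_lit 195307571000) (nat_lit 0) (nat_lit 129950420205) (nat_lit 252) (nat_lit 78776371983) (nat_lit 72) (nat_lit 1) (nat_lit 68) (nat_lit 1) (nat_lit 71) (nat_lit 1) (nat_lit 243) (nat_lit 429) (nat_lit 408))))) (XT.nd (nat_lit 188) (nat_lit 588) (nat_lit 0) (XT.nd (nat_lit 94) (nat_lit 336) (nat_lit 0) (XT.lf (nat_lit 252) (nat_lit 48417035235) (nat_lit 0) (nat_lit 113372263019) (nat_lit 168) (nat_lit 230404344212) (nat_lit 69) (nat_lit 1) (nat_lit 66) (nat_lit 1) (nat_lit 68) (nat_lit 1) (nat_lit 244) (nat_lit 429) (nat_lit 407)) (XT.lf (nat_lit 84) (nat_lit 8202155094) (nat_lit 0) (nat_lit 91783896106) (nat_lit 336) (nat_lit 280825848072) (nat_lit 63) (nat_lit 1) (nat_lit 62) (nat_lit 1) (nat_lit 66) (nat_lit 1) (nat_lit 245) (nat_lit 429) (nat_lit 406))) (XT.nd (nat_lit 94) (nat_lit 420) (nat_lit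 0) (XT.lf (nat_lit 252) (nat_lit 140691020494) (nat_lit 0) (nat_lit 87919817949) (nat_lit 168) (nat_lit 141180626662) (nat_lit 63) (nat_lit 1) (nat_lit 60) (nat_lit 1) (nat_lit 62) (nat_lit 1) (nat_lit 246) (nat_lit 429) (nat_lit 405)) (XT.nd (nat_lit 94) (nat_lit 168) (nat_lit 0) (XT.lf (nat_lit 84) (nat_lit 76333068206) (nat_lit 0) (nat_lit 3525872277) (nat_lit 252) (nat_lit 279392984228) (nat_lit 58) (nat_lit 1) (nat_lit 57) (nat_lit 1) (nat_lit 60) (nat_lit 1) (nat_lit 247) (nat_lit 429) (nat_lit 404)) (XT.lf (nat_lit 252) (nat_lit 208679868210) (nat_lit 0) (nat_lit 72312253330) (nat_lit 168) (nat_lit 68026850505) (nat_lit 58) (nat_lit 1) (nat_lit 55) (nat_lit 1) (nat_lit 57) (nat_lit 1) (nat_lit 248) (nat_lit 429) (nat_lit 403))))))))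
noncomputable def ec298 : XT := (XT.nd (nat_lit 1692) (nat_lit 1764) (nat_lit 0) (XT.nd (nat_lit 846) (nat_lit 1260) (nat_lit 0) (XT.nd (nat_lit 376) (nat_lit 840) (nat_lit 0) (XT.nd (nat_lit 188) (nat_lit 336) (nat_lit 0) (XT.nd (nat_lit 94) (nat_lit 252) (nat_lit 0) (XT.lf (nat_lit 252) (nat_lit 64824329452) (nat_lit 0) (nat_lit 67222235880) (nat_lit 168) (nat_lit 207130704611) (nat_lit 56) (nat_lit 1) (nat_lit 53) (nat_lit 1) (nat_lit 55) (nat_lit 1) (nat_lit 249) (nat_lit 429) (nat_lit 402)) (XT.lf (nat_lit 252) (nat_lit 257328764314) (nat_lit 0) (nat_lit 64225390287) (nat_lit 168) (nat_lit 8147735880) (nat_lit 53) (nat_lit 1) (nat_lit 50) (nat_lit 1) (nat_lit 52) (nat_lit 1) (nat_lit 250) (nat_lit 429) (nat_lit 401))) (XT.nd (nat_lit 94) (nat_lit 168) (nat_lit 0) (XT.lf (nat_lit 252) (nat_lit 115168428727) (nat_lit 0) (nat_lit 61313594344) (nat_lit 168)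 (nat_lit 144007778833) (nat_lit 51) (nat_lit 1) (nat_lit 48) (nat_lit 1) (nat_lit 50) (nat_lit 1) (nat_lit 251) (nat_lit 429) (nat_lit 400)) (XT.lf (nat_lit 84) (nat_lit 39449633368) (nat_lit 0) (nat_lit 21683296152) (nat_lit 168) (nat_lit 250526877439) (nat_lit 47) (nat_lit 1) (nat_lit 46) (nat_lit 1) (nat_lit 48) (nat_lit 1) (nat_lit 252) (nat_lit 429) (nat_lit 399)))) (XT.nd (nat_lit 188) (nat_lit 588) (nat_lit 0) (XT.nd (nat_lit 94) (nat_lit 84) (nat_lit 0) (XT.lf (nat_lit 252) (nat_lit 151107601907) (nat_lit 0) (nat_lit 60485599844) (nat_lit 168) (nat_lit 91459426787) (nat_lit 47) (nat_lit 1) (nat_lit 44) (nat_lit 1) (nat_lit 46) (nat_lit 1) (nat_lit 253) (nat_lit 429) (nat_lit 398)) (XT.lf (nat_lit 168) (nat_lit 16272141513) (nat_lit 0) (nat_lit 61971204340) (nat_lit 84) (nat_lit 216541904593) (nat_lit 45) (nat_lit 1) (nat_lit 43) (nat_lit 1) (nat_lit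 44) (nat_lit 1) (nat_lit 254) (nat_lit 429) (nat_lit 397))) (XT.nd (nat_lit 94) (nat_lit 336) (nat_lit 0) (XT.lf (nat_lit 252) (nat_lit 175651760038) (nat_lit 0) (nat_lit 63380004812) (nat_lit 168) (nat_lit 47714064646) (nat_lit 43) (nat_lit 1) (nat_lit 40) (nat_lit 1) (nat_lit 42) (nat_lit 1) (nat_lit 255) (nat_lit 429) (nat_lit 396)) (XT.nd (nat_lit 94) (nat_lit 252) (nat_lit 0) (XT.lf (nat_lit 168) (nat_lit 44177712901) (nat_lit 0) (nat_lit 65749847058) (nat_lit 84) (nat_lit 169049793223) (nat_lit 41) (nat_lit 1) (nat_lit 39) (nat_lit 1) (nat_lit 40) (nat_lit 1) (nat_lit 256) (nat_lit 429) (nat_lit 395)) (XT.lf (nat_lit 252) (nat_lit 191234454649) (nat_lit 0) (nat_lit 68920981634) (nat_lit 168) (nat_lit 11310523082) (nat_lit 39) (nat_lit 1) (nat_lit 36) (nat_lit 1) (nat_lit 38) (nat_lit 1) (nat_lit 257) (nat_lit 429) (nat_lit 394)))))) (XT.nd (nat_lit 376)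 (nat_lit 588) (nat_lit 0) (XT.nd (nat_lit 188) (nat_lit 336) (nat_lit 0) (XT.nd (nat_lit 94) (nat_lit 252) (nat_lit 0) (XT.lf (nat_lit 168) (nat_lit 63577789694) (nat_lit 0) (nat_lit 71850951524) (nat_lit 84) (nat_lit 128727184750) (nat_lit 37) (nat_lit 1) (nat_lit 35) (nat_lit 1) (nat_lit 36) (nat_lit 1) (nat_lit 258) (nat_lit 429) (nat_lit 393)) (XT.lf (nat_lit 84) (nat_lit 18351080268) (nat_lit 0) (nat_lit 57599149275) (nat_lit 252) (nat_lit 181158276471) (nat_lit 33) (nat_lit 1) (nat_lit 32) (nat_lit 1) (nat_lit 35) (nat_lit 1) (nat_lit 259) (nat_lit 429) (nat_lit 392))) (XT.nd (nat_lit 94) (nat_lit 252) (nat_lit 0) (XT.lf (nat_lit 168) (nat_lit 76299083795) (nat_lit 0) (nat_lit 79500028820) (nat_lit 84) (nat_lit 94436991780) (nat_lit 33) (nat_lit 1) (nat_lit 31) (nat_lit 1) (nat_lit 32) (nat_lit 1) (nat_lit 260) (nat_lit 429) (nat_lit 391)) (XT.lf (nat_lit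 84) (nat_lit 42677779672) (nat_lit 0) (nat_lit 41336315476) (nat_lit 252) (nat_lit 159591120656) (nat_lit 29) (nat_lit 1) (nat_lit 28) (nat_lit 1) (nat_lit 31) (nat_lit 1) (nat_lit 261) (nat_lit 429) (nat_lit 390)))) (XT.nd (nat_lit 188) (nat_lit 336) (nat_lit 0) (XT.nd (nat_lit 94) (nat_lit 168) (nat_lit 0) (XT.lf (nat_lit 168) (nat_lit 83814714751) (nat_lit 0) (nat_lit 88092502928) (nat_lit 84) (nat_lit 65236526225) (nat_lit 29) (nat_lit 1) (nat_lit 27) (nat_lit 1) (nat_lit 28) (nat_lit 1) (nat_lit 262) (nat_lit 429) (nat_lit 389)) (XT.lf (nat_lit 84) (nat_lit 62831560491) (nat_lit 0) (nat_lit 29938114337) (nat_lit 168) (nat_lit 138125989803) (nat_lit 26) (nat_lit 1) (nat_lit 25) (nat_lit 1) (nat_lit 27) (nat_lit 1) (nat_lit 263) (nat_lit 429) (nat_lit 388))) (XT.nd (nat_lit 94) (nat_lit 252) (nat_lit 0) (XT.lf (nat_lit 168) (nat_lit 87310280915) (nat_lit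 0) (nat_lit 97160595450) (nat_lit 84) (nat_lit 40342822472) (nat_lit 26) (nat_lit 1) (nat_lit 24) (nat_lit 1) (nat_lit 25) (nat_lit 1) (nat_lit 264) (nat_lit 429) (nat_lit 387)) (XT.nd (nat_lit 94) (nat_lit 84) (nat_lit 0) (XT.lf (nat_lit 84) (nat_lit 79476082050) (nat_lit 0) (nat_lit 22334223667) (nat_lit 168) (nat_lit 117108502233) (nat_lit 23) (nat_lit 1) (nat_lit 22) (nat_lit 1) (nat_lit 24) (nat_lit 1) (nat_lit 265) (nat_lit 429) (nat_lit 386)) (XT.lf (nat_lit 168) (nat_lit 87737733446) (nat_lit 0) (nat_lit 106346412525) (nat_lit 84) (nat_lit 19104258783) (nat_lit 23) (nat_lit 1) (nat_lit 21) (nat_lit 1) (nat_lit 22) (nat_lit 1) (nat_lit 266) (nat_lit 429) (nat_lit 385))))))) (XT.nd (nat_lit 846) (nat_lit 588) (nat_lit 0) (XT.nd (nat_lit 376) (nat_lit 672) (nat_lit 0) (XT.nd (nat_lit 188) (nat_lit 252) (nat_lit 0) (XT.nd (nat_lit 94) (nat_lit 84) (nat_lit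 0) (XT.lf (nat_lit 84) (nat_lit 93162919307) (nat_lit 0) (nat_lit 17664004920) (nat_lit 168) (nat_lit 96793607952) (nat_lit 20) (nat_lit 1) (nat_lit 19) (nat_lit 1) (nat_lit 21) (nat_lit 1) (nat_lit 267) (nat_lit 429) (nat_lit 384)) (XT.lf (nat_lit 168) (nat_lit 85859295613) (nat_lit 0) (nat_lit 115380088067) (nat_lit 84) (nat_lit 977325280) (nat_lit 20) (nat_lit 1) (nat_lit 18) (nat_lit 1) (nat_lit 19) (nat_lit 1) (nat_lit 268) (nat_lit 429) (nat_lit 383))) (XT.nd (nat_lit 94) (nat_lit 84) (nat_lit 0) (XT.lf (nat_lit 84) (nat_lit 104351402871) (nat_lit 0) (nat_lit 15237131349) (nat_lit 168) (nat_lit 77364065299) (nat_lit 17) (nat_lit 1) (nat_lit 16) (nat_lit 1) (nat_lit 18) (nat_lit 1) (nat_lit 269) (nat_lit 429) (nat_lit 382)) (XT.lf (nat_lit 0) (nat_lit 14028554658) (nat_lit 0) (nat_lit 109795913181) (nat_lit 168) (nat_lit 68017123154) (nat_lit 15) (nat_lit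 3) (nat_lit 15) (nat_lit 1) (nat_lit 17) (nat_lit 1) (nat_lit 270) (nat_lit 429) (nat_lit 381)))) (XT.nd (nat_lit 188) (nat_lit 420) (nat_lit 0) (XT.nd (nat_lit 94) (nat_lit 84) (nat_lit 0) (XT.lf (nat_lit 84) (nat_lit 113424867715) (nat_lit 0) (nat_lit 14501497608) (nat_lit 168) (nat_lit 58945410017) (nat_lit 14) (nat_lit 1) (nat_lit 13) (nat_lit 1) (nat_lit 15) (nat_lit 1) (nat_lit 271) (nat_lit 429) (nat_lit 380)) (XT.lf (nat_lit 0) (nat_lit 26799729319) (nat_lit 0) (nat_lit 104995038061) (nat_lit 168) (nat_lit 50239549702) (nat_lit 12) (nat_lit 3) (nat_lit 12) (nat_lit 1) (nat_lit 14) (nat_lit 1) (nat_lit 272) (nat_lit 429) (nat_lit 379))) (XT.nd (nat_lit 94) (nat_lit 252) (nat_lit 0) (XT.lf (nat_lit 84) (nat_lit 120703966397) (nat_lit 0) (nat_lit 15017071255) (nat_lit 168) (nat_lit 41618067575) (nat_lit 11) (nat_lit 1) (nat_lit 10) (nat_lit 1) (nat_lit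 12) (nat_lit 1) (nat_lit 273) (nat_lit 429) (nat_lit 378)) (XT.nd (nat_lit 94) (nat_lit 168) (nat_lit 0) (XT.lf (nat_lit 0) (nat_lit 37677436908) (nat_lit 0) (nat_lit 101524935718) (nat_lit 168) (nat_lit 33555949383) (nat_lit 9) (nat_lit 3) (nat_lit 9) (nat_lit 1) (nat_lit 11) (nat_lit 1) (nat_lit 274) (nat_lit 429) (nat_lit 377)) (XT.lf (nat_lit 84) (nat_lit 126457582477) (nat_lit 0) (nat_lit 16434592569) (nat_lit 168) (nat_lit 25427139685) (nat_lit 8) (nat_lit 1) (nat_lit 7) (nat_lit 1) (nat_lit 9) (nat_lit 1) (nat_lit 275) (nat_lit 429) (nat_lit 376)))))) (XT.nd (nat_lit 470) (nat_lit 0) (nat_lit 0) (XT.nd (nat_lit 188) (nat_lit 336) (nat_lit 0) (XT.nd (nat_lit 94) (nat_lit 168) (nat_lit 0) (XT.lf (nat_lit 0) (nat_lit 46923003109) (nat_lit 0) (nat_lit 99055326260) (nat_lit 168) (nat_lit 18001419385) (nat_lit 6) (nat_lit 3) (nat_lit 6) (nat_lit 1) (nat_lit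 8) (nat_lit 1) (nat_lit 276) (nat_lit 429) (nat_lit 375)) (XT.lf (nat_lit 84) (nat_lit 130911781712) (nat_lit 0) (nat_lit 18478229972) (nat_lit 168) (nat_lit 10390298140) (nat_lit 5) (nat_lit 1) (nat_lit 4) (nat_lit 1) (nat_lit 6) (nat_lit 1) (nat_lit 277) (nat_lit 429) (nat_lit 374))) (XT.nd (nat_lit 94) (nat_lit 252) (nat_lit 0) (XT.lf (nat_lit 0) (nat_lit 54757447123) (nat_lit 0) (nat_lit 97324175152) (nat_lit 168) (nat_lit 3586123378) (nat_lit 3) (nat_lit 3) (nat_lit 3) (nat_lit 1) (nat_lit 5) (nat_lit 1) (nat_lit 278) (nat_lit 429) (nat_lit 373)) (XT.nd (nat_lit 94) (nat_lit 0) (nat_lit 0) (XT.lf (nat_lit 0) (nat_lit 220043532174) (nat_lit 0) (nat_lit 0) (nat_lit 0) (nat_lit 0) (nat_lit 0) (nat_lit 0) (nat_lit 1) (nat_lit 0) (nat_lit 1) (nat_lit 0) (nat_lit 279) (nat_lit 429) (nat_lit 372)) (XT.lf (nat_lit 0) (nat_lit 219843245910) (nat_lit 0) (nat_lit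 0) (nat_lit 0) (nat_lit 0) (nat_lit 0) (nat_lit 0) (nat_lit 1) (nat_lit 0) (nat_lit 1) (nat_lit 0) (nat_lit 280) (nat_lit 429) (nat_lit 371))))) (XT.nd (nat_lit 188) (nat_lit 0) (nat_lit 0) (XT.nd (nat_lit 94) (nat_lit 0) (nat_lit 0) (XT.lf (nat_lit 0) (nat_lit 219657795664) (nat_lit 0) (nat_lit 0) (nat_lit 0) (nat_lit 0) (nat_lit 0) (nat_lit 0) (nat_lit 1) (nat_lit 0) (nat_lit 1) (nat_lit 0) (nat_lit 281) (nat_lit 429) (nat_lit 370)) (XT.lf (nat_lit 0) (nat_lit 219486082474) (nat_lit 0) (nat_lit 0) (nat_lit 0) (nat_lit 0) (nat_lit 0) (nat_lit 0) (nat_lit 1) (nat_lit 0) (nat_lit 1) (nat_lit 0) (nat_lit 282) (nat_lit 429) (nat_lit 369))) (XT.nd (nat_lit 94) (nat_lit 0) (nat_lit 0) (XT.lf (nat_lit 0) (nat_lit 219327088780) (nat_lit 0) (nat_lit 0) (nat_lit 0) (nat_lit 0) (nat_lit 0) (nat_lit 0) (nat_lit 1) (nat_lit 0) (nat_lit 1) (nat_lit 0) (nat_lit 283) (nat_lit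 429) (nat_lit 368)) (XT.nd (nat_lit 94) (nat_lit 0) (nat_lit 0) (XT.lf (nat_lit 0) (nat_lit 219179872396) (nat_lit 0) (nat_lit 0) (nat_lit 0) (nat_lit 0) (nat_lit 0) (nat_lit 0) (nat_lit 1) (nat_lit 0) (nat_lit 1) (nat_lit 0) (nat_lit 284) (nat_lit 429) (nat_lit 367)) (XT.lf (nat_lit 0) (nat_lit 219043560930) (nat_lit 0) (nat_lit 0) (nat_lit 0) (nat_lit 0) (nat_lit 0) (nat_lit 0) (nat_lit 1) (nat_lit 0) (nat_lit 1) (nat_lit 0) (nat_lit 285) (nat_lit 429) (nat_lit 366))))))))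
noncomputable def ec299 : XT := (XT.nd (nat_lit 1786) (nat_lit 0) (nat_lit 0) (XT.nd (nat_lit 846) (nat_lit 0) (nat_lit 0) (XT.nd (nat_lit 376) (nat_lit 0) (nat_lit 0) (XT.nd (nat_lit 188) (nat_lit 0) (nat_lit 0) (XT.nd (nat_lit 94) (nat_lit 0) (nat_lit 0) (XT.lf (nat_lit 0) (nat_lit 218917346609) (nat_lit 0) (nat_lit 0) (nat_lit 0) (nat_lit 0) (nat_lit 0) (nat_lit 0) (nat_lit 1) (nat_lit 0) (nat_lit 1) (nat_lit 0) (nat_lit 286) (nat_lit 429) (nat_lit 365)) (XT.lf (nat_lit 0) (nat_lit 218800481497) (nat_lit 0) (nat_lit 0) (nat_lit 0) (nat_lit 0) (nat_lit 0) (nat_lit 0) (nat_lit 1) (nat_lit 0) (nat_lit 1) (nat_lit 0) (nat_lit 287) (nat_lit 429) (nat_lit 364))) (XT.nd (nat_lit 94) (nat_lit 0) (nat_lit 0) (XT.lf (nat_lit 0) (nat_lit 218692273061) (nat_lit 0) (nat_lit 0) (nat_lit 0) (nat_lit 0) (nat_lit 0) (nat_lit 0) (nat_lit 1) (nat_lit 0) (nat_lit 1) (nat_lit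 0) (nat_lit 288) (nat_lit 429) (nat_lit 363)) (XT.lf (nat_lit 0) (nat_lit 218592080063) (nat_lit 0) (nat_lit 0) (nat_lit 0) (nat_lit 0) (nat_lit 0) (nat_lit 0) (nat_lit 1) (nat_lit 0) (nat_lit 1) (nat_lit 0) (nat_lit 289) (nat_lit 429) (nat_lit 362)))) (XT.nd (nat_lit 188) (nat_lit 0) (nat_lit 0) (XT.nd (nat_lit 94) (nat_lit 0) (nat_lit 0) (XT.lf (nat_lit 0) (nat_lit 218499308770) (nat_lit 0) (nat_lit 0) (nat_lit 0) (nat_lit 0) (nat_lit 0) (nat_lit 0) (nat_lit 1) (nat_lit 0) (nat_lit 1) (nat_lit 0) (nat_lit 290) (nat_lit 429) (nat_lit 361)) (XT.lf (nat_lit 0) (nat_lit 218413409424) (nat_lit 0) (nat_lit 0) (nat_lit 0) (nat_lit 0) (nat_lit 0) (nat_lit 0) (nat_lit 1) (nat_lit 0) (nat_lit 1) (nat_lit 0) (nat_lit 291) (nat_lit 429) (nat_lit 360))) (XT.nd (nat_lit 94) (nat_lit 0) (nat_lit 0) (XT.lf (nat_lit 0) (nat_lit 218333872993) (nat_lit 0) (nat_lit 0) (nat_lit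 0) (nat_lit 0) (nat_lit 0) (nat_lit 0) (nat_lit 1) (nat_lit 0) (nat_lit 1) (nat_lit 0) (nat_lit 292) (nat_lit 429) (nat_lit 359)) (XT.nd (nat_lit 94) (nat_lit 0) (nat_lit 0) (XT.lf (nat_lit 0) (nat_lit 218260228149) (nat_lit 0) (nat_lit 0) (nat_lit 0) (nat_lit 0) (nat_lit 0) (nat_lit 0) (nat_lit 1) (nat_lit 0) (nat_lit 1) (nat_lit 0) (nat_lit 293) (nat_lit 429) (nat_lit 358)) (XT.lf (nat_lit 0) (nat_lit 218192038478) (nat_lit 0) (nat_lit 0) (nat_lit 0) (nat_lit 0) (nat_lit 0) (nat_lit 0) (nat_lit 1) (nat_lit 0) (nat_lit 1) (nat_lit 0) (nat_lit 294) (nat_lit 429) (nat_lit 357)))))) (XT.nd (nat_lit 470) (nat_lit 0) (nat_lit 0) (XT.nd (nat_lit 188) (nat_lit 0) (nat_lit 0) (XT.nd (nat_lit 94) (nat_lit 0) (nat_lit 0) (XT.lf (nat_lit 0) (nat_lit 218128899895) (nat_lit 0) (nat_lit 0) (nat_lit 0) (nat_lit 0) (nat_lit 0) (nat_lit 0) (nat_lit 1) (nat_lit 0) (nat_lit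 1) (nat_lit 0) (nat_lit 295) (nat_lit 429) (nat_lit 356)) (XT.lf (nat_lit 0) (nat_lit 218070438243) (nat_lit 0) (nat_lit 0) (nat_lit 0) (nat_lit 0) (nat_lit 0) (nat_lit 0) (nat_lit 1) (nat_lit 0) (nat_lit 1) (nat_lit 0) (nat_lit 296) (nat_lit 429) (nat_lit 355))) (XT.nd (nat_lit 94) (nat_lit 0) (nat_lit 0) (XT.lf (nat_lit 0) (nat_lit 218016307085) (nat_lit 0) (nat_lit 0) (nat_lit 0) (nat_lit 0) (nat_lit 0) (nat_lit 0) (nat_lit 1) (nat_lit 0) (nat_lit 1) (nat_lit 0) (nat_lit 297) (nat_lit 429) (nat_lit 354)) (XT.nd (nat_lit 94) (nat_lit 0) (nat_lit 0) (XT.lf (nat_lit 0) (nat_lit 217966185641) (nat_lit 0) (nat_lit 0) (nat_lit 0) (nat_lit 0) (nat_lit 0) (nat_lit 0) (nat_lit 1) (nat_lit 0) (nat_lit 1) (nat_lit 0) (nat_lit 298) (nat_lit 429) (nat_lit 353)) (XT.lf (nat_lit 0) (nat_lit 217919776897) (nat_lit 0) (nat_lit 0) (nat_lit 0) (nat_lit 0) (nat_lit 0) (nat_lit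 0) (nat_lit 1) (nat_lit 0) (nat_lit 1) (nat_lit 0) (nat_lit 299) (nat_lit 429) (nat_lit 352))))) (XT.nd (nat_lit 188) (nat_lit 0) (nat_lit 0) (XT.nd (nat_lit 94) (nat_lit 0) (nat_lit 0) (XT.lf (nat_lit 0) (nat_lit 217876805838) (nat_lit 0) (nat_lit 0) (nat_lit 0) (nat_lit 0) (nat_lit 0) (nat_lit 0) (nat_lit 1) (nat_lit 0) (nat_lit 1) (nat_lit 0) (nat_lit 300) (nat_lit 429) (nat_lit 351)) (XT.lf (nat_lit 0) (nat_lit 217837017821) (nat_lit 0) (nat_lit 0) (nat_lit 0) (nat_lit 0) (nat_lit 0) (nat_lit 0) (nat_lit 1) (nat_lit 0) (nat_lit 1) (nat_lit 0) (nat_lit 301) (nat_lit 429) (nat_lit 350))) (XT.nd (nat_lit 94) (nat_lit 0) (nat_lit 0) (XT.lf (nat_lit 0) (nat_lit 217800177064) (nat_lit 0) (nat_lit 0) (nat_lit 0) (nat_lit 0) (nat_lit 0) (nat_lit 0) (nat_lit 1) (nat_lit 0) (nat_lit 1) (nat_lit 0) (nat_lit 302) (nat_lit 429) (nat_lit 349)) (XT.nd (nat_lit 94) (nat_lit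 0) (nat_lit 0) (XT.lf (nat_lit 0) (nat_lit 217766065252) (nat_lit 0) (nat_lit 0) (nat_lit 0) (nat_lit 0) (nat_lit 0) (nat_lit 0) (nat_lit 1) (nat_lit 0) (nat_lit 1) (nat_lit 0) (nat_lit 303) (nat_lit 429) (nat_lit 348)) (XT.lf (nat_lit 0) (nat_lit 217734480240) (nat_lit 0) (nat_lit 0) (nat_lit 0) (nat_lit 0) (nat_lit 0) (nat_lit 0) (nat_lit 1) (nat_lit 0) (nat_lit 1) (nat_lit 0) (nat_lit 304) (nat_lit 429) (nat_lit 347))))))) (XT.nd (nat_lit 846) (nat_lit 0) (nat_lit 0) (XT.nd (nat_lit 376) (nat_lit 0) (nat_lit 0) (XT.nd (nat_lit 188) (nat_lit 0) (nat_lit 0) (XT.nd (nat_lit 94) (nat_lit 0) (nat_lit 0) (XT.lf (nat_lit 0) (nat_lit 217705234860) (nat_lit 0) (nat_lit 0) (nat_lit 0) (nat_lit 0) (nat_lit 0) (nat_lit 0) (nat_lit 1) (nat_lit 0) (nat_lit 1) (nat_lit 0) (nat_lit 305) (nat_lit 429) (nat_lit 346)) (XT.lf (nat_lit 0) (nat_lit 217678155803) (nat_lit 0)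 (nat_lit 0) (nat_lit 0) (nat_lit 0) (nat_lit 0) (nat_lit 0) (nat_lit 1) (nat_lit 0) (nat_lit 1) (nat_lit 0) (nat_lit 306) (nat_lit 429) (nat_lit 345))) (XT.nd (nat_lit 94) (nat_lit 0) (nat_lit 0) (XT.lf (nat_lit 0) (nat_lit 217653082603) (nat_lit 0) (nat_lit 0) (nat_lit 0) (nat_lit 0) (nat_lit 0) (nat_lit 0) (nat_lit 1) (nat_lit 0) (nat_lit 1) (nat_lit 0) (nat_lit 307) (nat_lit 429) (nat_lit 344)) (XT.lf (nat_lit 0) (nat_lit 217629866677) (nat_lit 0) (nat_lit 0) (nat_lit 0) (nat_lit 0) (nat_lit 0) (nat_lit 0) (nat_lit 1) (nat_lit 0) (nat_lit 1) (nat_lit 0) (nat_lit 308) (nat_lit 429) (nat_lit 343)))) (XT.nd (nat_lit 188) (nat_lit 0) (nat_lit 0) (XT.nd (nat_lit 94) (nat_lit 0) (nat_lit 0) (XT.lf (nat_lit 0) (nat_lit 217608370449) (nat_lit 0) (nat_lit 0) (nat_lit 0) (nat_lit 0) (nat_lit 0) (nat_lit 0) (nat_lit 1) (nat_lit 0) (nat_lit 1) (nat_lit 0) (nat_lit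 309) (nat_lit 429) (nat_lit 342)) (XT.lf (nat_lit 0) (nat_lit 217588466534) (nat_lit 0) (nat_lit 0) (nat_lit 0) (nat_lit 0) (nat_lit 0) (nat_lit 0) (nat_lit 1) (nat_lit 0) (nat_lit 1) (nat_lit 0) (nat_lit 310) (nat_lit 429) (nat_lit 341))) (XT.nd (nat_lit 94) (nat_lit 0) (nat_lit 0) (XT.lf (nat_lit 0) (nat_lit 217570036984) (nat_lit 0) (nat_lit 0) (nat_lit 0) (nat_lit 0) (nat_lit 0) (nat_lit 0) (nat_lit 1) (nat_lit 0) (nat_lit 1) (nat_lit 0) (nat_lit 311) (nat_lit 429) (nat_lit 340)) (XT.nd (nat_lit 94) (nat_lit 0) (nat_lit 0) (XT.lf (nat_lit 0) (nat_lit 217552972585) (nat_lit 0) (nat_lit 0) (nat_lit 0) (nat_lit 0) (nat_lit 0) (nat_lit 0) (nat_lit 1) (nat_lit 0) (nat_lit 1) (nat_lit 0) (nat_lit 312) (nat_lit 429) (nat_lit 339)) (XT.lf (nat_lit 0) (nat_lit 217537172216) (nat_lit 0) (nat_lit 0) (nat_lit 0) (nat_lit 0) (nat_lit 0) (nat_lit 0) (nat_lit 1) (nat_lit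 0) (nat_lit 1) (nat_lit 0) (nat_lit 313) (nat_lit 429) (nat_lit 338)))))) (XT.nd (nat_lit 470) (nat_lit 0) (nat_lit 0) (XT.nd (nat_lit 188) (nat_lit 0) (nat_lit 0) (XT.nd (nat_lit 94) (nat_lit 0) (nat_lit 0) (XT.lf (nat_lit 0) (nat_lit 217522542244) (nat_lit 0) (nat_lit 0) (nat_lit 0) (nat_lit 0) (nat_lit 0) (nat_lit 0) (nat_lit 1) (nat_lit 0) (nat_lit 1) (nat_lit 0) (nat_lit 314) (nat_lit 429) (nat_lit 337)) (XT.lf (nat_lit 0) (nat_lit 217508995974) (nat_lit 0) (nat_lit 0) (nat_lit 0) (nat_lit 0) (nat_lit 0) (nat_lit 0) (nat_lit 1) (nat_lit 0) (nat_lit 1) (nat_lit 0) (nat_lit 315) (nat_lit 429) (nat_lit 336))) (XT.nd (nat_lit 94) (nat_lit 0) (nat_lit 0) (XT.lf (nat_lit 0) (nat_lit 217496453132) (nat_lit 0) (nat_lit 0) (nat_lit 0) (nat_lit 0) (nat_lit 0) (nat_lit 0) (nat_lit 1) (nat_lit 0) (nat_lit 1) (nat_lit 0) (nat_lit 316) (nat_lit 429) (nat_lit 335))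 (XT.nd (nat_lit 94) (nat_lit 0) (nat_lit 0) (XT.lf (nat_lit 0) (nat_lit 217484839388) (nat_lit 0) (nat_lit 0) (nat_lit 0) (nat_lit 0) (nat_lit 0) (nat_lit 0) (nat_lit 1) (nat_lit 0) (nat_lit 1) (nat_lit 0) (nat_lit 317) (nat_lit 429) (nat_lit 334)) (XT.lf (nat_lit 0) (nat_lit 217474085923) (nat_lit 0) (nat_lit 0) (nat_lit 0) (nat_lit 0) (nat_lit 0) (nat_lit 0) (nat_lit 1) (nat_lit 0) (nat_lit 1) (nat_lit 0) (nat_lit 318) (nat_lit 429) (nat_lit 333))))) (XT.nd (nat_lit 188) (nat_lit 0) (nat_lit 0) (XT.nd (nat_lit 94) (nat_lit 0) (nat_lit 0) (XT.lf (nat_lit 0) (nat_lit 217464129010) (nat_lit 0) (nat_lit 0) (nat_lit 0) (nat_lit 0) (nat_lit 0) (nat_lit 0) (nat_lit 1) (nat_lit 0) (nat_lit 1) (nat_lit 0) (nat_lit 319) (nat_lit 429) (nat_lit 332)) (XT.lf (nat_lit 0) (nat_lit 217454909646) (nat_lit 0) (nat_lit 0) (nat_lit 0) (nat_lit 0) (nat_lit 0) (nat_lit 0) (nat_lit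 1) (nat_lit 0) (nat_lit 1) (nat_lit 0) (nat_lit 320) (nat_lit 429) (nat_lit 331))) (XT.nd (nat_lit 94) (nat_lit 0) (nat_lit 0) (XT.lf (nat_lit 0) (nat_lit 217446373198) (nat_lit 0) (nat_lit 0) (nat_lit 0) (nat_lit 0) (nat_lit 0) (nat_lit 0) (nat_lit 1) (nat_lit 0) (nat_lit 1) (nat_lit 0) (nat_lit 321) (nat_lit 429) (nat_lit 330)) (XT.nd (nat_lit 94) (nat_lit 0) (nat_lit 0) (XT.lf (nat_lit 0) (nat_lit 217438469080) (nat_lit 0) (nat_lit 0) (nat_lit 0) (nat_lit 0) (nat_lit 0) (nat_lit 0) (nat_lit 1) (nat_lit 0) (nat_lit 1) (nat_lit 0) (nat_lit 322) (nat_lit 429) (nat_lit 329)) (XT.lf (nat_lit 0) (nat_lit 217431150452) (nat_lit 0) (nat_lit 0) (nat_lit 0) (nat_lit 0) (nat_lit 0) (nat_lit 0) (nat_lit 1) (nat_lit 0) (nat_lit 1) (nat_lit 0) (nat_lit 323) (nat_lit 429) (nat_lit 328))))))))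
noncomputable def ec300 : XT := (XT.nd (nat_lit 1692) (nat_lit 0) (nat_lit 0) (XT.nd (nat_lit 846) (nat_lit 0) (nat_lit 0) (XT.nd (nat_lit 376) (nat_lit 0) (nat_lit 0) (XT.nd (nat_lit 188) (nat_lit 0) (nat_lit 0) (XT.nd (nat_lit 94) (nat_lit 0) (nat_lit 0) (XT.lf (nat_lit 0) (nat_lit 217424373944) (nat_lit 0) (nat_lit 0) (nat_lit 0) (nat_lit 0) (nat_lit 0) (nat_lit 0) (nat_lit 1) (nat_lit 0) (nat_lit 1) (nat_lit 0) (nat_lit 324) (nat_lit 429) (nat_lit 327)) (XT.lf (nat_lit 0) (nat_lit 217418099400) (nat_lit 0) (nat_lit 0) (nat_lit 0) (nat_lit 0) (nat_lit 0) (nat_lit 0) (nat_lit 1) (nat_lit 0) (nat_lit 1) (nat_lit 0) (nat_lit 325) (nat_lit 429) (nat_lit 326))) (XT.nd (nat_lit 94) (nat_lit 0) (nat_lit 0) (XT.lf (nat_lit 0) (nat_lit 217412289637) (nat_lit 0) (nat_lit 0) (nat_lit 0) (nat_lit 0) (nat_lit 0) (nat_lit 0) (nat_lit 1) (nat_lit 0) (nat_lit 1) (nat_lit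 0) (nat_lit 326) (nat_lit 429) (nat_lit 325)) (XT.lf (nat_lit 0) (nat_lit 217406910227) (nat_lit 0) (nat_lit 0) (nat_lit 0) (nat_lit 0) (nat_lit 0) (nat_lit 0) (nat_lit 1) (nat_lit 0) (nat_lit 1) (nat_lit 0) (nat_lit 327) (nat_lit 429) (nat_lit 324)))) (XT.nd (nat_lit 188) (nat_lit 0) (nat_lit 0) (XT.nd (nat_lit 94) (nat_lit 0) (nat_lit 0) (XT.lf (nat_lit 0) (nat_lit 217401929292) (nat_lit 0) (nat_lit 0) (nat_lit 0) (nat_lit 0) (nat_lit 0) (nat_lit 0) (nat_lit 1) (nat_lit 0) (nat_lit 1) (nat_lit 0) (nat_lit 328) (nat_lit 429) (nat_lit 323)) (XT.lf (nat_lit 0) (nat_lit 217397317315) (nat_lit 0) (nat_lit 0) (nat_lit 0) (nat_lit 0) (nat_lit 0) (nat_lit 0) (nat_lit 1) (nat_lit 0) (nat_lit 1) (nat_lit 0) (nat_lit 329) (nat_lit 429) (nat_lit 322))) (XT.nd (nat_lit 94) (nat_lit 0) (nat_lit 0) (XT.lf (nat_lit 0) (nat_lit 217393046965) (nat_lit 0) (nat_lit 0) (nat_lit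 0) (nat_lit 0) (nat_lit 0) (nat_lit 0) (nat_lit 1) (nat_lit 0) (nat_lit 1) (nat_lit 0) (nat_lit 330) (nat_lit 429) (nat_lit 321)) (XT.nd (nat_lit 94) (nat_lit 0) (nat_lit 0) (XT.lf (nat_lit 0) (nat_lit 217389092938) (nat_lit 0) (nat_lit 0) (nat_lit 0) (nat_lit 0) (nat_lit 0) (nat_lit 0) (nat_lit 1) (nat_lit 0) (nat_lit 1) (nat_lit 0) (nat_lit 331) (nat_lit 429) (nat_lit 320)) (XT.lf (nat_lit 0) (nat_lit 217385431802) (nat_lit 0) (nat_lit 0) (nat_lit 0) (nat_lit 0) (nat_lit 0) (nat_lit 0) (nat_lit 1) (nat_lit 0) (nat_lit 1) (nat_lit 0) (nat_lit 332) (nat_lit 429) (nat_lit 319)))))) (XT.nd (nat_lit 376) (nat_lit 0) (nat_lit 0) (XT.nd (nat_lit 188) (nat_lit 0) (nat_lit 0) (XT.nd (nat_lit 94) (nat_lit 0) (nat_lit 0) (XT.lf (nat_lit 0) (nat_lit 217382041861) (nat_lit 0) (nat_lit 0) (nat_lit 0) (nat_lit 0) (nat_lit 0) (nat_lit 0) (nat_lit 1) (nat_lit 0) (nat_lit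 1) (nat_lit 0) (nat_lit 333) (nat_lit 429) (nat_lit 318)) (XT.lf (nat_lit 0) (nat_lit 217378903027) (nat_lit 0) (nat_lit 0) (nat_lit 0) (nat_lit 0) (nat_lit 0) (nat_lit 0) (nat_lit 1) (nat_lit 0) (nat_lit 1) (nat_lit 0) (nat_lit 334) (nat_lit 429) (nat_lit 317))) (XT.nd (nat_lit 94) (nat_lit 0) (nat_lit 0) (XT.lf (nat_lit 0) (nat_lit 217375996699) (nat_lit 0) (nat_lit 0) (nat_lit 0) (nat_lit 0) (nat_lit 0) (nat_lit 0) (nat_lit 1) (nat_lit 0) (nat_lit 1) (nat_lit 0) (nat_lit 335) (nat_lit 429) (nat_lit 316)) (XT.lf (nat_lit 0) (nat_lit 217373305655) (nat_lit 0) (nat_lit 0) (nat_lit 0) (nat_lit 0) (nat_lit 0) (nat_lit 0) (nat_lit 1) (nat_lit 0) (nat_lit 1) (nat_lit 0) (nat_lit 336) (nat_lit 429) (nat_lit 315)))) (XT.nd (nat_lit 188) (nat_lit 0) (nat_lit 0) (XT.nd (nat_lit 94) (nat_lit 0) (nat_lit 0) (XT.lf (nat_lit 0) (nat_lit 217370813947) (nat_lit 0) (nat_lit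 0) (nat_lit 0) (nat_lit 0) (nat_lit 0) (nat_lit 0) (nat_lit 1) (nat_lit 0) (nat_lit 1) (nat_lit 0) (nat_lit 337) (nat_lit 429) (nat_lit 314)) (XT.lf (nat_lit 0) (nat_lit 217368506810) (nat_lit 0) (nat_lit 0) (nat_lit 0) (nat_lit 0) (nat_lit 0) (nat_lit 0) (nat_lit 1) (nat_lit 0) (nat_lit 1) (nat_lit 0) (nat_lit 338) (nat_lit 429) (nat_lit 313))) (XT.nd (nat_lit 94) (nat_lit 0) (nat_lit 0) (XT.lf (nat_lit 0) (nat_lit 217366370572) (nat_lit 0) (nat_lit 0) (nat_lit 0) (nat_lit 0) (nat_lit 0) (nat_lit 0) (nat_lit 1) (nat_lit 0) (nat_lit 1) (nat_lit 0) (nat_lit 339) (nat_lit 429) (nat_lit 312)) (XT.nd (nat_lit 94) (nat_lit 0) (nat_lit 0) (XT.lf (nat_lit 0) (nat_lit 217364392574) (nat_lit 0) (nat_lit 0) (nat_lit 0) (nat_lit 0) (nat_lit 0) (nat_lit 0) (nat_lit 1) (nat_lit 0) (nat_lit 1) (nat_lit 0) (nat_lit 340) (nat_lit 429) (nat_lit 311)) (XT.lf (nat_lit 0) (nat_lit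 217362561095) (nat_lit 0) (nat_lit 0) (nat_lit 0) (nat_lit 0) (nat_lit 0) (nat_lit 0) (nat_lit 1) (nat_lit 0) (nat_lit 1) (nat_lit 0) (nat_lit 341) (nat_lit 429) (nat_lit 310))))))) (XT.nd (nat_lit 846) (nat_lit 0) (nat_lit 0) (XT.nd (nat_lit 376) (nat_lit 0) (nat_lit 0) (XT.nd (nat_lit 188) (nat_lit 0) (nat_lit 0) (XT.nd (nat_lit 94) (nat_lit 0) (nat_lit 0) (XT.lf (nat_lit 0) (nat_lit 217360865280) (nat_lit 0) (nat_lit 0) (nat_lit 0) (nat_lit 0) (nat_lit 0) (nat_lit 0) (nat_lit 1) (nat_lit 0) (nat_lit 1) (nat_lit 0) (nat_lit 342) (nat_lit 429) (nat_lit 309)) (XT.lf (nat_lit 0) (nat_lit 217359295082) (nat_lit 0) (nat_lit 0) (nat_lit 0) (nat_lit 0) (nat_lit 0) (nat_lit 0) (nat_lit 1) (nat_lit 0) (nat_lit 1) (nat_lit 0) (nat_lit 343) (nat_lit 429) (nat_lit 308))) (XT.nd (nat_lit 94) (nat_lit 0) (nat_lit 0) (XT.lf (nat_lit 0) (nat_lit 217357841194) (nat_lit 0)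 (nat_lit 0) (nat_lit 0) (nat_lit 0) (nat_lit 0) (nat_lit 0) (nat_lit 1) (nat_lit 0) (nat_lit 1) (nat_lit 0) (nat_lit 344) (nat_lit 429) (nat_lit 307)) (XT.lf (nat_lit 0) (nat_lit 217356495002) (nat_lit 0) (nat_lit 0) (nat_lit 0) (nat_lit 0) (nat_lit 0) (nat_lit 0) (nat_lit 1) (nat_lit 0) (nat_lit 1) (nat_lit 0) (nat_lit 345) (nat_lit 429) (nat_lit 306)))) (XT.nd (nat_lit 188) (nat_lit 0) (nat_lit 0) (XT.nd (nat_lit 94) (nat_lit 0) (nat_lit 0) (XT.lf (nat_lit 0) (nat_lit 217355248528) (nat_lit 0) (nat_lit 0) (nat_lit 0) (nat_lit 0) (nat_lit 0) (nat_lit 0) (nat_lit 1) (nat_lit 0) (nat_lit 1) (nat_lit 0) (nat_lit 346) (nat_lit 429) (nat_lit 305)) (XT.lf (nat_lit 0) (nat_lit 217354094385) (nat_lit 0) (nat_lit 0) (nat_lit 0) (nat_lit 0) (nat_lit 0) (nat_lit 0) (nat_lit 1) (nat_lit 0) (nat_lit 1) (nat_lit 0) (nat_lit 347) (nat_lit 429) (nat_lit 304))) (XT.nd (nat_lit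 94) (nat_lit 0) (nat_lit 0) (XT.lf (nat_lit 0) (nat_lit 217353025734) (nat_lit 0) (nat_lit 0) (nat_lit 0) (nat_lit 0) (nat_lit 0) (nat_lit 0) (nat_lit 1) (nat_lit 0) (nat_lit 1) (nat_lit 0) (nat_lit 348) (nat_lit 429) (nat_lit 303)) (XT.nd (nat_lit 94) (nat_lit 0) (nat_lit 0) (XT.lf (nat_lit 0) (nat_lit 217352036243) (nat_lit 0) (nat_lit 0) (nat_lit 0) (nat_lit 0) (nat_lit 0) (nat_lit 0) (nat_lit 1) (nat_lit 0) (nat_lit 1) (nat_lit 0) (nat_lit 349) (nat_lit 429) (nat_lit 302)) (XT.lf (nat_lit 0) (nat_lit 217351120047) (nat_lit 0) (nat_lit 0) (nat_lit 0) (nat_lit 0) (nat_lit 0) (nat_lit 0) (nat_lit 1) (nat_lit 0) (nat_lit 1) (nat_lit 0) (nat_lit 350) (nat_lit 429) (nat_lit 301)))))) (XT.nd (nat_lit 470) (nat_lit 0) (nat_lit 0) (XT.nd (nat_lit 188) (nat_lit 0) (nat_lit 0) (XT.nd (nat_lit 94) (nat_lit 0) (nat_lit 0) (XT.lf (nat_lit 0) (nat_lit 217350271718) (nat_lit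 0) (nat_lit 0) (nat_lit 0) (nat_lit 0) (nat_lit 0) (nat_lit 0) (nat_lit 1) (nat_lit 0) (nat_lit 1) (nat_lit 0) (nat_lit 351) (nat_lit 429) (nat_lit 300)) (XT.lf (nat_lit 0) (nat_lit 217349486228) (nat_lit 0) (nat_lit 0) (nat_lit 0) (nat_lit 0) (nat_lit 0) (nat_lit 0) (nat_lit 1) (nat_lit 0) (nat_lit 1) (nat_lit 0) (nat_lit 352) (nat_lit 429) (nat_lit 299))) (XT.nd (nat_lit 94) (nat_lit 0) (nat_lit 0) (XT.lf (nat_lit 0) (nat_lit 217348758922) (nat_lit 0) (nat_lit 0) (nat_lit 0) (nat_lit 0) (nat_lit 0) (nat_lit 0) (nat_lit 1) (nat_lit 0) (nat_lit 1) (nat_lit 0) (nat_lit 353) (nat_lit 429) (nat_lit 298)) (XT.nd (nat_lit 94) (nat_lit 0) (nat_lit 0) (XT.lf (nat_lit 0) (nat_lit 217348085491) (nat_lit 0) (nat_lit 0) (nat_lit 0) (nat_lit 0) (nat_lit 0) (nat_lit 0) (nat_lit 1) (nat_lit 0) (nat_lit 1) (nat_lit 0) (nat_lit 354) (nat_lit 429) (nat_lit 297)) (XT.lf (nat_lit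 0) (nat_lit 217347461943) (nat_lit 0) (nat_lit 0) (nat_lit 0) (nat_lit 0) (nat_lit 0) (nat_lit 0) (nat_lit 1) (nat_lit 0) (nat_lit 1) (nat_lit 0) (nat_lit 355) (nat_lit 429) (nat_lit 296))))) (XT.nd (nat_lit 188) (nat_lit 0) (nat_lit 0) (XT.nd (nat_lit 94) (nat_lit 0) (nat_lit 0) (XT.lf (nat_lit 0) (nat_lit 217346884584) (nat_lit 0) (nat_lit 0) (nat_lit 0) (nat_lit 0) (nat_lit 0) (nat_lit 0) (nat_lit 1) (nat_lit 0) (nat_lit 1) (nat_lit 0) (nat_lit 356) (nat_lit 429) (nat_lit 295)) (XT.lf (nat_lit 0) (nat_lit 217346349993) (nat_lit 0) (nat_lit 0) (nat_lit 0) (nat_lit 0) (nat_lit 0) (nat_lit 0) (nat_lit 1) (nat_lit 0) (nat_lit 1) (nat_lit 0) (nat_lit 357) (nat_lit 429) (nat_lit 294))) (XT.nd (nat_lit 94) (nat_lit 0) (nat_lit 0) (XT.lf (nat_lit 0) (nat_lit 217345855001) (nat_lit 0) (nat_lit 0) (nat_lit 0) (nat_lit 0) (nat_lit 0) (nat_lit 0) (nat_lit 1) (nat_lit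 0) (nat_lit 1) (nat_lit 0) (nat_lit 358) (nat_lit 429) (nat_lit 293)) (XT.nd (nat_lit 94) (nat_lit 0) (nat_lit 0) (XT.lf (nat_lit 0) (nat_lit 217345396675) (nat_lit 0) (nat_lit 0) (nat_lit 0) (nat_lit 0) (nat_lit 0) (nat_lit 0) (nat_lit 1) (nat_lit 0) (nat_lit 1) (nat_lit 0) (nat_lit 359) (nat_lit 429) (nat_lit 292)) (XT.lf (nat_lit 0) (nat_lit 217344972299) (nat_lit 0) (nat_lit 0) (nat_lit 0) (nat_lit 0) (nat_lit 0) (nat_lit 0) (nat_lit 1) (nat_lit 0) (nat_lit 1) (nat_lit 0) (nat_lit 360) (nat_lit 429) (nat_lit 291))))))))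
noncomputable def ec301 : XT := (XT.nd (nat_lit 1786) (nat_lit 0) (nat_lit 0) (XT.nd (nat_lit 846) (nat_lit 0) (nat_lit 0) (XT.nd (nat_lit 376) (nat_lit 0) (nat_lit 0) (XT.nd (nat_lit 188) (nat_lit 0) (nat_lit 0) (XT.nd (nat_lit 94) (nat_lit 0) (nat_lit 0) (XT.lf (nat_lit 0) (nat_lit 217344579358) (nat_lit 0) (nat_lit 0) (nat_lit 0) (nat_lit 0) (nat_lit 0) (nat_lit 0) (nat_lit 1) (nat_lit 0) (nat_lit 1) (nat_lit 0) (nat_lit 361) (nat_lit 429) (nat_lit 290)) (XT.lf (nat_lit 0) (nat_lit 217344215524) (nat_lit 0) (nat_lit 0) (nat_lit 0) (nat_lit 0) (nat_lit 0) (nat_lit 0) (nat_lit 1) (nat_lit 0) (nat_lit 1) (nat_lit 0) (nat_lit 362) (nat_lit 429) (nat_lit 289))) (XT.nd (nat_lit 94) (nat_lit 0) (nat_lit 0) (XT.lf (nat_lit 0) (nat_lit 217343878641) (nat_lit 0) (nat_lit 0) (nat_lit 0) (nat_lit 0) (nat_lit 0) (nat_lit 0) (nat_lit 1) (nat_lit 0) (nat_lit 1) (nat_lit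 0) (nat_lit 363) (nat_lit 429) (nat_lit 288)) (XT.lf (nat_lit 0) (nat_lit 217343566712) (nat_lit 0) (nat_lit 0) (nat_lit 0) (nat_lit 0) (nat_lit 0) (nat_lit 0) (nat_lit 1) (nat_lit 0) (nat_lit 1) (nat_lit 0) (nat_lit 364) (nat_lit 429) (nat_lit 287)))) (XT.nd (nat_lit 188) (nat_lit 0) (nat_lit 0) (XT.nd (nat_lit 94) (nat_lit 0) (nat_lit 0) (XT.lf (nat_lit 0) (nat_lit 217343277889) (nat_lit 0) (nat_lit 0) (nat_lit 0) (nat_lit 0) (nat_lit 0) (nat_lit 0) (nat_lit 1) (nat_lit 0) (nat_lit 1) (nat_lit 0) (nat_lit 365) (nat_lit 429) (nat_lit 286)) (XT.lf (nat_lit 0) (nat_lit 217343010460) (nat_lit 0) (nat_lit 0) (nat_lit 0) (nat_lit 0) (nat_lit 0) (nat_lit 0) (nat_lit 1) (nat_lit 0) (nat_lit 1) (nat_lit 0) (nat_lit 366) (nat_lit 429) (nat_lit 285))) (XT.nd (nat_lit 94) (nat_lit 0) (nat_lit 0) (XT.lf (nat_lit 0) (nat_lit 217342762841) (nat_lit 0) (nat_lit 0) (nat_lit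 0) (nat_lit 0) (nat_lit 0) (nat_lit 0) (nat_lit 1) (nat_lit 0) (nat_lit 1) (nat_lit 0) (nat_lit 367) (nat_lit 429) (nat_lit 284)) (XT.nd (nat_lit 94) (nat_lit 0) (nat_lit 0) (XT.lf (nat_lit 0) (nat_lit 217342533564) (nat_lit 0) (nat_lit 0) (nat_lit 0) (nat_lit 0) (nat_lit 0) (nat_lit 0) (nat_lit 1) (nat_lit 0) (nat_lit 1) (nat_lit 0) (nat_lit 368) (nat_lit 429) (nat_lit 283)) (XT.lf (nat_lit 0) (nat_lit 217342321270) (nat_lit 0) (nat_lit 0) (nat_lit 0) (nat_lit 0) (nat_lit 0) (nat_lit 0) (nat_lit 1) (nat_lit 0) (nat_lit 1) (nat_lit 0) (nat_lit 369) (nat_lit 429) (nat_lit 282)))))) (XT.nd (nat_lit 470) (nat_lit 0) (nat_lit 0) (XT.nd (nat_lit 188) (nat_lit 0) (nat_lit 0) (XT.nd (nat_lit 94) (nat_lit 0) (nat_lit 0) (XT.lf (nat_lit 0) (nat_lit 217342124702) (nat_lit 0) (nat_lit 0) (nat_lit 0) (nat_lit 0) (nat_lit 0) (nat_lit 0) (nat_lit 1) (nat_lit 0) (nat_lit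 1) (nat_lit 0) (nat_lit 370) (nat_lit 429) (nat_lit 281)) (XT.lf (nat_lit 0) (nat_lit 217341942694) (nat_lit 0) (nat_lit 0) (nat_lit 0) (nat_lit 0) (nat_lit 0) (nat_lit 0) (nat_lit 1) (nat_lit 0) (nat_lit 1) (nat_lit 0) (nat_lit 371) (nat_lit 429) (nat_lit 280))) (XT.nd (nat_lit 94) (nat_lit 0) (nat_lit 0) (XT.lf (nat_lit 0) (nat_lit 217341774169) (nat_lit 0) (nat_lit 0) (nat_lit 0) (nat_lit 0) (nat_lit 0) (nat_lit 0) (nat_lit 1) (nat_lit 0) (nat_lit 1) (nat_lit 0) (nat_lit 372) (nat_lit 429) (nat_lit 279)) (XT.nd (nat_lit 94) (nat_lit 0) (nat_lit 0) (XT.lf (nat_lit 0) (nat_lit 217341618127) (nat_lit 0) (nat_lit 0) (nat_lit 0) (nat_lit 0) (nat_lit 0) (nat_lit 0) (nat_lit 1) (nat_lit 0) (nat_lit 1) (nat_lit 0) (nat_lit 373) (nat_lit 429) (nat_lit 278)) (XT.lf (nat_lit 0) (nat_lit 217341473643) (nat_lit 0) (nat_lit 0) (nat_lit 0) (nat_lit 0) (nat_lit 0) (nat_lit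 0) (nat_lit 1) (nat_lit 0) (nat_lit 1) (nat_lit 0) (nat_lit 374) (nat_lit 429) (nat_lit 277))))) (XT.nd (nat_lit 188) (nat_lit 0) (nat_lit 0) (XT.nd (nat_lit 94) (nat_lit 0) (nat_lit 0) (XT.lf (nat_lit 0) (nat_lit 217341339862) (nat_lit 0) (nat_lit 0) (nat_lit 0) (nat_lit 0) (nat_lit 0) (nat_lit 0) (nat_lit 1) (nat_lit 0) (nat_lit 1) (nat_lit 0) (nat_lit 375) (nat_lit 429) (nat_lit 276)) (XT.lf (nat_lit 0) (nat_lit 217341215991) (nat_lit 0) (nat_lit 0) (nat_lit 0) (nat_lit 0) (nat_lit 0) (nat_lit 0) (nat_lit 1) (nat_lit 0) (nat_lit 1) (nat_lit 0) (nat_lit 376) (nat_lit 429) (nat_lit 275))) (XT.nd (nat_lit 94) (nat_lit 0) (nat_lit 0) (XT.lf (nat_lit 0) (nat_lit 217341101295) (nat_lit 0) (nat_lit 0) (nat_lit 0) (nat_lit 0) (nat_lit 0) (nat_lit 0) (nat_lit 1) (nat_lit 0) (nat_lit 1) (nat_lit 0) (nat_lit 377) (nat_lit 429) (nat_lit 274)) (XT.nd (nat_lit 94) (nat_lit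 0) (nat_lit 0) (XT.lf (nat_lit 0) (nat_lit 217340995096) (nat_lit 0) (nat_lit 0) (nat_lit 0) (nat_lit 0) (nat_lit 0) (nat_lit 0) (nat_lit 1) (nat_lit 0) (nat_lit 1) (nat_lit 0) (nat_lit 378) (nat_lit 429) (nat_lit 273)) (XT.lf (nat_lit 0) (nat_lit 217340896763) (nat_lit 0) (nat_lit 0) (nat_lit 0) (nat_lit 0) (nat_lit 0) (nat_lit 0) (nat_lit 1) (nat_lit 0) (nat_lit 1) (nat_lit 0) (nat_lit 379) (nat_lit 429) (nat_lit 272))))))) (XT.nd (nat_lit 846) (nat_lit 0) (nat_lit 0) (XT.nd (nat_lit 376) (nat_lit 0) (nat_lit 0) (XT.nd (nat_lit 188) (nat_lit 0) (nat_lit 0) (XT.nd (nat_lit 94) (nat_lit 0) (nat_lit 0) (XT.lf (nat_lit 0) (nat_lit 217340805714) (nat_lit 0) (nat_lit 0) (nat_lit 0) (nat_lit 0) (nat_lit 0) (nat_lit 0) (nat_lit 1) (nat_lit 0) (nat_lit 1) (nat_lit 0) (nat_lit 380) (nat_lit 429) (nat_lit 271)) (XT.lf (nat_lit 0) (nat_lit 217340721409) (nat_lit 0)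 (nat_lit 0) (nat_lit 0) (nat_lit 0) (nat_lit 0) (nat_lit 0) (nat_lit 1) (nat_lit 0) (nat_lit 1) (nat_lit 0) (nat_lit 381) (nat_lit 429) (nat_lit 270))) (XT.nd (nat_lit 94) (nat_lit 0) (nat_lit 0) (XT.lf (nat_lit 0) (nat_lit 217340643349) (nat_lit 0) (nat_lit 0) (nat_lit 0) (nat_lit 0) (nat_lit 0) (nat_lit 0) (nat_lit 1) (nat_lit 0) (nat_lit 1) (nat_lit 0) (nat_lit 382) (nat_lit 429) (nat_lit 269)) (XT.lf (nat_lit 0) (nat_lit 217340571071) (nat_lit 0) (nat_lit 0) (nat_lit 0) (nat_lit 0) (nat_lit 0) (nat_lit 0) (nat_lit 1) (nat_lit 0) (nat_lit 1) (nat_lit 0) (nat_lit 383) (nat_lit 429) (nat_lit 268)))) (XT.nd (nat_lit 188) (nat_lit 0) (nat_lit 0) (XT.nd (nat_lit 94) (nat_lit 0) (nat_lit 0) (XT.lf (nat_lit 0) (nat_lit 217340504147) (nat_lit 0) (nat_lit 0) (nat_lit 0) (nat_lit 0) (nat_lit 0) (nat_lit 0) (nat_lit 1) (nat_lit 0) (nat_lit 1) (nat_lit 0) (nat_lit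 384) (nat_lit 429) (nat_lit 267)) (XT.lf (nat_lit 0) (nat_lit 217340442181) (nat_lit 0) (nat_lit 0) (nat_lit 0) (nat_lit 0) (nat_lit 0) (nat_lit 0) (nat_lit 1) (nat_lit 0) (nat_lit 1) (nat_lit 0) (nat_lit 385) (nat_lit 429) (nat_lit 266))) (XT.nd (nat_lit 94) (nat_lit 0) (nat_lit 0) (XT.lf (nat_lit 0) (nat_lit 217340384805) (nat_lit 0) (nat_lit 0) (nat_lit 0) (nat_lit 0) (nat_lit 0) (nat_lit 0) (nat_lit 1) (nat_lit 0) (nat_lit 1) (nat_lit 0) (nat_lit 386) (nat_lit 429) (nat_lit 265)) (XT.nd (nat_lit 94) (nat_lit 0) (nat_lit 0) (XT.lf (nat_lit 0) (nat_lit 217340331678) (nat_lit 0) (nat_lit 0) (nat_lit 0) (nat_lit 0) (nat_lit 0) (nat_lit 0) (nat_lit 1) (nat_lit 0) (nat_lit 1) (nat_lit 0) (nat_lit 387) (nat_lit 429) (nat_lit 264)) (XT.lf (nat_lit 0) (nat_lit 217340282487) (nat_lit 0) (nat_lit 0) (nat_lit 0) (nat_lit 0) (nat_lit 0) (nat_lit 0) (nat_lit 1) (nat_lit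 0) (nat_lit 1) (nat_lit 0) (nat_lit 388) (nat_lit 429) (nat_lit 263)))))) (XT.nd (nat_lit 470) (nat_lit 0) (nat_lit 0) (XT.nd (nat_lit 188) (nat_lit 0) (nat_lit 0) (XT.nd (nat_lit 94) (nat_lit 0) (nat_lit 0) (XT.lf (nat_lit 0) (nat_lit 217340236940) (nat_lit 0) (nat_lit 0) (nat_lit 0) (nat_lit 0) (nat_lit 0) (nat_lit 0) (nat_lit 1) (nat_lit 0) (nat_lit 1) (nat_lit 0) (nat_lit 389) (nat_lit 429) (nat_lit 262)) (XT.lf (nat_lit 0) (nat_lit 217340194767) (nat_lit 0) (nat_lit 0) (nat_lit 0) (nat_lit 0) (nat_lit 0) (nat_lit 0) (nat_lit 1) (nat_lit 0) (nat_lit 1) (nat_lit 0) (nat_lit 390) (nat_lit 429) (nat_lit 261))) (XT.nd (nat_lit 94) (nat_lit 0) (nat_lit 0) (XT.lf (nat_lit 0) (nat_lit 217340155717) (nat_lit 0) (nat_lit 0) (nat_lit 0) (nat_lit 0) (nat_lit 0) (nat_lit 0) (nat_lit 1) (nat_lit 0) (nat_lit 1) (nat_lit 0) (nat_lit 391) (nat_lit 429) (nat_lit 260))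 (XT.nd (nat_lit 94) (nat_lit 0) (nat_lit 0) (XT.lf (nat_lit 0) (nat_lit 217340119561) (nat_lit 0) (nat_lit 0) (nat_lit 0) (nat_lit 0) (nat_lit 0) (nat_lit 0) (nat_lit 1) (nat_lit 0) (nat_lit 1) (nat_lit 0) (nat_lit 392) (nat_lit 429) (nat_lit 259)) (XT.lf (nat_lit 0) (nat_lit 217340086082) (nat_lit 0) (nat_lit 0) (nat_lit 0) (nat_lit 0) (nat_lit 0) (nat_lit 0) (nat_lit 1) (nat_lit 0) (nat_lit 1) (nat_lit 0) (nat_lit 393) (nat_lit 429) (nat_lit 258))))) (XT.nd (nat_lit 188) (nat_lit 0) (nat_lit 0) (XT.nd (nat_lit 94) (nat_lit 0) (nat_lit 0) (XT.lf (nat_lit 0) (nat_lit 217340055083) (nat_lit 0) (nat_lit 0) (nat_lit 0) (nat_lit 0) (nat_lit 0) (nat_lit 0) (nat_lit 1) (nat_lit 0) (nat_lit 1) (nat_lit 0) (nat_lit 394) (nat_lit 429) (nat_lit 257)) (XT.lf (nat_lit 0) (nat_lit 217340026381) (nat_lit 0) (nat_lit 0) (nat_lit 0) (nat_lit 0) (nat_lit 0) (nat_lit 0) (nat_lit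 1) (nat_lit 0) (nat_lit 1) (nat_lit 0) (nat_lit 395) (nat_lit 429) (nat_lit 256))) (XT.nd (nat_lit 94) (nat_lit 0) (nat_lit 0) (XT.lf (nat_lit 0) (nat_lit 217339999805) (nat_lit 0) (nat_lit 0) (nat_lit 0) (nat_lit 0) (nat_lit 0) (nat_lit 0) (nat_lit 1) (nat_lit 0) (nat_lit 1) (nat_lit 0) (nat_lit 396) (nat_lit 429) (nat_lit 255)) (XT.nd (nat_lit 94) (nat_lit 0) (nat_lit 0) (XT.lf (nat_lit 0) (nat_lit 217339975197) (nat_lit 0) (nat_lit 0) (nat_lit 0) (nat_lit 0) (nat_lit 0) (nat_lit 0) (nat_lit 1) (nat_lit 0) (nat_lit 1) (nat_lit 0) (nat_lit 397) (nat_lit 429) (nat_lit 254)) (XT.lf (nat_lit 0) (nat_lit 217339952412) (nat_lit 0) (nat_lit 0) (nat_lit 0) (nat_lit 0) (nat_lit 0) (nat_lit 0) (nat_lit 1) (nat_lit 0) (nat_lit 1) (nat_lit 0) (nat_lit 398) (nat_lit 429) (nat_lit 253))))))))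
noncomputable def ec302 : XT := (XT.nd (nat_lit 1692) (nat_lit 0) (nat_lit 0) (XT.nd (nat_lit 846) (nat_lit 0) (nat_lit 0) (XT.nd (nat_lit 376) (nat_lit 0) (nat_lit 0) (XT.nd (nat_lit 188) (nat_lit 0) (nat_lit 0) (XT.nd (nat_lit 94) (nat_lit 0) (nat_lit 0) (XT.lf (nat_lit 0) (nat_lit 217339931315) (nat_lit 0) (nat_lit 0) (nat_lit 0) (nat_lit 0) (nat_lit 0) (nat_lit 0) (nat_lit 1) (nat_lit 0) (nat_lit 1) (nat_lit 0) (nat_lit 399) (nat_lit 429) (nat_lit 252)) (XT.lf (nat_lit 0) (nat_lit 217339911780) (nat_lit 0) (nat_lit 0) (nat_lit 0) (nat_lit 0) (nat_lit 0) (nat_lit 0) (nat_lit 1) (nat_lit 0) (nat_lit 1) (nat_lit 0) (nat_lit 400) (nat_lit 429) (nat_lit 251))) (XT.nd (nat_lit 94) (nat_lit 0) (nat_lit 0) (XT.lf (nat_lit 0) (nat_lit 217339893693) (nat_lit 0) (nat_lit 0) (nat_lit 0) (nat_lit 0) (nat_lit 0) (nat_lit 0) (nat_lit 1) (nat_lit 0) (nat_lit 1) (nat_lit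 0) (nat_lit 401) (nat_lit 429) (nat_lit 250)) (XT.lf (nat_lit 0) (nat_lit 217339876945) (nat_lit 0) (nat_lit 0) (nat_lit 0) (nat_lit 0) (nat_lit 0) (nat_lit 0) (nat_lit 1) (nat_lit 0) (nat_lit 1) (nat_lit 0) (nat_lit 402) (nat_lit 429) (nat_lit 249)))) (XT.nd (nat_lit 188) (nat_lit 0) (nat_lit 0) (XT.nd (nat_lit 94) (nat_lit 0) (nat_lit 0) (XT.lf (nat_lit 0) (nat_lit 217339861438) (nat_lit 0) (nat_lit 0) (nat_lit 0) (nat_lit 0) (nat_lit 0) (nat_lit 0) (nat_lit 1) (nat_lit 0) (nat_lit 1) (nat_lit 0) (nat_lit 403) (nat_lit 429) (nat_lit 248)) (XT.lf (nat_lit 0) (nat_lit 217339847080) (nat_lit 0) (nat_lit 0) (nat_lit 0) (nat_lit 0) (nat_lit 0) (nat_lit 0) (nat_lit 1) (nat_lit 0) (nat_lit 1) (nat_lit 0) (nat_lit 404) (nat_lit 429) (nat_lit 247))) (XT.nd (nat_lit 94) (nat_lit 0) (nat_lit 0) (XT.lf (nat_lit 0) (nat_lit 217339833785) (nat_lit 0) (nat_lit 0) (nat_lit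 0) (nat_lit 0) (nat_lit 0) (nat_lit 0) (nat_lit 1) (nat_lit 0) (nat_lit 1) (nat_lit 0) (nat_lit 405) (nat_lit 429) (nat_lit 246)) (XT.nd (nat_lit 94) (nat_lit 0) (nat_lit 0) (XT.lf (nat_lit 0) (nat_lit 217339821475) (nat_lit 0) (nat_lit 0) (nat_lit 0) (nat_lit 0) (nat_lit 0) (nat_lit 0) (nat_lit 1) (nat_lit 0) (nat_lit 1) (nat_lit 0) (nat_lit 406) (nat_lit 429) (nat_lit 245)) (XT.lf (nat_lit 0) (nat_lit 217339810077) (nat_lit 0) (nat_lit 0) (nat_lit 0) (nat_lit 0) (nat_lit 0) (nat_lit 0) (nat_lit 1) (nat_lit 0) (nat_lit 1) (nat_lit 0) (nat_lit 407) (nat_lit 429) (nat_lit 244)))))) (XT.nd (nat_lit 376) (nat_lit 0) (nat_lit 0) (XT.nd (nat_lit 188) (nat_lit 0) (nat_lit 0) (XT.nd (nat_lit 94) (nat_lit 0) (nat_lit 0) (XT.lf (nat_lit 0) (nat_lit 217339799523) (nat_lit 0) (nat_lit 0) (nat_lit 0) (nat_lit 0) (nat_lit 0) (nat_lit 0) (nat_lit 1) (nat_lit 0) (nat_lit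 1) (nat_lit 0) (nat_lit 408) (nat_lit 429) (nat_lit 243)) (XT.lf (nat_lit 0) (nat_lit 217339789751) (nat_lit 0) (nat_lit 0) (nat_lit 0) (nat_lit 0) (nat_lit 0) (nat_lit 0) (nat_lit 1) (nat_lit 0) (nat_lit 1) (nat_lit 0) (nat_lit 409) (nat_lit 429) (nat_lit 242))) (XT.nd (nat_lit 94) (nat_lit 0) (nat_lit 0) (XT.lf (nat_lit 0) (nat_lit 217339780703) (nat_lit 0) (nat_lit 0) (nat_lit 0) (nat_lit 0) (nat_lit 0) (nat_lit 0) (nat_lit 1) (nat_lit 0) (nat_lit 1) (nat_lit 0) (nat_lit 410) (nat_lit 429) (nat_lit 241)) (XT.lf (nat_lit 0) (nat_lit 217339772325) (nat_lit 0) (nat_lit 0) (nat_lit 0) (nat_lit 0) (nat_lit 0) (nat_lit 0) (nat_lit 1) (nat_lit 0) (nat_lit 1) (nat_lit 0) (nat_lit 411) (nat_lit 429) (nat_lit 240)))) (XT.nd (nat_lit 188) (nat_lit 0) (nat_lit 0) (XT.nd (nat_lit 94) (nat_lit 0) (nat_lit 0) (XT.lf (nat_lit 0) (nat_lit 217339764567) (nat_lit 0) (nat_lit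 0) (nat_lit 0) (nat_lit 0) (nat_lit 0) (nat_lit 0) (nat_lit 1) (nat_lit 0) (nat_lit 1) (nat_lit 0) (nat_lit 412) (nat_lit 429) (nat_lit 239)) (XT.lf (nat_lit 0) (nat_lit 217339757385) (nat_lit 0) (nat_lit 0) (nat_lit 0) (nat_lit 0) (nat_lit 0) (nat_lit 0) (nat_lit 1) (nat_lit 0) (nat_lit 1) (nat_lit 0) (nat_lit 413) (nat_lit 429) (nat_lit 238))) (XT.nd (nat_lit 94) (nat_lit 0) (nat_lit 0) (XT.lf (nat_lit 0) (nat_lit 217339750734) (nat_lit 0) (nat_lit 0) (nat_lit 0) (nat_lit 0) (nat_lit 0) (nat_lit 0) (nat_lit 1) (nat_lit 0) (nat_lit 1) (nat_lit 0) (nat_lit 414) (nat_lit 429) (nat_lit 237)) (XT.nd (nat_lit 94) (nat_lit 0) (nat_lit 0) (XT.lf (nat_lit 0) (nat_lit 217339744576) (nat_lit 0) (nat_lit 0) (nat_lit 0) (nat_lit 0) (nat_lit 0) (nat_lit 0) (nat_lit 1) (nat_lit 0) (nat_lit 1) (nat_lit 0) (nat_lit 415) (nat_lit 429) (nat_lit 236)) (XT.lf (nat_lit 0) (nat_lit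 217339738874) (nat_lit 0) (nat_lit 0) (nat_lit 0) (nat_lit 0) (nat_lit 0) (nat_lit 0) (nat_lit 1) (nat_lit 0) (nat_lit 1) (nat_lit 0) (nat_lit 416) (nat_lit 429) (nat_lit 235))))))) (XT.nd (nat_lit 846) (nat_lit 0) (nat_lit 0) (XT.nd (nat_lit 376) (nat_lit 0) (nat_lit 0) (XT.nd (nat_lit 188) (nat_lit 0) (nat_lit 0) (XT.nd (nat_lit 94) (nat_lit 0) (nat_lit 0) (XT.lf (nat_lit 0) (nat_lit 217339733594) (nat_lit 0) (nat_lit 0) (nat_lit 0) (nat_lit 0) (nat_lit 0) (nat_lit 0) (nat_lit 1) (nat_lit 0) (nat_lit 1) (nat_lit 0) (nat_lit 417) (nat_lit 429) (nat_lit 234)) (XT.lf (nat_lit 0) (nat_lit 217339728706) (nat_lit 0) (nat_lit 0) (nat_lit 0) (nat_lit 0) (nat_lit 0) (nat_lit 0) (nat_lit 1) (nat_lit 0) (nat_lit 1) (nat_lit 0) (nat_lit 418) (nat_lit 429) (nat_lit 233))) (XT.nd (nat_lit 94) (nat_lit 0) (nat_lit 0) (XT.lf (nat_lit 0) (nat_lit 217339724179) (nat_lit 0)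 (nat_lit 0) (nat_lit 0) (nat_lit 0) (nat_lit 0) (nat_lit 0) (nat_lit 1) (nat_lit 0) (nat_lit 1) (nat_lit 0) (nat_lit 419) (nat_lit 429) (nat_lit 232)) (XT.lf (nat_lit 0) (nat_lit 217339719988) (nat_lit 0) (nat_lit 0) (nat_lit 0) (nat_lit 0) (nat_lit 0) (nat_lit 0) (nat_lit 1) (nat_lit 0) (nat_lit 1) (nat_lit 0) (nat_lit 420) (nat_lit 429) (nat_lit 231)))) (XT.nd (nat_lit 188) (nat_lit 0) (nat_lit 0) (XT.nd (nat_lit 94) (nat_lit 0) (nat_lit 0) (XT.lf (nat_lit 0) (nat_lit 217339716108) (nat_lit 0) (nat_lit 0) (nat_lit 0) (nat_lit 0) (nat_lit 0) (nat_lit 0) (nat_lit 1) (nat_lit 0) (nat_lit 1) (nat_lit 0) (nat_lit 421) (nat_lit 429) (nat_lit 230)) (XT.lf (nat_lit 0) (nat_lit 217339712515) (nat_lit 0) (nat_lit 0) (nat_lit 0) (nat_lit 0) (nat_lit 0) (nat_lit 0) (nat_lit 1) (nat_lit 0) (nat_lit 1) (nat_lit 0) (nat_lit 422) (nat_lit 429) (nat_lit 229))) (XT.nd (nat_lit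 94) (nat_lit 0) (nat_lit 0) (XT.lf (nat_lit 0) (nat_lit 217339709188) (nat_lit 0) (nat_lit 0) (nat_lit 0) (nat_lit 0) (nat_lit 0) (nat_lit 0) (nat_lit 1) (nat_lit 0) (nat_lit 1) (nat_lit 0) (nat_lit 423) (nat_lit 429) (nat_lit 228)) (XT.nd (nat_lit 94) (nat_lit 0) (nat_lit 0) (XT.lf (nat_lit 0) (nat_lit 217339706107) (nat_lit 0) (nat_lit 0) (nat_lit 0) (nat_lit 0) (nat_lit 0) (nat_lit 0) (nat_lit 1) (nat_lit 0) (nat_lit 1) (nat_lit 0) (nat_lit 424) (nat_lit 429) (nat_lit 227)) (XT.lf (nat_lit 0) (nat_lit 217339703255) (nat_lit 0) (nat_lit 0) (nat_lit 0) (nat_lit 0) (nat_lit 0) (nat_lit 0) (nat_lit 1) (nat_lit 0) (nat_lit 1) (nat_lit 0) (nat_lit 425) (nat_lit 429) (nat_lit 226)))))) (XT.nd (nat_lit 470) (nat_lit 0) (nat_lit 0) (XT.nd (nat_lit 188) (nat_lit 0) (nat_lit 0) (XT.nd (nat_lit 94) (nat_lit 0) (nat_lit 0) (XT.lf (nat_lit 0) (nat_lit 217339700614) (nat_lit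 0) (nat_lit 0) (nat_lit 0) (nat_lit 0) (nat_lit 0) (nat_lit 0) (nat_lit 1) (nat_lit 0) (nat_lit 1) (nat_lit 0) (nat_lit 426) (nat_lit 429) (nat_lit 225)) (XT.lf (nat_lit 0) (nat_lit 217339698168) (nat_lit 0) (nat_lit 0) (nat_lit 0) (nat_lit 0) (nat_lit 0) (nat_lit 0) (nat_lit 1) (nat_lit 0) (nat_lit 1) (nat_lit 0) (nat_lit 427) (nat_lit 429) (nat_lit 224))) (XT.nd (nat_lit 94) (nat_lit 0) (nat_lit 0) (XT.lf (nat_lit 0) (nat_lit 217339695904) (nat_lit 0) (nat_lit 0) (nat_lit 0) (nat_lit 0) (nat_lit 0) (nat_lit 0) (nat_lit 1) (nat_lit 0) (nat_lit 1) (nat_lit 0) (nat_lit 428) (nat_lit 429) (nat_lit 223)) (XT.nd (nat_lit 94) (nat_lit 0) (nat_lit 0) (XT.lf (nat_lit 0) (nat_lit 217339693807) (nat_lit 0) (nat_lit 0) (nat_lit 0) (nat_lit 0) (nat_lit 0) (nat_lit 0) (nat_lit 1) (nat_lit 0) (nat_lit 1) (nat_lit 0) (nat_lit 429) (nat_lit 429) (nat_lit 222)) (XT.lf (nat_lit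 0) (nat_lit 217339691866) (nat_lit 0) (nat_lit 0) (nat_lit 0) (nat_lit 0) (nat_lit 0) (nat_lit 0) (nat_lit 1) (nat_lit 0) (nat_lit 1) (nat_lit 0) (nat_lit 430) (nat_lit 429) (nat_lit 221))))) (XT.nd (nat_lit 188) (nat_lit 0) (nat_lit 0) (XT.nd (nat_lit 94) (nat_lit 0) (nat_lit 0) (XT.lf (nat_lit 0) (nat_lit 217339690068) (nat_lit 0) (nat_lit 0) (nat_lit 0) (nat_lit 0) (nat_lit 0) (nat_lit 0) (nat_lit 1) (nat_lit 0) (nat_lit 1) (nat_lit 0) (nat_lit 431) (nat_lit 429) (nat_lit 220)) (XT.lf (nat_lit 0) (nat_lit 217339688404) (nat_lit 0) (nat_lit 0) (nat_lit 0) (nat_lit 0) (nat_lit 0) (nat_lit 0) (nat_lit 1) (nat_lit 0) (nat_lit 1) (nat_lit 0) (nat_lit 432) (nat_lit 429) (nat_lit 219))) (XT.nd (nat_lit 94) (nat_lit 0) (nat_lit 0) (XT.lf (nat_lit 0) (nat_lit 217339686863) (nat_lit 0) (nat_lit 0) (nat_lit 0) (nat_lit 0) (nat_lit 0) (nat_lit 0) (nat_lit 1) (nat_lit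 0) (nat_lit 1) (nat_lit 0) (nat_lit 433) (nat_lit 429) (nat_lit 218)) (XT.nd (nat_lit 94) (nat_lit 0) (nat_lit 0) (XT.lf (nat_lit 0) (nat_lit 217339685436) (nat_lit 0) (nat_lit 0) (nat_lit 0) (nat_lit 0) (nat_lit 0) (nat_lit 0) (nat_lit 1) (nat_lit 0) (nat_lit 1) (nat_lit 0) (nat_lit 434) (nat_lit 429) (nat_lit 217)) (XT.lf (nat_lit 0) (nat_lit 217339684115) (nat_lit 0) (nat_lit 0) (nat_lit 0) (nat_lit 0) (nat_lit 0) (nat_lit 0) (nat_lit 1) (nat_lit 0) (nat_lit 1) (nat_lit 0) (nat_lit 435) (nat_lit 429) (nat_lit 216))))))))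
noncomputable def ec303 : XT := (XT.nd (nat_lit 48410) (nat_lit 0) (nat_lit 4200) (XT.nd (nat_lit 47470) (nat_lit 0) (nat_lit 9324) (XT.nd (nat_lit 376) (nat_lit 0) (nat_lit 0) (XT.nd (nat_lit 188) (nat_lit 0) (nat_lit 0) (XT.nd (nat_lit 94) (nat_lit 0) (nat_lit 0) (XT.lf (nat_lit 0) (nat_lit 217339682892) (nat_lit 0) (nat_lit 0) (nat_lit 0) (nat_lit 0) (nat_lit 0) (nat_lit 0) (nat_lit 1) (nat_lit 0) (nat_lit 1) (nat_lit 0) (nat_lit 436) (nat_lit 429) (nat_lit 215)) (XT.lf (nat_lit 0) (nat_lit 217339681759) (nat_lit 0) (nat_lit 0) (nat_lit 0) (nat_lit 0) (nat_lit 0) (nat_lit 0) (nat_lit 1) (nat_lit 0) (nat_lit 1) (nat_lit 0) (nat_lit 437) (nat_lit 429) (nat_lit 214))) (XT.nd (nat_lit 94) (nat_lit 0) (nat_lit 0) (XT.lf (nat_lit 0) (nat_lit 217339680710) (nat_lit 0) (nat_lit 0) (nat_lit 0) (nat_lit 0) (nat_lit 0) (nat_lit 0) (nat_lit 1) (nat_lit 0) (nat_lit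 1) (nat_lit 0) (nat_lit 438) (nat_lit 429) (nat_lit 213)) (XT.lf (nat_lit 0) (nat_lit 217339679739) (nat_lit 0) (nat_lit 0) (nat_lit 0) (nat_lit 0) (nat_lit 0) (nat_lit 0) (nat_lit 1) (nat_lit 0) (nat_lit 1) (nat_lit 0) (nat_lit 439) (nat_lit 429) (nat_lit 212)))) (XT.nd (nat_lit 188) (nat_lit 0) (nat_lit 0) (XT.nd (nat_lit 94) (nat_lit 0) (nat_lit 0) (XT.lf (nat_lit 0) (nat_lit 217339678840) (nat_lit 0) (nat_lit 0) (nat_lit 0) (nat_lit 0) (nat_lit 0) (nat_lit 0) (nat_lit 1) (nat_lit 0) (nat_lit 1) (nat_lit 0) (nat_lit 440) (nat_lit 429) (nat_lit 211)) (XT.lf (nat_lit 0) (nat_lit 217339678007) (nat_lit 0) (nat_lit 0) (nat_lit 0) (nat_lit 0) (nat_lit 0) (nat_lit 0) (nat_lit 1) (nat_lit 0) (nat_lit 1) (nat_lit 0) (nat_lit 441) (nat_lit 429) (nat_lit 210))) (XT.nd (nat_lit 94) (nat_lit 0) (nat_lit 0) (XT.lf (nat_lit 0) (nat_lit 217339677236) (nat_lit 0) (nat_lit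 0) (nat_lit 0) (nat_lit 0) (nat_lit 0) (nat_lit 0) (nat_lit 1) (nat_lit 0) (nat_lit 1) (nat_lit 0) (nat_lit 442) (nat_lit 429) (nat_lit 209)) (XT.nd (nat_lit 94) (nat_lit 0) (nat_lit 0) (XT.lf (nat_lit 0) (nat_lit 217339676523) (nat_lit 0) (nat_lit 0) (nat_lit 0) (nat_lit 0) (nat_lit 0) (nat_lit 0) (nat_lit 1) (nat_lit 0) (nat_lit 1) (nat_lit 0) (nat_lit 443) (nat_lit 429) (nat_lit 208)) (XT.lf (nat_lit 0) (nat_lit 217339675862) (nat_lit 0) (nat_lit 0) (nat_lit 0) (nat_lit 0) (nat_lit 0) (nat_lit 0) (nat_lit 1) (nat_lit 0) (nat_lit 1) (nat_lit 0) (nat_lit 444) (nat_lit 429) (nat_lit 207)))))) (XT.nd (nat_lit 470) (nat_lit 1428) (nat_lit 0) (XT.nd (nat_lit 188) (nat_lit 0) (nat_lit 84) (XT.nd (nat_lit 94) (nat_lit 0) (nat_lit 84) (XT.lf (nat_lit 924) (nat_lit 117466103544) (nat_lit 0) (nat_lit 208560796837) (nat_lit 924) (nat_lit 117466103544) (nat_lit 139)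 (nat_lit 1) (nat_lit 128) (nat_lit 0) (nat_lit 139) (nat_lit 0) (nat_lit 220) (nat_lit 430) (nat_lit 430)) (XT.lf (nat_lit 924) (nat_lit 43818460968) (nat_lit 0) (nat_lit 409468054020) (nat_lit 840) (nat_lit 400458388828) (nat_lit 140) (nat_lit 1) (nat_lit 129) (nat_lit 1) (nat_lit 139) (nat_lit 1) (nat_lit 221) (nat_lit 430) (nat_lit 429))) (XT.nd (nat_lit 94) (nat_lit 0) (nat_lit 84) (XT.lf (nat_lit 924) (nat_lit 402447271611) (nat_lit 84) (nat_lit 274220893799) (nat_lit 0) (nat_lit 145434253183) (nat_lit 140) (nat_lit 1) (nat_lit 130) (nat_lit 1) (nat_lit 129) (nat_lit 1) (nat_lit 222) (nat_lit 430) (nat_lit 428)) (XT.nd (nat_lit 94) (nat_lit 0) (nat_lit 84) (XT.lf (nat_lit 924) (nat_lit 347747411627) (nat_lit 84) (nat_lit 114924075872) (nat_lit 0) (nat_lit 329371916092) (nat_lit 141) (nat_lit 1) (nat_lit 131) (nat_lit 1) (nat_lit 130) (nat_lit 1) (nat_lit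 223) (nat_lit 430) (nat_lit 427)) (XT.lf (nat_lit 924) (nat_lit 257362649062) (nat_lit 0) (nat_lit 481513351390) (nat_lit 840) (nat_lit 24614893728) (nat_lit 142) (nat_lit 1) (nat_lit 131) (nat_lit 1) (nat_lit 141) (nat_lit 1) (nat_lit 224) (nat_lit 430) (nat_lit 426))))) (XT.nd (nat_lit 188) (nat_lit 1764) (nat_lit 0) (XT.nd (nat_lit 94) (nat_lit 0) (nat_lit 0) (XT.lf (nat_lit 924) (nat_lit 61751644271) (nat_lit 0) (nat_lit 531002239505) (nat_lit 840) (nat_lit 143548083186) (nat_lit 143) (nat_lit 1) (nat_lit 132) (nat_lit 1) (nat_lit 142) (nat_lit 1) (nat_lit 225) (nat_lit 430) (nat_lit 425)) (XT.lf (nat_lit 924) (nat_lit 118661543770) (nat_lit 84) (nat_lit 461484187498) (nat_lit 0) (nat_lit 130236531345) (nat_lit 143) (nat_lit 1) (nat_lit 133) (nat_lit 1) (nat_lit 132) (nat_lit 1) (nat_lit 226) (nat_lit 430) (nat_lit 424))) (XT.nd (nat_lit 94) (nat_lit 1008)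 (nat_lit 0) (XT.lf (nat_lit 924) (nat_lit 24370375244) (nat_lit 0) (nat_lit 344989956160) (nat_lit 840) (nat_lit 316352175050) (nat_lit 134) (nat_lit 1) (nat_lit 123) (nat_lit 1) (nat_lit 133) (nat_lit 1) (nat_lit 227) (nat_lit 430) (nat_lit 423)) (XT.nd (nat_lit 94) (nat_lit 420) (nat_lit 0) (XT.lf (nat_lit 84) (nat_lit 168745554741) (nat_lit 0) (nat_lit 73125301651) (nat_lit 588) (nat_lit 420339983037) (nat_lit 117) (nat_lit 1) (nat_lit 116) (nat_lit 1) (nat_lit 123) (nat_lit 1) (nat_lit 228) (nat_lit 430) (nat_lit 422)) (XT.lf (nat_lit 504) (nat_lit 465041509402) (nat_lit 0) (nat_lit 151381036796) (nat_lit 420) (nat_lit 23404443658) (nat_lit 117) (nat_lit 1) (nat_lit 111) (nat_lit 1) (nat_lit 116) (nat_lit 1) (nat_lit 229) (nat_lit 430) (nat_lit 421))))))) (XT.nd (nat_lit 846) (nat_lit 2352) (nat_lit 0) (XT.nd (nat_lit 376) (nat_lit 1596) (nat_lit 0) (XT.nd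 (nat_lit 188) (nat_lit 420) (nat_lit 0) (XT.nd (nat_lit 94) (nat_lit 336) (nat_lit 0) (XT.lf (nat_lit 504) (nat_lit 335578381646) (nat_lit 0) (nat_lit 70559353346) (nat_lit 420) (nat_lit 212267870798) (nat_lit 112) (nat_lit 1) (nat_lit 106) (nat_lit 1) (nat_lit 111) (nat_lit 1) (nat_lit 230) (nat_lit 430) (nat_lit 420)) (XT.lf (nat_lit 420) (nat_lit 204195165285) (nat_lit 0) (nat_lit 1299112360) (nat_lit 336) (nat_lit 392528620414) (nat_lit 107) (nat_lit 1) (nat_lit 102) (nat_lit 1) (nat_lit 106) (nat_lit 1) (nat_lit 231) (nat_lit 430) (nat_lit 419))) (XT.nd (nat_lit 94) (nat_lit 420) (nat_lit 0) (XT.lf (nat_lit 84) (nat_lit 15064554271) (nat_lit 0) (nat_lit 508049766572) (nat_lit 420) (nat_lit 55463510436) (nat_lit 103) (nat_lit 1) (nat_lit 102) (nat_lit 1) (nat_lit 107) (nat_lit 1) (nat_lit 232) (nat_lit 430) (nat_lit 418)) (XT.lf (nat_lit 84) (nat_lit 388970698568)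 (nat_lit 0) (nat_lit 64514952318) (nat_lit 420) (nat_lit 106396873177) (nat_lit 98) (nat_lit 1) (nat_lit 97) (nat_lit 1) (nat_lit 102) (nat_lit 1) (nat_lit 233) (nat_lit 430) (nat_lit 417)))) (XT.nd (nat_lit 188) (nat_lit 924) (nat_lit 0) (XT.nd (nat_lit 94) (nat_lit 336) (nat_lit 0) (XT.lf (nat_lit 84) (nat_lit 194611897263) (nat_lit 0) (nat_lit 197620751403) (nat_lit 420) (nat_lit 149780622177) (nat_lit 94) (nat_lit 1) (nat_lit 93) (nat_lit 1) (nat_lit 98) (nat_lit 1) (nat_lit 234) (nat_lit 430) (nat_lit 416)) (XT.lf (nat_lit 84) (nat_lit 9605611704) (nat_lit 0) (nat_lit 330418827732) (nat_lit 420) (nat_lit 184965628271) (nat_lit 90) (nat_lit 1) (nat_lit 89) (nat_lit 1) (nat_lit 94) (nat_lit 1) (nat_lit 235) (nat_lit 430) (nat_lit 415))) (XT.nd (nat_lit 94) (nat_lit 672) (nat_lit 0) (XT.lf (nat_lit 336) (nat_lit 43378401088) (nat_lit 0) (nat_lit 293347362648)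 (nat_lit 252) (nat_lit 171908296369) (nat_lit 90) (nat_lit 1) (nat_lit 86) (nat_lit 1) (nat_lit 89) (nat_lit 1) (nat_lit 236) (nat_lit 430) (nat_lit 414)) (XT.nd (nat_lit 94) (nat_lit 252) (nat_lit 0) (XT.lf (nat_lit 84) (nat_lit 149884038465) (nat_lit 0) (nat_lit 102731451302) (nat_lit 420) (nat_lit 240338259064) (nat_lit 82) (nat_lit 1) (nat_lit 81) (nat_lit 1) (nat_lit 86) (nat_lit 1) (nat_lit 237) (nat_lit 430) (nat_lit 413)) (XT.lf (nat_lit 336) (nat_lit 232056543330) (nat_lit 0) (nat_lit 217987129856) (nat_lit 252) (nat_lit 27902093908) (nat_lit 82) (nat_lit 1) (nat_lit 78) (nat_lit 1) (nat_lit 81) (nat_lit 1) (nat_lit 238) (nat_lit 430) (nat_lit 412)))))) (XT.nd (nat_lit 470) (nat_lit 1008) (nat_lit 0) (XT.nd (nat_lit 188) (nat_lit 756) (nat_lit 0) (XT.nd (nat_lit 94) (nat_lit 336) (nat_lit 0) (XT.lf (nat_lit 336) (nat_lit 74373001057) (nat_lit 0) (nat_lit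 187677992321) (nat_lit 252) (nat_lit 201463552909) (nat_lit 79) (nat_lit 1) (nat_lit 75) (nat_lit 1) (nat_lit 78) (nat_lit 1) (nat_lit 239) (nat_lit 430) (nat_lit 411)) (XT.lf (nat_lit 84) (nat_lit 84767250293) (nat_lit 0) (nat_lit 77611784081) (nat_lit 336) (nat_lit 287303646880) (nat_lit 72) (nat_lit 1) (nat_lit 71) (nat_lit 1) (nat_lit 75) (nat_lit 1) (nat_lit 240) (nat_lit 430) (nat_lit 410))) (XT.nd (nat_lit 94) (nat_lit 504) (nat_lit 0) (XT.lf (nat_lit 336) (nat_lit 210932176680) (nat_lit 0) (nat_lit 140346453821) (nat_lit 252) (nat_lit 85078481742) (nat_lit 72) (nat_lit 1) (nat_lit 68) (nat_lit 1) (nat_lit 71) (nat_lit 1) (nat_lit 241) (nat_lit 430) (nat_lit 409)) (XT.nd (nat_lit 94) (nat_lit 336) (nat_lit 0) (XT.lf (nat_lit 252) (nat_lit 52290398054) (nat_lit 0) (nat_lit 122442044060) (nat_lit 168) (nat_lit 248836691749) (nat_lit 69) (nat_lit 1) (nat_lit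 66) (nat_lit 1) (nat_lit 68) (nat_lit 1) (nat_lit 242) (nat_lit 430) (nat_lit 408)) (XT.lf (nat_lit 84) (nat_lit 8858327502) (nat_lit 0) (nat_lit 99126607795) (nat_lit 336) (nat_lit 303291915918) (nat_lit 63) (nat_lit 1) (nat_lit 62) (nat_lit 1) (nat_lit 66) (nat_lit 1) (nat_lit 243) (nat_lit 430) (nat_lit 407))))) (XT.nd (nat_lit 188) (nat_lit 588) (nat_lit 0) (XT.nd (nat_lit 94) (nat_lit 252) (nat_lit 0) (XT.lf (nat_lit 252) (nat_lit 151946302134) (nat_lit 0) (nat_lit 94953403385) (nat_lit 168) (nat_lit 152475076795) (nat_lit 63) (nat_lit 1) (nat_lit 60) (nat_lit 1) (nat_lit 62) (nat_lit 1) (nat_lit 244) (nat_lit 430) (nat_lit 406)) (XT.lf (nat_lit 84) (nat_lit 82439713663) (nat_lit 0) (nat_lit 3807942059) (nat_lit 252) (nat_lit 301744422966) (nat_lit 58) (nat_lit 1) (nat_lit 57) (nat_lit 1) (nat_lit 60) (nat_lit 1) (nat_lit 245) (nat_lit 430) (nat_lit 405)))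 (XT.nd (nat_lit 94) (nat_lit 420) (nat_lit 0) (XT.lf (nat_lit 252) (nat_lit 225374257667) (nat_lit 0) (nat_lit 78097233596) (nat_lit 168) (nat_lit 73468998545) (nat_lit 58) (nat_lit 1) (nat_lit 55) (nat_lit 1) (nat_lit 57) (nat_lit 1) (nat_lit 246) (nat_lit 430) (nat_lit 404)) (XT.nd (nat_lit 94) (nat_lit 252) (nat_lit 0) (XT.lf (nat_lit 252) (nat_lit 70010275808) (nat_lit 0) (nat_lit 72600014751) (nat_lit 168) (nat_lit 223701160980) (nat_lit 56) (nat_lit 1) (nat_lit 53) (nat_lit 1) (nat_lit 55) (nat_lit 1) (nat_lit 247) (nat_lit 430) (nat_lit 403)) (XT.lf (nat_lit 252) (nat_lit 277915065459) (nat_lit 0) (nat_lit 69363421510) (nat_lit 168) (nat_lit 8799554750) (nat_lit 53) (nat_lit 1) (nat_lit 50) (nat_lit 1) (nat_lit 52) (nat_lit 1) (nat_lit 248) (nat_lit 430) (nat_lit 402))))))))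
noncomputable def ec304 : XT := (XT.nd (nat_lit 1692) (nat_lit 1512) (nat_lit 0) (XT.nd (nat_lit 846) (nat_lit 1176) (nat_lit 0) (XT.nd (nat_lit 376) (nat_lit 924) (nat_lit 0) (XT.nd (nat_lit 188) (nat_lit 252) (nat_lit 0) (XT.nd (nat_lit 94) (nat_lit 168) (nat_lit 0) (XT.lf (nat_lit 252) (nat_lit 124381903025) (nat_lit 0) (nat_lit 66218681891) (nat_lit 168) (nat_lit 155528401140) (nat_lit 51) (nat_lit 1) (nat_lit 48) (nat_lit 1) (nat_lit 50) (nat_lit 1) (nat_lit 249) (nat_lit 430) (nat_lit 401)) (XT.lf (nat_lit 84) (nat_lit 42605604037) (nat_lit 0) (nat_lit 23417959844) (nat_lit 168) (nat_lit 270569027634) (nat_lit 47) (nat_lit 1) (nat_lit 46) (nat_lit 1) (nat_lit 48) (nat_lit 1) (nat_lit 250) (nat_lit 430) (nat_lit 400))) (XT.nd (nat_lit 94) (nat_lit 84) (nat_lit 0) (XT.lf (nat_lit 252) (nat_lit 163196210060) (nat_lit 0) (nat_lit 65324447832) (nat_lit 168)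 (nat_lit 98776180930) (nat_lit 47) (nat_lit 1) (nat_lit 44) (nat_lit 1) (nat_lit 46) (nat_lit 1) (nat_lit 251) (nat_lit 430) (nat_lit 399)) (XT.lf (nat_lit 168) (nat_lit 17573912834) (nat_lit 0) (nat_lit 66928900687) (nat_lit 84) (nat_lit 233865256960) (nat_lit 45) (nat_lit 1) (nat_lit 43) (nat_lit 1) (nat_lit 44) (nat_lit 1) (nat_lit 252) (nat_lit 430) (nat_lit 398)))) (XT.nd (nat_lit 188) (nat_lit 588) (nat_lit 0) (XT.nd (nat_lit 94) (nat_lit 84) (nat_lit 0) (XT.lf (nat_lit 252) (nat_lit 189703900842) (nat_lit 0) (nat_lit 68450405197) (nat_lit 168) (nat_lit 51531189818) (nat_lit 43) (nat_lit 1) (nat_lit 40) (nat_lit 1) (nat_lit 42) (nat_lit 1) (nat_lit 253) (nat_lit 430) (nat_lit 397)) (XT.lf (nat_lit 168) (nat_lit 47711929934) (nat_lit 0) (nat_lit 71009834823) (nat_lit 84) (nat_lit 182573776680) (nat_lit 41) (nat_lit 1) (nat_lit 39) (nat_lit 1) (nat_lit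 40) (nat_lit 1) (nat_lit 254) (nat_lit 430) (nat_lit 396))) (XT.nd (nat_lit 94) (nat_lit 336) (nat_lit 0) (XT.lf (nat_lit 252) (nat_lit 206533211021) (nat_lit 0) (nat_lit 74434660165) (nat_lit 168) (nat_lit 12215364929) (nat_lit 39) (nat_lit 1) (nat_lit 36) (nat_lit 1) (nat_lit 38) (nat_lit 1) (nat_lit 255) (nat_lit 430) (nat_lit 395)) (XT.nd (nat_lit 94) (nat_lit 252) (nat_lit 0) (XT.lf (nat_lit 168) (nat_lit 68664012869) (nat_lit 0) (nat_lit 77599027646) (nat_lit 84) (nat_lit 139025359530) (nat_lit 37) (nat_lit 1) (nat_lit 35) (nat_lit 1) (nat_lit 36) (nat_lit 1) (nat_lit 256) (nat_lit 430) (nat_lit 394)) (XT.lf (nat_lit 84) (nat_lit 19819166689) (nat_lit 0) (nat_lit 62207081217) (nat_lit 252) (nat_lit 195650938589) (nat_lit 33) (nat_lit 1) (nat_lit 32) (nat_lit 1) (nat_lit 35) (nat_lit 1) (nat_lit 257) (nat_lit 430) (nat_lit 393)))))) (XT.nd (nat_lit 376)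 (nat_lit 588) (nat_lit 0) (XT.nd (nat_lit 188) (nat_lit 252) (nat_lit 0) (XT.nd (nat_lit 94) (nat_lit 252) (nat_lit 0) (XT.lf (nat_lit 168) (nat_lit 82403010499) (nat_lit 0) (nat_lit 85860031126) (nat_lit 84) (nat_lit 101991951123) (nat_lit 33) (nat_lit 1) (nat_lit 31) (nat_lit 1) (nat_lit 32) (nat_lit 1) (nat_lit 258) (nat_lit 430) (nat_lit 392)) (XT.lf (nat_lit 84) (nat_lit 46092002046) (nat_lit 0) (nat_lit 44643220714) (nat_lit 252) (nat_lit 172358410309) (nat_lit 29) (nat_lit 1) (nat_lit 28) (nat_lit 1) (nat_lit 31) (nat_lit 1) (nat_lit 259) (nat_lit 430) (nat_lit 391))) (XT.nd (nat_lit 94) (nat_lit 168) (nat_lit 0) (XT.lf (nat_lit 168) (nat_lit 90519891931) (nat_lit 0) (nat_lit 95139903163) (nat_lit 84) (nat_lit 70455448323) (nat_lit 29) (nat_lit 1) (nat_lit 27) (nat_lit 1) (nat_lit 28) (nat_lit 1) (nat_lit 260) (nat_lit 430) (nat_lit 390)) (XT.lf (nat_lit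 84) (nat_lit 67858085330) (nat_lit 0) (nat_lit 32333163484) (nat_lit 168) (nat_lit 149176068987) (nat_lit 26) (nat_lit 1) (nat_lit 25) (nat_lit 1) (nat_lit 27) (nat_lit 1) (nat_lit 261) (nat_lit 430) (nat_lit 389)))) (XT.nd (nat_lit 188) (nat_lit 336) (nat_lit 0) (XT.nd (nat_lit 94) (nat_lit 168) (nat_lit 0) (XT.lf (nat_lit 168) (nat_lit 94295103388) (nat_lit 0) (nat_lit 104933443086) (nat_lit 84) (nat_lit 43570248269) (nat_lit 26) (nat_lit 1) (nat_lit 24) (nat_lit 1) (nat_lit 25) (nat_lit 1) (nat_lit 262) (nat_lit 430) (nat_lit 388)) (XT.lf (nat_lit 84) (nat_lit 85834168615) (nat_lit 0) (nat_lit 24120961560) (nat_lit 168) (nat_lit 126477182411) (nat_lit 23) (nat_lit 1) (nat_lit 22) (nat_lit 1) (nat_lit 24) (nat_lit 1) (nat_lit 263) (nat_lit 430) (nat_lit 387))) (XT.nd (nat_lit 94) (nat_lit 252) (nat_lit 0) (XT.lf (nat_lit 168) (nat_lit 94756752121) (nat_lit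 0) (nat_lit 114854125527) (nat_lit 84) (nat_lit 20632599486) (nat_lit 23) (nat_lit 1) (nat_lit 21) (nat_lit 1) (nat_lit 22) (nat_lit 1) (nat_lit 264) (nat_lit 430) (nat_lit 386)) (XT.nd (nat_lit 94) (nat_lit 84) (nat_lit 0) (XT.lf (nat_lit 84) (nat_lit 100615952851) (nat_lit 0) (nat_lit 19077125314) (nat_lit 168) (nat_lit 104537096589) (nat_lit 20) (nat_lit 1) (nat_lit 19) (nat_lit 1) (nat_lit 21) (nat_lit 1) (nat_lit 265) (nat_lit 430) (nat_lit 385)) (XT.lf (nat_lit 168) (nat_lit 92728039262) (nat_lit 0) (nat_lit 124610495113) (nat_lit 84) (nat_lit 1055511303) (nat_lit 20) (nat_lit 1) (nat_lit 18) (nat_lit 1) (nat_lit 19) (nat_lit 1) (nat_lit 266) (nat_lit 430) (nat_lit 384))))))) (XT.nd (nat_lit 846) (nat_lit 336) (nat_lit 0) (XT.nd (nat_lit 376) (nat_lit 672) (nat_lit 0) (XT.nd (nat_lit 188) (nat_lit 252) (nat_lit 0) (XT.nd (nat_lit 94) (nat_lit 84) (nat_lit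 0) (XT.lf (nat_lit 84) (nat_lit 112699515100) (nat_lit 0) (nat_lit 16456101857) (nat_lit 168) (nat_lit 83553190523) (nat_lit 17) (nat_lit 1) (nat_lit 16) (nat_lit 1) (nat_lit 18) (nat_lit 1) (nat_lit 267) (nat_lit 430) (nat_lit 383)) (XT.lf (nat_lit 0) (nat_lit 15150839030) (nat_lit 0) (nat_lit 118579586235) (nat_lit 168) (nat_lit 73458493007) (nat_lit 15) (nat_lit 3) (nat_lit 15) (nat_lit 1) (nat_lit 17) (nat_lit 1) (nat_lit 268) (nat_lit 430) (nat_lit 382))) (XT.nd (nat_lit 94) (nat_lit 84) (nat_lit 0) (XT.lf (nat_lit 84) (nat_lit 122498857133) (nat_lit 0) (nat_lit 15661617416) (nat_lit 168) (nat_lit 63661042818) (nat_lit 14) (nat_lit 1) (nat_lit 13) (nat_lit 1) (nat_lit 15) (nat_lit 1) (nat_lit 269) (nat_lit 430) (nat_lit 381)) (XT.lf (nat_lit 0) (nat_lit 28943707664) (nat_lit 0) (nat_lit 113394641106) (nat_lit 168) (nat_lit 54258713678) (nat_lit 12) (nat_lit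 3) (nat_lit 12) (nat_lit 1) (nat_lit 14) (nat_lit 1) (nat_lit 270) (nat_lit 430) (nat_lit 380)))) (XT.nd (nat_lit 188) (nat_lit 420) (nat_lit 0) (XT.nd (nat_lit 94) (nat_lit 84) (nat_lit 0) (XT.lf (nat_lit 84) (nat_lit 130360283709) (nat_lit 0) (nat_lit 16218436956) (nat_lit 168) (nat_lit 44947512982) (nat_lit 11) (nat_lit 1) (nat_lit 10) (nat_lit 1) (nat_lit 12) (nat_lit 1) (nat_lit 271) (nat_lit 430) (nat_lit 379)) (XT.lf (nat_lit 0) (nat_lit 40691631861) (nat_lit 0) (nat_lit 109646930576) (nat_lit 168) (nat_lit 36240425334) (nat_lit 9) (nat_lit 3) (nat_lit 9) (nat_lit 1) (nat_lit 11) (nat_lit 1) (nat_lit 272) (nat_lit 430) (nat_lit 378))) (XT.nd (nat_lit 94) (nat_lit 252) (nat_lit 0) (XT.lf (nat_lit 84) (nat_lit 136574189075) (nat_lit 0) (nat_lit 17749359975) (nat_lit 168) (nat_lit 27461310860) (nat_lit 8) (nat_lit 1) (nat_lit 7) (nat_lit 1) (nat_lit 9)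 (nat_lit 1) (nat_lit 273) (nat_lit 430) (nat_lit 377)) (XT.nd (nat_lit 94) (nat_lit 168) (nat_lit 0) (XT.lf (nat_lit 0) (nat_lit 50676843358) (nat_lit 0) (nat_lit 106979752361) (nat_lit 168) (nat_lit 19441532936) (nat_lit 6) (nat_lit 3) (nat_lit 6) (nat_lit 1) (nat_lit 8) (nat_lit 1) (nat_lit 274) (nat_lit 430) (nat_lit 376)) (XT.lf (nat_lit 84) (nat_lit 141384724248) (nat_lit 0) (nat_lit 19956488370) (nat_lit 168) (nat_lit 11221521992) (nat_lit 5) (nat_lit 1) (nat_lit 4) (nat_lit 1) (nat_lit 6) (nat_lit 1) (nat_lit 275) (nat_lit 430) (nat_lit 375)))))) (XT.nd (nat_lit 470) (nat_lit 0) (nat_lit 0) (XT.nd (nat_lit 188) (nat_lit 0) (nat_lit 0) (XT.nd (nat_lit 94) (nat_lit 252) (nat_lit 0) (XT.lf (nat_lit 0) (nat_lit 59138042893) (nat_lit 0) (nat_lit 105110109164) (nat_lit 168) (nat_lit 3873013248) (nat_lit 3) (nat_lit 3) (nat_lit 3) (nat_lit 1) (nat_lit 5) (nat_lit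 1) (nat_lit 276) (nat_lit 430) (nat_lit 374)) (XT.lf (nat_lit 0) (nat_lit 237647014748) (nat_lit 0) (nat_lit 0) (nat_lit 0) (nat_lit 0) (nat_lit 0) (nat_lit 0) (nat_lit 1) (nat_lit 0) (nat_lit 1) (nat_lit 0) (nat_lit 277) (nat_lit 430) (nat_lit 373))) (XT.nd (nat_lit 94) (nat_lit 0) (nat_lit 0) (XT.lf (nat_lit 0) (nat_lit 237430705582) (nat_lit 0) (nat_lit 0) (nat_lit 0) (nat_lit 0) (nat_lit 0) (nat_lit 0) (nat_lit 1) (nat_lit 0) (nat_lit 1) (nat_lit 0) (nat_lit 278) (nat_lit 430) (nat_lit 372)) (XT.nd (nat_lit 94) (nat_lit 0) (nat_lit 0) (XT.lf (nat_lit 0) (nat_lit 237230419318) (nat_lit 0) (nat_lit 0) (nat_lit 0) (nat_lit 0) (nat_lit 0) (nat_lit 0) (nat_lit 1) (nat_lit 0) (nat_lit 1) (nat_lit 0) (nat_lit 279) (nat_lit 430) (nat_lit 371)) (XT.lf (nat_lit 0) (nat_lit 237044969072) (nat_lit 0) (nat_lit 0) (nat_lit 0) (nat_lit 0) (nat_lit 0) (nat_lit 0) (nat_lit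 1) (nat_lit 0) (nat_lit 1) (nat_lit 0) (nat_lit 280) (nat_lit 430) (nat_lit 370))))) (XT.nd (nat_lit 188) (nat_lit 0) (nat_lit 0) (XT.nd (nat_lit 94) (nat_lit 0) (nat_lit 0) (XT.lf (nat_lit 0) (nat_lit 236873255882) (nat_lit 0) (nat_lit 0) (nat_lit 0) (nat_lit 0) (nat_lit 0) (nat_lit 0) (nat_lit 1) (nat_lit 0) (nat_lit 1) (nat_lit 0) (nat_lit 281) (nat_lit 430) (nat_lit 369)) (XT.lf (nat_lit 0) (nat_lit 236714262188) (nat_lit 0) (nat_lit 0) (nat_lit 0) (nat_lit 0) (nat_lit 0) (nat_lit 0) (nat_lit 1) (nat_lit 0) (nat_lit 1) (nat_lit 0) (nat_lit 282) (nat_lit 430) (nat_lit 368))) (XT.nd (nat_lit 94) (nat_lit 0) (nat_lit 0) (XT.lf (nat_lit 0) (nat_lit 236567045804) (nat_lit 0) (nat_lit 0) (nat_lit 0) (nat_lit 0) (nat_lit 0) (nat_lit 0) (nat_lit 1) (nat_lit 0) (nat_lit 1) (nat_lit 0) (nat_lit 283) (nat_lit 430) (nat_lit 367)) (XT.nd (nat_lit 94) (nat_lit 0) (nat_lit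 0) (XT.lf (nat_lit 0) (nat_lit 236430734338) (nat_lit 0) (nat_lit 0) (nat_lit 0) (nat_lit 0) (nat_lit 0) (nat_lit 0) (nat_lit 1) (nat_lit 0) (nat_lit 1) (nat_lit 0) (nat_lit 284) (nat_lit 430) (nat_lit 366)) (XT.lf (nat_lit 0) (nat_lit 236304520017) (nat_lit 0) (nat_lit 0) (nat_lit 0) (nat_lit 0) (nat_lit 0) (nat_lit 0) (nat_lit 1) (nat_lit 0) (nat_lit 1) (nat_lit 0) (nat_lit 285) (nat_lit 430) (nat_lit 365))))))))
noncomputable def ec305 : XT := (XT.nd (nat_lit 1786) (nat_lit 0) (nat_lit 0) (XT.nd (nat_lit 846) (nat_lit 0) (nat_lit 0) (XT.nd (nat_lit 376) (nat_lit 0) (nat_lit 0) (XT.nd (nat_lit 188) (nat_lit 0) (nat_lit 0) (XT.nd (nat_lit 94) (nat_lit 0) (nat_lit 0) (XT.lf (nat_lit 0) (nat_lit 236187654905) (nat_lit 0) (nat_lit 0) (nat_lit 0) (nat_lit 0) (nat_lit 0) (nat_lit 0) (nat_lit 1) (nat_lit 0) (nat_lit 1) (nat_lit 0) (nat_lit 286) (nat_lit 430) (nat_lit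 364)) (XT.lf (nat_lit 0) (nat_lit 236079446469) (nat_lit 0) (nat_lit 0) (nat_lit 0) (nat_lit 0) (nat_lit 0) (nat_lit 0) (nat_lit 1) (nat_lit 0) (nat_lit 1) (nat_lit 0) (nat_lit 287) (nat_lit 430) (nat_lit 363))) (XT.nd (nat_lit 94) (nat_lit 0) (nat_lit 0) (XT.lf (nat_lit 0) (nat_lit 235979253472) (nat_lit 0) (nat_lit 0) (nat_lit 0) (nat_lit 0) (nat_lit 0) (nat_lit 0) (nat_lit 1) (nat_lit 0) (nat_lit 1) (nat_lit 0) (nat_lit 288) (nat_lit 430) (nat_lit 362)) (XT.lf (nat_lit 0) (nat_lit 235886482178) (nat_lit 0) (nat_lit 0) (nat_lit 0) (nat_lit 0) (nat_lit 0) (nat_lit 0) (nat_lit 1) (nat_lit 0) (nat_lit 1) (nat_lit 0) (nat_lit 289) (nat_lit 430) (nat_lit 361)))) (XT.nd (nat_lit 188) (nat_lit 0) (nat_lit 0) (XT.nd (nat_lit 94) (nat_lit 0) (nat_lit 0) (XT.lf (nat_lit 0) (nat_lit 235800582832) (nat_lit 0) (nat_lit 0) (nat_lit 0) (nat_lit 0) (nat_lit 0) (nat_lit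 0) (nat_lit 1) (nat_lit 0) (nat_lit 1) (nat_lit 0) (nat_lit 290) (nat_lit 430) (nat_lit 360)) (XT.lf (nat_lit 0) (nat_lit 235721046401) (nat_lit 0) (nat_lit 0) (nat_lit 0) (nat_lit 0) (nat_lit 0) (nat_lit 0) (nat_lit 1) (nat_lit 0) (nat_lit 1) (nat_lit 0) (nat_lit 291) (nat_lit 430) (nat_lit 359))) (XT.nd (nat_lit 94) (nat_lit 0) (nat_lit 0) (XT.lf (nat_lit 0) (nat_lit 235647401557) (nat_lit 0) (nat_lit 0) (nat_lit 0) (nat_lit 0) (nat_lit 0) (nat_lit 0) (nat_lit 1) (nat_lit 0) (nat_lit 1) (nat_lit 0) (nat_lit 292) (nat_lit 430) (nat_lit 358)) (XT.nd (nat_lit 94) (nat_lit 0) (nat_lit 0) (XT.lf (nat_lit 0) (nat_lit 235579211886) (nat_lit 0) (nat_lit 0) (nat_lit 0) (nat_lit 0) (nat_lit 0) (nat_lit 0) (nat_lit 1) (nat_lit 0) (nat_lit 1) (nat_lit 0) (nat_lit 293) (nat_lit 430) (nat_lit 357)) (XT.lf (nat_lit 0) (nat_lit 235516073303) (nat_lit 0) (nat_lit 0) (nat_lit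 0) (nat_lit 0) (nat_lit 0) (nat_lit 0) (nat_lit 1) (nat_lit 0) (nat_lit 1) (nat_lit 0) (nat_lit 294) (nat_lit 430) (nat_lit 356)))))) (XT.nd (nat_lit 470) (nat_lit 0) (nat_lit 0) (XT.nd (nat_lit 188) (nat_lit 0) (nat_lit 0) (XT.nd (nat_lit 94) (nat_lit 0) (nat_lit 0) (XT.lf (nat_lit 0) (nat_lit 235457611651) (nat_lit 0) (nat_lit 0) (nat_lit 0) (nat_lit 0) (nat_lit 0) (nat_lit 0) (nat_lit 1) (nat_lit 0) (nat_lit 1) (nat_lit 0) (nat_lit 295) (nat_lit 430) (nat_lit 355)) (XT.lf (nat_lit 0) (nat_lit 235403480493) (nat_lit 0) (nat_lit 0) (nat_lit 0) (nat_lit 0) (nat_lit 0) (nat_lit 0) (nat_lit 1) (nat_lit 0) (nat_lit 1) (nat_lit 0) (nat_lit 296) (nat_lit 430) (nat_lit 354))) (XT.nd (nat_lit 94) (nat_lit 0) (nat_lit 0) (XT.lf (nat_lit 0) (nat_lit 235353359049) (nat_lit 0) (nat_lit 0) (nat_lit 0) (nat_lit 0) (nat_lit 0) (nat_lit 0) (nat_lit 1) (nat_lit 0) (nat_lit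 1) (nat_lit 0) (nat_lit 297) (nat_lit 430) (nat_lit 353)) (XT.nd (nat_lit 94) (nat_lit 0) (nat_lit 0) (XT.lf (nat_lit 0) (nat_lit 235306950306) (nat_lit 0) (nat_lit 0) (nat_lit 0) (nat_lit 0) (nat_lit 0) (nat_lit 0) (nat_lit 1) (nat_lit 0) (nat_lit 1) (nat_lit 0) (nat_lit 298) (nat_lit 430) (nat_lit 352)) (XT.lf (nat_lit 0) (nat_lit 235263979246) (nat_lit 0) (nat_lit 0) (nat_lit 0) (nat_lit 0) (nat_lit 0) (nat_lit 0) (nat_lit 1) (nat_lit 0) (nat_lit 1) (nat_lit 0) (nat_lit 299) (nat_lit 430) (nat_lit 351))))) (XT.nd (nat_lit 188) (nat_lit 0) (nat_lit 0) (XT.nd (nat_lit 94) (nat_lit 0) (nat_lit 0) (XT.lf (nat_lit 0) (nat_lit 235224191229) (nat_lit 0) (nat_lit 0) (nat_lit 0) (nat_lit 0) (nat_lit 0) (nat_lit 0) (nat_lit 1) (nat_lit 0) (nat_lit 1) (nat_lit 0) (nat_lit 300) (nat_lit 430) (nat_lit 350)) (XT.lf (nat_lit 0) (nat_lit 235187350472) (nat_lit 0) (nat_lit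 0) (nat_lit 0) (nat_lit 0) (nat_lit 0) (nat_lit 0) (nat_lit 1) (nat_lit 0) (nat_lit 1) (nat_lit 0) (nat_lit 301) (nat_lit 430) (nat_lit 349))) (XT.nd (nat_lit 94) (nat_lit 0) (nat_lit 0) (XT.lf (nat_lit 0) (nat_lit 235153238660) (nat_lit 0) (nat_lit 0) (nat_lit 0) (nat_lit 0) (nat_lit 0) (nat_lit 0) (nat_lit 1) (nat_lit 0) (nat_lit 1) (nat_lit 0) (nat_lit 302) (nat_lit 430) (nat_lit 348)) (XT.nd (nat_lit 94) (nat_lit 0) (nat_lit 0) (XT.lf (nat_lit 0) (nat_lit 235121653648) (nat_lit 0) (nat_lit 0) (nat_lit 0) (nat_lit 0) (nat_lit 0) (nat_lit 0) (nat_lit 1) (nat_lit 0) (nat_lit 1) (nat_lit 0) (nat_lit 303) (nat_lit 430) (nat_lit 347)) (XT.lf (nat_lit 0) (nat_lit 235092408268) (nat_lit 0) (nat_lit 0) (nat_lit 0) (nat_lit 0) (nat_lit 0) (nat_lit 0) (nat_lit 1) (nat_lit 0) (nat_lit 1) (nat_lit 0) (nat_lit 304) (nat_lit 430) (nat_lit 346))))))) (XT.nd (nat_lit 846)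 (nat_lit 0) (nat_lit 0) (XT.nd (nat_lit 376) (nat_lit 0) (nat_lit 0) (XT.nd (nat_lit 188) (nat_lit 0) (nat_lit 0) (XT.nd (nat_lit 94) (nat_lit 0) (nat_lit 0) (XT.lf (nat_lit 0) (nat_lit 235065329211) (nat_lit 0) (nat_lit 0) (nat_lit 0) (nat_lit 0) (nat_lit 0) (nat_lit 0) (nat_lit 1) (nat_lit 0) (nat_lit 1) (nat_lit 0) (nat_lit 305) (nat_lit 430) (nat_lit 345)) (XT.lf (nat_lit 0) (nat_lit 235040256011) (nat_lit 0) (nat_lit 0) (nat_lit 0) (nat_lit 0) (nat_lit 0) (nat_lit 0) (nat_lit 1) (nat_lit 0) (nat_lit 1) (nat_lit 0) (nat_lit 306) (nat_lit 430) (nat_lit 344))) (XT.nd (nat_lit 94) (nat_lit 0) (nat_lit 0) (XT.lf (nat_lit 0) (nat_lit 235017040085) (nat_lit 0) (nat_lit 0) (nat_lit 0) (nat_lit 0) (nat_lit 0) (nat_lit 0) (nat_lit 1) (nat_lit 0) (nat_lit 1) (nat_lit 0) (nat_lit 307) (nat_lit 430) (nat_lit 343)) (XT.lf (nat_lit 0) (nat_lit 234995543857) (nat_lit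 0) (nat_lit 0) (nat_lit 0) (nat_lit 0) (nat_lit 0) (nat_lit 0) (nat_lit 1) (nat_lit 0) (nat_lit 1) (nat_lit 0) (nat_lit 308) (nat_lit 430) (nat_lit 342)))) (XT.nd (nat_lit 188) (nat_lit 0) (nat_lit 0) (XT.nd (nat_lit 94) (nat_lit 0) (nat_lit 0) (XT.lf (nat_lit 0) (nat_lit 234975639942) (nat_lit 0) (nat_lit 0) (nat_lit 0) (nat_lit 0) (nat_lit 0) (nat_lit 0) (nat_lit 1) (nat_lit 0) (nat_lit 1) (nat_lit 0) (nat_lit 309) (nat_lit 430) (nat_lit 341)) (XT.lf (nat_lit 0) (nat_lit 234957210392) (nat_lit 0) (nat_lit 0) (nat_lit 0) (nat_lit 0) (nat_lit 0) (nat_lit 0) (nat_lit 1) (nat_lit 0) (nat_lit 1) (nat_lit 0) (nat_lit 310) (nat_lit 430) (nat_lit 340))) (XT.nd (nat_lit 94) (nat_lit 0) (nat_lit 0) (XT.lf (nat_lit 0) (nat_lit 234940145993) (nat_lit 0) (nat_lit 0) (nat_lit 0) (nat_lit 0) (nat_lit 0) (nat_lit 0) (nat_lit 1) (nat_lit 0) (nat_lit 1) (nat_lit 0) (nat_lit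 311) (nat_lit 430) (nat_lit 339)) (XT.nd (nat_lit 94) (nat_lit 0) (nat_lit 0) (XT.lf (nat_lit 0) (nat_lit 234924345624) (nat_lit 0) (nat_lit 0) (nat_lit 0) (nat_lit 0) (nat_lit 0) (nat_lit 0) (nat_lit 1) (nat_lit 0) (nat_lit 1) (nat_lit 0) (nat_lit 312) (nat_lit 430) (nat_lit 338)) (XT.lf (nat_lit 0) (nat_lit 234909715652) (nat_lit 0) (nat_lit 0) (nat_lit 0) (nat_lit 0) (nat_lit 0) (nat_lit 0) (nat_lit 1) (nat_lit 0) (nat_lit 1) (nat_lit 0) (nat_lit 313) (nat_lit 430) (nat_lit 337)))))) (XT.nd (nat_lit 470) (nat_lit 0) (nat_lit 0) (XT.nd (nat_lit 188) (nat_lit 0) (nat_lit 0) (XT.nd (nat_lit 94) (nat_lit 0) (nat_lit 0) (XT.lf (nat_lit 0) (nat_lit 234896169382) (nat_lit 0) (nat_lit 0) (nat_lit 0) (nat_lit 0) (nat_lit 0) (nat_lit 0) (nat_lit 1) (nat_lit 0) (nat_lit 1) (nat_lit 0) (nat_lit 314) (nat_lit 430) (nat_lit 336)) (XT.lf (nat_lit 0) (nat_lit 234883626540)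 (nat_lit 0) (nat_lit 0) (nat_lit 0) (nat_lit 0) (nat_lit 0) (nat_lit 0) (nat_lit 1) (nat_lit 0) (nat_lit 1) (nat_lit 0) (nat_lit 315) (nat_lit 430) (nat_lit 335))) (XT.nd (nat_lit 94) (nat_lit 0) (nat_lit 0) (XT.lf (nat_lit 0) (nat_lit 234872012796) (nat_lit 0) (nat_lit 0) (nat_lit 0) (nat_lit 0) (nat_lit 0) (nat_lit 0) (nat_lit 1) (nat_lit 0) (nat_lit 1) (nat_lit 0) (nat_lit 316) (nat_lit 430) (nat_lit 334)) (XT.nd (nat_lit 94) (nat_lit 0) (nat_lit 0) (XT.lf (nat_lit 0) (nat_lit 234861259331) (nat_lit 0) (nat_lit 0) (nat_lit 0) (nat_lit 0) (nat_lit 0) (nat_lit 0) (nat_lit 1) (nat_lit 0) (nat_lit 1) (nat_lit 0) (nat_lit 317) (nat_lit 430) (nat_lit 333)) (XT.lf (nat_lit 0) (nat_lit 234851302418) (nat_lit 0) (nat_lit 0) (nat_lit 0) (nat_lit 0) (nat_lit 0) (nat_lit 0) (nat_lit 1) (nat_lit 0) (nat_lit 1) (nat_lit 0) (nat_lit 318) (nat_lit 430) (nat_lit 332)))))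 (XT.nd (nat_lit 188) (nat_lit 0) (nat_lit 0) (XT.nd (nat_lit 94) (nat_lit 0) (nat_lit 0) (XT.lf (nat_lit 0) (nat_lit 234842083054) (nat_lit 0) (nat_lit 0) (nat_lit 0) (nat_lit 0) (nat_lit 0) (nat_lit 0) (nat_lit 1) (nat_lit 0) (nat_lit 1) (nat_lit 0) (nat_lit 319) (nat_lit 430) (nat_lit 331)) (XT.lf (nat_lit 0) (nat_lit 234833546606) (nat_lit 0) (nat_lit 0) (nat_lit 0) (nat_lit 0) (nat_lit 0) (nat_lit 0) (nat_lit 1) (nat_lit 0) (nat_lit 1) (nat_lit 0) (nat_lit 320) (nat_lit 430) (nat_lit 330))) (XT.nd (nat_lit 94) (nat_lit 0) (nat_lit 0) (XT.lf (nat_lit 0) (nat_lit 234825642488) (nat_lit 0) (nat_lit 0) (nat_lit 0) (nat_lit 0) (nat_lit 0) (nat_lit 0) (nat_lit 1) (nat_lit 0) (nat_lit 1) (nat_lit 0) (nat_lit 321) (nat_lit 430) (nat_lit 329)) (XT.nd (nat_lit 94) (nat_lit 0) (nat_lit 0) (XT.lf (nat_lit 0) (nat_lit 234818323860) (nat_lit 0) (nat_lit 0) (nat_lit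 0) (nat_lit 0) (nat_lit 0) (nat_lit 0) (nat_lit 1) (nat_lit 0) (nat_lit 1) (nat_lit 0) (nat_lit 322) (nat_lit 430) (nat_lit 328)) (XT.lf (nat_lit 0) (nat_lit 234811547352) (nat_lit 0) (nat_lit 0) (nat_lit 0) (nat_lit 0) (nat_lit 0) (nat_lit 0) (nat_lit 1) (nat_lit 0) (nat_lit 1) (nat_lit 0) (nat_lit 323) (nat_lit 430) (nat_lit 327))))))))
noncomputable def ec306 : XT := (XT.nd (nat_lit 1692) (nat_lit 0) (nat_lit 0) (XT.nd (nat_lit 846) (nat_lit 0) (nat_lit 0) (XT.nd (nat_lit 376) (nat_lit 0) (nat_lit 0) (XT.nd (nat_lit 188) (nat_lit 0) (nat_lit 0) (XT.nd (nat_lit 94) (nat_lit 0) (nat_lit 0) (XT.lf (nat_lit 0) (nat_lit 234805272808) (nat_lit 0) (nat_lit 0) (nat_lit 0) (nat_lit 0) (nat_lit 0) (nat_lit 0) (nat_lit 1) (nat_lit 0) (nat_lit 1) (nat_lit 0) (nat_lit 324) (nat_lit 430) (nat_lit 326)) (XT.lf (nat_lit 0) (nat_lit 234799463045) (nat_lit 0) (nat_lit 0)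 (nat_lit 0) (nat_lit 0) (nat_lit 0) (nat_lit 0) (nat_lit 1) (nat_lit 0) (nat_lit 1) (nat_lit 0) (nat_lit 325) (nat_lit 430) (nat_lit 325))) (XT.nd (nat_lit 94) (nat_lit 0) (nat_lit 0) (XT.lf (nat_lit 0) (nat_lit 234794083635) (nat_lit 0) (nat_lit 0) (nat_lit 0) (nat_lit 0) (nat_lit 0) (nat_lit 0) (nat_lit 1) (nat_lit 0) (nat_lit 1) (nat_lit 0) (nat_lit 326) (nat_lit 430) (nat_lit 324)) (XT.lf (nat_lit 0) (nat_lit 234789102700) (nat_lit 0) (nat_lit 0) (nat_lit 0) (nat_lit 0) (nat_lit 0) (nat_lit 0) (nat_lit 1) (nat_lit 0) (nat_lit 1) (nat_lit 0) (nat_lit 327) (nat_lit 430) (nat_lit 323)))) (XT.nd (nat_lit 188) (nat_lit 0) (nat_lit 0) (XT.nd (nat_lit 94) (nat_lit 0) (nat_lit 0) (XT.lf (nat_lit 0) (nat_lit 234784490723) (nat_lit 0) (nat_lit 0) (nat_lit 0) (nat_lit 0) (nat_lit 0) (nat_lit 0) (nat_lit 1) (nat_lit 0) (nat_lit 1) (nat_lit 0) (nat_lit 328) (nat_lit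 430) (nat_lit 322)) (XT.lf (nat_lit 0) (nat_lit 234780220373) (nat_lit 0) (nat_lit 0) (nat_lit 0) (nat_lit 0) (nat_lit 0) (nat_lit 0) (nat_lit 1) (nat_lit 0) (nat_lit 1) (nat_lit 0) (nat_lit 329) (nat_lit 430) (nat_lit 321))) (XT.nd (nat_lit 94) (nat_lit 0) (nat_lit 0) (XT.lf (nat_lit 0) (nat_lit 234776266346) (nat_lit 0) (nat_lit 0) (nat_lit 0) (nat_lit 0) (nat_lit 0) (nat_lit 0) (nat_lit 1) (nat_lit 0) (nat_lit 1) (nat_lit 0) (nat_lit 330) (nat_lit 430) (nat_lit 320)) (XT.nd (nat_lit 94) (nat_lit 0) (nat_lit 0) (XT.lf (nat_lit 0) (nat_lit 234772605210) (nat_lit 0) (nat_lit 0) (nat_lit 0) (nat_lit 0) (nat_lit 0) (nat_lit 0) (nat_lit 1) (nat_lit 0) (nat_lit 1) (nat_lit 0) (nat_lit 331) (nat_lit 430) (nat_lit 319)) (XT.lf (nat_lit 0) (nat_lit 234769215269) (nat_lit 0) (nat_lit 0) (nat_lit 0) (nat_lit 0) (nat_lit 0) (nat_lit 0) (nat_lit 1) (nat_lit 0) (nat_lit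 1) (nat_lit 0) (nat_lit 332) (nat_lit 430) (nat_lit 318)))))) (XT.nd (nat_lit 376) (nat_lit 0) (nat_lit 0) (XT.nd (nat_lit 188) (nat_lit 0) (nat_lit 0) (XT.nd (nat_lit 94) (nat_lit 0) (nat_lit 0) (XT.lf (nat_lit 0) (nat_lit 234766076435) (nat_lit 0) (nat_lit 0) (nat_lit 0) (nat_lit 0) (nat_lit 0) (nat_lit 0) (nat_lit 1) (nat_lit 0) (nat_lit 1) (nat_lit 0) (nat_lit 333) (nat_lit 430) (nat_lit 317)) (XT.lf (nat_lit 0) (nat_lit 234763170107) (nat_lit 0) (nat_lit 0) (nat_lit 0) (nat_lit 0) (nat_lit 0) (nat_lit 0) (nat_lit 1) (nat_lit 0) (nat_lit 1) (nat_lit 0) (nat_lit 334) (nat_lit 430) (nat_lit 316))) (XT.nd (nat_lit 94) (nat_lit 0) (nat_lit 0) (XT.lf (nat_lit 0) (nat_lit 234760479063) (nat_lit 0) (nat_lit 0) (nat_lit 0) (nat_lit 0) (nat_lit 0) (nat_lit 0) (nat_lit 1) (nat_lit 0) (nat_lit 1) (nat_lit 0) (nat_lit 335) (nat_lit 430) (nat_lit 315)) (XT.lf (nat_lit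 0) (nat_lit 234757987355) (nat_lit 0) (nat_lit 0) (nat_lit 0) (nat_lit 0) (nat_lit 0) (nat_lit 0) (nat_lit 1) (nat_lit 0) (nat_lit 1) (nat_lit 0) (nat_lit 336) (nat_lit 430) (nat_lit 314)))) (XT.nd (nat_lit 188) (nat_lit 0) (nat_lit 0) (XT.nd (nat_lit 94) (nat_lit 0) (nat_lit 0) (XT.lf (nat_lit 0) (nat_lit 234755680218) (nat_lit 0) (nat_lit 0) (nat_lit 0) (nat_lit 0) (nat_lit 0) (nat_lit 0) (nat_lit 1) (nat_lit 0) (nat_lit 1) (nat_lit 0) (nat_lit 337) (nat_lit 430) (nat_lit 313)) (XT.lf (nat_lit 0) (nat_lit 234753543980) (nat_lit 0) (nat_lit 0) (nat_lit 0) (nat_lit 0) (nat_lit 0) (nat_lit 0) (nat_lit 1) (nat_lit 0) (nat_lit 1) (nat_lit 0) (nat_lit 338) (nat_lit 430) (nat_lit 312))) (XT.nd (nat_lit 94) (nat_lit 0) (nat_lit 0) (XT.lf (nat_lit 0) (nat_lit 234751565982) (nat_lit 0) (nat_lit 0) (nat_lit 0) (nat_lit 0) (nat_lit 0) (nat_lit 0) (nat_lit 1) (nat_lit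 0) (nat_lit 1) (nat_lit 0) (nat_lit 339) (nat_lit 430) (nat_lit 311)) (XT.nd (nat_lit 94) (nat_lit 0) (nat_lit 0) (XT.lf (nat_lit 0) (nat_lit 234749734503) (nat_lit 0) (nat_lit 0) (nat_lit 0) (nat_lit 0) (nat_lit 0) (nat_lit 0) (nat_lit 1) (nat_lit 0) (nat_lit 1) (nat_lit 0) (nat_lit 340) (nat_lit 430) (nat_lit 310)) (XT.lf (nat_lit 0) (nat_lit 234748038688) (nat_lit 0) (nat_lit 0) (nat_lit 0) (nat_lit 0) (nat_lit 0) (nat_lit 0) (nat_lit 1) (nat_lit 0) (nat_lit 1) (nat_lit 0) (nat_lit 341) (nat_lit 430) (nat_lit 309))))))) (XT.nd (nat_lit 846) (nat_lit 0) (nat_lit 0) (XT.nd (nat_lit 376) (nat_lit 0) (nat_lit 0) (XT.nd (nat_lit 188) (nat_lit 0) (nat_lit 0) (XT.nd (nat_lit 94) (nat_lit 0) (nat_lit 0) (XT.lf (nat_lit 0) (nat_lit 234746468490) (nat_lit 0) (nat_lit 0) (nat_lit 0) (nat_lit 0) (nat_lit 0) (nat_lit 0) (nat_lit 1) (nat_lit 0) (nat_lit 1) (nat_lit 0)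 (nat_lit 342) (nat_lit 430) (nat_lit 308)) (XT.lf (nat_lit 0) (nat_lit 234745014602) (nat_lit 0) (nat_lit 0) (nat_lit 0) (nat_lit 0) (nat_lit 0) (nat_lit 0) (nat_lit 1) (nat_lit 0) (nat_lit 1) (nat_lit 0) (nat_lit 343) (nat_lit 430) (nat_lit 307))) (XT.nd (nat_lit 94) (nat_lit 0) (nat_lit 0) (XT.lf (nat_lit 0) (nat_lit 234743668410) (nat_lit 0) (nat_lit 0) (nat_lit 0) (nat_lit 0) (nat_lit 0) (nat_lit 0) (nat_lit 1) (nat_lit 0) (nat_lit 1) (nat_lit 0) (nat_lit 344) (nat_lit 430) (nat_lit 306)) (XT.lf (nat_lit 0) (nat_lit 234742421936) (nat_lit 0) (nat_lit 0) (nat_lit 0) (nat_lit 0) (nat_lit 0) (nat_lit 0) (nat_lit 1) (nat_lit 0) (nat_lit 1) (nat_lit 0) (nat_lit 345) (nat_lit 430) (nat_lit 305)))) (XT.nd (nat_lit 188) (nat_lit 0) (nat_lit 0) (XT.nd (nat_lit 94) (nat_lit 0) (nat_lit 0) (XT.lf (nat_lit 0) (nat_lit 234741267793) (nat_lit 0) (nat_lit 0) (nat_lit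 0) (nat_lit 0) (nat_lit 0) (nat_lit 0) (nat_lit 1) (nat_lit 0) (nat_lit 1) (nat_lit 0) (nat_lit 346) (nat_lit 430) (nat_lit 304)) (XT.lf (nat_lit 0) (nat_lit 234740199142) (nat_lit 0) (nat_lit 0) (nat_lit 0) (nat_lit 0) (nat_lit 0) (nat_lit 0) (nat_lit 1) (nat_lit 0) (nat_lit 1) (nat_lit 0) (nat_lit 347) (nat_lit 430) (nat_lit 303))) (XT.nd (nat_lit 94) (nat_lit 0) (nat_lit 0) (XT.lf (nat_lit 0) (nat_lit 234739209651) (nat_lit 0) (nat_lit 0) (nat_lit 0) (nat_lit 0) (nat_lit 0) (nat_lit 0) (nat_lit 1) (nat_lit 0) (nat_lit 1) (nat_lit 0) (nat_lit 348) (nat_lit 430) (nat_lit 302)) (XT.nd (nat_lit 94) (nat_lit 0) (nat_lit 0) (XT.lf (nat_lit 0) (nat_lit 234738293455) (nat_lit 0) (nat_lit 0) (nat_lit 0) (nat_lit 0) (nat_lit 0) (nat_lit 0) (nat_lit 1) (nat_lit 0) (nat_lit 1) (nat_lit 0) (nat_lit 349) (nat_lit 430) (nat_lit 301)) (XT.lf (nat_lit 0) (nat_lit 234737445126)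 (nat_lit 0) (nat_lit 0) (nat_lit 0) (nat_lit 0) (nat_lit 0) (nat_lit 0) (nat_lit 1) (nat_lit 0) (nat_lit 1) (nat_lit 0) (nat_lit 350) (nat_lit 430) (nat_lit 300)))))) (XT.nd (nat_lit 470) (nat_lit 0) (nat_lit 0) (XT.nd (nat_lit 188) (nat_lit 0) (nat_lit 0) (XT.nd (nat_lit 94) (nat_lit 0) (nat_lit 0) (XT.lf (nat_lit 0) (nat_lit 234736659636) (nat_lit 0) (nat_lit 0) (nat_lit 0) (nat_lit 0) (nat_lit 0) (nat_lit 0) (nat_lit 1) (nat_lit 0) (nat_lit 1) (nat_lit 0) (nat_lit 351) (nat_lit 430) (nat_lit 299)) (XT.lf (nat_lit 0) (nat_lit 234735932330) (nat_lit 0) (nat_lit 0) (nat_lit 0) (nat_lit 0) (nat_lit 0) (nat_lit 0) (nat_lit 1) (nat_lit 0) (nat_lit 1) (nat_lit 0) (nat_lit 352) (nat_lit 430) (nat_lit 298))) (XT.nd (nat_lit 94) (nat_lit 0) (nat_lit 0) (XT.lf (nat_lit 0) (nat_lit 234735258899) (nat_lit 0) (nat_lit 0) (nat_lit 0) (nat_lit 0) (nat_lit 0) (nat_lit 0)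 (nat_lit 1) (nat_lit 0) (nat_lit 1) (nat_lit 0) (nat_lit 353) (nat_lit 430) (nat_lit 297)) (XT.nd (nat_lit 94) (nat_lit 0) (nat_lit 0) (XT.lf (nat_lit 0) (nat_lit 234734635351) (nat_lit 0) (nat_lit 0) (nat_lit 0) (nat_lit 0) (nat_lit 0) (nat_lit 0) (nat_lit 1) (nat_lit 0) (nat_lit 1) (nat_lit 0) (nat_lit 354) (nat_lit 430) (nat_lit 296)) (XT.lf (nat_lit 0) (nat_lit 234734057992) (nat_lit 0) (nat_lit 0) (nat_lit 0) (nat_lit 0) (nat_lit 0) (nat_lit 0) (nat_lit 1) (nat_lit 0) (nat_lit 1) (nat_lit 0) (nat_lit 355) (nat_lit 430) (nat_lit 295))))) (XT.nd (nat_lit 188) (nat_lit 0) (nat_lit 0) (XT.nd (nat_lit 94) (nat_lit 0) (nat_lit 0) (XT.lf (nat_lit 0) (nat_lit 234733523401) (nat_lit 0) (nat_lit 0) (nat_lit 0) (nat_lit 0) (nat_lit 0) (nat_lit 0) (nat_lit 1) (nat_lit 0) (nat_lit 1) (nat_lit 0) (nat_lit 356) (nat_lit 430) (nat_lit 294)) (XT.lf (nat_lit 0) (nat_lit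 234733028409) (nat_lit 0) (nat_lit 0) (nat_lit 0) (nat_lit 0) (nat_lit 0) (nat_lit 0) (nat_lit 1) (nat_lit 0) (nat_lit 1) (nat_lit 0) (nat_lit 357) (nat_lit 430) (nat_lit 293))) (XT.nd (nat_lit 94) (nat_lit 0) (nat_lit 0) (XT.lf (nat_lit 0) (nat_lit 234732570083) (nat_lit 0) (nat_lit 0) (nat_lit 0) (nat_lit 0) (nat_lit 0) (nat_lit 0) (nat_lit 1) (nat_lit 0) (nat_lit 1) (nat_lit 0) (nat_lit 358) (nat_lit 430) (nat_lit 292)) (XT.nd (nat_lit 94) (nat_lit 0) (nat_lit 0) (XT.lf (nat_lit 0) (nat_lit 234732145707) (nat_lit 0) (nat_lit 0) (nat_lit 0) (nat_lit 0) (nat_lit 0) (nat_lit 0) (nat_lit 1) (nat_lit 0) (nat_lit 1) (nat_lit 0) (nat_lit 359) (nat_lit 430) (nat_lit 291)) (XT.lf (nat_lit 0) (nat_lit 234731752766) (nat_lit 0) (nat_lit 0) (nat_lit 0) (nat_lit 0) (nat_lit 0) (nat_lit 0) (nat_lit 1) (nat_lit 0) (nat_lit 1) (nat_lit 0) (nat_lit 360) (nat_lit 430) (nat_lit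 290))))))))
noncomputable def ec307 : XT := (XT.nd (nat_lit 1786) (nat_lit 0) (nat_lit 0) (XT.nd (nat_lit 846) (nat_lit 0) (nat_lit 0) (XT.nd (nat_lit 376) (nat_lit 0) (nat_lit 0) (XT.nd (nat_lit 188) (nat_lit 0) (nat_lit 0) (XT.nd (nat_lit 94) (nat_lit 0) (nat_lit 0) (XT.lf (nat_lit 0) (nat_lit 234731388932) (nat_lit 0) (nat_lit 0) (nat_lit 0) (nat_lit 0) (nat_lit 0) (nat_lit 0) (nat_lit 1) (nat_lit 0) (nat_lit 1) (nat_lit 0) (nat_lit 361) (nat_lit 430) (nat_lit 289)) (XT.lf (nat_lit 0) (nat_lit 234731052049) (nat_lit 0) (nat_lit 0) (nat_lit 0) (nat_lit 0) (nat_lit 0) (nat_lit 0) (nat_lit 1) (nat_lit 0) (nat_lit 1) (nat_lit 0) (nat_lit 362) (nat_lit 430) (nat_lit 288))) (XT.nd (nat_lit 94) (nat_lit 0) (nat_lit 0) (XT.lf (nat_lit 0) (nat_lit 234730740120) (nat_lit 0) (nat_lit 0) (nat_lit 0) (nat_lit 0) (nat_lit 0) (nat_lit 0) (nat_lit 1) (nat_lit 0) (nat_lit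 1) (nat_lit 0) (nat_lit 363) (nat_lit 430) (nat_lit 287)) (XT.lf (nat_lit 0) (nat_lit 234730451297) (nat_lit 0) (nat_lit 0) (nat_lit 0) (nat_lit 0) (nat_lit 0) (nat_lit 0) (nat_lit 1) (nat_lit 0) (nat_lit 1) (nat_lit 0) (nat_lit 364) (nat_lit 430) (nat_lit 286)))) (XT.nd (nat_lit 188) (nat_lit 0) (nat_lit 0) (XT.nd (nat_lit 94) (nat_lit 0) (nat_lit 0) (XT.lf (nat_lit 0) (nat_lit 234730183868) (nat_lit 0) (nat_lit 0) (nat_lit 0) (nat_lit 0) (nat_lit 0) (nat_lit 0) (nat_lit 1) (nat_lit 0) (nat_lit 1) (nat_lit 0) (nat_lit 365) (nat_lit 430) (nat_lit 285)) (XT.lf (nat_lit 0) (nat_lit 234729936249) (nat_lit 0) (nat_lit 0) (nat_lit 0) (nat_lit 0) (nat_lit 0) (nat_lit 0) (nat_lit 1) (nat_lit 0) (nat_lit 1) (nat_lit 0) (nat_lit 366) (nat_lit 430) (nat_lit 284))) (XT.nd (nat_lit 94) (nat_lit 0) (nat_lit 0) (XT.lf (nat_lit 0) (nat_lit 234729706972) (nat_lit 0) (nat_lit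 0) (nat_lit 0) (nat_lit 0) (nat_lit 0) (nat_lit 0) (nat_lit 1) (nat_lit 0) (nat_lit 1) (nat_lit 0) (nat_lit 367) (nat_lit 430) (nat_lit 283)) (XT.nd (nat_lit 94) (nat_lit 0) (nat_lit 0) (XT.lf (nat_lit 0) (nat_lit 234729494678) (nat_lit 0) (nat_lit 0) (nat_lit 0) (nat_lit 0) (nat_lit 0) (nat_lit 0) (nat_lit 1) (nat_lit 0) (nat_lit 1) (nat_lit 0) (nat_lit 368) (nat_lit 430) (nat_lit 282)) (XT.lf (nat_lit 0) (nat_lit 234729298110) (nat_lit 0) (nat_lit 0) (nat_lit 0) (nat_lit 0) (nat_lit 0) (nat_lit 0) (nat_lit 1) (nat_lit 0) (nat_lit 1) (nat_lit 0) (nat_lit 369) (nat_lit 430) (nat_lit 281)))))) (XT.nd (nat_lit 470) (nat_lit 0) (nat_lit 0) (XT.nd (nat_lit 188) (nat_lit 0) (nat_lit 0) (XT.nd (nat_lit 94) (nat_lit 0) (nat_lit 0) (XT.lf (nat_lit 0) (nat_lit 234729116102) (nat_lit 0) (nat_lit 0) (nat_lit 0) (nat_lit 0) (nat_lit 0) (nat_lit 0) (nat_lit 1) (nat_lit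 0) (nat_lit 1) (nat_lit 0) (nat_lit 370) (nat_lit 430) (nat_lit 280)) (XT.lf (nat_lit 0) (nat_lit 234728947577) (nat_lit 0) (nat_lit 0) (nat_lit 0) (nat_lit 0) (nat_lit 0) (nat_lit 0) (nat_lit 1) (nat_lit 0) (nat_lit 1) (nat_lit 0) (nat_lit 371) (nat_lit 430) (nat_lit 279))) (XT.nd (nat_lit 94) (nat_lit 0) (nat_lit 0) (XT.lf (nat_lit 0) (nat_lit 234728791535) (nat_lit 0) (nat_lit 0) (nat_lit 0) (nat_lit 0) (nat_lit 0) (nat_lit 0) (nat_lit 1) (nat_lit 0) (nat_lit 1) (nat_lit 0) (nat_lit 372) (nat_lit 430) (nat_lit 278)) (XT.nd (nat_lit 94) (nat_lit 0) (nat_lit 0) (XT.lf (nat_lit 0) (nat_lit 234728647051) (nat_lit 0) (nat_lit 0) (nat_lit 0) (nat_lit 0) (nat_lit 0) (nat_lit 0) (nat_lit 1) (nat_lit 0) (nat_lit 1) (nat_lit 0) (nat_lit 373) (nat_lit 430) (nat_lit 277)) (XT.lf (nat_lit 0) (nat_lit 234728513270) (nat_lit 0) (nat_lit 0) (nat_lit 0) (nat_lit 0) (nat_lit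 0) (nat_lit 0) (nat_lit 1) (nat_lit 0) (nat_lit 1) (nat_lit 0) (nat_lit 374) (nat_lit 430) (nat_lit 276))))) (XT.nd (nat_lit 188) (nat_lit 0) (nat_lit 0) (XT.nd (nat_lit 94) (nat_lit 0) (nat_lit 0) (XT.lf (nat_lit 0) (nat_lit 234728389399) (nat_lit 0) (nat_lit 0) (nat_lit 0) (nat_lit 0) (nat_lit 0) (nat_lit 0) (nat_lit 1) (nat_lit 0) (nat_lit 1) (nat_lit 0) (nat_lit 375) (nat_lit 430) (nat_lit 275)) (XT.lf (nat_lit 0) (nat_lit 234728274703) (nat_lit 0) (nat_lit 0) (nat_lit 0) (nat_lit 0) (nat_lit 0) (nat_lit 0) (nat_lit 1) (nat_lit 0) (nat_lit 1) (nat_lit 0) (nat_lit 376) (nat_lit 430) (nat_lit 274))) (XT.nd (nat_lit 94) (nat_lit 0) (nat_lit 0) (XT.lf (nat_lit 0) (nat_lit 234728168504) (nat_lit 0) (nat_lit 0) (nat_lit 0) (nat_lit 0) (nat_lit 0) (nat_lit 0) (nat_lit 1) (nat_lit 0) (nat_lit 1) (nat_lit 0) (nat_lit 377) (nat_lit 430) (nat_lit 273)) (XT.nd (nat_lit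 94) (nat_lit 0) (nat_lit 0) (XT.lf (nat_lit 0) (nat_lit 234728070171) (nat_lit 0) (nat_lit 0) (nat_lit 0) (nat_lit 0) (nat_lit 0) (nat_lit 0) (nat_lit 1) (nat_lit 0) (nat_lit 1) (nat_lit 0) (nat_lit 378) (nat_lit 430) (nat_lit 272)) (XT.lf (nat_lit 0) (nat_lit 234727979122) (nat_lit 0) (nat_lit 0) (nat_lit 0) (nat_lit 0) (nat_lit 0) (nat_lit 0) (nat_lit 1) (nat_lit 0) (nat_lit 1) (nat_lit 0) (nat_lit 379) (nat_lit 430) (nat_lit 271))))))) (XT.nd (nat_lit 846) (nat_lit 0) (nat_lit 0) (XT.nd (nat_lit 376) (nat_lit 0) (nat_lit 0) (XT.nd (nat_lit 188) (nat_lit 0) (nat_lit 0) (XT.nd (nat_lit 94) (nat_lit 0) (nat_lit 0) (XT.lf (nat_lit 0) (nat_lit 234727894817) (nat_lit 0) (nat_lit 0) (nat_lit 0) (nat_lit 0) (nat_lit 0) (nat_lit 0) (nat_lit 1) (nat_lit 0) (nat_lit 1) (nat_lit 0) (nat_lit 380) (nat_lit 430) (nat_lit 270)) (XT.lf (nat_lit 0) (nat_lit 234727816757)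 (nat_lit 0) (nat_lit 0) (nat_lit 0) (nat_lit 0) (nat_lit 0) (nat_lit 0) (nat_lit 1) (nat_lit 0) (nat_lit 1) (nat_lit 0) (nat_lit 381) (nat_lit 430) (nat_lit 269))) (XT.nd (nat_lit 94) (nat_lit 0) (nat_lit 0) (XT.lf (nat_lit 0) (nat_lit 234727744479) (nat_lit 0) (nat_lit 0) (nat_lit 0) (nat_lit 0) (nat_lit 0) (nat_lit 0) (nat_lit 1) (nat_lit 0) (nat_lit 1) (nat_lit 0) (nat_lit 382) (nat_lit 430) (nat_lit 268)) (XT.lf (nat_lit 0) (nat_lit 234727677556) (nat_lit 0) (nat_lit 0) (nat_lit 0) (nat_lit 0) (nat_lit 0) (nat_lit 0) (nat_lit 1) (nat_lit 0) (nat_lit 1) (nat_lit 0) (nat_lit 383) (nat_lit 430) (nat_lit 267)))) (XT.nd (nat_lit 188) (nat_lit 0) (nat_lit 0) (XT.nd (nat_lit 94) (nat_lit 0) (nat_lit 0) (XT.lf (nat_lit 0) (nat_lit 234727615589) (nat_lit 0) (nat_lit 0) (nat_lit 0) (nat_lit 0) (nat_lit 0) (nat_lit 0) (nat_lit 1) (nat_lit 0) (nat_lit 1) (nat_lit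 0) (nat_lit 384) (nat_lit 430) (nat_lit 266)) (XT.lf (nat_lit 0) (nat_lit 234727558213) (nat_lit 0) (nat_lit 0) (nat_lit 0) (nat_lit 0) (nat_lit 0) (nat_lit 0) (nat_lit 1) (nat_lit 0) (nat_lit 1) (nat_lit 0) (nat_lit 385) (nat_lit 430) (nat_lit 265))) (XT.nd (nat_lit 94) (nat_lit 0) (nat_lit 0) (XT.lf (nat_lit 0) (nat_lit 234727505086) (nat_lit 0) (nat_lit 0) (nat_lit 0) (nat_lit 0) (nat_lit 0) (nat_lit 0) (nat_lit 1) (nat_lit 0) (nat_lit 1) (nat_lit 0) (nat_lit 386) (nat_lit 430) (nat_lit 264)) (XT.nd (nat_lit 94) (nat_lit 0) (nat_lit 0) (XT.lf (nat_lit 0) (nat_lit 234727455895) (nat_lit 0) (nat_lit 0) (nat_lit 0) (nat_lit 0) (nat_lit 0) (nat_lit 0) (nat_lit 1) (nat_lit 0) (nat_lit 1) (nat_lit 0) (nat_lit 387) (nat_lit 430) (nat_lit 263)) (XT.lf (nat_lit 0) (nat_lit 234727410348) (nat_lit 0) (nat_lit 0) (nat_lit 0) (nat_lit 0) (nat_lit 0) (nat_lit 0) (nat_lit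 1) (nat_lit 0) (nat_lit 1) (nat_lit 0) (nat_lit 388) (nat_lit 430) (nat_lit 262)))))) (XT.nd (nat_lit 470) (nat_lit 0) (nat_lit 0) (XT.nd (nat_lit 188) (nat_lit 0) (nat_lit 0) (XT.nd (nat_lit 94) (nat_lit 0) (nat_lit 0) (XT.lf (nat_lit 0) (nat_lit 234727368175) (nat_lit 0) (nat_lit 0) (nat_lit 0) (nat_lit 0) (nat_lit 0) (nat_lit 0) (nat_lit 1) (nat_lit 0) (nat_lit 1) (nat_lit 0) (nat_lit 389) (nat_lit 430) (nat_lit 261)) (XT.lf (nat_lit 0) (nat_lit 234727329125) (nat_lit 0) (nat_lit 0) (nat_lit 0) (nat_lit 0) (nat_lit 0) (nat_lit 0) (nat_lit 1) (nat_lit 0) (nat_lit 1) (nat_lit 0) (nat_lit 390) (nat_lit 430) (nat_lit 260))) (XT.nd (nat_lit 94) (nat_lit 0) (nat_lit 0) (XT.lf (nat_lit 0) (nat_lit 234727292969) (nat_lit 0) (nat_lit 0) (nat_lit 0) (nat_lit 0) (nat_lit 0) (nat_lit 0) (nat_lit 1) (nat_lit 0) (nat_lit 1) (nat_lit 0) (nat_lit 391) (nat_lit 430) (nat_lit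 259)) (XT.nd (nat_lit 94) (nat_lit 0) (nat_lit 0) (XT.lf (nat_lit 0) (nat_lit 234727259490) (nat_lit 0) (nat_lit 0) (nat_lit 0) (nat_lit 0) (nat_lit 0) (nat_lit 0) (nat_lit 1) (nat_lit 0) (nat_lit 1) (nat_lit 0) (nat_lit 392) (nat_lit 430) (nat_lit 258)) (XT.lf (nat_lit 0) (nat_lit 234727228491) (nat_lit 0) (nat_lit 0) (nat_lit 0) (nat_lit 0) (nat_lit 0) (nat_lit 0) (nat_lit 1) (nat_lit 0) (nat_lit 1) (nat_lit 0) (nat_lit 393) (nat_lit 430) (nat_lit 257))))) (XT.nd (nat_lit 188) (nat_lit 0) (nat_lit 0) (XT.nd (nat_lit 94) (nat_lit 0) (nat_lit 0) (XT.lf (nat_lit 0) (nat_lit 234727199789) (nat_lit 0) (nat_lit 0) (nat_lit 0) (nat_lit 0) (nat_lit 0) (nat_lit 0) (nat_lit 1) (nat_lit 0) (nat_lit 1) (nat_lit 0) (nat_lit 394) (nat_lit 430) (nat_lit 256)) (XT.lf (nat_lit 0) (nat_lit 234727173213) (nat_lit 0) (nat_lit 0) (nat_lit 0) (nat_lit 0) (nat_lit 0) (nat_lit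 0) (nat_lit 1) (nat_lit 0) (nat_lit 1) (nat_lit 0) (nat_lit 395) (nat_lit 430) (nat_lit 255))) (XT.nd (nat_lit 94) (nat_lit 0) (nat_lit 0) (XT.lf (nat_lit 0) (nat_lit 234727148605) (nat_lit 0) (nat_lit 0) (nat_lit 0) (nat_lit 0) (nat_lit 0) (nat_lit 0) (nat_lit 1) (nat_lit 0) (nat_lit 1) (nat_lit 0) (nat_lit 396) (nat_lit 430) (nat_lit 254)) (XT.nd (nat_lit 94) (nat_lit 0) (nat_lit 0) (XT.lf (nat_lit 0) (nat_lit 234727125820) (nat_lit 0) (nat_lit 0) (nat_lit 0) (nat_lit 0) (nat_lit 0) (nat_lit 0) (nat_lit 1) (nat_lit 0) (nat_lit 1) (nat_lit 0) (nat_lit 397) (nat_lit 430) (nat_lit 253)) (XT.lf (nat_lit 0) (nat_lit 234727104723) (nat_lit 0) (nat_lit 0) (nat_lit 0) (nat_lit 0) (nat_lit 0) (nat_lit 0) (nat_lit 1) (nat_lit 0) (nat_lit 1) (nat_lit 0) (nat_lit 398) (nat_lit 430) (nat_lit 252))))))))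
noncomputable def ec308 : XT := (XT.nd (nat_lit 1692) (nat_lit 0) (nat_lit 0) (XT.nd (nat_lit 846) (nat_lit 0) (nat_lit 0) (XT.nd (nat_lit 376) (nat_lit 0) (nat_lit 0) (XT.nd (nat_lit 188) (nat_lit 0) (nat_lit 0) (XT.nd (nat_lit 94) (nat_lit 0) (nat_lit 0) (XT.lf (nat_lit 0) (nat_lit 234727085188) (nat_lit 0) (nat_lit 0) (nat_lit 0) (nat_lit 0) (nat_lit 0) (nat_lit 0) (nat_lit 1) (nat_lit 0) (nat_lit 1) (nat_lit 0) (nat_lit 399) (nat_lit 430) (nat_lit 251)) (XT.lf (nat_lit 0) (nat_lit 234727067101) (nat_lit 0) (nat_lit 0) (nat_lit 0) (nat_lit 0) (nat_lit 0) (nat_lit 0) (nat_lit 1) (nat_lit 0) (nat_lit 1) (nat_lit 0) (nat_lit 400) (nat_lit 430) (nat_lit 250))) (XT.nd (nat_lit 94) (nat_lit 0) (nat_lit 0) (XT.lf (nat_lit 0) (nat_lit 234727050353) (nat_lit 0) (nat_lit 0) (nat_lit 0) (nat_lit 0) (nat_lit 0) (nat_lit 0) (nat_lit 1) (nat_lit 0) (nat_lit 1) (nat_lit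 0) (nat_lit 401) (nat_lit 430) (nat_lit 249)) (XT.lf (nat_lit 0) (nat_lit 234727034846) (nat_lit 0) (nat_lit 0) (nat_lit 0) (nat_lit 0) (nat_lit 0) (nat_lit 0) (nat_lit 1) (nat_lit 0) (nat_lit 1) (nat_lit 0) (nat_lit 402) (nat_lit 430) (nat_lit 248)))) (XT.nd (nat_lit 188) (nat_lit 0) (nat_lit 0) (XT.nd (nat_lit 94) (nat_lit 0) (nat_lit 0) (XT.lf (nat_lit 0) (nat_lit 234727020488) (nat_lit 0) (nat_lit 0) (nat_lit 0) (nat_lit 0) (nat_lit 0) (nat_lit 0) (nat_lit 1) (nat_lit 0) (nat_lit 1) (nat_lit 0) (nat_lit 403) (nat_lit 430) (nat_lit 247)) (XT.lf (nat_lit 0) (nat_lit 234727007193) (nat_lit 0) (nat_lit 0) (nat_lit 0) (nat_lit 0) (nat_lit 0) (nat_lit 0) (nat_lit 1) (nat_lit 0) (nat_lit 1) (nat_lit 0) (nat_lit 404) (nat_lit 430) (nat_lit 246))) (XT.nd (nat_lit 94) (nat_lit 0) (nat_lit 0) (XT.lf (nat_lit 0) (nat_lit 234726994883) (nat_lit 0) (nat_lit 0) (nat_lit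 0) (nat_lit 0) (nat_lit 0) (nat_lit 0) (nat_lit 1) (nat_lit 0) (nat_lit 1) (nat_lit 0) (nat_lit 405) (nat_lit 430) (nat_lit 245)) (XT.nd (nat_lit 94) (nat_lit 0) (nat_lit 0) (XT.lf (nat_lit 0) (nat_lit 234726983485) (nat_lit 0) (nat_lit 0) (nat_lit 0) (nat_lit 0) (nat_lit 0) (nat_lit 0) (nat_lit 1) (nat_lit 0) (nat_lit 1) (nat_lit 0) (nat_lit 406) (nat_lit 430) (nat_lit 244)) (XT.lf (nat_lit 0) (nat_lit 234726972931) (nat_lit 0) (nat_lit 0) (nat_lit 0) (nat_lit 0) (nat_lit 0) (nat_lit 0) (nat_lit 1) (nat_lit 0) (nat_lit 1) (nat_lit 0) (nat_lit 407) (nat_lit 430) (nat_lit 243)))))) (XT.nd (nat_lit 376) (nat_lit 0) (nat_lit 0) (XT.nd (nat_lit 188) (nat_lit 0) (nat_lit 0) (XT.nd (nat_lit 94) (nat_lit 0) (nat_lit 0) (XT.lf (nat_lit 0) (nat_lit 234726963159) (nat_lit 0) (nat_lit 0) (nat_lit 0) (nat_lit 0) (nat_lit 0) (nat_lit 0) (nat_lit 1) (nat_lit 0) (nat_lit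 1) (nat_lit 0) (nat_lit 408) (nat_lit 430) (nat_lit 242)) (XT.lf (nat_lit 0) (nat_lit 234726954111) (nat_lit 0) (nat_lit 0) (nat_lit 0) (nat_lit 0) (nat_lit 0) (nat_lit 0) (nat_lit 1) (nat_lit 0) (nat_lit 1) (nat_lit 0) (nat_lit 409) (nat_lit 430) (nat_lit 241))) (XT.nd (nat_lit 94) (nat_lit 0) (nat_lit 0) (XT.lf (nat_lit 0) (nat_lit 234726945733) (nat_lit 0) (nat_lit 0) (nat_lit 0) (nat_lit 0) (nat_lit 0) (nat_lit 0) (nat_lit 1) (nat_lit 0) (nat_lit 1) (nat_lit 0) (nat_lit 410) (nat_lit 430) (nat_lit 240)) (XT.lf (nat_lit 0) (nat_lit 234726937975) (nat_lit 0) (nat_lit 0) (nat_lit 0) (nat_lit 0) (nat_lit 0) (nat_lit 0) (nat_lit 1) (nat_lit 0) (nat_lit 1) (nat_lit 0) (nat_lit 411) (nat_lit 430) (nat_lit 239)))) (XT.nd (nat_lit 188) (nat_lit 0) (nat_lit 0) (XT.nd (nat_lit 94) (nat_lit 0) (nat_lit 0) (XT.lf (nat_lit 0) (nat_lit 234726930793) (nat_lit 0) (nat_lit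 0) (nat_lit 0) (nat_lit 0) (nat_lit 0) (nat_lit 0) (nat_lit 1) (nat_lit 0) (nat_lit 1) (nat_lit 0) (nat_lit 412) (nat_lit 430) (nat_lit 238)) (XT.lf (nat_lit 0) (nat_lit 234726924142) (nat_lit 0) (nat_lit 0) (nat_lit 0) (nat_lit 0) (nat_lit 0) (nat_lit 0) (nat_lit 1) (nat_lit 0) (nat_lit 1) (nat_lit 0) (nat_lit 413) (nat_lit 430) (nat_lit 237))) (XT.nd (nat_lit 94) (nat_lit 0) (nat_lit 0) (XT.lf (nat_lit 0) (nat_lit 234726917984) (nat_lit 0) (nat_lit 0) (nat_lit 0) (nat_lit 0) (nat_lit 0) (nat_lit 0) (nat_lit 1) (nat_lit 0) (nat_lit 1) (nat_lit 0) (nat_lit 414) (nat_lit 430) (nat_lit 236)) (XT.nd (nat_lit 94) (nat_lit 0) (nat_lit 0) (XT.lf (nat_lit 0) (nat_lit 234726912282) (nat_lit 0) (nat_lit 0) (nat_lit 0) (nat_lit 0) (nat_lit 0) (nat_lit 0) (nat_lit 1) (nat_lit 0) (nat_lit 1) (nat_lit 0) (nat_lit 415) (nat_lit 430) (nat_lit 235)) (XT.lf (nat_lit 0) (nat_lit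 234726907002) (nat_lit 0) (nat_lit 0) (nat_lit 0) (nat_lit 0) (nat_lit 0) (nat_lit 0) (nat_lit 1) (nat_lit 0) (nat_lit 1) (nat_lit 0) (nat_lit 416) (nat_lit 430) (nat_lit 234))))))) (XT.nd (nat_lit 846) (nat_lit 0) (nat_lit 0) (XT.nd (nat_lit 376) (nat_lit 0) (nat_lit 0) (XT.nd (nat_lit 188) (nat_lit 0) (nat_lit 0) (XT.nd (nat_lit 94) (nat_lit 0) (nat_lit 0) (XT.lf (nat_lit 0) (nat_lit 234726902114) (nat_lit 0) (nat_lit 0) (nat_lit 0) (nat_lit 0) (nat_lit 0) (nat_lit 0) (nat_lit 1) (nat_lit 0) (nat_lit 1) (nat_lit 0) (nat_lit 417) (nat_lit 430) (nat_lit 233)) (XT.lf (nat_lit 0) (nat_lit 234726897588) (nat_lit 0) (nat_lit 0) (nat_lit 0) (nat_lit 0) (nat_lit 0) (nat_lit 0) (nat_lit 1) (nat_lit 0) (nat_lit 1) (nat_lit 0) (nat_lit 418) (nat_lit 430) (nat_lit 232))) (XT.nd (nat_lit 94) (nat_lit 0) (nat_lit 0) (XT.lf (nat_lit 0) (nat_lit 234726893396) (nat_lit 0)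 (nat_lit 0) (nat_lit 0) (nat_lit 0) (nat_lit 0) (nat_lit 0) (nat_lit 1) (nat_lit 0) (nat_lit 1) (nat_lit 0) (nat_lit 419) (nat_lit 430) (nat_lit 231)) (XT.lf (nat_lit 0) (nat_lit 234726889516) (nat_lit 0) (nat_lit 0) (nat_lit 0) (nat_lit 0) (nat_lit 0) (nat_lit 0) (nat_lit 1) (nat_lit 0) (nat_lit 1) (nat_lit 0) (nat_lit 420) (nat_lit 430) (nat_lit 230)))) (XT.nd (nat_lit 188) (nat_lit 0) (nat_lit 0) (XT.nd (nat_lit 94) (nat_lit 0) (nat_lit 0) (XT.lf (nat_lit 0) (nat_lit 234726885923) (nat_lit 0) (nat_lit 0) (nat_lit 0) (nat_lit 0) (nat_lit 0) (nat_lit 0) (nat_lit 1) (nat_lit 0) (nat_lit 1) (nat_lit 0) (nat_lit 421) (nat_lit 430) (nat_lit 229)) (XT.lf (nat_lit 0) (nat_lit 234726882596) (nat_lit 0) (nat_lit 0) (nat_lit 0) (nat_lit 0) (nat_lit 0) (nat_lit 0) (nat_lit 1) (nat_lit 0) (nat_lit 1) (nat_lit 0) (nat_lit 422) (nat_lit 430) (nat_lit 228))) (XT.nd (nat_lit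 94) (nat_lit 0) (nat_lit 0) (XT.lf (nat_lit 0) (nat_lit 234726879515) (nat_lit 0) (nat_lit 0) (nat_lit 0) (nat_lit 0) (nat_lit 0) (nat_lit 0) (nat_lit 1) (nat_lit 0) (nat_lit 1) (nat_lit 0) (nat_lit 423) (nat_lit 430) (nat_lit 227)) (XT.nd (nat_lit 94) (nat_lit 0) (nat_lit 0) (XT.lf (nat_lit 0) (nat_lit 234726876663) (nat_lit 0) (nat_lit 0) (nat_lit 0) (nat_lit 0) (nat_lit 0) (nat_lit 0) (nat_lit 1) (nat_lit 0) (nat_lit 1) (nat_lit 0) (nat_lit 424) (nat_lit 430) (nat_lit 226)) (XT.lf (nat_lit 0) (nat_lit 234726874022) (nat_lit 0) (nat_lit 0) (nat_lit 0) (nat_lit 0) (nat_lit 0) (nat_lit 0) (nat_lit 1) (nat_lit 0) (nat_lit 1) (nat_lit 0) (nat_lit 425) (nat_lit 430) (nat_lit 225)))))) (XT.nd (nat_lit 470) (nat_lit 0) (nat_lit 0) (XT.nd (nat_lit 188) (nat_lit 0) (nat_lit 0) (XT.nd (nat_lit 94) (nat_lit 0) (nat_lit 0) (XT.lf (nat_lit 0) (nat_lit 234726871576) (nat_lit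 0) (nat_lit 0) (nat_lit 0) (nat_lit 0) (nat_lit 0) (nat_lit 0) (nat_lit 1) (nat_lit 0) (nat_lit 1) (nat_lit 0) (nat_lit 426) (nat_lit 430) (nat_lit 224)) (XT.lf (nat_lit 0) (nat_lit 234726869312) (nat_lit 0) (nat_lit 0) (nat_lit 0) (nat_lit 0) (nat_lit 0) (nat_lit 0) (nat_lit 1) (nat_lit 0) (nat_lit 1) (nat_lit 0) (nat_lit 427) (nat_lit 430) (nat_lit 223))) (XT.nd (nat_lit 94) (nat_lit 0) (nat_lit 0) (XT.lf (nat_lit 0) (nat_lit 234726867215) (nat_lit 0) (nat_lit 0) (nat_lit 0) (nat_lit 0) (nat_lit 0) (nat_lit 0) (nat_lit 1) (nat_lit 0) (nat_lit 1) (nat_lit 0) (nat_lit 428) (nat_lit 430) (nat_lit 222)) (XT.nd (nat_lit 94) (nat_lit 0) (nat_lit 0) (XT.lf (nat_lit 0) (nat_lit 234726865274) (nat_lit 0) (nat_lit 0) (nat_lit 0) (nat_lit 0) (nat_lit 0) (nat_lit 0) (nat_lit 1) (nat_lit 0) (nat_lit 1) (nat_lit 0) (nat_lit 429) (nat_lit 430) (nat_lit 221)) (XT.lf (nat_lit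 0) (nat_lit 234726863477) (nat_lit 0) (nat_lit 0) (nat_lit 0) (nat_lit 0) (nat_lit 0) (nat_lit 0) (nat_lit 1) (nat_lit 0) (nat_lit 1) (nat_lit 0) (nat_lit 430) (nat_lit 430) (nat_lit 220))))) (XT.nd (nat_lit 188) (nat_lit 0) (nat_lit 0) (XT.nd (nat_lit 94) (nat_lit 0) (nat_lit 0) (XT.lf (nat_lit 0) (nat_lit 234726861812) (nat_lit 0) (nat_lit 0) (nat_lit 0) (nat_lit 0) (nat_lit 0) (nat_lit 0) (nat_lit 1) (nat_lit 0) (nat_lit 1) (nat_lit 0) (nat_lit 431) (nat_lit 430) (nat_lit 219)) (XT.lf (nat_lit 0) (nat_lit 234726860271) (nat_lit 0) (nat_lit 0) (nat_lit 0) (nat_lit 0) (nat_lit 0) (nat_lit 0) (nat_lit 1) (nat_lit 0) (nat_lit 1) (nat_lit 0) (nat_lit 432) (nat_lit 430) (nat_lit 218))) (XT.nd (nat_lit 94) (nat_lit 0) (nat_lit 0) (XT.lf (nat_lit 0) (nat_lit 234726858844) (nat_lit 0) (nat_lit 0) (nat_lit 0) (nat_lit 0) (nat_lit 0) (nat_lit 0) (nat_lit 1) (nat_lit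 0) (nat_lit 1) (nat_lit 0) (nat_lit 433) (nat_lit 430) (nat_lit 217)) (XT.nd (nat_lit 94) (nat_lit 0) (nat_lit 0) (XT.lf (nat_lit 0) (nat_lit 234726857523) (nat_lit 0) (nat_lit 0) (nat_lit 0) (nat_lit 0) (nat_lit 0) (nat_lit 0) (nat_lit 1) (nat_lit 0) (nat_lit 1) (nat_lit 0) (nat_lit 434) (nat_lit 430) (nat_lit 216)) (XT.lf (nat_lit 0) (nat_lit 234726856300) (nat_lit 0) (nat_lit 0) (nat_lit 0) (nat_lit 0) (nat_lit 0) (nat_lit 0) (nat_lit 1) (nat_lit 0) (nat_lit 1) (nat_lit 0) (nat_lit 435) (nat_lit 430) (nat_lit 215))))))))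
noncomputable def ec309 : XT := (XT.nd (nat_lit 48222) (nat_lit 0) (nat_lit 4200) (XT.nd (nat_lit 47282) (nat_lit 0) (nat_lit 9324) (XT.nd (nat_lit 376) (nat_lit 0) (nat_lit 0) (XT.nd (nat_lit 188) (nat_lit 0) (nat_lit 0) (XT.nd (nat_lit 94) (nat_lit 0) (nat_lit 0) (XT.lf (nat_lit 0) (nat_lit 234726855167) (nat_lit 0) (nat_lit 0) (nat_lit 0) (nat_lit 0) (nat_lit 0) (nat_lit 0) (nat_lit 1) (nat_lit 0) (nat_lit 1) (nat_lit 0) (nat_lit 436) (nat_lit 430) (nat_lit 214)) (XT.lf (nat_lit 0) (nat_lit 234726854118) (nat_lit 0) (nat_lit 0) (nat_lit 0) (nat_lit 0) (nat_lit 0) (nat_lit 0) (nat_lit 1) (nat_lit 0) (nat_lit 1) (nat_lit 0) (nat_lit 437) (nat_lit 430) (nat_lit 213))) (XT.nd (nat_lit 94) (nat_lit 0) (nat_lit 0) (XT.lf (nat_lit 0) (nat_lit 234726853147) (nat_lit 0) (nat_lit 0) (nat_lit 0) (nat_lit 0) (nat_lit 0) (nat_lit 0) (nat_lit 1) (nat_lit 0) (nat_lit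 1) (nat_lit 0) (nat_lit 438) (nat_lit 430) (nat_lit 212)) (XT.lf (nat_lit 0) (nat_lit 234726852248) (nat_lit 0) (nat_lit 0) (nat_lit 0) (nat_lit 0) (nat_lit 0) (nat_lit 0) (nat_lit 1) (nat_lit 0) (nat_lit 1) (nat_lit 0) (nat_lit 439) (nat_lit 430) (nat_lit 211)))) (XT.nd (nat_lit 188) (nat_lit 0) (nat_lit 0) (XT.nd (nat_lit 94) (nat_lit 0) (nat_lit 0) (XT.lf (nat_lit 0) (nat_lit 234726851415) (nat_lit 0) (nat_lit 0) (nat_lit 0) (nat_lit 0) (nat_lit 0) (nat_lit 0) (nat_lit 1) (nat_lit 0) (nat_lit 1) (nat_lit 0) (nat_lit 440) (nat_lit 430) (nat_lit 210)) (XT.lf (nat_lit 0) (nat_lit 234726850644) (nat_lit 0) (nat_lit 0) (nat_lit 0) (nat_lit 0) (nat_lit 0) (nat_lit 0) (nat_lit 1) (nat_lit 0) (nat_lit 1) (nat_lit 0) (nat_lit 441) (nat_lit 430) (nat_lit 209))) (XT.nd (nat_lit 94) (nat_lit 0) (nat_lit 0) (XT.lf (nat_lit 0) (nat_lit 234726849931) (nat_lit 0) (nat_lit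 0) (nat_lit 0) (nat_lit 0) (nat_lit 0) (nat_lit 0) (nat_lit 1) (nat_lit 0) (nat_lit 1) (nat_lit 0) (nat_lit 442) (nat_lit 430) (nat_lit 208)) (XT.nd (nat_lit 94) (nat_lit 0) (nat_lit 0) (XT.lf (nat_lit 0) (nat_lit 234726849270) (nat_lit 0) (nat_lit 0) (nat_lit 0) (nat_lit 0) (nat_lit 0) (nat_lit 0) (nat_lit 1) (nat_lit 0) (nat_lit 1) (nat_lit 0) (nat_lit 443) (nat_lit 430) (nat_lit 207)) (XT.lf (nat_lit 0) (nat_lit 234726848658) (nat_lit 0) (nat_lit 0) (nat_lit 0) (nat_lit 0) (nat_lit 0) (nat_lit 0) (nat_lit 1) (nat_lit 0) (nat_lit 1) (nat_lit 0) (nat_lit 444) (nat_lit 430) (nat_lit 206)))))) (XT.nd (nat_lit 470) (nat_lit 1428) (nat_lit 0) (XT.nd (nat_lit 188) (nat_lit 0) (nat_lit 84) (XT.nd (nat_lit 94) (nat_lit 0) (nat_lit 84) (XT.lf (nat_lit 924) (nat_lit 126863391828) (nat_lit 0) (nat_lit 225245660584) (nat_lit 924) (nat_lit 126863391828) (nat_lit 139)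 (nat_lit 1) (nat_lit 128) (nat_lit 0) (nat_lit 139) (nat_lit 0) (nat_lit 218) (nat_lit 431) (nat_lit 431)) (XT.lf (nat_lit 924) (nat_lit 47323937845) (nat_lit 0) (nat_lit 442225498341) (nat_lit 840) (nat_lit 432495059935) (nat_lit 140) (nat_lit 1) (nat_lit 129) (nat_lit 1) (nat_lit 139) (nat_lit 1) (nat_lit 219) (nat_lit 431) (nat_lit 430))) (XT.nd (nat_lit 94) (nat_lit 0) (nat_lit 84) (XT.lf (nat_lit 924) (nat_lit 434643053340) (nat_lit 84) (nat_lit 296158565303) (nat_lit 0) (nat_lit 157068993438) (nat_lit 140) (nat_lit 1) (nat_lit 130) (nat_lit 1) (nat_lit 129) (nat_lit 1) (nat_lit 220) (nat_lit 431) (nat_lit 429)) (XT.nd (nat_lit 94) (nat_lit 0) (nat_lit 84) (XT.lf (nat_lit 924) (nat_lit 375567204558) (nat_lit 84) (nat_lit 124118001941) (nat_lit 0) (nat_lit 355721669379) (nat_lit 141) (nat_lit 1) (nat_lit 131) (nat_lit 1) (nat_lit 130) (nat_lit 1) (nat_lit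 221) (nat_lit 431) (nat_lit 428)) (XT.lf (nat_lit 924) (nat_lit 277951660988) (nat_lit 0) (nat_lit 520034419501) (nat_lit 840) (nat_lit 26584085227) (nat_lit 142) (nat_lit 1) (nat_lit 131) (nat_lit 1) (nat_lit 141) (nat_lit 1) (nat_lit 222) (nat_lit 431) (nat_lit 427))))) (XT.nd (nat_lit 188) (nat_lit 1764) (nat_lit 0) (XT.nd (nat_lit 94) (nat_lit 0) (nat_lit 0) (XT.lf (nat_lit 924) (nat_lit 66691775813) (nat_lit 0) (nat_lit 573482418665) (nat_lit 840) (nat_lit 155031929841) (nat_lit 143) (nat_lit 1) (nat_lit 132) (nat_lit 1) (nat_lit 142) (nat_lit 1) (nat_lit 223) (nat_lit 431) (nat_lit 426)) (XT.lf (nat_lit 924) (nat_lit 128154467271) (nat_lit 84) (nat_lit 498402922497) (nat_lit 0) (nat_lit 140655453853) (nat_lit 143) (nat_lit 1) (nat_lit 133) (nat_lit 1) (nat_lit 132) (nat_lit 1) (nat_lit 224) (nat_lit 431) (nat_lit 425))) (XT.nd (nat_lit 94) (nat_lit 1008)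 (nat_lit 0) (XT.lf (nat_lit 924) (nat_lit 26320005263) (nat_lit 0) (nat_lit 372589152653) (nat_lit 840) (nat_lit 341660349054) (nat_lit 134) (nat_lit 1) (nat_lit 123) (nat_lit 1) (nat_lit 133) (nat_lit 1) (nat_lit 225) (nat_lit 431) (nat_lit 424)) (XT.nd (nat_lit 94) (nat_lit 420) (nat_lit 0) (XT.lf (nat_lit 84) (nat_lit 182245199120) (nat_lit 0) (nat_lit 78975325783) (nat_lit 588) (nat_lit 453967181680) (nat_lit 117) (nat_lit 1) (nat_lit 116) (nat_lit 1) (nat_lit 123) (nat_lit 1) (nat_lit 226) (nat_lit 431) (nat_lit 423)) (XT.lf (nat_lit 504) (nat_lit 502244830155) (nat_lit 0) (nat_lit 163491519740) (nat_lit 420) (nat_lit 25276799150) (nat_lit 117) (nat_lit 1) (nat_lit 111) (nat_lit 1) (nat_lit 116) (nat_lit 1) (nat_lit 227) (nat_lit 431) (nat_lit 422))))))) (XT.nd (nat_lit 846) (nat_lit 2352) (nat_lit 0) (XT.nd (nat_lit 376) (nat_lit 1596) (nat_lit 0) (XT.nd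 (nat_lit 188) (nat_lit 420) (nat_lit 0) (XT.nd (nat_lit 94) (nat_lit 336) (nat_lit 0) (XT.lf (nat_lit 504) (nat_lit 362424652177) (nat_lit 0) (nat_lit 76204101614) (nat_lit 420) (nat_lit 229249300461) (nat_lit 112) (nat_lit 1) (nat_lit 106) (nat_lit 1) (nat_lit 111) (nat_lit 1) (nat_lit 228) (nat_lit 431) (nat_lit 421)) (XT.lf (nat_lit 420) (nat_lit 220530778508) (nat_lit 0) (nat_lit 1403041349) (nat_lit 336) (nat_lit 423930910047) (nat_lit 107) (nat_lit 1) (nat_lit 102) (nat_lit 1) (nat_lit 106) (nat_lit 1) (nat_lit 229) (nat_lit 431) (nat_lit 420))) (XT.nd (nat_lit 94) (nat_lit 420) (nat_lit 0) (XT.lf (nat_lit 84) (nat_lit 16269718612) (nat_lit 0) (nat_lit 548693747898) (nat_lit 420) (nat_lit 59900591270) (nat_lit 103) (nat_lit 1) (nat_lit 102) (nat_lit 1) (nat_lit 107) (nat_lit 1) (nat_lit 230) (nat_lit 431) (nat_lit 419)) (XT.lf (nat_lit 84) (nat_lit 420088354454)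 (nat_lit 0) (nat_lit 69676148504) (nat_lit 420) (nat_lit 114908623031) (nat_lit 98) (nat_lit 1) (nat_lit 97) (nat_lit 1) (nat_lit 102) (nat_lit 1) (nat_lit 231) (nat_lit 431) (nat_lit 418)))) (XT.nd (nat_lit 188) (nat_lit 924) (nat_lit 0) (XT.nd (nat_lit 94) (nat_lit 336) (nat_lit 0) (XT.lf (nat_lit 84) (nat_lit 210180849044) (nat_lit 0) (nat_lit 213430411515) (nat_lit 420) (nat_lit 161763071952) (nat_lit 94) (nat_lit 1) (nat_lit 93) (nat_lit 1) (nat_lit 98) (nat_lit 1) (nat_lit 232) (nat_lit 431) (nat_lit 417)) (XT.lf (nat_lit 84) (nat_lit 10374060640) (nat_lit 0) (nat_lit 356852333950) (nat_lit 420) (nat_lit 199762878533) (nat_lit 90) (nat_lit 1) (nat_lit 89) (nat_lit 1) (nat_lit 94) (nat_lit 1) (nat_lit 233) (nat_lit 431) (nat_lit 416))) (XT.nd (nat_lit 94) (nat_lit 672) (nat_lit 0) (XT.lf (nat_lit 336) (nat_lit 46848673175) (nat_lit 0) (nat_lit 316815151660)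 (nat_lit 252) (nat_lit 185660960079) (nat_lit 90) (nat_lit 1) (nat_lit 86) (nat_lit 1) (nat_lit 89) (nat_lit 1) (nat_lit 234) (nat_lit 431) (nat_lit 415)) (XT.nd (nat_lit 94) (nat_lit 252) (nat_lit 0) (XT.lf (nat_lit 84) (nat_lit 161874761542) (nat_lit 0) (nat_lit 110949967406) (nat_lit 420) (nat_lit 259565319789) (nat_lit 82) (nat_lit 1) (nat_lit 81) (nat_lit 1) (nat_lit 86) (nat_lit 1) (nat_lit 235) (nat_lit 431) (nat_lit 414)) (XT.lf (nat_lit 336) (nat_lit 250621066796) (nat_lit 0) (nat_lit 235426100245) (nat_lit 252) (nat_lit 30134261421) (nat_lit 82) (nat_lit 1) (nat_lit 78) (nat_lit 1) (nat_lit 81) (nat_lit 1) (nat_lit 236) (nat_lit 431) (nat_lit 413)))))) (XT.nd (nat_lit 470) (nat_lit 1008) (nat_lit 0) (XT.nd (nat_lit 188) (nat_lit 756) (nat_lit 0) (XT.nd (nat_lit 94) (nat_lit 336) (nat_lit 0) (XT.lf (nat_lit 336) (nat_lit 80322841142) (nat_lit 0) (nat_lit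 202692231706) (nat_lit 252) (nat_lit 217580637142) (nat_lit 79) (nat_lit 1) (nat_lit 75) (nat_lit 1) (nat_lit 78) (nat_lit 1) (nat_lit 237) (nat_lit 431) (nat_lit 412)) (XT.lf (nat_lit 84) (nat_lit 91548630316) (nat_lit 0) (nat_lit 83820726807) (nat_lit 336) (nat_lit 310287938630) (nat_lit 72) (nat_lit 1) (nat_lit 71) (nat_lit 1) (nat_lit 75) (nat_lit 1) (nat_lit 238) (nat_lit 431) (nat_lit 411))) (XT.nd (nat_lit 94) (nat_lit 504) (nat_lit 0) (XT.lf (nat_lit 336) (nat_lit 227806750814) (nat_lit 0) (nat_lit 151574170127) (nat_lit 252) (nat_lit 91884760282) (nat_lit 72) (nat_lit 1) (nat_lit 68) (nat_lit 1) (nat_lit 71) (nat_lit 1) (nat_lit 239) (nat_lit 431) (nat_lit 410)) (XT.nd (nat_lit 94) (nat_lit 336) (nat_lit 0) (XT.lf (nat_lit 252) (nat_lit 56473629898) (nat_lit 0) (nat_lit 132237407585) (nat_lit 168) (nat_lit 268743627089) (nat_lit 69) (nat_lit 1) (nat_lit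 66) (nat_lit 1) (nat_lit 68) (nat_lit 1) (nat_lit 240) (nat_lit 431) (nat_lit 409)) (XT.lf (nat_lit 84) (nat_lit 9566993702) (nat_lit 0) (nat_lit 107056736419) (nat_lit 336) (nat_lit 327555269191) (nat_lit 63) (nat_lit 1) (nat_lit 62) (nat_lit 1) (nat_lit 66) (nat_lit 1) (nat_lit 241) (nat_lit 431) (nat_lit 408))))) (XT.nd (nat_lit 188) (nat_lit 588) (nat_lit 0) (XT.nd (nat_lit 94) (nat_lit 252) (nat_lit 0) (XT.lf (nat_lit 252) (nat_lit 164102006305) (nat_lit 0) (nat_lit 102549675656) (nat_lit 168) (nat_lit 164673082938) (nat_lit 63) (nat_lit 1) (nat_lit 60) (nat_lit 1) (nat_lit 62) (nat_lit 1) (nat_lit 242) (nat_lit 431) (nat_lit 407)) (XT.lf (nat_lit 84) (nat_lit 89034890756) (nat_lit 0) (nat_lit 4112577424) (nat_lit 252) (nat_lit 325883976804) (nat_lit 58) (nat_lit 1) (nat_lit 57) (nat_lit 1) (nat_lit 60) (nat_lit 1) (nat_lit 243) (nat_lit 431) (nat_lit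 406))) (XT.nd (nat_lit 94) (nat_lit 420) (nat_lit 0) (XT.lf (nat_lit 252) (nat_lit 243404198280) (nat_lit 0) (nat_lit 84345012284) (nat_lit 168) (nat_lit 79346518429) (nat_lit 58) (nat_lit 1) (nat_lit 55) (nat_lit 1) (nat_lit 57) (nat_lit 1) (nat_lit 244) (nat_lit 431) (nat_lit 405)) (XT.nd (nat_lit 94) (nat_lit 252) (nat_lit 0) (XT.lf (nat_lit 252) (nat_lit 75611097873) (nat_lit 0) (nat_lit 78408015931) (nat_lit 168) (nat_lit 241597253859) (nat_lit 56) (nat_lit 1) (nat_lit 53) (nat_lit 1) (nat_lit 55) (nat_lit 1) (nat_lit 245) (nat_lit 431) (nat_lit 404)) (XT.lf (nat_lit 252) (nat_lit 300148270696) (nat_lit 0) (nat_lit 74912495231) (nat_lit 168) (nat_lit 9503519130) (nat_lit 53) (nat_lit 1) (nat_lit 50) (nat_lit 1) (nat_lit 52) (nat_lit 1) (nat_lit 246) (nat_lit 431) (nat_lit 403))))))))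
noncomputable def ec310 : XT := (XT.nd (nat_lit 1692) (nat_lit 1512) (nat_lit 0) (XT.nd (nat_lit 846) (nat_lit 1176) (nat_lit 0) (XT.nd (nat_lit 376) (nat_lit 924) (nat_lit 0) (XT.nd (nat_lit 188) (nat_lit 252) (nat_lit 0) (XT.nd (nat_lit 94) (nat_lit 168) (nat_lit 0) (XT.lf (nat_lit 252) (nat_lit 134332455267) (nat_lit 0) (nat_lit 71516176443) (nat_lit 168) (nat_lit 167970673231) (nat_lit 51) (nat_lit 1) (nat_lit 48) (nat_lit 1) (nat_lit 50) (nat_lit 1) (nat_lit 247) (nat_lit 431) (nat_lit 402)) (XT.lf (nat_lit 84) (nat_lit 46014052360) (nat_lit 0) (nat_lit 25291396631) (nat_lit 168) (nat_lit 292214549844) (nat_lit 47) (nat_lit 1) (nat_lit 46) (nat_lit 1) (nat_lit 48) (nat_lit 1) (nat_lit 248) (nat_lit 431) (nat_lit 401))) (XT.nd (nat_lit 94) (nat_lit 84) (nat_lit 0) (XT.lf (nat_lit 252) (nat_lit 176251906865) (nat_lit 0) (nat_lit 70550403659) (nat_lit 168)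 (nat_lit 106678275404) (nat_lit 47) (nat_lit 1) (nat_lit 44) (nat_lit 1) (nat_lit 46) (nat_lit 1) (nat_lit 249) (nat_lit 431) (nat_lit 400)) (XT.lf (nat_lit 168) (nat_lit 18979825861) (nat_lit 0) (nat_lit 72283212742) (nat_lit 84) (nat_lit 252574477517) (nat_lit 45) (nat_lit 1) (nat_lit 43) (nat_lit 1) (nat_lit 44) (nat_lit 1) (nat_lit 250) (nat_lit 431) (nat_lit 399)))) (XT.nd (nat_lit 188) (nat_lit 588) (nat_lit 0) (XT.nd (nat_lit 94) (nat_lit 84) (nat_lit 0) (XT.lf (nat_lit 252) (nat_lit 204880212909) (nat_lit 0) (nat_lit 73926437613) (nat_lit 168) (nat_lit 55653685003) (nat_lit 43) (nat_lit 1) (nat_lit 40) (nat_lit 1) (nat_lit 42) (nat_lit 1) (nat_lit 251) (nat_lit 431) (nat_lit 398)) (XT.lf (nat_lit 168) (nat_lit 51528884328) (nat_lit 0) (nat_lit 76690621609) (nat_lit 84) (nat_lit 197179678815) (nat_lit 41) (nat_lit 1) (nat_lit 39) (nat_lit 1) (nat_lit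 40) (nat_lit 1) (nat_lit 252) (nat_lit 431) (nat_lit 397))) (XT.nd (nat_lit 94) (nat_lit 336) (nat_lit 0) (XT.lf (nat_lit 252) (nat_lit 223055867903) (nat_lit 0) (nat_lit 80389432978) (nat_lit 168) (nat_lit 13192594123) (nat_lit 39) (nat_lit 1) (nat_lit 36) (nat_lit 1) (nat_lit 38) (nat_lit 1) (nat_lit 253) (nat_lit 431) (nat_lit 396)) (XT.nd (nat_lit 94) (nat_lit 252) (nat_lit 0) (XT.lf (nat_lit 168) (nat_lit 74157133899) (nat_lit 0) (nat_lit 83806949858) (nat_lit 84) (nat_lit 150147388292) (nat_lit 37) (nat_lit 1) (nat_lit 35) (nat_lit 1) (nat_lit 36) (nat_lit 1) (nat_lit 254) (nat_lit 431) (nat_lit 395)) (XT.lf (nat_lit 84) (nat_lit 21404700024) (nat_lit 0) (nat_lit 67183647714) (nat_lit 252) (nat_lit 211303013676) (nat_lit 33) (nat_lit 1) (nat_lit 32) (nat_lit 1) (nat_lit 35) (nat_lit 1) (nat_lit 255) (nat_lit 431) (nat_lit 394)))))) (XT.nd (nat_lit 376)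 (nat_lit 588) (nat_lit 0) (XT.nd (nat_lit 188) (nat_lit 252) (nat_lit 0) (XT.nd (nat_lit 94) (nat_lit 252) (nat_lit 0) (XT.lf (nat_lit 168) (nat_lit 88995251339) (nat_lit 0) (nat_lit 92728833616) (nat_lit 84) (nat_lit 110151307213) (nat_lit 33) (nat_lit 1) (nat_lit 31) (nat_lit 1) (nat_lit 32) (nat_lit 1) (nat_lit 256) (nat_lit 431) (nat_lit 393)) (XT.lf (nat_lit 84) (nat_lit 49779362209) (nat_lit 0) (nat_lit 48214678371) (nat_lit 252) (nat_lit 186147083134) (nat_lit 29) (nat_lit 1) (nat_lit 28) (nat_lit 1) (nat_lit 31) (nat_lit 1) (nat_lit 257) (nat_lit 431) (nat_lit 392))) (XT.nd (nat_lit 94) (nat_lit 168) (nat_lit 0) (XT.lf (nat_lit 168) (nat_lit 97761483286) (nat_lit 0) (nat_lit 102751095416) (nat_lit 84) (nat_lit 76091884188) (nat_lit 29) (nat_lit 1) (nat_lit 27) (nat_lit 1) (nat_lit 28) (nat_lit 1) (nat_lit 258) (nat_lit 431) (nat_lit 391)) (XT.lf (nat_lit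 84) (nat_lit 73286732157) (nat_lit 0) (nat_lit 34919816563) (nat_lit 168) (nat_lit 161110154506) (nat_lit 26) (nat_lit 1) (nat_lit 25) (nat_lit 1) (nat_lit 27) (nat_lit 1) (nat_lit 259) (nat_lit 431) (nat_lit 390)))) (XT.nd (nat_lit 188) (nat_lit 336) (nat_lit 0) (XT.nd (nat_lit 94) (nat_lit 168) (nat_lit 0) (XT.lf (nat_lit 168) (nat_lit 101838711659) (nat_lit 0) (nat_lit 113328118533) (nat_lit 84) (nat_lit 47055868131) (nat_lit 26) (nat_lit 1) (nat_lit 24) (nat_lit 1) (nat_lit 25) (nat_lit 1) (nat_lit 260) (nat_lit 431) (nat_lit 389)) (XT.lf (nat_lit 84) (nat_lit 92700902104) (nat_lit 0) (nat_lit 26050638485) (nat_lit 168) (nat_lit 136595357004) (nat_lit 23) (nat_lit 1) (nat_lit 22) (nat_lit 1) (nat_lit 24) (nat_lit 1) (nat_lit 261) (nat_lit 431) (nat_lit 388))) (XT.nd (nat_lit 94) (nat_lit 252) (nat_lit 0) (XT.lf (nat_lit 168) (nat_lit 102337292291) (nat_lit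 0) (nat_lit 124042455569) (nat_lit 84) (nat_lit 22283207445) (nat_lit 23) (nat_lit 1) (nat_lit 21) (nat_lit 1) (nat_lit 22) (nat_lit 1) (nat_lit 262) (nat_lit 431) (nat_lit 387)) (XT.nd (nat_lit 94) (nat_lit 84) (nat_lit 0) (XT.lf (nat_lit 84) (nat_lit 108665229080) (nat_lit 0) (nat_lit 20603295339) (nat_lit 168) (nat_lit 112900064316) (nat_lit 20) (nat_lit 1) (nat_lit 19) (nat_lit 1) (nat_lit 21) (nat_lit 1) (nat_lit 263) (nat_lit 431) (nat_lit 386)) (XT.lf (nat_lit 168) (nat_lit 100146282403) (nat_lit 0) (nat_lit 134579334722) (nat_lit 84) (nat_lit 1139952207) (nat_lit 20) (nat_lit 1) (nat_lit 18) (nat_lit 1) (nat_lit 19) (nat_lit 1) (nat_lit 264) (nat_lit 431) (nat_lit 385))))))) (XT.nd (nat_lit 846) (nat_lit 336) (nat_lit 0) (XT.nd (nat_lit 376) (nat_lit 672) (nat_lit 0) (XT.nd (nat_lit 188) (nat_lit 252) (nat_lit 0) (XT.nd (nat_lit 94) (nat_lit 84) (nat_lit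 0) (XT.lf (nat_lit 84) (nat_lit 121715476309) (nat_lit 0) (nat_lit 17772590005) (nat_lit 168) (nat_lit 90237445764) (nat_lit 17) (nat_lit 1) (nat_lit 16) (nat_lit 1) (nat_lit 18) (nat_lit 1) (nat_lit 265) (nat_lit 431) (nat_lit 384)) (XT.lf (nat_lit 0) (nat_lit 16362906153) (nat_lit 0) (nat_lit 128065953134) (nat_lit 168) (nat_lit 79335172447) (nat_lit 15) (nat_lit 3) (nat_lit 15) (nat_lit 1) (nat_lit 17) (nat_lit 1) (nat_lit 266) (nat_lit 431) (nat_lit 383))) (XT.nd (nat_lit 94) (nat_lit 84) (nat_lit 0) (XT.lf (nat_lit 84) (nat_lit 132298765703) (nat_lit 0) (nat_lit 16914546810) (nat_lit 168) (nat_lit 68753926243) (nat_lit 14) (nat_lit 1) (nat_lit 13) (nat_lit 1) (nat_lit 15) (nat_lit 1) (nat_lit 267) (nat_lit 431) (nat_lit 382)) (XT.lf (nat_lit 0) (nat_lit 31259204278) (nat_lit 0) (nat_lit 122466212395) (nat_lit 168) (nat_lit 58599410772) (nat_lit 12) (nat_lit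 3) (nat_lit 12) (nat_lit 1) (nat_lit 14) (nat_lit 1) (nat_lit 268) (nat_lit 431) (nat_lit 381)))) (XT.nd (nat_lit 188) (nat_lit 420) (nat_lit 0) (XT.nd (nat_lit 94) (nat_lit 84) (nat_lit 0) (XT.lf (nat_lit 84) (nat_lit 140789106406) (nat_lit 0) (nat_lit 17515911912) (nat_lit 168) (nat_lit 48543314020) (nat_lit 11) (nat_lit 1) (nat_lit 10) (nat_lit 1) (nat_lit 12) (nat_lit 1) (nat_lit 269) (nat_lit 431) (nat_lit 380)) (XT.lf (nat_lit 0) (nat_lit 43946962410) (nat_lit 0) (nat_lit 118418685022) (nat_lit 168) (nat_lit 39139659360) (nat_lit 9) (nat_lit 3) (nat_lit 9) (nat_lit 1) (nat_lit 11) (nat_lit 1) (nat_lit 270) (nat_lit 431) (nat_lit 379))) (XT.nd (nat_lit 94) (nat_lit 252) (nat_lit 0) (XT.lf (nat_lit 84) (nat_lit 147500124201) (nat_lit 0) (nat_lit 19169308773) (nat_lit 168) (nat_lit 29658215728) (nat_lit 8) (nat_lit 1) (nat_lit 7) (nat_lit 1) (nat_lit 9)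 (nat_lit 1) (nat_lit 271) (nat_lit 431) (nat_lit 378)) (XT.nd (nat_lit 94) (nat_lit 168) (nat_lit 0) (XT.lf (nat_lit 0) (nat_lit 54730990826) (nat_lit 0) (nat_lit 115538132550) (nat_lit 168) (nat_lit 20996855571) (nat_lit 6) (nat_lit 3) (nat_lit 6) (nat_lit 1) (nat_lit 8) (nat_lit 1) (nat_lit 272) (nat_lit 431) (nat_lit 377)) (XT.lf (nat_lit 84) (nat_lit 152695502188) (nat_lit 0) (nat_lit 21553007439) (nat_lit 168) (nat_lit 12119243751) (nat_lit 5) (nat_lit 1) (nat_lit 4) (nat_lit 1) (nat_lit 6) (nat_lit 1) (nat_lit 273) (nat_lit 431) (nat_lit 376)))))) (XT.nd (nat_lit 470) (nat_lit 0) (nat_lit 0) (XT.nd (nat_lit 188) (nat_lit 0) (nat_lit 0) (XT.nd (nat_lit 94) (nat_lit 252) (nat_lit 0) (XT.lf (nat_lit 0) (nat_lit 63869086325) (nat_lit 0) (nat_lit 113518917897) (nat_lit 168) (nat_lit 4182854308) (nat_lit 3) (nat_lit 3) (nat_lit 3) (nat_lit 1) (nat_lit 5) (nat_lit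 1) (nat_lit 274) (nat_lit 431) (nat_lit 375)) (XT.lf (nat_lit 0) (nat_lit 256658775928) (nat_lit 0) (nat_lit 0) (nat_lit 0) (nat_lit 0) (nat_lit 0) (nat_lit 0) (nat_lit 1) (nat_lit 0) (nat_lit 1) (nat_lit 0) (nat_lit 275) (nat_lit 431) (nat_lit 374))) (XT.nd (nat_lit 94) (nat_lit 0) (nat_lit 0) (XT.lf (nat_lit 0) (nat_lit 256425162029) (nat_lit 0) (nat_lit 0) (nat_lit 0) (nat_lit 0) (nat_lit 0) (nat_lit 0) (nat_lit 1) (nat_lit 0) (nat_lit 1) (nat_lit 0) (nat_lit 276) (nat_lit 431) (nat_lit 373)) (XT.nd (nat_lit 94) (nat_lit 0) (nat_lit 0) (XT.lf (nat_lit 0) (nat_lit 256208852863) (nat_lit 0) (nat_lit 0) (nat_lit 0) (nat_lit 0) (nat_lit 0) (nat_lit 0) (nat_lit 1) (nat_lit 0) (nat_lit 1) (nat_lit 0) (nat_lit 277) (nat_lit 431) (nat_lit 372)) (XT.lf (nat_lit 0) (nat_lit 256008566598) (nat_lit 0) (nat_lit 0) (nat_lit 0) (nat_lit 0) (nat_lit 0) (nat_lit 0) (nat_lit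 1) (nat_lit 0) (nat_lit 1) (nat_lit 0) (nat_lit 278) (nat_lit 431) (nat_lit 371))))) (XT.nd (nat_lit 188) (nat_lit 0) (nat_lit 0) (XT.nd (nat_lit 94) (nat_lit 0) (nat_lit 0) (XT.lf (nat_lit 0) (nat_lit 255823116353) (nat_lit 0) (nat_lit 0) (nat_lit 0) (nat_lit 0) (nat_lit 0) (nat_lit 0) (nat_lit 1) (nat_lit 0) (nat_lit 1) (nat_lit 0) (nat_lit 279) (nat_lit 431) (nat_lit 370)) (XT.lf (nat_lit 0) (nat_lit 255651403163) (nat_lit 0) (nat_lit 0) (nat_lit 0) (nat_lit 0) (nat_lit 0) (nat_lit 0) (nat_lit 1) (nat_lit 0) (nat_lit 1) (nat_lit 0) (nat_lit 280) (nat_lit 431) (nat_lit 369))) (XT.nd (nat_lit 94) (nat_lit 0) (nat_lit 0) (XT.lf (nat_lit 0) (nat_lit 255492409469) (nat_lit 0) (nat_lit 0) (nat_lit 0) (nat_lit 0) (nat_lit 0) (nat_lit 0) (nat_lit 1) (nat_lit 0) (nat_lit 1) (nat_lit 0) (nat_lit 281) (nat_lit 431) (nat_lit 368)) (XT.nd (nat_lit 94) (nat_lit 0) (nat_lit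 0) (XT.lf (nat_lit 0) (nat_lit 255345193085) (nat_lit 0) (nat_lit 0) (nat_lit 0) (nat_lit 0) (nat_lit 0) (nat_lit 0) (nat_lit 1) (nat_lit 0) (nat_lit 1) (nat_lit 0) (nat_lit 282) (nat_lit 431) (nat_lit 367)) (XT.lf (nat_lit 0) (nat_lit 255208881619) (nat_lit 0) (nat_lit 0) (nat_lit 0) (nat_lit 0) (nat_lit 0) (nat_lit 0) (nat_lit 1) (nat_lit 0) (nat_lit 1) (nat_lit 0) (nat_lit 283) (nat_lit 431) (nat_lit 366))))))))
noncomputable def ec311 : XT := (XT.nd (nat_lit 1786) (nat_lit 0) (nat_lit 0) (XT.nd (nat_lit 846) (nat_lit 0) (nat_lit 0) (XT.nd (nat_lit 376) (nat_lit 0) (nat_lit 0) (XT.nd (nat_lit 188) (nat_lit 0) (nat_lit 0) (XT.nd (nat_lit 94) (nat_lit 0) (nat_lit 0) (XT.lf (nat_lit 0) (nat_lit 255082667298) (nat_lit 0) (nat_lit 0) (nat_lit 0) (nat_lit 0) (nat_lit 0) (nat_lit 0) (nat_lit 1) (nat_lit 0) (nat_lit 1) (nat_lit 0) (nat_lit 284) (nat_lit 431) (nat_lit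 365)) (XT.lf (nat_lit 0) (nat_lit 254965802186) (nat_lit 0) (nat_lit 0) (nat_lit 0) (nat_lit 0) (nat_lit 0) (nat_lit 0) (nat_lit 1) (nat_lit 0) (nat_lit 1) (nat_lit 0) (nat_lit 285) (nat_lit 431) (nat_lit 364))) (XT.nd (nat_lit 94) (nat_lit 0) (nat_lit 0) (XT.lf (nat_lit 0) (nat_lit 254857593749) (nat_lit 0) (nat_lit 0) (nat_lit 0) (nat_lit 0) (nat_lit 0) (nat_lit 0) (nat_lit 1) (nat_lit 0) (nat_lit 1) (nat_lit 0) (nat_lit 286) (nat_lit 431) (nat_lit 363)) (XT.lf (nat_lit 0) (nat_lit 254757400752) (nat_lit 0) (nat_lit 0) (nat_lit 0) (nat_lit 0) (nat_lit 0) (nat_lit 0) (nat_lit 1) (nat_lit 0) (nat_lit 1) (nat_lit 0) (nat_lit 287) (nat_lit 431) (nat_lit 362)))) (XT.nd (nat_lit 188) (nat_lit 0) (nat_lit 0) (XT.nd (nat_lit 94) (nat_lit 0) (nat_lit 0) (XT.lf (nat_lit 0) (nat_lit 254664629459) (nat_lit 0) (nat_lit 0) (nat_lit 0) (nat_lit 0) (nat_lit 0) (nat_lit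 0) (nat_lit 1) (nat_lit 0) (nat_lit 1) (nat_lit 0) (nat_lit 288) (nat_lit 431) (nat_lit 361)) (XT.lf (nat_lit 0) (nat_lit 254578730113) (nat_lit 0) (nat_lit 0) (nat_lit 0) (nat_lit 0) (nat_lit 0) (nat_lit 0) (nat_lit 1) (nat_lit 0) (nat_lit 1) (nat_lit 0) (nat_lit 289) (nat_lit 431) (nat_lit 360))) (XT.nd (nat_lit 94) (nat_lit 0) (nat_lit 0) (XT.lf (nat_lit 0) (nat_lit 254499193681) (nat_lit 0) (nat_lit 0) (nat_lit 0) (nat_lit 0) (nat_lit 0) (nat_lit 0) (nat_lit 1) (nat_lit 0) (nat_lit 1) (nat_lit 0) (nat_lit 290) (nat_lit 431) (nat_lit 359)) (XT.nd (nat_lit 94) (nat_lit 0) (nat_lit 0) (XT.lf (nat_lit 0) (nat_lit 254425548837) (nat_lit 0) (nat_lit 0) (nat_lit 0) (nat_lit 0) (nat_lit 0) (nat_lit 0) (nat_lit 1) (nat_lit 0) (nat_lit 1) (nat_lit 0) (nat_lit 291) (nat_lit 431) (nat_lit 358)) (XT.lf (nat_lit 0) (nat_lit 254357359167) (nat_lit 0) (nat_lit 0) (nat_lit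 0) (nat_lit 0) (nat_lit 0) (nat_lit 0) (nat_lit 1) (nat_lit 0) (nat_lit 1) (nat_lit 0) (nat_lit 292) (nat_lit 431) (nat_lit 357)))))) (XT.nd (nat_lit 470) (nat_lit 0) (nat_lit 0) (XT.nd (nat_lit 188) (nat_lit 0) (nat_lit 0) (XT.nd (nat_lit 94) (nat_lit 0) (nat_lit 0) (XT.lf (nat_lit 0) (nat_lit 254294220584) (nat_lit 0) (nat_lit 0) (nat_lit 0) (nat_lit 0) (nat_lit 0) (nat_lit 0) (nat_lit 1) (nat_lit 0) (nat_lit 1) (nat_lit 0) (nat_lit 293) (nat_lit 431) (nat_lit 356)) (XT.lf (nat_lit 0) (nat_lit 254235758932) (nat_lit 0) (nat_lit 0) (nat_lit 0) (nat_lit 0) (nat_lit 0) (nat_lit 0) (nat_lit 1) (nat_lit 0) (nat_lit 1) (nat_lit 0) (nat_lit 294) (nat_lit 431) (nat_lit 355))) (XT.nd (nat_lit 94) (nat_lit 0) (nat_lit 0) (XT.lf (nat_lit 0) (nat_lit 254181627773) (nat_lit 0) (nat_lit 0) (nat_lit 0) (nat_lit 0) (nat_lit 0) (nat_lit 0) (nat_lit 1) (nat_lit 0) (nat_lit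 1) (nat_lit 0) (nat_lit 295) (nat_lit 431) (nat_lit 354)) (XT.nd (nat_lit 94) (nat_lit 0) (nat_lit 0) (XT.lf (nat_lit 0) (nat_lit 254131506330) (nat_lit 0) (nat_lit 0) (nat_lit 0) (nat_lit 0) (nat_lit 0) (nat_lit 0) (nat_lit 1) (nat_lit 0) (nat_lit 1) (nat_lit 0) (nat_lit 296) (nat_lit 431) (nat_lit 353)) (XT.lf (nat_lit 0) (nat_lit 254085097586) (nat_lit 0) (nat_lit 0) (nat_lit 0) (nat_lit 0) (nat_lit 0) (nat_lit 0) (nat_lit 1) (nat_lit 0) (nat_lit 1) (nat_lit 0) (nat_lit 297) (nat_lit 431) (nat_lit 352))))) (XT.nd (nat_lit 188) (nat_lit 0) (nat_lit 0) (XT.nd (nat_lit 94) (nat_lit 0) (nat_lit 0) (XT.lf (nat_lit 0) (nat_lit 254042126527) (nat_lit 0) (nat_lit 0) (nat_lit 0) (nat_lit 0) (nat_lit 0) (nat_lit 0) (nat_lit 1) (nat_lit 0) (nat_lit 1) (nat_lit 0) (nat_lit 298) (nat_lit 431) (nat_lit 351)) (XT.lf (nat_lit 0) (nat_lit 254002338509) (nat_lit 0) (nat_lit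 0) (nat_lit 0) (nat_lit 0) (nat_lit 0) (nat_lit 0) (nat_lit 1) (nat_lit 0) (nat_lit 1) (nat_lit 0) (nat_lit 299) (nat_lit 431) (nat_lit 350))) (XT.nd (nat_lit 94) (nat_lit 0) (nat_lit 0) (XT.lf (nat_lit 0) (nat_lit 253965497752) (nat_lit 0) (nat_lit 0) (nat_lit 0) (nat_lit 0) (nat_lit 0) (nat_lit 0) (nat_lit 1) (nat_lit 0) (nat_lit 1) (nat_lit 0) (nat_lit 300) (nat_lit 431) (nat_lit 349)) (XT.nd (nat_lit 94) (nat_lit 0) (nat_lit 0) (XT.lf (nat_lit 0) (nat_lit 253931385940) (nat_lit 0) (nat_lit 0) (nat_lit 0) (nat_lit 0) (nat_lit 0) (nat_lit 0) (nat_lit 1) (nat_lit 0) (nat_lit 1) (nat_lit 0) (nat_lit 301) (nat_lit 431) (nat_lit 348)) (XT.lf (nat_lit 0) (nat_lit 253899800929) (nat_lit 0) (nat_lit 0) (nat_lit 0) (nat_lit 0) (nat_lit 0) (nat_lit 0) (nat_lit 1) (nat_lit 0) (nat_lit 1) (nat_lit 0) (nat_lit 302) (nat_lit 431) (nat_lit 347))))))) (XT.nd (nat_lit 846)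 (nat_lit 0) (nat_lit 0) (XT.nd (nat_lit 376) (nat_lit 0) (nat_lit 0) (XT.nd (nat_lit 188) (nat_lit 0) (nat_lit 0) (XT.nd (nat_lit 94) (nat_lit 0) (nat_lit 0) (XT.lf (nat_lit 0) (nat_lit 253870555548) (nat_lit 0) (nat_lit 0) (nat_lit 0) (nat_lit 0) (nat_lit 0) (nat_lit 0) (nat_lit 1) (nat_lit 0) (nat_lit 1) (nat_lit 0) (nat_lit 303) (nat_lit 431) (nat_lit 346)) (XT.lf (nat_lit 0) (nat_lit 253843476492) (nat_lit 0) (nat_lit 0) (nat_lit 0) (nat_lit 0) (nat_lit 0) (nat_lit 0) (nat_lit 1) (nat_lit 0) (nat_lit 1) (nat_lit 0) (nat_lit 304) (nat_lit 431) (nat_lit 345))) (XT.nd (nat_lit 94) (nat_lit 0) (nat_lit 0) (XT.lf (nat_lit 0) (nat_lit 253818403292) (nat_lit 0) (nat_lit 0) (nat_lit 0) (nat_lit 0) (nat_lit 0) (nat_lit 0) (nat_lit 1) (nat_lit 0) (nat_lit 1) (nat_lit 0) (nat_lit 305) (nat_lit 431) (nat_lit 344)) (XT.lf (nat_lit 0) (nat_lit 253795187366) (nat_lit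 0) (nat_lit 0) (nat_lit 0) (nat_lit 0) (nat_lit 0) (nat_lit 0) (nat_lit 1) (nat_lit 0) (nat_lit 1) (nat_lit 0) (nat_lit 306) (nat_lit 431) (nat_lit 343)))) (XT.nd (nat_lit 188) (nat_lit 0) (nat_lit 0) (XT.nd (nat_lit 94) (nat_lit 0) (nat_lit 0) (XT.lf (nat_lit 0) (nat_lit 253773691138) (nat_lit 0) (nat_lit 0) (nat_lit 0) (nat_lit 0) (nat_lit 0) (nat_lit 0) (nat_lit 1) (nat_lit 0) (nat_lit 1) (nat_lit 0) (nat_lit 307) (nat_lit 431) (nat_lit 342)) (XT.lf (nat_lit 0) (nat_lit 253753787223) (nat_lit 0) (nat_lit 0) (nat_lit 0) (nat_lit 0) (nat_lit 0) (nat_lit 0) (nat_lit 1) (nat_lit 0) (nat_lit 1) (nat_lit 0) (nat_lit 308) (nat_lit 431) (nat_lit 341))) (XT.nd (nat_lit 94) (nat_lit 0) (nat_lit 0) (XT.lf (nat_lit 0) (nat_lit 253735357672) (nat_lit 0) (nat_lit 0) (nat_lit 0) (nat_lit 0) (nat_lit 0) (nat_lit 0) (nat_lit 1) (nat_lit 0) (nat_lit 1) (nat_lit 0) (nat_lit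 309) (nat_lit 431) (nat_lit 340)) (XT.nd (nat_lit 94) (nat_lit 0) (nat_lit 0) (XT.lf (nat_lit 0) (nat_lit 253718293273) (nat_lit 0) (nat_lit 0) (nat_lit 0) (nat_lit 0) (nat_lit 0) (nat_lit 0) (nat_lit 1) (nat_lit 0) (nat_lit 1) (nat_lit 0) (nat_lit 310) (nat_lit 431) (nat_lit 339)) (XT.lf (nat_lit 0) (nat_lit 253702492904) (nat_lit 0) (nat_lit 0) (nat_lit 0) (nat_lit 0) (nat_lit 0) (nat_lit 0) (nat_lit 1) (nat_lit 0) (nat_lit 1) (nat_lit 0) (nat_lit 311) (nat_lit 431) (nat_lit 338)))))) (XT.nd (nat_lit 470) (nat_lit 0) (nat_lit 0) (XT.nd (nat_lit 188) (nat_lit 0) (nat_lit 0) (XT.nd (nat_lit 94) (nat_lit 0) (nat_lit 0) (XT.lf (nat_lit 0) (nat_lit 253687862933) (nat_lit 0) (nat_lit 0) (nat_lit 0) (nat_lit 0) (nat_lit 0) (nat_lit 0) (nat_lit 1) (nat_lit 0) (nat_lit 1) (nat_lit 0) (nat_lit 312) (nat_lit 431) (nat_lit 337)) (XT.lf (nat_lit 0) (nat_lit 253674316663)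 (nat_lit 0) (nat_lit 0) (nat_lit 0) (nat_lit 0) (nat_lit 0) (nat_lit 0) (nat_lit 1) (nat_lit 0) (nat_lit 1) (nat_lit 0) (nat_lit 313) (nat_lit 431) (nat_lit 336))) (XT.nd (nat_lit 94) (nat_lit 0) (nat_lit 0) (XT.lf (nat_lit 0) (nat_lit 253661773820) (nat_lit 0) (nat_lit 0) (nat_lit 0) (nat_lit 0) (nat_lit 0) (nat_lit 0) (nat_lit 1) (nat_lit 0) (nat_lit 1) (nat_lit 0) (nat_lit 314) (nat_lit 431) (nat_lit 335)) (XT.nd (nat_lit 94) (nat_lit 0) (nat_lit 0) (XT.lf (nat_lit 0) (nat_lit 253650160077) (nat_lit 0) (nat_lit 0) (nat_lit 0) (nat_lit 0) (nat_lit 0) (nat_lit 0) (nat_lit 1) (nat_lit 0) (nat_lit 1) (nat_lit 0) (nat_lit 315) (nat_lit 431) (nat_lit 334)) (XT.lf (nat_lit 0) (nat_lit 253639406611) (nat_lit 0) (nat_lit 0) (nat_lit 0) (nat_lit 0) (nat_lit 0) (nat_lit 0) (nat_lit 1) (nat_lit 0) (nat_lit 1) (nat_lit 0) (nat_lit 316) (nat_lit 431) (nat_lit 333)))))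 (XT.nd (nat_lit 188) (nat_lit 0) (nat_lit 0) (XT.nd (nat_lit 94) (nat_lit 0) (nat_lit 0) (XT.lf (nat_lit 0) (nat_lit 253629449699) (nat_lit 0) (nat_lit 0) (nat_lit 0) (nat_lit 0) (nat_lit 0) (nat_lit 0) (nat_lit 1) (nat_lit 0) (nat_lit 1) (nat_lit 0) (nat_lit 317) (nat_lit 431) (nat_lit 332)) (XT.lf (nat_lit 0) (nat_lit 253620230335) (nat_lit 0) (nat_lit 0) (nat_lit 0) (nat_lit 0) (nat_lit 0) (nat_lit 0) (nat_lit 1) (nat_lit 0) (nat_lit 1) (nat_lit 0) (nat_lit 318) (nat_lit 431) (nat_lit 331))) (XT.nd (nat_lit 94) (nat_lit 0) (nat_lit 0) (XT.lf (nat_lit 0) (nat_lit 253611693887) (nat_lit 0) (nat_lit 0) (nat_lit 0) (nat_lit 0) (nat_lit 0) (nat_lit 0) (nat_lit 1) (nat_lit 0) (nat_lit 1) (nat_lit 0) (nat_lit 319) (nat_lit 431) (nat_lit 330)) (XT.nd (nat_lit 94) (nat_lit 0) (nat_lit 0) (XT.lf (nat_lit 0) (nat_lit 253603789769) (nat_lit 0) (nat_lit 0) (nat_lit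 0) (nat_lit 0) (nat_lit 0) (nat_lit 0) (nat_lit 1) (nat_lit 0) (nat_lit 1) (nat_lit 0) (nat_lit 320) (nat_lit 431) (nat_lit 329)) (XT.lf (nat_lit 0) (nat_lit 253596471140) (nat_lit 0) (nat_lit 0) (nat_lit 0) (nat_lit 0) (nat_lit 0) (nat_lit 0) (nat_lit 1) (nat_lit 0) (nat_lit 1) (nat_lit 0) (nat_lit 321) (nat_lit 431) (nat_lit 328))))))))
noncomputable def ec312 : XT := (XT.nd (nat_lit 1692) (nat_lit 0) (nat_lit 0) (XT.nd (nat_lit 846) (nat_lit 0) (nat_lit 0) (XT.nd (nat_lit 376) (nat_lit 0) (nat_lit 0) (XT.nd (nat_lit 188) (nat_lit 0) (nat_lit 0) (XT.nd (nat_lit 94) (nat_lit 0) (nat_lit 0) (XT.lf (nat_lit 0) (nat_lit 253589694633) (nat_lit 0) (nat_lit 0) (nat_lit 0) (nat_lit 0) (nat_lit 0) (nat_lit 0) (nat_lit 1) (nat_lit 0) (nat_lit 1) (nat_lit 0) (nat_lit 322) (nat_lit 431) (nat_lit 327)) (XT.lf (nat_lit 0) (nat_lit 253583420089) (nat_lit 0) (nat_lit 0)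 (nat_lit 0) (nat_lit 0) (nat_lit 0) (nat_lit 0) (nat_lit 1) (nat_lit 0) (nat_lit 1) (nat_lit 0) (nat_lit 323) (nat_lit 431) (nat_lit 326))) (XT.nd (nat_lit 94) (nat_lit 0) (nat_lit 0) (XT.lf (nat_lit 0) (nat_lit 253577610326) (nat_lit 0) (nat_lit 0) (nat_lit 0) (nat_lit 0) (nat_lit 0) (nat_lit 0) (nat_lit 1) (nat_lit 0) (nat_lit 1) (nat_lit 0) (nat_lit 324) (nat_lit 431) (nat_lit 325)) (XT.lf (nat_lit 0) (nat_lit 253572230916) (nat_lit 0) (nat_lit 0) (nat_lit 0) (nat_lit 0) (nat_lit 0) (nat_lit 0) (nat_lit 1) (nat_lit 0) (nat_lit 1) (nat_lit 0) (nat_lit 325) (nat_lit 431) (nat_lit 324)))) (XT.nd (nat_lit 188) (nat_lit 0) (nat_lit 0) (XT.nd (nat_lit 94) (nat_lit 0) (nat_lit 0) (XT.lf (nat_lit 0) (nat_lit 253567249980) (nat_lit 0) (nat_lit 0) (nat_lit 0) (nat_lit 0) (nat_lit 0) (nat_lit 0) (nat_lit 1) (nat_lit 0) (nat_lit 1) (nat_lit 0) (nat_lit 326) (nat_lit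 431) (nat_lit 323)) (XT.lf (nat_lit 0) (nat_lit 253562638003) (nat_lit 0) (nat_lit 0) (nat_lit 0) (nat_lit 0) (nat_lit 0) (nat_lit 0) (nat_lit 1) (nat_lit 0) (nat_lit 1) (nat_lit 0) (nat_lit 327) (nat_lit 431) (nat_lit 322))) (XT.nd (nat_lit 94) (nat_lit 0) (nat_lit 0) (XT.lf (nat_lit 0) (nat_lit 253558367654) (nat_lit 0) (nat_lit 0) (nat_lit 0) (nat_lit 0) (nat_lit 0) (nat_lit 0) (nat_lit 1) (nat_lit 0) (nat_lit 1) (nat_lit 0) (nat_lit 328) (nat_lit 431) (nat_lit 321)) (XT.nd (nat_lit 94) (nat_lit 0) (nat_lit 0) (XT.lf (nat_lit 0) (nat_lit 253554413627) (nat_lit 0) (nat_lit 0) (nat_lit 0) (nat_lit 0) (nat_lit 0) (nat_lit 0) (nat_lit 1) (nat_lit 0) (nat_lit 1) (nat_lit 0) (nat_lit 329) (nat_lit 431) (nat_lit 320)) (XT.lf (nat_lit 0) (nat_lit 253550752491) (nat_lit 0) (nat_lit 0) (nat_lit 0) (nat_lit 0) (nat_lit 0) (nat_lit 0) (nat_lit 1) (nat_lit 0) (nat_lit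 1) (nat_lit 0) (nat_lit 330) (nat_lit 431) (nat_lit 319)))))) (XT.nd (nat_lit 376) (nat_lit 0) (nat_lit 0) (XT.nd (nat_lit 188) (nat_lit 0) (nat_lit 0) (XT.nd (nat_lit 94) (nat_lit 0) (nat_lit 0) (XT.lf (nat_lit 0) (nat_lit 253547362550) (nat_lit 0) (nat_lit 0) (nat_lit 0) (nat_lit 0) (nat_lit 0) (nat_lit 0) (nat_lit 1) (nat_lit 0) (nat_lit 1) (nat_lit 0) (nat_lit 331) (nat_lit 431) (nat_lit 318)) (XT.lf (nat_lit 0) (nat_lit 253544223716) (nat_lit 0) (nat_lit 0) (nat_lit 0) (nat_lit 0) (nat_lit 0) (nat_lit 0) (nat_lit 1) (nat_lit 0) (nat_lit 1) (nat_lit 0) (nat_lit 332) (nat_lit 431) (nat_lit 317))) (XT.nd (nat_lit 94) (nat_lit 0) (nat_lit 0) (XT.lf (nat_lit 0) (nat_lit 253541317388) (nat_lit 0) (nat_lit 0) (nat_lit 0) (nat_lit 0) (nat_lit 0) (nat_lit 0) (nat_lit 1) (nat_lit 0) (nat_lit 1) (nat_lit 0) (nat_lit 333) (nat_lit 431) (nat_lit 316)) (XT.lf (nat_lit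 0) (nat_lit 253538626343) (nat_lit 0) (nat_lit 0) (nat_lit 0) (nat_lit 0) (nat_lit 0) (nat_lit 0) (nat_lit 1) (nat_lit 0) (nat_lit 1) (nat_lit 0) (nat_lit 334) (nat_lit 431) (nat_lit 315)))) (XT.nd (nat_lit 188) (nat_lit 0) (nat_lit 0) (XT.nd (nat_lit 94) (nat_lit 0) (nat_lit 0) (XT.lf (nat_lit 0) (nat_lit 253536134636) (nat_lit 0) (nat_lit 0) (nat_lit 0) (nat_lit 0) (nat_lit 0) (nat_lit 0) (nat_lit 1) (nat_lit 0) (nat_lit 1) (nat_lit 0) (nat_lit 335) (nat_lit 431) (nat_lit 314)) (XT.lf (nat_lit 0) (nat_lit 253533827499) (nat_lit 0) (nat_lit 0) (nat_lit 0) (nat_lit 0) (nat_lit 0) (nat_lit 0) (nat_lit 1) (nat_lit 0) (nat_lit 1) (nat_lit 0) (nat_lit 336) (nat_lit 431) (nat_lit 313))) (XT.nd (nat_lit 94) (nat_lit 0) (nat_lit 0) (XT.lf (nat_lit 0) (nat_lit 253531691261) (nat_lit 0) (nat_lit 0) (nat_lit 0) (nat_lit 0) (nat_lit 0) (nat_lit 0) (nat_lit 1) (nat_lit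 0) (nat_lit 1) (nat_lit 0) (nat_lit 337) (nat_lit 431) (nat_lit 312)) (XT.nd (nat_lit 94) (nat_lit 0) (nat_lit 0) (XT.lf (nat_lit 0) (nat_lit 253529713263) (nat_lit 0) (nat_lit 0) (nat_lit 0) (nat_lit 0) (nat_lit 0) (nat_lit 0) (nat_lit 1) (nat_lit 0) (nat_lit 1) (nat_lit 0) (nat_lit 338) (nat_lit 431) (nat_lit 311)) (XT.lf (nat_lit 0) (nat_lit 253527881784) (nat_lit 0) (nat_lit 0) (nat_lit 0) (nat_lit 0) (nat_lit 0) (nat_lit 0) (nat_lit 1) (nat_lit 0) (nat_lit 1) (nat_lit 0) (nat_lit 339) (nat_lit 431) (nat_lit 310))))))) (XT.nd (nat_lit 846) (nat_lit 0) (nat_lit 0) (XT.nd (nat_lit 376) (nat_lit 0) (nat_lit 0) (XT.nd (nat_lit 188) (nat_lit 0) (nat_lit 0) (XT.nd (nat_lit 94) (nat_lit 0) (nat_lit 0) (XT.lf (nat_lit 0) (nat_lit 253526185969) (nat_lit 0) (nat_lit 0) (nat_lit 0) (nat_lit 0) (nat_lit 0) (nat_lit 0) (nat_lit 1) (nat_lit 0) (nat_lit 1) (nat_lit 0)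 (nat_lit 340) (nat_lit 431) (nat_lit 309)) (XT.lf (nat_lit 0) (nat_lit 253524615771) (nat_lit 0) (nat_lit 0) (nat_lit 0) (nat_lit 0) (nat_lit 0) (nat_lit 0) (nat_lit 1) (nat_lit 0) (nat_lit 1) (nat_lit 0) (nat_lit 341) (nat_lit 431) (nat_lit 308))) (XT.nd (nat_lit 94) (nat_lit 0) (nat_lit 0) (XT.lf (nat_lit 0) (nat_lit 253523161883) (nat_lit 0) (nat_lit 0) (nat_lit 0) (nat_lit 0) (nat_lit 0) (nat_lit 0) (nat_lit 1) (nat_lit 0) (nat_lit 1) (nat_lit 0) (nat_lit 342) (nat_lit 431) (nat_lit 307)) (XT.lf (nat_lit 0) (nat_lit 253521815691) (nat_lit 0) (nat_lit 0) (nat_lit 0) (nat_lit 0) (nat_lit 0) (nat_lit 0) (nat_lit 1) (nat_lit 0) (nat_lit 1) (nat_lit 0) (nat_lit 343) (nat_lit 431) (nat_lit 306)))) (XT.nd (nat_lit 188) (nat_lit 0) (nat_lit 0) (XT.nd (nat_lit 94) (nat_lit 0) (nat_lit 0) (XT.lf (nat_lit 0) (nat_lit 253520569217) (nat_lit 0) (nat_lit 0) (nat_lit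 0) (nat_lit 0) (nat_lit 0) (nat_lit 0) (nat_lit 1) (nat_lit 0) (nat_lit 1) (nat_lit 0) (nat_lit 344) (nat_lit 431) (nat_lit 305)) (XT.lf (nat_lit 0) (nat_lit 253519415074) (nat_lit 0) (nat_lit 0) (nat_lit 0) (nat_lit 0) (nat_lit 0) (nat_lit 0) (nat_lit 1) (nat_lit 0) (nat_lit 1) (nat_lit 0) (nat_lit 345) (nat_lit 431) (nat_lit 304))) (XT.nd (nat_lit 94) (nat_lit 0) (nat_lit 0) (XT.lf (nat_lit 0) (nat_lit 253518346423) (nat_lit 0) (nat_lit 0) (nat_lit 0) (nat_lit 0) (nat_lit 0) (nat_lit 0) (nat_lit 1) (nat_lit 0) (nat_lit 1) (nat_lit 0) (nat_lit 346) (nat_lit 431) (nat_lit 303)) (XT.nd (nat_lit 94) (nat_lit 0) (nat_lit 0) (XT.lf (nat_lit 0) (nat_lit 253517356932) (nat_lit 0) (nat_lit 0) (nat_lit 0) (nat_lit 0) (nat_lit 0) (nat_lit 0) (nat_lit 1) (nat_lit 0) (nat_lit 1) (nat_lit 0) (nat_lit 347) (nat_lit 431) (nat_lit 302)) (XT.lf (nat_lit 0) (nat_lit 253516440736)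 (nat_lit 0) (nat_lit 0) (nat_lit 0) (nat_lit 0) (nat_lit 0) (nat_lit 0) (nat_lit 1) (nat_lit 0) (nat_lit 1) (nat_lit 0) (nat_lit 348) (nat_lit 431) (nat_lit 301)))))) (XT.nd (nat_lit 470) (nat_lit 0) (nat_lit 0) (XT.nd (nat_lit 188) (nat_lit 0) (nat_lit 0) (XT.nd (nat_lit 94) (nat_lit 0) (nat_lit 0) (XT.lf (nat_lit 0) (nat_lit 253515592406) (nat_lit 0) (nat_lit 0) (nat_lit 0) (nat_lit 0) (nat_lit 0) (nat_lit 0) (nat_lit 1) (nat_lit 0) (nat_lit 1) (nat_lit 0) (nat_lit 349) (nat_lit 431) (nat_lit 300)) (XT.lf (nat_lit 0) (nat_lit 253514806916) (nat_lit 0) (nat_lit 0) (nat_lit 0) (nat_lit 0) (nat_lit 0) (nat_lit 0) (nat_lit 1) (nat_lit 0) (nat_lit 1) (nat_lit 0) (nat_lit 350) (nat_lit 431) (nat_lit 299))) (XT.nd (nat_lit 94) (nat_lit 0) (nat_lit 0) (XT.lf (nat_lit 0) (nat_lit 253514079610) (nat_lit 0) (nat_lit 0) (nat_lit 0) (nat_lit 0) (nat_lit 0) (nat_lit 0)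 (nat_lit 1) (nat_lit 0) (nat_lit 1) (nat_lit 0) (nat_lit 351) (nat_lit 431) (nat_lit 298)) (XT.nd (nat_lit 94) (nat_lit 0) (nat_lit 0) (XT.lf (nat_lit 0) (nat_lit 253513406179) (nat_lit 0) (nat_lit 0) (nat_lit 0) (nat_lit 0) (nat_lit 0) (nat_lit 0) (nat_lit 1) (nat_lit 0) (nat_lit 1) (nat_lit 0) (nat_lit 352) (nat_lit 431) (nat_lit 297)) (XT.lf (nat_lit 0) (nat_lit 253512782632) (nat_lit 0) (nat_lit 0) (nat_lit 0) (nat_lit 0) (nat_lit 0) (nat_lit 0) (nat_lit 1) (nat_lit 0) (nat_lit 1) (nat_lit 0) (nat_lit 353) (nat_lit 431) (nat_lit 296))))) (XT.nd (nat_lit 188) (nat_lit 0) (nat_lit 0) (XT.nd (nat_lit 94) (nat_lit 0) (nat_lit 0) (XT.lf (nat_lit 0) (nat_lit 253512205273) (nat_lit 0) (nat_lit 0) (nat_lit 0) (nat_lit 0) (nat_lit 0) (nat_lit 0) (nat_lit 1) (nat_lit 0) (nat_lit 1) (nat_lit 0) (nat_lit 354) (nat_lit 431) (nat_lit 295)) (XT.lf (nat_lit 0) (nat_lit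 253511670682) (nat_lit 0) (nat_lit 0) (nat_lit 0) (nat_lit 0) (nat_lit 0) (nat_lit 0) (nat_lit 1) (nat_lit 0) (nat_lit 1) (nat_lit 0) (nat_lit 355) (nat_lit 431) (nat_lit 294))) (XT.nd (nat_lit 94) (nat_lit 0) (nat_lit 0) (XT.lf (nat_lit 0) (nat_lit 253511175690) (nat_lit 0) (nat_lit 0) (nat_lit 0) (nat_lit 0) (nat_lit 0) (nat_lit 0) (nat_lit 1) (nat_lit 0) (nat_lit 1) (nat_lit 0) (nat_lit 356) (nat_lit 431) (nat_lit 293)) (XT.nd (nat_lit 94) (nat_lit 0) (nat_lit 0) (XT.lf (nat_lit 0) (nat_lit 253510717364) (nat_lit 0) (nat_lit 0) (nat_lit 0) (nat_lit 0) (nat_lit 0) (nat_lit 0) (nat_lit 1) (nat_lit 0) (nat_lit 1) (nat_lit 0) (nat_lit 357) (nat_lit 431) (nat_lit 292)) (XT.lf (nat_lit 0) (nat_lit 253510292988) (nat_lit 0) (nat_lit 0) (nat_lit 0) (nat_lit 0) (nat_lit 0) (nat_lit 0) (nat_lit 1) (nat_lit 0) (nat_lit 1) (nat_lit 0) (nat_lit 358) (nat_lit 431) (nat_lit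 291))))))))
noncomputable def ec313 : XT := (XT.nd (nat_lit 1786) (nat_lit 0) (nat_lit 0) (XT.nd (nat_lit 846) (nat_lit 0) (nat_lit 0) (XT.nd (nat_lit 376) (nat_lit 0) (nat_lit 0) (XT.nd (nat_lit 188) (nat_lit 0) (nat_lit 0) (XT.nd (nat_lit 94) (nat_lit 0) (nat_lit 0) (XT.lf (nat_lit 0) (nat_lit 253509900047) (nat_lit 0) (nat_lit 0) (nat_lit 0) (nat_lit 0) (nat_lit 0) (nat_lit 0) (nat_lit 1) (nat_lit 0) (nat_lit 1) (nat_lit 0) (nat_lit 359) (nat_lit 431) (nat_lit 290)) (XT.lf (nat_lit 0) (nat_lit 253509536213) (nat_lit 0) (nat_lit 0) (nat_lit 0) (nat_lit 0) (nat_lit 0) (nat_lit 0) (nat_lit 1) (nat_lit 0) (nat_lit 1) (nat_lit 0) (nat_lit 360) (nat_lit 431) (nat_lit 289))) (XT.nd (nat_lit 94) (nat_lit 0) (nat_lit 0) (XT.lf (nat_lit 0) (nat_lit 253509199330) (nat_lit 0) (nat_lit 0) (nat_lit 0) (nat_lit 0) (nat_lit 0) (nat_lit 0) (nat_lit 1) (nat_lit 0) (nat_lit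 1) (nat_lit 0) (nat_lit 361) (nat_lit 431) (nat_lit 288)) (XT.lf (nat_lit 0) (nat_lit 253508887401) (nat_lit 0) (nat_lit 0) (nat_lit 0) (nat_lit 0) (nat_lit 0) (nat_lit 0) (nat_lit 1) (nat_lit 0) (nat_lit 1) (nat_lit 0) (nat_lit 362) (nat_lit 431) (nat_lit 287)))) (XT.nd (nat_lit 188) (nat_lit 0) (nat_lit 0) (XT.nd (nat_lit 94) (nat_lit 0) (nat_lit 0) (XT.lf (nat_lit 0) (nat_lit 253508598578) (nat_lit 0) (nat_lit 0) (nat_lit 0) (nat_lit 0) (nat_lit 0) (nat_lit 0) (nat_lit 1) (nat_lit 0) (nat_lit 1) (nat_lit 0) (nat_lit 363) (nat_lit 431) (nat_lit 286)) (XT.lf (nat_lit 0) (nat_lit 253508331149) (nat_lit 0) (nat_lit 0) (nat_lit 0) (nat_lit 0) (nat_lit 0) (nat_lit 0) (nat_lit 1) (nat_lit 0) (nat_lit 1) (nat_lit 0) (nat_lit 364) (nat_lit 431) (nat_lit 285))) (XT.nd (nat_lit 94) (nat_lit 0) (nat_lit 0) (XT.lf (nat_lit 0) (nat_lit 253508083530) (nat_lit 0) (nat_lit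 0) (nat_lit 0) (nat_lit 0) (nat_lit 0) (nat_lit 0) (nat_lit 1) (nat_lit 0) (nat_lit 1) (nat_lit 0) (nat_lit 365) (nat_lit 431) (nat_lit 284)) (XT.nd (nat_lit 94) (nat_lit 0) (nat_lit 0) (XT.lf (nat_lit 0) (nat_lit 253507854252) (nat_lit 0) (nat_lit 0) (nat_lit 0) (nat_lit 0) (nat_lit 0) (nat_lit 0) (nat_lit 1) (nat_lit 0) (nat_lit 1) (nat_lit 0) (nat_lit 366) (nat_lit 431) (nat_lit 283)) (XT.lf (nat_lit 0) (nat_lit 253507641959) (nat_lit 0) (nat_lit 0) (nat_lit 0) (nat_lit 0) (nat_lit 0) (nat_lit 0) (nat_lit 1) (nat_lit 0) (nat_lit 1) (nat_lit 0) (nat_lit 367) (nat_lit 431) (nat_lit 282)))))) (XT.nd (nat_lit 470) (nat_lit 0) (nat_lit 0) (XT.nd (nat_lit 188) (nat_lit 0) (nat_lit 0) (XT.nd (nat_lit 94) (nat_lit 0) (nat_lit 0) (XT.lf (nat_lit 0) (nat_lit 253507445391) (nat_lit 0) (nat_lit 0) (nat_lit 0) (nat_lit 0) (nat_lit 0) (nat_lit 0) (nat_lit 1) (nat_lit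 0) (nat_lit 1) (nat_lit 0) (nat_lit 368) (nat_lit 431) (nat_lit 281)) (XT.lf (nat_lit 0) (nat_lit 253507263383) (nat_lit 0) (nat_lit 0) (nat_lit 0) (nat_lit 0) (nat_lit 0) (nat_lit 0) (nat_lit 1) (nat_lit 0) (nat_lit 1) (nat_lit 0) (nat_lit 369) (nat_lit 431) (nat_lit 280))) (XT.nd (nat_lit 94) (nat_lit 0) (nat_lit 0) (XT.lf (nat_lit 0) (nat_lit 253507094858) (nat_lit 0) (nat_lit 0) (nat_lit 0) (nat_lit 0) (nat_lit 0) (nat_lit 0) (nat_lit 1) (nat_lit 0) (nat_lit 1) (nat_lit 0) (nat_lit 370) (nat_lit 431) (nat_lit 279)) (XT.nd (nat_lit 94) (nat_lit 0) (nat_lit 0) (XT.lf (nat_lit 0) (nat_lit 253506938815) (nat_lit 0) (nat_lit 0) (nat_lit 0) (nat_lit 0) (nat_lit 0) (nat_lit 0) (nat_lit 1) (nat_lit 0) (nat_lit 1) (nat_lit 0) (nat_lit 371) (nat_lit 431) (nat_lit 278)) (XT.lf (nat_lit 0) (nat_lit 253506794332) (nat_lit 0) (nat_lit 0) (nat_lit 0) (nat_lit 0) (nat_lit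 0) (nat_lit 0) (nat_lit 1) (nat_lit 0) (nat_lit 1) (nat_lit 0) (nat_lit 372) (nat_lit 431) (nat_lit 277))))) (XT.nd (nat_lit 188) (nat_lit 0) (nat_lit 0) (XT.nd (nat_lit 94) (nat_lit 0) (nat_lit 0) (XT.lf (nat_lit 0) (nat_lit 253506660551) (nat_lit 0) (nat_lit 0) (nat_lit 0) (nat_lit 0) (nat_lit 0) (nat_lit 0) (nat_lit 1) (nat_lit 0) (nat_lit 1) (nat_lit 0) (nat_lit 373) (nat_lit 431) (nat_lit 276)) (XT.lf (nat_lit 0) (nat_lit 253506536680) (nat_lit 0) (nat_lit 0) (nat_lit 0) (nat_lit 0) (nat_lit 0) (nat_lit 0) (nat_lit 1) (nat_lit 0) (nat_lit 1) (nat_lit 0) (nat_lit 374) (nat_lit 431) (nat_lit 275))) (XT.nd (nat_lit 94) (nat_lit 0) (nat_lit 0) (XT.lf (nat_lit 0) (nat_lit 253506421984) (nat_lit 0) (nat_lit 0) (nat_lit 0) (nat_lit 0) (nat_lit 0) (nat_lit 0) (nat_lit 1) (nat_lit 0) (nat_lit 1) (nat_lit 0) (nat_lit 375) (nat_lit 431) (nat_lit 274)) (XT.nd (nat_lit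 94) (nat_lit 0) (nat_lit 0) (XT.lf (nat_lit 0) (nat_lit 253506315784) (nat_lit 0) (nat_lit 0) (nat_lit 0) (nat_lit 0) (nat_lit 0) (nat_lit 0) (nat_lit 1) (nat_lit 0) (nat_lit 1) (nat_lit 0) (nat_lit 376) (nat_lit 431) (nat_lit 273)) (XT.lf (nat_lit 0) (nat_lit 253506217451) (nat_lit 0) (nat_lit 0) (nat_lit 0) (nat_lit 0) (nat_lit 0) (nat_lit 0) (nat_lit 1) (nat_lit 0) (nat_lit 1) (nat_lit 0) (nat_lit 377) (nat_lit 431) (nat_lit 272))))))) (XT.nd (nat_lit 846) (nat_lit 0) (nat_lit 0) (XT.nd (nat_lit 376) (nat_lit 0) (nat_lit 0) (XT.nd (nat_lit 188) (nat_lit 0) (nat_lit 0) (XT.nd (nat_lit 94) (nat_lit 0) (nat_lit 0) (XT.lf (nat_lit 0) (nat_lit 253506126402) (nat_lit 0) (nat_lit 0) (nat_lit 0) (nat_lit 0) (nat_lit 0) (nat_lit 0) (nat_lit 1) (nat_lit 0) (nat_lit 1) (nat_lit 0) (nat_lit 378) (nat_lit 431) (nat_lit 271)) (XT.lf (nat_lit 0) (nat_lit 253506042098)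 (nat_lit 0) (nat_lit 0) (nat_lit 0) (nat_lit 0) (nat_lit 0) (nat_lit 0) (nat_lit 1) (nat_lit 0) (nat_lit 1) (nat_lit 0) (nat_lit 379) (nat_lit 431) (nat_lit 270))) (XT.nd (nat_lit 94) (nat_lit 0) (nat_lit 0) (XT.lf (nat_lit 0) (nat_lit 253505964038) (nat_lit 0) (nat_lit 0) (nat_lit 0) (nat_lit 0) (nat_lit 0) (nat_lit 0) (nat_lit 1) (nat_lit 0) (nat_lit 1) (nat_lit 0) (nat_lit 380) (nat_lit 431) (nat_lit 269)) (XT.lf (nat_lit 0) (nat_lit 253505891760) (nat_lit 0) (nat_lit 0) (nat_lit 0) (nat_lit 0) (nat_lit 0) (nat_lit 0) (nat_lit 1) (nat_lit 0) (nat_lit 1) (nat_lit 0) (nat_lit 381) (nat_lit 431) (nat_lit 268)))) (XT.nd (nat_lit 188) (nat_lit 0) (nat_lit 0) (XT.nd (nat_lit 94) (nat_lit 0) (nat_lit 0) (XT.lf (nat_lit 0) (nat_lit 253505824836) (nat_lit 0) (nat_lit 0) (nat_lit 0) (nat_lit 0) (nat_lit 0) (nat_lit 0) (nat_lit 1) (nat_lit 0) (nat_lit 1) (nat_lit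 0) (nat_lit 382) (nat_lit 431) (nat_lit 267)) (XT.lf (nat_lit 0) (nat_lit 253505762870) (nat_lit 0) (nat_lit 0) (nat_lit 0) (nat_lit 0) (nat_lit 0) (nat_lit 0) (nat_lit 1) (nat_lit 0) (nat_lit 1) (nat_lit 0) (nat_lit 383) (nat_lit 431) (nat_lit 266))) (XT.nd (nat_lit 94) (nat_lit 0) (nat_lit 0) (XT.lf (nat_lit 0) (nat_lit 253505705493) (nat_lit 0) (nat_lit 0) (nat_lit 0) (nat_lit 0) (nat_lit 0) (nat_lit 0) (nat_lit 1) (nat_lit 0) (nat_lit 1) (nat_lit 0) (nat_lit 384) (nat_lit 431) (nat_lit 265)) (XT.nd (nat_lit 94) (nat_lit 0) (nat_lit 0) (XT.lf (nat_lit 0) (nat_lit 253505652367) (nat_lit 0) (nat_lit 0) (nat_lit 0) (nat_lit 0) (nat_lit 0) (nat_lit 0) (nat_lit 1) (nat_lit 0) (nat_lit 1) (nat_lit 0) (nat_lit 385) (nat_lit 431) (nat_lit 264)) (XT.lf (nat_lit 0) (nat_lit 253505603176) (nat_lit 0) (nat_lit 0) (nat_lit 0) (nat_lit 0) (nat_lit 0) (nat_lit 0) (nat_lit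 1) (nat_lit 0) (nat_lit 1) (nat_lit 0) (nat_lit 386) (nat_lit 431) (nat_lit 263)))))) (XT.nd (nat_lit 470) (nat_lit 0) (nat_lit 0) (XT.nd (nat_lit 188) (nat_lit 0) (nat_lit 0) (XT.nd (nat_lit 94) (nat_lit 0) (nat_lit 0) (XT.lf (nat_lit 0) (nat_lit 253505557629) (nat_lit 0) (nat_lit 0) (nat_lit 0) (nat_lit 0) (nat_lit 0) (nat_lit 0) (nat_lit 1) (nat_lit 0) (nat_lit 1) (nat_lit 0) (nat_lit 387) (nat_lit 431) (nat_lit 262)) (XT.lf (nat_lit 0) (nat_lit 253505515456) (nat_lit 0) (nat_lit 0) (nat_lit 0) (nat_lit 0) (nat_lit 0) (nat_lit 0) (nat_lit 1) (nat_lit 0) (nat_lit 1) (nat_lit 0) (nat_lit 388) (nat_lit 431) (nat_lit 261))) (XT.nd (nat_lit 94) (nat_lit 0) (nat_lit 0) (XT.lf (nat_lit 0) (nat_lit 253505476406) (nat_lit 0) (nat_lit 0) (nat_lit 0) (nat_lit 0) (nat_lit 0) (nat_lit 0) (nat_lit 1) (nat_lit 0) (nat_lit 1) (nat_lit 0) (nat_lit 389) (nat_lit 431) (nat_lit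 260)) (XT.nd (nat_lit 94) (nat_lit 0) (nat_lit 0) (XT.lf (nat_lit 0) (nat_lit 253505440249) (nat_lit 0) (nat_lit 0) (nat_lit 0) (nat_lit 0) (nat_lit 0) (nat_lit 0) (nat_lit 1) (nat_lit 0) (nat_lit 1) (nat_lit 0) (nat_lit 390) (nat_lit 431) (nat_lit 259)) (XT.lf (nat_lit 0) (nat_lit 253505406771) (nat_lit 0) (nat_lit 0) (nat_lit 0) (nat_lit 0) (nat_lit 0) (nat_lit 0) (nat_lit 1) (nat_lit 0) (nat_lit 1) (nat_lit 0) (nat_lit 391) (nat_lit 431) (nat_lit 258))))) (XT.nd (nat_lit 188) (nat_lit 0) (nat_lit 0) (XT.nd (nat_lit 94) (nat_lit 0) (nat_lit 0) (XT.lf (nat_lit 0) (nat_lit 253505375772) (nat_lit 0) (nat_lit 0) (nat_lit 0) (nat_lit 0) (nat_lit 0) (nat_lit 0) (nat_lit 1) (nat_lit 0) (nat_lit 1) (nat_lit 0) (nat_lit 392) (nat_lit 431) (nat_lit 257)) (XT.lf (nat_lit 0) (nat_lit 253505347070) (nat_lit 0) (nat_lit 0) (nat_lit 0) (nat_lit 0) (nat_lit 0) (nat_lit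 0) (nat_lit 1) (nat_lit 0) (nat_lit 1) (nat_lit 0) (nat_lit 393) (nat_lit 431) (nat_lit 256))) (XT.nd (nat_lit 94) (nat_lit 0) (nat_lit 0) (XT.lf (nat_lit 0) (nat_lit 253505320493) (nat_lit 0) (nat_lit 0) (nat_lit 0) (nat_lit 0) (nat_lit 0) (nat_lit 0) (nat_lit 1) (nat_lit 0) (nat_lit 1) (nat_lit 0) (nat_lit 394) (nat_lit 431) (nat_lit 255)) (XT.nd (nat_lit 94) (nat_lit 0) (nat_lit 0) (XT.lf (nat_lit 0) (nat_lit 253505295885) (nat_lit 0) (nat_lit 0) (nat_lit 0) (nat_lit 0) (nat_lit 0) (nat_lit 0) (nat_lit 1) (nat_lit 0) (nat_lit 1) (nat_lit 0) (nat_lit 395) (nat_lit 431) (nat_lit 254)) (XT.lf (nat_lit 0) (nat_lit 253505273101) (nat_lit 0) (nat_lit 0) (nat_lit 0) (nat_lit 0) (nat_lit 0) (nat_lit 0) (nat_lit 1) (nat_lit 0) (nat_lit 1) (nat_lit 0) (nat_lit 396) (nat_lit 431) (nat_lit 253))))))))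
noncomputable def ec314 : XT := (XT.nd (nat_lit 1692) (nat_lit 0) (nat_lit 0) (XT.nd (nat_lit 846) (nat_lit 0) (nat_lit 0) (XT.nd (nat_lit 376) (nat_lit 0) (nat_lit 0) (XT.nd (nat_lit 188) (nat_lit 0) (nat_lit 0) (XT.nd (nat_lit 94) (nat_lit 0) (nat_lit 0) (XT.lf (nat_lit 0) (nat_lit 253505252003) (nat_lit 0) (nat_lit 0) (nat_lit 0) (nat_lit 0) (nat_lit 0) (nat_lit 0) (nat_lit 1) (nat_lit 0) (nat_lit 1) (nat_lit 0) (nat_lit 397) (nat_lit 431) (nat_lit 252)) (XT.lf (nat_lit 0) (nat_lit 253505232469) (nat_lit 0) (nat_lit 0) (nat_lit 0) (nat_lit 0) (nat_lit 0) (nat_lit 0) (nat_lit 1) (nat_lit 0) (nat_lit 1) (nat_lit 0) (nat_lit 398) (nat_lit 431) (nat_lit 251))) (XT.nd (nat_lit 94) (nat_lit 0) (nat_lit 0) (XT.lf (nat_lit 0) (nat_lit 253505214382) (nat_lit 0) (nat_lit 0) (nat_lit 0) (nat_lit 0) (nat_lit 0) (nat_lit 0) (nat_lit 1) (nat_lit 0) (nat_lit 1) (nat_lit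 0) (nat_lit 399) (nat_lit 431) (nat_lit 250)) (XT.lf (nat_lit 0) (nat_lit 253505197634) (nat_lit 0) (nat_lit 0) (nat_lit 0) (nat_lit 0) (nat_lit 0) (nat_lit 0) (nat_lit 1) (nat_lit 0) (nat_lit 1) (nat_lit 0) (nat_lit 400) (nat_lit 431) (nat_lit 249)))) (XT.nd (nat_lit 188) (nat_lit 0) (nat_lit 0) (XT.nd (nat_lit 94) (nat_lit 0) (nat_lit 0) (XT.lf (nat_lit 0) (nat_lit 253505182127) (nat_lit 0) (nat_lit 0) (nat_lit 0) (nat_lit 0) (nat_lit 0) (nat_lit 0) (nat_lit 1) (nat_lit 0) (nat_lit 1) (nat_lit 0) (nat_lit 401) (nat_lit 431) (nat_lit 248)) (XT.lf (nat_lit 0) (nat_lit 253505167768) (nat_lit 0) (nat_lit 0) (nat_lit 0) (nat_lit 0) (nat_lit 0) (nat_lit 0) (nat_lit 1) (nat_lit 0) (nat_lit 1) (nat_lit 0) (nat_lit 402) (nat_lit 431) (nat_lit 247))) (XT.nd (nat_lit 94) (nat_lit 0) (nat_lit 0) (XT.lf (nat_lit 0) (nat_lit 253505154474) (nat_lit 0) (nat_lit 0) (nat_lit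 0) (nat_lit 0) (nat_lit 0) (nat_lit 0) (nat_lit 1) (nat_lit 0) (nat_lit 1) (nat_lit 0) (nat_lit 403) (nat_lit 431) (nat_lit 246)) (XT.nd (nat_lit 94) (nat_lit 0) (nat_lit 0) (XT.lf (nat_lit 0) (nat_lit 253505142164) (nat_lit 0) (nat_lit 0) (nat_lit 0) (nat_lit 0) (nat_lit 0) (nat_lit 0) (nat_lit 1) (nat_lit 0) (nat_lit 1) (nat_lit 0) (nat_lit 404) (nat_lit 431) (nat_lit 245)) (XT.lf (nat_lit 0) (nat_lit 253505130766) (nat_lit 0) (nat_lit 0) (nat_lit 0) (nat_lit 0) (nat_lit 0) (nat_lit 0) (nat_lit 1) (nat_lit 0) (nat_lit 1) (nat_lit 0) (nat_lit 405) (nat_lit 431) (nat_lit 244)))))) (XT.nd (nat_lit 376) (nat_lit 0) (nat_lit 0) (XT.nd (nat_lit 188) (nat_lit 0) (nat_lit 0) (XT.nd (nat_lit 94) (nat_lit 0) (nat_lit 0) (XT.lf (nat_lit 0) (nat_lit 253505120212) (nat_lit 0) (nat_lit 0) (nat_lit 0) (nat_lit 0) (nat_lit 0) (nat_lit 0) (nat_lit 1) (nat_lit 0) (nat_lit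 1) (nat_lit 0) (nat_lit 406) (nat_lit 431) (nat_lit 243)) (XT.lf (nat_lit 0) (nat_lit 253505110440) (nat_lit 0) (nat_lit 0) (nat_lit 0) (nat_lit 0) (nat_lit 0) (nat_lit 0) (nat_lit 1) (nat_lit 0) (nat_lit 1) (nat_lit 0) (nat_lit 407) (nat_lit 431) (nat_lit 242))) (XT.nd (nat_lit 94) (nat_lit 0) (nat_lit 0) (XT.lf (nat_lit 0) (nat_lit 253505101391) (nat_lit 0) (nat_lit 0) (nat_lit 0) (nat_lit 0) (nat_lit 0) (nat_lit 0) (nat_lit 1) (nat_lit 0) (nat_lit 1) (nat_lit 0) (nat_lit 408) (nat_lit 431) (nat_lit 241)) (XT.lf (nat_lit 0) (nat_lit 253505093013) (nat_lit 0) (nat_lit 0) (nat_lit 0) (nat_lit 0) (nat_lit 0) (nat_lit 0) (nat_lit 1) (nat_lit 0) (nat_lit 1) (nat_lit 0) (nat_lit 409) (nat_lit 431) (nat_lit 240)))) (XT.nd (nat_lit 188) (nat_lit 0) (nat_lit 0) (XT.nd (nat_lit 94) (nat_lit 0) (nat_lit 0) (XT.lf (nat_lit 0) (nat_lit 253505085256) (nat_lit 0) (nat_lit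 0) (nat_lit 0) (nat_lit 0) (nat_lit 0) (nat_lit 0) (nat_lit 1) (nat_lit 0) (nat_lit 1) (nat_lit 0) (nat_lit 410) (nat_lit 431) (nat_lit 239)) (XT.lf (nat_lit 0) (nat_lit 253505078073) (nat_lit 0) (nat_lit 0) (nat_lit 0) (nat_lit 0) (nat_lit 0) (nat_lit 0) (nat_lit 1) (nat_lit 0) (nat_lit 1) (nat_lit 0) (nat_lit 411) (nat_lit 431) (nat_lit 238))) (XT.nd (nat_lit 94) (nat_lit 0) (nat_lit 0) (XT.lf (nat_lit 0) (nat_lit 253505071423) (nat_lit 0) (nat_lit 0) (nat_lit 0) (nat_lit 0) (nat_lit 0) (nat_lit 0) (nat_lit 1) (nat_lit 0) (nat_lit 1) (nat_lit 0) (nat_lit 412) (nat_lit 431) (nat_lit 237)) (XT.nd (nat_lit 94) (nat_lit 0) (nat_lit 0) (XT.lf (nat_lit 0) (nat_lit 253505065264) (nat_lit 0) (nat_lit 0) (nat_lit 0) (nat_lit 0) (nat_lit 0) (nat_lit 0) (nat_lit 1) (nat_lit 0) (nat_lit 1) (nat_lit 0) (nat_lit 413) (nat_lit 431) (nat_lit 236)) (XT.lf (nat_lit 0) (nat_lit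 253505059563) (nat_lit 0) (nat_lit 0) (nat_lit 0) (nat_lit 0) (nat_lit 0) (nat_lit 0) (nat_lit 1) (nat_lit 0) (nat_lit 1) (nat_lit 0) (nat_lit 414) (nat_lit 431) (nat_lit 235))))))) (XT.nd (nat_lit 846) (nat_lit 0) (nat_lit 0) (XT.nd (nat_lit 376) (nat_lit 0) (nat_lit 0) (XT.nd (nat_lit 188) (nat_lit 0) (nat_lit 0) (XT.nd (nat_lit 94) (nat_lit 0) (nat_lit 0) (XT.lf (nat_lit 0) (nat_lit 253505054283) (nat_lit 0) (nat_lit 0) (nat_lit 0) (nat_lit 0) (nat_lit 0) (nat_lit 0) (nat_lit 1) (nat_lit 0) (nat_lit 1) (nat_lit 0) (nat_lit 415) (nat_lit 431) (nat_lit 234)) (XT.lf (nat_lit 0) (nat_lit 253505049395) (nat_lit 0) (nat_lit 0) (nat_lit 0) (nat_lit 0) (nat_lit 0) (nat_lit 0) (nat_lit 1) (nat_lit 0) (nat_lit 1) (nat_lit 0) (nat_lit 416) (nat_lit 431) (nat_lit 233))) (XT.nd (nat_lit 94) (nat_lit 0) (nat_lit 0) (XT.lf (nat_lit 0) (nat_lit 253505044868) (nat_lit 0)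 (nat_lit 0) (nat_lit 0) (nat_lit 0) (nat_lit 0) (nat_lit 0) (nat_lit 1) (nat_lit 0) (nat_lit 1) (nat_lit 0) (nat_lit 417) (nat_lit 431) (nat_lit 232)) (XT.lf (nat_lit 0) (nat_lit 253505040677) (nat_lit 0) (nat_lit 0) (nat_lit 0) (nat_lit 0) (nat_lit 0) (nat_lit 0) (nat_lit 1) (nat_lit 0) (nat_lit 1) (nat_lit 0) (nat_lit 418) (nat_lit 431) (nat_lit 231)))) (XT.nd (nat_lit 188) (nat_lit 0) (nat_lit 0) (XT.nd (nat_lit 94) (nat_lit 0) (nat_lit 0) (XT.lf (nat_lit 0) (nat_lit 253505036797) (nat_lit 0) (nat_lit 0) (nat_lit 0) (nat_lit 0) (nat_lit 0) (nat_lit 0) (nat_lit 1) (nat_lit 0) (nat_lit 1) (nat_lit 0) (nat_lit 419) (nat_lit 431) (nat_lit 230)) (XT.lf (nat_lit 0) (nat_lit 253505033203) (nat_lit 0) (nat_lit 0) (nat_lit 0) (nat_lit 0) (nat_lit 0) (nat_lit 0) (nat_lit 1) (nat_lit 0) (nat_lit 1) (nat_lit 0) (nat_lit 420) (nat_lit 431) (nat_lit 229))) (XT.nd (nat_lit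 94) (nat_lit 0) (nat_lit 0) (XT.lf (nat_lit 0) (nat_lit 253505029876) (nat_lit 0) (nat_lit 0) (nat_lit 0) (nat_lit 0) (nat_lit 0) (nat_lit 0) (nat_lit 1) (nat_lit 0) (nat_lit 1) (nat_lit 0) (nat_lit 421) (nat_lit 431) (nat_lit 228)) (XT.nd (nat_lit 94) (nat_lit 0) (nat_lit 0) (XT.lf (nat_lit 0) (nat_lit 253505026796) (nat_lit 0) (nat_lit 0) (nat_lit 0) (nat_lit 0) (nat_lit 0) (nat_lit 0) (nat_lit 1) (nat_lit 0) (nat_lit 1) (nat_lit 0) (nat_lit 422) (nat_lit 431) (nat_lit 227)) (XT.lf (nat_lit 0) (nat_lit 253505023943) (nat_lit 0) (nat_lit 0) (nat_lit 0) (nat_lit 0) (nat_lit 0) (nat_lit 0) (nat_lit 1) (nat_lit 0) (nat_lit 1) (nat_lit 0) (nat_lit 423) (nat_lit 431) (nat_lit 226)))))) (XT.nd (nat_lit 470) (nat_lit 0) (nat_lit 0) (XT.nd (nat_lit 188) (nat_lit 0) (nat_lit 0) (XT.nd (nat_lit 94) (nat_lit 0) (nat_lit 0) (XT.lf (nat_lit 0) (nat_lit 253505021302) (nat_lit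 0) (nat_lit 0) (nat_lit 0) (nat_lit 0) (nat_lit 0) (nat_lit 0) (nat_lit 1) (nat_lit 0) (nat_lit 1) (nat_lit 0) (nat_lit 424) (nat_lit 431) (nat_lit 225)) (XT.lf (nat_lit 0) (nat_lit 253505018857) (nat_lit 0) (nat_lit 0) (nat_lit 0) (nat_lit 0) (nat_lit 0) (nat_lit 0) (nat_lit 1) (nat_lit 0) (nat_lit 1) (nat_lit 0) (nat_lit 425) (nat_lit 431) (nat_lit 224))) (XT.nd (nat_lit 94) (nat_lit 0) (nat_lit 0) (XT.lf (nat_lit 0) (nat_lit 253505016593) (nat_lit 0) (nat_lit 0) (nat_lit 0) (nat_lit 0) (nat_lit 0) (nat_lit 0) (nat_lit 1) (nat_lit 0) (nat_lit 1) (nat_lit 0) (nat_lit 426) (nat_lit 431) (nat_lit 223)) (XT.nd (nat_lit 94) (nat_lit 0) (nat_lit 0) (XT.lf (nat_lit 0) (nat_lit 253505014496) (nat_lit 0) (nat_lit 0) (nat_lit 0) (nat_lit 0) (nat_lit 0) (nat_lit 0) (nat_lit 1) (nat_lit 0) (nat_lit 1) (nat_lit 0) (nat_lit 427) (nat_lit 431) (nat_lit 222)) (XT.lf (nat_lit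 0) (nat_lit 253505012555) (nat_lit 0) (nat_lit 0) (nat_lit 0) (nat_lit 0) (nat_lit 0) (nat_lit 0) (nat_lit 1) (nat_lit 0) (nat_lit 1) (nat_lit 0) (nat_lit 428) (nat_lit 431) (nat_lit 221))))) (XT.nd (nat_lit 188) (nat_lit 0) (nat_lit 0) (XT.nd (nat_lit 94) (nat_lit 0) (nat_lit 0) (XT.lf (nat_lit 0) (nat_lit 253505010757) (nat_lit 0) (nat_lit 0) (nat_lit 0) (nat_lit 0) (nat_lit 0) (nat_lit 0) (nat_lit 1) (nat_lit 0) (nat_lit 1) (nat_lit 0) (nat_lit 429) (nat_lit 431) (nat_lit 220)) (XT.lf (nat_lit 0) (nat_lit 253505009093) (nat_lit 0) (nat_lit 0) (nat_lit 0) (nat_lit 0) (nat_lit 0) (nat_lit 0) (nat_lit 1) (nat_lit 0) (nat_lit 1) (nat_lit 0) (nat_lit 430) (nat_lit 431) (nat_lit 219))) (XT.nd (nat_lit 94) (nat_lit 0) (nat_lit 0) (XT.lf (nat_lit 0) (nat_lit 253505007552) (nat_lit 0) (nat_lit 0) (nat_lit 0) (nat_lit 0) (nat_lit 0) (nat_lit 0) (nat_lit 1) (nat_lit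 0) (nat_lit 1) (nat_lit 0) (nat_lit 431) (nat_lit 431) (nat_lit 218)) (XT.nd (nat_lit 94) (nat_lit 0) (nat_lit 0) (XT.lf (nat_lit 0) (nat_lit 253505006125) (nat_lit 0) (nat_lit 0) (nat_lit 0) (nat_lit 0) (nat_lit 0) (nat_lit 0) (nat_lit 1) (nat_lit 0) (nat_lit 1) (nat_lit 0) (nat_lit 432) (nat_lit 431) (nat_lit 217)) (XT.lf (nat_lit 0) (nat_lit 253505004804) (nat_lit 0) (nat_lit 0) (nat_lit 0) (nat_lit 0) (nat_lit 0) (nat_lit 0) (nat_lit 1) (nat_lit 0) (nat_lit 1) (nat_lit 0) (nat_lit 433) (nat_lit 431) (nat_lit 216))))))))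
noncomputable def ec315 : XT := (XT.nd (nat_lit 48034) (nat_lit 0) (nat_lit 4620) (XT.nd (nat_lit 846) (nat_lit 0) (nat_lit 0) (XT.nd (nat_lit 376) (nat_lit 0) (nat_lit 0) (XT.nd (nat_lit 188) (nat_lit 0) (nat_lit 0) (XT.nd (nat_lit 94) (nat_lit 0) (nat_lit 0) (XT.lf (nat_lit 0) (nat_lit 253505003580) (nat_lit 0) (nat_lit 0) (nat_lit 0) (nat_lit 0) (nat_lit 0) (nat_lit 0) (nat_lit 1) (nat_lit 0) (nat_lit 1) (nat_lit 0) (nat_lit 434) (nat_lit 431) (nat_lit 215)) (XT.lf (nat_lit 0) (nat_lit 253505002448) (nat_lit 0) (nat_lit 0) (nat_lit 0) (nat_lit 0) (nat_lit 0) (nat_lit 0) (nat_lit 1) (nat_lit 0) (nat_lit 1) (nat_lit 0) (nat_lit 435) (nat_lit 431) (nat_lit 214))) (XT.nd (nat_lit 94) (nat_lit 0) (nat_lit 0) (XT.lf (nat_lit 0) (nat_lit 253505001399) (nat_lit 0) (nat_lit 0) (nat_lit 0) (nat_lit 0) (nat_lit 0) (nat_lit 0) (nat_lit 1) (nat_lit 0) (nat_lit 1) (nat_lit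 0) (nat_lit 436) (nat_lit 431) (nat_lit 213)) (XT.lf (nat_lit 0) (nat_lit 253505000428) (nat_lit 0) (nat_lit 0) (nat_lit 0) (nat_lit 0) (nat_lit 0) (nat_lit 0) (nat_lit 1) (nat_lit 0) (nat_lit 1) (nat_lit 0) (nat_lit 437) (nat_lit 431) (nat_lit 212)))) (XT.nd (nat_lit 188) (nat_lit 0) (nat_lit 0) (XT.nd (nat_lit 94) (nat_lit 0) (nat_lit 0) (XT.lf (nat_lit 0) (nat_lit 253504999529) (nat_lit 0) (nat_lit 0) (nat_lit 0) (nat_lit 0) (nat_lit 0) (nat_lit 0) (nat_lit 1) (nat_lit 0) (nat_lit 1) (nat_lit 0) (nat_lit 438) (nat_lit 431) (nat_lit 211)) (XT.lf (nat_lit 0) (nat_lit 253504998696) (nat_lit 0) (nat_lit 0) (nat_lit 0) (nat_lit 0) (nat_lit 0) (nat_lit 0) (nat_lit 1) (nat_lit 0) (nat_lit 1) (nat_lit 0) (nat_lit 439) (nat_lit 431) (nat_lit 210))) (XT.nd (nat_lit 94) (nat_lit 0) (nat_lit 0) (XT.lf (nat_lit 0) (nat_lit 253504997925) (nat_lit 0) (nat_lit 0) (nat_lit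 0) (nat_lit 0) (nat_lit 0) (nat_lit 0) (nat_lit 1) (nat_lit 0) (nat_lit 1) (nat_lit 0) (nat_lit 440) (nat_lit 431) (nat_lit 209)) (XT.nd (nat_lit 94) (nat_lit 0) (nat_lit 0) (XT.lf (nat_lit 0) (nat_lit 253504997211) (nat_lit 0) (nat_lit 0) (nat_lit 0) (nat_lit 0) (nat_lit 0) (nat_lit 0) (nat_lit 1) (nat_lit 0) (nat_lit 1) (nat_lit 0) (nat_lit 441) (nat_lit 431) (nat_lit 208)) (XT.lf (nat_lit 0) (nat_lit 253504996550) (nat_lit 0) (nat_lit 0) (nat_lit 0) (nat_lit 0) (nat_lit 0) (nat_lit 0) (nat_lit 1) (nat_lit 0) (nat_lit 1) (nat_lit 0) (nat_lit 442) (nat_lit 431) (nat_lit 207)))))) (XT.nd (nat_lit 46718) (nat_lit 0) (nat_lit 10332) (XT.nd (nat_lit 46436) (nat_lit 0) (nat_lit 10752) (XT.nd (nat_lit 94) (nat_lit 0) (nat_lit 0) (XT.lf (nat_lit 0) (nat_lit 253504995938) (nat_lit 0) (nat_lit 0) (nat_lit 0) (nat_lit 0) (nat_lit 0) (nat_lit 0) (nat_lit 1) (nat_lit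 0) (nat_lit 1) (nat_lit 0) (nat_lit 443) (nat_lit 431) (nat_lit 206)) (XT.lf (nat_lit 0) (nat_lit 253504995372) (nat_lit 0) (nat_lit 0) (nat_lit 0) (nat_lit 0) (nat_lit 0) (nat_lit 0) (nat_lit 1) (nat_lit 0) (nat_lit 1) (nat_lit 0) (nat_lit 444) (nat_lit 431) (nat_lit 205))) (XT.nd (nat_lit 94) (nat_lit 0) (nat_lit 84) (XT.lf (nat_lit 924) (nat_lit 137012463174) (nat_lit 0) (nat_lit 243265313431) (nat_lit 924) (nat_lit 137012463174) (nat_lit 139) (nat_lit 1) (nat_lit 128) (nat_lit 0) (nat_lit 139) (nat_lit 0) (nat_lit 216) (nat_lit 432) (nat_lit 432)) (XT.nd (nat_lit 94) (nat_lit 0) (nat_lit 0) (XT.lf (nat_lit 924) (nat_lit 51109852873) (nat_lit 0) (nat_lit 477603538209) (nat_lit 840) (nat_lit 467094664730) (nat_lit 140) (nat_lit 1) (nat_lit 129) (nat_lit 1) (nat_lit 139) (nat_lit 1) (nat_lit 217) (nat_lit 432) (nat_lit 431)) (XT.lf (nat_lit 924) (nat_lit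 469414497608) (nat_lit 84) (nat_lit 319851250528) (nat_lit 0) (nat_lit 169634512913) (nat_lit 140) (nat_lit 1) (nat_lit 130) (nat_lit 1) (nat_lit 129) (nat_lit 1) (nat_lit 218) (nat_lit 432) (nat_lit 430))))) (XT.nd (nat_lit 188) (nat_lit 588) (nat_lit 0) (XT.nd (nat_lit 94) (nat_lit 0) (nat_lit 84) (XT.lf (nat_lit 924) (nat_lit 405612580922) (nat_lit 84) (nat_lit 134047442097) (nat_lit 0) (nat_lit 384179402930) (nat_lit 141) (nat_lit 1) (nat_lit 131) (nat_lit 1) (nat_lit 130) (nat_lit 1) (nat_lit 219) (nat_lit 432) (nat_lit 429)) (XT.lf (nat_lit 924) (nat_lit 300187793867) (nat_lit 0) (nat_lit 561637173062) (nat_lit 840) (nat_lit 28710812045) (nat_lit 142) (nat_lit 1) (nat_lit 131) (nat_lit 1) (nat_lit 141) (nat_lit 1) (nat_lit 220) (nat_lit 432) (nat_lit 428))) (XT.nd (nat_lit 94) (nat_lit 756) (nat_lit 0) (XT.lf (nat_lit 924) (nat_lit 72027117878) (nat_lit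 0) (nat_lit 619361012158) (nat_lit 840) (nat_lit 167434484229) (nat_lit 143) (nat_lit 1) (nat_lit 132) (nat_lit 1) (nat_lit 142) (nat_lit 1) (nat_lit 221) (nat_lit 432) (nat_lit 427)) (XT.nd (nat_lit 94) (nat_lit 756) (nat_lit 0) (XT.lf (nat_lit 924) (nat_lit 138406824653) (nat_lit 84) (nat_lit 538275156297) (nat_lit 0) (nat_lit 151907890161) (nat_lit 143) (nat_lit 1) (nat_lit 133) (nat_lit 1) (nat_lit 132) (nat_lit 1) (nat_lit 222) (nat_lit 432) (nat_lit 426)) (XT.lf (nat_lit 924) (nat_lit 28425605684) (nat_lit 0) (nat_lit 402396284865) (nat_lit 840) (nat_lit 368993176978) (nat_lit 134) (nat_lit 1) (nat_lit 123) (nat_lit 1) (nat_lit 133) (nat_lit 1) (nat_lit 223) (nat_lit 432) (nat_lit 425))))))) (XT.nd (nat_lit 846) (nat_lit 2604) (nat_lit 0) (XT.nd (nat_lit 376) (nat_lit 1344) (nat_lit 0) (XT.nd (nat_lit 188) (nat_lit 756) (nat_lit 0) (XT.nd (nat_lit 94)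 (nat_lit 420) (nat_lit 0) (XT.lf (nat_lit 84) (nat_lit 196824815050) (nat_lit 0) (nat_lit 85293351846) (nat_lit 588) (nat_lit 490284556214) (nat_lit 117) (nat_lit 1) (nat_lit 116) (nat_lit 1) (nat_lit 123) (nat_lit 1) (nat_lit 224) (nat_lit 432) (nat_lit 424)) (XT.lf (nat_lit 504) (nat_lit 542424416567) (nat_lit 0) (nat_lit 176570841319) (nat_lit 420) (nat_lit 27298943082) (nat_lit 117) (nat_lit 1) (nat_lit 111) (nat_lit 1) (nat_lit 116) (nat_lit 1) (nat_lit 225) (nat_lit 432) (nat_lit 423))) (XT.nd (nat_lit 94) (nat_lit 336) (nat_lit 0) (XT.lf (nat_lit 504) (nat_lit 391418624352) (nat_lit 0) (nat_lit 82300429743) (nat_lit 420) (nat_lit 247589244498) (nat_lit 112) (nat_lit 1) (nat_lit 106) (nat_lit 1) (nat_lit 111) (nat_lit 1) (nat_lit 226) (nat_lit 432) (nat_lit 422)) (XT.lf (nat_lit 420) (nat_lit 238173240789) (nat_lit 0) (nat_lit 1515284657) (nat_lit 336)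 (nat_lit 457845382851) (nat_lit 107) (nat_lit 1) (nat_lit 102) (nat_lit 1) (nat_lit 106) (nat_lit 1) (nat_lit 227) (nat_lit 432) (nat_lit 421)))) (XT.nd (nat_lit 188) (nat_lit 924) (nat_lit 0) (XT.nd (nat_lit 94) (nat_lit 420) (nat_lit 0) (XT.lf (nat_lit 84) (nat_lit 17571296101) (nat_lit 0) (nat_lit 592589247730) (nat_lit 420) (nat_lit 64692638572) (nat_lit 103) (nat_lit 1) (nat_lit 102) (nat_lit 1) (nat_lit 107) (nat_lit 1) (nat_lit 228) (nat_lit 432) (nat_lit 420)) (XT.lf (nat_lit 84) (nat_lit 453695422810) (nat_lit 0) (nat_lit 75250240384) (nat_lit 420) (nat_lit 124101312874) (nat_lit 98) (nat_lit 1) (nat_lit 97) (nat_lit 1) (nat_lit 102) (nat_lit 1) (nat_lit 229) (nat_lit 432) (nat_lit 419))) (XT.nd (nat_lit 94) (nat_lit 588) (nat_lit 0) (XT.lf (nat_lit 84) (nat_lit 226995316968) (nat_lit 0) (nat_lit 230504844436) (nat_lit 420) (nat_lit 174704117708)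 (nat_lit 94) (nat_lit 1) (nat_lit 93) (nat_lit 1) (nat_lit 98) (nat_lit 1) (nat_lit 230) (nat_lit 432) (nat_lit 418)) (XT.nd (nat_lit 94) (nat_lit 252) (nat_lit 0) (XT.lf (nat_lit 84) (nat_lit 11203985492) (nat_lit 0) (nat_lit 385400520666) (nat_lit 420) (nat_lit 215743908815) (nat_lit 90) (nat_lit 1) (nat_lit 89) (nat_lit 1) (nat_lit 94) (nat_lit 1) (nat_lit 231) (nat_lit 432) (nat_lit 417)) (XT.lf (nat_lit 336) (nat_lit 50596567029) (nat_lit 0) (nat_lit 342160363792) (nat_lit 252) (nat_lit 200513836885) (nat_lit 90) (nat_lit 1) (nat_lit 86) (nat_lit 1) (nat_lit 89) (nat_lit 1) (nat_lit 232) (nat_lit 432) (nat_lit 416)))))) (XT.nd (nat_lit 470) (nat_lit 1092) (nat_lit 0) (XT.nd (nat_lit 188) (nat_lit 840) (nat_lit 0) (XT.nd (nat_lit 94) (nat_lit 252) (nat_lit 0) (XT.lf (nat_lit 84) (nat_lit 174824742465) (nat_lit 0) (nat_lit 119825964799) (nat_lit 420) (nat_lit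 280330545372) (nat_lit 82) (nat_lit 1) (nat_lit 81) (nat_lit 1) (nat_lit 86) (nat_lit 1) (nat_lit 233) (nat_lit 432) (nat_lit 415)) (XT.lf (nat_lit 336) (nat_lit 270670752140) (nat_lit 0) (nat_lit 254260188265) (nat_lit 252) (nat_lit 32545002335) (nat_lit 82) (nat_lit 1) (nat_lit 78) (nat_lit 1) (nat_lit 81) (nat_lit 1) (nat_lit 234) (nat_lit 432) (nat_lit 414))) (XT.nd (nat_lit 94) (nat_lit 588) (nat_lit 0) (XT.lf (nat_lit 336) (nat_lit 86748668433) (nat_lit 0) (nat_lit 218907610243) (nat_lit 252) (nat_lit 234987088113) (nat_lit 79) (nat_lit 1) (nat_lit 75) (nat_lit 1) (nat_lit 78) (nat_lit 1) (nat_lit 235) (nat_lit 432) (nat_lit 413)) (XT.nd (nat_lit 94) (nat_lit 252) (nat_lit 0) (XT.lf (nat_lit 84) (nat_lit 98872520741) (nat_lit 0) (nat_lit 90526384952) (nat_lit 336) (nat_lit 335110973721) (nat_lit 72) (nat_lit 1) (nat_lit 71) (nat_lit 1) (nat_lit 75) (nat_lit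 1) (nat_lit 236) (nat_lit 432) (nat_lit 412)) (XT.lf (nat_lit 336) (nat_lit 246031290879) (nat_lit 0) (nat_lit 163700103737) (nat_lit 252) (nat_lit 99235541104) (nat_lit 72) (nat_lit 1) (nat_lit 68) (nat_lit 1) (nat_lit 71) (nat_lit 1) (nat_lit 237) (nat_lit 432) (nat_lit 411))))) (XT.nd (nat_lit 188) (nat_lit 588) (nat_lit 0) (XT.nd (nat_lit 94) (nat_lit 336) (nat_lit 0) (XT.lf (nat_lit 252) (nat_lit 60991520290) (nat_lit 0) (nat_lit 142816400192) (nat_lit 168) (nat_lit 290243117256) (nat_lit 69) (nat_lit 1) (nat_lit 66) (nat_lit 1) (nat_lit 68) (nat_lit 1) (nat_lit 238) (nat_lit 432) (nat_lit 410)) (XT.lf (nat_lit 84) (nat_lit 10332353198) (nat_lit 0) (nat_lit 115621275332) (nat_lit 336) (nat_lit 353759690727) (nat_lit 63) (nat_lit 1) (nat_lit 62) (nat_lit 1) (nat_lit 66) (nat_lit 1) (nat_lit 239) (nat_lit 432) (nat_lit 409))) (XT.nd (nat_lit 94) (nat_lit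 420) (nat_lit 0) (XT.lf (nat_lit 252) (nat_lit 177230166809) (nat_lit 0) (nat_lit 110753649708) (nat_lit 168) (nat_lit 177846929573) (nat_lit 63) (nat_lit 1) (nat_lit 60) (nat_lit 1) (nat_lit 62) (nat_lit 1) (nat_lit 240) (nat_lit 432) (nat_lit 408)) (XT.nd (nat_lit 94) (nat_lit 168) (nat_lit 0) (XT.lf (nat_lit 84) (nat_lit 96157682016) (nat_lit 0) (nat_lit 4441583617) (nat_lit 252) (nat_lit 351954694948) (nat_lit 58) (nat_lit 1) (nat_lit 57) (nat_lit 1) (nat_lit 60) (nat_lit 1) (nat_lit 241) (nat_lit 432) (nat_lit 407)) (XT.lf (nat_lit 252) (nat_lit 262876534142) (nat_lit 0) (nat_lit 91092613266) (nat_lit 168) (nat_lit 85694239903) (nat_lit 58) (nat_lit 1) (nat_lit 55) (nat_lit 1) (nat_lit 57) (nat_lit 1) (nat_lit 242) (nat_lit 432) (nat_lit 406))))))))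
noncomputable def ec316 : XT := (XT.nd (nat_lit 1692) (nat_lit 1764) (nat_lit 0) (XT.nd (nat_lit 846) (nat_lit 1260) (nat_lit 0) (XT.nd (nat_lit 376) (nat_lit 840) (nat_lit 0) (XT.nd (nat_lit 188) (nat_lit 336) (nat_lit 0) (XT.nd (nat_lit 94) (nat_lit 252) (nat_lit 0) (XT.lf (nat_lit 252) (nat_lit 81659985703) (nat_lit 0) (nat_lit 84680657206) (nat_lit 168) (nat_lit 260925034167) (nat_lit 56) (nat_lit 1) (nat_lit 53) (nat_lit 1) (nat_lit 55) (nat_lit 1) (nat_lit 243) (nat_lit 432) (nat_lit 405)) (XT.lf (nat_lit 252) (nat_lit 324160132352) (nat_lit 0) (nat_lit 80905494849) (nat_lit 168) (nat_lit 10263800660) (nat_lit 53) (nat_lit 1) (nat_lit 50) (nat_lit 1) (nat_lit 52) (nat_lit 1) (nat_lit 244) (nat_lit 432) (nat_lit 404))) (XT.nd (nat_lit 94) (nat_lit 168) (nat_lit 0) (XT.lf (nat_lit 252) (nat_lit 145079051689) (nat_lit 0) (nat_lit 77237470558) (nat_lit 168)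 (nat_lit 181408327090) (nat_lit 51) (nat_lit 1) (nat_lit 48) (nat_lit 1) (nat_lit 50) (nat_lit 1) (nat_lit 245) (nat_lit 432) (nat_lit 403)) (XT.lf (nat_lit 84) (nat_lit 49695176549) (nat_lit 0) (nat_lit 27314708362) (nat_lit 168) (nat_lit 315591713832) (nat_lit 47) (nat_lit 1) (nat_lit 46) (nat_lit 1) (nat_lit 48) (nat_lit 1) (nat_lit 246) (nat_lit 432) (nat_lit 402)))) (XT.nd (nat_lit 188) (nat_lit 588) (nat_lit 0) (XT.nd (nat_lit 94) (nat_lit 84) (nat_lit 0) (XT.lf (nat_lit 252) (nat_lit 190352059414) (nat_lit 0) (nat_lit 76194435951) (nat_lit 168) (nat_lit 115212537437) (nat_lit 47) (nat_lit 1) (nat_lit 44) (nat_lit 1) (nat_lit 46) (nat_lit 1) (nat_lit 247) (nat_lit 432) (nat_lit 401)) (XT.lf (nat_lit 168) (nat_lit 20498211930) (nat_lit 0) (nat_lit 78065869762) (nat_lit 84) (nat_lit 272780435719) (nat_lit 45) (nat_lit 1) (nat_lit 43) (nat_lit 1) (nat_lit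 44) (nat_lit 1) (nat_lit 248) (nat_lit 432) (nat_lit 400))) (XT.nd (nat_lit 94) (nat_lit 336) (nat_lit 0) (XT.lf (nat_lit 252) (nat_lit 221270629942) (nat_lit 0) (nat_lit 79840552622) (nat_lit 168) (nat_lit 60105979804) (nat_lit 43) (nat_lit 1) (nat_lit 40) (nat_lit 1) (nat_lit 42) (nat_lit 1) (nat_lit 249) (nat_lit 432) (nat_lit 399)) (XT.nd (nat_lit 94) (nat_lit 252) (nat_lit 0) (XT.lf (nat_lit 168) (nat_lit 55651195075) (nat_lit 0) (nat_lit 82825871337) (nat_lit 84) (nat_lit 212954053120) (nat_lit 41) (nat_lit 1) (nat_lit 39) (nat_lit 1) (nat_lit 40) (nat_lit 1) (nat_lit 250) (nat_lit 432) (nat_lit 398)) (XT.lf (nat_lit 252) (nat_lit 240900337336) (nat_lit 0) (nat_lit 86820587617) (nat_lit 168) (nat_lit 14248001653) (nat_lit 39) (nat_lit 1) (nat_lit 36) (nat_lit 1) (nat_lit 38) (nat_lit 1) (nat_lit 251) (nat_lit 432) (nat_lit 397)))))) (XT.nd (nat_lit 376)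 (nat_lit 588) (nat_lit 0) (XT.nd (nat_lit 188) (nat_lit 336) (nat_lit 0) (XT.nd (nat_lit 94) (nat_lit 252) (nat_lit 0) (XT.lf (nat_lit 168) (nat_lit 80089704611) (nat_lit 0) (nat_lit 90511505846) (nat_lit 84) (nat_lit 162159179356) (nat_lit 37) (nat_lit 1) (nat_lit 35) (nat_lit 1) (nat_lit 36) (nat_lit 1) (nat_lit 252) (nat_lit 432) (nat_lit 396)) (XT.lf (nat_lit 84) (nat_lit 23117076026) (nat_lit 0) (nat_lit 72558339531) (nat_lit 252) (nat_lit 228207254771) (nat_lit 33) (nat_lit 1) (nat_lit 32) (nat_lit 1) (nat_lit 35) (nat_lit 1) (nat_lit 253) (nat_lit 432) (nat_lit 395))) (XT.nd (nat_lit 94) (nat_lit 252) (nat_lit 0) (XT.lf (nat_lit 168) (nat_lit 96114871446) (nat_lit 0) (nat_lit 100147140306) (nat_lit 84) (nat_lit 118963411790) (nat_lit 33) (nat_lit 1) (nat_lit 31) (nat_lit 1) (nat_lit 32) (nat_lit 1) (nat_lit 254) (nat_lit 432) (nat_lit 394)) (XT.lf (nat_lit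 84) (nat_lit 53761711186) (nat_lit 0) (nat_lit 52071852641) (nat_lit 252) (nat_lit 201038849784) (nat_lit 29) (nat_lit 1) (nat_lit 28) (nat_lit 1) (nat_lit 31) (nat_lit 1) (nat_lit 255) (nat_lit 432) (nat_lit 393)))) (XT.nd (nat_lit 188) (nat_lit 336) (nat_lit 0) (XT.nd (nat_lit 94) (nat_lit 168) (nat_lit 0) (XT.lf (nat_lit 168) (nat_lit 105582401948) (nat_lit 0) (nat_lit 110971183049) (nat_lit 84) (nat_lit 82179234923) (nat_lit 29) (nat_lit 1) (nat_lit 27) (nat_lit 1) (nat_lit 28) (nat_lit 1) (nat_lit 256) (nat_lit 432) (nat_lit 392)) (XT.lf (nat_lit 84) (nat_lit 79149670729) (nat_lit 0) (nat_lit 37713401888) (nat_lit 168) (nat_lit 173998966866) (nat_lit 26) (nat_lit 1) (nat_lit 25) (nat_lit 1) (nat_lit 27) (nat_lit 1) (nat_lit 257) (nat_lit 432) (nat_lit 391))) (XT.nd (nat_lit 94) (nat_lit 252) (nat_lit 0) (XT.lf (nat_lit 168) (nat_lit 109985808592) (nat_lit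 0) (nat_lit 122394368016) (nat_lit 84) (nat_lit 50820337582) (nat_lit 26) (nat_lit 1) (nat_lit 24) (nat_lit 1) (nat_lit 25) (nat_lit 1) (nat_lit 258) (nat_lit 432) (nat_lit 390)) (XT.nd (nat_lit 94) (nat_lit 84) (nat_lit 0) (XT.lf (nat_lit 84) (nat_lit 100116974272) (nat_lit 0) (nat_lit 28134689564) (nat_lit 168) (nat_lit 147522985565) (nat_lit 23) (nat_lit 1) (nat_lit 22) (nat_lit 1) (nat_lit 24) (nat_lit 1) (nat_lit 259) (nat_lit 432) (nat_lit 389)) (XT.lf (nat_lit 168) (nat_lit 110524275675) (nat_lit 0) (nat_lit 133965852014) (nat_lit 84) (nat_lit 24065864040) (nat_lit 23) (nat_lit 1) (nat_lit 21) (nat_lit 1) (nat_lit 22) (nat_lit 1) (nat_lit 260) (nat_lit 432) (nat_lit 388))))))) (XT.nd (nat_lit 846) (nat_lit 588) (nat_lit 0) (XT.nd (nat_lit 376) (nat_lit 672) (nat_lit 0) (XT.nd (nat_lit 188) (nat_lit 252) (nat_lit 0) (XT.nd (nat_lit 94) (nat_lit 84) (nat_lit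 0) (XT.lf (nat_lit 84) (nat_lit 117358447406) (nat_lit 0) (nat_lit 22251558966) (nat_lit 168) (nat_lit 121932069461) (nat_lit 20) (nat_lit 1) (nat_lit 19) (nat_lit 1) (nat_lit 21) (nat_lit 1) (nat_lit 261) (nat_lit 432) (nat_lit 387)) (XT.lf (nat_lit 168) (nat_lit 108157984996) (nat_lit 0) (nat_lit 145345681500) (nat_lit 84) (nat_lit 1231148384) (nat_lit 20) (nat_lit 1) (nat_lit 18) (nat_lit 1) (nat_lit 19) (nat_lit 1) (nat_lit 262) (nat_lit 432) (nat_lit 386))) (XT.nd (nat_lit 94) (nat_lit 84) (nat_lit 0) (XT.lf (nat_lit 84) (nat_lit 131452714413) (nat_lit 0) (nat_lit 19194397206) (nat_lit 168) (nat_lit 97456441426) (nat_lit 17) (nat_lit 1) (nat_lit 16) (nat_lit 1) (nat_lit 18) (nat_lit 1) (nat_lit 263) (nat_lit 432) (nat_lit 385)) (XT.lf (nat_lit 0) (nat_lit 17671938645) (nat_lit 0) (nat_lit 138311229385) (nat_lit 168) (nat_lit 85681986243) (nat_lit 15)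 (nat_lit 3) (nat_lit 15) (nat_lit 1) (nat_lit 17) (nat_lit 1) (nat_lit 264) (nat_lit 432) (nat_lit 384)))) (XT.nd (nat_lit 188) (nat_lit 420) (nat_lit 0) (XT.nd (nat_lit 94) (nat_lit 84) (nat_lit 0) (XT.lf (nat_lit 84) (nat_lit 142882666960) (nat_lit 0) (nat_lit 18267710555) (nat_lit 168) (nat_lit 74254240343) (nat_lit 14) (nat_lit 1) (nat_lit 13) (nat_lit 1) (nat_lit 15) (nat_lit 1) (nat_lit 265) (nat_lit 432) (nat_lit 383)) (XT.lf (nat_lit 0) (nat_lit 33759940620) (nat_lit 0) (nat_lit 132263509386) (nat_lit 168) (nat_lit 63287363634) (nat_lit 12) (nat_lit 3) (nat_lit 12) (nat_lit 1) (nat_lit 14) (nat_lit 1) (nat_lit 266) (nat_lit 432) (nat_lit 382))) (XT.nd (nat_lit 94) (nat_lit 252) (nat_lit 0) (XT.lf (nat_lit 84) (nat_lit 152052234918) (nat_lit 0) (nat_lit 18917184865) (nat_lit 168) (nat_lit 52426779142) (nat_lit 11) (nat_lit 1) (nat_lit 10) (nat_lit 1)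 (nat_lit 12) (nat_lit 1) (nat_lit 267) (nat_lit 432) (nat_lit 381)) (XT.nd (nat_lit 94) (nat_lit 168) (nat_lit 0) (XT.lf (nat_lit 0) (nat_lit 47462719403) (nat_lit 0) (nat_lit 127892179824) (nat_lit 168) (nat_lit 42270832109) (nat_lit 9) (nat_lit 3) (nat_lit 9) (nat_lit 1) (nat_lit 11) (nat_lit 1) (nat_lit 268) (nat_lit 432) (nat_lit 380)) (XT.lf (nat_lit 84) (nat_lit 159300134137) (nat_lit 0) (nat_lit 20702853475) (nat_lit 168) (nat_lit 32030872987) (nat_lit 8) (nat_lit 1) (nat_lit 7) (nat_lit 1) (nat_lit 9) (nat_lit 1) (nat_lit 269) (nat_lit 432) (nat_lit 379)))))) (XT.nd (nat_lit 470) (nat_lit 0) (nat_lit 0) (XT.nd (nat_lit 188) (nat_lit 336) (nat_lit 0) (XT.nd (nat_lit 94) (nat_lit 168) (nat_lit 0) (XT.lf (nat_lit 0) (nat_lit 59109470092) (nat_lit 0) (nat_lit 124781183154) (nat_lit 168) (nat_lit 22676604016) (nat_lit 6) (nat_lit 3) (nat_lit 6) (nat_lit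 1) (nat_lit 8) (nat_lit 1) (nat_lit 270) (nat_lit 432) (nat_lit 378)) (XT.lf (nat_lit 84) (nat_lit 164911142364) (nat_lit 0) (nat_lit 23277248035) (nat_lit 168) (nat_lit 13088783251) (nat_lit 5) (nat_lit 1) (nat_lit 4) (nat_lit 1) (nat_lit 6) (nat_lit 1) (nat_lit 271) (nat_lit 432) (nat_lit 377))) (XT.nd (nat_lit 94) (nat_lit 252) (nat_lit 0) (XT.lf (nat_lit 0) (nat_lit 68978613231) (nat_lit 0) (nat_lit 122600431329) (nat_lit 168) (nat_lit 4517482653) (nat_lit 3) (nat_lit 3) (nat_lit 3) (nat_lit 1) (nat_lit 5) (nat_lit 1) (nat_lit 272) (nat_lit 432) (nat_lit 376)) (XT.nd (nat_lit 94) (nat_lit 0) (nat_lit 0) (XT.lf (nat_lit 0) (nat_lit 277191478003) (nat_lit 0) (nat_lit 0) (nat_lit 0) (nat_lit 0) (nat_lit 0) (nat_lit 0) (nat_lit 1) (nat_lit 0) (nat_lit 1) (nat_lit 0) (nat_lit 273) (nat_lit 432) (nat_lit 375)) (XT.lf (nat_lit 0) (nat_lit 276939174991) (nat_lit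 0) (nat_lit 0) (nat_lit 0) (nat_lit 0) (nat_lit 0) (nat_lit 0) (nat_lit 1) (nat_lit 0) (nat_lit 1) (nat_lit 0) (nat_lit 274) (nat_lit 432) (nat_lit 374))))) (XT.nd (nat_lit 188) (nat_lit 0) (nat_lit 0) (XT.nd (nat_lit 94) (nat_lit 0) (nat_lit 0) (XT.lf (nat_lit 0) (nat_lit 276705561092) (nat_lit 0) (nat_lit 0) (nat_lit 0) (nat_lit 0) (nat_lit 0) (nat_lit 0) (nat_lit 1) (nat_lit 0) (nat_lit 1) (nat_lit 0) (nat_lit 275) (nat_lit 432) (nat_lit 373)) (XT.lf (nat_lit 0) (nat_lit 276489251926) (nat_lit 0) (nat_lit 0) (nat_lit 0) (nat_lit 0) (nat_lit 0) (nat_lit 0) (nat_lit 1) (nat_lit 0) (nat_lit 1) (nat_lit 0) (nat_lit 276) (nat_lit 432) (nat_lit 372))) (XT.nd (nat_lit 94) (nat_lit 0) (nat_lit 0) (XT.lf (nat_lit 0) (nat_lit 276288965661) (nat_lit 0) (nat_lit 0) (nat_lit 0) (nat_lit 0) (nat_lit 0) (nat_lit 0) (nat_lit 1) (nat_lit 0) (nat_lit 1) (nat_lit 0) (nat_lit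 277) (nat_lit 432) (nat_lit 371)) (XT.nd (nat_lit 94) (nat_lit 0) (nat_lit 0) (XT.lf (nat_lit 0) (nat_lit 276103515416) (nat_lit 0) (nat_lit 0) (nat_lit 0) (nat_lit 0) (nat_lit 0) (nat_lit 0) (nat_lit 1) (nat_lit 0) (nat_lit 1) (nat_lit 0) (nat_lit 278) (nat_lit 432) (nat_lit 370)) (XT.lf (nat_lit 0) (nat_lit 275931802226) (nat_lit 0) (nat_lit 0) (nat_lit 0) (nat_lit 0) (nat_lit 0) (nat_lit 0) (nat_lit 1) (nat_lit 0) (nat_lit 1) (nat_lit 0) (nat_lit 279) (nat_lit 432) (nat_lit 369))))))))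
noncomputable def ec317 : XT := (XT.nd (nat_lit 1786) (nat_lit 0) (nat_lit 0) (XT.nd (nat_lit 846) (nat_lit 0) (nat_lit 0) (XT.nd (nat_lit 376) (nat_lit 0) (nat_lit 0) (XT.nd (nat_lit 188) (nat_lit 0) (nat_lit 0) (XT.nd (nat_lit 94) (nat_lit 0) (nat_lit 0) (XT.lf (nat_lit 0) (nat_lit 275772808532) (nat_lit 0) (nat_lit 0) (nat_lit 0) (nat_lit 0) (nat_lit 0) (nat_lit 0) (nat_lit 1) (nat_lit 0) (nat_lit 1) (nat_lit 0) (nat_lit 280) (nat_lit 432) (nat_lit 368)) (XT.lf (nat_lit 0) (nat_lit 275625592148) (nat_lit 0) (nat_lit 0) (nat_lit 0) (nat_lit 0) (nat_lit 0) (nat_lit 0) (nat_lit 1) (nat_lit 0) (nat_lit 1) (nat_lit 0) (nat_lit 281) (nat_lit 432) (nat_lit 367))) (XT.nd (nat_lit 94) (nat_lit 0) (nat_lit 0) (XT.lf (nat_lit 0) (nat_lit 275489280682) (nat_lit 0) (nat_lit 0) (nat_lit 0) (nat_lit 0) (nat_lit 0) (nat_lit 0) (nat_lit 1) (nat_lit 0) (nat_lit 1) (nat_lit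 0) (nat_lit 282) (nat_lit 432) (nat_lit 366)) (XT.lf (nat_lit 0) (nat_lit 275363066361) (nat_lit 0) (nat_lit 0) (nat_lit 0) (nat_lit 0) (nat_lit 0) (nat_lit 0) (nat_lit 1) (nat_lit 0) (nat_lit 1) (nat_lit 0) (nat_lit 283) (nat_lit 432) (nat_lit 365)))) (XT.nd (nat_lit 188) (nat_lit 0) (nat_lit 0) (XT.nd (nat_lit 94) (nat_lit 0) (nat_lit 0) (XT.lf (nat_lit 0) (nat_lit 275246201249) (nat_lit 0) (nat_lit 0) (nat_lit 0) (nat_lit 0) (nat_lit 0) (nat_lit 0) (nat_lit 1) (nat_lit 0) (nat_lit 1) (nat_lit 0) (nat_lit 284) (nat_lit 432) (nat_lit 364)) (XT.lf (nat_lit 0) (nat_lit 275137992812) (nat_lit 0) (nat_lit 0) (nat_lit 0) (nat_lit 0) (nat_lit 0) (nat_lit 0) (nat_lit 1) (nat_lit 0) (nat_lit 1) (nat_lit 0) (nat_lit 285) (nat_lit 432) (nat_lit 363))) (XT.nd (nat_lit 94) (nat_lit 0) (nat_lit 0) (XT.lf (nat_lit 0) (nat_lit 275037799815) (nat_lit 0) (nat_lit 0) (nat_lit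 0) (nat_lit 0) (nat_lit 0) (nat_lit 0) (nat_lit 1) (nat_lit 0) (nat_lit 1) (nat_lit 0) (nat_lit 286) (nat_lit 432) (nat_lit 362)) (XT.nd (nat_lit 94) (nat_lit 0) (nat_lit 0) (XT.lf (nat_lit 0) (nat_lit 274945028522) (nat_lit 0) (nat_lit 0) (nat_lit 0) (nat_lit 0) (nat_lit 0) (nat_lit 0) (nat_lit 1) (nat_lit 0) (nat_lit 1) (nat_lit 0) (nat_lit 287) (nat_lit 432) (nat_lit 361)) (XT.lf (nat_lit 0) (nat_lit 274859129176) (nat_lit 0) (nat_lit 0) (nat_lit 0) (nat_lit 0) (nat_lit 0) (nat_lit 0) (nat_lit 1) (nat_lit 0) (nat_lit 1) (nat_lit 0) (nat_lit 288) (nat_lit 432) (nat_lit 360)))))) (XT.nd (nat_lit 470) (nat_lit 0) (nat_lit 0) (XT.nd (nat_lit 188) (nat_lit 0) (nat_lit 0) (XT.nd (nat_lit 94) (nat_lit 0) (nat_lit 0) (XT.lf (nat_lit 0) (nat_lit 274779592744) (nat_lit 0) (nat_lit 0) (nat_lit 0) (nat_lit 0) (nat_lit 0) (nat_lit 0) (nat_lit 1) (nat_lit 0) (nat_lit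 1) (nat_lit 0) (nat_lit 289) (nat_lit 432) (nat_lit 359)) (XT.lf (nat_lit 0) (nat_lit 274705947901) (nat_lit 0) (nat_lit 0) (nat_lit 0) (nat_lit 0) (nat_lit 0) (nat_lit 0) (nat_lit 1) (nat_lit 0) (nat_lit 1) (nat_lit 0) (nat_lit 290) (nat_lit 432) (nat_lit 358))) (XT.nd (nat_lit 94) (nat_lit 0) (nat_lit 0) (XT.lf (nat_lit 0) (nat_lit 274637758230) (nat_lit 0) (nat_lit 0) (nat_lit 0) (nat_lit 0) (nat_lit 0) (nat_lit 0) (nat_lit 1) (nat_lit 0) (nat_lit 1) (nat_lit 0) (nat_lit 291) (nat_lit 432) (nat_lit 357)) (XT.nd (nat_lit 94) (nat_lit 0) (nat_lit 0) (XT.lf (nat_lit 0) (nat_lit 274574619647) (nat_lit 0) (nat_lit 0) (nat_lit 0) (nat_lit 0) (nat_lit 0) (nat_lit 0) (nat_lit 1) (nat_lit 0) (nat_lit 1) (nat_lit 0) (nat_lit 292) (nat_lit 432) (nat_lit 356)) (XT.lf (nat_lit 0) (nat_lit 274516157995) (nat_lit 0) (nat_lit 0) (nat_lit 0) (nat_lit 0) (nat_lit 0) (nat_lit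 0) (nat_lit 1) (nat_lit 0) (nat_lit 1) (nat_lit 0) (nat_lit 293) (nat_lit 432) (nat_lit 355))))) (XT.nd (nat_lit 188) (nat_lit 0) (nat_lit 0) (XT.nd (nat_lit 94) (nat_lit 0) (nat_lit 0) (XT.lf (nat_lit 0) (nat_lit 274462026836) (nat_lit 0) (nat_lit 0) (nat_lit 0) (nat_lit 0) (nat_lit 0) (nat_lit 0) (nat_lit 1) (nat_lit 0) (nat_lit 1) (nat_lit 0) (nat_lit 294) (nat_lit 432) (nat_lit 354)) (XT.lf (nat_lit 0) (nat_lit 274411905393) (nat_lit 0) (nat_lit 0) (nat_lit 0) (nat_lit 0) (nat_lit 0) (nat_lit 0) (nat_lit 1) (nat_lit 0) (nat_lit 1) (nat_lit 0) (nat_lit 295) (nat_lit 432) (nat_lit 353))) (XT.nd (nat_lit 94) (nat_lit 0) (nat_lit 0) (XT.lf (nat_lit 0) (nat_lit 274365496649) (nat_lit 0) (nat_lit 0) (nat_lit 0) (nat_lit 0) (nat_lit 0) (nat_lit 0) (nat_lit 1) (nat_lit 0) (nat_lit 1) (nat_lit 0) (nat_lit 296) (nat_lit 432) (nat_lit 352)) (XT.nd (nat_lit 94) (nat_lit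 0) (nat_lit 0) (XT.lf (nat_lit 0) (nat_lit 274322525590) (nat_lit 0) (nat_lit 0) (nat_lit 0) (nat_lit 0) (nat_lit 0) (nat_lit 0) (nat_lit 1) (nat_lit 0) (nat_lit 1) (nat_lit 0) (nat_lit 297) (nat_lit 432) (nat_lit 351)) (XT.lf (nat_lit 0) (nat_lit 274282737573) (nat_lit 0) (nat_lit 0) (nat_lit 0) (nat_lit 0) (nat_lit 0) (nat_lit 0) (nat_lit 1) (nat_lit 0) (nat_lit 1) (nat_lit 0) (nat_lit 298) (nat_lit 432) (nat_lit 350))))))) (XT.nd (nat_lit 846) (nat_lit 0) (nat_lit 0) (XT.nd (nat_lit 376) (nat_lit 0) (nat_lit 0) (XT.nd (nat_lit 188) (nat_lit 0) (nat_lit 0) (XT.nd (nat_lit 94) (nat_lit 0) (nat_lit 0) (XT.lf (nat_lit 0) (nat_lit 274245896815) (nat_lit 0) (nat_lit 0) (nat_lit 0) (nat_lit 0) (nat_lit 0) (nat_lit 0) (nat_lit 1) (nat_lit 0) (nat_lit 1) (nat_lit 0) (nat_lit 299) (nat_lit 432) (nat_lit 349)) (XT.lf (nat_lit 0) (nat_lit 274211785003) (nat_lit 0)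 (nat_lit 0) (nat_lit 0) (nat_lit 0) (nat_lit 0) (nat_lit 0) (nat_lit 1) (nat_lit 0) (nat_lit 1) (nat_lit 0) (nat_lit 300) (nat_lit 432) (nat_lit 348))) (XT.nd (nat_lit 94) (nat_lit 0) (nat_lit 0) (XT.lf (nat_lit 0) (nat_lit 274180199992) (nat_lit 0) (nat_lit 0) (nat_lit 0) (nat_lit 0) (nat_lit 0) (nat_lit 0) (nat_lit 1) (nat_lit 0) (nat_lit 1) (nat_lit 0) (nat_lit 301) (nat_lit 432) (nat_lit 347)) (XT.lf (nat_lit 0) (nat_lit 274150954611) (nat_lit 0) (nat_lit 0) (nat_lit 0) (nat_lit 0) (nat_lit 0) (nat_lit 0) (nat_lit 1) (nat_lit 0) (nat_lit 1) (nat_lit 0) (nat_lit 302) (nat_lit 432) (nat_lit 346)))) (XT.nd (nat_lit 188) (nat_lit 0) (nat_lit 0) (XT.nd (nat_lit 94) (nat_lit 0) (nat_lit 0) (XT.lf (nat_lit 0) (nat_lit 274123875555) (nat_lit 0) (nat_lit 0) (nat_lit 0) (nat_lit 0) (nat_lit 0) (nat_lit 0) (nat_lit 1) (nat_lit 0) (nat_lit 1) (nat_lit 0) (nat_lit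 303) (nat_lit 432) (nat_lit 345)) (XT.lf (nat_lit 0) (nat_lit 274098802355) (nat_lit 0) (nat_lit 0) (nat_lit 0) (nat_lit 0) (nat_lit 0) (nat_lit 0) (nat_lit 1) (nat_lit 0) (nat_lit 1) (nat_lit 0) (nat_lit 304) (nat_lit 432) (nat_lit 344))) (XT.nd (nat_lit 94) (nat_lit 0) (nat_lit 0) (XT.lf (nat_lit 0) (nat_lit 274075586429) (nat_lit 0) (nat_lit 0) (nat_lit 0) (nat_lit 0) (nat_lit 0) (nat_lit 0) (nat_lit 1) (nat_lit 0) (nat_lit 1) (nat_lit 0) (nat_lit 305) (nat_lit 432) (nat_lit 343)) (XT.nd (nat_lit 94) (nat_lit 0) (nat_lit 0) (XT.lf (nat_lit 0) (nat_lit 274054090201) (nat_lit 0) (nat_lit 0) (nat_lit 0) (nat_lit 0) (nat_lit 0) (nat_lit 0) (nat_lit 1) (nat_lit 0) (nat_lit 1) (nat_lit 0) (nat_lit 306) (nat_lit 432) (nat_lit 342)) (XT.lf (nat_lit 0) (nat_lit 274034186286) (nat_lit 0) (nat_lit 0) (nat_lit 0) (nat_lit 0) (nat_lit 0) (nat_lit 0) (nat_lit 1) (nat_lit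 0) (nat_lit 1) (nat_lit 0) (nat_lit 307) (nat_lit 432) (nat_lit 341)))))) (XT.nd (nat_lit 470) (nat_lit 0) (nat_lit 0) (XT.nd (nat_lit 188) (nat_lit 0) (nat_lit 0) (XT.nd (nat_lit 94) (nat_lit 0) (nat_lit 0) (XT.lf (nat_lit 0) (nat_lit 274015756735) (nat_lit 0) (nat_lit 0) (nat_lit 0) (nat_lit 0) (nat_lit 0) (nat_lit 0) (nat_lit 1) (nat_lit 0) (nat_lit 1) (nat_lit 0) (nat_lit 308) (nat_lit 432) (nat_lit 340)) (XT.lf (nat_lit 0) (nat_lit 273998692337) (nat_lit 0) (nat_lit 0) (nat_lit 0) (nat_lit 0) (nat_lit 0) (nat_lit 0) (nat_lit 1) (nat_lit 0) (nat_lit 1) (nat_lit 0) (nat_lit 309) (nat_lit 432) (nat_lit 339))) (XT.nd (nat_lit 94) (nat_lit 0) (nat_lit 0) (XT.lf (nat_lit 0) (nat_lit 273982891967) (nat_lit 0) (nat_lit 0) (nat_lit 0) (nat_lit 0) (nat_lit 0) (nat_lit 0) (nat_lit 1) (nat_lit 0) (nat_lit 1) (nat_lit 0) (nat_lit 310) (nat_lit 432) (nat_lit 338))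 (XT.nd (nat_lit 94) (nat_lit 0) (nat_lit 0) (XT.lf (nat_lit 0) (nat_lit 273968261996) (nat_lit 0) (nat_lit 0) (nat_lit 0) (nat_lit 0) (nat_lit 0) (nat_lit 0) (nat_lit 1) (nat_lit 0) (nat_lit 1) (nat_lit 0) (nat_lit 311) (nat_lit 432) (nat_lit 337)) (XT.lf (nat_lit 0) (nat_lit 273954715726) (nat_lit 0) (nat_lit 0) (nat_lit 0) (nat_lit 0) (nat_lit 0) (nat_lit 0) (nat_lit 1) (nat_lit 0) (nat_lit 1) (nat_lit 0) (nat_lit 312) (nat_lit 432) (nat_lit 336))))) (XT.nd (nat_lit 188) (nat_lit 0) (nat_lit 0) (XT.nd (nat_lit 94) (nat_lit 0) (nat_lit 0) (XT.lf (nat_lit 0) (nat_lit 273942172883) (nat_lit 0) (nat_lit 0) (nat_lit 0) (nat_lit 0) (nat_lit 0) (nat_lit 0) (nat_lit 1) (nat_lit 0) (nat_lit 1) (nat_lit 0) (nat_lit 313) (nat_lit 432) (nat_lit 335)) (XT.lf (nat_lit 0) (nat_lit 273930559140) (nat_lit 0) (nat_lit 0) (nat_lit 0) (nat_lit 0) (nat_lit 0) (nat_lit 0) (nat_lit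 1) (nat_lit 0) (nat_lit 1) (nat_lit 0) (nat_lit 314) (nat_lit 432) (nat_lit 334))) (XT.nd (nat_lit 94) (nat_lit 0) (nat_lit 0) (XT.lf (nat_lit 0) (nat_lit 273919805675) (nat_lit 0) (nat_lit 0) (nat_lit 0) (nat_lit 0) (nat_lit 0) (nat_lit 0) (nat_lit 1) (nat_lit 0) (nat_lit 1) (nat_lit 0) (nat_lit 315) (nat_lit 432) (nat_lit 333)) (XT.nd (nat_lit 94) (nat_lit 0) (nat_lit 0) (XT.lf (nat_lit 0) (nat_lit 273909848762) (nat_lit 0) (nat_lit 0) (nat_lit 0) (nat_lit 0) (nat_lit 0) (nat_lit 0) (nat_lit 1) (nat_lit 0) (nat_lit 1) (nat_lit 0) (nat_lit 316) (nat_lit 432) (nat_lit 332)) (XT.lf (nat_lit 0) (nat_lit 273900629398) (nat_lit 0) (nat_lit 0) (nat_lit 0) (nat_lit 0) (nat_lit 0) (nat_lit 0) (nat_lit 1) (nat_lit 0) (nat_lit 1) (nat_lit 0) (nat_lit 317) (nat_lit 432) (nat_lit 331))))))))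
noncomputable def ec318 : XT := (XT.nd (nat_lit 1692) (nat_lit 0) (nat_lit 0) (XT.nd (nat_lit 846) (nat_lit 0) (nat_lit 0) (XT.nd (nat_lit 376) (nat_lit 0) (nat_lit 0) (XT.nd (nat_lit 188) (nat_lit 0) (nat_lit 0) (XT.nd (nat_lit 94) (nat_lit 0) (nat_lit 0) (XT.lf (nat_lit 0) (nat_lit 273892092950) (nat_lit 0) (nat_lit 0) (nat_lit 0) (nat_lit 0) (nat_lit 0) (nat_lit 0) (nat_lit 1) (nat_lit 0) (nat_lit 1) (nat_lit 0) (nat_lit 318) (nat_lit 432) (nat_lit 330)) (XT.lf (nat_lit 0) (nat_lit 273884188832) (nat_lit 0) (nat_lit 0) (nat_lit 0) (nat_lit 0) (nat_lit 0) (nat_lit 0) (nat_lit 1) (nat_lit 0) (nat_lit 1) (nat_lit 0) (nat_lit 319) (nat_lit 432) (nat_lit 329))) (XT.nd (nat_lit 94) (nat_lit 0) (nat_lit 0) (XT.lf (nat_lit 0) (nat_lit 273876870204) (nat_lit 0) (nat_lit 0) (nat_lit 0) (nat_lit 0) (nat_lit 0) (nat_lit 0) (nat_lit 1) (nat_lit 0) (nat_lit 1) (nat_lit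 0) (nat_lit 320) (nat_lit 432) (nat_lit 328)) (XT.lf (nat_lit 0) (nat_lit 273870093696) (nat_lit 0) (nat_lit 0) (nat_lit 0) (nat_lit 0) (nat_lit 0) (nat_lit 0) (nat_lit 1) (nat_lit 0) (nat_lit 1) (nat_lit 0) (nat_lit 321) (nat_lit 432) (nat_lit 327)))) (XT.nd (nat_lit 188) (nat_lit 0) (nat_lit 0) (XT.nd (nat_lit 94) (nat_lit 0) (nat_lit 0) (XT.lf (nat_lit 0) (nat_lit 273863819152) (nat_lit 0) (nat_lit 0) (nat_lit 0) (nat_lit 0) (nat_lit 0) (nat_lit 0) (nat_lit 1) (nat_lit 0) (nat_lit 1) (nat_lit 0) (nat_lit 322) (nat_lit 432) (nat_lit 326)) (XT.lf (nat_lit 0) (nat_lit 273858009389) (nat_lit 0) (nat_lit 0) (nat_lit 0) (nat_lit 0) (nat_lit 0) (nat_lit 0) (nat_lit 1) (nat_lit 0) (nat_lit 1) (nat_lit 0) (nat_lit 323) (nat_lit 432) (nat_lit 325))) (XT.nd (nat_lit 94) (nat_lit 0) (nat_lit 0) (XT.lf (nat_lit 0) (nat_lit 273852629979) (nat_lit 0) (nat_lit 0) (nat_lit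 0) (nat_lit 0) (nat_lit 0) (nat_lit 0) (nat_lit 1) (nat_lit 0) (nat_lit 1) (nat_lit 0) (nat_lit 324) (nat_lit 432) (nat_lit 324)) (XT.nd (nat_lit 94) (nat_lit 0) (nat_lit 0) (XT.lf (nat_lit 0) (nat_lit 273847649044) (nat_lit 0) (nat_lit 0) (nat_lit 0) (nat_lit 0) (nat_lit 0) (nat_lit 0) (nat_lit 1) (nat_lit 0) (nat_lit 1) (nat_lit 0) (nat_lit 325) (nat_lit 432) (nat_lit 323)) (XT.lf (nat_lit 0) (nat_lit 273843037066) (nat_lit 0) (nat_lit 0) (nat_lit 0) (nat_lit 0) (nat_lit 0) (nat_lit 0) (nat_lit 1) (nat_lit 0) (nat_lit 1) (nat_lit 0) (nat_lit 326) (nat_lit 432) (nat_lit 322)))))) (XT.nd (nat_lit 376) (nat_lit 0) (nat_lit 0) (XT.nd (nat_lit 188) (nat_lit 0) (nat_lit 0) (XT.nd (nat_lit 94) (nat_lit 0) (nat_lit 0) (XT.lf (nat_lit 0) (nat_lit 273838766717) (nat_lit 0) (nat_lit 0) (nat_lit 0) (nat_lit 0) (nat_lit 0) (nat_lit 0) (nat_lit 1) (nat_lit 0) (nat_lit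 1) (nat_lit 0) (nat_lit 327) (nat_lit 432) (nat_lit 321)) (XT.lf (nat_lit 0) (nat_lit 273834812690) (nat_lit 0) (nat_lit 0) (nat_lit 0) (nat_lit 0) (nat_lit 0) (nat_lit 0) (nat_lit 1) (nat_lit 0) (nat_lit 1) (nat_lit 0) (nat_lit 328) (nat_lit 432) (nat_lit 320))) (XT.nd (nat_lit 94) (nat_lit 0) (nat_lit 0) (XT.lf (nat_lit 0) (nat_lit 273831151554) (nat_lit 0) (nat_lit 0) (nat_lit 0) (nat_lit 0) (nat_lit 0) (nat_lit 0) (nat_lit 1) (nat_lit 0) (nat_lit 1) (nat_lit 0) (nat_lit 329) (nat_lit 432) (nat_lit 319)) (XT.lf (nat_lit 0) (nat_lit 273827761613) (nat_lit 0) (nat_lit 0) (nat_lit 0) (nat_lit 0) (nat_lit 0) (nat_lit 0) (nat_lit 1) (nat_lit 0) (nat_lit 1) (nat_lit 0) (nat_lit 330) (nat_lit 432) (nat_lit 318)))) (XT.nd (nat_lit 188) (nat_lit 0) (nat_lit 0) (XT.nd (nat_lit 94) (nat_lit 0) (nat_lit 0) (XT.lf (nat_lit 0) (nat_lit 273824622779) (nat_lit 0) (nat_lit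 0) (nat_lit 0) (nat_lit 0) (nat_lit 0) (nat_lit 0) (nat_lit 1) (nat_lit 0) (nat_lit 1) (nat_lit 0) (nat_lit 331) (nat_lit 432) (nat_lit 317)) (XT.lf (nat_lit 0) (nat_lit 273821716451) (nat_lit 0) (nat_lit 0) (nat_lit 0) (nat_lit 0) (nat_lit 0) (nat_lit 0) (nat_lit 1) (nat_lit 0) (nat_lit 1) (nat_lit 0) (nat_lit 332) (nat_lit 432) (nat_lit 316))) (XT.nd (nat_lit 94) (nat_lit 0) (nat_lit 0) (XT.lf (nat_lit 0) (nat_lit 273819025407) (nat_lit 0) (nat_lit 0) (nat_lit 0) (nat_lit 0) (nat_lit 0) (nat_lit 0) (nat_lit 1) (nat_lit 0) (nat_lit 1) (nat_lit 0) (nat_lit 333) (nat_lit 432) (nat_lit 315)) (XT.nd (nat_lit 94) (nat_lit 0) (nat_lit 0) (XT.lf (nat_lit 0) (nat_lit 273816533699) (nat_lit 0) (nat_lit 0) (nat_lit 0) (nat_lit 0) (nat_lit 0) (nat_lit 0) (nat_lit 1) (nat_lit 0) (nat_lit 1) (nat_lit 0) (nat_lit 334) (nat_lit 432) (nat_lit 314)) (XT.lf (nat_lit 0) (nat_lit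 273814226562) (nat_lit 0) (nat_lit 0) (nat_lit 0) (nat_lit 0) (nat_lit 0) (nat_lit 0) (nat_lit 1) (nat_lit 0) (nat_lit 1) (nat_lit 0) (nat_lit 335) (nat_lit 432) (nat_lit 313))))))) (XT.nd (nat_lit 846) (nat_lit 0) (nat_lit 0) (XT.nd (nat_lit 376) (nat_lit 0) (nat_lit 0) (XT.nd (nat_lit 188) (nat_lit 0) (nat_lit 0) (XT.nd (nat_lit 94) (nat_lit 0) (nat_lit 0) (XT.lf (nat_lit 0) (nat_lit 273812090324) (nat_lit 0) (nat_lit 0) (nat_lit 0) (nat_lit 0) (nat_lit 0) (nat_lit 0) (nat_lit 1) (nat_lit 0) (nat_lit 1) (nat_lit 0) (nat_lit 336) (nat_lit 432) (nat_lit 312)) (XT.lf (nat_lit 0) (nat_lit 273810112326) (nat_lit 0) (nat_lit 0) (nat_lit 0) (nat_lit 0) (nat_lit 0) (nat_lit 0) (nat_lit 1) (nat_lit 0) (nat_lit 1) (nat_lit 0) (nat_lit 337) (nat_lit 432) (nat_lit 311))) (XT.nd (nat_lit 94) (nat_lit 0) (nat_lit 0) (XT.lf (nat_lit 0) (nat_lit 273808280847) (nat_lit 0)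 (nat_lit 0) (nat_lit 0) (nat_lit 0) (nat_lit 0) (nat_lit 0) (nat_lit 1) (nat_lit 0) (nat_lit 1) (nat_lit 0) (nat_lit 338) (nat_lit 432) (nat_lit 310)) (XT.lf (nat_lit 0) (nat_lit 273806585032) (nat_lit 0) (nat_lit 0) (nat_lit 0) (nat_lit 0) (nat_lit 0) (nat_lit 0) (nat_lit 1) (nat_lit 0) (nat_lit 1) (nat_lit 0) (nat_lit 339) (nat_lit 432) (nat_lit 309)))) (XT.nd (nat_lit 188) (nat_lit 0) (nat_lit 0) (XT.nd (nat_lit 94) (nat_lit 0) (nat_lit 0) (XT.lf (nat_lit 0) (nat_lit 273805014834) (nat_lit 0) (nat_lit 0) (nat_lit 0) (nat_lit 0) (nat_lit 0) (nat_lit 0) (nat_lit 1) (nat_lit 0) (nat_lit 1) (nat_lit 0) (nat_lit 340) (nat_lit 432) (nat_lit 308)) (XT.lf (nat_lit 0) (nat_lit 273803560946) (nat_lit 0) (nat_lit 0) (nat_lit 0) (nat_lit 0) (nat_lit 0) (nat_lit 0) (nat_lit 1) (nat_lit 0) (nat_lit 1) (nat_lit 0) (nat_lit 341) (nat_lit 432) (nat_lit 307))) (XT.nd (nat_lit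 94) (nat_lit 0) (nat_lit 0) (XT.lf (nat_lit 0) (nat_lit 273802214754) (nat_lit 0) (nat_lit 0) (nat_lit 0) (nat_lit 0) (nat_lit 0) (nat_lit 0) (nat_lit 1) (nat_lit 0) (nat_lit 1) (nat_lit 0) (nat_lit 342) (nat_lit 432) (nat_lit 306)) (XT.nd (nat_lit 94) (nat_lit 0) (nat_lit 0) (XT.lf (nat_lit 0) (nat_lit 273800968280) (nat_lit 0) (nat_lit 0) (nat_lit 0) (nat_lit 0) (nat_lit 0) (nat_lit 0) (nat_lit 1) (nat_lit 0) (nat_lit 1) (nat_lit 0) (nat_lit 343) (nat_lit 432) (nat_lit 305)) (XT.lf (nat_lit 0) (nat_lit 273799814137) (nat_lit 0) (nat_lit 0) (nat_lit 0) (nat_lit 0) (nat_lit 0) (nat_lit 0) (nat_lit 1) (nat_lit 0) (nat_lit 1) (nat_lit 0) (nat_lit 344) (nat_lit 432) (nat_lit 304)))))) (XT.nd (nat_lit 470) (nat_lit 0) (nat_lit 0) (XT.nd (nat_lit 188) (nat_lit 0) (nat_lit 0) (XT.nd (nat_lit 94) (nat_lit 0) (nat_lit 0) (XT.lf (nat_lit 0) (nat_lit 273798745486) (nat_lit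 0) (nat_lit 0) (nat_lit 0) (nat_lit 0) (nat_lit 0) (nat_lit 0) (nat_lit 1) (nat_lit 0) (nat_lit 1) (nat_lit 0) (nat_lit 345) (nat_lit 432) (nat_lit 303)) (XT.lf (nat_lit 0) (nat_lit 273797755995) (nat_lit 0) (nat_lit 0) (nat_lit 0) (nat_lit 0) (nat_lit 0) (nat_lit 0) (nat_lit 1) (nat_lit 0) (nat_lit 1) (nat_lit 0) (nat_lit 346) (nat_lit 432) (nat_lit 302))) (XT.nd (nat_lit 94) (nat_lit 0) (nat_lit 0) (XT.lf (nat_lit 0) (nat_lit 273796839799) (nat_lit 0) (nat_lit 0) (nat_lit 0) (nat_lit 0) (nat_lit 0) (nat_lit 0) (nat_lit 1) (nat_lit 0) (nat_lit 1) (nat_lit 0) (nat_lit 347) (nat_lit 432) (nat_lit 301)) (XT.nd (nat_lit 94) (nat_lit 0) (nat_lit 0) (XT.lf (nat_lit 0) (nat_lit 273795991470) (nat_lit 0) (nat_lit 0) (nat_lit 0) (nat_lit 0) (nat_lit 0) (nat_lit 0) (nat_lit 1) (nat_lit 0) (nat_lit 1) (nat_lit 0) (nat_lit 348) (nat_lit 432) (nat_lit 300)) (XT.lf (nat_lit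 0) (nat_lit 273795205979) (nat_lit 0) (nat_lit 0) (nat_lit 0) (nat_lit 0) (nat_lit 0) (nat_lit 0) (nat_lit 1) (nat_lit 0) (nat_lit 1) (nat_lit 0) (nat_lit 349) (nat_lit 432) (nat_lit 299))))) (XT.nd (nat_lit 188) (nat_lit 0) (nat_lit 0) (XT.nd (nat_lit 94) (nat_lit 0) (nat_lit 0) (XT.lf (nat_lit 0) (nat_lit 273794478674) (nat_lit 0) (nat_lit 0) (nat_lit 0) (nat_lit 0) (nat_lit 0) (nat_lit 0) (nat_lit 1) (nat_lit 0) (nat_lit 1) (nat_lit 0) (nat_lit 350) (nat_lit 432) (nat_lit 298)) (XT.lf (nat_lit 0) (nat_lit 273793805242) (nat_lit 0) (nat_lit 0) (nat_lit 0) (nat_lit 0) (nat_lit 0) (nat_lit 0) (nat_lit 1) (nat_lit 0) (nat_lit 1) (nat_lit 0) (nat_lit 351) (nat_lit 432) (nat_lit 297))) (XT.nd (nat_lit 94) (nat_lit 0) (nat_lit 0) (XT.lf (nat_lit 0) (nat_lit 273793181695) (nat_lit 0) (nat_lit 0) (nat_lit 0) (nat_lit 0) (nat_lit 0) (nat_lit 0) (nat_lit 1) (nat_lit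 0) (nat_lit 1) (nat_lit 0) (nat_lit 352) (nat_lit 432) (nat_lit 296)) (XT.nd (nat_lit 94) (nat_lit 0) (nat_lit 0) (XT.lf (nat_lit 0) (nat_lit 273792604336) (nat_lit 0) (nat_lit 0) (nat_lit 0) (nat_lit 0) (nat_lit 0) (nat_lit 0) (nat_lit 1) (nat_lit 0) (nat_lit 1) (nat_lit 0) (nat_lit 353) (nat_lit 432) (nat_lit 295)) (XT.lf (nat_lit 0) (nat_lit 273792069745) (nat_lit 0) (nat_lit 0) (nat_lit 0) (nat_lit 0) (nat_lit 0) (nat_lit 0) (nat_lit 1) (nat_lit 0) (nat_lit 1) (nat_lit 0) (nat_lit 354) (nat_lit 432) (nat_lit 294))))))))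
noncomputable def ec319 : XT := (XT.nd (nat_lit 1786) (nat_lit 0) (nat_lit 0) (XT.nd (nat_lit 846) (nat_lit 0) (nat_lit 0) (XT.nd (nat_lit 376) (nat_lit 0) (nat_lit 0) (XT.nd (nat_lit 188) (nat_lit 0) (nat_lit 0) (XT.nd (nat_lit 94) (nat_lit 0) (nat_lit 0) (XT.lf (nat_lit 0) (nat_lit 273791574753) (nat_lit 0) (nat_lit 0) (nat_lit 0) (nat_lit 0) (nat_lit 0) (nat_lit 0) (nat_lit 1) (nat_lit 0) (nat_lit 1) (nat_lit 0) (nat_lit 355) (nat_lit 432) (nat_lit 293)) (XT.lf (nat_lit 0) (nat_lit 273791116427) (nat_lit 0) (nat_lit 0) (nat_lit 0) (nat_lit 0) (nat_lit 0) (nat_lit 0) (nat_lit 1) (nat_lit 0) (nat_lit 1) (nat_lit 0) (nat_lit 356) (nat_lit 432) (nat_lit 292))) (XT.nd (nat_lit 94) (nat_lit 0) (nat_lit 0) (XT.lf (nat_lit 0) (nat_lit 273790692051) (nat_lit 0) (nat_lit 0) (nat_lit 0) (nat_lit 0) (nat_lit 0) (nat_lit 0) (nat_lit 1) (nat_lit 0) (nat_lit 1) (nat_lit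 0) (nat_lit 357) (nat_lit 432) (nat_lit 291)) (XT.lf (nat_lit 0) (nat_lit 273790299110) (nat_lit 0) (nat_lit 0) (nat_lit 0) (nat_lit 0) (nat_lit 0) (nat_lit 0) (nat_lit 1) (nat_lit 0) (nat_lit 1) (nat_lit 0) (nat_lit 358) (nat_lit 432) (nat_lit 290)))) (XT.nd (nat_lit 188) (nat_lit 0) (nat_lit 0) (XT.nd (nat_lit 94) (nat_lit 0) (nat_lit 0) (XT.lf (nat_lit 0) (nat_lit 273789935276) (nat_lit 0) (nat_lit 0) (nat_lit 0) (nat_lit 0) (nat_lit 0) (nat_lit 0) (nat_lit 1) (nat_lit 0) (nat_lit 1) (nat_lit 0) (nat_lit 359) (nat_lit 432) (nat_lit 289)) (XT.lf (nat_lit 0) (nat_lit 273789598393) (nat_lit 0) (nat_lit 0) (nat_lit 0) (nat_lit 0) (nat_lit 0) (nat_lit 0) (nat_lit 1) (nat_lit 0) (nat_lit 1) (nat_lit 0) (nat_lit 360) (nat_lit 432) (nat_lit 288))) (XT.nd (nat_lit 94) (nat_lit 0) (nat_lit 0) (XT.lf (nat_lit 0) (nat_lit 273789286464) (nat_lit 0) (nat_lit 0) (nat_lit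 0) (nat_lit 0) (nat_lit 0) (nat_lit 0) (nat_lit 1) (nat_lit 0) (nat_lit 1) (nat_lit 0) (nat_lit 361) (nat_lit 432) (nat_lit 287)) (XT.nd (nat_lit 94) (nat_lit 0) (nat_lit 0) (XT.lf (nat_lit 0) (nat_lit 273788997641) (nat_lit 0) (nat_lit 0) (nat_lit 0) (nat_lit 0) (nat_lit 0) (nat_lit 0) (nat_lit 1) (nat_lit 0) (nat_lit 1) (nat_lit 0) (nat_lit 362) (nat_lit 432) (nat_lit 286)) (XT.lf (nat_lit 0) (nat_lit 273788730212) (nat_lit 0) (nat_lit 0) (nat_lit 0) (nat_lit 0) (nat_lit 0) (nat_lit 0) (nat_lit 1) (nat_lit 0) (nat_lit 1) (nat_lit 0) (nat_lit 363) (nat_lit 432) (nat_lit 285)))))) (XT.nd (nat_lit 470) (nat_lit 0) (nat_lit 0) (XT.nd (nat_lit 188) (nat_lit 0) (nat_lit 0) (XT.nd (nat_lit 94) (nat_lit 0) (nat_lit 0) (XT.lf (nat_lit 0) (nat_lit 273788482593) (nat_lit 0) (nat_lit 0) (nat_lit 0) (nat_lit 0) (nat_lit 0) (nat_lit 0) (nat_lit 1) (nat_lit 0) (nat_lit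 1) (nat_lit 0) (nat_lit 364) (nat_lit 432) (nat_lit 284)) (XT.lf (nat_lit 0) (nat_lit 273788253316) (nat_lit 0) (nat_lit 0) (nat_lit 0) (nat_lit 0) (nat_lit 0) (nat_lit 0) (nat_lit 1) (nat_lit 0) (nat_lit 1) (nat_lit 0) (nat_lit 365) (nat_lit 432) (nat_lit 283))) (XT.nd (nat_lit 94) (nat_lit 0) (nat_lit 0) (XT.lf (nat_lit 0) (nat_lit 273788041022) (nat_lit 0) (nat_lit 0) (nat_lit 0) (nat_lit 0) (nat_lit 0) (nat_lit 0) (nat_lit 1) (nat_lit 0) (nat_lit 1) (nat_lit 0) (nat_lit 366) (nat_lit 432) (nat_lit 282)) (XT.nd (nat_lit 94) (nat_lit 0) (nat_lit 0) (XT.lf (nat_lit 0) (nat_lit 273787844454) (nat_lit 0) (nat_lit 0) (nat_lit 0) (nat_lit 0) (nat_lit 0) (nat_lit 0) (nat_lit 1) (nat_lit 0) (nat_lit 1) (nat_lit 0) (nat_lit 367) (nat_lit 432) (nat_lit 281)) (XT.lf (nat_lit 0) (nat_lit 273787662446) (nat_lit 0) (nat_lit 0) (nat_lit 0) (nat_lit 0) (nat_lit 0) (nat_lit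 0) (nat_lit 1) (nat_lit 0) (nat_lit 1) (nat_lit 0) (nat_lit 368) (nat_lit 432) (nat_lit 280))))) (XT.nd (nat_lit 188) (nat_lit 0) (nat_lit 0) (XT.nd (nat_lit 94) (nat_lit 0) (nat_lit 0) (XT.lf (nat_lit 0) (nat_lit 273787493921) (nat_lit 0) (nat_lit 0) (nat_lit 0) (nat_lit 0) (nat_lit 0) (nat_lit 0) (nat_lit 1) (nat_lit 0) (nat_lit 1) (nat_lit 0) (nat_lit 369) (nat_lit 432) (nat_lit 279)) (XT.lf (nat_lit 0) (nat_lit 273787337879) (nat_lit 0) (nat_lit 0) (nat_lit 0) (nat_lit 0) (nat_lit 0) (nat_lit 0) (nat_lit 1) (nat_lit 0) (nat_lit 1) (nat_lit 0) (nat_lit 370) (nat_lit 432) (nat_lit 278))) (XT.nd (nat_lit 94) (nat_lit 0) (nat_lit 0) (XT.lf (nat_lit 0) (nat_lit 273787193395) (nat_lit 0) (nat_lit 0) (nat_lit 0) (nat_lit 0) (nat_lit 0) (nat_lit 0) (nat_lit 1) (nat_lit 0) (nat_lit 1) (nat_lit 0) (nat_lit 371) (nat_lit 432) (nat_lit 277)) (XT.nd (nat_lit 94) (nat_lit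 0) (nat_lit 0) (XT.lf (nat_lit 0) (nat_lit 273787059614) (nat_lit 0) (nat_lit 0) (nat_lit 0) (nat_lit 0) (nat_lit 0) (nat_lit 0) (nat_lit 1) (nat_lit 0) (nat_lit 1) (nat_lit 0) (nat_lit 372) (nat_lit 432) (nat_lit 276)) (XT.lf (nat_lit 0) (nat_lit 273786935743) (nat_lit 0) (nat_lit 0) (nat_lit 0) (nat_lit 0) (nat_lit 0) (nat_lit 0) (nat_lit 1) (nat_lit 0) (nat_lit 1) (nat_lit 0) (nat_lit 373) (nat_lit 432) (nat_lit 275))))))) (XT.nd (nat_lit 846) (nat_lit 0) (nat_lit 0) (XT.nd (nat_lit 376) (nat_lit 0) (nat_lit 0) (XT.nd (nat_lit 188) (nat_lit 0) (nat_lit 0) (XT.nd (nat_lit 94) (nat_lit 0) (nat_lit 0) (XT.lf (nat_lit 0) (nat_lit 273786821047) (nat_lit 0) (nat_lit 0) (nat_lit 0) (nat_lit 0) (nat_lit 0) (nat_lit 0) (nat_lit 1) (nat_lit 0) (nat_lit 1) (nat_lit 0) (nat_lit 374) (nat_lit 432) (nat_lit 274)) (XT.lf (nat_lit 0) (nat_lit 273786714848) (nat_lit 0)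 (nat_lit 0) (nat_lit 0) (nat_lit 0) (nat_lit 0) (nat_lit 0) (nat_lit 1) (nat_lit 0) (nat_lit 1) (nat_lit 0) (nat_lit 375) (nat_lit 432) (nat_lit 273))) (XT.nd (nat_lit 94) (nat_lit 0) (nat_lit 0) (XT.lf (nat_lit 0) (nat_lit 273786616515) (nat_lit 0) (nat_lit 0) (nat_lit 0) (nat_lit 0) (nat_lit 0) (nat_lit 0) (nat_lit 1) (nat_lit 0) (nat_lit 1) (nat_lit 0) (nat_lit 376) (nat_lit 432) (nat_lit 272)) (XT.lf (nat_lit 0) (nat_lit 273786525465) (nat_lit 0) (nat_lit 0) (nat_lit 0) (nat_lit 0) (nat_lit 0) (nat_lit 0) (nat_lit 1) (nat_lit 0) (nat_lit 1) (nat_lit 0) (nat_lit 377) (nat_lit 432) (nat_lit 271)))) (XT.nd (nat_lit 188) (nat_lit 0) (nat_lit 0) (XT.nd (nat_lit 94) (nat_lit 0) (nat_lit 0) (XT.lf (nat_lit 0) (nat_lit 273786441161) (nat_lit 0) (nat_lit 0) (nat_lit 0) (nat_lit 0) (nat_lit 0) (nat_lit 0) (nat_lit 1) (nat_lit 0) (nat_lit 1) (nat_lit 0) (nat_lit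 378) (nat_lit 432) (nat_lit 270)) (XT.lf (nat_lit 0) (nat_lit 273786363101) (nat_lit 0) (nat_lit 0) (nat_lit 0) (nat_lit 0) (nat_lit 0) (nat_lit 0) (nat_lit 1) (nat_lit 0) (nat_lit 1) (nat_lit 0) (nat_lit 379) (nat_lit 432) (nat_lit 269))) (XT.nd (nat_lit 94) (nat_lit 0) (nat_lit 0) (XT.lf (nat_lit 0) (nat_lit 273786290823) (nat_lit 0) (nat_lit 0) (nat_lit 0) (nat_lit 0) (nat_lit 0) (nat_lit 0) (nat_lit 1) (nat_lit 0) (nat_lit 1) (nat_lit 0) (nat_lit 380) (nat_lit 432) (nat_lit 268)) (XT.nd (nat_lit 94) (nat_lit 0) (nat_lit 0) (XT.lf (nat_lit 0) (nat_lit 273786223899) (nat_lit 0) (nat_lit 0) (nat_lit 0) (nat_lit 0) (nat_lit 0) (nat_lit 0) (nat_lit 1) (nat_lit 0) (nat_lit 1) (nat_lit 0) (nat_lit 381) (nat_lit 432) (nat_lit 267)) (XT.lf (nat_lit 0) (nat_lit 273786161933) (nat_lit 0) (nat_lit 0) (nat_lit 0) (nat_lit 0) (nat_lit 0) (nat_lit 0) (nat_lit 1) (nat_lit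 0) (nat_lit 1) (nat_lit 0) (nat_lit 382) (nat_lit 432) (nat_lit 266)))))) (XT.nd (nat_lit 470) (nat_lit 0) (nat_lit 0) (XT.nd (nat_lit 188) (nat_lit 0) (nat_lit 0) (XT.nd (nat_lit 94) (nat_lit 0) (nat_lit 0) (XT.lf (nat_lit 0) (nat_lit 273786104556) (nat_lit 0) (nat_lit 0) (nat_lit 0) (nat_lit 0) (nat_lit 0) (nat_lit 0) (nat_lit 1) (nat_lit 0) (nat_lit 1) (nat_lit 0) (nat_lit 383) (nat_lit 432) (nat_lit 265)) (XT.lf (nat_lit 0) (nat_lit 273786051430) (nat_lit 0) (nat_lit 0) (nat_lit 0) (nat_lit 0) (nat_lit 0) (nat_lit 0) (nat_lit 1) (nat_lit 0) (nat_lit 1) (nat_lit 0) (nat_lit 384) (nat_lit 432) (nat_lit 264))) (XT.nd (nat_lit 94) (nat_lit 0) (nat_lit 0) (XT.lf (nat_lit 0) (nat_lit 273786002239) (nat_lit 0) (nat_lit 0) (nat_lit 0) (nat_lit 0) (nat_lit 0) (nat_lit 0) (nat_lit 1) (nat_lit 0) (nat_lit 1) (nat_lit 0) (nat_lit 385) (nat_lit 432) (nat_lit 263))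 (XT.nd (nat_lit 94) (nat_lit 0) (nat_lit 0) (XT.lf (nat_lit 0) (nat_lit 273785956692) (nat_lit 0) (nat_lit 0) (nat_lit 0) (nat_lit 0) (nat_lit 0) (nat_lit 0) (nat_lit 1) (nat_lit 0) (nat_lit 1) (nat_lit 0) (nat_lit 386) (nat_lit 432) (nat_lit 262)) (XT.lf (nat_lit 0) (nat_lit 273785914519) (nat_lit 0) (nat_lit 0) (nat_lit 0) (nat_lit 0) (nat_lit 0) (nat_lit 0) (nat_lit 1) (nat_lit 0) (nat_lit 1) (nat_lit 0) (nat_lit 387) (nat_lit 432) (nat_lit 261))))) (XT.nd (nat_lit 188) (nat_lit 0) (nat_lit 0) (XT.nd (nat_lit 94) (nat_lit 0) (nat_lit 0) (XT.lf (nat_lit 0) (nat_lit 273785875469) (nat_lit 0) (nat_lit 0) (nat_lit 0) (nat_lit 0) (nat_lit 0) (nat_lit 0) (nat_lit 1) (nat_lit 0) (nat_lit 1) (nat_lit 0) (nat_lit 388) (nat_lit 432) (nat_lit 260)) (XT.lf (nat_lit 0) (nat_lit 273785839312) (nat_lit 0) (nat_lit 0) (nat_lit 0) (nat_lit 0) (nat_lit 0) (nat_lit 0) (nat_lit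 1) (nat_lit 0) (nat_lit 1) (nat_lit 0) (nat_lit 389) (nat_lit 432) (nat_lit 259))) (XT.nd (nat_lit 94) (nat_lit 0) (nat_lit 0) (XT.lf (nat_lit 0) (nat_lit 273785805834) (nat_lit 0) (nat_lit 0) (nat_lit 0) (nat_lit 0) (nat_lit 0) (nat_lit 0) (nat_lit 1) (nat_lit 0) (nat_lit 1) (nat_lit 0) (nat_lit 390) (nat_lit 432) (nat_lit 258)) (XT.nd (nat_lit 94) (nat_lit 0) (nat_lit 0) (XT.lf (nat_lit 0) (nat_lit 273785774835) (nat_lit 0) (nat_lit 0) (nat_lit 0) (nat_lit 0) (nat_lit 0) (nat_lit 0) (nat_lit 1) (nat_lit 0) (nat_lit 1) (nat_lit 0) (nat_lit 391) (nat_lit 432) (nat_lit 257)) (XT.lf (nat_lit 0) (nat_lit 273785746133) (nat_lit 0) (nat_lit 0) (nat_lit 0) (nat_lit 0) (nat_lit 0) (nat_lit 0) (nat_lit 1) (nat_lit 0) (nat_lit 1) (nat_lit 0) (nat_lit 392) (nat_lit 432) (nat_lit 256))))))))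
noncomputable def ec320 : XT := (XT.nd (nat_lit 1692) (nat_lit 0) (nat_lit 0) (XT.nd (nat_lit 846) (nat_lit 0) (nat_lit 0) (XT.nd (nat_lit 376) (nat_lit 0) (nat_lit 0) (XT.nd (nat_lit 188) (nat_lit 0) (nat_lit 0) (XT.nd (nat_lit 94) (nat_lit 0) (nat_lit 0) (XT.lf (nat_lit 0) (nat_lit 273785719556) (nat_lit 0) (nat_lit 0) (nat_lit 0) (nat_lit 0) (nat_lit 0) (nat_lit 0) (nat_lit 1) (nat_lit 0) (nat_lit 1) (nat_lit 0) (nat_lit 393) (nat_lit 432) (nat_lit 255)) (XT.lf (nat_lit 0) (nat_lit 273785694949) (nat_lit 0) (nat_lit 0) (nat_lit 0) (nat_lit 0) (nat_lit 0) (nat_lit 0) (nat_lit 1) (nat_lit 0) (nat_lit 1) (nat_lit 0) (nat_lit 394) (nat_lit 432) (nat_lit 254))) (XT.nd (nat_lit 94) (nat_lit 0) (nat_lit 0) (XT.lf (nat_lit 0) (nat_lit 273785672164) (nat_lit 0) (nat_lit 0) (nat_lit 0) (nat_lit 0) (nat_lit 0) (nat_lit 0) (nat_lit 1) (nat_lit 0) (nat_lit 1) (nat_lit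 0) (nat_lit 395) (nat_lit 432) (nat_lit 253)) (XT.lf (nat_lit 0) (nat_lit 273785651066) (nat_lit 0) (nat_lit 0) (nat_lit 0) (nat_lit 0) (nat_lit 0) (nat_lit 0) (nat_lit 1) (nat_lit 0) (nat_lit 1) (nat_lit 0) (nat_lit 396) (nat_lit 432) (nat_lit 252)))) (XT.nd (nat_lit 188) (nat_lit 0) (nat_lit 0) (XT.nd (nat_lit 94) (nat_lit 0) (nat_lit 0) (XT.lf (nat_lit 0) (nat_lit 273785631532) (nat_lit 0) (nat_lit 0) (nat_lit 0) (nat_lit 0) (nat_lit 0) (nat_lit 0) (nat_lit 1) (nat_lit 0) (nat_lit 1) (nat_lit 0) (nat_lit 397) (nat_lit 432) (nat_lit 251)) (XT.lf (nat_lit 0) (nat_lit 273785613445) (nat_lit 0) (nat_lit 0) (nat_lit 0) (nat_lit 0) (nat_lit 0) (nat_lit 0) (nat_lit 1) (nat_lit 0) (nat_lit 1) (nat_lit 0) (nat_lit 398) (nat_lit 432) (nat_lit 250))) (XT.nd (nat_lit 94) (nat_lit 0) (nat_lit 0) (XT.lf (nat_lit 0) (nat_lit 273785596697) (nat_lit 0) (nat_lit 0) (nat_lit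 0) (nat_lit 0) (nat_lit 0) (nat_lit 0) (nat_lit 1) (nat_lit 0) (nat_lit 1) (nat_lit 0) (nat_lit 399) (nat_lit 432) (nat_lit 249)) (XT.nd (nat_lit 94) (nat_lit 0) (nat_lit 0) (XT.lf (nat_lit 0) (nat_lit 273785581190) (nat_lit 0) (nat_lit 0) (nat_lit 0) (nat_lit 0) (nat_lit 0) (nat_lit 0) (nat_lit 1) (nat_lit 0) (nat_lit 1) (nat_lit 0) (nat_lit 400) (nat_lit 432) (nat_lit 248)) (XT.lf (nat_lit 0) (nat_lit 273785566832) (nat_lit 0) (nat_lit 0) (nat_lit 0) (nat_lit 0) (nat_lit 0) (nat_lit 0) (nat_lit 1) (nat_lit 0) (nat_lit 1) (nat_lit 0) (nat_lit 401) (nat_lit 432) (nat_lit 247)))))) (XT.nd (nat_lit 376) (nat_lit 0) (nat_lit 0) (XT.nd (nat_lit 188) (nat_lit 0) (nat_lit 0) (XT.nd (nat_lit 94) (nat_lit 0) (nat_lit 0) (XT.lf (nat_lit 0) (nat_lit 273785553537) (nat_lit 0) (nat_lit 0) (nat_lit 0) (nat_lit 0) (nat_lit 0) (nat_lit 0) (nat_lit 1) (nat_lit 0) (nat_lit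 1) (nat_lit 0) (nat_lit 402) (nat_lit 432) (nat_lit 246)) (XT.lf (nat_lit 0) (nat_lit 273785541227) (nat_lit 0) (nat_lit 0) (nat_lit 0) (nat_lit 0) (nat_lit 0) (nat_lit 0) (nat_lit 1) (nat_lit 0) (nat_lit 1) (nat_lit 0) (nat_lit 403) (nat_lit 432) (nat_lit 245))) (XT.nd (nat_lit 94) (nat_lit 0) (nat_lit 0) (XT.lf (nat_lit 0) (nat_lit 273785529829) (nat_lit 0) (nat_lit 0) (nat_lit 0) (nat_lit 0) (nat_lit 0) (nat_lit 0) (nat_lit 1) (nat_lit 0) (nat_lit 1) (nat_lit 0) (nat_lit 404) (nat_lit 432) (nat_lit 244)) (XT.lf (nat_lit 0) (nat_lit 273785519275) (nat_lit 0) (nat_lit 0) (nat_lit 0) (nat_lit 0) (nat_lit 0) (nat_lit 0) (nat_lit 1) (nat_lit 0) (nat_lit 1) (nat_lit 0) (nat_lit 405) (nat_lit 432) (nat_lit 243)))) (XT.nd (nat_lit 188) (nat_lit 0) (nat_lit 0) (XT.nd (nat_lit 94) (nat_lit 0) (nat_lit 0) (XT.lf (nat_lit 0) (nat_lit 273785509503) (nat_lit 0) (nat_lit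 0) (nat_lit 0) (nat_lit 0) (nat_lit 0) (nat_lit 0) (nat_lit 1) (nat_lit 0) (nat_lit 1) (nat_lit 0) (nat_lit 406) (nat_lit 432) (nat_lit 242)) (XT.lf (nat_lit 0) (nat_lit 273785500455) (nat_lit 0) (nat_lit 0) (nat_lit 0) (nat_lit 0) (nat_lit 0) (nat_lit 0) (nat_lit 1) (nat_lit 0) (nat_lit 1) (nat_lit 0) (nat_lit 407) (nat_lit 432) (nat_lit 241))) (XT.nd (nat_lit 94) (nat_lit 0) (nat_lit 0) (XT.lf (nat_lit 0) (nat_lit 273785492077) (nat_lit 0) (nat_lit 0) (nat_lit 0) (nat_lit 0) (nat_lit 0) (nat_lit 0) (nat_lit 1) (nat_lit 0) (nat_lit 1) (nat_lit 0) (nat_lit 408) (nat_lit 432) (nat_lit 240)) (XT.nd (nat_lit 94) (nat_lit 0) (nat_lit 0) (XT.lf (nat_lit 0) (nat_lit 273785484319) (nat_lit 0) (nat_lit 0) (nat_lit 0) (nat_lit 0) (nat_lit 0) (nat_lit 0) (nat_lit 1) (nat_lit 0) (nat_lit 1) (nat_lit 0) (nat_lit 409) (nat_lit 432) (nat_lit 239)) (XT.lf (nat_lit 0) (nat_lit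 273785477136) (nat_lit 0) (nat_lit 0) (nat_lit 0) (nat_lit 0) (nat_lit 0) (nat_lit 0) (nat_lit 1) (nat_lit 0) (nat_lit 1) (nat_lit 0) (nat_lit 410) (nat_lit 432) (nat_lit 238))))))) (XT.nd (nat_lit 846) (nat_lit 0) (nat_lit 0) (XT.nd (nat_lit 376) (nat_lit 0) (nat_lit 0) (XT.nd (nat_lit 188) (nat_lit 0) (nat_lit 0) (XT.nd (nat_lit 94) (nat_lit 0) (nat_lit 0) (XT.lf (nat_lit 0) (nat_lit 273785470486) (nat_lit 0) (nat_lit 0) (nat_lit 0) (nat_lit 0) (nat_lit 0) (nat_lit 0) (nat_lit 1) (nat_lit 0) (nat_lit 1) (nat_lit 0) (nat_lit 411) (nat_lit 432) (nat_lit 237)) (XT.lf (nat_lit 0) (nat_lit 273785464328) (nat_lit 0) (nat_lit 0) (nat_lit 0) (nat_lit 0) (nat_lit 0) (nat_lit 0) (nat_lit 1) (nat_lit 0) (nat_lit 1) (nat_lit 0) (nat_lit 412) (nat_lit 432) (nat_lit 236))) (XT.nd (nat_lit 94) (nat_lit 0) (nat_lit 0) (XT.lf (nat_lit 0) (nat_lit 273785458626) (nat_lit 0)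 (nat_lit 0) (nat_lit 0) (nat_lit 0) (nat_lit 0) (nat_lit 0) (nat_lit 1) (nat_lit 0) (nat_lit 1) (nat_lit 0) (nat_lit 413) (nat_lit 432) (nat_lit 235)) (XT.lf (nat_lit 0) (nat_lit 273785453346) (nat_lit 0) (nat_lit 0) (nat_lit 0) (nat_lit 0) (nat_lit 0) (nat_lit 0) (nat_lit 1) (nat_lit 0) (nat_lit 1) (nat_lit 0) (nat_lit 414) (nat_lit 432) (nat_lit 234)))) (XT.nd (nat_lit 188) (nat_lit 0) (nat_lit 0) (XT.nd (nat_lit 94) (nat_lit 0) (nat_lit 0) (XT.lf (nat_lit 0) (nat_lit 273785448458) (nat_lit 0) (nat_lit 0) (nat_lit 0) (nat_lit 0) (nat_lit 0) (nat_lit 0) (nat_lit 1) (nat_lit 0) (nat_lit 1) (nat_lit 0) (nat_lit 415) (nat_lit 432) (nat_lit 233)) (XT.lf (nat_lit 0) (nat_lit 273785443931) (nat_lit 0) (nat_lit 0) (nat_lit 0) (nat_lit 0) (nat_lit 0) (nat_lit 0) (nat_lit 1) (nat_lit 0) (nat_lit 1) (nat_lit 0) (nat_lit 416) (nat_lit 432) (nat_lit 232))) (XT.nd (nat_lit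 94) (nat_lit 0) (nat_lit 0) (XT.lf (nat_lit 0) (nat_lit 273785439740) (nat_lit 0) (nat_lit 0) (nat_lit 0) (nat_lit 0) (nat_lit 0) (nat_lit 0) (nat_lit 1) (nat_lit 0) (nat_lit 1) (nat_lit 0) (nat_lit 417) (nat_lit 432) (nat_lit 231)) (XT.nd (nat_lit 94) (nat_lit 0) (nat_lit 0) (XT.lf (nat_lit 0) (nat_lit 273785435860) (nat_lit 0) (nat_lit 0) (nat_lit 0) (nat_lit 0) (nat_lit 0) (nat_lit 0) (nat_lit 1) (nat_lit 0) (nat_lit 1) (nat_lit 0) (nat_lit 418) (nat_lit 432) (nat_lit 230)) (XT.lf (nat_lit 0) (nat_lit 273785432266) (nat_lit 0) (nat_lit 0) (nat_lit 0) (nat_lit 0) (nat_lit 0) (nat_lit 0) (nat_lit 1) (nat_lit 0) (nat_lit 1) (nat_lit 0) (nat_lit 419) (nat_lit 432) (nat_lit 229)))))) (XT.nd (nat_lit 470) (nat_lit 0) (nat_lit 0) (XT.nd (nat_lit 188) (nat_lit 0) (nat_lit 0) (XT.nd (nat_lit 94) (nat_lit 0) (nat_lit 0) (XT.lf (nat_lit 0) (nat_lit 273785428939) (nat_lit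 0) (nat_lit 0) (nat_lit 0) (nat_lit 0) (nat_lit 0) (nat_lit 0) (nat_lit 1) (nat_lit 0) (nat_lit 1) (nat_lit 0) (nat_lit 420) (nat_lit 432) (nat_lit 228)) (XT.lf (nat_lit 0) (nat_lit 273785425859) (nat_lit 0) (nat_lit 0) (nat_lit 0) (nat_lit 0) (nat_lit 0) (nat_lit 0) (nat_lit 1) (nat_lit 0) (nat_lit 1) (nat_lit 0) (nat_lit 421) (nat_lit 432) (nat_lit 227))) (XT.nd (nat_lit 94) (nat_lit 0) (nat_lit 0) (XT.lf (nat_lit 0) (nat_lit 273785423007) (nat_lit 0) (nat_lit 0) (nat_lit 0) (nat_lit 0) (nat_lit 0) (nat_lit 0) (nat_lit 1) (nat_lit 0) (nat_lit 1) (nat_lit 0) (nat_lit 422) (nat_lit 432) (nat_lit 226)) (XT.nd (nat_lit 94) (nat_lit 0) (nat_lit 0) (XT.lf (nat_lit 0) (nat_lit 273785420365) (nat_lit 0) (nat_lit 0) (nat_lit 0) (nat_lit 0) (nat_lit 0) (nat_lit 0) (nat_lit 1) (nat_lit 0) (nat_lit 1) (nat_lit 0) (nat_lit 423) (nat_lit 432) (nat_lit 225)) (XT.lf (nat_lit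 0) (nat_lit 273785417920) (nat_lit 0) (nat_lit 0) (nat_lit 0) (nat_lit 0) (nat_lit 0) (nat_lit 0) (nat_lit 1) (nat_lit 0) (nat_lit 1) (nat_lit 0) (nat_lit 424) (nat_lit 432) (nat_lit 224))))) (XT.nd (nat_lit 188) (nat_lit 0) (nat_lit 0) (XT.nd (nat_lit 94) (nat_lit 0) (nat_lit 0) (XT.lf (nat_lit 0) (nat_lit 273785415656) (nat_lit 0) (nat_lit 0) (nat_lit 0) (nat_lit 0) (nat_lit 0) (nat_lit 0) (nat_lit 1) (nat_lit 0) (nat_lit 1) (nat_lit 0) (nat_lit 425) (nat_lit 432) (nat_lit 223)) (XT.lf (nat_lit 0) (nat_lit 273785413559) (nat_lit 0) (nat_lit 0) (nat_lit 0) (nat_lit 0) (nat_lit 0) (nat_lit 0) (nat_lit 1) (nat_lit 0) (nat_lit 1) (nat_lit 0) (nat_lit 426) (nat_lit 432) (nat_lit 222))) (XT.nd (nat_lit 94) (nat_lit 0) (nat_lit 0) (XT.lf (nat_lit 0) (nat_lit 273785411618) (nat_lit 0) (nat_lit 0) (nat_lit 0) (nat_lit 0) (nat_lit 0) (nat_lit 0) (nat_lit 1) (nat_lit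 0) (nat_lit 1) (nat_lit 0) (nat_lit 427) (nat_lit 432) (nat_lit 221)) (XT.nd (nat_lit 94) (nat_lit 0) (nat_lit 0) (XT.lf (nat_lit 0) (nat_lit 273785409820) (nat_lit 0) (nat_lit 0) (nat_lit 0) (nat_lit 0) (nat_lit 0) (nat_lit 0) (nat_lit 1) (nat_lit 0) (nat_lit 1) (nat_lit 0) (nat_lit 428) (nat_lit 432) (nat_lit 220)) (XT.lf (nat_lit 0) (nat_lit 273785408156) (nat_lit 0) (nat_lit 0) (nat_lit 0) (nat_lit 0) (nat_lit 0) (nat_lit 0) (nat_lit 1) (nat_lit 0) (nat_lit 1) (nat_lit 0) (nat_lit 429) (nat_lit 432) (nat_lit 219))))))))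
noncomputable def ec321 : XT := (XT.nd (nat_lit 47846) (nat_lit 0) (nat_lit 5544) (XT.nd (nat_lit 846) (nat_lit 0) (nat_lit 0) (XT.nd (nat_lit 376) (nat_lit 0) (nat_lit 0) (XT.nd (nat_lit 188) (nat_lit 0) (nat_lit 0) (XT.nd (nat_lit 94) (nat_lit 0) (nat_lit 0) (XT.lf (nat_lit 0) (nat_lit 273785406615) (nat_lit 0) (nat_lit 0) (nat_lit 0) (nat_lit 0) (nat_lit 0) (nat_lit 0) (nat_lit 1) (nat_lit 0) (nat_lit 1) (nat_lit 0) (nat_lit 430) (nat_lit 432) (nat_lit 218)) (XT.lf (nat_lit 0) (nat_lit 273785405188) (nat_lit 0) (nat_lit 0) (nat_lit 0) (nat_lit 0) (nat_lit 0) (nat_lit 0) (nat_lit 1) (nat_lit 0) (nat_lit 1) (nat_lit 0) (nat_lit 431) (nat_lit 432) (nat_lit 217))) (XT.nd (nat_lit 94) (nat_lit 0) (nat_lit 0) (XT.lf (nat_lit 0) (nat_lit 273785403867) (nat_lit 0) (nat_lit 0) (nat_lit 0) (nat_lit 0) (nat_lit 0) (nat_lit 0) (nat_lit 1) (nat_lit 0) (nat_lit 1) (nat_lit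 0) (nat_lit 432) (nat_lit 432) (nat_lit 216)) (XT.lf (nat_lit 0) (nat_lit 273785402644) (nat_lit 0) (nat_lit 0) (nat_lit 0) (nat_lit 0) (nat_lit 0) (nat_lit 0) (nat_lit 1) (nat_lit 0) (nat_lit 1) (nat_lit 0) (nat_lit 433) (nat_lit 432) (nat_lit 215)))) (XT.nd (nat_lit 188) (nat_lit 0) (nat_lit 0) (XT.nd (nat_lit 94) (nat_lit 0) (nat_lit 0) (XT.lf (nat_lit 0) (nat_lit 273785401511) (nat_lit 0) (nat_lit 0) (nat_lit 0) (nat_lit 0) (nat_lit 0) (nat_lit 0) (nat_lit 1) (nat_lit 0) (nat_lit 1) (nat_lit 0) (nat_lit 434) (nat_lit 432) (nat_lit 214)) (XT.lf (nat_lit 0) (nat_lit 273785400462) (nat_lit 0) (nat_lit 0) (nat_lit 0) (nat_lit 0) (nat_lit 0) (nat_lit 0) (nat_lit 1) (nat_lit 0) (nat_lit 1) (nat_lit 0) (nat_lit 435) (nat_lit 432) (nat_lit 213))) (XT.nd (nat_lit 94) (nat_lit 0) (nat_lit 0) (XT.lf (nat_lit 0) (nat_lit 273785399491) (nat_lit 0) (nat_lit 0) (nat_lit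 0) (nat_lit 0) (nat_lit 0) (nat_lit 0) (nat_lit 1) (nat_lit 0) (nat_lit 1) (nat_lit 0) (nat_lit 436) (nat_lit 432) (nat_lit 212)) (XT.nd (nat_lit 94) (nat_lit 0) (nat_lit 0) (XT.lf (nat_lit 0) (nat_lit 273785398592) (nat_lit 0) (nat_lit 0) (nat_lit 0) (nat_lit 0) (nat_lit 0) (nat_lit 0) (nat_lit 1) (nat_lit 0) (nat_lit 1) (nat_lit 0) (nat_lit 437) (nat_lit 432) (nat_lit 211)) (XT.lf (nat_lit 0) (nat_lit 273785397759) (nat_lit 0) (nat_lit 0) (nat_lit 0) (nat_lit 0) (nat_lit 0) (nat_lit 0) (nat_lit 1) (nat_lit 0) (nat_lit 1) (nat_lit 0) (nat_lit 438) (nat_lit 432) (nat_lit 210)))))) (XT.nd (nat_lit 470) (nat_lit 0) (nat_lit 0) (XT.nd (nat_lit 188) (nat_lit 0) (nat_lit 0) (XT.nd (nat_lit 94) (nat_lit 0) (nat_lit 0) (XT.lf (nat_lit 0) (nat_lit 273785396988) (nat_lit 0) (nat_lit 0) (nat_lit 0) (nat_lit 0) (nat_lit 0) (nat_lit 0) (nat_lit 1) (nat_lit 0) (nat_lit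 1) (nat_lit 0) (nat_lit 439) (nat_lit 432) (nat_lit 209)) (XT.lf (nat_lit 0) (nat_lit 273785396274) (nat_lit 0) (nat_lit 0) (nat_lit 0) (nat_lit 0) (nat_lit 0) (nat_lit 0) (nat_lit 1) (nat_lit 0) (nat_lit 1) (nat_lit 0) (nat_lit 440) (nat_lit 432) (nat_lit 208))) (XT.nd (nat_lit 94) (nat_lit 0) (nat_lit 0) (XT.lf (nat_lit 0) (nat_lit 273785395613) (nat_lit 0) (nat_lit 0) (nat_lit 0) (nat_lit 0) (nat_lit 0) (nat_lit 0) (nat_lit 1) (nat_lit 0) (nat_lit 1) (nat_lit 0) (nat_lit 441) (nat_lit 432) (nat_lit 207)) (XT.nd (nat_lit 94) (nat_lit 0) (nat_lit 0) (XT.lf (nat_lit 0) (nat_lit 273785395001) (nat_lit 0) (nat_lit 0) (nat_lit 0) (nat_lit 0) (nat_lit 0) (nat_lit 0) (nat_lit 1) (nat_lit 0) (nat_lit 1) (nat_lit 0) (nat_lit 442) (nat_lit 432) (nat_lit 206)) (XT.lf (nat_lit 0) (nat_lit 273785394435) (nat_lit 0) (nat_lit 0) (nat_lit 0) (nat_lit 0) (nat_lit 0) (nat_lit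 0) (nat_lit 1) (nat_lit 0) (nat_lit 1) (nat_lit 0) (nat_lit 443) (nat_lit 432) (nat_lit 205))))) (XT.nd (nat_lit 46248) (nat_lit 0) (nat_lit 10836) (XT.nd (nat_lit 46154) (nat_lit 0) (nat_lit 10752) (XT.lf (nat_lit 0) (nat_lit 273785393910) (nat_lit 0) (nat_lit 0) (nat_lit 0) (nat_lit 0) (nat_lit 0) (nat_lit 0) (nat_lit 1) (nat_lit 0) (nat_lit 1) (nat_lit 0) (nat_lit 444) (nat_lit 432) (nat_lit 204)) (XT.lf (nat_lit 924) (nat_lit 147973460228) (nat_lit 0) (nat_lit 262726538505) (nat_lit 924) (nat_lit 147973460228) (nat_lit 139) (nat_lit 1) (nat_lit 128) (nat_lit 0) (nat_lit 139) (nat_lit 0) (nat_lit 214) (nat_lit 433) (nat_lit 433))) (XT.nd (nat_lit 94) (nat_lit 0) (nat_lit 0) (XT.lf (nat_lit 924) (nat_lit 55198641103) (nat_lit 0) (nat_lit 515811821265) (nat_lit 840) (nat_lit 504462237908) (nat_lit 140) (nat_lit 1) (nat_lit 129) (nat_lit 1) (nat_lit 139) (nat_lit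 1) (nat_lit 215) (nat_lit 433) (nat_lit 432)) (XT.nd (nat_lit 94) (nat_lit 0) (nat_lit 84) (XT.lf (nat_lit 924) (nat_lit 506967657416) (nat_lit 84) (nat_lit 345439350570) (nat_lit 0) (nat_lit 183205273946) (nat_lit 140) (nat_lit 1) (nat_lit 130) (nat_lit 1) (nat_lit 129) (nat_lit 1) (nat_lit 216) (nat_lit 433) (nat_lit 431)) (XT.lf (nat_lit 924) (nat_lit 438061587396) (nat_lit 84) (nat_lit 144771237464) (nat_lit 0) (nat_lit 414913755164) (nat_lit 141) (nat_lit 1) (nat_lit 131) (nat_lit 1) (nat_lit 130) (nat_lit 1) (nat_lit 217) (nat_lit 433) (nat_lit 430))))))) (XT.nd (nat_lit 846) (nat_lit 3024) (nat_lit 0) (XT.nd (nat_lit 376) (nat_lit 1764) (nat_lit 0) (XT.nd (nat_lit 188) (nat_lit 672) (nat_lit 0) (XT.nd (nat_lit 94) (nat_lit 0) (nat_lit 84) (XT.lf (nat_lit 924) (nat_lit 324202817376) (nat_lit 0) (nat_lit 606568146907) (nat_lit 840) (nat_lit 31007677008)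 (nat_lit 142) (nat_lit 1) (nat_lit 131) (nat_lit 1) (nat_lit 141) (nat_lit 1) (nat_lit 218) (nat_lit 433) (nat_lit 429)) (XT.lf (nat_lit 924) (nat_lit 77789287308) (nat_lit 0) (nat_lit 668909893131) (nat_lit 840) (nat_lit 180829242967) (nat_lit 143) (nat_lit 1) (nat_lit 132) (nat_lit 1) (nat_lit 142) (nat_lit 1) (nat_lit 219) (nat_lit 433) (nat_lit 428))) (XT.nd (nat_lit 94) (nat_lit 756) (nat_lit 0) (XT.lf (nat_lit 924) (nat_lit 149479370625) (nat_lit 84) (nat_lit 581337168801) (nat_lit 0) (nat_lit 164060521374) (nat_lit 143) (nat_lit 1) (nat_lit 133) (nat_lit 1) (nat_lit 132) (nat_lit 1) (nat_lit 220) (nat_lit 433) (nat_lit 427)) (XT.lf (nat_lit 924) (nat_lit 30699654139) (nat_lit 0) (nat_lit 434587987654) (nat_lit 840) (nat_lit 398512631137) (nat_lit 134) (nat_lit 1) (nat_lit 123) (nat_lit 1) (nat_lit 133) (nat_lit 1) (nat_lit 221) (nat_lit 433) (nat_lit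 426)))) (XT.nd (nat_lit 188) (nat_lit 756) (nat_lit 0) (XT.nd (nat_lit 94) (nat_lit 420) (nat_lit 0) (XT.lf (nat_lit 84) (nat_lit 212570800254) (nat_lit 0) (nat_lit 92116819993) (nat_lit 588) (nat_lit 529507320712) (nat_lit 117) (nat_lit 1) (nat_lit 116) (nat_lit 1) (nat_lit 123) (nat_lit 1) (nat_lit 222) (nat_lit 433) (nat_lit 425)) (XT.lf (nat_lit 504) (nat_lit 585818369892) (nat_lit 0) (nat_lit 190696508624) (nat_lit 420) (nat_lit 29482858529) (nat_lit 117) (nat_lit 1) (nat_lit 111) (nat_lit 1) (nat_lit 116) (nat_lit 1) (nat_lit 223) (nat_lit 433) (nat_lit 424))) (XT.nd (nat_lit 94) (nat_lit 336) (nat_lit 0) (XT.lf (nat_lit 504) (nat_lit 422732114300) (nat_lit 0) (nat_lit 88884464122) (nat_lit 420) (nat_lit 267396384058) (nat_lit 112) (nat_lit 1) (nat_lit 106) (nat_lit 1) (nat_lit 111) (nat_lit 1) (nat_lit 224) (nat_lit 433) (nat_lit 423)) (XT.nd (nat_lit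 94) (nat_lit 0) (nat_lit 0) (XT.lf (nat_lit 420) (nat_lit 257227100052) (nat_lit 0) (nat_lit 1636507429) (nat_lit 336) (nat_lit 494473013479) (nat_lit 107) (nat_lit 1) (nat_lit 102) (nat_lit 1) (nat_lit 106) (nat_lit 1) (nat_lit 225) (nat_lit 433) (nat_lit 422)) (XT.lf (nat_lit 84) (nat_lit 18976999789) (nat_lit 0) (nat_lit 639996387548) (nat_lit 420) (nat_lit 69868049658) (nat_lit 103) (nat_lit 1) (nat_lit 102) (nat_lit 1) (nat_lit 107) (nat_lit 1) (nat_lit 226) (nat_lit 433) (nat_lit 421)))))) (XT.nd (nat_lit 470) (nat_lit 1260) (nat_lit 0) (XT.nd (nat_lit 188) (nat_lit 1008) (nat_lit 0) (XT.nd (nat_lit 94) (nat_lit 336) (nat_lit 0) (XT.lf (nat_lit 84) (nat_lit 489991056635) (nat_lit 0) (nat_lit 81270259615) (nat_lit 420) (nat_lit 134029417903) (nat_lit 98) (nat_lit 1) (nat_lit 97) (nat_lit 1) (nat_lit 102) (nat_lit 1) (nat_lit 227) (nat_lit 433) (nat_lit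 420)) (XT.lf (nat_lit 84) (nat_lit 245154942325) (nat_lit 0) (nat_lit 248945231991) (nat_lit 420) (nat_lit 188680447125) (nat_lit 94) (nat_lit 1) (nat_lit 93) (nat_lit 1) (nat_lit 98) (nat_lit 1) (nat_lit 228) (nat_lit 433) (nat_lit 419))) (XT.nd (nat_lit 94) (nat_lit 672) (nat_lit 0) (XT.lf (nat_lit 84) (nat_lit 12100304331) (nat_lit 0) (nat_lit 416232562319) (nat_lit 420) (nat_lit 233003421521) (nat_lit 90) (nat_lit 1) (nat_lit 89) (nat_lit 1) (nat_lit 94) (nat_lit 1) (nat_lit 229) (nat_lit 433) (nat_lit 418)) (XT.nd (nat_lit 94) (nat_lit 420) (nat_lit 0) (XT.lf (nat_lit 336) (nat_lit 54644292391) (nat_lit 0) (nat_lit 369533192896) (nat_lit 252) (nat_lit 216554943836) (nat_lit 90) (nat_lit 1) (nat_lit 86) (nat_lit 1) (nat_lit 89) (nat_lit 1) (nat_lit 230) (nat_lit 433) (nat_lit 417)) (XT.lf (nat_lit 84) (nat_lit 188810721862) (nat_lit 0) (nat_lit 129412041983)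 (nat_lit 420) (nat_lit 302756989002) (nat_lit 82) (nat_lit 1) (nat_lit 81) (nat_lit 1) (nat_lit 86) (nat_lit 1) (nat_lit 231) (nat_lit 433) (nat_lit 416))))) (XT.nd (nat_lit 188) (nat_lit 756) (nat_lit 0) (XT.nd (nat_lit 94) (nat_lit 252) (nat_lit 0) (XT.lf (nat_lit 336) (nat_lit 292324412311) (nat_lit 0) (nat_lit 274601003326) (nat_lit 252) (nat_lit 35148602522) (nat_lit 82) (nat_lit 1) (nat_lit 78) (nat_lit 1) (nat_lit 81) (nat_lit 1) (nat_lit 232) (nat_lit 433) (nat_lit 415)) (XT.lf (nat_lit 336) (nat_lit 93688561908) (nat_lit 0) (nat_lit 236420219062) (nat_lit 252) (nat_lit 253786055162) (nat_lit 79) (nat_lit 1) (nat_lit 75) (nat_lit 1) (nat_lit 78) (nat_lit 1) (nat_lit 233) (nat_lit 433) (nat_lit 414))) (XT.nd (nat_lit 94) (nat_lit 420) (nat_lit 0) (XT.lf (nat_lit 84) (nat_lit 106782322401) (nat_lit 0) (nat_lit 97768495748) (nat_lit 336) (nat_lit 361919851618)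 (nat_lit 72) (nat_lit 1) (nat_lit 71) (nat_lit 1) (nat_lit 75) (nat_lit 1) (nat_lit 234) (nat_lit 433) (nat_lit 413)) (XT.nd (nat_lit 94) (nat_lit 168) (nat_lit 0) (XT.lf (nat_lit 336) (nat_lit 265713794149) (nat_lit 0) (nat_lit 176796112036) (nat_lit 252) (nat_lit 107174384392) (nat_lit 72) (nat_lit 1) (nat_lit 68) (nat_lit 1) (nat_lit 71) (nat_lit 1) (nat_lit 235) (nat_lit 433) (nat_lit 412)) (XT.lf (nat_lit 252) (nat_lit 65870841914) (nat_lit 0) (nat_lit 154241712207) (nat_lit 168) (nat_lit 313462566637) (nat_lit 69) (nat_lit 1) (nat_lit 66) (nat_lit 1) (nat_lit 68) (nat_lit 1) (nat_lit 236) (nat_lit 433) (nat_lit 411))))))))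
noncomputable def ec322 : XT := (XT.nd (nat_lit 1692) (nat_lit 2268) (nat_lit 0) (XT.nd (nat_lit 846) (nat_lit 1428) (nat_lit 0) (XT.nd (nat_lit 376) (nat_lit 924) (nat_lit 0) (XT.nd (nat_lit 188) (nat_lit 420) (nat_lit 0) (XT.nd (nat_lit 94) (nat_lit 168) (nat_lit 0) (XT.lf (nat_lit 84) (nat_lit 11158941454) (nat_lit 0) (nat_lit 124870977359) (nat_lit 336) (nat_lit 382060465985) (nat_lit 63) (nat_lit 1) (nat_lit 62) (nat_lit 1) (nat_lit 66) (nat_lit 1) (nat_lit 237) (nat_lit 433) (nat_lit 410)) (XT.lf (nat_lit 252) (nat_lit 191408580154) (nat_lit 0) (nat_lit 119613941685) (nat_lit 168) (nat_lit 192074683939) (nat_lit 63) (nat_lit 1) (nat_lit 60) (nat_lit 1) (nat_lit 62) (nat_lit 1) (nat_lit 238) (nat_lit 433) (nat_lit 409))) (XT.nd (nat_lit 94) (nat_lit 168) (nat_lit 0) (XT.lf (nat_lit 84) (nat_lit 103850296578) (nat_lit 0) (nat_lit 4796910307) (nat_lit 252)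 (nat_lit 380111070544) (nat_lit 58) (nat_lit 1) (nat_lit 57) (nat_lit 1) (nat_lit 60) (nat_lit 1) (nat_lit 239) (nat_lit 433) (nat_lit 408)) (XT.lf (nat_lit 252) (nat_lit 283906656874) (nat_lit 0) (nat_lit 98380022328) (nat_lit 168) (nat_lit 92549779095) (nat_lit 58) (nat_lit 1) (nat_lit 55) (nat_lit 1) (nat_lit 57) (nat_lit 1) (nat_lit 240) (nat_lit 433) (nat_lit 407)))) (XT.nd (nat_lit 188) (nat_lit 504) (nat_lit 0) (XT.nd (nat_lit 94) (nat_lit 252) (nat_lit 0) (XT.lf (nat_lit 252) (nat_lit 88192784559) (nat_lit 0) (nat_lit 91455109782) (nat_lit 168) (nat_lit 281799036901) (nat_lit 56) (nat_lit 1) (nat_lit 53) (nat_lit 1) (nat_lit 55) (nat_lit 1) (nat_lit 241) (nat_lit 433) (nat_lit 406)) (XT.lf (nat_lit 252) (nat_lit 350092942940) (nat_lit 0) (nat_lit 87377934437) (nat_lit 168) (nat_lit 11084904713) (nat_lit 53) (nat_lit 1) (nat_lit 50) (nat_lit 1) (nat_lit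 52) (nat_lit 1) (nat_lit 242) (nat_lit 433) (nat_lit 405))) (XT.nd (nat_lit 94) (nat_lit 336) (nat_lit 0) (XT.lf (nat_lit 252) (nat_lit 156685375824) (nat_lit 0) (nat_lit 83416468203) (nat_lit 168) (nat_lit 195920993257) (nat_lit 51) (nat_lit 1) (nat_lit 48) (nat_lit 1) (nat_lit 50) (nat_lit 1) (nat_lit 243) (nat_lit 433) (nat_lit 404)) (XT.nd (nat_lit 94) (nat_lit 168) (nat_lit 0) (XT.lf (nat_lit 84) (nat_lit 53670790673) (nat_lit 0) (nat_lit 29499885031) (nat_lit 168) (nat_lit 340839050939) (nat_lit 47) (nat_lit 1) (nat_lit 46) (nat_lit 1) (nat_lit 48) (nat_lit 1) (nat_lit 244) (nat_lit 433) (nat_lit 403)) (XT.lf (nat_lit 252) (nat_lit 205580224167) (nat_lit 0) (nat_lit 82289990828) (nat_lit 168) (nat_lit 124429540432) (nat_lit 47) (nat_lit 1) (nat_lit 44) (nat_lit 1) (nat_lit 46) (nat_lit 1) (nat_lit 245) (nat_lit 433) (nat_lit 402)))))) (XT.nd (nat_lit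 376) (nat_lit 756) (nat_lit 0) (XT.nd (nat_lit 188) (nat_lit 336) (nat_lit 0) (XT.nd (nat_lit 94) (nat_lit 252) (nat_lit 0) (XT.lf (nat_lit 168) (nat_lit 22138068885) (nat_lit 0) (nat_lit 84311139343) (nat_lit 84) (nat_lit 294602870576) (nat_lit 45) (nat_lit 1) (nat_lit 43) (nat_lit 1) (nat_lit 44) (nat_lit 1) (nat_lit 246) (nat_lit 433) (nat_lit 401)) (XT.lf (nat_lit 252) (nat_lit 238972280337) (nat_lit 0) (nat_lit 86227796832) (nat_lit 168) (nat_lit 64914458188) (nat_lit 43) (nat_lit 1) (nat_lit 40) (nat_lit 1) (nat_lit 42) (nat_lit 1) (nat_lit 247) (nat_lit 433) (nat_lit 400))) (XT.nd (nat_lit 94) (nat_lit 252) (nat_lit 0) (XT.lf (nat_lit 168) (nat_lit 60103290681) (nat_lit 0) (nat_lit 89451941044) (nat_lit 84) (nat_lit 229990377370) (nat_lit 41) (nat_lit 1) (nat_lit 39) (nat_lit 1) (nat_lit 40) (nat_lit 1) (nat_lit 248) (nat_lit 433) (nat_lit 399)) (XT.lf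 (nat_lit 252) (nat_lit 260172364322) (nat_lit 0) (nat_lit 93766234626) (nat_lit 168) (nat_lit 15387841785) (nat_lit 39) (nat_lit 1) (nat_lit 36) (nat_lit 1) (nat_lit 38) (nat_lit 1) (nat_lit 249) (nat_lit 433) (nat_lit 398)))) (XT.nd (nat_lit 188) (nat_lit 420) (nat_lit 0) (XT.nd (nat_lit 94) (nat_lit 252) (nat_lit 0) (XT.lf (nat_lit 168) (nat_lit 86496880980) (nat_lit 0) (nat_lit 97752426314) (nat_lit 84) (nat_lit 175131913704) (nat_lit 37) (nat_lit 1) (nat_lit 35) (nat_lit 1) (nat_lit 36) (nat_lit 1) (nat_lit 250) (nat_lit 433) (nat_lit 397)) (XT.lf (nat_lit 84) (nat_lit 24966442109) (nat_lit 0) (nat_lit 78363006694) (nat_lit 252) (nat_lit 246463835152) (nat_lit 33) (nat_lit 1) (nat_lit 32) (nat_lit 1) (nat_lit 35) (nat_lit 1) (nat_lit 251) (nat_lit 433) (nat_lit 396))) (XT.nd (nat_lit 94) (nat_lit 336) (nat_lit 0) (XT.lf (nat_lit 168) (nat_lit 103804061162)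 (nat_lit 0) (nat_lit 108158911530) (nat_lit 84) (nat_lit 128480484733) (nat_lit 33) (nat_lit 1) (nat_lit 31) (nat_lit 1) (nat_lit 32) (nat_lit 1) (nat_lit 252) (nat_lit 433) (nat_lit 395)) (XT.nd (nat_lit 94) (nat_lit 84) (nat_lit 0) (XT.lf (nat_lit 84) (nat_lit 58062648081) (nat_lit 0) (nat_lit 56237600852) (nat_lit 252) (nat_lit 217121957767) (nat_lit 29) (nat_lit 1) (nat_lit 28) (nat_lit 1) (nat_lit 31) (nat_lit 1) (nat_lit 253) (nat_lit 433) (nat_lit 394)) (XT.lf (nat_lit 168) (nat_lit 114028994104) (nat_lit 0) (nat_lit 119848877693) (nat_lit 84) (nat_lit 88753573717) (nat_lit 29) (nat_lit 1) (nat_lit 27) (nat_lit 1) (nat_lit 28) (nat_lit 1) (nat_lit 254) (nat_lit 433) (nat_lit 393))))))) (XT.nd (nat_lit 846) (nat_lit 1092) (nat_lit 0) (XT.nd (nat_lit 376) (nat_lit 672) (nat_lit 0) (XT.nd (nat_lit 188) (nat_lit 252) (nat_lit 0) (XT.nd (nat_lit 94) (nat_lit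 84) (nat_lit 0) (XT.lf (nat_lit 84) (nat_lit 85481644388) (nat_lit 0) (nat_lit 40730474039) (nat_lit 168) (nat_lit 187918884216) (nat_lit 26) (nat_lit 1) (nat_lit 25) (nat_lit 1) (nat_lit 27) (nat_lit 1) (nat_lit 255) (nat_lit 433) (nat_lit 392)) (XT.lf (nat_lit 168) (nat_lit 118784673279) (nat_lit 0) (nat_lit 132185917457) (nat_lit 84) (nat_lit 54885964588) (nat_lit 26) (nat_lit 1) (nat_lit 24) (nat_lit 1) (nat_lit 25) (nat_lit 1) (nat_lit 256) (nat_lit 433) (nat_lit 391))) (XT.nd (nat_lit 94) (nat_lit 84) (nat_lit 0) (XT.lf (nat_lit 84) (nat_lit 108126332214) (nat_lit 0) (nat_lit 30385464729) (nat_lit 168) (nat_lit 159324824410) (nat_lit 23) (nat_lit 1) (nat_lit 22) (nat_lit 1) (nat_lit 24) (nat_lit 1) (nat_lit 257) (nat_lit 433) (nat_lit 390)) (XT.lf (nat_lit 168) (nat_lit 119366217729) (nat_lit 0) (nat_lit 144683120176) (nat_lit 84) (nat_lit 25991133164)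 (nat_lit 23) (nat_lit 1) (nat_lit 21) (nat_lit 1) (nat_lit 22) (nat_lit 1) (nat_lit 258) (nat_lit 433) (nat_lit 389)))) (XT.nd (nat_lit 188) (nat_lit 420) (nat_lit 0) (XT.nd (nat_lit 94) (nat_lit 84) (nat_lit 0) (XT.lf (nat_lit 84) (nat_lit 126747123198) (nat_lit 0) (nat_lit 24031683684) (nat_lit 168) (nat_lit 131686635018) (nat_lit 20) (nat_lit 1) (nat_lit 19) (nat_lit 1) (nat_lit 21) (nat_lit 1) (nat_lit 259) (nat_lit 433) (nat_lit 388)) (XT.lf (nat_lit 168) (nat_lit 116810623795) (nat_lit 0) (nat_lit 156973336020) (nat_lit 84) (nat_lit 1329640254) (nat_lit 20) (nat_lit 1) (nat_lit 18) (nat_lit 1) (nat_lit 19) (nat_lit 1) (nat_lit 260) (nat_lit 433) (nat_lit 387))) (XT.nd (nat_lit 94) (nat_lit 252) (nat_lit 0) (XT.lf (nat_lit 84) (nat_lit 141968931566) (nat_lit 0) (nat_lit 20729948982) (nat_lit 168) (nat_lit 105252956740) (nat_lit 17) (nat_lit 1) (nat_lit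 16) (nat_lit 1) (nat_lit 18) (nat_lit 1) (nat_lit 261) (nat_lit 433) (nat_lit 386)) (XT.nd (nat_lit 94) (nat_lit 168) (nat_lit 0) (XT.lf (nat_lit 0) (nat_lit 19085693737) (nat_lit 0) (nat_lit 149376127735) (nat_lit 168) (nat_lit 92536545143) (nat_lit 15) (nat_lit 3) (nat_lit 15) (nat_lit 1) (nat_lit 17) (nat_lit 1) (nat_lit 262) (nat_lit 433) (nat_lit 385)) (XT.lf (nat_lit 84) (nat_lit 154313280316) (nat_lit 0) (nat_lit 19729127399) (nat_lit 168) (nat_lit 80194579570) (nat_lit 14) (nat_lit 1) (nat_lit 13) (nat_lit 1) (nat_lit 15) (nat_lit 1) (nat_lit 263) (nat_lit 433) (nat_lit 384)))))) (XT.nd (nat_lit 470) (nat_lit 504) (nat_lit 0) (XT.nd (nat_lit 188) (nat_lit 336) (nat_lit 0) (XT.nd (nat_lit 94) (nat_lit 168) (nat_lit 0) (XT.lf (nat_lit 0) (nat_lit 36460735870) (nat_lit 0) (nat_lit 142844590137) (nat_lit 168) (nat_lit 68350352725) (nat_lit 12) (nat_lit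 3) (nat_lit 12) (nat_lit 1) (nat_lit 14) (nat_lit 1) (nat_lit 264) (nat_lit 433) (nat_lit 383)) (XT.lf (nat_lit 84) (nat_lit 164216413712) (nat_lit 0) (nat_lit 20430559655) (nat_lit 168) (nat_lit 56620921473) (nat_lit 11) (nat_lit 1) (nat_lit 10) (nat_lit 1) (nat_lit 12) (nat_lit 1) (nat_lit 265) (nat_lit 433) (nat_lit 382))) (XT.nd (nat_lit 94) (nat_lit 252) (nat_lit 0) (XT.lf (nat_lit 0) (nat_lit 51259736955) (nat_lit 0) (nat_lit 138123554210) (nat_lit 168) (nat_lit 45652498678) (nat_lit 9) (nat_lit 3) (nat_lit 9) (nat_lit 1) (nat_lit 11) (nat_lit 1) (nat_lit 266) (nat_lit 433) (nat_lit 381)) (XT.nd (nat_lit 94) (nat_lit 84) (nat_lit 0) (XT.lf (nat_lit 84) (nat_lit 172044144868) (nat_lit 0) (nat_lit 22359081753) (nat_lit 168) (nat_lit 34593342826) (nat_lit 8) (nat_lit 1) (nat_lit 7) (nat_lit 1) (nat_lit 9) (nat_lit 1) (nat_lit 267) (nat_lit 433) (nat_lit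 380)) (XT.lf (nat_lit 0) (nat_lit 63838227700) (nat_lit 0) (nat_lit 134763677806) (nat_lit 168) (nat_lit 24490732338) (nat_lit 6) (nat_lit 3) (nat_lit 6) (nat_lit 1) (nat_lit 8) (nat_lit 1) (nat_lit 268) (nat_lit 433) (nat_lit 379))))) (XT.nd (nat_lit 188) (nat_lit 252) (nat_lit 0) (XT.nd (nat_lit 94) (nat_lit 84) (nat_lit 0) (XT.lf (nat_lit 84) (nat_lit 178104033753) (nat_lit 0) (nat_lit 25139427877) (nat_lit 168) (nat_lit 14135885911) (nat_lit 5) (nat_lit 1) (nat_lit 4) (nat_lit 1) (nat_lit 6) (nat_lit 1) (nat_lit 269) (nat_lit 433) (nat_lit 378)) (XT.lf (nat_lit 0) (nat_lit 74496902289) (nat_lit 0) (nat_lit 132408465835) (nat_lit 168) (nat_lit 4878881265) (nat_lit 3) (nat_lit 3) (nat_lit 3) (nat_lit 1) (nat_lit 5) (nat_lit 1) (nat_lit 270) (nat_lit 433) (nat_lit 377))) (XT.nd (nat_lit 94) (nat_lit 0) (nat_lit 0) (XT.lf (nat_lit 0) (nat_lit 299366796243)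 (nat_lit 0) (nat_lit 0) (nat_lit 0) (nat_lit 0) (nat_lit 0) (nat_lit 0) (nat_lit 1) (nat_lit 0) (nat_lit 1) (nat_lit 0) (nat_lit 271) (nat_lit 433) (nat_lit 376)) (XT.nd (nat_lit 94) (nat_lit 0) (nat_lit 0) (XT.lf (nat_lit 0) (nat_lit 299094308991) (nat_lit 0) (nat_lit 0) (nat_lit 0) (nat_lit 0) (nat_lit 0) (nat_lit 0) (nat_lit 1) (nat_lit 0) (nat_lit 1) (nat_lit 0) (nat_lit 272) (nat_lit 433) (nat_lit 375)) (XT.lf (nat_lit 0) (nat_lit 298842005980) (nat_lit 0) (nat_lit 0) (nat_lit 0) (nat_lit 0) (nat_lit 0) (nat_lit 0) (nat_lit 1) (nat_lit 0) (nat_lit 1) (nat_lit 0) (nat_lit 273) (nat_lit 433) (nat_lit 374))))))))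
noncomputable def ec323 : XT := (XT.nd (nat_lit 1786) (nat_lit 0) (nat_lit 0) (XT.nd (nat_lit 846) (nat_lit 0) (nat_lit 0) (XT.nd (nat_lit 376) (nat_lit 0) (nat_lit 0) (XT.nd (nat_lit 188) (nat_lit 0) (nat_lit 0) (XT.nd (nat_lit 94) (nat_lit 0) (nat_lit 0) (XT.lf (nat_lit 0) (nat_lit 298608392080) (nat_lit 0) (nat_lit 0) (nat_lit 0) (nat_lit 0) (nat_lit 0) (nat_lit 0) (nat_lit 1) (nat_lit 0) (nat_lit 1) (nat_lit 0) (nat_lit 274) (nat_lit 433) (nat_lit 373)) (XT.lf (nat_lit 0) (nat_lit 298392082914) (nat_lit 0) (nat_lit 0) (nat_lit 0) (nat_lit 0) (nat_lit 0) (nat_lit 0) (nat_lit 1) (nat_lit 0) (nat_lit 1) (nat_lit 0) (nat_lit 275) (nat_lit 433) (nat_lit 372))) (XT.nd (nat_lit 94) (nat_lit 0) (nat_lit 0) (XT.lf (nat_lit 0) (nat_lit 298191796650) (nat_lit 0) (nat_lit 0) (nat_lit 0) (nat_lit 0) (nat_lit 0) (nat_lit 0) (nat_lit 1) (nat_lit 0) (nat_lit 1) (nat_lit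 0) (nat_lit 276) (nat_lit 433) (nat_lit 371)) (XT.lf (nat_lit 0) (nat_lit 298006346404) (nat_lit 0) (nat_lit 0) (nat_lit 0) (nat_lit 0) (nat_lit 0) (nat_lit 0) (nat_lit 1) (nat_lit 0) (nat_lit 1) (nat_lit 0) (nat_lit 277) (nat_lit 433) (nat_lit 370)))) (XT.nd (nat_lit 188) (nat_lit 0) (nat_lit 0) (XT.nd (nat_lit 94) (nat_lit 0) (nat_lit 0) (XT.lf (nat_lit 0) (nat_lit 297834633214) (nat_lit 0) (nat_lit 0) (nat_lit 0) (nat_lit 0) (nat_lit 0) (nat_lit 0) (nat_lit 1) (nat_lit 0) (nat_lit 1) (nat_lit 0) (nat_lit 278) (nat_lit 433) (nat_lit 369)) (XT.lf (nat_lit 0) (nat_lit 297675639520) (nat_lit 0) (nat_lit 0) (nat_lit 0) (nat_lit 0) (nat_lit 0) (nat_lit 0) (nat_lit 1) (nat_lit 0) (nat_lit 1) (nat_lit 0) (nat_lit 279) (nat_lit 433) (nat_lit 368))) (XT.nd (nat_lit 94) (nat_lit 0) (nat_lit 0) (XT.lf (nat_lit 0) (nat_lit 297528423136) (nat_lit 0) (nat_lit 0) (nat_lit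 0) (nat_lit 0) (nat_lit 0) (nat_lit 0) (nat_lit 1) (nat_lit 0) (nat_lit 1) (nat_lit 0) (nat_lit 280) (nat_lit 433) (nat_lit 367)) (XT.nd (nat_lit 94) (nat_lit 0) (nat_lit 0) (XT.lf (nat_lit 0) (nat_lit 297392111670) (nat_lit 0) (nat_lit 0) (nat_lit 0) (nat_lit 0) (nat_lit 0) (nat_lit 0) (nat_lit 1) (nat_lit 0) (nat_lit 1) (nat_lit 0) (nat_lit 281) (nat_lit 433) (nat_lit 366)) (XT.lf (nat_lit 0) (nat_lit 297265897349) (nat_lit 0) (nat_lit 0) (nat_lit 0) (nat_lit 0) (nat_lit 0) (nat_lit 0) (nat_lit 1) (nat_lit 0) (nat_lit 1) (nat_lit 0) (nat_lit 282) (nat_lit 433) (nat_lit 365)))))) (XT.nd (nat_lit 470) (nat_lit 0) (nat_lit 0) (XT.nd (nat_lit 188) (nat_lit 0) (nat_lit 0) (XT.nd (nat_lit 94) (nat_lit 0) (nat_lit 0) (XT.lf (nat_lit 0) (nat_lit 297149032237) (nat_lit 0) (nat_lit 0) (nat_lit 0) (nat_lit 0) (nat_lit 0) (nat_lit 0) (nat_lit 1) (nat_lit 0) (nat_lit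 1) (nat_lit 0) (nat_lit 283) (nat_lit 433) (nat_lit 364)) (XT.lf (nat_lit 0) (nat_lit 297040823801) (nat_lit 0) (nat_lit 0) (nat_lit 0) (nat_lit 0) (nat_lit 0) (nat_lit 0) (nat_lit 1) (nat_lit 0) (nat_lit 1) (nat_lit 0) (nat_lit 284) (nat_lit 433) (nat_lit 363))) (XT.nd (nat_lit 94) (nat_lit 0) (nat_lit 0) (XT.lf (nat_lit 0) (nat_lit 296940630804) (nat_lit 0) (nat_lit 0) (nat_lit 0) (nat_lit 0) (nat_lit 0) (nat_lit 0) (nat_lit 1) (nat_lit 0) (nat_lit 1) (nat_lit 0) (nat_lit 285) (nat_lit 433) (nat_lit 362)) (XT.nd (nat_lit 94) (nat_lit 0) (nat_lit 0) (XT.lf (nat_lit 0) (nat_lit 296847859510) (nat_lit 0) (nat_lit 0) (nat_lit 0) (nat_lit 0) (nat_lit 0) (nat_lit 0) (nat_lit 1) (nat_lit 0) (nat_lit 1) (nat_lit 0) (nat_lit 286) (nat_lit 433) (nat_lit 361)) (XT.lf (nat_lit 0) (nat_lit 296761960164) (nat_lit 0) (nat_lit 0) (nat_lit 0) (nat_lit 0) (nat_lit 0) (nat_lit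 0) (nat_lit 1) (nat_lit 0) (nat_lit 1) (nat_lit 0) (nat_lit 287) (nat_lit 433) (nat_lit 360))))) (XT.nd (nat_lit 188) (nat_lit 0) (nat_lit 0) (XT.nd (nat_lit 94) (nat_lit 0) (nat_lit 0) (XT.lf (nat_lit 0) (nat_lit 296682423733) (nat_lit 0) (nat_lit 0) (nat_lit 0) (nat_lit 0) (nat_lit 0) (nat_lit 0) (nat_lit 1) (nat_lit 0) (nat_lit 1) (nat_lit 0) (nat_lit 288) (nat_lit 433) (nat_lit 359)) (XT.lf (nat_lit 0) (nat_lit 296608778889) (nat_lit 0) (nat_lit 0) (nat_lit 0) (nat_lit 0) (nat_lit 0) (nat_lit 0) (nat_lit 1) (nat_lit 0) (nat_lit 1) (nat_lit 0) (nat_lit 289) (nat_lit 433) (nat_lit 358))) (XT.nd (nat_lit 94) (nat_lit 0) (nat_lit 0) (XT.lf (nat_lit 0) (nat_lit 296540589218) (nat_lit 0) (nat_lit 0) (nat_lit 0) (nat_lit 0) (nat_lit 0) (nat_lit 0) (nat_lit 1) (nat_lit 0) (nat_lit 1) (nat_lit 0) (nat_lit 290) (nat_lit 433) (nat_lit 357)) (XT.nd (nat_lit 94) (nat_lit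 0) (nat_lit 0) (XT.lf (nat_lit 0) (nat_lit 296477450635) (nat_lit 0) (nat_lit 0) (nat_lit 0) (nat_lit 0) (nat_lit 0) (nat_lit 0) (nat_lit 1) (nat_lit 0) (nat_lit 1) (nat_lit 0) (nat_lit 291) (nat_lit 433) (nat_lit 356)) (XT.lf (nat_lit 0) (nat_lit 296418988983) (nat_lit 0) (nat_lit 0) (nat_lit 0) (nat_lit 0) (nat_lit 0) (nat_lit 0) (nat_lit 1) (nat_lit 0) (nat_lit 1) (nat_lit 0) (nat_lit 292) (nat_lit 433) (nat_lit 355))))))) (XT.nd (nat_lit 846) (nat_lit 0) (nat_lit 0) (XT.nd (nat_lit 376) (nat_lit 0) (nat_lit 0) (XT.nd (nat_lit 188) (nat_lit 0) (nat_lit 0) (XT.nd (nat_lit 94) (nat_lit 0) (nat_lit 0) (XT.lf (nat_lit 0) (nat_lit 296364857825) (nat_lit 0) (nat_lit 0) (nat_lit 0) (nat_lit 0) (nat_lit 0) (nat_lit 0) (nat_lit 1) (nat_lit 0) (nat_lit 1) (nat_lit 0) (nat_lit 293) (nat_lit 433) (nat_lit 354)) (XT.lf (nat_lit 0) (nat_lit 296314736381) (nat_lit 0)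 (nat_lit 0) (nat_lit 0) (nat_lit 0) (nat_lit 0) (nat_lit 0) (nat_lit 1) (nat_lit 0) (nat_lit 1) (nat_lit 0) (nat_lit 294) (nat_lit 433) (nat_lit 353))) (XT.nd (nat_lit 94) (nat_lit 0) (nat_lit 0) (XT.lf (nat_lit 0) (nat_lit 296268327638) (nat_lit 0) (nat_lit 0) (nat_lit 0) (nat_lit 0) (nat_lit 0) (nat_lit 0) (nat_lit 1) (nat_lit 0) (nat_lit 1) (nat_lit 0) (nat_lit 295) (nat_lit 433) (nat_lit 352)) (XT.lf (nat_lit 0) (nat_lit 296225356578) (nat_lit 0) (nat_lit 0) (nat_lit 0) (nat_lit 0) (nat_lit 0) (nat_lit 0) (nat_lit 1) (nat_lit 0) (nat_lit 1) (nat_lit 0) (nat_lit 296) (nat_lit 433) (nat_lit 351)))) (XT.nd (nat_lit 188) (nat_lit 0) (nat_lit 0) (XT.nd (nat_lit 94) (nat_lit 0) (nat_lit 0) (XT.lf (nat_lit 0) (nat_lit 296185568561) (nat_lit 0) (nat_lit 0) (nat_lit 0) (nat_lit 0) (nat_lit 0) (nat_lit 0) (nat_lit 1) (nat_lit 0) (nat_lit 1) (nat_lit 0) (nat_lit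 297) (nat_lit 433) (nat_lit 350)) (XT.lf (nat_lit 0) (nat_lit 296148727804) (nat_lit 0) (nat_lit 0) (nat_lit 0) (nat_lit 0) (nat_lit 0) (nat_lit 0) (nat_lit 1) (nat_lit 0) (nat_lit 1) (nat_lit 0) (nat_lit 298) (nat_lit 433) (nat_lit 349))) (XT.nd (nat_lit 94) (nat_lit 0) (nat_lit 0) (XT.lf (nat_lit 0) (nat_lit 296114615992) (nat_lit 0) (nat_lit 0) (nat_lit 0) (nat_lit 0) (nat_lit 0) (nat_lit 0) (nat_lit 1) (nat_lit 0) (nat_lit 1) (nat_lit 0) (nat_lit 299) (nat_lit 433) (nat_lit 348)) (XT.nd (nat_lit 94) (nat_lit 0) (nat_lit 0) (XT.lf (nat_lit 0) (nat_lit 296083030980) (nat_lit 0) (nat_lit 0) (nat_lit 0) (nat_lit 0) (nat_lit 0) (nat_lit 0) (nat_lit 1) (nat_lit 0) (nat_lit 1) (nat_lit 0) (nat_lit 300) (nat_lit 433) (nat_lit 347)) (XT.lf (nat_lit 0) (nat_lit 296053785600) (nat_lit 0) (nat_lit 0) (nat_lit 0) (nat_lit 0) (nat_lit 0) (nat_lit 0) (nat_lit 1) (nat_lit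 0) (nat_lit 1) (nat_lit 0) (nat_lit 301) (nat_lit 433) (nat_lit 346)))))) (XT.nd (nat_lit 470) (nat_lit 0) (nat_lit 0) (XT.nd (nat_lit 188) (nat_lit 0) (nat_lit 0) (XT.nd (nat_lit 94) (nat_lit 0) (nat_lit 0) (XT.lf (nat_lit 0) (nat_lit 296026706543) (nat_lit 0) (nat_lit 0) (nat_lit 0) (nat_lit 0) (nat_lit 0) (nat_lit 0) (nat_lit 1) (nat_lit 0) (nat_lit 1) (nat_lit 0) (nat_lit 302) (nat_lit 433) (nat_lit 345)) (XT.lf (nat_lit 0) (nat_lit 296001633343) (nat_lit 0) (nat_lit 0) (nat_lit 0) (nat_lit 0) (nat_lit 0) (nat_lit 0) (nat_lit 1) (nat_lit 0) (nat_lit 1) (nat_lit 0) (nat_lit 303) (nat_lit 433) (nat_lit 344))) (XT.nd (nat_lit 94) (nat_lit 0) (nat_lit 0) (XT.lf (nat_lit 0) (nat_lit 295978417417) (nat_lit 0) (nat_lit 0) (nat_lit 0) (nat_lit 0) (nat_lit 0) (nat_lit 0) (nat_lit 1) (nat_lit 0) (nat_lit 1) (nat_lit 0) (nat_lit 304) (nat_lit 433) (nat_lit 343))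 (XT.nd (nat_lit 94) (nat_lit 0) (nat_lit 0) (XT.lf (nat_lit 0) (nat_lit 295956921189) (nat_lit 0) (nat_lit 0) (nat_lit 0) (nat_lit 0) (nat_lit 0) (nat_lit 0) (nat_lit 1) (nat_lit 0) (nat_lit 1) (nat_lit 0) (nat_lit 305) (nat_lit 433) (nat_lit 342)) (XT.lf (nat_lit 0) (nat_lit 295937017274) (nat_lit 0) (nat_lit 0) (nat_lit 0) (nat_lit 0) (nat_lit 0) (nat_lit 0) (nat_lit 1) (nat_lit 0) (nat_lit 1) (nat_lit 0) (nat_lit 306) (nat_lit 433) (nat_lit 341))))) (XT.nd (nat_lit 188) (nat_lit 0) (nat_lit 0) (XT.nd (nat_lit 94) (nat_lit 0) (nat_lit 0) (XT.lf (nat_lit 0) (nat_lit 295918587724) (nat_lit 0) (nat_lit 0) (nat_lit 0) (nat_lit 0) (nat_lit 0) (nat_lit 0) (nat_lit 1) (nat_lit 0) (nat_lit 1) (nat_lit 0) (nat_lit 307) (nat_lit 433) (nat_lit 340)) (XT.lf (nat_lit 0) (nat_lit 295901523325) (nat_lit 0) (nat_lit 0) (nat_lit 0) (nat_lit 0) (nat_lit 0) (nat_lit 0) (nat_lit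 1) (nat_lit 0) (nat_lit 1) (nat_lit 0) (nat_lit 308) (nat_lit 433) (nat_lit 339))) (XT.nd (nat_lit 94) (nat_lit 0) (nat_lit 0) (XT.lf (nat_lit 0) (nat_lit 295885722956) (nat_lit 0) (nat_lit 0) (nat_lit 0) (nat_lit 0) (nat_lit 0) (nat_lit 0) (nat_lit 1) (nat_lit 0) (nat_lit 1) (nat_lit 0) (nat_lit 309) (nat_lit 433) (nat_lit 338)) (XT.nd (nat_lit 94) (nat_lit 0) (nat_lit 0) (XT.lf (nat_lit 0) (nat_lit 295871092984) (nat_lit 0) (nat_lit 0) (nat_lit 0) (nat_lit 0) (nat_lit 0) (nat_lit 0) (nat_lit 1) (nat_lit 0) (nat_lit 1) (nat_lit 0) (nat_lit 310) (nat_lit 433) (nat_lit 337)) (XT.lf (nat_lit 0) (nat_lit 295857546714) (nat_lit 0) (nat_lit 0) (nat_lit 0) (nat_lit 0) (nat_lit 0) (nat_lit 0) (nat_lit 1) (nat_lit 0) (nat_lit 1) (nat_lit 0) (nat_lit 311) (nat_lit 433) (nat_lit 336))))))))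
noncomputable def ec324 : XT := (XT.nd (nat_lit 1692) (nat_lit 0) (nat_lit 0) (XT.nd (nat_lit 846) (nat_lit 0) (nat_lit 0) (XT.nd (nat_lit 376) (nat_lit 0) (nat_lit 0) (XT.nd (nat_lit 188) (nat_lit 0) (nat_lit 0) (XT.nd (nat_lit 94) (nat_lit 0) (nat_lit 0) (XT.lf (nat_lit 0) (nat_lit 295845003872) (nat_lit 0) (nat_lit 0) (nat_lit 0) (nat_lit 0) (nat_lit 0) (nat_lit 0) (nat_lit 1) (nat_lit 0) (nat_lit 1) (nat_lit 0) (nat_lit 312) (nat_lit 433) (nat_lit 335)) (XT.lf (nat_lit 0) (nat_lit 295833390129) (nat_lit 0) (nat_lit 0) (nat_lit 0) (nat_lit 0) (nat_lit 0) (nat_lit 0) (nat_lit 1) (nat_lit 0) (nat_lit 1) (nat_lit 0) (nat_lit 313) (nat_lit 433) (nat_lit 334))) (XT.nd (nat_lit 94) (nat_lit 0) (nat_lit 0) (XT.lf (nat_lit 0) (nat_lit 295822636663) (nat_lit 0) (nat_lit 0) (nat_lit 0) (nat_lit 0) (nat_lit 0) (nat_lit 0) (nat_lit 1) (nat_lit 0) (nat_lit 1) (nat_lit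 0) (nat_lit 314) (nat_lit 433) (nat_lit 333)) (XT.lf (nat_lit 0) (nat_lit 295812679750) (nat_lit 0) (nat_lit 0) (nat_lit 0) (nat_lit 0) (nat_lit 0) (nat_lit 0) (nat_lit 1) (nat_lit 0) (nat_lit 1) (nat_lit 0) (nat_lit 315) (nat_lit 433) (nat_lit 332)))) (XT.nd (nat_lit 188) (nat_lit 0) (nat_lit 0) (XT.nd (nat_lit 94) (nat_lit 0) (nat_lit 0) (XT.lf (nat_lit 0) (nat_lit 295803460386) (nat_lit 0) (nat_lit 0) (nat_lit 0) (nat_lit 0) (nat_lit 0) (nat_lit 0) (nat_lit 1) (nat_lit 0) (nat_lit 1) (nat_lit 0) (nat_lit 316) (nat_lit 433) (nat_lit 331)) (XT.lf (nat_lit 0) (nat_lit 295794923938) (nat_lit 0) (nat_lit 0) (nat_lit 0) (nat_lit 0) (nat_lit 0) (nat_lit 0) (nat_lit 1) (nat_lit 0) (nat_lit 1) (nat_lit 0) (nat_lit 317) (nat_lit 433) (nat_lit 330))) (XT.nd (nat_lit 94) (nat_lit 0) (nat_lit 0) (XT.lf (nat_lit 0) (nat_lit 295787019820) (nat_lit 0) (nat_lit 0) (nat_lit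 0) (nat_lit 0) (nat_lit 0) (nat_lit 0) (nat_lit 1) (nat_lit 0) (nat_lit 1) (nat_lit 0) (nat_lit 318) (nat_lit 433) (nat_lit 329)) (XT.nd (nat_lit 94) (nat_lit 0) (nat_lit 0) (XT.lf (nat_lit 0) (nat_lit 295779701192) (nat_lit 0) (nat_lit 0) (nat_lit 0) (nat_lit 0) (nat_lit 0) (nat_lit 0) (nat_lit 1) (nat_lit 0) (nat_lit 1) (nat_lit 0) (nat_lit 319) (nat_lit 433) (nat_lit 328)) (XT.lf (nat_lit 0) (nat_lit 295772924684) (nat_lit 0) (nat_lit 0) (nat_lit 0) (nat_lit 0) (nat_lit 0) (nat_lit 0) (nat_lit 1) (nat_lit 0) (nat_lit 1) (nat_lit 0) (nat_lit 320) (nat_lit 433) (nat_lit 327)))))) (XT.nd (nat_lit 376) (nat_lit 0) (nat_lit 0) (XT.nd (nat_lit 188) (nat_lit 0) (nat_lit 0) (XT.nd (nat_lit 94) (nat_lit 0) (nat_lit 0) (XT.lf (nat_lit 0) (nat_lit 295766650140) (nat_lit 0) (nat_lit 0) (nat_lit 0) (nat_lit 0) (nat_lit 0) (nat_lit 0) (nat_lit 1) (nat_lit 0) (nat_lit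 1) (nat_lit 0) (nat_lit 321) (nat_lit 433) (nat_lit 326)) (XT.lf (nat_lit 0) (nat_lit 295760840377) (nat_lit 0) (nat_lit 0) (nat_lit 0) (nat_lit 0) (nat_lit 0) (nat_lit 0) (nat_lit 1) (nat_lit 0) (nat_lit 1) (nat_lit 0) (nat_lit 322) (nat_lit 433) (nat_lit 325))) (XT.nd (nat_lit 94) (nat_lit 0) (nat_lit 0) (XT.lf (nat_lit 0) (nat_lit 295755460967) (nat_lit 0) (nat_lit 0) (nat_lit 0) (nat_lit 0) (nat_lit 0) (nat_lit 0) (nat_lit 1) (nat_lit 0) (nat_lit 1) (nat_lit 0) (nat_lit 323) (nat_lit 433) (nat_lit 324)) (XT.lf (nat_lit 0) (nat_lit 295750480032) (nat_lit 0) (nat_lit 0) (nat_lit 0) (nat_lit 0) (nat_lit 0) (nat_lit 0) (nat_lit 1) (nat_lit 0) (nat_lit 1) (nat_lit 0) (nat_lit 324) (nat_lit 433) (nat_lit 323)))) (XT.nd (nat_lit 188) (nat_lit 0) (nat_lit 0) (XT.nd (nat_lit 94) (nat_lit 0) (nat_lit 0) (XT.lf (nat_lit 0) (nat_lit 295745868055) (nat_lit 0) (nat_lit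 0) (nat_lit 0) (nat_lit 0) (nat_lit 0) (nat_lit 0) (nat_lit 1) (nat_lit 0) (nat_lit 1) (nat_lit 0) (nat_lit 325) (nat_lit 433) (nat_lit 322)) (XT.lf (nat_lit 0) (nat_lit 295741597705) (nat_lit 0) (nat_lit 0) (nat_lit 0) (nat_lit 0) (nat_lit 0) (nat_lit 0) (nat_lit 1) (nat_lit 0) (nat_lit 1) (nat_lit 0) (nat_lit 326) (nat_lit 433) (nat_lit 321))) (XT.nd (nat_lit 94) (nat_lit 0) (nat_lit 0) (XT.lf (nat_lit 0) (nat_lit 295737643678) (nat_lit 0) (nat_lit 0) (nat_lit 0) (nat_lit 0) (nat_lit 0) (nat_lit 0) (nat_lit 1) (nat_lit 0) (nat_lit 1) (nat_lit 0) (nat_lit 327) (nat_lit 433) (nat_lit 320)) (XT.nd (nat_lit 94) (nat_lit 0) (nat_lit 0) (XT.lf (nat_lit 0) (nat_lit 295733982542) (nat_lit 0) (nat_lit 0) (nat_lit 0) (nat_lit 0) (nat_lit 0) (nat_lit 0) (nat_lit 1) (nat_lit 0) (nat_lit 1) (nat_lit 0) (nat_lit 328) (nat_lit 433) (nat_lit 319)) (XT.lf (nat_lit 0) (nat_lit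 295730592601) (nat_lit 0) (nat_lit 0) (nat_lit 0) (nat_lit 0) (nat_lit 0) (nat_lit 0) (nat_lit 1) (nat_lit 0) (nat_lit 1) (nat_lit 0) (nat_lit 329) (nat_lit 433) (nat_lit 318))))))) (XT.nd (nat_lit 846) (nat_lit 0) (nat_lit 0) (XT.nd (nat_lit 376) (nat_lit 0) (nat_lit 0) (XT.nd (nat_lit 188) (nat_lit 0) (nat_lit 0) (XT.nd (nat_lit 94) (nat_lit 0) (nat_lit 0) (XT.lf (nat_lit 0) (nat_lit 295727453767) (nat_lit 0) (nat_lit 0) (nat_lit 0) (nat_lit 0) (nat_lit 0) (nat_lit 0) (nat_lit 1) (nat_lit 0) (nat_lit 1) (nat_lit 0) (nat_lit 330) (nat_lit 433) (nat_lit 317)) (XT.lf (nat_lit 0) (nat_lit 295724547439) (nat_lit 0) (nat_lit 0) (nat_lit 0) (nat_lit 0) (nat_lit 0) (nat_lit 0) (nat_lit 1) (nat_lit 0) (nat_lit 1) (nat_lit 0) (nat_lit 331) (nat_lit 433) (nat_lit 316))) (XT.nd (nat_lit 94) (nat_lit 0) (nat_lit 0) (XT.lf (nat_lit 0) (nat_lit 295721856395) (nat_lit 0)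 (nat_lit 0) (nat_lit 0) (nat_lit 0) (nat_lit 0) (nat_lit 0) (nat_lit 1) (nat_lit 0) (nat_lit 1) (nat_lit 0) (nat_lit 332) (nat_lit 433) (nat_lit 315)) (XT.lf (nat_lit 0) (nat_lit 295719364687) (nat_lit 0) (nat_lit 0) (nat_lit 0) (nat_lit 0) (nat_lit 0) (nat_lit 0) (nat_lit 1) (nat_lit 0) (nat_lit 1) (nat_lit 0) (nat_lit 333) (nat_lit 433) (nat_lit 314)))) (XT.nd (nat_lit 188) (nat_lit 0) (nat_lit 0) (XT.nd (nat_lit 94) (nat_lit 0) (nat_lit 0) (XT.lf (nat_lit 0) (nat_lit 295717057550) (nat_lit 0) (nat_lit 0) (nat_lit 0) (nat_lit 0) (nat_lit 0) (nat_lit 0) (nat_lit 1) (nat_lit 0) (nat_lit 1) (nat_lit 0) (nat_lit 334) (nat_lit 433) (nat_lit 313)) (XT.lf (nat_lit 0) (nat_lit 295714921312) (nat_lit 0) (nat_lit 0) (nat_lit 0) (nat_lit 0) (nat_lit 0) (nat_lit 0) (nat_lit 1) (nat_lit 0) (nat_lit 1) (nat_lit 0) (nat_lit 335) (nat_lit 433) (nat_lit 312))) (XT.nd (nat_lit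 94) (nat_lit 0) (nat_lit 0) (XT.lf (nat_lit 0) (nat_lit 295712943314) (nat_lit 0) (nat_lit 0) (nat_lit 0) (nat_lit 0) (nat_lit 0) (nat_lit 0) (nat_lit 1) (nat_lit 0) (nat_lit 1) (nat_lit 0) (nat_lit 336) (nat_lit 433) (nat_lit 311)) (XT.nd (nat_lit 94) (nat_lit 0) (nat_lit 0) (XT.lf (nat_lit 0) (nat_lit 295711111835) (nat_lit 0) (nat_lit 0) (nat_lit 0) (nat_lit 0) (nat_lit 0) (nat_lit 0) (nat_lit 1) (nat_lit 0) (nat_lit 1) (nat_lit 0) (nat_lit 337) (nat_lit 433) (nat_lit 310)) (XT.lf (nat_lit 0) (nat_lit 295709416020) (nat_lit 0) (nat_lit 0) (nat_lit 0) (nat_lit 0) (nat_lit 0) (nat_lit 0) (nat_lit 1) (nat_lit 0) (nat_lit 1) (nat_lit 0) (nat_lit 338) (nat_lit 433) (nat_lit 309)))))) (XT.nd (nat_lit 470) (nat_lit 0) (nat_lit 0) (XT.nd (nat_lit 188) (nat_lit 0) (nat_lit 0) (XT.nd (nat_lit 94) (nat_lit 0) (nat_lit 0) (XT.lf (nat_lit 0) (nat_lit 295707845822) (nat_lit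 0) (nat_lit 0) (nat_lit 0) (nat_lit 0) (nat_lit 0) (nat_lit 0) (nat_lit 1) (nat_lit 0) (nat_lit 1) (nat_lit 0) (nat_lit 339) (nat_lit 433) (nat_lit 308)) (XT.lf (nat_lit 0) (nat_lit 295706391934) (nat_lit 0) (nat_lit 0) (nat_lit 0) (nat_lit 0) (nat_lit 0) (nat_lit 0) (nat_lit 1) (nat_lit 0) (nat_lit 1) (nat_lit 0) (nat_lit 340) (nat_lit 433) (nat_lit 307))) (XT.nd (nat_lit 94) (nat_lit 0) (nat_lit 0) (XT.lf (nat_lit 0) (nat_lit 295705045742) (nat_lit 0) (nat_lit 0) (nat_lit 0) (nat_lit 0) (nat_lit 0) (nat_lit 0) (nat_lit 1) (nat_lit 0) (nat_lit 1) (nat_lit 0) (nat_lit 341) (nat_lit 433) (nat_lit 306)) (XT.nd (nat_lit 94) (nat_lit 0) (nat_lit 0) (XT.lf (nat_lit 0) (nat_lit 295703799268) (nat_lit 0) (nat_lit 0) (nat_lit 0) (nat_lit 0) (nat_lit 0) (nat_lit 0) (nat_lit 1) (nat_lit 0) (nat_lit 1) (nat_lit 0) (nat_lit 342) (nat_lit 433) (nat_lit 305)) (XT.lf (nat_lit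 0) (nat_lit 295702645125) (nat_lit 0) (nat_lit 0) (nat_lit 0) (nat_lit 0) (nat_lit 0) (nat_lit 0) (nat_lit 1) (nat_lit 0) (nat_lit 1) (nat_lit 0) (nat_lit 343) (nat_lit 433) (nat_lit 304))))) (XT.nd (nat_lit 188) (nat_lit 0) (nat_lit 0) (XT.nd (nat_lit 94) (nat_lit 0) (nat_lit 0) (XT.lf (nat_lit 0) (nat_lit 295701576474) (nat_lit 0) (nat_lit 0) (nat_lit 0) (nat_lit 0) (nat_lit 0) (nat_lit 0) (nat_lit 1) (nat_lit 0) (nat_lit 1) (nat_lit 0) (nat_lit 344) (nat_lit 433) (nat_lit 303)) (XT.lf (nat_lit 0) (nat_lit 295700586983) (nat_lit 0) (nat_lit 0) (nat_lit 0) (nat_lit 0) (nat_lit 0) (nat_lit 0) (nat_lit 1) (nat_lit 0) (nat_lit 1) (nat_lit 0) (nat_lit 345) (nat_lit 433) (nat_lit 302))) (XT.nd (nat_lit 94) (nat_lit 0) (nat_lit 0) (XT.lf (nat_lit 0) (nat_lit 295699670787) (nat_lit 0) (nat_lit 0) (nat_lit 0) (nat_lit 0) (nat_lit 0) (nat_lit 0) (nat_lit 1) (nat_lit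 0) (nat_lit 1) (nat_lit 0) (nat_lit 346) (nat_lit 433) (nat_lit 301)) (XT.nd (nat_lit 94) (nat_lit 0) (nat_lit 0) (XT.lf (nat_lit 0) (nat_lit 295698822458) (nat_lit 0) (nat_lit 0) (nat_lit 0) (nat_lit 0) (nat_lit 0) (nat_lit 0) (nat_lit 1) (nat_lit 0) (nat_lit 1) (nat_lit 0) (nat_lit 347) (nat_lit 433) (nat_lit 300)) (XT.lf (nat_lit 0) (nat_lit 295698036968) (nat_lit 0) (nat_lit 0) (nat_lit 0) (nat_lit 0) (nat_lit 0) (nat_lit 0) (nat_lit 1) (nat_lit 0) (nat_lit 1) (nat_lit 0) (nat_lit 348) (nat_lit 433) (nat_lit 299))))))))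
noncomputable def ec325 : XT := (XT.nd (nat_lit 1786) (nat_lit 0) (nat_lit 0) (XT.nd (nat_lit 846) (nat_lit 0) (nat_lit 0) (XT.nd (nat_lit 376) (nat_lit 0) (nat_lit 0) (XT.nd (nat_lit 188) (nat_lit 0) (nat_lit 0) (XT.nd (nat_lit 94) (nat_lit 0) (nat_lit 0) (XT.lf (nat_lit 0) (nat_lit 295697309662) (nat_lit 0) (nat_lit 0) (nat_lit 0) (nat_lit 0) (nat_lit 0) (nat_lit 0) (nat_lit 1) (nat_lit 0) (nat_lit 1) (nat_lit 0) (nat_lit 349) (nat_lit 433) (nat_lit 298)) (XT.lf (nat_lit 0) (nat_lit 295696636231) (nat_lit 0) (nat_lit 0) (nat_lit 0) (nat_lit 0) (nat_lit 0) (nat_lit 0) (nat_lit 1) (nat_lit 0) (nat_lit 1) (nat_lit 0) (nat_lit 350) (nat_lit 433) (nat_lit 297))) (XT.nd (nat_lit 94) (nat_lit 0) (nat_lit 0) (XT.lf (nat_lit 0) (nat_lit 295696012683) (nat_lit 0) (nat_lit 0) (nat_lit 0) (nat_lit 0) (nat_lit 0) (nat_lit 0) (nat_lit 1) (nat_lit 0) (nat_lit 1) (nat_lit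 0) (nat_lit 351) (nat_lit 433) (nat_lit 296)) (XT.lf (nat_lit 0) (nat_lit 295695435324) (nat_lit 0) (nat_lit 0) (nat_lit 0) (nat_lit 0) (nat_lit 0) (nat_lit 0) (nat_lit 1) (nat_lit 0) (nat_lit 1) (nat_lit 0) (nat_lit 352) (nat_lit 433) (nat_lit 295)))) (XT.nd (nat_lit 188) (nat_lit 0) (nat_lit 0) (XT.nd (nat_lit 94) (nat_lit 0) (nat_lit 0) (XT.lf (nat_lit 0) (nat_lit 295694900733) (nat_lit 0) (nat_lit 0) (nat_lit 0) (nat_lit 0) (nat_lit 0) (nat_lit 0) (nat_lit 1) (nat_lit 0) (nat_lit 1) (nat_lit 0) (nat_lit 353) (nat_lit 433) (nat_lit 294)) (XT.lf (nat_lit 0) (nat_lit 295694405741) (nat_lit 0) (nat_lit 0) (nat_lit 0) (nat_lit 0) (nat_lit 0) (nat_lit 0) (nat_lit 1) (nat_lit 0) (nat_lit 1) (nat_lit 0) (nat_lit 354) (nat_lit 433) (nat_lit 293))) (XT.nd (nat_lit 94) (nat_lit 0) (nat_lit 0) (XT.lf (nat_lit 0) (nat_lit 295693947415) (nat_lit 0) (nat_lit 0) (nat_lit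 0) (nat_lit 0) (nat_lit 0) (nat_lit 0) (nat_lit 1) (nat_lit 0) (nat_lit 1) (nat_lit 0) (nat_lit 355) (nat_lit 433) (nat_lit 292)) (XT.nd (nat_lit 94) (nat_lit 0) (nat_lit 0) (XT.lf (nat_lit 0) (nat_lit 295693523039) (nat_lit 0) (nat_lit 0) (nat_lit 0) (nat_lit 0) (nat_lit 0) (nat_lit 0) (nat_lit 1) (nat_lit 0) (nat_lit 1) (nat_lit 0) (nat_lit 356) (nat_lit 433) (nat_lit 291)) (XT.lf (nat_lit 0) (nat_lit 295693130098) (nat_lit 0) (nat_lit 0) (nat_lit 0) (nat_lit 0) (nat_lit 0) (nat_lit 0) (nat_lit 1) (nat_lit 0) (nat_lit 1) (nat_lit 0) (nat_lit 357) (nat_lit 433) (nat_lit 290)))))) (XT.nd (nat_lit 470) (nat_lit 0) (nat_lit 0) (XT.nd (nat_lit 188) (nat_lit 0) (nat_lit 0) (XT.nd (nat_lit 94) (nat_lit 0) (nat_lit 0) (XT.lf (nat_lit 0) (nat_lit 295692766264) (nat_lit 0) (nat_lit 0) (nat_lit 0) (nat_lit 0) (nat_lit 0) (nat_lit 0) (nat_lit 1) (nat_lit 0) (nat_lit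 1) (nat_lit 0) (nat_lit 358) (nat_lit 433) (nat_lit 289)) (XT.lf (nat_lit 0) (nat_lit 295692429381) (nat_lit 0) (nat_lit 0) (nat_lit 0) (nat_lit 0) (nat_lit 0) (nat_lit 0) (nat_lit 1) (nat_lit 0) (nat_lit 1) (nat_lit 0) (nat_lit 359) (nat_lit 433) (nat_lit 288))) (XT.nd (nat_lit 94) (nat_lit 0) (nat_lit 0) (XT.lf (nat_lit 0) (nat_lit 295692117452) (nat_lit 0) (nat_lit 0) (nat_lit 0) (nat_lit 0) (nat_lit 0) (nat_lit 0) (nat_lit 1) (nat_lit 0) (nat_lit 1) (nat_lit 0) (nat_lit 360) (nat_lit 433) (nat_lit 287)) (XT.nd (nat_lit 94) (nat_lit 0) (nat_lit 0) (XT.lf (nat_lit 0) (nat_lit 295691828629) (nat_lit 0) (nat_lit 0) (nat_lit 0) (nat_lit 0) (nat_lit 0) (nat_lit 0) (nat_lit 1) (nat_lit 0) (nat_lit 1) (nat_lit 0) (nat_lit 361) (nat_lit 433) (nat_lit 286)) (XT.lf (nat_lit 0) (nat_lit 295691561200) (nat_lit 0) (nat_lit 0) (nat_lit 0) (nat_lit 0) (nat_lit 0) (nat_lit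 0) (nat_lit 1) (nat_lit 0) (nat_lit 1) (nat_lit 0) (nat_lit 362) (nat_lit 433) (nat_lit 285))))) (XT.nd (nat_lit 188) (nat_lit 0) (nat_lit 0) (XT.nd (nat_lit 94) (nat_lit 0) (nat_lit 0) (XT.lf (nat_lit 0) (nat_lit 295691313581) (nat_lit 0) (nat_lit 0) (nat_lit 0) (nat_lit 0) (nat_lit 0) (nat_lit 0) (nat_lit 1) (nat_lit 0) (nat_lit 1) (nat_lit 0) (nat_lit 363) (nat_lit 433) (nat_lit 284)) (XT.lf (nat_lit 0) (nat_lit 295691084304) (nat_lit 0) (nat_lit 0) (nat_lit 0) (nat_lit 0) (nat_lit 0) (nat_lit 0) (nat_lit 1) (nat_lit 0) (nat_lit 1) (nat_lit 0) (nat_lit 364) (nat_lit 433) (nat_lit 283))) (XT.nd (nat_lit 94) (nat_lit 0) (nat_lit 0) (XT.lf (nat_lit 0) (nat_lit 295690872010) (nat_lit 0) (nat_lit 0) (nat_lit 0) (nat_lit 0) (nat_lit 0) (nat_lit 0) (nat_lit 1) (nat_lit 0) (nat_lit 1) (nat_lit 0) (nat_lit 365) (nat_lit 433) (nat_lit 282)) (XT.nd (nat_lit 94) (nat_lit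 0) (nat_lit 0) (XT.lf (nat_lit 0) (nat_lit 295690675442) (nat_lit 0) (nat_lit 0) (nat_lit 0) (nat_lit 0) (nat_lit 0) (nat_lit 0) (nat_lit 1) (nat_lit 0) (nat_lit 1) (nat_lit 0) (nat_lit 366) (nat_lit 433) (nat_lit 281)) (XT.lf (nat_lit 0) (nat_lit 295690493434) (nat_lit 0) (nat_lit 0) (nat_lit 0) (nat_lit 0) (nat_lit 0) (nat_lit 0) (nat_lit 1) (nat_lit 0) (nat_lit 1) (nat_lit 0) (nat_lit 367) (nat_lit 433) (nat_lit 280))))))) (XT.nd (nat_lit 846) (nat_lit 0) (nat_lit 0) (XT.nd (nat_lit 376) (nat_lit 0) (nat_lit 0) (XT.nd (nat_lit 188) (nat_lit 0) (nat_lit 0) (XT.nd (nat_lit 94) (nat_lit 0) (nat_lit 0) (XT.lf (nat_lit 0) (nat_lit 295690324909) (nat_lit 0) (nat_lit 0) (nat_lit 0) (nat_lit 0) (nat_lit 0) (nat_lit 0) (nat_lit 1) (nat_lit 0) (nat_lit 1) (nat_lit 0) (nat_lit 368) (nat_lit 433) (nat_lit 279)) (XT.lf (nat_lit 0) (nat_lit 295690168867) (nat_lit 0)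 (nat_lit 0) (nat_lit 0) (nat_lit 0) (nat_lit 0) (nat_lit 0) (nat_lit 1) (nat_lit 0) (nat_lit 1) (nat_lit 0) (nat_lit 369) (nat_lit 433) (nat_lit 278))) (XT.nd (nat_lit 94) (nat_lit 0) (nat_lit 0) (XT.lf (nat_lit 0) (nat_lit 295690024383) (nat_lit 0) (nat_lit 0) (nat_lit 0) (nat_lit 0) (nat_lit 0) (nat_lit 0) (nat_lit 1) (nat_lit 0) (nat_lit 1) (nat_lit 0) (nat_lit 370) (nat_lit 433) (nat_lit 277)) (XT.lf (nat_lit 0) (nat_lit 295689890602) (nat_lit 0) (nat_lit 0) (nat_lit 0) (nat_lit 0) (nat_lit 0) (nat_lit 0) (nat_lit 1) (nat_lit 0) (nat_lit 1) (nat_lit 0) (nat_lit 371) (nat_lit 433) (nat_lit 276)))) (XT.nd (nat_lit 188) (nat_lit 0) (nat_lit 0) (XT.nd (nat_lit 94) (nat_lit 0) (nat_lit 0) (XT.lf (nat_lit 0) (nat_lit 295689766731) (nat_lit 0) (nat_lit 0) (nat_lit 0) (nat_lit 0) (nat_lit 0) (nat_lit 0) (nat_lit 1) (nat_lit 0) (nat_lit 1) (nat_lit 0) (nat_lit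 372) (nat_lit 433) (nat_lit 275)) (XT.lf (nat_lit 0) (nat_lit 295689652035) (nat_lit 0) (nat_lit 0) (nat_lit 0) (nat_lit 0) (nat_lit 0) (nat_lit 0) (nat_lit 1) (nat_lit 0) (nat_lit 1) (nat_lit 0) (nat_lit 373) (nat_lit 433) (nat_lit 274))) (XT.nd (nat_lit 94) (nat_lit 0) (nat_lit 0) (XT.lf (nat_lit 0) (nat_lit 295689545836) (nat_lit 0) (nat_lit 0) (nat_lit 0) (nat_lit 0) (nat_lit 0) (nat_lit 0) (nat_lit 1) (nat_lit 0) (nat_lit 1) (nat_lit 0) (nat_lit 374) (nat_lit 433) (nat_lit 273)) (XT.nd (nat_lit 94) (nat_lit 0) (nat_lit 0) (XT.lf (nat_lit 0) (nat_lit 295689447503) (nat_lit 0) (nat_lit 0) (nat_lit 0) (nat_lit 0) (nat_lit 0) (nat_lit 0) (nat_lit 1) (nat_lit 0) (nat_lit 1) (nat_lit 0) (nat_lit 375) (nat_lit 433) (nat_lit 272)) (XT.lf (nat_lit 0) (nat_lit 295689356454) (nat_lit 0) (nat_lit 0) (nat_lit 0) (nat_lit 0) (nat_lit 0) (nat_lit 0) (nat_lit 1) (nat_lit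 0) (nat_lit 1) (nat_lit 0) (nat_lit 376) (nat_lit 433) (nat_lit 271)))))) (XT.nd (nat_lit 470) (nat_lit 0) (nat_lit 0) (XT.nd (nat_lit 188) (nat_lit 0) (nat_lit 0) (XT.nd (nat_lit 94) (nat_lit 0) (nat_lit 0) (XT.lf (nat_lit 0) (nat_lit 295689272149) (nat_lit 0) (nat_lit 0) (nat_lit 0) (nat_lit 0) (nat_lit 0) (nat_lit 0) (nat_lit 1) (nat_lit 0) (nat_lit 1) (nat_lit 0) (nat_lit 377) (nat_lit 433) (nat_lit 270)) (XT.lf (nat_lit 0) (nat_lit 295689194089) (nat_lit 0) (nat_lit 0) (nat_lit 0) (nat_lit 0) (nat_lit 0) (nat_lit 0) (nat_lit 1) (nat_lit 0) (nat_lit 1) (nat_lit 0) (nat_lit 378) (nat_lit 433) (nat_lit 269))) (XT.nd (nat_lit 94) (nat_lit 0) (nat_lit 0) (XT.lf (nat_lit 0) (nat_lit 295689121811) (nat_lit 0) (nat_lit 0) (nat_lit 0) (nat_lit 0) (nat_lit 0) (nat_lit 0) (nat_lit 1) (nat_lit 0) (nat_lit 1) (nat_lit 0) (nat_lit 379) (nat_lit 433) (nat_lit 268))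 (XT.nd (nat_lit 94) (nat_lit 0) (nat_lit 0) (XT.lf (nat_lit 0) (nat_lit 295689054888) (nat_lit 0) (nat_lit 0) (nat_lit 0) (nat_lit 0) (nat_lit 0) (nat_lit 0) (nat_lit 1) (nat_lit 0) (nat_lit 1) (nat_lit 0) (nat_lit 380) (nat_lit 433) (nat_lit 267)) (XT.lf (nat_lit 0) (nat_lit 295688992921) (nat_lit 0) (nat_lit 0) (nat_lit 0) (nat_lit 0) (nat_lit 0) (nat_lit 0) (nat_lit 1) (nat_lit 0) (nat_lit 1) (nat_lit 0) (nat_lit 381) (nat_lit 433) (nat_lit 266))))) (XT.nd (nat_lit 188) (nat_lit 0) (nat_lit 0) (XT.nd (nat_lit 94) (nat_lit 0) (nat_lit 0) (XT.lf (nat_lit 0) (nat_lit 295688935545) (nat_lit 0) (nat_lit 0) (nat_lit 0) (nat_lit 0) (nat_lit 0) (nat_lit 0) (nat_lit 1) (nat_lit 0) (nat_lit 1) (nat_lit 0) (nat_lit 382) (nat_lit 433) (nat_lit 265)) (XT.lf (nat_lit 0) (nat_lit 295688882418) (nat_lit 0) (nat_lit 0) (nat_lit 0) (nat_lit 0) (nat_lit 0) (nat_lit 0) (nat_lit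 1) (nat_lit 0) (nat_lit 1) (nat_lit 0) (nat_lit 383) (nat_lit 433) (nat_lit 264))) (XT.nd (nat_lit 94) (nat_lit 0) (nat_lit 0) (XT.lf (nat_lit 0) (nat_lit 295688833227) (nat_lit 0) (nat_lit 0) (nat_lit 0) (nat_lit 0) (nat_lit 0) (nat_lit 0) (nat_lit 1) (nat_lit 0) (nat_lit 1) (nat_lit 0) (nat_lit 384) (nat_lit 433) (nat_lit 263)) (XT.nd (nat_lit 94) (nat_lit 0) (nat_lit 0) (XT.lf (nat_lit 0) (nat_lit 295688787680) (nat_lit 0) (nat_lit 0) (nat_lit 0) (nat_lit 0) (nat_lit 0) (nat_lit 0) (nat_lit 1) (nat_lit 0) (nat_lit 1) (nat_lit 0) (nat_lit 385) (nat_lit 433) (nat_lit 262)) (XT.lf (nat_lit 0) (nat_lit 295688745507) (nat_lit 0) (nat_lit 0) (nat_lit 0) (nat_lit 0) (nat_lit 0) (nat_lit 0) (nat_lit 1) (nat_lit 0) (nat_lit 1) (nat_lit 0) (nat_lit 386) (nat_lit 433) (nat_lit 261))))))))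
noncomputable def ec326 : XT := (XT.nd (nat_lit 1692) (nat_lit 0) (nat_lit 0) (XT.nd (nat_lit 846) (nat_lit 0) (nat_lit 0) (XT.nd (nat_lit 376) (nat_lit 0) (nat_lit 0) (XT.nd (nat_lit 188) (nat_lit 0) (nat_lit 0) (XT.nd (nat_lit 94) (nat_lit 0) (nat_lit 0) (XT.lf (nat_lit 0) (nat_lit 295688706457) (nat_lit 0) (nat_lit 0) (nat_lit 0) (nat_lit 0) (nat_lit 0) (nat_lit 0) (nat_lit 1) (nat_lit 0) (nat_lit 1) (nat_lit 0) (nat_lit 387) (nat_lit 433) (nat_lit 260)) (XT.lf (nat_lit 0) (nat_lit 295688670301) (nat_lit 0) (nat_lit 0) (nat_lit 0) (nat_lit 0) (nat_lit 0) (nat_lit 0) (nat_lit 1) (nat_lit 0) (nat_lit 1) (nat_lit 0) (nat_lit 388) (nat_lit 433) (nat_lit 259))) (XT.nd (nat_lit 94) (nat_lit 0) (nat_lit 0) (XT.lf (nat_lit 0) (nat_lit 295688636822) (nat_lit 0) (nat_lit 0) (nat_lit 0) (nat_lit 0) (nat_lit 0) (nat_lit 0) (nat_lit 1) (nat_lit 0) (nat_lit 1) (nat_lit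 0) (nat_lit 389) (nat_lit 433) (nat_lit 258)) (XT.lf (nat_lit 0) (nat_lit 295688605823) (nat_lit 0) (nat_lit 0) (nat_lit 0) (nat_lit 0) (nat_lit 0) (nat_lit 0) (nat_lit 1) (nat_lit 0) (nat_lit 1) (nat_lit 0) (nat_lit 390) (nat_lit 433) (nat_lit 257)))) (XT.nd (nat_lit 188) (nat_lit 0) (nat_lit 0) (XT.nd (nat_lit 94) (nat_lit 0) (nat_lit 0) (XT.lf (nat_lit 0) (nat_lit 295688577121) (nat_lit 0) (nat_lit 0) (nat_lit 0) (nat_lit 0) (nat_lit 0) (nat_lit 0) (nat_lit 1) (nat_lit 0) (nat_lit 1) (nat_lit 0) (nat_lit 391) (nat_lit 433) (nat_lit 256)) (XT.lf (nat_lit 0) (nat_lit 295688550545) (nat_lit 0) (nat_lit 0) (nat_lit 0) (nat_lit 0) (nat_lit 0) (nat_lit 0) (nat_lit 1) (nat_lit 0) (nat_lit 1) (nat_lit 0) (nat_lit 392) (nat_lit 433) (nat_lit 255))) (XT.nd (nat_lit 94) (nat_lit 0) (nat_lit 0) (XT.lf (nat_lit 0) (nat_lit 295688525937) (nat_lit 0) (nat_lit 0) (nat_lit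 0) (nat_lit 0) (nat_lit 0) (nat_lit 0) (nat_lit 1) (nat_lit 0) (nat_lit 1) (nat_lit 0) (nat_lit 393) (nat_lit 433) (nat_lit 254)) (XT.nd (nat_lit 94) (nat_lit 0) (nat_lit 0) (XT.lf (nat_lit 0) (nat_lit 295688503152) (nat_lit 0) (nat_lit 0) (nat_lit 0) (nat_lit 0) (nat_lit 0) (nat_lit 0) (nat_lit 1) (nat_lit 0) (nat_lit 1) (nat_lit 0) (nat_lit 394) (nat_lit 433) (nat_lit 253)) (XT.lf (nat_lit 0) (nat_lit 295688482055) (nat_lit 0) (nat_lit 0) (nat_lit 0) (nat_lit 0) (nat_lit 0) (nat_lit 0) (nat_lit 1) (nat_lit 0) (nat_lit 1) (nat_lit 0) (nat_lit 395) (nat_lit 433) (nat_lit 252)))))) (XT.nd (nat_lit 376) (nat_lit 0) (nat_lit 0) (XT.nd (nat_lit 188) (nat_lit 0) (nat_lit 0) (XT.nd (nat_lit 94) (nat_lit 0) (nat_lit 0) (XT.lf (nat_lit 0) (nat_lit 295688462520) (nat_lit 0) (nat_lit 0) (nat_lit 0) (nat_lit 0) (nat_lit 0) (nat_lit 0) (nat_lit 1) (nat_lit 0) (nat_lit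 1) (nat_lit 0) (nat_lit 396) (nat_lit 433) (nat_lit 251)) (XT.lf (nat_lit 0) (nat_lit 295688444433) (nat_lit 0) (nat_lit 0) (nat_lit 0) (nat_lit 0) (nat_lit 0) (nat_lit 0) (nat_lit 1) (nat_lit 0) (nat_lit 1) (nat_lit 0) (nat_lit 397) (nat_lit 433) (nat_lit 250))) (XT.nd (nat_lit 94) (nat_lit 0) (nat_lit 0) (XT.lf (nat_lit 0) (nat_lit 295688427685) (nat_lit 0) (nat_lit 0) (nat_lit 0) (nat_lit 0) (nat_lit 0) (nat_lit 0) (nat_lit 1) (nat_lit 0) (nat_lit 1) (nat_lit 0) (nat_lit 398) (nat_lit 433) (nat_lit 249)) (XT.lf (nat_lit 0) (nat_lit 295688412178) (nat_lit 0) (nat_lit 0) (nat_lit 0) (nat_lit 0) (nat_lit 0) (nat_lit 0) (nat_lit 1) (nat_lit 0) (nat_lit 1) (nat_lit 0) (nat_lit 399) (nat_lit 433) (nat_lit 248)))) (XT.nd (nat_lit 188) (nat_lit 0) (nat_lit 0) (XT.nd (nat_lit 94) (nat_lit 0) (nat_lit 0) (XT.lf (nat_lit 0) (nat_lit 295688397820) (nat_lit 0) (nat_lit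 0) (nat_lit 0) (nat_lit 0) (nat_lit 0) (nat_lit 0) (nat_lit 1) (nat_lit 0) (nat_lit 1) (nat_lit 0) (nat_lit 400) (nat_lit 433) (nat_lit 247)) (XT.lf (nat_lit 0) (nat_lit 295688384525) (nat_lit 0) (nat_lit 0) (nat_lit 0) (nat_lit 0) (nat_lit 0) (nat_lit 0) (nat_lit 1) (nat_lit 0) (nat_lit 1) (nat_lit 0) (nat_lit 401) (nat_lit 433) (nat_lit 246))) (XT.nd (nat_lit 94) (nat_lit 0) (nat_lit 0) (XT.lf (nat_lit 0) (nat_lit 295688372215) (nat_lit 0) (nat_lit 0) (nat_lit 0) (nat_lit 0) (nat_lit 0) (nat_lit 0) (nat_lit 1) (nat_lit 0) (nat_lit 1) (nat_lit 0) (nat_lit 402) (nat_lit 433) (nat_lit 245)) (XT.nd (nat_lit 94) (nat_lit 0) (nat_lit 0) (XT.lf (nat_lit 0) (nat_lit 295688360817) (nat_lit 0) (nat_lit 0) (nat_lit 0) (nat_lit 0) (nat_lit 0) (nat_lit 0) (nat_lit 1) (nat_lit 0) (nat_lit 1) (nat_lit 0) (nat_lit 403) (nat_lit 433) (nat_lit 244)) (XT.lf (nat_lit 0) (nat_lit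 295688350263) (nat_lit 0) (nat_lit 0) (nat_lit 0) (nat_lit 0) (nat_lit 0) (nat_lit 0) (nat_lit 1) (nat_lit 0) (nat_lit 1) (nat_lit 0) (nat_lit 404) (nat_lit 433) (nat_lit 243))))))) (XT.nd (nat_lit 846) (nat_lit 0) (nat_lit 0) (XT.nd (nat_lit 376) (nat_lit 0) (nat_lit 0) (XT.nd (nat_lit 188) (nat_lit 0) (nat_lit 0) (XT.nd (nat_lit 94) (nat_lit 0) (nat_lit 0) (XT.lf (nat_lit 0) (nat_lit 295688340491) (nat_lit 0) (nat_lit 0) (nat_lit 0) (nat_lit 0) (nat_lit 0) (nat_lit 0) (nat_lit 1) (nat_lit 0) (nat_lit 1) (nat_lit 0) (nat_lit 405) (nat_lit 433) (nat_lit 242)) (XT.lf (nat_lit 0) (nat_lit 295688331443) (nat_lit 0) (nat_lit 0) (nat_lit 0) (nat_lit 0) (nat_lit 0) (nat_lit 0) (nat_lit 1) (nat_lit 0) (nat_lit 1) (nat_lit 0) (nat_lit 406) (nat_lit 433) (nat_lit 241))) (XT.nd (nat_lit 94) (nat_lit 0) (nat_lit 0) (XT.lf (nat_lit 0) (nat_lit 295688323065) (nat_lit 0)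 (nat_lit 0) (nat_lit 0) (nat_lit 0) (nat_lit 0) (nat_lit 0) (nat_lit 1) (nat_lit 0) (nat_lit 1) (nat_lit 0) (nat_lit 407) (nat_lit 433) (nat_lit 240)) (XT.lf (nat_lit 0) (nat_lit 295688315307) (nat_lit 0) (nat_lit 0) (nat_lit 0) (nat_lit 0) (nat_lit 0) (nat_lit 0) (nat_lit 1) (nat_lit 0) (nat_lit 1) (nat_lit 0) (nat_lit 408) (nat_lit 433) (nat_lit 239)))) (XT.nd (nat_lit 188) (nat_lit 0) (nat_lit 0) (XT.nd (nat_lit 94) (nat_lit 0) (nat_lit 0) (XT.lf (nat_lit 0) (nat_lit 295688308125) (nat_lit 0) (nat_lit 0) (nat_lit 0) (nat_lit 0) (nat_lit 0) (nat_lit 0) (nat_lit 1) (nat_lit 0) (nat_lit 1) (nat_lit 0) (nat_lit 409) (nat_lit 433) (nat_lit 238)) (XT.lf (nat_lit 0) (nat_lit 295688301474) (nat_lit 0) (nat_lit 0) (nat_lit 0) (nat_lit 0) (nat_lit 0) (nat_lit 0) (nat_lit 1) (nat_lit 0) (nat_lit 1) (nat_lit 0) (nat_lit 410) (nat_lit 433) (nat_lit 237))) (XT.nd (nat_lit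 94) (nat_lit 0) (nat_lit 0) (XT.lf (nat_lit 0) (nat_lit 295688295316) (nat_lit 0) (nat_lit 0) (nat_lit 0) (nat_lit 0) (nat_lit 0) (nat_lit 0) (nat_lit 1) (nat_lit 0) (nat_lit 1) (nat_lit 0) (nat_lit 411) (nat_lit 433) (nat_lit 236)) (XT.nd (nat_lit 94) (nat_lit 0) (nat_lit 0) (XT.lf (nat_lit 0) (nat_lit 295688289614) (nat_lit 0) (nat_lit 0) (nat_lit 0) (nat_lit 0) (nat_lit 0) (nat_lit 0) (nat_lit 1) (nat_lit 0) (nat_lit 1) (nat_lit 0) (nat_lit 412) (nat_lit 433) (nat_lit 235)) (XT.lf (nat_lit 0) (nat_lit 295688284334) (nat_lit 0) (nat_lit 0) (nat_lit 0) (nat_lit 0) (nat_lit 0) (nat_lit 0) (nat_lit 1) (nat_lit 0) (nat_lit 1) (nat_lit 0) (nat_lit 413) (nat_lit 433) (nat_lit 234)))))) (XT.nd (nat_lit 470) (nat_lit 0) (nat_lit 0) (XT.nd (nat_lit 188) (nat_lit 0) (nat_lit 0) (XT.nd (nat_lit 94) (nat_lit 0) (nat_lit 0) (XT.lf (nat_lit 0) (nat_lit 295688279446) (nat_lit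 0) (nat_lit 0) (nat_lit 0) (nat_lit 0) (nat_lit 0) (nat_lit 0) (nat_lit 1) (nat_lit 0) (nat_lit 1) (nat_lit 0) (nat_lit 414) (nat_lit 433) (nat_lit 233)) (XT.lf (nat_lit 0) (nat_lit 295688274920) (nat_lit 0) (nat_lit 0) (nat_lit 0) (nat_lit 0) (nat_lit 0) (nat_lit 0) (nat_lit 1) (nat_lit 0) (nat_lit 1) (nat_lit 0) (nat_lit 415) (nat_lit 433) (nat_lit 232))) (XT.nd (nat_lit 94) (nat_lit 0) (nat_lit 0) (XT.lf (nat_lit 0) (nat_lit 295688270728) (nat_lit 0) (nat_lit 0) (nat_lit 0) (nat_lit 0) (nat_lit 0) (nat_lit 0) (nat_lit 1) (nat_lit 0) (nat_lit 1) (nat_lit 0) (nat_lit 416) (nat_lit 433) (nat_lit 231)) (XT.nd (nat_lit 94) (nat_lit 0) (nat_lit 0) (XT.lf (nat_lit 0) (nat_lit 295688266848) (nat_lit 0) (nat_lit 0) (nat_lit 0) (nat_lit 0) (nat_lit 0) (nat_lit 0) (nat_lit 1) (nat_lit 0) (nat_lit 1) (nat_lit 0) (nat_lit 417) (nat_lit 433) (nat_lit 230)) (XT.lf (nat_lit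 0) (nat_lit 295688263255) (nat_lit 0) (nat_lit 0) (nat_lit 0) (nat_lit 0) (nat_lit 0) (nat_lit 0) (nat_lit 1) (nat_lit 0) (nat_lit 1) (nat_lit 0) (nat_lit 418) (nat_lit 433) (nat_lit 229))))) (XT.nd (nat_lit 188) (nat_lit 0) (nat_lit 0) (XT.nd (nat_lit 94) (nat_lit 0) (nat_lit 0) (XT.lf (nat_lit 0) (nat_lit 295688259928) (nat_lit 0) (nat_lit 0) (nat_lit 0) (nat_lit 0) (nat_lit 0) (nat_lit 0) (nat_lit 1) (nat_lit 0) (nat_lit 1) (nat_lit 0) (nat_lit 419) (nat_lit 433) (nat_lit 228)) (XT.lf (nat_lit 0) (nat_lit 295688256847) (nat_lit 0) (nat_lit 0) (nat_lit 0) (nat_lit 0) (nat_lit 0) (nat_lit 0) (nat_lit 1) (nat_lit 0) (nat_lit 1) (nat_lit 0) (nat_lit 420) (nat_lit 433) (nat_lit 227))) (XT.nd (nat_lit 94) (nat_lit 0) (nat_lit 0) (XT.lf (nat_lit 0) (nat_lit 295688253995) (nat_lit 0) (nat_lit 0) (nat_lit 0) (nat_lit 0) (nat_lit 0) (nat_lit 0) (nat_lit 1) (nat_lit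 0) (nat_lit 1) (nat_lit 0) (nat_lit 421) (nat_lit 433) (nat_lit 226)) (XT.nd (nat_lit 94) (nat_lit 0) (nat_lit 0) (XT.lf (nat_lit 0) (nat_lit 295688251354) (nat_lit 0) (nat_lit 0) (nat_lit 0) (nat_lit 0) (nat_lit 0) (nat_lit 0) (nat_lit 1) (nat_lit 0) (nat_lit 1) (nat_lit 0) (nat_lit 422) (nat_lit 433) (nat_lit 225)) (XT.lf (nat_lit 0) (nat_lit 295688248908) (nat_lit 0) (nat_lit 0) (nat_lit 0) (nat_lit 0) (nat_lit 0) (nat_lit 0) (nat_lit 1) (nat_lit 0) (nat_lit 1) (nat_lit 0) (nat_lit 423) (nat_lit 433) (nat_lit 224))))))))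
noncomputable def ec327 : XT := (XT.nd (nat_lit 1786) (nat_lit 0) (nat_lit 0) (XT.nd (nat_lit 846) (nat_lit 0) (nat_lit 0) (XT.nd (nat_lit 376) (nat_lit 0) (nat_lit 0) (XT.nd (nat_lit 188) (nat_lit 0) (nat_lit 0) (XT.nd (nat_lit 94) (nat_lit 0) (nat_lit 0) (XT.lf (nat_lit 0) (nat_lit 295688246644) (nat_lit 0) (nat_lit 0) (nat_lit 0) (nat_lit 0) (nat_lit 0) (nat_lit 0) (nat_lit 1) (nat_lit 0) (nat_lit 1) (nat_lit 0) (nat_lit 424) (nat_lit 433) (nat_lit 223)) (XT.lf (nat_lit 0) (nat_lit 295688244547) (nat_lit 0) (nat_lit 0) (nat_lit 0) (nat_lit 0) (nat_lit 0) (nat_lit 0) (nat_lit 1) (nat_lit 0) (nat_lit 1) (nat_lit 0) (nat_lit 425) (nat_lit 433) (nat_lit 222))) (XT.nd (nat_lit 94) (nat_lit 0) (nat_lit 0) (XT.lf (nat_lit 0) (nat_lit 295688242606) (nat_lit 0) (nat_lit 0) (nat_lit 0) (nat_lit 0) (nat_lit 0) (nat_lit 0) (nat_lit 1) (nat_lit 0) (nat_lit 1) (nat_lit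 0) (nat_lit 426) (nat_lit 433) (nat_lit 221)) (XT.lf (nat_lit 0) (nat_lit 295688240809) (nat_lit 0) (nat_lit 0) (nat_lit 0) (nat_lit 0) (nat_lit 0) (nat_lit 0) (nat_lit 1) (nat_lit 0) (nat_lit 1) (nat_lit 0) (nat_lit 427) (nat_lit 433) (nat_lit 220)))) (XT.nd (nat_lit 188) (nat_lit 0) (nat_lit 0) (XT.nd (nat_lit 94) (nat_lit 0) (nat_lit 0) (XT.lf (nat_lit 0) (nat_lit 295688239144) (nat_lit 0) (nat_lit 0) (nat_lit 0) (nat_lit 0) (nat_lit 0) (nat_lit 0) (nat_lit 1) (nat_lit 0) (nat_lit 1) (nat_lit 0) (nat_lit 428) (nat_lit 433) (nat_lit 219)) (XT.lf (nat_lit 0) (nat_lit 295688237603) (nat_lit 0) (nat_lit 0) (nat_lit 0) (nat_lit 0) (nat_lit 0) (nat_lit 0) (nat_lit 1) (nat_lit 0) (nat_lit 1) (nat_lit 0) (nat_lit 429) (nat_lit 433) (nat_lit 218))) (XT.nd (nat_lit 94) (nat_lit 0) (nat_lit 0) (XT.lf (nat_lit 0) (nat_lit 295688236176) (nat_lit 0) (nat_lit 0) (nat_lit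 0) (nat_lit 0) (nat_lit 0) (nat_lit 0) (nat_lit 1) (nat_lit 0) (nat_lit 1) (nat_lit 0) (nat_lit 430) (nat_lit 433) (nat_lit 217)) (XT.nd (nat_lit 94) (nat_lit 0) (nat_lit 0) (XT.lf (nat_lit 0) (nat_lit 295688234855) (nat_lit 0) (nat_lit 0) (nat_lit 0) (nat_lit 0) (nat_lit 0) (nat_lit 0) (nat_lit 1) (nat_lit 0) (nat_lit 1) (nat_lit 0) (nat_lit 431) (nat_lit 433) (nat_lit 216)) (XT.lf (nat_lit 0) (nat_lit 295688233632) (nat_lit 0) (nat_lit 0) (nat_lit 0) (nat_lit 0) (nat_lit 0) (nat_lit 0) (nat_lit 1) (nat_lit 0) (nat_lit 1) (nat_lit 0) (nat_lit 432) (nat_lit 433) (nat_lit 215)))))) (XT.nd (nat_lit 470) (nat_lit 0) (nat_lit 0) (XT.nd (nat_lit 188) (nat_lit 0) (nat_lit 0) (XT.nd (nat_lit 94) (nat_lit 0) (nat_lit 0) (XT.lf (nat_lit 0) (nat_lit 295688232499) (nat_lit 0) (nat_lit 0) (nat_lit 0) (nat_lit 0) (nat_lit 0) (nat_lit 0) (nat_lit 1) (nat_lit 0) (nat_lit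 1) (nat_lit 0) (nat_lit 433) (nat_lit 433) (nat_lit 214)) (XT.lf (nat_lit 0) (nat_lit 295688231450) (nat_lit 0) (nat_lit 0) (nat_lit 0) (nat_lit 0) (nat_lit 0) (nat_lit 0) (nat_lit 1) (nat_lit 0) (nat_lit 1) (nat_lit 0) (nat_lit 434) (nat_lit 433) (nat_lit 213))) (XT.nd (nat_lit 94) (nat_lit 0) (nat_lit 0) (XT.lf (nat_lit 0) (nat_lit 295688230479) (nat_lit 0) (nat_lit 0) (nat_lit 0) (nat_lit 0) (nat_lit 0) (nat_lit 0) (nat_lit 1) (nat_lit 0) (nat_lit 1) (nat_lit 0) (nat_lit 435) (nat_lit 433) (nat_lit 212)) (XT.nd (nat_lit 94) (nat_lit 0) (nat_lit 0) (XT.lf (nat_lit 0) (nat_lit 295688229580) (nat_lit 0) (nat_lit 0) (nat_lit 0) (nat_lit 0) (nat_lit 0) (nat_lit 0) (nat_lit 1) (nat_lit 0) (nat_lit 1) (nat_lit 0) (nat_lit 436) (nat_lit 433) (nat_lit 211)) (XT.lf (nat_lit 0) (nat_lit 295688228747) (nat_lit 0) (nat_lit 0) (nat_lit 0) (nat_lit 0) (nat_lit 0) (nat_lit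 0) (nat_lit 1) (nat_lit 0) (nat_lit 1) (nat_lit 0) (nat_lit 437) (nat_lit 433) (nat_lit 210))))) (XT.nd (nat_lit 188) (nat_lit 0) (nat_lit 0) (XT.nd (nat_lit 94) (nat_lit 0) (nat_lit 0) (XT.lf (nat_lit 0) (nat_lit 295688227976) (nat_lit 0) (nat_lit 0) (nat_lit 0) (nat_lit 0) (nat_lit 0) (nat_lit 0) (nat_lit 1) (nat_lit 0) (nat_lit 1) (nat_lit 0) (nat_lit 438) (nat_lit 433) (nat_lit 209)) (XT.lf (nat_lit 0) (nat_lit 295688227263) (nat_lit 0) (nat_lit 0) (nat_lit 0) (nat_lit 0) (nat_lit 0) (nat_lit 0) (nat_lit 1) (nat_lit 0) (nat_lit 1) (nat_lit 0) (nat_lit 439) (nat_lit 433) (nat_lit 208))) (XT.nd (nat_lit 94) (nat_lit 0) (nat_lit 0) (XT.lf (nat_lit 0) (nat_lit 295688226602) (nat_lit 0) (nat_lit 0) (nat_lit 0) (nat_lit 0) (nat_lit 0) (nat_lit 0) (nat_lit 1) (nat_lit 0) (nat_lit 1) (nat_lit 0) (nat_lit 440) (nat_lit 433) (nat_lit 207)) (XT.nd (nat_lit 94) (nat_lit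 0) (nat_lit 0) (XT.lf (nat_lit 0) (nat_lit 295688225990) (nat_lit 0) (nat_lit 0) (nat_lit 0) (nat_lit 0) (nat_lit 0) (nat_lit 0) (nat_lit 1) (nat_lit 0) (nat_lit 1) (nat_lit 0) (nat_lit 441) (nat_lit 433) (nat_lit 206)) (XT.lf (nat_lit 0) (nat_lit 295688225423) (nat_lit 0) (nat_lit 0) (nat_lit 0) (nat_lit 0) (nat_lit 0) (nat_lit 0) (nat_lit 1) (nat_lit 0) (nat_lit 1) (nat_lit 0) (nat_lit 442) (nat_lit 433) (nat_lit 205))))))) (XT.nd (nat_lit 46624) (nat_lit 0) (nat_lit 7476) (XT.nd (nat_lit 46154) (nat_lit 0) (nat_lit 10836) (XT.nd (nat_lit 188) (nat_lit 0) (nat_lit 0) (XT.nd (nat_lit 94) (nat_lit 0) (nat_lit 0) (XT.lf (nat_lit 0) (nat_lit 295688224898) (nat_lit 0) (nat_lit 0) (nat_lit 0) (nat_lit 0) (nat_lit 0) (nat_lit 0) (nat_lit 1) (nat_lit 0) (nat_lit 1) (nat_lit 0) (nat_lit 443) (nat_lit 433) (nat_lit 204)) (XT.lf (nat_lit 0) (nat_lit 295688224413) (nat_lit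 0) (nat_lit 0) (nat_lit 0) (nat_lit 0) (nat_lit 0) (nat_lit 0) (nat_lit 1) (nat_lit 0) (nat_lit 1) (nat_lit 0) (nat_lit 444) (nat_lit 433) (nat_lit 203))) (XT.nd (nat_lit 45872) (nat_lit 0) (nat_lit 10752) (XT.lf (nat_lit 0) (nat_lit 295688223963) (nat_lit 0) (nat_lit 0) (nat_lit 0) (nat_lit 0) (nat_lit 0) (nat_lit 0) (nat_lit 1) (nat_lit 0) (nat_lit 1) (nat_lit 0) (nat_lit 445) (nat_lit 433) (nat_lit 202)) (XT.lf (nat_lit 924) (nat_lit 159811337047) (nat_lit 0) (nat_lit 283744661586) (nat_lit 924) (nat_lit 159811337047) (nat_lit 139) (nat_lit 1) (nat_lit 128) (nat_lit 0) (nat_lit 139) (nat_lit 0) (nat_lit 212) (nat_lit 434) (nat_lit 434)))) (XT.nd (nat_lit 188) (nat_lit 0) (nat_lit 84) (XT.nd (nat_lit 94) (nat_lit 0) (nat_lit 0) (XT.lf (nat_lit 924) (nat_lit 59614532391) (nat_lit 0) (nat_lit 557076766967) (nat_lit 840) (nat_lit 544819216941) (nat_lit 140)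 (nat_lit 1) (nat_lit 129) (nat_lit 1) (nat_lit 139) (nat_lit 1) (nat_lit 213) (nat_lit 434) (nat_lit 433)) (XT.lf (nat_lit 924) (nat_lit 547525070010) (nat_lit 84) (nat_lit 373074498616) (nat_lit 0) (nat_lit 197861695861) (nat_lit 140) (nat_lit 1) (nat_lit 130) (nat_lit 1) (nat_lit 129) (nat_lit 1) (nat_lit 214) (nat_lit 434) (nat_lit 432))) (XT.nd (nat_lit 94) (nat_lit 0) (nat_lit 84) (XT.lf (nat_lit 924) (nat_lit 473106514388) (nat_lit 84) (nat_lit 156352936462) (nat_lit 0) (nat_lit 448106855577) (nat_lit 141) (nat_lit 1) (nat_lit 131) (nat_lit 1) (nat_lit 130) (nat_lit 1) (nat_lit 215) (nat_lit 434) (nat_lit 431)) (XT.nd (nat_lit 94) (nat_lit 0) (nat_lit 84) (XT.lf (nat_lit 924) (nat_lit 350139042766) (nat_lit 0) (nat_lit 655093598659) (nat_lit 840) (nat_lit 33488291169) (nat_lit 142) (nat_lit 1) (nat_lit 131) (nat_lit 1) (nat_lit 141) (nat_lit 1) (nat_lit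 216) (nat_lit 434) (nat_lit 430)) (XT.lf (nat_lit 924) (nat_lit 84012430293) (nat_lit 0) (nat_lit 722422684581) (nat_lit 840) (nat_lit 195295582404) (nat_lit 143) (nat_lit 1) (nat_lit 132) (nat_lit 1) (nat_lit 142) (nat_lit 1) (nat_lit 217) (nat_lit 434) (nat_lit 429)))))) (XT.nd (nat_lit 470) (nat_lit 1428) (nat_lit 0) (XT.nd (nat_lit 188) (nat_lit 1428) (nat_lit 0) (XT.nd (nat_lit 94) (nat_lit 756) (nat_lit 0) (XT.lf (nat_lit 924) (nat_lit 161437720275) (nat_lit 84) (nat_lit 627844142305) (nat_lit 0) (nat_lit 177185363084) (nat_lit 143) (nat_lit 1) (nat_lit 133) (nat_lit 1) (nat_lit 132) (nat_lit 1) (nat_lit 218) (nat_lit 434) (nat_lit 428)) (XT.lf (nat_lit 924) (nat_lit 33155626470) (nat_lit 0) (nat_lit 469355026667) (nat_lit 840) (nat_lit 430393641628) (nat_lit 134) (nat_lit 1) (nat_lit 123) (nat_lit 1) (nat_lit 133) (nat_lit 1) (nat_lit 219) (nat_lit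 434) (nat_lit 427))) (XT.nd (nat_lit 94) (nat_lit 840) (nat_lit 0) (XT.lf (nat_lit 84) (nat_lit 229576464274) (nat_lit 0) (nat_lit 99486165593) (nat_lit 588) (nat_lit 571867906368) (nat_lit 117) (nat_lit 1) (nat_lit 116) (nat_lit 1) (nat_lit 123) (nat_lit 1) (nat_lit 220) (nat_lit 434) (nat_lit 426)) (XT.nd (nat_lit 94) (nat_lit 420) (nat_lit 0) (XT.lf (nat_lit 504) (nat_lit 632683839484) (nat_lit 0) (nat_lit 205952229314) (nat_lit 420) (nat_lit 31841487211) (nat_lit 117) (nat_lit 1) (nat_lit 111) (nat_lit 1) (nat_lit 116) (nat_lit 1) (nat_lit 221) (nat_lit 434) (nat_lit 425)) (XT.lf (nat_lit 504) (nat_lit 456550683444) (nat_lit 0) (nat_lit 95995221252) (nat_lit 420) (nat_lit 288788094783) (nat_lit 112) (nat_lit 1) (nat_lit 106) (nat_lit 1) (nat_lit 111) (nat_lit 1) (nat_lit 222) (nat_lit 434) (nat_lit 424))))) (XT.nd (nat_lit 188) (nat_lit 1092) (nat_lit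 0) (XT.nd (nat_lit 94) (nat_lit 0) (nat_lit 0) (XT.lf (nat_lit 420) (nat_lit 277805268056) (nat_lit 0) (nat_lit 1767428024) (nat_lit 336) (nat_lit 534030854558) (nat_lit 107) (nat_lit 1) (nat_lit 102) (nat_lit 1) (nat_lit 106) (nat_lit 1) (nat_lit 223) (nat_lit 434) (nat_lit 423)) (XT.lf (nat_lit 84) (nat_lit 20495159773) (nat_lit 0) (nat_lit 691196098552) (nat_lit 420) (nat_lit 75457493631) (nat_lit 103) (nat_lit 1) (nat_lit 102) (nat_lit 1) (nat_lit 107) (nat_lit 1) (nat_lit 224) (nat_lit 434) (nat_lit 422))) (XT.nd (nat_lit 94) (nat_lit 672) (nat_lit 0) (XT.lf (nat_lit 84) (nat_lit 529190341166) (nat_lit 0) (nat_lit 87771880384) (nat_lit 420) (nat_lit 144751771336) (nat_lit 98) (nat_lit 1) (nat_lit 97) (nat_lit 1) (nat_lit 102) (nat_lit 1) (nat_lit 225) (nat_lit 434) (nat_lit 421)) (XT.nd (nat_lit 94) (nat_lit 336) (nat_lit 0) (XT.lf (nat_lit 84) (nat_lit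 264767337711) (nat_lit 0) (nat_lit 268860850551) (nat_lit 420) (nat_lit 203774882895) (nat_lit 94) (nat_lit 1) (nat_lit 93) (nat_lit 1) (nat_lit 98) (nat_lit 1) (nat_lit 226) (nat_lit 434) (nat_lit 420)) (XT.lf (nat_lit 84) (nat_lit 13068328678) (nat_lit 0) (nat_lit 449531167305) (nat_lit 420) (nat_lit 251643695242) (nat_lit 90) (nat_lit 1) (nat_lit 89) (nat_lit 1) (nat_lit 94) (nat_lit 1) (nat_lit 227) (nat_lit 434) (nat_lit 419))))))))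
noncomputable def ec328 : XT := (XT.nd (nat_lit 1692) (nat_lit 2604) (nat_lit 0) (XT.nd (nat_lit 846) (nat_lit 1680) (nat_lit 0) (XT.nd (nat_lit 376) (nat_lit 1260) (nat_lit 0) (XT.nd (nat_lit 188) (nat_lit 504) (nat_lit 0) (XT.nd (nat_lit 94) (nat_lit 420) (nat_lit 0) (XT.lf (nat_lit 336) (nat_lit 59015835783) (nat_lit 0) (nat_lit 399095848328) (nat_lit 252) (nat_lit 233879339343) (nat_lit 90) (nat_lit 1) (nat_lit 86) (nat_lit 1) (nat_lit 89) (nat_lit 1) (nat_lit 228) (nat_lit 434) (nat_lit 418)) (XT.lf (nat_lit 84) (nat_lit 203915579611) (nat_lit 0) (nat_lit 139765005342) (nat_lit 420) (nat_lit 326977548122) (nat_lit 82) (nat_lit 1) (nat_lit 81) (nat_lit 1) (nat_lit 86) (nat_lit 1) (nat_lit 229) (nat_lit 434) (nat_lit 417))) (XT.nd (nat_lit 94) (nat_lit 252) (nat_lit 0) (XT.lf (nat_lit 336) (nat_lit 315710365296) (nat_lit 0) (nat_lit 296569083592) (nat_lit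 252) (nat_lit 37960490723) (nat_lit 82) (nat_lit 1) (nat_lit 78) (nat_lit 1) (nat_lit 81) (nat_lit 1) (nat_lit 230) (nat_lit 434) (nat_lit 416)) (XT.lf (nat_lit 336) (nat_lit 101183646861) (nat_lit 0) (nat_lit 255333836587) (nat_lit 252) (nat_lit 274088939575) (nat_lit 79) (nat_lit 1) (nat_lit 75) (nat_lit 1) (nat_lit 78) (nat_lit 1) (nat_lit 231) (nat_lit 434) (nat_lit 415)))) (XT.nd (nat_lit 188) (nat_lit 672) (nat_lit 0) (XT.nd (nat_lit 94) (nat_lit 252) (nat_lit 0) (XT.lf (nat_lit 84) (nat_lit 115324908193) (nat_lit 0) (nat_lit 105589975408) (nat_lit 336) (nat_lit 390873439748) (nat_lit 72) (nat_lit 1) (nat_lit 71) (nat_lit 1) (nat_lit 75) (nat_lit 1) (nat_lit 232) (nat_lit 434) (nat_lit 414)) (XT.lf (nat_lit 336) (nat_lit 286970897681) (nat_lit 0) (nat_lit 190939800999) (nat_lit 252) (nat_lit 115748335144) (nat_lit 72) (nat_lit 1) (nat_lit 68) (nat_lit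 1) (nat_lit 71) (nat_lit 1) (nat_lit 233) (nat_lit 434) (nat_lit 413))) (XT.nd (nat_lit 94) (nat_lit 504) (nat_lit 0) (XT.lf (nat_lit 252) (nat_lit 71140509267) (nat_lit 0) (nat_lit 166581049184) (nat_lit 168) (nat_lit 338539571968) (nat_lit 69) (nat_lit 1) (nat_lit 66) (nat_lit 1) (nat_lit 68) (nat_lit 1) (nat_lit 234) (nat_lit 434) (nat_lit 412)) (XT.nd (nat_lit 94) (nat_lit 168) (nat_lit 0) (XT.lf (nat_lit 84) (nat_lit 12051656770) (nat_lit 0) (nat_lit 134860655547) (nat_lit 336) (nat_lit 412625303264) (nat_lit 63) (nat_lit 1) (nat_lit 62) (nat_lit 1) (nat_lit 66) (nat_lit 1) (nat_lit 235) (nat_lit 434) (nat_lit 411)) (XT.lf (nat_lit 252) (nat_lit 206721266566) (nat_lit 0) (nat_lit 129183057020) (nat_lit 168) (nat_lit 207440658654) (nat_lit 63) (nat_lit 1) (nat_lit 60) (nat_lit 1) (nat_lit 62) (nat_lit 1) (nat_lit 236) (nat_lit 434) (nat_lit 410)))))) (XT.nd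 (nat_lit 376) (nat_lit 840) (nat_lit 0) (XT.nd (nat_lit 188) (nat_lit 420) (nat_lit 0) (XT.nd (nat_lit 94) (nat_lit 168) (nat_lit 0) (XT.lf (nat_lit 84) (nat_lit 112158320304) (nat_lit 0) (nat_lit 5180663132) (nat_lit 252) (nat_lit 410519956187) (nat_lit 58) (nat_lit 1) (nat_lit 57) (nat_lit 1) (nat_lit 60) (nat_lit 1) (nat_lit 237) (nat_lit 434) (nat_lit 409)) (XT.lf (nat_lit 252) (nat_lit 306619189424) (nat_lit 0) (nat_lit 106250424114) (nat_lit 168) (nat_lit 99953761423) (nat_lit 58) (nat_lit 1) (nat_lit 55) (nat_lit 1) (nat_lit 57) (nat_lit 1) (nat_lit 238) (nat_lit 434) (nat_lit 408))) (XT.nd (nat_lit 94) (nat_lit 252) (nat_lit 0) (XT.lf (nat_lit 252) (nat_lit 95248207324) (nat_lit 0) (nat_lit 98771518565) (nat_lit 168) (nat_lit 304342959853) (nat_lit 56) (nat_lit 1) (nat_lit 53) (nat_lit 1) (nat_lit 55) (nat_lit 1) (nat_lit 239) (nat_lit 434) (nat_lit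 407)) (XT.lf (nat_lit 252) (nat_lit 378100378375) (nat_lit 0) (nat_lit 94368169192) (nat_lit 168) (nat_lit 11971697090) (nat_lit 53) (nat_lit 1) (nat_lit 50) (nat_lit 1) (nat_lit 52) (nat_lit 1) (nat_lit 240) (nat_lit 434) (nat_lit 406)))) (XT.nd (nat_lit 188) (nat_lit 504) (nat_lit 0) (XT.nd (nat_lit 94) (nat_lit 168) (nat_lit 0) (XT.lf (nat_lit 252) (nat_lit 169220205890) (nat_lit 0) (nat_lit 90089785659) (nat_lit 168) (nat_lit 211594672718) (nat_lit 51) (nat_lit 1) (nat_lit 48) (nat_lit 1) (nat_lit 50) (nat_lit 1) (nat_lit 241) (nat_lit 434) (nat_lit 405)) (XT.lf (nat_lit 84) (nat_lit 57964453927) (nat_lit 0) (nat_lit 31859875833) (nat_lit 168) (nat_lit 368106175014) (nat_lit 47) (nat_lit 1) (nat_lit 46) (nat_lit 1) (nat_lit 48) (nat_lit 1) (nat_lit 242) (nat_lit 434) (nat_lit 404))) (XT.nd (nat_lit 94) (nat_lit 336) (nat_lit 0) (XT.lf (nat_lit 252) (nat_lit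 222026642100) (nat_lit 0) (nat_lit 88873190094) (nat_lit 168) (nat_lit 134383903666) (nat_lit 47) (nat_lit 1) (nat_lit 44) (nat_lit 1) (nat_lit 46) (nat_lit 1) (nat_lit 243) (nat_lit 434) (nat_lit 403)) (XT.nd (nat_lit 94) (nat_lit 252) (nat_lit 0) (XT.lf (nat_lit 168) (nat_lit 23909114395) (nat_lit 0) (nat_lit 91056030490) (nat_lit 84) (nat_lit 318171100222) (nat_lit 45) (nat_lit 1) (nat_lit 43) (nat_lit 1) (nat_lit 44) (nat_lit 1) (nat_lit 244) (nat_lit 434) (nat_lit 402)) (XT.lf (nat_lit 252) (nat_lit 258090062764) (nat_lit 0) (nat_lit 93126020578) (nat_lit 168) (nat_lit 70107614843) (nat_lit 43) (nat_lit 1) (nat_lit 40) (nat_lit 1) (nat_lit 42) (nat_lit 1) (nat_lit 245) (nat_lit 434) (nat_lit 401))))))) (XT.nd (nat_lit 846) (nat_lit 1260) (nat_lit 0) (XT.nd (nat_lit 376) (nat_lit 672) (nat_lit 0) (XT.nd (nat_lit 188) (nat_lit 336) (nat_lit 0) (XT.nd (nat_lit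 94) (nat_lit 252) (nat_lit 0) (XT.lf (nat_lit 168) (nat_lit 64911553935) (nat_lit 0) (nat_lit 96608096328) (nat_lit 84) (nat_lit 248389607559) (nat_lit 41) (nat_lit 1) (nat_lit 39) (nat_lit 1) (nat_lit 40) (nat_lit 1) (nat_lit 246) (nat_lit 434) (nat_lit 400)) (XT.lf (nat_lit 252) (nat_lit 280986153468) (nat_lit 0) (nat_lit 101267533396) (nat_lit 168) (nat_lit 16618869128) (nat_lit 39) (nat_lit 1) (nat_lit 36) (nat_lit 1) (nat_lit 38) (nat_lit 1) (nat_lit 247) (nat_lit 434) (nat_lit 399))) (XT.nd (nat_lit 94) (nat_lit 252) (nat_lit 0) (XT.lf (nat_lit 168) (nat_lit 93416631458) (nat_lit 0) (nat_lit 105572620419) (nat_lit 84) (nat_lit 189142466801) (nat_lit 37) (nat_lit 1) (nat_lit 35) (nat_lit 1) (nat_lit 36) (nat_lit 1) (nat_lit 248) (nat_lit 434) (nat_lit 398)) (XT.lf (nat_lit 84) (nat_lit 26963757477) (nat_lit 0) (nat_lit 84632047229) (nat_lit 252) (nat_lit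 266180941964) (nat_lit 33) (nat_lit 1) (nat_lit 32) (nat_lit 1) (nat_lit 35) (nat_lit 1) (nat_lit 249) (nat_lit 434) (nat_lit 397)))) (XT.nd (nat_lit 188) (nat_lit 336) (nat_lit 0) (XT.nd (nat_lit 94) (nat_lit 252) (nat_lit 0) (XT.lf (nat_lit 168) (nat_lit 112108386055) (nat_lit 0) (nat_lit 116811624453) (nat_lit 84) (nat_lit 138758923512) (nat_lit 33) (nat_lit 1) (nat_lit 31) (nat_lit 1) (nat_lit 32) (nat_lit 1) (nat_lit 250) (nat_lit 434) (nat_lit 396)) (XT.lf (nat_lit 84) (nat_lit 62707659928) (nat_lit 0) (nat_lit 60736608921) (nat_lit 252) (nat_lit 234491714388) (nat_lit 29) (nat_lit 1) (nat_lit 28) (nat_lit 1) (nat_lit 31) (nat_lit 1) (nat_lit 251) (nat_lit 434) (nat_lit 395))) (XT.nd (nat_lit 94) (nat_lit 252) (nat_lit 0) (XT.lf (nat_lit 168) (nat_lit 123151313633) (nat_lit 0) (nat_lit 129436787908) (nat_lit 84) (nat_lit 95853859615) (nat_lit 29) (nat_lit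 1) (nat_lit 27) (nat_lit 1) (nat_lit 28) (nat_lit 1) (nat_lit 252) (nat_lit 434) (nat_lit 394)) (XT.nd (nat_lit 94) (nat_lit 84) (nat_lit 0) (XT.lf (nat_lit 84) (nat_lit 92320175939) (nat_lit 0) (nat_lit 43988911962) (nat_lit 168) (nat_lit 202952394953) (nat_lit 26) (nat_lit 1) (nat_lit 25) (nat_lit 1) (nat_lit 27) (nat_lit 1) (nat_lit 253) (nat_lit 434) (nat_lit 393)) (XT.lf (nat_lit 168) (nat_lit 128287447142) (nat_lit 0) (nat_lit 142760790854) (nat_lit 84) (nat_lit 59276841755) (nat_lit 26) (nat_lit 1) (nat_lit 24) (nat_lit 1) (nat_lit 25) (nat_lit 1) (nat_lit 254) (nat_lit 434) (nat_lit 392)))))) (XT.nd (nat_lit 470) (nat_lit 588) (nat_lit 0) (XT.nd (nat_lit 188) (nat_lit 420) (nat_lit 0) (XT.nd (nat_lit 94) (nat_lit 84) (nat_lit 0) (XT.lf (nat_lit 84) (nat_lit 116776438791) (nat_lit 0) (nat_lit 32816301907) (nat_lit 168) (nat_lit 172070810363) (nat_lit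 23) (nat_lit 1) (nat_lit 22) (nat_lit 1) (nat_lit 24) (nat_lit 1) (nat_lit 255) (nat_lit 434) (nat_lit 391)) (XT.lf (nat_lit 168) (nat_lit 128915515147) (nat_lit 0) (nat_lit 156257769790) (nat_lit 84) (nat_lit 28070423817) (nat_lit 23) (nat_lit 1) (nat_lit 21) (nat_lit 1) (nat_lit 22) (nat_lit 1) (nat_lit 256) (nat_lit 434) (nat_lit 390))) (XT.nd (nat_lit 94) (nat_lit 252) (nat_lit 0) (XT.lf (nat_lit 84) (nat_lit 136886893054) (nat_lit 0) (nat_lit 25954218378) (nat_lit 168) (nat_lit 142221565820) (nat_lit 20) (nat_lit 1) (nat_lit 19) (nat_lit 1) (nat_lit 21) (nat_lit 1) (nat_lit 257) (nat_lit 434) (nat_lit 389)) (XT.nd (nat_lit 94) (nat_lit 168) (nat_lit 0) (XT.lf (nat_lit 168) (nat_lit 126155473699) (nat_lit 0) (nat_lit 169531202901) (nat_lit 84) (nat_lit 1436011475) (nat_lit 20) (nat_lit 1) (nat_lit 18) (nat_lit 1) (nat_lit 19) (nat_lit 1) (nat_lit 258)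 (nat_lit 434) (nat_lit 388)) (XT.lf (nat_lit 84) (nat_lit 153326446092) (nat_lit 0) (nat_lit 22388344901) (nat_lit 168) (nat_lit 113673193279) (nat_lit 17) (nat_lit 1) (nat_lit 16) (nat_lit 1) (nat_lit 18) (nat_lit 1) (nat_lit 259) (nat_lit 434) (nat_lit 387))))) (XT.nd (nat_lit 188) (nat_lit 336) (nat_lit 0) (XT.nd (nat_lit 94) (nat_lit 168) (nat_lit 0) (XT.lf (nat_lit 0) (nat_lit 20612549236) (nat_lit 0) (nat_lit 161326217954) (nat_lit 168) (nat_lit 99939468754) (nat_lit 15) (nat_lit 3) (nat_lit 15) (nat_lit 1) (nat_lit 17) (nat_lit 1) (nat_lit 260) (nat_lit 434) (nat_lit 386)) (XT.lf (nat_lit 84) (nat_lit 166658342742) (nat_lit 0) (nat_lit 21307457591) (nat_lit 168) (nat_lit 86610145936) (nat_lit 14) (nat_lit 1) (nat_lit 13) (nat_lit 1) (nat_lit 15) (nat_lit 1) (nat_lit 261) (nat_lit 434) (nat_lit 385))) (XT.nd (nat_lit 94) (nat_lit 252) (nat_lit 0) (XT.lf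 (nat_lit 0) (nat_lit 39377594739) (nat_lit 0) (nat_lit 154272157348) (nat_lit 168) (nat_lit 73818380943) (nat_lit 12) (nat_lit 3) (nat_lit 12) (nat_lit 1) (nat_lit 14) (nat_lit 1) (nat_lit 262) (nat_lit 434) (nat_lit 384)) (XT.nd (nat_lit 94) (nat_lit 84) (nat_lit 0) (XT.lf (nat_lit 84) (nat_lit 177353726809) (nat_lit 0) (nat_lit 22065004427) (nat_lit 168) (nat_lit 61150595191) (nat_lit 11) (nat_lit 1) (nat_lit 10) (nat_lit 1) (nat_lit 12) (nat_lit 1) (nat_lit 263) (nat_lit 434) (nat_lit 383)) (XT.lf (nat_lit 0) (nat_lit 55360515912) (nat_lit 0) (nat_lit 149173438546) (nat_lit 168) (nat_lit 49304698572) (nat_lit 9) (nat_lit 3) (nat_lit 9) (nat_lit 1) (nat_lit 11) (nat_lit 1) (nat_lit 264) (nat_lit 434) (nat_lit 382))))))))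
noncomputable def ec329 : XT := (XT.nd (nat_lit 1786) (nat_lit 0) (nat_lit 0) (XT.nd (nat_lit 846) (nat_lit 0) (nat_lit 0) (XT.nd (nat_lit 376) (nat_lit 252) (nat_lit 0) (XT.nd (nat_lit 188) (nat_lit 252) (nat_lit 0) (XT.nd (nat_lit 94) (nat_lit 84) (nat_lit 0) (XT.lf (nat_lit 84) (nat_lit 185807676458) (nat_lit 0) (nat_lit 24147808293) (nat_lit 168) (nat_lit 37360810252) (nat_lit 8) (nat_lit 1) (nat_lit 7) (nat_lit 1) (nat_lit 9) (nat_lit 1) (nat_lit 265) (nat_lit 434) (nat_lit 381)) (XT.lf (nat_lit 0) (nat_lit 68945285916) (nat_lit 0) (nat_lit 145544772031) (nat_lit 168) (nat_lit 26449990925) (nat_lit 6) (nat_lit 3) (nat_lit 6) (nat_lit 1) (nat_lit 8) (nat_lit 1) (nat_lit 266) (nat_lit 434) (nat_lit 380))) (XT.nd (nat_lit 94) (nat_lit 84) (nat_lit 0) (XT.lf (nat_lit 84) (nat_lit 192352356453) (nat_lit 0) (nat_lit 27150582108) (nat_lit 168) (nat_lit 15266756784)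 (nat_lit 5) (nat_lit 1) (nat_lit 4) (nat_lit 1) (nat_lit 6) (nat_lit 1) (nat_lit 267) (nat_lit 434) (nat_lit 379)) (XT.lf (nat_lit 0) (nat_lit 80456654472) (nat_lit 0) (nat_lit 143001143102) (nat_lit 168) (nat_lit 5269191766) (nat_lit 3) (nat_lit 3) (nat_lit 3) (nat_lit 1) (nat_lit 5) (nat_lit 1) (nat_lit 268) (nat_lit 434) (nat_lit 378)))) (XT.nd (nat_lit 188) (nat_lit 0) (nat_lit 0) (XT.nd (nat_lit 94) (nat_lit 0) (nat_lit 0) (XT.lf (nat_lit 0) (nat_lit 323316139942) (nat_lit 0) (nat_lit 0) (nat_lit 0) (nat_lit 0) (nat_lit 0) (nat_lit 0) (nat_lit 1) (nat_lit 0) (nat_lit 1) (nat_lit 0) (nat_lit 269) (nat_lit 434) (nat_lit 377)) (XT.lf (nat_lit 0) (nat_lit 323021853710) (nat_lit 0) (nat_lit 0) (nat_lit 0) (nat_lit 0) (nat_lit 0) (nat_lit 0) (nat_lit 1) (nat_lit 0) (nat_lit 1) (nat_lit 0) (nat_lit 270) (nat_lit 434) (nat_lit 376))) (XT.nd (nat_lit 94) (nat_lit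 0) (nat_lit 0) (XT.lf (nat_lit 0) (nat_lit 322749366458) (nat_lit 0) (nat_lit 0) (nat_lit 0) (nat_lit 0) (nat_lit 0) (nat_lit 0) (nat_lit 1) (nat_lit 0) (nat_lit 1) (nat_lit 0) (nat_lit 271) (nat_lit 434) (nat_lit 375)) (XT.nd (nat_lit 94) (nat_lit 0) (nat_lit 0) (XT.lf (nat_lit 0) (nat_lit 322497063447) (nat_lit 0) (nat_lit 0) (nat_lit 0) (nat_lit 0) (nat_lit 0) (nat_lit 0) (nat_lit 1) (nat_lit 0) (nat_lit 1) (nat_lit 0) (nat_lit 272) (nat_lit 434) (nat_lit 374)) (XT.lf (nat_lit 0) (nat_lit 322263449548) (nat_lit 0) (nat_lit 0) (nat_lit 0) (nat_lit 0) (nat_lit 0) (nat_lit 0) (nat_lit 1) (nat_lit 0) (nat_lit 1) (nat_lit 0) (nat_lit 273) (nat_lit 434) (nat_lit 373)))))) (XT.nd (nat_lit 470) (nat_lit 0) (nat_lit 0) (XT.nd (nat_lit 188) (nat_lit 0) (nat_lit 0) (XT.nd (nat_lit 94) (nat_lit 0) (nat_lit 0) (XT.lf (nat_lit 0) (nat_lit 322047140382) (nat_lit 0) (nat_lit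 0) (nat_lit 0) (nat_lit 0) (nat_lit 0) (nat_lit 0) (nat_lit 1) (nat_lit 0) (nat_lit 1) (nat_lit 0) (nat_lit 274) (nat_lit 434) (nat_lit 372)) (XT.lf (nat_lit 0) (nat_lit 321846854117) (nat_lit 0) (nat_lit 0) (nat_lit 0) (nat_lit 0) (nat_lit 0) (nat_lit 0) (nat_lit 1) (nat_lit 0) (nat_lit 1) (nat_lit 0) (nat_lit 275) (nat_lit 434) (nat_lit 371))) (XT.nd (nat_lit 94) (nat_lit 0) (nat_lit 0) (XT.lf (nat_lit 0) (nat_lit 321661403872) (nat_lit 0) (nat_lit 0) (nat_lit 0) (nat_lit 0) (nat_lit 0) (nat_lit 0) (nat_lit 1) (nat_lit 0) (nat_lit 1) (nat_lit 0) (nat_lit 276) (nat_lit 434) (nat_lit 370)) (XT.nd (nat_lit 94) (nat_lit 0) (nat_lit 0) (XT.lf (nat_lit 0) (nat_lit 321489690682) (nat_lit 0) (nat_lit 0) (nat_lit 0) (nat_lit 0) (nat_lit 0) (nat_lit 0) (nat_lit 1) (nat_lit 0) (nat_lit 1) (nat_lit 0) (nat_lit 277) (nat_lit 434) (nat_lit 369)) (XT.lf (nat_lit 0) (nat_lit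 321330696987) (nat_lit 0) (nat_lit 0) (nat_lit 0) (nat_lit 0) (nat_lit 0) (nat_lit 0) (nat_lit 1) (nat_lit 0) (nat_lit 1) (nat_lit 0) (nat_lit 278) (nat_lit 434) (nat_lit 368))))) (XT.nd (nat_lit 188) (nat_lit 0) (nat_lit 0) (XT.nd (nat_lit 94) (nat_lit 0) (nat_lit 0) (XT.lf (nat_lit 0) (nat_lit 321183480604) (nat_lit 0) (nat_lit 0) (nat_lit 0) (nat_lit 0) (nat_lit 0) (nat_lit 0) (nat_lit 1) (nat_lit 0) (nat_lit 1) (nat_lit 0) (nat_lit 279) (nat_lit 434) (nat_lit 367)) (XT.lf (nat_lit 0) (nat_lit 321047169137) (nat_lit 0) (nat_lit 0) (nat_lit 0) (nat_lit 0) (nat_lit 0) (nat_lit 0) (nat_lit 1) (nat_lit 0) (nat_lit 1) (nat_lit 0) (nat_lit 280) (nat_lit 434) (nat_lit 366))) (XT.nd (nat_lit 94) (nat_lit 0) (nat_lit 0) (XT.lf (nat_lit 0) (nat_lit 320920954816) (nat_lit 0) (nat_lit 0) (nat_lit 0) (nat_lit 0) (nat_lit 0) (nat_lit 0) (nat_lit 1) (nat_lit 0) (nat_lit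 1) (nat_lit 0) (nat_lit 281) (nat_lit 434) (nat_lit 365)) (XT.nd (nat_lit 94) (nat_lit 0) (nat_lit 0) (XT.lf (nat_lit 0) (nat_lit 320804089705) (nat_lit 0) (nat_lit 0) (nat_lit 0) (nat_lit 0) (nat_lit 0) (nat_lit 0) (nat_lit 1) (nat_lit 0) (nat_lit 1) (nat_lit 0) (nat_lit 282) (nat_lit 434) (nat_lit 364)) (XT.lf (nat_lit 0) (nat_lit 320695881268) (nat_lit 0) (nat_lit 0) (nat_lit 0) (nat_lit 0) (nat_lit 0) (nat_lit 0) (nat_lit 1) (nat_lit 0) (nat_lit 1) (nat_lit 0) (nat_lit 283) (nat_lit 434) (nat_lit 363))))))) (XT.nd (nat_lit 846) (nat_lit 0) (nat_lit 0) (XT.nd (nat_lit 376) (nat_lit 0) (nat_lit 0) (XT.nd (nat_lit 188) (nat_lit 0) (nat_lit 0) (XT.nd (nat_lit 94) (nat_lit 0) (nat_lit 0) (XT.lf (nat_lit 0) (nat_lit 320595688271) (nat_lit 0) (nat_lit 0) (nat_lit 0) (nat_lit 0) (nat_lit 0) (nat_lit 0) (nat_lit 1) (nat_lit 0) (nat_lit 1) (nat_lit 0) (nat_lit 284)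 (nat_lit 434) (nat_lit 362)) (XT.lf (nat_lit 0) (nat_lit 320502916977) (nat_lit 0) (nat_lit 0) (nat_lit 0) (nat_lit 0) (nat_lit 0) (nat_lit 0) (nat_lit 1) (nat_lit 0) (nat_lit 1) (nat_lit 0) (nat_lit 285) (nat_lit 434) (nat_lit 361))) (XT.nd (nat_lit 94) (nat_lit 0) (nat_lit 0) (XT.lf (nat_lit 0) (nat_lit 320417017631) (nat_lit 0) (nat_lit 0) (nat_lit 0) (nat_lit 0) (nat_lit 0) (nat_lit 0) (nat_lit 1) (nat_lit 0) (nat_lit 1) (nat_lit 0) (nat_lit 286) (nat_lit 434) (nat_lit 360)) (XT.lf (nat_lit 0) (nat_lit 320337481200) (nat_lit 0) (nat_lit 0) (nat_lit 0) (nat_lit 0) (nat_lit 0) (nat_lit 0) (nat_lit 1) (nat_lit 0) (nat_lit 1) (nat_lit 0) (nat_lit 287) (nat_lit 434) (nat_lit 359)))) (XT.nd (nat_lit 188) (nat_lit 0) (nat_lit 0) (XT.nd (nat_lit 94) (nat_lit 0) (nat_lit 0) (XT.lf (nat_lit 0) (nat_lit 320263836356) (nat_lit 0) (nat_lit 0) (nat_lit 0) (nat_lit 0)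 (nat_lit 0) (nat_lit 0) (nat_lit 1) (nat_lit 0) (nat_lit 1) (nat_lit 0) (nat_lit 288) (nat_lit 434) (nat_lit 358)) (XT.lf (nat_lit 0) (nat_lit 320195646686) (nat_lit 0) (nat_lit 0) (nat_lit 0) (nat_lit 0) (nat_lit 0) (nat_lit 0) (nat_lit 1) (nat_lit 0) (nat_lit 1) (nat_lit 0) (nat_lit 289) (nat_lit 434) (nat_lit 357))) (XT.nd (nat_lit 94) (nat_lit 0) (nat_lit 0) (XT.lf (nat_lit 0) (nat_lit 320132508102) (nat_lit 0) (nat_lit 0) (nat_lit 0) (nat_lit 0) (nat_lit 0) (nat_lit 0) (nat_lit 1) (nat_lit 0) (nat_lit 1) (nat_lit 0) (nat_lit 290) (nat_lit 434) (nat_lit 356)) (XT.nd (nat_lit 94) (nat_lit 0) (nat_lit 0) (XT.lf (nat_lit 0) (nat_lit 320074046451) (nat_lit 0) (nat_lit 0) (nat_lit 0) (nat_lit 0) (nat_lit 0) (nat_lit 0) (nat_lit 1) (nat_lit 0) (nat_lit 1) (nat_lit 0) (nat_lit 291) (nat_lit 434) (nat_lit 355)) (XT.lf (nat_lit 0) (nat_lit 320019915292) (nat_lit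 0) (nat_lit 0) (nat_lit 0) (nat_lit 0) (nat_lit 0) (nat_lit 0) (nat_lit 1) (nat_lit 0) (nat_lit 1) (nat_lit 0) (nat_lit 292) (nat_lit 434) (nat_lit 354)))))) (XT.nd (nat_lit 470) (nat_lit 0) (nat_lit 0) (XT.nd (nat_lit 188) (nat_lit 0) (nat_lit 0) (XT.nd (nat_lit 94) (nat_lit 0) (nat_lit 0) (XT.lf (nat_lit 0) (nat_lit 319969793849) (nat_lit 0) (nat_lit 0) (nat_lit 0) (nat_lit 0) (nat_lit 0) (nat_lit 0) (nat_lit 1) (nat_lit 0) (nat_lit 1) (nat_lit 0) (nat_lit 293) (nat_lit 434) (nat_lit 353)) (XT.lf (nat_lit 0) (nat_lit 319923385105) (nat_lit 0) (nat_lit 0) (nat_lit 0) (nat_lit 0) (nat_lit 0) (nat_lit 0) (nat_lit 1) (nat_lit 0) (nat_lit 1) (nat_lit 0) (nat_lit 294) (nat_lit 434) (nat_lit 352))) (XT.nd (nat_lit 94) (nat_lit 0) (nat_lit 0) (XT.lf (nat_lit 0) (nat_lit 319880414046) (nat_lit 0) (nat_lit 0) (nat_lit 0) (nat_lit 0) (nat_lit 0) (nat_lit 0) (nat_lit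 1) (nat_lit 0) (nat_lit 1) (nat_lit 0) (nat_lit 295) (nat_lit 434) (nat_lit 351)) (XT.nd (nat_lit 94) (nat_lit 0) (nat_lit 0) (XT.lf (nat_lit 0) (nat_lit 319840626028) (nat_lit 0) (nat_lit 0) (nat_lit 0) (nat_lit 0) (nat_lit 0) (nat_lit 0) (nat_lit 1) (nat_lit 0) (nat_lit 1) (nat_lit 0) (nat_lit 296) (nat_lit 434) (nat_lit 350)) (XT.lf (nat_lit 0) (nat_lit 319803785271) (nat_lit 0) (nat_lit 0) (nat_lit 0) (nat_lit 0) (nat_lit 0) (nat_lit 0) (nat_lit 1) (nat_lit 0) (nat_lit 1) (nat_lit 0) (nat_lit 297) (nat_lit 434) (nat_lit 349))))) (XT.nd (nat_lit 188) (nat_lit 0) (nat_lit 0) (XT.nd (nat_lit 94) (nat_lit 0) (nat_lit 0) (XT.lf (nat_lit 0) (nat_lit 319769673459) (nat_lit 0) (nat_lit 0) (nat_lit 0) (nat_lit 0) (nat_lit 0) (nat_lit 0) (nat_lit 1) (nat_lit 0) (nat_lit 1) (nat_lit 0) (nat_lit 298) (nat_lit 434) (nat_lit 348)) (XT.lf (nat_lit 0) (nat_lit 319738088448)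 (nat_lit 0) (nat_lit 0) (nat_lit 0) (nat_lit 0) (nat_lit 0) (nat_lit 0) (nat_lit 1) (nat_lit 0) (nat_lit 1) (nat_lit 0) (nat_lit 299) (nat_lit 434) (nat_lit 347))) (XT.nd (nat_lit 94) (nat_lit 0) (nat_lit 0) (XT.lf (nat_lit 0) (nat_lit 319708843067) (nat_lit 0) (nat_lit 0) (nat_lit 0) (nat_lit 0) (nat_lit 0) (nat_lit 0) (nat_lit 1) (nat_lit 0) (nat_lit 1) (nat_lit 0) (nat_lit 300) (nat_lit 434) (nat_lit 346)) (XT.nd (nat_lit 94) (nat_lit 0) (nat_lit 0) (XT.lf (nat_lit 0) (nat_lit 319681764011) (nat_lit 0) (nat_lit 0) (nat_lit 0) (nat_lit 0) (nat_lit 0) (nat_lit 0) (nat_lit 1) (nat_lit 0) (nat_lit 1) (nat_lit 0) (nat_lit 301) (nat_lit 434) (nat_lit 345)) (XT.lf (nat_lit 0) (nat_lit 319656690810) (nat_lit 0) (nat_lit 0) (nat_lit 0) (nat_lit 0) (nat_lit 0) (nat_lit 0) (nat_lit 1) (nat_lit 0) (nat_lit 1) (nat_lit 0) (nat_lit 302) (nat_lit 434) (nat_lit 344))))))))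
noncomputable def ec330 : XT := (XT.nd (nat_lit 1692) (nat_lit 0) (nat_lit 0) (XT.nd (nat_lit 846) (nat_lit 0) (nat_lit 0) (XT.nd (nat_lit 376) (nat_lit 0) (nat_lit 0) (XT.nd (nat_lit 188) (nat_lit 0) (nat_lit 0) (XT.nd (nat_lit 94) (nat_lit 0) (nat_lit 0) (XT.lf (nat_lit 0) (nat_lit 319633474884) (nat_lit 0) (nat_lit 0) (nat_lit 0) (nat_lit 0) (nat_lit 0) (nat_lit 0) (nat_lit 1) (nat_lit 0) (nat_lit 1) (nat_lit 0) (nat_lit 303) (nat_lit 434) (nat_lit 343)) (XT.lf (nat_lit 0) (nat_lit 319611978656) (nat_lit 0) (nat_lit 0) (nat_lit 0) (nat_lit 0) (nat_lit 0) (nat_lit 0) (nat_lit 1) (nat_lit 0) (nat_lit 1) (nat_lit 0) (nat_lit 304) (nat_lit 434) (nat_lit 342))) (XT.nd (nat_lit 94) (nat_lit 0) (nat_lit 0) (XT.lf (nat_lit 0) (nat_lit 319592074742) (nat_lit 0) (nat_lit 0) (nat_lit 0) (nat_lit 0) (nat_lit 0) (nat_lit 0) (nat_lit 1) (nat_lit 0) (nat_lit 1) (nat_lit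 0) (nat_lit 305) (nat_lit 434) (nat_lit 341)) (XT.lf (nat_lit 0) (nat_lit 319573645191) (nat_lit 0) (nat_lit 0) (nat_lit 0) (nat_lit 0) (nat_lit 0) (nat_lit 0) (nat_lit 1) (nat_lit 0) (nat_lit 1) (nat_lit 0) (nat_lit 306) (nat_lit 434) (nat_lit 340)))) (XT.nd (nat_lit 188) (nat_lit 0) (nat_lit 0) (XT.nd (nat_lit 94) (nat_lit 0) (nat_lit 0) (XT.lf (nat_lit 0) (nat_lit 319556580792) (nat_lit 0) (nat_lit 0) (nat_lit 0) (nat_lit 0) (nat_lit 0) (nat_lit 0) (nat_lit 1) (nat_lit 0) (nat_lit 1) (nat_lit 0) (nat_lit 307) (nat_lit 434) (nat_lit 339)) (XT.lf (nat_lit 0) (nat_lit 319540780423) (nat_lit 0) (nat_lit 0) (nat_lit 0) (nat_lit 0) (nat_lit 0) (nat_lit 0) (nat_lit 1) (nat_lit 0) (nat_lit 1) (nat_lit 0) (nat_lit 308) (nat_lit 434) (nat_lit 338))) (XT.nd (nat_lit 94) (nat_lit 0) (nat_lit 0) (XT.lf (nat_lit 0) (nat_lit 319526150451) (nat_lit 0) (nat_lit 0) (nat_lit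 0) (nat_lit 0) (nat_lit 0) (nat_lit 0) (nat_lit 1) (nat_lit 0) (nat_lit 1) (nat_lit 0) (nat_lit 309) (nat_lit 434) (nat_lit 337)) (XT.nd (nat_lit 94) (nat_lit 0) (nat_lit 0) (XT.lf (nat_lit 0) (nat_lit 319512604181) (nat_lit 0) (nat_lit 0) (nat_lit 0) (nat_lit 0) (nat_lit 0) (nat_lit 0) (nat_lit 1) (nat_lit 0) (nat_lit 1) (nat_lit 0) (nat_lit 310) (nat_lit 434) (nat_lit 336)) (XT.lf (nat_lit 0) (nat_lit 319500061339) (nat_lit 0) (nat_lit 0) (nat_lit 0) (nat_lit 0) (nat_lit 0) (nat_lit 0) (nat_lit 1) (nat_lit 0) (nat_lit 1) (nat_lit 0) (nat_lit 311) (nat_lit 434) (nat_lit 335)))))) (XT.nd (nat_lit 376) (nat_lit 0) (nat_lit 0) (XT.nd (nat_lit 188) (nat_lit 0) (nat_lit 0) (XT.nd (nat_lit 94) (nat_lit 0) (nat_lit 0) (XT.lf (nat_lit 0) (nat_lit 319488447596) (nat_lit 0) (nat_lit 0) (nat_lit 0) (nat_lit 0) (nat_lit 0) (nat_lit 0) (nat_lit 1) (nat_lit 0) (nat_lit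 1) (nat_lit 0) (nat_lit 312) (nat_lit 434) (nat_lit 334)) (XT.lf (nat_lit 0) (nat_lit 319477694130) (nat_lit 0) (nat_lit 0) (nat_lit 0) (nat_lit 0) (nat_lit 0) (nat_lit 0) (nat_lit 1) (nat_lit 0) (nat_lit 1) (nat_lit 0) (nat_lit 313) (nat_lit 434) (nat_lit 333))) (XT.nd (nat_lit 94) (nat_lit 0) (nat_lit 0) (XT.lf (nat_lit 0) (nat_lit 319467737217) (nat_lit 0) (nat_lit 0) (nat_lit 0) (nat_lit 0) (nat_lit 0) (nat_lit 0) (nat_lit 1) (nat_lit 0) (nat_lit 1) (nat_lit 0) (nat_lit 314) (nat_lit 434) (nat_lit 332)) (XT.lf (nat_lit 0) (nat_lit 319458517853) (nat_lit 0) (nat_lit 0) (nat_lit 0) (nat_lit 0) (nat_lit 0) (nat_lit 0) (nat_lit 1) (nat_lit 0) (nat_lit 1) (nat_lit 0) (nat_lit 315) (nat_lit 434) (nat_lit 331)))) (XT.nd (nat_lit 188) (nat_lit 0) (nat_lit 0) (XT.nd (nat_lit 94) (nat_lit 0) (nat_lit 0) (XT.lf (nat_lit 0) (nat_lit 319449981406) (nat_lit 0) (nat_lit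 0) (nat_lit 0) (nat_lit 0) (nat_lit 0) (nat_lit 0) (nat_lit 1) (nat_lit 0) (nat_lit 1) (nat_lit 0) (nat_lit 316) (nat_lit 434) (nat_lit 330)) (XT.lf (nat_lit 0) (nat_lit 319442077287) (nat_lit 0) (nat_lit 0) (nat_lit 0) (nat_lit 0) (nat_lit 0) (nat_lit 0) (nat_lit 1) (nat_lit 0) (nat_lit 1) (nat_lit 0) (nat_lit 317) (nat_lit 434) (nat_lit 329))) (XT.nd (nat_lit 94) (nat_lit 0) (nat_lit 0) (XT.lf (nat_lit 0) (nat_lit 319434758659) (nat_lit 0) (nat_lit 0) (nat_lit 0) (nat_lit 0) (nat_lit 0) (nat_lit 0) (nat_lit 1) (nat_lit 0) (nat_lit 1) (nat_lit 0) (nat_lit 318) (nat_lit 434) (nat_lit 328)) (XT.nd (nat_lit 94) (nat_lit 0) (nat_lit 0) (XT.lf (nat_lit 0) (nat_lit 319427982152) (nat_lit 0) (nat_lit 0) (nat_lit 0) (nat_lit 0) (nat_lit 0) (nat_lit 0) (nat_lit 1) (nat_lit 0) (nat_lit 1) (nat_lit 0) (nat_lit 319) (nat_lit 434) (nat_lit 327)) (XT.lf (nat_lit 0) (nat_lit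 319421707607) (nat_lit 0) (nat_lit 0) (nat_lit 0) (nat_lit 0) (nat_lit 0) (nat_lit 0) (nat_lit 1) (nat_lit 0) (nat_lit 1) (nat_lit 0) (nat_lit 320) (nat_lit 434) (nat_lit 326))))))) (XT.nd (nat_lit 846) (nat_lit 0) (nat_lit 0) (XT.nd (nat_lit 376) (nat_lit 0) (nat_lit 0) (XT.nd (nat_lit 188) (nat_lit 0) (nat_lit 0) (XT.nd (nat_lit 94) (nat_lit 0) (nat_lit 0) (XT.lf (nat_lit 0) (nat_lit 319415897845) (nat_lit 0) (nat_lit 0) (nat_lit 0) (nat_lit 0) (nat_lit 0) (nat_lit 0) (nat_lit 1) (nat_lit 0) (nat_lit 1) (nat_lit 0) (nat_lit 321) (nat_lit 434) (nat_lit 325)) (XT.lf (nat_lit 0) (nat_lit 319410518434) (nat_lit 0) (nat_lit 0) (nat_lit 0) (nat_lit 0) (nat_lit 0) (nat_lit 0) (nat_lit 1) (nat_lit 0) (nat_lit 1) (nat_lit 0) (nat_lit 322) (nat_lit 434) (nat_lit 324))) (XT.nd (nat_lit 94) (nat_lit 0) (nat_lit 0) (XT.lf (nat_lit 0) (nat_lit 319405537499) (nat_lit 0)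 (nat_lit 0) (nat_lit 0) (nat_lit 0) (nat_lit 0) (nat_lit 0) (nat_lit 1) (nat_lit 0) (nat_lit 1) (nat_lit 0) (nat_lit 323) (nat_lit 434) (nat_lit 323)) (XT.lf (nat_lit 0) (nat_lit 319400925522) (nat_lit 0) (nat_lit 0) (nat_lit 0) (nat_lit 0) (nat_lit 0) (nat_lit 0) (nat_lit 1) (nat_lit 0) (nat_lit 1) (nat_lit 0) (nat_lit 324) (nat_lit 434) (nat_lit 322)))) (XT.nd (nat_lit 188) (nat_lit 0) (nat_lit 0) (XT.nd (nat_lit 94) (nat_lit 0) (nat_lit 0) (XT.lf (nat_lit 0) (nat_lit 319396655173) (nat_lit 0) (nat_lit 0) (nat_lit 0) (nat_lit 0) (nat_lit 0) (nat_lit 0) (nat_lit 1) (nat_lit 0) (nat_lit 1) (nat_lit 0) (nat_lit 325) (nat_lit 434) (nat_lit 321)) (XT.lf (nat_lit 0) (nat_lit 319392701146) (nat_lit 0) (nat_lit 0) (nat_lit 0) (nat_lit 0) (nat_lit 0) (nat_lit 0) (nat_lit 1) (nat_lit 0) (nat_lit 1) (nat_lit 0) (nat_lit 326) (nat_lit 434) (nat_lit 320))) (XT.nd (nat_lit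 94) (nat_lit 0) (nat_lit 0) (XT.lf (nat_lit 0) (nat_lit 319389040009) (nat_lit 0) (nat_lit 0) (nat_lit 0) (nat_lit 0) (nat_lit 0) (nat_lit 0) (nat_lit 1) (nat_lit 0) (nat_lit 1) (nat_lit 0) (nat_lit 327) (nat_lit 434) (nat_lit 319)) (XT.nd (nat_lit 94) (nat_lit 0) (nat_lit 0) (XT.lf (nat_lit 0) (nat_lit 319385650068) (nat_lit 0) (nat_lit 0) (nat_lit 0) (nat_lit 0) (nat_lit 0) (nat_lit 0) (nat_lit 1) (nat_lit 0) (nat_lit 1) (nat_lit 0) (nat_lit 328) (nat_lit 434) (nat_lit 318)) (XT.lf (nat_lit 0) (nat_lit 319382511234) (nat_lit 0) (nat_lit 0) (nat_lit 0) (nat_lit 0) (nat_lit 0) (nat_lit 0) (nat_lit 1) (nat_lit 0) (nat_lit 1) (nat_lit 0) (nat_lit 329) (nat_lit 434) (nat_lit 317)))))) (XT.nd (nat_lit 470) (nat_lit 0) (nat_lit 0) (XT.nd (nat_lit 188) (nat_lit 0) (nat_lit 0) (XT.nd (nat_lit 94) (nat_lit 0) (nat_lit 0) (XT.lf (nat_lit 0) (nat_lit 319379604906) (nat_lit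 0) (nat_lit 0) (nat_lit 0) (nat_lit 0) (nat_lit 0) (nat_lit 0) (nat_lit 1) (nat_lit 0) (nat_lit 1) (nat_lit 0) (nat_lit 330) (nat_lit 434) (nat_lit 316)) (XT.lf (nat_lit 0) (nat_lit 319376913862) (nat_lit 0) (nat_lit 0) (nat_lit 0) (nat_lit 0) (nat_lit 0) (nat_lit 0) (nat_lit 1) (nat_lit 0) (nat_lit 1) (nat_lit 0) (nat_lit 331) (nat_lit 434) (nat_lit 315))) (XT.nd (nat_lit 94) (nat_lit 0) (nat_lit 0) (XT.lf (nat_lit 0) (nat_lit 319374422154) (nat_lit 0) (nat_lit 0) (nat_lit 0) (nat_lit 0) (nat_lit 0) (nat_lit 0) (nat_lit 1) (nat_lit 0) (nat_lit 1) (nat_lit 0) (nat_lit 332) (nat_lit 434) (nat_lit 314)) (XT.nd (nat_lit 94) (nat_lit 0) (nat_lit 0) (XT.lf (nat_lit 0) (nat_lit 319372115017) (nat_lit 0) (nat_lit 0) (nat_lit 0) (nat_lit 0) (nat_lit 0) (nat_lit 0) (nat_lit 1) (nat_lit 0) (nat_lit 1) (nat_lit 0) (nat_lit 333) (nat_lit 434) (nat_lit 313)) (XT.lf (nat_lit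 0) (nat_lit 319369978780) (nat_lit 0) (nat_lit 0) (nat_lit 0) (nat_lit 0) (nat_lit 0) (nat_lit 0) (nat_lit 1) (nat_lit 0) (nat_lit 1) (nat_lit 0) (nat_lit 334) (nat_lit 434) (nat_lit 312))))) (XT.nd (nat_lit 188) (nat_lit 0) (nat_lit 0) (XT.nd (nat_lit 94) (nat_lit 0) (nat_lit 0) (XT.lf (nat_lit 0) (nat_lit 319368000782) (nat_lit 0) (nat_lit 0) (nat_lit 0) (nat_lit 0) (nat_lit 0) (nat_lit 0) (nat_lit 1) (nat_lit 0) (nat_lit 1) (nat_lit 0) (nat_lit 335) (nat_lit 434) (nat_lit 311)) (XT.lf (nat_lit 0) (nat_lit 319366169302) (nat_lit 0) (nat_lit 0) (nat_lit 0) (nat_lit 0) (nat_lit 0) (nat_lit 0) (nat_lit 1) (nat_lit 0) (nat_lit 1) (nat_lit 0) (nat_lit 336) (nat_lit 434) (nat_lit 310))) (XT.nd (nat_lit 94) (nat_lit 0) (nat_lit 0) (XT.lf (nat_lit 0) (nat_lit 319364473488) (nat_lit 0) (nat_lit 0) (nat_lit 0) (nat_lit 0) (nat_lit 0) (nat_lit 0) (nat_lit 1) (nat_lit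 0) (nat_lit 1) (nat_lit 0) (nat_lit 337) (nat_lit 434) (nat_lit 309)) (XT.nd (nat_lit 94) (nat_lit 0) (nat_lit 0) (XT.lf (nat_lit 0) (nat_lit 319362903289) (nat_lit 0) (nat_lit 0) (nat_lit 0) (nat_lit 0) (nat_lit 0) (nat_lit 0) (nat_lit 1) (nat_lit 0) (nat_lit 1) (nat_lit 0) (nat_lit 338) (nat_lit 434) (nat_lit 308)) (XT.lf (nat_lit 0) (nat_lit 319361449402) (nat_lit 0) (nat_lit 0) (nat_lit 0) (nat_lit 0) (nat_lit 0) (nat_lit 0) (nat_lit 1) (nat_lit 0) (nat_lit 1) (nat_lit 0) (nat_lit 339) (nat_lit 434) (nat_lit 307))))))))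
noncomputable def ec331 : XT := (XT.nd (nat_lit 1786) (nat_lit 0) (nat_lit 0) (XT.nd (nat_lit 846) (nat_lit 0) (nat_lit 0) (XT.nd (nat_lit 376) (nat_lit 0) (nat_lit 0) (XT.nd (nat_lit 188) (nat_lit 0) (nat_lit 0) (XT.nd (nat_lit 94) (nat_lit 0) (nat_lit 0) (XT.lf (nat_lit 0) (nat_lit 319360103209) (nat_lit 0) (nat_lit 0) (nat_lit 0) (nat_lit 0) (nat_lit 0) (nat_lit 0) (nat_lit 1) (nat_lit 0) (nat_lit 1) (nat_lit 0) (nat_lit 340) (nat_lit 434) (nat_lit 306)) (XT.lf (nat_lit 0) (nat_lit 319358856735) (nat_lit 0) (nat_lit 0) (nat_lit 0) (nat_lit 0) (nat_lit 0) (nat_lit 0) (nat_lit 1) (nat_lit 0) (nat_lit 1) (nat_lit 0) (nat_lit 341) (nat_lit 434) (nat_lit 305))) (XT.nd (nat_lit 94) (nat_lit 0) (nat_lit 0) (XT.lf (nat_lit 0) (nat_lit 319357702592) (nat_lit 0) (nat_lit 0) (nat_lit 0) (nat_lit 0) (nat_lit 0) (nat_lit 0) (nat_lit 1) (nat_lit 0) (nat_lit 1) (nat_lit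 0) (nat_lit 342) (nat_lit 434) (nat_lit 304)) (XT.lf (nat_lit 0) (nat_lit 319356633942) (nat_lit 0) (nat_lit 0) (nat_lit 0) (nat_lit 0) (nat_lit 0) (nat_lit 0) (nat_lit 1) (nat_lit 0) (nat_lit 1) (nat_lit 0) (nat_lit 343) (nat_lit 434) (nat_lit 303)))) (XT.nd (nat_lit 188) (nat_lit 0) (nat_lit 0) (XT.nd (nat_lit 94) (nat_lit 0) (nat_lit 0) (XT.lf (nat_lit 0) (nat_lit 319355644450) (nat_lit 0) (nat_lit 0) (nat_lit 0) (nat_lit 0) (nat_lit 0) (nat_lit 0) (nat_lit 1) (nat_lit 0) (nat_lit 1) (nat_lit 0) (nat_lit 344) (nat_lit 434) (nat_lit 302)) (XT.lf (nat_lit 0) (nat_lit 319354728254) (nat_lit 0) (nat_lit 0) (nat_lit 0) (nat_lit 0) (nat_lit 0) (nat_lit 0) (nat_lit 1) (nat_lit 0) (nat_lit 1) (nat_lit 0) (nat_lit 345) (nat_lit 434) (nat_lit 301))) (XT.nd (nat_lit 94) (nat_lit 0) (nat_lit 0) (XT.lf (nat_lit 0) (nat_lit 319353879925) (nat_lit 0) (nat_lit 0) (nat_lit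 0) (nat_lit 0) (nat_lit 0) (nat_lit 0) (nat_lit 1) (nat_lit 0) (nat_lit 1) (nat_lit 0) (nat_lit 346) (nat_lit 434) (nat_lit 300)) (XT.nd (nat_lit 94) (nat_lit 0) (nat_lit 0) (XT.lf (nat_lit 0) (nat_lit 319353094435) (nat_lit 0) (nat_lit 0) (nat_lit 0) (nat_lit 0) (nat_lit 0) (nat_lit 0) (nat_lit 1) (nat_lit 0) (nat_lit 1) (nat_lit 0) (nat_lit 347) (nat_lit 434) (nat_lit 299)) (XT.lf (nat_lit 0) (nat_lit 319352367129) (nat_lit 0) (nat_lit 0) (nat_lit 0) (nat_lit 0) (nat_lit 0) (nat_lit 0) (nat_lit 1) (nat_lit 0) (nat_lit 1) (nat_lit 0) (nat_lit 348) (nat_lit 434) (nat_lit 298)))))) (XT.nd (nat_lit 470) (nat_lit 0) (nat_lit 0) (XT.nd (nat_lit 188) (nat_lit 0) (nat_lit 0) (XT.nd (nat_lit 94) (nat_lit 0) (nat_lit 0) (XT.lf (nat_lit 0) (nat_lit 319351693698) (nat_lit 0) (nat_lit 0) (nat_lit 0) (nat_lit 0) (nat_lit 0) (nat_lit 0) (nat_lit 1) (nat_lit 0) (nat_lit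 1) (nat_lit 0) (nat_lit 349) (nat_lit 434) (nat_lit 297)) (XT.lf (nat_lit 0) (nat_lit 319351070150) (nat_lit 0) (nat_lit 0) (nat_lit 0) (nat_lit 0) (nat_lit 0) (nat_lit 0) (nat_lit 1) (nat_lit 0) (nat_lit 1) (nat_lit 0) (nat_lit 350) (nat_lit 434) (nat_lit 296))) (XT.nd (nat_lit 94) (nat_lit 0) (nat_lit 0) (XT.lf (nat_lit 0) (nat_lit 319350492792) (nat_lit 0) (nat_lit 0) (nat_lit 0) (nat_lit 0) (nat_lit 0) (nat_lit 0) (nat_lit 1) (nat_lit 0) (nat_lit 1) (nat_lit 0) (nat_lit 351) (nat_lit 434) (nat_lit 295)) (XT.nd (nat_lit 94) (nat_lit 0) (nat_lit 0) (XT.lf (nat_lit 0) (nat_lit 319349958200) (nat_lit 0) (nat_lit 0) (nat_lit 0) (nat_lit 0) (nat_lit 0) (nat_lit 0) (nat_lit 1) (nat_lit 0) (nat_lit 1) (nat_lit 0) (nat_lit 352) (nat_lit 434) (nat_lit 294)) (XT.lf (nat_lit 0) (nat_lit 319349463208) (nat_lit 0) (nat_lit 0) (nat_lit 0) (nat_lit 0) (nat_lit 0) (nat_lit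 0) (nat_lit 1) (nat_lit 0) (nat_lit 1) (nat_lit 0) (nat_lit 353) (nat_lit 434) (nat_lit 293))))) (XT.nd (nat_lit 188) (nat_lit 0) (nat_lit 0) (XT.nd (nat_lit 94) (nat_lit 0) (nat_lit 0) (XT.lf (nat_lit 0) (nat_lit 319349004882) (nat_lit 0) (nat_lit 0) (nat_lit 0) (nat_lit 0) (nat_lit 0) (nat_lit 0) (nat_lit 1) (nat_lit 0) (nat_lit 1) (nat_lit 0) (nat_lit 354) (nat_lit 434) (nat_lit 292)) (XT.lf (nat_lit 0) (nat_lit 319348580506) (nat_lit 0) (nat_lit 0) (nat_lit 0) (nat_lit 0) (nat_lit 0) (nat_lit 0) (nat_lit 1) (nat_lit 0) (nat_lit 1) (nat_lit 0) (nat_lit 355) (nat_lit 434) (nat_lit 291))) (XT.nd (nat_lit 94) (nat_lit 0) (nat_lit 0) (XT.lf (nat_lit 0) (nat_lit 319348187566) (nat_lit 0) (nat_lit 0) (nat_lit 0) (nat_lit 0) (nat_lit 0) (nat_lit 0) (nat_lit 1) (nat_lit 0) (nat_lit 1) (nat_lit 0) (nat_lit 356) (nat_lit 434) (nat_lit 290)) (XT.nd (nat_lit 94) (nat_lit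 0) (nat_lit 0) (XT.lf (nat_lit 0) (nat_lit 319347823732) (nat_lit 0) (nat_lit 0) (nat_lit 0) (nat_lit 0) (nat_lit 0) (nat_lit 0) (nat_lit 1) (nat_lit 0) (nat_lit 1) (nat_lit 0) (nat_lit 357) (nat_lit 434) (nat_lit 289)) (XT.lf (nat_lit 0) (nat_lit 319347486848) (nat_lit 0) (nat_lit 0) (nat_lit 0) (nat_lit 0) (nat_lit 0) (nat_lit 0) (nat_lit 1) (nat_lit 0) (nat_lit 1) (nat_lit 0) (nat_lit 358) (nat_lit 434) (nat_lit 288))))))) (XT.nd (nat_lit 846) (nat_lit 0) (nat_lit 0) (XT.nd (nat_lit 376) (nat_lit 0) (nat_lit 0) (XT.nd (nat_lit 188) (nat_lit 0) (nat_lit 0) (XT.nd (nat_lit 94) (nat_lit 0) (nat_lit 0) (XT.lf (nat_lit 0) (nat_lit 319347174919) (nat_lit 0) (nat_lit 0) (nat_lit 0) (nat_lit 0) (nat_lit 0) (nat_lit 0) (nat_lit 1) (nat_lit 0) (nat_lit 1) (nat_lit 0) (nat_lit 359) (nat_lit 434) (nat_lit 287)) (XT.lf (nat_lit 0) (nat_lit 319346886096) (nat_lit 0)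 (nat_lit 0) (nat_lit 0) (nat_lit 0) (nat_lit 0) (nat_lit 0) (nat_lit 1) (nat_lit 0) (nat_lit 1) (nat_lit 0) (nat_lit 360) (nat_lit 434) (nat_lit 286))) (XT.nd (nat_lit 94) (nat_lit 0) (nat_lit 0) (XT.lf (nat_lit 0) (nat_lit 319346618667) (nat_lit 0) (nat_lit 0) (nat_lit 0) (nat_lit 0) (nat_lit 0) (nat_lit 0) (nat_lit 1) (nat_lit 0) (nat_lit 1) (nat_lit 0) (nat_lit 361) (nat_lit 434) (nat_lit 285)) (XT.lf (nat_lit 0) (nat_lit 319346371048) (nat_lit 0) (nat_lit 0) (nat_lit 0) (nat_lit 0) (nat_lit 0) (nat_lit 0) (nat_lit 1) (nat_lit 0) (nat_lit 1) (nat_lit 0) (nat_lit 362) (nat_lit 434) (nat_lit 284)))) (XT.nd (nat_lit 188) (nat_lit 0) (nat_lit 0) (XT.nd (nat_lit 94) (nat_lit 0) (nat_lit 0) (XT.lf (nat_lit 0) (nat_lit 319346141771) (nat_lit 0) (nat_lit 0) (nat_lit 0) (nat_lit 0) (nat_lit 0) (nat_lit 0) (nat_lit 1) (nat_lit 0) (nat_lit 1) (nat_lit 0) (nat_lit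 363) (nat_lit 434) (nat_lit 283)) (XT.lf (nat_lit 0) (nat_lit 319345929477) (nat_lit 0) (nat_lit 0) (nat_lit 0) (nat_lit 0) (nat_lit 0) (nat_lit 0) (nat_lit 1) (nat_lit 0) (nat_lit 1) (nat_lit 0) (nat_lit 364) (nat_lit 434) (nat_lit 282))) (XT.nd (nat_lit 94) (nat_lit 0) (nat_lit 0) (XT.lf (nat_lit 0) (nat_lit 319345732909) (nat_lit 0) (nat_lit 0) (nat_lit 0) (nat_lit 0) (nat_lit 0) (nat_lit 0) (nat_lit 1) (nat_lit 0) (nat_lit 1) (nat_lit 0) (nat_lit 365) (nat_lit 434) (nat_lit 281)) (XT.nd (nat_lit 94) (nat_lit 0) (nat_lit 0) (XT.lf (nat_lit 0) (nat_lit 319345550902) (nat_lit 0) (nat_lit 0) (nat_lit 0) (nat_lit 0) (nat_lit 0) (nat_lit 0) (nat_lit 1) (nat_lit 0) (nat_lit 1) (nat_lit 0) (nat_lit 366) (nat_lit 434) (nat_lit 280)) (XT.lf (nat_lit 0) (nat_lit 319345382376) (nat_lit 0) (nat_lit 0) (nat_lit 0) (nat_lit 0) (nat_lit 0) (nat_lit 0) (nat_lit 1) (nat_lit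 0) (nat_lit 1) (nat_lit 0) (nat_lit 367) (nat_lit 434) (nat_lit 279)))))) (XT.nd (nat_lit 470) (nat_lit 0) (nat_lit 0) (XT.nd (nat_lit 188) (nat_lit 0) (nat_lit 0) (XT.nd (nat_lit 94) (nat_lit 0) (nat_lit 0) (XT.lf (nat_lit 0) (nat_lit 319345226334) (nat_lit 0) (nat_lit 0) (nat_lit 0) (nat_lit 0) (nat_lit 0) (nat_lit 0) (nat_lit 1) (nat_lit 0) (nat_lit 1) (nat_lit 0) (nat_lit 368) (nat_lit 434) (nat_lit 278)) (XT.lf (nat_lit 0) (nat_lit 319345081851) (nat_lit 0) (nat_lit 0) (nat_lit 0) (nat_lit 0) (nat_lit 0) (nat_lit 0) (nat_lit 1) (nat_lit 0) (nat_lit 1) (nat_lit 0) (nat_lit 369) (nat_lit 434) (nat_lit 277))) (XT.nd (nat_lit 94) (nat_lit 0) (nat_lit 0) (XT.lf (nat_lit 0) (nat_lit 319344948070) (nat_lit 0) (nat_lit 0) (nat_lit 0) (nat_lit 0) (nat_lit 0) (nat_lit 0) (nat_lit 1) (nat_lit 0) (nat_lit 1) (nat_lit 0) (nat_lit 370) (nat_lit 434) (nat_lit 276))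 (XT.nd (nat_lit 94) (nat_lit 0) (nat_lit 0) (XT.lf (nat_lit 0) (nat_lit 319344824198) (nat_lit 0) (nat_lit 0) (nat_lit 0) (nat_lit 0) (nat_lit 0) (nat_lit 0) (nat_lit 1) (nat_lit 0) (nat_lit 1) (nat_lit 0) (nat_lit 371) (nat_lit 434) (nat_lit 275)) (XT.lf (nat_lit 0) (nat_lit 319344709503) (nat_lit 0) (nat_lit 0) (nat_lit 0) (nat_lit 0) (nat_lit 0) (nat_lit 0) (nat_lit 1) (nat_lit 0) (nat_lit 1) (nat_lit 0) (nat_lit 372) (nat_lit 434) (nat_lit 274))))) (XT.nd (nat_lit 188) (nat_lit 0) (nat_lit 0) (XT.nd (nat_lit 94) (nat_lit 0) (nat_lit 0) (XT.lf (nat_lit 0) (nat_lit 319344603303) (nat_lit 0) (nat_lit 0) (nat_lit 0) (nat_lit 0) (nat_lit 0) (nat_lit 0) (nat_lit 1) (nat_lit 0) (nat_lit 1) (nat_lit 0) (nat_lit 373) (nat_lit 434) (nat_lit 273)) (XT.lf (nat_lit 0) (nat_lit 319344504970) (nat_lit 0) (nat_lit 0) (nat_lit 0) (nat_lit 0) (nat_lit 0) (nat_lit 0) (nat_lit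 1) (nat_lit 0) (nat_lit 1) (nat_lit 0) (nat_lit 374) (nat_lit 434) (nat_lit 272))) (XT.nd (nat_lit 94) (nat_lit 0) (nat_lit 0) (XT.lf (nat_lit 0) (nat_lit 319344413921) (nat_lit 0) (nat_lit 0) (nat_lit 0) (nat_lit 0) (nat_lit 0) (nat_lit 0) (nat_lit 1) (nat_lit 0) (nat_lit 1) (nat_lit 0) (nat_lit 375) (nat_lit 434) (nat_lit 271)) (XT.nd (nat_lit 94) (nat_lit 0) (nat_lit 0) (XT.lf (nat_lit 0) (nat_lit 319344329616) (nat_lit 0) (nat_lit 0) (nat_lit 0) (nat_lit 0) (nat_lit 0) (nat_lit 0) (nat_lit 1) (nat_lit 0) (nat_lit 1) (nat_lit 0) (nat_lit 376) (nat_lit 434) (nat_lit 270)) (XT.lf (nat_lit 0) (nat_lit 319344251556) (nat_lit 0) (nat_lit 0) (nat_lit 0) (nat_lit 0) (nat_lit 0) (nat_lit 0) (nat_lit 1) (nat_lit 0) (nat_lit 1) (nat_lit 0) (nat_lit 377) (nat_lit 434) (nat_lit 269))))))))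
noncomputable def ec332 : XT := (XT.nd (nat_lit 1692) (nat_lit 0) (nat_lit 0) (XT.nd (nat_lit 846) (nat_lit 0) (nat_lit 0) (XT.nd (nat_lit 376) (nat_lit 0) (nat_lit 0) (XT.nd (nat_lit 188) (nat_lit 0) (nat_lit 0) (XT.nd (nat_lit 94) (nat_lit 0) (nat_lit 0) (XT.lf (nat_lit 0) (nat_lit 319344179279) (nat_lit 0) (nat_lit 0) (nat_lit 0) (nat_lit 0) (nat_lit 0) (nat_lit 0) (nat_lit 1) (nat_lit 0) (nat_lit 1) (nat_lit 0) (nat_lit 378) (nat_lit 434) (nat_lit 268)) (XT.lf (nat_lit 0) (nat_lit 319344112355) (nat_lit 0) (nat_lit 0) (nat_lit 0) (nat_lit 0) (nat_lit 0) (nat_lit 0) (nat_lit 1) (nat_lit 0) (nat_lit 1) (nat_lit 0) (nat_lit 379) (nat_lit 434) (nat_lit 267))) (XT.nd (nat_lit 94) (nat_lit 0) (nat_lit 0) (XT.lf (nat_lit 0) (nat_lit 319344050388) (nat_lit 0) (nat_lit 0) (nat_lit 0) (nat_lit 0) (nat_lit 0) (nat_lit 0) (nat_lit 1) (nat_lit 0) (nat_lit 1) (nat_lit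 0) (nat_lit 380) (nat_lit 434) (nat_lit 266)) (XT.lf (nat_lit 0) (nat_lit 319343993012) (nat_lit 0) (nat_lit 0) (nat_lit 0) (nat_lit 0) (nat_lit 0) (nat_lit 0) (nat_lit 1) (nat_lit 0) (nat_lit 1) (nat_lit 0) (nat_lit 381) (nat_lit 434) (nat_lit 265)))) (XT.nd (nat_lit 188) (nat_lit 0) (nat_lit 0) (XT.nd (nat_lit 94) (nat_lit 0) (nat_lit 0) (XT.lf (nat_lit 0) (nat_lit 319343939886) (nat_lit 0) (nat_lit 0) (nat_lit 0) (nat_lit 0) (nat_lit 0) (nat_lit 0) (nat_lit 1) (nat_lit 0) (nat_lit 1) (nat_lit 0) (nat_lit 382) (nat_lit 434) (nat_lit 264)) (XT.lf (nat_lit 0) (nat_lit 319343890695) (nat_lit 0) (nat_lit 0) (nat_lit 0) (nat_lit 0) (nat_lit 0) (nat_lit 0) (nat_lit 1) (nat_lit 0) (nat_lit 1) (nat_lit 0) (nat_lit 383) (nat_lit 434) (nat_lit 263))) (XT.nd (nat_lit 94) (nat_lit 0) (nat_lit 0) (XT.lf (nat_lit 0) (nat_lit 319343845147) (nat_lit 0) (nat_lit 0) (nat_lit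 0) (nat_lit 0) (nat_lit 0) (nat_lit 0) (nat_lit 1) (nat_lit 0) (nat_lit 1) (nat_lit 0) (nat_lit 384) (nat_lit 434) (nat_lit 262)) (XT.nd (nat_lit 94) (nat_lit 0) (nat_lit 0) (XT.lf (nat_lit 0) (nat_lit 319343802974) (nat_lit 0) (nat_lit 0) (nat_lit 0) (nat_lit 0) (nat_lit 0) (nat_lit 0) (nat_lit 1) (nat_lit 0) (nat_lit 1) (nat_lit 0) (nat_lit 385) (nat_lit 434) (nat_lit 261)) (XT.lf (nat_lit 0) (nat_lit 319343763925) (nat_lit 0) (nat_lit 0) (nat_lit 0) (nat_lit 0) (nat_lit 0) (nat_lit 0) (nat_lit 1) (nat_lit 0) (nat_lit 1) (nat_lit 0) (nat_lit 386) (nat_lit 434) (nat_lit 260)))))) (XT.nd (nat_lit 376) (nat_lit 0) (nat_lit 0) (XT.nd (nat_lit 188) (nat_lit 0) (nat_lit 0) (XT.nd (nat_lit 94) (nat_lit 0) (nat_lit 0) (XT.lf (nat_lit 0) (nat_lit 319343727768) (nat_lit 0) (nat_lit 0) (nat_lit 0) (nat_lit 0) (nat_lit 0) (nat_lit 0) (nat_lit 1) (nat_lit 0) (nat_lit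 1) (nat_lit 0) (nat_lit 387) (nat_lit 434) (nat_lit 259)) (XT.lf (nat_lit 0) (nat_lit 319343694289) (nat_lit 0) (nat_lit 0) (nat_lit 0) (nat_lit 0) (nat_lit 0) (nat_lit 0) (nat_lit 1) (nat_lit 0) (nat_lit 1) (nat_lit 0) (nat_lit 388) (nat_lit 434) (nat_lit 258))) (XT.nd (nat_lit 94) (nat_lit 0) (nat_lit 0) (XT.lf (nat_lit 0) (nat_lit 319343663291) (nat_lit 0) (nat_lit 0) (nat_lit 0) (nat_lit 0) (nat_lit 0) (nat_lit 0) (nat_lit 1) (nat_lit 0) (nat_lit 1) (nat_lit 0) (nat_lit 389) (nat_lit 434) (nat_lit 257)) (XT.lf (nat_lit 0) (nat_lit 319343634588) (nat_lit 0) (nat_lit 0) (nat_lit 0) (nat_lit 0) (nat_lit 0) (nat_lit 0) (nat_lit 1) (nat_lit 0) (nat_lit 1) (nat_lit 0) (nat_lit 390) (nat_lit 434) (nat_lit 256)))) (XT.nd (nat_lit 188) (nat_lit 0) (nat_lit 0) (XT.nd (nat_lit 94) (nat_lit 0) (nat_lit 0) (XT.lf (nat_lit 0) (nat_lit 319343608012) (nat_lit 0) (nat_lit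 0) (nat_lit 0) (nat_lit 0) (nat_lit 0) (nat_lit 0) (nat_lit 1) (nat_lit 0) (nat_lit 1) (nat_lit 0) (nat_lit 391) (nat_lit 434) (nat_lit 255)) (XT.lf (nat_lit 0) (nat_lit 319343583404) (nat_lit 0) (nat_lit 0) (nat_lit 0) (nat_lit 0) (nat_lit 0) (nat_lit 0) (nat_lit 1) (nat_lit 0) (nat_lit 1) (nat_lit 0) (nat_lit 392) (nat_lit 434) (nat_lit 254))) (XT.nd (nat_lit 94) (nat_lit 0) (nat_lit 0) (XT.lf (nat_lit 0) (nat_lit 319343560619) (nat_lit 0) (nat_lit 0) (nat_lit 0) (nat_lit 0) (nat_lit 0) (nat_lit 0) (nat_lit 1) (nat_lit 0) (nat_lit 1) (nat_lit 0) (nat_lit 393) (nat_lit 434) (nat_lit 253)) (XT.nd (nat_lit 94) (nat_lit 0) (nat_lit 0) (XT.lf (nat_lit 0) (nat_lit 319343539522) (nat_lit 0) (nat_lit 0) (nat_lit 0) (nat_lit 0) (nat_lit 0) (nat_lit 0) (nat_lit 1) (nat_lit 0) (nat_lit 1) (nat_lit 0) (nat_lit 394) (nat_lit 434) (nat_lit 252)) (XT.lf (nat_lit 0) (nat_lit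 319343519988) (nat_lit 0) (nat_lit 0) (nat_lit 0) (nat_lit 0) (nat_lit 0) (nat_lit 0) (nat_lit 1) (nat_lit 0) (nat_lit 1) (nat_lit 0) (nat_lit 395) (nat_lit 434) (nat_lit 251))))))) (XT.nd (nat_lit 846) (nat_lit 0) (nat_lit 0) (XT.nd (nat_lit 376) (nat_lit 0) (nat_lit 0) (XT.nd (nat_lit 188) (nat_lit 0) (nat_lit 0) (XT.nd (nat_lit 94) (nat_lit 0) (nat_lit 0) (XT.lf (nat_lit 0) (nat_lit 319343501900) (nat_lit 0) (nat_lit 0) (nat_lit 0) (nat_lit 0) (nat_lit 0) (nat_lit 0) (nat_lit 1) (nat_lit 0) (nat_lit 1) (nat_lit 0) (nat_lit 396) (nat_lit 434) (nat_lit 250)) (XT.lf (nat_lit 0) (nat_lit 319343485152) (nat_lit 0) (nat_lit 0) (nat_lit 0) (nat_lit 0) (nat_lit 0) (nat_lit 0) (nat_lit 1) (nat_lit 0) (nat_lit 1) (nat_lit 0) (nat_lit 397) (nat_lit 434) (nat_lit 249))) (XT.nd (nat_lit 94) (nat_lit 0) (nat_lit 0) (XT.lf (nat_lit 0) (nat_lit 319343469645) (nat_lit 0)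 (nat_lit 0) (nat_lit 0) (nat_lit 0) (nat_lit 0) (nat_lit 0) (nat_lit 1) (nat_lit 0) (nat_lit 1) (nat_lit 0) (nat_lit 398) (nat_lit 434) (nat_lit 248)) (XT.lf (nat_lit 0) (nat_lit 319343455287) (nat_lit 0) (nat_lit 0) (nat_lit 0) (nat_lit 0) (nat_lit 0) (nat_lit 0) (nat_lit 1) (nat_lit 0) (nat_lit 1) (nat_lit 0) (nat_lit 399) (nat_lit 434) (nat_lit 247)))) (XT.nd (nat_lit 188) (nat_lit 0) (nat_lit 0) (XT.nd (nat_lit 94) (nat_lit 0) (nat_lit 0) (XT.lf (nat_lit 0) (nat_lit 319343441992) (nat_lit 0) (nat_lit 0) (nat_lit 0) (nat_lit 0) (nat_lit 0) (nat_lit 0) (nat_lit 1) (nat_lit 0) (nat_lit 1) (nat_lit 0) (nat_lit 400) (nat_lit 434) (nat_lit 246)) (XT.lf (nat_lit 0) (nat_lit 319343429682) (nat_lit 0) (nat_lit 0) (nat_lit 0) (nat_lit 0) (nat_lit 0) (nat_lit 0) (nat_lit 1) (nat_lit 0) (nat_lit 1) (nat_lit 0) (nat_lit 401) (nat_lit 434) (nat_lit 245))) (XT.nd (nat_lit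 94) (nat_lit 0) (nat_lit 0) (XT.lf (nat_lit 0) (nat_lit 319343418284) (nat_lit 0) (nat_lit 0) (nat_lit 0) (nat_lit 0) (nat_lit 0) (nat_lit 0) (nat_lit 1) (nat_lit 0) (nat_lit 1) (nat_lit 0) (nat_lit 402) (nat_lit 434) (nat_lit 244)) (XT.nd (nat_lit 94) (nat_lit 0) (nat_lit 0) (XT.lf (nat_lit 0) (nat_lit 319343407730) (nat_lit 0) (nat_lit 0) (nat_lit 0) (nat_lit 0) (nat_lit 0) (nat_lit 0) (nat_lit 1) (nat_lit 0) (nat_lit 1) (nat_lit 0) (nat_lit 403) (nat_lit 434) (nat_lit 243)) (XT.lf (nat_lit 0) (nat_lit 319343397958) (nat_lit 0) (nat_lit 0) (nat_lit 0) (nat_lit 0) (nat_lit 0) (nat_lit 0) (nat_lit 1) (nat_lit 0) (nat_lit 1) (nat_lit 0) (nat_lit 404) (nat_lit 434) (nat_lit 242)))))) (XT.nd (nat_lit 470) (nat_lit 0) (nat_lit 0) (XT.nd (nat_lit 188) (nat_lit 0) (nat_lit 0) (XT.nd (nat_lit 94) (nat_lit 0) (nat_lit 0) (XT.lf (nat_lit 0) (nat_lit 319343388910) (nat_lit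 0) (nat_lit 0) (nat_lit 0) (nat_lit 0) (nat_lit 0) (nat_lit 0) (nat_lit 1) (nat_lit 0) (nat_lit 1) (nat_lit 0) (nat_lit 405) (nat_lit 434) (nat_lit 241)) (XT.lf (nat_lit 0) (nat_lit 319343380532) (nat_lit 0) (nat_lit 0) (nat_lit 0) (nat_lit 0) (nat_lit 0) (nat_lit 0) (nat_lit 1) (nat_lit 0) (nat_lit 1) (nat_lit 0) (nat_lit 406) (nat_lit 434) (nat_lit 240))) (XT.nd (nat_lit 94) (nat_lit 0) (nat_lit 0) (XT.lf (nat_lit 0) (nat_lit 319343372775) (nat_lit 0) (nat_lit 0) (nat_lit 0) (nat_lit 0) (nat_lit 0) (nat_lit 0) (nat_lit 1) (nat_lit 0) (nat_lit 1) (nat_lit 0) (nat_lit 407) (nat_lit 434) (nat_lit 239)) (XT.nd (nat_lit 94) (nat_lit 0) (nat_lit 0) (XT.lf (nat_lit 0) (nat_lit 319343365592) (nat_lit 0) (nat_lit 0) (nat_lit 0) (nat_lit 0) (nat_lit 0) (nat_lit 0) (nat_lit 1) (nat_lit 0) (nat_lit 1) (nat_lit 0) (nat_lit 408) (nat_lit 434) (nat_lit 238)) (XT.lf (nat_lit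 0) (nat_lit 319343358941) (nat_lit 0) (nat_lit 0) (nat_lit 0) (nat_lit 0) (nat_lit 0) (nat_lit 0) (nat_lit 1) (nat_lit 0) (nat_lit 1) (nat_lit 0) (nat_lit 409) (nat_lit 434) (nat_lit 237))))) (XT.nd (nat_lit 188) (nat_lit 0) (nat_lit 0) (XT.nd (nat_lit 94) (nat_lit 0) (nat_lit 0) (XT.lf (nat_lit 0) (nat_lit 319343352783) (nat_lit 0) (nat_lit 0) (nat_lit 0) (nat_lit 0) (nat_lit 0) (nat_lit 0) (nat_lit 1) (nat_lit 0) (nat_lit 1) (nat_lit 0) (nat_lit 410) (nat_lit 434) (nat_lit 236)) (XT.lf (nat_lit 0) (nat_lit 319343347081) (nat_lit 0) (nat_lit 0) (nat_lit 0) (nat_lit 0) (nat_lit 0) (nat_lit 0) (nat_lit 1) (nat_lit 0) (nat_lit 1) (nat_lit 0) (nat_lit 411) (nat_lit 434) (nat_lit 235))) (XT.nd (nat_lit 94) (nat_lit 0) (nat_lit 0) (XT.lf (nat_lit 0) (nat_lit 319343341802) (nat_lit 0) (nat_lit 0) (nat_lit 0) (nat_lit 0) (nat_lit 0) (nat_lit 0) (nat_lit 1) (nat_lit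 0) (nat_lit 1) (nat_lit 0) (nat_lit 412) (nat_lit 434) (nat_lit 234)) (XT.nd (nat_lit 94) (nat_lit 0) (nat_lit 0) (XT.lf (nat_lit 0) (nat_lit 319343336913) (nat_lit 0) (nat_lit 0) (nat_lit 0) (nat_lit 0) (nat_lit 0) (nat_lit 0) (nat_lit 1) (nat_lit 0) (nat_lit 1) (nat_lit 0) (nat_lit 413) (nat_lit 434) (nat_lit 233)) (XT.lf (nat_lit 0) (nat_lit 319343332387) (nat_lit 0) (nat_lit 0) (nat_lit 0) (nat_lit 0) (nat_lit 0) (nat_lit 0) (nat_lit 1) (nat_lit 0) (nat_lit 1) (nat_lit 0) (nat_lit 414) (nat_lit 434) (nat_lit 232))))))))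
noncomputable def ec333 : XT := (XT.nd (nat_lit 1786) (nat_lit 0) (nat_lit 0) (XT.nd (nat_lit 846) (nat_lit 0) (nat_lit 0) (XT.nd (nat_lit 376) (nat_lit 0) (nat_lit 0) (XT.nd (nat_lit 188) (nat_lit 0) (nat_lit 0) (XT.nd (nat_lit 94) (nat_lit 0) (nat_lit 0) (XT.lf (nat_lit 0) (nat_lit 319343328196) (nat_lit 0) (nat_lit 0) (nat_lit 0) (nat_lit 0) (nat_lit 0) (nat_lit 0) (nat_lit 1) (nat_lit 0) (nat_lit 1) (nat_lit 0) (nat_lit 415) (nat_lit 434) (nat_lit 231)) (XT.lf (nat_lit 0) (nat_lit 319343324315) (nat_lit 0) (nat_lit 0) (nat_lit 0) (nat_lit 0) (nat_lit 0) (nat_lit 0) (nat_lit 1) (nat_lit 0) (nat_lit 1) (nat_lit 0) (nat_lit 416) (nat_lit 434) (nat_lit 230))) (XT.nd (nat_lit 94) (nat_lit 0) (nat_lit 0) (XT.lf (nat_lit 0) (nat_lit 319343320722) (nat_lit 0) (nat_lit 0) (nat_lit 0) (nat_lit 0) (nat_lit 0) (nat_lit 0) (nat_lit 1) (nat_lit 0) (nat_lit 1) (nat_lit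 0) (nat_lit 417) (nat_lit 434) (nat_lit 229)) (XT.lf (nat_lit 0) (nat_lit 319343317395) (nat_lit 0) (nat_lit 0) (nat_lit 0) (nat_lit 0) (nat_lit 0) (nat_lit 0) (nat_lit 1) (nat_lit 0) (nat_lit 1) (nat_lit 0) (nat_lit 418) (nat_lit 434) (nat_lit 228)))) (XT.nd (nat_lit 188) (nat_lit 0) (nat_lit 0) (XT.nd (nat_lit 94) (nat_lit 0) (nat_lit 0) (XT.lf (nat_lit 0) (nat_lit 319343314314) (nat_lit 0) (nat_lit 0) (nat_lit 0) (nat_lit 0) (nat_lit 0) (nat_lit 0) (nat_lit 1) (nat_lit 0) (nat_lit 1) (nat_lit 0) (nat_lit 419) (nat_lit 434) (nat_lit 227)) (XT.lf (nat_lit 0) (nat_lit 319343311462) (nat_lit 0) (nat_lit 0) (nat_lit 0) (nat_lit 0) (nat_lit 0) (nat_lit 0) (nat_lit 1) (nat_lit 0) (nat_lit 1) (nat_lit 0) (nat_lit 420) (nat_lit 434) (nat_lit 226))) (XT.nd (nat_lit 94) (nat_lit 0) (nat_lit 0) (XT.lf (nat_lit 0) (nat_lit 319343308821) (nat_lit 0) (nat_lit 0) (nat_lit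 0) (nat_lit 0) (nat_lit 0) (nat_lit 0) (nat_lit 1) (nat_lit 0) (nat_lit 1) (nat_lit 0) (nat_lit 421) (nat_lit 434) (nat_lit 225)) (XT.nd (nat_lit 94) (nat_lit 0) (nat_lit 0) (XT.lf (nat_lit 0) (nat_lit 319343306375) (nat_lit 0) (nat_lit 0) (nat_lit 0) (nat_lit 0) (nat_lit 0) (nat_lit 0) (nat_lit 1) (nat_lit 0) (nat_lit 1) (nat_lit 0) (nat_lit 422) (nat_lit 434) (nat_lit 224)) (XT.lf (nat_lit 0) (nat_lit 319343304111) (nat_lit 0) (nat_lit 0) (nat_lit 0) (nat_lit 0) (nat_lit 0) (nat_lit 0) (nat_lit 1) (nat_lit 0) (nat_lit 1) (nat_lit 0) (nat_lit 423) (nat_lit 434) (nat_lit 223)))))) (XT.nd (nat_lit 470) (nat_lit 0) (nat_lit 0) (XT.nd (nat_lit 188) (nat_lit 0) (nat_lit 0) (XT.nd (nat_lit 94) (nat_lit 0) (nat_lit 0) (XT.lf (nat_lit 0) (nat_lit 319343302015) (nat_lit 0) (nat_lit 0) (nat_lit 0) (nat_lit 0) (nat_lit 0) (nat_lit 0) (nat_lit 1) (nat_lit 0) (nat_lit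 1) (nat_lit 0) (nat_lit 424) (nat_lit 434) (nat_lit 222)) (XT.lf (nat_lit 0) (nat_lit 319343300073) (nat_lit 0) (nat_lit 0) (nat_lit 0) (nat_lit 0) (nat_lit 0) (nat_lit 0) (nat_lit 1) (nat_lit 0) (nat_lit 1) (nat_lit 0) (nat_lit 425) (nat_lit 434) (nat_lit 221))) (XT.nd (nat_lit 94) (nat_lit 0) (nat_lit 0) (XT.lf (nat_lit 0) (nat_lit 319343298276) (nat_lit 0) (nat_lit 0) (nat_lit 0) (nat_lit 0) (nat_lit 0) (nat_lit 0) (nat_lit 1) (nat_lit 0) (nat_lit 1) (nat_lit 0) (nat_lit 426) (nat_lit 434) (nat_lit 220)) (XT.nd (nat_lit 94) (nat_lit 0) (nat_lit 0) (XT.lf (nat_lit 0) (nat_lit 319343296611) (nat_lit 0) (nat_lit 0) (nat_lit 0) (nat_lit 0) (nat_lit 0) (nat_lit 0) (nat_lit 1) (nat_lit 0) (nat_lit 1) (nat_lit 0) (nat_lit 427) (nat_lit 434) (nat_lit 219)) (XT.lf (nat_lit 0) (nat_lit 319343295070) (nat_lit 0) (nat_lit 0) (nat_lit 0) (nat_lit 0) (nat_lit 0) (nat_lit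 0) (nat_lit 1) (nat_lit 0) (nat_lit 1) (nat_lit 0) (nat_lit 428) (nat_lit 434) (nat_lit 218))))) (XT.nd (nat_lit 188) (nat_lit 0) (nat_lit 0) (XT.nd (nat_lit 94) (nat_lit 0) (nat_lit 0) (XT.lf (nat_lit 0) (nat_lit 319343293643) (nat_lit 0) (nat_lit 0) (nat_lit 0) (nat_lit 0) (nat_lit 0) (nat_lit 0) (nat_lit 1) (nat_lit 0) (nat_lit 1) (nat_lit 0) (nat_lit 429) (nat_lit 434) (nat_lit 217)) (XT.lf (nat_lit 0) (nat_lit 319343292322) (nat_lit 0) (nat_lit 0) (nat_lit 0) (nat_lit 0) (nat_lit 0) (nat_lit 0) (nat_lit 1) (nat_lit 0) (nat_lit 1) (nat_lit 0) (nat_lit 430) (nat_lit 434) (nat_lit 216))) (XT.nd (nat_lit 94) (nat_lit 0) (nat_lit 0) (XT.lf (nat_lit 0) (nat_lit 319343291099) (nat_lit 0) (nat_lit 0) (nat_lit 0) (nat_lit 0) (nat_lit 0) (nat_lit 0) (nat_lit 1) (nat_lit 0) (nat_lit 1) (nat_lit 0) (nat_lit 431) (nat_lit 434) (nat_lit 215)) (XT.nd (nat_lit 94) (nat_lit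 0) (nat_lit 0) (XT.lf (nat_lit 0) (nat_lit 319343289966) (nat_lit 0) (nat_lit 0) (nat_lit 0) (nat_lit 0) (nat_lit 0) (nat_lit 0) (nat_lit 1) (nat_lit 0) (nat_lit 1) (nat_lit 0) (nat_lit 432) (nat_lit 434) (nat_lit 214)) (XT.lf (nat_lit 0) (nat_lit 319343288917) (nat_lit 0) (nat_lit 0) (nat_lit 0) (nat_lit 0) (nat_lit 0) (nat_lit 0) (nat_lit 1) (nat_lit 0) (nat_lit 1) (nat_lit 0) (nat_lit 433) (nat_lit 434) (nat_lit 213))))))) (XT.nd (nat_lit 846) (nat_lit 0) (nat_lit 0) (XT.nd (nat_lit 376) (nat_lit 0) (nat_lit 0) (XT.nd (nat_lit 188) (nat_lit 0) (nat_lit 0) (XT.nd (nat_lit 94) (nat_lit 0) (nat_lit 0) (XT.lf (nat_lit 0) (nat_lit 319343287946) (nat_lit 0) (nat_lit 0) (nat_lit 0) (nat_lit 0) (nat_lit 0) (nat_lit 0) (nat_lit 1) (nat_lit 0) (nat_lit 1) (nat_lit 0) (nat_lit 434) (nat_lit 434) (nat_lit 212)) (XT.lf (nat_lit 0) (nat_lit 319343287047) (nat_lit 0)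 (nat_lit 0) (nat_lit 0) (nat_lit 0) (nat_lit 0) (nat_lit 0) (nat_lit 1) (nat_lit 0) (nat_lit 1) (nat_lit 0) (nat_lit 435) (nat_lit 434) (nat_lit 211))) (XT.nd (nat_lit 94) (nat_lit 0) (nat_lit 0) (XT.lf (nat_lit 0) (nat_lit 319343286215) (nat_lit 0) (nat_lit 0) (nat_lit 0) (nat_lit 0) (nat_lit 0) (nat_lit 0) (nat_lit 1) (nat_lit 0) (nat_lit 1) (nat_lit 0) (nat_lit 436) (nat_lit 434) (nat_lit 210)) (XT.lf (nat_lit 0) (nat_lit 319343285444) (nat_lit 0) (nat_lit 0) (nat_lit 0) (nat_lit 0) (nat_lit 0) (nat_lit 0) (nat_lit 1) (nat_lit 0) (nat_lit 1) (nat_lit 0) (nat_lit 437) (nat_lit 434) (nat_lit 209)))) (XT.nd (nat_lit 188) (nat_lit 0) (nat_lit 0) (XT.nd (nat_lit 94) (nat_lit 0) (nat_lit 0) (XT.lf (nat_lit 0) (nat_lit 319343284730) (nat_lit 0) (nat_lit 0) (nat_lit 0) (nat_lit 0) (nat_lit 0) (nat_lit 0) (nat_lit 1) (nat_lit 0) (nat_lit 1) (nat_lit 0) (nat_lit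 438) (nat_lit 434) (nat_lit 208)) (XT.lf (nat_lit 0) (nat_lit 319343284069) (nat_lit 0) (nat_lit 0) (nat_lit 0) (nat_lit 0) (nat_lit 0) (nat_lit 0) (nat_lit 1) (nat_lit 0) (nat_lit 1) (nat_lit 0) (nat_lit 439) (nat_lit 434) (nat_lit 207))) (XT.nd (nat_lit 94) (nat_lit 0) (nat_lit 0) (XT.lf (nat_lit 0) (nat_lit 319343283457) (nat_lit 0) (nat_lit 0) (nat_lit 0) (nat_lit 0) (nat_lit 0) (nat_lit 0) (nat_lit 1) (nat_lit 0) (nat_lit 1) (nat_lit 0) (nat_lit 440) (nat_lit 434) (nat_lit 206)) (XT.nd (nat_lit 94) (nat_lit 0) (nat_lit 0) (XT.lf (nat_lit 0) (nat_lit 319343282890) (nat_lit 0) (nat_lit 0) (nat_lit 0) (nat_lit 0) (nat_lit 0) (nat_lit 0) (nat_lit 1) (nat_lit 0) (nat_lit 1) (nat_lit 0) (nat_lit 441) (nat_lit 434) (nat_lit 205)) (XT.lf (nat_lit 0) (nat_lit 319343282366) (nat_lit 0) (nat_lit 0) (nat_lit 0) (nat_lit 0) (nat_lit 0) (nat_lit 0) (nat_lit 1) (nat_lit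 0) (nat_lit 1) (nat_lit 0) (nat_lit 442) (nat_lit 434) (nat_lit 204)))))) (XT.nd (nat_lit 46060) (nat_lit 0) (nat_lit 10836) (XT.nd (nat_lit 188) (nat_lit 0) (nat_lit 0) (XT.nd (nat_lit 94) (nat_lit 0) (nat_lit 0) (XT.lf (nat_lit 0) (nat_lit 319343281880) (nat_lit 0) (nat_lit 0) (nat_lit 0) (nat_lit 0) (nat_lit 0) (nat_lit 0) (nat_lit 1) (nat_lit 0) (nat_lit 1) (nat_lit 0) (nat_lit 443) (nat_lit 434) (nat_lit 203)) (XT.lf (nat_lit 0) (nat_lit 319343281430) (nat_lit 0) (nat_lit 0) (nat_lit 0) (nat_lit 0) (nat_lit 0) (nat_lit 0) (nat_lit 1) (nat_lit 0) (nat_lit 1) (nat_lit 0) (nat_lit 444) (nat_lit 434) (nat_lit 202))) (XT.nd (nat_lit 45684) (nat_lit 0) (nat_lit 10752) (XT.lf (nat_lit 0) (nat_lit 319343281013) (nat_lit 0) (nat_lit 0) (nat_lit 0) (nat_lit 0) (nat_lit 0) (nat_lit 0) (nat_lit 1) (nat_lit 0) (nat_lit 1) (nat_lit 0) (nat_lit 445) (nat_lit 434) (nat_lit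 201)) (XT.nd (nat_lit 94) (nat_lit 0) (nat_lit 84) (XT.lf (nat_lit 924) (nat_lit 172596244010) (nat_lit 0) (nat_lit 306444234512) (nat_lit 924) (nat_lit 172596244010) (nat_lit 139) (nat_lit 1) (nat_lit 128) (nat_lit 0) (nat_lit 139) (nat_lit 0) (nat_lit 210) (nat_lit 435) (nat_lit 435)) (XT.lf (nat_lit 924) (nat_lit 64383694982) (nat_lit 0) (nat_lit 601642908324) (nat_lit 840) (nat_lit 588404754296) (nat_lit 140) (nat_lit 1) (nat_lit 129) (nat_lit 1) (nat_lit 139) (nat_lit 1) (nat_lit 211) (nat_lit 435) (nat_lit 434))))) (XT.nd (nat_lit 188) (nat_lit 0) (nat_lit 168) (XT.nd (nat_lit 94) (nat_lit 0) (nat_lit 84) (XT.lf (nat_lit 924) (nat_lit 591327075610) (nat_lit 84) (nat_lit 402920458505) (nat_lit 0) (nat_lit 213690631530) (nat_lit 140) (nat_lit 1) (nat_lit 130) (nat_lit 1) (nat_lit 129) (nat_lit 1) (nat_lit 212) (nat_lit 435) (nat_lit 433)) (XT.lf (nat_lit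 924) (nat_lit 510955035539) (nat_lit 84) (nat_lit 168861171379) (nat_lit 0) (nat_lit 483955404024) (nat_lit 141) (nat_lit 1) (nat_lit 131) (nat_lit 1) (nat_lit 130) (nat_lit 1) (nat_lit 213) (nat_lit 435) (nat_lit 432))) (XT.nd (nat_lit 94) (nat_lit 0) (nat_lit 84) (XT.lf (nat_lit 924) (nat_lit 378150166187) (nat_lit 0) (nat_lit 707501086552) (nat_lit 840) (nat_lit 36167354463) (nat_lit 142) (nat_lit 1) (nat_lit 131) (nat_lit 1) (nat_lit 141) (nat_lit 1) (nat_lit 214) (nat_lit 435) (nat_lit 431)) (XT.nd (nat_lit 94) (nat_lit 0) (nat_lit 0) (XT.lf (nat_lit 924) (nat_lit 90733424716) (nat_lit 0) (nat_lit 780216499348) (nat_lit 840) (nat_lit 210919228997) (nat_lit 143) (nat_lit 1) (nat_lit 132) (nat_lit 1) (nat_lit 142) (nat_lit 1) (nat_lit 215) (nat_lit 435) (nat_lit 430)) (XT.lf (nat_lit 924) (nat_lit 174352737897) (nat_lit 84) (nat_lit 678071673690) (nat_lit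 0) (nat_lit 191360192130) (nat_lit 143) (nat_lit 1) (nat_lit 133) (nat_lit 1) (nat_lit 132) (nat_lit 1) (nat_lit 216) (nat_lit 435) (nat_lit 429))))))))
noncomputable def ec334 : XT := (XT.nd (nat_lit 1692) (nat_lit 3192) (nat_lit 0) (XT.nd (nat_lit 846) (nat_lit 2436) (nat_lit 0) (XT.nd (nat_lit 376) (nat_lit 1428) (nat_lit 0) (XT.nd (nat_lit 188) (nat_lit 840) (nat_lit 0) (XT.nd (nat_lit 94) (nat_lit 588) (nat_lit 0) (XT.lf (nat_lit 924) (nat_lit 35808076588) (nat_lit 0) (nat_lit 506903428800) (nat_lit 840) (nat_lit 464825132958) (nat_lit 134) (nat_lit 1) (nat_lit 123) (nat_lit 1) (nat_lit 133) (nat_lit 1) (nat_lit 217) (nat_lit 435) (nat_lit 428)) (XT.lf (nat_lit 84) (nat_lit 247942581416) (nat_lit 0) (nat_lit 107445058840) (nat_lit 588) (nat_lit 617617338878) (nat_lit 117) (nat_lit 1) (nat_lit 116) (nat_lit 1) (nat_lit 123) (nat_lit 1) (nat_lit 218) (nat_lit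 435) (nat_lit 427))) (XT.nd (nat_lit 94) (nat_lit 420) (nat_lit 0) (XT.lf (nat_lit 504) (nat_lit 683298546643) (nat_lit 0) (nat_lit 222428407660) (nat_lit 420) (nat_lit 34388806188) (nat_lit 117) (nat_lit 1) (nat_lit 111) (nat_lit 1) (nat_lit 116) (nat_lit 1) (nat_lit 219) (nat_lit 435) (nat_lit 426)) (XT.lf (nat_lit 504) (nat_lit 493074738119) (nat_lit 0) (nat_lit 103674838952) (nat_lit 420) (nat_lit 311891142366) (nat_lit 112) (nat_lit 1) (nat_lit 106) (nat_lit 1) (nat_lit 111) (nat_lit 1) (nat_lit 220) (nat_lit 435) (nat_lit 425)))) (XT.nd (nat_lit 188) (nat_lit 1092) (nat_lit 0) (XT.nd (nat_lit 94) (nat_lit 0) (nat_lit 0) (XT.lf (nat_lit 420) (nat_lit 300029689501) (nat_lit 0) (nat_lit 1908822265) (nat_lit 336) (nat_lit 576753322922) (nat_lit 107) (nat_lit 1) (nat_lit 102) (nat_lit 1) (nat_lit 106) (nat_lit 1) (nat_lit 221) (nat_lit 435) (nat_lit 424))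 (XT.lf (nat_lit 84) (nat_lit 22134772554) (nat_lit 0) (nat_lit 746491786437) (nat_lit 420) (nat_lit 81494093121) (nat_lit 103) (nat_lit 1) (nat_lit 102) (nat_lit 1) (nat_lit 107) (nat_lit 1) (nat_lit 222) (nat_lit 435) (nat_lit 423))) (XT.nd (nat_lit 94) (nat_lit 672) (nat_lit 0) (XT.lf (nat_lit 84) (nat_lit 571525568459) (nat_lit 0) (nat_lit 94793630815) (nat_lit 420) (nat_lit 156331913043) (nat_lit 98) (nat_lit 1) (nat_lit 97) (nat_lit 1) (nat_lit 102) (nat_lit 1) (nat_lit 223) (nat_lit 435) (nat_lit 422)) (XT.nd (nat_lit 94) (nat_lit 336) (nat_lit 0) (XT.lf (nat_lit 84) (nat_lit 285948724728) (nat_lit 0) (nat_lit 290369718595) (nat_lit 420) (nat_lit 220076873526) (nat_lit 94) (nat_lit 1) (nat_lit 93) (nat_lit 1) (nat_lit 98) (nat_lit 1) (nat_lit 224) (nat_lit 435) (nat_lit 421)) (XT.lf (nat_lit 84) (nat_lit 14113794972) (nat_lit 0) (nat_lit 485493660690)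 (nat_lit 420) (nat_lit 271775190862) (nat_lit 90) (nat_lit 1) (nat_lit 89) (nat_lit 1) (nat_lit 94) (nat_lit 1) (nat_lit 225) (nat_lit 435) (nat_lit 420)))))) (XT.nd (nat_lit 376) (nat_lit 1260) (nat_lit 0) (XT.nd (nat_lit 188) (nat_lit 504) (nat_lit 0) (XT.nd (nat_lit 94) (nat_lit 420) (nat_lit 0) (XT.lf (nat_lit 336) (nat_lit 63737102645) (nat_lit 0) (nat_lit 431023516194) (nat_lit 252) (nat_lit 252589686490) (nat_lit 90) (nat_lit 1) (nat_lit 86) (nat_lit 1) (nat_lit 89) (nat_lit 1) (nat_lit 226) (nat_lit 435) (nat_lit 419)) (XT.lf (nat_lit 84) (nat_lit 220228825980) (nat_lit 0) (nat_lit 150946205769) (nat_lit 420) (nat_lit 353135751972) (nat_lit 82) (nat_lit 1) (nat_lit 81) (nat_lit 1) (nat_lit 86) (nat_lit 1) (nat_lit 227) (nat_lit 435) (nat_lit 418))) (XT.nd (nat_lit 94) (nat_lit 252) (nat_lit 0) (XT.lf (nat_lit 336) (nat_lit 340967194520) (nat_lit 0)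 (nat_lit 320294610279) (nat_lit 252) (nat_lit 40997329981) (nat_lit 82) (nat_lit 1) (nat_lit 78) (nat_lit 1) (nat_lit 81) (nat_lit 1) (nat_lit 228) (nat_lit 435) (nat_lit 417)) (XT.lf (nat_lit 336) (nat_lit 109278338610) (nat_lit 0) (nat_lit 275760543514) (nat_lit 252) (nat_lit 296016054742) (nat_lit 79) (nat_lit 1) (nat_lit 75) (nat_lit 1) (nat_lit 78) (nat_lit 1) (nat_lit 229) (nat_lit 435) (nat_lit 416)))) (XT.nd (nat_lit 188) (nat_lit 672) (nat_lit 0) (XT.nd (nat_lit 94) (nat_lit 252) (nat_lit 0) (XT.lf (nat_lit 84) (nat_lit 124550900848) (nat_lit 0) (nat_lit 114037173440) (nat_lit 336) (nat_lit 422143314928) (nat_lit 72) (nat_lit 1) (nat_lit 71) (nat_lit 1) (nat_lit 75) (nat_lit 1) (nat_lit 230) (nat_lit 435) (nat_lit 415)) (XT.lf (nat_lit 336) (nat_lit 309928569496) (nat_lit 0) (nat_lit 206214985079) (nat_lit 252) (nat_lit 125008201955) (nat_lit 72)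 (nat_lit 1) (nat_lit 68) (nat_lit 1) (nat_lit 71) (nat_lit 1) (nat_lit 231) (nat_lit 435) (nat_lit 414))) (XT.nd (nat_lit 94) (nat_lit 504) (nat_lit 0) (XT.lf (nat_lit 252) (nat_lit 76831750008) (nat_lit 0) (nat_lit 179907533119) (nat_lit 168) (nat_lit 365622737725) (nat_lit 69) (nat_lit 1) (nat_lit 66) (nat_lit 1) (nat_lit 68) (nat_lit 1) (nat_lit 232) (nat_lit 435) (nat_lit 413)) (XT.nd (nat_lit 94) (nat_lit 168) (nat_lit 0) (XT.lf (nat_lit 84) (nat_lit 13015789312) (nat_lit 0) (nat_lit 145649507991) (nat_lit 336) (nat_lit 445635327525) (nat_lit 63) (nat_lit 1) (nat_lit 62) (nat_lit 1) (nat_lit 66) (nat_lit 1) (nat_lit 233) (nat_lit 435) (nat_lit 412)) (XT.lf (nat_lit 252) (nat_lit 223258967892) (nat_lit 0) (nat_lit 139517701582) (nat_lit 168) (nat_lit 224035911347) (nat_lit 63) (nat_lit 1) (nat_lit 60) (nat_lit 1) (nat_lit 62) (nat_lit 1) (nat_lit 234)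 (nat_lit 435) (nat_lit 411))))))) (XT.nd (nat_lit 846) (nat_lit 1512) (nat_lit 0) (XT.nd (nat_lit 376) (nat_lit 840) (nat_lit 0) (XT.nd (nat_lit 188) (nat_lit 420) (nat_lit 0) (XT.nd (nat_lit 94) (nat_lit 168) (nat_lit 0) (XT.lf (nat_lit 84) (nat_lit 121130985928) (nat_lit 0) (nat_lit 5595116182) (nat_lit 252) (nat_lit 443361552682) (nat_lit 58) (nat_lit 1) (nat_lit 57) (nat_lit 1) (nat_lit 60) (nat_lit 1) (nat_lit 235) (nat_lit 435) (nat_lit 410)) (XT.lf (nat_lit 252) (nat_lit 331148724578) (nat_lit 0) (nat_lit 114750458043) (nat_lit 168) (nat_lit 107950062337) (nat_lit 58) (nat_lit 1) (nat_lit 55) (nat_lit 1) (nat_lit 57) (nat_lit 1) (nat_lit 236) (nat_lit 435) (nat_lit 409))) (XT.nd (nat_lit 94) (nat_lit 252) (nat_lit 0) (XT.lf (nat_lit 252) (nat_lit 102868063910) (nat_lit 0) (nat_lit 106673240050) (nat_lit 168) (nat_lit 328690396641) (nat_lit 56) (nat_lit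 1) (nat_lit 53) (nat_lit 1) (nat_lit 55) (nat_lit 1) (nat_lit 237) (nat_lit 435) (nat_lit 408)) (XT.lf (nat_lit 252) (nat_lit 408348408645) (nat_lit 0) (nat_lit 101917622728) (nat_lit 168) (nat_lit 12929432858) (nat_lit 53) (nat_lit 1) (nat_lit 50) (nat_lit 1) (nat_lit 52) (nat_lit 1) (nat_lit 238) (nat_lit 435) (nat_lit 407)))) (XT.nd (nat_lit 188) (nat_lit 504) (nat_lit 0) (XT.nd (nat_lit 94) (nat_lit 168) (nat_lit 0) (XT.lf (nat_lit 252) (nat_lit 182757822361) (nat_lit 0) (nat_lit 97296968512) (nat_lit 168) (nat_lit 228522246535) (nat_lit 51) (nat_lit 1) (nat_lit 48) (nat_lit 1) (nat_lit 50) (nat_lit 1) (nat_lit 239) (nat_lit 435) (nat_lit 406)) (XT.lf (nat_lit 84) (nat_lit 62601610241) (nat_lit 0) (nat_lit 34408665900) (nat_lit 168) (nat_lit 397554669015) (nat_lit 47) (nat_lit 1) (nat_lit 46) (nat_lit 1) (nat_lit 48) (nat_lit 1) (nat_lit 240) (nat_lit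 435) (nat_lit 405))) (XT.nd (nat_lit 94) (nat_lit 336) (nat_lit 0) (XT.lf (nat_lit 252) (nat_lit 239788773468) (nat_lit 0) (nat_lit 95983045301) (nat_lit 168) (nat_lit 145134615960) (nat_lit 47) (nat_lit 1) (nat_lit 44) (nat_lit 1) (nat_lit 46) (nat_lit 1) (nat_lit 241) (nat_lit 435) (nat_lit 404)) (XT.nd (nat_lit 94) (nat_lit 252) (nat_lit 0) (XT.lf (nat_lit 168) (nat_lit 25821843547) (nat_lit 0) (nat_lit 98340512930) (nat_lit 84) (nat_lit 343624788240) (nat_lit 45) (nat_lit 1) (nat_lit 43) (nat_lit 1) (nat_lit 44) (nat_lit 1) (nat_lit 242) (nat_lit 435) (nat_lit 403)) (XT.lf (nat_lit 252) (nat_lit 278737267785) (nat_lit 0) (nat_lit 100576102224) (nat_lit 168) (nat_lit 75716224031) (nat_lit 43) (nat_lit 1) (nat_lit 40) (nat_lit 1) (nat_lit 42) (nat_lit 1) (nat_lit 243) (nat_lit 435) (nat_lit 402)))))) (XT.nd (nat_lit 470) (nat_lit 756) (nat_lit 0) (XT.nd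 (nat_lit 188) (nat_lit 420) (nat_lit 0) (XT.nd (nat_lit 94) (nat_lit 252) (nat_lit 0) (XT.lf (nat_lit 168) (nat_lit 70104478250) (nat_lit 0) (nat_lit 104336744034) (nat_lit 84) (nat_lit 268260776164) (nat_lit 41) (nat_lit 1) (nat_lit 39) (nat_lit 1) (nat_lit 40) (nat_lit 1) (nat_lit 244) (nat_lit 435) (nat_lit 401)) (XT.lf (nat_lit 252) (nat_lit 303465045746) (nat_lit 0) (nat_lit 109368936068) (nat_lit 168) (nat_lit 17948378658) (nat_lit 39) (nat_lit 1) (nat_lit 36) (nat_lit 1) (nat_lit 38) (nat_lit 1) (nat_lit 245) (nat_lit 435) (nat_lit 400))) (XT.nd (nat_lit 94) (nat_lit 336) (nat_lit 0) (XT.lf (nat_lit 168) (nat_lit 100889961975) (nat_lit 0) (nat_lit 114018430053) (nat_lit 84) (nat_lit 204273864145) (nat_lit 37) (nat_lit 1) (nat_lit 35) (nat_lit 1) (nat_lit 36) (nat_lit 1) (nat_lit 246) (nat_lit 435) (nat_lit 399)) (XT.nd (nat_lit 94) (nat_lit 84) (nat_lit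 0) (XT.lf (nat_lit 84) (nat_lit 29120858075) (nat_lit 0) (nat_lit 91402611008) (nat_lit 252) (nat_lit 287475417322) (nat_lit 33) (nat_lit 1) (nat_lit 32) (nat_lit 1) (nat_lit 35) (nat_lit 1) (nat_lit 247) (nat_lit 435) (nat_lit 398)) (XT.lf (nat_lit 168) (nat_lit 121077056939) (nat_lit 0) (nat_lit 126156554409) (nat_lit 84) (nat_lit 149859637393) (nat_lit 33) (nat_lit 1) (nat_lit 31) (nat_lit 1) (nat_lit 32) (nat_lit 1) (nat_lit 248) (nat_lit 435) (nat_lit 397))))) (XT.nd (nat_lit 188) (nat_lit 420) (nat_lit 0) (XT.nd (nat_lit 94) (nat_lit 84) (nat_lit 0) (XT.lf (nat_lit 84) (nat_lit 67724272722) (nat_lit 0) (nat_lit 65595537634) (nat_lit 252) (nat_lit 253251051540) (nat_lit 29) (nat_lit 1) (nat_lit 28) (nat_lit 1) (nat_lit 31) (nat_lit 1) (nat_lit 249) (nat_lit 435) (nat_lit 396)) (XT.lf (nat_lit 168) (nat_lit 133003418723) (nat_lit 0) (nat_lit 139791730941)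 (nat_lit 84) (nat_lit 103522168384) (nat_lit 29) (nat_lit 1) (nat_lit 27) (nat_lit 1) (nat_lit 28) (nat_lit 1) (nat_lit 250) (nat_lit 435) (nat_lit 395))) (XT.nd (nat_lit 94) (nat_lit 252) (nat_lit 0) (XT.lf (nat_lit 84) (nat_lit 99705790014) (nat_lit 0) (nat_lit 47508024919) (nat_lit 168) (nat_lit 219188586549) (nat_lit 26) (nat_lit 1) (nat_lit 25) (nat_lit 1) (nat_lit 27) (nat_lit 1) (nat_lit 251) (nat_lit 435) (nat_lit 394)) (XT.nd (nat_lit 94) (nat_lit 168) (nat_lit 0) (XT.lf (nat_lit 168) (nat_lit 138550442913) (nat_lit 0) (nat_lit 154181654122) (nat_lit 84) (nat_lit 64018989096) (nat_lit 26) (nat_lit 1) (nat_lit 24) (nat_lit 1) (nat_lit 25) (nat_lit 1) (nat_lit 252) (nat_lit 435) (nat_lit 393)) (XT.lf (nat_lit 84) (nat_lit 126118553894) (nat_lit 0) (nat_lit 35441606060) (nat_lit 168) (nat_lit 185836475192) (nat_lit 23) (nat_lit 1) (nat_lit 22) (nat_lit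 1) (nat_lit 24) (nat_lit 1) (nat_lit 253) (nat_lit 435) (nat_lit 392))))))))
noncomputable def ec335 : XT := (XT.nd (nat_lit 1786) (nat_lit 0) (nat_lit 0) (XT.nd (nat_lit 846) (nat_lit 756) (nat_lit 0) (XT.nd (nat_lit 376) (nat_lit 588) (nat_lit 0) (XT.nd (nat_lit 188) (nat_lit 252) (nat_lit 0) (XT.nd (nat_lit 94) (nat_lit 168) (nat_lit 0) (XT.lf (nat_lit 168) (nat_lit 139228756359) (nat_lit 0) (nat_lit 168758391373) (nat_lit 84) (nat_lit 30316057722) (nat_lit 23) (nat_lit 1) (nat_lit 21) (nat_lit 1) (nat_lit 22) (nat_lit 1) (nat_lit 254) (nat_lit 435) (nat_lit 391)) (XT.lf (nat_lit 84) (nat_lit 147837844499) (nat_lit 0) (nat_lit 28030555849) (nat_lit 168) (nat_lit 153599291085) (nat_lit 20) (nat_lit 1) (nat_lit 19) (nat_lit 1) (nat_lit 21) (nat_lit 1) (nat_lit 255) (nat_lit 435) (nat_lit 390))) (XT.nd (nat_lit 94) (nat_lit 168) (nat_lit 0) (XT.lf (nat_lit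 168) (nat_lit 136247911595) (nat_lit 0) (nat_lit 183093699133) (nat_lit 84) (nat_lit 1550892393) (nat_lit 20) (nat_lit 1) (nat_lit 18) (nat_lit 1) (nat_lit 19) (nat_lit 1) (nat_lit 256) (nat_lit 435) (nat_lit 389)) (XT.lf (nat_lit 84) (nat_lit 165592561779) (nat_lit 0) (nat_lit 24179412493) (nat_lit 168) (nat_lit 122767048741) (nat_lit 17) (nat_lit 1) (nat_lit 16) (nat_lit 1) (nat_lit 18) (nat_lit 1) (nat_lit 257) (nat_lit 435) (nat_lit 388)))) (XT.nd (nat_lit 188) (nat_lit 336) (nat_lit 0) (XT.nd (nat_lit 94) (nat_lit 168) (nat_lit 0) (XT.lf (nat_lit 0) (nat_lit 22261553174) (nat_lit 0) (nat_lit 174232315391) (nat_lit 168) (nat_lit 107934626254) (nat_lit 15) (nat_lit 3) (nat_lit 15) (nat_lit 1) (nat_lit 17) (nat_lit 1) (nat_lit 258) (nat_lit 435) (nat_lit 387)) (XT.lf (nat_lit 84) (nat_lit 179991010161) (nat_lit 0) (nat_lit 23012054198) (nat_lit 168) (nat_lit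 93538957611) (nat_lit 14) (nat_lit 1) (nat_lit 13) (nat_lit 1) (nat_lit 15) (nat_lit 1) (nat_lit 259) (nat_lit 435) (nat_lit 386))) (XT.nd (nat_lit 94) (nat_lit 252) (nat_lit 0) (XT.lf (nat_lit 0) (nat_lit 42527802318) (nat_lit 0) (nat_lit 166613929936) (nat_lit 168) (nat_lit 79723851418) (nat_lit 12) (nat_lit 3) (nat_lit 12) (nat_lit 1) (nat_lit 14) (nat_lit 1) (nat_lit 260) (nat_lit 435) (nat_lit 385)) (XT.nd (nat_lit 94) (nat_lit 84) (nat_lit 0) (XT.lf (nat_lit 84) (nat_lit 191542024954) (nat_lit 0) (nat_lit 23830204781) (nat_lit 168) (nat_lit 66042642806) (nat_lit 11) (nat_lit 1) (nat_lit 10) (nat_lit 1) (nat_lit 12) (nat_lit 1) (nat_lit 261) (nat_lit 435) (nat_lit 384)) (XT.lf (nat_lit 0) (nat_lit 59789357185) (nat_lit 0) (nat_lit 161107313630) (nat_lit 168) (nat_lit 53249074458) (nat_lit 9) (nat_lit 3) (nat_lit 9) (nat_lit 1) (nat_lit 11) (nat_lit 1)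 (nat_lit 262) (nat_lit 435) (nat_lit 383)))))) (XT.nd (nat_lit 470) (nat_lit 0) (nat_lit 0) (XT.nd (nat_lit 188) (nat_lit 504) (nat_lit 0) (XT.nd (nat_lit 94) (nat_lit 84) (nat_lit 0) (XT.lf (nat_lit 84) (nat_lit 200672290575) (nat_lit 0) (nat_lit 26079632957) (nat_lit 168) (nat_lit 40349675072) (nat_lit 8) (nat_lit 1) (nat_lit 7) (nat_lit 1) (nat_lit 9) (nat_lit 1) (nat_lit 263) (nat_lit 435) (nat_lit 382)) (XT.lf (nat_lit 0) (nat_lit 74460908789) (nat_lit 0) (nat_lit 157188353793) (nat_lit 168) (nat_lit 28565990199) (nat_lit 6) (nat_lit 3) (nat_lit 6) (nat_lit 1) (nat_lit 8) (nat_lit 1) (nat_lit 264) (nat_lit 435) (nat_lit 381))) (XT.nd (nat_lit 94) (nat_lit 336) (nat_lit 0) (XT.lf (nat_lit 84) (nat_lit 207740544969) (nat_lit 0) (nat_lit 29322628676) (nat_lit 168) (nat_lit 16488097327) (nat_lit 5) (nat_lit 1) (nat_lit 4) (nat_lit 1) (nat_lit 6) (nat_lit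 1) (nat_lit 265) (nat_lit 435) (nat_lit 380)) (XT.nd (nat_lit 94) (nat_lit 252) (nat_lit 0) (XT.lf (nat_lit 0) (nat_lit 86893186830) (nat_lit 0) (nat_lit 154441234550) (nat_lit 168) (nat_lit 5690727107) (nat_lit 3) (nat_lit 3) (nat_lit 3) (nat_lit 1) (nat_lit 5) (nat_lit 1) (nat_lit 266) (nat_lit 435) (nat_lit 379)) (XT.lf (nat_lit 0) (nat_lit 349181431138) (nat_lit 0) (nat_lit 0) (nat_lit 0) (nat_lit 0) (nat_lit 0) (nat_lit 0) (nat_lit 1) (nat_lit 0) (nat_lit 1) (nat_lit 0) (nat_lit 267) (nat_lit 435) (nat_lit 378))))) (XT.nd (nat_lit 188) (nat_lit 0) (nat_lit 0) (XT.nd (nat_lit 94) (nat_lit 0) (nat_lit 0) (XT.lf (nat_lit 0) (nat_lit 348863602007) (nat_lit 0) (nat_lit 0) (nat_lit 0) (nat_lit 0) (nat_lit 0) (nat_lit 0) (nat_lit 1) (nat_lit 0) (nat_lit 1) (nat_lit 0) (nat_lit 268) (nat_lit 435) (nat_lit 377)) (XT.lf (nat_lit 0) (nat_lit 348569315775) (nat_lit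 0) (nat_lit 0) (nat_lit 0) (nat_lit 0) (nat_lit 0) (nat_lit 0) (nat_lit 1) (nat_lit 0) (nat_lit 1) (nat_lit 0) (nat_lit 269) (nat_lit 435) (nat_lit 376))) (XT.nd (nat_lit 94) (nat_lit 0) (nat_lit 0) (XT.lf (nat_lit 0) (nat_lit 348296828523) (nat_lit 0) (nat_lit 0) (nat_lit 0) (nat_lit 0) (nat_lit 0) (nat_lit 0) (nat_lit 1) (nat_lit 0) (nat_lit 1) (nat_lit 0) (nat_lit 270) (nat_lit 435) (nat_lit 375)) (XT.nd (nat_lit 94) (nat_lit 0) (nat_lit 0) (XT.lf (nat_lit 0) (nat_lit 348044525511) (nat_lit 0) (nat_lit 0) (nat_lit 0) (nat_lit 0) (nat_lit 0) (nat_lit 0) (nat_lit 1) (nat_lit 0) (nat_lit 1) (nat_lit 0) (nat_lit 271) (nat_lit 435) (nat_lit 374)) (XT.lf (nat_lit 0) (nat_lit 347810911612) (nat_lit 0) (nat_lit 0) (nat_lit 0) (nat_lit 0) (nat_lit 0) (nat_lit 0) (nat_lit 1) (nat_lit 0) (nat_lit 1) (nat_lit 0) (nat_lit 272) (nat_lit 435) (nat_lit 373))))))) (XT.nd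 (nat_lit 846) (nat_lit 0) (nat_lit 0) (XT.nd (nat_lit 376) (nat_lit 0) (nat_lit 0) (XT.nd (nat_lit 188) (nat_lit 0) (nat_lit 0) (XT.nd (nat_lit 94) (nat_lit 0) (nat_lit 0) (XT.lf (nat_lit 0) (nat_lit 347594602446) (nat_lit 0) (nat_lit 0) (nat_lit 0) (nat_lit 0) (nat_lit 0) (nat_lit 0) (nat_lit 1) (nat_lit 0) (nat_lit 1) (nat_lit 0) (nat_lit 273) (nat_lit 435) (nat_lit 372)) (XT.lf (nat_lit 0) (nat_lit 347394316181) (nat_lit 0) (nat_lit 0) (nat_lit 0) (nat_lit 0) (nat_lit 0) (nat_lit 0) (nat_lit 1) (nat_lit 0) (nat_lit 1) (nat_lit 0) (nat_lit 274) (nat_lit 435) (nat_lit 371))) (XT.nd (nat_lit 94) (nat_lit 0) (nat_lit 0) (XT.lf (nat_lit 0) (nat_lit 347208865936) (nat_lit 0) (nat_lit 0) (nat_lit 0) (nat_lit 0) (nat_lit 0) (nat_lit 0) (nat_lit 1) (nat_lit 0) (nat_lit 1) (nat_lit 0) (nat_lit 275) (nat_lit 435) (nat_lit 370)) (XT.lf (nat_lit 0) (nat_lit 347037152746)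 (nat_lit 0) (nat_lit 0) (nat_lit 0) (nat_lit 0) (nat_lit 0) (nat_lit 0) (nat_lit 1) (nat_lit 0) (nat_lit 1) (nat_lit 0) (nat_lit 276) (nat_lit 435) (nat_lit 369)))) (XT.nd (nat_lit 188) (nat_lit 0) (nat_lit 0) (XT.nd (nat_lit 94) (nat_lit 0) (nat_lit 0) (XT.lf (nat_lit 0) (nat_lit 346878159052) (nat_lit 0) (nat_lit 0) (nat_lit 0) (nat_lit 0) (nat_lit 0) (nat_lit 0) (nat_lit 1) (nat_lit 0) (nat_lit 1) (nat_lit 0) (nat_lit 277) (nat_lit 435) (nat_lit 368)) (XT.lf (nat_lit 0) (nat_lit 346730942668) (nat_lit 0) (nat_lit 0) (nat_lit 0) (nat_lit 0) (nat_lit 0) (nat_lit 0) (nat_lit 1) (nat_lit 0) (nat_lit 1) (nat_lit 0) (nat_lit 278) (nat_lit 435) (nat_lit 367))) (XT.nd (nat_lit 94) (nat_lit 0) (nat_lit 0) (XT.lf (nat_lit 0) (nat_lit 346594631202) (nat_lit 0) (nat_lit 0) (nat_lit 0) (nat_lit 0) (nat_lit 0) (nat_lit 0) (nat_lit 1) (nat_lit 0) (nat_lit 1) (nat_lit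 0) (nat_lit 279) (nat_lit 435) (nat_lit 366)) (XT.nd (nat_lit 94) (nat_lit 0) (nat_lit 0) (XT.lf (nat_lit 0) (nat_lit 346468416881) (nat_lit 0) (nat_lit 0) (nat_lit 0) (nat_lit 0) (nat_lit 0) (nat_lit 0) (nat_lit 1) (nat_lit 0) (nat_lit 1) (nat_lit 0) (nat_lit 280) (nat_lit 435) (nat_lit 365)) (XT.lf (nat_lit 0) (nat_lit 346351551769) (nat_lit 0) (nat_lit 0) (nat_lit 0) (nat_lit 0) (nat_lit 0) (nat_lit 0) (nat_lit 1) (nat_lit 0) (nat_lit 1) (nat_lit 0) (nat_lit 281) (nat_lit 435) (nat_lit 364)))))) (XT.nd (nat_lit 470) (nat_lit 0) (nat_lit 0) (XT.nd (nat_lit 188) (nat_lit 0) (nat_lit 0) (XT.nd (nat_lit 94) (nat_lit 0) (nat_lit 0) (XT.lf (nat_lit 0) (nat_lit 346243343332) (nat_lit 0) (nat_lit 0) (nat_lit 0) (nat_lit 0) (nat_lit 0) (nat_lit 0) (nat_lit 1) (nat_lit 0) (nat_lit 1) (nat_lit 0) (nat_lit 282) (nat_lit 435) (nat_lit 363)) (XT.lf (nat_lit 0) (nat_lit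 346143150335) (nat_lit 0) (nat_lit 0) (nat_lit 0) (nat_lit 0) (nat_lit 0) (nat_lit 0) (nat_lit 1) (nat_lit 0) (nat_lit 1) (nat_lit 0) (nat_lit 283) (nat_lit 435) (nat_lit 362))) (XT.nd (nat_lit 94) (nat_lit 0) (nat_lit 0) (XT.lf (nat_lit 0) (nat_lit 346050379042) (nat_lit 0) (nat_lit 0) (nat_lit 0) (nat_lit 0) (nat_lit 0) (nat_lit 0) (nat_lit 1) (nat_lit 0) (nat_lit 1) (nat_lit 0) (nat_lit 284) (nat_lit 435) (nat_lit 361)) (XT.nd (nat_lit 94) (nat_lit 0) (nat_lit 0) (XT.lf (nat_lit 0) (nat_lit 345964479696) (nat_lit 0) (nat_lit 0) (nat_lit 0) (nat_lit 0) (nat_lit 0) (nat_lit 0) (nat_lit 1) (nat_lit 0) (nat_lit 1) (nat_lit 0) (nat_lit 285) (nat_lit 435) (nat_lit 360)) (XT.lf (nat_lit 0) (nat_lit 345884943264) (nat_lit 0) (nat_lit 0) (nat_lit 0) (nat_lit 0) (nat_lit 0) (nat_lit 0) (nat_lit 1) (nat_lit 0) (nat_lit 1) (nat_lit 0) (nat_lit 286) (nat_lit 435) (nat_lit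 359))))) (XT.nd (nat_lit 188) (nat_lit 0) (nat_lit 0) (XT.nd (nat_lit 94) (nat_lit 0) (nat_lit 0) (XT.lf (nat_lit 0) (nat_lit 345811298421) (nat_lit 0) (nat_lit 0) (nat_lit 0) (nat_lit 0) (nat_lit 0) (nat_lit 0) (nat_lit 1) (nat_lit 0) (nat_lit 1) (nat_lit 0) (nat_lit 287) (nat_lit 435) (nat_lit 358)) (XT.lf (nat_lit 0) (nat_lit 345743108750) (nat_lit 0) (nat_lit 0) (nat_lit 0) (nat_lit 0) (nat_lit 0) (nat_lit 0) (nat_lit 1) (nat_lit 0) (nat_lit 1) (nat_lit 0) (nat_lit 288) (nat_lit 435) (nat_lit 357))) (XT.nd (nat_lit 94) (nat_lit 0) (nat_lit 0) (XT.lf (nat_lit 0) (nat_lit 345679970167) (nat_lit 0) (nat_lit 0) (nat_lit 0) (nat_lit 0) (nat_lit 0) (nat_lit 0) (nat_lit 1) (nat_lit 0) (nat_lit 1) (nat_lit 0) (nat_lit 289) (nat_lit 435) (nat_lit 356)) (XT.nd (nat_lit 94) (nat_lit 0) (nat_lit 0) (XT.lf (nat_lit 0) (nat_lit 345621508515) (nat_lit 0) (nat_lit 0)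 (nat_lit 0) (nat_lit 0) (nat_lit 0) (nat_lit 0) (nat_lit 1) (nat_lit 0) (nat_lit 1) (nat_lit 0) (nat_lit 290) (nat_lit 435) (nat_lit 355)) (XT.lf (nat_lit 0) (nat_lit 345567377356) (nat_lit 0) (nat_lit 0) (nat_lit 0) (nat_lit 0) (nat_lit 0) (nat_lit 0) (nat_lit 1) (nat_lit 0) (nat_lit 1) (nat_lit 0) (nat_lit 291) (nat_lit 435) (nat_lit 354))))))))
noncomputable def ec336 : XT := (XT.nd (nat_lit 1692) (nat_lit 0) (nat_lit 0) (XT.nd (nat_lit 846) (nat_lit 0) (nat_lit 0) (XT.nd (nat_lit 376) (nat_lit 0) (nat_lit 0) (XT.nd (nat_lit 188) (nat_lit 0) (nat_lit 0) (XT.nd (nat_lit 94) (nat_lit 0) (nat_lit 0) (XT.lf (nat_lit 0) (nat_lit 345517255913) (nat_lit 0) (nat_lit 0) (nat_lit 0) (nat_lit 0) (nat_lit 0) (nat_lit 0) (nat_lit 1) (nat_lit 0) (nat_lit 1) (nat_lit 0) (nat_lit 292) (nat_lit 435) (nat_lit 353)) (XT.lf (nat_lit 0) (nat_lit 345470847169) (nat_lit 0) (nat_lit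 0) (nat_lit 0) (nat_lit 0) (nat_lit 0) (nat_lit 0) (nat_lit 1) (nat_lit 0) (nat_lit 1) (nat_lit 0) (nat_lit 293) (nat_lit 435) (nat_lit 352))) (XT.nd (nat_lit 94) (nat_lit 0) (nat_lit 0) (XT.lf (nat_lit 0) (nat_lit 345427876110) (nat_lit 0) (nat_lit 0) (nat_lit 0) (nat_lit 0) (nat_lit 0) (nat_lit 0) (nat_lit 1) (nat_lit 0) (nat_lit 1) (nat_lit 0) (nat_lit 294) (nat_lit 435) (nat_lit 351)) (XT.lf (nat_lit 0) (nat_lit 345388088093) (nat_lit 0) (nat_lit 0) (nat_lit 0) (nat_lit 0) (nat_lit 0) (nat_lit 0) (nat_lit 1) (nat_lit 0) (nat_lit 1) (nat_lit 0) (nat_lit 295) (nat_lit 435) (nat_lit 350)))) (XT.nd (nat_lit 188) (nat_lit 0) (nat_lit 0) (XT.nd (nat_lit 94) (nat_lit 0) (nat_lit 0) (XT.lf (nat_lit 0) (nat_lit 345351247336) (nat_lit 0) (nat_lit 0) (nat_lit 0) (nat_lit 0) (nat_lit 0) (nat_lit 0) (nat_lit 1) (nat_lit 0) (nat_lit 1) (nat_lit 0) (nat_lit 296) (nat_lit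 435) (nat_lit 349)) (XT.lf (nat_lit 0) (nat_lit 345317135523) (nat_lit 0) (nat_lit 0) (nat_lit 0) (nat_lit 0) (nat_lit 0) (nat_lit 0) (nat_lit 1) (nat_lit 0) (nat_lit 1) (nat_lit 0) (nat_lit 297) (nat_lit 435) (nat_lit 348))) (XT.nd (nat_lit 94) (nat_lit 0) (nat_lit 0) (XT.lf (nat_lit 0) (nat_lit 345285550512) (nat_lit 0) (nat_lit 0) (nat_lit 0) (nat_lit 0) (nat_lit 0) (nat_lit 0) (nat_lit 1) (nat_lit 0) (nat_lit 1) (nat_lit 0) (nat_lit 298) (nat_lit 435) (nat_lit 347)) (XT.nd (nat_lit 94) (nat_lit 0) (nat_lit 0) (XT.lf (nat_lit 0) (nat_lit 345256305131) (nat_lit 0) (nat_lit 0) (nat_lit 0) (nat_lit 0) (nat_lit 0) (nat_lit 0) (nat_lit 1) (nat_lit 0) (nat_lit 1) (nat_lit 0) (nat_lit 299) (nat_lit 435) (nat_lit 346)) (XT.lf (nat_lit 0) (nat_lit 345229226075) (nat_lit 0) (nat_lit 0) (nat_lit 0) (nat_lit 0) (nat_lit 0) (nat_lit 0) (nat_lit 1) (nat_lit 0) (nat_lit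 1) (nat_lit 0) (nat_lit 300) (nat_lit 435) (nat_lit 345)))))) (XT.nd (nat_lit 376) (nat_lit 0) (nat_lit 0) (XT.nd (nat_lit 188) (nat_lit 0) (nat_lit 0) (XT.nd (nat_lit 94) (nat_lit 0) (nat_lit 0) (XT.lf (nat_lit 0) (nat_lit 345204152875) (nat_lit 0) (nat_lit 0) (nat_lit 0) (nat_lit 0) (nat_lit 0) (nat_lit 0) (nat_lit 1) (nat_lit 0) (nat_lit 1) (nat_lit 0) (nat_lit 301) (nat_lit 435) (nat_lit 344)) (XT.lf (nat_lit 0) (nat_lit 345180936949) (nat_lit 0) (nat_lit 0) (nat_lit 0) (nat_lit 0) (nat_lit 0) (nat_lit 0) (nat_lit 1) (nat_lit 0) (nat_lit 1) (nat_lit 0) (nat_lit 302) (nat_lit 435) (nat_lit 343))) (XT.nd (nat_lit 94) (nat_lit 0) (nat_lit 0) (XT.lf (nat_lit 0) (nat_lit 345159440721) (nat_lit 0) (nat_lit 0) (nat_lit 0) (nat_lit 0) (nat_lit 0) (nat_lit 0) (nat_lit 1) (nat_lit 0) (nat_lit 1) (nat_lit 0) (nat_lit 303) (nat_lit 435) (nat_lit 342)) (XT.lf (nat_lit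 0) (nat_lit 345139536806) (nat_lit 0) (nat_lit 0) (nat_lit 0) (nat_lit 0) (nat_lit 0) (nat_lit 0) (nat_lit 1) (nat_lit 0) (nat_lit 1) (nat_lit 0) (nat_lit 304) (nat_lit 435) (nat_lit 341)))) (XT.nd (nat_lit 188) (nat_lit 0) (nat_lit 0) (XT.nd (nat_lit 94) (nat_lit 0) (nat_lit 0) (XT.lf (nat_lit 0) (nat_lit 345121107255) (nat_lit 0) (nat_lit 0) (nat_lit 0) (nat_lit 0) (nat_lit 0) (nat_lit 0) (nat_lit 1) (nat_lit 0) (nat_lit 1) (nat_lit 0) (nat_lit 305) (nat_lit 435) (nat_lit 340)) (XT.lf (nat_lit 0) (nat_lit 345104042857) (nat_lit 0) (nat_lit 0) (nat_lit 0) (nat_lit 0) (nat_lit 0) (nat_lit 0) (nat_lit 1) (nat_lit 0) (nat_lit 1) (nat_lit 0) (nat_lit 306) (nat_lit 435) (nat_lit 339))) (XT.nd (nat_lit 94) (nat_lit 0) (nat_lit 0) (XT.lf (nat_lit 0) (nat_lit 345088242487) (nat_lit 0) (nat_lit 0) (nat_lit 0) (nat_lit 0) (nat_lit 0) (nat_lit 0) (nat_lit 1) (nat_lit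 0) (nat_lit 1) (nat_lit 0) (nat_lit 307) (nat_lit 435) (nat_lit 338)) (XT.nd (nat_lit 94) (nat_lit 0) (nat_lit 0) (XT.lf (nat_lit 0) (nat_lit 345073612516) (nat_lit 0) (nat_lit 0) (nat_lit 0) (nat_lit 0) (nat_lit 0) (nat_lit 0) (nat_lit 1) (nat_lit 0) (nat_lit 1) (nat_lit 0) (nat_lit 308) (nat_lit 435) (nat_lit 337)) (XT.lf (nat_lit 0) (nat_lit 345060066246) (nat_lit 0) (nat_lit 0) (nat_lit 0) (nat_lit 0) (nat_lit 0) (nat_lit 0) (nat_lit 1) (nat_lit 0) (nat_lit 1) (nat_lit 0) (nat_lit 309) (nat_lit 435) (nat_lit 336))))))) (XT.nd (nat_lit 846) (nat_lit 0) (nat_lit 0) (XT.nd (nat_lit 376) (nat_lit 0) (nat_lit 0) (XT.nd (nat_lit 188) (nat_lit 0) (nat_lit 0) (XT.nd (nat_lit 94) (nat_lit 0) (nat_lit 0) (XT.lf (nat_lit 0) (nat_lit 345047523403) (nat_lit 0) (nat_lit 0) (nat_lit 0) (nat_lit 0) (nat_lit 0) (nat_lit 0) (nat_lit 1) (nat_lit 0) (nat_lit 1) (nat_lit 0)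 (nat_lit 310) (nat_lit 435) (nat_lit 335)) (XT.lf (nat_lit 0) (nat_lit 345035909660) (nat_lit 0) (nat_lit 0) (nat_lit 0) (nat_lit 0) (nat_lit 0) (nat_lit 0) (nat_lit 1) (nat_lit 0) (nat_lit 1) (nat_lit 0) (nat_lit 311) (nat_lit 435) (nat_lit 334))) (XT.nd (nat_lit 94) (nat_lit 0) (nat_lit 0) (XT.lf (nat_lit 0) (nat_lit 345025156195) (nat_lit 0) (nat_lit 0) (nat_lit 0) (nat_lit 0) (nat_lit 0) (nat_lit 0) (nat_lit 1) (nat_lit 0) (nat_lit 1) (nat_lit 0) (nat_lit 312) (nat_lit 435) (nat_lit 333)) (XT.lf (nat_lit 0) (nat_lit 345015199282) (nat_lit 0) (nat_lit 0) (nat_lit 0) (nat_lit 0) (nat_lit 0) (nat_lit 0) (nat_lit 1) (nat_lit 0) (nat_lit 1) (nat_lit 0) (nat_lit 313) (nat_lit 435) (nat_lit 332)))) (XT.nd (nat_lit 188) (nat_lit 0) (nat_lit 0) (XT.nd (nat_lit 94) (nat_lit 0) (nat_lit 0) (XT.lf (nat_lit 0) (nat_lit 345005979918) (nat_lit 0) (nat_lit 0) (nat_lit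 0) (nat_lit 0) (nat_lit 0) (nat_lit 0) (nat_lit 1) (nat_lit 0) (nat_lit 1) (nat_lit 0) (nat_lit 314) (nat_lit 435) (nat_lit 331)) (XT.lf (nat_lit 0) (nat_lit 344997443470) (nat_lit 0) (nat_lit 0) (nat_lit 0) (nat_lit 0) (nat_lit 0) (nat_lit 0) (nat_lit 1) (nat_lit 0) (nat_lit 1) (nat_lit 0) (nat_lit 315) (nat_lit 435) (nat_lit 330))) (XT.nd (nat_lit 94) (nat_lit 0) (nat_lit 0) (XT.lf (nat_lit 0) (nat_lit 344989539352) (nat_lit 0) (nat_lit 0) (nat_lit 0) (nat_lit 0) (nat_lit 0) (nat_lit 0) (nat_lit 1) (nat_lit 0) (nat_lit 1) (nat_lit 0) (nat_lit 316) (nat_lit 435) (nat_lit 329)) (XT.nd (nat_lit 94) (nat_lit 0) (nat_lit 0) (XT.lf (nat_lit 0) (nat_lit 344982220724) (nat_lit 0) (nat_lit 0) (nat_lit 0) (nat_lit 0) (nat_lit 0) (nat_lit 0) (nat_lit 1) (nat_lit 0) (nat_lit 1) (nat_lit 0) (nat_lit 317) (nat_lit 435) (nat_lit 328)) (XT.lf (nat_lit 0) (nat_lit 344975444216)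 (nat_lit 0) (nat_lit 0) (nat_lit 0) (nat_lit 0) (nat_lit 0) (nat_lit 0) (nat_lit 1) (nat_lit 0) (nat_lit 1) (nat_lit 0) (nat_lit 318) (nat_lit 435) (nat_lit 327)))))) (XT.nd (nat_lit 470) (nat_lit 0) (nat_lit 0) (XT.nd (nat_lit 188) (nat_lit 0) (nat_lit 0) (XT.nd (nat_lit 94) (nat_lit 0) (nat_lit 0) (XT.lf (nat_lit 0) (nat_lit 344969169672) (nat_lit 0) (nat_lit 0) (nat_lit 0) (nat_lit 0) (nat_lit 0) (nat_lit 0) (nat_lit 1) (nat_lit 0) (nat_lit 1) (nat_lit 0) (nat_lit 319) (nat_lit 435) (nat_lit 326)) (XT.lf (nat_lit 0) (nat_lit 344963359909) (nat_lit 0) (nat_lit 0) (nat_lit 0) (nat_lit 0) (nat_lit 0) (nat_lit 0) (nat_lit 1) (nat_lit 0) (nat_lit 1) (nat_lit 0) (nat_lit 320) (nat_lit 435) (nat_lit 325))) (XT.nd (nat_lit 94) (nat_lit 0) (nat_lit 0) (XT.lf (nat_lit 0) (nat_lit 344957980499) (nat_lit 0) (nat_lit 0) (nat_lit 0) (nat_lit 0) (nat_lit 0) (nat_lit 0)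 (nat_lit 1) (nat_lit 0) (nat_lit 1) (nat_lit 0) (nat_lit 321) (nat_lit 435) (nat_lit 324)) (XT.nd (nat_lit 94) (nat_lit 0) (nat_lit 0) (XT.lf (nat_lit 0) (nat_lit 344952999564) (nat_lit 0) (nat_lit 0) (nat_lit 0) (nat_lit 0) (nat_lit 0) (nat_lit 0) (nat_lit 1) (nat_lit 0) (nat_lit 1) (nat_lit 0) (nat_lit 322) (nat_lit 435) (nat_lit 323)) (XT.lf (nat_lit 0) (nat_lit 344948387586) (nat_lit 0) (nat_lit 0) (nat_lit 0) (nat_lit 0) (nat_lit 0) (nat_lit 0) (nat_lit 1) (nat_lit 0) (nat_lit 1) (nat_lit 0) (nat_lit 323) (nat_lit 435) (nat_lit 322))))) (XT.nd (nat_lit 188) (nat_lit 0) (nat_lit 0) (XT.nd (nat_lit 94) (nat_lit 0) (nat_lit 0) (XT.lf (nat_lit 0) (nat_lit 344944117237) (nat_lit 0) (nat_lit 0) (nat_lit 0) (nat_lit 0) (nat_lit 0) (nat_lit 0) (nat_lit 1) (nat_lit 0) (nat_lit 1) (nat_lit 0) (nat_lit 324) (nat_lit 435) (nat_lit 321)) (XT.lf (nat_lit 0) (nat_lit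 344940163210) (nat_lit 0) (nat_lit 0) (nat_lit 0) (nat_lit 0) (nat_lit 0) (nat_lit 0) (nat_lit 1) (nat_lit 0) (nat_lit 1) (nat_lit 0) (nat_lit 325) (nat_lit 435) (nat_lit 320))) (XT.nd (nat_lit 94) (nat_lit 0) (nat_lit 0) (XT.lf (nat_lit 0) (nat_lit 344936502074) (nat_lit 0) (nat_lit 0) (nat_lit 0) (nat_lit 0) (nat_lit 0) (nat_lit 0) (nat_lit 1) (nat_lit 0) (nat_lit 1) (nat_lit 0) (nat_lit 326) (nat_lit 435) (nat_lit 319)) (XT.nd (nat_lit 94) (nat_lit 0) (nat_lit 0) (XT.lf (nat_lit 0) (nat_lit 344933112133) (nat_lit 0) (nat_lit 0) (nat_lit 0) (nat_lit 0) (nat_lit 0) (nat_lit 0) (nat_lit 1) (nat_lit 0) (nat_lit 1) (nat_lit 0) (nat_lit 327) (nat_lit 435) (nat_lit 318)) (XT.lf (nat_lit 0) (nat_lit 344929973299) (nat_lit 0) (nat_lit 0) (nat_lit 0) (nat_lit 0) (nat_lit 0) (nat_lit 0) (nat_lit 1) (nat_lit 0) (nat_lit 1) (nat_lit 0) (nat_lit 328) (nat_lit 435) (nat_lit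 317))))))))
noncomputable def ec337 : XT := (XT.nd (nat_lit 1786) (nat_lit 0) (nat_lit 0) (XT.nd (nat_lit 846) (nat_lit 0) (nat_lit 0) (XT.nd (nat_lit 376) (nat_lit 0) (nat_lit 0) (XT.nd (nat_lit 188) (nat_lit 0) (nat_lit 0) (XT.nd (nat_lit 94) (nat_lit 0) (nat_lit 0) (XT.lf (nat_lit 0) (nat_lit 344927066971) (nat_lit 0) (nat_lit 0) (nat_lit 0) (nat_lit 0) (nat_lit 0) (nat_lit 0) (nat_lit 1) (nat_lit 0) (nat_lit 1) (nat_lit 0) (nat_lit 329) (nat_lit 435) (nat_lit 316)) (XT.lf (nat_lit 0) (nat_lit 344924375927) (nat_lit 0) (nat_lit 0) (nat_lit 0) (nat_lit 0) (nat_lit 0) (nat_lit 0) (nat_lit 1) (nat_lit 0) (nat_lit 1) (nat_lit 0) (nat_lit 330) (nat_lit 435) (nat_lit 315))) (XT.nd (nat_lit 94) (nat_lit 0) (nat_lit 0) (XT.lf (nat_lit 0) (nat_lit 344921884219) (nat_lit 0) (nat_lit 0) (nat_lit 0) (nat_lit 0) (nat_lit 0) (nat_lit 0) (nat_lit 1) (nat_lit 0) (nat_lit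 1) (nat_lit 0) (nat_lit 331) (nat_lit 435) (nat_lit 314)) (XT.lf (nat_lit 0) (nat_lit 344919577082) (nat_lit 0) (nat_lit 0) (nat_lit 0) (nat_lit 0) (nat_lit 0) (nat_lit 0) (nat_lit 1) (nat_lit 0) (nat_lit 1) (nat_lit 0) (nat_lit 332) (nat_lit 435) (nat_lit 313)))) (XT.nd (nat_lit 188) (nat_lit 0) (nat_lit 0) (XT.nd (nat_lit 94) (nat_lit 0) (nat_lit 0) (XT.lf (nat_lit 0) (nat_lit 344917440844) (nat_lit 0) (nat_lit 0) (nat_lit 0) (nat_lit 0) (nat_lit 0) (nat_lit 0) (nat_lit 1) (nat_lit 0) (nat_lit 1) (nat_lit 0) (nat_lit 333) (nat_lit 435) (nat_lit 312)) (XT.lf (nat_lit 0) (nat_lit 344915462846) (nat_lit 0) (nat_lit 0) (nat_lit 0) (nat_lit 0) (nat_lit 0) (nat_lit 0) (nat_lit 1) (nat_lit 0) (nat_lit 1) (nat_lit 0) (nat_lit 334) (nat_lit 435) (nat_lit 311))) (XT.nd (nat_lit 94) (nat_lit 0) (nat_lit 0) (XT.lf (nat_lit 0) (nat_lit 344913631367) (nat_lit 0) (nat_lit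 0) (nat_lit 0) (nat_lit 0) (nat_lit 0) (nat_lit 0) (nat_lit 1) (nat_lit 0) (nat_lit 1) (nat_lit 0) (nat_lit 335) (nat_lit 435) (nat_lit 310)) (XT.nd (nat_lit 94) (nat_lit 0) (nat_lit 0) (XT.lf (nat_lit 0) (nat_lit 344911935552) (nat_lit 0) (nat_lit 0) (nat_lit 0) (nat_lit 0) (nat_lit 0) (nat_lit 0) (nat_lit 1) (nat_lit 0) (nat_lit 1) (nat_lit 0) (nat_lit 336) (nat_lit 435) (nat_lit 309)) (XT.lf (nat_lit 0) (nat_lit 344910365354) (nat_lit 0) (nat_lit 0) (nat_lit 0) (nat_lit 0) (nat_lit 0) (nat_lit 0) (nat_lit 1) (nat_lit 0) (nat_lit 1) (nat_lit 0) (nat_lit 337) (nat_lit 435) (nat_lit 308)))))) (XT.nd (nat_lit 470) (nat_lit 0) (nat_lit 0) (XT.nd (nat_lit 188) (nat_lit 0) (nat_lit 0) (XT.nd (nat_lit 94) (nat_lit 0) (nat_lit 0) (XT.lf (nat_lit 0) (nat_lit 344908911466) (nat_lit 0) (nat_lit 0) (nat_lit 0) (nat_lit 0) (nat_lit 0) (nat_lit 0) (nat_lit 1) (nat_lit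 0) (nat_lit 1) (nat_lit 0) (nat_lit 338) (nat_lit 435) (nat_lit 307)) (XT.lf (nat_lit 0) (nat_lit 344907565274) (nat_lit 0) (nat_lit 0) (nat_lit 0) (nat_lit 0) (nat_lit 0) (nat_lit 0) (nat_lit 1) (nat_lit 0) (nat_lit 1) (nat_lit 0) (nat_lit 339) (nat_lit 435) (nat_lit 306))) (XT.nd (nat_lit 94) (nat_lit 0) (nat_lit 0) (XT.lf (nat_lit 0) (nat_lit 344906318800) (nat_lit 0) (nat_lit 0) (nat_lit 0) (nat_lit 0) (nat_lit 0) (nat_lit 0) (nat_lit 1) (nat_lit 0) (nat_lit 1) (nat_lit 0) (nat_lit 340) (nat_lit 435) (nat_lit 305)) (XT.nd (nat_lit 94) (nat_lit 0) (nat_lit 0) (XT.lf (nat_lit 0) (nat_lit 344905164657) (nat_lit 0) (nat_lit 0) (nat_lit 0) (nat_lit 0) (nat_lit 0) (nat_lit 0) (nat_lit 1) (nat_lit 0) (nat_lit 1) (nat_lit 0) (nat_lit 341) (nat_lit 435) (nat_lit 304)) (XT.lf (nat_lit 0) (nat_lit 344904096006) (nat_lit 0) (nat_lit 0) (nat_lit 0) (nat_lit 0) (nat_lit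 0) (nat_lit 0) (nat_lit 1) (nat_lit 0) (nat_lit 1) (nat_lit 0) (nat_lit 342) (nat_lit 435) (nat_lit 303))))) (XT.nd (nat_lit 188) (nat_lit 0) (nat_lit 0) (XT.nd (nat_lit 94) (nat_lit 0) (nat_lit 0) (XT.lf (nat_lit 0) (nat_lit 344903106515) (nat_lit 0) (nat_lit 0) (nat_lit 0) (nat_lit 0) (nat_lit 0) (nat_lit 0) (nat_lit 1) (nat_lit 0) (nat_lit 1) (nat_lit 0) (nat_lit 343) (nat_lit 435) (nat_lit 302)) (XT.lf (nat_lit 0) (nat_lit 344902190319) (nat_lit 0) (nat_lit 0) (nat_lit 0) (nat_lit 0) (nat_lit 0) (nat_lit 0) (nat_lit 1) (nat_lit 0) (nat_lit 1) (nat_lit 0) (nat_lit 344) (nat_lit 435) (nat_lit 301))) (XT.nd (nat_lit 94) (nat_lit 0) (nat_lit 0) (XT.lf (nat_lit 0) (nat_lit 344901341990) (nat_lit 0) (nat_lit 0) (nat_lit 0) (nat_lit 0) (nat_lit 0) (nat_lit 0) (nat_lit 1) (nat_lit 0) (nat_lit 1) (nat_lit 0) (nat_lit 345) (nat_lit 435) (nat_lit 300)) (XT.nd (nat_lit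 94) (nat_lit 0) (nat_lit 0) (XT.lf (nat_lit 0) (nat_lit 344900556499) (nat_lit 0) (nat_lit 0) (nat_lit 0) (nat_lit 0) (nat_lit 0) (nat_lit 0) (nat_lit 1) (nat_lit 0) (nat_lit 1) (nat_lit 0) (nat_lit 346) (nat_lit 435) (nat_lit 299)) (XT.lf (nat_lit 0) (nat_lit 344899829194) (nat_lit 0) (nat_lit 0) (nat_lit 0) (nat_lit 0) (nat_lit 0) (nat_lit 0) (nat_lit 1) (nat_lit 0) (nat_lit 1) (nat_lit 0) (nat_lit 347) (nat_lit 435) (nat_lit 298))))))) (XT.nd (nat_lit 846) (nat_lit 0) (nat_lit 0) (XT.nd (nat_lit 376) (nat_lit 0) (nat_lit 0) (XT.nd (nat_lit 188) (nat_lit 0) (nat_lit 0) (XT.nd (nat_lit 94) (nat_lit 0) (nat_lit 0) (XT.lf (nat_lit 0) (nat_lit 344899155762) (nat_lit 0) (nat_lit 0) (nat_lit 0) (nat_lit 0) (nat_lit 0) (nat_lit 0) (nat_lit 1) (nat_lit 0) (nat_lit 1) (nat_lit 0) (nat_lit 348) (nat_lit 435) (nat_lit 297)) (XT.lf (nat_lit 0) (nat_lit 344898532215)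 (nat_lit 0) (nat_lit 0) (nat_lit 0) (nat_lit 0) (nat_lit 0) (nat_lit 0) (nat_lit 1) (nat_lit 0) (nat_lit 1) (nat_lit 0) (nat_lit 349) (nat_lit 435) (nat_lit 296))) (XT.nd (nat_lit 94) (nat_lit 0) (nat_lit 0) (XT.lf (nat_lit 0) (nat_lit 344897954856) (nat_lit 0) (nat_lit 0) (nat_lit 0) (nat_lit 0) (nat_lit 0) (nat_lit 0) (nat_lit 1) (nat_lit 0) (nat_lit 1) (nat_lit 0) (nat_lit 350) (nat_lit 435) (nat_lit 295)) (XT.lf (nat_lit 0) (nat_lit 344897420265) (nat_lit 0) (nat_lit 0) (nat_lit 0) (nat_lit 0) (nat_lit 0) (nat_lit 0) (nat_lit 1) (nat_lit 0) (nat_lit 1) (nat_lit 0) (nat_lit 351) (nat_lit 435) (nat_lit 294)))) (XT.nd (nat_lit 188) (nat_lit 0) (nat_lit 0) (XT.nd (nat_lit 94) (nat_lit 0) (nat_lit 0) (XT.lf (nat_lit 0) (nat_lit 344896925273) (nat_lit 0) (nat_lit 0) (nat_lit 0) (nat_lit 0) (nat_lit 0) (nat_lit 0) (nat_lit 1) (nat_lit 0) (nat_lit 1) (nat_lit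 0) (nat_lit 352) (nat_lit 435) (nat_lit 293)) (XT.lf (nat_lit 0) (nat_lit 344896466947) (nat_lit 0) (nat_lit 0) (nat_lit 0) (nat_lit 0) (nat_lit 0) (nat_lit 0) (nat_lit 1) (nat_lit 0) (nat_lit 1) (nat_lit 0) (nat_lit 353) (nat_lit 435) (nat_lit 292))) (XT.nd (nat_lit 94) (nat_lit 0) (nat_lit 0) (XT.lf (nat_lit 0) (nat_lit 344896042571) (nat_lit 0) (nat_lit 0) (nat_lit 0) (nat_lit 0) (nat_lit 0) (nat_lit 0) (nat_lit 1) (nat_lit 0) (nat_lit 1) (nat_lit 0) (nat_lit 354) (nat_lit 435) (nat_lit 291)) (XT.nd (nat_lit 94) (nat_lit 0) (nat_lit 0) (XT.lf (nat_lit 0) (nat_lit 344895649630) (nat_lit 0) (nat_lit 0) (nat_lit 0) (nat_lit 0) (nat_lit 0) (nat_lit 0) (nat_lit 1) (nat_lit 0) (nat_lit 1) (nat_lit 0) (nat_lit 355) (nat_lit 435) (nat_lit 290)) (XT.lf (nat_lit 0) (nat_lit 344895285796) (nat_lit 0) (nat_lit 0) (nat_lit 0) (nat_lit 0) (nat_lit 0) (nat_lit 0) (nat_lit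 1) (nat_lit 0) (nat_lit 1) (nat_lit 0) (nat_lit 356) (nat_lit 435) (nat_lit 289)))))) (XT.nd (nat_lit 470) (nat_lit 0) (nat_lit 0) (XT.nd (nat_lit 188) (nat_lit 0) (nat_lit 0) (XT.nd (nat_lit 94) (nat_lit 0) (nat_lit 0) (XT.lf (nat_lit 0) (nat_lit 344894948913) (nat_lit 0) (nat_lit 0) (nat_lit 0) (nat_lit 0) (nat_lit 0) (nat_lit 0) (nat_lit 1) (nat_lit 0) (nat_lit 1) (nat_lit 0) (nat_lit 357) (nat_lit 435) (nat_lit 288)) (XT.lf (nat_lit 0) (nat_lit 344894636984) (nat_lit 0) (nat_lit 0) (nat_lit 0) (nat_lit 0) (nat_lit 0) (nat_lit 0) (nat_lit 1) (nat_lit 0) (nat_lit 1) (nat_lit 0) (nat_lit 358) (nat_lit 435) (nat_lit 287))) (XT.nd (nat_lit 94) (nat_lit 0) (nat_lit 0) (XT.lf (nat_lit 0) (nat_lit 344894348161) (nat_lit 0) (nat_lit 0) (nat_lit 0) (nat_lit 0) (nat_lit 0) (nat_lit 0) (nat_lit 1) (nat_lit 0) (nat_lit 1) (nat_lit 0) (nat_lit 359) (nat_lit 435) (nat_lit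 286)) (XT.nd (nat_lit 94) (nat_lit 0) (nat_lit 0) (XT.lf (nat_lit 0) (nat_lit 344894080732) (nat_lit 0) (nat_lit 0) (nat_lit 0) (nat_lit 0) (nat_lit 0) (nat_lit 0) (nat_lit 1) (nat_lit 0) (nat_lit 1) (nat_lit 0) (nat_lit 360) (nat_lit 435) (nat_lit 285)) (XT.lf (nat_lit 0) (nat_lit 344893833113) (nat_lit 0) (nat_lit 0) (nat_lit 0) (nat_lit 0) (nat_lit 0) (nat_lit 0) (nat_lit 1) (nat_lit 0) (nat_lit 1) (nat_lit 0) (nat_lit 361) (nat_lit 435) (nat_lit 284))))) (XT.nd (nat_lit 188) (nat_lit 0) (nat_lit 0) (XT.nd (nat_lit 94) (nat_lit 0) (nat_lit 0) (XT.lf (nat_lit 0) (nat_lit 344893603836) (nat_lit 0) (nat_lit 0) (nat_lit 0) (nat_lit 0) (nat_lit 0) (nat_lit 0) (nat_lit 1) (nat_lit 0) (nat_lit 1) (nat_lit 0) (nat_lit 362) (nat_lit 435) (nat_lit 283)) (XT.lf (nat_lit 0) (nat_lit 344893391542) (nat_lit 0) (nat_lit 0) (nat_lit 0) (nat_lit 0) (nat_lit 0) (nat_lit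 0) (nat_lit 1) (nat_lit 0) (nat_lit 1) (nat_lit 0) (nat_lit 363) (nat_lit 435) (nat_lit 282))) (XT.nd (nat_lit 94) (nat_lit 0) (nat_lit 0) (XT.lf (nat_lit 0) (nat_lit 344893194974) (nat_lit 0) (nat_lit 0) (nat_lit 0) (nat_lit 0) (nat_lit 0) (nat_lit 0) (nat_lit 1) (nat_lit 0) (nat_lit 1) (nat_lit 0) (nat_lit 364) (nat_lit 435) (nat_lit 281)) (XT.nd (nat_lit 94) (nat_lit 0) (nat_lit 0) (XT.lf (nat_lit 0) (nat_lit 344893012966) (nat_lit 0) (nat_lit 0) (nat_lit 0) (nat_lit 0) (nat_lit 0) (nat_lit 0) (nat_lit 1) (nat_lit 0) (nat_lit 1) (nat_lit 0) (nat_lit 365) (nat_lit 435) (nat_lit 280)) (XT.lf (nat_lit 0) (nat_lit 344892844441) (nat_lit 0) (nat_lit 0) (nat_lit 0) (nat_lit 0) (nat_lit 0) (nat_lit 0) (nat_lit 1) (nat_lit 0) (nat_lit 1) (nat_lit 0) (nat_lit 366) (nat_lit 435) (nat_lit 279))))))))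
noncomputable def ec338 : XT := (XT.nd (nat_lit 1692) (nat_lit 0) (nat_lit 0) (XT.nd (nat_lit 846) (nat_lit 0) (nat_lit 0) (XT.nd (nat_lit 376) (nat_lit 0) (nat_lit 0) (XT.nd (nat_lit 188) (nat_lit 0) (nat_lit 0) (XT.nd (nat_lit 94) (nat_lit 0) (nat_lit 0) (XT.lf (nat_lit 0) (nat_lit 344892688399) (nat_lit 0) (nat_lit 0) (nat_lit 0) (nat_lit 0) (nat_lit 0) (nat_lit 0) (nat_lit 1) (nat_lit 0) (nat_lit 1) (nat_lit 0) (nat_lit 367) (nat_lit 435) (nat_lit 278)) (XT.lf (nat_lit 0) (nat_lit 344892543915) (nat_lit 0) (nat_lit 0) (nat_lit 0) (nat_lit 0) (nat_lit 0) (nat_lit 0) (nat_lit 1) (nat_lit 0) (nat_lit 1) (nat_lit 0) (nat_lit 368) (nat_lit 435) (nat_lit 277))) (XT.nd (nat_lit 94) (nat_lit 0) (nat_lit 0) (XT.lf (nat_lit 0) (nat_lit 344892410134) (nat_lit 0) (nat_lit 0) (nat_lit 0) (nat_lit 0) (nat_lit 0) (nat_lit 0) (nat_lit 1) (nat_lit 0) (nat_lit 1) (nat_lit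 0) (nat_lit 369) (nat_lit 435) (nat_lit 276)) (XT.lf (nat_lit 0) (nat_lit 344892286263) (nat_lit 0) (nat_lit 0) (nat_lit 0) (nat_lit 0) (nat_lit 0) (nat_lit 0) (nat_lit 1) (nat_lit 0) (nat_lit 1) (nat_lit 0) (nat_lit 370) (nat_lit 435) (nat_lit 275)))) (XT.nd (nat_lit 188) (nat_lit 0) (nat_lit 0) (XT.nd (nat_lit 94) (nat_lit 0) (nat_lit 0) (XT.lf (nat_lit 0) (nat_lit 344892171567) (nat_lit 0) (nat_lit 0) (nat_lit 0) (nat_lit 0) (nat_lit 0) (nat_lit 0) (nat_lit 1) (nat_lit 0) (nat_lit 1) (nat_lit 0) (nat_lit 371) (nat_lit 435) (nat_lit 274)) (XT.lf (nat_lit 0) (nat_lit 344892065368) (nat_lit 0) (nat_lit 0) (nat_lit 0) (nat_lit 0) (nat_lit 0) (nat_lit 0) (nat_lit 1) (nat_lit 0) (nat_lit 1) (nat_lit 0) (nat_lit 372) (nat_lit 435) (nat_lit 273))) (XT.nd (nat_lit 94) (nat_lit 0) (nat_lit 0) (XT.lf (nat_lit 0) (nat_lit 344891967035) (nat_lit 0) (nat_lit 0) (nat_lit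 0) (nat_lit 0) (nat_lit 0) (nat_lit 0) (nat_lit 1) (nat_lit 0) (nat_lit 1) (nat_lit 0) (nat_lit 373) (nat_lit 435) (nat_lit 272)) (XT.nd (nat_lit 94) (nat_lit 0) (nat_lit 0) (XT.lf (nat_lit 0) (nat_lit 344891875986) (nat_lit 0) (nat_lit 0) (nat_lit 0) (nat_lit 0) (nat_lit 0) (nat_lit 0) (nat_lit 1) (nat_lit 0) (nat_lit 1) (nat_lit 0) (nat_lit 374) (nat_lit 435) (nat_lit 271)) (XT.lf (nat_lit 0) (nat_lit 344891791681) (nat_lit 0) (nat_lit 0) (nat_lit 0) (nat_lit 0) (nat_lit 0) (nat_lit 0) (nat_lit 1) (nat_lit 0) (nat_lit 1) (nat_lit 0) (nat_lit 375) (nat_lit 435) (nat_lit 270)))))) (XT.nd (nat_lit 376) (nat_lit 0) (nat_lit 0) (XT.nd (nat_lit 188) (nat_lit 0) (nat_lit 0) (XT.nd (nat_lit 94) (nat_lit 0) (nat_lit 0) (XT.lf (nat_lit 0) (nat_lit 344891713621) (nat_lit 0) (nat_lit 0) (nat_lit 0) (nat_lit 0) (nat_lit 0) (nat_lit 0) (nat_lit 1) (nat_lit 0) (nat_lit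 1) (nat_lit 0) (nat_lit 376) (nat_lit 435) (nat_lit 269)) (XT.lf (nat_lit 0) (nat_lit 344891641343) (nat_lit 0) (nat_lit 0) (nat_lit 0) (nat_lit 0) (nat_lit 0) (nat_lit 0) (nat_lit 1) (nat_lit 0) (nat_lit 1) (nat_lit 0) (nat_lit 377) (nat_lit 435) (nat_lit 268))) (XT.nd (nat_lit 94) (nat_lit 0) (nat_lit 0) (XT.lf (nat_lit 0) (nat_lit 344891574419) (nat_lit 0) (nat_lit 0) (nat_lit 0) (nat_lit 0) (nat_lit 0) (nat_lit 0) (nat_lit 1) (nat_lit 0) (nat_lit 1) (nat_lit 0) (nat_lit 378) (nat_lit 435) (nat_lit 267)) (XT.lf (nat_lit 0) (nat_lit 344891512453) (nat_lit 0) (nat_lit 0) (nat_lit 0) (nat_lit 0) (nat_lit 0) (nat_lit 0) (nat_lit 1) (nat_lit 0) (nat_lit 1) (nat_lit 0) (nat_lit 379) (nat_lit 435) (nat_lit 266)))) (XT.nd (nat_lit 188) (nat_lit 0) (nat_lit 0) (XT.nd (nat_lit 94) (nat_lit 0) (nat_lit 0) (XT.lf (nat_lit 0) (nat_lit 344891455077) (nat_lit 0) (nat_lit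 0) (nat_lit 0) (nat_lit 0) (nat_lit 0) (nat_lit 0) (nat_lit 1) (nat_lit 0) (nat_lit 1) (nat_lit 0) (nat_lit 380) (nat_lit 435) (nat_lit 265)) (XT.lf (nat_lit 0) (nat_lit 344891401950) (nat_lit 0) (nat_lit 0) (nat_lit 0) (nat_lit 0) (nat_lit 0) (nat_lit 0) (nat_lit 1) (nat_lit 0) (nat_lit 1) (nat_lit 0) (nat_lit 381) (nat_lit 435) (nat_lit 264))) (XT.nd (nat_lit 94) (nat_lit 0) (nat_lit 0) (XT.lf (nat_lit 0) (nat_lit 344891352759) (nat_lit 0) (nat_lit 0) (nat_lit 0) (nat_lit 0) (nat_lit 0) (nat_lit 0) (nat_lit 1) (nat_lit 0) (nat_lit 1) (nat_lit 0) (nat_lit 382) (nat_lit 435) (nat_lit 263)) (XT.nd (nat_lit 94) (nat_lit 0) (nat_lit 0) (XT.lf (nat_lit 0) (nat_lit 344891307212) (nat_lit 0) (nat_lit 0) (nat_lit 0) (nat_lit 0) (nat_lit 0) (nat_lit 0) (nat_lit 1) (nat_lit 0) (nat_lit 1) (nat_lit 0) (nat_lit 383) (nat_lit 435) (nat_lit 262)) (XT.lf (nat_lit 0) (nat_lit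 344891265039) (nat_lit 0) (nat_lit 0) (nat_lit 0) (nat_lit 0) (nat_lit 0) (nat_lit 0) (nat_lit 1) (nat_lit 0) (nat_lit 1) (nat_lit 0) (nat_lit 384) (nat_lit 435) (nat_lit 261))))))) (XT.nd (nat_lit 846) (nat_lit 0) (nat_lit 0) (XT.nd (nat_lit 376) (nat_lit 0) (nat_lit 0) (XT.nd (nat_lit 188) (nat_lit 0) (nat_lit 0) (XT.nd (nat_lit 94) (nat_lit 0) (nat_lit 0) (XT.lf (nat_lit 0) (nat_lit 344891225989) (nat_lit 0) (nat_lit 0) (nat_lit 0) (nat_lit 0) (nat_lit 0) (nat_lit 0) (nat_lit 1) (nat_lit 0) (nat_lit 1) (nat_lit 0) (nat_lit 385) (nat_lit 435) (nat_lit 260)) (XT.lf (nat_lit 0) (nat_lit 344891189832) (nat_lit 0) (nat_lit 0) (nat_lit 0) (nat_lit 0) (nat_lit 0) (nat_lit 0) (nat_lit 1) (nat_lit 0) (nat_lit 1) (nat_lit 0) (nat_lit 386) (nat_lit 435) (nat_lit 259))) (XT.nd (nat_lit 94) (nat_lit 0) (nat_lit 0) (XT.lf (nat_lit 0) (nat_lit 344891156354) (nat_lit 0)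 (nat_lit 0) (nat_lit 0) (nat_lit 0) (nat_lit 0) (nat_lit 0) (nat_lit 1) (nat_lit 0) (nat_lit 1) (nat_lit 0) (nat_lit 387) (nat_lit 435) (nat_lit 258)) (XT.lf (nat_lit 0) (nat_lit 344891125355) (nat_lit 0) (nat_lit 0) (nat_lit 0) (nat_lit 0) (nat_lit 0) (nat_lit 0) (nat_lit 1) (nat_lit 0) (nat_lit 1) (nat_lit 0) (nat_lit 388) (nat_lit 435) (nat_lit 257)))) (XT.nd (nat_lit 188) (nat_lit 0) (nat_lit 0) (XT.nd (nat_lit 94) (nat_lit 0) (nat_lit 0) (XT.lf (nat_lit 0) (nat_lit 344891096653) (nat_lit 0) (nat_lit 0) (nat_lit 0) (nat_lit 0) (nat_lit 0) (nat_lit 0) (nat_lit 1) (nat_lit 0) (nat_lit 1) (nat_lit 0) (nat_lit 389) (nat_lit 435) (nat_lit 256)) (XT.lf (nat_lit 0) (nat_lit 344891070076) (nat_lit 0) (nat_lit 0) (nat_lit 0) (nat_lit 0) (nat_lit 0) (nat_lit 0) (nat_lit 1) (nat_lit 0) (nat_lit 1) (nat_lit 0) (nat_lit 390) (nat_lit 435) (nat_lit 255))) (XT.nd (nat_lit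 94) (nat_lit 0) (nat_lit 0) (XT.lf (nat_lit 0) (nat_lit 344891045469) (nat_lit 0) (nat_lit 0) (nat_lit 0) (nat_lit 0) (nat_lit 0) (nat_lit 0) (nat_lit 1) (nat_lit 0) (nat_lit 1) (nat_lit 0) (nat_lit 391) (nat_lit 435) (nat_lit 254)) (XT.nd (nat_lit 94) (nat_lit 0) (nat_lit 0) (XT.lf (nat_lit 0) (nat_lit 344891022684) (nat_lit 0) (nat_lit 0) (nat_lit 0) (nat_lit 0) (nat_lit 0) (nat_lit 0) (nat_lit 1) (nat_lit 0) (nat_lit 1) (nat_lit 0) (nat_lit 392) (nat_lit 435) (nat_lit 253)) (XT.lf (nat_lit 0) (nat_lit 344891001587) (nat_lit 0) (nat_lit 0) (nat_lit 0) (nat_lit 0) (nat_lit 0) (nat_lit 0) (nat_lit 1) (nat_lit 0) (nat_lit 1) (nat_lit 0) (nat_lit 393) (nat_lit 435) (nat_lit 252)))))) (XT.nd (nat_lit 470) (nat_lit 0) (nat_lit 0) (XT.nd (nat_lit 188) (nat_lit 0) (nat_lit 0) (XT.nd (nat_lit 94) (nat_lit 0) (nat_lit 0) (XT.lf (nat_lit 0) (nat_lit 344890982052) (nat_lit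 0) (nat_lit 0) (nat_lit 0) (nat_lit 0) (nat_lit 0) (nat_lit 0) (nat_lit 1) (nat_lit 0) (nat_lit 1) (nat_lit 0) (nat_lit 394) (nat_lit 435) (nat_lit 251)) (XT.lf (nat_lit 0) (nat_lit 344890963965) (nat_lit 0) (nat_lit 0) (nat_lit 0) (nat_lit 0) (nat_lit 0) (nat_lit 0) (nat_lit 1) (nat_lit 0) (nat_lit 1) (nat_lit 0) (nat_lit 395) (nat_lit 435) (nat_lit 250))) (XT.nd (nat_lit 94) (nat_lit 0) (nat_lit 0) (XT.lf (nat_lit 0) (nat_lit 344890947217) (nat_lit 0) (nat_lit 0) (nat_lit 0) (nat_lit 0) (nat_lit 0) (nat_lit 0) (nat_lit 1) (nat_lit 0) (nat_lit 1) (nat_lit 0) (nat_lit 396) (nat_lit 435) (nat_lit 249)) (XT.nd (nat_lit 94) (nat_lit 0) (nat_lit 0) (XT.lf (nat_lit 0) (nat_lit 344890931710) (nat_lit 0) (nat_lit 0) (nat_lit 0) (nat_lit 0) (nat_lit 0) (nat_lit 0) (nat_lit 1) (nat_lit 0) (nat_lit 1) (nat_lit 0) (nat_lit 397) (nat_lit 435) (nat_lit 248)) (XT.lf (nat_lit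 0) (nat_lit 344890917352) (nat_lit 0) (nat_lit 0) (nat_lit 0) (nat_lit 0) (nat_lit 0) (nat_lit 0) (nat_lit 1) (nat_lit 0) (nat_lit 1) (nat_lit 0) (nat_lit 398) (nat_lit 435) (nat_lit 247))))) (XT.nd (nat_lit 188) (nat_lit 0) (nat_lit 0) (XT.nd (nat_lit 94) (nat_lit 0) (nat_lit 0) (XT.lf (nat_lit 0) (nat_lit 344890904057) (nat_lit 0) (nat_lit 0) (nat_lit 0) (nat_lit 0) (nat_lit 0) (nat_lit 0) (nat_lit 1) (nat_lit 0) (nat_lit 1) (nat_lit 0) (nat_lit 399) (nat_lit 435) (nat_lit 246)) (XT.lf (nat_lit 0) (nat_lit 344890891747) (nat_lit 0) (nat_lit 0) (nat_lit 0) (nat_lit 0) (nat_lit 0) (nat_lit 0) (nat_lit 1) (nat_lit 0) (nat_lit 1) (nat_lit 0) (nat_lit 400) (nat_lit 435) (nat_lit 245))) (XT.nd (nat_lit 94) (nat_lit 0) (nat_lit 0) (XT.lf (nat_lit 0) (nat_lit 344890880349) (nat_lit 0) (nat_lit 0) (nat_lit 0) (nat_lit 0) (nat_lit 0) (nat_lit 0) (nat_lit 1) (nat_lit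 0) (nat_lit 1) (nat_lit 0) (nat_lit 401) (nat_lit 435) (nat_lit 244)) (XT.nd (nat_lit 94) (nat_lit 0) (nat_lit 0) (XT.lf (nat_lit 0) (nat_lit 344890869795) (nat_lit 0) (nat_lit 0) (nat_lit 0) (nat_lit 0) (nat_lit 0) (nat_lit 0) (nat_lit 1) (nat_lit 0) (nat_lit 1) (nat_lit 0) (nat_lit 402) (nat_lit 435) (nat_lit 243)) (XT.lf (nat_lit 0) (nat_lit 344890860023) (nat_lit 0) (nat_lit 0) (nat_lit 0) (nat_lit 0) (nat_lit 0) (nat_lit 0) (nat_lit 1) (nat_lit 0) (nat_lit 1) (nat_lit 0) (nat_lit 403) (nat_lit 435) (nat_lit 242))))))))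
noncomputable def ec339 : XT := (XT.nd (nat_lit 1786) (nat_lit 0) (nat_lit 0) (XT.nd (nat_lit 846) (nat_lit 0) (nat_lit 0) (XT.nd (nat_lit 376) (nat_lit 0) (nat_lit 0) (XT.nd (nat_lit 188) (nat_lit 0) (nat_lit 0) (XT.nd (nat_lit 94) (nat_lit 0) (nat_lit 0) (XT.lf (nat_lit 0) (nat_lit 344890850975) (nat_lit 0) (nat_lit 0) (nat_lit 0) (nat_lit 0) (nat_lit 0) (nat_lit 0) (nat_lit 1) (nat_lit 0) (nat_lit 1) (nat_lit 0) (nat_lit 404) (nat_lit 435) (nat_lit 241)) (XT.lf (nat_lit 0) (nat_lit 344890842597) (nat_lit 0) (nat_lit 0) (nat_lit 0) (nat_lit 0) (nat_lit 0) (nat_lit 0) (nat_lit 1) (nat_lit 0) (nat_lit 1) (nat_lit 0) (nat_lit 405) (nat_lit 435) (nat_lit 240))) (XT.nd (nat_lit 94) (nat_lit 0) (nat_lit 0) (XT.lf (nat_lit 0) (nat_lit 344890834839) (nat_lit 0) (nat_lit 0) (nat_lit 0) (nat_lit 0) (nat_lit 0) (nat_lit 0) (nat_lit 1) (nat_lit 0) (nat_lit 1) (nat_lit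 0) (nat_lit 406) (nat_lit 435) (nat_lit 239)) (XT.lf (nat_lit 0) (nat_lit 344890827656) (nat_lit 0) (nat_lit 0) (nat_lit 0) (nat_lit 0) (nat_lit 0) (nat_lit 0) (nat_lit 1) (nat_lit 0) (nat_lit 1) (nat_lit 0) (nat_lit 407) (nat_lit 435) (nat_lit 238)))) (XT.nd (nat_lit 188) (nat_lit 0) (nat_lit 0) (XT.nd (nat_lit 94) (nat_lit 0) (nat_lit 0) (XT.lf (nat_lit 0) (nat_lit 344890821006) (nat_lit 0) (nat_lit 0) (nat_lit 0) (nat_lit 0) (nat_lit 0) (nat_lit 0) (nat_lit 1) (nat_lit 0) (nat_lit 1) (nat_lit 0) (nat_lit 408) (nat_lit 435) (nat_lit 237)) (XT.lf (nat_lit 0) (nat_lit 344890814848) (nat_lit 0) (nat_lit 0) (nat_lit 0) (nat_lit 0) (nat_lit 0) (nat_lit 0) (nat_lit 1) (nat_lit 0) (nat_lit 1) (nat_lit 0) (nat_lit 409) (nat_lit 435) (nat_lit 236))) (XT.nd (nat_lit 94) (nat_lit 0) (nat_lit 0) (XT.lf (nat_lit 0) (nat_lit 344890809146) (nat_lit 0) (nat_lit 0) (nat_lit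 0) (nat_lit 0) (nat_lit 0) (nat_lit 0) (nat_lit 1) (nat_lit 0) (nat_lit 1) (nat_lit 0) (nat_lit 410) (nat_lit 435) (nat_lit 235)) (XT.nd (nat_lit 94) (nat_lit 0) (nat_lit 0) (XT.lf (nat_lit 0) (nat_lit 344890803866) (nat_lit 0) (nat_lit 0) (nat_lit 0) (nat_lit 0) (nat_lit 0) (nat_lit 0) (nat_lit 1) (nat_lit 0) (nat_lit 1) (nat_lit 0) (nat_lit 411) (nat_lit 435) (nat_lit 234)) (XT.lf (nat_lit 0) (nat_lit 344890798978) (nat_lit 0) (nat_lit 0) (nat_lit 0) (nat_lit 0) (nat_lit 0) (nat_lit 0) (nat_lit 1) (nat_lit 0) (nat_lit 1) (nat_lit 0) (nat_lit 412) (nat_lit 435) (nat_lit 233)))))) (XT.nd (nat_lit 470) (nat_lit 0) (nat_lit 0) (XT.nd (nat_lit 188) (nat_lit 0) (nat_lit 0) (XT.nd (nat_lit 94) (nat_lit 0) (nat_lit 0) (XT.lf (nat_lit 0) (nat_lit 344890794451) (nat_lit 0) (nat_lit 0) (nat_lit 0) (nat_lit 0) (nat_lit 0) (nat_lit 0) (nat_lit 1) (nat_lit 0) (nat_lit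 1) (nat_lit 0) (nat_lit 413) (nat_lit 435) (nat_lit 232)) (XT.lf (nat_lit 0) (nat_lit 344890790260) (nat_lit 0) (nat_lit 0) (nat_lit 0) (nat_lit 0) (nat_lit 0) (nat_lit 0) (nat_lit 1) (nat_lit 0) (nat_lit 1) (nat_lit 0) (nat_lit 414) (nat_lit 435) (nat_lit 231))) (XT.nd (nat_lit 94) (nat_lit 0) (nat_lit 0) (XT.lf (nat_lit 0) (nat_lit 344890786380) (nat_lit 0) (nat_lit 0) (nat_lit 0) (nat_lit 0) (nat_lit 0) (nat_lit 0) (nat_lit 1) (nat_lit 0) (nat_lit 1) (nat_lit 0) (nat_lit 415) (nat_lit 435) (nat_lit 230)) (XT.nd (nat_lit 94) (nat_lit 0) (nat_lit 0) (XT.lf (nat_lit 0) (nat_lit 344890782787) (nat_lit 0) (nat_lit 0) (nat_lit 0) (nat_lit 0) (nat_lit 0) (nat_lit 0) (nat_lit 1) (nat_lit 0) (nat_lit 1) (nat_lit 0) (nat_lit 416) (nat_lit 435) (nat_lit 229)) (XT.lf (nat_lit 0) (nat_lit 344890779460) (nat_lit 0) (nat_lit 0) (nat_lit 0) (nat_lit 0) (nat_lit 0) (nat_lit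 0) (nat_lit 1) (nat_lit 0) (nat_lit 1) (nat_lit 0) (nat_lit 417) (nat_lit 435) (nat_lit 228))))) (XT.nd (nat_lit 188) (nat_lit 0) (nat_lit 0) (XT.nd (nat_lit 94) (nat_lit 0) (nat_lit 0) (XT.lf (nat_lit 0) (nat_lit 344890776379) (nat_lit 0) (nat_lit 0) (nat_lit 0) (nat_lit 0) (nat_lit 0) (nat_lit 0) (nat_lit 1) (nat_lit 0) (nat_lit 1) (nat_lit 0) (nat_lit 418) (nat_lit 435) (nat_lit 227)) (XT.lf (nat_lit 0) (nat_lit 344890773527) (nat_lit 0) (nat_lit 0) (nat_lit 0) (nat_lit 0) (nat_lit 0) (nat_lit 0) (nat_lit 1) (nat_lit 0) (nat_lit 1) (nat_lit 0) (nat_lit 419) (nat_lit 435) (nat_lit 226))) (XT.nd (nat_lit 94) (nat_lit 0) (nat_lit 0) (XT.lf (nat_lit 0) (nat_lit 344890770885) (nat_lit 0) (nat_lit 0) (nat_lit 0) (nat_lit 0) (nat_lit 0) (nat_lit 0) (nat_lit 1) (nat_lit 0) (nat_lit 1) (nat_lit 0) (nat_lit 420) (nat_lit 435) (nat_lit 225)) (XT.nd (nat_lit 94) (nat_lit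 0) (nat_lit 0) (XT.lf (nat_lit 0) (nat_lit 344890768440) (nat_lit 0) (nat_lit 0) (nat_lit 0) (nat_lit 0) (nat_lit 0) (nat_lit 0) (nat_lit 1) (nat_lit 0) (nat_lit 1) (nat_lit 0) (nat_lit 421) (nat_lit 435) (nat_lit 224)) (XT.lf (nat_lit 0) (nat_lit 344890766176) (nat_lit 0) (nat_lit 0) (nat_lit 0) (nat_lit 0) (nat_lit 0) (nat_lit 0) (nat_lit 1) (nat_lit 0) (nat_lit 1) (nat_lit 0) (nat_lit 422) (nat_lit 435) (nat_lit 223))))))) (XT.nd (nat_lit 846) (nat_lit 0) (nat_lit 0) (XT.nd (nat_lit 376) (nat_lit 0) (nat_lit 0) (XT.nd (nat_lit 188) (nat_lit 0) (nat_lit 0) (XT.nd (nat_lit 94) (nat_lit 0) (nat_lit 0) (XT.lf (nat_lit 0) (nat_lit 344890764079) (nat_lit 0) (nat_lit 0) (nat_lit 0) (nat_lit 0) (nat_lit 0) (nat_lit 0) (nat_lit 1) (nat_lit 0) (nat_lit 1) (nat_lit 0) (nat_lit 423) (nat_lit 435) (nat_lit 222)) (XT.lf (nat_lit 0) (nat_lit 344890762138) (nat_lit 0)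 (nat_lit 0) (nat_lit 0) (nat_lit 0) (nat_lit 0) (nat_lit 0) (nat_lit 1) (nat_lit 0) (nat_lit 1) (nat_lit 0) (nat_lit 424) (nat_lit 435) (nat_lit 221))) (XT.nd (nat_lit 94) (nat_lit 0) (nat_lit 0) (XT.lf (nat_lit 0) (nat_lit 344890760340) (nat_lit 0) (nat_lit 0) (nat_lit 0) (nat_lit 0) (nat_lit 0) (nat_lit 0) (nat_lit 1) (nat_lit 0) (nat_lit 1) (nat_lit 0) (nat_lit 425) (nat_lit 435) (nat_lit 220)) (XT.lf (nat_lit 0) (nat_lit 344890758676) (nat_lit 0) (nat_lit 0) (nat_lit 0) (nat_lit 0) (nat_lit 0) (nat_lit 0) (nat_lit 1) (nat_lit 0) (nat_lit 1) (nat_lit 0) (nat_lit 426) (nat_lit 435) (nat_lit 219)))) (XT.nd (nat_lit 188) (nat_lit 0) (nat_lit 0) (XT.nd (nat_lit 94) (nat_lit 0) (nat_lit 0) (XT.lf (nat_lit 0) (nat_lit 344890757135) (nat_lit 0) (nat_lit 0) (nat_lit 0) (nat_lit 0) (nat_lit 0) (nat_lit 0) (nat_lit 1) (nat_lit 0) (nat_lit 1) (nat_lit 0) (nat_lit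 427) (nat_lit 435) (nat_lit 218)) (XT.lf (nat_lit 0) (nat_lit 344890755708) (nat_lit 0) (nat_lit 0) (nat_lit 0) (nat_lit 0) (nat_lit 0) (nat_lit 0) (nat_lit 1) (nat_lit 0) (nat_lit 1) (nat_lit 0) (nat_lit 428) (nat_lit 435) (nat_lit 217))) (XT.nd (nat_lit 94) (nat_lit 0) (nat_lit 0) (XT.lf (nat_lit 0) (nat_lit 344890754387) (nat_lit 0) (nat_lit 0) (nat_lit 0) (nat_lit 0) (nat_lit 0) (nat_lit 0) (nat_lit 1) (nat_lit 0) (nat_lit 1) (nat_lit 0) (nat_lit 429) (nat_lit 435) (nat_lit 216)) (XT.nd (nat_lit 94) (nat_lit 0) (nat_lit 0) (XT.lf (nat_lit 0) (nat_lit 344890753164) (nat_lit 0) (nat_lit 0) (nat_lit 0) (nat_lit 0) (nat_lit 0) (nat_lit 0) (nat_lit 1) (nat_lit 0) (nat_lit 1) (nat_lit 0) (nat_lit 430) (nat_lit 435) (nat_lit 215)) (XT.lf (nat_lit 0) (nat_lit 344890752031) (nat_lit 0) (nat_lit 0) (nat_lit 0) (nat_lit 0) (nat_lit 0) (nat_lit 0) (nat_lit 1) (nat_lit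 0) (nat_lit 1) (nat_lit 0) (nat_lit 431) (nat_lit 435) (nat_lit 214)))))) (XT.nd (nat_lit 470) (nat_lit 0) (nat_lit 0) (XT.nd (nat_lit 188) (nat_lit 0) (nat_lit 0) (XT.nd (nat_lit 94) (nat_lit 0) (nat_lit 0) (XT.lf (nat_lit 0) (nat_lit 344890750982) (nat_lit 0) (nat_lit 0) (nat_lit 0) (nat_lit 0) (nat_lit 0) (nat_lit 0) (nat_lit 1) (nat_lit 0) (nat_lit 1) (nat_lit 0) (nat_lit 432) (nat_lit 435) (nat_lit 213)) (XT.lf (nat_lit 0) (nat_lit 344890750011) (nat_lit 0) (nat_lit 0) (nat_lit 0) (nat_lit 0) (nat_lit 0) (nat_lit 0) (nat_lit 1) (nat_lit 0) (nat_lit 1) (nat_lit 0) (nat_lit 433) (nat_lit 435) (nat_lit 212))) (XT.nd (nat_lit 94) (nat_lit 0) (nat_lit 0) (XT.lf (nat_lit 0) (nat_lit 344890749112) (nat_lit 0) (nat_lit 0) (nat_lit 0) (nat_lit 0) (nat_lit 0) (nat_lit 0) (nat_lit 1) (nat_lit 0) (nat_lit 1) (nat_lit 0) (nat_lit 434) (nat_lit 435) (nat_lit 211))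 (XT.nd (nat_lit 94) (nat_lit 0) (nat_lit 0) (XT.lf (nat_lit 0) (nat_lit 344890748279) (nat_lit 0) (nat_lit 0) (nat_lit 0) (nat_lit 0) (nat_lit 0) (nat_lit 0) (nat_lit 1) (nat_lit 0) (nat_lit 1) (nat_lit 0) (nat_lit 435) (nat_lit 435) (nat_lit 210)) (XT.lf (nat_lit 0) (nat_lit 344890747508) (nat_lit 0) (nat_lit 0) (nat_lit 0) (nat_lit 0) (nat_lit 0) (nat_lit 0) (nat_lit 1) (nat_lit 0) (nat_lit 1) (nat_lit 0) (nat_lit 436) (nat_lit 435) (nat_lit 209))))) (XT.nd (nat_lit 188) (nat_lit 0) (nat_lit 0) (XT.nd (nat_lit 94) (nat_lit 0) (nat_lit 0) (XT.lf (nat_lit 0) (nat_lit 344890746794) (nat_lit 0) (nat_lit 0) (nat_lit 0) (nat_lit 0) (nat_lit 0) (nat_lit 0) (nat_lit 1) (nat_lit 0) (nat_lit 1) (nat_lit 0) (nat_lit 437) (nat_lit 435) (nat_lit 208)) (XT.lf (nat_lit 0) (nat_lit 344890746134) (nat_lit 0) (nat_lit 0) (nat_lit 0) (nat_lit 0) (nat_lit 0) (nat_lit 0) (nat_lit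 1) (nat_lit 0) (nat_lit 1) (nat_lit 0) (nat_lit 438) (nat_lit 435) (nat_lit 207))) (XT.nd (nat_lit 94) (nat_lit 0) (nat_lit 0) (XT.lf (nat_lit 0) (nat_lit 344890745522) (nat_lit 0) (nat_lit 0) (nat_lit 0) (nat_lit 0) (nat_lit 0) (nat_lit 0) (nat_lit 1) (nat_lit 0) (nat_lit 1) (nat_lit 0) (nat_lit 439) (nat_lit 435) (nat_lit 206)) (XT.nd (nat_lit 94) (nat_lit 0) (nat_lit 0) (XT.lf (nat_lit 0) (nat_lit 344890744955) (nat_lit 0) (nat_lit 0) (nat_lit 0) (nat_lit 0) (nat_lit 0) (nat_lit 0) (nat_lit 1) (nat_lit 0) (nat_lit 1) (nat_lit 0) (nat_lit 440) (nat_lit 435) (nat_lit 205)) (XT.lf (nat_lit 0) (nat_lit 344890744430) (nat_lit 0) (nat_lit 0) (nat_lit 0) (nat_lit 0) (nat_lit 0) (nat_lit 0) (nat_lit 1) (nat_lit 0) (nat_lit 1) (nat_lit 0) (nat_lit 441) (nat_lit 435) (nat_lit 204))))))))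
noncomputable def ec340 : XT := (XT.nd (nat_lit 47000) (nat_lit 0) (nat_lit 3696) (XT.nd (nat_lit 46154) (nat_lit 0) (nat_lit 8568) (XT.nd (nat_lit 376) (nat_lit 0) (nat_lit 0) (XT.nd (nat_lit 188) (nat_lit 0) (nat_lit 0) (XT.nd (nat_lit 94) (nat_lit 0) (nat_lit 0) (XT.lf (nat_lit 0) (nat_lit 344890743944) (nat_lit 0) (nat_lit 0) (nat_lit 0) (nat_lit 0) (nat_lit 0) (nat_lit 0) (nat_lit 1) (nat_lit 0) (nat_lit 1) (nat_lit 0) (nat_lit 442) (nat_lit 435) (nat_lit 203)) (XT.lf (nat_lit 0) (nat_lit 344890743495) (nat_lit 0) (nat_lit 0) (nat_lit 0) (nat_lit 0) (nat_lit 0) (nat_lit 0) (nat_lit 1) (nat_lit 0) (nat_lit 1) (nat_lit 0) (nat_lit 443) (nat_lit 435) (nat_lit 202))) (XT.nd (nat_lit 94) (nat_lit 0) (nat_lit 0) (XT.lf (nat_lit 0) (nat_lit 344890743078) (nat_lit 0) (nat_lit 0) (nat_lit 0) (nat_lit 0) (nat_lit 0) (nat_lit 0) (nat_lit 1) (nat_lit 0) (nat_lit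 1) (nat_lit 0) (nat_lit 444) (nat_lit 435) (nat_lit 201)) (XT.lf (nat_lit 0) (nat_lit 344890742692) (nat_lit 0) (nat_lit 0) (nat_lit 0) (nat_lit 0) (nat_lit 0) (nat_lit 0) (nat_lit 1) (nat_lit 0) (nat_lit 1) (nat_lit 0) (nat_lit 445) (nat_lit 435) (nat_lit 200)))) (XT.nd (nat_lit 45496) (nat_lit 0) (nat_lit 10836) (XT.nd (nat_lit 45402) (nat_lit 0) (nat_lit 10752) (XT.lf (nat_lit 0) (nat_lit 344890742335) (nat_lit 0) (nat_lit 0) (nat_lit 0) (nat_lit 0) (nat_lit 0) (nat_lit 0) (nat_lit 1) (nat_lit 0) (nat_lit 1) (nat_lit 0) (nat_lit 446) (nat_lit 435) (nat_lit 199)) (XT.lf (nat_lit 924) (nat_lit 186403943531) (nat_lit 0) (nat_lit 330959773274) (nat_lit 924) (nat_lit 186403943531) (nat_lit 139) (nat_lit 1) (nat_lit 128) (nat_lit 0) (nat_lit 139) (nat_lit 0) (nat_lit 208) (nat_lit 436) (nat_lit 436))) (XT.nd (nat_lit 94) (nat_lit 0) (nat_lit 0) (XT.lf (nat_lit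 924) (nat_lit 69534390581) (nat_lit 0) (nat_lit 649774340990) (nat_lit 840) (nat_lit 635477134640) (nat_lit 140) (nat_lit 1) (nat_lit 129) (nat_lit 1) (nat_lit 139) (nat_lit 1) (nat_lit 209) (nat_lit 436) (nat_lit 435)) (XT.nd (nat_lit 94) (nat_lit 0) (nat_lit 84) (XT.lf (nat_lit 924) (nat_lit 638633241659) (nat_lit 84) (nat_lit 435154095185) (nat_lit 0) (nat_lit 230785882053) (nat_lit 140) (nat_lit 1) (nat_lit 130) (nat_lit 1) (nat_lit 129) (nat_lit 1) (nat_lit 210) (nat_lit 436) (nat_lit 434)) (XT.lf (nat_lit 924) (nat_lit 551831438382) (nat_lit 84) (nat_lit 182370065089) (nat_lit 0) (nat_lit 522671836346) (nat_lit 141) (nat_lit 1) (nat_lit 131) (nat_lit 1) (nat_lit 130) (nat_lit 1) (nat_lit 211) (nat_lit 436) (nat_lit 433)))))) (XT.nd (nat_lit 376) (nat_lit 1764) (nat_lit 0) (XT.nd (nat_lit 188) (nat_lit 672) (nat_lit 0) (XT.nd (nat_lit 94) (nat_lit 0)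 (nat_lit 84) (XT.lf (nat_lit 924) (nat_lit 408402179482) (nat_lit 0) (nat_lit 764101173476) (nat_lit 840) (nat_lit 39060742820) (nat_lit 142) (nat_lit 1) (nat_lit 131) (nat_lit 1) (nat_lit 141) (nat_lit 1) (nat_lit 212) (nat_lit 436) (nat_lit 432)) (XT.lf (nat_lit 924) (nat_lit 97992098693) (nat_lit 0) (nat_lit 842633819296) (nat_lit 840) (nat_lit 227792767317) (nat_lit 143) (nat_lit 1) (nat_lit 132) (nat_lit 1) (nat_lit 142) (nat_lit 1) (nat_lit 213) (nat_lit 436) (nat_lit 431))) (XT.nd (nat_lit 94) (nat_lit 756) (nat_lit 0) (XT.lf (nat_lit 924) (nat_lit 188300956929) (nat_lit 84) (nat_lit 732317407585) (nat_lit 0) (nat_lit 206669007501) (nat_lit 143) (nat_lit 1) (nat_lit 133) (nat_lit 1) (nat_lit 132) (nat_lit 1) (nat_lit 214) (nat_lit 436) (nat_lit 430)) (XT.lf (nat_lit 924) (nat_lit 38672722715) (nat_lit 0) (nat_lit 547455703104) (nat_lit 840) (nat_lit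 502011143595) (nat_lit 134) (nat_lit 1) (nat_lit 123) (nat_lit 1) (nat_lit 133) (nat_lit 1) (nat_lit 215) (nat_lit 436) (nat_lit 429)))) (XT.nd (nat_lit 188) (nat_lit 756) (nat_lit 0) (XT.nd (nat_lit 94) (nat_lit 420) (nat_lit 0) (XT.lf (nat_lit 84) (nat_lit 267777987929) (nat_lit 0) (nat_lit 116040663548) (nat_lit 588) (nat_lit 667026725988) (nat_lit 117) (nat_lit 1) (nat_lit 116) (nat_lit 1) (nat_lit 123) (nat_lit 1) (nat_lit 216) (nat_lit 436) (nat_lit 428)) (XT.lf (nat_lit 504) (nat_lit 737962430374) (nat_lit 0) (nat_lit 240222680272) (nat_lit 420) (nat_lit 37139910683) (nat_lit 117) (nat_lit 1) (nat_lit 111) (nat_lit 1) (nat_lit 116) (nat_lit 1) (nat_lit 217) (nat_lit 436) (nat_lit 427))) (XT.nd (nat_lit 94) (nat_lit 336) (nat_lit 0) (XT.lf (nat_lit 504) (nat_lit 532520717169) (nat_lit 0) (nat_lit 111968826068) (nat_lit 420) (nat_lit 336842433755) (nat_lit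 112) (nat_lit 1) (nat_lit 106) (nat_lit 1) (nat_lit 111) (nat_lit 1) (nat_lit 218) (nat_lit 436) (nat_lit 426)) (XT.nd (nat_lit 94) (nat_lit 0) (nat_lit 0) (XT.lf (nat_lit 420) (nat_lit 324032064661) (nat_lit 0) (nat_lit 2061528047) (nat_lit 336) (nat_lit 622893588756) (nat_lit 107) (nat_lit 1) (nat_lit 102) (nat_lit 1) (nat_lit 106) (nat_lit 1) (nat_lit 219) (nat_lit 436) (nat_lit 425)) (XT.lf (nat_lit 84) (nat_lit 23905554359) (nat_lit 0) (nat_lit 806211129352) (nat_lit 420) (nat_lit 88013620571) (nat_lit 103) (nat_lit 1) (nat_lit 102) (nat_lit 1) (nat_lit 107) (nat_lit 1) (nat_lit 220) (nat_lit 436) (nat_lit 424))))))) (XT.nd (nat_lit 846) (nat_lit 2016) (nat_lit 0) (XT.nd (nat_lit 376) (nat_lit 1512) (nat_lit 0) (XT.nd (nat_lit 188) (nat_lit 588) (nat_lit 0) (XT.nd (nat_lit 94) (nat_lit 336) (nat_lit 0) (XT.lf (nat_lit 84) (nat_lit 617247613936) (nat_lit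 0) (nat_lit 102377121280) (nat_lit 420) (nat_lit 168838466086) (nat_lit 98) (nat_lit 1) (nat_lit 97) (nat_lit 1) (nat_lit 102) (nat_lit 1) (nat_lit 221) (nat_lit 436) (nat_lit 423)) (XT.lf (nat_lit 84) (nat_lit 308824622706) (nat_lit 0) (nat_lit 313599296082) (nat_lit 420) (nat_lit 237683023408) (nat_lit 94) (nat_lit 1) (nat_lit 93) (nat_lit 1) (nat_lit 98) (nat_lit 1) (nat_lit 222) (nat_lit 436) (nat_lit 422))) (XT.nd (nat_lit 94) (nat_lit 252) (nat_lit 0) (XT.lf (nat_lit 84) (nat_lit 15242898570) (nat_lit 0) (nat_lit 524333153545) (nat_lit 420) (nat_lit 293517206131) (nat_lit 90) (nat_lit 1) (nat_lit 89) (nat_lit 1) (nat_lit 94) (nat_lit 1) (nat_lit 223) (nat_lit 436) (nat_lit 421)) (XT.lf (nat_lit 336) (nat_lit 68836070857) (nat_lit 0) (nat_lit 465505397489) (nat_lit 252) (nat_lit 272796861410) (nat_lit 90) (nat_lit 1) (nat_lit 86) (nat_lit 1) (nat_lit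 89) (nat_lit 1) (nat_lit 224) (nat_lit 436) (nat_lit 420)))) (XT.nd (nat_lit 188) (nat_lit 840) (nat_lit 0) (XT.nd (nat_lit 94) (nat_lit 252) (nat_lit 0) (XT.lf (nat_lit 84) (nat_lit 237847132059) (nat_lit 0) (nat_lit 163021902230) (nat_lit 420) (nat_lit 381386612130) (nat_lit 82) (nat_lit 1) (nat_lit 81) (nat_lit 1) (nat_lit 86) (nat_lit 1) (nat_lit 225) (nat_lit 436) (nat_lit 419)) (XT.lf (nat_lit 336) (nat_lit 368244570082) (nat_lit 0) (nat_lit 345918179102) (nat_lit 252) (nat_lit 44277116380) (nat_lit 82) (nat_lit 1) (nat_lit 78) (nat_lit 1) (nat_lit 81) (nat_lit 1) (nat_lit 226) (nat_lit 436) (nat_lit 418))) (XT.nd (nat_lit 94) (nat_lit 588) (nat_lit 0) (XT.lf (nat_lit 336) (nat_lit 118020605699) (nat_lit 0) (nat_lit 297821386996) (nat_lit 252) (nat_lit 319697339121) (nat_lit 79) (nat_lit 1) (nat_lit 75) (nat_lit 1) (nat_lit 78) (nat_lit 1) (nat_lit 227)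 (nat_lit 436) (nat_lit 417)) (XT.nd (nat_lit 94) (nat_lit 252) (nat_lit 0) (XT.lf (nat_lit 84) (nat_lit 134514972916) (nat_lit 0) (nat_lit 123160147316) (nat_lit 336) (nat_lit 455914780122) (nat_lit 72) (nat_lit 1) (nat_lit 71) (nat_lit 1) (nat_lit 75) (nat_lit 1) (nat_lit 228) (nat_lit 436) (nat_lit 416)) (XT.lf (nat_lit 336) (nat_lit 334722855056) (nat_lit 0) (nat_lit 222712183885) (nat_lit 252) (nat_lit 135008858112) (nat_lit 72) (nat_lit 1) (nat_lit 68) (nat_lit 1) (nat_lit 71) (nat_lit 1) (nat_lit 229) (nat_lit 436) (nat_lit 415)))))) (XT.nd (nat_lit 470) (nat_lit 924) (nat_lit 0) (XT.nd (nat_lit 188) (nat_lit 588) (nat_lit 0) (XT.nd (nat_lit 94) (nat_lit 336) (nat_lit 0) (XT.lf (nat_lit 252) (nat_lit 82978290009) (nat_lit 0) (nat_lit 194300135768) (nat_lit 168) (nat_lit 394872556743) (nat_lit 69) (nat_lit 1) (nat_lit 66) (nat_lit 1) (nat_lit 68) (nat_lit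 1) (nat_lit 230) (nat_lit 436) (nat_lit 414)) (XT.lf (nat_lit 84) (nat_lit 14057052457) (nat_lit 0) (nat_lit 157301468631) (nat_lit 336) (nat_lit 481286153727) (nat_lit 63) (nat_lit 1) (nat_lit 62) (nat_lit 1) (nat_lit 66) (nat_lit 1) (nat_lit 231) (nat_lit 436) (nat_lit 413))) (XT.nd (nat_lit 94) (nat_lit 420) (nat_lit 0) (XT.lf (nat_lit 252) (nat_lit 241119685323) (nat_lit 0) (nat_lit 150679117708) (nat_lit 168) (nat_lit 241958784255) (nat_lit 63) (nat_lit 1) (nat_lit 60) (nat_lit 1) (nat_lit 62) (nat_lit 1) (nat_lit 232) (nat_lit 436) (nat_lit 412)) (XT.nd (nat_lit 94) (nat_lit 168) (nat_lit 0) (XT.lf (nat_lit 84) (nat_lit 130821464803) (nat_lit 0) (nat_lit 6042725477) (nat_lit 252) (nat_lit 478830476897) (nat_lit 58) (nat_lit 1) (nat_lit 57) (nat_lit 1) (nat_lit 60) (nat_lit 1) (nat_lit 233) (nat_lit 436) (nat_lit 411)) (XT.lf (nat_lit 252) (nat_lit 357640622544)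 (nat_lit 0) (nat_lit 123930494687) (nat_lit 168) (nat_lit 116586067324) (nat_lit 58) (nat_lit 1) (nat_lit 55) (nat_lit 1) (nat_lit 57) (nat_lit 1) (nat_lit 234) (nat_lit 436) (nat_lit 410))))) (XT.nd (nat_lit 188) (nat_lit 504) (nat_lit 0) (XT.nd (nat_lit 94) (nat_lit 252) (nat_lit 0) (XT.lf (nat_lit 252) (nat_lit 111097509023) (nat_lit 0) (nat_lit 115207099254) (nat_lit 168) (nat_lit 354985628373) (nat_lit 56) (nat_lit 1) (nat_lit 53) (nat_lit 1) (nat_lit 55) (nat_lit 1) (nat_lit 235) (nat_lit 436) (nat_lit 409)) (XT.lf (nat_lit 252) (nat_lit 441016281337) (nat_lit 0) (nat_lit 110071032546) (nat_lit 168) (nat_lit 13963787486) (nat_lit 53) (nat_lit 1) (nat_lit 50) (nat_lit 1) (nat_lit 52) (nat_lit 1) (nat_lit 236) (nat_lit 436) (nat_lit 408))) (XT.nd (nat_lit 94) (nat_lit 336) (nat_lit 0) (XT.lf (nat_lit 252) (nat_lit 197378448150) (nat_lit 0) (nat_lit 105080725993)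 (nat_lit 168) (nat_lit 246804026258) (nat_lit 51) (nat_lit 1) (nat_lit 48) (nat_lit 1) (nat_lit 50) (nat_lit 1) (nat_lit 237) (nat_lit 436) (nat_lit 407)) (XT.nd (nat_lit 94) (nat_lit 168) (nat_lit 0) (XT.lf (nat_lit 84) (nat_lit 67609739060) (nat_lit 0) (nat_lit 37161359172) (nat_lit 168) (nat_lit 429359042536) (nat_lit 47) (nat_lit 1) (nat_lit 46) (nat_lit 1) (nat_lit 48) (nat_lit 1) (nat_lit 238) (nat_lit 436) (nat_lit 406)) (XT.lf (nat_lit 252) (nat_lit 258971875346) (nat_lit 0) (nat_lit 103661688925) (nat_lit 168) (nat_lit 156745385237) (nat_lit 47) (nat_lit 1) (nat_lit 44) (nat_lit 1) (nat_lit 46) (nat_lit 1) (nat_lit 239) (nat_lit 436) (nat_lit 405))))))))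
noncomputable def ec341 : XT := (XT.nd (nat_lit 1786) (nat_lit 1008) (nat_lit 0) (XT.nd (nat_lit 846) (nat_lit 1260) (nat_lit 0) (XT.nd (nat_lit 376) (nat_lit 756) (nat_lit 0) (XT.nd (nat_lit 188) (nat_lit 336) (nat_lit 0) (XT.nd (nat_lit 94) (nat_lit 252) (nat_lit 0) (XT.lf (nat_lit 168) (nat_lit 27887591031) (nat_lit 0) (nat_lit 106207753964) (nat_lit 84) (nat_lit 371114771300) (nat_lit 45) (nat_lit 1) (nat_lit 43) (nat_lit 1) (nat_lit 44) (nat_lit 1) (nat_lit 240) (nat_lit 436) (nat_lit 404)) (XT.lf (nat_lit 252) (nat_lit 301036249208) (nat_lit 0) (nat_lit 108622190402) (nat_lit 168) (nat_lit 81773521953) (nat_lit 43) (nat_lit 1) (nat_lit 40) (nat_lit 1) (nat_lit 42) (nat_lit 1) (nat_lit 241) (nat_lit 436) (nat_lit 403))) (XT.nd (nat_lit 94) (nat_lit 252) (nat_lit 0) (XT.lf (nat_lit 168) (nat_lit 75712836510) (nat_lit 0) (nat_lit 112683683557) (nat_lit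 84) (nat_lit 289721638257) (nat_lit 41) (nat_lit 1) (nat_lit 39) (nat_lit 1) (nat_lit 40) (nat_lit 1) (nat_lit 242) (nat_lit 436) (nat_lit 402)) (XT.lf (nat_lit 252) (nat_lit 327742249405) (nat_lit 0) (nat_lit 118118450953) (nat_lit 168) (nat_lit 19384248951) (nat_lit 39) (nat_lit 1) (nat_lit 36) (nat_lit 1) (nat_lit 38) (nat_lit 1) (nat_lit 243) (nat_lit 436) (nat_lit 401)))) (XT.nd (nat_lit 188) (nat_lit 420) (nat_lit 0) (XT.nd (nat_lit 94) (nat_lit 252) (nat_lit 0) (XT.lf (nat_lit 168) (nat_lit 108961158933) (nat_lit 0) (nat_lit 123139904457) (nat_lit 84) (nat_lit 220615773276) (nat_lit 37) (nat_lit 1) (nat_lit 35) (nat_lit 1) (nat_lit 36) (nat_lit 1) (nat_lit 244) (nat_lit 436) (nat_lit 400)) (XT.lf (nat_lit 84) (nat_lit 31450526722) (nat_lit 0) (nat_lit 98714819888) (nat_lit 252) (nat_lit 310473450707) (nat_lit 33) (nat_lit 1) (nat_lit 32) (nat_lit 1)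 (nat_lit 35) (nat_lit 1) (nat_lit 245) (nat_lit 436) (nat_lit 399))) (XT.nd (nat_lit 94) (nat_lit 336) (nat_lit 0) (XT.lf (nat_lit 168) (nat_lit 130763221495) (nat_lit 0) (nat_lit 136249078762) (nat_lit 84) (nat_lit 161848408384) (nat_lit 33) (nat_lit 1) (nat_lit 31) (nat_lit 1) (nat_lit 32) (nat_lit 1) (nat_lit 246) (nat_lit 436) (nat_lit 398)) (XT.nd (nat_lit 94) (nat_lit 84) (nat_lit 0) (XT.lf (nat_lit 84) (nat_lit 73142214540) (nat_lit 0) (nat_lit 70843180645) (nat_lit 252) (nat_lit 273511135663) (nat_lit 29) (nat_lit 1) (nat_lit 28) (nat_lit 1) (nat_lit 31) (nat_lit 1) (nat_lit 247) (nat_lit 436) (nat_lit 397)) (XT.lf (nat_lit 168) (nat_lit 143643692221) (nat_lit 0) (nat_lit 150975069416) (nat_lit 84) (nat_lit 111803941855) (nat_lit 29) (nat_lit 1) (nat_lit 27) (nat_lit 1) (nat_lit 28) (nat_lit 1) (nat_lit 248) (nat_lit 436) (nat_lit 396)))))) (XT.nd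 (nat_lit 470) (nat_lit 588) (nat_lit 0) (XT.nd (nat_lit 188) (nat_lit 420) (nat_lit 0) (XT.nd (nat_lit 94) (nat_lit 84) (nat_lit 0) (XT.lf (nat_lit 84) (nat_lit 107682253215) (nat_lit 0) (nat_lit 51308666912) (nat_lit 168) (nat_lit 236723673473) (nat_lit 26) (nat_lit 1) (nat_lit 25) (nat_lit 1) (nat_lit 27) (nat_lit 1) (nat_lit 249) (nat_lit 436) (nat_lit 395)) (XT.lf (nat_lit 168) (nat_lit 149634478346) (nat_lit 0) (nat_lit 166516186452) (nat_lit 84) (nat_lit 69140508223) (nat_lit 26) (nat_lit 1) (nat_lit 24) (nat_lit 1) (nat_lit 25) (nat_lit 1) (nat_lit 250) (nat_lit 436) (nat_lit 394))) (XT.nd (nat_lit 94) (nat_lit 252) (nat_lit 0) (XT.lf (nat_lit 84) (nat_lit 136208038206) (nat_lit 0) (nat_lit 38276934544) (nat_lit 168) (nat_lit 200703393207) (nat_lit 23) (nat_lit 1) (nat_lit 22) (nat_lit 1) (nat_lit 24) (nat_lit 1) (nat_lit 251) (nat_lit 436) (nat_lit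 393)) (XT.nd (nat_lit 94) (nat_lit 168) (nat_lit 0) (XT.lf (nat_lit 168) (nat_lit 150367056867) (nat_lit 0) (nat_lit 182259062683) (nat_lit 84) (nat_lit 32741342340) (nat_lit 23) (nat_lit 1) (nat_lit 21) (nat_lit 1) (nat_lit 22) (nat_lit 1) (nat_lit 252) (nat_lit 436) (nat_lit 392)) (XT.lf (nat_lit 84) (nat_lit 159664872059) (nat_lit 0) (nat_lit 30273000317) (nat_lit 168) (nat_lit 165887234372) (nat_lit 20) (nat_lit 1) (nat_lit 19) (nat_lit 1) (nat_lit 21) (nat_lit 1) (nat_lit 253) (nat_lit 436) (nat_lit 391))))) (XT.nd (nat_lit 188) (nat_lit 336) (nat_lit 0) (XT.nd (nat_lit 94) (nat_lit 168) (nat_lit 0) (XT.lf (nat_lit 168) (nat_lit 147147744523) (nat_lit 0) (nat_lit 197741195064) (nat_lit 84) (nat_lit 1674963784) (nat_lit 20) (nat_lit 1) (nat_lit 18) (nat_lit 1) (nat_lit 19) (nat_lit 1) (nat_lit 254) (nat_lit 436) (nat_lit 390)) (XT.lf (nat_lit 84) (nat_lit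 178839966721) (nat_lit 0) (nat_lit 26113765492) (nat_lit 168) (nat_lit 132588412641) (nat_lit 17) (nat_lit 1) (nat_lit 16) (nat_lit 1) (nat_lit 18) (nat_lit 1) (nat_lit 255) (nat_lit 436) (nat_lit 389))) (XT.nd (nat_lit 94) (nat_lit 252) (nat_lit 0) (XT.lf (nat_lit 0) (nat_lit 24042477428) (nat_lit 0) (nat_lit 188170900622) (nat_lit 168) (nat_lit 116569396355) (nat_lit 15) (nat_lit 3) (nat_lit 15) (nat_lit 1) (nat_lit 17) (nat_lit 1) (nat_lit 256) (nat_lit 436) (nat_lit 388)) (XT.nd (nat_lit 94) (nat_lit 84) (nat_lit 0) (XT.lf (nat_lit 84) (nat_lit 194390290974) (nat_lit 0) (nat_lit 24853018534) (nat_lit 168) (nat_lit 101022074220) (nat_lit 14) (nat_lit 1) (nat_lit 13) (nat_lit 1) (nat_lit 15) (nat_lit 1) (nat_lit 257) (nat_lit 436) (nat_lit 387)) (XT.lf (nat_lit 0) (nat_lit 45930026504) (nat_lit 0) (nat_lit 179943044331) (nat_lit 168) (nat_lit 86101759532)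 (nat_lit 12) (nat_lit 3) (nat_lit 12) (nat_lit 1) (nat_lit 14) (nat_lit 1) (nat_lit 258) (nat_lit 436) (nat_lit 386))))))) (XT.nd (nat_lit 846) (nat_lit 0) (nat_lit 0) (XT.nd (nat_lit 376) (nat_lit 504) (nat_lit 0) (XT.nd (nat_lit 188) (nat_lit 252) (nat_lit 0) (XT.nd (nat_lit 94) (nat_lit 84) (nat_lit 0) (XT.lf (nat_lit 84) (nat_lit 206865386950) (nat_lit 0) (nat_lit 25736621164) (nat_lit 168) (nat_lit 71326054231) (nat_lit 11) (nat_lit 1) (nat_lit 10) (nat_lit 1) (nat_lit 12) (nat_lit 1) (nat_lit 259) (nat_lit 436) (nat_lit 385)) (XT.lf (nat_lit 0) (nat_lit 64572505759) (nat_lit 0) (nat_lit 173995898721) (nat_lit 168) (nat_lit 57509000415) (nat_lit 9) (nat_lit 3) (nat_lit 9) (nat_lit 1) (nat_lit 11) (nat_lit 1) (nat_lit 260) (nat_lit 436) (nat_lit 384))) (XT.nd (nat_lit 94) (nat_lit 84) (nat_lit 0) (XT.lf (nat_lit 84) (nat_lit 216726073821) (nat_lit 0) (nat_lit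 28166003593) (nat_lit 168) (nat_lit 43577649078) (nat_lit 8) (nat_lit 1) (nat_lit 7) (nat_lit 1) (nat_lit 9) (nat_lit 1) (nat_lit 261) (nat_lit 436) (nat_lit 383)) (XT.lf (nat_lit 0) (nat_lit 80417781492) (nat_lit 0) (nat_lit 169763422097) (nat_lit 168) (nat_lit 30851269415) (nat_lit 6) (nat_lit 3) (nat_lit 6) (nat_lit 1) (nat_lit 8) (nat_lit 1) (nat_lit 262) (nat_lit 436) (nat_lit 382)))) (XT.nd (nat_lit 188) (nat_lit 252) (nat_lit 0) (XT.nd (nat_lit 94) (nat_lit 84) (nat_lit 0) (XT.lf (nat_lit 84) (nat_lit 224359788567) (nat_lit 0) (nat_lit 31668438970) (nat_lit 168) (nat_lit 17807145113) (nat_lit 5) (nat_lit 1) (nat_lit 4) (nat_lit 1) (nat_lit 6) (nat_lit 1) (nat_lit 263) (nat_lit 436) (nat_lit 381)) (XT.lf (nat_lit 0) (nat_lit 93844641776) (nat_lit 0) (nat_lit 166796533315) (nat_lit 168) (nat_lit 6145985276) (nat_lit 3) (nat_lit 3) (nat_lit 3) (nat_lit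 1) (nat_lit 5) (nat_lit 1) (nat_lit 264) (nat_lit 436) (nat_lit 380))) (XT.nd (nat_lit 94) (nat_lit 0) (nat_lit 0) (XT.lf (nat_lit 0) (nat_lit 377115945629) (nat_lit 0) (nat_lit 0) (nat_lit 0) (nat_lit 0) (nat_lit 0) (nat_lit 0) (nat_lit 1) (nat_lit 0) (nat_lit 1) (nat_lit 0) (nat_lit 265) (nat_lit 436) (nat_lit 379)) (XT.nd (nat_lit 94) (nat_lit 0) (nat_lit 0) (XT.lf (nat_lit 0) (nat_lit 376772690167) (nat_lit 0) (nat_lit 0) (nat_lit 0) (nat_lit 0) (nat_lit 0) (nat_lit 0) (nat_lit 1) (nat_lit 0) (nat_lit 1) (nat_lit 0) (nat_lit 266) (nat_lit 436) (nat_lit 378)) (XT.lf (nat_lit 0) (nat_lit 376454861037) (nat_lit 0) (nat_lit 0) (nat_lit 0) (nat_lit 0) (nat_lit 0) (nat_lit 0) (nat_lit 1) (nat_lit 0) (nat_lit 1) (nat_lit 0) (nat_lit 267) (nat_lit 436) (nat_lit 377)))))) (XT.nd (nat_lit 470) (nat_lit 0) (nat_lit 0) (XT.nd (nat_lit 188) (nat_lit 0) (nat_lit 0)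 (XT.nd (nat_lit 94) (nat_lit 0) (nat_lit 0) (XT.lf (nat_lit 0) (nat_lit 376160574804) (nat_lit 0) (nat_lit 0) (nat_lit 0) (nat_lit 0) (nat_lit 0) (nat_lit 0) (nat_lit 1) (nat_lit 0) (nat_lit 1) (nat_lit 0) (nat_lit 268) (nat_lit 436) (nat_lit 376)) (XT.lf (nat_lit 0) (nat_lit 375888087552) (nat_lit 0) (nat_lit 0) (nat_lit 0) (nat_lit 0) (nat_lit 0) (nat_lit 0) (nat_lit 1) (nat_lit 0) (nat_lit 1) (nat_lit 0) (nat_lit 269) (nat_lit 436) (nat_lit 375))) (XT.nd (nat_lit 94) (nat_lit 0) (nat_lit 0) (XT.lf (nat_lit 0) (nat_lit 375635784541) (nat_lit 0) (nat_lit 0) (nat_lit 0) (nat_lit 0) (nat_lit 0) (nat_lit 0) (nat_lit 1) (nat_lit 0) (nat_lit 1) (nat_lit 0) (nat_lit 270) (nat_lit 436) (nat_lit 374)) (XT.nd (nat_lit 94) (nat_lit 0) (nat_lit 0) (XT.lf (nat_lit 0) (nat_lit 375402170642) (nat_lit 0) (nat_lit 0) (nat_lit 0) (nat_lit 0) (nat_lit 0) (nat_lit 0) (nat_lit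 1) (nat_lit 0) (nat_lit 1) (nat_lit 0) (nat_lit 271) (nat_lit 436) (nat_lit 373)) (XT.lf (nat_lit 0) (nat_lit 375185861476) (nat_lit 0) (nat_lit 0) (nat_lit 0) (nat_lit 0) (nat_lit 0) (nat_lit 0) (nat_lit 1) (nat_lit 0) (nat_lit 1) (nat_lit 0) (nat_lit 272) (nat_lit 436) (nat_lit 372))))) (XT.nd (nat_lit 188) (nat_lit 0) (nat_lit 0) (XT.nd (nat_lit 94) (nat_lit 0) (nat_lit 0) (XT.lf (nat_lit 0) (nat_lit 374985575211) (nat_lit 0) (nat_lit 0) (nat_lit 0) (nat_lit 0) (nat_lit 0) (nat_lit 0) (nat_lit 1) (nat_lit 0) (nat_lit 1) (nat_lit 0) (nat_lit 273) (nat_lit 436) (nat_lit 371)) (XT.lf (nat_lit 0) (nat_lit 374800124966) (nat_lit 0) (nat_lit 0) (nat_lit 0) (nat_lit 0) (nat_lit 0) (nat_lit 0) (nat_lit 1) (nat_lit 0) (nat_lit 1) (nat_lit 0) (nat_lit 274) (nat_lit 436) (nat_lit 370))) (XT.nd (nat_lit 94) (nat_lit 0) (nat_lit 0) (XT.lf (nat_lit 0) (nat_lit 374628411776)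 (nat_lit 0) (nat_lit 0) (nat_lit 0) (nat_lit 0) (nat_lit 0) (nat_lit 0) (nat_lit 1) (nat_lit 0) (nat_lit 1) (nat_lit 0) (nat_lit 275) (nat_lit 436) (nat_lit 369)) (XT.nd (nat_lit 94) (nat_lit 0) (nat_lit 0) (XT.lf (nat_lit 0) (nat_lit 374469418082) (nat_lit 0) (nat_lit 0) (nat_lit 0) (nat_lit 0) (nat_lit 0) (nat_lit 0) (nat_lit 1) (nat_lit 0) (nat_lit 1) (nat_lit 0) (nat_lit 276) (nat_lit 436) (nat_lit 368)) (XT.lf (nat_lit 0) (nat_lit 374322201698) (nat_lit 0) (nat_lit 0) (nat_lit 0) (nat_lit 0) (nat_lit 0) (nat_lit 0) (nat_lit 1) (nat_lit 0) (nat_lit 1) (nat_lit 0) (nat_lit 277) (nat_lit 436) (nat_lit 367))))))))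
noncomputable def ec342 : XT := (XT.nd (nat_lit 1692) (nat_lit 0) (nat_lit 0) (XT.nd (nat_lit 846) (nat_lit 0) (nat_lit 0) (XT.nd (nat_lit 376) (nat_lit 0) (nat_lit 0) (XT.nd (nat_lit 188) (nat_lit 0) (nat_lit 0) (XT.nd (nat_lit 94) (nat_lit 0) (nat_lit 0) (XT.lf (nat_lit 0) (nat_lit 374185890232) (nat_lit 0) (nat_lit 0) (nat_lit 0) (nat_lit 0) (nat_lit 0) (nat_lit 0) (nat_lit 1) (nat_lit 0) (nat_lit 1) (nat_lit 0) (nat_lit 278) (nat_lit 436) (nat_lit 366)) (XT.lf (nat_lit 0) (nat_lit 374059675911) (nat_lit 0) (nat_lit 0) (nat_lit 0) (nat_lit 0) (nat_lit 0) (nat_lit 0) (nat_lit 1) (nat_lit 0) (nat_lit 1) (nat_lit 0) (nat_lit 279) (nat_lit 436) (nat_lit 365))) (XT.nd (nat_lit 94) (nat_lit 0) (nat_lit 0) (XT.lf (nat_lit 0) (nat_lit 373942810799) (nat_lit 0) (nat_lit 0) (nat_lit 0) (nat_lit 0) (nat_lit 0) (nat_lit 0) (nat_lit 1) (nat_lit 0) (nat_lit 1) (nat_lit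 0) (nat_lit 280) (nat_lit 436) (nat_lit 364)) (XT.lf (nat_lit 0) (nat_lit 373834602362) (nat_lit 0) (nat_lit 0) (nat_lit 0) (nat_lit 0) (nat_lit 0) (nat_lit 0) (nat_lit 1) (nat_lit 0) (nat_lit 1) (nat_lit 0) (nat_lit 281) (nat_lit 436) (nat_lit 363)))) (XT.nd (nat_lit 188) (nat_lit 0) (nat_lit 0) (XT.nd (nat_lit 94) (nat_lit 0) (nat_lit 0) (XT.lf (nat_lit 0) (nat_lit 373734409365) (nat_lit 0) (nat_lit 0) (nat_lit 0) (nat_lit 0) (nat_lit 0) (nat_lit 0) (nat_lit 1) (nat_lit 0) (nat_lit 1) (nat_lit 0) (nat_lit 282) (nat_lit 436) (nat_lit 362)) (XT.lf (nat_lit 0) (nat_lit 373641638072) (nat_lit 0) (nat_lit 0) (nat_lit 0) (nat_lit 0) (nat_lit 0) (nat_lit 0) (nat_lit 1) (nat_lit 0) (nat_lit 1) (nat_lit 0) (nat_lit 283) (nat_lit 436) (nat_lit 361))) (XT.nd (nat_lit 94) (nat_lit 0) (nat_lit 0) (XT.lf (nat_lit 0) (nat_lit 373555738726) (nat_lit 0) (nat_lit 0) (nat_lit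 0) (nat_lit 0) (nat_lit 0) (nat_lit 0) (nat_lit 1) (nat_lit 0) (nat_lit 1) (nat_lit 0) (nat_lit 284) (nat_lit 436) (nat_lit 360)) (XT.nd (nat_lit 94) (nat_lit 0) (nat_lit 0) (XT.lf (nat_lit 0) (nat_lit 373476202294) (nat_lit 0) (nat_lit 0) (nat_lit 0) (nat_lit 0) (nat_lit 0) (nat_lit 0) (nat_lit 1) (nat_lit 0) (nat_lit 1) (nat_lit 0) (nat_lit 285) (nat_lit 436) (nat_lit 359)) (XT.lf (nat_lit 0) (nat_lit 373402557450) (nat_lit 0) (nat_lit 0) (nat_lit 0) (nat_lit 0) (nat_lit 0) (nat_lit 0) (nat_lit 1) (nat_lit 0) (nat_lit 1) (nat_lit 0) (nat_lit 286) (nat_lit 436) (nat_lit 358)))))) (XT.nd (nat_lit 376) (nat_lit 0) (nat_lit 0) (XT.nd (nat_lit 188) (nat_lit 0) (nat_lit 0) (XT.nd (nat_lit 94) (nat_lit 0) (nat_lit 0) (XT.lf (nat_lit 0) (nat_lit 373334367780) (nat_lit 0) (nat_lit 0) (nat_lit 0) (nat_lit 0) (nat_lit 0) (nat_lit 0) (nat_lit 1) (nat_lit 0) (nat_lit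 1) (nat_lit 0) (nat_lit 287) (nat_lit 436) (nat_lit 357)) (XT.lf (nat_lit 0) (nat_lit 373271229197) (nat_lit 0) (nat_lit 0) (nat_lit 0) (nat_lit 0) (nat_lit 0) (nat_lit 0) (nat_lit 1) (nat_lit 0) (nat_lit 1) (nat_lit 0) (nat_lit 288) (nat_lit 436) (nat_lit 356))) (XT.nd (nat_lit 94) (nat_lit 0) (nat_lit 0) (XT.lf (nat_lit 0) (nat_lit 373212767545) (nat_lit 0) (nat_lit 0) (nat_lit 0) (nat_lit 0) (nat_lit 0) (nat_lit 0) (nat_lit 1) (nat_lit 0) (nat_lit 1) (nat_lit 0) (nat_lit 289) (nat_lit 436) (nat_lit 355)) (XT.lf (nat_lit 0) (nat_lit 373158636386) (nat_lit 0) (nat_lit 0) (nat_lit 0) (nat_lit 0) (nat_lit 0) (nat_lit 0) (nat_lit 1) (nat_lit 0) (nat_lit 1) (nat_lit 0) (nat_lit 290) (nat_lit 436) (nat_lit 354)))) (XT.nd (nat_lit 188) (nat_lit 0) (nat_lit 0) (XT.nd (nat_lit 94) (nat_lit 0) (nat_lit 0) (XT.lf (nat_lit 0) (nat_lit 373108514943) (nat_lit 0) (nat_lit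 0) (nat_lit 0) (nat_lit 0) (nat_lit 0) (nat_lit 0) (nat_lit 1) (nat_lit 0) (nat_lit 1) (nat_lit 0) (nat_lit 291) (nat_lit 436) (nat_lit 353)) (XT.lf (nat_lit 0) (nat_lit 373062106199) (nat_lit 0) (nat_lit 0) (nat_lit 0) (nat_lit 0) (nat_lit 0) (nat_lit 0) (nat_lit 1) (nat_lit 0) (nat_lit 1) (nat_lit 0) (nat_lit 292) (nat_lit 436) (nat_lit 352))) (XT.nd (nat_lit 94) (nat_lit 0) (nat_lit 0) (XT.lf (nat_lit 0) (nat_lit 373019135140) (nat_lit 0) (nat_lit 0) (nat_lit 0) (nat_lit 0) (nat_lit 0) (nat_lit 0) (nat_lit 1) (nat_lit 0) (nat_lit 1) (nat_lit 0) (nat_lit 293) (nat_lit 436) (nat_lit 351)) (XT.nd (nat_lit 94) (nat_lit 0) (nat_lit 0) (XT.lf (nat_lit 0) (nat_lit 372979347122) (nat_lit 0) (nat_lit 0) (nat_lit 0) (nat_lit 0) (nat_lit 0) (nat_lit 0) (nat_lit 1) (nat_lit 0) (nat_lit 1) (nat_lit 0) (nat_lit 294) (nat_lit 436) (nat_lit 350)) (XT.lf (nat_lit 0) (nat_lit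 372942506365) (nat_lit 0) (nat_lit 0) (nat_lit 0) (nat_lit 0) (nat_lit 0) (nat_lit 0) (nat_lit 1) (nat_lit 0) (nat_lit 1) (nat_lit 0) (nat_lit 295) (nat_lit 436) (nat_lit 349))))))) (XT.nd (nat_lit 846) (nat_lit 0) (nat_lit 0) (XT.nd (nat_lit 376) (nat_lit 0) (nat_lit 0) (XT.nd (nat_lit 188) (nat_lit 0) (nat_lit 0) (XT.nd (nat_lit 94) (nat_lit 0) (nat_lit 0) (XT.lf (nat_lit 0) (nat_lit 372908394553) (nat_lit 0) (nat_lit 0) (nat_lit 0) (nat_lit 0) (nat_lit 0) (nat_lit 0) (nat_lit 1) (nat_lit 0) (nat_lit 1) (nat_lit 0) (nat_lit 296) (nat_lit 436) (nat_lit 348)) (XT.lf (nat_lit 0) (nat_lit 372876809542) (nat_lit 0) (nat_lit 0) (nat_lit 0) (nat_lit 0) (nat_lit 0) (nat_lit 0) (nat_lit 1) (nat_lit 0) (nat_lit 1) (nat_lit 0) (nat_lit 297) (nat_lit 436) (nat_lit 347))) (XT.nd (nat_lit 94) (nat_lit 0) (nat_lit 0) (XT.lf (nat_lit 0) (nat_lit 372847564161) (nat_lit 0)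 (nat_lit 0) (nat_lit 0) (nat_lit 0) (nat_lit 0) (nat_lit 0) (nat_lit 1) (nat_lit 0) (nat_lit 1) (nat_lit 0) (nat_lit 298) (nat_lit 436) (nat_lit 346)) (XT.lf (nat_lit 0) (nat_lit 372820485105) (nat_lit 0) (nat_lit 0) (nat_lit 0) (nat_lit 0) (nat_lit 0) (nat_lit 0) (nat_lit 1) (nat_lit 0) (nat_lit 1) (nat_lit 0) (nat_lit 299) (nat_lit 436) (nat_lit 345)))) (XT.nd (nat_lit 188) (nat_lit 0) (nat_lit 0) (XT.nd (nat_lit 94) (nat_lit 0) (nat_lit 0) (XT.lf (nat_lit 0) (nat_lit 372795411905) (nat_lit 0) (nat_lit 0) (nat_lit 0) (nat_lit 0) (nat_lit 0) (nat_lit 0) (nat_lit 1) (nat_lit 0) (nat_lit 1) (nat_lit 0) (nat_lit 300) (nat_lit 436) (nat_lit 344)) (XT.lf (nat_lit 0) (nat_lit 372772195979) (nat_lit 0) (nat_lit 0) (nat_lit 0) (nat_lit 0) (nat_lit 0) (nat_lit 0) (nat_lit 1) (nat_lit 0) (nat_lit 1) (nat_lit 0) (nat_lit 301) (nat_lit 436) (nat_lit 343))) (XT.nd (nat_lit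 94) (nat_lit 0) (nat_lit 0) (XT.lf (nat_lit 0) (nat_lit 372750699751) (nat_lit 0) (nat_lit 0) (nat_lit 0) (nat_lit 0) (nat_lit 0) (nat_lit 0) (nat_lit 1) (nat_lit 0) (nat_lit 1) (nat_lit 0) (nat_lit 302) (nat_lit 436) (nat_lit 342)) (XT.nd (nat_lit 94) (nat_lit 0) (nat_lit 0) (XT.lf (nat_lit 0) (nat_lit 372730795836) (nat_lit 0) (nat_lit 0) (nat_lit 0) (nat_lit 0) (nat_lit 0) (nat_lit 0) (nat_lit 1) (nat_lit 0) (nat_lit 1) (nat_lit 0) (nat_lit 303) (nat_lit 436) (nat_lit 341)) (XT.lf (nat_lit 0) (nat_lit 372712366285) (nat_lit 0) (nat_lit 0) (nat_lit 0) (nat_lit 0) (nat_lit 0) (nat_lit 0) (nat_lit 1) (nat_lit 0) (nat_lit 1) (nat_lit 0) (nat_lit 304) (nat_lit 436) (nat_lit 340)))))) (XT.nd (nat_lit 470) (nat_lit 0) (nat_lit 0) (XT.nd (nat_lit 188) (nat_lit 0) (nat_lit 0) (XT.nd (nat_lit 94) (nat_lit 0) (nat_lit 0) (XT.lf (nat_lit 0) (nat_lit 372695301886) (nat_lit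 0) (nat_lit 0) (nat_lit 0) (nat_lit 0) (nat_lit 0) (nat_lit 0) (nat_lit 1) (nat_lit 0) (nat_lit 1) (nat_lit 0) (nat_lit 305) (nat_lit 436) (nat_lit 339)) (XT.lf (nat_lit 0) (nat_lit 372679501517) (nat_lit 0) (nat_lit 0) (nat_lit 0) (nat_lit 0) (nat_lit 0) (nat_lit 0) (nat_lit 1) (nat_lit 0) (nat_lit 1) (nat_lit 0) (nat_lit 306) (nat_lit 436) (nat_lit 338))) (XT.nd (nat_lit 94) (nat_lit 0) (nat_lit 0) (XT.lf (nat_lit 0) (nat_lit 372664871546) (nat_lit 0) (nat_lit 0) (nat_lit 0) (nat_lit 0) (nat_lit 0) (nat_lit 0) (nat_lit 1) (nat_lit 0) (nat_lit 1) (nat_lit 0) (nat_lit 307) (nat_lit 436) (nat_lit 337)) (XT.nd (nat_lit 94) (nat_lit 0) (nat_lit 0) (XT.lf (nat_lit 0) (nat_lit 372651325276) (nat_lit 0) (nat_lit 0) (nat_lit 0) (nat_lit 0) (nat_lit 0) (nat_lit 0) (nat_lit 1) (nat_lit 0) (nat_lit 1) (nat_lit 0) (nat_lit 308) (nat_lit 436) (nat_lit 336)) (XT.lf (nat_lit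 0) (nat_lit 372638782433) (nat_lit 0) (nat_lit 0) (nat_lit 0) (nat_lit 0) (nat_lit 0) (nat_lit 0) (nat_lit 1) (nat_lit 0) (nat_lit 1) (nat_lit 0) (nat_lit 309) (nat_lit 436) (nat_lit 335))))) (XT.nd (nat_lit 188) (nat_lit 0) (nat_lit 0) (XT.nd (nat_lit 94) (nat_lit 0) (nat_lit 0) (XT.lf (nat_lit 0) (nat_lit 372627168690) (nat_lit 0) (nat_lit 0) (nat_lit 0) (nat_lit 0) (nat_lit 0) (nat_lit 0) (nat_lit 1) (nat_lit 0) (nat_lit 1) (nat_lit 0) (nat_lit 310) (nat_lit 436) (nat_lit 334)) (XT.lf (nat_lit 0) (nat_lit 372616415224) (nat_lit 0) (nat_lit 0) (nat_lit 0) (nat_lit 0) (nat_lit 0) (nat_lit 0) (nat_lit 1) (nat_lit 0) (nat_lit 1) (nat_lit 0) (nat_lit 311) (nat_lit 436) (nat_lit 333))) (XT.nd (nat_lit 94) (nat_lit 0) (nat_lit 0) (XT.lf (nat_lit 0) (nat_lit 372606458312) (nat_lit 0) (nat_lit 0) (nat_lit 0) (nat_lit 0) (nat_lit 0) (nat_lit 0) (nat_lit 1) (nat_lit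 0) (nat_lit 1) (nat_lit 0) (nat_lit 312) (nat_lit 436) (nat_lit 332)) (XT.nd (nat_lit 94) (nat_lit 0) (nat_lit 0) (XT.lf (nat_lit 0) (nat_lit 372597238948) (nat_lit 0) (nat_lit 0) (nat_lit 0) (nat_lit 0) (nat_lit 0) (nat_lit 0) (nat_lit 1) (nat_lit 0) (nat_lit 1) (nat_lit 0) (nat_lit 313) (nat_lit 436) (nat_lit 331)) (XT.lf (nat_lit 0) (nat_lit 372588702500) (nat_lit 0) (nat_lit 0) (nat_lit 0) (nat_lit 0) (nat_lit 0) (nat_lit 0) (nat_lit 1) (nat_lit 0) (nat_lit 1) (nat_lit 0) (nat_lit 314) (nat_lit 436) (nat_lit 330))))))))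
noncomputable def ec343 : XT := (XT.nd (nat_lit 1786) (nat_lit 0) (nat_lit 0) (XT.nd (nat_lit 846) (nat_lit 0) (nat_lit 0) (XT.nd (nat_lit 376) (nat_lit 0) (nat_lit 0) (XT.nd (nat_lit 188) (nat_lit 0) (nat_lit 0) (XT.nd (nat_lit 94) (nat_lit 0) (nat_lit 0) (XT.lf (nat_lit 0) (nat_lit 372580798382) (nat_lit 0) (nat_lit 0) (nat_lit 0) (nat_lit 0) (nat_lit 0) (nat_lit 0) (nat_lit 1) (nat_lit 0) (nat_lit 1) (nat_lit 0) (nat_lit 315) (nat_lit 436) (nat_lit 329)) (XT.lf (nat_lit 0) (nat_lit 372573479753) (nat_lit 0) (nat_lit 0) (nat_lit 0) (nat_lit 0) (nat_lit 0) (nat_lit 0) (nat_lit 1) (nat_lit 0) (nat_lit 1) (nat_lit 0) (nat_lit 316) (nat_lit 436) (nat_lit 328))) (XT.nd (nat_lit 94) (nat_lit 0) (nat_lit 0) (XT.lf (nat_lit 0) (nat_lit 372566703246) (nat_lit 0) (nat_lit 0) (nat_lit 0) (nat_lit 0) (nat_lit 0) (nat_lit 0) (nat_lit 1) (nat_lit 0) (nat_lit 1) (nat_lit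 0) (nat_lit 317) (nat_lit 436) (nat_lit 327)) (XT.lf (nat_lit 0) (nat_lit 372560428702) (nat_lit 0) (nat_lit 0) (nat_lit 0) (nat_lit 0) (nat_lit 0) (nat_lit 0) (nat_lit 1) (nat_lit 0) (nat_lit 1) (nat_lit 0) (nat_lit 318) (nat_lit 436) (nat_lit 326)))) (XT.nd (nat_lit 188) (nat_lit 0) (nat_lit 0) (XT.nd (nat_lit 94) (nat_lit 0) (nat_lit 0) (XT.lf (nat_lit 0) (nat_lit 372554618939) (nat_lit 0) (nat_lit 0) (nat_lit 0) (nat_lit 0) (nat_lit 0) (nat_lit 0) (nat_lit 1) (nat_lit 0) (nat_lit 1) (nat_lit 0) (nat_lit 319) (nat_lit 436) (nat_lit 325)) (XT.lf (nat_lit 0) (nat_lit 372549239529) (nat_lit 0) (nat_lit 0) (nat_lit 0) (nat_lit 0) (nat_lit 0) (nat_lit 0) (nat_lit 1) (nat_lit 0) (nat_lit 1) (nat_lit 0) (nat_lit 320) (nat_lit 436) (nat_lit 324))) (XT.nd (nat_lit 94) (nat_lit 0) (nat_lit 0) (XT.lf (nat_lit 0) (nat_lit 372544258593) (nat_lit 0) (nat_lit 0) (nat_lit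 0) (nat_lit 0) (nat_lit 0) (nat_lit 0) (nat_lit 1) (nat_lit 0) (nat_lit 1) (nat_lit 0) (nat_lit 321) (nat_lit 436) (nat_lit 323)) (XT.nd (nat_lit 94) (nat_lit 0) (nat_lit 0) (XT.lf (nat_lit 0) (nat_lit 372539646616) (nat_lit 0) (nat_lit 0) (nat_lit 0) (nat_lit 0) (nat_lit 0) (nat_lit 0) (nat_lit 1) (nat_lit 0) (nat_lit 1) (nat_lit 0) (nat_lit 322) (nat_lit 436) (nat_lit 322)) (XT.lf (nat_lit 0) (nat_lit 372535376267) (nat_lit 0) (nat_lit 0) (nat_lit 0) (nat_lit 0) (nat_lit 0) (nat_lit 0) (nat_lit 1) (nat_lit 0) (nat_lit 1) (nat_lit 0) (nat_lit 323) (nat_lit 436) (nat_lit 321)))))) (XT.nd (nat_lit 470) (nat_lit 0) (nat_lit 0) (XT.nd (nat_lit 188) (nat_lit 0) (nat_lit 0) (XT.nd (nat_lit 94) (nat_lit 0) (nat_lit 0) (XT.lf (nat_lit 0) (nat_lit 372531422240) (nat_lit 0) (nat_lit 0) (nat_lit 0) (nat_lit 0) (nat_lit 0) (nat_lit 0) (nat_lit 1) (nat_lit 0) (nat_lit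 1) (nat_lit 0) (nat_lit 324) (nat_lit 436) (nat_lit 320)) (XT.lf (nat_lit 0) (nat_lit 372527761104) (nat_lit 0) (nat_lit 0) (nat_lit 0) (nat_lit 0) (nat_lit 0) (nat_lit 0) (nat_lit 1) (nat_lit 0) (nat_lit 1) (nat_lit 0) (nat_lit 325) (nat_lit 436) (nat_lit 319))) (XT.nd (nat_lit 94) (nat_lit 0) (nat_lit 0) (XT.lf (nat_lit 0) (nat_lit 372524371163) (nat_lit 0) (nat_lit 0) (nat_lit 0) (nat_lit 0) (nat_lit 0) (nat_lit 0) (nat_lit 1) (nat_lit 0) (nat_lit 1) (nat_lit 0) (nat_lit 326) (nat_lit 436) (nat_lit 318)) (XT.nd (nat_lit 94) (nat_lit 0) (nat_lit 0) (XT.lf (nat_lit 0) (nat_lit 372521232329) (nat_lit 0) (nat_lit 0) (nat_lit 0) (nat_lit 0) (nat_lit 0) (nat_lit 0) (nat_lit 1) (nat_lit 0) (nat_lit 1) (nat_lit 0) (nat_lit 327) (nat_lit 436) (nat_lit 317)) (XT.lf (nat_lit 0) (nat_lit 372518326001) (nat_lit 0) (nat_lit 0) (nat_lit 0) (nat_lit 0) (nat_lit 0) (nat_lit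 0) (nat_lit 1) (nat_lit 0) (nat_lit 1) (nat_lit 0) (nat_lit 328) (nat_lit 436) (nat_lit 316))))) (XT.nd (nat_lit 188) (nat_lit 0) (nat_lit 0) (XT.nd (nat_lit 94) (nat_lit 0) (nat_lit 0) (XT.lf (nat_lit 0) (nat_lit 372515634956) (nat_lit 0) (nat_lit 0) (nat_lit 0) (nat_lit 0) (nat_lit 0) (nat_lit 0) (nat_lit 1) (nat_lit 0) (nat_lit 1) (nat_lit 0) (nat_lit 329) (nat_lit 436) (nat_lit 315)) (XT.lf (nat_lit 0) (nat_lit 372513143249) (nat_lit 0) (nat_lit 0) (nat_lit 0) (nat_lit 0) (nat_lit 0) (nat_lit 0) (nat_lit 1) (nat_lit 0) (nat_lit 1) (nat_lit 0) (nat_lit 330) (nat_lit 436) (nat_lit 314))) (XT.nd (nat_lit 94) (nat_lit 0) (nat_lit 0) (XT.lf (nat_lit 0) (nat_lit 372510836112) (nat_lit 0) (nat_lit 0) (nat_lit 0) (nat_lit 0) (nat_lit 0) (nat_lit 0) (nat_lit 1) (nat_lit 0) (nat_lit 1) (nat_lit 0) (nat_lit 331) (nat_lit 436) (nat_lit 313)) (XT.nd (nat_lit 94) (nat_lit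 0) (nat_lit 0) (XT.lf (nat_lit 0) (nat_lit 372508699874) (nat_lit 0) (nat_lit 0) (nat_lit 0) (nat_lit 0) (nat_lit 0) (nat_lit 0) (nat_lit 1) (nat_lit 0) (nat_lit 1) (nat_lit 0) (nat_lit 332) (nat_lit 436) (nat_lit 312)) (XT.lf (nat_lit 0) (nat_lit 372506721876) (nat_lit 0) (nat_lit 0) (nat_lit 0) (nat_lit 0) (nat_lit 0) (nat_lit 0) (nat_lit 1) (nat_lit 0) (nat_lit 1) (nat_lit 0) (nat_lit 333) (nat_lit 436) (nat_lit 311))))))) (XT.nd (nat_lit 846) (nat_lit 0) (nat_lit 0) (XT.nd (nat_lit 376) (nat_lit 0) (nat_lit 0) (XT.nd (nat_lit 188) (nat_lit 0) (nat_lit 0) (XT.nd (nat_lit 94) (nat_lit 0) (nat_lit 0) (XT.lf (nat_lit 0) (nat_lit 372504890397) (nat_lit 0) (nat_lit 0) (nat_lit 0) (nat_lit 0) (nat_lit 0) (nat_lit 0) (nat_lit 1) (nat_lit 0) (nat_lit 1) (nat_lit 0) (nat_lit 334) (nat_lit 436) (nat_lit 310)) (XT.lf (nat_lit 0) (nat_lit 372503194582) (nat_lit 0)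 (nat_lit 0) (nat_lit 0) (nat_lit 0) (nat_lit 0) (nat_lit 0) (nat_lit 1) (nat_lit 0) (nat_lit 1) (nat_lit 0) (nat_lit 335) (nat_lit 436) (nat_lit 309))) (XT.nd (nat_lit 94) (nat_lit 0) (nat_lit 0) (XT.lf (nat_lit 0) (nat_lit 372501624384) (nat_lit 0) (nat_lit 0) (nat_lit 0) (nat_lit 0) (nat_lit 0) (nat_lit 0) (nat_lit 1) (nat_lit 0) (nat_lit 1) (nat_lit 0) (nat_lit 336) (nat_lit 436) (nat_lit 308)) (XT.lf (nat_lit 0) (nat_lit 372500170496) (nat_lit 0) (nat_lit 0) (nat_lit 0) (nat_lit 0) (nat_lit 0) (nat_lit 0) (nat_lit 1) (nat_lit 0) (nat_lit 1) (nat_lit 0) (nat_lit 337) (nat_lit 436) (nat_lit 307)))) (XT.nd (nat_lit 188) (nat_lit 0) (nat_lit 0) (XT.nd (nat_lit 94) (nat_lit 0) (nat_lit 0) (XT.lf (nat_lit 0) (nat_lit 372498824304) (nat_lit 0) (nat_lit 0) (nat_lit 0) (nat_lit 0) (nat_lit 0) (nat_lit 0) (nat_lit 1) (nat_lit 0) (nat_lit 1) (nat_lit 0) (nat_lit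 338) (nat_lit 436) (nat_lit 306)) (XT.lf (nat_lit 0) (nat_lit 372497577830) (nat_lit 0) (nat_lit 0) (nat_lit 0) (nat_lit 0) (nat_lit 0) (nat_lit 0) (nat_lit 1) (nat_lit 0) (nat_lit 1) (nat_lit 0) (nat_lit 339) (nat_lit 436) (nat_lit 305))) (XT.nd (nat_lit 94) (nat_lit 0) (nat_lit 0) (XT.lf (nat_lit 0) (nat_lit 372496423687) (nat_lit 0) (nat_lit 0) (nat_lit 0) (nat_lit 0) (nat_lit 0) (nat_lit 0) (nat_lit 1) (nat_lit 0) (nat_lit 1) (nat_lit 0) (nat_lit 340) (nat_lit 436) (nat_lit 304)) (XT.nd (nat_lit 94) (nat_lit 0) (nat_lit 0) (XT.lf (nat_lit 0) (nat_lit 372495355036) (nat_lit 0) (nat_lit 0) (nat_lit 0) (nat_lit 0) (nat_lit 0) (nat_lit 0) (nat_lit 1) (nat_lit 0) (nat_lit 1) (nat_lit 0) (nat_lit 341) (nat_lit 436) (nat_lit 303)) (XT.lf (nat_lit 0) (nat_lit 372494365545) (nat_lit 0) (nat_lit 0) (nat_lit 0) (nat_lit 0) (nat_lit 0) (nat_lit 0) (nat_lit 1) (nat_lit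 0) (nat_lit 1) (nat_lit 0) (nat_lit 342) (nat_lit 436) (nat_lit 302)))))) (XT.nd (nat_lit 470) (nat_lit 0) (nat_lit 0) (XT.nd (nat_lit 188) (nat_lit 0) (nat_lit 0) (XT.nd (nat_lit 94) (nat_lit 0) (nat_lit 0) (XT.lf (nat_lit 0) (nat_lit 372493449349) (nat_lit 0) (nat_lit 0) (nat_lit 0) (nat_lit 0) (nat_lit 0) (nat_lit 0) (nat_lit 1) (nat_lit 0) (nat_lit 1) (nat_lit 0) (nat_lit 343) (nat_lit 436) (nat_lit 301)) (XT.lf (nat_lit 0) (nat_lit 372492601019) (nat_lit 0) (nat_lit 0) (nat_lit 0) (nat_lit 0) (nat_lit 0) (nat_lit 0) (nat_lit 1) (nat_lit 0) (nat_lit 1) (nat_lit 0) (nat_lit 344) (nat_lit 436) (nat_lit 300))) (XT.nd (nat_lit 94) (nat_lit 0) (nat_lit 0) (XT.lf (nat_lit 0) (nat_lit 372491815529) (nat_lit 0) (nat_lit 0) (nat_lit 0) (nat_lit 0) (nat_lit 0) (nat_lit 0) (nat_lit 1) (nat_lit 0) (nat_lit 1) (nat_lit 0) (nat_lit 345) (nat_lit 436) (nat_lit 299))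 (XT.nd (nat_lit 94) (nat_lit 0) (nat_lit 0) (XT.lf (nat_lit 0) (nat_lit 372491088223) (nat_lit 0) (nat_lit 0) (nat_lit 0) (nat_lit 0) (nat_lit 0) (nat_lit 0) (nat_lit 1) (nat_lit 0) (nat_lit 1) (nat_lit 0) (nat_lit 346) (nat_lit 436) (nat_lit 298)) (XT.lf (nat_lit 0) (nat_lit 372490414792) (nat_lit 0) (nat_lit 0) (nat_lit 0) (nat_lit 0) (nat_lit 0) (nat_lit 0) (nat_lit 1) (nat_lit 0) (nat_lit 1) (nat_lit 0) (nat_lit 347) (nat_lit 436) (nat_lit 297))))) (XT.nd (nat_lit 188) (nat_lit 0) (nat_lit 0) (XT.nd (nat_lit 94) (nat_lit 0) (nat_lit 0) (XT.lf (nat_lit 0) (nat_lit 372489791245) (nat_lit 0) (nat_lit 0) (nat_lit 0) (nat_lit 0) (nat_lit 0) (nat_lit 0) (nat_lit 1) (nat_lit 0) (nat_lit 1) (nat_lit 0) (nat_lit 348) (nat_lit 436) (nat_lit 296)) (XT.lf (nat_lit 0) (nat_lit 372489213886) (nat_lit 0) (nat_lit 0) (nat_lit 0) (nat_lit 0) (nat_lit 0) (nat_lit 0) (nat_lit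 1) (nat_lit 0) (nat_lit 1) (nat_lit 0) (nat_lit 349) (nat_lit 436) (nat_lit 295))) (XT.nd (nat_lit 94) (nat_lit 0) (nat_lit 0) (XT.lf (nat_lit 0) (nat_lit 372488679295) (nat_lit 0) (nat_lit 0) (nat_lit 0) (nat_lit 0) (nat_lit 0) (nat_lit 0) (nat_lit 1) (nat_lit 0) (nat_lit 1) (nat_lit 0) (nat_lit 350) (nat_lit 436) (nat_lit 294)) (XT.nd (nat_lit 94) (nat_lit 0) (nat_lit 0) (XT.lf (nat_lit 0) (nat_lit 372488184303) (nat_lit 0) (nat_lit 0) (nat_lit 0) (nat_lit 0) (nat_lit 0) (nat_lit 0) (nat_lit 1) (nat_lit 0) (nat_lit 1) (nat_lit 0) (nat_lit 351) (nat_lit 436) (nat_lit 293)) (XT.lf (nat_lit 0) (nat_lit 372487725977) (nat_lit 0) (nat_lit 0) (nat_lit 0) (nat_lit 0) (nat_lit 0) (nat_lit 0) (nat_lit 1) (nat_lit 0) (nat_lit 1) (nat_lit 0) (nat_lit 352) (nat_lit 436) (nat_lit 292))))))))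
noncomputable def ec344 : XT := (XT.nd (nat_lit 1692) (nat_lit 0) (nat_lit 0) (XT.nd (nat_lit 846) (nat_lit 0) (nat_lit 0) (XT.nd (nat_lit 376) (nat_lit 0) (nat_lit 0) (XT.nd (nat_lit 188) (nat_lit 0) (nat_lit 0) (XT.nd (nat_lit 94) (nat_lit 0) (nat_lit 0) (XT.lf (nat_lit 0) (nat_lit 372487301601) (nat_lit 0) (nat_lit 0) (nat_lit 0) (nat_lit 0) (nat_lit 0) (nat_lit 0) (nat_lit 1) (nat_lit 0) (nat_lit 1) (nat_lit 0) (nat_lit 353) (nat_lit 436) (nat_lit 291)) (XT.lf (nat_lit 0) (nat_lit 372486908660) (nat_lit 0) (nat_lit 0) (nat_lit 0) (nat_lit 0) (nat_lit 0) (nat_lit 0) (nat_lit 1) (nat_lit 0) (nat_lit 1) (nat_lit 0) (nat_lit 354) (nat_lit 436) (nat_lit 290))) (XT.nd (nat_lit 94) (nat_lit 0) (nat_lit 0) (XT.lf (nat_lit 0) (nat_lit 372486544826) (nat_lit 0) (nat_lit 0) (nat_lit 0) (nat_lit 0) (nat_lit 0) (nat_lit 0) (nat_lit 1) (nat_lit 0) (nat_lit 1) (nat_lit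 0) (nat_lit 355) (nat_lit 436) (nat_lit 289)) (XT.lf (nat_lit 0) (nat_lit 372486207943) (nat_lit 0) (nat_lit 0) (nat_lit 0) (nat_lit 0) (nat_lit 0) (nat_lit 0) (nat_lit 1) (nat_lit 0) (nat_lit 1) (nat_lit 0) (nat_lit 356) (nat_lit 436) (nat_lit 288)))) (XT.nd (nat_lit 188) (nat_lit 0) (nat_lit 0) (XT.nd (nat_lit 94) (nat_lit 0) (nat_lit 0) (XT.lf (nat_lit 0) (nat_lit 372485896014) (nat_lit 0) (nat_lit 0) (nat_lit 0) (nat_lit 0) (nat_lit 0) (nat_lit 0) (nat_lit 1) (nat_lit 0) (nat_lit 1) (nat_lit 0) (nat_lit 357) (nat_lit 436) (nat_lit 287)) (XT.lf (nat_lit 0) (nat_lit 372485607191) (nat_lit 0) (nat_lit 0) (nat_lit 0) (nat_lit 0) (nat_lit 0) (nat_lit 0) (nat_lit 1) (nat_lit 0) (nat_lit 1) (nat_lit 0) (nat_lit 358) (nat_lit 436) (nat_lit 286))) (XT.nd (nat_lit 94) (nat_lit 0) (nat_lit 0) (XT.lf (nat_lit 0) (nat_lit 372485339762) (nat_lit 0) (nat_lit 0) (nat_lit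 0) (nat_lit 0) (nat_lit 0) (nat_lit 0) (nat_lit 1) (nat_lit 0) (nat_lit 1) (nat_lit 0) (nat_lit 359) (nat_lit 436) (nat_lit 285)) (XT.nd (nat_lit 94) (nat_lit 0) (nat_lit 0) (XT.lf (nat_lit 0) (nat_lit 372485092143) (nat_lit 0) (nat_lit 0) (nat_lit 0) (nat_lit 0) (nat_lit 0) (nat_lit 0) (nat_lit 1) (nat_lit 0) (nat_lit 1) (nat_lit 0) (nat_lit 360) (nat_lit 436) (nat_lit 284)) (XT.lf (nat_lit 0) (nat_lit 372484862865) (nat_lit 0) (nat_lit 0) (nat_lit 0) (nat_lit 0) (nat_lit 0) (nat_lit 0) (nat_lit 1) (nat_lit 0) (nat_lit 1) (nat_lit 0) (nat_lit 361) (nat_lit 436) (nat_lit 283)))))) (XT.nd (nat_lit 376) (nat_lit 0) (nat_lit 0) (XT.nd (nat_lit 188) (nat_lit 0) (nat_lit 0) (XT.nd (nat_lit 94) (nat_lit 0) (nat_lit 0) (XT.lf (nat_lit 0) (nat_lit 372484650572) (nat_lit 0) (nat_lit 0) (nat_lit 0) (nat_lit 0) (nat_lit 0) (nat_lit 0) (nat_lit 1) (nat_lit 0) (nat_lit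 1) (nat_lit 0) (nat_lit 362) (nat_lit 436) (nat_lit 282)) (XT.lf (nat_lit 0) (nat_lit 372484454004) (nat_lit 0) (nat_lit 0) (nat_lit 0) (nat_lit 0) (nat_lit 0) (nat_lit 0) (nat_lit 1) (nat_lit 0) (nat_lit 1) (nat_lit 0) (nat_lit 363) (nat_lit 436) (nat_lit 281))) (XT.nd (nat_lit 94) (nat_lit 0) (nat_lit 0) (XT.lf (nat_lit 0) (nat_lit 372484271996) (nat_lit 0) (nat_lit 0) (nat_lit 0) (nat_lit 0) (nat_lit 0) (nat_lit 0) (nat_lit 1) (nat_lit 0) (nat_lit 1) (nat_lit 0) (nat_lit 364) (nat_lit 436) (nat_lit 280)) (XT.lf (nat_lit 0) (nat_lit 372484103471) (nat_lit 0) (nat_lit 0) (nat_lit 0) (nat_lit 0) (nat_lit 0) (nat_lit 0) (nat_lit 1) (nat_lit 0) (nat_lit 1) (nat_lit 0) (nat_lit 365) (nat_lit 436) (nat_lit 279)))) (XT.nd (nat_lit 188) (nat_lit 0) (nat_lit 0) (XT.nd (nat_lit 94) (nat_lit 0) (nat_lit 0) (XT.lf (nat_lit 0) (nat_lit 372483947428) (nat_lit 0) (nat_lit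 0) (nat_lit 0) (nat_lit 0) (nat_lit 0) (nat_lit 0) (nat_lit 1) (nat_lit 0) (nat_lit 1) (nat_lit 0) (nat_lit 366) (nat_lit 436) (nat_lit 278)) (XT.lf (nat_lit 0) (nat_lit 372483802945) (nat_lit 0) (nat_lit 0) (nat_lit 0) (nat_lit 0) (nat_lit 0) (nat_lit 0) (nat_lit 1) (nat_lit 0) (nat_lit 1) (nat_lit 0) (nat_lit 367) (nat_lit 436) (nat_lit 277))) (XT.nd (nat_lit 94) (nat_lit 0) (nat_lit 0) (XT.lf (nat_lit 0) (nat_lit 372483669164) (nat_lit 0) (nat_lit 0) (nat_lit 0) (nat_lit 0) (nat_lit 0) (nat_lit 0) (nat_lit 1) (nat_lit 0) (nat_lit 1) (nat_lit 0) (nat_lit 368) (nat_lit 436) (nat_lit 276)) (XT.nd (nat_lit 94) (nat_lit 0) (nat_lit 0) (XT.lf (nat_lit 0) (nat_lit 372483545293) (nat_lit 0) (nat_lit 0) (nat_lit 0) (nat_lit 0) (nat_lit 0) (nat_lit 0) (nat_lit 1) (nat_lit 0) (nat_lit 1) (nat_lit 0) (nat_lit 369) (nat_lit 436) (nat_lit 275)) (XT.lf (nat_lit 0) (nat_lit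 372483430597) (nat_lit 0) (nat_lit 0) (nat_lit 0) (nat_lit 0) (nat_lit 0) (nat_lit 0) (nat_lit 1) (nat_lit 0) (nat_lit 1) (nat_lit 0) (nat_lit 370) (nat_lit 436) (nat_lit 274))))))) (XT.nd (nat_lit 846) (nat_lit 0) (nat_lit 0) (XT.nd (nat_lit 376) (nat_lit 0) (nat_lit 0) (XT.nd (nat_lit 188) (nat_lit 0) (nat_lit 0) (XT.nd (nat_lit 94) (nat_lit 0) (nat_lit 0) (XT.lf (nat_lit 0) (nat_lit 372483324397) (nat_lit 0) (nat_lit 0) (nat_lit 0) (nat_lit 0) (nat_lit 0) (nat_lit 0) (nat_lit 1) (nat_lit 0) (nat_lit 1) (nat_lit 0) (nat_lit 371) (nat_lit 436) (nat_lit 273)) (XT.lf (nat_lit 0) (nat_lit 372483226064) (nat_lit 0) (nat_lit 0) (nat_lit 0) (nat_lit 0) (nat_lit 0) (nat_lit 0) (nat_lit 1) (nat_lit 0) (nat_lit 1) (nat_lit 0) (nat_lit 372) (nat_lit 436) (nat_lit 272))) (XT.nd (nat_lit 94) (nat_lit 0) (nat_lit 0) (XT.lf (nat_lit 0) (nat_lit 372483135015) (nat_lit 0)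 (nat_lit 0) (nat_lit 0) (nat_lit 0) (nat_lit 0) (nat_lit 0) (nat_lit 1) (nat_lit 0) (nat_lit 1) (nat_lit 0) (nat_lit 373) (nat_lit 436) (nat_lit 271)) (XT.lf (nat_lit 0) (nat_lit 372483050711) (nat_lit 0) (nat_lit 0) (nat_lit 0) (nat_lit 0) (nat_lit 0) (nat_lit 0) (nat_lit 1) (nat_lit 0) (nat_lit 1) (nat_lit 0) (nat_lit 374) (nat_lit 436) (nat_lit 270)))) (XT.nd (nat_lit 188) (nat_lit 0) (nat_lit 0) (XT.nd (nat_lit 94) (nat_lit 0) (nat_lit 0) (XT.lf (nat_lit 0) (nat_lit 372482972651) (nat_lit 0) (nat_lit 0) (nat_lit 0) (nat_lit 0) (nat_lit 0) (nat_lit 0) (nat_lit 1) (nat_lit 0) (nat_lit 1) (nat_lit 0) (nat_lit 375) (nat_lit 436) (nat_lit 269)) (XT.lf (nat_lit 0) (nat_lit 372482900373) (nat_lit 0) (nat_lit 0) (nat_lit 0) (nat_lit 0) (nat_lit 0) (nat_lit 0) (nat_lit 1) (nat_lit 0) (nat_lit 1) (nat_lit 0) (nat_lit 376) (nat_lit 436) (nat_lit 268))) (XT.nd (nat_lit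 94) (nat_lit 0) (nat_lit 0) (XT.lf (nat_lit 0) (nat_lit 372482833449) (nat_lit 0) (nat_lit 0) (nat_lit 0) (nat_lit 0) (nat_lit 0) (nat_lit 0) (nat_lit 1) (nat_lit 0) (nat_lit 1) (nat_lit 0) (nat_lit 377) (nat_lit 436) (nat_lit 267)) (XT.nd (nat_lit 94) (nat_lit 0) (nat_lit 0) (XT.lf (nat_lit 0) (nat_lit 372482771483) (nat_lit 0) (nat_lit 0) (nat_lit 0) (nat_lit 0) (nat_lit 0) (nat_lit 0) (nat_lit 1) (nat_lit 0) (nat_lit 1) (nat_lit 0) (nat_lit 378) (nat_lit 436) (nat_lit 266)) (XT.lf (nat_lit 0) (nat_lit 372482714106) (nat_lit 0) (nat_lit 0) (nat_lit 0) (nat_lit 0) (nat_lit 0) (nat_lit 0) (nat_lit 1) (nat_lit 0) (nat_lit 1) (nat_lit 0) (nat_lit 379) (nat_lit 436) (nat_lit 265)))))) (XT.nd (nat_lit 470) (nat_lit 0) (nat_lit 0) (XT.nd (nat_lit 188) (nat_lit 0) (nat_lit 0) (XT.nd (nat_lit 94) (nat_lit 0) (nat_lit 0) (XT.lf (nat_lit 0) (nat_lit 372482660980) (nat_lit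 0) (nat_lit 0) (nat_lit 0) (nat_lit 0) (nat_lit 0) (nat_lit 0) (nat_lit 1) (nat_lit 0) (nat_lit 1) (nat_lit 0) (nat_lit 380) (nat_lit 436) (nat_lit 264)) (XT.lf (nat_lit 0) (nat_lit 372482611789) (nat_lit 0) (nat_lit 0) (nat_lit 0) (nat_lit 0) (nat_lit 0) (nat_lit 0) (nat_lit 1) (nat_lit 0) (nat_lit 1) (nat_lit 0) (nat_lit 381) (nat_lit 436) (nat_lit 263))) (XT.nd (nat_lit 94) (nat_lit 0) (nat_lit 0) (XT.lf (nat_lit 0) (nat_lit 372482566242) (nat_lit 0) (nat_lit 0) (nat_lit 0) (nat_lit 0) (nat_lit 0) (nat_lit 0) (nat_lit 1) (nat_lit 0) (nat_lit 1) (nat_lit 0) (nat_lit 382) (nat_lit 436) (nat_lit 262)) (XT.nd (nat_lit 94) (nat_lit 0) (nat_lit 0) (XT.lf (nat_lit 0) (nat_lit 372482524069) (nat_lit 0) (nat_lit 0) (nat_lit 0) (nat_lit 0) (nat_lit 0) (nat_lit 0) (nat_lit 1) (nat_lit 0) (nat_lit 1) (nat_lit 0) (nat_lit 383) (nat_lit 436) (nat_lit 261)) (XT.lf (nat_lit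 0) (nat_lit 372482485019) (nat_lit 0) (nat_lit 0) (nat_lit 0) (nat_lit 0) (nat_lit 0) (nat_lit 0) (nat_lit 1) (nat_lit 0) (nat_lit 1) (nat_lit 0) (nat_lit 384) (nat_lit 436) (nat_lit 260))))) (XT.nd (nat_lit 188) (nat_lit 0) (nat_lit 0) (XT.nd (nat_lit 94) (nat_lit 0) (nat_lit 0) (XT.lf (nat_lit 0) (nat_lit 372482448862) (nat_lit 0) (nat_lit 0) (nat_lit 0) (nat_lit 0) (nat_lit 0) (nat_lit 0) (nat_lit 1) (nat_lit 0) (nat_lit 1) (nat_lit 0) (nat_lit 385) (nat_lit 436) (nat_lit 259)) (XT.lf (nat_lit 0) (nat_lit 372482415384) (nat_lit 0) (nat_lit 0) (nat_lit 0) (nat_lit 0) (nat_lit 0) (nat_lit 0) (nat_lit 1) (nat_lit 0) (nat_lit 1) (nat_lit 0) (nat_lit 386) (nat_lit 436) (nat_lit 258))) (XT.nd (nat_lit 94) (nat_lit 0) (nat_lit 0) (XT.lf (nat_lit 0) (nat_lit 372482384385) (nat_lit 0) (nat_lit 0) (nat_lit 0) (nat_lit 0) (nat_lit 0) (nat_lit 0) (nat_lit 1) (nat_lit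 0) (nat_lit 1) (nat_lit 0) (nat_lit 387) (nat_lit 436) (nat_lit 257)) (XT.nd (nat_lit 94) (nat_lit 0) (nat_lit 0) (XT.lf (nat_lit 0) (nat_lit 372482355683) (nat_lit 0) (nat_lit 0) (nat_lit 0) (nat_lit 0) (nat_lit 0) (nat_lit 0) (nat_lit 1) (nat_lit 0) (nat_lit 1) (nat_lit 0) (nat_lit 388) (nat_lit 436) (nat_lit 256)) (XT.lf (nat_lit 0) (nat_lit 372482329106) (nat_lit 0) (nat_lit 0) (nat_lit 0) (nat_lit 0) (nat_lit 0) (nat_lit 0) (nat_lit 1) (nat_lit 0) (nat_lit 1) (nat_lit 0) (nat_lit 389) (nat_lit 436) (nat_lit 255))))))))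
noncomputable def ec345 : XT := (XT.nd (nat_lit 1786) (nat_lit 0) (nat_lit 0) (XT.nd (nat_lit 846) (nat_lit 0) (nat_lit 0) (XT.nd (nat_lit 376) (nat_lit 0) (nat_lit 0) (XT.nd (nat_lit 188) (nat_lit 0) (nat_lit 0) (XT.nd (nat_lit 94) (nat_lit 0) (nat_lit 0) (XT.lf (nat_lit 0) (nat_lit 372482304498) (nat_lit 0) (nat_lit 0) (nat_lit 0) (nat_lit 0) (nat_lit 0) (nat_lit 0) (nat_lit 1) (nat_lit 0) (nat_lit 1) (nat_lit 0) (nat_lit 390) (nat_lit 436) (nat_lit 254)) (XT.lf (nat_lit 0) (nat_lit 372482281714) (nat_lit 0) (nat_lit 0) (nat_lit 0) (nat_lit 0) (nat_lit 0) (nat_lit 0) (nat_lit 1) (nat_lit 0) (nat_lit 1) (nat_lit 0) (nat_lit 391) (nat_lit 436) (nat_lit 253))) (XT.nd (nat_lit 94) (nat_lit 0) (nat_lit 0) (XT.lf (nat_lit 0) (nat_lit 372482260616) (nat_lit 0) (nat_lit 0) (nat_lit 0) (nat_lit 0) (nat_lit 0) (nat_lit 0) (nat_lit 1) (nat_lit 0) (nat_lit 1) (nat_lit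 0) (nat_lit 392) (nat_lit 436) (nat_lit 252)) (XT.lf (nat_lit 0) (nat_lit 372482241082) (nat_lit 0) (nat_lit 0) (nat_lit 0) (nat_lit 0) (nat_lit 0) (nat_lit 0) (nat_lit 1) (nat_lit 0) (nat_lit 1) (nat_lit 0) (nat_lit 393) (nat_lit 436) (nat_lit 251)))) (XT.nd (nat_lit 188) (nat_lit 0) (nat_lit 0) (XT.nd (nat_lit 94) (nat_lit 0) (nat_lit 0) (XT.lf (nat_lit 0) (nat_lit 372482222994) (nat_lit 0) (nat_lit 0) (nat_lit 0) (nat_lit 0) (nat_lit 0) (nat_lit 0) (nat_lit 1) (nat_lit 0) (nat_lit 1) (nat_lit 0) (nat_lit 394) (nat_lit 436) (nat_lit 250)) (XT.lf (nat_lit 0) (nat_lit 372482206247) (nat_lit 0) (nat_lit 0) (nat_lit 0) (nat_lit 0) (nat_lit 0) (nat_lit 0) (nat_lit 1) (nat_lit 0) (nat_lit 1) (nat_lit 0) (nat_lit 395) (nat_lit 436) (nat_lit 249))) (XT.nd (nat_lit 94) (nat_lit 0) (nat_lit 0) (XT.lf (nat_lit 0) (nat_lit 372482190740) (nat_lit 0) (nat_lit 0) (nat_lit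 0) (nat_lit 0) (nat_lit 0) (nat_lit 0) (nat_lit 1) (nat_lit 0) (nat_lit 1) (nat_lit 0) (nat_lit 396) (nat_lit 436) (nat_lit 248)) (XT.nd (nat_lit 94) (nat_lit 0) (nat_lit 0) (XT.lf (nat_lit 0) (nat_lit 372482176381) (nat_lit 0) (nat_lit 0) (nat_lit 0) (nat_lit 0) (nat_lit 0) (nat_lit 0) (nat_lit 1) (nat_lit 0) (nat_lit 1) (nat_lit 0) (nat_lit 397) (nat_lit 436) (nat_lit 247)) (XT.lf (nat_lit 0) (nat_lit 372482163087) (nat_lit 0) (nat_lit 0) (nat_lit 0) (nat_lit 0) (nat_lit 0) (nat_lit 0) (nat_lit 1) (nat_lit 0) (nat_lit 1) (nat_lit 0) (nat_lit 398) (nat_lit 436) (nat_lit 246)))))) (XT.nd (nat_lit 470) (nat_lit 0) (nat_lit 0) (XT.nd (nat_lit 188) (nat_lit 0) (nat_lit 0) (XT.nd (nat_lit 94) (nat_lit 0) (nat_lit 0) (XT.lf (nat_lit 0) (nat_lit 372482150777) (nat_lit 0) (nat_lit 0) (nat_lit 0) (nat_lit 0) (nat_lit 0) (nat_lit 0) (nat_lit 1) (nat_lit 0) (nat_lit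 1) (nat_lit 0) (nat_lit 399) (nat_lit 436) (nat_lit 245)) (XT.lf (nat_lit 0) (nat_lit 372482139379) (nat_lit 0) (nat_lit 0) (nat_lit 0) (nat_lit 0) (nat_lit 0) (nat_lit 0) (nat_lit 1) (nat_lit 0) (nat_lit 1) (nat_lit 0) (nat_lit 400) (nat_lit 436) (nat_lit 244))) (XT.nd (nat_lit 94) (nat_lit 0) (nat_lit 0) (XT.lf (nat_lit 0) (nat_lit 372482128825) (nat_lit 0) (nat_lit 0) (nat_lit 0) (nat_lit 0) (nat_lit 0) (nat_lit 0) (nat_lit 1) (nat_lit 0) (nat_lit 1) (nat_lit 0) (nat_lit 401) (nat_lit 436) (nat_lit 243)) (XT.nd (nat_lit 94) (nat_lit 0) (nat_lit 0) (XT.lf (nat_lit 0) (nat_lit 372482119053) (nat_lit 0) (nat_lit 0) (nat_lit 0) (nat_lit 0) (nat_lit 0) (nat_lit 0) (nat_lit 1) (nat_lit 0) (nat_lit 1) (nat_lit 0) (nat_lit 402) (nat_lit 436) (nat_lit 242)) (XT.lf (nat_lit 0) (nat_lit 372482110004) (nat_lit 0) (nat_lit 0) (nat_lit 0) (nat_lit 0) (nat_lit 0) (nat_lit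 0) (nat_lit 1) (nat_lit 0) (nat_lit 1) (nat_lit 0) (nat_lit 403) (nat_lit 436) (nat_lit 241))))) (XT.nd (nat_lit 188) (nat_lit 0) (nat_lit 0) (XT.nd (nat_lit 94) (nat_lit 0) (nat_lit 0) (XT.lf (nat_lit 0) (nat_lit 372482101626) (nat_lit 0) (nat_lit 0) (nat_lit 0) (nat_lit 0) (nat_lit 0) (nat_lit 0) (nat_lit 1) (nat_lit 0) (nat_lit 1) (nat_lit 0) (nat_lit 404) (nat_lit 436) (nat_lit 240)) (XT.lf (nat_lit 0) (nat_lit 372482093869) (nat_lit 0) (nat_lit 0) (nat_lit 0) (nat_lit 0) (nat_lit 0) (nat_lit 0) (nat_lit 1) (nat_lit 0) (nat_lit 1) (nat_lit 0) (nat_lit 405) (nat_lit 436) (nat_lit 239))) (XT.nd (nat_lit 94) (nat_lit 0) (nat_lit 0) (XT.lf (nat_lit 0) (nat_lit 372482086686) (nat_lit 0) (nat_lit 0) (nat_lit 0) (nat_lit 0) (nat_lit 0) (nat_lit 0) (nat_lit 1) (nat_lit 0) (nat_lit 1) (nat_lit 0) (nat_lit 406) (nat_lit 436) (nat_lit 238)) (XT.nd (nat_lit 94) (nat_lit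 0) (nat_lit 0) (XT.lf (nat_lit 0) (nat_lit 372482080036) (nat_lit 0) (nat_lit 0) (nat_lit 0) (nat_lit 0) (nat_lit 0) (nat_lit 0) (nat_lit 1) (nat_lit 0) (nat_lit 1) (nat_lit 0) (nat_lit 407) (nat_lit 436) (nat_lit 237)) (XT.lf (nat_lit 0) (nat_lit 372482073877) (nat_lit 0) (nat_lit 0) (nat_lit 0) (nat_lit 0) (nat_lit 0) (nat_lit 0) (nat_lit 1) (nat_lit 0) (nat_lit 1) (nat_lit 0) (nat_lit 408) (nat_lit 436) (nat_lit 236))))))) (XT.nd (nat_lit 846) (nat_lit 0) (nat_lit 0) (XT.nd (nat_lit 376) (nat_lit 0) (nat_lit 0) (XT.nd (nat_lit 188) (nat_lit 0) (nat_lit 0) (XT.nd (nat_lit 94) (nat_lit 0) (nat_lit 0) (XT.lf (nat_lit 0) (nat_lit 372482068176) (nat_lit 0) (nat_lit 0) (nat_lit 0) (nat_lit 0) (nat_lit 0) (nat_lit 0) (nat_lit 1) (nat_lit 0) (nat_lit 1) (nat_lit 0) (nat_lit 409) (nat_lit 436) (nat_lit 235)) (XT.lf (nat_lit 0) (nat_lit 372482062896) (nat_lit 0)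 (nat_lit 0) (nat_lit 0) (nat_lit 0) (nat_lit 0) (nat_lit 0) (nat_lit 1) (nat_lit 0) (nat_lit 1) (nat_lit 0) (nat_lit 410) (nat_lit 436) (nat_lit 234))) (XT.nd (nat_lit 94) (nat_lit 0) (nat_lit 0) (XT.lf (nat_lit 0) (nat_lit 372482058008) (nat_lit 0) (nat_lit 0) (nat_lit 0) (nat_lit 0) (nat_lit 0) (nat_lit 0) (nat_lit 1) (nat_lit 0) (nat_lit 1) (nat_lit 0) (nat_lit 411) (nat_lit 436) (nat_lit 233)) (XT.lf (nat_lit 0) (nat_lit 372482053481) (nat_lit 0) (nat_lit 0) (nat_lit 0) (nat_lit 0) (nat_lit 0) (nat_lit 0) (nat_lit 1) (nat_lit 0) (nat_lit 1) (nat_lit 0) (nat_lit 412) (nat_lit 436) (nat_lit 232)))) (XT.nd (nat_lit 188) (nat_lit 0) (nat_lit 0) (XT.nd (nat_lit 94) (nat_lit 0) (nat_lit 0) (XT.lf (nat_lit 0) (nat_lit 372482049290) (nat_lit 0) (nat_lit 0) (nat_lit 0) (nat_lit 0) (nat_lit 0) (nat_lit 0) (nat_lit 1) (nat_lit 0) (nat_lit 1) (nat_lit 0) (nat_lit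 413) (nat_lit 436) (nat_lit 231)) (XT.lf (nat_lit 0) (nat_lit 372482045409) (nat_lit 0) (nat_lit 0) (nat_lit 0) (nat_lit 0) (nat_lit 0) (nat_lit 0) (nat_lit 1) (nat_lit 0) (nat_lit 1) (nat_lit 0) (nat_lit 414) (nat_lit 436) (nat_lit 230))) (XT.nd (nat_lit 94) (nat_lit 0) (nat_lit 0) (XT.lf (nat_lit 0) (nat_lit 372482041816) (nat_lit 0) (nat_lit 0) (nat_lit 0) (nat_lit 0) (nat_lit 0) (nat_lit 0) (nat_lit 1) (nat_lit 0) (nat_lit 1) (nat_lit 0) (nat_lit 415) (nat_lit 436) (nat_lit 229)) (XT.nd (nat_lit 94) (nat_lit 0) (nat_lit 0) (XT.lf (nat_lit 0) (nat_lit 372482038489) (nat_lit 0) (nat_lit 0) (nat_lit 0) (nat_lit 0) (nat_lit 0) (nat_lit 0) (nat_lit 1) (nat_lit 0) (nat_lit 1) (nat_lit 0) (nat_lit 416) (nat_lit 436) (nat_lit 228)) (XT.lf (nat_lit 0) (nat_lit 372482035409) (nat_lit 0) (nat_lit 0) (nat_lit 0) (nat_lit 0) (nat_lit 0) (nat_lit 0) (nat_lit 1) (nat_lit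 0) (nat_lit 1) (nat_lit 0) (nat_lit 417) (nat_lit 436) (nat_lit 227)))))) (XT.nd (nat_lit 470) (nat_lit 0) (nat_lit 0) (XT.nd (nat_lit 188) (nat_lit 0) (nat_lit 0) (XT.nd (nat_lit 94) (nat_lit 0) (nat_lit 0) (XT.lf (nat_lit 0) (nat_lit 372482032556) (nat_lit 0) (nat_lit 0) (nat_lit 0) (nat_lit 0) (nat_lit 0) (nat_lit 0) (nat_lit 1) (nat_lit 0) (nat_lit 1) (nat_lit 0) (nat_lit 418) (nat_lit 436) (nat_lit 226)) (XT.lf (nat_lit 0) (nat_lit 372482029915) (nat_lit 0) (nat_lit 0) (nat_lit 0) (nat_lit 0) (nat_lit 0) (nat_lit 0) (nat_lit 1) (nat_lit 0) (nat_lit 1) (nat_lit 0) (nat_lit 419) (nat_lit 436) (nat_lit 225))) (XT.nd (nat_lit 94) (nat_lit 0) (nat_lit 0) (XT.lf (nat_lit 0) (nat_lit 372482027470) (nat_lit 0) (nat_lit 0) (nat_lit 0) (nat_lit 0) (nat_lit 0) (nat_lit 0) (nat_lit 1) (nat_lit 0) (nat_lit 1) (nat_lit 0) (nat_lit 420) (nat_lit 436) (nat_lit 224))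 (XT.nd (nat_lit 94) (nat_lit 0) (nat_lit 0) (XT.lf (nat_lit 0) (nat_lit 372482025206) (nat_lit 0) (nat_lit 0) (nat_lit 0) (nat_lit 0) (nat_lit 0) (nat_lit 0) (nat_lit 1) (nat_lit 0) (nat_lit 1) (nat_lit 0) (nat_lit 421) (nat_lit 436) (nat_lit 223)) (XT.lf (nat_lit 0) (nat_lit 372482023109) (nat_lit 0) (nat_lit 0) (nat_lit 0) (nat_lit 0) (nat_lit 0) (nat_lit 0) (nat_lit 1) (nat_lit 0) (nat_lit 1) (nat_lit 0) (nat_lit 422) (nat_lit 436) (nat_lit 222))))) (XT.nd (nat_lit 188) (nat_lit 0) (nat_lit 0) (XT.nd (nat_lit 94) (nat_lit 0) (nat_lit 0) (XT.lf (nat_lit 0) (nat_lit 372482021168) (nat_lit 0) (nat_lit 0) (nat_lit 0) (nat_lit 0) (nat_lit 0) (nat_lit 0) (nat_lit 1) (nat_lit 0) (nat_lit 1) (nat_lit 0) (nat_lit 423) (nat_lit 436) (nat_lit 221)) (XT.lf (nat_lit 0) (nat_lit 372482019370) (nat_lit 0) (nat_lit 0) (nat_lit 0) (nat_lit 0) (nat_lit 0) (nat_lit 0) (nat_lit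 1) (nat_lit 0) (nat_lit 1) (nat_lit 0) (nat_lit 424) (nat_lit 436) (nat_lit 220))) (XT.nd (nat_lit 94) (nat_lit 0) (nat_lit 0) (XT.lf (nat_lit 0) (nat_lit 372482017706) (nat_lit 0) (nat_lit 0) (nat_lit 0) (nat_lit 0) (nat_lit 0) (nat_lit 0) (nat_lit 1) (nat_lit 0) (nat_lit 1) (nat_lit 0) (nat_lit 425) (nat_lit 436) (nat_lit 219)) (XT.nd (nat_lit 94) (nat_lit 0) (nat_lit 0) (XT.lf (nat_lit 0) (nat_lit 372482016165) (nat_lit 0) (nat_lit 0) (nat_lit 0) (nat_lit 0) (nat_lit 0) (nat_lit 0) (nat_lit 1) (nat_lit 0) (nat_lit 1) (nat_lit 0) (nat_lit 426) (nat_lit 436) (nat_lit 218)) (XT.lf (nat_lit 0) (nat_lit 372482014738) (nat_lit 0) (nat_lit 0) (nat_lit 0) (nat_lit 0) (nat_lit 0) (nat_lit 0) (nat_lit 1) (nat_lit 0) (nat_lit 1) (nat_lit 0) (nat_lit 427) (nat_lit 436) (nat_lit 217))))))))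
noncomputable def ec346 : XT := (XT.nd (nat_lit 1692) (nat_lit 0) (nat_lit 0) (XT.nd (nat_lit 846) (nat_lit 0) (nat_lit 0) (XT.nd (nat_lit 376) (nat_lit 0) (nat_lit 0) (XT.nd (nat_lit 188) (nat_lit 0) (nat_lit 0) (XT.nd (nat_lit 94) (nat_lit 0) (nat_lit 0) (XT.lf (nat_lit 0) (nat_lit 372482013417) (nat_lit 0) (nat_lit 0) (nat_lit 0) (nat_lit 0) (nat_lit 0) (nat_lit 0) (nat_lit 1) (nat_lit 0) (nat_lit 1) (nat_lit 0) (nat_lit 428) (nat_lit 436) (nat_lit 216)) (XT.lf (nat_lit 0) (nat_lit 372482012193) (nat_lit 0) (nat_lit 0) (nat_lit 0) (nat_lit 0) (nat_lit 0) (nat_lit 0) (nat_lit 1) (nat_lit 0) (nat_lit 1) (nat_lit 0) (nat_lit 429) (nat_lit 436) (nat_lit 215))) (XT.nd (nat_lit 94) (nat_lit 0) (nat_lit 0) (XT.lf (nat_lit 0) (nat_lit 372482011061) (nat_lit 0) (nat_lit 0) (nat_lit 0) (nat_lit 0) (nat_lit 0) (nat_lit 0) (nat_lit 1) (nat_lit 0) (nat_lit 1) (nat_lit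 0) (nat_lit 430) (nat_lit 436) (nat_lit 214)) (XT.lf (nat_lit 0) (nat_lit 372482010012) (nat_lit 0) (nat_lit 0) (nat_lit 0) (nat_lit 0) (nat_lit 0) (nat_lit 0) (nat_lit 1) (nat_lit 0) (nat_lit 1) (nat_lit 0) (nat_lit 431) (nat_lit 436) (nat_lit 213)))) (XT.nd (nat_lit 188) (nat_lit 0) (nat_lit 0) (XT.nd (nat_lit 94) (nat_lit 0) (nat_lit 0) (XT.lf (nat_lit 0) (nat_lit 372482009041) (nat_lit 0) (nat_lit 0) (nat_lit 0) (nat_lit 0) (nat_lit 0) (nat_lit 0) (nat_lit 1) (nat_lit 0) (nat_lit 1) (nat_lit 0) (nat_lit 432) (nat_lit 436) (nat_lit 212)) (XT.lf (nat_lit 0) (nat_lit 372482008142) (nat_lit 0) (nat_lit 0) (nat_lit 0) (nat_lit 0) (nat_lit 0) (nat_lit 0) (nat_lit 1) (nat_lit 0) (nat_lit 1) (nat_lit 0) (nat_lit 433) (nat_lit 436) (nat_lit 211))) (XT.nd (nat_lit 94) (nat_lit 0) (nat_lit 0) (XT.lf (nat_lit 0) (nat_lit 372482007309) (nat_lit 0) (nat_lit 0) (nat_lit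 0) (nat_lit 0) (nat_lit 0) (nat_lit 0) (nat_lit 1) (nat_lit 0) (nat_lit 1) (nat_lit 0) (nat_lit 434) (nat_lit 436) (nat_lit 210)) (XT.nd (nat_lit 94) (nat_lit 0) (nat_lit 0) (XT.lf (nat_lit 0) (nat_lit 372482006538) (nat_lit 0) (nat_lit 0) (nat_lit 0) (nat_lit 0) (nat_lit 0) (nat_lit 0) (nat_lit 1) (nat_lit 0) (nat_lit 1) (nat_lit 0) (nat_lit 435) (nat_lit 436) (nat_lit 209)) (XT.lf (nat_lit 0) (nat_lit 372482005824) (nat_lit 0) (nat_lit 0) (nat_lit 0) (nat_lit 0) (nat_lit 0) (nat_lit 0) (nat_lit 1) (nat_lit 0) (nat_lit 1) (nat_lit 0) (nat_lit 436) (nat_lit 436) (nat_lit 208)))))) (XT.nd (nat_lit 376) (nat_lit 0) (nat_lit 0) (XT.nd (nat_lit 188) (nat_lit 0) (nat_lit 0) (XT.nd (nat_lit 94) (nat_lit 0) (nat_lit 0) (XT.lf (nat_lit 0) (nat_lit 372482005163) (nat_lit 0) (nat_lit 0) (nat_lit 0) (nat_lit 0) (nat_lit 0) (nat_lit 0) (nat_lit 1) (nat_lit 0) (nat_lit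 1) (nat_lit 0) (nat_lit 437) (nat_lit 436) (nat_lit 207)) (XT.lf (nat_lit 0) (nat_lit 372482004551) (nat_lit 0) (nat_lit 0) (nat_lit 0) (nat_lit 0) (nat_lit 0) (nat_lit 0) (nat_lit 1) (nat_lit 0) (nat_lit 1) (nat_lit 0) (nat_lit 438) (nat_lit 436) (nat_lit 206))) (XT.nd (nat_lit 94) (nat_lit 0) (nat_lit 0) (XT.lf (nat_lit 0) (nat_lit 372482003985) (nat_lit 0) (nat_lit 0) (nat_lit 0) (nat_lit 0) (nat_lit 0) (nat_lit 0) (nat_lit 1) (nat_lit 0) (nat_lit 1) (nat_lit 0) (nat_lit 439) (nat_lit 436) (nat_lit 205)) (XT.lf (nat_lit 0) (nat_lit 372482003460) (nat_lit 0) (nat_lit 0) (nat_lit 0) (nat_lit 0) (nat_lit 0) (nat_lit 0) (nat_lit 1) (nat_lit 0) (nat_lit 1) (nat_lit 0) (nat_lit 440) (nat_lit 436) (nat_lit 204)))) (XT.nd (nat_lit 188) (nat_lit 0) (nat_lit 0) (XT.nd (nat_lit 94) (nat_lit 0) (nat_lit 0) (XT.lf (nat_lit 0) (nat_lit 372482002974) (nat_lit 0) (nat_lit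 0) (nat_lit 0) (nat_lit 0) (nat_lit 0) (nat_lit 0) (nat_lit 1) (nat_lit 0) (nat_lit 1) (nat_lit 0) (nat_lit 441) (nat_lit 436) (nat_lit 203)) (XT.lf (nat_lit 0) (nat_lit 372482002524) (nat_lit 0) (nat_lit 0) (nat_lit 0) (nat_lit 0) (nat_lit 0) (nat_lit 0) (nat_lit 1) (nat_lit 0) (nat_lit 1) (nat_lit 0) (nat_lit 442) (nat_lit 436) (nat_lit 202))) (XT.nd (nat_lit 94) (nat_lit 0) (nat_lit 0) (XT.lf (nat_lit 0) (nat_lit 372482002108) (nat_lit 0) (nat_lit 0) (nat_lit 0) (nat_lit 0) (nat_lit 0) (nat_lit 0) (nat_lit 1) (nat_lit 0) (nat_lit 1) (nat_lit 0) (nat_lit 443) (nat_lit 436) (nat_lit 201)) (XT.nd (nat_lit 94) (nat_lit 0) (nat_lit 0) (XT.lf (nat_lit 0) (nat_lit 372482001722) (nat_lit 0) (nat_lit 0) (nat_lit 0) (nat_lit 0) (nat_lit 0) (nat_lit 0) (nat_lit 1) (nat_lit 0) (nat_lit 1) (nat_lit 0) (nat_lit 444) (nat_lit 436) (nat_lit 200)) (XT.lf (nat_lit 0) (nat_lit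 372482001365) (nat_lit 0) (nat_lit 0) (nat_lit 0) (nat_lit 0) (nat_lit 0) (nat_lit 0) (nat_lit 1) (nat_lit 0) (nat_lit 1) (nat_lit 0) (nat_lit 445) (nat_lit 436) (nat_lit 199))))))) (XT.nd (nat_lit 45966) (nat_lit 0) (nat_lit 6804) (XT.nd (nat_lit 45496) (nat_lit 0) (nat_lit 10332) (XT.nd (nat_lit 45308) (nat_lit 0) (nat_lit 10836) (XT.nd (nat_lit 45214) (nat_lit 0) (nat_lit 10752) (XT.lf (nat_lit 0) (nat_lit 372482001035) (nat_lit 0) (nat_lit 0) (nat_lit 0) (nat_lit 0) (nat_lit 0) (nat_lit 0) (nat_lit 1) (nat_lit 0) (nat_lit 1) (nat_lit 0) (nat_lit 446) (nat_lit 436) (nat_lit 198)) (XT.lf (nat_lit 924) (nat_lit 201316259014) (nat_lit 0) (nat_lit 357436555135) (nat_lit 924) (nat_lit 201316259014) (nat_lit 139) (nat_lit 1) (nat_lit 128) (nat_lit 0) (nat_lit 139) (nat_lit 0) (nat_lit 206) (nat_lit 437) (nat_lit 437))) (XT.nd (nat_lit 94) (nat_lit 0) (nat_lit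 0) (XT.lf (nat_lit 924) (nat_lit 75097141827) (nat_lit 0) (nat_lit 701756288269) (nat_lit 840) (nat_lit 686315305411) (nat_lit 140) (nat_lit 1) (nat_lit 129) (nat_lit 1) (nat_lit 139) (nat_lit 1) (nat_lit 207) (nat_lit 437) (nat_lit 436)) (XT.lf (nat_lit 924) (nat_lit 689723900992) (nat_lit 84) (nat_lit 469966422800) (nat_lit 0) (nat_lit 249248752617) (nat_lit 140) (nat_lit 1) (nat_lit 130) (nat_lit 1) (nat_lit 129) (nat_lit 1) (nat_lit 208) (nat_lit 437) (nat_lit 435)))) (XT.nd (nat_lit 188) (nat_lit 588) (nat_lit 0) (XT.nd (nat_lit 94) (nat_lit 0) (nat_lit 84) (XT.lf (nat_lit 924) (nat_lit 595977953453) (nat_lit 84) (nat_lit 196959670296) (nat_lit 0) (nat_lit 564485583253) (nat_lit 141) (nat_lit 1) (nat_lit 131) (nat_lit 1) (nat_lit 130) (nat_lit 1) (nat_lit 209) (nat_lit 437) (nat_lit 434)) (XT.lf (nat_lit 924) (nat_lit 441074353841) (nat_lit 0) (nat_lit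 825229267354) (nat_lit 840) (nat_lit 42185602245) (nat_lit 142) (nat_lit 1) (nat_lit 131) (nat_lit 1) (nat_lit 141) (nat_lit 1) (nat_lit 210) (nat_lit 437) (nat_lit 433))) (XT.nd (nat_lit 94) (nat_lit 756) (nat_lit 0) (XT.lf (nat_lit 924) (nat_lit 105831466589) (nat_lit 0) (nat_lit 910044524839) (nat_lit 840) (nat_lit 246016188702) (nat_lit 143) (nat_lit 1) (nat_lit 132) (nat_lit 1) (nat_lit 142) (nat_lit 1) (nat_lit 211) (nat_lit 437) (nat_lit 432)) (XT.nd (nat_lit 94) (nat_lit 756) (nat_lit 0) (XT.lf (nat_lit 924) (nat_lit 203365033483) (nat_lit 84) (nat_lit 790902800192) (nat_lit 0) (nat_lit 223202528101) (nat_lit 143) (nat_lit 1) (nat_lit 133) (nat_lit 1) (nat_lit 132) (nat_lit 1) (nat_lit 212) (nat_lit 437) (nat_lit 431)) (XT.lf (nat_lit 924) (nat_lit 41766540532) (nat_lit 0) (nat_lit 591252159353) (nat_lit 840) (nat_lit 542172035082) (nat_lit 134) (nat_lit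 1) (nat_lit 123) (nat_lit 1) (nat_lit 133) (nat_lit 1) (nat_lit 213) (nat_lit 437) (nat_lit 430)))))) (XT.nd (nat_lit 470) (nat_lit 1764) (nat_lit 0) (XT.nd (nat_lit 188) (nat_lit 756) (nat_lit 0) (XT.nd (nat_lit 94) (nat_lit 420) (nat_lit 0) (XT.lf (nat_lit 84) (nat_lit 289200226964) (nat_lit 0) (nat_lit 125323916632) (nat_lit 588) (nat_lit 720388864067) (nat_lit 117) (nat_lit 1) (nat_lit 116) (nat_lit 1) (nat_lit 123) (nat_lit 1) (nat_lit 214) (nat_lit 437) (nat_lit 429)) (XT.lf (nat_lit 504) (nat_lit 796999424804) (nat_lit 0) (nat_lit 259440494694) (nat_lit 420) (nat_lit 40111103538) (nat_lit 117) (nat_lit 1) (nat_lit 111) (nat_lit 1) (nat_lit 116) (nat_lit 1) (nat_lit 215) (nat_lit 437) (nat_lit 428))) (XT.nd (nat_lit 94) (nat_lit 336) (nat_lit 0) (XT.lf (nat_lit 504) (nat_lit 575122374542) (nat_lit 0) (nat_lit 120926332154) (nat_lit 420) (nat_lit 363789828455)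 (nat_lit 112) (nat_lit 1) (nat_lit 106) (nat_lit 1) (nat_lit 111) (nat_lit 1) (nat_lit 216) (nat_lit 437) (nat_lit 427)) (XT.nd (nat_lit 94) (nat_lit 0) (nat_lit 0) (XT.lf (nat_lit 420) (nat_lit 349954629834) (nat_lit 0) (nat_lit 2226450291) (nat_lit 336) (nat_lit 672725075857) (nat_lit 107) (nat_lit 1) (nat_lit 102) (nat_lit 1) (nat_lit 106) (nat_lit 1) (nat_lit 217) (nat_lit 437) (nat_lit 426)) (XT.lf (nat_lit 84) (nat_lit 25817998707) (nat_lit 0) (nat_lit 870708019700) (nat_lit 420) (nat_lit 95054710217) (nat_lit 103) (nat_lit 1) (nat_lit 102) (nat_lit 1) (nat_lit 107) (nat_lit 1) (nat_lit 218) (nat_lit 437) (nat_lit 425))))) (XT.nd (nat_lit 188) (nat_lit 1008) (nat_lit 0) (XT.nd (nat_lit 94) (nat_lit 336) (nat_lit 0) (XT.lf (nat_lit 84) (nat_lit 666627423051) (nat_lit 0) (nat_lit 110567290983) (nat_lit 420) (nat_lit 182345543373) (nat_lit 98) (nat_lit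 1) (nat_lit 97) (nat_lit 1) (nat_lit 102) (nat_lit 1) (nat_lit 219) (nat_lit 437) (nat_lit 424)) (XT.lf (nat_lit 84) (nat_lit 333530592523) (nat_lit 0) (nat_lit 338687239769) (nat_lit 420) (nat_lit 256697665281) (nat_lit 94) (nat_lit 1) (nat_lit 93) (nat_lit 1) (nat_lit 98) (nat_lit 1) (nat_lit 220) (nat_lit 437) (nat_lit 423))) (XT.nd (nat_lit 94) (nat_lit 672) (nat_lit 0) (XT.lf (nat_lit 84) (nat_lit 16462330455) (nat_lit 0) (nat_lit 566279805828) (nat_lit 420) (nat_lit 316998582621) (nat_lit 90) (nat_lit 1) (nat_lit 89) (nat_lit 1) (nat_lit 94) (nat_lit 1) (nat_lit 221) (nat_lit 437) (nat_lit 422)) (XT.nd (nat_lit 94) (nat_lit 420) (nat_lit 0) (XT.lf (nat_lit 336) (nat_lit 74342956526) (nat_lit 0) (nat_lit 502745829289) (nat_lit 252) (nat_lit 294620610323) (nat_lit 90) (nat_lit 1) (nat_lit 86) (nat_lit 1) (nat_lit 89) (nat_lit 1) (nat_lit 222) (nat_lit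 437) (nat_lit 421)) (XT.lf (nat_lit 84) (nat_lit 256874902624) (nat_lit 0) (nat_lit 176063654409) (nat_lit 420) (nat_lit 411897541101) (nat_lit 82) (nat_lit 1) (nat_lit 81) (nat_lit 1) (nat_lit 86) (nat_lit 1) (nat_lit 223) (nat_lit 437) (nat_lit 420))))))))
noncomputable def ec347 : XT := (XT.nd (nat_lit 1786) (nat_lit 2604) (nat_lit 0) (XT.nd (nat_lit 846) (nat_lit 1680) (nat_lit 0) (XT.nd (nat_lit 376) (nat_lit 1092) (nat_lit 0) (XT.nd (nat_lit 188) (nat_lit 588) (nat_lit 0) (XT.nd (nat_lit 94) (nat_lit 252) (nat_lit 0) (XT.lf (nat_lit 336) (nat_lit 397704135688) (nat_lit 0) (nat_lit 373591633430) (nat_lit 252) (nat_lit 47819285690) (nat_lit 82) (nat_lit 1) (nat_lit 78) (nat_lit 1) (nat_lit 81) (nat_lit 1) (nat_lit 224) (nat_lit 437) (nat_lit 419)) (XT.lf (nat_lit 336) (nat_lit 127462254155) (nat_lit 0) (nat_lit 321647097955) (nat_lit 252) (nat_lit 345273126251)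 (nat_lit 79) (nat_lit 1) (nat_lit 75) (nat_lit 1) (nat_lit 78) (nat_lit 1) (nat_lit 225) (nat_lit 437) (nat_lit 418))) (XT.nd (nat_lit 94) (nat_lit 252) (nat_lit 0) (XT.lf (nat_lit 84) (nat_lit 145276170750) (nat_lit 0) (nat_lit 133012959101) (nat_lit 336) (nat_lit 492387962532) (nat_lit 72) (nat_lit 1) (nat_lit 71) (nat_lit 1) (nat_lit 75) (nat_lit 1) (nat_lit 226) (nat_lit 437) (nat_lit 417)) (XT.lf (nat_lit 336) (nat_lit 361500683460) (nat_lit 0) (nat_lit 240529158596) (nat_lit 252) (nat_lit 145809566761) (nat_lit 72) (nat_lit 1) (nat_lit 68) (nat_lit 1) (nat_lit 71) (nat_lit 1) (nat_lit 227) (nat_lit 437) (nat_lit 416)))) (XT.nd (nat_lit 188) (nat_lit 588) (nat_lit 0) (XT.nd (nat_lit 94) (nat_lit 336) (nat_lit 0) (XT.lf (nat_lit 252) (nat_lit 89616553210) (nat_lit 0) (nat_lit 209844146630) (nat_lit 168) (nat_lit 426462361283) (nat_lit 69) (nat_lit 1) (nat_lit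 66) (nat_lit 1) (nat_lit 68) (nat_lit 1) (nat_lit 228) (nat_lit 437) (nat_lit 415)) (XT.lf (nat_lit 84) (nat_lit 15181616654) (nat_lit 0) (nat_lit 169885586121) (nat_lit 336) (nat_lit 519789046025) (nat_lit 63) (nat_lit 1) (nat_lit 62) (nat_lit 1) (nat_lit 66) (nat_lit 1) (nat_lit 229) (nat_lit 437) (nat_lit 414))) (XT.nd (nat_lit 94) (nat_lit 420) (nat_lit 0) (XT.lf (nat_lit 252) (nat_lit 260409260149) (nat_lit 0) (nat_lit 162733447125) (nat_lit 168) (nat_lit 261315486995) (nat_lit 63) (nat_lit 1) (nat_lit 60) (nat_lit 1) (nat_lit 62) (nat_lit 1) (nat_lit 230) (nat_lit 437) (nat_lit 413)) (XT.nd (nat_lit 94) (nat_lit 168) (nat_lit 0) (XT.lf (nat_lit 84) (nat_lit 141287181987) (nat_lit 0) (nat_lit 6526143515) (nat_lit 252) (nat_lit 517136915049) (nat_lit 58) (nat_lit 1) (nat_lit 57) (nat_lit 1) (nat_lit 60) (nat_lit 1) (nat_lit 231) (nat_lit 437) (nat_lit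 412)) (XT.lf (nat_lit 252) (nat_lit 386251872348) (nat_lit 0) (nat_lit 133844934262) (nat_lit 168) (nat_lit 125912952710) (nat_lit 58) (nat_lit 1) (nat_lit 55) (nat_lit 1) (nat_lit 57) (nat_lit 1) (nat_lit 232) (nat_lit 437) (nat_lit 411)))))) (XT.nd (nat_lit 470) (nat_lit 756) (nat_lit 0) (XT.nd (nat_lit 188) (nat_lit 504) (nat_lit 0) (XT.nd (nat_lit 94) (nat_lit 252) (nat_lit 0) (XT.lf (nat_lit 252) (nat_lit 119985309745) (nat_lit 0) (nat_lit 124423667194) (nat_lit 168) (nat_lit 383384478642) (nat_lit 56) (nat_lit 1) (nat_lit 53) (nat_lit 1) (nat_lit 55) (nat_lit 1) (nat_lit 233) (nat_lit 437) (nat_lit 410)) (XT.lf (nat_lit 252) (nat_lit 476297583844) (nat_lit 0) (nat_lit 118876715149) (nat_lit 168) (nat_lit 15080890485) (nat_lit 53) (nat_lit 1) (nat_lit 50) (nat_lit 1) (nat_lit 52) (nat_lit 1) (nat_lit 234) (nat_lit 437) (nat_lit 409))) (XT.nd (nat_lit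 94) (nat_lit 336) (nat_lit 0) (XT.lf (nat_lit 252) (nat_lit 213168724002) (nat_lit 0) (nat_lit 113487184072) (nat_lit 168) (nat_lit 266548348359) (nat_lit 51) (nat_lit 1) (nat_lit 48) (nat_lit 1) (nat_lit 50) (nat_lit 1) (nat_lit 235) (nat_lit 437) (nat_lit 408)) (XT.nd (nat_lit 94) (nat_lit 168) (nat_lit 0) (XT.lf (nat_lit 84) (nat_lit 73018518185) (nat_lit 0) (nat_lit 40134267906) (nat_lit 168) (nat_lit 463707765939) (nat_lit 47) (nat_lit 1) (nat_lit 46) (nat_lit 1) (nat_lit 48) (nat_lit 1) (nat_lit 236) (nat_lit 437) (nat_lit 407)) (XT.lf (nat_lit 252) (nat_lit 279689625374) (nat_lit 0) (nat_lit 111954624040) (nat_lit 168) (nat_lit 169285016056) (nat_lit 47) (nat_lit 1) (nat_lit 44) (nat_lit 1) (nat_lit 46) (nat_lit 1) (nat_lit 237) (nat_lit 437) (nat_lit 406))))) (XT.nd (nat_lit 188) (nat_lit 420) (nat_lit 0) (XT.nd (nat_lit 94) (nat_lit 252) (nat_lit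 0) (XT.lf (nat_lit 168) (nat_lit 30118598313) (nat_lit 0) (nat_lit 114704374281) (nat_lit 84) (nat_lit 400803953004) (nat_lit 45) (nat_lit 1) (nat_lit 43) (nat_lit 1) (nat_lit 44) (nat_lit 1) (nat_lit 238) (nat_lit 437) (nat_lit 405)) (XT.lf (nat_lit 252) (nat_lit 325119149145) (nat_lit 0) (nat_lit 117311965635) (nat_lit 168) (nat_lit 88315403709) (nat_lit 43) (nat_lit 1) (nat_lit 40) (nat_lit 1) (nat_lit 42) (nat_lit 1) (nat_lit 239) (nat_lit 437) (nat_lit 404))) (XT.nd (nat_lit 94) (nat_lit 336) (nat_lit 0) (XT.lf (nat_lit 168) (nat_lit 81769863431) (nat_lit 0) (nat_lit 121698378242) (nat_lit 84) (nat_lit 312899369318) (nat_lit 41) (nat_lit 1) (nat_lit 39) (nat_lit 1) (nat_lit 40) (nat_lit 1) (nat_lit 240) (nat_lit 437) (nat_lit 403)) (XT.nd (nat_lit 94) (nat_lit 84) (nat_lit 0) (XT.lf (nat_lit 252) (nat_lit 353961629358) (nat_lit 0) (nat_lit 127567927030)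 (nat_lit 168) (nat_lit 20934988867) (nat_lit 39) (nat_lit 1) (nat_lit 36) (nat_lit 1) (nat_lit 38) (nat_lit 1) (nat_lit 241) (nat_lit 437) (nat_lit 402)) (XT.lf (nat_lit 168) (nat_lit 117678051648) (nat_lit 0) (nat_lit 132991096814) (nat_lit 84) (nat_lit 238265035138) (nat_lit 37) (nat_lit 1) (nat_lit 35) (nat_lit 1) (nat_lit 36) (nat_lit 1) (nat_lit 242) (nat_lit 437) (nat_lit 401))))))) (XT.nd (nat_lit 846) (nat_lit 1260) (nat_lit 0) (XT.nd (nat_lit 376) (nat_lit 672) (nat_lit 0) (XT.nd (nat_lit 188) (nat_lit 336) (nat_lit 0) (XT.nd (nat_lit 94) (nat_lit 84) (nat_lit 0) (XT.lf (nat_lit 84) (nat_lit 33966568859) (nat_lit 0) (nat_lit 106612005479) (nat_lit 252) (nat_lit 335311326764) (nat_lit 33) (nat_lit 1) (nat_lit 32) (nat_lit 1) (nat_lit 35) (nat_lit 1) (nat_lit 243) (nat_lit 437) (nat_lit 400)) (XT.lf (nat_lit 168) (nat_lit 141224279214) (nat_lit 0) (nat_lit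 147149005062) (nat_lit 84) (nat_lit 174796281055) (nat_lit 33) (nat_lit 1) (nat_lit 31) (nat_lit 1) (nat_lit 32) (nat_lit 1) (nat_lit 244) (nat_lit 437) (nat_lit 399))) (XT.nd (nat_lit 94) (nat_lit 84) (nat_lit 0) (XT.lf (nat_lit 84) (nat_lit 78993591703) (nat_lit 0) (nat_lit 76510635097) (nat_lit 252) (nat_lit 295392026516) (nat_lit 29) (nat_lit 1) (nat_lit 28) (nat_lit 1) (nat_lit 31) (nat_lit 1) (nat_lit 245) (nat_lit 437) (nat_lit 398)) (XT.lf (nat_lit 168) (nat_lit 155135187599) (nat_lit 0) (nat_lit 163053074970) (nat_lit 84) (nat_lit 120748257203) (nat_lit 29) (nat_lit 1) (nat_lit 27) (nat_lit 1) (nat_lit 28) (nat_lit 1) (nat_lit 246) (nat_lit 437) (nat_lit 397)))) (XT.nd (nat_lit 188) (nat_lit 420) (nat_lit 0) (XT.nd (nat_lit 94) (nat_lit 84) (nat_lit 0) (XT.lf (nat_lit 84) (nat_lit 116296833472) (nat_lit 0) (nat_lit 55413360265) (nat_lit 168) (nat_lit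 255661567351) (nat_lit 26) (nat_lit 1) (nat_lit 25) (nat_lit 1) (nat_lit 27) (nat_lit 1) (nat_lit 247) (nat_lit 437) (nat_lit 396)) (XT.lf (nat_lit 168) (nat_lit 161605236614) (nat_lit 0) (nat_lit 179837481368) (nat_lit 84) (nat_lit 74671748881) (nat_lit 26) (nat_lit 1) (nat_lit 24) (nat_lit 1) (nat_lit 25) (nat_lit 1) (nat_lit 248) (nat_lit 437) (nat_lit 395))) (XT.nd (nat_lit 94) (nat_lit 252) (nat_lit 0) (XT.lf (nat_lit 84) (nat_lit 147104681262) (nat_lit 0) (nat_lit 41339089308) (nat_lit 168) (nat_lit 216759664664) (nat_lit 23) (nat_lit 1) (nat_lit 22) (nat_lit 1) (nat_lit 24) (nat_lit 1) (nat_lit 249) (nat_lit 437) (nat_lit 394)) (XT.nd (nat_lit 94) (nat_lit 168) (nat_lit 0) (XT.lf (nat_lit 168) (nat_lit 162396421417) (nat_lit 0) (nat_lit 196839787697) (nat_lit 84) (nat_lit 35360649727) (nat_lit 23) (nat_lit 1) (nat_lit 21) (nat_lit 1) (nat_lit 22) (nat_lit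 1) (nat_lit 250) (nat_lit 437) (nat_lit 393)) (XT.lf (nat_lit 84) (nat_lit 172438061823) (nat_lit 0) (nat_lit 32694840342) (nat_lit 168) (nat_lit 179158213122) (nat_lit 20) (nat_lit 1) (nat_lit 19) (nat_lit 1) (nat_lit 21) (nat_lit 1) (nat_lit 251) (nat_lit 437) (nat_lit 392)))))) (XT.nd (nat_lit 470) (nat_lit 672) (nat_lit 0) (XT.nd (nat_lit 188) (nat_lit 336) (nat_lit 0) (XT.nd (nat_lit 94) (nat_lit 168) (nat_lit 0) (XT.lf (nat_lit 168) (nat_lit 158919564085) (nat_lit 0) (nat_lit 213560490669) (nat_lit 84) (nat_lit 1808960887) (nat_lit 20) (nat_lit 1) (nat_lit 18) (nat_lit 1) (nat_lit 19) (nat_lit 1) (nat_lit 252) (nat_lit 437) (nat_lit 391)) (XT.lf (nat_lit 84) (nat_lit 193147164059) (nat_lit 0) (nat_lit 28202866732) (nat_lit 168) (nat_lit 143195485652) (nat_lit 17) (nat_lit 1) (nat_lit 16) (nat_lit 1) (nat_lit 18) (nat_lit 1) (nat_lit 253) (nat_lit 437)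 (nat_lit 390))) (XT.nd (nat_lit 94) (nat_lit 252) (nat_lit 0) (XT.lf (nat_lit 0) (nat_lit 25965875623) (nat_lit 0) (nat_lit 203224572672) (nat_lit 168) (nat_lit 125894948063) (nat_lit 15) (nat_lit 3) (nat_lit 15) (nat_lit 1) (nat_lit 17) (nat_lit 1) (nat_lit 254) (nat_lit 437) (nat_lit 389)) (XT.nd (nat_lit 94) (nat_lit 84) (nat_lit 0) (XT.lf (nat_lit 84) (nat_lit 209941514252) (nat_lit 0) (nat_lit 26841260017) (nat_lit 168) (nat_lit 109103840158) (nat_lit 14) (nat_lit 1) (nat_lit 13) (nat_lit 1) (nat_lit 15) (nat_lit 1) (nat_lit 255) (nat_lit 437) (nat_lit 388)) (XT.lf (nat_lit 0) (nat_lit 49604428624) (nat_lit 0) (nat_lit 194338487878) (nat_lit 168) (nat_lit 92989900294) (nat_lit 12) (nat_lit 3) (nat_lit 12) (nat_lit 1) (nat_lit 14) (nat_lit 1) (nat_lit 256) (nat_lit 437) (nat_lit 387))))) (XT.nd (nat_lit 188) (nat_lit 420) (nat_lit 0) (XT.nd (nat_lit 94)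 (nat_lit 84) (nat_lit 0) (XT.lf (nat_lit 84) (nat_lit 223414617906) (nat_lit 0) (nat_lit 27795550857) (nat_lit 168) (nat_lit 77032138569) (nat_lit 11) (nat_lit 1) (nat_lit 10) (nat_lit 1) (nat_lit 12) (nat_lit 1) (nat_lit 257) (nat_lit 437) (nat_lit 386)) (XT.lf (nat_lit 0) (nat_lit 69738306220) (nat_lit 0) (nat_lit 187915570618) (nat_lit 168) (nat_lit 62109720448) (nat_lit 9) (nat_lit 3) (nat_lit 9) (nat_lit 1) (nat_lit 11) (nat_lit 1) (nat_lit 258) (nat_lit 437) (nat_lit 385))) (XT.nd (nat_lit 94) (nat_lit 252) (nat_lit 0) (XT.lf (nat_lit 84) (nat_lit 234064159726) (nat_lit 0) (nat_lit 30419283881) (nat_lit 168) (nat_lit 47063861004) (nat_lit 8) (nat_lit 1) (nat_lit 7) (nat_lit 1) (nat_lit 9) (nat_lit 1) (nat_lit 259) (nat_lit 437) (nat_lit 384)) (XT.nd (nat_lit 94) (nat_lit 168) (nat_lit 0) (XT.lf (nat_lit 0) (nat_lit 86851204012) (nat_lit 0) (nat_lit 183344495865)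 (nat_lit 168) (nat_lit 33319370968) (nat_lit 6) (nat_lit 3) (nat_lit 6) (nat_lit 1) (nat_lit 8) (nat_lit 1) (nat_lit 260) (nat_lit 437) (nat_lit 383)) (XT.lf (nat_lit 84) (nat_lit 242308571652) (nat_lit 0) (nat_lit 34201914088) (nat_lit 168) (nat_lit 19231716722) (nat_lit 5) (nat_lit 1) (nat_lit 4) (nat_lit 1) (nat_lit 6) (nat_lit 1) (nat_lit 261) (nat_lit 437) (nat_lit 382))))))))
noncomputable def ec348 : XT := (XT.nd (nat_lit 1692) (nat_lit 0) (nat_lit 0) (XT.nd (nat_lit 846) (nat_lit 0) (nat_lit 0) (XT.nd (nat_lit 376) (nat_lit 0) (nat_lit 0) (XT.nd (nat_lit 188) (nat_lit 0) (nat_lit 0) (XT.nd (nat_lit 94) (nat_lit 252) (nat_lit 0) (XT.lf (nat_lit 0) (nat_lit 101352213119) (nat_lit 0) (nat_lit 180140255980) (nat_lit 168) (nat_lit 6637664098) (nat_lit 3) (nat_lit 3) (nat_lit 3) (nat_lit 1) (nat_lit 5) (nat_lit 1) (nat_lit 262) (nat_lit 437) (nat_lit 381))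 (XT.lf (nat_lit 0) (nat_lit 407285221279) (nat_lit 0) (nat_lit 0) (nat_lit 0) (nat_lit 0) (nat_lit 0) (nat_lit 0) (nat_lit 1) (nat_lit 0) (nat_lit 1) (nat_lit 0) (nat_lit 263) (nat_lit 437) (nat_lit 380))) (XT.nd (nat_lit 94) (nat_lit 0) (nat_lit 0) (XT.lf (nat_lit 0) (nat_lit 406914505381) (nat_lit 0) (nat_lit 0) (nat_lit 0) (nat_lit 0) (nat_lit 0) (nat_lit 0) (nat_lit 1) (nat_lit 0) (nat_lit 1) (nat_lit 0) (nat_lit 264) (nat_lit 437) (nat_lit 379)) (XT.lf (nat_lit 0) (nat_lit 406571249920) (nat_lit 0) (nat_lit 0) (nat_lit 0) (nat_lit 0) (nat_lit 0) (nat_lit 0) (nat_lit 1) (nat_lit 0) (nat_lit 1) (nat_lit 0) (nat_lit 265) (nat_lit 437) (nat_lit 378)))) (XT.nd (nat_lit 188) (nat_lit 0) (nat_lit 0) (XT.nd (nat_lit 94) (nat_lit 0) (nat_lit 0) (XT.lf (nat_lit 0) (nat_lit 406253420789) (nat_lit 0) (nat_lit 0) (nat_lit 0) (nat_lit 0) (nat_lit 0) (nat_lit 0) (nat_lit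 1) (nat_lit 0) (nat_lit 1) (nat_lit 0) (nat_lit 266) (nat_lit 437) (nat_lit 377)) (XT.lf (nat_lit 0) (nat_lit 405959134557) (nat_lit 0) (nat_lit 0) (nat_lit 0) (nat_lit 0) (nat_lit 0) (nat_lit 0) (nat_lit 1) (nat_lit 0) (nat_lit 1) (nat_lit 0) (nat_lit 267) (nat_lit 437) (nat_lit 376))) (XT.nd (nat_lit 94) (nat_lit 0) (nat_lit 0) (XT.lf (nat_lit 0) (nat_lit 405686647305) (nat_lit 0) (nat_lit 0) (nat_lit 0) (nat_lit 0) (nat_lit 0) (nat_lit 0) (nat_lit 1) (nat_lit 0) (nat_lit 1) (nat_lit 0) (nat_lit 268) (nat_lit 437) (nat_lit 375)) (XT.nd (nat_lit 94) (nat_lit 0) (nat_lit 0) (XT.lf (nat_lit 0) (nat_lit 405434344293) (nat_lit 0) (nat_lit 0) (nat_lit 0) (nat_lit 0) (nat_lit 0) (nat_lit 0) (nat_lit 1) (nat_lit 0) (nat_lit 1) (nat_lit 0) (nat_lit 269) (nat_lit 437) (nat_lit 374)) (XT.lf (nat_lit 0) (nat_lit 405200730394) (nat_lit 0) (nat_lit 0) (nat_lit 0) (nat_lit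 0) (nat_lit 0) (nat_lit 0) (nat_lit 1) (nat_lit 0) (nat_lit 1) (nat_lit 0) (nat_lit 270) (nat_lit 437) (nat_lit 373)))))) (XT.nd (nat_lit 376) (nat_lit 0) (nat_lit 0) (XT.nd (nat_lit 188) (nat_lit 0) (nat_lit 0) (XT.nd (nat_lit 94) (nat_lit 0) (nat_lit 0) (XT.lf (nat_lit 0) (nat_lit 404984421228) (nat_lit 0) (nat_lit 0) (nat_lit 0) (nat_lit 0) (nat_lit 0) (nat_lit 0) (nat_lit 1) (nat_lit 0) (nat_lit 1) (nat_lit 0) (nat_lit 271) (nat_lit 437) (nat_lit 372)) (XT.lf (nat_lit 0) (nat_lit 404784134963) (nat_lit 0) (nat_lit 0) (nat_lit 0) (nat_lit 0) (nat_lit 0) (nat_lit 0) (nat_lit 1) (nat_lit 0) (nat_lit 1) (nat_lit 0) (nat_lit 272) (nat_lit 437) (nat_lit 371))) (XT.nd (nat_lit 94) (nat_lit 0) (nat_lit 0) (XT.lf (nat_lit 0) (nat_lit 404598684718) (nat_lit 0) (nat_lit 0) (nat_lit 0) (nat_lit 0) (nat_lit 0) (nat_lit 0) (nat_lit 1) (nat_lit 0) (nat_lit 1) (nat_lit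 0) (nat_lit 273) (nat_lit 437) (nat_lit 370)) (XT.lf (nat_lit 0) (nat_lit 404426971528) (nat_lit 0) (nat_lit 0) (nat_lit 0) (nat_lit 0) (nat_lit 0) (nat_lit 0) (nat_lit 1) (nat_lit 0) (nat_lit 1) (nat_lit 0) (nat_lit 274) (nat_lit 437) (nat_lit 369)))) (XT.nd (nat_lit 188) (nat_lit 0) (nat_lit 0) (XT.nd (nat_lit 94) (nat_lit 0) (nat_lit 0) (XT.lf (nat_lit 0) (nat_lit 404267977834) (nat_lit 0) (nat_lit 0) (nat_lit 0) (nat_lit 0) (nat_lit 0) (nat_lit 0) (nat_lit 1) (nat_lit 0) (nat_lit 1) (nat_lit 0) (nat_lit 275) (nat_lit 437) (nat_lit 368)) (XT.lf (nat_lit 0) (nat_lit 404120761450) (nat_lit 0) (nat_lit 0) (nat_lit 0) (nat_lit 0) (nat_lit 0) (nat_lit 0) (nat_lit 1) (nat_lit 0) (nat_lit 1) (nat_lit 0) (nat_lit 276) (nat_lit 437) (nat_lit 367))) (XT.nd (nat_lit 94) (nat_lit 0) (nat_lit 0) (XT.lf (nat_lit 0) (nat_lit 403984449984) (nat_lit 0) (nat_lit 0) (nat_lit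 0) (nat_lit 0) (nat_lit 0) (nat_lit 0) (nat_lit 1) (nat_lit 0) (nat_lit 1) (nat_lit 0) (nat_lit 277) (nat_lit 437) (nat_lit 366)) (XT.nd (nat_lit 94) (nat_lit 0) (nat_lit 0) (XT.lf (nat_lit 0) (nat_lit 403858235663) (nat_lit 0) (nat_lit 0) (nat_lit 0) (nat_lit 0) (nat_lit 0) (nat_lit 0) (nat_lit 1) (nat_lit 0) (nat_lit 1) (nat_lit 0) (nat_lit 278) (nat_lit 437) (nat_lit 365)) (XT.lf (nat_lit 0) (nat_lit 403741370551) (nat_lit 0) (nat_lit 0) (nat_lit 0) (nat_lit 0) (nat_lit 0) (nat_lit 0) (nat_lit 1) (nat_lit 0) (nat_lit 1) (nat_lit 0) (nat_lit 279) (nat_lit 437) (nat_lit 364))))))) (XT.nd (nat_lit 846) (nat_lit 0) (nat_lit 0) (XT.nd (nat_lit 376) (nat_lit 0) (nat_lit 0) (XT.nd (nat_lit 188) (nat_lit 0) (nat_lit 0) (XT.nd (nat_lit 94) (nat_lit 0) (nat_lit 0) (XT.lf (nat_lit 0) (nat_lit 403633162114) (nat_lit 0) (nat_lit 0) (nat_lit 0) (nat_lit 0) (nat_lit 0)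 (nat_lit 0) (nat_lit 1) (nat_lit 0) (nat_lit 1) (nat_lit 0) (nat_lit 280) (nat_lit 437) (nat_lit 363)) (XT.lf (nat_lit 0) (nat_lit 403532969117) (nat_lit 0) (nat_lit 0) (nat_lit 0) (nat_lit 0) (nat_lit 0) (nat_lit 0) (nat_lit 1) (nat_lit 0) (nat_lit 1) (nat_lit 0) (nat_lit 281) (nat_lit 437) (nat_lit 362))) (XT.nd (nat_lit 94) (nat_lit 0) (nat_lit 0) (XT.lf (nat_lit 0) (nat_lit 403440197824) (nat_lit 0) (nat_lit 0) (nat_lit 0) (nat_lit 0) (nat_lit 0) (nat_lit 0) (nat_lit 1) (nat_lit 0) (nat_lit 1) (nat_lit 0) (nat_lit 282) (nat_lit 437) (nat_lit 361)) (XT.lf (nat_lit 0) (nat_lit 403354298478) (nat_lit 0) (nat_lit 0) (nat_lit 0) (nat_lit 0) (nat_lit 0) (nat_lit 0) (nat_lit 1) (nat_lit 0) (nat_lit 1) (nat_lit 0) (nat_lit 283) (nat_lit 437) (nat_lit 360)))) (XT.nd (nat_lit 188) (nat_lit 0) (nat_lit 0) (XT.nd (nat_lit 94) (nat_lit 0) (nat_lit 0) (XT.lf (nat_lit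 0) (nat_lit 403274762046) (nat_lit 0) (nat_lit 0) (nat_lit 0) (nat_lit 0) (nat_lit 0) (nat_lit 0) (nat_lit 1) (nat_lit 0) (nat_lit 1) (nat_lit 0) (nat_lit 284) (nat_lit 437) (nat_lit 359)) (XT.lf (nat_lit 0) (nat_lit 403201117203) (nat_lit 0) (nat_lit 0) (nat_lit 0) (nat_lit 0) (nat_lit 0) (nat_lit 0) (nat_lit 1) (nat_lit 0) (nat_lit 1) (nat_lit 0) (nat_lit 285) (nat_lit 437) (nat_lit 358))) (XT.nd (nat_lit 94) (nat_lit 0) (nat_lit 0) (XT.lf (nat_lit 0) (nat_lit 403132927532) (nat_lit 0) (nat_lit 0) (nat_lit 0) (nat_lit 0) (nat_lit 0) (nat_lit 0) (nat_lit 1) (nat_lit 0) (nat_lit 1) (nat_lit 0) (nat_lit 286) (nat_lit 437) (nat_lit 357)) (XT.nd (nat_lit 94) (nat_lit 0) (nat_lit 0) (XT.lf (nat_lit 0) (nat_lit 403069788949) (nat_lit 0) (nat_lit 0) (nat_lit 0) (nat_lit 0) (nat_lit 0) (nat_lit 0) (nat_lit 1) (nat_lit 0) (nat_lit 1) (nat_lit 0) (nat_lit 287) (nat_lit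 437) (nat_lit 356)) (XT.lf (nat_lit 0) (nat_lit 403011327297) (nat_lit 0) (nat_lit 0) (nat_lit 0) (nat_lit 0) (nat_lit 0) (nat_lit 0) (nat_lit 1) (nat_lit 0) (nat_lit 1) (nat_lit 0) (nat_lit 288) (nat_lit 437) (nat_lit 355)))))) (XT.nd (nat_lit 470) (nat_lit 0) (nat_lit 0) (XT.nd (nat_lit 188) (nat_lit 0) (nat_lit 0) (XT.nd (nat_lit 94) (nat_lit 0) (nat_lit 0) (XT.lf (nat_lit 0) (nat_lit 402957196138) (nat_lit 0) (nat_lit 0) (nat_lit 0) (nat_lit 0) (nat_lit 0) (nat_lit 0) (nat_lit 1) (nat_lit 0) (nat_lit 1) (nat_lit 0) (nat_lit 289) (nat_lit 437) (nat_lit 354)) (XT.lf (nat_lit 0) (nat_lit 402907074695) (nat_lit 0) (nat_lit 0) (nat_lit 0) (nat_lit 0) (nat_lit 0) (nat_lit 0) (nat_lit 1) (nat_lit 0) (nat_lit 1) (nat_lit 0) (nat_lit 290) (nat_lit 437) (nat_lit 353))) (XT.nd (nat_lit 94) (nat_lit 0) (nat_lit 0) (XT.lf (nat_lit 0) (nat_lit 402860665951) (nat_lit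 0) (nat_lit 0) (nat_lit 0) (nat_lit 0) (nat_lit 0) (nat_lit 0) (nat_lit 1) (nat_lit 0) (nat_lit 1) (nat_lit 0) (nat_lit 291) (nat_lit 437) (nat_lit 352)) (XT.nd (nat_lit 94) (nat_lit 0) (nat_lit 0) (XT.lf (nat_lit 0) (nat_lit 402817694892) (nat_lit 0) (nat_lit 0) (nat_lit 0) (nat_lit 0) (nat_lit 0) (nat_lit 0) (nat_lit 1) (nat_lit 0) (nat_lit 1) (nat_lit 0) (nat_lit 292) (nat_lit 437) (nat_lit 351)) (XT.lf (nat_lit 0) (nat_lit 402777906875) (nat_lit 0) (nat_lit 0) (nat_lit 0) (nat_lit 0) (nat_lit 0) (nat_lit 0) (nat_lit 1) (nat_lit 0) (nat_lit 1) (nat_lit 0) (nat_lit 293) (nat_lit 437) (nat_lit 350))))) (XT.nd (nat_lit 188) (nat_lit 0) (nat_lit 0) (XT.nd (nat_lit 94) (nat_lit 0) (nat_lit 0) (XT.lf (nat_lit 0) (nat_lit 402741066118) (nat_lit 0) (nat_lit 0) (nat_lit 0) (nat_lit 0) (nat_lit 0) (nat_lit 0) (nat_lit 1) (nat_lit 0) (nat_lit 1) (nat_lit 0) (nat_lit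 294) (nat_lit 437) (nat_lit 349)) (XT.lf (nat_lit 0) (nat_lit 402706954305) (nat_lit 0) (nat_lit 0) (nat_lit 0) (nat_lit 0) (nat_lit 0) (nat_lit 0) (nat_lit 1) (nat_lit 0) (nat_lit 1) (nat_lit 0) (nat_lit 295) (nat_lit 437) (nat_lit 348))) (XT.nd (nat_lit 94) (nat_lit 0) (nat_lit 0) (XT.lf (nat_lit 0) (nat_lit 402675369294) (nat_lit 0) (nat_lit 0) (nat_lit 0) (nat_lit 0) (nat_lit 0) (nat_lit 0) (nat_lit 1) (nat_lit 0) (nat_lit 1) (nat_lit 0) (nat_lit 296) (nat_lit 437) (nat_lit 347)) (XT.nd (nat_lit 94) (nat_lit 0) (nat_lit 0) (XT.lf (nat_lit 0) (nat_lit 402646123913) (nat_lit 0) (nat_lit 0) (nat_lit 0) (nat_lit 0) (nat_lit 0) (nat_lit 0) (nat_lit 1) (nat_lit 0) (nat_lit 1) (nat_lit 0) (nat_lit 297) (nat_lit 437) (nat_lit 346)) (XT.lf (nat_lit 0) (nat_lit 402619044857) (nat_lit 0) (nat_lit 0) (nat_lit 0) (nat_lit 0) (nat_lit 0) (nat_lit 0) (nat_lit 1) (nat_lit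 0) (nat_lit 1) (nat_lit 0) (nat_lit 298) (nat_lit 437) (nat_lit 345))))))))
noncomputable def ec349 : XT := (XT.nd (nat_lit 1786) (nat_lit 0) (nat_lit 0) (XT.nd (nat_lit 846) (nat_lit 0) (nat_lit 0) (XT.nd (nat_lit 376) (nat_lit 0) (nat_lit 0) (XT.nd (nat_lit 188) (nat_lit 0) (nat_lit 0) (XT.nd (nat_lit 94) (nat_lit 0) (nat_lit 0) (XT.lf (nat_lit 0) (nat_lit 402593971657) (nat_lit 0) (nat_lit 0) (nat_lit 0) (nat_lit 0) (nat_lit 0) (nat_lit 0) (nat_lit 1) (nat_lit 0) (nat_lit 1) (nat_lit 0) (nat_lit 299) (nat_lit 437) (nat_lit 344)) (XT.lf (nat_lit 0) (nat_lit 402570755731) (nat_lit 0) (nat_lit 0) (nat_lit 0) (nat_lit 0) (nat_lit 0) (nat_lit 0) (nat_lit 1) (nat_lit 0) (nat_lit 1) (nat_lit 0) (nat_lit 300) (nat_lit 437) (nat_lit 343))) (XT.nd (nat_lit 94) (nat_lit 0) (nat_lit 0) (XT.lf (nat_lit 0) (nat_lit 402549259503) (nat_lit 0) (nat_lit 0) (nat_lit 0) (nat_lit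 0) (nat_lit 0) (nat_lit 0) (nat_lit 1) (nat_lit 0) (nat_lit 1) (nat_lit 0) (nat_lit 301) (nat_lit 437) (nat_lit 342)) (XT.lf (nat_lit 0) (nat_lit 402529355588) (nat_lit 0) (nat_lit 0) (nat_lit 0) (nat_lit 0) (nat_lit 0) (nat_lit 0) (nat_lit 1) (nat_lit 0) (nat_lit 1) (nat_lit 0) (nat_lit 302) (nat_lit 437) (nat_lit 341)))) (XT.nd (nat_lit 188) (nat_lit 0) (nat_lit 0) (XT.nd (nat_lit 94) (nat_lit 0) (nat_lit 0) (XT.lf (nat_lit 0) (nat_lit 402510926037) (nat_lit 0) (nat_lit 0) (nat_lit 0) (nat_lit 0) (nat_lit 0) (nat_lit 0) (nat_lit 1) (nat_lit 0) (nat_lit 1) (nat_lit 0) (nat_lit 303) (nat_lit 437) (nat_lit 340)) (XT.lf (nat_lit 0) (nat_lit 402493861639) (nat_lit 0) (nat_lit 0) (nat_lit 0) (nat_lit 0) (nat_lit 0) (nat_lit 0) (nat_lit 1) (nat_lit 0) (nat_lit 1) (nat_lit 0) (nat_lit 304) (nat_lit 437) (nat_lit 339))) (XT.nd (nat_lit 94) (nat_lit 0) (nat_lit 0)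 (XT.lf (nat_lit 0) (nat_lit 402478061269) (nat_lit 0) (nat_lit 0) (nat_lit 0) (nat_lit 0) (nat_lit 0) (nat_lit 0) (nat_lit 1) (nat_lit 0) (nat_lit 1) (nat_lit 0) (nat_lit 305) (nat_lit 437) (nat_lit 338)) (XT.nd (nat_lit 94) (nat_lit 0) (nat_lit 0) (XT.lf (nat_lit 0) (nat_lit 402463431298) (nat_lit 0) (nat_lit 0) (nat_lit 0) (nat_lit 0) (nat_lit 0) (nat_lit 0) (nat_lit 1) (nat_lit 0) (nat_lit 1) (nat_lit 0) (nat_lit 306) (nat_lit 437) (nat_lit 337)) (XT.lf (nat_lit 0) (nat_lit 402449885028) (nat_lit 0) (nat_lit 0) (nat_lit 0) (nat_lit 0) (nat_lit 0) (nat_lit 0) (nat_lit 1) (nat_lit 0) (nat_lit 1) (nat_lit 0) (nat_lit 307) (nat_lit 437) (nat_lit 336)))))) (XT.nd (nat_lit 470) (nat_lit 0) (nat_lit 0) (XT.nd (nat_lit 188) (nat_lit 0) (nat_lit 0) (XT.nd (nat_lit 94) (nat_lit 0) (nat_lit 0) (XT.lf (nat_lit 0) (nat_lit 402437342185) (nat_lit 0) (nat_lit 0) (nat_lit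 0) (nat_lit 0) (nat_lit 0) (nat_lit 0) (nat_lit 1) (nat_lit 0) (nat_lit 1) (nat_lit 0) (nat_lit 308) (nat_lit 437) (nat_lit 335)) (XT.lf (nat_lit 0) (nat_lit 402425728442) (nat_lit 0) (nat_lit 0) (nat_lit 0) (nat_lit 0) (nat_lit 0) (nat_lit 0) (nat_lit 1) (nat_lit 0) (nat_lit 1) (nat_lit 0) (nat_lit 309) (nat_lit 437) (nat_lit 334))) (XT.nd (nat_lit 94) (nat_lit 0) (nat_lit 0) (XT.lf (nat_lit 0) (nat_lit 402414974977) (nat_lit 0) (nat_lit 0) (nat_lit 0) (nat_lit 0) (nat_lit 0) (nat_lit 0) (nat_lit 1) (nat_lit 0) (nat_lit 1) (nat_lit 0) (nat_lit 310) (nat_lit 437) (nat_lit 333)) (XT.nd (nat_lit 94) (nat_lit 0) (nat_lit 0) (XT.lf (nat_lit 0) (nat_lit 402405018064) (nat_lit 0) (nat_lit 0) (nat_lit 0) (nat_lit 0) (nat_lit 0) (nat_lit 0) (nat_lit 1) (nat_lit 0) (nat_lit 1) (nat_lit 0) (nat_lit 311) (nat_lit 437) (nat_lit 332)) (XT.lf (nat_lit 0) (nat_lit 402395798700)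 (nat_lit 0) (nat_lit 0) (nat_lit 0) (nat_lit 0) (nat_lit 0) (nat_lit 0) (nat_lit 1) (nat_lit 0) (nat_lit 1) (nat_lit 0) (nat_lit 312) (nat_lit 437) (nat_lit 331))))) (XT.nd (nat_lit 188) (nat_lit 0) (nat_lit 0) (XT.nd (nat_lit 94) (nat_lit 0) (nat_lit 0) (XT.lf (nat_lit 0) (nat_lit 402387262252) (nat_lit 0) (nat_lit 0) (nat_lit 0) (nat_lit 0) (nat_lit 0) (nat_lit 0) (nat_lit 1) (nat_lit 0) (nat_lit 1) (nat_lit 0) (nat_lit 313) (nat_lit 437) (nat_lit 330)) (XT.lf (nat_lit 0) (nat_lit 402379358134) (nat_lit 0) (nat_lit 0) (nat_lit 0) (nat_lit 0) (nat_lit 0) (nat_lit 0) (nat_lit 1) (nat_lit 0) (nat_lit 1) (nat_lit 0) (nat_lit 314) (nat_lit 437) (nat_lit 329))) (XT.nd (nat_lit 94) (nat_lit 0) (nat_lit 0) (XT.lf (nat_lit 0) (nat_lit 402372039506) (nat_lit 0) (nat_lit 0) (nat_lit 0) (nat_lit 0) (nat_lit 0) (nat_lit 0) (nat_lit 1) (nat_lit 0) (nat_lit 1) (nat_lit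 0) (nat_lit 315) (nat_lit 437) (nat_lit 328)) (XT.nd (nat_lit 94) (nat_lit 0) (nat_lit 0) (XT.lf (nat_lit 0) (nat_lit 402365262998) (nat_lit 0) (nat_lit 0) (nat_lit 0) (nat_lit 0) (nat_lit 0) (nat_lit 0) (nat_lit 1) (nat_lit 0) (nat_lit 1) (nat_lit 0) (nat_lit 316) (nat_lit 437) (nat_lit 327)) (XT.lf (nat_lit 0) (nat_lit 402358988454) (nat_lit 0) (nat_lit 0) (nat_lit 0) (nat_lit 0) (nat_lit 0) (nat_lit 0) (nat_lit 1) (nat_lit 0) (nat_lit 1) (nat_lit 0) (nat_lit 317) (nat_lit 437) (nat_lit 326))))))) (XT.nd (nat_lit 846) (nat_lit 0) (nat_lit 0) (XT.nd (nat_lit 376) (nat_lit 0) (nat_lit 0) (XT.nd (nat_lit 188) (nat_lit 0) (nat_lit 0) (XT.nd (nat_lit 94) (nat_lit 0) (nat_lit 0) (XT.lf (nat_lit 0) (nat_lit 402353178691) (nat_lit 0) (nat_lit 0) (nat_lit 0) (nat_lit 0) (nat_lit 0) (nat_lit 0) (nat_lit 1) (nat_lit 0) (nat_lit 1) (nat_lit 0) (nat_lit 318) (nat_lit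 437) (nat_lit 325)) (XT.lf (nat_lit 0) (nat_lit 402347799281) (nat_lit 0) (nat_lit 0) (nat_lit 0) (nat_lit 0) (nat_lit 0) (nat_lit 0) (nat_lit 1) (nat_lit 0) (nat_lit 1) (nat_lit 0) (nat_lit 319) (nat_lit 437) (nat_lit 324))) (XT.nd (nat_lit 94) (nat_lit 0) (nat_lit 0) (XT.lf (nat_lit 0) (nat_lit 402342818346) (nat_lit 0) (nat_lit 0) (nat_lit 0) (nat_lit 0) (nat_lit 0) (nat_lit 0) (nat_lit 1) (nat_lit 0) (nat_lit 1) (nat_lit 0) (nat_lit 320) (nat_lit 437) (nat_lit 323)) (XT.lf (nat_lit 0) (nat_lit 402338206368) (nat_lit 0) (nat_lit 0) (nat_lit 0) (nat_lit 0) (nat_lit 0) (nat_lit 0) (nat_lit 1) (nat_lit 0) (nat_lit 1) (nat_lit 0) (nat_lit 321) (nat_lit 437) (nat_lit 322)))) (XT.nd (nat_lit 188) (nat_lit 0) (nat_lit 0) (XT.nd (nat_lit 94) (nat_lit 0) (nat_lit 0) (XT.lf (nat_lit 0) (nat_lit 402333936019) (nat_lit 0) (nat_lit 0) (nat_lit 0) (nat_lit 0) (nat_lit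 0) (nat_lit 0) (nat_lit 1) (nat_lit 0) (nat_lit 1) (nat_lit 0) (nat_lit 322) (nat_lit 437) (nat_lit 321)) (XT.lf (nat_lit 0) (nat_lit 402329981992) (nat_lit 0) (nat_lit 0) (nat_lit 0) (nat_lit 0) (nat_lit 0) (nat_lit 0) (nat_lit 1) (nat_lit 0) (nat_lit 1) (nat_lit 0) (nat_lit 323) (nat_lit 437) (nat_lit 320))) (XT.nd (nat_lit 94) (nat_lit 0) (nat_lit 0) (XT.lf (nat_lit 0) (nat_lit 402326320856) (nat_lit 0) (nat_lit 0) (nat_lit 0) (nat_lit 0) (nat_lit 0) (nat_lit 0) (nat_lit 1) (nat_lit 0) (nat_lit 1) (nat_lit 0) (nat_lit 324) (nat_lit 437) (nat_lit 319)) (XT.nd (nat_lit 94) (nat_lit 0) (nat_lit 0) (XT.lf (nat_lit 0) (nat_lit 402322930915) (nat_lit 0) (nat_lit 0) (nat_lit 0) (nat_lit 0) (nat_lit 0) (nat_lit 0) (nat_lit 1) (nat_lit 0) (nat_lit 1) (nat_lit 0) (nat_lit 325) (nat_lit 437) (nat_lit 318)) (XT.lf (nat_lit 0) (nat_lit 402319792081) (nat_lit 0) (nat_lit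 0) (nat_lit 0) (nat_lit 0) (nat_lit 0) (nat_lit 0) (nat_lit 1) (nat_lit 0) (nat_lit 1) (nat_lit 0) (nat_lit 326) (nat_lit 437) (nat_lit 317)))))) (XT.nd (nat_lit 470) (nat_lit 0) (nat_lit 0) (XT.nd (nat_lit 188) (nat_lit 0) (nat_lit 0) (XT.nd (nat_lit 94) (nat_lit 0) (nat_lit 0) (XT.lf (nat_lit 0) (nat_lit 402316885753) (nat_lit 0) (nat_lit 0) (nat_lit 0) (nat_lit 0) (nat_lit 0) (nat_lit 0) (nat_lit 1) (nat_lit 0) (nat_lit 1) (nat_lit 0) (nat_lit 327) (nat_lit 437) (nat_lit 316)) (XT.lf (nat_lit 0) (nat_lit 402314194709) (nat_lit 0) (nat_lit 0) (nat_lit 0) (nat_lit 0) (nat_lit 0) (nat_lit 0) (nat_lit 1) (nat_lit 0) (nat_lit 1) (nat_lit 0) (nat_lit 328) (nat_lit 437) (nat_lit 315))) (XT.nd (nat_lit 94) (nat_lit 0) (nat_lit 0) (XT.lf (nat_lit 0) (nat_lit 402311703001) (nat_lit 0) (nat_lit 0) (nat_lit 0) (nat_lit 0) (nat_lit 0) (nat_lit 0) (nat_lit 1) (nat_lit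 0) (nat_lit 1) (nat_lit 0) (nat_lit 329) (nat_lit 437) (nat_lit 314)) (XT.nd (nat_lit 94) (nat_lit 0) (nat_lit 0) (XT.lf (nat_lit 0) (nat_lit 402309395864) (nat_lit 0) (nat_lit 0) (nat_lit 0) (nat_lit 0) (nat_lit 0) (nat_lit 0) (nat_lit 1) (nat_lit 0) (nat_lit 1) (nat_lit 0) (nat_lit 330) (nat_lit 437) (nat_lit 313)) (XT.lf (nat_lit 0) (nat_lit 402307259626) (nat_lit 0) (nat_lit 0) (nat_lit 0) (nat_lit 0) (nat_lit 0) (nat_lit 0) (nat_lit 1) (nat_lit 0) (nat_lit 1) (nat_lit 0) (nat_lit 331) (nat_lit 437) (nat_lit 312))))) (XT.nd (nat_lit 188) (nat_lit 0) (nat_lit 0) (XT.nd (nat_lit 94) (nat_lit 0) (nat_lit 0) (XT.lf (nat_lit 0) (nat_lit 402305281628) (nat_lit 0) (nat_lit 0) (nat_lit 0) (nat_lit 0) (nat_lit 0) (nat_lit 0) (nat_lit 1) (nat_lit 0) (nat_lit 1) (nat_lit 0) (nat_lit 332) (nat_lit 437) (nat_lit 311)) (XT.lf (nat_lit 0) (nat_lit 402303450149) (nat_lit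 0) (nat_lit 0) (nat_lit 0) (nat_lit 0) (nat_lit 0) (nat_lit 0) (nat_lit 1) (nat_lit 0) (nat_lit 1) (nat_lit 0) (nat_lit 333) (nat_lit 437) (nat_lit 310))) (XT.nd (nat_lit 94) (nat_lit 0) (nat_lit 0) (XT.lf (nat_lit 0) (nat_lit 402301754334) (nat_lit 0) (nat_lit 0) (nat_lit 0) (nat_lit 0) (nat_lit 0) (nat_lit 0) (nat_lit 1) (nat_lit 0) (nat_lit 1) (nat_lit 0) (nat_lit 334) (nat_lit 437) (nat_lit 309)) (XT.nd (nat_lit 94) (nat_lit 0) (nat_lit 0) (XT.lf (nat_lit 0) (nat_lit 402300184136) (nat_lit 0) (nat_lit 0) (nat_lit 0) (nat_lit 0) (nat_lit 0) (nat_lit 0) (nat_lit 1) (nat_lit 0) (nat_lit 1) (nat_lit 0) (nat_lit 335) (nat_lit 437) (nat_lit 308)) (XT.lf (nat_lit 0) (nat_lit 402298730248) (nat_lit 0) (nat_lit 0) (nat_lit 0) (nat_lit 0) (nat_lit 0) (nat_lit 0) (nat_lit 1) (nat_lit 0) (nat_lit 1) (nat_lit 0) (nat_lit 336) (nat_lit 437) (nat_lit 307))))))))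
noncomputable def ec350 : XT := (XT.nd (nat_lit 1692) (nat_lit 0) (nat_lit 0) (XT.nd (nat_lit 846) (nat_lit 0) (nat_lit 0) (XT.nd (nat_lit 376) (nat_lit 0) (nat_lit 0) (XT.nd (nat_lit 188) (nat_lit 0) (nat_lit 0) (XT.nd (nat_lit 94) (nat_lit 0) (nat_lit 0) (XT.lf (nat_lit 0) (nat_lit 402297384056) (nat_lit 0) (nat_lit 0) (nat_lit 0) (nat_lit 0) (nat_lit 0) (nat_lit 0) (nat_lit 1) (nat_lit 0) (nat_lit 1) (nat_lit 0) (nat_lit 337) (nat_lit 437) (nat_lit 306)) (XT.lf (nat_lit 0) (nat_lit 402296137582) (nat_lit 0) (nat_lit 0) (nat_lit 0) (nat_lit 0) (nat_lit 0) (nat_lit 0) (nat_lit 1) (nat_lit 0) (nat_lit 1) (nat_lit 0) (nat_lit 338) (nat_lit 437) (nat_lit 305))) (XT.nd (nat_lit 94) (nat_lit 0) (nat_lit 0) (XT.lf (nat_lit 0) (nat_lit 402294983439) (nat_lit 0) (nat_lit 0) (nat_lit 0) (nat_lit 0) (nat_lit 0) (nat_lit 0) (nat_lit 1) (nat_lit 0) (nat_lit 1) (nat_lit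 0) (nat_lit 339) (nat_lit 437) (nat_lit 304)) (XT.lf (nat_lit 0) (nat_lit 402293914788) (nat_lit 0) (nat_lit 0) (nat_lit 0) (nat_lit 0) (nat_lit 0) (nat_lit 0) (nat_lit 1) (nat_lit 0) (nat_lit 1) (nat_lit 0) (nat_lit 340) (nat_lit 437) (nat_lit 303)))) (XT.nd (nat_lit 188) (nat_lit 0) (nat_lit 0) (XT.nd (nat_lit 94) (nat_lit 0) (nat_lit 0) (XT.lf (nat_lit 0) (nat_lit 402292925297) (nat_lit 0) (nat_lit 0) (nat_lit 0) (nat_lit 0) (nat_lit 0) (nat_lit 0) (nat_lit 1) (nat_lit 0) (nat_lit 1) (nat_lit 0) (nat_lit 341) (nat_lit 437) (nat_lit 302)) (XT.lf (nat_lit 0) (nat_lit 402292009101) (nat_lit 0) (nat_lit 0) (nat_lit 0) (nat_lit 0) (nat_lit 0) (nat_lit 0) (nat_lit 1) (nat_lit 0) (nat_lit 1) (nat_lit 0) (nat_lit 342) (nat_lit 437) (nat_lit 301))) (XT.nd (nat_lit 94) (nat_lit 0) (nat_lit 0) (XT.lf (nat_lit 0) (nat_lit 402291160772) (nat_lit 0) (nat_lit 0) (nat_lit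 0) (nat_lit 0) (nat_lit 0) (nat_lit 0) (nat_lit 1) (nat_lit 0) (nat_lit 1) (nat_lit 0) (nat_lit 343) (nat_lit 437) (nat_lit 300)) (XT.nd (nat_lit 94) (nat_lit 0) (nat_lit 0) (XT.lf (nat_lit 0) (nat_lit 402290375281) (nat_lit 0) (nat_lit 0) (nat_lit 0) (nat_lit 0) (nat_lit 0) (nat_lit 0) (nat_lit 1) (nat_lit 0) (nat_lit 1) (nat_lit 0) (nat_lit 344) (nat_lit 437) (nat_lit 299)) (XT.lf (nat_lit 0) (nat_lit 402289647976) (nat_lit 0) (nat_lit 0) (nat_lit 0) (nat_lit 0) (nat_lit 0) (nat_lit 0) (nat_lit 1) (nat_lit 0) (nat_lit 1) (nat_lit 0) (nat_lit 345) (nat_lit 437) (nat_lit 298)))))) (XT.nd (nat_lit 376) (nat_lit 0) (nat_lit 0) (XT.nd (nat_lit 188) (nat_lit 0) (nat_lit 0) (XT.nd (nat_lit 94) (nat_lit 0) (nat_lit 0) (XT.lf (nat_lit 0) (nat_lit 402288974544) (nat_lit 0) (nat_lit 0) (nat_lit 0) (nat_lit 0) (nat_lit 0) (nat_lit 0) (nat_lit 1) (nat_lit 0) (nat_lit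 1) (nat_lit 0) (nat_lit 346) (nat_lit 437) (nat_lit 297)) (XT.lf (nat_lit 0) (nat_lit 402288350997) (nat_lit 0) (nat_lit 0) (nat_lit 0) (nat_lit 0) (nat_lit 0) (nat_lit 0) (nat_lit 1) (nat_lit 0) (nat_lit 1) (nat_lit 0) (nat_lit 347) (nat_lit 437) (nat_lit 296))) (XT.nd (nat_lit 94) (nat_lit 0) (nat_lit 0) (XT.lf (nat_lit 0) (nat_lit 402287773638) (nat_lit 0) (nat_lit 0) (nat_lit 0) (nat_lit 0) (nat_lit 0) (nat_lit 0) (nat_lit 1) (nat_lit 0) (nat_lit 1) (nat_lit 0) (nat_lit 348) (nat_lit 437) (nat_lit 295)) (XT.lf (nat_lit 0) (nat_lit 402287239047) (nat_lit 0) (nat_lit 0) (nat_lit 0) (nat_lit 0) (nat_lit 0) (nat_lit 0) (nat_lit 1) (nat_lit 0) (nat_lit 1) (nat_lit 0) (nat_lit 349) (nat_lit 437) (nat_lit 294)))) (XT.nd (nat_lit 188) (nat_lit 0) (nat_lit 0) (XT.nd (nat_lit 94) (nat_lit 0) (nat_lit 0) (XT.lf (nat_lit 0) (nat_lit 402286744055) (nat_lit 0) (nat_lit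 0) (nat_lit 0) (nat_lit 0) (nat_lit 0) (nat_lit 0) (nat_lit 1) (nat_lit 0) (nat_lit 1) (nat_lit 0) (nat_lit 350) (nat_lit 437) (nat_lit 293)) (XT.lf (nat_lit 0) (nat_lit 402286285729) (nat_lit 0) (nat_lit 0) (nat_lit 0) (nat_lit 0) (nat_lit 0) (nat_lit 0) (nat_lit 1) (nat_lit 0) (nat_lit 1) (nat_lit 0) (nat_lit 351) (nat_lit 437) (nat_lit 292))) (XT.nd (nat_lit 94) (nat_lit 0) (nat_lit 0) (XT.lf (nat_lit 0) (nat_lit 402285861353) (nat_lit 0) (nat_lit 0) (nat_lit 0) (nat_lit 0) (nat_lit 0) (nat_lit 0) (nat_lit 1) (nat_lit 0) (nat_lit 1) (nat_lit 0) (nat_lit 352) (nat_lit 437) (nat_lit 291)) (XT.nd (nat_lit 94) (nat_lit 0) (nat_lit 0) (XT.lf (nat_lit 0) (nat_lit 402285468412) (nat_lit 0) (nat_lit 0) (nat_lit 0) (nat_lit 0) (nat_lit 0) (nat_lit 0) (nat_lit 1) (nat_lit 0) (nat_lit 1) (nat_lit 0) (nat_lit 353) (nat_lit 437) (nat_lit 290)) (XT.lf (nat_lit 0) (nat_lit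 402285104578) (nat_lit 0) (nat_lit 0) (nat_lit 0) (nat_lit 0) (nat_lit 0) (nat_lit 0) (nat_lit 1) (nat_lit 0) (nat_lit 1) (nat_lit 0) (nat_lit 354) (nat_lit 437) (nat_lit 289))))))) (XT.nd (nat_lit 846) (nat_lit 0) (nat_lit 0) (XT.nd (nat_lit 376) (nat_lit 0) (nat_lit 0) (XT.nd (nat_lit 188) (nat_lit 0) (nat_lit 0) (XT.nd (nat_lit 94) (nat_lit 0) (nat_lit 0) (XT.lf (nat_lit 0) (nat_lit 402284767695) (nat_lit 0) (nat_lit 0) (nat_lit 0) (nat_lit 0) (nat_lit 0) (nat_lit 0) (nat_lit 1) (nat_lit 0) (nat_lit 1) (nat_lit 0) (nat_lit 355) (nat_lit 437) (nat_lit 288)) (XT.lf (nat_lit 0) (nat_lit 402284455766) (nat_lit 0) (nat_lit 0) (nat_lit 0) (nat_lit 0) (nat_lit 0) (nat_lit 0) (nat_lit 1) (nat_lit 0) (nat_lit 1) (nat_lit 0) (nat_lit 356) (nat_lit 437) (nat_lit 287))) (XT.nd (nat_lit 94) (nat_lit 0) (nat_lit 0) (XT.lf (nat_lit 0) (nat_lit 402284166943) (nat_lit 0)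 (nat_lit 0) (nat_lit 0) (nat_lit 0) (nat_lit 0) (nat_lit 0) (nat_lit 1) (nat_lit 0) (nat_lit 1) (nat_lit 0) (nat_lit 357) (nat_lit 437) (nat_lit 286)) (XT.lf (nat_lit 0) (nat_lit 402283899514) (nat_lit 0) (nat_lit 0) (nat_lit 0) (nat_lit 0) (nat_lit 0) (nat_lit 0) (nat_lit 1) (nat_lit 0) (nat_lit 1) (nat_lit 0) (nat_lit 358) (nat_lit 437) (nat_lit 285)))) (XT.nd (nat_lit 188) (nat_lit 0) (nat_lit 0) (XT.nd (nat_lit 94) (nat_lit 0) (nat_lit 0) (XT.lf (nat_lit 0) (nat_lit 402283651895) (nat_lit 0) (nat_lit 0) (nat_lit 0) (nat_lit 0) (nat_lit 0) (nat_lit 0) (nat_lit 1) (nat_lit 0) (nat_lit 1) (nat_lit 0) (nat_lit 359) (nat_lit 437) (nat_lit 284)) (XT.lf (nat_lit 0) (nat_lit 402283422618) (nat_lit 0) (nat_lit 0) (nat_lit 0) (nat_lit 0) (nat_lit 0) (nat_lit 0) (nat_lit 1) (nat_lit 0) (nat_lit 1) (nat_lit 0) (nat_lit 360) (nat_lit 437) (nat_lit 283))) (XT.nd (nat_lit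 94) (nat_lit 0) (nat_lit 0) (XT.lf (nat_lit 0) (nat_lit 402283210324) (nat_lit 0) (nat_lit 0) (nat_lit 0) (nat_lit 0) (nat_lit 0) (nat_lit 0) (nat_lit 1) (nat_lit 0) (nat_lit 1) (nat_lit 0) (nat_lit 361) (nat_lit 437) (nat_lit 282)) (XT.nd (nat_lit 94) (nat_lit 0) (nat_lit 0) (XT.lf (nat_lit 0) (nat_lit 402283013756) (nat_lit 0) (nat_lit 0) (nat_lit 0) (nat_lit 0) (nat_lit 0) (nat_lit 0) (nat_lit 1) (nat_lit 0) (nat_lit 1) (nat_lit 0) (nat_lit 362) (nat_lit 437) (nat_lit 281)) (XT.lf (nat_lit 0) (nat_lit 402282831748) (nat_lit 0) (nat_lit 0) (nat_lit 0) (nat_lit 0) (nat_lit 0) (nat_lit 0) (nat_lit 1) (nat_lit 0) (nat_lit 1) (nat_lit 0) (nat_lit 363) (nat_lit 437) (nat_lit 280)))))) (XT.nd (nat_lit 470) (nat_lit 0) (nat_lit 0) (XT.nd (nat_lit 188) (nat_lit 0) (nat_lit 0) (XT.nd (nat_lit 94) (nat_lit 0) (nat_lit 0) (XT.lf (nat_lit 0) (nat_lit 402282663223) (nat_lit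 0) (nat_lit 0) (nat_lit 0) (nat_lit 0) (nat_lit 0) (nat_lit 0) (nat_lit 1) (nat_lit 0) (nat_lit 1) (nat_lit 0) (nat_lit 364) (nat_lit 437) (nat_lit 279)) (XT.lf (nat_lit 0) (nat_lit 402282507181) (nat_lit 0) (nat_lit 0) (nat_lit 0) (nat_lit 0) (nat_lit 0) (nat_lit 0) (nat_lit 1) (nat_lit 0) (nat_lit 1) (nat_lit 0) (nat_lit 365) (nat_lit 437) (nat_lit 278))) (XT.nd (nat_lit 94) (nat_lit 0) (nat_lit 0) (XT.lf (nat_lit 0) (nat_lit 402282362697) (nat_lit 0) (nat_lit 0) (nat_lit 0) (nat_lit 0) (nat_lit 0) (nat_lit 0) (nat_lit 1) (nat_lit 0) (nat_lit 1) (nat_lit 0) (nat_lit 366) (nat_lit 437) (nat_lit 277)) (XT.nd (nat_lit 94) (nat_lit 0) (nat_lit 0) (XT.lf (nat_lit 0) (nat_lit 402282228916) (nat_lit 0) (nat_lit 0) (nat_lit 0) (nat_lit 0) (nat_lit 0) (nat_lit 0) (nat_lit 1) (nat_lit 0) (nat_lit 1) (nat_lit 0) (nat_lit 367) (nat_lit 437) (nat_lit 276)) (XT.lf (nat_lit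 0) (nat_lit 402282105045) (nat_lit 0) (nat_lit 0) (nat_lit 0) (nat_lit 0) (nat_lit 0) (nat_lit 0) (nat_lit 1) (nat_lit 0) (nat_lit 1) (nat_lit 0) (nat_lit 368) (nat_lit 437) (nat_lit 275))))) (XT.nd (nat_lit 188) (nat_lit 0) (nat_lit 0) (XT.nd (nat_lit 94) (nat_lit 0) (nat_lit 0) (XT.lf (nat_lit 0) (nat_lit 402281990349) (nat_lit 0) (nat_lit 0) (nat_lit 0) (nat_lit 0) (nat_lit 0) (nat_lit 0) (nat_lit 1) (nat_lit 0) (nat_lit 1) (nat_lit 0) (nat_lit 369) (nat_lit 437) (nat_lit 274)) (XT.lf (nat_lit 0) (nat_lit 402281884150) (nat_lit 0) (nat_lit 0) (nat_lit 0) (nat_lit 0) (nat_lit 0) (nat_lit 0) (nat_lit 1) (nat_lit 0) (nat_lit 1) (nat_lit 0) (nat_lit 370) (nat_lit 437) (nat_lit 273))) (XT.nd (nat_lit 94) (nat_lit 0) (nat_lit 0) (XT.lf (nat_lit 0) (nat_lit 402281785817) (nat_lit 0) (nat_lit 0) (nat_lit 0) (nat_lit 0) (nat_lit 0) (nat_lit 0) (nat_lit 1) (nat_lit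 0) (nat_lit 1) (nat_lit 0) (nat_lit 371) (nat_lit 437) (nat_lit 272)) (XT.nd (nat_lit 94) (nat_lit 0) (nat_lit 0) (XT.lf (nat_lit 0) (nat_lit 402281694768) (nat_lit 0) (nat_lit 0) (nat_lit 0) (nat_lit 0) (nat_lit 0) (nat_lit 0) (nat_lit 1) (nat_lit 0) (nat_lit 1) (nat_lit 0) (nat_lit 372) (nat_lit 437) (nat_lit 271)) (XT.lf (nat_lit 0) (nat_lit 402281610463) (nat_lit 0) (nat_lit 0) (nat_lit 0) (nat_lit 0) (nat_lit 0) (nat_lit 0) (nat_lit 1) (nat_lit 0) (nat_lit 1) (nat_lit 0) (nat_lit 373) (nat_lit 437) (nat_lit 270))))))))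
noncomputable def ec351 : XT := (XT.nd (nat_lit 1786) (nat_lit 0) (nat_lit 0) (XT.nd (nat_lit 846) (nat_lit 0) (nat_lit 0) (XT.nd (nat_lit 376) (nat_lit 0) (nat_lit 0) (XT.nd (nat_lit 188) (nat_lit 0) (nat_lit 0) (XT.nd (nat_lit 94) (nat_lit 0) (nat_lit 0) (XT.lf (nat_lit 0) (nat_lit 402281532403) (nat_lit 0) (nat_lit 0) (nat_lit 0) (nat_lit 0) (nat_lit 0) (nat_lit 0) (nat_lit 1) (nat_lit 0) (nat_lit 1) (nat_lit 0) (nat_lit 374) (nat_lit 437) (nat_lit 269)) (XT.lf (nat_lit 0) (nat_lit 402281460125) (nat_lit 0) (nat_lit 0) (nat_lit 0) (nat_lit 0) (nat_lit 0) (nat_lit 0) (nat_lit 1) (nat_lit 0) (nat_lit 1) (nat_lit 0) (nat_lit 375) (nat_lit 437) (nat_lit 268))) (XT.nd (nat_lit 94) (nat_lit 0) (nat_lit 0) (XT.lf (nat_lit 0) (nat_lit 402281393201) (nat_lit 0) (nat_lit 0) (nat_lit 0) (nat_lit 0) (nat_lit 0) (nat_lit 0) (nat_lit 1) (nat_lit 0) (nat_lit 1) (nat_lit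 0) (nat_lit 376) (nat_lit 437) (nat_lit 267)) (XT.lf (nat_lit 0) (nat_lit 402281331235) (nat_lit 0) (nat_lit 0) (nat_lit 0) (nat_lit 0) (nat_lit 0) (nat_lit 0) (nat_lit 1) (nat_lit 0) (nat_lit 1) (nat_lit 0) (nat_lit 377) (nat_lit 437) (nat_lit 266)))) (XT.nd (nat_lit 188) (nat_lit 0) (nat_lit 0) (XT.nd (nat_lit 94) (nat_lit 0) (nat_lit 0) (XT.lf (nat_lit 0) (nat_lit 402281273859) (nat_lit 0) (nat_lit 0) (nat_lit 0) (nat_lit 0) (nat_lit 0) (nat_lit 0) (nat_lit 1) (nat_lit 0) (nat_lit 1) (nat_lit 0) (nat_lit 378) (nat_lit 437) (nat_lit 265)) (XT.lf (nat_lit 0) (nat_lit 402281220732) (nat_lit 0) (nat_lit 0) (nat_lit 0) (nat_lit 0) (nat_lit 0) (nat_lit 0) (nat_lit 1) (nat_lit 0) (nat_lit 1) (nat_lit 0) (nat_lit 379) (nat_lit 437) (nat_lit 264))) (XT.nd (nat_lit 94) (nat_lit 0) (nat_lit 0) (XT.lf (nat_lit 0) (nat_lit 402281171541) (nat_lit 0) (nat_lit 0) (nat_lit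 0) (nat_lit 0) (nat_lit 0) (nat_lit 0) (nat_lit 1) (nat_lit 0) (nat_lit 1) (nat_lit 0) (nat_lit 380) (nat_lit 437) (nat_lit 263)) (XT.nd (nat_lit 94) (nat_lit 0) (nat_lit 0) (XT.lf (nat_lit 0) (nat_lit 402281125994) (nat_lit 0) (nat_lit 0) (nat_lit 0) (nat_lit 0) (nat_lit 0) (nat_lit 0) (nat_lit 1) (nat_lit 0) (nat_lit 1) (nat_lit 0) (nat_lit 381) (nat_lit 437) (nat_lit 262)) (XT.lf (nat_lit 0) (nat_lit 402281083821) (nat_lit 0) (nat_lit 0) (nat_lit 0) (nat_lit 0) (nat_lit 0) (nat_lit 0) (nat_lit 1) (nat_lit 0) (nat_lit 1) (nat_lit 0) (nat_lit 382) (nat_lit 437) (nat_lit 261)))))) (XT.nd (nat_lit 470) (nat_lit 0) (nat_lit 0) (XT.nd (nat_lit 188) (nat_lit 0) (nat_lit 0) (XT.nd (nat_lit 94) (nat_lit 0) (nat_lit 0) (XT.lf (nat_lit 0) (nat_lit 402281044771) (nat_lit 0) (nat_lit 0) (nat_lit 0) (nat_lit 0) (nat_lit 0) (nat_lit 0) (nat_lit 1) (nat_lit 0) (nat_lit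 1) (nat_lit 0) (nat_lit 383) (nat_lit 437) (nat_lit 260)) (XT.lf (nat_lit 0) (nat_lit 402281008614) (nat_lit 0) (nat_lit 0) (nat_lit 0) (nat_lit 0) (nat_lit 0) (nat_lit 0) (nat_lit 1) (nat_lit 0) (nat_lit 1) (nat_lit 0) (nat_lit 384) (nat_lit 437) (nat_lit 259))) (XT.nd (nat_lit 94) (nat_lit 0) (nat_lit 0) (XT.lf (nat_lit 0) (nat_lit 402280975136) (nat_lit 0) (nat_lit 0) (nat_lit 0) (nat_lit 0) (nat_lit 0) (nat_lit 0) (nat_lit 1) (nat_lit 0) (nat_lit 1) (nat_lit 0) (nat_lit 385) (nat_lit 437) (nat_lit 258)) (XT.nd (nat_lit 94) (nat_lit 0) (nat_lit 0) (XT.lf (nat_lit 0) (nat_lit 402280944137) (nat_lit 0) (nat_lit 0) (nat_lit 0) (nat_lit 0) (nat_lit 0) (nat_lit 0) (nat_lit 1) (nat_lit 0) (nat_lit 1) (nat_lit 0) (nat_lit 386) (nat_lit 437) (nat_lit 257)) (XT.lf (nat_lit 0) (nat_lit 402280915435) (nat_lit 0) (nat_lit 0) (nat_lit 0) (nat_lit 0) (nat_lit 0) (nat_lit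 0) (nat_lit 1) (nat_lit 0) (nat_lit 1) (nat_lit 0) (nat_lit 387) (nat_lit 437) (nat_lit 256))))) (XT.nd (nat_lit 188) (nat_lit 0) (nat_lit 0) (XT.nd (nat_lit 94) (nat_lit 0) (nat_lit 0) (XT.lf (nat_lit 0) (nat_lit 402280888858) (nat_lit 0) (nat_lit 0) (nat_lit 0) (nat_lit 0) (nat_lit 0) (nat_lit 0) (nat_lit 1) (nat_lit 0) (nat_lit 1) (nat_lit 0) (nat_lit 388) (nat_lit 437) (nat_lit 255)) (XT.lf (nat_lit 0) (nat_lit 402280864251) (nat_lit 0) (nat_lit 0) (nat_lit 0) (nat_lit 0) (nat_lit 0) (nat_lit 0) (nat_lit 1) (nat_lit 0) (nat_lit 1) (nat_lit 0) (nat_lit 389) (nat_lit 437) (nat_lit 254))) (XT.nd (nat_lit 94) (nat_lit 0) (nat_lit 0) (XT.lf (nat_lit 0) (nat_lit 402280841466) (nat_lit 0) (nat_lit 0) (nat_lit 0) (nat_lit 0) (nat_lit 0) (nat_lit 0) (nat_lit 1) (nat_lit 0) (nat_lit 1) (nat_lit 0) (nat_lit 390) (nat_lit 437) (nat_lit 253)) (XT.nd (nat_lit 94) (nat_lit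 0) (nat_lit 0) (XT.lf (nat_lit 0) (nat_lit 402280820369) (nat_lit 0) (nat_lit 0) (nat_lit 0) (nat_lit 0) (nat_lit 0) (nat_lit 0) (nat_lit 1) (nat_lit 0) (nat_lit 1) (nat_lit 0) (nat_lit 391) (nat_lit 437) (nat_lit 252)) (XT.lf (nat_lit 0) (nat_lit 402280800834) (nat_lit 0) (nat_lit 0) (nat_lit 0) (nat_lit 0) (nat_lit 0) (nat_lit 0) (nat_lit 1) (nat_lit 0) (nat_lit 1) (nat_lit 0) (nat_lit 392) (nat_lit 437) (nat_lit 251))))))) (XT.nd (nat_lit 846) (nat_lit 0) (nat_lit 0) (XT.nd (nat_lit 376) (nat_lit 0) (nat_lit 0) (XT.nd (nat_lit 188) (nat_lit 0) (nat_lit 0) (XT.nd (nat_lit 94) (nat_lit 0) (nat_lit 0) (XT.lf (nat_lit 0) (nat_lit 402280782747) (nat_lit 0) (nat_lit 0) (nat_lit 0) (nat_lit 0) (nat_lit 0) (nat_lit 0) (nat_lit 1) (nat_lit 0) (nat_lit 1) (nat_lit 0) (nat_lit 393) (nat_lit 437) (nat_lit 250)) (XT.lf (nat_lit 0) (nat_lit 402280765999) (nat_lit 0)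 (nat_lit 0) (nat_lit 0) (nat_lit 0) (nat_lit 0) (nat_lit 0) (nat_lit 1) (nat_lit 0) (nat_lit 1) (nat_lit 0) (nat_lit 394) (nat_lit 437) (nat_lit 249))) (XT.nd (nat_lit 94) (nat_lit 0) (nat_lit 0) (XT.lf (nat_lit 0) (nat_lit 402280750492) (nat_lit 0) (nat_lit 0) (nat_lit 0) (nat_lit 0) (nat_lit 0) (nat_lit 0) (nat_lit 1) (nat_lit 0) (nat_lit 1) (nat_lit 0) (nat_lit 395) (nat_lit 437) (nat_lit 248)) (XT.lf (nat_lit 0) (nat_lit 402280736134) (nat_lit 0) (nat_lit 0) (nat_lit 0) (nat_lit 0) (nat_lit 0) (nat_lit 0) (nat_lit 1) (nat_lit 0) (nat_lit 1) (nat_lit 0) (nat_lit 396) (nat_lit 437) (nat_lit 247)))) (XT.nd (nat_lit 188) (nat_lit 0) (nat_lit 0) (XT.nd (nat_lit 94) (nat_lit 0) (nat_lit 0) (XT.lf (nat_lit 0) (nat_lit 402280722839) (nat_lit 0) (nat_lit 0) (nat_lit 0) (nat_lit 0) (nat_lit 0) (nat_lit 0) (nat_lit 1) (nat_lit 0) (nat_lit 1) (nat_lit 0) (nat_lit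 397) (nat_lit 437) (nat_lit 246)) (XT.lf (nat_lit 0) (nat_lit 402280710529) (nat_lit 0) (nat_lit 0) (nat_lit 0) (nat_lit 0) (nat_lit 0) (nat_lit 0) (nat_lit 1) (nat_lit 0) (nat_lit 1) (nat_lit 0) (nat_lit 398) (nat_lit 437) (nat_lit 245))) (XT.nd (nat_lit 94) (nat_lit 0) (nat_lit 0) (XT.lf (nat_lit 0) (nat_lit 402280699131) (nat_lit 0) (nat_lit 0) (nat_lit 0) (nat_lit 0) (nat_lit 0) (nat_lit 0) (nat_lit 1) (nat_lit 0) (nat_lit 1) (nat_lit 0) (nat_lit 399) (nat_lit 437) (nat_lit 244)) (XT.nd (nat_lit 94) (nat_lit 0) (nat_lit 0) (XT.lf (nat_lit 0) (nat_lit 402280688577) (nat_lit 0) (nat_lit 0) (nat_lit 0) (nat_lit 0) (nat_lit 0) (nat_lit 0) (nat_lit 1) (nat_lit 0) (nat_lit 1) (nat_lit 0) (nat_lit 400) (nat_lit 437) (nat_lit 243)) (XT.lf (nat_lit 0) (nat_lit 402280678805) (nat_lit 0) (nat_lit 0) (nat_lit 0) (nat_lit 0) (nat_lit 0) (nat_lit 0) (nat_lit 1) (nat_lit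 0) (nat_lit 1) (nat_lit 0) (nat_lit 401) (nat_lit 437) (nat_lit 242)))))) (XT.nd (nat_lit 470) (nat_lit 0) (nat_lit 0) (XT.nd (nat_lit 188) (nat_lit 0) (nat_lit 0) (XT.nd (nat_lit 94) (nat_lit 0) (nat_lit 0) (XT.lf (nat_lit 0) (nat_lit 402280669757) (nat_lit 0) (nat_lit 0) (nat_lit 0) (nat_lit 0) (nat_lit 0) (nat_lit 0) (nat_lit 1) (nat_lit 0) (nat_lit 1) (nat_lit 0) (nat_lit 402) (nat_lit 437) (nat_lit 241)) (XT.lf (nat_lit 0) (nat_lit 402280661379) (nat_lit 0) (nat_lit 0) (nat_lit 0) (nat_lit 0) (nat_lit 0) (nat_lit 0) (nat_lit 1) (nat_lit 0) (nat_lit 1) (nat_lit 0) (nat_lit 403) (nat_lit 437) (nat_lit 240))) (XT.nd (nat_lit 94) (nat_lit 0) (nat_lit 0) (XT.lf (nat_lit 0) (nat_lit 402280653621) (nat_lit 0) (nat_lit 0) (nat_lit 0) (nat_lit 0) (nat_lit 0) (nat_lit 0) (nat_lit 1) (nat_lit 0) (nat_lit 1) (nat_lit 0) (nat_lit 404) (nat_lit 437) (nat_lit 239))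 (XT.nd (nat_lit 94) (nat_lit 0) (nat_lit 0) (XT.lf (nat_lit 0) (nat_lit 402280646438) (nat_lit 0) (nat_lit 0) (nat_lit 0) (nat_lit 0) (nat_lit 0) (nat_lit 0) (nat_lit 1) (nat_lit 0) (nat_lit 1) (nat_lit 0) (nat_lit 405) (nat_lit 437) (nat_lit 238)) (XT.lf (nat_lit 0) (nat_lit 402280639788) (nat_lit 0) (nat_lit 0) (nat_lit 0) (nat_lit 0) (nat_lit 0) (nat_lit 0) (nat_lit 1) (nat_lit 0) (nat_lit 1) (nat_lit 0) (nat_lit 406) (nat_lit 437) (nat_lit 237))))) (XT.nd (nat_lit 188) (nat_lit 0) (nat_lit 0) (XT.nd (nat_lit 94) (nat_lit 0) (nat_lit 0) (XT.lf (nat_lit 0) (nat_lit 402280633630) (nat_lit 0) (nat_lit 0) (nat_lit 0) (nat_lit 0) (nat_lit 0) (nat_lit 0) (nat_lit 1) (nat_lit 0) (nat_lit 1) (nat_lit 0) (nat_lit 407) (nat_lit 437) (nat_lit 236)) (XT.lf (nat_lit 0) (nat_lit 402280627928) (nat_lit 0) (nat_lit 0) (nat_lit 0) (nat_lit 0) (nat_lit 0) (nat_lit 0) (nat_lit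 1) (nat_lit 0) (nat_lit 1) (nat_lit 0) (nat_lit 408) (nat_lit 437) (nat_lit 235))) (XT.nd (nat_lit 94) (nat_lit 0) (nat_lit 0) (XT.lf (nat_lit 0) (nat_lit 402280622648) (nat_lit 0) (nat_lit 0) (nat_lit 0) (nat_lit 0) (nat_lit 0) (nat_lit 0) (nat_lit 1) (nat_lit 0) (nat_lit 1) (nat_lit 0) (nat_lit 409) (nat_lit 437) (nat_lit 234)) (XT.nd (nat_lit 94) (nat_lit 0) (nat_lit 0) (XT.lf (nat_lit 0) (nat_lit 402280617760) (nat_lit 0) (nat_lit 0) (nat_lit 0) (nat_lit 0) (nat_lit 0) (nat_lit 0) (nat_lit 1) (nat_lit 0) (nat_lit 1) (nat_lit 0) (nat_lit 410) (nat_lit 437) (nat_lit 233)) (XT.lf (nat_lit 0) (nat_lit 402280613233) (nat_lit 0) (nat_lit 0) (nat_lit 0) (nat_lit 0) (nat_lit 0) (nat_lit 0) (nat_lit 1) (nat_lit 0) (nat_lit 1) (nat_lit 0) (nat_lit 411) (nat_lit 437) (nat_lit 232))))))))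
noncomputable def ec352 : XT := (XT.nd (nat_lit 1692) (nat_lit 0) (nat_lit 0) (XT.nd (nat_lit 846) (nat_lit 0) (nat_lit 0) (XT.nd (nat_lit 376) (nat_lit 0) (nat_lit 0) (XT.nd (nat_lit 188) (nat_lit 0) (nat_lit 0) (XT.nd (nat_lit 94) (nat_lit 0) (nat_lit 0) (XT.lf (nat_lit 0) (nat_lit 402280609042) (nat_lit 0) (nat_lit 0) (nat_lit 0) (nat_lit 0) (nat_lit 0) (nat_lit 0) (nat_lit 1) (nat_lit 0) (nat_lit 1) (nat_lit 0) (nat_lit 412) (nat_lit 437) (nat_lit 231)) (XT.lf (nat_lit 0) (nat_lit 402280605162) (nat_lit 0) (nat_lit 0) (nat_lit 0) (nat_lit 0) (nat_lit 0) (nat_lit 0) (nat_lit 1) (nat_lit 0) (nat_lit 1) (nat_lit 0) (nat_lit 413) (nat_lit 437) (nat_lit 230))) (XT.nd (nat_lit 94) (nat_lit 0) (nat_lit 0) (XT.lf (nat_lit 0) (nat_lit 402280601568) (nat_lit 0) (nat_lit 0) (nat_lit 0) (nat_lit 0) (nat_lit 0) (nat_lit 0) (nat_lit 1) (nat_lit 0) (nat_lit 1) (nat_lit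 0) (nat_lit 414) (nat_lit 437) (nat_lit 229)) (XT.lf (nat_lit 0) (nat_lit 402280598241) (nat_lit 0) (nat_lit 0) (nat_lit 0) (nat_lit 0) (nat_lit 0) (nat_lit 0) (nat_lit 1) (nat_lit 0) (nat_lit 1) (nat_lit 0) (nat_lit 415) (nat_lit 437) (nat_lit 228)))) (XT.nd (nat_lit 188) (nat_lit 0) (nat_lit 0) (XT.nd (nat_lit 94) (nat_lit 0) (nat_lit 0) (XT.lf (nat_lit 0) (nat_lit 402280595161) (nat_lit 0) (nat_lit 0) (nat_lit 0) (nat_lit 0) (nat_lit 0) (nat_lit 0) (nat_lit 1) (nat_lit 0) (nat_lit 1) (nat_lit 0) (nat_lit 416) (nat_lit 437) (nat_lit 227)) (XT.lf (nat_lit 0) (nat_lit 402280592309) (nat_lit 0) (nat_lit 0) (nat_lit 0) (nat_lit 0) (nat_lit 0) (nat_lit 0) (nat_lit 1) (nat_lit 0) (nat_lit 1) (nat_lit 0) (nat_lit 417) (nat_lit 437) (nat_lit 226))) (XT.nd (nat_lit 94) (nat_lit 0) (nat_lit 0) (XT.lf (nat_lit 0) (nat_lit 402280589667) (nat_lit 0) (nat_lit 0) (nat_lit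 0) (nat_lit 0) (nat_lit 0) (nat_lit 0) (nat_lit 1) (nat_lit 0) (nat_lit 1) (nat_lit 0) (nat_lit 418) (nat_lit 437) (nat_lit 225)) (XT.nd (nat_lit 94) (nat_lit 0) (nat_lit 0) (XT.lf (nat_lit 0) (nat_lit 402280587222) (nat_lit 0) (nat_lit 0) (nat_lit 0) (nat_lit 0) (nat_lit 0) (nat_lit 0) (nat_lit 1) (nat_lit 0) (nat_lit 1) (nat_lit 0) (nat_lit 419) (nat_lit 437) (nat_lit 224)) (XT.lf (nat_lit 0) (nat_lit 402280584958) (nat_lit 0) (nat_lit 0) (nat_lit 0) (nat_lit 0) (nat_lit 0) (nat_lit 0) (nat_lit 1) (nat_lit 0) (nat_lit 1) (nat_lit 0) (nat_lit 420) (nat_lit 437) (nat_lit 223)))))) (XT.nd (nat_lit 376) (nat_lit 0) (nat_lit 0) (XT.nd (nat_lit 188) (nat_lit 0) (nat_lit 0) (XT.nd (nat_lit 94) (nat_lit 0) (nat_lit 0) (XT.lf (nat_lit 0) (nat_lit 402280582861) (nat_lit 0) (nat_lit 0) (nat_lit 0) (nat_lit 0) (nat_lit 0) (nat_lit 0) (nat_lit 1) (nat_lit 0) (nat_lit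 1) (nat_lit 0) (nat_lit 421) (nat_lit 437) (nat_lit 222)) (XT.lf (nat_lit 0) (nat_lit 402280580920) (nat_lit 0) (nat_lit 0) (nat_lit 0) (nat_lit 0) (nat_lit 0) (nat_lit 0) (nat_lit 1) (nat_lit 0) (nat_lit 1) (nat_lit 0) (nat_lit 422) (nat_lit 437) (nat_lit 221))) (XT.nd (nat_lit 94) (nat_lit 0) (nat_lit 0) (XT.lf (nat_lit 0) (nat_lit 402280579122) (nat_lit 0) (nat_lit 0) (nat_lit 0) (nat_lit 0) (nat_lit 0) (nat_lit 0) (nat_lit 1) (nat_lit 0) (nat_lit 1) (nat_lit 0) (nat_lit 423) (nat_lit 437) (nat_lit 220)) (XT.lf (nat_lit 0) (nat_lit 402280577458) (nat_lit 0) (nat_lit 0) (nat_lit 0) (nat_lit 0) (nat_lit 0) (nat_lit 0) (nat_lit 1) (nat_lit 0) (nat_lit 1) (nat_lit 0) (nat_lit 424) (nat_lit 437) (nat_lit 219)))) (XT.nd (nat_lit 188) (nat_lit 0) (nat_lit 0) (XT.nd (nat_lit 94) (nat_lit 0) (nat_lit 0) (XT.lf (nat_lit 0) (nat_lit 402280575917) (nat_lit 0) (nat_lit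 0) (nat_lit 0) (nat_lit 0) (nat_lit 0) (nat_lit 0) (nat_lit 1) (nat_lit 0) (nat_lit 1) (nat_lit 0) (nat_lit 425) (nat_lit 437) (nat_lit 218)) (XT.lf (nat_lit 0) (nat_lit 402280574490) (nat_lit 0) (nat_lit 0) (nat_lit 0) (nat_lit 0) (nat_lit 0) (nat_lit 0) (nat_lit 1) (nat_lit 0) (nat_lit 1) (nat_lit 0) (nat_lit 426) (nat_lit 437) (nat_lit 217))) (XT.nd (nat_lit 94) (nat_lit 0) (nat_lit 0) (XT.lf (nat_lit 0) (nat_lit 402280573169) (nat_lit 0) (nat_lit 0) (nat_lit 0) (nat_lit 0) (nat_lit 0) (nat_lit 0) (nat_lit 1) (nat_lit 0) (nat_lit 1) (nat_lit 0) (nat_lit 427) (nat_lit 437) (nat_lit 216)) (XT.nd (nat_lit 94) (nat_lit 0) (nat_lit 0) (XT.lf (nat_lit 0) (nat_lit 402280571946) (nat_lit 0) (nat_lit 0) (nat_lit 0) (nat_lit 0) (nat_lit 0) (nat_lit 0) (nat_lit 1) (nat_lit 0) (nat_lit 1) (nat_lit 0) (nat_lit 428) (nat_lit 437) (nat_lit 215)) (XT.lf (nat_lit 0) (nat_lit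 402280570813) (nat_lit 0) (nat_lit 0) (nat_lit 0) (nat_lit 0) (nat_lit 0) (nat_lit 0) (nat_lit 1) (nat_lit 0) (nat_lit 1) (nat_lit 0) (nat_lit 429) (nat_lit 437) (nat_lit 214))))))) (XT.nd (nat_lit 846) (nat_lit 0) (nat_lit 0) (XT.nd (nat_lit 376) (nat_lit 0) (nat_lit 0) (XT.nd (nat_lit 188) (nat_lit 0) (nat_lit 0) (XT.nd (nat_lit 94) (nat_lit 0) (nat_lit 0) (XT.lf (nat_lit 0) (nat_lit 402280569764) (nat_lit 0) (nat_lit 0) (nat_lit 0) (nat_lit 0) (nat_lit 0) (nat_lit 0) (nat_lit 1) (nat_lit 0) (nat_lit 1) (nat_lit 0) (nat_lit 430) (nat_lit 437) (nat_lit 213)) (XT.lf (nat_lit 0) (nat_lit 402280568793) (nat_lit 0) (nat_lit 0) (nat_lit 0) (nat_lit 0) (nat_lit 0) (nat_lit 0) (nat_lit 1) (nat_lit 0) (nat_lit 1) (nat_lit 0) (nat_lit 431) (nat_lit 437) (nat_lit 212))) (XT.nd (nat_lit 94) (nat_lit 0) (nat_lit 0) (XT.lf (nat_lit 0) (nat_lit 402280567894) (nat_lit 0)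 (nat_lit 0) (nat_lit 0) (nat_lit 0) (nat_lit 0) (nat_lit 0) (nat_lit 1) (nat_lit 0) (nat_lit 1) (nat_lit 0) (nat_lit 432) (nat_lit 437) (nat_lit 211)) (XT.lf (nat_lit 0) (nat_lit 402280567061) (nat_lit 0) (nat_lit 0) (nat_lit 0) (nat_lit 0) (nat_lit 0) (nat_lit 0) (nat_lit 1) (nat_lit 0) (nat_lit 1) (nat_lit 0) (nat_lit 433) (nat_lit 437) (nat_lit 210)))) (XT.nd (nat_lit 188) (nat_lit 0) (nat_lit 0) (XT.nd (nat_lit 94) (nat_lit 0) (nat_lit 0) (XT.lf (nat_lit 0) (nat_lit 402280566290) (nat_lit 0) (nat_lit 0) (nat_lit 0) (nat_lit 0) (nat_lit 0) (nat_lit 0) (nat_lit 1) (nat_lit 0) (nat_lit 1) (nat_lit 0) (nat_lit 434) (nat_lit 437) (nat_lit 209)) (XT.lf (nat_lit 0) (nat_lit 402280565576) (nat_lit 0) (nat_lit 0) (nat_lit 0) (nat_lit 0) (nat_lit 0) (nat_lit 0) (nat_lit 1) (nat_lit 0) (nat_lit 1) (nat_lit 0) (nat_lit 435) (nat_lit 437) (nat_lit 208))) (XT.nd (nat_lit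 94) (nat_lit 0) (nat_lit 0) (XT.lf (nat_lit 0) (nat_lit 402280564915) (nat_lit 0) (nat_lit 0) (nat_lit 0) (nat_lit 0) (nat_lit 0) (nat_lit 0) (nat_lit 1) (nat_lit 0) (nat_lit 1) (nat_lit 0) (nat_lit 436) (nat_lit 437) (nat_lit 207)) (XT.nd (nat_lit 94) (nat_lit 0) (nat_lit 0) (XT.lf (nat_lit 0) (nat_lit 402280564304) (nat_lit 0) (nat_lit 0) (nat_lit 0) (nat_lit 0) (nat_lit 0) (nat_lit 0) (nat_lit 1) (nat_lit 0) (nat_lit 1) (nat_lit 0) (nat_lit 437) (nat_lit 437) (nat_lit 206)) (XT.lf (nat_lit 0) (nat_lit 402280563737) (nat_lit 0) (nat_lit 0) (nat_lit 0) (nat_lit 0) (nat_lit 0) (nat_lit 0) (nat_lit 1) (nat_lit 0) (nat_lit 1) (nat_lit 0) (nat_lit 438) (nat_lit 437) (nat_lit 205)))))) (XT.nd (nat_lit 470) (nat_lit 0) (nat_lit 0) (XT.nd (nat_lit 188) (nat_lit 0) (nat_lit 0) (XT.nd (nat_lit 94) (nat_lit 0) (nat_lit 0) (XT.lf (nat_lit 0) (nat_lit 402280563212) (nat_lit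 0) (nat_lit 0) (nat_lit 0) (nat_lit 0) (nat_lit 0) (nat_lit 0) (nat_lit 1) (nat_lit 0) (nat_lit 1) (nat_lit 0) (nat_lit 439) (nat_lit 437) (nat_lit 204)) (XT.lf (nat_lit 0) (nat_lit 402280562726) (nat_lit 0) (nat_lit 0) (nat_lit 0) (nat_lit 0) (nat_lit 0) (nat_lit 0) (nat_lit 1) (nat_lit 0) (nat_lit 1) (nat_lit 0) (nat_lit 440) (nat_lit 437) (nat_lit 203))) (XT.nd (nat_lit 94) (nat_lit 0) (nat_lit 0) (XT.lf (nat_lit 0) (nat_lit 402280562277) (nat_lit 0) (nat_lit 0) (nat_lit 0) (nat_lit 0) (nat_lit 0) (nat_lit 0) (nat_lit 1) (nat_lit 0) (nat_lit 1) (nat_lit 0) (nat_lit 441) (nat_lit 437) (nat_lit 202)) (XT.nd (nat_lit 94) (nat_lit 0) (nat_lit 0) (XT.lf (nat_lit 0) (nat_lit 402280561860) (nat_lit 0) (nat_lit 0) (nat_lit 0) (nat_lit 0) (nat_lit 0) (nat_lit 0) (nat_lit 1) (nat_lit 0) (nat_lit 1) (nat_lit 0) (nat_lit 442) (nat_lit 437) (nat_lit 201)) (XT.lf (nat_lit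 0) (nat_lit 402280561474) (nat_lit 0) (nat_lit 0) (nat_lit 0) (nat_lit 0) (nat_lit 0) (nat_lit 0) (nat_lit 1) (nat_lit 0) (nat_lit 1) (nat_lit 0) (nat_lit 443) (nat_lit 437) (nat_lit 200))))) (XT.nd (nat_lit 188) (nat_lit 0) (nat_lit 0) (XT.nd (nat_lit 94) (nat_lit 0) (nat_lit 0) (XT.lf (nat_lit 0) (nat_lit 402280561117) (nat_lit 0) (nat_lit 0) (nat_lit 0) (nat_lit 0) (nat_lit 0) (nat_lit 0) (nat_lit 1) (nat_lit 0) (nat_lit 1) (nat_lit 0) (nat_lit 444) (nat_lit 437) (nat_lit 199)) (XT.lf (nat_lit 0) (nat_lit 402280560787) (nat_lit 0) (nat_lit 0) (nat_lit 0) (nat_lit 0) (nat_lit 0) (nat_lit 0) (nat_lit 1) (nat_lit 0) (nat_lit 1) (nat_lit 0) (nat_lit 445) (nat_lit 437) (nat_lit 198))) (XT.nd (nat_lit 45026) (nat_lit 0) (nat_lit 10752) (XT.lf (nat_lit 0) (nat_lit 402280560481) (nat_lit 0) (nat_lit 0) (nat_lit 0) (nat_lit 0) (nat_lit 0) (nat_lit 0) (nat_lit 1)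 (nat_lit 0) (nat_lit 1) (nat_lit 0) (nat_lit 446) (nat_lit 437) (nat_lit 197)) (XT.nd (nat_lit 94) (nat_lit 0) (nat_lit 84) (XT.lf (nat_lit 924) (nat_lit 217421559735) (nat_lit 0) (nat_lit 386031479546) (nat_lit 924) (nat_lit 217421559735) (nat_lit 139) (nat_lit 1) (nat_lit 128) (nat_lit 0) (nat_lit 139) (nat_lit 0) (nat_lit 204) (nat_lit 438) (nat_lit 438)) (XT.lf (nat_lit 924) (nat_lit 81104913174) (nat_lit 0) (nat_lit 757896791331) (nat_lit 840) (nat_lit 741220529844) (nat_lit 140) (nat_lit 1) (nat_lit 129) (nat_lit 1) (nat_lit 139) (nat_lit 1) (nat_lit 205) (nat_lit 438) (nat_lit 437))))))))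
noncomputable def ec353 : XT := (XT.nd (nat_lit 1786) (nat_lit 3612) (nat_lit 0) (XT.nd (nat_lit 846) (nat_lit 2940) (nat_lit 0) (XT.nd (nat_lit 376) (nat_lit 1932) (nat_lit 0) (XT.nd (nat_lit 188) (nat_lit 0) (nat_lit 168) (XT.nd (nat_lit 94) (nat_lit 0) (nat_lit 84) (XT.lf (nat_lit 924) (nat_lit 744901813071) (nat_lit 84) (nat_lit 507563736624) (nat_lit 0) (nat_lit 269188652827) (nat_lit 140) (nat_lit 1) (nat_lit 130) (nat_lit 1) (nat_lit 129) (nat_lit 1) (nat_lit 206) (nat_lit 438) (nat_lit 436)) (XT.lf (nat_lit 924) (nat_lit 643656189729) (nat_lit 84) (nat_lit 212716443920) (nat_lit 0) (nat_lit 609644429914) (nat_lit 141) (nat_lit 1) (nat_lit 131) (nat_lit 1) (nat_lit 130) (nat_lit 1) (nat_lit 207) (nat_lit 438) (nat_lit 435))) (XT.nd (nat_lit 94) (nat_lit 0) (nat_lit 84) (XT.lf (nat_lit 924) (nat_lit 476360302148) (nat_lit 0) (nat_lit 891247608743) (nat_lit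 840) (nat_lit 45560450425) (nat_lit 142) (nat_lit 1) (nat_lit 131) (nat_lit 1) (nat_lit 141) (nat_lit 1) (nat_lit 208) (nat_lit 438) (nat_lit 434)) (XT.lf (nat_lit 924) (nat_lit 114297983916) (nat_lit 0) (nat_lit 982848086827) (nat_lit 840) (nat_lit 265697483798) (nat_lit 143) (nat_lit 1) (nat_lit 132) (nat_lit 1) (nat_lit 142) (nat_lit 1) (nat_lit 209) (nat_lit 438) (nat_lit 433)))) (XT.nd (nat_lit 188) (nat_lit 1428) (nat_lit 0) (XT.nd (nat_lit 94) (nat_lit 756) (nat_lit 0) (XT.lf (nat_lit 924) (nat_lit 219634236162) (nat_lit 84) (nat_lit 854175024207) (nat_lit 0) (nat_lit 241058730349) (nat_lit 143) (nat_lit 1) (nat_lit 133) (nat_lit 1) (nat_lit 132) (nat_lit 1) (nat_lit 210) (nat_lit 438) (nat_lit 432)) (XT.lf (nat_lit 924) (nat_lit 45107863775) (nat_lit 0) (nat_lit 638552332101) (nat_lit 840) (nat_lit 585545797889) (nat_lit 134) (nat_lit 1) (nat_lit 123)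 (nat_lit 1) (nat_lit 133) (nat_lit 1) (nat_lit 211) (nat_lit 438) (nat_lit 431))) (XT.nd (nat_lit 94) (nat_lit 840) (nat_lit 0) (XT.lf (nat_lit 84) (nat_lit 312336245121) (nat_lit 0) (nat_lit 135349829962) (nat_lit 588) (nat_lit 778019973193) (nat_lit 117) (nat_lit 1) (nat_lit 116) (nat_lit 1) (nat_lit 123) (nat_lit 1) (nat_lit 212) (nat_lit 438) (nat_lit 430)) (XT.nd (nat_lit 94) (nat_lit 420) (nat_lit 0) (XT.lf (nat_lit 504) (nat_lit 860759378788) (nat_lit 0) (nat_lit 280195734270) (nat_lit 420) (nat_lit 43319991821) (nat_lit 117) (nat_lit 1) (nat_lit 111) (nat_lit 1) (nat_lit 116) (nat_lit 1) (nat_lit 213) (nat_lit 438) (nat_lit 429)) (XT.lf (nat_lit 504) (nat_lit 621132164506) (nat_lit 0) (nat_lit 130600438726) (nat_lit 420) (nat_lit 392893014732) (nat_lit 112) (nat_lit 1) (nat_lit 106) (nat_lit 1) (nat_lit 111) (nat_lit 1) (nat_lit 214) (nat_lit 438)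 (nat_lit 428)))))) (XT.nd (nat_lit 470) (nat_lit 1512) (nat_lit 0) (XT.nd (nat_lit 188) (nat_lit 1092) (nat_lit 0) (XT.nd (nat_lit 94) (nat_lit 0) (nat_lit 0) (XT.lf (nat_lit 420) (nat_lit 377951000220) (nat_lit 0) (nat_lit 2404566314) (nat_lit 336) (nat_lit 726543081925) (nat_lit 107) (nat_lit 1) (nat_lit 102) (nat_lit 1) (nat_lit 106) (nat_lit 1) (nat_lit 215) (nat_lit 438) (nat_lit 427)) (XT.lf (nat_lit 84) (nat_lit 27883438604) (nat_lit 0) (nat_lit 940364661276) (nat_lit 420) (nat_lit 102659087034) (nat_lit 103) (nat_lit 1) (nat_lit 102) (nat_lit 1) (nat_lit 107) (nat_lit 1) (nat_lit 216) (nat_lit 438) (nat_lit 426))) (XT.nd (nat_lit 94) (nat_lit 672) (nat_lit 0) (XT.lf (nat_lit 84) (nat_lit 719957616895) (nat_lit 0) (nat_lit 119412674261) (nat_lit 420) (nat_lit 196933186843) (nat_lit 98) (nat_lit 1) (nat_lit 97) (nat_lit 1) (nat_lit 102) (nat_lit 1) (nat_lit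 217) (nat_lit 438) (nat_lit 425)) (XT.nd (nat_lit 94) (nat_lit 336) (nat_lit 0) (XT.lf (nat_lit 84) (nat_lit 360213039925) (nat_lit 0) (nat_lit 365782218951) (nat_lit 420) (nat_lit 277233478503) (nat_lit 94) (nat_lit 1) (nat_lit 93) (nat_lit 1) (nat_lit 98) (nat_lit 1) (nat_lit 218) (nat_lit 438) (nat_lit 424)) (XT.lf (nat_lit 84) (nat_lit 17779316892) (nat_lit 0) (nat_lit 611582190295) (nat_lit 420) (nat_lit 342358469231) (nat_lit 90) (nat_lit 1) (nat_lit 89) (nat_lit 1) (nat_lit 94) (nat_lit 1) (nat_lit 219) (nat_lit 438) (nat_lit 423))))) (XT.nd (nat_lit 188) (nat_lit 840) (nat_lit 0) (XT.nd (nat_lit 94) (nat_lit 420) (nat_lit 0) (XT.lf (nat_lit 336) (nat_lit 80290393048) (nat_lit 0) (nat_lit 542965495632) (nat_lit 252) (nat_lit 318190259148) (nat_lit 90) (nat_lit 1) (nat_lit 86) (nat_lit 1) (nat_lit 89) (nat_lit 1) (nat_lit 220) (nat_lit 438) (nat_lit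 422)) (XT.lf (nat_lit 84) (nat_lit 277424894833) (nat_lit 0) (nat_lit 190148746762) (nat_lit 420) (nat_lit 444849344389) (nat_lit 82) (nat_lit 1) (nat_lit 81) (nat_lit 1) (nat_lit 86) (nat_lit 1) (nat_lit 221) (nat_lit 438) (nat_lit 421))) (XT.nd (nat_lit 94) (nat_lit 588) (nat_lit 0) (XT.lf (nat_lit 336) (nat_lit 429520466543) (nat_lit 0) (nat_lit 403478964104) (nat_lit 252) (nat_lit 51644828546) (nat_lit 82) (nat_lit 1) (nat_lit 78) (nat_lit 1) (nat_lit 81) (nat_lit 1) (nat_lit 222) (nat_lit 438) (nat_lit 420)) (XT.nd (nat_lit 94) (nat_lit 336) (nat_lit 0) (XT.lf (nat_lit 336) (nat_lit 137659234487) (nat_lit 0) (nat_lit 347378865792) (nat_lit 252) (nat_lit 372894976351) (nat_lit 79) (nat_lit 1) (nat_lit 75) (nat_lit 1) (nat_lit 78) (nat_lit 1) (nat_lit 223) (nat_lit 438) (nat_lit 419)) (XT.lf (nat_lit 84) (nat_lit 156898264410) (nat_lit 0) (nat_lit 143653995829)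 (nat_lit 336) (nat_lit 531778999534) (nat_lit 72) (nat_lit 1) (nat_lit 71) (nat_lit 1) (nat_lit 75) (nat_lit 1) (nat_lit 224) (nat_lit 438) (nat_lit 418))))))) (XT.nd (nat_lit 846) (nat_lit 1680) (nat_lit 0) (XT.nd (nat_lit 376) (nat_lit 1008) (nat_lit 0) (XT.nd (nat_lit 188) (nat_lit 504) (nat_lit 0) (XT.nd (nat_lit 94) (nat_lit 168) (nat_lit 0) (XT.lf (nat_lit 336) (nat_lit 390420738137) (nat_lit 0) (nat_lit 259771491283) (nat_lit 252) (nat_lit 157474332102) (nat_lit 72) (nat_lit 1) (nat_lit 68) (nat_lit 1) (nat_lit 71) (nat_lit 1) (nat_lit 225) (nat_lit 438) (nat_lit 417)) (XT.lf (nat_lit 252) (nat_lit 96785877466) (nat_lit 0) (nat_lit 226631678360) (nat_lit 168) (nat_lit 460579350186) (nat_lit 69) (nat_lit 1) (nat_lit 66) (nat_lit 1) (nat_lit 68) (nat_lit 1) (nat_lit 226) (nat_lit 438) (nat_lit 416))) (XT.nd (nat_lit 94) (nat_lit 168) (nat_lit 0) (XT.lf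 (nat_lit 84) (nat_lit 16396145986) (nat_lit 0) (nat_lit 183476433011) (nat_lit 336) (nat_lit 561372169707) (nat_lit 63) (nat_lit 1) (nat_lit 62) (nat_lit 1) (nat_lit 66) (nat_lit 1) (nat_lit 227) (nat_lit 438) (nat_lit 415)) (XT.lf (nat_lit 252) (nat_lit 281242000961) (nat_lit 0) (nat_lit 175752122895) (nat_lit 168) (nat_lit 282220725955) (nat_lit 63) (nat_lit 1) (nat_lit 60) (nat_lit 1) (nat_lit 62) (nat_lit 1) (nat_lit 228) (nat_lit 438) (nat_lit 414)))) (XT.nd (nat_lit 188) (nat_lit 588) (nat_lit 0) (XT.nd (nat_lit 94) (nat_lit 168) (nat_lit 0) (XT.lf (nat_lit 84) (nat_lit 152590156546) (nat_lit 0) (nat_lit 7048234996) (nat_lit 252) (nat_lit 558507868253) (nat_lit 58) (nat_lit 1) (nat_lit 57) (nat_lit 1) (nat_lit 60) (nat_lit 1) (nat_lit 229) (nat_lit 438) (nat_lit 413)) (XT.lf (nat_lit 252) (nat_lit 417152022136) (nat_lit 0) (nat_lit 144552529003) (nat_lit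 168) (nat_lit 135985988927) (nat_lit 58) (nat_lit 1) (nat_lit 55) (nat_lit 1) (nat_lit 57) (nat_lit 1) (nat_lit 230) (nat_lit 438) (nat_lit 412))) (XT.nd (nat_lit 94) (nat_lit 420) (nat_lit 0) (XT.lf (nat_lit 252) (nat_lit 129584134524) (nat_lit 0) (nat_lit 134377560570) (nat_lit 168) (nat_lit 414055236934) (nat_lit 56) (nat_lit 1) (nat_lit 53) (nat_lit 1) (nat_lit 55) (nat_lit 1) (nat_lit 231) (nat_lit 438) (nat_lit 411)) (XT.nd (nat_lit 94) (nat_lit 168) (nat_lit 0) (XT.lf (nat_lit 252) (nat_lit 514401390551) (nat_lit 0) (nat_lit 128386852362) (nat_lit 168) (nat_lit 16287361724) (nat_lit 53) (nat_lit 1) (nat_lit 50) (nat_lit 1) (nat_lit 52) (nat_lit 1) (nat_lit 232) (nat_lit 438) (nat_lit 410)) (XT.lf (nat_lit 252) (nat_lit 230222221922) (nat_lit 0) (nat_lit 122566158798) (nat_lit 168) (nat_lit 287872216228) (nat_lit 51) (nat_lit 1) (nat_lit 48) (nat_lit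 1) (nat_lit 50) (nat_lit 1) (nat_lit 233) (nat_lit 438) (nat_lit 409)))))) (XT.nd (nat_lit 470) (nat_lit 924) (nat_lit 0) (XT.nd (nat_lit 188) (nat_lit 420) (nat_lit 0) (XT.nd (nat_lit 94) (nat_lit 168) (nat_lit 0) (XT.lf (nat_lit 84) (nat_lit 78859999640) (nat_lit 0) (nat_lit 43345009338) (nat_lit 168) (nat_lit 500804387214) (nat_lit 47) (nat_lit 1) (nat_lit 46) (nat_lit 1) (nat_lit 48) (nat_lit 1) (nat_lit 234) (nat_lit 438) (nat_lit 408)) (XT.lf (nat_lit 252) (nat_lit 302064795403) (nat_lit 0) (nat_lit 120910993963) (nat_lit 168) (nat_lit 182827817340) (nat_lit 47) (nat_lit 1) (nat_lit 44) (nat_lit 1) (nat_lit 46) (nat_lit 1) (nat_lit 235) (nat_lit 438) (nat_lit 407))) (XT.nd (nat_lit 94) (nat_lit 336) (nat_lit 0) (XT.lf (nat_lit 168) (nat_lit 32528086178) (nat_lit 0) (nat_lit 123880724224) (nat_lit 84) (nat_lit 432868269244) (nat_lit 45) (nat_lit 1) (nat_lit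 43) (nat_lit 1) (nat_lit 44) (nat_lit 1) (nat_lit 236) (nat_lit 438) (nat_lit 406)) (XT.nd (nat_lit 94) (nat_lit 84) (nat_lit 0) (XT.lf (nat_lit 252) (nat_lit 351128681076) (nat_lit 0) (nat_lit 126696922886) (nat_lit 168) (nat_lit 95380636006) (nat_lit 43) (nat_lit 1) (nat_lit 40) (nat_lit 1) (nat_lit 42) (nat_lit 1) (nat_lit 237) (nat_lit 438) (nat_lit 405)) (XT.lf (nat_lit 168) (nat_lit 88311452505) (nat_lit 0) (nat_lit 131434248501) (nat_lit 84) (nat_lit 337931318864) (nat_lit 41) (nat_lit 1) (nat_lit 39) (nat_lit 1) (nat_lit 40) (nat_lit 1) (nat_lit 238) (nat_lit 438) (nat_lit 404))))) (XT.nd (nat_lit 188) (nat_lit 588) (nat_lit 0) (XT.nd (nat_lit 94) (nat_lit 84) (nat_lit 0) (XT.lf (nat_lit 252) (nat_lit 382278559707) (nat_lit 0) (nat_lit 137773361192) (nat_lit 168) (nat_lit 22609787977) (nat_lit 39) (nat_lit 1) (nat_lit 36) (nat_lit 1) (nat_lit 38) (nat_lit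 1) (nat_lit 239) (nat_lit 438) (nat_lit 403)) (XT.lf (nat_lit 168) (nat_lit 127092295779) (nat_lit 0) (nat_lit 143630384559) (nat_lit 84) (nat_lit 257326237950) (nat_lit 37) (nat_lit 1) (nat_lit 35) (nat_lit 1) (nat_lit 36) (nat_lit 1) (nat_lit 240) (nat_lit 438) (nat_lit 402))) (XT.nd (nat_lit 94) (nat_lit 336) (nat_lit 0) (XT.lf (nat_lit 84) (nat_lit 36683894368) (nat_lit 0) (nat_lit 115140965918) (nat_lit 252) (nat_lit 362136232905) (nat_lit 33) (nat_lit 1) (nat_lit 32) (nat_lit 1) (nat_lit 35) (nat_lit 1) (nat_lit 241) (nat_lit 438) (nat_lit 401)) (XT.nd (nat_lit 94) (nat_lit 252) (nat_lit 0) (XT.lf (nat_lit 168) (nat_lit 152522221551) (nat_lit 0) (nat_lit 158920925468) (nat_lit 84) (nat_lit 188779983539) (nat_lit 33) (nat_lit 1) (nat_lit 31) (nat_lit 1) (nat_lit 32) (nat_lit 1) (nat_lit 242) (nat_lit 438) (nat_lit 400)) (XT.lf (nat_lit 84) (nat_lit 85313079039)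 (nat_lit 0) (nat_lit 82631485904) (nat_lit 252) (nat_lit 319023388637) (nat_lit 29) (nat_lit 1) (nat_lit 28) (nat_lit 1) (nat_lit 31) (nat_lit 1) (nat_lit 243) (nat_lit 438) (nat_lit 399))))))))
noncomputable def ec354 : XT := (XT.nd (nat_lit 1692) (nat_lit 0) (nat_lit 0) (XT.nd (nat_lit 846) (nat_lit 1260) (nat_lit 0) (XT.nd (nat_lit 376) (nat_lit 588) (nat_lit 0) (XT.nd (nat_lit 188) (nat_lit 252) (nat_lit 0) (XT.nd (nat_lit 94) (nat_lit 168) (nat_lit 0) (XT.lf (nat_lit 168) (nat_lit 167546002607) (nat_lit 0) (nat_lit 176097320967) (nat_lit 84) (nat_lit 130408117780) (nat_lit 29) (nat_lit 1) (nat_lit 27) (nat_lit 1) (nat_lit 28) (nat_lit 1) (nat_lit 244) (nat_lit 438) (nat_lit 398)) (XT.lf (nat_lit 84) (nat_lit 125600580150) (nat_lit 0) (nat_lit 59846429086) (nat_lit 168) (nat_lit 276114492739) (nat_lit 26) (nat_lit 1) (nat_lit 25) (nat_lit 1) (nat_lit 27)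 (nat_lit 1) (nat_lit 245) (nat_lit 438) (nat_lit 397))) (XT.nd (nat_lit 94) (nat_lit 168) (nat_lit 0) (XT.lf (nat_lit 168) (nat_lit 174533655543) (nat_lit 0) (nat_lit 194224479878) (nat_lit 84) (nat_lit 80645488792) (nat_lit 26) (nat_lit 1) (nat_lit 24) (nat_lit 1) (nat_lit 25) (nat_lit 1) (nat_lit 246) (nat_lit 438) (nat_lit 396)) (XT.lf (nat_lit 84) (nat_lit 158873055763) (nat_lit 0) (nat_lit 44646216453) (nat_lit 168) (nat_lit 234100437837) (nat_lit 23) (nat_lit 1) (nat_lit 22) (nat_lit 1) (nat_lit 24) (nat_lit 1) (nat_lit 247) (nat_lit 438) (nat_lit 395)))) (XT.nd (nat_lit 188) (nat_lit 336) (nat_lit 0) (XT.nd (nat_lit 94) (nat_lit 168) (nat_lit 0) (XT.lf (nat_lit 168) (nat_lit 175388135130) (nat_lit 0) (nat_lit 212586970713) (nat_lit 84) (nat_lit 38189501705) (nat_lit 23) (nat_lit 1) (nat_lit 21) (nat_lit 1) (nat_lit 22) (nat_lit 1) (nat_lit 248) (nat_lit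 438) (nat_lit 394)) (XT.lf (nat_lit 84) (nat_lit 186233106769) (nat_lit 0) (nat_lit 35310427569) (nat_lit 168) (nat_lit 193490870172) (nat_lit 20) (nat_lit 1) (nat_lit 19) (nat_lit 1) (nat_lit 21) (nat_lit 1) (nat_lit 249) (nat_lit 438) (nat_lit 393))) (XT.nd (nat_lit 94) (nat_lit 252) (nat_lit 0) (XT.lf (nat_lit 168) (nat_lit 171633129211) (nat_lit 0) (nat_lit 230645329923) (nat_lit 84) (nat_lit 1953677758) (nat_lit 20) (nat_lit 1) (nat_lit 18) (nat_lit 1) (nat_lit 19) (nat_lit 1) (nat_lit 250) (nat_lit 438) (nat_lit 392)) (XT.nd (nat_lit 94) (nat_lit 84) (nat_lit 0) (XT.lf (nat_lit 84) (nat_lit 208598937184) (nat_lit 0) (nat_lit 30459096070) (nat_lit 168) (nat_lit 154651124504) (nat_lit 17) (nat_lit 1) (nat_lit 16) (nat_lit 1) (nat_lit 18) (nat_lit 1) (nat_lit 251) (nat_lit 438) (nat_lit 391)) (XT.lf (nat_lit 0) (nat_lit 28043145673) (nat_lit 0) (nat_lit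 219482538486) (nat_lit 168) (nat_lit 135966543908) (nat_lit 15) (nat_lit 3) (nat_lit 15) (nat_lit 1) (nat_lit 17) (nat_lit 1) (nat_lit 252) (nat_lit 438) (nat_lit 390)))))) (XT.nd (nat_lit 376) (nat_lit 756) (nat_lit 0) (XT.nd (nat_lit 188) (nat_lit 252) (nat_lit 0) (XT.nd (nat_lit 94) (nat_lit 84) (nat_lit 0) (XT.lf (nat_lit 84) (nat_lit 226736835392) (nat_lit 0) (nat_lit 28988560818) (nat_lit 168) (nat_lit 117832147370) (nat_lit 14) (nat_lit 1) (nat_lit 13) (nat_lit 1) (nat_lit 15) (nat_lit 1) (nat_lit 253) (nat_lit 438) (nat_lit 389)) (XT.lf (nat_lit 0) (nat_lit 53572782914) (nat_lit 0) (nat_lit 209885566908) (nat_lit 168) (nat_lit 100429092318) (nat_lit 12) (nat_lit 3) (nat_lit 12) (nat_lit 1) (nat_lit 14) (nat_lit 1) (nat_lit 254) (nat_lit 438) (nat_lit 388))) (XT.nd (nat_lit 94) (nat_lit 84) (nat_lit 0) (XT.lf (nat_lit 84) (nat_lit 241287787338) (nat_lit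 0) (nat_lit 30019194925) (nat_lit 168) (nat_lit 83194709655) (nat_lit 11) (nat_lit 1) (nat_lit 10) (nat_lit 1) (nat_lit 12) (nat_lit 1) (nat_lit 255) (nat_lit 438) (nat_lit 387)) (XT.lf (nat_lit 0) (nat_lit 75317370718) (nat_lit 0) (nat_lit 202948816268) (nat_lit 168) (nat_lit 67078498084) (nat_lit 9) (nat_lit 3) (nat_lit 9) (nat_lit 1) (nat_lit 11) (nat_lit 1) (nat_lit 256) (nat_lit 438) (nat_lit 386)))) (XT.nd (nat_lit 188) (nat_lit 504) (nat_lit 0) (XT.nd (nat_lit 94) (nat_lit 84) (nat_lit 0) (XT.lf (nat_lit 84) (nat_lit 252789292505) (nat_lit 0) (nat_lit 32852826591) (nat_lit 168) (nat_lit 50828969884) (nat_lit 8) (nat_lit 1) (nat_lit 7) (nat_lit 1) (nat_lit 9) (nat_lit 1) (nat_lit 257) (nat_lit 438) (nat_lit 385)) (XT.lf (nat_lit 0) (nat_lit 93799300333) (nat_lit 0) (nat_lit 198012055534) (nat_lit 168) (nat_lit 35984920645) (nat_lit 6) (nat_lit 3) (nat_lit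 6) (nat_lit 1) (nat_lit 8) (nat_lit 1) (nat_lit 258) (nat_lit 438) (nat_lit 384))) (XT.nd (nat_lit 94) (nat_lit 336) (nat_lit 0) (XT.lf (nat_lit 84) (nat_lit 261693257384) (nat_lit 0) (nat_lit 36938067215) (nat_lit 168) (nat_lit 20770254060) (nat_lit 5) (nat_lit 1) (nat_lit 4) (nat_lit 1) (nat_lit 6) (nat_lit 1) (nat_lit 259) (nat_lit 438) (nat_lit 383)) (XT.nd (nat_lit 94) (nat_lit 252) (nat_lit 0) (XT.lf (nat_lit 0) (nat_lit 109460390168) (nat_lit 0) (nat_lit 194551476458) (nat_lit 168) (nat_lit 7168677226) (nat_lit 3) (nat_lit 3) (nat_lit 3) (nat_lit 1) (nat_lit 5) (nat_lit 1) (nat_lit 260) (nat_lit 438) (nat_lit 382)) (XT.lf (nat_lit 0) (nat_lit 439868038981) (nat_lit 0) (nat_lit 0) (nat_lit 0) (nat_lit 0) (nat_lit 0) (nat_lit 0) (nat_lit 1) (nat_lit 0) (nat_lit 1) (nat_lit 0) (nat_lit 261) (nat_lit 438) (nat_lit 381))))))) (XT.nd (nat_lit 846) (nat_lit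 0) (nat_lit 0) (XT.nd (nat_lit 376) (nat_lit 0) (nat_lit 0) (XT.nd (nat_lit 188) (nat_lit 0) (nat_lit 0) (XT.nd (nat_lit 94) (nat_lit 0) (nat_lit 0) (XT.lf (nat_lit 0) (nat_lit 439467665811) (nat_lit 0) (nat_lit 0) (nat_lit 0) (nat_lit 0) (nat_lit 0) (nat_lit 0) (nat_lit 1) (nat_lit 0) (nat_lit 1) (nat_lit 0) (nat_lit 262) (nat_lit 438) (nat_lit 380)) (XT.lf (nat_lit 0) (nat_lit 439096949913) (nat_lit 0) (nat_lit 0) (nat_lit 0) (nat_lit 0) (nat_lit 0) (nat_lit 0) (nat_lit 1) (nat_lit 0) (nat_lit 1) (nat_lit 0) (nat_lit 263) (nat_lit 438) (nat_lit 379))) (XT.nd (nat_lit 94) (nat_lit 0) (nat_lit 0) (XT.lf (nat_lit 0) (nat_lit 438753694452) (nat_lit 0) (nat_lit 0) (nat_lit 0) (nat_lit 0) (nat_lit 0) (nat_lit 0) (nat_lit 1) (nat_lit 0) (nat_lit 1) (nat_lit 0) (nat_lit 264) (nat_lit 438) (nat_lit 378)) (XT.lf (nat_lit 0) (nat_lit 438435865321) (nat_lit 0) (nat_lit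 0) (nat_lit 0) (nat_lit 0) (nat_lit 0) (nat_lit 0) (nat_lit 1) (nat_lit 0) (nat_lit 1) (nat_lit 0) (nat_lit 265) (nat_lit 438) (nat_lit 377)))) (XT.nd (nat_lit 188) (nat_lit 0) (nat_lit 0) (XT.nd (nat_lit 94) (nat_lit 0) (nat_lit 0) (XT.lf (nat_lit 0) (nat_lit 438141579089) (nat_lit 0) (nat_lit 0) (nat_lit 0) (nat_lit 0) (nat_lit 0) (nat_lit 0) (nat_lit 1) (nat_lit 0) (nat_lit 1) (nat_lit 0) (nat_lit 266) (nat_lit 438) (nat_lit 376)) (XT.lf (nat_lit 0) (nat_lit 437869091837) (nat_lit 0) (nat_lit 0) (nat_lit 0) (nat_lit 0) (nat_lit 0) (nat_lit 0) (nat_lit 1) (nat_lit 0) (nat_lit 1) (nat_lit 0) (nat_lit 267) (nat_lit 438) (nat_lit 375))) (XT.nd (nat_lit 94) (nat_lit 0) (nat_lit 0) (XT.lf (nat_lit 0) (nat_lit 437616788826) (nat_lit 0) (nat_lit 0) (nat_lit 0) (nat_lit 0) (nat_lit 0) (nat_lit 0) (nat_lit 1) (nat_lit 0) (nat_lit 1) (nat_lit 0) (nat_lit 268) (nat_lit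 438) (nat_lit 374)) (XT.nd (nat_lit 94) (nat_lit 0) (nat_lit 0) (XT.lf (nat_lit 0) (nat_lit 437383174926) (nat_lit 0) (nat_lit 0) (nat_lit 0) (nat_lit 0) (nat_lit 0) (nat_lit 0) (nat_lit 1) (nat_lit 0) (nat_lit 1) (nat_lit 0) (nat_lit 269) (nat_lit 438) (nat_lit 373)) (XT.lf (nat_lit 0) (nat_lit 437166865761) (nat_lit 0) (nat_lit 0) (nat_lit 0) (nat_lit 0) (nat_lit 0) (nat_lit 0) (nat_lit 1) (nat_lit 0) (nat_lit 1) (nat_lit 0) (nat_lit 270) (nat_lit 438) (nat_lit 372)))))) (XT.nd (nat_lit 470) (nat_lit 0) (nat_lit 0) (XT.nd (nat_lit 188) (nat_lit 0) (nat_lit 0) (XT.nd (nat_lit 94) (nat_lit 0) (nat_lit 0) (XT.lf (nat_lit 0) (nat_lit 436966579496) (nat_lit 0) (nat_lit 0) (nat_lit 0) (nat_lit 0) (nat_lit 0) (nat_lit 0) (nat_lit 1) (nat_lit 0) (nat_lit 1) (nat_lit 0) (nat_lit 271) (nat_lit 438) (nat_lit 371)) (XT.lf (nat_lit 0) (nat_lit 436781129251) (nat_lit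 0) (nat_lit 0) (nat_lit 0) (nat_lit 0) (nat_lit 0) (nat_lit 0) (nat_lit 1) (nat_lit 0) (nat_lit 1) (nat_lit 0) (nat_lit 272) (nat_lit 438) (nat_lit 370))) (XT.nd (nat_lit 94) (nat_lit 0) (nat_lit 0) (XT.lf (nat_lit 0) (nat_lit 436609416061) (nat_lit 0) (nat_lit 0) (nat_lit 0) (nat_lit 0) (nat_lit 0) (nat_lit 0) (nat_lit 1) (nat_lit 0) (nat_lit 1) (nat_lit 0) (nat_lit 273) (nat_lit 438) (nat_lit 369)) (XT.nd (nat_lit 94) (nat_lit 0) (nat_lit 0) (XT.lf (nat_lit 0) (nat_lit 436450422366) (nat_lit 0) (nat_lit 0) (nat_lit 0) (nat_lit 0) (nat_lit 0) (nat_lit 0) (nat_lit 1) (nat_lit 0) (nat_lit 1) (nat_lit 0) (nat_lit 274) (nat_lit 438) (nat_lit 368)) (XT.lf (nat_lit 0) (nat_lit 436303205983) (nat_lit 0) (nat_lit 0) (nat_lit 0) (nat_lit 0) (nat_lit 0) (nat_lit 0) (nat_lit 1) (nat_lit 0) (nat_lit 1) (nat_lit 0) (nat_lit 275) (nat_lit 438) (nat_lit 367))))) (XT.nd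 (nat_lit 188) (nat_lit 0) (nat_lit 0) (XT.nd (nat_lit 94) (nat_lit 0) (nat_lit 0) (XT.lf (nat_lit 0) (nat_lit 436166894516) (nat_lit 0) (nat_lit 0) (nat_lit 0) (nat_lit 0) (nat_lit 0) (nat_lit 0) (nat_lit 1) (nat_lit 0) (nat_lit 1) (nat_lit 0) (nat_lit 276) (nat_lit 438) (nat_lit 366)) (XT.lf (nat_lit 0) (nat_lit 436040680195) (nat_lit 0) (nat_lit 0) (nat_lit 0) (nat_lit 0) (nat_lit 0) (nat_lit 0) (nat_lit 1) (nat_lit 0) (nat_lit 1) (nat_lit 0) (nat_lit 277) (nat_lit 438) (nat_lit 365))) (XT.nd (nat_lit 94) (nat_lit 0) (nat_lit 0) (XT.lf (nat_lit 0) (nat_lit 435923815084) (nat_lit 0) (nat_lit 0) (nat_lit 0) (nat_lit 0) (nat_lit 0) (nat_lit 0) (nat_lit 1) (nat_lit 0) (nat_lit 1) (nat_lit 0) (nat_lit 278) (nat_lit 438) (nat_lit 364)) (XT.nd (nat_lit 94) (nat_lit 0) (nat_lit 0) (XT.lf (nat_lit 0) (nat_lit 435815606647) (nat_lit 0) (nat_lit 0) (nat_lit 0) (nat_lit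 0) (nat_lit 0) (nat_lit 0) (nat_lit 1) (nat_lit 0) (nat_lit 1) (nat_lit 0) (nat_lit 279) (nat_lit 438) (nat_lit 363)) (XT.lf (nat_lit 0) (nat_lit 435715413650) (nat_lit 0) (nat_lit 0) (nat_lit 0) (nat_lit 0) (nat_lit 0) (nat_lit 0) (nat_lit 1) (nat_lit 0) (nat_lit 1) (nat_lit 0) (nat_lit 280) (nat_lit 438) (nat_lit 362))))))))
noncomputable def ec355 : XT := (XT.nd (nat_lit 1786) (nat_lit 0) (nat_lit 0) (XT.nd (nat_lit 846) (nat_lit 0) (nat_lit 0) (XT.nd (nat_lit 376) (nat_lit 0) (nat_lit 0) (XT.nd (nat_lit 188) (nat_lit 0) (nat_lit 0) (XT.nd (nat_lit 94) (nat_lit 0) (nat_lit 0) (XT.lf (nat_lit 0) (nat_lit 435622642356) (nat_lit 0) (nat_lit 0) (nat_lit 0) (nat_lit 0) (nat_lit 0) (nat_lit 0) (nat_lit 1) (nat_lit 0) (nat_lit 1) (nat_lit 0) (nat_lit 281) (nat_lit 438) (nat_lit 361)) (XT.lf (nat_lit 0) (nat_lit 435536743010) (nat_lit 0) (nat_lit 0) (nat_lit 0)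 (nat_lit 0) (nat_lit 0) (nat_lit 0) (nat_lit 1) (nat_lit 0) (nat_lit 1) (nat_lit 0) (nat_lit 282) (nat_lit 438) (nat_lit 360))) (XT.nd (nat_lit 94) (nat_lit 0) (nat_lit 0) (XT.lf (nat_lit 0) (nat_lit 435457206579) (nat_lit 0) (nat_lit 0) (nat_lit 0) (nat_lit 0) (nat_lit 0) (nat_lit 0) (nat_lit 1) (nat_lit 0) (nat_lit 1) (nat_lit 0) (nat_lit 283) (nat_lit 438) (nat_lit 359)) (XT.lf (nat_lit 0) (nat_lit 435383561735) (nat_lit 0) (nat_lit 0) (nat_lit 0) (nat_lit 0) (nat_lit 0) (nat_lit 0) (nat_lit 1) (nat_lit 0) (nat_lit 1) (nat_lit 0) (nat_lit 284) (nat_lit 438) (nat_lit 358)))) (XT.nd (nat_lit 188) (nat_lit 0) (nat_lit 0) (XT.nd (nat_lit 94) (nat_lit 0) (nat_lit 0) (XT.lf (nat_lit 0) (nat_lit 435315372065) (nat_lit 0) (nat_lit 0) (nat_lit 0) (nat_lit 0) (nat_lit 0) (nat_lit 0) (nat_lit 1) (nat_lit 0) (nat_lit 1) (nat_lit 0) (nat_lit 285) (nat_lit 438) (nat_lit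 357)) (XT.lf (nat_lit 0) (nat_lit 435252233481) (nat_lit 0) (nat_lit 0) (nat_lit 0) (nat_lit 0) (nat_lit 0) (nat_lit 0) (nat_lit 1) (nat_lit 0) (nat_lit 1) (nat_lit 0) (nat_lit 286) (nat_lit 438) (nat_lit 356))) (XT.nd (nat_lit 94) (nat_lit 0) (nat_lit 0) (XT.lf (nat_lit 0) (nat_lit 435193771830) (nat_lit 0) (nat_lit 0) (nat_lit 0) (nat_lit 0) (nat_lit 0) (nat_lit 0) (nat_lit 1) (nat_lit 0) (nat_lit 1) (nat_lit 0) (nat_lit 287) (nat_lit 438) (nat_lit 355)) (XT.nd (nat_lit 94) (nat_lit 0) (nat_lit 0) (XT.lf (nat_lit 0) (nat_lit 435139640671) (nat_lit 0) (nat_lit 0) (nat_lit 0) (nat_lit 0) (nat_lit 0) (nat_lit 0) (nat_lit 1) (nat_lit 0) (nat_lit 1) (nat_lit 0) (nat_lit 288) (nat_lit 438) (nat_lit 354)) (XT.lf (nat_lit 0) (nat_lit 435089519227) (nat_lit 0) (nat_lit 0) (nat_lit 0) (nat_lit 0) (nat_lit 0) (nat_lit 0) (nat_lit 1) (nat_lit 0) (nat_lit 1) (nat_lit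 0) (nat_lit 289) (nat_lit 438) (nat_lit 353)))))) (XT.nd (nat_lit 470) (nat_lit 0) (nat_lit 0) (XT.nd (nat_lit 188) (nat_lit 0) (nat_lit 0) (XT.nd (nat_lit 94) (nat_lit 0) (nat_lit 0) (XT.lf (nat_lit 0) (nat_lit 435043110484) (nat_lit 0) (nat_lit 0) (nat_lit 0) (nat_lit 0) (nat_lit 0) (nat_lit 0) (nat_lit 1) (nat_lit 0) (nat_lit 1) (nat_lit 0) (nat_lit 290) (nat_lit 438) (nat_lit 352)) (XT.lf (nat_lit 0) (nat_lit 435000139425) (nat_lit 0) (nat_lit 0) (nat_lit 0) (nat_lit 0) (nat_lit 0) (nat_lit 0) (nat_lit 1) (nat_lit 0) (nat_lit 1) (nat_lit 0) (nat_lit 291) (nat_lit 438) (nat_lit 351))) (XT.nd (nat_lit 94) (nat_lit 0) (nat_lit 0) (XT.lf (nat_lit 0) (nat_lit 434960351407) (nat_lit 0) (nat_lit 0) (nat_lit 0) (nat_lit 0) (nat_lit 0) (nat_lit 0) (nat_lit 1) (nat_lit 0) (nat_lit 1) (nat_lit 0) (nat_lit 292) (nat_lit 438) (nat_lit 350)) (XT.nd (nat_lit 94) (nat_lit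 0) (nat_lit 0) (XT.lf (nat_lit 0) (nat_lit 434923510650) (nat_lit 0) (nat_lit 0) (nat_lit 0) (nat_lit 0) (nat_lit 0) (nat_lit 0) (nat_lit 1) (nat_lit 0) (nat_lit 1) (nat_lit 0) (nat_lit 293) (nat_lit 438) (nat_lit 349)) (XT.lf (nat_lit 0) (nat_lit 434889398838) (nat_lit 0) (nat_lit 0) (nat_lit 0) (nat_lit 0) (nat_lit 0) (nat_lit 0) (nat_lit 1) (nat_lit 0) (nat_lit 1) (nat_lit 0) (nat_lit 294) (nat_lit 438) (nat_lit 348))))) (XT.nd (nat_lit 188) (nat_lit 0) (nat_lit 0) (XT.nd (nat_lit 94) (nat_lit 0) (nat_lit 0) (XT.lf (nat_lit 0) (nat_lit 434857813827) (nat_lit 0) (nat_lit 0) (nat_lit 0) (nat_lit 0) (nat_lit 0) (nat_lit 0) (nat_lit 1) (nat_lit 0) (nat_lit 1) (nat_lit 0) (nat_lit 295) (nat_lit 438) (nat_lit 347)) (XT.lf (nat_lit 0) (nat_lit 434828568446) (nat_lit 0) (nat_lit 0) (nat_lit 0) (nat_lit 0) (nat_lit 0) (nat_lit 0) (nat_lit 1) (nat_lit 0) (nat_lit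 1) (nat_lit 0) (nat_lit 296) (nat_lit 438) (nat_lit 346))) (XT.nd (nat_lit 94) (nat_lit 0) (nat_lit 0) (XT.lf (nat_lit 0) (nat_lit 434801489389) (nat_lit 0) (nat_lit 0) (nat_lit 0) (nat_lit 0) (nat_lit 0) (nat_lit 0) (nat_lit 1) (nat_lit 0) (nat_lit 1) (nat_lit 0) (nat_lit 297) (nat_lit 438) (nat_lit 345)) (XT.nd (nat_lit 94) (nat_lit 0) (nat_lit 0) (XT.lf (nat_lit 0) (nat_lit 434776416189) (nat_lit 0) (nat_lit 0) (nat_lit 0) (nat_lit 0) (nat_lit 0) (nat_lit 0) (nat_lit 1) (nat_lit 0) (nat_lit 1) (nat_lit 0) (nat_lit 298) (nat_lit 438) (nat_lit 344)) (XT.lf (nat_lit 0) (nat_lit 434753200263) (nat_lit 0) (nat_lit 0) (nat_lit 0) (nat_lit 0) (nat_lit 0) (nat_lit 0) (nat_lit 1) (nat_lit 0) (nat_lit 1) (nat_lit 0) (nat_lit 299) (nat_lit 438) (nat_lit 343))))))) (XT.nd (nat_lit 846) (nat_lit 0) (nat_lit 0) (XT.nd (nat_lit 376) (nat_lit 0) (nat_lit 0) (XT.nd (nat_lit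 188) (nat_lit 0) (nat_lit 0) (XT.nd (nat_lit 94) (nat_lit 0) (nat_lit 0) (XT.lf (nat_lit 0) (nat_lit 434731704035) (nat_lit 0) (nat_lit 0) (nat_lit 0) (nat_lit 0) (nat_lit 0) (nat_lit 0) (nat_lit 1) (nat_lit 0) (nat_lit 1) (nat_lit 0) (nat_lit 300) (nat_lit 438) (nat_lit 342)) (XT.lf (nat_lit 0) (nat_lit 434711800120) (nat_lit 0) (nat_lit 0) (nat_lit 0) (nat_lit 0) (nat_lit 0) (nat_lit 0) (nat_lit 1) (nat_lit 0) (nat_lit 1) (nat_lit 0) (nat_lit 301) (nat_lit 438) (nat_lit 341))) (XT.nd (nat_lit 94) (nat_lit 0) (nat_lit 0) (XT.lf (nat_lit 0) (nat_lit 434693370570) (nat_lit 0) (nat_lit 0) (nat_lit 0) (nat_lit 0) (nat_lit 0) (nat_lit 0) (nat_lit 1) (nat_lit 0) (nat_lit 1) (nat_lit 0) (nat_lit 302) (nat_lit 438) (nat_lit 340)) (XT.lf (nat_lit 0) (nat_lit 434676306171) (nat_lit 0) (nat_lit 0) (nat_lit 0) (nat_lit 0) (nat_lit 0) (nat_lit 0) (nat_lit 1) (nat_lit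 0) (nat_lit 1) (nat_lit 0) (nat_lit 303) (nat_lit 438) (nat_lit 339)))) (XT.nd (nat_lit 188) (nat_lit 0) (nat_lit 0) (XT.nd (nat_lit 94) (nat_lit 0) (nat_lit 0) (XT.lf (nat_lit 0) (nat_lit 434660505802) (nat_lit 0) (nat_lit 0) (nat_lit 0) (nat_lit 0) (nat_lit 0) (nat_lit 0) (nat_lit 1) (nat_lit 0) (nat_lit 1) (nat_lit 0) (nat_lit 304) (nat_lit 438) (nat_lit 338)) (XT.lf (nat_lit 0) (nat_lit 434645875830) (nat_lit 0) (nat_lit 0) (nat_lit 0) (nat_lit 0) (nat_lit 0) (nat_lit 0) (nat_lit 1) (nat_lit 0) (nat_lit 1) (nat_lit 0) (nat_lit 305) (nat_lit 438) (nat_lit 337))) (XT.nd (nat_lit 94) (nat_lit 0) (nat_lit 0) (XT.lf (nat_lit 0) (nat_lit 434632329560) (nat_lit 0) (nat_lit 0) (nat_lit 0) (nat_lit 0) (nat_lit 0) (nat_lit 0) (nat_lit 1) (nat_lit 0) (nat_lit 1) (nat_lit 0) (nat_lit 306) (nat_lit 438) (nat_lit 336)) (XT.nd (nat_lit 94) (nat_lit 0) (nat_lit 0) (XT.lf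 (nat_lit 0) (nat_lit 434619786718) (nat_lit 0) (nat_lit 0) (nat_lit 0) (nat_lit 0) (nat_lit 0) (nat_lit 0) (nat_lit 1) (nat_lit 0) (nat_lit 1) (nat_lit 0) (nat_lit 307) (nat_lit 438) (nat_lit 335)) (XT.lf (nat_lit 0) (nat_lit 434608172975) (nat_lit 0) (nat_lit 0) (nat_lit 0) (nat_lit 0) (nat_lit 0) (nat_lit 0) (nat_lit 1) (nat_lit 0) (nat_lit 1) (nat_lit 0) (nat_lit 308) (nat_lit 438) (nat_lit 334)))))) (XT.nd (nat_lit 470) (nat_lit 0) (nat_lit 0) (XT.nd (nat_lit 188) (nat_lit 0) (nat_lit 0) (XT.nd (nat_lit 94) (nat_lit 0) (nat_lit 0) (XT.lf (nat_lit 0) (nat_lit 434597419509) (nat_lit 0) (nat_lit 0) (nat_lit 0) (nat_lit 0) (nat_lit 0) (nat_lit 0) (nat_lit 1) (nat_lit 0) (nat_lit 1) (nat_lit 0) (nat_lit 309) (nat_lit 438) (nat_lit 333)) (XT.lf (nat_lit 0) (nat_lit 434587462596) (nat_lit 0) (nat_lit 0) (nat_lit 0) (nat_lit 0) (nat_lit 0) (nat_lit 0) (nat_lit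 1) (nat_lit 0) (nat_lit 1) (nat_lit 0) (nat_lit 310) (nat_lit 438) (nat_lit 332))) (XT.nd (nat_lit 94) (nat_lit 0) (nat_lit 0) (XT.lf (nat_lit 0) (nat_lit 434578243232) (nat_lit 0) (nat_lit 0) (nat_lit 0) (nat_lit 0) (nat_lit 0) (nat_lit 0) (nat_lit 1) (nat_lit 0) (nat_lit 1) (nat_lit 0) (nat_lit 311) (nat_lit 438) (nat_lit 331)) (XT.nd (nat_lit 94) (nat_lit 0) (nat_lit 0) (XT.lf (nat_lit 0) (nat_lit 434569706785) (nat_lit 0) (nat_lit 0) (nat_lit 0) (nat_lit 0) (nat_lit 0) (nat_lit 0) (nat_lit 1) (nat_lit 0) (nat_lit 1) (nat_lit 0) (nat_lit 312) (nat_lit 438) (nat_lit 330)) (XT.lf (nat_lit 0) (nat_lit 434561802666) (nat_lit 0) (nat_lit 0) (nat_lit 0) (nat_lit 0) (nat_lit 0) (nat_lit 0) (nat_lit 1) (nat_lit 0) (nat_lit 1) (nat_lit 0) (nat_lit 313) (nat_lit 438) (nat_lit 329))))) (XT.nd (nat_lit 188) (nat_lit 0) (nat_lit 0) (XT.nd (nat_lit 94) (nat_lit 0) (nat_lit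 0) (XT.lf (nat_lit 0) (nat_lit 434554484038) (nat_lit 0) (nat_lit 0) (nat_lit 0) (nat_lit 0) (nat_lit 0) (nat_lit 0) (nat_lit 1) (nat_lit 0) (nat_lit 1) (nat_lit 0) (nat_lit 314) (nat_lit 438) (nat_lit 328)) (XT.lf (nat_lit 0) (nat_lit 434547707530) (nat_lit 0) (nat_lit 0) (nat_lit 0) (nat_lit 0) (nat_lit 0) (nat_lit 0) (nat_lit 1) (nat_lit 0) (nat_lit 1) (nat_lit 0) (nat_lit 315) (nat_lit 438) (nat_lit 327))) (XT.nd (nat_lit 94) (nat_lit 0) (nat_lit 0) (XT.lf (nat_lit 0) (nat_lit 434541432986) (nat_lit 0) (nat_lit 0) (nat_lit 0) (nat_lit 0) (nat_lit 0) (nat_lit 0) (nat_lit 1) (nat_lit 0) (nat_lit 1) (nat_lit 0) (nat_lit 316) (nat_lit 438) (nat_lit 326)) (XT.nd (nat_lit 94) (nat_lit 0) (nat_lit 0) (XT.lf (nat_lit 0) (nat_lit 434535623223) (nat_lit 0) (nat_lit 0) (nat_lit 0) (nat_lit 0) (nat_lit 0) (nat_lit 0) (nat_lit 1) (nat_lit 0) (nat_lit 1) (nat_lit 0)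 (nat_lit 317) (nat_lit 438) (nat_lit 325)) (XT.lf (nat_lit 0) (nat_lit 434530243813) (nat_lit 0) (nat_lit 0) (nat_lit 0) (nat_lit 0) (nat_lit 0) (nat_lit 0) (nat_lit 1) (nat_lit 0) (nat_lit 1) (nat_lit 0) (nat_lit 318) (nat_lit 438) (nat_lit 324))))))))
noncomputable def ec356 : XT := (XT.nd (nat_lit 1692) (nat_lit 0) (nat_lit 0) (XT.nd (nat_lit 846) (nat_lit 0) (nat_lit 0) (XT.nd (nat_lit 376) (nat_lit 0) (nat_lit 0) (XT.nd (nat_lit 188) (nat_lit 0) (nat_lit 0) (XT.nd (nat_lit 94) (nat_lit 0) (nat_lit 0) (XT.lf (nat_lit 0) (nat_lit 434525262878) (nat_lit 0) (nat_lit 0) (nat_lit 0) (nat_lit 0) (nat_lit 0) (nat_lit 0) (nat_lit 1) (nat_lit 0) (nat_lit 1) (nat_lit 0) (nat_lit 319) (nat_lit 438) (nat_lit 323)) (XT.lf (nat_lit 0) (nat_lit 434520650901) (nat_lit 0) (nat_lit 0) (nat_lit 0) (nat_lit 0) (nat_lit 0) (nat_lit 0) (nat_lit 1) (nat_lit 0) (nat_lit 1) (nat_lit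 0) (nat_lit 320) (nat_lit 438) (nat_lit 322))) (XT.nd (nat_lit 94) (nat_lit 0) (nat_lit 0) (XT.lf (nat_lit 0) (nat_lit 434516380552) (nat_lit 0) (nat_lit 0) (nat_lit 0) (nat_lit 0) (nat_lit 0) (nat_lit 0) (nat_lit 1) (nat_lit 0) (nat_lit 1) (nat_lit 0) (nat_lit 321) (nat_lit 438) (nat_lit 321)) (XT.lf (nat_lit 0) (nat_lit 434512426524) (nat_lit 0) (nat_lit 0) (nat_lit 0) (nat_lit 0) (nat_lit 0) (nat_lit 0) (nat_lit 1) (nat_lit 0) (nat_lit 1) (nat_lit 0) (nat_lit 322) (nat_lit 438) (nat_lit 320)))) (XT.nd (nat_lit 188) (nat_lit 0) (nat_lit 0) (XT.nd (nat_lit 94) (nat_lit 0) (nat_lit 0) (XT.lf (nat_lit 0) (nat_lit 434508765388) (nat_lit 0) (nat_lit 0) (nat_lit 0) (nat_lit 0) (nat_lit 0) (nat_lit 0) (nat_lit 1) (nat_lit 0) (nat_lit 1) (nat_lit 0) (nat_lit 323) (nat_lit 438) (nat_lit 319)) (XT.lf (nat_lit 0) (nat_lit 434505375447) (nat_lit 0) (nat_lit 0) (nat_lit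 0) (nat_lit 0) (nat_lit 0) (nat_lit 0) (nat_lit 1) (nat_lit 0) (nat_lit 1) (nat_lit 0) (nat_lit 324) (nat_lit 438) (nat_lit 318))) (XT.nd (nat_lit 94) (nat_lit 0) (nat_lit 0) (XT.lf (nat_lit 0) (nat_lit 434502236613) (nat_lit 0) (nat_lit 0) (nat_lit 0) (nat_lit 0) (nat_lit 0) (nat_lit 0) (nat_lit 1) (nat_lit 0) (nat_lit 1) (nat_lit 0) (nat_lit 325) (nat_lit 438) (nat_lit 317)) (XT.nd (nat_lit 94) (nat_lit 0) (nat_lit 0) (XT.lf (nat_lit 0) (nat_lit 434499330285) (nat_lit 0) (nat_lit 0) (nat_lit 0) (nat_lit 0) (nat_lit 0) (nat_lit 0) (nat_lit 1) (nat_lit 0) (nat_lit 1) (nat_lit 0) (nat_lit 326) (nat_lit 438) (nat_lit 316)) (XT.lf (nat_lit 0) (nat_lit 434496639241) (nat_lit 0) (nat_lit 0) (nat_lit 0) (nat_lit 0) (nat_lit 0) (nat_lit 0) (nat_lit 1) (nat_lit 0) (nat_lit 1) (nat_lit 0) (nat_lit 327) (nat_lit 438) (nat_lit 315)))))) (XT.nd (nat_lit 376) (nat_lit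 0) (nat_lit 0) (XT.nd (nat_lit 188) (nat_lit 0) (nat_lit 0) (XT.nd (nat_lit 94) (nat_lit 0) (nat_lit 0) (XT.lf (nat_lit 0) (nat_lit 434494147533) (nat_lit 0) (nat_lit 0) (nat_lit 0) (nat_lit 0) (nat_lit 0) (nat_lit 0) (nat_lit 1) (nat_lit 0) (nat_lit 1) (nat_lit 0) (nat_lit 328) (nat_lit 438) (nat_lit 314)) (XT.lf (nat_lit 0) (nat_lit 434491840396) (nat_lit 0) (nat_lit 0) (nat_lit 0) (nat_lit 0) (nat_lit 0) (nat_lit 0) (nat_lit 1) (nat_lit 0) (nat_lit 1) (nat_lit 0) (nat_lit 329) (nat_lit 438) (nat_lit 313))) (XT.nd (nat_lit 94) (nat_lit 0) (nat_lit 0) (XT.lf (nat_lit 0) (nat_lit 434489704159) (nat_lit 0) (nat_lit 0) (nat_lit 0) (nat_lit 0) (nat_lit 0) (nat_lit 0) (nat_lit 1) (nat_lit 0) (nat_lit 1) (nat_lit 0) (nat_lit 330) (nat_lit 438) (nat_lit 312)) (XT.lf (nat_lit 0) (nat_lit 434487726161) (nat_lit 0) (nat_lit 0) (nat_lit 0) (nat_lit 0) (nat_lit 0) (nat_lit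 0) (nat_lit 1) (nat_lit 0) (nat_lit 1) (nat_lit 0) (nat_lit 331) (nat_lit 438) (nat_lit 311)))) (XT.nd (nat_lit 188) (nat_lit 0) (nat_lit 0) (XT.nd (nat_lit 94) (nat_lit 0) (nat_lit 0) (XT.lf (nat_lit 0) (nat_lit 434485894681) (nat_lit 0) (nat_lit 0) (nat_lit 0) (nat_lit 0) (nat_lit 0) (nat_lit 0) (nat_lit 1) (nat_lit 0) (nat_lit 1) (nat_lit 0) (nat_lit 332) (nat_lit 438) (nat_lit 310)) (XT.lf (nat_lit 0) (nat_lit 434484198867) (nat_lit 0) (nat_lit 0) (nat_lit 0) (nat_lit 0) (nat_lit 0) (nat_lit 0) (nat_lit 1) (nat_lit 0) (nat_lit 1) (nat_lit 0) (nat_lit 333) (nat_lit 438) (nat_lit 309))) (XT.nd (nat_lit 94) (nat_lit 0) (nat_lit 0) (XT.lf (nat_lit 0) (nat_lit 434482628668) (nat_lit 0) (nat_lit 0) (nat_lit 0) (nat_lit 0) (nat_lit 0) (nat_lit 0) (nat_lit 1) (nat_lit 0) (nat_lit 1) (nat_lit 0) (nat_lit 334) (nat_lit 438) (nat_lit 308)) (XT.nd (nat_lit 94) (nat_lit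 0) (nat_lit 0) (XT.lf (nat_lit 0) (nat_lit 434481174781) (nat_lit 0) (nat_lit 0) (nat_lit 0) (nat_lit 0) (nat_lit 0) (nat_lit 0) (nat_lit 1) (nat_lit 0) (nat_lit 1) (nat_lit 0) (nat_lit 335) (nat_lit 438) (nat_lit 307)) (XT.lf (nat_lit 0) (nat_lit 434479828588) (nat_lit 0) (nat_lit 0) (nat_lit 0) (nat_lit 0) (nat_lit 0) (nat_lit 0) (nat_lit 1) (nat_lit 0) (nat_lit 1) (nat_lit 0) (nat_lit 336) (nat_lit 438) (nat_lit 306))))))) (XT.nd (nat_lit 846) (nat_lit 0) (nat_lit 0) (XT.nd (nat_lit 376) (nat_lit 0) (nat_lit 0) (XT.nd (nat_lit 188) (nat_lit 0) (nat_lit 0) (XT.nd (nat_lit 94) (nat_lit 0) (nat_lit 0) (XT.lf (nat_lit 0) (nat_lit 434478582114) (nat_lit 0) (nat_lit 0) (nat_lit 0) (nat_lit 0) (nat_lit 0) (nat_lit 0) (nat_lit 1) (nat_lit 0) (nat_lit 1) (nat_lit 0) (nat_lit 337) (nat_lit 438) (nat_lit 305)) (XT.lf (nat_lit 0) (nat_lit 434477427971) (nat_lit 0)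 (nat_lit 0) (nat_lit 0) (nat_lit 0) (nat_lit 0) (nat_lit 0) (nat_lit 1) (nat_lit 0) (nat_lit 1) (nat_lit 0) (nat_lit 338) (nat_lit 438) (nat_lit 304))) (XT.nd (nat_lit 94) (nat_lit 0) (nat_lit 0) (XT.lf (nat_lit 0) (nat_lit 434476359321) (nat_lit 0) (nat_lit 0) (nat_lit 0) (nat_lit 0) (nat_lit 0) (nat_lit 0) (nat_lit 1) (nat_lit 0) (nat_lit 1) (nat_lit 0) (nat_lit 339) (nat_lit 438) (nat_lit 303)) (XT.lf (nat_lit 0) (nat_lit 434475369829) (nat_lit 0) (nat_lit 0) (nat_lit 0) (nat_lit 0) (nat_lit 0) (nat_lit 0) (nat_lit 1) (nat_lit 0) (nat_lit 1) (nat_lit 0) (nat_lit 340) (nat_lit 438) (nat_lit 302)))) (XT.nd (nat_lit 188) (nat_lit 0) (nat_lit 0) (XT.nd (nat_lit 94) (nat_lit 0) (nat_lit 0) (XT.lf (nat_lit 0) (nat_lit 434474453633) (nat_lit 0) (nat_lit 0) (nat_lit 0) (nat_lit 0) (nat_lit 0) (nat_lit 0) (nat_lit 1) (nat_lit 0) (nat_lit 1) (nat_lit 0) (nat_lit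 341) (nat_lit 438) (nat_lit 301)) (XT.lf (nat_lit 0) (nat_lit 434473605304) (nat_lit 0) (nat_lit 0) (nat_lit 0) (nat_lit 0) (nat_lit 0) (nat_lit 0) (nat_lit 1) (nat_lit 0) (nat_lit 1) (nat_lit 0) (nat_lit 342) (nat_lit 438) (nat_lit 300))) (XT.nd (nat_lit 94) (nat_lit 0) (nat_lit 0) (XT.lf (nat_lit 0) (nat_lit 434472819814) (nat_lit 0) (nat_lit 0) (nat_lit 0) (nat_lit 0) (nat_lit 0) (nat_lit 0) (nat_lit 1) (nat_lit 0) (nat_lit 1) (nat_lit 0) (nat_lit 343) (nat_lit 438) (nat_lit 299)) (XT.nd (nat_lit 94) (nat_lit 0) (nat_lit 0) (XT.lf (nat_lit 0) (nat_lit 434472092508) (nat_lit 0) (nat_lit 0) (nat_lit 0) (nat_lit 0) (nat_lit 0) (nat_lit 0) (nat_lit 1) (nat_lit 0) (nat_lit 1) (nat_lit 0) (nat_lit 344) (nat_lit 438) (nat_lit 298)) (XT.lf (nat_lit 0) (nat_lit 434471419077) (nat_lit 0) (nat_lit 0) (nat_lit 0) (nat_lit 0) (nat_lit 0) (nat_lit 0) (nat_lit 1) (nat_lit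 0) (nat_lit 1) (nat_lit 0) (nat_lit 345) (nat_lit 438) (nat_lit 297)))))) (XT.nd (nat_lit 470) (nat_lit 0) (nat_lit 0) (XT.nd (nat_lit 188) (nat_lit 0) (nat_lit 0) (XT.nd (nat_lit 94) (nat_lit 0) (nat_lit 0) (XT.lf (nat_lit 0) (nat_lit 434470795529) (nat_lit 0) (nat_lit 0) (nat_lit 0) (nat_lit 0) (nat_lit 0) (nat_lit 0) (nat_lit 1) (nat_lit 0) (nat_lit 1) (nat_lit 0) (nat_lit 346) (nat_lit 438) (nat_lit 296)) (XT.lf (nat_lit 0) (nat_lit 434470218171) (nat_lit 0) (nat_lit 0) (nat_lit 0) (nat_lit 0) (nat_lit 0) (nat_lit 0) (nat_lit 1) (nat_lit 0) (nat_lit 1) (nat_lit 0) (nat_lit 347) (nat_lit 438) (nat_lit 295))) (XT.nd (nat_lit 94) (nat_lit 0) (nat_lit 0) (XT.lf (nat_lit 0) (nat_lit 434469683579) (nat_lit 0) (nat_lit 0) (nat_lit 0) (nat_lit 0) (nat_lit 0) (nat_lit 0) (nat_lit 1) (nat_lit 0) (nat_lit 1) (nat_lit 0) (nat_lit 348) (nat_lit 438) (nat_lit 294))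 (XT.nd (nat_lit 94) (nat_lit 0) (nat_lit 0) (XT.lf (nat_lit 0) (nat_lit 434469188587) (nat_lit 0) (nat_lit 0) (nat_lit 0) (nat_lit 0) (nat_lit 0) (nat_lit 0) (nat_lit 1) (nat_lit 0) (nat_lit 1) (nat_lit 0) (nat_lit 349) (nat_lit 438) (nat_lit 293)) (XT.lf (nat_lit 0) (nat_lit 434468730261) (nat_lit 0) (nat_lit 0) (nat_lit 0) (nat_lit 0) (nat_lit 0) (nat_lit 0) (nat_lit 1) (nat_lit 0) (nat_lit 1) (nat_lit 0) (nat_lit 350) (nat_lit 438) (nat_lit 292))))) (XT.nd (nat_lit 188) (nat_lit 0) (nat_lit 0) (XT.nd (nat_lit 94) (nat_lit 0) (nat_lit 0) (XT.lf (nat_lit 0) (nat_lit 434468305885) (nat_lit 0) (nat_lit 0) (nat_lit 0) (nat_lit 0) (nat_lit 0) (nat_lit 0) (nat_lit 1) (nat_lit 0) (nat_lit 1) (nat_lit 0) (nat_lit 351) (nat_lit 438) (nat_lit 291)) (XT.lf (nat_lit 0) (nat_lit 434467912944) (nat_lit 0) (nat_lit 0) (nat_lit 0) (nat_lit 0) (nat_lit 0) (nat_lit 0) (nat_lit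 1) (nat_lit 0) (nat_lit 1) (nat_lit 0) (nat_lit 352) (nat_lit 438) (nat_lit 290))) (XT.nd (nat_lit 94) (nat_lit 0) (nat_lit 0) (XT.lf (nat_lit 0) (nat_lit 434467549111) (nat_lit 0) (nat_lit 0) (nat_lit 0) (nat_lit 0) (nat_lit 0) (nat_lit 0) (nat_lit 1) (nat_lit 0) (nat_lit 1) (nat_lit 0) (nat_lit 353) (nat_lit 438) (nat_lit 289)) (XT.nd (nat_lit 94) (nat_lit 0) (nat_lit 0) (XT.lf (nat_lit 0) (nat_lit 434467212227) (nat_lit 0) (nat_lit 0) (nat_lit 0) (nat_lit 0) (nat_lit 0) (nat_lit 0) (nat_lit 1) (nat_lit 0) (nat_lit 1) (nat_lit 0) (nat_lit 354) (nat_lit 438) (nat_lit 288)) (XT.lf (nat_lit 0) (nat_lit 434466900298) (nat_lit 0) (nat_lit 0) (nat_lit 0) (nat_lit 0) (nat_lit 0) (nat_lit 0) (nat_lit 1) (nat_lit 0) (nat_lit 1) (nat_lit 0) (nat_lit 355) (nat_lit 438) (nat_lit 287))))))))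
noncomputable def ec357 : XT := (XT.nd (nat_lit 1786) (nat_lit 0) (nat_lit 0) (XT.nd (nat_lit 846) (nat_lit 0) (nat_lit 0) (XT.nd (nat_lit 376) (nat_lit 0) (nat_lit 0) (XT.nd (nat_lit 188) (nat_lit 0) (nat_lit 0) (XT.nd (nat_lit 94) (nat_lit 0) (nat_lit 0) (XT.lf (nat_lit 0) (nat_lit 434466611475) (nat_lit 0) (nat_lit 0) (nat_lit 0) (nat_lit 0) (nat_lit 0) (nat_lit 0) (nat_lit 1) (nat_lit 0) (nat_lit 1) (nat_lit 0) (nat_lit 356) (nat_lit 438) (nat_lit 286)) (XT.lf (nat_lit 0) (nat_lit 434466344046) (nat_lit 0) (nat_lit 0) (nat_lit 0) (nat_lit 0) (nat_lit 0) (nat_lit 0) (nat_lit 1) (nat_lit 0) (nat_lit 1) (nat_lit 0) (nat_lit 357) (nat_lit 438) (nat_lit 285))) (XT.nd (nat_lit 94) (nat_lit 0) (nat_lit 0) (XT.lf (nat_lit 0) (nat_lit 434466096427) (nat_lit 0) (nat_lit 0) (nat_lit 0) (nat_lit 0) (nat_lit 0) (nat_lit 0) (nat_lit 1) (nat_lit 0) (nat_lit 1) (nat_lit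 0) (nat_lit 358) (nat_lit 438) (nat_lit 284)) (XT.lf (nat_lit 0) (nat_lit 434465867150) (nat_lit 0) (nat_lit 0) (nat_lit 0) (nat_lit 0) (nat_lit 0) (nat_lit 0) (nat_lit 1) (nat_lit 0) (nat_lit 1) (nat_lit 0) (nat_lit 359) (nat_lit 438) (nat_lit 283)))) (XT.nd (nat_lit 188) (nat_lit 0) (nat_lit 0) (XT.nd (nat_lit 94) (nat_lit 0) (nat_lit 0) (XT.lf (nat_lit 0) (nat_lit 434465654856) (nat_lit 0) (nat_lit 0) (nat_lit 0) (nat_lit 0) (nat_lit 0) (nat_lit 0) (nat_lit 1) (nat_lit 0) (nat_lit 1) (nat_lit 0) (nat_lit 360) (nat_lit 438) (nat_lit 282)) (XT.lf (nat_lit 0) (nat_lit 434465458288) (nat_lit 0) (nat_lit 0) (nat_lit 0) (nat_lit 0) (nat_lit 0) (nat_lit 0) (nat_lit 1) (nat_lit 0) (nat_lit 1) (nat_lit 0) (nat_lit 361) (nat_lit 438) (nat_lit 281))) (XT.nd (nat_lit 94) (nat_lit 0) (nat_lit 0) (XT.lf (nat_lit 0) (nat_lit 434465276281) (nat_lit 0) (nat_lit 0) (nat_lit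 0) (nat_lit 0) (nat_lit 0) (nat_lit 0) (nat_lit 1) (nat_lit 0) (nat_lit 1) (nat_lit 0) (nat_lit 362) (nat_lit 438) (nat_lit 280)) (XT.nd (nat_lit 94) (nat_lit 0) (nat_lit 0) (XT.lf (nat_lit 0) (nat_lit 434465107755) (nat_lit 0) (nat_lit 0) (nat_lit 0) (nat_lit 0) (nat_lit 0) (nat_lit 0) (nat_lit 1) (nat_lit 0) (nat_lit 1) (nat_lit 0) (nat_lit 363) (nat_lit 438) (nat_lit 279)) (XT.lf (nat_lit 0) (nat_lit 434464951713) (nat_lit 0) (nat_lit 0) (nat_lit 0) (nat_lit 0) (nat_lit 0) (nat_lit 0) (nat_lit 1) (nat_lit 0) (nat_lit 1) (nat_lit 0) (nat_lit 364) (nat_lit 438) (nat_lit 278)))))) (XT.nd (nat_lit 470) (nat_lit 0) (nat_lit 0) (XT.nd (nat_lit 188) (nat_lit 0) (nat_lit 0) (XT.nd (nat_lit 94) (nat_lit 0) (nat_lit 0) (XT.lf (nat_lit 0) (nat_lit 434464807230) (nat_lit 0) (nat_lit 0) (nat_lit 0) (nat_lit 0) (nat_lit 0) (nat_lit 0) (nat_lit 1) (nat_lit 0) (nat_lit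 1) (nat_lit 0) (nat_lit 365) (nat_lit 438) (nat_lit 277)) (XT.lf (nat_lit 0) (nat_lit 434464673449) (nat_lit 0) (nat_lit 0) (nat_lit 0) (nat_lit 0) (nat_lit 0) (nat_lit 0) (nat_lit 1) (nat_lit 0) (nat_lit 1) (nat_lit 0) (nat_lit 366) (nat_lit 438) (nat_lit 276))) (XT.nd (nat_lit 94) (nat_lit 0) (nat_lit 0) (XT.lf (nat_lit 0) (nat_lit 434464549577) (nat_lit 0) (nat_lit 0) (nat_lit 0) (nat_lit 0) (nat_lit 0) (nat_lit 0) (nat_lit 1) (nat_lit 0) (nat_lit 1) (nat_lit 0) (nat_lit 367) (nat_lit 438) (nat_lit 275)) (XT.nd (nat_lit 94) (nat_lit 0) (nat_lit 0) (XT.lf (nat_lit 0) (nat_lit 434464434882) (nat_lit 0) (nat_lit 0) (nat_lit 0) (nat_lit 0) (nat_lit 0) (nat_lit 0) (nat_lit 1) (nat_lit 0) (nat_lit 1) (nat_lit 0) (nat_lit 368) (nat_lit 438) (nat_lit 274)) (XT.lf (nat_lit 0) (nat_lit 434464328682) (nat_lit 0) (nat_lit 0) (nat_lit 0) (nat_lit 0) (nat_lit 0) (nat_lit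 0) (nat_lit 1) (nat_lit 0) (nat_lit 1) (nat_lit 0) (nat_lit 369) (nat_lit 438) (nat_lit 273))))) (XT.nd (nat_lit 188) (nat_lit 0) (nat_lit 0) (XT.nd (nat_lit 94) (nat_lit 0) (nat_lit 0) (XT.lf (nat_lit 0) (nat_lit 434464230349) (nat_lit 0) (nat_lit 0) (nat_lit 0) (nat_lit 0) (nat_lit 0) (nat_lit 0) (nat_lit 1) (nat_lit 0) (nat_lit 1) (nat_lit 0) (nat_lit 370) (nat_lit 438) (nat_lit 272)) (XT.lf (nat_lit 0) (nat_lit 434464139300) (nat_lit 0) (nat_lit 0) (nat_lit 0) (nat_lit 0) (nat_lit 0) (nat_lit 0) (nat_lit 1) (nat_lit 0) (nat_lit 1) (nat_lit 0) (nat_lit 371) (nat_lit 438) (nat_lit 271))) (XT.nd (nat_lit 94) (nat_lit 0) (nat_lit 0) (XT.lf (nat_lit 0) (nat_lit 434464054995) (nat_lit 0) (nat_lit 0) (nat_lit 0) (nat_lit 0) (nat_lit 0) (nat_lit 0) (nat_lit 1) (nat_lit 0) (nat_lit 1) (nat_lit 0) (nat_lit 372) (nat_lit 438) (nat_lit 270)) (XT.nd (nat_lit 94) (nat_lit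 0) (nat_lit 0) (XT.lf (nat_lit 0) (nat_lit 434463976935) (nat_lit 0) (nat_lit 0) (nat_lit 0) (nat_lit 0) (nat_lit 0) (nat_lit 0) (nat_lit 1) (nat_lit 0) (nat_lit 1) (nat_lit 0) (nat_lit 373) (nat_lit 438) (nat_lit 269)) (XT.lf (nat_lit 0) (nat_lit 434463904658) (nat_lit 0) (nat_lit 0) (nat_lit 0) (nat_lit 0) (nat_lit 0) (nat_lit 0) (nat_lit 1) (nat_lit 0) (nat_lit 1) (nat_lit 0) (nat_lit 374) (nat_lit 438) (nat_lit 268))))))) (XT.nd (nat_lit 846) (nat_lit 0) (nat_lit 0) (XT.nd (nat_lit 376) (nat_lit 0) (nat_lit 0) (XT.nd (nat_lit 188) (nat_lit 0) (nat_lit 0) (XT.nd (nat_lit 94) (nat_lit 0) (nat_lit 0) (XT.lf (nat_lit 0) (nat_lit 434463837734) (nat_lit 0) (nat_lit 0) (nat_lit 0) (nat_lit 0) (nat_lit 0) (nat_lit 0) (nat_lit 1) (nat_lit 0) (nat_lit 1) (nat_lit 0) (nat_lit 375) (nat_lit 438) (nat_lit 267)) (XT.lf (nat_lit 0) (nat_lit 434463775767) (nat_lit 0)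 (nat_lit 0) (nat_lit 0) (nat_lit 0) (nat_lit 0) (nat_lit 0) (nat_lit 1) (nat_lit 0) (nat_lit 1) (nat_lit 0) (nat_lit 376) (nat_lit 438) (nat_lit 266))) (XT.nd (nat_lit 94) (nat_lit 0) (nat_lit 0) (XT.lf (nat_lit 0) (nat_lit 434463718391) (nat_lit 0) (nat_lit 0) (nat_lit 0) (nat_lit 0) (nat_lit 0) (nat_lit 0) (nat_lit 1) (nat_lit 0) (nat_lit 1) (nat_lit 0) (nat_lit 377) (nat_lit 438) (nat_lit 265)) (XT.lf (nat_lit 0) (nat_lit 434463665265) (nat_lit 0) (nat_lit 0) (nat_lit 0) (nat_lit 0) (nat_lit 0) (nat_lit 0) (nat_lit 1) (nat_lit 0) (nat_lit 1) (nat_lit 0) (nat_lit 378) (nat_lit 438) (nat_lit 264)))) (XT.nd (nat_lit 188) (nat_lit 0) (nat_lit 0) (XT.nd (nat_lit 94) (nat_lit 0) (nat_lit 0) (XT.lf (nat_lit 0) (nat_lit 434463616074) (nat_lit 0) (nat_lit 0) (nat_lit 0) (nat_lit 0) (nat_lit 0) (nat_lit 0) (nat_lit 1) (nat_lit 0) (nat_lit 1) (nat_lit 0) (nat_lit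 379) (nat_lit 438) (nat_lit 263)) (XT.lf (nat_lit 0) (nat_lit 434463570526) (nat_lit 0) (nat_lit 0) (nat_lit 0) (nat_lit 0) (nat_lit 0) (nat_lit 0) (nat_lit 1) (nat_lit 0) (nat_lit 1) (nat_lit 0) (nat_lit 380) (nat_lit 438) (nat_lit 262))) (XT.nd (nat_lit 94) (nat_lit 0) (nat_lit 0) (XT.lf (nat_lit 0) (nat_lit 434463528353) (nat_lit 0) (nat_lit 0) (nat_lit 0) (nat_lit 0) (nat_lit 0) (nat_lit 0) (nat_lit 1) (nat_lit 0) (nat_lit 1) (nat_lit 0) (nat_lit 381) (nat_lit 438) (nat_lit 261)) (XT.nd (nat_lit 94) (nat_lit 0) (nat_lit 0) (XT.lf (nat_lit 0) (nat_lit 434463489304) (nat_lit 0) (nat_lit 0) (nat_lit 0) (nat_lit 0) (nat_lit 0) (nat_lit 0) (nat_lit 1) (nat_lit 0) (nat_lit 1) (nat_lit 0) (nat_lit 382) (nat_lit 438) (nat_lit 260)) (XT.lf (nat_lit 0) (nat_lit 434463453147) (nat_lit 0) (nat_lit 0) (nat_lit 0) (nat_lit 0) (nat_lit 0) (nat_lit 0) (nat_lit 1) (nat_lit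 0) (nat_lit 1) (nat_lit 0) (nat_lit 383) (nat_lit 438) (nat_lit 259)))))) (XT.nd (nat_lit 470) (nat_lit 0) (nat_lit 0) (XT.nd (nat_lit 188) (nat_lit 0) (nat_lit 0) (XT.nd (nat_lit 94) (nat_lit 0) (nat_lit 0) (XT.lf (nat_lit 0) (nat_lit 434463419668) (nat_lit 0) (nat_lit 0) (nat_lit 0) (nat_lit 0) (nat_lit 0) (nat_lit 0) (nat_lit 1) (nat_lit 0) (nat_lit 1) (nat_lit 0) (nat_lit 384) (nat_lit 438) (nat_lit 258)) (XT.lf (nat_lit 0) (nat_lit 434463388670) (nat_lit 0) (nat_lit 0) (nat_lit 0) (nat_lit 0) (nat_lit 0) (nat_lit 0) (nat_lit 1) (nat_lit 0) (nat_lit 1) (nat_lit 0) (nat_lit 385) (nat_lit 438) (nat_lit 257))) (XT.nd (nat_lit 94) (nat_lit 0) (nat_lit 0) (XT.lf (nat_lit 0) (nat_lit 434463359967) (nat_lit 0) (nat_lit 0) (nat_lit 0) (nat_lit 0) (nat_lit 0) (nat_lit 0) (nat_lit 1) (nat_lit 0) (nat_lit 1) (nat_lit 0) (nat_lit 386) (nat_lit 438) (nat_lit 256))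 (XT.nd (nat_lit 94) (nat_lit 0) (nat_lit 0) (XT.lf (nat_lit 0) (nat_lit 434463333391) (nat_lit 0) (nat_lit 0) (nat_lit 0) (nat_lit 0) (nat_lit 0) (nat_lit 0) (nat_lit 1) (nat_lit 0) (nat_lit 1) (nat_lit 0) (nat_lit 387) (nat_lit 438) (nat_lit 255)) (XT.lf (nat_lit 0) (nat_lit 434463308783) (nat_lit 0) (nat_lit 0) (nat_lit 0) (nat_lit 0) (nat_lit 0) (nat_lit 0) (nat_lit 1) (nat_lit 0) (nat_lit 1) (nat_lit 0) (nat_lit 388) (nat_lit 438) (nat_lit 254))))) (XT.nd (nat_lit 188) (nat_lit 0) (nat_lit 0) (XT.nd (nat_lit 94) (nat_lit 0) (nat_lit 0) (XT.lf (nat_lit 0) (nat_lit 434463285998) (nat_lit 0) (nat_lit 0) (nat_lit 0) (nat_lit 0) (nat_lit 0) (nat_lit 0) (nat_lit 1) (nat_lit 0) (nat_lit 1) (nat_lit 0) (nat_lit 389) (nat_lit 438) (nat_lit 253)) (XT.lf (nat_lit 0) (nat_lit 434463264901) (nat_lit 0) (nat_lit 0) (nat_lit 0) (nat_lit 0) (nat_lit 0) (nat_lit 0) (nat_lit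 1) (nat_lit 0) (nat_lit 1) (nat_lit 0) (nat_lit 390) (nat_lit 438) (nat_lit 252))) (XT.nd (nat_lit 94) (nat_lit 0) (nat_lit 0) (XT.lf (nat_lit 0) (nat_lit 434463245366) (nat_lit 0) (nat_lit 0) (nat_lit 0) (nat_lit 0) (nat_lit 0) (nat_lit 0) (nat_lit 1) (nat_lit 0) (nat_lit 1) (nat_lit 0) (nat_lit 391) (nat_lit 438) (nat_lit 251)) (XT.nd (nat_lit 94) (nat_lit 0) (nat_lit 0) (XT.lf (nat_lit 0) (nat_lit 434463227279) (nat_lit 0) (nat_lit 0) (nat_lit 0) (nat_lit 0) (nat_lit 0) (nat_lit 0) (nat_lit 1) (nat_lit 0) (nat_lit 1) (nat_lit 0) (nat_lit 392) (nat_lit 438) (nat_lit 250)) (XT.lf (nat_lit 0) (nat_lit 434463210531) (nat_lit 0) (nat_lit 0) (nat_lit 0) (nat_lit 0) (nat_lit 0) (nat_lit 0) (nat_lit 1) (nat_lit 0) (nat_lit 1) (nat_lit 0) (nat_lit 393) (nat_lit 438) (nat_lit 249))))))))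
noncomputable def ec358 : XT := (XT.nd (nat_lit 1692) (nat_lit 0) (nat_lit 0) (XT.nd (nat_lit 846) (nat_lit 0) (nat_lit 0) (XT.nd (nat_lit 376) (nat_lit 0) (nat_lit 0) (XT.nd (nat_lit 188) (nat_lit 0) (nat_lit 0) (XT.nd (nat_lit 94) (nat_lit 0) (nat_lit 0) (XT.lf (nat_lit 0) (nat_lit 434463195024) (nat_lit 0) (nat_lit 0) (nat_lit 0) (nat_lit 0) (nat_lit 0) (nat_lit 0) (nat_lit 1) (nat_lit 0) (nat_lit 1) (nat_lit 0) (nat_lit 394) (nat_lit 438) (nat_lit 248)) (XT.lf (nat_lit 0) (nat_lit 434463180666) (nat_lit 0) (nat_lit 0) (nat_lit 0) (nat_lit 0) (nat_lit 0) (nat_lit 0) (nat_lit 1) (nat_lit 0) (nat_lit 1) (nat_lit 0) (nat_lit 395) (nat_lit 438) (nat_lit 247))) (XT.nd (nat_lit 94) (nat_lit 0) (nat_lit 0) (XT.lf (nat_lit 0) (nat_lit 434463167371) (nat_lit 0) (nat_lit 0) (nat_lit 0) (nat_lit 0) (nat_lit 0) (nat_lit 0) (nat_lit 1) (nat_lit 0) (nat_lit 1) (nat_lit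 0) (nat_lit 396) (nat_lit 438) (nat_lit 246)) (XT.lf (nat_lit 0) (nat_lit 434463155061) (nat_lit 0) (nat_lit 0) (nat_lit 0) (nat_lit 0) (nat_lit 0) (nat_lit 0) (nat_lit 1) (nat_lit 0) (nat_lit 1) (nat_lit 0) (nat_lit 397) (nat_lit 438) (nat_lit 245)))) (XT.nd (nat_lit 188) (nat_lit 0) (nat_lit 0) (XT.nd (nat_lit 94) (nat_lit 0) (nat_lit 0) (XT.lf (nat_lit 0) (nat_lit 434463143663) (nat_lit 0) (nat_lit 0) (nat_lit 0) (nat_lit 0) (nat_lit 0) (nat_lit 0) (nat_lit 1) (nat_lit 0) (nat_lit 1) (nat_lit 0) (nat_lit 398) (nat_lit 438) (nat_lit 244)) (XT.lf (nat_lit 0) (nat_lit 434463133109) (nat_lit 0) (nat_lit 0) (nat_lit 0) (nat_lit 0) (nat_lit 0) (nat_lit 0) (nat_lit 1) (nat_lit 0) (nat_lit 1) (nat_lit 0) (nat_lit 399) (nat_lit 438) (nat_lit 243))) (XT.nd (nat_lit 94) (nat_lit 0) (nat_lit 0) (XT.lf (nat_lit 0) (nat_lit 434463123337) (nat_lit 0) (nat_lit 0) (nat_lit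 0) (nat_lit 0) (nat_lit 0) (nat_lit 0) (nat_lit 1) (nat_lit 0) (nat_lit 1) (nat_lit 0) (nat_lit 400) (nat_lit 438) (nat_lit 242)) (XT.nd (nat_lit 94) (nat_lit 0) (nat_lit 0) (XT.lf (nat_lit 0) (nat_lit 434463114289) (nat_lit 0) (nat_lit 0) (nat_lit 0) (nat_lit 0) (nat_lit 0) (nat_lit 0) (nat_lit 1) (nat_lit 0) (nat_lit 1) (nat_lit 0) (nat_lit 401) (nat_lit 438) (nat_lit 241)) (XT.lf (nat_lit 0) (nat_lit 434463105911) (nat_lit 0) (nat_lit 0) (nat_lit 0) (nat_lit 0) (nat_lit 0) (nat_lit 0) (nat_lit 1) (nat_lit 0) (nat_lit 1) (nat_lit 0) (nat_lit 402) (nat_lit 438) (nat_lit 240)))))) (XT.nd (nat_lit 376) (nat_lit 0) (nat_lit 0) (XT.nd (nat_lit 188) (nat_lit 0) (nat_lit 0) (XT.nd (nat_lit 94) (nat_lit 0) (nat_lit 0) (XT.lf (nat_lit 0) (nat_lit 434463098154) (nat_lit 0) (nat_lit 0) (nat_lit 0) (nat_lit 0) (nat_lit 0) (nat_lit 0) (nat_lit 1) (nat_lit 0) (nat_lit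 1) (nat_lit 0) (nat_lit 403) (nat_lit 438) (nat_lit 239)) (XT.lf (nat_lit 0) (nat_lit 434463090971) (nat_lit 0) (nat_lit 0) (nat_lit 0) (nat_lit 0) (nat_lit 0) (nat_lit 0) (nat_lit 1) (nat_lit 0) (nat_lit 1) (nat_lit 0) (nat_lit 404) (nat_lit 438) (nat_lit 238))) (XT.nd (nat_lit 94) (nat_lit 0) (nat_lit 0) (XT.lf (nat_lit 0) (nat_lit 434463084320) (nat_lit 0) (nat_lit 0) (nat_lit 0) (nat_lit 0) (nat_lit 0) (nat_lit 0) (nat_lit 1) (nat_lit 0) (nat_lit 1) (nat_lit 0) (nat_lit 405) (nat_lit 438) (nat_lit 237)) (XT.lf (nat_lit 0) (nat_lit 434463078162) (nat_lit 0) (nat_lit 0) (nat_lit 0) (nat_lit 0) (nat_lit 0) (nat_lit 0) (nat_lit 1) (nat_lit 0) (nat_lit 1) (nat_lit 0) (nat_lit 406) (nat_lit 438) (nat_lit 236)))) (XT.nd (nat_lit 188) (nat_lit 0) (nat_lit 0) (XT.nd (nat_lit 94) (nat_lit 0) (nat_lit 0) (XT.lf (nat_lit 0) (nat_lit 434463072460) (nat_lit 0) (nat_lit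 0) (nat_lit 0) (nat_lit 0) (nat_lit 0) (nat_lit 0) (nat_lit 1) (nat_lit 0) (nat_lit 1) (nat_lit 0) (nat_lit 407) (nat_lit 438) (nat_lit 235)) (XT.lf (nat_lit 0) (nat_lit 434463067181) (nat_lit 0) (nat_lit 0) (nat_lit 0) (nat_lit 0) (nat_lit 0) (nat_lit 0) (nat_lit 1) (nat_lit 0) (nat_lit 1) (nat_lit 0) (nat_lit 408) (nat_lit 438) (nat_lit 234))) (XT.nd (nat_lit 94) (nat_lit 0) (nat_lit 0) (XT.lf (nat_lit 0) (nat_lit 434463062292) (nat_lit 0) (nat_lit 0) (nat_lit 0) (nat_lit 0) (nat_lit 0) (nat_lit 0) (nat_lit 1) (nat_lit 0) (nat_lit 1) (nat_lit 0) (nat_lit 409) (nat_lit 438) (nat_lit 233)) (XT.nd (nat_lit 94) (nat_lit 0) (nat_lit 0) (XT.lf (nat_lit 0) (nat_lit 434463057766) (nat_lit 0) (nat_lit 0) (nat_lit 0) (nat_lit 0) (nat_lit 0) (nat_lit 0) (nat_lit 1) (nat_lit 0) (nat_lit 1) (nat_lit 0) (nat_lit 410) (nat_lit 438) (nat_lit 232)) (XT.lf (nat_lit 0) (nat_lit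 434463053575) (nat_lit 0) (nat_lit 0) (nat_lit 0) (nat_lit 0) (nat_lit 0) (nat_lit 0) (nat_lit 1) (nat_lit 0) (nat_lit 1) (nat_lit 0) (nat_lit 411) (nat_lit 438) (nat_lit 231))))))) (XT.nd (nat_lit 846) (nat_lit 0) (nat_lit 0) (XT.nd (nat_lit 376) (nat_lit 0) (nat_lit 0) (XT.nd (nat_lit 188) (nat_lit 0) (nat_lit 0) (XT.nd (nat_lit 94) (nat_lit 0) (nat_lit 0) (XT.lf (nat_lit 0) (nat_lit 434463049694) (nat_lit 0) (nat_lit 0) (nat_lit 0) (nat_lit 0) (nat_lit 0) (nat_lit 0) (nat_lit 1) (nat_lit 0) (nat_lit 1) (nat_lit 0) (nat_lit 412) (nat_lit 438) (nat_lit 230)) (XT.lf (nat_lit 0) (nat_lit 434463046101) (nat_lit 0) (nat_lit 0) (nat_lit 0) (nat_lit 0) (nat_lit 0) (nat_lit 0) (nat_lit 1) (nat_lit 0) (nat_lit 1) (nat_lit 0) (nat_lit 413) (nat_lit 438) (nat_lit 229))) (XT.nd (nat_lit 94) (nat_lit 0) (nat_lit 0) (XT.lf (nat_lit 0) (nat_lit 434463042774) (nat_lit 0)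 (nat_lit 0) (nat_lit 0) (nat_lit 0) (nat_lit 0) (nat_lit 0) (nat_lit 1) (nat_lit 0) (nat_lit 1) (nat_lit 0) (nat_lit 414) (nat_lit 438) (nat_lit 228)) (XT.lf (nat_lit 0) (nat_lit 434463039693) (nat_lit 0) (nat_lit 0) (nat_lit 0) (nat_lit 0) (nat_lit 0) (nat_lit 0) (nat_lit 1) (nat_lit 0) (nat_lit 1) (nat_lit 0) (nat_lit 415) (nat_lit 438) (nat_lit 227)))) (XT.nd (nat_lit 188) (nat_lit 0) (nat_lit 0) (XT.nd (nat_lit 94) (nat_lit 0) (nat_lit 0) (XT.lf (nat_lit 0) (nat_lit 434463036841) (nat_lit 0) (nat_lit 0) (nat_lit 0) (nat_lit 0) (nat_lit 0) (nat_lit 0) (nat_lit 1) (nat_lit 0) (nat_lit 1) (nat_lit 0) (nat_lit 416) (nat_lit 438) (nat_lit 226)) (XT.lf (nat_lit 0) (nat_lit 434463034200) (nat_lit 0) (nat_lit 0) (nat_lit 0) (nat_lit 0) (nat_lit 0) (nat_lit 0) (nat_lit 1) (nat_lit 0) (nat_lit 1) (nat_lit 0) (nat_lit 417) (nat_lit 438) (nat_lit 225))) (XT.nd (nat_lit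 94) (nat_lit 0) (nat_lit 0) (XT.lf (nat_lit 0) (nat_lit 434463031754) (nat_lit 0) (nat_lit 0) (nat_lit 0) (nat_lit 0) (nat_lit 0) (nat_lit 0) (nat_lit 1) (nat_lit 0) (nat_lit 1) (nat_lit 0) (nat_lit 418) (nat_lit 438) (nat_lit 224)) (XT.nd (nat_lit 94) (nat_lit 0) (nat_lit 0) (XT.lf (nat_lit 0) (nat_lit 434463029490) (nat_lit 0) (nat_lit 0) (nat_lit 0) (nat_lit 0) (nat_lit 0) (nat_lit 0) (nat_lit 1) (nat_lit 0) (nat_lit 1) (nat_lit 0) (nat_lit 419) (nat_lit 438) (nat_lit 223)) (XT.lf (nat_lit 0) (nat_lit 434463027393) (nat_lit 0) (nat_lit 0) (nat_lit 0) (nat_lit 0) (nat_lit 0) (nat_lit 0) (nat_lit 1) (nat_lit 0) (nat_lit 1) (nat_lit 0) (nat_lit 420) (nat_lit 438) (nat_lit 222)))))) (XT.nd (nat_lit 470) (nat_lit 0) (nat_lit 0) (XT.nd (nat_lit 188) (nat_lit 0) (nat_lit 0) (XT.nd (nat_lit 94) (nat_lit 0) (nat_lit 0) (XT.lf (nat_lit 0) (nat_lit 434463025452) (nat_lit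 0) (nat_lit 0) (nat_lit 0) (nat_lit 0) (nat_lit 0) (nat_lit 0) (nat_lit 1) (nat_lit 0) (nat_lit 1) (nat_lit 0) (nat_lit 421) (nat_lit 438) (nat_lit 221)) (XT.lf (nat_lit 0) (nat_lit 434463023655) (nat_lit 0) (nat_lit 0) (nat_lit 0) (nat_lit 0) (nat_lit 0) (nat_lit 0) (nat_lit 1) (nat_lit 0) (nat_lit 1) (nat_lit 0) (nat_lit 422) (nat_lit 438) (nat_lit 220))) (XT.nd (nat_lit 94) (nat_lit 0) (nat_lit 0) (XT.lf (nat_lit 0) (nat_lit 434463021990) (nat_lit 0) (nat_lit 0) (nat_lit 0) (nat_lit 0) (nat_lit 0) (nat_lit 0) (nat_lit 1) (nat_lit 0) (nat_lit 1) (nat_lit 0) (nat_lit 423) (nat_lit 438) (nat_lit 219)) (XT.nd (nat_lit 94) (nat_lit 0) (nat_lit 0) (XT.lf (nat_lit 0) (nat_lit 434463020449) (nat_lit 0) (nat_lit 0) (nat_lit 0) (nat_lit 0) (nat_lit 0) (nat_lit 0) (nat_lit 1) (nat_lit 0) (nat_lit 1) (nat_lit 0) (nat_lit 424) (nat_lit 438) (nat_lit 218)) (XT.lf (nat_lit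 0) (nat_lit 434463019022) (nat_lit 0) (nat_lit 0) (nat_lit 0) (nat_lit 0) (nat_lit 0) (nat_lit 0) (nat_lit 1) (nat_lit 0) (nat_lit 1) (nat_lit 0) (nat_lit 425) (nat_lit 438) (nat_lit 217))))) (XT.nd (nat_lit 188) (nat_lit 0) (nat_lit 0) (XT.nd (nat_lit 94) (nat_lit 0) (nat_lit 0) (XT.lf (nat_lit 0) (nat_lit 434463017701) (nat_lit 0) (nat_lit 0) (nat_lit 0) (nat_lit 0) (nat_lit 0) (nat_lit 0) (nat_lit 1) (nat_lit 0) (nat_lit 1) (nat_lit 0) (nat_lit 426) (nat_lit 438) (nat_lit 216)) (XT.lf (nat_lit 0) (nat_lit 434463016478) (nat_lit 0) (nat_lit 0) (nat_lit 0) (nat_lit 0) (nat_lit 0) (nat_lit 0) (nat_lit 1) (nat_lit 0) (nat_lit 1) (nat_lit 0) (nat_lit 427) (nat_lit 438) (nat_lit 215))) (XT.nd (nat_lit 94) (nat_lit 0) (nat_lit 0) (XT.lf (nat_lit 0) (nat_lit 434463015345) (nat_lit 0) (nat_lit 0) (nat_lit 0) (nat_lit 0) (nat_lit 0) (nat_lit 0) (nat_lit 1) (nat_lit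 0) (nat_lit 1) (nat_lit 0) (nat_lit 428) (nat_lit 438) (nat_lit 214)) (XT.nd (nat_lit 94) (nat_lit 0) (nat_lit 0) (XT.lf (nat_lit 0) (nat_lit 434463014296) (nat_lit 0) (nat_lit 0) (nat_lit 0) (nat_lit 0) (nat_lit 0) (nat_lit 0) (nat_lit 1) (nat_lit 0) (nat_lit 1) (nat_lit 0) (nat_lit 429) (nat_lit 438) (nat_lit 213)) (XT.lf (nat_lit 0) (nat_lit 434463013325) (nat_lit 0) (nat_lit 0) (nat_lit 0) (nat_lit 0) (nat_lit 0) (nat_lit 0) (nat_lit 1) (nat_lit 0) (nat_lit 1) (nat_lit 0) (nat_lit 430) (nat_lit 438) (nat_lit 212))))))))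
noncomputable def ec359 : XT := (XT.nd (nat_lit 46436) (nat_lit 0) (nat_lit 5964) (XT.nd (nat_lit 846) (nat_lit 0) (nat_lit 0) (XT.nd (nat_lit 376) (nat_lit 0) (nat_lit 0) (XT.nd (nat_lit 188) (nat_lit 0) (nat_lit 0) (XT.nd (nat_lit 94) (nat_lit 0) (nat_lit 0) (XT.lf (nat_lit 0) (nat_lit 434463012426) (nat_lit 0) (nat_lit 0) (nat_lit 0) (nat_lit 0) (nat_lit 0) (nat_lit 0) (nat_lit 1) (nat_lit 0) (nat_lit 1) (nat_lit 0) (nat_lit 431) (nat_lit 438) (nat_lit 211)) (XT.lf (nat_lit 0) (nat_lit 434463011593) (nat_lit 0) (nat_lit 0) (nat_lit 0) (nat_lit 0) (nat_lit 0) (nat_lit 0) (nat_lit 1) (nat_lit 0) (nat_lit 1) (nat_lit 0) (nat_lit 432) (nat_lit 438) (nat_lit 210))) (XT.nd (nat_lit 94) (nat_lit 0) (nat_lit 0) (XT.lf (nat_lit 0) (nat_lit 434463010823) (nat_lit 0) (nat_lit 0) (nat_lit 0) (nat_lit 0) (nat_lit 0) (nat_lit 0) (nat_lit 1) (nat_lit 0) (nat_lit 1) (nat_lit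 0) (nat_lit 433) (nat_lit 438) (nat_lit 209)) (XT.lf (nat_lit 0) (nat_lit 434463010109) (nat_lit 0) (nat_lit 0) (nat_lit 0) (nat_lit 0) (nat_lit 0) (nat_lit 0) (nat_lit 1) (nat_lit 0) (nat_lit 1) (nat_lit 0) (nat_lit 434) (nat_lit 438) (nat_lit 208)))) (XT.nd (nat_lit 188) (nat_lit 0) (nat_lit 0) (XT.nd (nat_lit 94) (nat_lit 0) (nat_lit 0) (XT.lf (nat_lit 0) (nat_lit 434463009448) (nat_lit 0) (nat_lit 0) (nat_lit 0) (nat_lit 0) (nat_lit 0) (nat_lit 0) (nat_lit 1) (nat_lit 0) (nat_lit 1) (nat_lit 0) (nat_lit 435) (nat_lit 438) (nat_lit 207)) (XT.lf (nat_lit 0) (nat_lit 434463008836) (nat_lit 0) (nat_lit 0) (nat_lit 0) (nat_lit 0) (nat_lit 0) (nat_lit 0) (nat_lit 1) (nat_lit 0) (nat_lit 1) (nat_lit 0) (nat_lit 436) (nat_lit 438) (nat_lit 206))) (XT.nd (nat_lit 94) (nat_lit 0) (nat_lit 0) (XT.lf (nat_lit 0) (nat_lit 434463008269) (nat_lit 0) (nat_lit 0) (nat_lit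 0) (nat_lit 0) (nat_lit 0) (nat_lit 0) (nat_lit 1) (nat_lit 0) (nat_lit 1) (nat_lit 0) (nat_lit 437) (nat_lit 438) (nat_lit 205)) (XT.nd (nat_lit 94) (nat_lit 0) (nat_lit 0) (XT.lf (nat_lit 0) (nat_lit 434463007745) (nat_lit 0) (nat_lit 0) (nat_lit 0) (nat_lit 0) (nat_lit 0) (nat_lit 0) (nat_lit 1) (nat_lit 0) (nat_lit 1) (nat_lit 0) (nat_lit 438) (nat_lit 438) (nat_lit 204)) (XT.lf (nat_lit 0) (nat_lit 434463007259) (nat_lit 0) (nat_lit 0) (nat_lit 0) (nat_lit 0) (nat_lit 0) (nat_lit 0) (nat_lit 1) (nat_lit 0) (nat_lit 1) (nat_lit 0) (nat_lit 439) (nat_lit 438) (nat_lit 203)))))) (XT.nd (nat_lit 470) (nat_lit 0) (nat_lit 0) (XT.nd (nat_lit 188) (nat_lit 0) (nat_lit 0) (XT.nd (nat_lit 94) (nat_lit 0) (nat_lit 0) (XT.lf (nat_lit 0) (nat_lit 434463006809) (nat_lit 0) (nat_lit 0) (nat_lit 0) (nat_lit 0) (nat_lit 0) (nat_lit 0) (nat_lit 1) (nat_lit 0) (nat_lit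 1) (nat_lit 0) (nat_lit 440) (nat_lit 438) (nat_lit 202)) (XT.lf (nat_lit 0) (nat_lit 434463006392) (nat_lit 0) (nat_lit 0) (nat_lit 0) (nat_lit 0) (nat_lit 0) (nat_lit 0) (nat_lit 1) (nat_lit 0) (nat_lit 1) (nat_lit 0) (nat_lit 441) (nat_lit 438) (nat_lit 201))) (XT.nd (nat_lit 94) (nat_lit 0) (nat_lit 0) (XT.lf (nat_lit 0) (nat_lit 434463006007) (nat_lit 0) (nat_lit 0) (nat_lit 0) (nat_lit 0) (nat_lit 0) (nat_lit 0) (nat_lit 1) (nat_lit 0) (nat_lit 1) (nat_lit 0) (nat_lit 442) (nat_lit 438) (nat_lit 200)) (XT.nd (nat_lit 94) (nat_lit 0) (nat_lit 0) (XT.lf (nat_lit 0) (nat_lit 434463005650) (nat_lit 0) (nat_lit 0) (nat_lit 0) (nat_lit 0) (nat_lit 0) (nat_lit 0) (nat_lit 1) (nat_lit 0) (nat_lit 1) (nat_lit 0) (nat_lit 443) (nat_lit 438) (nat_lit 199)) (XT.lf (nat_lit 0) (nat_lit 434463005319) (nat_lit 0) (nat_lit 0) (nat_lit 0) (nat_lit 0) (nat_lit 0) (nat_lit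 0) (nat_lit 1) (nat_lit 0) (nat_lit 1) (nat_lit 0) (nat_lit 444) (nat_lit 438) (nat_lit 198))))) (XT.nd (nat_lit 188) (nat_lit 0) (nat_lit 0) (XT.nd (nat_lit 94) (nat_lit 0) (nat_lit 0) (XT.lf (nat_lit 0) (nat_lit 434463005013) (nat_lit 0) (nat_lit 0) (nat_lit 0) (nat_lit 0) (nat_lit 0) (nat_lit 0) (nat_lit 1) (nat_lit 0) (nat_lit 1) (nat_lit 0) (nat_lit 445) (nat_lit 438) (nat_lit 197)) (XT.lf (nat_lit 0) (nat_lit 434463004729) (nat_lit 0) (nat_lit 0) (nat_lit 0) (nat_lit 0) (nat_lit 0) (nat_lit 0) (nat_lit 1) (nat_lit 0) (nat_lit 1) (nat_lit 0) (nat_lit 446) (nat_lit 438) (nat_lit 196))) (XT.nd (nat_lit 44744) (nat_lit 0) (nat_lit 10752) (XT.lf (nat_lit 0) (nat_lit 434463004467) (nat_lit 0) (nat_lit 0) (nat_lit 0) (nat_lit 0) (nat_lit 0) (nat_lit 0) (nat_lit 1) (nat_lit 0) (nat_lit 1) (nat_lit 0) (nat_lit 447) (nat_lit 438) (nat_lit 195)) (XT.nd (nat_lit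 94) (nat_lit 0) (nat_lit 84) (XT.lf (nat_lit 924) (nat_lit 234815284514) (nat_lit 0) (nat_lit 416913997910) (nat_lit 924) (nat_lit 234815284514) (nat_lit 139) (nat_lit 1) (nat_lit 128) (nat_lit 0) (nat_lit 139) (nat_lit 0) (nat_lit 202) (nat_lit 439) (nat_lit 439)) (XT.lf (nat_lit 924) (nat_lit 87593306228) (nat_lit 0) (nat_lit 818528534637) (nat_lit 840) (nat_lit 800518172231) (nat_lit 140) (nat_lit 1) (nat_lit 129) (nat_lit 1) (nat_lit 139) (nat_lit 1) (nat_lit 203) (nat_lit 439) (nat_lit 438))))))) (XT.nd (nat_lit 846) (nat_lit 2940) (nat_lit 0) (XT.nd (nat_lit 376) (nat_lit 1932) (nat_lit 0) (XT.nd (nat_lit 188) (nat_lit 0) (nat_lit 168) (XT.nd (nat_lit 94) (nat_lit 0) (nat_lit 84) (XT.lf (nat_lit 924) (nat_lit 804493958117) (nat_lit 84) (nat_lit 548168835554) (nat_lit 0) (nat_lit 290723745053) (nat_lit 140) (nat_lit 1) (nat_lit 130) (nat_lit 1) (nat_lit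 129) (nat_lit 1) (nat_lit 204) (nat_lit 439) (nat_lit 437)) (XT.lf (nat_lit 924) (nat_lit 695148684907) (nat_lit 84) (nat_lit 229733759433) (nat_lit 0) (nat_lit 658415984307) (nat_lit 141) (nat_lit 1) (nat_lit 131) (nat_lit 1) (nat_lit 130) (nat_lit 1) (nat_lit 205) (nat_lit 439) (nat_lit 436))) (XT.nd (nat_lit 94) (nat_lit 0) (nat_lit 84) (XT.lf (nat_lit 924) (nat_lit 514469126320) (nat_lit 0) (nat_lit 962547417442) (nat_lit 840) (nat_lit 49205286459) (nat_lit 142) (nat_lit 1) (nat_lit 131) (nat_lit 1) (nat_lit 141) (nat_lit 1) (nat_lit 206) (nat_lit 439) (nat_lit 435)) (XT.lf (nat_lit 924) (nat_lit 123441822629) (nat_lit 0) (nat_lit 1061475933773) (nat_lit 840) (nat_lit 286953282502) (nat_lit 143) (nat_lit 1) (nat_lit 132) (nat_lit 1) (nat_lit 142) (nat_lit 1) (nat_lit 207) (nat_lit 439) (nat_lit 434)))) (XT.nd (nat_lit 188) (nat_lit 1428) (nat_lit 0) (XT.nd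 (nat_lit 94) (nat_lit 756) (nat_lit 0) (XT.lf (nat_lit 924) (nat_lit 237204975055) (nat_lit 84) (nat_lit 922509026144) (nat_lit 0) (nat_lit 260343428777) (nat_lit 143) (nat_lit 1) (nat_lit 133) (nat_lit 1) (nat_lit 132) (nat_lit 1) (nat_lit 208) (nat_lit 439) (nat_lit 433)) (XT.lf (nat_lit 924) (nat_lit 48716492877) (nat_lit 0) (nat_lit 689636518669) (nat_lit 840) (nat_lit 632389461720) (nat_lit 134) (nat_lit 1) (nat_lit 123) (nat_lit 1) (nat_lit 133) (nat_lit 1) (nat_lit 209) (nat_lit 439) (nat_lit 432))) (XT.nd (nat_lit 94) (nat_lit 840) (nat_lit 0) (XT.lf (nat_lit 84) (nat_lit 337323144731) (nat_lit 0) (nat_lit 146177816359) (nat_lit 588) (nat_lit 840261571048) (nat_lit 117) (nat_lit 1) (nat_lit 116) (nat_lit 1) (nat_lit 123) (nat_lit 1) (nat_lit 210) (nat_lit 439) (nat_lit 431)) (XT.nd (nat_lit 94) (nat_lit 420) (nat_lit 0) (XT.lf (nat_lit 504) (nat_lit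 929620129091) (nat_lit 0) (nat_lit 302611393011) (nat_lit 420) (nat_lit 46785591167) (nat_lit 117) (nat_lit 1) (nat_lit 111) (nat_lit 1) (nat_lit 116) (nat_lit 1) (nat_lit 211) (nat_lit 439) (nat_lit 430)) (XT.lf (nat_lit 504) (nat_lit 670822737666) (nat_lit 0) (nat_lit 141048473824) (nat_lit 420) (nat_lit 424324455910) (nat_lit 112) (nat_lit 1) (nat_lit 106) (nat_lit 1) (nat_lit 111) (nat_lit 1) (nat_lit 212) (nat_lit 439) (nat_lit 429)))))) (XT.nd (nat_lit 470) (nat_lit 1512) (nat_lit 0) (XT.nd (nat_lit 188) (nat_lit 1092) (nat_lit 0) (XT.nd (nat_lit 94) (nat_lit 0) (nat_lit 0) (XT.lf (nat_lit 420) (nat_lit 408187080238) (nat_lit 0) (nat_lit 2596931619) (nat_lit 336) (nat_lit 784666528479) (nat_lit 107) (nat_lit 1) (nat_lit 102) (nat_lit 1) (nat_lit 106) (nat_lit 1) (nat_lit 213) (nat_lit 439) (nat_lit 428)) (XT.lf (nat_lit 84) (nat_lit 30114113693) (nat_lit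 0) (nat_lit 1015593834178) (nat_lit 420) (nat_lit 110871813997) (nat_lit 103) (nat_lit 1) (nat_lit 102) (nat_lit 1) (nat_lit 107) (nat_lit 1) (nat_lit 214) (nat_lit 439) (nat_lit 427))) (XT.nd (nat_lit 94) (nat_lit 672) (nat_lit 0) (XT.lf (nat_lit 84) (nat_lit 777554226246) (nat_lit 0) (nat_lit 128965688202) (nat_lit 420) (nat_lit 212687841790) (nat_lit 98) (nat_lit 1) (nat_lit 97) (nat_lit 1) (nat_lit 102) (nat_lit 1) (nat_lit 215) (nat_lit 439) (nat_lit 426)) (XT.nd (nat_lit 94) (nat_lit 336) (nat_lit 0) (XT.lf (nat_lit 84) (nat_lit 389030083119) (nat_lit 0) (nat_lit 395044796467) (nat_lit 420) (nat_lit 299412156784) (nat_lit 94) (nat_lit 1) (nat_lit 93) (nat_lit 1) (nat_lit 98) (nat_lit 1) (nat_lit 216) (nat_lit 439) (nat_lit 425)) (XT.lf (nat_lit 84) (nat_lit 19201662243) (nat_lit 0) (nat_lit 660508765518) (nat_lit 420) (nat_lit 369747146769) (nat_lit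 90) (nat_lit 1) (nat_lit 89) (nat_lit 1) (nat_lit 94) (nat_lit 1) (nat_lit 217) (nat_lit 439) (nat_lit 424))))) (XT.nd (nat_lit 188) (nat_lit 840) (nat_lit 0) (XT.nd (nat_lit 94) (nat_lit 420) (nat_lit 0) (XT.lf (nat_lit 336) (nat_lit 86713624492) (nat_lit 0) (nat_lit 586402735282) (nat_lit 252) (nat_lit 343645479880) (nat_lit 90) (nat_lit 1) (nat_lit 86) (nat_lit 1) (nat_lit 89) (nat_lit 1) (nat_lit 218) (nat_lit 439) (nat_lit 423)) (XT.lf (nat_lit 84) (nat_lit 299618886420) (nat_lit 0) (nat_lit 205360646503) (nat_lit 420) (nat_lit 480437291940) (nat_lit 82) (nat_lit 1) (nat_lit 81) (nat_lit 1) (nat_lit 86) (nat_lit 1) (nat_lit 219) (nat_lit 439) (nat_lit 422))) (XT.nd (nat_lit 94) (nat_lit 588) (nat_lit 0) (XT.lf (nat_lit 336) (nat_lit 463882103867) (nat_lit 0) (nat_lit 435757281233) (nat_lit 252) (nat_lit 55776414829) (nat_lit 82) (nat_lit 1) (nat_lit 78)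 (nat_lit 1) (nat_lit 81) (nat_lit 1) (nat_lit 220) (nat_lit 439) (nat_lit 421)) (XT.nd (nat_lit 94) (nat_lit 336) (nat_lit 0) (XT.lf (nat_lit 336) (nat_lit 148671973246) (nat_lit 0) (nat_lit 375169175055) (nat_lit 252) (nat_lit 402726574459) (nat_lit 79) (nat_lit 1) (nat_lit 75) (nat_lit 1) (nat_lit 78) (nat_lit 1) (nat_lit 221) (nat_lit 439) (nat_lit 420)) (XT.lf (nat_lit 84) (nat_lit 169450125563) (nat_lit 0) (nat_lit 155146315495) (nat_lit 336) (nat_lit 574321319497) (nat_lit 72) (nat_lit 1) (nat_lit 71) (nat_lit 1) (nat_lit 75) (nat_lit 1) (nat_lit 222) (nat_lit 439) (nat_lit 419))))))))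
noncomputable def ec360 : XT := (XT.nd (nat_lit 1692) (nat_lit 2604) (nat_lit 0) (XT.nd (nat_lit 846) (nat_lit 1428) (nat_lit 0) (XT.nd (nat_lit 376) (nat_lit 1008) (nat_lit 0) (XT.nd (nat_lit 188) (nat_lit 504) (nat_lit 0) (XT.nd (nat_lit 94) (nat_lit 168) (nat_lit 0) (XT.lf (nat_lit 336) (nat_lit 421654397188) (nat_lit 0) (nat_lit 280553210586) (nat_lit 252) (nat_lit 170072278670) (nat_lit 72) (nat_lit 1) (nat_lit 68) (nat_lit 1) (nat_lit 71) (nat_lit 1) (nat_lit 223) (nat_lit 439) (nat_lit 418)) (XT.lf (nat_lit 252) (nat_lit 104528747664) (nat_lit 0) (nat_lit 244762212629) (nat_lit 168) (nat_lit 497425698200) (nat_lit 69) (nat_lit 1) (nat_lit 66) (nat_lit 1) (nat_lit 68) (nat_lit 1) (nat_lit 224) (nat_lit 439) (nat_lit 417))) (XT.nd (nat_lit 94) (nat_lit 168) (nat_lit 0) (XT.lf (nat_lit 84) (nat_lit 17707837665) (nat_lit 0) (nat_lit 198154547652) (nat_lit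 336) (nat_lit 606281943284) (nat_lit 63) (nat_lit 1) (nat_lit 62) (nat_lit 1) (nat_lit 66) (nat_lit 1) (nat_lit 225) (nat_lit 439) (nat_lit 416)) (XT.lf (nat_lit 252) (nat_lit 303741361038) (nat_lit 0) (nat_lit 189812292727) (nat_lit 168) (nat_lit 304798384031) (nat_lit 63) (nat_lit 1) (nat_lit 60) (nat_lit 1) (nat_lit 62) (nat_lit 1) (nat_lit 226) (nat_lit 439) (nat_lit 415)))) (XT.nd (nat_lit 188) (nat_lit 588) (nat_lit 0) (XT.nd (nat_lit 94) (nat_lit 168) (nat_lit 0) (XT.lf (nat_lit 84) (nat_lit 164797369070) (nat_lit 0) (nat_lit 7612093796) (nat_lit 252) (nat_lit 603188497713) (nat_lit 58) (nat_lit 1) (nat_lit 57) (nat_lit 1) (nat_lit 60) (nat_lit 1) (nat_lit 227) (nat_lit 439) (nat_lit 414)) (XT.lf (nat_lit 252) (nat_lit 450524183906) (nat_lit 0) (nat_lit 156116731323) (nat_lit 168) (nat_lit 146864868041) (nat_lit 58) (nat_lit 1) (nat_lit 55) (nat_lit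 1) (nat_lit 57) (nat_lit 1) (nat_lit 228) (nat_lit 439) (nat_lit 413))) (XT.nd (nat_lit 94) (nat_lit 420) (nat_lit 0) (XT.lf (nat_lit 252) (nat_lit 139950865286) (nat_lit 0) (nat_lit 145127765416) (nat_lit 168) (nat_lit 447179655889) (nat_lit 56) (nat_lit 1) (nat_lit 53) (nat_lit 1) (nat_lit 55) (nat_lit 1) (nat_lit 229) (nat_lit 439) (nat_lit 412)) (XT.nd (nat_lit 94) (nat_lit 168) (nat_lit 0) (XT.lf (nat_lit 252) (nat_lit 555553501796) (nat_lit 0) (nat_lit 138657800550) (nat_lit 168) (nat_lit 17590350662) (nat_lit 53) (nat_lit 1) (nat_lit 50) (nat_lit 1) (nat_lit 52) (nat_lit 1) (nat_lit 230) (nat_lit 439) (nat_lit 411)) (XT.lf (nat_lit 252) (nat_lit 248639999676) (nat_lit 0) (nat_lit 132371451502) (nat_lit 168) (nat_lit 310901993526) (nat_lit 51) (nat_lit 1) (nat_lit 48) (nat_lit 1) (nat_lit 50) (nat_lit 1) (nat_lit 231) (nat_lit 439) (nat_lit 410))))))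 (XT.nd (nat_lit 376) (nat_lit 756) (nat_lit 0) (XT.nd (nat_lit 188) (nat_lit 336) (nat_lit 0) (XT.nd (nat_lit 94) (nat_lit 168) (nat_lit 0) (XT.lf (nat_lit 84) (nat_lit 85168799611) (nat_lit 0) (nat_lit 46812610086) (nat_lit 168) (nat_lit 540868738191) (nat_lit 47) (nat_lit 1) (nat_lit 46) (nat_lit 1) (nat_lit 48) (nat_lit 1) (nat_lit 232) (nat_lit 439) (nat_lit 409)) (XT.lf (nat_lit 252) (nat_lit 326229979036) (nat_lit 0) (nat_lit 130583873480) (nat_lit 168) (nat_lit 197454042727) (nat_lit 47) (nat_lit 1) (nat_lit 44) (nat_lit 1) (nat_lit 46) (nat_lit 1) (nat_lit 233) (nat_lit 439) (nat_lit 408))) (XT.nd (nat_lit 94) (nat_lit 252) (nat_lit 0) (XT.lf (nat_lit 168) (nat_lit 35130333073) (nat_lit 0) (nat_lit 133791182162) (nat_lit 84) (nat_lit 467497730783) (nat_lit 45) (nat_lit 1) (nat_lit 43) (nat_lit 1) (nat_lit 44) (nat_lit 1) (nat_lit 234) (nat_lit 439)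 (nat_lit 407)) (XT.lf (nat_lit 252) (nat_lit 379218975563) (nat_lit 0) (nat_lit 136832676716) (nat_lit 168) (nat_lit 103011086887) (nat_lit 43) (nat_lit 1) (nat_lit 40) (nat_lit 1) (nat_lit 42) (nat_lit 1) (nat_lit 235) (nat_lit 439) (nat_lit 406)))) (XT.nd (nat_lit 188) (nat_lit 420) (nat_lit 0) (XT.nd (nat_lit 94) (nat_lit 252) (nat_lit 0) (XT.lf (nat_lit 168) (nat_lit 95376368706) (nat_lit 0) (nat_lit 141948988381) (nat_lit 84) (nat_lit 364965824373) (nat_lit 41) (nat_lit 1) (nat_lit 39) (nat_lit 1) (nat_lit 40) (nat_lit 1) (nat_lit 236) (nat_lit 439) (nat_lit 405)) (XT.lf (nat_lit 252) (nat_lit 412860844483) (nat_lit 0) (nat_lit 148795230087) (nat_lit 168) (nat_lit 24418571015) (nat_lit 39) (nat_lit 1) (nat_lit 36) (nat_lit 1) (nat_lit 38) (nat_lit 1) (nat_lit 237) (nat_lit 439) (nat_lit 404))) (XT.nd (nat_lit 94) (nat_lit 336) (nat_lit 0) (XT.lf (nat_lit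 168) (nat_lit 137259679442) (nat_lit 0) (nat_lit 155120815324) (nat_lit 84) (nat_lit 277912336986) (nat_lit 37) (nat_lit 1) (nat_lit 35) (nat_lit 1) (nat_lit 36) (nat_lit 1) (nat_lit 238) (nat_lit 439) (nat_lit 403)) (XT.nd (nat_lit 94) (nat_lit 84) (nat_lit 0) (XT.lf (nat_lit 84) (nat_lit 39618605918) (nat_lit 0) (nat_lit 124352243191) (nat_lit 252) (nat_lit 391107131538) (nat_lit 33) (nat_lit 1) (nat_lit 32) (nat_lit 1) (nat_lit 35) (nat_lit 1) (nat_lit 239) (nat_lit 439) (nat_lit 402)) (XT.lf (nat_lit 168) (nat_lit 164723999276) (nat_lit 0) (nat_lit 171634599505) (nat_lit 84) (nat_lit 203882382222) (nat_lit 33) (nat_lit 1) (nat_lit 31) (nat_lit 1) (nat_lit 32) (nat_lit 1) (nat_lit 240) (nat_lit 439) (nat_lit 401))))))) (XT.nd (nat_lit 846) (nat_lit 1344) (nat_lit 0) (XT.nd (nat_lit 376) (nat_lit 672) (nat_lit 0) (XT.nd (nat_lit 188) (nat_lit 252) (nat_lit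 0) (XT.nd (nat_lit 94) (nat_lit 84) (nat_lit 0) (XT.lf (nat_lit 84) (nat_lit 92138125362) (nat_lit 0) (nat_lit 89242004777) (nat_lit 252) (nat_lit 344545259728) (nat_lit 29) (nat_lit 1) (nat_lit 28) (nat_lit 1) (nat_lit 31) (nat_lit 1) (nat_lit 241) (nat_lit 439) (nat_lit 400)) (XT.lf (nat_lit 168) (nat_lit 180949682816) (nat_lit 0) (nat_lit 190185106645) (nat_lit 84) (nat_lit 140840767202) (nat_lit 29) (nat_lit 1) (nat_lit 27) (nat_lit 1) (nat_lit 28) (nat_lit 1) (nat_lit 242) (nat_lit 439) (nat_lit 399))) (XT.nd (nat_lit 94) (nat_lit 84) (nat_lit 0) (XT.lf (nat_lit 84) (nat_lit 135648626562) (nat_lit 0) (nat_lit 64634143413) (nat_lit 168) (nat_lit 298203652158) (nat_lit 26) (nat_lit 1) (nat_lit 25) (nat_lit 1) (nat_lit 27) (nat_lit 1) (nat_lit 243) (nat_lit 439) (nat_lit 398)) (XT.lf (nat_lit 168) (nat_lit 188496347986) (nat_lit 0) (nat_lit 209762438268)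 (nat_lit 84) (nat_lit 87097127895) (nat_lit 26) (nat_lit 1) (nat_lit 24) (nat_lit 1) (nat_lit 25) (nat_lit 1) (nat_lit 244) (nat_lit 439) (nat_lit 397)))) (XT.nd (nat_lit 188) (nat_lit 420) (nat_lit 0) (XT.nd (nat_lit 94) (nat_lit 84) (nat_lit 0) (XT.lf (nat_lit 84) (nat_lit 171582900225) (nat_lit 0) (nat_lit 48217913769) (nat_lit 168) (nat_lit 252828472864) (nat_lit 23) (nat_lit 1) (nat_lit 22) (nat_lit 1) (nat_lit 24) (nat_lit 1) (nat_lit 245) (nat_lit 439) (nat_lit 396)) (XT.lf (nat_lit 168) (nat_lit 189419185941) (nat_lit 0) (nat_lit 229593928370) (nat_lit 84) (nat_lit 41244661842) (nat_lit 23) (nat_lit 1) (nat_lit 21) (nat_lit 1) (nat_lit 22) (nat_lit 1) (nat_lit 246) (nat_lit 439) (nat_lit 395))) (XT.nd (nat_lit 94) (nat_lit 252) (nat_lit 0) (XT.lf (nat_lit 84) (nat_lit 201131755311) (nat_lit 0) (nat_lit 38135261775) (nat_lit 168) (nat_lit 208970139785)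 (nat_lit 20) (nat_lit 1) (nat_lit 19) (nat_lit 1) (nat_lit 21) (nat_lit 1) (nat_lit 247) (nat_lit 439) (nat_lit 394)) (XT.nd (nat_lit 94) (nat_lit 168) (nat_lit 0) (XT.lf (nat_lit 168) (nat_lit 185363779548) (nat_lit 0) (nat_lit 249096956317) (nat_lit 84) (nat_lit 2109971979) (nat_lit 20) (nat_lit 1) (nat_lit 18) (nat_lit 1) (nat_lit 19) (nat_lit 1) (nat_lit 248) (nat_lit 439) (nat_lit 393)) (XT.lf (nat_lit 84) (nat_lit 225286852159) (nat_lit 0) (nat_lit 32895823756) (nat_lit 168) (nat_lit 167023214464) (nat_lit 17) (nat_lit 1) (nat_lit 16) (nat_lit 1) (nat_lit 18) (nat_lit 1) (nat_lit 249) (nat_lit 439) (nat_lit 392)))))) (XT.nd (nat_lit 470) (nat_lit 756) (nat_lit 0) (XT.nd (nat_lit 188) (nat_lit 336) (nat_lit 0) (XT.nd (nat_lit 94) (nat_lit 168) (nat_lit 0) (XT.lf (nat_lit 0) (nat_lit 30286597327) (nat_lit 0) (nat_lit 237041141565) (nat_lit 168) (nat_lit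 146843867421) (nat_lit 15) (nat_lit 3) (nat_lit 15) (nat_lit 1) (nat_lit 17) (nat_lit 1) (nat_lit 250) (nat_lit 439) (nat_lit 391)) (XT.lf (nat_lit 84) (nat_lit 244875782224) (nat_lit 0) (nat_lit 31307645684) (nat_lit 168) (nat_lit 127258719160) (nat_lit 14) (nat_lit 1) (nat_lit 13) (nat_lit 1) (nat_lit 15) (nat_lit 1) (nat_lit 251) (nat_lit 439) (nat_lit 390))) (XT.nd (nat_lit 94) (nat_lit 252) (nat_lit 0) (XT.lf (nat_lit 0) (nat_lit 57858605547) (nat_lit 0) (nat_lit 226676412261) (nat_lit 168) (nat_lit 108463419703) (nat_lit 12) (nat_lit 3) (nat_lit 12) (nat_lit 1) (nat_lit 14) (nat_lit 1) (nat_lit 252) (nat_lit 439) (nat_lit 389)) (XT.nd (nat_lit 94) (nat_lit 84) (nat_lit 0) (XT.lf (nat_lit 84) (nat_lit 260590810326) (nat_lit 0) (nat_lit 32420730520) (nat_lit 168) (nat_lit 89850286427) (nat_lit 11) (nat_lit 1) (nat_lit 10) (nat_lit 1) (nat_lit 12) (nat_lit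 1) (nat_lit 253) (nat_lit 439) (nat_lit 388)) (XT.lf (nat_lit 0) (nat_lit 81342760375) (nat_lit 0) (nat_lit 219184721569) (nat_lit 168) (nat_lit 72444777931) (nat_lit 9) (nat_lit 3) (nat_lit 9) (nat_lit 1) (nat_lit 11) (nat_lit 1) (nat_lit 254) (nat_lit 439) (nat_lit 387))))) (XT.nd (nat_lit 188) (nat_lit 504) (nat_lit 0) (XT.nd (nat_lit 94) (nat_lit 84) (nat_lit 0) (XT.lf (nat_lit 84) (nat_lit 273012435905) (nat_lit 0) (nat_lit 35481052719) (nat_lit 168) (nat_lit 54895287475) (nat_lit 8) (nat_lit 1) (nat_lit 7) (nat_lit 1) (nat_lit 9) (nat_lit 1) (nat_lit 255) (nat_lit 439) (nat_lit 386)) (XT.lf (nat_lit 0) (nat_lit 101303244360) (nat_lit 0) (nat_lit 213853019977) (nat_lit 168) (nat_lit 38863714297) (nat_lit 6) (nat_lit 3) (nat_lit 6) (nat_lit 1) (nat_lit 8) (nat_lit 1) (nat_lit 256) (nat_lit 439) (nat_lit 385))) (XT.nd (nat_lit 94) (nat_lit 336) (nat_lit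 0) (XT.lf (nat_lit 84) (nat_lit 282628717975) (nat_lit 0) (nat_lit 39893112592) (nat_lit 168) (nat_lit 22431874385) (nat_lit 5) (nat_lit 1) (nat_lit 4) (nat_lit 1) (nat_lit 6) (nat_lit 1) (nat_lit 257) (nat_lit 439) (nat_lit 384)) (XT.nd (nat_lit 94) (nat_lit 252) (nat_lit 0) (XT.lf (nat_lit 0) (nat_lit 118217221382) (nat_lit 0) (nat_lit 210115594575) (nat_lit 168) (nat_lit 7742171404) (nat_lit 3) (nat_lit 3) (nat_lit 3) (nat_lit 1) (nat_lit 5) (nat_lit 1) (nat_lit 258) (nat_lit 439) (nat_lit 383)) (XT.lf (nat_lit 0) (nat_lit 475057482100) (nat_lit 0) (nat_lit 0) (nat_lit 0) (nat_lit 0) (nat_lit 0) (nat_lit 0) (nat_lit 1) (nat_lit 0) (nat_lit 1) (nat_lit 0) (nat_lit 259) (nat_lit 439) (nat_lit 382))))))))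
noncomputable def ec361 : XT := (XT.nd (nat_lit 1786) (nat_lit 0) (nat_lit 0) (XT.nd (nat_lit 846) (nat_lit 0) (nat_lit 0) (XT.nd (nat_lit 376) (nat_lit 0) (nat_lit 0) (XT.nd (nat_lit 188) (nat_lit 0) (nat_lit 0) (XT.nd (nat_lit 94) (nat_lit 0) (nat_lit 0) (XT.lf (nat_lit 0) (nat_lit 474625079076) (nat_lit 0) (nat_lit 0) (nat_lit 0) (nat_lit 0) (nat_lit 0) (nat_lit 0) (nat_lit 1) (nat_lit 0) (nat_lit 1) (nat_lit 0) (nat_lit 260) (nat_lit 439) (nat_lit 381)) (XT.lf (nat_lit 0) (nat_lit 474224705906) (nat_lit 0) (nat_lit 0) (nat_lit 0) (nat_lit 0) (nat_lit 0) (nat_lit 0) (nat_lit 1) (nat_lit 0) (nat_lit 1) (nat_lit 0) (nat_lit 261) (nat_lit 439) (nat_lit 380))) (XT.nd (nat_lit 94) (nat_lit 0) (nat_lit 0) (XT.lf (nat_lit 0) (nat_lit 473853990008) (nat_lit 0) (nat_lit 0) (nat_lit 0) (nat_lit 0) (nat_lit 0) (nat_lit 0) (nat_lit 1) (nat_lit 0) (nat_lit 1) (nat_lit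 0) (nat_lit 262) (nat_lit 439) (nat_lit 379)) (XT.lf (nat_lit 0) (nat_lit 473510734547) (nat_lit 0) (nat_lit 0) (nat_lit 0) (nat_lit 0) (nat_lit 0) (nat_lit 0) (nat_lit 1) (nat_lit 0) (nat_lit 1) (nat_lit 0) (nat_lit 263) (nat_lit 439) (nat_lit 378)))) (XT.nd (nat_lit 188) (nat_lit 0) (nat_lit 0) (XT.nd (nat_lit 94) (nat_lit 0) (nat_lit 0) (XT.lf (nat_lit 0) (nat_lit 473192905416) (nat_lit 0) (nat_lit 0) (nat_lit 0) (nat_lit 0) (nat_lit 0) (nat_lit 0) (nat_lit 1) (nat_lit 0) (nat_lit 1) (nat_lit 0) (nat_lit 264) (nat_lit 439) (nat_lit 377)) (XT.lf (nat_lit 0) (nat_lit 472898619184) (nat_lit 0) (nat_lit 0) (nat_lit 0) (nat_lit 0) (nat_lit 0) (nat_lit 0) (nat_lit 1) (nat_lit 0) (nat_lit 1) (nat_lit 0) (nat_lit 265) (nat_lit 439) (nat_lit 376))) (XT.nd (nat_lit 94) (nat_lit 0) (nat_lit 0) (XT.lf (nat_lit 0) (nat_lit 472626131932) (nat_lit 0) (nat_lit 0) (nat_lit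 0) (nat_lit 0) (nat_lit 0) (nat_lit 0) (nat_lit 1) (nat_lit 0) (nat_lit 1) (nat_lit 0) (nat_lit 266) (nat_lit 439) (nat_lit 375)) (XT.nd (nat_lit 94) (nat_lit 0) (nat_lit 0) (XT.lf (nat_lit 0) (nat_lit 472373828921) (nat_lit 0) (nat_lit 0) (nat_lit 0) (nat_lit 0) (nat_lit 0) (nat_lit 0) (nat_lit 1) (nat_lit 0) (nat_lit 1) (nat_lit 0) (nat_lit 267) (nat_lit 439) (nat_lit 374)) (XT.lf (nat_lit 0) (nat_lit 472140215021) (nat_lit 0) (nat_lit 0) (nat_lit 0) (nat_lit 0) (nat_lit 0) (nat_lit 0) (nat_lit 1) (nat_lit 0) (nat_lit 1) (nat_lit 0) (nat_lit 268) (nat_lit 439) (nat_lit 373)))))) (XT.nd (nat_lit 470) (nat_lit 0) (nat_lit 0) (XT.nd (nat_lit 188) (nat_lit 0) (nat_lit 0) (XT.nd (nat_lit 94) (nat_lit 0) (nat_lit 0) (XT.lf (nat_lit 0) (nat_lit 471923905855) (nat_lit 0) (nat_lit 0) (nat_lit 0) (nat_lit 0) (nat_lit 0) (nat_lit 0) (nat_lit 1) (nat_lit 0) (nat_lit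 1) (nat_lit 0) (nat_lit 269) (nat_lit 439) (nat_lit 372)) (XT.lf (nat_lit 0) (nat_lit 471723619591) (nat_lit 0) (nat_lit 0) (nat_lit 0) (nat_lit 0) (nat_lit 0) (nat_lit 0) (nat_lit 1) (nat_lit 0) (nat_lit 1) (nat_lit 0) (nat_lit 270) (nat_lit 439) (nat_lit 371))) (XT.nd (nat_lit 94) (nat_lit 0) (nat_lit 0) (XT.lf (nat_lit 0) (nat_lit 471538169346) (nat_lit 0) (nat_lit 0) (nat_lit 0) (nat_lit 0) (nat_lit 0) (nat_lit 0) (nat_lit 1) (nat_lit 0) (nat_lit 1) (nat_lit 0) (nat_lit 271) (nat_lit 439) (nat_lit 370)) (XT.nd (nat_lit 94) (nat_lit 0) (nat_lit 0) (XT.lf (nat_lit 0) (nat_lit 471366456156) (nat_lit 0) (nat_lit 0) (nat_lit 0) (nat_lit 0) (nat_lit 0) (nat_lit 0) (nat_lit 1) (nat_lit 0) (nat_lit 1) (nat_lit 0) (nat_lit 272) (nat_lit 439) (nat_lit 369)) (XT.lf (nat_lit 0) (nat_lit 471207462461) (nat_lit 0) (nat_lit 0) (nat_lit 0) (nat_lit 0) (nat_lit 0) (nat_lit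 0) (nat_lit 1) (nat_lit 0) (nat_lit 1) (nat_lit 0) (nat_lit 273) (nat_lit 439) (nat_lit 368))))) (XT.nd (nat_lit 188) (nat_lit 0) (nat_lit 0) (XT.nd (nat_lit 94) (nat_lit 0) (nat_lit 0) (XT.lf (nat_lit 0) (nat_lit 471060246077) (nat_lit 0) (nat_lit 0) (nat_lit 0) (nat_lit 0) (nat_lit 0) (nat_lit 0) (nat_lit 1) (nat_lit 0) (nat_lit 1) (nat_lit 0) (nat_lit 274) (nat_lit 439) (nat_lit 367)) (XT.lf (nat_lit 0) (nat_lit 470923934611) (nat_lit 0) (nat_lit 0) (nat_lit 0) (nat_lit 0) (nat_lit 0) (nat_lit 0) (nat_lit 1) (nat_lit 0) (nat_lit 1) (nat_lit 0) (nat_lit 275) (nat_lit 439) (nat_lit 366))) (XT.nd (nat_lit 94) (nat_lit 0) (nat_lit 0) (XT.lf (nat_lit 0) (nat_lit 470797720290) (nat_lit 0) (nat_lit 0) (nat_lit 0) (nat_lit 0) (nat_lit 0) (nat_lit 0) (nat_lit 1) (nat_lit 0) (nat_lit 1) (nat_lit 0) (nat_lit 276) (nat_lit 439) (nat_lit 365)) (XT.nd (nat_lit 94) (nat_lit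 0) (nat_lit 0) (XT.lf (nat_lit 0) (nat_lit 470680855179) (nat_lit 0) (nat_lit 0) (nat_lit 0) (nat_lit 0) (nat_lit 0) (nat_lit 0) (nat_lit 1) (nat_lit 0) (nat_lit 1) (nat_lit 0) (nat_lit 277) (nat_lit 439) (nat_lit 364)) (XT.lf (nat_lit 0) (nat_lit 470572646742) (nat_lit 0) (nat_lit 0) (nat_lit 0) (nat_lit 0) (nat_lit 0) (nat_lit 0) (nat_lit 1) (nat_lit 0) (nat_lit 1) (nat_lit 0) (nat_lit 278) (nat_lit 439) (nat_lit 363))))))) (XT.nd (nat_lit 846) (nat_lit 0) (nat_lit 0) (XT.nd (nat_lit 376) (nat_lit 0) (nat_lit 0) (XT.nd (nat_lit 188) (nat_lit 0) (nat_lit 0) (XT.nd (nat_lit 94) (nat_lit 0) (nat_lit 0) (XT.lf (nat_lit 0) (nat_lit 470472453745) (nat_lit 0) (nat_lit 0) (nat_lit 0) (nat_lit 0) (nat_lit 0) (nat_lit 0) (nat_lit 1) (nat_lit 0) (nat_lit 1) (nat_lit 0) (nat_lit 279) (nat_lit 439) (nat_lit 362)) (XT.lf (nat_lit 0) (nat_lit 470379682451) (nat_lit 0)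 (nat_lit 0) (nat_lit 0) (nat_lit 0) (nat_lit 0) (nat_lit 0) (nat_lit 1) (nat_lit 0) (nat_lit 1) (nat_lit 0) (nat_lit 280) (nat_lit 439) (nat_lit 361))) (XT.nd (nat_lit 94) (nat_lit 0) (nat_lit 0) (XT.lf (nat_lit 0) (nat_lit 470293783105) (nat_lit 0) (nat_lit 0) (nat_lit 0) (nat_lit 0) (nat_lit 0) (nat_lit 0) (nat_lit 1) (nat_lit 0) (nat_lit 1) (nat_lit 0) (nat_lit 281) (nat_lit 439) (nat_lit 360)) (XT.lf (nat_lit 0) (nat_lit 470214246674) (nat_lit 0) (nat_lit 0) (nat_lit 0) (nat_lit 0) (nat_lit 0) (nat_lit 0) (nat_lit 1) (nat_lit 0) (nat_lit 1) (nat_lit 0) (nat_lit 282) (nat_lit 439) (nat_lit 359)))) (XT.nd (nat_lit 188) (nat_lit 0) (nat_lit 0) (XT.nd (nat_lit 94) (nat_lit 0) (nat_lit 0) (XT.lf (nat_lit 0) (nat_lit 470140601830) (nat_lit 0) (nat_lit 0) (nat_lit 0) (nat_lit 0) (nat_lit 0) (nat_lit 0) (nat_lit 1) (nat_lit 0) (nat_lit 1) (nat_lit 0) (nat_lit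 283) (nat_lit 439) (nat_lit 358)) (XT.lf (nat_lit 0) (nat_lit 470072412160) (nat_lit 0) (nat_lit 0) (nat_lit 0) (nat_lit 0) (nat_lit 0) (nat_lit 0) (nat_lit 1) (nat_lit 0) (nat_lit 1) (nat_lit 0) (nat_lit 284) (nat_lit 439) (nat_lit 357))) (XT.nd (nat_lit 94) (nat_lit 0) (nat_lit 0) (XT.lf (nat_lit 0) (nat_lit 470009273576) (nat_lit 0) (nat_lit 0) (nat_lit 0) (nat_lit 0) (nat_lit 0) (nat_lit 0) (nat_lit 1) (nat_lit 0) (nat_lit 1) (nat_lit 0) (nat_lit 285) (nat_lit 439) (nat_lit 356)) (XT.nd (nat_lit 94) (nat_lit 0) (nat_lit 0) (XT.lf (nat_lit 0) (nat_lit 469950811924) (nat_lit 0) (nat_lit 0) (nat_lit 0) (nat_lit 0) (nat_lit 0) (nat_lit 0) (nat_lit 1) (nat_lit 0) (nat_lit 1) (nat_lit 0) (nat_lit 286) (nat_lit 439) (nat_lit 355)) (XT.lf (nat_lit 0) (nat_lit 469896680766) (nat_lit 0) (nat_lit 0) (nat_lit 0) (nat_lit 0) (nat_lit 0) (nat_lit 0) (nat_lit 1) (nat_lit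 0) (nat_lit 1) (nat_lit 0) (nat_lit 287) (nat_lit 439) (nat_lit 354)))))) (XT.nd (nat_lit 470) (nat_lit 0) (nat_lit 0) (XT.nd (nat_lit 188) (nat_lit 0) (nat_lit 0) (XT.nd (nat_lit 94) (nat_lit 0) (nat_lit 0) (XT.lf (nat_lit 0) (nat_lit 469846559322) (nat_lit 0) (nat_lit 0) (nat_lit 0) (nat_lit 0) (nat_lit 0) (nat_lit 0) (nat_lit 1) (nat_lit 0) (nat_lit 1) (nat_lit 0) (nat_lit 288) (nat_lit 439) (nat_lit 353)) (XT.lf (nat_lit 0) (nat_lit 469800150579) (nat_lit 0) (nat_lit 0) (nat_lit 0) (nat_lit 0) (nat_lit 0) (nat_lit 0) (nat_lit 1) (nat_lit 0) (nat_lit 1) (nat_lit 0) (nat_lit 289) (nat_lit 439) (nat_lit 352))) (XT.nd (nat_lit 94) (nat_lit 0) (nat_lit 0) (XT.lf (nat_lit 0) (nat_lit 469757179520) (nat_lit 0) (nat_lit 0) (nat_lit 0) (nat_lit 0) (nat_lit 0) (nat_lit 0) (nat_lit 1) (nat_lit 0) (nat_lit 1) (nat_lit 0) (nat_lit 290) (nat_lit 439) (nat_lit 351))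 (XT.nd (nat_lit 94) (nat_lit 0) (nat_lit 0) (XT.lf (nat_lit 0) (nat_lit 469717391502) (nat_lit 0) (nat_lit 0) (nat_lit 0) (nat_lit 0) (nat_lit 0) (nat_lit 0) (nat_lit 1) (nat_lit 0) (nat_lit 1) (nat_lit 0) (nat_lit 291) (nat_lit 439) (nat_lit 350)) (XT.lf (nat_lit 0) (nat_lit 469680550745) (nat_lit 0) (nat_lit 0) (nat_lit 0) (nat_lit 0) (nat_lit 0) (nat_lit 0) (nat_lit 1) (nat_lit 0) (nat_lit 1) (nat_lit 0) (nat_lit 292) (nat_lit 439) (nat_lit 349))))) (XT.nd (nat_lit 188) (nat_lit 0) (nat_lit 0) (XT.nd (nat_lit 94) (nat_lit 0) (nat_lit 0) (XT.lf (nat_lit 0) (nat_lit 469646438933) (nat_lit 0) (nat_lit 0) (nat_lit 0) (nat_lit 0) (nat_lit 0) (nat_lit 0) (nat_lit 1) (nat_lit 0) (nat_lit 1) (nat_lit 0) (nat_lit 293) (nat_lit 439) (nat_lit 348)) (XT.lf (nat_lit 0) (nat_lit 469614853921) (nat_lit 0) (nat_lit 0) (nat_lit 0) (nat_lit 0) (nat_lit 0) (nat_lit 0) (nat_lit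 1) (nat_lit 0) (nat_lit 1) (nat_lit 0) (nat_lit 294) (nat_lit 439) (nat_lit 347))) (XT.nd (nat_lit 94) (nat_lit 0) (nat_lit 0) (XT.lf (nat_lit 0) (nat_lit 469585608541) (nat_lit 0) (nat_lit 0) (nat_lit 0) (nat_lit 0) (nat_lit 0) (nat_lit 0) (nat_lit 1) (nat_lit 0) (nat_lit 1) (nat_lit 0) (nat_lit 295) (nat_lit 439) (nat_lit 346)) (XT.nd (nat_lit 94) (nat_lit 0) (nat_lit 0) (XT.lf (nat_lit 0) (nat_lit 469558529484) (nat_lit 0) (nat_lit 0) (nat_lit 0) (nat_lit 0) (nat_lit 0) (nat_lit 0) (nat_lit 1) (nat_lit 0) (nat_lit 1) (nat_lit 0) (nat_lit 296) (nat_lit 439) (nat_lit 345)) (XT.lf (nat_lit 0) (nat_lit 469533456284) (nat_lit 0) (nat_lit 0) (nat_lit 0) (nat_lit 0) (nat_lit 0) (nat_lit 0) (nat_lit 1) (nat_lit 0) (nat_lit 1) (nat_lit 0) (nat_lit 297) (nat_lit 439) (nat_lit 344))))))))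
noncomputable def ec362 : XT := (XT.nd (nat_lit 1692) (nat_lit 0) (nat_lit 0) (XT.nd (nat_lit 846) (nat_lit 0) (nat_lit 0) (XT.nd (nat_lit 376) (nat_lit 0) (nat_lit 0) (XT.nd (nat_lit 188) (nat_lit 0) (nat_lit 0) (XT.nd (nat_lit 94) (nat_lit 0) (nat_lit 0) (XT.lf (nat_lit 0) (nat_lit 469510240358) (nat_lit 0) (nat_lit 0) (nat_lit 0) (nat_lit 0) (nat_lit 0) (nat_lit 0) (nat_lit 1) (nat_lit 0) (nat_lit 1) (nat_lit 0) (nat_lit 298) (nat_lit 439) (nat_lit 343)) (XT.lf (nat_lit 0) (nat_lit 469488744130) (nat_lit 0) (nat_lit 0) (nat_lit 0) (nat_lit 0) (nat_lit 0) (nat_lit 0) (nat_lit 1) (nat_lit 0) (nat_lit 1) (nat_lit 0) (nat_lit 299) (nat_lit 439) (nat_lit 342))) (XT.nd (nat_lit 94) (nat_lit 0) (nat_lit 0) (XT.lf (nat_lit 0) (nat_lit 469468840215) (nat_lit 0) (nat_lit 0) (nat_lit 0) (nat_lit 0) (nat_lit 0) (nat_lit 0) (nat_lit 1) (nat_lit 0) (nat_lit 1) (nat_lit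 0) (nat_lit 300) (nat_lit 439) (nat_lit 341)) (XT.lf (nat_lit 0) (nat_lit 469450410665) (nat_lit 0) (nat_lit 0) (nat_lit 0) (nat_lit 0) (nat_lit 0) (nat_lit 0) (nat_lit 1) (nat_lit 0) (nat_lit 1) (nat_lit 0) (nat_lit 301) (nat_lit 439) (nat_lit 340)))) (XT.nd (nat_lit 188) (nat_lit 0) (nat_lit 0) (XT.nd (nat_lit 94) (nat_lit 0) (nat_lit 0) (XT.lf (nat_lit 0) (nat_lit 469433346266) (nat_lit 0) (nat_lit 0) (nat_lit 0) (nat_lit 0) (nat_lit 0) (nat_lit 0) (nat_lit 1) (nat_lit 0) (nat_lit 1) (nat_lit 0) (nat_lit 302) (nat_lit 439) (nat_lit 339)) (XT.lf (nat_lit 0) (nat_lit 469417545897) (nat_lit 0) (nat_lit 0) (nat_lit 0) (nat_lit 0) (nat_lit 0) (nat_lit 0) (nat_lit 1) (nat_lit 0) (nat_lit 1) (nat_lit 0) (nat_lit 303) (nat_lit 439) (nat_lit 338))) (XT.nd (nat_lit 94) (nat_lit 0) (nat_lit 0) (XT.lf (nat_lit 0) (nat_lit 469402915925) (nat_lit 0) (nat_lit 0) (nat_lit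 0) (nat_lit 0) (nat_lit 0) (nat_lit 0) (nat_lit 1) (nat_lit 0) (nat_lit 1) (nat_lit 0) (nat_lit 304) (nat_lit 439) (nat_lit 337)) (XT.nd (nat_lit 94) (nat_lit 0) (nat_lit 0) (XT.lf (nat_lit 0) (nat_lit 469389369655) (nat_lit 0) (nat_lit 0) (nat_lit 0) (nat_lit 0) (nat_lit 0) (nat_lit 0) (nat_lit 1) (nat_lit 0) (nat_lit 1) (nat_lit 0) (nat_lit 305) (nat_lit 439) (nat_lit 336)) (XT.lf (nat_lit 0) (nat_lit 469376826813) (nat_lit 0) (nat_lit 0) (nat_lit 0) (nat_lit 0) (nat_lit 0) (nat_lit 0) (nat_lit 1) (nat_lit 0) (nat_lit 1) (nat_lit 0) (nat_lit 306) (nat_lit 439) (nat_lit 335)))))) (XT.nd (nat_lit 376) (nat_lit 0) (nat_lit 0) (XT.nd (nat_lit 188) (nat_lit 0) (nat_lit 0) (XT.nd (nat_lit 94) (nat_lit 0) (nat_lit 0) (XT.lf (nat_lit 0) (nat_lit 469365213070) (nat_lit 0) (nat_lit 0) (nat_lit 0) (nat_lit 0) (nat_lit 0) (nat_lit 0) (nat_lit 1) (nat_lit 0) (nat_lit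 1) (nat_lit 0) (nat_lit 307) (nat_lit 439) (nat_lit 334)) (XT.lf (nat_lit 0) (nat_lit 469354459604) (nat_lit 0) (nat_lit 0) (nat_lit 0) (nat_lit 0) (nat_lit 0) (nat_lit 0) (nat_lit 1) (nat_lit 0) (nat_lit 1) (nat_lit 0) (nat_lit 308) (nat_lit 439) (nat_lit 333))) (XT.nd (nat_lit 94) (nat_lit 0) (nat_lit 0) (XT.lf (nat_lit 0) (nat_lit 469344502691) (nat_lit 0) (nat_lit 0) (nat_lit 0) (nat_lit 0) (nat_lit 0) (nat_lit 0) (nat_lit 1) (nat_lit 0) (nat_lit 1) (nat_lit 0) (nat_lit 309) (nat_lit 439) (nat_lit 332)) (XT.lf (nat_lit 0) (nat_lit 469335283327) (nat_lit 0) (nat_lit 0) (nat_lit 0) (nat_lit 0) (nat_lit 0) (nat_lit 0) (nat_lit 1) (nat_lit 0) (nat_lit 1) (nat_lit 0) (nat_lit 310) (nat_lit 439) (nat_lit 331)))) (XT.nd (nat_lit 188) (nat_lit 0) (nat_lit 0) (XT.nd (nat_lit 94) (nat_lit 0) (nat_lit 0) (XT.lf (nat_lit 0) (nat_lit 469326746879) (nat_lit 0) (nat_lit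 0) (nat_lit 0) (nat_lit 0) (nat_lit 0) (nat_lit 0) (nat_lit 1) (nat_lit 0) (nat_lit 1) (nat_lit 0) (nat_lit 311) (nat_lit 439) (nat_lit 330)) (XT.lf (nat_lit 0) (nat_lit 469318842761) (nat_lit 0) (nat_lit 0) (nat_lit 0) (nat_lit 0) (nat_lit 0) (nat_lit 0) (nat_lit 1) (nat_lit 0) (nat_lit 1) (nat_lit 0) (nat_lit 312) (nat_lit 439) (nat_lit 329))) (XT.nd (nat_lit 94) (nat_lit 0) (nat_lit 0) (XT.lf (nat_lit 0) (nat_lit 469311524133) (nat_lit 0) (nat_lit 0) (nat_lit 0) (nat_lit 0) (nat_lit 0) (nat_lit 0) (nat_lit 1) (nat_lit 0) (nat_lit 1) (nat_lit 0) (nat_lit 313) (nat_lit 439) (nat_lit 328)) (XT.nd (nat_lit 94) (nat_lit 0) (nat_lit 0) (XT.lf (nat_lit 0) (nat_lit 469304747625) (nat_lit 0) (nat_lit 0) (nat_lit 0) (nat_lit 0) (nat_lit 0) (nat_lit 0) (nat_lit 1) (nat_lit 0) (nat_lit 1) (nat_lit 0) (nat_lit 314) (nat_lit 439) (nat_lit 327)) (XT.lf (nat_lit 0) (nat_lit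 469298473081) (nat_lit 0) (nat_lit 0) (nat_lit 0) (nat_lit 0) (nat_lit 0) (nat_lit 0) (nat_lit 1) (nat_lit 0) (nat_lit 1) (nat_lit 0) (nat_lit 315) (nat_lit 439) (nat_lit 326))))))) (XT.nd (nat_lit 846) (nat_lit 0) (nat_lit 0) (XT.nd (nat_lit 376) (nat_lit 0) (nat_lit 0) (XT.nd (nat_lit 188) (nat_lit 0) (nat_lit 0) (XT.nd (nat_lit 94) (nat_lit 0) (nat_lit 0) (XT.lf (nat_lit 0) (nat_lit 469292663318) (nat_lit 0) (nat_lit 0) (nat_lit 0) (nat_lit 0) (nat_lit 0) (nat_lit 0) (nat_lit 1) (nat_lit 0) (nat_lit 1) (nat_lit 0) (nat_lit 316) (nat_lit 439) (nat_lit 325)) (XT.lf (nat_lit 0) (nat_lit 469287283908) (nat_lit 0) (nat_lit 0) (nat_lit 0) (nat_lit 0) (nat_lit 0) (nat_lit 0) (nat_lit 1) (nat_lit 0) (nat_lit 1) (nat_lit 0) (nat_lit 317) (nat_lit 439) (nat_lit 324))) (XT.nd (nat_lit 94) (nat_lit 0) (nat_lit 0) (XT.lf (nat_lit 0) (nat_lit 469282302973) (nat_lit 0)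 (nat_lit 0) (nat_lit 0) (nat_lit 0) (nat_lit 0) (nat_lit 0) (nat_lit 1) (nat_lit 0) (nat_lit 1) (nat_lit 0) (nat_lit 318) (nat_lit 439) (nat_lit 323)) (XT.lf (nat_lit 0) (nat_lit 469277690996) (nat_lit 0) (nat_lit 0) (nat_lit 0) (nat_lit 0) (nat_lit 0) (nat_lit 0) (nat_lit 1) (nat_lit 0) (nat_lit 1) (nat_lit 0) (nat_lit 319) (nat_lit 439) (nat_lit 322)))) (XT.nd (nat_lit 188) (nat_lit 0) (nat_lit 0) (XT.nd (nat_lit 94) (nat_lit 0) (nat_lit 0) (XT.lf (nat_lit 0) (nat_lit 469273420646) (nat_lit 0) (nat_lit 0) (nat_lit 0) (nat_lit 0) (nat_lit 0) (nat_lit 0) (nat_lit 1) (nat_lit 0) (nat_lit 1) (nat_lit 0) (nat_lit 320) (nat_lit 439) (nat_lit 321)) (XT.lf (nat_lit 0) (nat_lit 469269466619) (nat_lit 0) (nat_lit 0) (nat_lit 0) (nat_lit 0) (nat_lit 0) (nat_lit 0) (nat_lit 1) (nat_lit 0) (nat_lit 1) (nat_lit 0) (nat_lit 321) (nat_lit 439) (nat_lit 320))) (XT.nd (nat_lit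 94) (nat_lit 0) (nat_lit 0) (XT.lf (nat_lit 0) (nat_lit 469265805483) (nat_lit 0) (nat_lit 0) (nat_lit 0) (nat_lit 0) (nat_lit 0) (nat_lit 0) (nat_lit 1) (nat_lit 0) (nat_lit 1) (nat_lit 0) (nat_lit 322) (nat_lit 439) (nat_lit 319)) (XT.nd (nat_lit 94) (nat_lit 0) (nat_lit 0) (XT.lf (nat_lit 0) (nat_lit 469262415542) (nat_lit 0) (nat_lit 0) (nat_lit 0) (nat_lit 0) (nat_lit 0) (nat_lit 0) (nat_lit 1) (nat_lit 0) (nat_lit 1) (nat_lit 0) (nat_lit 323) (nat_lit 439) (nat_lit 318)) (XT.lf (nat_lit 0) (nat_lit 469259276708) (nat_lit 0) (nat_lit 0) (nat_lit 0) (nat_lit 0) (nat_lit 0) (nat_lit 0) (nat_lit 1) (nat_lit 0) (nat_lit 1) (nat_lit 0) (nat_lit 324) (nat_lit 439) (nat_lit 317)))))) (XT.nd (nat_lit 470) (nat_lit 0) (nat_lit 0) (XT.nd (nat_lit 188) (nat_lit 0) (nat_lit 0) (XT.nd (nat_lit 94) (nat_lit 0) (nat_lit 0) (XT.lf (nat_lit 0) (nat_lit 469256370380) (nat_lit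 0) (nat_lit 0) (nat_lit 0) (nat_lit 0) (nat_lit 0) (nat_lit 0) (nat_lit 1) (nat_lit 0) (nat_lit 1) (nat_lit 0) (nat_lit 325) (nat_lit 439) (nat_lit 316)) (XT.lf (nat_lit 0) (nat_lit 469253679336) (nat_lit 0) (nat_lit 0) (nat_lit 0) (nat_lit 0) (nat_lit 0) (nat_lit 0) (nat_lit 1) (nat_lit 0) (nat_lit 1) (nat_lit 0) (nat_lit 326) (nat_lit 439) (nat_lit 315))) (XT.nd (nat_lit 94) (nat_lit 0) (nat_lit 0) (XT.lf (nat_lit 0) (nat_lit 469251187628) (nat_lit 0) (nat_lit 0) (nat_lit 0) (nat_lit 0) (nat_lit 0) (nat_lit 0) (nat_lit 1) (nat_lit 0) (nat_lit 1) (nat_lit 0) (nat_lit 327) (nat_lit 439) (nat_lit 314)) (XT.nd (nat_lit 94) (nat_lit 0) (nat_lit 0) (XT.lf (nat_lit 0) (nat_lit 469248880491) (nat_lit 0) (nat_lit 0) (nat_lit 0) (nat_lit 0) (nat_lit 0) (nat_lit 0) (nat_lit 1) (nat_lit 0) (nat_lit 1) (nat_lit 0) (nat_lit 328) (nat_lit 439) (nat_lit 313)) (XT.lf (nat_lit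 0) (nat_lit 469246744254) (nat_lit 0) (nat_lit 0) (nat_lit 0) (nat_lit 0) (nat_lit 0) (nat_lit 0) (nat_lit 1) (nat_lit 0) (nat_lit 1) (nat_lit 0) (nat_lit 329) (nat_lit 439) (nat_lit 312))))) (XT.nd (nat_lit 188) (nat_lit 0) (nat_lit 0) (XT.nd (nat_lit 94) (nat_lit 0) (nat_lit 0) (XT.lf (nat_lit 0) (nat_lit 469244766256) (nat_lit 0) (nat_lit 0) (nat_lit 0) (nat_lit 0) (nat_lit 0) (nat_lit 0) (nat_lit 1) (nat_lit 0) (nat_lit 1) (nat_lit 0) (nat_lit 330) (nat_lit 439) (nat_lit 311)) (XT.lf (nat_lit 0) (nat_lit 469242934776) (nat_lit 0) (nat_lit 0) (nat_lit 0) (nat_lit 0) (nat_lit 0) (nat_lit 0) (nat_lit 1) (nat_lit 0) (nat_lit 1) (nat_lit 0) (nat_lit 331) (nat_lit 439) (nat_lit 310))) (XT.nd (nat_lit 94) (nat_lit 0) (nat_lit 0) (XT.lf (nat_lit 0) (nat_lit 469241238962) (nat_lit 0) (nat_lit 0) (nat_lit 0) (nat_lit 0) (nat_lit 0) (nat_lit 0) (nat_lit 1) (nat_lit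 0) (nat_lit 1) (nat_lit 0) (nat_lit 332) (nat_lit 439) (nat_lit 309)) (XT.nd (nat_lit 94) (nat_lit 0) (nat_lit 0) (XT.lf (nat_lit 0) (nat_lit 469239668763) (nat_lit 0) (nat_lit 0) (nat_lit 0) (nat_lit 0) (nat_lit 0) (nat_lit 0) (nat_lit 1) (nat_lit 0) (nat_lit 1) (nat_lit 0) (nat_lit 333) (nat_lit 439) (nat_lit 308)) (XT.lf (nat_lit 0) (nat_lit 469238214875) (nat_lit 0) (nat_lit 0) (nat_lit 0) (nat_lit 0) (nat_lit 0) (nat_lit 0) (nat_lit 1) (nat_lit 0) (nat_lit 1) (nat_lit 0) (nat_lit 334) (nat_lit 439) (nat_lit 307))))))))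
noncomputable def ec363 : XT := (XT.nd (nat_lit 1786) (nat_lit 0) (nat_lit 0) (XT.nd (nat_lit 846) (nat_lit 0) (nat_lit 0) (XT.nd (nat_lit 376) (nat_lit 0) (nat_lit 0) (XT.nd (nat_lit 188) (nat_lit 0) (nat_lit 0) (XT.nd (nat_lit 94) (nat_lit 0) (nat_lit 0) (XT.lf (nat_lit 0) (nat_lit 469236868683) (nat_lit 0) (nat_lit 0) (nat_lit 0) (nat_lit 0) (nat_lit 0) (nat_lit 0) (nat_lit 1) (nat_lit 0) (nat_lit 1) (nat_lit 0) (nat_lit 335) (nat_lit 439) (nat_lit 306)) (XT.lf (nat_lit 0) (nat_lit 469235622209) (nat_lit 0) (nat_lit 0) (nat_lit 0) (nat_lit 0) (nat_lit 0) (nat_lit 0) (nat_lit 1) (nat_lit 0) (nat_lit 1) (nat_lit 0) (nat_lit 336) (nat_lit 439) (nat_lit 305))) (XT.nd (nat_lit 94) (nat_lit 0) (nat_lit 0) (XT.lf (nat_lit 0) (nat_lit 469234468066) (nat_lit 0) (nat_lit 0) (nat_lit 0) (nat_lit 0) (nat_lit 0) (nat_lit 0) (nat_lit 1) (nat_lit 0) (nat_lit 1) (nat_lit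 0) (nat_lit 337) (nat_lit 439) (nat_lit 304)) (XT.lf (nat_lit 0) (nat_lit 469233399415) (nat_lit 0) (nat_lit 0) (nat_lit 0) (nat_lit 0) (nat_lit 0) (nat_lit 0) (nat_lit 1) (nat_lit 0) (nat_lit 1) (nat_lit 0) (nat_lit 338) (nat_lit 439) (nat_lit 303)))) (XT.nd (nat_lit 188) (nat_lit 0) (nat_lit 0) (XT.nd (nat_lit 94) (nat_lit 0) (nat_lit 0) (XT.lf (nat_lit 0) (nat_lit 469232409924) (nat_lit 0) (nat_lit 0) (nat_lit 0) (nat_lit 0) (nat_lit 0) (nat_lit 0) (nat_lit 1) (nat_lit 0) (nat_lit 1) (nat_lit 0) (nat_lit 339) (nat_lit 439) (nat_lit 302)) (XT.lf (nat_lit 0) (nat_lit 469231493728) (nat_lit 0) (nat_lit 0) (nat_lit 0) (nat_lit 0) (nat_lit 0) (nat_lit 0) (nat_lit 1) (nat_lit 0) (nat_lit 1) (nat_lit 0) (nat_lit 340) (nat_lit 439) (nat_lit 301))) (XT.nd (nat_lit 94) (nat_lit 0) (nat_lit 0) (XT.lf (nat_lit 0) (nat_lit 469230645399) (nat_lit 0) (nat_lit 0) (nat_lit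 0) (nat_lit 0) (nat_lit 0) (nat_lit 0) (nat_lit 1) (nat_lit 0) (nat_lit 1) (nat_lit 0) (nat_lit 341) (nat_lit 439) (nat_lit 300)) (XT.nd (nat_lit 94) (nat_lit 0) (nat_lit 0) (XT.lf (nat_lit 0) (nat_lit 469229859909) (nat_lit 0) (nat_lit 0) (nat_lit 0) (nat_lit 0) (nat_lit 0) (nat_lit 0) (nat_lit 1) (nat_lit 0) (nat_lit 1) (nat_lit 0) (nat_lit 342) (nat_lit 439) (nat_lit 299)) (XT.lf (nat_lit 0) (nat_lit 469229132603) (nat_lit 0) (nat_lit 0) (nat_lit 0) (nat_lit 0) (nat_lit 0) (nat_lit 0) (nat_lit 1) (nat_lit 0) (nat_lit 1) (nat_lit 0) (nat_lit 343) (nat_lit 439) (nat_lit 298)))))) (XT.nd (nat_lit 470) (nat_lit 0) (nat_lit 0) (XT.nd (nat_lit 188) (nat_lit 0) (nat_lit 0) (XT.nd (nat_lit 94) (nat_lit 0) (nat_lit 0) (XT.lf (nat_lit 0) (nat_lit 469228459172) (nat_lit 0) (nat_lit 0) (nat_lit 0) (nat_lit 0) (nat_lit 0) (nat_lit 0) (nat_lit 1) (nat_lit 0) (nat_lit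 1) (nat_lit 0) (nat_lit 344) (nat_lit 439) (nat_lit 297)) (XT.lf (nat_lit 0) (nat_lit 469227835624) (nat_lit 0) (nat_lit 0) (nat_lit 0) (nat_lit 0) (nat_lit 0) (nat_lit 0) (nat_lit 1) (nat_lit 0) (nat_lit 1) (nat_lit 0) (nat_lit 345) (nat_lit 439) (nat_lit 296))) (XT.nd (nat_lit 94) (nat_lit 0) (nat_lit 0) (XT.lf (nat_lit 0) (nat_lit 469227258265) (nat_lit 0) (nat_lit 0) (nat_lit 0) (nat_lit 0) (nat_lit 0) (nat_lit 0) (nat_lit 1) (nat_lit 0) (nat_lit 1) (nat_lit 0) (nat_lit 346) (nat_lit 439) (nat_lit 295)) (XT.nd (nat_lit 94) (nat_lit 0) (nat_lit 0) (XT.lf (nat_lit 0) (nat_lit 469226723674) (nat_lit 0) (nat_lit 0) (nat_lit 0) (nat_lit 0) (nat_lit 0) (nat_lit 0) (nat_lit 1) (nat_lit 0) (nat_lit 1) (nat_lit 0) (nat_lit 347) (nat_lit 439) (nat_lit 294)) (XT.lf (nat_lit 0) (nat_lit 469226228682) (nat_lit 0) (nat_lit 0) (nat_lit 0) (nat_lit 0) (nat_lit 0) (nat_lit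 0) (nat_lit 1) (nat_lit 0) (nat_lit 1) (nat_lit 0) (nat_lit 348) (nat_lit 439) (nat_lit 293))))) (XT.nd (nat_lit 188) (nat_lit 0) (nat_lit 0) (XT.nd (nat_lit 94) (nat_lit 0) (nat_lit 0) (XT.lf (nat_lit 0) (nat_lit 469225770356) (nat_lit 0) (nat_lit 0) (nat_lit 0) (nat_lit 0) (nat_lit 0) (nat_lit 0) (nat_lit 1) (nat_lit 0) (nat_lit 1) (nat_lit 0) (nat_lit 349) (nat_lit 439) (nat_lit 292)) (XT.lf (nat_lit 0) (nat_lit 469225345980) (nat_lit 0) (nat_lit 0) (nat_lit 0) (nat_lit 0) (nat_lit 0) (nat_lit 0) (nat_lit 1) (nat_lit 0) (nat_lit 1) (nat_lit 0) (nat_lit 350) (nat_lit 439) (nat_lit 291))) (XT.nd (nat_lit 94) (nat_lit 0) (nat_lit 0) (XT.lf (nat_lit 0) (nat_lit 469224953039) (nat_lit 0) (nat_lit 0) (nat_lit 0) (nat_lit 0) (nat_lit 0) (nat_lit 0) (nat_lit 1) (nat_lit 0) (nat_lit 1) (nat_lit 0) (nat_lit 351) (nat_lit 439) (nat_lit 290)) (XT.nd (nat_lit 94) (nat_lit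 0) (nat_lit 0) (XT.lf (nat_lit 0) (nat_lit 469224589205) (nat_lit 0) (nat_lit 0) (nat_lit 0) (nat_lit 0) (nat_lit 0) (nat_lit 0) (nat_lit 1) (nat_lit 0) (nat_lit 1) (nat_lit 0) (nat_lit 352) (nat_lit 439) (nat_lit 289)) (XT.lf (nat_lit 0) (nat_lit 469224252322) (nat_lit 0) (nat_lit 0) (nat_lit 0) (nat_lit 0) (nat_lit 0) (nat_lit 0) (nat_lit 1) (nat_lit 0) (nat_lit 1) (nat_lit 0) (nat_lit 353) (nat_lit 439) (nat_lit 288))))))) (XT.nd (nat_lit 846) (nat_lit 0) (nat_lit 0) (XT.nd (nat_lit 376) (nat_lit 0) (nat_lit 0) (XT.nd (nat_lit 188) (nat_lit 0) (nat_lit 0) (XT.nd (nat_lit 94) (nat_lit 0) (nat_lit 0) (XT.lf (nat_lit 0) (nat_lit 469223940393) (nat_lit 0) (nat_lit 0) (nat_lit 0) (nat_lit 0) (nat_lit 0) (nat_lit 0) (nat_lit 1) (nat_lit 0) (nat_lit 1) (nat_lit 0) (nat_lit 354) (nat_lit 439) (nat_lit 287)) (XT.lf (nat_lit 0) (nat_lit 469223651570) (nat_lit 0)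 (nat_lit 0) (nat_lit 0) (nat_lit 0) (nat_lit 0) (nat_lit 0) (nat_lit 1) (nat_lit 0) (nat_lit 1) (nat_lit 0) (nat_lit 355) (nat_lit 439) (nat_lit 286))) (XT.nd (nat_lit 94) (nat_lit 0) (nat_lit 0) (XT.lf (nat_lit 0) (nat_lit 469223384141) (nat_lit 0) (nat_lit 0) (nat_lit 0) (nat_lit 0) (nat_lit 0) (nat_lit 0) (nat_lit 1) (nat_lit 0) (nat_lit 1) (nat_lit 0) (nat_lit 356) (nat_lit 439) (nat_lit 285)) (XT.lf (nat_lit 0) (nat_lit 469223136522) (nat_lit 0) (nat_lit 0) (nat_lit 0) (nat_lit 0) (nat_lit 0) (nat_lit 0) (nat_lit 1) (nat_lit 0) (nat_lit 1) (nat_lit 0) (nat_lit 357) (nat_lit 439) (nat_lit 284)))) (XT.nd (nat_lit 188) (nat_lit 0) (nat_lit 0) (XT.nd (nat_lit 94) (nat_lit 0) (nat_lit 0) (XT.lf (nat_lit 0) (nat_lit 469222907245) (nat_lit 0) (nat_lit 0) (nat_lit 0) (nat_lit 0) (nat_lit 0) (nat_lit 0) (nat_lit 1) (nat_lit 0) (nat_lit 1) (nat_lit 0) (nat_lit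 358) (nat_lit 439) (nat_lit 283)) (XT.lf (nat_lit 0) (nat_lit 469222694951) (nat_lit 0) (nat_lit 0) (nat_lit 0) (nat_lit 0) (nat_lit 0) (nat_lit 0) (nat_lit 1) (nat_lit 0) (nat_lit 1) (nat_lit 0) (nat_lit 359) (nat_lit 439) (nat_lit 282))) (XT.nd (nat_lit 94) (nat_lit 0) (nat_lit 0) (XT.lf (nat_lit 0) (nat_lit 469222498383) (nat_lit 0) (nat_lit 0) (nat_lit 0) (nat_lit 0) (nat_lit 0) (nat_lit 0) (nat_lit 1) (nat_lit 0) (nat_lit 1) (nat_lit 0) (nat_lit 360) (nat_lit 439) (nat_lit 281)) (XT.nd (nat_lit 94) (nat_lit 0) (nat_lit 0) (XT.lf (nat_lit 0) (nat_lit 469222316376) (nat_lit 0) (nat_lit 0) (nat_lit 0) (nat_lit 0) (nat_lit 0) (nat_lit 0) (nat_lit 1) (nat_lit 0) (nat_lit 1) (nat_lit 0) (nat_lit 361) (nat_lit 439) (nat_lit 280)) (XT.lf (nat_lit 0) (nat_lit 469222147850) (nat_lit 0) (nat_lit 0) (nat_lit 0) (nat_lit 0) (nat_lit 0) (nat_lit 0) (nat_lit 1) (nat_lit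 0) (nat_lit 1) (nat_lit 0) (nat_lit 362) (nat_lit 439) (nat_lit 279)))))) (XT.nd (nat_lit 470) (nat_lit 0) (nat_lit 0) (XT.nd (nat_lit 188) (nat_lit 0) (nat_lit 0) (XT.nd (nat_lit 94) (nat_lit 0) (nat_lit 0) (XT.lf (nat_lit 0) (nat_lit 469221991808) (nat_lit 0) (nat_lit 0) (nat_lit 0) (nat_lit 0) (nat_lit 0) (nat_lit 0) (nat_lit 1) (nat_lit 0) (nat_lit 1) (nat_lit 0) (nat_lit 363) (nat_lit 439) (nat_lit 278)) (XT.lf (nat_lit 0) (nat_lit 469221847324) (nat_lit 0) (nat_lit 0) (nat_lit 0) (nat_lit 0) (nat_lit 0) (nat_lit 0) (nat_lit 1) (nat_lit 0) (nat_lit 1) (nat_lit 0) (nat_lit 364) (nat_lit 439) (nat_lit 277))) (XT.nd (nat_lit 94) (nat_lit 0) (nat_lit 0) (XT.lf (nat_lit 0) (nat_lit 469221713543) (nat_lit 0) (nat_lit 0) (nat_lit 0) (nat_lit 0) (nat_lit 0) (nat_lit 0) (nat_lit 1) (nat_lit 0) (nat_lit 1) (nat_lit 0) (nat_lit 365) (nat_lit 439) (nat_lit 276))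 (XT.nd (nat_lit 94) (nat_lit 0) (nat_lit 0) (XT.lf (nat_lit 0) (nat_lit 469221589672) (nat_lit 0) (nat_lit 0) (nat_lit 0) (nat_lit 0) (nat_lit 0) (nat_lit 0) (nat_lit 1) (nat_lit 0) (nat_lit 1) (nat_lit 0) (nat_lit 366) (nat_lit 439) (nat_lit 275)) (XT.lf (nat_lit 0) (nat_lit 469221474977) (nat_lit 0) (nat_lit 0) (nat_lit 0) (nat_lit 0) (nat_lit 0) (nat_lit 0) (nat_lit 1) (nat_lit 0) (nat_lit 1) (nat_lit 0) (nat_lit 367) (nat_lit 439) (nat_lit 274))))) (XT.nd (nat_lit 188) (nat_lit 0) (nat_lit 0) (XT.nd (nat_lit 94) (nat_lit 0) (nat_lit 0) (XT.lf (nat_lit 0) (nat_lit 469221368777) (nat_lit 0) (nat_lit 0) (nat_lit 0) (nat_lit 0) (nat_lit 0) (nat_lit 0) (nat_lit 1) (nat_lit 0) (nat_lit 1) (nat_lit 0) (nat_lit 368) (nat_lit 439) (nat_lit 273)) (XT.lf (nat_lit 0) (nat_lit 469221270444) (nat_lit 0) (nat_lit 0) (nat_lit 0) (nat_lit 0) (nat_lit 0) (nat_lit 0) (nat_lit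 1) (nat_lit 0) (nat_lit 1) (nat_lit 0) (nat_lit 369) (nat_lit 439) (nat_lit 272))) (XT.nd (nat_lit 94) (nat_lit 0) (nat_lit 0) (XT.lf (nat_lit 0) (nat_lit 469221179395) (nat_lit 0) (nat_lit 0) (nat_lit 0) (nat_lit 0) (nat_lit 0) (nat_lit 0) (nat_lit 1) (nat_lit 0) (nat_lit 1) (nat_lit 0) (nat_lit 370) (nat_lit 439) (nat_lit 271)) (XT.nd (nat_lit 94) (nat_lit 0) (nat_lit 0) (XT.lf (nat_lit 0) (nat_lit 469221095090) (nat_lit 0) (nat_lit 0) (nat_lit 0) (nat_lit 0) (nat_lit 0) (nat_lit 0) (nat_lit 1) (nat_lit 0) (nat_lit 1) (nat_lit 0) (nat_lit 371) (nat_lit 439) (nat_lit 270)) (XT.lf (nat_lit 0) (nat_lit 469221017030) (nat_lit 0) (nat_lit 0) (nat_lit 0) (nat_lit 0) (nat_lit 0) (nat_lit 0) (nat_lit 1) (nat_lit 0) (nat_lit 1) (nat_lit 0) (nat_lit 372) (nat_lit 439) (nat_lit 269))))))))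
noncomputable def ec364 : XT := (XT.nd (nat_lit 1692) (nat_lit 0) (nat_lit 0) (XT.nd (nat_lit 846) (nat_lit 0) (nat_lit 0) (XT.nd (nat_lit 376) (nat_lit 0) (nat_lit 0) (XT.nd (nat_lit 188) (nat_lit 0) (nat_lit 0) (XT.nd (nat_lit 94) (nat_lit 0) (nat_lit 0) (XT.lf (nat_lit 0) (nat_lit 469220944752) (nat_lit 0) (nat_lit 0) (nat_lit 0) (nat_lit 0) (nat_lit 0) (nat_lit 0) (nat_lit 1) (nat_lit 0) (nat_lit 1) (nat_lit 0) (nat_lit 373) (nat_lit 439) (nat_lit 268)) (XT.lf (nat_lit 0) (nat_lit 469220877829) (nat_lit 0) (nat_lit 0) (nat_lit 0) (nat_lit 0) (nat_lit 0) (nat_lit 0) (nat_lit 1) (nat_lit 0) (nat_lit 1) (nat_lit 0) (nat_lit 374) (nat_lit 439) (nat_lit 267))) (XT.nd (nat_lit 94) (nat_lit 0) (nat_lit 0) (XT.lf (nat_lit 0) (nat_lit 469220815862) (nat_lit 0) (nat_lit 0) (nat_lit 0) (nat_lit 0) (nat_lit 0) (nat_lit 0) (nat_lit 1) (nat_lit 0) (nat_lit 1) (nat_lit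 0) (nat_lit 375) (nat_lit 439) (nat_lit 266)) (XT.lf (nat_lit 0) (nat_lit 469220758486) (nat_lit 0) (nat_lit 0) (nat_lit 0) (nat_lit 0) (nat_lit 0) (nat_lit 0) (nat_lit 1) (nat_lit 0) (nat_lit 1) (nat_lit 0) (nat_lit 376) (nat_lit 439) (nat_lit 265)))) (XT.nd (nat_lit 188) (nat_lit 0) (nat_lit 0) (XT.nd (nat_lit 94) (nat_lit 0) (nat_lit 0) (XT.lf (nat_lit 0) (nat_lit 469220705360) (nat_lit 0) (nat_lit 0) (nat_lit 0) (nat_lit 0) (nat_lit 0) (nat_lit 0) (nat_lit 1) (nat_lit 0) (nat_lit 1) (nat_lit 0) (nat_lit 377) (nat_lit 439) (nat_lit 264)) (XT.lf (nat_lit 0) (nat_lit 469220656169) (nat_lit 0) (nat_lit 0) (nat_lit 0) (nat_lit 0) (nat_lit 0) (nat_lit 0) (nat_lit 1) (nat_lit 0) (nat_lit 1) (nat_lit 0) (nat_lit 378) (nat_lit 439) (nat_lit 263))) (XT.nd (nat_lit 94) (nat_lit 0) (nat_lit 0) (XT.lf (nat_lit 0) (nat_lit 469220610621) (nat_lit 0) (nat_lit 0) (nat_lit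 0) (nat_lit 0) (nat_lit 0) (nat_lit 0) (nat_lit 1) (nat_lit 0) (nat_lit 1) (nat_lit 0) (nat_lit 379) (nat_lit 439) (nat_lit 262)) (XT.nd (nat_lit 94) (nat_lit 0) (nat_lit 0) (XT.lf (nat_lit 0) (nat_lit 469220568448) (nat_lit 0) (nat_lit 0) (nat_lit 0) (nat_lit 0) (nat_lit 0) (nat_lit 0) (nat_lit 1) (nat_lit 0) (nat_lit 1) (nat_lit 0) (nat_lit 380) (nat_lit 439) (nat_lit 261)) (XT.lf (nat_lit 0) (nat_lit 469220529399) (nat_lit 0) (nat_lit 0) (nat_lit 0) (nat_lit 0) (nat_lit 0) (nat_lit 0) (nat_lit 1) (nat_lit 0) (nat_lit 1) (nat_lit 0) (nat_lit 381) (nat_lit 439) (nat_lit 260)))))) (XT.nd (nat_lit 376) (nat_lit 0) (nat_lit 0) (XT.nd (nat_lit 188) (nat_lit 0) (nat_lit 0) (XT.nd (nat_lit 94) (nat_lit 0) (nat_lit 0) (XT.lf (nat_lit 0) (nat_lit 469220493242) (nat_lit 0) (nat_lit 0) (nat_lit 0) (nat_lit 0) (nat_lit 0) (nat_lit 0) (nat_lit 1) (nat_lit 0) (nat_lit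 1) (nat_lit 0) (nat_lit 382) (nat_lit 439) (nat_lit 259)) (XT.lf (nat_lit 0) (nat_lit 469220459763) (nat_lit 0) (nat_lit 0) (nat_lit 0) (nat_lit 0) (nat_lit 0) (nat_lit 0) (nat_lit 1) (nat_lit 0) (nat_lit 1) (nat_lit 0) (nat_lit 383) (nat_lit 439) (nat_lit 258))) (XT.nd (nat_lit 94) (nat_lit 0) (nat_lit 0) (XT.lf (nat_lit 0) (nat_lit 469220428764) (nat_lit 0) (nat_lit 0) (nat_lit 0) (nat_lit 0) (nat_lit 0) (nat_lit 0) (nat_lit 1) (nat_lit 0) (nat_lit 1) (nat_lit 0) (nat_lit 384) (nat_lit 439) (nat_lit 257)) (XT.lf (nat_lit 0) (nat_lit 469220400062) (nat_lit 0) (nat_lit 0) (nat_lit 0) (nat_lit 0) (nat_lit 0) (nat_lit 0) (nat_lit 1) (nat_lit 0) (nat_lit 1) (nat_lit 0) (nat_lit 385) (nat_lit 439) (nat_lit 256)))) (XT.nd (nat_lit 188) (nat_lit 0) (nat_lit 0) (XT.nd (nat_lit 94) (nat_lit 0) (nat_lit 0) (XT.lf (nat_lit 0) (nat_lit 469220373486) (nat_lit 0) (nat_lit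 0) (nat_lit 0) (nat_lit 0) (nat_lit 0) (nat_lit 0) (nat_lit 1) (nat_lit 0) (nat_lit 1) (nat_lit 0) (nat_lit 386) (nat_lit 439) (nat_lit 255)) (XT.lf (nat_lit 0) (nat_lit 469220348878) (nat_lit 0) (nat_lit 0) (nat_lit 0) (nat_lit 0) (nat_lit 0) (nat_lit 0) (nat_lit 1) (nat_lit 0) (nat_lit 1) (nat_lit 0) (nat_lit 387) (nat_lit 439) (nat_lit 254))) (XT.nd (nat_lit 94) (nat_lit 0) (nat_lit 0) (XT.lf (nat_lit 0) (nat_lit 469220326093) (nat_lit 0) (nat_lit 0) (nat_lit 0) (nat_lit 0) (nat_lit 0) (nat_lit 0) (nat_lit 1) (nat_lit 0) (nat_lit 1) (nat_lit 0) (nat_lit 388) (nat_lit 439) (nat_lit 253)) (XT.nd (nat_lit 94) (nat_lit 0) (nat_lit 0) (XT.lf (nat_lit 0) (nat_lit 469220304996) (nat_lit 0) (nat_lit 0) (nat_lit 0) (nat_lit 0) (nat_lit 0) (nat_lit 0) (nat_lit 1) (nat_lit 0) (nat_lit 1) (nat_lit 0) (nat_lit 389) (nat_lit 439) (nat_lit 252)) (XT.lf (nat_lit 0) (nat_lit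 469220285461) (nat_lit 0) (nat_lit 0) (nat_lit 0) (nat_lit 0) (nat_lit 0) (nat_lit 0) (nat_lit 1) (nat_lit 0) (nat_lit 1) (nat_lit 0) (nat_lit 390) (nat_lit 439) (nat_lit 251))))))) (XT.nd (nat_lit 846) (nat_lit 0) (nat_lit 0) (XT.nd (nat_lit 376) (nat_lit 0) (nat_lit 0) (XT.nd (nat_lit 188) (nat_lit 0) (nat_lit 0) (XT.nd (nat_lit 94) (nat_lit 0) (nat_lit 0) (XT.lf (nat_lit 0) (nat_lit 469220267374) (nat_lit 0) (nat_lit 0) (nat_lit 0) (nat_lit 0) (nat_lit 0) (nat_lit 0) (nat_lit 1) (nat_lit 0) (nat_lit 1) (nat_lit 0) (nat_lit 391) (nat_lit 439) (nat_lit 250)) (XT.lf (nat_lit 0) (nat_lit 469220250626) (nat_lit 0) (nat_lit 0) (nat_lit 0) (nat_lit 0) (nat_lit 0) (nat_lit 0) (nat_lit 1) (nat_lit 0) (nat_lit 1) (nat_lit 0) (nat_lit 392) (nat_lit 439) (nat_lit 249))) (XT.nd (nat_lit 94) (nat_lit 0) (nat_lit 0) (XT.lf (nat_lit 0) (nat_lit 469220235119) (nat_lit 0)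 (nat_lit 0) (nat_lit 0) (nat_lit 0) (nat_lit 0) (nat_lit 0) (nat_lit 1) (nat_lit 0) (nat_lit 1) (nat_lit 0) (nat_lit 393) (nat_lit 439) (nat_lit 248)) (XT.lf (nat_lit 0) (nat_lit 469220220761) (nat_lit 0) (nat_lit 0) (nat_lit 0) (nat_lit 0) (nat_lit 0) (nat_lit 0) (nat_lit 1) (nat_lit 0) (nat_lit 1) (nat_lit 0) (nat_lit 394) (nat_lit 439) (nat_lit 247)))) (XT.nd (nat_lit 188) (nat_lit 0) (nat_lit 0) (XT.nd (nat_lit 94) (nat_lit 0) (nat_lit 0) (XT.lf (nat_lit 0) (nat_lit 469220207466) (nat_lit 0) (nat_lit 0) (nat_lit 0) (nat_lit 0) (nat_lit 0) (nat_lit 0) (nat_lit 1) (nat_lit 0) (nat_lit 1) (nat_lit 0) (nat_lit 395) (nat_lit 439) (nat_lit 246)) (XT.lf (nat_lit 0) (nat_lit 469220195156) (nat_lit 0) (nat_lit 0) (nat_lit 0) (nat_lit 0) (nat_lit 0) (nat_lit 0) (nat_lit 1) (nat_lit 0) (nat_lit 1) (nat_lit 0) (nat_lit 396) (nat_lit 439) (nat_lit 245))) (XT.nd (nat_lit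 94) (nat_lit 0) (nat_lit 0) (XT.lf (nat_lit 0) (nat_lit 469220183758) (nat_lit 0) (nat_lit 0) (nat_lit 0) (nat_lit 0) (nat_lit 0) (nat_lit 0) (nat_lit 1) (nat_lit 0) (nat_lit 1) (nat_lit 0) (nat_lit 397) (nat_lit 439) (nat_lit 244)) (XT.nd (nat_lit 94) (nat_lit 0) (nat_lit 0) (XT.lf (nat_lit 0) (nat_lit 469220173204) (nat_lit 0) (nat_lit 0) (nat_lit 0) (nat_lit 0) (nat_lit 0) (nat_lit 0) (nat_lit 1) (nat_lit 0) (nat_lit 1) (nat_lit 0) (nat_lit 398) (nat_lit 439) (nat_lit 243)) (XT.lf (nat_lit 0) (nat_lit 469220163432) (nat_lit 0) (nat_lit 0) (nat_lit 0) (nat_lit 0) (nat_lit 0) (nat_lit 0) (nat_lit 1) (nat_lit 0) (nat_lit 1) (nat_lit 0) (nat_lit 399) (nat_lit 439) (nat_lit 242)))))) (XT.nd (nat_lit 470) (nat_lit 0) (nat_lit 0) (XT.nd (nat_lit 188) (nat_lit 0) (nat_lit 0) (XT.nd (nat_lit 94) (nat_lit 0) (nat_lit 0) (XT.lf (nat_lit 0) (nat_lit 469220154384) (nat_lit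 0) (nat_lit 0) (nat_lit 0) (nat_lit 0) (nat_lit 0) (nat_lit 0) (nat_lit 1) (nat_lit 0) (nat_lit 1) (nat_lit 0) (nat_lit 400) (nat_lit 439) (nat_lit 241)) (XT.lf (nat_lit 0) (nat_lit 469220146006) (nat_lit 0) (nat_lit 0) (nat_lit 0) (nat_lit 0) (nat_lit 0) (nat_lit 0) (nat_lit 1) (nat_lit 0) (nat_lit 1) (nat_lit 0) (nat_lit 401) (nat_lit 439) (nat_lit 240))) (XT.nd (nat_lit 94) (nat_lit 0) (nat_lit 0) (XT.lf (nat_lit 0) (nat_lit 469220138248) (nat_lit 0) (nat_lit 0) (nat_lit 0) (nat_lit 0) (nat_lit 0) (nat_lit 0) (nat_lit 1) (nat_lit 0) (nat_lit 1) (nat_lit 0) (nat_lit 402) (nat_lit 439) (nat_lit 239)) (XT.nd (nat_lit 94) (nat_lit 0) (nat_lit 0) (XT.lf (nat_lit 0) (nat_lit 469220131066) (nat_lit 0) (nat_lit 0) (nat_lit 0) (nat_lit 0) (nat_lit 0) (nat_lit 0) (nat_lit 1) (nat_lit 0) (nat_lit 1) (nat_lit 0) (nat_lit 403) (nat_lit 439) (nat_lit 238)) (XT.lf (nat_lit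 0) (nat_lit 469220124415) (nat_lit 0) (nat_lit 0) (nat_lit 0) (nat_lit 0) (nat_lit 0) (nat_lit 0) (nat_lit 1) (nat_lit 0) (nat_lit 1) (nat_lit 0) (nat_lit 404) (nat_lit 439) (nat_lit 237))))) (XT.nd (nat_lit 188) (nat_lit 0) (nat_lit 0) (XT.nd (nat_lit 94) (nat_lit 0) (nat_lit 0) (XT.lf (nat_lit 0) (nat_lit 469220118257) (nat_lit 0) (nat_lit 0) (nat_lit 0) (nat_lit 0) (nat_lit 0) (nat_lit 0) (nat_lit 1) (nat_lit 0) (nat_lit 1) (nat_lit 0) (nat_lit 405) (nat_lit 439) (nat_lit 236)) (XT.lf (nat_lit 0) (nat_lit 469220112555) (nat_lit 0) (nat_lit 0) (nat_lit 0) (nat_lit 0) (nat_lit 0) (nat_lit 0) (nat_lit 1) (nat_lit 0) (nat_lit 1) (nat_lit 0) (nat_lit 406) (nat_lit 439) (nat_lit 235))) (XT.nd (nat_lit 94) (nat_lit 0) (nat_lit 0) (XT.lf (nat_lit 0) (nat_lit 469220107275) (nat_lit 0) (nat_lit 0) (nat_lit 0) (nat_lit 0) (nat_lit 0) (nat_lit 0) (nat_lit 1) (nat_lit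 0) (nat_lit 1) (nat_lit 0) (nat_lit 407) (nat_lit 439) (nat_lit 234)) (XT.nd (nat_lit 94) (nat_lit 0) (nat_lit 0) (XT.lf (nat_lit 0) (nat_lit 469220102387) (nat_lit 0) (nat_lit 0) (nat_lit 0) (nat_lit 0) (nat_lit 0) (nat_lit 0) (nat_lit 1) (nat_lit 0) (nat_lit 1) (nat_lit 0) (nat_lit 408) (nat_lit 439) (nat_lit 233)) (XT.lf (nat_lit 0) (nat_lit 469220097861) (nat_lit 0) (nat_lit 0) (nat_lit 0) (nat_lit 0) (nat_lit 0) (nat_lit 0) (nat_lit 1) (nat_lit 0) (nat_lit 1) (nat_lit 0) (nat_lit 409) (nat_lit 439) (nat_lit 232))))))))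
noncomputable def ec365 : XT := (XT.nd (nat_lit 1786) (nat_lit 0) (nat_lit 0) (XT.nd (nat_lit 846) (nat_lit 0) (nat_lit 0) (XT.nd (nat_lit 376) (nat_lit 0) (nat_lit 0) (XT.nd (nat_lit 188) (nat_lit 0) (nat_lit 0) (XT.nd (nat_lit 94) (nat_lit 0) (nat_lit 0) (XT.lf (nat_lit 0) (nat_lit 469220093670) (nat_lit 0) (nat_lit 0) (nat_lit 0) (nat_lit 0) (nat_lit 0) (nat_lit 0) (nat_lit 1) (nat_lit 0) (nat_lit 1) (nat_lit 0) (nat_lit 410) (nat_lit 439) (nat_lit 231)) (XT.lf (nat_lit 0) (nat_lit 469220089789) (nat_lit 0) (nat_lit 0) (nat_lit 0) (nat_lit 0) (nat_lit 0) (nat_lit 0) (nat_lit 1) (nat_lit 0) (nat_lit 1) (nat_lit 0) (nat_lit 411) (nat_lit 439) (nat_lit 230))) (XT.nd (nat_lit 94) (nat_lit 0) (nat_lit 0) (XT.lf (nat_lit 0) (nat_lit 469220086196) (nat_lit 0) (nat_lit 0) (nat_lit 0) (nat_lit 0) (nat_lit 0) (nat_lit 0) (nat_lit 1) (nat_lit 0) (nat_lit 1) (nat_lit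 0) (nat_lit 412) (nat_lit 439) (nat_lit 229)) (XT.lf (nat_lit 0) (nat_lit 469220082869) (nat_lit 0) (nat_lit 0) (nat_lit 0) (nat_lit 0) (nat_lit 0) (nat_lit 0) (nat_lit 1) (nat_lit 0) (nat_lit 1) (nat_lit 0) (nat_lit 413) (nat_lit 439) (nat_lit 228)))) (XT.nd (nat_lit 188) (nat_lit 0) (nat_lit 0) (XT.nd (nat_lit 94) (nat_lit 0) (nat_lit 0) (XT.lf (nat_lit 0) (nat_lit 469220079788) (nat_lit 0) (nat_lit 0) (nat_lit 0) (nat_lit 0) (nat_lit 0) (nat_lit 0) (nat_lit 1) (nat_lit 0) (nat_lit 1) (nat_lit 0) (nat_lit 414) (nat_lit 439) (nat_lit 227)) (XT.lf (nat_lit 0) (nat_lit 469220076936) (nat_lit 0) (nat_lit 0) (nat_lit 0) (nat_lit 0) (nat_lit 0) (nat_lit 0) (nat_lit 1) (nat_lit 0) (nat_lit 1) (nat_lit 0) (nat_lit 415) (nat_lit 439) (nat_lit 226))) (XT.nd (nat_lit 94) (nat_lit 0) (nat_lit 0) (XT.lf (nat_lit 0) (nat_lit 469220074295) (nat_lit 0) (nat_lit 0) (nat_lit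 0) (nat_lit 0) (nat_lit 0) (nat_lit 0) (nat_lit 1) (nat_lit 0) (nat_lit 1) (nat_lit 0) (nat_lit 416) (nat_lit 439) (nat_lit 225)) (XT.nd (nat_lit 94) (nat_lit 0) (nat_lit 0) (XT.lf (nat_lit 0) (nat_lit 469220071849) (nat_lit 0) (nat_lit 0) (nat_lit 0) (nat_lit 0) (nat_lit 0) (nat_lit 0) (nat_lit 1) (nat_lit 0) (nat_lit 1) (nat_lit 0) (nat_lit 417) (nat_lit 439) (nat_lit 224)) (XT.lf (nat_lit 0) (nat_lit 469220069585) (nat_lit 0) (nat_lit 0) (nat_lit 0) (nat_lit 0) (nat_lit 0) (nat_lit 0) (nat_lit 1) (nat_lit 0) (nat_lit 1) (nat_lit 0) (nat_lit 418) (nat_lit 439) (nat_lit 223)))))) (XT.nd (nat_lit 470) (nat_lit 0) (nat_lit 0) (XT.nd (nat_lit 188) (nat_lit 0) (nat_lit 0) (XT.nd (nat_lit 94) (nat_lit 0) (nat_lit 0) (XT.lf (nat_lit 0) (nat_lit 469220067488) (nat_lit 0) (nat_lit 0) (nat_lit 0) (nat_lit 0) (nat_lit 0) (nat_lit 0) (nat_lit 1) (nat_lit 0) (nat_lit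 1) (nat_lit 0) (nat_lit 419) (nat_lit 439) (nat_lit 222)) (XT.lf (nat_lit 0) (nat_lit 469220065547) (nat_lit 0) (nat_lit 0) (nat_lit 0) (nat_lit 0) (nat_lit 0) (nat_lit 0) (nat_lit 1) (nat_lit 0) (nat_lit 1) (nat_lit 0) (nat_lit 420) (nat_lit 439) (nat_lit 221))) (XT.nd (nat_lit 94) (nat_lit 0) (nat_lit 0) (XT.lf (nat_lit 0) (nat_lit 469220063750) (nat_lit 0) (nat_lit 0) (nat_lit 0) (nat_lit 0) (nat_lit 0) (nat_lit 0) (nat_lit 1) (nat_lit 0) (nat_lit 1) (nat_lit 0) (nat_lit 421) (nat_lit 439) (nat_lit 220)) (XT.nd (nat_lit 94) (nat_lit 0) (nat_lit 0) (XT.lf (nat_lit 0) (nat_lit 469220062085) (nat_lit 0) (nat_lit 0) (nat_lit 0) (nat_lit 0) (nat_lit 0) (nat_lit 0) (nat_lit 1) (nat_lit 0) (nat_lit 1) (nat_lit 0) (nat_lit 422) (nat_lit 439) (nat_lit 219)) (XT.lf (nat_lit 0) (nat_lit 469220060544) (nat_lit 0) (nat_lit 0) (nat_lit 0) (nat_lit 0) (nat_lit 0) (nat_lit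 0) (nat_lit 1) (nat_lit 0) (nat_lit 1) (nat_lit 0) (nat_lit 423) (nat_lit 439) (nat_lit 218))))) (XT.nd (nat_lit 188) (nat_lit 0) (nat_lit 0) (XT.nd (nat_lit 94) (nat_lit 0) (nat_lit 0) (XT.lf (nat_lit 0) (nat_lit 469220059117) (nat_lit 0) (nat_lit 0) (nat_lit 0) (nat_lit 0) (nat_lit 0) (nat_lit 0) (nat_lit 1) (nat_lit 0) (nat_lit 1) (nat_lit 0) (nat_lit 424) (nat_lit 439) (nat_lit 217)) (XT.lf (nat_lit 0) (nat_lit 469220057796) (nat_lit 0) (nat_lit 0) (nat_lit 0) (nat_lit 0) (nat_lit 0) (nat_lit 0) (nat_lit 1) (nat_lit 0) (nat_lit 1) (nat_lit 0) (nat_lit 425) (nat_lit 439) (nat_lit 216))) (XT.nd (nat_lit 94) (nat_lit 0) (nat_lit 0) (XT.lf (nat_lit 0) (nat_lit 469220056573) (nat_lit 0) (nat_lit 0) (nat_lit 0) (nat_lit 0) (nat_lit 0) (nat_lit 0) (nat_lit 1) (nat_lit 0) (nat_lit 1) (nat_lit 0) (nat_lit 426) (nat_lit 439) (nat_lit 215)) (XT.nd (nat_lit 94) (nat_lit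 0) (nat_lit 0) (XT.lf (nat_lit 0) (nat_lit 469220055440) (nat_lit 0) (nat_lit 0) (nat_lit 0) (nat_lit 0) (nat_lit 0) (nat_lit 0) (nat_lit 1) (nat_lit 0) (nat_lit 1) (nat_lit 0) (nat_lit 427) (nat_lit 439) (nat_lit 214)) (XT.lf (nat_lit 0) (nat_lit 469220054391) (nat_lit 0) (nat_lit 0) (nat_lit 0) (nat_lit 0) (nat_lit 0) (nat_lit 0) (nat_lit 1) (nat_lit 0) (nat_lit 1) (nat_lit 0) (nat_lit 428) (nat_lit 439) (nat_lit 213))))))) (XT.nd (nat_lit 846) (nat_lit 0) (nat_lit 0) (XT.nd (nat_lit 376) (nat_lit 0) (nat_lit 0) (XT.nd (nat_lit 188) (nat_lit 0) (nat_lit 0) (XT.nd (nat_lit 94) (nat_lit 0) (nat_lit 0) (XT.lf (nat_lit 0) (nat_lit 469220053420) (nat_lit 0) (nat_lit 0) (nat_lit 0) (nat_lit 0) (nat_lit 0) (nat_lit 0) (nat_lit 1) (nat_lit 0) (nat_lit 1) (nat_lit 0) (nat_lit 429) (nat_lit 439) (nat_lit 212)) (XT.lf (nat_lit 0) (nat_lit 469220052521) (nat_lit 0)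 (nat_lit 0) (nat_lit 0) (nat_lit 0) (nat_lit 0) (nat_lit 0) (nat_lit 1) (nat_lit 0) (nat_lit 1) (nat_lit 0) (nat_lit 430) (nat_lit 439) (nat_lit 211))) (XT.nd (nat_lit 94) (nat_lit 0) (nat_lit 0) (XT.lf (nat_lit 0) (nat_lit 469220051688) (nat_lit 0) (nat_lit 0) (nat_lit 0) (nat_lit 0) (nat_lit 0) (nat_lit 0) (nat_lit 1) (nat_lit 0) (nat_lit 1) (nat_lit 0) (nat_lit 431) (nat_lit 439) (nat_lit 210)) (XT.lf (nat_lit 0) (nat_lit 469220050917) (nat_lit 0) (nat_lit 0) (nat_lit 0) (nat_lit 0) (nat_lit 0) (nat_lit 0) (nat_lit 1) (nat_lit 0) (nat_lit 1) (nat_lit 0) (nat_lit 432) (nat_lit 439) (nat_lit 209)))) (XT.nd (nat_lit 188) (nat_lit 0) (nat_lit 0) (XT.nd (nat_lit 94) (nat_lit 0) (nat_lit 0) (XT.lf (nat_lit 0) (nat_lit 469220050204) (nat_lit 0) (nat_lit 0) (nat_lit 0) (nat_lit 0) (nat_lit 0) (nat_lit 0) (nat_lit 1) (nat_lit 0) (nat_lit 1) (nat_lit 0) (nat_lit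 433) (nat_lit 439) (nat_lit 208)) (XT.lf (nat_lit 0) (nat_lit 469220049543) (nat_lit 0) (nat_lit 0) (nat_lit 0) (nat_lit 0) (nat_lit 0) (nat_lit 0) (nat_lit 1) (nat_lit 0) (nat_lit 1) (nat_lit 0) (nat_lit 434) (nat_lit 439) (nat_lit 207))) (XT.nd (nat_lit 94) (nat_lit 0) (nat_lit 0) (XT.lf (nat_lit 0) (nat_lit 469220048931) (nat_lit 0) (nat_lit 0) (nat_lit 0) (nat_lit 0) (nat_lit 0) (nat_lit 0) (nat_lit 1) (nat_lit 0) (nat_lit 1) (nat_lit 0) (nat_lit 435) (nat_lit 439) (nat_lit 206)) (XT.nd (nat_lit 94) (nat_lit 0) (nat_lit 0) (XT.lf (nat_lit 0) (nat_lit 469220048364) (nat_lit 0) (nat_lit 0) (nat_lit 0) (nat_lit 0) (nat_lit 0) (nat_lit 0) (nat_lit 1) (nat_lit 0) (nat_lit 1) (nat_lit 0) (nat_lit 436) (nat_lit 439) (nat_lit 205)) (XT.lf (nat_lit 0) (nat_lit 469220047839) (nat_lit 0) (nat_lit 0) (nat_lit 0) (nat_lit 0) (nat_lit 0) (nat_lit 0) (nat_lit 1) (nat_lit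 0) (nat_lit 1) (nat_lit 0) (nat_lit 437) (nat_lit 439) (nat_lit 204)))))) (XT.nd (nat_lit 470) (nat_lit 0) (nat_lit 0) (XT.nd (nat_lit 188) (nat_lit 0) (nat_lit 0) (XT.nd (nat_lit 94) (nat_lit 0) (nat_lit 0) (XT.lf (nat_lit 0) (nat_lit 469220047354) (nat_lit 0) (nat_lit 0) (nat_lit 0) (nat_lit 0) (nat_lit 0) (nat_lit 0) (nat_lit 1) (nat_lit 0) (nat_lit 1) (nat_lit 0) (nat_lit 438) (nat_lit 439) (nat_lit 203)) (XT.lf (nat_lit 0) (nat_lit 469220046904) (nat_lit 0) (nat_lit 0) (nat_lit 0) (nat_lit 0) (nat_lit 0) (nat_lit 0) (nat_lit 1) (nat_lit 0) (nat_lit 1) (nat_lit 0) (nat_lit 439) (nat_lit 439) (nat_lit 202))) (XT.nd (nat_lit 94) (nat_lit 0) (nat_lit 0) (XT.lf (nat_lit 0) (nat_lit 469220046487) (nat_lit 0) (nat_lit 0) (nat_lit 0) (nat_lit 0) (nat_lit 0) (nat_lit 0) (nat_lit 1) (nat_lit 0) (nat_lit 1) (nat_lit 0) (nat_lit 440) (nat_lit 439) (nat_lit 201))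 (XT.nd (nat_lit 94) (nat_lit 0) (nat_lit 0) (XT.lf (nat_lit 0) (nat_lit 469220046102) (nat_lit 0) (nat_lit 0) (nat_lit 0) (nat_lit 0) (nat_lit 0) (nat_lit 0) (nat_lit 1) (nat_lit 0) (nat_lit 1) (nat_lit 0) (nat_lit 441) (nat_lit 439) (nat_lit 200)) (XT.lf (nat_lit 0) (nat_lit 469220045745) (nat_lit 0) (nat_lit 0) (nat_lit 0) (nat_lit 0) (nat_lit 0) (nat_lit 0) (nat_lit 1) (nat_lit 0) (nat_lit 1) (nat_lit 0) (nat_lit 442) (nat_lit 439) (nat_lit 199))))) (XT.nd (nat_lit 188) (nat_lit 0) (nat_lit 0) (XT.nd (nat_lit 94) (nat_lit 0) (nat_lit 0) (XT.lf (nat_lit 0) (nat_lit 469220045414) (nat_lit 0) (nat_lit 0) (nat_lit 0) (nat_lit 0) (nat_lit 0) (nat_lit 0) (nat_lit 1) (nat_lit 0) (nat_lit 1) (nat_lit 0) (nat_lit 443) (nat_lit 439) (nat_lit 198)) (XT.lf (nat_lit 0) (nat_lit 469220045108) (nat_lit 0) (nat_lit 0) (nat_lit 0) (nat_lit 0) (nat_lit 0) (nat_lit 0) (nat_lit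 1) (nat_lit 0) (nat_lit 1) (nat_lit 0) (nat_lit 444) (nat_lit 439) (nat_lit 197))) (XT.nd (nat_lit 94) (nat_lit 0) (nat_lit 0) (XT.lf (nat_lit 0) (nat_lit 469220044824) (nat_lit 0) (nat_lit 0) (nat_lit 0) (nat_lit 0) (nat_lit 0) (nat_lit 0) (nat_lit 1) (nat_lit 0) (nat_lit 1) (nat_lit 0) (nat_lit 445) (nat_lit 439) (nat_lit 196)) (XT.nd (nat_lit 94) (nat_lit 0) (nat_lit 0) (XT.lf (nat_lit 0) (nat_lit 469220044562) (nat_lit 0) (nat_lit 0) (nat_lit 0) (nat_lit 0) (nat_lit 0) (nat_lit 0) (nat_lit 1) (nat_lit 0) (nat_lit 1) (nat_lit 0) (nat_lit 446) (nat_lit 439) (nat_lit 195)) (XT.lf (nat_lit 0) (nat_lit 469220044319) (nat_lit 0) (nat_lit 0) (nat_lit 0) (nat_lit 0) (nat_lit 0) (nat_lit 0) (nat_lit 1) (nat_lit 0) (nat_lit 1) (nat_lit 0) (nat_lit 447) (nat_lit 439) (nat_lit 194))))))))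
noncomputable def ec366 : XT := (XT.nd (nat_lit 1692) (nat_lit 3864) (nat_lit 0) (XT.nd (nat_lit 846) (nat_lit 2940) (nat_lit 0) (XT.nd (nat_lit 376) (nat_lit 1008) (nat_lit 0) (XT.nd (nat_lit 188) (nat_lit 0) (nat_lit 84) (XT.nd (nat_lit 94) (nat_lit 0) (nat_lit 84) (XT.lf (nat_lit 924) (nat_lit 253600507275) (nat_lit 0) (nat_lit 450267117743) (nat_lit 924) (nat_lit 253600507275) (nat_lit 139) (nat_lit 1) (nat_lit 128) (nat_lit 0) (nat_lit 139) (nat_lit 0) (nat_lit 200) (nat_lit 440) (nat_lit 440)) (XT.lf (nat_lit 924) (nat_lit 94600770726) (nat_lit 0) (nat_lit 884010817408) (nat_lit 840) (nat_lit 864559626010) (nat_lit 140) (nat_lit 1) (nat_lit 129) (nat_lit 1) (nat_lit 139) (nat_lit 1) (nat_lit 201) (nat_lit 440) (nat_lit 439))) (XT.nd (nat_lit 94) (nat_lit 0) (nat_lit 84) (XT.lf (nat_lit 924) (nat_lit 868853474767) (nat_lit 84) (nat_lit 592022342399) (nat_lit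 0) (nat_lit 313981644657) (nat_lit 140) (nat_lit 1) (nat_lit 130) (nat_lit 1) (nat_lit 129) (nat_lit 1) (nat_lit 202) (nat_lit 440) (nat_lit 438)) (XT.lf (nat_lit 924) (nat_lit 750760579700) (nat_lit 84) (nat_lit 248112460188) (nat_lit 0) (nat_lit 711089263051) (nat_lit 141) (nat_lit 1) (nat_lit 131) (nat_lit 1) (nat_lit 130) (nat_lit 1) (nat_lit 203) (nat_lit 440) (nat_lit 437)))) (XT.nd (nat_lit 188) (nat_lit 1260) (nat_lit 0) (XT.nd (nat_lit 94) (nat_lit 0) (nat_lit 84) (XT.lf (nat_lit 924) (nat_lit 555626656426) (nat_lit 0) (nat_lit 1039551210838) (nat_lit 840) (nat_lit 53141709376) (nat_lit 142) (nat_lit 1) (nat_lit 131) (nat_lit 1) (nat_lit 141) (nat_lit 1) (nat_lit 204) (nat_lit 440) (nat_lit 436)) (XT.lf (nat_lit 924) (nat_lit 133317168440) (nat_lit 0) (nat_lit 1146394008475) (nat_lit 840) (nat_lit 309909545102) (nat_lit 143) (nat_lit 1) (nat_lit 132)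 (nat_lit 1) (nat_lit 142) (nat_lit 1) (nat_lit 205) (nat_lit 440) (nat_lit 435))) (XT.nd (nat_lit 94) (nat_lit 1344) (nat_lit 0) (XT.lf (nat_lit 924) (nat_lit 256181373060) (nat_lit 84) (nat_lit 996309748235) (nat_lit 0) (nat_lit 281170903079) (nat_lit 143) (nat_lit 1) (nat_lit 133) (nat_lit 1) (nat_lit 132) (nat_lit 1) (nat_lit 206) (nat_lit 440) (nat_lit 434)) (XT.nd (nat_lit 94) (nat_lit 588) (nat_lit 0) (XT.lf (nat_lit 924) (nat_lit 52613812307) (nat_lit 0) (nat_lit 744807440162) (nat_lit 840) (nat_lit 682980618658) (nat_lit 134) (nat_lit 1) (nat_lit 123) (nat_lit 1) (nat_lit 133) (nat_lit 1) (nat_lit 207) (nat_lit 440) (nat_lit 433)) (XT.lf (nat_lit 84) (nat_lit 364308996309) (nat_lit 0) (nat_lit 157872041668) (nat_lit 588) (nat_lit 907482496732) (nat_lit 117) (nat_lit 1) (nat_lit 116) (nat_lit 1) (nat_lit 123) (nat_lit 1) (nat_lit 208) (nat_lit 440)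 (nat_lit 432)))))) (XT.nd (nat_lit 376) (nat_lit 1764) (nat_lit 0) (XT.nd (nat_lit 188) (nat_lit 336) (nat_lit 0) (XT.nd (nat_lit 94) (nat_lit 420) (nat_lit 0) (XT.lf (nat_lit 504) (nat_lit 1003989739419) (nat_lit 0) (nat_lit 326820304452) (nat_lit 420) (nat_lit 50528438460) (nat_lit 117) (nat_lit 1) (nat_lit 111) (nat_lit 1) (nat_lit 116) (nat_lit 1) (nat_lit 209) (nat_lit 440) (nat_lit 431)) (XT.lf (nat_lit 504) (nat_lit 724488556680) (nat_lit 0) (nat_lit 152332351730) (nat_lit 420) (nat_lit 458270412383) (nat_lit 112) (nat_lit 1) (nat_lit 106) (nat_lit 1) (nat_lit 111) (nat_lit 1) (nat_lit 210) (nat_lit 440) (nat_lit 430))) (XT.nd (nat_lit 94) (nat_lit 0) (nat_lit 0) (XT.lf (nat_lit 420) (nat_lit 440842046657) (nat_lit 0) (nat_lit 2804686149) (nat_lit 336) (nat_lit 847439850758) (nat_lit 107) (nat_lit 1) (nat_lit 102) (nat_lit 1) (nat_lit 106) (nat_lit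 1) (nat_lit 211) (nat_lit 440) (nat_lit 429)) (XT.lf (nat_lit 84) (nat_lit 32523242788) (nat_lit 0) (nat_lit 1096841340912) (nat_lit 420) (nat_lit 119741559116) (nat_lit 103) (nat_lit 1) (nat_lit 102) (nat_lit 1) (nat_lit 107) (nat_lit 1) (nat_lit 212) (nat_lit 440) (nat_lit 428)))) (XT.nd (nat_lit 188) (nat_lit 1008) (nat_lit 0) (XT.nd (nat_lit 94) (nat_lit 336) (nat_lit 0) (XT.lf (nat_lit 84) (nat_lit 839758564346) (nat_lit 0) (nat_lit 139282943258) (nat_lit 420) (nat_lit 229702869134) (nat_lit 98) (nat_lit 1) (nat_lit 97) (nat_lit 1) (nat_lit 102) (nat_lit 1) (nat_lit 213) (nat_lit 440) (nat_lit 427)) (XT.lf (nat_lit 84) (nat_lit 420152489768) (nat_lit 0) (nat_lit 426648380184) (nat_lit 420) (nat_lit 323365129327) (nat_lit 94) (nat_lit 1) (nat_lit 93) (nat_lit 1) (nat_lit 98) (nat_lit 1) (nat_lit 214) (nat_lit 440) (nat_lit 426))) (XT.nd (nat_lit 94) (nat_lit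 672) (nat_lit 0) (XT.lf (nat_lit 84) (nat_lit 20737795223) (nat_lit 0) (nat_lit 713349466760) (nat_lit 420) (nat_lit 399326918511) (nat_lit 90) (nat_lit 1) (nat_lit 89) (nat_lit 1) (nat_lit 94) (nat_lit 1) (nat_lit 215) (nat_lit 440) (nat_lit 425)) (XT.nd (nat_lit 94) (nat_lit 420) (nat_lit 0) (XT.lf (nat_lit 336) (nat_lit 93650714451) (nat_lit 0) (nat_lit 633314954105) (nat_lit 252) (nat_lit 371137118271) (nat_lit 90) (nat_lit 1) (nat_lit 86) (nat_lit 1) (nat_lit 89) (nat_lit 1) (nat_lit 216) (nat_lit 440) (nat_lit 424)) (XT.lf (nat_lit 84) (nat_lit 323588397334) (nat_lit 0) (nat_lit 221789498223) (nat_lit 420) (nat_lit 518872275295) (nat_lit 82) (nat_lit 1) (nat_lit 81) (nat_lit 1) (nat_lit 86) (nat_lit 1) (nat_lit 217) (nat_lit 440) (nat_lit 423))))))) (XT.nd (nat_lit 846) (nat_lit 1680) (nat_lit 0) (XT.nd (nat_lit 376) (nat_lit 1092) (nat_lit 0) (XT.nd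 (nat_lit 188) (nat_lit 588) (nat_lit 0) (XT.nd (nat_lit 94) (nat_lit 252) (nat_lit 0) (XT.lf (nat_lit 336) (nat_lit 500992672176) (nat_lit 0) (nat_lit 470617863731) (nat_lit 252) (nat_lit 60238528016) (nat_lit 82) (nat_lit 1) (nat_lit 78) (nat_lit 1) (nat_lit 81) (nat_lit 1) (nat_lit 218) (nat_lit 440) (nat_lit 422)) (XT.lf (nat_lit 336) (nat_lit 160565731106) (nat_lit 0) (nat_lit 405182709060) (nat_lit 252) (nat_lit 434944700416) (nat_lit 79) (nat_lit 1) (nat_lit 75) (nat_lit 1) (nat_lit 78) (nat_lit 1) (nat_lit 219) (nat_lit 440) (nat_lit 421))) (XT.nd (nat_lit 94) (nat_lit 252) (nat_lit 0) (XT.lf (nat_lit 84) (nat_lit 183006135608) (nat_lit 0) (nat_lit 167558020735) (nat_lit 336) (nat_lit 620267025057) (nat_lit 72) (nat_lit 1) (nat_lit 71) (nat_lit 1) (nat_lit 75) (nat_lit 1) (nat_lit 220) (nat_lit 440) (nat_lit 420)) (XT.lf (nat_lit 336) (nat_lit 455386748963)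 (nat_lit 0) (nat_lit 302997467433) (nat_lit 252) (nat_lit 183678060964) (nat_lit 72) (nat_lit 1) (nat_lit 68) (nat_lit 1) (nat_lit 71) (nat_lit 1) (nat_lit 221) (nat_lit 440) (nat_lit 419)))) (XT.nd (nat_lit 188) (nat_lit 588) (nat_lit 0) (XT.nd (nat_lit 94) (nat_lit 336) (nat_lit 0) (XT.lf (nat_lit 252) (nat_lit 112891047477) (nat_lit 0) (nat_lit 264343189639) (nat_lit 168) (nat_lit 537219754056) (nat_lit 69) (nat_lit 1) (nat_lit 66) (nat_lit 1) (nat_lit 68) (nat_lit 1) (nat_lit 222) (nat_lit 440) (nat_lit 418)) (XT.lf (nat_lit 84) (nat_lit 19124464678) (nat_lit 0) (nat_lit 214006911464) (nat_lit 336) (nat_lit 654784498746) (nat_lit 63) (nat_lit 1) (nat_lit 62) (nat_lit 1) (nat_lit 66) (nat_lit 1) (nat_lit 223) (nat_lit 440) (nat_lit 417))) (XT.nd (nat_lit 94) (nat_lit 420) (nat_lit 0) (XT.lf (nat_lit 252) (nat_lit 328040669921) (nat_lit 0) (nat_lit 204997276145)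 (nat_lit 168) (nat_lit 329182254754) (nat_lit 63) (nat_lit 1) (nat_lit 60) (nat_lit 1) (nat_lit 62) (nat_lit 1) (nat_lit 224) (nat_lit 440) (nat_lit 416)) (XT.nd (nat_lit 94) (nat_lit 168) (nat_lit 0) (XT.lf (nat_lit 84) (nat_lit 177981158595) (nat_lit 0) (nat_lit 8221061300) (nat_lit 252) (nat_lit 651443577530) (nat_lit 58) (nat_lit 1) (nat_lit 57) (nat_lit 1) (nat_lit 60) (nat_lit 1) (nat_lit 225) (nat_lit 440) (nat_lit 415)) (XT.lf (nat_lit 252) (nat_lit 486566118619) (nat_lit 0) (nat_lit 168606069829) (nat_lit 168) (nat_lit 158614057484) (nat_lit 58) (nat_lit 1) (nat_lit 55) (nat_lit 1) (nat_lit 57) (nat_lit 1) (nat_lit 226) (nat_lit 440) (nat_lit 414)))))) (XT.nd (nat_lit 470) (nat_lit 756) (nat_lit 0) (XT.nd (nat_lit 188) (nat_lit 504) (nat_lit 0) (XT.nd (nat_lit 94) (nat_lit 252) (nat_lit 0) (XT.lf (nat_lit 252) (nat_lit 151146934509) (nat_lit 0) (nat_lit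 156737986649) (nat_lit 168) (nat_lit 482954028360) (nat_lit 56) (nat_lit 1) (nat_lit 53) (nat_lit 1) (nat_lit 55) (nat_lit 1) (nat_lit 227) (nat_lit 440) (nat_lit 413)) (XT.lf (nat_lit 252) (nat_lit 599997781939) (nat_lit 0) (nat_lit 149750424595) (nat_lit 168) (nat_lit 18997578715) (nat_lit 53) (nat_lit 1) (nat_lit 50) (nat_lit 1) (nat_lit 52) (nat_lit 1) (nat_lit 228) (nat_lit 440) (nat_lit 412))) (XT.nd (nat_lit 94) (nat_lit 336) (nat_lit 0) (XT.lf (nat_lit 252) (nat_lit 268531199650) (nat_lit 0) (nat_lit 142961167622) (nat_lit 168) (nat_lit 335774153008) (nat_lit 51) (nat_lit 1) (nat_lit 48) (nat_lit 1) (nat_lit 50) (nat_lit 1) (nat_lit 229) (nat_lit 440) (nat_lit 411)) (XT.nd (nat_lit 94) (nat_lit 168) (nat_lit 0) (XT.lf (nat_lit 84) (nat_lit 91982303580) (nat_lit 0) (nat_lit 50557618892) (nat_lit 168) (nat_lit 584138237247) (nat_lit 47) (nat_lit 1) (nat_lit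 46) (nat_lit 1) (nat_lit 48) (nat_lit 1) (nat_lit 230) (nat_lit 440) (nat_lit 410)) (XT.lf (nat_lit 252) (nat_lit 352328377359) (nat_lit 0) (nat_lit 141030583358) (nat_lit 168) (nat_lit 213250366146) (nat_lit 47) (nat_lit 1) (nat_lit 44) (nat_lit 1) (nat_lit 46) (nat_lit 1) (nat_lit 231) (nat_lit 440) (nat_lit 409))))) (XT.nd (nat_lit 188) (nat_lit 420) (nat_lit 0) (XT.nd (nat_lit 94) (nat_lit 252) (nat_lit 0) (XT.lf (nat_lit 168) (nat_lit 37940759719) (nat_lit 0) (nat_lit 144494476735) (nat_lit 84) (nat_lit 504897549246) (nat_lit 45) (nat_lit 1) (nat_lit 43) (nat_lit 1) (nat_lit 44) (nat_lit 1) (nat_lit 232) (nat_lit 440) (nat_lit 408)) (XT.lf (nat_lit 252) (nat_lit 409556493608) (nat_lit 0) (nat_lit 147779290854) (nat_lit 168) (nat_lit 111251973838) (nat_lit 43) (nat_lit 1) (nat_lit 40) (nat_lit 1) (nat_lit 42) (nat_lit 1) (nat_lit 233) (nat_lit 440) (nat_lit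 407))) (XT.nd (nat_lit 94) (nat_lit 336) (nat_lit 0) (XT.lf (nat_lit 168) (nat_lit 103006478202) (nat_lit 0) (nat_lit 153304907452) (nat_lit 84) (nat_lit 394163090323) (nat_lit 41) (nat_lit 1) (nat_lit 39) (nat_lit 1) (nat_lit 40) (nat_lit 1) (nat_lit 234) (nat_lit 440) (nat_lit 406)) (XT.nd (nat_lit 94) (nat_lit 84) (nat_lit 0) (XT.lf (nat_lit 252) (nat_lit 445889712042) (nat_lit 0) (nat_lit 160698848494) (nat_lit 168) (nat_lit 26372056696) (nat_lit 39) (nat_lit 1) (nat_lit 36) (nat_lit 1) (nat_lit 38) (nat_lit 1) (nat_lit 235) (nat_lit 440) (nat_lit 405)) (XT.lf (nat_lit 168) (nat_lit 148240453797) (nat_lit 0) (nat_lit 167530480550) (nat_lit 84) (nat_lit 300145323944) (nat_lit 37) (nat_lit 1) (nat_lit 35) (nat_lit 1) (nat_lit 36) (nat_lit 1) (nat_lit 236) (nat_lit 440) (nat_lit 404))))))))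
noncomputable def ec367 : XT := (XT.nd (nat_lit 1786) (nat_lit 336) (nat_lit 0) (XT.nd (nat_lit 846) (nat_lit 1260) (nat_lit 0) (XT.nd (nat_lit 376) (nat_lit 672) (nat_lit 0) (XT.nd (nat_lit 188) (nat_lit 336) (nat_lit 0) (XT.nd (nat_lit 94) (nat_lit 84) (nat_lit 0) (XT.lf (nat_lit 84) (nat_lit 42788094391) (nat_lit 0) (nat_lit 134300422646) (nat_lit 252) (nat_lit 422395702061) (nat_lit 33) (nat_lit 1) (nat_lit 32) (nat_lit 1) (nat_lit 35) (nat_lit 1) (nat_lit 237) (nat_lit 440) (nat_lit 403)) (XT.lf (nat_lit 168) (nat_lit 177901919218) (nat_lit 0) (nat_lit 185365367465) (nat_lit 84) (nat_lit 220192972800) (nat_lit 33) (nat_lit 1) (nat_lit 31) (nat_lit 1) (nat_lit 32) (nat_lit 1) (nat_lit 238) (nat_lit 440) (nat_lit 402))) (XT.nd (nat_lit 94) (nat_lit 84) (nat_lit 0) (XT.lf (nat_lit 84) (nat_lit 99509175391) (nat_lit 0) (nat_lit 96381365159) (nat_lit 252)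 (nat_lit 372108880506) (nat_lit 29) (nat_lit 1) (nat_lit 28) (nat_lit 1) (nat_lit 31) (nat_lit 1) (nat_lit 239) (nat_lit 440) (nat_lit 401)) (XT.lf (nat_lit 168) (nat_lit 195425657441) (nat_lit 0) (nat_lit 205399915176) (nat_lit 84) (nat_lit 152108028578) (nat_lit 29) (nat_lit 1) (nat_lit 27) (nat_lit 1) (nat_lit 28) (nat_lit 1) (nat_lit 240) (nat_lit 440) (nat_lit 400)))) (XT.nd (nat_lit 188) (nat_lit 420) (nat_lit 0) (XT.nd (nat_lit 94) (nat_lit 84) (nat_lit 0) (XT.lf (nat_lit 84) (nat_lit 146500516687) (nat_lit 0) (nat_lit 69804874887) (nat_lit 168) (nat_lit 322059944331) (nat_lit 26) (nat_lit 1) (nat_lit 25) (nat_lit 1) (nat_lit 27) (nat_lit 1) (nat_lit 241) (nat_lit 440) (nat_lit 399)) (XT.lf (nat_lit 168) (nat_lit 203576055825) (nat_lit 0) (nat_lit 226543433329) (nat_lit 84) (nat_lit 94064898127) (nat_lit 26) (nat_lit 1) (nat_lit 24) (nat_lit 1) (nat_lit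 25) (nat_lit 1) (nat_lit 242) (nat_lit 440) (nat_lit 398))) (XT.nd (nat_lit 94) (nat_lit 252) (nat_lit 0) (XT.lf (nat_lit 84) (nat_lit 185309532243) (nat_lit 0) (nat_lit 52075346870) (nat_lit 168) (nat_lit 273054750693) (nat_lit 23) (nat_lit 1) (nat_lit 22) (nat_lit 1) (nat_lit 24) (nat_lit 1) (nat_lit 243) (nat_lit 440) (nat_lit 397)) (XT.nd (nat_lit 94) (nat_lit 168) (nat_lit 0) (XT.lf (nat_lit 168) (nat_lit 204572720816) (nat_lit 0) (nat_lit 247961442640) (nat_lit 84) (nat_lit 44544234789) (nat_lit 23) (nat_lit 1) (nat_lit 21) (nat_lit 1) (nat_lit 22) (nat_lit 1) (nat_lit 244) (nat_lit 440) (nat_lit 396)) (XT.lf (nat_lit 84) (nat_lit 217222295736) (nat_lit 0) (nat_lit 41186082717) (nat_lit 168) (nat_lit 225687750968) (nat_lit 20) (nat_lit 1) (nat_lit 19) (nat_lit 1) (nat_lit 21) (nat_lit 1) (nat_lit 245) (nat_lit 440) (nat_lit 395)))))) (XT.nd (nat_lit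 470) (nat_lit 672) (nat_lit 0) (XT.nd (nat_lit 188) (nat_lit 336) (nat_lit 0) (XT.nd (nat_lit 94) (nat_lit 168) (nat_lit 0) (XT.lf (nat_lit 168) (nat_lit 200192881912) (nat_lit 0) (nat_lit 269024712822) (nat_lit 84) (nat_lit 2278769737) (nat_lit 20) (nat_lit 1) (nat_lit 18) (nat_lit 1) (nat_lit 19) (nat_lit 1) (nat_lit 246) (nat_lit 440) (nat_lit 394)) (XT.lf (nat_lit 84) (nat_lit 243309800332) (nat_lit 0) (nat_lit 35527489657) (nat_lit 168) (nat_lit 180385071622) (nat_lit 17) (nat_lit 1) (nat_lit 16) (nat_lit 1) (nat_lit 18) (nat_lit 1) (nat_lit 247) (nat_lit 440) (nat_lit 393))) (XT.nd (nat_lit 94) (nat_lit 252) (nat_lit 0) (XT.lf (nat_lit 0) (nat_lit 32709525113) (nat_lit 0) (nat_lit 256004432890) (nat_lit 168) (nat_lit 158591376815) (nat_lit 15) (nat_lit 3) (nat_lit 15) (nat_lit 1) (nat_lit 17) (nat_lit 1) (nat_lit 248) (nat_lit 440) (nat_lit 392)) (XT.nd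 (nat_lit 94) (nat_lit 84) (nat_lit 0) (XT.lf (nat_lit 84) (nat_lit 264465844801) (nat_lit 0) (nat_lit 33812257338) (nat_lit 168) (nat_lit 137439416693) (nat_lit 14) (nat_lit 1) (nat_lit 13) (nat_lit 1) (nat_lit 15) (nat_lit 1) (nat_lit 249) (nat_lit 440) (nat_lit 391)) (XT.lf (nat_lit 0) (nat_lit 62487293991) (nat_lit 0) (nat_lit 244810525242) (nat_lit 168) (nat_lit 117140493280) (nat_lit 12) (nat_lit 3) (nat_lit 12) (nat_lit 1) (nat_lit 14) (nat_lit 1) (nat_lit 250) (nat_lit 440) (nat_lit 390))))) (XT.nd (nat_lit 188) (nat_lit 420) (nat_lit 0) (XT.nd (nat_lit 94) (nat_lit 84) (nat_lit 0) (XT.lf (nat_lit 84) (nat_lit 281438075152) (nat_lit 0) (nat_lit 35014388961) (nat_lit 168) (nat_lit 97038309342) (nat_lit 11) (nat_lit 1) (nat_lit 10) (nat_lit 1) (nat_lit 12) (nat_lit 1) (nat_lit 251) (nat_lit 440) (nat_lit 389)) (XT.lf (nat_lit 0) (nat_lit 87850181205)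 (nat_lit 0) (nat_lit 236719499295) (nat_lit 168) (nat_lit 78240360165) (nat_lit 9) (nat_lit 3) (nat_lit 9) (nat_lit 1) (nat_lit 11) (nat_lit 1) (nat_lit 252) (nat_lit 440) (nat_lit 388))) (XT.nd (nat_lit 94) (nat_lit 252) (nat_lit 0) (XT.lf (nat_lit 84) (nat_lit 294853430777) (nat_lit 0) (nat_lit 38319536936) (nat_lit 168) (nat_lit 59286910473) (nat_lit 8) (nat_lit 1) (nat_lit 7) (nat_lit 1) (nat_lit 9) (nat_lit 1) (nat_lit 253) (nat_lit 440) (nat_lit 387)) (XT.nd (nat_lit 94) (nat_lit 168) (nat_lit 0) (XT.lf (nat_lit 0) (nat_lit 109407503908) (nat_lit 0) (nat_lit 230961261575) (nat_lit 168) (nat_lit 41972811441) (nat_lit 6) (nat_lit 3) (nat_lit 6) (nat_lit 1) (nat_lit 8) (nat_lit 1) (nat_lit 254) (nat_lit 440) (nat_lit 386)) (XT.lf (nat_lit 84) (nat_lit 305239015413) (nat_lit 0) (nat_lit 43084561600) (nat_lit 168) (nat_lit 24226424336) (nat_lit 5) (nat_lit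 1) (nat_lit 4) (nat_lit 1) (nat_lit 6) (nat_lit 1) (nat_lit 255) (nat_lit 440) (nat_lit 385))))))) (XT.nd (nat_lit 846) (nat_lit 0) (nat_lit 0) (XT.nd (nat_lit 376) (nat_lit 0) (nat_lit 0) (XT.nd (nat_lit 188) (nat_lit 0) (nat_lit 0) (XT.nd (nat_lit 94) (nat_lit 252) (nat_lit 0) (XT.lf (nat_lit 0) (nat_lit 127674599092) (nat_lit 0) (nat_lit 226924842141) (nat_lit 168) (nat_lit 8361545117) (nat_lit 3) (nat_lit 3) (nat_lit 3) (nat_lit 1) (nat_lit 5) (nat_lit 1) (nat_lit 256) (nat_lit 440) (nat_lit 384)) (XT.lf (nat_lit 0) (nat_lit 513062080668) (nat_lit 0) (nat_lit 0) (nat_lit 0) (nat_lit 0) (nat_lit 0) (nat_lit 0) (nat_lit 1) (nat_lit 0) (nat_lit 1) (nat_lit 0) (nat_lit 257) (nat_lit 440) (nat_lit 383))) (XT.nd (nat_lit 94) (nat_lit 0) (nat_lit 0) (XT.lf (nat_lit 0) (nat_lit 512595085402) (nat_lit 0) (nat_lit 0) (nat_lit 0) (nat_lit 0) (nat_lit 0) (nat_lit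 0) (nat_lit 1) (nat_lit 0) (nat_lit 1) (nat_lit 0) (nat_lit 258) (nat_lit 440) (nat_lit 382)) (XT.lf (nat_lit 0) (nat_lit 512162682379) (nat_lit 0) (nat_lit 0) (nat_lit 0) (nat_lit 0) (nat_lit 0) (nat_lit 0) (nat_lit 1) (nat_lit 0) (nat_lit 1) (nat_lit 0) (nat_lit 259) (nat_lit 440) (nat_lit 381)))) (XT.nd (nat_lit 188) (nat_lit 0) (nat_lit 0) (XT.nd (nat_lit 94) (nat_lit 0) (nat_lit 0) (XT.lf (nat_lit 0) (nat_lit 511762309209) (nat_lit 0) (nat_lit 0) (nat_lit 0) (nat_lit 0) (nat_lit 0) (nat_lit 0) (nat_lit 1) (nat_lit 0) (nat_lit 1) (nat_lit 0) (nat_lit 260) (nat_lit 440) (nat_lit 380)) (XT.lf (nat_lit 0) (nat_lit 511391593311) (nat_lit 0) (nat_lit 0) (nat_lit 0) (nat_lit 0) (nat_lit 0) (nat_lit 0) (nat_lit 1) (nat_lit 0) (nat_lit 1) (nat_lit 0) (nat_lit 261) (nat_lit 440) (nat_lit 379))) (XT.nd (nat_lit 94) (nat_lit 0) (nat_lit 0) (XT.lf (nat_lit 0) (nat_lit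 511048337849) (nat_lit 0) (nat_lit 0) (nat_lit 0) (nat_lit 0) (nat_lit 0) (nat_lit 0) (nat_lit 1) (nat_lit 0) (nat_lit 1) (nat_lit 0) (nat_lit 262) (nat_lit 440) (nat_lit 378)) (XT.nd (nat_lit 94) (nat_lit 0) (nat_lit 0) (XT.lf (nat_lit 0) (nat_lit 510730508719) (nat_lit 0) (nat_lit 0) (nat_lit 0) (nat_lit 0) (nat_lit 0) (nat_lit 0) (nat_lit 1) (nat_lit 0) (nat_lit 1) (nat_lit 0) (nat_lit 263) (nat_lit 440) (nat_lit 377)) (XT.lf (nat_lit 0) (nat_lit 510436222486) (nat_lit 0) (nat_lit 0) (nat_lit 0) (nat_lit 0) (nat_lit 0) (nat_lit 0) (nat_lit 1) (nat_lit 0) (nat_lit 1) (nat_lit 0) (nat_lit 264) (nat_lit 440) (nat_lit 376)))))) (XT.nd (nat_lit 470) (nat_lit 0) (nat_lit 0) (XT.nd (nat_lit 188) (nat_lit 0) (nat_lit 0) (XT.nd (nat_lit 94) (nat_lit 0) (nat_lit 0) (XT.lf (nat_lit 0) (nat_lit 510163735234) (nat_lit 0) (nat_lit 0) (nat_lit 0) (nat_lit 0) (nat_lit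 0) (nat_lit 0) (nat_lit 1) (nat_lit 0) (nat_lit 1) (nat_lit 0) (nat_lit 265) (nat_lit 440) (nat_lit 375)) (XT.lf (nat_lit 0) (nat_lit 509911432223) (nat_lit 0) (nat_lit 0) (nat_lit 0) (nat_lit 0) (nat_lit 0) (nat_lit 0) (nat_lit 1) (nat_lit 0) (nat_lit 1) (nat_lit 0) (nat_lit 266) (nat_lit 440) (nat_lit 374))) (XT.nd (nat_lit 94) (nat_lit 0) (nat_lit 0) (XT.lf (nat_lit 0) (nat_lit 509677818324) (nat_lit 0) (nat_lit 0) (nat_lit 0) (nat_lit 0) (nat_lit 0) (nat_lit 0) (nat_lit 1) (nat_lit 0) (nat_lit 1) (nat_lit 0) (nat_lit 267) (nat_lit 440) (nat_lit 373)) (XT.nd (nat_lit 94) (nat_lit 0) (nat_lit 0) (XT.lf (nat_lit 0) (nat_lit 509461509158) (nat_lit 0) (nat_lit 0) (nat_lit 0) (nat_lit 0) (nat_lit 0) (nat_lit 0) (nat_lit 1) (nat_lit 0) (nat_lit 1) (nat_lit 0) (nat_lit 268) (nat_lit 440) (nat_lit 372)) (XT.lf (nat_lit 0) (nat_lit 509261222893) (nat_lit 0) (nat_lit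 0) (nat_lit 0) (nat_lit 0) (nat_lit 0) (nat_lit 0) (nat_lit 1) (nat_lit 0) (nat_lit 1) (nat_lit 0) (nat_lit 269) (nat_lit 440) (nat_lit 371))))) (XT.nd (nat_lit 188) (nat_lit 0) (nat_lit 0) (XT.nd (nat_lit 94) (nat_lit 0) (nat_lit 0) (XT.lf (nat_lit 0) (nat_lit 509075772648) (nat_lit 0) (nat_lit 0) (nat_lit 0) (nat_lit 0) (nat_lit 0) (nat_lit 0) (nat_lit 1) (nat_lit 0) (nat_lit 1) (nat_lit 0) (nat_lit 270) (nat_lit 440) (nat_lit 370)) (XT.lf (nat_lit 0) (nat_lit 508904059458) (nat_lit 0) (nat_lit 0) (nat_lit 0) (nat_lit 0) (nat_lit 0) (nat_lit 0) (nat_lit 1) (nat_lit 0) (nat_lit 1) (nat_lit 0) (nat_lit 271) (nat_lit 440) (nat_lit 369))) (XT.nd (nat_lit 94) (nat_lit 0) (nat_lit 0) (XT.lf (nat_lit 0) (nat_lit 508745065764) (nat_lit 0) (nat_lit 0) (nat_lit 0) (nat_lit 0) (nat_lit 0) (nat_lit 0) (nat_lit 1) (nat_lit 0) (nat_lit 1) (nat_lit 0) (nat_lit 272) (nat_lit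 440) (nat_lit 368)) (XT.nd (nat_lit 94) (nat_lit 0) (nat_lit 0) (XT.lf (nat_lit 0) (nat_lit 508597849380) (nat_lit 0) (nat_lit 0) (nat_lit 0) (nat_lit 0) (nat_lit 0) (nat_lit 0) (nat_lit 1) (nat_lit 0) (nat_lit 1) (nat_lit 0) (nat_lit 273) (nat_lit 440) (nat_lit 367)) (XT.lf (nat_lit 0) (nat_lit 508461537914) (nat_lit 0) (nat_lit 0) (nat_lit 0) (nat_lit 0) (nat_lit 0) (nat_lit 0) (nat_lit 1) (nat_lit 0) (nat_lit 1) (nat_lit 0) (nat_lit 274) (nat_lit 440) (nat_lit 366))))))))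
noncomputable def ec368 : XT := (XT.nd (nat_lit 1692) (nat_lit 0) (nat_lit 0) (XT.nd (nat_lit 846) (nat_lit 0) (nat_lit 0) (XT.nd (nat_lit 376) (nat_lit 0) (nat_lit 0) (XT.nd (nat_lit 188) (nat_lit 0) (nat_lit 0) (XT.nd (nat_lit 94) (nat_lit 0) (nat_lit 0) (XT.lf (nat_lit 0) (nat_lit 508335323593) (nat_lit 0) (nat_lit 0) (nat_lit 0) (nat_lit 0) (nat_lit 0) (nat_lit 0) (nat_lit 1) (nat_lit 0) (nat_lit 1) (nat_lit 0) (nat_lit 275) (nat_lit 440) (nat_lit 365)) (XT.lf (nat_lit 0) (nat_lit 508218458481) (nat_lit 0) (nat_lit 0) (nat_lit 0) (nat_lit 0) (nat_lit 0) (nat_lit 0) (nat_lit 1) (nat_lit 0) (nat_lit 1) (nat_lit 0) (nat_lit 276) (nat_lit 440) (nat_lit 364))) (XT.nd (nat_lit 94) (nat_lit 0) (nat_lit 0) (XT.lf (nat_lit 0) (nat_lit 508110250044) (nat_lit 0) (nat_lit 0) (nat_lit 0) (nat_lit 0) (nat_lit 0) (nat_lit 0) (nat_lit 1) (nat_lit 0) (nat_lit 1) (nat_lit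 0) (nat_lit 277) (nat_lit 440) (nat_lit 363)) (XT.lf (nat_lit 0) (nat_lit 508010057047) (nat_lit 0) (nat_lit 0) (nat_lit 0) (nat_lit 0) (nat_lit 0) (nat_lit 0) (nat_lit 1) (nat_lit 0) (nat_lit 1) (nat_lit 0) (nat_lit 278) (nat_lit 440) (nat_lit 362)))) (XT.nd (nat_lit 188) (nat_lit 0) (nat_lit 0) (XT.nd (nat_lit 94) (nat_lit 0) (nat_lit 0) (XT.lf (nat_lit 0) (nat_lit 507917285754) (nat_lit 0) (nat_lit 0) (nat_lit 0) (nat_lit 0) (nat_lit 0) (nat_lit 0) (nat_lit 1) (nat_lit 0) (nat_lit 1) (nat_lit 0) (nat_lit 279) (nat_lit 440) (nat_lit 361)) (XT.lf (nat_lit 0) (nat_lit 507831386408) (nat_lit 0) (nat_lit 0) (nat_lit 0) (nat_lit 0) (nat_lit 0) (nat_lit 0) (nat_lit 1) (nat_lit 0) (nat_lit 1) (nat_lit 0) (nat_lit 280) (nat_lit 440) (nat_lit 360))) (XT.nd (nat_lit 94) (nat_lit 0) (nat_lit 0) (XT.lf (nat_lit 0) (nat_lit 507751849976) (nat_lit 0) (nat_lit 0) (nat_lit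 0) (nat_lit 0) (nat_lit 0) (nat_lit 0) (nat_lit 1) (nat_lit 0) (nat_lit 1) (nat_lit 0) (nat_lit 281) (nat_lit 440) (nat_lit 359)) (XT.nd (nat_lit 94) (nat_lit 0) (nat_lit 0) (XT.lf (nat_lit 0) (nat_lit 507678205132) (nat_lit 0) (nat_lit 0) (nat_lit 0) (nat_lit 0) (nat_lit 0) (nat_lit 0) (nat_lit 1) (nat_lit 0) (nat_lit 1) (nat_lit 0) (nat_lit 282) (nat_lit 440) (nat_lit 358)) (XT.lf (nat_lit 0) (nat_lit 507610015462) (nat_lit 0) (nat_lit 0) (nat_lit 0) (nat_lit 0) (nat_lit 0) (nat_lit 0) (nat_lit 1) (nat_lit 0) (nat_lit 1) (nat_lit 0) (nat_lit 283) (nat_lit 440) (nat_lit 357)))))) (XT.nd (nat_lit 376) (nat_lit 0) (nat_lit 0) (XT.nd (nat_lit 188) (nat_lit 0) (nat_lit 0) (XT.nd (nat_lit 94) (nat_lit 0) (nat_lit 0) (XT.lf (nat_lit 0) (nat_lit 507546876878) (nat_lit 0) (nat_lit 0) (nat_lit 0) (nat_lit 0) (nat_lit 0) (nat_lit 0) (nat_lit 1) (nat_lit 0) (nat_lit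 1) (nat_lit 0) (nat_lit 284) (nat_lit 440) (nat_lit 356)) (XT.lf (nat_lit 0) (nat_lit 507488415227) (nat_lit 0) (nat_lit 0) (nat_lit 0) (nat_lit 0) (nat_lit 0) (nat_lit 0) (nat_lit 1) (nat_lit 0) (nat_lit 1) (nat_lit 0) (nat_lit 285) (nat_lit 440) (nat_lit 355))) (XT.nd (nat_lit 94) (nat_lit 0) (nat_lit 0) (XT.lf (nat_lit 0) (nat_lit 507434284068) (nat_lit 0) (nat_lit 0) (nat_lit 0) (nat_lit 0) (nat_lit 0) (nat_lit 0) (nat_lit 1) (nat_lit 0) (nat_lit 1) (nat_lit 0) (nat_lit 286) (nat_lit 440) (nat_lit 354)) (XT.lf (nat_lit 0) (nat_lit 507384162625) (nat_lit 0) (nat_lit 0) (nat_lit 0) (nat_lit 0) (nat_lit 0) (nat_lit 0) (nat_lit 1) (nat_lit 0) (nat_lit 1) (nat_lit 0) (nat_lit 287) (nat_lit 440) (nat_lit 353)))) (XT.nd (nat_lit 188) (nat_lit 0) (nat_lit 0) (XT.nd (nat_lit 94) (nat_lit 0) (nat_lit 0) (XT.lf (nat_lit 0) (nat_lit 507337753881) (nat_lit 0) (nat_lit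 0) (nat_lit 0) (nat_lit 0) (nat_lit 0) (nat_lit 0) (nat_lit 1) (nat_lit 0) (nat_lit 1) (nat_lit 0) (nat_lit 288) (nat_lit 440) (nat_lit 352)) (XT.lf (nat_lit 0) (nat_lit 507294782822) (nat_lit 0) (nat_lit 0) (nat_lit 0) (nat_lit 0) (nat_lit 0) (nat_lit 0) (nat_lit 1) (nat_lit 0) (nat_lit 1) (nat_lit 0) (nat_lit 289) (nat_lit 440) (nat_lit 351))) (XT.nd (nat_lit 94) (nat_lit 0) (nat_lit 0) (XT.lf (nat_lit 0) (nat_lit 507254994804) (nat_lit 0) (nat_lit 0) (nat_lit 0) (nat_lit 0) (nat_lit 0) (nat_lit 0) (nat_lit 1) (nat_lit 0) (nat_lit 1) (nat_lit 0) (nat_lit 290) (nat_lit 440) (nat_lit 350)) (XT.nd (nat_lit 94) (nat_lit 0) (nat_lit 0) (XT.lf (nat_lit 0) (nat_lit 507218154047) (nat_lit 0) (nat_lit 0) (nat_lit 0) (nat_lit 0) (nat_lit 0) (nat_lit 0) (nat_lit 1) (nat_lit 0) (nat_lit 1) (nat_lit 0) (nat_lit 291) (nat_lit 440) (nat_lit 349)) (XT.lf (nat_lit 0) (nat_lit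 507184042235) (nat_lit 0) (nat_lit 0) (nat_lit 0) (nat_lit 0) (nat_lit 0) (nat_lit 0) (nat_lit 1) (nat_lit 0) (nat_lit 1) (nat_lit 0) (nat_lit 292) (nat_lit 440) (nat_lit 348))))))) (XT.nd (nat_lit 846) (nat_lit 0) (nat_lit 0) (XT.nd (nat_lit 376) (nat_lit 0) (nat_lit 0) (XT.nd (nat_lit 188) (nat_lit 0) (nat_lit 0) (XT.nd (nat_lit 94) (nat_lit 0) (nat_lit 0) (XT.lf (nat_lit 0) (nat_lit 507152457224) (nat_lit 0) (nat_lit 0) (nat_lit 0) (nat_lit 0) (nat_lit 0) (nat_lit 0) (nat_lit 1) (nat_lit 0) (nat_lit 1) (nat_lit 0) (nat_lit 293) (nat_lit 440) (nat_lit 347)) (XT.lf (nat_lit 0) (nat_lit 507123211843) (nat_lit 0) (nat_lit 0) (nat_lit 0) (nat_lit 0) (nat_lit 0) (nat_lit 0) (nat_lit 1) (nat_lit 0) (nat_lit 1) (nat_lit 0) (nat_lit 294) (nat_lit 440) (nat_lit 346))) (XT.nd (nat_lit 94) (nat_lit 0) (nat_lit 0) (XT.lf (nat_lit 0) (nat_lit 507096132787) (nat_lit 0)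 (nat_lit 0) (nat_lit 0) (nat_lit 0) (nat_lit 0) (nat_lit 0) (nat_lit 1) (nat_lit 0) (nat_lit 1) (nat_lit 0) (nat_lit 295) (nat_lit 440) (nat_lit 345)) (XT.lf (nat_lit 0) (nat_lit 507071059587) (nat_lit 0) (nat_lit 0) (nat_lit 0) (nat_lit 0) (nat_lit 0) (nat_lit 0) (nat_lit 1) (nat_lit 0) (nat_lit 1) (nat_lit 0) (nat_lit 296) (nat_lit 440) (nat_lit 344)))) (XT.nd (nat_lit 188) (nat_lit 0) (nat_lit 0) (XT.nd (nat_lit 94) (nat_lit 0) (nat_lit 0) (XT.lf (nat_lit 0) (nat_lit 507047843661) (nat_lit 0) (nat_lit 0) (nat_lit 0) (nat_lit 0) (nat_lit 0) (nat_lit 0) (nat_lit 1) (nat_lit 0) (nat_lit 1) (nat_lit 0) (nat_lit 297) (nat_lit 440) (nat_lit 343)) (XT.lf (nat_lit 0) (nat_lit 507026347433) (nat_lit 0) (nat_lit 0) (nat_lit 0) (nat_lit 0) (nat_lit 0) (nat_lit 0) (nat_lit 1) (nat_lit 0) (nat_lit 1) (nat_lit 0) (nat_lit 298) (nat_lit 440) (nat_lit 342))) (XT.nd (nat_lit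 94) (nat_lit 0) (nat_lit 0) (XT.lf (nat_lit 0) (nat_lit 507006443518) (nat_lit 0) (nat_lit 0) (nat_lit 0) (nat_lit 0) (nat_lit 0) (nat_lit 0) (nat_lit 1) (nat_lit 0) (nat_lit 1) (nat_lit 0) (nat_lit 299) (nat_lit 440) (nat_lit 341)) (XT.nd (nat_lit 94) (nat_lit 0) (nat_lit 0) (XT.lf (nat_lit 0) (nat_lit 506988013967) (nat_lit 0) (nat_lit 0) (nat_lit 0) (nat_lit 0) (nat_lit 0) (nat_lit 0) (nat_lit 1) (nat_lit 0) (nat_lit 1) (nat_lit 0) (nat_lit 300) (nat_lit 440) (nat_lit 340)) (XT.lf (nat_lit 0) (nat_lit 506970949568) (nat_lit 0) (nat_lit 0) (nat_lit 0) (nat_lit 0) (nat_lit 0) (nat_lit 0) (nat_lit 1) (nat_lit 0) (nat_lit 1) (nat_lit 0) (nat_lit 301) (nat_lit 440) (nat_lit 339)))))) (XT.nd (nat_lit 470) (nat_lit 0) (nat_lit 0) (XT.nd (nat_lit 188) (nat_lit 0) (nat_lit 0) (XT.nd (nat_lit 94) (nat_lit 0) (nat_lit 0) (XT.lf (nat_lit 0) (nat_lit 506955149199) (nat_lit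 0) (nat_lit 0) (nat_lit 0) (nat_lit 0) (nat_lit 0) (nat_lit 0) (nat_lit 1) (nat_lit 0) (nat_lit 1) (nat_lit 0) (nat_lit 302) (nat_lit 440) (nat_lit 338)) (XT.lf (nat_lit 0) (nat_lit 506940519228) (nat_lit 0) (nat_lit 0) (nat_lit 0) (nat_lit 0) (nat_lit 0) (nat_lit 0) (nat_lit 1) (nat_lit 0) (nat_lit 1) (nat_lit 0) (nat_lit 303) (nat_lit 440) (nat_lit 337))) (XT.nd (nat_lit 94) (nat_lit 0) (nat_lit 0) (XT.lf (nat_lit 0) (nat_lit 506926972958) (nat_lit 0) (nat_lit 0) (nat_lit 0) (nat_lit 0) (nat_lit 0) (nat_lit 0) (nat_lit 1) (nat_lit 0) (nat_lit 1) (nat_lit 0) (nat_lit 304) (nat_lit 440) (nat_lit 336)) (XT.nd (nat_lit 94) (nat_lit 0) (nat_lit 0) (XT.lf (nat_lit 0) (nat_lit 506914430115) (nat_lit 0) (nat_lit 0) (nat_lit 0) (nat_lit 0) (nat_lit 0) (nat_lit 0) (nat_lit 1) (nat_lit 0) (nat_lit 1) (nat_lit 0) (nat_lit 305) (nat_lit 440) (nat_lit 335)) (XT.lf (nat_lit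 0) (nat_lit 506902816372) (nat_lit 0) (nat_lit 0) (nat_lit 0) (nat_lit 0) (nat_lit 0) (nat_lit 0) (nat_lit 1) (nat_lit 0) (nat_lit 1) (nat_lit 0) (nat_lit 306) (nat_lit 440) (nat_lit 334))))) (XT.nd (nat_lit 188) (nat_lit 0) (nat_lit 0) (XT.nd (nat_lit 94) (nat_lit 0) (nat_lit 0) (XT.lf (nat_lit 0) (nat_lit 506892062906) (nat_lit 0) (nat_lit 0) (nat_lit 0) (nat_lit 0) (nat_lit 0) (nat_lit 0) (nat_lit 1) (nat_lit 0) (nat_lit 1) (nat_lit 0) (nat_lit 307) (nat_lit 440) (nat_lit 333)) (XT.lf (nat_lit 0) (nat_lit 506882105994) (nat_lit 0) (nat_lit 0) (nat_lit 0) (nat_lit 0) (nat_lit 0) (nat_lit 0) (nat_lit 1) (nat_lit 0) (nat_lit 1) (nat_lit 0) (nat_lit 308) (nat_lit 440) (nat_lit 332))) (XT.nd (nat_lit 94) (nat_lit 0) (nat_lit 0) (XT.lf (nat_lit 0) (nat_lit 506872886630) (nat_lit 0) (nat_lit 0) (nat_lit 0) (nat_lit 0) (nat_lit 0) (nat_lit 0) (nat_lit 1) (nat_lit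 0) (nat_lit 1) (nat_lit 0) (nat_lit 309) (nat_lit 440) (nat_lit 331)) (XT.nd (nat_lit 94) (nat_lit 0) (nat_lit 0) (XT.lf (nat_lit 0) (nat_lit 506864350182) (nat_lit 0) (nat_lit 0) (nat_lit 0) (nat_lit 0) (nat_lit 0) (nat_lit 0) (nat_lit 1) (nat_lit 0) (nat_lit 1) (nat_lit 0) (nat_lit 310) (nat_lit 440) (nat_lit 330)) (XT.lf (nat_lit 0) (nat_lit 506856446064) (nat_lit 0) (nat_lit 0) (nat_lit 0) (nat_lit 0) (nat_lit 0) (nat_lit 0) (nat_lit 1) (nat_lit 0) (nat_lit 1) (nat_lit 0) (nat_lit 311) (nat_lit 440) (nat_lit 329))))))))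
noncomputable def ec369 : XT := (XT.nd (nat_lit 1786) (nat_lit 0) (nat_lit 0) (XT.nd (nat_lit 846) (nat_lit 0) (nat_lit 0) (XT.nd (nat_lit 376) (nat_lit 0) (nat_lit 0) (XT.nd (nat_lit 188) (nat_lit 0) (nat_lit 0) (XT.nd (nat_lit 94) (nat_lit 0) (nat_lit 0) (XT.lf (nat_lit 0) (nat_lit 506849127435) (nat_lit 0) (nat_lit 0) (nat_lit 0) (nat_lit 0) (nat_lit 0) (nat_lit 0) (nat_lit 1) (nat_lit 0) (nat_lit 1) (nat_lit 0) (nat_lit 312) (nat_lit 440) (nat_lit 328)) (XT.lf (nat_lit 0) (nat_lit 506842350928) (nat_lit 0) (nat_lit 0) (nat_lit 0) (nat_lit 0) (nat_lit 0) (nat_lit 0) (nat_lit 1) (nat_lit 0) (nat_lit 1) (nat_lit 0) (nat_lit 313) (nat_lit 440) (nat_lit 327))) (XT.nd (nat_lit 94) (nat_lit 0) (nat_lit 0) (XT.lf (nat_lit 0) (nat_lit 506836076384) (nat_lit 0) (nat_lit 0) (nat_lit 0) (nat_lit 0) (nat_lit 0) (nat_lit 0) (nat_lit 1) (nat_lit 0) (nat_lit 1) (nat_lit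 0) (nat_lit 314) (nat_lit 440) (nat_lit 326)) (XT.lf (nat_lit 0) (nat_lit 506830266621) (nat_lit 0) (nat_lit 0) (nat_lit 0) (nat_lit 0) (nat_lit 0) (nat_lit 0) (nat_lit 1) (nat_lit 0) (nat_lit 1) (nat_lit 0) (nat_lit 315) (nat_lit 440) (nat_lit 325)))) (XT.nd (nat_lit 188) (nat_lit 0) (nat_lit 0) (XT.nd (nat_lit 94) (nat_lit 0) (nat_lit 0) (XT.lf (nat_lit 0) (nat_lit 506824887211) (nat_lit 0) (nat_lit 0) (nat_lit 0) (nat_lit 0) (nat_lit 0) (nat_lit 0) (nat_lit 1) (nat_lit 0) (nat_lit 1) (nat_lit 0) (nat_lit 316) (nat_lit 440) (nat_lit 324)) (XT.lf (nat_lit 0) (nat_lit 506819906275) (nat_lit 0) (nat_lit 0) (nat_lit 0) (nat_lit 0) (nat_lit 0) (nat_lit 0) (nat_lit 1) (nat_lit 0) (nat_lit 1) (nat_lit 0) (nat_lit 317) (nat_lit 440) (nat_lit 323))) (XT.nd (nat_lit 94) (nat_lit 0) (nat_lit 0) (XT.lf (nat_lit 0) (nat_lit 506815294298) (nat_lit 0) (nat_lit 0) (nat_lit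 0) (nat_lit 0) (nat_lit 0) (nat_lit 0) (nat_lit 1) (nat_lit 0) (nat_lit 1) (nat_lit 0) (nat_lit 318) (nat_lit 440) (nat_lit 322)) (XT.nd (nat_lit 94) (nat_lit 0) (nat_lit 0) (XT.lf (nat_lit 0) (nat_lit 506811023949) (nat_lit 0) (nat_lit 0) (nat_lit 0) (nat_lit 0) (nat_lit 0) (nat_lit 0) (nat_lit 1) (nat_lit 0) (nat_lit 1) (nat_lit 0) (nat_lit 319) (nat_lit 440) (nat_lit 321)) (XT.lf (nat_lit 0) (nat_lit 506807069922) (nat_lit 0) (nat_lit 0) (nat_lit 0) (nat_lit 0) (nat_lit 0) (nat_lit 0) (nat_lit 1) (nat_lit 0) (nat_lit 1) (nat_lit 0) (nat_lit 320) (nat_lit 440) (nat_lit 320)))))) (XT.nd (nat_lit 470) (nat_lit 0) (nat_lit 0) (XT.nd (nat_lit 188) (nat_lit 0) (nat_lit 0) (XT.nd (nat_lit 94) (nat_lit 0) (nat_lit 0) (XT.lf (nat_lit 0) (nat_lit 506803408786) (nat_lit 0) (nat_lit 0) (nat_lit 0) (nat_lit 0) (nat_lit 0) (nat_lit 0) (nat_lit 1) (nat_lit 0) (nat_lit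 1) (nat_lit 0) (nat_lit 321) (nat_lit 440) (nat_lit 319)) (XT.lf (nat_lit 0) (nat_lit 506800018845) (nat_lit 0) (nat_lit 0) (nat_lit 0) (nat_lit 0) (nat_lit 0) (nat_lit 0) (nat_lit 1) (nat_lit 0) (nat_lit 1) (nat_lit 0) (nat_lit 322) (nat_lit 440) (nat_lit 318))) (XT.nd (nat_lit 94) (nat_lit 0) (nat_lit 0) (XT.lf (nat_lit 0) (nat_lit 506796880011) (nat_lit 0) (nat_lit 0) (nat_lit 0) (nat_lit 0) (nat_lit 0) (nat_lit 0) (nat_lit 1) (nat_lit 0) (nat_lit 1) (nat_lit 0) (nat_lit 323) (nat_lit 440) (nat_lit 317)) (XT.nd (nat_lit 94) (nat_lit 0) (nat_lit 0) (XT.lf (nat_lit 0) (nat_lit 506793973683) (nat_lit 0) (nat_lit 0) (nat_lit 0) (nat_lit 0) (nat_lit 0) (nat_lit 0) (nat_lit 1) (nat_lit 0) (nat_lit 1) (nat_lit 0) (nat_lit 324) (nat_lit 440) (nat_lit 316)) (XT.lf (nat_lit 0) (nat_lit 506791282638) (nat_lit 0) (nat_lit 0) (nat_lit 0) (nat_lit 0) (nat_lit 0) (nat_lit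 0) (nat_lit 1) (nat_lit 0) (nat_lit 1) (nat_lit 0) (nat_lit 325) (nat_lit 440) (nat_lit 315))))) (XT.nd (nat_lit 188) (nat_lit 0) (nat_lit 0) (XT.nd (nat_lit 94) (nat_lit 0) (nat_lit 0) (XT.lf (nat_lit 0) (nat_lit 506788790931) (nat_lit 0) (nat_lit 0) (nat_lit 0) (nat_lit 0) (nat_lit 0) (nat_lit 0) (nat_lit 1) (nat_lit 0) (nat_lit 1) (nat_lit 0) (nat_lit 326) (nat_lit 440) (nat_lit 314)) (XT.lf (nat_lit 0) (nat_lit 506786483794) (nat_lit 0) (nat_lit 0) (nat_lit 0) (nat_lit 0) (nat_lit 0) (nat_lit 0) (nat_lit 1) (nat_lit 0) (nat_lit 1) (nat_lit 0) (nat_lit 327) (nat_lit 440) (nat_lit 313))) (XT.nd (nat_lit 94) (nat_lit 0) (nat_lit 0) (XT.lf (nat_lit 0) (nat_lit 506784347556) (nat_lit 0) (nat_lit 0) (nat_lit 0) (nat_lit 0) (nat_lit 0) (nat_lit 0) (nat_lit 1) (nat_lit 0) (nat_lit 1) (nat_lit 0) (nat_lit 328) (nat_lit 440) (nat_lit 312)) (XT.nd (nat_lit 94) (nat_lit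 0) (nat_lit 0) (XT.lf (nat_lit 0) (nat_lit 506782369558) (nat_lit 0) (nat_lit 0) (nat_lit 0) (nat_lit 0) (nat_lit 0) (nat_lit 0) (nat_lit 1) (nat_lit 0) (nat_lit 1) (nat_lit 0) (nat_lit 329) (nat_lit 440) (nat_lit 311)) (XT.lf (nat_lit 0) (nat_lit 506780538079) (nat_lit 0) (nat_lit 0) (nat_lit 0) (nat_lit 0) (nat_lit 0) (nat_lit 0) (nat_lit 1) (nat_lit 0) (nat_lit 1) (nat_lit 0) (nat_lit 330) (nat_lit 440) (nat_lit 310))))))) (XT.nd (nat_lit 846) (nat_lit 0) (nat_lit 0) (XT.nd (nat_lit 376) (nat_lit 0) (nat_lit 0) (XT.nd (nat_lit 188) (nat_lit 0) (nat_lit 0) (XT.nd (nat_lit 94) (nat_lit 0) (nat_lit 0) (XT.lf (nat_lit 0) (nat_lit 506778842264) (nat_lit 0) (nat_lit 0) (nat_lit 0) (nat_lit 0) (nat_lit 0) (nat_lit 0) (nat_lit 1) (nat_lit 0) (nat_lit 1) (nat_lit 0) (nat_lit 331) (nat_lit 440) (nat_lit 309)) (XT.lf (nat_lit 0) (nat_lit 506777272066) (nat_lit 0)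 (nat_lit 0) (nat_lit 0) (nat_lit 0) (nat_lit 0) (nat_lit 0) (nat_lit 1) (nat_lit 0) (nat_lit 1) (nat_lit 0) (nat_lit 332) (nat_lit 440) (nat_lit 308))) (XT.nd (nat_lit 94) (nat_lit 0) (nat_lit 0) (XT.lf (nat_lit 0) (nat_lit 506775818178) (nat_lit 0) (nat_lit 0) (nat_lit 0) (nat_lit 0) (nat_lit 0) (nat_lit 0) (nat_lit 1) (nat_lit 0) (nat_lit 1) (nat_lit 0) (nat_lit 333) (nat_lit 440) (nat_lit 307)) (XT.lf (nat_lit 0) (nat_lit 506774471986) (nat_lit 0) (nat_lit 0) (nat_lit 0) (nat_lit 0) (nat_lit 0) (nat_lit 0) (nat_lit 1) (nat_lit 0) (nat_lit 1) (nat_lit 0) (nat_lit 334) (nat_lit 440) (nat_lit 306)))) (XT.nd (nat_lit 188) (nat_lit 0) (nat_lit 0) (XT.nd (nat_lit 94) (nat_lit 0) (nat_lit 0) (XT.lf (nat_lit 0) (nat_lit 506773225512) (nat_lit 0) (nat_lit 0) (nat_lit 0) (nat_lit 0) (nat_lit 0) (nat_lit 0) (nat_lit 1) (nat_lit 0) (nat_lit 1) (nat_lit 0) (nat_lit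 335) (nat_lit 440) (nat_lit 305)) (XT.lf (nat_lit 0) (nat_lit 506772071369) (nat_lit 0) (nat_lit 0) (nat_lit 0) (nat_lit 0) (nat_lit 0) (nat_lit 0) (nat_lit 1) (nat_lit 0) (nat_lit 1) (nat_lit 0) (nat_lit 336) (nat_lit 440) (nat_lit 304))) (XT.nd (nat_lit 94) (nat_lit 0) (nat_lit 0) (XT.lf (nat_lit 0) (nat_lit 506771002718) (nat_lit 0) (nat_lit 0) (nat_lit 0) (nat_lit 0) (nat_lit 0) (nat_lit 0) (nat_lit 1) (nat_lit 0) (nat_lit 1) (nat_lit 0) (nat_lit 337) (nat_lit 440) (nat_lit 303)) (XT.nd (nat_lit 94) (nat_lit 0) (nat_lit 0) (XT.lf (nat_lit 0) (nat_lit 506770013227) (nat_lit 0) (nat_lit 0) (nat_lit 0) (nat_lit 0) (nat_lit 0) (nat_lit 0) (nat_lit 1) (nat_lit 0) (nat_lit 1) (nat_lit 0) (nat_lit 338) (nat_lit 440) (nat_lit 302)) (XT.lf (nat_lit 0) (nat_lit 506769097031) (nat_lit 0) (nat_lit 0) (nat_lit 0) (nat_lit 0) (nat_lit 0) (nat_lit 0) (nat_lit 1) (nat_lit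 0) (nat_lit 1) (nat_lit 0) (nat_lit 339) (nat_lit 440) (nat_lit 301)))))) (XT.nd (nat_lit 470) (nat_lit 0) (nat_lit 0) (XT.nd (nat_lit 188) (nat_lit 0) (nat_lit 0) (XT.nd (nat_lit 94) (nat_lit 0) (nat_lit 0) (XT.lf (nat_lit 0) (nat_lit 506768248701) (nat_lit 0) (nat_lit 0) (nat_lit 0) (nat_lit 0) (nat_lit 0) (nat_lit 0) (nat_lit 1) (nat_lit 0) (nat_lit 1) (nat_lit 0) (nat_lit 340) (nat_lit 440) (nat_lit 300)) (XT.lf (nat_lit 0) (nat_lit 506767463211) (nat_lit 0) (nat_lit 0) (nat_lit 0) (nat_lit 0) (nat_lit 0) (nat_lit 0) (nat_lit 1) (nat_lit 0) (nat_lit 1) (nat_lit 0) (nat_lit 341) (nat_lit 440) (nat_lit 299))) (XT.nd (nat_lit 94) (nat_lit 0) (nat_lit 0) (XT.lf (nat_lit 0) (nat_lit 506766735905) (nat_lit 0) (nat_lit 0) (nat_lit 0) (nat_lit 0) (nat_lit 0) (nat_lit 0) (nat_lit 1) (nat_lit 0) (nat_lit 1) (nat_lit 0) (nat_lit 342) (nat_lit 440) (nat_lit 298))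 (XT.nd (nat_lit 94) (nat_lit 0) (nat_lit 0) (XT.lf (nat_lit 0) (nat_lit 506766062474) (nat_lit 0) (nat_lit 0) (nat_lit 0) (nat_lit 0) (nat_lit 0) (nat_lit 0) (nat_lit 1) (nat_lit 0) (nat_lit 1) (nat_lit 0) (nat_lit 343) (nat_lit 440) (nat_lit 297)) (XT.lf (nat_lit 0) (nat_lit 506765438927) (nat_lit 0) (nat_lit 0) (nat_lit 0) (nat_lit 0) (nat_lit 0) (nat_lit 0) (nat_lit 1) (nat_lit 0) (nat_lit 1) (nat_lit 0) (nat_lit 344) (nat_lit 440) (nat_lit 296))))) (XT.nd (nat_lit 188) (nat_lit 0) (nat_lit 0) (XT.nd (nat_lit 94) (nat_lit 0) (nat_lit 0) (XT.lf (nat_lit 0) (nat_lit 506764861568) (nat_lit 0) (nat_lit 0) (nat_lit 0) (nat_lit 0) (nat_lit 0) (nat_lit 0) (nat_lit 1) (nat_lit 0) (nat_lit 1) (nat_lit 0) (nat_lit 345) (nat_lit 440) (nat_lit 295)) (XT.lf (nat_lit 0) (nat_lit 506764326977) (nat_lit 0) (nat_lit 0) (nat_lit 0) (nat_lit 0) (nat_lit 0) (nat_lit 0) (nat_lit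 1) (nat_lit 0) (nat_lit 1) (nat_lit 0) (nat_lit 346) (nat_lit 440) (nat_lit 294))) (XT.nd (nat_lit 94) (nat_lit 0) (nat_lit 0) (XT.lf (nat_lit 0) (nat_lit 506763831985) (nat_lit 0) (nat_lit 0) (nat_lit 0) (nat_lit 0) (nat_lit 0) (nat_lit 0) (nat_lit 1) (nat_lit 0) (nat_lit 1) (nat_lit 0) (nat_lit 347) (nat_lit 440) (nat_lit 293)) (XT.nd (nat_lit 94) (nat_lit 0) (nat_lit 0) (XT.lf (nat_lit 0) (nat_lit 506763373659) (nat_lit 0) (nat_lit 0) (nat_lit 0) (nat_lit 0) (nat_lit 0) (nat_lit 0) (nat_lit 1) (nat_lit 0) (nat_lit 1) (nat_lit 0) (nat_lit 348) (nat_lit 440) (nat_lit 292)) (XT.lf (nat_lit 0) (nat_lit 506762949283) (nat_lit 0) (nat_lit 0) (nat_lit 0) (nat_lit 0) (nat_lit 0) (nat_lit 0) (nat_lit 1) (nat_lit 0) (nat_lit 1) (nat_lit 0) (nat_lit 349) (nat_lit 440) (nat_lit 291))))))))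
noncomputable def ec370 : XT := (XT.nd (nat_lit 1692) (nat_lit 0) (nat_lit 0) (XT.nd (nat_lit 846) (nat_lit 0) (nat_lit 0) (XT.nd (nat_lit 376) (nat_lit 0) (nat_lit 0) (XT.nd (nat_lit 188) (nat_lit 0) (nat_lit 0) (XT.nd (nat_lit 94) (nat_lit 0) (nat_lit 0) (XT.lf (nat_lit 0) (nat_lit 506762556342) (nat_lit 0) (nat_lit 0) (nat_lit 0) (nat_lit 0) (nat_lit 0) (nat_lit 0) (nat_lit 1) (nat_lit 0) (nat_lit 1) (nat_lit 0) (nat_lit 350) (nat_lit 440) (nat_lit 290)) (XT.lf (nat_lit 0) (nat_lit 506762192508) (nat_lit 0) (nat_lit 0) (nat_lit 0) (nat_lit 0) (nat_lit 0) (nat_lit 0) (nat_lit 1) (nat_lit 0) (nat_lit 1) (nat_lit 0) (nat_lit 351) (nat_lit 440) (nat_lit 289))) (XT.nd (nat_lit 94) (nat_lit 0) (nat_lit 0) (XT.lf (nat_lit 0) (nat_lit 506761855625) (nat_lit 0) (nat_lit 0) (nat_lit 0) (nat_lit 0) (nat_lit 0) (nat_lit 0) (nat_lit 1) (nat_lit 0) (nat_lit 1) (nat_lit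 0) (nat_lit 352) (nat_lit 440) (nat_lit 288)) (XT.lf (nat_lit 0) (nat_lit 506761543696) (nat_lit 0) (nat_lit 0) (nat_lit 0) (nat_lit 0) (nat_lit 0) (nat_lit 0) (nat_lit 1) (nat_lit 0) (nat_lit 1) (nat_lit 0) (nat_lit 353) (nat_lit 440) (nat_lit 287)))) (XT.nd (nat_lit 188) (nat_lit 0) (nat_lit 0) (XT.nd (nat_lit 94) (nat_lit 0) (nat_lit 0) (XT.lf (nat_lit 0) (nat_lit 506761254873) (nat_lit 0) (nat_lit 0) (nat_lit 0) (nat_lit 0) (nat_lit 0) (nat_lit 0) (nat_lit 1) (nat_lit 0) (nat_lit 1) (nat_lit 0) (nat_lit 354) (nat_lit 440) (nat_lit 286)) (XT.lf (nat_lit 0) (nat_lit 506760987444) (nat_lit 0) (nat_lit 0) (nat_lit 0) (nat_lit 0) (nat_lit 0) (nat_lit 0) (nat_lit 1) (nat_lit 0) (nat_lit 1) (nat_lit 0) (nat_lit 355) (nat_lit 440) (nat_lit 285))) (XT.nd (nat_lit 94) (nat_lit 0) (nat_lit 0) (XT.lf (nat_lit 0) (nat_lit 506760739825) (nat_lit 0) (nat_lit 0) (nat_lit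 0) (nat_lit 0) (nat_lit 0) (nat_lit 0) (nat_lit 1) (nat_lit 0) (nat_lit 1) (nat_lit 0) (nat_lit 356) (nat_lit 440) (nat_lit 284)) (XT.nd (nat_lit 94) (nat_lit 0) (nat_lit 0) (XT.lf (nat_lit 0) (nat_lit 506760510547) (nat_lit 0) (nat_lit 0) (nat_lit 0) (nat_lit 0) (nat_lit 0) (nat_lit 0) (nat_lit 1) (nat_lit 0) (nat_lit 1) (nat_lit 0) (nat_lit 357) (nat_lit 440) (nat_lit 283)) (XT.lf (nat_lit 0) (nat_lit 506760298254) (nat_lit 0) (nat_lit 0) (nat_lit 0) (nat_lit 0) (nat_lit 0) (nat_lit 0) (nat_lit 1) (nat_lit 0) (nat_lit 1) (nat_lit 0) (nat_lit 358) (nat_lit 440) (nat_lit 282)))))) (XT.nd (nat_lit 376) (nat_lit 0) (nat_lit 0) (XT.nd (nat_lit 188) (nat_lit 0) (nat_lit 0) (XT.nd (nat_lit 94) (nat_lit 0) (nat_lit 0) (XT.lf (nat_lit 0) (nat_lit 506760101686) (nat_lit 0) (nat_lit 0) (nat_lit 0) (nat_lit 0) (nat_lit 0) (nat_lit 0) (nat_lit 1) (nat_lit 0) (nat_lit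 1) (nat_lit 0) (nat_lit 359) (nat_lit 440) (nat_lit 281)) (XT.lf (nat_lit 0) (nat_lit 506759919678) (nat_lit 0) (nat_lit 0) (nat_lit 0) (nat_lit 0) (nat_lit 0) (nat_lit 0) (nat_lit 1) (nat_lit 0) (nat_lit 1) (nat_lit 0) (nat_lit 360) (nat_lit 440) (nat_lit 280))) (XT.nd (nat_lit 94) (nat_lit 0) (nat_lit 0) (XT.lf (nat_lit 0) (nat_lit 506759751153) (nat_lit 0) (nat_lit 0) (nat_lit 0) (nat_lit 0) (nat_lit 0) (nat_lit 0) (nat_lit 1) (nat_lit 0) (nat_lit 1) (nat_lit 0) (nat_lit 361) (nat_lit 440) (nat_lit 279)) (XT.lf (nat_lit 0) (nat_lit 506759595110) (nat_lit 0) (nat_lit 0) (nat_lit 0) (nat_lit 0) (nat_lit 0) (nat_lit 0) (nat_lit 1) (nat_lit 0) (nat_lit 1) (nat_lit 0) (nat_lit 362) (nat_lit 440) (nat_lit 278)))) (XT.nd (nat_lit 188) (nat_lit 0) (nat_lit 0) (XT.nd (nat_lit 94) (nat_lit 0) (nat_lit 0) (XT.lf (nat_lit 0) (nat_lit 506759450627) (nat_lit 0) (nat_lit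 0) (nat_lit 0) (nat_lit 0) (nat_lit 0) (nat_lit 0) (nat_lit 1) (nat_lit 0) (nat_lit 1) (nat_lit 0) (nat_lit 363) (nat_lit 440) (nat_lit 277)) (XT.lf (nat_lit 0) (nat_lit 506759316846) (nat_lit 0) (nat_lit 0) (nat_lit 0) (nat_lit 0) (nat_lit 0) (nat_lit 0) (nat_lit 1) (nat_lit 0) (nat_lit 1) (nat_lit 0) (nat_lit 364) (nat_lit 440) (nat_lit 276))) (XT.nd (nat_lit 94) (nat_lit 0) (nat_lit 0) (XT.lf (nat_lit 0) (nat_lit 506759192975) (nat_lit 0) (nat_lit 0) (nat_lit 0) (nat_lit 0) (nat_lit 0) (nat_lit 0) (nat_lit 1) (nat_lit 0) (nat_lit 1) (nat_lit 0) (nat_lit 365) (nat_lit 440) (nat_lit 275)) (XT.nd (nat_lit 94) (nat_lit 0) (nat_lit 0) (XT.lf (nat_lit 0) (nat_lit 506759078279) (nat_lit 0) (nat_lit 0) (nat_lit 0) (nat_lit 0) (nat_lit 0) (nat_lit 0) (nat_lit 1) (nat_lit 0) (nat_lit 1) (nat_lit 0) (nat_lit 366) (nat_lit 440) (nat_lit 274)) (XT.lf (nat_lit 0) (nat_lit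 506758972079) (nat_lit 0) (nat_lit 0) (nat_lit 0) (nat_lit 0) (nat_lit 0) (nat_lit 0) (nat_lit 1) (nat_lit 0) (nat_lit 1) (nat_lit 0) (nat_lit 367) (nat_lit 440) (nat_lit 273))))))) (XT.nd (nat_lit 846) (nat_lit 0) (nat_lit 0) (XT.nd (nat_lit 376) (nat_lit 0) (nat_lit 0) (XT.nd (nat_lit 188) (nat_lit 0) (nat_lit 0) (XT.nd (nat_lit 94) (nat_lit 0) (nat_lit 0) (XT.lf (nat_lit 0) (nat_lit 506758873746) (nat_lit 0) (nat_lit 0) (nat_lit 0) (nat_lit 0) (nat_lit 0) (nat_lit 0) (nat_lit 1) (nat_lit 0) (nat_lit 1) (nat_lit 0) (nat_lit 368) (nat_lit 440) (nat_lit 272)) (XT.lf (nat_lit 0) (nat_lit 506758782697) (nat_lit 0) (nat_lit 0) (nat_lit 0) (nat_lit 0) (nat_lit 0) (nat_lit 0) (nat_lit 1) (nat_lit 0) (nat_lit 1) (nat_lit 0) (nat_lit 369) (nat_lit 440) (nat_lit 271))) (XT.nd (nat_lit 94) (nat_lit 0) (nat_lit 0) (XT.lf (nat_lit 0) (nat_lit 506758698393) (nat_lit 0)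 (nat_lit 0) (nat_lit 0) (nat_lit 0) (nat_lit 0) (nat_lit 0) (nat_lit 1) (nat_lit 0) (nat_lit 1) (nat_lit 0) (nat_lit 370) (nat_lit 440) (nat_lit 270)) (XT.lf (nat_lit 0) (nat_lit 506758620333) (nat_lit 0) (nat_lit 0) (nat_lit 0) (nat_lit 0) (nat_lit 0) (nat_lit 0) (nat_lit 1) (nat_lit 0) (nat_lit 1) (nat_lit 0) (nat_lit 371) (nat_lit 440) (nat_lit 269)))) (XT.nd (nat_lit 188) (nat_lit 0) (nat_lit 0) (XT.nd (nat_lit 94) (nat_lit 0) (nat_lit 0) (XT.lf (nat_lit 0) (nat_lit 506758548055) (nat_lit 0) (nat_lit 0) (nat_lit 0) (nat_lit 0) (nat_lit 0) (nat_lit 0) (nat_lit 1) (nat_lit 0) (nat_lit 1) (nat_lit 0) (nat_lit 372) (nat_lit 440) (nat_lit 268)) (XT.lf (nat_lit 0) (nat_lit 506758481131) (nat_lit 0) (nat_lit 0) (nat_lit 0) (nat_lit 0) (nat_lit 0) (nat_lit 0) (nat_lit 1) (nat_lit 0) (nat_lit 1) (nat_lit 0) (nat_lit 373) (nat_lit 440) (nat_lit 267))) (XT.nd (nat_lit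 94) (nat_lit 0) (nat_lit 0) (XT.lf (nat_lit 0) (nat_lit 506758419165) (nat_lit 0) (nat_lit 0) (nat_lit 0) (nat_lit 0) (nat_lit 0) (nat_lit 0) (nat_lit 1) (nat_lit 0) (nat_lit 1) (nat_lit 0) (nat_lit 374) (nat_lit 440) (nat_lit 266)) (XT.nd (nat_lit 94) (nat_lit 0) (nat_lit 0) (XT.lf (nat_lit 0) (nat_lit 506758361788) (nat_lit 0) (nat_lit 0) (nat_lit 0) (nat_lit 0) (nat_lit 0) (nat_lit 0) (nat_lit 1) (nat_lit 0) (nat_lit 1) (nat_lit 0) (nat_lit 375) (nat_lit 440) (nat_lit 265)) (XT.lf (nat_lit 0) (nat_lit 506758308662) (nat_lit 0) (nat_lit 0) (nat_lit 0) (nat_lit 0) (nat_lit 0) (nat_lit 0) (nat_lit 1) (nat_lit 0) (nat_lit 1) (nat_lit 0) (nat_lit 376) (nat_lit 440) (nat_lit 264)))))) (XT.nd (nat_lit 470) (nat_lit 0) (nat_lit 0) (XT.nd (nat_lit 188) (nat_lit 0) (nat_lit 0) (XT.nd (nat_lit 94) (nat_lit 0) (nat_lit 0) (XT.lf (nat_lit 0) (nat_lit 506758259471) (nat_lit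 0) (nat_lit 0) (nat_lit 0) (nat_lit 0) (nat_lit 0) (nat_lit 0) (nat_lit 1) (nat_lit 0) (nat_lit 1) (nat_lit 0) (nat_lit 377) (nat_lit 440) (nat_lit 263)) (XT.lf (nat_lit 0) (nat_lit 506758213924) (nat_lit 0) (nat_lit 0) (nat_lit 0) (nat_lit 0) (nat_lit 0) (nat_lit 0) (nat_lit 1) (nat_lit 0) (nat_lit 1) (nat_lit 0) (nat_lit 378) (nat_lit 440) (nat_lit 262))) (XT.nd (nat_lit 94) (nat_lit 0) (nat_lit 0) (XT.lf (nat_lit 0) (nat_lit 506758171750) (nat_lit 0) (nat_lit 0) (nat_lit 0) (nat_lit 0) (nat_lit 0) (nat_lit 0) (nat_lit 1) (nat_lit 0) (nat_lit 1) (nat_lit 0) (nat_lit 379) (nat_lit 440) (nat_lit 261)) (XT.nd (nat_lit 94) (nat_lit 0) (nat_lit 0) (XT.lf (nat_lit 0) (nat_lit 506758132701) (nat_lit 0) (nat_lit 0) (nat_lit 0) (nat_lit 0) (nat_lit 0) (nat_lit 0) (nat_lit 1) (nat_lit 0) (nat_lit 1) (nat_lit 0) (nat_lit 380) (nat_lit 440) (nat_lit 260)) (XT.lf (nat_lit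 0) (nat_lit 506758096544) (nat_lit 0) (nat_lit 0) (nat_lit 0) (nat_lit 0) (nat_lit 0) (nat_lit 0) (nat_lit 1) (nat_lit 0) (nat_lit 1) (nat_lit 0) (nat_lit 381) (nat_lit 440) (nat_lit 259))))) (XT.nd (nat_lit 188) (nat_lit 0) (nat_lit 0) (XT.nd (nat_lit 94) (nat_lit 0) (nat_lit 0) (XT.lf (nat_lit 0) (nat_lit 506758063066) (nat_lit 0) (nat_lit 0) (nat_lit 0) (nat_lit 0) (nat_lit 0) (nat_lit 0) (nat_lit 1) (nat_lit 0) (nat_lit 1) (nat_lit 0) (nat_lit 382) (nat_lit 440) (nat_lit 258)) (XT.lf (nat_lit 0) (nat_lit 506758032067) (nat_lit 0) (nat_lit 0) (nat_lit 0) (nat_lit 0) (nat_lit 0) (nat_lit 0) (nat_lit 1) (nat_lit 0) (nat_lit 1) (nat_lit 0) (nat_lit 383) (nat_lit 440) (nat_lit 257))) (XT.nd (nat_lit 94) (nat_lit 0) (nat_lit 0) (XT.lf (nat_lit 0) (nat_lit 506758003365) (nat_lit 0) (nat_lit 0) (nat_lit 0) (nat_lit 0) (nat_lit 0) (nat_lit 0) (nat_lit 1) (nat_lit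 0) (nat_lit 1) (nat_lit 0) (nat_lit 384) (nat_lit 440) (nat_lit 256)) (XT.nd (nat_lit 94) (nat_lit 0) (nat_lit 0) (XT.lf (nat_lit 0) (nat_lit 506757976788) (nat_lit 0) (nat_lit 0) (nat_lit 0) (nat_lit 0) (nat_lit 0) (nat_lit 0) (nat_lit 1) (nat_lit 0) (nat_lit 1) (nat_lit 0) (nat_lit 385) (nat_lit 440) (nat_lit 255)) (XT.lf (nat_lit 0) (nat_lit 506757952180) (nat_lit 0) (nat_lit 0) (nat_lit 0) (nat_lit 0) (nat_lit 0) (nat_lit 0) (nat_lit 1) (nat_lit 0) (nat_lit 1) (nat_lit 0) (nat_lit 386) (nat_lit 440) (nat_lit 254))))))))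
noncomputable def ec371 : XT := (XT.nd (nat_lit 1786) (nat_lit 0) (nat_lit 0) (XT.nd (nat_lit 846) (nat_lit 0) (nat_lit 0) (XT.nd (nat_lit 376) (nat_lit 0) (nat_lit 0) (XT.nd (nat_lit 188) (nat_lit 0) (nat_lit 0) (XT.nd (nat_lit 94) (nat_lit 0) (nat_lit 0) (XT.lf (nat_lit 0) (nat_lit 506757929396) (nat_lit 0) (nat_lit 0) (nat_lit 0) (nat_lit 0) (nat_lit 0) (nat_lit 0) (nat_lit 1) (nat_lit 0) (nat_lit 1) (nat_lit 0) (nat_lit 387) (nat_lit 440) (nat_lit 253)) (XT.lf (nat_lit 0) (nat_lit 506757908298) (nat_lit 0) (nat_lit 0) (nat_lit 0) (nat_lit 0) (nat_lit 0) (nat_lit 0) (nat_lit 1) (nat_lit 0) (nat_lit 1) (nat_lit 0) (nat_lit 388) (nat_lit 440) (nat_lit 252))) (XT.nd (nat_lit 94) (nat_lit 0) (nat_lit 0) (XT.lf (nat_lit 0) (nat_lit 506757888764) (nat_lit 0) (nat_lit 0) (nat_lit 0) (nat_lit 0) (nat_lit 0) (nat_lit 0) (nat_lit 1) (nat_lit 0) (nat_lit 1) (nat_lit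 0) (nat_lit 389) (nat_lit 440) (nat_lit 251)) (XT.lf (nat_lit 0) (nat_lit 506757870676) (nat_lit 0) (nat_lit 0) (nat_lit 0) (nat_lit 0) (nat_lit 0) (nat_lit 0) (nat_lit 1) (nat_lit 0) (nat_lit 1) (nat_lit 0) (nat_lit 390) (nat_lit 440) (nat_lit 250)))) (XT.nd (nat_lit 188) (nat_lit 0) (nat_lit 0) (XT.nd (nat_lit 94) (nat_lit 0) (nat_lit 0) (XT.lf (nat_lit 0) (nat_lit 506757853929) (nat_lit 0) (nat_lit 0) (nat_lit 0) (nat_lit 0) (nat_lit 0) (nat_lit 0) (nat_lit 1) (nat_lit 0) (nat_lit 1) (nat_lit 0) (nat_lit 391) (nat_lit 440) (nat_lit 249)) (XT.lf (nat_lit 0) (nat_lit 506757838422) (nat_lit 0) (nat_lit 0) (nat_lit 0) (nat_lit 0) (nat_lit 0) (nat_lit 0) (nat_lit 1) (nat_lit 0) (nat_lit 1) (nat_lit 0) (nat_lit 392) (nat_lit 440) (nat_lit 248))) (XT.nd (nat_lit 94) (nat_lit 0) (nat_lit 0) (XT.lf (nat_lit 0) (nat_lit 506757824063) (nat_lit 0) (nat_lit 0) (nat_lit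 0) (nat_lit 0) (nat_lit 0) (nat_lit 0) (nat_lit 1) (nat_lit 0) (nat_lit 1) (nat_lit 0) (nat_lit 393) (nat_lit 440) (nat_lit 247)) (XT.nd (nat_lit 94) (nat_lit 0) (nat_lit 0) (XT.lf (nat_lit 0) (nat_lit 506757810769) (nat_lit 0) (nat_lit 0) (nat_lit 0) (nat_lit 0) (nat_lit 0) (nat_lit 0) (nat_lit 1) (nat_lit 0) (nat_lit 1) (nat_lit 0) (nat_lit 394) (nat_lit 440) (nat_lit 246)) (XT.lf (nat_lit 0) (nat_lit 506757798459) (nat_lit 0) (nat_lit 0) (nat_lit 0) (nat_lit 0) (nat_lit 0) (nat_lit 0) (nat_lit 1) (nat_lit 0) (nat_lit 1) (nat_lit 0) (nat_lit 395) (nat_lit 440) (nat_lit 245)))))) (XT.nd (nat_lit 470) (nat_lit 0) (nat_lit 0) (XT.nd (nat_lit 188) (nat_lit 0) (nat_lit 0) (XT.nd (nat_lit 94) (nat_lit 0) (nat_lit 0) (XT.lf (nat_lit 0) (nat_lit 506757787060) (nat_lit 0) (nat_lit 0) (nat_lit 0) (nat_lit 0) (nat_lit 0) (nat_lit 0) (nat_lit 1) (nat_lit 0) (nat_lit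 1) (nat_lit 0) (nat_lit 396) (nat_lit 440) (nat_lit 244)) (XT.lf (nat_lit 0) (nat_lit 506757776507) (nat_lit 0) (nat_lit 0) (nat_lit 0) (nat_lit 0) (nat_lit 0) (nat_lit 0) (nat_lit 1) (nat_lit 0) (nat_lit 1) (nat_lit 0) (nat_lit 397) (nat_lit 440) (nat_lit 243))) (XT.nd (nat_lit 94) (nat_lit 0) (nat_lit 0) (XT.lf (nat_lit 0) (nat_lit 506757766735) (nat_lit 0) (nat_lit 0) (nat_lit 0) (nat_lit 0) (nat_lit 0) (nat_lit 0) (nat_lit 1) (nat_lit 0) (nat_lit 1) (nat_lit 0) (nat_lit 398) (nat_lit 440) (nat_lit 242)) (XT.nd (nat_lit 94) (nat_lit 0) (nat_lit 0) (XT.lf (nat_lit 0) (nat_lit 506757757686) (nat_lit 0) (nat_lit 0) (nat_lit 0) (nat_lit 0) (nat_lit 0) (nat_lit 0) (nat_lit 1) (nat_lit 0) (nat_lit 1) (nat_lit 0) (nat_lit 399) (nat_lit 440) (nat_lit 241)) (XT.lf (nat_lit 0) (nat_lit 506757749308) (nat_lit 0) (nat_lit 0) (nat_lit 0) (nat_lit 0) (nat_lit 0) (nat_lit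 0) (nat_lit 1) (nat_lit 0) (nat_lit 1) (nat_lit 0) (nat_lit 400) (nat_lit 440) (nat_lit 240))))) (XT.nd (nat_lit 188) (nat_lit 0) (nat_lit 0) (XT.nd (nat_lit 94) (nat_lit 0) (nat_lit 0) (XT.lf (nat_lit 0) (nat_lit 506757741551) (nat_lit 0) (nat_lit 0) (nat_lit 0) (nat_lit 0) (nat_lit 0) (nat_lit 0) (nat_lit 1) (nat_lit 0) (nat_lit 1) (nat_lit 0) (nat_lit 401) (nat_lit 440) (nat_lit 239)) (XT.lf (nat_lit 0) (nat_lit 506757734368) (nat_lit 0) (nat_lit 0) (nat_lit 0) (nat_lit 0) (nat_lit 0) (nat_lit 0) (nat_lit 1) (nat_lit 0) (nat_lit 1) (nat_lit 0) (nat_lit 402) (nat_lit 440) (nat_lit 238))) (XT.nd (nat_lit 94) (nat_lit 0) (nat_lit 0) (XT.lf (nat_lit 0) (nat_lit 506757727718) (nat_lit 0) (nat_lit 0) (nat_lit 0) (nat_lit 0) (nat_lit 0) (nat_lit 0) (nat_lit 1) (nat_lit 0) (nat_lit 1) (nat_lit 0) (nat_lit 403) (nat_lit 440) (nat_lit 237)) (XT.nd (nat_lit 94) (nat_lit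 0) (nat_lit 0) (XT.lf (nat_lit 0) (nat_lit 506757721559) (nat_lit 0) (nat_lit 0) (nat_lit 0) (nat_lit 0) (nat_lit 0) (nat_lit 0) (nat_lit 1) (nat_lit 0) (nat_lit 1) (nat_lit 0) (nat_lit 404) (nat_lit 440) (nat_lit 236)) (XT.lf (nat_lit 0) (nat_lit 506757715858) (nat_lit 0) (nat_lit 0) (nat_lit 0) (nat_lit 0) (nat_lit 0) (nat_lit 0) (nat_lit 1) (nat_lit 0) (nat_lit 1) (nat_lit 0) (nat_lit 405) (nat_lit 440) (nat_lit 235))))))) (XT.nd (nat_lit 846) (nat_lit 0) (nat_lit 0) (XT.nd (nat_lit 376) (nat_lit 0) (nat_lit 0) (XT.nd (nat_lit 188) (nat_lit 0) (nat_lit 0) (XT.nd (nat_lit 94) (nat_lit 0) (nat_lit 0) (XT.lf (nat_lit 0) (nat_lit 506757710578) (nat_lit 0) (nat_lit 0) (nat_lit 0) (nat_lit 0) (nat_lit 0) (nat_lit 0) (nat_lit 1) (nat_lit 0) (nat_lit 1) (nat_lit 0) (nat_lit 406) (nat_lit 440) (nat_lit 234)) (XT.lf (nat_lit 0) (nat_lit 506757705690) (nat_lit 0)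 (nat_lit 0) (nat_lit 0) (nat_lit 0) (nat_lit 0) (nat_lit 0) (nat_lit 1) (nat_lit 0) (nat_lit 1) (nat_lit 0) (nat_lit 407) (nat_lit 440) (nat_lit 233))) (XT.nd (nat_lit 94) (nat_lit 0) (nat_lit 0) (XT.lf (nat_lit 0) (nat_lit 506757701163) (nat_lit 0) (nat_lit 0) (nat_lit 0) (nat_lit 0) (nat_lit 0) (nat_lit 0) (nat_lit 1) (nat_lit 0) (nat_lit 1) (nat_lit 0) (nat_lit 408) (nat_lit 440) (nat_lit 232)) (XT.lf (nat_lit 0) (nat_lit 506757696972) (nat_lit 0) (nat_lit 0) (nat_lit 0) (nat_lit 0) (nat_lit 0) (nat_lit 0) (nat_lit 1) (nat_lit 0) (nat_lit 1) (nat_lit 0) (nat_lit 409) (nat_lit 440) (nat_lit 231)))) (XT.nd (nat_lit 188) (nat_lit 0) (nat_lit 0) (XT.nd (nat_lit 94) (nat_lit 0) (nat_lit 0) (XT.lf (nat_lit 0) (nat_lit 506757693091) (nat_lit 0) (nat_lit 0) (nat_lit 0) (nat_lit 0) (nat_lit 0) (nat_lit 0) (nat_lit 1) (nat_lit 0) (nat_lit 1) (nat_lit 0) (nat_lit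 410) (nat_lit 440) (nat_lit 230)) (XT.lf (nat_lit 0) (nat_lit 506757689498) (nat_lit 0) (nat_lit 0) (nat_lit 0) (nat_lit 0) (nat_lit 0) (nat_lit 0) (nat_lit 1) (nat_lit 0) (nat_lit 1) (nat_lit 0) (nat_lit 411) (nat_lit 440) (nat_lit 229))) (XT.nd (nat_lit 94) (nat_lit 0) (nat_lit 0) (XT.lf (nat_lit 0) (nat_lit 506757686171) (nat_lit 0) (nat_lit 0) (nat_lit 0) (nat_lit 0) (nat_lit 0) (nat_lit 0) (nat_lit 1) (nat_lit 0) (nat_lit 1) (nat_lit 0) (nat_lit 412) (nat_lit 440) (nat_lit 228)) (XT.nd (nat_lit 94) (nat_lit 0) (nat_lit 0) (XT.lf (nat_lit 0) (nat_lit 506757683091) (nat_lit 0) (nat_lit 0) (nat_lit 0) (nat_lit 0) (nat_lit 0) (nat_lit 0) (nat_lit 1) (nat_lit 0) (nat_lit 1) (nat_lit 0) (nat_lit 413) (nat_lit 440) (nat_lit 227)) (XT.lf (nat_lit 0) (nat_lit 506757680238) (nat_lit 0) (nat_lit 0) (nat_lit 0) (nat_lit 0) (nat_lit 0) (nat_lit 0) (nat_lit 1) (nat_lit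 0) (nat_lit 1) (nat_lit 0) (nat_lit 414) (nat_lit 440) (nat_lit 226)))))) (XT.nd (nat_lit 470) (nat_lit 0) (nat_lit 0) (XT.nd (nat_lit 188) (nat_lit 0) (nat_lit 0) (XT.nd (nat_lit 94) (nat_lit 0) (nat_lit 0) (XT.lf (nat_lit 0) (nat_lit 506757677597) (nat_lit 0) (nat_lit 0) (nat_lit 0) (nat_lit 0) (nat_lit 0) (nat_lit 0) (nat_lit 1) (nat_lit 0) (nat_lit 1) (nat_lit 0) (nat_lit 415) (nat_lit 440) (nat_lit 225)) (XT.lf (nat_lit 0) (nat_lit 506757675152) (nat_lit 0) (nat_lit 0) (nat_lit 0) (nat_lit 0) (nat_lit 0) (nat_lit 0) (nat_lit 1) (nat_lit 0) (nat_lit 1) (nat_lit 0) (nat_lit 416) (nat_lit 440) (nat_lit 224))) (XT.nd (nat_lit 94) (nat_lit 0) (nat_lit 0) (XT.lf (nat_lit 0) (nat_lit 506757672888) (nat_lit 0) (nat_lit 0) (nat_lit 0) (nat_lit 0) (nat_lit 0) (nat_lit 0) (nat_lit 1) (nat_lit 0) (nat_lit 1) (nat_lit 0) (nat_lit 417) (nat_lit 440) (nat_lit 223))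 (XT.nd (nat_lit 94) (nat_lit 0) (nat_lit 0) (XT.lf (nat_lit 0) (nat_lit 506757670791) (nat_lit 0) (nat_lit 0) (nat_lit 0) (nat_lit 0) (nat_lit 0) (nat_lit 0) (nat_lit 1) (nat_lit 0) (nat_lit 1) (nat_lit 0) (nat_lit 418) (nat_lit 440) (nat_lit 222)) (XT.lf (nat_lit 0) (nat_lit 506757668850) (nat_lit 0) (nat_lit 0) (nat_lit 0) (nat_lit 0) (nat_lit 0) (nat_lit 0) (nat_lit 1) (nat_lit 0) (nat_lit 1) (nat_lit 0) (nat_lit 419) (nat_lit 440) (nat_lit 221))))) (XT.nd (nat_lit 188) (nat_lit 0) (nat_lit 0) (XT.nd (nat_lit 94) (nat_lit 0) (nat_lit 0) (XT.lf (nat_lit 0) (nat_lit 506757667052) (nat_lit 0) (nat_lit 0) (nat_lit 0) (nat_lit 0) (nat_lit 0) (nat_lit 0) (nat_lit 1) (nat_lit 0) (nat_lit 1) (nat_lit 0) (nat_lit 420) (nat_lit 440) (nat_lit 220)) (XT.lf (nat_lit 0) (nat_lit 506757665388) (nat_lit 0) (nat_lit 0) (nat_lit 0) (nat_lit 0) (nat_lit 0) (nat_lit 0) (nat_lit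 1) (nat_lit 0) (nat_lit 1) (nat_lit 0) (nat_lit 421) (nat_lit 440) (nat_lit 219))) (XT.nd (nat_lit 94) (nat_lit 0) (nat_lit 0) (XT.lf (nat_lit 0) (nat_lit 506757663847) (nat_lit 0) (nat_lit 0) (nat_lit 0) (nat_lit 0) (nat_lit 0) (nat_lit 0) (nat_lit 1) (nat_lit 0) (nat_lit 1) (nat_lit 0) (nat_lit 422) (nat_lit 440) (nat_lit 218)) (XT.nd (nat_lit 94) (nat_lit 0) (nat_lit 0) (XT.lf (nat_lit 0) (nat_lit 506757662420) (nat_lit 0) (nat_lit 0) (nat_lit 0) (nat_lit 0) (nat_lit 0) (nat_lit 0) (nat_lit 1) (nat_lit 0) (nat_lit 1) (nat_lit 0) (nat_lit 423) (nat_lit 440) (nat_lit 217)) (XT.lf (nat_lit 0) (nat_lit 506757661099) (nat_lit 0) (nat_lit 0) (nat_lit 0) (nat_lit 0) (nat_lit 0) (nat_lit 0) (nat_lit 1) (nat_lit 0) (nat_lit 1) (nat_lit 0) (nat_lit 424) (nat_lit 440) (nat_lit 216))))))))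
noncomputable def ec372 : XT := (XT.nd (nat_lit 1692) (nat_lit 0) (nat_lit 0) (XT.nd (nat_lit 846) (nat_lit 0) (nat_lit 0) (XT.nd (nat_lit 376) (nat_lit 0) (nat_lit 0) (XT.nd (nat_lit 188) (nat_lit 0) (nat_lit 0) (XT.nd (nat_lit 94) (nat_lit 0) (nat_lit 0) (XT.lf (nat_lit 0) (nat_lit 506757659875) (nat_lit 0) (nat_lit 0) (nat_lit 0) (nat_lit 0) (nat_lit 0) (nat_lit 0) (nat_lit 1) (nat_lit 0) (nat_lit 1) (nat_lit 0) (nat_lit 425) (nat_lit 440) (nat_lit 215)) (XT.lf (nat_lit 0) (nat_lit 506757658743) (nat_lit 0) (nat_lit 0) (nat_lit 0) (nat_lit 0) (nat_lit 0) (nat_lit 0) (nat_lit 1) (nat_lit 0) (nat_lit 1) (nat_lit 0) (nat_lit 426) (nat_lit 440) (nat_lit 214))) (XT.nd (nat_lit 94) (nat_lit 0) (nat_lit 0) (XT.lf (nat_lit 0) (nat_lit 506757657694) (nat_lit 0) (nat_lit 0) (nat_lit 0) (nat_lit 0) (nat_lit 0) (nat_lit 0) (nat_lit 1) (nat_lit 0) (nat_lit 1) (nat_lit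 0) (nat_lit 427) (nat_lit 440) (nat_lit 213)) (XT.lf (nat_lit 0) (nat_lit 506757656723) (nat_lit 0) (nat_lit 0) (nat_lit 0) (nat_lit 0) (nat_lit 0) (nat_lit 0) (nat_lit 1) (nat_lit 0) (nat_lit 1) (nat_lit 0) (nat_lit 428) (nat_lit 440) (nat_lit 212)))) (XT.nd (nat_lit 188) (nat_lit 0) (nat_lit 0) (XT.nd (nat_lit 94) (nat_lit 0) (nat_lit 0) (XT.lf (nat_lit 0) (nat_lit 506757655824) (nat_lit 0) (nat_lit 0) (nat_lit 0) (nat_lit 0) (nat_lit 0) (nat_lit 0) (nat_lit 1) (nat_lit 0) (nat_lit 1) (nat_lit 0) (nat_lit 429) (nat_lit 440) (nat_lit 211)) (XT.lf (nat_lit 0) (nat_lit 506757654991) (nat_lit 0) (nat_lit 0) (nat_lit 0) (nat_lit 0) (nat_lit 0) (nat_lit 0) (nat_lit 1) (nat_lit 0) (nat_lit 1) (nat_lit 0) (nat_lit 430) (nat_lit 440) (nat_lit 210))) (XT.nd (nat_lit 94) (nat_lit 0) (nat_lit 0) (XT.lf (nat_lit 0) (nat_lit 506757654220) (nat_lit 0) (nat_lit 0) (nat_lit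 0) (nat_lit 0) (nat_lit 0) (nat_lit 0) (nat_lit 1) (nat_lit 0) (nat_lit 1) (nat_lit 0) (nat_lit 431) (nat_lit 440) (nat_lit 209)) (XT.nd (nat_lit 94) (nat_lit 0) (nat_lit 0) (XT.lf (nat_lit 0) (nat_lit 506757653506) (nat_lit 0) (nat_lit 0) (nat_lit 0) (nat_lit 0) (nat_lit 0) (nat_lit 0) (nat_lit 1) (nat_lit 0) (nat_lit 1) (nat_lit 0) (nat_lit 432) (nat_lit 440) (nat_lit 208)) (XT.lf (nat_lit 0) (nat_lit 506757652845) (nat_lit 0) (nat_lit 0) (nat_lit 0) (nat_lit 0) (nat_lit 0) (nat_lit 0) (nat_lit 1) (nat_lit 0) (nat_lit 1) (nat_lit 0) (nat_lit 433) (nat_lit 440) (nat_lit 207)))))) (XT.nd (nat_lit 376) (nat_lit 0) (nat_lit 0) (XT.nd (nat_lit 188) (nat_lit 0) (nat_lit 0) (XT.nd (nat_lit 94) (nat_lit 0) (nat_lit 0) (XT.lf (nat_lit 0) (nat_lit 506757652233) (nat_lit 0) (nat_lit 0) (nat_lit 0) (nat_lit 0) (nat_lit 0) (nat_lit 0) (nat_lit 1) (nat_lit 0) (nat_lit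 1) (nat_lit 0) (nat_lit 434) (nat_lit 440) (nat_lit 206)) (XT.lf (nat_lit 0) (nat_lit 506757651667) (nat_lit 0) (nat_lit 0) (nat_lit 0) (nat_lit 0) (nat_lit 0) (nat_lit 0) (nat_lit 1) (nat_lit 0) (nat_lit 1) (nat_lit 0) (nat_lit 435) (nat_lit 440) (nat_lit 205))) (XT.nd (nat_lit 94) (nat_lit 0) (nat_lit 0) (XT.lf (nat_lit 0) (nat_lit 506757651142) (nat_lit 0) (nat_lit 0) (nat_lit 0) (nat_lit 0) (nat_lit 0) (nat_lit 0) (nat_lit 1) (nat_lit 0) (nat_lit 1) (nat_lit 0) (nat_lit 436) (nat_lit 440) (nat_lit 204)) (XT.lf (nat_lit 0) (nat_lit 506757650656) (nat_lit 0) (nat_lit 0) (nat_lit 0) (nat_lit 0) (nat_lit 0) (nat_lit 0) (nat_lit 1) (nat_lit 0) (nat_lit 1) (nat_lit 0) (nat_lit 437) (nat_lit 440) (nat_lit 203)))) (XT.nd (nat_lit 188) (nat_lit 0) (nat_lit 0) (XT.nd (nat_lit 94) (nat_lit 0) (nat_lit 0) (XT.lf (nat_lit 0) (nat_lit 506757650206) (nat_lit 0) (nat_lit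 0) (nat_lit 0) (nat_lit 0) (nat_lit 0) (nat_lit 0) (nat_lit 1) (nat_lit 0) (nat_lit 1) (nat_lit 0) (nat_lit 438) (nat_lit 440) (nat_lit 202)) (XT.lf (nat_lit 0) (nat_lit 506757649790) (nat_lit 0) (nat_lit 0) (nat_lit 0) (nat_lit 0) (nat_lit 0) (nat_lit 0) (nat_lit 1) (nat_lit 0) (nat_lit 1) (nat_lit 0) (nat_lit 439) (nat_lit 440) (nat_lit 201))) (XT.nd (nat_lit 94) (nat_lit 0) (nat_lit 0) (XT.lf (nat_lit 0) (nat_lit 506757649404) (nat_lit 0) (nat_lit 0) (nat_lit 0) (nat_lit 0) (nat_lit 0) (nat_lit 0) (nat_lit 1) (nat_lit 0) (nat_lit 1) (nat_lit 0) (nat_lit 440) (nat_lit 440) (nat_lit 200)) (XT.nd (nat_lit 94) (nat_lit 0) (nat_lit 0) (XT.lf (nat_lit 0) (nat_lit 506757649047) (nat_lit 0) (nat_lit 0) (nat_lit 0) (nat_lit 0) (nat_lit 0) (nat_lit 0) (nat_lit 1) (nat_lit 0) (nat_lit 1) (nat_lit 0) (nat_lit 441) (nat_lit 440) (nat_lit 199)) (XT.lf (nat_lit 0) (nat_lit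 506757648717) (nat_lit 0) (nat_lit 0) (nat_lit 0) (nat_lit 0) (nat_lit 0) (nat_lit 0) (nat_lit 1) (nat_lit 0) (nat_lit 1) (nat_lit 0) (nat_lit 442) (nat_lit 440) (nat_lit 198))))))) (XT.nd (nat_lit 45120) (nat_lit 0) (nat_lit 8148) (XT.nd (nat_lit 376) (nat_lit 0) (nat_lit 0) (XT.nd (nat_lit 188) (nat_lit 0) (nat_lit 0) (XT.nd (nat_lit 94) (nat_lit 0) (nat_lit 0) (XT.lf (nat_lit 0) (nat_lit 506757648410) (nat_lit 0) (nat_lit 0) (nat_lit 0) (nat_lit 0) (nat_lit 0) (nat_lit 0) (nat_lit 1) (nat_lit 0) (nat_lit 1) (nat_lit 0) (nat_lit 443) (nat_lit 440) (nat_lit 197)) (XT.lf (nat_lit 0) (nat_lit 506757648127) (nat_lit 0) (nat_lit 0) (nat_lit 0) (nat_lit 0) (nat_lit 0) (nat_lit 0) (nat_lit 1) (nat_lit 0) (nat_lit 1) (nat_lit 0) (nat_lit 444) (nat_lit 440) (nat_lit 196))) (XT.nd (nat_lit 94) (nat_lit 0) (nat_lit 0) (XT.lf (nat_lit 0) (nat_lit 506757647864) (nat_lit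 0) (nat_lit 0) (nat_lit 0) (nat_lit 0) (nat_lit 0) (nat_lit 0) (nat_lit 1) (nat_lit 0) (nat_lit 1) (nat_lit 0) (nat_lit 445) (nat_lit 440) (nat_lit 195)) (XT.lf (nat_lit 0) (nat_lit 506757647621) (nat_lit 0) (nat_lit 0) (nat_lit 0) (nat_lit 0) (nat_lit 0) (nat_lit 0) (nat_lit 1) (nat_lit 0) (nat_lit 1) (nat_lit 0) (nat_lit 446) (nat_lit 440) (nat_lit 194)))) (XT.nd (nat_lit 44462) (nat_lit 0) (nat_lit 10836) (XT.nd (nat_lit 44368) (nat_lit 0) (nat_lit 10752) (XT.lf (nat_lit 0) (nat_lit 506757647396) (nat_lit 0) (nat_lit 0) (nat_lit 0) (nat_lit 0) (nat_lit 0) (nat_lit 0) (nat_lit 1) (nat_lit 0) (nat_lit 1) (nat_lit 0) (nat_lit 447) (nat_lit 440) (nat_lit 193)) (XT.lf (nat_lit 924) (nat_lit 273888547857) (nat_lit 0) (nat_lit 486288487162) (nat_lit 924) (nat_lit 273888547857) (nat_lit 139) (nat_lit 1) (nat_lit 128) (nat_lit 0) (nat_lit 139) (nat_lit 0) (nat_lit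 198) (nat_lit 441) (nat_lit 441))) (XT.nd (nat_lit 94) (nat_lit 0) (nat_lit 0) (XT.lf (nat_lit 924) (nat_lit 102168832384) (nat_lit 0) (nat_lit 954731682801) (nat_lit 840) (nat_lit 933724396091) (nat_lit 140) (nat_lit 1) (nat_lit 129) (nat_lit 1) (nat_lit 139) (nat_lit 1) (nat_lit 199) (nat_lit 441) (nat_lit 440)) (XT.nd (nat_lit 94) (nat_lit 0) (nat_lit 84) (XT.lf (nat_lit 924) (nat_lit 938361752748) (nat_lit 84) (nat_lit 639384129790) (nat_lit 0) (nat_lit 339100176230) (nat_lit 140) (nat_lit 1) (nat_lit 130) (nat_lit 1) (nat_lit 129) (nat_lit 1) (nat_lit 200) (nat_lit 441) (nat_lit 439)) (XT.lf (nat_lit 924) (nat_lit 810821426076) (nat_lit 84) (nat_lit 267961457003) (nat_lit 0) (nat_lit 767976404095) (nat_lit 141) (nat_lit 1) (nat_lit 131) (nat_lit 1) (nat_lit 130) (nat_lit 1) (nat_lit 201) (nat_lit 441) (nat_lit 438)))))) (XT.nd (nat_lit 470) (nat_lit 1596)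 (nat_lit 0) (XT.nd (nat_lit 188) (nat_lit 1260) (nat_lit 0) (XT.nd (nat_lit 94) (nat_lit 0) (nat_lit 84) (XT.lf (nat_lit 924) (nat_lit 600076788940) (nat_lit 0) (nat_lit 1122715307705) (nat_lit 840) (nat_lit 57393046126) (nat_lit 142) (nat_lit 1) (nat_lit 131) (nat_lit 1) (nat_lit 141) (nat_lit 1) (nat_lit 202) (nat_lit 441) (nat_lit 437)) (XT.lf (nat_lit 924) (nat_lit 143982541915) (nat_lit 0) (nat_lit 1238105529153) (nat_lit 840) (nat_lit 334702308710) (nat_lit 143) (nat_lit 1) (nat_lit 132) (nat_lit 1) (nat_lit 142) (nat_lit 1) (nat_lit 203) (nat_lit 441) (nat_lit 436))) (XT.nd (nat_lit 94) (nat_lit 1344) (nat_lit 0) (XT.lf (nat_lit 924) (nat_lit 276675882904) (nat_lit 84) (nat_lit 1076014528094) (nat_lit 0) (nat_lit 303664575326) (nat_lit 143) (nat_lit 1) (nat_lit 133) (nat_lit 1) (nat_lit 132) (nat_lit 1) (nat_lit 204) (nat_lit 441) (nat_lit 435)) (XT.nd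 (nat_lit 94) (nat_lit 588) (nat_lit 0) (XT.lf (nat_lit 924) (nat_lit 56822917292) (nat_lit 0) (nat_lit 804392035375) (nat_lit 840) (nat_lit 737619068150) (nat_lit 134) (nat_lit 1) (nat_lit 123) (nat_lit 1) (nat_lit 133) (nat_lit 1) (nat_lit 205) (nat_lit 441) (nat_lit 434)) (XT.lf (nat_lit 84) (nat_lit 393453716014) (nat_lit 0) (nat_lit 170501805001) (nat_lit 588) (nat_lit 980081096471) (nat_lit 117) (nat_lit 1) (nat_lit 116) (nat_lit 1) (nat_lit 123) (nat_lit 1) (nat_lit 206) (nat_lit 441) (nat_lit 433))))) (XT.nd (nat_lit 188) (nat_lit 756) (nat_lit 0) (XT.nd (nat_lit 94) (nat_lit 420) (nat_lit 0) (XT.lf (nat_lit 504) (nat_lit 1084308918572) (nat_lit 0) (nat_lit 352965928809) (nat_lit 420) (nat_lit 54570713537) (nat_lit 117) (nat_lit 1) (nat_lit 111) (nat_lit 1) (nat_lit 116) (nat_lit 1) (nat_lit 207) (nat_lit 441) (nat_lit 432)) (XT.lf (nat_lit 504) (nat_lit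 782447641214) (nat_lit 0) (nat_lit 164518939869) (nat_lit 420) (nat_lit 494932045374) (nat_lit 112) (nat_lit 1) (nat_lit 106) (nat_lit 1) (nat_lit 111) (nat_lit 1) (nat_lit 208) (nat_lit 441) (nat_lit 431))) (XT.nd (nat_lit 94) (nat_lit 420) (nat_lit 0) (XT.lf (nat_lit 420) (nat_lit 476109410390) (nat_lit 0) (nat_lit 3029061040) (nat_lit 336) (nat_lit 915235038818) (nat_lit 107) (nat_lit 1) (nat_lit 102) (nat_lit 1) (nat_lit 106) (nat_lit 1) (nat_lit 209) (nat_lit 441) (nat_lit 430)) (XT.nd (nat_lit 94) (nat_lit 420) (nat_lit 0) (XT.lf (nat_lit 84) (nat_lit 35125102211) (nat_lit 0) (nat_lit 1184588648185) (nat_lit 420) (nat_lit 129320883846) (nat_lit 103) (nat_lit 1) (nat_lit 102) (nat_lit 1) (nat_lit 107) (nat_lit 1) (nat_lit 210) (nat_lit 441) (nat_lit 429)) (XT.lf (nat_lit 84) (nat_lit 906939249494) (nat_lit 0) (nat_lit 150425578719) (nat_lit 420) (nat_lit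 248079098664) (nat_lit 98) (nat_lit 1) (nat_lit 97) (nat_lit 1) (nat_lit 102) (nat_lit 1) (nat_lit 211) (nat_lit 441) (nat_lit 428))))))))
noncomputable def ec373 : XT := (XT.nd (nat_lit 1786) (nat_lit 2772) (nat_lit 0) (XT.nd (nat_lit 846) (nat_lit 1932) (nat_lit 0) (XT.nd (nat_lit 376) (nat_lit 1260) (nat_lit 0) (XT.nd (nat_lit 188) (nat_lit 672) (nat_lit 0) (XT.nd (nat_lit 94) (nat_lit 336) (nat_lit 0) (XT.lf (nat_lit 84) (nat_lit 453764688950) (nat_lit 0) (nat_lit 460780250599) (nat_lit 420) (nat_lit 349234339673) (nat_lit 94) (nat_lit 1) (nat_lit 93) (nat_lit 1) (nat_lit 98) (nat_lit 1) (nat_lit 212) (nat_lit 441) (nat_lit 427)) (XT.lf (nat_lit 84) (nat_lit 22396818841) (nat_lit 0) (nat_lit 770417424101) (nat_lit 420) (nat_lit 431273071992) (nat_lit 90) (nat_lit 1) (nat_lit 89) (nat_lit 1) (nat_lit 94) (nat_lit 1) (nat_lit 213) (nat_lit 441) (nat_lit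 426))) (XT.nd (nat_lit 94) (nat_lit 420) (nat_lit 0) (XT.lf (nat_lit 336) (nat_lit 101142771607) (nat_lit 0) (nat_lit 683980150433) (nat_lit 252) (nat_lit 400828087732) (nat_lit 90) (nat_lit 1) (nat_lit 86) (nat_lit 1) (nat_lit 89) (nat_lit 1) (nat_lit 214) (nat_lit 441) (nat_lit 425)) (XT.lf (nat_lit 84) (nat_lit 349475469121) (nat_lit 0) (nat_lit 239532658081) (nat_lit 420) (nat_lit 560382057319) (nat_lit 82) (nat_lit 1) (nat_lit 81) (nat_lit 1) (nat_lit 86) (nat_lit 1) (nat_lit 215) (nat_lit 441) (nat_lit 424)))) (XT.nd (nat_lit 188) (nat_lit 756) (nat_lit 0) (XT.nd (nat_lit 94) (nat_lit 252) (nat_lit 0) (XT.lf (nat_lit 336) (nat_lit 541072085950) (nat_lit 0) (nat_lit 508267292830) (nat_lit 252) (nat_lit 65057610257) (nat_lit 82) (nat_lit 1) (nat_lit 78) (nat_lit 1) (nat_lit 81) (nat_lit 1) (nat_lit 216) (nat_lit 441) (nat_lit 423)) (XT.lf (nat_lit 336)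 (nat_lit 173410989594) (nat_lit 0) (nat_lit 437597325784) (nat_lit 252) (nat_lit 469740276449) (nat_lit 79) (nat_lit 1) (nat_lit 75) (nat_lit 1) (nat_lit 78) (nat_lit 1) (nat_lit 217) (nat_lit 441) (nat_lit 422))) (XT.nd (nat_lit 94) (nat_lit 420) (nat_lit 0) (XT.lf (nat_lit 84) (nat_lit 197646626456) (nat_lit 0) (nat_lit 180962662394) (nat_lit 336) (nat_lit 669888387062) (nat_lit 72) (nat_lit 1) (nat_lit 71) (nat_lit 1) (nat_lit 75) (nat_lit 1) (nat_lit 218) (nat_lit 441) (nat_lit 421)) (XT.nd (nat_lit 94) (nat_lit 168) (nat_lit 0) (XT.lf (nat_lit 336) (nat_lit 491817688880) (nat_lit 0) (nat_lit 327237264828) (nat_lit 252) (nat_lit 198372305841) (nat_lit 72) (nat_lit 1) (nat_lit 68) (nat_lit 1) (nat_lit 71) (nat_lit 1) (nat_lit 219) (nat_lit 441) (nat_lit 420)) (XT.lf (nat_lit 252) (nat_lit 121922331275) (nat_lit 0) (nat_lit 285490644810) (nat_lit 168) (nat_lit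 580197334381) (nat_lit 69) (nat_lit 1) (nat_lit 66) (nat_lit 1) (nat_lit 68) (nat_lit 1) (nat_lit 220) (nat_lit 441) (nat_lit 419)))))) (XT.nd (nat_lit 470) (nat_lit 840) (nat_lit 0) (XT.nd (nat_lit 188) (nat_lit 588) (nat_lit 0) (XT.nd (nat_lit 94) (nat_lit 168) (nat_lit 0) (XT.lf (nat_lit 84) (nat_lit 20654421852) (nat_lit 0) (nat_lit 231127464381) (nat_lit 336) (nat_lit 707167258646) (nat_lit 63) (nat_lit 1) (nat_lit 62) (nat_lit 1) (nat_lit 66) (nat_lit 1) (nat_lit 221) (nat_lit 441) (nat_lit 418)) (XT.lf (nat_lit 252) (nat_lit 354283923514) (nat_lit 0) (nat_lit 221397058236) (nat_lit 168) (nat_lit 355516835134) (nat_lit 63) (nat_lit 1) (nat_lit 60) (nat_lit 1) (nat_lit 62) (nat_lit 1) (nat_lit 222) (nat_lit 441) (nat_lit 417))) (XT.nd (nat_lit 94) (nat_lit 336) (nat_lit 0) (XT.lf (nat_lit 84) (nat_lit 192219651283) (nat_lit 0) (nat_lit 8878746203) (nat_lit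 252) (nat_lit 703559063732) (nat_lit 58) (nat_lit 1) (nat_lit 57) (nat_lit 1) (nat_lit 60) (nat_lit 1) (nat_lit 223) (nat_lit 441) (nat_lit 416)) (XT.nd (nat_lit 94) (nat_lit 168) (nat_lit 0) (XT.lf (nat_lit 252) (nat_lit 525491408109) (nat_lit 0) (nat_lit 182094555415) (nat_lit 168) (nat_lit 171303182083) (nat_lit 58) (nat_lit 1) (nat_lit 55) (nat_lit 1) (nat_lit 57) (nat_lit 1) (nat_lit 224) (nat_lit 441) (nat_lit 415)) (XT.lf (nat_lit 252) (nat_lit 163238689270) (nat_lit 0) (nat_lit 169277025581) (nat_lit 168) (nat_lit 521590350629) (nat_lit 56) (nat_lit 1) (nat_lit 53) (nat_lit 1) (nat_lit 55) (nat_lit 1) (nat_lit 225) (nat_lit 441) (nat_lit 414))))) (XT.nd (nat_lit 188) (nat_lit 420) (nat_lit 0) (XT.nd (nat_lit 94) (nat_lit 168) (nat_lit 0) (XT.lf (nat_lit 252) (nat_lit 647997604494) (nat_lit 0) (nat_lit 161730458562) (nat_lit 168) (nat_lit 20517385012)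 (nat_lit 53) (nat_lit 1) (nat_lit 50) (nat_lit 1) (nat_lit 52) (nat_lit 1) (nat_lit 226) (nat_lit 441) (nat_lit 413)) (XT.lf (nat_lit 252) (nat_lit 290013695622) (nat_lit 0) (nat_lit 154398061032) (nat_lit 168) (nat_lit 362636085249) (nat_lit 51) (nat_lit 1) (nat_lit 48) (nat_lit 1) (nat_lit 50) (nat_lit 1) (nat_lit 227) (nat_lit 441) (nat_lit 412))) (XT.nd (nat_lit 94) (nat_lit 252) (nat_lit 0) (XT.lf (nat_lit 84) (nat_lit 99340887866) (nat_lit 0) (nat_lit 54602228404) (nat_lit 168) (nat_lit 630869296227) (nat_lit 47) (nat_lit 1) (nat_lit 46) (nat_lit 1) (nat_lit 48) (nat_lit 1) (nat_lit 228) (nat_lit 441) (nat_lit 411)) (XT.nd (nat_lit 94) (nat_lit 84) (nat_lit 0) (XT.lf (nat_lit 252) (nat_lit 380514647547) (nat_lit 0) (nat_lit 152313030027) (nat_lit 168) (nat_lit 230310395437) (nat_lit 47) (nat_lit 1) (nat_lit 44) (nat_lit 1) (nat_lit 46) (nat_lit 1) (nat_lit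 229) (nat_lit 441) (nat_lit 410)) (XT.lf (nat_lit 168) (nat_lit 40976020496) (nat_lit 0) (nat_lit 156054034874) (nat_lit 84) (nat_lit 545289353186) (nat_lit 45) (nat_lit 1) (nat_lit 43) (nat_lit 1) (nat_lit 44) (nat_lit 1) (nat_lit 230) (nat_lit 441) (nat_lit 409))))))) (XT.nd (nat_lit 846) (nat_lit 1260) (nat_lit 0) (XT.nd (nat_lit 376) (nat_lit 840) (nat_lit 0) (XT.nd (nat_lit 188) (nat_lit 336) (nat_lit 0) (XT.nd (nat_lit 94) (nat_lit 84) (nat_lit 0) (XT.lf (nat_lit 252) (nat_lit 442321013096) (nat_lit 0) (nat_lit 159601634122) (nat_lit 168) (nat_lit 120152131745) (nat_lit 43) (nat_lit 1) (nat_lit 40) (nat_lit 1) (nat_lit 42) (nat_lit 1) (nat_lit 231) (nat_lit 441) (nat_lit 408)) (XT.lf (nat_lit 168) (nat_lit 111246996458) (nat_lit 0) (nat_lit 165569300048) (nat_lit 84) (nat_lit 425696137548) (nat_lit 41) (nat_lit 1) (nat_lit 39) (nat_lit 1) (nat_lit 40)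 (nat_lit 1) (nat_lit 232) (nat_lit 441) (nat_lit 407))) (XT.nd (nat_lit 94) (nat_lit 84) (nat_lit 0) (XT.lf (nat_lit 252) (nat_lit 481560889005) (nat_lit 0) (nat_lit 173554756374) (nat_lit 168) (nat_lit 28481821232) (nat_lit 39) (nat_lit 1) (nat_lit 36) (nat_lit 1) (nat_lit 38) (nat_lit 1) (nat_lit 233) (nat_lit 441) (nat_lit 406)) (XT.lf (nat_lit 168) (nat_lit 160099690101) (nat_lit 0) (nat_lit 180932918994) (nat_lit 84) (nat_lit 324156949860) (nat_lit 37) (nat_lit 1) (nat_lit 35) (nat_lit 1) (nat_lit 36) (nat_lit 1) (nat_lit 234) (nat_lit 441) (nat_lit 405)))) (XT.nd (nat_lit 188) (nat_lit 504) (nat_lit 0) (XT.nd (nat_lit 94) (nat_lit 84) (nat_lit 0) (XT.lf (nat_lit 84) (nat_lit 46211141942) (nat_lit 0) (nat_lit 145044456458) (nat_lit 252) (nat_lit 456187358226) (nat_lit 33) (nat_lit 1) (nat_lit 32) (nat_lit 1) (nat_lit 35) (nat_lit 1) (nat_lit 235) (nat_lit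 441) (nat_lit 404)) (XT.lf (nat_lit 168) (nat_lit 192134072755) (nat_lit 0) (nat_lit 200194596863) (nat_lit 84) (nat_lit 237808410624) (nat_lit 33) (nat_lit 1) (nat_lit 31) (nat_lit 1) (nat_lit 32) (nat_lit 1) (nat_lit 236) (nat_lit 441) (nat_lit 403))) (XT.nd (nat_lit 94) (nat_lit 252) (nat_lit 0) (XT.lf (nat_lit 84) (nat_lit 107469909423) (nat_lit 0) (nat_lit 104091874372) (nat_lit 252) (nat_lit 401877590947) (nat_lit 29) (nat_lit 1) (nat_lit 28) (nat_lit 1) (nat_lit 31) (nat_lit 1) (nat_lit 237) (nat_lit 441) (nat_lit 402)) (XT.nd (nat_lit 94) (nat_lit 168) (nat_lit 0) (XT.lf (nat_lit 168) (nat_lit 211059710036) (nat_lit 0) (nat_lit 221831908390) (nat_lit 84) (nat_lit 164276670864) (nat_lit 29) (nat_lit 1) (nat_lit 27) (nat_lit 1) (nat_lit 28) (nat_lit 1) (nat_lit 238) (nat_lit 441) (nat_lit 401)) (XT.lf (nat_lit 84) (nat_lit 158220558022) (nat_lit 0) (nat_lit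 75389264878) (nat_lit 168) (nat_lit 347824739878) (nat_lit 26) (nat_lit 1) (nat_lit 25) (nat_lit 1) (nat_lit 27) (nat_lit 1) (nat_lit 239) (nat_lit 441) (nat_lit 400)))))) (XT.nd (nat_lit 470) (nat_lit 672) (nat_lit 0) (XT.nd (nat_lit 188) (nat_lit 336) (nat_lit 0) (XT.nd (nat_lit 94) (nat_lit 168) (nat_lit 0) (XT.lf (nat_lit 168) (nat_lit 219862140291) (nat_lit 0) (nat_lit 244666907996) (nat_lit 84) (nat_lit 101590089977) (nat_lit 26) (nat_lit 1) (nat_lit 24) (nat_lit 1) (nat_lit 25) (nat_lit 1) (nat_lit 240) (nat_lit 441) (nat_lit 399)) (XT.lf (nat_lit 84) (nat_lit 200134294822) (nat_lit 0) (nat_lit 56241374620) (nat_lit 168) (nat_lit 294899130749) (nat_lit 23) (nat_lit 1) (nat_lit 22) (nat_lit 1) (nat_lit 24) (nat_lit 1) (nat_lit 241) (nat_lit 441) (nat_lit 398))) (XT.nd (nat_lit 94) (nat_lit 252) (nat_lit 0) (XT.lf (nat_lit 168) (nat_lit 220938538481)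 (nat_lit 0) (nat_lit 267798358051) (nat_lit 84) (nat_lit 48107773572) (nat_lit 23) (nat_lit 1) (nat_lit 21) (nat_lit 1) (nat_lit 22) (nat_lit 1) (nat_lit 242) (nat_lit 441) (nat_lit 397)) (XT.nd (nat_lit 94) (nat_lit 84) (nat_lit 0) (XT.lf (nat_lit 84) (nat_lit 234600079395) (nat_lit 0) (nat_lit 44480969334) (nat_lit 168) (nat_lit 243742771046) (nat_lit 20) (nat_lit 1) (nat_lit 19) (nat_lit 1) (nat_lit 21) (nat_lit 1) (nat_lit 243) (nat_lit 441) (nat_lit 396)) (XT.lf (nat_lit 168) (nat_lit 216208312465) (nat_lit 0) (nat_lit 290546689848) (nat_lit 84) (nat_lit 2461071316) (nat_lit 20) (nat_lit 1) (nat_lit 18) (nat_lit 1) (nat_lit 19) (nat_lit 1) (nat_lit 244) (nat_lit 441) (nat_lit 395))))) (XT.nd (nat_lit 188) (nat_lit 420) (nat_lit 0) (XT.nd (nat_lit 94) (nat_lit 84) (nat_lit 0) (XT.lf (nat_lit 84) (nat_lit 262774584358) (nat_lit 0) (nat_lit 38369688829)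 (nat_lit 168) (nat_lit 194815877351) (nat_lit 17) (nat_lit 1) (nat_lit 16) (nat_lit 1) (nat_lit 18) (nat_lit 1) (nat_lit 245) (nat_lit 441) (nat_lit 394)) (XT.lf (nat_lit 0) (nat_lit 35326287122) (nat_lit 0) (nat_lit 276484787521) (nat_lit 168) (nat_lit 171278686960) (nat_lit 15) (nat_lit 3) (nat_lit 15) (nat_lit 1) (nat_lit 17) (nat_lit 1) (nat_lit 246) (nat_lit 441) (nat_lit 393))) (XT.nd (nat_lit 94) (nat_lit 252) (nat_lit 0) (XT.lf (nat_lit 84) (nat_lit 285623112386) (nat_lit 0) (nat_lit 36517237926) (nat_lit 168) (nat_lit 148434570028) (nat_lit 14) (nat_lit 1) (nat_lit 13) (nat_lit 1) (nat_lit 15) (nat_lit 1) (nat_lit 247) (nat_lit 441) (nat_lit 392)) (XT.nd (nat_lit 94) (nat_lit 168) (nat_lit 0) (XT.lf (nat_lit 0) (nat_lit 67486277510) (nat_lit 0) (nat_lit 264395367261) (nat_lit 168) (nat_lit 126511732742) (nat_lit 12) (nat_lit 3) (nat_lit 12) (nat_lit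 1) (nat_lit 14) (nat_lit 1) (nat_lit 248) (nat_lit 441) (nat_lit 391)) (XT.lf (nat_lit 84) (nat_lit 303953121164) (nat_lit 0) (nat_lit 37815540078) (nat_lit 168) (nat_lit 104801374089) (nat_lit 11) (nat_lit 1) (nat_lit 10) (nat_lit 1) (nat_lit 12) (nat_lit 1) (nat_lit 249) (nat_lit 441) (nat_lit 390))))))))
noncomputable def ec374 : XT := (XT.nd (nat_lit 1692) (nat_lit 0) (nat_lit 0) (XT.nd (nat_lit 846) (nat_lit 0) (nat_lit 0) (XT.nd (nat_lit 376) (nat_lit 336) (nat_lit 0) (XT.nd (nat_lit 188) (nat_lit 252) (nat_lit 0) (XT.nd (nat_lit 94) (nat_lit 168) (nat_lit 0) (XT.lf (nat_lit 0) (nat_lit 94878195702) (nat_lit 0) (nat_lit 255657059238) (nat_lit 168) (nat_lit 84499588978) (nat_lit 9) (nat_lit 3) (nat_lit 9) (nat_lit 1) (nat_lit 11) (nat_lit 1) (nat_lit 250) (nat_lit 441) (nat_lit 389)) (XT.lf (nat_lit 84) (nat_lit 318441705240) (nat_lit 0) (nat_lit 41385099891)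 (nat_lit 168) (nat_lit 64029863311) (nat_lit 8) (nat_lit 1) (nat_lit 7) (nat_lit 1) (nat_lit 9) (nat_lit 1) (nat_lit 251) (nat_lit 441) (nat_lit 388))) (XT.nd (nat_lit 94) (nat_lit 168) (nat_lit 0) (XT.lf (nat_lit 0) (nat_lit 118160104221) (nat_lit 0) (nat_lit 249438162501) (nat_lit 168) (nat_lit 45330636356) (nat_lit 6) (nat_lit 3) (nat_lit 6) (nat_lit 1) (nat_lit 8) (nat_lit 1) (nat_lit 252) (nat_lit 441) (nat_lit 387)) (XT.lf (nat_lit 84) (nat_lit 329658136646) (nat_lit 0) (nat_lit 46531326528) (nat_lit 168) (nat_lit 26164538283) (nat_lit 5) (nat_lit 1) (nat_lit 4) (nat_lit 1) (nat_lit 6) (nat_lit 1) (nat_lit 253) (nat_lit 441) (nat_lit 386)))) (XT.nd (nat_lit 188) (nat_lit 0) (nat_lit 0) (XT.nd (nat_lit 94) (nat_lit 252) (nat_lit 0) (XT.lf (nat_lit 0) (nat_lit 137888567020) (nat_lit 0) (nat_lit 245078829512) (nat_lit 168) (nat_lit 9030468726) (nat_lit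 3) (nat_lit 3) (nat_lit 3) (nat_lit 1) (nat_lit 5) (nat_lit 1) (nat_lit 254) (nat_lit 441) (nat_lit 385)) (XT.lf (nat_lit 0) (nat_lit 554107047121) (nat_lit 0) (nat_lit 0) (nat_lit 0) (nat_lit 0) (nat_lit 0) (nat_lit 0) (nat_lit 1) (nat_lit 0) (nat_lit 1) (nat_lit 0) (nat_lit 255) (nat_lit 441) (nat_lit 384))) (XT.nd (nat_lit 94) (nat_lit 0) (nat_lit 0) (XT.lf (nat_lit 0) (nat_lit 553602692235) (nat_lit 0) (nat_lit 0) (nat_lit 0) (nat_lit 0) (nat_lit 0) (nat_lit 0) (nat_lit 1) (nat_lit 0) (nat_lit 1) (nat_lit 0) (nat_lit 256) (nat_lit 441) (nat_lit 383)) (XT.nd (nat_lit 94) (nat_lit 0) (nat_lit 0) (XT.lf (nat_lit 0) (nat_lit 553135696969) (nat_lit 0) (nat_lit 0) (nat_lit 0) (nat_lit 0) (nat_lit 0) (nat_lit 0) (nat_lit 1) (nat_lit 0) (nat_lit 1) (nat_lit 0) (nat_lit 257) (nat_lit 441) (nat_lit 382)) (XT.lf (nat_lit 0) (nat_lit 552703293946) (nat_lit 0) (nat_lit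 0) (nat_lit 0) (nat_lit 0) (nat_lit 0) (nat_lit 0) (nat_lit 1) (nat_lit 0) (nat_lit 1) (nat_lit 0) (nat_lit 258) (nat_lit 441) (nat_lit 381)))))) (XT.nd (nat_lit 376) (nat_lit 0) (nat_lit 0) (XT.nd (nat_lit 188) (nat_lit 0) (nat_lit 0) (XT.nd (nat_lit 94) (nat_lit 0) (nat_lit 0) (XT.lf (nat_lit 0) (nat_lit 552302920776) (nat_lit 0) (nat_lit 0) (nat_lit 0) (nat_lit 0) (nat_lit 0) (nat_lit 0) (nat_lit 1) (nat_lit 0) (nat_lit 1) (nat_lit 0) (nat_lit 259) (nat_lit 441) (nat_lit 380)) (XT.lf (nat_lit 0) (nat_lit 551932204877) (nat_lit 0) (nat_lit 0) (nat_lit 0) (nat_lit 0) (nat_lit 0) (nat_lit 0) (nat_lit 1) (nat_lit 0) (nat_lit 1) (nat_lit 0) (nat_lit 260) (nat_lit 441) (nat_lit 379))) (XT.nd (nat_lit 94) (nat_lit 0) (nat_lit 0) (XT.lf (nat_lit 0) (nat_lit 551588949416) (nat_lit 0) (nat_lit 0) (nat_lit 0) (nat_lit 0) (nat_lit 0) (nat_lit 0) (nat_lit 1) (nat_lit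 0) (nat_lit 1) (nat_lit 0) (nat_lit 261) (nat_lit 441) (nat_lit 378)) (XT.lf (nat_lit 0) (nat_lit 551271120285) (nat_lit 0) (nat_lit 0) (nat_lit 0) (nat_lit 0) (nat_lit 0) (nat_lit 0) (nat_lit 1) (nat_lit 0) (nat_lit 1) (nat_lit 0) (nat_lit 262) (nat_lit 441) (nat_lit 377)))) (XT.nd (nat_lit 188) (nat_lit 0) (nat_lit 0) (XT.nd (nat_lit 94) (nat_lit 0) (nat_lit 0) (XT.lf (nat_lit 0) (nat_lit 550976834053) (nat_lit 0) (nat_lit 0) (nat_lit 0) (nat_lit 0) (nat_lit 0) (nat_lit 0) (nat_lit 1) (nat_lit 0) (nat_lit 1) (nat_lit 0) (nat_lit 263) (nat_lit 441) (nat_lit 376)) (XT.lf (nat_lit 0) (nat_lit 550704346801) (nat_lit 0) (nat_lit 0) (nat_lit 0) (nat_lit 0) (nat_lit 0) (nat_lit 0) (nat_lit 1) (nat_lit 0) (nat_lit 1) (nat_lit 0) (nat_lit 264) (nat_lit 441) (nat_lit 375))) (XT.nd (nat_lit 94) (nat_lit 0) (nat_lit 0) (XT.lf (nat_lit 0) (nat_lit 550452043790) (nat_lit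 0) (nat_lit 0) (nat_lit 0) (nat_lit 0) (nat_lit 0) (nat_lit 0) (nat_lit 1) (nat_lit 0) (nat_lit 1) (nat_lit 0) (nat_lit 265) (nat_lit 441) (nat_lit 374)) (XT.nd (nat_lit 94) (nat_lit 0) (nat_lit 0) (XT.lf (nat_lit 0) (nat_lit 550218429891) (nat_lit 0) (nat_lit 0) (nat_lit 0) (nat_lit 0) (nat_lit 0) (nat_lit 0) (nat_lit 1) (nat_lit 0) (nat_lit 1) (nat_lit 0) (nat_lit 266) (nat_lit 441) (nat_lit 373)) (XT.lf (nat_lit 0) (nat_lit 550002120725) (nat_lit 0) (nat_lit 0) (nat_lit 0) (nat_lit 0) (nat_lit 0) (nat_lit 0) (nat_lit 1) (nat_lit 0) (nat_lit 1) (nat_lit 0) (nat_lit 267) (nat_lit 441) (nat_lit 372))))))) (XT.nd (nat_lit 846) (nat_lit 0) (nat_lit 0) (XT.nd (nat_lit 376) (nat_lit 0) (nat_lit 0) (XT.nd (nat_lit 188) (nat_lit 0) (nat_lit 0) (XT.nd (nat_lit 94) (nat_lit 0) (nat_lit 0) (XT.lf (nat_lit 0) (nat_lit 549801834460) (nat_lit 0) (nat_lit 0) (nat_lit 0)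 (nat_lit 0) (nat_lit 0) (nat_lit 0) (nat_lit 1) (nat_lit 0) (nat_lit 1) (nat_lit 0) (nat_lit 268) (nat_lit 441) (nat_lit 371)) (XT.lf (nat_lit 0) (nat_lit 549616384215) (nat_lit 0) (nat_lit 0) (nat_lit 0) (nat_lit 0) (nat_lit 0) (nat_lit 0) (nat_lit 1) (nat_lit 0) (nat_lit 1) (nat_lit 0) (nat_lit 269) (nat_lit 441) (nat_lit 370))) (XT.nd (nat_lit 94) (nat_lit 0) (nat_lit 0) (XT.lf (nat_lit 0) (nat_lit 549444671025) (nat_lit 0) (nat_lit 0) (nat_lit 0) (nat_lit 0) (nat_lit 0) (nat_lit 0) (nat_lit 1) (nat_lit 0) (nat_lit 1) (nat_lit 0) (nat_lit 270) (nat_lit 441) (nat_lit 369)) (XT.lf (nat_lit 0) (nat_lit 549285677330) (nat_lit 0) (nat_lit 0) (nat_lit 0) (nat_lit 0) (nat_lit 0) (nat_lit 0) (nat_lit 1) (nat_lit 0) (nat_lit 1) (nat_lit 0) (nat_lit 271) (nat_lit 441) (nat_lit 368)))) (XT.nd (nat_lit 188) (nat_lit 0) (nat_lit 0) (XT.nd (nat_lit 94) (nat_lit 0) (nat_lit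 0) (XT.lf (nat_lit 0) (nat_lit 549138460947) (nat_lit 0) (nat_lit 0) (nat_lit 0) (nat_lit 0) (nat_lit 0) (nat_lit 0) (nat_lit 1) (nat_lit 0) (nat_lit 1) (nat_lit 0) (nat_lit 272) (nat_lit 441) (nat_lit 367)) (XT.lf (nat_lit 0) (nat_lit 549002149480) (nat_lit 0) (nat_lit 0) (nat_lit 0) (nat_lit 0) (nat_lit 0) (nat_lit 0) (nat_lit 1) (nat_lit 0) (nat_lit 1) (nat_lit 0) (nat_lit 273) (nat_lit 441) (nat_lit 366))) (XT.nd (nat_lit 94) (nat_lit 0) (nat_lit 0) (XT.lf (nat_lit 0) (nat_lit 548875935160) (nat_lit 0) (nat_lit 0) (nat_lit 0) (nat_lit 0) (nat_lit 0) (nat_lit 0) (nat_lit 1) (nat_lit 0) (nat_lit 1) (nat_lit 0) (nat_lit 274) (nat_lit 441) (nat_lit 365)) (XT.nd (nat_lit 94) (nat_lit 0) (nat_lit 0) (XT.lf (nat_lit 0) (nat_lit 548759070048) (nat_lit 0) (nat_lit 0) (nat_lit 0) (nat_lit 0) (nat_lit 0) (nat_lit 0) (nat_lit 1) (nat_lit 0) (nat_lit 1) (nat_lit 0)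 (nat_lit 275) (nat_lit 441) (nat_lit 364)) (XT.lf (nat_lit 0) (nat_lit 548650861611) (nat_lit 0) (nat_lit 0) (nat_lit 0) (nat_lit 0) (nat_lit 0) (nat_lit 0) (nat_lit 1) (nat_lit 0) (nat_lit 1) (nat_lit 0) (nat_lit 276) (nat_lit 441) (nat_lit 363)))))) (XT.nd (nat_lit 470) (nat_lit 0) (nat_lit 0) (XT.nd (nat_lit 188) (nat_lit 0) (nat_lit 0) (XT.nd (nat_lit 94) (nat_lit 0) (nat_lit 0) (XT.lf (nat_lit 0) (nat_lit 548550668614) (nat_lit 0) (nat_lit 0) (nat_lit 0) (nat_lit 0) (nat_lit 0) (nat_lit 0) (nat_lit 1) (nat_lit 0) (nat_lit 1) (nat_lit 0) (nat_lit 277) (nat_lit 441) (nat_lit 362)) (XT.lf (nat_lit 0) (nat_lit 548457897320) (nat_lit 0) (nat_lit 0) (nat_lit 0) (nat_lit 0) (nat_lit 0) (nat_lit 0) (nat_lit 1) (nat_lit 0) (nat_lit 1) (nat_lit 0) (nat_lit 278) (nat_lit 441) (nat_lit 361))) (XT.nd (nat_lit 94) (nat_lit 0) (nat_lit 0) (XT.lf (nat_lit 0) (nat_lit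 548371997974) (nat_lit 0) (nat_lit 0) (nat_lit 0) (nat_lit 0) (nat_lit 0) (nat_lit 0) (nat_lit 1) (nat_lit 0) (nat_lit 1) (nat_lit 0) (nat_lit 279) (nat_lit 441) (nat_lit 360)) (XT.nd (nat_lit 94) (nat_lit 0) (nat_lit 0) (XT.lf (nat_lit 0) (nat_lit 548292461543) (nat_lit 0) (nat_lit 0) (nat_lit 0) (nat_lit 0) (nat_lit 0) (nat_lit 0) (nat_lit 1) (nat_lit 0) (nat_lit 1) (nat_lit 0) (nat_lit 280) (nat_lit 441) (nat_lit 359)) (XT.lf (nat_lit 0) (nat_lit 548218816699) (nat_lit 0) (nat_lit 0) (nat_lit 0) (nat_lit 0) (nat_lit 0) (nat_lit 0) (nat_lit 1) (nat_lit 0) (nat_lit 1) (nat_lit 0) (nat_lit 281) (nat_lit 441) (nat_lit 358))))) (XT.nd (nat_lit 188) (nat_lit 0) (nat_lit 0) (XT.nd (nat_lit 94) (nat_lit 0) (nat_lit 0) (XT.lf (nat_lit 0) (nat_lit 548150627029) (nat_lit 0) (nat_lit 0) (nat_lit 0) (nat_lit 0) (nat_lit 0) (nat_lit 0) (nat_lit 1) (nat_lit 0) (nat_lit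 1) (nat_lit 0) (nat_lit 282) (nat_lit 441) (nat_lit 357)) (XT.lf (nat_lit 0) (nat_lit 548087488445) (nat_lit 0) (nat_lit 0) (nat_lit 0) (nat_lit 0) (nat_lit 0) (nat_lit 0) (nat_lit 1) (nat_lit 0) (nat_lit 1) (nat_lit 0) (nat_lit 283) (nat_lit 441) (nat_lit 356))) (XT.nd (nat_lit 94) (nat_lit 0) (nat_lit 0) (XT.lf (nat_lit 0) (nat_lit 548029026794) (nat_lit 0) (nat_lit 0) (nat_lit 0) (nat_lit 0) (nat_lit 0) (nat_lit 0) (nat_lit 1) (nat_lit 0) (nat_lit 1) (nat_lit 0) (nat_lit 284) (nat_lit 441) (nat_lit 355)) (XT.nd (nat_lit 94) (nat_lit 0) (nat_lit 0) (XT.lf (nat_lit 0) (nat_lit 547974895635) (nat_lit 0) (nat_lit 0) (nat_lit 0) (nat_lit 0) (nat_lit 0) (nat_lit 0) (nat_lit 1) (nat_lit 0) (nat_lit 1) (nat_lit 0) (nat_lit 285) (nat_lit 441) (nat_lit 354)) (XT.lf (nat_lit 0) (nat_lit 547924774192) (nat_lit 0) (nat_lit 0) (nat_lit 0) (nat_lit 0) (nat_lit 0) (nat_lit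 0) (nat_lit 1) (nat_lit 0) (nat_lit 1) (nat_lit 0) (nat_lit 286) (nat_lit 441) (nat_lit 353))))))))
noncomputable def ec375 : XT := (XT.nd (nat_lit 1786) (nat_lit 0) (nat_lit 0) (XT.nd (nat_lit 846) (nat_lit 0) (nat_lit 0) (XT.nd (nat_lit 376) (nat_lit 0) (nat_lit 0) (XT.nd (nat_lit 188) (nat_lit 0) (nat_lit 0) (XT.nd (nat_lit 94) (nat_lit 0) (nat_lit 0) (XT.lf (nat_lit 0) (nat_lit 547878365448) (nat_lit 0) (nat_lit 0) (nat_lit 0) (nat_lit 0) (nat_lit 0) (nat_lit 0) (nat_lit 1) (nat_lit 0) (nat_lit 1) (nat_lit 0) (nat_lit 287) (nat_lit 441) (nat_lit 352)) (XT.lf (nat_lit 0) (nat_lit 547835394389) (nat_lit 0) (nat_lit 0) (nat_lit 0) (nat_lit 0) (nat_lit 0) (nat_lit 0) (nat_lit 1) (nat_lit 0) (nat_lit 1) (nat_lit 0) (nat_lit 288) (nat_lit 441) (nat_lit 351))) (XT.nd (nat_lit 94) (nat_lit 0) (nat_lit 0) (XT.lf (nat_lit 0) (nat_lit 547795606371) (nat_lit 0) (nat_lit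 0) (nat_lit 0) (nat_lit 0) (nat_lit 0) (nat_lit 0) (nat_lit 1) (nat_lit 0) (nat_lit 1) (nat_lit 0) (nat_lit 289) (nat_lit 441) (nat_lit 350)) (XT.lf (nat_lit 0) (nat_lit 547758765614) (nat_lit 0) (nat_lit 0) (nat_lit 0) (nat_lit 0) (nat_lit 0) (nat_lit 0) (nat_lit 1) (nat_lit 0) (nat_lit 1) (nat_lit 0) (nat_lit 290) (nat_lit 441) (nat_lit 349)))) (XT.nd (nat_lit 188) (nat_lit 0) (nat_lit 0) (XT.nd (nat_lit 94) (nat_lit 0) (nat_lit 0) (XT.lf (nat_lit 0) (nat_lit 547724653802) (nat_lit 0) (nat_lit 0) (nat_lit 0) (nat_lit 0) (nat_lit 0) (nat_lit 0) (nat_lit 1) (nat_lit 0) (nat_lit 1) (nat_lit 0) (nat_lit 291) (nat_lit 441) (nat_lit 348)) (XT.lf (nat_lit 0) (nat_lit 547693068791) (nat_lit 0) (nat_lit 0) (nat_lit 0) (nat_lit 0) (nat_lit 0) (nat_lit 0) (nat_lit 1) (nat_lit 0) (nat_lit 1) (nat_lit 0) (nat_lit 292) (nat_lit 441) (nat_lit 347))) (XT.nd (nat_lit 94)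 (nat_lit 0) (nat_lit 0) (XT.lf (nat_lit 0) (nat_lit 547663823410) (nat_lit 0) (nat_lit 0) (nat_lit 0) (nat_lit 0) (nat_lit 0) (nat_lit 0) (nat_lit 1) (nat_lit 0) (nat_lit 1) (nat_lit 0) (nat_lit 293) (nat_lit 441) (nat_lit 346)) (XT.nd (nat_lit 94) (nat_lit 0) (nat_lit 0) (XT.lf (nat_lit 0) (nat_lit 547636744354) (nat_lit 0) (nat_lit 0) (nat_lit 0) (nat_lit 0) (nat_lit 0) (nat_lit 0) (nat_lit 1) (nat_lit 0) (nat_lit 1) (nat_lit 0) (nat_lit 294) (nat_lit 441) (nat_lit 345)) (XT.lf (nat_lit 0) (nat_lit 547611671153) (nat_lit 0) (nat_lit 0) (nat_lit 0) (nat_lit 0) (nat_lit 0) (nat_lit 0) (nat_lit 1) (nat_lit 0) (nat_lit 1) (nat_lit 0) (nat_lit 295) (nat_lit 441) (nat_lit 344)))))) (XT.nd (nat_lit 470) (nat_lit 0) (nat_lit 0) (XT.nd (nat_lit 188) (nat_lit 0) (nat_lit 0) (XT.nd (nat_lit 94) (nat_lit 0) (nat_lit 0) (XT.lf (nat_lit 0) (nat_lit 547588455227) (nat_lit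 0) (nat_lit 0) (nat_lit 0) (nat_lit 0) (nat_lit 0) (nat_lit 0) (nat_lit 1) (nat_lit 0) (nat_lit 1) (nat_lit 0) (nat_lit 296) (nat_lit 441) (nat_lit 343)) (XT.lf (nat_lit 0) (nat_lit 547566958999) (nat_lit 0) (nat_lit 0) (nat_lit 0) (nat_lit 0) (nat_lit 0) (nat_lit 0) (nat_lit 1) (nat_lit 0) (nat_lit 1) (nat_lit 0) (nat_lit 297) (nat_lit 441) (nat_lit 342))) (XT.nd (nat_lit 94) (nat_lit 0) (nat_lit 0) (XT.lf (nat_lit 0) (nat_lit 547547055085) (nat_lit 0) (nat_lit 0) (nat_lit 0) (nat_lit 0) (nat_lit 0) (nat_lit 0) (nat_lit 1) (nat_lit 0) (nat_lit 1) (nat_lit 0) (nat_lit 298) (nat_lit 441) (nat_lit 341)) (XT.nd (nat_lit 94) (nat_lit 0) (nat_lit 0) (XT.lf (nat_lit 0) (nat_lit 547528625534) (nat_lit 0) (nat_lit 0) (nat_lit 0) (nat_lit 0) (nat_lit 0) (nat_lit 0) (nat_lit 1) (nat_lit 0) (nat_lit 1) (nat_lit 0) (nat_lit 299) (nat_lit 441) (nat_lit 340)) (XT.lf (nat_lit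 0) (nat_lit 547511561135) (nat_lit 0) (nat_lit 0) (nat_lit 0) (nat_lit 0) (nat_lit 0) (nat_lit 0) (nat_lit 1) (nat_lit 0) (nat_lit 1) (nat_lit 0) (nat_lit 300) (nat_lit 441) (nat_lit 339))))) (XT.nd (nat_lit 188) (nat_lit 0) (nat_lit 0) (XT.nd (nat_lit 94) (nat_lit 0) (nat_lit 0) (XT.lf (nat_lit 0) (nat_lit 547495760766) (nat_lit 0) (nat_lit 0) (nat_lit 0) (nat_lit 0) (nat_lit 0) (nat_lit 0) (nat_lit 1) (nat_lit 0) (nat_lit 1) (nat_lit 0) (nat_lit 301) (nat_lit 441) (nat_lit 338)) (XT.lf (nat_lit 0) (nat_lit 547481130794) (nat_lit 0) (nat_lit 0) (nat_lit 0) (nat_lit 0) (nat_lit 0) (nat_lit 0) (nat_lit 1) (nat_lit 0) (nat_lit 1) (nat_lit 0) (nat_lit 302) (nat_lit 441) (nat_lit 337))) (XT.nd (nat_lit 94) (nat_lit 0) (nat_lit 0) (XT.lf (nat_lit 0) (nat_lit 547467584524) (nat_lit 0) (nat_lit 0) (nat_lit 0) (nat_lit 0) (nat_lit 0) (nat_lit 0) (nat_lit 1) (nat_lit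 0) (nat_lit 1) (nat_lit 0) (nat_lit 303) (nat_lit 441) (nat_lit 336)) (XT.nd (nat_lit 94) (nat_lit 0) (nat_lit 0) (XT.lf (nat_lit 0) (nat_lit 547455041682) (nat_lit 0) (nat_lit 0) (nat_lit 0) (nat_lit 0) (nat_lit 0) (nat_lit 0) (nat_lit 1) (nat_lit 0) (nat_lit 1) (nat_lit 0) (nat_lit 304) (nat_lit 441) (nat_lit 335)) (XT.lf (nat_lit 0) (nat_lit 547443427939) (nat_lit 0) (nat_lit 0) (nat_lit 0) (nat_lit 0) (nat_lit 0) (nat_lit 0) (nat_lit 1) (nat_lit 0) (nat_lit 1) (nat_lit 0) (nat_lit 305) (nat_lit 441) (nat_lit 334))))))) (XT.nd (nat_lit 846) (nat_lit 0) (nat_lit 0) (XT.nd (nat_lit 376) (nat_lit 0) (nat_lit 0) (XT.nd (nat_lit 188) (nat_lit 0) (nat_lit 0) (XT.nd (nat_lit 94) (nat_lit 0) (nat_lit 0) (XT.lf (nat_lit 0) (nat_lit 547432674473) (nat_lit 0) (nat_lit 0) (nat_lit 0) (nat_lit 0) (nat_lit 0) (nat_lit 0) (nat_lit 1) (nat_lit 0) (nat_lit 1) (nat_lit 0)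 (nat_lit 306) (nat_lit 441) (nat_lit 333)) (XT.lf (nat_lit 0) (nat_lit 547422717560) (nat_lit 0) (nat_lit 0) (nat_lit 0) (nat_lit 0) (nat_lit 0) (nat_lit 0) (nat_lit 1) (nat_lit 0) (nat_lit 1) (nat_lit 0) (nat_lit 307) (nat_lit 441) (nat_lit 332))) (XT.nd (nat_lit 94) (nat_lit 0) (nat_lit 0) (XT.lf (nat_lit 0) (nat_lit 547413498197) (nat_lit 0) (nat_lit 0) (nat_lit 0) (nat_lit 0) (nat_lit 0) (nat_lit 0) (nat_lit 1) (nat_lit 0) (nat_lit 1) (nat_lit 0) (nat_lit 308) (nat_lit 441) (nat_lit 331)) (XT.lf (nat_lit 0) (nat_lit 547404961749) (nat_lit 0) (nat_lit 0) (nat_lit 0) (nat_lit 0) (nat_lit 0) (nat_lit 0) (nat_lit 1) (nat_lit 0) (nat_lit 1) (nat_lit 0) (nat_lit 309) (nat_lit 441) (nat_lit 330)))) (XT.nd (nat_lit 188) (nat_lit 0) (nat_lit 0) (XT.nd (nat_lit 94) (nat_lit 0) (nat_lit 0) (XT.lf (nat_lit 0) (nat_lit 547397057630) (nat_lit 0) (nat_lit 0) (nat_lit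 0) (nat_lit 0) (nat_lit 0) (nat_lit 0) (nat_lit 1) (nat_lit 0) (nat_lit 1) (nat_lit 0) (nat_lit 310) (nat_lit 441) (nat_lit 329)) (XT.lf (nat_lit 0) (nat_lit 547389739002) (nat_lit 0) (nat_lit 0) (nat_lit 0) (nat_lit 0) (nat_lit 0) (nat_lit 0) (nat_lit 1) (nat_lit 0) (nat_lit 1) (nat_lit 0) (nat_lit 311) (nat_lit 441) (nat_lit 328))) (XT.nd (nat_lit 94) (nat_lit 0) (nat_lit 0) (XT.lf (nat_lit 0) (nat_lit 547382962495) (nat_lit 0) (nat_lit 0) (nat_lit 0) (nat_lit 0) (nat_lit 0) (nat_lit 0) (nat_lit 1) (nat_lit 0) (nat_lit 1) (nat_lit 0) (nat_lit 312) (nat_lit 441) (nat_lit 327)) (XT.nd (nat_lit 94) (nat_lit 0) (nat_lit 0) (XT.lf (nat_lit 0) (nat_lit 547376687951) (nat_lit 0) (nat_lit 0) (nat_lit 0) (nat_lit 0) (nat_lit 0) (nat_lit 0) (nat_lit 1) (nat_lit 0) (nat_lit 1) (nat_lit 0) (nat_lit 313) (nat_lit 441) (nat_lit 326)) (XT.lf (nat_lit 0) (nat_lit 547370878188)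 (nat_lit 0) (nat_lit 0) (nat_lit 0) (nat_lit 0) (nat_lit 0) (nat_lit 0) (nat_lit 1) (nat_lit 0) (nat_lit 1) (nat_lit 0) (nat_lit 314) (nat_lit 441) (nat_lit 325)))))) (XT.nd (nat_lit 470) (nat_lit 0) (nat_lit 0) (XT.nd (nat_lit 188) (nat_lit 0) (nat_lit 0) (XT.nd (nat_lit 94) (nat_lit 0) (nat_lit 0) (XT.lf (nat_lit 0) (nat_lit 547365498777) (nat_lit 0) (nat_lit 0) (nat_lit 0) (nat_lit 0) (nat_lit 0) (nat_lit 0) (nat_lit 1) (nat_lit 0) (nat_lit 1) (nat_lit 0) (nat_lit 315) (nat_lit 441) (nat_lit 324)) (XT.lf (nat_lit 0) (nat_lit 547360517842) (nat_lit 0) (nat_lit 0) (nat_lit 0) (nat_lit 0) (nat_lit 0) (nat_lit 0) (nat_lit 1) (nat_lit 0) (nat_lit 1) (nat_lit 0) (nat_lit 316) (nat_lit 441) (nat_lit 323))) (XT.nd (nat_lit 94) (nat_lit 0) (nat_lit 0) (XT.lf (nat_lit 0) (nat_lit 547355905865) (nat_lit 0) (nat_lit 0) (nat_lit 0) (nat_lit 0) (nat_lit 0) (nat_lit 0)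 (nat_lit 1) (nat_lit 0) (nat_lit 1) (nat_lit 0) (nat_lit 317) (nat_lit 441) (nat_lit 322)) (XT.nd (nat_lit 94) (nat_lit 0) (nat_lit 0) (XT.lf (nat_lit 0) (nat_lit 547351635516) (nat_lit 0) (nat_lit 0) (nat_lit 0) (nat_lit 0) (nat_lit 0) (nat_lit 0) (nat_lit 1) (nat_lit 0) (nat_lit 1) (nat_lit 0) (nat_lit 318) (nat_lit 441) (nat_lit 321)) (XT.lf (nat_lit 0) (nat_lit 547347681489) (nat_lit 0) (nat_lit 0) (nat_lit 0) (nat_lit 0) (nat_lit 0) (nat_lit 0) (nat_lit 1) (nat_lit 0) (nat_lit 1) (nat_lit 0) (nat_lit 319) (nat_lit 441) (nat_lit 320))))) (XT.nd (nat_lit 188) (nat_lit 0) (nat_lit 0) (XT.nd (nat_lit 94) (nat_lit 0) (nat_lit 0) (XT.lf (nat_lit 0) (nat_lit 547344020353) (nat_lit 0) (nat_lit 0) (nat_lit 0) (nat_lit 0) (nat_lit 0) (nat_lit 0) (nat_lit 1) (nat_lit 0) (nat_lit 1) (nat_lit 0) (nat_lit 320) (nat_lit 441) (nat_lit 319)) (XT.lf (nat_lit 0) (nat_lit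 547340630412) (nat_lit 0) (nat_lit 0) (nat_lit 0) (nat_lit 0) (nat_lit 0) (nat_lit 0) (nat_lit 1) (nat_lit 0) (nat_lit 1) (nat_lit 0) (nat_lit 321) (nat_lit 441) (nat_lit 318))) (XT.nd (nat_lit 94) (nat_lit 0) (nat_lit 0) (XT.lf (nat_lit 0) (nat_lit 547337491577) (nat_lit 0) (nat_lit 0) (nat_lit 0) (nat_lit 0) (nat_lit 0) (nat_lit 0) (nat_lit 1) (nat_lit 0) (nat_lit 1) (nat_lit 0) (nat_lit 322) (nat_lit 441) (nat_lit 317)) (XT.nd (nat_lit 94) (nat_lit 0) (nat_lit 0) (XT.lf (nat_lit 0) (nat_lit 547334585250) (nat_lit 0) (nat_lit 0) (nat_lit 0) (nat_lit 0) (nat_lit 0) (nat_lit 0) (nat_lit 1) (nat_lit 0) (nat_lit 1) (nat_lit 0) (nat_lit 323) (nat_lit 441) (nat_lit 316)) (XT.lf (nat_lit 0) (nat_lit 547331894205) (nat_lit 0) (nat_lit 0) (nat_lit 0) (nat_lit 0) (nat_lit 0) (nat_lit 0) (nat_lit 1) (nat_lit 0) (nat_lit 1) (nat_lit 0) (nat_lit 324) (nat_lit 441) (nat_lit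 315))))))))
noncomputable def ec376 : XT := (XT.nd (nat_lit 1692) (nat_lit 0) (nat_lit 0) (XT.nd (nat_lit 846) (nat_lit 0) (nat_lit 0) (XT.nd (nat_lit 376) (nat_lit 0) (nat_lit 0) (XT.nd (nat_lit 188) (nat_lit 0) (nat_lit 0) (XT.nd (nat_lit 94) (nat_lit 0) (nat_lit 0) (XT.lf (nat_lit 0) (nat_lit 547329402497) (nat_lit 0) (nat_lit 0) (nat_lit 0) (nat_lit 0) (nat_lit 0) (nat_lit 0) (nat_lit 1) (nat_lit 0) (nat_lit 1) (nat_lit 0) (nat_lit 325) (nat_lit 441) (nat_lit 314)) (XT.lf (nat_lit 0) (nat_lit 547327095361) (nat_lit 0) (nat_lit 0) (nat_lit 0) (nat_lit 0) (nat_lit 0) (nat_lit 0) (nat_lit 1) (nat_lit 0) (nat_lit 1) (nat_lit 0) (nat_lit 326) (nat_lit 441) (nat_lit 313))) (XT.nd (nat_lit 94) (nat_lit 0) (nat_lit 0) (XT.lf (nat_lit 0) (nat_lit 547324959123) (nat_lit 0) (nat_lit 0) (nat_lit 0) (nat_lit 0) (nat_lit 0) (nat_lit 0) (nat_lit 1) (nat_lit 0) (nat_lit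 1) (nat_lit 0) (nat_lit 327) (nat_lit 441) (nat_lit 312)) (XT.lf (nat_lit 0) (nat_lit 547322981125) (nat_lit 0) (nat_lit 0) (nat_lit 0) (nat_lit 0) (nat_lit 0) (nat_lit 0) (nat_lit 1) (nat_lit 0) (nat_lit 1) (nat_lit 0) (nat_lit 328) (nat_lit 441) (nat_lit 311)))) (XT.nd (nat_lit 188) (nat_lit 0) (nat_lit 0) (XT.nd (nat_lit 94) (nat_lit 0) (nat_lit 0) (XT.lf (nat_lit 0) (nat_lit 547321149645) (nat_lit 0) (nat_lit 0) (nat_lit 0) (nat_lit 0) (nat_lit 0) (nat_lit 0) (nat_lit 1) (nat_lit 0) (nat_lit 1) (nat_lit 0) (nat_lit 329) (nat_lit 441) (nat_lit 310)) (XT.lf (nat_lit 0) (nat_lit 547319453831) (nat_lit 0) (nat_lit 0) (nat_lit 0) (nat_lit 0) (nat_lit 0) (nat_lit 0) (nat_lit 1) (nat_lit 0) (nat_lit 1) (nat_lit 0) (nat_lit 330) (nat_lit 441) (nat_lit 309))) (XT.nd (nat_lit 94) (nat_lit 0) (nat_lit 0) (XT.lf (nat_lit 0) (nat_lit 547317883632) (nat_lit 0) (nat_lit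 0) (nat_lit 0) (nat_lit 0) (nat_lit 0) (nat_lit 0) (nat_lit 1) (nat_lit 0) (nat_lit 1) (nat_lit 0) (nat_lit 331) (nat_lit 441) (nat_lit 308)) (XT.nd (nat_lit 94) (nat_lit 0) (nat_lit 0) (XT.lf (nat_lit 0) (nat_lit 547316429745) (nat_lit 0) (nat_lit 0) (nat_lit 0) (nat_lit 0) (nat_lit 0) (nat_lit 0) (nat_lit 1) (nat_lit 0) (nat_lit 1) (nat_lit 0) (nat_lit 332) (nat_lit 441) (nat_lit 307)) (XT.lf (nat_lit 0) (nat_lit 547315083553) (nat_lit 0) (nat_lit 0) (nat_lit 0) (nat_lit 0) (nat_lit 0) (nat_lit 0) (nat_lit 1) (nat_lit 0) (nat_lit 1) (nat_lit 0) (nat_lit 333) (nat_lit 441) (nat_lit 306)))))) (XT.nd (nat_lit 376) (nat_lit 0) (nat_lit 0) (XT.nd (nat_lit 188) (nat_lit 0) (nat_lit 0) (XT.nd (nat_lit 94) (nat_lit 0) (nat_lit 0) (XT.lf (nat_lit 0) (nat_lit 547313837078) (nat_lit 0) (nat_lit 0) (nat_lit 0) (nat_lit 0) (nat_lit 0) (nat_lit 0) (nat_lit 1) (nat_lit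 0) (nat_lit 1) (nat_lit 0) (nat_lit 334) (nat_lit 441) (nat_lit 305)) (XT.lf (nat_lit 0) (nat_lit 547312682936) (nat_lit 0) (nat_lit 0) (nat_lit 0) (nat_lit 0) (nat_lit 0) (nat_lit 0) (nat_lit 1) (nat_lit 0) (nat_lit 1) (nat_lit 0) (nat_lit 335) (nat_lit 441) (nat_lit 304))) (XT.nd (nat_lit 94) (nat_lit 0) (nat_lit 0) (XT.lf (nat_lit 0) (nat_lit 547311614285) (nat_lit 0) (nat_lit 0) (nat_lit 0) (nat_lit 0) (nat_lit 0) (nat_lit 0) (nat_lit 1) (nat_lit 0) (nat_lit 1) (nat_lit 0) (nat_lit 336) (nat_lit 441) (nat_lit 303)) (XT.lf (nat_lit 0) (nat_lit 547310624793) (nat_lit 0) (nat_lit 0) (nat_lit 0) (nat_lit 0) (nat_lit 0) (nat_lit 0) (nat_lit 1) (nat_lit 0) (nat_lit 1) (nat_lit 0) (nat_lit 337) (nat_lit 441) (nat_lit 302)))) (XT.nd (nat_lit 188) (nat_lit 0) (nat_lit 0) (XT.nd (nat_lit 94) (nat_lit 0) (nat_lit 0) (XT.lf (nat_lit 0) (nat_lit 547309708598) (nat_lit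 0) (nat_lit 0) (nat_lit 0) (nat_lit 0) (nat_lit 0) (nat_lit 0) (nat_lit 1) (nat_lit 0) (nat_lit 1) (nat_lit 0) (nat_lit 338) (nat_lit 441) (nat_lit 301)) (XT.lf (nat_lit 0) (nat_lit 547308860268) (nat_lit 0) (nat_lit 0) (nat_lit 0) (nat_lit 0) (nat_lit 0) (nat_lit 0) (nat_lit 1) (nat_lit 0) (nat_lit 1) (nat_lit 0) (nat_lit 339) (nat_lit 441) (nat_lit 300))) (XT.nd (nat_lit 94) (nat_lit 0) (nat_lit 0) (XT.lf (nat_lit 0) (nat_lit 547308074778) (nat_lit 0) (nat_lit 0) (nat_lit 0) (nat_lit 0) (nat_lit 0) (nat_lit 0) (nat_lit 1) (nat_lit 0) (nat_lit 1) (nat_lit 0) (nat_lit 340) (nat_lit 441) (nat_lit 299)) (XT.nd (nat_lit 94) (nat_lit 0) (nat_lit 0) (XT.lf (nat_lit 0) (nat_lit 547307347472) (nat_lit 0) (nat_lit 0) (nat_lit 0) (nat_lit 0) (nat_lit 0) (nat_lit 0) (nat_lit 1) (nat_lit 0) (nat_lit 1) (nat_lit 0) (nat_lit 341) (nat_lit 441) (nat_lit 298)) (XT.lf (nat_lit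 0) (nat_lit 547306674041) (nat_lit 0) (nat_lit 0) (nat_lit 0) (nat_lit 0) (nat_lit 0) (nat_lit 0) (nat_lit 1) (nat_lit 0) (nat_lit 1) (nat_lit 0) (nat_lit 342) (nat_lit 441) (nat_lit 297))))))) (XT.nd (nat_lit 846) (nat_lit 0) (nat_lit 0) (XT.nd (nat_lit 376) (nat_lit 0) (nat_lit 0) (XT.nd (nat_lit 188) (nat_lit 0) (nat_lit 0) (XT.nd (nat_lit 94) (nat_lit 0) (nat_lit 0) (XT.lf (nat_lit 0) (nat_lit 547306050493) (nat_lit 0) (nat_lit 0) (nat_lit 0) (nat_lit 0) (nat_lit 0) (nat_lit 0) (nat_lit 1) (nat_lit 0) (nat_lit 1) (nat_lit 0) (nat_lit 343) (nat_lit 441) (nat_lit 296)) (XT.lf (nat_lit 0) (nat_lit 547305473135) (nat_lit 0) (nat_lit 0) (nat_lit 0) (nat_lit 0) (nat_lit 0) (nat_lit 0) (nat_lit 1) (nat_lit 0) (nat_lit 1) (nat_lit 0) (nat_lit 344) (nat_lit 441) (nat_lit 295))) (XT.nd (nat_lit 94) (nat_lit 0) (nat_lit 0) (XT.lf (nat_lit 0) (nat_lit 547304938543)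 (nat_lit 0) (nat_lit 0) (nat_lit 0) (nat_lit 0) (nat_lit 0) (nat_lit 0) (nat_lit 1) (nat_lit 0) (nat_lit 1) (nat_lit 0) (nat_lit 345) (nat_lit 441) (nat_lit 294)) (XT.lf (nat_lit 0) (nat_lit 547304443551) (nat_lit 0) (nat_lit 0) (nat_lit 0) (nat_lit 0) (nat_lit 0) (nat_lit 0) (nat_lit 1) (nat_lit 0) (nat_lit 1) (nat_lit 0) (nat_lit 346) (nat_lit 441) (nat_lit 293)))) (XT.nd (nat_lit 188) (nat_lit 0) (nat_lit 0) (XT.nd (nat_lit 94) (nat_lit 0) (nat_lit 0) (XT.lf (nat_lit 0) (nat_lit 547303985225) (nat_lit 0) (nat_lit 0) (nat_lit 0) (nat_lit 0) (nat_lit 0) (nat_lit 0) (nat_lit 1) (nat_lit 0) (nat_lit 1) (nat_lit 0) (nat_lit 347) (nat_lit 441) (nat_lit 292)) (XT.lf (nat_lit 0) (nat_lit 547303560849) (nat_lit 0) (nat_lit 0) (nat_lit 0) (nat_lit 0) (nat_lit 0) (nat_lit 0) (nat_lit 1) (nat_lit 0) (nat_lit 1) (nat_lit 0) (nat_lit 348) (nat_lit 441) (nat_lit 291)))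 (XT.nd (nat_lit 94) (nat_lit 0) (nat_lit 0) (XT.lf (nat_lit 0) (nat_lit 547303167909) (nat_lit 0) (nat_lit 0) (nat_lit 0) (nat_lit 0) (nat_lit 0) (nat_lit 0) (nat_lit 1) (nat_lit 0) (nat_lit 1) (nat_lit 0) (nat_lit 349) (nat_lit 441) (nat_lit 290)) (XT.nd (nat_lit 94) (nat_lit 0) (nat_lit 0) (XT.lf (nat_lit 0) (nat_lit 547302804075) (nat_lit 0) (nat_lit 0) (nat_lit 0) (nat_lit 0) (nat_lit 0) (nat_lit 0) (nat_lit 1) (nat_lit 0) (nat_lit 1) (nat_lit 0) (nat_lit 350) (nat_lit 441) (nat_lit 289)) (XT.lf (nat_lit 0) (nat_lit 547302467191) (nat_lit 0) (nat_lit 0) (nat_lit 0) (nat_lit 0) (nat_lit 0) (nat_lit 0) (nat_lit 1) (nat_lit 0) (nat_lit 1) (nat_lit 0) (nat_lit 351) (nat_lit 441) (nat_lit 288)))))) (XT.nd (nat_lit 470) (nat_lit 0) (nat_lit 0) (XT.nd (nat_lit 188) (nat_lit 0) (nat_lit 0) (XT.nd (nat_lit 94) (nat_lit 0) (nat_lit 0) (XT.lf (nat_lit 0) (nat_lit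 547302155262) (nat_lit 0) (nat_lit 0) (nat_lit 0) (nat_lit 0) (nat_lit 0) (nat_lit 0) (nat_lit 1) (nat_lit 0) (nat_lit 1) (nat_lit 0) (nat_lit 352) (nat_lit 441) (nat_lit 287)) (XT.lf (nat_lit 0) (nat_lit 547301866439) (nat_lit 0) (nat_lit 0) (nat_lit 0) (nat_lit 0) (nat_lit 0) (nat_lit 0) (nat_lit 1) (nat_lit 0) (nat_lit 1) (nat_lit 0) (nat_lit 353) (nat_lit 441) (nat_lit 286))) (XT.nd (nat_lit 94) (nat_lit 0) (nat_lit 0) (XT.lf (nat_lit 0) (nat_lit 547301599011) (nat_lit 0) (nat_lit 0) (nat_lit 0) (nat_lit 0) (nat_lit 0) (nat_lit 0) (nat_lit 1) (nat_lit 0) (nat_lit 1) (nat_lit 0) (nat_lit 354) (nat_lit 441) (nat_lit 285)) (XT.nd (nat_lit 94) (nat_lit 0) (nat_lit 0) (XT.lf (nat_lit 0) (nat_lit 547301351391) (nat_lit 0) (nat_lit 0) (nat_lit 0) (nat_lit 0) (nat_lit 0) (nat_lit 0) (nat_lit 1) (nat_lit 0) (nat_lit 1) (nat_lit 0) (nat_lit 355) (nat_lit 441) (nat_lit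 284)) (XT.lf (nat_lit 0) (nat_lit 547301122114) (nat_lit 0) (nat_lit 0) (nat_lit 0) (nat_lit 0) (nat_lit 0) (nat_lit 0) (nat_lit 1) (nat_lit 0) (nat_lit 1) (nat_lit 0) (nat_lit 356) (nat_lit 441) (nat_lit 283))))) (XT.nd (nat_lit 188) (nat_lit 0) (nat_lit 0) (XT.nd (nat_lit 94) (nat_lit 0) (nat_lit 0) (XT.lf (nat_lit 0) (nat_lit 547300909821) (nat_lit 0) (nat_lit 0) (nat_lit 0) (nat_lit 0) (nat_lit 0) (nat_lit 0) (nat_lit 1) (nat_lit 0) (nat_lit 1) (nat_lit 0) (nat_lit 357) (nat_lit 441) (nat_lit 282)) (XT.lf (nat_lit 0) (nat_lit 547300713252) (nat_lit 0) (nat_lit 0) (nat_lit 0) (nat_lit 0) (nat_lit 0) (nat_lit 0) (nat_lit 1) (nat_lit 0) (nat_lit 1) (nat_lit 0) (nat_lit 358) (nat_lit 441) (nat_lit 281))) (XT.nd (nat_lit 94) (nat_lit 0) (nat_lit 0) (XT.lf (nat_lit 0) (nat_lit 547300531245) (nat_lit 0) (nat_lit 0) (nat_lit 0) (nat_lit 0) (nat_lit 0) (nat_lit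 0) (nat_lit 1) (nat_lit 0) (nat_lit 1) (nat_lit 0) (nat_lit 359) (nat_lit 441) (nat_lit 280)) (XT.nd (nat_lit 94) (nat_lit 0) (nat_lit 0) (XT.lf (nat_lit 0) (nat_lit 547300362719) (nat_lit 0) (nat_lit 0) (nat_lit 0) (nat_lit 0) (nat_lit 0) (nat_lit 0) (nat_lit 1) (nat_lit 0) (nat_lit 1) (nat_lit 0) (nat_lit 360) (nat_lit 441) (nat_lit 279)) (XT.lf (nat_lit 0) (nat_lit 547300206677) (nat_lit 0) (nat_lit 0) (nat_lit 0) (nat_lit 0) (nat_lit 0) (nat_lit 0) (nat_lit 1) (nat_lit 0) (nat_lit 1) (nat_lit 0) (nat_lit 361) (nat_lit 441) (nat_lit 278))))))))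
noncomputable def ec377 : XT := (XT.nd (nat_lit 1786) (nat_lit 0) (nat_lit 0) (XT.nd (nat_lit 846) (nat_lit 0) (nat_lit 0) (XT.nd (nat_lit 376) (nat_lit 0) (nat_lit 0) (XT.nd (nat_lit 188) (nat_lit 0) (nat_lit 0) (XT.nd (nat_lit 94) (nat_lit 0) (nat_lit 0) (XT.lf (nat_lit 0) (nat_lit 547300062194) (nat_lit 0) (nat_lit 0) (nat_lit 0) (nat_lit 0) (nat_lit 0) (nat_lit 0) (nat_lit 1) (nat_lit 0) (nat_lit 1) (nat_lit 0) (nat_lit 362) (nat_lit 441) (nat_lit 277)) (XT.lf (nat_lit 0) (nat_lit 547299928413) (nat_lit 0) (nat_lit 0) (nat_lit 0) (nat_lit 0) (nat_lit 0) (nat_lit 0) (nat_lit 1) (nat_lit 0) (nat_lit 1) (nat_lit 0) (nat_lit 363) (nat_lit 441) (nat_lit 276))) (XT.nd (nat_lit 94) (nat_lit 0) (nat_lit 0) (XT.lf (nat_lit 0) (nat_lit 547299804541) (nat_lit 0) (nat_lit 0) (nat_lit 0) (nat_lit 0) (nat_lit 0) (nat_lit 0) (nat_lit 1) (nat_lit 0) (nat_lit 1) (nat_lit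 0) (nat_lit 364) (nat_lit 441) (nat_lit 275)) (XT.lf (nat_lit 0) (nat_lit 547299689846) (nat_lit 0) (nat_lit 0) (nat_lit 0) (nat_lit 0) (nat_lit 0) (nat_lit 0) (nat_lit 1) (nat_lit 0) (nat_lit 1) (nat_lit 0) (nat_lit 365) (nat_lit 441) (nat_lit 274)))) (XT.nd (nat_lit 188) (nat_lit 0) (nat_lit 0) (XT.nd (nat_lit 94) (nat_lit 0) (nat_lit 0) (XT.lf (nat_lit 0) (nat_lit 547299583646) (nat_lit 0) (nat_lit 0) (nat_lit 0) (nat_lit 0) (nat_lit 0) (nat_lit 0) (nat_lit 1) (nat_lit 0) (nat_lit 1) (nat_lit 0) (nat_lit 366) (nat_lit 441) (nat_lit 273)) (XT.lf (nat_lit 0) (nat_lit 547299485313) (nat_lit 0) (nat_lit 0) (nat_lit 0) (nat_lit 0) (nat_lit 0) (nat_lit 0) (nat_lit 1) (nat_lit 0) (nat_lit 1) (nat_lit 0) (nat_lit 367) (nat_lit 441) (nat_lit 272))) (XT.nd (nat_lit 94) (nat_lit 0) (nat_lit 0) (XT.lf (nat_lit 0) (nat_lit 547299394264) (nat_lit 0) (nat_lit 0) (nat_lit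 0) (nat_lit 0) (nat_lit 0) (nat_lit 0) (nat_lit 1) (nat_lit 0) (nat_lit 1) (nat_lit 0) (nat_lit 368) (nat_lit 441) (nat_lit 271)) (XT.nd (nat_lit 94) (nat_lit 0) (nat_lit 0) (XT.lf (nat_lit 0) (nat_lit 547299309959) (nat_lit 0) (nat_lit 0) (nat_lit 0) (nat_lit 0) (nat_lit 0) (nat_lit 0) (nat_lit 1) (nat_lit 0) (nat_lit 1) (nat_lit 0) (nat_lit 369) (nat_lit 441) (nat_lit 270)) (XT.lf (nat_lit 0) (nat_lit 547299231899) (nat_lit 0) (nat_lit 0) (nat_lit 0) (nat_lit 0) (nat_lit 0) (nat_lit 0) (nat_lit 1) (nat_lit 0) (nat_lit 1) (nat_lit 0) (nat_lit 370) (nat_lit 441) (nat_lit 269)))))) (XT.nd (nat_lit 470) (nat_lit 0) (nat_lit 0) (XT.nd (nat_lit 188) (nat_lit 0) (nat_lit 0) (XT.nd (nat_lit 94) (nat_lit 0) (nat_lit 0) (XT.lf (nat_lit 0) (nat_lit 547299159622) (nat_lit 0) (nat_lit 0) (nat_lit 0) (nat_lit 0) (nat_lit 0) (nat_lit 0) (nat_lit 1) (nat_lit 0) (nat_lit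 1) (nat_lit 0) (nat_lit 371) (nat_lit 441) (nat_lit 268)) (XT.lf (nat_lit 0) (nat_lit 547299092698) (nat_lit 0) (nat_lit 0) (nat_lit 0) (nat_lit 0) (nat_lit 0) (nat_lit 0) (nat_lit 1) (nat_lit 0) (nat_lit 1) (nat_lit 0) (nat_lit 372) (nat_lit 441) (nat_lit 267))) (XT.nd (nat_lit 94) (nat_lit 0) (nat_lit 0) (XT.lf (nat_lit 0) (nat_lit 547299030731) (nat_lit 0) (nat_lit 0) (nat_lit 0) (nat_lit 0) (nat_lit 0) (nat_lit 0) (nat_lit 1) (nat_lit 0) (nat_lit 1) (nat_lit 0) (nat_lit 373) (nat_lit 441) (nat_lit 266)) (XT.nd (nat_lit 94) (nat_lit 0) (nat_lit 0) (XT.lf (nat_lit 0) (nat_lit 547298973355) (nat_lit 0) (nat_lit 0) (nat_lit 0) (nat_lit 0) (nat_lit 0) (nat_lit 0) (nat_lit 1) (nat_lit 0) (nat_lit 1) (nat_lit 0) (nat_lit 374) (nat_lit 441) (nat_lit 265)) (XT.lf (nat_lit 0) (nat_lit 547298920229) (nat_lit 0) (nat_lit 0) (nat_lit 0) (nat_lit 0) (nat_lit 0) (nat_lit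 0) (nat_lit 1) (nat_lit 0) (nat_lit 1) (nat_lit 0) (nat_lit 375) (nat_lit 441) (nat_lit 264))))) (XT.nd (nat_lit 188) (nat_lit 0) (nat_lit 0) (XT.nd (nat_lit 94) (nat_lit 0) (nat_lit 0) (XT.lf (nat_lit 0) (nat_lit 547298871038) (nat_lit 0) (nat_lit 0) (nat_lit 0) (nat_lit 0) (nat_lit 0) (nat_lit 0) (nat_lit 1) (nat_lit 0) (nat_lit 1) (nat_lit 0) (nat_lit 376) (nat_lit 441) (nat_lit 263)) (XT.lf (nat_lit 0) (nat_lit 547298825491) (nat_lit 0) (nat_lit 0) (nat_lit 0) (nat_lit 0) (nat_lit 0) (nat_lit 0) (nat_lit 1) (nat_lit 0) (nat_lit 1) (nat_lit 0) (nat_lit 377) (nat_lit 441) (nat_lit 262))) (XT.nd (nat_lit 94) (nat_lit 0) (nat_lit 0) (XT.lf (nat_lit 0) (nat_lit 547298783317) (nat_lit 0) (nat_lit 0) (nat_lit 0) (nat_lit 0) (nat_lit 0) (nat_lit 0) (nat_lit 1) (nat_lit 0) (nat_lit 1) (nat_lit 0) (nat_lit 378) (nat_lit 441) (nat_lit 261)) (XT.nd (nat_lit 94) (nat_lit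 0) (nat_lit 0) (XT.lf (nat_lit 0) (nat_lit 547298744268) (nat_lit 0) (nat_lit 0) (nat_lit 0) (nat_lit 0) (nat_lit 0) (nat_lit 0) (nat_lit 1) (nat_lit 0) (nat_lit 1) (nat_lit 0) (nat_lit 379) (nat_lit 441) (nat_lit 260)) (XT.lf (nat_lit 0) (nat_lit 547298708111) (nat_lit 0) (nat_lit 0) (nat_lit 0) (nat_lit 0) (nat_lit 0) (nat_lit 0) (nat_lit 1) (nat_lit 0) (nat_lit 1) (nat_lit 0) (nat_lit 380) (nat_lit 441) (nat_lit 259))))))) (XT.nd (nat_lit 846) (nat_lit 0) (nat_lit 0) (XT.nd (nat_lit 376) (nat_lit 0) (nat_lit 0) (XT.nd (nat_lit 188) (nat_lit 0) (nat_lit 0) (XT.nd (nat_lit 94) (nat_lit 0) (nat_lit 0) (XT.lf (nat_lit 0) (nat_lit 547298674632) (nat_lit 0) (nat_lit 0) (nat_lit 0) (nat_lit 0) (nat_lit 0) (nat_lit 0) (nat_lit 1) (nat_lit 0) (nat_lit 1) (nat_lit 0) (nat_lit 381) (nat_lit 441) (nat_lit 258)) (XT.lf (nat_lit 0) (nat_lit 547298643634) (nat_lit 0)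 (nat_lit 0) (nat_lit 0) (nat_lit 0) (nat_lit 0) (nat_lit 0) (nat_lit 1) (nat_lit 0) (nat_lit 1) (nat_lit 0) (nat_lit 382) (nat_lit 441) (nat_lit 257))) (XT.nd (nat_lit 94) (nat_lit 0) (nat_lit 0) (XT.lf (nat_lit 0) (nat_lit 547298614931) (nat_lit 0) (nat_lit 0) (nat_lit 0) (nat_lit 0) (nat_lit 0) (nat_lit 0) (nat_lit 1) (nat_lit 0) (nat_lit 1) (nat_lit 0) (nat_lit 383) (nat_lit 441) (nat_lit 256)) (XT.lf (nat_lit 0) (nat_lit 547298588355) (nat_lit 0) (nat_lit 0) (nat_lit 0) (nat_lit 0) (nat_lit 0) (nat_lit 0) (nat_lit 1) (nat_lit 0) (nat_lit 1) (nat_lit 0) (nat_lit 384) (nat_lit 441) (nat_lit 255)))) (XT.nd (nat_lit 188) (nat_lit 0) (nat_lit 0) (XT.nd (nat_lit 94) (nat_lit 0) (nat_lit 0) (XT.lf (nat_lit 0) (nat_lit 547298563747) (nat_lit 0) (nat_lit 0) (nat_lit 0) (nat_lit 0) (nat_lit 0) (nat_lit 0) (nat_lit 1) (nat_lit 0) (nat_lit 1) (nat_lit 0) (nat_lit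 385) (nat_lit 441) (nat_lit 254)) (XT.lf (nat_lit 0) (nat_lit 547298540962) (nat_lit 0) (nat_lit 0) (nat_lit 0) (nat_lit 0) (nat_lit 0) (nat_lit 0) (nat_lit 1) (nat_lit 0) (nat_lit 1) (nat_lit 0) (nat_lit 386) (nat_lit 441) (nat_lit 253))) (XT.nd (nat_lit 94) (nat_lit 0) (nat_lit 0) (XT.lf (nat_lit 0) (nat_lit 547298519865) (nat_lit 0) (nat_lit 0) (nat_lit 0) (nat_lit 0) (nat_lit 0) (nat_lit 0) (nat_lit 1) (nat_lit 0) (nat_lit 1) (nat_lit 0) (nat_lit 387) (nat_lit 441) (nat_lit 252)) (XT.nd (nat_lit 94) (nat_lit 0) (nat_lit 0) (XT.lf (nat_lit 0) (nat_lit 547298500331) (nat_lit 0) (nat_lit 0) (nat_lit 0) (nat_lit 0) (nat_lit 0) (nat_lit 0) (nat_lit 1) (nat_lit 0) (nat_lit 1) (nat_lit 0) (nat_lit 388) (nat_lit 441) (nat_lit 251)) (XT.lf (nat_lit 0) (nat_lit 547298482243) (nat_lit 0) (nat_lit 0) (nat_lit 0) (nat_lit 0) (nat_lit 0) (nat_lit 0) (nat_lit 1) (nat_lit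 0) (nat_lit 1) (nat_lit 0) (nat_lit 389) (nat_lit 441) (nat_lit 250)))))) (XT.nd (nat_lit 470) (nat_lit 0) (nat_lit 0) (XT.nd (nat_lit 188) (nat_lit 0) (nat_lit 0) (XT.nd (nat_lit 94) (nat_lit 0) (nat_lit 0) (XT.lf (nat_lit 0) (nat_lit 547298465496) (nat_lit 0) (nat_lit 0) (nat_lit 0) (nat_lit 0) (nat_lit 0) (nat_lit 0) (nat_lit 1) (nat_lit 0) (nat_lit 1) (nat_lit 0) (nat_lit 390) (nat_lit 441) (nat_lit 249)) (XT.lf (nat_lit 0) (nat_lit 547298449989) (nat_lit 0) (nat_lit 0) (nat_lit 0) (nat_lit 0) (nat_lit 0) (nat_lit 0) (nat_lit 1) (nat_lit 0) (nat_lit 1) (nat_lit 0) (nat_lit 391) (nat_lit 441) (nat_lit 248))) (XT.nd (nat_lit 94) (nat_lit 0) (nat_lit 0) (XT.lf (nat_lit 0) (nat_lit 547298435630) (nat_lit 0) (nat_lit 0) (nat_lit 0) (nat_lit 0) (nat_lit 0) (nat_lit 0) (nat_lit 1) (nat_lit 0) (nat_lit 1) (nat_lit 0) (nat_lit 392) (nat_lit 441) (nat_lit 247))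 (XT.nd (nat_lit 94) (nat_lit 0) (nat_lit 0) (XT.lf (nat_lit 0) (nat_lit 547298422335) (nat_lit 0) (nat_lit 0) (nat_lit 0) (nat_lit 0) (nat_lit 0) (nat_lit 0) (nat_lit 1) (nat_lit 0) (nat_lit 1) (nat_lit 0) (nat_lit 393) (nat_lit 441) (nat_lit 246)) (XT.lf (nat_lit 0) (nat_lit 547298410025) (nat_lit 0) (nat_lit 0) (nat_lit 0) (nat_lit 0) (nat_lit 0) (nat_lit 0) (nat_lit 1) (nat_lit 0) (nat_lit 1) (nat_lit 0) (nat_lit 394) (nat_lit 441) (nat_lit 245))))) (XT.nd (nat_lit 188) (nat_lit 0) (nat_lit 0) (XT.nd (nat_lit 94) (nat_lit 0) (nat_lit 0) (XT.lf (nat_lit 0) (nat_lit 547298398627) (nat_lit 0) (nat_lit 0) (nat_lit 0) (nat_lit 0) (nat_lit 0) (nat_lit 0) (nat_lit 1) (nat_lit 0) (nat_lit 1) (nat_lit 0) (nat_lit 395) (nat_lit 441) (nat_lit 244)) (XT.lf (nat_lit 0) (nat_lit 547298388073) (nat_lit 0) (nat_lit 0) (nat_lit 0) (nat_lit 0) (nat_lit 0) (nat_lit 0) (nat_lit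 1) (nat_lit 0) (nat_lit 1) (nat_lit 0) (nat_lit 396) (nat_lit 441) (nat_lit 243))) (XT.nd (nat_lit 94) (nat_lit 0) (nat_lit 0) (XT.lf (nat_lit 0) (nat_lit 547298378301) (nat_lit 0) (nat_lit 0) (nat_lit 0) (nat_lit 0) (nat_lit 0) (nat_lit 0) (nat_lit 1) (nat_lit 0) (nat_lit 1) (nat_lit 0) (nat_lit 397) (nat_lit 441) (nat_lit 242)) (XT.nd (nat_lit 94) (nat_lit 0) (nat_lit 0) (XT.lf (nat_lit 0) (nat_lit 547298369253) (nat_lit 0) (nat_lit 0) (nat_lit 0) (nat_lit 0) (nat_lit 0) (nat_lit 0) (nat_lit 1) (nat_lit 0) (nat_lit 1) (nat_lit 0) (nat_lit 398) (nat_lit 441) (nat_lit 241)) (XT.lf (nat_lit 0) (nat_lit 547298360875) (nat_lit 0) (nat_lit 0) (nat_lit 0) (nat_lit 0) (nat_lit 0) (nat_lit 0) (nat_lit 1) (nat_lit 0) (nat_lit 1) (nat_lit 0) (nat_lit 399) (nat_lit 441) (nat_lit 240))))))))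
noncomputable def ec378 : XT := (XT.nd (nat_lit 1692) (nat_lit 0) (nat_lit 0) (XT.nd (nat_lit 846) (nat_lit 0) (nat_lit 0) (XT.nd (nat_lit 376) (nat_lit 0) (nat_lit 0) (XT.nd (nat_lit 188) (nat_lit 0) (nat_lit 0) (XT.nd (nat_lit 94) (nat_lit 0) (nat_lit 0) (XT.lf (nat_lit 0) (nat_lit 547298353118) (nat_lit 0) (nat_lit 0) (nat_lit 0) (nat_lit 0) (nat_lit 0) (nat_lit 0) (nat_lit 1) (nat_lit 0) (nat_lit 1) (nat_lit 0) (nat_lit 400) (nat_lit 441) (nat_lit 239)) (XT.lf (nat_lit 0) (nat_lit 547298345935) (nat_lit 0) (nat_lit 0) (nat_lit 0) (nat_lit 0) (nat_lit 0) (nat_lit 0) (nat_lit 1) (nat_lit 0) (nat_lit 1) (nat_lit 0) (nat_lit 401) (nat_lit 441) (nat_lit 238))) (XT.nd (nat_lit 94) (nat_lit 0) (nat_lit 0) (XT.lf (nat_lit 0) (nat_lit 547298339284) (nat_lit 0) (nat_lit 0) (nat_lit 0) (nat_lit 0) (nat_lit 0) (nat_lit 0) (nat_lit 1) (nat_lit 0) (nat_lit 1) (nat_lit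 0) (nat_lit 402) (nat_lit 441) (nat_lit 237)) (XT.lf (nat_lit 0) (nat_lit 547298333126) (nat_lit 0) (nat_lit 0) (nat_lit 0) (nat_lit 0) (nat_lit 0) (nat_lit 0) (nat_lit 1) (nat_lit 0) (nat_lit 1) (nat_lit 0) (nat_lit 403) (nat_lit 441) (nat_lit 236)))) (XT.nd (nat_lit 188) (nat_lit 0) (nat_lit 0) (XT.nd (nat_lit 94) (nat_lit 0) (nat_lit 0) (XT.lf (nat_lit 0) (nat_lit 547298327424) (nat_lit 0) (nat_lit 0) (nat_lit 0) (nat_lit 0) (nat_lit 0) (nat_lit 0) (nat_lit 1) (nat_lit 0) (nat_lit 1) (nat_lit 0) (nat_lit 404) (nat_lit 441) (nat_lit 235)) (XT.lf (nat_lit 0) (nat_lit 547298322145) (nat_lit 0) (nat_lit 0) (nat_lit 0) (nat_lit 0) (nat_lit 0) (nat_lit 0) (nat_lit 1) (nat_lit 0) (nat_lit 1) (nat_lit 0) (nat_lit 405) (nat_lit 441) (nat_lit 234))) (XT.nd (nat_lit 94) (nat_lit 0) (nat_lit 0) (XT.lf (nat_lit 0) (nat_lit 547298317256) (nat_lit 0) (nat_lit 0) (nat_lit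 0) (nat_lit 0) (nat_lit 0) (nat_lit 0) (nat_lit 1) (nat_lit 0) (nat_lit 1) (nat_lit 0) (nat_lit 406) (nat_lit 441) (nat_lit 233)) (XT.nd (nat_lit 94) (nat_lit 0) (nat_lit 0) (XT.lf (nat_lit 0) (nat_lit 547298312730) (nat_lit 0) (nat_lit 0) (nat_lit 0) (nat_lit 0) (nat_lit 0) (nat_lit 0) (nat_lit 1) (nat_lit 0) (nat_lit 1) (nat_lit 0) (nat_lit 407) (nat_lit 441) (nat_lit 232)) (XT.lf (nat_lit 0) (nat_lit 547298308539) (nat_lit 0) (nat_lit 0) (nat_lit 0) (nat_lit 0) (nat_lit 0) (nat_lit 0) (nat_lit 1) (nat_lit 0) (nat_lit 1) (nat_lit 0) (nat_lit 408) (nat_lit 441) (nat_lit 231)))))) (XT.nd (nat_lit 376) (nat_lit 0) (nat_lit 0) (XT.nd (nat_lit 188) (nat_lit 0) (nat_lit 0) (XT.nd (nat_lit 94) (nat_lit 0) (nat_lit 0) (XT.lf (nat_lit 0) (nat_lit 547298304658) (nat_lit 0) (nat_lit 0) (nat_lit 0) (nat_lit 0) (nat_lit 0) (nat_lit 0) (nat_lit 1) (nat_lit 0) (nat_lit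 1) (nat_lit 0) (nat_lit 409) (nat_lit 441) (nat_lit 230)) (XT.lf (nat_lit 0) (nat_lit 547298301065) (nat_lit 0) (nat_lit 0) (nat_lit 0) (nat_lit 0) (nat_lit 0) (nat_lit 0) (nat_lit 1) (nat_lit 0) (nat_lit 1) (nat_lit 0) (nat_lit 410) (nat_lit 441) (nat_lit 229))) (XT.nd (nat_lit 94) (nat_lit 0) (nat_lit 0) (XT.lf (nat_lit 0) (nat_lit 547298297738) (nat_lit 0) (nat_lit 0) (nat_lit 0) (nat_lit 0) (nat_lit 0) (nat_lit 0) (nat_lit 1) (nat_lit 0) (nat_lit 1) (nat_lit 0) (nat_lit 411) (nat_lit 441) (nat_lit 228)) (XT.lf (nat_lit 0) (nat_lit 547298294657) (nat_lit 0) (nat_lit 0) (nat_lit 0) (nat_lit 0) (nat_lit 0) (nat_lit 0) (nat_lit 1) (nat_lit 0) (nat_lit 1) (nat_lit 0) (nat_lit 412) (nat_lit 441) (nat_lit 227)))) (XT.nd (nat_lit 188) (nat_lit 0) (nat_lit 0) (XT.nd (nat_lit 94) (nat_lit 0) (nat_lit 0) (XT.lf (nat_lit 0) (nat_lit 547298291805) (nat_lit 0) (nat_lit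 0) (nat_lit 0) (nat_lit 0) (nat_lit 0) (nat_lit 0) (nat_lit 1) (nat_lit 0) (nat_lit 1) (nat_lit 0) (nat_lit 413) (nat_lit 441) (nat_lit 226)) (XT.lf (nat_lit 0) (nat_lit 547298289164) (nat_lit 0) (nat_lit 0) (nat_lit 0) (nat_lit 0) (nat_lit 0) (nat_lit 0) (nat_lit 1) (nat_lit 0) (nat_lit 1) (nat_lit 0) (nat_lit 414) (nat_lit 441) (nat_lit 225))) (XT.nd (nat_lit 94) (nat_lit 0) (nat_lit 0) (XT.lf (nat_lit 0) (nat_lit 547298286719) (nat_lit 0) (nat_lit 0) (nat_lit 0) (nat_lit 0) (nat_lit 0) (nat_lit 0) (nat_lit 1) (nat_lit 0) (nat_lit 1) (nat_lit 0) (nat_lit 415) (nat_lit 441) (nat_lit 224)) (XT.nd (nat_lit 94) (nat_lit 0) (nat_lit 0) (XT.lf (nat_lit 0) (nat_lit 547298284454) (nat_lit 0) (nat_lit 0) (nat_lit 0) (nat_lit 0) (nat_lit 0) (nat_lit 0) (nat_lit 1) (nat_lit 0) (nat_lit 1) (nat_lit 0) (nat_lit 416) (nat_lit 441) (nat_lit 223)) (XT.lf (nat_lit 0) (nat_lit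 547298282358) (nat_lit 0) (nat_lit 0) (nat_lit 0) (nat_lit 0) (nat_lit 0) (nat_lit 0) (nat_lit 1) (nat_lit 0) (nat_lit 1) (nat_lit 0) (nat_lit 417) (nat_lit 441) (nat_lit 222))))))) (XT.nd (nat_lit 846) (nat_lit 0) (nat_lit 0) (XT.nd (nat_lit 376) (nat_lit 0) (nat_lit 0) (XT.nd (nat_lit 188) (nat_lit 0) (nat_lit 0) (XT.nd (nat_lit 94) (nat_lit 0) (nat_lit 0) (XT.lf (nat_lit 0) (nat_lit 547298280416) (nat_lit 0) (nat_lit 0) (nat_lit 0) (nat_lit 0) (nat_lit 0) (nat_lit 0) (nat_lit 1) (nat_lit 0) (nat_lit 1) (nat_lit 0) (nat_lit 418) (nat_lit 441) (nat_lit 221)) (XT.lf (nat_lit 0) (nat_lit 547298278619) (nat_lit 0) (nat_lit 0) (nat_lit 0) (nat_lit 0) (nat_lit 0) (nat_lit 0) (nat_lit 1) (nat_lit 0) (nat_lit 1) (nat_lit 0) (nat_lit 419) (nat_lit 441) (nat_lit 220))) (XT.nd (nat_lit 94) (nat_lit 0) (nat_lit 0) (XT.lf (nat_lit 0) (nat_lit 547298276955) (nat_lit 0)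 (nat_lit 0) (nat_lit 0) (nat_lit 0) (nat_lit 0) (nat_lit 0) (nat_lit 1) (nat_lit 0) (nat_lit 1) (nat_lit 0) (nat_lit 420) (nat_lit 441) (nat_lit 219)) (XT.lf (nat_lit 0) (nat_lit 547298275414) (nat_lit 0) (nat_lit 0) (nat_lit 0) (nat_lit 0) (nat_lit 0) (nat_lit 0) (nat_lit 1) (nat_lit 0) (nat_lit 1) (nat_lit 0) (nat_lit 421) (nat_lit 441) (nat_lit 218)))) (XT.nd (nat_lit 188) (nat_lit 0) (nat_lit 0) (XT.nd (nat_lit 94) (nat_lit 0) (nat_lit 0) (XT.lf (nat_lit 0) (nat_lit 547298273987) (nat_lit 0) (nat_lit 0) (nat_lit 0) (nat_lit 0) (nat_lit 0) (nat_lit 0) (nat_lit 1) (nat_lit 0) (nat_lit 1) (nat_lit 0) (nat_lit 422) (nat_lit 441) (nat_lit 217)) (XT.lf (nat_lit 0) (nat_lit 547298272665) (nat_lit 0) (nat_lit 0) (nat_lit 0) (nat_lit 0) (nat_lit 0) (nat_lit 0) (nat_lit 1) (nat_lit 0) (nat_lit 1) (nat_lit 0) (nat_lit 423) (nat_lit 441) (nat_lit 216))) (XT.nd (nat_lit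 94) (nat_lit 0) (nat_lit 0) (XT.lf (nat_lit 0) (nat_lit 547298271442) (nat_lit 0) (nat_lit 0) (nat_lit 0) (nat_lit 0) (nat_lit 0) (nat_lit 0) (nat_lit 1) (nat_lit 0) (nat_lit 1) (nat_lit 0) (nat_lit 424) (nat_lit 441) (nat_lit 215)) (XT.nd (nat_lit 94) (nat_lit 0) (nat_lit 0) (XT.lf (nat_lit 0) (nat_lit 547298270309) (nat_lit 0) (nat_lit 0) (nat_lit 0) (nat_lit 0) (nat_lit 0) (nat_lit 0) (nat_lit 1) (nat_lit 0) (nat_lit 1) (nat_lit 0) (nat_lit 425) (nat_lit 441) (nat_lit 214)) (XT.lf (nat_lit 0) (nat_lit 547298269261) (nat_lit 0) (nat_lit 0) (nat_lit 0) (nat_lit 0) (nat_lit 0) (nat_lit 0) (nat_lit 1) (nat_lit 0) (nat_lit 1) (nat_lit 0) (nat_lit 426) (nat_lit 441) (nat_lit 213)))))) (XT.nd (nat_lit 470) (nat_lit 0) (nat_lit 0) (XT.nd (nat_lit 188) (nat_lit 0) (nat_lit 0) (XT.nd (nat_lit 94) (nat_lit 0) (nat_lit 0) (XT.lf (nat_lit 0) (nat_lit 547298268289) (nat_lit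 0) (nat_lit 0) (nat_lit 0) (nat_lit 0) (nat_lit 0) (nat_lit 0) (nat_lit 1) (nat_lit 0) (nat_lit 1) (nat_lit 0) (nat_lit 427) (nat_lit 441) (nat_lit 212)) (XT.lf (nat_lit 0) (nat_lit 547298267390) (nat_lit 0) (nat_lit 0) (nat_lit 0) (nat_lit 0) (nat_lit 0) (nat_lit 0) (nat_lit 1) (nat_lit 0) (nat_lit 1) (nat_lit 0) (nat_lit 428) (nat_lit 441) (nat_lit 211))) (XT.nd (nat_lit 94) (nat_lit 0) (nat_lit 0) (XT.lf (nat_lit 0) (nat_lit 547298266558) (nat_lit 0) (nat_lit 0) (nat_lit 0) (nat_lit 0) (nat_lit 0) (nat_lit 0) (nat_lit 1) (nat_lit 0) (nat_lit 1) (nat_lit 0) (nat_lit 429) (nat_lit 441) (nat_lit 210)) (XT.nd (nat_lit 94) (nat_lit 0) (nat_lit 0) (XT.lf (nat_lit 0) (nat_lit 547298265787) (nat_lit 0) (nat_lit 0) (nat_lit 0) (nat_lit 0) (nat_lit 0) (nat_lit 0) (nat_lit 1) (nat_lit 0) (nat_lit 1) (nat_lit 0) (nat_lit 430) (nat_lit 441) (nat_lit 209)) (XT.lf (nat_lit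 0) (nat_lit 547298265073) (nat_lit 0) (nat_lit 0) (nat_lit 0) (nat_lit 0) (nat_lit 0) (nat_lit 0) (nat_lit 1) (nat_lit 0) (nat_lit 1) (nat_lit 0) (nat_lit 431) (nat_lit 441) (nat_lit 208))))) (XT.nd (nat_lit 188) (nat_lit 0) (nat_lit 0) (XT.nd (nat_lit 94) (nat_lit 0) (nat_lit 0) (XT.lf (nat_lit 0) (nat_lit 547298264412) (nat_lit 0) (nat_lit 0) (nat_lit 0) (nat_lit 0) (nat_lit 0) (nat_lit 0) (nat_lit 1) (nat_lit 0) (nat_lit 1) (nat_lit 0) (nat_lit 432) (nat_lit 441) (nat_lit 207)) (XT.lf (nat_lit 0) (nat_lit 547298263800) (nat_lit 0) (nat_lit 0) (nat_lit 0) (nat_lit 0) (nat_lit 0) (nat_lit 0) (nat_lit 1) (nat_lit 0) (nat_lit 1) (nat_lit 0) (nat_lit 433) (nat_lit 441) (nat_lit 206))) (XT.nd (nat_lit 94) (nat_lit 0) (nat_lit 0) (XT.lf (nat_lit 0) (nat_lit 547298263233) (nat_lit 0) (nat_lit 0) (nat_lit 0) (nat_lit 0) (nat_lit 0) (nat_lit 0) (nat_lit 1) (nat_lit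 0) (nat_lit 1) (nat_lit 0) (nat_lit 434) (nat_lit 441) (nat_lit 205)) (XT.nd (nat_lit 94) (nat_lit 0) (nat_lit 0) (XT.lf (nat_lit 0) (nat_lit 547298262709) (nat_lit 0) (nat_lit 0) (nat_lit 0) (nat_lit 0) (nat_lit 0) (nat_lit 0) (nat_lit 1) (nat_lit 0) (nat_lit 1) (nat_lit 0) (nat_lit 435) (nat_lit 441) (nat_lit 204)) (XT.lf (nat_lit 0) (nat_lit 547298262223) (nat_lit 0) (nat_lit 0) (nat_lit 0) (nat_lit 0) (nat_lit 0) (nat_lit 0) (nat_lit 1) (nat_lit 0) (nat_lit 1) (nat_lit 0) (nat_lit 436) (nat_lit 441) (nat_lit 203))))))))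
noncomputable def ec379 : XT := (XT.nd (nat_lit 45872) (nat_lit 0) (nat_lit 4620) (XT.nd (nat_lit 846) (nat_lit 0) (nat_lit 0) (XT.nd (nat_lit 376) (nat_lit 0) (nat_lit 0) (XT.nd (nat_lit 188) (nat_lit 0) (nat_lit 0) (XT.nd (nat_lit 94) (nat_lit 0) (nat_lit 0) (XT.lf (nat_lit 0) (nat_lit 547298261773) (nat_lit 0) (nat_lit 0) (nat_lit 0) (nat_lit 0) (nat_lit 0) (nat_lit 0) (nat_lit 1) (nat_lit 0) (nat_lit 1) (nat_lit 0) (nat_lit 437) (nat_lit 441) (nat_lit 202)) (XT.lf (nat_lit 0) (nat_lit 547298261357) (nat_lit 0) (nat_lit 0) (nat_lit 0) (nat_lit 0) (nat_lit 0) (nat_lit 0) (nat_lit 1) (nat_lit 0) (nat_lit 1) (nat_lit 0) (nat_lit 438) (nat_lit 441) (nat_lit 201))) (XT.nd (nat_lit 94) (nat_lit 0) (nat_lit 0) (XT.lf (nat_lit 0) (nat_lit 547298260971) (nat_lit 0) (nat_lit 0) (nat_lit 0) (nat_lit 0) (nat_lit 0) (nat_lit 0) (nat_lit 1) (nat_lit 0) (nat_lit 1) (nat_lit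 0) (nat_lit 439) (nat_lit 441) (nat_lit 200)) (XT.lf (nat_lit 0) (nat_lit 547298260614) (nat_lit 0) (nat_lit 0) (nat_lit 0) (nat_lit 0) (nat_lit 0) (nat_lit 0) (nat_lit 1) (nat_lit 0) (nat_lit 1) (nat_lit 0) (nat_lit 440) (nat_lit 441) (nat_lit 199)))) (XT.nd (nat_lit 188) (nat_lit 0) (nat_lit 0) (XT.nd (nat_lit 94) (nat_lit 0) (nat_lit 0) (XT.lf (nat_lit 0) (nat_lit 547298260283) (nat_lit 0) (nat_lit 0) (nat_lit 0) (nat_lit 0) (nat_lit 0) (nat_lit 0) (nat_lit 1) (nat_lit 0) (nat_lit 1) (nat_lit 0) (nat_lit 441) (nat_lit 441) (nat_lit 198)) (XT.lf (nat_lit 0) (nat_lit 547298259977) (nat_lit 0) (nat_lit 0) (nat_lit 0) (nat_lit 0) (nat_lit 0) (nat_lit 0) (nat_lit 1) (nat_lit 0) (nat_lit 1) (nat_lit 0) (nat_lit 442) (nat_lit 441) (nat_lit 197))) (XT.nd (nat_lit 94) (nat_lit 0) (nat_lit 0) (XT.lf (nat_lit 0) (nat_lit 547298259694) (nat_lit 0) (nat_lit 0) (nat_lit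 0) (nat_lit 0) (nat_lit 0) (nat_lit 0) (nat_lit 1) (nat_lit 0) (nat_lit 1) (nat_lit 0) (nat_lit 443) (nat_lit 441) (nat_lit 196)) (XT.nd (nat_lit 94) (nat_lit 0) (nat_lit 0) (XT.lf (nat_lit 0) (nat_lit 547298259431) (nat_lit 0) (nat_lit 0) (nat_lit 0) (nat_lit 0) (nat_lit 0) (nat_lit 0) (nat_lit 1) (nat_lit 0) (nat_lit 1) (nat_lit 0) (nat_lit 444) (nat_lit 441) (nat_lit 195)) (XT.lf (nat_lit 0) (nat_lit 547298259188) (nat_lit 0) (nat_lit 0) (nat_lit 0) (nat_lit 0) (nat_lit 0) (nat_lit 0) (nat_lit 1) (nat_lit 0) (nat_lit 1) (nat_lit 0) (nat_lit 445) (nat_lit 441) (nat_lit 194)))))) (XT.nd (nat_lit 44556) (nat_lit 0) (nat_lit 10332) (XT.nd (nat_lit 44274) (nat_lit 0) (nat_lit 10752) (XT.nd (nat_lit 94) (nat_lit 0) (nat_lit 0) (XT.lf (nat_lit 0) (nat_lit 547298258963) (nat_lit 0) (nat_lit 0) (nat_lit 0) (nat_lit 0) (nat_lit 0) (nat_lit 0) (nat_lit 1) (nat_lit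 0) (nat_lit 1) (nat_lit 0) (nat_lit 446) (nat_lit 441) (nat_lit 193)) (XT.lf (nat_lit 0) (nat_lit 547298258755) (nat_lit 0) (nat_lit 0) (nat_lit 0) (nat_lit 0) (nat_lit 0) (nat_lit 0) (nat_lit 1) (nat_lit 0) (nat_lit 1) (nat_lit 0) (nat_lit 447) (nat_lit 441) (nat_lit 192))) (XT.nd (nat_lit 94) (nat_lit 0) (nat_lit 84) (XT.lf (nat_lit 924) (nat_lit 295799631686) (nat_lit 0) (nat_lit 525191566135) (nat_lit 924) (nat_lit 295799631686) (nat_lit 139) (nat_lit 1) (nat_lit 128) (nat_lit 0) (nat_lit 139) (nat_lit 0) (nat_lit 196) (nat_lit 442) (nat_lit 442)) (XT.nd (nat_lit 94) (nat_lit 0) (nat_lit 0) (XT.lf (nat_lit 924) (nat_lit 110342338975) (nat_lit 0) (nat_lit 1031110217425) (nat_lit 840) (nat_lit 1008422347778) (nat_lit 140) (nat_lit 1) (nat_lit 129) (nat_lit 1) (nat_lit 139) (nat_lit 1) (nat_lit 197) (nat_lit 442) (nat_lit 441)) (XT.lf (nat_lit 924) (nat_lit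 1013430692968) (nat_lit 84) (nat_lit 690534860174) (nat_lit 0) (nat_lit 366228190328) (nat_lit 140) (nat_lit 1) (nat_lit 130) (nat_lit 1) (nat_lit 129) (nat_lit 1) (nat_lit 198) (nat_lit 442) (nat_lit 440))))) (XT.nd (nat_lit 188) (nat_lit 588) (nat_lit 0) (XT.nd (nat_lit 94) (nat_lit 0) (nat_lit 84) (XT.lf (nat_lit 924) (nat_lit 875687140162) (nat_lit 84) (nat_lit 289398373563) (nat_lit 0) (nat_lit 829414516423) (nat_lit 141) (nat_lit 1) (nat_lit 131) (nat_lit 1) (nat_lit 130) (nat_lit 1) (nat_lit 199) (nat_lit 442) (nat_lit 439)) (XT.lf (nat_lit 924) (nat_lit 648082932055) (nat_lit 0) (nat_lit 1212532532321) (nat_lit 840) (nat_lit 61984489816) (nat_lit 142) (nat_lit 1) (nat_lit 131) (nat_lit 1) (nat_lit 141) (nat_lit 1) (nat_lit 200) (nat_lit 442) (nat_lit 438))) (XT.nd (nat_lit 94) (nat_lit 756) (nat_lit 0) (XT.lf (nat_lit 924) (nat_lit 155501145268) (nat_lit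 0) (nat_lit 1337153971485) (nat_lit 840) (nat_lit 361478493407) (nat_lit 143) (nat_lit 1) (nat_lit 132) (nat_lit 1) (nat_lit 142) (nat_lit 1) (nat_lit 201) (nat_lit 442) (nat_lit 437)) (XT.nd (nat_lit 94) (nat_lit 756) (nat_lit 0) (XT.lf (nat_lit 924) (nat_lit 298809953537) (nat_lit 84) (nat_lit 1162095690342) (nat_lit 0) (nat_lit 327957741352) (nat_lit 143) (nat_lit 1) (nat_lit 133) (nat_lit 1) (nat_lit 132) (nat_lit 1) (nat_lit 202) (nat_lit 442) (nat_lit 436)) (XT.lf (nat_lit 924) (nat_lit 61368750675) (nat_lit 0) (nat_lit 868743398206) (nat_lit 840) (nat_lit 796628593602) (nat_lit 134) (nat_lit 1) (nat_lit 123) (nat_lit 1) (nat_lit 133) (nat_lit 1) (nat_lit 203) (nat_lit 442) (nat_lit 435))))))) (XT.nd (nat_lit 846) (nat_lit 2604) (nat_lit 0) (XT.nd (nat_lit 376) (nat_lit 1344) (nat_lit 0) (XT.nd (nat_lit 188) (nat_lit 756) (nat_lit 0) (XT.nd (nat_lit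 94) (nat_lit 420) (nat_lit 0) (XT.lf (nat_lit 84) (nat_lit 424930013295) (nat_lit 0) (nat_lit 184141949401) (nat_lit 588) (nat_lit 1058487584188) (nat_lit 117) (nat_lit 1) (nat_lit 116) (nat_lit 1) (nat_lit 123) (nat_lit 1) (nat_lit 204) (nat_lit 442) (nat_lit 434)) (XT.lf (nat_lit 504) (nat_lit 1171053632058) (nat_lit 0) (nat_lit 381203203113) (nat_lit 420) (nat_lit 58936370620) (nat_lit 117) (nat_lit 1) (nat_lit 111) (nat_lit 1) (nat_lit 116) (nat_lit 1) (nat_lit 205) (nat_lit 442) (nat_lit 433))) (XT.nd (nat_lit 94) (nat_lit 336) (nat_lit 0) (XT.lf (nat_lit 504) (nat_lit 845043452511) (nat_lit 0) (nat_lit 177680455059) (nat_lit 420) (nat_lit 534526609004) (nat_lit 112) (nat_lit 1) (nat_lit 106) (nat_lit 1) (nat_lit 111) (nat_lit 1) (nat_lit 206) (nat_lit 442) (nat_lit 432)) (XT.lf (nat_lit 420) (nat_lit 514198163221) (nat_lit 0) (nat_lit 3271385924) (nat_lit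 336) (nat_lit 988453841924) (nat_lit 107) (nat_lit 1) (nat_lit 102) (nat_lit 1) (nat_lit 106) (nat_lit 1) (nat_lit 207) (nat_lit 442) (nat_lit 431)))) (XT.nd (nat_lit 188) (nat_lit 924) (nat_lit 0) (XT.nd (nat_lit 94) (nat_lit 420) (nat_lit 0) (XT.lf (nat_lit 84) (nat_lit 37935110388) (nat_lit 0) (nat_lit 1279355740040) (nat_lit 420) (nat_lit 139666554553) (nat_lit 103) (nat_lit 1) (nat_lit 102) (nat_lit 1) (nat_lit 107) (nat_lit 1) (nat_lit 208) (nat_lit 442) (nat_lit 430)) (XT.lf (nat_lit 84) (nat_lit 979494389454) (nat_lit 0) (nat_lit 162459625017) (nat_lit 420) (nat_lit 267925426558) (nat_lit 98) (nat_lit 1) (nat_lit 97) (nat_lit 1) (nat_lit 102) (nat_lit 1) (nat_lit 209) (nat_lit 442) (nat_lit 429))) (XT.nd (nat_lit 94) (nat_lit 588) (nat_lit 0) (XT.lf (nat_lit 84) (nat_lit 490065864066) (nat_lit 0) (nat_lit 497642670647) (nat_lit 420) (nat_lit 377173086847)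 (nat_lit 94) (nat_lit 1) (nat_lit 93) (nat_lit 1) (nat_lit 98) (nat_lit 1) (nat_lit 210) (nat_lit 442) (nat_lit 428)) (XT.nd (nat_lit 94) (nat_lit 252) (nat_lit 0) (XT.lf (nat_lit 84) (nat_lit 24188564348) (nat_lit 0) (nat_lit 832050818029) (nat_lit 420) (nat_lit 465774917751) (nat_lit 90) (nat_lit 1) (nat_lit 89) (nat_lit 1) (nat_lit 94) (nat_lit 1) (nat_lit 211) (nat_lit 442) (nat_lit 427)) (XT.lf (nat_lit 336) (nat_lit 109234193336) (nat_lit 0) (nat_lit 738698562468) (nat_lit 252) (nat_lit 432894334751) (nat_lit 90) (nat_lit 1) (nat_lit 86) (nat_lit 1) (nat_lit 89) (nat_lit 1) (nat_lit 212) (nat_lit 442) (nat_lit 426)))))) (XT.nd (nat_lit 470) (nat_lit 1092) (nat_lit 0) (XT.nd (nat_lit 188) (nat_lit 840) (nat_lit 0) (XT.nd (nat_lit 94) (nat_lit 252) (nat_lit 0) (XT.lf (nat_lit 84) (nat_lit 377433506650) (nat_lit 0) (nat_lit 258695270727) (nat_lit 420) (nat_lit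 605212621904) (nat_lit 82) (nat_lit 1) (nat_lit 81) (nat_lit 1) (nat_lit 86) (nat_lit 1) (nat_lit 213) (nat_lit 442) (nat_lit 425)) (XT.lf (nat_lit 336) (nat_lit 584357852826) (nat_lit 0) (nat_lit 548928676256) (nat_lit 252) (nat_lit 70262219078) (nat_lit 82) (nat_lit 1) (nat_lit 78) (nat_lit 1) (nat_lit 81) (nat_lit 1) (nat_lit 214) (nat_lit 442) (nat_lit 424))) (XT.nd (nat_lit 94) (nat_lit 588) (nat_lit 0) (XT.lf (nat_lit 336) (nat_lit 187283868762) (nat_lit 0) (nat_lit 472605111847) (nat_lit 252) (nat_lit 507319498565) (nat_lit 79) (nat_lit 1) (nat_lit 75) (nat_lit 1) (nat_lit 78) (nat_lit 1) (nat_lit 215) (nat_lit 442) (nat_lit 423)) (XT.nd (nat_lit 94) (nat_lit 252) (nat_lit 0) (XT.lf (nat_lit 84) (nat_lit 213458356573) (nat_lit 0) (nat_lit 195439675385) (nat_lit 336) (nat_lit 723479458027) (nat_lit 72) (nat_lit 1) (nat_lit 71) (nat_lit 1) (nat_lit 75)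 (nat_lit 1) (nat_lit 216) (nat_lit 442) (nat_lit 422)) (XT.lf (nat_lit 336) (nat_lit 531163103991) (nat_lit 0) (nat_lit 353416246014) (nat_lit 252) (nat_lit 214242090308) (nat_lit 72) (nat_lit 1) (nat_lit 68) (nat_lit 1) (nat_lit 71) (nat_lit 1) (nat_lit 217) (nat_lit 442) (nat_lit 421))))) (XT.nd (nat_lit 188) (nat_lit 588) (nat_lit 0) (XT.nd (nat_lit 94) (nat_lit 336) (nat_lit 0) (XT.lf (nat_lit 252) (nat_lit 131676117777) (nat_lit 0) (nat_lit 308329896395) (nat_lit 168) (nat_lit 626613121132) (nat_lit 69) (nat_lit 1) (nat_lit 66) (nat_lit 1) (nat_lit 68) (nat_lit 1) (nat_lit 218) (nat_lit 442) (nat_lit 420)) (XT.lf (nat_lit 84) (nat_lit 22306775601) (nat_lit 0) (nat_lit 249617661531) (nat_lit 336) (nat_lit 763740639338) (nat_lit 63) (nat_lit 1) (nat_lit 62) (nat_lit 1) (nat_lit 66) (nat_lit 1) (nat_lit 219) (nat_lit 442) (nat_lit 419))) (XT.nd (nat_lit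 94) (nat_lit 420) (nat_lit 0) (XT.lf (nat_lit 252) (nat_lit 382626637396) (nat_lit 0) (nat_lit 239108822895) (nat_lit 168) (nat_lit 383958181945) (nat_lit 63) (nat_lit 1) (nat_lit 60) (nat_lit 1) (nat_lit 62) (nat_lit 1) (nat_lit 220) (nat_lit 442) (nat_lit 418)) (XT.nd (nat_lit 94) (nat_lit 168) (nat_lit 0) (XT.lf (nat_lit 84) (nat_lit 207597223386) (nat_lit 0) (nat_lit 9589045900) (nat_lit 252) (nat_lit 759843788831) (nat_lit 58) (nat_lit 1) (nat_lit 57) (nat_lit 1) (nat_lit 60) (nat_lit 1) (nat_lit 221) (nat_lit 442) (nat_lit 417)) (XT.lf (nat_lit 252) (nat_lit 567530720757) (nat_lit 0) (nat_lit 196662119848) (nat_lit 168) (nat_lit 185007436650) (nat_lit 58) (nat_lit 1) (nat_lit 55) (nat_lit 1) (nat_lit 57) (nat_lit 1) (nat_lit 222) (nat_lit 442) (nat_lit 416))))))))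
noncomputable def ec380 : XT := (XT.nd (nat_lit 1692) (nat_lit 1764) (nat_lit 0) (XT.nd (nat_lit 846) (nat_lit 1260) (nat_lit 0) (XT.nd (nat_lit 376) (nat_lit 840) (nat_lit 0) (XT.nd (nat_lit 188) (nat_lit 336) (nat_lit 0) (XT.nd (nat_lit 94) (nat_lit 252) (nat_lit 0) (XT.lf (nat_lit 252) (nat_lit 176297784411) (nat_lit 0) (nat_lit 182819187627) (nat_lit 168) (nat_lit 563317578679) (nat_lit 56) (nat_lit 1) (nat_lit 53) (nat_lit 1) (nat_lit 55) (nat_lit 1) (nat_lit 223) (nat_lit 442) (nat_lit 415)) (XT.lf (nat_lit 252) (nat_lit 699837412854) (nat_lit 0) (nat_lit 174668895247) (nat_lit 168) (nat_lit 22158775813) (nat_lit 53) (nat_lit 1) (nat_lit 50) (nat_lit 1) (nat_lit 52) (nat_lit 1) (nat_lit 224) (nat_lit 442) (nat_lit 414))) (XT.nd (nat_lit 94) (nat_lit 168) (nat_lit 0) (XT.lf (nat_lit 252) (nat_lit 313214791272) (nat_lit 0) (nat_lit 166749905914) (nat_lit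 168) (nat_lit 391646972069) (nat_lit 51) (nat_lit 1) (nat_lit 48) (nat_lit 1) (nat_lit 50) (nat_lit 1) (nat_lit 225) (nat_lit 442) (nat_lit 413)) (XT.lf (nat_lit 84) (nat_lit 107288158896) (nat_lit 0) (nat_lit 58970406676) (nat_lit 168) (nat_lit 681338839925) (nat_lit 47) (nat_lit 1) (nat_lit 46) (nat_lit 1) (nat_lit 48) (nat_lit 1) (nat_lit 226) (nat_lit 442) (nat_lit 412)))) (XT.nd (nat_lit 188) (nat_lit 588) (nat_lit 0) (XT.nd (nat_lit 94) (nat_lit 84) (nat_lit 0) (XT.lf (nat_lit 252) (nat_lit 410955819351) (nat_lit 0) (nat_lit 164498072429) (nat_lit 168) (nat_lit 248735227072) (nat_lit 47) (nat_lit 1) (nat_lit 44) (nat_lit 1) (nat_lit 46) (nat_lit 1) (nat_lit 227) (nat_lit 442) (nat_lit 411)) (XT.lf (nat_lit 168) (nat_lit 44254102136) (nat_lit 0) (nat_lit 168538357663) (nat_lit 84) (nat_lit 588912501441) (nat_lit 45) (nat_lit 1) (nat_lit 43) (nat_lit 1)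 (nat_lit 44) (nat_lit 1) (nat_lit 228) (nat_lit 442) (nat_lit 410))) (XT.nd (nat_lit 94) (nat_lit 336) (nat_lit 0) (XT.lf (nat_lit 252) (nat_lit 477706694144) (nat_lit 0) (nat_lit 172369764852) (nat_lit 168) (nat_lit 129764302284) (nat_lit 43) (nat_lit 1) (nat_lit 40) (nat_lit 1) (nat_lit 42) (nat_lit 1) (nat_lit 229) (nat_lit 442) (nat_lit 409)) (XT.nd (nat_lit 94) (nat_lit 252) (nat_lit 0) (XT.lf (nat_lit 168) (nat_lit 120146756175) (nat_lit 0) (nat_lit 178814844052) (nat_lit 84) (nat_lit 459751828552) (nat_lit 41) (nat_lit 1) (nat_lit 39) (nat_lit 1) (nat_lit 40) (nat_lit 1) (nat_lit 230) (nat_lit 442) (nat_lit 408)) (XT.lf (nat_lit 252) (nat_lit 520085760126) (nat_lit 0) (nat_lit 187439136884) (nat_lit 168) (nat_lit 30760366930) (nat_lit 39) (nat_lit 1) (nat_lit 36) (nat_lit 1) (nat_lit 38) (nat_lit 1) (nat_lit 231) (nat_lit 442) (nat_lit 407)))))) (XT.nd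 (nat_lit 376) (nat_lit 588) (nat_lit 0) (XT.nd (nat_lit 188) (nat_lit 336) (nat_lit 0) (XT.nd (nat_lit 94) (nat_lit 252) (nat_lit 0) (XT.lf (nat_lit 168) (nat_lit 172907665309) (nat_lit 0) (nat_lit 195407552513) (nat_lit 84) (nat_lit 350089505849) (nat_lit 37) (nat_lit 1) (nat_lit 35) (nat_lit 1) (nat_lit 36) (nat_lit 1) (nat_lit 232) (nat_lit 442) (nat_lit 406)) (XT.lf (nat_lit 84) (nat_lit 49908033298) (nat_lit 0) (nat_lit 156648012975) (nat_lit 252) (nat_lit 492682346884) (nat_lit 33) (nat_lit 1) (nat_lit 32) (nat_lit 1) (nat_lit 35) (nat_lit 1) (nat_lit 233) (nat_lit 442) (nat_lit 405))) (XT.nd (nat_lit 94) (nat_lit 252) (nat_lit 0) (XT.lf (nat_lit 168) (nat_lit 207504798576) (nat_lit 0) (nat_lit 216210164612) (nat_lit 84) (nat_lit 256833083474) (nat_lit 33) (nat_lit 1) (nat_lit 31) (nat_lit 1) (nat_lit 32) (nat_lit 1) (nat_lit 234) (nat_lit 442) (nat_lit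 404)) (XT.lf (nat_lit 84) (nat_lit 116067502177) (nat_lit 0) (nat_lit 112419224321) (nat_lit 252) (nat_lit 434027798223) (nat_lit 29) (nat_lit 1) (nat_lit 28) (nat_lit 1) (nat_lit 31) (nat_lit 1) (nat_lit 235) (nat_lit 442) (nat_lit 403)))) (XT.nd (nat_lit 188) (nat_lit 336) (nat_lit 0) (XT.nd (nat_lit 94) (nat_lit 168) (nat_lit 0) (XT.lf (nat_lit 168) (nat_lit 227944486839) (nat_lit 0) (nat_lit 239578461062) (nat_lit 84) (nat_lit 177418804534) (nat_lit 29) (nat_lit 1) (nat_lit 27) (nat_lit 1) (nat_lit 28) (nat_lit 1) (nat_lit 236) (nat_lit 442) (nat_lit 402)) (XT.lf (nat_lit 84) (nat_lit 170878202664) (nat_lit 0) (nat_lit 81420406068) (nat_lit 168) (nat_lit 375650719068) (nat_lit 26) (nat_lit 1) (nat_lit 25) (nat_lit 1) (nat_lit 27) (nat_lit 1) (nat_lit 237) (nat_lit 442) (nat_lit 401))) (XT.nd (nat_lit 94) (nat_lit 252) (nat_lit 0) (XT.lf (nat_lit 168) (nat_lit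 237451111515) (nat_lit 0) (nat_lit 264240260635) (nat_lit 84) (nat_lit 109717297175) (nat_lit 26) (nat_lit 1) (nat_lit 24) (nat_lit 1) (nat_lit 25) (nat_lit 1) (nat_lit 238) (nat_lit 442) (nat_lit 400)) (XT.nd (nat_lit 94) (nat_lit 84) (nat_lit 0) (XT.lf (nat_lit 84) (nat_lit 216145038408) (nat_lit 0) (nat_lit 60740684590) (nat_lit 168) (nat_lit 318491061208) (nat_lit 23) (nat_lit 1) (nat_lit 22) (nat_lit 1) (nat_lit 24) (nat_lit 1) (nat_lit 239) (nat_lit 442) (nat_lit 399)) (XT.lf (nat_lit 168) (nat_lit 238613621560) (nat_lit 0) (nat_lit 289222226696) (nat_lit 84) (nat_lit 51956395458) (nat_lit 23) (nat_lit 1) (nat_lit 21) (nat_lit 1) (nat_lit 22) (nat_lit 1) (nat_lit 240) (nat_lit 442) (nat_lit 398))))))) (XT.nd (nat_lit 846) (nat_lit 588) (nat_lit 0) (XT.nd (nat_lit 376) (nat_lit 672) (nat_lit 0) (XT.nd (nat_lit 188) (nat_lit 252) (nat_lit 0) (XT.nd (nat_lit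 94) (nat_lit 84) (nat_lit 0) (XT.lf (nat_lit 84) (nat_lit 253368085746) (nat_lit 0) (nat_lit 48039446881) (nat_lit 168) (nat_lit 263242192729) (nat_lit 20) (nat_lit 1) (nat_lit 19) (nat_lit 1) (nat_lit 21) (nat_lit 1) (nat_lit 241) (nat_lit 442) (nat_lit 397)) (XT.lf (nat_lit 168) (nat_lit 233504977462) (nat_lit 0) (nat_lit 313790425036) (nat_lit 84) (nat_lit 2657957021) (nat_lit 20) (nat_lit 1) (nat_lit 18) (nat_lit 1) (nat_lit 19) (nat_lit 1) (nat_lit 242) (nat_lit 442) (nat_lit 396))) (XT.nd (nat_lit 94) (nat_lit 84) (nat_lit 0) (XT.lf (nat_lit 84) (nat_lit 283796551107) (nat_lit 0) (nat_lit 41439263936) (nat_lit 168) (nat_lit 210401147540) (nat_lit 17) (nat_lit 1) (nat_lit 16) (nat_lit 1) (nat_lit 18) (nat_lit 1) (nat_lit 243) (nat_lit 442) (nat_lit 395)) (XT.lf (nat_lit 0) (nat_lit 38152390092) (nat_lit 0) (nat_lit 298603570523) (nat_lit 168) (nat_lit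 184980981917) (nat_lit 15) (nat_lit 3) (nat_lit 15) (nat_lit 1) (nat_lit 17) (nat_lit 1) (nat_lit 244) (nat_lit 442) (nat_lit 394)))) (XT.nd (nat_lit 188) (nat_lit 420) (nat_lit 0) (XT.nd (nat_lit 94) (nat_lit 84) (nat_lit 0) (XT.lf (nat_lit 84) (nat_lit 308472961377) (nat_lit 0) (nat_lit 39438616960) (nat_lit 168) (nat_lit 160309335630) (nat_lit 14) (nat_lit 1) (nat_lit 13) (nat_lit 1) (nat_lit 15) (nat_lit 1) (nat_lit 245) (nat_lit 442) (nat_lit 393)) (XT.lf (nat_lit 0) (nat_lit 72885179711) (nat_lit 0) (nat_lit 285546996642) (nat_lit 168) (nat_lit 136632671362) (nat_lit 12) (nat_lit 3) (nat_lit 12) (nat_lit 1) (nat_lit 14) (nat_lit 1) (nat_lit 246) (nat_lit 442) (nat_lit 392))) (XT.nd (nat_lit 94) (nat_lit 252) (nat_lit 0) (XT.lf (nat_lit 84) (nat_lit 328269370857) (nat_lit 0) (nat_lit 40840783284) (nat_lit 168) (nat_lit 113185484016) (nat_lit 11) (nat_lit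 1) (nat_lit 10) (nat_lit 1) (nat_lit 12) (nat_lit 1) (nat_lit 247) (nat_lit 442) (nat_lit 391)) (XT.nd (nat_lit 94) (nat_lit 168) (nat_lit 0) (XT.lf (nat_lit 0) (nat_lit 102468451358) (nat_lit 0) (nat_lit 276109623978) (nat_lit 168) (nat_lit 91259556097) (nat_lit 9) (nat_lit 3) (nat_lit 9) (nat_lit 1) (nat_lit 11) (nat_lit 1) (nat_lit 248) (nat_lit 442) (nat_lit 390)) (XT.lf (nat_lit 84) (nat_lit 343917041659) (nat_lit 0) (nat_lit 44695907882) (nat_lit 168) (nat_lit 69152252376) (nat_lit 8) (nat_lit 1) (nat_lit 7) (nat_lit 1) (nat_lit 9) (nat_lit 1) (nat_lit 249) (nat_lit 442) (nat_lit 389)))))) (XT.nd (nat_lit 470) (nat_lit 0) (nat_lit 0) (XT.nd (nat_lit 188) (nat_lit 336) (nat_lit 0) (XT.nd (nat_lit 94) (nat_lit 168) (nat_lit 0) (XT.lf (nat_lit 0) (nat_lit 127612912559) (nat_lit 0) (nat_lit 269393215501) (nat_lit 168) (nat_lit 48957087265) (nat_lit 6) (nat_lit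 3) (nat_lit 6) (nat_lit 1) (nat_lit 8) (nat_lit 1) (nat_lit 250) (nat_lit 442) (nat_lit 388)) (XT.lf (nat_lit 84) (nat_lit 356030787578) (nat_lit 0) (nat_lit 50253832650) (nat_lit 168) (nat_lit 28257701345) (nat_lit 5) (nat_lit 1) (nat_lit 4) (nat_lit 1) (nat_lit 6) (nat_lit 1) (nat_lit 251) (nat_lit 442) (nat_lit 387))) (XT.nd (nat_lit 94) (nat_lit 252) (nat_lit 0) (XT.lf (nat_lit 0) (nat_lit 148919652381) (nat_lit 0) (nat_lit 264685135873) (nat_lit 168) (nat_lit 9752906224) (nat_lit 3) (nat_lit 3) (nat_lit 3) (nat_lit 1) (nat_lit 5) (nat_lit 1) (nat_lit 252) (nat_lit 442) (nat_lit 386)) (XT.nd (nat_lit 94) (nat_lit 0) (nat_lit 0) (XT.lf (nat_lit 0) (nat_lit 598435610891) (nat_lit 0) (nat_lit 0) (nat_lit 0) (nat_lit 0) (nat_lit 0) (nat_lit 0) (nat_lit 1) (nat_lit 0) (nat_lit 1) (nat_lit 0) (nat_lit 253) (nat_lit 442) (nat_lit 385)) (XT.lf (nat_lit 0) (nat_lit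 597890907614) (nat_lit 0) (nat_lit 0) (nat_lit 0) (nat_lit 0) (nat_lit 0) (nat_lit 0) (nat_lit 1) (nat_lit 0) (nat_lit 1) (nat_lit 0) (nat_lit 254) (nat_lit 442) (nat_lit 384))))) (XT.nd (nat_lit 188) (nat_lit 0) (nat_lit 0) (XT.nd (nat_lit 94) (nat_lit 0) (nat_lit 0) (XT.lf (nat_lit 0) (nat_lit 597386552727) (nat_lit 0) (nat_lit 0) (nat_lit 0) (nat_lit 0) (nat_lit 0) (nat_lit 0) (nat_lit 1) (nat_lit 0) (nat_lit 1) (nat_lit 0) (nat_lit 255) (nat_lit 442) (nat_lit 383)) (XT.lf (nat_lit 0) (nat_lit 596919557461) (nat_lit 0) (nat_lit 0) (nat_lit 0) (nat_lit 0) (nat_lit 0) (nat_lit 0) (nat_lit 1) (nat_lit 0) (nat_lit 1) (nat_lit 0) (nat_lit 256) (nat_lit 442) (nat_lit 382))) (XT.nd (nat_lit 94) (nat_lit 0) (nat_lit 0) (XT.lf (nat_lit 0) (nat_lit 596487154438) (nat_lit 0) (nat_lit 0) (nat_lit 0) (nat_lit 0) (nat_lit 0) (nat_lit 0) (nat_lit 1) (nat_lit 0) (nat_lit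 1) (nat_lit 0) (nat_lit 257) (nat_lit 442) (nat_lit 381)) (XT.nd (nat_lit 94) (nat_lit 0) (nat_lit 0) (XT.lf (nat_lit 0) (nat_lit 596086781268) (nat_lit 0) (nat_lit 0) (nat_lit 0) (nat_lit 0) (nat_lit 0) (nat_lit 0) (nat_lit 1) (nat_lit 0) (nat_lit 1) (nat_lit 0) (nat_lit 258) (nat_lit 442) (nat_lit 380)) (XT.lf (nat_lit 0) (nat_lit 595716065369) (nat_lit 0) (nat_lit 0) (nat_lit 0) (nat_lit 0) (nat_lit 0) (nat_lit 0) (nat_lit 1) (nat_lit 0) (nat_lit 1) (nat_lit 0) (nat_lit 259) (nat_lit 442) (nat_lit 379))))))))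
noncomputable def ec381 : XT := (XT.nd (nat_lit 1786) (nat_lit 0) (nat_lit 0) (XT.nd (nat_lit 846) (nat_lit 0) (nat_lit 0) (XT.nd (nat_lit 376) (nat_lit 0) (nat_lit 0) (XT.nd (nat_lit 188) (nat_lit 0) (nat_lit 0) (XT.nd (nat_lit 94) (nat_lit 0) (nat_lit 0) (XT.lf (nat_lit 0) (nat_lit 595372809908) (nat_lit 0) (nat_lit 0) (nat_lit 0) (nat_lit 0) (nat_lit 0) (nat_lit 0) (nat_lit 1) (nat_lit 0) (nat_lit 1) (nat_lit 0) (nat_lit 260) (nat_lit 442) (nat_lit 378)) (XT.lf (nat_lit 0) (nat_lit 595054980777) (nat_lit 0) (nat_lit 0) (nat_lit 0) (nat_lit 0) (nat_lit 0) (nat_lit 0) (nat_lit 1) (nat_lit 0) (nat_lit 1) (nat_lit 0) (nat_lit 261) (nat_lit 442) (nat_lit 377))) (XT.nd (nat_lit 94) (nat_lit 0) (nat_lit 0) (XT.lf (nat_lit 0) (nat_lit 594760694545) (nat_lit 0) (nat_lit 0) (nat_lit 0) (nat_lit 0) (nat_lit 0) (nat_lit 0) (nat_lit 1) (nat_lit 0) (nat_lit 1) (nat_lit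 0) (nat_lit 262) (nat_lit 442) (nat_lit 376)) (XT.lf (nat_lit 0) (nat_lit 594488207293) (nat_lit 0) (nat_lit 0) (nat_lit 0) (nat_lit 0) (nat_lit 0) (nat_lit 0) (nat_lit 1) (nat_lit 0) (nat_lit 1) (nat_lit 0) (nat_lit 263) (nat_lit 442) (nat_lit 375)))) (XT.nd (nat_lit 188) (nat_lit 0) (nat_lit 0) (XT.nd (nat_lit 94) (nat_lit 0) (nat_lit 0) (XT.lf (nat_lit 0) (nat_lit 594235904282) (nat_lit 0) (nat_lit 0) (nat_lit 0) (nat_lit 0) (nat_lit 0) (nat_lit 0) (nat_lit 1) (nat_lit 0) (nat_lit 1) (nat_lit 0) (nat_lit 264) (nat_lit 442) (nat_lit 374)) (XT.lf (nat_lit 0) (nat_lit 594002290383) (nat_lit 0) (nat_lit 0) (nat_lit 0) (nat_lit 0) (nat_lit 0) (nat_lit 0) (nat_lit 1) (nat_lit 0) (nat_lit 1) (nat_lit 0) (nat_lit 265) (nat_lit 442) (nat_lit 373))) (XT.nd (nat_lit 94) (nat_lit 0) (nat_lit 0) (XT.lf (nat_lit 0) (nat_lit 593785981217) (nat_lit 0) (nat_lit 0) (nat_lit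 0) (nat_lit 0) (nat_lit 0) (nat_lit 0) (nat_lit 1) (nat_lit 0) (nat_lit 1) (nat_lit 0) (nat_lit 266) (nat_lit 442) (nat_lit 372)) (XT.nd (nat_lit 94) (nat_lit 0) (nat_lit 0) (XT.lf (nat_lit 0) (nat_lit 593585694952) (nat_lit 0) (nat_lit 0) (nat_lit 0) (nat_lit 0) (nat_lit 0) (nat_lit 0) (nat_lit 1) (nat_lit 0) (nat_lit 1) (nat_lit 0) (nat_lit 267) (nat_lit 442) (nat_lit 371)) (XT.lf (nat_lit 0) (nat_lit 593400244707) (nat_lit 0) (nat_lit 0) (nat_lit 0) (nat_lit 0) (nat_lit 0) (nat_lit 0) (nat_lit 1) (nat_lit 0) (nat_lit 1) (nat_lit 0) (nat_lit 268) (nat_lit 442) (nat_lit 370)))))) (XT.nd (nat_lit 470) (nat_lit 0) (nat_lit 0) (XT.nd (nat_lit 188) (nat_lit 0) (nat_lit 0) (XT.nd (nat_lit 94) (nat_lit 0) (nat_lit 0) (XT.lf (nat_lit 0) (nat_lit 593228531517) (nat_lit 0) (nat_lit 0) (nat_lit 0) (nat_lit 0) (nat_lit 0) (nat_lit 0) (nat_lit 1) (nat_lit 0) (nat_lit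 1) (nat_lit 0) (nat_lit 269) (nat_lit 442) (nat_lit 369)) (XT.lf (nat_lit 0) (nat_lit 593069537823) (nat_lit 0) (nat_lit 0) (nat_lit 0) (nat_lit 0) (nat_lit 0) (nat_lit 0) (nat_lit 1) (nat_lit 0) (nat_lit 1) (nat_lit 0) (nat_lit 270) (nat_lit 442) (nat_lit 368))) (XT.nd (nat_lit 94) (nat_lit 0) (nat_lit 0) (XT.lf (nat_lit 0) (nat_lit 592922321439) (nat_lit 0) (nat_lit 0) (nat_lit 0) (nat_lit 0) (nat_lit 0) (nat_lit 0) (nat_lit 1) (nat_lit 0) (nat_lit 1) (nat_lit 0) (nat_lit 271) (nat_lit 442) (nat_lit 367)) (XT.nd (nat_lit 94) (nat_lit 0) (nat_lit 0) (XT.lf (nat_lit 0) (nat_lit 592786009972) (nat_lit 0) (nat_lit 0) (nat_lit 0) (nat_lit 0) (nat_lit 0) (nat_lit 0) (nat_lit 1) (nat_lit 0) (nat_lit 1) (nat_lit 0) (nat_lit 272) (nat_lit 442) (nat_lit 366)) (XT.lf (nat_lit 0) (nat_lit 592659795652) (nat_lit 0) (nat_lit 0) (nat_lit 0) (nat_lit 0) (nat_lit 0) (nat_lit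 0) (nat_lit 1) (nat_lit 0) (nat_lit 1) (nat_lit 0) (nat_lit 273) (nat_lit 442) (nat_lit 365))))) (XT.nd (nat_lit 188) (nat_lit 0) (nat_lit 0) (XT.nd (nat_lit 94) (nat_lit 0) (nat_lit 0) (XT.lf (nat_lit 0) (nat_lit 592542930540) (nat_lit 0) (nat_lit 0) (nat_lit 0) (nat_lit 0) (nat_lit 0) (nat_lit 0) (nat_lit 1) (nat_lit 0) (nat_lit 1) (nat_lit 0) (nat_lit 274) (nat_lit 442) (nat_lit 364)) (XT.lf (nat_lit 0) (nat_lit 592434722103) (nat_lit 0) (nat_lit 0) (nat_lit 0) (nat_lit 0) (nat_lit 0) (nat_lit 0) (nat_lit 1) (nat_lit 0) (nat_lit 1) (nat_lit 0) (nat_lit 275) (nat_lit 442) (nat_lit 363))) (XT.nd (nat_lit 94) (nat_lit 0) (nat_lit 0) (XT.lf (nat_lit 0) (nat_lit 592334529106) (nat_lit 0) (nat_lit 0) (nat_lit 0) (nat_lit 0) (nat_lit 0) (nat_lit 0) (nat_lit 1) (nat_lit 0) (nat_lit 1) (nat_lit 0) (nat_lit 276) (nat_lit 442) (nat_lit 362)) (XT.nd (nat_lit 94) (nat_lit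 0) (nat_lit 0) (XT.lf (nat_lit 0) (nat_lit 592241757812) (nat_lit 0) (nat_lit 0) (nat_lit 0) (nat_lit 0) (nat_lit 0) (nat_lit 0) (nat_lit 1) (nat_lit 0) (nat_lit 1) (nat_lit 0) (nat_lit 277) (nat_lit 442) (nat_lit 361)) (XT.lf (nat_lit 0) (nat_lit 592155858466) (nat_lit 0) (nat_lit 0) (nat_lit 0) (nat_lit 0) (nat_lit 0) (nat_lit 0) (nat_lit 1) (nat_lit 0) (nat_lit 1) (nat_lit 0) (nat_lit 278) (nat_lit 442) (nat_lit 360))))))) (XT.nd (nat_lit 846) (nat_lit 0) (nat_lit 0) (XT.nd (nat_lit 376) (nat_lit 0) (nat_lit 0) (XT.nd (nat_lit 188) (nat_lit 0) (nat_lit 0) (XT.nd (nat_lit 94) (nat_lit 0) (nat_lit 0) (XT.lf (nat_lit 0) (nat_lit 592076322035) (nat_lit 0) (nat_lit 0) (nat_lit 0) (nat_lit 0) (nat_lit 0) (nat_lit 0) (nat_lit 1) (nat_lit 0) (nat_lit 1) (nat_lit 0) (nat_lit 279) (nat_lit 442) (nat_lit 359)) (XT.lf (nat_lit 0) (nat_lit 592002677191) (nat_lit 0)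 (nat_lit 0) (nat_lit 0) (nat_lit 0) (nat_lit 0) (nat_lit 0) (nat_lit 1) (nat_lit 0) (nat_lit 1) (nat_lit 0) (nat_lit 280) (nat_lit 442) (nat_lit 358))) (XT.nd (nat_lit 94) (nat_lit 0) (nat_lit 0) (XT.lf (nat_lit 0) (nat_lit 591934487521) (nat_lit 0) (nat_lit 0) (nat_lit 0) (nat_lit 0) (nat_lit 0) (nat_lit 0) (nat_lit 1) (nat_lit 0) (nat_lit 1) (nat_lit 0) (nat_lit 281) (nat_lit 442) (nat_lit 357)) (XT.lf (nat_lit 0) (nat_lit 591871348937) (nat_lit 0) (nat_lit 0) (nat_lit 0) (nat_lit 0) (nat_lit 0) (nat_lit 0) (nat_lit 1) (nat_lit 0) (nat_lit 1) (nat_lit 0) (nat_lit 282) (nat_lit 442) (nat_lit 356)))) (XT.nd (nat_lit 188) (nat_lit 0) (nat_lit 0) (XT.nd (nat_lit 94) (nat_lit 0) (nat_lit 0) (XT.lf (nat_lit 0) (nat_lit 591812887286) (nat_lit 0) (nat_lit 0) (nat_lit 0) (nat_lit 0) (nat_lit 0) (nat_lit 0) (nat_lit 1) (nat_lit 0) (nat_lit 1) (nat_lit 0) (nat_lit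 283) (nat_lit 442) (nat_lit 355)) (XT.lf (nat_lit 0) (nat_lit 591758756127) (nat_lit 0) (nat_lit 0) (nat_lit 0) (nat_lit 0) (nat_lit 0) (nat_lit 0) (nat_lit 1) (nat_lit 0) (nat_lit 1) (nat_lit 0) (nat_lit 284) (nat_lit 442) (nat_lit 354))) (XT.nd (nat_lit 94) (nat_lit 0) (nat_lit 0) (XT.lf (nat_lit 0) (nat_lit 591708634684) (nat_lit 0) (nat_lit 0) (nat_lit 0) (nat_lit 0) (nat_lit 0) (nat_lit 0) (nat_lit 1) (nat_lit 0) (nat_lit 1) (nat_lit 0) (nat_lit 285) (nat_lit 442) (nat_lit 353)) (XT.nd (nat_lit 94) (nat_lit 0) (nat_lit 0) (XT.lf (nat_lit 0) (nat_lit 591662225940) (nat_lit 0) (nat_lit 0) (nat_lit 0) (nat_lit 0) (nat_lit 0) (nat_lit 0) (nat_lit 1) (nat_lit 0) (nat_lit 1) (nat_lit 0) (nat_lit 286) (nat_lit 442) (nat_lit 352)) (XT.lf (nat_lit 0) (nat_lit 591619254881) (nat_lit 0) (nat_lit 0) (nat_lit 0) (nat_lit 0) (nat_lit 0) (nat_lit 0) (nat_lit 1) (nat_lit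 0) (nat_lit 1) (nat_lit 0) (nat_lit 287) (nat_lit 442) (nat_lit 351)))))) (XT.nd (nat_lit 470) (nat_lit 0) (nat_lit 0) (XT.nd (nat_lit 188) (nat_lit 0) (nat_lit 0) (XT.nd (nat_lit 94) (nat_lit 0) (nat_lit 0) (XT.lf (nat_lit 0) (nat_lit 591579466863) (nat_lit 0) (nat_lit 0) (nat_lit 0) (nat_lit 0) (nat_lit 0) (nat_lit 0) (nat_lit 1) (nat_lit 0) (nat_lit 1) (nat_lit 0) (nat_lit 288) (nat_lit 442) (nat_lit 350)) (XT.lf (nat_lit 0) (nat_lit 591542626106) (nat_lit 0) (nat_lit 0) (nat_lit 0) (nat_lit 0) (nat_lit 0) (nat_lit 0) (nat_lit 1) (nat_lit 0) (nat_lit 1) (nat_lit 0) (nat_lit 289) (nat_lit 442) (nat_lit 349))) (XT.nd (nat_lit 94) (nat_lit 0) (nat_lit 0) (XT.lf (nat_lit 0) (nat_lit 591508514294) (nat_lit 0) (nat_lit 0) (nat_lit 0) (nat_lit 0) (nat_lit 0) (nat_lit 0) (nat_lit 1) (nat_lit 0) (nat_lit 1) (nat_lit 0) (nat_lit 290) (nat_lit 442) (nat_lit 348))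 (XT.nd (nat_lit 94) (nat_lit 0) (nat_lit 0) (XT.lf (nat_lit 0) (nat_lit 591476929283) (nat_lit 0) (nat_lit 0) (nat_lit 0) (nat_lit 0) (nat_lit 0) (nat_lit 0) (nat_lit 1) (nat_lit 0) (nat_lit 1) (nat_lit 0) (nat_lit 291) (nat_lit 442) (nat_lit 347)) (XT.lf (nat_lit 0) (nat_lit 591447683902) (nat_lit 0) (nat_lit 0) (nat_lit 0) (nat_lit 0) (nat_lit 0) (nat_lit 0) (nat_lit 1) (nat_lit 0) (nat_lit 1) (nat_lit 0) (nat_lit 292) (nat_lit 442) (nat_lit 346))))) (XT.nd (nat_lit 188) (nat_lit 0) (nat_lit 0) (XT.nd (nat_lit 94) (nat_lit 0) (nat_lit 0) (XT.lf (nat_lit 0) (nat_lit 591420604846) (nat_lit 0) (nat_lit 0) (nat_lit 0) (nat_lit 0) (nat_lit 0) (nat_lit 0) (nat_lit 1) (nat_lit 0) (nat_lit 1) (nat_lit 0) (nat_lit 293) (nat_lit 442) (nat_lit 345)) (XT.lf (nat_lit 0) (nat_lit 591395531646) (nat_lit 0) (nat_lit 0) (nat_lit 0) (nat_lit 0) (nat_lit 0) (nat_lit 0) (nat_lit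 1) (nat_lit 0) (nat_lit 1) (nat_lit 0) (nat_lit 294) (nat_lit 442) (nat_lit 344))) (XT.nd (nat_lit 94) (nat_lit 0) (nat_lit 0) (XT.lf (nat_lit 0) (nat_lit 591372315719) (nat_lit 0) (nat_lit 0) (nat_lit 0) (nat_lit 0) (nat_lit 0) (nat_lit 0) (nat_lit 1) (nat_lit 0) (nat_lit 1) (nat_lit 0) (nat_lit 295) (nat_lit 442) (nat_lit 343)) (XT.nd (nat_lit 94) (nat_lit 0) (nat_lit 0) (XT.lf (nat_lit 0) (nat_lit 591350819491) (nat_lit 0) (nat_lit 0) (nat_lit 0) (nat_lit 0) (nat_lit 0) (nat_lit 0) (nat_lit 1) (nat_lit 0) (nat_lit 1) (nat_lit 0) (nat_lit 296) (nat_lit 442) (nat_lit 342)) (XT.lf (nat_lit 0) (nat_lit 591330915577) (nat_lit 0) (nat_lit 0) (nat_lit 0) (nat_lit 0) (nat_lit 0) (nat_lit 0) (nat_lit 1) (nat_lit 0) (nat_lit 1) (nat_lit 0) (nat_lit 297) (nat_lit 442) (nat_lit 341))))))))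
noncomputable def ec382 : XT := (XT.nd (nat_lit 1786) (nat_lit 0) (nat_lit 0) (XT.nd (nat_lit 846) (nat_lit 0) (nat_lit 0) (XT.nd (nat_lit 376) (nat_lit 0) (nat_lit 0) (XT.nd (nat_lit 188) (nat_lit 0) (nat_lit 0) (XT.nd (nat_lit 94) (nat_lit 0) (nat_lit 0) (XT.lf (nat_lit 0) (nat_lit 591312486026) (nat_lit 0) (nat_lit 0) (nat_lit 0) (nat_lit 0) (nat_lit 0) (nat_lit 0) (nat_lit 1) (nat_lit 0) (nat_lit 1) (nat_lit 0) (nat_lit 298) (nat_lit 442) (nat_lit 340)) (XT.lf (nat_lit 0) (nat_lit 591295421627) (nat_lit 0) (nat_lit 0) (nat_lit 0) (nat_lit 0) (nat_lit 0) (nat_lit 0) (nat_lit 1) (nat_lit 0) (nat_lit 1) (nat_lit 0) (nat_lit 299) (nat_lit 442) (nat_lit 339))) (XT.nd (nat_lit 94) (nat_lit 0) (nat_lit 0) (XT.lf (nat_lit 0) (nat_lit 591279621258) (nat_lit 0) (nat_lit 0) (nat_lit 0) (nat_lit 0) (nat_lit 0) (nat_lit 0) (nat_lit 1) (nat_lit 0) (nat_lit 1) (nat_lit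 0) (nat_lit 300) (nat_lit 442) (nat_lit 338)) (XT.lf (nat_lit 0) (nat_lit 591264991286) (nat_lit 0) (nat_lit 0) (nat_lit 0) (nat_lit 0) (nat_lit 0) (nat_lit 0) (nat_lit 1) (nat_lit 0) (nat_lit 1) (nat_lit 0) (nat_lit 301) (nat_lit 442) (nat_lit 337)))) (XT.nd (nat_lit 188) (nat_lit 0) (nat_lit 0) (XT.nd (nat_lit 94) (nat_lit 0) (nat_lit 0) (XT.lf (nat_lit 0) (nat_lit 591251445017) (nat_lit 0) (nat_lit 0) (nat_lit 0) (nat_lit 0) (nat_lit 0) (nat_lit 0) (nat_lit 1) (nat_lit 0) (nat_lit 1) (nat_lit 0) (nat_lit 302) (nat_lit 442) (nat_lit 336)) (XT.lf (nat_lit 0) (nat_lit 591238902174) (nat_lit 0) (nat_lit 0) (nat_lit 0) (nat_lit 0) (nat_lit 0) (nat_lit 0) (nat_lit 1) (nat_lit 0) (nat_lit 1) (nat_lit 0) (nat_lit 303) (nat_lit 442) (nat_lit 335))) (XT.nd (nat_lit 94) (nat_lit 0) (nat_lit 0) (XT.lf (nat_lit 0) (nat_lit 591227288431) (nat_lit 0) (nat_lit 0) (nat_lit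 0) (nat_lit 0) (nat_lit 0) (nat_lit 0) (nat_lit 1) (nat_lit 0) (nat_lit 1) (nat_lit 0) (nat_lit 304) (nat_lit 442) (nat_lit 334)) (XT.nd (nat_lit 94) (nat_lit 0) (nat_lit 0) (XT.lf (nat_lit 0) (nat_lit 591216534965) (nat_lit 0) (nat_lit 0) (nat_lit 0) (nat_lit 0) (nat_lit 0) (nat_lit 0) (nat_lit 1) (nat_lit 0) (nat_lit 1) (nat_lit 0) (nat_lit 305) (nat_lit 442) (nat_lit 333)) (XT.lf (nat_lit 0) (nat_lit 591206578052) (nat_lit 0) (nat_lit 0) (nat_lit 0) (nat_lit 0) (nat_lit 0) (nat_lit 0) (nat_lit 1) (nat_lit 0) (nat_lit 1) (nat_lit 0) (nat_lit 306) (nat_lit 442) (nat_lit 332)))))) (XT.nd (nat_lit 470) (nat_lit 0) (nat_lit 0) (XT.nd (nat_lit 188) (nat_lit 0) (nat_lit 0) (XT.nd (nat_lit 94) (nat_lit 0) (nat_lit 0) (XT.lf (nat_lit 0) (nat_lit 591197358689) (nat_lit 0) (nat_lit 0) (nat_lit 0) (nat_lit 0) (nat_lit 0) (nat_lit 0) (nat_lit 1) (nat_lit 0) (nat_lit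 1) (nat_lit 0) (nat_lit 307) (nat_lit 442) (nat_lit 331)) (XT.lf (nat_lit 0) (nat_lit 591188822241) (nat_lit 0) (nat_lit 0) (nat_lit 0) (nat_lit 0) (nat_lit 0) (nat_lit 0) (nat_lit 1) (nat_lit 0) (nat_lit 1) (nat_lit 0) (nat_lit 308) (nat_lit 442) (nat_lit 330))) (XT.nd (nat_lit 94) (nat_lit 0) (nat_lit 0) (XT.lf (nat_lit 0) (nat_lit 591180918122) (nat_lit 0) (nat_lit 0) (nat_lit 0) (nat_lit 0) (nat_lit 0) (nat_lit 0) (nat_lit 1) (nat_lit 0) (nat_lit 1) (nat_lit 0) (nat_lit 309) (nat_lit 442) (nat_lit 329)) (XT.nd (nat_lit 94) (nat_lit 0) (nat_lit 0) (XT.lf (nat_lit 0) (nat_lit 591173599494) (nat_lit 0) (nat_lit 0) (nat_lit 0) (nat_lit 0) (nat_lit 0) (nat_lit 0) (nat_lit 1) (nat_lit 0) (nat_lit 1) (nat_lit 0) (nat_lit 310) (nat_lit 442) (nat_lit 328)) (XT.lf (nat_lit 0) (nat_lit 591166822987) (nat_lit 0) (nat_lit 0) (nat_lit 0) (nat_lit 0) (nat_lit 0) (nat_lit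 0) (nat_lit 1) (nat_lit 0) (nat_lit 1) (nat_lit 0) (nat_lit 311) (nat_lit 442) (nat_lit 327))))) (XT.nd (nat_lit 188) (nat_lit 0) (nat_lit 0) (XT.nd (nat_lit 94) (nat_lit 0) (nat_lit 0) (XT.lf (nat_lit 0) (nat_lit 591160548443) (nat_lit 0) (nat_lit 0) (nat_lit 0) (nat_lit 0) (nat_lit 0) (nat_lit 0) (nat_lit 1) (nat_lit 0) (nat_lit 1) (nat_lit 0) (nat_lit 312) (nat_lit 442) (nat_lit 326)) (XT.lf (nat_lit 0) (nat_lit 591154738680) (nat_lit 0) (nat_lit 0) (nat_lit 0) (nat_lit 0) (nat_lit 0) (nat_lit 0) (nat_lit 1) (nat_lit 0) (nat_lit 1) (nat_lit 0) (nat_lit 313) (nat_lit 442) (nat_lit 325))) (XT.nd (nat_lit 94) (nat_lit 0) (nat_lit 0) (XT.lf (nat_lit 0) (nat_lit 591149359270) (nat_lit 0) (nat_lit 0) (nat_lit 0) (nat_lit 0) (nat_lit 0) (nat_lit 0) (nat_lit 1) (nat_lit 0) (nat_lit 1) (nat_lit 0) (nat_lit 314) (nat_lit 442) (nat_lit 324)) (XT.nd (nat_lit 94) (nat_lit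 0) (nat_lit 0) (XT.lf (nat_lit 0) (nat_lit 591144378334) (nat_lit 0) (nat_lit 0) (nat_lit 0) (nat_lit 0) (nat_lit 0) (nat_lit 0) (nat_lit 1) (nat_lit 0) (nat_lit 1) (nat_lit 0) (nat_lit 315) (nat_lit 442) (nat_lit 323)) (XT.lf (nat_lit 0) (nat_lit 591139766357) (nat_lit 0) (nat_lit 0) (nat_lit 0) (nat_lit 0) (nat_lit 0) (nat_lit 0) (nat_lit 1) (nat_lit 0) (nat_lit 1) (nat_lit 0) (nat_lit 316) (nat_lit 442) (nat_lit 322))))))) (XT.nd (nat_lit 846) (nat_lit 0) (nat_lit 0) (XT.nd (nat_lit 376) (nat_lit 0) (nat_lit 0) (XT.nd (nat_lit 188) (nat_lit 0) (nat_lit 0) (XT.nd (nat_lit 94) (nat_lit 0) (nat_lit 0) (XT.lf (nat_lit 0) (nat_lit 591135496008) (nat_lit 0) (nat_lit 0) (nat_lit 0) (nat_lit 0) (nat_lit 0) (nat_lit 0) (nat_lit 1) (nat_lit 0) (nat_lit 1) (nat_lit 0) (nat_lit 317) (nat_lit 442) (nat_lit 321)) (XT.lf (nat_lit 0) (nat_lit 591131541981) (nat_lit 0)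 (nat_lit 0) (nat_lit 0) (nat_lit 0) (nat_lit 0) (nat_lit 0) (nat_lit 1) (nat_lit 0) (nat_lit 1) (nat_lit 0) (nat_lit 318) (nat_lit 442) (nat_lit 320))) (XT.nd (nat_lit 94) (nat_lit 0) (nat_lit 0) (XT.lf (nat_lit 0) (nat_lit 591127880845) (nat_lit 0) (nat_lit 0) (nat_lit 0) (nat_lit 0) (nat_lit 0) (nat_lit 0) (nat_lit 1) (nat_lit 0) (nat_lit 1) (nat_lit 0) (nat_lit 319) (nat_lit 442) (nat_lit 319)) (XT.lf (nat_lit 0) (nat_lit 591124490904) (nat_lit 0) (nat_lit 0) (nat_lit 0) (nat_lit 0) (nat_lit 0) (nat_lit 0) (nat_lit 1) (nat_lit 0) (nat_lit 1) (nat_lit 0) (nat_lit 320) (nat_lit 442) (nat_lit 318)))) (XT.nd (nat_lit 188) (nat_lit 0) (nat_lit 0) (XT.nd (nat_lit 94) (nat_lit 0) (nat_lit 0) (XT.lf (nat_lit 0) (nat_lit 591121352070) (nat_lit 0) (nat_lit 0) (nat_lit 0) (nat_lit 0) (nat_lit 0) (nat_lit 0) (nat_lit 1) (nat_lit 0) (nat_lit 1) (nat_lit 0) (nat_lit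 321) (nat_lit 442) (nat_lit 317)) (XT.lf (nat_lit 0) (nat_lit 591118445742) (nat_lit 0) (nat_lit 0) (nat_lit 0) (nat_lit 0) (nat_lit 0) (nat_lit 0) (nat_lit 1) (nat_lit 0) (nat_lit 1) (nat_lit 0) (nat_lit 322) (nat_lit 442) (nat_lit 316))) (XT.nd (nat_lit 94) (nat_lit 0) (nat_lit 0) (XT.lf (nat_lit 0) (nat_lit 591115754697) (nat_lit 0) (nat_lit 0) (nat_lit 0) (nat_lit 0) (nat_lit 0) (nat_lit 0) (nat_lit 1) (nat_lit 0) (nat_lit 1) (nat_lit 0) (nat_lit 323) (nat_lit 442) (nat_lit 315)) (XT.nd (nat_lit 94) (nat_lit 0) (nat_lit 0) (XT.lf (nat_lit 0) (nat_lit 591113262989) (nat_lit 0) (nat_lit 0) (nat_lit 0) (nat_lit 0) (nat_lit 0) (nat_lit 0) (nat_lit 1) (nat_lit 0) (nat_lit 1) (nat_lit 0) (nat_lit 324) (nat_lit 442) (nat_lit 314)) (XT.lf (nat_lit 0) (nat_lit 591110955853) (nat_lit 0) (nat_lit 0) (nat_lit 0) (nat_lit 0) (nat_lit 0) (nat_lit 0) (nat_lit 1) (nat_lit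 0) (nat_lit 1) (nat_lit 0) (nat_lit 325) (nat_lit 442) (nat_lit 313)))))) (XT.nd (nat_lit 470) (nat_lit 0) (nat_lit 0) (XT.nd (nat_lit 188) (nat_lit 0) (nat_lit 0) (XT.nd (nat_lit 94) (nat_lit 0) (nat_lit 0) (XT.lf (nat_lit 0) (nat_lit 591108819615) (nat_lit 0) (nat_lit 0) (nat_lit 0) (nat_lit 0) (nat_lit 0) (nat_lit 0) (nat_lit 1) (nat_lit 0) (nat_lit 1) (nat_lit 0) (nat_lit 326) (nat_lit 442) (nat_lit 312)) (XT.lf (nat_lit 0) (nat_lit 591106841617) (nat_lit 0) (nat_lit 0) (nat_lit 0) (nat_lit 0) (nat_lit 0) (nat_lit 0) (nat_lit 1) (nat_lit 0) (nat_lit 1) (nat_lit 0) (nat_lit 327) (nat_lit 442) (nat_lit 311))) (XT.nd (nat_lit 94) (nat_lit 0) (nat_lit 0) (XT.lf (nat_lit 0) (nat_lit 591105010137) (nat_lit 0) (nat_lit 0) (nat_lit 0) (nat_lit 0) (nat_lit 0) (nat_lit 0) (nat_lit 1) (nat_lit 0) (nat_lit 1) (nat_lit 0) (nat_lit 328) (nat_lit 442) (nat_lit 310))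 (XT.nd (nat_lit 94) (nat_lit 0) (nat_lit 0) (XT.lf (nat_lit 0) (nat_lit 591103314323) (nat_lit 0) (nat_lit 0) (nat_lit 0) (nat_lit 0) (nat_lit 0) (nat_lit 0) (nat_lit 1) (nat_lit 0) (nat_lit 1) (nat_lit 0) (nat_lit 329) (nat_lit 442) (nat_lit 309)) (XT.lf (nat_lit 0) (nat_lit 591101744124) (nat_lit 0) (nat_lit 0) (nat_lit 0) (nat_lit 0) (nat_lit 0) (nat_lit 0) (nat_lit 1) (nat_lit 0) (nat_lit 1) (nat_lit 0) (nat_lit 330) (nat_lit 442) (nat_lit 308))))) (XT.nd (nat_lit 188) (nat_lit 0) (nat_lit 0) (XT.nd (nat_lit 94) (nat_lit 0) (nat_lit 0) (XT.lf (nat_lit 0) (nat_lit 591100290237) (nat_lit 0) (nat_lit 0) (nat_lit 0) (nat_lit 0) (nat_lit 0) (nat_lit 0) (nat_lit 1) (nat_lit 0) (nat_lit 1) (nat_lit 0) (nat_lit 331) (nat_lit 442) (nat_lit 307)) (XT.lf (nat_lit 0) (nat_lit 591098944045) (nat_lit 0) (nat_lit 0) (nat_lit 0) (nat_lit 0) (nat_lit 0) (nat_lit 0) (nat_lit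 1) (nat_lit 0) (nat_lit 1) (nat_lit 0) (nat_lit 332) (nat_lit 442) (nat_lit 306))) (XT.nd (nat_lit 94) (nat_lit 0) (nat_lit 0) (XT.lf (nat_lit 0) (nat_lit 591097697570) (nat_lit 0) (nat_lit 0) (nat_lit 0) (nat_lit 0) (nat_lit 0) (nat_lit 0) (nat_lit 1) (nat_lit 0) (nat_lit 1) (nat_lit 0) (nat_lit 333) (nat_lit 442) (nat_lit 305)) (XT.nd (nat_lit 94) (nat_lit 0) (nat_lit 0) (XT.lf (nat_lit 0) (nat_lit 591096543428) (nat_lit 0) (nat_lit 0) (nat_lit 0) (nat_lit 0) (nat_lit 0) (nat_lit 0) (nat_lit 1) (nat_lit 0) (nat_lit 1) (nat_lit 0) (nat_lit 334) (nat_lit 442) (nat_lit 304)) (XT.lf (nat_lit 0) (nat_lit 591095474777) (nat_lit 0) (nat_lit 0) (nat_lit 0) (nat_lit 0) (nat_lit 0) (nat_lit 0) (nat_lit 1) (nat_lit 0) (nat_lit 1) (nat_lit 0) (nat_lit 335) (nat_lit 442) (nat_lit 303))))))))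
noncomputable def ec383 : XT := (XT.nd (nat_lit 1786) (nat_lit 0) (nat_lit 0) (XT.nd (nat_lit 846) (nat_lit 0) (nat_lit 0) (XT.nd (nat_lit 376) (nat_lit 0) (nat_lit 0) (XT.nd (nat_lit 188) (nat_lit 0) (nat_lit 0) (XT.nd (nat_lit 94) (nat_lit 0) (nat_lit 0) (XT.lf (nat_lit 0) (nat_lit 591094485285) (nat_lit 0) (nat_lit 0) (nat_lit 0) (nat_lit 0) (nat_lit 0) (nat_lit 0) (nat_lit 1) (nat_lit 0) (nat_lit 1) (nat_lit 0) (nat_lit 336) (nat_lit 442) (nat_lit 302)) (XT.lf (nat_lit 0) (nat_lit 591093569090) (nat_lit 0) (nat_lit 0) (nat_lit 0) (nat_lit 0) (nat_lit 0) (nat_lit 0) (nat_lit 1) (nat_lit 0) (nat_lit 1) (nat_lit 0) (nat_lit 337) (nat_lit 442) (nat_lit 301))) (XT.nd (nat_lit 94) (nat_lit 0) (nat_lit 0) (XT.lf (nat_lit 0) (nat_lit 591092720760) (nat_lit 0) (nat_lit 0) (nat_lit 0) (nat_lit 0) (nat_lit 0) (nat_lit 0) (nat_lit 1) (nat_lit 0) (nat_lit 1) (nat_lit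 0) (nat_lit 338) (nat_lit 442) (nat_lit 300)) (XT.lf (nat_lit 0) (nat_lit 591091935270) (nat_lit 0) (nat_lit 0) (nat_lit 0) (nat_lit 0) (nat_lit 0) (nat_lit 0) (nat_lit 1) (nat_lit 0) (nat_lit 1) (nat_lit 0) (nat_lit 339) (nat_lit 442) (nat_lit 299)))) (XT.nd (nat_lit 188) (nat_lit 0) (nat_lit 0) (XT.nd (nat_lit 94) (nat_lit 0) (nat_lit 0) (XT.lf (nat_lit 0) (nat_lit 591091207964) (nat_lit 0) (nat_lit 0) (nat_lit 0) (nat_lit 0) (nat_lit 0) (nat_lit 0) (nat_lit 1) (nat_lit 0) (nat_lit 1) (nat_lit 0) (nat_lit 340) (nat_lit 442) (nat_lit 298)) (XT.lf (nat_lit 0) (nat_lit 591090534533) (nat_lit 0) (nat_lit 0) (nat_lit 0) (nat_lit 0) (nat_lit 0) (nat_lit 0) (nat_lit 1) (nat_lit 0) (nat_lit 1) (nat_lit 0) (nat_lit 341) (nat_lit 442) (nat_lit 297))) (XT.nd (nat_lit 94) (nat_lit 0) (nat_lit 0) (XT.lf (nat_lit 0) (nat_lit 591089910986) (nat_lit 0) (nat_lit 0) (nat_lit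 0) (nat_lit 0) (nat_lit 0) (nat_lit 0) (nat_lit 1) (nat_lit 0) (nat_lit 1) (nat_lit 0) (nat_lit 342) (nat_lit 442) (nat_lit 296)) (XT.nd (nat_lit 94) (nat_lit 0) (nat_lit 0) (XT.lf (nat_lit 0) (nat_lit 591089333627) (nat_lit 0) (nat_lit 0) (nat_lit 0) (nat_lit 0) (nat_lit 0) (nat_lit 0) (nat_lit 1) (nat_lit 0) (nat_lit 1) (nat_lit 0) (nat_lit 343) (nat_lit 442) (nat_lit 295)) (XT.lf (nat_lit 0) (nat_lit 591088799035) (nat_lit 0) (nat_lit 0) (nat_lit 0) (nat_lit 0) (nat_lit 0) (nat_lit 0) (nat_lit 1) (nat_lit 0) (nat_lit 1) (nat_lit 0) (nat_lit 344) (nat_lit 442) (nat_lit 294)))))) (XT.nd (nat_lit 470) (nat_lit 0) (nat_lit 0) (XT.nd (nat_lit 188) (nat_lit 0) (nat_lit 0) (XT.nd (nat_lit 94) (nat_lit 0) (nat_lit 0) (XT.lf (nat_lit 0) (nat_lit 591088304043) (nat_lit 0) (nat_lit 0) (nat_lit 0) (nat_lit 0) (nat_lit 0) (nat_lit 0) (nat_lit 1) (nat_lit 0) (nat_lit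 1) (nat_lit 0) (nat_lit 345) (nat_lit 442) (nat_lit 293)) (XT.lf (nat_lit 0) (nat_lit 591087845717) (nat_lit 0) (nat_lit 0) (nat_lit 0) (nat_lit 0) (nat_lit 0) (nat_lit 0) (nat_lit 1) (nat_lit 0) (nat_lit 1) (nat_lit 0) (nat_lit 346) (nat_lit 442) (nat_lit 292))) (XT.nd (nat_lit 94) (nat_lit 0) (nat_lit 0) (XT.lf (nat_lit 0) (nat_lit 591087421341) (nat_lit 0) (nat_lit 0) (nat_lit 0) (nat_lit 0) (nat_lit 0) (nat_lit 0) (nat_lit 1) (nat_lit 0) (nat_lit 1) (nat_lit 0) (nat_lit 347) (nat_lit 442) (nat_lit 291)) (XT.nd (nat_lit 94) (nat_lit 0) (nat_lit 0) (XT.lf (nat_lit 0) (nat_lit 591087028401) (nat_lit 0) (nat_lit 0) (nat_lit 0) (nat_lit 0) (nat_lit 0) (nat_lit 0) (nat_lit 1) (nat_lit 0) (nat_lit 1) (nat_lit 0) (nat_lit 348) (nat_lit 442) (nat_lit 290)) (XT.lf (nat_lit 0) (nat_lit 591086664567) (nat_lit 0) (nat_lit 0) (nat_lit 0) (nat_lit 0) (nat_lit 0) (nat_lit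 0) (nat_lit 1) (nat_lit 0) (nat_lit 1) (nat_lit 0) (nat_lit 349) (nat_lit 442) (nat_lit 289))))) (XT.nd (nat_lit 188) (nat_lit 0) (nat_lit 0) (XT.nd (nat_lit 94) (nat_lit 0) (nat_lit 0) (XT.lf (nat_lit 0) (nat_lit 591086327684) (nat_lit 0) (nat_lit 0) (nat_lit 0) (nat_lit 0) (nat_lit 0) (nat_lit 0) (nat_lit 1) (nat_lit 0) (nat_lit 1) (nat_lit 0) (nat_lit 350) (nat_lit 442) (nat_lit 288)) (XT.lf (nat_lit 0) (nat_lit 591086015755) (nat_lit 0) (nat_lit 0) (nat_lit 0) (nat_lit 0) (nat_lit 0) (nat_lit 0) (nat_lit 1) (nat_lit 0) (nat_lit 1) (nat_lit 0) (nat_lit 351) (nat_lit 442) (nat_lit 287))) (XT.nd (nat_lit 94) (nat_lit 0) (nat_lit 0) (XT.lf (nat_lit 0) (nat_lit 591085726931) (nat_lit 0) (nat_lit 0) (nat_lit 0) (nat_lit 0) (nat_lit 0) (nat_lit 0) (nat_lit 1) (nat_lit 0) (nat_lit 1) (nat_lit 0) (nat_lit 352) (nat_lit 442) (nat_lit 286)) (XT.nd (nat_lit 94) (nat_lit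 0) (nat_lit 0) (XT.lf (nat_lit 0) (nat_lit 591085459503) (nat_lit 0) (nat_lit 0) (nat_lit 0) (nat_lit 0) (nat_lit 0) (nat_lit 0) (nat_lit 1) (nat_lit 0) (nat_lit 1) (nat_lit 0) (nat_lit 353) (nat_lit 442) (nat_lit 285)) (XT.lf (nat_lit 0) (nat_lit 591085211883) (nat_lit 0) (nat_lit 0) (nat_lit 0) (nat_lit 0) (nat_lit 0) (nat_lit 0) (nat_lit 1) (nat_lit 0) (nat_lit 1) (nat_lit 0) (nat_lit 354) (nat_lit 442) (nat_lit 284))))))) (XT.nd (nat_lit 846) (nat_lit 0) (nat_lit 0) (XT.nd (nat_lit 376) (nat_lit 0) (nat_lit 0) (XT.nd (nat_lit 188) (nat_lit 0) (nat_lit 0) (XT.nd (nat_lit 94) (nat_lit 0) (nat_lit 0) (XT.lf (nat_lit 0) (nat_lit 591084982606) (nat_lit 0) (nat_lit 0) (nat_lit 0) (nat_lit 0) (nat_lit 0) (nat_lit 0) (nat_lit 1) (nat_lit 0) (nat_lit 1) (nat_lit 0) (nat_lit 355) (nat_lit 442) (nat_lit 283)) (XT.lf (nat_lit 0) (nat_lit 591084770313) (nat_lit 0)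 (nat_lit 0) (nat_lit 0) (nat_lit 0) (nat_lit 0) (nat_lit 0) (nat_lit 1) (nat_lit 0) (nat_lit 1) (nat_lit 0) (nat_lit 356) (nat_lit 442) (nat_lit 282))) (XT.nd (nat_lit 94) (nat_lit 0) (nat_lit 0) (XT.lf (nat_lit 0) (nat_lit 591084573744) (nat_lit 0) (nat_lit 0) (nat_lit 0) (nat_lit 0) (nat_lit 0) (nat_lit 0) (nat_lit 1) (nat_lit 0) (nat_lit 1) (nat_lit 0) (nat_lit 357) (nat_lit 442) (nat_lit 281)) (XT.lf (nat_lit 0) (nat_lit 591084391737) (nat_lit 0) (nat_lit 0) (nat_lit 0) (nat_lit 0) (nat_lit 0) (nat_lit 0) (nat_lit 1) (nat_lit 0) (nat_lit 1) (nat_lit 0) (nat_lit 358) (nat_lit 442) (nat_lit 280)))) (XT.nd (nat_lit 188) (nat_lit 0) (nat_lit 0) (XT.nd (nat_lit 94) (nat_lit 0) (nat_lit 0) (XT.lf (nat_lit 0) (nat_lit 591084223211) (nat_lit 0) (nat_lit 0) (nat_lit 0) (nat_lit 0) (nat_lit 0) (nat_lit 0) (nat_lit 1) (nat_lit 0) (nat_lit 1) (nat_lit 0) (nat_lit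 359) (nat_lit 442) (nat_lit 279)) (XT.lf (nat_lit 0) (nat_lit 591084067169) (nat_lit 0) (nat_lit 0) (nat_lit 0) (nat_lit 0) (nat_lit 0) (nat_lit 0) (nat_lit 1) (nat_lit 0) (nat_lit 1) (nat_lit 0) (nat_lit 360) (nat_lit 442) (nat_lit 278))) (XT.nd (nat_lit 94) (nat_lit 0) (nat_lit 0) (XT.lf (nat_lit 0) (nat_lit 591083922686) (nat_lit 0) (nat_lit 0) (nat_lit 0) (nat_lit 0) (nat_lit 0) (nat_lit 0) (nat_lit 1) (nat_lit 0) (nat_lit 1) (nat_lit 0) (nat_lit 361) (nat_lit 442) (nat_lit 277)) (XT.nd (nat_lit 94) (nat_lit 0) (nat_lit 0) (XT.lf (nat_lit 0) (nat_lit 591083788905) (nat_lit 0) (nat_lit 0) (nat_lit 0) (nat_lit 0) (nat_lit 0) (nat_lit 0) (nat_lit 1) (nat_lit 0) (nat_lit 1) (nat_lit 0) (nat_lit 362) (nat_lit 442) (nat_lit 276)) (XT.lf (nat_lit 0) (nat_lit 591083665034) (nat_lit 0) (nat_lit 0) (nat_lit 0) (nat_lit 0) (nat_lit 0) (nat_lit 0) (nat_lit 1) (nat_lit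 0) (nat_lit 1) (nat_lit 0) (nat_lit 363) (nat_lit 442) (nat_lit 275)))))) (XT.nd (nat_lit 470) (nat_lit 0) (nat_lit 0) (XT.nd (nat_lit 188) (nat_lit 0) (nat_lit 0) (XT.nd (nat_lit 94) (nat_lit 0) (nat_lit 0) (XT.lf (nat_lit 0) (nat_lit 591083550338) (nat_lit 0) (nat_lit 0) (nat_lit 0) (nat_lit 0) (nat_lit 0) (nat_lit 0) (nat_lit 1) (nat_lit 0) (nat_lit 1) (nat_lit 0) (nat_lit 364) (nat_lit 442) (nat_lit 274)) (XT.lf (nat_lit 0) (nat_lit 591083444138) (nat_lit 0) (nat_lit 0) (nat_lit 0) (nat_lit 0) (nat_lit 0) (nat_lit 0) (nat_lit 1) (nat_lit 0) (nat_lit 1) (nat_lit 0) (nat_lit 365) (nat_lit 442) (nat_lit 273))) (XT.nd (nat_lit 94) (nat_lit 0) (nat_lit 0) (XT.lf (nat_lit 0) (nat_lit 591083345805) (nat_lit 0) (nat_lit 0) (nat_lit 0) (nat_lit 0) (nat_lit 0) (nat_lit 0) (nat_lit 1) (nat_lit 0) (nat_lit 1) (nat_lit 0) (nat_lit 366) (nat_lit 442) (nat_lit 272))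 (XT.nd (nat_lit 94) (nat_lit 0) (nat_lit 0) (XT.lf (nat_lit 0) (nat_lit 591083254756) (nat_lit 0) (nat_lit 0) (nat_lit 0) (nat_lit 0) (nat_lit 0) (nat_lit 0) (nat_lit 1) (nat_lit 0) (nat_lit 1) (nat_lit 0) (nat_lit 367) (nat_lit 442) (nat_lit 271)) (XT.lf (nat_lit 0) (nat_lit 591083170451) (nat_lit 0) (nat_lit 0) (nat_lit 0) (nat_lit 0) (nat_lit 0) (nat_lit 0) (nat_lit 1) (nat_lit 0) (nat_lit 1) (nat_lit 0) (nat_lit 368) (nat_lit 442) (nat_lit 270))))) (XT.nd (nat_lit 188) (nat_lit 0) (nat_lit 0) (XT.nd (nat_lit 94) (nat_lit 0) (nat_lit 0) (XT.lf (nat_lit 0) (nat_lit 591083092391) (nat_lit 0) (nat_lit 0) (nat_lit 0) (nat_lit 0) (nat_lit 0) (nat_lit 0) (nat_lit 1) (nat_lit 0) (nat_lit 1) (nat_lit 0) (nat_lit 369) (nat_lit 442) (nat_lit 269)) (XT.lf (nat_lit 0) (nat_lit 591083020114) (nat_lit 0) (nat_lit 0) (nat_lit 0) (nat_lit 0) (nat_lit 0) (nat_lit 0) (nat_lit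 1) (nat_lit 0) (nat_lit 1) (nat_lit 0) (nat_lit 370) (nat_lit 442) (nat_lit 268))) (XT.nd (nat_lit 94) (nat_lit 0) (nat_lit 0) (XT.lf (nat_lit 0) (nat_lit 591082953190) (nat_lit 0) (nat_lit 0) (nat_lit 0) (nat_lit 0) (nat_lit 0) (nat_lit 0) (nat_lit 1) (nat_lit 0) (nat_lit 1) (nat_lit 0) (nat_lit 371) (nat_lit 442) (nat_lit 267)) (XT.nd (nat_lit 94) (nat_lit 0) (nat_lit 0) (XT.lf (nat_lit 0) (nat_lit 591082891223) (nat_lit 0) (nat_lit 0) (nat_lit 0) (nat_lit 0) (nat_lit 0) (nat_lit 0) (nat_lit 1) (nat_lit 0) (nat_lit 1) (nat_lit 0) (nat_lit 372) (nat_lit 442) (nat_lit 266)) (XT.lf (nat_lit 0) (nat_lit 591082833847) (nat_lit 0) (nat_lit 0) (nat_lit 0) (nat_lit 0) (nat_lit 0) (nat_lit 0) (nat_lit 1) (nat_lit 0) (nat_lit 1) (nat_lit 0) (nat_lit 373) (nat_lit 442) (nat_lit 265))))))))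
noncomputable def ec384 : XT := (XT.nd (nat_lit 1692) (nat_lit 0) (nat_lit 0) (XT.nd (nat_lit 846) (nat_lit 0) (nat_lit 0) (XT.nd (nat_lit 376) (nat_lit 0) (nat_lit 0) (XT.nd (nat_lit 188) (nat_lit 0) (nat_lit 0) (XT.nd (nat_lit 94) (nat_lit 0) (nat_lit 0) (XT.lf (nat_lit 0) (nat_lit 591082780721) (nat_lit 0) (nat_lit 0) (nat_lit 0) (nat_lit 0) (nat_lit 0) (nat_lit 0) (nat_lit 1) (nat_lit 0) (nat_lit 1) (nat_lit 0) (nat_lit 374) (nat_lit 442) (nat_lit 264)) (XT.lf (nat_lit 0) (nat_lit 591082731530) (nat_lit 0) (nat_lit 0) (nat_lit 0) (nat_lit 0) (nat_lit 0) (nat_lit 0) (nat_lit 1) (nat_lit 0) (nat_lit 1) (nat_lit 0) (nat_lit 375) (nat_lit 442) (nat_lit 263))) (XT.nd (nat_lit 94) (nat_lit 0) (nat_lit 0) (XT.lf (nat_lit 0) (nat_lit 591082685983) (nat_lit 0) (nat_lit 0) (nat_lit 0) (nat_lit 0) (nat_lit 0) (nat_lit 0) (nat_lit 1) (nat_lit 0) (nat_lit 1) (nat_lit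 0) (nat_lit 376) (nat_lit 442) (nat_lit 262)) (XT.lf (nat_lit 0) (nat_lit 591082643809) (nat_lit 0) (nat_lit 0) (nat_lit 0) (nat_lit 0) (nat_lit 0) (nat_lit 0) (nat_lit 1) (nat_lit 0) (nat_lit 1) (nat_lit 0) (nat_lit 377) (nat_lit 442) (nat_lit 261)))) (XT.nd (nat_lit 188) (nat_lit 0) (nat_lit 0) (XT.nd (nat_lit 94) (nat_lit 0) (nat_lit 0) (XT.lf (nat_lit 0) (nat_lit 591082604760) (nat_lit 0) (nat_lit 0) (nat_lit 0) (nat_lit 0) (nat_lit 0) (nat_lit 0) (nat_lit 1) (nat_lit 0) (nat_lit 1) (nat_lit 0) (nat_lit 378) (nat_lit 442) (nat_lit 260)) (XT.lf (nat_lit 0) (nat_lit 591082568603) (nat_lit 0) (nat_lit 0) (nat_lit 0) (nat_lit 0) (nat_lit 0) (nat_lit 0) (nat_lit 1) (nat_lit 0) (nat_lit 1) (nat_lit 0) (nat_lit 379) (nat_lit 442) (nat_lit 259))) (XT.nd (nat_lit 94) (nat_lit 0) (nat_lit 0) (XT.lf (nat_lit 0) (nat_lit 591082535124) (nat_lit 0) (nat_lit 0) (nat_lit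 0) (nat_lit 0) (nat_lit 0) (nat_lit 0) (nat_lit 1) (nat_lit 0) (nat_lit 1) (nat_lit 0) (nat_lit 380) (nat_lit 442) (nat_lit 258)) (XT.nd (nat_lit 94) (nat_lit 0) (nat_lit 0) (XT.lf (nat_lit 0) (nat_lit 591082504126) (nat_lit 0) (nat_lit 0) (nat_lit 0) (nat_lit 0) (nat_lit 0) (nat_lit 0) (nat_lit 1) (nat_lit 0) (nat_lit 1) (nat_lit 0) (nat_lit 381) (nat_lit 442) (nat_lit 257)) (XT.lf (nat_lit 0) (nat_lit 591082475423) (nat_lit 0) (nat_lit 0) (nat_lit 0) (nat_lit 0) (nat_lit 0) (nat_lit 0) (nat_lit 1) (nat_lit 0) (nat_lit 1) (nat_lit 0) (nat_lit 382) (nat_lit 442) (nat_lit 256)))))) (XT.nd (nat_lit 376) (nat_lit 0) (nat_lit 0) (XT.nd (nat_lit 188) (nat_lit 0) (nat_lit 0) (XT.nd (nat_lit 94) (nat_lit 0) (nat_lit 0) (XT.lf (nat_lit 0) (nat_lit 591082448847) (nat_lit 0) (nat_lit 0) (nat_lit 0) (nat_lit 0) (nat_lit 0) (nat_lit 0) (nat_lit 1) (nat_lit 0) (nat_lit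 1) (nat_lit 0) (nat_lit 383) (nat_lit 442) (nat_lit 255)) (XT.lf (nat_lit 0) (nat_lit 591082424239) (nat_lit 0) (nat_lit 0) (nat_lit 0) (nat_lit 0) (nat_lit 0) (nat_lit 0) (nat_lit 1) (nat_lit 0) (nat_lit 1) (nat_lit 0) (nat_lit 384) (nat_lit 442) (nat_lit 254))) (XT.nd (nat_lit 94) (nat_lit 0) (nat_lit 0) (XT.lf (nat_lit 0) (nat_lit 591082401454) (nat_lit 0) (nat_lit 0) (nat_lit 0) (nat_lit 0) (nat_lit 0) (nat_lit 0) (nat_lit 1) (nat_lit 0) (nat_lit 1) (nat_lit 0) (nat_lit 385) (nat_lit 442) (nat_lit 253)) (XT.lf (nat_lit 0) (nat_lit 591082380357) (nat_lit 0) (nat_lit 0) (nat_lit 0) (nat_lit 0) (nat_lit 0) (nat_lit 0) (nat_lit 1) (nat_lit 0) (nat_lit 1) (nat_lit 0) (nat_lit 386) (nat_lit 442) (nat_lit 252)))) (XT.nd (nat_lit 188) (nat_lit 0) (nat_lit 0) (XT.nd (nat_lit 94) (nat_lit 0) (nat_lit 0) (XT.lf (nat_lit 0) (nat_lit 591082360823) (nat_lit 0) (nat_lit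 0) (nat_lit 0) (nat_lit 0) (nat_lit 0) (nat_lit 0) (nat_lit 1) (nat_lit 0) (nat_lit 1) (nat_lit 0) (nat_lit 387) (nat_lit 442) (nat_lit 251)) (XT.lf (nat_lit 0) (nat_lit 591082342735) (nat_lit 0) (nat_lit 0) (nat_lit 0) (nat_lit 0) (nat_lit 0) (nat_lit 0) (nat_lit 1) (nat_lit 0) (nat_lit 1) (nat_lit 0) (nat_lit 388) (nat_lit 442) (nat_lit 250))) (XT.nd (nat_lit 94) (nat_lit 0) (nat_lit 0) (XT.lf (nat_lit 0) (nat_lit 591082325988) (nat_lit 0) (nat_lit 0) (nat_lit 0) (nat_lit 0) (nat_lit 0) (nat_lit 0) (nat_lit 1) (nat_lit 0) (nat_lit 1) (nat_lit 0) (nat_lit 389) (nat_lit 442) (nat_lit 249)) (XT.nd (nat_lit 94) (nat_lit 0) (nat_lit 0) (XT.lf (nat_lit 0) (nat_lit 591082310481) (nat_lit 0) (nat_lit 0) (nat_lit 0) (nat_lit 0) (nat_lit 0) (nat_lit 0) (nat_lit 1) (nat_lit 0) (nat_lit 1) (nat_lit 0) (nat_lit 390) (nat_lit 442) (nat_lit 248)) (XT.lf (nat_lit 0) (nat_lit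 591082296122) (nat_lit 0) (nat_lit 0) (nat_lit 0) (nat_lit 0) (nat_lit 0) (nat_lit 0) (nat_lit 1) (nat_lit 0) (nat_lit 1) (nat_lit 0) (nat_lit 391) (nat_lit 442) (nat_lit 247))))))) (XT.nd (nat_lit 846) (nat_lit 0) (nat_lit 0) (XT.nd (nat_lit 376) (nat_lit 0) (nat_lit 0) (XT.nd (nat_lit 188) (nat_lit 0) (nat_lit 0) (XT.nd (nat_lit 94) (nat_lit 0) (nat_lit 0) (XT.lf (nat_lit 0) (nat_lit 591082282827) (nat_lit 0) (nat_lit 0) (nat_lit 0) (nat_lit 0) (nat_lit 0) (nat_lit 0) (nat_lit 1) (nat_lit 0) (nat_lit 1) (nat_lit 0) (nat_lit 392) (nat_lit 442) (nat_lit 246)) (XT.lf (nat_lit 0) (nat_lit 591082270517) (nat_lit 0) (nat_lit 0) (nat_lit 0) (nat_lit 0) (nat_lit 0) (nat_lit 0) (nat_lit 1) (nat_lit 0) (nat_lit 1) (nat_lit 0) (nat_lit 393) (nat_lit 442) (nat_lit 245))) (XT.nd (nat_lit 94) (nat_lit 0) (nat_lit 0) (XT.lf (nat_lit 0) (nat_lit 591082259119) (nat_lit 0)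 (nat_lit 0) (nat_lit 0) (nat_lit 0) (nat_lit 0) (nat_lit 0) (nat_lit 1) (nat_lit 0) (nat_lit 1) (nat_lit 0) (nat_lit 394) (nat_lit 442) (nat_lit 244)) (XT.lf (nat_lit 0) (nat_lit 591082248565) (nat_lit 0) (nat_lit 0) (nat_lit 0) (nat_lit 0) (nat_lit 0) (nat_lit 0) (nat_lit 1) (nat_lit 0) (nat_lit 1) (nat_lit 0) (nat_lit 395) (nat_lit 442) (nat_lit 243)))) (XT.nd (nat_lit 188) (nat_lit 0) (nat_lit 0) (XT.nd (nat_lit 94) (nat_lit 0) (nat_lit 0) (XT.lf (nat_lit 0) (nat_lit 591082238793) (nat_lit 0) (nat_lit 0) (nat_lit 0) (nat_lit 0) (nat_lit 0) (nat_lit 0) (nat_lit 1) (nat_lit 0) (nat_lit 1) (nat_lit 0) (nat_lit 396) (nat_lit 442) (nat_lit 242)) (XT.lf (nat_lit 0) (nat_lit 591082229745) (nat_lit 0) (nat_lit 0) (nat_lit 0) (nat_lit 0) (nat_lit 0) (nat_lit 0) (nat_lit 1) (nat_lit 0) (nat_lit 1) (nat_lit 0) (nat_lit 397) (nat_lit 442) (nat_lit 241))) (XT.nd (nat_lit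 94) (nat_lit 0) (nat_lit 0) (XT.lf (nat_lit 0) (nat_lit 591082221367) (nat_lit 0) (nat_lit 0) (nat_lit 0) (nat_lit 0) (nat_lit 0) (nat_lit 0) (nat_lit 1) (nat_lit 0) (nat_lit 1) (nat_lit 0) (nat_lit 398) (nat_lit 442) (nat_lit 240)) (XT.nd (nat_lit 94) (nat_lit 0) (nat_lit 0) (XT.lf (nat_lit 0) (nat_lit 591082213610) (nat_lit 0) (nat_lit 0) (nat_lit 0) (nat_lit 0) (nat_lit 0) (nat_lit 0) (nat_lit 1) (nat_lit 0) (nat_lit 1) (nat_lit 0) (nat_lit 399) (nat_lit 442) (nat_lit 239)) (XT.lf (nat_lit 0) (nat_lit 591082206427) (nat_lit 0) (nat_lit 0) (nat_lit 0) (nat_lit 0) (nat_lit 0) (nat_lit 0) (nat_lit 1) (nat_lit 0) (nat_lit 1) (nat_lit 0) (nat_lit 400) (nat_lit 442) (nat_lit 238)))))) (XT.nd (nat_lit 470) (nat_lit 0) (nat_lit 0) (XT.nd (nat_lit 188) (nat_lit 0) (nat_lit 0) (XT.nd (nat_lit 94) (nat_lit 0) (nat_lit 0) (XT.lf (nat_lit 0) (nat_lit 591082199776) (nat_lit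 0) (nat_lit 0) (nat_lit 0) (nat_lit 0) (nat_lit 0) (nat_lit 0) (nat_lit 1) (nat_lit 0) (nat_lit 1) (nat_lit 0) (nat_lit 401) (nat_lit 442) (nat_lit 237)) (XT.lf (nat_lit 0) (nat_lit 591082193618) (nat_lit 0) (nat_lit 0) (nat_lit 0) (nat_lit 0) (nat_lit 0) (nat_lit 0) (nat_lit 1) (nat_lit 0) (nat_lit 1) (nat_lit 0) (nat_lit 402) (nat_lit 442) (nat_lit 236))) (XT.nd (nat_lit 94) (nat_lit 0) (nat_lit 0) (XT.lf (nat_lit 0) (nat_lit 591082187916) (nat_lit 0) (nat_lit 0) (nat_lit 0) (nat_lit 0) (nat_lit 0) (nat_lit 0) (nat_lit 1) (nat_lit 0) (nat_lit 1) (nat_lit 0) (nat_lit 403) (nat_lit 442) (nat_lit 235)) (XT.nd (nat_lit 94) (nat_lit 0) (nat_lit 0) (XT.lf (nat_lit 0) (nat_lit 591082182637) (nat_lit 0) (nat_lit 0) (nat_lit 0) (nat_lit 0) (nat_lit 0) (nat_lit 0) (nat_lit 1) (nat_lit 0) (nat_lit 1) (nat_lit 0) (nat_lit 404) (nat_lit 442) (nat_lit 234)) (XT.lf (nat_lit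 0) (nat_lit 591082177748) (nat_lit 0) (nat_lit 0) (nat_lit 0) (nat_lit 0) (nat_lit 0) (nat_lit 0) (nat_lit 1) (nat_lit 0) (nat_lit 1) (nat_lit 0) (nat_lit 405) (nat_lit 442) (nat_lit 233))))) (XT.nd (nat_lit 188) (nat_lit 0) (nat_lit 0) (XT.nd (nat_lit 94) (nat_lit 0) (nat_lit 0) (XT.lf (nat_lit 0) (nat_lit 591082173222) (nat_lit 0) (nat_lit 0) (nat_lit 0) (nat_lit 0) (nat_lit 0) (nat_lit 0) (nat_lit 1) (nat_lit 0) (nat_lit 1) (nat_lit 0) (nat_lit 406) (nat_lit 442) (nat_lit 232)) (XT.lf (nat_lit 0) (nat_lit 591082169031) (nat_lit 0) (nat_lit 0) (nat_lit 0) (nat_lit 0) (nat_lit 0) (nat_lit 0) (nat_lit 1) (nat_lit 0) (nat_lit 1) (nat_lit 0) (nat_lit 407) (nat_lit 442) (nat_lit 231))) (XT.nd (nat_lit 94) (nat_lit 0) (nat_lit 0) (XT.lf (nat_lit 0) (nat_lit 591082165150) (nat_lit 0) (nat_lit 0) (nat_lit 0) (nat_lit 0) (nat_lit 0) (nat_lit 0) (nat_lit 1) (nat_lit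 0) (nat_lit 1) (nat_lit 0) (nat_lit 408) (nat_lit 442) (nat_lit 230)) (XT.nd (nat_lit 94) (nat_lit 0) (nat_lit 0) (XT.lf (nat_lit 0) (nat_lit 591082161557) (nat_lit 0) (nat_lit 0) (nat_lit 0) (nat_lit 0) (nat_lit 0) (nat_lit 0) (nat_lit 1) (nat_lit 0) (nat_lit 1) (nat_lit 0) (nat_lit 409) (nat_lit 442) (nat_lit 229)) (XT.lf (nat_lit 0) (nat_lit 591082158230) (nat_lit 0) (nat_lit 0) (nat_lit 0) (nat_lit 0) (nat_lit 0) (nat_lit 0) (nat_lit 1) (nat_lit 0) (nat_lit 1) (nat_lit 0) (nat_lit 410) (nat_lit 442) (nat_lit 228))))))))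
noncomputable def ec385 : XT := (XT.nd (nat_lit 1786) (nat_lit 0) (nat_lit 0) (XT.nd (nat_lit 846) (nat_lit 0) (nat_lit 0) (XT.nd (nat_lit 376) (nat_lit 0) (nat_lit 0) (XT.nd (nat_lit 188) (nat_lit 0) (nat_lit 0) (XT.nd (nat_lit 94) (nat_lit 0) (nat_lit 0) (XT.lf (nat_lit 0) (nat_lit 591082155150) (nat_lit 0) (nat_lit 0) (nat_lit 0) (nat_lit 0) (nat_lit 0) (nat_lit 0) (nat_lit 1) (nat_lit 0) (nat_lit 1) (nat_lit 0) (nat_lit 411) (nat_lit 442) (nat_lit 227)) (XT.lf (nat_lit 0) (nat_lit 591082152297) (nat_lit 0) (nat_lit 0) (nat_lit 0) (nat_lit 0) (nat_lit 0) (nat_lit 0) (nat_lit 1) (nat_lit 0) (nat_lit 1) (nat_lit 0) (nat_lit 412) (nat_lit 442) (nat_lit 226))) (XT.nd (nat_lit 94) (nat_lit 0) (nat_lit 0) (XT.lf (nat_lit 0) (nat_lit 591082149656) (nat_lit 0) (nat_lit 0) (nat_lit 0) (nat_lit 0) (nat_lit 0) (nat_lit 0) (nat_lit 1) (nat_lit 0) (nat_lit 1) (nat_lit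 0) (nat_lit 413) (nat_lit 442) (nat_lit 225)) (XT.lf (nat_lit 0) (nat_lit 591082147211) (nat_lit 0) (nat_lit 0) (nat_lit 0) (nat_lit 0) (nat_lit 0) (nat_lit 0) (nat_lit 1) (nat_lit 0) (nat_lit 1) (nat_lit 0) (nat_lit 414) (nat_lit 442) (nat_lit 224)))) (XT.nd (nat_lit 188) (nat_lit 0) (nat_lit 0) (XT.nd (nat_lit 94) (nat_lit 0) (nat_lit 0) (XT.lf (nat_lit 0) (nat_lit 591082144946) (nat_lit 0) (nat_lit 0) (nat_lit 0) (nat_lit 0) (nat_lit 0) (nat_lit 0) (nat_lit 1) (nat_lit 0) (nat_lit 1) (nat_lit 0) (nat_lit 415) (nat_lit 442) (nat_lit 223)) (XT.lf (nat_lit 0) (nat_lit 591082142850) (nat_lit 0) (nat_lit 0) (nat_lit 0) (nat_lit 0) (nat_lit 0) (nat_lit 0) (nat_lit 1) (nat_lit 0) (nat_lit 1) (nat_lit 0) (nat_lit 416) (nat_lit 442) (nat_lit 222))) (XT.nd (nat_lit 94) (nat_lit 0) (nat_lit 0) (XT.lf (nat_lit 0) (nat_lit 591082140908) (nat_lit 0) (nat_lit 0) (nat_lit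 0) (nat_lit 0) (nat_lit 0) (nat_lit 0) (nat_lit 1) (nat_lit 0) (nat_lit 1) (nat_lit 0) (nat_lit 417) (nat_lit 442) (nat_lit 221)) (XT.nd (nat_lit 94) (nat_lit 0) (nat_lit 0) (XT.lf (nat_lit 0) (nat_lit 591082139111) (nat_lit 0) (nat_lit 0) (nat_lit 0) (nat_lit 0) (nat_lit 0) (nat_lit 0) (nat_lit 1) (nat_lit 0) (nat_lit 1) (nat_lit 0) (nat_lit 418) (nat_lit 442) (nat_lit 220)) (XT.lf (nat_lit 0) (nat_lit 591082137447) (nat_lit 0) (nat_lit 0) (nat_lit 0) (nat_lit 0) (nat_lit 0) (nat_lit 0) (nat_lit 1) (nat_lit 0) (nat_lit 1) (nat_lit 0) (nat_lit 419) (nat_lit 442) (nat_lit 219)))))) (XT.nd (nat_lit 470) (nat_lit 0) (nat_lit 0) (XT.nd (nat_lit 188) (nat_lit 0) (nat_lit 0) (XT.nd (nat_lit 94) (nat_lit 0) (nat_lit 0) (XT.lf (nat_lit 0) (nat_lit 591082135906) (nat_lit 0) (nat_lit 0) (nat_lit 0) (nat_lit 0) (nat_lit 0) (nat_lit 0) (nat_lit 1) (nat_lit 0) (nat_lit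 1) (nat_lit 0) (nat_lit 420) (nat_lit 442) (nat_lit 218)) (XT.lf (nat_lit 0) (nat_lit 591082134479) (nat_lit 0) (nat_lit 0) (nat_lit 0) (nat_lit 0) (nat_lit 0) (nat_lit 0) (nat_lit 1) (nat_lit 0) (nat_lit 1) (nat_lit 0) (nat_lit 421) (nat_lit 442) (nat_lit 217))) (XT.nd (nat_lit 94) (nat_lit 0) (nat_lit 0) (XT.lf (nat_lit 0) (nat_lit 591082133157) (nat_lit 0) (nat_lit 0) (nat_lit 0) (nat_lit 0) (nat_lit 0) (nat_lit 0) (nat_lit 1) (nat_lit 0) (nat_lit 1) (nat_lit 0) (nat_lit 422) (nat_lit 442) (nat_lit 216)) (XT.nd (nat_lit 94) (nat_lit 0) (nat_lit 0) (XT.lf (nat_lit 0) (nat_lit 591082131934) (nat_lit 0) (nat_lit 0) (nat_lit 0) (nat_lit 0) (nat_lit 0) (nat_lit 0) (nat_lit 1) (nat_lit 0) (nat_lit 1) (nat_lit 0) (nat_lit 423) (nat_lit 442) (nat_lit 215)) (XT.lf (nat_lit 0) (nat_lit 591082130801) (nat_lit 0) (nat_lit 0) (nat_lit 0) (nat_lit 0) (nat_lit 0) (nat_lit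 0) (nat_lit 1) (nat_lit 0) (nat_lit 1) (nat_lit 0) (nat_lit 424) (nat_lit 442) (nat_lit 214))))) (XT.nd (nat_lit 188) (nat_lit 0) (nat_lit 0) (XT.nd (nat_lit 94) (nat_lit 0) (nat_lit 0) (XT.lf (nat_lit 0) (nat_lit 591082129753) (nat_lit 0) (nat_lit 0) (nat_lit 0) (nat_lit 0) (nat_lit 0) (nat_lit 0) (nat_lit 1) (nat_lit 0) (nat_lit 1) (nat_lit 0) (nat_lit 425) (nat_lit 442) (nat_lit 213)) (XT.lf (nat_lit 0) (nat_lit 591082128782) (nat_lit 0) (nat_lit 0) (nat_lit 0) (nat_lit 0) (nat_lit 0) (nat_lit 0) (nat_lit 1) (nat_lit 0) (nat_lit 1) (nat_lit 0) (nat_lit 426) (nat_lit 442) (nat_lit 212))) (XT.nd (nat_lit 94) (nat_lit 0) (nat_lit 0) (XT.lf (nat_lit 0) (nat_lit 591082127882) (nat_lit 0) (nat_lit 0) (nat_lit 0) (nat_lit 0) (nat_lit 0) (nat_lit 0) (nat_lit 1) (nat_lit 0) (nat_lit 1) (nat_lit 0) (nat_lit 427) (nat_lit 442) (nat_lit 211)) (XT.nd (nat_lit 94) (nat_lit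 0) (nat_lit 0) (XT.lf (nat_lit 0) (nat_lit 591082127050) (nat_lit 0) (nat_lit 0) (nat_lit 0) (nat_lit 0) (nat_lit 0) (nat_lit 0) (nat_lit 1) (nat_lit 0) (nat_lit 1) (nat_lit 0) (nat_lit 428) (nat_lit 442) (nat_lit 210)) (XT.lf (nat_lit 0) (nat_lit 591082126279) (nat_lit 0) (nat_lit 0) (nat_lit 0) (nat_lit 0) (nat_lit 0) (nat_lit 0) (nat_lit 1) (nat_lit 0) (nat_lit 1) (nat_lit 0) (nat_lit 429) (nat_lit 442) (nat_lit 209))))))) (XT.nd (nat_lit 846) (nat_lit 0) (nat_lit 0) (XT.nd (nat_lit 376) (nat_lit 0) (nat_lit 0) (XT.nd (nat_lit 188) (nat_lit 0) (nat_lit 0) (XT.nd (nat_lit 94) (nat_lit 0) (nat_lit 0) (XT.lf (nat_lit 0) (nat_lit 591082125565) (nat_lit 0) (nat_lit 0) (nat_lit 0) (nat_lit 0) (nat_lit 0) (nat_lit 0) (nat_lit 1) (nat_lit 0) (nat_lit 1) (nat_lit 0) (nat_lit 430) (nat_lit 442) (nat_lit 208)) (XT.lf (nat_lit 0) (nat_lit 591082124904) (nat_lit 0)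 (nat_lit 0) (nat_lit 0) (nat_lit 0) (nat_lit 0) (nat_lit 0) (nat_lit 1) (nat_lit 0) (nat_lit 1) (nat_lit 0) (nat_lit 431) (nat_lit 442) (nat_lit 207))) (XT.nd (nat_lit 94) (nat_lit 0) (nat_lit 0) (XT.lf (nat_lit 0) (nat_lit 591082124292) (nat_lit 0) (nat_lit 0) (nat_lit 0) (nat_lit 0) (nat_lit 0) (nat_lit 0) (nat_lit 1) (nat_lit 0) (nat_lit 1) (nat_lit 0) (nat_lit 432) (nat_lit 442) (nat_lit 206)) (XT.lf (nat_lit 0) (nat_lit 591082123725) (nat_lit 0) (nat_lit 0) (nat_lit 0) (nat_lit 0) (nat_lit 0) (nat_lit 0) (nat_lit 1) (nat_lit 0) (nat_lit 1) (nat_lit 0) (nat_lit 433) (nat_lit 442) (nat_lit 205)))) (XT.nd (nat_lit 188) (nat_lit 0) (nat_lit 0) (XT.nd (nat_lit 94) (nat_lit 0) (nat_lit 0) (XT.lf (nat_lit 0) (nat_lit 591082123201) (nat_lit 0) (nat_lit 0) (nat_lit 0) (nat_lit 0) (nat_lit 0) (nat_lit 0) (nat_lit 1) (nat_lit 0) (nat_lit 1) (nat_lit 0) (nat_lit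 434) (nat_lit 442) (nat_lit 204)) (XT.lf (nat_lit 0) (nat_lit 591082122715) (nat_lit 0) (nat_lit 0) (nat_lit 0) (nat_lit 0) (nat_lit 0) (nat_lit 0) (nat_lit 1) (nat_lit 0) (nat_lit 1) (nat_lit 0) (nat_lit 435) (nat_lit 442) (nat_lit 203))) (XT.nd (nat_lit 94) (nat_lit 0) (nat_lit 0) (XT.lf (nat_lit 0) (nat_lit 591082122265) (nat_lit 0) (nat_lit 0) (nat_lit 0) (nat_lit 0) (nat_lit 0) (nat_lit 0) (nat_lit 1) (nat_lit 0) (nat_lit 1) (nat_lit 0) (nat_lit 436) (nat_lit 442) (nat_lit 202)) (XT.nd (nat_lit 94) (nat_lit 0) (nat_lit 0) (XT.lf (nat_lit 0) (nat_lit 591082121849) (nat_lit 0) (nat_lit 0) (nat_lit 0) (nat_lit 0) (nat_lit 0) (nat_lit 0) (nat_lit 1) (nat_lit 0) (nat_lit 1) (nat_lit 0) (nat_lit 437) (nat_lit 442) (nat_lit 201)) (XT.lf (nat_lit 0) (nat_lit 591082121463) (nat_lit 0) (nat_lit 0) (nat_lit 0) (nat_lit 0) (nat_lit 0) (nat_lit 0) (nat_lit 1) (nat_lit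 0) (nat_lit 1) (nat_lit 0) (nat_lit 438) (nat_lit 442) (nat_lit 200)))))) (XT.nd (nat_lit 470) (nat_lit 0) (nat_lit 0) (XT.nd (nat_lit 188) (nat_lit 0) (nat_lit 0) (XT.nd (nat_lit 94) (nat_lit 0) (nat_lit 0) (XT.lf (nat_lit 0) (nat_lit 591082121106) (nat_lit 0) (nat_lit 0) (nat_lit 0) (nat_lit 0) (nat_lit 0) (nat_lit 0) (nat_lit 1) (nat_lit 0) (nat_lit 1) (nat_lit 0) (nat_lit 439) (nat_lit 442) (nat_lit 199)) (XT.lf (nat_lit 0) (nat_lit 591082120775) (nat_lit 0) (nat_lit 0) (nat_lit 0) (nat_lit 0) (nat_lit 0) (nat_lit 0) (nat_lit 1) (nat_lit 0) (nat_lit 1) (nat_lit 0) (nat_lit 440) (nat_lit 442) (nat_lit 198))) (XT.nd (nat_lit 94) (nat_lit 0) (nat_lit 0) (XT.lf (nat_lit 0) (nat_lit 591082120469) (nat_lit 0) (nat_lit 0) (nat_lit 0) (nat_lit 0) (nat_lit 0) (nat_lit 0) (nat_lit 1) (nat_lit 0) (nat_lit 1) (nat_lit 0) (nat_lit 441) (nat_lit 442) (nat_lit 197))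 (XT.nd (nat_lit 94) (nat_lit 0) (nat_lit 0) (XT.lf (nat_lit 0) (nat_lit 591082120186) (nat_lit 0) (nat_lit 0) (nat_lit 0) (nat_lit 0) (nat_lit 0) (nat_lit 0) (nat_lit 1) (nat_lit 0) (nat_lit 1) (nat_lit 0) (nat_lit 442) (nat_lit 442) (nat_lit 196)) (XT.lf (nat_lit 0) (nat_lit 591082119923) (nat_lit 0) (nat_lit 0) (nat_lit 0) (nat_lit 0) (nat_lit 0) (nat_lit 0) (nat_lit 1) (nat_lit 0) (nat_lit 1) (nat_lit 0) (nat_lit 443) (nat_lit 442) (nat_lit 195))))) (XT.nd (nat_lit 188) (nat_lit 0) (nat_lit 0) (XT.nd (nat_lit 94) (nat_lit 0) (nat_lit 0) (XT.lf (nat_lit 0) (nat_lit 591082119680) (nat_lit 0) (nat_lit 0) (nat_lit 0) (nat_lit 0) (nat_lit 0) (nat_lit 0) (nat_lit 1) (nat_lit 0) (nat_lit 1) (nat_lit 0) (nat_lit 444) (nat_lit 442) (nat_lit 194)) (XT.lf (nat_lit 0) (nat_lit 591082119455) (nat_lit 0) (nat_lit 0) (nat_lit 0) (nat_lit 0) (nat_lit 0) (nat_lit 0) (nat_lit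 1) (nat_lit 0) (nat_lit 1) (nat_lit 0) (nat_lit 445) (nat_lit 442) (nat_lit 193))) (XT.nd (nat_lit 94) (nat_lit 0) (nat_lit 0) (XT.lf (nat_lit 0) (nat_lit 591082119247) (nat_lit 0) (nat_lit 0) (nat_lit 0) (nat_lit 0) (nat_lit 0) (nat_lit 0) (nat_lit 1) (nat_lit 0) (nat_lit 1) (nat_lit 0) (nat_lit 446) (nat_lit 442) (nat_lit 192)) (XT.nd (nat_lit 94) (nat_lit 0) (nat_lit 0) (XT.lf (nat_lit 0) (nat_lit 591082119054) (nat_lit 0) (nat_lit 0) (nat_lit 0) (nat_lit 0) (nat_lit 0) (nat_lit 0) (nat_lit 1) (nat_lit 0) (nat_lit 1) (nat_lit 0) (nat_lit 447) (nat_lit 442) (nat_lit 191)) (XT.lf (nat_lit 0) (nat_lit 591082118875) (nat_lit 0) (nat_lit 0) (nat_lit 0) (nat_lit 0) (nat_lit 0) (nat_lit 0) (nat_lit 1) (nat_lit 0) (nat_lit 1) (nat_lit 0) (nat_lit 448) (nat_lit 442) (nat_lit 190))))))))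
noncomputable def ec386 : XT := (XT.nd (nat_lit 1692) (nat_lit 3864) (nat_lit 0) (XT.nd (nat_lit 846) (nat_lit 2940) (nat_lit 0) (XT.nd (nat_lit 376) (nat_lit 1008) (nat_lit 0) (XT.nd (nat_lit 188) (nat_lit 0) (nat_lit 84) (XT.nd (nat_lit 94) (nat_lit 0) (nat_lit 84) (XT.lf (nat_lit 924) (nat_lit 319463602220) (nat_lit 0) (nat_lit 567206891426) (nat_lit 924) (nat_lit 319463602220) (nat_lit 139) (nat_lit 1) (nat_lit 128) (nat_lit 0) (nat_lit 139) (nat_lit 0) (nat_lit 194) (nat_lit 443) (nat_lit 443)) (XT.lf (nat_lit 924) (nat_lit 119169726093) (nat_lit 0) (nat_lit 1113599034819) (nat_lit 840) (nat_lit 1089096135600) (nat_lit 140) (nat_lit 1) (nat_lit 129) (nat_lit 1) (nat_lit 139) (nat_lit 1) (nat_lit 195) (nat_lit 443) (nat_lit 442))) (XT.nd (nat_lit 94) (nat_lit 0) (nat_lit 84) (XT.lf (nat_lit 924) (nat_lit 1094505148405) (nat_lit 84) (nat_lit 745777648988)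 (nat_lit 0) (nat_lit 395526445554) (nat_lit 140) (nat_lit 1) (nat_lit 130) (nat_lit 1) (nat_lit 129) (nat_lit 1) (nat_lit 196) (nat_lit 443) (nat_lit 441)) (XT.lf (nat_lit 924) (nat_lit 945742111375) (nat_lit 84) (nat_lit 312550243449) (nat_lit 0) (nat_lit 895767677737) (nat_lit 141) (nat_lit 1) (nat_lit 131) (nat_lit 1) (nat_lit 130) (nat_lit 1) (nat_lit 197) (nat_lit 443) (nat_lit 440)))) (XT.nd (nat_lit 188) (nat_lit 1260) (nat_lit 0) (XT.nd (nat_lit 94) (nat_lit 0) (nat_lit 84) (XT.lf (nat_lit 924) (nat_lit 699929566620) (nat_lit 0) (nat_lit 1309535134907) (nat_lit 840) (nat_lit 66943249001) (nat_lit 142) (nat_lit 1) (nat_lit 131) (nat_lit 1) (nat_lit 141) (nat_lit 1) (nat_lit 198) (nat_lit 443) (nat_lit 439)) (XT.lf (nat_lit 924) (nat_lit 167941236890) (nat_lit 0) (nat_lit 1444126289204) (nat_lit 840) (nat_lit 390396772880) (nat_lit 143) (nat_lit 1) (nat_lit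 132) (nat_lit 1) (nat_lit 142) (nat_lit 1) (nat_lit 199) (nat_lit 443) (nat_lit 438))) (XT.nd (nat_lit 94) (nat_lit 1344) (nat_lit 0) (XT.lf (nat_lit 924) (nat_lit 322714749820) (nat_lit 84) (nat_lit 1255063345569) (nat_lit 0) (nat_lit 354194360660) (nat_lit 143) (nat_lit 1) (nat_lit 133) (nat_lit 1) (nat_lit 132) (nat_lit 1) (nat_lit 200) (nat_lit 443) (nat_lit 437)) (XT.nd (nat_lit 94) (nat_lit 588) (nat_lit 0) (XT.lf (nat_lit 924) (nat_lit 66278250729) (nat_lit 0) (nat_lit 938242870062) (nat_lit 840) (nat_lit 860358881091) (nat_lit 134) (nat_lit 1) (nat_lit 123) (nat_lit 1) (nat_lit 133) (nat_lit 1) (nat_lit 201) (nat_lit 443) (nat_lit 436)) (XT.lf (nat_lit 84) (nat_lit 458924414359) (nat_lit 0) (nat_lit 198873305354) (nat_lit 588) (nat_lit 1143166590924) (nat_lit 117) (nat_lit 1) (nat_lit 116) (nat_lit 1) (nat_lit 123) (nat_lit 1) (nat_lit 202) (nat_lit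 443) (nat_lit 435)))))) (XT.nd (nat_lit 376) (nat_lit 1764) (nat_lit 0) (XT.nd (nat_lit 188) (nat_lit 336) (nat_lit 0) (XT.nd (nat_lit 94) (nat_lit 420) (nat_lit 0) (XT.lf (nat_lit 504) (nat_lit 1264737922623) (nat_lit 0) (nat_lit 411699459362) (nat_lit 420) (nat_lit 63651280270) (nat_lit 117) (nat_lit 1) (nat_lit 111) (nat_lit 1) (nat_lit 116) (nat_lit 1) (nat_lit 203) (nat_lit 443) (nat_lit 434)) (XT.lf (nat_lit 504) (nat_lit 912646928712) (nat_lit 0) (nat_lit 191894891463) (nat_lit 420) (nat_lit 577288737724) (nat_lit 112) (nat_lit 1) (nat_lit 106) (nat_lit 1) (nat_lit 111) (nat_lit 1) (nat_lit 204) (nat_lit 443) (nat_lit 433))) (XT.nd (nat_lit 94) (nat_lit 0) (nat_lit 0) (XT.lf (nat_lit 420) (nat_lit 555334016279) (nat_lit 0) (nat_lit 3533096798) (nat_lit 336) (nat_lit 1067530149278) (nat_lit 107) (nat_lit 1) (nat_lit 102) (nat_lit 1) (nat_lit 106) (nat_lit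 1) (nat_lit 205) (nat_lit 443) (nat_lit 432)) (XT.lf (nat_lit 84) (nat_lit 40969919219) (nat_lit 0) (nat_lit 1381704199243) (nat_lit 420) (nat_lit 150839878918) (nat_lit 103) (nat_lit 1) (nat_lit 102) (nat_lit 1) (nat_lit 107) (nat_lit 1) (nat_lit 206) (nat_lit 443) (nat_lit 431)))) (XT.nd (nat_lit 188) (nat_lit 1008) (nat_lit 0) (XT.nd (nat_lit 94) (nat_lit 336) (nat_lit 0) (XT.lf (nat_lit 84) (nat_lit 1057853940610) (nat_lit 0) (nat_lit 175456395018) (nat_lit 420) (nat_lit 289359460682) (nat_lit 98) (nat_lit 1) (nat_lit 97) (nat_lit 1) (nat_lit 102) (nat_lit 1) (nat_lit 207) (nat_lit 443) (nat_lit 430)) (XT.lf (nat_lit 84) (nat_lit 529271133191) (nat_lit 0) (nat_lit 537454084299) (nat_lit 420) (nat_lit 407346933794) (nat_lit 94) (nat_lit 1) (nat_lit 93) (nat_lit 1) (nat_lit 98) (nat_lit 1) (nat_lit 208) (nat_lit 443) (nat_lit 429))) (XT.nd (nat_lit 94) (nat_lit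 672) (nat_lit 0) (XT.lf (nat_lit 84) (nat_lit 26123649496) (nat_lit 0) (nat_lit 898614883471) (nat_lit 420) (nat_lit 503036911171) (nat_lit 90) (nat_lit 1) (nat_lit 89) (nat_lit 1) (nat_lit 94) (nat_lit 1) (nat_lit 209) (nat_lit 443) (nat_lit 428)) (XT.nd (nat_lit 94) (nat_lit 420) (nat_lit 0) (XT.lf (nat_lit 336) (nat_lit 117972928803) (nat_lit 0) (nat_lit 797794447466) (nat_lit 252) (nat_lit 467525881531) (nat_lit 90) (nat_lit 1) (nat_lit 86) (nat_lit 1) (nat_lit 89) (nat_lit 1) (nat_lit 210) (nat_lit 443) (nat_lit 427)) (XT.lf (nat_lit 84) (nat_lit 407628187182) (nat_lit 0) (nat_lit 279390892386) (nat_lit 420) (nat_lit 653629631657) (nat_lit 82) (nat_lit 1) (nat_lit 81) (nat_lit 1) (nat_lit 86) (nat_lit 1) (nat_lit 211) (nat_lit 443) (nat_lit 426))))))) (XT.nd (nat_lit 846) (nat_lit 1680) (nat_lit 0) (XT.nd (nat_lit 376) (nat_lit 1092) (nat_lit 0) (XT.nd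 (nat_lit 188) (nat_lit 588) (nat_lit 0) (XT.nd (nat_lit 94) (nat_lit 252) (nat_lit 0) (XT.lf (nat_lit 336) (nat_lit 631106481053) (nat_lit 0) (nat_lit 592842970357) (nat_lit 252) (nat_lit 75883196604) (nat_lit 82) (nat_lit 1) (nat_lit 78) (nat_lit 1) (nat_lit 81) (nat_lit 1) (nat_lit 212) (nat_lit 443) (nat_lit 425)) (XT.lf (nat_lit 336) (nat_lit 202266578263) (nat_lit 0) (nat_lit 510413520795) (nat_lit 252) (nat_lit 547905058450) (nat_lit 79) (nat_lit 1) (nat_lit 75) (nat_lit 1) (nat_lit 78) (nat_lit 1) (nat_lit 213) (nat_lit 443) (nat_lit 424))) (XT.nd (nat_lit 94) (nat_lit 252) (nat_lit 0) (XT.lf (nat_lit 84) (nat_lit 230535025099) (nat_lit 0) (nat_lit 211074849416) (nat_lit 336) (nat_lit 781357814669) (nat_lit 72) (nat_lit 1) (nat_lit 71) (nat_lit 1) (nat_lit 75) (nat_lit 1) (nat_lit 214) (nat_lit 443) (nat_lit 423)) (XT.lf (nat_lit 336) (nat_lit 573656152310)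 (nat_lit 0) (nat_lit 381689545695) (nat_lit 252) (nat_lit 231381457533) (nat_lit 72) (nat_lit 1) (nat_lit 68) (nat_lit 1) (nat_lit 71) (nat_lit 1) (nat_lit 215) (nat_lit 443) (nat_lit 422)))) (XT.nd (nat_lit 188) (nat_lit 588) (nat_lit 0) (XT.nd (nat_lit 94) (nat_lit 336) (nat_lit 0) (XT.lf (nat_lit 252) (nat_lit 142210207199) (nat_lit 0) (nat_lit 332996288107) (nat_lit 168) (nat_lit 676742170822) (nat_lit 69) (nat_lit 1) (nat_lit 66) (nat_lit 1) (nat_lit 68) (nat_lit 1) (nat_lit 216) (nat_lit 443) (nat_lit 421)) (XT.lf (nat_lit 84) (nat_lit 24091317649) (nat_lit 0) (nat_lit 269587074454) (nat_lit 336) (nat_lit 824839890485) (nat_lit 63) (nat_lit 1) (nat_lit 62) (nat_lit 1) (nat_lit 66) (nat_lit 1) (nat_lit 217) (nat_lit 443) (nat_lit 420))) (XT.nd (nat_lit 94) (nat_lit 420) (nat_lit 0) (XT.lf (nat_lit 252) (nat_lit 413236768387) (nat_lit 0) (nat_lit 258237528727)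 (nat_lit 168) (nat_lit 414674836500) (nat_lit 63) (nat_lit 1) (nat_lit 60) (nat_lit 1) (nat_lit 62) (nat_lit 1) (nat_lit 218) (nat_lit 443) (nat_lit 419)) (XT.nd (nat_lit 94) (nat_lit 168) (nat_lit 0) (XT.lf (nat_lit 84) (nat_lit 224205001257) (nat_lit 0) (nat_lit 10356169572) (nat_lit 252) (nat_lit 820631291937) (nat_lit 58) (nat_lit 1) (nat_lit 57) (nat_lit 1) (nat_lit 60) (nat_lit 1) (nat_lit 219) (nat_lit 443) (nat_lit 418)) (XT.lf (nat_lit 252) (nat_lit 612933178418) (nat_lit 0) (nat_lit 212395089436) (nat_lit 168) (nat_lit 199808031582) (nat_lit 58) (nat_lit 1) (nat_lit 55) (nat_lit 1) (nat_lit 57) (nat_lit 1) (nat_lit 220) (nat_lit 443) (nat_lit 417)))))) (XT.nd (nat_lit 470) (nat_lit 756) (nat_lit 0) (XT.nd (nat_lit 188) (nat_lit 504) (nat_lit 0) (XT.nd (nat_lit 94) (nat_lit 252) (nat_lit 0) (XT.lf (nat_lit 252) (nat_lit 190401607164) (nat_lit 0) (nat_lit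 197444722638) (nat_lit 168) (nat_lit 608382984973) (nat_lit 56) (nat_lit 1) (nat_lit 53) (nat_lit 1) (nat_lit 55) (nat_lit 1) (nat_lit 221) (nat_lit 443) (nat_lit 416)) (XT.lf (nat_lit 252) (nat_lit 755824405882) (nat_lit 0) (nat_lit 188642406867) (nat_lit 168) (nat_lit 23931477879) (nat_lit 53) (nat_lit 1) (nat_lit 50) (nat_lit 1) (nat_lit 52) (nat_lit 1) (nat_lit 222) (nat_lit 443) (nat_lit 415))) (XT.nd (nat_lit 94) (nat_lit 336) (nat_lit 0) (XT.lf (nat_lit 252) (nat_lit 338271974573) (nat_lit 0) (nat_lit 180089898388) (nat_lit 168) (nat_lit 422978729834) (nat_lit 51) (nat_lit 1) (nat_lit 48) (nat_lit 1) (nat_lit 50) (nat_lit 1) (nat_lit 223) (nat_lit 443) (nat_lit 414)) (XT.nd (nat_lit 94) (nat_lit 168) (nat_lit 0) (XT.lf (nat_lit 84) (nat_lit 115871211608) (nat_lit 0) (nat_lit 63688039210) (nat_lit 168) (nat_lit 735845947119) (nat_lit 47) (nat_lit 1)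 (nat_lit 46) (nat_lit 1) (nat_lit 48) (nat_lit 1) (nat_lit 224) (nat_lit 443) (nat_lit 413)) (XT.lf (nat_lit 252) (nat_lit 443832284899) (nat_lit 0) (nat_lit 177657918224) (nat_lit 168) (nat_lit 268634045238) (nat_lit 47) (nat_lit 1) (nat_lit 44) (nat_lit 1) (nat_lit 46) (nat_lit 1) (nat_lit 225) (nat_lit 443) (nat_lit 412))))) (XT.nd (nat_lit 188) (nat_lit 420) (nat_lit 0) (XT.nd (nat_lit 94) (nat_lit 252) (nat_lit 0) (XT.lf (nat_lit 168) (nat_lit 47794430307) (nat_lit 0) (nat_lit 182021426277) (nat_lit 84) (nat_lit 636025501556) (nat_lit 45) (nat_lit 1) (nat_lit 43) (nat_lit 1) (nat_lit 44) (nat_lit 1) (nat_lit 226) (nat_lit 443) (nat_lit 411)) (XT.lf (nat_lit 252) (nat_lit 515923229676) (nat_lit 0) (nat_lit 186159346040) (nat_lit 168) (nat_lit 140145446467) (nat_lit 43) (nat_lit 1) (nat_lit 40) (nat_lit 1) (nat_lit 42) (nat_lit 1) (nat_lit 227) (nat_lit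 443) (nat_lit 410))) (XT.nd (nat_lit 94) (nat_lit 336) (nat_lit 0) (XT.lf (nat_lit 168) (nat_lit 129758496669) (nat_lit 0) (nat_lit 193120031576) (nat_lit 84) (nat_lit 496531974837) (nat_lit 41) (nat_lit 1) (nat_lit 39) (nat_lit 1) (nat_lit 40) (nat_lit 1) (nat_lit 228) (nat_lit 443) (nat_lit 409)) (XT.nd (nat_lit 94) (nat_lit 84) (nat_lit 0) (XT.lf (nat_lit 252) (nat_lit 561692620936) (nat_lit 0) (nat_lit 202434267835) (nat_lit 168) (nat_lit 33221196285) (nat_lit 39) (nat_lit 1) (nat_lit 36) (nat_lit 1) (nat_lit 38) (nat_lit 1) (nat_lit 229) (nat_lit 443) (nat_lit 408)) (XT.lf (nat_lit 168) (nat_lit 186740278534) (nat_lit 0) (nat_lit 211040156714) (nat_lit 84) (nat_lit 378096666317) (nat_lit 37) (nat_lit 1) (nat_lit 35) (nat_lit 1) (nat_lit 36) (nat_lit 1) (nat_lit 230) (nat_lit 443) (nat_lit 407))))))))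
noncomputable def ec387 : XT := (XT.nd (nat_lit 1786) (nat_lit 336) (nat_lit 0) (XT.nd (nat_lit 846) (nat_lit 1260) (nat_lit 0) (XT.nd (nat_lit 376) (nat_lit 672) (nat_lit 0) (XT.nd (nat_lit 188) (nat_lit 336) (nat_lit 0) (XT.nd (nat_lit 94) (nat_lit 84) (nat_lit 0) (XT.lf (nat_lit 84) (nat_lit 53900675962) (nat_lit 0) (nat_lit 169179854013) (nat_lit 252) (nat_lit 532096934634) (nat_lit 33) (nat_lit 1) (nat_lit 32) (nat_lit 1) (nat_lit 35) (nat_lit 1) (nat_lit 231) (nat_lit 443) (nat_lit 406)) (XT.lf (nat_lit 168) (nat_lit 224105182462) (nat_lit 0) (nat_lit 233506977781) (nat_lit 84) (nat_lit 277379730152) (nat_lit 33) (nat_lit 1) (nat_lit 31) (nat_lit 1) (nat_lit 32) (nat_lit 1) (nat_lit 232) (nat_lit 443) (nat_lit 405))) (XT.nd (nat_lit 94) (nat_lit 84) (nat_lit 0) (XT.lf (nat_lit 84) (nat_lit 125352902351) (nat_lit 0) (nat_lit 121412762267) (nat_lit 252)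 (nat_lit 468750022081) (nat_lit 29) (nat_lit 1) (nat_lit 28) (nat_lit 1) (nat_lit 31) (nat_lit 1) (nat_lit 233) (nat_lit 443) (nat_lit 404)) (XT.lf (nat_lit 168) (nat_lit 246180045786) (nat_lit 0) (nat_lit 258744737947) (nat_lit 84) (nat_lit 191612308896) (nat_lit 29) (nat_lit 1) (nat_lit 27) (nat_lit 1) (nat_lit 28) (nat_lit 1) (nat_lit 234) (nat_lit 443) (nat_lit 403)))) (XT.nd (nat_lit 188) (nat_lit 420) (nat_lit 0) (XT.nd (nat_lit 94) (nat_lit 84) (nat_lit 0) (XT.lf (nat_lit 84) (nat_lit 184548458877) (nat_lit 0) (nat_lit 87934038553) (nat_lit 168) (nat_lit 405702776593) (nat_lit 26) (nat_lit 1) (nat_lit 25) (nat_lit 1) (nat_lit 27) (nat_lit 1) (nat_lit 235) (nat_lit 443) (nat_lit 402)) (XT.lf (nat_lit 168) (nat_lit 256447200436) (nat_lit 0) (nat_lit 285379481486) (nat_lit 84) (nat_lit 118494680949) (nat_lit 26) (nat_lit 1) (nat_lit 24) (nat_lit 1) (nat_lit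 25) (nat_lit 1) (nat_lit 236) (nat_lit 443) (nat_lit 401))) (XT.nd (nat_lit 94) (nat_lit 252) (nat_lit 0) (XT.lf (nat_lit 84) (nat_lit 233436641481) (nat_lit 0) (nat_lit 65599939357) (nat_lit 168) (nat_lit 343970346105) (nat_lit 23) (nat_lit 1) (nat_lit 22) (nat_lit 1) (nat_lit 24) (nat_lit 1) (nat_lit 237) (nat_lit 443) (nat_lit 400)) (XT.nd (nat_lit 94) (nat_lit 168) (nat_lit 0) (XT.lf (nat_lit 168) (nat_lit 257702711285) (nat_lit 0) (nat_lit 312360004831) (nat_lit 84) (nat_lit 56112907095) (nat_lit 23) (nat_lit 1) (nat_lit 21) (nat_lit 1) (nat_lit 22) (nat_lit 1) (nat_lit 238) (nat_lit 443) (nat_lit 399)) (XT.lf (nat_lit 84) (nat_lit 273637532606) (nat_lit 0) (nat_lit 51882602632) (nat_lit 168) (nat_lit 284301568148) (nat_lit 20) (nat_lit 1) (nat_lit 19) (nat_lit 1) (nat_lit 21) (nat_lit 1) (nat_lit 239) (nat_lit 443) (nat_lit 398)))))) (XT.nd (nat_lit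 470) (nat_lit 672) (nat_lit 0) (XT.nd (nat_lit 188) (nat_lit 336) (nat_lit 0) (XT.nd (nat_lit 94) (nat_lit 168) (nat_lit 0) (XT.lf (nat_lit 168) (nat_lit 252185375659) (nat_lit 0) (nat_lit 338893659038) (nat_lit 84) (nat_lit 2870593583) (nat_lit 20) (nat_lit 1) (nat_lit 18) (nat_lit 1) (nat_lit 19) (nat_lit 1) (nat_lit 240) (nat_lit 443) (nat_lit 397)) (XT.lf (nat_lit 84) (nat_lit 306500275195) (nat_lit 0) (nat_lit 44754405050) (nat_lit 168) (nat_lit 227233239343) (nat_lit 17) (nat_lit 1) (nat_lit 16) (nat_lit 1) (nat_lit 18) (nat_lit 1) (nat_lit 241) (nat_lit 443) (nat_lit 396))) (XT.nd (nat_lit 94) (nat_lit 252) (nat_lit 0) (XT.lf (nat_lit 0) (nat_lit 41204581299) (nat_lit 0) (nat_lit 322491856165) (nat_lit 168) (nat_lit 199779460470) (nat_lit 15) (nat_lit 3) (nat_lit 15) (nat_lit 1) (nat_lit 17) (nat_lit 1) (nat_lit 242) (nat_lit 443) (nat_lit 395)) (XT.nd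 (nat_lit 94) (nat_lit 84) (nat_lit 0) (XT.lf (nat_lit 84) (nat_lit 333150798287) (nat_lit 0) (nat_lit 42593706316) (nat_lit 168) (nat_lit 173134082481) (nat_lit 14) (nat_lit 1) (nat_lit 13) (nat_lit 1) (nat_lit 15) (nat_lit 1) (nat_lit 243) (nat_lit 443) (nat_lit 394)) (XT.lf (nat_lit 0) (nat_lit 78715994088) (nat_lit 0) (nat_lit 308390756373) (nat_lit 168) (nat_lit 147563285071) (nat_lit 12) (nat_lit 3) (nat_lit 12) (nat_lit 1) (nat_lit 14) (nat_lit 1) (nat_lit 244) (nat_lit 443) (nat_lit 393))))) (XT.nd (nat_lit 188) (nat_lit 420) (nat_lit 0) (XT.nd (nat_lit 94) (nat_lit 84) (nat_lit 0) (XT.lf (nat_lit 84) (nat_lit 354530920526) (nat_lit 0) (nat_lit 44108045947) (nat_lit 168) (nat_lit 122240322737) (nat_lit 11) (nat_lit 1) (nat_lit 10) (nat_lit 1) (nat_lit 12) (nat_lit 1) (nat_lit 245) (nat_lit 443) (nat_lit 392)) (XT.lf (nat_lit 0) (nat_lit 110665927467)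 (nat_lit 0) (nat_lit 298198393896) (nat_lit 168) (nat_lit 98560320585) (nat_lit 9) (nat_lit 3) (nat_lit 9) (nat_lit 1) (nat_lit 11) (nat_lit 1) (nat_lit 246) (nat_lit 443) (nat_lit 391))) (XT.nd (nat_lit 94) (nat_lit 252) (nat_lit 0) (XT.lf (nat_lit 84) (nat_lit 371430404992) (nat_lit 0) (nat_lit 48271580513) (nat_lit 168) (nat_lit 74684432566) (nat_lit 8) (nat_lit 1) (nat_lit 7) (nat_lit 1) (nat_lit 9) (nat_lit 1) (nat_lit 247) (nat_lit 443) (nat_lit 390)) (XT.nd (nat_lit 94) (nat_lit 168) (nat_lit 0) (XT.lf (nat_lit 0) (nat_lit 137821945564) (nat_lit 0) (nat_lit 290944672741) (nat_lit 168) (nat_lit 52873654246) (nat_lit 6) (nat_lit 3) (nat_lit 6) (nat_lit 1) (nat_lit 8) (nat_lit 1) (nat_lit 248) (nat_lit 443) (nat_lit 389)) (XT.lf (nat_lit 84) (nat_lit 384513250584) (nat_lit 0) (nat_lit 54274139262) (nat_lit 168) (nat_lit 30518317453) (nat_lit 5) (nat_lit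 1) (nat_lit 4) (nat_lit 1) (nat_lit 6) (nat_lit 1) (nat_lit 249) (nat_lit 443) (nat_lit 388))))))) (XT.nd (nat_lit 846) (nat_lit 0) (nat_lit 0) (XT.nd (nat_lit 376) (nat_lit 0) (nat_lit 0) (XT.nd (nat_lit 188) (nat_lit 0) (nat_lit 0) (XT.nd (nat_lit 94) (nat_lit 252) (nat_lit 0) (XT.lf (nat_lit 0) (nat_lit 160833224572) (nat_lit 0) (nat_lit 285859946743) (nat_lit 168) (nat_lit 10533138722) (nat_lit 3) (nat_lit 3) (nat_lit 3) (nat_lit 1) (nat_lit 5) (nat_lit 1) (nat_lit 250) (nat_lit 443) (nat_lit 387)) (XT.lf (nat_lit 0) (nat_lit 646310459763) (nat_lit 0) (nat_lit 0) (nat_lit 0) (nat_lit 0) (nat_lit 0) (nat_lit 0) (nat_lit 1) (nat_lit 0) (nat_lit 1) (nat_lit 0) (nat_lit 251) (nat_lit 443) (nat_lit 386))) (XT.nd (nat_lit 94) (nat_lit 0) (nat_lit 0) (XT.lf (nat_lit 0) (nat_lit 645722180223) (nat_lit 0) (nat_lit 0) (nat_lit 0) (nat_lit 0) (nat_lit 0) (nat_lit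 0) (nat_lit 1) (nat_lit 0) (nat_lit 1) (nat_lit 0) (nat_lit 252) (nat_lit 443) (nat_lit 385)) (XT.lf (nat_lit 0) (nat_lit 645177476945) (nat_lit 0) (nat_lit 0) (nat_lit 0) (nat_lit 0) (nat_lit 0) (nat_lit 0) (nat_lit 1) (nat_lit 0) (nat_lit 1) (nat_lit 0) (nat_lit 253) (nat_lit 443) (nat_lit 384)))) (XT.nd (nat_lit 188) (nat_lit 0) (nat_lit 0) (XT.nd (nat_lit 94) (nat_lit 0) (nat_lit 0) (XT.lf (nat_lit 0) (nat_lit 644673122058) (nat_lit 0) (nat_lit 0) (nat_lit 0) (nat_lit 0) (nat_lit 0) (nat_lit 0) (nat_lit 1) (nat_lit 0) (nat_lit 1) (nat_lit 0) (nat_lit 254) (nat_lit 443) (nat_lit 383)) (XT.lf (nat_lit 0) (nat_lit 644206126793) (nat_lit 0) (nat_lit 0) (nat_lit 0) (nat_lit 0) (nat_lit 0) (nat_lit 0) (nat_lit 1) (nat_lit 0) (nat_lit 1) (nat_lit 0) (nat_lit 255) (nat_lit 443) (nat_lit 382))) (XT.nd (nat_lit 94) (nat_lit 0) (nat_lit 0) (XT.lf (nat_lit 0) (nat_lit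 643773723769) (nat_lit 0) (nat_lit 0) (nat_lit 0) (nat_lit 0) (nat_lit 0) (nat_lit 0) (nat_lit 1) (nat_lit 0) (nat_lit 1) (nat_lit 0) (nat_lit 256) (nat_lit 443) (nat_lit 381)) (XT.nd (nat_lit 94) (nat_lit 0) (nat_lit 0) (XT.lf (nat_lit 0) (nat_lit 643373350599) (nat_lit 0) (nat_lit 0) (nat_lit 0) (nat_lit 0) (nat_lit 0) (nat_lit 0) (nat_lit 1) (nat_lit 0) (nat_lit 1) (nat_lit 0) (nat_lit 257) (nat_lit 443) (nat_lit 380)) (XT.lf (nat_lit 0) (nat_lit 643002634701) (nat_lit 0) (nat_lit 0) (nat_lit 0) (nat_lit 0) (nat_lit 0) (nat_lit 0) (nat_lit 1) (nat_lit 0) (nat_lit 1) (nat_lit 0) (nat_lit 258) (nat_lit 443) (nat_lit 379)))))) (XT.nd (nat_lit 470) (nat_lit 0) (nat_lit 0) (XT.nd (nat_lit 188) (nat_lit 0) (nat_lit 0) (XT.nd (nat_lit 94) (nat_lit 0) (nat_lit 0) (XT.lf (nat_lit 0) (nat_lit 642659379240) (nat_lit 0) (nat_lit 0) (nat_lit 0) (nat_lit 0) (nat_lit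 0) (nat_lit 0) (nat_lit 1) (nat_lit 0) (nat_lit 1) (nat_lit 0) (nat_lit 259) (nat_lit 443) (nat_lit 378)) (XT.lf (nat_lit 0) (nat_lit 642341550109) (nat_lit 0) (nat_lit 0) (nat_lit 0) (nat_lit 0) (nat_lit 0) (nat_lit 0) (nat_lit 1) (nat_lit 0) (nat_lit 1) (nat_lit 0) (nat_lit 260) (nat_lit 443) (nat_lit 377))) (XT.nd (nat_lit 94) (nat_lit 0) (nat_lit 0) (XT.lf (nat_lit 0) (nat_lit 642047263877) (nat_lit 0) (nat_lit 0) (nat_lit 0) (nat_lit 0) (nat_lit 0) (nat_lit 0) (nat_lit 1) (nat_lit 0) (nat_lit 1) (nat_lit 0) (nat_lit 261) (nat_lit 443) (nat_lit 376)) (XT.nd (nat_lit 94) (nat_lit 0) (nat_lit 0) (XT.lf (nat_lit 0) (nat_lit 641774776625) (nat_lit 0) (nat_lit 0) (nat_lit 0) (nat_lit 0) (nat_lit 0) (nat_lit 0) (nat_lit 1) (nat_lit 0) (nat_lit 1) (nat_lit 0) (nat_lit 262) (nat_lit 443) (nat_lit 375)) (XT.lf (nat_lit 0) (nat_lit 641522473613) (nat_lit 0) (nat_lit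 0) (nat_lit 0) (nat_lit 0) (nat_lit 0) (nat_lit 0) (nat_lit 1) (nat_lit 0) (nat_lit 1) (nat_lit 0) (nat_lit 263) (nat_lit 443) (nat_lit 374))))) (XT.nd (nat_lit 188) (nat_lit 0) (nat_lit 0) (XT.nd (nat_lit 94) (nat_lit 0) (nat_lit 0) (XT.lf (nat_lit 0) (nat_lit 641288859714) (nat_lit 0) (nat_lit 0) (nat_lit 0) (nat_lit 0) (nat_lit 0) (nat_lit 0) (nat_lit 1) (nat_lit 0) (nat_lit 1) (nat_lit 0) (nat_lit 264) (nat_lit 443) (nat_lit 373)) (XT.lf (nat_lit 0) (nat_lit 641072550548) (nat_lit 0) (nat_lit 0) (nat_lit 0) (nat_lit 0) (nat_lit 0) (nat_lit 0) (nat_lit 1) (nat_lit 0) (nat_lit 1) (nat_lit 0) (nat_lit 265) (nat_lit 443) (nat_lit 372))) (XT.nd (nat_lit 94) (nat_lit 0) (nat_lit 0) (XT.lf (nat_lit 0) (nat_lit 640872264283) (nat_lit 0) (nat_lit 0) (nat_lit 0) (nat_lit 0) (nat_lit 0) (nat_lit 0) (nat_lit 1) (nat_lit 0) (nat_lit 1) (nat_lit 0) (nat_lit 266) (nat_lit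 443) (nat_lit 371)) (XT.nd (nat_lit 94) (nat_lit 0) (nat_lit 0) (XT.lf (nat_lit 0) (nat_lit 640686814038) (nat_lit 0) (nat_lit 0) (nat_lit 0) (nat_lit 0) (nat_lit 0) (nat_lit 0) (nat_lit 1) (nat_lit 0) (nat_lit 1) (nat_lit 0) (nat_lit 267) (nat_lit 443) (nat_lit 370)) (XT.lf (nat_lit 0) (nat_lit 640515100848) (nat_lit 0) (nat_lit 0) (nat_lit 0) (nat_lit 0) (nat_lit 0) (nat_lit 0) (nat_lit 1) (nat_lit 0) (nat_lit 1) (nat_lit 0) (nat_lit 268) (nat_lit 443) (nat_lit 369))))))))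
noncomputable def ec388 : XT := (XT.nd (nat_lit 1692) (nat_lit 0) (nat_lit 0) (XT.nd (nat_lit 846) (nat_lit 0) (nat_lit 0) (XT.nd (nat_lit 376) (nat_lit 0) (nat_lit 0) (XT.nd (nat_lit 188) (nat_lit 0) (nat_lit 0) (XT.nd (nat_lit 94) (nat_lit 0) (nat_lit 0) (XT.lf (nat_lit 0) (nat_lit 640356107154) (nat_lit 0) (nat_lit 0) (nat_lit 0) (nat_lit 0) (nat_lit 0) (nat_lit 0) (nat_lit 1) (nat_lit 0) (nat_lit 1) (nat_lit 0) (nat_lit 269) (nat_lit 443) (nat_lit 368)) (XT.lf (nat_lit 0) (nat_lit 640208890770) (nat_lit 0) (nat_lit 0) (nat_lit 0) (nat_lit 0) (nat_lit 0) (nat_lit 0) (nat_lit 1) (nat_lit 0) (nat_lit 1) (nat_lit 0) (nat_lit 270) (nat_lit 443) (nat_lit 367))) (XT.nd (nat_lit 94) (nat_lit 0) (nat_lit 0) (XT.lf (nat_lit 0) (nat_lit 640072579304) (nat_lit 0) (nat_lit 0) (nat_lit 0) (nat_lit 0) (nat_lit 0) (nat_lit 0) (nat_lit 1) (nat_lit 0) (nat_lit 1) (nat_lit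 0) (nat_lit 271) (nat_lit 443) (nat_lit 366)) (XT.lf (nat_lit 0) (nat_lit 639946364983) (nat_lit 0) (nat_lit 0) (nat_lit 0) (nat_lit 0) (nat_lit 0) (nat_lit 0) (nat_lit 1) (nat_lit 0) (nat_lit 1) (nat_lit 0) (nat_lit 272) (nat_lit 443) (nat_lit 365)))) (XT.nd (nat_lit 188) (nat_lit 0) (nat_lit 0) (XT.nd (nat_lit 94) (nat_lit 0) (nat_lit 0) (XT.lf (nat_lit 0) (nat_lit 639829499871) (nat_lit 0) (nat_lit 0) (nat_lit 0) (nat_lit 0) (nat_lit 0) (nat_lit 0) (nat_lit 1) (nat_lit 0) (nat_lit 1) (nat_lit 0) (nat_lit 273) (nat_lit 443) (nat_lit 364)) (XT.lf (nat_lit 0) (nat_lit 639721291434) (nat_lit 0) (nat_lit 0) (nat_lit 0) (nat_lit 0) (nat_lit 0) (nat_lit 0) (nat_lit 1) (nat_lit 0) (nat_lit 1) (nat_lit 0) (nat_lit 274) (nat_lit 443) (nat_lit 363))) (XT.nd (nat_lit 94) (nat_lit 0) (nat_lit 0) (XT.lf (nat_lit 0) (nat_lit 639621098437) (nat_lit 0) (nat_lit 0) (nat_lit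 0) (nat_lit 0) (nat_lit 0) (nat_lit 0) (nat_lit 1) (nat_lit 0) (nat_lit 1) (nat_lit 0) (nat_lit 275) (nat_lit 443) (nat_lit 362)) (XT.nd (nat_lit 94) (nat_lit 0) (nat_lit 0) (XT.lf (nat_lit 0) (nat_lit 639528327144) (nat_lit 0) (nat_lit 0) (nat_lit 0) (nat_lit 0) (nat_lit 0) (nat_lit 0) (nat_lit 1) (nat_lit 0) (nat_lit 1) (nat_lit 0) (nat_lit 276) (nat_lit 443) (nat_lit 361)) (XT.lf (nat_lit 0) (nat_lit 639442427798) (nat_lit 0) (nat_lit 0) (nat_lit 0) (nat_lit 0) (nat_lit 0) (nat_lit 0) (nat_lit 1) (nat_lit 0) (nat_lit 1) (nat_lit 0) (nat_lit 277) (nat_lit 443) (nat_lit 360)))))) (XT.nd (nat_lit 376) (nat_lit 0) (nat_lit 0) (XT.nd (nat_lit 188) (nat_lit 0) (nat_lit 0) (XT.nd (nat_lit 94) (nat_lit 0) (nat_lit 0) (XT.lf (nat_lit 0) (nat_lit 639362891366) (nat_lit 0) (nat_lit 0) (nat_lit 0) (nat_lit 0) (nat_lit 0) (nat_lit 0) (nat_lit 1) (nat_lit 0) (nat_lit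 1) (nat_lit 0) (nat_lit 278) (nat_lit 443) (nat_lit 359)) (XT.lf (nat_lit 0) (nat_lit 639289246523) (nat_lit 0) (nat_lit 0) (nat_lit 0) (nat_lit 0) (nat_lit 0) (nat_lit 0) (nat_lit 1) (nat_lit 0) (nat_lit 1) (nat_lit 0) (nat_lit 279) (nat_lit 443) (nat_lit 358))) (XT.nd (nat_lit 94) (nat_lit 0) (nat_lit 0) (XT.lf (nat_lit 0) (nat_lit 639221056852) (nat_lit 0) (nat_lit 0) (nat_lit 0) (nat_lit 0) (nat_lit 0) (nat_lit 0) (nat_lit 1) (nat_lit 0) (nat_lit 1) (nat_lit 0) (nat_lit 280) (nat_lit 443) (nat_lit 357)) (XT.lf (nat_lit 0) (nat_lit 639157918269) (nat_lit 0) (nat_lit 0) (nat_lit 0) (nat_lit 0) (nat_lit 0) (nat_lit 0) (nat_lit 1) (nat_lit 0) (nat_lit 1) (nat_lit 0) (nat_lit 281) (nat_lit 443) (nat_lit 356)))) (XT.nd (nat_lit 188) (nat_lit 0) (nat_lit 0) (XT.nd (nat_lit 94) (nat_lit 0) (nat_lit 0) (XT.lf (nat_lit 0) (nat_lit 639099456617) (nat_lit 0) (nat_lit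 0) (nat_lit 0) (nat_lit 0) (nat_lit 0) (nat_lit 0) (nat_lit 1) (nat_lit 0) (nat_lit 1) (nat_lit 0) (nat_lit 282) (nat_lit 443) (nat_lit 355)) (XT.lf (nat_lit 0) (nat_lit 639045325459) (nat_lit 0) (nat_lit 0) (nat_lit 0) (nat_lit 0) (nat_lit 0) (nat_lit 0) (nat_lit 1) (nat_lit 0) (nat_lit 1) (nat_lit 0) (nat_lit 283) (nat_lit 443) (nat_lit 354))) (XT.nd (nat_lit 94) (nat_lit 0) (nat_lit 0) (XT.lf (nat_lit 0) (nat_lit 638995204015) (nat_lit 0) (nat_lit 0) (nat_lit 0) (nat_lit 0) (nat_lit 0) (nat_lit 0) (nat_lit 1) (nat_lit 0) (nat_lit 1) (nat_lit 0) (nat_lit 284) (nat_lit 443) (nat_lit 353)) (XT.nd (nat_lit 94) (nat_lit 0) (nat_lit 0) (XT.lf (nat_lit 0) (nat_lit 638948795271) (nat_lit 0) (nat_lit 0) (nat_lit 0) (nat_lit 0) (nat_lit 0) (nat_lit 0) (nat_lit 1) (nat_lit 0) (nat_lit 1) (nat_lit 0) (nat_lit 285) (nat_lit 443) (nat_lit 352)) (XT.lf (nat_lit 0) (nat_lit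 638905824212) (nat_lit 0) (nat_lit 0) (nat_lit 0) (nat_lit 0) (nat_lit 0) (nat_lit 0) (nat_lit 1) (nat_lit 0) (nat_lit 1) (nat_lit 0) (nat_lit 286) (nat_lit 443) (nat_lit 351))))))) (XT.nd (nat_lit 846) (nat_lit 0) (nat_lit 0) (XT.nd (nat_lit 376) (nat_lit 0) (nat_lit 0) (XT.nd (nat_lit 188) (nat_lit 0) (nat_lit 0) (XT.nd (nat_lit 94) (nat_lit 0) (nat_lit 0) (XT.lf (nat_lit 0) (nat_lit 638866036195) (nat_lit 0) (nat_lit 0) (nat_lit 0) (nat_lit 0) (nat_lit 0) (nat_lit 0) (nat_lit 1) (nat_lit 0) (nat_lit 1) (nat_lit 0) (nat_lit 287) (nat_lit 443) (nat_lit 350)) (XT.lf (nat_lit 0) (nat_lit 638829195438) (nat_lit 0) (nat_lit 0) (nat_lit 0) (nat_lit 0) (nat_lit 0) (nat_lit 0) (nat_lit 1) (nat_lit 0) (nat_lit 1) (nat_lit 0) (nat_lit 288) (nat_lit 443) (nat_lit 349))) (XT.nd (nat_lit 94) (nat_lit 0) (nat_lit 0) (XT.lf (nat_lit 0) (nat_lit 638795083625) (nat_lit 0)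 (nat_lit 0) (nat_lit 0) (nat_lit 0) (nat_lit 0) (nat_lit 0) (nat_lit 1) (nat_lit 0) (nat_lit 1) (nat_lit 0) (nat_lit 289) (nat_lit 443) (nat_lit 348)) (XT.lf (nat_lit 0) (nat_lit 638763498614) (nat_lit 0) (nat_lit 0) (nat_lit 0) (nat_lit 0) (nat_lit 0) (nat_lit 0) (nat_lit 1) (nat_lit 0) (nat_lit 1) (nat_lit 0) (nat_lit 290) (nat_lit 443) (nat_lit 347)))) (XT.nd (nat_lit 188) (nat_lit 0) (nat_lit 0) (XT.nd (nat_lit 94) (nat_lit 0) (nat_lit 0) (XT.lf (nat_lit 0) (nat_lit 638734253233) (nat_lit 0) (nat_lit 0) (nat_lit 0) (nat_lit 0) (nat_lit 0) (nat_lit 0) (nat_lit 1) (nat_lit 0) (nat_lit 1) (nat_lit 0) (nat_lit 291) (nat_lit 443) (nat_lit 346)) (XT.lf (nat_lit 0) (nat_lit 638707174177) (nat_lit 0) (nat_lit 0) (nat_lit 0) (nat_lit 0) (nat_lit 0) (nat_lit 0) (nat_lit 1) (nat_lit 0) (nat_lit 1) (nat_lit 0) (nat_lit 292) (nat_lit 443) (nat_lit 345))) (XT.nd (nat_lit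 94) (nat_lit 0) (nat_lit 0) (XT.lf (nat_lit 0) (nat_lit 638682100977) (nat_lit 0) (nat_lit 0) (nat_lit 0) (nat_lit 0) (nat_lit 0) (nat_lit 0) (nat_lit 1) (nat_lit 0) (nat_lit 1) (nat_lit 0) (nat_lit 293) (nat_lit 443) (nat_lit 344)) (XT.nd (nat_lit 94) (nat_lit 0) (nat_lit 0) (XT.lf (nat_lit 0) (nat_lit 638658885051) (nat_lit 0) (nat_lit 0) (nat_lit 0) (nat_lit 0) (nat_lit 0) (nat_lit 0) (nat_lit 1) (nat_lit 0) (nat_lit 1) (nat_lit 0) (nat_lit 294) (nat_lit 443) (nat_lit 343)) (XT.lf (nat_lit 0) (nat_lit 638637388823) (nat_lit 0) (nat_lit 0) (nat_lit 0) (nat_lit 0) (nat_lit 0) (nat_lit 0) (nat_lit 1) (nat_lit 0) (nat_lit 1) (nat_lit 0) (nat_lit 295) (nat_lit 443) (nat_lit 342)))))) (XT.nd (nat_lit 470) (nat_lit 0) (nat_lit 0) (XT.nd (nat_lit 188) (nat_lit 0) (nat_lit 0) (XT.nd (nat_lit 94) (nat_lit 0) (nat_lit 0) (XT.lf (nat_lit 0) (nat_lit 638617484908) (nat_lit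 0) (nat_lit 0) (nat_lit 0) (nat_lit 0) (nat_lit 0) (nat_lit 0) (nat_lit 1) (nat_lit 0) (nat_lit 1) (nat_lit 0) (nat_lit 296) (nat_lit 443) (nat_lit 341)) (XT.lf (nat_lit 0) (nat_lit 638599055357) (nat_lit 0) (nat_lit 0) (nat_lit 0) (nat_lit 0) (nat_lit 0) (nat_lit 0) (nat_lit 1) (nat_lit 0) (nat_lit 1) (nat_lit 0) (nat_lit 297) (nat_lit 443) (nat_lit 340))) (XT.nd (nat_lit 94) (nat_lit 0) (nat_lit 0) (XT.lf (nat_lit 0) (nat_lit 638581990959) (nat_lit 0) (nat_lit 0) (nat_lit 0) (nat_lit 0) (nat_lit 0) (nat_lit 0) (nat_lit 1) (nat_lit 0) (nat_lit 1) (nat_lit 0) (nat_lit 298) (nat_lit 443) (nat_lit 339)) (XT.nd (nat_lit 94) (nat_lit 0) (nat_lit 0) (XT.lf (nat_lit 0) (nat_lit 638566190589) (nat_lit 0) (nat_lit 0) (nat_lit 0) (nat_lit 0) (nat_lit 0) (nat_lit 0) (nat_lit 1) (nat_lit 0) (nat_lit 1) (nat_lit 0) (nat_lit 299) (nat_lit 443) (nat_lit 338)) (XT.lf (nat_lit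 0) (nat_lit 638551560618) (nat_lit 0) (nat_lit 0) (nat_lit 0) (nat_lit 0) (nat_lit 0) (nat_lit 0) (nat_lit 1) (nat_lit 0) (nat_lit 1) (nat_lit 0) (nat_lit 300) (nat_lit 443) (nat_lit 337))))) (XT.nd (nat_lit 188) (nat_lit 0) (nat_lit 0) (XT.nd (nat_lit 94) (nat_lit 0) (nat_lit 0) (XT.lf (nat_lit 0) (nat_lit 638538014348) (nat_lit 0) (nat_lit 0) (nat_lit 0) (nat_lit 0) (nat_lit 0) (nat_lit 0) (nat_lit 1) (nat_lit 0) (nat_lit 1) (nat_lit 0) (nat_lit 301) (nat_lit 443) (nat_lit 336)) (XT.lf (nat_lit 0) (nat_lit 638525471505) (nat_lit 0) (nat_lit 0) (nat_lit 0) (nat_lit 0) (nat_lit 0) (nat_lit 0) (nat_lit 1) (nat_lit 0) (nat_lit 1) (nat_lit 0) (nat_lit 302) (nat_lit 443) (nat_lit 335))) (XT.nd (nat_lit 94) (nat_lit 0) (nat_lit 0) (XT.lf (nat_lit 0) (nat_lit 638513857762) (nat_lit 0) (nat_lit 0) (nat_lit 0) (nat_lit 0) (nat_lit 0) (nat_lit 0) (nat_lit 1) (nat_lit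 0) (nat_lit 1) (nat_lit 0) (nat_lit 303) (nat_lit 443) (nat_lit 334)) (XT.nd (nat_lit 94) (nat_lit 0) (nat_lit 0) (XT.lf (nat_lit 0) (nat_lit 638503104297) (nat_lit 0) (nat_lit 0) (nat_lit 0) (nat_lit 0) (nat_lit 0) (nat_lit 0) (nat_lit 1) (nat_lit 0) (nat_lit 1) (nat_lit 0) (nat_lit 304) (nat_lit 443) (nat_lit 333)) (XT.lf (nat_lit 0) (nat_lit 638493147384) (nat_lit 0) (nat_lit 0) (nat_lit 0) (nat_lit 0) (nat_lit 0) (nat_lit 0) (nat_lit 1) (nat_lit 0) (nat_lit 1) (nat_lit 0) (nat_lit 305) (nat_lit 443) (nat_lit 332))))))))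
noncomputable def ec389 : XT := (XT.nd (nat_lit 1786) (nat_lit 0) (nat_lit 0) (XT.nd (nat_lit 846) (nat_lit 0) (nat_lit 0) (XT.nd (nat_lit 376) (nat_lit 0) (nat_lit 0) (XT.nd (nat_lit 188) (nat_lit 0) (nat_lit 0) (XT.nd (nat_lit 94) (nat_lit 0) (nat_lit 0) (XT.lf (nat_lit 0) (nat_lit 638483928020) (nat_lit 0) (nat_lit 0) (nat_lit 0) (nat_lit 0) (nat_lit 0) (nat_lit 0) (nat_lit 1) (nat_lit 0) (nat_lit 1) (nat_lit 0) (nat_lit 306) (nat_lit 443) (nat_lit 331)) (XT.lf (nat_lit 0) (nat_lit 638475391572) (nat_lit 0) (nat_lit 0) (nat_lit 0) (nat_lit 0) (nat_lit 0) (nat_lit 0) (nat_lit 1) (nat_lit 0) (nat_lit 1) (nat_lit 0) (nat_lit 307) (nat_lit 443) (nat_lit 330))) (XT.nd (nat_lit 94) (nat_lit 0) (nat_lit 0) (XT.lf (nat_lit 0) (nat_lit 638467487454) (nat_lit 0) (nat_lit 0) (nat_lit 0) (nat_lit 0) (nat_lit 0) (nat_lit 0) (nat_lit 1) (nat_lit 0) (nat_lit 1) (nat_lit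 0) (nat_lit 308) (nat_lit 443) (nat_lit 329)) (XT.lf (nat_lit 0) (nat_lit 638460168826) (nat_lit 0) (nat_lit 0) (nat_lit 0) (nat_lit 0) (nat_lit 0) (nat_lit 0) (nat_lit 1) (nat_lit 0) (nat_lit 1) (nat_lit 0) (nat_lit 309) (nat_lit 443) (nat_lit 328)))) (XT.nd (nat_lit 188) (nat_lit 0) (nat_lit 0) (XT.nd (nat_lit 94) (nat_lit 0) (nat_lit 0) (XT.lf (nat_lit 0) (nat_lit 638453392318) (nat_lit 0) (nat_lit 0) (nat_lit 0) (nat_lit 0) (nat_lit 0) (nat_lit 0) (nat_lit 1) (nat_lit 0) (nat_lit 1) (nat_lit 0) (nat_lit 310) (nat_lit 443) (nat_lit 327)) (XT.lf (nat_lit 0) (nat_lit 638447117774) (nat_lit 0) (nat_lit 0) (nat_lit 0) (nat_lit 0) (nat_lit 0) (nat_lit 0) (nat_lit 1) (nat_lit 0) (nat_lit 1) (nat_lit 0) (nat_lit 311) (nat_lit 443) (nat_lit 326))) (XT.nd (nat_lit 94) (nat_lit 0) (nat_lit 0) (XT.lf (nat_lit 0) (nat_lit 638441308011) (nat_lit 0) (nat_lit 0) (nat_lit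 0) (nat_lit 0) (nat_lit 0) (nat_lit 0) (nat_lit 1) (nat_lit 0) (nat_lit 1) (nat_lit 0) (nat_lit 312) (nat_lit 443) (nat_lit 325)) (XT.nd (nat_lit 94) (nat_lit 0) (nat_lit 0) (XT.lf (nat_lit 0) (nat_lit 638435928601) (nat_lit 0) (nat_lit 0) (nat_lit 0) (nat_lit 0) (nat_lit 0) (nat_lit 0) (nat_lit 1) (nat_lit 0) (nat_lit 1) (nat_lit 0) (nat_lit 313) (nat_lit 443) (nat_lit 324)) (XT.lf (nat_lit 0) (nat_lit 638430947666) (nat_lit 0) (nat_lit 0) (nat_lit 0) (nat_lit 0) (nat_lit 0) (nat_lit 0) (nat_lit 1) (nat_lit 0) (nat_lit 1) (nat_lit 0) (nat_lit 314) (nat_lit 443) (nat_lit 323)))))) (XT.nd (nat_lit 470) (nat_lit 0) (nat_lit 0) (XT.nd (nat_lit 188) (nat_lit 0) (nat_lit 0) (XT.nd (nat_lit 94) (nat_lit 0) (nat_lit 0) (XT.lf (nat_lit 0) (nat_lit 638426335688) (nat_lit 0) (nat_lit 0) (nat_lit 0) (nat_lit 0) (nat_lit 0) (nat_lit 0) (nat_lit 1) (nat_lit 0) (nat_lit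 1) (nat_lit 0) (nat_lit 315) (nat_lit 443) (nat_lit 322)) (XT.lf (nat_lit 0) (nat_lit 638422065339) (nat_lit 0) (nat_lit 0) (nat_lit 0) (nat_lit 0) (nat_lit 0) (nat_lit 0) (nat_lit 1) (nat_lit 0) (nat_lit 1) (nat_lit 0) (nat_lit 316) (nat_lit 443) (nat_lit 321))) (XT.nd (nat_lit 94) (nat_lit 0) (nat_lit 0) (XT.lf (nat_lit 0) (nat_lit 638418111312) (nat_lit 0) (nat_lit 0) (nat_lit 0) (nat_lit 0) (nat_lit 0) (nat_lit 0) (nat_lit 1) (nat_lit 0) (nat_lit 1) (nat_lit 0) (nat_lit 317) (nat_lit 443) (nat_lit 320)) (XT.nd (nat_lit 94) (nat_lit 0) (nat_lit 0) (XT.lf (nat_lit 0) (nat_lit 638414450176) (nat_lit 0) (nat_lit 0) (nat_lit 0) (nat_lit 0) (nat_lit 0) (nat_lit 0) (nat_lit 1) (nat_lit 0) (nat_lit 1) (nat_lit 0) (nat_lit 318) (nat_lit 443) (nat_lit 319)) (XT.lf (nat_lit 0) (nat_lit 638411060235) (nat_lit 0) (nat_lit 0) (nat_lit 0) (nat_lit 0) (nat_lit 0) (nat_lit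 0) (nat_lit 1) (nat_lit 0) (nat_lit 1) (nat_lit 0) (nat_lit 319) (nat_lit 443) (nat_lit 318))))) (XT.nd (nat_lit 188) (nat_lit 0) (nat_lit 0) (XT.nd (nat_lit 94) (nat_lit 0) (nat_lit 0) (XT.lf (nat_lit 0) (nat_lit 638407921401) (nat_lit 0) (nat_lit 0) (nat_lit 0) (nat_lit 0) (nat_lit 0) (nat_lit 0) (nat_lit 1) (nat_lit 0) (nat_lit 1) (nat_lit 0) (nat_lit 320) (nat_lit 443) (nat_lit 317)) (XT.lf (nat_lit 0) (nat_lit 638405015073) (nat_lit 0) (nat_lit 0) (nat_lit 0) (nat_lit 0) (nat_lit 0) (nat_lit 0) (nat_lit 1) (nat_lit 0) (nat_lit 1) (nat_lit 0) (nat_lit 321) (nat_lit 443) (nat_lit 316))) (XT.nd (nat_lit 94) (nat_lit 0) (nat_lit 0) (XT.lf (nat_lit 0) (nat_lit 638402324029) (nat_lit 0) (nat_lit 0) (nat_lit 0) (nat_lit 0) (nat_lit 0) (nat_lit 0) (nat_lit 1) (nat_lit 0) (nat_lit 1) (nat_lit 0) (nat_lit 322) (nat_lit 443) (nat_lit 315)) (XT.nd (nat_lit 94) (nat_lit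 0) (nat_lit 0) (XT.lf (nat_lit 0) (nat_lit 638399832321) (nat_lit 0) (nat_lit 0) (nat_lit 0) (nat_lit 0) (nat_lit 0) (nat_lit 0) (nat_lit 1) (nat_lit 0) (nat_lit 1) (nat_lit 0) (nat_lit 323) (nat_lit 443) (nat_lit 314)) (XT.lf (nat_lit 0) (nat_lit 638397525184) (nat_lit 0) (nat_lit 0) (nat_lit 0) (nat_lit 0) (nat_lit 0) (nat_lit 0) (nat_lit 1) (nat_lit 0) (nat_lit 1) (nat_lit 0) (nat_lit 324) (nat_lit 443) (nat_lit 313))))))) (XT.nd (nat_lit 846) (nat_lit 0) (nat_lit 0) (XT.nd (nat_lit 376) (nat_lit 0) (nat_lit 0) (XT.nd (nat_lit 188) (nat_lit 0) (nat_lit 0) (XT.nd (nat_lit 94) (nat_lit 0) (nat_lit 0) (XT.lf (nat_lit 0) (nat_lit 638395388946) (nat_lit 0) (nat_lit 0) (nat_lit 0) (nat_lit 0) (nat_lit 0) (nat_lit 0) (nat_lit 1) (nat_lit 0) (nat_lit 1) (nat_lit 0) (nat_lit 325) (nat_lit 443) (nat_lit 312)) (XT.lf (nat_lit 0) (nat_lit 638393410948) (nat_lit 0)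 (nat_lit 0) (nat_lit 0) (nat_lit 0) (nat_lit 0) (nat_lit 0) (nat_lit 1) (nat_lit 0) (nat_lit 1) (nat_lit 0) (nat_lit 326) (nat_lit 443) (nat_lit 311))) (XT.nd (nat_lit 94) (nat_lit 0) (nat_lit 0) (XT.lf (nat_lit 0) (nat_lit 638391579469) (nat_lit 0) (nat_lit 0) (nat_lit 0) (nat_lit 0) (nat_lit 0) (nat_lit 0) (nat_lit 1) (nat_lit 0) (nat_lit 1) (nat_lit 0) (nat_lit 327) (nat_lit 443) (nat_lit 310)) (XT.lf (nat_lit 0) (nat_lit 638389883654) (nat_lit 0) (nat_lit 0) (nat_lit 0) (nat_lit 0) (nat_lit 0) (nat_lit 0) (nat_lit 1) (nat_lit 0) (nat_lit 1) (nat_lit 0) (nat_lit 328) (nat_lit 443) (nat_lit 309)))) (XT.nd (nat_lit 188) (nat_lit 0) (nat_lit 0) (XT.nd (nat_lit 94) (nat_lit 0) (nat_lit 0) (XT.lf (nat_lit 0) (nat_lit 638388313456) (nat_lit 0) (nat_lit 0) (nat_lit 0) (nat_lit 0) (nat_lit 0) (nat_lit 0) (nat_lit 1) (nat_lit 0) (nat_lit 1) (nat_lit 0) (nat_lit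 329) (nat_lit 443) (nat_lit 308)) (XT.lf (nat_lit 0) (nat_lit 638386859568) (nat_lit 0) (nat_lit 0) (nat_lit 0) (nat_lit 0) (nat_lit 0) (nat_lit 0) (nat_lit 1) (nat_lit 0) (nat_lit 1) (nat_lit 0) (nat_lit 330) (nat_lit 443) (nat_lit 307))) (XT.nd (nat_lit 94) (nat_lit 0) (nat_lit 0) (XT.lf (nat_lit 0) (nat_lit 638385513376) (nat_lit 0) (nat_lit 0) (nat_lit 0) (nat_lit 0) (nat_lit 0) (nat_lit 0) (nat_lit 1) (nat_lit 0) (nat_lit 1) (nat_lit 0) (nat_lit 331) (nat_lit 443) (nat_lit 306)) (XT.nd (nat_lit 94) (nat_lit 0) (nat_lit 0) (XT.lf (nat_lit 0) (nat_lit 638384266902) (nat_lit 0) (nat_lit 0) (nat_lit 0) (nat_lit 0) (nat_lit 0) (nat_lit 0) (nat_lit 1) (nat_lit 0) (nat_lit 1) (nat_lit 0) (nat_lit 332) (nat_lit 443) (nat_lit 305)) (XT.lf (nat_lit 0) (nat_lit 638383112759) (nat_lit 0) (nat_lit 0) (nat_lit 0) (nat_lit 0) (nat_lit 0) (nat_lit 0) (nat_lit 1) (nat_lit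 0) (nat_lit 1) (nat_lit 0) (nat_lit 333) (nat_lit 443) (nat_lit 304)))))) (XT.nd (nat_lit 470) (nat_lit 0) (nat_lit 0) (XT.nd (nat_lit 188) (nat_lit 0) (nat_lit 0) (XT.nd (nat_lit 94) (nat_lit 0) (nat_lit 0) (XT.lf (nat_lit 0) (nat_lit 638382044108) (nat_lit 0) (nat_lit 0) (nat_lit 0) (nat_lit 0) (nat_lit 0) (nat_lit 0) (nat_lit 1) (nat_lit 0) (nat_lit 1) (nat_lit 0) (nat_lit 334) (nat_lit 443) (nat_lit 303)) (XT.lf (nat_lit 0) (nat_lit 638381054617) (nat_lit 0) (nat_lit 0) (nat_lit 0) (nat_lit 0) (nat_lit 0) (nat_lit 0) (nat_lit 1) (nat_lit 0) (nat_lit 1) (nat_lit 0) (nat_lit 335) (nat_lit 443) (nat_lit 302))) (XT.nd (nat_lit 94) (nat_lit 0) (nat_lit 0) (XT.lf (nat_lit 0) (nat_lit 638380138421) (nat_lit 0) (nat_lit 0) (nat_lit 0) (nat_lit 0) (nat_lit 0) (nat_lit 0) (nat_lit 1) (nat_lit 0) (nat_lit 1) (nat_lit 0) (nat_lit 336) (nat_lit 443) (nat_lit 301))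 (XT.nd (nat_lit 94) (nat_lit 0) (nat_lit 0) (XT.lf (nat_lit 0) (nat_lit 638379290092) (nat_lit 0) (nat_lit 0) (nat_lit 0) (nat_lit 0) (nat_lit 0) (nat_lit 0) (nat_lit 1) (nat_lit 0) (nat_lit 1) (nat_lit 0) (nat_lit 337) (nat_lit 443) (nat_lit 300)) (XT.lf (nat_lit 0) (nat_lit 638378504601) (nat_lit 0) (nat_lit 0) (nat_lit 0) (nat_lit 0) (nat_lit 0) (nat_lit 0) (nat_lit 1) (nat_lit 0) (nat_lit 1) (nat_lit 0) (nat_lit 338) (nat_lit 443) (nat_lit 299))))) (XT.nd (nat_lit 188) (nat_lit 0) (nat_lit 0) (XT.nd (nat_lit 94) (nat_lit 0) (nat_lit 0) (XT.lf (nat_lit 0) (nat_lit 638377777296) (nat_lit 0) (nat_lit 0) (nat_lit 0) (nat_lit 0) (nat_lit 0) (nat_lit 0) (nat_lit 1) (nat_lit 0) (nat_lit 1) (nat_lit 0) (nat_lit 339) (nat_lit 443) (nat_lit 298)) (XT.lf (nat_lit 0) (nat_lit 638377103864) (nat_lit 0) (nat_lit 0) (nat_lit 0) (nat_lit 0) (nat_lit 0) (nat_lit 0) (nat_lit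 1) (nat_lit 0) (nat_lit 1) (nat_lit 0) (nat_lit 340) (nat_lit 443) (nat_lit 297))) (XT.nd (nat_lit 94) (nat_lit 0) (nat_lit 0) (XT.lf (nat_lit 0) (nat_lit 638376480317) (nat_lit 0) (nat_lit 0) (nat_lit 0) (nat_lit 0) (nat_lit 0) (nat_lit 0) (nat_lit 1) (nat_lit 0) (nat_lit 1) (nat_lit 0) (nat_lit 341) (nat_lit 443) (nat_lit 296)) (XT.nd (nat_lit 94) (nat_lit 0) (nat_lit 0) (XT.lf (nat_lit 0) (nat_lit 638375902958) (nat_lit 0) (nat_lit 0) (nat_lit 0) (nat_lit 0) (nat_lit 0) (nat_lit 0) (nat_lit 1) (nat_lit 0) (nat_lit 1) (nat_lit 0) (nat_lit 342) (nat_lit 443) (nat_lit 295)) (XT.lf (nat_lit 0) (nat_lit 638375368367) (nat_lit 0) (nat_lit 0) (nat_lit 0) (nat_lit 0) (nat_lit 0) (nat_lit 0) (nat_lit 1) (nat_lit 0) (nat_lit 1) (nat_lit 0) (nat_lit 343) (nat_lit 443) (nat_lit 294))))))))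
noncomputable def ec390 : XT := (XT.nd (nat_lit 1692) (nat_lit 0) (nat_lit 0) (XT.nd (nat_lit 846) (nat_lit 0) (nat_lit 0) (XT.nd (nat_lit 376) (nat_lit 0) (nat_lit 0) (XT.nd (nat_lit 188) (nat_lit 0) (nat_lit 0) (XT.nd (nat_lit 94) (nat_lit 0) (nat_lit 0) (XT.lf (nat_lit 0) (nat_lit 638374873375) (nat_lit 0) (nat_lit 0) (nat_lit 0) (nat_lit 0) (nat_lit 0) (nat_lit 0) (nat_lit 1) (nat_lit 0) (nat_lit 1) (nat_lit 0) (nat_lit 344) (nat_lit 443) (nat_lit 293)) (XT.lf (nat_lit 0) (nat_lit 638374415049) (nat_lit 0) (nat_lit 0) (nat_lit 0) (nat_lit 0) (nat_lit 0) (nat_lit 0) (nat_lit 1) (nat_lit 0) (nat_lit 1) (nat_lit 0) (nat_lit 345) (nat_lit 443) (nat_lit 292))) (XT.nd (nat_lit 94) (nat_lit 0) (nat_lit 0) (XT.lf (nat_lit 0) (nat_lit 638373990673) (nat_lit 0) (nat_lit 0) (nat_lit 0) (nat_lit 0) (nat_lit 0) (nat_lit 0) (nat_lit 1) (nat_lit 0) (nat_lit 1) (nat_lit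 0) (nat_lit 346) (nat_lit 443) (nat_lit 291)) (XT.lf (nat_lit 0) (nat_lit 638373597732) (nat_lit 0) (nat_lit 0) (nat_lit 0) (nat_lit 0) (nat_lit 0) (nat_lit 0) (nat_lit 1) (nat_lit 0) (nat_lit 1) (nat_lit 0) (nat_lit 347) (nat_lit 443) (nat_lit 290)))) (XT.nd (nat_lit 188) (nat_lit 0) (nat_lit 0) (XT.nd (nat_lit 94) (nat_lit 0) (nat_lit 0) (XT.lf (nat_lit 0) (nat_lit 638373233898) (nat_lit 0) (nat_lit 0) (nat_lit 0) (nat_lit 0) (nat_lit 0) (nat_lit 0) (nat_lit 1) (nat_lit 0) (nat_lit 1) (nat_lit 0) (nat_lit 348) (nat_lit 443) (nat_lit 289)) (XT.lf (nat_lit 0) (nat_lit 638372897015) (nat_lit 0) (nat_lit 0) (nat_lit 0) (nat_lit 0) (nat_lit 0) (nat_lit 0) (nat_lit 1) (nat_lit 0) (nat_lit 1) (nat_lit 0) (nat_lit 349) (nat_lit 443) (nat_lit 288))) (XT.nd (nat_lit 94) (nat_lit 0) (nat_lit 0) (XT.lf (nat_lit 0) (nat_lit 638372585086) (nat_lit 0) (nat_lit 0) (nat_lit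 0) (nat_lit 0) (nat_lit 0) (nat_lit 0) (nat_lit 1) (nat_lit 0) (nat_lit 1) (nat_lit 0) (nat_lit 350) (nat_lit 443) (nat_lit 287)) (XT.nd (nat_lit 94) (nat_lit 0) (nat_lit 0) (XT.lf (nat_lit 0) (nat_lit 638372296263) (nat_lit 0) (nat_lit 0) (nat_lit 0) (nat_lit 0) (nat_lit 0) (nat_lit 0) (nat_lit 1) (nat_lit 0) (nat_lit 1) (nat_lit 0) (nat_lit 351) (nat_lit 443) (nat_lit 286)) (XT.lf (nat_lit 0) (nat_lit 638372028834) (nat_lit 0) (nat_lit 0) (nat_lit 0) (nat_lit 0) (nat_lit 0) (nat_lit 0) (nat_lit 1) (nat_lit 0) (nat_lit 1) (nat_lit 0) (nat_lit 352) (nat_lit 443) (nat_lit 285)))))) (XT.nd (nat_lit 376) (nat_lit 0) (nat_lit 0) (XT.nd (nat_lit 188) (nat_lit 0) (nat_lit 0) (XT.nd (nat_lit 94) (nat_lit 0) (nat_lit 0) (XT.lf (nat_lit 0) (nat_lit 638371781215) (nat_lit 0) (nat_lit 0) (nat_lit 0) (nat_lit 0) (nat_lit 0) (nat_lit 0) (nat_lit 1) (nat_lit 0) (nat_lit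 1) (nat_lit 0) (nat_lit 353) (nat_lit 443) (nat_lit 284)) (XT.lf (nat_lit 0) (nat_lit 638371551938) (nat_lit 0) (nat_lit 0) (nat_lit 0) (nat_lit 0) (nat_lit 0) (nat_lit 0) (nat_lit 1) (nat_lit 0) (nat_lit 1) (nat_lit 0) (nat_lit 354) (nat_lit 443) (nat_lit 283))) (XT.nd (nat_lit 94) (nat_lit 0) (nat_lit 0) (XT.lf (nat_lit 0) (nat_lit 638371339644) (nat_lit 0) (nat_lit 0) (nat_lit 0) (nat_lit 0) (nat_lit 0) (nat_lit 0) (nat_lit 1) (nat_lit 0) (nat_lit 1) (nat_lit 0) (nat_lit 355) (nat_lit 443) (nat_lit 282)) (XT.lf (nat_lit 0) (nat_lit 638371143076) (nat_lit 0) (nat_lit 0) (nat_lit 0) (nat_lit 0) (nat_lit 0) (nat_lit 0) (nat_lit 1) (nat_lit 0) (nat_lit 1) (nat_lit 0) (nat_lit 356) (nat_lit 443) (nat_lit 281)))) (XT.nd (nat_lit 188) (nat_lit 0) (nat_lit 0) (XT.nd (nat_lit 94) (nat_lit 0) (nat_lit 0) (XT.lf (nat_lit 0) (nat_lit 638370961068) (nat_lit 0) (nat_lit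 0) (nat_lit 0) (nat_lit 0) (nat_lit 0) (nat_lit 0) (nat_lit 1) (nat_lit 0) (nat_lit 1) (nat_lit 0) (nat_lit 357) (nat_lit 443) (nat_lit 280)) (XT.lf (nat_lit 0) (nat_lit 638370792543) (nat_lit 0) (nat_lit 0) (nat_lit 0) (nat_lit 0) (nat_lit 0) (nat_lit 0) (nat_lit 1) (nat_lit 0) (nat_lit 1) (nat_lit 0) (nat_lit 358) (nat_lit 443) (nat_lit 279))) (XT.nd (nat_lit 94) (nat_lit 0) (nat_lit 0) (XT.lf (nat_lit 0) (nat_lit 638370636501) (nat_lit 0) (nat_lit 0) (nat_lit 0) (nat_lit 0) (nat_lit 0) (nat_lit 0) (nat_lit 1) (nat_lit 0) (nat_lit 1) (nat_lit 0) (nat_lit 359) (nat_lit 443) (nat_lit 278)) (XT.nd (nat_lit 94) (nat_lit 0) (nat_lit 0) (XT.lf (nat_lit 0) (nat_lit 638370492017) (nat_lit 0) (nat_lit 0) (nat_lit 0) (nat_lit 0) (nat_lit 0) (nat_lit 0) (nat_lit 1) (nat_lit 0) (nat_lit 1) (nat_lit 0) (nat_lit 360) (nat_lit 443) (nat_lit 277)) (XT.lf (nat_lit 0) (nat_lit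 638370358236) (nat_lit 0) (nat_lit 0) (nat_lit 0) (nat_lit 0) (nat_lit 0) (nat_lit 0) (nat_lit 1) (nat_lit 0) (nat_lit 1) (nat_lit 0) (nat_lit 361) (nat_lit 443) (nat_lit 276))))))) (XT.nd (nat_lit 846) (nat_lit 0) (nat_lit 0) (XT.nd (nat_lit 376) (nat_lit 0) (nat_lit 0) (XT.nd (nat_lit 188) (nat_lit 0) (nat_lit 0) (XT.nd (nat_lit 94) (nat_lit 0) (nat_lit 0) (XT.lf (nat_lit 0) (nat_lit 638370234365) (nat_lit 0) (nat_lit 0) (nat_lit 0) (nat_lit 0) (nat_lit 0) (nat_lit 0) (nat_lit 1) (nat_lit 0) (nat_lit 1) (nat_lit 0) (nat_lit 362) (nat_lit 443) (nat_lit 275)) (XT.lf (nat_lit 0) (nat_lit 638370119669) (nat_lit 0) (nat_lit 0) (nat_lit 0) (nat_lit 0) (nat_lit 0) (nat_lit 0) (nat_lit 1) (nat_lit 0) (nat_lit 1) (nat_lit 0) (nat_lit 363) (nat_lit 443) (nat_lit 274))) (XT.nd (nat_lit 94) (nat_lit 0) (nat_lit 0) (XT.lf (nat_lit 0) (nat_lit 638370013470) (nat_lit 0)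 (nat_lit 0) (nat_lit 0) (nat_lit 0) (nat_lit 0) (nat_lit 0) (nat_lit 1) (nat_lit 0) (nat_lit 1) (nat_lit 0) (nat_lit 364) (nat_lit 443) (nat_lit 273)) (XT.lf (nat_lit 0) (nat_lit 638369915137) (nat_lit 0) (nat_lit 0) (nat_lit 0) (nat_lit 0) (nat_lit 0) (nat_lit 0) (nat_lit 1) (nat_lit 0) (nat_lit 1) (nat_lit 0) (nat_lit 365) (nat_lit 443) (nat_lit 272)))) (XT.nd (nat_lit 188) (nat_lit 0) (nat_lit 0) (XT.nd (nat_lit 94) (nat_lit 0) (nat_lit 0) (XT.lf (nat_lit 0) (nat_lit 638369824088) (nat_lit 0) (nat_lit 0) (nat_lit 0) (nat_lit 0) (nat_lit 0) (nat_lit 0) (nat_lit 1) (nat_lit 0) (nat_lit 1) (nat_lit 0) (nat_lit 366) (nat_lit 443) (nat_lit 271)) (XT.lf (nat_lit 0) (nat_lit 638369739783) (nat_lit 0) (nat_lit 0) (nat_lit 0) (nat_lit 0) (nat_lit 0) (nat_lit 0) (nat_lit 1) (nat_lit 0) (nat_lit 1) (nat_lit 0) (nat_lit 367) (nat_lit 443) (nat_lit 270))) (XT.nd (nat_lit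 94) (nat_lit 0) (nat_lit 0) (XT.lf (nat_lit 0) (nat_lit 638369661723) (nat_lit 0) (nat_lit 0) (nat_lit 0) (nat_lit 0) (nat_lit 0) (nat_lit 0) (nat_lit 1) (nat_lit 0) (nat_lit 1) (nat_lit 0) (nat_lit 368) (nat_lit 443) (nat_lit 269)) (XT.nd (nat_lit 94) (nat_lit 0) (nat_lit 0) (XT.lf (nat_lit 0) (nat_lit 638369589445) (nat_lit 0) (nat_lit 0) (nat_lit 0) (nat_lit 0) (nat_lit 0) (nat_lit 0) (nat_lit 1) (nat_lit 0) (nat_lit 1) (nat_lit 0) (nat_lit 369) (nat_lit 443) (nat_lit 268)) (XT.lf (nat_lit 0) (nat_lit 638369522521) (nat_lit 0) (nat_lit 0) (nat_lit 0) (nat_lit 0) (nat_lit 0) (nat_lit 0) (nat_lit 1) (nat_lit 0) (nat_lit 1) (nat_lit 0) (nat_lit 370) (nat_lit 443) (nat_lit 267)))))) (XT.nd (nat_lit 470) (nat_lit 0) (nat_lit 0) (XT.nd (nat_lit 188) (nat_lit 0) (nat_lit 0) (XT.nd (nat_lit 94) (nat_lit 0) (nat_lit 0) (XT.lf (nat_lit 0) (nat_lit 638369460555) (nat_lit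 0) (nat_lit 0) (nat_lit 0) (nat_lit 0) (nat_lit 0) (nat_lit 0) (nat_lit 1) (nat_lit 0) (nat_lit 1) (nat_lit 0) (nat_lit 371) (nat_lit 443) (nat_lit 266)) (XT.lf (nat_lit 0) (nat_lit 638369403179) (nat_lit 0) (nat_lit 0) (nat_lit 0) (nat_lit 0) (nat_lit 0) (nat_lit 0) (nat_lit 1) (nat_lit 0) (nat_lit 1) (nat_lit 0) (nat_lit 372) (nat_lit 443) (nat_lit 265))) (XT.nd (nat_lit 94) (nat_lit 0) (nat_lit 0) (XT.lf (nat_lit 0) (nat_lit 638369350052) (nat_lit 0) (nat_lit 0) (nat_lit 0) (nat_lit 0) (nat_lit 0) (nat_lit 0) (nat_lit 1) (nat_lit 0) (nat_lit 1) (nat_lit 0) (nat_lit 373) (nat_lit 443) (nat_lit 264)) (XT.nd (nat_lit 94) (nat_lit 0) (nat_lit 0) (XT.lf (nat_lit 0) (nat_lit 638369300861) (nat_lit 0) (nat_lit 0) (nat_lit 0) (nat_lit 0) (nat_lit 0) (nat_lit 0) (nat_lit 1) (nat_lit 0) (nat_lit 1) (nat_lit 0) (nat_lit 374) (nat_lit 443) (nat_lit 263)) (XT.lf (nat_lit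 0) (nat_lit 638369255314) (nat_lit 0) (nat_lit 0) (nat_lit 0) (nat_lit 0) (nat_lit 0) (nat_lit 0) (nat_lit 1) (nat_lit 0) (nat_lit 1) (nat_lit 0) (nat_lit 375) (nat_lit 443) (nat_lit 262))))) (XT.nd (nat_lit 188) (nat_lit 0) (nat_lit 0) (XT.nd (nat_lit 94) (nat_lit 0) (nat_lit 0) (XT.lf (nat_lit 0) (nat_lit 638369213141) (nat_lit 0) (nat_lit 0) (nat_lit 0) (nat_lit 0) (nat_lit 0) (nat_lit 0) (nat_lit 1) (nat_lit 0) (nat_lit 1) (nat_lit 0) (nat_lit 376) (nat_lit 443) (nat_lit 261)) (XT.lf (nat_lit 0) (nat_lit 638369174091) (nat_lit 0) (nat_lit 0) (nat_lit 0) (nat_lit 0) (nat_lit 0) (nat_lit 0) (nat_lit 1) (nat_lit 0) (nat_lit 1) (nat_lit 0) (nat_lit 377) (nat_lit 443) (nat_lit 260))) (XT.nd (nat_lit 94) (nat_lit 0) (nat_lit 0) (XT.lf (nat_lit 0) (nat_lit 638369137934) (nat_lit 0) (nat_lit 0) (nat_lit 0) (nat_lit 0) (nat_lit 0) (nat_lit 0) (nat_lit 1) (nat_lit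 0) (nat_lit 1) (nat_lit 0) (nat_lit 378) (nat_lit 443) (nat_lit 259)) (XT.nd (nat_lit 94) (nat_lit 0) (nat_lit 0) (XT.lf (nat_lit 0) (nat_lit 638369104456) (nat_lit 0) (nat_lit 0) (nat_lit 0) (nat_lit 0) (nat_lit 0) (nat_lit 0) (nat_lit 1) (nat_lit 0) (nat_lit 1) (nat_lit 0) (nat_lit 379) (nat_lit 443) (nat_lit 258)) (XT.lf (nat_lit 0) (nat_lit 638369073457) (nat_lit 0) (nat_lit 0) (nat_lit 0) (nat_lit 0) (nat_lit 0) (nat_lit 0) (nat_lit 1) (nat_lit 0) (nat_lit 1) (nat_lit 0) (nat_lit 380) (nat_lit 443) (nat_lit 257))))))))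
noncomputable def ec391 : XT := (XT.nd (nat_lit 1786) (nat_lit 0) (nat_lit 0) (XT.nd (nat_lit 846) (nat_lit 0) (nat_lit 0) (XT.nd (nat_lit 376) (nat_lit 0) (nat_lit 0) (XT.nd (nat_lit 188) (nat_lit 0) (nat_lit 0) (XT.nd (nat_lit 94) (nat_lit 0) (nat_lit 0) (XT.lf (nat_lit 0) (nat_lit 638369044755) (nat_lit 0) (nat_lit 0) (nat_lit 0) (nat_lit 0) (nat_lit 0) (nat_lit 0) (nat_lit 1) (nat_lit 0) (nat_lit 1) (nat_lit 0) (nat_lit 381) (nat_lit 443) (nat_lit 256)) (XT.lf (nat_lit 0) (nat_lit 638369018178) (nat_lit 0) (nat_lit 0) (nat_lit 0) (nat_lit 0) (nat_lit 0) (nat_lit 0) (nat_lit 1) (nat_lit 0) (nat_lit 1) (nat_lit 0) (nat_lit 382) (nat_lit 443) (nat_lit 255))) (XT.nd (nat_lit 94) (nat_lit 0) (nat_lit 0) (XT.lf (nat_lit 0) (nat_lit 638368993571) (nat_lit 0) (nat_lit 0) (nat_lit 0) (nat_lit 0) (nat_lit 0) (nat_lit 0) (nat_lit 1) (nat_lit 0) (nat_lit 1) (nat_lit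 0) (nat_lit 383) (nat_lit 443) (nat_lit 254)) (XT.lf (nat_lit 0) (nat_lit 638368970786) (nat_lit 0) (nat_lit 0) (nat_lit 0) (nat_lit 0) (nat_lit 0) (nat_lit 0) (nat_lit 1) (nat_lit 0) (nat_lit 1) (nat_lit 0) (nat_lit 384) (nat_lit 443) (nat_lit 253)))) (XT.nd (nat_lit 188) (nat_lit 0) (nat_lit 0) (XT.nd (nat_lit 94) (nat_lit 0) (nat_lit 0) (XT.lf (nat_lit 0) (nat_lit 638368949689) (nat_lit 0) (nat_lit 0) (nat_lit 0) (nat_lit 0) (nat_lit 0) (nat_lit 0) (nat_lit 1) (nat_lit 0) (nat_lit 1) (nat_lit 0) (nat_lit 385) (nat_lit 443) (nat_lit 252)) (XT.lf (nat_lit 0) (nat_lit 638368930154) (nat_lit 0) (nat_lit 0) (nat_lit 0) (nat_lit 0) (nat_lit 0) (nat_lit 0) (nat_lit 1) (nat_lit 0) (nat_lit 1) (nat_lit 0) (nat_lit 386) (nat_lit 443) (nat_lit 251))) (XT.nd (nat_lit 94) (nat_lit 0) (nat_lit 0) (XT.lf (nat_lit 0) (nat_lit 638368912067) (nat_lit 0) (nat_lit 0) (nat_lit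 0) (nat_lit 0) (nat_lit 0) (nat_lit 0) (nat_lit 1) (nat_lit 0) (nat_lit 1) (nat_lit 0) (nat_lit 387) (nat_lit 443) (nat_lit 250)) (XT.nd (nat_lit 94) (nat_lit 0) (nat_lit 0) (XT.lf (nat_lit 0) (nat_lit 638368895319) (nat_lit 0) (nat_lit 0) (nat_lit 0) (nat_lit 0) (nat_lit 0) (nat_lit 0) (nat_lit 1) (nat_lit 0) (nat_lit 1) (nat_lit 0) (nat_lit 388) (nat_lit 443) (nat_lit 249)) (XT.lf (nat_lit 0) (nat_lit 638368879812) (nat_lit 0) (nat_lit 0) (nat_lit 0) (nat_lit 0) (nat_lit 0) (nat_lit 0) (nat_lit 1) (nat_lit 0) (nat_lit 1) (nat_lit 0) (nat_lit 389) (nat_lit 443) (nat_lit 248)))))) (XT.nd (nat_lit 470) (nat_lit 0) (nat_lit 0) (XT.nd (nat_lit 188) (nat_lit 0) (nat_lit 0) (XT.nd (nat_lit 94) (nat_lit 0) (nat_lit 0) (XT.lf (nat_lit 0) (nat_lit 638368865454) (nat_lit 0) (nat_lit 0) (nat_lit 0) (nat_lit 0) (nat_lit 0) (nat_lit 0) (nat_lit 1) (nat_lit 0) (nat_lit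 1) (nat_lit 0) (nat_lit 390) (nat_lit 443) (nat_lit 247)) (XT.lf (nat_lit 0) (nat_lit 638368852159) (nat_lit 0) (nat_lit 0) (nat_lit 0) (nat_lit 0) (nat_lit 0) (nat_lit 0) (nat_lit 1) (nat_lit 0) (nat_lit 1) (nat_lit 0) (nat_lit 391) (nat_lit 443) (nat_lit 246))) (XT.nd (nat_lit 94) (nat_lit 0) (nat_lit 0) (XT.lf (nat_lit 0) (nat_lit 638368839849) (nat_lit 0) (nat_lit 0) (nat_lit 0) (nat_lit 0) (nat_lit 0) (nat_lit 0) (nat_lit 1) (nat_lit 0) (nat_lit 1) (nat_lit 0) (nat_lit 392) (nat_lit 443) (nat_lit 245)) (XT.nd (nat_lit 94) (nat_lit 0) (nat_lit 0) (XT.lf (nat_lit 0) (nat_lit 638368828451) (nat_lit 0) (nat_lit 0) (nat_lit 0) (nat_lit 0) (nat_lit 0) (nat_lit 0) (nat_lit 1) (nat_lit 0) (nat_lit 1) (nat_lit 0) (nat_lit 393) (nat_lit 443) (nat_lit 244)) (XT.lf (nat_lit 0) (nat_lit 638368817897) (nat_lit 0) (nat_lit 0) (nat_lit 0) (nat_lit 0) (nat_lit 0) (nat_lit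 0) (nat_lit 1) (nat_lit 0) (nat_lit 1) (nat_lit 0) (nat_lit 394) (nat_lit 443) (nat_lit 243))))) (XT.nd (nat_lit 188) (nat_lit 0) (nat_lit 0) (XT.nd (nat_lit 94) (nat_lit 0) (nat_lit 0) (XT.lf (nat_lit 0) (nat_lit 638368808125) (nat_lit 0) (nat_lit 0) (nat_lit 0) (nat_lit 0) (nat_lit 0) (nat_lit 0) (nat_lit 1) (nat_lit 0) (nat_lit 1) (nat_lit 0) (nat_lit 395) (nat_lit 443) (nat_lit 242)) (XT.lf (nat_lit 0) (nat_lit 638368799077) (nat_lit 0) (nat_lit 0) (nat_lit 0) (nat_lit 0) (nat_lit 0) (nat_lit 0) (nat_lit 1) (nat_lit 0) (nat_lit 1) (nat_lit 0) (nat_lit 396) (nat_lit 443) (nat_lit 241))) (XT.nd (nat_lit 94) (nat_lit 0) (nat_lit 0) (XT.lf (nat_lit 0) (nat_lit 638368790699) (nat_lit 0) (nat_lit 0) (nat_lit 0) (nat_lit 0) (nat_lit 0) (nat_lit 0) (nat_lit 1) (nat_lit 0) (nat_lit 1) (nat_lit 0) (nat_lit 397) (nat_lit 443) (nat_lit 240)) (XT.nd (nat_lit 94) (nat_lit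 0) (nat_lit 0) (XT.lf (nat_lit 0) (nat_lit 638368782941) (nat_lit 0) (nat_lit 0) (nat_lit 0) (nat_lit 0) (nat_lit 0) (nat_lit 0) (nat_lit 1) (nat_lit 0) (nat_lit 1) (nat_lit 0) (nat_lit 398) (nat_lit 443) (nat_lit 239)) (XT.lf (nat_lit 0) (nat_lit 638368775758) (nat_lit 0) (nat_lit 0) (nat_lit 0) (nat_lit 0) (nat_lit 0) (nat_lit 0) (nat_lit 1) (nat_lit 0) (nat_lit 1) (nat_lit 0) (nat_lit 399) (nat_lit 443) (nat_lit 238))))))) (XT.nd (nat_lit 846) (nat_lit 0) (nat_lit 0) (XT.nd (nat_lit 376) (nat_lit 0) (nat_lit 0) (XT.nd (nat_lit 188) (nat_lit 0) (nat_lit 0) (XT.nd (nat_lit 94) (nat_lit 0) (nat_lit 0) (XT.lf (nat_lit 0) (nat_lit 638368769108) (nat_lit 0) (nat_lit 0) (nat_lit 0) (nat_lit 0) (nat_lit 0) (nat_lit 0) (nat_lit 1) (nat_lit 0) (nat_lit 1) (nat_lit 0) (nat_lit 400) (nat_lit 443) (nat_lit 237)) (XT.lf (nat_lit 0) (nat_lit 638368762950) (nat_lit 0)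 (nat_lit 0) (nat_lit 0) (nat_lit 0) (nat_lit 0) (nat_lit 0) (nat_lit 1) (nat_lit 0) (nat_lit 1) (nat_lit 0) (nat_lit 401) (nat_lit 443) (nat_lit 236))) (XT.nd (nat_lit 94) (nat_lit 0) (nat_lit 0) (XT.lf (nat_lit 0) (nat_lit 638368757248) (nat_lit 0) (nat_lit 0) (nat_lit 0) (nat_lit 0) (nat_lit 0) (nat_lit 0) (nat_lit 1) (nat_lit 0) (nat_lit 1) (nat_lit 0) (nat_lit 402) (nat_lit 443) (nat_lit 235)) (XT.lf (nat_lit 0) (nat_lit 638368751968) (nat_lit 0) (nat_lit 0) (nat_lit 0) (nat_lit 0) (nat_lit 0) (nat_lit 0) (nat_lit 1) (nat_lit 0) (nat_lit 1) (nat_lit 0) (nat_lit 403) (nat_lit 443) (nat_lit 234)))) (XT.nd (nat_lit 188) (nat_lit 0) (nat_lit 0) (XT.nd (nat_lit 94) (nat_lit 0) (nat_lit 0) (XT.lf (nat_lit 0) (nat_lit 638368747080) (nat_lit 0) (nat_lit 0) (nat_lit 0) (nat_lit 0) (nat_lit 0) (nat_lit 0) (nat_lit 1) (nat_lit 0) (nat_lit 1) (nat_lit 0) (nat_lit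 404) (nat_lit 443) (nat_lit 233)) (XT.lf (nat_lit 0) (nat_lit 638368742553) (nat_lit 0) (nat_lit 0) (nat_lit 0) (nat_lit 0) (nat_lit 0) (nat_lit 0) (nat_lit 1) (nat_lit 0) (nat_lit 1) (nat_lit 0) (nat_lit 405) (nat_lit 443) (nat_lit 232))) (XT.nd (nat_lit 94) (nat_lit 0) (nat_lit 0) (XT.lf (nat_lit 0) (nat_lit 638368738362) (nat_lit 0) (nat_lit 0) (nat_lit 0) (nat_lit 0) (nat_lit 0) (nat_lit 0) (nat_lit 1) (nat_lit 0) (nat_lit 1) (nat_lit 0) (nat_lit 406) (nat_lit 443) (nat_lit 231)) (XT.nd (nat_lit 94) (nat_lit 0) (nat_lit 0) (XT.lf (nat_lit 0) (nat_lit 638368734482) (nat_lit 0) (nat_lit 0) (nat_lit 0) (nat_lit 0) (nat_lit 0) (nat_lit 0) (nat_lit 1) (nat_lit 0) (nat_lit 1) (nat_lit 0) (nat_lit 407) (nat_lit 443) (nat_lit 230)) (XT.lf (nat_lit 0) (nat_lit 638368730889) (nat_lit 0) (nat_lit 0) (nat_lit 0) (nat_lit 0) (nat_lit 0) (nat_lit 0) (nat_lit 1) (nat_lit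 0) (nat_lit 1) (nat_lit 0) (nat_lit 408) (nat_lit 443) (nat_lit 229)))))) (XT.nd (nat_lit 470) (nat_lit 0) (nat_lit 0) (XT.nd (nat_lit 188) (nat_lit 0) (nat_lit 0) (XT.nd (nat_lit 94) (nat_lit 0) (nat_lit 0) (XT.lf (nat_lit 0) (nat_lit 638368727562) (nat_lit 0) (nat_lit 0) (nat_lit 0) (nat_lit 0) (nat_lit 0) (nat_lit 0) (nat_lit 1) (nat_lit 0) (nat_lit 1) (nat_lit 0) (nat_lit 409) (nat_lit 443) (nat_lit 228)) (XT.lf (nat_lit 0) (nat_lit 638368724481) (nat_lit 0) (nat_lit 0) (nat_lit 0) (nat_lit 0) (nat_lit 0) (nat_lit 0) (nat_lit 1) (nat_lit 0) (nat_lit 1) (nat_lit 0) (nat_lit 410) (nat_lit 443) (nat_lit 227))) (XT.nd (nat_lit 94) (nat_lit 0) (nat_lit 0) (XT.lf (nat_lit 0) (nat_lit 638368721629) (nat_lit 0) (nat_lit 0) (nat_lit 0) (nat_lit 0) (nat_lit 0) (nat_lit 0) (nat_lit 1) (nat_lit 0) (nat_lit 1) (nat_lit 0) (nat_lit 411) (nat_lit 443) (nat_lit 226))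 (XT.nd (nat_lit 94) (nat_lit 0) (nat_lit 0) (XT.lf (nat_lit 0) (nat_lit 638368718988) (nat_lit 0) (nat_lit 0) (nat_lit 0) (nat_lit 0) (nat_lit 0) (nat_lit 0) (nat_lit 1) (nat_lit 0) (nat_lit 1) (nat_lit 0) (nat_lit 412) (nat_lit 443) (nat_lit 225)) (XT.lf (nat_lit 0) (nat_lit 638368716542) (nat_lit 0) (nat_lit 0) (nat_lit 0) (nat_lit 0) (nat_lit 0) (nat_lit 0) (nat_lit 1) (nat_lit 0) (nat_lit 1) (nat_lit 0) (nat_lit 413) (nat_lit 443) (nat_lit 224))))) (XT.nd (nat_lit 188) (nat_lit 0) (nat_lit 0) (XT.nd (nat_lit 94) (nat_lit 0) (nat_lit 0) (XT.lf (nat_lit 0) (nat_lit 638368714278) (nat_lit 0) (nat_lit 0) (nat_lit 0) (nat_lit 0) (nat_lit 0) (nat_lit 0) (nat_lit 1) (nat_lit 0) (nat_lit 1) (nat_lit 0) (nat_lit 414) (nat_lit 443) (nat_lit 223)) (XT.lf (nat_lit 0) (nat_lit 638368712181) (nat_lit 0) (nat_lit 0) (nat_lit 0) (nat_lit 0) (nat_lit 0) (nat_lit 0) (nat_lit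 1) (nat_lit 0) (nat_lit 1) (nat_lit 0) (nat_lit 415) (nat_lit 443) (nat_lit 222))) (XT.nd (nat_lit 94) (nat_lit 0) (nat_lit 0) (XT.lf (nat_lit 0) (nat_lit 638368710240) (nat_lit 0) (nat_lit 0) (nat_lit 0) (nat_lit 0) (nat_lit 0) (nat_lit 0) (nat_lit 1) (nat_lit 0) (nat_lit 1) (nat_lit 0) (nat_lit 416) (nat_lit 443) (nat_lit 221)) (XT.nd (nat_lit 94) (nat_lit 0) (nat_lit 0) (XT.lf (nat_lit 0) (nat_lit 638368708442) (nat_lit 0) (nat_lit 0) (nat_lit 0) (nat_lit 0) (nat_lit 0) (nat_lit 0) (nat_lit 1) (nat_lit 0) (nat_lit 1) (nat_lit 0) (nat_lit 417) (nat_lit 443) (nat_lit 220)) (XT.lf (nat_lit 0) (nat_lit 638368706778) (nat_lit 0) (nat_lit 0) (nat_lit 0) (nat_lit 0) (nat_lit 0) (nat_lit 0) (nat_lit 1) (nat_lit 0) (nat_lit 1) (nat_lit 0) (nat_lit 418) (nat_lit 443) (nat_lit 219))))))))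
noncomputable def ec392 : XT := (XT.nd (nat_lit 1692) (nat_lit 0) (nat_lit 0) (XT.nd (nat_lit 846) (nat_lit 0) (nat_lit 0) (XT.nd (nat_lit 376) (nat_lit 0) (nat_lit 0) (XT.nd (nat_lit 188) (nat_lit 0) (nat_lit 0) (XT.nd (nat_lit 94) (nat_lit 0) (nat_lit 0) (XT.lf (nat_lit 0) (nat_lit 638368705237) (nat_lit 0) (nat_lit 0) (nat_lit 0) (nat_lit 0) (nat_lit 0) (nat_lit 0) (nat_lit 1) (nat_lit 0) (nat_lit 1) (nat_lit 0) (nat_lit 419) (nat_lit 443) (nat_lit 218)) (XT.lf (nat_lit 0) (nat_lit 638368703810) (nat_lit 0) (nat_lit 0) (nat_lit 0) (nat_lit 0) (nat_lit 0) (nat_lit 0) (nat_lit 1) (nat_lit 0) (nat_lit 1) (nat_lit 0) (nat_lit 420) (nat_lit 443) (nat_lit 217))) (XT.nd (nat_lit 94) (nat_lit 0) (nat_lit 0) (XT.lf (nat_lit 0) (nat_lit 638368702489) (nat_lit 0) (nat_lit 0) (nat_lit 0) (nat_lit 0) (nat_lit 0) (nat_lit 0) (nat_lit 1) (nat_lit 0) (nat_lit 1) (nat_lit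 0) (nat_lit 421) (nat_lit 443) (nat_lit 216)) (XT.lf (nat_lit 0) (nat_lit 638368701266) (nat_lit 0) (nat_lit 0) (nat_lit 0) (nat_lit 0) (nat_lit 0) (nat_lit 0) (nat_lit 1) (nat_lit 0) (nat_lit 1) (nat_lit 0) (nat_lit 422) (nat_lit 443) (nat_lit 215)))) (XT.nd (nat_lit 188) (nat_lit 0) (nat_lit 0) (XT.nd (nat_lit 94) (nat_lit 0) (nat_lit 0) (XT.lf (nat_lit 0) (nat_lit 638368700133) (nat_lit 0) (nat_lit 0) (nat_lit 0) (nat_lit 0) (nat_lit 0) (nat_lit 0) (nat_lit 1) (nat_lit 0) (nat_lit 1) (nat_lit 0) (nat_lit 423) (nat_lit 443) (nat_lit 214)) (XT.lf (nat_lit 0) (nat_lit 638368699084) (nat_lit 0) (nat_lit 0) (nat_lit 0) (nat_lit 0) (nat_lit 0) (nat_lit 0) (nat_lit 1) (nat_lit 0) (nat_lit 1) (nat_lit 0) (nat_lit 424) (nat_lit 443) (nat_lit 213))) (XT.nd (nat_lit 94) (nat_lit 0) (nat_lit 0) (XT.lf (nat_lit 0) (nat_lit 638368698113) (nat_lit 0) (nat_lit 0) (nat_lit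 0) (nat_lit 0) (nat_lit 0) (nat_lit 0) (nat_lit 1) (nat_lit 0) (nat_lit 1) (nat_lit 0) (nat_lit 425) (nat_lit 443) (nat_lit 212)) (XT.nd (nat_lit 94) (nat_lit 0) (nat_lit 0) (XT.lf (nat_lit 0) (nat_lit 638368697214) (nat_lit 0) (nat_lit 0) (nat_lit 0) (nat_lit 0) (nat_lit 0) (nat_lit 0) (nat_lit 1) (nat_lit 0) (nat_lit 1) (nat_lit 0) (nat_lit 426) (nat_lit 443) (nat_lit 211)) (XT.lf (nat_lit 0) (nat_lit 638368696381) (nat_lit 0) (nat_lit 0) (nat_lit 0) (nat_lit 0) (nat_lit 0) (nat_lit 0) (nat_lit 1) (nat_lit 0) (nat_lit 1) (nat_lit 0) (nat_lit 427) (nat_lit 443) (nat_lit 210)))))) (XT.nd (nat_lit 376) (nat_lit 0) (nat_lit 0) (XT.nd (nat_lit 188) (nat_lit 0) (nat_lit 0) (XT.nd (nat_lit 94) (nat_lit 0) (nat_lit 0) (XT.lf (nat_lit 0) (nat_lit 638368695610) (nat_lit 0) (nat_lit 0) (nat_lit 0) (nat_lit 0) (nat_lit 0) (nat_lit 0) (nat_lit 1) (nat_lit 0) (nat_lit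 1) (nat_lit 0) (nat_lit 428) (nat_lit 443) (nat_lit 209)) (XT.lf (nat_lit 0) (nat_lit 638368694896) (nat_lit 0) (nat_lit 0) (nat_lit 0) (nat_lit 0) (nat_lit 0) (nat_lit 0) (nat_lit 1) (nat_lit 0) (nat_lit 1) (nat_lit 0) (nat_lit 429) (nat_lit 443) (nat_lit 208))) (XT.nd (nat_lit 94) (nat_lit 0) (nat_lit 0) (XT.lf (nat_lit 0) (nat_lit 638368694236) (nat_lit 0) (nat_lit 0) (nat_lit 0) (nat_lit 0) (nat_lit 0) (nat_lit 0) (nat_lit 1) (nat_lit 0) (nat_lit 1) (nat_lit 0) (nat_lit 430) (nat_lit 443) (nat_lit 207)) (XT.lf (nat_lit 0) (nat_lit 638368693624) (nat_lit 0) (nat_lit 0) (nat_lit 0) (nat_lit 0) (nat_lit 0) (nat_lit 0) (nat_lit 1) (nat_lit 0) (nat_lit 1) (nat_lit 0) (nat_lit 431) (nat_lit 443) (nat_lit 206)))) (XT.nd (nat_lit 188) (nat_lit 0) (nat_lit 0) (XT.nd (nat_lit 94) (nat_lit 0) (nat_lit 0) (XT.lf (nat_lit 0) (nat_lit 638368693057) (nat_lit 0) (nat_lit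 0) (nat_lit 0) (nat_lit 0) (nat_lit 0) (nat_lit 0) (nat_lit 1) (nat_lit 0) (nat_lit 1) (nat_lit 0) (nat_lit 432) (nat_lit 443) (nat_lit 205)) (XT.lf (nat_lit 0) (nat_lit 638368692532) (nat_lit 0) (nat_lit 0) (nat_lit 0) (nat_lit 0) (nat_lit 0) (nat_lit 0) (nat_lit 1) (nat_lit 0) (nat_lit 1) (nat_lit 0) (nat_lit 433) (nat_lit 443) (nat_lit 204))) (XT.nd (nat_lit 94) (nat_lit 0) (nat_lit 0) (XT.lf (nat_lit 0) (nat_lit 638368692046) (nat_lit 0) (nat_lit 0) (nat_lit 0) (nat_lit 0) (nat_lit 0) (nat_lit 0) (nat_lit 1) (nat_lit 0) (nat_lit 1) (nat_lit 0) (nat_lit 434) (nat_lit 443) (nat_lit 203)) (XT.nd (nat_lit 94) (nat_lit 0) (nat_lit 0) (XT.lf (nat_lit 0) (nat_lit 638368691597) (nat_lit 0) (nat_lit 0) (nat_lit 0) (nat_lit 0) (nat_lit 0) (nat_lit 0) (nat_lit 1) (nat_lit 0) (nat_lit 1) (nat_lit 0) (nat_lit 435) (nat_lit 443) (nat_lit 202)) (XT.lf (nat_lit 0) (nat_lit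 638368691180) (nat_lit 0) (nat_lit 0) (nat_lit 0) (nat_lit 0) (nat_lit 0) (nat_lit 0) (nat_lit 1) (nat_lit 0) (nat_lit 1) (nat_lit 0) (nat_lit 436) (nat_lit 443) (nat_lit 201))))))) (XT.nd (nat_lit 846) (nat_lit 0) (nat_lit 0) (XT.nd (nat_lit 376) (nat_lit 0) (nat_lit 0) (XT.nd (nat_lit 188) (nat_lit 0) (nat_lit 0) (XT.nd (nat_lit 94) (nat_lit 0) (nat_lit 0) (XT.lf (nat_lit 0) (nat_lit 638368690794) (nat_lit 0) (nat_lit 0) (nat_lit 0) (nat_lit 0) (nat_lit 0) (nat_lit 0) (nat_lit 1) (nat_lit 0) (nat_lit 1) (nat_lit 0) (nat_lit 437) (nat_lit 443) (nat_lit 200)) (XT.lf (nat_lit 0) (nat_lit 638368690437) (nat_lit 0) (nat_lit 0) (nat_lit 0) (nat_lit 0) (nat_lit 0) (nat_lit 0) (nat_lit 1) (nat_lit 0) (nat_lit 1) (nat_lit 0) (nat_lit 438) (nat_lit 443) (nat_lit 199))) (XT.nd (nat_lit 94) (nat_lit 0) (nat_lit 0) (XT.lf (nat_lit 0) (nat_lit 638368690107) (nat_lit 0)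 (nat_lit 0) (nat_lit 0) (nat_lit 0) (nat_lit 0) (nat_lit 0) (nat_lit 1) (nat_lit 0) (nat_lit 1) (nat_lit 0) (nat_lit 439) (nat_lit 443) (nat_lit 198)) (XT.lf (nat_lit 0) (nat_lit 638368689801) (nat_lit 0) (nat_lit 0) (nat_lit 0) (nat_lit 0) (nat_lit 0) (nat_lit 0) (nat_lit 1) (nat_lit 0) (nat_lit 1) (nat_lit 0) (nat_lit 440) (nat_lit 443) (nat_lit 197)))) (XT.nd (nat_lit 188) (nat_lit 0) (nat_lit 0) (XT.nd (nat_lit 94) (nat_lit 0) (nat_lit 0) (XT.lf (nat_lit 0) (nat_lit 638368689517) (nat_lit 0) (nat_lit 0) (nat_lit 0) (nat_lit 0) (nat_lit 0) (nat_lit 0) (nat_lit 1) (nat_lit 0) (nat_lit 1) (nat_lit 0) (nat_lit 441) (nat_lit 443) (nat_lit 196)) (XT.lf (nat_lit 0) (nat_lit 638368689255) (nat_lit 0) (nat_lit 0) (nat_lit 0) (nat_lit 0) (nat_lit 0) (nat_lit 0) (nat_lit 1) (nat_lit 0) (nat_lit 1) (nat_lit 0) (nat_lit 442) (nat_lit 443) (nat_lit 195))) (XT.nd (nat_lit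 94) (nat_lit 0) (nat_lit 0) (XT.lf (nat_lit 0) (nat_lit 638368689012) (nat_lit 0) (nat_lit 0) (nat_lit 0) (nat_lit 0) (nat_lit 0) (nat_lit 0) (nat_lit 1) (nat_lit 0) (nat_lit 1) (nat_lit 0) (nat_lit 443) (nat_lit 443) (nat_lit 194)) (XT.nd (nat_lit 94) (nat_lit 0) (nat_lit 0) (XT.lf (nat_lit 0) (nat_lit 638368688787) (nat_lit 0) (nat_lit 0) (nat_lit 0) (nat_lit 0) (nat_lit 0) (nat_lit 0) (nat_lit 1) (nat_lit 0) (nat_lit 1) (nat_lit 0) (nat_lit 444) (nat_lit 443) (nat_lit 193)) (XT.lf (nat_lit 0) (nat_lit 638368688578) (nat_lit 0) (nat_lit 0) (nat_lit 0) (nat_lit 0) (nat_lit 0) (nat_lit 0) (nat_lit 1) (nat_lit 0) (nat_lit 1) (nat_lit 0) (nat_lit 445) (nat_lit 443) (nat_lit 192)))))) (XT.nd (nat_lit 44086) (nat_lit 0) (nat_lit 10836) (XT.nd (nat_lit 188) (nat_lit 0) (nat_lit 0) (XT.nd (nat_lit 94) (nat_lit 0) (nat_lit 0) (XT.lf (nat_lit 0) (nat_lit 638368688385)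 (nat_lit 0) (nat_lit 0) (nat_lit 0) (nat_lit 0) (nat_lit 0) (nat_lit 0) (nat_lit 1) (nat_lit 0) (nat_lit 1) (nat_lit 0) (nat_lit 446) (nat_lit 443) (nat_lit 191)) (XT.lf (nat_lit 0) (nat_lit 638368688207) (nat_lit 0) (nat_lit 0) (nat_lit 0) (nat_lit 0) (nat_lit 0) (nat_lit 0) (nat_lit 1) (nat_lit 0) (nat_lit 1) (nat_lit 0) (nat_lit 447) (nat_lit 443) (nat_lit 190))) (XT.nd (nat_lit 43710) (nat_lit 0) (nat_lit 10752) (XT.lf (nat_lit 0) (nat_lit 638368688041) (nat_lit 0) (nat_lit 0) (nat_lit 0) (nat_lit 0) (nat_lit 0) (nat_lit 0) (nat_lit 1) (nat_lit 0) (nat_lit 1) (nat_lit 0) (nat_lit 448) (nat_lit 443) (nat_lit 189)) (XT.nd (nat_lit 94) (nat_lit 0) (nat_lit 84) (XT.lf (nat_lit 924) (nat_lit 345020690398) (nat_lit 0) (nat_lit 612583442740) (nat_lit 924) (nat_lit 345020690398) (nat_lit 139) (nat_lit 1) (nat_lit 128) (nat_lit 0) (nat_lit 139) (nat_lit 0) (nat_lit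 192) (nat_lit 444) (nat_lit 444)) (XT.lf (nat_lit 924) (nat_lit 128703304180) (nat_lit 0) (nat_lit 1202686957605) (nat_lit 840) (nat_lit 1176223826449) (nat_lit 140) (nat_lit 1) (nat_lit 129) (nat_lit 1) (nat_lit 139) (nat_lit 1) (nat_lit 193) (nat_lit 444) (nat_lit 443))))) (XT.nd (nat_lit 188) (nat_lit 0) (nat_lit 168) (XT.nd (nat_lit 94) (nat_lit 0) (nat_lit 84) (XT.lf (nat_lit 924) (nat_lit 1182065560278) (nat_lit 84) (nat_lit 805439860907) (nat_lit 0) (nat_lit 427168561199) (nat_lit 140) (nat_lit 1) (nat_lit 130) (nat_lit 1) (nat_lit 129) (nat_lit 1) (nat_lit 194) (nat_lit 444) (nat_lit 442)) (XT.lf (nat_lit 924) (nat_lit 1021401480285) (nat_lit 84) (nat_lit 337554262925) (nat_lit 0) (nat_lit 967429091956) (nat_lit 141) (nat_lit 1) (nat_lit 131) (nat_lit 1) (nat_lit 130) (nat_lit 1) (nat_lit 195) (nat_lit 444) (nat_lit 441))) (XT.nd (nat_lit 94) (nat_lit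 0) (nat_lit 84) (XT.lf (nat_lit 924) (nat_lit 755923931949) (nat_lit 0) (nat_lit 1414297945699) (nat_lit 840) (nat_lit 72298708922) (nat_lit 142) (nat_lit 1) (nat_lit 131) (nat_lit 1) (nat_lit 141) (nat_lit 1) (nat_lit 196) (nat_lit 444) (nat_lit 440)) (XT.nd (nat_lit 94) (nat_lit 0) (nat_lit 0) (XT.lf (nat_lit 924) (nat_lit 181376535841) (nat_lit 0) (nat_lit 1559656392340) (nat_lit 840) (nat_lit 421628514710) (nat_lit 143) (nat_lit 1) (nat_lit 132) (nat_lit 1) (nat_lit 142) (nat_lit 1) (nat_lit 197) (nat_lit 444) (nat_lit 439)) (XT.lf (nat_lit 924) (nat_lit 348531929805) (nat_lit 84) (nat_lit 1355468413214) (nat_lit 0) (nat_lit 382529909513) (nat_lit 143) (nat_lit 1) (nat_lit 133) (nat_lit 1) (nat_lit 132) (nat_lit 1) (nat_lit 198) (nat_lit 444) (nat_lit 438))))))))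
noncomputable def ec393 : XT := (XT.nd (nat_lit 1786) (nat_lit 3024) (nat_lit 0) (XT.nd (nat_lit 846) (nat_lit 2688) (nat_lit 0) (XT.nd (nat_lit 376) (nat_lit 1428) (nat_lit 0) (XT.nd (nat_lit 188) (nat_lit 840) (nat_lit 0) (XT.nd (nat_lit 94) (nat_lit 588) (nat_lit 0) (XT.lf (nat_lit 924) (nat_lit 71580510788) (nat_lit 0) (nat_lit 1013302299667) (nat_lit 840) (nat_lit 929187591578) (nat_lit 134) (nat_lit 1) (nat_lit 123) (nat_lit 1) (nat_lit 133) (nat_lit 1) (nat_lit 199) (nat_lit 444) (nat_lit 437)) (XT.lf (nat_lit 84) (nat_lit 495638367508) (nat_lit 0) (nat_lit 214783169782) (nat_lit 588) (nat_lit 1234619918198) (nat_lit 117) (nat_lit 1) (nat_lit 116) (nat_lit 1) (nat_lit 123) (nat_lit 1) (nat_lit 200) (nat_lit 444) (nat_lit 436))) (XT.nd (nat_lit 94) (nat_lit 420) (nat_lit 0) (XT.lf (nat_lit 504) (nat_lit 1365916956433) (nat_lit 0) (nat_lit 444635416111)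 (nat_lit 420) (nat_lit 68743382691) (nat_lit 117) (nat_lit 1) (nat_lit 111) (nat_lit 1) (nat_lit 116) (nat_lit 1) (nat_lit 201) (nat_lit 444) (nat_lit 435)) (XT.lf (nat_lit 504) (nat_lit 985658683009) (nat_lit 0) (nat_lit 207246482780) (nat_lit 420) (nat_lit 623471836742) (nat_lit 112) (nat_lit 1) (nat_lit 106) (nat_lit 1) (nat_lit 111) (nat_lit 1) (nat_lit 202) (nat_lit 444) (nat_lit 434)))) (XT.nd (nat_lit 188) (nat_lit 1092) (nat_lit 0) (XT.nd (nat_lit 94) (nat_lit 0) (nat_lit 0) (XT.lf (nat_lit 420) (nat_lit 599760737581) (nat_lit 0) (nat_lit 3815744542) (nat_lit 336) (nat_lit 1152932561220) (nat_lit 107) (nat_lit 1) (nat_lit 102) (nat_lit 1) (nat_lit 106) (nat_lit 1) (nat_lit 203) (nat_lit 444) (nat_lit 433)) (XT.lf (nat_lit 84) (nat_lit 44247512757) (nat_lit 0) (nat_lit 1492240535183) (nat_lit 420) (nat_lit 162907069231) (nat_lit 103) (nat_lit 1) (nat_lit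 102) (nat_lit 1) (nat_lit 107) (nat_lit 1) (nat_lit 204) (nat_lit 444) (nat_lit 432))) (XT.nd (nat_lit 94) (nat_lit 672) (nat_lit 0) (XT.lf (nat_lit 84) (nat_lit 1142482255859) (nat_lit 0) (nat_lit 189492906620) (nat_lit 420) (nat_lit 312508217537) (nat_lit 98) (nat_lit 1) (nat_lit 97) (nat_lit 1) (nat_lit 102) (nat_lit 1) (nat_lit 205) (nat_lit 444) (nat_lit 431)) (XT.nd (nat_lit 94) (nat_lit 336) (nat_lit 0) (XT.lf (nat_lit 84) (nat_lit 571612823847) (nat_lit 0) (nat_lit 580450411042) (nat_lit 420) (nat_lit 439934688498) (nat_lit 94) (nat_lit 1) (nat_lit 93) (nat_lit 1) (nat_lit 98) (nat_lit 1) (nat_lit 206) (nat_lit 444) (nat_lit 430)) (XT.lf (nat_lit 84) (nat_lit 28213541455) (nat_lit 0) (nat_lit 970504074149) (nat_lit 420) (nat_lit 543279864065) (nat_lit 90) (nat_lit 1) (nat_lit 89) (nat_lit 1) (nat_lit 94) (nat_lit 1) (nat_lit 207) (nat_lit 444) (nat_lit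 429)))))) (XT.nd (nat_lit 470) (nat_lit 1176) (nat_lit 0) (XT.nd (nat_lit 188) (nat_lit 840) (nat_lit 0) (XT.nd (nat_lit 94) (nat_lit 420) (nat_lit 0) (XT.lf (nat_lit 336) (nat_lit 127410763107) (nat_lit 0) (nat_lit 861618003263) (nat_lit 252) (nat_lit 504927952054) (nat_lit 90) (nat_lit 1) (nat_lit 86) (nat_lit 1) (nat_lit 89) (nat_lit 1) (nat_lit 208) (nat_lit 444) (nat_lit 428)) (XT.lf (nat_lit 84) (nat_lit 440238442157) (nat_lit 0) (nat_lit 301742163776) (nat_lit 420) (nat_lit 705920002189) (nat_lit 82) (nat_lit 1) (nat_lit 81) (nat_lit 1) (nat_lit 86) (nat_lit 1) (nat_lit 209) (nat_lit 444) (nat_lit 427))) (XT.nd (nat_lit 94) (nat_lit 588) (nat_lit 0) (XT.lf (nat_lit 336) (nat_lit 681594999537) (nat_lit 0) (nat_lit 640270407985) (nat_lit 252) (nat_lit 81953852332) (nat_lit 82) (nat_lit 1) (nat_lit 78) (nat_lit 1) (nat_lit 81) (nat_lit 1) (nat_lit 210)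 (nat_lit 444) (nat_lit 426)) (XT.nd (nat_lit 94) (nat_lit 336) (nat_lit 0) (XT.lf (nat_lit 336) (nat_lit 218447904524) (nat_lit 0) (nat_lit 551246602459) (nat_lit 252) (nat_lit 591737463126) (nat_lit 79) (nat_lit 1) (nat_lit 75) (nat_lit 1) (nat_lit 78) (nat_lit 1) (nat_lit 211) (nat_lit 444) (nat_lit 425)) (XT.lf (nat_lit 84) (nat_lit 248977827107) (nat_lit 0) (nat_lit 227960837370) (nat_lit 336) (nat_lit 843866439842) (nat_lit 72) (nat_lit 1) (nat_lit 71) (nat_lit 1) (nat_lit 75) (nat_lit 1) (nat_lit 212) (nat_lit 444) (nat_lit 424))))) (XT.nd (nat_lit 188) (nat_lit 756) (nat_lit 0) (XT.nd (nat_lit 94) (nat_lit 168) (nat_lit 0) (XT.lf (nat_lit 336) (nat_lit 619548644495) (nat_lit 0) (nat_lit 412224709351) (nat_lit 252) (nat_lit 249891974136) (nat_lit 72) (nat_lit 1) (nat_lit 68) (nat_lit 1) (nat_lit 71) (nat_lit 1) (nat_lit 213) (nat_lit 444) (nat_lit 423))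 (XT.lf (nat_lit 252) (nat_lit 153587023775) (nat_lit 0) (nat_lit 359635991156) (nat_lit 168) (nat_lit 730881544488) (nat_lit 69) (nat_lit 1) (nat_lit 66) (nat_lit 1) (nat_lit 68) (nat_lit 1) (nat_lit 214) (nat_lit 444) (nat_lit 422))) (XT.nd (nat_lit 94) (nat_lit 420) (nat_lit 0) (XT.lf (nat_lit 84) (nat_lit 26018623061) (nat_lit 0) (nat_lit 291154040410) (nat_lit 336) (nat_lit 890827081724) (nat_lit 63) (nat_lit 1) (nat_lit 62) (nat_lit 1) (nat_lit 66) (nat_lit 1) (nat_lit 215) (nat_lit 444) (nat_lit 421)) (XT.nd (nat_lit 94) (nat_lit 252) (nat_lit 0) (XT.lf (nat_lit 252) (nat_lit 446295709858) (nat_lit 0) (nat_lit 278896531025) (nat_lit 168) (nat_lit 447848823420) (nat_lit 63) (nat_lit 1) (nat_lit 60) (nat_lit 1) (nat_lit 62) (nat_lit 1) (nat_lit 216) (nat_lit 444) (nat_lit 420)) (XT.lf (nat_lit 84) (nat_lit 242141401357) (nat_lit 0) (nat_lit 11184663138)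 (nat_lit 252) (nat_lit 886281795292) (nat_lit 58) (nat_lit 1) (nat_lit 57) (nat_lit 1) (nat_lit 60) (nat_lit 1) (nat_lit 217) (nat_lit 444) (nat_lit 419))))))) (XT.nd (nat_lit 846) (nat_lit 1512) (nat_lit 0) (XT.nd (nat_lit 376) (nat_lit 756) (nat_lit 0) (XT.nd (nat_lit 188) (nat_lit 420) (nat_lit 0) (XT.nd (nat_lit 94) (nat_lit 168) (nat_lit 0) (XT.lf (nat_lit 252) (nat_lit 661967832691) (nat_lit 0) (nat_lit 229386696591) (nat_lit 168) (nat_lit 215792674108) (nat_lit 58) (nat_lit 1) (nat_lit 55) (nat_lit 1) (nat_lit 57) (nat_lit 1) (nat_lit 218) (nat_lit 444) (nat_lit 418)) (XT.lf (nat_lit 252) (nat_lit 205633735738) (nat_lit 0) (nat_lit 213240300449) (nat_lit 168) (nat_lit 657053623771) (nat_lit 56) (nat_lit 1) (nat_lit 53) (nat_lit 1) (nat_lit 55) (nat_lit 1) (nat_lit 219) (nat_lit 444) (nat_lit 417))) (XT.nd (nat_lit 94) (nat_lit 168) (nat_lit 0) (XT.lf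 (nat_lit 252) (nat_lit 816290358353) (nat_lit 0) (nat_lit 203733799416) (nat_lit 168) (nat_lit 25845996109) (nat_lit 53) (nat_lit 1) (nat_lit 50) (nat_lit 1) (nat_lit 52) (nat_lit 1) (nat_lit 220) (nat_lit 444) (nat_lit 416)) (XT.lf (nat_lit 252) (nat_lit 365333732539) (nat_lit 0) (nat_lit 194497090259) (nat_lit 168) (nat_lit 456817028221) (nat_lit 51) (nat_lit 1) (nat_lit 48) (nat_lit 1) (nat_lit 50) (nat_lit 1) (nat_lit 221) (nat_lit 444) (nat_lit 415)))) (XT.nd (nat_lit 188) (nat_lit 420) (nat_lit 0) (XT.nd (nat_lit 94) (nat_lit 168) (nat_lit 0) (XT.lf (nat_lit 84) (nat_lit 125140908536) (nat_lit 0) (nat_lit 68783082347) (nat_lit 168) (nat_lit 794713622888) (nat_lit 47) (nat_lit 1) (nat_lit 46) (nat_lit 1) (nat_lit 48) (nat_lit 1) (nat_lit 222) (nat_lit 444) (nat_lit 414)) (XT.lf (nat_lit 252) (nat_lit 479338867691) (nat_lit 0) (nat_lit 191870551681) (nat_lit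 168) (nat_lit 290124768857) (nat_lit 47) (nat_lit 1) (nat_lit 44) (nat_lit 1) (nat_lit 46) (nat_lit 1) (nat_lit 223) (nat_lit 444) (nat_lit 413))) (XT.nd (nat_lit 94) (nat_lit 336) (nat_lit 0) (XT.lf (nat_lit 168) (nat_lit 51617984731) (nat_lit 0) (nat_lit 196583140379) (nat_lit 84) (nat_lit 686907541681) (nat_lit 45) (nat_lit 1) (nat_lit 43) (nat_lit 1) (nat_lit 44) (nat_lit 1) (nat_lit 224) (nat_lit 444) (nat_lit 412)) (XT.nd (nat_lit 94) (nat_lit 84) (nat_lit 0) (XT.lf (nat_lit 252) (nat_lit 557197088050) (nat_lit 0) (nat_lit 201052093723) (nat_lit 168) (nat_lit 151357082185) (nat_lit 43) (nat_lit 1) (nat_lit 40) (nat_lit 1) (nat_lit 42) (nat_lit 1) (nat_lit 225) (nat_lit 444) (nat_lit 411)) (XT.lf (nat_lit 168) (nat_lit 140139176403) (nat_lit 0) (nat_lit 208569634102) (nat_lit 84) (nat_lit 536254532823) (nat_lit 41) (nat_lit 1) (nat_lit 39) (nat_lit 1)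 (nat_lit 40) (nat_lit 1) (nat_lit 226) (nat_lit 444) (nat_lit 410)))))) (XT.nd (nat_lit 470) (nat_lit 588) (nat_lit 0) (XT.nd (nat_lit 188) (nat_lit 588) (nat_lit 0) (XT.nd (nat_lit 94) (nat_lit 84) (nat_lit 0) (XT.lf (nat_lit 252) (nat_lit 606628030611) (nat_lit 0) (nat_lit 218629009261) (nat_lit 168) (nat_lit 35878891988) (nat_lit 39) (nat_lit 1) (nat_lit 36) (nat_lit 1) (nat_lit 38) (nat_lit 1) (nat_lit 227) (nat_lit 444) (nat_lit 409)) (XT.lf (nat_lit 168) (nat_lit 201679500817) (nat_lit 0) (nat_lit 227923369251) (nat_lit 84) (nat_lit 408344399622) (nat_lit 37) (nat_lit 1) (nat_lit 35) (nat_lit 1) (nat_lit 36) (nat_lit 1) (nat_lit 228) (nat_lit 444) (nat_lit 408))) (XT.nd (nat_lit 94) (nat_lit 336) (nat_lit 0) (XT.lf (nat_lit 84) (nat_lit 58212730039) (nat_lit 0) (nat_lit 182714242334) (nat_lit 252) (nat_lit 574664689405) (nat_lit 33) (nat_lit 1) (nat_lit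 32) (nat_lit 1) (nat_lit 35) (nat_lit 1) (nat_lit 229) (nat_lit 444) (nat_lit 407)) (XT.nd (nat_lit 94) (nat_lit 252) (nat_lit 0) (XT.lf (nat_lit 168) (nat_lit 242033597059) (nat_lit 0) (nat_lit 252187536003) (nat_lit 84) (nat_lit 299570108565) (nat_lit 33) (nat_lit 1) (nat_lit 31) (nat_lit 1) (nat_lit 32) (nat_lit 1) (nat_lit 230) (nat_lit 444) (nat_lit 406)) (XT.lf (nat_lit 84) (nat_lit 135381134539) (nat_lit 0) (nat_lit 131125783249) (nat_lit 252) (nat_lit 506250023847) (nat_lit 29) (nat_lit 1) (nat_lit 28) (nat_lit 1) (nat_lit 31) (nat_lit 1) (nat_lit 231) (nat_lit 444) (nat_lit 405))))) (XT.nd (nat_lit 188) (nat_lit 336) (nat_lit 0) (XT.nd (nat_lit 94) (nat_lit 168) (nat_lit 0) (XT.lf (nat_lit 168) (nat_lit 265874449449) (nat_lit 0) (nat_lit 279444316982) (nat_lit 84) (nat_lit 206941293608) (nat_lit 29) (nat_lit 1) (nat_lit 27) (nat_lit 1) (nat_lit 28)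 (nat_lit 1) (nat_lit 232) (nat_lit 444) (nat_lit 404)) (XT.lf (nat_lit 84) (nat_lit 199312335587) (nat_lit 0) (nat_lit 94968761638) (nat_lit 168) (nat_lit 438158998721) (nat_lit 26) (nat_lit 1) (nat_lit 25) (nat_lit 1) (nat_lit 27) (nat_lit 1) (nat_lit 233) (nat_lit 444) (nat_lit 403))) (XT.nd (nat_lit 94) (nat_lit 252) (nat_lit 0) (XT.lf (nat_lit 168) (nat_lit 276962976471) (nat_lit 0) (nat_lit 308209840005) (nat_lit 84) (nat_lit 127974255425) (nat_lit 26) (nat_lit 1) (nat_lit 24) (nat_lit 1) (nat_lit 25) (nat_lit 1) (nat_lit 234) (nat_lit 444) (nat_lit 402)) (XT.nd (nat_lit 94) (nat_lit 84) (nat_lit 0) (XT.lf (nat_lit 84) (nat_lit 252111572799) (nat_lit 0) (nat_lit 70847934506) (nat_lit 168) (nat_lit 371487973794) (nat_lit 23) (nat_lit 1) (nat_lit 22) (nat_lit 1) (nat_lit 24) (nat_lit 1) (nat_lit 235) (nat_lit 444) (nat_lit 401)) (XT.lf (nat_lit 168) (nat_lit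 278318928188) (nat_lit 0) (nat_lit 337348805218) (nat_lit 84) (nat_lit 60601939663) (nat_lit 23) (nat_lit 1) (nat_lit 21) (nat_lit 1) (nat_lit 22) (nat_lit 1) (nat_lit 236) (nat_lit 444) (nat_lit 400))))))))
noncomputable def ec394 : XT := (XT.nd (nat_lit 1692) (nat_lit 0) (nat_lit 0) (XT.nd (nat_lit 846) (nat_lit 588) (nat_lit 0) (XT.nd (nat_lit 376) (nat_lit 672) (nat_lit 0) (XT.nd (nat_lit 188) (nat_lit 252) (nat_lit 0) (XT.nd (nat_lit 94) (nat_lit 84) (nat_lit 0) (XT.lf (nat_lit 84) (nat_lit 295528535215) (nat_lit 0) (nat_lit 56033210842) (nat_lit 168) (nat_lit 307045693600) (nat_lit 20) (nat_lit 1) (nat_lit 19) (nat_lit 1) (nat_lit 21) (nat_lit 1) (nat_lit 237) (nat_lit 444) (nat_lit 399)) (XT.lf (nat_lit 168) (nat_lit 272360205712) (nat_lit 0) (nat_lit 366005151762) (nat_lit 84) (nat_lit 3100241070) (nat_lit 20) (nat_lit 1) (nat_lit 18) (nat_lit 1) (nat_lit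 19) (nat_lit 1) (nat_lit 238) (nat_lit 444) (nat_lit 398))) (XT.nd (nat_lit 94) (nat_lit 84) (nat_lit 0) (XT.lf (nat_lit 84) (nat_lit 331020297211) (nat_lit 0) (nat_lit 48334757454) (nat_lit 168) (nat_lit 245411898490) (nat_lit 17) (nat_lit 1) (nat_lit 16) (nat_lit 1) (nat_lit 18) (nat_lit 1) (nat_lit 239) (nat_lit 444) (nat_lit 397)) (XT.lf (nat_lit 0) (nat_lit 44500947803) (nat_lit 0) (nat_lit 348291204658) (nat_lit 168) (nat_lit 215761817308) (nat_lit 15) (nat_lit 3) (nat_lit 15) (nat_lit 1) (nat_lit 17) (nat_lit 1) (nat_lit 240) (nat_lit 444) (nat_lit 396)))) (XT.nd (nat_lit 188) (nat_lit 420) (nat_lit 0) (XT.nd (nat_lit 94) (nat_lit 84) (nat_lit 0) (XT.lf (nat_lit 84) (nat_lit 359802862150) (nat_lit 0) (nat_lit 46001202822) (nat_lit 168) (nat_lit 186984809079) (nat_lit 14) (nat_lit 1) (nat_lit 13) (nat_lit 1) (nat_lit 15) (nat_lit 1) (nat_lit 241) (nat_lit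 444) (nat_lit 395)) (XT.lf (nat_lit 0) (nat_lit 85013273615) (nat_lit 0) (nat_lit 333062016883) (nat_lit 168) (nat_lit 159368347876) (nat_lit 12) (nat_lit 3) (nat_lit 12) (nat_lit 1) (nat_lit 14) (nat_lit 1) (nat_lit 242) (nat_lit 444) (nat_lit 394))) (XT.nd (nat_lit 94) (nat_lit 252) (nat_lit 0) (XT.lf (nat_lit 84) (nat_lit 382893394168) (nat_lit 0) (nat_lit 47636689623) (nat_lit 168) (nat_lit 132019548556) (nat_lit 11) (nat_lit 1) (nat_lit 10) (nat_lit 1) (nat_lit 12) (nat_lit 1) (nat_lit 243) (nat_lit 444) (nat_lit 393)) (XT.nd (nat_lit 94) (nat_lit 168) (nat_lit 0) (XT.lf (nat_lit 0) (nat_lit 119519201664) (nat_lit 0) (nat_lit 322054265408) (nat_lit 168) (nat_lit 106445146231) (nat_lit 9) (nat_lit 3) (nat_lit 9) (nat_lit 1) (nat_lit 11) (nat_lit 1) (nat_lit 244) (nat_lit 444) (nat_lit 392)) (XT.lf (nat_lit 84) (nat_lit 401144837391) (nat_lit 0) (nat_lit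 52133306954) (nat_lit 168) (nat_lit 80659187171) (nat_lit 8) (nat_lit 1) (nat_lit 7) (nat_lit 1) (nat_lit 9) (nat_lit 1) (nat_lit 245) (nat_lit 444) (nat_lit 391)))))) (XT.nd (nat_lit 376) (nat_lit 0) (nat_lit 0) (XT.nd (nat_lit 188) (nat_lit 336) (nat_lit 0) (XT.nd (nat_lit 94) (nat_lit 168) (nat_lit 0) (XT.lf (nat_lit 0) (nat_lit 148847701209) (nat_lit 0) (nat_lit 314220246561) (nat_lit 168) (nat_lit 57103546586) (nat_lit 6) (nat_lit 3) (nat_lit 6) (nat_lit 1) (nat_lit 8) (nat_lit 1) (nat_lit 246) (nat_lit 444) (nat_lit 390)) (XT.lf (nat_lit 84) (nat_lit 415274310631) (nat_lit 0) (nat_lit 58616070403) (nat_lit 168) (nat_lit 32959782849) (nat_lit 5) (nat_lit 1) (nat_lit 4) (nat_lit 1) (nat_lit 6) (nat_lit 1) (nat_lit 247) (nat_lit 444) (nat_lit 389))) (XT.nd (nat_lit 94) (nat_lit 252) (nat_lit 0) (XT.lf (nat_lit 0) (nat_lit 173699882538) (nat_lit 0) (nat_lit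 308728742483) (nat_lit 168) (nat_lit 11375789820) (nat_lit 3) (nat_lit 3) (nat_lit 3) (nat_lit 1) (nat_lit 5) (nat_lit 1) (nat_lit 248) (nat_lit 444) (nat_lit 388)) (XT.lf (nat_lit 0) (nat_lit 698015296544) (nat_lit 0) (nat_lit 0) (nat_lit 0) (nat_lit 0) (nat_lit 0) (nat_lit 0) (nat_lit 1) (nat_lit 0) (nat_lit 1) (nat_lit 0) (nat_lit 249) (nat_lit 444) (nat_lit 387)))) (XT.nd (nat_lit 188) (nat_lit 0) (nat_lit 0) (XT.nd (nat_lit 94) (nat_lit 0) (nat_lit 0) (XT.lf (nat_lit 0) (nat_lit 697379954640) (nat_lit 0) (nat_lit 0) (nat_lit 0) (nat_lit 0) (nat_lit 0) (nat_lit 0) (nat_lit 1) (nat_lit 0) (nat_lit 1) (nat_lit 0) (nat_lit 250) (nat_lit 444) (nat_lit 386)) (XT.lf (nat_lit 0) (nat_lit 696791675101) (nat_lit 0) (nat_lit 0) (nat_lit 0) (nat_lit 0) (nat_lit 0) (nat_lit 0) (nat_lit 1) (nat_lit 0) (nat_lit 1) (nat_lit 0) (nat_lit 251) (nat_lit 444) (nat_lit 385)))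 (XT.nd (nat_lit 94) (nat_lit 0) (nat_lit 0) (XT.lf (nat_lit 0) (nat_lit 696246971823) (nat_lit 0) (nat_lit 0) (nat_lit 0) (nat_lit 0) (nat_lit 0) (nat_lit 0) (nat_lit 1) (nat_lit 0) (nat_lit 1) (nat_lit 0) (nat_lit 252) (nat_lit 444) (nat_lit 384)) (XT.nd (nat_lit 94) (nat_lit 0) (nat_lit 0) (XT.lf (nat_lit 0) (nat_lit 695742616936) (nat_lit 0) (nat_lit 0) (nat_lit 0) (nat_lit 0) (nat_lit 0) (nat_lit 0) (nat_lit 1) (nat_lit 0) (nat_lit 1) (nat_lit 0) (nat_lit 253) (nat_lit 444) (nat_lit 383)) (XT.lf (nat_lit 0) (nat_lit 695275621671) (nat_lit 0) (nat_lit 0) (nat_lit 0) (nat_lit 0) (nat_lit 0) (nat_lit 0) (nat_lit 1) (nat_lit 0) (nat_lit 1) (nat_lit 0) (nat_lit 254) (nat_lit 444) (nat_lit 382))))))) (XT.nd (nat_lit 846) (nat_lit 0) (nat_lit 0) (XT.nd (nat_lit 376) (nat_lit 0) (nat_lit 0) (XT.nd (nat_lit 188) (nat_lit 0) (nat_lit 0) (XT.nd (nat_lit 94) (nat_lit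 0) (nat_lit 0) (XT.lf (nat_lit 0) (nat_lit 694843218647) (nat_lit 0) (nat_lit 0) (nat_lit 0) (nat_lit 0) (nat_lit 0) (nat_lit 0) (nat_lit 1) (nat_lit 0) (nat_lit 1) (nat_lit 0) (nat_lit 255) (nat_lit 444) (nat_lit 381)) (XT.lf (nat_lit 0) (nat_lit 694442845477) (nat_lit 0) (nat_lit 0) (nat_lit 0) (nat_lit 0) (nat_lit 0) (nat_lit 0) (nat_lit 1) (nat_lit 0) (nat_lit 1) (nat_lit 0) (nat_lit 256) (nat_lit 444) (nat_lit 380))) (XT.nd (nat_lit 94) (nat_lit 0) (nat_lit 0) (XT.lf (nat_lit 0) (nat_lit 694072129579) (nat_lit 0) (nat_lit 0) (nat_lit 0) (nat_lit 0) (nat_lit 0) (nat_lit 0) (nat_lit 1) (nat_lit 0) (nat_lit 1) (nat_lit 0) (nat_lit 257) (nat_lit 444) (nat_lit 379)) (XT.lf (nat_lit 0) (nat_lit 693728874118) (nat_lit 0) (nat_lit 0) (nat_lit 0) (nat_lit 0) (nat_lit 0) (nat_lit 0) (nat_lit 1) (nat_lit 0) (nat_lit 1) (nat_lit 0) (nat_lit 258) (nat_lit 444) (nat_lit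 378)))) (XT.nd (nat_lit 188) (nat_lit 0) (nat_lit 0) (XT.nd (nat_lit 94) (nat_lit 0) (nat_lit 0) (XT.lf (nat_lit 0) (nat_lit 693411044987) (nat_lit 0) (nat_lit 0) (nat_lit 0) (nat_lit 0) (nat_lit 0) (nat_lit 0) (nat_lit 1) (nat_lit 0) (nat_lit 1) (nat_lit 0) (nat_lit 259) (nat_lit 444) (nat_lit 377)) (XT.lf (nat_lit 0) (nat_lit 693116758755) (nat_lit 0) (nat_lit 0) (nat_lit 0) (nat_lit 0) (nat_lit 0) (nat_lit 0) (nat_lit 1) (nat_lit 0) (nat_lit 1) (nat_lit 0) (nat_lit 260) (nat_lit 444) (nat_lit 376))) (XT.nd (nat_lit 94) (nat_lit 0) (nat_lit 0) (XT.lf (nat_lit 0) (nat_lit 692844271503) (nat_lit 0) (nat_lit 0) (nat_lit 0) (nat_lit 0) (nat_lit 0) (nat_lit 0) (nat_lit 1) (nat_lit 0) (nat_lit 1) (nat_lit 0) (nat_lit 261) (nat_lit 444) (nat_lit 375)) (XT.nd (nat_lit 94) (nat_lit 0) (nat_lit 0) (XT.lf (nat_lit 0) (nat_lit 692591968491) (nat_lit 0) (nat_lit 0) (nat_lit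 0) (nat_lit 0) (nat_lit 0) (nat_lit 0) (nat_lit 1) (nat_lit 0) (nat_lit 1) (nat_lit 0) (nat_lit 262) (nat_lit 444) (nat_lit 374)) (XT.lf (nat_lit 0) (nat_lit 692358354592) (nat_lit 0) (nat_lit 0) (nat_lit 0) (nat_lit 0) (nat_lit 0) (nat_lit 0) (nat_lit 1) (nat_lit 0) (nat_lit 1) (nat_lit 0) (nat_lit 263) (nat_lit 444) (nat_lit 373)))))) (XT.nd (nat_lit 470) (nat_lit 0) (nat_lit 0) (XT.nd (nat_lit 188) (nat_lit 0) (nat_lit 0) (XT.nd (nat_lit 94) (nat_lit 0) (nat_lit 0) (XT.lf (nat_lit 0) (nat_lit 692142045426) (nat_lit 0) (nat_lit 0) (nat_lit 0) (nat_lit 0) (nat_lit 0) (nat_lit 0) (nat_lit 1) (nat_lit 0) (nat_lit 1) (nat_lit 0) (nat_lit 264) (nat_lit 444) (nat_lit 372)) (XT.lf (nat_lit 0) (nat_lit 691941759161) (nat_lit 0) (nat_lit 0) (nat_lit 0) (nat_lit 0) (nat_lit 0) (nat_lit 0) (nat_lit 1) (nat_lit 0) (nat_lit 1) (nat_lit 0) (nat_lit 265) (nat_lit 444)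 (nat_lit 371))) (XT.nd (nat_lit 94) (nat_lit 0) (nat_lit 0) (XT.lf (nat_lit 0) (nat_lit 691756308916) (nat_lit 0) (nat_lit 0) (nat_lit 0) (nat_lit 0) (nat_lit 0) (nat_lit 0) (nat_lit 1) (nat_lit 0) (nat_lit 1) (nat_lit 0) (nat_lit 266) (nat_lit 444) (nat_lit 370)) (XT.nd (nat_lit 94) (nat_lit 0) (nat_lit 0) (XT.lf (nat_lit 0) (nat_lit 691584595726) (nat_lit 0) (nat_lit 0) (nat_lit 0) (nat_lit 0) (nat_lit 0) (nat_lit 0) (nat_lit 1) (nat_lit 0) (nat_lit 1) (nat_lit 0) (nat_lit 267) (nat_lit 444) (nat_lit 369)) (XT.lf (nat_lit 0) (nat_lit 691425602032) (nat_lit 0) (nat_lit 0) (nat_lit 0) (nat_lit 0) (nat_lit 0) (nat_lit 0) (nat_lit 1) (nat_lit 0) (nat_lit 1) (nat_lit 0) (nat_lit 268) (nat_lit 444) (nat_lit 368))))) (XT.nd (nat_lit 188) (nat_lit 0) (nat_lit 0) (XT.nd (nat_lit 94) (nat_lit 0) (nat_lit 0) (XT.lf (nat_lit 0) (nat_lit 691278385648) (nat_lit 0) (nat_lit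 0) (nat_lit 0) (nat_lit 0) (nat_lit 0) (nat_lit 0) (nat_lit 1) (nat_lit 0) (nat_lit 1) (nat_lit 0) (nat_lit 269) (nat_lit 444) (nat_lit 367)) (XT.lf (nat_lit 0) (nat_lit 691142074182) (nat_lit 0) (nat_lit 0) (nat_lit 0) (nat_lit 0) (nat_lit 0) (nat_lit 0) (nat_lit 1) (nat_lit 0) (nat_lit 1) (nat_lit 0) (nat_lit 270) (nat_lit 444) (nat_lit 366))) (XT.nd (nat_lit 94) (nat_lit 0) (nat_lit 0) (XT.lf (nat_lit 0) (nat_lit 691015859861) (nat_lit 0) (nat_lit 0) (nat_lit 0) (nat_lit 0) (nat_lit 0) (nat_lit 0) (nat_lit 1) (nat_lit 0) (nat_lit 1) (nat_lit 0) (nat_lit 271) (nat_lit 444) (nat_lit 365)) (XT.nd (nat_lit 94) (nat_lit 0) (nat_lit 0) (XT.lf (nat_lit 0) (nat_lit 690898994749) (nat_lit 0) (nat_lit 0) (nat_lit 0) (nat_lit 0) (nat_lit 0) (nat_lit 0) (nat_lit 1) (nat_lit 0) (nat_lit 1) (nat_lit 0) (nat_lit 272) (nat_lit 444) (nat_lit 364)) (XT.lf (nat_lit 0) (nat_lit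 690790786312) (nat_lit 0) (nat_lit 0) (nat_lit 0) (nat_lit 0) (nat_lit 0) (nat_lit 0) (nat_lit 1) (nat_lit 0) (nat_lit 1) (nat_lit 0) (nat_lit 273) (nat_lit 444) (nat_lit 363))))))))
noncomputable def ec395 : XT := (XT.nd (nat_lit 1786) (nat_lit 0) (nat_lit 0) (XT.nd (nat_lit 846) (nat_lit 0) (nat_lit 0) (XT.nd (nat_lit 376) (nat_lit 0) (nat_lit 0) (XT.nd (nat_lit 188) (nat_lit 0) (nat_lit 0) (XT.nd (nat_lit 94) (nat_lit 0) (nat_lit 0) (XT.lf (nat_lit 0) (nat_lit 690690593315) (nat_lit 0) (nat_lit 0) (nat_lit 0) (nat_lit 0) (nat_lit 0) (nat_lit 0) (nat_lit 1) (nat_lit 0) (nat_lit 1) (nat_lit 0) (nat_lit 274) (nat_lit 444) (nat_lit 362)) (XT.lf (nat_lit 0) (nat_lit 690597822022) (nat_lit 0) (nat_lit 0) (nat_lit 0) (nat_lit 0) (nat_lit 0) (nat_lit 0) (nat_lit 1) (nat_lit 0) (nat_lit 1) (nat_lit 0) (nat_lit 275) (nat_lit 444) (nat_lit 361))) (XT.nd (nat_lit 94)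 (nat_lit 0) (nat_lit 0) (XT.lf (nat_lit 0) (nat_lit 690511922676) (nat_lit 0) (nat_lit 0) (nat_lit 0) (nat_lit 0) (nat_lit 0) (nat_lit 0) (nat_lit 1) (nat_lit 0) (nat_lit 1) (nat_lit 0) (nat_lit 276) (nat_lit 444) (nat_lit 360)) (XT.lf (nat_lit 0) (nat_lit 690432386244) (nat_lit 0) (nat_lit 0) (nat_lit 0) (nat_lit 0) (nat_lit 0) (nat_lit 0) (nat_lit 1) (nat_lit 0) (nat_lit 1) (nat_lit 0) (nat_lit 277) (nat_lit 444) (nat_lit 359)))) (XT.nd (nat_lit 188) (nat_lit 0) (nat_lit 0) (XT.nd (nat_lit 94) (nat_lit 0) (nat_lit 0) (XT.lf (nat_lit 0) (nat_lit 690358741401) (nat_lit 0) (nat_lit 0) (nat_lit 0) (nat_lit 0) (nat_lit 0) (nat_lit 0) (nat_lit 1) (nat_lit 0) (nat_lit 1) (nat_lit 0) (nat_lit 278) (nat_lit 444) (nat_lit 358)) (XT.lf (nat_lit 0) (nat_lit 690290551730) (nat_lit 0) (nat_lit 0) (nat_lit 0) (nat_lit 0) (nat_lit 0) (nat_lit 0) (nat_lit 1) (nat_lit 0)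 (nat_lit 1) (nat_lit 0) (nat_lit 279) (nat_lit 444) (nat_lit 357))) (XT.nd (nat_lit 94) (nat_lit 0) (nat_lit 0) (XT.lf (nat_lit 0) (nat_lit 690227413147) (nat_lit 0) (nat_lit 0) (nat_lit 0) (nat_lit 0) (nat_lit 0) (nat_lit 0) (nat_lit 1) (nat_lit 0) (nat_lit 1) (nat_lit 0) (nat_lit 280) (nat_lit 444) (nat_lit 356)) (XT.nd (nat_lit 94) (nat_lit 0) (nat_lit 0) (XT.lf (nat_lit 0) (nat_lit 690168951495) (nat_lit 0) (nat_lit 0) (nat_lit 0) (nat_lit 0) (nat_lit 0) (nat_lit 0) (nat_lit 1) (nat_lit 0) (nat_lit 1) (nat_lit 0) (nat_lit 281) (nat_lit 444) (nat_lit 355)) (XT.lf (nat_lit 0) (nat_lit 690114820336) (nat_lit 0) (nat_lit 0) (nat_lit 0) (nat_lit 0) (nat_lit 0) (nat_lit 0) (nat_lit 1) (nat_lit 0) (nat_lit 1) (nat_lit 0) (nat_lit 282) (nat_lit 444) (nat_lit 354)))))) (XT.nd (nat_lit 470) (nat_lit 0) (nat_lit 0) (XT.nd (nat_lit 188) (nat_lit 0) (nat_lit 0) (XT.nd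 (nat_lit 94) (nat_lit 0) (nat_lit 0) (XT.lf (nat_lit 0) (nat_lit 690064698893) (nat_lit 0) (nat_lit 0) (nat_lit 0) (nat_lit 0) (nat_lit 0) (nat_lit 0) (nat_lit 1) (nat_lit 0) (nat_lit 1) (nat_lit 0) (nat_lit 283) (nat_lit 444) (nat_lit 353)) (XT.lf (nat_lit 0) (nat_lit 690018290149) (nat_lit 0) (nat_lit 0) (nat_lit 0) (nat_lit 0) (nat_lit 0) (nat_lit 0) (nat_lit 1) (nat_lit 0) (nat_lit 1) (nat_lit 0) (nat_lit 284) (nat_lit 444) (nat_lit 352))) (XT.nd (nat_lit 94) (nat_lit 0) (nat_lit 0) (XT.lf (nat_lit 0) (nat_lit 689975319090) (nat_lit 0) (nat_lit 0) (nat_lit 0) (nat_lit 0) (nat_lit 0) (nat_lit 0) (nat_lit 1) (nat_lit 0) (nat_lit 1) (nat_lit 0) (nat_lit 285) (nat_lit 444) (nat_lit 351)) (XT.nd (nat_lit 94) (nat_lit 0) (nat_lit 0) (XT.lf (nat_lit 0) (nat_lit 689935531073) (nat_lit 0) (nat_lit 0) (nat_lit 0) (nat_lit 0) (nat_lit 0) (nat_lit 0) (nat_lit 1) (nat_lit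 0) (nat_lit 1) (nat_lit 0) (nat_lit 286) (nat_lit 444) (nat_lit 350)) (XT.lf (nat_lit 0) (nat_lit 689898690316) (nat_lit 0) (nat_lit 0) (nat_lit 0) (nat_lit 0) (nat_lit 0) (nat_lit 0) (nat_lit 1) (nat_lit 0) (nat_lit 1) (nat_lit 0) (nat_lit 287) (nat_lit 444) (nat_lit 349))))) (XT.nd (nat_lit 188) (nat_lit 0) (nat_lit 0) (XT.nd (nat_lit 94) (nat_lit 0) (nat_lit 0) (XT.lf (nat_lit 0) (nat_lit 689864578503) (nat_lit 0) (nat_lit 0) (nat_lit 0) (nat_lit 0) (nat_lit 0) (nat_lit 0) (nat_lit 1) (nat_lit 0) (nat_lit 1) (nat_lit 0) (nat_lit 288) (nat_lit 444) (nat_lit 348)) (XT.lf (nat_lit 0) (nat_lit 689832993492) (nat_lit 0) (nat_lit 0) (nat_lit 0) (nat_lit 0) (nat_lit 0) (nat_lit 0) (nat_lit 1) (nat_lit 0) (nat_lit 1) (nat_lit 0) (nat_lit 289) (nat_lit 444) (nat_lit 347))) (XT.nd (nat_lit 94) (nat_lit 0) (nat_lit 0) (XT.lf (nat_lit 0) (nat_lit 689803748111) (nat_lit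 0) (nat_lit 0) (nat_lit 0) (nat_lit 0) (nat_lit 0) (nat_lit 0) (nat_lit 1) (nat_lit 0) (nat_lit 1) (nat_lit 0) (nat_lit 290) (nat_lit 444) (nat_lit 346)) (XT.nd (nat_lit 94) (nat_lit 0) (nat_lit 0) (XT.lf (nat_lit 0) (nat_lit 689776669055) (nat_lit 0) (nat_lit 0) (nat_lit 0) (nat_lit 0) (nat_lit 0) (nat_lit 0) (nat_lit 1) (nat_lit 0) (nat_lit 1) (nat_lit 0) (nat_lit 291) (nat_lit 444) (nat_lit 345)) (XT.lf (nat_lit 0) (nat_lit 689751595855) (nat_lit 0) (nat_lit 0) (nat_lit 0) (nat_lit 0) (nat_lit 0) (nat_lit 0) (nat_lit 1) (nat_lit 0) (nat_lit 1) (nat_lit 0) (nat_lit 292) (nat_lit 444) (nat_lit 344))))))) (XT.nd (nat_lit 846) (nat_lit 0) (nat_lit 0) (XT.nd (nat_lit 376) (nat_lit 0) (nat_lit 0) (XT.nd (nat_lit 188) (nat_lit 0) (nat_lit 0) (XT.nd (nat_lit 94) (nat_lit 0) (nat_lit 0) (XT.lf (nat_lit 0) (nat_lit 689728379929) (nat_lit 0) (nat_lit 0) (nat_lit 0)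 (nat_lit 0) (nat_lit 0) (nat_lit 0) (nat_lit 1) (nat_lit 0) (nat_lit 1) (nat_lit 0) (nat_lit 293) (nat_lit 444) (nat_lit 343)) (XT.lf (nat_lit 0) (nat_lit 689706883701) (nat_lit 0) (nat_lit 0) (nat_lit 0) (nat_lit 0) (nat_lit 0) (nat_lit 0) (nat_lit 1) (nat_lit 0) (nat_lit 1) (nat_lit 0) (nat_lit 294) (nat_lit 444) (nat_lit 342))) (XT.nd (nat_lit 94) (nat_lit 0) (nat_lit 0) (XT.lf (nat_lit 0) (nat_lit 689686979786) (nat_lit 0) (nat_lit 0) (nat_lit 0) (nat_lit 0) (nat_lit 0) (nat_lit 0) (nat_lit 1) (nat_lit 0) (nat_lit 1) (nat_lit 0) (nat_lit 295) (nat_lit 444) (nat_lit 341)) (XT.lf (nat_lit 0) (nat_lit 689668550235) (nat_lit 0) (nat_lit 0) (nat_lit 0) (nat_lit 0) (nat_lit 0) (nat_lit 0) (nat_lit 1) (nat_lit 0) (nat_lit 1) (nat_lit 0) (nat_lit 296) (nat_lit 444) (nat_lit 340)))) (XT.nd (nat_lit 188) (nat_lit 0) (nat_lit 0) (XT.nd (nat_lit 94) (nat_lit 0) (nat_lit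 0) (XT.lf (nat_lit 0) (nat_lit 689651485837) (nat_lit 0) (nat_lit 0) (nat_lit 0) (nat_lit 0) (nat_lit 0) (nat_lit 0) (nat_lit 1) (nat_lit 0) (nat_lit 1) (nat_lit 0) (nat_lit 297) (nat_lit 444) (nat_lit 339)) (XT.lf (nat_lit 0) (nat_lit 689635685467) (nat_lit 0) (nat_lit 0) (nat_lit 0) (nat_lit 0) (nat_lit 0) (nat_lit 0) (nat_lit 1) (nat_lit 0) (nat_lit 1) (nat_lit 0) (nat_lit 298) (nat_lit 444) (nat_lit 338))) (XT.nd (nat_lit 94) (nat_lit 0) (nat_lit 0) (XT.lf (nat_lit 0) (nat_lit 689621055496) (nat_lit 0) (nat_lit 0) (nat_lit 0) (nat_lit 0) (nat_lit 0) (nat_lit 0) (nat_lit 1) (nat_lit 0) (nat_lit 1) (nat_lit 0) (nat_lit 299) (nat_lit 444) (nat_lit 337)) (XT.nd (nat_lit 94) (nat_lit 0) (nat_lit 0) (XT.lf (nat_lit 0) (nat_lit 689607509226) (nat_lit 0) (nat_lit 0) (nat_lit 0) (nat_lit 0) (nat_lit 0) (nat_lit 0) (nat_lit 1) (nat_lit 0) (nat_lit 1) (nat_lit 0)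 (nat_lit 300) (nat_lit 444) (nat_lit 336)) (XT.lf (nat_lit 0) (nat_lit 689594966383) (nat_lit 0) (nat_lit 0) (nat_lit 0) (nat_lit 0) (nat_lit 0) (nat_lit 0) (nat_lit 1) (nat_lit 0) (nat_lit 1) (nat_lit 0) (nat_lit 301) (nat_lit 444) (nat_lit 335)))))) (XT.nd (nat_lit 470) (nat_lit 0) (nat_lit 0) (XT.nd (nat_lit 188) (nat_lit 0) (nat_lit 0) (XT.nd (nat_lit 94) (nat_lit 0) (nat_lit 0) (XT.lf (nat_lit 0) (nat_lit 689583352640) (nat_lit 0) (nat_lit 0) (nat_lit 0) (nat_lit 0) (nat_lit 0) (nat_lit 0) (nat_lit 1) (nat_lit 0) (nat_lit 1) (nat_lit 0) (nat_lit 302) (nat_lit 444) (nat_lit 334)) (XT.lf (nat_lit 0) (nat_lit 689572599175) (nat_lit 0) (nat_lit 0) (nat_lit 0) (nat_lit 0) (nat_lit 0) (nat_lit 0) (nat_lit 1) (nat_lit 0) (nat_lit 1) (nat_lit 0) (nat_lit 303) (nat_lit 444) (nat_lit 333))) (XT.nd (nat_lit 94) (nat_lit 0) (nat_lit 0) (XT.lf (nat_lit 0) (nat_lit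 689562642262) (nat_lit 0) (nat_lit 0) (nat_lit 0) (nat_lit 0) (nat_lit 0) (nat_lit 0) (nat_lit 1) (nat_lit 0) (nat_lit 1) (nat_lit 0) (nat_lit 304) (nat_lit 444) (nat_lit 332)) (XT.nd (nat_lit 94) (nat_lit 0) (nat_lit 0) (XT.lf (nat_lit 0) (nat_lit 689553422898) (nat_lit 0) (nat_lit 0) (nat_lit 0) (nat_lit 0) (nat_lit 0) (nat_lit 0) (nat_lit 1) (nat_lit 0) (nat_lit 1) (nat_lit 0) (nat_lit 305) (nat_lit 444) (nat_lit 331)) (XT.lf (nat_lit 0) (nat_lit 689544886450) (nat_lit 0) (nat_lit 0) (nat_lit 0) (nat_lit 0) (nat_lit 0) (nat_lit 0) (nat_lit 1) (nat_lit 0) (nat_lit 1) (nat_lit 0) (nat_lit 306) (nat_lit 444) (nat_lit 330))))) (XT.nd (nat_lit 188) (nat_lit 0) (nat_lit 0) (XT.nd (nat_lit 94) (nat_lit 0) (nat_lit 0) (XT.lf (nat_lit 0) (nat_lit 689536982332) (nat_lit 0) (nat_lit 0) (nat_lit 0) (nat_lit 0) (nat_lit 0) (nat_lit 0) (nat_lit 1) (nat_lit 0) (nat_lit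 1) (nat_lit 0) (nat_lit 307) (nat_lit 444) (nat_lit 329)) (XT.lf (nat_lit 0) (nat_lit 689529663704) (nat_lit 0) (nat_lit 0) (nat_lit 0) (nat_lit 0) (nat_lit 0) (nat_lit 0) (nat_lit 1) (nat_lit 0) (nat_lit 1) (nat_lit 0) (nat_lit 308) (nat_lit 444) (nat_lit 328))) (XT.nd (nat_lit 94) (nat_lit 0) (nat_lit 0) (XT.lf (nat_lit 0) (nat_lit 689522887196) (nat_lit 0) (nat_lit 0) (nat_lit 0) (nat_lit 0) (nat_lit 0) (nat_lit 0) (nat_lit 1) (nat_lit 0) (nat_lit 1) (nat_lit 0) (nat_lit 309) (nat_lit 444) (nat_lit 327)) (XT.nd (nat_lit 94) (nat_lit 0) (nat_lit 0) (XT.lf (nat_lit 0) (nat_lit 689516612652) (nat_lit 0) (nat_lit 0) (nat_lit 0) (nat_lit 0) (nat_lit 0) (nat_lit 0) (nat_lit 1) (nat_lit 0) (nat_lit 1) (nat_lit 0) (nat_lit 310) (nat_lit 444) (nat_lit 326)) (XT.lf (nat_lit 0) (nat_lit 689510802889) (nat_lit 0) (nat_lit 0) (nat_lit 0) (nat_lit 0) (nat_lit 0) (nat_lit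 0) (nat_lit 1) (nat_lit 0) (nat_lit 1) (nat_lit 0) (nat_lit 311) (nat_lit 444) (nat_lit 325))))))))
noncomputable def ec396 : XT := (XT.nd (nat_lit 1692) (nat_lit 0) (nat_lit 0) (XT.nd (nat_lit 846) (nat_lit 0) (nat_lit 0) (XT.nd (nat_lit 376) (nat_lit 0) (nat_lit 0) (XT.nd (nat_lit 188) (nat_lit 0) (nat_lit 0) (XT.nd (nat_lit 94) (nat_lit 0) (nat_lit 0) (XT.lf (nat_lit 0) (nat_lit 689505423479) (nat_lit 0) (nat_lit 0) (nat_lit 0) (nat_lit 0) (nat_lit 0) (nat_lit 0) (nat_lit 1) (nat_lit 0) (nat_lit 1) (nat_lit 0) (nat_lit 312) (nat_lit 444) (nat_lit 324)) (XT.lf (nat_lit 0) (nat_lit 689500442544) (nat_lit 0) (nat_lit 0) (nat_lit 0) (nat_lit 0) (nat_lit 0) (nat_lit 0) (nat_lit 1) (nat_lit 0) (nat_lit 1) (nat_lit 0) (nat_lit 313) (nat_lit 444) (nat_lit 323))) (XT.nd (nat_lit 94) (nat_lit 0) (nat_lit 0) (XT.lf (nat_lit 0) (nat_lit 689495830566) (nat_lit 0) (nat_lit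 0) (nat_lit 0) (nat_lit 0) (nat_lit 0) (nat_lit 0) (nat_lit 1) (nat_lit 0) (nat_lit 1) (nat_lit 0) (nat_lit 314) (nat_lit 444) (nat_lit 322)) (XT.lf (nat_lit 0) (nat_lit 689491560217) (nat_lit 0) (nat_lit 0) (nat_lit 0) (nat_lit 0) (nat_lit 0) (nat_lit 0) (nat_lit 1) (nat_lit 0) (nat_lit 1) (nat_lit 0) (nat_lit 315) (nat_lit 444) (nat_lit 321)))) (XT.nd (nat_lit 188) (nat_lit 0) (nat_lit 0) (XT.nd (nat_lit 94) (nat_lit 0) (nat_lit 0) (XT.lf (nat_lit 0) (nat_lit 689487606190) (nat_lit 0) (nat_lit 0) (nat_lit 0) (nat_lit 0) (nat_lit 0) (nat_lit 0) (nat_lit 1) (nat_lit 0) (nat_lit 1) (nat_lit 0) (nat_lit 316) (nat_lit 444) (nat_lit 320)) (XT.lf (nat_lit 0) (nat_lit 689483945054) (nat_lit 0) (nat_lit 0) (nat_lit 0) (nat_lit 0) (nat_lit 0) (nat_lit 0) (nat_lit 1) (nat_lit 0) (nat_lit 1) (nat_lit 0) (nat_lit 317) (nat_lit 444) (nat_lit 319))) (XT.nd (nat_lit 94)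 (nat_lit 0) (nat_lit 0) (XT.lf (nat_lit 0) (nat_lit 689480555113) (nat_lit 0) (nat_lit 0) (nat_lit 0) (nat_lit 0) (nat_lit 0) (nat_lit 0) (nat_lit 1) (nat_lit 0) (nat_lit 1) (nat_lit 0) (nat_lit 318) (nat_lit 444) (nat_lit 318)) (XT.nd (nat_lit 94) (nat_lit 0) (nat_lit 0) (XT.lf (nat_lit 0) (nat_lit 689477416279) (nat_lit 0) (nat_lit 0) (nat_lit 0) (nat_lit 0) (nat_lit 0) (nat_lit 0) (nat_lit 1) (nat_lit 0) (nat_lit 1) (nat_lit 0) (nat_lit 319) (nat_lit 444) (nat_lit 317)) (XT.lf (nat_lit 0) (nat_lit 689474509951) (nat_lit 0) (nat_lit 0) (nat_lit 0) (nat_lit 0) (nat_lit 0) (nat_lit 0) (nat_lit 1) (nat_lit 0) (nat_lit 1) (nat_lit 0) (nat_lit 320) (nat_lit 444) (nat_lit 316)))))) (XT.nd (nat_lit 376) (nat_lit 0) (nat_lit 0) (XT.nd (nat_lit 188) (nat_lit 0) (nat_lit 0) (XT.nd (nat_lit 94) (nat_lit 0) (nat_lit 0) (XT.lf (nat_lit 0) (nat_lit 689471818907) (nat_lit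 0) (nat_lit 0) (nat_lit 0) (nat_lit 0) (nat_lit 0) (nat_lit 0) (nat_lit 1) (nat_lit 0) (nat_lit 1) (nat_lit 0) (nat_lit 321) (nat_lit 444) (nat_lit 315)) (XT.lf (nat_lit 0) (nat_lit 689469327199) (nat_lit 0) (nat_lit 0) (nat_lit 0) (nat_lit 0) (nat_lit 0) (nat_lit 0) (nat_lit 1) (nat_lit 0) (nat_lit 1) (nat_lit 0) (nat_lit 322) (nat_lit 444) (nat_lit 314))) (XT.nd (nat_lit 94) (nat_lit 0) (nat_lit 0) (XT.lf (nat_lit 0) (nat_lit 689467020062) (nat_lit 0) (nat_lit 0) (nat_lit 0) (nat_lit 0) (nat_lit 0) (nat_lit 0) (nat_lit 1) (nat_lit 0) (nat_lit 1) (nat_lit 0) (nat_lit 323) (nat_lit 444) (nat_lit 313)) (XT.lf (nat_lit 0) (nat_lit 689464883824) (nat_lit 0) (nat_lit 0) (nat_lit 0) (nat_lit 0) (nat_lit 0) (nat_lit 0) (nat_lit 1) (nat_lit 0) (nat_lit 1) (nat_lit 0) (nat_lit 324) (nat_lit 444) (nat_lit 312)))) (XT.nd (nat_lit 188) (nat_lit 0) (nat_lit 0) (XT.nd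 (nat_lit 94) (nat_lit 0) (nat_lit 0) (XT.lf (nat_lit 0) (nat_lit 689462905826) (nat_lit 0) (nat_lit 0) (nat_lit 0) (nat_lit 0) (nat_lit 0) (nat_lit 0) (nat_lit 1) (nat_lit 0) (nat_lit 1) (nat_lit 0) (nat_lit 325) (nat_lit 444) (nat_lit 311)) (XT.lf (nat_lit 0) (nat_lit 689461074347) (nat_lit 0) (nat_lit 0) (nat_lit 0) (nat_lit 0) (nat_lit 0) (nat_lit 0) (nat_lit 1) (nat_lit 0) (nat_lit 1) (nat_lit 0) (nat_lit 326) (nat_lit 444) (nat_lit 310))) (XT.nd (nat_lit 94) (nat_lit 0) (nat_lit 0) (XT.lf (nat_lit 0) (nat_lit 689459378532) (nat_lit 0) (nat_lit 0) (nat_lit 0) (nat_lit 0) (nat_lit 0) (nat_lit 0) (nat_lit 1) (nat_lit 0) (nat_lit 1) (nat_lit 0) (nat_lit 327) (nat_lit 444) (nat_lit 309)) (XT.nd (nat_lit 94) (nat_lit 0) (nat_lit 0) (XT.lf (nat_lit 0) (nat_lit 689457808334) (nat_lit 0) (nat_lit 0) (nat_lit 0) (nat_lit 0) (nat_lit 0) (nat_lit 0) (nat_lit 1) (nat_lit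 0) (nat_lit 1) (nat_lit 0) (nat_lit 328) (nat_lit 444) (nat_lit 308)) (XT.lf (nat_lit 0) (nat_lit 689456354446) (nat_lit 0) (nat_lit 0) (nat_lit 0) (nat_lit 0) (nat_lit 0) (nat_lit 0) (nat_lit 1) (nat_lit 0) (nat_lit 1) (nat_lit 0) (nat_lit 329) (nat_lit 444) (nat_lit 307))))))) (XT.nd (nat_lit 846) (nat_lit 0) (nat_lit 0) (XT.nd (nat_lit 376) (nat_lit 0) (nat_lit 0) (XT.nd (nat_lit 188) (nat_lit 0) (nat_lit 0) (XT.nd (nat_lit 94) (nat_lit 0) (nat_lit 0) (XT.lf (nat_lit 0) (nat_lit 689455008254) (nat_lit 0) (nat_lit 0) (nat_lit 0) (nat_lit 0) (nat_lit 0) (nat_lit 0) (nat_lit 1) (nat_lit 0) (nat_lit 1) (nat_lit 0) (nat_lit 330) (nat_lit 444) (nat_lit 306)) (XT.lf (nat_lit 0) (nat_lit 689453761780) (nat_lit 0) (nat_lit 0) (nat_lit 0) (nat_lit 0) (nat_lit 0) (nat_lit 0) (nat_lit 1) (nat_lit 0) (nat_lit 1) (nat_lit 0) (nat_lit 331) (nat_lit 444) (nat_lit 305)))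 (XT.nd (nat_lit 94) (nat_lit 0) (nat_lit 0) (XT.lf (nat_lit 0) (nat_lit 689452607637) (nat_lit 0) (nat_lit 0) (nat_lit 0) (nat_lit 0) (nat_lit 0) (nat_lit 0) (nat_lit 1) (nat_lit 0) (nat_lit 1) (nat_lit 0) (nat_lit 332) (nat_lit 444) (nat_lit 304)) (XT.lf (nat_lit 0) (nat_lit 689451538986) (nat_lit 0) (nat_lit 0) (nat_lit 0) (nat_lit 0) (nat_lit 0) (nat_lit 0) (nat_lit 1) (nat_lit 0) (nat_lit 1) (nat_lit 0) (nat_lit 333) (nat_lit 444) (nat_lit 303)))) (XT.nd (nat_lit 188) (nat_lit 0) (nat_lit 0) (XT.nd (nat_lit 94) (nat_lit 0) (nat_lit 0) (XT.lf (nat_lit 0) (nat_lit 689450549495) (nat_lit 0) (nat_lit 0) (nat_lit 0) (nat_lit 0) (nat_lit 0) (nat_lit 0) (nat_lit 1) (nat_lit 0) (nat_lit 1) (nat_lit 0) (nat_lit 334) (nat_lit 444) (nat_lit 302)) (XT.lf (nat_lit 0) (nat_lit 689449633299) (nat_lit 0) (nat_lit 0) (nat_lit 0) (nat_lit 0) (nat_lit 0) (nat_lit 0) (nat_lit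 1) (nat_lit 0) (nat_lit 1) (nat_lit 0) (nat_lit 335) (nat_lit 444) (nat_lit 301))) (XT.nd (nat_lit 94) (nat_lit 0) (nat_lit 0) (XT.lf (nat_lit 0) (nat_lit 689448784970) (nat_lit 0) (nat_lit 0) (nat_lit 0) (nat_lit 0) (nat_lit 0) (nat_lit 0) (nat_lit 1) (nat_lit 0) (nat_lit 1) (nat_lit 0) (nat_lit 336) (nat_lit 444) (nat_lit 300)) (XT.nd (nat_lit 94) (nat_lit 0) (nat_lit 0) (XT.lf (nat_lit 0) (nat_lit 689447999479) (nat_lit 0) (nat_lit 0) (nat_lit 0) (nat_lit 0) (nat_lit 0) (nat_lit 0) (nat_lit 1) (nat_lit 0) (nat_lit 1) (nat_lit 0) (nat_lit 337) (nat_lit 444) (nat_lit 299)) (XT.lf (nat_lit 0) (nat_lit 689447272174) (nat_lit 0) (nat_lit 0) (nat_lit 0) (nat_lit 0) (nat_lit 0) (nat_lit 0) (nat_lit 1) (nat_lit 0) (nat_lit 1) (nat_lit 0) (nat_lit 338) (nat_lit 444) (nat_lit 298)))))) (XT.nd (nat_lit 470) (nat_lit 0) (nat_lit 0) (XT.nd (nat_lit 188) (nat_lit 0)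 (nat_lit 0) (XT.nd (nat_lit 94) (nat_lit 0) (nat_lit 0) (XT.lf (nat_lit 0) (nat_lit 689446598742) (nat_lit 0) (nat_lit 0) (nat_lit 0) (nat_lit 0) (nat_lit 0) (nat_lit 0) (nat_lit 1) (nat_lit 0) (nat_lit 1) (nat_lit 0) (nat_lit 339) (nat_lit 444) (nat_lit 297)) (XT.lf (nat_lit 0) (nat_lit 689445975195) (nat_lit 0) (nat_lit 0) (nat_lit 0) (nat_lit 0) (nat_lit 0) (nat_lit 0) (nat_lit 1) (nat_lit 0) (nat_lit 1) (nat_lit 0) (nat_lit 340) (nat_lit 444) (nat_lit 296))) (XT.nd (nat_lit 94) (nat_lit 0) (nat_lit 0) (XT.lf (nat_lit 0) (nat_lit 689445397836) (nat_lit 0) (nat_lit 0) (nat_lit 0) (nat_lit 0) (nat_lit 0) (nat_lit 0) (nat_lit 1) (nat_lit 0) (nat_lit 1) (nat_lit 0) (nat_lit 341) (nat_lit 444) (nat_lit 295)) (XT.nd (nat_lit 94) (nat_lit 0) (nat_lit 0) (XT.lf (nat_lit 0) (nat_lit 689444863245) (nat_lit 0) (nat_lit 0) (nat_lit 0) (nat_lit 0) (nat_lit 0) (nat_lit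 0) (nat_lit 1) (nat_lit 0) (nat_lit 1) (nat_lit 0) (nat_lit 342) (nat_lit 444) (nat_lit 294)) (XT.lf (nat_lit 0) (nat_lit 689444368253) (nat_lit 0) (nat_lit 0) (nat_lit 0) (nat_lit 0) (nat_lit 0) (nat_lit 0) (nat_lit 1) (nat_lit 0) (nat_lit 1) (nat_lit 0) (nat_lit 343) (nat_lit 444) (nat_lit 293))))) (XT.nd (nat_lit 188) (nat_lit 0) (nat_lit 0) (XT.nd (nat_lit 94) (nat_lit 0) (nat_lit 0) (XT.lf (nat_lit 0) (nat_lit 689443909927) (nat_lit 0) (nat_lit 0) (nat_lit 0) (nat_lit 0) (nat_lit 0) (nat_lit 0) (nat_lit 1) (nat_lit 0) (nat_lit 1) (nat_lit 0) (nat_lit 344) (nat_lit 444) (nat_lit 292)) (XT.lf (nat_lit 0) (nat_lit 689443485551) (nat_lit 0) (nat_lit 0) (nat_lit 0) (nat_lit 0) (nat_lit 0) (nat_lit 0) (nat_lit 1) (nat_lit 0) (nat_lit 1) (nat_lit 0) (nat_lit 345) (nat_lit 444) (nat_lit 291))) (XT.nd (nat_lit 94) (nat_lit 0) (nat_lit 0) (XT.lf (nat_lit 0) (nat_lit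 689443092610) (nat_lit 0) (nat_lit 0) (nat_lit 0) (nat_lit 0) (nat_lit 0) (nat_lit 0) (nat_lit 1) (nat_lit 0) (nat_lit 1) (nat_lit 0) (nat_lit 346) (nat_lit 444) (nat_lit 290)) (XT.nd (nat_lit 94) (nat_lit 0) (nat_lit 0) (XT.lf (nat_lit 0) (nat_lit 689442728776) (nat_lit 0) (nat_lit 0) (nat_lit 0) (nat_lit 0) (nat_lit 0) (nat_lit 0) (nat_lit 1) (nat_lit 0) (nat_lit 1) (nat_lit 0) (nat_lit 347) (nat_lit 444) (nat_lit 289)) (XT.lf (nat_lit 0) (nat_lit 689442391893) (nat_lit 0) (nat_lit 0) (nat_lit 0) (nat_lit 0) (nat_lit 0) (nat_lit 0) (nat_lit 1) (nat_lit 0) (nat_lit 1) (nat_lit 0) (nat_lit 348) (nat_lit 444) (nat_lit 288))))))))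
noncomputable def ec397 : XT := (XT.nd (nat_lit 1786) (nat_lit 0) (nat_lit 0) (XT.nd (nat_lit 846) (nat_lit 0) (nat_lit 0) (XT.nd (nat_lit 376) (nat_lit 0) (nat_lit 0) (XT.nd (nat_lit 188) (nat_lit 0) (nat_lit 0) (XT.nd (nat_lit 94) (nat_lit 0) (nat_lit 0) (XT.lf (nat_lit 0) (nat_lit 689442079964) (nat_lit 0) (nat_lit 0) (nat_lit 0) (nat_lit 0) (nat_lit 0) (nat_lit 0) (nat_lit 1) (nat_lit 0) (nat_lit 1) (nat_lit 0) (nat_lit 349) (nat_lit 444) (nat_lit 287)) (XT.lf (nat_lit 0) (nat_lit 689441791141) (nat_lit 0) (nat_lit 0) (nat_lit 0) (nat_lit 0) (nat_lit 0) (nat_lit 0) (nat_lit 1) (nat_lit 0) (nat_lit 1) (nat_lit 0) (nat_lit 350) (nat_lit 444) (nat_lit 286))) (XT.nd (nat_lit 94) (nat_lit 0) (nat_lit 0) (XT.lf (nat_lit 0) (nat_lit 689441523712) (nat_lit 0) (nat_lit 0) (nat_lit 0) (nat_lit 0) (nat_lit 0) (nat_lit 0) (nat_lit 1) (nat_lit 0) (nat_lit 1) (nat_lit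 0) (nat_lit 351) (nat_lit 444) (nat_lit 285)) (XT.lf (nat_lit 0) (nat_lit 689441276093) (nat_lit 0) (nat_lit 0) (nat_lit 0) (nat_lit 0) (nat_lit 0) (nat_lit 0) (nat_lit 1) (nat_lit 0) (nat_lit 1) (nat_lit 0) (nat_lit 352) (nat_lit 444) (nat_lit 284)))) (XT.nd (nat_lit 188) (nat_lit 0) (nat_lit 0) (XT.nd (nat_lit 94) (nat_lit 0) (nat_lit 0) (XT.lf (nat_lit 0) (nat_lit 689441046816) (nat_lit 0) (nat_lit 0) (nat_lit 0) (nat_lit 0) (nat_lit 0) (nat_lit 0) (nat_lit 1) (nat_lit 0) (nat_lit 1) (nat_lit 0) (nat_lit 353) (nat_lit 444) (nat_lit 283)) (XT.lf (nat_lit 0) (nat_lit 689440834522) (nat_lit 0) (nat_lit 0) (nat_lit 0) (nat_lit 0) (nat_lit 0) (nat_lit 0) (nat_lit 1) (nat_lit 0) (nat_lit 1) (nat_lit 0) (nat_lit 354) (nat_lit 444) (nat_lit 282))) (XT.nd (nat_lit 94) (nat_lit 0) (nat_lit 0) (XT.lf (nat_lit 0) (nat_lit 689440637954) (nat_lit 0) (nat_lit 0) (nat_lit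 0) (nat_lit 0) (nat_lit 0) (nat_lit 0) (nat_lit 1) (nat_lit 0) (nat_lit 1) (nat_lit 0) (nat_lit 355) (nat_lit 444) (nat_lit 281)) (XT.nd (nat_lit 94) (nat_lit 0) (nat_lit 0) (XT.lf (nat_lit 0) (nat_lit 689440455946) (nat_lit 0) (nat_lit 0) (nat_lit 0) (nat_lit 0) (nat_lit 0) (nat_lit 0) (nat_lit 1) (nat_lit 0) (nat_lit 1) (nat_lit 0) (nat_lit 356) (nat_lit 444) (nat_lit 280)) (XT.lf (nat_lit 0) (nat_lit 689440287421) (nat_lit 0) (nat_lit 0) (nat_lit 0) (nat_lit 0) (nat_lit 0) (nat_lit 0) (nat_lit 1) (nat_lit 0) (nat_lit 1) (nat_lit 0) (nat_lit 357) (nat_lit 444) (nat_lit 279)))))) (XT.nd (nat_lit 470) (nat_lit 0) (nat_lit 0) (XT.nd (nat_lit 188) (nat_lit 0) (nat_lit 0) (XT.nd (nat_lit 94) (nat_lit 0) (nat_lit 0) (XT.lf (nat_lit 0) (nat_lit 689440131379) (nat_lit 0) (nat_lit 0) (nat_lit 0) (nat_lit 0) (nat_lit 0) (nat_lit 0) (nat_lit 1) (nat_lit 0) (nat_lit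 1) (nat_lit 0) (nat_lit 358) (nat_lit 444) (nat_lit 278)) (XT.lf (nat_lit 0) (nat_lit 689439986895) (nat_lit 0) (nat_lit 0) (nat_lit 0) (nat_lit 0) (nat_lit 0) (nat_lit 0) (nat_lit 1) (nat_lit 0) (nat_lit 1) (nat_lit 0) (nat_lit 359) (nat_lit 444) (nat_lit 277))) (XT.nd (nat_lit 94) (nat_lit 0) (nat_lit 0) (XT.lf (nat_lit 0) (nat_lit 689439853114) (nat_lit 0) (nat_lit 0) (nat_lit 0) (nat_lit 0) (nat_lit 0) (nat_lit 0) (nat_lit 1) (nat_lit 0) (nat_lit 1) (nat_lit 0) (nat_lit 360) (nat_lit 444) (nat_lit 276)) (XT.nd (nat_lit 94) (nat_lit 0) (nat_lit 0) (XT.lf (nat_lit 0) (nat_lit 689439729243) (nat_lit 0) (nat_lit 0) (nat_lit 0) (nat_lit 0) (nat_lit 0) (nat_lit 0) (nat_lit 1) (nat_lit 0) (nat_lit 1) (nat_lit 0) (nat_lit 361) (nat_lit 444) (nat_lit 275)) (XT.lf (nat_lit 0) (nat_lit 689439614547) (nat_lit 0) (nat_lit 0) (nat_lit 0) (nat_lit 0) (nat_lit 0) (nat_lit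 0) (nat_lit 1) (nat_lit 0) (nat_lit 1) (nat_lit 0) (nat_lit 362) (nat_lit 444) (nat_lit 274))))) (XT.nd (nat_lit 188) (nat_lit 0) (nat_lit 0) (XT.nd (nat_lit 94) (nat_lit 0) (nat_lit 0) (XT.lf (nat_lit 0) (nat_lit 689439508348) (nat_lit 0) (nat_lit 0) (nat_lit 0) (nat_lit 0) (nat_lit 0) (nat_lit 0) (nat_lit 1) (nat_lit 0) (nat_lit 1) (nat_lit 0) (nat_lit 363) (nat_lit 444) (nat_lit 273)) (XT.lf (nat_lit 0) (nat_lit 689439410015) (nat_lit 0) (nat_lit 0) (nat_lit 0) (nat_lit 0) (nat_lit 0) (nat_lit 0) (nat_lit 1) (nat_lit 0) (nat_lit 1) (nat_lit 0) (nat_lit 364) (nat_lit 444) (nat_lit 272))) (XT.nd (nat_lit 94) (nat_lit 0) (nat_lit 0) (XT.lf (nat_lit 0) (nat_lit 689439318966) (nat_lit 0) (nat_lit 0) (nat_lit 0) (nat_lit 0) (nat_lit 0) (nat_lit 0) (nat_lit 1) (nat_lit 0) (nat_lit 1) (nat_lit 0) (nat_lit 365) (nat_lit 444) (nat_lit 271)) (XT.nd (nat_lit 94) (nat_lit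 0) (nat_lit 0) (XT.lf (nat_lit 0) (nat_lit 689439234661) (nat_lit 0) (nat_lit 0) (nat_lit 0) (nat_lit 0) (nat_lit 0) (nat_lit 0) (nat_lit 1) (nat_lit 0) (nat_lit 1) (nat_lit 0) (nat_lit 366) (nat_lit 444) (nat_lit 270)) (XT.lf (nat_lit 0) (nat_lit 689439156601) (nat_lit 0) (nat_lit 0) (nat_lit 0) (nat_lit 0) (nat_lit 0) (nat_lit 0) (nat_lit 1) (nat_lit 0) (nat_lit 1) (nat_lit 0) (nat_lit 367) (nat_lit 444) (nat_lit 269))))))) (XT.nd (nat_lit 846) (nat_lit 0) (nat_lit 0) (XT.nd (nat_lit 376) (nat_lit 0) (nat_lit 0) (XT.nd (nat_lit 188) (nat_lit 0) (nat_lit 0) (XT.nd (nat_lit 94) (nat_lit 0) (nat_lit 0) (XT.lf (nat_lit 0) (nat_lit 689439084323) (nat_lit 0) (nat_lit 0) (nat_lit 0) (nat_lit 0) (nat_lit 0) (nat_lit 0) (nat_lit 1) (nat_lit 0) (nat_lit 1) (nat_lit 0) (nat_lit 368) (nat_lit 444) (nat_lit 268)) (XT.lf (nat_lit 0) (nat_lit 689439017399) (nat_lit 0)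 (nat_lit 0) (nat_lit 0) (nat_lit 0) (nat_lit 0) (nat_lit 0) (nat_lit 1) (nat_lit 0) (nat_lit 1) (nat_lit 0) (nat_lit 369) (nat_lit 444) (nat_lit 267))) (XT.nd (nat_lit 94) (nat_lit 0) (nat_lit 0) (XT.lf (nat_lit 0) (nat_lit 689438955433) (nat_lit 0) (nat_lit 0) (nat_lit 0) (nat_lit 0) (nat_lit 0) (nat_lit 0) (nat_lit 1) (nat_lit 0) (nat_lit 1) (nat_lit 0) (nat_lit 370) (nat_lit 444) (nat_lit 266)) (XT.lf (nat_lit 0) (nat_lit 689438898057) (nat_lit 0) (nat_lit 0) (nat_lit 0) (nat_lit 0) (nat_lit 0) (nat_lit 0) (nat_lit 1) (nat_lit 0) (nat_lit 1) (nat_lit 0) (nat_lit 371) (nat_lit 444) (nat_lit 265)))) (XT.nd (nat_lit 188) (nat_lit 0) (nat_lit 0) (XT.nd (nat_lit 94) (nat_lit 0) (nat_lit 0) (XT.lf (nat_lit 0) (nat_lit 689438844930) (nat_lit 0) (nat_lit 0) (nat_lit 0) (nat_lit 0) (nat_lit 0) (nat_lit 0) (nat_lit 1) (nat_lit 0) (nat_lit 1) (nat_lit 0) (nat_lit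 372) (nat_lit 444) (nat_lit 264)) (XT.lf (nat_lit 0) (nat_lit 689438795739) (nat_lit 0) (nat_lit 0) (nat_lit 0) (nat_lit 0) (nat_lit 0) (nat_lit 0) (nat_lit 1) (nat_lit 0) (nat_lit 1) (nat_lit 0) (nat_lit 373) (nat_lit 444) (nat_lit 263))) (XT.nd (nat_lit 94) (nat_lit 0) (nat_lit 0) (XT.lf (nat_lit 0) (nat_lit 689438750192) (nat_lit 0) (nat_lit 0) (nat_lit 0) (nat_lit 0) (nat_lit 0) (nat_lit 0) (nat_lit 1) (nat_lit 0) (nat_lit 1) (nat_lit 0) (nat_lit 374) (nat_lit 444) (nat_lit 262)) (XT.nd (nat_lit 94) (nat_lit 0) (nat_lit 0) (XT.lf (nat_lit 0) (nat_lit 689438708019) (nat_lit 0) (nat_lit 0) (nat_lit 0) (nat_lit 0) (nat_lit 0) (nat_lit 0) (nat_lit 1) (nat_lit 0) (nat_lit 1) (nat_lit 0) (nat_lit 375) (nat_lit 444) (nat_lit 261)) (XT.lf (nat_lit 0) (nat_lit 689438668969) (nat_lit 0) (nat_lit 0) (nat_lit 0) (nat_lit 0) (nat_lit 0) (nat_lit 0) (nat_lit 1) (nat_lit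 0) (nat_lit 1) (nat_lit 0) (nat_lit 376) (nat_lit 444) (nat_lit 260)))))) (XT.nd (nat_lit 470) (nat_lit 0) (nat_lit 0) (XT.nd (nat_lit 188) (nat_lit 0) (nat_lit 0) (XT.nd (nat_lit 94) (nat_lit 0) (nat_lit 0) (XT.lf (nat_lit 0) (nat_lit 689438632812) (nat_lit 0) (nat_lit 0) (nat_lit 0) (nat_lit 0) (nat_lit 0) (nat_lit 0) (nat_lit 1) (nat_lit 0) (nat_lit 1) (nat_lit 0) (nat_lit 377) (nat_lit 444) (nat_lit 259)) (XT.lf (nat_lit 0) (nat_lit 689438599334) (nat_lit 0) (nat_lit 0) (nat_lit 0) (nat_lit 0) (nat_lit 0) (nat_lit 0) (nat_lit 1) (nat_lit 0) (nat_lit 1) (nat_lit 0) (nat_lit 378) (nat_lit 444) (nat_lit 258))) (XT.nd (nat_lit 94) (nat_lit 0) (nat_lit 0) (XT.lf (nat_lit 0) (nat_lit 689438568335) (nat_lit 0) (nat_lit 0) (nat_lit 0) (nat_lit 0) (nat_lit 0) (nat_lit 0) (nat_lit 1) (nat_lit 0) (nat_lit 1) (nat_lit 0) (nat_lit 379) (nat_lit 444) (nat_lit 257))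 (XT.nd (nat_lit 94) (nat_lit 0) (nat_lit 0) (XT.lf (nat_lit 0) (nat_lit 689438539633) (nat_lit 0) (nat_lit 0) (nat_lit 0) (nat_lit 0) (nat_lit 0) (nat_lit 0) (nat_lit 1) (nat_lit 0) (nat_lit 1) (nat_lit 0) (nat_lit 380) (nat_lit 444) (nat_lit 256)) (XT.lf (nat_lit 0) (nat_lit 689438513056) (nat_lit 0) (nat_lit 0) (nat_lit 0) (nat_lit 0) (nat_lit 0) (nat_lit 0) (nat_lit 1) (nat_lit 0) (nat_lit 1) (nat_lit 0) (nat_lit 381) (nat_lit 444) (nat_lit 255))))) (XT.nd (nat_lit 188) (nat_lit 0) (nat_lit 0) (XT.nd (nat_lit 94) (nat_lit 0) (nat_lit 0) (XT.lf (nat_lit 0) (nat_lit 689438488449) (nat_lit 0) (nat_lit 0) (nat_lit 0) (nat_lit 0) (nat_lit 0) (nat_lit 0) (nat_lit 1) (nat_lit 0) (nat_lit 1) (nat_lit 0) (nat_lit 382) (nat_lit 444) (nat_lit 254)) (XT.lf (nat_lit 0) (nat_lit 689438465664) (nat_lit 0) (nat_lit 0) (nat_lit 0) (nat_lit 0) (nat_lit 0) (nat_lit 0) (nat_lit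 1) (nat_lit 0) (nat_lit 1) (nat_lit 0) (nat_lit 383) (nat_lit 444) (nat_lit 253))) (XT.nd (nat_lit 94) (nat_lit 0) (nat_lit 0) (XT.lf (nat_lit 0) (nat_lit 689438444567) (nat_lit 0) (nat_lit 0) (nat_lit 0) (nat_lit 0) (nat_lit 0) (nat_lit 0) (nat_lit 1) (nat_lit 0) (nat_lit 1) (nat_lit 0) (nat_lit 384) (nat_lit 444) (nat_lit 252)) (XT.nd (nat_lit 94) (nat_lit 0) (nat_lit 0) (XT.lf (nat_lit 0) (nat_lit 689438425032) (nat_lit 0) (nat_lit 0) (nat_lit 0) (nat_lit 0) (nat_lit 0) (nat_lit 0) (nat_lit 1) (nat_lit 0) (nat_lit 1) (nat_lit 0) (nat_lit 385) (nat_lit 444) (nat_lit 251)) (XT.lf (nat_lit 0) (nat_lit 689438406945) (nat_lit 0) (nat_lit 0) (nat_lit 0) (nat_lit 0) (nat_lit 0) (nat_lit 0) (nat_lit 1) (nat_lit 0) (nat_lit 1) (nat_lit 0) (nat_lit 386) (nat_lit 444) (nat_lit 250))))))))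
noncomputable def ec398 : XT := (XT.nd (nat_lit 1692) (nat_lit 0) (nat_lit 0) (XT.nd (nat_lit 846) (nat_lit 0) (nat_lit 0) (XT.nd (nat_lit 376) (nat_lit 0) (nat_lit 0) (XT.nd (nat_lit 188) (nat_lit 0) (nat_lit 0) (XT.nd (nat_lit 94) (nat_lit 0) (nat_lit 0) (XT.lf (nat_lit 0) (nat_lit 689438390197) (nat_lit 0) (nat_lit 0) (nat_lit 0) (nat_lit 0) (nat_lit 0) (nat_lit 0) (nat_lit 1) (nat_lit 0) (nat_lit 1) (nat_lit 0) (nat_lit 387) (nat_lit 444) (nat_lit 249)) (XT.lf (nat_lit 0) (nat_lit 689438374690) (nat_lit 0) (nat_lit 0) (nat_lit 0) (nat_lit 0) (nat_lit 0) (nat_lit 0) (nat_lit 1) (nat_lit 0) (nat_lit 1) (nat_lit 0) (nat_lit 388) (nat_lit 444) (nat_lit 248))) (XT.nd (nat_lit 94) (nat_lit 0) (nat_lit 0) (XT.lf (nat_lit 0) (nat_lit 689438360332) (nat_lit 0) (nat_lit 0) (nat_lit 0) (nat_lit 0) (nat_lit 0) (nat_lit 0) (nat_lit 1) (nat_lit 0) (nat_lit 1) (nat_lit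 0) (nat_lit 389) (nat_lit 444) (nat_lit 247)) (XT.lf (nat_lit 0) (nat_lit 689438347037) (nat_lit 0) (nat_lit 0) (nat_lit 0) (nat_lit 0) (nat_lit 0) (nat_lit 0) (nat_lit 1) (nat_lit 0) (nat_lit 1) (nat_lit 0) (nat_lit 390) (nat_lit 444) (nat_lit 246)))) (XT.nd (nat_lit 188) (nat_lit 0) (nat_lit 0) (XT.nd (nat_lit 94) (nat_lit 0) (nat_lit 0) (XT.lf (nat_lit 0) (nat_lit 689438334727) (nat_lit 0) (nat_lit 0) (nat_lit 0) (nat_lit 0) (nat_lit 0) (nat_lit 0) (nat_lit 1) (nat_lit 0) (nat_lit 1) (nat_lit 0) (nat_lit 391) (nat_lit 444) (nat_lit 245)) (XT.lf (nat_lit 0) (nat_lit 689438323329) (nat_lit 0) (nat_lit 0) (nat_lit 0) (nat_lit 0) (nat_lit 0) (nat_lit 0) (nat_lit 1) (nat_lit 0) (nat_lit 1) (nat_lit 0) (nat_lit 392) (nat_lit 444) (nat_lit 244))) (XT.nd (nat_lit 94) (nat_lit 0) (nat_lit 0) (XT.lf (nat_lit 0) (nat_lit 689438312775) (nat_lit 0) (nat_lit 0) (nat_lit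 0) (nat_lit 0) (nat_lit 0) (nat_lit 0) (nat_lit 1) (nat_lit 0) (nat_lit 1) (nat_lit 0) (nat_lit 393) (nat_lit 444) (nat_lit 243)) (XT.nd (nat_lit 94) (nat_lit 0) (nat_lit 0) (XT.lf (nat_lit 0) (nat_lit 689438303003) (nat_lit 0) (nat_lit 0) (nat_lit 0) (nat_lit 0) (nat_lit 0) (nat_lit 0) (nat_lit 1) (nat_lit 0) (nat_lit 1) (nat_lit 0) (nat_lit 394) (nat_lit 444) (nat_lit 242)) (XT.lf (nat_lit 0) (nat_lit 689438293955) (nat_lit 0) (nat_lit 0) (nat_lit 0) (nat_lit 0) (nat_lit 0) (nat_lit 0) (nat_lit 1) (nat_lit 0) (nat_lit 1) (nat_lit 0) (nat_lit 395) (nat_lit 444) (nat_lit 241)))))) (XT.nd (nat_lit 376) (nat_lit 0) (nat_lit 0) (XT.nd (nat_lit 188) (nat_lit 0) (nat_lit 0) (XT.nd (nat_lit 94) (nat_lit 0) (nat_lit 0) (XT.lf (nat_lit 0) (nat_lit 689438285577) (nat_lit 0) (nat_lit 0) (nat_lit 0) (nat_lit 0) (nat_lit 0) (nat_lit 0) (nat_lit 1) (nat_lit 0) (nat_lit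 1) (nat_lit 0) (nat_lit 396) (nat_lit 444) (nat_lit 240)) (XT.lf (nat_lit 0) (nat_lit 689438277819) (nat_lit 0) (nat_lit 0) (nat_lit 0) (nat_lit 0) (nat_lit 0) (nat_lit 0) (nat_lit 1) (nat_lit 0) (nat_lit 1) (nat_lit 0) (nat_lit 397) (nat_lit 444) (nat_lit 239))) (XT.nd (nat_lit 94) (nat_lit 0) (nat_lit 0) (XT.lf (nat_lit 0) (nat_lit 689438270636) (nat_lit 0) (nat_lit 0) (nat_lit 0) (nat_lit 0) (nat_lit 0) (nat_lit 0) (nat_lit 1) (nat_lit 0) (nat_lit 1) (nat_lit 0) (nat_lit 398) (nat_lit 444) (nat_lit 238)) (XT.lf (nat_lit 0) (nat_lit 689438263986) (nat_lit 0) (nat_lit 0) (nat_lit 0) (nat_lit 0) (nat_lit 0) (nat_lit 0) (nat_lit 1) (nat_lit 0) (nat_lit 1) (nat_lit 0) (nat_lit 399) (nat_lit 444) (nat_lit 237)))) (XT.nd (nat_lit 188) (nat_lit 0) (nat_lit 0) (XT.nd (nat_lit 94) (nat_lit 0) (nat_lit 0) (XT.lf (nat_lit 0) (nat_lit 689438257828) (nat_lit 0) (nat_lit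 0) (nat_lit 0) (nat_lit 0) (nat_lit 0) (nat_lit 0) (nat_lit 1) (nat_lit 0) (nat_lit 1) (nat_lit 0) (nat_lit 400) (nat_lit 444) (nat_lit 236)) (XT.lf (nat_lit 0) (nat_lit 689438252126) (nat_lit 0) (nat_lit 0) (nat_lit 0) (nat_lit 0) (nat_lit 0) (nat_lit 0) (nat_lit 1) (nat_lit 0) (nat_lit 1) (nat_lit 0) (nat_lit 401) (nat_lit 444) (nat_lit 235))) (XT.nd (nat_lit 94) (nat_lit 0) (nat_lit 0) (XT.lf (nat_lit 0) (nat_lit 689438246846) (nat_lit 0) (nat_lit 0) (nat_lit 0) (nat_lit 0) (nat_lit 0) (nat_lit 0) (nat_lit 1) (nat_lit 0) (nat_lit 1) (nat_lit 0) (nat_lit 402) (nat_lit 444) (nat_lit 234)) (XT.nd (nat_lit 94) (nat_lit 0) (nat_lit 0) (XT.lf (nat_lit 0) (nat_lit 689438241958) (nat_lit 0) (nat_lit 0) (nat_lit 0) (nat_lit 0) (nat_lit 0) (nat_lit 0) (nat_lit 1) (nat_lit 0) (nat_lit 1) (nat_lit 0) (nat_lit 403) (nat_lit 444) (nat_lit 233)) (XT.lf (nat_lit 0) (nat_lit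 689438237431) (nat_lit 0) (nat_lit 0) (nat_lit 0) (nat_lit 0) (nat_lit 0) (nat_lit 0) (nat_lit 1) (nat_lit 0) (nat_lit 1) (nat_lit 0) (nat_lit 404) (nat_lit 444) (nat_lit 232))))))) (XT.nd (nat_lit 846) (nat_lit 0) (nat_lit 0) (XT.nd (nat_lit 376) (nat_lit 0) (nat_lit 0) (XT.nd (nat_lit 188) (nat_lit 0) (nat_lit 0) (XT.nd (nat_lit 94) (nat_lit 0) (nat_lit 0) (XT.lf (nat_lit 0) (nat_lit 689438233240) (nat_lit 0) (nat_lit 0) (nat_lit 0) (nat_lit 0) (nat_lit 0) (nat_lit 0) (nat_lit 1) (nat_lit 0) (nat_lit 1) (nat_lit 0) (nat_lit 405) (nat_lit 444) (nat_lit 231)) (XT.lf (nat_lit 0) (nat_lit 689438229360) (nat_lit 0) (nat_lit 0) (nat_lit 0) (nat_lit 0) (nat_lit 0) (nat_lit 0) (nat_lit 1) (nat_lit 0) (nat_lit 1) (nat_lit 0) (nat_lit 406) (nat_lit 444) (nat_lit 230))) (XT.nd (nat_lit 94) (nat_lit 0) (nat_lit 0) (XT.lf (nat_lit 0) (nat_lit 689438225767) (nat_lit 0)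 (nat_lit 0) (nat_lit 0) (nat_lit 0) (nat_lit 0) (nat_lit 0) (nat_lit 1) (nat_lit 0) (nat_lit 1) (nat_lit 0) (nat_lit 407) (nat_lit 444) (nat_lit 229)) (XT.lf (nat_lit 0) (nat_lit 689438222439) (nat_lit 0) (nat_lit 0) (nat_lit 0) (nat_lit 0) (nat_lit 0) (nat_lit 0) (nat_lit 1) (nat_lit 0) (nat_lit 1) (nat_lit 0) (nat_lit 408) (nat_lit 444) (nat_lit 228)))) (XT.nd (nat_lit 188) (nat_lit 0) (nat_lit 0) (XT.nd (nat_lit 94) (nat_lit 0) (nat_lit 0) (XT.lf (nat_lit 0) (nat_lit 689438219359) (nat_lit 0) (nat_lit 0) (nat_lit 0) (nat_lit 0) (nat_lit 0) (nat_lit 0) (nat_lit 1) (nat_lit 0) (nat_lit 1) (nat_lit 0) (nat_lit 409) (nat_lit 444) (nat_lit 227)) (XT.lf (nat_lit 0) (nat_lit 689438216507) (nat_lit 0) (nat_lit 0) (nat_lit 0) (nat_lit 0) (nat_lit 0) (nat_lit 0) (nat_lit 1) (nat_lit 0) (nat_lit 1) (nat_lit 0) (nat_lit 410) (nat_lit 444) (nat_lit 226))) (XT.nd (nat_lit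 94) (nat_lit 0) (nat_lit 0) (XT.lf (nat_lit 0) (nat_lit 689438213865) (nat_lit 0) (nat_lit 0) (nat_lit 0) (nat_lit 0) (nat_lit 0) (nat_lit 0) (nat_lit 1) (nat_lit 0) (nat_lit 1) (nat_lit 0) (nat_lit 411) (nat_lit 444) (nat_lit 225)) (XT.nd (nat_lit 94) (nat_lit 0) (nat_lit 0) (XT.lf (nat_lit 0) (nat_lit 689438211420) (nat_lit 0) (nat_lit 0) (nat_lit 0) (nat_lit 0) (nat_lit 0) (nat_lit 0) (nat_lit 1) (nat_lit 0) (nat_lit 1) (nat_lit 0) (nat_lit 412) (nat_lit 444) (nat_lit 224)) (XT.lf (nat_lit 0) (nat_lit 689438209156) (nat_lit 0) (nat_lit 0) (nat_lit 0) (nat_lit 0) (nat_lit 0) (nat_lit 0) (nat_lit 1) (nat_lit 0) (nat_lit 1) (nat_lit 0) (nat_lit 413) (nat_lit 444) (nat_lit 223)))))) (XT.nd (nat_lit 470) (nat_lit 0) (nat_lit 0) (XT.nd (nat_lit 188) (nat_lit 0) (nat_lit 0) (XT.nd (nat_lit 94) (nat_lit 0) (nat_lit 0) (XT.lf (nat_lit 0) (nat_lit 689438207059) (nat_lit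 0) (nat_lit 0) (nat_lit 0) (nat_lit 0) (nat_lit 0) (nat_lit 0) (nat_lit 1) (nat_lit 0) (nat_lit 1) (nat_lit 0) (nat_lit 414) (nat_lit 444) (nat_lit 222)) (XT.lf (nat_lit 0) (nat_lit 689438205118) (nat_lit 0) (nat_lit 0) (nat_lit 0) (nat_lit 0) (nat_lit 0) (nat_lit 0) (nat_lit 1) (nat_lit 0) (nat_lit 1) (nat_lit 0) (nat_lit 415) (nat_lit 444) (nat_lit 221))) (XT.nd (nat_lit 94) (nat_lit 0) (nat_lit 0) (XT.lf (nat_lit 0) (nat_lit 689438203320) (nat_lit 0) (nat_lit 0) (nat_lit 0) (nat_lit 0) (nat_lit 0) (nat_lit 0) (nat_lit 1) (nat_lit 0) (nat_lit 1) (nat_lit 0) (nat_lit 416) (nat_lit 444) (nat_lit 220)) (XT.nd (nat_lit 94) (nat_lit 0) (nat_lit 0) (XT.lf (nat_lit 0) (nat_lit 689438201656) (nat_lit 0) (nat_lit 0) (nat_lit 0) (nat_lit 0) (nat_lit 0) (nat_lit 0) (nat_lit 1) (nat_lit 0) (nat_lit 1) (nat_lit 0) (nat_lit 417) (nat_lit 444) (nat_lit 219)) (XT.lf (nat_lit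 0) (nat_lit 689438200115) (nat_lit 0) (nat_lit 0) (nat_lit 0) (nat_lit 0) (nat_lit 0) (nat_lit 0) (nat_lit 1) (nat_lit 0) (nat_lit 1) (nat_lit 0) (nat_lit 418) (nat_lit 444) (nat_lit 218))))) (XT.nd (nat_lit 188) (nat_lit 0) (nat_lit 0) (XT.nd (nat_lit 94) (nat_lit 0) (nat_lit 0) (XT.lf (nat_lit 0) (nat_lit 689438198688) (nat_lit 0) (nat_lit 0) (nat_lit 0) (nat_lit 0) (nat_lit 0) (nat_lit 0) (nat_lit 1) (nat_lit 0) (nat_lit 1) (nat_lit 0) (nat_lit 419) (nat_lit 444) (nat_lit 217)) (XT.lf (nat_lit 0) (nat_lit 689438197367) (nat_lit 0) (nat_lit 0) (nat_lit 0) (nat_lit 0) (nat_lit 0) (nat_lit 0) (nat_lit 1) (nat_lit 0) (nat_lit 1) (nat_lit 0) (nat_lit 420) (nat_lit 444) (nat_lit 216))) (XT.nd (nat_lit 94) (nat_lit 0) (nat_lit 0) (XT.lf (nat_lit 0) (nat_lit 689438196144) (nat_lit 0) (nat_lit 0) (nat_lit 0) (nat_lit 0) (nat_lit 0) (nat_lit 0) (nat_lit 1) (nat_lit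 0) (nat_lit 1) (nat_lit 0) (nat_lit 421) (nat_lit 444) (nat_lit 215)) (XT.nd (nat_lit 94) (nat_lit 0) (nat_lit 0) (XT.lf (nat_lit 0) (nat_lit 689438195011) (nat_lit 0) (nat_lit 0) (nat_lit 0) (nat_lit 0) (nat_lit 0) (nat_lit 0) (nat_lit 1) (nat_lit 0) (nat_lit 1) (nat_lit 0) (nat_lit 422) (nat_lit 444) (nat_lit 214)) (XT.lf (nat_lit 0) (nat_lit 689438193962) (nat_lit 0) (nat_lit 0) (nat_lit 0) (nat_lit 0) (nat_lit 0) (nat_lit 0) (nat_lit 1) (nat_lit 0) (nat_lit 1) (nat_lit 0) (nat_lit 423) (nat_lit 444) (nat_lit 213))))))))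
noncomputable def ec399 : XT := (XT.nd (nat_lit 1786) (nat_lit 0) (nat_lit 0) (XT.nd (nat_lit 846) (nat_lit 0) (nat_lit 0) (XT.nd (nat_lit 376) (nat_lit 0) (nat_lit 0) (XT.nd (nat_lit 188) (nat_lit 0) (nat_lit 0) (XT.nd (nat_lit 94) (nat_lit 0) (nat_lit 0) (XT.lf (nat_lit 0) (nat_lit 689438192991) (nat_lit 0) (nat_lit 0) (nat_lit 0) (nat_lit 0) (nat_lit 0) (nat_lit 0) (nat_lit 1) (nat_lit 0) (nat_lit 1) (nat_lit 0) (nat_lit 424) (nat_lit 444) (nat_lit 212)) (XT.lf (nat_lit 0) (nat_lit 689438192092) (nat_lit 0) (nat_lit 0) (nat_lit 0) (nat_lit 0) (nat_lit 0) (nat_lit 0) (nat_lit 1) (nat_lit 0) (nat_lit 1) (nat_lit 0) (nat_lit 425) (nat_lit 444) (nat_lit 211))) (XT.nd (nat_lit 94) (nat_lit 0) (nat_lit 0) (XT.lf (nat_lit 0) (nat_lit 689438191259) (nat_lit 0) (nat_lit 0) (nat_lit 0) (nat_lit 0) (nat_lit 0) (nat_lit 0) (nat_lit 1) (nat_lit 0) (nat_lit 1) (nat_lit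 0) (nat_lit 426) (nat_lit 444) (nat_lit 210)) (XT.lf (nat_lit 0) (nat_lit 689438190488) (nat_lit 0) (nat_lit 0) (nat_lit 0) (nat_lit 0) (nat_lit 0) (nat_lit 0) (nat_lit 1) (nat_lit 0) (nat_lit 1) (nat_lit 0) (nat_lit 427) (nat_lit 444) (nat_lit 209)))) (XT.nd (nat_lit 188) (nat_lit 0) (nat_lit 0) (XT.nd (nat_lit 94) (nat_lit 0) (nat_lit 0) (XT.lf (nat_lit 0) (nat_lit 689438189774) (nat_lit 0) (nat_lit 0) (nat_lit 0) (nat_lit 0) (nat_lit 0) (nat_lit 0) (nat_lit 1) (nat_lit 0) (nat_lit 1) (nat_lit 0) (nat_lit 428) (nat_lit 444) (nat_lit 208)) (XT.lf (nat_lit 0) (nat_lit 689438189113) (nat_lit 0) (nat_lit 0) (nat_lit 0) (nat_lit 0) (nat_lit 0) (nat_lit 0) (nat_lit 1) (nat_lit 0) (nat_lit 1) (nat_lit 0) (nat_lit 429) (nat_lit 444) (nat_lit 207))) (XT.nd (nat_lit 94) (nat_lit 0) (nat_lit 0) (XT.lf (nat_lit 0) (nat_lit 689438188502) (nat_lit 0) (nat_lit 0) (nat_lit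 0) (nat_lit 0) (nat_lit 0) (nat_lit 0) (nat_lit 1) (nat_lit 0) (nat_lit 1) (nat_lit 0) (nat_lit 430) (nat_lit 444) (nat_lit 206)) (XT.nd (nat_lit 94) (nat_lit 0) (nat_lit 0) (XT.lf (nat_lit 0) (nat_lit 689438187935) (nat_lit 0) (nat_lit 0) (nat_lit 0) (nat_lit 0) (nat_lit 0) (nat_lit 0) (nat_lit 1) (nat_lit 0) (nat_lit 1) (nat_lit 0) (nat_lit 431) (nat_lit 444) (nat_lit 205)) (XT.lf (nat_lit 0) (nat_lit 689438187410) (nat_lit 0) (nat_lit 0) (nat_lit 0) (nat_lit 0) (nat_lit 0) (nat_lit 0) (nat_lit 1) (nat_lit 0) (nat_lit 1) (nat_lit 0) (nat_lit 432) (nat_lit 444) (nat_lit 204)))))) (XT.nd (nat_lit 470) (nat_lit 0) (nat_lit 0) (XT.nd (nat_lit 188) (nat_lit 0) (nat_lit 0) (XT.nd (nat_lit 94) (nat_lit 0) (nat_lit 0) (XT.lf (nat_lit 0) (nat_lit 689438186924) (nat_lit 0) (nat_lit 0) (nat_lit 0) (nat_lit 0) (nat_lit 0) (nat_lit 0) (nat_lit 1) (nat_lit 0) (nat_lit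 1) (nat_lit 0) (nat_lit 433) (nat_lit 444) (nat_lit 203)) (XT.lf (nat_lit 0) (nat_lit 689438186475) (nat_lit 0) (nat_lit 0) (nat_lit 0) (nat_lit 0) (nat_lit 0) (nat_lit 0) (nat_lit 1) (nat_lit 0) (nat_lit 1) (nat_lit 0) (nat_lit 434) (nat_lit 444) (nat_lit 202))) (XT.nd (nat_lit 94) (nat_lit 0) (nat_lit 0) (XT.lf (nat_lit 0) (nat_lit 689438186058) (nat_lit 0) (nat_lit 0) (nat_lit 0) (nat_lit 0) (nat_lit 0) (nat_lit 0) (nat_lit 1) (nat_lit 0) (nat_lit 1) (nat_lit 0) (nat_lit 435) (nat_lit 444) (nat_lit 201)) (XT.nd (nat_lit 94) (nat_lit 0) (nat_lit 0) (XT.lf (nat_lit 0) (nat_lit 689438185672) (nat_lit 0) (nat_lit 0) (nat_lit 0) (nat_lit 0) (nat_lit 0) (nat_lit 0) (nat_lit 1) (nat_lit 0) (nat_lit 1) (nat_lit 0) (nat_lit 436) (nat_lit 444) (nat_lit 200)) (XT.lf (nat_lit 0) (nat_lit 689438185315) (nat_lit 0) (nat_lit 0) (nat_lit 0) (nat_lit 0) (nat_lit 0) (nat_lit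 0) (nat_lit 1) (nat_lit 0) (nat_lit 1) (nat_lit 0) (nat_lit 437) (nat_lit 444) (nat_lit 199))))) (XT.nd (nat_lit 188) (nat_lit 0) (nat_lit 0) (XT.nd (nat_lit 94) (nat_lit 0) (nat_lit 0) (XT.lf (nat_lit 0) (nat_lit 689438184985) (nat_lit 0) (nat_lit 0) (nat_lit 0) (nat_lit 0) (nat_lit 0) (nat_lit 0) (nat_lit 1) (nat_lit 0) (nat_lit 1) (nat_lit 0) (nat_lit 438) (nat_lit 444) (nat_lit 198)) (XT.lf (nat_lit 0) (nat_lit 689438184679) (nat_lit 0) (nat_lit 0) (nat_lit 0) (nat_lit 0) (nat_lit 0) (nat_lit 0) (nat_lit 1) (nat_lit 0) (nat_lit 1) (nat_lit 0) (nat_lit 439) (nat_lit 444) (nat_lit 197))) (XT.nd (nat_lit 94) (nat_lit 0) (nat_lit 0) (XT.lf (nat_lit 0) (nat_lit 689438184395) (nat_lit 0) (nat_lit 0) (nat_lit 0) (nat_lit 0) (nat_lit 0) (nat_lit 0) (nat_lit 1) (nat_lit 0) (nat_lit 1) (nat_lit 0) (nat_lit 440) (nat_lit 444) (nat_lit 196)) (XT.nd (nat_lit 94) (nat_lit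 0) (nat_lit 0) (XT.lf (nat_lit 0) (nat_lit 689438184133) (nat_lit 0) (nat_lit 0) (nat_lit 0) (nat_lit 0) (nat_lit 0) (nat_lit 0) (nat_lit 1) (nat_lit 0) (nat_lit 1) (nat_lit 0) (nat_lit 441) (nat_lit 444) (nat_lit 195)) (XT.lf (nat_lit 0) (nat_lit 689438183890) (nat_lit 0) (nat_lit 0) (nat_lit 0) (nat_lit 0) (nat_lit 0) (nat_lit 0) (nat_lit 1) (nat_lit 0) (nat_lit 1) (nat_lit 0) (nat_lit 442) (nat_lit 444) (nat_lit 194))))))) (XT.nd (nat_lit 44180) (nat_lit 0) (nat_lit 8568) (XT.nd (nat_lit 376) (nat_lit 0) (nat_lit 0) (XT.nd (nat_lit 188) (nat_lit 0) (nat_lit 0) (XT.nd (nat_lit 94) (nat_lit 0) (nat_lit 0) (XT.lf (nat_lit 0) (nat_lit 689438183665) (nat_lit 0) (nat_lit 0) (nat_lit 0) (nat_lit 0) (nat_lit 0) (nat_lit 0) (nat_lit 1) (nat_lit 0) (nat_lit 1) (nat_lit 0) (nat_lit 443) (nat_lit 444) (nat_lit 193)) (XT.lf (nat_lit 0) (nat_lit 689438183456) (nat_lit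 0) (nat_lit 0) (nat_lit 0) (nat_lit 0) (nat_lit 0) (nat_lit 0) (nat_lit 1) (nat_lit 0) (nat_lit 1) (nat_lit 0) (nat_lit 444) (nat_lit 444) (nat_lit 192))) (XT.nd (nat_lit 94) (nat_lit 0) (nat_lit 0) (XT.lf (nat_lit 0) (nat_lit 689438183263) (nat_lit 0) (nat_lit 0) (nat_lit 0) (nat_lit 0) (nat_lit 0) (nat_lit 0) (nat_lit 1) (nat_lit 0) (nat_lit 1) (nat_lit 0) (nat_lit 445) (nat_lit 444) (nat_lit 191)) (XT.lf (nat_lit 0) (nat_lit 689438183085) (nat_lit 0) (nat_lit 0) (nat_lit 0) (nat_lit 0) (nat_lit 0) (nat_lit 0) (nat_lit 1) (nat_lit 0) (nat_lit 1) (nat_lit 0) (nat_lit 446) (nat_lit 444) (nat_lit 190)))) (XT.nd (nat_lit 188) (nat_lit 0) (nat_lit 0) (XT.nd (nat_lit 94) (nat_lit 0) (nat_lit 0) (XT.lf (nat_lit 0) (nat_lit 689438182919) (nat_lit 0) (nat_lit 0) (nat_lit 0) (nat_lit 0) (nat_lit 0) (nat_lit 0) (nat_lit 1) (nat_lit 0) (nat_lit 1) (nat_lit 0) (nat_lit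 447) (nat_lit 444) (nat_lit 189)) (XT.lf (nat_lit 0) (nat_lit 689438182766) (nat_lit 0) (nat_lit 0) (nat_lit 0) (nat_lit 0) (nat_lit 0) (nat_lit 0) (nat_lit 1) (nat_lit 0) (nat_lit 1) (nat_lit 0) (nat_lit 448) (nat_lit 444) (nat_lit 188))) (XT.nd (nat_lit 43428) (nat_lit 0) (nat_lit 10752) (XT.lf (nat_lit 0) (nat_lit 689438182624) (nat_lit 0) (nat_lit 0) (nat_lit 0) (nat_lit 0) (nat_lit 0) (nat_lit 0) (nat_lit 1) (nat_lit 0) (nat_lit 1) (nat_lit 0) (nat_lit 449) (nat_lit 444) (nat_lit 187)) (XT.nd (nat_lit 94) (nat_lit 0) (nat_lit 84) (XT.lf (nat_lit 924) (nat_lit 372622345630) (nat_lit 0) (nat_lit 661590118160) (nat_lit 924) (nat_lit 372622345630) (nat_lit 139) (nat_lit 1) (nat_lit 128) (nat_lit 0) (nat_lit 139) (nat_lit 0) (nat_lit 190) (nat_lit 445) (nat_lit 445)) (XT.lf (nat_lit 924) (nat_lit 138999568515) (nat_lit 0) (nat_lit 1298901914213) (nat_lit 840)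 (nat_lit 1270321732564) (nat_lit 140) (nat_lit 1) (nat_lit 129) (nat_lit 1) (nat_lit 139) (nat_lit 1) (nat_lit 191) (nat_lit 445) (nat_lit 444)))))) (XT.nd (nat_lit 470) (nat_lit 2268) (nat_lit 0) (XT.nd (nat_lit 188) (nat_lit 0) (nat_lit 168) (XT.nd (nat_lit 94) (nat_lit 0) (nat_lit 84) (XT.lf (nat_lit 924) (nat_lit 1276630805100) (nat_lit 84) (nat_lit 869875049779) (nat_lit 0) (nat_lit 461342046095) (nat_lit 140) (nat_lit 1) (nat_lit 130) (nat_lit 1) (nat_lit 129) (nat_lit 1) (nat_lit 192) (nat_lit 445) (nat_lit 443)) (XT.lf (nat_lit 924) (nat_lit 1103113598708) (nat_lit 84) (nat_lit 364558603959) (nat_lit 0) (nat_lit 1044823419313) (nat_lit 141) (nat_lit 1) (nat_lit 131) (nat_lit 1) (nat_lit 130) (nat_lit 1) (nat_lit 193) (nat_lit 445) (nat_lit 442))) (XT.nd (nat_lit 94) (nat_lit 0) (nat_lit 84) (XT.lf (nat_lit 924) (nat_lit 816397846505) (nat_lit 0) (nat_lit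 1527441781355) (nat_lit 840) (nat_lit 78082605635) (nat_lit 142) (nat_lit 1) (nat_lit 131) (nat_lit 1) (nat_lit 141) (nat_lit 1) (nat_lit 194) (nat_lit 445) (nat_lit 441)) (XT.nd (nat_lit 94) (nat_lit 0) (nat_lit 0) (XT.lf (nat_lit 924) (nat_lit 195886658708) (nat_lit 0) (nat_lit 1684428903727) (nat_lit 840) (nat_lit 455358795887) (nat_lit 143) (nat_lit 1) (nat_lit 132) (nat_lit 1) (nat_lit 142) (nat_lit 1) (nat_lit 195) (nat_lit 445) (nat_lit 440)) (XT.lf (nat_lit 924) (nat_lit 376414484190) (nat_lit 84) (nat_lit 1463905886272) (nat_lit 0) (nat_lit 413132302274) (nat_lit 143) (nat_lit 1) (nat_lit 133) (nat_lit 1) (nat_lit 132) (nat_lit 1) (nat_lit 196) (nat_lit 445) (nat_lit 439))))) (XT.nd (nat_lit 188) (nat_lit 1176) (nat_lit 0) (XT.nd (nat_lit 94) (nat_lit 588) (nat_lit 0) (XT.lf (nat_lit 924) (nat_lit 77306951651) (nat_lit 0) (nat_lit 1094366483640) (nat_lit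 840) (nat_lit 1003522598904) (nat_lit 134) (nat_lit 1) (nat_lit 123) (nat_lit 1) (nat_lit 133) (nat_lit 1) (nat_lit 197) (nat_lit 445) (nat_lit 438)) (XT.lf (nat_lit 84) (nat_lit 535289436908) (nat_lit 0) (nat_lit 231965823365) (nat_lit 588) (nat_lit 1333389511653) (nat_lit 117) (nat_lit 1) (nat_lit 116) (nat_lit 1) (nat_lit 123) (nat_lit 1) (nat_lit 198) (nat_lit 445) (nat_lit 437))) (XT.nd (nat_lit 94) (nat_lit 756) (nat_lit 0) (XT.lf (nat_lit 504) (nat_lit 1475190312947) (nat_lit 0) (nat_lit 480206249400) (nat_lit 420) (nat_lit 74242853306) (nat_lit 117) (nat_lit 1) (nat_lit 111) (nat_lit 1) (nat_lit 116) (nat_lit 1) (nat_lit 199) (nat_lit 445) (nat_lit 436)) (XT.nd (nat_lit 94) (nat_lit 336) (nat_lit 0) (XT.lf (nat_lit 504) (nat_lit 1064511377650) (nat_lit 0) (nat_lit 223826201403) (nat_lit 420) (nat_lit 673349583682) (nat_lit 112) (nat_lit 1) (nat_lit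 106) (nat_lit 1) (nat_lit 111) (nat_lit 1) (nat_lit 200) (nat_lit 445) (nat_lit 435)) (XT.lf (nat_lit 420) (nat_lit 647741596588) (nat_lit 0) (nat_lit 4121004105) (nat_lit 336) (nat_lit 1245167166118) (nat_lit 107) (nat_lit 1) (nat_lit 102) (nat_lit 1) (nat_lit 106) (nat_lit 1) (nat_lit 201) (nat_lit 445) (nat_lit 434))))))))
noncomputable def ec400 : XT := (XT.nd (nat_lit 1692) (nat_lit 2772) (nat_lit 0) (XT.nd (nat_lit 846) (nat_lit 1932) (nat_lit 0) (XT.nd (nat_lit 376) (nat_lit 1512) (nat_lit 0) (XT.nd (nat_lit 188) (nat_lit 672) (nat_lit 0) (XT.nd (nat_lit 94) (nat_lit 420) (nat_lit 0) (XT.lf (nat_lit 84) (nat_lit 47787313777) (nat_lit 0) (nat_lit 1611619777997) (nat_lit 420) (nat_lit 175939634770) (nat_lit 103) (nat_lit 1) (nat_lit 102) (nat_lit 1) (nat_lit 107) (nat_lit 1) (nat_lit 202) (nat_lit 445) (nat_lit 433)) (XT.lf (nat_lit 84) (nat_lit 1233880836327)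 (nat_lit 0) (nat_lit 204652339149) (nat_lit 420) (nat_lit 337508874940) (nat_lit 98) (nat_lit 1) (nat_lit 97) (nat_lit 1) (nat_lit 102) (nat_lit 1) (nat_lit 203) (nat_lit 445) (nat_lit 432))) (XT.nd (nat_lit 94) (nat_lit 336) (nat_lit 0) (XT.lf (nat_lit 84) (nat_lit 617341849754) (nat_lit 0) (nat_lit 626886443926) (nat_lit 420) (nat_lit 475129463578) (nat_lit 94) (nat_lit 1) (nat_lit 93) (nat_lit 1) (nat_lit 98) (nat_lit 1) (nat_lit 204) (nat_lit 445) (nat_lit 431)) (XT.lf (nat_lit 84) (nat_lit 30470624772) (nat_lit 0) (nat_lit 1048144400081) (nat_lit 420) (nat_lit 586742253190) (nat_lit 90) (nat_lit 1) (nat_lit 89) (nat_lit 1) (nat_lit 94) (nat_lit 1) (nat_lit 205) (nat_lit 445) (nat_lit 430)))) (XT.nd (nat_lit 188) (nat_lit 840) (nat_lit 0) (XT.nd (nat_lit 94) (nat_lit 420) (nat_lit 0) (XT.lf (nat_lit 336) (nat_lit 137603624155) (nat_lit 0) (nat_lit 930547443524)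 (nat_lit 252) (nat_lit 545322188218) (nat_lit 90) (nat_lit 1) (nat_lit 86) (nat_lit 1) (nat_lit 89) (nat_lit 1) (nat_lit 206) (nat_lit 445) (nat_lit 429)) (XT.lf (nat_lit 84) (nat_lit 475457517530) (nat_lit 0) (nat_lit 325881536879) (nat_lit 420) (nat_lit 762393602364) (nat_lit 82) (nat_lit 1) (nat_lit 81) (nat_lit 1) (nat_lit 86) (nat_lit 1) (nat_lit 207) (nat_lit 445) (nat_lit 428))) (XT.nd (nat_lit 94) (nat_lit 588) (nat_lit 0) (XT.lf (nat_lit 336) (nat_lit 736122599500) (nat_lit 0) (nat_lit 691492040624) (nat_lit 252) (nat_lit 88510160519) (nat_lit 82) (nat_lit 1) (nat_lit 78) (nat_lit 1) (nat_lit 81) (nat_lit 1) (nat_lit 208) (nat_lit 445) (nat_lit 427)) (XT.nd (nat_lit 94) (nat_lit 336) (nat_lit 0) (XT.lf (nat_lit 336) (nat_lit 235923736886) (nat_lit 0) (nat_lit 595346330655) (nat_lit 252) (nat_lit 639076460176) (nat_lit 79) (nat_lit 1) (nat_lit 75)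 (nat_lit 1) (nat_lit 78) (nat_lit 1) (nat_lit 209) (nat_lit 445) (nat_lit 426)) (XT.lf (nat_lit 84) (nat_lit 268896053275) (nat_lit 0) (nat_lit 246197704359) (nat_lit 336) (nat_lit 911375755030) (nat_lit 72) (nat_lit 1) (nat_lit 71) (nat_lit 1) (nat_lit 75) (nat_lit 1) (nat_lit 210) (nat_lit 445) (nat_lit 425)))))) (XT.nd (nat_lit 376) (nat_lit 1008) (nat_lit 0) (XT.nd (nat_lit 188) (nat_lit 504) (nat_lit 0) (XT.nd (nat_lit 94) (nat_lit 168) (nat_lit 0) (XT.lf (nat_lit 336) (nat_lit 669112536055) (nat_lit 0) (nat_lit 445202686099) (nat_lit 252) (nat_lit 269883332066) (nat_lit 72) (nat_lit 1) (nat_lit 68) (nat_lit 1) (nat_lit 71) (nat_lit 1) (nat_lit 211) (nat_lit 445) (nat_lit 424)) (XT.lf (nat_lit 252) (nat_lit 165873985677) (nat_lit 0) (nat_lit 388406870448) (nat_lit 168) (nat_lit 789352068047) (nat_lit 69) (nat_lit 1) (nat_lit 66) (nat_lit 1) (nat_lit 68)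 (nat_lit 1) (nat_lit 212) (nat_lit 445) (nat_lit 423))) (XT.nd (nat_lit 94) (nat_lit 168) (nat_lit 0) (XT.lf (nat_lit 84) (nat_lit 28100112906) (nat_lit 0) (nat_lit 314446363643) (nat_lit 336) (nat_lit 962093248262) (nat_lit 63) (nat_lit 1) (nat_lit 62) (nat_lit 1) (nat_lit 66) (nat_lit 1) (nat_lit 213) (nat_lit 445) (nat_lit 422)) (XT.lf (nat_lit 252) (nat_lit 481999366647) (nat_lit 0) (nat_lit 301208253507) (nat_lit 168) (nat_lit 483676729294) (nat_lit 63) (nat_lit 1) (nat_lit 60) (nat_lit 1) (nat_lit 62) (nat_lit 1) (nat_lit 214) (nat_lit 445) (nat_lit 421)))) (XT.nd (nat_lit 188) (nat_lit 588) (nat_lit 0) (XT.nd (nat_lit 94) (nat_lit 168) (nat_lit 0) (XT.lf (nat_lit 84) (nat_lit 261512713466) (nat_lit 0) (nat_lit 12079436189) (nat_lit 252) (nat_lit 957184338916) (nat_lit 58) (nat_lit 1) (nat_lit 57) (nat_lit 1) (nat_lit 60) (nat_lit 1) (nat_lit 215) (nat_lit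 445) (nat_lit 420)) (XT.lf (nat_lit 252) (nat_lit 714925259307) (nat_lit 0) (nat_lit 247737632319) (nat_lit 168) (nat_lit 233056088037) (nat_lit 58) (nat_lit 1) (nat_lit 55) (nat_lit 1) (nat_lit 57) (nat_lit 1) (nat_lit 216) (nat_lit 445) (nat_lit 419))) (XT.nd (nat_lit 94) (nat_lit 420) (nat_lit 0) (XT.lf (nat_lit 252) (nat_lit 222084434597) (nat_lit 0) (nat_lit 230299524484) (nat_lit 168) (nat_lit 709617913673) (nat_lit 56) (nat_lit 1) (nat_lit 53) (nat_lit 1) (nat_lit 55) (nat_lit 1) (nat_lit 217) (nat_lit 445) (nat_lit 418)) (XT.nd (nat_lit 94) (nat_lit 168) (nat_lit 0) (XT.lf (nat_lit 252) (nat_lit 881593587021) (nat_lit 0) (nat_lit 220032503370) (nat_lit 168) (nat_lit 27913675798) (nat_lit 53) (nat_lit 1) (nat_lit 50) (nat_lit 1) (nat_lit 52) (nat_lit 1) (nat_lit 218) (nat_lit 445) (nat_lit 417)) (XT.lf (nat_lit 252) (nat_lit 394560431142) (nat_lit 0)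 (nat_lit 210056857479) (nat_lit 168) (nat_lit 493362390479) (nat_lit 51) (nat_lit 1) (nat_lit 48) (nat_lit 1) (nat_lit 50) (nat_lit 1) (nat_lit 219) (nat_lit 445) (nat_lit 416))))))) (XT.nd (nat_lit 846) (nat_lit 1344) (nat_lit 0) (XT.nd (nat_lit 376) (nat_lit 756) (nat_lit 0) (XT.nd (nat_lit 188) (nat_lit 336) (nat_lit 0) (XT.nd (nat_lit 94) (nat_lit 168) (nat_lit 0) (XT.lf (nat_lit 84) (nat_lit 135152181219) (nat_lit 0) (nat_lit 74285728935) (nat_lit 168) (nat_lit 858290712719) (nat_lit 47) (nat_lit 1) (nat_lit 46) (nat_lit 1) (nat_lit 48) (nat_lit 1) (nat_lit 220) (nat_lit 445) (nat_lit 415)) (XT.lf (nat_lit 252) (nat_lit 517685977107) (nat_lit 0) (nat_lit 207220195816) (nat_lit 168) (nat_lit 313334750366) (nat_lit 47) (nat_lit 1) (nat_lit 44) (nat_lit 1) (nat_lit 46) (nat_lit 1) (nat_lit 221) (nat_lit 445) (nat_lit 414))) (XT.nd (nat_lit 94) (nat_lit 252)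 (nat_lit 0) (XT.lf (nat_lit 168) (nat_lit 55747423510) (nat_lit 0) (nat_lit 212309791609) (nat_lit 84) (nat_lit 741860145015) (nat_lit 45) (nat_lit 1) (nat_lit 43) (nat_lit 1) (nat_lit 44) (nat_lit 1) (nat_lit 222) (nat_lit 445) (nat_lit 413)) (XT.lf (nat_lit 252) (nat_lit 601772855094) (nat_lit 0) (nat_lit 217136261221) (nat_lit 168) (nat_lit 163465648759) (nat_lit 43) (nat_lit 1) (nat_lit 40) (nat_lit 1) (nat_lit 42) (nat_lit 1) (nat_lit 223) (nat_lit 445) (nat_lit 412)))) (XT.nd (nat_lit 188) (nat_lit 420) (nat_lit 0) (XT.nd (nat_lit 94) (nat_lit 252) (nat_lit 0) (XT.lf (nat_lit 168) (nat_lit 151350310515) (nat_lit 0) (nat_lit 225255204830) (nat_lit 84) (nat_lit 579154895449) (nat_lit 41) (nat_lit 1) (nat_lit 39) (nat_lit 1) (nat_lit 40) (nat_lit 1) (nat_lit 224) (nat_lit 445) (nat_lit 411)) (XT.lf (nat_lit 252) (nat_lit 655158273060) (nat_lit 0) (nat_lit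 236119330002) (nat_lit 168) (nat_lit 38749203347) (nat_lit 39) (nat_lit 1) (nat_lit 36) (nat_lit 1) (nat_lit 38) (nat_lit 1) (nat_lit 225) (nat_lit 445) (nat_lit 410))) (XT.nd (nat_lit 94) (nat_lit 336) (nat_lit 0) (XT.lf (nat_lit 168) (nat_lit 217813860882) (nat_lit 0) (nat_lit 246157238791) (nat_lit 84) (nat_lit 441011951592) (nat_lit 37) (nat_lit 1) (nat_lit 35) (nat_lit 1) (nat_lit 36) (nat_lit 1) (nat_lit 226) (nat_lit 445) (nat_lit 409)) (XT.nd (nat_lit 94) (nat_lit 84) (nat_lit 0) (XT.lf (nat_lit 84) (nat_lit 62869748442) (nat_lit 0) (nat_lit 197331381721) (nat_lit 252) (nat_lit 620637864558) (nat_lit 33) (nat_lit 1) (nat_lit 32) (nat_lit 1) (nat_lit 35) (nat_lit 1) (nat_lit 227) (nat_lit 445) (nat_lit 408)) (XT.lf (nat_lit 168) (nat_lit 261396284823) (nat_lit 0) (nat_lit 272362538884) (nat_lit 84) (nat_lit 323535717250) (nat_lit 33) (nat_lit 1) (nat_lit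 31) (nat_lit 1) (nat_lit 32) (nat_lit 1) (nat_lit 228) (nat_lit 445) (nat_lit 407)))))) (XT.nd (nat_lit 470) (nat_lit 588) (nat_lit 0) (XT.nd (nat_lit 188) (nat_lit 420) (nat_lit 0) (XT.nd (nat_lit 94) (nat_lit 84) (nat_lit 0) (XT.lf (nat_lit 84) (nat_lit 146211625302) (nat_lit 0) (nat_lit 141615845909) (nat_lit 252) (nat_lit 546750025755) (nat_lit 29) (nat_lit 1) (nat_lit 28) (nat_lit 1) (nat_lit 31) (nat_lit 1) (nat_lit 229) (nat_lit 445) (nat_lit 406)) (XT.lf (nat_lit 168) (nat_lit 287144405405) (nat_lit 0) (nat_lit 301799862341) (nat_lit 84) (nat_lit 223496597097) (nat_lit 29) (nat_lit 1) (nat_lit 27) (nat_lit 1) (nat_lit 28) (nat_lit 1) (nat_lit 230) (nat_lit 445) (nat_lit 405))) (XT.nd (nat_lit 94) (nat_lit 252) (nat_lit 0) (XT.lf (nat_lit 84) (nat_lit 215257322435) (nat_lit 0) (nat_lit 102566262569) (nat_lit 168) (nat_lit 473211718618) (nat_lit 26)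 (nat_lit 1) (nat_lit 25) (nat_lit 1) (nat_lit 27) (nat_lit 1) (nat_lit 231) (nat_lit 445) (nat_lit 404)) (XT.nd (nat_lit 94) (nat_lit 168) (nat_lit 0) (XT.lf (nat_lit 168) (nat_lit 299120014589) (nat_lit 0) (nat_lit 332866627206) (nat_lit 84) (nat_lit 138212195859) (nat_lit 26) (nat_lit 1) (nat_lit 24) (nat_lit 1) (nat_lit 25) (nat_lit 1) (nat_lit 232) (nat_lit 445) (nat_lit 403)) (XT.lf (nat_lit 84) (nat_lit 272280498623) (nat_lit 0) (nat_lit 76515769266) (nat_lit 168) (nat_lit 401207011697) (nat_lit 23) (nat_lit 1) (nat_lit 22) (nat_lit 1) (nat_lit 24) (nat_lit 1) (nat_lit 233) (nat_lit 445) (nat_lit 402))))) (XT.nd (nat_lit 188) (nat_lit 336) (nat_lit 0) (XT.nd (nat_lit 94) (nat_lit 168) (nat_lit 0) (XT.lf (nat_lit 168) (nat_lit 300584442443) (nat_lit 0) (nat_lit 364336709635) (nat_lit 84) (nat_lit 65450094836) (nat_lit 23) (nat_lit 1) (nat_lit 21) (nat_lit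 1) (nat_lit 22) (nat_lit 1) (nat_lit 234) (nat_lit 445) (nat_lit 401)) (XT.lf (nat_lit 84) (nat_lit 319170818032) (nat_lit 0) (nat_lit 60515867710) (nat_lit 168) (nat_lit 331609349088) (nat_lit 20) (nat_lit 1) (nat_lit 19) (nat_lit 1) (nat_lit 21) (nat_lit 1) (nat_lit 235) (nat_lit 445) (nat_lit 400))) (XT.nd (nat_lit 94) (nat_lit 252) (nat_lit 0) (XT.lf (nat_lit 168) (nat_lit 294149022169) (nat_lit 0) (nat_lit 395285563903) (nat_lit 84) (nat_lit 3348260355) (nat_lit 20) (nat_lit 1) (nat_lit 18) (nat_lit 1) (nat_lit 19) (nat_lit 1) (nat_lit 236) (nat_lit 445) (nat_lit 399)) (XT.nd (nat_lit 94) (nat_lit 84) (nat_lit 0) (XT.lf (nat_lit 84) (nat_lit 357501920988) (nat_lit 0) (nat_lit 52201538051) (nat_lit 168) (nat_lit 265044850370) (nat_lit 17) (nat_lit 1) (nat_lit 16) (nat_lit 1) (nat_lit 18) (nat_lit 1) (nat_lit 237) (nat_lit 445) (nat_lit 398)) (XT.lf (nat_lit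 0) (nat_lit 48061023627) (nat_lit 0) (nat_lit 376154501030) (nat_lit 168) (nat_lit 233022762692) (nat_lit 15) (nat_lit 3) (nat_lit 15) (nat_lit 1) (nat_lit 17) (nat_lit 1) (nat_lit 238) (nat_lit 445) (nat_lit 397))))))))
noncomputable def ec401 : XT := (XT.nd (nat_lit 1786) (nat_lit 0) (nat_lit 0) (XT.nd (nat_lit 846) (nat_lit 0) (nat_lit 0) (XT.nd (nat_lit 376) (nat_lit 756) (nat_lit 0) (XT.nd (nat_lit 188) (nat_lit 252) (nat_lit 0) (XT.nd (nat_lit 94) (nat_lit 84) (nat_lit 0) (XT.lf (nat_lit 84) (nat_lit 388587091122) (nat_lit 0) (nat_lit 49681299048) (nat_lit 168) (nat_lit 201943593806) (nat_lit 14) (nat_lit 1) (nat_lit 13) (nat_lit 1) (nat_lit 15) (nat_lit 1) (nat_lit 239) (nat_lit 445) (nat_lit 396)) (XT.lf (nat_lit 0) (nat_lit 91814335505) (nat_lit 0) (nat_lit 359706978234) (nat_lit 168) (nat_lit 172117815706) (nat_lit 12) (nat_lit 3) (nat_lit 12) (nat_lit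 1) (nat_lit 14) (nat_lit 1) (nat_lit 240) (nat_lit 445) (nat_lit 395))) (XT.nd (nat_lit 94) (nat_lit 84) (nat_lit 0) (XT.lf (nat_lit 84) (nat_lit 413524865701) (nat_lit 0) (nat_lit 51447624793) (nat_lit 168) (nat_lit 142581112441) (nat_lit 11) (nat_lit 1) (nat_lit 10) (nat_lit 1) (nat_lit 12) (nat_lit 1) (nat_lit 241) (nat_lit 445) (nat_lit 394)) (XT.lf (nat_lit 0) (nat_lit 129080737797) (nat_lit 0) (nat_lit 347818606640) (nat_lit 168) (nat_lit 114960757930) (nat_lit 9) (nat_lit 3) (nat_lit 9) (nat_lit 1) (nat_lit 11) (nat_lit 1) (nat_lit 242) (nat_lit 445) (nat_lit 393)))) (XT.nd (nat_lit 188) (nat_lit 504) (nat_lit 0) (XT.nd (nat_lit 94) (nat_lit 84) (nat_lit 0) (XT.lf (nat_lit 84) (nat_lit 433236424382) (nat_lit 0) (nat_lit 56303971511) (nat_lit 168) (nat_lit 87111922145) (nat_lit 8) (nat_lit 1) (nat_lit 7) (nat_lit 1) (nat_lit 9) (nat_lit 1) (nat_lit 243)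 (nat_lit 445) (nat_lit 392)) (XT.lf (nat_lit 0) (nat_lit 160755517305) (nat_lit 0) (nat_lit 339357866286) (nat_lit 168) (nat_lit 61671830312) (nat_lit 6) (nat_lit 3) (nat_lit 6) (nat_lit 1) (nat_lit 8) (nat_lit 1) (nat_lit 244) (nat_lit 445) (nat_lit 391))) (XT.nd (nat_lit 94) (nat_lit 336) (nat_lit 0) (XT.lf (nat_lit 84) (nat_lit 448496255482) (nat_lit 0) (nat_lit 63305356036) (nat_lit 168) (nat_lit 35596565477) (nat_lit 5) (nat_lit 1) (nat_lit 4) (nat_lit 1) (nat_lit 6) (nat_lit 1) (nat_lit 245) (nat_lit 445) (nat_lit 390)) (XT.nd (nat_lit 94) (nat_lit 252) (nat_lit 0) (XT.lf (nat_lit 0) (nat_lit 187595873141) (nat_lit 0) (nat_lit 333427041881) (nat_lit 168) (nat_lit 12285853005) (nat_lit 3) (nat_lit 3) (nat_lit 3) (nat_lit 1) (nat_lit 5) (nat_lit 1) (nat_lit 246) (nat_lit 445) (nat_lit 389)) (XT.lf (nat_lit 0) (nat_lit 753856520267) (nat_lit 0) (nat_lit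 0) (nat_lit 0) (nat_lit 0) (nat_lit 0) (nat_lit 0) (nat_lit 1) (nat_lit 0) (nat_lit 1) (nat_lit 0) (nat_lit 247) (nat_lit 445) (nat_lit 388)))))) (XT.nd (nat_lit 470) (nat_lit 0) (nat_lit 0) (XT.nd (nat_lit 188) (nat_lit 0) (nat_lit 0) (XT.nd (nat_lit 94) (nat_lit 0) (nat_lit 0) (XT.lf (nat_lit 0) (nat_lit 753170351012) (nat_lit 0) (nat_lit 0) (nat_lit 0) (nat_lit 0) (nat_lit 0) (nat_lit 0) (nat_lit 1) (nat_lit 0) (nat_lit 1) (nat_lit 0) (nat_lit 248) (nat_lit 445) (nat_lit 387)) (XT.lf (nat_lit 0) (nat_lit 752535009109) (nat_lit 0) (nat_lit 0) (nat_lit 0) (nat_lit 0) (nat_lit 0) (nat_lit 0) (nat_lit 1) (nat_lit 0) (nat_lit 1) (nat_lit 0) (nat_lit 249) (nat_lit 445) (nat_lit 386))) (XT.nd (nat_lit 94) (nat_lit 0) (nat_lit 0) (XT.lf (nat_lit 0) (nat_lit 751946729569) (nat_lit 0) (nat_lit 0) (nat_lit 0) (nat_lit 0) (nat_lit 0) (nat_lit 0) (nat_lit 1) (nat_lit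 0) (nat_lit 1) (nat_lit 0) (nat_lit 250) (nat_lit 445) (nat_lit 385)) (XT.nd (nat_lit 94) (nat_lit 0) (nat_lit 0) (XT.lf (nat_lit 0) (nat_lit 751402026291) (nat_lit 0) (nat_lit 0) (nat_lit 0) (nat_lit 0) (nat_lit 0) (nat_lit 0) (nat_lit 1) (nat_lit 0) (nat_lit 1) (nat_lit 0) (nat_lit 251) (nat_lit 445) (nat_lit 384)) (XT.lf (nat_lit 0) (nat_lit 750897671404) (nat_lit 0) (nat_lit 0) (nat_lit 0) (nat_lit 0) (nat_lit 0) (nat_lit 0) (nat_lit 1) (nat_lit 0) (nat_lit 1) (nat_lit 0) (nat_lit 252) (nat_lit 445) (nat_lit 383))))) (XT.nd (nat_lit 188) (nat_lit 0) (nat_lit 0) (XT.nd (nat_lit 94) (nat_lit 0) (nat_lit 0) (XT.lf (nat_lit 0) (nat_lit 750430676139) (nat_lit 0) (nat_lit 0) (nat_lit 0) (nat_lit 0) (nat_lit 0) (nat_lit 0) (nat_lit 1) (nat_lit 0) (nat_lit 1) (nat_lit 0) (nat_lit 253) (nat_lit 445) (nat_lit 382)) (XT.lf (nat_lit 0) (nat_lit 749998273115) (nat_lit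 0) (nat_lit 0) (nat_lit 0) (nat_lit 0) (nat_lit 0) (nat_lit 0) (nat_lit 1) (nat_lit 0) (nat_lit 1) (nat_lit 0) (nat_lit 254) (nat_lit 445) (nat_lit 381))) (XT.nd (nat_lit 94) (nat_lit 0) (nat_lit 0) (XT.lf (nat_lit 0) (nat_lit 749597899945) (nat_lit 0) (nat_lit 0) (nat_lit 0) (nat_lit 0) (nat_lit 0) (nat_lit 0) (nat_lit 1) (nat_lit 0) (nat_lit 1) (nat_lit 0) (nat_lit 255) (nat_lit 445) (nat_lit 380)) (XT.nd (nat_lit 94) (nat_lit 0) (nat_lit 0) (XT.lf (nat_lit 0) (nat_lit 749227184047) (nat_lit 0) (nat_lit 0) (nat_lit 0) (nat_lit 0) (nat_lit 0) (nat_lit 0) (nat_lit 1) (nat_lit 0) (nat_lit 1) (nat_lit 0) (nat_lit 256) (nat_lit 445) (nat_lit 379)) (XT.lf (nat_lit 0) (nat_lit 748883928586) (nat_lit 0) (nat_lit 0) (nat_lit 0) (nat_lit 0) (nat_lit 0) (nat_lit 0) (nat_lit 1) (nat_lit 0) (nat_lit 1) (nat_lit 0) (nat_lit 257) (nat_lit 445) (nat_lit 378))))))) (XT.nd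 (nat_lit 846) (nat_lit 0) (nat_lit 0) (XT.nd (nat_lit 376) (nat_lit 0) (nat_lit 0) (XT.nd (nat_lit 188) (nat_lit 0) (nat_lit 0) (XT.nd (nat_lit 94) (nat_lit 0) (nat_lit 0) (XT.lf (nat_lit 0) (nat_lit 748566099455) (nat_lit 0) (nat_lit 0) (nat_lit 0) (nat_lit 0) (nat_lit 0) (nat_lit 0) (nat_lit 1) (nat_lit 0) (nat_lit 1) (nat_lit 0) (nat_lit 258) (nat_lit 445) (nat_lit 377)) (XT.lf (nat_lit 0) (nat_lit 748271813223) (nat_lit 0) (nat_lit 0) (nat_lit 0) (nat_lit 0) (nat_lit 0) (nat_lit 0) (nat_lit 1) (nat_lit 0) (nat_lit 1) (nat_lit 0) (nat_lit 259) (nat_lit 445) (nat_lit 376))) (XT.nd (nat_lit 94) (nat_lit 0) (nat_lit 0) (XT.lf (nat_lit 0) (nat_lit 747999325971) (nat_lit 0) (nat_lit 0) (nat_lit 0) (nat_lit 0) (nat_lit 0) (nat_lit 0) (nat_lit 1) (nat_lit 0) (nat_lit 1) (nat_lit 0) (nat_lit 260) (nat_lit 445) (nat_lit 375)) (XT.lf (nat_lit 0) (nat_lit 747747022960)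 (nat_lit 0) (nat_lit 0) (nat_lit 0) (nat_lit 0) (nat_lit 0) (nat_lit 0) (nat_lit 1) (nat_lit 0) (nat_lit 1) (nat_lit 0) (nat_lit 261) (nat_lit 445) (nat_lit 374)))) (XT.nd (nat_lit 188) (nat_lit 0) (nat_lit 0) (XT.nd (nat_lit 94) (nat_lit 0) (nat_lit 0) (XT.lf (nat_lit 0) (nat_lit 747513409060) (nat_lit 0) (nat_lit 0) (nat_lit 0) (nat_lit 0) (nat_lit 0) (nat_lit 0) (nat_lit 1) (nat_lit 0) (nat_lit 1) (nat_lit 0) (nat_lit 262) (nat_lit 445) (nat_lit 373)) (XT.lf (nat_lit 0) (nat_lit 747297099894) (nat_lit 0) (nat_lit 0) (nat_lit 0) (nat_lit 0) (nat_lit 0) (nat_lit 0) (nat_lit 1) (nat_lit 0) (nat_lit 1) (nat_lit 0) (nat_lit 263) (nat_lit 445) (nat_lit 372))) (XT.nd (nat_lit 94) (nat_lit 0) (nat_lit 0) (XT.lf (nat_lit 0) (nat_lit 747096813630) (nat_lit 0) (nat_lit 0) (nat_lit 0) (nat_lit 0) (nat_lit 0) (nat_lit 0) (nat_lit 1) (nat_lit 0) (nat_lit 1) (nat_lit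 0) (nat_lit 264) (nat_lit 445) (nat_lit 371)) (XT.nd (nat_lit 94) (nat_lit 0) (nat_lit 0) (XT.lf (nat_lit 0) (nat_lit 746911363384) (nat_lit 0) (nat_lit 0) (nat_lit 0) (nat_lit 0) (nat_lit 0) (nat_lit 0) (nat_lit 1) (nat_lit 0) (nat_lit 1) (nat_lit 0) (nat_lit 265) (nat_lit 445) (nat_lit 370)) (XT.lf (nat_lit 0) (nat_lit 746739650195) (nat_lit 0) (nat_lit 0) (nat_lit 0) (nat_lit 0) (nat_lit 0) (nat_lit 0) (nat_lit 1) (nat_lit 0) (nat_lit 1) (nat_lit 0) (nat_lit 266) (nat_lit 445) (nat_lit 369)))))) (XT.nd (nat_lit 470) (nat_lit 0) (nat_lit 0) (XT.nd (nat_lit 188) (nat_lit 0) (nat_lit 0) (XT.nd (nat_lit 94) (nat_lit 0) (nat_lit 0) (XT.lf (nat_lit 0) (nat_lit 746580656500) (nat_lit 0) (nat_lit 0) (nat_lit 0) (nat_lit 0) (nat_lit 0) (nat_lit 0) (nat_lit 1) (nat_lit 0) (nat_lit 1) (nat_lit 0) (nat_lit 267) (nat_lit 445) (nat_lit 368)) (XT.lf (nat_lit 0) (nat_lit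 746433440116) (nat_lit 0) (nat_lit 0) (nat_lit 0) (nat_lit 0) (nat_lit 0) (nat_lit 0) (nat_lit 1) (nat_lit 0) (nat_lit 1) (nat_lit 0) (nat_lit 268) (nat_lit 445) (nat_lit 367))) (XT.nd (nat_lit 94) (nat_lit 0) (nat_lit 0) (XT.lf (nat_lit 0) (nat_lit 746297128650) (nat_lit 0) (nat_lit 0) (nat_lit 0) (nat_lit 0) (nat_lit 0) (nat_lit 0) (nat_lit 1) (nat_lit 0) (nat_lit 1) (nat_lit 0) (nat_lit 269) (nat_lit 445) (nat_lit 366)) (XT.nd (nat_lit 94) (nat_lit 0) (nat_lit 0) (XT.lf (nat_lit 0) (nat_lit 746170914329) (nat_lit 0) (nat_lit 0) (nat_lit 0) (nat_lit 0) (nat_lit 0) (nat_lit 0) (nat_lit 1) (nat_lit 0) (nat_lit 1) (nat_lit 0) (nat_lit 270) (nat_lit 445) (nat_lit 365)) (XT.lf (nat_lit 0) (nat_lit 746054049217) (nat_lit 0) (nat_lit 0) (nat_lit 0) (nat_lit 0) (nat_lit 0) (nat_lit 0) (nat_lit 1) (nat_lit 0) (nat_lit 1) (nat_lit 0) (nat_lit 271) (nat_lit 445) (nat_lit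 364))))) (XT.nd (nat_lit 188) (nat_lit 0) (nat_lit 0) (XT.nd (nat_lit 94) (nat_lit 0) (nat_lit 0) (XT.lf (nat_lit 0) (nat_lit 745945840781) (nat_lit 0) (nat_lit 0) (nat_lit 0) (nat_lit 0) (nat_lit 0) (nat_lit 0) (nat_lit 1) (nat_lit 0) (nat_lit 1) (nat_lit 0) (nat_lit 272) (nat_lit 445) (nat_lit 363)) (XT.lf (nat_lit 0) (nat_lit 745845647784) (nat_lit 0) (nat_lit 0) (nat_lit 0) (nat_lit 0) (nat_lit 0) (nat_lit 0) (nat_lit 1) (nat_lit 0) (nat_lit 1) (nat_lit 0) (nat_lit 273) (nat_lit 445) (nat_lit 362))) (XT.nd (nat_lit 94) (nat_lit 0) (nat_lit 0) (XT.lf (nat_lit 0) (nat_lit 745752876490) (nat_lit 0) (nat_lit 0) (nat_lit 0) (nat_lit 0) (nat_lit 0) (nat_lit 0) (nat_lit 1) (nat_lit 0) (nat_lit 1) (nat_lit 0) (nat_lit 274) (nat_lit 445) (nat_lit 361)) (XT.nd (nat_lit 94) (nat_lit 0) (nat_lit 0) (XT.lf (nat_lit 0) (nat_lit 745666977144) (nat_lit 0) (nat_lit 0)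 (nat_lit 0) (nat_lit 0) (nat_lit 0) (nat_lit 0) (nat_lit 1) (nat_lit 0) (nat_lit 1) (nat_lit 0) (nat_lit 275) (nat_lit 445) (nat_lit 360)) (XT.lf (nat_lit 0) (nat_lit 745587440713) (nat_lit 0) (nat_lit 0) (nat_lit 0) (nat_lit 0) (nat_lit 0) (nat_lit 0) (nat_lit 1) (nat_lit 0) (nat_lit 1) (nat_lit 0) (nat_lit 276) (nat_lit 445) (nat_lit 359))))))))
noncomputable def ec402 : XT := (XT.nd (nat_lit 1692) (nat_lit 0) (nat_lit 0) (XT.nd (nat_lit 846) (nat_lit 0) (nat_lit 0) (XT.nd (nat_lit 376) (nat_lit 0) (nat_lit 0) (XT.nd (nat_lit 188) (nat_lit 0) (nat_lit 0) (XT.nd (nat_lit 94) (nat_lit 0) (nat_lit 0) (XT.lf (nat_lit 0) (nat_lit 745513795869) (nat_lit 0) (nat_lit 0) (nat_lit 0) (nat_lit 0) (nat_lit 0) (nat_lit 0) (nat_lit 1) (nat_lit 0) (nat_lit 1) (nat_lit 0) (nat_lit 277) (nat_lit 445) (nat_lit 358)) (XT.lf (nat_lit 0) (nat_lit 745445606198) (nat_lit 0) (nat_lit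 0) (nat_lit 0) (nat_lit 0) (nat_lit 0) (nat_lit 0) (nat_lit 1) (nat_lit 0) (nat_lit 1) (nat_lit 0) (nat_lit 278) (nat_lit 445) (nat_lit 357))) (XT.nd (nat_lit 94) (nat_lit 0) (nat_lit 0) (XT.lf (nat_lit 0) (nat_lit 745382467615) (nat_lit 0) (nat_lit 0) (nat_lit 0) (nat_lit 0) (nat_lit 0) (nat_lit 0) (nat_lit 1) (nat_lit 0) (nat_lit 1) (nat_lit 0) (nat_lit 279) (nat_lit 445) (nat_lit 356)) (XT.lf (nat_lit 0) (nat_lit 745324005963) (nat_lit 0) (nat_lit 0) (nat_lit 0) (nat_lit 0) (nat_lit 0) (nat_lit 0) (nat_lit 1) (nat_lit 0) (nat_lit 1) (nat_lit 0) (nat_lit 280) (nat_lit 445) (nat_lit 355)))) (XT.nd (nat_lit 188) (nat_lit 0) (nat_lit 0) (XT.nd (nat_lit 94) (nat_lit 0) (nat_lit 0) (XT.lf (nat_lit 0) (nat_lit 745269874805) (nat_lit 0) (nat_lit 0) (nat_lit 0) (nat_lit 0) (nat_lit 0) (nat_lit 0) (nat_lit 1) (nat_lit 0) (nat_lit 1) (nat_lit 0) (nat_lit 281) (nat_lit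 445) (nat_lit 354)) (XT.lf (nat_lit 0) (nat_lit 745219753361) (nat_lit 0) (nat_lit 0) (nat_lit 0) (nat_lit 0) (nat_lit 0) (nat_lit 0) (nat_lit 1) (nat_lit 0) (nat_lit 1) (nat_lit 0) (nat_lit 282) (nat_lit 445) (nat_lit 353))) (XT.nd (nat_lit 94) (nat_lit 0) (nat_lit 0) (XT.lf (nat_lit 0) (nat_lit 745173344618) (nat_lit 0) (nat_lit 0) (nat_lit 0) (nat_lit 0) (nat_lit 0) (nat_lit 0) (nat_lit 1) (nat_lit 0) (nat_lit 1) (nat_lit 0) (nat_lit 283) (nat_lit 445) (nat_lit 352)) (XT.nd (nat_lit 94) (nat_lit 0) (nat_lit 0) (XT.lf (nat_lit 0) (nat_lit 745130373558) (nat_lit 0) (nat_lit 0) (nat_lit 0) (nat_lit 0) (nat_lit 0) (nat_lit 0) (nat_lit 1) (nat_lit 0) (nat_lit 1) (nat_lit 0) (nat_lit 284) (nat_lit 445) (nat_lit 351)) (XT.lf (nat_lit 0) (nat_lit 745090585541) (nat_lit 0) (nat_lit 0) (nat_lit 0) (nat_lit 0) (nat_lit 0) (nat_lit 0) (nat_lit 1) (nat_lit 0) (nat_lit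 1) (nat_lit 0) (nat_lit 285) (nat_lit 445) (nat_lit 350)))))) (XT.nd (nat_lit 376) (nat_lit 0) (nat_lit 0) (XT.nd (nat_lit 188) (nat_lit 0) (nat_lit 0) (XT.nd (nat_lit 94) (nat_lit 0) (nat_lit 0) (XT.lf (nat_lit 0) (nat_lit 745053744784) (nat_lit 0) (nat_lit 0) (nat_lit 0) (nat_lit 0) (nat_lit 0) (nat_lit 0) (nat_lit 1) (nat_lit 0) (nat_lit 1) (nat_lit 0) (nat_lit 286) (nat_lit 445) (nat_lit 349)) (XT.lf (nat_lit 0) (nat_lit 745019632972) (nat_lit 0) (nat_lit 0) (nat_lit 0) (nat_lit 0) (nat_lit 0) (nat_lit 0) (nat_lit 1) (nat_lit 0) (nat_lit 1) (nat_lit 0) (nat_lit 287) (nat_lit 445) (nat_lit 348))) (XT.nd (nat_lit 94) (nat_lit 0) (nat_lit 0) (XT.lf (nat_lit 0) (nat_lit 744988047960) (nat_lit 0) (nat_lit 0) (nat_lit 0) (nat_lit 0) (nat_lit 0) (nat_lit 0) (nat_lit 1) (nat_lit 0) (nat_lit 1) (nat_lit 0) (nat_lit 288) (nat_lit 445) (nat_lit 347)) (XT.lf (nat_lit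 0) (nat_lit 744958802580) (nat_lit 0) (nat_lit 0) (nat_lit 0) (nat_lit 0) (nat_lit 0) (nat_lit 0) (nat_lit 1) (nat_lit 0) (nat_lit 1) (nat_lit 0) (nat_lit 289) (nat_lit 445) (nat_lit 346)))) (XT.nd (nat_lit 188) (nat_lit 0) (nat_lit 0) (XT.nd (nat_lit 94) (nat_lit 0) (nat_lit 0) (XT.lf (nat_lit 0) (nat_lit 744931723523) (nat_lit 0) (nat_lit 0) (nat_lit 0) (nat_lit 0) (nat_lit 0) (nat_lit 0) (nat_lit 1) (nat_lit 0) (nat_lit 1) (nat_lit 0) (nat_lit 290) (nat_lit 445) (nat_lit 345)) (XT.lf (nat_lit 0) (nat_lit 744906650323) (nat_lit 0) (nat_lit 0) (nat_lit 0) (nat_lit 0) (nat_lit 0) (nat_lit 0) (nat_lit 1) (nat_lit 0) (nat_lit 1) (nat_lit 0) (nat_lit 291) (nat_lit 445) (nat_lit 344))) (XT.nd (nat_lit 94) (nat_lit 0) (nat_lit 0) (XT.lf (nat_lit 0) (nat_lit 744883434397) (nat_lit 0) (nat_lit 0) (nat_lit 0) (nat_lit 0) (nat_lit 0) (nat_lit 0) (nat_lit 1) (nat_lit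 0) (nat_lit 1) (nat_lit 0) (nat_lit 292) (nat_lit 445) (nat_lit 343)) (XT.nd (nat_lit 94) (nat_lit 0) (nat_lit 0) (XT.lf (nat_lit 0) (nat_lit 744861938169) (nat_lit 0) (nat_lit 0) (nat_lit 0) (nat_lit 0) (nat_lit 0) (nat_lit 0) (nat_lit 1) (nat_lit 0) (nat_lit 1) (nat_lit 0) (nat_lit 293) (nat_lit 445) (nat_lit 342)) (XT.lf (nat_lit 0) (nat_lit 744842034254) (nat_lit 0) (nat_lit 0) (nat_lit 0) (nat_lit 0) (nat_lit 0) (nat_lit 0) (nat_lit 1) (nat_lit 0) (nat_lit 1) (nat_lit 0) (nat_lit 294) (nat_lit 445) (nat_lit 341))))))) (XT.nd (nat_lit 846) (nat_lit 0) (nat_lit 0) (XT.nd (nat_lit 376) (nat_lit 0) (nat_lit 0) (XT.nd (nat_lit 188) (nat_lit 0) (nat_lit 0) (XT.nd (nat_lit 94) (nat_lit 0) (nat_lit 0) (XT.lf (nat_lit 0) (nat_lit 744823604704) (nat_lit 0) (nat_lit 0) (nat_lit 0) (nat_lit 0) (nat_lit 0) (nat_lit 0) (nat_lit 1) (nat_lit 0) (nat_lit 1) (nat_lit 0)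 (nat_lit 295) (nat_lit 445) (nat_lit 340)) (XT.lf (nat_lit 0) (nat_lit 744806540305) (nat_lit 0) (nat_lit 0) (nat_lit 0) (nat_lit 0) (nat_lit 0) (nat_lit 0) (nat_lit 1) (nat_lit 0) (nat_lit 1) (nat_lit 0) (nat_lit 296) (nat_lit 445) (nat_lit 339))) (XT.nd (nat_lit 94) (nat_lit 0) (nat_lit 0) (XT.lf (nat_lit 0) (nat_lit 744790739936) (nat_lit 0) (nat_lit 0) (nat_lit 0) (nat_lit 0) (nat_lit 0) (nat_lit 0) (nat_lit 1) (nat_lit 0) (nat_lit 1) (nat_lit 0) (nat_lit 297) (nat_lit 445) (nat_lit 338)) (XT.lf (nat_lit 0) (nat_lit 744776109964) (nat_lit 0) (nat_lit 0) (nat_lit 0) (nat_lit 0) (nat_lit 0) (nat_lit 0) (nat_lit 1) (nat_lit 0) (nat_lit 1) (nat_lit 0) (nat_lit 298) (nat_lit 445) (nat_lit 337)))) (XT.nd (nat_lit 188) (nat_lit 0) (nat_lit 0) (XT.nd (nat_lit 94) (nat_lit 0) (nat_lit 0) (XT.lf (nat_lit 0) (nat_lit 744762563694) (nat_lit 0) (nat_lit 0) (nat_lit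 0) (nat_lit 0) (nat_lit 0) (nat_lit 0) (nat_lit 1) (nat_lit 0) (nat_lit 1) (nat_lit 0) (nat_lit 299) (nat_lit 445) (nat_lit 336)) (XT.lf (nat_lit 0) (nat_lit 744750020852) (nat_lit 0) (nat_lit 0) (nat_lit 0) (nat_lit 0) (nat_lit 0) (nat_lit 0) (nat_lit 1) (nat_lit 0) (nat_lit 1) (nat_lit 0) (nat_lit 300) (nat_lit 445) (nat_lit 335))) (XT.nd (nat_lit 94) (nat_lit 0) (nat_lit 0) (XT.lf (nat_lit 0) (nat_lit 744738407109) (nat_lit 0) (nat_lit 0) (nat_lit 0) (nat_lit 0) (nat_lit 0) (nat_lit 0) (nat_lit 1) (nat_lit 0) (nat_lit 1) (nat_lit 0) (nat_lit 301) (nat_lit 445) (nat_lit 334)) (XT.nd (nat_lit 94) (nat_lit 0) (nat_lit 0) (XT.lf (nat_lit 0) (nat_lit 744727653643) (nat_lit 0) (nat_lit 0) (nat_lit 0) (nat_lit 0) (nat_lit 0) (nat_lit 0) (nat_lit 1) (nat_lit 0) (nat_lit 1) (nat_lit 0) (nat_lit 302) (nat_lit 445) (nat_lit 333)) (XT.lf (nat_lit 0) (nat_lit 744717696730)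 (nat_lit 0) (nat_lit 0) (nat_lit 0) (nat_lit 0) (nat_lit 0) (nat_lit 0) (nat_lit 1) (nat_lit 0) (nat_lit 1) (nat_lit 0) (nat_lit 303) (nat_lit 445) (nat_lit 332)))))) (XT.nd (nat_lit 470) (nat_lit 0) (nat_lit 0) (XT.nd (nat_lit 188) (nat_lit 0) (nat_lit 0) (XT.nd (nat_lit 94) (nat_lit 0) (nat_lit 0) (XT.lf (nat_lit 0) (nat_lit 744708477366) (nat_lit 0) (nat_lit 0) (nat_lit 0) (nat_lit 0) (nat_lit 0) (nat_lit 0) (nat_lit 1) (nat_lit 0) (nat_lit 1) (nat_lit 0) (nat_lit 304) (nat_lit 445) (nat_lit 331)) (XT.lf (nat_lit 0) (nat_lit 744699940918) (nat_lit 0) (nat_lit 0) (nat_lit 0) (nat_lit 0) (nat_lit 0) (nat_lit 0) (nat_lit 1) (nat_lit 0) (nat_lit 1) (nat_lit 0) (nat_lit 305) (nat_lit 445) (nat_lit 330))) (XT.nd (nat_lit 94) (nat_lit 0) (nat_lit 0) (XT.lf (nat_lit 0) (nat_lit 744692036800) (nat_lit 0) (nat_lit 0) (nat_lit 0) (nat_lit 0) (nat_lit 0) (nat_lit 0)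 (nat_lit 1) (nat_lit 0) (nat_lit 1) (nat_lit 0) (nat_lit 306) (nat_lit 445) (nat_lit 329)) (XT.nd (nat_lit 94) (nat_lit 0) (nat_lit 0) (XT.lf (nat_lit 0) (nat_lit 744684718172) (nat_lit 0) (nat_lit 0) (nat_lit 0) (nat_lit 0) (nat_lit 0) (nat_lit 0) (nat_lit 1) (nat_lit 0) (nat_lit 1) (nat_lit 0) (nat_lit 307) (nat_lit 445) (nat_lit 328)) (XT.lf (nat_lit 0) (nat_lit 744677941664) (nat_lit 0) (nat_lit 0) (nat_lit 0) (nat_lit 0) (nat_lit 0) (nat_lit 0) (nat_lit 1) (nat_lit 0) (nat_lit 1) (nat_lit 0) (nat_lit 308) (nat_lit 445) (nat_lit 327))))) (XT.nd (nat_lit 188) (nat_lit 0) (nat_lit 0) (XT.nd (nat_lit 94) (nat_lit 0) (nat_lit 0) (XT.lf (nat_lit 0) (nat_lit 744671667120) (nat_lit 0) (nat_lit 0) (nat_lit 0) (nat_lit 0) (nat_lit 0) (nat_lit 0) (nat_lit 1) (nat_lit 0) (nat_lit 1) (nat_lit 0) (nat_lit 309) (nat_lit 445) (nat_lit 326)) (XT.lf (nat_lit 0) (nat_lit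 744665857357) (nat_lit 0) (nat_lit 0) (nat_lit 0) (nat_lit 0) (nat_lit 0) (nat_lit 0) (nat_lit 1) (nat_lit 0) (nat_lit 1) (nat_lit 0) (nat_lit 310) (nat_lit 445) (nat_lit 325))) (XT.nd (nat_lit 94) (nat_lit 0) (nat_lit 0) (XT.lf (nat_lit 0) (nat_lit 744660477947) (nat_lit 0) (nat_lit 0) (nat_lit 0) (nat_lit 0) (nat_lit 0) (nat_lit 0) (nat_lit 1) (nat_lit 0) (nat_lit 1) (nat_lit 0) (nat_lit 311) (nat_lit 445) (nat_lit 324)) (XT.nd (nat_lit 94) (nat_lit 0) (nat_lit 0) (XT.lf (nat_lit 0) (nat_lit 744655497012) (nat_lit 0) (nat_lit 0) (nat_lit 0) (nat_lit 0) (nat_lit 0) (nat_lit 0) (nat_lit 1) (nat_lit 0) (nat_lit 1) (nat_lit 0) (nat_lit 312) (nat_lit 445) (nat_lit 323)) (XT.lf (nat_lit 0) (nat_lit 744650885035) (nat_lit 0) (nat_lit 0) (nat_lit 0) (nat_lit 0) (nat_lit 0) (nat_lit 0) (nat_lit 1) (nat_lit 0) (nat_lit 1) (nat_lit 0) (nat_lit 313) (nat_lit 445) (nat_lit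 322))))))))
noncomputable def ec403 : XT := (XT.nd (nat_lit 1786) (nat_lit 0) (nat_lit 0) (XT.nd (nat_lit 846) (nat_lit 0) (nat_lit 0) (XT.nd (nat_lit 376) (nat_lit 0) (nat_lit 0) (XT.nd (nat_lit 188) (nat_lit 0) (nat_lit 0) (XT.nd (nat_lit 94) (nat_lit 0) (nat_lit 0) (XT.lf (nat_lit 0) (nat_lit 744646614685) (nat_lit 0) (nat_lit 0) (nat_lit 0) (nat_lit 0) (nat_lit 0) (nat_lit 0) (nat_lit 1) (nat_lit 0) (nat_lit 1) (nat_lit 0) (nat_lit 314) (nat_lit 445) (nat_lit 321)) (XT.lf (nat_lit 0) (nat_lit 744642660658) (nat_lit 0) (nat_lit 0) (nat_lit 0) (nat_lit 0) (nat_lit 0) (nat_lit 0) (nat_lit 1) (nat_lit 0) (nat_lit 1) (nat_lit 0) (nat_lit 315) (nat_lit 445) (nat_lit 320))) (XT.nd (nat_lit 94) (nat_lit 0) (nat_lit 0) (XT.lf (nat_lit 0) (nat_lit 744638999522) (nat_lit 0) (nat_lit 0) (nat_lit 0) (nat_lit 0) (nat_lit 0) (nat_lit 0) (nat_lit 1) (nat_lit 0) (nat_lit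 1) (nat_lit 0) (nat_lit 316) (nat_lit 445) (nat_lit 319)) (XT.lf (nat_lit 0) (nat_lit 744635609581) (nat_lit 0) (nat_lit 0) (nat_lit 0) (nat_lit 0) (nat_lit 0) (nat_lit 0) (nat_lit 1) (nat_lit 0) (nat_lit 1) (nat_lit 0) (nat_lit 317) (nat_lit 445) (nat_lit 318)))) (XT.nd (nat_lit 188) (nat_lit 0) (nat_lit 0) (XT.nd (nat_lit 94) (nat_lit 0) (nat_lit 0) (XT.lf (nat_lit 0) (nat_lit 744632470747) (nat_lit 0) (nat_lit 0) (nat_lit 0) (nat_lit 0) (nat_lit 0) (nat_lit 0) (nat_lit 1) (nat_lit 0) (nat_lit 1) (nat_lit 0) (nat_lit 318) (nat_lit 445) (nat_lit 317)) (XT.lf (nat_lit 0) (nat_lit 744629564419) (nat_lit 0) (nat_lit 0) (nat_lit 0) (nat_lit 0) (nat_lit 0) (nat_lit 0) (nat_lit 1) (nat_lit 0) (nat_lit 1) (nat_lit 0) (nat_lit 319) (nat_lit 445) (nat_lit 316))) (XT.nd (nat_lit 94) (nat_lit 0) (nat_lit 0) (XT.lf (nat_lit 0) (nat_lit 744626873375) (nat_lit 0) (nat_lit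 0) (nat_lit 0) (nat_lit 0) (nat_lit 0) (nat_lit 0) (nat_lit 1) (nat_lit 0) (nat_lit 1) (nat_lit 0) (nat_lit 320) (nat_lit 445) (nat_lit 315)) (XT.nd (nat_lit 94) (nat_lit 0) (nat_lit 0) (XT.lf (nat_lit 0) (nat_lit 744624381667) (nat_lit 0) (nat_lit 0) (nat_lit 0) (nat_lit 0) (nat_lit 0) (nat_lit 0) (nat_lit 1) (nat_lit 0) (nat_lit 1) (nat_lit 0) (nat_lit 321) (nat_lit 445) (nat_lit 314)) (XT.lf (nat_lit 0) (nat_lit 744622074530) (nat_lit 0) (nat_lit 0) (nat_lit 0) (nat_lit 0) (nat_lit 0) (nat_lit 0) (nat_lit 1) (nat_lit 0) (nat_lit 1) (nat_lit 0) (nat_lit 322) (nat_lit 445) (nat_lit 313)))))) (XT.nd (nat_lit 470) (nat_lit 0) (nat_lit 0) (XT.nd (nat_lit 188) (nat_lit 0) (nat_lit 0) (XT.nd (nat_lit 94) (nat_lit 0) (nat_lit 0) (XT.lf (nat_lit 0) (nat_lit 744619938292) (nat_lit 0) (nat_lit 0) (nat_lit 0) (nat_lit 0) (nat_lit 0) (nat_lit 0) (nat_lit 1) (nat_lit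 0) (nat_lit 1) (nat_lit 0) (nat_lit 323) (nat_lit 445) (nat_lit 312)) (XT.lf (nat_lit 0) (nat_lit 744617960294) (nat_lit 0) (nat_lit 0) (nat_lit 0) (nat_lit 0) (nat_lit 0) (nat_lit 0) (nat_lit 1) (nat_lit 0) (nat_lit 1) (nat_lit 0) (nat_lit 324) (nat_lit 445) (nat_lit 311))) (XT.nd (nat_lit 94) (nat_lit 0) (nat_lit 0) (XT.lf (nat_lit 0) (nat_lit 744616128815) (nat_lit 0) (nat_lit 0) (nat_lit 0) (nat_lit 0) (nat_lit 0) (nat_lit 0) (nat_lit 1) (nat_lit 0) (nat_lit 1) (nat_lit 0) (nat_lit 325) (nat_lit 445) (nat_lit 310)) (XT.nd (nat_lit 94) (nat_lit 0) (nat_lit 0) (XT.lf (nat_lit 0) (nat_lit 744614433000) (nat_lit 0) (nat_lit 0) (nat_lit 0) (nat_lit 0) (nat_lit 0) (nat_lit 0) (nat_lit 1) (nat_lit 0) (nat_lit 1) (nat_lit 0) (nat_lit 326) (nat_lit 445) (nat_lit 309)) (XT.lf (nat_lit 0) (nat_lit 744612862802) (nat_lit 0) (nat_lit 0) (nat_lit 0) (nat_lit 0) (nat_lit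 0) (nat_lit 0) (nat_lit 1) (nat_lit 0) (nat_lit 1) (nat_lit 0) (nat_lit 327) (nat_lit 445) (nat_lit 308))))) (XT.nd (nat_lit 188) (nat_lit 0) (nat_lit 0) (XT.nd (nat_lit 94) (nat_lit 0) (nat_lit 0) (XT.lf (nat_lit 0) (nat_lit 744611408914) (nat_lit 0) (nat_lit 0) (nat_lit 0) (nat_lit 0) (nat_lit 0) (nat_lit 0) (nat_lit 1) (nat_lit 0) (nat_lit 1) (nat_lit 0) (nat_lit 328) (nat_lit 445) (nat_lit 307)) (XT.lf (nat_lit 0) (nat_lit 744610062722) (nat_lit 0) (nat_lit 0) (nat_lit 0) (nat_lit 0) (nat_lit 0) (nat_lit 0) (nat_lit 1) (nat_lit 0) (nat_lit 1) (nat_lit 0) (nat_lit 329) (nat_lit 445) (nat_lit 306))) (XT.nd (nat_lit 94) (nat_lit 0) (nat_lit 0) (XT.lf (nat_lit 0) (nat_lit 744608816248) (nat_lit 0) (nat_lit 0) (nat_lit 0) (nat_lit 0) (nat_lit 0) (nat_lit 0) (nat_lit 1) (nat_lit 0) (nat_lit 1) (nat_lit 0) (nat_lit 330) (nat_lit 445) (nat_lit 305)) (XT.nd (nat_lit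 94) (nat_lit 0) (nat_lit 0) (XT.lf (nat_lit 0) (nat_lit 744607662105) (nat_lit 0) (nat_lit 0) (nat_lit 0) (nat_lit 0) (nat_lit 0) (nat_lit 0) (nat_lit 1) (nat_lit 0) (nat_lit 1) (nat_lit 0) (nat_lit 331) (nat_lit 445) (nat_lit 304)) (XT.lf (nat_lit 0) (nat_lit 744606593454) (nat_lit 0) (nat_lit 0) (nat_lit 0) (nat_lit 0) (nat_lit 0) (nat_lit 0) (nat_lit 1) (nat_lit 0) (nat_lit 1) (nat_lit 0) (nat_lit 332) (nat_lit 445) (nat_lit 303))))))) (XT.nd (nat_lit 846) (nat_lit 0) (nat_lit 0) (XT.nd (nat_lit 376) (nat_lit 0) (nat_lit 0) (XT.nd (nat_lit 188) (nat_lit 0) (nat_lit 0) (XT.nd (nat_lit 94) (nat_lit 0) (nat_lit 0) (XT.lf (nat_lit 0) (nat_lit 744605603963) (nat_lit 0) (nat_lit 0) (nat_lit 0) (nat_lit 0) (nat_lit 0) (nat_lit 0) (nat_lit 1) (nat_lit 0) (nat_lit 1) (nat_lit 0) (nat_lit 333) (nat_lit 445) (nat_lit 302)) (XT.lf (nat_lit 0) (nat_lit 744604687767)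 (nat_lit 0) (nat_lit 0) (nat_lit 0) (nat_lit 0) (nat_lit 0) (nat_lit 0) (nat_lit 1) (nat_lit 0) (nat_lit 1) (nat_lit 0) (nat_lit 334) (nat_lit 445) (nat_lit 301))) (XT.nd (nat_lit 94) (nat_lit 0) (nat_lit 0) (XT.lf (nat_lit 0) (nat_lit 744603839438) (nat_lit 0) (nat_lit 0) (nat_lit 0) (nat_lit 0) (nat_lit 0) (nat_lit 0) (nat_lit 1) (nat_lit 0) (nat_lit 1) (nat_lit 0) (nat_lit 335) (nat_lit 445) (nat_lit 300)) (XT.lf (nat_lit 0) (nat_lit 744603053948) (nat_lit 0) (nat_lit 0) (nat_lit 0) (nat_lit 0) (nat_lit 0) (nat_lit 0) (nat_lit 1) (nat_lit 0) (nat_lit 1) (nat_lit 0) (nat_lit 336) (nat_lit 445) (nat_lit 299)))) (XT.nd (nat_lit 188) (nat_lit 0) (nat_lit 0) (XT.nd (nat_lit 94) (nat_lit 0) (nat_lit 0) (XT.lf (nat_lit 0) (nat_lit 744602326642) (nat_lit 0) (nat_lit 0) (nat_lit 0) (nat_lit 0) (nat_lit 0) (nat_lit 0) (nat_lit 1) (nat_lit 0) (nat_lit 1) (nat_lit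 0) (nat_lit 337) (nat_lit 445) (nat_lit 298)) (XT.lf (nat_lit 0) (nat_lit 744601653211) (nat_lit 0) (nat_lit 0) (nat_lit 0) (nat_lit 0) (nat_lit 0) (nat_lit 0) (nat_lit 1) (nat_lit 0) (nat_lit 1) (nat_lit 0) (nat_lit 338) (nat_lit 445) (nat_lit 297))) (XT.nd (nat_lit 94) (nat_lit 0) (nat_lit 0) (XT.lf (nat_lit 0) (nat_lit 744601029663) (nat_lit 0) (nat_lit 0) (nat_lit 0) (nat_lit 0) (nat_lit 0) (nat_lit 0) (nat_lit 1) (nat_lit 0) (nat_lit 1) (nat_lit 0) (nat_lit 339) (nat_lit 445) (nat_lit 296)) (XT.nd (nat_lit 94) (nat_lit 0) (nat_lit 0) (XT.lf (nat_lit 0) (nat_lit 744600452304) (nat_lit 0) (nat_lit 0) (nat_lit 0) (nat_lit 0) (nat_lit 0) (nat_lit 0) (nat_lit 1) (nat_lit 0) (nat_lit 1) (nat_lit 0) (nat_lit 340) (nat_lit 445) (nat_lit 295)) (XT.lf (nat_lit 0) (nat_lit 744599917713) (nat_lit 0) (nat_lit 0) (nat_lit 0) (nat_lit 0) (nat_lit 0) (nat_lit 0) (nat_lit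 1) (nat_lit 0) (nat_lit 1) (nat_lit 0) (nat_lit 341) (nat_lit 445) (nat_lit 294)))))) (XT.nd (nat_lit 470) (nat_lit 0) (nat_lit 0) (XT.nd (nat_lit 188) (nat_lit 0) (nat_lit 0) (XT.nd (nat_lit 94) (nat_lit 0) (nat_lit 0) (XT.lf (nat_lit 0) (nat_lit 744599422721) (nat_lit 0) (nat_lit 0) (nat_lit 0) (nat_lit 0) (nat_lit 0) (nat_lit 0) (nat_lit 1) (nat_lit 0) (nat_lit 1) (nat_lit 0) (nat_lit 342) (nat_lit 445) (nat_lit 293)) (XT.lf (nat_lit 0) (nat_lit 744598964395) (nat_lit 0) (nat_lit 0) (nat_lit 0) (nat_lit 0) (nat_lit 0) (nat_lit 0) (nat_lit 1) (nat_lit 0) (nat_lit 1) (nat_lit 0) (nat_lit 343) (nat_lit 445) (nat_lit 292))) (XT.nd (nat_lit 94) (nat_lit 0) (nat_lit 0) (XT.lf (nat_lit 0) (nat_lit 744598540019) (nat_lit 0) (nat_lit 0) (nat_lit 0) (nat_lit 0) (nat_lit 0) (nat_lit 0) (nat_lit 1) (nat_lit 0) (nat_lit 1) (nat_lit 0) (nat_lit 344) (nat_lit 445) (nat_lit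 291)) (XT.nd (nat_lit 94) (nat_lit 0) (nat_lit 0) (XT.lf (nat_lit 0) (nat_lit 744598147078) (nat_lit 0) (nat_lit 0) (nat_lit 0) (nat_lit 0) (nat_lit 0) (nat_lit 0) (nat_lit 1) (nat_lit 0) (nat_lit 1) (nat_lit 0) (nat_lit 345) (nat_lit 445) (nat_lit 290)) (XT.lf (nat_lit 0) (nat_lit 744597783244) (nat_lit 0) (nat_lit 0) (nat_lit 0) (nat_lit 0) (nat_lit 0) (nat_lit 0) (nat_lit 1) (nat_lit 0) (nat_lit 1) (nat_lit 0) (nat_lit 346) (nat_lit 445) (nat_lit 289))))) (XT.nd (nat_lit 188) (nat_lit 0) (nat_lit 0) (XT.nd (nat_lit 94) (nat_lit 0) (nat_lit 0) (XT.lf (nat_lit 0) (nat_lit 744597446361) (nat_lit 0) (nat_lit 0) (nat_lit 0) (nat_lit 0) (nat_lit 0) (nat_lit 0) (nat_lit 1) (nat_lit 0) (nat_lit 1) (nat_lit 0) (nat_lit 347) (nat_lit 445) (nat_lit 288)) (XT.lf (nat_lit 0) (nat_lit 744597134432) (nat_lit 0) (nat_lit 0) (nat_lit 0) (nat_lit 0) (nat_lit 0) (nat_lit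 0) (nat_lit 1) (nat_lit 0) (nat_lit 1) (nat_lit 0) (nat_lit 348) (nat_lit 445) (nat_lit 287))) (XT.nd (nat_lit 94) (nat_lit 0) (nat_lit 0) (XT.lf (nat_lit 0) (nat_lit 744596845609) (nat_lit 0) (nat_lit 0) (nat_lit 0) (nat_lit 0) (nat_lit 0) (nat_lit 0) (nat_lit 1) (nat_lit 0) (nat_lit 1) (nat_lit 0) (nat_lit 349) (nat_lit 445) (nat_lit 286)) (XT.nd (nat_lit 94) (nat_lit 0) (nat_lit 0) (XT.lf (nat_lit 0) (nat_lit 744596578180) (nat_lit 0) (nat_lit 0) (nat_lit 0) (nat_lit 0) (nat_lit 0) (nat_lit 0) (nat_lit 1) (nat_lit 0) (nat_lit 1) (nat_lit 0) (nat_lit 350) (nat_lit 445) (nat_lit 285)) (XT.lf (nat_lit 0) (nat_lit 744596330561) (nat_lit 0) (nat_lit 0) (nat_lit 0) (nat_lit 0) (nat_lit 0) (nat_lit 0) (nat_lit 1) (nat_lit 0) (nat_lit 1) (nat_lit 0) (nat_lit 351) (nat_lit 445) (nat_lit 284))))))))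
noncomputable def ec404 : XT := (XT.nd (nat_lit 1692) (nat_lit 0) (nat_lit 0) (XT.nd (nat_lit 846) (nat_lit 0) (nat_lit 0) (XT.nd (nat_lit 376) (nat_lit 0) (nat_lit 0) (XT.nd (nat_lit 188) (nat_lit 0) (nat_lit 0) (XT.nd (nat_lit 94) (nat_lit 0) (nat_lit 0) (XT.lf (nat_lit 0) (nat_lit 744596101284) (nat_lit 0) (nat_lit 0) (nat_lit 0) (nat_lit 0) (nat_lit 0) (nat_lit 0) (nat_lit 1) (nat_lit 0) (nat_lit 1) (nat_lit 0) (nat_lit 352) (nat_lit 445) (nat_lit 283)) (XT.lf (nat_lit 0) (nat_lit 744595888990) (nat_lit 0) (nat_lit 0) (nat_lit 0) (nat_lit 0) (nat_lit 0) (nat_lit 0) (nat_lit 1) (nat_lit 0) (nat_lit 1) (nat_lit 0) (nat_lit 353) (nat_lit 445) (nat_lit 282))) (XT.nd (nat_lit 94) (nat_lit 0) (nat_lit 0) (XT.lf (nat_lit 0) (nat_lit 744595692422) (nat_lit 0) (nat_lit 0) (nat_lit 0) (nat_lit 0) (nat_lit 0) (nat_lit 0) (nat_lit 1) (nat_lit 0) (nat_lit 1) (nat_lit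 0) (nat_lit 354) (nat_lit 445) (nat_lit 281)) (XT.lf (nat_lit 0) (nat_lit 744595510415) (nat_lit 0) (nat_lit 0) (nat_lit 0) (nat_lit 0) (nat_lit 0) (nat_lit 0) (nat_lit 1) (nat_lit 0) (nat_lit 1) (nat_lit 0) (nat_lit 355) (nat_lit 445) (nat_lit 280)))) (XT.nd (nat_lit 188) (nat_lit 0) (nat_lit 0) (XT.nd (nat_lit 94) (nat_lit 0) (nat_lit 0) (XT.lf (nat_lit 0) (nat_lit 744595341889) (nat_lit 0) (nat_lit 0) (nat_lit 0) (nat_lit 0) (nat_lit 0) (nat_lit 0) (nat_lit 1) (nat_lit 0) (nat_lit 1) (nat_lit 0) (nat_lit 356) (nat_lit 445) (nat_lit 279)) (XT.lf (nat_lit 0) (nat_lit 744595185847) (nat_lit 0) (nat_lit 0) (nat_lit 0) (nat_lit 0) (nat_lit 0) (nat_lit 0) (nat_lit 1) (nat_lit 0) (nat_lit 1) (nat_lit 0) (nat_lit 357) (nat_lit 445) (nat_lit 278))) (XT.nd (nat_lit 94) (nat_lit 0) (nat_lit 0) (XT.lf (nat_lit 0) (nat_lit 744595041363) (nat_lit 0) (nat_lit 0) (nat_lit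 0) (nat_lit 0) (nat_lit 0) (nat_lit 0) (nat_lit 1) (nat_lit 0) (nat_lit 1) (nat_lit 0) (nat_lit 358) (nat_lit 445) (nat_lit 277)) (XT.nd (nat_lit 94) (nat_lit 0) (nat_lit 0) (XT.lf (nat_lit 0) (nat_lit 744594907582) (nat_lit 0) (nat_lit 0) (nat_lit 0) (nat_lit 0) (nat_lit 0) (nat_lit 0) (nat_lit 1) (nat_lit 0) (nat_lit 1) (nat_lit 0) (nat_lit 359) (nat_lit 445) (nat_lit 276)) (XT.lf (nat_lit 0) (nat_lit 744594783711) (nat_lit 0) (nat_lit 0) (nat_lit 0) (nat_lit 0) (nat_lit 0) (nat_lit 0) (nat_lit 1) (nat_lit 0) (nat_lit 1) (nat_lit 0) (nat_lit 360) (nat_lit 445) (nat_lit 275)))))) (XT.nd (nat_lit 376) (nat_lit 0) (nat_lit 0) (XT.nd (nat_lit 188) (nat_lit 0) (nat_lit 0) (XT.nd (nat_lit 94) (nat_lit 0) (nat_lit 0) (XT.lf (nat_lit 0) (nat_lit 744594669015) (nat_lit 0) (nat_lit 0) (nat_lit 0) (nat_lit 0) (nat_lit 0) (nat_lit 0) (nat_lit 1) (nat_lit 0) (nat_lit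 1) (nat_lit 0) (nat_lit 361) (nat_lit 445) (nat_lit 274)) (XT.lf (nat_lit 0) (nat_lit 744594562816) (nat_lit 0) (nat_lit 0) (nat_lit 0) (nat_lit 0) (nat_lit 0) (nat_lit 0) (nat_lit 1) (nat_lit 0) (nat_lit 1) (nat_lit 0) (nat_lit 362) (nat_lit 445) (nat_lit 273))) (XT.nd (nat_lit 94) (nat_lit 0) (nat_lit 0) (XT.lf (nat_lit 0) (nat_lit 744594464483) (nat_lit 0) (nat_lit 0) (nat_lit 0) (nat_lit 0) (nat_lit 0) (nat_lit 0) (nat_lit 1) (nat_lit 0) (nat_lit 1) (nat_lit 0) (nat_lit 363) (nat_lit 445) (nat_lit 272)) (XT.lf (nat_lit 0) (nat_lit 744594373434) (nat_lit 0) (nat_lit 0) (nat_lit 0) (nat_lit 0) (nat_lit 0) (nat_lit 0) (nat_lit 1) (nat_lit 0) (nat_lit 1) (nat_lit 0) (nat_lit 364) (nat_lit 445) (nat_lit 271)))) (XT.nd (nat_lit 188) (nat_lit 0) (nat_lit 0) (XT.nd (nat_lit 94) (nat_lit 0) (nat_lit 0) (XT.lf (nat_lit 0) (nat_lit 744594289129) (nat_lit 0) (nat_lit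 0) (nat_lit 0) (nat_lit 0) (nat_lit 0) (nat_lit 0) (nat_lit 1) (nat_lit 0) (nat_lit 1) (nat_lit 0) (nat_lit 365) (nat_lit 445) (nat_lit 270)) (XT.lf (nat_lit 0) (nat_lit 744594211069) (nat_lit 0) (nat_lit 0) (nat_lit 0) (nat_lit 0) (nat_lit 0) (nat_lit 0) (nat_lit 1) (nat_lit 0) (nat_lit 1) (nat_lit 0) (nat_lit 366) (nat_lit 445) (nat_lit 269))) (XT.nd (nat_lit 94) (nat_lit 0) (nat_lit 0) (XT.lf (nat_lit 0) (nat_lit 744594138791) (nat_lit 0) (nat_lit 0) (nat_lit 0) (nat_lit 0) (nat_lit 0) (nat_lit 0) (nat_lit 1) (nat_lit 0) (nat_lit 1) (nat_lit 0) (nat_lit 367) (nat_lit 445) (nat_lit 268)) (XT.nd (nat_lit 94) (nat_lit 0) (nat_lit 0) (XT.lf (nat_lit 0) (nat_lit 744594071868) (nat_lit 0) (nat_lit 0) (nat_lit 0) (nat_lit 0) (nat_lit 0) (nat_lit 0) (nat_lit 1) (nat_lit 0) (nat_lit 1) (nat_lit 0) (nat_lit 368) (nat_lit 445) (nat_lit 267)) (XT.lf (nat_lit 0) (nat_lit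 744594009901) (nat_lit 0) (nat_lit 0) (nat_lit 0) (nat_lit 0) (nat_lit 0) (nat_lit 0) (nat_lit 1) (nat_lit 0) (nat_lit 1) (nat_lit 0) (nat_lit 369) (nat_lit 445) (nat_lit 266))))))) (XT.nd (nat_lit 846) (nat_lit 0) (nat_lit 0) (XT.nd (nat_lit 376) (nat_lit 0) (nat_lit 0) (XT.nd (nat_lit 188) (nat_lit 0) (nat_lit 0) (XT.nd (nat_lit 94) (nat_lit 0) (nat_lit 0) (XT.lf (nat_lit 0) (nat_lit 744593952525) (nat_lit 0) (nat_lit 0) (nat_lit 0) (nat_lit 0) (nat_lit 0) (nat_lit 0) (nat_lit 1) (nat_lit 0) (nat_lit 1) (nat_lit 0) (nat_lit 370) (nat_lit 445) (nat_lit 265)) (XT.lf (nat_lit 0) (nat_lit 744593899398) (nat_lit 0) (nat_lit 0) (nat_lit 0) (nat_lit 0) (nat_lit 0) (nat_lit 0) (nat_lit 1) (nat_lit 0) (nat_lit 1) (nat_lit 0) (nat_lit 371) (nat_lit 445) (nat_lit 264))) (XT.nd (nat_lit 94) (nat_lit 0) (nat_lit 0) (XT.lf (nat_lit 0) (nat_lit 744593850207) (nat_lit 0)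 (nat_lit 0) (nat_lit 0) (nat_lit 0) (nat_lit 0) (nat_lit 0) (nat_lit 1) (nat_lit 0) (nat_lit 1) (nat_lit 0) (nat_lit 372) (nat_lit 445) (nat_lit 263)) (XT.lf (nat_lit 0) (nat_lit 744593804660) (nat_lit 0) (nat_lit 0) (nat_lit 0) (nat_lit 0) (nat_lit 0) (nat_lit 0) (nat_lit 1) (nat_lit 0) (nat_lit 1) (nat_lit 0) (nat_lit 373) (nat_lit 445) (nat_lit 262)))) (XT.nd (nat_lit 188) (nat_lit 0) (nat_lit 0) (XT.nd (nat_lit 94) (nat_lit 0) (nat_lit 0) (XT.lf (nat_lit 0) (nat_lit 744593762487) (nat_lit 0) (nat_lit 0) (nat_lit 0) (nat_lit 0) (nat_lit 0) (nat_lit 0) (nat_lit 1) (nat_lit 0) (nat_lit 1) (nat_lit 0) (nat_lit 374) (nat_lit 445) (nat_lit 261)) (XT.lf (nat_lit 0) (nat_lit 744593723437) (nat_lit 0) (nat_lit 0) (nat_lit 0) (nat_lit 0) (nat_lit 0) (nat_lit 0) (nat_lit 1) (nat_lit 0) (nat_lit 1) (nat_lit 0) (nat_lit 375) (nat_lit 445) (nat_lit 260))) (XT.nd (nat_lit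 94) (nat_lit 0) (nat_lit 0) (XT.lf (nat_lit 0) (nat_lit 744593687281) (nat_lit 0) (nat_lit 0) (nat_lit 0) (nat_lit 0) (nat_lit 0) (nat_lit 0) (nat_lit 1) (nat_lit 0) (nat_lit 1) (nat_lit 0) (nat_lit 376) (nat_lit 445) (nat_lit 259)) (XT.nd (nat_lit 94) (nat_lit 0) (nat_lit 0) (XT.lf (nat_lit 0) (nat_lit 744593653802) (nat_lit 0) (nat_lit 0) (nat_lit 0) (nat_lit 0) (nat_lit 0) (nat_lit 0) (nat_lit 1) (nat_lit 0) (nat_lit 1) (nat_lit 0) (nat_lit 377) (nat_lit 445) (nat_lit 258)) (XT.lf (nat_lit 0) (nat_lit 744593622803) (nat_lit 0) (nat_lit 0) (nat_lit 0) (nat_lit 0) (nat_lit 0) (nat_lit 0) (nat_lit 1) (nat_lit 0) (nat_lit 1) (nat_lit 0) (nat_lit 378) (nat_lit 445) (nat_lit 257)))))) (XT.nd (nat_lit 470) (nat_lit 0) (nat_lit 0) (XT.nd (nat_lit 188) (nat_lit 0) (nat_lit 0) (XT.nd (nat_lit 94) (nat_lit 0) (nat_lit 0) (XT.lf (nat_lit 0) (nat_lit 744593594101) (nat_lit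 0) (nat_lit 0) (nat_lit 0) (nat_lit 0) (nat_lit 0) (nat_lit 0) (nat_lit 1) (nat_lit 0) (nat_lit 1) (nat_lit 0) (nat_lit 379) (nat_lit 445) (nat_lit 256)) (XT.lf (nat_lit 0) (nat_lit 744593567525) (nat_lit 0) (nat_lit 0) (nat_lit 0) (nat_lit 0) (nat_lit 0) (nat_lit 0) (nat_lit 1) (nat_lit 0) (nat_lit 1) (nat_lit 0) (nat_lit 380) (nat_lit 445) (nat_lit 255))) (XT.nd (nat_lit 94) (nat_lit 0) (nat_lit 0) (XT.lf (nat_lit 0) (nat_lit 744593542917) (nat_lit 0) (nat_lit 0) (nat_lit 0) (nat_lit 0) (nat_lit 0) (nat_lit 0) (nat_lit 1) (nat_lit 0) (nat_lit 1) (nat_lit 0) (nat_lit 381) (nat_lit 445) (nat_lit 254)) (XT.nd (nat_lit 94) (nat_lit 0) (nat_lit 0) (XT.lf (nat_lit 0) (nat_lit 744593520132) (nat_lit 0) (nat_lit 0) (nat_lit 0) (nat_lit 0) (nat_lit 0) (nat_lit 0) (nat_lit 1) (nat_lit 0) (nat_lit 1) (nat_lit 0) (nat_lit 382) (nat_lit 445) (nat_lit 253)) (XT.lf (nat_lit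 0) (nat_lit 744593499035) (nat_lit 0) (nat_lit 0) (nat_lit 0) (nat_lit 0) (nat_lit 0) (nat_lit 0) (nat_lit 1) (nat_lit 0) (nat_lit 1) (nat_lit 0) (nat_lit 383) (nat_lit 445) (nat_lit 252))))) (XT.nd (nat_lit 188) (nat_lit 0) (nat_lit 0) (XT.nd (nat_lit 94) (nat_lit 0) (nat_lit 0) (XT.lf (nat_lit 0) (nat_lit 744593479500) (nat_lit 0) (nat_lit 0) (nat_lit 0) (nat_lit 0) (nat_lit 0) (nat_lit 0) (nat_lit 1) (nat_lit 0) (nat_lit 1) (nat_lit 0) (nat_lit 384) (nat_lit 445) (nat_lit 251)) (XT.lf (nat_lit 0) (nat_lit 744593461413) (nat_lit 0) (nat_lit 0) (nat_lit 0) (nat_lit 0) (nat_lit 0) (nat_lit 0) (nat_lit 1) (nat_lit 0) (nat_lit 1) (nat_lit 0) (nat_lit 385) (nat_lit 445) (nat_lit 250))) (XT.nd (nat_lit 94) (nat_lit 0) (nat_lit 0) (XT.lf (nat_lit 0) (nat_lit 744593444665) (nat_lit 0) (nat_lit 0) (nat_lit 0) (nat_lit 0) (nat_lit 0) (nat_lit 0) (nat_lit 1) (nat_lit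 0) (nat_lit 1) (nat_lit 0) (nat_lit 386) (nat_lit 445) (nat_lit 249)) (XT.nd (nat_lit 94) (nat_lit 0) (nat_lit 0) (XT.lf (nat_lit 0) (nat_lit 744593429158) (nat_lit 0) (nat_lit 0) (nat_lit 0) (nat_lit 0) (nat_lit 0) (nat_lit 0) (nat_lit 1) (nat_lit 0) (nat_lit 1) (nat_lit 0) (nat_lit 387) (nat_lit 445) (nat_lit 248)) (XT.lf (nat_lit 0) (nat_lit 744593414800) (nat_lit 0) (nat_lit 0) (nat_lit 0) (nat_lit 0) (nat_lit 0) (nat_lit 0) (nat_lit 1) (nat_lit 0) (nat_lit 1) (nat_lit 0) (nat_lit 388) (nat_lit 445) (nat_lit 247))))))))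
noncomputable def ec405 : XT := (XT.nd (nat_lit 1786) (nat_lit 0) (nat_lit 0) (XT.nd (nat_lit 846) (nat_lit 0) (nat_lit 0) (XT.nd (nat_lit 376) (nat_lit 0) (nat_lit 0) (XT.nd (nat_lit 188) (nat_lit 0) (nat_lit 0) (XT.nd (nat_lit 94) (nat_lit 0) (nat_lit 0) (XT.lf (nat_lit 0) (nat_lit 744593401505) (nat_lit 0) (nat_lit 0) (nat_lit 0) (nat_lit 0) (nat_lit 0) (nat_lit 0) (nat_lit 1) (nat_lit 0) (nat_lit 1) (nat_lit 0) (nat_lit 389) (nat_lit 445) (nat_lit 246)) (XT.lf (nat_lit 0) (nat_lit 744593389195) (nat_lit 0) (nat_lit 0) (nat_lit 0) (nat_lit 0) (nat_lit 0) (nat_lit 0) (nat_lit 1) (nat_lit 0) (nat_lit 1) (nat_lit 0) (nat_lit 390) (nat_lit 445) (nat_lit 245))) (XT.nd (nat_lit 94) (nat_lit 0) (nat_lit 0) (XT.lf (nat_lit 0) (nat_lit 744593377797) (nat_lit 0) (nat_lit 0) (nat_lit 0) (nat_lit 0) (nat_lit 0) (nat_lit 0) (nat_lit 1) (nat_lit 0) (nat_lit 1) (nat_lit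 0) (nat_lit 391) (nat_lit 445) (nat_lit 244)) (XT.lf (nat_lit 0) (nat_lit 744593367243) (nat_lit 0) (nat_lit 0) (nat_lit 0) (nat_lit 0) (nat_lit 0) (nat_lit 0) (nat_lit 1) (nat_lit 0) (nat_lit 1) (nat_lit 0) (nat_lit 392) (nat_lit 445) (nat_lit 243)))) (XT.nd (nat_lit 188) (nat_lit 0) (nat_lit 0) (XT.nd (nat_lit 94) (nat_lit 0) (nat_lit 0) (XT.lf (nat_lit 0) (nat_lit 744593357471) (nat_lit 0) (nat_lit 0) (nat_lit 0) (nat_lit 0) (nat_lit 0) (nat_lit 0) (nat_lit 1) (nat_lit 0) (nat_lit 1) (nat_lit 0) (nat_lit 393) (nat_lit 445) (nat_lit 242)) (XT.lf (nat_lit 0) (nat_lit 744593348423) (nat_lit 0) (nat_lit 0) (nat_lit 0) (nat_lit 0) (nat_lit 0) (nat_lit 0) (nat_lit 1) (nat_lit 0) (nat_lit 1) (nat_lit 0) (nat_lit 394) (nat_lit 445) (nat_lit 241))) (XT.nd (nat_lit 94) (nat_lit 0) (nat_lit 0) (XT.lf (nat_lit 0) (nat_lit 744593340045) (nat_lit 0) (nat_lit 0) (nat_lit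 0) (nat_lit 0) (nat_lit 0) (nat_lit 0) (nat_lit 1) (nat_lit 0) (nat_lit 1) (nat_lit 0) (nat_lit 395) (nat_lit 445) (nat_lit 240)) (XT.nd (nat_lit 94) (nat_lit 0) (nat_lit 0) (XT.lf (nat_lit 0) (nat_lit 744593332287) (nat_lit 0) (nat_lit 0) (nat_lit 0) (nat_lit 0) (nat_lit 0) (nat_lit 0) (nat_lit 1) (nat_lit 0) (nat_lit 1) (nat_lit 0) (nat_lit 396) (nat_lit 445) (nat_lit 239)) (XT.lf (nat_lit 0) (nat_lit 744593325105) (nat_lit 0) (nat_lit 0) (nat_lit 0) (nat_lit 0) (nat_lit 0) (nat_lit 0) (nat_lit 1) (nat_lit 0) (nat_lit 1) (nat_lit 0) (nat_lit 397) (nat_lit 445) (nat_lit 238)))))) (XT.nd (nat_lit 470) (nat_lit 0) (nat_lit 0) (XT.nd (nat_lit 188) (nat_lit 0) (nat_lit 0) (XT.nd (nat_lit 94) (nat_lit 0) (nat_lit 0) (XT.lf (nat_lit 0) (nat_lit 744593318454) (nat_lit 0) (nat_lit 0) (nat_lit 0) (nat_lit 0) (nat_lit 0) (nat_lit 0) (nat_lit 1) (nat_lit 0) (nat_lit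 1) (nat_lit 0) (nat_lit 398) (nat_lit 445) (nat_lit 237)) (XT.lf (nat_lit 0) (nat_lit 744593312296) (nat_lit 0) (nat_lit 0) (nat_lit 0) (nat_lit 0) (nat_lit 0) (nat_lit 0) (nat_lit 1) (nat_lit 0) (nat_lit 1) (nat_lit 0) (nat_lit 399) (nat_lit 445) (nat_lit 236))) (XT.nd (nat_lit 94) (nat_lit 0) (nat_lit 0) (XT.lf (nat_lit 0) (nat_lit 744593306594) (nat_lit 0) (nat_lit 0) (nat_lit 0) (nat_lit 0) (nat_lit 0) (nat_lit 0) (nat_lit 1) (nat_lit 0) (nat_lit 1) (nat_lit 0) (nat_lit 400) (nat_lit 445) (nat_lit 235)) (XT.nd (nat_lit 94) (nat_lit 0) (nat_lit 0) (XT.lf (nat_lit 0) (nat_lit 744593301314) (nat_lit 0) (nat_lit 0) (nat_lit 0) (nat_lit 0) (nat_lit 0) (nat_lit 0) (nat_lit 1) (nat_lit 0) (nat_lit 1) (nat_lit 0) (nat_lit 401) (nat_lit 445) (nat_lit 234)) (XT.lf (nat_lit 0) (nat_lit 744593296426) (nat_lit 0) (nat_lit 0) (nat_lit 0) (nat_lit 0) (nat_lit 0) (nat_lit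 0) (nat_lit 1) (nat_lit 0) (nat_lit 1) (nat_lit 0) (nat_lit 402) (nat_lit 445) (nat_lit 233))))) (XT.nd (nat_lit 188) (nat_lit 0) (nat_lit 0) (XT.nd (nat_lit 94) (nat_lit 0) (nat_lit 0) (XT.lf (nat_lit 0) (nat_lit 744593291900) (nat_lit 0) (nat_lit 0) (nat_lit 0) (nat_lit 0) (nat_lit 0) (nat_lit 0) (nat_lit 1) (nat_lit 0) (nat_lit 1) (nat_lit 0) (nat_lit 403) (nat_lit 445) (nat_lit 232)) (XT.lf (nat_lit 0) (nat_lit 744593287708) (nat_lit 0) (nat_lit 0) (nat_lit 0) (nat_lit 0) (nat_lit 0) (nat_lit 0) (nat_lit 1) (nat_lit 0) (nat_lit 1) (nat_lit 0) (nat_lit 404) (nat_lit 445) (nat_lit 231))) (XT.nd (nat_lit 94) (nat_lit 0) (nat_lit 0) (XT.lf (nat_lit 0) (nat_lit 744593283828) (nat_lit 0) (nat_lit 0) (nat_lit 0) (nat_lit 0) (nat_lit 0) (nat_lit 0) (nat_lit 1) (nat_lit 0) (nat_lit 1) (nat_lit 0) (nat_lit 405) (nat_lit 445) (nat_lit 230)) (XT.nd (nat_lit 94) (nat_lit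 0) (nat_lit 0) (XT.lf (nat_lit 0) (nat_lit 744593280235) (nat_lit 0) (nat_lit 0) (nat_lit 0) (nat_lit 0) (nat_lit 0) (nat_lit 0) (nat_lit 1) (nat_lit 0) (nat_lit 1) (nat_lit 0) (nat_lit 406) (nat_lit 445) (nat_lit 229)) (XT.lf (nat_lit 0) (nat_lit 744593276908) (nat_lit 0) (nat_lit 0) (nat_lit 0) (nat_lit 0) (nat_lit 0) (nat_lit 0) (nat_lit 1) (nat_lit 0) (nat_lit 1) (nat_lit 0) (nat_lit 407) (nat_lit 445) (nat_lit 228))))))) (XT.nd (nat_lit 846) (nat_lit 0) (nat_lit 0) (XT.nd (nat_lit 376) (nat_lit 0) (nat_lit 0) (XT.nd (nat_lit 188) (nat_lit 0) (nat_lit 0) (XT.nd (nat_lit 94) (nat_lit 0) (nat_lit 0) (XT.lf (nat_lit 0) (nat_lit 744593273827) (nat_lit 0) (nat_lit 0) (nat_lit 0) (nat_lit 0) (nat_lit 0) (nat_lit 0) (nat_lit 1) (nat_lit 0) (nat_lit 1) (nat_lit 0) (nat_lit 408) (nat_lit 445) (nat_lit 227)) (XT.lf (nat_lit 0) (nat_lit 744593270975) (nat_lit 0)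 (nat_lit 0) (nat_lit 0) (nat_lit 0) (nat_lit 0) (nat_lit 0) (nat_lit 1) (nat_lit 0) (nat_lit 1) (nat_lit 0) (nat_lit 409) (nat_lit 445) (nat_lit 226))) (XT.nd (nat_lit 94) (nat_lit 0) (nat_lit 0) (XT.lf (nat_lit 0) (nat_lit 744593268334) (nat_lit 0) (nat_lit 0) (nat_lit 0) (nat_lit 0) (nat_lit 0) (nat_lit 0) (nat_lit 1) (nat_lit 0) (nat_lit 1) (nat_lit 0) (nat_lit 410) (nat_lit 445) (nat_lit 225)) (XT.lf (nat_lit 0) (nat_lit 744593265888) (nat_lit 0) (nat_lit 0) (nat_lit 0) (nat_lit 0) (nat_lit 0) (nat_lit 0) (nat_lit 1) (nat_lit 0) (nat_lit 1) (nat_lit 0) (nat_lit 411) (nat_lit 445) (nat_lit 224)))) (XT.nd (nat_lit 188) (nat_lit 0) (nat_lit 0) (XT.nd (nat_lit 94) (nat_lit 0) (nat_lit 0) (XT.lf (nat_lit 0) (nat_lit 744593263624) (nat_lit 0) (nat_lit 0) (nat_lit 0) (nat_lit 0) (nat_lit 0) (nat_lit 0) (nat_lit 1) (nat_lit 0) (nat_lit 1) (nat_lit 0) (nat_lit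 412) (nat_lit 445) (nat_lit 223)) (XT.lf (nat_lit 0) (nat_lit 744593261527) (nat_lit 0) (nat_lit 0) (nat_lit 0) (nat_lit 0) (nat_lit 0) (nat_lit 0) (nat_lit 1) (nat_lit 0) (nat_lit 1) (nat_lit 0) (nat_lit 413) (nat_lit 445) (nat_lit 222))) (XT.nd (nat_lit 94) (nat_lit 0) (nat_lit 0) (XT.lf (nat_lit 0) (nat_lit 744593259586) (nat_lit 0) (nat_lit 0) (nat_lit 0) (nat_lit 0) (nat_lit 0) (nat_lit 0) (nat_lit 1) (nat_lit 0) (nat_lit 1) (nat_lit 0) (nat_lit 414) (nat_lit 445) (nat_lit 221)) (XT.nd (nat_lit 94) (nat_lit 0) (nat_lit 0) (XT.lf (nat_lit 0) (nat_lit 744593257789) (nat_lit 0) (nat_lit 0) (nat_lit 0) (nat_lit 0) (nat_lit 0) (nat_lit 0) (nat_lit 1) (nat_lit 0) (nat_lit 1) (nat_lit 0) (nat_lit 415) (nat_lit 445) (nat_lit 220)) (XT.lf (nat_lit 0) (nat_lit 744593256124) (nat_lit 0) (nat_lit 0) (nat_lit 0) (nat_lit 0) (nat_lit 0) (nat_lit 0) (nat_lit 1) (nat_lit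 0) (nat_lit 1) (nat_lit 0) (nat_lit 416) (nat_lit 445) (nat_lit 219)))))) (XT.nd (nat_lit 470) (nat_lit 0) (nat_lit 0) (XT.nd (nat_lit 188) (nat_lit 0) (nat_lit 0) (XT.nd (nat_lit 94) (nat_lit 0) (nat_lit 0) (XT.lf (nat_lit 0) (nat_lit 744593254583) (nat_lit 0) (nat_lit 0) (nat_lit 0) (nat_lit 0) (nat_lit 0) (nat_lit 0) (nat_lit 1) (nat_lit 0) (nat_lit 1) (nat_lit 0) (nat_lit 417) (nat_lit 445) (nat_lit 218)) (XT.lf (nat_lit 0) (nat_lit 744593253156) (nat_lit 0) (nat_lit 0) (nat_lit 0) (nat_lit 0) (nat_lit 0) (nat_lit 0) (nat_lit 1) (nat_lit 0) (nat_lit 1) (nat_lit 0) (nat_lit 418) (nat_lit 445) (nat_lit 217))) (XT.nd (nat_lit 94) (nat_lit 0) (nat_lit 0) (XT.lf (nat_lit 0) (nat_lit 744593251835) (nat_lit 0) (nat_lit 0) (nat_lit 0) (nat_lit 0) (nat_lit 0) (nat_lit 0) (nat_lit 1) (nat_lit 0) (nat_lit 1) (nat_lit 0) (nat_lit 419) (nat_lit 445) (nat_lit 216))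 (XT.nd (nat_lit 94) (nat_lit 0) (nat_lit 0) (XT.lf (nat_lit 0) (nat_lit 744593250612) (nat_lit 0) (nat_lit 0) (nat_lit 0) (nat_lit 0) (nat_lit 0) (nat_lit 0) (nat_lit 1) (nat_lit 0) (nat_lit 1) (nat_lit 0) (nat_lit 420) (nat_lit 445) (nat_lit 215)) (XT.lf (nat_lit 0) (nat_lit 744593249479) (nat_lit 0) (nat_lit 0) (nat_lit 0) (nat_lit 0) (nat_lit 0) (nat_lit 0) (nat_lit 1) (nat_lit 0) (nat_lit 1) (nat_lit 0) (nat_lit 421) (nat_lit 445) (nat_lit 214))))) (XT.nd (nat_lit 188) (nat_lit 0) (nat_lit 0) (XT.nd (nat_lit 94) (nat_lit 0) (nat_lit 0) (XT.lf (nat_lit 0) (nat_lit 744593248430) (nat_lit 0) (nat_lit 0) (nat_lit 0) (nat_lit 0) (nat_lit 0) (nat_lit 0) (nat_lit 1) (nat_lit 0) (nat_lit 1) (nat_lit 0) (nat_lit 422) (nat_lit 445) (nat_lit 213)) (XT.lf (nat_lit 0) (nat_lit 744593247459) (nat_lit 0) (nat_lit 0) (nat_lit 0) (nat_lit 0) (nat_lit 0) (nat_lit 0) (nat_lit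 1) (nat_lit 0) (nat_lit 1) (nat_lit 0) (nat_lit 423) (nat_lit 445) (nat_lit 212))) (XT.nd (nat_lit 94) (nat_lit 0) (nat_lit 0) (XT.lf (nat_lit 0) (nat_lit 744593246560) (nat_lit 0) (nat_lit 0) (nat_lit 0) (nat_lit 0) (nat_lit 0) (nat_lit 0) (nat_lit 1) (nat_lit 0) (nat_lit 1) (nat_lit 0) (nat_lit 424) (nat_lit 445) (nat_lit 211)) (XT.nd (nat_lit 94) (nat_lit 0) (nat_lit 0) (XT.lf (nat_lit 0) (nat_lit 744593245727) (nat_lit 0) (nat_lit 0) (nat_lit 0) (nat_lit 0) (nat_lit 0) (nat_lit 0) (nat_lit 1) (nat_lit 0) (nat_lit 1) (nat_lit 0) (nat_lit 425) (nat_lit 445) (nat_lit 210)) (XT.lf (nat_lit 0) (nat_lit 744593244956) (nat_lit 0) (nat_lit 0) (nat_lit 0) (nat_lit 0) (nat_lit 0) (nat_lit 0) (nat_lit 1) (nat_lit 0) (nat_lit 1) (nat_lit 0) (nat_lit 426) (nat_lit 445) (nat_lit 209))))))))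
noncomputable def ec406 : XT := (XT.nd (nat_lit 1692) (nat_lit 0) (nat_lit 0) (XT.nd (nat_lit 846) (nat_lit 0) (nat_lit 0) (XT.nd (nat_lit 376) (nat_lit 0) (nat_lit 0) (XT.nd (nat_lit 188) (nat_lit 0) (nat_lit 0) (XT.nd (nat_lit 94) (nat_lit 0) (nat_lit 0) (XT.lf (nat_lit 0) (nat_lit 744593244243) (nat_lit 0) (nat_lit 0) (nat_lit 0) (nat_lit 0) (nat_lit 0) (nat_lit 0) (nat_lit 1) (nat_lit 0) (nat_lit 1) (nat_lit 0) (nat_lit 427) (nat_lit 445) (nat_lit 208)) (XT.lf (nat_lit 0) (nat_lit 744593243582) (nat_lit 0) (nat_lit 0) (nat_lit 0) (nat_lit 0) (nat_lit 0) (nat_lit 0) (nat_lit 1) (nat_lit 0) (nat_lit 1) (nat_lit 0) (nat_lit 428) (nat_lit 445) (nat_lit 207))) (XT.nd (nat_lit 94) (nat_lit 0) (nat_lit 0) (XT.lf (nat_lit 0) (nat_lit 744593242970) (nat_lit 0) (nat_lit 0) (nat_lit 0) (nat_lit 0) (nat_lit 0) (nat_lit 0) (nat_lit 1) (nat_lit 0) (nat_lit 1) (nat_lit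 0) (nat_lit 429) (nat_lit 445) (nat_lit 206)) (XT.lf (nat_lit 0) (nat_lit 744593242403) (nat_lit 0) (nat_lit 0) (nat_lit 0) (nat_lit 0) (nat_lit 0) (nat_lit 0) (nat_lit 1) (nat_lit 0) (nat_lit 1) (nat_lit 0) (nat_lit 430) (nat_lit 445) (nat_lit 205)))) (XT.nd (nat_lit 188) (nat_lit 0) (nat_lit 0) (XT.nd (nat_lit 94) (nat_lit 0) (nat_lit 0) (XT.lf (nat_lit 0) (nat_lit 744593241878) (nat_lit 0) (nat_lit 0) (nat_lit 0) (nat_lit 0) (nat_lit 0) (nat_lit 0) (nat_lit 1) (nat_lit 0) (nat_lit 1) (nat_lit 0) (nat_lit 431) (nat_lit 445) (nat_lit 204)) (XT.lf (nat_lit 0) (nat_lit 744593241393) (nat_lit 0) (nat_lit 0) (nat_lit 0) (nat_lit 0) (nat_lit 0) (nat_lit 0) (nat_lit 1) (nat_lit 0) (nat_lit 1) (nat_lit 0) (nat_lit 432) (nat_lit 445) (nat_lit 203))) (XT.nd (nat_lit 94) (nat_lit 0) (nat_lit 0) (XT.lf (nat_lit 0) (nat_lit 744593240943) (nat_lit 0) (nat_lit 0) (nat_lit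 0) (nat_lit 0) (nat_lit 0) (nat_lit 0) (nat_lit 1) (nat_lit 0) (nat_lit 1) (nat_lit 0) (nat_lit 433) (nat_lit 445) (nat_lit 202)) (XT.nd (nat_lit 94) (nat_lit 0) (nat_lit 0) (XT.lf (nat_lit 0) (nat_lit 744593240526) (nat_lit 0) (nat_lit 0) (nat_lit 0) (nat_lit 0) (nat_lit 0) (nat_lit 0) (nat_lit 1) (nat_lit 0) (nat_lit 1) (nat_lit 0) (nat_lit 434) (nat_lit 445) (nat_lit 201)) (XT.lf (nat_lit 0) (nat_lit 744593240141) (nat_lit 0) (nat_lit 0) (nat_lit 0) (nat_lit 0) (nat_lit 0) (nat_lit 0) (nat_lit 1) (nat_lit 0) (nat_lit 1) (nat_lit 0) (nat_lit 435) (nat_lit 445) (nat_lit 200)))))) (XT.nd (nat_lit 376) (nat_lit 0) (nat_lit 0) (XT.nd (nat_lit 188) (nat_lit 0) (nat_lit 0) (XT.nd (nat_lit 94) (nat_lit 0) (nat_lit 0) (XT.lf (nat_lit 0) (nat_lit 744593239784) (nat_lit 0) (nat_lit 0) (nat_lit 0) (nat_lit 0) (nat_lit 0) (nat_lit 0) (nat_lit 1) (nat_lit 0) (nat_lit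 1) (nat_lit 0) (nat_lit 436) (nat_lit 445) (nat_lit 199)) (XT.lf (nat_lit 0) (nat_lit 744593239453) (nat_lit 0) (nat_lit 0) (nat_lit 0) (nat_lit 0) (nat_lit 0) (nat_lit 0) (nat_lit 1) (nat_lit 0) (nat_lit 1) (nat_lit 0) (nat_lit 437) (nat_lit 445) (nat_lit 198))) (XT.nd (nat_lit 94) (nat_lit 0) (nat_lit 0) (XT.lf (nat_lit 0) (nat_lit 744593239147) (nat_lit 0) (nat_lit 0) (nat_lit 0) (nat_lit 0) (nat_lit 0) (nat_lit 0) (nat_lit 1) (nat_lit 0) (nat_lit 1) (nat_lit 0) (nat_lit 438) (nat_lit 445) (nat_lit 197)) (XT.lf (nat_lit 0) (nat_lit 744593238863) (nat_lit 0) (nat_lit 0) (nat_lit 0) (nat_lit 0) (nat_lit 0) (nat_lit 0) (nat_lit 1) (nat_lit 0) (nat_lit 1) (nat_lit 0) (nat_lit 439) (nat_lit 445) (nat_lit 196)))) (XT.nd (nat_lit 188) (nat_lit 0) (nat_lit 0) (XT.nd (nat_lit 94) (nat_lit 0) (nat_lit 0) (XT.lf (nat_lit 0) (nat_lit 744593238601) (nat_lit 0) (nat_lit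 0) (nat_lit 0) (nat_lit 0) (nat_lit 0) (nat_lit 0) (nat_lit 1) (nat_lit 0) (nat_lit 1) (nat_lit 0) (nat_lit 440) (nat_lit 445) (nat_lit 195)) (XT.lf (nat_lit 0) (nat_lit 744593238358) (nat_lit 0) (nat_lit 0) (nat_lit 0) (nat_lit 0) (nat_lit 0) (nat_lit 0) (nat_lit 1) (nat_lit 0) (nat_lit 1) (nat_lit 0) (nat_lit 441) (nat_lit 445) (nat_lit 194))) (XT.nd (nat_lit 94) (nat_lit 0) (nat_lit 0) (XT.lf (nat_lit 0) (nat_lit 744593238133) (nat_lit 0) (nat_lit 0) (nat_lit 0) (nat_lit 0) (nat_lit 0) (nat_lit 0) (nat_lit 1) (nat_lit 0) (nat_lit 1) (nat_lit 0) (nat_lit 442) (nat_lit 445) (nat_lit 193)) (XT.nd (nat_lit 94) (nat_lit 0) (nat_lit 0) (XT.lf (nat_lit 0) (nat_lit 744593237924) (nat_lit 0) (nat_lit 0) (nat_lit 0) (nat_lit 0) (nat_lit 0) (nat_lit 0) (nat_lit 1) (nat_lit 0) (nat_lit 1) (nat_lit 0) (nat_lit 443) (nat_lit 445) (nat_lit 192)) (XT.lf (nat_lit 0) (nat_lit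 744593237732) (nat_lit 0) (nat_lit 0) (nat_lit 0) (nat_lit 0) (nat_lit 0) (nat_lit 0) (nat_lit 1) (nat_lit 0) (nat_lit 1) (nat_lit 0) (nat_lit 444) (nat_lit 445) (nat_lit 191))))))) (XT.nd (nat_lit 43992) (nat_lit 0) (nat_lit 8148) (XT.nd (nat_lit 376) (nat_lit 0) (nat_lit 0) (XT.nd (nat_lit 188) (nat_lit 0) (nat_lit 0) (XT.nd (nat_lit 94) (nat_lit 0) (nat_lit 0) (XT.lf (nat_lit 0) (nat_lit 744593237553) (nat_lit 0) (nat_lit 0) (nat_lit 0) (nat_lit 0) (nat_lit 0) (nat_lit 0) (nat_lit 1) (nat_lit 0) (nat_lit 1) (nat_lit 0) (nat_lit 445) (nat_lit 445) (nat_lit 190)) (XT.lf (nat_lit 0) (nat_lit 744593237388) (nat_lit 0) (nat_lit 0) (nat_lit 0) (nat_lit 0) (nat_lit 0) (nat_lit 0) (nat_lit 1) (nat_lit 0) (nat_lit 1) (nat_lit 0) (nat_lit 446) (nat_lit 445) (nat_lit 189))) (XT.nd (nat_lit 94) (nat_lit 0) (nat_lit 0) (XT.lf (nat_lit 0) (nat_lit 744593237234) (nat_lit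 0) (nat_lit 0) (nat_lit 0) (nat_lit 0) (nat_lit 0) (nat_lit 0) (nat_lit 1) (nat_lit 0) (nat_lit 1) (nat_lit 0) (nat_lit 447) (nat_lit 445) (nat_lit 188)) (XT.lf (nat_lit 0) (nat_lit 744593237093) (nat_lit 0) (nat_lit 0) (nat_lit 0) (nat_lit 0) (nat_lit 0) (nat_lit 0) (nat_lit 1) (nat_lit 0) (nat_lit 1) (nat_lit 0) (nat_lit 448) (nat_lit 445) (nat_lit 187)))) (XT.nd (nat_lit 43334) (nat_lit 0) (nat_lit 10836) (XT.nd (nat_lit 43240) (nat_lit 0) (nat_lit 10752) (XT.lf (nat_lit 0) (nat_lit 744593236961) (nat_lit 0) (nat_lit 0) (nat_lit 0) (nat_lit 0) (nat_lit 0) (nat_lit 0) (nat_lit 1) (nat_lit 0) (nat_lit 1) (nat_lit 0) (nat_lit 449) (nat_lit 445) (nat_lit 186)) (XT.lf (nat_lit 924) (nat_lit 402432133280) (nat_lit 0) (nat_lit 714517327613) (nat_lit 924) (nat_lit 402432133280) (nat_lit 139) (nat_lit 1) (nat_lit 128) (nat_lit 0) (nat_lit 139) (nat_lit 0) (nat_lit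 188) (nat_lit 446) (nat_lit 446))) (XT.nd (nat_lit 94) (nat_lit 0) (nat_lit 0) (XT.lf (nat_lit 924) (nat_lit 150119533996) (nat_lit 0) (nat_lit 1402814067350) (nat_lit 840) (nat_lit 1371947471170) (nat_lit 140) (nat_lit 1) (nat_lit 129) (nat_lit 1) (nat_lit 139) (nat_lit 1) (nat_lit 189) (nat_lit 446) (nat_lit 445)) (XT.nd (nat_lit 94) (nat_lit 0) (nat_lit 84) (XT.lf (nat_lit 924) (nat_lit 1378761269508) (nat_lit 84) (nat_lit 939465053762) (nat_lit 0) (nat_lit 498249409782) (nat_lit 140) (nat_lit 1) (nat_lit 130) (nat_lit 1) (nat_lit 129) (nat_lit 1) (nat_lit 190) (nat_lit 446) (nat_lit 444)) (XT.lf (nat_lit 924) (nat_lit 1191362686605) (nat_lit 84) (nat_lit 393723292275) (nat_lit 0) (nat_lit 1128409292858) (nat_lit 141) (nat_lit 1) (nat_lit 131) (nat_lit 1) (nat_lit 130) (nat_lit 1) (nat_lit 191) (nat_lit 446) (nat_lit 443)))))) (XT.nd (nat_lit 470) (nat_lit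 1596) (nat_lit 0) (XT.nd (nat_lit 188) (nat_lit 1260) (nat_lit 0) (XT.nd (nat_lit 94) (nat_lit 0) (nat_lit 84) (XT.lf (nat_lit 924) (nat_lit 881709674226) (nat_lit 0) (nat_lit 1649637123864) (nat_lit 840) (nat_lit 84329214086) (nat_lit 142) (nat_lit 1) (nat_lit 131) (nat_lit 1) (nat_lit 141) (nat_lit 1) (nat_lit 192) (nat_lit 446) (nat_lit 442)) (XT.lf (nat_lit 924) (nat_lit 211557591405) (nat_lit 0) (nat_lit 1819183216026) (nat_lit 840) (nat_lit 491787499558) (nat_lit 143) (nat_lit 1) (nat_lit 132) (nat_lit 1) (nat_lit 142) (nat_lit 1) (nat_lit 193) (nat_lit 446) (nat_lit 441))) (XT.nd (nat_lit 94) (nat_lit 1344) (nat_lit 0) (XT.lf (nat_lit 924) (nat_lit 406527642925) (nat_lit 84) (nat_lit 1581018357173) (nat_lit 0) (nat_lit 446182886456) (nat_lit 143) (nat_lit 1) (nat_lit 133) (nat_lit 1) (nat_lit 132) (nat_lit 1) (nat_lit 194) (nat_lit 446) (nat_lit 440))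 (XT.nd (nat_lit 94) (nat_lit 588) (nat_lit 0) (XT.lf (nat_lit 924) (nat_lit 83491507783) (nat_lit 0) (nat_lit 1181915802332) (nat_lit 840) (nat_lit 1083804406817) (nat_lit 134) (nat_lit 1) (nat_lit 123) (nat_lit 1) (nat_lit 133) (nat_lit 1) (nat_lit 195) (nat_lit 446) (nat_lit 439)) (XT.lf (nat_lit 84) (nat_lit 578112591861) (nat_lit 0) (nat_lit 250523089234) (nat_lit 588) (nat_lit 1440060672586) (nat_lit 117) (nat_lit 1) (nat_lit 116) (nat_lit 1) (nat_lit 123) (nat_lit 1) (nat_lit 196) (nat_lit 446) (nat_lit 438))))) (XT.nd (nat_lit 188) (nat_lit 756) (nat_lit 0) (XT.nd (nat_lit 94) (nat_lit 420) (nat_lit 0) (XT.lf (nat_lit 504) (nat_lit 1593205537983) (nat_lit 0) (nat_lit 518622749352) (nat_lit 420) (nat_lit 80182281571) (nat_lit 117) (nat_lit 1) (nat_lit 111) (nat_lit 1) (nat_lit 116) (nat_lit 1) (nat_lit 197) (nat_lit 446) (nat_lit 437)) (XT.lf (nat_lit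 504) (nat_lit 1149672287862) (nat_lit 0) (nat_lit 241732297515) (nat_lit 420) (nat_lit 727217550376) (nat_lit 112) (nat_lit 1) (nat_lit 106) (nat_lit 1) (nat_lit 111) (nat_lit 1) (nat_lit 198) (nat_lit 446) (nat_lit 436))) (XT.nd (nat_lit 94) (nat_lit 420) (nat_lit 0) (XT.lf (nat_lit 420) (nat_lit 699560924315) (nat_lit 0) (nat_lit 4450684433) (nat_lit 336) (nat_lit 1344780539407) (nat_lit 107) (nat_lit 1) (nat_lit 102) (nat_lit 1) (nat_lit 106) (nat_lit 1) (nat_lit 199) (nat_lit 446) (nat_lit 435)) (XT.nd (nat_lit 94) (nat_lit 420) (nat_lit 0) (XT.lf (nat_lit 84) (nat_lit 51610298879) (nat_lit 0) (nat_lit 1740549360237) (nat_lit 420) (nat_lit 190014805551) (nat_lit 103) (nat_lit 1) (nat_lit 102) (nat_lit 1) (nat_lit 107) (nat_lit 1) (nat_lit 200) (nat_lit 446) (nat_lit 434)) (XT.lf (nat_lit 84) (nat_lit 1332591303234) (nat_lit 0) (nat_lit 221024526281) (nat_lit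 420) (nat_lit 364509584935) (nat_lit 98) (nat_lit 1) (nat_lit 97) (nat_lit 1) (nat_lit 102) (nat_lit 1) (nat_lit 201) (nat_lit 446) (nat_lit 433))))))))
noncomputable def ec407 : XT := (XT.nd (nat_lit 1786) (nat_lit 2772) (nat_lit 0) (XT.nd (nat_lit 846) (nat_lit 1932) (nat_lit 0) (XT.nd (nat_lit 376) (nat_lit 1260) (nat_lit 0) (XT.nd (nat_lit 188) (nat_lit 672) (nat_lit 0) (XT.nd (nat_lit 94) (nat_lit 336) (nat_lit 0) (XT.lf (nat_lit 84) (nat_lit 666729197735) (nat_lit 0) (nat_lit 677037359440) (nat_lit 420) (nat_lit 513139820664) (nat_lit 94) (nat_lit 1) (nat_lit 93) (nat_lit 1) (nat_lit 98) (nat_lit 1) (nat_lit 202) (nat_lit 446) (nat_lit 432)) (XT.lf (nat_lit 84) (nat_lit 32908274754) (nat_lit 0) (nat_lit 1131995952087) (nat_lit 420) (nat_lit 633681633446) (nat_lit 90) (nat_lit 1) (nat_lit 89) (nat_lit 1) (nat_lit 94) (nat_lit 1) (nat_lit 203) (nat_lit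 446) (nat_lit 431))) (XT.nd (nat_lit 94) (nat_lit 420) (nat_lit 0) (XT.lf (nat_lit 336) (nat_lit 148611914088) (nat_lit 0) (nat_lit 1004991239006) (nat_lit 252) (nat_lit 588947963276) (nat_lit 90) (nat_lit 1) (nat_lit 86) (nat_lit 1) (nat_lit 89) (nat_lit 1) (nat_lit 204) (nat_lit 446) (nat_lit 430)) (XT.lf (nat_lit 84) (nat_lit 513494118932) (nat_lit 0) (nat_lit 351952059829) (nat_lit 420) (nat_lit 823385090554) (nat_lit 82) (nat_lit 1) (nat_lit 81) (nat_lit 1) (nat_lit 86) (nat_lit 1) (nat_lit 205) (nat_lit 446) (nat_lit 429)))) (XT.nd (nat_lit 188) (nat_lit 756) (nat_lit 0) (XT.nd (nat_lit 94) (nat_lit 252) (nat_lit 0) (XT.lf (nat_lit 336) (nat_lit 795012407460) (nat_lit 0) (nat_lit 746811403874) (nat_lit 252) (nat_lit 95590973360) (nat_lit 82) (nat_lit 1) (nat_lit 78) (nat_lit 1) (nat_lit 81) (nat_lit 1) (nat_lit 206) (nat_lit 446) (nat_lit 428)) (XT.lf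 (nat_lit 336) (nat_lit 254797635837) (nat_lit 0) (nat_lit 642974037108) (nat_lit 252) (nat_lit 690202576990) (nat_lit 79) (nat_lit 1) (nat_lit 75) (nat_lit 1) (nat_lit 78) (nat_lit 1) (nat_lit 207) (nat_lit 446) (nat_lit 427))) (XT.nd (nat_lit 94) (nat_lit 420) (nat_lit 0) (XT.lf (nat_lit 84) (nat_lit 290407737537) (nat_lit 0) (nat_lit 265893520708) (nat_lit 336) (nat_lit 984285815432) (nat_lit 72) (nat_lit 1) (nat_lit 71) (nat_lit 1) (nat_lit 75) (nat_lit 1) (nat_lit 208) (nat_lit 446) (nat_lit 426)) (XT.nd (nat_lit 94) (nat_lit 168) (nat_lit 0) (XT.lf (nat_lit 336) (nat_lit 722641538939) (nat_lit 0) (nat_lit 480818900987) (nat_lit 252) (nat_lit 291473998632) (nat_lit 72) (nat_lit 1) (nat_lit 68) (nat_lit 1) (nat_lit 71) (nat_lit 1) (nat_lit 209) (nat_lit 446) (nat_lit 425)) (XT.lf (nat_lit 252) (nat_lit 179143904532) (nat_lit 0) (nat_lit 419479420084) (nat_lit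 168) (nat_lit 852500233491) (nat_lit 69) (nat_lit 1) (nat_lit 66) (nat_lit 1) (nat_lit 68) (nat_lit 1) (nat_lit 210) (nat_lit 446) (nat_lit 424)))))) (XT.nd (nat_lit 470) (nat_lit 840) (nat_lit 0) (XT.nd (nat_lit 188) (nat_lit 588) (nat_lit 0) (XT.nd (nat_lit 94) (nat_lit 168) (nat_lit 0) (XT.lf (nat_lit 84) (nat_lit 30348121938) (nat_lit 0) (nat_lit 339602072735) (nat_lit 336) (nat_lit 1039060708123) (nat_lit 63) (nat_lit 1) (nat_lit 62) (nat_lit 1) (nat_lit 66) (nat_lit 1) (nat_lit 211) (nat_lit 446) (nat_lit 423)) (XT.lf (nat_lit 252) (nat_lit 520559315979) (nat_lit 0) (nat_lit 325304913788) (nat_lit 168) (nat_lit 522370867637) (nat_lit 63) (nat_lit 1) (nat_lit 60) (nat_lit 1) (nat_lit 62) (nat_lit 1) (nat_lit 212) (nat_lit 446) (nat_lit 422))) (XT.nd (nat_lit 94) (nat_lit 336) (nat_lit 0) (XT.lf (nat_lit 84) (nat_lit 282433730543) (nat_lit 0) (nat_lit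 13045791084) (nat_lit 252) (nat_lit 1033759086029) (nat_lit 58) (nat_lit 1) (nat_lit 57) (nat_lit 1) (nat_lit 60) (nat_lit 1) (nat_lit 213) (nat_lit 446) (nat_lit 421)) (XT.nd (nat_lit 94) (nat_lit 168) (nat_lit 0) (XT.lf (nat_lit 252) (nat_lit 772119280051) (nat_lit 0) (nat_lit 267556642904) (nat_lit 168) (nat_lit 251700575080) (nat_lit 58) (nat_lit 1) (nat_lit 55) (nat_lit 1) (nat_lit 57) (nat_lit 1) (nat_lit 214) (nat_lit 446) (nat_lit 420)) (XT.lf (nat_lit 252) (nat_lit 239851189364) (nat_lit 0) (nat_lit 248723486443) (nat_lit 168) (nat_lit 766387346767) (nat_lit 56) (nat_lit 1) (nat_lit 53) (nat_lit 1) (nat_lit 55) (nat_lit 1) (nat_lit 215) (nat_lit 446) (nat_lit 419))))) (XT.nd (nat_lit 188) (nat_lit 420) (nat_lit 0) (XT.nd (nat_lit 94) (nat_lit 168) (nat_lit 0) (XT.lf (nat_lit 252) (nat_lit 952121073983) (nat_lit 0) (nat_lit 237635103639) (nat_lit 168)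 (nat_lit 30146769861) (nat_lit 53) (nat_lit 1) (nat_lit 50) (nat_lit 1) (nat_lit 52) (nat_lit 1) (nat_lit 216) (nat_lit 446) (nat_lit 418)) (XT.lf (nat_lit 252) (nat_lit 426125265634) (nat_lit 0) (nat_lit 226861406078) (nat_lit 168) (nat_lit 532831381717) (nat_lit 51) (nat_lit 1) (nat_lit 48) (nat_lit 1) (nat_lit 50) (nat_lit 1) (nat_lit 217) (nat_lit 446) (nat_lit 417))) (XT.nd (nat_lit 94) (nat_lit 252) (nat_lit 0) (XT.lf (nat_lit 84) (nat_lit 145964355717) (nat_lit 0) (nat_lit 80228587250) (nat_lit 168) (nat_lit 926953969737) (nat_lit 47) (nat_lit 1) (nat_lit 46) (nat_lit 1) (nat_lit 48) (nat_lit 1) (nat_lit 218) (nat_lit 446) (nat_lit 416)) (XT.nd (nat_lit 94) (nat_lit 84) (nat_lit 0) (XT.lf (nat_lit 252) (nat_lit 559100855275) (nat_lit 0) (nat_lit 223797811481) (nat_lit 168) (nat_lit 338401530395) (nat_lit 47) (nat_lit 1) (nat_lit 44) (nat_lit 1) (nat_lit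 46) (nat_lit 1) (nat_lit 219) (nat_lit 446) (nat_lit 415)) (XT.lf (nat_lit 168) (nat_lit 60207217391) (nat_lit 0) (nat_lit 229294574938) (nat_lit 84) (nat_lit 801208956616) (nat_lit 45) (nat_lit 1) (nat_lit 43) (nat_lit 1) (nat_lit 44) (nat_lit 1) (nat_lit 220) (nat_lit 446) (nat_lit 414))))))) (XT.nd (nat_lit 846) (nat_lit 1260) (nat_lit 0) (XT.nd (nat_lit 376) (nat_lit 840) (nat_lit 0) (XT.nd (nat_lit 188) (nat_lit 336) (nat_lit 0) (XT.nd (nat_lit 94) (nat_lit 84) (nat_lit 0) (XT.lf (nat_lit 252) (nat_lit 649914683501) (nat_lit 0) (nat_lit 234507162119) (nat_lit 168) (nat_lit 176542900660) (nat_lit 43) (nat_lit 1) (nat_lit 40) (nat_lit 1) (nat_lit 42) (nat_lit 1) (nat_lit 221) (nat_lit 446) (nat_lit 413)) (XT.lf (nat_lit 168) (nat_lit 163458335356) (nat_lit 0) (nat_lit 243275621217) (nat_lit 84) (nat_lit 625487287085) (nat_lit 41) (nat_lit 1) (nat_lit 39)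 (nat_lit 1) (nat_lit 40) (nat_lit 1) (nat_lit 222) (nat_lit 446) (nat_lit 412))) (XT.nd (nat_lit 94) (nat_lit 84) (nat_lit 0) (XT.lf (nat_lit 252) (nat_lit 707570934904) (nat_lit 0) (nat_lit 255008876403) (nat_lit 168) (nat_lit 41849139615) (nat_lit 39) (nat_lit 1) (nat_lit 36) (nat_lit 1) (nat_lit 38) (nat_lit 1) (nat_lit 223) (nat_lit 446) (nat_lit 411)) (XT.lf (nat_lit 168) (nat_lit 235238969753) (nat_lit 0) (nat_lit 265849817895) (nat_lit 84) (nat_lit 476292907719) (nat_lit 37) (nat_lit 1) (nat_lit 35) (nat_lit 1) (nat_lit 36) (nat_lit 1) (nat_lit 224) (nat_lit 446) (nat_lit 410)))) (XT.nd (nat_lit 188) (nat_lit 504) (nat_lit 0) (XT.nd (nat_lit 94) (nat_lit 84) (nat_lit 0) (XT.lf (nat_lit 84) (nat_lit 67899328317) (nat_lit 0) (nat_lit 213117892258) (nat_lit 252) (nat_lit 670288893722) (nat_lit 33) (nat_lit 1) (nat_lit 32) (nat_lit 1) (nat_lit 35) (nat_lit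 1) (nat_lit 225) (nat_lit 446) (nat_lit 409)) (XT.lf (nat_lit 168) (nat_lit 282307987609) (nat_lit 0) (nat_lit 294151541994) (nat_lit 84) (nat_lit 349418574630) (nat_lit 33) (nat_lit 1) (nat_lit 31) (nat_lit 1) (nat_lit 32) (nat_lit 1) (nat_lit 226) (nat_lit 446) (nat_lit 408))) (XT.nd (nat_lit 94) (nat_lit 252) (nat_lit 0) (XT.lf (nat_lit 84) (nat_lit 157908555326) (nat_lit 0) (nat_lit 152945113581) (nat_lit 252) (nat_lit 590490027815) (nat_lit 29) (nat_lit 1) (nat_lit 28) (nat_lit 1) (nat_lit 31) (nat_lit 1) (nat_lit 227) (nat_lit 446) (nat_lit 407)) (XT.nd (nat_lit 94) (nat_lit 168) (nat_lit 0) (XT.lf (nat_lit 168) (nat_lit 310115957838) (nat_lit 0) (nat_lit 325943851328) (nat_lit 84) (nat_lit 241376324865) (nat_lit 29) (nat_lit 1) (nat_lit 27) (nat_lit 1) (nat_lit 28) (nat_lit 1) (nat_lit 228) (nat_lit 446) (nat_lit 406)) (XT.lf (nat_lit 84) (nat_lit 232477908229)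 (nat_lit 0) (nat_lit 110771563574) (nat_lit 168) (nat_lit 511068656108) (nat_lit 26) (nat_lit 1) (nat_lit 25) (nat_lit 1) (nat_lit 27) (nat_lit 1) (nat_lit 229) (nat_lit 446) (nat_lit 405)))))) (XT.nd (nat_lit 470) (nat_lit 672) (nat_lit 0) (XT.nd (nat_lit 188) (nat_lit 336) (nat_lit 0) (XT.nd (nat_lit 94) (nat_lit 168) (nat_lit 0) (XT.lf (nat_lit 168) (nat_lit 323049615756) (nat_lit 0) (nat_lit 359495957382) (nat_lit 84) (nat_lit 149269171528) (nat_lit 26) (nat_lit 1) (nat_lit 24) (nat_lit 1) (nat_lit 25) (nat_lit 1) (nat_lit 230) (nat_lit 446) (nat_lit 404)) (XT.lf (nat_lit 84) (nat_lit 294062938513) (nat_lit 0) (nat_lit 82637030807) (nat_lit 168) (nat_lit 433303572633) (nat_lit 23) (nat_lit 1) (nat_lit 22) (nat_lit 1) (nat_lit 24) (nat_lit 1) (nat_lit 231) (nat_lit 446) (nat_lit 403))) (XT.nd (nat_lit 94) (nat_lit 252) (nat_lit 0) (XT.lf (nat_lit 168) (nat_lit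 324631197838) (nat_lit 0) (nat_lit 393483646406) (nat_lit 84) (nat_lit 70686102423) (nat_lit 23) (nat_lit 1) (nat_lit 21) (nat_lit 1) (nat_lit 22) (nat_lit 1) (nat_lit 232) (nat_lit 446) (nat_lit 402)) (XT.nd (nat_lit 94) (nat_lit 84) (nat_lit 0) (XT.lf (nat_lit 84) (nat_lit 344704483475) (nat_lit 0) (nat_lit 65357137126) (nat_lit 168) (nat_lit 358138097015) (nat_lit 20) (nat_lit 1) (nat_lit 19) (nat_lit 1) (nat_lit 21) (nat_lit 1) (nat_lit 233) (nat_lit 446) (nat_lit 401)) (XT.lf (nat_lit 168) (nat_lit 317680943943) (nat_lit 0) (nat_lit 426908409015) (nat_lit 84) (nat_lit 3616121184) (nat_lit 20) (nat_lit 1) (nat_lit 18) (nat_lit 1) (nat_lit 19) (nat_lit 1) (nat_lit 234) (nat_lit 446) (nat_lit 400))))) (XT.nd (nat_lit 188) (nat_lit 420) (nat_lit 0) (XT.nd (nat_lit 94) (nat_lit 84) (nat_lit 0) (XT.lf (nat_lit 84) (nat_lit 386102074667) (nat_lit 0) (nat_lit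 56377661095) (nat_lit 168) (nat_lit 286248438399) (nat_lit 17) (nat_lit 1) (nat_lit 16) (nat_lit 1) (nat_lit 18) (nat_lit 1) (nat_lit 235) (nat_lit 446) (nat_lit 399)) (XT.lf (nat_lit 0) (nat_lit 51905905517) (nat_lit 0) (nat_lit 406246861113) (nat_lit 168) (nat_lit 251664583708) (nat_lit 15) (nat_lit 3) (nat_lit 15) (nat_lit 1) (nat_lit 17) (nat_lit 1) (nat_lit 236) (nat_lit 446) (nat_lit 398))) (XT.nd (nat_lit 94) (nat_lit 252) (nat_lit 0) (XT.lf (nat_lit 84) (nat_lit 419674058411) (nat_lit 0) (nat_lit 53655802971) (nat_lit 168) (nat_lit 218099081310) (nat_lit 14) (nat_lit 1) (nat_lit 13) (nat_lit 1) (nat_lit 15) (nat_lit 1) (nat_lit 237) (nat_lit 446) (nat_lit 397)) (XT.nd (nat_lit 94) (nat_lit 168) (nat_lit 0) (XT.lf (nat_lit 0) (nat_lit 99159482345) (nat_lit 0) (nat_lit 388483536493) (nat_lit 168) (nat_lit 185887240963) (nat_lit 12) (nat_lit 3) (nat_lit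 12) (nat_lit 1) (nat_lit 14) (nat_lit 1) (nat_lit 238) (nat_lit 446) (nat_lit 396)) (XT.lf (nat_lit 84) (nat_lit 446606854957) (nat_lit 0) (nat_lit 55563434776) (nat_lit 168) (nat_lit 153987601436) (nat_lit 11) (nat_lit 1) (nat_lit 10) (nat_lit 1) (nat_lit 12) (nat_lit 1) (nat_lit 239) (nat_lit 446) (nat_lit 395))))))))
noncomputable def ec408 : XT := (XT.nd (nat_lit 1692) (nat_lit 0) (nat_lit 0) (XT.nd (nat_lit 846) (nat_lit 0) (nat_lit 0) (XT.nd (nat_lit 376) (nat_lit 336) (nat_lit 0) (XT.nd (nat_lit 188) (nat_lit 252) (nat_lit 0) (XT.nd (nat_lit 94) (nat_lit 168) (nat_lit 0) (XT.lf (nat_lit 0) (nat_lit 139407196821) (nat_lit 0) (nat_lit 375644095171) (nat_lit 168) (nat_lit 124157618564) (nat_lit 9) (nat_lit 3) (nat_lit 9) (nat_lit 1) (nat_lit 11) (nat_lit 1) (nat_lit 240) (nat_lit 446) (nat_lit 394)) (XT.lf (nat_lit 84) (nat_lit 467895338333) (nat_lit 0)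 (nat_lit 60808289231) (nat_lit 168) (nat_lit 94080875917) (nat_lit 8) (nat_lit 1) (nat_lit 7) (nat_lit 1) (nat_lit 9) (nat_lit 1) (nat_lit 241) (nat_lit 446) (nat_lit 393))) (XT.nd (nat_lit 94) (nat_lit 168) (nat_lit 0) (XT.lf (nat_lit 0) (nat_lit 173615958690) (nat_lit 0) (nat_lit 366506495588) (nat_lit 168) (nat_lit 66605576738) (nat_lit 6) (nat_lit 3) (nat_lit 6) (nat_lit 1) (nat_lit 8) (nat_lit 1) (nat_lit 242) (nat_lit 446) (nat_lit 392)) (XT.lf (nat_lit 84) (nat_lit 484375955920) (nat_lit 0) (nat_lit 68369784519) (nat_lit 168) (nat_lit 38444290716) (nat_lit 5) (nat_lit 1) (nat_lit 4) (nat_lit 1) (nat_lit 6) (nat_lit 1) (nat_lit 243) (nat_lit 446) (nat_lit 391)))) (XT.nd (nat_lit 188) (nat_lit 0) (nat_lit 0) (XT.nd (nat_lit 94) (nat_lit 252) (nat_lit 0) (XT.lf (nat_lit 0) (nat_lit 202603542992) (nat_lit 0) (nat_lit 360101205232) (nat_lit 168) (nat_lit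 13268721246) (nat_lit 3) (nat_lit 3) (nat_lit 3) (nat_lit 1) (nat_lit 5) (nat_lit 1) (nat_lit 244) (nat_lit 446) (nat_lit 390)) (XT.lf (nat_lit 0) (nat_lit 814165041889) (nat_lit 0) (nat_lit 0) (nat_lit 0) (nat_lit 0) (nat_lit 0) (nat_lit 0) (nat_lit 1) (nat_lit 0) (nat_lit 1) (nat_lit 0) (nat_lit 245) (nat_lit 446) (nat_lit 389))) (XT.nd (nat_lit 94) (nat_lit 0) (nat_lit 0) (XT.lf (nat_lit 0) (nat_lit 813423979093) (nat_lit 0) (nat_lit 0) (nat_lit 0) (nat_lit 0) (nat_lit 0) (nat_lit 0) (nat_lit 1) (nat_lit 0) (nat_lit 1) (nat_lit 0) (nat_lit 246) (nat_lit 446) (nat_lit 388)) (XT.nd (nat_lit 94) (nat_lit 0) (nat_lit 0) (XT.lf (nat_lit 0) (nat_lit 812737809837) (nat_lit 0) (nat_lit 0) (nat_lit 0) (nat_lit 0) (nat_lit 0) (nat_lit 0) (nat_lit 1) (nat_lit 0) (nat_lit 1) (nat_lit 0) (nat_lit 247) (nat_lit 446) (nat_lit 387)) (XT.lf (nat_lit 0) (nat_lit 812102467934)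 (nat_lit 0) (nat_lit 0) (nat_lit 0) (nat_lit 0) (nat_lit 0) (nat_lit 0) (nat_lit 1) (nat_lit 0) (nat_lit 1) (nat_lit 0) (nat_lit 248) (nat_lit 446) (nat_lit 386)))))) (XT.nd (nat_lit 376) (nat_lit 0) (nat_lit 0) (XT.nd (nat_lit 188) (nat_lit 0) (nat_lit 0) (XT.nd (nat_lit 94) (nat_lit 0) (nat_lit 0) (XT.lf (nat_lit 0) (nat_lit 811514188394) (nat_lit 0) (nat_lit 0) (nat_lit 0) (nat_lit 0) (nat_lit 0) (nat_lit 0) (nat_lit 1) (nat_lit 0) (nat_lit 1) (nat_lit 0) (nat_lit 249) (nat_lit 446) (nat_lit 385)) (XT.lf (nat_lit 0) (nat_lit 810969485117) (nat_lit 0) (nat_lit 0) (nat_lit 0) (nat_lit 0) (nat_lit 0) (nat_lit 0) (nat_lit 1) (nat_lit 0) (nat_lit 1) (nat_lit 0) (nat_lit 250) (nat_lit 446) (nat_lit 384))) (XT.nd (nat_lit 94) (nat_lit 0) (nat_lit 0) (XT.lf (nat_lit 0) (nat_lit 810465130230) (nat_lit 0) (nat_lit 0) (nat_lit 0) (nat_lit 0) (nat_lit 0) (nat_lit 0)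 (nat_lit 1) (nat_lit 0) (nat_lit 1) (nat_lit 0) (nat_lit 251) (nat_lit 446) (nat_lit 383)) (XT.lf (nat_lit 0) (nat_lit 809998134964) (nat_lit 0) (nat_lit 0) (nat_lit 0) (nat_lit 0) (nat_lit 0) (nat_lit 0) (nat_lit 1) (nat_lit 0) (nat_lit 1) (nat_lit 0) (nat_lit 252) (nat_lit 446) (nat_lit 382)))) (XT.nd (nat_lit 188) (nat_lit 0) (nat_lit 0) (XT.nd (nat_lit 94) (nat_lit 0) (nat_lit 0) (XT.lf (nat_lit 0) (nat_lit 809565731941) (nat_lit 0) (nat_lit 0) (nat_lit 0) (nat_lit 0) (nat_lit 0) (nat_lit 0) (nat_lit 1) (nat_lit 0) (nat_lit 1) (nat_lit 0) (nat_lit 253) (nat_lit 446) (nat_lit 381)) (XT.lf (nat_lit 0) (nat_lit 809165358771) (nat_lit 0) (nat_lit 0) (nat_lit 0) (nat_lit 0) (nat_lit 0) (nat_lit 0) (nat_lit 1) (nat_lit 0) (nat_lit 1) (nat_lit 0) (nat_lit 254) (nat_lit 446) (nat_lit 380))) (XT.nd (nat_lit 94) (nat_lit 0) (nat_lit 0) (XT.lf (nat_lit 0) (nat_lit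 808794642873) (nat_lit 0) (nat_lit 0) (nat_lit 0) (nat_lit 0) (nat_lit 0) (nat_lit 0) (nat_lit 1) (nat_lit 0) (nat_lit 1) (nat_lit 0) (nat_lit 255) (nat_lit 446) (nat_lit 379)) (XT.nd (nat_lit 94) (nat_lit 0) (nat_lit 0) (XT.lf (nat_lit 0) (nat_lit 808451387411) (nat_lit 0) (nat_lit 0) (nat_lit 0) (nat_lit 0) (nat_lit 0) (nat_lit 0) (nat_lit 1) (nat_lit 0) (nat_lit 1) (nat_lit 0) (nat_lit 256) (nat_lit 446) (nat_lit 378)) (XT.lf (nat_lit 0) (nat_lit 808133558281) (nat_lit 0) (nat_lit 0) (nat_lit 0) (nat_lit 0) (nat_lit 0) (nat_lit 0) (nat_lit 1) (nat_lit 0) (nat_lit 1) (nat_lit 0) (nat_lit 257) (nat_lit 446) (nat_lit 377))))))) (XT.nd (nat_lit 846) (nat_lit 0) (nat_lit 0) (XT.nd (nat_lit 376) (nat_lit 0) (nat_lit 0) (XT.nd (nat_lit 188) (nat_lit 0) (nat_lit 0) (XT.nd (nat_lit 94) (nat_lit 0) (nat_lit 0) (XT.lf (nat_lit 0) (nat_lit 807839272048) (nat_lit 0)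 (nat_lit 0) (nat_lit 0) (nat_lit 0) (nat_lit 0) (nat_lit 0) (nat_lit 1) (nat_lit 0) (nat_lit 1) (nat_lit 0) (nat_lit 258) (nat_lit 446) (nat_lit 376)) (XT.lf (nat_lit 0) (nat_lit 807566784796) (nat_lit 0) (nat_lit 0) (nat_lit 0) (nat_lit 0) (nat_lit 0) (nat_lit 0) (nat_lit 1) (nat_lit 0) (nat_lit 1) (nat_lit 0) (nat_lit 259) (nat_lit 446) (nat_lit 375))) (XT.nd (nat_lit 94) (nat_lit 0) (nat_lit 0) (XT.lf (nat_lit 0) (nat_lit 807314481785) (nat_lit 0) (nat_lit 0) (nat_lit 0) (nat_lit 0) (nat_lit 0) (nat_lit 0) (nat_lit 1) (nat_lit 0) (nat_lit 1) (nat_lit 0) (nat_lit 260) (nat_lit 446) (nat_lit 374)) (XT.lf (nat_lit 0) (nat_lit 807080867886) (nat_lit 0) (nat_lit 0) (nat_lit 0) (nat_lit 0) (nat_lit 0) (nat_lit 0) (nat_lit 1) (nat_lit 0) (nat_lit 1) (nat_lit 0) (nat_lit 261) (nat_lit 446) (nat_lit 373)))) (XT.nd (nat_lit 188) (nat_lit 0) (nat_lit 0) (XT.nd (nat_lit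 94) (nat_lit 0) (nat_lit 0) (XT.lf (nat_lit 0) (nat_lit 806864558720) (nat_lit 0) (nat_lit 0) (nat_lit 0) (nat_lit 0) (nat_lit 0) (nat_lit 0) (nat_lit 1) (nat_lit 0) (nat_lit 1) (nat_lit 0) (nat_lit 262) (nat_lit 446) (nat_lit 372)) (XT.lf (nat_lit 0) (nat_lit 806664272455) (nat_lit 0) (nat_lit 0) (nat_lit 0) (nat_lit 0) (nat_lit 0) (nat_lit 0) (nat_lit 1) (nat_lit 0) (nat_lit 1) (nat_lit 0) (nat_lit 263) (nat_lit 446) (nat_lit 371))) (XT.nd (nat_lit 94) (nat_lit 0) (nat_lit 0) (XT.lf (nat_lit 0) (nat_lit 806478822210) (nat_lit 0) (nat_lit 0) (nat_lit 0) (nat_lit 0) (nat_lit 0) (nat_lit 0) (nat_lit 1) (nat_lit 0) (nat_lit 1) (nat_lit 0) (nat_lit 264) (nat_lit 446) (nat_lit 370)) (XT.nd (nat_lit 94) (nat_lit 0) (nat_lit 0) (XT.lf (nat_lit 0) (nat_lit 806307109020) (nat_lit 0) (nat_lit 0) (nat_lit 0) (nat_lit 0) (nat_lit 0) (nat_lit 0) (nat_lit 1) (nat_lit 0)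 (nat_lit 1) (nat_lit 0) (nat_lit 265) (nat_lit 446) (nat_lit 369)) (XT.lf (nat_lit 0) (nat_lit 806148115326) (nat_lit 0) (nat_lit 0) (nat_lit 0) (nat_lit 0) (nat_lit 0) (nat_lit 0) (nat_lit 1) (nat_lit 0) (nat_lit 1) (nat_lit 0) (nat_lit 266) (nat_lit 446) (nat_lit 368)))))) (XT.nd (nat_lit 470) (nat_lit 0) (nat_lit 0) (XT.nd (nat_lit 188) (nat_lit 0) (nat_lit 0) (XT.nd (nat_lit 94) (nat_lit 0) (nat_lit 0) (XT.lf (nat_lit 0) (nat_lit 806000898942) (nat_lit 0) (nat_lit 0) (nat_lit 0) (nat_lit 0) (nat_lit 0) (nat_lit 0) (nat_lit 1) (nat_lit 0) (nat_lit 1) (nat_lit 0) (nat_lit 267) (nat_lit 446) (nat_lit 367)) (XT.lf (nat_lit 0) (nat_lit 805864587476) (nat_lit 0) (nat_lit 0) (nat_lit 0) (nat_lit 0) (nat_lit 0) (nat_lit 0) (nat_lit 1) (nat_lit 0) (nat_lit 1) (nat_lit 0) (nat_lit 268) (nat_lit 446) (nat_lit 366))) (XT.nd (nat_lit 94) (nat_lit 0) (nat_lit 0) (XT.lf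 (nat_lit 0) (nat_lit 805738373155) (nat_lit 0) (nat_lit 0) (nat_lit 0) (nat_lit 0) (nat_lit 0) (nat_lit 0) (nat_lit 1) (nat_lit 0) (nat_lit 1) (nat_lit 0) (nat_lit 269) (nat_lit 446) (nat_lit 365)) (XT.nd (nat_lit 94) (nat_lit 0) (nat_lit 0) (XT.lf (nat_lit 0) (nat_lit 805621508043) (nat_lit 0) (nat_lit 0) (nat_lit 0) (nat_lit 0) (nat_lit 0) (nat_lit 0) (nat_lit 1) (nat_lit 0) (nat_lit 1) (nat_lit 0) (nat_lit 270) (nat_lit 446) (nat_lit 364)) (XT.lf (nat_lit 0) (nat_lit 805513299606) (nat_lit 0) (nat_lit 0) (nat_lit 0) (nat_lit 0) (nat_lit 0) (nat_lit 0) (nat_lit 1) (nat_lit 0) (nat_lit 1) (nat_lit 0) (nat_lit 271) (nat_lit 446) (nat_lit 363))))) (XT.nd (nat_lit 188) (nat_lit 0) (nat_lit 0) (XT.nd (nat_lit 94) (nat_lit 0) (nat_lit 0) (XT.lf (nat_lit 0) (nat_lit 805413106609) (nat_lit 0) (nat_lit 0) (nat_lit 0) (nat_lit 0) (nat_lit 0) (nat_lit 0) (nat_lit 1)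 (nat_lit 0) (nat_lit 1) (nat_lit 0) (nat_lit 272) (nat_lit 446) (nat_lit 362)) (XT.lf (nat_lit 0) (nat_lit 805320335316) (nat_lit 0) (nat_lit 0) (nat_lit 0) (nat_lit 0) (nat_lit 0) (nat_lit 0) (nat_lit 1) (nat_lit 0) (nat_lit 1) (nat_lit 0) (nat_lit 273) (nat_lit 446) (nat_lit 361))) (XT.nd (nat_lit 94) (nat_lit 0) (nat_lit 0) (XT.lf (nat_lit 0) (nat_lit 805234435970) (nat_lit 0) (nat_lit 0) (nat_lit 0) (nat_lit 0) (nat_lit 0) (nat_lit 0) (nat_lit 1) (nat_lit 0) (nat_lit 1) (nat_lit 0) (nat_lit 274) (nat_lit 446) (nat_lit 360)) (XT.nd (nat_lit 94) (nat_lit 0) (nat_lit 0) (XT.lf (nat_lit 0) (nat_lit 805154899538) (nat_lit 0) (nat_lit 0) (nat_lit 0) (nat_lit 0) (nat_lit 0) (nat_lit 0) (nat_lit 1) (nat_lit 0) (nat_lit 1) (nat_lit 0) (nat_lit 275) (nat_lit 446) (nat_lit 359)) (XT.lf (nat_lit 0) (nat_lit 805081254694) (nat_lit 0) (nat_lit 0) (nat_lit 0) (nat_lit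 0) (nat_lit 0) (nat_lit 0) (nat_lit 1) (nat_lit 0) (nat_lit 1) (nat_lit 0) (nat_lit 276) (nat_lit 446) (nat_lit 358))))))))
noncomputable def ec409 : XT := (XT.nd (nat_lit 1786) (nat_lit 0) (nat_lit 0) (XT.nd (nat_lit 846) (nat_lit 0) (nat_lit 0) (XT.nd (nat_lit 376) (nat_lit 0) (nat_lit 0) (XT.nd (nat_lit 188) (nat_lit 0) (nat_lit 0) (XT.nd (nat_lit 94) (nat_lit 0) (nat_lit 0) (XT.lf (nat_lit 0) (nat_lit 805013065024) (nat_lit 0) (nat_lit 0) (nat_lit 0) (nat_lit 0) (nat_lit 0) (nat_lit 0) (nat_lit 1) (nat_lit 0) (nat_lit 1) (nat_lit 0) (nat_lit 277) (nat_lit 446) (nat_lit 357)) (XT.lf (nat_lit 0) (nat_lit 804949926441) (nat_lit 0) (nat_lit 0) (nat_lit 0) (nat_lit 0) (nat_lit 0) (nat_lit 0) (nat_lit 1) (nat_lit 0) (nat_lit 1) (nat_lit 0) (nat_lit 278) (nat_lit 446) (nat_lit 356))) (XT.nd (nat_lit 94) (nat_lit 0) (nat_lit 0) (XT.lf (nat_lit 0) (nat_lit 804891464789)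 (nat_lit 0) (nat_lit 0) (nat_lit 0) (nat_lit 0) (nat_lit 0) (nat_lit 0) (nat_lit 1) (nat_lit 0) (nat_lit 1) (nat_lit 0) (nat_lit 279) (nat_lit 446) (nat_lit 355)) (XT.lf (nat_lit 0) (nat_lit 804837333630) (nat_lit 0) (nat_lit 0) (nat_lit 0) (nat_lit 0) (nat_lit 0) (nat_lit 0) (nat_lit 1) (nat_lit 0) (nat_lit 1) (nat_lit 0) (nat_lit 280) (nat_lit 446) (nat_lit 354)))) (XT.nd (nat_lit 188) (nat_lit 0) (nat_lit 0) (XT.nd (nat_lit 94) (nat_lit 0) (nat_lit 0) (XT.lf (nat_lit 0) (nat_lit 804787212187) (nat_lit 0) (nat_lit 0) (nat_lit 0) (nat_lit 0) (nat_lit 0) (nat_lit 0) (nat_lit 1) (nat_lit 0) (nat_lit 1) (nat_lit 0) (nat_lit 281) (nat_lit 446) (nat_lit 353)) (XT.lf (nat_lit 0) (nat_lit 804740803443) (nat_lit 0) (nat_lit 0) (nat_lit 0) (nat_lit 0) (nat_lit 0) (nat_lit 0) (nat_lit 1) (nat_lit 0) (nat_lit 1) (nat_lit 0) (nat_lit 282) (nat_lit 446) (nat_lit 352)))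 (XT.nd (nat_lit 94) (nat_lit 0) (nat_lit 0) (XT.lf (nat_lit 0) (nat_lit 804697832384) (nat_lit 0) (nat_lit 0) (nat_lit 0) (nat_lit 0) (nat_lit 0) (nat_lit 0) (nat_lit 1) (nat_lit 0) (nat_lit 1) (nat_lit 0) (nat_lit 283) (nat_lit 446) (nat_lit 351)) (XT.nd (nat_lit 94) (nat_lit 0) (nat_lit 0) (XT.lf (nat_lit 0) (nat_lit 804658044366) (nat_lit 0) (nat_lit 0) (nat_lit 0) (nat_lit 0) (nat_lit 0) (nat_lit 0) (nat_lit 1) (nat_lit 0) (nat_lit 1) (nat_lit 0) (nat_lit 284) (nat_lit 446) (nat_lit 350)) (XT.lf (nat_lit 0) (nat_lit 804621203609) (nat_lit 0) (nat_lit 0) (nat_lit 0) (nat_lit 0) (nat_lit 0) (nat_lit 0) (nat_lit 1) (nat_lit 0) (nat_lit 1) (nat_lit 0) (nat_lit 285) (nat_lit 446) (nat_lit 349)))))) (XT.nd (nat_lit 470) (nat_lit 0) (nat_lit 0) (XT.nd (nat_lit 188) (nat_lit 0) (nat_lit 0) (XT.nd (nat_lit 94) (nat_lit 0) (nat_lit 0) (XT.lf (nat_lit 0) (nat_lit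 804587091797) (nat_lit 0) (nat_lit 0) (nat_lit 0) (nat_lit 0) (nat_lit 0) (nat_lit 0) (nat_lit 1) (nat_lit 0) (nat_lit 1) (nat_lit 0) (nat_lit 286) (nat_lit 446) (nat_lit 348)) (XT.lf (nat_lit 0) (nat_lit 804555506786) (nat_lit 0) (nat_lit 0) (nat_lit 0) (nat_lit 0) (nat_lit 0) (nat_lit 0) (nat_lit 1) (nat_lit 0) (nat_lit 1) (nat_lit 0) (nat_lit 287) (nat_lit 446) (nat_lit 347))) (XT.nd (nat_lit 94) (nat_lit 0) (nat_lit 0) (XT.lf (nat_lit 0) (nat_lit 804526261405) (nat_lit 0) (nat_lit 0) (nat_lit 0) (nat_lit 0) (nat_lit 0) (nat_lit 0) (nat_lit 1) (nat_lit 0) (nat_lit 1) (nat_lit 0) (nat_lit 288) (nat_lit 446) (nat_lit 346)) (XT.nd (nat_lit 94) (nat_lit 0) (nat_lit 0) (XT.lf (nat_lit 0) (nat_lit 804499182349) (nat_lit 0) (nat_lit 0) (nat_lit 0) (nat_lit 0) (nat_lit 0) (nat_lit 0) (nat_lit 1) (nat_lit 0) (nat_lit 1) (nat_lit 0) (nat_lit 289) (nat_lit 446) (nat_lit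 345)) (XT.lf (nat_lit 0) (nat_lit 804474109149) (nat_lit 0) (nat_lit 0) (nat_lit 0) (nat_lit 0) (nat_lit 0) (nat_lit 0) (nat_lit 1) (nat_lit 0) (nat_lit 1) (nat_lit 0) (nat_lit 290) (nat_lit 446) (nat_lit 344))))) (XT.nd (nat_lit 188) (nat_lit 0) (nat_lit 0) (XT.nd (nat_lit 94) (nat_lit 0) (nat_lit 0) (XT.lf (nat_lit 0) (nat_lit 804450893223) (nat_lit 0) (nat_lit 0) (nat_lit 0) (nat_lit 0) (nat_lit 0) (nat_lit 0) (nat_lit 1) (nat_lit 0) (nat_lit 1) (nat_lit 0) (nat_lit 291) (nat_lit 446) (nat_lit 343)) (XT.lf (nat_lit 0) (nat_lit 804429396995) (nat_lit 0) (nat_lit 0) (nat_lit 0) (nat_lit 0) (nat_lit 0) (nat_lit 0) (nat_lit 1) (nat_lit 0) (nat_lit 1) (nat_lit 0) (nat_lit 292) (nat_lit 446) (nat_lit 342))) (XT.nd (nat_lit 94) (nat_lit 0) (nat_lit 0) (XT.lf (nat_lit 0) (nat_lit 804409493080) (nat_lit 0) (nat_lit 0) (nat_lit 0) (nat_lit 0) (nat_lit 0) (nat_lit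 0) (nat_lit 1) (nat_lit 0) (nat_lit 1) (nat_lit 0) (nat_lit 293) (nat_lit 446) (nat_lit 341)) (XT.nd (nat_lit 94) (nat_lit 0) (nat_lit 0) (XT.lf (nat_lit 0) (nat_lit 804391063529) (nat_lit 0) (nat_lit 0) (nat_lit 0) (nat_lit 0) (nat_lit 0) (nat_lit 0) (nat_lit 1) (nat_lit 0) (nat_lit 1) (nat_lit 0) (nat_lit 294) (nat_lit 446) (nat_lit 340)) (XT.lf (nat_lit 0) (nat_lit 804373999130) (nat_lit 0) (nat_lit 0) (nat_lit 0) (nat_lit 0) (nat_lit 0) (nat_lit 0) (nat_lit 1) (nat_lit 0) (nat_lit 1) (nat_lit 0) (nat_lit 295) (nat_lit 446) (nat_lit 339))))))) (XT.nd (nat_lit 846) (nat_lit 0) (nat_lit 0) (XT.nd (nat_lit 376) (nat_lit 0) (nat_lit 0) (XT.nd (nat_lit 188) (nat_lit 0) (nat_lit 0) (XT.nd (nat_lit 94) (nat_lit 0) (nat_lit 0) (XT.lf (nat_lit 0) (nat_lit 804358198761) (nat_lit 0) (nat_lit 0) (nat_lit 0) (nat_lit 0) (nat_lit 0) (nat_lit 0) (nat_lit 1) (nat_lit 0)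 (nat_lit 1) (nat_lit 0) (nat_lit 296) (nat_lit 446) (nat_lit 338)) (XT.lf (nat_lit 0) (nat_lit 804343568790) (nat_lit 0) (nat_lit 0) (nat_lit 0) (nat_lit 0) (nat_lit 0) (nat_lit 0) (nat_lit 1) (nat_lit 0) (nat_lit 1) (nat_lit 0) (nat_lit 297) (nat_lit 446) (nat_lit 337))) (XT.nd (nat_lit 94) (nat_lit 0) (nat_lit 0) (XT.lf (nat_lit 0) (nat_lit 804330022520) (nat_lit 0) (nat_lit 0) (nat_lit 0) (nat_lit 0) (nat_lit 0) (nat_lit 0) (nat_lit 1) (nat_lit 0) (nat_lit 1) (nat_lit 0) (nat_lit 298) (nat_lit 446) (nat_lit 336)) (XT.lf (nat_lit 0) (nat_lit 804317479677) (nat_lit 0) (nat_lit 0) (nat_lit 0) (nat_lit 0) (nat_lit 0) (nat_lit 0) (nat_lit 1) (nat_lit 0) (nat_lit 1) (nat_lit 0) (nat_lit 299) (nat_lit 446) (nat_lit 335)))) (XT.nd (nat_lit 188) (nat_lit 0) (nat_lit 0) (XT.nd (nat_lit 94) (nat_lit 0) (nat_lit 0) (XT.lf (nat_lit 0) (nat_lit 804305865934) (nat_lit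 0) (nat_lit 0) (nat_lit 0) (nat_lit 0) (nat_lit 0) (nat_lit 0) (nat_lit 1) (nat_lit 0) (nat_lit 1) (nat_lit 0) (nat_lit 300) (nat_lit 446) (nat_lit 334)) (XT.lf (nat_lit 0) (nat_lit 804295112468) (nat_lit 0) (nat_lit 0) (nat_lit 0) (nat_lit 0) (nat_lit 0) (nat_lit 0) (nat_lit 1) (nat_lit 0) (nat_lit 1) (nat_lit 0) (nat_lit 301) (nat_lit 446) (nat_lit 333))) (XT.nd (nat_lit 94) (nat_lit 0) (nat_lit 0) (XT.lf (nat_lit 0) (nat_lit 804285155556) (nat_lit 0) (nat_lit 0) (nat_lit 0) (nat_lit 0) (nat_lit 0) (nat_lit 0) (nat_lit 1) (nat_lit 0) (nat_lit 1) (nat_lit 0) (nat_lit 302) (nat_lit 446) (nat_lit 332)) (XT.nd (nat_lit 94) (nat_lit 0) (nat_lit 0) (XT.lf (nat_lit 0) (nat_lit 804275936192) (nat_lit 0) (nat_lit 0) (nat_lit 0) (nat_lit 0) (nat_lit 0) (nat_lit 0) (nat_lit 1) (nat_lit 0) (nat_lit 1) (nat_lit 0) (nat_lit 303) (nat_lit 446) (nat_lit 331)) (XT.lf (nat_lit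 0) (nat_lit 804267399744) (nat_lit 0) (nat_lit 0) (nat_lit 0) (nat_lit 0) (nat_lit 0) (nat_lit 0) (nat_lit 1) (nat_lit 0) (nat_lit 1) (nat_lit 0) (nat_lit 304) (nat_lit 446) (nat_lit 330)))))) (XT.nd (nat_lit 470) (nat_lit 0) (nat_lit 0) (XT.nd (nat_lit 188) (nat_lit 0) (nat_lit 0) (XT.nd (nat_lit 94) (nat_lit 0) (nat_lit 0) (XT.lf (nat_lit 0) (nat_lit 804259495626) (nat_lit 0) (nat_lit 0) (nat_lit 0) (nat_lit 0) (nat_lit 0) (nat_lit 0) (nat_lit 1) (nat_lit 0) (nat_lit 1) (nat_lit 0) (nat_lit 305) (nat_lit 446) (nat_lit 329)) (XT.lf (nat_lit 0) (nat_lit 804252176997) (nat_lit 0) (nat_lit 0) (nat_lit 0) (nat_lit 0) (nat_lit 0) (nat_lit 0) (nat_lit 1) (nat_lit 0) (nat_lit 1) (nat_lit 0) (nat_lit 306) (nat_lit 446) (nat_lit 328))) (XT.nd (nat_lit 94) (nat_lit 0) (nat_lit 0) (XT.lf (nat_lit 0) (nat_lit 804245400490) (nat_lit 0) (nat_lit 0) (nat_lit 0) (nat_lit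 0) (nat_lit 0) (nat_lit 0) (nat_lit 1) (nat_lit 0) (nat_lit 1) (nat_lit 0) (nat_lit 307) (nat_lit 446) (nat_lit 327)) (XT.nd (nat_lit 94) (nat_lit 0) (nat_lit 0) (XT.lf (nat_lit 0) (nat_lit 804239125946) (nat_lit 0) (nat_lit 0) (nat_lit 0) (nat_lit 0) (nat_lit 0) (nat_lit 0) (nat_lit 1) (nat_lit 0) (nat_lit 1) (nat_lit 0) (nat_lit 308) (nat_lit 446) (nat_lit 326)) (XT.lf (nat_lit 0) (nat_lit 804233316183) (nat_lit 0) (nat_lit 0) (nat_lit 0) (nat_lit 0) (nat_lit 0) (nat_lit 0) (nat_lit 1) (nat_lit 0) (nat_lit 1) (nat_lit 0) (nat_lit 309) (nat_lit 446) (nat_lit 325))))) (XT.nd (nat_lit 188) (nat_lit 0) (nat_lit 0) (XT.nd (nat_lit 94) (nat_lit 0) (nat_lit 0) (XT.lf (nat_lit 0) (nat_lit 804227936773) (nat_lit 0) (nat_lit 0) (nat_lit 0) (nat_lit 0) (nat_lit 0) (nat_lit 0) (nat_lit 1) (nat_lit 0) (nat_lit 1) (nat_lit 0) (nat_lit 310) (nat_lit 446) (nat_lit 324))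 (XT.lf (nat_lit 0) (nat_lit 804222955837) (nat_lit 0) (nat_lit 0) (nat_lit 0) (nat_lit 0) (nat_lit 0) (nat_lit 0) (nat_lit 1) (nat_lit 0) (nat_lit 1) (nat_lit 0) (nat_lit 311) (nat_lit 446) (nat_lit 323))) (XT.nd (nat_lit 94) (nat_lit 0) (nat_lit 0) (XT.lf (nat_lit 0) (nat_lit 804218343860) (nat_lit 0) (nat_lit 0) (nat_lit 0) (nat_lit 0) (nat_lit 0) (nat_lit 0) (nat_lit 1) (nat_lit 0) (nat_lit 1) (nat_lit 0) (nat_lit 312) (nat_lit 446) (nat_lit 322)) (XT.nd (nat_lit 94) (nat_lit 0) (nat_lit 0) (XT.lf (nat_lit 0) (nat_lit 804214073511) (nat_lit 0) (nat_lit 0) (nat_lit 0) (nat_lit 0) (nat_lit 0) (nat_lit 0) (nat_lit 1) (nat_lit 0) (nat_lit 1) (nat_lit 0) (nat_lit 313) (nat_lit 446) (nat_lit 321)) (XT.lf (nat_lit 0) (nat_lit 804210119484) (nat_lit 0) (nat_lit 0) (nat_lit 0) (nat_lit 0) (nat_lit 0) (nat_lit 0) (nat_lit 1) (nat_lit 0) (nat_lit 1) (nat_lit 0) (nat_lit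 314) (nat_lit 446) (nat_lit 320))))))))
noncomputable def ec410 : XT := (XT.nd (nat_lit 1692) (nat_lit 0) (nat_lit 0) (XT.nd (nat_lit 846) (nat_lit 0) (nat_lit 0) (XT.nd (nat_lit 376) (nat_lit 0) (nat_lit 0) (XT.nd (nat_lit 188) (nat_lit 0) (nat_lit 0) (XT.nd (nat_lit 94) (nat_lit 0) (nat_lit 0) (XT.lf (nat_lit 0) (nat_lit 804206458348) (nat_lit 0) (nat_lit 0) (nat_lit 0) (nat_lit 0) (nat_lit 0) (nat_lit 0) (nat_lit 1) (nat_lit 0) (nat_lit 1) (nat_lit 0) (nat_lit 315) (nat_lit 446) (nat_lit 319)) (XT.lf (nat_lit 0) (nat_lit 804203068407) (nat_lit 0) (nat_lit 0) (nat_lit 0) (nat_lit 0) (nat_lit 0) (nat_lit 0) (nat_lit 1) (nat_lit 0) (nat_lit 1) (nat_lit 0) (nat_lit 316) (nat_lit 446) (nat_lit 318))) (XT.nd (nat_lit 94) (nat_lit 0) (nat_lit 0) (XT.lf (nat_lit 0) (nat_lit 804199929573) (nat_lit 0) (nat_lit 0) (nat_lit 0) (nat_lit 0) (nat_lit 0) (nat_lit 0) (nat_lit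 1) (nat_lit 0) (nat_lit 1) (nat_lit 0) (nat_lit 317) (nat_lit 446) (nat_lit 317)) (XT.lf (nat_lit 0) (nat_lit 804197023245) (nat_lit 0) (nat_lit 0) (nat_lit 0) (nat_lit 0) (nat_lit 0) (nat_lit 0) (nat_lit 1) (nat_lit 0) (nat_lit 1) (nat_lit 0) (nat_lit 318) (nat_lit 446) (nat_lit 316)))) (XT.nd (nat_lit 188) (nat_lit 0) (nat_lit 0) (XT.nd (nat_lit 94) (nat_lit 0) (nat_lit 0) (XT.lf (nat_lit 0) (nat_lit 804194332200) (nat_lit 0) (nat_lit 0) (nat_lit 0) (nat_lit 0) (nat_lit 0) (nat_lit 0) (nat_lit 1) (nat_lit 0) (nat_lit 1) (nat_lit 0) (nat_lit 319) (nat_lit 446) (nat_lit 315)) (XT.lf (nat_lit 0) (nat_lit 804191840493) (nat_lit 0) (nat_lit 0) (nat_lit 0) (nat_lit 0) (nat_lit 0) (nat_lit 0) (nat_lit 1) (nat_lit 0) (nat_lit 1) (nat_lit 0) (nat_lit 320) (nat_lit 446) (nat_lit 314))) (XT.nd (nat_lit 94) (nat_lit 0) (nat_lit 0) (XT.lf (nat_lit 0) (nat_lit 804189533356)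 (nat_lit 0) (nat_lit 0) (nat_lit 0) (nat_lit 0) (nat_lit 0) (nat_lit 0) (nat_lit 1) (nat_lit 0) (nat_lit 1) (nat_lit 0) (nat_lit 321) (nat_lit 446) (nat_lit 313)) (XT.nd (nat_lit 94) (nat_lit 0) (nat_lit 0) (XT.lf (nat_lit 0) (nat_lit 804187397118) (nat_lit 0) (nat_lit 0) (nat_lit 0) (nat_lit 0) (nat_lit 0) (nat_lit 0) (nat_lit 1) (nat_lit 0) (nat_lit 1) (nat_lit 0) (nat_lit 322) (nat_lit 446) (nat_lit 312)) (XT.lf (nat_lit 0) (nat_lit 804185419120) (nat_lit 0) (nat_lit 0) (nat_lit 0) (nat_lit 0) (nat_lit 0) (nat_lit 0) (nat_lit 1) (nat_lit 0) (nat_lit 1) (nat_lit 0) (nat_lit 323) (nat_lit 446) (nat_lit 311)))))) (XT.nd (nat_lit 376) (nat_lit 0) (nat_lit 0) (XT.nd (nat_lit 188) (nat_lit 0) (nat_lit 0) (XT.nd (nat_lit 94) (nat_lit 0) (nat_lit 0) (XT.lf (nat_lit 0) (nat_lit 804183587641) (nat_lit 0) (nat_lit 0) (nat_lit 0) (nat_lit 0) (nat_lit 0) (nat_lit 0)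 (nat_lit 1) (nat_lit 0) (nat_lit 1) (nat_lit 0) (nat_lit 324) (nat_lit 446) (nat_lit 310)) (XT.lf (nat_lit 0) (nat_lit 804181891826) (nat_lit 0) (nat_lit 0) (nat_lit 0) (nat_lit 0) (nat_lit 0) (nat_lit 0) (nat_lit 1) (nat_lit 0) (nat_lit 1) (nat_lit 0) (nat_lit 325) (nat_lit 446) (nat_lit 309))) (XT.nd (nat_lit 94) (nat_lit 0) (nat_lit 0) (XT.lf (nat_lit 0) (nat_lit 804180321628) (nat_lit 0) (nat_lit 0) (nat_lit 0) (nat_lit 0) (nat_lit 0) (nat_lit 0) (nat_lit 1) (nat_lit 0) (nat_lit 1) (nat_lit 0) (nat_lit 326) (nat_lit 446) (nat_lit 308)) (XT.lf (nat_lit 0) (nat_lit 804178867740) (nat_lit 0) (nat_lit 0) (nat_lit 0) (nat_lit 0) (nat_lit 0) (nat_lit 0) (nat_lit 1) (nat_lit 0) (nat_lit 1) (nat_lit 0) (nat_lit 327) (nat_lit 446) (nat_lit 307)))) (XT.nd (nat_lit 188) (nat_lit 0) (nat_lit 0) (XT.nd (nat_lit 94) (nat_lit 0) (nat_lit 0) (XT.lf (nat_lit 0) (nat_lit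 804177521548) (nat_lit 0) (nat_lit 0) (nat_lit 0) (nat_lit 0) (nat_lit 0) (nat_lit 0) (nat_lit 1) (nat_lit 0) (nat_lit 1) (nat_lit 0) (nat_lit 328) (nat_lit 446) (nat_lit 306)) (XT.lf (nat_lit 0) (nat_lit 804176275074) (nat_lit 0) (nat_lit 0) (nat_lit 0) (nat_lit 0) (nat_lit 0) (nat_lit 0) (nat_lit 1) (nat_lit 0) (nat_lit 1) (nat_lit 0) (nat_lit 329) (nat_lit 446) (nat_lit 305))) (XT.nd (nat_lit 94) (nat_lit 0) (nat_lit 0) (XT.lf (nat_lit 0) (nat_lit 804175120931) (nat_lit 0) (nat_lit 0) (nat_lit 0) (nat_lit 0) (nat_lit 0) (nat_lit 0) (nat_lit 1) (nat_lit 0) (nat_lit 1) (nat_lit 0) (nat_lit 330) (nat_lit 446) (nat_lit 304)) (XT.nd (nat_lit 94) (nat_lit 0) (nat_lit 0) (XT.lf (nat_lit 0) (nat_lit 804174052280) (nat_lit 0) (nat_lit 0) (nat_lit 0) (nat_lit 0) (nat_lit 0) (nat_lit 0) (nat_lit 1) (nat_lit 0) (nat_lit 1) (nat_lit 0) (nat_lit 331) (nat_lit 446) (nat_lit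 303)) (XT.lf (nat_lit 0) (nat_lit 804173062789) (nat_lit 0) (nat_lit 0) (nat_lit 0) (nat_lit 0) (nat_lit 0) (nat_lit 0) (nat_lit 1) (nat_lit 0) (nat_lit 1) (nat_lit 0) (nat_lit 332) (nat_lit 446) (nat_lit 302))))))) (XT.nd (nat_lit 846) (nat_lit 0) (nat_lit 0) (XT.nd (nat_lit 376) (nat_lit 0) (nat_lit 0) (XT.nd (nat_lit 188) (nat_lit 0) (nat_lit 0) (XT.nd (nat_lit 94) (nat_lit 0) (nat_lit 0) (XT.lf (nat_lit 0) (nat_lit 804172146593) (nat_lit 0) (nat_lit 0) (nat_lit 0) (nat_lit 0) (nat_lit 0) (nat_lit 0) (nat_lit 1) (nat_lit 0) (nat_lit 1) (nat_lit 0) (nat_lit 333) (nat_lit 446) (nat_lit 301)) (XT.lf (nat_lit 0) (nat_lit 804171298263) (nat_lit 0) (nat_lit 0) (nat_lit 0) (nat_lit 0) (nat_lit 0) (nat_lit 0) (nat_lit 1) (nat_lit 0) (nat_lit 1) (nat_lit 0) (nat_lit 334) (nat_lit 446) (nat_lit 300))) (XT.nd (nat_lit 94) (nat_lit 0) (nat_lit 0) (XT.lf (nat_lit 0)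 (nat_lit 804170512773) (nat_lit 0) (nat_lit 0) (nat_lit 0) (nat_lit 0) (nat_lit 0) (nat_lit 0) (nat_lit 1) (nat_lit 0) (nat_lit 1) (nat_lit 0) (nat_lit 335) (nat_lit 446) (nat_lit 299)) (XT.lf (nat_lit 0) (nat_lit 804169785467) (nat_lit 0) (nat_lit 0) (nat_lit 0) (nat_lit 0) (nat_lit 0) (nat_lit 0) (nat_lit 1) (nat_lit 0) (nat_lit 1) (nat_lit 0) (nat_lit 336) (nat_lit 446) (nat_lit 298)))) (XT.nd (nat_lit 188) (nat_lit 0) (nat_lit 0) (XT.nd (nat_lit 94) (nat_lit 0) (nat_lit 0) (XT.lf (nat_lit 0) (nat_lit 804169112036) (nat_lit 0) (nat_lit 0) (nat_lit 0) (nat_lit 0) (nat_lit 0) (nat_lit 0) (nat_lit 1) (nat_lit 0) (nat_lit 1) (nat_lit 0) (nat_lit 337) (nat_lit 446) (nat_lit 297)) (XT.lf (nat_lit 0) (nat_lit 804168488489) (nat_lit 0) (nat_lit 0) (nat_lit 0) (nat_lit 0) (nat_lit 0) (nat_lit 0) (nat_lit 1) (nat_lit 0) (nat_lit 1) (nat_lit 0) (nat_lit 338) (nat_lit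 446) (nat_lit 296))) (XT.nd (nat_lit 94) (nat_lit 0) (nat_lit 0) (XT.lf (nat_lit 0) (nat_lit 804167911130) (nat_lit 0) (nat_lit 0) (nat_lit 0) (nat_lit 0) (nat_lit 0) (nat_lit 0) (nat_lit 1) (nat_lit 0) (nat_lit 1) (nat_lit 0) (nat_lit 339) (nat_lit 446) (nat_lit 295)) (XT.nd (nat_lit 94) (nat_lit 0) (nat_lit 0) (XT.lf (nat_lit 0) (nat_lit 804167376539) (nat_lit 0) (nat_lit 0) (nat_lit 0) (nat_lit 0) (nat_lit 0) (nat_lit 0) (nat_lit 1) (nat_lit 0) (nat_lit 1) (nat_lit 0) (nat_lit 340) (nat_lit 446) (nat_lit 294)) (XT.lf (nat_lit 0) (nat_lit 804166881547) (nat_lit 0) (nat_lit 0) (nat_lit 0) (nat_lit 0) (nat_lit 0) (nat_lit 0) (nat_lit 1) (nat_lit 0) (nat_lit 1) (nat_lit 0) (nat_lit 341) (nat_lit 446) (nat_lit 293)))))) (XT.nd (nat_lit 470) (nat_lit 0) (nat_lit 0) (XT.nd (nat_lit 188) (nat_lit 0) (nat_lit 0) (XT.nd (nat_lit 94) (nat_lit 0) (nat_lit 0) (XT.lf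 (nat_lit 0) (nat_lit 804166423221) (nat_lit 0) (nat_lit 0) (nat_lit 0) (nat_lit 0) (nat_lit 0) (nat_lit 0) (nat_lit 1) (nat_lit 0) (nat_lit 1) (nat_lit 0) (nat_lit 342) (nat_lit 446) (nat_lit 292)) (XT.lf (nat_lit 0) (nat_lit 804165998845) (nat_lit 0) (nat_lit 0) (nat_lit 0) (nat_lit 0) (nat_lit 0) (nat_lit 0) (nat_lit 1) (nat_lit 0) (nat_lit 1) (nat_lit 0) (nat_lit 343) (nat_lit 446) (nat_lit 291))) (XT.nd (nat_lit 94) (nat_lit 0) (nat_lit 0) (XT.lf (nat_lit 0) (nat_lit 804165605904) (nat_lit 0) (nat_lit 0) (nat_lit 0) (nat_lit 0) (nat_lit 0) (nat_lit 0) (nat_lit 1) (nat_lit 0) (nat_lit 1) (nat_lit 0) (nat_lit 344) (nat_lit 446) (nat_lit 290)) (XT.nd (nat_lit 94) (nat_lit 0) (nat_lit 0) (XT.lf (nat_lit 0) (nat_lit 804165242070) (nat_lit 0) (nat_lit 0) (nat_lit 0) (nat_lit 0) (nat_lit 0) (nat_lit 0) (nat_lit 1) (nat_lit 0) (nat_lit 1) (nat_lit 0) (nat_lit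 345) (nat_lit 446) (nat_lit 289)) (XT.lf (nat_lit 0) (nat_lit 804164905187) (nat_lit 0) (nat_lit 0) (nat_lit 0) (nat_lit 0) (nat_lit 0) (nat_lit 0) (nat_lit 1) (nat_lit 0) (nat_lit 1) (nat_lit 0) (nat_lit 346) (nat_lit 446) (nat_lit 288))))) (XT.nd (nat_lit 188) (nat_lit 0) (nat_lit 0) (XT.nd (nat_lit 94) (nat_lit 0) (nat_lit 0) (XT.lf (nat_lit 0) (nat_lit 804164593258) (nat_lit 0) (nat_lit 0) (nat_lit 0) (nat_lit 0) (nat_lit 0) (nat_lit 0) (nat_lit 1) (nat_lit 0) (nat_lit 1) (nat_lit 0) (nat_lit 347) (nat_lit 446) (nat_lit 287)) (XT.lf (nat_lit 0) (nat_lit 804164304435) (nat_lit 0) (nat_lit 0) (nat_lit 0) (nat_lit 0) (nat_lit 0) (nat_lit 0) (nat_lit 1) (nat_lit 0) (nat_lit 1) (nat_lit 0) (nat_lit 348) (nat_lit 446) (nat_lit 286))) (XT.nd (nat_lit 94) (nat_lit 0) (nat_lit 0) (XT.lf (nat_lit 0) (nat_lit 804164037006) (nat_lit 0) (nat_lit 0) (nat_lit 0) (nat_lit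 0) (nat_lit 0) (nat_lit 0) (nat_lit 1) (nat_lit 0) (nat_lit 1) (nat_lit 0) (nat_lit 349) (nat_lit 446) (nat_lit 285)) (XT.nd (nat_lit 94) (nat_lit 0) (nat_lit 0) (XT.lf (nat_lit 0) (nat_lit 804163789387) (nat_lit 0) (nat_lit 0) (nat_lit 0) (nat_lit 0) (nat_lit 0) (nat_lit 0) (nat_lit 1) (nat_lit 0) (nat_lit 1) (nat_lit 0) (nat_lit 350) (nat_lit 446) (nat_lit 284)) (XT.lf (nat_lit 0) (nat_lit 804163560109) (nat_lit 0) (nat_lit 0) (nat_lit 0) (nat_lit 0) (nat_lit 0) (nat_lit 0) (nat_lit 1) (nat_lit 0) (nat_lit 1) (nat_lit 0) (nat_lit 351) (nat_lit 446) (nat_lit 283))))))))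
noncomputable def ec411 : XT := (XT.nd (nat_lit 1786) (nat_lit 0) (nat_lit 0) (XT.nd (nat_lit 846) (nat_lit 0) (nat_lit 0) (XT.nd (nat_lit 376) (nat_lit 0) (nat_lit 0) (XT.nd (nat_lit 188) (nat_lit 0) (nat_lit 0) (XT.nd (nat_lit 94) (nat_lit 0) (nat_lit 0) (XT.lf (nat_lit 0) (nat_lit 804163347816) (nat_lit 0) (nat_lit 0) (nat_lit 0) (nat_lit 0) (nat_lit 0) (nat_lit 0) (nat_lit 1) (nat_lit 0) (nat_lit 1) (nat_lit 0) (nat_lit 352) (nat_lit 446) (nat_lit 282)) (XT.lf (nat_lit 0) (nat_lit 804163151248) (nat_lit 0) (nat_lit 0) (nat_lit 0) (nat_lit 0) (nat_lit 0) (nat_lit 0) (nat_lit 1) (nat_lit 0) (nat_lit 1) (nat_lit 0) (nat_lit 353) (nat_lit 446) (nat_lit 281))) (XT.nd (nat_lit 94) (nat_lit 0) (nat_lit 0) (XT.lf (nat_lit 0) (nat_lit 804162969240) (nat_lit 0) (nat_lit 0) (nat_lit 0) (nat_lit 0) (nat_lit 0) (nat_lit 0) (nat_lit 1) (nat_lit 0) (nat_lit 1) (nat_lit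 0) (nat_lit 354) (nat_lit 446) (nat_lit 280)) (XT.lf (nat_lit 0) (nat_lit 804162800715) (nat_lit 0) (nat_lit 0) (nat_lit 0) (nat_lit 0) (nat_lit 0) (nat_lit 0) (nat_lit 1) (nat_lit 0) (nat_lit 1) (nat_lit 0) (nat_lit 355) (nat_lit 446) (nat_lit 279)))) (XT.nd (nat_lit 188) (nat_lit 0) (nat_lit 0) (XT.nd (nat_lit 94) (nat_lit 0) (nat_lit 0) (XT.lf (nat_lit 0) (nat_lit 804162644672) (nat_lit 0) (nat_lit 0) (nat_lit 0) (nat_lit 0) (nat_lit 0) (nat_lit 0) (nat_lit 1) (nat_lit 0) (nat_lit 1) (nat_lit 0) (nat_lit 356) (nat_lit 446) (nat_lit 278)) (XT.lf (nat_lit 0) (nat_lit 804162500189) (nat_lit 0) (nat_lit 0) (nat_lit 0) (nat_lit 0) (nat_lit 0) (nat_lit 0) (nat_lit 1) (nat_lit 0) (nat_lit 1) (nat_lit 0) (nat_lit 357) (nat_lit 446) (nat_lit 277))) (XT.nd (nat_lit 94) (nat_lit 0) (nat_lit 0) (XT.lf (nat_lit 0) (nat_lit 804162366408) (nat_lit 0) (nat_lit 0) (nat_lit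 0) (nat_lit 0) (nat_lit 0) (nat_lit 0) (nat_lit 1) (nat_lit 0) (nat_lit 1) (nat_lit 0) (nat_lit 358) (nat_lit 446) (nat_lit 276)) (XT.nd (nat_lit 94) (nat_lit 0) (nat_lit 0) (XT.lf (nat_lit 0) (nat_lit 804162242537) (nat_lit 0) (nat_lit 0) (nat_lit 0) (nat_lit 0) (nat_lit 0) (nat_lit 0) (nat_lit 1) (nat_lit 0) (nat_lit 1) (nat_lit 0) (nat_lit 359) (nat_lit 446) (nat_lit 275)) (XT.lf (nat_lit 0) (nat_lit 804162127841) (nat_lit 0) (nat_lit 0) (nat_lit 0) (nat_lit 0) (nat_lit 0) (nat_lit 0) (nat_lit 1) (nat_lit 0) (nat_lit 1) (nat_lit 0) (nat_lit 360) (nat_lit 446) (nat_lit 274)))))) (XT.nd (nat_lit 470) (nat_lit 0) (nat_lit 0) (XT.nd (nat_lit 188) (nat_lit 0) (nat_lit 0) (XT.nd (nat_lit 94) (nat_lit 0) (nat_lit 0) (XT.lf (nat_lit 0) (nat_lit 804162021641) (nat_lit 0) (nat_lit 0) (nat_lit 0) (nat_lit 0) (nat_lit 0) (nat_lit 0) (nat_lit 1) (nat_lit 0) (nat_lit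 1) (nat_lit 0) (nat_lit 361) (nat_lit 446) (nat_lit 273)) (XT.lf (nat_lit 0) (nat_lit 804161923308) (nat_lit 0) (nat_lit 0) (nat_lit 0) (nat_lit 0) (nat_lit 0) (nat_lit 0) (nat_lit 1) (nat_lit 0) (nat_lit 1) (nat_lit 0) (nat_lit 362) (nat_lit 446) (nat_lit 272))) (XT.nd (nat_lit 94) (nat_lit 0) (nat_lit 0) (XT.lf (nat_lit 0) (nat_lit 804161832259) (nat_lit 0) (nat_lit 0) (nat_lit 0) (nat_lit 0) (nat_lit 0) (nat_lit 0) (nat_lit 1) (nat_lit 0) (nat_lit 1) (nat_lit 0) (nat_lit 363) (nat_lit 446) (nat_lit 271)) (XT.nd (nat_lit 94) (nat_lit 0) (nat_lit 0) (XT.lf (nat_lit 0) (nat_lit 804161747955) (nat_lit 0) (nat_lit 0) (nat_lit 0) (nat_lit 0) (nat_lit 0) (nat_lit 0) (nat_lit 1) (nat_lit 0) (nat_lit 1) (nat_lit 0) (nat_lit 364) (nat_lit 446) (nat_lit 270)) (XT.lf (nat_lit 0) (nat_lit 804161669895) (nat_lit 0) (nat_lit 0) (nat_lit 0) (nat_lit 0) (nat_lit 0) (nat_lit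 0) (nat_lit 1) (nat_lit 0) (nat_lit 1) (nat_lit 0) (nat_lit 365) (nat_lit 446) (nat_lit 269))))) (XT.nd (nat_lit 188) (nat_lit 0) (nat_lit 0) (XT.nd (nat_lit 94) (nat_lit 0) (nat_lit 0) (XT.lf (nat_lit 0) (nat_lit 804161597617) (nat_lit 0) (nat_lit 0) (nat_lit 0) (nat_lit 0) (nat_lit 0) (nat_lit 0) (nat_lit 1) (nat_lit 0) (nat_lit 1) (nat_lit 0) (nat_lit 366) (nat_lit 446) (nat_lit 268)) (XT.lf (nat_lit 0) (nat_lit 804161530693) (nat_lit 0) (nat_lit 0) (nat_lit 0) (nat_lit 0) (nat_lit 0) (nat_lit 0) (nat_lit 1) (nat_lit 0) (nat_lit 1) (nat_lit 0) (nat_lit 367) (nat_lit 446) (nat_lit 267))) (XT.nd (nat_lit 94) (nat_lit 0) (nat_lit 0) (XT.lf (nat_lit 0) (nat_lit 804161468727) (nat_lit 0) (nat_lit 0) (nat_lit 0) (nat_lit 0) (nat_lit 0) (nat_lit 0) (nat_lit 1) (nat_lit 0) (nat_lit 1) (nat_lit 0) (nat_lit 368) (nat_lit 446) (nat_lit 266)) (XT.nd (nat_lit 94) (nat_lit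 0) (nat_lit 0) (XT.lf (nat_lit 0) (nat_lit 804161411350) (nat_lit 0) (nat_lit 0) (nat_lit 0) (nat_lit 0) (nat_lit 0) (nat_lit 0) (nat_lit 1) (nat_lit 0) (nat_lit 1) (nat_lit 0) (nat_lit 369) (nat_lit 446) (nat_lit 265)) (XT.lf (nat_lit 0) (nat_lit 804161358224) (nat_lit 0) (nat_lit 0) (nat_lit 0) (nat_lit 0) (nat_lit 0) (nat_lit 0) (nat_lit 1) (nat_lit 0) (nat_lit 1) (nat_lit 0) (nat_lit 370) (nat_lit 446) (nat_lit 264))))))) (XT.nd (nat_lit 846) (nat_lit 0) (nat_lit 0) (XT.nd (nat_lit 376) (nat_lit 0) (nat_lit 0) (XT.nd (nat_lit 188) (nat_lit 0) (nat_lit 0) (XT.nd (nat_lit 94) (nat_lit 0) (nat_lit 0) (XT.lf (nat_lit 0) (nat_lit 804161309033) (nat_lit 0) (nat_lit 0) (nat_lit 0) (nat_lit 0) (nat_lit 0) (nat_lit 0) (nat_lit 1) (nat_lit 0) (nat_lit 1) (nat_lit 0) (nat_lit 371) (nat_lit 446) (nat_lit 263)) (XT.lf (nat_lit 0) (nat_lit 804161263486) (nat_lit 0)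 (nat_lit 0) (nat_lit 0) (nat_lit 0) (nat_lit 0) (nat_lit 0) (nat_lit 1) (nat_lit 0) (nat_lit 1) (nat_lit 0) (nat_lit 372) (nat_lit 446) (nat_lit 262))) (XT.nd (nat_lit 94) (nat_lit 0) (nat_lit 0) (XT.lf (nat_lit 0) (nat_lit 804161221313) (nat_lit 0) (nat_lit 0) (nat_lit 0) (nat_lit 0) (nat_lit 0) (nat_lit 0) (nat_lit 1) (nat_lit 0) (nat_lit 1) (nat_lit 0) (nat_lit 373) (nat_lit 446) (nat_lit 261)) (XT.lf (nat_lit 0) (nat_lit 804161182263) (nat_lit 0) (nat_lit 0) (nat_lit 0) (nat_lit 0) (nat_lit 0) (nat_lit 0) (nat_lit 1) (nat_lit 0) (nat_lit 1) (nat_lit 0) (nat_lit 374) (nat_lit 446) (nat_lit 260)))) (XT.nd (nat_lit 188) (nat_lit 0) (nat_lit 0) (XT.nd (nat_lit 94) (nat_lit 0) (nat_lit 0) (XT.lf (nat_lit 0) (nat_lit 804161146106) (nat_lit 0) (nat_lit 0) (nat_lit 0) (nat_lit 0) (nat_lit 0) (nat_lit 0) (nat_lit 1) (nat_lit 0) (nat_lit 1) (nat_lit 0) (nat_lit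 375) (nat_lit 446) (nat_lit 259)) (XT.lf (nat_lit 0) (nat_lit 804161112628) (nat_lit 0) (nat_lit 0) (nat_lit 0) (nat_lit 0) (nat_lit 0) (nat_lit 0) (nat_lit 1) (nat_lit 0) (nat_lit 1) (nat_lit 0) (nat_lit 376) (nat_lit 446) (nat_lit 258))) (XT.nd (nat_lit 94) (nat_lit 0) (nat_lit 0) (XT.lf (nat_lit 0) (nat_lit 804161081629) (nat_lit 0) (nat_lit 0) (nat_lit 0) (nat_lit 0) (nat_lit 0) (nat_lit 0) (nat_lit 1) (nat_lit 0) (nat_lit 1) (nat_lit 0) (nat_lit 377) (nat_lit 446) (nat_lit 257)) (XT.nd (nat_lit 94) (nat_lit 0) (nat_lit 0) (XT.lf (nat_lit 0) (nat_lit 804161052927) (nat_lit 0) (nat_lit 0) (nat_lit 0) (nat_lit 0) (nat_lit 0) (nat_lit 0) (nat_lit 1) (nat_lit 0) (nat_lit 1) (nat_lit 0) (nat_lit 378) (nat_lit 446) (nat_lit 256)) (XT.lf (nat_lit 0) (nat_lit 804161026350) (nat_lit 0) (nat_lit 0) (nat_lit 0) (nat_lit 0) (nat_lit 0) (nat_lit 0) (nat_lit 1) (nat_lit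 0) (nat_lit 1) (nat_lit 0) (nat_lit 379) (nat_lit 446) (nat_lit 255)))))) (XT.nd (nat_lit 470) (nat_lit 0) (nat_lit 0) (XT.nd (nat_lit 188) (nat_lit 0) (nat_lit 0) (XT.nd (nat_lit 94) (nat_lit 0) (nat_lit 0) (XT.lf (nat_lit 0) (nat_lit 804161001742) (nat_lit 0) (nat_lit 0) (nat_lit 0) (nat_lit 0) (nat_lit 0) (nat_lit 0) (nat_lit 1) (nat_lit 0) (nat_lit 1) (nat_lit 0) (nat_lit 380) (nat_lit 446) (nat_lit 254)) (XT.lf (nat_lit 0) (nat_lit 804160978958) (nat_lit 0) (nat_lit 0) (nat_lit 0) (nat_lit 0) (nat_lit 0) (nat_lit 0) (nat_lit 1) (nat_lit 0) (nat_lit 1) (nat_lit 0) (nat_lit 381) (nat_lit 446) (nat_lit 253))) (XT.nd (nat_lit 94) (nat_lit 0) (nat_lit 0) (XT.lf (nat_lit 0) (nat_lit 804160957860) (nat_lit 0) (nat_lit 0) (nat_lit 0) (nat_lit 0) (nat_lit 0) (nat_lit 0) (nat_lit 1) (nat_lit 0) (nat_lit 1) (nat_lit 0) (nat_lit 382) (nat_lit 446) (nat_lit 252))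 (XT.nd (nat_lit 94) (nat_lit 0) (nat_lit 0) (XT.lf (nat_lit 0) (nat_lit 804160938326) (nat_lit 0) (nat_lit 0) (nat_lit 0) (nat_lit 0) (nat_lit 0) (nat_lit 0) (nat_lit 1) (nat_lit 0) (nat_lit 1) (nat_lit 0) (nat_lit 383) (nat_lit 446) (nat_lit 251)) (XT.lf (nat_lit 0) (nat_lit 804160920239) (nat_lit 0) (nat_lit 0) (nat_lit 0) (nat_lit 0) (nat_lit 0) (nat_lit 0) (nat_lit 1) (nat_lit 0) (nat_lit 1) (nat_lit 0) (nat_lit 384) (nat_lit 446) (nat_lit 250))))) (XT.nd (nat_lit 188) (nat_lit 0) (nat_lit 0) (XT.nd (nat_lit 94) (nat_lit 0) (nat_lit 0) (XT.lf (nat_lit 0) (nat_lit 804160903491) (nat_lit 0) (nat_lit 0) (nat_lit 0) (nat_lit 0) (nat_lit 0) (nat_lit 0) (nat_lit 1) (nat_lit 0) (nat_lit 1) (nat_lit 0) (nat_lit 385) (nat_lit 446) (nat_lit 249)) (XT.lf (nat_lit 0) (nat_lit 804160887984) (nat_lit 0) (nat_lit 0) (nat_lit 0) (nat_lit 0) (nat_lit 0) (nat_lit 0) (nat_lit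 1) (nat_lit 0) (nat_lit 1) (nat_lit 0) (nat_lit 386) (nat_lit 446) (nat_lit 248))) (XT.nd (nat_lit 94) (nat_lit 0) (nat_lit 0) (XT.lf (nat_lit 0) (nat_lit 804160873625) (nat_lit 0) (nat_lit 0) (nat_lit 0) (nat_lit 0) (nat_lit 0) (nat_lit 0) (nat_lit 1) (nat_lit 0) (nat_lit 1) (nat_lit 0) (nat_lit 387) (nat_lit 446) (nat_lit 247)) (XT.nd (nat_lit 94) (nat_lit 0) (nat_lit 0) (XT.lf (nat_lit 0) (nat_lit 804160860331) (nat_lit 0) (nat_lit 0) (nat_lit 0) (nat_lit 0) (nat_lit 0) (nat_lit 0) (nat_lit 1) (nat_lit 0) (nat_lit 1) (nat_lit 0) (nat_lit 388) (nat_lit 446) (nat_lit 246)) (XT.lf (nat_lit 0) (nat_lit 804160848021) (nat_lit 0) (nat_lit 0) (nat_lit 0) (nat_lit 0) (nat_lit 0) (nat_lit 0) (nat_lit 1) (nat_lit 0) (nat_lit 1) (nat_lit 0) (nat_lit 389) (nat_lit 446) (nat_lit 245))))))))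
noncomputable def ec412 : XT := (XT.nd (nat_lit 1692) (nat_lit 0) (nat_lit 0) (XT.nd (nat_lit 846) (nat_lit 0) (nat_lit 0) (XT.nd (nat_lit 376) (nat_lit 0) (nat_lit 0) (XT.nd (nat_lit 188) (nat_lit 0) (nat_lit 0) (XT.nd (nat_lit 94) (nat_lit 0) (nat_lit 0) (XT.lf (nat_lit 0) (nat_lit 804160836623) (nat_lit 0) (nat_lit 0) (nat_lit 0) (nat_lit 0) (nat_lit 0) (nat_lit 0) (nat_lit 1) (nat_lit 0) (nat_lit 1) (nat_lit 0) (nat_lit 390) (nat_lit 446) (nat_lit 244)) (XT.lf (nat_lit 0) (nat_lit 804160826069) (nat_lit 0) (nat_lit 0) (nat_lit 0) (nat_lit 0) (nat_lit 0) (nat_lit 0) (nat_lit 1) (nat_lit 0) (nat_lit 1) (nat_lit 0) (nat_lit 391) (nat_lit 446) (nat_lit 243))) (XT.nd (nat_lit 94) (nat_lit 0) (nat_lit 0) (XT.lf (nat_lit 0) (nat_lit 804160816297) (nat_lit 0) (nat_lit 0) (nat_lit 0) (nat_lit 0) (nat_lit 0) (nat_lit 0) (nat_lit 1) (nat_lit 0) (nat_lit 1) (nat_lit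 0) (nat_lit 392) (nat_lit 446) (nat_lit 242)) (XT.lf (nat_lit 0) (nat_lit 804160807248) (nat_lit 0) (nat_lit 0) (nat_lit 0) (nat_lit 0) (nat_lit 0) (nat_lit 0) (nat_lit 1) (nat_lit 0) (nat_lit 1) (nat_lit 0) (nat_lit 393) (nat_lit 446) (nat_lit 241)))) (XT.nd (nat_lit 188) (nat_lit 0) (nat_lit 0) (XT.nd (nat_lit 94) (nat_lit 0) (nat_lit 0) (XT.lf (nat_lit 0) (nat_lit 804160798870) (nat_lit 0) (nat_lit 0) (nat_lit 0) (nat_lit 0) (nat_lit 0) (nat_lit 0) (nat_lit 1) (nat_lit 0) (nat_lit 1) (nat_lit 0) (nat_lit 394) (nat_lit 446) (nat_lit 240)) (XT.lf (nat_lit 0) (nat_lit 804160791113) (nat_lit 0) (nat_lit 0) (nat_lit 0) (nat_lit 0) (nat_lit 0) (nat_lit 0) (nat_lit 1) (nat_lit 0) (nat_lit 1) (nat_lit 0) (nat_lit 395) (nat_lit 446) (nat_lit 239))) (XT.nd (nat_lit 94) (nat_lit 0) (nat_lit 0) (XT.lf (nat_lit 0) (nat_lit 804160783930) (nat_lit 0) (nat_lit 0) (nat_lit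 0) (nat_lit 0) (nat_lit 0) (nat_lit 0) (nat_lit 1) (nat_lit 0) (nat_lit 1) (nat_lit 0) (nat_lit 396) (nat_lit 446) (nat_lit 238)) (XT.nd (nat_lit 94) (nat_lit 0) (nat_lit 0) (XT.lf (nat_lit 0) (nat_lit 804160777280) (nat_lit 0) (nat_lit 0) (nat_lit 0) (nat_lit 0) (nat_lit 0) (nat_lit 0) (nat_lit 1) (nat_lit 0) (nat_lit 1) (nat_lit 0) (nat_lit 397) (nat_lit 446) (nat_lit 237)) (XT.lf (nat_lit 0) (nat_lit 804160771121) (nat_lit 0) (nat_lit 0) (nat_lit 0) (nat_lit 0) (nat_lit 0) (nat_lit 0) (nat_lit 1) (nat_lit 0) (nat_lit 1) (nat_lit 0) (nat_lit 398) (nat_lit 446) (nat_lit 236)))))) (XT.nd (nat_lit 376) (nat_lit 0) (nat_lit 0) (XT.nd (nat_lit 188) (nat_lit 0) (nat_lit 0) (XT.nd (nat_lit 94) (nat_lit 0) (nat_lit 0) (XT.lf (nat_lit 0) (nat_lit 804160765420) (nat_lit 0) (nat_lit 0) (nat_lit 0) (nat_lit 0) (nat_lit 0) (nat_lit 0) (nat_lit 1) (nat_lit 0) (nat_lit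 1) (nat_lit 0) (nat_lit 399) (nat_lit 446) (nat_lit 235)) (XT.lf (nat_lit 0) (nat_lit 804160760140) (nat_lit 0) (nat_lit 0) (nat_lit 0) (nat_lit 0) (nat_lit 0) (nat_lit 0) (nat_lit 1) (nat_lit 0) (nat_lit 1) (nat_lit 0) (nat_lit 400) (nat_lit 446) (nat_lit 234))) (XT.nd (nat_lit 94) (nat_lit 0) (nat_lit 0) (XT.lf (nat_lit 0) (nat_lit 804160755252) (nat_lit 0) (nat_lit 0) (nat_lit 0) (nat_lit 0) (nat_lit 0) (nat_lit 0) (nat_lit 1) (nat_lit 0) (nat_lit 1) (nat_lit 0) (nat_lit 401) (nat_lit 446) (nat_lit 233)) (XT.lf (nat_lit 0) (nat_lit 804160750725) (nat_lit 0) (nat_lit 0) (nat_lit 0) (nat_lit 0) (nat_lit 0) (nat_lit 0) (nat_lit 1) (nat_lit 0) (nat_lit 1) (nat_lit 0) (nat_lit 402) (nat_lit 446) (nat_lit 232)))) (XT.nd (nat_lit 188) (nat_lit 0) (nat_lit 0) (XT.nd (nat_lit 94) (nat_lit 0) (nat_lit 0) (XT.lf (nat_lit 0) (nat_lit 804160746534) (nat_lit 0) (nat_lit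 0) (nat_lit 0) (nat_lit 0) (nat_lit 0) (nat_lit 0) (nat_lit 1) (nat_lit 0) (nat_lit 1) (nat_lit 0) (nat_lit 403) (nat_lit 446) (nat_lit 231)) (XT.lf (nat_lit 0) (nat_lit 804160742654) (nat_lit 0) (nat_lit 0) (nat_lit 0) (nat_lit 0) (nat_lit 0) (nat_lit 0) (nat_lit 1) (nat_lit 0) (nat_lit 1) (nat_lit 0) (nat_lit 404) (nat_lit 446) (nat_lit 230))) (XT.nd (nat_lit 94) (nat_lit 0) (nat_lit 0) (XT.lf (nat_lit 0) (nat_lit 804160739060) (nat_lit 0) (nat_lit 0) (nat_lit 0) (nat_lit 0) (nat_lit 0) (nat_lit 0) (nat_lit 1) (nat_lit 0) (nat_lit 1) (nat_lit 0) (nat_lit 405) (nat_lit 446) (nat_lit 229)) (XT.nd (nat_lit 94) (nat_lit 0) (nat_lit 0) (XT.lf (nat_lit 0) (nat_lit 804160735733) (nat_lit 0) (nat_lit 0) (nat_lit 0) (nat_lit 0) (nat_lit 0) (nat_lit 0) (nat_lit 1) (nat_lit 0) (nat_lit 1) (nat_lit 0) (nat_lit 406) (nat_lit 446) (nat_lit 228)) (XT.lf (nat_lit 0) (nat_lit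 804160732653) (nat_lit 0) (nat_lit 0) (nat_lit 0) (nat_lit 0) (nat_lit 0) (nat_lit 0) (nat_lit 1) (nat_lit 0) (nat_lit 1) (nat_lit 0) (nat_lit 407) (nat_lit 446) (nat_lit 227))))))) (XT.nd (nat_lit 846) (nat_lit 0) (nat_lit 0) (XT.nd (nat_lit 376) (nat_lit 0) (nat_lit 0) (XT.nd (nat_lit 188) (nat_lit 0) (nat_lit 0) (XT.nd (nat_lit 94) (nat_lit 0) (nat_lit 0) (XT.lf (nat_lit 0) (nat_lit 804160729800) (nat_lit 0) (nat_lit 0) (nat_lit 0) (nat_lit 0) (nat_lit 0) (nat_lit 0) (nat_lit 1) (nat_lit 0) (nat_lit 1) (nat_lit 0) (nat_lit 408) (nat_lit 446) (nat_lit 226)) (XT.lf (nat_lit 0) (nat_lit 804160727159) (nat_lit 0) (nat_lit 0) (nat_lit 0) (nat_lit 0) (nat_lit 0) (nat_lit 0) (nat_lit 1) (nat_lit 0) (nat_lit 1) (nat_lit 0) (nat_lit 409) (nat_lit 446) (nat_lit 225))) (XT.nd (nat_lit 94) (nat_lit 0) (nat_lit 0) (XT.lf (nat_lit 0) (nat_lit 804160724714) (nat_lit 0)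 (nat_lit 0) (nat_lit 0) (nat_lit 0) (nat_lit 0) (nat_lit 0) (nat_lit 1) (nat_lit 0) (nat_lit 1) (nat_lit 0) (nat_lit 410) (nat_lit 446) (nat_lit 224)) (XT.lf (nat_lit 0) (nat_lit 804160722450) (nat_lit 0) (nat_lit 0) (nat_lit 0) (nat_lit 0) (nat_lit 0) (nat_lit 0) (nat_lit 1) (nat_lit 0) (nat_lit 1) (nat_lit 0) (nat_lit 411) (nat_lit 446) (nat_lit 223)))) (XT.nd (nat_lit 188) (nat_lit 0) (nat_lit 0) (XT.nd (nat_lit 94) (nat_lit 0) (nat_lit 0) (XT.lf (nat_lit 0) (nat_lit 804160720353) (nat_lit 0) (nat_lit 0) (nat_lit 0) (nat_lit 0) (nat_lit 0) (nat_lit 0) (nat_lit 1) (nat_lit 0) (nat_lit 1) (nat_lit 0) (nat_lit 412) (nat_lit 446) (nat_lit 222)) (XT.lf (nat_lit 0) (nat_lit 804160718412) (nat_lit 0) (nat_lit 0) (nat_lit 0) (nat_lit 0) (nat_lit 0) (nat_lit 0) (nat_lit 1) (nat_lit 0) (nat_lit 1) (nat_lit 0) (nat_lit 413) (nat_lit 446) (nat_lit 221))) (XT.nd (nat_lit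 94) (nat_lit 0) (nat_lit 0) (XT.lf (nat_lit 0) (nat_lit 804160716614) (nat_lit 0) (nat_lit 0) (nat_lit 0) (nat_lit 0) (nat_lit 0) (nat_lit 0) (nat_lit 1) (nat_lit 0) (nat_lit 1) (nat_lit 0) (nat_lit 414) (nat_lit 446) (nat_lit 220)) (XT.nd (nat_lit 94) (nat_lit 0) (nat_lit 0) (XT.lf (nat_lit 0) (nat_lit 804160714950) (nat_lit 0) (nat_lit 0) (nat_lit 0) (nat_lit 0) (nat_lit 0) (nat_lit 0) (nat_lit 1) (nat_lit 0) (nat_lit 1) (nat_lit 0) (nat_lit 415) (nat_lit 446) (nat_lit 219)) (XT.lf (nat_lit 0) (nat_lit 804160713409) (nat_lit 0) (nat_lit 0) (nat_lit 0) (nat_lit 0) (nat_lit 0) (nat_lit 0) (nat_lit 1) (nat_lit 0) (nat_lit 1) (nat_lit 0) (nat_lit 416) (nat_lit 446) (nat_lit 218)))))) (XT.nd (nat_lit 470) (nat_lit 0) (nat_lit 0) (XT.nd (nat_lit 188) (nat_lit 0) (nat_lit 0) (XT.nd (nat_lit 94) (nat_lit 0) (nat_lit 0) (XT.lf (nat_lit 0) (nat_lit 804160711982) (nat_lit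 0) (nat_lit 0) (nat_lit 0) (nat_lit 0) (nat_lit 0) (nat_lit 0) (nat_lit 1) (nat_lit 0) (nat_lit 1) (nat_lit 0) (nat_lit 417) (nat_lit 446) (nat_lit 217)) (XT.lf (nat_lit 0) (nat_lit 804160710661) (nat_lit 0) (nat_lit 0) (nat_lit 0) (nat_lit 0) (nat_lit 0) (nat_lit 0) (nat_lit 1) (nat_lit 0) (nat_lit 1) (nat_lit 0) (nat_lit 418) (nat_lit 446) (nat_lit 216))) (XT.nd (nat_lit 94) (nat_lit 0) (nat_lit 0) (XT.lf (nat_lit 0) (nat_lit 804160709437) (nat_lit 0) (nat_lit 0) (nat_lit 0) (nat_lit 0) (nat_lit 0) (nat_lit 0) (nat_lit 1) (nat_lit 0) (nat_lit 1) (nat_lit 0) (nat_lit 419) (nat_lit 446) (nat_lit 215)) (XT.nd (nat_lit 94) (nat_lit 0) (nat_lit 0) (XT.lf (nat_lit 0) (nat_lit 804160708305) (nat_lit 0) (nat_lit 0) (nat_lit 0) (nat_lit 0) (nat_lit 0) (nat_lit 0) (nat_lit 1) (nat_lit 0) (nat_lit 1) (nat_lit 0) (nat_lit 420) (nat_lit 446) (nat_lit 214)) (XT.lf (nat_lit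 0) (nat_lit 804160707256) (nat_lit 0) (nat_lit 0) (nat_lit 0) (nat_lit 0) (nat_lit 0) (nat_lit 0) (nat_lit 1) (nat_lit 0) (nat_lit 1) (nat_lit 0) (nat_lit 421) (nat_lit 446) (nat_lit 213))))) (XT.nd (nat_lit 188) (nat_lit 0) (nat_lit 0) (XT.nd (nat_lit 94) (nat_lit 0) (nat_lit 0) (XT.lf (nat_lit 0) (nat_lit 804160706285) (nat_lit 0) (nat_lit 0) (nat_lit 0) (nat_lit 0) (nat_lit 0) (nat_lit 0) (nat_lit 1) (nat_lit 0) (nat_lit 1) (nat_lit 0) (nat_lit 422) (nat_lit 446) (nat_lit 212)) (XT.lf (nat_lit 0) (nat_lit 804160705386) (nat_lit 0) (nat_lit 0) (nat_lit 0) (nat_lit 0) (nat_lit 0) (nat_lit 0) (nat_lit 1) (nat_lit 0) (nat_lit 1) (nat_lit 0) (nat_lit 423) (nat_lit 446) (nat_lit 211))) (XT.nd (nat_lit 94) (nat_lit 0) (nat_lit 0) (XT.lf (nat_lit 0) (nat_lit 804160704553) (nat_lit 0) (nat_lit 0) (nat_lit 0) (nat_lit 0) (nat_lit 0) (nat_lit 0) (nat_lit 1) (nat_lit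 0) (nat_lit 1) (nat_lit 0) (nat_lit 424) (nat_lit 446) (nat_lit 210)) (XT.nd (nat_lit 94) (nat_lit 0) (nat_lit 0) (XT.lf (nat_lit 0) (nat_lit 804160703782) (nat_lit 0) (nat_lit 0) (nat_lit 0) (nat_lit 0) (nat_lit 0) (nat_lit 0) (nat_lit 1) (nat_lit 0) (nat_lit 1) (nat_lit 0) (nat_lit 425) (nat_lit 446) (nat_lit 209)) (XT.lf (nat_lit 0) (nat_lit 804160703068) (nat_lit 0) (nat_lit 0) (nat_lit 0) (nat_lit 0) (nat_lit 0) (nat_lit 0) (nat_lit 1) (nat_lit 0) (nat_lit 1) (nat_lit 0) (nat_lit 426) (nat_lit 446) (nat_lit 208))))))))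
noncomputable def ec413 : XT := (XT.nd (nat_lit 1786) (nat_lit 0) (nat_lit 0) (XT.nd (nat_lit 846) (nat_lit 0) (nat_lit 0) (XT.nd (nat_lit 376) (nat_lit 0) (nat_lit 0) (XT.nd (nat_lit 188) (nat_lit 0) (nat_lit 0) (XT.nd (nat_lit 94) (nat_lit 0) (nat_lit 0) (XT.lf (nat_lit 0) (nat_lit 804160702407) (nat_lit 0) (nat_lit 0) (nat_lit 0) (nat_lit 0) (nat_lit 0) (nat_lit 0) (nat_lit 1) (nat_lit 0) (nat_lit 1) (nat_lit 0) (nat_lit 427) (nat_lit 446) (nat_lit 207)) (XT.lf (nat_lit 0) (nat_lit 804160701795) (nat_lit 0) (nat_lit 0) (nat_lit 0) (nat_lit 0) (nat_lit 0) (nat_lit 0) (nat_lit 1) (nat_lit 0) (nat_lit 1) (nat_lit 0) (nat_lit 428) (nat_lit 446) (nat_lit 206))) (XT.nd (nat_lit 94) (nat_lit 0) (nat_lit 0) (XT.lf (nat_lit 0) (nat_lit 804160701229) (nat_lit 0) (nat_lit 0) (nat_lit 0) (nat_lit 0) (nat_lit 0) (nat_lit 0) (nat_lit 1) (nat_lit 0) (nat_lit 1) (nat_lit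 0) (nat_lit 429) (nat_lit 446) (nat_lit 205)) (XT.lf (nat_lit 0) (nat_lit 804160700704) (nat_lit 0) (nat_lit 0) (nat_lit 0) (nat_lit 0) (nat_lit 0) (nat_lit 0) (nat_lit 1) (nat_lit 0) (nat_lit 1) (nat_lit 0) (nat_lit 430) (nat_lit 446) (nat_lit 204)))) (XT.nd (nat_lit 188) (nat_lit 0) (nat_lit 0) (XT.nd (nat_lit 94) (nat_lit 0) (nat_lit 0) (XT.lf (nat_lit 0) (nat_lit 804160700218) (nat_lit 0) (nat_lit 0) (nat_lit 0) (nat_lit 0) (nat_lit 0) (nat_lit 0) (nat_lit 1) (nat_lit 0) (nat_lit 1) (nat_lit 0) (nat_lit 431) (nat_lit 446) (nat_lit 203)) (XT.lf (nat_lit 0) (nat_lit 804160699768) (nat_lit 0) (nat_lit 0) (nat_lit 0) (nat_lit 0) (nat_lit 0) (nat_lit 0) (nat_lit 1) (nat_lit 0) (nat_lit 1) (nat_lit 0) (nat_lit 432) (nat_lit 446) (nat_lit 202))) (XT.nd (nat_lit 94) (nat_lit 0) (nat_lit 0) (XT.lf (nat_lit 0) (nat_lit 804160699352) (nat_lit 0) (nat_lit 0) (nat_lit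 0) (nat_lit 0) (nat_lit 0) (nat_lit 0) (nat_lit 1) (nat_lit 0) (nat_lit 1) (nat_lit 0) (nat_lit 433) (nat_lit 446) (nat_lit 201)) (XT.nd (nat_lit 94) (nat_lit 0) (nat_lit 0) (XT.lf (nat_lit 0) (nat_lit 804160698966) (nat_lit 0) (nat_lit 0) (nat_lit 0) (nat_lit 0) (nat_lit 0) (nat_lit 0) (nat_lit 1) (nat_lit 0) (nat_lit 1) (nat_lit 0) (nat_lit 434) (nat_lit 446) (nat_lit 200)) (XT.lf (nat_lit 0) (nat_lit 804160698609) (nat_lit 0) (nat_lit 0) (nat_lit 0) (nat_lit 0) (nat_lit 0) (nat_lit 0) (nat_lit 1) (nat_lit 0) (nat_lit 1) (nat_lit 0) (nat_lit 435) (nat_lit 446) (nat_lit 199)))))) (XT.nd (nat_lit 470) (nat_lit 0) (nat_lit 0) (XT.nd (nat_lit 188) (nat_lit 0) (nat_lit 0) (XT.nd (nat_lit 94) (nat_lit 0) (nat_lit 0) (XT.lf (nat_lit 0) (nat_lit 804160698279) (nat_lit 0) (nat_lit 0) (nat_lit 0) (nat_lit 0) (nat_lit 0) (nat_lit 0) (nat_lit 1) (nat_lit 0) (nat_lit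 1) (nat_lit 0) (nat_lit 436) (nat_lit 446) (nat_lit 198)) (XT.lf (nat_lit 0) (nat_lit 804160697972) (nat_lit 0) (nat_lit 0) (nat_lit 0) (nat_lit 0) (nat_lit 0) (nat_lit 0) (nat_lit 1) (nat_lit 0) (nat_lit 1) (nat_lit 0) (nat_lit 437) (nat_lit 446) (nat_lit 197))) (XT.nd (nat_lit 94) (nat_lit 0) (nat_lit 0) (XT.lf (nat_lit 0) (nat_lit 804160697689) (nat_lit 0) (nat_lit 0) (nat_lit 0) (nat_lit 0) (nat_lit 0) (nat_lit 0) (nat_lit 1) (nat_lit 0) (nat_lit 1) (nat_lit 0) (nat_lit 438) (nat_lit 446) (nat_lit 196)) (XT.nd (nat_lit 94) (nat_lit 0) (nat_lit 0) (XT.lf (nat_lit 0) (nat_lit 804160697426) (nat_lit 0) (nat_lit 0) (nat_lit 0) (nat_lit 0) (nat_lit 0) (nat_lit 0) (nat_lit 1) (nat_lit 0) (nat_lit 1) (nat_lit 0) (nat_lit 439) (nat_lit 446) (nat_lit 195)) (XT.lf (nat_lit 0) (nat_lit 804160697183) (nat_lit 0) (nat_lit 0) (nat_lit 0) (nat_lit 0) (nat_lit 0) (nat_lit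 0) (nat_lit 1) (nat_lit 0) (nat_lit 1) (nat_lit 0) (nat_lit 440) (nat_lit 446) (nat_lit 194))))) (XT.nd (nat_lit 188) (nat_lit 0) (nat_lit 0) (XT.nd (nat_lit 94) (nat_lit 0) (nat_lit 0) (XT.lf (nat_lit 0) (nat_lit 804160696958) (nat_lit 0) (nat_lit 0) (nat_lit 0) (nat_lit 0) (nat_lit 0) (nat_lit 0) (nat_lit 1) (nat_lit 0) (nat_lit 1) (nat_lit 0) (nat_lit 441) (nat_lit 446) (nat_lit 193)) (XT.lf (nat_lit 0) (nat_lit 804160696750) (nat_lit 0) (nat_lit 0) (nat_lit 0) (nat_lit 0) (nat_lit 0) (nat_lit 0) (nat_lit 1) (nat_lit 0) (nat_lit 1) (nat_lit 0) (nat_lit 442) (nat_lit 446) (nat_lit 192))) (XT.nd (nat_lit 94) (nat_lit 0) (nat_lit 0) (XT.lf (nat_lit 0) (nat_lit 804160696557) (nat_lit 0) (nat_lit 0) (nat_lit 0) (nat_lit 0) (nat_lit 0) (nat_lit 0) (nat_lit 1) (nat_lit 0) (nat_lit 1) (nat_lit 0) (nat_lit 443) (nat_lit 446) (nat_lit 191)) (XT.nd (nat_lit 94) (nat_lit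 0) (nat_lit 0) (XT.lf (nat_lit 0) (nat_lit 804160696379) (nat_lit 0) (nat_lit 0) (nat_lit 0) (nat_lit 0) (nat_lit 0) (nat_lit 0) (nat_lit 1) (nat_lit 0) (nat_lit 1) (nat_lit 0) (nat_lit 444) (nat_lit 446) (nat_lit 190)) (XT.lf (nat_lit 0) (nat_lit 804160696213) (nat_lit 0) (nat_lit 0) (nat_lit 0) (nat_lit 0) (nat_lit 0) (nat_lit 0) (nat_lit 1) (nat_lit 0) (nat_lit 1) (nat_lit 0) (nat_lit 445) (nat_lit 446) (nat_lit 189))))))) (XT.nd (nat_lit 43710) (nat_lit 0) (nat_lit 8148) (XT.nd (nat_lit 376) (nat_lit 0) (nat_lit 0) (XT.nd (nat_lit 188) (nat_lit 0) (nat_lit 0) (XT.nd (nat_lit 94) (nat_lit 0) (nat_lit 0) (XT.lf (nat_lit 0) (nat_lit 804160696060) (nat_lit 0) (nat_lit 0) (nat_lit 0) (nat_lit 0) (nat_lit 0) (nat_lit 0) (nat_lit 1) (nat_lit 0) (nat_lit 1) (nat_lit 0) (nat_lit 446) (nat_lit 446) (nat_lit 188)) (XT.lf (nat_lit 0) (nat_lit 804160695918) (nat_lit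 0) (nat_lit 0) (nat_lit 0) (nat_lit 0) (nat_lit 0) (nat_lit 0) (nat_lit 1) (nat_lit 0) (nat_lit 1) (nat_lit 0) (nat_lit 447) (nat_lit 446) (nat_lit 187))) (XT.nd (nat_lit 94) (nat_lit 0) (nat_lit 0) (XT.lf (nat_lit 0) (nat_lit 804160695787) (nat_lit 0) (nat_lit 0) (nat_lit 0) (nat_lit 0) (nat_lit 0) (nat_lit 0) (nat_lit 1) (nat_lit 0) (nat_lit 1) (nat_lit 0) (nat_lit 448) (nat_lit 446) (nat_lit 186)) (XT.lf (nat_lit 0) (nat_lit 804160695665) (nat_lit 0) (nat_lit 0) (nat_lit 0) (nat_lit 0) (nat_lit 0) (nat_lit 0) (nat_lit 1) (nat_lit 0) (nat_lit 1) (nat_lit 0) (nat_lit 449) (nat_lit 446) (nat_lit 185)))) (XT.nd (nat_lit 43052) (nat_lit 0) (nat_lit 10836) (XT.nd (nat_lit 42958) (nat_lit 0) (nat_lit 10752) (XT.lf (nat_lit 0) (nat_lit 804160695553) (nat_lit 0) (nat_lit 0) (nat_lit 0) (nat_lit 0) (nat_lit 0) (nat_lit 0) (nat_lit 1) (nat_lit 0) (nat_lit 1) (nat_lit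 0) (nat_lit 450) (nat_lit 446) (nat_lit 184)) (XT.lf (nat_lit 924) (nat_lit 434626703943) (nat_lit 0) (nat_lit 771678713822) (nat_lit 924) (nat_lit 434626703943) (nat_lit 139) (nat_lit 1) (nat_lit 128) (nat_lit 0) (nat_lit 139) (nat_lit 0) (nat_lit 186) (nat_lit 447) (nat_lit 447))) (XT.nd (nat_lit 94) (nat_lit 0) (nat_lit 0) (XT.lf (nat_lit 924) (nat_lit 162129096716) (nat_lit 0) (nat_lit 1515039192738) (nat_lit 840) (nat_lit 1481703268863) (nat_lit 140) (nat_lit 1) (nat_lit 129) (nat_lit 1) (nat_lit 139) (nat_lit 1) (nat_lit 187) (nat_lit 447) (nat_lit 446)) (XT.nd (nat_lit 94) (nat_lit 0) (nat_lit 84) (XT.lf (nat_lit 924) (nat_lit 1489062171069) (nat_lit 84) (nat_lit 1014622258063) (nat_lit 0) (nat_lit 538109362565) (nat_lit 140) (nat_lit 1) (nat_lit 130) (nat_lit 1) (nat_lit 129) (nat_lit 1) (nat_lit 188) (nat_lit 447) (nat_lit 445)) (XT.lf (nat_lit 924)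 (nat_lit 1286671701533) (nat_lit 84) (nat_lit 425221155657) (nat_lit 0) (nat_lit 1218682036286) (nat_lit 141) (nat_lit 1) (nat_lit 131) (nat_lit 1) (nat_lit 130) (nat_lit 1) (nat_lit 189) (nat_lit 447) (nat_lit 444)))))) (XT.nd (nat_lit 470) (nat_lit 1596) (nat_lit 0) (XT.nd (nat_lit 188) (nat_lit 1260) (nat_lit 0) (XT.nd (nat_lit 94) (nat_lit 0) (nat_lit 84) (XT.lf (nat_lit 924) (nat_lit 952246448164) (nat_lit 0) (nat_lit 1781608093773) (nat_lit 840) (nat_lit 91075551213) (nat_lit 142) (nat_lit 1) (nat_lit 131) (nat_lit 1) (nat_lit 141) (nat_lit 1) (nat_lit 190) (nat_lit 447) (nat_lit 443)) (XT.lf (nat_lit 924) (nat_lit 228482198717) (nat_lit 0) (nat_lit 1964717873308) (nat_lit 840) (nat_lit 531130499523) (nat_lit 143) (nat_lit 1) (nat_lit 132) (nat_lit 1) (nat_lit 142) (nat_lit 1) (nat_lit 191) (nat_lit 447) (nat_lit 442))) (XT.nd (nat_lit 94) (nat_lit 1344)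 (nat_lit 0) (XT.lf (nat_lit 924) (nat_lit 439049854359) (nat_lit 84) (nat_lit 1707499825747) (nat_lit 0) (nat_lit 481877517372) (nat_lit 143) (nat_lit 1) (nat_lit 133) (nat_lit 1) (nat_lit 132) (nat_lit 1) (nat_lit 192) (nat_lit 447) (nat_lit 441)) (XT.nd (nat_lit 94) (nat_lit 588) (nat_lit 0) (XT.lf (nat_lit 924) (nat_lit 90170828406) (nat_lit 0) (nat_lit 1276469066518) (nat_lit 840) (nat_lit 1170508759362) (nat_lit 134) (nat_lit 1) (nat_lit 123) (nat_lit 1) (nat_lit 133) (nat_lit 1) (nat_lit 193) (nat_lit 447) (nat_lit 440)) (XT.lf (nat_lit 84) (nat_lit 624361599210) (nat_lit 0) (nat_lit 270564936372) (nat_lit 588) (nat_lit 1555265526393) (nat_lit 117) (nat_lit 1) (nat_lit 116) (nat_lit 1) (nat_lit 123) (nat_lit 1) (nat_lit 194) (nat_lit 447) (nat_lit 439))))) (XT.nd (nat_lit 188) (nat_lit 756) (nat_lit 0) (XT.nd (nat_lit 94) (nat_lit 420) (nat_lit 0) (XT.lf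 (nat_lit 504) (nat_lit 1720661981022) (nat_lit 0) (nat_lit 560112569301) (nat_lit 420) (nat_lit 86596864097) (nat_lit 117) (nat_lit 1) (nat_lit 111) (nat_lit 1) (nat_lit 116) (nat_lit 1) (nat_lit 195) (nat_lit 447) (nat_lit 438)) (XT.lf (nat_lit 504) (nat_lit 1241646070891) (nat_lit 0) (nat_lit 261070881316) (nat_lit 420) (nat_lit 785394954406) (nat_lit 112) (nat_lit 1) (nat_lit 106) (nat_lit 1) (nat_lit 111) (nat_lit 1) (nat_lit 196) (nat_lit 447) (nat_lit 437))) (XT.nd (nat_lit 94) (nat_lit 420) (nat_lit 0) (XT.lf (nat_lit 420) (nat_lit 755525798260) (nat_lit 0) (nat_lit 4806739188) (nat_lit 336) (nat_lit 1452362982560) (nat_lit 107) (nat_lit 1) (nat_lit 102) (nat_lit 1) (nat_lit 106) (nat_lit 1) (nat_lit 197) (nat_lit 447) (nat_lit 436)) (XT.nd (nat_lit 94) (nat_lit 420) (nat_lit 0) (XT.lf (nat_lit 84) (nat_lit 55739122790) (nat_lit 0) (nat_lit 1879793309056)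 (nat_lit 420) (nat_lit 205215989995) (nat_lit 103) (nat_lit 1) (nat_lit 102) (nat_lit 1) (nat_lit 107) (nat_lit 1) (nat_lit 198) (nat_lit 447) (nat_lit 435)) (XT.lf (nat_lit 84) (nat_lit 1439198607492) (nat_lit 0) (nat_lit 238706488384) (nat_lit 420) (nat_lit 393670351730) (nat_lit 98) (nat_lit 1) (nat_lit 97) (nat_lit 1) (nat_lit 102) (nat_lit 1) (nat_lit 199) (nat_lit 447) (nat_lit 434))))))))
noncomputable def ec414 : XT := (XT.nd (nat_lit 1692) (nat_lit 2688) (nat_lit 0) (XT.nd (nat_lit 846) (nat_lit 1848) (nat_lit 0) (XT.nd (nat_lit 376) (nat_lit 1260) (nat_lit 0) (XT.nd (nat_lit 188) (nat_lit 672) (nat_lit 0) (XT.nd (nat_lit 94) (nat_lit 336) (nat_lit 0) (XT.lf (nat_lit 84) (nat_lit 720067533553) (nat_lit 0) (nat_lit 731200348195) (nat_lit 420) (nat_lit 554191006317) (nat_lit 94) (nat_lit 1) (nat_lit 93) (nat_lit 1) (nat_lit 98) (nat_lit 1) (nat_lit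 200) (nat_lit 447) (nat_lit 433)) (XT.lf (nat_lit 84) (nat_lit 35540936734) (nat_lit 0) (nat_lit 1222555628254) (nat_lit 420) (nat_lit 684376164121) (nat_lit 90) (nat_lit 1) (nat_lit 89) (nat_lit 1) (nat_lit 94) (nat_lit 1) (nat_lit 201) (nat_lit 447) (nat_lit 432))) (XT.nd (nat_lit 94) (nat_lit 420) (nat_lit 0) (XT.lf (nat_lit 336) (nat_lit 160500867215) (nat_lit 0) (nat_lit 1085390538127) (nat_lit 252) (nat_lit 636063800338) (nat_lit 90) (nat_lit 1) (nat_lit 86) (nat_lit 1) (nat_lit 89) (nat_lit 1) (nat_lit 202) (nat_lit 447) (nat_lit 431)) (XT.lf (nat_lit 84) (nat_lit 554573648447) (nat_lit 0) (nat_lit 380108224615) (nat_lit 420) (nat_lit 889255897798) (nat_lit 82) (nat_lit 1) (nat_lit 81) (nat_lit 1) (nat_lit 86) (nat_lit 1) (nat_lit 203) (nat_lit 447) (nat_lit 430)))) (XT.nd (nat_lit 188) (nat_lit 756) (nat_lit 0) (XT.nd (nat_lit 94) (nat_lit 252) (nat_lit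 0) (XT.lf (nat_lit 336) (nat_lit 858613400057) (nat_lit 0) (nat_lit 806556316184) (nat_lit 252) (nat_lit 103238251229) (nat_lit 82) (nat_lit 1) (nat_lit 78) (nat_lit 1) (nat_lit 81) (nat_lit 1) (nat_lit 204) (nat_lit 447) (nat_lit 429)) (XT.lf (nat_lit 336) (nat_lit 275181446704) (nat_lit 0) (nat_lit 694411960076) (nat_lit 252) (nat_lit 745418783149) (nat_lit 79) (nat_lit 1) (nat_lit 75) (nat_lit 1) (nat_lit 78) (nat_lit 1) (nat_lit 205) (nat_lit 447) (nat_lit 428))) (XT.nd (nat_lit 94) (nat_lit 420) (nat_lit 0) (XT.lf (nat_lit 84) (nat_lit 313640356540) (nat_lit 0) (nat_lit 287165002365) (nat_lit 336) (nat_lit 1063028680667) (nat_lit 72) (nat_lit 1) (nat_lit 71) (nat_lit 1) (nat_lit 75) (nat_lit 1) (nat_lit 206) (nat_lit 447) (nat_lit 427)) (XT.nd (nat_lit 94) (nat_lit 168) (nat_lit 0) (XT.lf (nat_lit 336) (nat_lit 780452862054) (nat_lit 0) (nat_lit 519284413066)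 (nat_lit 252) (nat_lit 314791918522) (nat_lit 72) (nat_lit 1) (nat_lit 68) (nat_lit 1) (nat_lit 71) (nat_lit 1) (nat_lit 207) (nat_lit 447) (nat_lit 426)) (XT.lf (nat_lit 252) (nat_lit 193475416894) (nat_lit 0) (nat_lit 453037773691) (nat_lit 168) (nat_lit 920700252170) (nat_lit 69) (nat_lit 1) (nat_lit 66) (nat_lit 1) (nat_lit 68) (nat_lit 1) (nat_lit 208) (nat_lit 447) (nat_lit 425)))))) (XT.nd (nat_lit 376) (nat_lit 924) (nat_lit 0) (XT.nd (nat_lit 188) (nat_lit 420) (nat_lit 0) (XT.nd (nat_lit 94) (nat_lit 168) (nat_lit 0) (XT.lf (nat_lit 84) (nat_lit 32775971693) (nat_lit 0) (nat_lit 366770238554) (nat_lit 336) (nat_lit 1122185564773) (nat_lit 63) (nat_lit 1) (nat_lit 62) (nat_lit 1) (nat_lit 66) (nat_lit 1) (nat_lit 209) (nat_lit 447) (nat_lit 424)) (XT.lf (nat_lit 252) (nat_lit 562204061257) (nat_lit 0) (nat_lit 351329306891) (nat_lit 168) (nat_lit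 564160537048) (nat_lit 63) (nat_lit 1) (nat_lit 60) (nat_lit 1) (nat_lit 62) (nat_lit 1) (nat_lit 210) (nat_lit 447) (nat_lit 423))) (XT.nd (nat_lit 94) (nat_lit 168) (nat_lit 0) (XT.lf (nat_lit 84) (nat_lit 305028428986) (nat_lit 0) (nat_lit 14089454371) (nat_lit 252) (nat_lit 1116459812912) (nat_lit 58) (nat_lit 1) (nat_lit 57) (nat_lit 1) (nat_lit 60) (nat_lit 1) (nat_lit 211) (nat_lit 447) (nat_lit 422)) (XT.lf (nat_lit 252) (nat_lit 833888822455) (nat_lit 0) (nat_lit 288961174337) (nat_lit 168) (nat_lit 271836621086) (nat_lit 58) (nat_lit 1) (nat_lit 55) (nat_lit 1) (nat_lit 57) (nat_lit 1) (nat_lit 212) (nat_lit 447) (nat_lit 421)))) (XT.nd (nat_lit 188) (nat_lit 504) (nat_lit 0) (XT.nd (nat_lit 94) (nat_lit 252) (nat_lit 0) (XT.lf (nat_lit 252) (nat_lit 259039284514) (nat_lit 0) (nat_lit 268621365359) (nat_lit 168) (nat_lit 827698334508) (nat_lit 56)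 (nat_lit 1) (nat_lit 53) (nat_lit 1) (nat_lit 55) (nat_lit 1) (nat_lit 213) (nat_lit 447) (nat_lit 420)) (XT.lf (nat_lit 252) (nat_lit 1028290759902) (nat_lit 0) (nat_lit 256645911931) (nat_lit 168) (nat_lit 32558511450) (nat_lit 53) (nat_lit 1) (nat_lit 50) (nat_lit 1) (nat_lit 52) (nat_lit 1) (nat_lit 214) (nat_lit 447) (nat_lit 419))) (XT.nd (nat_lit 94) (nat_lit 336) (nat_lit 0) (XT.lf (nat_lit 252) (nat_lit 460215286885) (nat_lit 0) (nat_lit 245010318564) (nat_lit 168) (nat_lit 575457892254) (nat_lit 51) (nat_lit 1) (nat_lit 48) (nat_lit 1) (nat_lit 50) (nat_lit 1) (nat_lit 215) (nat_lit 447) (nat_lit 418)) (XT.nd (nat_lit 94) (nat_lit 168) (nat_lit 0) (XT.lf (nat_lit 84) (nat_lit 157641504174) (nat_lit 0) (nat_lit 86646874230) (nat_lit 168) (nat_lit 1001110287316) (nat_lit 47) (nat_lit 1) (nat_lit 46) (nat_lit 1) (nat_lit 48) (nat_lit 1) (nat_lit 216)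 (nat_lit 447) (nat_lit 417)) (XT.lf (nat_lit 252) (nat_lit 603828923697) (nat_lit 0) (nat_lit 241701636400) (nat_lit 168) (nat_lit 365473652827) (nat_lit 47) (nat_lit 1) (nat_lit 44) (nat_lit 1) (nat_lit 46) (nat_lit 1) (nat_lit 217) (nat_lit 447) (nat_lit 416))))))) (XT.nd (nat_lit 846) (nat_lit 1260) (nat_lit 0) (XT.nd (nat_lit 376) (nat_lit 756) (nat_lit 0) (XT.nd (nat_lit 188) (nat_lit 336) (nat_lit 0) (XT.nd (nat_lit 94) (nat_lit 252) (nat_lit 0) (XT.lf (nat_lit 168) (nat_lit 65023794782) (nat_lit 0) (nat_lit 247638140933) (nat_lit 84) (nat_lit 865305673146) (nat_lit 45) (nat_lit 1) (nat_lit 43) (nat_lit 1) (nat_lit 44) (nat_lit 1) (nat_lit 218) (nat_lit 447) (nat_lit 415)) (XT.lf (nat_lit 252) (nat_lit 701907858181) (nat_lit 0) (nat_lit 253267735088) (nat_lit 168) (nat_lit 190666332713) (nat_lit 43) (nat_lit 1) (nat_lit 40) (nat_lit 1) (nat_lit 42) (nat_lit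 1) (nat_lit 219) (nat_lit 447) (nat_lit 414))) (XT.nd (nat_lit 94) (nat_lit 252) (nat_lit 0) (XT.lf (nat_lit 168) (nat_lit 176535002185) (nat_lit 0) (nat_lit 262737670914) (nat_lit 84) (nat_lit 675526270052) (nat_lit 41) (nat_lit 1) (nat_lit 39) (nat_lit 1) (nat_lit 40) (nat_lit 1) (nat_lit 220) (nat_lit 447) (nat_lit 413)) (XT.lf (nat_lit 252) (nat_lit 764176609697) (nat_lit 0) (nat_lit 275409586515) (nat_lit 168) (nat_lit 45197070784) (nat_lit 39) (nat_lit 1) (nat_lit 36) (nat_lit 1) (nat_lit 38) (nat_lit 1) (nat_lit 221) (nat_lit 447) (nat_lit 412)))) (XT.nd (nat_lit 188) (nat_lit 420) (nat_lit 0) (XT.nd (nat_lit 94) (nat_lit 252) (nat_lit 0) (XT.lf (nat_lit 168) (nat_lit 254058087333) (nat_lit 0) (nat_lit 287117803326) (nat_lit 84) (nat_lit 514396340337) (nat_lit 37) (nat_lit 1) (nat_lit 35) (nat_lit 1) (nat_lit 36) (nat_lit 1) (nat_lit 222) (nat_lit 447)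 (nat_lit 411)) (XT.lf (nat_lit 84) (nat_lit 73331274582) (nat_lit 0) (nat_lit 230167323639) (nat_lit 252) (nat_lit 723912005220) (nat_lit 33) (nat_lit 1) (nat_lit 32) (nat_lit 1) (nat_lit 35) (nat_lit 1) (nat_lit 223) (nat_lit 447) (nat_lit 410))) (XT.nd (nat_lit 94) (nat_lit 336) (nat_lit 0) (XT.lf (nat_lit 168) (nat_lit 304892626618) (nat_lit 0) (nat_lit 317683665354) (nat_lit 84) (nat_lit 377372060600) (nat_lit 33) (nat_lit 1) (nat_lit 31) (nat_lit 1) (nat_lit 32) (nat_lit 1) (nat_lit 224) (nat_lit 447) (nat_lit 409)) (XT.nd (nat_lit 94) (nat_lit 84) (nat_lit 0) (XT.lf (nat_lit 84) (nat_lit 170541239752) (nat_lit 0) (nat_lit 165180722668) (nat_lit 252) (nat_lit 637729230041) (nat_lit 29) (nat_lit 1) (nat_lit 28) (nat_lit 1) (nat_lit 31) (nat_lit 1) (nat_lit 225) (nat_lit 447) (nat_lit 408)) (XT.lf (nat_lit 168) (nat_lit 334925234465) (nat_lit 0) (nat_lit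 352019359435) (nat_lit 84) (nat_lit 260686430854) (nat_lit 29) (nat_lit 1) (nat_lit 27) (nat_lit 1) (nat_lit 28) (nat_lit 1) (nat_lit 226) (nat_lit 447) (nat_lit 407)))))) (XT.nd (nat_lit 470) (nat_lit 588) (nat_lit 0) (XT.nd (nat_lit 188) (nat_lit 420) (nat_lit 0) (XT.nd (nat_lit 94) (nat_lit 84) (nat_lit 0) (XT.lf (nat_lit 84) (nat_lit 251076140888) (nat_lit 0) (nat_lit 119633288660) (nat_lit 168) (nat_lit 551954148597) (nat_lit 26) (nat_lit 1) (nat_lit 25) (nat_lit 1) (nat_lit 27) (nat_lit 1) (nat_lit 227) (nat_lit 447) (nat_lit 406)) (XT.lf (nat_lit 168) (nat_lit 348893585016) (nat_lit 0) (nat_lit 388255633973) (nat_lit 84) (nat_lit 161210705251) (nat_lit 26) (nat_lit 1) (nat_lit 24) (nat_lit 1) (nat_lit 25) (nat_lit 1) (nat_lit 228) (nat_lit 447) (nat_lit 405))) (XT.nd (nat_lit 94) (nat_lit 252) (nat_lit 0) (XT.lf (nat_lit 84) (nat_lit 317587973594) (nat_lit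 0) (nat_lit 89247993272) (nat_lit 168) (nat_lit 467967858444) (nat_lit 23) (nat_lit 1) (nat_lit 22) (nat_lit 1) (nat_lit 24) (nat_lit 1) (nat_lit 229) (nat_lit 447) (nat_lit 404)) (XT.nd (nat_lit 94) (nat_lit 168) (nat_lit 0) (XT.lf (nat_lit 168) (nat_lit 350601693665) (nat_lit 0) (nat_lit 424962338119) (nat_lit 84) (nat_lit 76340990616) (nat_lit 23) (nat_lit 1) (nat_lit 21) (nat_lit 1) (nat_lit 22) (nat_lit 1) (nat_lit 230) (nat_lit 447) (nat_lit 403)) (XT.lf (nat_lit 84) (nat_lit 372280842153) (nat_lit 0) (nat_lit 70585708097) (nat_lit 168) (nat_lit 386789144776) (nat_lit 20) (nat_lit 1) (nat_lit 19) (nat_lit 1) (nat_lit 21) (nat_lit 1) (nat_lit 231) (nat_lit 447) (nat_lit 402))))) (XT.nd (nat_lit 188) (nat_lit 336) (nat_lit 0) (XT.nd (nat_lit 94) (nat_lit 168) (nat_lit 0) (XT.lf (nat_lit 168) (nat_lit 343095419458) (nat_lit 0) (nat_lit 461061081736) (nat_lit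 84) (nat_lit 3905410879) (nat_lit 20) (nat_lit 1) (nat_lit 18) (nat_lit 1) (nat_lit 19) (nat_lit 1) (nat_lit 232) (nat_lit 447) (nat_lit 401)) (XT.lf (nat_lit 84) (nat_lit 416990240640) (nat_lit 0) (nat_lit 60887873983) (nat_lit 168) (nat_lit 309148313471) (nat_lit 17) (nat_lit 1) (nat_lit 16) (nat_lit 1) (nat_lit 18) (nat_lit 1) (nat_lit 233) (nat_lit 447) (nat_lit 400))) (XT.nd (nat_lit 94) (nat_lit 252) (nat_lit 0) (XT.lf (nat_lit 0) (nat_lit 56058377959) (nat_lit 0) (nat_lit 438746610002) (nat_lit 168) (nat_lit 271797750404) (nat_lit 15) (nat_lit 3) (nat_lit 15) (nat_lit 1) (nat_lit 17) (nat_lit 1) (nat_lit 234) (nat_lit 447) (nat_lit 399)) (XT.nd (nat_lit 94) (nat_lit 84) (nat_lit 0) (XT.lf (nat_lit 84) (nat_lit 453247983084) (nat_lit 0) (nat_lit 57948267209) (nat_lit 168) (nat_lit 235547007815) (nat_lit 14) (nat_lit 1) (nat_lit 13) (nat_lit 1) (nat_lit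 15) (nat_lit 1) (nat_lit 235) (nat_lit 447) (nat_lit 398)) (XT.lf (nat_lit 0) (nat_lit 107092240933) (nat_lit 0) (nat_lit 419562219412) (nat_lit 168) (nat_lit 200758220240) (nat_lit 12) (nat_lit 3) (nat_lit 12) (nat_lit 1) (nat_lit 14) (nat_lit 1) (nat_lit 236) (nat_lit 447) (nat_lit 397))))))))
noncomputable def ec415 : XT := (XT.nd (nat_lit 1786) (nat_lit 0) (nat_lit 0) (XT.nd (nat_lit 846) (nat_lit 0) (nat_lit 0) (XT.nd (nat_lit 376) (nat_lit 504) (nat_lit 0) (XT.nd (nat_lit 188) (nat_lit 252) (nat_lit 0) (XT.nd (nat_lit 94) (nat_lit 84) (nat_lit 0) (XT.lf (nat_lit 84) (nat_lit 482335403354) (nat_lit 0) (nat_lit 60008509558) (nat_lit 168) (nat_lit 166306609551) (nat_lit 11) (nat_lit 1) (nat_lit 10) (nat_lit 1) (nat_lit 12) (nat_lit 1) (nat_lit 237) (nat_lit 447) (nat_lit 396)) (XT.lf (nat_lit 0) (nat_lit 150559772567) (nat_lit 0) (nat_lit 405695622785)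 (nat_lit 168) (nat_lit 134090228050) (nat_lit 9) (nat_lit 3) (nat_lit 9) (nat_lit 1) (nat_lit 11) (nat_lit 1) (nat_lit 238) (nat_lit 447) (nat_lit 395))) (XT.nd (nat_lit 94) (nat_lit 84) (nat_lit 0) (XT.lf (nat_lit 84) (nat_lit 505326965400) (nat_lit 0) (nat_lit 65672952370) (nat_lit 168) (nat_lit 101607345990) (nat_lit 8) (nat_lit 1) (nat_lit 7) (nat_lit 1) (nat_lit 9) (nat_lit 1) (nat_lit 239) (nat_lit 447) (nat_lit 394)) (XT.lf (nat_lit 0) (nat_lit 187505235385) (nat_lit 0) (nat_lit 395827015235) (nat_lit 168) (nat_lit 71934022877) (nat_lit 6) (nat_lit 3) (nat_lit 6) (nat_lit 1) (nat_lit 8) (nat_lit 1) (nat_lit 240) (nat_lit 447) (nat_lit 393)))) (XT.nd (nat_lit 188) (nat_lit 252) (nat_lit 0) (XT.nd (nat_lit 94) (nat_lit 84) (nat_lit 0) (XT.lf (nat_lit 84) (nat_lit 523126032394) (nat_lit 0) (nat_lit 73839367280) (nat_lit 168) (nat_lit 41519833973) (nat_lit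 5) (nat_lit 1) (nat_lit 4) (nat_lit 1) (nat_lit 6) (nat_lit 1) (nat_lit 241) (nat_lit 447) (nat_lit 392)) (XT.lf (nat_lit 0) (nat_lit 218811826431) (nat_lit 0) (nat_lit 388909301650) (nat_lit 168) (nat_lit 14330218946) (nat_lit 3) (nat_lit 3) (nat_lit 3) (nat_lit 1) (nat_lit 5) (nat_lit 1) (nat_lit 242) (nat_lit 447) (nat_lit 391))) (XT.nd (nat_lit 94) (nat_lit 0) (nat_lit 0) (XT.lf (nat_lit 0) (nat_lit 879298245240) (nat_lit 0) (nat_lit 0) (nat_lit 0) (nat_lit 0) (nat_lit 0) (nat_lit 0) (nat_lit 1) (nat_lit 0) (nat_lit 1) (nat_lit 0) (nat_lit 243) (nat_lit 447) (nat_lit 390)) (XT.nd (nat_lit 94) (nat_lit 0) (nat_lit 0) (XT.lf (nat_lit 0) (nat_lit 878497897420) (nat_lit 0) (nat_lit 0) (nat_lit 0) (nat_lit 0) (nat_lit 0) (nat_lit 0) (nat_lit 1) (nat_lit 0) (nat_lit 1) (nat_lit 0) (nat_lit 244) (nat_lit 447) (nat_lit 389)) (XT.lf (nat_lit 0) (nat_lit 877756834624)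 (nat_lit 0) (nat_lit 0) (nat_lit 0) (nat_lit 0) (nat_lit 0) (nat_lit 0) (nat_lit 1) (nat_lit 0) (nat_lit 1) (nat_lit 0) (nat_lit 245) (nat_lit 447) (nat_lit 388)))))) (XT.nd (nat_lit 470) (nat_lit 0) (nat_lit 0) (XT.nd (nat_lit 188) (nat_lit 0) (nat_lit 0) (XT.nd (nat_lit 94) (nat_lit 0) (nat_lit 0) (XT.lf (nat_lit 0) (nat_lit 877070665369) (nat_lit 0) (nat_lit 0) (nat_lit 0) (nat_lit 0) (nat_lit 0) (nat_lit 0) (nat_lit 1) (nat_lit 0) (nat_lit 1) (nat_lit 0) (nat_lit 246) (nat_lit 447) (nat_lit 387)) (XT.lf (nat_lit 0) (nat_lit 876435323466) (nat_lit 0) (nat_lit 0) (nat_lit 0) (nat_lit 0) (nat_lit 0) (nat_lit 0) (nat_lit 1) (nat_lit 0) (nat_lit 1) (nat_lit 0) (nat_lit 247) (nat_lit 447) (nat_lit 386))) (XT.nd (nat_lit 94) (nat_lit 0) (nat_lit 0) (XT.lf (nat_lit 0) (nat_lit 875847043926) (nat_lit 0) (nat_lit 0) (nat_lit 0) (nat_lit 0) (nat_lit 0) (nat_lit 0)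 (nat_lit 1) (nat_lit 0) (nat_lit 1) (nat_lit 0) (nat_lit 248) (nat_lit 447) (nat_lit 385)) (XT.nd (nat_lit 94) (nat_lit 0) (nat_lit 0) (XT.lf (nat_lit 0) (nat_lit 875302340648) (nat_lit 0) (nat_lit 0) (nat_lit 0) (nat_lit 0) (nat_lit 0) (nat_lit 0) (nat_lit 1) (nat_lit 0) (nat_lit 1) (nat_lit 0) (nat_lit 249) (nat_lit 447) (nat_lit 384)) (XT.lf (nat_lit 0) (nat_lit 874797985762) (nat_lit 0) (nat_lit 0) (nat_lit 0) (nat_lit 0) (nat_lit 0) (nat_lit 0) (nat_lit 1) (nat_lit 0) (nat_lit 1) (nat_lit 0) (nat_lit 250) (nat_lit 447) (nat_lit 383))))) (XT.nd (nat_lit 188) (nat_lit 0) (nat_lit 0) (XT.nd (nat_lit 94) (nat_lit 0) (nat_lit 0) (XT.lf (nat_lit 0) (nat_lit 874330990496) (nat_lit 0) (nat_lit 0) (nat_lit 0) (nat_lit 0) (nat_lit 0) (nat_lit 0) (nat_lit 1) (nat_lit 0) (nat_lit 1) (nat_lit 0) (nat_lit 251) (nat_lit 447) (nat_lit 382)) (XT.lf (nat_lit 0) (nat_lit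 873898587473) (nat_lit 0) (nat_lit 0) (nat_lit 0) (nat_lit 0) (nat_lit 0) (nat_lit 0) (nat_lit 1) (nat_lit 0) (nat_lit 1) (nat_lit 0) (nat_lit 252) (nat_lit 447) (nat_lit 381))) (XT.nd (nat_lit 94) (nat_lit 0) (nat_lit 0) (XT.lf (nat_lit 0) (nat_lit 873498214303) (nat_lit 0) (nat_lit 0) (nat_lit 0) (nat_lit 0) (nat_lit 0) (nat_lit 0) (nat_lit 1) (nat_lit 0) (nat_lit 1) (nat_lit 0) (nat_lit 253) (nat_lit 447) (nat_lit 380)) (XT.nd (nat_lit 94) (nat_lit 0) (nat_lit 0) (XT.lf (nat_lit 0) (nat_lit 873127498404) (nat_lit 0) (nat_lit 0) (nat_lit 0) (nat_lit 0) (nat_lit 0) (nat_lit 0) (nat_lit 1) (nat_lit 0) (nat_lit 1) (nat_lit 0) (nat_lit 254) (nat_lit 447) (nat_lit 379)) (XT.lf (nat_lit 0) (nat_lit 872784242943) (nat_lit 0) (nat_lit 0) (nat_lit 0) (nat_lit 0) (nat_lit 0) (nat_lit 0) (nat_lit 1) (nat_lit 0) (nat_lit 1) (nat_lit 0) (nat_lit 255) (nat_lit 447) (nat_lit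 378))))))) (XT.nd (nat_lit 846) (nat_lit 0) (nat_lit 0) (XT.nd (nat_lit 376) (nat_lit 0) (nat_lit 0) (XT.nd (nat_lit 188) (nat_lit 0) (nat_lit 0) (XT.nd (nat_lit 94) (nat_lit 0) (nat_lit 0) (XT.lf (nat_lit 0) (nat_lit 872466413812) (nat_lit 0) (nat_lit 0) (nat_lit 0) (nat_lit 0) (nat_lit 0) (nat_lit 0) (nat_lit 1) (nat_lit 0) (nat_lit 1) (nat_lit 0) (nat_lit 256) (nat_lit 447) (nat_lit 377)) (XT.lf (nat_lit 0) (nat_lit 872172127580) (nat_lit 0) (nat_lit 0) (nat_lit 0) (nat_lit 0) (nat_lit 0) (nat_lit 0) (nat_lit 1) (nat_lit 0) (nat_lit 1) (nat_lit 0) (nat_lit 257) (nat_lit 447) (nat_lit 376))) (XT.nd (nat_lit 94) (nat_lit 0) (nat_lit 0) (XT.lf (nat_lit 0) (nat_lit 871899640328) (nat_lit 0) (nat_lit 0) (nat_lit 0) (nat_lit 0) (nat_lit 0) (nat_lit 0) (nat_lit 1) (nat_lit 0) (nat_lit 1) (nat_lit 0) (nat_lit 258) (nat_lit 447) (nat_lit 375)) (XT.lf (nat_lit 0)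 (nat_lit 871647337317) (nat_lit 0) (nat_lit 0) (nat_lit 0) (nat_lit 0) (nat_lit 0) (nat_lit 0) (nat_lit 1) (nat_lit 0) (nat_lit 1) (nat_lit 0) (nat_lit 259) (nat_lit 447) (nat_lit 374)))) (XT.nd (nat_lit 188) (nat_lit 0) (nat_lit 0) (XT.nd (nat_lit 94) (nat_lit 0) (nat_lit 0) (XT.lf (nat_lit 0) (nat_lit 871413723418) (nat_lit 0) (nat_lit 0) (nat_lit 0) (nat_lit 0) (nat_lit 0) (nat_lit 0) (nat_lit 1) (nat_lit 0) (nat_lit 1) (nat_lit 0) (nat_lit 260) (nat_lit 447) (nat_lit 373)) (XT.lf (nat_lit 0) (nat_lit 871197414252) (nat_lit 0) (nat_lit 0) (nat_lit 0) (nat_lit 0) (nat_lit 0) (nat_lit 0) (nat_lit 1) (nat_lit 0) (nat_lit 1) (nat_lit 0) (nat_lit 261) (nat_lit 447) (nat_lit 372))) (XT.nd (nat_lit 94) (nat_lit 0) (nat_lit 0) (XT.lf (nat_lit 0) (nat_lit 870997127987) (nat_lit 0) (nat_lit 0) (nat_lit 0) (nat_lit 0) (nat_lit 0) (nat_lit 0) (nat_lit 1) (nat_lit 0)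 (nat_lit 1) (nat_lit 0) (nat_lit 262) (nat_lit 447) (nat_lit 371)) (XT.nd (nat_lit 94) (nat_lit 0) (nat_lit 0) (XT.lf (nat_lit 0) (nat_lit 870811677742) (nat_lit 0) (nat_lit 0) (nat_lit 0) (nat_lit 0) (nat_lit 0) (nat_lit 0) (nat_lit 1) (nat_lit 0) (nat_lit 1) (nat_lit 0) (nat_lit 263) (nat_lit 447) (nat_lit 370)) (XT.lf (nat_lit 0) (nat_lit 870639964552) (nat_lit 0) (nat_lit 0) (nat_lit 0) (nat_lit 0) (nat_lit 0) (nat_lit 0) (nat_lit 1) (nat_lit 0) (nat_lit 1) (nat_lit 0) (nat_lit 264) (nat_lit 447) (nat_lit 369)))))) (XT.nd (nat_lit 470) (nat_lit 0) (nat_lit 0) (XT.nd (nat_lit 188) (nat_lit 0) (nat_lit 0) (XT.nd (nat_lit 94) (nat_lit 0) (nat_lit 0) (XT.lf (nat_lit 0) (nat_lit 870480970857) (nat_lit 0) (nat_lit 0) (nat_lit 0) (nat_lit 0) (nat_lit 0) (nat_lit 0) (nat_lit 1) (nat_lit 0) (nat_lit 1) (nat_lit 0) (nat_lit 265) (nat_lit 447) (nat_lit 368)) (XT.lf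 (nat_lit 0) (nat_lit 870333754474) (nat_lit 0) (nat_lit 0) (nat_lit 0) (nat_lit 0) (nat_lit 0) (nat_lit 0) (nat_lit 1) (nat_lit 0) (nat_lit 1) (nat_lit 0) (nat_lit 266) (nat_lit 447) (nat_lit 367))) (XT.nd (nat_lit 94) (nat_lit 0) (nat_lit 0) (XT.lf (nat_lit 0) (nat_lit 870197443007) (nat_lit 0) (nat_lit 0) (nat_lit 0) (nat_lit 0) (nat_lit 0) (nat_lit 0) (nat_lit 1) (nat_lit 0) (nat_lit 1) (nat_lit 0) (nat_lit 267) (nat_lit 447) (nat_lit 366)) (XT.nd (nat_lit 94) (nat_lit 0) (nat_lit 0) (XT.lf (nat_lit 0) (nat_lit 870071228687) (nat_lit 0) (nat_lit 0) (nat_lit 0) (nat_lit 0) (nat_lit 0) (nat_lit 0) (nat_lit 1) (nat_lit 0) (nat_lit 1) (nat_lit 0) (nat_lit 268) (nat_lit 447) (nat_lit 365)) (XT.lf (nat_lit 0) (nat_lit 869954363575) (nat_lit 0) (nat_lit 0) (nat_lit 0) (nat_lit 0) (nat_lit 0) (nat_lit 0) (nat_lit 1) (nat_lit 0) (nat_lit 1) (nat_lit 0) (nat_lit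 269) (nat_lit 447) (nat_lit 364))))) (XT.nd (nat_lit 188) (nat_lit 0) (nat_lit 0) (XT.nd (nat_lit 94) (nat_lit 0) (nat_lit 0) (XT.lf (nat_lit 0) (nat_lit 869846155138) (nat_lit 0) (nat_lit 0) (nat_lit 0) (nat_lit 0) (nat_lit 0) (nat_lit 0) (nat_lit 1) (nat_lit 0) (nat_lit 1) (nat_lit 0) (nat_lit 270) (nat_lit 447) (nat_lit 363)) (XT.lf (nat_lit 0) (nat_lit 869745962141) (nat_lit 0) (nat_lit 0) (nat_lit 0) (nat_lit 0) (nat_lit 0) (nat_lit 0) (nat_lit 1) (nat_lit 0) (nat_lit 1) (nat_lit 0) (nat_lit 271) (nat_lit 447) (nat_lit 362))) (XT.nd (nat_lit 94) (nat_lit 0) (nat_lit 0) (XT.lf (nat_lit 0) (nat_lit 869653190847) (nat_lit 0) (nat_lit 0) (nat_lit 0) (nat_lit 0) (nat_lit 0) (nat_lit 0) (nat_lit 1) (nat_lit 0) (nat_lit 1) (nat_lit 0) (nat_lit 272) (nat_lit 447) (nat_lit 361)) (XT.nd (nat_lit 94) (nat_lit 0) (nat_lit 0) (XT.lf (nat_lit 0) (nat_lit 869567291501)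 (nat_lit 0) (nat_lit 0) (nat_lit 0) (nat_lit 0) (nat_lit 0) (nat_lit 0) (nat_lit 1) (nat_lit 0) (nat_lit 1) (nat_lit 0) (nat_lit 273) (nat_lit 447) (nat_lit 360)) (XT.lf (nat_lit 0) (nat_lit 869487755070) (nat_lit 0) (nat_lit 0) (nat_lit 0) (nat_lit 0) (nat_lit 0) (nat_lit 0) (nat_lit 1) (nat_lit 0) (nat_lit 1) (nat_lit 0) (nat_lit 274) (nat_lit 447) (nat_lit 359))))))))
noncomputable def ec416 : XT := (XT.nd (nat_lit 1692) (nat_lit 0) (nat_lit 0) (XT.nd (nat_lit 846) (nat_lit 0) (nat_lit 0) (XT.nd (nat_lit 376) (nat_lit 0) (nat_lit 0) (XT.nd (nat_lit 188) (nat_lit 0) (nat_lit 0) (XT.nd (nat_lit 94) (nat_lit 0) (nat_lit 0) (XT.lf (nat_lit 0) (nat_lit 869414110226) (nat_lit 0) (nat_lit 0) (nat_lit 0) (nat_lit 0) (nat_lit 0) (nat_lit 0) (nat_lit 1) (nat_lit 0) (nat_lit 1) (nat_lit 0) (nat_lit 275) (nat_lit 447) (nat_lit 358)) (XT.lf (nat_lit 0) (nat_lit 869345920556)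 (nat_lit 0) (nat_lit 0) (nat_lit 0) (nat_lit 0) (nat_lit 0) (nat_lit 0) (nat_lit 1) (nat_lit 0) (nat_lit 1) (nat_lit 0) (nat_lit 276) (nat_lit 447) (nat_lit 357))) (XT.nd (nat_lit 94) (nat_lit 0) (nat_lit 0) (XT.lf (nat_lit 0) (nat_lit 869282781972) (nat_lit 0) (nat_lit 0) (nat_lit 0) (nat_lit 0) (nat_lit 0) (nat_lit 0) (nat_lit 1) (nat_lit 0) (nat_lit 1) (nat_lit 0) (nat_lit 277) (nat_lit 447) (nat_lit 356)) (XT.lf (nat_lit 0) (nat_lit 869224320321) (nat_lit 0) (nat_lit 0) (nat_lit 0) (nat_lit 0) (nat_lit 0) (nat_lit 0) (nat_lit 1) (nat_lit 0) (nat_lit 1) (nat_lit 0) (nat_lit 278) (nat_lit 447) (nat_lit 355)))) (XT.nd (nat_lit 188) (nat_lit 0) (nat_lit 0) (XT.nd (nat_lit 94) (nat_lit 0) (nat_lit 0) (XT.lf (nat_lit 0) (nat_lit 869170189162) (nat_lit 0) (nat_lit 0) (nat_lit 0) (nat_lit 0) (nat_lit 0) (nat_lit 0) (nat_lit 1) (nat_lit 0) (nat_lit 1) (nat_lit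 0) (nat_lit 279) (nat_lit 447) (nat_lit 354)) (XT.lf (nat_lit 0) (nat_lit 869120067719) (nat_lit 0) (nat_lit 0) (nat_lit 0) (nat_lit 0) (nat_lit 0) (nat_lit 0) (nat_lit 1) (nat_lit 0) (nat_lit 1) (nat_lit 0) (nat_lit 280) (nat_lit 447) (nat_lit 353))) (XT.nd (nat_lit 94) (nat_lit 0) (nat_lit 0) (XT.lf (nat_lit 0) (nat_lit 869073658975) (nat_lit 0) (nat_lit 0) (nat_lit 0) (nat_lit 0) (nat_lit 0) (nat_lit 0) (nat_lit 1) (nat_lit 0) (nat_lit 1) (nat_lit 0) (nat_lit 281) (nat_lit 447) (nat_lit 352)) (XT.nd (nat_lit 94) (nat_lit 0) (nat_lit 0) (XT.lf (nat_lit 0) (nat_lit 869030687916) (nat_lit 0) (nat_lit 0) (nat_lit 0) (nat_lit 0) (nat_lit 0) (nat_lit 0) (nat_lit 1) (nat_lit 0) (nat_lit 1) (nat_lit 0) (nat_lit 282) (nat_lit 447) (nat_lit 351)) (XT.lf (nat_lit 0) (nat_lit 868990899898) (nat_lit 0) (nat_lit 0) (nat_lit 0) (nat_lit 0) (nat_lit 0) (nat_lit 0) (nat_lit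 1) (nat_lit 0) (nat_lit 1) (nat_lit 0) (nat_lit 283) (nat_lit 447) (nat_lit 350)))))) (XT.nd (nat_lit 376) (nat_lit 0) (nat_lit 0) (XT.nd (nat_lit 188) (nat_lit 0) (nat_lit 0) (XT.nd (nat_lit 94) (nat_lit 0) (nat_lit 0) (XT.lf (nat_lit 0) (nat_lit 868954059141) (nat_lit 0) (nat_lit 0) (nat_lit 0) (nat_lit 0) (nat_lit 0) (nat_lit 0) (nat_lit 1) (nat_lit 0) (nat_lit 1) (nat_lit 0) (nat_lit 284) (nat_lit 447) (nat_lit 349)) (XT.lf (nat_lit 0) (nat_lit 868919947329) (nat_lit 0) (nat_lit 0) (nat_lit 0) (nat_lit 0) (nat_lit 0) (nat_lit 0) (nat_lit 1) (nat_lit 0) (nat_lit 1) (nat_lit 0) (nat_lit 285) (nat_lit 447) (nat_lit 348))) (XT.nd (nat_lit 94) (nat_lit 0) (nat_lit 0) (XT.lf (nat_lit 0) (nat_lit 868888362318) (nat_lit 0) (nat_lit 0) (nat_lit 0) (nat_lit 0) (nat_lit 0) (nat_lit 0) (nat_lit 1) (nat_lit 0) (nat_lit 1) (nat_lit 0) (nat_lit 286) (nat_lit 447) (nat_lit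 347)) (XT.lf (nat_lit 0) (nat_lit 868859116937) (nat_lit 0) (nat_lit 0) (nat_lit 0) (nat_lit 0) (nat_lit 0) (nat_lit 0) (nat_lit 1) (nat_lit 0) (nat_lit 1) (nat_lit 0) (nat_lit 287) (nat_lit 447) (nat_lit 346)))) (XT.nd (nat_lit 188) (nat_lit 0) (nat_lit 0) (XT.nd (nat_lit 94) (nat_lit 0) (nat_lit 0) (XT.lf (nat_lit 0) (nat_lit 868832037881) (nat_lit 0) (nat_lit 0) (nat_lit 0) (nat_lit 0) (nat_lit 0) (nat_lit 0) (nat_lit 1) (nat_lit 0) (nat_lit 1) (nat_lit 0) (nat_lit 288) (nat_lit 447) (nat_lit 345)) (XT.lf (nat_lit 0) (nat_lit 868806964680) (nat_lit 0) (nat_lit 0) (nat_lit 0) (nat_lit 0) (nat_lit 0) (nat_lit 0) (nat_lit 1) (nat_lit 0) (nat_lit 1) (nat_lit 0) (nat_lit 289) (nat_lit 447) (nat_lit 344))) (XT.nd (nat_lit 94) (nat_lit 0) (nat_lit 0) (XT.lf (nat_lit 0) (nat_lit 868783748754) (nat_lit 0) (nat_lit 0) (nat_lit 0) (nat_lit 0) (nat_lit 0) (nat_lit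 0) (nat_lit 1) (nat_lit 0) (nat_lit 1) (nat_lit 0) (nat_lit 290) (nat_lit 447) (nat_lit 343)) (XT.nd (nat_lit 94) (nat_lit 0) (nat_lit 0) (XT.lf (nat_lit 0) (nat_lit 868762252526) (nat_lit 0) (nat_lit 0) (nat_lit 0) (nat_lit 0) (nat_lit 0) (nat_lit 0) (nat_lit 1) (nat_lit 0) (nat_lit 1) (nat_lit 0) (nat_lit 291) (nat_lit 447) (nat_lit 342)) (XT.lf (nat_lit 0) (nat_lit 868742348612) (nat_lit 0) (nat_lit 0) (nat_lit 0) (nat_lit 0) (nat_lit 0) (nat_lit 0) (nat_lit 1) (nat_lit 0) (nat_lit 1) (nat_lit 0) (nat_lit 292) (nat_lit 447) (nat_lit 341))))))) (XT.nd (nat_lit 846) (nat_lit 0) (nat_lit 0) (XT.nd (nat_lit 376) (nat_lit 0) (nat_lit 0) (XT.nd (nat_lit 188) (nat_lit 0) (nat_lit 0) (XT.nd (nat_lit 94) (nat_lit 0) (nat_lit 0) (XT.lf (nat_lit 0) (nat_lit 868723919061) (nat_lit 0) (nat_lit 0) (nat_lit 0) (nat_lit 0) (nat_lit 0) (nat_lit 0) (nat_lit 1) (nat_lit 0)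 (nat_lit 1) (nat_lit 0) (nat_lit 293) (nat_lit 447) (nat_lit 340)) (XT.lf (nat_lit 0) (nat_lit 868706854662) (nat_lit 0) (nat_lit 0) (nat_lit 0) (nat_lit 0) (nat_lit 0) (nat_lit 0) (nat_lit 1) (nat_lit 0) (nat_lit 1) (nat_lit 0) (nat_lit 294) (nat_lit 447) (nat_lit 339))) (XT.nd (nat_lit 94) (nat_lit 0) (nat_lit 0) (XT.lf (nat_lit 0) (nat_lit 868691054293) (nat_lit 0) (nat_lit 0) (nat_lit 0) (nat_lit 0) (nat_lit 0) (nat_lit 0) (nat_lit 1) (nat_lit 0) (nat_lit 1) (nat_lit 0) (nat_lit 295) (nat_lit 447) (nat_lit 338)) (XT.lf (nat_lit 0) (nat_lit 868676424321) (nat_lit 0) (nat_lit 0) (nat_lit 0) (nat_lit 0) (nat_lit 0) (nat_lit 0) (nat_lit 1) (nat_lit 0) (nat_lit 1) (nat_lit 0) (nat_lit 296) (nat_lit 447) (nat_lit 337)))) (XT.nd (nat_lit 188) (nat_lit 0) (nat_lit 0) (XT.nd (nat_lit 94) (nat_lit 0) (nat_lit 0) (XT.lf (nat_lit 0) (nat_lit 868662878051) (nat_lit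 0) (nat_lit 0) (nat_lit 0) (nat_lit 0) (nat_lit 0) (nat_lit 0) (nat_lit 1) (nat_lit 0) (nat_lit 1) (nat_lit 0) (nat_lit 297) (nat_lit 447) (nat_lit 336)) (XT.lf (nat_lit 0) (nat_lit 868650335209) (nat_lit 0) (nat_lit 0) (nat_lit 0) (nat_lit 0) (nat_lit 0) (nat_lit 0) (nat_lit 1) (nat_lit 0) (nat_lit 1) (nat_lit 0) (nat_lit 298) (nat_lit 447) (nat_lit 335))) (XT.nd (nat_lit 94) (nat_lit 0) (nat_lit 0) (XT.lf (nat_lit 0) (nat_lit 868638721466) (nat_lit 0) (nat_lit 0) (nat_lit 0) (nat_lit 0) (nat_lit 0) (nat_lit 0) (nat_lit 1) (nat_lit 0) (nat_lit 1) (nat_lit 0) (nat_lit 299) (nat_lit 447) (nat_lit 334)) (XT.nd (nat_lit 94) (nat_lit 0) (nat_lit 0) (XT.lf (nat_lit 0) (nat_lit 868627968000) (nat_lit 0) (nat_lit 0) (nat_lit 0) (nat_lit 0) (nat_lit 0) (nat_lit 0) (nat_lit 1) (nat_lit 0) (nat_lit 1) (nat_lit 0) (nat_lit 300) (nat_lit 447) (nat_lit 333)) (XT.lf (nat_lit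 0) (nat_lit 868618011087) (nat_lit 0) (nat_lit 0) (nat_lit 0) (nat_lit 0) (nat_lit 0) (nat_lit 0) (nat_lit 1) (nat_lit 0) (nat_lit 1) (nat_lit 0) (nat_lit 301) (nat_lit 447) (nat_lit 332)))))) (XT.nd (nat_lit 470) (nat_lit 0) (nat_lit 0) (XT.nd (nat_lit 188) (nat_lit 0) (nat_lit 0) (XT.nd (nat_lit 94) (nat_lit 0) (nat_lit 0) (XT.lf (nat_lit 0) (nat_lit 868608791724) (nat_lit 0) (nat_lit 0) (nat_lit 0) (nat_lit 0) (nat_lit 0) (nat_lit 0) (nat_lit 1) (nat_lit 0) (nat_lit 1) (nat_lit 0) (nat_lit 302) (nat_lit 447) (nat_lit 331)) (XT.lf (nat_lit 0) (nat_lit 868600255276) (nat_lit 0) (nat_lit 0) (nat_lit 0) (nat_lit 0) (nat_lit 0) (nat_lit 0) (nat_lit 1) (nat_lit 0) (nat_lit 1) (nat_lit 0) (nat_lit 303) (nat_lit 447) (nat_lit 330))) (XT.nd (nat_lit 94) (nat_lit 0) (nat_lit 0) (XT.lf (nat_lit 0) (nat_lit 868592351157) (nat_lit 0) (nat_lit 0) (nat_lit 0) (nat_lit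 0) (nat_lit 0) (nat_lit 0) (nat_lit 1) (nat_lit 0) (nat_lit 1) (nat_lit 0) (nat_lit 304) (nat_lit 447) (nat_lit 329)) (XT.nd (nat_lit 94) (nat_lit 0) (nat_lit 0) (XT.lf (nat_lit 0) (nat_lit 868585032529) (nat_lit 0) (nat_lit 0) (nat_lit 0) (nat_lit 0) (nat_lit 0) (nat_lit 0) (nat_lit 1) (nat_lit 0) (nat_lit 1) (nat_lit 0) (nat_lit 305) (nat_lit 447) (nat_lit 328)) (XT.lf (nat_lit 0) (nat_lit 868578256022) (nat_lit 0) (nat_lit 0) (nat_lit 0) (nat_lit 0) (nat_lit 0) (nat_lit 0) (nat_lit 1) (nat_lit 0) (nat_lit 1) (nat_lit 0) (nat_lit 306) (nat_lit 447) (nat_lit 327))))) (XT.nd (nat_lit 188) (nat_lit 0) (nat_lit 0) (XT.nd (nat_lit 94) (nat_lit 0) (nat_lit 0) (XT.lf (nat_lit 0) (nat_lit 868571981478) (nat_lit 0) (nat_lit 0) (nat_lit 0) (nat_lit 0) (nat_lit 0) (nat_lit 0) (nat_lit 1) (nat_lit 0) (nat_lit 1) (nat_lit 0) (nat_lit 307) (nat_lit 447) (nat_lit 326))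 (XT.lf (nat_lit 0) (nat_lit 868566171715) (nat_lit 0) (nat_lit 0) (nat_lit 0) (nat_lit 0) (nat_lit 0) (nat_lit 0) (nat_lit 1) (nat_lit 0) (nat_lit 1) (nat_lit 0) (nat_lit 308) (nat_lit 447) (nat_lit 325))) (XT.nd (nat_lit 94) (nat_lit 0) (nat_lit 0) (XT.lf (nat_lit 0) (nat_lit 868560792304) (nat_lit 0) (nat_lit 0) (nat_lit 0) (nat_lit 0) (nat_lit 0) (nat_lit 0) (nat_lit 1) (nat_lit 0) (nat_lit 1) (nat_lit 0) (nat_lit 309) (nat_lit 447) (nat_lit 324)) (XT.nd (nat_lit 94) (nat_lit 0) (nat_lit 0) (XT.lf (nat_lit 0) (nat_lit 868555811369) (nat_lit 0) (nat_lit 0) (nat_lit 0) (nat_lit 0) (nat_lit 0) (nat_lit 0) (nat_lit 1) (nat_lit 0) (nat_lit 1) (nat_lit 0) (nat_lit 310) (nat_lit 447) (nat_lit 323)) (XT.lf (nat_lit 0) (nat_lit 868551199392) (nat_lit 0) (nat_lit 0) (nat_lit 0) (nat_lit 0) (nat_lit 0) (nat_lit 0) (nat_lit 1) (nat_lit 0) (nat_lit 1) (nat_lit 0) (nat_lit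 311) (nat_lit 447) (nat_lit 322))))))))
noncomputable def ec417 : XT := (XT.nd (nat_lit 1786) (nat_lit 0) (nat_lit 0) (XT.nd (nat_lit 846) (nat_lit 0) (nat_lit 0) (XT.nd (nat_lit 376) (nat_lit 0) (nat_lit 0) (XT.nd (nat_lit 188) (nat_lit 0) (nat_lit 0) (XT.nd (nat_lit 94) (nat_lit 0) (nat_lit 0) (XT.lf (nat_lit 0) (nat_lit 868546929043) (nat_lit 0) (nat_lit 0) (nat_lit 0) (nat_lit 0) (nat_lit 0) (nat_lit 0) (nat_lit 1) (nat_lit 0) (nat_lit 1) (nat_lit 0) (nat_lit 312) (nat_lit 447) (nat_lit 321)) (XT.lf (nat_lit 0) (nat_lit 868542975016) (nat_lit 0) (nat_lit 0) (nat_lit 0) (nat_lit 0) (nat_lit 0) (nat_lit 0) (nat_lit 1) (nat_lit 0) (nat_lit 1) (nat_lit 0) (nat_lit 313) (nat_lit 447) (nat_lit 320))) (XT.nd (nat_lit 94) (nat_lit 0) (nat_lit 0) (XT.lf (nat_lit 0) (nat_lit 868539313880) (nat_lit 0) (nat_lit 0) (nat_lit 0) (nat_lit 0) (nat_lit 0) (nat_lit 0) (nat_lit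 1) (nat_lit 0) (nat_lit 1) (nat_lit 0) (nat_lit 314) (nat_lit 447) (nat_lit 319)) (XT.lf (nat_lit 0) (nat_lit 868535923939) (nat_lit 0) (nat_lit 0) (nat_lit 0) (nat_lit 0) (nat_lit 0) (nat_lit 0) (nat_lit 1) (nat_lit 0) (nat_lit 1) (nat_lit 0) (nat_lit 315) (nat_lit 447) (nat_lit 318)))) (XT.nd (nat_lit 188) (nat_lit 0) (nat_lit 0) (XT.nd (nat_lit 94) (nat_lit 0) (nat_lit 0) (XT.lf (nat_lit 0) (nat_lit 868532785104) (nat_lit 0) (nat_lit 0) (nat_lit 0) (nat_lit 0) (nat_lit 0) (nat_lit 0) (nat_lit 1) (nat_lit 0) (nat_lit 1) (nat_lit 0) (nat_lit 316) (nat_lit 447) (nat_lit 317)) (XT.lf (nat_lit 0) (nat_lit 868529878777) (nat_lit 0) (nat_lit 0) (nat_lit 0) (nat_lit 0) (nat_lit 0) (nat_lit 0) (nat_lit 1) (nat_lit 0) (nat_lit 1) (nat_lit 0) (nat_lit 317) (nat_lit 447) (nat_lit 316))) (XT.nd (nat_lit 94) (nat_lit 0) (nat_lit 0) (XT.lf (nat_lit 0) (nat_lit 868527187732)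 (nat_lit 0) (nat_lit 0) (nat_lit 0) (nat_lit 0) (nat_lit 0) (nat_lit 0) (nat_lit 1) (nat_lit 0) (nat_lit 1) (nat_lit 0) (nat_lit 318) (nat_lit 447) (nat_lit 315)) (XT.nd (nat_lit 94) (nat_lit 0) (nat_lit 0) (XT.lf (nat_lit 0) (nat_lit 868524696024) (nat_lit 0) (nat_lit 0) (nat_lit 0) (nat_lit 0) (nat_lit 0) (nat_lit 0) (nat_lit 1) (nat_lit 0) (nat_lit 1) (nat_lit 0) (nat_lit 319) (nat_lit 447) (nat_lit 314)) (XT.lf (nat_lit 0) (nat_lit 868522388888) (nat_lit 0) (nat_lit 0) (nat_lit 0) (nat_lit 0) (nat_lit 0) (nat_lit 0) (nat_lit 1) (nat_lit 0) (nat_lit 1) (nat_lit 0) (nat_lit 320) (nat_lit 447) (nat_lit 313)))))) (XT.nd (nat_lit 470) (nat_lit 0) (nat_lit 0) (XT.nd (nat_lit 188) (nat_lit 0) (nat_lit 0) (XT.nd (nat_lit 94) (nat_lit 0) (nat_lit 0) (XT.lf (nat_lit 0) (nat_lit 868520252650) (nat_lit 0) (nat_lit 0) (nat_lit 0) (nat_lit 0) (nat_lit 0) (nat_lit 0)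 (nat_lit 1) (nat_lit 0) (nat_lit 1) (nat_lit 0) (nat_lit 321) (nat_lit 447) (nat_lit 312)) (XT.lf (nat_lit 0) (nat_lit 868518274652) (nat_lit 0) (nat_lit 0) (nat_lit 0) (nat_lit 0) (nat_lit 0) (nat_lit 0) (nat_lit 1) (nat_lit 0) (nat_lit 1) (nat_lit 0) (nat_lit 322) (nat_lit 447) (nat_lit 311))) (XT.nd (nat_lit 94) (nat_lit 0) (nat_lit 0) (XT.lf (nat_lit 0) (nat_lit 868516443172) (nat_lit 0) (nat_lit 0) (nat_lit 0) (nat_lit 0) (nat_lit 0) (nat_lit 0) (nat_lit 1) (nat_lit 0) (nat_lit 1) (nat_lit 0) (nat_lit 323) (nat_lit 447) (nat_lit 310)) (XT.nd (nat_lit 94) (nat_lit 0) (nat_lit 0) (XT.lf (nat_lit 0) (nat_lit 868514747358) (nat_lit 0) (nat_lit 0) (nat_lit 0) (nat_lit 0) (nat_lit 0) (nat_lit 0) (nat_lit 1) (nat_lit 0) (nat_lit 1) (nat_lit 0) (nat_lit 324) (nat_lit 447) (nat_lit 309)) (XT.lf (nat_lit 0) (nat_lit 868513177159) (nat_lit 0) (nat_lit 0) (nat_lit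 0) (nat_lit 0) (nat_lit 0) (nat_lit 0) (nat_lit 1) (nat_lit 0) (nat_lit 1) (nat_lit 0) (nat_lit 325) (nat_lit 447) (nat_lit 308))))) (XT.nd (nat_lit 188) (nat_lit 0) (nat_lit 0) (XT.nd (nat_lit 94) (nat_lit 0) (nat_lit 0) (XT.lf (nat_lit 0) (nat_lit 868511723272) (nat_lit 0) (nat_lit 0) (nat_lit 0) (nat_lit 0) (nat_lit 0) (nat_lit 0) (nat_lit 1) (nat_lit 0) (nat_lit 1) (nat_lit 0) (nat_lit 326) (nat_lit 447) (nat_lit 307)) (XT.lf (nat_lit 0) (nat_lit 868510377080) (nat_lit 0) (nat_lit 0) (nat_lit 0) (nat_lit 0) (nat_lit 0) (nat_lit 0) (nat_lit 1) (nat_lit 0) (nat_lit 1) (nat_lit 0) (nat_lit 327) (nat_lit 447) (nat_lit 306))) (XT.nd (nat_lit 94) (nat_lit 0) (nat_lit 0) (XT.lf (nat_lit 0) (nat_lit 868509130605) (nat_lit 0) (nat_lit 0) (nat_lit 0) (nat_lit 0) (nat_lit 0) (nat_lit 0) (nat_lit 1) (nat_lit 0) (nat_lit 1) (nat_lit 0) (nat_lit 328) (nat_lit 447) (nat_lit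 305)) (XT.nd (nat_lit 94) (nat_lit 0) (nat_lit 0) (XT.lf (nat_lit 0) (nat_lit 868507976462) (nat_lit 0) (nat_lit 0) (nat_lit 0) (nat_lit 0) (nat_lit 0) (nat_lit 0) (nat_lit 1) (nat_lit 0) (nat_lit 1) (nat_lit 0) (nat_lit 329) (nat_lit 447) (nat_lit 304)) (XT.lf (nat_lit 0) (nat_lit 868506907812) (nat_lit 0) (nat_lit 0) (nat_lit 0) (nat_lit 0) (nat_lit 0) (nat_lit 0) (nat_lit 1) (nat_lit 0) (nat_lit 1) (nat_lit 0) (nat_lit 330) (nat_lit 447) (nat_lit 303))))))) (XT.nd (nat_lit 846) (nat_lit 0) (nat_lit 0) (XT.nd (nat_lit 376) (nat_lit 0) (nat_lit 0) (XT.nd (nat_lit 188) (nat_lit 0) (nat_lit 0) (XT.nd (nat_lit 94) (nat_lit 0) (nat_lit 0) (XT.lf (nat_lit 0) (nat_lit 868505918320) (nat_lit 0) (nat_lit 0) (nat_lit 0) (nat_lit 0) (nat_lit 0) (nat_lit 0) (nat_lit 1) (nat_lit 0) (nat_lit 1) (nat_lit 0) (nat_lit 331) (nat_lit 447) (nat_lit 302)) (XT.lf (nat_lit 0)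 (nat_lit 868505002125) (nat_lit 0) (nat_lit 0) (nat_lit 0) (nat_lit 0) (nat_lit 0) (nat_lit 0) (nat_lit 1) (nat_lit 0) (nat_lit 1) (nat_lit 0) (nat_lit 332) (nat_lit 447) (nat_lit 301))) (XT.nd (nat_lit 94) (nat_lit 0) (nat_lit 0) (XT.lf (nat_lit 0) (nat_lit 868504153795) (nat_lit 0) (nat_lit 0) (nat_lit 0) (nat_lit 0) (nat_lit 0) (nat_lit 0) (nat_lit 1) (nat_lit 0) (nat_lit 1) (nat_lit 0) (nat_lit 333) (nat_lit 447) (nat_lit 300)) (XT.lf (nat_lit 0) (nat_lit 868503368305) (nat_lit 0) (nat_lit 0) (nat_lit 0) (nat_lit 0) (nat_lit 0) (nat_lit 0) (nat_lit 1) (nat_lit 0) (nat_lit 1) (nat_lit 0) (nat_lit 334) (nat_lit 447) (nat_lit 299)))) (XT.nd (nat_lit 188) (nat_lit 0) (nat_lit 0) (XT.nd (nat_lit 94) (nat_lit 0) (nat_lit 0) (XT.lf (nat_lit 0) (nat_lit 868502640999) (nat_lit 0) (nat_lit 0) (nat_lit 0) (nat_lit 0) (nat_lit 0) (nat_lit 0) (nat_lit 1) (nat_lit 0)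 (nat_lit 1) (nat_lit 0) (nat_lit 335) (nat_lit 447) (nat_lit 298)) (XT.lf (nat_lit 0) (nat_lit 868501967568) (nat_lit 0) (nat_lit 0) (nat_lit 0) (nat_lit 0) (nat_lit 0) (nat_lit 0) (nat_lit 1) (nat_lit 0) (nat_lit 1) (nat_lit 0) (nat_lit 336) (nat_lit 447) (nat_lit 297))) (XT.nd (nat_lit 94) (nat_lit 0) (nat_lit 0) (XT.lf (nat_lit 0) (nat_lit 868501344020) (nat_lit 0) (nat_lit 0) (nat_lit 0) (nat_lit 0) (nat_lit 0) (nat_lit 0) (nat_lit 1) (nat_lit 0) (nat_lit 1) (nat_lit 0) (nat_lit 337) (nat_lit 447) (nat_lit 296)) (XT.nd (nat_lit 94) (nat_lit 0) (nat_lit 0) (XT.lf (nat_lit 0) (nat_lit 868500766662) (nat_lit 0) (nat_lit 0) (nat_lit 0) (nat_lit 0) (nat_lit 0) (nat_lit 0) (nat_lit 1) (nat_lit 0) (nat_lit 1) (nat_lit 0) (nat_lit 338) (nat_lit 447) (nat_lit 295)) (XT.lf (nat_lit 0) (nat_lit 868500232070) (nat_lit 0) (nat_lit 0) (nat_lit 0) (nat_lit 0) (nat_lit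 0) (nat_lit 0) (nat_lit 1) (nat_lit 0) (nat_lit 1) (nat_lit 0) (nat_lit 339) (nat_lit 447) (nat_lit 294)))))) (XT.nd (nat_lit 470) (nat_lit 0) (nat_lit 0) (XT.nd (nat_lit 188) (nat_lit 0) (nat_lit 0) (XT.nd (nat_lit 94) (nat_lit 0) (nat_lit 0) (XT.lf (nat_lit 0) (nat_lit 868499737078) (nat_lit 0) (nat_lit 0) (nat_lit 0) (nat_lit 0) (nat_lit 0) (nat_lit 0) (nat_lit 1) (nat_lit 0) (nat_lit 1) (nat_lit 0) (nat_lit 340) (nat_lit 447) (nat_lit 293)) (XT.lf (nat_lit 0) (nat_lit 868499278752) (nat_lit 0) (nat_lit 0) (nat_lit 0) (nat_lit 0) (nat_lit 0) (nat_lit 0) (nat_lit 1) (nat_lit 0) (nat_lit 1) (nat_lit 0) (nat_lit 341) (nat_lit 447) (nat_lit 292))) (XT.nd (nat_lit 94) (nat_lit 0) (nat_lit 0) (XT.lf (nat_lit 0) (nat_lit 868498854376) (nat_lit 0) (nat_lit 0) (nat_lit 0) (nat_lit 0) (nat_lit 0) (nat_lit 0) (nat_lit 1) (nat_lit 0) (nat_lit 1) (nat_lit 0) (nat_lit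 342) (nat_lit 447) (nat_lit 291)) (XT.nd (nat_lit 94) (nat_lit 0) (nat_lit 0) (XT.lf (nat_lit 0) (nat_lit 868498461436) (nat_lit 0) (nat_lit 0) (nat_lit 0) (nat_lit 0) (nat_lit 0) (nat_lit 0) (nat_lit 1) (nat_lit 0) (nat_lit 1) (nat_lit 0) (nat_lit 343) (nat_lit 447) (nat_lit 290)) (XT.lf (nat_lit 0) (nat_lit 868498097602) (nat_lit 0) (nat_lit 0) (nat_lit 0) (nat_lit 0) (nat_lit 0) (nat_lit 0) (nat_lit 1) (nat_lit 0) (nat_lit 1) (nat_lit 0) (nat_lit 344) (nat_lit 447) (nat_lit 289))))) (XT.nd (nat_lit 188) (nat_lit 0) (nat_lit 0) (XT.nd (nat_lit 94) (nat_lit 0) (nat_lit 0) (XT.lf (nat_lit 0) (nat_lit 868497760718) (nat_lit 0) (nat_lit 0) (nat_lit 0) (nat_lit 0) (nat_lit 0) (nat_lit 0) (nat_lit 1) (nat_lit 0) (nat_lit 1) (nat_lit 0) (nat_lit 345) (nat_lit 447) (nat_lit 288)) (XT.lf (nat_lit 0) (nat_lit 868497448789) (nat_lit 0) (nat_lit 0) (nat_lit 0) (nat_lit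 0) (nat_lit 0) (nat_lit 0) (nat_lit 1) (nat_lit 0) (nat_lit 1) (nat_lit 0) (nat_lit 346) (nat_lit 447) (nat_lit 287))) (XT.nd (nat_lit 94) (nat_lit 0) (nat_lit 0) (XT.lf (nat_lit 0) (nat_lit 868497159966) (nat_lit 0) (nat_lit 0) (nat_lit 0) (nat_lit 0) (nat_lit 0) (nat_lit 0) (nat_lit 1) (nat_lit 0) (nat_lit 1) (nat_lit 0) (nat_lit 347) (nat_lit 447) (nat_lit 286)) (XT.nd (nat_lit 94) (nat_lit 0) (nat_lit 0) (XT.lf (nat_lit 0) (nat_lit 868496892538) (nat_lit 0) (nat_lit 0) (nat_lit 0) (nat_lit 0) (nat_lit 0) (nat_lit 0) (nat_lit 1) (nat_lit 0) (nat_lit 1) (nat_lit 0) (nat_lit 348) (nat_lit 447) (nat_lit 285)) (XT.lf (nat_lit 0) (nat_lit 868496644918) (nat_lit 0) (nat_lit 0) (nat_lit 0) (nat_lit 0) (nat_lit 0) (nat_lit 0) (nat_lit 1) (nat_lit 0) (nat_lit 1) (nat_lit 0) (nat_lit 349) (nat_lit 447) (nat_lit 284))))))))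
noncomputable def ec418 : XT := (XT.nd (nat_lit 1692) (nat_lit 0) (nat_lit 0) (XT.nd (nat_lit 846) (nat_lit 0) (nat_lit 0) (XT.nd (nat_lit 376) (nat_lit 0) (nat_lit 0) (XT.nd (nat_lit 188) (nat_lit 0) (nat_lit 0) (XT.nd (nat_lit 94) (nat_lit 0) (nat_lit 0) (XT.lf (nat_lit 0) (nat_lit 868496415641) (nat_lit 0) (nat_lit 0) (nat_lit 0) (nat_lit 0) (nat_lit 0) (nat_lit 0) (nat_lit 1) (nat_lit 0) (nat_lit 1) (nat_lit 0) (nat_lit 350) (nat_lit 447) (nat_lit 283)) (XT.lf (nat_lit 0) (nat_lit 868496203348) (nat_lit 0) (nat_lit 0) (nat_lit 0) (nat_lit 0) (nat_lit 0) (nat_lit 0) (nat_lit 1) (nat_lit 0) (nat_lit 1) (nat_lit 0) (nat_lit 351) (nat_lit 447) (nat_lit 282))) (XT.nd (nat_lit 94) (nat_lit 0) (nat_lit 0) (XT.lf (nat_lit 0) (nat_lit 868496006779) (nat_lit 0) (nat_lit 0) (nat_lit 0) (nat_lit 0) (nat_lit 0) (nat_lit 0) (nat_lit 1) (nat_lit 0) (nat_lit 1) (nat_lit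 0) (nat_lit 352) (nat_lit 447) (nat_lit 281)) (XT.lf (nat_lit 0) (nat_lit 868495824772) (nat_lit 0) (nat_lit 0) (nat_lit 0) (nat_lit 0) (nat_lit 0) (nat_lit 0) (nat_lit 1) (nat_lit 0) (nat_lit 1) (nat_lit 0) (nat_lit 353) (nat_lit 447) (nat_lit 280)))) (XT.nd (nat_lit 188) (nat_lit 0) (nat_lit 0) (XT.nd (nat_lit 94) (nat_lit 0) (nat_lit 0) (XT.lf (nat_lit 0) (nat_lit 868495656246) (nat_lit 0) (nat_lit 0) (nat_lit 0) (nat_lit 0) (nat_lit 0) (nat_lit 0) (nat_lit 1) (nat_lit 0) (nat_lit 1) (nat_lit 0) (nat_lit 354) (nat_lit 447) (nat_lit 279)) (XT.lf (nat_lit 0) (nat_lit 868495500204) (nat_lit 0) (nat_lit 0) (nat_lit 0) (nat_lit 0) (nat_lit 0) (nat_lit 0) (nat_lit 1) (nat_lit 0) (nat_lit 1) (nat_lit 0) (nat_lit 355) (nat_lit 447) (nat_lit 278))) (XT.nd (nat_lit 94) (nat_lit 0) (nat_lit 0) (XT.lf (nat_lit 0) (nat_lit 868495355721) (nat_lit 0) (nat_lit 0) (nat_lit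 0) (nat_lit 0) (nat_lit 0) (nat_lit 0) (nat_lit 1) (nat_lit 0) (nat_lit 1) (nat_lit 0) (nat_lit 356) (nat_lit 447) (nat_lit 277)) (XT.nd (nat_lit 94) (nat_lit 0) (nat_lit 0) (XT.lf (nat_lit 0) (nat_lit 868495221940) (nat_lit 0) (nat_lit 0) (nat_lit 0) (nat_lit 0) (nat_lit 0) (nat_lit 0) (nat_lit 1) (nat_lit 0) (nat_lit 1) (nat_lit 0) (nat_lit 357) (nat_lit 447) (nat_lit 276)) (XT.lf (nat_lit 0) (nat_lit 868495098068) (nat_lit 0) (nat_lit 0) (nat_lit 0) (nat_lit 0) (nat_lit 0) (nat_lit 0) (nat_lit 1) (nat_lit 0) (nat_lit 1) (nat_lit 0) (nat_lit 358) (nat_lit 447) (nat_lit 275)))))) (XT.nd (nat_lit 376) (nat_lit 0) (nat_lit 0) (XT.nd (nat_lit 188) (nat_lit 0) (nat_lit 0) (XT.nd (nat_lit 94) (nat_lit 0) (nat_lit 0) (XT.lf (nat_lit 0) (nat_lit 868494983373) (nat_lit 0) (nat_lit 0) (nat_lit 0) (nat_lit 0) (nat_lit 0) (nat_lit 0) (nat_lit 1) (nat_lit 0) (nat_lit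 1) (nat_lit 0) (nat_lit 359) (nat_lit 447) (nat_lit 274)) (XT.lf (nat_lit 0) (nat_lit 868494877173) (nat_lit 0) (nat_lit 0) (nat_lit 0) (nat_lit 0) (nat_lit 0) (nat_lit 0) (nat_lit 1) (nat_lit 0) (nat_lit 1) (nat_lit 0) (nat_lit 360) (nat_lit 447) (nat_lit 273))) (XT.nd (nat_lit 94) (nat_lit 0) (nat_lit 0) (XT.lf (nat_lit 0) (nat_lit 868494778840) (nat_lit 0) (nat_lit 0) (nat_lit 0) (nat_lit 0) (nat_lit 0) (nat_lit 0) (nat_lit 1) (nat_lit 0) (nat_lit 1) (nat_lit 0) (nat_lit 361) (nat_lit 447) (nat_lit 272)) (XT.lf (nat_lit 0) (nat_lit 868494687791) (nat_lit 0) (nat_lit 0) (nat_lit 0) (nat_lit 0) (nat_lit 0) (nat_lit 0) (nat_lit 1) (nat_lit 0) (nat_lit 1) (nat_lit 0) (nat_lit 362) (nat_lit 447) (nat_lit 271)))) (XT.nd (nat_lit 188) (nat_lit 0) (nat_lit 0) (XT.nd (nat_lit 94) (nat_lit 0) (nat_lit 0) (XT.lf (nat_lit 0) (nat_lit 868494603486) (nat_lit 0) (nat_lit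 0) (nat_lit 0) (nat_lit 0) (nat_lit 0) (nat_lit 0) (nat_lit 1) (nat_lit 0) (nat_lit 1) (nat_lit 0) (nat_lit 363) (nat_lit 447) (nat_lit 270)) (XT.lf (nat_lit 0) (nat_lit 868494525426) (nat_lit 0) (nat_lit 0) (nat_lit 0) (nat_lit 0) (nat_lit 0) (nat_lit 0) (nat_lit 1) (nat_lit 0) (nat_lit 1) (nat_lit 0) (nat_lit 364) (nat_lit 447) (nat_lit 269))) (XT.nd (nat_lit 94) (nat_lit 0) (nat_lit 0) (XT.lf (nat_lit 0) (nat_lit 868494453149) (nat_lit 0) (nat_lit 0) (nat_lit 0) (nat_lit 0) (nat_lit 0) (nat_lit 0) (nat_lit 1) (nat_lit 0) (nat_lit 1) (nat_lit 0) (nat_lit 365) (nat_lit 447) (nat_lit 268)) (XT.nd (nat_lit 94) (nat_lit 0) (nat_lit 0) (XT.lf (nat_lit 0) (nat_lit 868494386225) (nat_lit 0) (nat_lit 0) (nat_lit 0) (nat_lit 0) (nat_lit 0) (nat_lit 0) (nat_lit 1) (nat_lit 0) (nat_lit 1) (nat_lit 0) (nat_lit 366) (nat_lit 447) (nat_lit 267)) (XT.lf (nat_lit 0) (nat_lit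 868494324258) (nat_lit 0) (nat_lit 0) (nat_lit 0) (nat_lit 0) (nat_lit 0) (nat_lit 0) (nat_lit 1) (nat_lit 0) (nat_lit 1) (nat_lit 0) (nat_lit 367) (nat_lit 447) (nat_lit 266))))))) (XT.nd (nat_lit 846) (nat_lit 0) (nat_lit 0) (XT.nd (nat_lit 376) (nat_lit 0) (nat_lit 0) (XT.nd (nat_lit 188) (nat_lit 0) (nat_lit 0) (XT.nd (nat_lit 94) (nat_lit 0) (nat_lit 0) (XT.lf (nat_lit 0) (nat_lit 868494266882) (nat_lit 0) (nat_lit 0) (nat_lit 0) (nat_lit 0) (nat_lit 0) (nat_lit 0) (nat_lit 1) (nat_lit 0) (nat_lit 1) (nat_lit 0) (nat_lit 368) (nat_lit 447) (nat_lit 265)) (XT.lf (nat_lit 0) (nat_lit 868494213756) (nat_lit 0) (nat_lit 0) (nat_lit 0) (nat_lit 0) (nat_lit 0) (nat_lit 0) (nat_lit 1) (nat_lit 0) (nat_lit 1) (nat_lit 0) (nat_lit 369) (nat_lit 447) (nat_lit 264))) (XT.nd (nat_lit 94) (nat_lit 0) (nat_lit 0) (XT.lf (nat_lit 0) (nat_lit 868494164565) (nat_lit 0)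 (nat_lit 0) (nat_lit 0) (nat_lit 0) (nat_lit 0) (nat_lit 0) (nat_lit 1) (nat_lit 0) (nat_lit 1) (nat_lit 0) (nat_lit 370) (nat_lit 447) (nat_lit 263)) (XT.lf (nat_lit 0) (nat_lit 868494119018) (nat_lit 0) (nat_lit 0) (nat_lit 0) (nat_lit 0) (nat_lit 0) (nat_lit 0) (nat_lit 1) (nat_lit 0) (nat_lit 1) (nat_lit 0) (nat_lit 371) (nat_lit 447) (nat_lit 262)))) (XT.nd (nat_lit 188) (nat_lit 0) (nat_lit 0) (XT.nd (nat_lit 94) (nat_lit 0) (nat_lit 0) (XT.lf (nat_lit 0) (nat_lit 868494076844) (nat_lit 0) (nat_lit 0) (nat_lit 0) (nat_lit 0) (nat_lit 0) (nat_lit 0) (nat_lit 1) (nat_lit 0) (nat_lit 1) (nat_lit 0) (nat_lit 372) (nat_lit 447) (nat_lit 261)) (XT.lf (nat_lit 0) (nat_lit 868494037795) (nat_lit 0) (nat_lit 0) (nat_lit 0) (nat_lit 0) (nat_lit 0) (nat_lit 0) (nat_lit 1) (nat_lit 0) (nat_lit 1) (nat_lit 0) (nat_lit 373) (nat_lit 447) (nat_lit 260))) (XT.nd (nat_lit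 94) (nat_lit 0) (nat_lit 0) (XT.lf (nat_lit 0) (nat_lit 868494001638) (nat_lit 0) (nat_lit 0) (nat_lit 0) (nat_lit 0) (nat_lit 0) (nat_lit 0) (nat_lit 1) (nat_lit 0) (nat_lit 1) (nat_lit 0) (nat_lit 374) (nat_lit 447) (nat_lit 259)) (XT.nd (nat_lit 94) (nat_lit 0) (nat_lit 0) (XT.lf (nat_lit 0) (nat_lit 868493968159) (nat_lit 0) (nat_lit 0) (nat_lit 0) (nat_lit 0) (nat_lit 0) (nat_lit 0) (nat_lit 1) (nat_lit 0) (nat_lit 1) (nat_lit 0) (nat_lit 375) (nat_lit 447) (nat_lit 258)) (XT.lf (nat_lit 0) (nat_lit 868493937161) (nat_lit 0) (nat_lit 0) (nat_lit 0) (nat_lit 0) (nat_lit 0) (nat_lit 0) (nat_lit 1) (nat_lit 0) (nat_lit 1) (nat_lit 0) (nat_lit 376) (nat_lit 447) (nat_lit 257)))))) (XT.nd (nat_lit 470) (nat_lit 0) (nat_lit 0) (XT.nd (nat_lit 188) (nat_lit 0) (nat_lit 0) (XT.nd (nat_lit 94) (nat_lit 0) (nat_lit 0) (XT.lf (nat_lit 0) (nat_lit 868493908458) (nat_lit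 0) (nat_lit 0) (nat_lit 0) (nat_lit 0) (nat_lit 0) (nat_lit 0) (nat_lit 1) (nat_lit 0) (nat_lit 1) (nat_lit 0) (nat_lit 377) (nat_lit 447) (nat_lit 256)) (XT.lf (nat_lit 0) (nat_lit 868493881882) (nat_lit 0) (nat_lit 0) (nat_lit 0) (nat_lit 0) (nat_lit 0) (nat_lit 0) (nat_lit 1) (nat_lit 0) (nat_lit 1) (nat_lit 0) (nat_lit 378) (nat_lit 447) (nat_lit 255))) (XT.nd (nat_lit 94) (nat_lit 0) (nat_lit 0) (XT.lf (nat_lit 0) (nat_lit 868493857274) (nat_lit 0) (nat_lit 0) (nat_lit 0) (nat_lit 0) (nat_lit 0) (nat_lit 0) (nat_lit 1) (nat_lit 0) (nat_lit 1) (nat_lit 0) (nat_lit 379) (nat_lit 447) (nat_lit 254)) (XT.nd (nat_lit 94) (nat_lit 0) (nat_lit 0) (XT.lf (nat_lit 0) (nat_lit 868493834489) (nat_lit 0) (nat_lit 0) (nat_lit 0) (nat_lit 0) (nat_lit 0) (nat_lit 0) (nat_lit 1) (nat_lit 0) (nat_lit 1) (nat_lit 0) (nat_lit 380) (nat_lit 447) (nat_lit 253)) (XT.lf (nat_lit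 0) (nat_lit 868493813392) (nat_lit 0) (nat_lit 0) (nat_lit 0) (nat_lit 0) (nat_lit 0) (nat_lit 0) (nat_lit 1) (nat_lit 0) (nat_lit 1) (nat_lit 0) (nat_lit 381) (nat_lit 447) (nat_lit 252))))) (XT.nd (nat_lit 188) (nat_lit 0) (nat_lit 0) (XT.nd (nat_lit 94) (nat_lit 0) (nat_lit 0) (XT.lf (nat_lit 0) (nat_lit 868493793858) (nat_lit 0) (nat_lit 0) (nat_lit 0) (nat_lit 0) (nat_lit 0) (nat_lit 0) (nat_lit 1) (nat_lit 0) (nat_lit 1) (nat_lit 0) (nat_lit 382) (nat_lit 447) (nat_lit 251)) (XT.lf (nat_lit 0) (nat_lit 868493775770) (nat_lit 0) (nat_lit 0) (nat_lit 0) (nat_lit 0) (nat_lit 0) (nat_lit 0) (nat_lit 1) (nat_lit 0) (nat_lit 1) (nat_lit 0) (nat_lit 383) (nat_lit 447) (nat_lit 250))) (XT.nd (nat_lit 94) (nat_lit 0) (nat_lit 0) (XT.lf (nat_lit 0) (nat_lit 868493759023) (nat_lit 0) (nat_lit 0) (nat_lit 0) (nat_lit 0) (nat_lit 0) (nat_lit 0) (nat_lit 1) (nat_lit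 0) (nat_lit 1) (nat_lit 0) (nat_lit 384) (nat_lit 447) (nat_lit 249)) (XT.nd (nat_lit 94) (nat_lit 0) (nat_lit 0) (XT.lf (nat_lit 0) (nat_lit 868493743516) (nat_lit 0) (nat_lit 0) (nat_lit 0) (nat_lit 0) (nat_lit 0) (nat_lit 0) (nat_lit 1) (nat_lit 0) (nat_lit 1) (nat_lit 0) (nat_lit 385) (nat_lit 447) (nat_lit 248)) (XT.lf (nat_lit 0) (nat_lit 868493729157) (nat_lit 0) (nat_lit 0) (nat_lit 0) (nat_lit 0) (nat_lit 0) (nat_lit 0) (nat_lit 1) (nat_lit 0) (nat_lit 1) (nat_lit 0) (nat_lit 386) (nat_lit 447) (nat_lit 247))))))))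
noncomputable def ec419 : XT := (XT.nd (nat_lit 1786) (nat_lit 0) (nat_lit 0) (XT.nd (nat_lit 846) (nat_lit 0) (nat_lit 0) (XT.nd (nat_lit 376) (nat_lit 0) (nat_lit 0) (XT.nd (nat_lit 188) (nat_lit 0) (nat_lit 0) (XT.nd (nat_lit 94) (nat_lit 0) (nat_lit 0) (XT.lf (nat_lit 0) (nat_lit 868493715862) (nat_lit 0) (nat_lit 0) (nat_lit 0) (nat_lit 0) (nat_lit 0) (nat_lit 0) (nat_lit 1) (nat_lit 0) (nat_lit 1) (nat_lit 0) (nat_lit 387) (nat_lit 447) (nat_lit 246)) (XT.lf (nat_lit 0) (nat_lit 868493703552) (nat_lit 0) (nat_lit 0) (nat_lit 0) (nat_lit 0) (nat_lit 0) (nat_lit 0) (nat_lit 1) (nat_lit 0) (nat_lit 1) (nat_lit 0) (nat_lit 388) (nat_lit 447) (nat_lit 245))) (XT.nd (nat_lit 94) (nat_lit 0) (nat_lit 0) (XT.lf (nat_lit 0) (nat_lit 868493692154) (nat_lit 0) (nat_lit 0) (nat_lit 0) (nat_lit 0) (nat_lit 0) (nat_lit 0) (nat_lit 1) (nat_lit 0) (nat_lit 1) (nat_lit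 0) (nat_lit 389) (nat_lit 447) (nat_lit 244)) (XT.lf (nat_lit 0) (nat_lit 868493681600) (nat_lit 0) (nat_lit 0) (nat_lit 0) (nat_lit 0) (nat_lit 0) (nat_lit 0) (nat_lit 1) (nat_lit 0) (nat_lit 1) (nat_lit 0) (nat_lit 390) (nat_lit 447) (nat_lit 243)))) (XT.nd (nat_lit 188) (nat_lit 0) (nat_lit 0) (XT.nd (nat_lit 94) (nat_lit 0) (nat_lit 0) (XT.lf (nat_lit 0) (nat_lit 868493671828) (nat_lit 0) (nat_lit 0) (nat_lit 0) (nat_lit 0) (nat_lit 0) (nat_lit 0) (nat_lit 1) (nat_lit 0) (nat_lit 1) (nat_lit 0) (nat_lit 391) (nat_lit 447) (nat_lit 242)) (XT.lf (nat_lit 0) (nat_lit 868493662780) (nat_lit 0) (nat_lit 0) (nat_lit 0) (nat_lit 0) (nat_lit 0) (nat_lit 0) (nat_lit 1) (nat_lit 0) (nat_lit 1) (nat_lit 0) (nat_lit 392) (nat_lit 447) (nat_lit 241))) (XT.nd (nat_lit 94) (nat_lit 0) (nat_lit 0) (XT.lf (nat_lit 0) (nat_lit 868493654402) (nat_lit 0) (nat_lit 0) (nat_lit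 0) (nat_lit 0) (nat_lit 0) (nat_lit 0) (nat_lit 1) (nat_lit 0) (nat_lit 1) (nat_lit 0) (nat_lit 393) (nat_lit 447) (nat_lit 240)) (XT.nd (nat_lit 94) (nat_lit 0) (nat_lit 0) (XT.lf (nat_lit 0) (nat_lit 868493646645) (nat_lit 0) (nat_lit 0) (nat_lit 0) (nat_lit 0) (nat_lit 0) (nat_lit 0) (nat_lit 1) (nat_lit 0) (nat_lit 1) (nat_lit 0) (nat_lit 394) (nat_lit 447) (nat_lit 239)) (XT.lf (nat_lit 0) (nat_lit 868493639462) (nat_lit 0) (nat_lit 0) (nat_lit 0) (nat_lit 0) (nat_lit 0) (nat_lit 0) (nat_lit 1) (nat_lit 0) (nat_lit 1) (nat_lit 0) (nat_lit 395) (nat_lit 447) (nat_lit 238)))))) (XT.nd (nat_lit 470) (nat_lit 0) (nat_lit 0) (XT.nd (nat_lit 188) (nat_lit 0) (nat_lit 0) (XT.nd (nat_lit 94) (nat_lit 0) (nat_lit 0) (XT.lf (nat_lit 0) (nat_lit 868493632811) (nat_lit 0) (nat_lit 0) (nat_lit 0) (nat_lit 0) (nat_lit 0) (nat_lit 0) (nat_lit 1) (nat_lit 0) (nat_lit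 1) (nat_lit 0) (nat_lit 396) (nat_lit 447) (nat_lit 237)) (XT.lf (nat_lit 0) (nat_lit 868493626653) (nat_lit 0) (nat_lit 0) (nat_lit 0) (nat_lit 0) (nat_lit 0) (nat_lit 0) (nat_lit 1) (nat_lit 0) (nat_lit 1) (nat_lit 0) (nat_lit 397) (nat_lit 447) (nat_lit 236))) (XT.nd (nat_lit 94) (nat_lit 0) (nat_lit 0) (XT.lf (nat_lit 0) (nat_lit 868493620951) (nat_lit 0) (nat_lit 0) (nat_lit 0) (nat_lit 0) (nat_lit 0) (nat_lit 0) (nat_lit 1) (nat_lit 0) (nat_lit 1) (nat_lit 0) (nat_lit 398) (nat_lit 447) (nat_lit 235)) (XT.nd (nat_lit 94) (nat_lit 0) (nat_lit 0) (XT.lf (nat_lit 0) (nat_lit 868493615672) (nat_lit 0) (nat_lit 0) (nat_lit 0) (nat_lit 0) (nat_lit 0) (nat_lit 0) (nat_lit 1) (nat_lit 0) (nat_lit 1) (nat_lit 0) (nat_lit 399) (nat_lit 447) (nat_lit 234)) (XT.lf (nat_lit 0) (nat_lit 868493610783) (nat_lit 0) (nat_lit 0) (nat_lit 0) (nat_lit 0) (nat_lit 0) (nat_lit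 0) (nat_lit 1) (nat_lit 0) (nat_lit 1) (nat_lit 0) (nat_lit 400) (nat_lit 447) (nat_lit 233))))) (XT.nd (nat_lit 188) (nat_lit 0) (nat_lit 0) (XT.nd (nat_lit 94) (nat_lit 0) (nat_lit 0) (XT.lf (nat_lit 0) (nat_lit 868493606257) (nat_lit 0) (nat_lit 0) (nat_lit 0) (nat_lit 0) (nat_lit 0) (nat_lit 0) (nat_lit 1) (nat_lit 0) (nat_lit 1) (nat_lit 0) (nat_lit 401) (nat_lit 447) (nat_lit 232)) (XT.lf (nat_lit 0) (nat_lit 868493602066) (nat_lit 0) (nat_lit 0) (nat_lit 0) (nat_lit 0) (nat_lit 0) (nat_lit 0) (nat_lit 1) (nat_lit 0) (nat_lit 1) (nat_lit 0) (nat_lit 402) (nat_lit 447) (nat_lit 231))) (XT.nd (nat_lit 94) (nat_lit 0) (nat_lit 0) (XT.lf (nat_lit 0) (nat_lit 868493598185) (nat_lit 0) (nat_lit 0) (nat_lit 0) (nat_lit 0) (nat_lit 0) (nat_lit 0) (nat_lit 1) (nat_lit 0) (nat_lit 1) (nat_lit 0) (nat_lit 403) (nat_lit 447) (nat_lit 230)) (XT.nd (nat_lit 94) (nat_lit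 0) (nat_lit 0) (XT.lf (nat_lit 0) (nat_lit 868493594592) (nat_lit 0) (nat_lit 0) (nat_lit 0) (nat_lit 0) (nat_lit 0) (nat_lit 0) (nat_lit 1) (nat_lit 0) (nat_lit 1) (nat_lit 0) (nat_lit 404) (nat_lit 447) (nat_lit 229)) (XT.lf (nat_lit 0) (nat_lit 868493591265) (nat_lit 0) (nat_lit 0) (nat_lit 0) (nat_lit 0) (nat_lit 0) (nat_lit 0) (nat_lit 1) (nat_lit 0) (nat_lit 1) (nat_lit 0) (nat_lit 405) (nat_lit 447) (nat_lit 228))))))) (XT.nd (nat_lit 846) (nat_lit 0) (nat_lit 0) (XT.nd (nat_lit 376) (nat_lit 0) (nat_lit 0) (XT.nd (nat_lit 188) (nat_lit 0) (nat_lit 0) (XT.nd (nat_lit 94) (nat_lit 0) (nat_lit 0) (XT.lf (nat_lit 0) (nat_lit 868493588184) (nat_lit 0) (nat_lit 0) (nat_lit 0) (nat_lit 0) (nat_lit 0) (nat_lit 0) (nat_lit 1) (nat_lit 0) (nat_lit 1) (nat_lit 0) (nat_lit 406) (nat_lit 447) (nat_lit 227)) (XT.lf (nat_lit 0) (nat_lit 868493585332) (nat_lit 0)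 (nat_lit 0) (nat_lit 0) (nat_lit 0) (nat_lit 0) (nat_lit 0) (nat_lit 1) (nat_lit 0) (nat_lit 1) (nat_lit 0) (nat_lit 407) (nat_lit 447) (nat_lit 226))) (XT.nd (nat_lit 94) (nat_lit 0) (nat_lit 0) (XT.lf (nat_lit 0) (nat_lit 868493582691) (nat_lit 0) (nat_lit 0) (nat_lit 0) (nat_lit 0) (nat_lit 0) (nat_lit 0) (nat_lit 1) (nat_lit 0) (nat_lit 1) (nat_lit 0) (nat_lit 408) (nat_lit 447) (nat_lit 225)) (XT.lf (nat_lit 0) (nat_lit 868493580246) (nat_lit 0) (nat_lit 0) (nat_lit 0) (nat_lit 0) (nat_lit 0) (nat_lit 0) (nat_lit 1) (nat_lit 0) (nat_lit 1) (nat_lit 0) (nat_lit 409) (nat_lit 447) (nat_lit 224)))) (XT.nd (nat_lit 188) (nat_lit 0) (nat_lit 0) (XT.nd (nat_lit 94) (nat_lit 0) (nat_lit 0) (XT.lf (nat_lit 0) (nat_lit 868493577981) (nat_lit 0) (nat_lit 0) (nat_lit 0) (nat_lit 0) (nat_lit 0) (nat_lit 0) (nat_lit 1) (nat_lit 0) (nat_lit 1) (nat_lit 0) (nat_lit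 410) (nat_lit 447) (nat_lit 223)) (XT.lf (nat_lit 0) (nat_lit 868493575885) (nat_lit 0) (nat_lit 0) (nat_lit 0) (nat_lit 0) (nat_lit 0) (nat_lit 0) (nat_lit 1) (nat_lit 0) (nat_lit 1) (nat_lit 0) (nat_lit 411) (nat_lit 447) (nat_lit 222))) (XT.nd (nat_lit 94) (nat_lit 0) (nat_lit 0) (XT.lf (nat_lit 0) (nat_lit 868493573943) (nat_lit 0) (nat_lit 0) (nat_lit 0) (nat_lit 0) (nat_lit 0) (nat_lit 0) (nat_lit 1) (nat_lit 0) (nat_lit 1) (nat_lit 0) (nat_lit 412) (nat_lit 447) (nat_lit 221)) (XT.nd (nat_lit 94) (nat_lit 0) (nat_lit 0) (XT.lf (nat_lit 0) (nat_lit 868493572146) (nat_lit 0) (nat_lit 0) (nat_lit 0) (nat_lit 0) (nat_lit 0) (nat_lit 0) (nat_lit 1) (nat_lit 0) (nat_lit 1) (nat_lit 0) (nat_lit 413) (nat_lit 447) (nat_lit 220)) (XT.lf (nat_lit 0) (nat_lit 868493570482) (nat_lit 0) (nat_lit 0) (nat_lit 0) (nat_lit 0) (nat_lit 0) (nat_lit 0) (nat_lit 1) (nat_lit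 0) (nat_lit 1) (nat_lit 0) (nat_lit 414) (nat_lit 447) (nat_lit 219)))))) (XT.nd (nat_lit 470) (nat_lit 0) (nat_lit 0) (XT.nd (nat_lit 188) (nat_lit 0) (nat_lit 0) (XT.nd (nat_lit 94) (nat_lit 0) (nat_lit 0) (XT.lf (nat_lit 0) (nat_lit 868493568941) (nat_lit 0) (nat_lit 0) (nat_lit 0) (nat_lit 0) (nat_lit 0) (nat_lit 0) (nat_lit 1) (nat_lit 0) (nat_lit 1) (nat_lit 0) (nat_lit 415) (nat_lit 447) (nat_lit 218)) (XT.lf (nat_lit 0) (nat_lit 868493567514) (nat_lit 0) (nat_lit 0) (nat_lit 0) (nat_lit 0) (nat_lit 0) (nat_lit 0) (nat_lit 1) (nat_lit 0) (nat_lit 1) (nat_lit 0) (nat_lit 416) (nat_lit 447) (nat_lit 217))) (XT.nd (nat_lit 94) (nat_lit 0) (nat_lit 0) (XT.lf (nat_lit 0) (nat_lit 868493566192) (nat_lit 0) (nat_lit 0) (nat_lit 0) (nat_lit 0) (nat_lit 0) (nat_lit 0) (nat_lit 1) (nat_lit 0) (nat_lit 1) (nat_lit 0) (nat_lit 417) (nat_lit 447) (nat_lit 216))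 (XT.nd (nat_lit 94) (nat_lit 0) (nat_lit 0) (XT.lf (nat_lit 0) (nat_lit 868493564969) (nat_lit 0) (nat_lit 0) (nat_lit 0) (nat_lit 0) (nat_lit 0) (nat_lit 0) (nat_lit 1) (nat_lit 0) (nat_lit 1) (nat_lit 0) (nat_lit 418) (nat_lit 447) (nat_lit 215)) (XT.lf (nat_lit 0) (nat_lit 868493563836) (nat_lit 0) (nat_lit 0) (nat_lit 0) (nat_lit 0) (nat_lit 0) (nat_lit 0) (nat_lit 1) (nat_lit 0) (nat_lit 1) (nat_lit 0) (nat_lit 419) (nat_lit 447) (nat_lit 214))))) (XT.nd (nat_lit 188) (nat_lit 0) (nat_lit 0) (XT.nd (nat_lit 94) (nat_lit 0) (nat_lit 0) (XT.lf (nat_lit 0) (nat_lit 868493562788) (nat_lit 0) (nat_lit 0) (nat_lit 0) (nat_lit 0) (nat_lit 0) (nat_lit 0) (nat_lit 1) (nat_lit 0) (nat_lit 1) (nat_lit 0) (nat_lit 420) (nat_lit 447) (nat_lit 213)) (XT.lf (nat_lit 0) (nat_lit 868493561816) (nat_lit 0) (nat_lit 0) (nat_lit 0) (nat_lit 0) (nat_lit 0) (nat_lit 0) (nat_lit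 1) (nat_lit 0) (nat_lit 1) (nat_lit 0) (nat_lit 421) (nat_lit 447) (nat_lit 212))) (XT.nd (nat_lit 94) (nat_lit 0) (nat_lit 0) (XT.lf (nat_lit 0) (nat_lit 868493560917) (nat_lit 0) (nat_lit 0) (nat_lit 0) (nat_lit 0) (nat_lit 0) (nat_lit 0) (nat_lit 1) (nat_lit 0) (nat_lit 1) (nat_lit 0) (nat_lit 422) (nat_lit 447) (nat_lit 211)) (XT.nd (nat_lit 94) (nat_lit 0) (nat_lit 0) (XT.lf (nat_lit 0) (nat_lit 868493560085) (nat_lit 0) (nat_lit 0) (nat_lit 0) (nat_lit 0) (nat_lit 0) (nat_lit 0) (nat_lit 1) (nat_lit 0) (nat_lit 1) (nat_lit 0) (nat_lit 423) (nat_lit 447) (nat_lit 210)) (XT.lf (nat_lit 0) (nat_lit 868493559314) (nat_lit 0) (nat_lit 0) (nat_lit 0) (nat_lit 0) (nat_lit 0) (nat_lit 0) (nat_lit 1) (nat_lit 0) (nat_lit 1) (nat_lit 0) (nat_lit 424) (nat_lit 447) (nat_lit 209))))))))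
noncomputable def ec420 : XT := (XT.nd (nat_lit 1692) (nat_lit 0) (nat_lit 0) (XT.nd (nat_lit 846) (nat_lit 0) (nat_lit 0) (XT.nd (nat_lit 376) (nat_lit 0) (nat_lit 0) (XT.nd (nat_lit 188) (nat_lit 0) (nat_lit 0) (XT.nd (nat_lit 94) (nat_lit 0) (nat_lit 0) (XT.lf (nat_lit 0) (nat_lit 868493558600) (nat_lit 0) (nat_lit 0) (nat_lit 0) (nat_lit 0) (nat_lit 0) (nat_lit 0) (nat_lit 1) (nat_lit 0) (nat_lit 1) (nat_lit 0) (nat_lit 425) (nat_lit 447) (nat_lit 208)) (XT.lf (nat_lit 0) (nat_lit 868493557939) (nat_lit 0) (nat_lit 0) (nat_lit 0) (nat_lit 0) (nat_lit 0) (nat_lit 0) (nat_lit 1) (nat_lit 0) (nat_lit 1) (nat_lit 0) (nat_lit 426) (nat_lit 447) (nat_lit 207))) (XT.nd (nat_lit 94) (nat_lit 0) (nat_lit 0) (XT.lf (nat_lit 0) (nat_lit 868493557327) (nat_lit 0) (nat_lit 0) (nat_lit 0) (nat_lit 0) (nat_lit 0) (nat_lit 0) (nat_lit 1) (nat_lit 0) (nat_lit 1) (nat_lit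 0) (nat_lit 427) (nat_lit 447) (nat_lit 206)) (XT.lf (nat_lit 0) (nat_lit 868493556760) (nat_lit 0) (nat_lit 0) (nat_lit 0) (nat_lit 0) (nat_lit 0) (nat_lit 0) (nat_lit 1) (nat_lit 0) (nat_lit 1) (nat_lit 0) (nat_lit 428) (nat_lit 447) (nat_lit 205)))) (XT.nd (nat_lit 188) (nat_lit 0) (nat_lit 0) (XT.nd (nat_lit 94) (nat_lit 0) (nat_lit 0) (XT.lf (nat_lit 0) (nat_lit 868493556236) (nat_lit 0) (nat_lit 0) (nat_lit 0) (nat_lit 0) (nat_lit 0) (nat_lit 0) (nat_lit 1) (nat_lit 0) (nat_lit 1) (nat_lit 0) (nat_lit 429) (nat_lit 447) (nat_lit 204)) (XT.lf (nat_lit 0) (nat_lit 868493555750) (nat_lit 0) (nat_lit 0) (nat_lit 0) (nat_lit 0) (nat_lit 0) (nat_lit 0) (nat_lit 1) (nat_lit 0) (nat_lit 1) (nat_lit 0) (nat_lit 430) (nat_lit 447) (nat_lit 203))) (XT.nd (nat_lit 94) (nat_lit 0) (nat_lit 0) (XT.lf (nat_lit 0) (nat_lit 868493555300) (nat_lit 0) (nat_lit 0) (nat_lit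 0) (nat_lit 0) (nat_lit 0) (nat_lit 0) (nat_lit 1) (nat_lit 0) (nat_lit 1) (nat_lit 0) (nat_lit 431) (nat_lit 447) (nat_lit 202)) (XT.nd (nat_lit 94) (nat_lit 0) (nat_lit 0) (XT.lf (nat_lit 0) (nat_lit 868493554884) (nat_lit 0) (nat_lit 0) (nat_lit 0) (nat_lit 0) (nat_lit 0) (nat_lit 0) (nat_lit 1) (nat_lit 0) (nat_lit 1) (nat_lit 0) (nat_lit 432) (nat_lit 447) (nat_lit 201)) (XT.lf (nat_lit 0) (nat_lit 868493554498) (nat_lit 0) (nat_lit 0) (nat_lit 0) (nat_lit 0) (nat_lit 0) (nat_lit 0) (nat_lit 1) (nat_lit 0) (nat_lit 1) (nat_lit 0) (nat_lit 433) (nat_lit 447) (nat_lit 200)))))) (XT.nd (nat_lit 376) (nat_lit 0) (nat_lit 0) (XT.nd (nat_lit 188) (nat_lit 0) (nat_lit 0) (XT.nd (nat_lit 94) (nat_lit 0) (nat_lit 0) (XT.lf (nat_lit 0) (nat_lit 868493554141) (nat_lit 0) (nat_lit 0) (nat_lit 0) (nat_lit 0) (nat_lit 0) (nat_lit 0) (nat_lit 1) (nat_lit 0) (nat_lit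 1) (nat_lit 0) (nat_lit 434) (nat_lit 447) (nat_lit 199)) (XT.lf (nat_lit 0) (nat_lit 868493553810) (nat_lit 0) (nat_lit 0) (nat_lit 0) (nat_lit 0) (nat_lit 0) (nat_lit 0) (nat_lit 1) (nat_lit 0) (nat_lit 1) (nat_lit 0) (nat_lit 435) (nat_lit 447) (nat_lit 198))) (XT.nd (nat_lit 94) (nat_lit 0) (nat_lit 0) (XT.lf (nat_lit 0) (nat_lit 868493553504) (nat_lit 0) (nat_lit 0) (nat_lit 0) (nat_lit 0) (nat_lit 0) (nat_lit 0) (nat_lit 1) (nat_lit 0) (nat_lit 1) (nat_lit 0) (nat_lit 436) (nat_lit 447) (nat_lit 197)) (XT.lf (nat_lit 0) (nat_lit 868493553221) (nat_lit 0) (nat_lit 0) (nat_lit 0) (nat_lit 0) (nat_lit 0) (nat_lit 0) (nat_lit 1) (nat_lit 0) (nat_lit 1) (nat_lit 0) (nat_lit 437) (nat_lit 447) (nat_lit 196)))) (XT.nd (nat_lit 188) (nat_lit 0) (nat_lit 0) (XT.nd (nat_lit 94) (nat_lit 0) (nat_lit 0) (XT.lf (nat_lit 0) (nat_lit 868493552958) (nat_lit 0) (nat_lit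 0) (nat_lit 0) (nat_lit 0) (nat_lit 0) (nat_lit 0) (nat_lit 1) (nat_lit 0) (nat_lit 1) (nat_lit 0) (nat_lit 438) (nat_lit 447) (nat_lit 195)) (XT.lf (nat_lit 0) (nat_lit 868493552715) (nat_lit 0) (nat_lit 0) (nat_lit 0) (nat_lit 0) (nat_lit 0) (nat_lit 0) (nat_lit 1) (nat_lit 0) (nat_lit 1) (nat_lit 0) (nat_lit 439) (nat_lit 447) (nat_lit 194))) (XT.nd (nat_lit 94) (nat_lit 0) (nat_lit 0) (XT.lf (nat_lit 0) (nat_lit 868493552490) (nat_lit 0) (nat_lit 0) (nat_lit 0) (nat_lit 0) (nat_lit 0) (nat_lit 0) (nat_lit 1) (nat_lit 0) (nat_lit 1) (nat_lit 0) (nat_lit 440) (nat_lit 447) (nat_lit 193)) (XT.nd (nat_lit 94) (nat_lit 0) (nat_lit 0) (XT.lf (nat_lit 0) (nat_lit 868493552282) (nat_lit 0) (nat_lit 0) (nat_lit 0) (nat_lit 0) (nat_lit 0) (nat_lit 0) (nat_lit 1) (nat_lit 0) (nat_lit 1) (nat_lit 0) (nat_lit 441) (nat_lit 447) (nat_lit 192)) (XT.lf (nat_lit 0) (nat_lit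 868493552089) (nat_lit 0) (nat_lit 0) (nat_lit 0) (nat_lit 0) (nat_lit 0) (nat_lit 0) (nat_lit 1) (nat_lit 0) (nat_lit 1) (nat_lit 0) (nat_lit 442) (nat_lit 447) (nat_lit 191))))))) (XT.nd (nat_lit 43428) (nat_lit 0) (nat_lit 9324) (XT.nd (nat_lit 376) (nat_lit 0) (nat_lit 0) (XT.nd (nat_lit 188) (nat_lit 0) (nat_lit 0) (XT.nd (nat_lit 94) (nat_lit 0) (nat_lit 0) (XT.lf (nat_lit 0) (nat_lit 868493551910) (nat_lit 0) (nat_lit 0) (nat_lit 0) (nat_lit 0) (nat_lit 0) (nat_lit 0) (nat_lit 1) (nat_lit 0) (nat_lit 1) (nat_lit 0) (nat_lit 443) (nat_lit 447) (nat_lit 190)) (XT.lf (nat_lit 0) (nat_lit 868493551745) (nat_lit 0) (nat_lit 0) (nat_lit 0) (nat_lit 0) (nat_lit 0) (nat_lit 0) (nat_lit 1) (nat_lit 0) (nat_lit 1) (nat_lit 0) (nat_lit 444) (nat_lit 447) (nat_lit 189))) (XT.nd (nat_lit 94) (nat_lit 0) (nat_lit 0) (XT.lf (nat_lit 0) (nat_lit 868493551592) (nat_lit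 0) (nat_lit 0) (nat_lit 0) (nat_lit 0) (nat_lit 0) (nat_lit 0) (nat_lit 1) (nat_lit 0) (nat_lit 1) (nat_lit 0) (nat_lit 445) (nat_lit 447) (nat_lit 188)) (XT.lf (nat_lit 0) (nat_lit 868493551450) (nat_lit 0) (nat_lit 0) (nat_lit 0) (nat_lit 0) (nat_lit 0) (nat_lit 0) (nat_lit 1) (nat_lit 0) (nat_lit 1) (nat_lit 0) (nat_lit 446) (nat_lit 447) (nat_lit 187)))) (XT.nd (nat_lit 188) (nat_lit 0) (nat_lit 0) (XT.nd (nat_lit 94) (nat_lit 0) (nat_lit 0) (XT.lf (nat_lit 0) (nat_lit 868493551319) (nat_lit 0) (nat_lit 0) (nat_lit 0) (nat_lit 0) (nat_lit 0) (nat_lit 0) (nat_lit 1) (nat_lit 0) (nat_lit 1) (nat_lit 0) (nat_lit 447) (nat_lit 447) (nat_lit 186)) (XT.lf (nat_lit 0) (nat_lit 868493551197) (nat_lit 0) (nat_lit 0) (nat_lit 0) (nat_lit 0) (nat_lit 0) (nat_lit 0) (nat_lit 1) (nat_lit 0) (nat_lit 1) (nat_lit 0) (nat_lit 448) (nat_lit 447) (nat_lit 185))) (XT.nd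 (nat_lit 94) (nat_lit 0) (nat_lit 0) (XT.lf (nat_lit 0) (nat_lit 868493551084) (nat_lit 0) (nat_lit 0) (nat_lit 0) (nat_lit 0) (nat_lit 0) (nat_lit 0) (nat_lit 1) (nat_lit 0) (nat_lit 1) (nat_lit 0) (nat_lit 449) (nat_lit 447) (nat_lit 184)) (XT.nd (nat_lit 94) (nat_lit 0) (nat_lit 0) (XT.lf (nat_lit 0) (nat_lit 868493550980) (nat_lit 0) (nat_lit 0) (nat_lit 0) (nat_lit 0) (nat_lit 0) (nat_lit 0) (nat_lit 1) (nat_lit 0) (nat_lit 1) (nat_lit 0) (nat_lit 450) (nat_lit 447) (nat_lit 183)) (XT.lf (nat_lit 0) (nat_lit 868493550884) (nat_lit 0) (nat_lit 0) (nat_lit 0) (nat_lit 0) (nat_lit 0) (nat_lit 0) (nat_lit 1) (nat_lit 0) (nat_lit 1) (nat_lit 0) (nat_lit 451) (nat_lit 447) (nat_lit 182)))))) (XT.nd (nat_lit 470) (nat_lit 1428) (nat_lit 0) (XT.nd (nat_lit 188) (nat_lit 0) (nat_lit 84) (XT.nd (nat_lit 94) (nat_lit 0) (nat_lit 84) (XT.lf (nat_lit 924) (nat_lit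 469396840258) (nat_lit 0) (nat_lit 833413010927) (nat_lit 924) (nat_lit 469396840258) (nat_lit 139) (nat_lit 1) (nat_lit 128) (nat_lit 0) (nat_lit 139) (nat_lit 0) (nat_lit 184) (nat_lit 448) (nat_lit 448)) (XT.lf (nat_lit 924) (nat_lit 175099424453) (nat_lit 0) (nat_lit 1636242328158) (nat_lit 840) (nat_lit 1600239530372) (nat_lit 140) (nat_lit 1) (nat_lit 129) (nat_lit 1) (nat_lit 139) (nat_lit 1) (nat_lit 185) (nat_lit 448) (nat_lit 447))) (XT.nd (nat_lit 94) (nat_lit 0) (nat_lit 84) (XT.lf (nat_lit 924) (nat_lit 1608187144754) (nat_lit 84) (nat_lit 1095792038708) (nat_lit 0) (nat_lit 581158111570) (nat_lit 140) (nat_lit 1) (nat_lit 130) (nat_lit 1) (nat_lit 129) (nat_lit 1) (nat_lit 186) (nat_lit 448) (nat_lit 446)) (XT.nd (nat_lit 94) (nat_lit 0) (nat_lit 84) (XT.lf (nat_lit 924) (nat_lit 1389605437656) (nat_lit 84) (nat_lit 459238848110) (nat_lit 0)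 (nat_lit 1316176599189) (nat_lit 141) (nat_lit 1) (nat_lit 131) (nat_lit 1) (nat_lit 130) (nat_lit 1) (nat_lit 187) (nat_lit 448) (nat_lit 445)) (XT.lf (nat_lit 924) (nat_lit 1028426164017) (nat_lit 0) (nat_lit 1924136741275) (nat_lit 840) (nat_lit 98361595310) (nat_lit 142) (nat_lit 1) (nat_lit 131) (nat_lit 1) (nat_lit 141) (nat_lit 1) (nat_lit 188) (nat_lit 448) (nat_lit 444))))) (XT.nd (nat_lit 188) (nat_lit 1764) (nat_lit 0) (XT.nd (nat_lit 94) (nat_lit 0) (nat_lit 0) (XT.lf (nat_lit 924) (nat_lit 246760774615) (nat_lit 0) (nat_lit 2121895303172) (nat_lit 840) (nat_lit 573620939485) (nat_lit 143) (nat_lit 1) (nat_lit 132) (nat_lit 1) (nat_lit 142) (nat_lit 1) (nat_lit 189) (nat_lit 448) (nat_lit 443)) (XT.lf (nat_lit 924) (nat_lit 474173842708) (nat_lit 84) (nat_lit 1844099811807) (nat_lit 0) (nat_lit 520427718762) (nat_lit 143) (nat_lit 1) (nat_lit 133)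 (nat_lit 1) (nat_lit 132) (nat_lit 1) (nat_lit 190) (nat_lit 448) (nat_lit 442))) (XT.nd (nat_lit 94) (nat_lit 1008) (nat_lit 0) (XT.lf (nat_lit 924) (nat_lit 97384494678) (nat_lit 0) (nat_lit 1378586591840) (nat_lit 840) (nat_lit 1264149460111) (nat_lit 134) (nat_lit 1) (nat_lit 123) (nat_lit 1) (nat_lit 133) (nat_lit 1) (nat_lit 191) (nat_lit 448) (nat_lit 441)) (XT.nd (nat_lit 94) (nat_lit 420) (nat_lit 0) (XT.lf (nat_lit 84) (nat_lit 674310527147) (nat_lit 0) (nat_lit 292210131282) (nat_lit 588) (nat_lit 1679686768504) (nat_lit 117) (nat_lit 1) (nat_lit 116) (nat_lit 1) (nat_lit 123) (nat_lit 1) (nat_lit 192) (nat_lit 448) (nat_lit 440)) (XT.lf (nat_lit 504) (nat_lit 1858314939504) (nat_lit 0) (nat_lit 604921574845) (nat_lit 420) (nat_lit 93524613225) (nat_lit 117) (nat_lit 1) (nat_lit 111) (nat_lit 1) (nat_lit 116) (nat_lit 1) (nat_lit 193) (nat_lit 448)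 (nat_lit 439))))))))
noncomputable def ec421 : XT := (XT.nd (nat_lit 1786) (nat_lit 2856) (nat_lit 0) (XT.nd (nat_lit 846) (nat_lit 2352) (nat_lit 0) (XT.nd (nat_lit 376) (nat_lit 1596) (nat_lit 0) (XT.nd (nat_lit 188) (nat_lit 420) (nat_lit 0) (XT.nd (nat_lit 94) (nat_lit 336) (nat_lit 0) (XT.lf (nat_lit 504) (nat_lit 1340977756562) (nat_lit 0) (nat_lit 281956551822) (nat_lit 420) (nat_lit 848226550759) (nat_lit 112) (nat_lit 1) (nat_lit 106) (nat_lit 1) (nat_lit 111) (nat_lit 1) (nat_lit 194) (nat_lit 448) (nat_lit 438)) (XT.lf (nat_lit 420) (nat_lit 815967862121) (nat_lit 0) (nat_lit 5191278323) (nat_lit 336) (nat_lit 1568552021164) (nat_lit 107) (nat_lit 1) (nat_lit 102) (nat_lit 1) (nat_lit 106) (nat_lit 1) (nat_lit 195) (nat_lit 448) (nat_lit 437))) (XT.nd (nat_lit 94) (nat_lit 420) (nat_lit 0) (XT.lf (nat_lit 84) (nat_lit 60198252613) (nat_lit 0) (nat_lit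 2030176773781) (nat_lit 420) (nat_lit 221633269195) (nat_lit 103) (nat_lit 1) (nat_lit 102) (nat_lit 1) (nat_lit 107) (nat_lit 1) (nat_lit 196) (nat_lit 448) (nat_lit 436)) (XT.lf (nat_lit 84) (nat_lit 1554334496092) (nat_lit 0) (nat_lit 257803007455) (nat_lit 420) (nat_lit 425163979868) (nat_lit 98) (nat_lit 1) (nat_lit 97) (nat_lit 1) (nat_lit 102) (nat_lit 1) (nat_lit 197) (nat_lit 448) (nat_lit 435)))) (XT.nd (nat_lit 188) (nat_lit 924) (nat_lit 0) (XT.nd (nat_lit 94) (nat_lit 336) (nat_lit 0) (XT.lf (nat_lit 84) (nat_lit 777672936238) (nat_lit 0) (nat_lit 789696376051) (nat_lit 420) (nat_lit 598526286823) (nat_lit 94) (nat_lit 1) (nat_lit 93) (nat_lit 1) (nat_lit 98) (nat_lit 1) (nat_lit 198) (nat_lit 448) (nat_lit 434)) (XT.lf (nat_lit 84) (nat_lit 38384211673) (nat_lit 0) (nat_lit 1320360078515) (nat_lit 420) (nat_lit 739126257251) (nat_lit 90) (nat_lit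 1) (nat_lit 89) (nat_lit 1) (nat_lit 94) (nat_lit 1) (nat_lit 199) (nat_lit 448) (nat_lit 433))) (XT.nd (nat_lit 94) (nat_lit 672) (nat_lit 0) (XT.lf (nat_lit 336) (nat_lit 173340936592) (nat_lit 0) (nat_lit 1172221781177) (nat_lit 252) (nat_lit 686948904365) (nat_lit 90) (nat_lit 1) (nat_lit 86) (nat_lit 1) (nat_lit 89) (nat_lit 1) (nat_lit 200) (nat_lit 448) (nat_lit 432)) (XT.nd (nat_lit 94) (nat_lit 252) (nat_lit 0) (XT.lf (nat_lit 84) (nat_lit 598939540322) (nat_lit 0) (nat_lit 410516882585) (nat_lit 420) (nat_lit 960396369622) (nat_lit 82) (nat_lit 1) (nat_lit 81) (nat_lit 1) (nat_lit 86) (nat_lit 1) (nat_lit 201) (nat_lit 448) (nat_lit 431)) (XT.lf (nat_lit 336) (nat_lit 927302472061) (nat_lit 0) (nat_lit 871080821479) (nat_lit 252) (nat_lit 111497311328) (nat_lit 82) (nat_lit 1) (nat_lit 78) (nat_lit 1) (nat_lit 81) (nat_lit 1) (nat_lit 202) (nat_lit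 448) (nat_lit 430)))))) (XT.nd (nat_lit 470) (nat_lit 1008) (nat_lit 0) (XT.nd (nat_lit 188) (nat_lit 756) (nat_lit 0) (XT.nd (nat_lit 94) (nat_lit 336) (nat_lit 0) (XT.lf (nat_lit 336) (nat_lit 297195962440) (nat_lit 0) (nat_lit 749964916883) (nat_lit 252) (nat_lit 805052285801) (nat_lit 79) (nat_lit 1) (nat_lit 75) (nat_lit 1) (nat_lit 78) (nat_lit 1) (nat_lit 203) (nat_lit 448) (nat_lit 429)) (XT.lf (nat_lit 84) (nat_lit 338731585063) (nat_lit 0) (nat_lit 310138202554) (nat_lit 336) (nat_lit 1148070975120) (nat_lit 72) (nat_lit 1) (nat_lit 71) (nat_lit 1) (nat_lit 75) (nat_lit 1) (nat_lit 204) (nat_lit 448) (nat_lit 428))) (XT.nd (nat_lit 94) (nat_lit 504) (nat_lit 0) (XT.lf (nat_lit 336) (nat_lit 842889091019) (nat_lit 0) (nat_lit 560827166111) (nat_lit 252) (nat_lit 339975272004) (nat_lit 72) (nat_lit 1) (nat_lit 68) (nat_lit 1) (nat_lit 71) (nat_lit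 1) (nat_lit 205) (nat_lit 448) (nat_lit 427)) (XT.nd (nat_lit 94) (nat_lit 336) (nat_lit 0) (XT.lf (nat_lit 252) (nat_lit 208953450246) (nat_lit 0) (nat_lit 489280795586) (nat_lit 168) (nat_lit 994356272344) (nat_lit 69) (nat_lit 1) (nat_lit 66) (nat_lit 1) (nat_lit 68) (nat_lit 1) (nat_lit 206) (nat_lit 448) (nat_lit 426)) (XT.lf (nat_lit 84) (nat_lit 35398049429) (nat_lit 0) (nat_lit 396111857638) (nat_lit 336) (nat_lit 1211960409954) (nat_lit 63) (nat_lit 1) (nat_lit 62) (nat_lit 1) (nat_lit 66) (nat_lit 1) (nat_lit 207) (nat_lit 448) (nat_lit 425))))) (XT.nd (nat_lit 188) (nat_lit 588) (nat_lit 0) (XT.nd (nat_lit 94) (nat_lit 252) (nat_lit 0) (XT.lf (nat_lit 252) (nat_lit 607180386158) (nat_lit 0) (nat_lit 379435651442) (nat_lit 168) (nat_lit 609293380012) (nat_lit 63) (nat_lit 1) (nat_lit 60) (nat_lit 1) (nat_lit 62) (nat_lit 1) (nat_lit 208) (nat_lit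 448) (nat_lit 424)) (XT.lf (nat_lit 84) (nat_lit 329430703305) (nat_lit 0) (nat_lit 15216610720) (nat_lit 252) (nat_lit 1205776597945) (nat_lit 58) (nat_lit 1) (nat_lit 57) (nat_lit 1) (nat_lit 60) (nat_lit 1) (nat_lit 209) (nat_lit 448) (nat_lit 423))) (XT.nd (nat_lit 94) (nat_lit 420) (nat_lit 0) (XT.lf (nat_lit 252) (nat_lit 900599928252) (nat_lit 0) (nat_lit 312078068284) (nat_lit 168) (nat_lit 293583550773) (nat_lit 58) (nat_lit 1) (nat_lit 55) (nat_lit 1) (nat_lit 57) (nat_lit 1) (nat_lit 210) (nat_lit 448) (nat_lit 422)) (XT.nd (nat_lit 94) (nat_lit 252) (nat_lit 0) (XT.lf (nat_lit 252) (nat_lit 279762427275) (nat_lit 0) (nat_lit 290111074587) (nat_lit 168) (nat_lit 893914201269) (nat_lit 56) (nat_lit 1) (nat_lit 53) (nat_lit 1) (nat_lit 55) (nat_lit 1) (nat_lit 211) (nat_lit 448) (nat_lit 421)) (XT.lf (nat_lit 252) (nat_lit 1110554020694) (nat_lit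 0) (nat_lit 277177584885) (nat_lit 168) (nat_lit 35163192366) (nat_lit 53) (nat_lit 1) (nat_lit 50) (nat_lit 1) (nat_lit 52) (nat_lit 1) (nat_lit 212) (nat_lit 448) (nat_lit 420))))))) (XT.nd (nat_lit 846) (nat_lit 1344) (nat_lit 0) (XT.nd (nat_lit 376) (nat_lit 924) (nat_lit 0) (XT.nd (nat_lit 188) (nat_lit 252) (nat_lit 0) (XT.nd (nat_lit 94) (nat_lit 168) (nat_lit 0) (XT.lf (nat_lit 252) (nat_lit 497032509835) (nat_lit 0) (nat_lit 264611144049) (nat_lit 168) (nat_lit 621494523635) (nat_lit 51) (nat_lit 1) (nat_lit 48) (nat_lit 1) (nat_lit 50) (nat_lit 1) (nat_lit 213) (nat_lit 448) (nat_lit 419)) (XT.lf (nat_lit 84) (nat_lit 170252824508) (nat_lit 0) (nat_lit 93578624168) (nat_lit 168) (nat_lit 1081199110301) (nat_lit 47) (nat_lit 1) (nat_lit 46) (nat_lit 1) (nat_lit 48) (nat_lit 1) (nat_lit 214) (nat_lit 448) (nat_lit 418))) (XT.nd (nat_lit 94) (nat_lit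 84) (nat_lit 0) (XT.lf (nat_lit 252) (nat_lit 652135237593) (nat_lit 0) (nat_lit 261037767312) (nat_lit 168) (nat_lit 394711545053) (nat_lit 47) (nat_lit 1) (nat_lit 44) (nat_lit 1) (nat_lit 46) (nat_lit 1) (nat_lit 215) (nat_lit 448) (nat_lit 417)) (XT.lf (nat_lit 168) (nat_lit 70225698365) (nat_lit 0) (nat_lit 267449192208) (nat_lit 84) (nat_lit 934530126997) (nat_lit 45) (nat_lit 1) (nat_lit 43) (nat_lit 1) (nat_lit 44) (nat_lit 1) (nat_lit 216) (nat_lit 448) (nat_lit 416)))) (XT.nd (nat_lit 188) (nat_lit 588) (nat_lit 0) (XT.nd (nat_lit 94) (nat_lit 84) (nat_lit 0) (XT.lf (nat_lit 252) (nat_lit 758060486836) (nat_lit 0) (nat_lit 273529153896) (nat_lit 168) (nat_lit 205919639330) (nat_lit 43) (nat_lit 1) (nat_lit 40) (nat_lit 1) (nat_lit 42) (nat_lit 1) (nat_lit 217) (nat_lit 448) (nat_lit 415)) (XT.lf (nat_lit 168) (nat_lit 190657802360) (nat_lit 0) (nat_lit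 283756684587) (nat_lit 84) (nat_lit 729568371656) (nat_lit 41) (nat_lit 1) (nat_lit 39) (nat_lit 1) (nat_lit 40) (nat_lit 1) (nat_lit 218) (nat_lit 448) (nat_lit 414))) (XT.nd (nat_lit 94) (nat_lit 336) (nat_lit 0) (XT.lf (nat_lit 252) (nat_lit 825310738473) (nat_lit 0) (nat_lit 297442353436) (nat_lit 168) (nat_lit 48812836447) (nat_lit 39) (nat_lit 1) (nat_lit 36) (nat_lit 1) (nat_lit 38) (nat_lit 1) (nat_lit 219) (nat_lit 448) (nat_lit 413)) (XT.nd (nat_lit 94) (nat_lit 252) (nat_lit 0) (XT.lf (nat_lit 168) (nat_lit 274382734320) (nat_lit 0) (nat_lit 310087227593) (nat_lit 84) (nat_lit 555548047564) (nat_lit 37) (nat_lit 1) (nat_lit 35) (nat_lit 1) (nat_lit 36) (nat_lit 1) (nat_lit 220) (nat_lit 448) (nat_lit 412)) (XT.lf (nat_lit 84) (nat_lit 79197776549) (nat_lit 0) (nat_lit 248580709530) (nat_lit 252) (nat_lit 781824965638) (nat_lit 33) (nat_lit 1) (nat_lit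 32) (nat_lit 1) (nat_lit 35) (nat_lit 1) (nat_lit 221) (nat_lit 448) (nat_lit 411)))))) (XT.nd (nat_lit 470) (nat_lit 672) (nat_lit 0) (XT.nd (nat_lit 188) (nat_lit 336) (nat_lit 0) (XT.nd (nat_lit 94) (nat_lit 252) (nat_lit 0) (XT.lf (nat_lit 168) (nat_lit 329284036748) (nat_lit 0) (nat_lit 343098358582) (nat_lit 84) (nat_lit 407561825448) (nat_lit 33) (nat_lit 1) (nat_lit 31) (nat_lit 1) (nat_lit 32) (nat_lit 1) (nat_lit 222) (nat_lit 448) (nat_lit 410)) (XT.lf (nat_lit 84) (nat_lit 184184538933) (nat_lit 0) (nat_lit 178395180481) (nat_lit 252) (nat_lit 688747568444) (nat_lit 29) (nat_lit 1) (nat_lit 28) (nat_lit 1) (nat_lit 31) (nat_lit 1) (nat_lit 223) (nat_lit 448) (nat_lit 409))) (XT.nd (nat_lit 94) (nat_lit 252) (nat_lit 0) (XT.lf (nat_lit 168) (nat_lit 361719253222) (nat_lit 0) (nat_lit 380180908190) (nat_lit 84) (nat_lit 281541345322) (nat_lit 29)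 (nat_lit 1) (nat_lit 27) (nat_lit 1) (nat_lit 28) (nat_lit 1) (nat_lit 224) (nat_lit 448) (nat_lit 408)) (XT.nd (nat_lit 94) (nat_lit 84) (nat_lit 0) (XT.lf (nat_lit 84) (nat_lit 271162232159) (nat_lit 0) (nat_lit 129203951753) (nat_lit 168) (nat_lit 596110480484) (nat_lit 26) (nat_lit 1) (nat_lit 25) (nat_lit 1) (nat_lit 27) (nat_lit 1) (nat_lit 225) (nat_lit 448) (nat_lit 407)) (XT.lf (nat_lit 168) (nat_lit 376805071818) (nat_lit 0) (nat_lit 419316084690) (nat_lit 84) (nat_lit 174107561671) (nat_lit 26) (nat_lit 1) (nat_lit 24) (nat_lit 1) (nat_lit 25) (nat_lit 1) (nat_lit 226) (nat_lit 448) (nat_lit 406))))) (XT.nd (nat_lit 188) (nat_lit 420) (nat_lit 0) (XT.nd (nat_lit 94) (nat_lit 84) (nat_lit 0) (XT.lf (nat_lit 84) (nat_lit 342995011481) (nat_lit 0) (nat_lit 96387832734) (nat_lit 168) (nat_lit 505405287119) (nat_lit 23) (nat_lit 1) (nat_lit 22) (nat_lit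 1) (nat_lit 24) (nat_lit 1) (nat_lit 227) (nat_lit 448) (nat_lit 405)) (XT.lf (nat_lit 168) (nat_lit 378649829158) (nat_lit 0) (nat_lit 458959325168) (nat_lit 84) (nat_lit 82448269866) (nat_lit 23) (nat_lit 1) (nat_lit 21) (nat_lit 1) (nat_lit 22) (nat_lit 1) (nat_lit 228) (nat_lit 448) (nat_lit 404))) (XT.nd (nat_lit 94) (nat_lit 252) (nat_lit 0) (XT.lf (nat_lit 84) (nat_lit 402063309525) (nat_lit 0) (nat_lit 76232564744) (nat_lit 168) (nat_lit 417732276358) (nat_lit 20) (nat_lit 1) (nat_lit 19) (nat_lit 1) (nat_lit 21) (nat_lit 1) (nat_lit 229) (nat_lit 448) (nat_lit 403)) (XT.nd (nat_lit 94) (nat_lit 168) (nat_lit 0) (XT.lf (nat_lit 168) (nat_lit 370543053015) (nat_lit 0) (nat_lit 497945968275) (nat_lit 84) (nat_lit 4217843749) (nat_lit 20) (nat_lit 1) (nat_lit 18) (nat_lit 1) (nat_lit 19) (nat_lit 1) (nat_lit 230) (nat_lit 448) (nat_lit 402)) (XT.lf (nat_lit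 84) (nat_lit 450349459892) (nat_lit 0) (nat_lit 65758903901) (nat_lit 168) (nat_lit 333880178549) (nat_lit 17) (nat_lit 1) (nat_lit 16) (nat_lit 1) (nat_lit 18) (nat_lit 1) (nat_lit 231) (nat_lit 448) (nat_lit 401))))))))
noncomputable def ec422 : XT := (XT.nd (nat_lit 1692) (nat_lit 0) (nat_lit 0) (XT.nd (nat_lit 846) (nat_lit 252) (nat_lit 0) (XT.nd (nat_lit 376) (nat_lit 588) (nat_lit 0) (XT.nd (nat_lit 188) (nat_lit 252) (nat_lit 0) (XT.nd (nat_lit 94) (nat_lit 168) (nat_lit 0) (XT.lf (nat_lit 0) (nat_lit 60543048195) (nat_lit 0) (nat_lit 473846338802) (nat_lit 168) (nat_lit 293541570437) (nat_lit 15) (nat_lit 3) (nat_lit 15) (nat_lit 1) (nat_lit 17) (nat_lit 1) (nat_lit 232) (nat_lit 448) (nat_lit 400)) (XT.lf (nat_lit 84) (nat_lit 489507821731) (nat_lit 0) (nat_lit 62584128586) (nat_lit 168) (nat_lit 254390768440) (nat_lit 14) (nat_lit 1) (nat_lit 13)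 (nat_lit 1) (nat_lit 15) (nat_lit 1) (nat_lit 233) (nat_lit 448) (nat_lit 399))) (XT.nd (nat_lit 94) (nat_lit 168) (nat_lit 0) (XT.lf (nat_lit 0) (nat_lit 115659620207) (nat_lit 0) (nat_lit 453127196965) (nat_lit 168) (nat_lit 216818877859) (nat_lit 12) (nat_lit 3) (nat_lit 12) (nat_lit 1) (nat_lit 14) (nat_lit 1) (nat_lit 234) (nat_lit 448) (nat_lit 398)) (XT.lf (nat_lit 84) (nat_lit 520922235622) (nat_lit 0) (nat_lit 64809190323) (nat_lit 168) (nat_lit 179611138315) (nat_lit 11) (nat_lit 1) (nat_lit 10) (nat_lit 1) (nat_lit 12) (nat_lit 1) (nat_lit 235) (nat_lit 448) (nat_lit 397)))) (XT.nd (nat_lit 188) (nat_lit 336) (nat_lit 0) (XT.nd (nat_lit 94) (nat_lit 168) (nat_lit 0) (XT.lf (nat_lit 0) (nat_lit 162604554372) (nat_lit 0) (nat_lit 438151272608) (nat_lit 168) (nat_lit 144817446294) (nat_lit 9) (nat_lit 3) (nat_lit 9) (nat_lit 1) (nat_lit 11) (nat_lit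 1) (nat_lit 236) (nat_lit 448) (nat_lit 396)) (XT.lf (nat_lit 84) (nat_lit 545753122632) (nat_lit 0) (nat_lit 70926788560) (nat_lit 168) (nat_lit 109735933670) (nat_lit 8) (nat_lit 1) (nat_lit 7) (nat_lit 1) (nat_lit 9) (nat_lit 1) (nat_lit 237) (nat_lit 448) (nat_lit 395))) (XT.nd (nat_lit 94) (nat_lit 252) (nat_lit 0) (XT.lf (nat_lit 0) (nat_lit 202505654216) (nat_lit 0) (nat_lit 427493176454) (nat_lit 168) (nat_lit 77688744707) (nat_lit 6) (nat_lit 3) (nat_lit 6) (nat_lit 1) (nat_lit 8) (nat_lit 1) (nat_lit 238) (nat_lit 448) (nat_lit 394)) (XT.nd (nat_lit 94) (nat_lit 84) (nat_lit 0) (XT.lf (nat_lit 84) (nat_lit 564976114985) (nat_lit 0) (nat_lit 79746516663) (nat_lit 168) (nat_lit 44841420691) (nat_lit 5) (nat_lit 1) (nat_lit 4) (nat_lit 1) (nat_lit 6) (nat_lit 1) (nat_lit 239) (nat_lit 448) (nat_lit 393)) (XT.lf (nat_lit 0) (nat_lit 236316772546) (nat_lit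 0) (nat_lit 420022045782) (nat_lit 168) (nat_lit 15476636461) (nat_lit 3) (nat_lit 3) (nat_lit 3) (nat_lit 1) (nat_lit 5) (nat_lit 1) (nat_lit 240) (nat_lit 448) (nat_lit 392)))))) (XT.nd (nat_lit 376) (nat_lit 0) (nat_lit 0) (XT.nd (nat_lit 188) (nat_lit 0) (nat_lit 0) (XT.nd (nat_lit 94) (nat_lit 0) (nat_lit 0) (XT.lf (nat_lit 0) (nat_lit 949642104859) (nat_lit 0) (nat_lit 0) (nat_lit 0) (nat_lit 0) (nat_lit 0) (nat_lit 0) (nat_lit 1) (nat_lit 0) (nat_lit 1) (nat_lit 0) (nat_lit 241) (nat_lit 448) (nat_lit 391)) (XT.lf (nat_lit 0) (nat_lit 948777729214) (nat_lit 0) (nat_lit 0) (nat_lit 0) (nat_lit 0) (nat_lit 0) (nat_lit 0) (nat_lit 1) (nat_lit 0) (nat_lit 1) (nat_lit 0) (nat_lit 242) (nat_lit 448) (nat_lit 390))) (XT.nd (nat_lit 94) (nat_lit 0) (nat_lit 0) (XT.lf (nat_lit 0) (nat_lit 947977381394) (nat_lit 0) (nat_lit 0) (nat_lit 0) (nat_lit 0) (nat_lit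 0) (nat_lit 0) (nat_lit 1) (nat_lit 0) (nat_lit 1) (nat_lit 0) (nat_lit 243) (nat_lit 448) (nat_lit 389)) (XT.lf (nat_lit 0) (nat_lit 947236318599) (nat_lit 0) (nat_lit 0) (nat_lit 0) (nat_lit 0) (nat_lit 0) (nat_lit 0) (nat_lit 1) (nat_lit 0) (nat_lit 1) (nat_lit 0) (nat_lit 244) (nat_lit 448) (nat_lit 388)))) (XT.nd (nat_lit 188) (nat_lit 0) (nat_lit 0) (XT.nd (nat_lit 94) (nat_lit 0) (nat_lit 0) (XT.lf (nat_lit 0) (nat_lit 946550149343) (nat_lit 0) (nat_lit 0) (nat_lit 0) (nat_lit 0) (nat_lit 0) (nat_lit 0) (nat_lit 1) (nat_lit 0) (nat_lit 1) (nat_lit 0) (nat_lit 245) (nat_lit 448) (nat_lit 387)) (XT.lf (nat_lit 0) (nat_lit 945914807440) (nat_lit 0) (nat_lit 0) (nat_lit 0) (nat_lit 0) (nat_lit 0) (nat_lit 0) (nat_lit 1) (nat_lit 0) (nat_lit 1) (nat_lit 0) (nat_lit 246) (nat_lit 448) (nat_lit 386))) (XT.nd (nat_lit 94) (nat_lit 0) (nat_lit 0) (XT.lf (nat_lit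 0) (nat_lit 945326527900) (nat_lit 0) (nat_lit 0) (nat_lit 0) (nat_lit 0) (nat_lit 0) (nat_lit 0) (nat_lit 1) (nat_lit 0) (nat_lit 1) (nat_lit 0) (nat_lit 247) (nat_lit 448) (nat_lit 385)) (XT.nd (nat_lit 94) (nat_lit 0) (nat_lit 0) (XT.lf (nat_lit 0) (nat_lit 944781824623) (nat_lit 0) (nat_lit 0) (nat_lit 0) (nat_lit 0) (nat_lit 0) (nat_lit 0) (nat_lit 1) (nat_lit 0) (nat_lit 1) (nat_lit 0) (nat_lit 248) (nat_lit 448) (nat_lit 384)) (XT.lf (nat_lit 0) (nat_lit 944277469736) (nat_lit 0) (nat_lit 0) (nat_lit 0) (nat_lit 0) (nat_lit 0) (nat_lit 0) (nat_lit 1) (nat_lit 0) (nat_lit 1) (nat_lit 0) (nat_lit 249) (nat_lit 448) (nat_lit 383))))))) (XT.nd (nat_lit 846) (nat_lit 0) (nat_lit 0) (XT.nd (nat_lit 376) (nat_lit 0) (nat_lit 0) (XT.nd (nat_lit 188) (nat_lit 0) (nat_lit 0) (XT.nd (nat_lit 94) (nat_lit 0) (nat_lit 0) (XT.lf (nat_lit 0) (nat_lit 943810474470)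 (nat_lit 0) (nat_lit 0) (nat_lit 0) (nat_lit 0) (nat_lit 0) (nat_lit 0) (nat_lit 1) (nat_lit 0) (nat_lit 1) (nat_lit 0) (nat_lit 250) (nat_lit 448) (nat_lit 382)) (XT.lf (nat_lit 0) (nat_lit 943378071447) (nat_lit 0) (nat_lit 0) (nat_lit 0) (nat_lit 0) (nat_lit 0) (nat_lit 0) (nat_lit 1) (nat_lit 0) (nat_lit 1) (nat_lit 0) (nat_lit 251) (nat_lit 448) (nat_lit 381))) (XT.nd (nat_lit 94) (nat_lit 0) (nat_lit 0) (XT.lf (nat_lit 0) (nat_lit 942977698277) (nat_lit 0) (nat_lit 0) (nat_lit 0) (nat_lit 0) (nat_lit 0) (nat_lit 0) (nat_lit 1) (nat_lit 0) (nat_lit 1) (nat_lit 0) (nat_lit 252) (nat_lit 448) (nat_lit 380)) (XT.lf (nat_lit 0) (nat_lit 942606982379) (nat_lit 0) (nat_lit 0) (nat_lit 0) (nat_lit 0) (nat_lit 0) (nat_lit 0) (nat_lit 1) (nat_lit 0) (nat_lit 1) (nat_lit 0) (nat_lit 253) (nat_lit 448) (nat_lit 379)))) (XT.nd (nat_lit 188) (nat_lit 0) (nat_lit 0)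 (XT.nd (nat_lit 94) (nat_lit 0) (nat_lit 0) (XT.lf (nat_lit 0) (nat_lit 942263726917) (nat_lit 0) (nat_lit 0) (nat_lit 0) (nat_lit 0) (nat_lit 0) (nat_lit 0) (nat_lit 1) (nat_lit 0) (nat_lit 1) (nat_lit 0) (nat_lit 254) (nat_lit 448) (nat_lit 378)) (XT.lf (nat_lit 0) (nat_lit 941945897787) (nat_lit 0) (nat_lit 0) (nat_lit 0) (nat_lit 0) (nat_lit 0) (nat_lit 0) (nat_lit 1) (nat_lit 0) (nat_lit 1) (nat_lit 0) (nat_lit 255) (nat_lit 448) (nat_lit 377))) (XT.nd (nat_lit 94) (nat_lit 0) (nat_lit 0) (XT.lf (nat_lit 0) (nat_lit 941651611554) (nat_lit 0) (nat_lit 0) (nat_lit 0) (nat_lit 0) (nat_lit 0) (nat_lit 0) (nat_lit 1) (nat_lit 0) (nat_lit 1) (nat_lit 0) (nat_lit 256) (nat_lit 448) (nat_lit 376)) (XT.nd (nat_lit 94) (nat_lit 0) (nat_lit 0) (XT.lf (nat_lit 0) (nat_lit 941379124302) (nat_lit 0) (nat_lit 0) (nat_lit 0) (nat_lit 0) (nat_lit 0) (nat_lit 0) (nat_lit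 1) (nat_lit 0) (nat_lit 1) (nat_lit 0) (nat_lit 257) (nat_lit 448) (nat_lit 375)) (XT.lf (nat_lit 0) (nat_lit 941126821291) (nat_lit 0) (nat_lit 0) (nat_lit 0) (nat_lit 0) (nat_lit 0) (nat_lit 0) (nat_lit 1) (nat_lit 0) (nat_lit 1) (nat_lit 0) (nat_lit 258) (nat_lit 448) (nat_lit 374)))))) (XT.nd (nat_lit 470) (nat_lit 0) (nat_lit 0) (XT.nd (nat_lit 188) (nat_lit 0) (nat_lit 0) (XT.nd (nat_lit 94) (nat_lit 0) (nat_lit 0) (XT.lf (nat_lit 0) (nat_lit 940893207392) (nat_lit 0) (nat_lit 0) (nat_lit 0) (nat_lit 0) (nat_lit 0) (nat_lit 0) (nat_lit 1) (nat_lit 0) (nat_lit 1) (nat_lit 0) (nat_lit 259) (nat_lit 448) (nat_lit 373)) (XT.lf (nat_lit 0) (nat_lit 940676898226) (nat_lit 0) (nat_lit 0) (nat_lit 0) (nat_lit 0) (nat_lit 0) (nat_lit 0) (nat_lit 1) (nat_lit 0) (nat_lit 1) (nat_lit 0) (nat_lit 260) (nat_lit 448) (nat_lit 372))) (XT.nd (nat_lit 94) (nat_lit 0)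 (nat_lit 0) (XT.lf (nat_lit 0) (nat_lit 940476611961) (nat_lit 0) (nat_lit 0) (nat_lit 0) (nat_lit 0) (nat_lit 0) (nat_lit 0) (nat_lit 1) (nat_lit 0) (nat_lit 1) (nat_lit 0) (nat_lit 261) (nat_lit 448) (nat_lit 371)) (XT.nd (nat_lit 94) (nat_lit 0) (nat_lit 0) (XT.lf (nat_lit 0) (nat_lit 940291161716) (nat_lit 0) (nat_lit 0) (nat_lit 0) (nat_lit 0) (nat_lit 0) (nat_lit 0) (nat_lit 1) (nat_lit 0) (nat_lit 1) (nat_lit 0) (nat_lit 262) (nat_lit 448) (nat_lit 370)) (XT.lf (nat_lit 0) (nat_lit 940119448526) (nat_lit 0) (nat_lit 0) (nat_lit 0) (nat_lit 0) (nat_lit 0) (nat_lit 0) (nat_lit 1) (nat_lit 0) (nat_lit 1) (nat_lit 0) (nat_lit 263) (nat_lit 448) (nat_lit 369))))) (XT.nd (nat_lit 188) (nat_lit 0) (nat_lit 0) (XT.nd (nat_lit 94) (nat_lit 0) (nat_lit 0) (XT.lf (nat_lit 0) (nat_lit 939960454832) (nat_lit 0) (nat_lit 0) (nat_lit 0) (nat_lit 0) (nat_lit 0) (nat_lit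 0) (nat_lit 1) (nat_lit 0) (nat_lit 1) (nat_lit 0) (nat_lit 264) (nat_lit 448) (nat_lit 368)) (XT.lf (nat_lit 0) (nat_lit 939813238448) (nat_lit 0) (nat_lit 0) (nat_lit 0) (nat_lit 0) (nat_lit 0) (nat_lit 0) (nat_lit 1) (nat_lit 0) (nat_lit 1) (nat_lit 0) (nat_lit 265) (nat_lit 448) (nat_lit 367))) (XT.nd (nat_lit 94) (nat_lit 0) (nat_lit 0) (XT.lf (nat_lit 0) (nat_lit 939676926982) (nat_lit 0) (nat_lit 0) (nat_lit 0) (nat_lit 0) (nat_lit 0) (nat_lit 0) (nat_lit 1) (nat_lit 0) (nat_lit 1) (nat_lit 0) (nat_lit 266) (nat_lit 448) (nat_lit 366)) (XT.nd (nat_lit 94) (nat_lit 0) (nat_lit 0) (XT.lf (nat_lit 0) (nat_lit 939550712661) (nat_lit 0) (nat_lit 0) (nat_lit 0) (nat_lit 0) (nat_lit 0) (nat_lit 0) (nat_lit 1) (nat_lit 0) (nat_lit 1) (nat_lit 0) (nat_lit 267) (nat_lit 448) (nat_lit 365)) (XT.lf (nat_lit 0) (nat_lit 939433847549) (nat_lit 0) (nat_lit 0) (nat_lit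 0) (nat_lit 0) (nat_lit 0) (nat_lit 0) (nat_lit 1) (nat_lit 0) (nat_lit 1) (nat_lit 0) (nat_lit 268) (nat_lit 448) (nat_lit 364))))))))
noncomputable def ec423 : XT := (XT.nd (nat_lit 1786) (nat_lit 0) (nat_lit 0) (XT.nd (nat_lit 846) (nat_lit 0) (nat_lit 0) (XT.nd (nat_lit 376) (nat_lit 0) (nat_lit 0) (XT.nd (nat_lit 188) (nat_lit 0) (nat_lit 0) (XT.nd (nat_lit 94) (nat_lit 0) (nat_lit 0) (XT.lf (nat_lit 0) (nat_lit 939325639112) (nat_lit 0) (nat_lit 0) (nat_lit 0) (nat_lit 0) (nat_lit 0) (nat_lit 0) (nat_lit 1) (nat_lit 0) (nat_lit 1) (nat_lit 0) (nat_lit 269) (nat_lit 448) (nat_lit 363)) (XT.lf (nat_lit 0) (nat_lit 939225446115) (nat_lit 0) (nat_lit 0) (nat_lit 0) (nat_lit 0) (nat_lit 0) (nat_lit 0) (nat_lit 1) (nat_lit 0) (nat_lit 1) (nat_lit 0) (nat_lit 270) (nat_lit 448) (nat_lit 362))) (XT.nd (nat_lit 94) (nat_lit 0) (nat_lit 0) (XT.lf (nat_lit 0) (nat_lit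 939132674822) (nat_lit 0) (nat_lit 0) (nat_lit 0) (nat_lit 0) (nat_lit 0) (nat_lit 0) (nat_lit 1) (nat_lit 0) (nat_lit 1) (nat_lit 0) (nat_lit 271) (nat_lit 448) (nat_lit 361)) (XT.lf (nat_lit 0) (nat_lit 939046775476) (nat_lit 0) (nat_lit 0) (nat_lit 0) (nat_lit 0) (nat_lit 0) (nat_lit 0) (nat_lit 1) (nat_lit 0) (nat_lit 1) (nat_lit 0) (nat_lit 272) (nat_lit 448) (nat_lit 360)))) (XT.nd (nat_lit 188) (nat_lit 0) (nat_lit 0) (XT.nd (nat_lit 94) (nat_lit 0) (nat_lit 0) (XT.lf (nat_lit 0) (nat_lit 938967239044) (nat_lit 0) (nat_lit 0) (nat_lit 0) (nat_lit 0) (nat_lit 0) (nat_lit 0) (nat_lit 1) (nat_lit 0) (nat_lit 1) (nat_lit 0) (nat_lit 273) (nat_lit 448) (nat_lit 359)) (XT.lf (nat_lit 0) (nat_lit 938893594200) (nat_lit 0) (nat_lit 0) (nat_lit 0) (nat_lit 0) (nat_lit 0) (nat_lit 0) (nat_lit 1) (nat_lit 0) (nat_lit 1) (nat_lit 0) (nat_lit 274) (nat_lit 448)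 (nat_lit 358))) (XT.nd (nat_lit 94) (nat_lit 0) (nat_lit 0) (XT.lf (nat_lit 0) (nat_lit 938825404530) (nat_lit 0) (nat_lit 0) (nat_lit 0) (nat_lit 0) (nat_lit 0) (nat_lit 0) (nat_lit 1) (nat_lit 0) (nat_lit 1) (nat_lit 0) (nat_lit 275) (nat_lit 448) (nat_lit 357)) (XT.nd (nat_lit 94) (nat_lit 0) (nat_lit 0) (XT.lf (nat_lit 0) (nat_lit 938762265946) (nat_lit 0) (nat_lit 0) (nat_lit 0) (nat_lit 0) (nat_lit 0) (nat_lit 0) (nat_lit 1) (nat_lit 0) (nat_lit 1) (nat_lit 0) (nat_lit 276) (nat_lit 448) (nat_lit 356)) (XT.lf (nat_lit 0) (nat_lit 938703804295) (nat_lit 0) (nat_lit 0) (nat_lit 0) (nat_lit 0) (nat_lit 0) (nat_lit 0) (nat_lit 1) (nat_lit 0) (nat_lit 1) (nat_lit 0) (nat_lit 277) (nat_lit 448) (nat_lit 355)))))) (XT.nd (nat_lit 470) (nat_lit 0) (nat_lit 0) (XT.nd (nat_lit 188) (nat_lit 0) (nat_lit 0) (XT.nd (nat_lit 94) (nat_lit 0) (nat_lit 0) (XT.lf (nat_lit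 0) (nat_lit 938649673136) (nat_lit 0) (nat_lit 0) (nat_lit 0) (nat_lit 0) (nat_lit 0) (nat_lit 0) (nat_lit 1) (nat_lit 0) (nat_lit 1) (nat_lit 0) (nat_lit 278) (nat_lit 448) (nat_lit 354)) (XT.lf (nat_lit 0) (nat_lit 938599551693) (nat_lit 0) (nat_lit 0) (nat_lit 0) (nat_lit 0) (nat_lit 0) (nat_lit 0) (nat_lit 1) (nat_lit 0) (nat_lit 1) (nat_lit 0) (nat_lit 279) (nat_lit 448) (nat_lit 353))) (XT.nd (nat_lit 94) (nat_lit 0) (nat_lit 0) (XT.lf (nat_lit 0) (nat_lit 938553142949) (nat_lit 0) (nat_lit 0) (nat_lit 0) (nat_lit 0) (nat_lit 0) (nat_lit 0) (nat_lit 1) (nat_lit 0) (nat_lit 1) (nat_lit 0) (nat_lit 280) (nat_lit 448) (nat_lit 352)) (XT.nd (nat_lit 94) (nat_lit 0) (nat_lit 0) (XT.lf (nat_lit 0) (nat_lit 938510171890) (nat_lit 0) (nat_lit 0) (nat_lit 0) (nat_lit 0) (nat_lit 0) (nat_lit 0) (nat_lit 1) (nat_lit 0) (nat_lit 1) (nat_lit 0) (nat_lit 281) (nat_lit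 448) (nat_lit 351)) (XT.lf (nat_lit 0) (nat_lit 938470383872) (nat_lit 0) (nat_lit 0) (nat_lit 0) (nat_lit 0) (nat_lit 0) (nat_lit 0) (nat_lit 1) (nat_lit 0) (nat_lit 1) (nat_lit 0) (nat_lit 282) (nat_lit 448) (nat_lit 350))))) (XT.nd (nat_lit 188) (nat_lit 0) (nat_lit 0) (XT.nd (nat_lit 94) (nat_lit 0) (nat_lit 0) (XT.lf (nat_lit 0) (nat_lit 938433543115) (nat_lit 0) (nat_lit 0) (nat_lit 0) (nat_lit 0) (nat_lit 0) (nat_lit 0) (nat_lit 1) (nat_lit 0) (nat_lit 1) (nat_lit 0) (nat_lit 283) (nat_lit 448) (nat_lit 349)) (XT.lf (nat_lit 0) (nat_lit 938399431303) (nat_lit 0) (nat_lit 0) (nat_lit 0) (nat_lit 0) (nat_lit 0) (nat_lit 0) (nat_lit 1) (nat_lit 0) (nat_lit 1) (nat_lit 0) (nat_lit 284) (nat_lit 448) (nat_lit 348))) (XT.nd (nat_lit 94) (nat_lit 0) (nat_lit 0) (XT.lf (nat_lit 0) (nat_lit 938367846292) (nat_lit 0) (nat_lit 0) (nat_lit 0) (nat_lit 0) (nat_lit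 0) (nat_lit 0) (nat_lit 1) (nat_lit 0) (nat_lit 1) (nat_lit 0) (nat_lit 285) (nat_lit 448) (nat_lit 347)) (XT.nd (nat_lit 94) (nat_lit 0) (nat_lit 0) (XT.lf (nat_lit 0) (nat_lit 938338600911) (nat_lit 0) (nat_lit 0) (nat_lit 0) (nat_lit 0) (nat_lit 0) (nat_lit 0) (nat_lit 1) (nat_lit 0) (nat_lit 1) (nat_lit 0) (nat_lit 286) (nat_lit 448) (nat_lit 346)) (XT.lf (nat_lit 0) (nat_lit 938311521855) (nat_lit 0) (nat_lit 0) (nat_lit 0) (nat_lit 0) (nat_lit 0) (nat_lit 0) (nat_lit 1) (nat_lit 0) (nat_lit 1) (nat_lit 0) (nat_lit 287) (nat_lit 448) (nat_lit 345))))))) (XT.nd (nat_lit 846) (nat_lit 0) (nat_lit 0) (XT.nd (nat_lit 376) (nat_lit 0) (nat_lit 0) (XT.nd (nat_lit 188) (nat_lit 0) (nat_lit 0) (XT.nd (nat_lit 94) (nat_lit 0) (nat_lit 0) (XT.lf (nat_lit 0) (nat_lit 938286448655) (nat_lit 0) (nat_lit 0) (nat_lit 0) (nat_lit 0) (nat_lit 0) (nat_lit 0) (nat_lit 1)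 (nat_lit 0) (nat_lit 1) (nat_lit 0) (nat_lit 288) (nat_lit 448) (nat_lit 344)) (XT.lf (nat_lit 0) (nat_lit 938263232729) (nat_lit 0) (nat_lit 0) (nat_lit 0) (nat_lit 0) (nat_lit 0) (nat_lit 0) (nat_lit 1) (nat_lit 0) (nat_lit 1) (nat_lit 0) (nat_lit 289) (nat_lit 448) (nat_lit 343))) (XT.nd (nat_lit 94) (nat_lit 0) (nat_lit 0) (XT.lf (nat_lit 0) (nat_lit 938241736501) (nat_lit 0) (nat_lit 0) (nat_lit 0) (nat_lit 0) (nat_lit 0) (nat_lit 0) (nat_lit 1) (nat_lit 0) (nat_lit 1) (nat_lit 0) (nat_lit 290) (nat_lit 448) (nat_lit 342)) (XT.lf (nat_lit 0) (nat_lit 938221832586) (nat_lit 0) (nat_lit 0) (nat_lit 0) (nat_lit 0) (nat_lit 0) (nat_lit 0) (nat_lit 1) (nat_lit 0) (nat_lit 1) (nat_lit 0) (nat_lit 291) (nat_lit 448) (nat_lit 341)))) (XT.nd (nat_lit 188) (nat_lit 0) (nat_lit 0) (XT.nd (nat_lit 94) (nat_lit 0) (nat_lit 0) (XT.lf (nat_lit 0) (nat_lit 938203403035)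 (nat_lit 0) (nat_lit 0) (nat_lit 0) (nat_lit 0) (nat_lit 0) (nat_lit 0) (nat_lit 1) (nat_lit 0) (nat_lit 1) (nat_lit 0) (nat_lit 292) (nat_lit 448) (nat_lit 340)) (XT.lf (nat_lit 0) (nat_lit 938186338636) (nat_lit 0) (nat_lit 0) (nat_lit 0) (nat_lit 0) (nat_lit 0) (nat_lit 0) (nat_lit 1) (nat_lit 0) (nat_lit 1) (nat_lit 0) (nat_lit 293) (nat_lit 448) (nat_lit 339))) (XT.nd (nat_lit 94) (nat_lit 0) (nat_lit 0) (XT.lf (nat_lit 0) (nat_lit 938170538267) (nat_lit 0) (nat_lit 0) (nat_lit 0) (nat_lit 0) (nat_lit 0) (nat_lit 0) (nat_lit 1) (nat_lit 0) (nat_lit 1) (nat_lit 0) (nat_lit 294) (nat_lit 448) (nat_lit 338)) (XT.nd (nat_lit 94) (nat_lit 0) (nat_lit 0) (XT.lf (nat_lit 0) (nat_lit 938155908296) (nat_lit 0) (nat_lit 0) (nat_lit 0) (nat_lit 0) (nat_lit 0) (nat_lit 0) (nat_lit 1) (nat_lit 0) (nat_lit 1) (nat_lit 0) (nat_lit 295) (nat_lit 448) (nat_lit 337)) (XT.lf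 (nat_lit 0) (nat_lit 938142362026) (nat_lit 0) (nat_lit 0) (nat_lit 0) (nat_lit 0) (nat_lit 0) (nat_lit 0) (nat_lit 1) (nat_lit 0) (nat_lit 1) (nat_lit 0) (nat_lit 296) (nat_lit 448) (nat_lit 336)))))) (XT.nd (nat_lit 470) (nat_lit 0) (nat_lit 0) (XT.nd (nat_lit 188) (nat_lit 0) (nat_lit 0) (XT.nd (nat_lit 94) (nat_lit 0) (nat_lit 0) (XT.lf (nat_lit 0) (nat_lit 938129819183) (nat_lit 0) (nat_lit 0) (nat_lit 0) (nat_lit 0) (nat_lit 0) (nat_lit 0) (nat_lit 1) (nat_lit 0) (nat_lit 1) (nat_lit 0) (nat_lit 297) (nat_lit 448) (nat_lit 335)) (XT.lf (nat_lit 0) (nat_lit 938118205440) (nat_lit 0) (nat_lit 0) (nat_lit 0) (nat_lit 0) (nat_lit 0) (nat_lit 0) (nat_lit 1) (nat_lit 0) (nat_lit 1) (nat_lit 0) (nat_lit 298) (nat_lit 448) (nat_lit 334))) (XT.nd (nat_lit 94) (nat_lit 0) (nat_lit 0) (XT.lf (nat_lit 0) (nat_lit 938107451974) (nat_lit 0) (nat_lit 0) (nat_lit 0)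 (nat_lit 0) (nat_lit 0) (nat_lit 0) (nat_lit 1) (nat_lit 0) (nat_lit 1) (nat_lit 0) (nat_lit 299) (nat_lit 448) (nat_lit 333)) (XT.nd (nat_lit 94) (nat_lit 0) (nat_lit 0) (XT.lf (nat_lit 0) (nat_lit 938097495061) (nat_lit 0) (nat_lit 0) (nat_lit 0) (nat_lit 0) (nat_lit 0) (nat_lit 0) (nat_lit 1) (nat_lit 0) (nat_lit 1) (nat_lit 0) (nat_lit 300) (nat_lit 448) (nat_lit 332)) (XT.lf (nat_lit 0) (nat_lit 938088275698) (nat_lit 0) (nat_lit 0) (nat_lit 0) (nat_lit 0) (nat_lit 0) (nat_lit 0) (nat_lit 1) (nat_lit 0) (nat_lit 1) (nat_lit 0) (nat_lit 301) (nat_lit 448) (nat_lit 331))))) (XT.nd (nat_lit 188) (nat_lit 0) (nat_lit 0) (XT.nd (nat_lit 94) (nat_lit 0) (nat_lit 0) (XT.lf (nat_lit 0) (nat_lit 938079739250) (nat_lit 0) (nat_lit 0) (nat_lit 0) (nat_lit 0) (nat_lit 0) (nat_lit 0) (nat_lit 1) (nat_lit 0) (nat_lit 1) (nat_lit 0) (nat_lit 302) (nat_lit 448) (nat_lit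 330)) (XT.lf (nat_lit 0) (nat_lit 938071835132) (nat_lit 0) (nat_lit 0) (nat_lit 0) (nat_lit 0) (nat_lit 0) (nat_lit 0) (nat_lit 1) (nat_lit 0) (nat_lit 1) (nat_lit 0) (nat_lit 303) (nat_lit 448) (nat_lit 329))) (XT.nd (nat_lit 94) (nat_lit 0) (nat_lit 0) (XT.lf (nat_lit 0) (nat_lit 938064516503) (nat_lit 0) (nat_lit 0) (nat_lit 0) (nat_lit 0) (nat_lit 0) (nat_lit 0) (nat_lit 1) (nat_lit 0) (nat_lit 1) (nat_lit 0) (nat_lit 304) (nat_lit 448) (nat_lit 328)) (XT.nd (nat_lit 94) (nat_lit 0) (nat_lit 0) (XT.lf (nat_lit 0) (nat_lit 938057739996) (nat_lit 0) (nat_lit 0) (nat_lit 0) (nat_lit 0) (nat_lit 0) (nat_lit 0) (nat_lit 1) (nat_lit 0) (nat_lit 1) (nat_lit 0) (nat_lit 305) (nat_lit 448) (nat_lit 327)) (XT.lf (nat_lit 0) (nat_lit 938051465452) (nat_lit 0) (nat_lit 0) (nat_lit 0) (nat_lit 0) (nat_lit 0) (nat_lit 0) (nat_lit 1) (nat_lit 0) (nat_lit 1) (nat_lit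 0) (nat_lit 306) (nat_lit 448) (nat_lit 326))))))))
noncomputable def ec424 : XT := (XT.nd (nat_lit 1692) (nat_lit 0) (nat_lit 0) (XT.nd (nat_lit 846) (nat_lit 0) (nat_lit 0) (XT.nd (nat_lit 376) (nat_lit 0) (nat_lit 0) (XT.nd (nat_lit 188) (nat_lit 0) (nat_lit 0) (XT.nd (nat_lit 94) (nat_lit 0) (nat_lit 0) (XT.lf (nat_lit 0) (nat_lit 938045655689) (nat_lit 0) (nat_lit 0) (nat_lit 0) (nat_lit 0) (nat_lit 0) (nat_lit 0) (nat_lit 1) (nat_lit 0) (nat_lit 1) (nat_lit 0) (nat_lit 307) (nat_lit 448) (nat_lit 325)) (XT.lf (nat_lit 0) (nat_lit 938040276279) (nat_lit 0) (nat_lit 0) (nat_lit 0) (nat_lit 0) (nat_lit 0) (nat_lit 0) (nat_lit 1) (nat_lit 0) (nat_lit 1) (nat_lit 0) (nat_lit 308) (nat_lit 448) (nat_lit 324))) (XT.nd (nat_lit 94) (nat_lit 0) (nat_lit 0) (XT.lf (nat_lit 0) (nat_lit 938035295343) (nat_lit 0) (nat_lit 0) (nat_lit 0) (nat_lit 0) (nat_lit 0) (nat_lit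 0) (nat_lit 1) (nat_lit 0) (nat_lit 1) (nat_lit 0) (nat_lit 309) (nat_lit 448) (nat_lit 323)) (XT.lf (nat_lit 0) (nat_lit 938030683366) (nat_lit 0) (nat_lit 0) (nat_lit 0) (nat_lit 0) (nat_lit 0) (nat_lit 0) (nat_lit 1) (nat_lit 0) (nat_lit 1) (nat_lit 0) (nat_lit 310) (nat_lit 448) (nat_lit 322)))) (XT.nd (nat_lit 188) (nat_lit 0) (nat_lit 0) (XT.nd (nat_lit 94) (nat_lit 0) (nat_lit 0) (XT.lf (nat_lit 0) (nat_lit 938026413017) (nat_lit 0) (nat_lit 0) (nat_lit 0) (nat_lit 0) (nat_lit 0) (nat_lit 0) (nat_lit 1) (nat_lit 0) (nat_lit 1) (nat_lit 0) (nat_lit 311) (nat_lit 448) (nat_lit 321)) (XT.lf (nat_lit 0) (nat_lit 938022458990) (nat_lit 0) (nat_lit 0) (nat_lit 0) (nat_lit 0) (nat_lit 0) (nat_lit 0) (nat_lit 1) (nat_lit 0) (nat_lit 1) (nat_lit 0) (nat_lit 312) (nat_lit 448) (nat_lit 320))) (XT.nd (nat_lit 94) (nat_lit 0) (nat_lit 0) (XT.lf (nat_lit 0) (nat_lit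 938018797854) (nat_lit 0) (nat_lit 0) (nat_lit 0) (nat_lit 0) (nat_lit 0) (nat_lit 0) (nat_lit 1) (nat_lit 0) (nat_lit 1) (nat_lit 0) (nat_lit 313) (nat_lit 448) (nat_lit 319)) (XT.nd (nat_lit 94) (nat_lit 0) (nat_lit 0) (XT.lf (nat_lit 0) (nat_lit 938015407913) (nat_lit 0) (nat_lit 0) (nat_lit 0) (nat_lit 0) (nat_lit 0) (nat_lit 0) (nat_lit 1) (nat_lit 0) (nat_lit 1) (nat_lit 0) (nat_lit 314) (nat_lit 448) (nat_lit 318)) (XT.lf (nat_lit 0) (nat_lit 938012269079) (nat_lit 0) (nat_lit 0) (nat_lit 0) (nat_lit 0) (nat_lit 0) (nat_lit 0) (nat_lit 1) (nat_lit 0) (nat_lit 1) (nat_lit 0) (nat_lit 315) (nat_lit 448) (nat_lit 317)))))) (XT.nd (nat_lit 376) (nat_lit 0) (nat_lit 0) (XT.nd (nat_lit 188) (nat_lit 0) (nat_lit 0) (XT.nd (nat_lit 94) (nat_lit 0) (nat_lit 0) (XT.lf (nat_lit 0) (nat_lit 938009362751) (nat_lit 0) (nat_lit 0) (nat_lit 0) (nat_lit 0) (nat_lit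 0) (nat_lit 0) (nat_lit 1) (nat_lit 0) (nat_lit 1) (nat_lit 0) (nat_lit 316) (nat_lit 448) (nat_lit 316)) (XT.lf (nat_lit 0) (nat_lit 938006671706) (nat_lit 0) (nat_lit 0) (nat_lit 0) (nat_lit 0) (nat_lit 0) (nat_lit 0) (nat_lit 1) (nat_lit 0) (nat_lit 1) (nat_lit 0) (nat_lit 317) (nat_lit 448) (nat_lit 315))) (XT.nd (nat_lit 94) (nat_lit 0) (nat_lit 0) (XT.lf (nat_lit 0) (nat_lit 938004179999) (nat_lit 0) (nat_lit 0) (nat_lit 0) (nat_lit 0) (nat_lit 0) (nat_lit 0) (nat_lit 1) (nat_lit 0) (nat_lit 1) (nat_lit 0) (nat_lit 318) (nat_lit 448) (nat_lit 314)) (XT.lf (nat_lit 0) (nat_lit 938001872862) (nat_lit 0) (nat_lit 0) (nat_lit 0) (nat_lit 0) (nat_lit 0) (nat_lit 0) (nat_lit 1) (nat_lit 0) (nat_lit 1) (nat_lit 0) (nat_lit 319) (nat_lit 448) (nat_lit 313)))) (XT.nd (nat_lit 188) (nat_lit 0) (nat_lit 0) (XT.nd (nat_lit 94) (nat_lit 0) (nat_lit 0) (XT.lf (nat_lit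 0) (nat_lit 937999736624) (nat_lit 0) (nat_lit 0) (nat_lit 0) (nat_lit 0) (nat_lit 0) (nat_lit 0) (nat_lit 1) (nat_lit 0) (nat_lit 1) (nat_lit 0) (nat_lit 320) (nat_lit 448) (nat_lit 312)) (XT.lf (nat_lit 0) (nat_lit 937997758626) (nat_lit 0) (nat_lit 0) (nat_lit 0) (nat_lit 0) (nat_lit 0) (nat_lit 0) (nat_lit 1) (nat_lit 0) (nat_lit 1) (nat_lit 0) (nat_lit 321) (nat_lit 448) (nat_lit 311))) (XT.nd (nat_lit 94) (nat_lit 0) (nat_lit 0) (XT.lf (nat_lit 0) (nat_lit 937995927146) (nat_lit 0) (nat_lit 0) (nat_lit 0) (nat_lit 0) (nat_lit 0) (nat_lit 0) (nat_lit 1) (nat_lit 0) (nat_lit 1) (nat_lit 0) (nat_lit 322) (nat_lit 448) (nat_lit 310)) (XT.nd (nat_lit 94) (nat_lit 0) (nat_lit 0) (XT.lf (nat_lit 0) (nat_lit 937994231332) (nat_lit 0) (nat_lit 0) (nat_lit 0) (nat_lit 0) (nat_lit 0) (nat_lit 0) (nat_lit 1) (nat_lit 0) (nat_lit 1) (nat_lit 0) (nat_lit 323) (nat_lit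 448) (nat_lit 309)) (XT.lf (nat_lit 0) (nat_lit 937992661133) (nat_lit 0) (nat_lit 0) (nat_lit 0) (nat_lit 0) (nat_lit 0) (nat_lit 0) (nat_lit 1) (nat_lit 0) (nat_lit 1) (nat_lit 0) (nat_lit 324) (nat_lit 448) (nat_lit 308))))))) (XT.nd (nat_lit 846) (nat_lit 0) (nat_lit 0) (XT.nd (nat_lit 376) (nat_lit 0) (nat_lit 0) (XT.nd (nat_lit 188) (nat_lit 0) (nat_lit 0) (XT.nd (nat_lit 94) (nat_lit 0) (nat_lit 0) (XT.lf (nat_lit 0) (nat_lit 937991207246) (nat_lit 0) (nat_lit 0) (nat_lit 0) (nat_lit 0) (nat_lit 0) (nat_lit 0) (nat_lit 1) (nat_lit 0) (nat_lit 1) (nat_lit 0) (nat_lit 325) (nat_lit 448) (nat_lit 307)) (XT.lf (nat_lit 0) (nat_lit 937989861054) (nat_lit 0) (nat_lit 0) (nat_lit 0) (nat_lit 0) (nat_lit 0) (nat_lit 0) (nat_lit 1) (nat_lit 0) (nat_lit 1) (nat_lit 0) (nat_lit 326) (nat_lit 448) (nat_lit 306))) (XT.nd (nat_lit 94) (nat_lit 0) (nat_lit 0) (XT.lf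 (nat_lit 0) (nat_lit 937988614580) (nat_lit 0) (nat_lit 0) (nat_lit 0) (nat_lit 0) (nat_lit 0) (nat_lit 0) (nat_lit 1) (nat_lit 0) (nat_lit 1) (nat_lit 0) (nat_lit 327) (nat_lit 448) (nat_lit 305)) (XT.lf (nat_lit 0) (nat_lit 937987460437) (nat_lit 0) (nat_lit 0) (nat_lit 0) (nat_lit 0) (nat_lit 0) (nat_lit 0) (nat_lit 1) (nat_lit 0) (nat_lit 1) (nat_lit 0) (nat_lit 328) (nat_lit 448) (nat_lit 304)))) (XT.nd (nat_lit 188) (nat_lit 0) (nat_lit 0) (XT.nd (nat_lit 94) (nat_lit 0) (nat_lit 0) (XT.lf (nat_lit 0) (nat_lit 937986391786) (nat_lit 0) (nat_lit 0) (nat_lit 0) (nat_lit 0) (nat_lit 0) (nat_lit 0) (nat_lit 1) (nat_lit 0) (nat_lit 1) (nat_lit 0) (nat_lit 329) (nat_lit 448) (nat_lit 303)) (XT.lf (nat_lit 0) (nat_lit 937985402295) (nat_lit 0) (nat_lit 0) (nat_lit 0) (nat_lit 0) (nat_lit 0) (nat_lit 0) (nat_lit 1) (nat_lit 0) (nat_lit 1) (nat_lit 0) (nat_lit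 330) (nat_lit 448) (nat_lit 302))) (XT.nd (nat_lit 94) (nat_lit 0) (nat_lit 0) (XT.lf (nat_lit 0) (nat_lit 937984486099) (nat_lit 0) (nat_lit 0) (nat_lit 0) (nat_lit 0) (nat_lit 0) (nat_lit 0) (nat_lit 1) (nat_lit 0) (nat_lit 1) (nat_lit 0) (nat_lit 331) (nat_lit 448) (nat_lit 301)) (XT.nd (nat_lit 94) (nat_lit 0) (nat_lit 0) (XT.lf (nat_lit 0) (nat_lit 937983637769) (nat_lit 0) (nat_lit 0) (nat_lit 0) (nat_lit 0) (nat_lit 0) (nat_lit 0) (nat_lit 1) (nat_lit 0) (nat_lit 1) (nat_lit 0) (nat_lit 332) (nat_lit 448) (nat_lit 300)) (XT.lf (nat_lit 0) (nat_lit 937982852279) (nat_lit 0) (nat_lit 0) (nat_lit 0) (nat_lit 0) (nat_lit 0) (nat_lit 0) (nat_lit 1) (nat_lit 0) (nat_lit 1) (nat_lit 0) (nat_lit 333) (nat_lit 448) (nat_lit 299)))))) (XT.nd (nat_lit 470) (nat_lit 0) (nat_lit 0) (XT.nd (nat_lit 188) (nat_lit 0) (nat_lit 0) (XT.nd (nat_lit 94) (nat_lit 0) (nat_lit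 0) (XT.lf (nat_lit 0) (nat_lit 937982124973) (nat_lit 0) (nat_lit 0) (nat_lit 0) (nat_lit 0) (nat_lit 0) (nat_lit 0) (nat_lit 1) (nat_lit 0) (nat_lit 1) (nat_lit 0) (nat_lit 334) (nat_lit 448) (nat_lit 298)) (XT.lf (nat_lit 0) (nat_lit 937981451542) (nat_lit 0) (nat_lit 0) (nat_lit 0) (nat_lit 0) (nat_lit 0) (nat_lit 0) (nat_lit 1) (nat_lit 0) (nat_lit 1) (nat_lit 0) (nat_lit 335) (nat_lit 448) (nat_lit 297))) (XT.nd (nat_lit 94) (nat_lit 0) (nat_lit 0) (XT.lf (nat_lit 0) (nat_lit 937980827995) (nat_lit 0) (nat_lit 0) (nat_lit 0) (nat_lit 0) (nat_lit 0) (nat_lit 0) (nat_lit 1) (nat_lit 0) (nat_lit 1) (nat_lit 0) (nat_lit 336) (nat_lit 448) (nat_lit 296)) (XT.nd (nat_lit 94) (nat_lit 0) (nat_lit 0) (XT.lf (nat_lit 0) (nat_lit 937980250636) (nat_lit 0) (nat_lit 0) (nat_lit 0) (nat_lit 0) (nat_lit 0) (nat_lit 0) (nat_lit 1) (nat_lit 0) (nat_lit 1) (nat_lit 0)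 (nat_lit 337) (nat_lit 448) (nat_lit 295)) (XT.lf (nat_lit 0) (nat_lit 937979716045) (nat_lit 0) (nat_lit 0) (nat_lit 0) (nat_lit 0) (nat_lit 0) (nat_lit 0) (nat_lit 1) (nat_lit 0) (nat_lit 1) (nat_lit 0) (nat_lit 338) (nat_lit 448) (nat_lit 294))))) (XT.nd (nat_lit 188) (nat_lit 0) (nat_lit 0) (XT.nd (nat_lit 94) (nat_lit 0) (nat_lit 0) (XT.lf (nat_lit 0) (nat_lit 937979221052) (nat_lit 0) (nat_lit 0) (nat_lit 0) (nat_lit 0) (nat_lit 0) (nat_lit 0) (nat_lit 1) (nat_lit 0) (nat_lit 1) (nat_lit 0) (nat_lit 339) (nat_lit 448) (nat_lit 293)) (XT.lf (nat_lit 0) (nat_lit 937978762726) (nat_lit 0) (nat_lit 0) (nat_lit 0) (nat_lit 0) (nat_lit 0) (nat_lit 0) (nat_lit 1) (nat_lit 0) (nat_lit 1) (nat_lit 0) (nat_lit 340) (nat_lit 448) (nat_lit 292))) (XT.nd (nat_lit 94) (nat_lit 0) (nat_lit 0) (XT.lf (nat_lit 0) (nat_lit 937978338351) (nat_lit 0) (nat_lit 0) (nat_lit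 0) (nat_lit 0) (nat_lit 0) (nat_lit 0) (nat_lit 1) (nat_lit 0) (nat_lit 1) (nat_lit 0) (nat_lit 341) (nat_lit 448) (nat_lit 291)) (XT.nd (nat_lit 94) (nat_lit 0) (nat_lit 0) (XT.lf (nat_lit 0) (nat_lit 937977945410) (nat_lit 0) (nat_lit 0) (nat_lit 0) (nat_lit 0) (nat_lit 0) (nat_lit 0) (nat_lit 1) (nat_lit 0) (nat_lit 1) (nat_lit 0) (nat_lit 342) (nat_lit 448) (nat_lit 290)) (XT.lf (nat_lit 0) (nat_lit 937977581576) (nat_lit 0) (nat_lit 0) (nat_lit 0) (nat_lit 0) (nat_lit 0) (nat_lit 0) (nat_lit 1) (nat_lit 0) (nat_lit 1) (nat_lit 0) (nat_lit 343) (nat_lit 448) (nat_lit 289))))))))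
noncomputable def ec425 : XT := (XT.nd (nat_lit 1786) (nat_lit 0) (nat_lit 0) (XT.nd (nat_lit 846) (nat_lit 0) (nat_lit 0) (XT.nd (nat_lit 376) (nat_lit 0) (nat_lit 0) (XT.nd (nat_lit 188) (nat_lit 0) (nat_lit 0) (XT.nd (nat_lit 94) (nat_lit 0) (nat_lit 0) (XT.lf (nat_lit 0) (nat_lit 937977244693) (nat_lit 0) (nat_lit 0) (nat_lit 0) (nat_lit 0) (nat_lit 0) (nat_lit 0) (nat_lit 1) (nat_lit 0) (nat_lit 1) (nat_lit 0) (nat_lit 344) (nat_lit 448) (nat_lit 288)) (XT.lf (nat_lit 0) (nat_lit 937976932764) (nat_lit 0) (nat_lit 0) (nat_lit 0) (nat_lit 0) (nat_lit 0) (nat_lit 0) (nat_lit 1) (nat_lit 0) (nat_lit 1) (nat_lit 0) (nat_lit 345) (nat_lit 448) (nat_lit 287))) (XT.nd (nat_lit 94) (nat_lit 0) (nat_lit 0) (XT.lf (nat_lit 0) (nat_lit 937976643941) (nat_lit 0) (nat_lit 0) (nat_lit 0) (nat_lit 0) (nat_lit 0) (nat_lit 0) (nat_lit 1) (nat_lit 0) (nat_lit 1) (nat_lit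 0) (nat_lit 346) (nat_lit 448) (nat_lit 286)) (XT.lf (nat_lit 0) (nat_lit 937976376512) (nat_lit 0) (nat_lit 0) (nat_lit 0) (nat_lit 0) (nat_lit 0) (nat_lit 0) (nat_lit 1) (nat_lit 0) (nat_lit 1) (nat_lit 0) (nat_lit 347) (nat_lit 448) (nat_lit 285)))) (XT.nd (nat_lit 188) (nat_lit 0) (nat_lit 0) (XT.nd (nat_lit 94) (nat_lit 0) (nat_lit 0) (XT.lf (nat_lit 0) (nat_lit 937976128893) (nat_lit 0) (nat_lit 0) (nat_lit 0) (nat_lit 0) (nat_lit 0) (nat_lit 0) (nat_lit 1) (nat_lit 0) (nat_lit 1) (nat_lit 0) (nat_lit 348) (nat_lit 448) (nat_lit 284)) (XT.lf (nat_lit 0) (nat_lit 937975899615) (nat_lit 0) (nat_lit 0) (nat_lit 0) (nat_lit 0) (nat_lit 0) (nat_lit 0) (nat_lit 1) (nat_lit 0) (nat_lit 1) (nat_lit 0) (nat_lit 349) (nat_lit 448) (nat_lit 283))) (XT.nd (nat_lit 94) (nat_lit 0) (nat_lit 0) (XT.lf (nat_lit 0) (nat_lit 937975687322) (nat_lit 0) (nat_lit 0) (nat_lit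 0) (nat_lit 0) (nat_lit 0) (nat_lit 0) (nat_lit 1) (nat_lit 0) (nat_lit 1) (nat_lit 0) (nat_lit 350) (nat_lit 448) (nat_lit 282)) (XT.nd (nat_lit 94) (nat_lit 0) (nat_lit 0) (XT.lf (nat_lit 0) (nat_lit 937975490754) (nat_lit 0) (nat_lit 0) (nat_lit 0) (nat_lit 0) (nat_lit 0) (nat_lit 0) (nat_lit 1) (nat_lit 0) (nat_lit 1) (nat_lit 0) (nat_lit 351) (nat_lit 448) (nat_lit 281)) (XT.lf (nat_lit 0) (nat_lit 937975308746) (nat_lit 0) (nat_lit 0) (nat_lit 0) (nat_lit 0) (nat_lit 0) (nat_lit 0) (nat_lit 1) (nat_lit 0) (nat_lit 1) (nat_lit 0) (nat_lit 352) (nat_lit 448) (nat_lit 280)))))) (XT.nd (nat_lit 470) (nat_lit 0) (nat_lit 0) (XT.nd (nat_lit 188) (nat_lit 0) (nat_lit 0) (XT.nd (nat_lit 94) (nat_lit 0) (nat_lit 0) (XT.lf (nat_lit 0) (nat_lit 937975140221) (nat_lit 0) (nat_lit 0) (nat_lit 0) (nat_lit 0) (nat_lit 0) (nat_lit 0) (nat_lit 1) (nat_lit 0) (nat_lit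 1) (nat_lit 0) (nat_lit 353) (nat_lit 448) (nat_lit 279)) (XT.lf (nat_lit 0) (nat_lit 937974984178) (nat_lit 0) (nat_lit 0) (nat_lit 0) (nat_lit 0) (nat_lit 0) (nat_lit 0) (nat_lit 1) (nat_lit 0) (nat_lit 1) (nat_lit 0) (nat_lit 354) (nat_lit 448) (nat_lit 278))) (XT.nd (nat_lit 94) (nat_lit 0) (nat_lit 0) (XT.lf (nat_lit 0) (nat_lit 937974839695) (nat_lit 0) (nat_lit 0) (nat_lit 0) (nat_lit 0) (nat_lit 0) (nat_lit 0) (nat_lit 1) (nat_lit 0) (nat_lit 1) (nat_lit 0) (nat_lit 355) (nat_lit 448) (nat_lit 277)) (XT.nd (nat_lit 94) (nat_lit 0) (nat_lit 0) (XT.lf (nat_lit 0) (nat_lit 937974705914) (nat_lit 0) (nat_lit 0) (nat_lit 0) (nat_lit 0) (nat_lit 0) (nat_lit 0) (nat_lit 1) (nat_lit 0) (nat_lit 1) (nat_lit 0) (nat_lit 356) (nat_lit 448) (nat_lit 276)) (XT.lf (nat_lit 0) (nat_lit 937974582043) (nat_lit 0) (nat_lit 0) (nat_lit 0) (nat_lit 0) (nat_lit 0) (nat_lit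 0) (nat_lit 1) (nat_lit 0) (nat_lit 1) (nat_lit 0) (nat_lit 357) (nat_lit 448) (nat_lit 275))))) (XT.nd (nat_lit 188) (nat_lit 0) (nat_lit 0) (XT.nd (nat_lit 94) (nat_lit 0) (nat_lit 0) (XT.lf (nat_lit 0) (nat_lit 937974467347) (nat_lit 0) (nat_lit 0) (nat_lit 0) (nat_lit 0) (nat_lit 0) (nat_lit 0) (nat_lit 1) (nat_lit 0) (nat_lit 1) (nat_lit 0) (nat_lit 358) (nat_lit 448) (nat_lit 274)) (XT.lf (nat_lit 0) (nat_lit 937974361147) (nat_lit 0) (nat_lit 0) (nat_lit 0) (nat_lit 0) (nat_lit 0) (nat_lit 0) (nat_lit 1) (nat_lit 0) (nat_lit 1) (nat_lit 0) (nat_lit 359) (nat_lit 448) (nat_lit 273))) (XT.nd (nat_lit 94) (nat_lit 0) (nat_lit 0) (XT.lf (nat_lit 0) (nat_lit 937974262814) (nat_lit 0) (nat_lit 0) (nat_lit 0) (nat_lit 0) (nat_lit 0) (nat_lit 0) (nat_lit 1) (nat_lit 0) (nat_lit 1) (nat_lit 0) (nat_lit 360) (nat_lit 448) (nat_lit 272)) (XT.nd (nat_lit 94) (nat_lit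 0) (nat_lit 0) (XT.lf (nat_lit 0) (nat_lit 937974171765) (nat_lit 0) (nat_lit 0) (nat_lit 0) (nat_lit 0) (nat_lit 0) (nat_lit 0) (nat_lit 1) (nat_lit 0) (nat_lit 1) (nat_lit 0) (nat_lit 361) (nat_lit 448) (nat_lit 271)) (XT.lf (nat_lit 0) (nat_lit 937974087461) (nat_lit 0) (nat_lit 0) (nat_lit 0) (nat_lit 0) (nat_lit 0) (nat_lit 0) (nat_lit 1) (nat_lit 0) (nat_lit 1) (nat_lit 0) (nat_lit 362) (nat_lit 448) (nat_lit 270))))))) (XT.nd (nat_lit 846) (nat_lit 0) (nat_lit 0) (XT.nd (nat_lit 376) (nat_lit 0) (nat_lit 0) (XT.nd (nat_lit 188) (nat_lit 0) (nat_lit 0) (XT.nd (nat_lit 94) (nat_lit 0) (nat_lit 0) (XT.lf (nat_lit 0) (nat_lit 937974009401) (nat_lit 0) (nat_lit 0) (nat_lit 0) (nat_lit 0) (nat_lit 0) (nat_lit 0) (nat_lit 1) (nat_lit 0) (nat_lit 1) (nat_lit 0) (nat_lit 363) (nat_lit 448) (nat_lit 269)) (XT.lf (nat_lit 0) (nat_lit 937973937123) (nat_lit 0)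 (nat_lit 0) (nat_lit 0) (nat_lit 0) (nat_lit 0) (nat_lit 0) (nat_lit 1) (nat_lit 0) (nat_lit 1) (nat_lit 0) (nat_lit 364) (nat_lit 448) (nat_lit 268))) (XT.nd (nat_lit 94) (nat_lit 0) (nat_lit 0) (XT.lf (nat_lit 0) (nat_lit 937973870199) (nat_lit 0) (nat_lit 0) (nat_lit 0) (nat_lit 0) (nat_lit 0) (nat_lit 0) (nat_lit 1) (nat_lit 0) (nat_lit 1) (nat_lit 0) (nat_lit 365) (nat_lit 448) (nat_lit 267)) (XT.lf (nat_lit 0) (nat_lit 937973808233) (nat_lit 0) (nat_lit 0) (nat_lit 0) (nat_lit 0) (nat_lit 0) (nat_lit 0) (nat_lit 1) (nat_lit 0) (nat_lit 1) (nat_lit 0) (nat_lit 366) (nat_lit 448) (nat_lit 266)))) (XT.nd (nat_lit 188) (nat_lit 0) (nat_lit 0) (XT.nd (nat_lit 94) (nat_lit 0) (nat_lit 0) (XT.lf (nat_lit 0) (nat_lit 937973750856) (nat_lit 0) (nat_lit 0) (nat_lit 0) (nat_lit 0) (nat_lit 0) (nat_lit 0) (nat_lit 1) (nat_lit 0) (nat_lit 1) (nat_lit 0) (nat_lit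 367) (nat_lit 448) (nat_lit 265)) (XT.lf (nat_lit 0) (nat_lit 937973697730) (nat_lit 0) (nat_lit 0) (nat_lit 0) (nat_lit 0) (nat_lit 0) (nat_lit 0) (nat_lit 1) (nat_lit 0) (nat_lit 1) (nat_lit 0) (nat_lit 368) (nat_lit 448) (nat_lit 264))) (XT.nd (nat_lit 94) (nat_lit 0) (nat_lit 0) (XT.lf (nat_lit 0) (nat_lit 937973648539) (nat_lit 0) (nat_lit 0) (nat_lit 0) (nat_lit 0) (nat_lit 0) (nat_lit 0) (nat_lit 1) (nat_lit 0) (nat_lit 1) (nat_lit 0) (nat_lit 369) (nat_lit 448) (nat_lit 263)) (XT.nd (nat_lit 94) (nat_lit 0) (nat_lit 0) (XT.lf (nat_lit 0) (nat_lit 937973602992) (nat_lit 0) (nat_lit 0) (nat_lit 0) (nat_lit 0) (nat_lit 0) (nat_lit 0) (nat_lit 1) (nat_lit 0) (nat_lit 1) (nat_lit 0) (nat_lit 370) (nat_lit 448) (nat_lit 262)) (XT.lf (nat_lit 0) (nat_lit 937973560818) (nat_lit 0) (nat_lit 0) (nat_lit 0) (nat_lit 0) (nat_lit 0) (nat_lit 0) (nat_lit 1) (nat_lit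 0) (nat_lit 1) (nat_lit 0) (nat_lit 371) (nat_lit 448) (nat_lit 261)))))) (XT.nd (nat_lit 470) (nat_lit 0) (nat_lit 0) (XT.nd (nat_lit 188) (nat_lit 0) (nat_lit 0) (XT.nd (nat_lit 94) (nat_lit 0) (nat_lit 0) (XT.lf (nat_lit 0) (nat_lit 937973521769) (nat_lit 0) (nat_lit 0) (nat_lit 0) (nat_lit 0) (nat_lit 0) (nat_lit 0) (nat_lit 1) (nat_lit 0) (nat_lit 1) (nat_lit 0) (nat_lit 372) (nat_lit 448) (nat_lit 260)) (XT.lf (nat_lit 0) (nat_lit 937973485612) (nat_lit 0) (nat_lit 0) (nat_lit 0) (nat_lit 0) (nat_lit 0) (nat_lit 0) (nat_lit 1) (nat_lit 0) (nat_lit 1) (nat_lit 0) (nat_lit 373) (nat_lit 448) (nat_lit 259))) (XT.nd (nat_lit 94) (nat_lit 0) (nat_lit 0) (XT.lf (nat_lit 0) (nat_lit 937973452134) (nat_lit 0) (nat_lit 0) (nat_lit 0) (nat_lit 0) (nat_lit 0) (nat_lit 0) (nat_lit 1) (nat_lit 0) (nat_lit 1) (nat_lit 0) (nat_lit 374) (nat_lit 448) (nat_lit 258))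 (XT.nd (nat_lit 94) (nat_lit 0) (nat_lit 0) (XT.lf (nat_lit 0) (nat_lit 937973421135) (nat_lit 0) (nat_lit 0) (nat_lit 0) (nat_lit 0) (nat_lit 0) (nat_lit 0) (nat_lit 1) (nat_lit 0) (nat_lit 1) (nat_lit 0) (nat_lit 375) (nat_lit 448) (nat_lit 257)) (XT.lf (nat_lit 0) (nat_lit 937973392433) (nat_lit 0) (nat_lit 0) (nat_lit 0) (nat_lit 0) (nat_lit 0) (nat_lit 0) (nat_lit 1) (nat_lit 0) (nat_lit 1) (nat_lit 0) (nat_lit 376) (nat_lit 448) (nat_lit 256))))) (XT.nd (nat_lit 188) (nat_lit 0) (nat_lit 0) (XT.nd (nat_lit 94) (nat_lit 0) (nat_lit 0) (XT.lf (nat_lit 0) (nat_lit 937973365856) (nat_lit 0) (nat_lit 0) (nat_lit 0) (nat_lit 0) (nat_lit 0) (nat_lit 0) (nat_lit 1) (nat_lit 0) (nat_lit 1) (nat_lit 0) (nat_lit 377) (nat_lit 448) (nat_lit 255)) (XT.lf (nat_lit 0) (nat_lit 937973341248) (nat_lit 0) (nat_lit 0) (nat_lit 0) (nat_lit 0) (nat_lit 0) (nat_lit 0) (nat_lit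 1) (nat_lit 0) (nat_lit 1) (nat_lit 0) (nat_lit 378) (nat_lit 448) (nat_lit 254))) (XT.nd (nat_lit 94) (nat_lit 0) (nat_lit 0) (XT.lf (nat_lit 0) (nat_lit 937973318463) (nat_lit 0) (nat_lit 0) (nat_lit 0) (nat_lit 0) (nat_lit 0) (nat_lit 0) (nat_lit 1) (nat_lit 0) (nat_lit 1) (nat_lit 0) (nat_lit 379) (nat_lit 448) (nat_lit 253)) (XT.nd (nat_lit 94) (nat_lit 0) (nat_lit 0) (XT.lf (nat_lit 0) (nat_lit 937973297366) (nat_lit 0) (nat_lit 0) (nat_lit 0) (nat_lit 0) (nat_lit 0) (nat_lit 0) (nat_lit 1) (nat_lit 0) (nat_lit 1) (nat_lit 0) (nat_lit 380) (nat_lit 448) (nat_lit 252)) (XT.lf (nat_lit 0) (nat_lit 937973277832) (nat_lit 0) (nat_lit 0) (nat_lit 0) (nat_lit 0) (nat_lit 0) (nat_lit 0) (nat_lit 1) (nat_lit 0) (nat_lit 1) (nat_lit 0) (nat_lit 381) (nat_lit 448) (nat_lit 251))))))))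
noncomputable def ec426 : XT := (XT.nd (nat_lit 1692) (nat_lit 0) (nat_lit 0) (XT.nd (nat_lit 846) (nat_lit 0) (nat_lit 0) (XT.nd (nat_lit 376) (nat_lit 0) (nat_lit 0) (XT.nd (nat_lit 188) (nat_lit 0) (nat_lit 0) (XT.nd (nat_lit 94) (nat_lit 0) (nat_lit 0) (XT.lf (nat_lit 0) (nat_lit 937973259744) (nat_lit 0) (nat_lit 0) (nat_lit 0) (nat_lit 0) (nat_lit 0) (nat_lit 0) (nat_lit 1) (nat_lit 0) (nat_lit 1) (nat_lit 0) (nat_lit 382) (nat_lit 448) (nat_lit 250)) (XT.lf (nat_lit 0) (nat_lit 937973242997) (nat_lit 0) (nat_lit 0) (nat_lit 0) (nat_lit 0) (nat_lit 0) (nat_lit 0) (nat_lit 1) (nat_lit 0) (nat_lit 1) (nat_lit 0) (nat_lit 383) (nat_lit 448) (nat_lit 249))) (XT.nd (nat_lit 94) (nat_lit 0) (nat_lit 0) (XT.lf (nat_lit 0) (nat_lit 937973227490) (nat_lit 0) (nat_lit 0) (nat_lit 0) (nat_lit 0) (nat_lit 0) (nat_lit 0) (nat_lit 1) (nat_lit 0) (nat_lit 1) (nat_lit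 0) (nat_lit 384) (nat_lit 448) (nat_lit 248)) (XT.lf (nat_lit 0) (nat_lit 937973213131) (nat_lit 0) (nat_lit 0) (nat_lit 0) (nat_lit 0) (nat_lit 0) (nat_lit 0) (nat_lit 1) (nat_lit 0) (nat_lit 1) (nat_lit 0) (nat_lit 385) (nat_lit 448) (nat_lit 247)))) (XT.nd (nat_lit 188) (nat_lit 0) (nat_lit 0) (XT.nd (nat_lit 94) (nat_lit 0) (nat_lit 0) (XT.lf (nat_lit 0) (nat_lit 937973199837) (nat_lit 0) (nat_lit 0) (nat_lit 0) (nat_lit 0) (nat_lit 0) (nat_lit 0) (nat_lit 1) (nat_lit 0) (nat_lit 1) (nat_lit 0) (nat_lit 386) (nat_lit 448) (nat_lit 246)) (XT.lf (nat_lit 0) (nat_lit 937973187527) (nat_lit 0) (nat_lit 0) (nat_lit 0) (nat_lit 0) (nat_lit 0) (nat_lit 0) (nat_lit 1) (nat_lit 0) (nat_lit 1) (nat_lit 0) (nat_lit 387) (nat_lit 448) (nat_lit 245))) (XT.nd (nat_lit 94) (nat_lit 0) (nat_lit 0) (XT.lf (nat_lit 0) (nat_lit 937973176128) (nat_lit 0) (nat_lit 0) (nat_lit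 0) (nat_lit 0) (nat_lit 0) (nat_lit 0) (nat_lit 1) (nat_lit 0) (nat_lit 1) (nat_lit 0) (nat_lit 388) (nat_lit 448) (nat_lit 244)) (XT.nd (nat_lit 94) (nat_lit 0) (nat_lit 0) (XT.lf (nat_lit 0) (nat_lit 937973165575) (nat_lit 0) (nat_lit 0) (nat_lit 0) (nat_lit 0) (nat_lit 0) (nat_lit 0) (nat_lit 1) (nat_lit 0) (nat_lit 1) (nat_lit 0) (nat_lit 389) (nat_lit 448) (nat_lit 243)) (XT.lf (nat_lit 0) (nat_lit 937973155803) (nat_lit 0) (nat_lit 0) (nat_lit 0) (nat_lit 0) (nat_lit 0) (nat_lit 0) (nat_lit 1) (nat_lit 0) (nat_lit 1) (nat_lit 0) (nat_lit 390) (nat_lit 448) (nat_lit 242)))))) (XT.nd (nat_lit 376) (nat_lit 0) (nat_lit 0) (XT.nd (nat_lit 188) (nat_lit 0) (nat_lit 0) (XT.nd (nat_lit 94) (nat_lit 0) (nat_lit 0) (XT.lf (nat_lit 0) (nat_lit 937973146754) (nat_lit 0) (nat_lit 0) (nat_lit 0) (nat_lit 0) (nat_lit 0) (nat_lit 0) (nat_lit 1) (nat_lit 0) (nat_lit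 1) (nat_lit 0) (nat_lit 391) (nat_lit 448) (nat_lit 241)) (XT.lf (nat_lit 0) (nat_lit 937973138376) (nat_lit 0) (nat_lit 0) (nat_lit 0) (nat_lit 0) (nat_lit 0) (nat_lit 0) (nat_lit 1) (nat_lit 0) (nat_lit 1) (nat_lit 0) (nat_lit 392) (nat_lit 448) (nat_lit 240))) (XT.nd (nat_lit 94) (nat_lit 0) (nat_lit 0) (XT.lf (nat_lit 0) (nat_lit 937973130619) (nat_lit 0) (nat_lit 0) (nat_lit 0) (nat_lit 0) (nat_lit 0) (nat_lit 0) (nat_lit 1) (nat_lit 0) (nat_lit 1) (nat_lit 0) (nat_lit 393) (nat_lit 448) (nat_lit 239)) (XT.lf (nat_lit 0) (nat_lit 937973123436) (nat_lit 0) (nat_lit 0) (nat_lit 0) (nat_lit 0) (nat_lit 0) (nat_lit 0) (nat_lit 1) (nat_lit 0) (nat_lit 1) (nat_lit 0) (nat_lit 394) (nat_lit 448) (nat_lit 238)))) (XT.nd (nat_lit 188) (nat_lit 0) (nat_lit 0) (XT.nd (nat_lit 94) (nat_lit 0) (nat_lit 0) (XT.lf (nat_lit 0) (nat_lit 937973116785) (nat_lit 0) (nat_lit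 0) (nat_lit 0) (nat_lit 0) (nat_lit 0) (nat_lit 0) (nat_lit 1) (nat_lit 0) (nat_lit 1) (nat_lit 0) (nat_lit 395) (nat_lit 448) (nat_lit 237)) (XT.lf (nat_lit 0) (nat_lit 937973110627) (nat_lit 0) (nat_lit 0) (nat_lit 0) (nat_lit 0) (nat_lit 0) (nat_lit 0) (nat_lit 1) (nat_lit 0) (nat_lit 1) (nat_lit 0) (nat_lit 396) (nat_lit 448) (nat_lit 236))) (XT.nd (nat_lit 94) (nat_lit 0) (nat_lit 0) (XT.lf (nat_lit 0) (nat_lit 937973104926) (nat_lit 0) (nat_lit 0) (nat_lit 0) (nat_lit 0) (nat_lit 0) (nat_lit 0) (nat_lit 1) (nat_lit 0) (nat_lit 1) (nat_lit 0) (nat_lit 397) (nat_lit 448) (nat_lit 235)) (XT.nd (nat_lit 94) (nat_lit 0) (nat_lit 0) (XT.lf (nat_lit 0) (nat_lit 937973099646) (nat_lit 0) (nat_lit 0) (nat_lit 0) (nat_lit 0) (nat_lit 0) (nat_lit 0) (nat_lit 1) (nat_lit 0) (nat_lit 1) (nat_lit 0) (nat_lit 398) (nat_lit 448) (nat_lit 234)) (XT.lf (nat_lit 0) (nat_lit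 937973094757) (nat_lit 0) (nat_lit 0) (nat_lit 0) (nat_lit 0) (nat_lit 0) (nat_lit 0) (nat_lit 1) (nat_lit 0) (nat_lit 1) (nat_lit 0) (nat_lit 399) (nat_lit 448) (nat_lit 233))))))) (XT.nd (nat_lit 846) (nat_lit 0) (nat_lit 0) (XT.nd (nat_lit 376) (nat_lit 0) (nat_lit 0) (XT.nd (nat_lit 188) (nat_lit 0) (nat_lit 0) (XT.nd (nat_lit 94) (nat_lit 0) (nat_lit 0) (XT.lf (nat_lit 0) (nat_lit 937973090231) (nat_lit 0) (nat_lit 0) (nat_lit 0) (nat_lit 0) (nat_lit 0) (nat_lit 0) (nat_lit 1) (nat_lit 0) (nat_lit 1) (nat_lit 0) (nat_lit 400) (nat_lit 448) (nat_lit 232)) (XT.lf (nat_lit 0) (nat_lit 937973086040) (nat_lit 0) (nat_lit 0) (nat_lit 0) (nat_lit 0) (nat_lit 0) (nat_lit 0) (nat_lit 1) (nat_lit 0) (nat_lit 1) (nat_lit 0) (nat_lit 401) (nat_lit 448) (nat_lit 231))) (XT.nd (nat_lit 94) (nat_lit 0) (nat_lit 0) (XT.lf (nat_lit 0) (nat_lit 937973082159) (nat_lit 0)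 (nat_lit 0) (nat_lit 0) (nat_lit 0) (nat_lit 0) (nat_lit 0) (nat_lit 1) (nat_lit 0) (nat_lit 1) (nat_lit 0) (nat_lit 402) (nat_lit 448) (nat_lit 230)) (XT.lf (nat_lit 0) (nat_lit 937973078566) (nat_lit 0) (nat_lit 0) (nat_lit 0) (nat_lit 0) (nat_lit 0) (nat_lit 0) (nat_lit 1) (nat_lit 0) (nat_lit 1) (nat_lit 0) (nat_lit 403) (nat_lit 448) (nat_lit 229)))) (XT.nd (nat_lit 188) (nat_lit 0) (nat_lit 0) (XT.nd (nat_lit 94) (nat_lit 0) (nat_lit 0) (XT.lf (nat_lit 0) (nat_lit 937973075239) (nat_lit 0) (nat_lit 0) (nat_lit 0) (nat_lit 0) (nat_lit 0) (nat_lit 0) (nat_lit 1) (nat_lit 0) (nat_lit 1) (nat_lit 0) (nat_lit 404) (nat_lit 448) (nat_lit 228)) (XT.lf (nat_lit 0) (nat_lit 937973072159) (nat_lit 0) (nat_lit 0) (nat_lit 0) (nat_lit 0) (nat_lit 0) (nat_lit 0) (nat_lit 1) (nat_lit 0) (nat_lit 1) (nat_lit 0) (nat_lit 405) (nat_lit 448) (nat_lit 227))) (XT.nd (nat_lit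 94) (nat_lit 0) (nat_lit 0) (XT.lf (nat_lit 0) (nat_lit 937973069306) (nat_lit 0) (nat_lit 0) (nat_lit 0) (nat_lit 0) (nat_lit 0) (nat_lit 0) (nat_lit 1) (nat_lit 0) (nat_lit 1) (nat_lit 0) (nat_lit 406) (nat_lit 448) (nat_lit 226)) (XT.nd (nat_lit 94) (nat_lit 0) (nat_lit 0) (XT.lf (nat_lit 0) (nat_lit 937973066665) (nat_lit 0) (nat_lit 0) (nat_lit 0) (nat_lit 0) (nat_lit 0) (nat_lit 0) (nat_lit 1) (nat_lit 0) (nat_lit 1) (nat_lit 0) (nat_lit 407) (nat_lit 448) (nat_lit 225)) (XT.lf (nat_lit 0) (nat_lit 937973064220) (nat_lit 0) (nat_lit 0) (nat_lit 0) (nat_lit 0) (nat_lit 0) (nat_lit 0) (nat_lit 1) (nat_lit 0) (nat_lit 1) (nat_lit 0) (nat_lit 408) (nat_lit 448) (nat_lit 224)))))) (XT.nd (nat_lit 470) (nat_lit 0) (nat_lit 0) (XT.nd (nat_lit 188) (nat_lit 0) (nat_lit 0) (XT.nd (nat_lit 94) (nat_lit 0) (nat_lit 0) (XT.lf (nat_lit 0) (nat_lit 937973061955) (nat_lit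 0) (nat_lit 0) (nat_lit 0) (nat_lit 0) (nat_lit 0) (nat_lit 0) (nat_lit 1) (nat_lit 0) (nat_lit 1) (nat_lit 0) (nat_lit 409) (nat_lit 448) (nat_lit 223)) (XT.lf (nat_lit 0) (nat_lit 937973059859) (nat_lit 0) (nat_lit 0) (nat_lit 0) (nat_lit 0) (nat_lit 0) (nat_lit 0) (nat_lit 1) (nat_lit 0) (nat_lit 1) (nat_lit 0) (nat_lit 410) (nat_lit 448) (nat_lit 222))) (XT.nd (nat_lit 94) (nat_lit 0) (nat_lit 0) (XT.lf (nat_lit 0) (nat_lit 937973057918) (nat_lit 0) (nat_lit 0) (nat_lit 0) (nat_lit 0) (nat_lit 0) (nat_lit 0) (nat_lit 1) (nat_lit 0) (nat_lit 1) (nat_lit 0) (nat_lit 411) (nat_lit 448) (nat_lit 221)) (XT.nd (nat_lit 94) (nat_lit 0) (nat_lit 0) (XT.lf (nat_lit 0) (nat_lit 937973056120) (nat_lit 0) (nat_lit 0) (nat_lit 0) (nat_lit 0) (nat_lit 0) (nat_lit 0) (nat_lit 1) (nat_lit 0) (nat_lit 1) (nat_lit 0) (nat_lit 412) (nat_lit 448) (nat_lit 220)) (XT.lf (nat_lit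 0) (nat_lit 937973054456) (nat_lit 0) (nat_lit 0) (nat_lit 0) (nat_lit 0) (nat_lit 0) (nat_lit 0) (nat_lit 1) (nat_lit 0) (nat_lit 1) (nat_lit 0) (nat_lit 413) (nat_lit 448) (nat_lit 219))))) (XT.nd (nat_lit 188) (nat_lit 0) (nat_lit 0) (XT.nd (nat_lit 94) (nat_lit 0) (nat_lit 0) (XT.lf (nat_lit 0) (nat_lit 937973052915) (nat_lit 0) (nat_lit 0) (nat_lit 0) (nat_lit 0) (nat_lit 0) (nat_lit 0) (nat_lit 1) (nat_lit 0) (nat_lit 1) (nat_lit 0) (nat_lit 414) (nat_lit 448) (nat_lit 218)) (XT.lf (nat_lit 0) (nat_lit 937973051488) (nat_lit 0) (nat_lit 0) (nat_lit 0) (nat_lit 0) (nat_lit 0) (nat_lit 0) (nat_lit 1) (nat_lit 0) (nat_lit 1) (nat_lit 0) (nat_lit 415) (nat_lit 448) (nat_lit 217))) (XT.nd (nat_lit 94) (nat_lit 0) (nat_lit 0) (XT.lf (nat_lit 0) (nat_lit 937973050167) (nat_lit 0) (nat_lit 0) (nat_lit 0) (nat_lit 0) (nat_lit 0) (nat_lit 0) (nat_lit 1) (nat_lit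 0) (nat_lit 1) (nat_lit 0) (nat_lit 416) (nat_lit 448) (nat_lit 216)) (XT.nd (nat_lit 94) (nat_lit 0) (nat_lit 0) (XT.lf (nat_lit 0) (nat_lit 937973048943) (nat_lit 0) (nat_lit 0) (nat_lit 0) (nat_lit 0) (nat_lit 0) (nat_lit 0) (nat_lit 1) (nat_lit 0) (nat_lit 1) (nat_lit 0) (nat_lit 417) (nat_lit 448) (nat_lit 215)) (XT.lf (nat_lit 0) (nat_lit 937973047811) (nat_lit 0) (nat_lit 0) (nat_lit 0) (nat_lit 0) (nat_lit 0) (nat_lit 0) (nat_lit 1) (nat_lit 0) (nat_lit 1) (nat_lit 0) (nat_lit 418) (nat_lit 448) (nat_lit 214))))))))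
noncomputable def ec427 : XT := (XT.nd (nat_lit 1786) (nat_lit 0) (nat_lit 0) (XT.nd (nat_lit 846) (nat_lit 0) (nat_lit 0) (XT.nd (nat_lit 376) (nat_lit 0) (nat_lit 0) (XT.nd (nat_lit 188) (nat_lit 0) (nat_lit 0) (XT.nd (nat_lit 94) (nat_lit 0) (nat_lit 0) (XT.lf (nat_lit 0) (nat_lit 937973046762) (nat_lit 0) (nat_lit 0) (nat_lit 0) (nat_lit 0) (nat_lit 0) (nat_lit 0) (nat_lit 1) (nat_lit 0) (nat_lit 1) (nat_lit 0) (nat_lit 419) (nat_lit 448) (nat_lit 213)) (XT.lf (nat_lit 0) (nat_lit 937973045791) (nat_lit 0) (nat_lit 0) (nat_lit 0) (nat_lit 0) (nat_lit 0) (nat_lit 0) (nat_lit 1) (nat_lit 0) (nat_lit 1) (nat_lit 0) (nat_lit 420) (nat_lit 448) (nat_lit 212))) (XT.nd (nat_lit 94) (nat_lit 0) (nat_lit 0) (XT.lf (nat_lit 0) (nat_lit 937973044891) (nat_lit 0) (nat_lit 0) (nat_lit 0) (nat_lit 0) (nat_lit 0) (nat_lit 0) (nat_lit 1) (nat_lit 0) (nat_lit 1) (nat_lit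 0) (nat_lit 421) (nat_lit 448) (nat_lit 211)) (XT.lf (nat_lit 0) (nat_lit 937973044059) (nat_lit 0) (nat_lit 0) (nat_lit 0) (nat_lit 0) (nat_lit 0) (nat_lit 0) (nat_lit 1) (nat_lit 0) (nat_lit 1) (nat_lit 0) (nat_lit 422) (nat_lit 448) (nat_lit 210)))) (XT.nd (nat_lit 188) (nat_lit 0) (nat_lit 0) (XT.nd (nat_lit 94) (nat_lit 0) (nat_lit 0) (XT.lf (nat_lit 0) (nat_lit 937973043288) (nat_lit 0) (nat_lit 0) (nat_lit 0) (nat_lit 0) (nat_lit 0) (nat_lit 0) (nat_lit 1) (nat_lit 0) (nat_lit 1) (nat_lit 0) (nat_lit 423) (nat_lit 448) (nat_lit 209)) (XT.lf (nat_lit 0) (nat_lit 937973042574) (nat_lit 0) (nat_lit 0) (nat_lit 0) (nat_lit 0) (nat_lit 0) (nat_lit 0) (nat_lit 1) (nat_lit 0) (nat_lit 1) (nat_lit 0) (nat_lit 424) (nat_lit 448) (nat_lit 208))) (XT.nd (nat_lit 94) (nat_lit 0) (nat_lit 0) (XT.lf (nat_lit 0) (nat_lit 937973041913) (nat_lit 0) (nat_lit 0) (nat_lit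 0) (nat_lit 0) (nat_lit 0) (nat_lit 0) (nat_lit 1) (nat_lit 0) (nat_lit 1) (nat_lit 0) (nat_lit 425) (nat_lit 448) (nat_lit 207)) (XT.nd (nat_lit 94) (nat_lit 0) (nat_lit 0) (XT.lf (nat_lit 0) (nat_lit 937973041301) (nat_lit 0) (nat_lit 0) (nat_lit 0) (nat_lit 0) (nat_lit 0) (nat_lit 0) (nat_lit 1) (nat_lit 0) (nat_lit 1) (nat_lit 0) (nat_lit 426) (nat_lit 448) (nat_lit 206)) (XT.lf (nat_lit 0) (nat_lit 937973040735) (nat_lit 0) (nat_lit 0) (nat_lit 0) (nat_lit 0) (nat_lit 0) (nat_lit 0) (nat_lit 1) (nat_lit 0) (nat_lit 1) (nat_lit 0) (nat_lit 427) (nat_lit 448) (nat_lit 205)))))) (XT.nd (nat_lit 470) (nat_lit 0) (nat_lit 0) (XT.nd (nat_lit 188) (nat_lit 0) (nat_lit 0) (XT.nd (nat_lit 94) (nat_lit 0) (nat_lit 0) (XT.lf (nat_lit 0) (nat_lit 937973040210) (nat_lit 0) (nat_lit 0) (nat_lit 0) (nat_lit 0) (nat_lit 0) (nat_lit 0) (nat_lit 1) (nat_lit 0) (nat_lit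 1) (nat_lit 0) (nat_lit 428) (nat_lit 448) (nat_lit 204)) (XT.lf (nat_lit 0) (nat_lit 937973039724) (nat_lit 0) (nat_lit 0) (nat_lit 0) (nat_lit 0) (nat_lit 0) (nat_lit 0) (nat_lit 1) (nat_lit 0) (nat_lit 1) (nat_lit 0) (nat_lit 429) (nat_lit 448) (nat_lit 203))) (XT.nd (nat_lit 94) (nat_lit 0) (nat_lit 0) (XT.lf (nat_lit 0) (nat_lit 937973039274) (nat_lit 0) (nat_lit 0) (nat_lit 0) (nat_lit 0) (nat_lit 0) (nat_lit 0) (nat_lit 1) (nat_lit 0) (nat_lit 1) (nat_lit 0) (nat_lit 430) (nat_lit 448) (nat_lit 202)) (XT.nd (nat_lit 94) (nat_lit 0) (nat_lit 0) (XT.lf (nat_lit 0) (nat_lit 937973038858) (nat_lit 0) (nat_lit 0) (nat_lit 0) (nat_lit 0) (nat_lit 0) (nat_lit 0) (nat_lit 1) (nat_lit 0) (nat_lit 1) (nat_lit 0) (nat_lit 431) (nat_lit 448) (nat_lit 201)) (XT.lf (nat_lit 0) (nat_lit 937973038472) (nat_lit 0) (nat_lit 0) (nat_lit 0) (nat_lit 0) (nat_lit 0) (nat_lit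 0) (nat_lit 1) (nat_lit 0) (nat_lit 1) (nat_lit 0) (nat_lit 432) (nat_lit 448) (nat_lit 200))))) (XT.nd (nat_lit 188) (nat_lit 0) (nat_lit 0) (XT.nd (nat_lit 94) (nat_lit 0) (nat_lit 0) (XT.lf (nat_lit 0) (nat_lit 937973038115) (nat_lit 0) (nat_lit 0) (nat_lit 0) (nat_lit 0) (nat_lit 0) (nat_lit 0) (nat_lit 1) (nat_lit 0) (nat_lit 1) (nat_lit 0) (nat_lit 433) (nat_lit 448) (nat_lit 199)) (XT.lf (nat_lit 0) (nat_lit 937973037784) (nat_lit 0) (nat_lit 0) (nat_lit 0) (nat_lit 0) (nat_lit 0) (nat_lit 0) (nat_lit 1) (nat_lit 0) (nat_lit 1) (nat_lit 0) (nat_lit 434) (nat_lit 448) (nat_lit 198))) (XT.nd (nat_lit 94) (nat_lit 0) (nat_lit 0) (XT.lf (nat_lit 0) (nat_lit 937973037478) (nat_lit 0) (nat_lit 0) (nat_lit 0) (nat_lit 0) (nat_lit 0) (nat_lit 0) (nat_lit 1) (nat_lit 0) (nat_lit 1) (nat_lit 0) (nat_lit 435) (nat_lit 448) (nat_lit 197)) (XT.nd (nat_lit 94) (nat_lit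 0) (nat_lit 0) (XT.lf (nat_lit 0) (nat_lit 937973037195) (nat_lit 0) (nat_lit 0) (nat_lit 0) (nat_lit 0) (nat_lit 0) (nat_lit 0) (nat_lit 1) (nat_lit 0) (nat_lit 1) (nat_lit 0) (nat_lit 436) (nat_lit 448) (nat_lit 196)) (XT.lf (nat_lit 0) (nat_lit 937973036932) (nat_lit 0) (nat_lit 0) (nat_lit 0) (nat_lit 0) (nat_lit 0) (nat_lit 0) (nat_lit 1) (nat_lit 0) (nat_lit 1) (nat_lit 0) (nat_lit 437) (nat_lit 448) (nat_lit 195))))))) (XT.nd (nat_lit 846) (nat_lit 0) (nat_lit 0) (XT.nd (nat_lit 376) (nat_lit 0) (nat_lit 0) (XT.nd (nat_lit 188) (nat_lit 0) (nat_lit 0) (XT.nd (nat_lit 94) (nat_lit 0) (nat_lit 0) (XT.lf (nat_lit 0) (nat_lit 937973036689) (nat_lit 0) (nat_lit 0) (nat_lit 0) (nat_lit 0) (nat_lit 0) (nat_lit 0) (nat_lit 1) (nat_lit 0) (nat_lit 1) (nat_lit 0) (nat_lit 438) (nat_lit 448) (nat_lit 194)) (XT.lf (nat_lit 0) (nat_lit 937973036464) (nat_lit 0)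 (nat_lit 0) (nat_lit 0) (nat_lit 0) (nat_lit 0) (nat_lit 0) (nat_lit 1) (nat_lit 0) (nat_lit 1) (nat_lit 0) (nat_lit 439) (nat_lit 448) (nat_lit 193))) (XT.nd (nat_lit 94) (nat_lit 0) (nat_lit 0) (XT.lf (nat_lit 0) (nat_lit 937973036256) (nat_lit 0) (nat_lit 0) (nat_lit 0) (nat_lit 0) (nat_lit 0) (nat_lit 0) (nat_lit 1) (nat_lit 0) (nat_lit 1) (nat_lit 0) (nat_lit 440) (nat_lit 448) (nat_lit 192)) (XT.lf (nat_lit 0) (nat_lit 937973036063) (nat_lit 0) (nat_lit 0) (nat_lit 0) (nat_lit 0) (nat_lit 0) (nat_lit 0) (nat_lit 1) (nat_lit 0) (nat_lit 1) (nat_lit 0) (nat_lit 441) (nat_lit 448) (nat_lit 191)))) (XT.nd (nat_lit 188) (nat_lit 0) (nat_lit 0) (XT.nd (nat_lit 94) (nat_lit 0) (nat_lit 0) (XT.lf (nat_lit 0) (nat_lit 937973035884) (nat_lit 0) (nat_lit 0) (nat_lit 0) (nat_lit 0) (nat_lit 0) (nat_lit 0) (nat_lit 1) (nat_lit 0) (nat_lit 1) (nat_lit 0) (nat_lit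 442) (nat_lit 448) (nat_lit 190)) (XT.lf (nat_lit 0) (nat_lit 937973035719) (nat_lit 0) (nat_lit 0) (nat_lit 0) (nat_lit 0) (nat_lit 0) (nat_lit 0) (nat_lit 1) (nat_lit 0) (nat_lit 1) (nat_lit 0) (nat_lit 443) (nat_lit 448) (nat_lit 189))) (XT.nd (nat_lit 94) (nat_lit 0) (nat_lit 0) (XT.lf (nat_lit 0) (nat_lit 937973035566) (nat_lit 0) (nat_lit 0) (nat_lit 0) (nat_lit 0) (nat_lit 0) (nat_lit 0) (nat_lit 1) (nat_lit 0) (nat_lit 1) (nat_lit 0) (nat_lit 444) (nat_lit 448) (nat_lit 188)) (XT.nd (nat_lit 94) (nat_lit 0) (nat_lit 0) (XT.lf (nat_lit 0) (nat_lit 937973035424) (nat_lit 0) (nat_lit 0) (nat_lit 0) (nat_lit 0) (nat_lit 0) (nat_lit 0) (nat_lit 1) (nat_lit 0) (nat_lit 1) (nat_lit 0) (nat_lit 445) (nat_lit 448) (nat_lit 187)) (XT.lf (nat_lit 0) (nat_lit 937973035293) (nat_lit 0) (nat_lit 0) (nat_lit 0) (nat_lit 0) (nat_lit 0) (nat_lit 0) (nat_lit 1) (nat_lit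 0) (nat_lit 1) (nat_lit 0) (nat_lit 446) (nat_lit 448) (nat_lit 186)))))) (XT.nd (nat_lit 42864) (nat_lit 0) (nat_lit 10752) (XT.nd (nat_lit 188) (nat_lit 0) (nat_lit 0) (XT.nd (nat_lit 94) (nat_lit 0) (nat_lit 0) (XT.lf (nat_lit 0) (nat_lit 937973035171) (nat_lit 0) (nat_lit 0) (nat_lit 0) (nat_lit 0) (nat_lit 0) (nat_lit 0) (nat_lit 1) (nat_lit 0) (nat_lit 1) (nat_lit 0) (nat_lit 447) (nat_lit 448) (nat_lit 185)) (XT.lf (nat_lit 0) (nat_lit 937973035059) (nat_lit 0) (nat_lit 0) (nat_lit 0) (nat_lit 0) (nat_lit 0) (nat_lit 0) (nat_lit 1) (nat_lit 0) (nat_lit 1) (nat_lit 0) (nat_lit 448) (nat_lit 448) (nat_lit 184))) (XT.nd (nat_lit 94) (nat_lit 0) (nat_lit 0) (XT.lf (nat_lit 0) (nat_lit 937973034954) (nat_lit 0) (nat_lit 0) (nat_lit 0) (nat_lit 0) (nat_lit 0) (nat_lit 0) (nat_lit 1) (nat_lit 0) (nat_lit 1) (nat_lit 0) (nat_lit 449) (nat_lit 448) (nat_lit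 183)) (XT.nd (nat_lit 94) (nat_lit 0) (nat_lit 0) (XT.lf (nat_lit 0) (nat_lit 937973034858) (nat_lit 0) (nat_lit 0) (nat_lit 0) (nat_lit 0) (nat_lit 0) (nat_lit 0) (nat_lit 1) (nat_lit 0) (nat_lit 1) (nat_lit 0) (nat_lit 450) (nat_lit 448) (nat_lit 182)) (XT.lf (nat_lit 0) (nat_lit 937973034769) (nat_lit 0) (nat_lit 0) (nat_lit 0) (nat_lit 0) (nat_lit 0) (nat_lit 0) (nat_lit 1) (nat_lit 0) (nat_lit 1) (nat_lit 0) (nat_lit 451) (nat_lit 448) (nat_lit 181))))) (XT.nd (nat_lit 188) (nat_lit 0) (nat_lit 84) (XT.nd (nat_lit 94) (nat_lit 0) (nat_lit 84) (XT.lf (nat_lit 924) (nat_lit 506948587479) (nat_lit 0) (nat_lit 900086051802) (nat_lit 924) (nat_lit 506948587479) (nat_lit 139) (nat_lit 1) (nat_lit 128) (nat_lit 0) (nat_lit 139) (nat_lit 0) (nat_lit 182) (nat_lit 449) (nat_lit 449)) (XT.lf (nat_lit 924) (nat_lit 189107378409) (nat_lit 0) (nat_lit 1767141714410)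 (nat_lit 840) (nat_lit 1728258692802) (nat_lit 140) (nat_lit 1) (nat_lit 129) (nat_lit 1) (nat_lit 139) (nat_lit 1) (nat_lit 183) (nat_lit 449) (nat_lit 448))) (XT.nd (nat_lit 94) (nat_lit 0) (nat_lit 84) (XT.lf (nat_lit 924) (nat_lit 1736842116335) (nat_lit 84) (nat_lit 1183455401804) (nat_lit 0) (nat_lit 627650760496) (nat_lit 140) (nat_lit 1) (nat_lit 130) (nat_lit 1) (nat_lit 129) (nat_lit 1) (nat_lit 184) (nat_lit 449) (nat_lit 447)) (XT.nd (nat_lit 94) (nat_lit 0) (nat_lit 84) (XT.lf (nat_lit 924) (nat_lit 1500773872668) (nat_lit 84) (nat_lit 495977955959) (nat_lit 0) (nat_lit 1421470727124) (nat_lit 141) (nat_lit 1) (nat_lit 131) (nat_lit 1) (nat_lit 130) (nat_lit 1) (nat_lit 185) (nat_lit 449) (nat_lit 446)) (XT.lf (nat_lit 924) (nat_lit 1110700257138) (nat_lit 0) (nat_lit 2078067680577) (nat_lit 840) (nat_lit 106230522935) (nat_lit 142) (nat_lit 1)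 (nat_lit 131) (nat_lit 1) (nat_lit 141) (nat_lit 1) (nat_lit 186) (nat_lit 449) (nat_lit 445))))))))
noncomputable def ec428 : XT := (XT.nd (nat_lit 1692) (nat_lit 3444) (nat_lit 0) (XT.nd (nat_lit 846) (nat_lit 2604) (nat_lit 0) (XT.nd (nat_lit 376) (nat_lit 1596) (nat_lit 0) (XT.nd (nat_lit 188) (nat_lit 1344) (nat_lit 0) (XT.nd (nat_lit 94) (nat_lit 0) (nat_lit 0) (XT.lf (nat_lit 924) (nat_lit 266501636584) (nat_lit 0) (nat_lit 2291646927426) (nat_lit 840) (nat_lit 619510614644) (nat_lit 143) (nat_lit 1) (nat_lit 132) (nat_lit 1) (nat_lit 142) (nat_lit 1) (nat_lit 187) (nat_lit 449) (nat_lit 444)) (XT.lf (nat_lit 924) (nat_lit 512107750125) (nat_lit 84) (nat_lit 1991627796752) (nat_lit 0) (nat_lit 562061936263) (nat_lit 143) (nat_lit 1) (nat_lit 133) (nat_lit 1) (nat_lit 132) (nat_lit 1) (nat_lit 188) (nat_lit 449) (nat_lit 443))) (XT.nd (nat_lit 94) (nat_lit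 588) (nat_lit 0) (XT.lf (nat_lit 924) (nat_lit 105175254252) (nat_lit 0) (nat_lit 1488873519187) (nat_lit 840) (nat_lit 1365281416920) (nat_lit 134) (nat_lit 1) (nat_lit 123) (nat_lit 1) (nat_lit 133) (nat_lit 1) (nat_lit 189) (nat_lit 449) (nat_lit 442)) (XT.lf (nat_lit 84) (nat_lit 728255369318) (nat_lit 0) (nat_lit 315586941785) (nat_lit 588) (nat_lit 1814061709984) (nat_lit 117) (nat_lit 1) (nat_lit 116) (nat_lit 1) (nat_lit 123) (nat_lit 1) (nat_lit 190) (nat_lit 449) (nat_lit 441)))) (XT.nd (nat_lit 188) (nat_lit 756) (nat_lit 0) (XT.nd (nat_lit 94) (nat_lit 420) (nat_lit 0) (XT.lf (nat_lit 504) (nat_lit 2006980134664) (nat_lit 0) (nat_lit 653315300832) (nat_lit 420) (nat_lit 101006582283) (nat_lit 117) (nat_lit 1) (nat_lit 111) (nat_lit 1) (nat_lit 116) (nat_lit 1) (nat_lit 191) (nat_lit 449) (nat_lit 440)) (XT.lf (nat_lit 504) (nat_lit 1448255977087)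 (nat_lit 0) (nat_lit 304513075967) (nat_lit 420) (nat_lit 916084674820) (nat_lit 112) (nat_lit 1) (nat_lit 106) (nat_lit 1) (nat_lit 111) (nat_lit 1) (nat_lit 192) (nat_lit 449) (nat_lit 439))) (XT.nd (nat_lit 94) (nat_lit 420) (nat_lit 0) (XT.lf (nat_lit 420) (nat_lit 881245291090) (nat_lit 0) (nat_lit 5606580589) (nat_lit 336) (nat_lit 1694036182858) (nat_lit 107) (nat_lit 1) (nat_lit 102) (nat_lit 1) (nat_lit 106) (nat_lit 1) (nat_lit 193) (nat_lit 449) (nat_lit 438)) (XT.nd (nat_lit 94) (nat_lit 420) (nat_lit 0) (XT.lf (nat_lit 84) (nat_lit 65014112822) (nat_lit 0) (nat_lit 2192590915683) (nat_lit 420) (nat_lit 239363930731) (nat_lit 103) (nat_lit 1) (nat_lit 102) (nat_lit 1) (nat_lit 107) (nat_lit 1) (nat_lit 194) (nat_lit 449) (nat_lit 437)) (XT.lf (nat_lit 84) (nat_lit 1678681255779) (nat_lit 0) (nat_lit 278427248051) (nat_lit 420) (nat_lit 459177098258)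 (nat_lit 98) (nat_lit 1) (nat_lit 97) (nat_lit 1) (nat_lit 102) (nat_lit 1) (nat_lit 195) (nat_lit 449) (nat_lit 436)))))) (XT.nd (nat_lit 376) (nat_lit 1260) (nat_lit 0) (XT.nd (nat_lit 188) (nat_lit 672) (nat_lit 0) (XT.nd (nat_lit 94) (nat_lit 336) (nat_lit 0) (XT.lf (nat_lit 84) (nat_lit 839886771137) (nat_lit 0) (nat_lit 852872086135) (nat_lit 420) (nat_lit 646408389768) (nat_lit 94) (nat_lit 1) (nat_lit 93) (nat_lit 1) (nat_lit 98) (nat_lit 1) (nat_lit 196) (nat_lit 449) (nat_lit 435)) (XT.lf (nat_lit 84) (nat_lit 41454948607) (nat_lit 0) (nat_lit 1425988884796) (nat_lit 420) (nat_lit 798256357831) (nat_lit 90) (nat_lit 1) (nat_lit 89) (nat_lit 1) (nat_lit 94) (nat_lit 1) (nat_lit 197) (nat_lit 449) (nat_lit 434))) (XT.nd (nat_lit 94) (nat_lit 420) (nat_lit 0) (XT.lf (nat_lit 336) (nat_lit 187208211520) (nat_lit 0) (nat_lit 1265999523671) (nat_lit 252)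 (nat_lit 741904816714) (nat_lit 90) (nat_lit 1) (nat_lit 86) (nat_lit 1) (nat_lit 89) (nat_lit 1) (nat_lit 198) (nat_lit 449) (nat_lit 433)) (XT.lf (nat_lit 84) (nat_lit 646854703548) (nat_lit 0) (nat_lit 443358233191) (nat_lit 420) (nat_lit 1037228079191) (nat_lit 82) (nat_lit 1) (nat_lit 81) (nat_lit 1) (nat_lit 86) (nat_lit 1) (nat_lit 199) (nat_lit 449) (nat_lit 432)))) (XT.nd (nat_lit 188) (nat_lit 756) (nat_lit 0) (XT.nd (nat_lit 94) (nat_lit 252) (nat_lit 0) (XT.lf (nat_lit 336) (nat_lit 1001486669826) (nat_lit 0) (nat_lit 940767287197) (nat_lit 252) (nat_lit 120417096234) (nat_lit 82) (nat_lit 1) (nat_lit 78) (nat_lit 1) (nat_lit 81) (nat_lit 1) (nat_lit 200) (nat_lit 449) (nat_lit 431)) (XT.lf (nat_lit 336) (nat_lit 320971639435) (nat_lit 0) (nat_lit 809962110233) (nat_lit 252) (nat_lit 869456468666) (nat_lit 79) (nat_lit 1) (nat_lit 75) (nat_lit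 1) (nat_lit 78) (nat_lit 1) (nat_lit 201) (nat_lit 449) (nat_lit 430))) (XT.nd (nat_lit 94) (nat_lit 420) (nat_lit 0) (XT.lf (nat_lit 84) (nat_lit 365830111868) (nat_lit 0) (nat_lit 334949258758) (nat_lit 336) (nat_lit 1239916653130) (nat_lit 72) (nat_lit 1) (nat_lit 71) (nat_lit 1) (nat_lit 75) (nat_lit 1) (nat_lit 202) (nat_lit 449) (nat_lit 429)) (XT.nd (nat_lit 94) (nat_lit 168) (nat_lit 0) (XT.lf (nat_lit 336) (nat_lit 910320218300) (nat_lit 0) (nat_lit 605693339400) (nat_lit 252) (nat_lit 367173293765) (nat_lit 72) (nat_lit 1) (nat_lit 68) (nat_lit 1) (nat_lit 71) (nat_lit 1) (nat_lit 203) (nat_lit 449) (nat_lit 428)) (XT.lf (nat_lit 252) (nat_lit 225669726266) (nat_lit 0) (nat_lit 528423259233) (nat_lit 168) (nat_lit 1073904774131) (nat_lit 69) (nat_lit 1) (nat_lit 66) (nat_lit 1) (nat_lit 68) (nat_lit 1) (nat_lit 204) (nat_lit 449) (nat_lit 427)))))))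 (XT.nd (nat_lit 846) (nat_lit 1596) (nat_lit 0) (XT.nd (nat_lit 376) (nat_lit 924) (nat_lit 0) (XT.nd (nat_lit 188) (nat_lit 420) (nat_lit 0) (XT.nd (nat_lit 94) (nat_lit 168) (nat_lit 0) (XT.lf (nat_lit 84) (nat_lit 38229893383) (nat_lit 0) (nat_lit 427800806249) (nat_lit 336) (nat_lit 1308917242751) (nat_lit 63) (nat_lit 1) (nat_lit 62) (nat_lit 1) (nat_lit 66) (nat_lit 1) (nat_lit 205) (nat_lit 449) (nat_lit 426)) (XT.lf (nat_lit 252) (nat_lit 655754817050) (nat_lit 0) (nat_lit 409790503558) (nat_lit 168) (nat_lit 658036850413) (nat_lit 63) (nat_lit 1) (nat_lit 60) (nat_lit 1) (nat_lit 62) (nat_lit 1) (nat_lit 206) (nat_lit 449) (nat_lit 425))) (XT.nd (nat_lit 94) (nat_lit 168) (nat_lit 0) (XT.lf (nat_lit 84) (nat_lit 355785159570) (nat_lit 0) (nat_lit 16433939578) (nat_lit 252) (nat_lit 1302238725780) (nat_lit 58) (nat_lit 1) (nat_lit 57) (nat_lit 1) (nat_lit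 60) (nat_lit 1) (nat_lit 207) (nat_lit 449) (nat_lit 424)) (XT.lf (nat_lit 252) (nat_lit 972647922512) (nat_lit 0) (nat_lit 337044313746) (nat_lit 168) (nat_lit 317070234835) (nat_lit 58) (nat_lit 1) (nat_lit 55) (nat_lit 1) (nat_lit 57) (nat_lit 1) (nat_lit 208) (nat_lit 449) (nat_lit 423)))) (XT.nd (nat_lit 188) (nat_lit 504) (nat_lit 0) (XT.nd (nat_lit 94) (nat_lit 252) (nat_lit 0) (XT.lf (nat_lit 252) (nat_lit 302143421457) (nat_lit 0) (nat_lit 313319960555) (nat_lit 168) (nat_lit 965427337370) (nat_lit 56) (nat_lit 1) (nat_lit 53) (nat_lit 1) (nat_lit 55) (nat_lit 1) (nat_lit 209) (nat_lit 449) (nat_lit 422)) (XT.lf (nat_lit 252) (nat_lit 1199398342349) (nat_lit 0) (nat_lit 299351791676) (nat_lit 168) (nat_lit 37976247756) (nat_lit 53) (nat_lit 1) (nat_lit 50) (nat_lit 1) (nat_lit 52) (nat_lit 1) (nat_lit 210) (nat_lit 449) (nat_lit 421))) (XT.nd (nat_lit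 94) (nat_lit 336) (nat_lit 0) (XT.lf (nat_lit 252) (nat_lit 536795110622) (nat_lit 0) (nat_lit 285780035573) (nat_lit 168) (nat_lit 671214085525) (nat_lit 51) (nat_lit 1) (nat_lit 48) (nat_lit 1) (nat_lit 50) (nat_lit 1) (nat_lit 211) (nat_lit 449) (nat_lit 420)) (XT.nd (nat_lit 94) (nat_lit 168) (nat_lit 0) (XT.lf (nat_lit 84) (nat_lit 183873050469) (nat_lit 0) (nat_lit 101064914102) (nat_lit 168) (nat_lit 1167695039126) (nat_lit 47) (nat_lit 1) (nat_lit 46) (nat_lit 1) (nat_lit 48) (nat_lit 1) (nat_lit 212) (nat_lit 449) (nat_lit 419)) (XT.lf (nat_lit 252) (nat_lit 704306056601) (nat_lit 0) (nat_lit 281920788697) (nat_lit 168) (nat_lit 426288468657) (nat_lit 47) (nat_lit 1) (nat_lit 44) (nat_lit 1) (nat_lit 46) (nat_lit 1) (nat_lit 213) (nat_lit 449) (nat_lit 418)))))) (XT.nd (nat_lit 470) (nat_lit 840) (nat_lit 0) (XT.nd (nat_lit 188) (nat_lit 420) (nat_lit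 0) (XT.nd (nat_lit 94) (nat_lit 252) (nat_lit 0) (XT.lf (nat_lit 168) (nat_lit 75843754234) (nat_lit 0) (nat_lit 288845127584) (nat_lit 84) (nat_lit 1009292537157) (nat_lit 45) (nat_lit 1) (nat_lit 43) (nat_lit 1) (nat_lit 44) (nat_lit 1) (nat_lit 214) (nat_lit 449) (nat_lit 417)) (XT.lf (nat_lit 252) (nat_lit 818705325783) (nat_lit 0) (nat_lit 295411486207) (nat_lit 168) (nat_lit 222393210477) (nat_lit 43) (nat_lit 1) (nat_lit 40) (nat_lit 1) (nat_lit 42) (nat_lit 1) (nat_lit 215) (nat_lit 449) (nat_lit 416))) (XT.nd (nat_lit 94) (nat_lit 336) (nat_lit 0) (XT.lf (nat_lit 168) (nat_lit 205910426548) (nat_lit 0) (nat_lit 306457219354) (nat_lit 84) (nat_lit 787933841389) (nat_lit 41) (nat_lit 1) (nat_lit 39) (nat_lit 1) (nat_lit 40) (nat_lit 1) (nat_lit 216) (nat_lit 449) (nat_lit 415)) (XT.nd (nat_lit 94) (nat_lit 84) (nat_lit 0) (XT.lf (nat_lit 252) (nat_lit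 891335597550) (nat_lit 0) (nat_lit 321237741711) (nat_lit 168) (nat_lit 52717863362) (nat_lit 39) (nat_lit 1) (nat_lit 36) (nat_lit 1) (nat_lit 38) (nat_lit 1) (nat_lit 217) (nat_lit 449) (nat_lit 414)) (XT.lf (nat_lit 168) (nat_lit 296333353065) (nat_lit 0) (nat_lit 334894205800) (nat_lit 84) (nat_lit 599991891369) (nat_lit 37) (nat_lit 1) (nat_lit 35) (nat_lit 1) (nat_lit 36) (nat_lit 1) (nat_lit 218) (nat_lit 449) (nat_lit 413))))) (XT.nd (nat_lit 188) (nat_lit 504) (nat_lit 0) (XT.nd (nat_lit 94) (nat_lit 84) (nat_lit 0) (XT.lf (nat_lit 84) (nat_lit 85533598673) (nat_lit 0) (nat_lit 268467166293) (nat_lit 252) (nat_lit 844370962889) (nat_lit 33) (nat_lit 1) (nat_lit 32) (nat_lit 1) (nat_lit 35) (nat_lit 1) (nat_lit 219) (nat_lit 449) (nat_lit 412)) (XT.lf (nat_lit 168) (nat_lit 355626759687) (nat_lit 0) (nat_lit 370546227269) (nat_lit 84) (nat_lit 440166771484)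 (nat_lit 33) (nat_lit 1) (nat_lit 31) (nat_lit 1) (nat_lit 32) (nat_lit 1) (nat_lit 220) (nat_lit 449) (nat_lit 411))) (XT.nd (nat_lit 94) (nat_lit 252) (nat_lit 0) (XT.lf (nat_lit 84) (nat_lit 198919302047) (nat_lit 0) (nat_lit 192666794920) (nat_lit 252) (nat_lit 743847373919) (nat_lit 29) (nat_lit 1) (nat_lit 28) (nat_lit 1) (nat_lit 31) (nat_lit 1) (nat_lit 221) (nat_lit 449) (nat_lit 410)) (XT.nd (nat_lit 94) (nat_lit 168) (nat_lit 0) (XT.lf (nat_lit 168) (nat_lit 390656793480) (nat_lit 0) (nat_lit 410595380845) (nat_lit 84) (nat_lit 304064652948) (nat_lit 29) (nat_lit 1) (nat_lit 27) (nat_lit 1) (nat_lit 28) (nat_lit 1) (nat_lit 222) (nat_lit 449) (nat_lit 409)) (XT.lf (nat_lit 84) (nat_lit 292855210732) (nat_lit 0) (nat_lit 139540267893) (nat_lit 168) (nat_lit 643799318923) (nat_lit 26) (nat_lit 1) (nat_lit 25) (nat_lit 1) (nat_lit 27) (nat_lit 1) (nat_lit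 223) (nat_lit 449) (nat_lit 408))))))))
noncomputable def ec429 : XT := (XT.nd (nat_lit 1786) (nat_lit 0) (nat_lit 0) (XT.nd (nat_lit 846) (nat_lit 1008) (nat_lit 0) (XT.nd (nat_lit 376) (nat_lit 588) (nat_lit 0) (XT.nd (nat_lit 188) (nat_lit 252) (nat_lit 0) (XT.nd (nat_lit 94) (nat_lit 168) (nat_lit 0) (XT.lf (nat_lit 168) (nat_lit 406949477563) (nat_lit 0) (nat_lit 452861371466) (nat_lit 84) (nat_lit 188036166604) (nat_lit 26) (nat_lit 1) (nat_lit 24) (nat_lit 1) (nat_lit 25) (nat_lit 1) (nat_lit 224) (nat_lit 449) (nat_lit 407)) (XT.lf (nat_lit 84) (nat_lit 370434612400) (nat_lit 0) (nat_lit 104098859353) (nat_lit 168) (nat_lit 545837710089) (nat_lit 23) (nat_lit 1) (nat_lit 22) (nat_lit 1) (nat_lit 24) (nat_lit 1) (nat_lit 225) (nat_lit 449) (nat_lit 406))) (XT.nd (nat_lit 94) (nat_lit 168) (nat_lit 0) (XT.lf (nat_lit 168) (nat_lit 408941815491) (nat_lit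 0) (nat_lit 495676071182) (nat_lit 84) (nat_lit 89044131455) (nat_lit 23) (nat_lit 1) (nat_lit 21) (nat_lit 1) (nat_lit 22) (nat_lit 1) (nat_lit 226) (nat_lit 449) (nat_lit 405)) (XT.lf (nat_lit 84) (nat_lit 434228374287) (nat_lit 0) (nat_lit 82331169924) (nat_lit 168) (nat_lit 451150858467) (nat_lit 20) (nat_lit 1) (nat_lit 19) (nat_lit 1) (nat_lit 21) (nat_lit 1) (nat_lit 227) (nat_lit 449) (nat_lit 404)))) (XT.nd (nat_lit 188) (nat_lit 336) (nat_lit 0) (XT.nd (nat_lit 94) (nat_lit 168) (nat_lit 0) (XT.lf (nat_lit 168) (nat_lit 400186497256) (nat_lit 0) (nat_lit 537781645737) (nat_lit 84) (nat_lit 4555271249) (nat_lit 20) (nat_lit 1) (nat_lit 18) (nat_lit 1) (nat_lit 19) (nat_lit 1) (nat_lit 228) (nat_lit 449) (nat_lit 403)) (XT.lf (nat_lit 84) (nat_lit 486377416683) (nat_lit 0) (nat_lit 71019616213) (nat_lit 168) (nat_lit 360590592833) (nat_lit 17) (nat_lit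 1) (nat_lit 16) (nat_lit 1) (nat_lit 18) (nat_lit 1) (nat_lit 229) (nat_lit 449) (nat_lit 402))) (XT.nd (nat_lit 94) (nat_lit 252) (nat_lit 0) (XT.lf (nat_lit 0) (nat_lit 65386492051) (nat_lit 0) (nat_lit 511754045906) (nat_lit 168) (nat_lit 317024896072) (nat_lit 15) (nat_lit 3) (nat_lit 15) (nat_lit 1) (nat_lit 17) (nat_lit 1) (nat_lit 230) (nat_lit 449) (nat_lit 401)) (XT.nd (nat_lit 94) (nat_lit 84) (nat_lit 0) (XT.lf (nat_lit 84) (nat_lit 528668447470) (nat_lit 0) (nat_lit 67590858873) (nat_lit 168) (nat_lit 274742029916) (nat_lit 14) (nat_lit 1) (nat_lit 13) (nat_lit 1) (nat_lit 15) (nat_lit 1) (nat_lit 231) (nat_lit 449) (nat_lit 400)) (XT.lf (nat_lit 0) (nat_lit 124912389824) (nat_lit 0) (nat_lit 489377372722) (nat_lit 168) (nat_lit 234164388088) (nat_lit 12) (nat_lit 3) (nat_lit 12) (nat_lit 1) (nat_lit 14) (nat_lit 1) (nat_lit 232) (nat_lit 449)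 (nat_lit 399)))))) (XT.nd (nat_lit 470) (nat_lit 336) (nat_lit 0) (XT.nd (nat_lit 188) (nat_lit 420) (nat_lit 0) (XT.nd (nat_lit 94) (nat_lit 84) (nat_lit 0) (XT.lf (nat_lit 84) (nat_lit 562596014472) (nat_lit 0) (nat_lit 69993925549) (nat_lit 168) (nat_lit 193980029381) (nat_lit 11) (nat_lit 1) (nat_lit 10) (nat_lit 1) (nat_lit 12) (nat_lit 1) (nat_lit 233) (nat_lit 449) (nat_lit 398)) (XT.lf (nat_lit 0) (nat_lit 175612918722) (nat_lit 0) (nat_lit 473203374417) (nat_lit 168) (nat_lit 156402841997) (nat_lit 9) (nat_lit 3) (nat_lit 9) (nat_lit 1) (nat_lit 11) (nat_lit 1) (nat_lit 234) (nat_lit 449) (nat_lit 397))) (XT.nd (nat_lit 94) (nat_lit 252) (nat_lit 0) (XT.lf (nat_lit 84) (nat_lit 589413372442) (nat_lit 0) (nat_lit 76600931644) (nat_lit 168) (nat_lit 118514808363) (nat_lit 8) (nat_lit 1) (nat_lit 7) (nat_lit 1) (nat_lit 9) (nat_lit 1) (nat_lit 235) (nat_lit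 449) (nat_lit 396)) (XT.nd (nat_lit 94) (nat_lit 168) (nat_lit 0) (XT.lf (nat_lit 0) (nat_lit 218706106553) (nat_lit 0) (nat_lit 461692630571) (nat_lit 168) (nat_lit 83903844283) (nat_lit 6) (nat_lit 3) (nat_lit 6) (nat_lit 1) (nat_lit 8) (nat_lit 1) (nat_lit 236) (nat_lit 449) (nat_lit 395)) (XT.lf (nat_lit 84) (nat_lit 610174204184) (nat_lit 0) (nat_lit 86126237996) (nat_lit 168) (nat_lit 48428734346) (nat_lit 5) (nat_lit 1) (nat_lit 4) (nat_lit 1) (nat_lit 6) (nat_lit 1) (nat_lit 237) (nat_lit 449) (nat_lit 394))))) (XT.nd (nat_lit 188) (nat_lit 0) (nat_lit 0) (XT.nd (nat_lit 94) (nat_lit 252) (nat_lit 0) (XT.lf (nat_lit 0) (nat_lit 255222114350) (nat_lit 0) (nat_lit 453623809445) (nat_lit 168) (nat_lit 16714767378) (nat_lit 3) (nat_lit 3) (nat_lit 3) (nat_lit 1) (nat_lit 5) (nat_lit 1) (nat_lit 238) (nat_lit 449) (nat_lit 393)) (XT.lf (nat_lit 0) (nat_lit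 1025613473248) (nat_lit 0) (nat_lit 0) (nat_lit 0) (nat_lit 0) (nat_lit 0) (nat_lit 0) (nat_lit 1) (nat_lit 0) (nat_lit 1) (nat_lit 0) (nat_lit 239) (nat_lit 449) (nat_lit 392))) (XT.nd (nat_lit 94) (nat_lit 0) (nat_lit 0) (XT.lf (nat_lit 0) (nat_lit 1024679947551) (nat_lit 0) (nat_lit 0) (nat_lit 0) (nat_lit 0) (nat_lit 0) (nat_lit 0) (nat_lit 1) (nat_lit 0) (nat_lit 1) (nat_lit 0) (nat_lit 240) (nat_lit 449) (nat_lit 391)) (XT.nd (nat_lit 94) (nat_lit 0) (nat_lit 0) (XT.lf (nat_lit 0) (nat_lit 1023815571906) (nat_lit 0) (nat_lit 0) (nat_lit 0) (nat_lit 0) (nat_lit 0) (nat_lit 0) (nat_lit 1) (nat_lit 0) (nat_lit 1) (nat_lit 0) (nat_lit 241) (nat_lit 449) (nat_lit 390)) (XT.lf (nat_lit 0) (nat_lit 1023015224087) (nat_lit 0) (nat_lit 0) (nat_lit 0) (nat_lit 0) (nat_lit 0) (nat_lit 0) (nat_lit 1) (nat_lit 0) (nat_lit 1) (nat_lit 0) (nat_lit 242) (nat_lit 449)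 (nat_lit 389))))))) (XT.nd (nat_lit 846) (nat_lit 0) (nat_lit 0) (XT.nd (nat_lit 376) (nat_lit 0) (nat_lit 0) (XT.nd (nat_lit 188) (nat_lit 0) (nat_lit 0) (XT.nd (nat_lit 94) (nat_lit 0) (nat_lit 0) (XT.lf (nat_lit 0) (nat_lit 1022274161291) (nat_lit 0) (nat_lit 0) (nat_lit 0) (nat_lit 0) (nat_lit 0) (nat_lit 0) (nat_lit 1) (nat_lit 0) (nat_lit 1) (nat_lit 0) (nat_lit 243) (nat_lit 449) (nat_lit 388)) (XT.lf (nat_lit 0) (nat_lit 1021587992036) (nat_lit 0) (nat_lit 0) (nat_lit 0) (nat_lit 0) (nat_lit 0) (nat_lit 0) (nat_lit 1) (nat_lit 0) (nat_lit 1) (nat_lit 0) (nat_lit 244) (nat_lit 449) (nat_lit 387))) (XT.nd (nat_lit 94) (nat_lit 0) (nat_lit 0) (XT.lf (nat_lit 0) (nat_lit 1020952650132) (nat_lit 0) (nat_lit 0) (nat_lit 0) (nat_lit 0) (nat_lit 0) (nat_lit 0) (nat_lit 1) (nat_lit 0) (nat_lit 1) (nat_lit 0) (nat_lit 245) (nat_lit 449) (nat_lit 386)) (XT.lf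 (nat_lit 0) (nat_lit 1020364370593) (nat_lit 0) (nat_lit 0) (nat_lit 0) (nat_lit 0) (nat_lit 0) (nat_lit 0) (nat_lit 1) (nat_lit 0) (nat_lit 1) (nat_lit 0) (nat_lit 246) (nat_lit 449) (nat_lit 385)))) (XT.nd (nat_lit 188) (nat_lit 0) (nat_lit 0) (XT.nd (nat_lit 94) (nat_lit 0) (nat_lit 0) (XT.lf (nat_lit 0) (nat_lit 1019819667315) (nat_lit 0) (nat_lit 0) (nat_lit 0) (nat_lit 0) (nat_lit 0) (nat_lit 0) (nat_lit 1) (nat_lit 0) (nat_lit 1) (nat_lit 0) (nat_lit 247) (nat_lit 449) (nat_lit 384)) (XT.lf (nat_lit 0) (nat_lit 1019315312428) (nat_lit 0) (nat_lit 0) (nat_lit 0) (nat_lit 0) (nat_lit 0) (nat_lit 0) (nat_lit 1) (nat_lit 0) (nat_lit 1) (nat_lit 0) (nat_lit 248) (nat_lit 449) (nat_lit 383))) (XT.nd (nat_lit 94) (nat_lit 0) (nat_lit 0) (XT.lf (nat_lit 0) (nat_lit 1018848317163) (nat_lit 0) (nat_lit 0) (nat_lit 0) (nat_lit 0) (nat_lit 0) (nat_lit 0) (nat_lit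 1) (nat_lit 0) (nat_lit 1) (nat_lit 0) (nat_lit 249) (nat_lit 449) (nat_lit 382)) (XT.nd (nat_lit 94) (nat_lit 0) (nat_lit 0) (XT.lf (nat_lit 0) (nat_lit 1018415914139) (nat_lit 0) (nat_lit 0) (nat_lit 0) (nat_lit 0) (nat_lit 0) (nat_lit 0) (nat_lit 1) (nat_lit 0) (nat_lit 1) (nat_lit 0) (nat_lit 250) (nat_lit 449) (nat_lit 381)) (XT.lf (nat_lit 0) (nat_lit 1018015540969) (nat_lit 0) (nat_lit 0) (nat_lit 0) (nat_lit 0) (nat_lit 0) (nat_lit 0) (nat_lit 1) (nat_lit 0) (nat_lit 1) (nat_lit 0) (nat_lit 251) (nat_lit 449) (nat_lit 380)))))) (XT.nd (nat_lit 470) (nat_lit 0) (nat_lit 0) (XT.nd (nat_lit 188) (nat_lit 0) (nat_lit 0) (XT.nd (nat_lit 94) (nat_lit 0) (nat_lit 0) (XT.lf (nat_lit 0) (nat_lit 1017644825071) (nat_lit 0) (nat_lit 0) (nat_lit 0) (nat_lit 0) (nat_lit 0) (nat_lit 0) (nat_lit 1) (nat_lit 0) (nat_lit 1) (nat_lit 0) (nat_lit 252) (nat_lit 449) (nat_lit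 379)) (XT.lf (nat_lit 0) (nat_lit 1017301569610) (nat_lit 0) (nat_lit 0) (nat_lit 0) (nat_lit 0) (nat_lit 0) (nat_lit 0) (nat_lit 1) (nat_lit 0) (nat_lit 1) (nat_lit 0) (nat_lit 253) (nat_lit 449) (nat_lit 378))) (XT.nd (nat_lit 94) (nat_lit 0) (nat_lit 0) (XT.lf (nat_lit 0) (nat_lit 1016983740479) (nat_lit 0) (nat_lit 0) (nat_lit 0) (nat_lit 0) (nat_lit 0) (nat_lit 0) (nat_lit 1) (nat_lit 0) (nat_lit 1) (nat_lit 0) (nat_lit 254) (nat_lit 449) (nat_lit 377)) (XT.nd (nat_lit 94) (nat_lit 0) (nat_lit 0) (XT.lf (nat_lit 0) (nat_lit 1016689454247) (nat_lit 0) (nat_lit 0) (nat_lit 0) (nat_lit 0) (nat_lit 0) (nat_lit 0) (nat_lit 1) (nat_lit 0) (nat_lit 1) (nat_lit 0) (nat_lit 255) (nat_lit 449) (nat_lit 376)) (XT.lf (nat_lit 0) (nat_lit 1016416966994) (nat_lit 0) (nat_lit 0) (nat_lit 0) (nat_lit 0) (nat_lit 0) (nat_lit 0) (nat_lit 1) (nat_lit 0) (nat_lit 1) (nat_lit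 0) (nat_lit 256) (nat_lit 449) (nat_lit 375))))) (XT.nd (nat_lit 188) (nat_lit 0) (nat_lit 0) (XT.nd (nat_lit 94) (nat_lit 0) (nat_lit 0) (XT.lf (nat_lit 0) (nat_lit 1016164663983) (nat_lit 0) (nat_lit 0) (nat_lit 0) (nat_lit 0) (nat_lit 0) (nat_lit 0) (nat_lit 1) (nat_lit 0) (nat_lit 1) (nat_lit 0) (nat_lit 257) (nat_lit 449) (nat_lit 374)) (XT.lf (nat_lit 0) (nat_lit 1015931050084) (nat_lit 0) (nat_lit 0) (nat_lit 0) (nat_lit 0) (nat_lit 0) (nat_lit 0) (nat_lit 1) (nat_lit 0) (nat_lit 1) (nat_lit 0) (nat_lit 258) (nat_lit 449) (nat_lit 373))) (XT.nd (nat_lit 94) (nat_lit 0) (nat_lit 0) (XT.lf (nat_lit 0) (nat_lit 1015714740918) (nat_lit 0) (nat_lit 0) (nat_lit 0) (nat_lit 0) (nat_lit 0) (nat_lit 0) (nat_lit 1) (nat_lit 0) (nat_lit 1) (nat_lit 0) (nat_lit 259) (nat_lit 449) (nat_lit 372)) (XT.nd (nat_lit 94) (nat_lit 0) (nat_lit 0) (XT.lf (nat_lit 0) (nat_lit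 1015514454653) (nat_lit 0) (nat_lit 0) (nat_lit 0) (nat_lit 0) (nat_lit 0) (nat_lit 0) (nat_lit 1) (nat_lit 0) (nat_lit 1) (nat_lit 0) (nat_lit 260) (nat_lit 449) (nat_lit 371)) (XT.lf (nat_lit 0) (nat_lit 1015329004408) (nat_lit 0) (nat_lit 0) (nat_lit 0) (nat_lit 0) (nat_lit 0) (nat_lit 0) (nat_lit 1) (nat_lit 0) (nat_lit 1) (nat_lit 0) (nat_lit 261) (nat_lit 449) (nat_lit 370))))))))
noncomputable def ec430 : XT := (XT.nd (nat_lit 1692) (nat_lit 0) (nat_lit 0) (XT.nd (nat_lit 846) (nat_lit 0) (nat_lit 0) (XT.nd (nat_lit 376) (nat_lit 0) (nat_lit 0) (XT.nd (nat_lit 188) (nat_lit 0) (nat_lit 0) (XT.nd (nat_lit 94) (nat_lit 0) (nat_lit 0) (XT.lf (nat_lit 0) (nat_lit 1015157291218) (nat_lit 0) (nat_lit 0) (nat_lit 0) (nat_lit 0) (nat_lit 0) (nat_lit 0) (nat_lit 1) (nat_lit 0) (nat_lit 1) (nat_lit 0) (nat_lit 262) (nat_lit 449) (nat_lit 369)) (XT.lf (nat_lit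 0) (nat_lit 1014998297524) (nat_lit 0) (nat_lit 0) (nat_lit 0) (nat_lit 0) (nat_lit 0) (nat_lit 0) (nat_lit 1) (nat_lit 0) (nat_lit 1) (nat_lit 0) (nat_lit 263) (nat_lit 449) (nat_lit 368))) (XT.nd (nat_lit 94) (nat_lit 0) (nat_lit 0) (XT.lf (nat_lit 0) (nat_lit 1014851081140) (nat_lit 0) (nat_lit 0) (nat_lit 0) (nat_lit 0) (nat_lit 0) (nat_lit 0) (nat_lit 1) (nat_lit 0) (nat_lit 1) (nat_lit 0) (nat_lit 264) (nat_lit 449) (nat_lit 367)) (XT.lf (nat_lit 0) (nat_lit 1014714769674) (nat_lit 0) (nat_lit 0) (nat_lit 0) (nat_lit 0) (nat_lit 0) (nat_lit 0) (nat_lit 1) (nat_lit 0) (nat_lit 1) (nat_lit 0) (nat_lit 265) (nat_lit 449) (nat_lit 366)))) (XT.nd (nat_lit 188) (nat_lit 0) (nat_lit 0) (XT.nd (nat_lit 94) (nat_lit 0) (nat_lit 0) (XT.lf (nat_lit 0) (nat_lit 1014588555353) (nat_lit 0) (nat_lit 0) (nat_lit 0) (nat_lit 0) (nat_lit 0) (nat_lit 0) (nat_lit 1) (nat_lit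 0) (nat_lit 1) (nat_lit 0) (nat_lit 266) (nat_lit 449) (nat_lit 365)) (XT.lf (nat_lit 0) (nat_lit 1014471690241) (nat_lit 0) (nat_lit 0) (nat_lit 0) (nat_lit 0) (nat_lit 0) (nat_lit 0) (nat_lit 1) (nat_lit 0) (nat_lit 1) (nat_lit 0) (nat_lit 267) (nat_lit 449) (nat_lit 364))) (XT.nd (nat_lit 94) (nat_lit 0) (nat_lit 0) (XT.lf (nat_lit 0) (nat_lit 1014363481804) (nat_lit 0) (nat_lit 0) (nat_lit 0) (nat_lit 0) (nat_lit 0) (nat_lit 0) (nat_lit 1) (nat_lit 0) (nat_lit 1) (nat_lit 0) (nat_lit 268) (nat_lit 449) (nat_lit 363)) (XT.nd (nat_lit 94) (nat_lit 0) (nat_lit 0) (XT.lf (nat_lit 0) (nat_lit 1014263288807) (nat_lit 0) (nat_lit 0) (nat_lit 0) (nat_lit 0) (nat_lit 0) (nat_lit 0) (nat_lit 1) (nat_lit 0) (nat_lit 1) (nat_lit 0) (nat_lit 269) (nat_lit 449) (nat_lit 362)) (XT.lf (nat_lit 0) (nat_lit 1014170517514) (nat_lit 0) (nat_lit 0) (nat_lit 0) (nat_lit 0)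 (nat_lit 0) (nat_lit 0) (nat_lit 1) (nat_lit 0) (nat_lit 1) (nat_lit 0) (nat_lit 270) (nat_lit 449) (nat_lit 361)))))) (XT.nd (nat_lit 376) (nat_lit 0) (nat_lit 0) (XT.nd (nat_lit 188) (nat_lit 0) (nat_lit 0) (XT.nd (nat_lit 94) (nat_lit 0) (nat_lit 0) (XT.lf (nat_lit 0) (nat_lit 1014084618168) (nat_lit 0) (nat_lit 0) (nat_lit 0) (nat_lit 0) (nat_lit 0) (nat_lit 0) (nat_lit 1) (nat_lit 0) (nat_lit 1) (nat_lit 0) (nat_lit 271) (nat_lit 449) (nat_lit 360)) (XT.lf (nat_lit 0) (nat_lit 1014005081736) (nat_lit 0) (nat_lit 0) (nat_lit 0) (nat_lit 0) (nat_lit 0) (nat_lit 0) (nat_lit 1) (nat_lit 0) (nat_lit 1) (nat_lit 0) (nat_lit 272) (nat_lit 449) (nat_lit 359))) (XT.nd (nat_lit 94) (nat_lit 0) (nat_lit 0) (XT.lf (nat_lit 0) (nat_lit 1013931436892) (nat_lit 0) (nat_lit 0) (nat_lit 0) (nat_lit 0) (nat_lit 0) (nat_lit 0) (nat_lit 1) (nat_lit 0) (nat_lit 1) (nat_lit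 0) (nat_lit 273) (nat_lit 449) (nat_lit 358)) (XT.lf (nat_lit 0) (nat_lit 1013863247222) (nat_lit 0) (nat_lit 0) (nat_lit 0) (nat_lit 0) (nat_lit 0) (nat_lit 0) (nat_lit 1) (nat_lit 0) (nat_lit 1) (nat_lit 0) (nat_lit 274) (nat_lit 449) (nat_lit 357)))) (XT.nd (nat_lit 188) (nat_lit 0) (nat_lit 0) (XT.nd (nat_lit 94) (nat_lit 0) (nat_lit 0) (XT.lf (nat_lit 0) (nat_lit 1013800108639) (nat_lit 0) (nat_lit 0) (nat_lit 0) (nat_lit 0) (nat_lit 0) (nat_lit 0) (nat_lit 1) (nat_lit 0) (nat_lit 1) (nat_lit 0) (nat_lit 275) (nat_lit 449) (nat_lit 356)) (XT.lf (nat_lit 0) (nat_lit 1013741646987) (nat_lit 0) (nat_lit 0) (nat_lit 0) (nat_lit 0) (nat_lit 0) (nat_lit 0) (nat_lit 1) (nat_lit 0) (nat_lit 1) (nat_lit 0) (nat_lit 276) (nat_lit 449) (nat_lit 355))) (XT.nd (nat_lit 94) (nat_lit 0) (nat_lit 0) (XT.lf (nat_lit 0) (nat_lit 1013687515828) (nat_lit 0) (nat_lit 0) (nat_lit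 0) (nat_lit 0) (nat_lit 0) (nat_lit 0) (nat_lit 1) (nat_lit 0) (nat_lit 1) (nat_lit 0) (nat_lit 277) (nat_lit 449) (nat_lit 354)) (XT.nd (nat_lit 94) (nat_lit 0) (nat_lit 0) (XT.lf (nat_lit 0) (nat_lit 1013637394385) (nat_lit 0) (nat_lit 0) (nat_lit 0) (nat_lit 0) (nat_lit 0) (nat_lit 0) (nat_lit 1) (nat_lit 0) (nat_lit 1) (nat_lit 0) (nat_lit 278) (nat_lit 449) (nat_lit 353)) (XT.lf (nat_lit 0) (nat_lit 1013590985641) (nat_lit 0) (nat_lit 0) (nat_lit 0) (nat_lit 0) (nat_lit 0) (nat_lit 0) (nat_lit 1) (nat_lit 0) (nat_lit 1) (nat_lit 0) (nat_lit 279) (nat_lit 449) (nat_lit 352))))))) (XT.nd (nat_lit 846) (nat_lit 0) (nat_lit 0) (XT.nd (nat_lit 376) (nat_lit 0) (nat_lit 0) (XT.nd (nat_lit 188) (nat_lit 0) (nat_lit 0) (XT.nd (nat_lit 94) (nat_lit 0) (nat_lit 0) (XT.lf (nat_lit 0) (nat_lit 1013548014582) (nat_lit 0) (nat_lit 0) (nat_lit 0) (nat_lit 0) (nat_lit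 0) (nat_lit 0) (nat_lit 1) (nat_lit 0) (nat_lit 1) (nat_lit 0) (nat_lit 280) (nat_lit 449) (nat_lit 351)) (XT.lf (nat_lit 0) (nat_lit 1013508226565) (nat_lit 0) (nat_lit 0) (nat_lit 0) (nat_lit 0) (nat_lit 0) (nat_lit 0) (nat_lit 1) (nat_lit 0) (nat_lit 1) (nat_lit 0) (nat_lit 281) (nat_lit 449) (nat_lit 350))) (XT.nd (nat_lit 94) (nat_lit 0) (nat_lit 0) (XT.lf (nat_lit 0) (nat_lit 1013471385807) (nat_lit 0) (nat_lit 0) (nat_lit 0) (nat_lit 0) (nat_lit 0) (nat_lit 0) (nat_lit 1) (nat_lit 0) (nat_lit 1) (nat_lit 0) (nat_lit 282) (nat_lit 449) (nat_lit 349)) (XT.lf (nat_lit 0) (nat_lit 1013437273995) (nat_lit 0) (nat_lit 0) (nat_lit 0) (nat_lit 0) (nat_lit 0) (nat_lit 0) (nat_lit 1) (nat_lit 0) (nat_lit 1) (nat_lit 0) (nat_lit 283) (nat_lit 449) (nat_lit 348)))) (XT.nd (nat_lit 188) (nat_lit 0) (nat_lit 0) (XT.nd (nat_lit 94) (nat_lit 0) (nat_lit 0) (XT.lf (nat_lit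 0) (nat_lit 1013405688984) (nat_lit 0) (nat_lit 0) (nat_lit 0) (nat_lit 0) (nat_lit 0) (nat_lit 0) (nat_lit 1) (nat_lit 0) (nat_lit 1) (nat_lit 0) (nat_lit 284) (nat_lit 449) (nat_lit 347)) (XT.lf (nat_lit 0) (nat_lit 1013376443603) (nat_lit 0) (nat_lit 0) (nat_lit 0) (nat_lit 0) (nat_lit 0) (nat_lit 0) (nat_lit 1) (nat_lit 0) (nat_lit 1) (nat_lit 0) (nat_lit 285) (nat_lit 449) (nat_lit 346))) (XT.nd (nat_lit 94) (nat_lit 0) (nat_lit 0) (XT.lf (nat_lit 0) (nat_lit 1013349364547) (nat_lit 0) (nat_lit 0) (nat_lit 0) (nat_lit 0) (nat_lit 0) (nat_lit 0) (nat_lit 1) (nat_lit 0) (nat_lit 1) (nat_lit 0) (nat_lit 286) (nat_lit 449) (nat_lit 345)) (XT.nd (nat_lit 94) (nat_lit 0) (nat_lit 0) (XT.lf (nat_lit 0) (nat_lit 1013324291347) (nat_lit 0) (nat_lit 0) (nat_lit 0) (nat_lit 0) (nat_lit 0) (nat_lit 0) (nat_lit 1) (nat_lit 0) (nat_lit 1) (nat_lit 0) (nat_lit 287)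 (nat_lit 449) (nat_lit 344)) (XT.lf (nat_lit 0) (nat_lit 1013301075421) (nat_lit 0) (nat_lit 0) (nat_lit 0) (nat_lit 0) (nat_lit 0) (nat_lit 0) (nat_lit 1) (nat_lit 0) (nat_lit 1) (nat_lit 0) (nat_lit 288) (nat_lit 449) (nat_lit 343)))))) (XT.nd (nat_lit 470) (nat_lit 0) (nat_lit 0) (XT.nd (nat_lit 188) (nat_lit 0) (nat_lit 0) (XT.nd (nat_lit 94) (nat_lit 0) (nat_lit 0) (XT.lf (nat_lit 0) (nat_lit 1013279579193) (nat_lit 0) (nat_lit 0) (nat_lit 0) (nat_lit 0) (nat_lit 0) (nat_lit 0) (nat_lit 1) (nat_lit 0) (nat_lit 1) (nat_lit 0) (nat_lit 289) (nat_lit 449) (nat_lit 342)) (XT.lf (nat_lit 0) (nat_lit 1013259675278) (nat_lit 0) (nat_lit 0) (nat_lit 0) (nat_lit 0) (nat_lit 0) (nat_lit 0) (nat_lit 1) (nat_lit 0) (nat_lit 1) (nat_lit 0) (nat_lit 290) (nat_lit 449) (nat_lit 341))) (XT.nd (nat_lit 94) (nat_lit 0) (nat_lit 0) (XT.lf (nat_lit 0) (nat_lit 1013241245727)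 (nat_lit 0) (nat_lit 0) (nat_lit 0) (nat_lit 0) (nat_lit 0) (nat_lit 0) (nat_lit 1) (nat_lit 0) (nat_lit 1) (nat_lit 0) (nat_lit 291) (nat_lit 449) (nat_lit 340)) (XT.nd (nat_lit 94) (nat_lit 0) (nat_lit 0) (XT.lf (nat_lit 0) (nat_lit 1013224181329) (nat_lit 0) (nat_lit 0) (nat_lit 0) (nat_lit 0) (nat_lit 0) (nat_lit 0) (nat_lit 1) (nat_lit 0) (nat_lit 1) (nat_lit 0) (nat_lit 292) (nat_lit 449) (nat_lit 339)) (XT.lf (nat_lit 0) (nat_lit 1013208380959) (nat_lit 0) (nat_lit 0) (nat_lit 0) (nat_lit 0) (nat_lit 0) (nat_lit 0) (nat_lit 1) (nat_lit 0) (nat_lit 1) (nat_lit 0) (nat_lit 293) (nat_lit 449) (nat_lit 338))))) (XT.nd (nat_lit 188) (nat_lit 0) (nat_lit 0) (XT.nd (nat_lit 94) (nat_lit 0) (nat_lit 0) (XT.lf (nat_lit 0) (nat_lit 1013193750988) (nat_lit 0) (nat_lit 0) (nat_lit 0) (nat_lit 0) (nat_lit 0) (nat_lit 0) (nat_lit 1) (nat_lit 0) (nat_lit 1) (nat_lit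 0) (nat_lit 294) (nat_lit 449) (nat_lit 337)) (XT.lf (nat_lit 0) (nat_lit 1013180204718) (nat_lit 0) (nat_lit 0) (nat_lit 0) (nat_lit 0) (nat_lit 0) (nat_lit 0) (nat_lit 1) (nat_lit 0) (nat_lit 1) (nat_lit 0) (nat_lit 295) (nat_lit 449) (nat_lit 336))) (XT.nd (nat_lit 94) (nat_lit 0) (nat_lit 0) (XT.lf (nat_lit 0) (nat_lit 1013167661875) (nat_lit 0) (nat_lit 0) (nat_lit 0) (nat_lit 0) (nat_lit 0) (nat_lit 0) (nat_lit 1) (nat_lit 0) (nat_lit 1) (nat_lit 0) (nat_lit 296) (nat_lit 449) (nat_lit 335)) (XT.nd (nat_lit 94) (nat_lit 0) (nat_lit 0) (XT.lf (nat_lit 0) (nat_lit 1013156048132) (nat_lit 0) (nat_lit 0) (nat_lit 0) (nat_lit 0) (nat_lit 0) (nat_lit 0) (nat_lit 1) (nat_lit 0) (nat_lit 1) (nat_lit 0) (nat_lit 297) (nat_lit 449) (nat_lit 334)) (XT.lf (nat_lit 0) (nat_lit 1013145294666) (nat_lit 0) (nat_lit 0) (nat_lit 0) (nat_lit 0) (nat_lit 0) (nat_lit 0)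 (nat_lit 1) (nat_lit 0) (nat_lit 1) (nat_lit 0) (nat_lit 298) (nat_lit 449) (nat_lit 333))))))))
noncomputable def ec431 : XT := (XT.nd (nat_lit 1786) (nat_lit 0) (nat_lit 0) (XT.nd (nat_lit 846) (nat_lit 0) (nat_lit 0) (XT.nd (nat_lit 376) (nat_lit 0) (nat_lit 0) (XT.nd (nat_lit 188) (nat_lit 0) (nat_lit 0) (XT.nd (nat_lit 94) (nat_lit 0) (nat_lit 0) (XT.lf (nat_lit 0) (nat_lit 1013135337754) (nat_lit 0) (nat_lit 0) (nat_lit 0) (nat_lit 0) (nat_lit 0) (nat_lit 0) (nat_lit 1) (nat_lit 0) (nat_lit 1) (nat_lit 0) (nat_lit 299) (nat_lit 449) (nat_lit 332)) (XT.lf (nat_lit 0) (nat_lit 1013126118390) (nat_lit 0) (nat_lit 0) (nat_lit 0) (nat_lit 0) (nat_lit 0) (nat_lit 0) (nat_lit 1) (nat_lit 0) (nat_lit 1) (nat_lit 0) (nat_lit 300) (nat_lit 449) (nat_lit 331))) (XT.nd (nat_lit 94) (nat_lit 0) (nat_lit 0) (XT.lf (nat_lit 0) (nat_lit 1013117581942) (nat_lit 0) (nat_lit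 0) (nat_lit 0) (nat_lit 0) (nat_lit 0) (nat_lit 0) (nat_lit 1) (nat_lit 0) (nat_lit 1) (nat_lit 0) (nat_lit 301) (nat_lit 449) (nat_lit 330)) (XT.lf (nat_lit 0) (nat_lit 1013109677824) (nat_lit 0) (nat_lit 0) (nat_lit 0) (nat_lit 0) (nat_lit 0) (nat_lit 0) (nat_lit 1) (nat_lit 0) (nat_lit 1) (nat_lit 0) (nat_lit 302) (nat_lit 449) (nat_lit 329)))) (XT.nd (nat_lit 188) (nat_lit 0) (nat_lit 0) (XT.nd (nat_lit 94) (nat_lit 0) (nat_lit 0) (XT.lf (nat_lit 0) (nat_lit 1013102359196) (nat_lit 0) (nat_lit 0) (nat_lit 0) (nat_lit 0) (nat_lit 0) (nat_lit 0) (nat_lit 1) (nat_lit 0) (nat_lit 1) (nat_lit 0) (nat_lit 303) (nat_lit 449) (nat_lit 328)) (XT.lf (nat_lit 0) (nat_lit 1013095582688) (nat_lit 0) (nat_lit 0) (nat_lit 0) (nat_lit 0) (nat_lit 0) (nat_lit 0) (nat_lit 1) (nat_lit 0) (nat_lit 1) (nat_lit 0) (nat_lit 304) (nat_lit 449) (nat_lit 327))) (XT.nd (nat_lit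 94) (nat_lit 0) (nat_lit 0) (XT.lf (nat_lit 0) (nat_lit 1013089308144) (nat_lit 0) (nat_lit 0) (nat_lit 0) (nat_lit 0) (nat_lit 0) (nat_lit 0) (nat_lit 1) (nat_lit 0) (nat_lit 1) (nat_lit 0) (nat_lit 305) (nat_lit 449) (nat_lit 326)) (XT.nd (nat_lit 94) (nat_lit 0) (nat_lit 0) (XT.lf (nat_lit 0) (nat_lit 1013083498381) (nat_lit 0) (nat_lit 0) (nat_lit 0) (nat_lit 0) (nat_lit 0) (nat_lit 0) (nat_lit 1) (nat_lit 0) (nat_lit 1) (nat_lit 0) (nat_lit 306) (nat_lit 449) (nat_lit 325)) (XT.lf (nat_lit 0) (nat_lit 1013078118971) (nat_lit 0) (nat_lit 0) (nat_lit 0) (nat_lit 0) (nat_lit 0) (nat_lit 0) (nat_lit 1) (nat_lit 0) (nat_lit 1) (nat_lit 0) (nat_lit 307) (nat_lit 449) (nat_lit 324)))))) (XT.nd (nat_lit 470) (nat_lit 0) (nat_lit 0) (XT.nd (nat_lit 188) (nat_lit 0) (nat_lit 0) (XT.nd (nat_lit 94) (nat_lit 0) (nat_lit 0) (XT.lf (nat_lit 0) (nat_lit 1013073138036)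 (nat_lit 0) (nat_lit 0) (nat_lit 0) (nat_lit 0) (nat_lit 0) (nat_lit 0) (nat_lit 1) (nat_lit 0) (nat_lit 1) (nat_lit 0) (nat_lit 308) (nat_lit 449) (nat_lit 323)) (XT.lf (nat_lit 0) (nat_lit 1013068526058) (nat_lit 0) (nat_lit 0) (nat_lit 0) (nat_lit 0) (nat_lit 0) (nat_lit 0) (nat_lit 1) (nat_lit 0) (nat_lit 1) (nat_lit 0) (nat_lit 309) (nat_lit 449) (nat_lit 322))) (XT.nd (nat_lit 94) (nat_lit 0) (nat_lit 0) (XT.lf (nat_lit 0) (nat_lit 1013064255709) (nat_lit 0) (nat_lit 0) (nat_lit 0) (nat_lit 0) (nat_lit 0) (nat_lit 0) (nat_lit 1) (nat_lit 0) (nat_lit 1) (nat_lit 0) (nat_lit 310) (nat_lit 449) (nat_lit 321)) (XT.nd (nat_lit 94) (nat_lit 0) (nat_lit 0) (XT.lf (nat_lit 0) (nat_lit 1013060301682) (nat_lit 0) (nat_lit 0) (nat_lit 0) (nat_lit 0) (nat_lit 0) (nat_lit 0) (nat_lit 1) (nat_lit 0) (nat_lit 1) (nat_lit 0) (nat_lit 311) (nat_lit 449) (nat_lit 320))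 (XT.lf (nat_lit 0) (nat_lit 1013056640546) (nat_lit 0) (nat_lit 0) (nat_lit 0) (nat_lit 0) (nat_lit 0) (nat_lit 0) (nat_lit 1) (nat_lit 0) (nat_lit 1) (nat_lit 0) (nat_lit 312) (nat_lit 449) (nat_lit 319))))) (XT.nd (nat_lit 188) (nat_lit 0) (nat_lit 0) (XT.nd (nat_lit 94) (nat_lit 0) (nat_lit 0) (XT.lf (nat_lit 0) (nat_lit 1013053250605) (nat_lit 0) (nat_lit 0) (nat_lit 0) (nat_lit 0) (nat_lit 0) (nat_lit 0) (nat_lit 1) (nat_lit 0) (nat_lit 1) (nat_lit 0) (nat_lit 313) (nat_lit 449) (nat_lit 318)) (XT.lf (nat_lit 0) (nat_lit 1013050111771) (nat_lit 0) (nat_lit 0) (nat_lit 0) (nat_lit 0) (nat_lit 0) (nat_lit 0) (nat_lit 1) (nat_lit 0) (nat_lit 1) (nat_lit 0) (nat_lit 314) (nat_lit 449) (nat_lit 317))) (XT.nd (nat_lit 94) (nat_lit 0) (nat_lit 0) (XT.lf (nat_lit 0) (nat_lit 1013047205443) (nat_lit 0) (nat_lit 0) (nat_lit 0) (nat_lit 0) (nat_lit 0) (nat_lit 0)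 (nat_lit 1) (nat_lit 0) (nat_lit 1) (nat_lit 0) (nat_lit 315) (nat_lit 449) (nat_lit 316)) (XT.nd (nat_lit 94) (nat_lit 0) (nat_lit 0) (XT.lf (nat_lit 0) (nat_lit 1013044514399) (nat_lit 0) (nat_lit 0) (nat_lit 0) (nat_lit 0) (nat_lit 0) (nat_lit 0) (nat_lit 1) (nat_lit 0) (nat_lit 1) (nat_lit 0) (nat_lit 316) (nat_lit 449) (nat_lit 315)) (XT.lf (nat_lit 0) (nat_lit 1013042022691) (nat_lit 0) (nat_lit 0) (nat_lit 0) (nat_lit 0) (nat_lit 0) (nat_lit 0) (nat_lit 1) (nat_lit 0) (nat_lit 1) (nat_lit 0) (nat_lit 317) (nat_lit 449) (nat_lit 314))))))) (XT.nd (nat_lit 846) (nat_lit 0) (nat_lit 0) (XT.nd (nat_lit 376) (nat_lit 0) (nat_lit 0) (XT.nd (nat_lit 188) (nat_lit 0) (nat_lit 0) (XT.nd (nat_lit 94) (nat_lit 0) (nat_lit 0) (XT.lf (nat_lit 0) (nat_lit 1013039715554) (nat_lit 0) (nat_lit 0) (nat_lit 0) (nat_lit 0) (nat_lit 0) (nat_lit 0) (nat_lit 1) (nat_lit 0)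 (nat_lit 1) (nat_lit 0) (nat_lit 318) (nat_lit 449) (nat_lit 313)) (XT.lf (nat_lit 0) (nat_lit 1013037579316) (nat_lit 0) (nat_lit 0) (nat_lit 0) (nat_lit 0) (nat_lit 0) (nat_lit 0) (nat_lit 1) (nat_lit 0) (nat_lit 1) (nat_lit 0) (nat_lit 319) (nat_lit 449) (nat_lit 312))) (XT.nd (nat_lit 94) (nat_lit 0) (nat_lit 0) (XT.lf (nat_lit 0) (nat_lit 1013035601318) (nat_lit 0) (nat_lit 0) (nat_lit 0) (nat_lit 0) (nat_lit 0) (nat_lit 0) (nat_lit 1) (nat_lit 0) (nat_lit 1) (nat_lit 0) (nat_lit 320) (nat_lit 449) (nat_lit 311)) (XT.lf (nat_lit 0) (nat_lit 1013033769839) (nat_lit 0) (nat_lit 0) (nat_lit 0) (nat_lit 0) (nat_lit 0) (nat_lit 0) (nat_lit 1) (nat_lit 0) (nat_lit 1) (nat_lit 0) (nat_lit 321) (nat_lit 449) (nat_lit 310)))) (XT.nd (nat_lit 188) (nat_lit 0) (nat_lit 0) (XT.nd (nat_lit 94) (nat_lit 0) (nat_lit 0) (XT.lf (nat_lit 0) (nat_lit 1013032074024) (nat_lit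 0) (nat_lit 0) (nat_lit 0) (nat_lit 0) (nat_lit 0) (nat_lit 0) (nat_lit 1) (nat_lit 0) (nat_lit 1) (nat_lit 0) (nat_lit 322) (nat_lit 449) (nat_lit 309)) (XT.lf (nat_lit 0) (nat_lit 1013030503826) (nat_lit 0) (nat_lit 0) (nat_lit 0) (nat_lit 0) (nat_lit 0) (nat_lit 0) (nat_lit 1) (nat_lit 0) (nat_lit 1) (nat_lit 0) (nat_lit 323) (nat_lit 449) (nat_lit 308))) (XT.nd (nat_lit 94) (nat_lit 0) (nat_lit 0) (XT.lf (nat_lit 0) (nat_lit 1013029049938) (nat_lit 0) (nat_lit 0) (nat_lit 0) (nat_lit 0) (nat_lit 0) (nat_lit 0) (nat_lit 1) (nat_lit 0) (nat_lit 1) (nat_lit 0) (nat_lit 324) (nat_lit 449) (nat_lit 307)) (XT.nd (nat_lit 94) (nat_lit 0) (nat_lit 0) (XT.lf (nat_lit 0) (nat_lit 1013027703746) (nat_lit 0) (nat_lit 0) (nat_lit 0) (nat_lit 0) (nat_lit 0) (nat_lit 0) (nat_lit 1) (nat_lit 0) (nat_lit 1) (nat_lit 0) (nat_lit 325) (nat_lit 449) (nat_lit 306)) (XT.lf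 (nat_lit 0) (nat_lit 1013026457272) (nat_lit 0) (nat_lit 0) (nat_lit 0) (nat_lit 0) (nat_lit 0) (nat_lit 0) (nat_lit 1) (nat_lit 0) (nat_lit 1) (nat_lit 0) (nat_lit 326) (nat_lit 449) (nat_lit 305)))))) (XT.nd (nat_lit 470) (nat_lit 0) (nat_lit 0) (XT.nd (nat_lit 188) (nat_lit 0) (nat_lit 0) (XT.nd (nat_lit 94) (nat_lit 0) (nat_lit 0) (XT.lf (nat_lit 0) (nat_lit 1013025303129) (nat_lit 0) (nat_lit 0) (nat_lit 0) (nat_lit 0) (nat_lit 0) (nat_lit 0) (nat_lit 1) (nat_lit 0) (nat_lit 1) (nat_lit 0) (nat_lit 327) (nat_lit 449) (nat_lit 304)) (XT.lf (nat_lit 0) (nat_lit 1013024234478) (nat_lit 0) (nat_lit 0) (nat_lit 0) (nat_lit 0) (nat_lit 0) (nat_lit 0) (nat_lit 1) (nat_lit 0) (nat_lit 1) (nat_lit 0) (nat_lit 328) (nat_lit 449) (nat_lit 303))) (XT.nd (nat_lit 94) (nat_lit 0) (nat_lit 0) (XT.lf (nat_lit 0) (nat_lit 1013023244987) (nat_lit 0) (nat_lit 0) (nat_lit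 0) (nat_lit 0) (nat_lit 0) (nat_lit 0) (nat_lit 1) (nat_lit 0) (nat_lit 1) (nat_lit 0) (nat_lit 329) (nat_lit 449) (nat_lit 302)) (XT.nd (nat_lit 94) (nat_lit 0) (nat_lit 0) (XT.lf (nat_lit 0) (nat_lit 1013022328791) (nat_lit 0) (nat_lit 0) (nat_lit 0) (nat_lit 0) (nat_lit 0) (nat_lit 0) (nat_lit 1) (nat_lit 0) (nat_lit 1) (nat_lit 0) (nat_lit 330) (nat_lit 449) (nat_lit 301)) (XT.lf (nat_lit 0) (nat_lit 1013021480462) (nat_lit 0) (nat_lit 0) (nat_lit 0) (nat_lit 0) (nat_lit 0) (nat_lit 0) (nat_lit 1) (nat_lit 0) (nat_lit 1) (nat_lit 0) (nat_lit 331) (nat_lit 449) (nat_lit 300))))) (XT.nd (nat_lit 188) (nat_lit 0) (nat_lit 0) (XT.nd (nat_lit 94) (nat_lit 0) (nat_lit 0) (XT.lf (nat_lit 0) (nat_lit 1013020694971) (nat_lit 0) (nat_lit 0) (nat_lit 0) (nat_lit 0) (nat_lit 0) (nat_lit 0) (nat_lit 1) (nat_lit 0) (nat_lit 1) (nat_lit 0) (nat_lit 332) (nat_lit 449)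 (nat_lit 299)) (XT.lf (nat_lit 0) (nat_lit 1013019967666) (nat_lit 0) (nat_lit 0) (nat_lit 0) (nat_lit 0) (nat_lit 0) (nat_lit 0) (nat_lit 1) (nat_lit 0) (nat_lit 1) (nat_lit 0) (nat_lit 333) (nat_lit 449) (nat_lit 298))) (XT.nd (nat_lit 94) (nat_lit 0) (nat_lit 0) (XT.lf (nat_lit 0) (nat_lit 1013019294234) (nat_lit 0) (nat_lit 0) (nat_lit 0) (nat_lit 0) (nat_lit 0) (nat_lit 0) (nat_lit 1) (nat_lit 0) (nat_lit 1) (nat_lit 0) (nat_lit 334) (nat_lit 449) (nat_lit 297)) (XT.nd (nat_lit 94) (nat_lit 0) (nat_lit 0) (XT.lf (nat_lit 0) (nat_lit 1013018670687) (nat_lit 0) (nat_lit 0) (nat_lit 0) (nat_lit 0) (nat_lit 0) (nat_lit 0) (nat_lit 1) (nat_lit 0) (nat_lit 1) (nat_lit 0) (nat_lit 335) (nat_lit 449) (nat_lit 296)) (XT.lf (nat_lit 0) (nat_lit 1013018093328) (nat_lit 0) (nat_lit 0) (nat_lit 0) (nat_lit 0) (nat_lit 0) (nat_lit 0) (nat_lit 1) (nat_lit 0) (nat_lit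 1) (nat_lit 0) (nat_lit 336) (nat_lit 449) (nat_lit 295))))))))
noncomputable def ec432 : XT := (XT.nd (nat_lit 1692) (nat_lit 0) (nat_lit 0) (XT.nd (nat_lit 846) (nat_lit 0) (nat_lit 0) (XT.nd (nat_lit 376) (nat_lit 0) (nat_lit 0) (XT.nd (nat_lit 188) (nat_lit 0) (nat_lit 0) (XT.nd (nat_lit 94) (nat_lit 0) (nat_lit 0) (XT.lf (nat_lit 0) (nat_lit 1013017558737) (nat_lit 0) (nat_lit 0) (nat_lit 0) (nat_lit 0) (nat_lit 0) (nat_lit 0) (nat_lit 1) (nat_lit 0) (nat_lit 1) (nat_lit 0) (nat_lit 337) (nat_lit 449) (nat_lit 294)) (XT.lf (nat_lit 0) (nat_lit 1013017063745) (nat_lit 0) (nat_lit 0) (nat_lit 0) (nat_lit 0) (nat_lit 0) (nat_lit 0) (nat_lit 1) (nat_lit 0) (nat_lit 1) (nat_lit 0) (nat_lit 338) (nat_lit 449) (nat_lit 293))) (XT.nd (nat_lit 94) (nat_lit 0) (nat_lit 0) (XT.lf (nat_lit 0) (nat_lit 1013016605419) (nat_lit 0) (nat_lit 0) (nat_lit 0) (nat_lit 0)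 (nat_lit 0) (nat_lit 0) (nat_lit 1) (nat_lit 0) (nat_lit 1) (nat_lit 0) (nat_lit 339) (nat_lit 449) (nat_lit 292)) (XT.lf (nat_lit 0) (nat_lit 1013016181043) (nat_lit 0) (nat_lit 0) (nat_lit 0) (nat_lit 0) (nat_lit 0) (nat_lit 0) (nat_lit 1) (nat_lit 0) (nat_lit 1) (nat_lit 0) (nat_lit 340) (nat_lit 449) (nat_lit 291)))) (XT.nd (nat_lit 188) (nat_lit 0) (nat_lit 0) (XT.nd (nat_lit 94) (nat_lit 0) (nat_lit 0) (XT.lf (nat_lit 0) (nat_lit 1013015788102) (nat_lit 0) (nat_lit 0) (nat_lit 0) (nat_lit 0) (nat_lit 0) (nat_lit 0) (nat_lit 1) (nat_lit 0) (nat_lit 1) (nat_lit 0) (nat_lit 341) (nat_lit 449) (nat_lit 290)) (XT.lf (nat_lit 0) (nat_lit 1013015424268) (nat_lit 0) (nat_lit 0) (nat_lit 0) (nat_lit 0) (nat_lit 0) (nat_lit 0) (nat_lit 1) (nat_lit 0) (nat_lit 1) (nat_lit 0) (nat_lit 342) (nat_lit 449) (nat_lit 289))) (XT.nd (nat_lit 94) (nat_lit 0) (nat_lit 0)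 (XT.lf (nat_lit 0) (nat_lit 1013015087385) (nat_lit 0) (nat_lit 0) (nat_lit 0) (nat_lit 0) (nat_lit 0) (nat_lit 0) (nat_lit 1) (nat_lit 0) (nat_lit 1) (nat_lit 0) (nat_lit 343) (nat_lit 449) (nat_lit 288)) (XT.nd (nat_lit 94) (nat_lit 0) (nat_lit 0) (XT.lf (nat_lit 0) (nat_lit 1013014775456) (nat_lit 0) (nat_lit 0) (nat_lit 0) (nat_lit 0) (nat_lit 0) (nat_lit 0) (nat_lit 1) (nat_lit 0) (nat_lit 1) (nat_lit 0) (nat_lit 344) (nat_lit 449) (nat_lit 287)) (XT.lf (nat_lit 0) (nat_lit 1013014486633) (nat_lit 0) (nat_lit 0) (nat_lit 0) (nat_lit 0) (nat_lit 0) (nat_lit 0) (nat_lit 1) (nat_lit 0) (nat_lit 1) (nat_lit 0) (nat_lit 345) (nat_lit 449) (nat_lit 286)))))) (XT.nd (nat_lit 376) (nat_lit 0) (nat_lit 0) (XT.nd (nat_lit 188) (nat_lit 0) (nat_lit 0) (XT.nd (nat_lit 94) (nat_lit 0) (nat_lit 0) (XT.lf (nat_lit 0) (nat_lit 1013014219204) (nat_lit 0) (nat_lit 0) (nat_lit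 0) (nat_lit 0) (nat_lit 0) (nat_lit 0) (nat_lit 1) (nat_lit 0) (nat_lit 1) (nat_lit 0) (nat_lit 346) (nat_lit 449) (nat_lit 285)) (XT.lf (nat_lit 0) (nat_lit 1013013971585) (nat_lit 0) (nat_lit 0) (nat_lit 0) (nat_lit 0) (nat_lit 0) (nat_lit 0) (nat_lit 1) (nat_lit 0) (nat_lit 1) (nat_lit 0) (nat_lit 347) (nat_lit 449) (nat_lit 284))) (XT.nd (nat_lit 94) (nat_lit 0) (nat_lit 0) (XT.lf (nat_lit 0) (nat_lit 1013013742308) (nat_lit 0) (nat_lit 0) (nat_lit 0) (nat_lit 0) (nat_lit 0) (nat_lit 0) (nat_lit 1) (nat_lit 0) (nat_lit 1) (nat_lit 0) (nat_lit 348) (nat_lit 449) (nat_lit 283)) (XT.lf (nat_lit 0) (nat_lit 1013013530014) (nat_lit 0) (nat_lit 0) (nat_lit 0) (nat_lit 0) (nat_lit 0) (nat_lit 0) (nat_lit 1) (nat_lit 0) (nat_lit 1) (nat_lit 0) (nat_lit 349) (nat_lit 449) (nat_lit 282)))) (XT.nd (nat_lit 188) (nat_lit 0) (nat_lit 0) (XT.nd (nat_lit 94) (nat_lit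 0) (nat_lit 0) (XT.lf (nat_lit 0) (nat_lit 1013013333446) (nat_lit 0) (nat_lit 0) (nat_lit 0) (nat_lit 0) (nat_lit 0) (nat_lit 0) (nat_lit 1) (nat_lit 0) (nat_lit 1) (nat_lit 0) (nat_lit 350) (nat_lit 449) (nat_lit 281)) (XT.lf (nat_lit 0) (nat_lit 1013013151438) (nat_lit 0) (nat_lit 0) (nat_lit 0) (nat_lit 0) (nat_lit 0) (nat_lit 0) (nat_lit 1) (nat_lit 0) (nat_lit 1) (nat_lit 0) (nat_lit 351) (nat_lit 449) (nat_lit 280))) (XT.nd (nat_lit 94) (nat_lit 0) (nat_lit 0) (XT.lf (nat_lit 0) (nat_lit 1013012982913) (nat_lit 0) (nat_lit 0) (nat_lit 0) (nat_lit 0) (nat_lit 0) (nat_lit 0) (nat_lit 1) (nat_lit 0) (nat_lit 1) (nat_lit 0) (nat_lit 352) (nat_lit 449) (nat_lit 279)) (XT.nd (nat_lit 94) (nat_lit 0) (nat_lit 0) (XT.lf (nat_lit 0) (nat_lit 1013012826871) (nat_lit 0) (nat_lit 0) (nat_lit 0) (nat_lit 0) (nat_lit 0) (nat_lit 0) (nat_lit 1) (nat_lit 0) (nat_lit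 1) (nat_lit 0) (nat_lit 353) (nat_lit 449) (nat_lit 278)) (XT.lf (nat_lit 0) (nat_lit 1013012682387) (nat_lit 0) (nat_lit 0) (nat_lit 0) (nat_lit 0) (nat_lit 0) (nat_lit 0) (nat_lit 1) (nat_lit 0) (nat_lit 1) (nat_lit 0) (nat_lit 354) (nat_lit 449) (nat_lit 277))))))) (XT.nd (nat_lit 846) (nat_lit 0) (nat_lit 0) (XT.nd (nat_lit 376) (nat_lit 0) (nat_lit 0) (XT.nd (nat_lit 188) (nat_lit 0) (nat_lit 0) (XT.nd (nat_lit 94) (nat_lit 0) (nat_lit 0) (XT.lf (nat_lit 0) (nat_lit 1013012548606) (nat_lit 0) (nat_lit 0) (nat_lit 0) (nat_lit 0) (nat_lit 0) (nat_lit 0) (nat_lit 1) (nat_lit 0) (nat_lit 1) (nat_lit 0) (nat_lit 355) (nat_lit 449) (nat_lit 276)) (XT.lf (nat_lit 0) (nat_lit 1013012424735) (nat_lit 0) (nat_lit 0) (nat_lit 0) (nat_lit 0) (nat_lit 0) (nat_lit 0) (nat_lit 1) (nat_lit 0) (nat_lit 1) (nat_lit 0) (nat_lit 356) (nat_lit 449) (nat_lit 275))) (XT.nd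 (nat_lit 94) (nat_lit 0) (nat_lit 0) (XT.lf (nat_lit 0) (nat_lit 1013012310039) (nat_lit 0) (nat_lit 0) (nat_lit 0) (nat_lit 0) (nat_lit 0) (nat_lit 0) (nat_lit 1) (nat_lit 0) (nat_lit 1) (nat_lit 0) (nat_lit 357) (nat_lit 449) (nat_lit 274)) (XT.lf (nat_lit 0) (nat_lit 1013012203840) (nat_lit 0) (nat_lit 0) (nat_lit 0) (nat_lit 0) (nat_lit 0) (nat_lit 0) (nat_lit 1) (nat_lit 0) (nat_lit 1) (nat_lit 0) (nat_lit 358) (nat_lit 449) (nat_lit 273)))) (XT.nd (nat_lit 188) (nat_lit 0) (nat_lit 0) (XT.nd (nat_lit 94) (nat_lit 0) (nat_lit 0) (XT.lf (nat_lit 0) (nat_lit 1013012105507) (nat_lit 0) (nat_lit 0) (nat_lit 0) (nat_lit 0) (nat_lit 0) (nat_lit 0) (nat_lit 1) (nat_lit 0) (nat_lit 1) (nat_lit 0) (nat_lit 359) (nat_lit 449) (nat_lit 272)) (XT.lf (nat_lit 0) (nat_lit 1013012014457) (nat_lit 0) (nat_lit 0) (nat_lit 0) (nat_lit 0) (nat_lit 0) (nat_lit 0) (nat_lit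 1) (nat_lit 0) (nat_lit 1) (nat_lit 0) (nat_lit 360) (nat_lit 449) (nat_lit 271))) (XT.nd (nat_lit 94) (nat_lit 0) (nat_lit 0) (XT.lf (nat_lit 0) (nat_lit 1013011930153) (nat_lit 0) (nat_lit 0) (nat_lit 0) (nat_lit 0) (nat_lit 0) (nat_lit 0) (nat_lit 1) (nat_lit 0) (nat_lit 1) (nat_lit 0) (nat_lit 361) (nat_lit 449) (nat_lit 270)) (XT.nd (nat_lit 94) (nat_lit 0) (nat_lit 0) (XT.lf (nat_lit 0) (nat_lit 1013011852093) (nat_lit 0) (nat_lit 0) (nat_lit 0) (nat_lit 0) (nat_lit 0) (nat_lit 0) (nat_lit 1) (nat_lit 0) (nat_lit 1) (nat_lit 0) (nat_lit 362) (nat_lit 449) (nat_lit 269)) (XT.lf (nat_lit 0) (nat_lit 1013011779815) (nat_lit 0) (nat_lit 0) (nat_lit 0) (nat_lit 0) (nat_lit 0) (nat_lit 0) (nat_lit 1) (nat_lit 0) (nat_lit 1) (nat_lit 0) (nat_lit 363) (nat_lit 449) (nat_lit 268)))))) (XT.nd (nat_lit 470) (nat_lit 0) (nat_lit 0) (XT.nd (nat_lit 188) (nat_lit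 0) (nat_lit 0) (XT.nd (nat_lit 94) (nat_lit 0) (nat_lit 0) (XT.lf (nat_lit 0) (nat_lit 1013011712891) (nat_lit 0) (nat_lit 0) (nat_lit 0) (nat_lit 0) (nat_lit 0) (nat_lit 0) (nat_lit 1) (nat_lit 0) (nat_lit 1) (nat_lit 0) (nat_lit 364) (nat_lit 449) (nat_lit 267)) (XT.lf (nat_lit 0) (nat_lit 1013011650925) (nat_lit 0) (nat_lit 0) (nat_lit 0) (nat_lit 0) (nat_lit 0) (nat_lit 0) (nat_lit 1) (nat_lit 0) (nat_lit 1) (nat_lit 0) (nat_lit 365) (nat_lit 449) (nat_lit 266))) (XT.nd (nat_lit 94) (nat_lit 0) (nat_lit 0) (XT.lf (nat_lit 0) (nat_lit 1013011593548) (nat_lit 0) (nat_lit 0) (nat_lit 0) (nat_lit 0) (nat_lit 0) (nat_lit 0) (nat_lit 1) (nat_lit 0) (nat_lit 1) (nat_lit 0) (nat_lit 366) (nat_lit 449) (nat_lit 265)) (XT.nd (nat_lit 94) (nat_lit 0) (nat_lit 0) (XT.lf (nat_lit 0) (nat_lit 1013011540422) (nat_lit 0) (nat_lit 0) (nat_lit 0) (nat_lit 0) (nat_lit 0)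 (nat_lit 0) (nat_lit 1) (nat_lit 0) (nat_lit 1) (nat_lit 0) (nat_lit 367) (nat_lit 449) (nat_lit 264)) (XT.lf (nat_lit 0) (nat_lit 1013011491231) (nat_lit 0) (nat_lit 0) (nat_lit 0) (nat_lit 0) (nat_lit 0) (nat_lit 0) (nat_lit 1) (nat_lit 0) (nat_lit 1) (nat_lit 0) (nat_lit 368) (nat_lit 449) (nat_lit 263))))) (XT.nd (nat_lit 188) (nat_lit 0) (nat_lit 0) (XT.nd (nat_lit 94) (nat_lit 0) (nat_lit 0) (XT.lf (nat_lit 0) (nat_lit 1013011445684) (nat_lit 0) (nat_lit 0) (nat_lit 0) (nat_lit 0) (nat_lit 0) (nat_lit 0) (nat_lit 1) (nat_lit 0) (nat_lit 1) (nat_lit 0) (nat_lit 369) (nat_lit 449) (nat_lit 262)) (XT.lf (nat_lit 0) (nat_lit 1013011403511) (nat_lit 0) (nat_lit 0) (nat_lit 0) (nat_lit 0) (nat_lit 0) (nat_lit 0) (nat_lit 1) (nat_lit 0) (nat_lit 1) (nat_lit 0) (nat_lit 370) (nat_lit 449) (nat_lit 261))) (XT.nd (nat_lit 94) (nat_lit 0) (nat_lit 0) (XT.lf (nat_lit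 0) (nat_lit 1013011364461) (nat_lit 0) (nat_lit 0) (nat_lit 0) (nat_lit 0) (nat_lit 0) (nat_lit 0) (nat_lit 1) (nat_lit 0) (nat_lit 1) (nat_lit 0) (nat_lit 371) (nat_lit 449) (nat_lit 260)) (XT.nd (nat_lit 94) (nat_lit 0) (nat_lit 0) (XT.lf (nat_lit 0) (nat_lit 1013011328304) (nat_lit 0) (nat_lit 0) (nat_lit 0) (nat_lit 0) (nat_lit 0) (nat_lit 0) (nat_lit 1) (nat_lit 0) (nat_lit 1) (nat_lit 0) (nat_lit 372) (nat_lit 449) (nat_lit 259)) (XT.lf (nat_lit 0) (nat_lit 1013011294826) (nat_lit 0) (nat_lit 0) (nat_lit 0) (nat_lit 0) (nat_lit 0) (nat_lit 0) (nat_lit 1) (nat_lit 0) (nat_lit 1) (nat_lit 0) (nat_lit 373) (nat_lit 449) (nat_lit 258))))))))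
noncomputable def ec433 : XT := (XT.nd (nat_lit 1786) (nat_lit 0) (nat_lit 0) (XT.nd (nat_lit 846) (nat_lit 0) (nat_lit 0) (XT.nd (nat_lit 376) (nat_lit 0) (nat_lit 0) (XT.nd (nat_lit 188) (nat_lit 0) (nat_lit 0) (XT.nd (nat_lit 94) (nat_lit 0) (nat_lit 0) (XT.lf (nat_lit 0) (nat_lit 1013011263827) (nat_lit 0) (nat_lit 0) (nat_lit 0) (nat_lit 0) (nat_lit 0) (nat_lit 0) (nat_lit 1) (nat_lit 0) (nat_lit 1) (nat_lit 0) (nat_lit 374) (nat_lit 449) (nat_lit 257)) (XT.lf (nat_lit 0) (nat_lit 1013011235125) (nat_lit 0) (nat_lit 0) (nat_lit 0) (nat_lit 0) (nat_lit 0) (nat_lit 0) (nat_lit 1) (nat_lit 0) (nat_lit 1) (nat_lit 0) (nat_lit 375) (nat_lit 449) (nat_lit 256))) (XT.nd (nat_lit 94) (nat_lit 0) (nat_lit 0) (XT.lf (nat_lit 0) (nat_lit 1013011208548) (nat_lit 0) (nat_lit 0) (nat_lit 0) (nat_lit 0) (nat_lit 0) (nat_lit 0) (nat_lit 1) (nat_lit 0) (nat_lit 1) (nat_lit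 0) (nat_lit 376) (nat_lit 449) (nat_lit 255)) (XT.lf (nat_lit 0) (nat_lit 1013011183941) (nat_lit 0) (nat_lit 0) (nat_lit 0) (nat_lit 0) (nat_lit 0) (nat_lit 0) (nat_lit 1) (nat_lit 0) (nat_lit 1) (nat_lit 0) (nat_lit 377) (nat_lit 449) (nat_lit 254)))) (XT.nd (nat_lit 188) (nat_lit 0) (nat_lit 0) (XT.nd (nat_lit 94) (nat_lit 0) (nat_lit 0) (XT.lf (nat_lit 0) (nat_lit 1013011161156) (nat_lit 0) (nat_lit 0) (nat_lit 0) (nat_lit 0) (nat_lit 0) (nat_lit 0) (nat_lit 1) (nat_lit 0) (nat_lit 1) (nat_lit 0) (nat_lit 378) (nat_lit 449) (nat_lit 253)) (XT.lf (nat_lit 0) (nat_lit 1013011140058) (nat_lit 0) (nat_lit 0) (nat_lit 0) (nat_lit 0) (nat_lit 0) (nat_lit 0) (nat_lit 1) (nat_lit 0) (nat_lit 1) (nat_lit 0) (nat_lit 379) (nat_lit 449) (nat_lit 252))) (XT.nd (nat_lit 94) (nat_lit 0) (nat_lit 0) (XT.lf (nat_lit 0) (nat_lit 1013011120524) (nat_lit 0) (nat_lit 0) (nat_lit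 0) (nat_lit 0) (nat_lit 0) (nat_lit 0) (nat_lit 1) (nat_lit 0) (nat_lit 1) (nat_lit 0) (nat_lit 380) (nat_lit 449) (nat_lit 251)) (XT.nd (nat_lit 94) (nat_lit 0) (nat_lit 0) (XT.lf (nat_lit 0) (nat_lit 1013011102437) (nat_lit 0) (nat_lit 0) (nat_lit 0) (nat_lit 0) (nat_lit 0) (nat_lit 0) (nat_lit 1) (nat_lit 0) (nat_lit 1) (nat_lit 0) (nat_lit 381) (nat_lit 449) (nat_lit 250)) (XT.lf (nat_lit 0) (nat_lit 1013011085689) (nat_lit 0) (nat_lit 0) (nat_lit 0) (nat_lit 0) (nat_lit 0) (nat_lit 0) (nat_lit 1) (nat_lit 0) (nat_lit 1) (nat_lit 0) (nat_lit 382) (nat_lit 449) (nat_lit 249)))))) (XT.nd (nat_lit 470) (nat_lit 0) (nat_lit 0) (XT.nd (nat_lit 188) (nat_lit 0) (nat_lit 0) (XT.nd (nat_lit 94) (nat_lit 0) (nat_lit 0) (XT.lf (nat_lit 0) (nat_lit 1013011070182) (nat_lit 0) (nat_lit 0) (nat_lit 0) (nat_lit 0) (nat_lit 0) (nat_lit 0) (nat_lit 1) (nat_lit 0) (nat_lit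 1) (nat_lit 0) (nat_lit 383) (nat_lit 449) (nat_lit 248)) (XT.lf (nat_lit 0) (nat_lit 1013011055824) (nat_lit 0) (nat_lit 0) (nat_lit 0) (nat_lit 0) (nat_lit 0) (nat_lit 0) (nat_lit 1) (nat_lit 0) (nat_lit 1) (nat_lit 0) (nat_lit 384) (nat_lit 449) (nat_lit 247))) (XT.nd (nat_lit 94) (nat_lit 0) (nat_lit 0) (XT.lf (nat_lit 0) (nat_lit 1013011042529) (nat_lit 0) (nat_lit 0) (nat_lit 0) (nat_lit 0) (nat_lit 0) (nat_lit 0) (nat_lit 1) (nat_lit 0) (nat_lit 1) (nat_lit 0) (nat_lit 385) (nat_lit 449) (nat_lit 246)) (XT.nd (nat_lit 94) (nat_lit 0) (nat_lit 0) (XT.lf (nat_lit 0) (nat_lit 1013011030219) (nat_lit 0) (nat_lit 0) (nat_lit 0) (nat_lit 0) (nat_lit 0) (nat_lit 0) (nat_lit 1) (nat_lit 0) (nat_lit 1) (nat_lit 0) (nat_lit 386) (nat_lit 449) (nat_lit 245)) (XT.lf (nat_lit 0) (nat_lit 1013011018821) (nat_lit 0) (nat_lit 0) (nat_lit 0) (nat_lit 0) (nat_lit 0)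 (nat_lit 0) (nat_lit 1) (nat_lit 0) (nat_lit 1) (nat_lit 0) (nat_lit 387) (nat_lit 449) (nat_lit 244))))) (XT.nd (nat_lit 188) (nat_lit 0) (nat_lit 0) (XT.nd (nat_lit 94) (nat_lit 0) (nat_lit 0) (XT.lf (nat_lit 0) (nat_lit 1013011008267) (nat_lit 0) (nat_lit 0) (nat_lit 0) (nat_lit 0) (nat_lit 0) (nat_lit 0) (nat_lit 1) (nat_lit 0) (nat_lit 1) (nat_lit 0) (nat_lit 388) (nat_lit 449) (nat_lit 243)) (XT.lf (nat_lit 0) (nat_lit 1013010998495) (nat_lit 0) (nat_lit 0) (nat_lit 0) (nat_lit 0) (nat_lit 0) (nat_lit 0) (nat_lit 1) (nat_lit 0) (nat_lit 1) (nat_lit 0) (nat_lit 389) (nat_lit 449) (nat_lit 242))) (XT.nd (nat_lit 94) (nat_lit 0) (nat_lit 0) (XT.lf (nat_lit 0) (nat_lit 1013010989446) (nat_lit 0) (nat_lit 0) (nat_lit 0) (nat_lit 0) (nat_lit 0) (nat_lit 0) (nat_lit 1) (nat_lit 0) (nat_lit 1) (nat_lit 0) (nat_lit 390) (nat_lit 449) (nat_lit 241)) (XT.nd (nat_lit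 94) (nat_lit 0) (nat_lit 0) (XT.lf (nat_lit 0) (nat_lit 1013010981069) (nat_lit 0) (nat_lit 0) (nat_lit 0) (nat_lit 0) (nat_lit 0) (nat_lit 0) (nat_lit 1) (nat_lit 0) (nat_lit 1) (nat_lit 0) (nat_lit 391) (nat_lit 449) (nat_lit 240)) (XT.lf (nat_lit 0) (nat_lit 1013010973311) (nat_lit 0) (nat_lit 0) (nat_lit 0) (nat_lit 0) (nat_lit 0) (nat_lit 0) (nat_lit 1) (nat_lit 0) (nat_lit 1) (nat_lit 0) (nat_lit 392) (nat_lit 449) (nat_lit 239))))))) (XT.nd (nat_lit 846) (nat_lit 0) (nat_lit 0) (XT.nd (nat_lit 376) (nat_lit 0) (nat_lit 0) (XT.nd (nat_lit 188) (nat_lit 0) (nat_lit 0) (XT.nd (nat_lit 94) (nat_lit 0) (nat_lit 0) (XT.lf (nat_lit 0) (nat_lit 1013010966128) (nat_lit 0) (nat_lit 0) (nat_lit 0) (nat_lit 0) (nat_lit 0) (nat_lit 0) (nat_lit 1) (nat_lit 0) (nat_lit 1) (nat_lit 0) (nat_lit 393) (nat_lit 449) (nat_lit 238)) (XT.lf (nat_lit 0) (nat_lit 1013010959478)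 (nat_lit 0) (nat_lit 0) (nat_lit 0) (nat_lit 0) (nat_lit 0) (nat_lit 0) (nat_lit 1) (nat_lit 0) (nat_lit 1) (nat_lit 0) (nat_lit 394) (nat_lit 449) (nat_lit 237))) (XT.nd (nat_lit 94) (nat_lit 0) (nat_lit 0) (XT.lf (nat_lit 0) (nat_lit 1013010953320) (nat_lit 0) (nat_lit 0) (nat_lit 0) (nat_lit 0) (nat_lit 0) (nat_lit 0) (nat_lit 1) (nat_lit 0) (nat_lit 1) (nat_lit 0) (nat_lit 395) (nat_lit 449) (nat_lit 236)) (XT.lf (nat_lit 0) (nat_lit 1013010947618) (nat_lit 0) (nat_lit 0) (nat_lit 0) (nat_lit 0) (nat_lit 0) (nat_lit 0) (nat_lit 1) (nat_lit 0) (nat_lit 1) (nat_lit 0) (nat_lit 396) (nat_lit 449) (nat_lit 235)))) (XT.nd (nat_lit 188) (nat_lit 0) (nat_lit 0) (XT.nd (nat_lit 94) (nat_lit 0) (nat_lit 0) (XT.lf (nat_lit 0) (nat_lit 1013010942338) (nat_lit 0) (nat_lit 0) (nat_lit 0) (nat_lit 0) (nat_lit 0) (nat_lit 0) (nat_lit 1) (nat_lit 0) (nat_lit 1) (nat_lit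 0) (nat_lit 397) (nat_lit 449) (nat_lit 234)) (XT.lf (nat_lit 0) (nat_lit 1013010937450) (nat_lit 0) (nat_lit 0) (nat_lit 0) (nat_lit 0) (nat_lit 0) (nat_lit 0) (nat_lit 1) (nat_lit 0) (nat_lit 1) (nat_lit 0) (nat_lit 398) (nat_lit 449) (nat_lit 233))) (XT.nd (nat_lit 94) (nat_lit 0) (nat_lit 0) (XT.lf (nat_lit 0) (nat_lit 1013010932923) (nat_lit 0) (nat_lit 0) (nat_lit 0) (nat_lit 0) (nat_lit 0) (nat_lit 0) (nat_lit 1) (nat_lit 0) (nat_lit 1) (nat_lit 0) (nat_lit 399) (nat_lit 449) (nat_lit 232)) (XT.nd (nat_lit 94) (nat_lit 0) (nat_lit 0) (XT.lf (nat_lit 0) (nat_lit 1013010928732) (nat_lit 0) (nat_lit 0) (nat_lit 0) (nat_lit 0) (nat_lit 0) (nat_lit 0) (nat_lit 1) (nat_lit 0) (nat_lit 1) (nat_lit 0) (nat_lit 400) (nat_lit 449) (nat_lit 231)) (XT.lf (nat_lit 0) (nat_lit 1013010924852) (nat_lit 0) (nat_lit 0) (nat_lit 0) (nat_lit 0) (nat_lit 0) (nat_lit 0)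 (nat_lit 1) (nat_lit 0) (nat_lit 1) (nat_lit 0) (nat_lit 401) (nat_lit 449) (nat_lit 230)))))) (XT.nd (nat_lit 470) (nat_lit 0) (nat_lit 0) (XT.nd (nat_lit 188) (nat_lit 0) (nat_lit 0) (XT.nd (nat_lit 94) (nat_lit 0) (nat_lit 0) (XT.lf (nat_lit 0) (nat_lit 1013010921258) (nat_lit 0) (nat_lit 0) (nat_lit 0) (nat_lit 0) (nat_lit 0) (nat_lit 0) (nat_lit 1) (nat_lit 0) (nat_lit 1) (nat_lit 0) (nat_lit 402) (nat_lit 449) (nat_lit 229)) (XT.lf (nat_lit 0) (nat_lit 1013010917931) (nat_lit 0) (nat_lit 0) (nat_lit 0) (nat_lit 0) (nat_lit 0) (nat_lit 0) (nat_lit 1) (nat_lit 0) (nat_lit 1) (nat_lit 0) (nat_lit 403) (nat_lit 449) (nat_lit 228))) (XT.nd (nat_lit 94) (nat_lit 0) (nat_lit 0) (XT.lf (nat_lit 0) (nat_lit 1013010914851) (nat_lit 0) (nat_lit 0) (nat_lit 0) (nat_lit 0) (nat_lit 0) (nat_lit 0) (nat_lit 1) (nat_lit 0) (nat_lit 1) (nat_lit 0) (nat_lit 404) (nat_lit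 449) (nat_lit 227)) (XT.nd (nat_lit 94) (nat_lit 0) (nat_lit 0) (XT.lf (nat_lit 0) (nat_lit 1013010911998) (nat_lit 0) (nat_lit 0) (nat_lit 0) (nat_lit 0) (nat_lit 0) (nat_lit 0) (nat_lit 1) (nat_lit 0) (nat_lit 1) (nat_lit 0) (nat_lit 405) (nat_lit 449) (nat_lit 226)) (XT.lf (nat_lit 0) (nat_lit 1013010909357) (nat_lit 0) (nat_lit 0) (nat_lit 0) (nat_lit 0) (nat_lit 0) (nat_lit 0) (nat_lit 1) (nat_lit 0) (nat_lit 1) (nat_lit 0) (nat_lit 406) (nat_lit 449) (nat_lit 225))))) (XT.nd (nat_lit 188) (nat_lit 0) (nat_lit 0) (XT.nd (nat_lit 94) (nat_lit 0) (nat_lit 0) (XT.lf (nat_lit 0) (nat_lit 1013010906912) (nat_lit 0) (nat_lit 0) (nat_lit 0) (nat_lit 0) (nat_lit 0) (nat_lit 0) (nat_lit 1) (nat_lit 0) (nat_lit 1) (nat_lit 0) (nat_lit 407) (nat_lit 449) (nat_lit 224)) (XT.lf (nat_lit 0) (nat_lit 1013010904648) (nat_lit 0) (nat_lit 0) (nat_lit 0) (nat_lit 0) (nat_lit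 0) (nat_lit 0) (nat_lit 1) (nat_lit 0) (nat_lit 1) (nat_lit 0) (nat_lit 408) (nat_lit 449) (nat_lit 223))) (XT.nd (nat_lit 94) (nat_lit 0) (nat_lit 0) (XT.lf (nat_lit 0) (nat_lit 1013010902551) (nat_lit 0) (nat_lit 0) (nat_lit 0) (nat_lit 0) (nat_lit 0) (nat_lit 0) (nat_lit 1) (nat_lit 0) (nat_lit 1) (nat_lit 0) (nat_lit 409) (nat_lit 449) (nat_lit 222)) (XT.nd (nat_lit 94) (nat_lit 0) (nat_lit 0) (XT.lf (nat_lit 0) (nat_lit 1013010900610) (nat_lit 0) (nat_lit 0) (nat_lit 0) (nat_lit 0) (nat_lit 0) (nat_lit 0) (nat_lit 1) (nat_lit 0) (nat_lit 1) (nat_lit 0) (nat_lit 410) (nat_lit 449) (nat_lit 221)) (XT.lf (nat_lit 0) (nat_lit 1013010898812) (nat_lit 0) (nat_lit 0) (nat_lit 0) (nat_lit 0) (nat_lit 0) (nat_lit 0) (nat_lit 1) (nat_lit 0) (nat_lit 1) (nat_lit 0) (nat_lit 411) (nat_lit 449) (nat_lit 220))))))))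
noncomputable def ec434 : XT := (XT.nd (nat_lit 2632) (nat_lit 0) (nat_lit 0) (XT.nd (nat_lit 846) (nat_lit 0) (nat_lit 0) (XT.nd (nat_lit 376) (nat_lit 0) (nat_lit 0) (XT.nd (nat_lit 188) (nat_lit 0) (nat_lit 0) (XT.nd (nat_lit 94) (nat_lit 0) (nat_lit 0) (XT.lf (nat_lit 0) (nat_lit 1013010897148) (nat_lit 0) (nat_lit 0) (nat_lit 0) (nat_lit 0) (nat_lit 0) (nat_lit 0) (nat_lit 1) (nat_lit 0) (nat_lit 1) (nat_lit 0) (nat_lit 412) (nat_lit 449) (nat_lit 219)) (XT.lf (nat_lit 0) (nat_lit 1013010895607) (nat_lit 0) (nat_lit 0) (nat_lit 0) (nat_lit 0) (nat_lit 0) (nat_lit 0) (nat_lit 1) (nat_lit 0) (nat_lit 1) (nat_lit 0) (nat_lit 413) (nat_lit 449) (nat_lit 218))) (XT.nd (nat_lit 94) (nat_lit 0) (nat_lit 0) (XT.lf (nat_lit 0) (nat_lit 1013010894180) (nat_lit 0) (nat_lit 0) (nat_lit 0) (nat_lit 0) (nat_lit 0) (nat_lit 0) (nat_lit 1) (nat_lit 0) (nat_lit 1) (nat_lit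 0) (nat_lit 414) (nat_lit 449) (nat_lit 217)) (XT.lf (nat_lit 0) (nat_lit 1013010892859) (nat_lit 0) (nat_lit 0) (nat_lit 0) (nat_lit 0) (nat_lit 0) (nat_lit 0) (nat_lit 1) (nat_lit 0) (nat_lit 1) (nat_lit 0) (nat_lit 415) (nat_lit 449) (nat_lit 216)))) (XT.nd (nat_lit 188) (nat_lit 0) (nat_lit 0) (XT.nd (nat_lit 94) (nat_lit 0) (nat_lit 0) (XT.lf (nat_lit 0) (nat_lit 1013010891635) (nat_lit 0) (nat_lit 0) (nat_lit 0) (nat_lit 0) (nat_lit 0) (nat_lit 0) (nat_lit 1) (nat_lit 0) (nat_lit 1) (nat_lit 0) (nat_lit 416) (nat_lit 449) (nat_lit 215)) (XT.lf (nat_lit 0) (nat_lit 1013010890503) (nat_lit 0) (nat_lit 0) (nat_lit 0) (nat_lit 0) (nat_lit 0) (nat_lit 0) (nat_lit 1) (nat_lit 0) (nat_lit 1) (nat_lit 0) (nat_lit 417) (nat_lit 449) (nat_lit 214))) (XT.nd (nat_lit 94) (nat_lit 0) (nat_lit 0) (XT.lf (nat_lit 0) (nat_lit 1013010889454) (nat_lit 0) (nat_lit 0) (nat_lit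 0) (nat_lit 0) (nat_lit 0) (nat_lit 0) (nat_lit 1) (nat_lit 0) (nat_lit 1) (nat_lit 0) (nat_lit 418) (nat_lit 449) (nat_lit 213)) (XT.nd (nat_lit 94) (nat_lit 0) (nat_lit 0) (XT.lf (nat_lit 0) (nat_lit 1013010888483) (nat_lit 0) (nat_lit 0) (nat_lit 0) (nat_lit 0) (nat_lit 0) (nat_lit 0) (nat_lit 1) (nat_lit 0) (nat_lit 1) (nat_lit 0) (nat_lit 419) (nat_lit 449) (nat_lit 212)) (XT.lf (nat_lit 0) (nat_lit 1013010887584) (nat_lit 0) (nat_lit 0) (nat_lit 0) (nat_lit 0) (nat_lit 0) (nat_lit 0) (nat_lit 1) (nat_lit 0) (nat_lit 1) (nat_lit 0) (nat_lit 420) (nat_lit 449) (nat_lit 211)))))) (XT.nd (nat_lit 376) (nat_lit 0) (nat_lit 0) (XT.nd (nat_lit 188) (nat_lit 0) (nat_lit 0) (XT.nd (nat_lit 94) (nat_lit 0) (nat_lit 0) (XT.lf (nat_lit 0) (nat_lit 1013010886751) (nat_lit 0) (nat_lit 0) (nat_lit 0) (nat_lit 0) (nat_lit 0) (nat_lit 0) (nat_lit 1) (nat_lit 0) (nat_lit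 1) (nat_lit 0) (nat_lit 421) (nat_lit 449) (nat_lit 210)) (XT.lf (nat_lit 0) (nat_lit 1013010885980) (nat_lit 0) (nat_lit 0) (nat_lit 0) (nat_lit 0) (nat_lit 0) (nat_lit 0) (nat_lit 1) (nat_lit 0) (nat_lit 1) (nat_lit 0) (nat_lit 422) (nat_lit 449) (nat_lit 209))) (XT.nd (nat_lit 94) (nat_lit 0) (nat_lit 0) (XT.lf (nat_lit 0) (nat_lit 1013010885266) (nat_lit 0) (nat_lit 0) (nat_lit 0) (nat_lit 0) (nat_lit 0) (nat_lit 0) (nat_lit 1) (nat_lit 0) (nat_lit 1) (nat_lit 0) (nat_lit 423) (nat_lit 449) (nat_lit 208)) (XT.lf (nat_lit 0) (nat_lit 1013010884605) (nat_lit 0) (nat_lit 0) (nat_lit 0) (nat_lit 0) (nat_lit 0) (nat_lit 0) (nat_lit 1) (nat_lit 0) (nat_lit 1) (nat_lit 0) (nat_lit 424) (nat_lit 449) (nat_lit 207)))) (XT.nd (nat_lit 188) (nat_lit 0) (nat_lit 0) (XT.nd (nat_lit 94) (nat_lit 0) (nat_lit 0) (XT.lf (nat_lit 0) (nat_lit 1013010883993) (nat_lit 0) (nat_lit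 0) (nat_lit 0) (nat_lit 0) (nat_lit 0) (nat_lit 0) (nat_lit 1) (nat_lit 0) (nat_lit 1) (nat_lit 0) (nat_lit 425) (nat_lit 449) (nat_lit 206)) (XT.lf (nat_lit 0) (nat_lit 1013010883427) (nat_lit 0) (nat_lit 0) (nat_lit 0) (nat_lit 0) (nat_lit 0) (nat_lit 0) (nat_lit 1) (nat_lit 0) (nat_lit 1) (nat_lit 0) (nat_lit 426) (nat_lit 449) (nat_lit 205))) (XT.nd (nat_lit 94) (nat_lit 0) (nat_lit 0) (XT.lf (nat_lit 0) (nat_lit 1013010882902) (nat_lit 0) (nat_lit 0) (nat_lit 0) (nat_lit 0) (nat_lit 0) (nat_lit 0) (nat_lit 1) (nat_lit 0) (nat_lit 1) (nat_lit 0) (nat_lit 427) (nat_lit 449) (nat_lit 204)) (XT.nd (nat_lit 1034) (nat_lit 0) (nat_lit 0) (XT.lf (nat_lit 0) (nat_lit 1013010882416) (nat_lit 0) (nat_lit 0) (nat_lit 0) (nat_lit 0) (nat_lit 0) (nat_lit 0) (nat_lit 1) (nat_lit 0) (nat_lit 1) (nat_lit 0) (nat_lit 428) (nat_lit 449) (nat_lit 203)) (XT.lf (nat_lit 0)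 (nat_lit 1013010878948) (nat_lit 0) (nat_lit 0) (nat_lit 0) (nat_lit 0) (nat_lit 0) (nat_lit 0) (nat_lit 1) (nat_lit 0) (nat_lit 1) (nat_lit 0) (nat_lit 439) (nat_lit 449) (nat_lit 192))))))) (XT.nd (nat_lit 846) (nat_lit 0) (nat_lit 0) (XT.nd (nat_lit 376) (nat_lit 0) (nat_lit 0) (XT.nd (nat_lit 188) (nat_lit 0) (nat_lit 0) (XT.nd (nat_lit 94) (nat_lit 0) (nat_lit 0) (XT.lf (nat_lit 0) (nat_lit 1013010878755) (nat_lit 0) (nat_lit 0) (nat_lit 0) (nat_lit 0) (nat_lit 0) (nat_lit 0) (nat_lit 1) (nat_lit 0) (nat_lit 1) (nat_lit 0) (nat_lit 440) (nat_lit 449) (nat_lit 191)) (XT.lf (nat_lit 0) (nat_lit 1013010878577) (nat_lit 0) (nat_lit 0) (nat_lit 0) (nat_lit 0) (nat_lit 0) (nat_lit 0) (nat_lit 1) (nat_lit 0) (nat_lit 1) (nat_lit 0) (nat_lit 441) (nat_lit 449) (nat_lit 190))) (XT.nd (nat_lit 94) (nat_lit 0) (nat_lit 0) (XT.lf (nat_lit 0) (nat_lit 1013010878411)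 (nat_lit 0) (nat_lit 0) (nat_lit 0) (nat_lit 0) (nat_lit 0) (nat_lit 0) (nat_lit 1) (nat_lit 0) (nat_lit 1) (nat_lit 0) (nat_lit 442) (nat_lit 449) (nat_lit 189)) (XT.lf (nat_lit 0) (nat_lit 1013010878258) (nat_lit 0) (nat_lit 0) (nat_lit 0) (nat_lit 0) (nat_lit 0) (nat_lit 0) (nat_lit 1) (nat_lit 0) (nat_lit 1) (nat_lit 0) (nat_lit 443) (nat_lit 449) (nat_lit 188)))) (XT.nd (nat_lit 188) (nat_lit 0) (nat_lit 0) (XT.nd (nat_lit 94) (nat_lit 0) (nat_lit 0) (XT.lf (nat_lit 0) (nat_lit 1013010878116) (nat_lit 0) (nat_lit 0) (nat_lit 0) (nat_lit 0) (nat_lit 0) (nat_lit 0) (nat_lit 1) (nat_lit 0) (nat_lit 1) (nat_lit 0) (nat_lit 444) (nat_lit 449) (nat_lit 187)) (XT.lf (nat_lit 0) (nat_lit 1013010877985) (nat_lit 0) (nat_lit 0) (nat_lit 0) (nat_lit 0) (nat_lit 0) (nat_lit 0) (nat_lit 1) (nat_lit 0) (nat_lit 1) (nat_lit 0) (nat_lit 445) (nat_lit 449) (nat_lit 186)))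 (XT.nd (nat_lit 94) (nat_lit 0) (nat_lit 0) (XT.lf (nat_lit 0) (nat_lit 1013010877863) (nat_lit 0) (nat_lit 0) (nat_lit 0) (nat_lit 0) (nat_lit 0) (nat_lit 0) (nat_lit 1) (nat_lit 0) (nat_lit 1) (nat_lit 0) (nat_lit 446) (nat_lit 449) (nat_lit 185)) (XT.nd (nat_lit 94) (nat_lit 0) (nat_lit 0) (XT.lf (nat_lit 0) (nat_lit 1013010877751) (nat_lit 0) (nat_lit 0) (nat_lit 0) (nat_lit 0) (nat_lit 0) (nat_lit 0) (nat_lit 1) (nat_lit 0) (nat_lit 1) (nat_lit 0) (nat_lit 447) (nat_lit 449) (nat_lit 184)) (XT.lf (nat_lit 0) (nat_lit 1013010877647) (nat_lit 0) (nat_lit 0) (nat_lit 0) (nat_lit 0) (nat_lit 0) (nat_lit 0) (nat_lit 1) (nat_lit 0) (nat_lit 1) (nat_lit 0) (nat_lit 448) (nat_lit 449) (nat_lit 183)))))) (XT.nd (nat_lit 42582) (nat_lit 0) (nat_lit 10836) (XT.nd (nat_lit 188) (nat_lit 0) (nat_lit 0) (XT.nd (nat_lit 94) (nat_lit 0) (nat_lit 0) (XT.lf (nat_lit 0)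 (nat_lit 1013010877550) (nat_lit 0) (nat_lit 0) (nat_lit 0) (nat_lit 0) (nat_lit 0) (nat_lit 0) (nat_lit 1) (nat_lit 0) (nat_lit 1) (nat_lit 0) (nat_lit 449) (nat_lit 449) (nat_lit 182)) (XT.lf (nat_lit 0) (nat_lit 1013010877461) (nat_lit 0) (nat_lit 0) (nat_lit 0) (nat_lit 0) (nat_lit 0) (nat_lit 0) (nat_lit 1) (nat_lit 0) (nat_lit 1) (nat_lit 0) (nat_lit 450) (nat_lit 449) (nat_lit 181))) (XT.nd (nat_lit 94) (nat_lit 0) (nat_lit 0) (XT.lf (nat_lit 0) (nat_lit 1013010877378) (nat_lit 0) (nat_lit 0) (nat_lit 0) (nat_lit 0) (nat_lit 0) (nat_lit 0) (nat_lit 1) (nat_lit 0) (nat_lit 1) (nat_lit 0) (nat_lit 451) (nat_lit 449) (nat_lit 180)) (XT.nd (nat_lit 42206) (nat_lit 0) (nat_lit 10752) (XT.lf (nat_lit 0) (nat_lit 1013010877301) (nat_lit 0) (nat_lit 0) (nat_lit 0) (nat_lit 0) (nat_lit 0) (nat_lit 0) (nat_lit 1) (nat_lit 0) (nat_lit 1) (nat_lit 0) (nat_lit 452)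 (nat_lit 449) (nat_lit 179)) (XT.lf (nat_lit 924) (nat_lit 547504474477) (nat_lit 0) (nat_lit 972092935946) (nat_lit 924) (nat_lit 547504474477) (nat_lit 139) (nat_lit 1) (nat_lit 128) (nat_lit 0) (nat_lit 139) (nat_lit 0) (nat_lit 180) (nat_lit 450) (nat_lit 450))))) (XT.nd (nat_lit 188) (nat_lit 0) (nat_lit 84) (XT.nd (nat_lit 94) (nat_lit 0) (nat_lit 0) (XT.lf (nat_lit 924) (nat_lit 204235968682) (nat_lit 0) (nat_lit 1908513051563) (nat_lit 840) (nat_lit 1866519388226) (nat_lit 140) (nat_lit 1) (nat_lit 129) (nat_lit 1) (nat_lit 139) (nat_lit 1) (nat_lit 181) (nat_lit 450) (nat_lit 449)) (XT.lf (nat_lit 924) (nat_lit 1875789485642) (nat_lit 84) (nat_lit 1278131833949) (nat_lit 0) (nat_lit 677862821335) (nat_lit 140) (nat_lit 1) (nat_lit 130) (nat_lit 1) (nat_lit 129) (nat_lit 1) (nat_lit 182) (nat_lit 450) (nat_lit 448))) (XT.nd (nat_lit 94) (nat_lit 0)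 (nat_lit 84) (XT.lf (nat_lit 924) (nat_lit 1620835782482) (nat_lit 84) (nat_lit 535656192436) (nat_lit 0) (nat_lit 1535188385294) (nat_lit 141) (nat_lit 1) (nat_lit 131) (nat_lit 1) (nat_lit 130) (nat_lit 1) (nat_lit 183) (nat_lit 450) (nat_lit 447)) (XT.nd (nat_lit 94) (nat_lit 0) (nat_lit 84) (XT.lf (nat_lit 924) (nat_lit 1199556277710) (nat_lit 0) (nat_lit 2244313095023) (nat_lit 840) (nat_lit 114728964770) (nat_lit 142) (nat_lit 1) (nat_lit 131) (nat_lit 1) (nat_lit 141) (nat_lit 1) (nat_lit 184) (nat_lit 450) (nat_lit 446)) (XT.lf (nat_lit 924) (nat_lit 287821767511) (nat_lit 0) (nat_lit 2474978681620) (nat_lit 840) (nat_lit 669071463815) (nat_lit 143) (nat_lit 1) (nat_lit 132) (nat_lit 1) (nat_lit 142) (nat_lit 1) (nat_lit 185) (nat_lit 450) (nat_lit 445))))))))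
noncomputable def ec435 : XT := (XT.nd (nat_lit 3008) (nat_lit 2436) (nat_lit 0) (XT.nd (nat_lit 2068) (nat_lit 1764) (nat_lit 0) (XT.nd (nat_lit 376) (nat_lit 4872) (nat_lit 0) (XT.nd (nat_lit 188) (nat_lit 1008) (nat_lit 0) (XT.nd (nat_lit 94) (nat_lit 756) (nat_lit 0) (XT.lf (nat_lit 924) (nat_lit 553076370135) (nat_lit 84) (nat_lit 2150958020492) (nat_lit 0) (nat_lit 607026891164) (nat_lit 143) (nat_lit 1) (nat_lit 133) (nat_lit 1) (nat_lit 132) (nat_lit 1) (nat_lit 186) (nat_lit 450) (nat_lit 444)) (XT.lf (nat_lit 924) (nat_lit 113589274593) (nat_lit 0) (nat_lit 1607983400722) (nat_lit 840) (nat_lit 1474503930273) (nat_lit 134) (nat_lit 1) (nat_lit 123) (nat_lit 1) (nat_lit 133) (nat_lit 1) (nat_lit 187) (nat_lit 450) (nat_lit 443))) (XT.nd (nat_lit 94) (nat_lit 420) (nat_lit 0) (XT.lf (nat_lit 84) (nat_lit 786515798864) (nat_lit 0) (nat_lit 340833897128)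 (nat_lit 588) (nat_lit 1959186646783) (nat_lit 117) (nat_lit 1) (nat_lit 116) (nat_lit 1) (nat_lit 123) (nat_lit 1) (nat_lit 188) (nat_lit 450) (nat_lit 442)) (XT.lf (nat_lit 504) (nat_lit 2167538545437) (nat_lit 0) (nat_lit 705580524899) (nat_lit 420) (nat_lit 109087108865) (nat_lit 117) (nat_lit 1) (nat_lit 111) (nat_lit 1) (nat_lit 116) (nat_lit 1) (nat_lit 189) (nat_lit 450) (nat_lit 441)))) (XT.nd (nat_lit 1410) (nat_lit 588) (nat_lit 0) (XT.nd (nat_lit 1316) (nat_lit 3864) (nat_lit 0) (XT.lf (nat_lit 504) (nat_lit 1564116455254) (nat_lit 0) (nat_lit 328874122045) (nat_lit 420) (nat_lit 989371448805) (nat_lit 112) (nat_lit 1) (nat_lit 106) (nat_lit 1) (nat_lit 111) (nat_lit 1) (nat_lit 190) (nat_lit 450) (nat_lit 440)) (XT.lf (nat_lit 252) (nat_lit 708215202414) (nat_lit 0) (nat_lit 442573743842) (nat_lit 168) (nat_lit 710679798447) (nat_lit 63) (nat_lit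 1) (nat_lit 60) (nat_lit 1) (nat_lit 62) (nat_lit 1) (nat_lit 204) (nat_lit 450) (nat_lit 426))) (XT.nd (nat_lit 94) (nat_lit 336) (nat_lit 0) (XT.lf (nat_lit 84) (nat_lit 384247972335) (nat_lit 0) (nat_lit 17748654744) (nat_lit 252) (nat_lit 1406417823843) (nat_lit 58) (nat_lit 1) (nat_lit 57) (nat_lit 1) (nat_lit 60) (nat_lit 1) (nat_lit 205) (nat_lit 450) (nat_lit 425)) (XT.nd (nat_lit 94) (nat_lit 168) (nat_lit 0) (XT.lf (nat_lit 252) (nat_lit 1050459756313) (nat_lit 0) (nat_lit 364007858846) (nat_lit 168) (nat_lit 342435853622) (nat_lit 58) (nat_lit 1) (nat_lit 55) (nat_lit 1) (nat_lit 57) (nat_lit 1) (nat_lit 206) (nat_lit 450) (nat_lit 424)) (XT.lf (nat_lit 252) (nat_lit 326314895173) (nat_lit 0) (nat_lit 338385557399) (nat_lit 168) (nat_lit 1042661524360) (nat_lit 56) (nat_lit 1) (nat_lit 53) (nat_lit 1) (nat_lit 55) (nat_lit 1) (nat_lit 207) (nat_lit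 450) (nat_lit 423)))))) (XT.nd (nat_lit 470) (nat_lit 924) (nat_lit 0) (XT.nd (nat_lit 188) (nat_lit 420) (nat_lit 0) (XT.nd (nat_lit 94) (nat_lit 168) (nat_lit 0) (XT.lf (nat_lit 252) (nat_lit 1295350209737) (nat_lit 0) (nat_lit 323299935010) (nat_lit 168) (nat_lit 41014347576) (nat_lit 53) (nat_lit 1) (nat_lit 50) (nat_lit 1) (nat_lit 52) (nat_lit 1) (nat_lit 208) (nat_lit 450) (nat_lit 422)) (XT.lf (nat_lit 252) (nat_lit 579738719472) (nat_lit 0) (nat_lit 308642438419) (nat_lit 168) (nat_lit 724911212368) (nat_lit 51) (nat_lit 1) (nat_lit 48) (nat_lit 1) (nat_lit 50) (nat_lit 1) (nat_lit 209) (nat_lit 450) (nat_lit 421))) (XT.nd (nat_lit 94) (nat_lit 252) (nat_lit 0) (XT.lf (nat_lit 84) (nat_lit 198582894506) (nat_lit 0) (nat_lit 109150107230) (nat_lit 168) (nat_lit 1261110642256) (nat_lit 47) (nat_lit 1) (nat_lit 46) (nat_lit 1) (nat_lit 48) (nat_lit 1)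 (nat_lit 210) (nat_lit 450) (nat_lit 420)) (XT.nd (nat_lit 94) (nat_lit 84) (nat_lit 0) (XT.lf (nat_lit 252) (nat_lit 760650541129) (nat_lit 0) (nat_lit 304474451793) (nat_lit 168) (nat_lit 460391546150) (nat_lit 47) (nat_lit 1) (nat_lit 44) (nat_lit 1) (nat_lit 46) (nat_lit 1) (nat_lit 211) (nat_lit 450) (nat_lit 419)) (XT.lf (nat_lit 168) (nat_lit 81911254573) (nat_lit 0) (nat_lit 311952737791) (nat_lit 84) (nat_lit 1090035940130) (nat_lit 45) (nat_lit 1) (nat_lit 43) (nat_lit 1) (nat_lit 44) (nat_lit 1) (nat_lit 212) (nat_lit 450) (nat_lit 418))))) (XT.nd (nat_lit 188) (nat_lit 588) (nat_lit 0) (XT.nd (nat_lit 94) (nat_lit 84) (nat_lit 0) (XT.lf (nat_lit 252) (nat_lit 884201751845) (nat_lit 0) (nat_lit 319044405104) (nat_lit 168) (nat_lit 240184667315) (nat_lit 43) (nat_lit 1) (nat_lit 40) (nat_lit 1) (nat_lit 42) (nat_lit 1) (nat_lit 213) (nat_lit 450)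 (nat_lit 417)) (XT.lf (nat_lit 168) (nat_lit 222383260672) (nat_lit 0) (nat_lit 330973796903) (nat_lit 84) (nat_lit 850968548700) (nat_lit 41) (nat_lit 1) (nat_lit 39) (nat_lit 1) (nat_lit 40) (nat_lit 1) (nat_lit 214) (nat_lit 450) (nat_lit 416))) (XT.nd (nat_lit 94) (nat_lit 336) (nat_lit 0) (XT.lf (nat_lit 252) (nat_lit 962642445354) (nat_lit 0) (nat_lit 346936761048) (nat_lit 168) (nat_lit 56935292431) (nat_lit 39) (nat_lit 1) (nat_lit 36) (nat_lit 1) (nat_lit 38) (nat_lit 1) (nat_lit 215) (nat_lit 450) (nat_lit 415)) (XT.nd (nat_lit 94) (nat_lit 252) (nat_lit 0) (XT.lf (nat_lit 168) (nat_lit 320040021311) (nat_lit 0) (nat_lit 361685742264) (nat_lit 84) (nat_lit 647991242679) (nat_lit 37) (nat_lit 1) (nat_lit 35) (nat_lit 1) (nat_lit 36) (nat_lit 1) (nat_lit 216) (nat_lit 450) (nat_lit 414)) (XT.lf (nat_lit 84) (nat_lit 92376286567) (nat_lit 0) (nat_lit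 289944539596) (nat_lit 252) (nat_lit 911920639920) (nat_lit 33) (nat_lit 1) (nat_lit 32) (nat_lit 1) (nat_lit 35) (nat_lit 1) (nat_lit 217) (nat_lit 450) (nat_lit 413))))))) (XT.nd (nat_lit 846) (nat_lit 1260) (nat_lit 0) (XT.nd (nat_lit 376) (nat_lit 588) (nat_lit 0) (XT.nd (nat_lit 188) (nat_lit 252) (nat_lit 0) (XT.nd (nat_lit 94) (nat_lit 252) (nat_lit 0) (XT.lf (nat_lit 168) (nat_lit 384076900463) (nat_lit 0) (nat_lit 400189925450) (nat_lit 84) (nat_lit 475380113203) (nat_lit 33) (nat_lit 1) (nat_lit 31) (nat_lit 1) (nat_lit 32) (nat_lit 1) (nat_lit 218) (nat_lit 450) (nat_lit 412)) (XT.lf (nat_lit 84) (nat_lit 214832846211) (nat_lit 0) (nat_lit 208080138513) (nat_lit 252) (nat_lit 803355163833) (nat_lit 29) (nat_lit 1) (nat_lit 28) (nat_lit 1) (nat_lit 31) (nat_lit 1) (nat_lit 219) (nat_lit 450) (nat_lit 411))) (XT.nd (nat_lit 94) (nat_lit 168) (nat_lit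 0) (XT.lf (nat_lit 168) (nat_lit 421909336958) (nat_lit 0) (nat_lit 443443011312) (nat_lit 84) (nat_lit 328389825184) (nat_lit 29) (nat_lit 1) (nat_lit 27) (nat_lit 1) (nat_lit 28) (nat_lit 1) (nat_lit 220) (nat_lit 450) (nat_lit 410)) (XT.lf (nat_lit 84) (nat_lit 316283627590) (nat_lit 0) (nat_lit 150703489325) (nat_lit 168) (nat_lit 695303264437) (nat_lit 26) (nat_lit 1) (nat_lit 25) (nat_lit 1) (nat_lit 27) (nat_lit 1) (nat_lit 221) (nat_lit 450) (nat_lit 409)))) (XT.nd (nat_lit 188) (nat_lit 336) (nat_lit 0) (XT.nd (nat_lit 94) (nat_lit 168) (nat_lit 0) (XT.lf (nat_lit 168) (nat_lit 439505435768) (nat_lit 0) (nat_lit 489090281183) (nat_lit 84) (nat_lit 203079059933) (nat_lit 26) (nat_lit 1) (nat_lit 24) (nat_lit 1) (nat_lit 25) (nat_lit 1) (nat_lit 222) (nat_lit 450) (nat_lit 408)) (XT.lf (nat_lit 84) (nat_lit 400069381392) (nat_lit 0) (nat_lit 112426768101)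 (nat_lit 168) (nat_lit 589504726896) (nat_lit 23) (nat_lit 1) (nat_lit 22) (nat_lit 1) (nat_lit 24) (nat_lit 1) (nat_lit 223) (nat_lit 450) (nat_lit 407))) (XT.nd (nat_lit 94) (nat_lit 252) (nat_lit 0) (XT.lf (nat_lit 168) (nat_lit 441657160730) (nat_lit 0) (nat_lit 535330156876) (nat_lit 84) (nat_lit 96167661972) (nat_lit 23) (nat_lit 1) (nat_lit 21) (nat_lit 1) (nat_lit 22) (nat_lit 1) (nat_lit 224) (nat_lit 450) (nat_lit 406)) (XT.nd (nat_lit 94) (nat_lit 84) (nat_lit 0) (XT.lf (nat_lit 84) (nat_lit 468966644230) (nat_lit 0) (nat_lit 88917663518) (nat_lit 168) (nat_lit 487242927144) (nat_lit 20) (nat_lit 1) (nat_lit 19) (nat_lit 1) (nat_lit 21) (nat_lit 1) (nat_lit 225) (nat_lit 450) (nat_lit 405)) (XT.lf (nat_lit 168) (nat_lit 432201417037) (nat_lit 0) (nat_lit 580804177396) (nat_lit 84) (nat_lit 4919692949) (nat_lit 20) (nat_lit 1) (nat_lit 18) (nat_lit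 1) (nat_lit 19) (nat_lit 1) (nat_lit 226) (nat_lit 450) (nat_lit 404)))))) (XT.nd (nat_lit 470) (nat_lit 588) (nat_lit 0) (XT.nd (nat_lit 188) (nat_lit 420) (nat_lit 0) (XT.nd (nat_lit 94) (nat_lit 84) (nat_lit 0) (XT.lf (nat_lit 84) (nat_lit 525287610018) (nat_lit 0) (nat_lit 76701185511) (nat_lit 168) (nat_lit 389437840260) (nat_lit 17) (nat_lit 1) (nat_lit 16) (nat_lit 1) (nat_lit 18) (nat_lit 1) (nat_lit 227) (nat_lit 450) (nat_lit 403)) (XT.lf (nat_lit 0) (nat_lit 70617411415) (nat_lit 0) (nat_lit 552694369579) (nat_lit 168) (nat_lit 342386887758) (nat_lit 15) (nat_lit 3) (nat_lit 15) (nat_lit 1) (nat_lit 17) (nat_lit 1) (nat_lit 228) (nat_lit 450) (nat_lit 402))) (XT.nd (nat_lit 94) (nat_lit 252) (nat_lit 0) (XT.lf (nat_lit 84) (nat_lit 570961923267) (nat_lit 0) (nat_lit 72998127583) (nat_lit 168) (nat_lit 296721392309) (nat_lit 14) (nat_lit 1) (nat_lit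 13) (nat_lit 1) (nat_lit 15) (nat_lit 1) (nat_lit 229) (nat_lit 450) (nat_lit 401)) (XT.nd (nat_lit 94) (nat_lit 168) (nat_lit 0) (XT.lf (nat_lit 0) (nat_lit 134905381010) (nat_lit 0) (nat_lit 528527562540) (nat_lit 168) (nat_lit 252897539135) (nat_lit 12) (nat_lit 3) (nat_lit 12) (nat_lit 1) (nat_lit 14) (nat_lit 1) (nat_lit 230) (nat_lit 450) (nat_lit 400)) (XT.lf (nat_lit 84) (nat_lit 607603695630) (nat_lit 0) (nat_lit 75593439593) (nat_lit 168) (nat_lit 209498431731) (nat_lit 11) (nat_lit 1) (nat_lit 10) (nat_lit 1) (nat_lit 12) (nat_lit 1) (nat_lit 231) (nat_lit 450) (nat_lit 399))))) (XT.nd (nat_lit 188) (nat_lit 336) (nat_lit 0) (XT.nd (nat_lit 94) (nat_lit 168) (nat_lit 0) (XT.lf (nat_lit 0) (nat_lit 189661952220) (nat_lit 0) (nat_lit 511059644370) (nat_lit 168) (nat_lit 168915069357) (nat_lit 9) (nat_lit 3) (nat_lit 9) (nat_lit 1) (nat_lit 11) (nat_lit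 1) (nat_lit 232) (nat_lit 450) (nat_lit 398)) (XT.lf (nat_lit 84) (nat_lit 636566442238) (nat_lit 0) (nat_lit 82729006176) (nat_lit 168) (nat_lit 127995993032) (nat_lit 8) (nat_lit 1) (nat_lit 7) (nat_lit 1) (nat_lit 9) (nat_lit 1) (nat_lit 233) (nat_lit 450) (nat_lit 397))) (XT.nd (nat_lit 94) (nat_lit 252) (nat_lit 0) (XT.lf (nat_lit 0) (nat_lit 236202595078) (nat_lit 0) (nat_lit 498628041016) (nat_lit 168) (nat_lit 90616151826) (nat_lit 6) (nat_lit 3) (nat_lit 6) (nat_lit 1) (nat_lit 8) (nat_lit 1) (nat_lit 234) (nat_lit 450) (nat_lit 396)) (XT.nd (nat_lit 94) (nat_lit 84) (nat_lit 0) (XT.lf (nat_lit 84) (nat_lit 658988140519) (nat_lit 0) (nat_lit 93016337035) (nat_lit 168) (nat_lit 52303033094) (nat_lit 5) (nat_lit 1) (nat_lit 4) (nat_lit 1) (nat_lit 6) (nat_lit 1) (nat_lit 235) (nat_lit 450) (nat_lit 395)) (XT.lf (nat_lit 0) (nat_lit 275639883497) (nat_lit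 0) (nat_lit 489913714201) (nat_lit 168) (nat_lit 18051948769) (nat_lit 3) (nat_lit 3) (nat_lit 3) (nat_lit 1) (nat_lit 5) (nat_lit 1) (nat_lit 236) (nat_lit 450) (nat_lit 394))))))))
noncomputable def ec436 : XT := (XT.nd (nat_lit 1692) (nat_lit 0) (nat_lit 0) (XT.nd (nat_lit 846) (nat_lit 0) (nat_lit 0) (XT.nd (nat_lit 376) (nat_lit 0) (nat_lit 0) (XT.nd (nat_lit 188) (nat_lit 0) (nat_lit 0) (XT.nd (nat_lit 94) (nat_lit 0) (nat_lit 0) (XT.lf (nat_lit 0) (nat_lit 1107662551107) (nat_lit 0) (nat_lit 0) (nat_lit 0) (nat_lit 0) (nat_lit 0) (nat_lit 0) (nat_lit 1) (nat_lit 0) (nat_lit 1) (nat_lit 0) (nat_lit 237) (nat_lit 450) (nat_lit 393)) (XT.lf (nat_lit 0) (nat_lit 1106654343355) (nat_lit 0) (nat_lit 0) (nat_lit 0) (nat_lit 0) (nat_lit 0) (nat_lit 0) (nat_lit 1) (nat_lit 0) (nat_lit 1) (nat_lit 0) (nat_lit 238) (nat_lit 450) (nat_lit 392))) (XT.nd (nat_lit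 94) (nat_lit 0) (nat_lit 0) (XT.lf (nat_lit 0) (nat_lit 1105720817659) (nat_lit 0) (nat_lit 0) (nat_lit 0) (nat_lit 0) (nat_lit 0) (nat_lit 0) (nat_lit 1) (nat_lit 0) (nat_lit 1) (nat_lit 0) (nat_lit 239) (nat_lit 450) (nat_lit 391)) (XT.lf (nat_lit 0) (nat_lit 1104856442014) (nat_lit 0) (nat_lit 0) (nat_lit 0) (nat_lit 0) (nat_lit 0) (nat_lit 0) (nat_lit 1) (nat_lit 0) (nat_lit 1) (nat_lit 0) (nat_lit 240) (nat_lit 450) (nat_lit 390)))) (XT.nd (nat_lit 188) (nat_lit 0) (nat_lit 0) (XT.nd (nat_lit 94) (nat_lit 0) (nat_lit 0) (XT.lf (nat_lit 0) (nat_lit 1104056094194) (nat_lit 0) (nat_lit 0) (nat_lit 0) (nat_lit 0) (nat_lit 0) (nat_lit 0) (nat_lit 1) (nat_lit 0) (nat_lit 1) (nat_lit 0) (nat_lit 241) (nat_lit 450) (nat_lit 389)) (XT.lf (nat_lit 0) (nat_lit 1103315031398) (nat_lit 0) (nat_lit 0) (nat_lit 0) (nat_lit 0) (nat_lit 0) (nat_lit 0) (nat_lit 1) (nat_lit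 0) (nat_lit 1) (nat_lit 0) (nat_lit 242) (nat_lit 450) (nat_lit 388))) (XT.nd (nat_lit 94) (nat_lit 0) (nat_lit 0) (XT.lf (nat_lit 0) (nat_lit 1102628862143) (nat_lit 0) (nat_lit 0) (nat_lit 0) (nat_lit 0) (nat_lit 0) (nat_lit 0) (nat_lit 1) (nat_lit 0) (nat_lit 1) (nat_lit 0) (nat_lit 243) (nat_lit 450) (nat_lit 387)) (XT.nd (nat_lit 94) (nat_lit 0) (nat_lit 0) (XT.lf (nat_lit 0) (nat_lit 1101993520240) (nat_lit 0) (nat_lit 0) (nat_lit 0) (nat_lit 0) (nat_lit 0) (nat_lit 0) (nat_lit 1) (nat_lit 0) (nat_lit 1) (nat_lit 0) (nat_lit 244) (nat_lit 450) (nat_lit 386)) (XT.lf (nat_lit 0) (nat_lit 1101405240700) (nat_lit 0) (nat_lit 0) (nat_lit 0) (nat_lit 0) (nat_lit 0) (nat_lit 0) (nat_lit 1) (nat_lit 0) (nat_lit 1) (nat_lit 0) (nat_lit 245) (nat_lit 450) (nat_lit 385)))))) (XT.nd (nat_lit 376) (nat_lit 0) (nat_lit 0) (XT.nd (nat_lit 188) (nat_lit 0) (nat_lit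 0) (XT.nd (nat_lit 94) (nat_lit 0) (nat_lit 0) (XT.lf (nat_lit 0) (nat_lit 1100860537422) (nat_lit 0) (nat_lit 0) (nat_lit 0) (nat_lit 0) (nat_lit 0) (nat_lit 0) (nat_lit 1) (nat_lit 0) (nat_lit 1) (nat_lit 0) (nat_lit 246) (nat_lit 450) (nat_lit 384)) (XT.lf (nat_lit 0) (nat_lit 1100356182536) (nat_lit 0) (nat_lit 0) (nat_lit 0) (nat_lit 0) (nat_lit 0) (nat_lit 0) (nat_lit 1) (nat_lit 0) (nat_lit 1) (nat_lit 0) (nat_lit 247) (nat_lit 450) (nat_lit 383))) (XT.nd (nat_lit 94) (nat_lit 0) (nat_lit 0) (XT.lf (nat_lit 0) (nat_lit 1099889187270) (nat_lit 0) (nat_lit 0) (nat_lit 0) (nat_lit 0) (nat_lit 0) (nat_lit 0) (nat_lit 1) (nat_lit 0) (nat_lit 1) (nat_lit 0) (nat_lit 248) (nat_lit 450) (nat_lit 382)) (XT.lf (nat_lit 0) (nat_lit 1099456784247) (nat_lit 0) (nat_lit 0) (nat_lit 0) (nat_lit 0) (nat_lit 0) (nat_lit 0) (nat_lit 1) (nat_lit 0) (nat_lit 1) (nat_lit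 0) (nat_lit 249) (nat_lit 450) (nat_lit 381)))) (XT.nd (nat_lit 188) (nat_lit 0) (nat_lit 0) (XT.nd (nat_lit 94) (nat_lit 0) (nat_lit 0) (XT.lf (nat_lit 0) (nat_lit 1099056411077) (nat_lit 0) (nat_lit 0) (nat_lit 0) (nat_lit 0) (nat_lit 0) (nat_lit 0) (nat_lit 1) (nat_lit 0) (nat_lit 1) (nat_lit 0) (nat_lit 250) (nat_lit 450) (nat_lit 380)) (XT.lf (nat_lit 0) (nat_lit 1098685695178) (nat_lit 0) (nat_lit 0) (nat_lit 0) (nat_lit 0) (nat_lit 0) (nat_lit 0) (nat_lit 1) (nat_lit 0) (nat_lit 1) (nat_lit 0) (nat_lit 251) (nat_lit 450) (nat_lit 379))) (XT.nd (nat_lit 94) (nat_lit 0) (nat_lit 0) (XT.lf (nat_lit 0) (nat_lit 1098342439717) (nat_lit 0) (nat_lit 0) (nat_lit 0) (nat_lit 0) (nat_lit 0) (nat_lit 0) (nat_lit 1) (nat_lit 0) (nat_lit 1) (nat_lit 0) (nat_lit 252) (nat_lit 450) (nat_lit 378)) (XT.nd (nat_lit 94) (nat_lit 0) (nat_lit 0) (XT.lf (nat_lit 0) (nat_lit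 1098024610586) (nat_lit 0) (nat_lit 0) (nat_lit 0) (nat_lit 0) (nat_lit 0) (nat_lit 0) (nat_lit 1) (nat_lit 0) (nat_lit 1) (nat_lit 0) (nat_lit 253) (nat_lit 450) (nat_lit 377)) (XT.lf (nat_lit 0) (nat_lit 1097730324354) (nat_lit 0) (nat_lit 0) (nat_lit 0) (nat_lit 0) (nat_lit 0) (nat_lit 0) (nat_lit 1) (nat_lit 0) (nat_lit 1) (nat_lit 0) (nat_lit 254) (nat_lit 450) (nat_lit 376))))))) (XT.nd (nat_lit 846) (nat_lit 0) (nat_lit 0) (XT.nd (nat_lit 376) (nat_lit 0) (nat_lit 0) (XT.nd (nat_lit 188) (nat_lit 0) (nat_lit 0) (XT.nd (nat_lit 94) (nat_lit 0) (nat_lit 0) (XT.lf (nat_lit 0) (nat_lit 1097457837102) (nat_lit 0) (nat_lit 0) (nat_lit 0) (nat_lit 0) (nat_lit 0) (nat_lit 0) (nat_lit 1) (nat_lit 0) (nat_lit 1) (nat_lit 0) (nat_lit 255) (nat_lit 450) (nat_lit 375)) (XT.lf (nat_lit 0) (nat_lit 1097205534091) (nat_lit 0) (nat_lit 0) (nat_lit 0) (nat_lit 0) (nat_lit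 0) (nat_lit 0) (nat_lit 1) (nat_lit 0) (nat_lit 1) (nat_lit 0) (nat_lit 256) (nat_lit 450) (nat_lit 374))) (XT.nd (nat_lit 94) (nat_lit 0) (nat_lit 0) (XT.lf (nat_lit 0) (nat_lit 1096971920192) (nat_lit 0) (nat_lit 0) (nat_lit 0) (nat_lit 0) (nat_lit 0) (nat_lit 0) (nat_lit 1) (nat_lit 0) (nat_lit 1) (nat_lit 0) (nat_lit 257) (nat_lit 450) (nat_lit 373)) (XT.lf (nat_lit 0) (nat_lit 1096755611026) (nat_lit 0) (nat_lit 0) (nat_lit 0) (nat_lit 0) (nat_lit 0) (nat_lit 0) (nat_lit 1) (nat_lit 0) (nat_lit 1) (nat_lit 0) (nat_lit 258) (nat_lit 450) (nat_lit 372)))) (XT.nd (nat_lit 188) (nat_lit 0) (nat_lit 0) (XT.nd (nat_lit 94) (nat_lit 0) (nat_lit 0) (XT.lf (nat_lit 0) (nat_lit 1096555324761) (nat_lit 0) (nat_lit 0) (nat_lit 0) (nat_lit 0) (nat_lit 0) (nat_lit 0) (nat_lit 1) (nat_lit 0) (nat_lit 1) (nat_lit 0) (nat_lit 259) (nat_lit 450) (nat_lit 371)) (XT.lf (nat_lit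 0) (nat_lit 1096369874516) (nat_lit 0) (nat_lit 0) (nat_lit 0) (nat_lit 0) (nat_lit 0) (nat_lit 0) (nat_lit 1) (nat_lit 0) (nat_lit 1) (nat_lit 0) (nat_lit 260) (nat_lit 450) (nat_lit 370))) (XT.nd (nat_lit 94) (nat_lit 0) (nat_lit 0) (XT.lf (nat_lit 0) (nat_lit 1096198161326) (nat_lit 0) (nat_lit 0) (nat_lit 0) (nat_lit 0) (nat_lit 0) (nat_lit 0) (nat_lit 1) (nat_lit 0) (nat_lit 1) (nat_lit 0) (nat_lit 261) (nat_lit 450) (nat_lit 369)) (XT.nd (nat_lit 94) (nat_lit 0) (nat_lit 0) (XT.lf (nat_lit 0) (nat_lit 1096039167631) (nat_lit 0) (nat_lit 0) (nat_lit 0) (nat_lit 0) (nat_lit 0) (nat_lit 0) (nat_lit 1) (nat_lit 0) (nat_lit 1) (nat_lit 0) (nat_lit 262) (nat_lit 450) (nat_lit 368)) (XT.lf (nat_lit 0) (nat_lit 1095891951248) (nat_lit 0) (nat_lit 0) (nat_lit 0) (nat_lit 0) (nat_lit 0) (nat_lit 0) (nat_lit 1) (nat_lit 0) (nat_lit 1) (nat_lit 0) (nat_lit 263)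 (nat_lit 450) (nat_lit 367)))))) (XT.nd (nat_lit 470) (nat_lit 0) (nat_lit 0) (XT.nd (nat_lit 188) (nat_lit 0) (nat_lit 0) (XT.nd (nat_lit 94) (nat_lit 0) (nat_lit 0) (XT.lf (nat_lit 0) (nat_lit 1095755639781) (nat_lit 0) (nat_lit 0) (nat_lit 0) (nat_lit 0) (nat_lit 0) (nat_lit 0) (nat_lit 1) (nat_lit 0) (nat_lit 1) (nat_lit 0) (nat_lit 264) (nat_lit 450) (nat_lit 366)) (XT.lf (nat_lit 0) (nat_lit 1095629425461) (nat_lit 0) (nat_lit 0) (nat_lit 0) (nat_lit 0) (nat_lit 0) (nat_lit 0) (nat_lit 1) (nat_lit 0) (nat_lit 1) (nat_lit 0) (nat_lit 265) (nat_lit 450) (nat_lit 365))) (XT.nd (nat_lit 94) (nat_lit 0) (nat_lit 0) (XT.lf (nat_lit 0) (nat_lit 1095512560349) (nat_lit 0) (nat_lit 0) (nat_lit 0) (nat_lit 0) (nat_lit 0) (nat_lit 0) (nat_lit 1) (nat_lit 0) (nat_lit 1) (nat_lit 0) (nat_lit 266) (nat_lit 450) (nat_lit 364)) (XT.nd (nat_lit 94) (nat_lit 0) (nat_lit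 0) (XT.lf (nat_lit 0) (nat_lit 1095404351912) (nat_lit 0) (nat_lit 0) (nat_lit 0) (nat_lit 0) (nat_lit 0) (nat_lit 0) (nat_lit 1) (nat_lit 0) (nat_lit 1) (nat_lit 0) (nat_lit 267) (nat_lit 450) (nat_lit 363)) (XT.lf (nat_lit 0) (nat_lit 1095304158915) (nat_lit 0) (nat_lit 0) (nat_lit 0) (nat_lit 0) (nat_lit 0) (nat_lit 0) (nat_lit 1) (nat_lit 0) (nat_lit 1) (nat_lit 0) (nat_lit 268) (nat_lit 450) (nat_lit 362))))) (XT.nd (nat_lit 188) (nat_lit 0) (nat_lit 0) (XT.nd (nat_lit 94) (nat_lit 0) (nat_lit 0) (XT.lf (nat_lit 0) (nat_lit 1095211387621) (nat_lit 0) (nat_lit 0) (nat_lit 0) (nat_lit 0) (nat_lit 0) (nat_lit 0) (nat_lit 1) (nat_lit 0) (nat_lit 1) (nat_lit 0) (nat_lit 269) (nat_lit 450) (nat_lit 361)) (XT.lf (nat_lit 0) (nat_lit 1095125488275) (nat_lit 0) (nat_lit 0) (nat_lit 0) (nat_lit 0) (nat_lit 0) (nat_lit 0) (nat_lit 1) (nat_lit 0) (nat_lit 1) (nat_lit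 0) (nat_lit 270) (nat_lit 450) (nat_lit 360))) (XT.nd (nat_lit 94) (nat_lit 0) (nat_lit 0) (XT.lf (nat_lit 0) (nat_lit 1095045951844) (nat_lit 0) (nat_lit 0) (nat_lit 0) (nat_lit 0) (nat_lit 0) (nat_lit 0) (nat_lit 1) (nat_lit 0) (nat_lit 1) (nat_lit 0) (nat_lit 271) (nat_lit 450) (nat_lit 359)) (XT.nd (nat_lit 94) (nat_lit 0) (nat_lit 0) (XT.lf (nat_lit 0) (nat_lit 1094972307000) (nat_lit 0) (nat_lit 0) (nat_lit 0) (nat_lit 0) (nat_lit 0) (nat_lit 0) (nat_lit 1) (nat_lit 0) (nat_lit 1) (nat_lit 0) (nat_lit 272) (nat_lit 450) (nat_lit 358)) (XT.lf (nat_lit 0) (nat_lit 1094904117330) (nat_lit 0) (nat_lit 0) (nat_lit 0) (nat_lit 0) (nat_lit 0) (nat_lit 0) (nat_lit 1) (nat_lit 0) (nat_lit 1) (nat_lit 0) (nat_lit 273) (nat_lit 450) (nat_lit 357))))))))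
noncomputable def ec437 : XT := (XT.nd (nat_lit 1786) (nat_lit 0) (nat_lit 0) (XT.nd (nat_lit 846) (nat_lit 0) (nat_lit 0) (XT.nd (nat_lit 376) (nat_lit 0) (nat_lit 0) (XT.nd (nat_lit 188) (nat_lit 0) (nat_lit 0) (XT.nd (nat_lit 94) (nat_lit 0) (nat_lit 0) (XT.lf (nat_lit 0) (nat_lit 1094840978746) (nat_lit 0) (nat_lit 0) (nat_lit 0) (nat_lit 0) (nat_lit 0) (nat_lit 0) (nat_lit 1) (nat_lit 0) (nat_lit 1) (nat_lit 0) (nat_lit 274) (nat_lit 450) (nat_lit 356)) (XT.lf (nat_lit 0) (nat_lit 1094782517095) (nat_lit 0) (nat_lit 0) (nat_lit 0) (nat_lit 0) (nat_lit 0) (nat_lit 0) (nat_lit 1) (nat_lit 0) (nat_lit 1) (nat_lit 0) (nat_lit 275) (nat_lit 450) (nat_lit 355))) (XT.nd (nat_lit 94) (nat_lit 0) (nat_lit 0) (XT.lf (nat_lit 0) (nat_lit 1094728385936) (nat_lit 0) (nat_lit 0) (nat_lit 0) (nat_lit 0) (nat_lit 0) (nat_lit 0) (nat_lit 1) (nat_lit 0) (nat_lit 1) (nat_lit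 0) (nat_lit 276) (nat_lit 450) (nat_lit 354)) (XT.lf (nat_lit 0) (nat_lit 1094678264493) (nat_lit 0) (nat_lit 0) (nat_lit 0) (nat_lit 0) (nat_lit 0) (nat_lit 0) (nat_lit 1) (nat_lit 0) (nat_lit 1) (nat_lit 0) (nat_lit 277) (nat_lit 450) (nat_lit 353)))) (XT.nd (nat_lit 188) (nat_lit 0) (nat_lit 0) (XT.nd (nat_lit 94) (nat_lit 0) (nat_lit 0) (XT.lf (nat_lit 0) (nat_lit 1094631855749) (nat_lit 0) (nat_lit 0) (nat_lit 0) (nat_lit 0) (nat_lit 0) (nat_lit 0) (nat_lit 1) (nat_lit 0) (nat_lit 1) (nat_lit 0) (nat_lit 278) (nat_lit 450) (nat_lit 352)) (XT.lf (nat_lit 0) (nat_lit 1094588884690) (nat_lit 0) (nat_lit 0) (nat_lit 0) (nat_lit 0) (nat_lit 0) (nat_lit 0) (nat_lit 1) (nat_lit 0) (nat_lit 1) (nat_lit 0) (nat_lit 279) (nat_lit 450) (nat_lit 351))) (XT.nd (nat_lit 94) (nat_lit 0) (nat_lit 0) (XT.lf (nat_lit 0) (nat_lit 1094549096672) (nat_lit 0) (nat_lit 0) (nat_lit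 0) (nat_lit 0) (nat_lit 0) (nat_lit 0) (nat_lit 1) (nat_lit 0) (nat_lit 1) (nat_lit 0) (nat_lit 280) (nat_lit 450) (nat_lit 350)) (XT.nd (nat_lit 94) (nat_lit 0) (nat_lit 0) (XT.lf (nat_lit 0) (nat_lit 1094512255915) (nat_lit 0) (nat_lit 0) (nat_lit 0) (nat_lit 0) (nat_lit 0) (nat_lit 0) (nat_lit 1) (nat_lit 0) (nat_lit 1) (nat_lit 0) (nat_lit 281) (nat_lit 450) (nat_lit 349)) (XT.lf (nat_lit 0) (nat_lit 1094478144103) (nat_lit 0) (nat_lit 0) (nat_lit 0) (nat_lit 0) (nat_lit 0) (nat_lit 0) (nat_lit 1) (nat_lit 0) (nat_lit 1) (nat_lit 0) (nat_lit 282) (nat_lit 450) (nat_lit 348)))))) (XT.nd (nat_lit 470) (nat_lit 0) (nat_lit 0) (XT.nd (nat_lit 188) (nat_lit 0) (nat_lit 0) (XT.nd (nat_lit 94) (nat_lit 0) (nat_lit 0) (XT.lf (nat_lit 0) (nat_lit 1094446559092) (nat_lit 0) (nat_lit 0) (nat_lit 0) (nat_lit 0) (nat_lit 0) (nat_lit 0) (nat_lit 1) (nat_lit 0) (nat_lit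 1) (nat_lit 0) (nat_lit 283) (nat_lit 450) (nat_lit 347)) (XT.lf (nat_lit 0) (nat_lit 1094417313711) (nat_lit 0) (nat_lit 0) (nat_lit 0) (nat_lit 0) (nat_lit 0) (nat_lit 0) (nat_lit 1) (nat_lit 0) (nat_lit 1) (nat_lit 0) (nat_lit 284) (nat_lit 450) (nat_lit 346))) (XT.nd (nat_lit 94) (nat_lit 0) (nat_lit 0) (XT.lf (nat_lit 0) (nat_lit 1094390234655) (nat_lit 0) (nat_lit 0) (nat_lit 0) (nat_lit 0) (nat_lit 0) (nat_lit 0) (nat_lit 1) (nat_lit 0) (nat_lit 1) (nat_lit 0) (nat_lit 285) (nat_lit 450) (nat_lit 345)) (XT.nd (nat_lit 94) (nat_lit 0) (nat_lit 0) (XT.lf (nat_lit 0) (nat_lit 1094365161454) (nat_lit 0) (nat_lit 0) (nat_lit 0) (nat_lit 0) (nat_lit 0) (nat_lit 0) (nat_lit 1) (nat_lit 0) (nat_lit 1) (nat_lit 0) (nat_lit 286) (nat_lit 450) (nat_lit 344)) (XT.lf (nat_lit 0) (nat_lit 1094341945528) (nat_lit 0) (nat_lit 0) (nat_lit 0) (nat_lit 0) (nat_lit 0)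 (nat_lit 0) (nat_lit 1) (nat_lit 0) (nat_lit 1) (nat_lit 0) (nat_lit 287) (nat_lit 450) (nat_lit 343))))) (XT.nd (nat_lit 188) (nat_lit 0) (nat_lit 0) (XT.nd (nat_lit 94) (nat_lit 0) (nat_lit 0) (XT.lf (nat_lit 0) (nat_lit 1094320449300) (nat_lit 0) (nat_lit 0) (nat_lit 0) (nat_lit 0) (nat_lit 0) (nat_lit 0) (nat_lit 1) (nat_lit 0) (nat_lit 1) (nat_lit 0) (nat_lit 288) (nat_lit 450) (nat_lit 342)) (XT.lf (nat_lit 0) (nat_lit 1094300545386) (nat_lit 0) (nat_lit 0) (nat_lit 0) (nat_lit 0) (nat_lit 0) (nat_lit 0) (nat_lit 1) (nat_lit 0) (nat_lit 1) (nat_lit 0) (nat_lit 289) (nat_lit 450) (nat_lit 341))) (XT.nd (nat_lit 94) (nat_lit 0) (nat_lit 0) (XT.lf (nat_lit 0) (nat_lit 1094282115835) (nat_lit 0) (nat_lit 0) (nat_lit 0) (nat_lit 0) (nat_lit 0) (nat_lit 0) (nat_lit 1) (nat_lit 0) (nat_lit 1) (nat_lit 0) (nat_lit 290) (nat_lit 450) (nat_lit 340)) (XT.nd (nat_lit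 94) (nat_lit 0) (nat_lit 0) (XT.lf (nat_lit 0) (nat_lit 1094265051436) (nat_lit 0) (nat_lit 0) (nat_lit 0) (nat_lit 0) (nat_lit 0) (nat_lit 0) (nat_lit 1) (nat_lit 0) (nat_lit 1) (nat_lit 0) (nat_lit 291) (nat_lit 450) (nat_lit 339)) (XT.lf (nat_lit 0) (nat_lit 1094249251067) (nat_lit 0) (nat_lit 0) (nat_lit 0) (nat_lit 0) (nat_lit 0) (nat_lit 0) (nat_lit 1) (nat_lit 0) (nat_lit 1) (nat_lit 0) (nat_lit 292) (nat_lit 450) (nat_lit 338))))))) (XT.nd (nat_lit 846) (nat_lit 0) (nat_lit 0) (XT.nd (nat_lit 376) (nat_lit 0) (nat_lit 0) (XT.nd (nat_lit 188) (nat_lit 0) (nat_lit 0) (XT.nd (nat_lit 94) (nat_lit 0) (nat_lit 0) (XT.lf (nat_lit 0) (nat_lit 1094234621095) (nat_lit 0) (nat_lit 0) (nat_lit 0) (nat_lit 0) (nat_lit 0) (nat_lit 0) (nat_lit 1) (nat_lit 0) (nat_lit 1) (nat_lit 0) (nat_lit 293) (nat_lit 450) (nat_lit 337)) (XT.lf (nat_lit 0) (nat_lit 1094221074825)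 (nat_lit 0) (nat_lit 0) (nat_lit 0) (nat_lit 0) (nat_lit 0) (nat_lit 0) (nat_lit 1) (nat_lit 0) (nat_lit 1) (nat_lit 0) (nat_lit 294) (nat_lit 450) (nat_lit 336))) (XT.nd (nat_lit 94) (nat_lit 0) (nat_lit 0) (XT.lf (nat_lit 0) (nat_lit 1094208531983) (nat_lit 0) (nat_lit 0) (nat_lit 0) (nat_lit 0) (nat_lit 0) (nat_lit 0) (nat_lit 1) (nat_lit 0) (nat_lit 1) (nat_lit 0) (nat_lit 295) (nat_lit 450) (nat_lit 335)) (XT.lf (nat_lit 0) (nat_lit 1094196918240) (nat_lit 0) (nat_lit 0) (nat_lit 0) (nat_lit 0) (nat_lit 0) (nat_lit 0) (nat_lit 1) (nat_lit 0) (nat_lit 1) (nat_lit 0) (nat_lit 296) (nat_lit 450) (nat_lit 334)))) (XT.nd (nat_lit 188) (nat_lit 0) (nat_lit 0) (XT.nd (nat_lit 94) (nat_lit 0) (nat_lit 0) (XT.lf (nat_lit 0) (nat_lit 1094186164774) (nat_lit 0) (nat_lit 0) (nat_lit 0) (nat_lit 0) (nat_lit 0) (nat_lit 0) (nat_lit 1) (nat_lit 0) (nat_lit 1) (nat_lit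 0) (nat_lit 297) (nat_lit 450) (nat_lit 333)) (XT.lf (nat_lit 0) (nat_lit 1094176207861) (nat_lit 0) (nat_lit 0) (nat_lit 0) (nat_lit 0) (nat_lit 0) (nat_lit 0) (nat_lit 1) (nat_lit 0) (nat_lit 1) (nat_lit 0) (nat_lit 298) (nat_lit 450) (nat_lit 332))) (XT.nd (nat_lit 94) (nat_lit 0) (nat_lit 0) (XT.lf (nat_lit 0) (nat_lit 1094166988498) (nat_lit 0) (nat_lit 0) (nat_lit 0) (nat_lit 0) (nat_lit 0) (nat_lit 0) (nat_lit 1) (nat_lit 0) (nat_lit 1) (nat_lit 0) (nat_lit 299) (nat_lit 450) (nat_lit 331)) (XT.nd (nat_lit 94) (nat_lit 0) (nat_lit 0) (XT.lf (nat_lit 0) (nat_lit 1094158452050) (nat_lit 0) (nat_lit 0) (nat_lit 0) (nat_lit 0) (nat_lit 0) (nat_lit 0) (nat_lit 1) (nat_lit 0) (nat_lit 1) (nat_lit 0) (nat_lit 300) (nat_lit 450) (nat_lit 330)) (XT.lf (nat_lit 0) (nat_lit 1094150547931) (nat_lit 0) (nat_lit 0) (nat_lit 0) (nat_lit 0) (nat_lit 0) (nat_lit 0)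 (nat_lit 1) (nat_lit 0) (nat_lit 1) (nat_lit 0) (nat_lit 301) (nat_lit 450) (nat_lit 329)))))) (XT.nd (nat_lit 470) (nat_lit 0) (nat_lit 0) (XT.nd (nat_lit 188) (nat_lit 0) (nat_lit 0) (XT.nd (nat_lit 94) (nat_lit 0) (nat_lit 0) (XT.lf (nat_lit 0) (nat_lit 1094143229303) (nat_lit 0) (nat_lit 0) (nat_lit 0) (nat_lit 0) (nat_lit 0) (nat_lit 0) (nat_lit 1) (nat_lit 0) (nat_lit 1) (nat_lit 0) (nat_lit 302) (nat_lit 450) (nat_lit 328)) (XT.lf (nat_lit 0) (nat_lit 1094136452796) (nat_lit 0) (nat_lit 0) (nat_lit 0) (nat_lit 0) (nat_lit 0) (nat_lit 0) (nat_lit 1) (nat_lit 0) (nat_lit 1) (nat_lit 0) (nat_lit 303) (nat_lit 450) (nat_lit 327))) (XT.nd (nat_lit 94) (nat_lit 0) (nat_lit 0) (XT.lf (nat_lit 0) (nat_lit 1094130178252) (nat_lit 0) (nat_lit 0) (nat_lit 0) (nat_lit 0) (nat_lit 0) (nat_lit 0) (nat_lit 1) (nat_lit 0) (nat_lit 1) (nat_lit 0) (nat_lit 304) (nat_lit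 450) (nat_lit 326)) (XT.nd (nat_lit 94) (nat_lit 0) (nat_lit 0) (XT.lf (nat_lit 0) (nat_lit 1094124368489) (nat_lit 0) (nat_lit 0) (nat_lit 0) (nat_lit 0) (nat_lit 0) (nat_lit 0) (nat_lit 1) (nat_lit 0) (nat_lit 1) (nat_lit 0) (nat_lit 305) (nat_lit 450) (nat_lit 325)) (XT.lf (nat_lit 0) (nat_lit 1094118989078) (nat_lit 0) (nat_lit 0) (nat_lit 0) (nat_lit 0) (nat_lit 0) (nat_lit 0) (nat_lit 1) (nat_lit 0) (nat_lit 1) (nat_lit 0) (nat_lit 306) (nat_lit 450) (nat_lit 324))))) (XT.nd (nat_lit 188) (nat_lit 0) (nat_lit 0) (XT.nd (nat_lit 94) (nat_lit 0) (nat_lit 0) (XT.lf (nat_lit 0) (nat_lit 1094114008143) (nat_lit 0) (nat_lit 0) (nat_lit 0) (nat_lit 0) (nat_lit 0) (nat_lit 0) (nat_lit 1) (nat_lit 0) (nat_lit 1) (nat_lit 0) (nat_lit 307) (nat_lit 450) (nat_lit 323)) (XT.lf (nat_lit 0) (nat_lit 1094109396166) (nat_lit 0) (nat_lit 0) (nat_lit 0) (nat_lit 0) (nat_lit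 0) (nat_lit 0) (nat_lit 1) (nat_lit 0) (nat_lit 1) (nat_lit 0) (nat_lit 308) (nat_lit 450) (nat_lit 322))) (XT.nd (nat_lit 94) (nat_lit 0) (nat_lit 0) (XT.lf (nat_lit 0) (nat_lit 1094105125817) (nat_lit 0) (nat_lit 0) (nat_lit 0) (nat_lit 0) (nat_lit 0) (nat_lit 0) (nat_lit 1) (nat_lit 0) (nat_lit 1) (nat_lit 0) (nat_lit 309) (nat_lit 450) (nat_lit 321)) (XT.nd (nat_lit 94) (nat_lit 0) (nat_lit 0) (XT.lf (nat_lit 0) (nat_lit 1094101171790) (nat_lit 0) (nat_lit 0) (nat_lit 0) (nat_lit 0) (nat_lit 0) (nat_lit 0) (nat_lit 1) (nat_lit 0) (nat_lit 1) (nat_lit 0) (nat_lit 310) (nat_lit 450) (nat_lit 320)) (XT.lf (nat_lit 0) (nat_lit 1094097510653) (nat_lit 0) (nat_lit 0) (nat_lit 0) (nat_lit 0) (nat_lit 0) (nat_lit 0) (nat_lit 1) (nat_lit 0) (nat_lit 1) (nat_lit 0) (nat_lit 311) (nat_lit 450) (nat_lit 319))))))))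
noncomputable def ec438 : XT := (XT.nd (nat_lit 1692) (nat_lit 0) (nat_lit 0) (XT.nd (nat_lit 846) (nat_lit 0) (nat_lit 0) (XT.nd (nat_lit 376) (nat_lit 0) (nat_lit 0) (XT.nd (nat_lit 188) (nat_lit 0) (nat_lit 0) (XT.nd (nat_lit 94) (nat_lit 0) (nat_lit 0) (XT.lf (nat_lit 0) (nat_lit 1094094120713) (nat_lit 0) (nat_lit 0) (nat_lit 0) (nat_lit 0) (nat_lit 0) (nat_lit 0) (nat_lit 1) (nat_lit 0) (nat_lit 1) (nat_lit 0) (nat_lit 312) (nat_lit 450) (nat_lit 318)) (XT.lf (nat_lit 0) (nat_lit 1094090981878) (nat_lit 0) (nat_lit 0) (nat_lit 0) (nat_lit 0) (nat_lit 0) (nat_lit 0) (nat_lit 1) (nat_lit 0) (nat_lit 1) (nat_lit 0) (nat_lit 313) (nat_lit 450) (nat_lit 317))) (XT.nd (nat_lit 94) (nat_lit 0) (nat_lit 0) (XT.lf (nat_lit 0) (nat_lit 1094088075550) (nat_lit 0) (nat_lit 0) (nat_lit 0) (nat_lit 0) (nat_lit 0) (nat_lit 0) (nat_lit 1) (nat_lit 0) (nat_lit 1) (nat_lit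 0) (nat_lit 314) (nat_lit 450) (nat_lit 316)) (XT.lf (nat_lit 0) (nat_lit 1094085384506) (nat_lit 0) (nat_lit 0) (nat_lit 0) (nat_lit 0) (nat_lit 0) (nat_lit 0) (nat_lit 1) (nat_lit 0) (nat_lit 1) (nat_lit 0) (nat_lit 315) (nat_lit 450) (nat_lit 315)))) (XT.nd (nat_lit 188) (nat_lit 0) (nat_lit 0) (XT.nd (nat_lit 94) (nat_lit 0) (nat_lit 0) (XT.lf (nat_lit 0) (nat_lit 1094082892798) (nat_lit 0) (nat_lit 0) (nat_lit 0) (nat_lit 0) (nat_lit 0) (nat_lit 0) (nat_lit 1) (nat_lit 0) (nat_lit 1) (nat_lit 0) (nat_lit 316) (nat_lit 450) (nat_lit 314)) (XT.lf (nat_lit 0) (nat_lit 1094080585662) (nat_lit 0) (nat_lit 0) (nat_lit 0) (nat_lit 0) (nat_lit 0) (nat_lit 0) (nat_lit 1) (nat_lit 0) (nat_lit 1) (nat_lit 0) (nat_lit 317) (nat_lit 450) (nat_lit 313))) (XT.nd (nat_lit 94) (nat_lit 0) (nat_lit 0) (XT.lf (nat_lit 0) (nat_lit 1094078449424) (nat_lit 0) (nat_lit 0) (nat_lit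 0) (nat_lit 0) (nat_lit 0) (nat_lit 0) (nat_lit 1) (nat_lit 0) (nat_lit 1) (nat_lit 0) (nat_lit 318) (nat_lit 450) (nat_lit 312)) (XT.nd (nat_lit 94) (nat_lit 0) (nat_lit 0) (XT.lf (nat_lit 0) (nat_lit 1094076471426) (nat_lit 0) (nat_lit 0) (nat_lit 0) (nat_lit 0) (nat_lit 0) (nat_lit 0) (nat_lit 1) (nat_lit 0) (nat_lit 1) (nat_lit 0) (nat_lit 319) (nat_lit 450) (nat_lit 311)) (XT.lf (nat_lit 0) (nat_lit 1094074639946) (nat_lit 0) (nat_lit 0) (nat_lit 0) (nat_lit 0) (nat_lit 0) (nat_lit 0) (nat_lit 1) (nat_lit 0) (nat_lit 1) (nat_lit 0) (nat_lit 320) (nat_lit 450) (nat_lit 310)))))) (XT.nd (nat_lit 376) (nat_lit 0) (nat_lit 0) (XT.nd (nat_lit 188) (nat_lit 0) (nat_lit 0) (XT.nd (nat_lit 94) (nat_lit 0) (nat_lit 0) (XT.lf (nat_lit 0) (nat_lit 1094072944132) (nat_lit 0) (nat_lit 0) (nat_lit 0) (nat_lit 0) (nat_lit 0) (nat_lit 0) (nat_lit 1) (nat_lit 0) (nat_lit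 1) (nat_lit 0) (nat_lit 321) (nat_lit 450) (nat_lit 309)) (XT.lf (nat_lit 0) (nat_lit 1094071373933) (nat_lit 0) (nat_lit 0) (nat_lit 0) (nat_lit 0) (nat_lit 0) (nat_lit 0) (nat_lit 1) (nat_lit 0) (nat_lit 1) (nat_lit 0) (nat_lit 322) (nat_lit 450) (nat_lit 308))) (XT.nd (nat_lit 94) (nat_lit 0) (nat_lit 0) (XT.lf (nat_lit 0) (nat_lit 1094069920046) (nat_lit 0) (nat_lit 0) (nat_lit 0) (nat_lit 0) (nat_lit 0) (nat_lit 0) (nat_lit 1) (nat_lit 0) (nat_lit 1) (nat_lit 0) (nat_lit 323) (nat_lit 450) (nat_lit 307)) (XT.lf (nat_lit 0) (nat_lit 1094068573853) (nat_lit 0) (nat_lit 0) (nat_lit 0) (nat_lit 0) (nat_lit 0) (nat_lit 0) (nat_lit 1) (nat_lit 0) (nat_lit 1) (nat_lit 0) (nat_lit 324) (nat_lit 450) (nat_lit 306)))) (XT.nd (nat_lit 188) (nat_lit 0) (nat_lit 0) (XT.nd (nat_lit 94) (nat_lit 0) (nat_lit 0) (XT.lf (nat_lit 0) (nat_lit 1094067327379) (nat_lit 0) (nat_lit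 0) (nat_lit 0) (nat_lit 0) (nat_lit 0) (nat_lit 0) (nat_lit 1) (nat_lit 0) (nat_lit 1) (nat_lit 0) (nat_lit 325) (nat_lit 450) (nat_lit 305)) (XT.lf (nat_lit 0) (nat_lit 1094066173236) (nat_lit 0) (nat_lit 0) (nat_lit 0) (nat_lit 0) (nat_lit 0) (nat_lit 0) (nat_lit 1) (nat_lit 0) (nat_lit 1) (nat_lit 0) (nat_lit 326) (nat_lit 450) (nat_lit 304))) (XT.nd (nat_lit 94) (nat_lit 0) (nat_lit 0) (XT.lf (nat_lit 0) (nat_lit 1094065104586) (nat_lit 0) (nat_lit 0) (nat_lit 0) (nat_lit 0) (nat_lit 0) (nat_lit 0) (nat_lit 1) (nat_lit 0) (nat_lit 1) (nat_lit 0) (nat_lit 327) (nat_lit 450) (nat_lit 303)) (XT.nd (nat_lit 94) (nat_lit 0) (nat_lit 0) (XT.lf (nat_lit 0) (nat_lit 1094064115094) (nat_lit 0) (nat_lit 0) (nat_lit 0) (nat_lit 0) (nat_lit 0) (nat_lit 0) (nat_lit 1) (nat_lit 0) (nat_lit 1) (nat_lit 0) (nat_lit 328) (nat_lit 450) (nat_lit 302)) (XT.lf (nat_lit 0)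 (nat_lit 1094063198898) (nat_lit 0) (nat_lit 0) (nat_lit 0) (nat_lit 0) (nat_lit 0) (nat_lit 0) (nat_lit 1) (nat_lit 0) (nat_lit 1) (nat_lit 0) (nat_lit 329) (nat_lit 450) (nat_lit 301))))))) (XT.nd (nat_lit 846) (nat_lit 0) (nat_lit 0) (XT.nd (nat_lit 376) (nat_lit 0) (nat_lit 0) (XT.nd (nat_lit 188) (nat_lit 0) (nat_lit 0) (XT.nd (nat_lit 94) (nat_lit 0) (nat_lit 0) (XT.lf (nat_lit 0) (nat_lit 1094062350569) (nat_lit 0) (nat_lit 0) (nat_lit 0) (nat_lit 0) (nat_lit 0) (nat_lit 0) (nat_lit 1) (nat_lit 0) (nat_lit 1) (nat_lit 0) (nat_lit 330) (nat_lit 450) (nat_lit 300)) (XT.lf (nat_lit 0) (nat_lit 1094061565079) (nat_lit 0) (nat_lit 0) (nat_lit 0) (nat_lit 0) (nat_lit 0) (nat_lit 0) (nat_lit 1) (nat_lit 0) (nat_lit 1) (nat_lit 0) (nat_lit 331) (nat_lit 450) (nat_lit 299))) (XT.nd (nat_lit 94) (nat_lit 0) (nat_lit 0) (XT.lf (nat_lit 0) (nat_lit 1094060837773)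 (nat_lit 0) (nat_lit 0) (nat_lit 0) (nat_lit 0) (nat_lit 0) (nat_lit 0) (nat_lit 1) (nat_lit 0) (nat_lit 1) (nat_lit 0) (nat_lit 332) (nat_lit 450) (nat_lit 298)) (XT.lf (nat_lit 0) (nat_lit 1094060164342) (nat_lit 0) (nat_lit 0) (nat_lit 0) (nat_lit 0) (nat_lit 0) (nat_lit 0) (nat_lit 1) (nat_lit 0) (nat_lit 1) (nat_lit 0) (nat_lit 333) (nat_lit 450) (nat_lit 297)))) (XT.nd (nat_lit 188) (nat_lit 0) (nat_lit 0) (XT.nd (nat_lit 94) (nat_lit 0) (nat_lit 0) (XT.lf (nat_lit 0) (nat_lit 1094059540794) (nat_lit 0) (nat_lit 0) (nat_lit 0) (nat_lit 0) (nat_lit 0) (nat_lit 0) (nat_lit 1) (nat_lit 0) (nat_lit 1) (nat_lit 0) (nat_lit 334) (nat_lit 450) (nat_lit 296)) (XT.lf (nat_lit 0) (nat_lit 1094058963436) (nat_lit 0) (nat_lit 0) (nat_lit 0) (nat_lit 0) (nat_lit 0) (nat_lit 0) (nat_lit 1) (nat_lit 0) (nat_lit 1) (nat_lit 0) (nat_lit 335) (nat_lit 450) (nat_lit 295)))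 (XT.nd (nat_lit 94) (nat_lit 0) (nat_lit 0) (XT.lf (nat_lit 0) (nat_lit 1094058428844) (nat_lit 0) (nat_lit 0) (nat_lit 0) (nat_lit 0) (nat_lit 0) (nat_lit 0) (nat_lit 1) (nat_lit 0) (nat_lit 1) (nat_lit 0) (nat_lit 336) (nat_lit 450) (nat_lit 294)) (XT.nd (nat_lit 94) (nat_lit 0) (nat_lit 0) (XT.lf (nat_lit 0) (nat_lit 1094057933852) (nat_lit 0) (nat_lit 0) (nat_lit 0) (nat_lit 0) (nat_lit 0) (nat_lit 0) (nat_lit 1) (nat_lit 0) (nat_lit 1) (nat_lit 0) (nat_lit 337) (nat_lit 450) (nat_lit 293)) (XT.lf (nat_lit 0) (nat_lit 1094057475526) (nat_lit 0) (nat_lit 0) (nat_lit 0) (nat_lit 0) (nat_lit 0) (nat_lit 0) (nat_lit 1) (nat_lit 0) (nat_lit 1) (nat_lit 0) (nat_lit 338) (nat_lit 450) (nat_lit 292)))))) (XT.nd (nat_lit 470) (nat_lit 0) (nat_lit 0) (XT.nd (nat_lit 188) (nat_lit 0) (nat_lit 0) (XT.nd (nat_lit 94) (nat_lit 0) (nat_lit 0) (XT.lf (nat_lit 0) (nat_lit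 1094057051150) (nat_lit 0) (nat_lit 0) (nat_lit 0) (nat_lit 0) (nat_lit 0) (nat_lit 0) (nat_lit 1) (nat_lit 0) (nat_lit 1) (nat_lit 0) (nat_lit 339) (nat_lit 450) (nat_lit 291)) (XT.lf (nat_lit 0) (nat_lit 1094056658210) (nat_lit 0) (nat_lit 0) (nat_lit 0) (nat_lit 0) (nat_lit 0) (nat_lit 0) (nat_lit 1) (nat_lit 0) (nat_lit 1) (nat_lit 0) (nat_lit 340) (nat_lit 450) (nat_lit 290))) (XT.nd (nat_lit 94) (nat_lit 0) (nat_lit 0) (XT.lf (nat_lit 0) (nat_lit 1094056294376) (nat_lit 0) (nat_lit 0) (nat_lit 0) (nat_lit 0) (nat_lit 0) (nat_lit 0) (nat_lit 1) (nat_lit 0) (nat_lit 1) (nat_lit 0) (nat_lit 341) (nat_lit 450) (nat_lit 289)) (XT.nd (nat_lit 94) (nat_lit 0) (nat_lit 0) (XT.lf (nat_lit 0) (nat_lit 1094055957492) (nat_lit 0) (nat_lit 0) (nat_lit 0) (nat_lit 0) (nat_lit 0) (nat_lit 0) (nat_lit 1) (nat_lit 0) (nat_lit 1) (nat_lit 0) (nat_lit 342) (nat_lit 450)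 (nat_lit 288)) (XT.lf (nat_lit 0) (nat_lit 1094055645563) (nat_lit 0) (nat_lit 0) (nat_lit 0) (nat_lit 0) (nat_lit 0) (nat_lit 0) (nat_lit 1) (nat_lit 0) (nat_lit 1) (nat_lit 0) (nat_lit 343) (nat_lit 450) (nat_lit 287))))) (XT.nd (nat_lit 188) (nat_lit 0) (nat_lit 0) (XT.nd (nat_lit 94) (nat_lit 0) (nat_lit 0) (XT.lf (nat_lit 0) (nat_lit 1094055356740) (nat_lit 0) (nat_lit 0) (nat_lit 0) (nat_lit 0) (nat_lit 0) (nat_lit 0) (nat_lit 1) (nat_lit 0) (nat_lit 1) (nat_lit 0) (nat_lit 344) (nat_lit 450) (nat_lit 286)) (XT.lf (nat_lit 0) (nat_lit 1094055089311) (nat_lit 0) (nat_lit 0) (nat_lit 0) (nat_lit 0) (nat_lit 0) (nat_lit 0) (nat_lit 1) (nat_lit 0) (nat_lit 1) (nat_lit 0) (nat_lit 345) (nat_lit 450) (nat_lit 285))) (XT.nd (nat_lit 94) (nat_lit 0) (nat_lit 0) (XT.lf (nat_lit 0) (nat_lit 1094054841692) (nat_lit 0) (nat_lit 0) (nat_lit 0) (nat_lit 0) (nat_lit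 0) (nat_lit 0) (nat_lit 1) (nat_lit 0) (nat_lit 1) (nat_lit 0) (nat_lit 346) (nat_lit 450) (nat_lit 284)) (XT.nd (nat_lit 94) (nat_lit 0) (nat_lit 0) (XT.lf (nat_lit 0) (nat_lit 1094054612415) (nat_lit 0) (nat_lit 0) (nat_lit 0) (nat_lit 0) (nat_lit 0) (nat_lit 0) (nat_lit 1) (nat_lit 0) (nat_lit 1) (nat_lit 0) (nat_lit 347) (nat_lit 450) (nat_lit 283)) (XT.lf (nat_lit 0) (nat_lit 1094054400122) (nat_lit 0) (nat_lit 0) (nat_lit 0) (nat_lit 0) (nat_lit 0) (nat_lit 0) (nat_lit 1) (nat_lit 0) (nat_lit 1) (nat_lit 0) (nat_lit 348) (nat_lit 450) (nat_lit 282))))))))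
noncomputable def ec439 : XT := (XT.nd (nat_lit 1786) (nat_lit 0) (nat_lit 0) (XT.nd (nat_lit 846) (nat_lit 0) (nat_lit 0) (XT.nd (nat_lit 376) (nat_lit 0) (nat_lit 0) (XT.nd (nat_lit 188) (nat_lit 0) (nat_lit 0) (XT.nd (nat_lit 94) (nat_lit 0) (nat_lit 0) (XT.lf (nat_lit 0) (nat_lit 1094054203553) (nat_lit 0) (nat_lit 0) (nat_lit 0) (nat_lit 0) (nat_lit 0) (nat_lit 0) (nat_lit 1) (nat_lit 0) (nat_lit 1) (nat_lit 0) (nat_lit 349) (nat_lit 450) (nat_lit 281)) (XT.lf (nat_lit 0) (nat_lit 1094054021546) (nat_lit 0) (nat_lit 0) (nat_lit 0) (nat_lit 0) (nat_lit 0) (nat_lit 0) (nat_lit 1) (nat_lit 0) (nat_lit 1) (nat_lit 0) (nat_lit 350) (nat_lit 450) (nat_lit 280))) (XT.nd (nat_lit 94) (nat_lit 0) (nat_lit 0) (XT.lf (nat_lit 0) (nat_lit 1094053853020) (nat_lit 0) (nat_lit 0) (nat_lit 0) (nat_lit 0) (nat_lit 0) (nat_lit 0) (nat_lit 1) (nat_lit 0) (nat_lit 1) (nat_lit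 0) (nat_lit 351) (nat_lit 450) (nat_lit 279)) (XT.lf (nat_lit 0) (nat_lit 1094053696978) (nat_lit 0) (nat_lit 0) (nat_lit 0) (nat_lit 0) (nat_lit 0) (nat_lit 0) (nat_lit 1) (nat_lit 0) (nat_lit 1) (nat_lit 0) (nat_lit 352) (nat_lit 450) (nat_lit 278)))) (XT.nd (nat_lit 188) (nat_lit 0) (nat_lit 0) (XT.nd (nat_lit 94) (nat_lit 0) (nat_lit 0) (XT.lf (nat_lit 0) (nat_lit 1094053552495) (nat_lit 0) (nat_lit 0) (nat_lit 0) (nat_lit 0) (nat_lit 0) (nat_lit 0) (nat_lit 1) (nat_lit 0) (nat_lit 1) (nat_lit 0) (nat_lit 353) (nat_lit 450) (nat_lit 277)) (XT.lf (nat_lit 0) (nat_lit 1094053418714) (nat_lit 0) (nat_lit 0) (nat_lit 0) (nat_lit 0) (nat_lit 0) (nat_lit 0) (nat_lit 1) (nat_lit 0) (nat_lit 1) (nat_lit 0) (nat_lit 354) (nat_lit 450) (nat_lit 276))) (XT.nd (nat_lit 94) (nat_lit 0) (nat_lit 0) (XT.lf (nat_lit 0) (nat_lit 1094053294842) (nat_lit 0) (nat_lit 0) (nat_lit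 0) (nat_lit 0) (nat_lit 0) (nat_lit 0) (nat_lit 1) (nat_lit 0) (nat_lit 1) (nat_lit 0) (nat_lit 355) (nat_lit 450) (nat_lit 275)) (XT.nd (nat_lit 94) (nat_lit 0) (nat_lit 0) (XT.lf (nat_lit 0) (nat_lit 1094053180147) (nat_lit 0) (nat_lit 0) (nat_lit 0) (nat_lit 0) (nat_lit 0) (nat_lit 0) (nat_lit 1) (nat_lit 0) (nat_lit 1) (nat_lit 0) (nat_lit 356) (nat_lit 450) (nat_lit 274)) (XT.lf (nat_lit 0) (nat_lit 1094053073947) (nat_lit 0) (nat_lit 0) (nat_lit 0) (nat_lit 0) (nat_lit 0) (nat_lit 0) (nat_lit 1) (nat_lit 0) (nat_lit 1) (nat_lit 0) (nat_lit 357) (nat_lit 450) (nat_lit 273)))))) (XT.nd (nat_lit 470) (nat_lit 0) (nat_lit 0) (XT.nd (nat_lit 188) (nat_lit 0) (nat_lit 0) (XT.nd (nat_lit 94) (nat_lit 0) (nat_lit 0) (XT.lf (nat_lit 0) (nat_lit 1094052975614) (nat_lit 0) (nat_lit 0) (nat_lit 0) (nat_lit 0) (nat_lit 0) (nat_lit 0) (nat_lit 1) (nat_lit 0) (nat_lit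 1) (nat_lit 0) (nat_lit 358) (nat_lit 450) (nat_lit 272)) (XT.lf (nat_lit 0) (nat_lit 1094052884565) (nat_lit 0) (nat_lit 0) (nat_lit 0) (nat_lit 0) (nat_lit 0) (nat_lit 0) (nat_lit 1) (nat_lit 0) (nat_lit 1) (nat_lit 0) (nat_lit 359) (nat_lit 450) (nat_lit 271))) (XT.nd (nat_lit 94) (nat_lit 0) (nat_lit 0) (XT.lf (nat_lit 0) (nat_lit 1094052800260) (nat_lit 0) (nat_lit 0) (nat_lit 0) (nat_lit 0) (nat_lit 0) (nat_lit 0) (nat_lit 1) (nat_lit 0) (nat_lit 1) (nat_lit 0) (nat_lit 360) (nat_lit 450) (nat_lit 270)) (XT.nd (nat_lit 94) (nat_lit 0) (nat_lit 0) (XT.lf (nat_lit 0) (nat_lit 1094052722200) (nat_lit 0) (nat_lit 0) (nat_lit 0) (nat_lit 0) (nat_lit 0) (nat_lit 0) (nat_lit 1) (nat_lit 0) (nat_lit 1) (nat_lit 0) (nat_lit 361) (nat_lit 450) (nat_lit 269)) (XT.lf (nat_lit 0) (nat_lit 1094052649923) (nat_lit 0) (nat_lit 0) (nat_lit 0) (nat_lit 0) (nat_lit 0)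 (nat_lit 0) (nat_lit 1) (nat_lit 0) (nat_lit 1) (nat_lit 0) (nat_lit 362) (nat_lit 450) (nat_lit 268))))) (XT.nd (nat_lit 188) (nat_lit 0) (nat_lit 0) (XT.nd (nat_lit 94) (nat_lit 0) (nat_lit 0) (XT.lf (nat_lit 0) (nat_lit 1094052582999) (nat_lit 0) (nat_lit 0) (nat_lit 0) (nat_lit 0) (nat_lit 0) (nat_lit 0) (nat_lit 1) (nat_lit 0) (nat_lit 1) (nat_lit 0) (nat_lit 363) (nat_lit 450) (nat_lit 267)) (XT.lf (nat_lit 0) (nat_lit 1094052521032) (nat_lit 0) (nat_lit 0) (nat_lit 0) (nat_lit 0) (nat_lit 0) (nat_lit 0) (nat_lit 1) (nat_lit 0) (nat_lit 1) (nat_lit 0) (nat_lit 364) (nat_lit 450) (nat_lit 266))) (XT.nd (nat_lit 94) (nat_lit 0) (nat_lit 0) (XT.lf (nat_lit 0) (nat_lit 1094052463656) (nat_lit 0) (nat_lit 0) (nat_lit 0) (nat_lit 0) (nat_lit 0) (nat_lit 0) (nat_lit 1) (nat_lit 0) (nat_lit 1) (nat_lit 0) (nat_lit 365) (nat_lit 450) (nat_lit 265)) (XT.nd (nat_lit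 94) (nat_lit 0) (nat_lit 0) (XT.lf (nat_lit 0) (nat_lit 1094052410530) (nat_lit 0) (nat_lit 0) (nat_lit 0) (nat_lit 0) (nat_lit 0) (nat_lit 0) (nat_lit 1) (nat_lit 0) (nat_lit 1) (nat_lit 0) (nat_lit 366) (nat_lit 450) (nat_lit 264)) (XT.lf (nat_lit 0) (nat_lit 1094052361339) (nat_lit 0) (nat_lit 0) (nat_lit 0) (nat_lit 0) (nat_lit 0) (nat_lit 0) (nat_lit 1) (nat_lit 0) (nat_lit 1) (nat_lit 0) (nat_lit 367) (nat_lit 450) (nat_lit 263))))))) (XT.nd (nat_lit 846) (nat_lit 0) (nat_lit 0) (XT.nd (nat_lit 376) (nat_lit 0) (nat_lit 0) (XT.nd (nat_lit 188) (nat_lit 0) (nat_lit 0) (XT.nd (nat_lit 94) (nat_lit 0) (nat_lit 0) (XT.lf (nat_lit 0) (nat_lit 1094052315792) (nat_lit 0) (nat_lit 0) (nat_lit 0) (nat_lit 0) (nat_lit 0) (nat_lit 0) (nat_lit 1) (nat_lit 0) (nat_lit 1) (nat_lit 0) (nat_lit 368) (nat_lit 450) (nat_lit 262)) (XT.lf (nat_lit 0) (nat_lit 1094052273618)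 (nat_lit 0) (nat_lit 0) (nat_lit 0) (nat_lit 0) (nat_lit 0) (nat_lit 0) (nat_lit 1) (nat_lit 0) (nat_lit 1) (nat_lit 0) (nat_lit 369) (nat_lit 450) (nat_lit 261))) (XT.nd (nat_lit 94) (nat_lit 0) (nat_lit 0) (XT.lf (nat_lit 0) (nat_lit 1094052234569) (nat_lit 0) (nat_lit 0) (nat_lit 0) (nat_lit 0) (nat_lit 0) (nat_lit 0) (nat_lit 1) (nat_lit 0) (nat_lit 1) (nat_lit 0) (nat_lit 370) (nat_lit 450) (nat_lit 260)) (XT.lf (nat_lit 0) (nat_lit 1094052198412) (nat_lit 0) (nat_lit 0) (nat_lit 0) (nat_lit 0) (nat_lit 0) (nat_lit 0) (nat_lit 1) (nat_lit 0) (nat_lit 1) (nat_lit 0) (nat_lit 371) (nat_lit 450) (nat_lit 259)))) (XT.nd (nat_lit 188) (nat_lit 0) (nat_lit 0) (XT.nd (nat_lit 94) (nat_lit 0) (nat_lit 0) (XT.lf (nat_lit 0) (nat_lit 1094052164933) (nat_lit 0) (nat_lit 0) (nat_lit 0) (nat_lit 0) (nat_lit 0) (nat_lit 0) (nat_lit 1) (nat_lit 0) (nat_lit 1) (nat_lit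 0) (nat_lit 372) (nat_lit 450) (nat_lit 258)) (XT.lf (nat_lit 0) (nat_lit 1094052133935) (nat_lit 0) (nat_lit 0) (nat_lit 0) (nat_lit 0) (nat_lit 0) (nat_lit 0) (nat_lit 1) (nat_lit 0) (nat_lit 1) (nat_lit 0) (nat_lit 373) (nat_lit 450) (nat_lit 257))) (XT.nd (nat_lit 94) (nat_lit 0) (nat_lit 0) (XT.lf (nat_lit 0) (nat_lit 1094052105232) (nat_lit 0) (nat_lit 0) (nat_lit 0) (nat_lit 0) (nat_lit 0) (nat_lit 0) (nat_lit 1) (nat_lit 0) (nat_lit 1) (nat_lit 0) (nat_lit 374) (nat_lit 450) (nat_lit 256)) (XT.nd (nat_lit 94) (nat_lit 0) (nat_lit 0) (XT.lf (nat_lit 0) (nat_lit 1094052078656) (nat_lit 0) (nat_lit 0) (nat_lit 0) (nat_lit 0) (nat_lit 0) (nat_lit 0) (nat_lit 1) (nat_lit 0) (nat_lit 1) (nat_lit 0) (nat_lit 375) (nat_lit 450) (nat_lit 255)) (XT.lf (nat_lit 0) (nat_lit 1094052054048) (nat_lit 0) (nat_lit 0) (nat_lit 0) (nat_lit 0) (nat_lit 0) (nat_lit 0)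 (nat_lit 1) (nat_lit 0) (nat_lit 1) (nat_lit 0) (nat_lit 376) (nat_lit 450) (nat_lit 254)))))) (XT.nd (nat_lit 470) (nat_lit 0) (nat_lit 0) (XT.nd (nat_lit 188) (nat_lit 0) (nat_lit 0) (XT.nd (nat_lit 94) (nat_lit 0) (nat_lit 0) (XT.lf (nat_lit 0) (nat_lit 1094052031263) (nat_lit 0) (nat_lit 0) (nat_lit 0) (nat_lit 0) (nat_lit 0) (nat_lit 0) (nat_lit 1) (nat_lit 0) (nat_lit 1) (nat_lit 0) (nat_lit 377) (nat_lit 450) (nat_lit 253)) (XT.lf (nat_lit 0) (nat_lit 1094052010166) (nat_lit 0) (nat_lit 0) (nat_lit 0) (nat_lit 0) (nat_lit 0) (nat_lit 0) (nat_lit 1) (nat_lit 0) (nat_lit 1) (nat_lit 0) (nat_lit 378) (nat_lit 450) (nat_lit 252))) (XT.nd (nat_lit 94) (nat_lit 0) (nat_lit 0) (XT.lf (nat_lit 0) (nat_lit 1094051990632) (nat_lit 0) (nat_lit 0) (nat_lit 0) (nat_lit 0) (nat_lit 0) (nat_lit 0) (nat_lit 1) (nat_lit 0) (nat_lit 1) (nat_lit 0) (nat_lit 379) (nat_lit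 450) (nat_lit 251)) (XT.nd (nat_lit 94) (nat_lit 0) (nat_lit 0) (XT.lf (nat_lit 0) (nat_lit 1094051972544) (nat_lit 0) (nat_lit 0) (nat_lit 0) (nat_lit 0) (nat_lit 0) (nat_lit 0) (nat_lit 1) (nat_lit 0) (nat_lit 1) (nat_lit 0) (nat_lit 380) (nat_lit 450) (nat_lit 250)) (XT.lf (nat_lit 0) (nat_lit 1094051955797) (nat_lit 0) (nat_lit 0) (nat_lit 0) (nat_lit 0) (nat_lit 0) (nat_lit 0) (nat_lit 1) (nat_lit 0) (nat_lit 1) (nat_lit 0) (nat_lit 381) (nat_lit 450) (nat_lit 249))))) (XT.nd (nat_lit 188) (nat_lit 0) (nat_lit 0) (XT.nd (nat_lit 94) (nat_lit 0) (nat_lit 0) (XT.lf (nat_lit 0) (nat_lit 1094051940289) (nat_lit 0) (nat_lit 0) (nat_lit 0) (nat_lit 0) (nat_lit 0) (nat_lit 0) (nat_lit 1) (nat_lit 0) (nat_lit 1) (nat_lit 0) (nat_lit 382) (nat_lit 450) (nat_lit 248)) (XT.lf (nat_lit 0) (nat_lit 1094051925931) (nat_lit 0) (nat_lit 0) (nat_lit 0) (nat_lit 0) (nat_lit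 0) (nat_lit 0) (nat_lit 1) (nat_lit 0) (nat_lit 1) (nat_lit 0) (nat_lit 383) (nat_lit 450) (nat_lit 247))) (XT.nd (nat_lit 94) (nat_lit 0) (nat_lit 0) (XT.lf (nat_lit 0) (nat_lit 1094051912636) (nat_lit 0) (nat_lit 0) (nat_lit 0) (nat_lit 0) (nat_lit 0) (nat_lit 0) (nat_lit 1) (nat_lit 0) (nat_lit 1) (nat_lit 0) (nat_lit 384) (nat_lit 450) (nat_lit 246)) (XT.nd (nat_lit 94) (nat_lit 0) (nat_lit 0) (XT.lf (nat_lit 0) (nat_lit 1094051900326) (nat_lit 0) (nat_lit 0) (nat_lit 0) (nat_lit 0) (nat_lit 0) (nat_lit 0) (nat_lit 1) (nat_lit 0) (nat_lit 1) (nat_lit 0) (nat_lit 385) (nat_lit 450) (nat_lit 245)) (XT.lf (nat_lit 0) (nat_lit 1094051888928) (nat_lit 0) (nat_lit 0) (nat_lit 0) (nat_lit 0) (nat_lit 0) (nat_lit 0) (nat_lit 1) (nat_lit 0) (nat_lit 1) (nat_lit 0) (nat_lit 386) (nat_lit 450) (nat_lit 244))))))))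
noncomputable def ec440 : XT := (XT.nd (nat_lit 1692) (nat_lit 0) (nat_lit 0) (XT.nd (nat_lit 846) (nat_lit 0) (nat_lit 0) (XT.nd (nat_lit 376) (nat_lit 0) (nat_lit 0) (XT.nd (nat_lit 188) (nat_lit 0) (nat_lit 0) (XT.nd (nat_lit 94) (nat_lit 0) (nat_lit 0) (XT.lf (nat_lit 0) (nat_lit 1094051878374) (nat_lit 0) (nat_lit 0) (nat_lit 0) (nat_lit 0) (nat_lit 0) (nat_lit 0) (nat_lit 1) (nat_lit 0) (nat_lit 1) (nat_lit 0) (nat_lit 387) (nat_lit 450) (nat_lit 243)) (XT.lf (nat_lit 0) (nat_lit 1094051868602) (nat_lit 0) (nat_lit 0) (nat_lit 0) (nat_lit 0) (nat_lit 0) (nat_lit 0) (nat_lit 1) (nat_lit 0) (nat_lit 1) (nat_lit 0) (nat_lit 388) (nat_lit 450) (nat_lit 242))) (XT.nd (nat_lit 94) (nat_lit 0) (nat_lit 0) (XT.lf (nat_lit 0) (nat_lit 1094051859554) (nat_lit 0) (nat_lit 0) (nat_lit 0) (nat_lit 0) (nat_lit 0) (nat_lit 0) (nat_lit 1) (nat_lit 0) (nat_lit 1) (nat_lit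 0) (nat_lit 389) (nat_lit 450) (nat_lit 241)) (XT.lf (nat_lit 0) (nat_lit 1094051851176) (nat_lit 0) (nat_lit 0) (nat_lit 0) (nat_lit 0) (nat_lit 0) (nat_lit 0) (nat_lit 1) (nat_lit 0) (nat_lit 1) (nat_lit 0) (nat_lit 390) (nat_lit 450) (nat_lit 240)))) (XT.nd (nat_lit 188) (nat_lit 0) (nat_lit 0) (XT.nd (nat_lit 94) (nat_lit 0) (nat_lit 0) (XT.lf (nat_lit 0) (nat_lit 1094051843419) (nat_lit 0) (nat_lit 0) (nat_lit 0) (nat_lit 0) (nat_lit 0) (nat_lit 0) (nat_lit 1) (nat_lit 0) (nat_lit 1) (nat_lit 0) (nat_lit 391) (nat_lit 450) (nat_lit 239)) (XT.lf (nat_lit 0) (nat_lit 1094051836236) (nat_lit 0) (nat_lit 0) (nat_lit 0) (nat_lit 0) (nat_lit 0) (nat_lit 0) (nat_lit 1) (nat_lit 0) (nat_lit 1) (nat_lit 0) (nat_lit 392) (nat_lit 450) (nat_lit 238))) (XT.nd (nat_lit 94) (nat_lit 0) (nat_lit 0) (XT.lf (nat_lit 0) (nat_lit 1094051829585) (nat_lit 0) (nat_lit 0) (nat_lit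 0) (nat_lit 0) (nat_lit 0) (nat_lit 0) (nat_lit 1) (nat_lit 0) (nat_lit 1) (nat_lit 0) (nat_lit 393) (nat_lit 450) (nat_lit 237)) (XT.nd (nat_lit 94) (nat_lit 0) (nat_lit 0) (XT.lf (nat_lit 0) (nat_lit 1094051823427) (nat_lit 0) (nat_lit 0) (nat_lit 0) (nat_lit 0) (nat_lit 0) (nat_lit 0) (nat_lit 1) (nat_lit 0) (nat_lit 1) (nat_lit 0) (nat_lit 394) (nat_lit 450) (nat_lit 236)) (XT.lf (nat_lit 0) (nat_lit 1094051817725) (nat_lit 0) (nat_lit 0) (nat_lit 0) (nat_lit 0) (nat_lit 0) (nat_lit 0) (nat_lit 1) (nat_lit 0) (nat_lit 1) (nat_lit 0) (nat_lit 395) (nat_lit 450) (nat_lit 235)))))) (XT.nd (nat_lit 376) (nat_lit 0) (nat_lit 0) (XT.nd (nat_lit 188) (nat_lit 0) (nat_lit 0) (XT.nd (nat_lit 94) (nat_lit 0) (nat_lit 0) (XT.lf (nat_lit 0) (nat_lit 1094051812446) (nat_lit 0) (nat_lit 0) (nat_lit 0) (nat_lit 0) (nat_lit 0) (nat_lit 0) (nat_lit 1) (nat_lit 0) (nat_lit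 1) (nat_lit 0) (nat_lit 396) (nat_lit 450) (nat_lit 234)) (XT.lf (nat_lit 0) (nat_lit 1094051807557) (nat_lit 0) (nat_lit 0) (nat_lit 0) (nat_lit 0) (nat_lit 0) (nat_lit 0) (nat_lit 1) (nat_lit 0) (nat_lit 1) (nat_lit 0) (nat_lit 397) (nat_lit 450) (nat_lit 233))) (XT.nd (nat_lit 94) (nat_lit 0) (nat_lit 0) (XT.lf (nat_lit 0) (nat_lit 1094051803031) (nat_lit 0) (nat_lit 0) (nat_lit 0) (nat_lit 0) (nat_lit 0) (nat_lit 0) (nat_lit 1) (nat_lit 0) (nat_lit 1) (nat_lit 0) (nat_lit 398) (nat_lit 450) (nat_lit 232)) (XT.lf (nat_lit 0) (nat_lit 1094051798840) (nat_lit 0) (nat_lit 0) (nat_lit 0) (nat_lit 0) (nat_lit 0) (nat_lit 0) (nat_lit 1) (nat_lit 0) (nat_lit 1) (nat_lit 0) (nat_lit 399) (nat_lit 450) (nat_lit 231)))) (XT.nd (nat_lit 188) (nat_lit 0) (nat_lit 0) (XT.nd (nat_lit 94) (nat_lit 0) (nat_lit 0) (XT.lf (nat_lit 0) (nat_lit 1094051794959) (nat_lit 0) (nat_lit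 0) (nat_lit 0) (nat_lit 0) (nat_lit 0) (nat_lit 0) (nat_lit 1) (nat_lit 0) (nat_lit 1) (nat_lit 0) (nat_lit 400) (nat_lit 450) (nat_lit 230)) (XT.lf (nat_lit 0) (nat_lit 1094051791366) (nat_lit 0) (nat_lit 0) (nat_lit 0) (nat_lit 0) (nat_lit 0) (nat_lit 0) (nat_lit 1) (nat_lit 0) (nat_lit 1) (nat_lit 0) (nat_lit 401) (nat_lit 450) (nat_lit 229))) (XT.nd (nat_lit 94) (nat_lit 0) (nat_lit 0) (XT.lf (nat_lit 0) (nat_lit 1094051788039) (nat_lit 0) (nat_lit 0) (nat_lit 0) (nat_lit 0) (nat_lit 0) (nat_lit 0) (nat_lit 1) (nat_lit 0) (nat_lit 1) (nat_lit 0) (nat_lit 402) (nat_lit 450) (nat_lit 228)) (XT.nd (nat_lit 94) (nat_lit 0) (nat_lit 0) (XT.lf (nat_lit 0) (nat_lit 1094051784958) (nat_lit 0) (nat_lit 0) (nat_lit 0) (nat_lit 0) (nat_lit 0) (nat_lit 0) (nat_lit 1) (nat_lit 0) (nat_lit 1) (nat_lit 0) (nat_lit 403) (nat_lit 450) (nat_lit 227)) (XT.lf (nat_lit 0)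 (nat_lit 1094051782106) (nat_lit 0) (nat_lit 0) (nat_lit 0) (nat_lit 0) (nat_lit 0) (nat_lit 0) (nat_lit 1) (nat_lit 0) (nat_lit 1) (nat_lit 0) (nat_lit 404) (nat_lit 450) (nat_lit 226))))))) (XT.nd (nat_lit 846) (nat_lit 0) (nat_lit 0) (XT.nd (nat_lit 376) (nat_lit 0) (nat_lit 0) (XT.nd (nat_lit 188) (nat_lit 0) (nat_lit 0) (XT.nd (nat_lit 94) (nat_lit 0) (nat_lit 0) (XT.lf (nat_lit 0) (nat_lit 1094051779465) (nat_lit 0) (nat_lit 0) (nat_lit 0) (nat_lit 0) (nat_lit 0) (nat_lit 0) (nat_lit 1) (nat_lit 0) (nat_lit 1) (nat_lit 0) (nat_lit 405) (nat_lit 450) (nat_lit 225)) (XT.lf (nat_lit 0) (nat_lit 1094051777019) (nat_lit 0) (nat_lit 0) (nat_lit 0) (nat_lit 0) (nat_lit 0) (nat_lit 0) (nat_lit 1) (nat_lit 0) (nat_lit 1) (nat_lit 0) (nat_lit 406) (nat_lit 450) (nat_lit 224))) (XT.nd (nat_lit 94) (nat_lit 0) (nat_lit 0) (XT.lf (nat_lit 0) (nat_lit 1094051774755)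 (nat_lit 0) (nat_lit 0) (nat_lit 0) (nat_lit 0) (nat_lit 0) (nat_lit 0) (nat_lit 1) (nat_lit 0) (nat_lit 1) (nat_lit 0) (nat_lit 407) (nat_lit 450) (nat_lit 223)) (XT.lf (nat_lit 0) (nat_lit 1094051772659) (nat_lit 0) (nat_lit 0) (nat_lit 0) (nat_lit 0) (nat_lit 0) (nat_lit 0) (nat_lit 1) (nat_lit 0) (nat_lit 1) (nat_lit 0) (nat_lit 408) (nat_lit 450) (nat_lit 222)))) (XT.nd (nat_lit 188) (nat_lit 0) (nat_lit 0) (XT.nd (nat_lit 94) (nat_lit 0) (nat_lit 0) (XT.lf (nat_lit 0) (nat_lit 1094051770717) (nat_lit 0) (nat_lit 0) (nat_lit 0) (nat_lit 0) (nat_lit 0) (nat_lit 0) (nat_lit 1) (nat_lit 0) (nat_lit 1) (nat_lit 0) (nat_lit 409) (nat_lit 450) (nat_lit 221)) (XT.lf (nat_lit 0) (nat_lit 1094051768920) (nat_lit 0) (nat_lit 0) (nat_lit 0) (nat_lit 0) (nat_lit 0) (nat_lit 0) (nat_lit 1) (nat_lit 0) (nat_lit 1) (nat_lit 0) (nat_lit 410) (nat_lit 450) (nat_lit 220)))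 (XT.nd (nat_lit 94) (nat_lit 0) (nat_lit 0) (XT.lf (nat_lit 0) (nat_lit 1094051767256) (nat_lit 0) (nat_lit 0) (nat_lit 0) (nat_lit 0) (nat_lit 0) (nat_lit 0) (nat_lit 1) (nat_lit 0) (nat_lit 1) (nat_lit 0) (nat_lit 411) (nat_lit 450) (nat_lit 219)) (XT.nd (nat_lit 94) (nat_lit 0) (nat_lit 0) (XT.lf (nat_lit 0) (nat_lit 1094051765714) (nat_lit 0) (nat_lit 0) (nat_lit 0) (nat_lit 0) (nat_lit 0) (nat_lit 0) (nat_lit 1) (nat_lit 0) (nat_lit 1) (nat_lit 0) (nat_lit 412) (nat_lit 450) (nat_lit 218)) (XT.lf (nat_lit 0) (nat_lit 1094051764288) (nat_lit 0) (nat_lit 0) (nat_lit 0) (nat_lit 0) (nat_lit 0) (nat_lit 0) (nat_lit 1) (nat_lit 0) (nat_lit 1) (nat_lit 0) (nat_lit 413) (nat_lit 450) (nat_lit 217)))))) (XT.nd (nat_lit 470) (nat_lit 0) (nat_lit 0) (XT.nd (nat_lit 188) (nat_lit 0) (nat_lit 0) (XT.nd (nat_lit 94) (nat_lit 0) (nat_lit 0) (XT.lf (nat_lit 0) (nat_lit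 1094051762966) (nat_lit 0) (nat_lit 0) (nat_lit 0) (nat_lit 0) (nat_lit 0) (nat_lit 0) (nat_lit 1) (nat_lit 0) (nat_lit 1) (nat_lit 0) (nat_lit 414) (nat_lit 450) (nat_lit 216)) (XT.lf (nat_lit 0) (nat_lit 1094051761743) (nat_lit 0) (nat_lit 0) (nat_lit 0) (nat_lit 0) (nat_lit 0) (nat_lit 0) (nat_lit 1) (nat_lit 0) (nat_lit 1) (nat_lit 0) (nat_lit 415) (nat_lit 450) (nat_lit 215))) (XT.nd (nat_lit 94) (nat_lit 0) (nat_lit 0) (XT.lf (nat_lit 0) (nat_lit 1094051760610) (nat_lit 0) (nat_lit 0) (nat_lit 0) (nat_lit 0) (nat_lit 0) (nat_lit 0) (nat_lit 1) (nat_lit 0) (nat_lit 1) (nat_lit 0) (nat_lit 416) (nat_lit 450) (nat_lit 214)) (XT.nd (nat_lit 94) (nat_lit 0) (nat_lit 0) (XT.lf (nat_lit 0) (nat_lit 1094051759561) (nat_lit 0) (nat_lit 0) (nat_lit 0) (nat_lit 0) (nat_lit 0) (nat_lit 0) (nat_lit 1) (nat_lit 0) (nat_lit 1) (nat_lit 0) (nat_lit 417) (nat_lit 450)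 (nat_lit 213)) (XT.lf (nat_lit 0) (nat_lit 1094051758590) (nat_lit 0) (nat_lit 0) (nat_lit 0) (nat_lit 0) (nat_lit 0) (nat_lit 0) (nat_lit 1) (nat_lit 0) (nat_lit 1) (nat_lit 0) (nat_lit 418) (nat_lit 450) (nat_lit 212))))) (XT.nd (nat_lit 188) (nat_lit 0) (nat_lit 0) (XT.nd (nat_lit 94) (nat_lit 0) (nat_lit 0) (XT.lf (nat_lit 0) (nat_lit 1094051757691) (nat_lit 0) (nat_lit 0) (nat_lit 0) (nat_lit 0) (nat_lit 0) (nat_lit 0) (nat_lit 1) (nat_lit 0) (nat_lit 1) (nat_lit 0) (nat_lit 419) (nat_lit 450) (nat_lit 211)) (XT.lf (nat_lit 0) (nat_lit 1094051756859) (nat_lit 0) (nat_lit 0) (nat_lit 0) (nat_lit 0) (nat_lit 0) (nat_lit 0) (nat_lit 1) (nat_lit 0) (nat_lit 1) (nat_lit 0) (nat_lit 420) (nat_lit 450) (nat_lit 210))) (XT.nd (nat_lit 94) (nat_lit 0) (nat_lit 0) (XT.lf (nat_lit 0) (nat_lit 1094051756088) (nat_lit 0) (nat_lit 0) (nat_lit 0) (nat_lit 0) (nat_lit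 0) (nat_lit 0) (nat_lit 1) (nat_lit 0) (nat_lit 1) (nat_lit 0) (nat_lit 421) (nat_lit 450) (nat_lit 209)) (XT.nd (nat_lit 94) (nat_lit 0) (nat_lit 0) (XT.lf (nat_lit 0) (nat_lit 1094051755374) (nat_lit 0) (nat_lit 0) (nat_lit 0) (nat_lit 0) (nat_lit 0) (nat_lit 0) (nat_lit 1) (nat_lit 0) (nat_lit 1) (nat_lit 0) (nat_lit 422) (nat_lit 450) (nat_lit 208)) (XT.lf (nat_lit 0) (nat_lit 1094051754713) (nat_lit 0) (nat_lit 0) (nat_lit 0) (nat_lit 0) (nat_lit 0) (nat_lit 0) (nat_lit 1) (nat_lit 0) (nat_lit 1) (nat_lit 0) (nat_lit 423) (nat_lit 450) (nat_lit 207))))))))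
noncomputable def ec441 : XT := (XT.nd (nat_lit 47376) (nat_lit 0) (nat_lit 1344) (XT.nd (nat_lit 2632) (nat_lit 0) (nat_lit 0) (XT.nd (nat_lit 2162) (nat_lit 0) (nat_lit 0) (XT.nd (nat_lit 1974) (nat_lit 0) (nat_lit 0) (XT.nd (nat_lit 94) (nat_lit 0) (nat_lit 0) (XT.lf (nat_lit 0) (nat_lit 1094051754101) (nat_lit 0) (nat_lit 0) (nat_lit 0) (nat_lit 0) (nat_lit 0) (nat_lit 0) (nat_lit 1) (nat_lit 0) (nat_lit 1) (nat_lit 0) (nat_lit 424) (nat_lit 450) (nat_lit 206)) (XT.lf (nat_lit 0) (nat_lit 1094051753534) (nat_lit 0) (nat_lit 0) (nat_lit 0) (nat_lit 0) (nat_lit 0) (nat_lit 0) (nat_lit 1) (nat_lit 0) (nat_lit 1) (nat_lit 0) (nat_lit 425) (nat_lit 450) (nat_lit 205))) (XT.nd (nat_lit 94) (nat_lit 0) (nat_lit 0) (XT.lf (nat_lit 0) (nat_lit 1094051747971) (nat_lit 0) (nat_lit 0) (nat_lit 0) (nat_lit 0) (nat_lit 0) (nat_lit 0) (nat_lit 1) (nat_lit 0) (nat_lit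 1) (nat_lit 0) (nat_lit 445) (nat_lit 450) (nat_lit 185)) (XT.lf (nat_lit 0) (nat_lit 1094051747858) (nat_lit 0) (nat_lit 0) (nat_lit 0) (nat_lit 0) (nat_lit 0) (nat_lit 0) (nat_lit 1) (nat_lit 0) (nat_lit 1) (nat_lit 0) (nat_lit 446) (nat_lit 450) (nat_lit 184)))) (XT.nd (nat_lit 188) (nat_lit 0) (nat_lit 0) (XT.nd (nat_lit 94) (nat_lit 0) (nat_lit 0) (XT.lf (nat_lit 0) (nat_lit 1094051747754) (nat_lit 0) (nat_lit 0) (nat_lit 0) (nat_lit 0) (nat_lit 0) (nat_lit 0) (nat_lit 1) (nat_lit 0) (nat_lit 1) (nat_lit 0) (nat_lit 447) (nat_lit 450) (nat_lit 183)) (XT.lf (nat_lit 0) (nat_lit 1094051747658) (nat_lit 0) (nat_lit 0) (nat_lit 0) (nat_lit 0) (nat_lit 0) (nat_lit 0) (nat_lit 1) (nat_lit 0) (nat_lit 1) (nat_lit 0) (nat_lit 448) (nat_lit 450) (nat_lit 182))) (XT.nd (nat_lit 94) (nat_lit 0) (nat_lit 0) (XT.lf (nat_lit 0) (nat_lit 1094051747568) (nat_lit 0) (nat_lit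 0) (nat_lit 0) (nat_lit 0) (nat_lit 0) (nat_lit 0) (nat_lit 1) (nat_lit 0) (nat_lit 1) (nat_lit 0) (nat_lit 449) (nat_lit 450) (nat_lit 181)) (XT.nd (nat_lit 94) (nat_lit 0) (nat_lit 0) (XT.lf (nat_lit 0) (nat_lit 1094051747486) (nat_lit 0) (nat_lit 0) (nat_lit 0) (nat_lit 0) (nat_lit 0) (nat_lit 0) (nat_lit 1) (nat_lit 0) (nat_lit 1) (nat_lit 0) (nat_lit 450) (nat_lit 450) (nat_lit 180)) (XT.lf (nat_lit 0) (nat_lit 1094051747409) (nat_lit 0) (nat_lit 0) (nat_lit 0) (nat_lit 0) (nat_lit 0) (nat_lit 0) (nat_lit 1) (nat_lit 0) (nat_lit 1) (nat_lit 0) (nat_lit 451) (nat_lit 450) (nat_lit 179)))))) (XT.nd (nat_lit 42300) (nat_lit 0) (nat_lit 4200) (XT.nd (nat_lit 42018) (nat_lit 0) (nat_lit 10752) (XT.nd (nat_lit 94) (nat_lit 0) (nat_lit 0) (XT.lf (nat_lit 0) (nat_lit 1094051747338) (nat_lit 0) (nat_lit 0) (nat_lit 0) (nat_lit 0) (nat_lit 0) (nat_lit 0) (nat_lit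 1) (nat_lit 0) (nat_lit 1) (nat_lit 0) (nat_lit 452) (nat_lit 450) (nat_lit 178)) (XT.lf (nat_lit 0) (nat_lit 1094051747272) (nat_lit 0) (nat_lit 0) (nat_lit 0) (nat_lit 0) (nat_lit 0) (nat_lit 0) (nat_lit 1) (nat_lit 0) (nat_lit 1) (nat_lit 0) (nat_lit 453) (nat_lit 450) (nat_lit 177))) (XT.nd (nat_lit 94) (nat_lit 0) (nat_lit 84) (XT.lf (nat_lit 924) (nat_lit 591304832436) (nat_lit 0) (nat_lit 1049860370821) (nat_lit 924) (nat_lit 591304832436) (nat_lit 139) (nat_lit 1) (nat_lit 128) (nat_lit 0) (nat_lit 139) (nat_lit 0) (nat_lit 178) (nat_lit 451) (nat_lit 451)) (XT.nd (nat_lit 94) (nat_lit 0) (nat_lit 0) (XT.lf (nat_lit 924) (nat_lit 220574846176) (nat_lit 0) (nat_lit 2061194095688) (nat_lit 840) (nat_lit 2015840939285) (nat_lit 140) (nat_lit 1) (nat_lit 129) (nat_lit 1) (nat_lit 139) (nat_lit 1) (nat_lit 179) (nat_lit 451) (nat_lit 450)) (XT.lf (nat_lit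 924) (nat_lit 2025852644493) (nat_lit 84) (nat_lit 1380382380665) (nat_lit 0) (nat_lit 732091847042) (nat_lit 140) (nat_lit 1) (nat_lit 130) (nat_lit 1) (nat_lit 129) (nat_lit 1) (nat_lit 180) (nat_lit 451) (nat_lit 449))))) (XT.nd (nat_lit 188) (nat_lit 6720) (nat_lit 0) (XT.nd (nat_lit 94) (nat_lit 0) (nat_lit 84) (XT.lf (nat_lit 924) (nat_lit 1750502645080) (nat_lit 84) (nat_lit 578508687830) (nat_lit 0) (nat_lit 1658003456118) (nat_lit 141) (nat_lit 1) (nat_lit 131) (nat_lit 1) (nat_lit 130) (nat_lit 1) (nat_lit 181) (nat_lit 451) (nat_lit 448)) (XT.lf (nat_lit 924) (nat_lit 1295520779926) (nat_lit 0) (nat_lit 2423858142625) (nat_lit 840) (nat_lit 123907281952) (nat_lit 142) (nat_lit 1) (nat_lit 131) (nat_lit 1) (nat_lit 141) (nat_lit 1) (nat_lit 182) (nat_lit 451) (nat_lit 447))) (XT.nd (nat_lit 94) (nat_lit 6888) (nat_lit 0) (XT.lf (nat_lit 924) (nat_lit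 310847508912) (nat_lit 0) (nat_lit 2672976976150) (nat_lit 840) (nat_lit 722597180920) (nat_lit 143) (nat_lit 1) (nat_lit 132) (nat_lit 1) (nat_lit 142) (nat_lit 1) (nat_lit 183) (nat_lit 451) (nat_lit 446)) (XT.nd (nat_lit 2068) (nat_lit 6888) (nat_lit 0) (XT.lf (nat_lit 924) (nat_lit 597322479745) (nat_lit 84) (nat_lit 2323034662131) (nat_lit 0) (nat_lit 655589042457) (nat_lit 143) (nat_lit 1) (nat_lit 133) (nat_lit 1) (nat_lit 132) (nat_lit 1) (nat_lit 184) (nat_lit 451) (nat_lit 445)) (XT.lf (nat_lit 252) (nat_lit 1398978226516) (nat_lit 0) (nat_lit 349163929811) (nat_lit 168) (nat_lit 44295495382) (nat_lit 53) (nat_lit 1) (nat_lit 50) (nat_lit 1) (nat_lit 52) (nat_lit 1) (nat_lit 206) (nat_lit 451) (nat_lit 423))))))) (XT.nd (nat_lit 846) (nat_lit 1344) (nat_lit 0) (XT.nd (nat_lit 376) (nat_lit 924) (nat_lit 0) (XT.nd (nat_lit 188) (nat_lit 252) (nat_lit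 0) (XT.nd (nat_lit 94) (nat_lit 168) (nat_lit 0) (XT.lf (nat_lit 252) (nat_lit 626117817030) (nat_lit 0) (nat_lit 333333833493) (nat_lit 168) (nat_lit 782904109357) (nat_lit 51) (nat_lit 1) (nat_lit 48) (nat_lit 1) (nat_lit 50) (nat_lit 1) (nat_lit 207) (nat_lit 451) (nat_lit 422)) (XT.lf (nat_lit 84) (nat_lit 214469526067) (nat_lit 0) (nat_lit 117882115809) (nat_lit 168) (nat_lit 1361999493636) (nat_lit 47) (nat_lit 1) (nat_lit 46) (nat_lit 1) (nat_lit 48) (nat_lit 1) (nat_lit 208) (nat_lit 451) (nat_lit 421))) (XT.nd (nat_lit 94) (nat_lit 84) (nat_lit 0) (XT.lf (nat_lit 252) (nat_lit 821502584419) (nat_lit 0) (nat_lit 328832407936) (nat_lit 168) (nat_lit 497222869842) (nat_lit 47) (nat_lit 1) (nat_lit 44) (nat_lit 1) (nat_lit 46) (nat_lit 1) (nat_lit 209) (nat_lit 451) (nat_lit 420)) (XT.lf (nat_lit 168) (nat_lit 88464154939) (nat_lit 0) (nat_lit 336908956814)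 (nat_lit 84) (nat_lit 1177238815340) (nat_lit 45) (nat_lit 1) (nat_lit 43) (nat_lit 1) (nat_lit 44) (nat_lit 1) (nat_lit 210) (nat_lit 451) (nat_lit 419)))) (XT.nd (nat_lit 188) (nat_lit 588) (nat_lit 0) (XT.nd (nat_lit 94) (nat_lit 84) (nat_lit 0) (XT.lf (nat_lit 252) (nat_lit 954937891993) (nat_lit 0) (nat_lit 344567957512) (nat_lit 168) (nat_lit 259399440700) (nat_lit 43) (nat_lit 1) (nat_lit 40) (nat_lit 1) (nat_lit 42) (nat_lit 1) (nat_lit 211) (nat_lit 451) (nat_lit 418)) (XT.lf (nat_lit 168) (nat_lit 240173921526) (nat_lit 0) (nat_lit 357451700655) (nat_lit 84) (nat_lit 919046032596) (nat_lit 41) (nat_lit 1) (nat_lit 39) (nat_lit 1) (nat_lit 40) (nat_lit 1) (nat_lit 212) (nat_lit 451) (nat_lit 417))) (XT.nd (nat_lit 94) (nat_lit 336) (nat_lit 0) (XT.lf (nat_lit 252) (nat_lit 1039653840983) (nat_lit 0) (nat_lit 374691701932) (nat_lit 168) (nat_lit 61490115826)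 (nat_lit 39) (nat_lit 1) (nat_lit 36) (nat_lit 1) (nat_lit 38) (nat_lit 1) (nat_lit 213) (nat_lit 451) (nat_lit 416)) (XT.nd (nat_lit 94) (nat_lit 252) (nat_lit 0) (XT.lf (nat_lit 168) (nat_lit 345643223015) (nat_lit 0) (nat_lit 390620601645) (nat_lit 84) (nat_lit 699830542093) (nat_lit 37) (nat_lit 1) (nat_lit 35) (nat_lit 1) (nat_lit 36) (nat_lit 1) (nat_lit 214) (nat_lit 451) (nat_lit 415)) (XT.lf (nat_lit 84) (nat_lit 99766389492) (nat_lit 0) (nat_lit 313140102764) (nat_lit 252) (nat_lit 984874291114) (nat_lit 33) (nat_lit 1) (nat_lit 32) (nat_lit 1) (nat_lit 35) (nat_lit 1) (nat_lit 215) (nat_lit 451) (nat_lit 414)))))) (XT.nd (nat_lit 470) (nat_lit 672) (nat_lit 0) (XT.nd (nat_lit 188) (nat_lit 336) (nat_lit 0) (XT.nd (nat_lit 94) (nat_lit 252) (nat_lit 0) (XT.lf (nat_lit 168) (nat_lit 414803052500) (nat_lit 0) (nat_lit 432205119486) (nat_lit 84) (nat_lit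 513410522259) (nat_lit 33) (nat_lit 1) (nat_lit 31) (nat_lit 1) (nat_lit 32) (nat_lit 1) (nat_lit 216) (nat_lit 451) (nat_lit 413)) (XT.lf (nat_lit 84) (nat_lit 232019473908) (nat_lit 0) (nat_lit 224726549595) (nat_lit 252) (nat_lit 867623576940) (nat_lit 29) (nat_lit 1) (nat_lit 28) (nat_lit 1) (nat_lit 31) (nat_lit 1) (nat_lit 217) (nat_lit 451) (nat_lit 412))) (XT.nd (nat_lit 94) (nat_lit 252) (nat_lit 0) (XT.lf (nat_lit 168) (nat_lit 455662083915) (nat_lit 0) (nat_lit 478918452217) (nat_lit 84) (nat_lit 354661011199) (nat_lit 29) (nat_lit 1) (nat_lit 27) (nat_lit 1) (nat_lit 28) (nat_lit 1) (nat_lit 218) (nat_lit 451) (nat_lit 411)) (XT.nd (nat_lit 94) (nat_lit 84) (nat_lit 0) (XT.lf (nat_lit 84) (nat_lit 341586317797) (nat_lit 0) (nat_lit 162759768471) (nat_lit 168) (nat_lit 750927525592) (nat_lit 26) (nat_lit 1) (nat_lit 25) (nat_lit 1) (nat_lit 27)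 (nat_lit 1) (nat_lit 219) (nat_lit 451) (nat_lit 410)) (XT.lf (nat_lit 168) (nat_lit 474665870630) (nat_lit 0) (nat_lit 528217503678) (nat_lit 84) (nat_lit 219325384727) (nat_lit 26) (nat_lit 1) (nat_lit 24) (nat_lit 1) (nat_lit 25) (nat_lit 1) (nat_lit 220) (nat_lit 451) (nat_lit 409))))) (XT.nd (nat_lit 188) (nat_lit 420) (nat_lit 0) (XT.nd (nat_lit 94) (nat_lit 84) (nat_lit 0) (XT.lf (nat_lit 84) (nat_lit 432074931903) (nat_lit 0) (nat_lit 121420909549) (nat_lit 168) (nat_lit 636665105048) (nat_lit 23) (nat_lit 1) (nat_lit 22) (nat_lit 1) (nat_lit 24) (nat_lit 1) (nat_lit 221) (nat_lit 451) (nat_lit 408)) (XT.lf (nat_lit 168) (nat_lit 476989733589) (nat_lit 0) (nat_lit 578156569426) (nat_lit 84) (nat_lit 103861074929) (nat_lit 23) (nat_lit 1) (nat_lit 21) (nat_lit 1) (nat_lit 22) (nat_lit 1) (nat_lit 222) (nat_lit 451) (nat_lit 407))) (XT.nd (nat_lit 94)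 (nat_lit 252) (nat_lit 0) (XT.lf (nat_lit 84) (nat_lit 506483975768) (nat_lit 0) (nat_lit 96031076599) (nat_lit 168) (nat_lit 526222361316) (nat_lit 20) (nat_lit 1) (nat_lit 19) (nat_lit 1) (nat_lit 21) (nat_lit 1) (nat_lit 223) (nat_lit 451) (nat_lit 406)) (XT.nd (nat_lit 94) (nat_lit 168) (nat_lit 0) (XT.lf (nat_lit 168) (nat_lit 466777530400) (nat_lit 0) (nat_lit 627268511588) (nat_lit 84) (nat_lit 5313268385) (nat_lit 20) (nat_lit 1) (nat_lit 18) (nat_lit 1) (nat_lit 19) (nat_lit 1) (nat_lit 224) (nat_lit 451) (nat_lit 405)) (XT.lf (nat_lit 84) (nat_lit 567310618819) (nat_lit 0) (nat_lit 82837280351) (nat_lit 168) (nat_lit 420592867480) (nat_lit 17) (nat_lit 1) (nat_lit 16) (nat_lit 1) (nat_lit 18) (nat_lit 1) (nat_lit 225) (nat_lit 451) (nat_lit 404))))))))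
noncomputable def ec442 : XT := (XT.nd (nat_lit 1692) (nat_lit 0) (nat_lit 0) (XT.nd (nat_lit 846) (nat_lit 252) (nat_lit 0) (XT.nd (nat_lit 376) (nat_lit 588) (nat_lit 0) (XT.nd (nat_lit 188) (nat_lit 252) (nat_lit 0) (XT.nd (nat_lit 94) (nat_lit 168) (nat_lit 0) (XT.lf (nat_lit 0) (nat_lit 76266804329) (nat_lit 0) (nat_lit 596909919145) (nat_lit 168) (nat_lit 369777838778) (nat_lit 15) (nat_lit 3) (nat_lit 15) (nat_lit 1) (nat_lit 17) (nat_lit 1) (nat_lit 226) (nat_lit 451) (nat_lit 403)) (XT.lf (nat_lit 84) (nat_lit 616638877129) (nat_lit 0) (nat_lit 78837977789) (nat_lit 168) (nat_lit 320459103694) (nat_lit 14) (nat_lit 1) (nat_lit 13) (nat_lit 1) (nat_lit 15) (nat_lit 1) (nat_lit 227) (nat_lit 451) (nat_lit 402))) (XT.nd (nat_lit 94) (nat_lit 168) (nat_lit 0) (XT.lf (nat_lit 0) (nat_lit 145697811491) (nat_lit 0) (nat_lit 570809767543) (nat_lit 168) (nat_lit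 273129342266) (nat_lit 12) (nat_lit 3) (nat_lit 12) (nat_lit 1) (nat_lit 14) (nat_lit 1) (nat_lit 228) (nat_lit 451) (nat_lit 401)) (XT.lf (nat_lit 84) (nat_lit 656211991280) (nat_lit 0) (nat_lit 81640914760) (nat_lit 168) (nat_lit 226258306270) (nat_lit 11) (nat_lit 1) (nat_lit 10) (nat_lit 1) (nat_lit 12) (nat_lit 1) (nat_lit 229) (nat_lit 451) (nat_lit 400)))) (XT.nd (nat_lit 188) (nat_lit 336) (nat_lit 0) (XT.nd (nat_lit 94) (nat_lit 168) (nat_lit 0) (XT.lf (nat_lit 0) (nat_lit 204834908397) (nat_lit 0) (nat_lit 551944415920) (nat_lit 168) (nat_lit 182428274905) (nat_lit 9) (nat_lit 3) (nat_lit 9) (nat_lit 1) (nat_lit 11) (nat_lit 1) (nat_lit 230) (nat_lit 451) (nat_lit 399)) (XT.lf (nat_lit 84) (nat_lit 687491757617) (nat_lit 0) (nat_lit 89347326670) (nat_lit 168) (nat_lit 138235672475) (nat_lit 8) (nat_lit 1) (nat_lit 7) (nat_lit 1) (nat_lit 9) (nat_lit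 1) (nat_lit 231) (nat_lit 451) (nat_lit 398))) (XT.nd (nat_lit 94) (nat_lit 252) (nat_lit 0) (XT.lf (nat_lit 0) (nat_lit 255098802684) (nat_lit 0) (nat_lit 538518284298) (nat_lit 168) (nat_lit 97865443972) (nat_lit 6) (nat_lit 3) (nat_lit 6) (nat_lit 1) (nat_lit 8) (nat_lit 1) (nat_lit 232) (nat_lit 451) (nat_lit 397)) (XT.nd (nat_lit 94) (nat_lit 84) (nat_lit 0) (XT.lf (nat_lit 84) (nat_lit 711707191761) (nat_lit 0) (nat_lit 100457643998) (nat_lit 168) (nat_lit 56487275741) (nat_lit 5) (nat_lit 1) (nat_lit 4) (nat_lit 1) (nat_lit 6) (nat_lit 1) (nat_lit 233) (nat_lit 451) (nat_lit 396)) (XT.lf (nat_lit 0) (nat_lit 297691074177) (nat_lit 0) (nat_lit 529106811337) (nat_lit 168) (nat_lit 19496104670) (nat_lit 3) (nat_lit 3) (nat_lit 3) (nat_lit 1) (nat_lit 5) (nat_lit 1) (nat_lit 234) (nat_lit 451) (nat_lit 395)))))) (XT.nd (nat_lit 376) (nat_lit 0) (nat_lit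 0) (XT.nd (nat_lit 188) (nat_lit 0) (nat_lit 0) (XT.nd (nat_lit 94) (nat_lit 0) (nat_lit 0) (XT.lf (nat_lit 0) (nat_lit 1196275555196) (nat_lit 0) (nat_lit 0) (nat_lit 0) (nat_lit 0) (nat_lit 0) (nat_lit 0) (nat_lit 1) (nat_lit 0) (nat_lit 1) (nat_lit 0) (nat_lit 235) (nat_lit 451) (nat_lit 394)) (XT.lf (nat_lit 0) (nat_lit 1195186690824) (nat_lit 0) (nat_lit 0) (nat_lit 0) (nat_lit 0) (nat_lit 0) (nat_lit 0) (nat_lit 1) (nat_lit 0) (nat_lit 1) (nat_lit 0) (nat_lit 236) (nat_lit 451) (nat_lit 393))) (XT.nd (nat_lit 94) (nat_lit 0) (nat_lit 0) (XT.lf (nat_lit 0) (nat_lit 1194178483071) (nat_lit 0) (nat_lit 0) (nat_lit 0) (nat_lit 0) (nat_lit 0) (nat_lit 0) (nat_lit 1) (nat_lit 0) (nat_lit 1) (nat_lit 0) (nat_lit 237) (nat_lit 451) (nat_lit 392)) (XT.lf (nat_lit 0) (nat_lit 1193244957375) (nat_lit 0) (nat_lit 0) (nat_lit 0) (nat_lit 0) (nat_lit 0) (nat_lit 0)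 (nat_lit 1) (nat_lit 0) (nat_lit 1) (nat_lit 0) (nat_lit 238) (nat_lit 451) (nat_lit 391)))) (XT.nd (nat_lit 188) (nat_lit 0) (nat_lit 0) (XT.nd (nat_lit 94) (nat_lit 0) (nat_lit 0) (XT.lf (nat_lit 0) (nat_lit 1192380581730) (nat_lit 0) (nat_lit 0) (nat_lit 0) (nat_lit 0) (nat_lit 0) (nat_lit 0) (nat_lit 1) (nat_lit 0) (nat_lit 1) (nat_lit 0) (nat_lit 239) (nat_lit 451) (nat_lit 390)) (XT.lf (nat_lit 0) (nat_lit 1191580233910) (nat_lit 0) (nat_lit 0) (nat_lit 0) (nat_lit 0) (nat_lit 0) (nat_lit 0) (nat_lit 1) (nat_lit 0) (nat_lit 1) (nat_lit 0) (nat_lit 240) (nat_lit 451) (nat_lit 389))) (XT.nd (nat_lit 94) (nat_lit 0) (nat_lit 0) (XT.lf (nat_lit 0) (nat_lit 1190839171115) (nat_lit 0) (nat_lit 0) (nat_lit 0) (nat_lit 0) (nat_lit 0) (nat_lit 0) (nat_lit 1) (nat_lit 0) (nat_lit 1) (nat_lit 0) (nat_lit 241) (nat_lit 451) (nat_lit 388)) (XT.nd (nat_lit 94) (nat_lit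 0) (nat_lit 0) (XT.lf (nat_lit 0) (nat_lit 1190153001859) (nat_lit 0) (nat_lit 0) (nat_lit 0) (nat_lit 0) (nat_lit 0) (nat_lit 0) (nat_lit 1) (nat_lit 0) (nat_lit 1) (nat_lit 0) (nat_lit 242) (nat_lit 451) (nat_lit 387)) (XT.lf (nat_lit 0) (nat_lit 1189517659956) (nat_lit 0) (nat_lit 0) (nat_lit 0) (nat_lit 0) (nat_lit 0) (nat_lit 0) (nat_lit 1) (nat_lit 0) (nat_lit 1) (nat_lit 0) (nat_lit 243) (nat_lit 451) (nat_lit 386))))))) (XT.nd (nat_lit 846) (nat_lit 0) (nat_lit 0) (XT.nd (nat_lit 376) (nat_lit 0) (nat_lit 0) (XT.nd (nat_lit 188) (nat_lit 0) (nat_lit 0) (XT.nd (nat_lit 94) (nat_lit 0) (nat_lit 0) (XT.lf (nat_lit 0) (nat_lit 1188929380416) (nat_lit 0) (nat_lit 0) (nat_lit 0) (nat_lit 0) (nat_lit 0) (nat_lit 0) (nat_lit 1) (nat_lit 0) (nat_lit 1) (nat_lit 0) (nat_lit 244) (nat_lit 451) (nat_lit 385)) (XT.lf (nat_lit 0) (nat_lit 1188384677139) (nat_lit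 0) (nat_lit 0) (nat_lit 0) (nat_lit 0) (nat_lit 0) (nat_lit 0) (nat_lit 1) (nat_lit 0) (nat_lit 1) (nat_lit 0) (nat_lit 245) (nat_lit 451) (nat_lit 384))) (XT.nd (nat_lit 94) (nat_lit 0) (nat_lit 0) (XT.lf (nat_lit 0) (nat_lit 1187880322252) (nat_lit 0) (nat_lit 0) (nat_lit 0) (nat_lit 0) (nat_lit 0) (nat_lit 0) (nat_lit 1) (nat_lit 0) (nat_lit 1) (nat_lit 0) (nat_lit 246) (nat_lit 451) (nat_lit 383)) (XT.lf (nat_lit 0) (nat_lit 1187413326986) (nat_lit 0) (nat_lit 0) (nat_lit 0) (nat_lit 0) (nat_lit 0) (nat_lit 0) (nat_lit 1) (nat_lit 0) (nat_lit 1) (nat_lit 0) (nat_lit 247) (nat_lit 451) (nat_lit 382)))) (XT.nd (nat_lit 188) (nat_lit 0) (nat_lit 0) (XT.nd (nat_lit 94) (nat_lit 0) (nat_lit 0) (XT.lf (nat_lit 0) (nat_lit 1186980923963) (nat_lit 0) (nat_lit 0) (nat_lit 0) (nat_lit 0) (nat_lit 0) (nat_lit 0) (nat_lit 1) (nat_lit 0) (nat_lit 1) (nat_lit 0) (nat_lit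 248) (nat_lit 451) (nat_lit 381)) (XT.lf (nat_lit 0) (nat_lit 1186580550793) (nat_lit 0) (nat_lit 0) (nat_lit 0) (nat_lit 0) (nat_lit 0) (nat_lit 0) (nat_lit 1) (nat_lit 0) (nat_lit 1) (nat_lit 0) (nat_lit 249) (nat_lit 451) (nat_lit 380))) (XT.nd (nat_lit 94) (nat_lit 0) (nat_lit 0) (XT.lf (nat_lit 0) (nat_lit 1186209834894) (nat_lit 0) (nat_lit 0) (nat_lit 0) (nat_lit 0) (nat_lit 0) (nat_lit 0) (nat_lit 1) (nat_lit 0) (nat_lit 1) (nat_lit 0) (nat_lit 250) (nat_lit 451) (nat_lit 379)) (XT.nd (nat_lit 94) (nat_lit 0) (nat_lit 0) (XT.lf (nat_lit 0) (nat_lit 1185866579433) (nat_lit 0) (nat_lit 0) (nat_lit 0) (nat_lit 0) (nat_lit 0) (nat_lit 0) (nat_lit 1) (nat_lit 0) (nat_lit 1) (nat_lit 0) (nat_lit 251) (nat_lit 451) (nat_lit 378)) (XT.lf (nat_lit 0) (nat_lit 1185548750302) (nat_lit 0) (nat_lit 0) (nat_lit 0) (nat_lit 0) (nat_lit 0) (nat_lit 0) (nat_lit 1)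 (nat_lit 0) (nat_lit 1) (nat_lit 0) (nat_lit 252) (nat_lit 451) (nat_lit 377)))))) (XT.nd (nat_lit 470) (nat_lit 0) (nat_lit 0) (XT.nd (nat_lit 188) (nat_lit 0) (nat_lit 0) (XT.nd (nat_lit 94) (nat_lit 0) (nat_lit 0) (XT.lf (nat_lit 0) (nat_lit 1185254464070) (nat_lit 0) (nat_lit 0) (nat_lit 0) (nat_lit 0) (nat_lit 0) (nat_lit 0) (nat_lit 1) (nat_lit 0) (nat_lit 1) (nat_lit 0) (nat_lit 253) (nat_lit 451) (nat_lit 376)) (XT.lf (nat_lit 0) (nat_lit 1184981976818) (nat_lit 0) (nat_lit 0) (nat_lit 0) (nat_lit 0) (nat_lit 0) (nat_lit 0) (nat_lit 1) (nat_lit 0) (nat_lit 1) (nat_lit 0) (nat_lit 254) (nat_lit 451) (nat_lit 375))) (XT.nd (nat_lit 94) (nat_lit 0) (nat_lit 0) (XT.lf (nat_lit 0) (nat_lit 1184729673807) (nat_lit 0) (nat_lit 0) (nat_lit 0) (nat_lit 0) (nat_lit 0) (nat_lit 0) (nat_lit 1) (nat_lit 0) (nat_lit 1) (nat_lit 0) (nat_lit 255) (nat_lit 451) (nat_lit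 374)) (XT.nd (nat_lit 94) (nat_lit 0) (nat_lit 0) (XT.lf (nat_lit 0) (nat_lit 1184496059908) (nat_lit 0) (nat_lit 0) (nat_lit 0) (nat_lit 0) (nat_lit 0) (nat_lit 0) (nat_lit 1) (nat_lit 0) (nat_lit 1) (nat_lit 0) (nat_lit 256) (nat_lit 451) (nat_lit 373)) (XT.lf (nat_lit 0) (nat_lit 1184279750742) (nat_lit 0) (nat_lit 0) (nat_lit 0) (nat_lit 0) (nat_lit 0) (nat_lit 0) (nat_lit 1) (nat_lit 0) (nat_lit 1) (nat_lit 0) (nat_lit 257) (nat_lit 451) (nat_lit 372))))) (XT.nd (nat_lit 188) (nat_lit 0) (nat_lit 0) (XT.nd (nat_lit 94) (nat_lit 0) (nat_lit 0) (XT.lf (nat_lit 0) (nat_lit 1184079464477) (nat_lit 0) (nat_lit 0) (nat_lit 0) (nat_lit 0) (nat_lit 0) (nat_lit 0) (nat_lit 1) (nat_lit 0) (nat_lit 1) (nat_lit 0) (nat_lit 258) (nat_lit 451) (nat_lit 371)) (XT.lf (nat_lit 0) (nat_lit 1183894014232) (nat_lit 0) (nat_lit 0) (nat_lit 0) (nat_lit 0) (nat_lit 0) (nat_lit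 0) (nat_lit 1) (nat_lit 0) (nat_lit 1) (nat_lit 0) (nat_lit 259) (nat_lit 451) (nat_lit 370))) (XT.nd (nat_lit 94) (nat_lit 0) (nat_lit 0) (XT.lf (nat_lit 0) (nat_lit 1183722301042) (nat_lit 0) (nat_lit 0) (nat_lit 0) (nat_lit 0) (nat_lit 0) (nat_lit 0) (nat_lit 1) (nat_lit 0) (nat_lit 1) (nat_lit 0) (nat_lit 260) (nat_lit 451) (nat_lit 369)) (XT.nd (nat_lit 94) (nat_lit 0) (nat_lit 0) (XT.lf (nat_lit 0) (nat_lit 1183563307348) (nat_lit 0) (nat_lit 0) (nat_lit 0) (nat_lit 0) (nat_lit 0) (nat_lit 0) (nat_lit 1) (nat_lit 0) (nat_lit 1) (nat_lit 0) (nat_lit 261) (nat_lit 451) (nat_lit 368)) (XT.lf (nat_lit 0) (nat_lit 1183416090964) (nat_lit 0) (nat_lit 0) (nat_lit 0) (nat_lit 0) (nat_lit 0) (nat_lit 0) (nat_lit 1) (nat_lit 0) (nat_lit 1) (nat_lit 0) (nat_lit 262) (nat_lit 451) (nat_lit 367))))))))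
noncomputable def ec443 : XT := (XT.nd (nat_lit 1786) (nat_lit 0) (nat_lit 0) (XT.nd (nat_lit 846) (nat_lit 0) (nat_lit 0) (XT.nd (nat_lit 376) (nat_lit 0) (nat_lit 0) (XT.nd (nat_lit 188) (nat_lit 0) (nat_lit 0) (XT.nd (nat_lit 94) (nat_lit 0) (nat_lit 0) (XT.lf (nat_lit 0) (nat_lit 1183279779497) (nat_lit 0) (nat_lit 0) (nat_lit 0) (nat_lit 0) (nat_lit 0) (nat_lit 0) (nat_lit 1) (nat_lit 0) (nat_lit 1) (nat_lit 0) (nat_lit 263) (nat_lit 451) (nat_lit 366)) (XT.lf (nat_lit 0) (nat_lit 1183153565177) (nat_lit 0) (nat_lit 0) (nat_lit 0) (nat_lit 0) (nat_lit 0) (nat_lit 0) (nat_lit 1) (nat_lit 0) (nat_lit 1) (nat_lit 0) (nat_lit 264) (nat_lit 451) (nat_lit 365))) (XT.nd (nat_lit 94) (nat_lit 0) (nat_lit 0) (XT.lf (nat_lit 0) (nat_lit 1183036700065) (nat_lit 0) (nat_lit 0) (nat_lit 0) (nat_lit 0) (nat_lit 0) (nat_lit 0) (nat_lit 1) (nat_lit 0) (nat_lit 1) (nat_lit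 0) (nat_lit 265) (nat_lit 451) (nat_lit 364)) (XT.lf (nat_lit 0) (nat_lit 1182928491628) (nat_lit 0) (nat_lit 0) (nat_lit 0) (nat_lit 0) (nat_lit 0) (nat_lit 0) (nat_lit 1) (nat_lit 0) (nat_lit 1) (nat_lit 0) (nat_lit 266) (nat_lit 451) (nat_lit 363)))) (XT.nd (nat_lit 188) (nat_lit 0) (nat_lit 0) (XT.nd (nat_lit 94) (nat_lit 0) (nat_lit 0) (XT.lf (nat_lit 0) (nat_lit 1182828298631) (nat_lit 0) (nat_lit 0) (nat_lit 0) (nat_lit 0) (nat_lit 0) (nat_lit 0) (nat_lit 1) (nat_lit 0) (nat_lit 1) (nat_lit 0) (nat_lit 267) (nat_lit 451) (nat_lit 362)) (XT.lf (nat_lit 0) (nat_lit 1182735527337) (nat_lit 0) (nat_lit 0) (nat_lit 0) (nat_lit 0) (nat_lit 0) (nat_lit 0) (nat_lit 1) (nat_lit 0) (nat_lit 1) (nat_lit 0) (nat_lit 268) (nat_lit 451) (nat_lit 361))) (XT.nd (nat_lit 94) (nat_lit 0) (nat_lit 0) (XT.lf (nat_lit 0) (nat_lit 1182649627991) (nat_lit 0) (nat_lit 0) (nat_lit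 0) (nat_lit 0) (nat_lit 0) (nat_lit 0) (nat_lit 1) (nat_lit 0) (nat_lit 1) (nat_lit 0) (nat_lit 269) (nat_lit 451) (nat_lit 360)) (XT.nd (nat_lit 94) (nat_lit 0) (nat_lit 0) (XT.lf (nat_lit 0) (nat_lit 1182570091560) (nat_lit 0) (nat_lit 0) (nat_lit 0) (nat_lit 0) (nat_lit 0) (nat_lit 0) (nat_lit 1) (nat_lit 0) (nat_lit 1) (nat_lit 0) (nat_lit 270) (nat_lit 451) (nat_lit 359)) (XT.lf (nat_lit 0) (nat_lit 1182496446716) (nat_lit 0) (nat_lit 0) (nat_lit 0) (nat_lit 0) (nat_lit 0) (nat_lit 0) (nat_lit 1) (nat_lit 0) (nat_lit 1) (nat_lit 0) (nat_lit 271) (nat_lit 451) (nat_lit 358)))))) (XT.nd (nat_lit 470) (nat_lit 0) (nat_lit 0) (XT.nd (nat_lit 188) (nat_lit 0) (nat_lit 0) (XT.nd (nat_lit 94) (nat_lit 0) (nat_lit 0) (XT.lf (nat_lit 0) (nat_lit 1182428257046) (nat_lit 0) (nat_lit 0) (nat_lit 0) (nat_lit 0) (nat_lit 0) (nat_lit 0) (nat_lit 1) (nat_lit 0) (nat_lit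 1) (nat_lit 0) (nat_lit 272) (nat_lit 451) (nat_lit 357)) (XT.lf (nat_lit 0) (nat_lit 1182365118462) (nat_lit 0) (nat_lit 0) (nat_lit 0) (nat_lit 0) (nat_lit 0) (nat_lit 0) (nat_lit 1) (nat_lit 0) (nat_lit 1) (nat_lit 0) (nat_lit 273) (nat_lit 451) (nat_lit 356))) (XT.nd (nat_lit 94) (nat_lit 0) (nat_lit 0) (XT.lf (nat_lit 0) (nat_lit 1182306656811) (nat_lit 0) (nat_lit 0) (nat_lit 0) (nat_lit 0) (nat_lit 0) (nat_lit 0) (nat_lit 1) (nat_lit 0) (nat_lit 1) (nat_lit 0) (nat_lit 274) (nat_lit 451) (nat_lit 355)) (XT.nd (nat_lit 94) (nat_lit 0) (nat_lit 0) (XT.lf (nat_lit 0) (nat_lit 1182252525652) (nat_lit 0) (nat_lit 0) (nat_lit 0) (nat_lit 0) (nat_lit 0) (nat_lit 0) (nat_lit 1) (nat_lit 0) (nat_lit 1) (nat_lit 0) (nat_lit 275) (nat_lit 451) (nat_lit 354)) (XT.lf (nat_lit 0) (nat_lit 1182202404209) (nat_lit 0) (nat_lit 0) (nat_lit 0) (nat_lit 0) (nat_lit 0)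 (nat_lit 0) (nat_lit 1) (nat_lit 0) (nat_lit 1) (nat_lit 0) (nat_lit 276) (nat_lit 451) (nat_lit 353))))) (XT.nd (nat_lit 188) (nat_lit 0) (nat_lit 0) (XT.nd (nat_lit 94) (nat_lit 0) (nat_lit 0) (XT.lf (nat_lit 0) (nat_lit 1182155995465) (nat_lit 0) (nat_lit 0) (nat_lit 0) (nat_lit 0) (nat_lit 0) (nat_lit 0) (nat_lit 1) (nat_lit 0) (nat_lit 1) (nat_lit 0) (nat_lit 277) (nat_lit 451) (nat_lit 352)) (XT.lf (nat_lit 0) (nat_lit 1182113024406) (nat_lit 0) (nat_lit 0) (nat_lit 0) (nat_lit 0) (nat_lit 0) (nat_lit 0) (nat_lit 1) (nat_lit 0) (nat_lit 1) (nat_lit 0) (nat_lit 278) (nat_lit 451) (nat_lit 351))) (XT.nd (nat_lit 94) (nat_lit 0) (nat_lit 0) (XT.lf (nat_lit 0) (nat_lit 1182073236388) (nat_lit 0) (nat_lit 0) (nat_lit 0) (nat_lit 0) (nat_lit 0) (nat_lit 0) (nat_lit 1) (nat_lit 0) (nat_lit 1) (nat_lit 0) (nat_lit 279) (nat_lit 451) (nat_lit 350)) (XT.nd (nat_lit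 94) (nat_lit 0) (nat_lit 0) (XT.lf (nat_lit 0) (nat_lit 1182036395631) (nat_lit 0) (nat_lit 0) (nat_lit 0) (nat_lit 0) (nat_lit 0) (nat_lit 0) (nat_lit 1) (nat_lit 0) (nat_lit 1) (nat_lit 0) (nat_lit 280) (nat_lit 451) (nat_lit 349)) (XT.lf (nat_lit 0) (nat_lit 1182002283819) (nat_lit 0) (nat_lit 0) (nat_lit 0) (nat_lit 0) (nat_lit 0) (nat_lit 0) (nat_lit 1) (nat_lit 0) (nat_lit 1) (nat_lit 0) (nat_lit 281) (nat_lit 451) (nat_lit 348))))))) (XT.nd (nat_lit 846) (nat_lit 0) (nat_lit 0) (XT.nd (nat_lit 376) (nat_lit 0) (nat_lit 0) (XT.nd (nat_lit 188) (nat_lit 0) (nat_lit 0) (XT.nd (nat_lit 94) (nat_lit 0) (nat_lit 0) (XT.lf (nat_lit 0) (nat_lit 1181970698808) (nat_lit 0) (nat_lit 0) (nat_lit 0) (nat_lit 0) (nat_lit 0) (nat_lit 0) (nat_lit 1) (nat_lit 0) (nat_lit 1) (nat_lit 0) (nat_lit 282) (nat_lit 451) (nat_lit 347)) (XT.lf (nat_lit 0) (nat_lit 1181941453427)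 (nat_lit 0) (nat_lit 0) (nat_lit 0) (nat_lit 0) (nat_lit 0) (nat_lit 0) (nat_lit 1) (nat_lit 0) (nat_lit 1) (nat_lit 0) (nat_lit 283) (nat_lit 451) (nat_lit 346))) (XT.nd (nat_lit 94) (nat_lit 0) (nat_lit 0) (XT.lf (nat_lit 0) (nat_lit 1181914374371) (nat_lit 0) (nat_lit 0) (nat_lit 0) (nat_lit 0) (nat_lit 0) (nat_lit 0) (nat_lit 1) (nat_lit 0) (nat_lit 1) (nat_lit 0) (nat_lit 284) (nat_lit 451) (nat_lit 345)) (XT.lf (nat_lit 0) (nat_lit 1181889301171) (nat_lit 0) (nat_lit 0) (nat_lit 0) (nat_lit 0) (nat_lit 0) (nat_lit 0) (nat_lit 1) (nat_lit 0) (nat_lit 1) (nat_lit 0) (nat_lit 285) (nat_lit 451) (nat_lit 344)))) (XT.nd (nat_lit 188) (nat_lit 0) (nat_lit 0) (XT.nd (nat_lit 94) (nat_lit 0) (nat_lit 0) (XT.lf (nat_lit 0) (nat_lit 1181866085244) (nat_lit 0) (nat_lit 0) (nat_lit 0) (nat_lit 0) (nat_lit 0) (nat_lit 0) (nat_lit 1) (nat_lit 0) (nat_lit 1) (nat_lit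 0) (nat_lit 286) (nat_lit 451) (nat_lit 343)) (XT.lf (nat_lit 0) (nat_lit 1181844589016) (nat_lit 0) (nat_lit 0) (nat_lit 0) (nat_lit 0) (nat_lit 0) (nat_lit 0) (nat_lit 1) (nat_lit 0) (nat_lit 1) (nat_lit 0) (nat_lit 287) (nat_lit 451) (nat_lit 342))) (XT.nd (nat_lit 94) (nat_lit 0) (nat_lit 0) (XT.lf (nat_lit 0) (nat_lit 1181824685102) (nat_lit 0) (nat_lit 0) (nat_lit 0) (nat_lit 0) (nat_lit 0) (nat_lit 0) (nat_lit 1) (nat_lit 0) (nat_lit 1) (nat_lit 0) (nat_lit 288) (nat_lit 451) (nat_lit 341)) (XT.nd (nat_lit 94) (nat_lit 0) (nat_lit 0) (XT.lf (nat_lit 0) (nat_lit 1181806255551) (nat_lit 0) (nat_lit 0) (nat_lit 0) (nat_lit 0) (nat_lit 0) (nat_lit 0) (nat_lit 1) (nat_lit 0) (nat_lit 1) (nat_lit 0) (nat_lit 289) (nat_lit 451) (nat_lit 340)) (XT.lf (nat_lit 0) (nat_lit 1181789191152) (nat_lit 0) (nat_lit 0) (nat_lit 0) (nat_lit 0) (nat_lit 0) (nat_lit 0)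 (nat_lit 1) (nat_lit 0) (nat_lit 1) (nat_lit 0) (nat_lit 290) (nat_lit 451) (nat_lit 339)))))) (XT.nd (nat_lit 470) (nat_lit 0) (nat_lit 0) (XT.nd (nat_lit 188) (nat_lit 0) (nat_lit 0) (XT.nd (nat_lit 94) (nat_lit 0) (nat_lit 0) (XT.lf (nat_lit 0) (nat_lit 1181773390783) (nat_lit 0) (nat_lit 0) (nat_lit 0) (nat_lit 0) (nat_lit 0) (nat_lit 0) (nat_lit 1) (nat_lit 0) (nat_lit 1) (nat_lit 0) (nat_lit 291) (nat_lit 451) (nat_lit 338)) (XT.lf (nat_lit 0) (nat_lit 1181758760811) (nat_lit 0) (nat_lit 0) (nat_lit 0) (nat_lit 0) (nat_lit 0) (nat_lit 0) (nat_lit 1) (nat_lit 0) (nat_lit 1) (nat_lit 0) (nat_lit 292) (nat_lit 451) (nat_lit 337))) (XT.nd (nat_lit 94) (nat_lit 0) (nat_lit 0) (XT.lf (nat_lit 0) (nat_lit 1181745214542) (nat_lit 0) (nat_lit 0) (nat_lit 0) (nat_lit 0) (nat_lit 0) (nat_lit 0) (nat_lit 1) (nat_lit 0) (nat_lit 1) (nat_lit 0) (nat_lit 293) (nat_lit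 451) (nat_lit 336)) (XT.nd (nat_lit 94) (nat_lit 0) (nat_lit 0) (XT.lf (nat_lit 0) (nat_lit 1181732671699) (nat_lit 0) (nat_lit 0) (nat_lit 0) (nat_lit 0) (nat_lit 0) (nat_lit 0) (nat_lit 1) (nat_lit 0) (nat_lit 1) (nat_lit 0) (nat_lit 294) (nat_lit 451) (nat_lit 335)) (XT.lf (nat_lit 0) (nat_lit 1181721057956) (nat_lit 0) (nat_lit 0) (nat_lit 0) (nat_lit 0) (nat_lit 0) (nat_lit 0) (nat_lit 1) (nat_lit 0) (nat_lit 1) (nat_lit 0) (nat_lit 295) (nat_lit 451) (nat_lit 334))))) (XT.nd (nat_lit 188) (nat_lit 0) (nat_lit 0) (XT.nd (nat_lit 94) (nat_lit 0) (nat_lit 0) (XT.lf (nat_lit 0) (nat_lit 1181710304490) (nat_lit 0) (nat_lit 0) (nat_lit 0) (nat_lit 0) (nat_lit 0) (nat_lit 0) (nat_lit 1) (nat_lit 0) (nat_lit 1) (nat_lit 0) (nat_lit 296) (nat_lit 451) (nat_lit 333)) (XT.lf (nat_lit 0) (nat_lit 1181700347577) (nat_lit 0) (nat_lit 0) (nat_lit 0) (nat_lit 0) (nat_lit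 0) (nat_lit 0) (nat_lit 1) (nat_lit 0) (nat_lit 1) (nat_lit 0) (nat_lit 297) (nat_lit 451) (nat_lit 332))) (XT.nd (nat_lit 94) (nat_lit 0) (nat_lit 0) (XT.lf (nat_lit 0) (nat_lit 1181691128214) (nat_lit 0) (nat_lit 0) (nat_lit 0) (nat_lit 0) (nat_lit 0) (nat_lit 0) (nat_lit 1) (nat_lit 0) (nat_lit 1) (nat_lit 0) (nat_lit 298) (nat_lit 451) (nat_lit 331)) (XT.nd (nat_lit 94) (nat_lit 0) (nat_lit 0) (XT.lf (nat_lit 0) (nat_lit 1181682591766) (nat_lit 0) (nat_lit 0) (nat_lit 0) (nat_lit 0) (nat_lit 0) (nat_lit 0) (nat_lit 1) (nat_lit 0) (nat_lit 1) (nat_lit 0) (nat_lit 299) (nat_lit 451) (nat_lit 330)) (XT.lf (nat_lit 0) (nat_lit 1181674687647) (nat_lit 0) (nat_lit 0) (nat_lit 0) (nat_lit 0) (nat_lit 0) (nat_lit 0) (nat_lit 1) (nat_lit 0) (nat_lit 1) (nat_lit 0) (nat_lit 300) (nat_lit 451) (nat_lit 329))))))))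
noncomputable def ec444 : XT := (XT.nd (nat_lit 1692) (nat_lit 0) (nat_lit 0) (XT.nd (nat_lit 846) (nat_lit 0) (nat_lit 0) (XT.nd (nat_lit 376) (nat_lit 0) (nat_lit 0) (XT.nd (nat_lit 188) (nat_lit 0) (nat_lit 0) (XT.nd (nat_lit 94) (nat_lit 0) (nat_lit 0) (XT.lf (nat_lit 0) (nat_lit 1181667369019) (nat_lit 0) (nat_lit 0) (nat_lit 0) (nat_lit 0) (nat_lit 0) (nat_lit 0) (nat_lit 1) (nat_lit 0) (nat_lit 1) (nat_lit 0) (nat_lit 301) (nat_lit 451) (nat_lit 328)) (XT.lf (nat_lit 0) (nat_lit 1181660592512) (nat_lit 0) (nat_lit 0) (nat_lit 0) (nat_lit 0) (nat_lit 0) (nat_lit 0) (nat_lit 1) (nat_lit 0) (nat_lit 1) (nat_lit 0) (nat_lit 302) (nat_lit 451) (nat_lit 327))) (XT.nd (nat_lit 94) (nat_lit 0) (nat_lit 0) (XT.lf (nat_lit 0) (nat_lit 1181654317968) (nat_lit 0) (nat_lit 0) (nat_lit 0) (nat_lit 0) (nat_lit 0) (nat_lit 0) (nat_lit 1) (nat_lit 0) (nat_lit 1) (nat_lit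 0) (nat_lit 303) (nat_lit 451) (nat_lit 326)) (XT.lf (nat_lit 0) (nat_lit 1181648508205) (nat_lit 0) (nat_lit 0) (nat_lit 0) (nat_lit 0) (nat_lit 0) (nat_lit 0) (nat_lit 1) (nat_lit 0) (nat_lit 1) (nat_lit 0) (nat_lit 304) (nat_lit 451) (nat_lit 325)))) (XT.nd (nat_lit 188) (nat_lit 0) (nat_lit 0) (XT.nd (nat_lit 94) (nat_lit 0) (nat_lit 0) (XT.lf (nat_lit 0) (nat_lit 1181643128795) (nat_lit 0) (nat_lit 0) (nat_lit 0) (nat_lit 0) (nat_lit 0) (nat_lit 0) (nat_lit 1) (nat_lit 0) (nat_lit 1) (nat_lit 0) (nat_lit 305) (nat_lit 451) (nat_lit 324)) (XT.lf (nat_lit 0) (nat_lit 1181638147859) (nat_lit 0) (nat_lit 0) (nat_lit 0) (nat_lit 0) (nat_lit 0) (nat_lit 0) (nat_lit 1) (nat_lit 0) (nat_lit 1) (nat_lit 0) (nat_lit 306) (nat_lit 451) (nat_lit 323))) (XT.nd (nat_lit 94) (nat_lit 0) (nat_lit 0) (XT.lf (nat_lit 0) (nat_lit 1181633535882) (nat_lit 0) (nat_lit 0) (nat_lit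 0) (nat_lit 0) (nat_lit 0) (nat_lit 0) (nat_lit 1) (nat_lit 0) (nat_lit 1) (nat_lit 0) (nat_lit 307) (nat_lit 451) (nat_lit 322)) (XT.nd (nat_lit 94) (nat_lit 0) (nat_lit 0) (XT.lf (nat_lit 0) (nat_lit 1181629265533) (nat_lit 0) (nat_lit 0) (nat_lit 0) (nat_lit 0) (nat_lit 0) (nat_lit 0) (nat_lit 1) (nat_lit 0) (nat_lit 1) (nat_lit 0) (nat_lit 308) (nat_lit 451) (nat_lit 321)) (XT.lf (nat_lit 0) (nat_lit 1181625311506) (nat_lit 0) (nat_lit 0) (nat_lit 0) (nat_lit 0) (nat_lit 0) (nat_lit 0) (nat_lit 1) (nat_lit 0) (nat_lit 1) (nat_lit 0) (nat_lit 309) (nat_lit 451) (nat_lit 320)))))) (XT.nd (nat_lit 376) (nat_lit 0) (nat_lit 0) (XT.nd (nat_lit 188) (nat_lit 0) (nat_lit 0) (XT.nd (nat_lit 94) (nat_lit 0) (nat_lit 0) (XT.lf (nat_lit 0) (nat_lit 1181621650370) (nat_lit 0) (nat_lit 0) (nat_lit 0) (nat_lit 0) (nat_lit 0) (nat_lit 0) (nat_lit 1) (nat_lit 0) (nat_lit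 1) (nat_lit 0) (nat_lit 310) (nat_lit 451) (nat_lit 319)) (XT.lf (nat_lit 0) (nat_lit 1181618260429) (nat_lit 0) (nat_lit 0) (nat_lit 0) (nat_lit 0) (nat_lit 0) (nat_lit 0) (nat_lit 1) (nat_lit 0) (nat_lit 1) (nat_lit 0) (nat_lit 311) (nat_lit 451) (nat_lit 318))) (XT.nd (nat_lit 94) (nat_lit 0) (nat_lit 0) (XT.lf (nat_lit 0) (nat_lit 1181615121595) (nat_lit 0) (nat_lit 0) (nat_lit 0) (nat_lit 0) (nat_lit 0) (nat_lit 0) (nat_lit 1) (nat_lit 0) (nat_lit 1) (nat_lit 0) (nat_lit 312) (nat_lit 451) (nat_lit 317)) (XT.lf (nat_lit 0) (nat_lit 1181612215267) (nat_lit 0) (nat_lit 0) (nat_lit 0) (nat_lit 0) (nat_lit 0) (nat_lit 0) (nat_lit 1) (nat_lit 0) (nat_lit 1) (nat_lit 0) (nat_lit 313) (nat_lit 451) (nat_lit 316)))) (XT.nd (nat_lit 188) (nat_lit 0) (nat_lit 0) (XT.nd (nat_lit 94) (nat_lit 0) (nat_lit 0) (XT.lf (nat_lit 0) (nat_lit 1181609524222) (nat_lit 0) (nat_lit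 0) (nat_lit 0) (nat_lit 0) (nat_lit 0) (nat_lit 0) (nat_lit 1) (nat_lit 0) (nat_lit 1) (nat_lit 0) (nat_lit 314) (nat_lit 451) (nat_lit 315)) (XT.lf (nat_lit 0) (nat_lit 1181607032514) (nat_lit 0) (nat_lit 0) (nat_lit 0) (nat_lit 0) (nat_lit 0) (nat_lit 0) (nat_lit 1) (nat_lit 0) (nat_lit 1) (nat_lit 0) (nat_lit 315) (nat_lit 451) (nat_lit 314))) (XT.nd (nat_lit 94) (nat_lit 0) (nat_lit 0) (XT.lf (nat_lit 0) (nat_lit 1181604725378) (nat_lit 0) (nat_lit 0) (nat_lit 0) (nat_lit 0) (nat_lit 0) (nat_lit 0) (nat_lit 1) (nat_lit 0) (nat_lit 1) (nat_lit 0) (nat_lit 316) (nat_lit 451) (nat_lit 313)) (XT.nd (nat_lit 94) (nat_lit 0) (nat_lit 0) (XT.lf (nat_lit 0) (nat_lit 1181602589140) (nat_lit 0) (nat_lit 0) (nat_lit 0) (nat_lit 0) (nat_lit 0) (nat_lit 0) (nat_lit 1) (nat_lit 0) (nat_lit 1) (nat_lit 0) (nat_lit 317) (nat_lit 451) (nat_lit 312)) (XT.lf (nat_lit 0)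 (nat_lit 1181600611142) (nat_lit 0) (nat_lit 0) (nat_lit 0) (nat_lit 0) (nat_lit 0) (nat_lit 0) (nat_lit 1) (nat_lit 0) (nat_lit 1) (nat_lit 0) (nat_lit 318) (nat_lit 451) (nat_lit 311))))))) (XT.nd (nat_lit 846) (nat_lit 0) (nat_lit 0) (XT.nd (nat_lit 376) (nat_lit 0) (nat_lit 0) (XT.nd (nat_lit 188) (nat_lit 0) (nat_lit 0) (XT.nd (nat_lit 94) (nat_lit 0) (nat_lit 0) (XT.lf (nat_lit 0) (nat_lit 1181598779662) (nat_lit 0) (nat_lit 0) (nat_lit 0) (nat_lit 0) (nat_lit 0) (nat_lit 0) (nat_lit 1) (nat_lit 0) (nat_lit 1) (nat_lit 0) (nat_lit 319) (nat_lit 451) (nat_lit 310)) (XT.lf (nat_lit 0) (nat_lit 1181597083848) (nat_lit 0) (nat_lit 0) (nat_lit 0) (nat_lit 0) (nat_lit 0) (nat_lit 0) (nat_lit 1) (nat_lit 0) (nat_lit 1) (nat_lit 0) (nat_lit 320) (nat_lit 451) (nat_lit 309))) (XT.nd (nat_lit 94) (nat_lit 0) (nat_lit 0) (XT.lf (nat_lit 0) (nat_lit 1181595513649)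 (nat_lit 0) (nat_lit 0) (nat_lit 0) (nat_lit 0) (nat_lit 0) (nat_lit 0) (nat_lit 1) (nat_lit 0) (nat_lit 1) (nat_lit 0) (nat_lit 321) (nat_lit 451) (nat_lit 308)) (XT.lf (nat_lit 0) (nat_lit 1181594059762) (nat_lit 0) (nat_lit 0) (nat_lit 0) (nat_lit 0) (nat_lit 0) (nat_lit 0) (nat_lit 1) (nat_lit 0) (nat_lit 1) (nat_lit 0) (nat_lit 322) (nat_lit 451) (nat_lit 307)))) (XT.nd (nat_lit 188) (nat_lit 0) (nat_lit 0) (XT.nd (nat_lit 94) (nat_lit 0) (nat_lit 0) (XT.lf (nat_lit 0) (nat_lit 1181592713570) (nat_lit 0) (nat_lit 0) (nat_lit 0) (nat_lit 0) (nat_lit 0) (nat_lit 0) (nat_lit 1) (nat_lit 0) (nat_lit 1) (nat_lit 0) (nat_lit 323) (nat_lit 451) (nat_lit 306)) (XT.lf (nat_lit 0) (nat_lit 1181591467095) (nat_lit 0) (nat_lit 0) (nat_lit 0) (nat_lit 0) (nat_lit 0) (nat_lit 0) (nat_lit 1) (nat_lit 0) (nat_lit 1) (nat_lit 0) (nat_lit 324) (nat_lit 451) (nat_lit 305)))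 (XT.nd (nat_lit 94) (nat_lit 0) (nat_lit 0) (XT.lf (nat_lit 0) (nat_lit 1181590312953) (nat_lit 0) (nat_lit 0) (nat_lit 0) (nat_lit 0) (nat_lit 0) (nat_lit 0) (nat_lit 1) (nat_lit 0) (nat_lit 1) (nat_lit 0) (nat_lit 325) (nat_lit 451) (nat_lit 304)) (XT.nd (nat_lit 94) (nat_lit 0) (nat_lit 0) (XT.lf (nat_lit 0) (nat_lit 1181589244302) (nat_lit 0) (nat_lit 0) (nat_lit 0) (nat_lit 0) (nat_lit 0) (nat_lit 0) (nat_lit 1) (nat_lit 0) (nat_lit 1) (nat_lit 0) (nat_lit 326) (nat_lit 451) (nat_lit 303)) (XT.lf (nat_lit 0) (nat_lit 1181588254810) (nat_lit 0) (nat_lit 0) (nat_lit 0) (nat_lit 0) (nat_lit 0) (nat_lit 0) (nat_lit 1) (nat_lit 0) (nat_lit 1) (nat_lit 0) (nat_lit 327) (nat_lit 451) (nat_lit 302)))))) (XT.nd (nat_lit 470) (nat_lit 0) (nat_lit 0) (XT.nd (nat_lit 188) (nat_lit 0) (nat_lit 0) (XT.nd (nat_lit 94) (nat_lit 0) (nat_lit 0) (XT.lf (nat_lit 0) (nat_lit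 1181587338615) (nat_lit 0) (nat_lit 0) (nat_lit 0) (nat_lit 0) (nat_lit 0) (nat_lit 0) (nat_lit 1) (nat_lit 0) (nat_lit 1) (nat_lit 0) (nat_lit 328) (nat_lit 451) (nat_lit 301)) (XT.lf (nat_lit 0) (nat_lit 1181586490285) (nat_lit 0) (nat_lit 0) (nat_lit 0) (nat_lit 0) (nat_lit 0) (nat_lit 0) (nat_lit 1) (nat_lit 0) (nat_lit 1) (nat_lit 0) (nat_lit 329) (nat_lit 451) (nat_lit 300))) (XT.nd (nat_lit 94) (nat_lit 0) (nat_lit 0) (XT.lf (nat_lit 0) (nat_lit 1181585704795) (nat_lit 0) (nat_lit 0) (nat_lit 0) (nat_lit 0) (nat_lit 0) (nat_lit 0) (nat_lit 1) (nat_lit 0) (nat_lit 1) (nat_lit 0) (nat_lit 330) (nat_lit 451) (nat_lit 299)) (XT.nd (nat_lit 94) (nat_lit 0) (nat_lit 0) (XT.lf (nat_lit 0) (nat_lit 1181584977489) (nat_lit 0) (nat_lit 0) (nat_lit 0) (nat_lit 0) (nat_lit 0) (nat_lit 0) (nat_lit 1) (nat_lit 0) (nat_lit 1) (nat_lit 0) (nat_lit 331) (nat_lit 451)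 (nat_lit 298)) (XT.lf (nat_lit 0) (nat_lit 1181584304058) (nat_lit 0) (nat_lit 0) (nat_lit 0) (nat_lit 0) (nat_lit 0) (nat_lit 0) (nat_lit 1) (nat_lit 0) (nat_lit 1) (nat_lit 0) (nat_lit 332) (nat_lit 451) (nat_lit 297))))) (XT.nd (nat_lit 188) (nat_lit 0) (nat_lit 0) (XT.nd (nat_lit 94) (nat_lit 0) (nat_lit 0) (XT.lf (nat_lit 0) (nat_lit 1181583680511) (nat_lit 0) (nat_lit 0) (nat_lit 0) (nat_lit 0) (nat_lit 0) (nat_lit 0) (nat_lit 1) (nat_lit 0) (nat_lit 1) (nat_lit 0) (nat_lit 333) (nat_lit 451) (nat_lit 296)) (XT.lf (nat_lit 0) (nat_lit 1181583103152) (nat_lit 0) (nat_lit 0) (nat_lit 0) (nat_lit 0) (nat_lit 0) (nat_lit 0) (nat_lit 1) (nat_lit 0) (nat_lit 1) (nat_lit 0) (nat_lit 334) (nat_lit 451) (nat_lit 295))) (XT.nd (nat_lit 94) (nat_lit 0) (nat_lit 0) (XT.lf (nat_lit 0) (nat_lit 1181582568560) (nat_lit 0) (nat_lit 0) (nat_lit 0) (nat_lit 0) (nat_lit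 0) (nat_lit 0) (nat_lit 1) (nat_lit 0) (nat_lit 1) (nat_lit 0) (nat_lit 335) (nat_lit 451) (nat_lit 294)) (XT.nd (nat_lit 94) (nat_lit 0) (nat_lit 0) (XT.lf (nat_lit 0) (nat_lit 1181582073568) (nat_lit 0) (nat_lit 0) (nat_lit 0) (nat_lit 0) (nat_lit 0) (nat_lit 0) (nat_lit 1) (nat_lit 0) (nat_lit 1) (nat_lit 0) (nat_lit 336) (nat_lit 451) (nat_lit 293)) (XT.lf (nat_lit 0) (nat_lit 1181581615242) (nat_lit 0) (nat_lit 0) (nat_lit 0) (nat_lit 0) (nat_lit 0) (nat_lit 0) (nat_lit 1) (nat_lit 0) (nat_lit 1) (nat_lit 0) (nat_lit 337) (nat_lit 451) (nat_lit 292))))))))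
noncomputable def ec445 : XT := (XT.nd (nat_lit 1786) (nat_lit 0) (nat_lit 0) (XT.nd (nat_lit 846) (nat_lit 0) (nat_lit 0) (XT.nd (nat_lit 376) (nat_lit 0) (nat_lit 0) (XT.nd (nat_lit 188) (nat_lit 0) (nat_lit 0) (XT.nd (nat_lit 94) (nat_lit 0) (nat_lit 0) (XT.lf (nat_lit 0) (nat_lit 1181581190866) (nat_lit 0) (nat_lit 0) (nat_lit 0) (nat_lit 0) (nat_lit 0) (nat_lit 0) (nat_lit 1) (nat_lit 0) (nat_lit 1) (nat_lit 0) (nat_lit 338) (nat_lit 451) (nat_lit 291)) (XT.lf (nat_lit 0) (nat_lit 1181580797926) (nat_lit 0) (nat_lit 0) (nat_lit 0) (nat_lit 0) (nat_lit 0) (nat_lit 0) (nat_lit 1) (nat_lit 0) (nat_lit 1) (nat_lit 0) (nat_lit 339) (nat_lit 451) (nat_lit 290))) (XT.nd (nat_lit 94) (nat_lit 0) (nat_lit 0) (XT.lf (nat_lit 0) (nat_lit 1181580434092) (nat_lit 0) (nat_lit 0) (nat_lit 0) (nat_lit 0) (nat_lit 0) (nat_lit 0) (nat_lit 1) (nat_lit 0) (nat_lit 1) (nat_lit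 0) (nat_lit 340) (nat_lit 451) (nat_lit 289)) (XT.lf (nat_lit 0) (nat_lit 1181580097209) (nat_lit 0) (nat_lit 0) (nat_lit 0) (nat_lit 0) (nat_lit 0) (nat_lit 0) (nat_lit 1) (nat_lit 0) (nat_lit 1) (nat_lit 0) (nat_lit 341) (nat_lit 451) (nat_lit 288)))) (XT.nd (nat_lit 188) (nat_lit 0) (nat_lit 0) (XT.nd (nat_lit 94) (nat_lit 0) (nat_lit 0) (XT.lf (nat_lit 0) (nat_lit 1181579785280) (nat_lit 0) (nat_lit 0) (nat_lit 0) (nat_lit 0) (nat_lit 0) (nat_lit 0) (nat_lit 1) (nat_lit 0) (nat_lit 1) (nat_lit 0) (nat_lit 342) (nat_lit 451) (nat_lit 287)) (XT.lf (nat_lit 0) (nat_lit 1181579496456) (nat_lit 0) (nat_lit 0) (nat_lit 0) (nat_lit 0) (nat_lit 0) (nat_lit 0) (nat_lit 1) (nat_lit 0) (nat_lit 1) (nat_lit 0) (nat_lit 343) (nat_lit 451) (nat_lit 286))) (XT.nd (nat_lit 94) (nat_lit 0) (nat_lit 0) (XT.lf (nat_lit 0) (nat_lit 1181579229028) (nat_lit 0) (nat_lit 0) (nat_lit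 0) (nat_lit 0) (nat_lit 0) (nat_lit 0) (nat_lit 1) (nat_lit 0) (nat_lit 1) (nat_lit 0) (nat_lit 344) (nat_lit 451) (nat_lit 285)) (XT.nd (nat_lit 94) (nat_lit 0) (nat_lit 0) (XT.lf (nat_lit 0) (nat_lit 1181578981408) (nat_lit 0) (nat_lit 0) (nat_lit 0) (nat_lit 0) (nat_lit 0) (nat_lit 0) (nat_lit 1) (nat_lit 0) (nat_lit 1) (nat_lit 0) (nat_lit 345) (nat_lit 451) (nat_lit 284)) (XT.lf (nat_lit 0) (nat_lit 1181578752131) (nat_lit 0) (nat_lit 0) (nat_lit 0) (nat_lit 0) (nat_lit 0) (nat_lit 0) (nat_lit 1) (nat_lit 0) (nat_lit 1) (nat_lit 0) (nat_lit 346) (nat_lit 451) (nat_lit 283)))))) (XT.nd (nat_lit 470) (nat_lit 0) (nat_lit 0) (XT.nd (nat_lit 188) (nat_lit 0) (nat_lit 0) (XT.nd (nat_lit 94) (nat_lit 0) (nat_lit 0) (XT.lf (nat_lit 0) (nat_lit 1181578539838) (nat_lit 0) (nat_lit 0) (nat_lit 0) (nat_lit 0) (nat_lit 0) (nat_lit 0) (nat_lit 1) (nat_lit 0) (nat_lit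 1) (nat_lit 0) (nat_lit 347) (nat_lit 451) (nat_lit 282)) (XT.lf (nat_lit 0) (nat_lit 1181578343269) (nat_lit 0) (nat_lit 0) (nat_lit 0) (nat_lit 0) (nat_lit 0) (nat_lit 0) (nat_lit 1) (nat_lit 0) (nat_lit 1) (nat_lit 0) (nat_lit 348) (nat_lit 451) (nat_lit 281))) (XT.nd (nat_lit 94) (nat_lit 0) (nat_lit 0) (XT.lf (nat_lit 0) (nat_lit 1181578161262) (nat_lit 0) (nat_lit 0) (nat_lit 0) (nat_lit 0) (nat_lit 0) (nat_lit 0) (nat_lit 1) (nat_lit 0) (nat_lit 1) (nat_lit 0) (nat_lit 349) (nat_lit 451) (nat_lit 280)) (XT.nd (nat_lit 94) (nat_lit 0) (nat_lit 0) (XT.lf (nat_lit 0) (nat_lit 1181577992736) (nat_lit 0) (nat_lit 0) (nat_lit 0) (nat_lit 0) (nat_lit 0) (nat_lit 0) (nat_lit 1) (nat_lit 0) (nat_lit 1) (nat_lit 0) (nat_lit 350) (nat_lit 451) (nat_lit 279)) (XT.lf (nat_lit 0) (nat_lit 1181577836694) (nat_lit 0) (nat_lit 0) (nat_lit 0) (nat_lit 0) (nat_lit 0)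 (nat_lit 0) (nat_lit 1) (nat_lit 0) (nat_lit 1) (nat_lit 0) (nat_lit 351) (nat_lit 451) (nat_lit 278))))) (XT.nd (nat_lit 188) (nat_lit 0) (nat_lit 0) (XT.nd (nat_lit 94) (nat_lit 0) (nat_lit 0) (XT.lf (nat_lit 0) (nat_lit 1181577692211) (nat_lit 0) (nat_lit 0) (nat_lit 0) (nat_lit 0) (nat_lit 0) (nat_lit 0) (nat_lit 1) (nat_lit 0) (nat_lit 1) (nat_lit 0) (nat_lit 352) (nat_lit 451) (nat_lit 277)) (XT.lf (nat_lit 0) (nat_lit 1181577558430) (nat_lit 0) (nat_lit 0) (nat_lit 0) (nat_lit 0) (nat_lit 0) (nat_lit 0) (nat_lit 1) (nat_lit 0) (nat_lit 1) (nat_lit 0) (nat_lit 353) (nat_lit 451) (nat_lit 276))) (XT.nd (nat_lit 94) (nat_lit 0) (nat_lit 0) (XT.lf (nat_lit 0) (nat_lit 1181577434559) (nat_lit 0) (nat_lit 0) (nat_lit 0) (nat_lit 0) (nat_lit 0) (nat_lit 0) (nat_lit 1) (nat_lit 0) (nat_lit 1) (nat_lit 0) (nat_lit 354) (nat_lit 451) (nat_lit 275)) (XT.nd (nat_lit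 94) (nat_lit 0) (nat_lit 0) (XT.lf (nat_lit 0) (nat_lit 1181577319863) (nat_lit 0) (nat_lit 0) (nat_lit 0) (nat_lit 0) (nat_lit 0) (nat_lit 0) (nat_lit 1) (nat_lit 0) (nat_lit 1) (nat_lit 0) (nat_lit 355) (nat_lit 451) (nat_lit 274)) (XT.lf (nat_lit 0) (nat_lit 1181577213663) (nat_lit 0) (nat_lit 0) (nat_lit 0) (nat_lit 0) (nat_lit 0) (nat_lit 0) (nat_lit 1) (nat_lit 0) (nat_lit 1) (nat_lit 0) (nat_lit 356) (nat_lit 451) (nat_lit 273))))))) (XT.nd (nat_lit 846) (nat_lit 0) (nat_lit 0) (XT.nd (nat_lit 376) (nat_lit 0) (nat_lit 0) (XT.nd (nat_lit 188) (nat_lit 0) (nat_lit 0) (XT.nd (nat_lit 94) (nat_lit 0) (nat_lit 0) (XT.lf (nat_lit 0) (nat_lit 1181577115330) (nat_lit 0) (nat_lit 0) (nat_lit 0) (nat_lit 0) (nat_lit 0) (nat_lit 0) (nat_lit 1) (nat_lit 0) (nat_lit 1) (nat_lit 0) (nat_lit 357) (nat_lit 451) (nat_lit 272)) (XT.lf (nat_lit 0) (nat_lit 1181577024281)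 (nat_lit 0) (nat_lit 0) (nat_lit 0) (nat_lit 0) (nat_lit 0) (nat_lit 0) (nat_lit 1) (nat_lit 0) (nat_lit 1) (nat_lit 0) (nat_lit 358) (nat_lit 451) (nat_lit 271))) (XT.nd (nat_lit 94) (nat_lit 0) (nat_lit 0) (XT.lf (nat_lit 0) (nat_lit 1181576939976) (nat_lit 0) (nat_lit 0) (nat_lit 0) (nat_lit 0) (nat_lit 0) (nat_lit 0) (nat_lit 1) (nat_lit 0) (nat_lit 1) (nat_lit 0) (nat_lit 359) (nat_lit 451) (nat_lit 270)) (XT.lf (nat_lit 0) (nat_lit 1181576861916) (nat_lit 0) (nat_lit 0) (nat_lit 0) (nat_lit 0) (nat_lit 0) (nat_lit 0) (nat_lit 1) (nat_lit 0) (nat_lit 1) (nat_lit 0) (nat_lit 360) (nat_lit 451) (nat_lit 269)))) (XT.nd (nat_lit 188) (nat_lit 0) (nat_lit 0) (XT.nd (nat_lit 94) (nat_lit 0) (nat_lit 0) (XT.lf (nat_lit 0) (nat_lit 1181576789639) (nat_lit 0) (nat_lit 0) (nat_lit 0) (nat_lit 0) (nat_lit 0) (nat_lit 0) (nat_lit 1) (nat_lit 0) (nat_lit 1) (nat_lit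 0) (nat_lit 361) (nat_lit 451) (nat_lit 268)) (XT.lf (nat_lit 0) (nat_lit 1181576722715) (nat_lit 0) (nat_lit 0) (nat_lit 0) (nat_lit 0) (nat_lit 0) (nat_lit 0) (nat_lit 1) (nat_lit 0) (nat_lit 1) (nat_lit 0) (nat_lit 362) (nat_lit 451) (nat_lit 267))) (XT.nd (nat_lit 94) (nat_lit 0) (nat_lit 0) (XT.lf (nat_lit 0) (nat_lit 1181576660749) (nat_lit 0) (nat_lit 0) (nat_lit 0) (nat_lit 0) (nat_lit 0) (nat_lit 0) (nat_lit 1) (nat_lit 0) (nat_lit 1) (nat_lit 0) (nat_lit 363) (nat_lit 451) (nat_lit 266)) (XT.nd (nat_lit 94) (nat_lit 0) (nat_lit 0) (XT.lf (nat_lit 0) (nat_lit 1181576603372) (nat_lit 0) (nat_lit 0) (nat_lit 0) (nat_lit 0) (nat_lit 0) (nat_lit 0) (nat_lit 1) (nat_lit 0) (nat_lit 1) (nat_lit 0) (nat_lit 364) (nat_lit 451) (nat_lit 265)) (XT.lf (nat_lit 0) (nat_lit 1181576550246) (nat_lit 0) (nat_lit 0) (nat_lit 0) (nat_lit 0) (nat_lit 0) (nat_lit 0)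 (nat_lit 1) (nat_lit 0) (nat_lit 1) (nat_lit 0) (nat_lit 365) (nat_lit 451) (nat_lit 264)))))) (XT.nd (nat_lit 470) (nat_lit 0) (nat_lit 0) (XT.nd (nat_lit 188) (nat_lit 0) (nat_lit 0) (XT.nd (nat_lit 94) (nat_lit 0) (nat_lit 0) (XT.lf (nat_lit 0) (nat_lit 1181576501055) (nat_lit 0) (nat_lit 0) (nat_lit 0) (nat_lit 0) (nat_lit 0) (nat_lit 0) (nat_lit 1) (nat_lit 0) (nat_lit 1) (nat_lit 0) (nat_lit 366) (nat_lit 451) (nat_lit 263)) (XT.lf (nat_lit 0) (nat_lit 1181576455508) (nat_lit 0) (nat_lit 0) (nat_lit 0) (nat_lit 0) (nat_lit 0) (nat_lit 0) (nat_lit 1) (nat_lit 0) (nat_lit 1) (nat_lit 0) (nat_lit 367) (nat_lit 451) (nat_lit 262))) (XT.nd (nat_lit 94) (nat_lit 0) (nat_lit 0) (XT.lf (nat_lit 0) (nat_lit 1181576413334) (nat_lit 0) (nat_lit 0) (nat_lit 0) (nat_lit 0) (nat_lit 0) (nat_lit 0) (nat_lit 1) (nat_lit 0) (nat_lit 1) (nat_lit 0) (nat_lit 368) (nat_lit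 451) (nat_lit 261)) (XT.nd (nat_lit 94) (nat_lit 0) (nat_lit 0) (XT.lf (nat_lit 0) (nat_lit 1181576374285) (nat_lit 0) (nat_lit 0) (nat_lit 0) (nat_lit 0) (nat_lit 0) (nat_lit 0) (nat_lit 1) (nat_lit 0) (nat_lit 1) (nat_lit 0) (nat_lit 369) (nat_lit 451) (nat_lit 260)) (XT.lf (nat_lit 0) (nat_lit 1181576338128) (nat_lit 0) (nat_lit 0) (nat_lit 0) (nat_lit 0) (nat_lit 0) (nat_lit 0) (nat_lit 1) (nat_lit 0) (nat_lit 1) (nat_lit 0) (nat_lit 370) (nat_lit 451) (nat_lit 259))))) (XT.nd (nat_lit 188) (nat_lit 0) (nat_lit 0) (XT.nd (nat_lit 94) (nat_lit 0) (nat_lit 0) (XT.lf (nat_lit 0) (nat_lit 1181576304650) (nat_lit 0) (nat_lit 0) (nat_lit 0) (nat_lit 0) (nat_lit 0) (nat_lit 0) (nat_lit 1) (nat_lit 0) (nat_lit 1) (nat_lit 0) (nat_lit 371) (nat_lit 451) (nat_lit 258)) (XT.lf (nat_lit 0) (nat_lit 1181576273651) (nat_lit 0) (nat_lit 0) (nat_lit 0) (nat_lit 0) (nat_lit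 0) (nat_lit 0) (nat_lit 1) (nat_lit 0) (nat_lit 1) (nat_lit 0) (nat_lit 372) (nat_lit 451) (nat_lit 257))) (XT.nd (nat_lit 94) (nat_lit 0) (nat_lit 0) (XT.lf (nat_lit 0) (nat_lit 1181576244948) (nat_lit 0) (nat_lit 0) (nat_lit 0) (nat_lit 0) (nat_lit 0) (nat_lit 0) (nat_lit 1) (nat_lit 0) (nat_lit 1) (nat_lit 0) (nat_lit 373) (nat_lit 451) (nat_lit 256)) (XT.nd (nat_lit 94) (nat_lit 0) (nat_lit 0) (XT.lf (nat_lit 0) (nat_lit 1181576218372) (nat_lit 0) (nat_lit 0) (nat_lit 0) (nat_lit 0) (nat_lit 0) (nat_lit 0) (nat_lit 1) (nat_lit 0) (nat_lit 1) (nat_lit 0) (nat_lit 374) (nat_lit 451) (nat_lit 255)) (XT.lf (nat_lit 0) (nat_lit 1181576193764) (nat_lit 0) (nat_lit 0) (nat_lit 0) (nat_lit 0) (nat_lit 0) (nat_lit 0) (nat_lit 1) (nat_lit 0) (nat_lit 1) (nat_lit 0) (nat_lit 375) (nat_lit 451) (nat_lit 254))))))))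
noncomputable def ec446 : XT := (XT.nd (nat_lit 1692) (nat_lit 0) (nat_lit 0) (XT.nd (nat_lit 846) (nat_lit 0) (nat_lit 0) (XT.nd (nat_lit 376) (nat_lit 0) (nat_lit 0) (XT.nd (nat_lit 188) (nat_lit 0) (nat_lit 0) (XT.nd (nat_lit 94) (nat_lit 0) (nat_lit 0) (XT.lf (nat_lit 0) (nat_lit 1181576170979) (nat_lit 0) (nat_lit 0) (nat_lit 0) (nat_lit 0) (nat_lit 0) (nat_lit 0) (nat_lit 1) (nat_lit 0) (nat_lit 1) (nat_lit 0) (nat_lit 376) (nat_lit 451) (nat_lit 253)) (XT.lf (nat_lit 0) (nat_lit 1181576149882) (nat_lit 0) (nat_lit 0) (nat_lit 0) (nat_lit 0) (nat_lit 0) (nat_lit 0) (nat_lit 1) (nat_lit 0) (nat_lit 1) (nat_lit 0) (nat_lit 377) (nat_lit 451) (nat_lit 252))) (XT.nd (nat_lit 94) (nat_lit 0) (nat_lit 0) (XT.lf (nat_lit 0) (nat_lit 1181576130348) (nat_lit 0) (nat_lit 0) (nat_lit 0) (nat_lit 0) (nat_lit 0) (nat_lit 0) (nat_lit 1) (nat_lit 0) (nat_lit 1) (nat_lit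 0) (nat_lit 378) (nat_lit 451) (nat_lit 251)) (XT.lf (nat_lit 0) (nat_lit 1181576112260) (nat_lit 0) (nat_lit 0) (nat_lit 0) (nat_lit 0) (nat_lit 0) (nat_lit 0) (nat_lit 1) (nat_lit 0) (nat_lit 1) (nat_lit 0) (nat_lit 379) (nat_lit 451) (nat_lit 250)))) (XT.nd (nat_lit 188) (nat_lit 0) (nat_lit 0) (XT.nd (nat_lit 94) (nat_lit 0) (nat_lit 0) (XT.lf (nat_lit 0) (nat_lit 1181576095513) (nat_lit 0) (nat_lit 0) (nat_lit 0) (nat_lit 0) (nat_lit 0) (nat_lit 0) (nat_lit 1) (nat_lit 0) (nat_lit 1) (nat_lit 0) (nat_lit 380) (nat_lit 451) (nat_lit 249)) (XT.lf (nat_lit 0) (nat_lit 1181576080006) (nat_lit 0) (nat_lit 0) (nat_lit 0) (nat_lit 0) (nat_lit 0) (nat_lit 0) (nat_lit 1) (nat_lit 0) (nat_lit 1) (nat_lit 0) (nat_lit 381) (nat_lit 451) (nat_lit 248))) (XT.nd (nat_lit 94) (nat_lit 0) (nat_lit 0) (XT.lf (nat_lit 0) (nat_lit 1181576065647) (nat_lit 0) (nat_lit 0) (nat_lit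 0) (nat_lit 0) (nat_lit 0) (nat_lit 0) (nat_lit 1) (nat_lit 0) (nat_lit 1) (nat_lit 0) (nat_lit 382) (nat_lit 451) (nat_lit 247)) (XT.nd (nat_lit 94) (nat_lit 0) (nat_lit 0) (XT.lf (nat_lit 0) (nat_lit 1181576052352) (nat_lit 0) (nat_lit 0) (nat_lit 0) (nat_lit 0) (nat_lit 0) (nat_lit 0) (nat_lit 1) (nat_lit 0) (nat_lit 1) (nat_lit 0) (nat_lit 383) (nat_lit 451) (nat_lit 246)) (XT.lf (nat_lit 0) (nat_lit 1181576040042) (nat_lit 0) (nat_lit 0) (nat_lit 0) (nat_lit 0) (nat_lit 0) (nat_lit 0) (nat_lit 1) (nat_lit 0) (nat_lit 1) (nat_lit 0) (nat_lit 384) (nat_lit 451) (nat_lit 245)))))) (XT.nd (nat_lit 376) (nat_lit 0) (nat_lit 0) (XT.nd (nat_lit 188) (nat_lit 0) (nat_lit 0) (XT.nd (nat_lit 94) (nat_lit 0) (nat_lit 0) (XT.lf (nat_lit 0) (nat_lit 1181576028644) (nat_lit 0) (nat_lit 0) (nat_lit 0) (nat_lit 0) (nat_lit 0) (nat_lit 0) (nat_lit 1) (nat_lit 0) (nat_lit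 1) (nat_lit 0) (nat_lit 385) (nat_lit 451) (nat_lit 244)) (XT.lf (nat_lit 0) (nat_lit 1181576018090) (nat_lit 0) (nat_lit 0) (nat_lit 0) (nat_lit 0) (nat_lit 0) (nat_lit 0) (nat_lit 1) (nat_lit 0) (nat_lit 1) (nat_lit 0) (nat_lit 386) (nat_lit 451) (nat_lit 243))) (XT.nd (nat_lit 94) (nat_lit 0) (nat_lit 0) (XT.lf (nat_lit 0) (nat_lit 1181576008318) (nat_lit 0) (nat_lit 0) (nat_lit 0) (nat_lit 0) (nat_lit 0) (nat_lit 0) (nat_lit 1) (nat_lit 0) (nat_lit 1) (nat_lit 0) (nat_lit 387) (nat_lit 451) (nat_lit 242)) (XT.lf (nat_lit 0) (nat_lit 1181575999270) (nat_lit 0) (nat_lit 0) (nat_lit 0) (nat_lit 0) (nat_lit 0) (nat_lit 0) (nat_lit 1) (nat_lit 0) (nat_lit 1) (nat_lit 0) (nat_lit 388) (nat_lit 451) (nat_lit 241)))) (XT.nd (nat_lit 188) (nat_lit 0) (nat_lit 0) (XT.nd (nat_lit 94) (nat_lit 0) (nat_lit 0) (XT.lf (nat_lit 0) (nat_lit 1181575990892) (nat_lit 0) (nat_lit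 0) (nat_lit 0) (nat_lit 0) (nat_lit 0) (nat_lit 0) (nat_lit 1) (nat_lit 0) (nat_lit 1) (nat_lit 0) (nat_lit 389) (nat_lit 451) (nat_lit 240)) (XT.lf (nat_lit 0) (nat_lit 1181575983135) (nat_lit 0) (nat_lit 0) (nat_lit 0) (nat_lit 0) (nat_lit 0) (nat_lit 0) (nat_lit 1) (nat_lit 0) (nat_lit 1) (nat_lit 0) (nat_lit 390) (nat_lit 451) (nat_lit 239))) (XT.nd (nat_lit 94) (nat_lit 0) (nat_lit 0) (XT.lf (nat_lit 0) (nat_lit 1181575975952) (nat_lit 0) (nat_lit 0) (nat_lit 0) (nat_lit 0) (nat_lit 0) (nat_lit 0) (nat_lit 1) (nat_lit 0) (nat_lit 1) (nat_lit 0) (nat_lit 391) (nat_lit 451) (nat_lit 238)) (XT.nd (nat_lit 94) (nat_lit 0) (nat_lit 0) (XT.lf (nat_lit 0) (nat_lit 1181575969301) (nat_lit 0) (nat_lit 0) (nat_lit 0) (nat_lit 0) (nat_lit 0) (nat_lit 0) (nat_lit 1) (nat_lit 0) (nat_lit 1) (nat_lit 0) (nat_lit 392) (nat_lit 451) (nat_lit 237)) (XT.lf (nat_lit 0)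 (nat_lit 1181575963143) (nat_lit 0) (nat_lit 0) (nat_lit 0) (nat_lit 0) (nat_lit 0) (nat_lit 0) (nat_lit 1) (nat_lit 0) (nat_lit 1) (nat_lit 0) (nat_lit 393) (nat_lit 451) (nat_lit 236))))))) (XT.nd (nat_lit 846) (nat_lit 0) (nat_lit 0) (XT.nd (nat_lit 376) (nat_lit 0) (nat_lit 0) (XT.nd (nat_lit 188) (nat_lit 0) (nat_lit 0) (XT.nd (nat_lit 94) (nat_lit 0) (nat_lit 0) (XT.lf (nat_lit 0) (nat_lit 1181575957441) (nat_lit 0) (nat_lit 0) (nat_lit 0) (nat_lit 0) (nat_lit 0) (nat_lit 0) (nat_lit 1) (nat_lit 0) (nat_lit 1) (nat_lit 0) (nat_lit 394) (nat_lit 451) (nat_lit 235)) (XT.lf (nat_lit 0) (nat_lit 1181575952162) (nat_lit 0) (nat_lit 0) (nat_lit 0) (nat_lit 0) (nat_lit 0) (nat_lit 0) (nat_lit 1) (nat_lit 0) (nat_lit 1) (nat_lit 0) (nat_lit 395) (nat_lit 451) (nat_lit 234))) (XT.nd (nat_lit 94) (nat_lit 0) (nat_lit 0) (XT.lf (nat_lit 0) (nat_lit 1181575947273)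 (nat_lit 0) (nat_lit 0) (nat_lit 0) (nat_lit 0) (nat_lit 0) (nat_lit 0) (nat_lit 1) (nat_lit 0) (nat_lit 1) (nat_lit 0) (nat_lit 396) (nat_lit 451) (nat_lit 233)) (XT.lf (nat_lit 0) (nat_lit 1181575942747) (nat_lit 0) (nat_lit 0) (nat_lit 0) (nat_lit 0) (nat_lit 0) (nat_lit 0) (nat_lit 1) (nat_lit 0) (nat_lit 1) (nat_lit 0) (nat_lit 397) (nat_lit 451) (nat_lit 232)))) (XT.nd (nat_lit 188) (nat_lit 0) (nat_lit 0) (XT.nd (nat_lit 94) (nat_lit 0) (nat_lit 0) (XT.lf (nat_lit 0) (nat_lit 1181575938556) (nat_lit 0) (nat_lit 0) (nat_lit 0) (nat_lit 0) (nat_lit 0) (nat_lit 0) (nat_lit 1) (nat_lit 0) (nat_lit 1) (nat_lit 0) (nat_lit 398) (nat_lit 451) (nat_lit 231)) (XT.lf (nat_lit 0) (nat_lit 1181575934675) (nat_lit 0) (nat_lit 0) (nat_lit 0) (nat_lit 0) (nat_lit 0) (nat_lit 0) (nat_lit 1) (nat_lit 0) (nat_lit 1) (nat_lit 0) (nat_lit 399) (nat_lit 451) (nat_lit 230)))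 (XT.nd (nat_lit 94) (nat_lit 0) (nat_lit 0) (XT.lf (nat_lit 0) (nat_lit 1181575931082) (nat_lit 0) (nat_lit 0) (nat_lit 0) (nat_lit 0) (nat_lit 0) (nat_lit 0) (nat_lit 1) (nat_lit 0) (nat_lit 1) (nat_lit 0) (nat_lit 400) (nat_lit 451) (nat_lit 229)) (XT.nd (nat_lit 94) (nat_lit 0) (nat_lit 0) (XT.lf (nat_lit 0) (nat_lit 1181575927755) (nat_lit 0) (nat_lit 0) (nat_lit 0) (nat_lit 0) (nat_lit 0) (nat_lit 0) (nat_lit 1) (nat_lit 0) (nat_lit 1) (nat_lit 0) (nat_lit 401) (nat_lit 451) (nat_lit 228)) (XT.lf (nat_lit 0) (nat_lit 1181575924675) (nat_lit 0) (nat_lit 0) (nat_lit 0) (nat_lit 0) (nat_lit 0) (nat_lit 0) (nat_lit 1) (nat_lit 0) (nat_lit 1) (nat_lit 0) (nat_lit 402) (nat_lit 451) (nat_lit 227)))))) (XT.nd (nat_lit 470) (nat_lit 0) (nat_lit 0) (XT.nd (nat_lit 188) (nat_lit 0) (nat_lit 0) (XT.nd (nat_lit 94) (nat_lit 0) (nat_lit 0) (XT.lf (nat_lit 0) (nat_lit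 1181575921822) (nat_lit 0) (nat_lit 0) (nat_lit 0) (nat_lit 0) (nat_lit 0) (nat_lit 0) (nat_lit 1) (nat_lit 0) (nat_lit 1) (nat_lit 0) (nat_lit 403) (nat_lit 451) (nat_lit 226)) (XT.lf (nat_lit 0) (nat_lit 1181575919181) (nat_lit 0) (nat_lit 0) (nat_lit 0) (nat_lit 0) (nat_lit 0) (nat_lit 0) (nat_lit 1) (nat_lit 0) (nat_lit 1) (nat_lit 0) (nat_lit 404) (nat_lit 451) (nat_lit 225))) (XT.nd (nat_lit 94) (nat_lit 0) (nat_lit 0) (XT.lf (nat_lit 0) (nat_lit 1181575916736) (nat_lit 0) (nat_lit 0) (nat_lit 0) (nat_lit 0) (nat_lit 0) (nat_lit 0) (nat_lit 1) (nat_lit 0) (nat_lit 1) (nat_lit 0) (nat_lit 405) (nat_lit 451) (nat_lit 224)) (XT.nd (nat_lit 94) (nat_lit 0) (nat_lit 0) (XT.lf (nat_lit 0) (nat_lit 1181575914471) (nat_lit 0) (nat_lit 0) (nat_lit 0) (nat_lit 0) (nat_lit 0) (nat_lit 0) (nat_lit 1) (nat_lit 0) (nat_lit 1) (nat_lit 0) (nat_lit 406) (nat_lit 451)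 (nat_lit 223)) (XT.lf (nat_lit 0) (nat_lit 1181575912375) (nat_lit 0) (nat_lit 0) (nat_lit 0) (nat_lit 0) (nat_lit 0) (nat_lit 0) (nat_lit 1) (nat_lit 0) (nat_lit 1) (nat_lit 0) (nat_lit 407) (nat_lit 451) (nat_lit 222))))) (XT.nd (nat_lit 188) (nat_lit 0) (nat_lit 0) (XT.nd (nat_lit 94) (nat_lit 0) (nat_lit 0) (XT.lf (nat_lit 0) (nat_lit 1181575910433) (nat_lit 0) (nat_lit 0) (nat_lit 0) (nat_lit 0) (nat_lit 0) (nat_lit 0) (nat_lit 1) (nat_lit 0) (nat_lit 1) (nat_lit 0) (nat_lit 408) (nat_lit 451) (nat_lit 221)) (XT.lf (nat_lit 0) (nat_lit 1181575908636) (nat_lit 0) (nat_lit 0) (nat_lit 0) (nat_lit 0) (nat_lit 0) (nat_lit 0) (nat_lit 1) (nat_lit 0) (nat_lit 1) (nat_lit 0) (nat_lit 409) (nat_lit 451) (nat_lit 220))) (XT.nd (nat_lit 94) (nat_lit 0) (nat_lit 0) (XT.lf (nat_lit 0) (nat_lit 1181575906972) (nat_lit 0) (nat_lit 0) (nat_lit 0) (nat_lit 0) (nat_lit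 0) (nat_lit 0) (nat_lit 1) (nat_lit 0) (nat_lit 1) (nat_lit 0) (nat_lit 410) (nat_lit 451) (nat_lit 219)) (XT.nd (nat_lit 94) (nat_lit 0) (nat_lit 0) (XT.lf (nat_lit 0) (nat_lit 1181575905431) (nat_lit 0) (nat_lit 0) (nat_lit 0) (nat_lit 0) (nat_lit 0) (nat_lit 0) (nat_lit 1) (nat_lit 0) (nat_lit 1) (nat_lit 0) (nat_lit 411) (nat_lit 451) (nat_lit 218)) (XT.lf (nat_lit 0) (nat_lit 1181575904004) (nat_lit 0) (nat_lit 0) (nat_lit 0) (nat_lit 0) (nat_lit 0) (nat_lit 0) (nat_lit 1) (nat_lit 0) (nat_lit 1) (nat_lit 0) (nat_lit 412) (nat_lit 451) (nat_lit 217))))))))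
noncomputable def ec447 : XT := (XT.nd (nat_lit 45590) (nat_lit 0) (nat_lit 1512) (XT.nd (nat_lit 846) (nat_lit 0) (nat_lit 0) (XT.nd (nat_lit 376) (nat_lit 0) (nat_lit 0) (XT.nd (nat_lit 188) (nat_lit 0) (nat_lit 0) (XT.nd (nat_lit 94) (nat_lit 0) (nat_lit 0) (XT.lf (nat_lit 0) (nat_lit 1181575902683) (nat_lit 0) (nat_lit 0) (nat_lit 0) (nat_lit 0) (nat_lit 0) (nat_lit 0) (nat_lit 1) (nat_lit 0) (nat_lit 1) (nat_lit 0) (nat_lit 413) (nat_lit 451) (nat_lit 216)) (XT.lf (nat_lit 0) (nat_lit 1181575901459) (nat_lit 0) (nat_lit 0) (nat_lit 0) (nat_lit 0) (nat_lit 0) (nat_lit 0) (nat_lit 1) (nat_lit 0) (nat_lit 1) (nat_lit 0) (nat_lit 414) (nat_lit 451) (nat_lit 215))) (XT.nd (nat_lit 94) (nat_lit 0) (nat_lit 0) (XT.lf (nat_lit 0) (nat_lit 1181575900326) (nat_lit 0) (nat_lit 0) (nat_lit 0) (nat_lit 0) (nat_lit 0) (nat_lit 0) (nat_lit 1) (nat_lit 0) (nat_lit 1)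 (nat_lit 0) (nat_lit 415) (nat_lit 451) (nat_lit 214)) (XT.lf (nat_lit 0) (nat_lit 1181575899278) (nat_lit 0) (nat_lit 0) (nat_lit 0) (nat_lit 0) (nat_lit 0) (nat_lit 0) (nat_lit 1) (nat_lit 0) (nat_lit 1) (nat_lit 0) (nat_lit 416) (nat_lit 451) (nat_lit 213)))) (XT.nd (nat_lit 188) (nat_lit 0) (nat_lit 0) (XT.nd (nat_lit 94) (nat_lit 0) (nat_lit 0) (XT.lf (nat_lit 0) (nat_lit 1181575898307) (nat_lit 0) (nat_lit 0) (nat_lit 0) (nat_lit 0) (nat_lit 0) (nat_lit 0) (nat_lit 1) (nat_lit 0) (nat_lit 1) (nat_lit 0) (nat_lit 417) (nat_lit 451) (nat_lit 212)) (XT.lf (nat_lit 0) (nat_lit 1181575897407) (nat_lit 0) (nat_lit 0) (nat_lit 0) (nat_lit 0) (nat_lit 0) (nat_lit 0) (nat_lit 1) (nat_lit 0) (nat_lit 1) (nat_lit 0) (nat_lit 418) (nat_lit 451) (nat_lit 211))) (XT.nd (nat_lit 94) (nat_lit 0) (nat_lit 0) (XT.lf (nat_lit 0) (nat_lit 1181575896575) (nat_lit 0) (nat_lit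 0) (nat_lit 0) (nat_lit 0) (nat_lit 0) (nat_lit 0) (nat_lit 1) (nat_lit 0) (nat_lit 1) (nat_lit 0) (nat_lit 419) (nat_lit 451) (nat_lit 210)) (XT.nd (nat_lit 94) (nat_lit 0) (nat_lit 0) (XT.lf (nat_lit 0) (nat_lit 1181575895804) (nat_lit 0) (nat_lit 0) (nat_lit 0) (nat_lit 0) (nat_lit 0) (nat_lit 0) (nat_lit 1) (nat_lit 0) (nat_lit 1) (nat_lit 0) (nat_lit 420) (nat_lit 451) (nat_lit 209)) (XT.lf (nat_lit 0) (nat_lit 1181575895090) (nat_lit 0) (nat_lit 0) (nat_lit 0) (nat_lit 0) (nat_lit 0) (nat_lit 0) (nat_lit 1) (nat_lit 0) (nat_lit 1) (nat_lit 0) (nat_lit 421) (nat_lit 451) (nat_lit 208)))))) (XT.nd (nat_lit 2726) (nat_lit 0) (nat_lit 0) (XT.nd (nat_lit 2444) (nat_lit 0) (nat_lit 0) (XT.nd (nat_lit 2350) (nat_lit 0) (nat_lit 0) (XT.lf (nat_lit 0) (nat_lit 1181575894429) (nat_lit 0) (nat_lit 0) (nat_lit 0) (nat_lit 0) (nat_lit 0) (nat_lit 0) (nat_lit 1) (nat_lit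 0) (nat_lit 1) (nat_lit 0) (nat_lit 422) (nat_lit 451) (nat_lit 207)) (XT.lf (nat_lit 0) (nat_lit 1181575887374) (nat_lit 0) (nat_lit 0) (nat_lit 0) (nat_lit 0) (nat_lit 0) (nat_lit 0) (nat_lit 1) (nat_lit 0) (nat_lit 1) (nat_lit 0) (nat_lit 447) (nat_lit 451) (nat_lit 182))) (XT.nd (nat_lit 94) (nat_lit 0) (nat_lit 0) (XT.lf (nat_lit 0) (nat_lit 1181575887284) (nat_lit 0) (nat_lit 0) (nat_lit 0) (nat_lit 0) (nat_lit 0) (nat_lit 0) (nat_lit 1) (nat_lit 0) (nat_lit 1) (nat_lit 0) (nat_lit 448) (nat_lit 451) (nat_lit 181)) (XT.nd (nat_lit 94) (nat_lit 0) (nat_lit 0) (XT.lf (nat_lit 0) (nat_lit 1181575887202) (nat_lit 0) (nat_lit 0) (nat_lit 0) (nat_lit 0) (nat_lit 0) (nat_lit 0) (nat_lit 1) (nat_lit 0) (nat_lit 1) (nat_lit 0) (nat_lit 449) (nat_lit 451) (nat_lit 180)) (XT.lf (nat_lit 0) (nat_lit 1181575887125) (nat_lit 0) (nat_lit 0) (nat_lit 0) (nat_lit 0)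 (nat_lit 0) (nat_lit 0) (nat_lit 1) (nat_lit 0) (nat_lit 1) (nat_lit 0) (nat_lit 450) (nat_lit 451) (nat_lit 179))))) (XT.nd (nat_lit 188) (nat_lit 0) (nat_lit 0) (XT.nd (nat_lit 94) (nat_lit 0) (nat_lit 0) (XT.lf (nat_lit 0) (nat_lit 1181575887054) (nat_lit 0) (nat_lit 0) (nat_lit 0) (nat_lit 0) (nat_lit 0) (nat_lit 0) (nat_lit 1) (nat_lit 0) (nat_lit 1) (nat_lit 0) (nat_lit 451) (nat_lit 451) (nat_lit 178)) (XT.lf (nat_lit 0) (nat_lit 1181575886989) (nat_lit 0) (nat_lit 0) (nat_lit 0) (nat_lit 0) (nat_lit 0) (nat_lit 0) (nat_lit 1) (nat_lit 0) (nat_lit 1) (nat_lit 0) (nat_lit 452) (nat_lit 451) (nat_lit 177))) (XT.nd (nat_lit 94) (nat_lit 0) (nat_lit 0) (XT.lf (nat_lit 0) (nat_lit 1181575886928) (nat_lit 0) (nat_lit 0) (nat_lit 0) (nat_lit 0) (nat_lit 0) (nat_lit 0) (nat_lit 1) (nat_lit 0) (nat_lit 1) (nat_lit 0) (nat_lit 453) (nat_lit 451) (nat_lit 176))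 (XT.nd (nat_lit 41642) (nat_lit 0) (nat_lit 10752) (XT.lf (nat_lit 0) (nat_lit 1181575886871) (nat_lit 0) (nat_lit 0) (nat_lit 0) (nat_lit 0) (nat_lit 0) (nat_lit 0) (nat_lit 1) (nat_lit 0) (nat_lit 1) (nat_lit 0) (nat_lit 454) (nat_lit 451) (nat_lit 175)) (XT.lf (nat_lit 924) (nat_lit 638609219031) (nat_lit 0) (nat_lit 1133849200487) (nat_lit 924) (nat_lit 638609219031) (nat_lit 139) (nat_lit 1) (nat_lit 128) (nat_lit 0) (nat_lit 139) (nat_lit 0) (nat_lit 176) (nat_lit 452) (nat_lit 452))))))) (XT.nd (nat_lit 3384) (nat_lit 1428) (nat_lit 0) (XT.nd (nat_lit 2914) (nat_lit 7896) (nat_lit 0) (XT.nd (nat_lit 188) (nat_lit 0) (nat_lit 84) (XT.nd (nat_lit 94) (nat_lit 0) (nat_lit 0) (XT.lf (nat_lit 924) (nat_lit 238220833871) (nat_lit 0) (nat_lit 2226089623343) (nat_lit 840) (nat_lit 2177108214427) (nat_lit 140) (nat_lit 1) (nat_lit 129) (nat_lit 1) (nat_lit 139)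 (nat_lit 1) (nat_lit 177) (nat_lit 452) (nat_lit 451)) (XT.lf (nat_lit 924) (nat_lit 2187920856052) (nat_lit 84) (nat_lit 1490812971118) (nat_lit 0) (nat_lit 790659194806) (nat_lit 140) (nat_lit 1) (nat_lit 130) (nat_lit 1) (nat_lit 129) (nat_lit 1) (nat_lit 178) (nat_lit 452) (nat_lit 450))) (XT.nd (nat_lit 94) (nat_lit 0) (nat_lit 84) (XT.lf (nat_lit 924) (nat_lit 1890542856687) (nat_lit 84) (nat_lit 624789382857) (nat_lit 0) (nat_lit 1790643732607) (nat_lit 141) (nat_lit 1) (nat_lit 131) (nat_lit 1) (nat_lit 130) (nat_lit 1) (nat_lit 179) (nat_lit 452) (nat_lit 449)) (XT.lf (nat_lit 924) (nat_lit 1399162442321) (nat_lit 0) (nat_lit 2617766794035) (nat_lit 840) (nat_lit 133819864508) (nat_lit 142) (nat_lit 1) (nat_lit 131) (nat_lit 1) (nat_lit 141) (nat_lit 1) (nat_lit 180) (nat_lit 452) (nat_lit 448)))) (XT.nd (nat_lit 188) (nat_lit 420) (nat_lit 0) (XT.nd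 (nat_lit 94) (nat_lit 252) (nat_lit 0) (XT.lf (nat_lit 168) (nat_lit 95541287334) (nat_lit 0) (nat_lit 363861673360) (nat_lit 84) (nat_lit 1271417920567) (nat_lit 45) (nat_lit 1) (nat_lit 43) (nat_lit 1) (nat_lit 44) (nat_lit 1) (nat_lit 208) (nat_lit 452) (nat_lit 420)) (XT.lf (nat_lit 252) (nat_lit 1031332923353) (nat_lit 0) (nat_lit 372133394113) (nat_lit 168) (nat_lit 280151395956) (nat_lit 43) (nat_lit 1) (nat_lit 40) (nat_lit 1) (nat_lit 42) (nat_lit 1) (nat_lit 209) (nat_lit 452) (nat_lit 419))) (XT.nd (nat_lit 94) (nat_lit 336) (nat_lit 0) (XT.lf (nat_lit 168) (nat_lit 259387835248) (nat_lit 0) (nat_lit 386047836707) (nat_lit 84) (nat_lit 992569715204) (nat_lit 41) (nat_lit 1) (nat_lit 39) (nat_lit 1) (nat_lit 40) (nat_lit 1) (nat_lit 210) (nat_lit 452) (nat_lit 418)) (XT.nd (nat_lit 94) (nat_lit 84) (nat_lit 0) (XT.lf (nat_lit 252) (nat_lit 1122826148261)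 (nat_lit 0) (nat_lit 404667038086) (nat_lit 168) (nat_lit 66409325092) (nat_lit 39) (nat_lit 1) (nat_lit 36) (nat_lit 1) (nat_lit 38) (nat_lit 1) (nat_lit 211) (nat_lit 452) (nat_lit 417)) (XT.lf (nat_lit 168) (nat_lit 373294680857) (nat_lit 0) (nat_lit 421870249777) (nat_lit 84) (nat_lit 755816985461) (nat_lit 37) (nat_lit 1) (nat_lit 35) (nat_lit 1) (nat_lit 36) (nat_lit 1) (nat_lit 212) (nat_lit 452) (nat_lit 416)))))) (XT.nd (nat_lit 470) (nat_lit 588) (nat_lit 0) (XT.nd (nat_lit 188) (nat_lit 504) (nat_lit 0) (XT.nd (nat_lit 94) (nat_lit 84) (nat_lit 0) (XT.lf (nat_lit 84) (nat_lit 107747700652) (nat_lit 0) (nat_lit 338191310985) (nat_lit 252) (nat_lit 1063664234403) (nat_lit 33) (nat_lit 1) (nat_lit 32) (nat_lit 1) (nat_lit 35) (nat_lit 1) (nat_lit 213) (nat_lit 452) (nat_lit 415)) (XT.lf (nat_lit 168) (nat_lit 447987296700) (nat_lit 0) (nat_lit 466781529045)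 (nat_lit 84) (nat_lit 554483364040) (nat_lit 33) (nat_lit 1) (nat_lit 31) (nat_lit 1) (nat_lit 32) (nat_lit 1) (nat_lit 214) (nat_lit 452) (nat_lit 414))) (XT.nd (nat_lit 94) (nat_lit 252) (nat_lit 0) (XT.lf (nat_lit 84) (nat_lit 250581031821) (nat_lit 0) (nat_lit 242704673562) (nat_lit 252) (nat_lit 937033463095) (nat_lit 29) (nat_lit 1) (nat_lit 28) (nat_lit 1) (nat_lit 31) (nat_lit 1) (nat_lit 215) (nat_lit 452) (nat_lit 413)) (XT.nd (nat_lit 94) (nat_lit 168) (nat_lit 0) (XT.lf (nat_lit 168) (nat_lit 492115050628) (nat_lit 0) (nat_lit 517231928395) (nat_lit 84) (nat_lit 383033892095) (nat_lit 29) (nat_lit 1) (nat_lit 27) (nat_lit 1) (nat_lit 28) (nat_lit 1) (nat_lit 216) (nat_lit 452) (nat_lit 412)) (XT.lf (nat_lit 84) (nat_lit 368913223221) (nat_lit 0) (nat_lit 175780549948) (nat_lit 168) (nat_lit 811001727640) (nat_lit 26) (nat_lit 1) (nat_lit 25) (nat_lit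 1) (nat_lit 27) (nat_lit 1) (nat_lit 217) (nat_lit 452) (nat_lit 411))))) (XT.nd (nat_lit 188) (nat_lit 336) (nat_lit 0) (XT.nd (nat_lit 94) (nat_lit 168) (nat_lit 0) (XT.lf (nat_lit 168) (nat_lit 512639140280) (nat_lit 0) (nat_lit 570474903972) (nat_lit 84) (nat_lit 236871415506) (nat_lit 26) (nat_lit 1) (nat_lit 24) (nat_lit 1) (nat_lit 25) (nat_lit 1) (nat_lit 218) (nat_lit 452) (nat_lit 410)) (XT.lf (nat_lit 84) (nat_lit 466640926456) (nat_lit 0) (nat_lit 131134582313) (nat_lit 168) (nat_lit 687598313451) (nat_lit 23) (nat_lit 1) (nat_lit 22) (nat_lit 1) (nat_lit 24) (nat_lit 1) (nat_lit 219) (nat_lit 452) (nat_lit 409))) (XT.nd (nat_lit 94) (nat_lit 252) (nat_lit 0) (XT.lf (nat_lit 168) (nat_lit 515148912276) (nat_lit 0) (nat_lit 624409094980) (nat_lit 84) (nat_lit 112169960924) (nat_lit 23) (nat_lit 1) (nat_lit 21) (nat_lit 1) (nat_lit 22) (nat_lit 1)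 (nat_lit 220) (nat_lit 452) (nat_lit 408)) (XT.nd (nat_lit 94) (nat_lit 84) (nat_lit 0) (XT.lf (nat_lit 84) (nat_lit 547002693830) (nat_lit 0) (nat_lit 103713562727) (nat_lit 168) (nat_lit 568320150221) (nat_lit 20) (nat_lit 1) (nat_lit 19) (nat_lit 1) (nat_lit 21) (nat_lit 1) (nat_lit 221) (nat_lit 452) (nat_lit 407)) (XT.lf (nat_lit 168) (nat_lit 504119732832) (nat_lit 0) (nat_lit 677449992515) (nat_lit 84) (nat_lit 5738329856) (nat_lit 20) (nat_lit 1) (nat_lit 18) (nat_lit 1) (nat_lit 19) (nat_lit 1) (nat_lit 222) (nat_lit 452) (nat_lit 406))))))))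
noncomputable def ec448 : XT := (XT.nd (nat_lit 1692) (nat_lit 0) (nat_lit 0) (XT.nd (nat_lit 846) (nat_lit 336) (nat_lit 0) (XT.nd (nat_lit 376) (nat_lit 672) (nat_lit 0) (XT.nd (nat_lit 188) (nat_lit 252) (nat_lit 0) (XT.nd (nat_lit 94) (nat_lit 84) (nat_lit 0) (XT.lf (nat_lit 84) (nat_lit 612695468325) (nat_lit 0) (nat_lit 89464262780) (nat_lit 168) (nat_lit 454240296879) (nat_lit 17) (nat_lit 1) (nat_lit 16) (nat_lit 1) (nat_lit 18) (nat_lit 1) (nat_lit 223) (nat_lit 452) (nat_lit 405)) (XT.lf (nat_lit 0) (nat_lit 82368148675) (nat_lit 0) (nat_lit 644662712677) (nat_lit 168) (nat_lit 399360065880) (nat_lit 15) (nat_lit 3) (nat_lit 15) (nat_lit 1) (nat_lit 17) (nat_lit 1) (nat_lit 224) (nat_lit 452) (nat_lit 404))) (XT.nd (nat_lit 94) (nat_lit 84) (nat_lit 0) (XT.lf (nat_lit 84) (nat_lit 665969987299) (nat_lit 0) (nat_lit 85145016013) (nat_lit 168) (nat_lit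 346095831989) (nat_lit 14) (nat_lit 1) (nat_lit 13) (nat_lit 1) (nat_lit 15) (nat_lit 1) (nat_lit 225) (nat_lit 452) (nat_lit 403)) (XT.lf (nat_lit 0) (nat_lit 157353636410) (nat_lit 0) (nat_lit 616474548947) (nat_lit 168) (nat_lit 294979689647) (nat_lit 12) (nat_lit 3) (nat_lit 12) (nat_lit 1) (nat_lit 14) (nat_lit 1) (nat_lit 226) (nat_lit 452) (nat_lit 402)))) (XT.nd (nat_lit 188) (nat_lit 420) (nat_lit 0) (XT.nd (nat_lit 94) (nat_lit 84) (nat_lit 0) (XT.lf (nat_lit 84) (nat_lit 708708950583) (nat_lit 0) (nat_lit 88172187941) (nat_lit 168) (nat_lit 244358970771) (nat_lit 11) (nat_lit 1) (nat_lit 10) (nat_lit 1) (nat_lit 12) (nat_lit 1) (nat_lit 227) (nat_lit 452) (nat_lit 401)) (XT.lf (nat_lit 0) (nat_lit 221221701069) (nat_lit 0) (nat_lit 596099969193) (nat_lit 168) (nat_lit 197022536898) (nat_lit 9) (nat_lit 3) (nat_lit 9) (nat_lit 1) (nat_lit 11) (nat_lit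 1) (nat_lit 228) (nat_lit 452) (nat_lit 400))) (XT.nd (nat_lit 94) (nat_lit 252) (nat_lit 0) (XT.lf (nat_lit 84) (nat_lit 742491098226) (nat_lit 0) (nat_lit 96495112804) (nat_lit 168) (nat_lit 149294526273) (nat_lit 8) (nat_lit 1) (nat_lit 7) (nat_lit 1) (nat_lit 9) (nat_lit 1) (nat_lit 229) (nat_lit 452) (nat_lit 399)) (XT.nd (nat_lit 94) (nat_lit 168) (nat_lit 0) (XT.lf (nat_lit 0) (nat_lit 275506706899) (nat_lit 0) (nat_lit 581599747042) (nat_lit 168) (nat_lit 105694679490) (nat_lit 6) (nat_lit 3) (nat_lit 6) (nat_lit 1) (nat_lit 8) (nat_lit 1) (nat_lit 230) (nat_lit 452) (nat_lit 398)) (XT.lf (nat_lit 84) (nat_lit 768643767101) (nat_lit 0) (nat_lit 108494255518) (nat_lit 168) (nat_lit 61006257801) (nat_lit 5) (nat_lit 1) (nat_lit 4) (nat_lit 1) (nat_lit 6) (nat_lit 1) (nat_lit 231) (nat_lit 452) (nat_lit 397)))))) (XT.nd (nat_lit 376) (nat_lit 0) (nat_lit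 0) (XT.nd (nat_lit 188) (nat_lit 0) (nat_lit 0) (XT.nd (nat_lit 94) (nat_lit 252) (nat_lit 0) (XT.lf (nat_lit 0) (nat_lit 321506360111) (nat_lit 0) (nat_lit 571435356244) (nat_lit 168) (nat_lit 21055793044) (nat_lit 3) (nat_lit 3) (nat_lit 3) (nat_lit 1) (nat_lit 5) (nat_lit 1) (nat_lit 232) (nat_lit 452) (nat_lit 396)) (XT.lf (nat_lit 0) (nat_lit 1291977599612) (nat_lit 0) (nat_lit 0) (nat_lit 0) (nat_lit 0) (nat_lit 0) (nat_lit 0) (nat_lit 1) (nat_lit 0) (nat_lit 1) (nat_lit 0) (nat_lit 233) (nat_lit 452) (nat_lit 395))) (XT.nd (nat_lit 94) (nat_lit 0) (nat_lit 0) (XT.lf (nat_lit 0) (nat_lit 1290801626090) (nat_lit 0) (nat_lit 0) (nat_lit 0) (nat_lit 0) (nat_lit 0) (nat_lit 0) (nat_lit 1) (nat_lit 0) (nat_lit 1) (nat_lit 0) (nat_lit 234) (nat_lit 452) (nat_lit 394)) (XT.lf (nat_lit 0) (nat_lit 1289712761717) (nat_lit 0) (nat_lit 0) (nat_lit 0) (nat_lit 0)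 (nat_lit 0) (nat_lit 0) (nat_lit 1) (nat_lit 0) (nat_lit 1) (nat_lit 0) (nat_lit 235) (nat_lit 452) (nat_lit 393)))) (XT.nd (nat_lit 188) (nat_lit 0) (nat_lit 0) (XT.nd (nat_lit 94) (nat_lit 0) (nat_lit 0) (XT.lf (nat_lit 0) (nat_lit 1288704553965) (nat_lit 0) (nat_lit 0) (nat_lit 0) (nat_lit 0) (nat_lit 0) (nat_lit 0) (nat_lit 1) (nat_lit 0) (nat_lit 1) (nat_lit 0) (nat_lit 236) (nat_lit 452) (nat_lit 392)) (XT.lf (nat_lit 0) (nat_lit 1287771028268) (nat_lit 0) (nat_lit 0) (nat_lit 0) (nat_lit 0) (nat_lit 0) (nat_lit 0) (nat_lit 1) (nat_lit 0) (nat_lit 1) (nat_lit 0) (nat_lit 237) (nat_lit 452) (nat_lit 391))) (XT.nd (nat_lit 94) (nat_lit 0) (nat_lit 0) (XT.lf (nat_lit 0) (nat_lit 1286906652623) (nat_lit 0) (nat_lit 0) (nat_lit 0) (nat_lit 0) (nat_lit 0) (nat_lit 0) (nat_lit 1) (nat_lit 0) (nat_lit 1) (nat_lit 0) (nat_lit 238) (nat_lit 452) (nat_lit 390))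 (XT.nd (nat_lit 94) (nat_lit 0) (nat_lit 0) (XT.lf (nat_lit 0) (nat_lit 1286106304804) (nat_lit 0) (nat_lit 0) (nat_lit 0) (nat_lit 0) (nat_lit 0) (nat_lit 0) (nat_lit 1) (nat_lit 0) (nat_lit 1) (nat_lit 0) (nat_lit 239) (nat_lit 452) (nat_lit 389)) (XT.lf (nat_lit 0) (nat_lit 1285365242008) (nat_lit 0) (nat_lit 0) (nat_lit 0) (nat_lit 0) (nat_lit 0) (nat_lit 0) (nat_lit 1) (nat_lit 0) (nat_lit 1) (nat_lit 0) (nat_lit 240) (nat_lit 452) (nat_lit 388))))))) (XT.nd (nat_lit 846) (nat_lit 0) (nat_lit 0) (XT.nd (nat_lit 376) (nat_lit 0) (nat_lit 0) (XT.nd (nat_lit 188) (nat_lit 0) (nat_lit 0) (XT.nd (nat_lit 94) (nat_lit 0) (nat_lit 0) (XT.lf (nat_lit 0) (nat_lit 1284679072753) (nat_lit 0) (nat_lit 0) (nat_lit 0) (nat_lit 0) (nat_lit 0) (nat_lit 0) (nat_lit 1) (nat_lit 0) (nat_lit 1) (nat_lit 0) (nat_lit 241) (nat_lit 452) (nat_lit 387)) (XT.lf (nat_lit 0) (nat_lit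 1284043730850) (nat_lit 0) (nat_lit 0) (nat_lit 0) (nat_lit 0) (nat_lit 0) (nat_lit 0) (nat_lit 1) (nat_lit 0) (nat_lit 1) (nat_lit 0) (nat_lit 242) (nat_lit 452) (nat_lit 386))) (XT.nd (nat_lit 94) (nat_lit 0) (nat_lit 0) (XT.lf (nat_lit 0) (nat_lit 1283455451310) (nat_lit 0) (nat_lit 0) (nat_lit 0) (nat_lit 0) (nat_lit 0) (nat_lit 0) (nat_lit 1) (nat_lit 0) (nat_lit 1) (nat_lit 0) (nat_lit 243) (nat_lit 452) (nat_lit 385)) (XT.lf (nat_lit 0) (nat_lit 1282910748032) (nat_lit 0) (nat_lit 0) (nat_lit 0) (nat_lit 0) (nat_lit 0) (nat_lit 0) (nat_lit 1) (nat_lit 0) (nat_lit 1) (nat_lit 0) (nat_lit 244) (nat_lit 452) (nat_lit 384)))) (XT.nd (nat_lit 188) (nat_lit 0) (nat_lit 0) (XT.nd (nat_lit 94) (nat_lit 0) (nat_lit 0) (XT.lf (nat_lit 0) (nat_lit 1282406393145) (nat_lit 0) (nat_lit 0) (nat_lit 0) (nat_lit 0) (nat_lit 0) (nat_lit 0) (nat_lit 1) (nat_lit 0) (nat_lit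 1) (nat_lit 0) (nat_lit 245) (nat_lit 452) (nat_lit 383)) (XT.lf (nat_lit 0) (nat_lit 1281939397880) (nat_lit 0) (nat_lit 0) (nat_lit 0) (nat_lit 0) (nat_lit 0) (nat_lit 0) (nat_lit 1) (nat_lit 0) (nat_lit 1) (nat_lit 0) (nat_lit 246) (nat_lit 452) (nat_lit 382))) (XT.nd (nat_lit 94) (nat_lit 0) (nat_lit 0) (XT.lf (nat_lit 0) (nat_lit 1281506994856) (nat_lit 0) (nat_lit 0) (nat_lit 0) (nat_lit 0) (nat_lit 0) (nat_lit 0) (nat_lit 1) (nat_lit 0) (nat_lit 1) (nat_lit 0) (nat_lit 247) (nat_lit 452) (nat_lit 381)) (XT.nd (nat_lit 94) (nat_lit 0) (nat_lit 0) (XT.lf (nat_lit 0) (nat_lit 1281106621686) (nat_lit 0) (nat_lit 0) (nat_lit 0) (nat_lit 0) (nat_lit 0) (nat_lit 0) (nat_lit 1) (nat_lit 0) (nat_lit 1) (nat_lit 0) (nat_lit 248) (nat_lit 452) (nat_lit 380)) (XT.lf (nat_lit 0) (nat_lit 1280735905788) (nat_lit 0) (nat_lit 0) (nat_lit 0) (nat_lit 0) (nat_lit 0)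 (nat_lit 0) (nat_lit 1) (nat_lit 0) (nat_lit 1) (nat_lit 0) (nat_lit 249) (nat_lit 452) (nat_lit 379)))))) (XT.nd (nat_lit 470) (nat_lit 0) (nat_lit 0) (XT.nd (nat_lit 188) (nat_lit 0) (nat_lit 0) (XT.nd (nat_lit 94) (nat_lit 0) (nat_lit 0) (XT.lf (nat_lit 0) (nat_lit 1280392650327) (nat_lit 0) (nat_lit 0) (nat_lit 0) (nat_lit 0) (nat_lit 0) (nat_lit 0) (nat_lit 1) (nat_lit 0) (nat_lit 1) (nat_lit 0) (nat_lit 250) (nat_lit 452) (nat_lit 378)) (XT.lf (nat_lit 0) (nat_lit 1280074821196) (nat_lit 0) (nat_lit 0) (nat_lit 0) (nat_lit 0) (nat_lit 0) (nat_lit 0) (nat_lit 1) (nat_lit 0) (nat_lit 1) (nat_lit 0) (nat_lit 251) (nat_lit 452) (nat_lit 377))) (XT.nd (nat_lit 94) (nat_lit 0) (nat_lit 0) (XT.lf (nat_lit 0) (nat_lit 1279780534964) (nat_lit 0) (nat_lit 0) (nat_lit 0) (nat_lit 0) (nat_lit 0) (nat_lit 0) (nat_lit 1) (nat_lit 0) (nat_lit 1) (nat_lit 0) (nat_lit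 252) (nat_lit 452) (nat_lit 376)) (XT.nd (nat_lit 94) (nat_lit 0) (nat_lit 0) (XT.lf (nat_lit 0) (nat_lit 1279508047712) (nat_lit 0) (nat_lit 0) (nat_lit 0) (nat_lit 0) (nat_lit 0) (nat_lit 0) (nat_lit 1) (nat_lit 0) (nat_lit 1) (nat_lit 0) (nat_lit 253) (nat_lit 452) (nat_lit 375)) (XT.lf (nat_lit 0) (nat_lit 1279255744700) (nat_lit 0) (nat_lit 0) (nat_lit 0) (nat_lit 0) (nat_lit 0) (nat_lit 0) (nat_lit 1) (nat_lit 0) (nat_lit 1) (nat_lit 0) (nat_lit 254) (nat_lit 452) (nat_lit 374))))) (XT.nd (nat_lit 188) (nat_lit 0) (nat_lit 0) (XT.nd (nat_lit 94) (nat_lit 0) (nat_lit 0) (XT.lf (nat_lit 0) (nat_lit 1279022130801) (nat_lit 0) (nat_lit 0) (nat_lit 0) (nat_lit 0) (nat_lit 0) (nat_lit 0) (nat_lit 1) (nat_lit 0) (nat_lit 1) (nat_lit 0) (nat_lit 255) (nat_lit 452) (nat_lit 373)) (XT.lf (nat_lit 0) (nat_lit 1278805821635) (nat_lit 0) (nat_lit 0) (nat_lit 0) (nat_lit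 0) (nat_lit 0) (nat_lit 0) (nat_lit 1) (nat_lit 0) (nat_lit 1) (nat_lit 0) (nat_lit 256) (nat_lit 452) (nat_lit 372))) (XT.nd (nat_lit 94) (nat_lit 0) (nat_lit 0) (XT.lf (nat_lit 0) (nat_lit 1278605535371) (nat_lit 0) (nat_lit 0) (nat_lit 0) (nat_lit 0) (nat_lit 0) (nat_lit 0) (nat_lit 1) (nat_lit 0) (nat_lit 1) (nat_lit 0) (nat_lit 257) (nat_lit 452) (nat_lit 371)) (XT.nd (nat_lit 94) (nat_lit 0) (nat_lit 0) (XT.lf (nat_lit 0) (nat_lit 1278420085125) (nat_lit 0) (nat_lit 0) (nat_lit 0) (nat_lit 0) (nat_lit 0) (nat_lit 0) (nat_lit 1) (nat_lit 0) (nat_lit 1) (nat_lit 0) (nat_lit 258) (nat_lit 452) (nat_lit 370)) (XT.lf (nat_lit 0) (nat_lit 1278248371935) (nat_lit 0) (nat_lit 0) (nat_lit 0) (nat_lit 0) (nat_lit 0) (nat_lit 0) (nat_lit 1) (nat_lit 0) (nat_lit 1) (nat_lit 0) (nat_lit 259) (nat_lit 452) (nat_lit 369))))))))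
noncomputable def ec449 : XT := (XT.nd (nat_lit 1786) (nat_lit 0) (nat_lit 0) (XT.nd (nat_lit 846) (nat_lit 0) (nat_lit 0) (XT.nd (nat_lit 376) (nat_lit 0) (nat_lit 0) (XT.nd (nat_lit 188) (nat_lit 0) (nat_lit 0) (XT.nd (nat_lit 94) (nat_lit 0) (nat_lit 0) (XT.lf (nat_lit 0) (nat_lit 1278089378241) (nat_lit 0) (nat_lit 0) (nat_lit 0) (nat_lit 0) (nat_lit 0) (nat_lit 0) (nat_lit 1) (nat_lit 0) (nat_lit 1) (nat_lit 0) (nat_lit 260) (nat_lit 452) (nat_lit 368)) (XT.lf (nat_lit 0) (nat_lit 1277942161857) (nat_lit 0) (nat_lit 0) (nat_lit 0) (nat_lit 0) (nat_lit 0) (nat_lit 0) (nat_lit 1) (nat_lit 0) (nat_lit 1) (nat_lit 0) (nat_lit 261) (nat_lit 452) (nat_lit 367))) (XT.nd (nat_lit 94) (nat_lit 0) (nat_lit 0) (XT.lf (nat_lit 0) (nat_lit 1277805850391) (nat_lit 0) (nat_lit 0) (nat_lit 0) (nat_lit 0) (nat_lit 0) (nat_lit 0) (nat_lit 1) (nat_lit 0) (nat_lit 1) (nat_lit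 0) (nat_lit 262) (nat_lit 452) (nat_lit 366)) (XT.lf (nat_lit 0) (nat_lit 1277679636070) (nat_lit 0) (nat_lit 0) (nat_lit 0) (nat_lit 0) (nat_lit 0) (nat_lit 0) (nat_lit 1) (nat_lit 0) (nat_lit 1) (nat_lit 0) (nat_lit 263) (nat_lit 452) (nat_lit 365)))) (XT.nd (nat_lit 188) (nat_lit 0) (nat_lit 0) (XT.nd (nat_lit 94) (nat_lit 0) (nat_lit 0) (XT.lf (nat_lit 0) (nat_lit 1277562770958) (nat_lit 0) (nat_lit 0) (nat_lit 0) (nat_lit 0) (nat_lit 0) (nat_lit 0) (nat_lit 1) (nat_lit 0) (nat_lit 1) (nat_lit 0) (nat_lit 264) (nat_lit 452) (nat_lit 364)) (XT.lf (nat_lit 0) (nat_lit 1277454562522) (nat_lit 0) (nat_lit 0) (nat_lit 0) (nat_lit 0) (nat_lit 0) (nat_lit 0) (nat_lit 1) (nat_lit 0) (nat_lit 1) (nat_lit 0) (nat_lit 265) (nat_lit 452) (nat_lit 363))) (XT.nd (nat_lit 94) (nat_lit 0) (nat_lit 0) (XT.lf (nat_lit 0) (nat_lit 1277354369524) (nat_lit 0) (nat_lit 0) (nat_lit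 0) (nat_lit 0) (nat_lit 0) (nat_lit 0) (nat_lit 1) (nat_lit 0) (nat_lit 1) (nat_lit 0) (nat_lit 266) (nat_lit 452) (nat_lit 362)) (XT.nd (nat_lit 94) (nat_lit 0) (nat_lit 0) (XT.lf (nat_lit 0) (nat_lit 1277261598231) (nat_lit 0) (nat_lit 0) (nat_lit 0) (nat_lit 0) (nat_lit 0) (nat_lit 0) (nat_lit 1) (nat_lit 0) (nat_lit 1) (nat_lit 0) (nat_lit 267) (nat_lit 452) (nat_lit 361)) (XT.lf (nat_lit 0) (nat_lit 1277175698885) (nat_lit 0) (nat_lit 0) (nat_lit 0) (nat_lit 0) (nat_lit 0) (nat_lit 0) (nat_lit 1) (nat_lit 0) (nat_lit 1) (nat_lit 0) (nat_lit 268) (nat_lit 452) (nat_lit 360)))))) (XT.nd (nat_lit 470) (nat_lit 0) (nat_lit 0) (XT.nd (nat_lit 188) (nat_lit 0) (nat_lit 0) (XT.nd (nat_lit 94) (nat_lit 0) (nat_lit 0) (XT.lf (nat_lit 0) (nat_lit 1277096162454) (nat_lit 0) (nat_lit 0) (nat_lit 0) (nat_lit 0) (nat_lit 0) (nat_lit 0) (nat_lit 1) (nat_lit 0) (nat_lit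 1) (nat_lit 0) (nat_lit 269) (nat_lit 452) (nat_lit 359)) (XT.lf (nat_lit 0) (nat_lit 1277022517610) (nat_lit 0) (nat_lit 0) (nat_lit 0) (nat_lit 0) (nat_lit 0) (nat_lit 0) (nat_lit 1) (nat_lit 0) (nat_lit 1) (nat_lit 0) (nat_lit 270) (nat_lit 452) (nat_lit 358))) (XT.nd (nat_lit 94) (nat_lit 0) (nat_lit 0) (XT.lf (nat_lit 0) (nat_lit 1276954327939) (nat_lit 0) (nat_lit 0) (nat_lit 0) (nat_lit 0) (nat_lit 0) (nat_lit 0) (nat_lit 1) (nat_lit 0) (nat_lit 1) (nat_lit 0) (nat_lit 271) (nat_lit 452) (nat_lit 357)) (XT.nd (nat_lit 94) (nat_lit 0) (nat_lit 0) (XT.lf (nat_lit 0) (nat_lit 1276891189356) (nat_lit 0) (nat_lit 0) (nat_lit 0) (nat_lit 0) (nat_lit 0) (nat_lit 0) (nat_lit 1) (nat_lit 0) (nat_lit 1) (nat_lit 0) (nat_lit 272) (nat_lit 452) (nat_lit 356)) (XT.lf (nat_lit 0) (nat_lit 1276832727704) (nat_lit 0) (nat_lit 0) (nat_lit 0) (nat_lit 0) (nat_lit 0)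 (nat_lit 0) (nat_lit 1) (nat_lit 0) (nat_lit 1) (nat_lit 0) (nat_lit 273) (nat_lit 452) (nat_lit 355))))) (XT.nd (nat_lit 188) (nat_lit 0) (nat_lit 0) (XT.nd (nat_lit 94) (nat_lit 0) (nat_lit 0) (XT.lf (nat_lit 0) (nat_lit 1276778596546) (nat_lit 0) (nat_lit 0) (nat_lit 0) (nat_lit 0) (nat_lit 0) (nat_lit 0) (nat_lit 1) (nat_lit 0) (nat_lit 1) (nat_lit 0) (nat_lit 274) (nat_lit 452) (nat_lit 354)) (XT.lf (nat_lit 0) (nat_lit 1276728475102) (nat_lit 0) (nat_lit 0) (nat_lit 0) (nat_lit 0) (nat_lit 0) (nat_lit 0) (nat_lit 1) (nat_lit 0) (nat_lit 1) (nat_lit 0) (nat_lit 275) (nat_lit 452) (nat_lit 353))) (XT.nd (nat_lit 94) (nat_lit 0) (nat_lit 0) (XT.lf (nat_lit 0) (nat_lit 1276682066358) (nat_lit 0) (nat_lit 0) (nat_lit 0) (nat_lit 0) (nat_lit 0) (nat_lit 0) (nat_lit 1) (nat_lit 0) (nat_lit 1) (nat_lit 0) (nat_lit 276) (nat_lit 452) (nat_lit 352)) (XT.nd (nat_lit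 94) (nat_lit 0) (nat_lit 0) (XT.lf (nat_lit 0) (nat_lit 1276639095299) (nat_lit 0) (nat_lit 0) (nat_lit 0) (nat_lit 0) (nat_lit 0) (nat_lit 0) (nat_lit 1) (nat_lit 0) (nat_lit 1) (nat_lit 0) (nat_lit 277) (nat_lit 452) (nat_lit 351)) (XT.lf (nat_lit 0) (nat_lit 1276599307282) (nat_lit 0) (nat_lit 0) (nat_lit 0) (nat_lit 0) (nat_lit 0) (nat_lit 0) (nat_lit 1) (nat_lit 0) (nat_lit 1) (nat_lit 0) (nat_lit 278) (nat_lit 452) (nat_lit 350))))))) (XT.nd (nat_lit 846) (nat_lit 0) (nat_lit 0) (XT.nd (nat_lit 376) (nat_lit 0) (nat_lit 0) (XT.nd (nat_lit 188) (nat_lit 0) (nat_lit 0) (XT.nd (nat_lit 94) (nat_lit 0) (nat_lit 0) (XT.lf (nat_lit 0) (nat_lit 1276562466525) (nat_lit 0) (nat_lit 0) (nat_lit 0) (nat_lit 0) (nat_lit 0) (nat_lit 0) (nat_lit 1) (nat_lit 0) (nat_lit 1) (nat_lit 0) (nat_lit 279) (nat_lit 452) (nat_lit 349)) (XT.lf (nat_lit 0) (nat_lit 1276528354712)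 (nat_lit 0) (nat_lit 0) (nat_lit 0) (nat_lit 0) (nat_lit 0) (nat_lit 0) (nat_lit 1) (nat_lit 0) (nat_lit 1) (nat_lit 0) (nat_lit 280) (nat_lit 452) (nat_lit 348))) (XT.nd (nat_lit 94) (nat_lit 0) (nat_lit 0) (XT.lf (nat_lit 0) (nat_lit 1276496769701) (nat_lit 0) (nat_lit 0) (nat_lit 0) (nat_lit 0) (nat_lit 0) (nat_lit 0) (nat_lit 1) (nat_lit 0) (nat_lit 1) (nat_lit 0) (nat_lit 281) (nat_lit 452) (nat_lit 347)) (XT.lf (nat_lit 0) (nat_lit 1276467524320) (nat_lit 0) (nat_lit 0) (nat_lit 0) (nat_lit 0) (nat_lit 0) (nat_lit 0) (nat_lit 1) (nat_lit 0) (nat_lit 1) (nat_lit 0) (nat_lit 282) (nat_lit 452) (nat_lit 346)))) (XT.nd (nat_lit 188) (nat_lit 0) (nat_lit 0) (XT.nd (nat_lit 94) (nat_lit 0) (nat_lit 0) (XT.lf (nat_lit 0) (nat_lit 1276440445264) (nat_lit 0) (nat_lit 0) (nat_lit 0) (nat_lit 0) (nat_lit 0) (nat_lit 0) (nat_lit 1) (nat_lit 0) (nat_lit 1) (nat_lit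 0) (nat_lit 283) (nat_lit 452) (nat_lit 345)) (XT.lf (nat_lit 0) (nat_lit 1276415372064) (nat_lit 0) (nat_lit 0) (nat_lit 0) (nat_lit 0) (nat_lit 0) (nat_lit 0) (nat_lit 1) (nat_lit 0) (nat_lit 1) (nat_lit 0) (nat_lit 284) (nat_lit 452) (nat_lit 344))) (XT.nd (nat_lit 94) (nat_lit 0) (nat_lit 0) (XT.lf (nat_lit 0) (nat_lit 1276392156138) (nat_lit 0) (nat_lit 0) (nat_lit 0) (nat_lit 0) (nat_lit 0) (nat_lit 0) (nat_lit 1) (nat_lit 0) (nat_lit 1) (nat_lit 0) (nat_lit 285) (nat_lit 452) (nat_lit 343)) (XT.nd (nat_lit 94) (nat_lit 0) (nat_lit 0) (XT.lf (nat_lit 0) (nat_lit 1276370659910) (nat_lit 0) (nat_lit 0) (nat_lit 0) (nat_lit 0) (nat_lit 0) (nat_lit 0) (nat_lit 1) (nat_lit 0) (nat_lit 1) (nat_lit 0) (nat_lit 286) (nat_lit 452) (nat_lit 342)) (XT.lf (nat_lit 0) (nat_lit 1276350755995) (nat_lit 0) (nat_lit 0) (nat_lit 0) (nat_lit 0) (nat_lit 0) (nat_lit 0)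 (nat_lit 1) (nat_lit 0) (nat_lit 1) (nat_lit 0) (nat_lit 287) (nat_lit 452) (nat_lit 341)))))) (XT.nd (nat_lit 470) (nat_lit 0) (nat_lit 0) (XT.nd (nat_lit 188) (nat_lit 0) (nat_lit 0) (XT.nd (nat_lit 94) (nat_lit 0) (nat_lit 0) (XT.lf (nat_lit 0) (nat_lit 1276332326444) (nat_lit 0) (nat_lit 0) (nat_lit 0) (nat_lit 0) (nat_lit 0) (nat_lit 0) (nat_lit 1) (nat_lit 0) (nat_lit 1) (nat_lit 0) (nat_lit 288) (nat_lit 452) (nat_lit 340)) (XT.lf (nat_lit 0) (nat_lit 1276315262046) (nat_lit 0) (nat_lit 0) (nat_lit 0) (nat_lit 0) (nat_lit 0) (nat_lit 0) (nat_lit 1) (nat_lit 0) (nat_lit 1) (nat_lit 0) (nat_lit 289) (nat_lit 452) (nat_lit 339))) (XT.nd (nat_lit 94) (nat_lit 0) (nat_lit 0) (XT.lf (nat_lit 0) (nat_lit 1276299461676) (nat_lit 0) (nat_lit 0) (nat_lit 0) (nat_lit 0) (nat_lit 0) (nat_lit 0) (nat_lit 1) (nat_lit 0) (nat_lit 1) (nat_lit 0) (nat_lit 290) (nat_lit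 452) (nat_lit 338)) (XT.nd (nat_lit 94) (nat_lit 0) (nat_lit 0) (XT.lf (nat_lit 0) (nat_lit 1276284831705) (nat_lit 0) (nat_lit 0) (nat_lit 0) (nat_lit 0) (nat_lit 0) (nat_lit 0) (nat_lit 1) (nat_lit 0) (nat_lit 1) (nat_lit 0) (nat_lit 291) (nat_lit 452) (nat_lit 337)) (XT.lf (nat_lit 0) (nat_lit 1276271285435) (nat_lit 0) (nat_lit 0) (nat_lit 0) (nat_lit 0) (nat_lit 0) (nat_lit 0) (nat_lit 1) (nat_lit 0) (nat_lit 1) (nat_lit 0) (nat_lit 292) (nat_lit 452) (nat_lit 336))))) (XT.nd (nat_lit 188) (nat_lit 0) (nat_lit 0) (XT.nd (nat_lit 94) (nat_lit 0) (nat_lit 0) (XT.lf (nat_lit 0) (nat_lit 1276258742592) (nat_lit 0) (nat_lit 0) (nat_lit 0) (nat_lit 0) (nat_lit 0) (nat_lit 0) (nat_lit 1) (nat_lit 0) (nat_lit 1) (nat_lit 0) (nat_lit 293) (nat_lit 452) (nat_lit 335)) (XT.lf (nat_lit 0) (nat_lit 1276247128849) (nat_lit 0) (nat_lit 0) (nat_lit 0) (nat_lit 0) (nat_lit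 0) (nat_lit 0) (nat_lit 1) (nat_lit 0) (nat_lit 1) (nat_lit 0) (nat_lit 294) (nat_lit 452) (nat_lit 334))) (XT.nd (nat_lit 94) (nat_lit 0) (nat_lit 0) (XT.lf (nat_lit 0) (nat_lit 1276236375384) (nat_lit 0) (nat_lit 0) (nat_lit 0) (nat_lit 0) (nat_lit 0) (nat_lit 0) (nat_lit 1) (nat_lit 0) (nat_lit 1) (nat_lit 0) (nat_lit 295) (nat_lit 452) (nat_lit 333)) (XT.nd (nat_lit 94) (nat_lit 0) (nat_lit 0) (XT.lf (nat_lit 0) (nat_lit 1276226418471) (nat_lit 0) (nat_lit 0) (nat_lit 0) (nat_lit 0) (nat_lit 0) (nat_lit 0) (nat_lit 1) (nat_lit 0) (nat_lit 1) (nat_lit 0) (nat_lit 296) (nat_lit 452) (nat_lit 332)) (XT.lf (nat_lit 0) (nat_lit 1276217199107) (nat_lit 0) (nat_lit 0) (nat_lit 0) (nat_lit 0) (nat_lit 0) (nat_lit 0) (nat_lit 1) (nat_lit 0) (nat_lit 1) (nat_lit 0) (nat_lit 297) (nat_lit 452) (nat_lit 331))))))))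
noncomputable def ec450 : XT := (XT.nd (nat_lit 1786) (nat_lit 0) (nat_lit 0) (XT.nd (nat_lit 846) (nat_lit 0) (nat_lit 0) (XT.nd (nat_lit 376) (nat_lit 0) (nat_lit 0) (XT.nd (nat_lit 188) (nat_lit 0) (nat_lit 0) (XT.nd (nat_lit 94) (nat_lit 0) (nat_lit 0) (XT.lf (nat_lit 0) (nat_lit 1276208662659) (nat_lit 0) (nat_lit 0) (nat_lit 0) (nat_lit 0) (nat_lit 0) (nat_lit 0) (nat_lit 1) (nat_lit 0) (nat_lit 1) (nat_lit 0) (nat_lit 298) (nat_lit 452) (nat_lit 330)) (XT.lf (nat_lit 0) (nat_lit 1276200758541) (nat_lit 0) (nat_lit 0) (nat_lit 0) (nat_lit 0) (nat_lit 0) (nat_lit 0) (nat_lit 1) (nat_lit 0) (nat_lit 1) (nat_lit 0) (nat_lit 299) (nat_lit 452) (nat_lit 329))) (XT.nd (nat_lit 94) (nat_lit 0) (nat_lit 0) (XT.lf (nat_lit 0) (nat_lit 1276193439913) (nat_lit 0) (nat_lit 0) (nat_lit 0) (nat_lit 0) (nat_lit 0) (nat_lit 0) (nat_lit 1) (nat_lit 0) (nat_lit 1) (nat_lit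 0) (nat_lit 300) (nat_lit 452) (nat_lit 328)) (XT.lf (nat_lit 0) (nat_lit 1276186663405) (nat_lit 0) (nat_lit 0) (nat_lit 0) (nat_lit 0) (nat_lit 0) (nat_lit 0) (nat_lit 1) (nat_lit 0) (nat_lit 1) (nat_lit 0) (nat_lit 301) (nat_lit 452) (nat_lit 327)))) (XT.nd (nat_lit 188) (nat_lit 0) (nat_lit 0) (XT.nd (nat_lit 94) (nat_lit 0) (nat_lit 0) (XT.lf (nat_lit 0) (nat_lit 1276180388861) (nat_lit 0) (nat_lit 0) (nat_lit 0) (nat_lit 0) (nat_lit 0) (nat_lit 0) (nat_lit 1) (nat_lit 0) (nat_lit 1) (nat_lit 0) (nat_lit 302) (nat_lit 452) (nat_lit 326)) (XT.lf (nat_lit 0) (nat_lit 1276174579098) (nat_lit 0) (nat_lit 0) (nat_lit 0) (nat_lit 0) (nat_lit 0) (nat_lit 0) (nat_lit 1) (nat_lit 0) (nat_lit 1) (nat_lit 0) (nat_lit 303) (nat_lit 452) (nat_lit 325))) (XT.nd (nat_lit 94) (nat_lit 0) (nat_lit 0) (XT.lf (nat_lit 0) (nat_lit 1276169199688) (nat_lit 0) (nat_lit 0) (nat_lit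 0) (nat_lit 0) (nat_lit 0) (nat_lit 0) (nat_lit 1) (nat_lit 0) (nat_lit 1) (nat_lit 0) (nat_lit 304) (nat_lit 452) (nat_lit 324)) (XT.nd (nat_lit 94) (nat_lit 0) (nat_lit 0) (XT.lf (nat_lit 0) (nat_lit 1276164218753) (nat_lit 0) (nat_lit 0) (nat_lit 0) (nat_lit 0) (nat_lit 0) (nat_lit 0) (nat_lit 1) (nat_lit 0) (nat_lit 1) (nat_lit 0) (nat_lit 305) (nat_lit 452) (nat_lit 323)) (XT.lf (nat_lit 0) (nat_lit 1276159606775) (nat_lit 0) (nat_lit 0) (nat_lit 0) (nat_lit 0) (nat_lit 0) (nat_lit 0) (nat_lit 1) (nat_lit 0) (nat_lit 1) (nat_lit 0) (nat_lit 306) (nat_lit 452) (nat_lit 322)))))) (XT.nd (nat_lit 376) (nat_lit 0) (nat_lit 0) (XT.nd (nat_lit 188) (nat_lit 0) (nat_lit 0) (XT.nd (nat_lit 94) (nat_lit 0) (nat_lit 0) (XT.lf (nat_lit 0) (nat_lit 1276155336426) (nat_lit 0) (nat_lit 0) (nat_lit 0) (nat_lit 0) (nat_lit 0) (nat_lit 0) (nat_lit 1) (nat_lit 0) (nat_lit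 1) (nat_lit 0) (nat_lit 307) (nat_lit 452) (nat_lit 321)) (XT.lf (nat_lit 0) (nat_lit 1276151382399) (nat_lit 0) (nat_lit 0) (nat_lit 0) (nat_lit 0) (nat_lit 0) (nat_lit 0) (nat_lit 1) (nat_lit 0) (nat_lit 1) (nat_lit 0) (nat_lit 308) (nat_lit 452) (nat_lit 320))) (XT.nd (nat_lit 94) (nat_lit 0) (nat_lit 0) (XT.lf (nat_lit 0) (nat_lit 1276147721263) (nat_lit 0) (nat_lit 0) (nat_lit 0) (nat_lit 0) (nat_lit 0) (nat_lit 0) (nat_lit 1) (nat_lit 0) (nat_lit 1) (nat_lit 0) (nat_lit 309) (nat_lit 452) (nat_lit 319)) (XT.lf (nat_lit 0) (nat_lit 1276144331322) (nat_lit 0) (nat_lit 0) (nat_lit 0) (nat_lit 0) (nat_lit 0) (nat_lit 0) (nat_lit 1) (nat_lit 0) (nat_lit 1) (nat_lit 0) (nat_lit 310) (nat_lit 452) (nat_lit 318)))) (XT.nd (nat_lit 188) (nat_lit 0) (nat_lit 0) (XT.nd (nat_lit 94) (nat_lit 0) (nat_lit 0) (XT.lf (nat_lit 0) (nat_lit 1276141192488) (nat_lit 0) (nat_lit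 0) (nat_lit 0) (nat_lit 0) (nat_lit 0) (nat_lit 0) (nat_lit 1) (nat_lit 0) (nat_lit 1) (nat_lit 0) (nat_lit 311) (nat_lit 452) (nat_lit 317)) (XT.lf (nat_lit 0) (nat_lit 1276138286160) (nat_lit 0) (nat_lit 0) (nat_lit 0) (nat_lit 0) (nat_lit 0) (nat_lit 0) (nat_lit 1) (nat_lit 0) (nat_lit 1) (nat_lit 0) (nat_lit 312) (nat_lit 452) (nat_lit 316))) (XT.nd (nat_lit 188) (nat_lit 0) (nat_lit 0) (XT.lf (nat_lit 0) (nat_lit 1276135595116) (nat_lit 0) (nat_lit 0) (nat_lit 0) (nat_lit 0) (nat_lit 0) (nat_lit 0) (nat_lit 1) (nat_lit 0) (nat_lit 1) (nat_lit 0) (nat_lit 313) (nat_lit 452) (nat_lit 315)) (XT.nd (nat_lit 94) (nat_lit 0) (nat_lit 0) (XT.lf (nat_lit 0) (nat_lit 1276130796271) (nat_lit 0) (nat_lit 0) (nat_lit 0) (nat_lit 0) (nat_lit 0) (nat_lit 0) (nat_lit 1) (nat_lit 0) (nat_lit 1) (nat_lit 0) (nat_lit 315) (nat_lit 452) (nat_lit 313)) (XT.lf (nat_lit 0)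 (nat_lit 1276128660033) (nat_lit 0) (nat_lit 0) (nat_lit 0) (nat_lit 0) (nat_lit 0) (nat_lit 0) (nat_lit 1) (nat_lit 0) (nat_lit 1) (nat_lit 0) (nat_lit 316) (nat_lit 452) (nat_lit 312))))))) (XT.nd (nat_lit 846) (nat_lit 0) (nat_lit 0) (XT.nd (nat_lit 376) (nat_lit 0) (nat_lit 0) (XT.nd (nat_lit 188) (nat_lit 0) (nat_lit 0) (XT.nd (nat_lit 94) (nat_lit 0) (nat_lit 0) (XT.lf (nat_lit 0) (nat_lit 1276126682035) (nat_lit 0) (nat_lit 0) (nat_lit 0) (nat_lit 0) (nat_lit 0) (nat_lit 0) (nat_lit 1) (nat_lit 0) (nat_lit 1) (nat_lit 0) (nat_lit 317) (nat_lit 452) (nat_lit 311)) (XT.lf (nat_lit 0) (nat_lit 1276124850556) (nat_lit 0) (nat_lit 0) (nat_lit 0) (nat_lit 0) (nat_lit 0) (nat_lit 0) (nat_lit 1) (nat_lit 0) (nat_lit 1) (nat_lit 0) (nat_lit 318) (nat_lit 452) (nat_lit 310))) (XT.nd (nat_lit 94) (nat_lit 0) (nat_lit 0) (XT.lf (nat_lit 0) (nat_lit 1276123154741)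 (nat_lit 0) (nat_lit 0) (nat_lit 0) (nat_lit 0) (nat_lit 0) (nat_lit 0) (nat_lit 1) (nat_lit 0) (nat_lit 1) (nat_lit 0) (nat_lit 319) (nat_lit 452) (nat_lit 309)) (XT.lf (nat_lit 0) (nat_lit 1276121584543) (nat_lit 0) (nat_lit 0) (nat_lit 0) (nat_lit 0) (nat_lit 0) (nat_lit 0) (nat_lit 1) (nat_lit 0) (nat_lit 1) (nat_lit 0) (nat_lit 320) (nat_lit 452) (nat_lit 308)))) (XT.nd (nat_lit 188) (nat_lit 0) (nat_lit 0) (XT.nd (nat_lit 94) (nat_lit 0) (nat_lit 0) (XT.lf (nat_lit 0) (nat_lit 1276120130655) (nat_lit 0) (nat_lit 0) (nat_lit 0) (nat_lit 0) (nat_lit 0) (nat_lit 0) (nat_lit 1) (nat_lit 0) (nat_lit 1) (nat_lit 0) (nat_lit 321) (nat_lit 452) (nat_lit 307)) (XT.lf (nat_lit 0) (nat_lit 1276118784463) (nat_lit 0) (nat_lit 0) (nat_lit 0) (nat_lit 0) (nat_lit 0) (nat_lit 0) (nat_lit 1) (nat_lit 0) (nat_lit 1) (nat_lit 0) (nat_lit 322) (nat_lit 452) (nat_lit 306)))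 (XT.nd (nat_lit 94) (nat_lit 0) (nat_lit 0) (XT.lf (nat_lit 0) (nat_lit 1276117537989) (nat_lit 0) (nat_lit 0) (nat_lit 0) (nat_lit 0) (nat_lit 0) (nat_lit 0) (nat_lit 1) (nat_lit 0) (nat_lit 1) (nat_lit 0) (nat_lit 323) (nat_lit 452) (nat_lit 305)) (XT.nd (nat_lit 94) (nat_lit 0) (nat_lit 0) (XT.lf (nat_lit 0) (nat_lit 1276116383846) (nat_lit 0) (nat_lit 0) (nat_lit 0) (nat_lit 0) (nat_lit 0) (nat_lit 0) (nat_lit 1) (nat_lit 0) (nat_lit 1) (nat_lit 0) (nat_lit 324) (nat_lit 452) (nat_lit 304)) (XT.lf (nat_lit 0) (nat_lit 1276115315195) (nat_lit 0) (nat_lit 0) (nat_lit 0) (nat_lit 0) (nat_lit 0) (nat_lit 0) (nat_lit 1) (nat_lit 0) (nat_lit 1) (nat_lit 0) (nat_lit 325) (nat_lit 452) (nat_lit 303)))))) (XT.nd (nat_lit 470) (nat_lit 0) (nat_lit 0) (XT.nd (nat_lit 188) (nat_lit 0) (nat_lit 0) (XT.nd (nat_lit 94) (nat_lit 0) (nat_lit 0) (XT.lf (nat_lit 0) (nat_lit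 1276114325704) (nat_lit 0) (nat_lit 0) (nat_lit 0) (nat_lit 0) (nat_lit 0) (nat_lit 0) (nat_lit 1) (nat_lit 0) (nat_lit 1) (nat_lit 0) (nat_lit 326) (nat_lit 452) (nat_lit 302)) (XT.lf (nat_lit 0) (nat_lit 1276113409508) (nat_lit 0) (nat_lit 0) (nat_lit 0) (nat_lit 0) (nat_lit 0) (nat_lit 0) (nat_lit 1) (nat_lit 0) (nat_lit 1) (nat_lit 0) (nat_lit 327) (nat_lit 452) (nat_lit 301))) (XT.nd (nat_lit 94) (nat_lit 0) (nat_lit 0) (XT.lf (nat_lit 0) (nat_lit 1276112561179) (nat_lit 0) (nat_lit 0) (nat_lit 0) (nat_lit 0) (nat_lit 0) (nat_lit 0) (nat_lit 1) (nat_lit 0) (nat_lit 1) (nat_lit 0) (nat_lit 328) (nat_lit 452) (nat_lit 300)) (XT.nd (nat_lit 94) (nat_lit 0) (nat_lit 0) (XT.lf (nat_lit 0) (nat_lit 1276111775688) (nat_lit 0) (nat_lit 0) (nat_lit 0) (nat_lit 0) (nat_lit 0) (nat_lit 0) (nat_lit 1) (nat_lit 0) (nat_lit 1) (nat_lit 0) (nat_lit 329) (nat_lit 452)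 (nat_lit 299)) (XT.lf (nat_lit 0) (nat_lit 1276111048383) (nat_lit 0) (nat_lit 0) (nat_lit 0) (nat_lit 0) (nat_lit 0) (nat_lit 0) (nat_lit 1) (nat_lit 0) (nat_lit 1) (nat_lit 0) (nat_lit 330) (nat_lit 452) (nat_lit 298))))) (XT.nd (nat_lit 188) (nat_lit 0) (nat_lit 0) (XT.nd (nat_lit 94) (nat_lit 0) (nat_lit 0) (XT.lf (nat_lit 0) (nat_lit 1276110374951) (nat_lit 0) (nat_lit 0) (nat_lit 0) (nat_lit 0) (nat_lit 0) (nat_lit 0) (nat_lit 1) (nat_lit 0) (nat_lit 1) (nat_lit 0) (nat_lit 331) (nat_lit 452) (nat_lit 297)) (XT.lf (nat_lit 0) (nat_lit 1276109751404) (nat_lit 0) (nat_lit 0) (nat_lit 0) (nat_lit 0) (nat_lit 0) (nat_lit 0) (nat_lit 1) (nat_lit 0) (nat_lit 1) (nat_lit 0) (nat_lit 332) (nat_lit 452) (nat_lit 296))) (XT.nd (nat_lit 94) (nat_lit 0) (nat_lit 0) (XT.lf (nat_lit 0) (nat_lit 1276109174045) (nat_lit 0) (nat_lit 0) (nat_lit 0) (nat_lit 0) (nat_lit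 0) (nat_lit 0) (nat_lit 1) (nat_lit 0) (nat_lit 1) (nat_lit 0) (nat_lit 333) (nat_lit 452) (nat_lit 295)) (XT.nd (nat_lit 94) (nat_lit 0) (nat_lit 0) (XT.lf (nat_lit 0) (nat_lit 1276108639454) (nat_lit 0) (nat_lit 0) (nat_lit 0) (nat_lit 0) (nat_lit 0) (nat_lit 0) (nat_lit 1) (nat_lit 0) (nat_lit 1) (nat_lit 0) (nat_lit 334) (nat_lit 452) (nat_lit 294)) (XT.lf (nat_lit 0) (nat_lit 1276108144462) (nat_lit 0) (nat_lit 0) (nat_lit 0) (nat_lit 0) (nat_lit 0) (nat_lit 0) (nat_lit 1) (nat_lit 0) (nat_lit 1) (nat_lit 0) (nat_lit 335) (nat_lit 452) (nat_lit 293))))))))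
noncomputable def ec451 : XT := (XT.nd (nat_lit 1786) (nat_lit 0) (nat_lit 0) (XT.nd (nat_lit 846) (nat_lit 0) (nat_lit 0) (XT.nd (nat_lit 376) (nat_lit 0) (nat_lit 0) (XT.nd (nat_lit 188) (nat_lit 0) (nat_lit 0) (XT.nd (nat_lit 94) (nat_lit 0) (nat_lit 0) (XT.lf (nat_lit 0) (nat_lit 1276107686136) (nat_lit 0) (nat_lit 0) (nat_lit 0) (nat_lit 0) (nat_lit 0) (nat_lit 0) (nat_lit 1) (nat_lit 0) (nat_lit 1) (nat_lit 0) (nat_lit 336) (nat_lit 452) (nat_lit 292)) (XT.lf (nat_lit 0) (nat_lit 1276107261760) (nat_lit 0) (nat_lit 0) (nat_lit 0) (nat_lit 0) (nat_lit 0) (nat_lit 0) (nat_lit 1) (nat_lit 0) (nat_lit 1) (nat_lit 0) (nat_lit 337) (nat_lit 452) (nat_lit 291))) (XT.nd (nat_lit 94) (nat_lit 0) (nat_lit 0) (XT.lf (nat_lit 0) (nat_lit 1276106868819) (nat_lit 0) (nat_lit 0) (nat_lit 0) (nat_lit 0) (nat_lit 0) (nat_lit 0) (nat_lit 1) (nat_lit 0) (nat_lit 1) (nat_lit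 0) (nat_lit 338) (nat_lit 452) (nat_lit 290)) (XT.lf (nat_lit 0) (nat_lit 1276106504985) (nat_lit 0) (nat_lit 0) (nat_lit 0) (nat_lit 0) (nat_lit 0) (nat_lit 0) (nat_lit 1) (nat_lit 0) (nat_lit 1) (nat_lit 0) (nat_lit 339) (nat_lit 452) (nat_lit 289)))) (XT.nd (nat_lit 188) (nat_lit 0) (nat_lit 0) (XT.nd (nat_lit 94) (nat_lit 0) (nat_lit 0) (XT.lf (nat_lit 0) (nat_lit 1276106168102) (nat_lit 0) (nat_lit 0) (nat_lit 0) (nat_lit 0) (nat_lit 0) (nat_lit 0) (nat_lit 1) (nat_lit 0) (nat_lit 1) (nat_lit 0) (nat_lit 340) (nat_lit 452) (nat_lit 288)) (XT.lf (nat_lit 0) (nat_lit 1276105856173) (nat_lit 0) (nat_lit 0) (nat_lit 0) (nat_lit 0) (nat_lit 0) (nat_lit 0) (nat_lit 1) (nat_lit 0) (nat_lit 1) (nat_lit 0) (nat_lit 341) (nat_lit 452) (nat_lit 287))) (XT.nd (nat_lit 94) (nat_lit 0) (nat_lit 0) (XT.lf (nat_lit 0) (nat_lit 1276105567350) (nat_lit 0) (nat_lit 0) (nat_lit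 0) (nat_lit 0) (nat_lit 0) (nat_lit 0) (nat_lit 1) (nat_lit 0) (nat_lit 1) (nat_lit 0) (nat_lit 342) (nat_lit 452) (nat_lit 286)) (XT.nd (nat_lit 94) (nat_lit 0) (nat_lit 0) (XT.lf (nat_lit 0) (nat_lit 1276105299921) (nat_lit 0) (nat_lit 0) (nat_lit 0) (nat_lit 0) (nat_lit 0) (nat_lit 0) (nat_lit 1) (nat_lit 0) (nat_lit 1) (nat_lit 0) (nat_lit 343) (nat_lit 452) (nat_lit 285)) (XT.lf (nat_lit 0) (nat_lit 1276105052302) (nat_lit 0) (nat_lit 0) (nat_lit 0) (nat_lit 0) (nat_lit 0) (nat_lit 0) (nat_lit 1) (nat_lit 0) (nat_lit 1) (nat_lit 0) (nat_lit 344) (nat_lit 452) (nat_lit 284)))))) (XT.nd (nat_lit 470) (nat_lit 0) (nat_lit 0) (XT.nd (nat_lit 188) (nat_lit 0) (nat_lit 0) (XT.nd (nat_lit 94) (nat_lit 0) (nat_lit 0) (XT.lf (nat_lit 0) (nat_lit 1276104823025) (nat_lit 0) (nat_lit 0) (nat_lit 0) (nat_lit 0) (nat_lit 0) (nat_lit 0) (nat_lit 1) (nat_lit 0) (nat_lit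 1) (nat_lit 0) (nat_lit 345) (nat_lit 452) (nat_lit 283)) (XT.lf (nat_lit 0) (nat_lit 1276104610731) (nat_lit 0) (nat_lit 0) (nat_lit 0) (nat_lit 0) (nat_lit 0) (nat_lit 0) (nat_lit 1) (nat_lit 0) (nat_lit 1) (nat_lit 0) (nat_lit 346) (nat_lit 452) (nat_lit 282))) (XT.nd (nat_lit 94) (nat_lit 0) (nat_lit 0) (XT.lf (nat_lit 0) (nat_lit 1276104414163) (nat_lit 0) (nat_lit 0) (nat_lit 0) (nat_lit 0) (nat_lit 0) (nat_lit 0) (nat_lit 1) (nat_lit 0) (nat_lit 1) (nat_lit 0) (nat_lit 347) (nat_lit 452) (nat_lit 281)) (XT.nd (nat_lit 94) (nat_lit 0) (nat_lit 0) (XT.lf (nat_lit 0) (nat_lit 1276104232155) (nat_lit 0) (nat_lit 0) (nat_lit 0) (nat_lit 0) (nat_lit 0) (nat_lit 0) (nat_lit 1) (nat_lit 0) (nat_lit 1) (nat_lit 0) (nat_lit 348) (nat_lit 452) (nat_lit 280)) (XT.lf (nat_lit 0) (nat_lit 1276104063630) (nat_lit 0) (nat_lit 0) (nat_lit 0) (nat_lit 0) (nat_lit 0)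 (nat_lit 0) (nat_lit 1) (nat_lit 0) (nat_lit 1) (nat_lit 0) (nat_lit 349) (nat_lit 452) (nat_lit 279))))) (XT.nd (nat_lit 188) (nat_lit 0) (nat_lit 0) (XT.nd (nat_lit 94) (nat_lit 0) (nat_lit 0) (XT.lf (nat_lit 0) (nat_lit 1276103907588) (nat_lit 0) (nat_lit 0) (nat_lit 0) (nat_lit 0) (nat_lit 0) (nat_lit 0) (nat_lit 1) (nat_lit 0) (nat_lit 1) (nat_lit 0) (nat_lit 350) (nat_lit 452) (nat_lit 278)) (XT.lf (nat_lit 0) (nat_lit 1276103763104) (nat_lit 0) (nat_lit 0) (nat_lit 0) (nat_lit 0) (nat_lit 0) (nat_lit 0) (nat_lit 1) (nat_lit 0) (nat_lit 1) (nat_lit 0) (nat_lit 351) (nat_lit 452) (nat_lit 277))) (XT.nd (nat_lit 94) (nat_lit 0) (nat_lit 0) (XT.lf (nat_lit 0) (nat_lit 1276103629323) (nat_lit 0) (nat_lit 0) (nat_lit 0) (nat_lit 0) (nat_lit 0) (nat_lit 0) (nat_lit 1) (nat_lit 0) (nat_lit 1) (nat_lit 0) (nat_lit 352) (nat_lit 452) (nat_lit 276)) (XT.nd (nat_lit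 94) (nat_lit 0) (nat_lit 0) (XT.lf (nat_lit 0) (nat_lit 1276103505452) (nat_lit 0) (nat_lit 0) (nat_lit 0) (nat_lit 0) (nat_lit 0) (nat_lit 0) (nat_lit 1) (nat_lit 0) (nat_lit 1) (nat_lit 0) (nat_lit 353) (nat_lit 452) (nat_lit 275)) (XT.lf (nat_lit 0) (nat_lit 1276103390756) (nat_lit 0) (nat_lit 0) (nat_lit 0) (nat_lit 0) (nat_lit 0) (nat_lit 0) (nat_lit 1) (nat_lit 0) (nat_lit 1) (nat_lit 0) (nat_lit 354) (nat_lit 452) (nat_lit 274))))))) (XT.nd (nat_lit 846) (nat_lit 0) (nat_lit 0) (XT.nd (nat_lit 376) (nat_lit 0) (nat_lit 0) (XT.nd (nat_lit 188) (nat_lit 0) (nat_lit 0) (XT.nd (nat_lit 94) (nat_lit 0) (nat_lit 0) (XT.lf (nat_lit 0) (nat_lit 1276103284557) (nat_lit 0) (nat_lit 0) (nat_lit 0) (nat_lit 0) (nat_lit 0) (nat_lit 0) (nat_lit 1) (nat_lit 0) (nat_lit 1) (nat_lit 0) (nat_lit 355) (nat_lit 452) (nat_lit 273)) (XT.lf (nat_lit 0) (nat_lit 1276103186224)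 (nat_lit 0) (nat_lit 0) (nat_lit 0) (nat_lit 0) (nat_lit 0) (nat_lit 0) (nat_lit 1) (nat_lit 0) (nat_lit 1) (nat_lit 0) (nat_lit 356) (nat_lit 452) (nat_lit 272))) (XT.nd (nat_lit 94) (nat_lit 0) (nat_lit 0) (XT.lf (nat_lit 0) (nat_lit 1276103095175) (nat_lit 0) (nat_lit 0) (nat_lit 0) (nat_lit 0) (nat_lit 0) (nat_lit 0) (nat_lit 1) (nat_lit 0) (nat_lit 1) (nat_lit 0) (nat_lit 357) (nat_lit 452) (nat_lit 271)) (XT.lf (nat_lit 0) (nat_lit 1276103010870) (nat_lit 0) (nat_lit 0) (nat_lit 0) (nat_lit 0) (nat_lit 0) (nat_lit 0) (nat_lit 1) (nat_lit 0) (nat_lit 1) (nat_lit 0) (nat_lit 358) (nat_lit 452) (nat_lit 270)))) (XT.nd (nat_lit 188) (nat_lit 0) (nat_lit 0) (XT.nd (nat_lit 94) (nat_lit 0) (nat_lit 0) (XT.lf (nat_lit 0) (nat_lit 1276102932810) (nat_lit 0) (nat_lit 0) (nat_lit 0) (nat_lit 0) (nat_lit 0) (nat_lit 0) (nat_lit 1) (nat_lit 0) (nat_lit 1) (nat_lit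 0) (nat_lit 359) (nat_lit 452) (nat_lit 269)) (XT.lf (nat_lit 0) (nat_lit 1276102860532) (nat_lit 0) (nat_lit 0) (nat_lit 0) (nat_lit 0) (nat_lit 0) (nat_lit 0) (nat_lit 1) (nat_lit 0) (nat_lit 1) (nat_lit 0) (nat_lit 360) (nat_lit 452) (nat_lit 268))) (XT.nd (nat_lit 94) (nat_lit 0) (nat_lit 0) (XT.lf (nat_lit 0) (nat_lit 1276102793608) (nat_lit 0) (nat_lit 0) (nat_lit 0) (nat_lit 0) (nat_lit 0) (nat_lit 0) (nat_lit 1) (nat_lit 0) (nat_lit 1) (nat_lit 0) (nat_lit 361) (nat_lit 452) (nat_lit 267)) (XT.nd (nat_lit 94) (nat_lit 0) (nat_lit 0) (XT.lf (nat_lit 0) (nat_lit 1276102731642) (nat_lit 0) (nat_lit 0) (nat_lit 0) (nat_lit 0) (nat_lit 0) (nat_lit 0) (nat_lit 1) (nat_lit 0) (nat_lit 1) (nat_lit 0) (nat_lit 362) (nat_lit 452) (nat_lit 266)) (XT.lf (nat_lit 0) (nat_lit 1276102674266) (nat_lit 0) (nat_lit 0) (nat_lit 0) (nat_lit 0) (nat_lit 0) (nat_lit 0)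 (nat_lit 1) (nat_lit 0) (nat_lit 1) (nat_lit 0) (nat_lit 363) (nat_lit 452) (nat_lit 265)))))) (XT.nd (nat_lit 470) (nat_lit 0) (nat_lit 0) (XT.nd (nat_lit 188) (nat_lit 0) (nat_lit 0) (XT.nd (nat_lit 94) (nat_lit 0) (nat_lit 0) (XT.lf (nat_lit 0) (nat_lit 1276102621139) (nat_lit 0) (nat_lit 0) (nat_lit 0) (nat_lit 0) (nat_lit 0) (nat_lit 0) (nat_lit 1) (nat_lit 0) (nat_lit 1) (nat_lit 0) (nat_lit 364) (nat_lit 452) (nat_lit 264)) (XT.lf (nat_lit 0) (nat_lit 1276102571948) (nat_lit 0) (nat_lit 0) (nat_lit 0) (nat_lit 0) (nat_lit 0) (nat_lit 0) (nat_lit 1) (nat_lit 0) (nat_lit 1) (nat_lit 0) (nat_lit 365) (nat_lit 452) (nat_lit 263))) (XT.nd (nat_lit 94) (nat_lit 0) (nat_lit 0) (XT.lf (nat_lit 0) (nat_lit 1276102526401) (nat_lit 0) (nat_lit 0) (nat_lit 0) (nat_lit 0) (nat_lit 0) (nat_lit 0) (nat_lit 1) (nat_lit 0) (nat_lit 1) (nat_lit 0) (nat_lit 366) (nat_lit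 452) (nat_lit 262)) (XT.nd (nat_lit 94) (nat_lit 0) (nat_lit 0) (XT.lf (nat_lit 0) (nat_lit 1276102484228) (nat_lit 0) (nat_lit 0) (nat_lit 0) (nat_lit 0) (nat_lit 0) (nat_lit 0) (nat_lit 1) (nat_lit 0) (nat_lit 1) (nat_lit 0) (nat_lit 367) (nat_lit 452) (nat_lit 261)) (XT.lf (nat_lit 0) (nat_lit 1276102445178) (nat_lit 0) (nat_lit 0) (nat_lit 0) (nat_lit 0) (nat_lit 0) (nat_lit 0) (nat_lit 1) (nat_lit 0) (nat_lit 1) (nat_lit 0) (nat_lit 368) (nat_lit 452) (nat_lit 260))))) (XT.nd (nat_lit 188) (nat_lit 0) (nat_lit 0) (XT.nd (nat_lit 94) (nat_lit 0) (nat_lit 0) (XT.lf (nat_lit 0) (nat_lit 1276102409022) (nat_lit 0) (nat_lit 0) (nat_lit 0) (nat_lit 0) (nat_lit 0) (nat_lit 0) (nat_lit 1) (nat_lit 0) (nat_lit 1) (nat_lit 0) (nat_lit 369) (nat_lit 452) (nat_lit 259)) (XT.lf (nat_lit 0) (nat_lit 1276102375543) (nat_lit 0) (nat_lit 0) (nat_lit 0) (nat_lit 0) (nat_lit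 0) (nat_lit 0) (nat_lit 1) (nat_lit 0) (nat_lit 1) (nat_lit 0) (nat_lit 370) (nat_lit 452) (nat_lit 258))) (XT.nd (nat_lit 94) (nat_lit 0) (nat_lit 0) (XT.lf (nat_lit 0) (nat_lit 1276102344544) (nat_lit 0) (nat_lit 0) (nat_lit 0) (nat_lit 0) (nat_lit 0) (nat_lit 0) (nat_lit 1) (nat_lit 0) (nat_lit 1) (nat_lit 0) (nat_lit 371) (nat_lit 452) (nat_lit 257)) (XT.nd (nat_lit 94) (nat_lit 0) (nat_lit 0) (XT.lf (nat_lit 0) (nat_lit 1276102315842) (nat_lit 0) (nat_lit 0) (nat_lit 0) (nat_lit 0) (nat_lit 0) (nat_lit 0) (nat_lit 1) (nat_lit 0) (nat_lit 1) (nat_lit 0) (nat_lit 372) (nat_lit 452) (nat_lit 256)) (XT.lf (nat_lit 0) (nat_lit 1276102289265) (nat_lit 0) (nat_lit 0) (nat_lit 0) (nat_lit 0) (nat_lit 0) (nat_lit 0) (nat_lit 1) (nat_lit 0) (nat_lit 1) (nat_lit 0) (nat_lit 373) (nat_lit 452) (nat_lit 255))))))))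
noncomputable def ec452 : XT := (XT.nd (nat_lit 1692) (nat_lit 0) (nat_lit 0) (XT.nd (nat_lit 846) (nat_lit 0) (nat_lit 0) (XT.nd (nat_lit 376) (nat_lit 0) (nat_lit 0) (XT.nd (nat_lit 188) (nat_lit 0) (nat_lit 0) (XT.nd (nat_lit 94) (nat_lit 0) (nat_lit 0) (XT.lf (nat_lit 0) (nat_lit 1276102264658) (nat_lit 0) (nat_lit 0) (nat_lit 0) (nat_lit 0) (nat_lit 0) (nat_lit 0) (nat_lit 1) (nat_lit 0) (nat_lit 1) (nat_lit 0) (nat_lit 374) (nat_lit 452) (nat_lit 254)) (XT.lf (nat_lit 0) (nat_lit 1276102241873) (nat_lit 0) (nat_lit 0) (nat_lit 0) (nat_lit 0) (nat_lit 0) (nat_lit 0) (nat_lit 1) (nat_lit 0) (nat_lit 1) (nat_lit 0) (nat_lit 375) (nat_lit 452) (nat_lit 253))) (XT.nd (nat_lit 94) (nat_lit 0) (nat_lit 0) (XT.lf (nat_lit 0) (nat_lit 1276102220776) (nat_lit 0) (nat_lit 0) (nat_lit 0) (nat_lit 0) (nat_lit 0) (nat_lit 0) (nat_lit 1) (nat_lit 0) (nat_lit 1) (nat_lit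 0) (nat_lit 376) (nat_lit 452) (nat_lit 252)) (XT.lf (nat_lit 0) (nat_lit 1276102201241) (nat_lit 0) (nat_lit 0) (nat_lit 0) (nat_lit 0) (nat_lit 0) (nat_lit 0) (nat_lit 1) (nat_lit 0) (nat_lit 1) (nat_lit 0) (nat_lit 377) (nat_lit 452) (nat_lit 251)))) (XT.nd (nat_lit 188) (nat_lit 0) (nat_lit 0) (XT.nd (nat_lit 94) (nat_lit 0) (nat_lit 0) (XT.lf (nat_lit 0) (nat_lit 1276102183154) (nat_lit 0) (nat_lit 0) (nat_lit 0) (nat_lit 0) (nat_lit 0) (nat_lit 0) (nat_lit 1) (nat_lit 0) (nat_lit 1) (nat_lit 0) (nat_lit 378) (nat_lit 452) (nat_lit 250)) (XT.lf (nat_lit 0) (nat_lit 1276102166406) (nat_lit 0) (nat_lit 0) (nat_lit 0) (nat_lit 0) (nat_lit 0) (nat_lit 0) (nat_lit 1) (nat_lit 0) (nat_lit 1) (nat_lit 0) (nat_lit 379) (nat_lit 452) (nat_lit 249))) (XT.nd (nat_lit 94) (nat_lit 0) (nat_lit 0) (XT.lf (nat_lit 0) (nat_lit 1276102150899) (nat_lit 0) (nat_lit 0) (nat_lit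 0) (nat_lit 0) (nat_lit 0) (nat_lit 0) (nat_lit 1) (nat_lit 0) (nat_lit 1) (nat_lit 0) (nat_lit 380) (nat_lit 452) (nat_lit 248)) (XT.nd (nat_lit 94) (nat_lit 0) (nat_lit 0) (XT.lf (nat_lit 0) (nat_lit 1276102136541) (nat_lit 0) (nat_lit 0) (nat_lit 0) (nat_lit 0) (nat_lit 0) (nat_lit 0) (nat_lit 1) (nat_lit 0) (nat_lit 1) (nat_lit 0) (nat_lit 381) (nat_lit 452) (nat_lit 247)) (XT.lf (nat_lit 0) (nat_lit 1276102123246) (nat_lit 0) (nat_lit 0) (nat_lit 0) (nat_lit 0) (nat_lit 0) (nat_lit 0) (nat_lit 1) (nat_lit 0) (nat_lit 1) (nat_lit 0) (nat_lit 382) (nat_lit 452) (nat_lit 246)))))) (XT.nd (nat_lit 376) (nat_lit 0) (nat_lit 0) (XT.nd (nat_lit 188) (nat_lit 0) (nat_lit 0) (XT.nd (nat_lit 94) (nat_lit 0) (nat_lit 0) (XT.lf (nat_lit 0) (nat_lit 1276102110936) (nat_lit 0) (nat_lit 0) (nat_lit 0) (nat_lit 0) (nat_lit 0) (nat_lit 0) (nat_lit 1) (nat_lit 0) (nat_lit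 1) (nat_lit 0) (nat_lit 383) (nat_lit 452) (nat_lit 245)) (XT.lf (nat_lit 0) (nat_lit 1276102099538) (nat_lit 0) (nat_lit 0) (nat_lit 0) (nat_lit 0) (nat_lit 0) (nat_lit 0) (nat_lit 1) (nat_lit 0) (nat_lit 1) (nat_lit 0) (nat_lit 384) (nat_lit 452) (nat_lit 244))) (XT.nd (nat_lit 94) (nat_lit 0) (nat_lit 0) (XT.lf (nat_lit 0) (nat_lit 1276102088984) (nat_lit 0) (nat_lit 0) (nat_lit 0) (nat_lit 0) (nat_lit 0) (nat_lit 0) (nat_lit 1) (nat_lit 0) (nat_lit 1) (nat_lit 0) (nat_lit 385) (nat_lit 452) (nat_lit 243)) (XT.lf (nat_lit 0) (nat_lit 1276102079212) (nat_lit 0) (nat_lit 0) (nat_lit 0) (nat_lit 0) (nat_lit 0) (nat_lit 0) (nat_lit 1) (nat_lit 0) (nat_lit 1) (nat_lit 0) (nat_lit 386) (nat_lit 452) (nat_lit 242)))) (XT.nd (nat_lit 188) (nat_lit 0) (nat_lit 0) (XT.nd (nat_lit 94) (nat_lit 0) (nat_lit 0) (XT.lf (nat_lit 0) (nat_lit 1276102070164) (nat_lit 0) (nat_lit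 0) (nat_lit 0) (nat_lit 0) (nat_lit 0) (nat_lit 0) (nat_lit 1) (nat_lit 0) (nat_lit 1) (nat_lit 0) (nat_lit 387) (nat_lit 452) (nat_lit 241)) (XT.lf (nat_lit 0) (nat_lit 1276102061786) (nat_lit 0) (nat_lit 0) (nat_lit 0) (nat_lit 0) (nat_lit 0) (nat_lit 0) (nat_lit 1) (nat_lit 0) (nat_lit 1) (nat_lit 0) (nat_lit 388) (nat_lit 452) (nat_lit 240))) (XT.nd (nat_lit 94) (nat_lit 0) (nat_lit 0) (XT.lf (nat_lit 0) (nat_lit 1276102054028) (nat_lit 0) (nat_lit 0) (nat_lit 0) (nat_lit 0) (nat_lit 0) (nat_lit 0) (nat_lit 1) (nat_lit 0) (nat_lit 1) (nat_lit 0) (nat_lit 389) (nat_lit 452) (nat_lit 239)) (XT.nd (nat_lit 94) (nat_lit 0) (nat_lit 0) (XT.lf (nat_lit 0) (nat_lit 1276102046845) (nat_lit 0) (nat_lit 0) (nat_lit 0) (nat_lit 0) (nat_lit 0) (nat_lit 0) (nat_lit 1) (nat_lit 0) (nat_lit 1) (nat_lit 0) (nat_lit 390) (nat_lit 452) (nat_lit 238)) (XT.lf (nat_lit 0)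 (nat_lit 1276102040195) (nat_lit 0) (nat_lit 0) (nat_lit 0) (nat_lit 0) (nat_lit 0) (nat_lit 0) (nat_lit 1) (nat_lit 0) (nat_lit 1) (nat_lit 0) (nat_lit 391) (nat_lit 452) (nat_lit 237))))))) (XT.nd (nat_lit 846) (nat_lit 0) (nat_lit 0) (XT.nd (nat_lit 376) (nat_lit 0) (nat_lit 0) (XT.nd (nat_lit 188) (nat_lit 0) (nat_lit 0) (XT.nd (nat_lit 94) (nat_lit 0) (nat_lit 0) (XT.lf (nat_lit 0) (nat_lit 1276102034037) (nat_lit 0) (nat_lit 0) (nat_lit 0) (nat_lit 0) (nat_lit 0) (nat_lit 0) (nat_lit 1) (nat_lit 0) (nat_lit 1) (nat_lit 0) (nat_lit 392) (nat_lit 452) (nat_lit 236)) (XT.lf (nat_lit 0) (nat_lit 1276102028335) (nat_lit 0) (nat_lit 0) (nat_lit 0) (nat_lit 0) (nat_lit 0) (nat_lit 0) (nat_lit 1) (nat_lit 0) (nat_lit 1) (nat_lit 0) (nat_lit 393) (nat_lit 452) (nat_lit 235))) (XT.nd (nat_lit 94) (nat_lit 0) (nat_lit 0) (XT.lf (nat_lit 0) (nat_lit 1276102023055)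 (nat_lit 0) (nat_lit 0) (nat_lit 0) (nat_lit 0) (nat_lit 0) (nat_lit 0) (nat_lit 1) (nat_lit 0) (nat_lit 1) (nat_lit 0) (nat_lit 394) (nat_lit 452) (nat_lit 234)) (XT.lf (nat_lit 0) (nat_lit 1276102018167) (nat_lit 0) (nat_lit 0) (nat_lit 0) (nat_lit 0) (nat_lit 0) (nat_lit 0) (nat_lit 1) (nat_lit 0) (nat_lit 1) (nat_lit 0) (nat_lit 395) (nat_lit 452) (nat_lit 233)))) (XT.nd (nat_lit 188) (nat_lit 0) (nat_lit 0) (XT.nd (nat_lit 94) (nat_lit 0) (nat_lit 0) (XT.lf (nat_lit 0) (nat_lit 1276102013640) (nat_lit 0) (nat_lit 0) (nat_lit 0) (nat_lit 0) (nat_lit 0) (nat_lit 0) (nat_lit 1) (nat_lit 0) (nat_lit 1) (nat_lit 0) (nat_lit 396) (nat_lit 452) (nat_lit 232)) (XT.lf (nat_lit 0) (nat_lit 1276102009449) (nat_lit 0) (nat_lit 0) (nat_lit 0) (nat_lit 0) (nat_lit 0) (nat_lit 0) (nat_lit 1) (nat_lit 0) (nat_lit 1) (nat_lit 0) (nat_lit 397) (nat_lit 452) (nat_lit 231)))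 (XT.nd (nat_lit 94) (nat_lit 0) (nat_lit 0) (XT.lf (nat_lit 0) (nat_lit 1276102005569) (nat_lit 0) (nat_lit 0) (nat_lit 0) (nat_lit 0) (nat_lit 0) (nat_lit 0) (nat_lit 1) (nat_lit 0) (nat_lit 1) (nat_lit 0) (nat_lit 398) (nat_lit 452) (nat_lit 230)) (XT.nd (nat_lit 94) (nat_lit 0) (nat_lit 0) (XT.lf (nat_lit 0) (nat_lit 1276102001976) (nat_lit 0) (nat_lit 0) (nat_lit 0) (nat_lit 0) (nat_lit 0) (nat_lit 0) (nat_lit 1) (nat_lit 0) (nat_lit 1) (nat_lit 0) (nat_lit 399) (nat_lit 452) (nat_lit 229)) (XT.lf (nat_lit 0) (nat_lit 1276101998649) (nat_lit 0) (nat_lit 0) (nat_lit 0) (nat_lit 0) (nat_lit 0) (nat_lit 0) (nat_lit 1) (nat_lit 0) (nat_lit 1) (nat_lit 0) (nat_lit 400) (nat_lit 452) (nat_lit 228)))))) (XT.nd (nat_lit 470) (nat_lit 0) (nat_lit 0) (XT.nd (nat_lit 188) (nat_lit 0) (nat_lit 0) (XT.nd (nat_lit 94) (nat_lit 0) (nat_lit 0) (XT.lf (nat_lit 0) (nat_lit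 1276101995568) (nat_lit 0) (nat_lit 0) (nat_lit 0) (nat_lit 0) (nat_lit 0) (nat_lit 0) (nat_lit 1) (nat_lit 0) (nat_lit 1) (nat_lit 0) (nat_lit 401) (nat_lit 452) (nat_lit 227)) (XT.lf (nat_lit 0) (nat_lit 1276101992716) (nat_lit 0) (nat_lit 0) (nat_lit 0) (nat_lit 0) (nat_lit 0) (nat_lit 0) (nat_lit 1) (nat_lit 0) (nat_lit 1) (nat_lit 0) (nat_lit 402) (nat_lit 452) (nat_lit 226))) (XT.nd (nat_lit 94) (nat_lit 0) (nat_lit 0) (XT.lf (nat_lit 0) (nat_lit 1276101990075) (nat_lit 0) (nat_lit 0) (nat_lit 0) (nat_lit 0) (nat_lit 0) (nat_lit 0) (nat_lit 1) (nat_lit 0) (nat_lit 1) (nat_lit 0) (nat_lit 403) (nat_lit 452) (nat_lit 225)) (XT.nd (nat_lit 94) (nat_lit 0) (nat_lit 0) (XT.lf (nat_lit 0) (nat_lit 1276101987629) (nat_lit 0) (nat_lit 0) (nat_lit 0) (nat_lit 0) (nat_lit 0) (nat_lit 0) (nat_lit 1) (nat_lit 0) (nat_lit 1) (nat_lit 0) (nat_lit 404) (nat_lit 452)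 (nat_lit 224)) (XT.lf (nat_lit 0) (nat_lit 1276101985365) (nat_lit 0) (nat_lit 0) (nat_lit 0) (nat_lit 0) (nat_lit 0) (nat_lit 0) (nat_lit 1) (nat_lit 0) (nat_lit 1) (nat_lit 0) (nat_lit 405) (nat_lit 452) (nat_lit 223))))) (XT.nd (nat_lit 188) (nat_lit 0) (nat_lit 0) (XT.nd (nat_lit 94) (nat_lit 0) (nat_lit 0) (XT.lf (nat_lit 0) (nat_lit 1276101983268) (nat_lit 0) (nat_lit 0) (nat_lit 0) (nat_lit 0) (nat_lit 0) (nat_lit 0) (nat_lit 1) (nat_lit 0) (nat_lit 1) (nat_lit 0) (nat_lit 406) (nat_lit 452) (nat_lit 222)) (XT.lf (nat_lit 0) (nat_lit 1276101981327) (nat_lit 0) (nat_lit 0) (nat_lit 0) (nat_lit 0) (nat_lit 0) (nat_lit 0) (nat_lit 1) (nat_lit 0) (nat_lit 1) (nat_lit 0) (nat_lit 407) (nat_lit 452) (nat_lit 221))) (XT.nd (nat_lit 94) (nat_lit 0) (nat_lit 0) (XT.lf (nat_lit 0) (nat_lit 1276101979529) (nat_lit 0) (nat_lit 0) (nat_lit 0) (nat_lit 0) (nat_lit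 0) (nat_lit 0) (nat_lit 1) (nat_lit 0) (nat_lit 1) (nat_lit 0) (nat_lit 408) (nat_lit 452) (nat_lit 220)) (XT.nd (nat_lit 94) (nat_lit 0) (nat_lit 0) (XT.lf (nat_lit 0) (nat_lit 1276101977865) (nat_lit 0) (nat_lit 0) (nat_lit 0) (nat_lit 0) (nat_lit 0) (nat_lit 0) (nat_lit 1) (nat_lit 0) (nat_lit 1) (nat_lit 0) (nat_lit 409) (nat_lit 452) (nat_lit 219)) (XT.lf (nat_lit 0) (nat_lit 1276101976324) (nat_lit 0) (nat_lit 0) (nat_lit 0) (nat_lit 0) (nat_lit 0) (nat_lit 0) (nat_lit 1) (nat_lit 0) (nat_lit 1) (nat_lit 0) (nat_lit 410) (nat_lit 452) (nat_lit 218))))))))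
noncomputable def ec453 : XT := (XT.nd (nat_lit 45778) (nat_lit 0) (nat_lit 756) (XT.nd (nat_lit 3572) (nat_lit 0) (nat_lit 0) (XT.nd (nat_lit 376) (nat_lit 0) (nat_lit 0) (XT.nd (nat_lit 188) (nat_lit 0) (nat_lit 0) (XT.nd (nat_lit 94) (nat_lit 0) (nat_lit 0) (XT.lf (nat_lit 0) (nat_lit 1276101974897) (nat_lit 0) (nat_lit 0) (nat_lit 0) (nat_lit 0) (nat_lit 0) (nat_lit 0) (nat_lit 1) (nat_lit 0) (nat_lit 1) (nat_lit 0) (nat_lit 411) (nat_lit 452) (nat_lit 217)) (XT.lf (nat_lit 0) (nat_lit 1276101973576) (nat_lit 0) (nat_lit 0) (nat_lit 0) (nat_lit 0) (nat_lit 0) (nat_lit 0) (nat_lit 1) (nat_lit 0) (nat_lit 1) (nat_lit 0) (nat_lit 412) (nat_lit 452) (nat_lit 216))) (XT.nd (nat_lit 94) (nat_lit 0) (nat_lit 0) (XT.lf (nat_lit 0) (nat_lit 1276101972353) (nat_lit 0) (nat_lit 0) (nat_lit 0) (nat_lit 0) (nat_lit 0) (nat_lit 0) (nat_lit 1) (nat_lit 0) (nat_lit 1)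 (nat_lit 0) (nat_lit 413) (nat_lit 452) (nat_lit 215)) (XT.lf (nat_lit 0) (nat_lit 1276101971220) (nat_lit 0) (nat_lit 0) (nat_lit 0) (nat_lit 0) (nat_lit 0) (nat_lit 0) (nat_lit 1) (nat_lit 0) (nat_lit 1) (nat_lit 0) (nat_lit 414) (nat_lit 452) (nat_lit 214)))) (XT.nd (nat_lit 188) (nat_lit 0) (nat_lit 0) (XT.nd (nat_lit 94) (nat_lit 0) (nat_lit 0) (XT.lf (nat_lit 0) (nat_lit 1276101970171) (nat_lit 0) (nat_lit 0) (nat_lit 0) (nat_lit 0) (nat_lit 0) (nat_lit 0) (nat_lit 1) (nat_lit 0) (nat_lit 1) (nat_lit 0) (nat_lit 415) (nat_lit 452) (nat_lit 213)) (XT.lf (nat_lit 0) (nat_lit 1276101969200) (nat_lit 0) (nat_lit 0) (nat_lit 0) (nat_lit 0) (nat_lit 0) (nat_lit 0) (nat_lit 1) (nat_lit 0) (nat_lit 1) (nat_lit 0) (nat_lit 416) (nat_lit 452) (nat_lit 212))) (XT.nd (nat_lit 94) (nat_lit 0) (nat_lit 0) (XT.lf (nat_lit 0) (nat_lit 1276101968301) (nat_lit 0) (nat_lit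 0) (nat_lit 0) (nat_lit 0) (nat_lit 0) (nat_lit 0) (nat_lit 1) (nat_lit 0) (nat_lit 1) (nat_lit 0) (nat_lit 417) (nat_lit 452) (nat_lit 211)) (XT.nd (nat_lit 2820) (nat_lit 0) (nat_lit 0) (XT.lf (nat_lit 0) (nat_lit 1276101967468) (nat_lit 0) (nat_lit 0) (nat_lit 0) (nat_lit 0) (nat_lit 0) (nat_lit 0) (nat_lit 1) (nat_lit 0) (nat_lit 1) (nat_lit 0) (nat_lit 418) (nat_lit 452) (nat_lit 210)) (XT.lf (nat_lit 0) (nat_lit 1276101958095) (nat_lit 0) (nat_lit 0) (nat_lit 0) (nat_lit 0) (nat_lit 0) (nat_lit 0) (nat_lit 1) (nat_lit 0) (nat_lit 1) (nat_lit 0) (nat_lit 448) (nat_lit 452) (nat_lit 180)))))) (XT.nd (nat_lit 470) (nat_lit 0) (nat_lit 0) (XT.nd (nat_lit 188) (nat_lit 0) (nat_lit 0) (XT.nd (nat_lit 94) (nat_lit 0) (nat_lit 0) (XT.lf (nat_lit 0) (nat_lit 1276101958019) (nat_lit 0) (nat_lit 0) (nat_lit 0) (nat_lit 0) (nat_lit 0) (nat_lit 0) (nat_lit 1) (nat_lit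 0) (nat_lit 1) (nat_lit 0) (nat_lit 449) (nat_lit 452) (nat_lit 179)) (XT.lf (nat_lit 0) (nat_lit 1276101957948) (nat_lit 0) (nat_lit 0) (nat_lit 0) (nat_lit 0) (nat_lit 0) (nat_lit 0) (nat_lit 1) (nat_lit 0) (nat_lit 1) (nat_lit 0) (nat_lit 450) (nat_lit 452) (nat_lit 178))) (XT.nd (nat_lit 94) (nat_lit 0) (nat_lit 0) (XT.lf (nat_lit 0) (nat_lit 1276101957882) (nat_lit 0) (nat_lit 0) (nat_lit 0) (nat_lit 0) (nat_lit 0) (nat_lit 0) (nat_lit 1) (nat_lit 0) (nat_lit 1) (nat_lit 0) (nat_lit 451) (nat_lit 452) (nat_lit 177)) (XT.nd (nat_lit 94) (nat_lit 0) (nat_lit 0) (XT.lf (nat_lit 0) (nat_lit 1276101957821) (nat_lit 0) (nat_lit 0) (nat_lit 0) (nat_lit 0) (nat_lit 0) (nat_lit 0) (nat_lit 1) (nat_lit 0) (nat_lit 1) (nat_lit 0) (nat_lit 452) (nat_lit 452) (nat_lit 176)) (XT.lf (nat_lit 0) (nat_lit 1276101957765) (nat_lit 0) (nat_lit 0) (nat_lit 0) (nat_lit 0)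 (nat_lit 0) (nat_lit 0) (nat_lit 1) (nat_lit 0) (nat_lit 1) (nat_lit 0) (nat_lit 453) (nat_lit 452) (nat_lit 175))))) (XT.nd (nat_lit 41454) (nat_lit 0) (nat_lit 10752) (XT.nd (nat_lit 94) (nat_lit 0) (nat_lit 0) (XT.lf (nat_lit 0) (nat_lit 1276101957713) (nat_lit 0) (nat_lit 0) (nat_lit 0) (nat_lit 0) (nat_lit 0) (nat_lit 0) (nat_lit 1) (nat_lit 0) (nat_lit 1) (nat_lit 0) (nat_lit 454) (nat_lit 452) (nat_lit 174)) (XT.lf (nat_lit 0) (nat_lit 1276101957664) (nat_lit 0) (nat_lit 0) (nat_lit 0) (nat_lit 0) (nat_lit 0) (nat_lit 0) (nat_lit 1) (nat_lit 0) (nat_lit 1) (nat_lit 0) (nat_lit 455) (nat_lit 452) (nat_lit 173))) (XT.nd (nat_lit 94) (nat_lit 0) (nat_lit 84) (XT.lf (nat_lit 924) (nat_lit 689697956553) (nat_lit 0) (nat_lit 1224557136526) (nat_lit 924) (nat_lit 689697956553) (nat_lit 139) (nat_lit 1) (nat_lit 128) (nat_lit 0) (nat_lit 139) (nat_lit 0) (nat_lit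 174) (nat_lit 453) (nat_lit 453)) (XT.nd (nat_lit 94) (nat_lit 0) (nat_lit 0) (XT.lf (nat_lit 924) (nat_lit 257278500580) (nat_lit 0) (nat_lit 2404176793211) (nat_lit 840) (nat_lit 2351276871582) (nat_lit 140) (nat_lit 1) (nat_lit 129) (nat_lit 1) (nat_lit 139) (nat_lit 1) (nat_lit 175) (nat_lit 453) (nat_lit 452)) (XT.lf (nat_lit 924) (nat_lit 2362954524537) (nat_lit 84) (nat_lit 1610078008807) (nat_lit 0) (nat_lit 853911930390) (nat_lit 140) (nat_lit 1) (nat_lit 130) (nat_lit 1) (nat_lit 129) (nat_lit 1) (nat_lit 176) (nat_lit 453) (nat_lit 451))))))) (XT.nd (nat_lit 3760) (nat_lit 1260) (nat_lit 0) (XT.nd (nat_lit 3290) (nat_lit 672) (nat_lit 0) (XT.nd (nat_lit 3102) (nat_lit 8232) (nat_lit 0) (XT.nd (nat_lit 94) (nat_lit 0) (nat_lit 84) (XT.lf (nat_lit 924) (nat_lit 2041786285222) (nat_lit 84) (nat_lit 674772533485) (nat_lit 0) (nat_lit 1933895231216)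 (nat_lit 141) (nat_lit 1) (nat_lit 131) (nat_lit 1) (nat_lit 130) (nat_lit 1) (nat_lit 177) (nat_lit 453) (nat_lit 450)) (XT.lf (nat_lit 924) (nat_lit 1511095437706) (nat_lit 0) (nat_lit 2827188137558) (nat_lit 840) (nat_lit 144525453668) (nat_lit 142) (nat_lit 1) (nat_lit 131) (nat_lit 1) (nat_lit 141) (nat_lit 1) (nat_lit 178) (nat_lit 453) (nat_lit 449))) (XT.nd (nat_lit 94) (nat_lit 252) (nat_lit 0) (XT.lf (nat_lit 168) (nat_lit 403158255325) (nat_lit 0) (nat_lit 455619869759) (nat_lit 84) (nat_lit 816282344298) (nat_lit 37) (nat_lit 1) (nat_lit 35) (nat_lit 1) (nat_lit 36) (nat_lit 1) (nat_lit 210) (nat_lit 453) (nat_lit 417)) (XT.lf (nat_lit 84) (nat_lit 116367516704) (nat_lit 0) (nat_lit 365246615864) (nat_lit 252) (nat_lit 1148757373155) (nat_lit 33) (nat_lit 1) (nat_lit 32) (nat_lit 1) (nat_lit 35) (nat_lit 1) (nat_lit 211) (nat_lit 453) (nat_lit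 416)))) (XT.nd (nat_lit 188) (nat_lit 336) (nat_lit 0) (XT.nd (nat_lit 94) (nat_lit 252) (nat_lit 0) (XT.lf (nat_lit 168) (nat_lit 483826280436) (nat_lit 0) (nat_lit 504124051369) (nat_lit 84) (nat_lit 598842033163) (nat_lit 33) (nat_lit 1) (nat_lit 31) (nat_lit 1) (nat_lit 32) (nat_lit 1) (nat_lit 212) (nat_lit 453) (nat_lit 415)) (XT.lf (nat_lit 84) (nat_lit 270627514366) (nat_lit 0) (nat_lit 262121047447) (nat_lit 252) (nat_lit 1011996140142) (nat_lit 29) (nat_lit 1) (nat_lit 28) (nat_lit 1) (nat_lit 31) (nat_lit 1) (nat_lit 213) (nat_lit 453) (nat_lit 414))) (XT.nd (nat_lit 94) (nat_lit 252) (nat_lit 0) (XT.lf (nat_lit 168) (nat_lit 531484254678) (nat_lit 0) (nat_lit 558610482667) (nat_lit 84) (nat_lit 413676603462) (nat_lit 29) (nat_lit 1) (nat_lit 27) (nat_lit 1) (nat_lit 28) (nat_lit 1) (nat_lit 214) (nat_lit 453) (nat_lit 413)) (XT.nd (nat_lit 94)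 (nat_lit 84) (nat_lit 0) (XT.lf (nat_lit 84) (nat_lit 398426281079) (nat_lit 0) (nat_lit 189842993944) (nat_lit 168) (nat_lit 875881865851) (nat_lit 26) (nat_lit 1) (nat_lit 25) (nat_lit 1) (nat_lit 27) (nat_lit 1) (nat_lit 215) (nat_lit 453) (nat_lit 412)) (XT.lf (nat_lit 168) (nat_lit 553650271502) (nat_lit 0) (nat_lit 616112896290) (nat_lit 84) (nat_lit 255821128746) (nat_lit 26) (nat_lit 1) (nat_lit 24) (nat_lit 1) (nat_lit 25) (nat_lit 1) (nat_lit 216) (nat_lit 453) (nat_lit 411)))))) (XT.nd (nat_lit 470) (nat_lit 588) (nat_lit 0) (XT.nd (nat_lit 188) (nat_lit 420) (nat_lit 0) (XT.nd (nat_lit 94) (nat_lit 84) (nat_lit 0) (XT.lf (nat_lit 84) (nat_lit 503972200572) (nat_lit 0) (nat_lit 141625348898) (nat_lit 168) (nat_lit 742606178528) (nat_lit 23) (nat_lit 1) (nat_lit 22) (nat_lit 1) (nat_lit 24) (nat_lit 1) (nat_lit 217) (nat_lit 453) (nat_lit 410)) (XT.lf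 (nat_lit 168) (nat_lit 556360825258) (nat_lit 0) (nat_lit 674361822579) (nat_lit 84) (nat_lit 121143557798) (nat_lit 23) (nat_lit 1) (nat_lit 21) (nat_lit 1) (nat_lit 22) (nat_lit 1) (nat_lit 218) (nat_lit 453) (nat_lit 409))) (XT.nd (nat_lit 94) (nat_lit 252) (nat_lit 0) (XT.lf (nat_lit 84) (nat_lit 590762909336) (nat_lit 0) (nat_lit 112010647746) (nat_lit 168) (nat_lit 613785762238) (nat_lit 20) (nat_lit 1) (nat_lit 19) (nat_lit 1) (nat_lit 21) (nat_lit 1) (nat_lit 219) (nat_lit 453) (nat_lit 408)) (XT.nd (nat_lit 94) (nat_lit 168) (nat_lit 0) (XT.lf (nat_lit 168) (nat_lit 544449311458) (nat_lit 0) (nat_lit 731645991916) (nat_lit 84) (nat_lit 6197396244) (nat_lit 20) (nat_lit 1) (nat_lit 18) (nat_lit 1) (nat_lit 19) (nat_lit 1) (nat_lit 220) (nat_lit 453) (nat_lit 407)) (XT.lf (nat_lit 84) (nat_lit 661711105791) (nat_lit 0) (nat_lit 96621403802) (nat_lit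 168) (nat_lit 490579520629) (nat_lit 17) (nat_lit 1) (nat_lit 16) (nat_lit 1) (nat_lit 18) (nat_lit 1) (nat_lit 221) (nat_lit 453) (nat_lit 406))))) (XT.nd (nat_lit 188) (nat_lit 336) (nat_lit 0) (XT.nd (nat_lit 94) (nat_lit 168) (nat_lit 0) (XT.lf (nat_lit 0) (nat_lit 88957600569) (nat_lit 0) (nat_lit 696235729691) (nat_lit 168) (nat_lit 431308871151) (nat_lit 15) (nat_lit 3) (nat_lit 15) (nat_lit 1) (nat_lit 17) (nat_lit 1) (nat_lit 222) (nat_lit 453) (nat_lit 405)) (XT.lf (nat_lit 84) (nat_lit 719247586283) (nat_lit 0) (nat_lit 91956617294) (nat_lit 168) (nat_lit 373783498548) (nat_lit 14) (nat_lit 1) (nat_lit 13) (nat_lit 1) (nat_lit 15) (nat_lit 1) (nat_lit 223) (nat_lit 453) (nat_lit 404))) (XT.nd (nat_lit 94) (nat_lit 252) (nat_lit 0) (XT.lf (nat_lit 0) (nat_lit 169941927323) (nat_lit 0) (nat_lit 665792512863) (nat_lit 168) (nat_lit 318578064819) (nat_lit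 12) (nat_lit 3) (nat_lit 12) (nat_lit 1) (nat_lit 14) (nat_lit 1) (nat_lit 224) (nat_lit 453) (nat_lit 403)) (XT.nd (nat_lit 94) (nat_lit 84) (nat_lit 0) (XT.lf (nat_lit 84) (nat_lit 765405666629) (nat_lit 0) (nat_lit 95225962977) (nat_lit 168) (nat_lit 263907688433) (nat_lit 11) (nat_lit 1) (nat_lit 10) (nat_lit 1) (nat_lit 12) (nat_lit 1) (nat_lit 225) (nat_lit 453) (nat_lit 402)) (XT.lf (nat_lit 0) (nat_lit 238919437155) (nat_lit 0) (nat_lit 643787966729) (nat_lit 168) (nat_lit 212784339850) (nat_lit 9) (nat_lit 3) (nat_lit 9) (nat_lit 1) (nat_lit 11) (nat_lit 1) (nat_lit 226) (nat_lit 453) (nat_lit 401))))))))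
noncomputable def ec454 : XT := (XT.nd (nat_lit 1692) (nat_lit 0) (nat_lit 0) (XT.nd (nat_lit 846) (nat_lit 0) (nat_lit 0) (XT.nd (nat_lit 376) (nat_lit 252) (nat_lit 0) (XT.nd (nat_lit 188) (nat_lit 252) (nat_lit 0) (XT.nd (nat_lit 94) (nat_lit 84) (nat_lit 0) (XT.lf (nat_lit 84) (nat_lit 801890386084) (nat_lit 0) (nat_lit 104214721828) (nat_lit 168) (nat_lit 161238088375) (nat_lit 8) (nat_lit 1) (nat_lit 7) (nat_lit 1) (nat_lit 9) (nat_lit 1) (nat_lit 227) (nat_lit 453) (nat_lit 400)) (XT.lf (nat_lit 0) (nat_lit 297547243450) (nat_lit 0) (nat_lit 628127726805) (nat_lit 168) (nat_lit 114150253849) (nat_lit 6) (nat_lit 3) (nat_lit 6) (nat_lit 1) (nat_lit 8) (nat_lit 1) (nat_lit 228) (nat_lit 453) (nat_lit 399))) (XT.nd (nat_lit 94) (nat_lit 84) (nat_lit 0) (XT.lf (nat_lit 84) (nat_lit 830135268470) (nat_lit 0) (nat_lit 117173795959) (nat_lit 168) (nat_lit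 65886758425) (nat_lit 5) (nat_lit 1) (nat_lit 4) (nat_lit 1) (nat_lit 6) (nat_lit 1) (nat_lit 229) (nat_lit 453) (nat_lit 398)) (XT.lf (nat_lit 0) (nat_lit 347226868920) (nat_lit 0) (nat_lit 617150184743) (nat_lit 168) (nat_lit 22740256488) (nat_lit 3) (nat_lit 3) (nat_lit 3) (nat_lit 1) (nat_lit 5) (nat_lit 1) (nat_lit 230) (nat_lit 453) (nat_lit 397)))) (XT.nd (nat_lit 188) (nat_lit 0) (nat_lit 0) (XT.nd (nat_lit 94) (nat_lit 0) (nat_lit 0) (XT.lf (nat_lit 0) (nat_lit 1395335807581) (nat_lit 0) (nat_lit 0) (nat_lit 0) (nat_lit 0) (nat_lit 0) (nat_lit 0) (nat_lit 1) (nat_lit 0) (nat_lit 1) (nat_lit 0) (nat_lit 231) (nat_lit 453) (nat_lit 396)) (XT.lf (nat_lit 0) (nat_lit 1394065756177) (nat_lit 0) (nat_lit 0) (nat_lit 0) (nat_lit 0) (nat_lit 0) (nat_lit 0) (nat_lit 1) (nat_lit 0) (nat_lit 1) (nat_lit 0) (nat_lit 232) (nat_lit 453) (nat_lit 395))) (XT.nd (nat_lit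 94) (nat_lit 0) (nat_lit 0) (XT.lf (nat_lit 0) (nat_lit 1392889782654) (nat_lit 0) (nat_lit 0) (nat_lit 0) (nat_lit 0) (nat_lit 0) (nat_lit 0) (nat_lit 1) (nat_lit 0) (nat_lit 1) (nat_lit 0) (nat_lit 233) (nat_lit 453) (nat_lit 394)) (XT.nd (nat_lit 94) (nat_lit 0) (nat_lit 0) (XT.lf (nat_lit 0) (nat_lit 1391800918282) (nat_lit 0) (nat_lit 0) (nat_lit 0) (nat_lit 0) (nat_lit 0) (nat_lit 0) (nat_lit 1) (nat_lit 0) (nat_lit 1) (nat_lit 0) (nat_lit 234) (nat_lit 453) (nat_lit 393)) (XT.lf (nat_lit 0) (nat_lit 1390792710530) (nat_lit 0) (nat_lit 0) (nat_lit 0) (nat_lit 0) (nat_lit 0) (nat_lit 0) (nat_lit 1) (nat_lit 0) (nat_lit 1) (nat_lit 0) (nat_lit 235) (nat_lit 453) (nat_lit 392)))))) (XT.nd (nat_lit 376) (nat_lit 0) (nat_lit 0) (XT.nd (nat_lit 188) (nat_lit 0) (nat_lit 0) (XT.nd (nat_lit 94) (nat_lit 0) (nat_lit 0) (XT.lf (nat_lit 0) (nat_lit 1389859184833)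 (nat_lit 0) (nat_lit 0) (nat_lit 0) (nat_lit 0) (nat_lit 0) (nat_lit 0) (nat_lit 1) (nat_lit 0) (nat_lit 1) (nat_lit 0) (nat_lit 236) (nat_lit 453) (nat_lit 391)) (XT.lf (nat_lit 0) (nat_lit 1388994809188) (nat_lit 0) (nat_lit 0) (nat_lit 0) (nat_lit 0) (nat_lit 0) (nat_lit 0) (nat_lit 1) (nat_lit 0) (nat_lit 1) (nat_lit 0) (nat_lit 237) (nat_lit 453) (nat_lit 390))) (XT.nd (nat_lit 94) (nat_lit 0) (nat_lit 0) (XT.lf (nat_lit 0) (nat_lit 1388194461369) (nat_lit 0) (nat_lit 0) (nat_lit 0) (nat_lit 0) (nat_lit 0) (nat_lit 0) (nat_lit 1) (nat_lit 0) (nat_lit 1) (nat_lit 0) (nat_lit 238) (nat_lit 453) (nat_lit 389)) (XT.lf (nat_lit 0) (nat_lit 1387453398573) (nat_lit 0) (nat_lit 0) (nat_lit 0) (nat_lit 0) (nat_lit 0) (nat_lit 0) (nat_lit 1) (nat_lit 0) (nat_lit 1) (nat_lit 0) (nat_lit 239) (nat_lit 453) (nat_lit 388)))) (XT.nd (nat_lit 188) (nat_lit 0) (nat_lit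 0) (XT.nd (nat_lit 94) (nat_lit 0) (nat_lit 0) (XT.lf (nat_lit 0) (nat_lit 1386767229318) (nat_lit 0) (nat_lit 0) (nat_lit 0) (nat_lit 0) (nat_lit 0) (nat_lit 0) (nat_lit 1) (nat_lit 0) (nat_lit 1) (nat_lit 0) (nat_lit 240) (nat_lit 453) (nat_lit 387)) (XT.lf (nat_lit 0) (nat_lit 1386131887414) (nat_lit 0) (nat_lit 0) (nat_lit 0) (nat_lit 0) (nat_lit 0) (nat_lit 0) (nat_lit 1) (nat_lit 0) (nat_lit 1) (nat_lit 0) (nat_lit 241) (nat_lit 453) (nat_lit 386))) (XT.nd (nat_lit 94) (nat_lit 0) (nat_lit 0) (XT.lf (nat_lit 0) (nat_lit 1385543607875) (nat_lit 0) (nat_lit 0) (nat_lit 0) (nat_lit 0) (nat_lit 0) (nat_lit 0) (nat_lit 1) (nat_lit 0) (nat_lit 1) (nat_lit 0) (nat_lit 242) (nat_lit 453) (nat_lit 385)) (XT.nd (nat_lit 94) (nat_lit 0) (nat_lit 0) (XT.lf (nat_lit 0) (nat_lit 1384998904597) (nat_lit 0) (nat_lit 0) (nat_lit 0) (nat_lit 0) (nat_lit 0) (nat_lit 0)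 (nat_lit 1) (nat_lit 0) (nat_lit 1) (nat_lit 0) (nat_lit 243) (nat_lit 453) (nat_lit 384)) (XT.lf (nat_lit 0) (nat_lit 1384494549710) (nat_lit 0) (nat_lit 0) (nat_lit 0) (nat_lit 0) (nat_lit 0) (nat_lit 0) (nat_lit 1) (nat_lit 0) (nat_lit 1) (nat_lit 0) (nat_lit 244) (nat_lit 453) (nat_lit 383))))))) (XT.nd (nat_lit 846) (nat_lit 0) (nat_lit 0) (XT.nd (nat_lit 376) (nat_lit 0) (nat_lit 0) (XT.nd (nat_lit 188) (nat_lit 0) (nat_lit 0) (XT.nd (nat_lit 94) (nat_lit 0) (nat_lit 0) (XT.lf (nat_lit 0) (nat_lit 1384027554445) (nat_lit 0) (nat_lit 0) (nat_lit 0) (nat_lit 0) (nat_lit 0) (nat_lit 0) (nat_lit 1) (nat_lit 0) (nat_lit 1) (nat_lit 0) (nat_lit 245) (nat_lit 453) (nat_lit 382)) (XT.lf (nat_lit 0) (nat_lit 1383595151421) (nat_lit 0) (nat_lit 0) (nat_lit 0) (nat_lit 0) (nat_lit 0) (nat_lit 0) (nat_lit 1) (nat_lit 0) (nat_lit 1) (nat_lit 0) (nat_lit 246) (nat_lit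 453) (nat_lit 381))) (XT.nd (nat_lit 94) (nat_lit 0) (nat_lit 0) (XT.lf (nat_lit 0) (nat_lit 1383194778251) (nat_lit 0) (nat_lit 0) (nat_lit 0) (nat_lit 0) (nat_lit 0) (nat_lit 0) (nat_lit 1) (nat_lit 0) (nat_lit 1) (nat_lit 0) (nat_lit 247) (nat_lit 453) (nat_lit 380)) (XT.lf (nat_lit 0) (nat_lit 1382824062353) (nat_lit 0) (nat_lit 0) (nat_lit 0) (nat_lit 0) (nat_lit 0) (nat_lit 0) (nat_lit 1) (nat_lit 0) (nat_lit 1) (nat_lit 0) (nat_lit 248) (nat_lit 453) (nat_lit 379)))) (XT.nd (nat_lit 188) (nat_lit 0) (nat_lit 0) (XT.nd (nat_lit 94) (nat_lit 0) (nat_lit 0) (XT.lf (nat_lit 0) (nat_lit 1382480806892) (nat_lit 0) (nat_lit 0) (nat_lit 0) (nat_lit 0) (nat_lit 0) (nat_lit 0) (nat_lit 1) (nat_lit 0) (nat_lit 1) (nat_lit 0) (nat_lit 249) (nat_lit 453) (nat_lit 378)) (XT.lf (nat_lit 0) (nat_lit 1382162977761) (nat_lit 0) (nat_lit 0) (nat_lit 0) (nat_lit 0) (nat_lit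 0) (nat_lit 0) (nat_lit 1) (nat_lit 0) (nat_lit 1) (nat_lit 0) (nat_lit 250) (nat_lit 453) (nat_lit 377))) (XT.nd (nat_lit 94) (nat_lit 0) (nat_lit 0) (XT.lf (nat_lit 0) (nat_lit 1381868691529) (nat_lit 0) (nat_lit 0) (nat_lit 0) (nat_lit 0) (nat_lit 0) (nat_lit 0) (nat_lit 1) (nat_lit 0) (nat_lit 1) (nat_lit 0) (nat_lit 251) (nat_lit 453) (nat_lit 376)) (XT.nd (nat_lit 94) (nat_lit 0) (nat_lit 0) (XT.lf (nat_lit 0) (nat_lit 1381596204277) (nat_lit 0) (nat_lit 0) (nat_lit 0) (nat_lit 0) (nat_lit 0) (nat_lit 0) (nat_lit 1) (nat_lit 0) (nat_lit 1) (nat_lit 0) (nat_lit 252) (nat_lit 453) (nat_lit 375)) (XT.lf (nat_lit 0) (nat_lit 1381343901265) (nat_lit 0) (nat_lit 0) (nat_lit 0) (nat_lit 0) (nat_lit 0) (nat_lit 0) (nat_lit 1) (nat_lit 0) (nat_lit 1) (nat_lit 0) (nat_lit 253) (nat_lit 453) (nat_lit 374)))))) (XT.nd (nat_lit 470) (nat_lit 0) (nat_lit 0) (XT.nd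 (nat_lit 188) (nat_lit 0) (nat_lit 0) (XT.nd (nat_lit 94) (nat_lit 0) (nat_lit 0) (XT.lf (nat_lit 0) (nat_lit 1381110287366) (nat_lit 0) (nat_lit 0) (nat_lit 0) (nat_lit 0) (nat_lit 0) (nat_lit 0) (nat_lit 1) (nat_lit 0) (nat_lit 1) (nat_lit 0) (nat_lit 254) (nat_lit 453) (nat_lit 373)) (XT.lf (nat_lit 0) (nat_lit 1380893978200) (nat_lit 0) (nat_lit 0) (nat_lit 0) (nat_lit 0) (nat_lit 0) (nat_lit 0) (nat_lit 1) (nat_lit 0) (nat_lit 1) (nat_lit 0) (nat_lit 255) (nat_lit 453) (nat_lit 372))) (XT.nd (nat_lit 94) (nat_lit 0) (nat_lit 0) (XT.lf (nat_lit 0) (nat_lit 1380693691935) (nat_lit 0) (nat_lit 0) (nat_lit 0) (nat_lit 0) (nat_lit 0) (nat_lit 0) (nat_lit 1) (nat_lit 0) (nat_lit 1) (nat_lit 0) (nat_lit 256) (nat_lit 453) (nat_lit 371)) (XT.nd (nat_lit 94) (nat_lit 0) (nat_lit 0) (XT.lf (nat_lit 0) (nat_lit 1380508241690) (nat_lit 0) (nat_lit 0) (nat_lit 0)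 (nat_lit 0) (nat_lit 0) (nat_lit 0) (nat_lit 1) (nat_lit 0) (nat_lit 1) (nat_lit 0) (nat_lit 257) (nat_lit 453) (nat_lit 370)) (XT.lf (nat_lit 0) (nat_lit 1380336528500) (nat_lit 0) (nat_lit 0) (nat_lit 0) (nat_lit 0) (nat_lit 0) (nat_lit 0) (nat_lit 1) (nat_lit 0) (nat_lit 1) (nat_lit 0) (nat_lit 258) (nat_lit 453) (nat_lit 369))))) (XT.nd (nat_lit 188) (nat_lit 0) (nat_lit 0) (XT.nd (nat_lit 94) (nat_lit 0) (nat_lit 0) (XT.lf (nat_lit 0) (nat_lit 1380177534806) (nat_lit 0) (nat_lit 0) (nat_lit 0) (nat_lit 0) (nat_lit 0) (nat_lit 0) (nat_lit 1) (nat_lit 0) (nat_lit 1) (nat_lit 0) (nat_lit 259) (nat_lit 453) (nat_lit 368)) (XT.lf (nat_lit 0) (nat_lit 1380030318422) (nat_lit 0) (nat_lit 0) (nat_lit 0) (nat_lit 0) (nat_lit 0) (nat_lit 0) (nat_lit 1) (nat_lit 0) (nat_lit 1) (nat_lit 0) (nat_lit 260) (nat_lit 453) (nat_lit 367))) (XT.nd (nat_lit 94) (nat_lit 0)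 (nat_lit 0) (XT.lf (nat_lit 0) (nat_lit 1379894006956) (nat_lit 0) (nat_lit 0) (nat_lit 0) (nat_lit 0) (nat_lit 0) (nat_lit 0) (nat_lit 1) (nat_lit 0) (nat_lit 1) (nat_lit 0) (nat_lit 261) (nat_lit 453) (nat_lit 366)) (XT.nd (nat_lit 94) (nat_lit 0) (nat_lit 0) (XT.lf (nat_lit 0) (nat_lit 1379767792635) (nat_lit 0) (nat_lit 0) (nat_lit 0) (nat_lit 0) (nat_lit 0) (nat_lit 0) (nat_lit 1) (nat_lit 0) (nat_lit 1) (nat_lit 0) (nat_lit 262) (nat_lit 453) (nat_lit 365)) (XT.lf (nat_lit 0) (nat_lit 1379650927523) (nat_lit 0) (nat_lit 0) (nat_lit 0) (nat_lit 0) (nat_lit 0) (nat_lit 0) (nat_lit 1) (nat_lit 0) (nat_lit 1) (nat_lit 0) (nat_lit 263) (nat_lit 453) (nat_lit 364))))))))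
noncomputable def ec455 : XT := (XT.nd (nat_lit 1786) (nat_lit 0) (nat_lit 0) (XT.nd (nat_lit 846) (nat_lit 0) (nat_lit 0) (XT.nd (nat_lit 376) (nat_lit 0) (nat_lit 0) (XT.nd (nat_lit 188) (nat_lit 0) (nat_lit 0) (XT.nd (nat_lit 94) (nat_lit 0) (nat_lit 0) (XT.lf (nat_lit 0) (nat_lit 1379542719086) (nat_lit 0) (nat_lit 0) (nat_lit 0) (nat_lit 0) (nat_lit 0) (nat_lit 0) (nat_lit 1) (nat_lit 0) (nat_lit 1) (nat_lit 0) (nat_lit 264) (nat_lit 453) (nat_lit 363)) (XT.lf (nat_lit 0) (nat_lit 1379442526089) (nat_lit 0) (nat_lit 0) (nat_lit 0) (nat_lit 0) (nat_lit 0) (nat_lit 0) (nat_lit 1) (nat_lit 0) (nat_lit 1) (nat_lit 0) (nat_lit 265) (nat_lit 453) (nat_lit 362))) (XT.nd (nat_lit 94) (nat_lit 0) (nat_lit 0) (XT.lf (nat_lit 0) (nat_lit 1379349754796) (nat_lit 0) (nat_lit 0) (nat_lit 0) (nat_lit 0) (nat_lit 0) (nat_lit 0) (nat_lit 1) (nat_lit 0) (nat_lit 1) (nat_lit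 0) (nat_lit 266) (nat_lit 453) (nat_lit 361)) (XT.lf (nat_lit 0) (nat_lit 1379263855450) (nat_lit 0) (nat_lit 0) (nat_lit 0) (nat_lit 0) (nat_lit 0) (nat_lit 0) (nat_lit 1) (nat_lit 0) (nat_lit 1) (nat_lit 0) (nat_lit 267) (nat_lit 453) (nat_lit 360)))) (XT.nd (nat_lit 188) (nat_lit 0) (nat_lit 0) (XT.nd (nat_lit 94) (nat_lit 0) (nat_lit 0) (XT.lf (nat_lit 0) (nat_lit 1379184319018) (nat_lit 0) (nat_lit 0) (nat_lit 0) (nat_lit 0) (nat_lit 0) (nat_lit 0) (nat_lit 1) (nat_lit 0) (nat_lit 1) (nat_lit 0) (nat_lit 268) (nat_lit 453) (nat_lit 359)) (XT.lf (nat_lit 0) (nat_lit 1379110674175) (nat_lit 0) (nat_lit 0) (nat_lit 0) (nat_lit 0) (nat_lit 0) (nat_lit 0) (nat_lit 1) (nat_lit 0) (nat_lit 1) (nat_lit 0) (nat_lit 269) (nat_lit 453) (nat_lit 358))) (XT.nd (nat_lit 94) (nat_lit 0) (nat_lit 0) (XT.lf (nat_lit 0) (nat_lit 1379042484504) (nat_lit 0) (nat_lit 0) (nat_lit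 0) (nat_lit 0) (nat_lit 0) (nat_lit 0) (nat_lit 1) (nat_lit 0) (nat_lit 1) (nat_lit 0) (nat_lit 270) (nat_lit 453) (nat_lit 357)) (XT.nd (nat_lit 94) (nat_lit 0) (nat_lit 0) (XT.lf (nat_lit 0) (nat_lit 1378979345921) (nat_lit 0) (nat_lit 0) (nat_lit 0) (nat_lit 0) (nat_lit 0) (nat_lit 0) (nat_lit 1) (nat_lit 0) (nat_lit 1) (nat_lit 0) (nat_lit 271) (nat_lit 453) (nat_lit 356)) (XT.lf (nat_lit 0) (nat_lit 1378920884269) (nat_lit 0) (nat_lit 0) (nat_lit 0) (nat_lit 0) (nat_lit 0) (nat_lit 0) (nat_lit 1) (nat_lit 0) (nat_lit 1) (nat_lit 0) (nat_lit 272) (nat_lit 453) (nat_lit 355)))))) (XT.nd (nat_lit 470) (nat_lit 0) (nat_lit 0) (XT.nd (nat_lit 188) (nat_lit 0) (nat_lit 0) (XT.nd (nat_lit 94) (nat_lit 0) (nat_lit 0) (XT.lf (nat_lit 0) (nat_lit 1378866753110) (nat_lit 0) (nat_lit 0) (nat_lit 0) (nat_lit 0) (nat_lit 0) (nat_lit 0) (nat_lit 1) (nat_lit 0) (nat_lit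 1) (nat_lit 0) (nat_lit 273) (nat_lit 453) (nat_lit 354)) (XT.lf (nat_lit 0) (nat_lit 1378816631667) (nat_lit 0) (nat_lit 0) (nat_lit 0) (nat_lit 0) (nat_lit 0) (nat_lit 0) (nat_lit 1) (nat_lit 0) (nat_lit 1) (nat_lit 0) (nat_lit 274) (nat_lit 453) (nat_lit 353))) (XT.nd (nat_lit 94) (nat_lit 0) (nat_lit 0) (XT.lf (nat_lit 0) (nat_lit 1378770222923) (nat_lit 0) (nat_lit 0) (nat_lit 0) (nat_lit 0) (nat_lit 0) (nat_lit 0) (nat_lit 1) (nat_lit 0) (nat_lit 1) (nat_lit 0) (nat_lit 275) (nat_lit 453) (nat_lit 352)) (XT.nd (nat_lit 94) (nat_lit 0) (nat_lit 0) (XT.lf (nat_lit 0) (nat_lit 1378727251864) (nat_lit 0) (nat_lit 0) (nat_lit 0) (nat_lit 0) (nat_lit 0) (nat_lit 0) (nat_lit 1) (nat_lit 0) (nat_lit 1) (nat_lit 0) (nat_lit 276) (nat_lit 453) (nat_lit 351)) (XT.lf (nat_lit 0) (nat_lit 1378687463847) (nat_lit 0) (nat_lit 0) (nat_lit 0) (nat_lit 0) (nat_lit 0)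 (nat_lit 0) (nat_lit 1) (nat_lit 0) (nat_lit 1) (nat_lit 0) (nat_lit 277) (nat_lit 453) (nat_lit 350))))) (XT.nd (nat_lit 188) (nat_lit 0) (nat_lit 0) (XT.nd (nat_lit 94) (nat_lit 0) (nat_lit 0) (XT.lf (nat_lit 0) (nat_lit 1378650623089) (nat_lit 0) (nat_lit 0) (nat_lit 0) (nat_lit 0) (nat_lit 0) (nat_lit 0) (nat_lit 1) (nat_lit 0) (nat_lit 1) (nat_lit 0) (nat_lit 278) (nat_lit 453) (nat_lit 349)) (XT.lf (nat_lit 0) (nat_lit 1378616511277) (nat_lit 0) (nat_lit 0) (nat_lit 0) (nat_lit 0) (nat_lit 0) (nat_lit 0) (nat_lit 1) (nat_lit 0) (nat_lit 1) (nat_lit 0) (nat_lit 279) (nat_lit 453) (nat_lit 348))) (XT.nd (nat_lit 94) (nat_lit 0) (nat_lit 0) (XT.lf (nat_lit 0) (nat_lit 1378584926266) (nat_lit 0) (nat_lit 0) (nat_lit 0) (nat_lit 0) (nat_lit 0) (nat_lit 0) (nat_lit 1) (nat_lit 0) (nat_lit 1) (nat_lit 0) (nat_lit 280) (nat_lit 453) (nat_lit 347)) (XT.nd (nat_lit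 94) (nat_lit 0) (nat_lit 0) (XT.lf (nat_lit 0) (nat_lit 1378555680885) (nat_lit 0) (nat_lit 0) (nat_lit 0) (nat_lit 0) (nat_lit 0) (nat_lit 0) (nat_lit 1) (nat_lit 0) (nat_lit 1) (nat_lit 0) (nat_lit 281) (nat_lit 453) (nat_lit 346)) (XT.lf (nat_lit 0) (nat_lit 1378528601829) (nat_lit 0) (nat_lit 0) (nat_lit 0) (nat_lit 0) (nat_lit 0) (nat_lit 0) (nat_lit 1) (nat_lit 0) (nat_lit 1) (nat_lit 0) (nat_lit 282) (nat_lit 453) (nat_lit 345))))))) (XT.nd (nat_lit 846) (nat_lit 0) (nat_lit 0) (XT.nd (nat_lit 376) (nat_lit 0) (nat_lit 0) (XT.nd (nat_lit 188) (nat_lit 0) (nat_lit 0) (XT.nd (nat_lit 94) (nat_lit 0) (nat_lit 0) (XT.lf (nat_lit 0) (nat_lit 1378503528629) (nat_lit 0) (nat_lit 0) (nat_lit 0) (nat_lit 0) (nat_lit 0) (nat_lit 0) (nat_lit 1) (nat_lit 0) (nat_lit 1) (nat_lit 0) (nat_lit 283) (nat_lit 453) (nat_lit 344)) (XT.lf (nat_lit 0) (nat_lit 1378480312703)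 (nat_lit 0) (nat_lit 0) (nat_lit 0) (nat_lit 0) (nat_lit 0) (nat_lit 0) (nat_lit 1) (nat_lit 0) (nat_lit 1) (nat_lit 0) (nat_lit 284) (nat_lit 453) (nat_lit 343))) (XT.nd (nat_lit 94) (nat_lit 0) (nat_lit 0) (XT.lf (nat_lit 0) (nat_lit 1378458816475) (nat_lit 0) (nat_lit 0) (nat_lit 0) (nat_lit 0) (nat_lit 0) (nat_lit 0) (nat_lit 1) (nat_lit 0) (nat_lit 1) (nat_lit 0) (nat_lit 285) (nat_lit 453) (nat_lit 342)) (XT.lf (nat_lit 0) (nat_lit 1378438912560) (nat_lit 0) (nat_lit 0) (nat_lit 0) (nat_lit 0) (nat_lit 0) (nat_lit 0) (nat_lit 1) (nat_lit 0) (nat_lit 1) (nat_lit 0) (nat_lit 286) (nat_lit 453) (nat_lit 341)))) (XT.nd (nat_lit 188) (nat_lit 0) (nat_lit 0) (XT.nd (nat_lit 94) (nat_lit 0) (nat_lit 0) (XT.lf (nat_lit 0) (nat_lit 1378420483009) (nat_lit 0) (nat_lit 0) (nat_lit 0) (nat_lit 0) (nat_lit 0) (nat_lit 0) (nat_lit 1) (nat_lit 0) (nat_lit 1) (nat_lit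 0) (nat_lit 287) (nat_lit 453) (nat_lit 340)) (XT.lf (nat_lit 0) (nat_lit 1378403418611) (nat_lit 0) (nat_lit 0) (nat_lit 0) (nat_lit 0) (nat_lit 0) (nat_lit 0) (nat_lit 1) (nat_lit 0) (nat_lit 1) (nat_lit 0) (nat_lit 288) (nat_lit 453) (nat_lit 339))) (XT.nd (nat_lit 94) (nat_lit 0) (nat_lit 0) (XT.lf (nat_lit 0) (nat_lit 1378387618241) (nat_lit 0) (nat_lit 0) (nat_lit 0) (nat_lit 0) (nat_lit 0) (nat_lit 0) (nat_lit 1) (nat_lit 0) (nat_lit 1) (nat_lit 0) (nat_lit 289) (nat_lit 453) (nat_lit 338)) (XT.nd (nat_lit 94) (nat_lit 0) (nat_lit 0) (XT.lf (nat_lit 0) (nat_lit 1378372988270) (nat_lit 0) (nat_lit 0) (nat_lit 0) (nat_lit 0) (nat_lit 0) (nat_lit 0) (nat_lit 1) (nat_lit 0) (nat_lit 1) (nat_lit 0) (nat_lit 290) (nat_lit 453) (nat_lit 337)) (XT.lf (nat_lit 0) (nat_lit 1378359442000) (nat_lit 0) (nat_lit 0) (nat_lit 0) (nat_lit 0) (nat_lit 0) (nat_lit 0)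 (nat_lit 1) (nat_lit 0) (nat_lit 1) (nat_lit 0) (nat_lit 291) (nat_lit 453) (nat_lit 336)))))) (XT.nd (nat_lit 470) (nat_lit 0) (nat_lit 0) (XT.nd (nat_lit 188) (nat_lit 0) (nat_lit 0) (XT.nd (nat_lit 94) (nat_lit 0) (nat_lit 0) (XT.lf (nat_lit 0) (nat_lit 1378346899157) (nat_lit 0) (nat_lit 0) (nat_lit 0) (nat_lit 0) (nat_lit 0) (nat_lit 0) (nat_lit 1) (nat_lit 0) (nat_lit 1) (nat_lit 0) (nat_lit 292) (nat_lit 453) (nat_lit 335)) (XT.lf (nat_lit 0) (nat_lit 1378335285414) (nat_lit 0) (nat_lit 0) (nat_lit 0) (nat_lit 0) (nat_lit 0) (nat_lit 0) (nat_lit 1) (nat_lit 0) (nat_lit 1) (nat_lit 0) (nat_lit 293) (nat_lit 453) (nat_lit 334))) (XT.nd (nat_lit 94) (nat_lit 0) (nat_lit 0) (XT.lf (nat_lit 0) (nat_lit 1378324531949) (nat_lit 0) (nat_lit 0) (nat_lit 0) (nat_lit 0) (nat_lit 0) (nat_lit 0) (nat_lit 1) (nat_lit 0) (nat_lit 1) (nat_lit 0) (nat_lit 294) (nat_lit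 453) (nat_lit 333)) (XT.nd (nat_lit 94) (nat_lit 0) (nat_lit 0) (XT.lf (nat_lit 0) (nat_lit 1378314575036) (nat_lit 0) (nat_lit 0) (nat_lit 0) (nat_lit 0) (nat_lit 0) (nat_lit 0) (nat_lit 1) (nat_lit 0) (nat_lit 1) (nat_lit 0) (nat_lit 295) (nat_lit 453) (nat_lit 332)) (XT.lf (nat_lit 0) (nat_lit 1378305355672) (nat_lit 0) (nat_lit 0) (nat_lit 0) (nat_lit 0) (nat_lit 0) (nat_lit 0) (nat_lit 1) (nat_lit 0) (nat_lit 1) (nat_lit 0) (nat_lit 296) (nat_lit 453) (nat_lit 331))))) (XT.nd (nat_lit 188) (nat_lit 0) (nat_lit 0) (XT.nd (nat_lit 94) (nat_lit 0) (nat_lit 0) (XT.lf (nat_lit 0) (nat_lit 1378296819224) (nat_lit 0) (nat_lit 0) (nat_lit 0) (nat_lit 0) (nat_lit 0) (nat_lit 0) (nat_lit 1) (nat_lit 0) (nat_lit 1) (nat_lit 0) (nat_lit 297) (nat_lit 453) (nat_lit 330)) (XT.lf (nat_lit 0) (nat_lit 1378288915106) (nat_lit 0) (nat_lit 0) (nat_lit 0) (nat_lit 0) (nat_lit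 0) (nat_lit 0) (nat_lit 1) (nat_lit 0) (nat_lit 1) (nat_lit 0) (nat_lit 298) (nat_lit 453) (nat_lit 329))) (XT.nd (nat_lit 94) (nat_lit 0) (nat_lit 0) (XT.lf (nat_lit 0) (nat_lit 1378281596478) (nat_lit 0) (nat_lit 0) (nat_lit 0) (nat_lit 0) (nat_lit 0) (nat_lit 0) (nat_lit 1) (nat_lit 0) (nat_lit 1) (nat_lit 0) (nat_lit 299) (nat_lit 453) (nat_lit 328)) (XT.nd (nat_lit 94) (nat_lit 0) (nat_lit 0) (XT.lf (nat_lit 0) (nat_lit 1378274819970) (nat_lit 0) (nat_lit 0) (nat_lit 0) (nat_lit 0) (nat_lit 0) (nat_lit 0) (nat_lit 1) (nat_lit 0) (nat_lit 1) (nat_lit 0) (nat_lit 300) (nat_lit 453) (nat_lit 327)) (XT.lf (nat_lit 0) (nat_lit 1378268545426) (nat_lit 0) (nat_lit 0) (nat_lit 0) (nat_lit 0) (nat_lit 0) (nat_lit 0) (nat_lit 1) (nat_lit 0) (nat_lit 1) (nat_lit 0) (nat_lit 301) (nat_lit 453) (nat_lit 326))))))))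
noncomputable def ec456 : XT := (XT.nd (nat_lit 2256) (nat_lit 0) (nat_lit 0) (XT.nd (nat_lit 1410) (nat_lit 0) (nat_lit 0) (XT.nd (nat_lit 376) (nat_lit 0) (nat_lit 0) (XT.nd (nat_lit 188) (nat_lit 0) (nat_lit 0) (XT.nd (nat_lit 94) (nat_lit 0) (nat_lit 0) (XT.lf (nat_lit 0) (nat_lit 1378262735663) (nat_lit 0) (nat_lit 0) (nat_lit 0) (nat_lit 0) (nat_lit 0) (nat_lit 0) (nat_lit 1) (nat_lit 0) (nat_lit 1) (nat_lit 0) (nat_lit 302) (nat_lit 453) (nat_lit 325)) (XT.lf (nat_lit 0) (nat_lit 1378257356253) (nat_lit 0) (nat_lit 0) (nat_lit 0) (nat_lit 0) (nat_lit 0) (nat_lit 0) (nat_lit 1) (nat_lit 0) (nat_lit 1) (nat_lit 0) (nat_lit 303) (nat_lit 453) (nat_lit 324))) (XT.nd (nat_lit 94) (nat_lit 0) (nat_lit 0) (XT.lf (nat_lit 0) (nat_lit 1378252375318) (nat_lit 0) (nat_lit 0) (nat_lit 0) (nat_lit 0) (nat_lit 0) (nat_lit 0) (nat_lit 1) (nat_lit 0) (nat_lit 1) (nat_lit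 0) (nat_lit 304) (nat_lit 453) (nat_lit 323)) (XT.lf (nat_lit 0) (nat_lit 1378247763340) (nat_lit 0) (nat_lit 0) (nat_lit 0) (nat_lit 0) (nat_lit 0) (nat_lit 0) (nat_lit 1) (nat_lit 0) (nat_lit 1) (nat_lit 0) (nat_lit 305) (nat_lit 453) (nat_lit 322)))) (XT.nd (nat_lit 188) (nat_lit 0) (nat_lit 0) (XT.nd (nat_lit 94) (nat_lit 0) (nat_lit 0) (XT.lf (nat_lit 0) (nat_lit 1378243492991) (nat_lit 0) (nat_lit 0) (nat_lit 0) (nat_lit 0) (nat_lit 0) (nat_lit 0) (nat_lit 1) (nat_lit 0) (nat_lit 1) (nat_lit 0) (nat_lit 306) (nat_lit 453) (nat_lit 321)) (XT.lf (nat_lit 0) (nat_lit 1378239538964) (nat_lit 0) (nat_lit 0) (nat_lit 0) (nat_lit 0) (nat_lit 0) (nat_lit 0) (nat_lit 1) (nat_lit 0) (nat_lit 1) (nat_lit 0) (nat_lit 307) (nat_lit 453) (nat_lit 320))) (XT.nd (nat_lit 94) (nat_lit 0) (nat_lit 0) (XT.lf (nat_lit 0) (nat_lit 1378235877828) (nat_lit 0) (nat_lit 0) (nat_lit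 0) (nat_lit 0) (nat_lit 0) (nat_lit 0) (nat_lit 1) (nat_lit 0) (nat_lit 1) (nat_lit 0) (nat_lit 308) (nat_lit 453) (nat_lit 319)) (XT.nd (nat_lit 94) (nat_lit 0) (nat_lit 0) (XT.lf (nat_lit 0) (nat_lit 1378232487887) (nat_lit 0) (nat_lit 0) (nat_lit 0) (nat_lit 0) (nat_lit 0) (nat_lit 0) (nat_lit 1) (nat_lit 0) (nat_lit 1) (nat_lit 0) (nat_lit 309) (nat_lit 453) (nat_lit 318)) (XT.lf (nat_lit 0) (nat_lit 1378229349053) (nat_lit 0) (nat_lit 0) (nat_lit 0) (nat_lit 0) (nat_lit 0) (nat_lit 0) (nat_lit 1) (nat_lit 0) (nat_lit 1) (nat_lit 0) (nat_lit 310) (nat_lit 453) (nat_lit 317)))))) (XT.nd (nat_lit 376) (nat_lit 0) (nat_lit 0) (XT.nd (nat_lit 188) (nat_lit 0) (nat_lit 0) (XT.nd (nat_lit 94) (nat_lit 0) (nat_lit 0) (XT.lf (nat_lit 0) (nat_lit 1378213007121) (nat_lit 0) (nat_lit 0) (nat_lit 0) (nat_lit 0) (nat_lit 0) (nat_lit 0) (nat_lit 1) (nat_lit 0) (nat_lit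 1) (nat_lit 0) (nat_lit 317) (nat_lit 453) (nat_lit 310)) (XT.lf (nat_lit 0) (nat_lit 1378211311306) (nat_lit 0) (nat_lit 0) (nat_lit 0) (nat_lit 0) (nat_lit 0) (nat_lit 0) (nat_lit 1) (nat_lit 0) (nat_lit 1) (nat_lit 0) (nat_lit 318) (nat_lit 453) (nat_lit 309))) (XT.nd (nat_lit 94) (nat_lit 0) (nat_lit 0) (XT.lf (nat_lit 0) (nat_lit 1378209741108) (nat_lit 0) (nat_lit 0) (nat_lit 0) (nat_lit 0) (nat_lit 0) (nat_lit 0) (nat_lit 1) (nat_lit 0) (nat_lit 1) (nat_lit 0) (nat_lit 319) (nat_lit 453) (nat_lit 308)) (XT.lf (nat_lit 0) (nat_lit 1378208287220) (nat_lit 0) (nat_lit 0) (nat_lit 0) (nat_lit 0) (nat_lit 0) (nat_lit 0) (nat_lit 1) (nat_lit 0) (nat_lit 1) (nat_lit 0) (nat_lit 320) (nat_lit 453) (nat_lit 307)))) (XT.nd (nat_lit 188) (nat_lit 0) (nat_lit 0) (XT.nd (nat_lit 94) (nat_lit 0) (nat_lit 0) (XT.lf (nat_lit 0) (nat_lit 1378206941028) (nat_lit 0) (nat_lit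 0) (nat_lit 0) (nat_lit 0) (nat_lit 0) (nat_lit 0) (nat_lit 1) (nat_lit 0) (nat_lit 1) (nat_lit 0) (nat_lit 321) (nat_lit 453) (nat_lit 306)) (XT.lf (nat_lit 0) (nat_lit 1378205694554) (nat_lit 0) (nat_lit 0) (nat_lit 0) (nat_lit 0) (nat_lit 0) (nat_lit 0) (nat_lit 1) (nat_lit 0) (nat_lit 1) (nat_lit 0) (nat_lit 322) (nat_lit 453) (nat_lit 305))) (XT.nd (nat_lit 94) (nat_lit 0) (nat_lit 0) (XT.lf (nat_lit 0) (nat_lit 1378204540411) (nat_lit 0) (nat_lit 0) (nat_lit 0) (nat_lit 0) (nat_lit 0) (nat_lit 0) (nat_lit 1) (nat_lit 0) (nat_lit 1) (nat_lit 0) (nat_lit 323) (nat_lit 453) (nat_lit 304)) (XT.nd (nat_lit 94) (nat_lit 0) (nat_lit 0) (XT.lf (nat_lit 0) (nat_lit 1378203471760) (nat_lit 0) (nat_lit 0) (nat_lit 0) (nat_lit 0) (nat_lit 0) (nat_lit 0) (nat_lit 1) (nat_lit 0) (nat_lit 1) (nat_lit 0) (nat_lit 324) (nat_lit 453) (nat_lit 303)) (XT.lf (nat_lit 0)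 (nat_lit 1378202482269) (nat_lit 0) (nat_lit 0) (nat_lit 0) (nat_lit 0) (nat_lit 0) (nat_lit 0) (nat_lit 1) (nat_lit 0) (nat_lit 1) (nat_lit 0) (nat_lit 325) (nat_lit 453) (nat_lit 302))))))) (XT.nd (nat_lit 846) (nat_lit 0) (nat_lit 0) (XT.nd (nat_lit 376) (nat_lit 0) (nat_lit 0) (XT.nd (nat_lit 188) (nat_lit 0) (nat_lit 0) (XT.nd (nat_lit 94) (nat_lit 0) (nat_lit 0) (XT.lf (nat_lit 0) (nat_lit 1378201566073) (nat_lit 0) (nat_lit 0) (nat_lit 0) (nat_lit 0) (nat_lit 0) (nat_lit 0) (nat_lit 1) (nat_lit 0) (nat_lit 1) (nat_lit 0) (nat_lit 326) (nat_lit 453) (nat_lit 301)) (XT.lf (nat_lit 0) (nat_lit 1378200717744) (nat_lit 0) (nat_lit 0) (nat_lit 0) (nat_lit 0) (nat_lit 0) (nat_lit 0) (nat_lit 1) (nat_lit 0) (nat_lit 1) (nat_lit 0) (nat_lit 327) (nat_lit 453) (nat_lit 300))) (XT.nd (nat_lit 94) (nat_lit 0) (nat_lit 0) (XT.lf (nat_lit 0) (nat_lit 1378199932253)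 (nat_lit 0) (nat_lit 0) (nat_lit 0) (nat_lit 0) (nat_lit 0) (nat_lit 0) (nat_lit 1) (nat_lit 0) (nat_lit 1) (nat_lit 0) (nat_lit 328) (nat_lit 453) (nat_lit 299)) (XT.lf (nat_lit 0) (nat_lit 1378199204948) (nat_lit 0) (nat_lit 0) (nat_lit 0) (nat_lit 0) (nat_lit 0) (nat_lit 0) (nat_lit 1) (nat_lit 0) (nat_lit 1) (nat_lit 0) (nat_lit 329) (nat_lit 453) (nat_lit 298)))) (XT.nd (nat_lit 188) (nat_lit 0) (nat_lit 0) (XT.nd (nat_lit 94) (nat_lit 0) (nat_lit 0) (XT.lf (nat_lit 0) (nat_lit 1378198531516) (nat_lit 0) (nat_lit 0) (nat_lit 0) (nat_lit 0) (nat_lit 0) (nat_lit 0) (nat_lit 1) (nat_lit 0) (nat_lit 1) (nat_lit 0) (nat_lit 330) (nat_lit 453) (nat_lit 297)) (XT.lf (nat_lit 0) (nat_lit 1378197907969) (nat_lit 0) (nat_lit 0) (nat_lit 0) (nat_lit 0) (nat_lit 0) (nat_lit 0) (nat_lit 1) (nat_lit 0) (nat_lit 1) (nat_lit 0) (nat_lit 331) (nat_lit 453) (nat_lit 296)))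 (XT.nd (nat_lit 94) (nat_lit 0) (nat_lit 0) (XT.lf (nat_lit 0) (nat_lit 1378197330610) (nat_lit 0) (nat_lit 0) (nat_lit 0) (nat_lit 0) (nat_lit 0) (nat_lit 0) (nat_lit 1) (nat_lit 0) (nat_lit 1) (nat_lit 0) (nat_lit 332) (nat_lit 453) (nat_lit 295)) (XT.nd (nat_lit 94) (nat_lit 0) (nat_lit 0) (XT.lf (nat_lit 0) (nat_lit 1378196796019) (nat_lit 0) (nat_lit 0) (nat_lit 0) (nat_lit 0) (nat_lit 0) (nat_lit 0) (nat_lit 1) (nat_lit 0) (nat_lit 1) (nat_lit 0) (nat_lit 333) (nat_lit 453) (nat_lit 294)) (XT.lf (nat_lit 0) (nat_lit 1378196301027) (nat_lit 0) (nat_lit 0) (nat_lit 0) (nat_lit 0) (nat_lit 0) (nat_lit 0) (nat_lit 1) (nat_lit 0) (nat_lit 1) (nat_lit 0) (nat_lit 334) (nat_lit 453) (nat_lit 293)))))) (XT.nd (nat_lit 470) (nat_lit 0) (nat_lit 0) (XT.nd (nat_lit 188) (nat_lit 0) (nat_lit 0) (XT.nd (nat_lit 94) (nat_lit 0) (nat_lit 0) (XT.lf (nat_lit 0) (nat_lit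 1378195842701) (nat_lit 0) (nat_lit 0) (nat_lit 0) (nat_lit 0) (nat_lit 0) (nat_lit 0) (nat_lit 1) (nat_lit 0) (nat_lit 1) (nat_lit 0) (nat_lit 335) (nat_lit 453) (nat_lit 292)) (XT.lf (nat_lit 0) (nat_lit 1378195418325) (nat_lit 0) (nat_lit 0) (nat_lit 0) (nat_lit 0) (nat_lit 0) (nat_lit 0) (nat_lit 1) (nat_lit 0) (nat_lit 1) (nat_lit 0) (nat_lit 336) (nat_lit 453) (nat_lit 291))) (XT.nd (nat_lit 94) (nat_lit 0) (nat_lit 0) (XT.lf (nat_lit 0) (nat_lit 1378195025384) (nat_lit 0) (nat_lit 0) (nat_lit 0) (nat_lit 0) (nat_lit 0) (nat_lit 0) (nat_lit 1) (nat_lit 0) (nat_lit 1) (nat_lit 0) (nat_lit 337) (nat_lit 453) (nat_lit 290)) (XT.nd (nat_lit 94) (nat_lit 0) (nat_lit 0) (XT.lf (nat_lit 0) (nat_lit 1378194661550) (nat_lit 0) (nat_lit 0) (nat_lit 0) (nat_lit 0) (nat_lit 0) (nat_lit 0) (nat_lit 1) (nat_lit 0) (nat_lit 1) (nat_lit 0) (nat_lit 338) (nat_lit 453)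 (nat_lit 289)) (XT.lf (nat_lit 0) (nat_lit 1378194324667) (nat_lit 0) (nat_lit 0) (nat_lit 0) (nat_lit 0) (nat_lit 0) (nat_lit 0) (nat_lit 1) (nat_lit 0) (nat_lit 1) (nat_lit 0) (nat_lit 339) (nat_lit 453) (nat_lit 288))))) (XT.nd (nat_lit 188) (nat_lit 0) (nat_lit 0) (XT.nd (nat_lit 94) (nat_lit 0) (nat_lit 0) (XT.lf (nat_lit 0) (nat_lit 1378194012738) (nat_lit 0) (nat_lit 0) (nat_lit 0) (nat_lit 0) (nat_lit 0) (nat_lit 0) (nat_lit 1) (nat_lit 0) (nat_lit 1) (nat_lit 0) (nat_lit 340) (nat_lit 453) (nat_lit 287)) (XT.lf (nat_lit 0) (nat_lit 1378193723915) (nat_lit 0) (nat_lit 0) (nat_lit 0) (nat_lit 0) (nat_lit 0) (nat_lit 0) (nat_lit 1) (nat_lit 0) (nat_lit 1) (nat_lit 0) (nat_lit 341) (nat_lit 453) (nat_lit 286))) (XT.nd (nat_lit 94) (nat_lit 0) (nat_lit 0) (XT.lf (nat_lit 0) (nat_lit 1378193456486) (nat_lit 0) (nat_lit 0) (nat_lit 0) (nat_lit 0) (nat_lit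 0) (nat_lit 0) (nat_lit 1) (nat_lit 0) (nat_lit 1) (nat_lit 0) (nat_lit 342) (nat_lit 453) (nat_lit 285)) (XT.nd (nat_lit 94) (nat_lit 0) (nat_lit 0) (XT.lf (nat_lit 0) (nat_lit 1378193208867) (nat_lit 0) (nat_lit 0) (nat_lit 0) (nat_lit 0) (nat_lit 0) (nat_lit 0) (nat_lit 1) (nat_lit 0) (nat_lit 1) (nat_lit 0) (nat_lit 343) (nat_lit 453) (nat_lit 284)) (XT.lf (nat_lit 0) (nat_lit 1378192979590) (nat_lit 0) (nat_lit 0) (nat_lit 0) (nat_lit 0) (nat_lit 0) (nat_lit 0) (nat_lit 1) (nat_lit 0) (nat_lit 1) (nat_lit 0) (nat_lit 344) (nat_lit 453) (nat_lit 283))))))))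
noncomputable def ec457 : XT := (XT.nd (nat_lit 1786) (nat_lit 0) (nat_lit 0) (XT.nd (nat_lit 846) (nat_lit 0) (nat_lit 0) (XT.nd (nat_lit 376) (nat_lit 0) (nat_lit 0) (XT.nd (nat_lit 188) (nat_lit 0) (nat_lit 0) (XT.nd (nat_lit 94) (nat_lit 0) (nat_lit 0) (XT.lf (nat_lit 0) (nat_lit 1378192767296) (nat_lit 0) (nat_lit 0) (nat_lit 0) (nat_lit 0) (nat_lit 0) (nat_lit 0) (nat_lit 1) (nat_lit 0) (nat_lit 1) (nat_lit 0) (nat_lit 345) (nat_lit 453) (nat_lit 282)) (XT.lf (nat_lit 0) (nat_lit 1378192570728) (nat_lit 0) (nat_lit 0) (nat_lit 0) (nat_lit 0) (nat_lit 0) (nat_lit 0) (nat_lit 1) (nat_lit 0) (nat_lit 1) (nat_lit 0) (nat_lit 346) (nat_lit 453) (nat_lit 281))) (XT.nd (nat_lit 94) (nat_lit 0) (nat_lit 0) (XT.lf (nat_lit 0) (nat_lit 1378192388720) (nat_lit 0) (nat_lit 0) (nat_lit 0) (nat_lit 0) (nat_lit 0) (nat_lit 0) (nat_lit 1) (nat_lit 0) (nat_lit 1) (nat_lit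 0) (nat_lit 347) (nat_lit 453) (nat_lit 280)) (XT.lf (nat_lit 0) (nat_lit 1378192220195) (nat_lit 0) (nat_lit 0) (nat_lit 0) (nat_lit 0) (nat_lit 0) (nat_lit 0) (nat_lit 1) (nat_lit 0) (nat_lit 1) (nat_lit 0) (nat_lit 348) (nat_lit 453) (nat_lit 279)))) (XT.nd (nat_lit 188) (nat_lit 0) (nat_lit 0) (XT.nd (nat_lit 94) (nat_lit 0) (nat_lit 0) (XT.lf (nat_lit 0) (nat_lit 1378192064153) (nat_lit 0) (nat_lit 0) (nat_lit 0) (nat_lit 0) (nat_lit 0) (nat_lit 0) (nat_lit 1) (nat_lit 0) (nat_lit 1) (nat_lit 0) (nat_lit 349) (nat_lit 453) (nat_lit 278)) (XT.lf (nat_lit 0) (nat_lit 1378191919669) (nat_lit 0) (nat_lit 0) (nat_lit 0) (nat_lit 0) (nat_lit 0) (nat_lit 0) (nat_lit 1) (nat_lit 0) (nat_lit 1) (nat_lit 0) (nat_lit 350) (nat_lit 453) (nat_lit 277))) (XT.nd (nat_lit 94) (nat_lit 0) (nat_lit 0) (XT.lf (nat_lit 0) (nat_lit 1378191785888) (nat_lit 0) (nat_lit 0) (nat_lit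 0) (nat_lit 0) (nat_lit 0) (nat_lit 0) (nat_lit 1) (nat_lit 0) (nat_lit 1) (nat_lit 0) (nat_lit 351) (nat_lit 453) (nat_lit 276)) (XT.nd (nat_lit 94) (nat_lit 0) (nat_lit 0) (XT.lf (nat_lit 0) (nat_lit 1378191662017) (nat_lit 0) (nat_lit 0) (nat_lit 0) (nat_lit 0) (nat_lit 0) (nat_lit 0) (nat_lit 1) (nat_lit 0) (nat_lit 1) (nat_lit 0) (nat_lit 352) (nat_lit 453) (nat_lit 275)) (XT.lf (nat_lit 0) (nat_lit 1378191547321) (nat_lit 0) (nat_lit 0) (nat_lit 0) (nat_lit 0) (nat_lit 0) (nat_lit 0) (nat_lit 1) (nat_lit 0) (nat_lit 1) (nat_lit 0) (nat_lit 353) (nat_lit 453) (nat_lit 274)))))) (XT.nd (nat_lit 470) (nat_lit 0) (nat_lit 0) (XT.nd (nat_lit 188) (nat_lit 0) (nat_lit 0) (XT.nd (nat_lit 94) (nat_lit 0) (nat_lit 0) (XT.lf (nat_lit 0) (nat_lit 1378191441122) (nat_lit 0) (nat_lit 0) (nat_lit 0) (nat_lit 0) (nat_lit 0) (nat_lit 0) (nat_lit 1) (nat_lit 0) (nat_lit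 1) (nat_lit 0) (nat_lit 354) (nat_lit 453) (nat_lit 273)) (XT.lf (nat_lit 0) (nat_lit 1378191342789) (nat_lit 0) (nat_lit 0) (nat_lit 0) (nat_lit 0) (nat_lit 0) (nat_lit 0) (nat_lit 1) (nat_lit 0) (nat_lit 1) (nat_lit 0) (nat_lit 355) (nat_lit 453) (nat_lit 272))) (XT.nd (nat_lit 94) (nat_lit 0) (nat_lit 0) (XT.lf (nat_lit 0) (nat_lit 1378191251739) (nat_lit 0) (nat_lit 0) (nat_lit 0) (nat_lit 0) (nat_lit 0) (nat_lit 0) (nat_lit 1) (nat_lit 0) (nat_lit 1) (nat_lit 0) (nat_lit 356) (nat_lit 453) (nat_lit 271)) (XT.nd (nat_lit 94) (nat_lit 0) (nat_lit 0) (XT.lf (nat_lit 0) (nat_lit 1378191167435) (nat_lit 0) (nat_lit 0) (nat_lit 0) (nat_lit 0) (nat_lit 0) (nat_lit 0) (nat_lit 1) (nat_lit 0) (nat_lit 1) (nat_lit 0) (nat_lit 357) (nat_lit 453) (nat_lit 270)) (XT.lf (nat_lit 0) (nat_lit 1378191089375) (nat_lit 0) (nat_lit 0) (nat_lit 0) (nat_lit 0) (nat_lit 0)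 (nat_lit 0) (nat_lit 1) (nat_lit 0) (nat_lit 1) (nat_lit 0) (nat_lit 358) (nat_lit 453) (nat_lit 269))))) (XT.nd (nat_lit 188) (nat_lit 0) (nat_lit 0) (XT.nd (nat_lit 94) (nat_lit 0) (nat_lit 0) (XT.lf (nat_lit 0) (nat_lit 1378191017097) (nat_lit 0) (nat_lit 0) (nat_lit 0) (nat_lit 0) (nat_lit 0) (nat_lit 0) (nat_lit 1) (nat_lit 0) (nat_lit 1) (nat_lit 0) (nat_lit 359) (nat_lit 453) (nat_lit 268)) (XT.lf (nat_lit 0) (nat_lit 1378190950173) (nat_lit 0) (nat_lit 0) (nat_lit 0) (nat_lit 0) (nat_lit 0) (nat_lit 0) (nat_lit 1) (nat_lit 0) (nat_lit 1) (nat_lit 0) (nat_lit 360) (nat_lit 453) (nat_lit 267))) (XT.nd (nat_lit 94) (nat_lit 0) (nat_lit 0) (XT.lf (nat_lit 0) (nat_lit 1378190888207) (nat_lit 0) (nat_lit 0) (nat_lit 0) (nat_lit 0) (nat_lit 0) (nat_lit 0) (nat_lit 1) (nat_lit 0) (nat_lit 1) (nat_lit 0) (nat_lit 361) (nat_lit 453) (nat_lit 266)) (XT.nd (nat_lit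 94) (nat_lit 0) (nat_lit 0) (XT.lf (nat_lit 0) (nat_lit 1378190830830) (nat_lit 0) (nat_lit 0) (nat_lit 0) (nat_lit 0) (nat_lit 0) (nat_lit 0) (nat_lit 1) (nat_lit 0) (nat_lit 1) (nat_lit 0) (nat_lit 362) (nat_lit 453) (nat_lit 265)) (XT.lf (nat_lit 0) (nat_lit 1378190777704) (nat_lit 0) (nat_lit 0) (nat_lit 0) (nat_lit 0) (nat_lit 0) (nat_lit 0) (nat_lit 1) (nat_lit 0) (nat_lit 1) (nat_lit 0) (nat_lit 363) (nat_lit 453) (nat_lit 264))))))) (XT.nd (nat_lit 846) (nat_lit 0) (nat_lit 0) (XT.nd (nat_lit 376) (nat_lit 0) (nat_lit 0) (XT.nd (nat_lit 188) (nat_lit 0) (nat_lit 0) (XT.nd (nat_lit 94) (nat_lit 0) (nat_lit 0) (XT.lf (nat_lit 0) (nat_lit 1378190728513) (nat_lit 0) (nat_lit 0) (nat_lit 0) (nat_lit 0) (nat_lit 0) (nat_lit 0) (nat_lit 1) (nat_lit 0) (nat_lit 1) (nat_lit 0) (nat_lit 364) (nat_lit 453) (nat_lit 263)) (XT.lf (nat_lit 0) (nat_lit 1378190682966)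 (nat_lit 0) (nat_lit 0) (nat_lit 0) (nat_lit 0) (nat_lit 0) (nat_lit 0) (nat_lit 1) (nat_lit 0) (nat_lit 1) (nat_lit 0) (nat_lit 365) (nat_lit 453) (nat_lit 262))) (XT.nd (nat_lit 94) (nat_lit 0) (nat_lit 0) (XT.lf (nat_lit 0) (nat_lit 1378190640793) (nat_lit 0) (nat_lit 0) (nat_lit 0) (nat_lit 0) (nat_lit 0) (nat_lit 0) (nat_lit 1) (nat_lit 0) (nat_lit 1) (nat_lit 0) (nat_lit 366) (nat_lit 453) (nat_lit 261)) (XT.lf (nat_lit 0) (nat_lit 1378190601743) (nat_lit 0) (nat_lit 0) (nat_lit 0) (nat_lit 0) (nat_lit 0) (nat_lit 0) (nat_lit 1) (nat_lit 0) (nat_lit 1) (nat_lit 0) (nat_lit 367) (nat_lit 453) (nat_lit 260)))) (XT.nd (nat_lit 188) (nat_lit 0) (nat_lit 0) (XT.nd (nat_lit 94) (nat_lit 0) (nat_lit 0) (XT.lf (nat_lit 0) (nat_lit 1378190565586) (nat_lit 0) (nat_lit 0) (nat_lit 0) (nat_lit 0) (nat_lit 0) (nat_lit 0) (nat_lit 1) (nat_lit 0) (nat_lit 1) (nat_lit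 0) (nat_lit 368) (nat_lit 453) (nat_lit 259)) (XT.lf (nat_lit 0) (nat_lit 1378190532108) (nat_lit 0) (nat_lit 0) (nat_lit 0) (nat_lit 0) (nat_lit 0) (nat_lit 0) (nat_lit 1) (nat_lit 0) (nat_lit 1) (nat_lit 0) (nat_lit 369) (nat_lit 453) (nat_lit 258))) (XT.nd (nat_lit 94) (nat_lit 0) (nat_lit 0) (XT.lf (nat_lit 0) (nat_lit 1378190501109) (nat_lit 0) (nat_lit 0) (nat_lit 0) (nat_lit 0) (nat_lit 0) (nat_lit 0) (nat_lit 1) (nat_lit 0) (nat_lit 1) (nat_lit 0) (nat_lit 370) (nat_lit 453) (nat_lit 257)) (XT.nd (nat_lit 94) (nat_lit 0) (nat_lit 0) (XT.lf (nat_lit 0) (nat_lit 1378190472407) (nat_lit 0) (nat_lit 0) (nat_lit 0) (nat_lit 0) (nat_lit 0) (nat_lit 0) (nat_lit 1) (nat_lit 0) (nat_lit 1) (nat_lit 0) (nat_lit 371) (nat_lit 453) (nat_lit 256)) (XT.lf (nat_lit 0) (nat_lit 1378190445830) (nat_lit 0) (nat_lit 0) (nat_lit 0) (nat_lit 0) (nat_lit 0) (nat_lit 0)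 (nat_lit 1) (nat_lit 0) (nat_lit 1) (nat_lit 0) (nat_lit 372) (nat_lit 453) (nat_lit 255)))))) (XT.nd (nat_lit 470) (nat_lit 0) (nat_lit 0) (XT.nd (nat_lit 188) (nat_lit 0) (nat_lit 0) (XT.nd (nat_lit 94) (nat_lit 0) (nat_lit 0) (XT.lf (nat_lit 0) (nat_lit 1378190421223) (nat_lit 0) (nat_lit 0) (nat_lit 0) (nat_lit 0) (nat_lit 0) (nat_lit 0) (nat_lit 1) (nat_lit 0) (nat_lit 1) (nat_lit 0) (nat_lit 373) (nat_lit 453) (nat_lit 254)) (XT.lf (nat_lit 0) (nat_lit 1378190398438) (nat_lit 0) (nat_lit 0) (nat_lit 0) (nat_lit 0) (nat_lit 0) (nat_lit 0) (nat_lit 1) (nat_lit 0) (nat_lit 1) (nat_lit 0) (nat_lit 374) (nat_lit 453) (nat_lit 253))) (XT.nd (nat_lit 94) (nat_lit 0) (nat_lit 0) (XT.lf (nat_lit 0) (nat_lit 1378190377340) (nat_lit 0) (nat_lit 0) (nat_lit 0) (nat_lit 0) (nat_lit 0) (nat_lit 0) (nat_lit 1) (nat_lit 0) (nat_lit 1) (nat_lit 0) (nat_lit 375) (nat_lit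 453) (nat_lit 252)) (XT.nd (nat_lit 94) (nat_lit 0) (nat_lit 0) (XT.lf (nat_lit 0) (nat_lit 1378190357806) (nat_lit 0) (nat_lit 0) (nat_lit 0) (nat_lit 0) (nat_lit 0) (nat_lit 0) (nat_lit 1) (nat_lit 0) (nat_lit 1) (nat_lit 0) (nat_lit 376) (nat_lit 453) (nat_lit 251)) (XT.lf (nat_lit 0) (nat_lit 1378190339719) (nat_lit 0) (nat_lit 0) (nat_lit 0) (nat_lit 0) (nat_lit 0) (nat_lit 0) (nat_lit 1) (nat_lit 0) (nat_lit 1) (nat_lit 0) (nat_lit 377) (nat_lit 453) (nat_lit 250))))) (XT.nd (nat_lit 188) (nat_lit 0) (nat_lit 0) (XT.nd (nat_lit 94) (nat_lit 0) (nat_lit 0) (XT.lf (nat_lit 0) (nat_lit 1378190322971) (nat_lit 0) (nat_lit 0) (nat_lit 0) (nat_lit 0) (nat_lit 0) (nat_lit 0) (nat_lit 1) (nat_lit 0) (nat_lit 1) (nat_lit 0) (nat_lit 378) (nat_lit 453) (nat_lit 249)) (XT.lf (nat_lit 0) (nat_lit 1378190307464) (nat_lit 0) (nat_lit 0) (nat_lit 0) (nat_lit 0) (nat_lit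 0) (nat_lit 0) (nat_lit 1) (nat_lit 0) (nat_lit 1) (nat_lit 0) (nat_lit 379) (nat_lit 453) (nat_lit 248))) (XT.nd (nat_lit 94) (nat_lit 0) (nat_lit 0) (XT.lf (nat_lit 0) (nat_lit 1378190293106) (nat_lit 0) (nat_lit 0) (nat_lit 0) (nat_lit 0) (nat_lit 0) (nat_lit 0) (nat_lit 1) (nat_lit 0) (nat_lit 1) (nat_lit 0) (nat_lit 380) (nat_lit 453) (nat_lit 247)) (XT.nd (nat_lit 94) (nat_lit 0) (nat_lit 0) (XT.lf (nat_lit 0) (nat_lit 1378190279811) (nat_lit 0) (nat_lit 0) (nat_lit 0) (nat_lit 0) (nat_lit 0) (nat_lit 0) (nat_lit 1) (nat_lit 0) (nat_lit 1) (nat_lit 0) (nat_lit 381) (nat_lit 453) (nat_lit 246)) (XT.lf (nat_lit 0) (nat_lit 1378190267501) (nat_lit 0) (nat_lit 0) (nat_lit 0) (nat_lit 0) (nat_lit 0) (nat_lit 0) (nat_lit 1) (nat_lit 0) (nat_lit 1) (nat_lit 0) (nat_lit 382) (nat_lit 453) (nat_lit 245))))))))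
noncomputable def ec458 : XT := (XT.nd (nat_lit 1692) (nat_lit 0) (nat_lit 0) (XT.nd (nat_lit 846) (nat_lit 0) (nat_lit 0) (XT.nd (nat_lit 376) (nat_lit 0) (nat_lit 0) (XT.nd (nat_lit 188) (nat_lit 0) (nat_lit 0) (XT.nd (nat_lit 94) (nat_lit 0) (nat_lit 0) (XT.lf (nat_lit 0) (nat_lit 1378190256103) (nat_lit 0) (nat_lit 0) (nat_lit 0) (nat_lit 0) (nat_lit 0) (nat_lit 0) (nat_lit 1) (nat_lit 0) (nat_lit 1) (nat_lit 0) (nat_lit 383) (nat_lit 453) (nat_lit 244)) (XT.lf (nat_lit 0) (nat_lit 1378190245549) (nat_lit 0) (nat_lit 0) (nat_lit 0) (nat_lit 0) (nat_lit 0) (nat_lit 0) (nat_lit 1) (nat_lit 0) (nat_lit 1) (nat_lit 0) (nat_lit 384) (nat_lit 453) (nat_lit 243))) (XT.nd (nat_lit 94) (nat_lit 0) (nat_lit 0) (XT.lf (nat_lit 0) (nat_lit 1378190235777) (nat_lit 0) (nat_lit 0) (nat_lit 0) (nat_lit 0) (nat_lit 0) (nat_lit 0) (nat_lit 1) (nat_lit 0) (nat_lit 1) (nat_lit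 0) (nat_lit 385) (nat_lit 453) (nat_lit 242)) (XT.lf (nat_lit 0) (nat_lit 1378190226729) (nat_lit 0) (nat_lit 0) (nat_lit 0) (nat_lit 0) (nat_lit 0) (nat_lit 0) (nat_lit 1) (nat_lit 0) (nat_lit 1) (nat_lit 0) (nat_lit 386) (nat_lit 453) (nat_lit 241)))) (XT.nd (nat_lit 188) (nat_lit 0) (nat_lit 0) (XT.nd (nat_lit 94) (nat_lit 0) (nat_lit 0) (XT.lf (nat_lit 0) (nat_lit 1378190218351) (nat_lit 0) (nat_lit 0) (nat_lit 0) (nat_lit 0) (nat_lit 0) (nat_lit 0) (nat_lit 1) (nat_lit 0) (nat_lit 1) (nat_lit 0) (nat_lit 387) (nat_lit 453) (nat_lit 240)) (XT.lf (nat_lit 0) (nat_lit 1378190210593) (nat_lit 0) (nat_lit 0) (nat_lit 0) (nat_lit 0) (nat_lit 0) (nat_lit 0) (nat_lit 1) (nat_lit 0) (nat_lit 1) (nat_lit 0) (nat_lit 388) (nat_lit 453) (nat_lit 239))) (XT.nd (nat_lit 94) (nat_lit 0) (nat_lit 0) (XT.lf (nat_lit 0) (nat_lit 1378190203410) (nat_lit 0) (nat_lit 0) (nat_lit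 0) (nat_lit 0) (nat_lit 0) (nat_lit 0) (nat_lit 1) (nat_lit 0) (nat_lit 1) (nat_lit 0) (nat_lit 389) (nat_lit 453) (nat_lit 238)) (XT.nd (nat_lit 94) (nat_lit 0) (nat_lit 0) (XT.lf (nat_lit 0) (nat_lit 1378190196760) (nat_lit 0) (nat_lit 0) (nat_lit 0) (nat_lit 0) (nat_lit 0) (nat_lit 0) (nat_lit 1) (nat_lit 0) (nat_lit 1) (nat_lit 0) (nat_lit 390) (nat_lit 453) (nat_lit 237)) (XT.lf (nat_lit 0) (nat_lit 1378190190602) (nat_lit 0) (nat_lit 0) (nat_lit 0) (nat_lit 0) (nat_lit 0) (nat_lit 0) (nat_lit 1) (nat_lit 0) (nat_lit 1) (nat_lit 0) (nat_lit 391) (nat_lit 453) (nat_lit 236)))))) (XT.nd (nat_lit 376) (nat_lit 0) (nat_lit 0) (XT.nd (nat_lit 188) (nat_lit 0) (nat_lit 0) (XT.nd (nat_lit 94) (nat_lit 0) (nat_lit 0) (XT.lf (nat_lit 0) (nat_lit 1378190184900) (nat_lit 0) (nat_lit 0) (nat_lit 0) (nat_lit 0) (nat_lit 0) (nat_lit 0) (nat_lit 1) (nat_lit 0) (nat_lit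 1) (nat_lit 0) (nat_lit 392) (nat_lit 453) (nat_lit 235)) (XT.lf (nat_lit 0) (nat_lit 1378190179620) (nat_lit 0) (nat_lit 0) (nat_lit 0) (nat_lit 0) (nat_lit 0) (nat_lit 0) (nat_lit 1) (nat_lit 0) (nat_lit 1) (nat_lit 0) (nat_lit 393) (nat_lit 453) (nat_lit 234))) (XT.nd (nat_lit 94) (nat_lit 0) (nat_lit 0) (XT.lf (nat_lit 0) (nat_lit 1378190174732) (nat_lit 0) (nat_lit 0) (nat_lit 0) (nat_lit 0) (nat_lit 0) (nat_lit 0) (nat_lit 1) (nat_lit 0) (nat_lit 1) (nat_lit 0) (nat_lit 394) (nat_lit 453) (nat_lit 233)) (XT.lf (nat_lit 0) (nat_lit 1378190170205) (nat_lit 0) (nat_lit 0) (nat_lit 0) (nat_lit 0) (nat_lit 0) (nat_lit 0) (nat_lit 1) (nat_lit 0) (nat_lit 1) (nat_lit 0) (nat_lit 395) (nat_lit 453) (nat_lit 232)))) (XT.nd (nat_lit 188) (nat_lit 0) (nat_lit 0) (XT.nd (nat_lit 94) (nat_lit 0) (nat_lit 0) (XT.lf (nat_lit 0) (nat_lit 1378190166014) (nat_lit 0) (nat_lit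 0) (nat_lit 0) (nat_lit 0) (nat_lit 0) (nat_lit 0) (nat_lit 1) (nat_lit 0) (nat_lit 1) (nat_lit 0) (nat_lit 396) (nat_lit 453) (nat_lit 231)) (XT.lf (nat_lit 0) (nat_lit 1378190162134) (nat_lit 0) (nat_lit 0) (nat_lit 0) (nat_lit 0) (nat_lit 0) (nat_lit 0) (nat_lit 1) (nat_lit 0) (nat_lit 1) (nat_lit 0) (nat_lit 397) (nat_lit 453) (nat_lit 230))) (XT.nd (nat_lit 94) (nat_lit 0) (nat_lit 0) (XT.lf (nat_lit 0) (nat_lit 1378190158540) (nat_lit 0) (nat_lit 0) (nat_lit 0) (nat_lit 0) (nat_lit 0) (nat_lit 0) (nat_lit 1) (nat_lit 0) (nat_lit 1) (nat_lit 0) (nat_lit 398) (nat_lit 453) (nat_lit 229)) (XT.nd (nat_lit 94) (nat_lit 0) (nat_lit 0) (XT.lf (nat_lit 0) (nat_lit 1378190155213) (nat_lit 0) (nat_lit 0) (nat_lit 0) (nat_lit 0) (nat_lit 0) (nat_lit 0) (nat_lit 1) (nat_lit 0) (nat_lit 1) (nat_lit 0) (nat_lit 399) (nat_lit 453) (nat_lit 228)) (XT.lf (nat_lit 0)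 (nat_lit 1378190152133) (nat_lit 0) (nat_lit 0) (nat_lit 0) (nat_lit 0) (nat_lit 0) (nat_lit 0) (nat_lit 1) (nat_lit 0) (nat_lit 1) (nat_lit 0) (nat_lit 400) (nat_lit 453) (nat_lit 227))))))) (XT.nd (nat_lit 846) (nat_lit 0) (nat_lit 0) (XT.nd (nat_lit 376) (nat_lit 0) (nat_lit 0) (XT.nd (nat_lit 188) (nat_lit 0) (nat_lit 0) (XT.nd (nat_lit 94) (nat_lit 0) (nat_lit 0) (XT.lf (nat_lit 0) (nat_lit 1378190149281) (nat_lit 0) (nat_lit 0) (nat_lit 0) (nat_lit 0) (nat_lit 0) (nat_lit 0) (nat_lit 1) (nat_lit 0) (nat_lit 1) (nat_lit 0) (nat_lit 401) (nat_lit 453) (nat_lit 226)) (XT.lf (nat_lit 0) (nat_lit 1378190146639) (nat_lit 0) (nat_lit 0) (nat_lit 0) (nat_lit 0) (nat_lit 0) (nat_lit 0) (nat_lit 1) (nat_lit 0) (nat_lit 1) (nat_lit 0) (nat_lit 402) (nat_lit 453) (nat_lit 225))) (XT.nd (nat_lit 94) (nat_lit 0) (nat_lit 0) (XT.lf (nat_lit 0) (nat_lit 1378190144194)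 (nat_lit 0) (nat_lit 0) (nat_lit 0) (nat_lit 0) (nat_lit 0) (nat_lit 0) (nat_lit 1) (nat_lit 0) (nat_lit 1) (nat_lit 0) (nat_lit 403) (nat_lit 453) (nat_lit 224)) (XT.lf (nat_lit 0) (nat_lit 1378190141930) (nat_lit 0) (nat_lit 0) (nat_lit 0) (nat_lit 0) (nat_lit 0) (nat_lit 0) (nat_lit 1) (nat_lit 0) (nat_lit 1) (nat_lit 0) (nat_lit 404) (nat_lit 453) (nat_lit 223)))) (XT.nd (nat_lit 188) (nat_lit 0) (nat_lit 0) (XT.nd (nat_lit 94) (nat_lit 0) (nat_lit 0) (XT.lf (nat_lit 0) (nat_lit 1378190139833) (nat_lit 0) (nat_lit 0) (nat_lit 0) (nat_lit 0) (nat_lit 0) (nat_lit 0) (nat_lit 1) (nat_lit 0) (nat_lit 1) (nat_lit 0) (nat_lit 405) (nat_lit 453) (nat_lit 222)) (XT.lf (nat_lit 0) (nat_lit 1378190137892) (nat_lit 0) (nat_lit 0) (nat_lit 0) (nat_lit 0) (nat_lit 0) (nat_lit 0) (nat_lit 1) (nat_lit 0) (nat_lit 1) (nat_lit 0) (nat_lit 406) (nat_lit 453) (nat_lit 221)))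 (XT.nd (nat_lit 94) (nat_lit 0) (nat_lit 0) (XT.lf (nat_lit 0) (nat_lit 1378190136094) (nat_lit 0) (nat_lit 0) (nat_lit 0) (nat_lit 0) (nat_lit 0) (nat_lit 0) (nat_lit 1) (nat_lit 0) (nat_lit 1) (nat_lit 0) (nat_lit 407) (nat_lit 453) (nat_lit 220)) (XT.nd (nat_lit 94) (nat_lit 0) (nat_lit 0) (XT.lf (nat_lit 0) (nat_lit 1378190134430) (nat_lit 0) (nat_lit 0) (nat_lit 0) (nat_lit 0) (nat_lit 0) (nat_lit 0) (nat_lit 1) (nat_lit 0) (nat_lit 1) (nat_lit 0) (nat_lit 408) (nat_lit 453) (nat_lit 219)) (XT.lf (nat_lit 0) (nat_lit 1378190132889) (nat_lit 0) (nat_lit 0) (nat_lit 0) (nat_lit 0) (nat_lit 0) (nat_lit 0) (nat_lit 1) (nat_lit 0) (nat_lit 1) (nat_lit 0) (nat_lit 409) (nat_lit 453) (nat_lit 218)))))) (XT.nd (nat_lit 470) (nat_lit 0) (nat_lit 0) (XT.nd (nat_lit 188) (nat_lit 0) (nat_lit 0) (XT.nd (nat_lit 94) (nat_lit 0) (nat_lit 0) (XT.lf (nat_lit 0) (nat_lit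 1378190131462) (nat_lit 0) (nat_lit 0) (nat_lit 0) (nat_lit 0) (nat_lit 0) (nat_lit 0) (nat_lit 1) (nat_lit 0) (nat_lit 1) (nat_lit 0) (nat_lit 410) (nat_lit 453) (nat_lit 217)) (XT.lf (nat_lit 0) (nat_lit 1378190130141) (nat_lit 0) (nat_lit 0) (nat_lit 0) (nat_lit 0) (nat_lit 0) (nat_lit 0) (nat_lit 1) (nat_lit 0) (nat_lit 1) (nat_lit 0) (nat_lit 411) (nat_lit 453) (nat_lit 216))) (XT.nd (nat_lit 94) (nat_lit 0) (nat_lit 0) (XT.lf (nat_lit 0) (nat_lit 1378190128918) (nat_lit 0) (nat_lit 0) (nat_lit 0) (nat_lit 0) (nat_lit 0) (nat_lit 0) (nat_lit 1) (nat_lit 0) (nat_lit 1) (nat_lit 0) (nat_lit 412) (nat_lit 453) (nat_lit 215)) (XT.nd (nat_lit 94) (nat_lit 0) (nat_lit 0) (XT.lf (nat_lit 0) (nat_lit 1378190127785) (nat_lit 0) (nat_lit 0) (nat_lit 0) (nat_lit 0) (nat_lit 0) (nat_lit 0) (nat_lit 1) (nat_lit 0) (nat_lit 1) (nat_lit 0) (nat_lit 413) (nat_lit 453)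 (nat_lit 214)) (XT.lf (nat_lit 0) (nat_lit 1378190126736) (nat_lit 0) (nat_lit 0) (nat_lit 0) (nat_lit 0) (nat_lit 0) (nat_lit 0) (nat_lit 1) (nat_lit 0) (nat_lit 1) (nat_lit 0) (nat_lit 414) (nat_lit 453) (nat_lit 213))))) (XT.nd (nat_lit 3290) (nat_lit 0) (nat_lit 0) (XT.nd (nat_lit 94) (nat_lit 0) (nat_lit 0) (XT.lf (nat_lit 0) (nat_lit 1378190125765) (nat_lit 0) (nat_lit 0) (nat_lit 0) (nat_lit 0) (nat_lit 0) (nat_lit 0) (nat_lit 1) (nat_lit 0) (nat_lit 1) (nat_lit 0) (nat_lit 415) (nat_lit 453) (nat_lit 212)) (XT.lf (nat_lit 0) (nat_lit 1378190124866) (nat_lit 0) (nat_lit 0) (nat_lit 0) (nat_lit 0) (nat_lit 0) (nat_lit 0) (nat_lit 1) (nat_lit 0) (nat_lit 1) (nat_lit 0) (nat_lit 416) (nat_lit 453) (nat_lit 211))) (XT.nd (nat_lit 94) (nat_lit 0) (nat_lit 0) (XT.lf (nat_lit 0) (nat_lit 1378190114447) (nat_lit 0) (nat_lit 0) (nat_lit 0) (nat_lit 0) (nat_lit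 0) (nat_lit 0) (nat_lit 1) (nat_lit 0) (nat_lit 1) (nat_lit 0) (nat_lit 450) (nat_lit 453) (nat_lit 177)) (XT.nd (nat_lit 94) (nat_lit 0) (nat_lit 0) (XT.lf (nat_lit 0) (nat_lit 1378190114386) (nat_lit 0) (nat_lit 0) (nat_lit 0) (nat_lit 0) (nat_lit 0) (nat_lit 0) (nat_lit 1) (nat_lit 0) (nat_lit 1) (nat_lit 0) (nat_lit 451) (nat_lit 453) (nat_lit 176)) (XT.lf (nat_lit 0) (nat_lit 1378190114330) (nat_lit 0) (nat_lit 0) (nat_lit 0) (nat_lit 0) (nat_lit 0) (nat_lit 0) (nat_lit 1) (nat_lit 0) (nat_lit 1) (nat_lit 0) (nat_lit 452) (nat_lit 453) (nat_lit 175))))))))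
noncomputable def ec459 : XT := (XT.nd (nat_lit 46154) (nat_lit 0) (nat_lit 0) (XT.nd (nat_lit 45214) (nat_lit 0) (nat_lit 1008) (XT.nd (nat_lit 41360) (nat_lit 0) (nat_lit 2268) (XT.nd (nat_lit 188) (nat_lit 0) (nat_lit 0) (XT.nd (nat_lit 94) (nat_lit 0) (nat_lit 0) (XT.lf (nat_lit 0) (nat_lit 1378190114278) (nat_lit 0) (nat_lit 0) (nat_lit 0) (nat_lit 0) (nat_lit 0) (nat_lit 0) (nat_lit 1) (nat_lit 0) (nat_lit 1) (nat_lit 0) (nat_lit 453) (nat_lit 453) (nat_lit 174)) (XT.lf (nat_lit 0) (nat_lit 1378190114229) (nat_lit 0) (nat_lit 0) (nat_lit 0) (nat_lit 0) (nat_lit 0) (nat_lit 0) (nat_lit 1) (nat_lit 0) (nat_lit 1) (nat_lit 0) (nat_lit 454) (nat_lit 453) (nat_lit 173))) (XT.nd (nat_lit 94) (nat_lit 0) (nat_lit 0) (XT.lf (nat_lit 0) (nat_lit 1378190114185) (nat_lit 0) (nat_lit 0) (nat_lit 0) (nat_lit 0) (nat_lit 0) (nat_lit 0) (nat_lit 1) (nat_lit 0) (nat_lit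 1) (nat_lit 0) (nat_lit 455) (nat_lit 453) (nat_lit 172)) (XT.lf (nat_lit 0) (nat_lit 1378190114143) (nat_lit 0) (nat_lit 0) (nat_lit 0) (nat_lit 0) (nat_lit 0) (nat_lit 0) (nat_lit 1) (nat_lit 0) (nat_lit 1) (nat_lit 0) (nat_lit 456) (nat_lit 453) (nat_lit 171)))) (XT.nd (nat_lit 188) (nat_lit 8484) (nat_lit 0) (XT.nd (nat_lit 94) (nat_lit 0) (nat_lit 84) (XT.lf (nat_lit 924) (nat_lit 744873793077) (nat_lit 0) (nat_lit 1322521707448) (nat_lit 924) (nat_lit 744873793077) (nat_lit 139) (nat_lit 1) (nat_lit 128) (nat_lit 0) (nat_lit 139) (nat_lit 0) (nat_lit 172) (nat_lit 454) (nat_lit 454)) (XT.lf (nat_lit 924) (nat_lit 277860780627) (nat_lit 0) (nat_lit 2596510936668) (nat_lit 840) (nat_lit 2539379021308) (nat_lit 140) (nat_lit 1) (nat_lit 129) (nat_lit 1) (nat_lit 139) (nat_lit 1) (nat_lit 173) (nat_lit 454) (nat_lit 453))) (XT.nd (nat_lit 94) (nat_lit 8568)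 (nat_lit 0) (XT.lf (nat_lit 924) (nat_lit 2551990886500) (nat_lit 84) (nat_lit 1738884249512) (nat_lit 0) (nat_lit 922224884822) (nat_lit 140) (nat_lit 1) (nat_lit 130) (nat_lit 1) (nat_lit 129) (nat_lit 1) (nat_lit 174) (nat_lit 454) (nat_lit 452)) (XT.nd (nat_lit 3478) (nat_lit 8652) (nat_lit 0) (XT.lf (nat_lit 924) (nat_lit 2205129188039) (nat_lit 84) (nat_lit 728754336164) (nat_lit 0) (nat_lit 2088606849713) (nat_lit 141) (nat_lit 1) (nat_lit 131) (nat_lit 1) (nat_lit 130) (nat_lit 1) (nat_lit 175) (nat_lit 454) (nat_lit 451)) (XT.lf (nat_lit 168) (nat_lit 574002995053) (nat_lit 0) (nat_lit 603299321280) (nat_lit 84) (nat_lit 446770731739) (nat_lit 29) (nat_lit 1) (nat_lit 27) (nat_lit 1) (nat_lit 28) (nat_lit 1) (nat_lit 212) (nat_lit 454) (nat_lit 414)))))) (XT.nd (nat_lit 470) (nat_lit 588) (nat_lit 0) (XT.nd (nat_lit 188) (nat_lit 420) (nat_lit 0)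 (XT.nd (nat_lit 94) (nat_lit 84) (nat_lit 0) (XT.lf (nat_lit 84) (nat_lit 430300383565) (nat_lit 0) (nat_lit 205030433460) (nat_lit 168) (nat_lit 945952415119) (nat_lit 26) (nat_lit 1) (nat_lit 25) (nat_lit 1) (nat_lit 27) (nat_lit 1) (nat_lit 213) (nat_lit 454) (nat_lit 413)) (XT.lf (nat_lit 168) (nat_lit 597942293223) (nat_lit 0) (nat_lit 665401927993) (nat_lit 84) (nat_lit 276286819046) (nat_lit 26) (nat_lit 1) (nat_lit 24) (nat_lit 1) (nat_lit 25) (nat_lit 1) (nat_lit 214) (nat_lit 454) (nat_lit 412))) (XT.nd (nat_lit 94) (nat_lit 252) (nat_lit 0) (XT.lf (nat_lit 84) (nat_lit 544289976618) (nat_lit 0) (nat_lit 152955376810) (nat_lit 168) (nat_lit 802014672810) (nat_lit 23) (nat_lit 1) (nat_lit 22) (nat_lit 1) (nat_lit 24) (nat_lit 1) (nat_lit 215) (nat_lit 454) (nat_lit 411)) (XT.nd (nat_lit 94) (nat_lit 168) (nat_lit 0) (XT.lf (nat_lit 168) (nat_lit 600869691279)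 (nat_lit 0) (nat_lit 728310768385) (nat_lit 84) (nat_lit 130835042422) (nat_lit 23) (nat_lit 1) (nat_lit 21) (nat_lit 1) (nat_lit 22) (nat_lit 1) (nat_lit 216) (nat_lit 454) (nat_lit 410)) (XT.lf (nat_lit 84) (nat_lit 638023942083) (nat_lit 0) (nat_lit 120971499565) (nat_lit 168) (nat_lit 662888623218) (nat_lit 20) (nat_lit 1) (nat_lit 19) (nat_lit 1) (nat_lit 21) (nat_lit 1) (nat_lit 217) (nat_lit 454) (nat_lit 409))))) (XT.nd (nat_lit 188) (nat_lit 336) (nat_lit 0) (XT.nd (nat_lit 94) (nat_lit 168) (nat_lit 0) (XT.lf (nat_lit 168) (nat_lit 588005256375) (nat_lit 0) (nat_lit 790177671269) (nat_lit 84) (nat_lit 6693187944) (nat_lit 20) (nat_lit 1) (nat_lit 18) (nat_lit 1) (nat_lit 19) (nat_lit 1) (nat_lit 218) (nat_lit 454) (nat_lit 408)) (XT.lf (nat_lit 84) (nat_lit 714647994254) (nat_lit 0) (nat_lit 104351116106) (nat_lit 168) (nat_lit 529825882279) (nat_lit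 17) (nat_lit 1) (nat_lit 16) (nat_lit 1) (nat_lit 18) (nat_lit 1) (nat_lit 219) (nat_lit 454) (nat_lit 407))) (XT.nd (nat_lit 94) (nat_lit 252) (nat_lit 0) (XT.lf (nat_lit 0) (nat_lit 96074208614) (nat_lit 0) (nat_lit 751934588066) (nat_lit 168) (nat_lit 465813580843) (nat_lit 15) (nat_lit 3) (nat_lit 15) (nat_lit 1) (nat_lit 17) (nat_lit 1) (nat_lit 220) (nat_lit 454) (nat_lit 406)) (XT.nd (nat_lit 94) (nat_lit 84) (nat_lit 0) (XT.lf (nat_lit 84) (nat_lit 776787393186) (nat_lit 0) (nat_lit 99313146677) (nat_lit 168) (nat_lit 403686178432) (nat_lit 14) (nat_lit 1) (nat_lit 13) (nat_lit 1) (nat_lit 15) (nat_lit 1) (nat_lit 221) (nat_lit 454) (nat_lit 405)) (XT.lf (nat_lit 0) (nat_lit 183537281509) (nat_lit 0) (nat_lit 719055913892) (nat_lit 168) (nat_lit 344064310005) (nat_lit 12) (nat_lit 3) (nat_lit 12) (nat_lit 1) (nat_lit 14) (nat_lit 1) (nat_lit 222) (nat_lit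 454) (nat_lit 404))))))) (XT.nd (nat_lit 846) (nat_lit 0) (nat_lit 0) (XT.nd (nat_lit 376) (nat_lit 504) (nat_lit 0) (XT.nd (nat_lit 188) (nat_lit 252) (nat_lit 0) (XT.nd (nat_lit 94) (nat_lit 84) (nat_lit 0) (XT.lf (nat_lit 84) (nat_lit 826638119960) (nat_lit 0) (nat_lit 102844040015) (nat_lit 168) (nat_lit 285020303508) (nat_lit 11) (nat_lit 1) (nat_lit 10) (nat_lit 1) (nat_lit 12) (nat_lit 1) (nat_lit 223) (nat_lit 454) (nat_lit 403)) (XT.lf (nat_lit 0) (nat_lit 258032992127) (nat_lit 0) (nat_lit 695291004067) (nat_lit 168) (nat_lit 229807087038) (nat_lit 9) (nat_lit 3) (nat_lit 9) (nat_lit 1) (nat_lit 11) (nat_lit 1) (nat_lit 224) (nat_lit 454) (nat_lit 402))) (XT.nd (nat_lit 94) (nat_lit 84) (nat_lit 0) (XT.lf (nat_lit 84) (nat_lit 866041616971) (nat_lit 0) (nat_lit 112551899574) (nat_lit 168) (nat_lit 174137135445) (nat_lit 8) (nat_lit 1) (nat_lit 7)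 (nat_lit 1) (nat_lit 9) (nat_lit 1) (nat_lit 225) (nat_lit 454) (nat_lit 401)) (XT.lf (nat_lit 0) (nat_lit 321351022926) (nat_lit 0) (nat_lit 678377944949) (nat_lit 168) (nat_lit 123282274157) (nat_lit 6) (nat_lit 3) (nat_lit 6) (nat_lit 1) (nat_lit 8) (nat_lit 1) (nat_lit 226) (nat_lit 454) (nat_lit 400)))) (XT.nd (nat_lit 188) (nat_lit 252) (nat_lit 0) (XT.nd (nat_lit 94) (nat_lit 84) (nat_lit 0) (XT.lf (nat_lit 84) (nat_lit 896546089947) (nat_lit 0) (nat_lit 126547699636) (nat_lit 168) (nat_lit 71157699099) (nat_lit 5) (nat_lit 1) (nat_lit 4) (nat_lit 1) (nat_lit 6) (nat_lit 1) (nat_lit 227) (nat_lit 454) (nat_lit 399)) (XT.lf (nat_lit 0) (nat_lit 375005018434) (nat_lit 0) (nat_lit 666522199523) (nat_lit 168) (nat_lit 24559477007) (nat_lit 3) (nat_lit 3) (nat_lit 3) (nat_lit 1) (nat_lit 5) (nat_lit 1) (nat_lit 228) (nat_lit 454) (nat_lit 398))) (XT.nd (nat_lit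 94) (nat_lit 0) (nat_lit 0) (XT.lf (nat_lit 0) (nat_lit 1506962672187) (nat_lit 0) (nat_lit 0) (nat_lit 0) (nat_lit 0) (nat_lit 0) (nat_lit 0) (nat_lit 1) (nat_lit 0) (nat_lit 1) (nat_lit 0) (nat_lit 229) (nat_lit 454) (nat_lit 397)) (XT.nd (nat_lit 94) (nat_lit 0) (nat_lit 0) (XT.lf (nat_lit 0) (nat_lit 1505591016671) (nat_lit 0) (nat_lit 0) (nat_lit 0) (nat_lit 0) (nat_lit 0) (nat_lit 0) (nat_lit 1) (nat_lit 0) (nat_lit 1) (nat_lit 0) (nat_lit 230) (nat_lit 454) (nat_lit 396)) (XT.lf (nat_lit 0) (nat_lit 1504320965267) (nat_lit 0) (nat_lit 0) (nat_lit 0) (nat_lit 0) (nat_lit 0) (nat_lit 0) (nat_lit 1) (nat_lit 0) (nat_lit 1) (nat_lit 0) (nat_lit 231) (nat_lit 454) (nat_lit 395)))))) (XT.nd (nat_lit 470) (nat_lit 0) (nat_lit 0) (XT.nd (nat_lit 188) (nat_lit 0) (nat_lit 0) (XT.nd (nat_lit 94) (nat_lit 0) (nat_lit 0) (XT.lf (nat_lit 0) (nat_lit 1503144991745)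 (nat_lit 0) (nat_lit 0) (nat_lit 0) (nat_lit 0) (nat_lit 0) (nat_lit 0) (nat_lit 1) (nat_lit 0) (nat_lit 1) (nat_lit 0) (nat_lit 232) (nat_lit 454) (nat_lit 394)) (XT.lf (nat_lit 0) (nat_lit 1502056127372) (nat_lit 0) (nat_lit 0) (nat_lit 0) (nat_lit 0) (nat_lit 0) (nat_lit 0) (nat_lit 1) (nat_lit 0) (nat_lit 1) (nat_lit 0) (nat_lit 233) (nat_lit 454) (nat_lit 393))) (XT.nd (nat_lit 94) (nat_lit 0) (nat_lit 0) (XT.lf (nat_lit 0) (nat_lit 1501047919620) (nat_lit 0) (nat_lit 0) (nat_lit 0) (nat_lit 0) (nat_lit 0) (nat_lit 0) (nat_lit 1) (nat_lit 0) (nat_lit 1) (nat_lit 0) (nat_lit 234) (nat_lit 454) (nat_lit 392)) (XT.nd (nat_lit 94) (nat_lit 0) (nat_lit 0) (XT.lf (nat_lit 0) (nat_lit 1500114393923) (nat_lit 0) (nat_lit 0) (nat_lit 0) (nat_lit 0) (nat_lit 0) (nat_lit 0) (nat_lit 1) (nat_lit 0) (nat_lit 1) (nat_lit 0) (nat_lit 235) (nat_lit 454) (nat_lit 391))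 (XT.lf (nat_lit 0) (nat_lit 1499250018278) (nat_lit 0) (nat_lit 0) (nat_lit 0) (nat_lit 0) (nat_lit 0) (nat_lit 0) (nat_lit 1) (nat_lit 0) (nat_lit 1) (nat_lit 0) (nat_lit 236) (nat_lit 454) (nat_lit 390))))) (XT.nd (nat_lit 188) (nat_lit 0) (nat_lit 0) (XT.nd (nat_lit 94) (nat_lit 0) (nat_lit 0) (XT.lf (nat_lit 0) (nat_lit 1498449670459) (nat_lit 0) (nat_lit 0) (nat_lit 0) (nat_lit 0) (nat_lit 0) (nat_lit 0) (nat_lit 1) (nat_lit 0) (nat_lit 1) (nat_lit 0) (nat_lit 237) (nat_lit 454) (nat_lit 389)) (XT.lf (nat_lit 0) (nat_lit 1497708607663) (nat_lit 0) (nat_lit 0) (nat_lit 0) (nat_lit 0) (nat_lit 0) (nat_lit 0) (nat_lit 1) (nat_lit 0) (nat_lit 1) (nat_lit 0) (nat_lit 238) (nat_lit 454) (nat_lit 388))) (XT.nd (nat_lit 94) (nat_lit 0) (nat_lit 0) (XT.lf (nat_lit 0) (nat_lit 1497022438408) (nat_lit 0) (nat_lit 0) (nat_lit 0) (nat_lit 0) (nat_lit 0) (nat_lit 0)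 (nat_lit 1) (nat_lit 0) (nat_lit 1) (nat_lit 0) (nat_lit 239) (nat_lit 454) (nat_lit 387)) (XT.nd (nat_lit 94) (nat_lit 0) (nat_lit 0) (XT.lf (nat_lit 0) (nat_lit 1496387096505) (nat_lit 0) (nat_lit 0) (nat_lit 0) (nat_lit 0) (nat_lit 0) (nat_lit 0) (nat_lit 1) (nat_lit 0) (nat_lit 1) (nat_lit 0) (nat_lit 240) (nat_lit 454) (nat_lit 386)) (XT.lf (nat_lit 0) (nat_lit 1495798816965) (nat_lit 0) (nat_lit 0) (nat_lit 0) (nat_lit 0) (nat_lit 0) (nat_lit 0) (nat_lit 1) (nat_lit 0) (nat_lit 1) (nat_lit 0) (nat_lit 241) (nat_lit 454) (nat_lit 385))))))))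
noncomputable def ec460 : XT := (XT.nd (nat_lit 1692) (nat_lit 0) (nat_lit 0) (XT.nd (nat_lit 846) (nat_lit 0) (nat_lit 0) (XT.nd (nat_lit 376) (nat_lit 0) (nat_lit 0) (XT.nd (nat_lit 188) (nat_lit 0) (nat_lit 0) (XT.nd (nat_lit 94) (nat_lit 0) (nat_lit 0) (XT.lf (nat_lit 0) (nat_lit 1495254113687) (nat_lit 0) (nat_lit 0) (nat_lit 0) (nat_lit 0) (nat_lit 0) (nat_lit 0) (nat_lit 1) (nat_lit 0) (nat_lit 1) (nat_lit 0) (nat_lit 242) (nat_lit 454) (nat_lit 384)) (XT.lf (nat_lit 0) (nat_lit 1494749758800) (nat_lit 0) (nat_lit 0) (nat_lit 0) (nat_lit 0) (nat_lit 0) (nat_lit 0) (nat_lit 1) (nat_lit 0) (nat_lit 1) (nat_lit 0) (nat_lit 243) (nat_lit 454) (nat_lit 383))) (XT.nd (nat_lit 94) (nat_lit 0) (nat_lit 0) (XT.lf (nat_lit 0) (nat_lit 1494282763535) (nat_lit 0) (nat_lit 0) (nat_lit 0) (nat_lit 0) (nat_lit 0) (nat_lit 0) (nat_lit 1) (nat_lit 0) (nat_lit 1) (nat_lit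 0) (nat_lit 244) (nat_lit 454) (nat_lit 382)) (XT.lf (nat_lit 0) (nat_lit 1493850360511) (nat_lit 0) (nat_lit 0) (nat_lit 0) (nat_lit 0) (nat_lit 0) (nat_lit 0) (nat_lit 1) (nat_lit 0) (nat_lit 1) (nat_lit 0) (nat_lit 245) (nat_lit 454) (nat_lit 381)))) (XT.nd (nat_lit 188) (nat_lit 0) (nat_lit 0) (XT.nd (nat_lit 94) (nat_lit 0) (nat_lit 0) (XT.lf (nat_lit 0) (nat_lit 1493449987341) (nat_lit 0) (nat_lit 0) (nat_lit 0) (nat_lit 0) (nat_lit 0) (nat_lit 0) (nat_lit 1) (nat_lit 0) (nat_lit 1) (nat_lit 0) (nat_lit 246) (nat_lit 454) (nat_lit 380)) (XT.lf (nat_lit 0) (nat_lit 1493079271443) (nat_lit 0) (nat_lit 0) (nat_lit 0) (nat_lit 0) (nat_lit 0) (nat_lit 0) (nat_lit 1) (nat_lit 0) (nat_lit 1) (nat_lit 0) (nat_lit 247) (nat_lit 454) (nat_lit 379))) (XT.nd (nat_lit 94) (nat_lit 0) (nat_lit 0) (XT.lf (nat_lit 0) (nat_lit 1492736015982) (nat_lit 0) (nat_lit 0) (nat_lit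 0) (nat_lit 0) (nat_lit 0) (nat_lit 0) (nat_lit 1) (nat_lit 0) (nat_lit 1) (nat_lit 0) (nat_lit 248) (nat_lit 454) (nat_lit 378)) (XT.nd (nat_lit 94) (nat_lit 0) (nat_lit 0) (XT.lf (nat_lit 0) (nat_lit 1492418186851) (nat_lit 0) (nat_lit 0) (nat_lit 0) (nat_lit 0) (nat_lit 0) (nat_lit 0) (nat_lit 1) (nat_lit 0) (nat_lit 1) (nat_lit 0) (nat_lit 249) (nat_lit 454) (nat_lit 377)) (XT.lf (nat_lit 0) (nat_lit 1492123900619) (nat_lit 0) (nat_lit 0) (nat_lit 0) (nat_lit 0) (nat_lit 0) (nat_lit 0) (nat_lit 1) (nat_lit 0) (nat_lit 1) (nat_lit 0) (nat_lit 250) (nat_lit 454) (nat_lit 376)))))) (XT.nd (nat_lit 376) (nat_lit 0) (nat_lit 0) (XT.nd (nat_lit 188) (nat_lit 0) (nat_lit 0) (XT.nd (nat_lit 94) (nat_lit 0) (nat_lit 0) (XT.lf (nat_lit 0) (nat_lit 1491851413367) (nat_lit 0) (nat_lit 0) (nat_lit 0) (nat_lit 0) (nat_lit 0) (nat_lit 0) (nat_lit 1) (nat_lit 0) (nat_lit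 1) (nat_lit 0) (nat_lit 251) (nat_lit 454) (nat_lit 375)) (XT.lf (nat_lit 0) (nat_lit 1491599110355) (nat_lit 0) (nat_lit 0) (nat_lit 0) (nat_lit 0) (nat_lit 0) (nat_lit 0) (nat_lit 1) (nat_lit 0) (nat_lit 1) (nat_lit 0) (nat_lit 252) (nat_lit 454) (nat_lit 374))) (XT.nd (nat_lit 94) (nat_lit 0) (nat_lit 0) (XT.lf (nat_lit 0) (nat_lit 1491365496456) (nat_lit 0) (nat_lit 0) (nat_lit 0) (nat_lit 0) (nat_lit 0) (nat_lit 0) (nat_lit 1) (nat_lit 0) (nat_lit 1) (nat_lit 0) (nat_lit 253) (nat_lit 454) (nat_lit 373)) (XT.lf (nat_lit 0) (nat_lit 1491149187290) (nat_lit 0) (nat_lit 0) (nat_lit 0) (nat_lit 0) (nat_lit 0) (nat_lit 0) (nat_lit 1) (nat_lit 0) (nat_lit 1) (nat_lit 0) (nat_lit 254) (nat_lit 454) (nat_lit 372)))) (XT.nd (nat_lit 188) (nat_lit 0) (nat_lit 0) (XT.nd (nat_lit 94) (nat_lit 0) (nat_lit 0) (XT.lf (nat_lit 0) (nat_lit 1490948901026) (nat_lit 0) (nat_lit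 0) (nat_lit 0) (nat_lit 0) (nat_lit 0) (nat_lit 0) (nat_lit 1) (nat_lit 0) (nat_lit 1) (nat_lit 0) (nat_lit 255) (nat_lit 454) (nat_lit 371)) (XT.lf (nat_lit 0) (nat_lit 1490763450780) (nat_lit 0) (nat_lit 0) (nat_lit 0) (nat_lit 0) (nat_lit 0) (nat_lit 0) (nat_lit 1) (nat_lit 0) (nat_lit 1) (nat_lit 0) (nat_lit 256) (nat_lit 454) (nat_lit 370))) (XT.nd (nat_lit 94) (nat_lit 0) (nat_lit 0) (XT.lf (nat_lit 0) (nat_lit 1490591737590) (nat_lit 0) (nat_lit 0) (nat_lit 0) (nat_lit 0) (nat_lit 0) (nat_lit 0) (nat_lit 1) (nat_lit 0) (nat_lit 1) (nat_lit 0) (nat_lit 257) (nat_lit 454) (nat_lit 369)) (XT.nd (nat_lit 94) (nat_lit 0) (nat_lit 0) (XT.lf (nat_lit 0) (nat_lit 1490432743896) (nat_lit 0) (nat_lit 0) (nat_lit 0) (nat_lit 0) (nat_lit 0) (nat_lit 0) (nat_lit 1) (nat_lit 0) (nat_lit 1) (nat_lit 0) (nat_lit 258) (nat_lit 454) (nat_lit 368)) (XT.lf (nat_lit 0)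 (nat_lit 1490285527512) (nat_lit 0) (nat_lit 0) (nat_lit 0) (nat_lit 0) (nat_lit 0) (nat_lit 0) (nat_lit 1) (nat_lit 0) (nat_lit 1) (nat_lit 0) (nat_lit 259) (nat_lit 454) (nat_lit 367))))))) (XT.nd (nat_lit 846) (nat_lit 0) (nat_lit 0) (XT.nd (nat_lit 376) (nat_lit 0) (nat_lit 0) (XT.nd (nat_lit 188) (nat_lit 0) (nat_lit 0) (XT.nd (nat_lit 94) (nat_lit 0) (nat_lit 0) (XT.lf (nat_lit 0) (nat_lit 1490149216046) (nat_lit 0) (nat_lit 0) (nat_lit 0) (nat_lit 0) (nat_lit 0) (nat_lit 0) (nat_lit 1) (nat_lit 0) (nat_lit 1) (nat_lit 0) (nat_lit 260) (nat_lit 454) (nat_lit 366)) (XT.lf (nat_lit 0) (nat_lit 1490023001725) (nat_lit 0) (nat_lit 0) (nat_lit 0) (nat_lit 0) (nat_lit 0) (nat_lit 0) (nat_lit 1) (nat_lit 0) (nat_lit 1) (nat_lit 0) (nat_lit 261) (nat_lit 454) (nat_lit 365))) (XT.nd (nat_lit 94) (nat_lit 0) (nat_lit 0) (XT.lf (nat_lit 0) (nat_lit 1489906136613)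 (nat_lit 0) (nat_lit 0) (nat_lit 0) (nat_lit 0) (nat_lit 0) (nat_lit 0) (nat_lit 1) (nat_lit 0) (nat_lit 1) (nat_lit 0) (nat_lit 262) (nat_lit 454) (nat_lit 364)) (XT.lf (nat_lit 0) (nat_lit 1489797928177) (nat_lit 0) (nat_lit 0) (nat_lit 0) (nat_lit 0) (nat_lit 0) (nat_lit 0) (nat_lit 1) (nat_lit 0) (nat_lit 1) (nat_lit 0) (nat_lit 263) (nat_lit 454) (nat_lit 363)))) (XT.nd (nat_lit 188) (nat_lit 0) (nat_lit 0) (XT.nd (nat_lit 94) (nat_lit 0) (nat_lit 0) (XT.lf (nat_lit 0) (nat_lit 1489697735179) (nat_lit 0) (nat_lit 0) (nat_lit 0) (nat_lit 0) (nat_lit 0) (nat_lit 0) (nat_lit 1) (nat_lit 0) (nat_lit 1) (nat_lit 0) (nat_lit 264) (nat_lit 454) (nat_lit 362)) (XT.lf (nat_lit 0) (nat_lit 1489604963886) (nat_lit 0) (nat_lit 0) (nat_lit 0) (nat_lit 0) (nat_lit 0) (nat_lit 0) (nat_lit 1) (nat_lit 0) (nat_lit 1) (nat_lit 0) (nat_lit 265) (nat_lit 454) (nat_lit 361)))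 (XT.nd (nat_lit 94) (nat_lit 0) (nat_lit 0) (XT.lf (nat_lit 0) (nat_lit 1489519064540) (nat_lit 0) (nat_lit 0) (nat_lit 0) (nat_lit 0) (nat_lit 0) (nat_lit 0) (nat_lit 1) (nat_lit 0) (nat_lit 1) (nat_lit 0) (nat_lit 266) (nat_lit 454) (nat_lit 360)) (XT.nd (nat_lit 94) (nat_lit 0) (nat_lit 0) (XT.lf (nat_lit 0) (nat_lit 1489439528109) (nat_lit 0) (nat_lit 0) (nat_lit 0) (nat_lit 0) (nat_lit 0) (nat_lit 0) (nat_lit 1) (nat_lit 0) (nat_lit 1) (nat_lit 0) (nat_lit 267) (nat_lit 454) (nat_lit 359)) (XT.lf (nat_lit 0) (nat_lit 1489365883265) (nat_lit 0) (nat_lit 0) (nat_lit 0) (nat_lit 0) (nat_lit 0) (nat_lit 0) (nat_lit 1) (nat_lit 0) (nat_lit 1) (nat_lit 0) (nat_lit 268) (nat_lit 454) (nat_lit 358)))))) (XT.nd (nat_lit 470) (nat_lit 0) (nat_lit 0) (XT.nd (nat_lit 188) (nat_lit 0) (nat_lit 0) (XT.nd (nat_lit 94) (nat_lit 0) (nat_lit 0) (XT.lf (nat_lit 0) (nat_lit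 1489297693594) (nat_lit 0) (nat_lit 0) (nat_lit 0) (nat_lit 0) (nat_lit 0) (nat_lit 0) (nat_lit 1) (nat_lit 0) (nat_lit 1) (nat_lit 0) (nat_lit 269) (nat_lit 454) (nat_lit 357)) (XT.lf (nat_lit 0) (nat_lit 1489234555011) (nat_lit 0) (nat_lit 0) (nat_lit 0) (nat_lit 0) (nat_lit 0) (nat_lit 0) (nat_lit 1) (nat_lit 0) (nat_lit 1) (nat_lit 0) (nat_lit 270) (nat_lit 454) (nat_lit 356))) (XT.nd (nat_lit 94) (nat_lit 0) (nat_lit 0) (XT.lf (nat_lit 0) (nat_lit 1489176093359) (nat_lit 0) (nat_lit 0) (nat_lit 0) (nat_lit 0) (nat_lit 0) (nat_lit 0) (nat_lit 1) (nat_lit 0) (nat_lit 1) (nat_lit 0) (nat_lit 271) (nat_lit 454) (nat_lit 355)) (XT.nd (nat_lit 94) (nat_lit 0) (nat_lit 0) (XT.lf (nat_lit 0) (nat_lit 1489121962201) (nat_lit 0) (nat_lit 0) (nat_lit 0) (nat_lit 0) (nat_lit 0) (nat_lit 0) (nat_lit 1) (nat_lit 0) (nat_lit 1) (nat_lit 0) (nat_lit 272) (nat_lit 454)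 (nat_lit 354)) (XT.lf (nat_lit 0) (nat_lit 1489071840757) (nat_lit 0) (nat_lit 0) (nat_lit 0) (nat_lit 0) (nat_lit 0) (nat_lit 0) (nat_lit 1) (nat_lit 0) (nat_lit 1) (nat_lit 0) (nat_lit 273) (nat_lit 454) (nat_lit 353))))) (XT.nd (nat_lit 188) (nat_lit 0) (nat_lit 0) (XT.nd (nat_lit 94) (nat_lit 0) (nat_lit 0) (XT.lf (nat_lit 0) (nat_lit 1489025432013) (nat_lit 0) (nat_lit 0) (nat_lit 0) (nat_lit 0) (nat_lit 0) (nat_lit 0) (nat_lit 1) (nat_lit 0) (nat_lit 1) (nat_lit 0) (nat_lit 274) (nat_lit 454) (nat_lit 352)) (XT.lf (nat_lit 0) (nat_lit 1488982460954) (nat_lit 0) (nat_lit 0) (nat_lit 0) (nat_lit 0) (nat_lit 0) (nat_lit 0) (nat_lit 1) (nat_lit 0) (nat_lit 1) (nat_lit 0) (nat_lit 275) (nat_lit 454) (nat_lit 351))) (XT.nd (nat_lit 94) (nat_lit 0) (nat_lit 0) (XT.lf (nat_lit 0) (nat_lit 1488942672937) (nat_lit 0) (nat_lit 0) (nat_lit 0) (nat_lit 0) (nat_lit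 0) (nat_lit 0) (nat_lit 1) (nat_lit 0) (nat_lit 1) (nat_lit 0) (nat_lit 276) (nat_lit 454) (nat_lit 350)) (XT.nd (nat_lit 94) (nat_lit 0) (nat_lit 0) (XT.lf (nat_lit 0) (nat_lit 1488905832180) (nat_lit 0) (nat_lit 0) (nat_lit 0) (nat_lit 0) (nat_lit 0) (nat_lit 0) (nat_lit 1) (nat_lit 0) (nat_lit 1) (nat_lit 0) (nat_lit 277) (nat_lit 454) (nat_lit 349)) (XT.lf (nat_lit 0) (nat_lit 1488871720367) (nat_lit 0) (nat_lit 0) (nat_lit 0) (nat_lit 0) (nat_lit 0) (nat_lit 0) (nat_lit 1) (nat_lit 0) (nat_lit 1) (nat_lit 0) (nat_lit 278) (nat_lit 454) (nat_lit 348))))))))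
noncomputable def ec461 : XT := (XT.nd (nat_lit 1786) (nat_lit 0) (nat_lit 0) (XT.nd (nat_lit 846) (nat_lit 0) (nat_lit 0) (XT.nd (nat_lit 376) (nat_lit 0) (nat_lit 0) (XT.nd (nat_lit 188) (nat_lit 0) (nat_lit 0) (XT.nd (nat_lit 94) (nat_lit 0) (nat_lit 0) (XT.lf (nat_lit 0) (nat_lit 1488840135356) (nat_lit 0) (nat_lit 0) (nat_lit 0) (nat_lit 0) (nat_lit 0) (nat_lit 0) (nat_lit 1) (nat_lit 0) (nat_lit 1) (nat_lit 0) (nat_lit 279) (nat_lit 454) (nat_lit 347)) (XT.lf (nat_lit 0) (nat_lit 1488810889975) (nat_lit 0) (nat_lit 0) (nat_lit 0) (nat_lit 0) (nat_lit 0) (nat_lit 0) (nat_lit 1) (nat_lit 0) (nat_lit 1) (nat_lit 0) (nat_lit 280) (nat_lit 454) (nat_lit 346))) (XT.nd (nat_lit 94) (nat_lit 0) (nat_lit 0) (XT.lf (nat_lit 0) (nat_lit 1488783810919) (nat_lit 0) (nat_lit 0) (nat_lit 0) (nat_lit 0) (nat_lit 0) (nat_lit 0) (nat_lit 1) (nat_lit 0) (nat_lit 1) (nat_lit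 0) (nat_lit 281) (nat_lit 454) (nat_lit 345)) (XT.lf (nat_lit 0) (nat_lit 1488758737719) (nat_lit 0) (nat_lit 0) (nat_lit 0) (nat_lit 0) (nat_lit 0) (nat_lit 0) (nat_lit 1) (nat_lit 0) (nat_lit 1) (nat_lit 0) (nat_lit 282) (nat_lit 454) (nat_lit 344)))) (XT.nd (nat_lit 188) (nat_lit 0) (nat_lit 0) (XT.nd (nat_lit 94) (nat_lit 0) (nat_lit 0) (XT.lf (nat_lit 0) (nat_lit 1488735521793) (nat_lit 0) (nat_lit 0) (nat_lit 0) (nat_lit 0) (nat_lit 0) (nat_lit 0) (nat_lit 1) (nat_lit 0) (nat_lit 1) (nat_lit 0) (nat_lit 283) (nat_lit 454) (nat_lit 343)) (XT.lf (nat_lit 0) (nat_lit 1488714025565) (nat_lit 0) (nat_lit 0) (nat_lit 0) (nat_lit 0) (nat_lit 0) (nat_lit 0) (nat_lit 1) (nat_lit 0) (nat_lit 1) (nat_lit 0) (nat_lit 284) (nat_lit 454) (nat_lit 342))) (XT.nd (nat_lit 94) (nat_lit 0) (nat_lit 0) (XT.lf (nat_lit 0) (nat_lit 1488694121650) (nat_lit 0) (nat_lit 0) (nat_lit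 0) (nat_lit 0) (nat_lit 0) (nat_lit 0) (nat_lit 1) (nat_lit 0) (nat_lit 1) (nat_lit 0) (nat_lit 285) (nat_lit 454) (nat_lit 341)) (XT.nd (nat_lit 94) (nat_lit 0) (nat_lit 0) (XT.lf (nat_lit 0) (nat_lit 1488675692099) (nat_lit 0) (nat_lit 0) (nat_lit 0) (nat_lit 0) (nat_lit 0) (nat_lit 0) (nat_lit 1) (nat_lit 0) (nat_lit 1) (nat_lit 0) (nat_lit 286) (nat_lit 454) (nat_lit 340)) (XT.lf (nat_lit 0) (nat_lit 1488658627701) (nat_lit 0) (nat_lit 0) (nat_lit 0) (nat_lit 0) (nat_lit 0) (nat_lit 0) (nat_lit 1) (nat_lit 0) (nat_lit 1) (nat_lit 0) (nat_lit 287) (nat_lit 454) (nat_lit 339)))))) (XT.nd (nat_lit 470) (nat_lit 0) (nat_lit 0) (XT.nd (nat_lit 188) (nat_lit 0) (nat_lit 0) (XT.nd (nat_lit 94) (nat_lit 0) (nat_lit 0) (XT.lf (nat_lit 0) (nat_lit 1488642827331) (nat_lit 0) (nat_lit 0) (nat_lit 0) (nat_lit 0) (nat_lit 0) (nat_lit 0) (nat_lit 1) (nat_lit 0) (nat_lit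 1) (nat_lit 0) (nat_lit 288) (nat_lit 454) (nat_lit 338)) (XT.lf (nat_lit 0) (nat_lit 1488628197360) (nat_lit 0) (nat_lit 0) (nat_lit 0) (nat_lit 0) (nat_lit 0) (nat_lit 0) (nat_lit 1) (nat_lit 0) (nat_lit 1) (nat_lit 0) (nat_lit 289) (nat_lit 454) (nat_lit 337))) (XT.nd (nat_lit 94) (nat_lit 0) (nat_lit 0) (XT.lf (nat_lit 0) (nat_lit 1488614651090) (nat_lit 0) (nat_lit 0) (nat_lit 0) (nat_lit 0) (nat_lit 0) (nat_lit 0) (nat_lit 1) (nat_lit 0) (nat_lit 1) (nat_lit 0) (nat_lit 290) (nat_lit 454) (nat_lit 336)) (XT.nd (nat_lit 94) (nat_lit 0) (nat_lit 0) (XT.lf (nat_lit 0) (nat_lit 1488602108247) (nat_lit 0) (nat_lit 0) (nat_lit 0) (nat_lit 0) (nat_lit 0) (nat_lit 0) (nat_lit 1) (nat_lit 0) (nat_lit 1) (nat_lit 0) (nat_lit 291) (nat_lit 454) (nat_lit 335)) (XT.lf (nat_lit 0) (nat_lit 1488590494504) (nat_lit 0) (nat_lit 0) (nat_lit 0) (nat_lit 0) (nat_lit 0)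 (nat_lit 0) (nat_lit 1) (nat_lit 0) (nat_lit 1) (nat_lit 0) (nat_lit 292) (nat_lit 454) (nat_lit 334))))) (XT.nd (nat_lit 188) (nat_lit 0) (nat_lit 0) (XT.nd (nat_lit 94) (nat_lit 0) (nat_lit 0) (XT.lf (nat_lit 0) (nat_lit 1488579741039) (nat_lit 0) (nat_lit 0) (nat_lit 0) (nat_lit 0) (nat_lit 0) (nat_lit 0) (nat_lit 1) (nat_lit 0) (nat_lit 1) (nat_lit 0) (nat_lit 293) (nat_lit 454) (nat_lit 333)) (XT.lf (nat_lit 0) (nat_lit 1488569784126) (nat_lit 0) (nat_lit 0) (nat_lit 0) (nat_lit 0) (nat_lit 0) (nat_lit 0) (nat_lit 1) (nat_lit 0) (nat_lit 1) (nat_lit 0) (nat_lit 294) (nat_lit 454) (nat_lit 332))) (XT.nd (nat_lit 94) (nat_lit 0) (nat_lit 0) (XT.lf (nat_lit 0) (nat_lit 1488560564762) (nat_lit 0) (nat_lit 0) (nat_lit 0) (nat_lit 0) (nat_lit 0) (nat_lit 0) (nat_lit 1) (nat_lit 0) (nat_lit 1) (nat_lit 0) (nat_lit 295) (nat_lit 454) (nat_lit 331)) (XT.nd (nat_lit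 94) (nat_lit 0) (nat_lit 0) (XT.lf (nat_lit 0) (nat_lit 1488552028314) (nat_lit 0) (nat_lit 0) (nat_lit 0) (nat_lit 0) (nat_lit 0) (nat_lit 0) (nat_lit 1) (nat_lit 0) (nat_lit 1) (nat_lit 0) (nat_lit 296) (nat_lit 454) (nat_lit 330)) (XT.lf (nat_lit 0) (nat_lit 1488544124196) (nat_lit 0) (nat_lit 0) (nat_lit 0) (nat_lit 0) (nat_lit 0) (nat_lit 0) (nat_lit 1) (nat_lit 0) (nat_lit 1) (nat_lit 0) (nat_lit 297) (nat_lit 454) (nat_lit 329))))))) (XT.nd (nat_lit 846) (nat_lit 0) (nat_lit 0) (XT.nd (nat_lit 376) (nat_lit 0) (nat_lit 0) (XT.nd (nat_lit 188) (nat_lit 0) (nat_lit 0) (XT.nd (nat_lit 94) (nat_lit 0) (nat_lit 0) (XT.lf (nat_lit 0) (nat_lit 1488536805568) (nat_lit 0) (nat_lit 0) (nat_lit 0) (nat_lit 0) (nat_lit 0) (nat_lit 0) (nat_lit 1) (nat_lit 0) (nat_lit 1) (nat_lit 0) (nat_lit 298) (nat_lit 454) (nat_lit 328)) (XT.lf (nat_lit 0) (nat_lit 1488530029060)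 (nat_lit 0) (nat_lit 0) (nat_lit 0) (nat_lit 0) (nat_lit 0) (nat_lit 0) (nat_lit 1) (nat_lit 0) (nat_lit 1) (nat_lit 0) (nat_lit 299) (nat_lit 454) (nat_lit 327))) (XT.nd (nat_lit 94) (nat_lit 0) (nat_lit 0) (XT.lf (nat_lit 0) (nat_lit 1488523754516) (nat_lit 0) (nat_lit 0) (nat_lit 0) (nat_lit 0) (nat_lit 0) (nat_lit 0) (nat_lit 1) (nat_lit 0) (nat_lit 1) (nat_lit 0) (nat_lit 300) (nat_lit 454) (nat_lit 326)) (XT.lf (nat_lit 0) (nat_lit 1488517944753) (nat_lit 0) (nat_lit 0) (nat_lit 0) (nat_lit 0) (nat_lit 0) (nat_lit 0) (nat_lit 1) (nat_lit 0) (nat_lit 1) (nat_lit 0) (nat_lit 301) (nat_lit 454) (nat_lit 325)))) (XT.nd (nat_lit 188) (nat_lit 0) (nat_lit 0) (XT.nd (nat_lit 94) (nat_lit 0) (nat_lit 0) (XT.lf (nat_lit 0) (nat_lit 1488512565343) (nat_lit 0) (nat_lit 0) (nat_lit 0) (nat_lit 0) (nat_lit 0) (nat_lit 0) (nat_lit 1) (nat_lit 0) (nat_lit 1) (nat_lit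 0) (nat_lit 302) (nat_lit 454) (nat_lit 324)) (XT.lf (nat_lit 0) (nat_lit 1488507584408) (nat_lit 0) (nat_lit 0) (nat_lit 0) (nat_lit 0) (nat_lit 0) (nat_lit 0) (nat_lit 1) (nat_lit 0) (nat_lit 1) (nat_lit 0) (nat_lit 303) (nat_lit 454) (nat_lit 323))) (XT.nd (nat_lit 94) (nat_lit 0) (nat_lit 0) (XT.lf (nat_lit 0) (nat_lit 1488502972431) (nat_lit 0) (nat_lit 0) (nat_lit 0) (nat_lit 0) (nat_lit 0) (nat_lit 0) (nat_lit 1) (nat_lit 0) (nat_lit 1) (nat_lit 0) (nat_lit 304) (nat_lit 454) (nat_lit 322)) (XT.nd (nat_lit 94) (nat_lit 0) (nat_lit 0) (XT.lf (nat_lit 0) (nat_lit 1488498702081) (nat_lit 0) (nat_lit 0) (nat_lit 0) (nat_lit 0) (nat_lit 0) (nat_lit 0) (nat_lit 1) (nat_lit 0) (nat_lit 1) (nat_lit 0) (nat_lit 305) (nat_lit 454) (nat_lit 321)) (XT.lf (nat_lit 0) (nat_lit 1488494748054) (nat_lit 0) (nat_lit 0) (nat_lit 0) (nat_lit 0) (nat_lit 0) (nat_lit 0)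 (nat_lit 1) (nat_lit 0) (nat_lit 1) (nat_lit 0) (nat_lit 306) (nat_lit 454) (nat_lit 320)))))) (XT.nd (nat_lit 1316) (nat_lit 0) (nat_lit 0) (XT.nd (nat_lit 1034) (nat_lit 0) (nat_lit 0) (XT.nd (nat_lit 94) (nat_lit 0) (nat_lit 0) (XT.lf (nat_lit 0) (nat_lit 1488491086918) (nat_lit 0) (nat_lit 0) (nat_lit 0) (nat_lit 0) (nat_lit 0) (nat_lit 0) (nat_lit 1) (nat_lit 0) (nat_lit 1) (nat_lit 0) (nat_lit 307) (nat_lit 454) (nat_lit 319)) (XT.lf (nat_lit 0) (nat_lit 1488487696977) (nat_lit 0) (nat_lit 0) (nat_lit 0) (nat_lit 0) (nat_lit 0) (nat_lit 0) (nat_lit 1) (nat_lit 0) (nat_lit 1) (nat_lit 0) (nat_lit 308) (nat_lit 454) (nat_lit 318))) (XT.nd (nat_lit 94) (nat_lit 0) (nat_lit 0) (XT.lf (nat_lit 0) (nat_lit 1488464950198) (nat_lit 0) (nat_lit 0) (nat_lit 0) (nat_lit 0) (nat_lit 0) (nat_lit 0) (nat_lit 1) (nat_lit 0) (nat_lit 1) (nat_lit 0) (nat_lit 318) (nat_lit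 454) (nat_lit 308)) (XT.nd (nat_lit 94) (nat_lit 0) (nat_lit 0) (XT.lf (nat_lit 0) (nat_lit 1488463496310) (nat_lit 0) (nat_lit 0) (nat_lit 0) (nat_lit 0) (nat_lit 0) (nat_lit 0) (nat_lit 1) (nat_lit 0) (nat_lit 1) (nat_lit 0) (nat_lit 319) (nat_lit 454) (nat_lit 307)) (XT.lf (nat_lit 0) (nat_lit 1488462150118) (nat_lit 0) (nat_lit 0) (nat_lit 0) (nat_lit 0) (nat_lit 0) (nat_lit 0) (nat_lit 1) (nat_lit 0) (nat_lit 1) (nat_lit 0) (nat_lit 320) (nat_lit 454) (nat_lit 306))))) (XT.nd (nat_lit 188) (nat_lit 0) (nat_lit 0) (XT.nd (nat_lit 94) (nat_lit 0) (nat_lit 0) (XT.lf (nat_lit 0) (nat_lit 1488460903644) (nat_lit 0) (nat_lit 0) (nat_lit 0) (nat_lit 0) (nat_lit 0) (nat_lit 0) (nat_lit 1) (nat_lit 0) (nat_lit 1) (nat_lit 0) (nat_lit 321) (nat_lit 454) (nat_lit 305)) (XT.lf (nat_lit 0) (nat_lit 1488459749501) (nat_lit 0) (nat_lit 0) (nat_lit 0) (nat_lit 0) (nat_lit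 0) (nat_lit 0) (nat_lit 1) (nat_lit 0) (nat_lit 1) (nat_lit 0) (nat_lit 322) (nat_lit 454) (nat_lit 304))) (XT.nd (nat_lit 94) (nat_lit 0) (nat_lit 0) (XT.lf (nat_lit 0) (nat_lit 1488458680850) (nat_lit 0) (nat_lit 0) (nat_lit 0) (nat_lit 0) (nat_lit 0) (nat_lit 0) (nat_lit 1) (nat_lit 0) (nat_lit 1) (nat_lit 0) (nat_lit 323) (nat_lit 454) (nat_lit 303)) (XT.nd (nat_lit 94) (nat_lit 0) (nat_lit 0) (XT.lf (nat_lit 0) (nat_lit 1488457691359) (nat_lit 0) (nat_lit 0) (nat_lit 0) (nat_lit 0) (nat_lit 0) (nat_lit 0) (nat_lit 1) (nat_lit 0) (nat_lit 1) (nat_lit 0) (nat_lit 324) (nat_lit 454) (nat_lit 302)) (XT.lf (nat_lit 0) (nat_lit 1488456775163) (nat_lit 0) (nat_lit 0) (nat_lit 0) (nat_lit 0) (nat_lit 0) (nat_lit 0) (nat_lit 1) (nat_lit 0) (nat_lit 1) (nat_lit 0) (nat_lit 325) (nat_lit 454) (nat_lit 301))))))))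
noncomputable def ec462 : XT := (XT.nd (nat_lit 1692) (nat_lit 0) (nat_lit 0) (XT.nd (nat_lit 846) (nat_lit 0) (nat_lit 0) (XT.nd (nat_lit 376) (nat_lit 0) (nat_lit 0) (XT.nd (nat_lit 188) (nat_lit 0) (nat_lit 0) (XT.nd (nat_lit 94) (nat_lit 0) (nat_lit 0) (XT.lf (nat_lit 0) (nat_lit 1488455926834) (nat_lit 0) (nat_lit 0) (nat_lit 0) (nat_lit 0) (nat_lit 0) (nat_lit 0) (nat_lit 1) (nat_lit 0) (nat_lit 1) (nat_lit 0) (nat_lit 326) (nat_lit 454) (nat_lit 300)) (XT.lf (nat_lit 0) (nat_lit 1488455141343) (nat_lit 0) (nat_lit 0) (nat_lit 0) (nat_lit 0) (nat_lit 0) (nat_lit 0) (nat_lit 1) (nat_lit 0) (nat_lit 1) (nat_lit 0) (nat_lit 327) (nat_lit 454) (nat_lit 299))) (XT.nd (nat_lit 94) (nat_lit 0) (nat_lit 0) (XT.lf (nat_lit 0) (nat_lit 1488454414038) (nat_lit 0) (nat_lit 0) (nat_lit 0) (nat_lit 0) (nat_lit 0) (nat_lit 0) (nat_lit 1) (nat_lit 0) (nat_lit 1) (nat_lit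 0) (nat_lit 328) (nat_lit 454) (nat_lit 298)) (XT.lf (nat_lit 0) (nat_lit 1488453740606) (nat_lit 0) (nat_lit 0) (nat_lit 0) (nat_lit 0) (nat_lit 0) (nat_lit 0) (nat_lit 1) (nat_lit 0) (nat_lit 1) (nat_lit 0) (nat_lit 329) (nat_lit 454) (nat_lit 297)))) (XT.nd (nat_lit 188) (nat_lit 0) (nat_lit 0) (XT.nd (nat_lit 94) (nat_lit 0) (nat_lit 0) (XT.lf (nat_lit 0) (nat_lit 1488453117059) (nat_lit 0) (nat_lit 0) (nat_lit 0) (nat_lit 0) (nat_lit 0) (nat_lit 0) (nat_lit 1) (nat_lit 0) (nat_lit 1) (nat_lit 0) (nat_lit 330) (nat_lit 454) (nat_lit 296)) (XT.lf (nat_lit 0) (nat_lit 1488452539700) (nat_lit 0) (nat_lit 0) (nat_lit 0) (nat_lit 0) (nat_lit 0) (nat_lit 0) (nat_lit 1) (nat_lit 0) (nat_lit 1) (nat_lit 0) (nat_lit 331) (nat_lit 454) (nat_lit 295))) (XT.nd (nat_lit 94) (nat_lit 0) (nat_lit 0) (XT.lf (nat_lit 0) (nat_lit 1488452005109) (nat_lit 0) (nat_lit 0) (nat_lit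 0) (nat_lit 0) (nat_lit 0) (nat_lit 0) (nat_lit 1) (nat_lit 0) (nat_lit 1) (nat_lit 0) (nat_lit 332) (nat_lit 454) (nat_lit 294)) (XT.nd (nat_lit 94) (nat_lit 0) (nat_lit 0) (XT.lf (nat_lit 0) (nat_lit 1488451510117) (nat_lit 0) (nat_lit 0) (nat_lit 0) (nat_lit 0) (nat_lit 0) (nat_lit 0) (nat_lit 1) (nat_lit 0) (nat_lit 1) (nat_lit 0) (nat_lit 333) (nat_lit 454) (nat_lit 293)) (XT.lf (nat_lit 0) (nat_lit 1488451051791) (nat_lit 0) (nat_lit 0) (nat_lit 0) (nat_lit 0) (nat_lit 0) (nat_lit 0) (nat_lit 1) (nat_lit 0) (nat_lit 1) (nat_lit 0) (nat_lit 334) (nat_lit 454) (nat_lit 292)))))) (XT.nd (nat_lit 376) (nat_lit 0) (nat_lit 0) (XT.nd (nat_lit 188) (nat_lit 0) (nat_lit 0) (XT.nd (nat_lit 94) (nat_lit 0) (nat_lit 0) (XT.lf (nat_lit 0) (nat_lit 1488450627415) (nat_lit 0) (nat_lit 0) (nat_lit 0) (nat_lit 0) (nat_lit 0) (nat_lit 0) (nat_lit 1) (nat_lit 0) (nat_lit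 1) (nat_lit 0) (nat_lit 335) (nat_lit 454) (nat_lit 291)) (XT.lf (nat_lit 0) (nat_lit 1488450234474) (nat_lit 0) (nat_lit 0) (nat_lit 0) (nat_lit 0) (nat_lit 0) (nat_lit 0) (nat_lit 1) (nat_lit 0) (nat_lit 1) (nat_lit 0) (nat_lit 336) (nat_lit 454) (nat_lit 290))) (XT.nd (nat_lit 94) (nat_lit 0) (nat_lit 0) (XT.lf (nat_lit 0) (nat_lit 1488449870640) (nat_lit 0) (nat_lit 0) (nat_lit 0) (nat_lit 0) (nat_lit 0) (nat_lit 0) (nat_lit 1) (nat_lit 0) (nat_lit 1) (nat_lit 0) (nat_lit 337) (nat_lit 454) (nat_lit 289)) (XT.lf (nat_lit 0) (nat_lit 1488449533757) (nat_lit 0) (nat_lit 0) (nat_lit 0) (nat_lit 0) (nat_lit 0) (nat_lit 0) (nat_lit 1) (nat_lit 0) (nat_lit 1) (nat_lit 0) (nat_lit 338) (nat_lit 454) (nat_lit 288)))) (XT.nd (nat_lit 188) (nat_lit 0) (nat_lit 0) (XT.nd (nat_lit 94) (nat_lit 0) (nat_lit 0) (XT.lf (nat_lit 0) (nat_lit 1488449221828) (nat_lit 0) (nat_lit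 0) (nat_lit 0) (nat_lit 0) (nat_lit 0) (nat_lit 0) (nat_lit 1) (nat_lit 0) (nat_lit 1) (nat_lit 0) (nat_lit 339) (nat_lit 454) (nat_lit 287)) (XT.lf (nat_lit 0) (nat_lit 1488448933005) (nat_lit 0) (nat_lit 0) (nat_lit 0) (nat_lit 0) (nat_lit 0) (nat_lit 0) (nat_lit 1) (nat_lit 0) (nat_lit 1) (nat_lit 0) (nat_lit 340) (nat_lit 454) (nat_lit 286))) (XT.nd (nat_lit 94) (nat_lit 0) (nat_lit 0) (XT.lf (nat_lit 0) (nat_lit 1488448665576) (nat_lit 0) (nat_lit 0) (nat_lit 0) (nat_lit 0) (nat_lit 0) (nat_lit 0) (nat_lit 1) (nat_lit 0) (nat_lit 1) (nat_lit 0) (nat_lit 341) (nat_lit 454) (nat_lit 285)) (XT.nd (nat_lit 94) (nat_lit 0) (nat_lit 0) (XT.lf (nat_lit 0) (nat_lit 1488448417957) (nat_lit 0) (nat_lit 0) (nat_lit 0) (nat_lit 0) (nat_lit 0) (nat_lit 0) (nat_lit 1) (nat_lit 0) (nat_lit 1) (nat_lit 0) (nat_lit 342) (nat_lit 454) (nat_lit 284)) (XT.lf (nat_lit 0)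 (nat_lit 1488448188680) (nat_lit 0) (nat_lit 0) (nat_lit 0) (nat_lit 0) (nat_lit 0) (nat_lit 0) (nat_lit 1) (nat_lit 0) (nat_lit 1) (nat_lit 0) (nat_lit 343) (nat_lit 454) (nat_lit 283))))))) (XT.nd (nat_lit 846) (nat_lit 0) (nat_lit 0) (XT.nd (nat_lit 376) (nat_lit 0) (nat_lit 0) (XT.nd (nat_lit 188) (nat_lit 0) (nat_lit 0) (XT.nd (nat_lit 94) (nat_lit 0) (nat_lit 0) (XT.lf (nat_lit 0) (nat_lit 1488447976386) (nat_lit 0) (nat_lit 0) (nat_lit 0) (nat_lit 0) (nat_lit 0) (nat_lit 0) (nat_lit 1) (nat_lit 0) (nat_lit 1) (nat_lit 0) (nat_lit 344) (nat_lit 454) (nat_lit 282)) (XT.lf (nat_lit 0) (nat_lit 1488447779818) (nat_lit 0) (nat_lit 0) (nat_lit 0) (nat_lit 0) (nat_lit 0) (nat_lit 0) (nat_lit 1) (nat_lit 0) (nat_lit 1) (nat_lit 0) (nat_lit 345) (nat_lit 454) (nat_lit 281))) (XT.nd (nat_lit 94) (nat_lit 0) (nat_lit 0) (XT.lf (nat_lit 0) (nat_lit 1488447597810)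 (nat_lit 0) (nat_lit 0) (nat_lit 0) (nat_lit 0) (nat_lit 0) (nat_lit 0) (nat_lit 1) (nat_lit 0) (nat_lit 1) (nat_lit 0) (nat_lit 346) (nat_lit 454) (nat_lit 280)) (XT.lf (nat_lit 0) (nat_lit 1488447429285) (nat_lit 0) (nat_lit 0) (nat_lit 0) (nat_lit 0) (nat_lit 0) (nat_lit 0) (nat_lit 1) (nat_lit 0) (nat_lit 1) (nat_lit 0) (nat_lit 347) (nat_lit 454) (nat_lit 279)))) (XT.nd (nat_lit 188) (nat_lit 0) (nat_lit 0) (XT.nd (nat_lit 94) (nat_lit 0) (nat_lit 0) (XT.lf (nat_lit 0) (nat_lit 1488447273243) (nat_lit 0) (nat_lit 0) (nat_lit 0) (nat_lit 0) (nat_lit 0) (nat_lit 0) (nat_lit 1) (nat_lit 0) (nat_lit 1) (nat_lit 0) (nat_lit 348) (nat_lit 454) (nat_lit 278)) (XT.lf (nat_lit 0) (nat_lit 1488447128759) (nat_lit 0) (nat_lit 0) (nat_lit 0) (nat_lit 0) (nat_lit 0) (nat_lit 0) (nat_lit 1) (nat_lit 0) (nat_lit 1) (nat_lit 0) (nat_lit 349) (nat_lit 454) (nat_lit 277)))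 (XT.nd (nat_lit 94) (nat_lit 0) (nat_lit 0) (XT.lf (nat_lit 0) (nat_lit 1488446994978) (nat_lit 0) (nat_lit 0) (nat_lit 0) (nat_lit 0) (nat_lit 0) (nat_lit 0) (nat_lit 1) (nat_lit 0) (nat_lit 1) (nat_lit 0) (nat_lit 350) (nat_lit 454) (nat_lit 276)) (XT.nd (nat_lit 94) (nat_lit 0) (nat_lit 0) (XT.lf (nat_lit 0) (nat_lit 1488446871107) (nat_lit 0) (nat_lit 0) (nat_lit 0) (nat_lit 0) (nat_lit 0) (nat_lit 0) (nat_lit 1) (nat_lit 0) (nat_lit 1) (nat_lit 0) (nat_lit 351) (nat_lit 454) (nat_lit 275)) (XT.lf (nat_lit 0) (nat_lit 1488446756411) (nat_lit 0) (nat_lit 0) (nat_lit 0) (nat_lit 0) (nat_lit 0) (nat_lit 0) (nat_lit 1) (nat_lit 0) (nat_lit 1) (nat_lit 0) (nat_lit 352) (nat_lit 454) (nat_lit 274)))))) (XT.nd (nat_lit 470) (nat_lit 0) (nat_lit 0) (XT.nd (nat_lit 188) (nat_lit 0) (nat_lit 0) (XT.nd (nat_lit 94) (nat_lit 0) (nat_lit 0) (XT.lf (nat_lit 0) (nat_lit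 1488446650212) (nat_lit 0) (nat_lit 0) (nat_lit 0) (nat_lit 0) (nat_lit 0) (nat_lit 0) (nat_lit 1) (nat_lit 0) (nat_lit 1) (nat_lit 0) (nat_lit 353) (nat_lit 454) (nat_lit 273)) (XT.lf (nat_lit 0) (nat_lit 1488446551879) (nat_lit 0) (nat_lit 0) (nat_lit 0) (nat_lit 0) (nat_lit 0) (nat_lit 0) (nat_lit 1) (nat_lit 0) (nat_lit 1) (nat_lit 0) (nat_lit 354) (nat_lit 454) (nat_lit 272))) (XT.nd (nat_lit 94) (nat_lit 0) (nat_lit 0) (XT.lf (nat_lit 0) (nat_lit 1488446460830) (nat_lit 0) (nat_lit 0) (nat_lit 0) (nat_lit 0) (nat_lit 0) (nat_lit 0) (nat_lit 1) (nat_lit 0) (nat_lit 1) (nat_lit 0) (nat_lit 355) (nat_lit 454) (nat_lit 271)) (XT.nd (nat_lit 94) (nat_lit 0) (nat_lit 0) (XT.lf (nat_lit 0) (nat_lit 1488446376525) (nat_lit 0) (nat_lit 0) (nat_lit 0) (nat_lit 0) (nat_lit 0) (nat_lit 0) (nat_lit 1) (nat_lit 0) (nat_lit 1) (nat_lit 0) (nat_lit 356) (nat_lit 454)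 (nat_lit 270)) (XT.lf (nat_lit 0) (nat_lit 1488446298465) (nat_lit 0) (nat_lit 0) (nat_lit 0) (nat_lit 0) (nat_lit 0) (nat_lit 0) (nat_lit 1) (nat_lit 0) (nat_lit 1) (nat_lit 0) (nat_lit 357) (nat_lit 454) (nat_lit 269))))) (XT.nd (nat_lit 188) (nat_lit 0) (nat_lit 0) (XT.nd (nat_lit 94) (nat_lit 0) (nat_lit 0) (XT.lf (nat_lit 0) (nat_lit 1488446226187) (nat_lit 0) (nat_lit 0) (nat_lit 0) (nat_lit 0) (nat_lit 0) (nat_lit 0) (nat_lit 1) (nat_lit 0) (nat_lit 1) (nat_lit 0) (nat_lit 358) (nat_lit 454) (nat_lit 268)) (XT.lf (nat_lit 0) (nat_lit 1488446159263) (nat_lit 0) (nat_lit 0) (nat_lit 0) (nat_lit 0) (nat_lit 0) (nat_lit 0) (nat_lit 1) (nat_lit 0) (nat_lit 1) (nat_lit 0) (nat_lit 359) (nat_lit 454) (nat_lit 267))) (XT.nd (nat_lit 94) (nat_lit 0) (nat_lit 0) (XT.lf (nat_lit 0) (nat_lit 1488446097297) (nat_lit 0) (nat_lit 0) (nat_lit 0) (nat_lit 0) (nat_lit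 0) (nat_lit 0) (nat_lit 1) (nat_lit 0) (nat_lit 1) (nat_lit 0) (nat_lit 360) (nat_lit 454) (nat_lit 266)) (XT.nd (nat_lit 94) (nat_lit 0) (nat_lit 0) (XT.lf (nat_lit 0) (nat_lit 1488446039921) (nat_lit 0) (nat_lit 0) (nat_lit 0) (nat_lit 0) (nat_lit 0) (nat_lit 0) (nat_lit 1) (nat_lit 0) (nat_lit 1) (nat_lit 0) (nat_lit 361) (nat_lit 454) (nat_lit 265)) (XT.lf (nat_lit 0) (nat_lit 1488445986794) (nat_lit 0) (nat_lit 0) (nat_lit 0) (nat_lit 0) (nat_lit 0) (nat_lit 0) (nat_lit 1) (nat_lit 0) (nat_lit 1) (nat_lit 0) (nat_lit 362) (nat_lit 454) (nat_lit 264))))))))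
noncomputable def ec463 : XT := (XT.nd (nat_lit 1786) (nat_lit 0) (nat_lit 0) (XT.nd (nat_lit 846) (nat_lit 0) (nat_lit 0) (XT.nd (nat_lit 376) (nat_lit 0) (nat_lit 0) (XT.nd (nat_lit 188) (nat_lit 0) (nat_lit 0) (XT.nd (nat_lit 94) (nat_lit 0) (nat_lit 0) (XT.lf (nat_lit 0) (nat_lit 1488445937603) (nat_lit 0) (nat_lit 0) (nat_lit 0) (nat_lit 0) (nat_lit 0) (nat_lit 0) (nat_lit 1) (nat_lit 0) (nat_lit 1) (nat_lit 0) (nat_lit 363) (nat_lit 454) (nat_lit 263)) (XT.lf (nat_lit 0) (nat_lit 1488445892056) (nat_lit 0) (nat_lit 0) (nat_lit 0) (nat_lit 0) (nat_lit 0) (nat_lit 0) (nat_lit 1) (nat_lit 0) (nat_lit 1) (nat_lit 0) (nat_lit 364) (nat_lit 454) (nat_lit 262))) (XT.nd (nat_lit 94) (nat_lit 0) (nat_lit 0) (XT.lf (nat_lit 0) (nat_lit 1488445849883) (nat_lit 0) (nat_lit 0) (nat_lit 0) (nat_lit 0) (nat_lit 0) (nat_lit 0) (nat_lit 1) (nat_lit 0) (nat_lit 1) (nat_lit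 0) (nat_lit 365) (nat_lit 454) (nat_lit 261)) (XT.lf (nat_lit 0) (nat_lit 1488445810833) (nat_lit 0) (nat_lit 0) (nat_lit 0) (nat_lit 0) (nat_lit 0) (nat_lit 0) (nat_lit 1) (nat_lit 0) (nat_lit 1) (nat_lit 0) (nat_lit 366) (nat_lit 454) (nat_lit 260)))) (XT.nd (nat_lit 188) (nat_lit 0) (nat_lit 0) (XT.nd (nat_lit 94) (nat_lit 0) (nat_lit 0) (XT.lf (nat_lit 0) (nat_lit 1488445774677) (nat_lit 0) (nat_lit 0) (nat_lit 0) (nat_lit 0) (nat_lit 0) (nat_lit 0) (nat_lit 1) (nat_lit 0) (nat_lit 1) (nat_lit 0) (nat_lit 367) (nat_lit 454) (nat_lit 259)) (XT.lf (nat_lit 0) (nat_lit 1488445741198) (nat_lit 0) (nat_lit 0) (nat_lit 0) (nat_lit 0) (nat_lit 0) (nat_lit 0) (nat_lit 1) (nat_lit 0) (nat_lit 1) (nat_lit 0) (nat_lit 368) (nat_lit 454) (nat_lit 258))) (XT.nd (nat_lit 94) (nat_lit 0) (nat_lit 0) (XT.lf (nat_lit 0) (nat_lit 1488445710199) (nat_lit 0) (nat_lit 0) (nat_lit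 0) (nat_lit 0) (nat_lit 0) (nat_lit 0) (nat_lit 1) (nat_lit 0) (nat_lit 1) (nat_lit 0) (nat_lit 369) (nat_lit 454) (nat_lit 257)) (XT.nd (nat_lit 94) (nat_lit 0) (nat_lit 0) (XT.lf (nat_lit 0) (nat_lit 1488445681497) (nat_lit 0) (nat_lit 0) (nat_lit 0) (nat_lit 0) (nat_lit 0) (nat_lit 0) (nat_lit 1) (nat_lit 0) (nat_lit 1) (nat_lit 0) (nat_lit 370) (nat_lit 454) (nat_lit 256)) (XT.lf (nat_lit 0) (nat_lit 1488445654920) (nat_lit 0) (nat_lit 0) (nat_lit 0) (nat_lit 0) (nat_lit 0) (nat_lit 0) (nat_lit 1) (nat_lit 0) (nat_lit 1) (nat_lit 0) (nat_lit 371) (nat_lit 454) (nat_lit 255)))))) (XT.nd (nat_lit 470) (nat_lit 0) (nat_lit 0) (XT.nd (nat_lit 188) (nat_lit 0) (nat_lit 0) (XT.nd (nat_lit 94) (nat_lit 0) (nat_lit 0) (XT.lf (nat_lit 0) (nat_lit 1488445630313) (nat_lit 0) (nat_lit 0) (nat_lit 0) (nat_lit 0) (nat_lit 0) (nat_lit 0) (nat_lit 1) (nat_lit 0) (nat_lit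 1) (nat_lit 0) (nat_lit 372) (nat_lit 454) (nat_lit 254)) (XT.lf (nat_lit 0) (nat_lit 1488445607528) (nat_lit 0) (nat_lit 0) (nat_lit 0) (nat_lit 0) (nat_lit 0) (nat_lit 0) (nat_lit 1) (nat_lit 0) (nat_lit 1) (nat_lit 0) (nat_lit 373) (nat_lit 454) (nat_lit 253))) (XT.nd (nat_lit 94) (nat_lit 0) (nat_lit 0) (XT.lf (nat_lit 0) (nat_lit 1488445586431) (nat_lit 0) (nat_lit 0) (nat_lit 0) (nat_lit 0) (nat_lit 0) (nat_lit 0) (nat_lit 1) (nat_lit 0) (nat_lit 1) (nat_lit 0) (nat_lit 374) (nat_lit 454) (nat_lit 252)) (XT.nd (nat_lit 94) (nat_lit 0) (nat_lit 0) (XT.lf (nat_lit 0) (nat_lit 1488445566896) (nat_lit 0) (nat_lit 0) (nat_lit 0) (nat_lit 0) (nat_lit 0) (nat_lit 0) (nat_lit 1) (nat_lit 0) (nat_lit 1) (nat_lit 0) (nat_lit 375) (nat_lit 454) (nat_lit 251)) (XT.lf (nat_lit 0) (nat_lit 1488445548809) (nat_lit 0) (nat_lit 0) (nat_lit 0) (nat_lit 0) (nat_lit 0)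 (nat_lit 0) (nat_lit 1) (nat_lit 0) (nat_lit 1) (nat_lit 0) (nat_lit 376) (nat_lit 454) (nat_lit 250))))) (XT.nd (nat_lit 188) (nat_lit 0) (nat_lit 0) (XT.nd (nat_lit 94) (nat_lit 0) (nat_lit 0) (XT.lf (nat_lit 0) (nat_lit 1488445532061) (nat_lit 0) (nat_lit 0) (nat_lit 0) (nat_lit 0) (nat_lit 0) (nat_lit 0) (nat_lit 1) (nat_lit 0) (nat_lit 1) (nat_lit 0) (nat_lit 377) (nat_lit 454) (nat_lit 249)) (XT.lf (nat_lit 0) (nat_lit 1488445516554) (nat_lit 0) (nat_lit 0) (nat_lit 0) (nat_lit 0) (nat_lit 0) (nat_lit 0) (nat_lit 1) (nat_lit 0) (nat_lit 1) (nat_lit 0) (nat_lit 378) (nat_lit 454) (nat_lit 248))) (XT.nd (nat_lit 94) (nat_lit 0) (nat_lit 0) (XT.lf (nat_lit 0) (nat_lit 1488445502196) (nat_lit 0) (nat_lit 0) (nat_lit 0) (nat_lit 0) (nat_lit 0) (nat_lit 0) (nat_lit 1) (nat_lit 0) (nat_lit 1) (nat_lit 0) (nat_lit 379) (nat_lit 454) (nat_lit 247)) (XT.nd (nat_lit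 94) (nat_lit 0) (nat_lit 0) (XT.lf (nat_lit 0) (nat_lit 1488445488901) (nat_lit 0) (nat_lit 0) (nat_lit 0) (nat_lit 0) (nat_lit 0) (nat_lit 0) (nat_lit 1) (nat_lit 0) (nat_lit 1) (nat_lit 0) (nat_lit 380) (nat_lit 454) (nat_lit 246)) (XT.lf (nat_lit 0) (nat_lit 1488445476591) (nat_lit 0) (nat_lit 0) (nat_lit 0) (nat_lit 0) (nat_lit 0) (nat_lit 0) (nat_lit 1) (nat_lit 0) (nat_lit 1) (nat_lit 0) (nat_lit 381) (nat_lit 454) (nat_lit 245))))))) (XT.nd (nat_lit 846) (nat_lit 0) (nat_lit 0) (XT.nd (nat_lit 376) (nat_lit 0) (nat_lit 0) (XT.nd (nat_lit 188) (nat_lit 0) (nat_lit 0) (XT.nd (nat_lit 94) (nat_lit 0) (nat_lit 0) (XT.lf (nat_lit 0) (nat_lit 1488445465193) (nat_lit 0) (nat_lit 0) (nat_lit 0) (nat_lit 0) (nat_lit 0) (nat_lit 0) (nat_lit 1) (nat_lit 0) (nat_lit 1) (nat_lit 0) (nat_lit 382) (nat_lit 454) (nat_lit 244)) (XT.lf (nat_lit 0) (nat_lit 1488445454639)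 (nat_lit 0) (nat_lit 0) (nat_lit 0) (nat_lit 0) (nat_lit 0) (nat_lit 0) (nat_lit 1) (nat_lit 0) (nat_lit 1) (nat_lit 0) (nat_lit 383) (nat_lit 454) (nat_lit 243))) (XT.nd (nat_lit 94) (nat_lit 0) (nat_lit 0) (XT.lf (nat_lit 0) (nat_lit 1488445444867) (nat_lit 0) (nat_lit 0) (nat_lit 0) (nat_lit 0) (nat_lit 0) (nat_lit 0) (nat_lit 1) (nat_lit 0) (nat_lit 1) (nat_lit 0) (nat_lit 384) (nat_lit 454) (nat_lit 242)) (XT.lf (nat_lit 0) (nat_lit 1488445435819) (nat_lit 0) (nat_lit 0) (nat_lit 0) (nat_lit 0) (nat_lit 0) (nat_lit 0) (nat_lit 1) (nat_lit 0) (nat_lit 1) (nat_lit 0) (nat_lit 385) (nat_lit 454) (nat_lit 241)))) (XT.nd (nat_lit 188) (nat_lit 0) (nat_lit 0) (XT.nd (nat_lit 94) (nat_lit 0) (nat_lit 0) (XT.lf (nat_lit 0) (nat_lit 1488445427441) (nat_lit 0) (nat_lit 0) (nat_lit 0) (nat_lit 0) (nat_lit 0) (nat_lit 0) (nat_lit 1) (nat_lit 0) (nat_lit 1) (nat_lit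 0) (nat_lit 386) (nat_lit 454) (nat_lit 240)) (XT.lf (nat_lit 0) (nat_lit 1488445419683) (nat_lit 0) (nat_lit 0) (nat_lit 0) (nat_lit 0) (nat_lit 0) (nat_lit 0) (nat_lit 1) (nat_lit 0) (nat_lit 1) (nat_lit 0) (nat_lit 387) (nat_lit 454) (nat_lit 239))) (XT.nd (nat_lit 94) (nat_lit 0) (nat_lit 0) (XT.lf (nat_lit 0) (nat_lit 1488445412501) (nat_lit 0) (nat_lit 0) (nat_lit 0) (nat_lit 0) (nat_lit 0) (nat_lit 0) (nat_lit 1) (nat_lit 0) (nat_lit 1) (nat_lit 0) (nat_lit 388) (nat_lit 454) (nat_lit 238)) (XT.nd (nat_lit 94) (nat_lit 0) (nat_lit 0) (XT.lf (nat_lit 0) (nat_lit 1488445405850) (nat_lit 0) (nat_lit 0) (nat_lit 0) (nat_lit 0) (nat_lit 0) (nat_lit 0) (nat_lit 1) (nat_lit 0) (nat_lit 1) (nat_lit 0) (nat_lit 389) (nat_lit 454) (nat_lit 237)) (XT.lf (nat_lit 0) (nat_lit 1488445399692) (nat_lit 0) (nat_lit 0) (nat_lit 0) (nat_lit 0) (nat_lit 0) (nat_lit 0)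 (nat_lit 1) (nat_lit 0) (nat_lit 1) (nat_lit 0) (nat_lit 390) (nat_lit 454) (nat_lit 236)))))) (XT.nd (nat_lit 470) (nat_lit 0) (nat_lit 0) (XT.nd (nat_lit 188) (nat_lit 0) (nat_lit 0) (XT.nd (nat_lit 94) (nat_lit 0) (nat_lit 0) (XT.lf (nat_lit 0) (nat_lit 1488445393990) (nat_lit 0) (nat_lit 0) (nat_lit 0) (nat_lit 0) (nat_lit 0) (nat_lit 0) (nat_lit 1) (nat_lit 0) (nat_lit 1) (nat_lit 0) (nat_lit 391) (nat_lit 454) (nat_lit 235)) (XT.lf (nat_lit 0) (nat_lit 1488445388710) (nat_lit 0) (nat_lit 0) (nat_lit 0) (nat_lit 0) (nat_lit 0) (nat_lit 0) (nat_lit 1) (nat_lit 0) (nat_lit 1) (nat_lit 0) (nat_lit 392) (nat_lit 454) (nat_lit 234))) (XT.nd (nat_lit 94) (nat_lit 0) (nat_lit 0) (XT.lf (nat_lit 0) (nat_lit 1488445383822) (nat_lit 0) (nat_lit 0) (nat_lit 0) (nat_lit 0) (nat_lit 0) (nat_lit 0) (nat_lit 1) (nat_lit 0) (nat_lit 1) (nat_lit 0) (nat_lit 393) (nat_lit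 454) (nat_lit 233)) (XT.nd (nat_lit 94) (nat_lit 0) (nat_lit 0) (XT.lf (nat_lit 0) (nat_lit 1488445379295) (nat_lit 0) (nat_lit 0) (nat_lit 0) (nat_lit 0) (nat_lit 0) (nat_lit 0) (nat_lit 1) (nat_lit 0) (nat_lit 1) (nat_lit 0) (nat_lit 394) (nat_lit 454) (nat_lit 232)) (XT.lf (nat_lit 0) (nat_lit 1488445375104) (nat_lit 0) (nat_lit 0) (nat_lit 0) (nat_lit 0) (nat_lit 0) (nat_lit 0) (nat_lit 1) (nat_lit 0) (nat_lit 1) (nat_lit 0) (nat_lit 395) (nat_lit 454) (nat_lit 231))))) (XT.nd (nat_lit 188) (nat_lit 0) (nat_lit 0) (XT.nd (nat_lit 94) (nat_lit 0) (nat_lit 0) (XT.lf (nat_lit 0) (nat_lit 1488445371224) (nat_lit 0) (nat_lit 0) (nat_lit 0) (nat_lit 0) (nat_lit 0) (nat_lit 0) (nat_lit 1) (nat_lit 0) (nat_lit 1) (nat_lit 0) (nat_lit 396) (nat_lit 454) (nat_lit 230)) (XT.lf (nat_lit 0) (nat_lit 1488445367631) (nat_lit 0) (nat_lit 0) (nat_lit 0) (nat_lit 0) (nat_lit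 0) (nat_lit 0) (nat_lit 1) (nat_lit 0) (nat_lit 1) (nat_lit 0) (nat_lit 397) (nat_lit 454) (nat_lit 229))) (XT.nd (nat_lit 94) (nat_lit 0) (nat_lit 0) (XT.lf (nat_lit 0) (nat_lit 1488445364304) (nat_lit 0) (nat_lit 0) (nat_lit 0) (nat_lit 0) (nat_lit 0) (nat_lit 0) (nat_lit 1) (nat_lit 0) (nat_lit 1) (nat_lit 0) (nat_lit 398) (nat_lit 454) (nat_lit 228)) (XT.nd (nat_lit 94) (nat_lit 0) (nat_lit 0) (XT.lf (nat_lit 0) (nat_lit 1488445361223) (nat_lit 0) (nat_lit 0) (nat_lit 0) (nat_lit 0) (nat_lit 0) (nat_lit 0) (nat_lit 1) (nat_lit 0) (nat_lit 1) (nat_lit 0) (nat_lit 399) (nat_lit 454) (nat_lit 227)) (XT.lf (nat_lit 0) (nat_lit 1488445358371) (nat_lit 0) (nat_lit 0) (nat_lit 0) (nat_lit 0) (nat_lit 0) (nat_lit 0) (nat_lit 1) (nat_lit 0) (nat_lit 1) (nat_lit 0) (nat_lit 400) (nat_lit 454) (nat_lit 226))))))))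
noncomputable def ec464 : XT := (XT.nd (nat_lit 5170) (nat_lit 0) (nat_lit 0) (XT.nd (nat_lit 846) (nat_lit 0) (nat_lit 0) (XT.nd (nat_lit 376) (nat_lit 0) (nat_lit 0) (XT.nd (nat_lit 188) (nat_lit 0) (nat_lit 0) (XT.nd (nat_lit 94) (nat_lit 0) (nat_lit 0) (XT.lf (nat_lit 0) (nat_lit 1488445355730) (nat_lit 0) (nat_lit 0) (nat_lit 0) (nat_lit 0) (nat_lit 0) (nat_lit 0) (nat_lit 1) (nat_lit 0) (nat_lit 1) (nat_lit 0) (nat_lit 401) (nat_lit 454) (nat_lit 225)) (XT.lf (nat_lit 0) (nat_lit 1488445353284) (nat_lit 0) (nat_lit 0) (nat_lit 0) (nat_lit 0) (nat_lit 0) (nat_lit 0) (nat_lit 1) (nat_lit 0) (nat_lit 1) (nat_lit 0) (nat_lit 402) (nat_lit 454) (nat_lit 224))) (XT.nd (nat_lit 94) (nat_lit 0) (nat_lit 0) (XT.lf (nat_lit 0) (nat_lit 1488445351020) (nat_lit 0) (nat_lit 0) (nat_lit 0) (nat_lit 0) (nat_lit 0) (nat_lit 0) (nat_lit 1) (nat_lit 0) (nat_lit 1) (nat_lit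 0) (nat_lit 403) (nat_lit 454) (nat_lit 223)) (XT.lf (nat_lit 0) (nat_lit 1488445348923) (nat_lit 0) (nat_lit 0) (nat_lit 0) (nat_lit 0) (nat_lit 0) (nat_lit 0) (nat_lit 1) (nat_lit 0) (nat_lit 1) (nat_lit 0) (nat_lit 404) (nat_lit 454) (nat_lit 222)))) (XT.nd (nat_lit 188) (nat_lit 0) (nat_lit 0) (XT.nd (nat_lit 94) (nat_lit 0) (nat_lit 0) (XT.lf (nat_lit 0) (nat_lit 1488445346982) (nat_lit 0) (nat_lit 0) (nat_lit 0) (nat_lit 0) (nat_lit 0) (nat_lit 0) (nat_lit 1) (nat_lit 0) (nat_lit 1) (nat_lit 0) (nat_lit 405) (nat_lit 454) (nat_lit 221)) (XT.lf (nat_lit 0) (nat_lit 1488445345184) (nat_lit 0) (nat_lit 0) (nat_lit 0) (nat_lit 0) (nat_lit 0) (nat_lit 0) (nat_lit 1) (nat_lit 0) (nat_lit 1) (nat_lit 0) (nat_lit 406) (nat_lit 454) (nat_lit 220))) (XT.nd (nat_lit 94) (nat_lit 0) (nat_lit 0) (XT.lf (nat_lit 0) (nat_lit 1488445343520) (nat_lit 0) (nat_lit 0) (nat_lit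 0) (nat_lit 0) (nat_lit 0) (nat_lit 0) (nat_lit 1) (nat_lit 0) (nat_lit 1) (nat_lit 0) (nat_lit 407) (nat_lit 454) (nat_lit 219)) (XT.nd (nat_lit 94) (nat_lit 0) (nat_lit 0) (XT.lf (nat_lit 0) (nat_lit 1488445341979) (nat_lit 0) (nat_lit 0) (nat_lit 0) (nat_lit 0) (nat_lit 0) (nat_lit 0) (nat_lit 1) (nat_lit 0) (nat_lit 1) (nat_lit 0) (nat_lit 408) (nat_lit 454) (nat_lit 218)) (XT.lf (nat_lit 0) (nat_lit 1488445340552) (nat_lit 0) (nat_lit 0) (nat_lit 0) (nat_lit 0) (nat_lit 0) (nat_lit 0) (nat_lit 1) (nat_lit 0) (nat_lit 1) (nat_lit 0) (nat_lit 409) (nat_lit 454) (nat_lit 217)))))) (XT.nd (nat_lit 3854) (nat_lit 0) (nat_lit 0) (XT.nd (nat_lit 188) (nat_lit 0) (nat_lit 0) (XT.nd (nat_lit 94) (nat_lit 0) (nat_lit 0) (XT.lf (nat_lit 0) (nat_lit 1488445339231) (nat_lit 0) (nat_lit 0) (nat_lit 0) (nat_lit 0) (nat_lit 0) (nat_lit 0) (nat_lit 1) (nat_lit 0) (nat_lit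 1) (nat_lit 0) (nat_lit 410) (nat_lit 454) (nat_lit 216)) (XT.lf (nat_lit 0) (nat_lit 1488445338008) (nat_lit 0) (nat_lit 0) (nat_lit 0) (nat_lit 0) (nat_lit 0) (nat_lit 0) (nat_lit 1) (nat_lit 0) (nat_lit 1) (nat_lit 0) (nat_lit 411) (nat_lit 454) (nat_lit 215))) (XT.nd (nat_lit 94) (nat_lit 0) (nat_lit 0) (XT.lf (nat_lit 0) (nat_lit 1488445336875) (nat_lit 0) (nat_lit 0) (nat_lit 0) (nat_lit 0) (nat_lit 0) (nat_lit 0) (nat_lit 1) (nat_lit 0) (nat_lit 1) (nat_lit 0) (nat_lit 412) (nat_lit 454) (nat_lit 214)) (XT.lf (nat_lit 0) (nat_lit 1488445335826) (nat_lit 0) (nat_lit 0) (nat_lit 0) (nat_lit 0) (nat_lit 0) (nat_lit 0) (nat_lit 1) (nat_lit 0) (nat_lit 1) (nat_lit 0) (nat_lit 413) (nat_lit 454) (nat_lit 213)))) (XT.nd (nat_lit 188) (nat_lit 0) (nat_lit 0) (XT.nd (nat_lit 94) (nat_lit 0) (nat_lit 0) (XT.lf (nat_lit 0) (nat_lit 1488445323420) (nat_lit 0) (nat_lit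 0) (nat_lit 0) (nat_lit 0) (nat_lit 0) (nat_lit 0) (nat_lit 1) (nat_lit 0) (nat_lit 1) (nat_lit 0) (nat_lit 451) (nat_lit 454) (nat_lit 175)) (XT.lf (nat_lit 0) (nat_lit 1488445323368) (nat_lit 0) (nat_lit 0) (nat_lit 0) (nat_lit 0) (nat_lit 0) (nat_lit 0) (nat_lit 1) (nat_lit 0) (nat_lit 1) (nat_lit 0) (nat_lit 452) (nat_lit 454) (nat_lit 174))) (XT.nd (nat_lit 94) (nat_lit 0) (nat_lit 0) (XT.lf (nat_lit 0) (nat_lit 1488445323319) (nat_lit 0) (nat_lit 0) (nat_lit 0) (nat_lit 0) (nat_lit 0) (nat_lit 0) (nat_lit 1) (nat_lit 0) (nat_lit 1) (nat_lit 0) (nat_lit 453) (nat_lit 454) (nat_lit 173)) (XT.nd (nat_lit 94) (nat_lit 0) (nat_lit 0) (XT.lf (nat_lit 0) (nat_lit 1488445323275) (nat_lit 0) (nat_lit 0) (nat_lit 0) (nat_lit 0) (nat_lit 0) (nat_lit 0) (nat_lit 1) (nat_lit 0) (nat_lit 1) (nat_lit 0) (nat_lit 454) (nat_lit 454) (nat_lit 172)) (XT.lf (nat_lit 0)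 (nat_lit 1488445323233) (nat_lit 0) (nat_lit 0) (nat_lit 0) (nat_lit 0) (nat_lit 0) (nat_lit 0) (nat_lit 1) (nat_lit 0) (nat_lit 1) (nat_lit 0) (nat_lit 455) (nat_lit 454) (nat_lit 171))))))) (XT.nd (nat_lit 45308) (nat_lit 0) (nat_lit 252) (XT.nd (nat_lit 41078) (nat_lit 0) (nat_lit 1512) (XT.nd (nat_lit 40890) (nat_lit 0) (nat_lit 10752) (XT.nd (nat_lit 94) (nat_lit 0) (nat_lit 0) (XT.lf (nat_lit 0) (nat_lit 1488445323195) (nat_lit 0) (nat_lit 0) (nat_lit 0) (nat_lit 0) (nat_lit 0) (nat_lit 0) (nat_lit 1) (nat_lit 0) (nat_lit 1) (nat_lit 0) (nat_lit 456) (nat_lit 454) (nat_lit 170)) (XT.lf (nat_lit 0) (nat_lit 1488445323160) (nat_lit 0) (nat_lit 0) (nat_lit 0) (nat_lit 0) (nat_lit 0) (nat_lit 0) (nat_lit 1) (nat_lit 0) (nat_lit 1) (nat_lit 0) (nat_lit 457) (nat_lit 454) (nat_lit 169))) (XT.nd (nat_lit 94) (nat_lit 0) (nat_lit 84) (XT.lf (nat_lit 924) (nat_lit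 804463696524) (nat_lit 0) (nat_lit 1428323444044) (nat_lit 924) (nat_lit 804463696524) (nat_lit 139) (nat_lit 1) (nat_lit 128) (nat_lit 0) (nat_lit 139) (nat_lit 0) (nat_lit 170) (nat_lit 455) (nat_lit 455)) (XT.lf (nat_lit 924) (nat_lit 300089643077) (nat_lit 0) (nat_lit 2804231811601) (nat_lit 840) (nat_lit 2742529343013) (nat_lit 140) (nat_lit 1) (nat_lit 129) (nat_lit 1) (nat_lit 139) (nat_lit 1) (nat_lit 171) (nat_lit 455) (nat_lit 454)))) (XT.nd (nat_lit 3948) (nat_lit 9324) (nat_lit 0) (XT.nd (nat_lit 94) (nat_lit 0) (nat_lit 84) (XT.lf (nat_lit 924) (nat_lit 2756150157420) (nat_lit 84) (nat_lit 1877994989473) (nat_lit 0) (nat_lit 996002875607) (nat_lit 140) (nat_lit 1) (nat_lit 130) (nat_lit 1) (nat_lit 129) (nat_lit 1) (nat_lit 172) (nat_lit 455) (nat_lit 453)) (XT.lf (nat_lit 924) (nat_lit 2381539523083) (nat_lit 84) (nat_lit 787054683058) (nat_lit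 0) (nat_lit 2255695397691) (nat_lit 141) (nat_lit 1) (nat_lit 131) (nat_lit 1) (nat_lit 130) (nat_lit 1) (nat_lit 173) (nat_lit 455) (nat_lit 452))) (XT.nd (nat_lit 94) (nat_lit 252) (nat_lit 0) (XT.lf (nat_lit 168) (nat_lit 648939266581) (nat_lit 0) (nat_lit 786575629856) (nat_lit 84) (nat_lit 141301845815) (nat_lit 23) (nat_lit 1) (nat_lit 21) (nat_lit 1) (nat_lit 22) (nat_lit 1) (nat_lit 214) (nat_lit 455) (nat_lit 411)) (XT.nd (nat_lit 94) (nat_lit 84) (nat_lit 0) (XT.lf (nat_lit 84) (nat_lit 689065857450) (nat_lit 0) (nat_lit 130649219531) (nat_lit 168) (nat_lit 715919713075) (nat_lit 20) (nat_lit 1) (nat_lit 19) (nat_lit 1) (nat_lit 21) (nat_lit 1) (nat_lit 215) (nat_lit 455) (nat_lit 410)) (XT.lf (nat_lit 168) (nat_lit 635045676885) (nat_lit 0) (nat_lit 853391884971) (nat_lit 84) (nat_lit 7228642979) (nat_lit 20) (nat_lit 1) (nat_lit 18) (nat_lit 1)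 (nat_lit 19) (nat_lit 1) (nat_lit 216) (nat_lit 455) (nat_lit 409)))))) (XT.nd (nat_lit 470) (nat_lit 588) (nat_lit 0) (XT.nd (nat_lit 188) (nat_lit 420) (nat_lit 0) (XT.nd (nat_lit 94) (nat_lit 84) (nat_lit 0) (XT.lf (nat_lit 84) (nat_lit 771819833795) (nat_lit 0) (nat_lit 112699205395) (nat_lit 168) (nat_lit 572211952862) (nat_lit 17) (nat_lit 1) (nat_lit 16) (nat_lit 1) (nat_lit 18) (nat_lit 1) (nat_lit 217) (nat_lit 455) (nat_lit 408)) (XT.lf (nat_lit 0) (nat_lit 103760145304) (nat_lit 0) (nat_lit 812089355112) (nat_lit 168) (nat_lit 503078667311) (nat_lit 15) (nat_lit 3) (nat_lit 15) (nat_lit 1) (nat_lit 17) (nat_lit 1) (nat_lit 218) (nat_lit 455) (nat_lit 407))) (XT.nd (nat_lit 94) (nat_lit 252) (nat_lit 0) (XT.lf (nat_lit 84) (nat_lit 838930384641) (nat_lit 0) (nat_lit 107258198412) (nat_lit 168) (nat_lit 435981072707) (nat_lit 14) (nat_lit 1) (nat_lit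 13) (nat_lit 1) (nat_lit 15) (nat_lit 1) (nat_lit 219) (nat_lit 455) (nat_lit 406)) (XT.nd (nat_lit 94) (nat_lit 168) (nat_lit 0) (XT.lf (nat_lit 0) (nat_lit 198220264029) (nat_lit 0) (nat_lit 776580387003) (nat_lit 168) (nat_lit 371589454805) (nat_lit 12) (nat_lit 3) (nat_lit 12) (nat_lit 1) (nat_lit 14) (nat_lit 1) (nat_lit 220) (nat_lit 455) (nat_lit 405)) (XT.lf (nat_lit 84) (nat_lit 892769169557) (nat_lit 0) (nat_lit 111071563216) (nat_lit 168) (nat_lit 307821927789) (nat_lit 11) (nat_lit 1) (nat_lit 10) (nat_lit 1) (nat_lit 12) (nat_lit 1) (nat_lit 221) (nat_lit 455) (nat_lit 404))))) (XT.nd (nat_lit 188) (nat_lit 336) (nat_lit 0) (XT.nd (nat_lit 94) (nat_lit 168) (nat_lit 0) (XT.lf (nat_lit 0) (nat_lit 278675631498) (nat_lit 0) (nat_lit 750914284393) (nat_lit 168) (nat_lit 248191654001) (nat_lit 9) (nat_lit 3) (nat_lit 9) (nat_lit 1) (nat_lit 11) (nat_lit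 1) (nat_lit 222) (nat_lit 455) (nat_lit 403)) (XT.lf (nat_lit 84) (nat_lit 935324946328) (nat_lit 0) (nat_lit 121556051540) (nat_lit 168) (nat_lit 188068106281) (nat_lit 8) (nat_lit 1) (nat_lit 7) (nat_lit 1) (nat_lit 9) (nat_lit 1) (nat_lit 223) (nat_lit 455) (nat_lit 402))) (XT.nd (nat_lit 94) (nat_lit 252) (nat_lit 0) (XT.lf (nat_lit 0) (nat_lit 347059104761) (nat_lit 0) (nat_lit 732648180545) (nat_lit 168) (nat_lit 133144856090) (nat_lit 6) (nat_lit 3) (nat_lit 6) (nat_lit 1) (nat_lit 8) (nat_lit 1) (nat_lit 224) (nat_lit 455) (nat_lit 401)) (XT.nd (nat_lit 94) (nat_lit 84) (nat_lit 0) (XT.lf (nat_lit 84) (nat_lit 968269777143) (nat_lit 0) (nat_lit 136671515607) (nat_lit 168) (nat_lit 76850315027) (nat_lit 5) (nat_lit 1) (nat_lit 4) (nat_lit 1) (nat_lit 6) (nat_lit 1) (nat_lit 225) (nat_lit 455) (nat_lit 400)) (XT.lf (nat_lit 0) (nat_lit 405005419909)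 (nat_lit 0) (nat_lit 719843975485) (nat_lit 168) (nat_lit 26524235167) (nat_lit 3) (nat_lit 3) (nat_lit 3) (nat_lit 1) (nat_lit 5) (nat_lit 1) (nat_lit 226) (nat_lit 455) (nat_lit 399))))))))
noncomputable def ec465 : XT := (XT.nd (nat_lit 1786) (nat_lit 0) (nat_lit 0) (XT.nd (nat_lit 846) (nat_lit 0) (nat_lit 0) (XT.nd (nat_lit 376) (nat_lit 0) (nat_lit 0) (XT.nd (nat_lit 188) (nat_lit 0) (nat_lit 0) (XT.nd (nat_lit 94) (nat_lit 0) (nat_lit 0) (XT.lf (nat_lit 0) (nat_lit 1627519685962) (nat_lit 0) (nat_lit 0) (nat_lit 0) (nat_lit 0) (nat_lit 0) (nat_lit 0) (nat_lit 1) (nat_lit 0) (nat_lit 1) (nat_lit 0) (nat_lit 227) (nat_lit 455) (nat_lit 398)) (XT.lf (nat_lit 0) (nat_lit 1626038298005) (nat_lit 0) (nat_lit 0) (nat_lit 0) (nat_lit 0) (nat_lit 0) (nat_lit 0) (nat_lit 1) (nat_lit 0) (nat_lit 1) (nat_lit 0) (nat_lit 228) (nat_lit 455) (nat_lit 397))) (XT.nd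 (nat_lit 94) (nat_lit 0) (nat_lit 0) (XT.lf (nat_lit 0) (nat_lit 1624666642488) (nat_lit 0) (nat_lit 0) (nat_lit 0) (nat_lit 0) (nat_lit 0) (nat_lit 0) (nat_lit 1) (nat_lit 0) (nat_lit 1) (nat_lit 0) (nat_lit 229) (nat_lit 455) (nat_lit 396)) (XT.lf (nat_lit 0) (nat_lit 1623396591084) (nat_lit 0) (nat_lit 0) (nat_lit 0) (nat_lit 0) (nat_lit 0) (nat_lit 0) (nat_lit 1) (nat_lit 0) (nat_lit 1) (nat_lit 0) (nat_lit 230) (nat_lit 455) (nat_lit 395)))) (XT.nd (nat_lit 188) (nat_lit 0) (nat_lit 0) (XT.nd (nat_lit 94) (nat_lit 0) (nat_lit 0) (XT.lf (nat_lit 0) (nat_lit 1622220617562) (nat_lit 0) (nat_lit 0) (nat_lit 0) (nat_lit 0) (nat_lit 0) (nat_lit 0) (nat_lit 1) (nat_lit 0) (nat_lit 1) (nat_lit 0) (nat_lit 231) (nat_lit 455) (nat_lit 394)) (XT.lf (nat_lit 0) (nat_lit 1621131753189) (nat_lit 0) (nat_lit 0) (nat_lit 0) (nat_lit 0) (nat_lit 0) (nat_lit 0) (nat_lit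 1) (nat_lit 0) (nat_lit 1) (nat_lit 0) (nat_lit 232) (nat_lit 455) (nat_lit 393))) (XT.nd (nat_lit 94) (nat_lit 0) (nat_lit 0) (XT.lf (nat_lit 0) (nat_lit 1620123545437) (nat_lit 0) (nat_lit 0) (nat_lit 0) (nat_lit 0) (nat_lit 0) (nat_lit 0) (nat_lit 1) (nat_lit 0) (nat_lit 1) (nat_lit 0) (nat_lit 233) (nat_lit 455) (nat_lit 392)) (XT.nd (nat_lit 94) (nat_lit 0) (nat_lit 0) (XT.lf (nat_lit 0) (nat_lit 1619190019740) (nat_lit 0) (nat_lit 0) (nat_lit 0) (nat_lit 0) (nat_lit 0) (nat_lit 0) (nat_lit 1) (nat_lit 0) (nat_lit 1) (nat_lit 0) (nat_lit 234) (nat_lit 455) (nat_lit 391)) (XT.lf (nat_lit 0) (nat_lit 1618325644096) (nat_lit 0) (nat_lit 0) (nat_lit 0) (nat_lit 0) (nat_lit 0) (nat_lit 0) (nat_lit 1) (nat_lit 0) (nat_lit 1) (nat_lit 0) (nat_lit 235) (nat_lit 455) (nat_lit 390)))))) (XT.nd (nat_lit 470) (nat_lit 0) (nat_lit 0) (XT.nd (nat_lit 188) (nat_lit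 0) (nat_lit 0) (XT.nd (nat_lit 94) (nat_lit 0) (nat_lit 0) (XT.lf (nat_lit 0) (nat_lit 1617525296276) (nat_lit 0) (nat_lit 0) (nat_lit 0) (nat_lit 0) (nat_lit 0) (nat_lit 0) (nat_lit 1) (nat_lit 0) (nat_lit 1) (nat_lit 0) (nat_lit 236) (nat_lit 455) (nat_lit 389)) (XT.lf (nat_lit 0) (nat_lit 1616784233480) (nat_lit 0) (nat_lit 0) (nat_lit 0) (nat_lit 0) (nat_lit 0) (nat_lit 0) (nat_lit 1) (nat_lit 0) (nat_lit 1) (nat_lit 0) (nat_lit 237) (nat_lit 455) (nat_lit 388))) (XT.nd (nat_lit 94) (nat_lit 0) (nat_lit 0) (XT.lf (nat_lit 0) (nat_lit 1616098064225) (nat_lit 0) (nat_lit 0) (nat_lit 0) (nat_lit 0) (nat_lit 0) (nat_lit 0) (nat_lit 1) (nat_lit 0) (nat_lit 1) (nat_lit 0) (nat_lit 238) (nat_lit 455) (nat_lit 387)) (XT.nd (nat_lit 94) (nat_lit 0) (nat_lit 0) (XT.lf (nat_lit 0) (nat_lit 1615462722322) (nat_lit 0) (nat_lit 0) (nat_lit 0) (nat_lit 0) (nat_lit 0)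 (nat_lit 0) (nat_lit 1) (nat_lit 0) (nat_lit 1) (nat_lit 0) (nat_lit 239) (nat_lit 455) (nat_lit 386)) (XT.lf (nat_lit 0) (nat_lit 1614874442782) (nat_lit 0) (nat_lit 0) (nat_lit 0) (nat_lit 0) (nat_lit 0) (nat_lit 0) (nat_lit 1) (nat_lit 0) (nat_lit 1) (nat_lit 0) (nat_lit 240) (nat_lit 455) (nat_lit 385))))) (XT.nd (nat_lit 188) (nat_lit 0) (nat_lit 0) (XT.nd (nat_lit 94) (nat_lit 0) (nat_lit 0) (XT.lf (nat_lit 0) (nat_lit 1614329739504) (nat_lit 0) (nat_lit 0) (nat_lit 0) (nat_lit 0) (nat_lit 0) (nat_lit 0) (nat_lit 1) (nat_lit 0) (nat_lit 1) (nat_lit 0) (nat_lit 241) (nat_lit 455) (nat_lit 384)) (XT.lf (nat_lit 0) (nat_lit 1613825384618) (nat_lit 0) (nat_lit 0) (nat_lit 0) (nat_lit 0) (nat_lit 0) (nat_lit 0) (nat_lit 1) (nat_lit 0) (nat_lit 1) (nat_lit 0) (nat_lit 242) (nat_lit 455) (nat_lit 383))) (XT.nd (nat_lit 94) (nat_lit 0) (nat_lit 0) (XT.lf (nat_lit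 0) (nat_lit 1613358389352) (nat_lit 0) (nat_lit 0) (nat_lit 0) (nat_lit 0) (nat_lit 0) (nat_lit 0) (nat_lit 1) (nat_lit 0) (nat_lit 1) (nat_lit 0) (nat_lit 243) (nat_lit 455) (nat_lit 382)) (XT.nd (nat_lit 94) (nat_lit 0) (nat_lit 0) (XT.lf (nat_lit 0) (nat_lit 1612925986328) (nat_lit 0) (nat_lit 0) (nat_lit 0) (nat_lit 0) (nat_lit 0) (nat_lit 0) (nat_lit 1) (nat_lit 0) (nat_lit 1) (nat_lit 0) (nat_lit 244) (nat_lit 455) (nat_lit 381)) (XT.lf (nat_lit 0) (nat_lit 1612525613158) (nat_lit 0) (nat_lit 0) (nat_lit 0) (nat_lit 0) (nat_lit 0) (nat_lit 0) (nat_lit 1) (nat_lit 0) (nat_lit 1) (nat_lit 0) (nat_lit 245) (nat_lit 455) (nat_lit 380))))))) (XT.nd (nat_lit 846) (nat_lit 0) (nat_lit 0) (XT.nd (nat_lit 376) (nat_lit 0) (nat_lit 0) (XT.nd (nat_lit 188) (nat_lit 0) (nat_lit 0) (XT.nd (nat_lit 94) (nat_lit 0) (nat_lit 0) (XT.lf (nat_lit 0) (nat_lit 1612154897260)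 (nat_lit 0) (nat_lit 0) (nat_lit 0) (nat_lit 0) (nat_lit 0) (nat_lit 0) (nat_lit 1) (nat_lit 0) (nat_lit 1) (nat_lit 0) (nat_lit 246) (nat_lit 455) (nat_lit 379)) (XT.lf (nat_lit 0) (nat_lit 1611811641799) (nat_lit 0) (nat_lit 0) (nat_lit 0) (nat_lit 0) (nat_lit 0) (nat_lit 0) (nat_lit 1) (nat_lit 0) (nat_lit 1) (nat_lit 0) (nat_lit 247) (nat_lit 455) (nat_lit 378))) (XT.nd (nat_lit 94) (nat_lit 0) (nat_lit 0) (XT.lf (nat_lit 0) (nat_lit 1611493812668) (nat_lit 0) (nat_lit 0) (nat_lit 0) (nat_lit 0) (nat_lit 0) (nat_lit 0) (nat_lit 1) (nat_lit 0) (nat_lit 1) (nat_lit 0) (nat_lit 248) (nat_lit 455) (nat_lit 377)) (XT.lf (nat_lit 0) (nat_lit 1611199526436) (nat_lit 0) (nat_lit 0) (nat_lit 0) (nat_lit 0) (nat_lit 0) (nat_lit 0) (nat_lit 1) (nat_lit 0) (nat_lit 1) (nat_lit 0) (nat_lit 249) (nat_lit 455) (nat_lit 376)))) (XT.nd (nat_lit 188) (nat_lit 0) (nat_lit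 0) (XT.nd (nat_lit 94) (nat_lit 0) (nat_lit 0) (XT.lf (nat_lit 0) (nat_lit 1610927039184) (nat_lit 0) (nat_lit 0) (nat_lit 0) (nat_lit 0) (nat_lit 0) (nat_lit 0) (nat_lit 1) (nat_lit 0) (nat_lit 1) (nat_lit 0) (nat_lit 250) (nat_lit 455) (nat_lit 375)) (XT.lf (nat_lit 0) (nat_lit 1610674736173) (nat_lit 0) (nat_lit 0) (nat_lit 0) (nat_lit 0) (nat_lit 0) (nat_lit 0) (nat_lit 1) (nat_lit 0) (nat_lit 1) (nat_lit 0) (nat_lit 251) (nat_lit 455) (nat_lit 374))) (XT.nd (nat_lit 94) (nat_lit 0) (nat_lit 0) (XT.lf (nat_lit 0) (nat_lit 1610441122274) (nat_lit 0) (nat_lit 0) (nat_lit 0) (nat_lit 0) (nat_lit 0) (nat_lit 0) (nat_lit 1) (nat_lit 0) (nat_lit 1) (nat_lit 0) (nat_lit 252) (nat_lit 455) (nat_lit 373)) (XT.nd (nat_lit 94) (nat_lit 0) (nat_lit 0) (XT.lf (nat_lit 0) (nat_lit 1610224813108) (nat_lit 0) (nat_lit 0) (nat_lit 0) (nat_lit 0) (nat_lit 0) (nat_lit 0)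 (nat_lit 1) (nat_lit 0) (nat_lit 1) (nat_lit 0) (nat_lit 253) (nat_lit 455) (nat_lit 372)) (XT.lf (nat_lit 0) (nat_lit 1610024526843) (nat_lit 0) (nat_lit 0) (nat_lit 0) (nat_lit 0) (nat_lit 0) (nat_lit 0) (nat_lit 1) (nat_lit 0) (nat_lit 1) (nat_lit 0) (nat_lit 254) (nat_lit 455) (nat_lit 371)))))) (XT.nd (nat_lit 470) (nat_lit 0) (nat_lit 0) (XT.nd (nat_lit 188) (nat_lit 0) (nat_lit 0) (XT.nd (nat_lit 94) (nat_lit 0) (nat_lit 0) (XT.lf (nat_lit 0) (nat_lit 1609839076598) (nat_lit 0) (nat_lit 0) (nat_lit 0) (nat_lit 0) (nat_lit 0) (nat_lit 0) (nat_lit 1) (nat_lit 0) (nat_lit 1) (nat_lit 0) (nat_lit 255) (nat_lit 455) (nat_lit 370)) (XT.lf (nat_lit 0) (nat_lit 1609667363408) (nat_lit 0) (nat_lit 0) (nat_lit 0) (nat_lit 0) (nat_lit 0) (nat_lit 0) (nat_lit 1) (nat_lit 0) (nat_lit 1) (nat_lit 0) (nat_lit 256) (nat_lit 455) (nat_lit 369))) (XT.nd (nat_lit 94)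 (nat_lit 0) (nat_lit 0) (XT.lf (nat_lit 0) (nat_lit 1609508369713) (nat_lit 0) (nat_lit 0) (nat_lit 0) (nat_lit 0) (nat_lit 0) (nat_lit 0) (nat_lit 1) (nat_lit 0) (nat_lit 1) (nat_lit 0) (nat_lit 257) (nat_lit 455) (nat_lit 368)) (XT.nd (nat_lit 94) (nat_lit 0) (nat_lit 0) (XT.lf (nat_lit 0) (nat_lit 1609361153330) (nat_lit 0) (nat_lit 0) (nat_lit 0) (nat_lit 0) (nat_lit 0) (nat_lit 0) (nat_lit 1) (nat_lit 0) (nat_lit 1) (nat_lit 0) (nat_lit 258) (nat_lit 455) (nat_lit 367)) (XT.lf (nat_lit 0) (nat_lit 1609224841863) (nat_lit 0) (nat_lit 0) (nat_lit 0) (nat_lit 0) (nat_lit 0) (nat_lit 0) (nat_lit 1) (nat_lit 0) (nat_lit 1) (nat_lit 0) (nat_lit 259) (nat_lit 455) (nat_lit 366))))) (XT.nd (nat_lit 188) (nat_lit 0) (nat_lit 0) (XT.nd (nat_lit 94) (nat_lit 0) (nat_lit 0) (XT.lf (nat_lit 0) (nat_lit 1609098627542) (nat_lit 0) (nat_lit 0) (nat_lit 0) (nat_lit 0)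 (nat_lit 0) (nat_lit 0) (nat_lit 1) (nat_lit 0) (nat_lit 1) (nat_lit 0) (nat_lit 260) (nat_lit 455) (nat_lit 365)) (XT.lf (nat_lit 0) (nat_lit 1608981762431) (nat_lit 0) (nat_lit 0) (nat_lit 0) (nat_lit 0) (nat_lit 0) (nat_lit 0) (nat_lit 1) (nat_lit 0) (nat_lit 1) (nat_lit 0) (nat_lit 261) (nat_lit 455) (nat_lit 364))) (XT.nd (nat_lit 94) (nat_lit 0) (nat_lit 0) (XT.lf (nat_lit 0) (nat_lit 1608873553994) (nat_lit 0) (nat_lit 0) (nat_lit 0) (nat_lit 0) (nat_lit 0) (nat_lit 0) (nat_lit 1) (nat_lit 0) (nat_lit 1) (nat_lit 0) (nat_lit 262) (nat_lit 455) (nat_lit 363)) (XT.nd (nat_lit 94) (nat_lit 0) (nat_lit 0) (XT.lf (nat_lit 0) (nat_lit 1608773360997) (nat_lit 0) (nat_lit 0) (nat_lit 0) (nat_lit 0) (nat_lit 0) (nat_lit 0) (nat_lit 1) (nat_lit 0) (nat_lit 1) (nat_lit 0) (nat_lit 263) (nat_lit 455) (nat_lit 362)) (XT.lf (nat_lit 0) (nat_lit 1608680589703) (nat_lit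 0) (nat_lit 0) (nat_lit 0) (nat_lit 0) (nat_lit 0) (nat_lit 0) (nat_lit 1) (nat_lit 0) (nat_lit 1) (nat_lit 0) (nat_lit 264) (nat_lit 455) (nat_lit 361))))))))
noncomputable def ec466 : XT := (XT.nd (nat_lit 1692) (nat_lit 0) (nat_lit 0) (XT.nd (nat_lit 846) (nat_lit 0) (nat_lit 0) (XT.nd (nat_lit 376) (nat_lit 0) (nat_lit 0) (XT.nd (nat_lit 188) (nat_lit 0) (nat_lit 0) (XT.nd (nat_lit 94) (nat_lit 0) (nat_lit 0) (XT.lf (nat_lit 0) (nat_lit 1608594690357) (nat_lit 0) (nat_lit 0) (nat_lit 0) (nat_lit 0) (nat_lit 0) (nat_lit 0) (nat_lit 1) (nat_lit 0) (nat_lit 1) (nat_lit 0) (nat_lit 265) (nat_lit 455) (nat_lit 360)) (XT.lf (nat_lit 0) (nat_lit 1608515153926) (nat_lit 0) (nat_lit 0) (nat_lit 0) (nat_lit 0) (nat_lit 0) (nat_lit 0) (nat_lit 1) (nat_lit 0) (nat_lit 1) (nat_lit 0) (nat_lit 266) (nat_lit 455) (nat_lit 359))) (XT.nd (nat_lit 94) (nat_lit 0) (nat_lit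 0) (XT.lf (nat_lit 0) (nat_lit 1608441509082) (nat_lit 0) (nat_lit 0) (nat_lit 0) (nat_lit 0) (nat_lit 0) (nat_lit 0) (nat_lit 1) (nat_lit 0) (nat_lit 1) (nat_lit 0) (nat_lit 267) (nat_lit 455) (nat_lit 358)) (XT.lf (nat_lit 0) (nat_lit 1608373319412) (nat_lit 0) (nat_lit 0) (nat_lit 0) (nat_lit 0) (nat_lit 0) (nat_lit 0) (nat_lit 1) (nat_lit 0) (nat_lit 1) (nat_lit 0) (nat_lit 268) (nat_lit 455) (nat_lit 357)))) (XT.nd (nat_lit 188) (nat_lit 0) (nat_lit 0) (XT.nd (nat_lit 94) (nat_lit 0) (nat_lit 0) (XT.lf (nat_lit 0) (nat_lit 1608310180828) (nat_lit 0) (nat_lit 0) (nat_lit 0) (nat_lit 0) (nat_lit 0) (nat_lit 0) (nat_lit 1) (nat_lit 0) (nat_lit 1) (nat_lit 0) (nat_lit 269) (nat_lit 455) (nat_lit 356)) (XT.lf (nat_lit 0) (nat_lit 1608251719177) (nat_lit 0) (nat_lit 0) (nat_lit 0) (nat_lit 0) (nat_lit 0) (nat_lit 0) (nat_lit 1) (nat_lit 0) (nat_lit 1) (nat_lit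 0) (nat_lit 270) (nat_lit 455) (nat_lit 355))) (XT.nd (nat_lit 94) (nat_lit 0) (nat_lit 0) (XT.lf (nat_lit 0) (nat_lit 1608197588018) (nat_lit 0) (nat_lit 0) (nat_lit 0) (nat_lit 0) (nat_lit 0) (nat_lit 0) (nat_lit 1) (nat_lit 0) (nat_lit 1) (nat_lit 0) (nat_lit 271) (nat_lit 455) (nat_lit 354)) (XT.nd (nat_lit 94) (nat_lit 0) (nat_lit 0) (XT.lf (nat_lit 0) (nat_lit 1608147466575) (nat_lit 0) (nat_lit 0) (nat_lit 0) (nat_lit 0) (nat_lit 0) (nat_lit 0) (nat_lit 1) (nat_lit 0) (nat_lit 1) (nat_lit 0) (nat_lit 272) (nat_lit 455) (nat_lit 353)) (XT.lf (nat_lit 0) (nat_lit 1608101057831) (nat_lit 0) (nat_lit 0) (nat_lit 0) (nat_lit 0) (nat_lit 0) (nat_lit 0) (nat_lit 1) (nat_lit 0) (nat_lit 1) (nat_lit 0) (nat_lit 273) (nat_lit 455) (nat_lit 352)))))) (XT.nd (nat_lit 376) (nat_lit 0) (nat_lit 0) (XT.nd (nat_lit 188) (nat_lit 0) (nat_lit 0) (XT.nd (nat_lit 94) (nat_lit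 0) (nat_lit 0) (XT.lf (nat_lit 0) (nat_lit 1608058086772) (nat_lit 0) (nat_lit 0) (nat_lit 0) (nat_lit 0) (nat_lit 0) (nat_lit 0) (nat_lit 1) (nat_lit 0) (nat_lit 1) (nat_lit 0) (nat_lit 274) (nat_lit 455) (nat_lit 351)) (XT.lf (nat_lit 0) (nat_lit 1608018298754) (nat_lit 0) (nat_lit 0) (nat_lit 0) (nat_lit 0) (nat_lit 0) (nat_lit 0) (nat_lit 1) (nat_lit 0) (nat_lit 1) (nat_lit 0) (nat_lit 275) (nat_lit 455) (nat_lit 350))) (XT.nd (nat_lit 94) (nat_lit 0) (nat_lit 0) (XT.lf (nat_lit 0) (nat_lit 1607981457997) (nat_lit 0) (nat_lit 0) (nat_lit 0) (nat_lit 0) (nat_lit 0) (nat_lit 0) (nat_lit 1) (nat_lit 0) (nat_lit 1) (nat_lit 0) (nat_lit 276) (nat_lit 455) (nat_lit 349)) (XT.lf (nat_lit 0) (nat_lit 1607947346185) (nat_lit 0) (nat_lit 0) (nat_lit 0) (nat_lit 0) (nat_lit 0) (nat_lit 0) (nat_lit 1) (nat_lit 0) (nat_lit 1) (nat_lit 0) (nat_lit 277) (nat_lit 455)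 (nat_lit 348)))) (XT.nd (nat_lit 188) (nat_lit 0) (nat_lit 0) (XT.nd (nat_lit 94) (nat_lit 0) (nat_lit 0) (XT.lf (nat_lit 0) (nat_lit 1607915761174) (nat_lit 0) (nat_lit 0) (nat_lit 0) (nat_lit 0) (nat_lit 0) (nat_lit 0) (nat_lit 1) (nat_lit 0) (nat_lit 1) (nat_lit 0) (nat_lit 278) (nat_lit 455) (nat_lit 347)) (XT.lf (nat_lit 0) (nat_lit 1607886515793) (nat_lit 0) (nat_lit 0) (nat_lit 0) (nat_lit 0) (nat_lit 0) (nat_lit 0) (nat_lit 1) (nat_lit 0) (nat_lit 1) (nat_lit 0) (nat_lit 279) (nat_lit 455) (nat_lit 346))) (XT.nd (nat_lit 94) (nat_lit 0) (nat_lit 0) (XT.lf (nat_lit 0) (nat_lit 1607859436737) (nat_lit 0) (nat_lit 0) (nat_lit 0) (nat_lit 0) (nat_lit 0) (nat_lit 0) (nat_lit 1) (nat_lit 0) (nat_lit 1) (nat_lit 0) (nat_lit 280) (nat_lit 455) (nat_lit 345)) (XT.nd (nat_lit 94) (nat_lit 0) (nat_lit 0) (XT.lf (nat_lit 0) (nat_lit 1607834363536) (nat_lit 0)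 (nat_lit 0) (nat_lit 0) (nat_lit 0) (nat_lit 0) (nat_lit 0) (nat_lit 1) (nat_lit 0) (nat_lit 1) (nat_lit 0) (nat_lit 281) (nat_lit 455) (nat_lit 344)) (XT.lf (nat_lit 0) (nat_lit 1607811147610) (nat_lit 0) (nat_lit 0) (nat_lit 0) (nat_lit 0) (nat_lit 0) (nat_lit 0) (nat_lit 1) (nat_lit 0) (nat_lit 1) (nat_lit 0) (nat_lit 282) (nat_lit 455) (nat_lit 343))))))) (XT.nd (nat_lit 846) (nat_lit 0) (nat_lit 0) (XT.nd (nat_lit 376) (nat_lit 0) (nat_lit 0) (XT.nd (nat_lit 188) (nat_lit 0) (nat_lit 0) (XT.nd (nat_lit 94) (nat_lit 0) (nat_lit 0) (XT.lf (nat_lit 0) (nat_lit 1607789651382) (nat_lit 0) (nat_lit 0) (nat_lit 0) (nat_lit 0) (nat_lit 0) (nat_lit 0) (nat_lit 1) (nat_lit 0) (nat_lit 1) (nat_lit 0) (nat_lit 283) (nat_lit 455) (nat_lit 342)) (XT.lf (nat_lit 0) (nat_lit 1607769747467) (nat_lit 0) (nat_lit 0) (nat_lit 0) (nat_lit 0) (nat_lit 0) (nat_lit 0) (nat_lit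 1) (nat_lit 0) (nat_lit 1) (nat_lit 0) (nat_lit 284) (nat_lit 455) (nat_lit 341))) (XT.nd (nat_lit 94) (nat_lit 0) (nat_lit 0) (XT.lf (nat_lit 0) (nat_lit 1607751317917) (nat_lit 0) (nat_lit 0) (nat_lit 0) (nat_lit 0) (nat_lit 0) (nat_lit 0) (nat_lit 1) (nat_lit 0) (nat_lit 1) (nat_lit 0) (nat_lit 285) (nat_lit 455) (nat_lit 340)) (XT.lf (nat_lit 0) (nat_lit 1607734253518) (nat_lit 0) (nat_lit 0) (nat_lit 0) (nat_lit 0) (nat_lit 0) (nat_lit 0) (nat_lit 1) (nat_lit 0) (nat_lit 1) (nat_lit 0) (nat_lit 286) (nat_lit 455) (nat_lit 339)))) (XT.nd (nat_lit 188) (nat_lit 0) (nat_lit 0) (XT.nd (nat_lit 94) (nat_lit 0) (nat_lit 0) (XT.lf (nat_lit 0) (nat_lit 1607718453149) (nat_lit 0) (nat_lit 0) (nat_lit 0) (nat_lit 0) (nat_lit 0) (nat_lit 0) (nat_lit 1) (nat_lit 0) (nat_lit 1) (nat_lit 0) (nat_lit 287) (nat_lit 455) (nat_lit 338)) (XT.lf (nat_lit 0) (nat_lit 1607703823177)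 (nat_lit 0) (nat_lit 0) (nat_lit 0) (nat_lit 0) (nat_lit 0) (nat_lit 0) (nat_lit 1) (nat_lit 0) (nat_lit 1) (nat_lit 0) (nat_lit 288) (nat_lit 455) (nat_lit 337))) (XT.nd (nat_lit 94) (nat_lit 0) (nat_lit 0) (XT.lf (nat_lit 0) (nat_lit 1607690276907) (nat_lit 0) (nat_lit 0) (nat_lit 0) (nat_lit 0) (nat_lit 0) (nat_lit 0) (nat_lit 1) (nat_lit 0) (nat_lit 1) (nat_lit 0) (nat_lit 289) (nat_lit 455) (nat_lit 336)) (XT.nd (nat_lit 94) (nat_lit 0) (nat_lit 0) (XT.lf (nat_lit 0) (nat_lit 1607677734065) (nat_lit 0) (nat_lit 0) (nat_lit 0) (nat_lit 0) (nat_lit 0) (nat_lit 0) (nat_lit 1) (nat_lit 0) (nat_lit 1) (nat_lit 0) (nat_lit 290) (nat_lit 455) (nat_lit 335)) (XT.lf (nat_lit 0) (nat_lit 1607666120322) (nat_lit 0) (nat_lit 0) (nat_lit 0) (nat_lit 0) (nat_lit 0) (nat_lit 0) (nat_lit 1) (nat_lit 0) (nat_lit 1) (nat_lit 0) (nat_lit 291) (nat_lit 455) (nat_lit 334))))))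 (XT.nd (nat_lit 470) (nat_lit 0) (nat_lit 0) (XT.nd (nat_lit 188) (nat_lit 0) (nat_lit 0) (XT.nd (nat_lit 94) (nat_lit 0) (nat_lit 0) (XT.lf (nat_lit 0) (nat_lit 1607655366856) (nat_lit 0) (nat_lit 0) (nat_lit 0) (nat_lit 0) (nat_lit 0) (nat_lit 0) (nat_lit 1) (nat_lit 0) (nat_lit 1) (nat_lit 0) (nat_lit 292) (nat_lit 455) (nat_lit 333)) (XT.lf (nat_lit 0) (nat_lit 1607645409943) (nat_lit 0) (nat_lit 0) (nat_lit 0) (nat_lit 0) (nat_lit 0) (nat_lit 0) (nat_lit 1) (nat_lit 0) (nat_lit 1) (nat_lit 0) (nat_lit 293) (nat_lit 455) (nat_lit 332))) (XT.nd (nat_lit 94) (nat_lit 0) (nat_lit 0) (XT.lf (nat_lit 0) (nat_lit 1607636190579) (nat_lit 0) (nat_lit 0) (nat_lit 0) (nat_lit 0) (nat_lit 0) (nat_lit 0) (nat_lit 1) (nat_lit 0) (nat_lit 1) (nat_lit 0) (nat_lit 294) (nat_lit 455) (nat_lit 331)) (XT.nd (nat_lit 94) (nat_lit 0) (nat_lit 0) (XT.lf (nat_lit 0) (nat_lit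 1607627654132) (nat_lit 0) (nat_lit 0) (nat_lit 0) (nat_lit 0) (nat_lit 0) (nat_lit 0) (nat_lit 1) (nat_lit 0) (nat_lit 1) (nat_lit 0) (nat_lit 295) (nat_lit 455) (nat_lit 330)) (XT.lf (nat_lit 0) (nat_lit 1607619750013) (nat_lit 0) (nat_lit 0) (nat_lit 0) (nat_lit 0) (nat_lit 0) (nat_lit 0) (nat_lit 1) (nat_lit 0) (nat_lit 1) (nat_lit 0) (nat_lit 296) (nat_lit 455) (nat_lit 329))))) (XT.nd (nat_lit 188) (nat_lit 0) (nat_lit 0) (XT.nd (nat_lit 94) (nat_lit 0) (nat_lit 0) (XT.lf (nat_lit 0) (nat_lit 1607612431385) (nat_lit 0) (nat_lit 0) (nat_lit 0) (nat_lit 0) (nat_lit 0) (nat_lit 0) (nat_lit 1) (nat_lit 0) (nat_lit 1) (nat_lit 0) (nat_lit 297) (nat_lit 455) (nat_lit 328)) (XT.lf (nat_lit 0) (nat_lit 1607605654877) (nat_lit 0) (nat_lit 0) (nat_lit 0) (nat_lit 0) (nat_lit 0) (nat_lit 0) (nat_lit 1) (nat_lit 0) (nat_lit 1) (nat_lit 0) (nat_lit 298) (nat_lit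 455) (nat_lit 327))) (XT.nd (nat_lit 94) (nat_lit 0) (nat_lit 0) (XT.lf (nat_lit 0) (nat_lit 1607599380333) (nat_lit 0) (nat_lit 0) (nat_lit 0) (nat_lit 0) (nat_lit 0) (nat_lit 0) (nat_lit 1) (nat_lit 0) (nat_lit 1) (nat_lit 0) (nat_lit 299) (nat_lit 455) (nat_lit 326)) (XT.nd (nat_lit 94) (nat_lit 0) (nat_lit 0) (XT.lf (nat_lit 0) (nat_lit 1607593570571) (nat_lit 0) (nat_lit 0) (nat_lit 0) (nat_lit 0) (nat_lit 0) (nat_lit 0) (nat_lit 1) (nat_lit 0) (nat_lit 1) (nat_lit 0) (nat_lit 300) (nat_lit 455) (nat_lit 325)) (XT.lf (nat_lit 0) (nat_lit 1607588191160) (nat_lit 0) (nat_lit 0) (nat_lit 0) (nat_lit 0) (nat_lit 0) (nat_lit 0) (nat_lit 1) (nat_lit 0) (nat_lit 1) (nat_lit 0) (nat_lit 301) (nat_lit 455) (nat_lit 324))))))))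
noncomputable def ec467 : XT := (XT.nd (nat_lit 2914) (nat_lit 0) (nat_lit 0) (XT.nd (nat_lit 1974) (nat_lit 0) (nat_lit 0) (XT.nd (nat_lit 376) (nat_lit 0) (nat_lit 0) (XT.nd (nat_lit 188) (nat_lit 0) (nat_lit 0) (XT.nd (nat_lit 94) (nat_lit 0) (nat_lit 0) (XT.lf (nat_lit 0) (nat_lit 1607583210225) (nat_lit 0) (nat_lit 0) (nat_lit 0) (nat_lit 0) (nat_lit 0) (nat_lit 0) (nat_lit 1) (nat_lit 0) (nat_lit 1) (nat_lit 0) (nat_lit 302) (nat_lit 455) (nat_lit 323)) (XT.lf (nat_lit 0) (nat_lit 1607578598248) (nat_lit 0) (nat_lit 0) (nat_lit 0) (nat_lit 0) (nat_lit 0) (nat_lit 0) (nat_lit 1) (nat_lit 0) (nat_lit 1) (nat_lit 0) (nat_lit 303) (nat_lit 455) (nat_lit 322))) (XT.nd (nat_lit 94) (nat_lit 0) (nat_lit 0) (XT.lf (nat_lit 0) (nat_lit 1607574327899) (nat_lit 0) (nat_lit 0) (nat_lit 0) (nat_lit 0) (nat_lit 0) (nat_lit 0) (nat_lit 1) (nat_lit 0) (nat_lit 1) (nat_lit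 0) (nat_lit 304) (nat_lit 455) (nat_lit 321)) (XT.lf (nat_lit 0) (nat_lit 1607570373872) (nat_lit 0) (nat_lit 0) (nat_lit 0) (nat_lit 0) (nat_lit 0) (nat_lit 0) (nat_lit 1) (nat_lit 0) (nat_lit 1) (nat_lit 0) (nat_lit 305) (nat_lit 455) (nat_lit 320)))) (XT.nd (nat_lit 1316) (nat_lit 0) (nat_lit 0) (XT.nd (nat_lit 1222) (nat_lit 0) (nat_lit 0) (XT.lf (nat_lit 0) (nat_lit 1607566712735) (nat_lit 0) (nat_lit 0) (nat_lit 0) (nat_lit 0) (nat_lit 0) (nat_lit 0) (nat_lit 1) (nat_lit 0) (nat_lit 1) (nat_lit 0) (nat_lit 306) (nat_lit 455) (nat_lit 319)) (XT.lf (nat_lit 0) (nat_lit 1607537775935) (nat_lit 0) (nat_lit 0) (nat_lit 0) (nat_lit 0) (nat_lit 0) (nat_lit 0) (nat_lit 1) (nat_lit 0) (nat_lit 1) (nat_lit 0) (nat_lit 319) (nat_lit 455) (nat_lit 306))) (XT.nd (nat_lit 94) (nat_lit 0) (nat_lit 0) (XT.lf (nat_lit 0) (nat_lit 1607536529461) (nat_lit 0) (nat_lit 0)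 (nat_lit 0) (nat_lit 0) (nat_lit 0) (nat_lit 0) (nat_lit 1) (nat_lit 0) (nat_lit 1) (nat_lit 0) (nat_lit 320) (nat_lit 455) (nat_lit 305)) (XT.nd (nat_lit 94) (nat_lit 0) (nat_lit 0) (XT.lf (nat_lit 0) (nat_lit 1607535375318) (nat_lit 0) (nat_lit 0) (nat_lit 0) (nat_lit 0) (nat_lit 0) (nat_lit 0) (nat_lit 1) (nat_lit 0) (nat_lit 1) (nat_lit 0) (nat_lit 321) (nat_lit 455) (nat_lit 304)) (XT.lf (nat_lit 0) (nat_lit 1607534306668) (nat_lit 0) (nat_lit 0) (nat_lit 0) (nat_lit 0) (nat_lit 0) (nat_lit 0) (nat_lit 1) (nat_lit 0) (nat_lit 1) (nat_lit 0) (nat_lit 322) (nat_lit 455) (nat_lit 303)))))) (XT.nd (nat_lit 470) (nat_lit 0) (nat_lit 0) (XT.nd (nat_lit 188) (nat_lit 0) (nat_lit 0) (XT.nd (nat_lit 94) (nat_lit 0) (nat_lit 0) (XT.lf (nat_lit 0) (nat_lit 1607533317176) (nat_lit 0) (nat_lit 0) (nat_lit 0) (nat_lit 0) (nat_lit 0) (nat_lit 0) (nat_lit 1) (nat_lit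 0) (nat_lit 1) (nat_lit 0) (nat_lit 323) (nat_lit 455) (nat_lit 302)) (XT.lf (nat_lit 0) (nat_lit 1607532400980) (nat_lit 0) (nat_lit 0) (nat_lit 0) (nat_lit 0) (nat_lit 0) (nat_lit 0) (nat_lit 1) (nat_lit 0) (nat_lit 1) (nat_lit 0) (nat_lit 324) (nat_lit 455) (nat_lit 301))) (XT.nd (nat_lit 94) (nat_lit 0) (nat_lit 0) (XT.lf (nat_lit 0) (nat_lit 1607531552651) (nat_lit 0) (nat_lit 0) (nat_lit 0) (nat_lit 0) (nat_lit 0) (nat_lit 0) (nat_lit 1) (nat_lit 0) (nat_lit 1) (nat_lit 0) (nat_lit 325) (nat_lit 455) (nat_lit 300)) (XT.nd (nat_lit 94) (nat_lit 0) (nat_lit 0) (XT.lf (nat_lit 0) (nat_lit 1607530767161) (nat_lit 0) (nat_lit 0) (nat_lit 0) (nat_lit 0) (nat_lit 0) (nat_lit 0) (nat_lit 1) (nat_lit 0) (nat_lit 1) (nat_lit 0) (nat_lit 326) (nat_lit 455) (nat_lit 299)) (XT.lf (nat_lit 0) (nat_lit 1607530039855) (nat_lit 0) (nat_lit 0) (nat_lit 0) (nat_lit 0)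 (nat_lit 0) (nat_lit 0) (nat_lit 1) (nat_lit 0) (nat_lit 1) (nat_lit 0) (nat_lit 327) (nat_lit 455) (nat_lit 298))))) (XT.nd (nat_lit 188) (nat_lit 0) (nat_lit 0) (XT.nd (nat_lit 94) (nat_lit 0) (nat_lit 0) (XT.lf (nat_lit 0) (nat_lit 1607529366424) (nat_lit 0) (nat_lit 0) (nat_lit 0) (nat_lit 0) (nat_lit 0) (nat_lit 0) (nat_lit 1) (nat_lit 0) (nat_lit 1) (nat_lit 0) (nat_lit 328) (nat_lit 455) (nat_lit 297)) (XT.lf (nat_lit 0) (nat_lit 1607528742876) (nat_lit 0) (nat_lit 0) (nat_lit 0) (nat_lit 0) (nat_lit 0) (nat_lit 0) (nat_lit 1) (nat_lit 0) (nat_lit 1) (nat_lit 0) (nat_lit 329) (nat_lit 455) (nat_lit 296))) (XT.nd (nat_lit 94) (nat_lit 0) (nat_lit 0) (XT.lf (nat_lit 0) (nat_lit 1607528165518) (nat_lit 0) (nat_lit 0) (nat_lit 0) (nat_lit 0) (nat_lit 0) (nat_lit 0) (nat_lit 1) (nat_lit 0) (nat_lit 1) (nat_lit 0) (nat_lit 330) (nat_lit 455) (nat_lit 295))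 (XT.nd (nat_lit 94) (nat_lit 0) (nat_lit 0) (XT.lf (nat_lit 0) (nat_lit 1607527630926) (nat_lit 0) (nat_lit 0) (nat_lit 0) (nat_lit 0) (nat_lit 0) (nat_lit 0) (nat_lit 1) (nat_lit 0) (nat_lit 1) (nat_lit 0) (nat_lit 331) (nat_lit 455) (nat_lit 294)) (XT.lf (nat_lit 0) (nat_lit 1607527135934) (nat_lit 0) (nat_lit 0) (nat_lit 0) (nat_lit 0) (nat_lit 0) (nat_lit 0) (nat_lit 1) (nat_lit 0) (nat_lit 1) (nat_lit 0) (nat_lit 332) (nat_lit 455) (nat_lit 293))))))) (XT.nd (nat_lit 846) (nat_lit 0) (nat_lit 0) (XT.nd (nat_lit 376) (nat_lit 0) (nat_lit 0) (XT.nd (nat_lit 188) (nat_lit 0) (nat_lit 0) (XT.nd (nat_lit 94) (nat_lit 0) (nat_lit 0) (XT.lf (nat_lit 0) (nat_lit 1607526677608) (nat_lit 0) (nat_lit 0) (nat_lit 0) (nat_lit 0) (nat_lit 0) (nat_lit 0) (nat_lit 1) (nat_lit 0) (nat_lit 1) (nat_lit 0) (nat_lit 333) (nat_lit 455) (nat_lit 292)) (XT.lf (nat_lit 0) (nat_lit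 1607526253232) (nat_lit 0) (nat_lit 0) (nat_lit 0) (nat_lit 0) (nat_lit 0) (nat_lit 0) (nat_lit 1) (nat_lit 0) (nat_lit 1) (nat_lit 0) (nat_lit 334) (nat_lit 455) (nat_lit 291))) (XT.nd (nat_lit 94) (nat_lit 0) (nat_lit 0) (XT.lf (nat_lit 0) (nat_lit 1607525860292) (nat_lit 0) (nat_lit 0) (nat_lit 0) (nat_lit 0) (nat_lit 0) (nat_lit 0) (nat_lit 1) (nat_lit 0) (nat_lit 1) (nat_lit 0) (nat_lit 335) (nat_lit 455) (nat_lit 290)) (XT.lf (nat_lit 0) (nat_lit 1607525496458) (nat_lit 0) (nat_lit 0) (nat_lit 0) (nat_lit 0) (nat_lit 0) (nat_lit 0) (nat_lit 1) (nat_lit 0) (nat_lit 1) (nat_lit 0) (nat_lit 336) (nat_lit 455) (nat_lit 289)))) (XT.nd (nat_lit 188) (nat_lit 0) (nat_lit 0) (XT.nd (nat_lit 94) (nat_lit 0) (nat_lit 0) (XT.lf (nat_lit 0) (nat_lit 1607525159574) (nat_lit 0) (nat_lit 0) (nat_lit 0) (nat_lit 0) (nat_lit 0) (nat_lit 0) (nat_lit 1) (nat_lit 0) (nat_lit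 1) (nat_lit 0) (nat_lit 337) (nat_lit 455) (nat_lit 288)) (XT.lf (nat_lit 0) (nat_lit 1607524847645) (nat_lit 0) (nat_lit 0) (nat_lit 0) (nat_lit 0) (nat_lit 0) (nat_lit 0) (nat_lit 1) (nat_lit 0) (nat_lit 1) (nat_lit 0) (nat_lit 338) (nat_lit 455) (nat_lit 287))) (XT.nd (nat_lit 94) (nat_lit 0) (nat_lit 0) (XT.lf (nat_lit 0) (nat_lit 1607524558822) (nat_lit 0) (nat_lit 0) (nat_lit 0) (nat_lit 0) (nat_lit 0) (nat_lit 0) (nat_lit 1) (nat_lit 0) (nat_lit 1) (nat_lit 0) (nat_lit 339) (nat_lit 455) (nat_lit 286)) (XT.nd (nat_lit 94) (nat_lit 0) (nat_lit 0) (XT.lf (nat_lit 0) (nat_lit 1607524291393) (nat_lit 0) (nat_lit 0) (nat_lit 0) (nat_lit 0) (nat_lit 0) (nat_lit 0) (nat_lit 1) (nat_lit 0) (nat_lit 1) (nat_lit 0) (nat_lit 340) (nat_lit 455) (nat_lit 285)) (XT.lf (nat_lit 0) (nat_lit 1607524043774) (nat_lit 0) (nat_lit 0) (nat_lit 0) (nat_lit 0) (nat_lit 0)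 (nat_lit 0) (nat_lit 1) (nat_lit 0) (nat_lit 1) (nat_lit 0) (nat_lit 341) (nat_lit 455) (nat_lit 284)))))) (XT.nd (nat_lit 470) (nat_lit 0) (nat_lit 0) (XT.nd (nat_lit 188) (nat_lit 0) (nat_lit 0) (XT.nd (nat_lit 94) (nat_lit 0) (nat_lit 0) (XT.lf (nat_lit 0) (nat_lit 1607523814497) (nat_lit 0) (nat_lit 0) (nat_lit 0) (nat_lit 0) (nat_lit 0) (nat_lit 0) (nat_lit 1) (nat_lit 0) (nat_lit 1) (nat_lit 0) (nat_lit 342) (nat_lit 455) (nat_lit 283)) (XT.lf (nat_lit 0) (nat_lit 1607523602203) (nat_lit 0) (nat_lit 0) (nat_lit 0) (nat_lit 0) (nat_lit 0) (nat_lit 0) (nat_lit 1) (nat_lit 0) (nat_lit 1) (nat_lit 0) (nat_lit 343) (nat_lit 455) (nat_lit 282))) (XT.nd (nat_lit 94) (nat_lit 0) (nat_lit 0) (XT.lf (nat_lit 0) (nat_lit 1607523405635) (nat_lit 0) (nat_lit 0) (nat_lit 0) (nat_lit 0) (nat_lit 0) (nat_lit 0) (nat_lit 1) (nat_lit 0) (nat_lit 1) (nat_lit 0) (nat_lit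 344) (nat_lit 455) (nat_lit 281)) (XT.nd (nat_lit 94) (nat_lit 0) (nat_lit 0) (XT.lf (nat_lit 0) (nat_lit 1607523223628) (nat_lit 0) (nat_lit 0) (nat_lit 0) (nat_lit 0) (nat_lit 0) (nat_lit 0) (nat_lit 1) (nat_lit 0) (nat_lit 1) (nat_lit 0) (nat_lit 345) (nat_lit 455) (nat_lit 280)) (XT.lf (nat_lit 0) (nat_lit 1607523055102) (nat_lit 0) (nat_lit 0) (nat_lit 0) (nat_lit 0) (nat_lit 0) (nat_lit 0) (nat_lit 1) (nat_lit 0) (nat_lit 1) (nat_lit 0) (nat_lit 346) (nat_lit 455) (nat_lit 279))))) (XT.nd (nat_lit 188) (nat_lit 0) (nat_lit 0) (XT.nd (nat_lit 94) (nat_lit 0) (nat_lit 0) (XT.lf (nat_lit 0) (nat_lit 1607522899060) (nat_lit 0) (nat_lit 0) (nat_lit 0) (nat_lit 0) (nat_lit 0) (nat_lit 0) (nat_lit 1) (nat_lit 0) (nat_lit 1) (nat_lit 0) (nat_lit 347) (nat_lit 455) (nat_lit 278)) (XT.lf (nat_lit 0) (nat_lit 1607522754577) (nat_lit 0) (nat_lit 0) (nat_lit 0) (nat_lit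 0) (nat_lit 0) (nat_lit 0) (nat_lit 1) (nat_lit 0) (nat_lit 1) (nat_lit 0) (nat_lit 348) (nat_lit 455) (nat_lit 277))) (XT.nd (nat_lit 94) (nat_lit 0) (nat_lit 0) (XT.lf (nat_lit 0) (nat_lit 1607522620796) (nat_lit 0) (nat_lit 0) (nat_lit 0) (nat_lit 0) (nat_lit 0) (nat_lit 0) (nat_lit 1) (nat_lit 0) (nat_lit 1) (nat_lit 0) (nat_lit 349) (nat_lit 455) (nat_lit 276)) (XT.nd (nat_lit 94) (nat_lit 0) (nat_lit 0) (XT.lf (nat_lit 0) (nat_lit 1607522496924) (nat_lit 0) (nat_lit 0) (nat_lit 0) (nat_lit 0) (nat_lit 0) (nat_lit 0) (nat_lit 1) (nat_lit 0) (nat_lit 1) (nat_lit 0) (nat_lit 350) (nat_lit 455) (nat_lit 275)) (XT.lf (nat_lit 0) (nat_lit 1607522382229) (nat_lit 0) (nat_lit 0) (nat_lit 0) (nat_lit 0) (nat_lit 0) (nat_lit 0) (nat_lit 1) (nat_lit 0) (nat_lit 1) (nat_lit 0) (nat_lit 351) (nat_lit 455) (nat_lit 274))))))))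
noncomputable def ec468 : XT := (XT.nd (nat_lit 1692) (nat_lit 0) (nat_lit 0) (XT.nd (nat_lit 846) (nat_lit 0) (nat_lit 0) (XT.nd (nat_lit 376) (nat_lit 0) (nat_lit 0) (XT.nd (nat_lit 188) (nat_lit 0) (nat_lit 0) (XT.nd (nat_lit 94) (nat_lit 0) (nat_lit 0) (XT.lf (nat_lit 0) (nat_lit 1607522276029) (nat_lit 0) (nat_lit 0) (nat_lit 0) (nat_lit 0) (nat_lit 0) (nat_lit 0) (nat_lit 1) (nat_lit 0) (nat_lit 1) (nat_lit 0) (nat_lit 352) (nat_lit 455) (nat_lit 273)) (XT.lf (nat_lit 0) (nat_lit 1607522177696) (nat_lit 0) (nat_lit 0) (nat_lit 0) (nat_lit 0) (nat_lit 0) (nat_lit 0) (nat_lit 1) (nat_lit 0) (nat_lit 1) (nat_lit 0) (nat_lit 353) (nat_lit 455) (nat_lit 272))) (XT.nd (nat_lit 94) (nat_lit 0) (nat_lit 0) (XT.lf (nat_lit 0) (nat_lit 1607522086647) (nat_lit 0) (nat_lit 0) (nat_lit 0) (nat_lit 0) (nat_lit 0) (nat_lit 0) (nat_lit 1) (nat_lit 0) (nat_lit 1) (nat_lit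 0) (nat_lit 354) (nat_lit 455) (nat_lit 271)) (XT.lf (nat_lit 0) (nat_lit 1607522002342) (nat_lit 0) (nat_lit 0) (nat_lit 0) (nat_lit 0) (nat_lit 0) (nat_lit 0) (nat_lit 1) (nat_lit 0) (nat_lit 1) (nat_lit 0) (nat_lit 355) (nat_lit 455) (nat_lit 270)))) (XT.nd (nat_lit 188) (nat_lit 0) (nat_lit 0) (XT.nd (nat_lit 94) (nat_lit 0) (nat_lit 0) (XT.lf (nat_lit 0) (nat_lit 1607521924282) (nat_lit 0) (nat_lit 0) (nat_lit 0) (nat_lit 0) (nat_lit 0) (nat_lit 0) (nat_lit 1) (nat_lit 0) (nat_lit 1) (nat_lit 0) (nat_lit 356) (nat_lit 455) (nat_lit 269)) (XT.lf (nat_lit 0) (nat_lit 1607521852005) (nat_lit 0) (nat_lit 0) (nat_lit 0) (nat_lit 0) (nat_lit 0) (nat_lit 0) (nat_lit 1) (nat_lit 0) (nat_lit 1) (nat_lit 0) (nat_lit 357) (nat_lit 455) (nat_lit 268))) (XT.nd (nat_lit 94) (nat_lit 0) (nat_lit 0) (XT.lf (nat_lit 0) (nat_lit 1607521785081) (nat_lit 0) (nat_lit 0) (nat_lit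 0) (nat_lit 0) (nat_lit 0) (nat_lit 0) (nat_lit 1) (nat_lit 0) (nat_lit 1) (nat_lit 0) (nat_lit 358) (nat_lit 455) (nat_lit 267)) (XT.nd (nat_lit 94) (nat_lit 0) (nat_lit 0) (XT.lf (nat_lit 0) (nat_lit 1607521723114) (nat_lit 0) (nat_lit 0) (nat_lit 0) (nat_lit 0) (nat_lit 0) (nat_lit 0) (nat_lit 1) (nat_lit 0) (nat_lit 1) (nat_lit 0) (nat_lit 359) (nat_lit 455) (nat_lit 266)) (XT.lf (nat_lit 0) (nat_lit 1607521665738) (nat_lit 0) (nat_lit 0) (nat_lit 0) (nat_lit 0) (nat_lit 0) (nat_lit 0) (nat_lit 1) (nat_lit 0) (nat_lit 1) (nat_lit 0) (nat_lit 360) (nat_lit 455) (nat_lit 265)))))) (XT.nd (nat_lit 376) (nat_lit 0) (nat_lit 0) (XT.nd (nat_lit 188) (nat_lit 0) (nat_lit 0) (XT.nd (nat_lit 94) (nat_lit 0) (nat_lit 0) (XT.lf (nat_lit 0) (nat_lit 1607521612612) (nat_lit 0) (nat_lit 0) (nat_lit 0) (nat_lit 0) (nat_lit 0) (nat_lit 0) (nat_lit 1) (nat_lit 0) (nat_lit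 1) (nat_lit 0) (nat_lit 361) (nat_lit 455) (nat_lit 264)) (XT.lf (nat_lit 0) (nat_lit 1607521563421) (nat_lit 0) (nat_lit 0) (nat_lit 0) (nat_lit 0) (nat_lit 0) (nat_lit 0) (nat_lit 1) (nat_lit 0) (nat_lit 1) (nat_lit 0) (nat_lit 362) (nat_lit 455) (nat_lit 263))) (XT.nd (nat_lit 94) (nat_lit 0) (nat_lit 0) (XT.lf (nat_lit 0) (nat_lit 1607521517873) (nat_lit 0) (nat_lit 0) (nat_lit 0) (nat_lit 0) (nat_lit 0) (nat_lit 0) (nat_lit 1) (nat_lit 0) (nat_lit 1) (nat_lit 0) (nat_lit 363) (nat_lit 455) (nat_lit 262)) (XT.lf (nat_lit 0) (nat_lit 1607521475700) (nat_lit 0) (nat_lit 0) (nat_lit 0) (nat_lit 0) (nat_lit 0) (nat_lit 0) (nat_lit 1) (nat_lit 0) (nat_lit 1) (nat_lit 0) (nat_lit 364) (nat_lit 455) (nat_lit 261)))) (XT.nd (nat_lit 188) (nat_lit 0) (nat_lit 0) (XT.nd (nat_lit 94) (nat_lit 0) (nat_lit 0) (XT.lf (nat_lit 0) (nat_lit 1607521436651) (nat_lit 0) (nat_lit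 0) (nat_lit 0) (nat_lit 0) (nat_lit 0) (nat_lit 0) (nat_lit 1) (nat_lit 0) (nat_lit 1) (nat_lit 0) (nat_lit 365) (nat_lit 455) (nat_lit 260)) (XT.lf (nat_lit 0) (nat_lit 1607521400494) (nat_lit 0) (nat_lit 0) (nat_lit 0) (nat_lit 0) (nat_lit 0) (nat_lit 0) (nat_lit 1) (nat_lit 0) (nat_lit 1) (nat_lit 0) (nat_lit 366) (nat_lit 455) (nat_lit 259))) (XT.nd (nat_lit 94) (nat_lit 0) (nat_lit 0) (XT.lf (nat_lit 0) (nat_lit 1607521367015) (nat_lit 0) (nat_lit 0) (nat_lit 0) (nat_lit 0) (nat_lit 0) (nat_lit 0) (nat_lit 1) (nat_lit 0) (nat_lit 1) (nat_lit 0) (nat_lit 367) (nat_lit 455) (nat_lit 258)) (XT.nd (nat_lit 94) (nat_lit 0) (nat_lit 0) (XT.lf (nat_lit 0) (nat_lit 1607521336017) (nat_lit 0) (nat_lit 0) (nat_lit 0) (nat_lit 0) (nat_lit 0) (nat_lit 0) (nat_lit 1) (nat_lit 0) (nat_lit 1) (nat_lit 0) (nat_lit 368) (nat_lit 455) (nat_lit 257)) (XT.lf (nat_lit 0)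 (nat_lit 1607521307314) (nat_lit 0) (nat_lit 0) (nat_lit 0) (nat_lit 0) (nat_lit 0) (nat_lit 0) (nat_lit 1) (nat_lit 0) (nat_lit 1) (nat_lit 0) (nat_lit 369) (nat_lit 455) (nat_lit 256))))))) (XT.nd (nat_lit 846) (nat_lit 0) (nat_lit 0) (XT.nd (nat_lit 376) (nat_lit 0) (nat_lit 0) (XT.nd (nat_lit 188) (nat_lit 0) (nat_lit 0) (XT.nd (nat_lit 94) (nat_lit 0) (nat_lit 0) (XT.lf (nat_lit 0) (nat_lit 1607521280738) (nat_lit 0) (nat_lit 0) (nat_lit 0) (nat_lit 0) (nat_lit 0) (nat_lit 0) (nat_lit 1) (nat_lit 0) (nat_lit 1) (nat_lit 0) (nat_lit 370) (nat_lit 455) (nat_lit 255)) (XT.lf (nat_lit 0) (nat_lit 1607521256130) (nat_lit 0) (nat_lit 0) (nat_lit 0) (nat_lit 0) (nat_lit 0) (nat_lit 0) (nat_lit 1) (nat_lit 0) (nat_lit 1) (nat_lit 0) (nat_lit 371) (nat_lit 455) (nat_lit 254))) (XT.nd (nat_lit 94) (nat_lit 0) (nat_lit 0) (XT.lf (nat_lit 0) (nat_lit 1607521233345)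 (nat_lit 0) (nat_lit 0) (nat_lit 0) (nat_lit 0) (nat_lit 0) (nat_lit 0) (nat_lit 1) (nat_lit 0) (nat_lit 1) (nat_lit 0) (nat_lit 372) (nat_lit 455) (nat_lit 253)) (XT.lf (nat_lit 0) (nat_lit 1607521212248) (nat_lit 0) (nat_lit 0) (nat_lit 0) (nat_lit 0) (nat_lit 0) (nat_lit 0) (nat_lit 1) (nat_lit 0) (nat_lit 1) (nat_lit 0) (nat_lit 373) (nat_lit 455) (nat_lit 252)))) (XT.nd (nat_lit 188) (nat_lit 0) (nat_lit 0) (XT.nd (nat_lit 94) (nat_lit 0) (nat_lit 0) (XT.lf (nat_lit 0) (nat_lit 1607521192714) (nat_lit 0) (nat_lit 0) (nat_lit 0) (nat_lit 0) (nat_lit 0) (nat_lit 0) (nat_lit 1) (nat_lit 0) (nat_lit 1) (nat_lit 0) (nat_lit 374) (nat_lit 455) (nat_lit 251)) (XT.lf (nat_lit 0) (nat_lit 1607521174626) (nat_lit 0) (nat_lit 0) (nat_lit 0) (nat_lit 0) (nat_lit 0) (nat_lit 0) (nat_lit 1) (nat_lit 0) (nat_lit 1) (nat_lit 0) (nat_lit 375) (nat_lit 455) (nat_lit 250)))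 (XT.nd (nat_lit 94) (nat_lit 0) (nat_lit 0) (XT.lf (nat_lit 0) (nat_lit 1607521157878) (nat_lit 0) (nat_lit 0) (nat_lit 0) (nat_lit 0) (nat_lit 0) (nat_lit 0) (nat_lit 1) (nat_lit 0) (nat_lit 1) (nat_lit 0) (nat_lit 376) (nat_lit 455) (nat_lit 249)) (XT.nd (nat_lit 94) (nat_lit 0) (nat_lit 0) (XT.lf (nat_lit 0) (nat_lit 1607521142371) (nat_lit 0) (nat_lit 0) (nat_lit 0) (nat_lit 0) (nat_lit 0) (nat_lit 0) (nat_lit 1) (nat_lit 0) (nat_lit 1) (nat_lit 0) (nat_lit 377) (nat_lit 455) (nat_lit 248)) (XT.lf (nat_lit 0) (nat_lit 1607521128013) (nat_lit 0) (nat_lit 0) (nat_lit 0) (nat_lit 0) (nat_lit 0) (nat_lit 0) (nat_lit 1) (nat_lit 0) (nat_lit 1) (nat_lit 0) (nat_lit 378) (nat_lit 455) (nat_lit 247)))))) (XT.nd (nat_lit 470) (nat_lit 0) (nat_lit 0) (XT.nd (nat_lit 188) (nat_lit 0) (nat_lit 0) (XT.nd (nat_lit 94) (nat_lit 0) (nat_lit 0) (XT.lf (nat_lit 0) (nat_lit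 1607521114718) (nat_lit 0) (nat_lit 0) (nat_lit 0) (nat_lit 0) (nat_lit 0) (nat_lit 0) (nat_lit 1) (nat_lit 0) (nat_lit 1) (nat_lit 0) (nat_lit 379) (nat_lit 455) (nat_lit 246)) (XT.lf (nat_lit 0) (nat_lit 1607521102408) (nat_lit 0) (nat_lit 0) (nat_lit 0) (nat_lit 0) (nat_lit 0) (nat_lit 0) (nat_lit 1) (nat_lit 0) (nat_lit 1) (nat_lit 0) (nat_lit 380) (nat_lit 455) (nat_lit 245))) (XT.nd (nat_lit 94) (nat_lit 0) (nat_lit 0) (XT.lf (nat_lit 0) (nat_lit 1607521091010) (nat_lit 0) (nat_lit 0) (nat_lit 0) (nat_lit 0) (nat_lit 0) (nat_lit 0) (nat_lit 1) (nat_lit 0) (nat_lit 1) (nat_lit 0) (nat_lit 381) (nat_lit 455) (nat_lit 244)) (XT.nd (nat_lit 94) (nat_lit 0) (nat_lit 0) (XT.lf (nat_lit 0) (nat_lit 1607521080456) (nat_lit 0) (nat_lit 0) (nat_lit 0) (nat_lit 0) (nat_lit 0) (nat_lit 0) (nat_lit 1) (nat_lit 0) (nat_lit 1) (nat_lit 0) (nat_lit 382) (nat_lit 455)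 (nat_lit 243)) (XT.lf (nat_lit 0) (nat_lit 1607521070684) (nat_lit 0) (nat_lit 0) (nat_lit 0) (nat_lit 0) (nat_lit 0) (nat_lit 0) (nat_lit 1) (nat_lit 0) (nat_lit 1) (nat_lit 0) (nat_lit 383) (nat_lit 455) (nat_lit 242))))) (XT.nd (nat_lit 188) (nat_lit 0) (nat_lit 0) (XT.nd (nat_lit 94) (nat_lit 0) (nat_lit 0) (XT.lf (nat_lit 0) (nat_lit 1607521061636) (nat_lit 0) (nat_lit 0) (nat_lit 0) (nat_lit 0) (nat_lit 0) (nat_lit 0) (nat_lit 1) (nat_lit 0) (nat_lit 1) (nat_lit 0) (nat_lit 384) (nat_lit 455) (nat_lit 241)) (XT.lf (nat_lit 0) (nat_lit 1607521053258) (nat_lit 0) (nat_lit 0) (nat_lit 0) (nat_lit 0) (nat_lit 0) (nat_lit 0) (nat_lit 1) (nat_lit 0) (nat_lit 1) (nat_lit 0) (nat_lit 385) (nat_lit 455) (nat_lit 240))) (XT.nd (nat_lit 94) (nat_lit 0) (nat_lit 0) (XT.lf (nat_lit 0) (nat_lit 1607521045501) (nat_lit 0) (nat_lit 0) (nat_lit 0) (nat_lit 0) (nat_lit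 0) (nat_lit 0) (nat_lit 1) (nat_lit 0) (nat_lit 1) (nat_lit 0) (nat_lit 386) (nat_lit 455) (nat_lit 239)) (XT.nd (nat_lit 94) (nat_lit 0) (nat_lit 0) (XT.lf (nat_lit 0) (nat_lit 1607521038318) (nat_lit 0) (nat_lit 0) (nat_lit 0) (nat_lit 0) (nat_lit 0) (nat_lit 0) (nat_lit 1) (nat_lit 0) (nat_lit 1) (nat_lit 0) (nat_lit 387) (nat_lit 455) (nat_lit 238)) (XT.lf (nat_lit 0) (nat_lit 1607521031667) (nat_lit 0) (nat_lit 0) (nat_lit 0) (nat_lit 0) (nat_lit 0) (nat_lit 0) (nat_lit 1) (nat_lit 0) (nat_lit 1) (nat_lit 0) (nat_lit 388) (nat_lit 455) (nat_lit 237))))))))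
noncomputable def ec469 : XT := (XT.nd (nat_lit 1786) (nat_lit 0) (nat_lit 0) (XT.nd (nat_lit 846) (nat_lit 0) (nat_lit 0) (XT.nd (nat_lit 376) (nat_lit 0) (nat_lit 0) (XT.nd (nat_lit 188) (nat_lit 0) (nat_lit 0) (XT.nd (nat_lit 94) (nat_lit 0) (nat_lit 0) (XT.lf (nat_lit 0) (nat_lit 1607521025509) (nat_lit 0) (nat_lit 0) (nat_lit 0) (nat_lit 0) (nat_lit 0) (nat_lit 0) (nat_lit 1) (nat_lit 0) (nat_lit 1) (nat_lit 0) (nat_lit 389) (nat_lit 455) (nat_lit 236)) (XT.lf (nat_lit 0) (nat_lit 1607521019807) (nat_lit 0) (nat_lit 0) (nat_lit 0) (nat_lit 0) (nat_lit 0) (nat_lit 0) (nat_lit 1) (nat_lit 0) (nat_lit 1) (nat_lit 0) (nat_lit 390) (nat_lit 455) (nat_lit 235))) (XT.nd (nat_lit 94) (nat_lit 0) (nat_lit 0) (XT.lf (nat_lit 0) (nat_lit 1607521014528) (nat_lit 0) (nat_lit 0) (nat_lit 0) (nat_lit 0) (nat_lit 0) (nat_lit 0) (nat_lit 1) (nat_lit 0) (nat_lit 1) (nat_lit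 0) (nat_lit 391) (nat_lit 455) (nat_lit 234)) (XT.lf (nat_lit 0) (nat_lit 1607521009639) (nat_lit 0) (nat_lit 0) (nat_lit 0) (nat_lit 0) (nat_lit 0) (nat_lit 0) (nat_lit 1) (nat_lit 0) (nat_lit 1) (nat_lit 0) (nat_lit 392) (nat_lit 455) (nat_lit 233)))) (XT.nd (nat_lit 188) (nat_lit 0) (nat_lit 0) (XT.nd (nat_lit 94) (nat_lit 0) (nat_lit 0) (XT.lf (nat_lit 0) (nat_lit 1607521005113) (nat_lit 0) (nat_lit 0) (nat_lit 0) (nat_lit 0) (nat_lit 0) (nat_lit 0) (nat_lit 1) (nat_lit 0) (nat_lit 1) (nat_lit 0) (nat_lit 393) (nat_lit 455) (nat_lit 232)) (XT.lf (nat_lit 0) (nat_lit 1607521000922) (nat_lit 0) (nat_lit 0) (nat_lit 0) (nat_lit 0) (nat_lit 0) (nat_lit 0) (nat_lit 1) (nat_lit 0) (nat_lit 1) (nat_lit 0) (nat_lit 394) (nat_lit 455) (nat_lit 231))) (XT.nd (nat_lit 94) (nat_lit 0) (nat_lit 0) (XT.lf (nat_lit 0) (nat_lit 1607520997041) (nat_lit 0) (nat_lit 0) (nat_lit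 0) (nat_lit 0) (nat_lit 0) (nat_lit 0) (nat_lit 1) (nat_lit 0) (nat_lit 1) (nat_lit 0) (nat_lit 395) (nat_lit 455) (nat_lit 230)) (XT.nd (nat_lit 94) (nat_lit 0) (nat_lit 0) (XT.lf (nat_lit 0) (nat_lit 1607520993448) (nat_lit 0) (nat_lit 0) (nat_lit 0) (nat_lit 0) (nat_lit 0) (nat_lit 0) (nat_lit 1) (nat_lit 0) (nat_lit 1) (nat_lit 0) (nat_lit 396) (nat_lit 455) (nat_lit 229)) (XT.lf (nat_lit 0) (nat_lit 1607520990121) (nat_lit 0) (nat_lit 0) (nat_lit 0) (nat_lit 0) (nat_lit 0) (nat_lit 0) (nat_lit 1) (nat_lit 0) (nat_lit 1) (nat_lit 0) (nat_lit 397) (nat_lit 455) (nat_lit 228)))))) (XT.nd (nat_lit 470) (nat_lit 0) (nat_lit 0) (XT.nd (nat_lit 188) (nat_lit 0) (nat_lit 0) (XT.nd (nat_lit 94) (nat_lit 0) (nat_lit 0) (XT.lf (nat_lit 0) (nat_lit 1607520987040) (nat_lit 0) (nat_lit 0) (nat_lit 0) (nat_lit 0) (nat_lit 0) (nat_lit 0) (nat_lit 1) (nat_lit 0) (nat_lit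 1) (nat_lit 0) (nat_lit 398) (nat_lit 455) (nat_lit 227)) (XT.lf (nat_lit 0) (nat_lit 1607520984188) (nat_lit 0) (nat_lit 0) (nat_lit 0) (nat_lit 0) (nat_lit 0) (nat_lit 0) (nat_lit 1) (nat_lit 0) (nat_lit 1) (nat_lit 0) (nat_lit 399) (nat_lit 455) (nat_lit 226))) (XT.nd (nat_lit 94) (nat_lit 0) (nat_lit 0) (XT.lf (nat_lit 0) (nat_lit 1607520981547) (nat_lit 0) (nat_lit 0) (nat_lit 0) (nat_lit 0) (nat_lit 0) (nat_lit 0) (nat_lit 1) (nat_lit 0) (nat_lit 1) (nat_lit 0) (nat_lit 400) (nat_lit 455) (nat_lit 225)) (XT.nd (nat_lit 94) (nat_lit 0) (nat_lit 0) (XT.lf (nat_lit 0) (nat_lit 1607520979101) (nat_lit 0) (nat_lit 0) (nat_lit 0) (nat_lit 0) (nat_lit 0) (nat_lit 0) (nat_lit 1) (nat_lit 0) (nat_lit 1) (nat_lit 0) (nat_lit 401) (nat_lit 455) (nat_lit 224)) (XT.lf (nat_lit 0) (nat_lit 1607520976837) (nat_lit 0) (nat_lit 0) (nat_lit 0) (nat_lit 0) (nat_lit 0)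 (nat_lit 0) (nat_lit 1) (nat_lit 0) (nat_lit 1) (nat_lit 0) (nat_lit 402) (nat_lit 455) (nat_lit 223))))) (XT.nd (nat_lit 188) (nat_lit 0) (nat_lit 0) (XT.nd (nat_lit 94) (nat_lit 0) (nat_lit 0) (XT.lf (nat_lit 0) (nat_lit 1607520974741) (nat_lit 0) (nat_lit 0) (nat_lit 0) (nat_lit 0) (nat_lit 0) (nat_lit 0) (nat_lit 1) (nat_lit 0) (nat_lit 1) (nat_lit 0) (nat_lit 403) (nat_lit 455) (nat_lit 222)) (XT.lf (nat_lit 0) (nat_lit 1607520972799) (nat_lit 0) (nat_lit 0) (nat_lit 0) (nat_lit 0) (nat_lit 0) (nat_lit 0) (nat_lit 1) (nat_lit 0) (nat_lit 1) (nat_lit 0) (nat_lit 404) (nat_lit 455) (nat_lit 221))) (XT.nd (nat_lit 94) (nat_lit 0) (nat_lit 0) (XT.lf (nat_lit 0) (nat_lit 1607520971002) (nat_lit 0) (nat_lit 0) (nat_lit 0) (nat_lit 0) (nat_lit 0) (nat_lit 0) (nat_lit 1) (nat_lit 0) (nat_lit 1) (nat_lit 0) (nat_lit 405) (nat_lit 455) (nat_lit 220)) (XT.nd (nat_lit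 94) (nat_lit 0) (nat_lit 0) (XT.lf (nat_lit 0) (nat_lit 1607520969337) (nat_lit 0) (nat_lit 0) (nat_lit 0) (nat_lit 0) (nat_lit 0) (nat_lit 0) (nat_lit 1) (nat_lit 0) (nat_lit 1) (nat_lit 0) (nat_lit 406) (nat_lit 455) (nat_lit 219)) (XT.lf (nat_lit 0) (nat_lit 1607520967796) (nat_lit 0) (nat_lit 0) (nat_lit 0) (nat_lit 0) (nat_lit 0) (nat_lit 0) (nat_lit 1) (nat_lit 0) (nat_lit 1) (nat_lit 0) (nat_lit 407) (nat_lit 455) (nat_lit 218))))))) (XT.nd (nat_lit 4606) (nat_lit 0) (nat_lit 0) (XT.nd (nat_lit 4136) (nat_lit 0) (nat_lit 0) (XT.nd (nat_lit 188) (nat_lit 0) (nat_lit 0) (XT.nd (nat_lit 94) (nat_lit 0) (nat_lit 0) (XT.lf (nat_lit 0) (nat_lit 1607520966369) (nat_lit 0) (nat_lit 0) (nat_lit 0) (nat_lit 0) (nat_lit 0) (nat_lit 0) (nat_lit 1) (nat_lit 0) (nat_lit 1) (nat_lit 0) (nat_lit 408) (nat_lit 455) (nat_lit 217)) (XT.lf (nat_lit 0) (nat_lit 1607520965048)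 (nat_lit 0) (nat_lit 0) (nat_lit 0) (nat_lit 0) (nat_lit 0) (nat_lit 0) (nat_lit 1) (nat_lit 0) (nat_lit 1) (nat_lit 0) (nat_lit 409) (nat_lit 455) (nat_lit 216))) (XT.nd (nat_lit 94) (nat_lit 0) (nat_lit 0) (XT.lf (nat_lit 0) (nat_lit 1607520963825) (nat_lit 0) (nat_lit 0) (nat_lit 0) (nat_lit 0) (nat_lit 0) (nat_lit 0) (nat_lit 1) (nat_lit 0) (nat_lit 1) (nat_lit 0) (nat_lit 410) (nat_lit 455) (nat_lit 215)) (XT.lf (nat_lit 0) (nat_lit 1607520962692) (nat_lit 0) (nat_lit 0) (nat_lit 0) (nat_lit 0) (nat_lit 0) (nat_lit 0) (nat_lit 1) (nat_lit 0) (nat_lit 1) (nat_lit 0) (nat_lit 411) (nat_lit 455) (nat_lit 214)))) (XT.nd (nat_lit 188) (nat_lit 0) (nat_lit 0) (XT.nd (nat_lit 94) (nat_lit 0) (nat_lit 0) (XT.lf (nat_lit 0) (nat_lit 1607520949137) (nat_lit 0) (nat_lit 0) (nat_lit 0) (nat_lit 0) (nat_lit 0) (nat_lit 0) (nat_lit 1) (nat_lit 0) (nat_lit 1) (nat_lit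 0) (nat_lit 452) (nat_lit 455) (nat_lit 173)) (XT.lf (nat_lit 0) (nat_lit 1607520949092) (nat_lit 0) (nat_lit 0) (nat_lit 0) (nat_lit 0) (nat_lit 0) (nat_lit 0) (nat_lit 1) (nat_lit 0) (nat_lit 1) (nat_lit 0) (nat_lit 453) (nat_lit 455) (nat_lit 172))) (XT.nd (nat_lit 94) (nat_lit 0) (nat_lit 0) (XT.lf (nat_lit 0) (nat_lit 1607520949051) (nat_lit 0) (nat_lit 0) (nat_lit 0) (nat_lit 0) (nat_lit 0) (nat_lit 0) (nat_lit 1) (nat_lit 0) (nat_lit 1) (nat_lit 0) (nat_lit 454) (nat_lit 455) (nat_lit 171)) (XT.nd (nat_lit 94) (nat_lit 0) (nat_lit 0) (XT.lf (nat_lit 0) (nat_lit 1607520949012) (nat_lit 0) (nat_lit 0) (nat_lit 0) (nat_lit 0) (nat_lit 0) (nat_lit 0) (nat_lit 1) (nat_lit 0) (nat_lit 1) (nat_lit 0) (nat_lit 455) (nat_lit 455) (nat_lit 170)) (XT.lf (nat_lit 0) (nat_lit 1607520948977) (nat_lit 0) (nat_lit 0) (nat_lit 0) (nat_lit 0) (nat_lit 0) (nat_lit 0)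 (nat_lit 1) (nat_lit 0) (nat_lit 1) (nat_lit 0) (nat_lit 456) (nat_lit 455) (nat_lit 169)))))) (XT.nd (nat_lit 40890) (nat_lit 0) (nat_lit 840) (XT.nd (nat_lit 40608) (nat_lit 0) (nat_lit 10752) (XT.nd (nat_lit 94) (nat_lit 0) (nat_lit 0) (XT.lf (nat_lit 0) (nat_lit 1607520948944) (nat_lit 0) (nat_lit 0) (nat_lit 0) (nat_lit 0) (nat_lit 0) (nat_lit 0) (nat_lit 1) (nat_lit 0) (nat_lit 1) (nat_lit 0) (nat_lit 457) (nat_lit 455) (nat_lit 168)) (XT.lf (nat_lit 0) (nat_lit 1607520948914) (nat_lit 0) (nat_lit 0) (nat_lit 0) (nat_lit 0) (nat_lit 0) (nat_lit 0) (nat_lit 1) (nat_lit 0) (nat_lit 1) (nat_lit 0) (nat_lit 458) (nat_lit 455) (nat_lit 167))) (XT.nd (nat_lit 94) (nat_lit 0) (nat_lit 84) (XT.lf (nat_lit 924) (nat_lit 868820792246) (nat_lit 0) (nat_lit 1542589319568) (nat_lit 924) (nat_lit 868820792246) (nat_lit 139) (nat_lit 1) (nat_lit 128) (nat_lit 0) (nat_lit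 139) (nat_lit 0) (nat_lit 168) (nat_lit 456) (nat_lit 456)) (XT.nd (nat_lit 94) (nat_lit 0) (nat_lit 0) (XT.lf (nat_lit 924) (nat_lit 324096814523) (nat_lit 0) (nat_lit 3028570356529) (nat_lit 840) (nat_lit 2961931690454) (nat_lit 140) (nat_lit 1) (nat_lit 129) (nat_lit 1) (nat_lit 139) (nat_lit 1) (nat_lit 169) (nat_lit 456) (nat_lit 455)) (XT.lf (nat_lit 924) (nat_lit 2976642170013) (nat_lit 84) (nat_lit 2028234588631) (nat_lit 0) (nat_lit 1075683105656) (nat_lit 140) (nat_lit 1) (nat_lit 130) (nat_lit 1) (nat_lit 129) (nat_lit 1) (nat_lit 170) (nat_lit 456) (nat_lit 454))))) (XT.nd (nat_lit 4324) (nat_lit 420) (nat_lit 0) (XT.nd (nat_lit 4230) (nat_lit 9660) (nat_lit 0) (XT.lf (nat_lit 924) (nat_lit 2572062684929) (nat_lit 84) (nat_lit 850019057702) (nat_lit 0) (nat_lit 2436151029506) (nat_lit 141) (nat_lit 1) (nat_lit 131) (nat_lit 1) (nat_lit 130) (nat_lit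 1) (nat_lit 171) (nat_lit 456) (nat_lit 453)) (XT.lf (nat_lit 0) (nat_lit 112060956928) (nat_lit 0) (nat_lit 877056503521) (nat_lit 168) (nat_lit 543324960695) (nat_lit 15) (nat_lit 3) (nat_lit 15) (nat_lit 1) (nat_lit 17) (nat_lit 1) (nat_lit 216) (nat_lit 456) (nat_lit 408))) (XT.nd (nat_lit 94) (nat_lit 252) (nat_lit 0) (XT.lf (nat_lit 84) (nat_lit 906044815412) (nat_lit 0) (nat_lit 115838854284) (nat_lit 168) (nat_lit 470859558524) (nat_lit 14) (nat_lit 1) (nat_lit 13) (nat_lit 1) (nat_lit 15) (nat_lit 1) (nat_lit 217) (nat_lit 456) (nat_lit 407)) (XT.nd (nat_lit 94) (nat_lit 168) (nat_lit 0) (XT.lf (nat_lit 0) (nat_lit 214077885152) (nat_lit 0) (nat_lit 838706817963) (nat_lit 168) (nat_lit 401316611190) (nat_lit 12) (nat_lit 3) (nat_lit 12) (nat_lit 1) (nat_lit 14) (nat_lit 1) (nat_lit 218) (nat_lit 456) (nat_lit 406)) (XT.lf (nat_lit 84) (nat_lit 964190703121)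 (nat_lit 0) (nat_lit 119957288273) (nat_lit 168) (nat_lit 332447682012) (nat_lit 11) (nat_lit 1) (nat_lit 10) (nat_lit 1) (nat_lit 12) (nat_lit 1) (nat_lit 219) (nat_lit 456) (nat_lit 405))))))))
noncomputable def ec470 : XT := (XT.nd (nat_lit 1692) (nat_lit 0) (nat_lit 0) (XT.nd (nat_lit 846) (nat_lit 0) (nat_lit 0) (XT.nd (nat_lit 376) (nat_lit 336) (nat_lit 0) (XT.nd (nat_lit 188) (nat_lit 252) (nat_lit 0) (XT.nd (nat_lit 94) (nat_lit 168) (nat_lit 0) (XT.lf (nat_lit 0) (nat_lit 300969682017) (nat_lit 0) (nat_lit 810987427144) (nat_lit 168) (nat_lit 268046986321) (nat_lit 9) (nat_lit 3) (nat_lit 9) (nat_lit 1) (nat_lit 11) (nat_lit 1) (nat_lit 220) (nat_lit 456) (nat_lit 404)) (XT.lf (nat_lit 84) (nat_lit 1010150942035) (nat_lit 0) (nat_lit 131280535664) (nat_lit 168) (nat_lit 203113554783) (nat_lit 8) (nat_lit 1) (nat_lit 7) (nat_lit 1) (nat_lit 9) (nat_lit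 1) (nat_lit 221) (nat_lit 456) (nat_lit 403))) (XT.nd (nat_lit 94) (nat_lit 168) (nat_lit 0) (XT.lf (nat_lit 0) (nat_lit 374823833141) (nat_lit 0) (nat_lit 791260034989) (nat_lit 168) (nat_lit 143796444577) (nat_lit 6) (nat_lit 3) (nat_lit 6) (nat_lit 1) (nat_lit 8) (nat_lit 1) (nat_lit 222) (nat_lit 456) (nat_lit 402)) (XT.lf (nat_lit 84) (nat_lit 1045731359314) (nat_lit 0) (nat_lit 147605236856) (nat_lit 168) (nat_lit 82998340229) (nat_lit 5) (nat_lit 1) (nat_lit 4) (nat_lit 1) (nat_lit 6) (nat_lit 1) (nat_lit 223) (nat_lit 456) (nat_lit 401)))) (XT.nd (nat_lit 188) (nat_lit 0) (nat_lit 0) (XT.nd (nat_lit 94) (nat_lit 252) (nat_lit 0) (XT.lf (nat_lit 0) (nat_lit 437405853502) (nat_lit 0) (nat_lit 777431493523) (nat_lit 168) (nat_lit 28646173981) (nat_lit 3) (nat_lit 3) (nat_lit 3) (nat_lit 1) (nat_lit 5) (nat_lit 1) (nat_lit 224) (nat_lit 456) (nat_lit 400))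 (XT.lf (nat_lit 0) (nat_lit 1757721260839) (nat_lit 0) (nat_lit 0) (nat_lit 0) (nat_lit 0) (nat_lit 0) (nat_lit 0) (nat_lit 1) (nat_lit 0) (nat_lit 1) (nat_lit 0) (nat_lit 225) (nat_lit 456) (nat_lit 399))) (XT.nd (nat_lit 94) (nat_lit 0) (nat_lit 0) (XT.lf (nat_lit 0) (nat_lit 1756121361845) (nat_lit 0) (nat_lit 0) (nat_lit 0) (nat_lit 0) (nat_lit 0) (nat_lit 0) (nat_lit 1) (nat_lit 0) (nat_lit 1) (nat_lit 0) (nat_lit 226) (nat_lit 456) (nat_lit 398)) (XT.nd (nat_lit 94) (nat_lit 0) (nat_lit 0) (XT.lf (nat_lit 0) (nat_lit 1754639973887) (nat_lit 0) (nat_lit 0) (nat_lit 0) (nat_lit 0) (nat_lit 0) (nat_lit 0) (nat_lit 1) (nat_lit 0) (nat_lit 1) (nat_lit 0) (nat_lit 227) (nat_lit 456) (nat_lit 397)) (XT.lf (nat_lit 0) (nat_lit 1753268318371) (nat_lit 0) (nat_lit 0) (nat_lit 0) (nat_lit 0) (nat_lit 0) (nat_lit 0) (nat_lit 1) (nat_lit 0) (nat_lit 1) (nat_lit 0)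 (nat_lit 228) (nat_lit 456) (nat_lit 396)))))) (XT.nd (nat_lit 376) (nat_lit 0) (nat_lit 0) (XT.nd (nat_lit 188) (nat_lit 0) (nat_lit 0) (XT.nd (nat_lit 94) (nat_lit 0) (nat_lit 0) (XT.lf (nat_lit 0) (nat_lit 1751998266967) (nat_lit 0) (nat_lit 0) (nat_lit 0) (nat_lit 0) (nat_lit 0) (nat_lit 0) (nat_lit 1) (nat_lit 0) (nat_lit 1) (nat_lit 0) (nat_lit 229) (nat_lit 456) (nat_lit 395)) (XT.lf (nat_lit 0) (nat_lit 1750822293445) (nat_lit 0) (nat_lit 0) (nat_lit 0) (nat_lit 0) (nat_lit 0) (nat_lit 0) (nat_lit 1) (nat_lit 0) (nat_lit 1) (nat_lit 0) (nat_lit 230) (nat_lit 456) (nat_lit 394))) (XT.nd (nat_lit 94) (nat_lit 0) (nat_lit 0) (XT.lf (nat_lit 0) (nat_lit 1749733429072) (nat_lit 0) (nat_lit 0) (nat_lit 0) (nat_lit 0) (nat_lit 0) (nat_lit 0) (nat_lit 1) (nat_lit 0) (nat_lit 1) (nat_lit 0) (nat_lit 231) (nat_lit 456) (nat_lit 393)) (XT.lf (nat_lit 0) (nat_lit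 1748725221320) (nat_lit 0) (nat_lit 0) (nat_lit 0) (nat_lit 0) (nat_lit 0) (nat_lit 0) (nat_lit 1) (nat_lit 0) (nat_lit 1) (nat_lit 0) (nat_lit 232) (nat_lit 456) (nat_lit 392)))) (XT.nd (nat_lit 188) (nat_lit 0) (nat_lit 0) (XT.nd (nat_lit 94) (nat_lit 0) (nat_lit 0) (XT.lf (nat_lit 0) (nat_lit 1747791695623) (nat_lit 0) (nat_lit 0) (nat_lit 0) (nat_lit 0) (nat_lit 0) (nat_lit 0) (nat_lit 1) (nat_lit 0) (nat_lit 1) (nat_lit 0) (nat_lit 233) (nat_lit 456) (nat_lit 391)) (XT.lf (nat_lit 0) (nat_lit 1746927319978) (nat_lit 0) (nat_lit 0) (nat_lit 0) (nat_lit 0) (nat_lit 0) (nat_lit 0) (nat_lit 1) (nat_lit 0) (nat_lit 1) (nat_lit 0) (nat_lit 234) (nat_lit 456) (nat_lit 390))) (XT.nd (nat_lit 94) (nat_lit 0) (nat_lit 0) (XT.lf (nat_lit 0) (nat_lit 1746126972159) (nat_lit 0) (nat_lit 0) (nat_lit 0) (nat_lit 0) (nat_lit 0) (nat_lit 0) (nat_lit 1) (nat_lit 0) (nat_lit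 1) (nat_lit 0) (nat_lit 235) (nat_lit 456) (nat_lit 389)) (XT.nd (nat_lit 94) (nat_lit 0) (nat_lit 0) (XT.lf (nat_lit 0) (nat_lit 1745385909363) (nat_lit 0) (nat_lit 0) (nat_lit 0) (nat_lit 0) (nat_lit 0) (nat_lit 0) (nat_lit 1) (nat_lit 0) (nat_lit 1) (nat_lit 0) (nat_lit 236) (nat_lit 456) (nat_lit 388)) (XT.lf (nat_lit 0) (nat_lit 1744699740108) (nat_lit 0) (nat_lit 0) (nat_lit 0) (nat_lit 0) (nat_lit 0) (nat_lit 0) (nat_lit 1) (nat_lit 0) (nat_lit 1) (nat_lit 0) (nat_lit 237) (nat_lit 456) (nat_lit 387))))))) (XT.nd (nat_lit 846) (nat_lit 0) (nat_lit 0) (XT.nd (nat_lit 376) (nat_lit 0) (nat_lit 0) (XT.nd (nat_lit 188) (nat_lit 0) (nat_lit 0) (XT.nd (nat_lit 94) (nat_lit 0) (nat_lit 0) (XT.lf (nat_lit 0) (nat_lit 1744064398205) (nat_lit 0) (nat_lit 0) (nat_lit 0) (nat_lit 0) (nat_lit 0) (nat_lit 0) (nat_lit 1) (nat_lit 0) (nat_lit 1) (nat_lit 0) (nat_lit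 238) (nat_lit 456) (nat_lit 386)) (XT.lf (nat_lit 0) (nat_lit 1743476118665) (nat_lit 0) (nat_lit 0) (nat_lit 0) (nat_lit 0) (nat_lit 0) (nat_lit 0) (nat_lit 1) (nat_lit 0) (nat_lit 1) (nat_lit 0) (nat_lit 239) (nat_lit 456) (nat_lit 385))) (XT.nd (nat_lit 94) (nat_lit 0) (nat_lit 0) (XT.lf (nat_lit 0) (nat_lit 1742931415387) (nat_lit 0) (nat_lit 0) (nat_lit 0) (nat_lit 0) (nat_lit 0) (nat_lit 0) (nat_lit 1) (nat_lit 0) (nat_lit 1) (nat_lit 0) (nat_lit 240) (nat_lit 456) (nat_lit 384)) (XT.lf (nat_lit 0) (nat_lit 1742427060500) (nat_lit 0) (nat_lit 0) (nat_lit 0) (nat_lit 0) (nat_lit 0) (nat_lit 0) (nat_lit 1) (nat_lit 0) (nat_lit 1) (nat_lit 0) (nat_lit 241) (nat_lit 456) (nat_lit 383)))) (XT.nd (nat_lit 188) (nat_lit 0) (nat_lit 0) (XT.nd (nat_lit 94) (nat_lit 0) (nat_lit 0) (XT.lf (nat_lit 0) (nat_lit 1741960065235) (nat_lit 0) (nat_lit 0) (nat_lit 0) (nat_lit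 0) (nat_lit 0) (nat_lit 0) (nat_lit 1) (nat_lit 0) (nat_lit 1) (nat_lit 0) (nat_lit 242) (nat_lit 456) (nat_lit 382)) (XT.lf (nat_lit 0) (nat_lit 1741527662211) (nat_lit 0) (nat_lit 0) (nat_lit 0) (nat_lit 0) (nat_lit 0) (nat_lit 0) (nat_lit 1) (nat_lit 0) (nat_lit 1) (nat_lit 0) (nat_lit 243) (nat_lit 456) (nat_lit 381))) (XT.nd (nat_lit 94) (nat_lit 0) (nat_lit 0) (XT.lf (nat_lit 0) (nat_lit 1741127289041) (nat_lit 0) (nat_lit 0) (nat_lit 0) (nat_lit 0) (nat_lit 0) (nat_lit 0) (nat_lit 1) (nat_lit 0) (nat_lit 1) (nat_lit 0) (nat_lit 244) (nat_lit 456) (nat_lit 380)) (XT.nd (nat_lit 94) (nat_lit 0) (nat_lit 0) (XT.lf (nat_lit 0) (nat_lit 1740756573143) (nat_lit 0) (nat_lit 0) (nat_lit 0) (nat_lit 0) (nat_lit 0) (nat_lit 0) (nat_lit 1) (nat_lit 0) (nat_lit 1) (nat_lit 0) (nat_lit 245) (nat_lit 456) (nat_lit 379)) (XT.lf (nat_lit 0) (nat_lit 1740413317682)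 (nat_lit 0) (nat_lit 0) (nat_lit 0) (nat_lit 0) (nat_lit 0) (nat_lit 0) (nat_lit 1) (nat_lit 0) (nat_lit 1) (nat_lit 0) (nat_lit 246) (nat_lit 456) (nat_lit 378)))))) (XT.nd (nat_lit 470) (nat_lit 0) (nat_lit 0) (XT.nd (nat_lit 188) (nat_lit 0) (nat_lit 0) (XT.nd (nat_lit 94) (nat_lit 0) (nat_lit 0) (XT.lf (nat_lit 0) (nat_lit 1740095488551) (nat_lit 0) (nat_lit 0) (nat_lit 0) (nat_lit 0) (nat_lit 0) (nat_lit 0) (nat_lit 1) (nat_lit 0) (nat_lit 1) (nat_lit 0) (nat_lit 247) (nat_lit 456) (nat_lit 377)) (XT.lf (nat_lit 0) (nat_lit 1739801202319) (nat_lit 0) (nat_lit 0) (nat_lit 0) (nat_lit 0) (nat_lit 0) (nat_lit 0) (nat_lit 1) (nat_lit 0) (nat_lit 1) (nat_lit 0) (nat_lit 248) (nat_lit 456) (nat_lit 376))) (XT.nd (nat_lit 94) (nat_lit 0) (nat_lit 0) (XT.lf (nat_lit 0) (nat_lit 1739528715067) (nat_lit 0) (nat_lit 0) (nat_lit 0) (nat_lit 0) (nat_lit 0) (nat_lit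 0) (nat_lit 1) (nat_lit 0) (nat_lit 1) (nat_lit 0) (nat_lit 249) (nat_lit 456) (nat_lit 375)) (XT.nd (nat_lit 94) (nat_lit 0) (nat_lit 0) (XT.lf (nat_lit 0) (nat_lit 1739276412055) (nat_lit 0) (nat_lit 0) (nat_lit 0) (nat_lit 0) (nat_lit 0) (nat_lit 0) (nat_lit 1) (nat_lit 0) (nat_lit 1) (nat_lit 0) (nat_lit 250) (nat_lit 456) (nat_lit 374)) (XT.lf (nat_lit 0) (nat_lit 1739042798156) (nat_lit 0) (nat_lit 0) (nat_lit 0) (nat_lit 0) (nat_lit 0) (nat_lit 0) (nat_lit 1) (nat_lit 0) (nat_lit 1) (nat_lit 0) (nat_lit 251) (nat_lit 456) (nat_lit 373))))) (XT.nd (nat_lit 188) (nat_lit 0) (nat_lit 0) (XT.nd (nat_lit 94) (nat_lit 0) (nat_lit 0) (XT.lf (nat_lit 0) (nat_lit 1738826488990) (nat_lit 0) (nat_lit 0) (nat_lit 0) (nat_lit 0) (nat_lit 0) (nat_lit 0) (nat_lit 1) (nat_lit 0) (nat_lit 1) (nat_lit 0) (nat_lit 252) (nat_lit 456) (nat_lit 372)) (XT.lf (nat_lit 0) (nat_lit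 1738626202726) (nat_lit 0) (nat_lit 0) (nat_lit 0) (nat_lit 0) (nat_lit 0) (nat_lit 0) (nat_lit 1) (nat_lit 0) (nat_lit 1) (nat_lit 0) (nat_lit 253) (nat_lit 456) (nat_lit 371))) (XT.nd (nat_lit 94) (nat_lit 0) (nat_lit 0) (XT.lf (nat_lit 0) (nat_lit 1738440752480) (nat_lit 0) (nat_lit 0) (nat_lit 0) (nat_lit 0) (nat_lit 0) (nat_lit 0) (nat_lit 1) (nat_lit 0) (nat_lit 1) (nat_lit 0) (nat_lit 254) (nat_lit 456) (nat_lit 370)) (XT.nd (nat_lit 94) (nat_lit 0) (nat_lit 0) (XT.lf (nat_lit 0) (nat_lit 1738269039290) (nat_lit 0) (nat_lit 0) (nat_lit 0) (nat_lit 0) (nat_lit 0) (nat_lit 0) (nat_lit 1) (nat_lit 0) (nat_lit 1) (nat_lit 0) (nat_lit 255) (nat_lit 456) (nat_lit 369)) (XT.lf (nat_lit 0) (nat_lit 1738110045596) (nat_lit 0) (nat_lit 0) (nat_lit 0) (nat_lit 0) (nat_lit 0) (nat_lit 0) (nat_lit 1) (nat_lit 0) (nat_lit 1) (nat_lit 0) (nat_lit 256) (nat_lit 456)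 (nat_lit 368))))))))
noncomputable def ec471 : XT := (XT.nd (nat_lit 1786) (nat_lit 0) (nat_lit 0) (XT.nd (nat_lit 846) (nat_lit 0) (nat_lit 0) (XT.nd (nat_lit 376) (nat_lit 0) (nat_lit 0) (XT.nd (nat_lit 188) (nat_lit 0) (nat_lit 0) (XT.nd (nat_lit 94) (nat_lit 0) (nat_lit 0) (XT.lf (nat_lit 0) (nat_lit 1737962829212) (nat_lit 0) (nat_lit 0) (nat_lit 0) (nat_lit 0) (nat_lit 0) (nat_lit 0) (nat_lit 1) (nat_lit 0) (nat_lit 1) (nat_lit 0) (nat_lit 257) (nat_lit 456) (nat_lit 367)) (XT.lf (nat_lit 0) (nat_lit 1737826517746) (nat_lit 0) (nat_lit 0) (nat_lit 0) (nat_lit 0) (nat_lit 0) (nat_lit 0) (nat_lit 1) (nat_lit 0) (nat_lit 1) (nat_lit 0) (nat_lit 258) (nat_lit 456) (nat_lit 366))) (XT.nd (nat_lit 94) (nat_lit 0) (nat_lit 0) (XT.lf (nat_lit 0) (nat_lit 1737700303425) (nat_lit 0) (nat_lit 0) (nat_lit 0) (nat_lit 0) (nat_lit 0) (nat_lit 0) (nat_lit 1) (nat_lit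 0) (nat_lit 1) (nat_lit 0) (nat_lit 259) (nat_lit 456) (nat_lit 365)) (XT.lf (nat_lit 0) (nat_lit 1737583438313) (nat_lit 0) (nat_lit 0) (nat_lit 0) (nat_lit 0) (nat_lit 0) (nat_lit 0) (nat_lit 1) (nat_lit 0) (nat_lit 1) (nat_lit 0) (nat_lit 260) (nat_lit 456) (nat_lit 364)))) (XT.nd (nat_lit 188) (nat_lit 0) (nat_lit 0) (XT.nd (nat_lit 94) (nat_lit 0) (nat_lit 0) (XT.lf (nat_lit 0) (nat_lit 1737475229877) (nat_lit 0) (nat_lit 0) (nat_lit 0) (nat_lit 0) (nat_lit 0) (nat_lit 0) (nat_lit 1) (nat_lit 0) (nat_lit 1) (nat_lit 0) (nat_lit 261) (nat_lit 456) (nat_lit 363)) (XT.lf (nat_lit 0) (nat_lit 1737375036879) (nat_lit 0) (nat_lit 0) (nat_lit 0) (nat_lit 0) (nat_lit 0) (nat_lit 0) (nat_lit 1) (nat_lit 0) (nat_lit 1) (nat_lit 0) (nat_lit 262) (nat_lit 456) (nat_lit 362))) (XT.nd (nat_lit 94) (nat_lit 0) (nat_lit 0) (XT.lf (nat_lit 0) (nat_lit 1737282265586) (nat_lit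 0) (nat_lit 0) (nat_lit 0) (nat_lit 0) (nat_lit 0) (nat_lit 0) (nat_lit 1) (nat_lit 0) (nat_lit 1) (nat_lit 0) (nat_lit 263) (nat_lit 456) (nat_lit 361)) (XT.nd (nat_lit 94) (nat_lit 0) (nat_lit 0) (XT.lf (nat_lit 0) (nat_lit 1737196366240) (nat_lit 0) (nat_lit 0) (nat_lit 0) (nat_lit 0) (nat_lit 0) (nat_lit 0) (nat_lit 1) (nat_lit 0) (nat_lit 1) (nat_lit 0) (nat_lit 264) (nat_lit 456) (nat_lit 360)) (XT.lf (nat_lit 0) (nat_lit 1737116829809) (nat_lit 0) (nat_lit 0) (nat_lit 0) (nat_lit 0) (nat_lit 0) (nat_lit 0) (nat_lit 1) (nat_lit 0) (nat_lit 1) (nat_lit 0) (nat_lit 265) (nat_lit 456) (nat_lit 359)))))) (XT.nd (nat_lit 470) (nat_lit 0) (nat_lit 0) (XT.nd (nat_lit 188) (nat_lit 0) (nat_lit 0) (XT.nd (nat_lit 94) (nat_lit 0) (nat_lit 0) (XT.lf (nat_lit 0) (nat_lit 1737043184965) (nat_lit 0) (nat_lit 0) (nat_lit 0) (nat_lit 0) (nat_lit 0) (nat_lit 0) (nat_lit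 1) (nat_lit 0) (nat_lit 1) (nat_lit 0) (nat_lit 266) (nat_lit 456) (nat_lit 358)) (XT.lf (nat_lit 0) (nat_lit 1736974995294) (nat_lit 0) (nat_lit 0) (nat_lit 0) (nat_lit 0) (nat_lit 0) (nat_lit 0) (nat_lit 1) (nat_lit 0) (nat_lit 1) (nat_lit 0) (nat_lit 267) (nat_lit 456) (nat_lit 357))) (XT.nd (nat_lit 94) (nat_lit 0) (nat_lit 0) (XT.lf (nat_lit 0) (nat_lit 1736911856711) (nat_lit 0) (nat_lit 0) (nat_lit 0) (nat_lit 0) (nat_lit 0) (nat_lit 0) (nat_lit 1) (nat_lit 0) (nat_lit 1) (nat_lit 0) (nat_lit 268) (nat_lit 456) (nat_lit 356)) (XT.nd (nat_lit 94) (nat_lit 0) (nat_lit 0) (XT.lf (nat_lit 0) (nat_lit 1736853395059) (nat_lit 0) (nat_lit 0) (nat_lit 0) (nat_lit 0) (nat_lit 0) (nat_lit 0) (nat_lit 1) (nat_lit 0) (nat_lit 1) (nat_lit 0) (nat_lit 269) (nat_lit 456) (nat_lit 355)) (XT.lf (nat_lit 0) (nat_lit 1736799263901) (nat_lit 0) (nat_lit 0) (nat_lit 0)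 (nat_lit 0) (nat_lit 0) (nat_lit 0) (nat_lit 1) (nat_lit 0) (nat_lit 1) (nat_lit 0) (nat_lit 270) (nat_lit 456) (nat_lit 354))))) (XT.nd (nat_lit 188) (nat_lit 0) (nat_lit 0) (XT.nd (nat_lit 94) (nat_lit 0) (nat_lit 0) (XT.lf (nat_lit 0) (nat_lit 1736749142457) (nat_lit 0) (nat_lit 0) (nat_lit 0) (nat_lit 0) (nat_lit 0) (nat_lit 0) (nat_lit 1) (nat_lit 0) (nat_lit 1) (nat_lit 0) (nat_lit 271) (nat_lit 456) (nat_lit 353)) (XT.lf (nat_lit 0) (nat_lit 1736702733713) (nat_lit 0) (nat_lit 0) (nat_lit 0) (nat_lit 0) (nat_lit 0) (nat_lit 0) (nat_lit 1) (nat_lit 0) (nat_lit 1) (nat_lit 0) (nat_lit 272) (nat_lit 456) (nat_lit 352))) (XT.nd (nat_lit 94) (nat_lit 0) (nat_lit 0) (XT.lf (nat_lit 0) (nat_lit 1736659762654) (nat_lit 0) (nat_lit 0) (nat_lit 0) (nat_lit 0) (nat_lit 0) (nat_lit 0) (nat_lit 1) (nat_lit 0) (nat_lit 1) (nat_lit 0) (nat_lit 273) (nat_lit 456) (nat_lit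 351)) (XT.nd (nat_lit 94) (nat_lit 0) (nat_lit 0) (XT.lf (nat_lit 0) (nat_lit 1736619974637) (nat_lit 0) (nat_lit 0) (nat_lit 0) (nat_lit 0) (nat_lit 0) (nat_lit 0) (nat_lit 1) (nat_lit 0) (nat_lit 1) (nat_lit 0) (nat_lit 274) (nat_lit 456) (nat_lit 350)) (XT.lf (nat_lit 0) (nat_lit 1736583133880) (nat_lit 0) (nat_lit 0) (nat_lit 0) (nat_lit 0) (nat_lit 0) (nat_lit 0) (nat_lit 1) (nat_lit 0) (nat_lit 1) (nat_lit 0) (nat_lit 275) (nat_lit 456) (nat_lit 349))))))) (XT.nd (nat_lit 846) (nat_lit 0) (nat_lit 0) (XT.nd (nat_lit 376) (nat_lit 0) (nat_lit 0) (XT.nd (nat_lit 188) (nat_lit 0) (nat_lit 0) (XT.nd (nat_lit 94) (nat_lit 0) (nat_lit 0) (XT.lf (nat_lit 0) (nat_lit 1736549022067) (nat_lit 0) (nat_lit 0) (nat_lit 0) (nat_lit 0) (nat_lit 0) (nat_lit 0) (nat_lit 1) (nat_lit 0) (nat_lit 1) (nat_lit 0) (nat_lit 276) (nat_lit 456) (nat_lit 348)) (XT.lf (nat_lit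 0) (nat_lit 1736517437056) (nat_lit 0) (nat_lit 0) (nat_lit 0) (nat_lit 0) (nat_lit 0) (nat_lit 0) (nat_lit 1) (nat_lit 0) (nat_lit 1) (nat_lit 0) (nat_lit 277) (nat_lit 456) (nat_lit 347))) (XT.nd (nat_lit 94) (nat_lit 0) (nat_lit 0) (XT.lf (nat_lit 0) (nat_lit 1736488191676) (nat_lit 0) (nat_lit 0) (nat_lit 0) (nat_lit 0) (nat_lit 0) (nat_lit 0) (nat_lit 1) (nat_lit 0) (nat_lit 1) (nat_lit 0) (nat_lit 278) (nat_lit 456) (nat_lit 346)) (XT.lf (nat_lit 0) (nat_lit 1736461112619) (nat_lit 0) (nat_lit 0) (nat_lit 0) (nat_lit 0) (nat_lit 0) (nat_lit 0) (nat_lit 1) (nat_lit 0) (nat_lit 1) (nat_lit 0) (nat_lit 279) (nat_lit 456) (nat_lit 345)))) (XT.nd (nat_lit 188) (nat_lit 0) (nat_lit 0) (XT.nd (nat_lit 94) (nat_lit 0) (nat_lit 0) (XT.lf (nat_lit 0) (nat_lit 1736436039419) (nat_lit 0) (nat_lit 0) (nat_lit 0) (nat_lit 0) (nat_lit 0) (nat_lit 0) (nat_lit 1) (nat_lit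 0) (nat_lit 1) (nat_lit 0) (nat_lit 280) (nat_lit 456) (nat_lit 344)) (XT.lf (nat_lit 0) (nat_lit 1736412823493) (nat_lit 0) (nat_lit 0) (nat_lit 0) (nat_lit 0) (nat_lit 0) (nat_lit 0) (nat_lit 1) (nat_lit 0) (nat_lit 1) (nat_lit 0) (nat_lit 281) (nat_lit 456) (nat_lit 343))) (XT.nd (nat_lit 94) (nat_lit 0) (nat_lit 0) (XT.lf (nat_lit 0) (nat_lit 1736391327265) (nat_lit 0) (nat_lit 0) (nat_lit 0) (nat_lit 0) (nat_lit 0) (nat_lit 0) (nat_lit 1) (nat_lit 0) (nat_lit 1) (nat_lit 0) (nat_lit 282) (nat_lit 456) (nat_lit 342)) (XT.nd (nat_lit 94) (nat_lit 0) (nat_lit 0) (XT.lf (nat_lit 0) (nat_lit 1736371423350) (nat_lit 0) (nat_lit 0) (nat_lit 0) (nat_lit 0) (nat_lit 0) (nat_lit 0) (nat_lit 1) (nat_lit 0) (nat_lit 1) (nat_lit 0) (nat_lit 283) (nat_lit 456) (nat_lit 341)) (XT.lf (nat_lit 0) (nat_lit 1736352993800) (nat_lit 0) (nat_lit 0) (nat_lit 0) (nat_lit 0)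 (nat_lit 0) (nat_lit 0) (nat_lit 1) (nat_lit 0) (nat_lit 1) (nat_lit 0) (nat_lit 284) (nat_lit 456) (nat_lit 340)))))) (XT.nd (nat_lit 470) (nat_lit 0) (nat_lit 0) (XT.nd (nat_lit 188) (nat_lit 0) (nat_lit 0) (XT.nd (nat_lit 94) (nat_lit 0) (nat_lit 0) (XT.lf (nat_lit 0) (nat_lit 1736335929401) (nat_lit 0) (nat_lit 0) (nat_lit 0) (nat_lit 0) (nat_lit 0) (nat_lit 0) (nat_lit 1) (nat_lit 0) (nat_lit 1) (nat_lit 0) (nat_lit 285) (nat_lit 456) (nat_lit 339)) (XT.lf (nat_lit 0) (nat_lit 1736320129031) (nat_lit 0) (nat_lit 0) (nat_lit 0) (nat_lit 0) (nat_lit 0) (nat_lit 0) (nat_lit 1) (nat_lit 0) (nat_lit 1) (nat_lit 0) (nat_lit 286) (nat_lit 456) (nat_lit 338))) (XT.nd (nat_lit 94) (nat_lit 0) (nat_lit 0) (XT.lf (nat_lit 0) (nat_lit 1736305499060) (nat_lit 0) (nat_lit 0) (nat_lit 0) (nat_lit 0) (nat_lit 0) (nat_lit 0) (nat_lit 1) (nat_lit 0) (nat_lit 1) (nat_lit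 0) (nat_lit 287) (nat_lit 456) (nat_lit 337)) (XT.nd (nat_lit 94) (nat_lit 0) (nat_lit 0) (XT.lf (nat_lit 0) (nat_lit 1736291952790) (nat_lit 0) (nat_lit 0) (nat_lit 0) (nat_lit 0) (nat_lit 0) (nat_lit 0) (nat_lit 1) (nat_lit 0) (nat_lit 1) (nat_lit 0) (nat_lit 288) (nat_lit 456) (nat_lit 336)) (XT.lf (nat_lit 0) (nat_lit 1736279409948) (nat_lit 0) (nat_lit 0) (nat_lit 0) (nat_lit 0) (nat_lit 0) (nat_lit 0) (nat_lit 1) (nat_lit 0) (nat_lit 1) (nat_lit 0) (nat_lit 289) (nat_lit 456) (nat_lit 335))))) (XT.nd (nat_lit 188) (nat_lit 0) (nat_lit 0) (XT.nd (nat_lit 94) (nat_lit 0) (nat_lit 0) (XT.lf (nat_lit 0) (nat_lit 1736267796204) (nat_lit 0) (nat_lit 0) (nat_lit 0) (nat_lit 0) (nat_lit 0) (nat_lit 0) (nat_lit 1) (nat_lit 0) (nat_lit 1) (nat_lit 0) (nat_lit 290) (nat_lit 456) (nat_lit 334)) (XT.lf (nat_lit 0) (nat_lit 1736257042739) (nat_lit 0) (nat_lit 0) (nat_lit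 0) (nat_lit 0) (nat_lit 0) (nat_lit 0) (nat_lit 1) (nat_lit 0) (nat_lit 1) (nat_lit 0) (nat_lit 291) (nat_lit 456) (nat_lit 333))) (XT.nd (nat_lit 94) (nat_lit 0) (nat_lit 0) (XT.lf (nat_lit 0) (nat_lit 1736247085826) (nat_lit 0) (nat_lit 0) (nat_lit 0) (nat_lit 0) (nat_lit 0) (nat_lit 0) (nat_lit 1) (nat_lit 0) (nat_lit 1) (nat_lit 0) (nat_lit 292) (nat_lit 456) (nat_lit 332)) (XT.nd (nat_lit 94) (nat_lit 0) (nat_lit 0) (XT.lf (nat_lit 0) (nat_lit 1736237866462) (nat_lit 0) (nat_lit 0) (nat_lit 0) (nat_lit 0) (nat_lit 0) (nat_lit 0) (nat_lit 1) (nat_lit 0) (nat_lit 1) (nat_lit 0) (nat_lit 293) (nat_lit 456) (nat_lit 331)) (XT.lf (nat_lit 0) (nat_lit 1736229330014) (nat_lit 0) (nat_lit 0) (nat_lit 0) (nat_lit 0) (nat_lit 0) (nat_lit 0) (nat_lit 1) (nat_lit 0) (nat_lit 1) (nat_lit 0) (nat_lit 294) (nat_lit 456) (nat_lit 330))))))))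
noncomputable def ec472 : XT := (XT.nd (nat_lit 3102) (nat_lit 0) (nat_lit 0) (XT.nd (nat_lit 846) (nat_lit 0) (nat_lit 0) (XT.nd (nat_lit 376) (nat_lit 0) (nat_lit 0) (XT.nd (nat_lit 188) (nat_lit 0) (nat_lit 0) (XT.nd (nat_lit 94) (nat_lit 0) (nat_lit 0) (XT.lf (nat_lit 0) (nat_lit 1736221425896) (nat_lit 0) (nat_lit 0) (nat_lit 0) (nat_lit 0) (nat_lit 0) (nat_lit 0) (nat_lit 1) (nat_lit 0) (nat_lit 1) (nat_lit 0) (nat_lit 295) (nat_lit 456) (nat_lit 329)) (XT.lf (nat_lit 0) (nat_lit 1736214107268) (nat_lit 0) (nat_lit 0) (nat_lit 0) (nat_lit 0) (nat_lit 0) (nat_lit 0) (nat_lit 1) (nat_lit 0) (nat_lit 1) (nat_lit 0) (nat_lit 296) (nat_lit 456) (nat_lit 328))) (XT.nd (nat_lit 94) (nat_lit 0) (nat_lit 0) (XT.lf (nat_lit 0) (nat_lit 1736207330760) (nat_lit 0) (nat_lit 0) (nat_lit 0) (nat_lit 0) (nat_lit 0) (nat_lit 0) (nat_lit 1) (nat_lit 0) (nat_lit 1) (nat_lit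 0) (nat_lit 297) (nat_lit 456) (nat_lit 327)) (XT.lf (nat_lit 0) (nat_lit 1736201056216) (nat_lit 0) (nat_lit 0) (nat_lit 0) (nat_lit 0) (nat_lit 0) (nat_lit 0) (nat_lit 1) (nat_lit 0) (nat_lit 1) (nat_lit 0) (nat_lit 298) (nat_lit 456) (nat_lit 326)))) (XT.nd (nat_lit 188) (nat_lit 0) (nat_lit 0) (XT.nd (nat_lit 94) (nat_lit 0) (nat_lit 0) (XT.lf (nat_lit 0) (nat_lit 1736195246453) (nat_lit 0) (nat_lit 0) (nat_lit 0) (nat_lit 0) (nat_lit 0) (nat_lit 0) (nat_lit 1) (nat_lit 0) (nat_lit 1) (nat_lit 0) (nat_lit 299) (nat_lit 456) (nat_lit 325)) (XT.lf (nat_lit 0) (nat_lit 1736189867043) (nat_lit 0) (nat_lit 0) (nat_lit 0) (nat_lit 0) (nat_lit 0) (nat_lit 0) (nat_lit 1) (nat_lit 0) (nat_lit 1) (nat_lit 0) (nat_lit 300) (nat_lit 456) (nat_lit 324))) (XT.nd (nat_lit 94) (nat_lit 0) (nat_lit 0) (XT.lf (nat_lit 0) (nat_lit 1736184886108) (nat_lit 0) (nat_lit 0) (nat_lit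 0) (nat_lit 0) (nat_lit 0) (nat_lit 0) (nat_lit 1) (nat_lit 0) (nat_lit 1) (nat_lit 0) (nat_lit 301) (nat_lit 456) (nat_lit 323)) (XT.nd (nat_lit 94) (nat_lit 0) (nat_lit 0) (XT.lf (nat_lit 0) (nat_lit 1736180274131) (nat_lit 0) (nat_lit 0) (nat_lit 0) (nat_lit 0) (nat_lit 0) (nat_lit 0) (nat_lit 1) (nat_lit 0) (nat_lit 1) (nat_lit 0) (nat_lit 302) (nat_lit 456) (nat_lit 322)) (XT.lf (nat_lit 0) (nat_lit 1736176003781) (nat_lit 0) (nat_lit 0) (nat_lit 0) (nat_lit 0) (nat_lit 0) (nat_lit 0) (nat_lit 1) (nat_lit 0) (nat_lit 1) (nat_lit 0) (nat_lit 303) (nat_lit 456) (nat_lit 321)))))) (XT.nd (nat_lit 1786) (nat_lit 0) (nat_lit 0) (XT.nd (nat_lit 1598) (nat_lit 0) (nat_lit 0) (XT.nd (nat_lit 1504) (nat_lit 0) (nat_lit 0) (XT.lf (nat_lit 0) (nat_lit 1736172049754) (nat_lit 0) (nat_lit 0) (nat_lit 0) (nat_lit 0) (nat_lit 0) (nat_lit 0) (nat_lit 1) (nat_lit 0) (nat_lit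 1) (nat_lit 0) (nat_lit 304) (nat_lit 456) (nat_lit 320)) (XT.lf (nat_lit 0) (nat_lit 1736137051201) (nat_lit 0) (nat_lit 0) (nat_lit 0) (nat_lit 0) (nat_lit 0) (nat_lit 0) (nat_lit 1) (nat_lit 0) (nat_lit 1) (nat_lit 0) (nat_lit 320) (nat_lit 456) (nat_lit 304))) (XT.nd (nat_lit 94) (nat_lit 0) (nat_lit 0) (XT.lf (nat_lit 0) (nat_lit 1736135982550) (nat_lit 0) (nat_lit 0) (nat_lit 0) (nat_lit 0) (nat_lit 0) (nat_lit 0) (nat_lit 1) (nat_lit 0) (nat_lit 1) (nat_lit 0) (nat_lit 321) (nat_lit 456) (nat_lit 303)) (XT.lf (nat_lit 0) (nat_lit 1736134993059) (nat_lit 0) (nat_lit 0) (nat_lit 0) (nat_lit 0) (nat_lit 0) (nat_lit 0) (nat_lit 1) (nat_lit 0) (nat_lit 1) (nat_lit 0) (nat_lit 322) (nat_lit 456) (nat_lit 302)))) (XT.nd (nat_lit 188) (nat_lit 0) (nat_lit 0) (XT.nd (nat_lit 94) (nat_lit 0) (nat_lit 0) (XT.lf (nat_lit 0) (nat_lit 1736134076863) (nat_lit 0) (nat_lit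 0) (nat_lit 0) (nat_lit 0) (nat_lit 0) (nat_lit 0) (nat_lit 1) (nat_lit 0) (nat_lit 1) (nat_lit 0) (nat_lit 323) (nat_lit 456) (nat_lit 301)) (XT.lf (nat_lit 0) (nat_lit 1736133228534) (nat_lit 0) (nat_lit 0) (nat_lit 0) (nat_lit 0) (nat_lit 0) (nat_lit 0) (nat_lit 1) (nat_lit 0) (nat_lit 1) (nat_lit 0) (nat_lit 324) (nat_lit 456) (nat_lit 300))) (XT.nd (nat_lit 94) (nat_lit 0) (nat_lit 0) (XT.lf (nat_lit 0) (nat_lit 1736132443043) (nat_lit 0) (nat_lit 0) (nat_lit 0) (nat_lit 0) (nat_lit 0) (nat_lit 0) (nat_lit 1) (nat_lit 0) (nat_lit 1) (nat_lit 0) (nat_lit 325) (nat_lit 456) (nat_lit 299)) (XT.nd (nat_lit 94) (nat_lit 0) (nat_lit 0) (XT.lf (nat_lit 0) (nat_lit 1736131715738) (nat_lit 0) (nat_lit 0) (nat_lit 0) (nat_lit 0) (nat_lit 0) (nat_lit 0) (nat_lit 1) (nat_lit 0) (nat_lit 1) (nat_lit 0) (nat_lit 326) (nat_lit 456) (nat_lit 298)) (XT.lf (nat_lit 0)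 (nat_lit 1736131042306) (nat_lit 0) (nat_lit 0) (nat_lit 0) (nat_lit 0) (nat_lit 0) (nat_lit 0) (nat_lit 1) (nat_lit 0) (nat_lit 1) (nat_lit 0) (nat_lit 327) (nat_lit 456) (nat_lit 297))))))) (XT.nd (nat_lit 846) (nat_lit 0) (nat_lit 0) (XT.nd (nat_lit 376) (nat_lit 0) (nat_lit 0) (XT.nd (nat_lit 188) (nat_lit 0) (nat_lit 0) (XT.nd (nat_lit 94) (nat_lit 0) (nat_lit 0) (XT.lf (nat_lit 0) (nat_lit 1736130418759) (nat_lit 0) (nat_lit 0) (nat_lit 0) (nat_lit 0) (nat_lit 0) (nat_lit 0) (nat_lit 1) (nat_lit 0) (nat_lit 1) (nat_lit 0) (nat_lit 328) (nat_lit 456) (nat_lit 296)) (XT.lf (nat_lit 0) (nat_lit 1736129841400) (nat_lit 0) (nat_lit 0) (nat_lit 0) (nat_lit 0) (nat_lit 0) (nat_lit 0) (nat_lit 1) (nat_lit 0) (nat_lit 1) (nat_lit 0) (nat_lit 329) (nat_lit 456) (nat_lit 295))) (XT.nd (nat_lit 94) (nat_lit 0) (nat_lit 0) (XT.lf (nat_lit 0) (nat_lit 1736129306809)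 (nat_lit 0) (nat_lit 0) (nat_lit 0) (nat_lit 0) (nat_lit 0) (nat_lit 0) (nat_lit 1) (nat_lit 0) (nat_lit 1) (nat_lit 0) (nat_lit 330) (nat_lit 456) (nat_lit 294)) (XT.lf (nat_lit 0) (nat_lit 1736128811817) (nat_lit 0) (nat_lit 0) (nat_lit 0) (nat_lit 0) (nat_lit 0) (nat_lit 0) (nat_lit 1) (nat_lit 0) (nat_lit 1) (nat_lit 0) (nat_lit 331) (nat_lit 456) (nat_lit 293)))) (XT.nd (nat_lit 188) (nat_lit 0) (nat_lit 0) (XT.nd (nat_lit 94) (nat_lit 0) (nat_lit 0) (XT.lf (nat_lit 0) (nat_lit 1736128353491) (nat_lit 0) (nat_lit 0) (nat_lit 0) (nat_lit 0) (nat_lit 0) (nat_lit 0) (nat_lit 1) (nat_lit 0) (nat_lit 1) (nat_lit 0) (nat_lit 332) (nat_lit 456) (nat_lit 292)) (XT.lf (nat_lit 0) (nat_lit 1736127929115) (nat_lit 0) (nat_lit 0) (nat_lit 0) (nat_lit 0) (nat_lit 0) (nat_lit 0) (nat_lit 1) (nat_lit 0) (nat_lit 1) (nat_lit 0) (nat_lit 333) (nat_lit 456) (nat_lit 291)))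 (XT.nd (nat_lit 94) (nat_lit 0) (nat_lit 0) (XT.lf (nat_lit 0) (nat_lit 1736127536174) (nat_lit 0) (nat_lit 0) (nat_lit 0) (nat_lit 0) (nat_lit 0) (nat_lit 0) (nat_lit 1) (nat_lit 0) (nat_lit 1) (nat_lit 0) (nat_lit 334) (nat_lit 456) (nat_lit 290)) (XT.nd (nat_lit 94) (nat_lit 0) (nat_lit 0) (XT.lf (nat_lit 0) (nat_lit 1736127172340) (nat_lit 0) (nat_lit 0) (nat_lit 0) (nat_lit 0) (nat_lit 0) (nat_lit 0) (nat_lit 1) (nat_lit 0) (nat_lit 1) (nat_lit 0) (nat_lit 335) (nat_lit 456) (nat_lit 289)) (XT.lf (nat_lit 0) (nat_lit 1736126835457) (nat_lit 0) (nat_lit 0) (nat_lit 0) (nat_lit 0) (nat_lit 0) (nat_lit 0) (nat_lit 1) (nat_lit 0) (nat_lit 1) (nat_lit 0) (nat_lit 336) (nat_lit 456) (nat_lit 288)))))) (XT.nd (nat_lit 470) (nat_lit 0) (nat_lit 0) (XT.nd (nat_lit 188) (nat_lit 0) (nat_lit 0) (XT.nd (nat_lit 94) (nat_lit 0) (nat_lit 0) (XT.lf (nat_lit 0) (nat_lit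 1736126523528) (nat_lit 0) (nat_lit 0) (nat_lit 0) (nat_lit 0) (nat_lit 0) (nat_lit 0) (nat_lit 1) (nat_lit 0) (nat_lit 1) (nat_lit 0) (nat_lit 337) (nat_lit 456) (nat_lit 287)) (XT.lf (nat_lit 0) (nat_lit 1736126234705) (nat_lit 0) (nat_lit 0) (nat_lit 0) (nat_lit 0) (nat_lit 0) (nat_lit 0) (nat_lit 1) (nat_lit 0) (nat_lit 1) (nat_lit 0) (nat_lit 338) (nat_lit 456) (nat_lit 286))) (XT.nd (nat_lit 94) (nat_lit 0) (nat_lit 0) (XT.lf (nat_lit 0) (nat_lit 1736125967276) (nat_lit 0) (nat_lit 0) (nat_lit 0) (nat_lit 0) (nat_lit 0) (nat_lit 0) (nat_lit 1) (nat_lit 0) (nat_lit 1) (nat_lit 0) (nat_lit 339) (nat_lit 456) (nat_lit 285)) (XT.nd (nat_lit 94) (nat_lit 0) (nat_lit 0) (XT.lf (nat_lit 0) (nat_lit 1736125719657) (nat_lit 0) (nat_lit 0) (nat_lit 0) (nat_lit 0) (nat_lit 0) (nat_lit 0) (nat_lit 1) (nat_lit 0) (nat_lit 1) (nat_lit 0) (nat_lit 340) (nat_lit 456)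 (nat_lit 284)) (XT.lf (nat_lit 0) (nat_lit 1736125490380) (nat_lit 0) (nat_lit 0) (nat_lit 0) (nat_lit 0) (nat_lit 0) (nat_lit 0) (nat_lit 1) (nat_lit 0) (nat_lit 1) (nat_lit 0) (nat_lit 341) (nat_lit 456) (nat_lit 283))))) (XT.nd (nat_lit 188) (nat_lit 0) (nat_lit 0) (XT.nd (nat_lit 94) (nat_lit 0) (nat_lit 0) (XT.lf (nat_lit 0) (nat_lit 1736125278086) (nat_lit 0) (nat_lit 0) (nat_lit 0) (nat_lit 0) (nat_lit 0) (nat_lit 0) (nat_lit 1) (nat_lit 0) (nat_lit 1) (nat_lit 0) (nat_lit 342) (nat_lit 456) (nat_lit 282)) (XT.lf (nat_lit 0) (nat_lit 1736125081518) (nat_lit 0) (nat_lit 0) (nat_lit 0) (nat_lit 0) (nat_lit 0) (nat_lit 0) (nat_lit 1) (nat_lit 0) (nat_lit 1) (nat_lit 0) (nat_lit 343) (nat_lit 456) (nat_lit 281))) (XT.nd (nat_lit 94) (nat_lit 0) (nat_lit 0) (XT.lf (nat_lit 0) (nat_lit 1736124899510) (nat_lit 0) (nat_lit 0) (nat_lit 0) (nat_lit 0) (nat_lit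 0) (nat_lit 0) (nat_lit 1) (nat_lit 0) (nat_lit 1) (nat_lit 0) (nat_lit 344) (nat_lit 456) (nat_lit 280)) (XT.nd (nat_lit 94) (nat_lit 0) (nat_lit 0) (XT.lf (nat_lit 0) (nat_lit 1736124730985) (nat_lit 0) (nat_lit 0) (nat_lit 0) (nat_lit 0) (nat_lit 0) (nat_lit 0) (nat_lit 1) (nat_lit 0) (nat_lit 1) (nat_lit 0) (nat_lit 345) (nat_lit 456) (nat_lit 279)) (XT.lf (nat_lit 0) (nat_lit 1736124574943) (nat_lit 0) (nat_lit 0) (nat_lit 0) (nat_lit 0) (nat_lit 0) (nat_lit 0) (nat_lit 1) (nat_lit 0) (nat_lit 1) (nat_lit 0) (nat_lit 346) (nat_lit 456) (nat_lit 278))))))))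
noncomputable def ec473 : XT := (XT.nd (nat_lit 1786) (nat_lit 0) (nat_lit 0) (XT.nd (nat_lit 846) (nat_lit 0) (nat_lit 0) (XT.nd (nat_lit 376) (nat_lit 0) (nat_lit 0) (XT.nd (nat_lit 188) (nat_lit 0) (nat_lit 0) (XT.nd (nat_lit 94) (nat_lit 0) (nat_lit 0) (XT.lf (nat_lit 0) (nat_lit 1736124430459) (nat_lit 0) (nat_lit 0) (nat_lit 0) (nat_lit 0) (nat_lit 0) (nat_lit 0) (nat_lit 1) (nat_lit 0) (nat_lit 1) (nat_lit 0) (nat_lit 347) (nat_lit 456) (nat_lit 277)) (XT.lf (nat_lit 0) (nat_lit 1736124296678) (nat_lit 0) (nat_lit 0) (nat_lit 0) (nat_lit 0) (nat_lit 0) (nat_lit 0) (nat_lit 1) (nat_lit 0) (nat_lit 1) (nat_lit 0) (nat_lit 348) (nat_lit 456) (nat_lit 276))) (XT.nd (nat_lit 94) (nat_lit 0) (nat_lit 0) (XT.lf (nat_lit 0) (nat_lit 1736124172807) (nat_lit 0) (nat_lit 0) (nat_lit 0) (nat_lit 0) (nat_lit 0) (nat_lit 0) (nat_lit 1) (nat_lit 0) (nat_lit 1) (nat_lit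 0) (nat_lit 349) (nat_lit 456) (nat_lit 275)) (XT.lf (nat_lit 0) (nat_lit 1736124058111) (nat_lit 0) (nat_lit 0) (nat_lit 0) (nat_lit 0) (nat_lit 0) (nat_lit 0) (nat_lit 1) (nat_lit 0) (nat_lit 1) (nat_lit 0) (nat_lit 350) (nat_lit 456) (nat_lit 274)))) (XT.nd (nat_lit 188) (nat_lit 0) (nat_lit 0) (XT.nd (nat_lit 94) (nat_lit 0) (nat_lit 0) (XT.lf (nat_lit 0) (nat_lit 1736123951912) (nat_lit 0) (nat_lit 0) (nat_lit 0) (nat_lit 0) (nat_lit 0) (nat_lit 0) (nat_lit 1) (nat_lit 0) (nat_lit 1) (nat_lit 0) (nat_lit 351) (nat_lit 456) (nat_lit 273)) (XT.lf (nat_lit 0) (nat_lit 1736123853579) (nat_lit 0) (nat_lit 0) (nat_lit 0) (nat_lit 0) (nat_lit 0) (nat_lit 0) (nat_lit 1) (nat_lit 0) (nat_lit 1) (nat_lit 0) (nat_lit 352) (nat_lit 456) (nat_lit 272))) (XT.nd (nat_lit 94) (nat_lit 0) (nat_lit 0) (XT.lf (nat_lit 0) (nat_lit 1736123762530) (nat_lit 0) (nat_lit 0) (nat_lit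 0) (nat_lit 0) (nat_lit 0) (nat_lit 0) (nat_lit 1) (nat_lit 0) (nat_lit 1) (nat_lit 0) (nat_lit 353) (nat_lit 456) (nat_lit 271)) (XT.nd (nat_lit 94) (nat_lit 0) (nat_lit 0) (XT.lf (nat_lit 0) (nat_lit 1736123678225) (nat_lit 0) (nat_lit 0) (nat_lit 0) (nat_lit 0) (nat_lit 0) (nat_lit 0) (nat_lit 1) (nat_lit 0) (nat_lit 1) (nat_lit 0) (nat_lit 354) (nat_lit 456) (nat_lit 270)) (XT.lf (nat_lit 0) (nat_lit 1736123600165) (nat_lit 0) (nat_lit 0) (nat_lit 0) (nat_lit 0) (nat_lit 0) (nat_lit 0) (nat_lit 1) (nat_lit 0) (nat_lit 1) (nat_lit 0) (nat_lit 355) (nat_lit 456) (nat_lit 269)))))) (XT.nd (nat_lit 470) (nat_lit 0) (nat_lit 0) (XT.nd (nat_lit 188) (nat_lit 0) (nat_lit 0) (XT.nd (nat_lit 94) (nat_lit 0) (nat_lit 0) (XT.lf (nat_lit 0) (nat_lit 1736123527887) (nat_lit 0) (nat_lit 0) (nat_lit 0) (nat_lit 0) (nat_lit 0) (nat_lit 0) (nat_lit 1) (nat_lit 0) (nat_lit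 1) (nat_lit 0) (nat_lit 356) (nat_lit 456) (nat_lit 268)) (XT.lf (nat_lit 0) (nat_lit 1736123460963) (nat_lit 0) (nat_lit 0) (nat_lit 0) (nat_lit 0) (nat_lit 0) (nat_lit 0) (nat_lit 1) (nat_lit 0) (nat_lit 1) (nat_lit 0) (nat_lit 357) (nat_lit 456) (nat_lit 267))) (XT.nd (nat_lit 94) (nat_lit 0) (nat_lit 0) (XT.lf (nat_lit 0) (nat_lit 1736123398997) (nat_lit 0) (nat_lit 0) (nat_lit 0) (nat_lit 0) (nat_lit 0) (nat_lit 0) (nat_lit 1) (nat_lit 0) (nat_lit 1) (nat_lit 0) (nat_lit 358) (nat_lit 456) (nat_lit 266)) (XT.nd (nat_lit 94) (nat_lit 0) (nat_lit 0) (XT.lf (nat_lit 0) (nat_lit 1736123341621) (nat_lit 0) (nat_lit 0) (nat_lit 0) (nat_lit 0) (nat_lit 0) (nat_lit 0) (nat_lit 1) (nat_lit 0) (nat_lit 1) (nat_lit 0) (nat_lit 359) (nat_lit 456) (nat_lit 265)) (XT.lf (nat_lit 0) (nat_lit 1736123288494) (nat_lit 0) (nat_lit 0) (nat_lit 0) (nat_lit 0) (nat_lit 0)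 (nat_lit 0) (nat_lit 1) (nat_lit 0) (nat_lit 1) (nat_lit 0) (nat_lit 360) (nat_lit 456) (nat_lit 264))))) (XT.nd (nat_lit 188) (nat_lit 0) (nat_lit 0) (XT.nd (nat_lit 94) (nat_lit 0) (nat_lit 0) (XT.lf (nat_lit 0) (nat_lit 1736123239303) (nat_lit 0) (nat_lit 0) (nat_lit 0) (nat_lit 0) (nat_lit 0) (nat_lit 0) (nat_lit 1) (nat_lit 0) (nat_lit 1) (nat_lit 0) (nat_lit 361) (nat_lit 456) (nat_lit 263)) (XT.lf (nat_lit 0) (nat_lit 1736123193756) (nat_lit 0) (nat_lit 0) (nat_lit 0) (nat_lit 0) (nat_lit 0) (nat_lit 0) (nat_lit 1) (nat_lit 0) (nat_lit 1) (nat_lit 0) (nat_lit 362) (nat_lit 456) (nat_lit 262))) (XT.nd (nat_lit 94) (nat_lit 0) (nat_lit 0) (XT.lf (nat_lit 0) (nat_lit 1736123151583) (nat_lit 0) (nat_lit 0) (nat_lit 0) (nat_lit 0) (nat_lit 0) (nat_lit 0) (nat_lit 1) (nat_lit 0) (nat_lit 1) (nat_lit 0) (nat_lit 363) (nat_lit 456) (nat_lit 261)) (XT.nd (nat_lit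 94) (nat_lit 0) (nat_lit 0) (XT.lf (nat_lit 0) (nat_lit 1736123112533) (nat_lit 0) (nat_lit 0) (nat_lit 0) (nat_lit 0) (nat_lit 0) (nat_lit 0) (nat_lit 1) (nat_lit 0) (nat_lit 1) (nat_lit 0) (nat_lit 364) (nat_lit 456) (nat_lit 260)) (XT.lf (nat_lit 0) (nat_lit 1736123076377) (nat_lit 0) (nat_lit 0) (nat_lit 0) (nat_lit 0) (nat_lit 0) (nat_lit 0) (nat_lit 1) (nat_lit 0) (nat_lit 1) (nat_lit 0) (nat_lit 365) (nat_lit 456) (nat_lit 259))))))) (XT.nd (nat_lit 846) (nat_lit 0) (nat_lit 0) (XT.nd (nat_lit 376) (nat_lit 0) (nat_lit 0) (XT.nd (nat_lit 188) (nat_lit 0) (nat_lit 0) (XT.nd (nat_lit 94) (nat_lit 0) (nat_lit 0) (XT.lf (nat_lit 0) (nat_lit 1736123042898) (nat_lit 0) (nat_lit 0) (nat_lit 0) (nat_lit 0) (nat_lit 0) (nat_lit 0) (nat_lit 1) (nat_lit 0) (nat_lit 1) (nat_lit 0) (nat_lit 366) (nat_lit 456) (nat_lit 258)) (XT.lf (nat_lit 0) (nat_lit 1736123011899)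 (nat_lit 0) (nat_lit 0) (nat_lit 0) (nat_lit 0) (nat_lit 0) (nat_lit 0) (nat_lit 1) (nat_lit 0) (nat_lit 1) (nat_lit 0) (nat_lit 367) (nat_lit 456) (nat_lit 257))) (XT.nd (nat_lit 94) (nat_lit 0) (nat_lit 0) (XT.lf (nat_lit 0) (nat_lit 1736122983197) (nat_lit 0) (nat_lit 0) (nat_lit 0) (nat_lit 0) (nat_lit 0) (nat_lit 0) (nat_lit 1) (nat_lit 0) (nat_lit 1) (nat_lit 0) (nat_lit 368) (nat_lit 456) (nat_lit 256)) (XT.lf (nat_lit 0) (nat_lit 1736122956620) (nat_lit 0) (nat_lit 0) (nat_lit 0) (nat_lit 0) (nat_lit 0) (nat_lit 0) (nat_lit 1) (nat_lit 0) (nat_lit 1) (nat_lit 0) (nat_lit 369) (nat_lit 456) (nat_lit 255)))) (XT.nd (nat_lit 188) (nat_lit 0) (nat_lit 0) (XT.nd (nat_lit 94) (nat_lit 0) (nat_lit 0) (XT.lf (nat_lit 0) (nat_lit 1736122932013) (nat_lit 0) (nat_lit 0) (nat_lit 0) (nat_lit 0) (nat_lit 0) (nat_lit 0) (nat_lit 1) (nat_lit 0) (nat_lit 1) (nat_lit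 0) (nat_lit 370) (nat_lit 456) (nat_lit 254)) (XT.lf (nat_lit 0) (nat_lit 1736122909228) (nat_lit 0) (nat_lit 0) (nat_lit 0) (nat_lit 0) (nat_lit 0) (nat_lit 0) (nat_lit 1) (nat_lit 0) (nat_lit 1) (nat_lit 0) (nat_lit 371) (nat_lit 456) (nat_lit 253))) (XT.nd (nat_lit 94) (nat_lit 0) (nat_lit 0) (XT.lf (nat_lit 0) (nat_lit 1736122888131) (nat_lit 0) (nat_lit 0) (nat_lit 0) (nat_lit 0) (nat_lit 0) (nat_lit 0) (nat_lit 1) (nat_lit 0) (nat_lit 1) (nat_lit 0) (nat_lit 372) (nat_lit 456) (nat_lit 252)) (XT.nd (nat_lit 94) (nat_lit 0) (nat_lit 0) (XT.lf (nat_lit 0) (nat_lit 1736122868596) (nat_lit 0) (nat_lit 0) (nat_lit 0) (nat_lit 0) (nat_lit 0) (nat_lit 0) (nat_lit 1) (nat_lit 0) (nat_lit 1) (nat_lit 0) (nat_lit 373) (nat_lit 456) (nat_lit 251)) (XT.lf (nat_lit 0) (nat_lit 1736122850509) (nat_lit 0) (nat_lit 0) (nat_lit 0) (nat_lit 0) (nat_lit 0) (nat_lit 0)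 (nat_lit 1) (nat_lit 0) (nat_lit 1) (nat_lit 0) (nat_lit 374) (nat_lit 456) (nat_lit 250)))))) (XT.nd (nat_lit 470) (nat_lit 0) (nat_lit 0) (XT.nd (nat_lit 188) (nat_lit 0) (nat_lit 0) (XT.nd (nat_lit 94) (nat_lit 0) (nat_lit 0) (XT.lf (nat_lit 0) (nat_lit 1736122833761) (nat_lit 0) (nat_lit 0) (nat_lit 0) (nat_lit 0) (nat_lit 0) (nat_lit 0) (nat_lit 1) (nat_lit 0) (nat_lit 1) (nat_lit 0) (nat_lit 375) (nat_lit 456) (nat_lit 249)) (XT.lf (nat_lit 0) (nat_lit 1736122818254) (nat_lit 0) (nat_lit 0) (nat_lit 0) (nat_lit 0) (nat_lit 0) (nat_lit 0) (nat_lit 1) (nat_lit 0) (nat_lit 1) (nat_lit 0) (nat_lit 376) (nat_lit 456) (nat_lit 248))) (XT.nd (nat_lit 94) (nat_lit 0) (nat_lit 0) (XT.lf (nat_lit 0) (nat_lit 1736122803896) (nat_lit 0) (nat_lit 0) (nat_lit 0) (nat_lit 0) (nat_lit 0) (nat_lit 0) (nat_lit 1) (nat_lit 0) (nat_lit 1) (nat_lit 0) (nat_lit 377) (nat_lit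 456) (nat_lit 247)) (XT.nd (nat_lit 94) (nat_lit 0) (nat_lit 0) (XT.lf (nat_lit 0) (nat_lit 1736122790601) (nat_lit 0) (nat_lit 0) (nat_lit 0) (nat_lit 0) (nat_lit 0) (nat_lit 0) (nat_lit 1) (nat_lit 0) (nat_lit 1) (nat_lit 0) (nat_lit 378) (nat_lit 456) (nat_lit 246)) (XT.lf (nat_lit 0) (nat_lit 1736122778291) (nat_lit 0) (nat_lit 0) (nat_lit 0) (nat_lit 0) (nat_lit 0) (nat_lit 0) (nat_lit 1) (nat_lit 0) (nat_lit 1) (nat_lit 0) (nat_lit 379) (nat_lit 456) (nat_lit 245))))) (XT.nd (nat_lit 188) (nat_lit 0) (nat_lit 0) (XT.nd (nat_lit 94) (nat_lit 0) (nat_lit 0) (XT.lf (nat_lit 0) (nat_lit 1736122766893) (nat_lit 0) (nat_lit 0) (nat_lit 0) (nat_lit 0) (nat_lit 0) (nat_lit 0) (nat_lit 1) (nat_lit 0) (nat_lit 1) (nat_lit 0) (nat_lit 380) (nat_lit 456) (nat_lit 244)) (XT.lf (nat_lit 0) (nat_lit 1736122756339) (nat_lit 0) (nat_lit 0) (nat_lit 0) (nat_lit 0) (nat_lit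 0) (nat_lit 0) (nat_lit 1) (nat_lit 0) (nat_lit 1) (nat_lit 0) (nat_lit 381) (nat_lit 456) (nat_lit 243))) (XT.nd (nat_lit 94) (nat_lit 0) (nat_lit 0) (XT.lf (nat_lit 0) (nat_lit 1736122746567) (nat_lit 0) (nat_lit 0) (nat_lit 0) (nat_lit 0) (nat_lit 0) (nat_lit 0) (nat_lit 1) (nat_lit 0) (nat_lit 1) (nat_lit 0) (nat_lit 382) (nat_lit 456) (nat_lit 242)) (XT.nd (nat_lit 94) (nat_lit 0) (nat_lit 0) (XT.lf (nat_lit 0) (nat_lit 1736122737519) (nat_lit 0) (nat_lit 0) (nat_lit 0) (nat_lit 0) (nat_lit 0) (nat_lit 0) (nat_lit 1) (nat_lit 0) (nat_lit 1) (nat_lit 0) (nat_lit 383) (nat_lit 456) (nat_lit 241)) (XT.lf (nat_lit 0) (nat_lit 1736122729141) (nat_lit 0) (nat_lit 0) (nat_lit 0) (nat_lit 0) (nat_lit 0) (nat_lit 0) (nat_lit 1) (nat_lit 0) (nat_lit 1) (nat_lit 0) (nat_lit 384) (nat_lit 456) (nat_lit 240))))))))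
noncomputable def ec474 : XT := (XT.nd (nat_lit 1692) (nat_lit 0) (nat_lit 0) (XT.nd (nat_lit 846) (nat_lit 0) (nat_lit 0) (XT.nd (nat_lit 376) (nat_lit 0) (nat_lit 0) (XT.nd (nat_lit 188) (nat_lit 0) (nat_lit 0) (XT.nd (nat_lit 94) (nat_lit 0) (nat_lit 0) (XT.lf (nat_lit 0) (nat_lit 1736122721383) (nat_lit 0) (nat_lit 0) (nat_lit 0) (nat_lit 0) (nat_lit 0) (nat_lit 0) (nat_lit 1) (nat_lit 0) (nat_lit 1) (nat_lit 0) (nat_lit 385) (nat_lit 456) (nat_lit 239)) (XT.lf (nat_lit 0) (nat_lit 1736122714201) (nat_lit 0) (nat_lit 0) (nat_lit 0) (nat_lit 0) (nat_lit 0) (nat_lit 0) (nat_lit 1) (nat_lit 0) (nat_lit 1) (nat_lit 0) (nat_lit 386) (nat_lit 456) (nat_lit 238))) (XT.nd (nat_lit 94) (nat_lit 0) (nat_lit 0) (XT.lf (nat_lit 0) (nat_lit 1736122707550) (nat_lit 0) (nat_lit 0) (nat_lit 0) (nat_lit 0) (nat_lit 0) (nat_lit 0) (nat_lit 1) (nat_lit 0) (nat_lit 1) (nat_lit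 0) (nat_lit 387) (nat_lit 456) (nat_lit 237)) (XT.lf (nat_lit 0) (nat_lit 1736122701392) (nat_lit 0) (nat_lit 0) (nat_lit 0) (nat_lit 0) (nat_lit 0) (nat_lit 0) (nat_lit 1) (nat_lit 0) (nat_lit 1) (nat_lit 0) (nat_lit 388) (nat_lit 456) (nat_lit 236)))) (XT.nd (nat_lit 188) (nat_lit 0) (nat_lit 0) (XT.nd (nat_lit 94) (nat_lit 0) (nat_lit 0) (XT.lf (nat_lit 0) (nat_lit 1736122695690) (nat_lit 0) (nat_lit 0) (nat_lit 0) (nat_lit 0) (nat_lit 0) (nat_lit 0) (nat_lit 1) (nat_lit 0) (nat_lit 1) (nat_lit 0) (nat_lit 389) (nat_lit 456) (nat_lit 235)) (XT.lf (nat_lit 0) (nat_lit 1736122690410) (nat_lit 0) (nat_lit 0) (nat_lit 0) (nat_lit 0) (nat_lit 0) (nat_lit 0) (nat_lit 1) (nat_lit 0) (nat_lit 1) (nat_lit 0) (nat_lit 390) (nat_lit 456) (nat_lit 234))) (XT.nd (nat_lit 94) (nat_lit 0) (nat_lit 0) (XT.lf (nat_lit 0) (nat_lit 1736122685522) (nat_lit 0) (nat_lit 0) (nat_lit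 0) (nat_lit 0) (nat_lit 0) (nat_lit 0) (nat_lit 1) (nat_lit 0) (nat_lit 1) (nat_lit 0) (nat_lit 391) (nat_lit 456) (nat_lit 233)) (XT.nd (nat_lit 94) (nat_lit 0) (nat_lit 0) (XT.lf (nat_lit 0) (nat_lit 1736122680995) (nat_lit 0) (nat_lit 0) (nat_lit 0) (nat_lit 0) (nat_lit 0) (nat_lit 0) (nat_lit 1) (nat_lit 0) (nat_lit 1) (nat_lit 0) (nat_lit 392) (nat_lit 456) (nat_lit 232)) (XT.lf (nat_lit 0) (nat_lit 1736122676804) (nat_lit 0) (nat_lit 0) (nat_lit 0) (nat_lit 0) (nat_lit 0) (nat_lit 0) (nat_lit 1) (nat_lit 0) (nat_lit 1) (nat_lit 0) (nat_lit 393) (nat_lit 456) (nat_lit 231)))))) (XT.nd (nat_lit 376) (nat_lit 0) (nat_lit 0) (XT.nd (nat_lit 188) (nat_lit 0) (nat_lit 0) (XT.nd (nat_lit 94) (nat_lit 0) (nat_lit 0) (XT.lf (nat_lit 0) (nat_lit 1736122672924) (nat_lit 0) (nat_lit 0) (nat_lit 0) (nat_lit 0) (nat_lit 0) (nat_lit 0) (nat_lit 1) (nat_lit 0) (nat_lit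 1) (nat_lit 0) (nat_lit 394) (nat_lit 456) (nat_lit 230)) (XT.lf (nat_lit 0) (nat_lit 1736122669331) (nat_lit 0) (nat_lit 0) (nat_lit 0) (nat_lit 0) (nat_lit 0) (nat_lit 0) (nat_lit 1) (nat_lit 0) (nat_lit 1) (nat_lit 0) (nat_lit 395) (nat_lit 456) (nat_lit 229))) (XT.nd (nat_lit 94) (nat_lit 0) (nat_lit 0) (XT.lf (nat_lit 0) (nat_lit 1736122666004) (nat_lit 0) (nat_lit 0) (nat_lit 0) (nat_lit 0) (nat_lit 0) (nat_lit 0) (nat_lit 1) (nat_lit 0) (nat_lit 1) (nat_lit 0) (nat_lit 396) (nat_lit 456) (nat_lit 228)) (XT.lf (nat_lit 0) (nat_lit 1736122662923) (nat_lit 0) (nat_lit 0) (nat_lit 0) (nat_lit 0) (nat_lit 0) (nat_lit 0) (nat_lit 1) (nat_lit 0) (nat_lit 1) (nat_lit 0) (nat_lit 397) (nat_lit 456) (nat_lit 227)))) (XT.nd (nat_lit 188) (nat_lit 0) (nat_lit 0) (XT.nd (nat_lit 94) (nat_lit 0) (nat_lit 0) (XT.lf (nat_lit 0) (nat_lit 1736122660071) (nat_lit 0) (nat_lit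 0) (nat_lit 0) (nat_lit 0) (nat_lit 0) (nat_lit 0) (nat_lit 1) (nat_lit 0) (nat_lit 1) (nat_lit 0) (nat_lit 398) (nat_lit 456) (nat_lit 226)) (XT.lf (nat_lit 0) (nat_lit 1736122657430) (nat_lit 0) (nat_lit 0) (nat_lit 0) (nat_lit 0) (nat_lit 0) (nat_lit 0) (nat_lit 1) (nat_lit 0) (nat_lit 1) (nat_lit 0) (nat_lit 399) (nat_lit 456) (nat_lit 225))) (XT.nd (nat_lit 94) (nat_lit 0) (nat_lit 0) (XT.lf (nat_lit 0) (nat_lit 1736122654984) (nat_lit 0) (nat_lit 0) (nat_lit 0) (nat_lit 0) (nat_lit 0) (nat_lit 0) (nat_lit 1) (nat_lit 0) (nat_lit 1) (nat_lit 0) (nat_lit 400) (nat_lit 456) (nat_lit 224)) (XT.nd (nat_lit 94) (nat_lit 0) (nat_lit 0) (XT.lf (nat_lit 0) (nat_lit 1736122652720) (nat_lit 0) (nat_lit 0) (nat_lit 0) (nat_lit 0) (nat_lit 0) (nat_lit 0) (nat_lit 1) (nat_lit 0) (nat_lit 1) (nat_lit 0) (nat_lit 401) (nat_lit 456) (nat_lit 223)) (XT.lf (nat_lit 0)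 (nat_lit 1736122650623) (nat_lit 0) (nat_lit 0) (nat_lit 0) (nat_lit 0) (nat_lit 0) (nat_lit 0) (nat_lit 1) (nat_lit 0) (nat_lit 1) (nat_lit 0) (nat_lit 402) (nat_lit 456) (nat_lit 222))))))) (XT.nd (nat_lit 4982) (nat_lit 0) (nat_lit 0) (XT.nd (nat_lit 376) (nat_lit 0) (nat_lit 0) (XT.nd (nat_lit 188) (nat_lit 0) (nat_lit 0) (XT.nd (nat_lit 94) (nat_lit 0) (nat_lit 0) (XT.lf (nat_lit 0) (nat_lit 1736122648682) (nat_lit 0) (nat_lit 0) (nat_lit 0) (nat_lit 0) (nat_lit 0) (nat_lit 0) (nat_lit 1) (nat_lit 0) (nat_lit 1) (nat_lit 0) (nat_lit 403) (nat_lit 456) (nat_lit 221)) (XT.lf (nat_lit 0) (nat_lit 1736122646884) (nat_lit 0) (nat_lit 0) (nat_lit 0) (nat_lit 0) (nat_lit 0) (nat_lit 0) (nat_lit 1) (nat_lit 0) (nat_lit 1) (nat_lit 0) (nat_lit 404) (nat_lit 456) (nat_lit 220))) (XT.nd (nat_lit 94) (nat_lit 0) (nat_lit 0) (XT.lf (nat_lit 0) (nat_lit 1736122645220)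 (nat_lit 0) (nat_lit 0) (nat_lit 0) (nat_lit 0) (nat_lit 0) (nat_lit 0) (nat_lit 1) (nat_lit 0) (nat_lit 1) (nat_lit 0) (nat_lit 405) (nat_lit 456) (nat_lit 219)) (XT.lf (nat_lit 0) (nat_lit 1736122643679) (nat_lit 0) (nat_lit 0) (nat_lit 0) (nat_lit 0) (nat_lit 0) (nat_lit 0) (nat_lit 1) (nat_lit 0) (nat_lit 1) (nat_lit 0) (nat_lit 406) (nat_lit 456) (nat_lit 218)))) (XT.nd (nat_lit 4324) (nat_lit 0) (nat_lit 0) (XT.nd (nat_lit 94) (nat_lit 0) (nat_lit 0) (XT.lf (nat_lit 0) (nat_lit 1736122642252) (nat_lit 0) (nat_lit 0) (nat_lit 0) (nat_lit 0) (nat_lit 0) (nat_lit 0) (nat_lit 1) (nat_lit 0) (nat_lit 1) (nat_lit 0) (nat_lit 407) (nat_lit 456) (nat_lit 217)) (XT.lf (nat_lit 0) (nat_lit 1736122640931) (nat_lit 0) (nat_lit 0) (nat_lit 0) (nat_lit 0) (nat_lit 0) (nat_lit 0) (nat_lit 1) (nat_lit 0) (nat_lit 1) (nat_lit 0) (nat_lit 408) (nat_lit 456) (nat_lit 216)))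 (XT.nd (nat_lit 94) (nat_lit 0) (nat_lit 0) (XT.lf (nat_lit 0) (nat_lit 1736122624933) (nat_lit 0) (nat_lit 0) (nat_lit 0) (nat_lit 0) (nat_lit 0) (nat_lit 0) (nat_lit 1) (nat_lit 0) (nat_lit 1) (nat_lit 0) (nat_lit 453) (nat_lit 456) (nat_lit 171)) (XT.nd (nat_lit 94) (nat_lit 0) (nat_lit 0) (XT.lf (nat_lit 0) (nat_lit 1736122624895) (nat_lit 0) (nat_lit 0) (nat_lit 0) (nat_lit 0) (nat_lit 0) (nat_lit 0) (nat_lit 1) (nat_lit 0) (nat_lit 1) (nat_lit 0) (nat_lit 454) (nat_lit 456) (nat_lit 170)) (XT.lf (nat_lit 0) (nat_lit 1736122624860) (nat_lit 0) (nat_lit 0) (nat_lit 0) (nat_lit 0) (nat_lit 0) (nat_lit 0) (nat_lit 1) (nat_lit 0) (nat_lit 1) (nat_lit 0) (nat_lit 455) (nat_lit 456) (nat_lit 169)))))) (XT.nd (nat_lit 40608) (nat_lit 0) (nat_lit 756) (XT.nd (nat_lit 188) (nat_lit 0) (nat_lit 0) (XT.nd (nat_lit 94) (nat_lit 0) (nat_lit 0) (XT.lf (nat_lit 0) (nat_lit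 1736122624827) (nat_lit 0) (nat_lit 0) (nat_lit 0) (nat_lit 0) (nat_lit 0) (nat_lit 0) (nat_lit 1) (nat_lit 0) (nat_lit 1) (nat_lit 0) (nat_lit 456) (nat_lit 456) (nat_lit 168)) (XT.lf (nat_lit 0) (nat_lit 1736122624796) (nat_lit 0) (nat_lit 0) (nat_lit 0) (nat_lit 0) (nat_lit 0) (nat_lit 0) (nat_lit 1) (nat_lit 0) (nat_lit 1) (nat_lit 0) (nat_lit 457) (nat_lit 456) (nat_lit 167))) (XT.nd (nat_lit 94) (nat_lit 0) (nat_lit 0) (XT.lf (nat_lit 0) (nat_lit 1736122624768) (nat_lit 0) (nat_lit 0) (nat_lit 0) (nat_lit 0) (nat_lit 0) (nat_lit 0) (nat_lit 1) (nat_lit 0) (nat_lit 1) (nat_lit 0) (nat_lit 458) (nat_lit 456) (nat_lit 166)) (XT.nd (nat_lit 40232) (nat_lit 0) (nat_lit 10752) (XT.lf (nat_lit 0) (nat_lit 1736122624742) (nat_lit 0) (nat_lit 0) (nat_lit 0) (nat_lit 0) (nat_lit 0) (nat_lit 0) (nat_lit 1) (nat_lit 0) (nat_lit 1) (nat_lit 0) (nat_lit 459) (nat_lit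 456) (nat_lit 165)) (XT.lf (nat_lit 924) (nat_lit 938326455625) (nat_lit 0) (nat_lit 1665996465133) (nat_lit 924) (nat_lit 938326455625) (nat_lit 139) (nat_lit 1) (nat_lit 128) (nat_lit 0) (nat_lit 139) (nat_lit 0) (nat_lit 166) (nat_lit 457) (nat_lit 457))))) (XT.nd (nat_lit 188) (nat_lit 10080) (nat_lit 0) (XT.nd (nat_lit 94) (nat_lit 0) (nat_lit 0) (XT.lf (nat_lit 924) (nat_lit 350024559685) (nat_lit 0) (nat_lit 3270855985051) (nat_lit 840) (nat_lit 3198886225690) (nat_lit 140) (nat_lit 1) (nat_lit 129) (nat_lit 1) (nat_lit 139) (nat_lit 1) (nat_lit 167) (nat_lit 457) (nat_lit 456)) (XT.lf (nat_lit 924) (nat_lit 3214773543614) (nat_lit 84) (nat_lit 2190493355721) (nat_lit 0) (nat_lit 1161737754108) (nat_lit 140) (nat_lit 1) (nat_lit 130) (nat_lit 1) (nat_lit 129) (nat_lit 1) (nat_lit 168) (nat_lit 457) (nat_lit 455))) (XT.nd (nat_lit 4512) (nat_lit 10164)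 (nat_lit 0) (XT.lf (nat_lit 924) (nat_lit 2777827699724) (nat_lit 84) (nat_lit 918020582318) (nat_lit 0) (nat_lit 2631043111866) (nat_lit 141) (nat_lit 1) (nat_lit 131) (nat_lit 1) (nat_lit 130) (nat_lit 1) (nat_lit 169) (nat_lit 457) (nat_lit 454)) (XT.nd (nat_lit 94) (nat_lit 84) (nat_lit 0) (XT.lf (nat_lit 84) (nat_lit 1041325959371) (nat_lit 0) (nat_lit 129553871335) (nat_lit 168) (nat_lit 359043496573) (nat_lit 11) (nat_lit 1) (nat_lit 10) (nat_lit 1) (nat_lit 12) (nat_lit 1) (nat_lit 217) (nat_lit 457) (nat_lit 406)) (XT.lf (nat_lit 0) (nat_lit 325047256579) (nat_lit 0) (nat_lit 875866421316) (nat_lit 168) (nat_lit 289490745227) (nat_lit 9) (nat_lit 3) (nat_lit 9) (nat_lit 1) (nat_lit 11) (nat_lit 1) (nat_lit 218) (nat_lit 457) (nat_lit 405))))))))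
noncomputable def ec475 : XT := (XT.nd (nat_lit 1786) (nat_lit 0) (nat_lit 0) (XT.nd (nat_lit 846) (nat_lit 0) (nat_lit 0) (XT.nd (nat_lit 376) (nat_lit 252) (nat_lit 0) (XT.nd (nat_lit 188) (nat_lit 252) (nat_lit 0) (XT.nd (nat_lit 94) (nat_lit 84) (nat_lit 0) (XT.lf (nat_lit 84) (nat_lit 1090963017398) (nat_lit 0) (nat_lit 141782978517) (nat_lit 168) (nat_lit 219362639166) (nat_lit 8) (nat_lit 1) (nat_lit 7) (nat_lit 1) (nat_lit 9) (nat_lit 1) (nat_lit 219) (nat_lit 457) (nat_lit 404)) (XT.lf (nat_lit 0) (nat_lit 404809739793) (nat_lit 0) (nat_lit 854560837788) (nat_lit 168) (nat_lit 155300160143) (nat_lit 6) (nat_lit 3) (nat_lit 6) (nat_lit 1) (nat_lit 8) (nat_lit 1) (nat_lit 220) (nat_lit 457) (nat_lit 403))) (XT.nd (nat_lit 94) (nat_lit 84) (nat_lit 0) (XT.lf (nat_lit 84) (nat_lit 1129389868060) (nat_lit 0) (nat_lit 159413655804) (nat_lit 168) (nat_lit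 89638207447) (nat_lit 5) (nat_lit 1) (nat_lit 4) (nat_lit 1) (nat_lit 6) (nat_lit 1) (nat_lit 221) (nat_lit 457) (nat_lit 402)) (XT.lf (nat_lit 0) (nat_lit 472398321782) (nat_lit 0) (nat_lit 839626013005) (nat_lit 168) (nat_lit 30937867899) (nat_lit 3) (nat_lit 3) (nat_lit 3) (nat_lit 1) (nat_lit 5) (nat_lit 1) (nat_lit 222) (nat_lit 457) (nat_lit 401)))) (XT.nd (nat_lit 188) (nat_lit 0) (nat_lit 0) (XT.nd (nat_lit 94) (nat_lit 0) (nat_lit 0) (XT.lf (nat_lit 0) (nat_lit 1898338961707) (nat_lit 0) (nat_lit 0) (nat_lit 0) (nat_lit 0) (nat_lit 0) (nat_lit 0) (nat_lit 1) (nat_lit 0) (nat_lit 1) (nat_lit 0) (nat_lit 223) (nat_lit 457) (nat_lit 400)) (XT.lf (nat_lit 0) (nat_lit 1896611070793) (nat_lit 0) (nat_lit 0) (nat_lit 0) (nat_lit 0) (nat_lit 0) (nat_lit 0) (nat_lit 1) (nat_lit 0) (nat_lit 1) (nat_lit 0) (nat_lit 224) (nat_lit 457) (nat_lit 399))) (XT.nd (nat_lit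 94) (nat_lit 0) (nat_lit 0) (XT.lf (nat_lit 0) (nat_lit 1895011171798) (nat_lit 0) (nat_lit 0) (nat_lit 0) (nat_lit 0) (nat_lit 0) (nat_lit 0) (nat_lit 1) (nat_lit 0) (nat_lit 1) (nat_lit 0) (nat_lit 225) (nat_lit 457) (nat_lit 398)) (XT.nd (nat_lit 94) (nat_lit 0) (nat_lit 0) (XT.lf (nat_lit 0) (nat_lit 1893529783841) (nat_lit 0) (nat_lit 0) (nat_lit 0) (nat_lit 0) (nat_lit 0) (nat_lit 0) (nat_lit 1) (nat_lit 0) (nat_lit 1) (nat_lit 0) (nat_lit 226) (nat_lit 457) (nat_lit 397)) (XT.lf (nat_lit 0) (nat_lit 1892158128324) (nat_lit 0) (nat_lit 0) (nat_lit 0) (nat_lit 0) (nat_lit 0) (nat_lit 0) (nat_lit 1) (nat_lit 0) (nat_lit 1) (nat_lit 0) (nat_lit 227) (nat_lit 457) (nat_lit 396)))))) (XT.nd (nat_lit 470) (nat_lit 0) (nat_lit 0) (XT.nd (nat_lit 188) (nat_lit 0) (nat_lit 0) (XT.nd (nat_lit 94) (nat_lit 0) (nat_lit 0) (XT.lf (nat_lit 0) (nat_lit 1890888076920)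 (nat_lit 0) (nat_lit 0) (nat_lit 0) (nat_lit 0) (nat_lit 0) (nat_lit 0) (nat_lit 1) (nat_lit 0) (nat_lit 1) (nat_lit 0) (nat_lit 228) (nat_lit 457) (nat_lit 395)) (XT.lf (nat_lit 0) (nat_lit 1889712103398) (nat_lit 0) (nat_lit 0) (nat_lit 0) (nat_lit 0) (nat_lit 0) (nat_lit 0) (nat_lit 1) (nat_lit 0) (nat_lit 1) (nat_lit 0) (nat_lit 229) (nat_lit 457) (nat_lit 394))) (XT.nd (nat_lit 94) (nat_lit 0) (nat_lit 0) (XT.lf (nat_lit 0) (nat_lit 1888623239025) (nat_lit 0) (nat_lit 0) (nat_lit 0) (nat_lit 0) (nat_lit 0) (nat_lit 0) (nat_lit 1) (nat_lit 0) (nat_lit 1) (nat_lit 0) (nat_lit 230) (nat_lit 457) (nat_lit 393)) (XT.nd (nat_lit 94) (nat_lit 0) (nat_lit 0) (XT.lf (nat_lit 0) (nat_lit 1887615031273) (nat_lit 0) (nat_lit 0) (nat_lit 0) (nat_lit 0) (nat_lit 0) (nat_lit 0) (nat_lit 1) (nat_lit 0) (nat_lit 1) (nat_lit 0) (nat_lit 231) (nat_lit 457) (nat_lit 392))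 (XT.lf (nat_lit 0) (nat_lit 1886681505577) (nat_lit 0) (nat_lit 0) (nat_lit 0) (nat_lit 0) (nat_lit 0) (nat_lit 0) (nat_lit 1) (nat_lit 0) (nat_lit 1) (nat_lit 0) (nat_lit 232) (nat_lit 457) (nat_lit 391))))) (XT.nd (nat_lit 188) (nat_lit 0) (nat_lit 0) (XT.nd (nat_lit 94) (nat_lit 0) (nat_lit 0) (XT.lf (nat_lit 0) (nat_lit 1885817129932) (nat_lit 0) (nat_lit 0) (nat_lit 0) (nat_lit 0) (nat_lit 0) (nat_lit 0) (nat_lit 1) (nat_lit 0) (nat_lit 1) (nat_lit 0) (nat_lit 233) (nat_lit 457) (nat_lit 390)) (XT.lf (nat_lit 0) (nat_lit 1885016782112) (nat_lit 0) (nat_lit 0) (nat_lit 0) (nat_lit 0) (nat_lit 0) (nat_lit 0) (nat_lit 1) (nat_lit 0) (nat_lit 1) (nat_lit 0) (nat_lit 234) (nat_lit 457) (nat_lit 389))) (XT.nd (nat_lit 94) (nat_lit 0) (nat_lit 0) (XT.lf (nat_lit 0) (nat_lit 1884275719316) (nat_lit 0) (nat_lit 0) (nat_lit 0) (nat_lit 0) (nat_lit 0) (nat_lit 0)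 (nat_lit 1) (nat_lit 0) (nat_lit 1) (nat_lit 0) (nat_lit 235) (nat_lit 457) (nat_lit 388)) (XT.nd (nat_lit 94) (nat_lit 0) (nat_lit 0) (XT.lf (nat_lit 0) (nat_lit 1883589550061) (nat_lit 0) (nat_lit 0) (nat_lit 0) (nat_lit 0) (nat_lit 0) (nat_lit 0) (nat_lit 1) (nat_lit 0) (nat_lit 1) (nat_lit 0) (nat_lit 236) (nat_lit 457) (nat_lit 387)) (XT.lf (nat_lit 0) (nat_lit 1882954208158) (nat_lit 0) (nat_lit 0) (nat_lit 0) (nat_lit 0) (nat_lit 0) (nat_lit 0) (nat_lit 1) (nat_lit 0) (nat_lit 1) (nat_lit 0) (nat_lit 237) (nat_lit 457) (nat_lit 386))))))) (XT.nd (nat_lit 846) (nat_lit 0) (nat_lit 0) (XT.nd (nat_lit 376) (nat_lit 0) (nat_lit 0) (XT.nd (nat_lit 188) (nat_lit 0) (nat_lit 0) (XT.nd (nat_lit 94) (nat_lit 0) (nat_lit 0) (XT.lf (nat_lit 0) (nat_lit 1882365928618) (nat_lit 0) (nat_lit 0) (nat_lit 0) (nat_lit 0) (nat_lit 0) (nat_lit 0) (nat_lit 1) (nat_lit 0)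 (nat_lit 1) (nat_lit 0) (nat_lit 238) (nat_lit 457) (nat_lit 385)) (XT.lf (nat_lit 0) (nat_lit 1881821225340) (nat_lit 0) (nat_lit 0) (nat_lit 0) (nat_lit 0) (nat_lit 0) (nat_lit 0) (nat_lit 1) (nat_lit 0) (nat_lit 1) (nat_lit 0) (nat_lit 239) (nat_lit 457) (nat_lit 384))) (XT.nd (nat_lit 94) (nat_lit 0) (nat_lit 0) (XT.lf (nat_lit 0) (nat_lit 1881316870454) (nat_lit 0) (nat_lit 0) (nat_lit 0) (nat_lit 0) (nat_lit 0) (nat_lit 0) (nat_lit 1) (nat_lit 0) (nat_lit 1) (nat_lit 0) (nat_lit 240) (nat_lit 457) (nat_lit 383)) (XT.lf (nat_lit 0) (nat_lit 1880849875188) (nat_lit 0) (nat_lit 0) (nat_lit 0) (nat_lit 0) (nat_lit 0) (nat_lit 0) (nat_lit 1) (nat_lit 0) (nat_lit 1) (nat_lit 0) (nat_lit 241) (nat_lit 457) (nat_lit 382)))) (XT.nd (nat_lit 188) (nat_lit 0) (nat_lit 0) (XT.nd (nat_lit 94) (nat_lit 0) (nat_lit 0) (XT.lf (nat_lit 0) (nat_lit 1880417472164) (nat_lit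 0) (nat_lit 0) (nat_lit 0) (nat_lit 0) (nat_lit 0) (nat_lit 0) (nat_lit 1) (nat_lit 0) (nat_lit 1) (nat_lit 0) (nat_lit 242) (nat_lit 457) (nat_lit 381)) (XT.lf (nat_lit 0) (nat_lit 1880017098994) (nat_lit 0) (nat_lit 0) (nat_lit 0) (nat_lit 0) (nat_lit 0) (nat_lit 0) (nat_lit 1) (nat_lit 0) (nat_lit 1) (nat_lit 0) (nat_lit 243) (nat_lit 457) (nat_lit 380))) (XT.nd (nat_lit 94) (nat_lit 0) (nat_lit 0) (XT.lf (nat_lit 0) (nat_lit 1879646383096) (nat_lit 0) (nat_lit 0) (nat_lit 0) (nat_lit 0) (nat_lit 0) (nat_lit 0) (nat_lit 1) (nat_lit 0) (nat_lit 1) (nat_lit 0) (nat_lit 244) (nat_lit 457) (nat_lit 379)) (XT.nd (nat_lit 94) (nat_lit 0) (nat_lit 0) (XT.lf (nat_lit 0) (nat_lit 1879303127635) (nat_lit 0) (nat_lit 0) (nat_lit 0) (nat_lit 0) (nat_lit 0) (nat_lit 0) (nat_lit 1) (nat_lit 0) (nat_lit 1) (nat_lit 0) (nat_lit 245) (nat_lit 457) (nat_lit 378)) (XT.lf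 (nat_lit 0) (nat_lit 1878985298504) (nat_lit 0) (nat_lit 0) (nat_lit 0) (nat_lit 0) (nat_lit 0) (nat_lit 0) (nat_lit 1) (nat_lit 0) (nat_lit 1) (nat_lit 0) (nat_lit 246) (nat_lit 457) (nat_lit 377)))))) (XT.nd (nat_lit 470) (nat_lit 0) (nat_lit 0) (XT.nd (nat_lit 188) (nat_lit 0) (nat_lit 0) (XT.nd (nat_lit 94) (nat_lit 0) (nat_lit 0) (XT.lf (nat_lit 0) (nat_lit 1878691012272) (nat_lit 0) (nat_lit 0) (nat_lit 0) (nat_lit 0) (nat_lit 0) (nat_lit 0) (nat_lit 1) (nat_lit 0) (nat_lit 1) (nat_lit 0) (nat_lit 247) (nat_lit 457) (nat_lit 376)) (XT.lf (nat_lit 0) (nat_lit 1878418525020) (nat_lit 0) (nat_lit 0) (nat_lit 0) (nat_lit 0) (nat_lit 0) (nat_lit 0) (nat_lit 1) (nat_lit 0) (nat_lit 1) (nat_lit 0) (nat_lit 248) (nat_lit 457) (nat_lit 375))) (XT.nd (nat_lit 94) (nat_lit 0) (nat_lit 0) (XT.lf (nat_lit 0) (nat_lit 1878166222009) (nat_lit 0) (nat_lit 0) (nat_lit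 0) (nat_lit 0) (nat_lit 0) (nat_lit 0) (nat_lit 1) (nat_lit 0) (nat_lit 1) (nat_lit 0) (nat_lit 249) (nat_lit 457) (nat_lit 374)) (XT.nd (nat_lit 94) (nat_lit 0) (nat_lit 0) (XT.lf (nat_lit 0) (nat_lit 1877932608110) (nat_lit 0) (nat_lit 0) (nat_lit 0) (nat_lit 0) (nat_lit 0) (nat_lit 0) (nat_lit 1) (nat_lit 0) (nat_lit 1) (nat_lit 0) (nat_lit 250) (nat_lit 457) (nat_lit 373)) (XT.lf (nat_lit 0) (nat_lit 1877716298944) (nat_lit 0) (nat_lit 0) (nat_lit 0) (nat_lit 0) (nat_lit 0) (nat_lit 0) (nat_lit 1) (nat_lit 0) (nat_lit 1) (nat_lit 0) (nat_lit 251) (nat_lit 457) (nat_lit 372))))) (XT.nd (nat_lit 188) (nat_lit 0) (nat_lit 0) (XT.nd (nat_lit 94) (nat_lit 0) (nat_lit 0) (XT.lf (nat_lit 0) (nat_lit 1877516012679) (nat_lit 0) (nat_lit 0) (nat_lit 0) (nat_lit 0) (nat_lit 0) (nat_lit 0) (nat_lit 1) (nat_lit 0) (nat_lit 1) (nat_lit 0) (nat_lit 252) (nat_lit 457)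 (nat_lit 371)) (XT.lf (nat_lit 0) (nat_lit 1877330562434) (nat_lit 0) (nat_lit 0) (nat_lit 0) (nat_lit 0) (nat_lit 0) (nat_lit 0) (nat_lit 1) (nat_lit 0) (nat_lit 1) (nat_lit 0) (nat_lit 253) (nat_lit 457) (nat_lit 370))) (XT.nd (nat_lit 94) (nat_lit 0) (nat_lit 0) (XT.lf (nat_lit 0) (nat_lit 1877158849244) (nat_lit 0) (nat_lit 0) (nat_lit 0) (nat_lit 0) (nat_lit 0) (nat_lit 0) (nat_lit 1) (nat_lit 0) (nat_lit 1) (nat_lit 0) (nat_lit 254) (nat_lit 457) (nat_lit 369)) (XT.nd (nat_lit 94) (nat_lit 0) (nat_lit 0) (XT.lf (nat_lit 0) (nat_lit 1876999855549) (nat_lit 0) (nat_lit 0) (nat_lit 0) (nat_lit 0) (nat_lit 0) (nat_lit 0) (nat_lit 1) (nat_lit 0) (nat_lit 1) (nat_lit 0) (nat_lit 255) (nat_lit 457) (nat_lit 368)) (XT.lf (nat_lit 0) (nat_lit 1876852639166) (nat_lit 0) (nat_lit 0) (nat_lit 0) (nat_lit 0) (nat_lit 0) (nat_lit 0) (nat_lit 1) (nat_lit 0) (nat_lit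 1) (nat_lit 0) (nat_lit 256) (nat_lit 457) (nat_lit 367))))))))
noncomputable def ec476 : XT := (XT.nd (nat_lit 1692) (nat_lit 0) (nat_lit 0) (XT.nd (nat_lit 846) (nat_lit 0) (nat_lit 0) (XT.nd (nat_lit 376) (nat_lit 0) (nat_lit 0) (XT.nd (nat_lit 188) (nat_lit 0) (nat_lit 0) (XT.nd (nat_lit 94) (nat_lit 0) (nat_lit 0) (XT.lf (nat_lit 0) (nat_lit 1876716327699) (nat_lit 0) (nat_lit 0) (nat_lit 0) (nat_lit 0) (nat_lit 0) (nat_lit 0) (nat_lit 1) (nat_lit 0) (nat_lit 1) (nat_lit 0) (nat_lit 257) (nat_lit 457) (nat_lit 366)) (XT.lf (nat_lit 0) (nat_lit 1876590113378) (nat_lit 0) (nat_lit 0) (nat_lit 0) (nat_lit 0) (nat_lit 0) (nat_lit 0) (nat_lit 1) (nat_lit 0) (nat_lit 1) (nat_lit 0) (nat_lit 258) (nat_lit 457) (nat_lit 365))) (XT.nd (nat_lit 94) (nat_lit 0) (nat_lit 0) (XT.lf (nat_lit 0) (nat_lit 1876473248267) (nat_lit 0) (nat_lit 0) (nat_lit 0) (nat_lit 0)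 (nat_lit 0) (nat_lit 0) (nat_lit 1) (nat_lit 0) (nat_lit 1) (nat_lit 0) (nat_lit 259) (nat_lit 457) (nat_lit 364)) (XT.lf (nat_lit 0) (nat_lit 1876365039830) (nat_lit 0) (nat_lit 0) (nat_lit 0) (nat_lit 0) (nat_lit 0) (nat_lit 0) (nat_lit 1) (nat_lit 0) (nat_lit 1) (nat_lit 0) (nat_lit 260) (nat_lit 457) (nat_lit 363)))) (XT.nd (nat_lit 188) (nat_lit 0) (nat_lit 0) (XT.nd (nat_lit 94) (nat_lit 0) (nat_lit 0) (XT.lf (nat_lit 0) (nat_lit 1876264846833) (nat_lit 0) (nat_lit 0) (nat_lit 0) (nat_lit 0) (nat_lit 0) (nat_lit 0) (nat_lit 1) (nat_lit 0) (nat_lit 1) (nat_lit 0) (nat_lit 261) (nat_lit 457) (nat_lit 362)) (XT.lf (nat_lit 0) (nat_lit 1876172075539) (nat_lit 0) (nat_lit 0) (nat_lit 0) (nat_lit 0) (nat_lit 0) (nat_lit 0) (nat_lit 1) (nat_lit 0) (nat_lit 1) (nat_lit 0) (nat_lit 262) (nat_lit 457) (nat_lit 361))) (XT.nd (nat_lit 94) (nat_lit 0) (nat_lit 0)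 (XT.lf (nat_lit 0) (nat_lit 1876086176193) (nat_lit 0) (nat_lit 0) (nat_lit 0) (nat_lit 0) (nat_lit 0) (nat_lit 0) (nat_lit 1) (nat_lit 0) (nat_lit 1) (nat_lit 0) (nat_lit 263) (nat_lit 457) (nat_lit 360)) (XT.nd (nat_lit 94) (nat_lit 0) (nat_lit 0) (XT.lf (nat_lit 0) (nat_lit 1876006639762) (nat_lit 0) (nat_lit 0) (nat_lit 0) (nat_lit 0) (nat_lit 0) (nat_lit 0) (nat_lit 1) (nat_lit 0) (nat_lit 1) (nat_lit 0) (nat_lit 264) (nat_lit 457) (nat_lit 359)) (XT.lf (nat_lit 0) (nat_lit 1875932994918) (nat_lit 0) (nat_lit 0) (nat_lit 0) (nat_lit 0) (nat_lit 0) (nat_lit 0) (nat_lit 1) (nat_lit 0) (nat_lit 1) (nat_lit 0) (nat_lit 265) (nat_lit 457) (nat_lit 358)))))) (XT.nd (nat_lit 376) (nat_lit 0) (nat_lit 0) (XT.nd (nat_lit 188) (nat_lit 0) (nat_lit 0) (XT.nd (nat_lit 94) (nat_lit 0) (nat_lit 0) (XT.lf (nat_lit 0) (nat_lit 1875864805248) (nat_lit 0) (nat_lit 0) (nat_lit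 0) (nat_lit 0) (nat_lit 0) (nat_lit 0) (nat_lit 1) (nat_lit 0) (nat_lit 1) (nat_lit 0) (nat_lit 266) (nat_lit 457) (nat_lit 357)) (XT.lf (nat_lit 0) (nat_lit 1875801666664) (nat_lit 0) (nat_lit 0) (nat_lit 0) (nat_lit 0) (nat_lit 0) (nat_lit 0) (nat_lit 1) (nat_lit 0) (nat_lit 1) (nat_lit 0) (nat_lit 267) (nat_lit 457) (nat_lit 356))) (XT.nd (nat_lit 94) (nat_lit 0) (nat_lit 0) (XT.lf (nat_lit 0) (nat_lit 1875743205013) (nat_lit 0) (nat_lit 0) (nat_lit 0) (nat_lit 0) (nat_lit 0) (nat_lit 0) (nat_lit 1) (nat_lit 0) (nat_lit 1) (nat_lit 0) (nat_lit 268) (nat_lit 457) (nat_lit 355)) (XT.lf (nat_lit 0) (nat_lit 1875689073854) (nat_lit 0) (nat_lit 0) (nat_lit 0) (nat_lit 0) (nat_lit 0) (nat_lit 0) (nat_lit 1) (nat_lit 0) (nat_lit 1) (nat_lit 0) (nat_lit 269) (nat_lit 457) (nat_lit 354)))) (XT.nd (nat_lit 188) (nat_lit 0) (nat_lit 0) (XT.nd (nat_lit 94) (nat_lit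 0) (nat_lit 0) (XT.lf (nat_lit 0) (nat_lit 1875638952411) (nat_lit 0) (nat_lit 0) (nat_lit 0) (nat_lit 0) (nat_lit 0) (nat_lit 0) (nat_lit 1) (nat_lit 0) (nat_lit 1) (nat_lit 0) (nat_lit 270) (nat_lit 457) (nat_lit 353)) (XT.lf (nat_lit 0) (nat_lit 1875592543667) (nat_lit 0) (nat_lit 0) (nat_lit 0) (nat_lit 0) (nat_lit 0) (nat_lit 0) (nat_lit 1) (nat_lit 0) (nat_lit 1) (nat_lit 0) (nat_lit 271) (nat_lit 457) (nat_lit 352))) (XT.nd (nat_lit 94) (nat_lit 0) (nat_lit 0) (XT.lf (nat_lit 0) (nat_lit 1875549572608) (nat_lit 0) (nat_lit 0) (nat_lit 0) (nat_lit 0) (nat_lit 0) (nat_lit 0) (nat_lit 1) (nat_lit 0) (nat_lit 1) (nat_lit 0) (nat_lit 272) (nat_lit 457) (nat_lit 351)) (XT.nd (nat_lit 94) (nat_lit 0) (nat_lit 0) (XT.lf (nat_lit 0) (nat_lit 1875509784590) (nat_lit 0) (nat_lit 0) (nat_lit 0) (nat_lit 0) (nat_lit 0) (nat_lit 0) (nat_lit 1) (nat_lit 0) (nat_lit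 1) (nat_lit 0) (nat_lit 273) (nat_lit 457) (nat_lit 350)) (XT.lf (nat_lit 0) (nat_lit 1875472943833) (nat_lit 0) (nat_lit 0) (nat_lit 0) (nat_lit 0) (nat_lit 0) (nat_lit 0) (nat_lit 1) (nat_lit 0) (nat_lit 1) (nat_lit 0) (nat_lit 274) (nat_lit 457) (nat_lit 349))))))) (XT.nd (nat_lit 846) (nat_lit 0) (nat_lit 0) (XT.nd (nat_lit 376) (nat_lit 0) (nat_lit 0) (XT.nd (nat_lit 188) (nat_lit 0) (nat_lit 0) (XT.nd (nat_lit 94) (nat_lit 0) (nat_lit 0) (XT.lf (nat_lit 0) (nat_lit 1875438832021) (nat_lit 0) (nat_lit 0) (nat_lit 0) (nat_lit 0) (nat_lit 0) (nat_lit 0) (nat_lit 1) (nat_lit 0) (nat_lit 1) (nat_lit 0) (nat_lit 275) (nat_lit 457) (nat_lit 348)) (XT.lf (nat_lit 0) (nat_lit 1875407247010) (nat_lit 0) (nat_lit 0) (nat_lit 0) (nat_lit 0) (nat_lit 0) (nat_lit 0) (nat_lit 1) (nat_lit 0) (nat_lit 1) (nat_lit 0) (nat_lit 276) (nat_lit 457) (nat_lit 347))) (XT.nd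 (nat_lit 94) (nat_lit 0) (nat_lit 0) (XT.lf (nat_lit 0) (nat_lit 1875378001629) (nat_lit 0) (nat_lit 0) (nat_lit 0) (nat_lit 0) (nat_lit 0) (nat_lit 0) (nat_lit 1) (nat_lit 0) (nat_lit 1) (nat_lit 0) (nat_lit 277) (nat_lit 457) (nat_lit 346)) (XT.lf (nat_lit 0) (nat_lit 1875350922573) (nat_lit 0) (nat_lit 0) (nat_lit 0) (nat_lit 0) (nat_lit 0) (nat_lit 0) (nat_lit 1) (nat_lit 0) (nat_lit 1) (nat_lit 0) (nat_lit 278) (nat_lit 457) (nat_lit 345)))) (XT.nd (nat_lit 188) (nat_lit 0) (nat_lit 0) (XT.nd (nat_lit 94) (nat_lit 0) (nat_lit 0) (XT.lf (nat_lit 0) (nat_lit 1875325849372) (nat_lit 0) (nat_lit 0) (nat_lit 0) (nat_lit 0) (nat_lit 0) (nat_lit 0) (nat_lit 1) (nat_lit 0) (nat_lit 1) (nat_lit 0) (nat_lit 279) (nat_lit 457) (nat_lit 344)) (XT.lf (nat_lit 0) (nat_lit 1875302633446) (nat_lit 0) (nat_lit 0) (nat_lit 0) (nat_lit 0) (nat_lit 0) (nat_lit 0) (nat_lit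 1) (nat_lit 0) (nat_lit 1) (nat_lit 0) (nat_lit 280) (nat_lit 457) (nat_lit 343))) (XT.nd (nat_lit 94) (nat_lit 0) (nat_lit 0) (XT.lf (nat_lit 0) (nat_lit 1875281137218) (nat_lit 0) (nat_lit 0) (nat_lit 0) (nat_lit 0) (nat_lit 0) (nat_lit 0) (nat_lit 1) (nat_lit 0) (nat_lit 1) (nat_lit 0) (nat_lit 281) (nat_lit 457) (nat_lit 342)) (XT.nd (nat_lit 94) (nat_lit 0) (nat_lit 0) (XT.lf (nat_lit 0) (nat_lit 1875261233304) (nat_lit 0) (nat_lit 0) (nat_lit 0) (nat_lit 0) (nat_lit 0) (nat_lit 0) (nat_lit 1) (nat_lit 0) (nat_lit 1) (nat_lit 0) (nat_lit 282) (nat_lit 457) (nat_lit 341)) (XT.lf (nat_lit 0) (nat_lit 1875242803753) (nat_lit 0) (nat_lit 0) (nat_lit 0) (nat_lit 0) (nat_lit 0) (nat_lit 0) (nat_lit 1) (nat_lit 0) (nat_lit 1) (nat_lit 0) (nat_lit 283) (nat_lit 457) (nat_lit 340)))))) (XT.nd (nat_lit 470) (nat_lit 0) (nat_lit 0) (XT.nd (nat_lit 188) (nat_lit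 0) (nat_lit 0) (XT.nd (nat_lit 94) (nat_lit 0) (nat_lit 0) (XT.lf (nat_lit 0) (nat_lit 1875225739354) (nat_lit 0) (nat_lit 0) (nat_lit 0) (nat_lit 0) (nat_lit 0) (nat_lit 0) (nat_lit 1) (nat_lit 0) (nat_lit 1) (nat_lit 0) (nat_lit 284) (nat_lit 457) (nat_lit 339)) (XT.lf (nat_lit 0) (nat_lit 1875209938985) (nat_lit 0) (nat_lit 0) (nat_lit 0) (nat_lit 0) (nat_lit 0) (nat_lit 0) (nat_lit 1) (nat_lit 0) (nat_lit 1) (nat_lit 0) (nat_lit 285) (nat_lit 457) (nat_lit 338))) (XT.nd (nat_lit 94) (nat_lit 0) (nat_lit 0) (XT.lf (nat_lit 0) (nat_lit 1875195309013) (nat_lit 0) (nat_lit 0) (nat_lit 0) (nat_lit 0) (nat_lit 0) (nat_lit 0) (nat_lit 1) (nat_lit 0) (nat_lit 1) (nat_lit 0) (nat_lit 286) (nat_lit 457) (nat_lit 337)) (XT.nd (nat_lit 94) (nat_lit 0) (nat_lit 0) (XT.lf (nat_lit 0) (nat_lit 1875181762743) (nat_lit 0) (nat_lit 0) (nat_lit 0) (nat_lit 0) (nat_lit 0)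 (nat_lit 0) (nat_lit 1) (nat_lit 0) (nat_lit 1) (nat_lit 0) (nat_lit 287) (nat_lit 457) (nat_lit 336)) (XT.lf (nat_lit 0) (nat_lit 1875169219901) (nat_lit 0) (nat_lit 0) (nat_lit 0) (nat_lit 0) (nat_lit 0) (nat_lit 0) (nat_lit 1) (nat_lit 0) (nat_lit 1) (nat_lit 0) (nat_lit 288) (nat_lit 457) (nat_lit 335))))) (XT.nd (nat_lit 188) (nat_lit 0) (nat_lit 0) (XT.nd (nat_lit 94) (nat_lit 0) (nat_lit 0) (XT.lf (nat_lit 0) (nat_lit 1875157606158) (nat_lit 0) (nat_lit 0) (nat_lit 0) (nat_lit 0) (nat_lit 0) (nat_lit 0) (nat_lit 1) (nat_lit 0) (nat_lit 1) (nat_lit 0) (nat_lit 289) (nat_lit 457) (nat_lit 334)) (XT.lf (nat_lit 0) (nat_lit 1875146852692) (nat_lit 0) (nat_lit 0) (nat_lit 0) (nat_lit 0) (nat_lit 0) (nat_lit 0) (nat_lit 1) (nat_lit 0) (nat_lit 1) (nat_lit 0) (nat_lit 290) (nat_lit 457) (nat_lit 333))) (XT.nd (nat_lit 94) (nat_lit 0) (nat_lit 0) (XT.lf (nat_lit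 0) (nat_lit 1875136895779) (nat_lit 0) (nat_lit 0) (nat_lit 0) (nat_lit 0) (nat_lit 0) (nat_lit 0) (nat_lit 1) (nat_lit 0) (nat_lit 1) (nat_lit 0) (nat_lit 291) (nat_lit 457) (nat_lit 332)) (XT.nd (nat_lit 94) (nat_lit 0) (nat_lit 0) (XT.lf (nat_lit 0) (nat_lit 1875127676415) (nat_lit 0) (nat_lit 0) (nat_lit 0) (nat_lit 0) (nat_lit 0) (nat_lit 0) (nat_lit 1) (nat_lit 0) (nat_lit 1) (nat_lit 0) (nat_lit 292) (nat_lit 457) (nat_lit 331)) (XT.lf (nat_lit 0) (nat_lit 1875119139968) (nat_lit 0) (nat_lit 0) (nat_lit 0) (nat_lit 0) (nat_lit 0) (nat_lit 0) (nat_lit 1) (nat_lit 0) (nat_lit 1) (nat_lit 0) (nat_lit 293) (nat_lit 457) (nat_lit 330))))))))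
noncomputable def ec477 : XT := (XT.nd (nat_lit 3666) (nat_lit 0) (nat_lit 0) (XT.nd (nat_lit 2726) (nat_lit 0) (nat_lit 0) (XT.nd (nat_lit 376) (nat_lit 0) (nat_lit 0) (XT.nd (nat_lit 188) (nat_lit 0) (nat_lit 0) (XT.nd (nat_lit 94) (nat_lit 0) (nat_lit 0) (XT.lf (nat_lit 0) (nat_lit 1875111235849) (nat_lit 0) (nat_lit 0) (nat_lit 0) (nat_lit 0) (nat_lit 0) (nat_lit 0) (nat_lit 1) (nat_lit 0) (nat_lit 1) (nat_lit 0) (nat_lit 294) (nat_lit 457) (nat_lit 329)) (XT.lf (nat_lit 0) (nat_lit 1875103917221) (nat_lit 0) (nat_lit 0) (nat_lit 0) (nat_lit 0) (nat_lit 0) (nat_lit 0) (nat_lit 1) (nat_lit 0) (nat_lit 1) (nat_lit 0) (nat_lit 295) (nat_lit 457) (nat_lit 328))) (XT.nd (nat_lit 94) (nat_lit 0) (nat_lit 0) (XT.lf (nat_lit 0) (nat_lit 1875097140714) (nat_lit 0) (nat_lit 0) (nat_lit 0) (nat_lit 0) (nat_lit 0) (nat_lit 0) (nat_lit 1) (nat_lit 0) (nat_lit 1) (nat_lit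 0) (nat_lit 296) (nat_lit 457) (nat_lit 327)) (XT.lf (nat_lit 0) (nat_lit 1875090866169) (nat_lit 0) (nat_lit 0) (nat_lit 0) (nat_lit 0) (nat_lit 0) (nat_lit 0) (nat_lit 1) (nat_lit 0) (nat_lit 1) (nat_lit 0) (nat_lit 297) (nat_lit 457) (nat_lit 326)))) (XT.nd (nat_lit 188) (nat_lit 0) (nat_lit 0) (XT.nd (nat_lit 94) (nat_lit 0) (nat_lit 0) (XT.lf (nat_lit 0) (nat_lit 1875085056407) (nat_lit 0) (nat_lit 0) (nat_lit 0) (nat_lit 0) (nat_lit 0) (nat_lit 0) (nat_lit 1) (nat_lit 0) (nat_lit 1) (nat_lit 0) (nat_lit 298) (nat_lit 457) (nat_lit 325)) (XT.lf (nat_lit 0) (nat_lit 1875079676996) (nat_lit 0) (nat_lit 0) (nat_lit 0) (nat_lit 0) (nat_lit 0) (nat_lit 0) (nat_lit 1) (nat_lit 0) (nat_lit 1) (nat_lit 0) (nat_lit 299) (nat_lit 457) (nat_lit 324))) (XT.nd (nat_lit 94) (nat_lit 0) (nat_lit 0) (XT.lf (nat_lit 0) (nat_lit 1875074696061) (nat_lit 0) (nat_lit 0) (nat_lit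 0) (nat_lit 0) (nat_lit 0) (nat_lit 0) (nat_lit 1) (nat_lit 0) (nat_lit 1) (nat_lit 0) (nat_lit 300) (nat_lit 457) (nat_lit 323)) (XT.nd (nat_lit 1974) (nat_lit 0) (nat_lit 0) (XT.lf (nat_lit 0) (nat_lit 1875070084084) (nat_lit 0) (nat_lit 0) (nat_lit 0) (nat_lit 0) (nat_lit 0) (nat_lit 0) (nat_lit 1) (nat_lit 0) (nat_lit 1) (nat_lit 0) (nat_lit 301) (nat_lit 457) (nat_lit 322)) (XT.lf (nat_lit 0) (nat_lit 1875023886816) (nat_lit 0) (nat_lit 0) (nat_lit 0) (nat_lit 0) (nat_lit 0) (nat_lit 0) (nat_lit 1) (nat_lit 0) (nat_lit 1) (nat_lit 0) (nat_lit 322) (nat_lit 457) (nat_lit 301)))))) (XT.nd (nat_lit 470) (nat_lit 0) (nat_lit 0) (XT.nd (nat_lit 188) (nat_lit 0) (nat_lit 0) (XT.nd (nat_lit 94) (nat_lit 0) (nat_lit 0) (XT.lf (nat_lit 0) (nat_lit 1875023038487) (nat_lit 0) (nat_lit 0) (nat_lit 0) (nat_lit 0) (nat_lit 0) (nat_lit 0) (nat_lit 1) (nat_lit 0) (nat_lit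 1) (nat_lit 0) (nat_lit 323) (nat_lit 457) (nat_lit 300)) (XT.lf (nat_lit 0) (nat_lit 1875022252997) (nat_lit 0) (nat_lit 0) (nat_lit 0) (nat_lit 0) (nat_lit 0) (nat_lit 0) (nat_lit 1) (nat_lit 0) (nat_lit 1) (nat_lit 0) (nat_lit 324) (nat_lit 457) (nat_lit 299))) (XT.nd (nat_lit 94) (nat_lit 0) (nat_lit 0) (XT.lf (nat_lit 0) (nat_lit 1875021525691) (nat_lit 0) (nat_lit 0) (nat_lit 0) (nat_lit 0) (nat_lit 0) (nat_lit 0) (nat_lit 1) (nat_lit 0) (nat_lit 1) (nat_lit 0) (nat_lit 325) (nat_lit 457) (nat_lit 298)) (XT.nd (nat_lit 94) (nat_lit 0) (nat_lit 0) (XT.lf (nat_lit 0) (nat_lit 1875020852260) (nat_lit 0) (nat_lit 0) (nat_lit 0) (nat_lit 0) (nat_lit 0) (nat_lit 0) (nat_lit 1) (nat_lit 0) (nat_lit 1) (nat_lit 0) (nat_lit 326) (nat_lit 457) (nat_lit 297)) (XT.lf (nat_lit 0) (nat_lit 1875020228712) (nat_lit 0) (nat_lit 0) (nat_lit 0) (nat_lit 0) (nat_lit 0)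 (nat_lit 0) (nat_lit 1) (nat_lit 0) (nat_lit 1) (nat_lit 0) (nat_lit 327) (nat_lit 457) (nat_lit 296))))) (XT.nd (nat_lit 188) (nat_lit 0) (nat_lit 0) (XT.nd (nat_lit 94) (nat_lit 0) (nat_lit 0) (XT.lf (nat_lit 0) (nat_lit 1875019651354) (nat_lit 0) (nat_lit 0) (nat_lit 0) (nat_lit 0) (nat_lit 0) (nat_lit 0) (nat_lit 1) (nat_lit 0) (nat_lit 1) (nat_lit 0) (nat_lit 328) (nat_lit 457) (nat_lit 295)) (XT.lf (nat_lit 0) (nat_lit 1875019116762) (nat_lit 0) (nat_lit 0) (nat_lit 0) (nat_lit 0) (nat_lit 0) (nat_lit 0) (nat_lit 1) (nat_lit 0) (nat_lit 1) (nat_lit 0) (nat_lit 329) (nat_lit 457) (nat_lit 294))) (XT.nd (nat_lit 94) (nat_lit 0) (nat_lit 0) (XT.lf (nat_lit 0) (nat_lit 1875018621770) (nat_lit 0) (nat_lit 0) (nat_lit 0) (nat_lit 0) (nat_lit 0) (nat_lit 0) (nat_lit 1) (nat_lit 0) (nat_lit 1) (nat_lit 0) (nat_lit 330) (nat_lit 457) (nat_lit 293)) (XT.nd (nat_lit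 94) (nat_lit 0) (nat_lit 0) (XT.lf (nat_lit 0) (nat_lit 1875018163444) (nat_lit 0) (nat_lit 0) (nat_lit 0) (nat_lit 0) (nat_lit 0) (nat_lit 0) (nat_lit 1) (nat_lit 0) (nat_lit 1) (nat_lit 0) (nat_lit 331) (nat_lit 457) (nat_lit 292)) (XT.lf (nat_lit 0) (nat_lit 1875017739068) (nat_lit 0) (nat_lit 0) (nat_lit 0) (nat_lit 0) (nat_lit 0) (nat_lit 0) (nat_lit 1) (nat_lit 0) (nat_lit 1) (nat_lit 0) (nat_lit 332) (nat_lit 457) (nat_lit 291))))))) (XT.nd (nat_lit 846) (nat_lit 0) (nat_lit 0) (XT.nd (nat_lit 376) (nat_lit 0) (nat_lit 0) (XT.nd (nat_lit 188) (nat_lit 0) (nat_lit 0) (XT.nd (nat_lit 94) (nat_lit 0) (nat_lit 0) (XT.lf (nat_lit 0) (nat_lit 1875017346128) (nat_lit 0) (nat_lit 0) (nat_lit 0) (nat_lit 0) (nat_lit 0) (nat_lit 0) (nat_lit 1) (nat_lit 0) (nat_lit 1) (nat_lit 0) (nat_lit 333) (nat_lit 457) (nat_lit 290)) (XT.lf (nat_lit 0) (nat_lit 1875016982294)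 (nat_lit 0) (nat_lit 0) (nat_lit 0) (nat_lit 0) (nat_lit 0) (nat_lit 0) (nat_lit 1) (nat_lit 0) (nat_lit 1) (nat_lit 0) (nat_lit 334) (nat_lit 457) (nat_lit 289))) (XT.nd (nat_lit 94) (nat_lit 0) (nat_lit 0) (XT.lf (nat_lit 0) (nat_lit 1875016645410) (nat_lit 0) (nat_lit 0) (nat_lit 0) (nat_lit 0) (nat_lit 0) (nat_lit 0) (nat_lit 1) (nat_lit 0) (nat_lit 1) (nat_lit 0) (nat_lit 335) (nat_lit 457) (nat_lit 288)) (XT.lf (nat_lit 0) (nat_lit 1875016333481) (nat_lit 0) (nat_lit 0) (nat_lit 0) (nat_lit 0) (nat_lit 0) (nat_lit 0) (nat_lit 1) (nat_lit 0) (nat_lit 1) (nat_lit 0) (nat_lit 336) (nat_lit 457) (nat_lit 287)))) (XT.nd (nat_lit 188) (nat_lit 0) (nat_lit 0) (XT.nd (nat_lit 94) (nat_lit 0) (nat_lit 0) (XT.lf (nat_lit 0) (nat_lit 1875016044658) (nat_lit 0) (nat_lit 0) (nat_lit 0) (nat_lit 0) (nat_lit 0) (nat_lit 0) (nat_lit 1) (nat_lit 0) (nat_lit 1) (nat_lit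 0) (nat_lit 337) (nat_lit 457) (nat_lit 286)) (XT.lf (nat_lit 0) (nat_lit 1875015777229) (nat_lit 0) (nat_lit 0) (nat_lit 0) (nat_lit 0) (nat_lit 0) (nat_lit 0) (nat_lit 1) (nat_lit 0) (nat_lit 1) (nat_lit 0) (nat_lit 338) (nat_lit 457) (nat_lit 285))) (XT.nd (nat_lit 94) (nat_lit 0) (nat_lit 0) (XT.lf (nat_lit 0) (nat_lit 1875015529610) (nat_lit 0) (nat_lit 0) (nat_lit 0) (nat_lit 0) (nat_lit 0) (nat_lit 0) (nat_lit 1) (nat_lit 0) (nat_lit 1) (nat_lit 0) (nat_lit 339) (nat_lit 457) (nat_lit 284)) (XT.nd (nat_lit 94) (nat_lit 0) (nat_lit 0) (XT.lf (nat_lit 0) (nat_lit 1875015300333) (nat_lit 0) (nat_lit 0) (nat_lit 0) (nat_lit 0) (nat_lit 0) (nat_lit 0) (nat_lit 1) (nat_lit 0) (nat_lit 1) (nat_lit 0) (nat_lit 340) (nat_lit 457) (nat_lit 283)) (XT.lf (nat_lit 0) (nat_lit 1875015088039) (nat_lit 0) (nat_lit 0) (nat_lit 0) (nat_lit 0) (nat_lit 0) (nat_lit 0)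 (nat_lit 1) (nat_lit 0) (nat_lit 1) (nat_lit 0) (nat_lit 341) (nat_lit 457) (nat_lit 282)))))) (XT.nd (nat_lit 470) (nat_lit 0) (nat_lit 0) (XT.nd (nat_lit 188) (nat_lit 0) (nat_lit 0) (XT.nd (nat_lit 94) (nat_lit 0) (nat_lit 0) (XT.lf (nat_lit 0) (nat_lit 1875014891471) (nat_lit 0) (nat_lit 0) (nat_lit 0) (nat_lit 0) (nat_lit 0) (nat_lit 0) (nat_lit 1) (nat_lit 0) (nat_lit 1) (nat_lit 0) (nat_lit 342) (nat_lit 457) (nat_lit 281)) (XT.lf (nat_lit 0) (nat_lit 1875014709464) (nat_lit 0) (nat_lit 0) (nat_lit 0) (nat_lit 0) (nat_lit 0) (nat_lit 0) (nat_lit 1) (nat_lit 0) (nat_lit 1) (nat_lit 0) (nat_lit 343) (nat_lit 457) (nat_lit 280))) (XT.nd (nat_lit 94) (nat_lit 0) (nat_lit 0) (XT.lf (nat_lit 0) (nat_lit 1875014540938) (nat_lit 0) (nat_lit 0) (nat_lit 0) (nat_lit 0) (nat_lit 0) (nat_lit 0) (nat_lit 1) (nat_lit 0) (nat_lit 1) (nat_lit 0) (nat_lit 344) (nat_lit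 457) (nat_lit 279)) (XT.nd (nat_lit 94) (nat_lit 0) (nat_lit 0) (XT.lf (nat_lit 0) (nat_lit 1875014384896) (nat_lit 0) (nat_lit 0) (nat_lit 0) (nat_lit 0) (nat_lit 0) (nat_lit 0) (nat_lit 1) (nat_lit 0) (nat_lit 1) (nat_lit 0) (nat_lit 345) (nat_lit 457) (nat_lit 278)) (XT.lf (nat_lit 0) (nat_lit 1875014240413) (nat_lit 0) (nat_lit 0) (nat_lit 0) (nat_lit 0) (nat_lit 0) (nat_lit 0) (nat_lit 1) (nat_lit 0) (nat_lit 1) (nat_lit 0) (nat_lit 346) (nat_lit 457) (nat_lit 277))))) (XT.nd (nat_lit 188) (nat_lit 0) (nat_lit 0) (XT.nd (nat_lit 94) (nat_lit 0) (nat_lit 0) (XT.lf (nat_lit 0) (nat_lit 1875014106632) (nat_lit 0) (nat_lit 0) (nat_lit 0) (nat_lit 0) (nat_lit 0) (nat_lit 0) (nat_lit 1) (nat_lit 0) (nat_lit 1) (nat_lit 0) (nat_lit 347) (nat_lit 457) (nat_lit 276)) (XT.lf (nat_lit 0) (nat_lit 1875013982760) (nat_lit 0) (nat_lit 0) (nat_lit 0) (nat_lit 0) (nat_lit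 0) (nat_lit 0) (nat_lit 1) (nat_lit 0) (nat_lit 1) (nat_lit 0) (nat_lit 348) (nat_lit 457) (nat_lit 275))) (XT.nd (nat_lit 94) (nat_lit 0) (nat_lit 0) (XT.lf (nat_lit 0) (nat_lit 1875013868065) (nat_lit 0) (nat_lit 0) (nat_lit 0) (nat_lit 0) (nat_lit 0) (nat_lit 0) (nat_lit 1) (nat_lit 0) (nat_lit 1) (nat_lit 0) (nat_lit 349) (nat_lit 457) (nat_lit 274)) (XT.nd (nat_lit 94) (nat_lit 0) (nat_lit 0) (XT.lf (nat_lit 0) (nat_lit 1875013761865) (nat_lit 0) (nat_lit 0) (nat_lit 0) (nat_lit 0) (nat_lit 0) (nat_lit 0) (nat_lit 1) (nat_lit 0) (nat_lit 1) (nat_lit 0) (nat_lit 350) (nat_lit 457) (nat_lit 273)) (XT.lf (nat_lit 0) (nat_lit 1875013663532) (nat_lit 0) (nat_lit 0) (nat_lit 0) (nat_lit 0) (nat_lit 0) (nat_lit 0) (nat_lit 1) (nat_lit 0) (nat_lit 1) (nat_lit 0) (nat_lit 351) (nat_lit 457) (nat_lit 272))))))))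
noncomputable def ec478 : XT := (XT.nd (nat_lit 1692) (nat_lit 0) (nat_lit 0) (XT.nd (nat_lit 846) (nat_lit 0) (nat_lit 0) (XT.nd (nat_lit 376) (nat_lit 0) (nat_lit 0) (XT.nd (nat_lit 188) (nat_lit 0) (nat_lit 0) (XT.nd (nat_lit 94) (nat_lit 0) (nat_lit 0) (XT.lf (nat_lit 0) (nat_lit 1875013572483) (nat_lit 0) (nat_lit 0) (nat_lit 0) (nat_lit 0) (nat_lit 0) (nat_lit 0) (nat_lit 1) (nat_lit 0) (nat_lit 1) (nat_lit 0) (nat_lit 352) (nat_lit 457) (nat_lit 271)) (XT.lf (nat_lit 0) (nat_lit 1875013488178) (nat_lit 0) (nat_lit 0) (nat_lit 0) (nat_lit 0) (nat_lit 0) (nat_lit 0) (nat_lit 1) (nat_lit 0) (nat_lit 1) (nat_lit 0) (nat_lit 353) (nat_lit 457) (nat_lit 270))) (XT.nd (nat_lit 94) (nat_lit 0) (nat_lit 0) (XT.lf (nat_lit 0) (nat_lit 1875013410118) (nat_lit 0) (nat_lit 0) (nat_lit 0) (nat_lit 0) (nat_lit 0) (nat_lit 0) (nat_lit 1) (nat_lit 0) (nat_lit 1) (nat_lit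 0) (nat_lit 354) (nat_lit 457) (nat_lit 269)) (XT.lf (nat_lit 0) (nat_lit 1875013337841) (nat_lit 0) (nat_lit 0) (nat_lit 0) (nat_lit 0) (nat_lit 0) (nat_lit 0) (nat_lit 1) (nat_lit 0) (nat_lit 1) (nat_lit 0) (nat_lit 355) (nat_lit 457) (nat_lit 268)))) (XT.nd (nat_lit 188) (nat_lit 0) (nat_lit 0) (XT.nd (nat_lit 94) (nat_lit 0) (nat_lit 0) (XT.lf (nat_lit 0) (nat_lit 1875013270917) (nat_lit 0) (nat_lit 0) (nat_lit 0) (nat_lit 0) (nat_lit 0) (nat_lit 0) (nat_lit 1) (nat_lit 0) (nat_lit 1) (nat_lit 0) (nat_lit 356) (nat_lit 457) (nat_lit 267)) (XT.lf (nat_lit 0) (nat_lit 1875013208950) (nat_lit 0) (nat_lit 0) (nat_lit 0) (nat_lit 0) (nat_lit 0) (nat_lit 0) (nat_lit 1) (nat_lit 0) (nat_lit 1) (nat_lit 0) (nat_lit 357) (nat_lit 457) (nat_lit 266))) (XT.nd (nat_lit 94) (nat_lit 0) (nat_lit 0) (XT.lf (nat_lit 0) (nat_lit 1875013151574) (nat_lit 0) (nat_lit 0) (nat_lit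 0) (nat_lit 0) (nat_lit 0) (nat_lit 0) (nat_lit 1) (nat_lit 0) (nat_lit 1) (nat_lit 0) (nat_lit 358) (nat_lit 457) (nat_lit 265)) (XT.nd (nat_lit 94) (nat_lit 0) (nat_lit 0) (XT.lf (nat_lit 0) (nat_lit 1875013098448) (nat_lit 0) (nat_lit 0) (nat_lit 0) (nat_lit 0) (nat_lit 0) (nat_lit 0) (nat_lit 1) (nat_lit 0) (nat_lit 1) (nat_lit 0) (nat_lit 359) (nat_lit 457) (nat_lit 264)) (XT.lf (nat_lit 0) (nat_lit 1875013049257) (nat_lit 0) (nat_lit 0) (nat_lit 0) (nat_lit 0) (nat_lit 0) (nat_lit 0) (nat_lit 1) (nat_lit 0) (nat_lit 1) (nat_lit 0) (nat_lit 360) (nat_lit 457) (nat_lit 263)))))) (XT.nd (nat_lit 376) (nat_lit 0) (nat_lit 0) (XT.nd (nat_lit 188) (nat_lit 0) (nat_lit 0) (XT.nd (nat_lit 94) (nat_lit 0) (nat_lit 0) (XT.lf (nat_lit 0) (nat_lit 1875013003709) (nat_lit 0) (nat_lit 0) (nat_lit 0) (nat_lit 0) (nat_lit 0) (nat_lit 0) (nat_lit 1) (nat_lit 0) (nat_lit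 1) (nat_lit 0) (nat_lit 361) (nat_lit 457) (nat_lit 262)) (XT.lf (nat_lit 0) (nat_lit 1875012961536) (nat_lit 0) (nat_lit 0) (nat_lit 0) (nat_lit 0) (nat_lit 0) (nat_lit 0) (nat_lit 1) (nat_lit 0) (nat_lit 1) (nat_lit 0) (nat_lit 362) (nat_lit 457) (nat_lit 261))) (XT.nd (nat_lit 94) (nat_lit 0) (nat_lit 0) (XT.lf (nat_lit 0) (nat_lit 1875012922487) (nat_lit 0) (nat_lit 0) (nat_lit 0) (nat_lit 0) (nat_lit 0) (nat_lit 0) (nat_lit 1) (nat_lit 0) (nat_lit 1) (nat_lit 0) (nat_lit 363) (nat_lit 457) (nat_lit 260)) (XT.lf (nat_lit 0) (nat_lit 1875012886330) (nat_lit 0) (nat_lit 0) (nat_lit 0) (nat_lit 0) (nat_lit 0) (nat_lit 0) (nat_lit 1) (nat_lit 0) (nat_lit 1) (nat_lit 0) (nat_lit 364) (nat_lit 457) (nat_lit 259)))) (XT.nd (nat_lit 188) (nat_lit 0) (nat_lit 0) (XT.nd (nat_lit 94) (nat_lit 0) (nat_lit 0) (XT.lf (nat_lit 0) (nat_lit 1875012852851) (nat_lit 0) (nat_lit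 0) (nat_lit 0) (nat_lit 0) (nat_lit 0) (nat_lit 0) (nat_lit 1) (nat_lit 0) (nat_lit 1) (nat_lit 0) (nat_lit 365) (nat_lit 457) (nat_lit 258)) (XT.lf (nat_lit 0) (nat_lit 1875012821853) (nat_lit 0) (nat_lit 0) (nat_lit 0) (nat_lit 0) (nat_lit 0) (nat_lit 0) (nat_lit 1) (nat_lit 0) (nat_lit 1) (nat_lit 0) (nat_lit 366) (nat_lit 457) (nat_lit 257))) (XT.nd (nat_lit 94) (nat_lit 0) (nat_lit 0) (XT.lf (nat_lit 0) (nat_lit 1875012793150) (nat_lit 0) (nat_lit 0) (nat_lit 0) (nat_lit 0) (nat_lit 0) (nat_lit 0) (nat_lit 1) (nat_lit 0) (nat_lit 1) (nat_lit 0) (nat_lit 367) (nat_lit 457) (nat_lit 256)) (XT.nd (nat_lit 94) (nat_lit 0) (nat_lit 0) (XT.lf (nat_lit 0) (nat_lit 1875012766574) (nat_lit 0) (nat_lit 0) (nat_lit 0) (nat_lit 0) (nat_lit 0) (nat_lit 0) (nat_lit 1) (nat_lit 0) (nat_lit 1) (nat_lit 0) (nat_lit 368) (nat_lit 457) (nat_lit 255)) (XT.lf (nat_lit 0)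 (nat_lit 1875012741966) (nat_lit 0) (nat_lit 0) (nat_lit 0) (nat_lit 0) (nat_lit 0) (nat_lit 0) (nat_lit 1) (nat_lit 0) (nat_lit 1) (nat_lit 0) (nat_lit 369) (nat_lit 457) (nat_lit 254))))))) (XT.nd (nat_lit 846) (nat_lit 0) (nat_lit 0) (XT.nd (nat_lit 376) (nat_lit 0) (nat_lit 0) (XT.nd (nat_lit 188) (nat_lit 0) (nat_lit 0) (XT.nd (nat_lit 94) (nat_lit 0) (nat_lit 0) (XT.lf (nat_lit 0) (nat_lit 1875012719181) (nat_lit 0) (nat_lit 0) (nat_lit 0) (nat_lit 0) (nat_lit 0) (nat_lit 0) (nat_lit 1) (nat_lit 0) (nat_lit 1) (nat_lit 0) (nat_lit 370) (nat_lit 457) (nat_lit 253)) (XT.lf (nat_lit 0) (nat_lit 1875012698084) (nat_lit 0) (nat_lit 0) (nat_lit 0) (nat_lit 0) (nat_lit 0) (nat_lit 0) (nat_lit 1) (nat_lit 0) (nat_lit 1) (nat_lit 0) (nat_lit 371) (nat_lit 457) (nat_lit 252))) (XT.nd (nat_lit 94) (nat_lit 0) (nat_lit 0) (XT.lf (nat_lit 0) (nat_lit 1875012678550)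 (nat_lit 0) (nat_lit 0) (nat_lit 0) (nat_lit 0) (nat_lit 0) (nat_lit 0) (nat_lit 1) (nat_lit 0) (nat_lit 1) (nat_lit 0) (nat_lit 372) (nat_lit 457) (nat_lit 251)) (XT.lf (nat_lit 0) (nat_lit 1875012660462) (nat_lit 0) (nat_lit 0) (nat_lit 0) (nat_lit 0) (nat_lit 0) (nat_lit 0) (nat_lit 1) (nat_lit 0) (nat_lit 1) (nat_lit 0) (nat_lit 373) (nat_lit 457) (nat_lit 250)))) (XT.nd (nat_lit 188) (nat_lit 0) (nat_lit 0) (XT.nd (nat_lit 94) (nat_lit 0) (nat_lit 0) (XT.lf (nat_lit 0) (nat_lit 1875012643714) (nat_lit 0) (nat_lit 0) (nat_lit 0) (nat_lit 0) (nat_lit 0) (nat_lit 0) (nat_lit 1) (nat_lit 0) (nat_lit 1) (nat_lit 0) (nat_lit 374) (nat_lit 457) (nat_lit 249)) (XT.lf (nat_lit 0) (nat_lit 1875012628207) (nat_lit 0) (nat_lit 0) (nat_lit 0) (nat_lit 0) (nat_lit 0) (nat_lit 0) (nat_lit 1) (nat_lit 0) (nat_lit 1) (nat_lit 0) (nat_lit 375) (nat_lit 457) (nat_lit 248)))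 (XT.nd (nat_lit 94) (nat_lit 0) (nat_lit 0) (XT.lf (nat_lit 0) (nat_lit 1875012613849) (nat_lit 0) (nat_lit 0) (nat_lit 0) (nat_lit 0) (nat_lit 0) (nat_lit 0) (nat_lit 1) (nat_lit 0) (nat_lit 1) (nat_lit 0) (nat_lit 376) (nat_lit 457) (nat_lit 247)) (XT.nd (nat_lit 94) (nat_lit 0) (nat_lit 0) (XT.lf (nat_lit 0) (nat_lit 1875012600554) (nat_lit 0) (nat_lit 0) (nat_lit 0) (nat_lit 0) (nat_lit 0) (nat_lit 0) (nat_lit 1) (nat_lit 0) (nat_lit 1) (nat_lit 0) (nat_lit 377) (nat_lit 457) (nat_lit 246)) (XT.lf (nat_lit 0) (nat_lit 1875012588244) (nat_lit 0) (nat_lit 0) (nat_lit 0) (nat_lit 0) (nat_lit 0) (nat_lit 0) (nat_lit 1) (nat_lit 0) (nat_lit 1) (nat_lit 0) (nat_lit 378) (nat_lit 457) (nat_lit 245)))))) (XT.nd (nat_lit 470) (nat_lit 0) (nat_lit 0) (XT.nd (nat_lit 188) (nat_lit 0) (nat_lit 0) (XT.nd (nat_lit 94) (nat_lit 0) (nat_lit 0) (XT.lf (nat_lit 0) (nat_lit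 1875012576846) (nat_lit 0) (nat_lit 0) (nat_lit 0) (nat_lit 0) (nat_lit 0) (nat_lit 0) (nat_lit 1) (nat_lit 0) (nat_lit 1) (nat_lit 0) (nat_lit 379) (nat_lit 457) (nat_lit 244)) (XT.lf (nat_lit 0) (nat_lit 1875012566292) (nat_lit 0) (nat_lit 0) (nat_lit 0) (nat_lit 0) (nat_lit 0) (nat_lit 0) (nat_lit 1) (nat_lit 0) (nat_lit 1) (nat_lit 0) (nat_lit 380) (nat_lit 457) (nat_lit 243))) (XT.nd (nat_lit 94) (nat_lit 0) (nat_lit 0) (XT.lf (nat_lit 0) (nat_lit 1875012556520) (nat_lit 0) (nat_lit 0) (nat_lit 0) (nat_lit 0) (nat_lit 0) (nat_lit 0) (nat_lit 1) (nat_lit 0) (nat_lit 1) (nat_lit 0) (nat_lit 381) (nat_lit 457) (nat_lit 242)) (XT.nd (nat_lit 94) (nat_lit 0) (nat_lit 0) (XT.lf (nat_lit 0) (nat_lit 1875012547472) (nat_lit 0) (nat_lit 0) (nat_lit 0) (nat_lit 0) (nat_lit 0) (nat_lit 0) (nat_lit 1) (nat_lit 0) (nat_lit 1) (nat_lit 0) (nat_lit 382) (nat_lit 457)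 (nat_lit 241)) (XT.lf (nat_lit 0) (nat_lit 1875012539094) (nat_lit 0) (nat_lit 0) (nat_lit 0) (nat_lit 0) (nat_lit 0) (nat_lit 0) (nat_lit 1) (nat_lit 0) (nat_lit 1) (nat_lit 0) (nat_lit 383) (nat_lit 457) (nat_lit 240))))) (XT.nd (nat_lit 188) (nat_lit 0) (nat_lit 0) (XT.nd (nat_lit 94) (nat_lit 0) (nat_lit 0) (XT.lf (nat_lit 0) (nat_lit 1875012531337) (nat_lit 0) (nat_lit 0) (nat_lit 0) (nat_lit 0) (nat_lit 0) (nat_lit 0) (nat_lit 1) (nat_lit 0) (nat_lit 1) (nat_lit 0) (nat_lit 384) (nat_lit 457) (nat_lit 239)) (XT.lf (nat_lit 0) (nat_lit 1875012524154) (nat_lit 0) (nat_lit 0) (nat_lit 0) (nat_lit 0) (nat_lit 0) (nat_lit 0) (nat_lit 1) (nat_lit 0) (nat_lit 1) (nat_lit 0) (nat_lit 385) (nat_lit 457) (nat_lit 238))) (XT.nd (nat_lit 94) (nat_lit 0) (nat_lit 0) (XT.lf (nat_lit 0) (nat_lit 1875012517503) (nat_lit 0) (nat_lit 0) (nat_lit 0) (nat_lit 0) (nat_lit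 0) (nat_lit 0) (nat_lit 1) (nat_lit 0) (nat_lit 1) (nat_lit 0) (nat_lit 386) (nat_lit 457) (nat_lit 237)) (XT.nd (nat_lit 94) (nat_lit 0) (nat_lit 0) (XT.lf (nat_lit 0) (nat_lit 1875012511345) (nat_lit 0) (nat_lit 0) (nat_lit 0) (nat_lit 0) (nat_lit 0) (nat_lit 0) (nat_lit 1) (nat_lit 0) (nat_lit 1) (nat_lit 0) (nat_lit 387) (nat_lit 457) (nat_lit 236)) (XT.lf (nat_lit 0) (nat_lit 1875012505643) (nat_lit 0) (nat_lit 0) (nat_lit 0) (nat_lit 0) (nat_lit 0) (nat_lit 0) (nat_lit 1) (nat_lit 0) (nat_lit 1) (nat_lit 0) (nat_lit 388) (nat_lit 457) (nat_lit 235))))))))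
noncomputable def ec479 : XT := (XT.nd (nat_lit 6298) (nat_lit 0) (nat_lit 0) (XT.nd (nat_lit 846) (nat_lit 0) (nat_lit 0) (XT.nd (nat_lit 376) (nat_lit 0) (nat_lit 0) (XT.nd (nat_lit 188) (nat_lit 0) (nat_lit 0) (XT.nd (nat_lit 94) (nat_lit 0) (nat_lit 0) (XT.lf (nat_lit 0) (nat_lit 1875012500364) (nat_lit 0) (nat_lit 0) (nat_lit 0) (nat_lit 0) (nat_lit 0) (nat_lit 0) (nat_lit 1) (nat_lit 0) (nat_lit 1) (nat_lit 0) (nat_lit 389) (nat_lit 457) (nat_lit 234)) (XT.lf (nat_lit 0) (nat_lit 1875012495475) (nat_lit 0) (nat_lit 0) (nat_lit 0) (nat_lit 0) (nat_lit 0) (nat_lit 0) (nat_lit 1) (nat_lit 0) (nat_lit 1) (nat_lit 0) (nat_lit 390) (nat_lit 457) (nat_lit 233))) (XT.nd (nat_lit 94) (nat_lit 0) (nat_lit 0) (XT.lf (nat_lit 0) (nat_lit 1875012490949) (nat_lit 0) (nat_lit 0) (nat_lit 0) (nat_lit 0) (nat_lit 0) (nat_lit 0) (nat_lit 1) (nat_lit 0) (nat_lit 1) (nat_lit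 0) (nat_lit 391) (nat_lit 457) (nat_lit 232)) (XT.lf (nat_lit 0) (nat_lit 1875012486758) (nat_lit 0) (nat_lit 0) (nat_lit 0) (nat_lit 0) (nat_lit 0) (nat_lit 0) (nat_lit 1) (nat_lit 0) (nat_lit 1) (nat_lit 0) (nat_lit 392) (nat_lit 457) (nat_lit 231)))) (XT.nd (nat_lit 188) (nat_lit 0) (nat_lit 0) (XT.nd (nat_lit 94) (nat_lit 0) (nat_lit 0) (XT.lf (nat_lit 0) (nat_lit 1875012482877) (nat_lit 0) (nat_lit 0) (nat_lit 0) (nat_lit 0) (nat_lit 0) (nat_lit 0) (nat_lit 1) (nat_lit 0) (nat_lit 1) (nat_lit 0) (nat_lit 393) (nat_lit 457) (nat_lit 230)) (XT.lf (nat_lit 0) (nat_lit 1875012479284) (nat_lit 0) (nat_lit 0) (nat_lit 0) (nat_lit 0) (nat_lit 0) (nat_lit 0) (nat_lit 1) (nat_lit 0) (nat_lit 1) (nat_lit 0) (nat_lit 394) (nat_lit 457) (nat_lit 229))) (XT.nd (nat_lit 94) (nat_lit 0) (nat_lit 0) (XT.lf (nat_lit 0) (nat_lit 1875012475957) (nat_lit 0) (nat_lit 0) (nat_lit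 0) (nat_lit 0) (nat_lit 0) (nat_lit 0) (nat_lit 1) (nat_lit 0) (nat_lit 1) (nat_lit 0) (nat_lit 395) (nat_lit 457) (nat_lit 228)) (XT.nd (nat_lit 94) (nat_lit 0) (nat_lit 0) (XT.lf (nat_lit 0) (nat_lit 1875012472876) (nat_lit 0) (nat_lit 0) (nat_lit 0) (nat_lit 0) (nat_lit 0) (nat_lit 0) (nat_lit 1) (nat_lit 0) (nat_lit 1) (nat_lit 0) (nat_lit 396) (nat_lit 457) (nat_lit 227)) (XT.lf (nat_lit 0) (nat_lit 1875012470024) (nat_lit 0) (nat_lit 0) (nat_lit 0) (nat_lit 0) (nat_lit 0) (nat_lit 0) (nat_lit 1) (nat_lit 0) (nat_lit 1) (nat_lit 0) (nat_lit 397) (nat_lit 457) (nat_lit 226)))))) (XT.nd (nat_lit 470) (nat_lit 0) (nat_lit 0) (XT.nd (nat_lit 188) (nat_lit 0) (nat_lit 0) (XT.nd (nat_lit 94) (nat_lit 0) (nat_lit 0) (XT.lf (nat_lit 0) (nat_lit 1875012467383) (nat_lit 0) (nat_lit 0) (nat_lit 0) (nat_lit 0) (nat_lit 0) (nat_lit 0) (nat_lit 1) (nat_lit 0) (nat_lit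 1) (nat_lit 0) (nat_lit 398) (nat_lit 457) (nat_lit 225)) (XT.lf (nat_lit 0) (nat_lit 1875012464937) (nat_lit 0) (nat_lit 0) (nat_lit 0) (nat_lit 0) (nat_lit 0) (nat_lit 0) (nat_lit 1) (nat_lit 0) (nat_lit 1) (nat_lit 0) (nat_lit 399) (nat_lit 457) (nat_lit 224))) (XT.nd (nat_lit 94) (nat_lit 0) (nat_lit 0) (XT.lf (nat_lit 0) (nat_lit 1875012462673) (nat_lit 0) (nat_lit 0) (nat_lit 0) (nat_lit 0) (nat_lit 0) (nat_lit 0) (nat_lit 1) (nat_lit 0) (nat_lit 1) (nat_lit 0) (nat_lit 400) (nat_lit 457) (nat_lit 223)) (XT.nd (nat_lit 94) (nat_lit 0) (nat_lit 0) (XT.lf (nat_lit 0) (nat_lit 1875012460577) (nat_lit 0) (nat_lit 0) (nat_lit 0) (nat_lit 0) (nat_lit 0) (nat_lit 0) (nat_lit 1) (nat_lit 0) (nat_lit 1) (nat_lit 0) (nat_lit 401) (nat_lit 457) (nat_lit 222)) (XT.lf (nat_lit 0) (nat_lit 1875012458635) (nat_lit 0) (nat_lit 0) (nat_lit 0) (nat_lit 0) (nat_lit 0)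 (nat_lit 0) (nat_lit 1) (nat_lit 0) (nat_lit 1) (nat_lit 0) (nat_lit 402) (nat_lit 457) (nat_lit 221))))) (XT.nd (nat_lit 188) (nat_lit 0) (nat_lit 0) (XT.nd (nat_lit 94) (nat_lit 0) (nat_lit 0) (XT.lf (nat_lit 0) (nat_lit 1875012456838) (nat_lit 0) (nat_lit 0) (nat_lit 0) (nat_lit 0) (nat_lit 0) (nat_lit 0) (nat_lit 1) (nat_lit 0) (nat_lit 1) (nat_lit 0) (nat_lit 403) (nat_lit 457) (nat_lit 220)) (XT.lf (nat_lit 0) (nat_lit 1875012455173) (nat_lit 0) (nat_lit 0) (nat_lit 0) (nat_lit 0) (nat_lit 0) (nat_lit 0) (nat_lit 1) (nat_lit 0) (nat_lit 1) (nat_lit 0) (nat_lit 404) (nat_lit 457) (nat_lit 219))) (XT.nd (nat_lit 4606) (nat_lit 0) (nat_lit 0) (XT.lf (nat_lit 0) (nat_lit 1875012453632) (nat_lit 0) (nat_lit 0) (nat_lit 0) (nat_lit 0) (nat_lit 0) (nat_lit 0) (nat_lit 1) (nat_lit 0) (nat_lit 1) (nat_lit 0) (nat_lit 405) (nat_lit 457) (nat_lit 218)) (XT.nd (nat_lit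 94) (nat_lit 0) (nat_lit 0) (XT.lf (nat_lit 0) (nat_lit 1875012434813) (nat_lit 0) (nat_lit 0) (nat_lit 0) (nat_lit 0) (nat_lit 0) (nat_lit 0) (nat_lit 1) (nat_lit 0) (nat_lit 1) (nat_lit 0) (nat_lit 454) (nat_lit 457) (nat_lit 169)) (XT.lf (nat_lit 0) (nat_lit 1875012434780) (nat_lit 0) (nat_lit 0) (nat_lit 0) (nat_lit 0) (nat_lit 0) (nat_lit 0) (nat_lit 1) (nat_lit 0) (nat_lit 1) (nat_lit 0) (nat_lit 455) (nat_lit 457) (nat_lit 168))))))) (XT.nd (nat_lit 45496) (nat_lit 0) (nat_lit 0) (XT.nd (nat_lit 376) (nat_lit 0) (nat_lit 0) (XT.nd (nat_lit 188) (nat_lit 0) (nat_lit 0) (XT.nd (nat_lit 94) (nat_lit 0) (nat_lit 0) (XT.lf (nat_lit 0) (nat_lit 1875012434750) (nat_lit 0) (nat_lit 0) (nat_lit 0) (nat_lit 0) (nat_lit 0) (nat_lit 0) (nat_lit 1) (nat_lit 0) (nat_lit 1) (nat_lit 0) (nat_lit 456) (nat_lit 457) (nat_lit 167)) (XT.lf (nat_lit 0) (nat_lit 1875012434721)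 (nat_lit 0) (nat_lit 0) (nat_lit 0) (nat_lit 0) (nat_lit 0) (nat_lit 0) (nat_lit 1) (nat_lit 0) (nat_lit 1) (nat_lit 0) (nat_lit 457) (nat_lit 457) (nat_lit 166))) (XT.nd (nat_lit 94) (nat_lit 0) (nat_lit 0) (XT.lf (nat_lit 0) (nat_lit 1875012434695) (nat_lit 0) (nat_lit 0) (nat_lit 0) (nat_lit 0) (nat_lit 0) (nat_lit 0) (nat_lit 1) (nat_lit 0) (nat_lit 1) (nat_lit 0) (nat_lit 458) (nat_lit 457) (nat_lit 165)) (XT.lf (nat_lit 0) (nat_lit 1875012434671) (nat_lit 0) (nat_lit 0) (nat_lit 0) (nat_lit 0) (nat_lit 0) (nat_lit 0) (nat_lit 1) (nat_lit 0) (nat_lit 1) (nat_lit 0) (nat_lit 459) (nat_lit 457) (nat_lit 164)))) (XT.nd (nat_lit 40044) (nat_lit 0) (nat_lit 10836) (XT.nd (nat_lit 39950) (nat_lit 0) (nat_lit 10752) (XT.lf (nat_lit 0) (nat_lit 1875012434649) (nat_lit 0) (nat_lit 0) (nat_lit 0) (nat_lit 0) (nat_lit 0) (nat_lit 0) (nat_lit 1) (nat_lit 0) (nat_lit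 1) (nat_lit 0) (nat_lit 460) (nat_lit 457) (nat_lit 163)) (XT.lf (nat_lit 924) (nat_lit 1013392572075) (nat_lit 0) (nat_lit 1799276182344) (nat_lit 924) (nat_lit 1013392572075) (nat_lit 139) (nat_lit 1) (nat_lit 128) (nat_lit 0) (nat_lit 139) (nat_lit 0) (nat_lit 164) (nat_lit 458) (nat_lit 458))) (XT.nd (nat_lit 94) (nat_lit 0) (nat_lit 0) (XT.lf (nat_lit 924) (nat_lit 378026524460) (nat_lit 0) (nat_lit 3532524463856) (nat_lit 840) (nat_lit 3454797123745) (nat_lit 140) (nat_lit 1) (nat_lit 129) (nat_lit 1) (nat_lit 139) (nat_lit 1) (nat_lit 165) (nat_lit 458) (nat_lit 457)) (XT.nd (nat_lit 94) (nat_lit 0) (nat_lit 84) (XT.lf (nat_lit 924) (nat_lit 3471955427104) (nat_lit 84) (nat_lit 2365732824179) (nat_lit 0) (nat_lit 1254676774437) (nat_lit 140) (nat_lit 1) (nat_lit 130) (nat_lit 1) (nat_lit 129) (nat_lit 1) (nat_lit 166) (nat_lit 458) (nat_lit 456)) (XT.lf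 (nat_lit 924) (nat_lit 3000053915702) (nat_lit 84) (nat_lit 991462228904) (nat_lit 0) (nat_lit 2841526560816) (nat_lit 141) (nat_lit 1) (nat_lit 131) (nat_lit 1) (nat_lit 130) (nat_lit 1) (nat_lit 167) (nat_lit 458) (nat_lit 455)))))) (XT.nd (nat_lit 470) (nat_lit 0) (nat_lit 0) (XT.nd (nat_lit 188) (nat_lit 252) (nat_lit 0) (XT.nd (nat_lit 94) (nat_lit 84) (nat_lit 0) (XT.lf (nat_lit 84) (nat_lit 1219741057505) (nat_lit 0) (nat_lit 172166748269) (nat_lit 168) (nat_lit 96809264043) (nat_lit 5) (nat_lit 1) (nat_lit 4) (nat_lit 1) (nat_lit 6) (nat_lit 1) (nat_lit 219) (nat_lit 458) (nat_lit 403)) (XT.lf (nat_lit 0) (nat_lit 510190187524) (nat_lit 0) (nat_lit 906796094046) (nat_lit 168) (nat_lit 33412897331) (nat_lit 3) (nat_lit 3) (nat_lit 3) (nat_lit 1) (nat_lit 5) (nat_lit 1) (nat_lit 220) (nat_lit 458) (nat_lit 402))) (XT.nd (nat_lit 94) (nat_lit 0) (nat_lit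 0) (XT.lf (nat_lit 0) (nat_lit 2050206078643) (nat_lit 0) (nat_lit 0) (nat_lit 0) (nat_lit 0) (nat_lit 0) (nat_lit 0) (nat_lit 1) (nat_lit 0) (nat_lit 1) (nat_lit 0) (nat_lit 221) (nat_lit 458) (nat_lit 401)) (XT.nd (nat_lit 94) (nat_lit 0) (nat_lit 0) (XT.lf (nat_lit 0) (nat_lit 2048339956456) (nat_lit 0) (nat_lit 0) (nat_lit 0) (nat_lit 0) (nat_lit 0) (nat_lit 0) (nat_lit 1) (nat_lit 0) (nat_lit 1) (nat_lit 0) (nat_lit 222) (nat_lit 458) (nat_lit 400)) (XT.lf (nat_lit 0) (nat_lit 2046612065542) (nat_lit 0) (nat_lit 0) (nat_lit 0) (nat_lit 0) (nat_lit 0) (nat_lit 0) (nat_lit 1) (nat_lit 0) (nat_lit 1) (nat_lit 0) (nat_lit 223) (nat_lit 458) (nat_lit 399))))) (XT.nd (nat_lit 188) (nat_lit 0) (nat_lit 0) (XT.nd (nat_lit 94) (nat_lit 0) (nat_lit 0) (XT.lf (nat_lit 0) (nat_lit 2045012166548) (nat_lit 0) (nat_lit 0) (nat_lit 0) (nat_lit 0) (nat_lit 0) (nat_lit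 0) (nat_lit 1) (nat_lit 0) (nat_lit 1) (nat_lit 0) (nat_lit 224) (nat_lit 458) (nat_lit 398)) (XT.lf (nat_lit 0) (nat_lit 2043530778590) (nat_lit 0) (nat_lit 0) (nat_lit 0) (nat_lit 0) (nat_lit 0) (nat_lit 0) (nat_lit 1) (nat_lit 0) (nat_lit 1) (nat_lit 0) (nat_lit 225) (nat_lit 458) (nat_lit 397))) (XT.nd (nat_lit 94) (nat_lit 0) (nat_lit 0) (XT.lf (nat_lit 0) (nat_lit 2042159123074) (nat_lit 0) (nat_lit 0) (nat_lit 0) (nat_lit 0) (nat_lit 0) (nat_lit 0) (nat_lit 1) (nat_lit 0) (nat_lit 1) (nat_lit 0) (nat_lit 226) (nat_lit 458) (nat_lit 396)) (XT.nd (nat_lit 94) (nat_lit 0) (nat_lit 0) (XT.lf (nat_lit 0) (nat_lit 2040889071670) (nat_lit 0) (nat_lit 0) (nat_lit 0) (nat_lit 0) (nat_lit 0) (nat_lit 0) (nat_lit 1) (nat_lit 0) (nat_lit 1) (nat_lit 0) (nat_lit 227) (nat_lit 458) (nat_lit 395)) (XT.lf (nat_lit 0) (nat_lit 2039713098147) (nat_lit 0) (nat_lit 0)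 (nat_lit 0) (nat_lit 0) (nat_lit 0) (nat_lit 0) (nat_lit 1) (nat_lit 0) (nat_lit 1) (nat_lit 0) (nat_lit 228) (nat_lit 458) (nat_lit 394))))))))
noncomputable def ec480 : XT := (XT.nd (nat_lit 1692) (nat_lit 0) (nat_lit 0) (XT.nd (nat_lit 846) (nat_lit 0) (nat_lit 0) (XT.nd (nat_lit 376) (nat_lit 0) (nat_lit 0) (XT.nd (nat_lit 188) (nat_lit 0) (nat_lit 0) (XT.nd (nat_lit 94) (nat_lit 0) (nat_lit 0) (XT.lf (nat_lit 0) (nat_lit 2038624233775) (nat_lit 0) (nat_lit 0) (nat_lit 0) (nat_lit 0) (nat_lit 0) (nat_lit 0) (nat_lit 1) (nat_lit 0) (nat_lit 1) (nat_lit 0) (nat_lit 229) (nat_lit 458) (nat_lit 393)) (XT.lf (nat_lit 0) (nat_lit 2037616026023) (nat_lit 0) (nat_lit 0) (nat_lit 0) (nat_lit 0) (nat_lit 0) (nat_lit 0) (nat_lit 1) (nat_lit 0) (nat_lit 1) (nat_lit 0) (nat_lit 230) (nat_lit 458) (nat_lit 392))) (XT.nd (nat_lit 94) (nat_lit 0) (nat_lit 0) (XT.lf (nat_lit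 0) (nat_lit 2036682500326) (nat_lit 0) (nat_lit 0) (nat_lit 0) (nat_lit 0) (nat_lit 0) (nat_lit 0) (nat_lit 1) (nat_lit 0) (nat_lit 1) (nat_lit 0) (nat_lit 231) (nat_lit 458) (nat_lit 391)) (XT.lf (nat_lit 0) (nat_lit 2035818124681) (nat_lit 0) (nat_lit 0) (nat_lit 0) (nat_lit 0) (nat_lit 0) (nat_lit 0) (nat_lit 1) (nat_lit 0) (nat_lit 1) (nat_lit 0) (nat_lit 232) (nat_lit 458) (nat_lit 390)))) (XT.nd (nat_lit 188) (nat_lit 0) (nat_lit 0) (XT.nd (nat_lit 94) (nat_lit 0) (nat_lit 0) (XT.lf (nat_lit 0) (nat_lit 2035017776862) (nat_lit 0) (nat_lit 0) (nat_lit 0) (nat_lit 0) (nat_lit 0) (nat_lit 0) (nat_lit 1) (nat_lit 0) (nat_lit 1) (nat_lit 0) (nat_lit 233) (nat_lit 458) (nat_lit 389)) (XT.lf (nat_lit 0) (nat_lit 2034276714066) (nat_lit 0) (nat_lit 0) (nat_lit 0) (nat_lit 0) (nat_lit 0) (nat_lit 0) (nat_lit 1) (nat_lit 0) (nat_lit 1) (nat_lit 0) (nat_lit 234)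 (nat_lit 458) (nat_lit 388))) (XT.nd (nat_lit 94) (nat_lit 0) (nat_lit 0) (XT.lf (nat_lit 0) (nat_lit 2033590544811) (nat_lit 0) (nat_lit 0) (nat_lit 0) (nat_lit 0) (nat_lit 0) (nat_lit 0) (nat_lit 1) (nat_lit 0) (nat_lit 1) (nat_lit 0) (nat_lit 235) (nat_lit 458) (nat_lit 387)) (XT.nd (nat_lit 94) (nat_lit 0) (nat_lit 0) (XT.lf (nat_lit 0) (nat_lit 2032955202907) (nat_lit 0) (nat_lit 0) (nat_lit 0) (nat_lit 0) (nat_lit 0) (nat_lit 0) (nat_lit 1) (nat_lit 0) (nat_lit 1) (nat_lit 0) (nat_lit 236) (nat_lit 458) (nat_lit 386)) (XT.lf (nat_lit 0) (nat_lit 2032366923368) (nat_lit 0) (nat_lit 0) (nat_lit 0) (nat_lit 0) (nat_lit 0) (nat_lit 0) (nat_lit 1) (nat_lit 0) (nat_lit 1) (nat_lit 0) (nat_lit 237) (nat_lit 458) (nat_lit 385)))))) (XT.nd (nat_lit 376) (nat_lit 0) (nat_lit 0) (XT.nd (nat_lit 188) (nat_lit 0) (nat_lit 0) (XT.nd (nat_lit 94) (nat_lit 0) (nat_lit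 0) (XT.lf (nat_lit 0) (nat_lit 2031822220090) (nat_lit 0) (nat_lit 0) (nat_lit 0) (nat_lit 0) (nat_lit 0) (nat_lit 0) (nat_lit 1) (nat_lit 0) (nat_lit 1) (nat_lit 0) (nat_lit 238) (nat_lit 458) (nat_lit 384)) (XT.lf (nat_lit 0) (nat_lit 2031317865203) (nat_lit 0) (nat_lit 0) (nat_lit 0) (nat_lit 0) (nat_lit 0) (nat_lit 0) (nat_lit 1) (nat_lit 0) (nat_lit 1) (nat_lit 0) (nat_lit 239) (nat_lit 458) (nat_lit 383))) (XT.nd (nat_lit 94) (nat_lit 0) (nat_lit 0) (XT.lf (nat_lit 0) (nat_lit 2030850869938) (nat_lit 0) (nat_lit 0) (nat_lit 0) (nat_lit 0) (nat_lit 0) (nat_lit 0) (nat_lit 1) (nat_lit 0) (nat_lit 1) (nat_lit 0) (nat_lit 240) (nat_lit 458) (nat_lit 382)) (XT.lf (nat_lit 0) (nat_lit 2030418466914) (nat_lit 0) (nat_lit 0) (nat_lit 0) (nat_lit 0) (nat_lit 0) (nat_lit 0) (nat_lit 1) (nat_lit 0) (nat_lit 1) (nat_lit 0) (nat_lit 241) (nat_lit 458) (nat_lit 381))))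 (XT.nd (nat_lit 188) (nat_lit 0) (nat_lit 0) (XT.nd (nat_lit 94) (nat_lit 0) (nat_lit 0) (XT.lf (nat_lit 0) (nat_lit 2030018093744) (nat_lit 0) (nat_lit 0) (nat_lit 0) (nat_lit 0) (nat_lit 0) (nat_lit 0) (nat_lit 1) (nat_lit 0) (nat_lit 1) (nat_lit 0) (nat_lit 242) (nat_lit 458) (nat_lit 380)) (XT.lf (nat_lit 0) (nat_lit 2029647377846) (nat_lit 0) (nat_lit 0) (nat_lit 0) (nat_lit 0) (nat_lit 0) (nat_lit 0) (nat_lit 1) (nat_lit 0) (nat_lit 1) (nat_lit 0) (nat_lit 243) (nat_lit 458) (nat_lit 379))) (XT.nd (nat_lit 94) (nat_lit 0) (nat_lit 0) (XT.lf (nat_lit 0) (nat_lit 2029304122385) (nat_lit 0) (nat_lit 0) (nat_lit 0) (nat_lit 0) (nat_lit 0) (nat_lit 0) (nat_lit 1) (nat_lit 0) (nat_lit 1) (nat_lit 0) (nat_lit 244) (nat_lit 458) (nat_lit 378)) (XT.nd (nat_lit 94) (nat_lit 0) (nat_lit 0) (XT.lf (nat_lit 0) (nat_lit 2028986293254) (nat_lit 0) (nat_lit 0) (nat_lit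 0) (nat_lit 0) (nat_lit 0) (nat_lit 0) (nat_lit 1) (nat_lit 0) (nat_lit 1) (nat_lit 0) (nat_lit 245) (nat_lit 458) (nat_lit 377)) (XT.lf (nat_lit 0) (nat_lit 2028692007022) (nat_lit 0) (nat_lit 0) (nat_lit 0) (nat_lit 0) (nat_lit 0) (nat_lit 0) (nat_lit 1) (nat_lit 0) (nat_lit 1) (nat_lit 0) (nat_lit 246) (nat_lit 458) (nat_lit 376))))))) (XT.nd (nat_lit 846) (nat_lit 0) (nat_lit 0) (XT.nd (nat_lit 376) (nat_lit 0) (nat_lit 0) (XT.nd (nat_lit 188) (nat_lit 0) (nat_lit 0) (XT.nd (nat_lit 94) (nat_lit 0) (nat_lit 0) (XT.lf (nat_lit 0) (nat_lit 2028419519770) (nat_lit 0) (nat_lit 0) (nat_lit 0) (nat_lit 0) (nat_lit 0) (nat_lit 0) (nat_lit 1) (nat_lit 0) (nat_lit 1) (nat_lit 0) (nat_lit 247) (nat_lit 458) (nat_lit 375)) (XT.lf (nat_lit 0) (nat_lit 2028167216758) (nat_lit 0) (nat_lit 0) (nat_lit 0) (nat_lit 0) (nat_lit 0) (nat_lit 0) (nat_lit 1) (nat_lit 0) (nat_lit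 1) (nat_lit 0) (nat_lit 248) (nat_lit 458) (nat_lit 374))) (XT.nd (nat_lit 94) (nat_lit 0) (nat_lit 0) (XT.lf (nat_lit 0) (nat_lit 2027933602859) (nat_lit 0) (nat_lit 0) (nat_lit 0) (nat_lit 0) (nat_lit 0) (nat_lit 0) (nat_lit 1) (nat_lit 0) (nat_lit 1) (nat_lit 0) (nat_lit 249) (nat_lit 458) (nat_lit 373)) (XT.lf (nat_lit 0) (nat_lit 2027717293693) (nat_lit 0) (nat_lit 0) (nat_lit 0) (nat_lit 0) (nat_lit 0) (nat_lit 0) (nat_lit 1) (nat_lit 0) (nat_lit 1) (nat_lit 0) (nat_lit 250) (nat_lit 458) (nat_lit 372)))) (XT.nd (nat_lit 188) (nat_lit 0) (nat_lit 0) (XT.nd (nat_lit 94) (nat_lit 0) (nat_lit 0) (XT.lf (nat_lit 0) (nat_lit 2027517007428) (nat_lit 0) (nat_lit 0) (nat_lit 0) (nat_lit 0) (nat_lit 0) (nat_lit 0) (nat_lit 1) (nat_lit 0) (nat_lit 1) (nat_lit 0) (nat_lit 251) (nat_lit 458) (nat_lit 371)) (XT.lf (nat_lit 0) (nat_lit 2027331557183) (nat_lit 0) (nat_lit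 0) (nat_lit 0) (nat_lit 0) (nat_lit 0) (nat_lit 0) (nat_lit 1) (nat_lit 0) (nat_lit 1) (nat_lit 0) (nat_lit 252) (nat_lit 458) (nat_lit 370))) (XT.nd (nat_lit 94) (nat_lit 0) (nat_lit 0) (XT.lf (nat_lit 0) (nat_lit 2027159843993) (nat_lit 0) (nat_lit 0) (nat_lit 0) (nat_lit 0) (nat_lit 0) (nat_lit 0) (nat_lit 1) (nat_lit 0) (nat_lit 1) (nat_lit 0) (nat_lit 253) (nat_lit 458) (nat_lit 369)) (XT.nd (nat_lit 94) (nat_lit 0) (nat_lit 0) (XT.lf (nat_lit 0) (nat_lit 2027000850299) (nat_lit 0) (nat_lit 0) (nat_lit 0) (nat_lit 0) (nat_lit 0) (nat_lit 0) (nat_lit 1) (nat_lit 0) (nat_lit 1) (nat_lit 0) (nat_lit 254) (nat_lit 458) (nat_lit 368)) (XT.lf (nat_lit 0) (nat_lit 2026853633915) (nat_lit 0) (nat_lit 0) (nat_lit 0) (nat_lit 0) (nat_lit 0) (nat_lit 0) (nat_lit 1) (nat_lit 0) (nat_lit 1) (nat_lit 0) (nat_lit 255) (nat_lit 458) (nat_lit 367)))))) (XT.nd (nat_lit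 470) (nat_lit 0) (nat_lit 0) (XT.nd (nat_lit 188) (nat_lit 0) (nat_lit 0) (XT.nd (nat_lit 94) (nat_lit 0) (nat_lit 0) (XT.lf (nat_lit 0) (nat_lit 2026717322449) (nat_lit 0) (nat_lit 0) (nat_lit 0) (nat_lit 0) (nat_lit 0) (nat_lit 0) (nat_lit 1) (nat_lit 0) (nat_lit 1) (nat_lit 0) (nat_lit 256) (nat_lit 458) (nat_lit 366)) (XT.lf (nat_lit 0) (nat_lit 2026591108128) (nat_lit 0) (nat_lit 0) (nat_lit 0) (nat_lit 0) (nat_lit 0) (nat_lit 0) (nat_lit 1) (nat_lit 0) (nat_lit 1) (nat_lit 0) (nat_lit 257) (nat_lit 458) (nat_lit 365))) (XT.nd (nat_lit 94) (nat_lit 0) (nat_lit 0) (XT.lf (nat_lit 0) (nat_lit 2026474243016) (nat_lit 0) (nat_lit 0) (nat_lit 0) (nat_lit 0) (nat_lit 0) (nat_lit 0) (nat_lit 1) (nat_lit 0) (nat_lit 1) (nat_lit 0) (nat_lit 258) (nat_lit 458) (nat_lit 364)) (XT.nd (nat_lit 94) (nat_lit 0) (nat_lit 0) (XT.lf (nat_lit 0) (nat_lit 2026366034579)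 (nat_lit 0) (nat_lit 0) (nat_lit 0) (nat_lit 0) (nat_lit 0) (nat_lit 0) (nat_lit 1) (nat_lit 0) (nat_lit 1) (nat_lit 0) (nat_lit 259) (nat_lit 458) (nat_lit 363)) (XT.lf (nat_lit 0) (nat_lit 2026265841582) (nat_lit 0) (nat_lit 0) (nat_lit 0) (nat_lit 0) (nat_lit 0) (nat_lit 0) (nat_lit 1) (nat_lit 0) (nat_lit 1) (nat_lit 0) (nat_lit 260) (nat_lit 458) (nat_lit 362))))) (XT.nd (nat_lit 188) (nat_lit 0) (nat_lit 0) (XT.nd (nat_lit 94) (nat_lit 0) (nat_lit 0) (XT.lf (nat_lit 0) (nat_lit 2026173070289) (nat_lit 0) (nat_lit 0) (nat_lit 0) (nat_lit 0) (nat_lit 0) (nat_lit 0) (nat_lit 1) (nat_lit 0) (nat_lit 1) (nat_lit 0) (nat_lit 261) (nat_lit 458) (nat_lit 361)) (XT.lf (nat_lit 0) (nat_lit 2026087170943) (nat_lit 0) (nat_lit 0) (nat_lit 0) (nat_lit 0) (nat_lit 0) (nat_lit 0) (nat_lit 1) (nat_lit 0) (nat_lit 1) (nat_lit 0) (nat_lit 262) (nat_lit 458) (nat_lit 360)))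 (XT.nd (nat_lit 94) (nat_lit 0) (nat_lit 0) (XT.lf (nat_lit 0) (nat_lit 2026007634511) (nat_lit 0) (nat_lit 0) (nat_lit 0) (nat_lit 0) (nat_lit 0) (nat_lit 0) (nat_lit 1) (nat_lit 0) (nat_lit 1) (nat_lit 0) (nat_lit 263) (nat_lit 458) (nat_lit 359)) (XT.nd (nat_lit 94) (nat_lit 0) (nat_lit 0) (XT.lf (nat_lit 0) (nat_lit 2025933989668) (nat_lit 0) (nat_lit 0) (nat_lit 0) (nat_lit 0) (nat_lit 0) (nat_lit 0) (nat_lit 1) (nat_lit 0) (nat_lit 1) (nat_lit 0) (nat_lit 264) (nat_lit 458) (nat_lit 358)) (XT.lf (nat_lit 0) (nat_lit 2025865799997) (nat_lit 0) (nat_lit 0) (nat_lit 0) (nat_lit 0) (nat_lit 0) (nat_lit 0) (nat_lit 1) (nat_lit 0) (nat_lit 1) (nat_lit 0) (nat_lit 265) (nat_lit 458) (nat_lit 357))))))))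
noncomputable def ec481 : XT := (XT.nd (nat_lit 1786) (nat_lit 0) (nat_lit 0) (XT.nd (nat_lit 846) (nat_lit 0) (nat_lit 0) (XT.nd (nat_lit 376) (nat_lit 0) (nat_lit 0) (XT.nd (nat_lit 188) (nat_lit 0) (nat_lit 0) (XT.nd (nat_lit 94) (nat_lit 0) (nat_lit 0) (XT.lf (nat_lit 0) (nat_lit 2025802661414) (nat_lit 0) (nat_lit 0) (nat_lit 0) (nat_lit 0) (nat_lit 0) (nat_lit 0) (nat_lit 1) (nat_lit 0) (nat_lit 1) (nat_lit 0) (nat_lit 266) (nat_lit 458) (nat_lit 356)) (XT.lf (nat_lit 0) (nat_lit 2025744199762) (nat_lit 0) (nat_lit 0) (nat_lit 0) (nat_lit 0) (nat_lit 0) (nat_lit 0) (nat_lit 1) (nat_lit 0) (nat_lit 1) (nat_lit 0) (nat_lit 267) (nat_lit 458) (nat_lit 355))) (XT.nd (nat_lit 94) (nat_lit 0) (nat_lit 0) (XT.lf (nat_lit 0) (nat_lit 2025690068603) (nat_lit 0) (nat_lit 0) (nat_lit 0) (nat_lit 0) (nat_lit 0) (nat_lit 0) (nat_lit 1) (nat_lit 0) (nat_lit 1) (nat_lit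 0) (nat_lit 268) (nat_lit 458) (nat_lit 354)) (XT.lf (nat_lit 0) (nat_lit 2025639947160) (nat_lit 0) (nat_lit 0) (nat_lit 0) (nat_lit 0) (nat_lit 0) (nat_lit 0) (nat_lit 1) (nat_lit 0) (nat_lit 1) (nat_lit 0) (nat_lit 269) (nat_lit 458) (nat_lit 353)))) (XT.nd (nat_lit 188) (nat_lit 0) (nat_lit 0) (XT.nd (nat_lit 94) (nat_lit 0) (nat_lit 0) (XT.lf (nat_lit 0) (nat_lit 2025593538416) (nat_lit 0) (nat_lit 0) (nat_lit 0) (nat_lit 0) (nat_lit 0) (nat_lit 0) (nat_lit 1) (nat_lit 0) (nat_lit 1) (nat_lit 0) (nat_lit 270) (nat_lit 458) (nat_lit 352)) (XT.lf (nat_lit 0) (nat_lit 2025550567357) (nat_lit 0) (nat_lit 0) (nat_lit 0) (nat_lit 0) (nat_lit 0) (nat_lit 0) (nat_lit 1) (nat_lit 0) (nat_lit 1) (nat_lit 0) (nat_lit 271) (nat_lit 458) (nat_lit 351))) (XT.nd (nat_lit 94) (nat_lit 0) (nat_lit 0) (XT.lf (nat_lit 0) (nat_lit 2025510779340) (nat_lit 0) (nat_lit 0) (nat_lit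 0) (nat_lit 0) (nat_lit 0) (nat_lit 0) (nat_lit 1) (nat_lit 0) (nat_lit 1) (nat_lit 0) (nat_lit 272) (nat_lit 458) (nat_lit 350)) (XT.nd (nat_lit 94) (nat_lit 0) (nat_lit 0) (XT.lf (nat_lit 0) (nat_lit 2025473938583) (nat_lit 0) (nat_lit 0) (nat_lit 0) (nat_lit 0) (nat_lit 0) (nat_lit 0) (nat_lit 1) (nat_lit 0) (nat_lit 1) (nat_lit 0) (nat_lit 273) (nat_lit 458) (nat_lit 349)) (XT.lf (nat_lit 0) (nat_lit 2025439826770) (nat_lit 0) (nat_lit 0) (nat_lit 0) (nat_lit 0) (nat_lit 0) (nat_lit 0) (nat_lit 1) (nat_lit 0) (nat_lit 1) (nat_lit 0) (nat_lit 274) (nat_lit 458) (nat_lit 348)))))) (XT.nd (nat_lit 470) (nat_lit 0) (nat_lit 0) (XT.nd (nat_lit 188) (nat_lit 0) (nat_lit 0) (XT.nd (nat_lit 94) (nat_lit 0) (nat_lit 0) (XT.lf (nat_lit 0) (nat_lit 2025408241759) (nat_lit 0) (nat_lit 0) (nat_lit 0) (nat_lit 0) (nat_lit 0) (nat_lit 0) (nat_lit 1) (nat_lit 0) (nat_lit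 1) (nat_lit 0) (nat_lit 275) (nat_lit 458) (nat_lit 347)) (XT.lf (nat_lit 0) (nat_lit 2025378996378) (nat_lit 0) (nat_lit 0) (nat_lit 0) (nat_lit 0) (nat_lit 0) (nat_lit 0) (nat_lit 1) (nat_lit 0) (nat_lit 1) (nat_lit 0) (nat_lit 276) (nat_lit 458) (nat_lit 346))) (XT.nd (nat_lit 94) (nat_lit 0) (nat_lit 0) (XT.lf (nat_lit 0) (nat_lit 2025351917322) (nat_lit 0) (nat_lit 0) (nat_lit 0) (nat_lit 0) (nat_lit 0) (nat_lit 0) (nat_lit 1) (nat_lit 0) (nat_lit 1) (nat_lit 0) (nat_lit 277) (nat_lit 458) (nat_lit 345)) (XT.nd (nat_lit 94) (nat_lit 0) (nat_lit 0) (XT.lf (nat_lit 0) (nat_lit 2025326844122) (nat_lit 0) (nat_lit 0) (nat_lit 0) (nat_lit 0) (nat_lit 0) (nat_lit 0) (nat_lit 1) (nat_lit 0) (nat_lit 1) (nat_lit 0) (nat_lit 278) (nat_lit 458) (nat_lit 344)) (XT.lf (nat_lit 0) (nat_lit 2025303628196) (nat_lit 0) (nat_lit 0) (nat_lit 0) (nat_lit 0) (nat_lit 0)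 (nat_lit 0) (nat_lit 1) (nat_lit 0) (nat_lit 1) (nat_lit 0) (nat_lit 279) (nat_lit 458) (nat_lit 343))))) (XT.nd (nat_lit 188) (nat_lit 0) (nat_lit 0) (XT.nd (nat_lit 94) (nat_lit 0) (nat_lit 0) (XT.lf (nat_lit 0) (nat_lit 2025282131968) (nat_lit 0) (nat_lit 0) (nat_lit 0) (nat_lit 0) (nat_lit 0) (nat_lit 0) (nat_lit 1) (nat_lit 0) (nat_lit 1) (nat_lit 0) (nat_lit 280) (nat_lit 458) (nat_lit 342)) (XT.lf (nat_lit 0) (nat_lit 2025262228053) (nat_lit 0) (nat_lit 0) (nat_lit 0) (nat_lit 0) (nat_lit 0) (nat_lit 0) (nat_lit 1) (nat_lit 0) (nat_lit 1) (nat_lit 0) (nat_lit 281) (nat_lit 458) (nat_lit 341))) (XT.nd (nat_lit 94) (nat_lit 0) (nat_lit 0) (XT.lf (nat_lit 0) (nat_lit 2025243798502) (nat_lit 0) (nat_lit 0) (nat_lit 0) (nat_lit 0) (nat_lit 0) (nat_lit 0) (nat_lit 1) (nat_lit 0) (nat_lit 1) (nat_lit 0) (nat_lit 282) (nat_lit 458) (nat_lit 340)) (XT.nd (nat_lit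 94) (nat_lit 0) (nat_lit 0) (XT.lf (nat_lit 0) (nat_lit 2025226734104) (nat_lit 0) (nat_lit 0) (nat_lit 0) (nat_lit 0) (nat_lit 0) (nat_lit 0) (nat_lit 1) (nat_lit 0) (nat_lit 1) (nat_lit 0) (nat_lit 283) (nat_lit 458) (nat_lit 339)) (XT.lf (nat_lit 0) (nat_lit 2025210933734) (nat_lit 0) (nat_lit 0) (nat_lit 0) (nat_lit 0) (nat_lit 0) (nat_lit 0) (nat_lit 1) (nat_lit 0) (nat_lit 1) (nat_lit 0) (nat_lit 284) (nat_lit 458) (nat_lit 338))))))) (XT.nd (nat_lit 846) (nat_lit 0) (nat_lit 0) (XT.nd (nat_lit 376) (nat_lit 0) (nat_lit 0) (XT.nd (nat_lit 188) (nat_lit 0) (nat_lit 0) (XT.nd (nat_lit 94) (nat_lit 0) (nat_lit 0) (XT.lf (nat_lit 0) (nat_lit 2025196303763) (nat_lit 0) (nat_lit 0) (nat_lit 0) (nat_lit 0) (nat_lit 0) (nat_lit 0) (nat_lit 1) (nat_lit 0) (nat_lit 1) (nat_lit 0) (nat_lit 285) (nat_lit 458) (nat_lit 337)) (XT.lf (nat_lit 0) (nat_lit 2025182757493)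 (nat_lit 0) (nat_lit 0) (nat_lit 0) (nat_lit 0) (nat_lit 0) (nat_lit 0) (nat_lit 1) (nat_lit 0) (nat_lit 1) (nat_lit 0) (nat_lit 286) (nat_lit 458) (nat_lit 336))) (XT.nd (nat_lit 94) (nat_lit 0) (nat_lit 0) (XT.lf (nat_lit 0) (nat_lit 2025170214650) (nat_lit 0) (nat_lit 0) (nat_lit 0) (nat_lit 0) (nat_lit 0) (nat_lit 0) (nat_lit 1) (nat_lit 0) (nat_lit 1) (nat_lit 0) (nat_lit 287) (nat_lit 458) (nat_lit 335)) (XT.lf (nat_lit 0) (nat_lit 2025158600907) (nat_lit 0) (nat_lit 0) (nat_lit 0) (nat_lit 0) (nat_lit 0) (nat_lit 0) (nat_lit 1) (nat_lit 0) (nat_lit 1) (nat_lit 0) (nat_lit 288) (nat_lit 458) (nat_lit 334)))) (XT.nd (nat_lit 188) (nat_lit 0) (nat_lit 0) (XT.nd (nat_lit 94) (nat_lit 0) (nat_lit 0) (XT.lf (nat_lit 0) (nat_lit 2025147847442) (nat_lit 0) (nat_lit 0) (nat_lit 0) (nat_lit 0) (nat_lit 0) (nat_lit 0) (nat_lit 1) (nat_lit 0) (nat_lit 1) (nat_lit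 0) (nat_lit 289) (nat_lit 458) (nat_lit 333)) (XT.lf (nat_lit 0) (nat_lit 2025137890529) (nat_lit 0) (nat_lit 0) (nat_lit 0) (nat_lit 0) (nat_lit 0) (nat_lit 0) (nat_lit 1) (nat_lit 0) (nat_lit 1) (nat_lit 0) (nat_lit 290) (nat_lit 458) (nat_lit 332))) (XT.nd (nat_lit 94) (nat_lit 0) (nat_lit 0) (XT.lf (nat_lit 0) (nat_lit 2025128671165) (nat_lit 0) (nat_lit 0) (nat_lit 0) (nat_lit 0) (nat_lit 0) (nat_lit 0) (nat_lit 1) (nat_lit 0) (nat_lit 1) (nat_lit 0) (nat_lit 291) (nat_lit 458) (nat_lit 331)) (XT.nd (nat_lit 94) (nat_lit 0) (nat_lit 0) (XT.lf (nat_lit 0) (nat_lit 2025120134717) (nat_lit 0) (nat_lit 0) (nat_lit 0) (nat_lit 0) (nat_lit 0) (nat_lit 0) (nat_lit 1) (nat_lit 0) (nat_lit 1) (nat_lit 0) (nat_lit 292) (nat_lit 458) (nat_lit 330)) (XT.lf (nat_lit 0) (nat_lit 2025112230599) (nat_lit 0) (nat_lit 0) (nat_lit 0) (nat_lit 0) (nat_lit 0) (nat_lit 0)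 (nat_lit 1) (nat_lit 0) (nat_lit 1) (nat_lit 0) (nat_lit 293) (nat_lit 458) (nat_lit 329)))))) (XT.nd (nat_lit 470) (nat_lit 0) (nat_lit 0) (XT.nd (nat_lit 188) (nat_lit 0) (nat_lit 0) (XT.nd (nat_lit 94) (nat_lit 0) (nat_lit 0) (XT.lf (nat_lit 0) (nat_lit 2025104911971) (nat_lit 0) (nat_lit 0) (nat_lit 0) (nat_lit 0) (nat_lit 0) (nat_lit 0) (nat_lit 1) (nat_lit 0) (nat_lit 1) (nat_lit 0) (nat_lit 294) (nat_lit 458) (nat_lit 328)) (XT.lf (nat_lit 0) (nat_lit 2025098135463) (nat_lit 0) (nat_lit 0) (nat_lit 0) (nat_lit 0) (nat_lit 0) (nat_lit 0) (nat_lit 1) (nat_lit 0) (nat_lit 1) (nat_lit 0) (nat_lit 295) (nat_lit 458) (nat_lit 327))) (XT.nd (nat_lit 94) (nat_lit 0) (nat_lit 0) (XT.lf (nat_lit 0) (nat_lit 2025091860919) (nat_lit 0) (nat_lit 0) (nat_lit 0) (nat_lit 0) (nat_lit 0) (nat_lit 0) (nat_lit 1) (nat_lit 0) (nat_lit 1) (nat_lit 0) (nat_lit 296) (nat_lit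 458) (nat_lit 326)) (XT.nd (nat_lit 94) (nat_lit 0) (nat_lit 0) (XT.lf (nat_lit 0) (nat_lit 2025086051156) (nat_lit 0) (nat_lit 0) (nat_lit 0) (nat_lit 0) (nat_lit 0) (nat_lit 0) (nat_lit 1) (nat_lit 0) (nat_lit 1) (nat_lit 0) (nat_lit 297) (nat_lit 458) (nat_lit 325)) (XT.lf (nat_lit 0) (nat_lit 2025080671746) (nat_lit 0) (nat_lit 0) (nat_lit 0) (nat_lit 0) (nat_lit 0) (nat_lit 0) (nat_lit 1) (nat_lit 0) (nat_lit 1) (nat_lit 0) (nat_lit 298) (nat_lit 458) (nat_lit 324))))) (XT.nd (nat_lit 2350) (nat_lit 0) (nat_lit 0) (XT.nd (nat_lit 2256) (nat_lit 0) (nat_lit 0) (XT.lf (nat_lit 0) (nat_lit 2025075690811) (nat_lit 0) (nat_lit 0) (nat_lit 0) (nat_lit 0) (nat_lit 0) (nat_lit 0) (nat_lit 1) (nat_lit 0) (nat_lit 1) (nat_lit 0) (nat_lit 299) (nat_lit 458) (nat_lit 323)) (XT.lf (nat_lit 0) (nat_lit 2025023247746) (nat_lit 0) (nat_lit 0) (nat_lit 0) (nat_lit 0)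 (nat_lit 0) (nat_lit 0) (nat_lit 1) (nat_lit 0) (nat_lit 1) (nat_lit 0) (nat_lit 323) (nat_lit 458) (nat_lit 299))) (XT.nd (nat_lit 94) (nat_lit 0) (nat_lit 0) (XT.lf (nat_lit 0) (nat_lit 2025022520441) (nat_lit 0) (nat_lit 0) (nat_lit 0) (nat_lit 0) (nat_lit 0) (nat_lit 0) (nat_lit 1) (nat_lit 0) (nat_lit 1) (nat_lit 0) (nat_lit 324) (nat_lit 458) (nat_lit 298)) (XT.nd (nat_lit 94) (nat_lit 0) (nat_lit 0) (XT.lf (nat_lit 0) (nat_lit 2025021847009) (nat_lit 0) (nat_lit 0) (nat_lit 0) (nat_lit 0) (nat_lit 0) (nat_lit 0) (nat_lit 1) (nat_lit 0) (nat_lit 1) (nat_lit 0) (nat_lit 325) (nat_lit 458) (nat_lit 297)) (XT.lf (nat_lit 0) (nat_lit 2025021223462) (nat_lit 0) (nat_lit 0) (nat_lit 0) (nat_lit 0) (nat_lit 0) (nat_lit 0) (nat_lit 1) (nat_lit 0) (nat_lit 1) (nat_lit 0) (nat_lit 326) (nat_lit 458) (nat_lit 296))))))))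
noncomputable def ec482 : XT := (XT.nd (nat_lit 1692) (nat_lit 0) (nat_lit 0) (XT.nd (nat_lit 846) (nat_lit 0) (nat_lit 0) (XT.nd (nat_lit 376) (nat_lit 0) (nat_lit 0) (XT.nd (nat_lit 188) (nat_lit 0) (nat_lit 0) (XT.nd (nat_lit 94) (nat_lit 0) (nat_lit 0) (XT.lf (nat_lit 0) (nat_lit 2025020646103) (nat_lit 0) (nat_lit 0) (nat_lit 0) (nat_lit 0) (nat_lit 0) (nat_lit 0) (nat_lit 1) (nat_lit 0) (nat_lit 1) (nat_lit 0) (nat_lit 327) (nat_lit 458) (nat_lit 295)) (XT.lf (nat_lit 0) (nat_lit 2025020111512) (nat_lit 0) (nat_lit 0) (nat_lit 0) (nat_lit 0) (nat_lit 0) (nat_lit 0) (nat_lit 1) (nat_lit 0) (nat_lit 1) (nat_lit 0) (nat_lit 328) (nat_lit 458) (nat_lit 294))) (XT.nd (nat_lit 94) (nat_lit 0) (nat_lit 0) (XT.lf (nat_lit 0) (nat_lit 2025019616520) (nat_lit 0) (nat_lit 0) (nat_lit 0) (nat_lit 0) (nat_lit 0) (nat_lit 0) (nat_lit 1) (nat_lit 0) (nat_lit 1) (nat_lit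 0) (nat_lit 329) (nat_lit 458) (nat_lit 293)) (XT.lf (nat_lit 0) (nat_lit 2025019158194) (nat_lit 0) (nat_lit 0) (nat_lit 0) (nat_lit 0) (nat_lit 0) (nat_lit 0) (nat_lit 1) (nat_lit 0) (nat_lit 1) (nat_lit 0) (nat_lit 330) (nat_lit 458) (nat_lit 292)))) (XT.nd (nat_lit 188) (nat_lit 0) (nat_lit 0) (XT.nd (nat_lit 94) (nat_lit 0) (nat_lit 0) (XT.lf (nat_lit 0) (nat_lit 2025018733818) (nat_lit 0) (nat_lit 0) (nat_lit 0) (nat_lit 0) (nat_lit 0) (nat_lit 0) (nat_lit 1) (nat_lit 0) (nat_lit 1) (nat_lit 0) (nat_lit 331) (nat_lit 458) (nat_lit 291)) (XT.lf (nat_lit 0) (nat_lit 2025018340877) (nat_lit 0) (nat_lit 0) (nat_lit 0) (nat_lit 0) (nat_lit 0) (nat_lit 0) (nat_lit 1) (nat_lit 0) (nat_lit 1) (nat_lit 0) (nat_lit 332) (nat_lit 458) (nat_lit 290))) (XT.nd (nat_lit 94) (nat_lit 0) (nat_lit 0) (XT.lf (nat_lit 0) (nat_lit 2025017977043) (nat_lit 0) (nat_lit 0) (nat_lit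 0) (nat_lit 0) (nat_lit 0) (nat_lit 0) (nat_lit 1) (nat_lit 0) (nat_lit 1) (nat_lit 0) (nat_lit 333) (nat_lit 458) (nat_lit 289)) (XT.nd (nat_lit 94) (nat_lit 0) (nat_lit 0) (XT.lf (nat_lit 0) (nat_lit 2025017640160) (nat_lit 0) (nat_lit 0) (nat_lit 0) (nat_lit 0) (nat_lit 0) (nat_lit 0) (nat_lit 1) (nat_lit 0) (nat_lit 1) (nat_lit 0) (nat_lit 334) (nat_lit 458) (nat_lit 288)) (XT.lf (nat_lit 0) (nat_lit 2025017328231) (nat_lit 0) (nat_lit 0) (nat_lit 0) (nat_lit 0) (nat_lit 0) (nat_lit 0) (nat_lit 1) (nat_lit 0) (nat_lit 1) (nat_lit 0) (nat_lit 335) (nat_lit 458) (nat_lit 287)))))) (XT.nd (nat_lit 376) (nat_lit 0) (nat_lit 0) (XT.nd (nat_lit 188) (nat_lit 0) (nat_lit 0) (XT.nd (nat_lit 94) (nat_lit 0) (nat_lit 0) (XT.lf (nat_lit 0) (nat_lit 2025017039408) (nat_lit 0) (nat_lit 0) (nat_lit 0) (nat_lit 0) (nat_lit 0) (nat_lit 0) (nat_lit 1) (nat_lit 0) (nat_lit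 1) (nat_lit 0) (nat_lit 336) (nat_lit 458) (nat_lit 286)) (XT.lf (nat_lit 0) (nat_lit 2025016771979) (nat_lit 0) (nat_lit 0) (nat_lit 0) (nat_lit 0) (nat_lit 0) (nat_lit 0) (nat_lit 1) (nat_lit 0) (nat_lit 1) (nat_lit 0) (nat_lit 337) (nat_lit 458) (nat_lit 285))) (XT.nd (nat_lit 94) (nat_lit 0) (nat_lit 0) (XT.lf (nat_lit 0) (nat_lit 2025016524360) (nat_lit 0) (nat_lit 0) (nat_lit 0) (nat_lit 0) (nat_lit 0) (nat_lit 0) (nat_lit 1) (nat_lit 0) (nat_lit 1) (nat_lit 0) (nat_lit 338) (nat_lit 458) (nat_lit 284)) (XT.lf (nat_lit 0) (nat_lit 2025016295083) (nat_lit 0) (nat_lit 0) (nat_lit 0) (nat_lit 0) (nat_lit 0) (nat_lit 0) (nat_lit 1) (nat_lit 0) (nat_lit 1) (nat_lit 0) (nat_lit 339) (nat_lit 458) (nat_lit 283)))) (XT.nd (nat_lit 188) (nat_lit 0) (nat_lit 0) (XT.nd (nat_lit 94) (nat_lit 0) (nat_lit 0) (XT.lf (nat_lit 0) (nat_lit 2025016082789) (nat_lit 0) (nat_lit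 0) (nat_lit 0) (nat_lit 0) (nat_lit 0) (nat_lit 0) (nat_lit 1) (nat_lit 0) (nat_lit 1) (nat_lit 0) (nat_lit 340) (nat_lit 458) (nat_lit 282)) (XT.lf (nat_lit 0) (nat_lit 2025015886221) (nat_lit 0) (nat_lit 0) (nat_lit 0) (nat_lit 0) (nat_lit 0) (nat_lit 0) (nat_lit 1) (nat_lit 0) (nat_lit 1) (nat_lit 0) (nat_lit 341) (nat_lit 458) (nat_lit 281))) (XT.nd (nat_lit 94) (nat_lit 0) (nat_lit 0) (XT.lf (nat_lit 0) (nat_lit 2025015704213) (nat_lit 0) (nat_lit 0) (nat_lit 0) (nat_lit 0) (nat_lit 0) (nat_lit 0) (nat_lit 1) (nat_lit 0) (nat_lit 1) (nat_lit 0) (nat_lit 342) (nat_lit 458) (nat_lit 280)) (XT.nd (nat_lit 94) (nat_lit 0) (nat_lit 0) (XT.lf (nat_lit 0) (nat_lit 2025015535688) (nat_lit 0) (nat_lit 0) (nat_lit 0) (nat_lit 0) (nat_lit 0) (nat_lit 0) (nat_lit 1) (nat_lit 0) (nat_lit 1) (nat_lit 0) (nat_lit 343) (nat_lit 458) (nat_lit 279)) (XT.lf (nat_lit 0)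 (nat_lit 2025015379646) (nat_lit 0) (nat_lit 0) (nat_lit 0) (nat_lit 0) (nat_lit 0) (nat_lit 0) (nat_lit 1) (nat_lit 0) (nat_lit 1) (nat_lit 0) (nat_lit 344) (nat_lit 458) (nat_lit 278))))))) (XT.nd (nat_lit 846) (nat_lit 0) (nat_lit 0) (XT.nd (nat_lit 376) (nat_lit 0) (nat_lit 0) (XT.nd (nat_lit 188) (nat_lit 0) (nat_lit 0) (XT.nd (nat_lit 94) (nat_lit 0) (nat_lit 0) (XT.lf (nat_lit 0) (nat_lit 2025015235162) (nat_lit 0) (nat_lit 0) (nat_lit 0) (nat_lit 0) (nat_lit 0) (nat_lit 0) (nat_lit 1) (nat_lit 0) (nat_lit 1) (nat_lit 0) (nat_lit 345) (nat_lit 458) (nat_lit 277)) (XT.lf (nat_lit 0) (nat_lit 2025015101381) (nat_lit 0) (nat_lit 0) (nat_lit 0) (nat_lit 0) (nat_lit 0) (nat_lit 0) (nat_lit 1) (nat_lit 0) (nat_lit 1) (nat_lit 0) (nat_lit 346) (nat_lit 458) (nat_lit 276))) (XT.nd (nat_lit 94) (nat_lit 0) (nat_lit 0) (XT.lf (nat_lit 0) (nat_lit 2025014977510)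 (nat_lit 0) (nat_lit 0) (nat_lit 0) (nat_lit 0) (nat_lit 0) (nat_lit 0) (nat_lit 1) (nat_lit 0) (nat_lit 1) (nat_lit 0) (nat_lit 347) (nat_lit 458) (nat_lit 275)) (XT.lf (nat_lit 0) (nat_lit 2025014862814) (nat_lit 0) (nat_lit 0) (nat_lit 0) (nat_lit 0) (nat_lit 0) (nat_lit 0) (nat_lit 1) (nat_lit 0) (nat_lit 1) (nat_lit 0) (nat_lit 348) (nat_lit 458) (nat_lit 274)))) (XT.nd (nat_lit 188) (nat_lit 0) (nat_lit 0) (XT.nd (nat_lit 94) (nat_lit 0) (nat_lit 0) (XT.lf (nat_lit 0) (nat_lit 2025014756615) (nat_lit 0) (nat_lit 0) (nat_lit 0) (nat_lit 0) (nat_lit 0) (nat_lit 0) (nat_lit 1) (nat_lit 0) (nat_lit 1) (nat_lit 0) (nat_lit 349) (nat_lit 458) (nat_lit 273)) (XT.lf (nat_lit 0) (nat_lit 2025014658282) (nat_lit 0) (nat_lit 0) (nat_lit 0) (nat_lit 0) (nat_lit 0) (nat_lit 0) (nat_lit 1) (nat_lit 0) (nat_lit 1) (nat_lit 0) (nat_lit 350) (nat_lit 458) (nat_lit 272)))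 (XT.nd (nat_lit 94) (nat_lit 0) (nat_lit 0) (XT.lf (nat_lit 0) (nat_lit 2025014567233) (nat_lit 0) (nat_lit 0) (nat_lit 0) (nat_lit 0) (nat_lit 0) (nat_lit 0) (nat_lit 1) (nat_lit 0) (nat_lit 1) (nat_lit 0) (nat_lit 351) (nat_lit 458) (nat_lit 271)) (XT.nd (nat_lit 94) (nat_lit 0) (nat_lit 0) (XT.lf (nat_lit 0) (nat_lit 2025014482928) (nat_lit 0) (nat_lit 0) (nat_lit 0) (nat_lit 0) (nat_lit 0) (nat_lit 0) (nat_lit 1) (nat_lit 0) (nat_lit 1) (nat_lit 0) (nat_lit 352) (nat_lit 458) (nat_lit 270)) (XT.lf (nat_lit 0) (nat_lit 2025014404868) (nat_lit 0) (nat_lit 0) (nat_lit 0) (nat_lit 0) (nat_lit 0) (nat_lit 0) (nat_lit 1) (nat_lit 0) (nat_lit 1) (nat_lit 0) (nat_lit 353) (nat_lit 458) (nat_lit 269)))))) (XT.nd (nat_lit 470) (nat_lit 0) (nat_lit 0) (XT.nd (nat_lit 188) (nat_lit 0) (nat_lit 0) (XT.nd (nat_lit 94) (nat_lit 0) (nat_lit 0) (XT.lf (nat_lit 0) (nat_lit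 2025014332590) (nat_lit 0) (nat_lit 0) (nat_lit 0) (nat_lit 0) (nat_lit 0) (nat_lit 0) (nat_lit 1) (nat_lit 0) (nat_lit 1) (nat_lit 0) (nat_lit 354) (nat_lit 458) (nat_lit 268)) (XT.lf (nat_lit 0) (nat_lit 2025014265666) (nat_lit 0) (nat_lit 0) (nat_lit 0) (nat_lit 0) (nat_lit 0) (nat_lit 0) (nat_lit 1) (nat_lit 0) (nat_lit 1) (nat_lit 0) (nat_lit 355) (nat_lit 458) (nat_lit 267))) (XT.nd (nat_lit 94) (nat_lit 0) (nat_lit 0) (XT.lf (nat_lit 0) (nat_lit 2025014203700) (nat_lit 0) (nat_lit 0) (nat_lit 0) (nat_lit 0) (nat_lit 0) (nat_lit 0) (nat_lit 1) (nat_lit 0) (nat_lit 1) (nat_lit 0) (nat_lit 356) (nat_lit 458) (nat_lit 266)) (XT.nd (nat_lit 94) (nat_lit 0) (nat_lit 0) (XT.lf (nat_lit 0) (nat_lit 2025014146324) (nat_lit 0) (nat_lit 0) (nat_lit 0) (nat_lit 0) (nat_lit 0) (nat_lit 0) (nat_lit 1) (nat_lit 0) (nat_lit 1) (nat_lit 0) (nat_lit 357) (nat_lit 458)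 (nat_lit 265)) (XT.lf (nat_lit 0) (nat_lit 2025014093197) (nat_lit 0) (nat_lit 0) (nat_lit 0) (nat_lit 0) (nat_lit 0) (nat_lit 0) (nat_lit 1) (nat_lit 0) (nat_lit 1) (nat_lit 0) (nat_lit 358) (nat_lit 458) (nat_lit 264))))) (XT.nd (nat_lit 188) (nat_lit 0) (nat_lit 0) (XT.nd (nat_lit 94) (nat_lit 0) (nat_lit 0) (XT.lf (nat_lit 0) (nat_lit 2025014044006) (nat_lit 0) (nat_lit 0) (nat_lit 0) (nat_lit 0) (nat_lit 0) (nat_lit 0) (nat_lit 1) (nat_lit 0) (nat_lit 1) (nat_lit 0) (nat_lit 359) (nat_lit 458) (nat_lit 263)) (XT.lf (nat_lit 0) (nat_lit 2025013998459) (nat_lit 0) (nat_lit 0) (nat_lit 0) (nat_lit 0) (nat_lit 0) (nat_lit 0) (nat_lit 1) (nat_lit 0) (nat_lit 1) (nat_lit 0) (nat_lit 360) (nat_lit 458) (nat_lit 262))) (XT.nd (nat_lit 94) (nat_lit 0) (nat_lit 0) (XT.lf (nat_lit 0) (nat_lit 2025013956286) (nat_lit 0) (nat_lit 0) (nat_lit 0) (nat_lit 0) (nat_lit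 0) (nat_lit 0) (nat_lit 1) (nat_lit 0) (nat_lit 1) (nat_lit 0) (nat_lit 361) (nat_lit 458) (nat_lit 261)) (XT.nd (nat_lit 94) (nat_lit 0) (nat_lit 0) (XT.lf (nat_lit 0) (nat_lit 2025013917236) (nat_lit 0) (nat_lit 0) (nat_lit 0) (nat_lit 0) (nat_lit 0) (nat_lit 0) (nat_lit 1) (nat_lit 0) (nat_lit 1) (nat_lit 0) (nat_lit 362) (nat_lit 458) (nat_lit 260)) (XT.lf (nat_lit 0) (nat_lit 2025013881079) (nat_lit 0) (nat_lit 0) (nat_lit 0) (nat_lit 0) (nat_lit 0) (nat_lit 0) (nat_lit 1) (nat_lit 0) (nat_lit 1) (nat_lit 0) (nat_lit 363) (nat_lit 458) (nat_lit 259))))))))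
noncomputable def ec483 : XT := (XT.nd (nat_lit 1786) (nat_lit 0) (nat_lit 0) (XT.nd (nat_lit 846) (nat_lit 0) (nat_lit 0) (XT.nd (nat_lit 376) (nat_lit 0) (nat_lit 0) (XT.nd (nat_lit 188) (nat_lit 0) (nat_lit 0) (XT.nd (nat_lit 94) (nat_lit 0) (nat_lit 0) (XT.lf (nat_lit 0) (nat_lit 2025013847601) (nat_lit 0) (nat_lit 0) (nat_lit 0) (nat_lit 0) (nat_lit 0) (nat_lit 0) (nat_lit 1) (nat_lit 0) (nat_lit 1) (nat_lit 0) (nat_lit 364) (nat_lit 458) (nat_lit 258)) (XT.lf (nat_lit 0) (nat_lit 2025013816602) (nat_lit 0) (nat_lit 0) (nat_lit 0) (nat_lit 0) (nat_lit 0) (nat_lit 0) (nat_lit 1) (nat_lit 0) (nat_lit 1) (nat_lit 0) (nat_lit 365) (nat_lit 458) (nat_lit 257))) (XT.nd (nat_lit 94) (nat_lit 0) (nat_lit 0) (XT.lf (nat_lit 0) (nat_lit 2025013787900) (nat_lit 0) (nat_lit 0) (nat_lit 0) (nat_lit 0) (nat_lit 0) (nat_lit 0) (nat_lit 1) (nat_lit 0) (nat_lit 1) (nat_lit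 0) (nat_lit 366) (nat_lit 458) (nat_lit 256)) (XT.lf (nat_lit 0) (nat_lit 2025013761323) (nat_lit 0) (nat_lit 0) (nat_lit 0) (nat_lit 0) (nat_lit 0) (nat_lit 0) (nat_lit 1) (nat_lit 0) (nat_lit 1) (nat_lit 0) (nat_lit 367) (nat_lit 458) (nat_lit 255)))) (XT.nd (nat_lit 188) (nat_lit 0) (nat_lit 0) (XT.nd (nat_lit 94) (nat_lit 0) (nat_lit 0) (XT.lf (nat_lit 0) (nat_lit 2025013736716) (nat_lit 0) (nat_lit 0) (nat_lit 0) (nat_lit 0) (nat_lit 0) (nat_lit 0) (nat_lit 1) (nat_lit 0) (nat_lit 1) (nat_lit 0) (nat_lit 368) (nat_lit 458) (nat_lit 254)) (XT.lf (nat_lit 0) (nat_lit 2025013713931) (nat_lit 0) (nat_lit 0) (nat_lit 0) (nat_lit 0) (nat_lit 0) (nat_lit 0) (nat_lit 1) (nat_lit 0) (nat_lit 1) (nat_lit 0) (nat_lit 369) (nat_lit 458) (nat_lit 253))) (XT.nd (nat_lit 94) (nat_lit 0) (nat_lit 0) (XT.lf (nat_lit 0) (nat_lit 2025013692834) (nat_lit 0) (nat_lit 0) (nat_lit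 0) (nat_lit 0) (nat_lit 0) (nat_lit 0) (nat_lit 1) (nat_lit 0) (nat_lit 1) (nat_lit 0) (nat_lit 370) (nat_lit 458) (nat_lit 252)) (XT.nd (nat_lit 94) (nat_lit 0) (nat_lit 0) (XT.lf (nat_lit 0) (nat_lit 2025013673299) (nat_lit 0) (nat_lit 0) (nat_lit 0) (nat_lit 0) (nat_lit 0) (nat_lit 0) (nat_lit 1) (nat_lit 0) (nat_lit 1) (nat_lit 0) (nat_lit 371) (nat_lit 458) (nat_lit 251)) (XT.lf (nat_lit 0) (nat_lit 2025013655212) (nat_lit 0) (nat_lit 0) (nat_lit 0) (nat_lit 0) (nat_lit 0) (nat_lit 0) (nat_lit 1) (nat_lit 0) (nat_lit 1) (nat_lit 0) (nat_lit 372) (nat_lit 458) (nat_lit 250)))))) (XT.nd (nat_lit 470) (nat_lit 0) (nat_lit 0) (XT.nd (nat_lit 188) (nat_lit 0) (nat_lit 0) (XT.nd (nat_lit 94) (nat_lit 0) (nat_lit 0) (XT.lf (nat_lit 0) (nat_lit 2025013638464) (nat_lit 0) (nat_lit 0) (nat_lit 0) (nat_lit 0) (nat_lit 0) (nat_lit 0) (nat_lit 1) (nat_lit 0) (nat_lit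 1) (nat_lit 0) (nat_lit 373) (nat_lit 458) (nat_lit 249)) (XT.lf (nat_lit 0) (nat_lit 2025013622957) (nat_lit 0) (nat_lit 0) (nat_lit 0) (nat_lit 0) (nat_lit 0) (nat_lit 0) (nat_lit 1) (nat_lit 0) (nat_lit 1) (nat_lit 0) (nat_lit 374) (nat_lit 458) (nat_lit 248))) (XT.nd (nat_lit 94) (nat_lit 0) (nat_lit 0) (XT.lf (nat_lit 0) (nat_lit 2025013608599) (nat_lit 0) (nat_lit 0) (nat_lit 0) (nat_lit 0) (nat_lit 0) (nat_lit 0) (nat_lit 1) (nat_lit 0) (nat_lit 1) (nat_lit 0) (nat_lit 375) (nat_lit 458) (nat_lit 247)) (XT.nd (nat_lit 94) (nat_lit 0) (nat_lit 0) (XT.lf (nat_lit 0) (nat_lit 2025013595304) (nat_lit 0) (nat_lit 0) (nat_lit 0) (nat_lit 0) (nat_lit 0) (nat_lit 0) (nat_lit 1) (nat_lit 0) (nat_lit 1) (nat_lit 0) (nat_lit 376) (nat_lit 458) (nat_lit 246)) (XT.lf (nat_lit 0) (nat_lit 2025013582994) (nat_lit 0) (nat_lit 0) (nat_lit 0) (nat_lit 0) (nat_lit 0)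 (nat_lit 0) (nat_lit 1) (nat_lit 0) (nat_lit 1) (nat_lit 0) (nat_lit 377) (nat_lit 458) (nat_lit 245))))) (XT.nd (nat_lit 188) (nat_lit 0) (nat_lit 0) (XT.nd (nat_lit 94) (nat_lit 0) (nat_lit 0) (XT.lf (nat_lit 0) (nat_lit 2025013571596) (nat_lit 0) (nat_lit 0) (nat_lit 0) (nat_lit 0) (nat_lit 0) (nat_lit 0) (nat_lit 1) (nat_lit 0) (nat_lit 1) (nat_lit 0) (nat_lit 378) (nat_lit 458) (nat_lit 244)) (XT.lf (nat_lit 0) (nat_lit 2025013561042) (nat_lit 0) (nat_lit 0) (nat_lit 0) (nat_lit 0) (nat_lit 0) (nat_lit 0) (nat_lit 1) (nat_lit 0) (nat_lit 1) (nat_lit 0) (nat_lit 379) (nat_lit 458) (nat_lit 243))) (XT.nd (nat_lit 94) (nat_lit 0) (nat_lit 0) (XT.lf (nat_lit 0) (nat_lit 2025013551270) (nat_lit 0) (nat_lit 0) (nat_lit 0) (nat_lit 0) (nat_lit 0) (nat_lit 0) (nat_lit 1) (nat_lit 0) (nat_lit 1) (nat_lit 0) (nat_lit 380) (nat_lit 458) (nat_lit 242)) (XT.nd (nat_lit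 94) (nat_lit 0) (nat_lit 0) (XT.lf (nat_lit 0) (nat_lit 2025013542222) (nat_lit 0) (nat_lit 0) (nat_lit 0) (nat_lit 0) (nat_lit 0) (nat_lit 0) (nat_lit 1) (nat_lit 0) (nat_lit 1) (nat_lit 0) (nat_lit 381) (nat_lit 458) (nat_lit 241)) (XT.lf (nat_lit 0) (nat_lit 2025013533844) (nat_lit 0) (nat_lit 0) (nat_lit 0) (nat_lit 0) (nat_lit 0) (nat_lit 0) (nat_lit 1) (nat_lit 0) (nat_lit 1) (nat_lit 0) (nat_lit 382) (nat_lit 458) (nat_lit 240))))))) (XT.nd (nat_lit 846) (nat_lit 0) (nat_lit 0) (XT.nd (nat_lit 376) (nat_lit 0) (nat_lit 0) (XT.nd (nat_lit 188) (nat_lit 0) (nat_lit 0) (XT.nd (nat_lit 94) (nat_lit 0) (nat_lit 0) (XT.lf (nat_lit 0) (nat_lit 2025013526086) (nat_lit 0) (nat_lit 0) (nat_lit 0) (nat_lit 0) (nat_lit 0) (nat_lit 0) (nat_lit 1) (nat_lit 0) (nat_lit 1) (nat_lit 0) (nat_lit 383) (nat_lit 458) (nat_lit 239)) (XT.lf (nat_lit 0) (nat_lit 2025013518903)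 (nat_lit 0) (nat_lit 0) (nat_lit 0) (nat_lit 0) (nat_lit 0) (nat_lit 0) (nat_lit 1) (nat_lit 0) (nat_lit 1) (nat_lit 0) (nat_lit 384) (nat_lit 458) (nat_lit 238))) (XT.nd (nat_lit 94) (nat_lit 0) (nat_lit 0) (XT.lf (nat_lit 0) (nat_lit 2025013512253) (nat_lit 0) (nat_lit 0) (nat_lit 0) (nat_lit 0) (nat_lit 0) (nat_lit 0) (nat_lit 1) (nat_lit 0) (nat_lit 1) (nat_lit 0) (nat_lit 385) (nat_lit 458) (nat_lit 237)) (XT.lf (nat_lit 0) (nat_lit 2025013506095) (nat_lit 0) (nat_lit 0) (nat_lit 0) (nat_lit 0) (nat_lit 0) (nat_lit 0) (nat_lit 1) (nat_lit 0) (nat_lit 1) (nat_lit 0) (nat_lit 386) (nat_lit 458) (nat_lit 236)))) (XT.nd (nat_lit 188) (nat_lit 0) (nat_lit 0) (XT.nd (nat_lit 94) (nat_lit 0) (nat_lit 0) (XT.lf (nat_lit 0) (nat_lit 2025013500393) (nat_lit 0) (nat_lit 0) (nat_lit 0) (nat_lit 0) (nat_lit 0) (nat_lit 0) (nat_lit 1) (nat_lit 0) (nat_lit 1) (nat_lit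 0) (nat_lit 387) (nat_lit 458) (nat_lit 235)) (XT.lf (nat_lit 0) (nat_lit 2025013495113) (nat_lit 0) (nat_lit 0) (nat_lit 0) (nat_lit 0) (nat_lit 0) (nat_lit 0) (nat_lit 1) (nat_lit 0) (nat_lit 1) (nat_lit 0) (nat_lit 388) (nat_lit 458) (nat_lit 234))) (XT.nd (nat_lit 94) (nat_lit 0) (nat_lit 0) (XT.lf (nat_lit 0) (nat_lit 2025013490225) (nat_lit 0) (nat_lit 0) (nat_lit 0) (nat_lit 0) (nat_lit 0) (nat_lit 0) (nat_lit 1) (nat_lit 0) (nat_lit 1) (nat_lit 0) (nat_lit 389) (nat_lit 458) (nat_lit 233)) (XT.nd (nat_lit 94) (nat_lit 0) (nat_lit 0) (XT.lf (nat_lit 0) (nat_lit 2025013485698) (nat_lit 0) (nat_lit 0) (nat_lit 0) (nat_lit 0) (nat_lit 0) (nat_lit 0) (nat_lit 1) (nat_lit 0) (nat_lit 1) (nat_lit 0) (nat_lit 390) (nat_lit 458) (nat_lit 232)) (XT.lf (nat_lit 0) (nat_lit 2025013481507) (nat_lit 0) (nat_lit 0) (nat_lit 0) (nat_lit 0) (nat_lit 0) (nat_lit 0)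 (nat_lit 1) (nat_lit 0) (nat_lit 1) (nat_lit 0) (nat_lit 391) (nat_lit 458) (nat_lit 231)))))) (XT.nd (nat_lit 470) (nat_lit 0) (nat_lit 0) (XT.nd (nat_lit 188) (nat_lit 0) (nat_lit 0) (XT.nd (nat_lit 94) (nat_lit 0) (nat_lit 0) (XT.lf (nat_lit 0) (nat_lit 2025013477627) (nat_lit 0) (nat_lit 0) (nat_lit 0) (nat_lit 0) (nat_lit 0) (nat_lit 0) (nat_lit 1) (nat_lit 0) (nat_lit 1) (nat_lit 0) (nat_lit 392) (nat_lit 458) (nat_lit 230)) (XT.lf (nat_lit 0) (nat_lit 2025013474033) (nat_lit 0) (nat_lit 0) (nat_lit 0) (nat_lit 0) (nat_lit 0) (nat_lit 0) (nat_lit 1) (nat_lit 0) (nat_lit 1) (nat_lit 0) (nat_lit 393) (nat_lit 458) (nat_lit 229))) (XT.nd (nat_lit 94) (nat_lit 0) (nat_lit 0) (XT.lf (nat_lit 0) (nat_lit 2025013470706) (nat_lit 0) (nat_lit 0) (nat_lit 0) (nat_lit 0) (nat_lit 0) (nat_lit 0) (nat_lit 1) (nat_lit 0) (nat_lit 1) (nat_lit 0) (nat_lit 394) (nat_lit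 458) (nat_lit 228)) (XT.nd (nat_lit 94) (nat_lit 0) (nat_lit 0) (XT.lf (nat_lit 0) (nat_lit 2025013467626) (nat_lit 0) (nat_lit 0) (nat_lit 0) (nat_lit 0) (nat_lit 0) (nat_lit 0) (nat_lit 1) (nat_lit 0) (nat_lit 1) (nat_lit 0) (nat_lit 395) (nat_lit 458) (nat_lit 227)) (XT.lf (nat_lit 0) (nat_lit 2025013464774) (nat_lit 0) (nat_lit 0) (nat_lit 0) (nat_lit 0) (nat_lit 0) (nat_lit 0) (nat_lit 1) (nat_lit 0) (nat_lit 1) (nat_lit 0) (nat_lit 396) (nat_lit 458) (nat_lit 226))))) (XT.nd (nat_lit 188) (nat_lit 0) (nat_lit 0) (XT.nd (nat_lit 94) (nat_lit 0) (nat_lit 0) (XT.lf (nat_lit 0) (nat_lit 2025013462132) (nat_lit 0) (nat_lit 0) (nat_lit 0) (nat_lit 0) (nat_lit 0) (nat_lit 0) (nat_lit 1) (nat_lit 0) (nat_lit 1) (nat_lit 0) (nat_lit 397) (nat_lit 458) (nat_lit 225)) (XT.lf (nat_lit 0) (nat_lit 2025013459687) (nat_lit 0) (nat_lit 0) (nat_lit 0) (nat_lit 0) (nat_lit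 0) (nat_lit 0) (nat_lit 1) (nat_lit 0) (nat_lit 1) (nat_lit 0) (nat_lit 398) (nat_lit 458) (nat_lit 224))) (XT.nd (nat_lit 94) (nat_lit 0) (nat_lit 0) (XT.lf (nat_lit 0) (nat_lit 2025013457423) (nat_lit 0) (nat_lit 0) (nat_lit 0) (nat_lit 0) (nat_lit 0) (nat_lit 0) (nat_lit 1) (nat_lit 0) (nat_lit 1) (nat_lit 0) (nat_lit 399) (nat_lit 458) (nat_lit 223)) (XT.nd (nat_lit 94) (nat_lit 0) (nat_lit 0) (XT.lf (nat_lit 0) (nat_lit 2025013455326) (nat_lit 0) (nat_lit 0) (nat_lit 0) (nat_lit 0) (nat_lit 0) (nat_lit 0) (nat_lit 1) (nat_lit 0) (nat_lit 1) (nat_lit 0) (nat_lit 400) (nat_lit 458) (nat_lit 222)) (XT.lf (nat_lit 0) (nat_lit 2025013453385) (nat_lit 0) (nat_lit 0) (nat_lit 0) (nat_lit 0) (nat_lit 0) (nat_lit 0) (nat_lit 1) (nat_lit 0) (nat_lit 1) (nat_lit 0) (nat_lit 401) (nat_lit 458) (nat_lit 221))))))))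
noncomputable def ec484 : XT := (XT.nd (nat_lit 51324) (nat_lit 0) (nat_lit 0) (XT.nd (nat_lit 45214) (nat_lit 0) (nat_lit 0) (XT.nd (nat_lit 5170) (nat_lit 0) (nat_lit 0) (XT.nd (nat_lit 4982) (nat_lit 0) (nat_lit 0) (XT.nd (nat_lit 94) (nat_lit 0) (nat_lit 0) (XT.lf (nat_lit 0) (nat_lit 2025013451587) (nat_lit 0) (nat_lit 0) (nat_lit 0) (nat_lit 0) (nat_lit 0) (nat_lit 0) (nat_lit 1) (nat_lit 0) (nat_lit 1) (nat_lit 0) (nat_lit 402) (nat_lit 458) (nat_lit 220)) (XT.lf (nat_lit 0) (nat_lit 2025013449923) (nat_lit 0) (nat_lit 0) (nat_lit 0) (nat_lit 0) (nat_lit 0) (nat_lit 0) (nat_lit 1) (nat_lit 0) (nat_lit 1) (nat_lit 0) (nat_lit 403) (nat_lit 458) (nat_lit 219))) (XT.nd (nat_lit 94) (nat_lit 0) (nat_lit 0) (XT.lf (nat_lit 0) (nat_lit 2025013429499) (nat_lit 0) (nat_lit 0) (nat_lit 0) (nat_lit 0) (nat_lit 0) (nat_lit 0) (nat_lit 1) (nat_lit 0) (nat_lit 1)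 (nat_lit 0) (nat_lit 455) (nat_lit 458) (nat_lit 167)) (XT.lf (nat_lit 0) (nat_lit 2025013429471) (nat_lit 0) (nat_lit 0) (nat_lit 0) (nat_lit 0) (nat_lit 0) (nat_lit 0) (nat_lit 1) (nat_lit 0) (nat_lit 1) (nat_lit 0) (nat_lit 456) (nat_lit 458) (nat_lit 166)))) (XT.nd (nat_lit 188) (nat_lit 0) (nat_lit 0) (XT.nd (nat_lit 94) (nat_lit 0) (nat_lit 0) (XT.lf (nat_lit 0) (nat_lit 2025013429445) (nat_lit 0) (nat_lit 0) (nat_lit 0) (nat_lit 0) (nat_lit 0) (nat_lit 0) (nat_lit 1) (nat_lit 0) (nat_lit 1) (nat_lit 0) (nat_lit 457) (nat_lit 458) (nat_lit 165)) (XT.lf (nat_lit 0) (nat_lit 2025013429421) (nat_lit 0) (nat_lit 0) (nat_lit 0) (nat_lit 0) (nat_lit 0) (nat_lit 0) (nat_lit 1) (nat_lit 0) (nat_lit 1) (nat_lit 0) (nat_lit 458) (nat_lit 458) (nat_lit 164))) (XT.nd (nat_lit 94) (nat_lit 0) (nat_lit 0) (XT.lf (nat_lit 0) (nat_lit 2025013429398) (nat_lit 0) (nat_lit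 0) (nat_lit 0) (nat_lit 0) (nat_lit 0) (nat_lit 0) (nat_lit 1) (nat_lit 0) (nat_lit 1) (nat_lit 0) (nat_lit 459) (nat_lit 458) (nat_lit 163)) (XT.nd (nat_lit 94) (nat_lit 0) (nat_lit 0) (XT.lf (nat_lit 0) (nat_lit 2025013429378) (nat_lit 0) (nat_lit 0) (nat_lit 0) (nat_lit 0) (nat_lit 0) (nat_lit 0) (nat_lit 1) (nat_lit 0) (nat_lit 1) (nat_lit 0) (nat_lit 460) (nat_lit 458) (nat_lit 162)) (XT.lf (nat_lit 0) (nat_lit 2025013429359) (nat_lit 0) (nat_lit 0) (nat_lit 0) (nat_lit 0) (nat_lit 0) (nat_lit 0) (nat_lit 1) (nat_lit 0) (nat_lit 1) (nat_lit 0) (nat_lit 461) (nat_lit 458) (nat_lit 161)))))) (XT.nd (nat_lit 5640) (nat_lit 10752) (nat_lit 0) (XT.nd (nat_lit 188) (nat_lit 0) (nat_lit 84) (XT.nd (nat_lit 94) (nat_lit 0) (nat_lit 84) (XT.lf (nat_lit 924) (nat_lit 1094463977841) (nat_lit 0) (nat_lit 1943218276932) (nat_lit 924) (nat_lit 1094463977841) (nat_lit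 139) (nat_lit 1) (nat_lit 128) (nat_lit 0) (nat_lit 139) (nat_lit 0) (nat_lit 162) (nat_lit 459) (nat_lit 459)) (XT.lf (nat_lit 924) (nat_lit 408268646417) (nat_lit 0) (nat_lit 3815126420964) (nat_lit 840) (nat_lit 3731180893645) (nat_lit 140) (nat_lit 1) (nat_lit 129) (nat_lit 1) (nat_lit 139) (nat_lit 1) (nat_lit 163) (nat_lit 459) (nat_lit 458))) (XT.nd (nat_lit 94) (nat_lit 0) (nat_lit 84) (XT.lf (nat_lit 924) (nat_lit 3749711861272) (nat_lit 84) (nat_lit 2554991450114) (nat_lit 0) (nat_lit 1355050916392) (nat_lit 140) (nat_lit 1) (nat_lit 130) (nat_lit 1) (nat_lit 129) (nat_lit 1) (nat_lit 164) (nat_lit 459) (nat_lit 457)) (XT.lf (nat_lit 924) (nat_lit 3240058228958) (nat_lit 84) (nat_lit 1070779207216) (nat_lit 0) (nat_lit 3068848685681) (nat_lit 141) (nat_lit 1) (nat_lit 131) (nat_lit 1) (nat_lit 130) (nat_lit 1) (nat_lit 165) (nat_lit 459) (nat_lit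 456)))) (XT.nd (nat_lit 188) (nat_lit 0) (nat_lit 0) (XT.nd (nat_lit 94) (nat_lit 0) (nat_lit 0) (XT.lf (nat_lit 0) (nat_lit 2208613139872) (nat_lit 0) (nat_lit 0) (nat_lit 0) (nat_lit 0) (nat_lit 0) (nat_lit 0) (nat_lit 1) (nat_lit 0) (nat_lit 1) (nat_lit 0) (nat_lit 222) (nat_lit 459) (nat_lit 399)) (XT.lf (nat_lit 0) (nat_lit 2207013240877) (nat_lit 0) (nat_lit 0) (nat_lit 0) (nat_lit 0) (nat_lit 0) (nat_lit 0) (nat_lit 1) (nat_lit 0) (nat_lit 1) (nat_lit 0) (nat_lit 223) (nat_lit 459) (nat_lit 398))) (XT.nd (nat_lit 94) (nat_lit 0) (nat_lit 0) (XT.lf (nat_lit 0) (nat_lit 2205531852920) (nat_lit 0) (nat_lit 0) (nat_lit 0) (nat_lit 0) (nat_lit 0) (nat_lit 0) (nat_lit 1) (nat_lit 0) (nat_lit 1) (nat_lit 0) (nat_lit 224) (nat_lit 459) (nat_lit 397)) (XT.nd (nat_lit 94) (nat_lit 0) (nat_lit 0) (XT.lf (nat_lit 0) (nat_lit 2204160197403) (nat_lit 0) (nat_lit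 0) (nat_lit 0) (nat_lit 0) (nat_lit 0) (nat_lit 0) (nat_lit 1) (nat_lit 0) (nat_lit 1) (nat_lit 0) (nat_lit 225) (nat_lit 459) (nat_lit 396)) (XT.lf (nat_lit 0) (nat_lit 2202890145999) (nat_lit 0) (nat_lit 0) (nat_lit 0) (nat_lit 0) (nat_lit 0) (nat_lit 0) (nat_lit 1) (nat_lit 0) (nat_lit 1) (nat_lit 0) (nat_lit 226) (nat_lit 459) (nat_lit 395))))))) (XT.nd (nat_lit 846) (nat_lit 0) (nat_lit 0) (XT.nd (nat_lit 376) (nat_lit 0) (nat_lit 0) (XT.nd (nat_lit 188) (nat_lit 0) (nat_lit 0) (XT.nd (nat_lit 94) (nat_lit 0) (nat_lit 0) (XT.lf (nat_lit 0) (nat_lit 2201714172477) (nat_lit 0) (nat_lit 0) (nat_lit 0) (nat_lit 0) (nat_lit 0) (nat_lit 0) (nat_lit 1) (nat_lit 0) (nat_lit 1) (nat_lit 0) (nat_lit 227) (nat_lit 459) (nat_lit 394)) (XT.lf (nat_lit 0) (nat_lit 2200625308105) (nat_lit 0) (nat_lit 0) (nat_lit 0) (nat_lit 0) (nat_lit 0) (nat_lit 0) (nat_lit 1) (nat_lit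 0) (nat_lit 1) (nat_lit 0) (nat_lit 228) (nat_lit 459) (nat_lit 393))) (XT.nd (nat_lit 94) (nat_lit 0) (nat_lit 0) (XT.lf (nat_lit 0) (nat_lit 2199617100352) (nat_lit 0) (nat_lit 0) (nat_lit 0) (nat_lit 0) (nat_lit 0) (nat_lit 0) (nat_lit 1) (nat_lit 0) (nat_lit 1) (nat_lit 0) (nat_lit 229) (nat_lit 459) (nat_lit 392)) (XT.lf (nat_lit 0) (nat_lit 2198683574656) (nat_lit 0) (nat_lit 0) (nat_lit 0) (nat_lit 0) (nat_lit 0) (nat_lit 0) (nat_lit 1) (nat_lit 0) (nat_lit 1) (nat_lit 0) (nat_lit 230) (nat_lit 459) (nat_lit 391)))) (XT.nd (nat_lit 188) (nat_lit 0) (nat_lit 0) (XT.nd (nat_lit 94) (nat_lit 0) (nat_lit 0) (XT.lf (nat_lit 0) (nat_lit 2197819199011) (nat_lit 0) (nat_lit 0) (nat_lit 0) (nat_lit 0) (nat_lit 0) (nat_lit 0) (nat_lit 1) (nat_lit 0) (nat_lit 1) (nat_lit 0) (nat_lit 231) (nat_lit 459) (nat_lit 390)) (XT.lf (nat_lit 0) (nat_lit 2197018851191) (nat_lit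 0) (nat_lit 0) (nat_lit 0) (nat_lit 0) (nat_lit 0) (nat_lit 0) (nat_lit 1) (nat_lit 0) (nat_lit 1) (nat_lit 0) (nat_lit 232) (nat_lit 459) (nat_lit 389))) (XT.nd (nat_lit 94) (nat_lit 0) (nat_lit 0) (XT.lf (nat_lit 0) (nat_lit 2196277788395) (nat_lit 0) (nat_lit 0) (nat_lit 0) (nat_lit 0) (nat_lit 0) (nat_lit 0) (nat_lit 1) (nat_lit 0) (nat_lit 1) (nat_lit 0) (nat_lit 233) (nat_lit 459) (nat_lit 388)) (XT.nd (nat_lit 94) (nat_lit 0) (nat_lit 0) (XT.lf (nat_lit 0) (nat_lit 2195591619140) (nat_lit 0) (nat_lit 0) (nat_lit 0) (nat_lit 0) (nat_lit 0) (nat_lit 0) (nat_lit 1) (nat_lit 0) (nat_lit 1) (nat_lit 0) (nat_lit 234) (nat_lit 459) (nat_lit 387)) (XT.lf (nat_lit 0) (nat_lit 2194956277237) (nat_lit 0) (nat_lit 0) (nat_lit 0) (nat_lit 0) (nat_lit 0) (nat_lit 0) (nat_lit 1) (nat_lit 0) (nat_lit 1) (nat_lit 0) (nat_lit 235) (nat_lit 459) (nat_lit 386)))))) (XT.nd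 (nat_lit 470) (nat_lit 0) (nat_lit 0) (XT.nd (nat_lit 188) (nat_lit 0) (nat_lit 0) (XT.nd (nat_lit 94) (nat_lit 0) (nat_lit 0) (XT.lf (nat_lit 0) (nat_lit 2194367997697) (nat_lit 0) (nat_lit 0) (nat_lit 0) (nat_lit 0) (nat_lit 0) (nat_lit 0) (nat_lit 1) (nat_lit 0) (nat_lit 1) (nat_lit 0) (nat_lit 236) (nat_lit 459) (nat_lit 385)) (XT.lf (nat_lit 0) (nat_lit 2193823294419) (nat_lit 0) (nat_lit 0) (nat_lit 0) (nat_lit 0) (nat_lit 0) (nat_lit 0) (nat_lit 1) (nat_lit 0) (nat_lit 1) (nat_lit 0) (nat_lit 237) (nat_lit 459) (nat_lit 384))) (XT.nd (nat_lit 94) (nat_lit 0) (nat_lit 0) (XT.lf (nat_lit 0) (nat_lit 2193318939533) (nat_lit 0) (nat_lit 0) (nat_lit 0) (nat_lit 0) (nat_lit 0) (nat_lit 0) (nat_lit 1) (nat_lit 0) (nat_lit 1) (nat_lit 0) (nat_lit 238) (nat_lit 459) (nat_lit 383)) (XT.nd (nat_lit 94) (nat_lit 0) (nat_lit 0) (XT.lf (nat_lit 0) (nat_lit 2192851944267)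 (nat_lit 0) (nat_lit 0) (nat_lit 0) (nat_lit 0) (nat_lit 0) (nat_lit 0) (nat_lit 1) (nat_lit 0) (nat_lit 1) (nat_lit 0) (nat_lit 239) (nat_lit 459) (nat_lit 382)) (XT.lf (nat_lit 0) (nat_lit 2192419541244) (nat_lit 0) (nat_lit 0) (nat_lit 0) (nat_lit 0) (nat_lit 0) (nat_lit 0) (nat_lit 1) (nat_lit 0) (nat_lit 1) (nat_lit 0) (nat_lit 240) (nat_lit 459) (nat_lit 381))))) (XT.nd (nat_lit 188) (nat_lit 0) (nat_lit 0) (XT.nd (nat_lit 94) (nat_lit 0) (nat_lit 0) (XT.lf (nat_lit 0) (nat_lit 2192019168074) (nat_lit 0) (nat_lit 0) (nat_lit 0) (nat_lit 0) (nat_lit 0) (nat_lit 0) (nat_lit 1) (nat_lit 0) (nat_lit 1) (nat_lit 0) (nat_lit 241) (nat_lit 459) (nat_lit 380)) (XT.lf (nat_lit 0) (nat_lit 2191648452175) (nat_lit 0) (nat_lit 0) (nat_lit 0) (nat_lit 0) (nat_lit 0) (nat_lit 0) (nat_lit 1) (nat_lit 0) (nat_lit 1) (nat_lit 0) (nat_lit 242) (nat_lit 459) (nat_lit 379)))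 (XT.nd (nat_lit 94) (nat_lit 0) (nat_lit 0) (XT.lf (nat_lit 0) (nat_lit 2191305196714) (nat_lit 0) (nat_lit 0) (nat_lit 0) (nat_lit 0) (nat_lit 0) (nat_lit 0) (nat_lit 1) (nat_lit 0) (nat_lit 1) (nat_lit 0) (nat_lit 243) (nat_lit 459) (nat_lit 378)) (XT.nd (nat_lit 94) (nat_lit 0) (nat_lit 0) (XT.lf (nat_lit 0) (nat_lit 2190987367583) (nat_lit 0) (nat_lit 0) (nat_lit 0) (nat_lit 0) (nat_lit 0) (nat_lit 0) (nat_lit 1) (nat_lit 0) (nat_lit 1) (nat_lit 0) (nat_lit 244) (nat_lit 459) (nat_lit 377)) (XT.lf (nat_lit 0) (nat_lit 2190693081351) (nat_lit 0) (nat_lit 0) (nat_lit 0) (nat_lit 0) (nat_lit 0) (nat_lit 0) (nat_lit 1) (nat_lit 0) (nat_lit 1) (nat_lit 0) (nat_lit 245) (nat_lit 459) (nat_lit 376))))))))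
noncomputable def ec485 : XT := (XT.nd (nat_lit 1786) (nat_lit 0) (nat_lit 0) (XT.nd (nat_lit 846) (nat_lit 0) (nat_lit 0) (XT.nd (nat_lit 376) (nat_lit 0) (nat_lit 0) (XT.nd (nat_lit 188) (nat_lit 0) (nat_lit 0) (XT.nd (nat_lit 94) (nat_lit 0) (nat_lit 0) (XT.lf (nat_lit 0) (nat_lit 2190420594099) (nat_lit 0) (nat_lit 0) (nat_lit 0) (nat_lit 0) (nat_lit 0) (nat_lit 0) (nat_lit 1) (nat_lit 0) (nat_lit 1) (nat_lit 0) (nat_lit 246) (nat_lit 459) (nat_lit 375)) (XT.lf (nat_lit 0) (nat_lit 2190168291088) (nat_lit 0) (nat_lit 0) (nat_lit 0) (nat_lit 0) (nat_lit 0) (nat_lit 0) (nat_lit 1) (nat_lit 0) (nat_lit 1) (nat_lit 0) (nat_lit 247) (nat_lit 459) (nat_lit 374))) (XT.nd (nat_lit 94) (nat_lit 0) (nat_lit 0) (XT.lf (nat_lit 0) (nat_lit 2189934677189) (nat_lit 0) (nat_lit 0) (nat_lit 0) (nat_lit 0) (nat_lit 0) (nat_lit 0) (nat_lit 1) (nat_lit 0) (nat_lit 1) (nat_lit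 0) (nat_lit 248) (nat_lit 459) (nat_lit 373)) (XT.lf (nat_lit 0) (nat_lit 2189718368023) (nat_lit 0) (nat_lit 0) (nat_lit 0) (nat_lit 0) (nat_lit 0) (nat_lit 0) (nat_lit 1) (nat_lit 0) (nat_lit 1) (nat_lit 0) (nat_lit 249) (nat_lit 459) (nat_lit 372)))) (XT.nd (nat_lit 188) (nat_lit 0) (nat_lit 0) (XT.nd (nat_lit 94) (nat_lit 0) (nat_lit 0) (XT.lf (nat_lit 0) (nat_lit 2189518081758) (nat_lit 0) (nat_lit 0) (nat_lit 0) (nat_lit 0) (nat_lit 0) (nat_lit 0) (nat_lit 1) (nat_lit 0) (nat_lit 1) (nat_lit 0) (nat_lit 250) (nat_lit 459) (nat_lit 371)) (XT.lf (nat_lit 0) (nat_lit 2189332631513) (nat_lit 0) (nat_lit 0) (nat_lit 0) (nat_lit 0) (nat_lit 0) (nat_lit 0) (nat_lit 1) (nat_lit 0) (nat_lit 1) (nat_lit 0) (nat_lit 251) (nat_lit 459) (nat_lit 370))) (XT.nd (nat_lit 94) (nat_lit 0) (nat_lit 0) (XT.lf (nat_lit 0) (nat_lit 2189160918323) (nat_lit 0) (nat_lit 0) (nat_lit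 0) (nat_lit 0) (nat_lit 0) (nat_lit 0) (nat_lit 1) (nat_lit 0) (nat_lit 1) (nat_lit 0) (nat_lit 252) (nat_lit 459) (nat_lit 369)) (XT.nd (nat_lit 94) (nat_lit 0) (nat_lit 0) (XT.lf (nat_lit 0) (nat_lit 2189001924628) (nat_lit 0) (nat_lit 0) (nat_lit 0) (nat_lit 0) (nat_lit 0) (nat_lit 0) (nat_lit 1) (nat_lit 0) (nat_lit 1) (nat_lit 0) (nat_lit 253) (nat_lit 459) (nat_lit 368)) (XT.lf (nat_lit 0) (nat_lit 2188854708245) (nat_lit 0) (nat_lit 0) (nat_lit 0) (nat_lit 0) (nat_lit 0) (nat_lit 0) (nat_lit 1) (nat_lit 0) (nat_lit 1) (nat_lit 0) (nat_lit 254) (nat_lit 459) (nat_lit 367)))))) (XT.nd (nat_lit 470) (nat_lit 0) (nat_lit 0) (XT.nd (nat_lit 188) (nat_lit 0) (nat_lit 0) (XT.nd (nat_lit 94) (nat_lit 0) (nat_lit 0) (XT.lf (nat_lit 0) (nat_lit 2188718396778) (nat_lit 0) (nat_lit 0) (nat_lit 0) (nat_lit 0) (nat_lit 0) (nat_lit 0) (nat_lit 1) (nat_lit 0) (nat_lit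 1) (nat_lit 0) (nat_lit 255) (nat_lit 459) (nat_lit 366)) (XT.lf (nat_lit 0) (nat_lit 2188592182458) (nat_lit 0) (nat_lit 0) (nat_lit 0) (nat_lit 0) (nat_lit 0) (nat_lit 0) (nat_lit 1) (nat_lit 0) (nat_lit 1) (nat_lit 0) (nat_lit 256) (nat_lit 459) (nat_lit 365))) (XT.nd (nat_lit 94) (nat_lit 0) (nat_lit 0) (XT.lf (nat_lit 0) (nat_lit 2188475317346) (nat_lit 0) (nat_lit 0) (nat_lit 0) (nat_lit 0) (nat_lit 0) (nat_lit 0) (nat_lit 1) (nat_lit 0) (nat_lit 1) (nat_lit 0) (nat_lit 257) (nat_lit 459) (nat_lit 364)) (XT.nd (nat_lit 94) (nat_lit 0) (nat_lit 0) (XT.lf (nat_lit 0) (nat_lit 2188367108909) (nat_lit 0) (nat_lit 0) (nat_lit 0) (nat_lit 0) (nat_lit 0) (nat_lit 0) (nat_lit 1) (nat_lit 0) (nat_lit 1) (nat_lit 0) (nat_lit 258) (nat_lit 459) (nat_lit 363)) (XT.lf (nat_lit 0) (nat_lit 2188266915912) (nat_lit 0) (nat_lit 0) (nat_lit 0) (nat_lit 0) (nat_lit 0)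 (nat_lit 0) (nat_lit 1) (nat_lit 0) (nat_lit 1) (nat_lit 0) (nat_lit 259) (nat_lit 459) (nat_lit 362))))) (XT.nd (nat_lit 188) (nat_lit 0) (nat_lit 0) (XT.nd (nat_lit 94) (nat_lit 0) (nat_lit 0) (XT.lf (nat_lit 0) (nat_lit 2188174144618) (nat_lit 0) (nat_lit 0) (nat_lit 0) (nat_lit 0) (nat_lit 0) (nat_lit 0) (nat_lit 1) (nat_lit 0) (nat_lit 1) (nat_lit 0) (nat_lit 260) (nat_lit 459) (nat_lit 361)) (XT.lf (nat_lit 0) (nat_lit 2188088245272) (nat_lit 0) (nat_lit 0) (nat_lit 0) (nat_lit 0) (nat_lit 0) (nat_lit 0) (nat_lit 1) (nat_lit 0) (nat_lit 1) (nat_lit 0) (nat_lit 261) (nat_lit 459) (nat_lit 360))) (XT.nd (nat_lit 94) (nat_lit 0) (nat_lit 0) (XT.lf (nat_lit 0) (nat_lit 2188008708841) (nat_lit 0) (nat_lit 0) (nat_lit 0) (nat_lit 0) (nat_lit 0) (nat_lit 0) (nat_lit 1) (nat_lit 0) (nat_lit 1) (nat_lit 0) (nat_lit 262) (nat_lit 459) (nat_lit 359)) (XT.nd (nat_lit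 94) (nat_lit 0) (nat_lit 0) (XT.lf (nat_lit 0) (nat_lit 2187935063997) (nat_lit 0) (nat_lit 0) (nat_lit 0) (nat_lit 0) (nat_lit 0) (nat_lit 0) (nat_lit 1) (nat_lit 0) (nat_lit 1) (nat_lit 0) (nat_lit 263) (nat_lit 459) (nat_lit 358)) (XT.lf (nat_lit 0) (nat_lit 2187866874327) (nat_lit 0) (nat_lit 0) (nat_lit 0) (nat_lit 0) (nat_lit 0) (nat_lit 0) (nat_lit 1) (nat_lit 0) (nat_lit 1) (nat_lit 0) (nat_lit 264) (nat_lit 459) (nat_lit 357))))))) (XT.nd (nat_lit 846) (nat_lit 0) (nat_lit 0) (XT.nd (nat_lit 376) (nat_lit 0) (nat_lit 0) (XT.nd (nat_lit 188) (nat_lit 0) (nat_lit 0) (XT.nd (nat_lit 94) (nat_lit 0) (nat_lit 0) (XT.lf (nat_lit 0) (nat_lit 2187803735743) (nat_lit 0) (nat_lit 0) (nat_lit 0) (nat_lit 0) (nat_lit 0) (nat_lit 0) (nat_lit 1) (nat_lit 0) (nat_lit 1) (nat_lit 0) (nat_lit 265) (nat_lit 459) (nat_lit 356)) (XT.lf (nat_lit 0) (nat_lit 2187745274092)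 (nat_lit 0) (nat_lit 0) (nat_lit 0) (nat_lit 0) (nat_lit 0) (nat_lit 0) (nat_lit 1) (nat_lit 0) (nat_lit 1) (nat_lit 0) (nat_lit 266) (nat_lit 459) (nat_lit 355))) (XT.nd (nat_lit 94) (nat_lit 0) (nat_lit 0) (XT.lf (nat_lit 0) (nat_lit 2187691142933) (nat_lit 0) (nat_lit 0) (nat_lit 0) (nat_lit 0) (nat_lit 0) (nat_lit 0) (nat_lit 1) (nat_lit 0) (nat_lit 1) (nat_lit 0) (nat_lit 267) (nat_lit 459) (nat_lit 354)) (XT.lf (nat_lit 0) (nat_lit 2187641021490) (nat_lit 0) (nat_lit 0) (nat_lit 0) (nat_lit 0) (nat_lit 0) (nat_lit 0) (nat_lit 1) (nat_lit 0) (nat_lit 1) (nat_lit 0) (nat_lit 268) (nat_lit 459) (nat_lit 353)))) (XT.nd (nat_lit 188) (nat_lit 0) (nat_lit 0) (XT.nd (nat_lit 94) (nat_lit 0) (nat_lit 0) (XT.lf (nat_lit 0) (nat_lit 2187594612746) (nat_lit 0) (nat_lit 0) (nat_lit 0) (nat_lit 0) (nat_lit 0) (nat_lit 0) (nat_lit 1) (nat_lit 0) (nat_lit 1) (nat_lit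 0) (nat_lit 269) (nat_lit 459) (nat_lit 352)) (XT.lf (nat_lit 0) (nat_lit 2187551641687) (nat_lit 0) (nat_lit 0) (nat_lit 0) (nat_lit 0) (nat_lit 0) (nat_lit 0) (nat_lit 1) (nat_lit 0) (nat_lit 1) (nat_lit 0) (nat_lit 270) (nat_lit 459) (nat_lit 351))) (XT.nd (nat_lit 94) (nat_lit 0) (nat_lit 0) (XT.lf (nat_lit 0) (nat_lit 2187511853669) (nat_lit 0) (nat_lit 0) (nat_lit 0) (nat_lit 0) (nat_lit 0) (nat_lit 0) (nat_lit 1) (nat_lit 0) (nat_lit 1) (nat_lit 0) (nat_lit 271) (nat_lit 459) (nat_lit 350)) (XT.nd (nat_lit 94) (nat_lit 0) (nat_lit 0) (XT.lf (nat_lit 0) (nat_lit 2187475012912) (nat_lit 0) (nat_lit 0) (nat_lit 0) (nat_lit 0) (nat_lit 0) (nat_lit 0) (nat_lit 1) (nat_lit 0) (nat_lit 1) (nat_lit 0) (nat_lit 272) (nat_lit 459) (nat_lit 349)) (XT.lf (nat_lit 0) (nat_lit 2187440901100) (nat_lit 0) (nat_lit 0) (nat_lit 0) (nat_lit 0) (nat_lit 0) (nat_lit 0)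 (nat_lit 1) (nat_lit 0) (nat_lit 1) (nat_lit 0) (nat_lit 273) (nat_lit 459) (nat_lit 348)))))) (XT.nd (nat_lit 470) (nat_lit 0) (nat_lit 0) (XT.nd (nat_lit 188) (nat_lit 0) (nat_lit 0) (XT.nd (nat_lit 94) (nat_lit 0) (nat_lit 0) (XT.lf (nat_lit 0) (nat_lit 2187409316089) (nat_lit 0) (nat_lit 0) (nat_lit 0) (nat_lit 0) (nat_lit 0) (nat_lit 0) (nat_lit 1) (nat_lit 0) (nat_lit 1) (nat_lit 0) (nat_lit 274) (nat_lit 459) (nat_lit 347)) (XT.lf (nat_lit 0) (nat_lit 2187380070708) (nat_lit 0) (nat_lit 0) (nat_lit 0) (nat_lit 0) (nat_lit 0) (nat_lit 0) (nat_lit 1) (nat_lit 0) (nat_lit 1) (nat_lit 0) (nat_lit 275) (nat_lit 459) (nat_lit 346))) (XT.nd (nat_lit 94) (nat_lit 0) (nat_lit 0) (XT.lf (nat_lit 0) (nat_lit 2187352991652) (nat_lit 0) (nat_lit 0) (nat_lit 0) (nat_lit 0) (nat_lit 0) (nat_lit 0) (nat_lit 1) (nat_lit 0) (nat_lit 1) (nat_lit 0) (nat_lit 276) (nat_lit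 459) (nat_lit 345)) (XT.nd (nat_lit 94) (nat_lit 0) (nat_lit 0) (XT.lf (nat_lit 0) (nat_lit 2187327918451) (nat_lit 0) (nat_lit 0) (nat_lit 0) (nat_lit 0) (nat_lit 0) (nat_lit 0) (nat_lit 1) (nat_lit 0) (nat_lit 1) (nat_lit 0) (nat_lit 277) (nat_lit 459) (nat_lit 344)) (XT.lf (nat_lit 0) (nat_lit 2187304702525) (nat_lit 0) (nat_lit 0) (nat_lit 0) (nat_lit 0) (nat_lit 0) (nat_lit 0) (nat_lit 1) (nat_lit 0) (nat_lit 1) (nat_lit 0) (nat_lit 278) (nat_lit 459) (nat_lit 343))))) (XT.nd (nat_lit 188) (nat_lit 0) (nat_lit 0) (XT.nd (nat_lit 94) (nat_lit 0) (nat_lit 0) (XT.lf (nat_lit 0) (nat_lit 2187283206297) (nat_lit 0) (nat_lit 0) (nat_lit 0) (nat_lit 0) (nat_lit 0) (nat_lit 0) (nat_lit 1) (nat_lit 0) (nat_lit 1) (nat_lit 0) (nat_lit 279) (nat_lit 459) (nat_lit 342)) (XT.lf (nat_lit 0) (nat_lit 2187263302383) (nat_lit 0) (nat_lit 0) (nat_lit 0) (nat_lit 0) (nat_lit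 0) (nat_lit 0) (nat_lit 1) (nat_lit 0) (nat_lit 1) (nat_lit 0) (nat_lit 280) (nat_lit 459) (nat_lit 341))) (XT.nd (nat_lit 94) (nat_lit 0) (nat_lit 0) (XT.lf (nat_lit 0) (nat_lit 2187244872832) (nat_lit 0) (nat_lit 0) (nat_lit 0) (nat_lit 0) (nat_lit 0) (nat_lit 0) (nat_lit 1) (nat_lit 0) (nat_lit 1) (nat_lit 0) (nat_lit 281) (nat_lit 459) (nat_lit 340)) (XT.nd (nat_lit 94) (nat_lit 0) (nat_lit 0) (XT.lf (nat_lit 0) (nat_lit 2187227808433) (nat_lit 0) (nat_lit 0) (nat_lit 0) (nat_lit 0) (nat_lit 0) (nat_lit 0) (nat_lit 1) (nat_lit 0) (nat_lit 1) (nat_lit 0) (nat_lit 282) (nat_lit 459) (nat_lit 339)) (XT.lf (nat_lit 0) (nat_lit 2187212008064) (nat_lit 0) (nat_lit 0) (nat_lit 0) (nat_lit 0) (nat_lit 0) (nat_lit 0) (nat_lit 1) (nat_lit 0) (nat_lit 1) (nat_lit 0) (nat_lit 283) (nat_lit 459) (nat_lit 338))))))))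
noncomputable def ec486 : XT := (XT.nd (nat_lit 4136) (nat_lit 0) (nat_lit 0) (XT.nd (nat_lit 846) (nat_lit 0) (nat_lit 0) (XT.nd (nat_lit 376) (nat_lit 0) (nat_lit 0) (XT.nd (nat_lit 188) (nat_lit 0) (nat_lit 0) (XT.nd (nat_lit 94) (nat_lit 0) (nat_lit 0) (XT.lf (nat_lit 0) (nat_lit 2187197378092) (nat_lit 0) (nat_lit 0) (nat_lit 0) (nat_lit 0) (nat_lit 0) (nat_lit 0) (nat_lit 1) (nat_lit 0) (nat_lit 1) (nat_lit 0) (nat_lit 284) (nat_lit 459) (nat_lit 337)) (XT.lf (nat_lit 0) (nat_lit 2187183831822) (nat_lit 0) (nat_lit 0) (nat_lit 0) (nat_lit 0) (nat_lit 0) (nat_lit 0) (nat_lit 1) (nat_lit 0) (nat_lit 1) (nat_lit 0) (nat_lit 285) (nat_lit 459) (nat_lit 336))) (XT.nd (nat_lit 94) (nat_lit 0) (nat_lit 0) (XT.lf (nat_lit 0) (nat_lit 2187171288980) (nat_lit 0) (nat_lit 0) (nat_lit 0) (nat_lit 0) (nat_lit 0) (nat_lit 0) (nat_lit 1) (nat_lit 0) (nat_lit 1) (nat_lit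 0) (nat_lit 286) (nat_lit 459) (nat_lit 335)) (XT.lf (nat_lit 0) (nat_lit 2187159675237) (nat_lit 0) (nat_lit 0) (nat_lit 0) (nat_lit 0) (nat_lit 0) (nat_lit 0) (nat_lit 1) (nat_lit 0) (nat_lit 1) (nat_lit 0) (nat_lit 287) (nat_lit 459) (nat_lit 334)))) (XT.nd (nat_lit 188) (nat_lit 0) (nat_lit 0) (XT.nd (nat_lit 94) (nat_lit 0) (nat_lit 0) (XT.lf (nat_lit 0) (nat_lit 2187148921771) (nat_lit 0) (nat_lit 0) (nat_lit 0) (nat_lit 0) (nat_lit 0) (nat_lit 0) (nat_lit 1) (nat_lit 0) (nat_lit 1) (nat_lit 0) (nat_lit 288) (nat_lit 459) (nat_lit 333)) (XT.lf (nat_lit 0) (nat_lit 2187138964858) (nat_lit 0) (nat_lit 0) (nat_lit 0) (nat_lit 0) (nat_lit 0) (nat_lit 0) (nat_lit 1) (nat_lit 0) (nat_lit 1) (nat_lit 0) (nat_lit 289) (nat_lit 459) (nat_lit 332))) (XT.nd (nat_lit 94) (nat_lit 0) (nat_lit 0) (XT.lf (nat_lit 0) (nat_lit 2187129745495) (nat_lit 0) (nat_lit 0) (nat_lit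 0) (nat_lit 0) (nat_lit 0) (nat_lit 0) (nat_lit 1) (nat_lit 0) (nat_lit 1) (nat_lit 0) (nat_lit 290) (nat_lit 459) (nat_lit 331)) (XT.nd (nat_lit 94) (nat_lit 0) (nat_lit 0) (XT.lf (nat_lit 0) (nat_lit 2187121209047) (nat_lit 0) (nat_lit 0) (nat_lit 0) (nat_lit 0) (nat_lit 0) (nat_lit 0) (nat_lit 1) (nat_lit 0) (nat_lit 1) (nat_lit 0) (nat_lit 291) (nat_lit 459) (nat_lit 330)) (XT.lf (nat_lit 0) (nat_lit 2187113304928) (nat_lit 0) (nat_lit 0) (nat_lit 0) (nat_lit 0) (nat_lit 0) (nat_lit 0) (nat_lit 1) (nat_lit 0) (nat_lit 1) (nat_lit 0) (nat_lit 292) (nat_lit 459) (nat_lit 329)))))) (XT.nd (nat_lit 376) (nat_lit 0) (nat_lit 0) (XT.nd (nat_lit 188) (nat_lit 0) (nat_lit 0) (XT.nd (nat_lit 94) (nat_lit 0) (nat_lit 0) (XT.lf (nat_lit 0) (nat_lit 2187105986300) (nat_lit 0) (nat_lit 0) (nat_lit 0) (nat_lit 0) (nat_lit 0) (nat_lit 0) (nat_lit 1) (nat_lit 0) (nat_lit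 1) (nat_lit 0) (nat_lit 293) (nat_lit 459) (nat_lit 328)) (XT.lf (nat_lit 0) (nat_lit 2187099209793) (nat_lit 0) (nat_lit 0) (nat_lit 0) (nat_lit 0) (nat_lit 0) (nat_lit 0) (nat_lit 1) (nat_lit 0) (nat_lit 1) (nat_lit 0) (nat_lit 294) (nat_lit 459) (nat_lit 327))) (XT.nd (nat_lit 94) (nat_lit 0) (nat_lit 0) (XT.lf (nat_lit 0) (nat_lit 2187092935249) (nat_lit 0) (nat_lit 0) (nat_lit 0) (nat_lit 0) (nat_lit 0) (nat_lit 0) (nat_lit 1) (nat_lit 0) (nat_lit 1) (nat_lit 0) (nat_lit 295) (nat_lit 459) (nat_lit 326)) (XT.lf (nat_lit 0) (nat_lit 2187087125486) (nat_lit 0) (nat_lit 0) (nat_lit 0) (nat_lit 0) (nat_lit 0) (nat_lit 0) (nat_lit 1) (nat_lit 0) (nat_lit 1) (nat_lit 0) (nat_lit 296) (nat_lit 459) (nat_lit 325)))) (XT.nd (nat_lit 2632) (nat_lit 0) (nat_lit 0) (XT.nd (nat_lit 2538) (nat_lit 0) (nat_lit 0) (XT.lf (nat_lit 0) (nat_lit 2187081746075) (nat_lit 0)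 (nat_lit 0) (nat_lit 0) (nat_lit 0) (nat_lit 0) (nat_lit 0) (nat_lit 1) (nat_lit 0) (nat_lit 1) (nat_lit 0) (nat_lit 297) (nat_lit 459) (nat_lit 324)) (XT.lf (nat_lit 0) (nat_lit 2187022921339) (nat_lit 0) (nat_lit 0) (nat_lit 0) (nat_lit 0) (nat_lit 0) (nat_lit 0) (nat_lit 1) (nat_lit 0) (nat_lit 1) (nat_lit 0) (nat_lit 324) (nat_lit 459) (nat_lit 297))) (XT.nd (nat_lit 94) (nat_lit 0) (nat_lit 0) (XT.lf (nat_lit 0) (nat_lit 2187022297792) (nat_lit 0) (nat_lit 0) (nat_lit 0) (nat_lit 0) (nat_lit 0) (nat_lit 0) (nat_lit 1) (nat_lit 0) (nat_lit 1) (nat_lit 0) (nat_lit 325) (nat_lit 459) (nat_lit 296)) (XT.nd (nat_lit 94) (nat_lit 0) (nat_lit 0) (XT.lf (nat_lit 0) (nat_lit 2187021720433) (nat_lit 0) (nat_lit 0) (nat_lit 0) (nat_lit 0) (nat_lit 0) (nat_lit 0) (nat_lit 1) (nat_lit 0) (nat_lit 1) (nat_lit 0) (nat_lit 326) (nat_lit 459) (nat_lit 295)) (XT.lf (nat_lit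 0) (nat_lit 2187021185841) (nat_lit 0) (nat_lit 0) (nat_lit 0) (nat_lit 0) (nat_lit 0) (nat_lit 0) (nat_lit 1) (nat_lit 0) (nat_lit 1) (nat_lit 0) (nat_lit 327) (nat_lit 459) (nat_lit 294))))))) (XT.nd (nat_lit 846) (nat_lit 0) (nat_lit 0) (XT.nd (nat_lit 376) (nat_lit 0) (nat_lit 0) (XT.nd (nat_lit 188) (nat_lit 0) (nat_lit 0) (XT.nd (nat_lit 94) (nat_lit 0) (nat_lit 0) (XT.lf (nat_lit 0) (nat_lit 2187020690849) (nat_lit 0) (nat_lit 0) (nat_lit 0) (nat_lit 0) (nat_lit 0) (nat_lit 0) (nat_lit 1) (nat_lit 0) (nat_lit 1) (nat_lit 0) (nat_lit 328) (nat_lit 459) (nat_lit 293)) (XT.lf (nat_lit 0) (nat_lit 2187020232523) (nat_lit 0) (nat_lit 0) (nat_lit 0) (nat_lit 0) (nat_lit 0) (nat_lit 0) (nat_lit 1) (nat_lit 0) (nat_lit 1) (nat_lit 0) (nat_lit 329) (nat_lit 459) (nat_lit 292))) (XT.nd (nat_lit 94) (nat_lit 0) (nat_lit 0) (XT.lf (nat_lit 0) (nat_lit 2187019808147)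 (nat_lit 0) (nat_lit 0) (nat_lit 0) (nat_lit 0) (nat_lit 0) (nat_lit 0) (nat_lit 1) (nat_lit 0) (nat_lit 1) (nat_lit 0) (nat_lit 330) (nat_lit 459) (nat_lit 291)) (XT.lf (nat_lit 0) (nat_lit 2187019415207) (nat_lit 0) (nat_lit 0) (nat_lit 0) (nat_lit 0) (nat_lit 0) (nat_lit 0) (nat_lit 1) (nat_lit 0) (nat_lit 1) (nat_lit 0) (nat_lit 331) (nat_lit 459) (nat_lit 290)))) (XT.nd (nat_lit 188) (nat_lit 0) (nat_lit 0) (XT.nd (nat_lit 94) (nat_lit 0) (nat_lit 0) (XT.lf (nat_lit 0) (nat_lit 2187019051373) (nat_lit 0) (nat_lit 0) (nat_lit 0) (nat_lit 0) (nat_lit 0) (nat_lit 0) (nat_lit 1) (nat_lit 0) (nat_lit 1) (nat_lit 0) (nat_lit 332) (nat_lit 459) (nat_lit 289)) (XT.lf (nat_lit 0) (nat_lit 2187018714489) (nat_lit 0) (nat_lit 0) (nat_lit 0) (nat_lit 0) (nat_lit 0) (nat_lit 0) (nat_lit 1) (nat_lit 0) (nat_lit 1) (nat_lit 0) (nat_lit 333) (nat_lit 459) (nat_lit 288)))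 (XT.nd (nat_lit 94) (nat_lit 0) (nat_lit 0) (XT.lf (nat_lit 0) (nat_lit 2187018402560) (nat_lit 0) (nat_lit 0) (nat_lit 0) (nat_lit 0) (nat_lit 0) (nat_lit 0) (nat_lit 1) (nat_lit 0) (nat_lit 1) (nat_lit 0) (nat_lit 334) (nat_lit 459) (nat_lit 287)) (XT.nd (nat_lit 94) (nat_lit 0) (nat_lit 0) (XT.lf (nat_lit 0) (nat_lit 2187018113737) (nat_lit 0) (nat_lit 0) (nat_lit 0) (nat_lit 0) (nat_lit 0) (nat_lit 0) (nat_lit 1) (nat_lit 0) (nat_lit 1) (nat_lit 0) (nat_lit 335) (nat_lit 459) (nat_lit 286)) (XT.lf (nat_lit 0) (nat_lit 2187017846309) (nat_lit 0) (nat_lit 0) (nat_lit 0) (nat_lit 0) (nat_lit 0) (nat_lit 0) (nat_lit 1) (nat_lit 0) (nat_lit 1) (nat_lit 0) (nat_lit 336) (nat_lit 459) (nat_lit 285)))))) (XT.nd (nat_lit 470) (nat_lit 0) (nat_lit 0) (XT.nd (nat_lit 188) (nat_lit 0) (nat_lit 0) (XT.nd (nat_lit 94) (nat_lit 0) (nat_lit 0) (XT.lf (nat_lit 0) (nat_lit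 2187017598689) (nat_lit 0) (nat_lit 0) (nat_lit 0) (nat_lit 0) (nat_lit 0) (nat_lit 0) (nat_lit 1) (nat_lit 0) (nat_lit 1) (nat_lit 0) (nat_lit 337) (nat_lit 459) (nat_lit 284)) (XT.lf (nat_lit 0) (nat_lit 2187017369412) (nat_lit 0) (nat_lit 0) (nat_lit 0) (nat_lit 0) (nat_lit 0) (nat_lit 0) (nat_lit 1) (nat_lit 0) (nat_lit 1) (nat_lit 0) (nat_lit 338) (nat_lit 459) (nat_lit 283))) (XT.nd (nat_lit 94) (nat_lit 0) (nat_lit 0) (XT.lf (nat_lit 0) (nat_lit 2187017157119) (nat_lit 0) (nat_lit 0) (nat_lit 0) (nat_lit 0) (nat_lit 0) (nat_lit 0) (nat_lit 1) (nat_lit 0) (nat_lit 1) (nat_lit 0) (nat_lit 339) (nat_lit 459) (nat_lit 282)) (XT.nd (nat_lit 94) (nat_lit 0) (nat_lit 0) (XT.lf (nat_lit 0) (nat_lit 2187016960550) (nat_lit 0) (nat_lit 0) (nat_lit 0) (nat_lit 0) (nat_lit 0) (nat_lit 0) (nat_lit 1) (nat_lit 0) (nat_lit 1) (nat_lit 0) (nat_lit 340) (nat_lit 459)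 (nat_lit 281)) (XT.lf (nat_lit 0) (nat_lit 2187016778543) (nat_lit 0) (nat_lit 0) (nat_lit 0) (nat_lit 0) (nat_lit 0) (nat_lit 0) (nat_lit 1) (nat_lit 0) (nat_lit 1) (nat_lit 0) (nat_lit 341) (nat_lit 459) (nat_lit 280))))) (XT.nd (nat_lit 188) (nat_lit 0) (nat_lit 0) (XT.nd (nat_lit 94) (nat_lit 0) (nat_lit 0) (XT.lf (nat_lit 0) (nat_lit 2187016610017) (nat_lit 0) (nat_lit 0) (nat_lit 0) (nat_lit 0) (nat_lit 0) (nat_lit 0) (nat_lit 1) (nat_lit 0) (nat_lit 1) (nat_lit 0) (nat_lit 342) (nat_lit 459) (nat_lit 279)) (XT.lf (nat_lit 0) (nat_lit 2187016453975) (nat_lit 0) (nat_lit 0) (nat_lit 0) (nat_lit 0) (nat_lit 0) (nat_lit 0) (nat_lit 1) (nat_lit 0) (nat_lit 1) (nat_lit 0) (nat_lit 343) (nat_lit 459) (nat_lit 278))) (XT.nd (nat_lit 94) (nat_lit 0) (nat_lit 0) (XT.lf (nat_lit 0) (nat_lit 2187016309492) (nat_lit 0) (nat_lit 0) (nat_lit 0) (nat_lit 0) (nat_lit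 0) (nat_lit 0) (nat_lit 1) (nat_lit 0) (nat_lit 1) (nat_lit 0) (nat_lit 344) (nat_lit 459) (nat_lit 277)) (XT.nd (nat_lit 94) (nat_lit 0) (nat_lit 0) (XT.lf (nat_lit 0) (nat_lit 2187016175711) (nat_lit 0) (nat_lit 0) (nat_lit 0) (nat_lit 0) (nat_lit 0) (nat_lit 0) (nat_lit 1) (nat_lit 0) (nat_lit 1) (nat_lit 0) (nat_lit 345) (nat_lit 459) (nat_lit 276)) (XT.lf (nat_lit 0) (nat_lit 2187016051839) (nat_lit 0) (nat_lit 0) (nat_lit 0) (nat_lit 0) (nat_lit 0) (nat_lit 0) (nat_lit 1) (nat_lit 0) (nat_lit 1) (nat_lit 0) (nat_lit 346) (nat_lit 459) (nat_lit 275))))))))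
noncomputable def ec487 : XT := (XT.nd (nat_lit 1786) (nat_lit 0) (nat_lit 0) (XT.nd (nat_lit 846) (nat_lit 0) (nat_lit 0) (XT.nd (nat_lit 376) (nat_lit 0) (nat_lit 0) (XT.nd (nat_lit 188) (nat_lit 0) (nat_lit 0) (XT.nd (nat_lit 94) (nat_lit 0) (nat_lit 0) (XT.lf (nat_lit 0) (nat_lit 2187015937144) (nat_lit 0) (nat_lit 0) (nat_lit 0) (nat_lit 0) (nat_lit 0) (nat_lit 0) (nat_lit 1) (nat_lit 0) (nat_lit 1) (nat_lit 0) (nat_lit 347) (nat_lit 459) (nat_lit 274)) (XT.lf (nat_lit 0) (nat_lit 2187015830944) (nat_lit 0) (nat_lit 0) (nat_lit 0) (nat_lit 0) (nat_lit 0) (nat_lit 0) (nat_lit 1) (nat_lit 0) (nat_lit 1) (nat_lit 0) (nat_lit 348) (nat_lit 459) (nat_lit 273))) (XT.nd (nat_lit 94) (nat_lit 0) (nat_lit 0) (XT.lf (nat_lit 0) (nat_lit 2187015732611) (nat_lit 0) (nat_lit 0) (nat_lit 0) (nat_lit 0) (nat_lit 0) (nat_lit 0) (nat_lit 1) (nat_lit 0) (nat_lit 1) (nat_lit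 0) (nat_lit 349) (nat_lit 459) (nat_lit 272)) (XT.lf (nat_lit 0) (nat_lit 2187015641562) (nat_lit 0) (nat_lit 0) (nat_lit 0) (nat_lit 0) (nat_lit 0) (nat_lit 0) (nat_lit 1) (nat_lit 0) (nat_lit 1) (nat_lit 0) (nat_lit 350) (nat_lit 459) (nat_lit 271)))) (XT.nd (nat_lit 188) (nat_lit 0) (nat_lit 0) (XT.nd (nat_lit 94) (nat_lit 0) (nat_lit 0) (XT.lf (nat_lit 0) (nat_lit 2187015557257) (nat_lit 0) (nat_lit 0) (nat_lit 0) (nat_lit 0) (nat_lit 0) (nat_lit 0) (nat_lit 1) (nat_lit 0) (nat_lit 1) (nat_lit 0) (nat_lit 351) (nat_lit 459) (nat_lit 270)) (XT.lf (nat_lit 0) (nat_lit 2187015479197) (nat_lit 0) (nat_lit 0) (nat_lit 0) (nat_lit 0) (nat_lit 0) (nat_lit 0) (nat_lit 1) (nat_lit 0) (nat_lit 1) (nat_lit 0) (nat_lit 352) (nat_lit 459) (nat_lit 269))) (XT.nd (nat_lit 94) (nat_lit 0) (nat_lit 0) (XT.lf (nat_lit 0) (nat_lit 2187015406920) (nat_lit 0) (nat_lit 0) (nat_lit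 0) (nat_lit 0) (nat_lit 0) (nat_lit 0) (nat_lit 1) (nat_lit 0) (nat_lit 1) (nat_lit 0) (nat_lit 353) (nat_lit 459) (nat_lit 268)) (XT.nd (nat_lit 94) (nat_lit 0) (nat_lit 0) (XT.lf (nat_lit 0) (nat_lit 2187015339996) (nat_lit 0) (nat_lit 0) (nat_lit 0) (nat_lit 0) (nat_lit 0) (nat_lit 0) (nat_lit 1) (nat_lit 0) (nat_lit 1) (nat_lit 0) (nat_lit 354) (nat_lit 459) (nat_lit 267)) (XT.lf (nat_lit 0) (nat_lit 2187015278029) (nat_lit 0) (nat_lit 0) (nat_lit 0) (nat_lit 0) (nat_lit 0) (nat_lit 0) (nat_lit 1) (nat_lit 0) (nat_lit 1) (nat_lit 0) (nat_lit 355) (nat_lit 459) (nat_lit 266)))))) (XT.nd (nat_lit 470) (nat_lit 0) (nat_lit 0) (XT.nd (nat_lit 188) (nat_lit 0) (nat_lit 0) (XT.nd (nat_lit 94) (nat_lit 0) (nat_lit 0) (XT.lf (nat_lit 0) (nat_lit 2187015220653) (nat_lit 0) (nat_lit 0) (nat_lit 0) (nat_lit 0) (nat_lit 0) (nat_lit 0) (nat_lit 1) (nat_lit 0) (nat_lit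 1) (nat_lit 0) (nat_lit 356) (nat_lit 459) (nat_lit 265)) (XT.lf (nat_lit 0) (nat_lit 2187015167527) (nat_lit 0) (nat_lit 0) (nat_lit 0) (nat_lit 0) (nat_lit 0) (nat_lit 0) (nat_lit 1) (nat_lit 0) (nat_lit 1) (nat_lit 0) (nat_lit 357) (nat_lit 459) (nat_lit 264))) (XT.nd (nat_lit 94) (nat_lit 0) (nat_lit 0) (XT.lf (nat_lit 0) (nat_lit 2187015118336) (nat_lit 0) (nat_lit 0) (nat_lit 0) (nat_lit 0) (nat_lit 0) (nat_lit 0) (nat_lit 1) (nat_lit 0) (nat_lit 1) (nat_lit 0) (nat_lit 358) (nat_lit 459) (nat_lit 263)) (XT.nd (nat_lit 94) (nat_lit 0) (nat_lit 0) (XT.lf (nat_lit 0) (nat_lit 2187015072789) (nat_lit 0) (nat_lit 0) (nat_lit 0) (nat_lit 0) (nat_lit 0) (nat_lit 0) (nat_lit 1) (nat_lit 0) (nat_lit 1) (nat_lit 0) (nat_lit 359) (nat_lit 459) (nat_lit 262)) (XT.lf (nat_lit 0) (nat_lit 2187015030615) (nat_lit 0) (nat_lit 0) (nat_lit 0) (nat_lit 0) (nat_lit 0)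 (nat_lit 0) (nat_lit 1) (nat_lit 0) (nat_lit 1) (nat_lit 0) (nat_lit 360) (nat_lit 459) (nat_lit 261))))) (XT.nd (nat_lit 188) (nat_lit 0) (nat_lit 0) (XT.nd (nat_lit 94) (nat_lit 0) (nat_lit 0) (XT.lf (nat_lit 0) (nat_lit 2187014991566) (nat_lit 0) (nat_lit 0) (nat_lit 0) (nat_lit 0) (nat_lit 0) (nat_lit 0) (nat_lit 1) (nat_lit 0) (nat_lit 1) (nat_lit 0) (nat_lit 361) (nat_lit 459) (nat_lit 260)) (XT.lf (nat_lit 0) (nat_lit 2187014955409) (nat_lit 0) (nat_lit 0) (nat_lit 0) (nat_lit 0) (nat_lit 0) (nat_lit 0) (nat_lit 1) (nat_lit 0) (nat_lit 1) (nat_lit 0) (nat_lit 362) (nat_lit 459) (nat_lit 259))) (XT.nd (nat_lit 94) (nat_lit 0) (nat_lit 0) (XT.lf (nat_lit 0) (nat_lit 2187014921930) (nat_lit 0) (nat_lit 0) (nat_lit 0) (nat_lit 0) (nat_lit 0) (nat_lit 0) (nat_lit 1) (nat_lit 0) (nat_lit 1) (nat_lit 0) (nat_lit 363) (nat_lit 459) (nat_lit 258)) (XT.nd (nat_lit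 94) (nat_lit 0) (nat_lit 0) (XT.lf (nat_lit 0) (nat_lit 2187014890932) (nat_lit 0) (nat_lit 0) (nat_lit 0) (nat_lit 0) (nat_lit 0) (nat_lit 0) (nat_lit 1) (nat_lit 0) (nat_lit 1) (nat_lit 0) (nat_lit 364) (nat_lit 459) (nat_lit 257)) (XT.lf (nat_lit 0) (nat_lit 2187014862229) (nat_lit 0) (nat_lit 0) (nat_lit 0) (nat_lit 0) (nat_lit 0) (nat_lit 0) (nat_lit 1) (nat_lit 0) (nat_lit 1) (nat_lit 0) (nat_lit 365) (nat_lit 459) (nat_lit 256))))))) (XT.nd (nat_lit 846) (nat_lit 0) (nat_lit 0) (XT.nd (nat_lit 376) (nat_lit 0) (nat_lit 0) (XT.nd (nat_lit 188) (nat_lit 0) (nat_lit 0) (XT.nd (nat_lit 94) (nat_lit 0) (nat_lit 0) (XT.lf (nat_lit 0) (nat_lit 2187014835653) (nat_lit 0) (nat_lit 0) (nat_lit 0) (nat_lit 0) (nat_lit 0) (nat_lit 0) (nat_lit 1) (nat_lit 0) (nat_lit 1) (nat_lit 0) (nat_lit 366) (nat_lit 459) (nat_lit 255)) (XT.lf (nat_lit 0) (nat_lit 2187014811045)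 (nat_lit 0) (nat_lit 0) (nat_lit 0) (nat_lit 0) (nat_lit 0) (nat_lit 0) (nat_lit 1) (nat_lit 0) (nat_lit 1) (nat_lit 0) (nat_lit 367) (nat_lit 459) (nat_lit 254))) (XT.nd (nat_lit 94) (nat_lit 0) (nat_lit 0) (XT.lf (nat_lit 0) (nat_lit 2187014788260) (nat_lit 0) (nat_lit 0) (nat_lit 0) (nat_lit 0) (nat_lit 0) (nat_lit 0) (nat_lit 1) (nat_lit 0) (nat_lit 1) (nat_lit 0) (nat_lit 368) (nat_lit 459) (nat_lit 253)) (XT.lf (nat_lit 0) (nat_lit 2187014767163) (nat_lit 0) (nat_lit 0) (nat_lit 0) (nat_lit 0) (nat_lit 0) (nat_lit 0) (nat_lit 1) (nat_lit 0) (nat_lit 1) (nat_lit 0) (nat_lit 369) (nat_lit 459) (nat_lit 252)))) (XT.nd (nat_lit 188) (nat_lit 0) (nat_lit 0) (XT.nd (nat_lit 94) (nat_lit 0) (nat_lit 0) (XT.lf (nat_lit 0) (nat_lit 2187014747629) (nat_lit 0) (nat_lit 0) (nat_lit 0) (nat_lit 0) (nat_lit 0) (nat_lit 0) (nat_lit 1) (nat_lit 0) (nat_lit 1) (nat_lit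 0) (nat_lit 370) (nat_lit 459) (nat_lit 251)) (XT.lf (nat_lit 0) (nat_lit 2187014729541) (nat_lit 0) (nat_lit 0) (nat_lit 0) (nat_lit 0) (nat_lit 0) (nat_lit 0) (nat_lit 1) (nat_lit 0) (nat_lit 1) (nat_lit 0) (nat_lit 371) (nat_lit 459) (nat_lit 250))) (XT.nd (nat_lit 94) (nat_lit 0) (nat_lit 0) (XT.lf (nat_lit 0) (nat_lit 2187014712794) (nat_lit 0) (nat_lit 0) (nat_lit 0) (nat_lit 0) (nat_lit 0) (nat_lit 0) (nat_lit 1) (nat_lit 0) (nat_lit 1) (nat_lit 0) (nat_lit 372) (nat_lit 459) (nat_lit 249)) (XT.nd (nat_lit 94) (nat_lit 0) (nat_lit 0) (XT.lf (nat_lit 0) (nat_lit 2187014697287) (nat_lit 0) (nat_lit 0) (nat_lit 0) (nat_lit 0) (nat_lit 0) (nat_lit 0) (nat_lit 1) (nat_lit 0) (nat_lit 1) (nat_lit 0) (nat_lit 373) (nat_lit 459) (nat_lit 248)) (XT.lf (nat_lit 0) (nat_lit 2187014682928) (nat_lit 0) (nat_lit 0) (nat_lit 0) (nat_lit 0) (nat_lit 0) (nat_lit 0)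 (nat_lit 1) (nat_lit 0) (nat_lit 1) (nat_lit 0) (nat_lit 374) (nat_lit 459) (nat_lit 247)))))) (XT.nd (nat_lit 470) (nat_lit 0) (nat_lit 0) (XT.nd (nat_lit 188) (nat_lit 0) (nat_lit 0) (XT.nd (nat_lit 94) (nat_lit 0) (nat_lit 0) (XT.lf (nat_lit 0) (nat_lit 2187014669633) (nat_lit 0) (nat_lit 0) (nat_lit 0) (nat_lit 0) (nat_lit 0) (nat_lit 0) (nat_lit 1) (nat_lit 0) (nat_lit 1) (nat_lit 0) (nat_lit 375) (nat_lit 459) (nat_lit 246)) (XT.lf (nat_lit 0) (nat_lit 2187014657323) (nat_lit 0) (nat_lit 0) (nat_lit 0) (nat_lit 0) (nat_lit 0) (nat_lit 0) (nat_lit 1) (nat_lit 0) (nat_lit 1) (nat_lit 0) (nat_lit 376) (nat_lit 459) (nat_lit 245))) (XT.nd (nat_lit 94) (nat_lit 0) (nat_lit 0) (XT.lf (nat_lit 0) (nat_lit 2187014645925) (nat_lit 0) (nat_lit 0) (nat_lit 0) (nat_lit 0) (nat_lit 0) (nat_lit 0) (nat_lit 1) (nat_lit 0) (nat_lit 1) (nat_lit 0) (nat_lit 377) (nat_lit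 459) (nat_lit 244)) (XT.nd (nat_lit 94) (nat_lit 0) (nat_lit 0) (XT.lf (nat_lit 0) (nat_lit 2187014635371) (nat_lit 0) (nat_lit 0) (nat_lit 0) (nat_lit 0) (nat_lit 0) (nat_lit 0) (nat_lit 1) (nat_lit 0) (nat_lit 1) (nat_lit 0) (nat_lit 378) (nat_lit 459) (nat_lit 243)) (XT.lf (nat_lit 0) (nat_lit 2187014625599) (nat_lit 0) (nat_lit 0) (nat_lit 0) (nat_lit 0) (nat_lit 0) (nat_lit 0) (nat_lit 1) (nat_lit 0) (nat_lit 1) (nat_lit 0) (nat_lit 379) (nat_lit 459) (nat_lit 242))))) (XT.nd (nat_lit 188) (nat_lit 0) (nat_lit 0) (XT.nd (nat_lit 94) (nat_lit 0) (nat_lit 0) (XT.lf (nat_lit 0) (nat_lit 2187014616551) (nat_lit 0) (nat_lit 0) (nat_lit 0) (nat_lit 0) (nat_lit 0) (nat_lit 0) (nat_lit 1) (nat_lit 0) (nat_lit 1) (nat_lit 0) (nat_lit 380) (nat_lit 459) (nat_lit 241)) (XT.lf (nat_lit 0) (nat_lit 2187014608173) (nat_lit 0) (nat_lit 0) (nat_lit 0) (nat_lit 0) (nat_lit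 0) (nat_lit 0) (nat_lit 1) (nat_lit 0) (nat_lit 1) (nat_lit 0) (nat_lit 381) (nat_lit 459) (nat_lit 240))) (XT.nd (nat_lit 94) (nat_lit 0) (nat_lit 0) (XT.lf (nat_lit 0) (nat_lit 2187014600416) (nat_lit 0) (nat_lit 0) (nat_lit 0) (nat_lit 0) (nat_lit 0) (nat_lit 0) (nat_lit 1) (nat_lit 0) (nat_lit 1) (nat_lit 0) (nat_lit 382) (nat_lit 459) (nat_lit 239)) (XT.nd (nat_lit 94) (nat_lit 0) (nat_lit 0) (XT.lf (nat_lit 0) (nat_lit 2187014593233) (nat_lit 0) (nat_lit 0) (nat_lit 0) (nat_lit 0) (nat_lit 0) (nat_lit 0) (nat_lit 1) (nat_lit 0) (nat_lit 1) (nat_lit 0) (nat_lit 383) (nat_lit 459) (nat_lit 238)) (XT.lf (nat_lit 0) (nat_lit 2187014586582) (nat_lit 0) (nat_lit 0) (nat_lit 0) (nat_lit 0) (nat_lit 0) (nat_lit 0) (nat_lit 1) (nat_lit 0) (nat_lit 1) (nat_lit 0) (nat_lit 384) (nat_lit 459) (nat_lit 237))))))))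
noncomputable def ec488 : XT := (XT.nd (nat_lit 6956) (nat_lit 0) (nat_lit 0) (XT.nd (nat_lit 846) (nat_lit 0) (nat_lit 0) (XT.nd (nat_lit 376) (nat_lit 0) (nat_lit 0) (XT.nd (nat_lit 188) (nat_lit 0) (nat_lit 0) (XT.nd (nat_lit 94) (nat_lit 0) (nat_lit 0) (XT.lf (nat_lit 0) (nat_lit 2187014580424) (nat_lit 0) (nat_lit 0) (nat_lit 0) (nat_lit 0) (nat_lit 0) (nat_lit 0) (nat_lit 1) (nat_lit 0) (nat_lit 1) (nat_lit 0) (nat_lit 385) (nat_lit 459) (nat_lit 236)) (XT.lf (nat_lit 0) (nat_lit 2187014574722) (nat_lit 0) (nat_lit 0) (nat_lit 0) (nat_lit 0) (nat_lit 0) (nat_lit 0) (nat_lit 1) (nat_lit 0) (nat_lit 1) (nat_lit 0) (nat_lit 386) (nat_lit 459) (nat_lit 235))) (XT.nd (nat_lit 94) (nat_lit 0) (nat_lit 0) (XT.lf (nat_lit 0) (nat_lit 2187014569443) (nat_lit 0) (nat_lit 0) (nat_lit 0) (nat_lit 0) (nat_lit 0) (nat_lit 0) (nat_lit 1) (nat_lit 0) (nat_lit 1) (nat_lit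 0) (nat_lit 387) (nat_lit 459) (nat_lit 234)) (XT.lf (nat_lit 0) (nat_lit 2187014564554) (nat_lit 0) (nat_lit 0) (nat_lit 0) (nat_lit 0) (nat_lit 0) (nat_lit 0) (nat_lit 1) (nat_lit 0) (nat_lit 1) (nat_lit 0) (nat_lit 388) (nat_lit 459) (nat_lit 233)))) (XT.nd (nat_lit 188) (nat_lit 0) (nat_lit 0) (XT.nd (nat_lit 94) (nat_lit 0) (nat_lit 0) (XT.lf (nat_lit 0) (nat_lit 2187014560028) (nat_lit 0) (nat_lit 0) (nat_lit 0) (nat_lit 0) (nat_lit 0) (nat_lit 0) (nat_lit 1) (nat_lit 0) (nat_lit 1) (nat_lit 0) (nat_lit 389) (nat_lit 459) (nat_lit 232)) (XT.lf (nat_lit 0) (nat_lit 2187014555837) (nat_lit 0) (nat_lit 0) (nat_lit 0) (nat_lit 0) (nat_lit 0) (nat_lit 0) (nat_lit 1) (nat_lit 0) (nat_lit 1) (nat_lit 0) (nat_lit 390) (nat_lit 459) (nat_lit 231))) (XT.nd (nat_lit 94) (nat_lit 0) (nat_lit 0) (XT.lf (nat_lit 0) (nat_lit 2187014551956) (nat_lit 0) (nat_lit 0) (nat_lit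 0) (nat_lit 0) (nat_lit 0) (nat_lit 0) (nat_lit 1) (nat_lit 0) (nat_lit 1) (nat_lit 0) (nat_lit 391) (nat_lit 459) (nat_lit 230)) (XT.nd (nat_lit 94) (nat_lit 0) (nat_lit 0) (XT.lf (nat_lit 0) (nat_lit 2187014548363) (nat_lit 0) (nat_lit 0) (nat_lit 0) (nat_lit 0) (nat_lit 0) (nat_lit 0) (nat_lit 1) (nat_lit 0) (nat_lit 1) (nat_lit 0) (nat_lit 392) (nat_lit 459) (nat_lit 229)) (XT.lf (nat_lit 0) (nat_lit 2187014545036) (nat_lit 0) (nat_lit 0) (nat_lit 0) (nat_lit 0) (nat_lit 0) (nat_lit 0) (nat_lit 1) (nat_lit 0) (nat_lit 1) (nat_lit 0) (nat_lit 393) (nat_lit 459) (nat_lit 228)))))) (XT.nd (nat_lit 376) (nat_lit 0) (nat_lit 0) (XT.nd (nat_lit 188) (nat_lit 0) (nat_lit 0) (XT.nd (nat_lit 94) (nat_lit 0) (nat_lit 0) (XT.lf (nat_lit 0) (nat_lit 2187014541955) (nat_lit 0) (nat_lit 0) (nat_lit 0) (nat_lit 0) (nat_lit 0) (nat_lit 0) (nat_lit 1) (nat_lit 0) (nat_lit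 1) (nat_lit 0) (nat_lit 394) (nat_lit 459) (nat_lit 227)) (XT.lf (nat_lit 0) (nat_lit 2187014539103) (nat_lit 0) (nat_lit 0) (nat_lit 0) (nat_lit 0) (nat_lit 0) (nat_lit 0) (nat_lit 1) (nat_lit 0) (nat_lit 1) (nat_lit 0) (nat_lit 395) (nat_lit 459) (nat_lit 226))) (XT.nd (nat_lit 94) (nat_lit 0) (nat_lit 0) (XT.lf (nat_lit 0) (nat_lit 2187014536462) (nat_lit 0) (nat_lit 0) (nat_lit 0) (nat_lit 0) (nat_lit 0) (nat_lit 0) (nat_lit 1) (nat_lit 0) (nat_lit 1) (nat_lit 0) (nat_lit 396) (nat_lit 459) (nat_lit 225)) (XT.lf (nat_lit 0) (nat_lit 2187014534017) (nat_lit 0) (nat_lit 0) (nat_lit 0) (nat_lit 0) (nat_lit 0) (nat_lit 0) (nat_lit 1) (nat_lit 0) (nat_lit 1) (nat_lit 0) (nat_lit 397) (nat_lit 459) (nat_lit 224)))) (XT.nd (nat_lit 5452) (nat_lit 0) (nat_lit 0) (XT.nd (nat_lit 94) (nat_lit 0) (nat_lit 0) (XT.lf (nat_lit 0) (nat_lit 2187014531752) (nat_lit 0)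 (nat_lit 0) (nat_lit 0) (nat_lit 0) (nat_lit 0) (nat_lit 0) (nat_lit 1) (nat_lit 0) (nat_lit 1) (nat_lit 0) (nat_lit 398) (nat_lit 459) (nat_lit 223)) (XT.lf (nat_lit 0) (nat_lit 2187014529656) (nat_lit 0) (nat_lit 0) (nat_lit 0) (nat_lit 0) (nat_lit 0) (nat_lit 0) (nat_lit 1) (nat_lit 0) (nat_lit 1) (nat_lit 0) (nat_lit 399) (nat_lit 459) (nat_lit 222))) (XT.nd (nat_lit 94) (nat_lit 0) (nat_lit 0) (XT.lf (nat_lit 0) (nat_lit 2187014503774) (nat_lit 0) (nat_lit 0) (nat_lit 0) (nat_lit 0) (nat_lit 0) (nat_lit 0) (nat_lit 1) (nat_lit 0) (nat_lit 1) (nat_lit 0) (nat_lit 456) (nat_lit 459) (nat_lit 165)) (XT.nd (nat_lit 94) (nat_lit 0) (nat_lit 0) (XT.lf (nat_lit 0) (nat_lit 2187014503750) (nat_lit 0) (nat_lit 0) (nat_lit 0) (nat_lit 0) (nat_lit 0) (nat_lit 0) (nat_lit 1) (nat_lit 0) (nat_lit 1) (nat_lit 0) (nat_lit 457) (nat_lit 459) (nat_lit 164)) (XT.lf (nat_lit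 0) (nat_lit 2187014503728) (nat_lit 0) (nat_lit 0) (nat_lit 0) (nat_lit 0) (nat_lit 0) (nat_lit 0) (nat_lit 1) (nat_lit 0) (nat_lit 1) (nat_lit 0) (nat_lit 458) (nat_lit 459) (nat_lit 163))))))) (XT.nd (nat_lit 45778) (nat_lit 0) (nat_lit 0) (XT.nd (nat_lit 39762) (nat_lit 0) (nat_lit 0) (XT.nd (nat_lit 188) (nat_lit 0) (nat_lit 0) (XT.nd (nat_lit 94) (nat_lit 0) (nat_lit 0) (XT.lf (nat_lit 0) (nat_lit 2187014503707) (nat_lit 0) (nat_lit 0) (nat_lit 0) (nat_lit 0) (nat_lit 0) (nat_lit 0) (nat_lit 1) (nat_lit 0) (nat_lit 1) (nat_lit 0) (nat_lit 459) (nat_lit 459) (nat_lit 162)) (XT.lf (nat_lit 0) (nat_lit 2187014503688) (nat_lit 0) (nat_lit 0) (nat_lit 0) (nat_lit 0) (nat_lit 0) (nat_lit 0) (nat_lit 1) (nat_lit 0) (nat_lit 1) (nat_lit 0) (nat_lit 460) (nat_lit 459) (nat_lit 161))) (XT.nd (nat_lit 39480) (nat_lit 0) (nat_lit 10752) (XT.lf (nat_lit 0) (nat_lit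 2187014503670) (nat_lit 0) (nat_lit 0) (nat_lit 0) (nat_lit 0) (nat_lit 0) (nat_lit 0) (nat_lit 1) (nat_lit 0) (nat_lit 1) (nat_lit 0) (nat_lit 461) (nat_lit 459) (nat_lit 160)) (XT.lf (nat_lit 924) (nat_lit 1182021096069) (nat_lit 0) (nat_lit 2098675739086) (nat_lit 924) (nat_lit 1182021096069) (nat_lit 139) (nat_lit 1) (nat_lit 128) (nat_lit 0) (nat_lit 139) (nat_lit 0) (nat_lit 160) (nat_lit 460) (nat_lit 460)))) (XT.nd (nat_lit 188) (nat_lit 10836) (nat_lit 0) (XT.nd (nat_lit 94) (nat_lit 0) (nat_lit 0) (XT.lf (nat_lit 924) (nat_lit 440930138130) (nat_lit 0) (nat_lit 4120336534641) (nat_lit 840) (nat_lit 4029675365137) (nat_lit 140) (nat_lit 1) (nat_lit 129) (nat_lit 1) (nat_lit 139) (nat_lit 1) (nat_lit 161) (nat_lit 460) (nat_lit 459)) (XT.lf (nat_lit 924) (nat_lit 4049688810174) (nat_lit 84) (nat_lit 2759390766123) (nat_lit 0) (nat_lit 1463454989704)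 (nat_lit 140) (nat_lit 1) (nat_lit 130) (nat_lit 1) (nat_lit 129) (nat_lit 1) (nat_lit 162) (nat_lit 460) (nat_lit 458))) (XT.nd (nat_lit 5640) (nat_lit 10920) (nat_lit 0) (XT.lf (nat_lit 924) (nat_lit 3499262887274) (nat_lit 84) (nat_lit 1156441543794) (nat_lit 0) (nat_lit 3314356580535) (nat_lit 141) (nat_lit 1) (nat_lit 131) (nat_lit 1) (nat_lit 130) (nat_lit 1) (nat_lit 163) (nat_lit 460) (nat_lit 457)) (XT.nd (nat_lit 94) (nat_lit 0) (nat_lit 0) (XT.lf (nat_lit 0) (nat_lit 2380493013196) (nat_lit 0) (nat_lit 0) (nat_lit 0) (nat_lit 0) (nat_lit 0) (nat_lit 0) (nat_lit 1) (nat_lit 0) (nat_lit 1) (nat_lit 0) (nat_lit 223) (nat_lit 460) (nat_lit 397)) (XT.lf (nat_lit 0) (nat_lit 2379121357679) (nat_lit 0) (nat_lit 0) (nat_lit 0) (nat_lit 0) (nat_lit 0) (nat_lit 0) (nat_lit 1) (nat_lit 0) (nat_lit 1) (nat_lit 0) (nat_lit 224) (nat_lit 460) (nat_lit 396))))))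 (XT.nd (nat_lit 470) (nat_lit 0) (nat_lit 0) (XT.nd (nat_lit 188) (nat_lit 0) (nat_lit 0) (XT.nd (nat_lit 94) (nat_lit 0) (nat_lit 0) (XT.lf (nat_lit 0) (nat_lit 2377851306275) (nat_lit 0) (nat_lit 0) (nat_lit 0) (nat_lit 0) (nat_lit 0) (nat_lit 0) (nat_lit 1) (nat_lit 0) (nat_lit 1) (nat_lit 0) (nat_lit 225) (nat_lit 460) (nat_lit 395)) (XT.lf (nat_lit 0) (nat_lit 2376675332753) (nat_lit 0) (nat_lit 0) (nat_lit 0) (nat_lit 0) (nat_lit 0) (nat_lit 0) (nat_lit 1) (nat_lit 0) (nat_lit 1) (nat_lit 0) (nat_lit 226) (nat_lit 460) (nat_lit 394))) (XT.nd (nat_lit 94) (nat_lit 0) (nat_lit 0) (XT.lf (nat_lit 0) (nat_lit 2375586468380) (nat_lit 0) (nat_lit 0) (nat_lit 0) (nat_lit 0) (nat_lit 0) (nat_lit 0) (nat_lit 1) (nat_lit 0) (nat_lit 1) (nat_lit 0) (nat_lit 227) (nat_lit 460) (nat_lit 393)) (XT.nd (nat_lit 94) (nat_lit 0) (nat_lit 0) (XT.lf (nat_lit 0) (nat_lit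 2374578260628) (nat_lit 0) (nat_lit 0) (nat_lit 0) (nat_lit 0) (nat_lit 0) (nat_lit 0) (nat_lit 1) (nat_lit 0) (nat_lit 1) (nat_lit 0) (nat_lit 228) (nat_lit 460) (nat_lit 392)) (XT.lf (nat_lit 0) (nat_lit 2373644734932) (nat_lit 0) (nat_lit 0) (nat_lit 0) (nat_lit 0) (nat_lit 0) (nat_lit 0) (nat_lit 1) (nat_lit 0) (nat_lit 1) (nat_lit 0) (nat_lit 229) (nat_lit 460) (nat_lit 391))))) (XT.nd (nat_lit 188) (nat_lit 0) (nat_lit 0) (XT.nd (nat_lit 94) (nat_lit 0) (nat_lit 0) (XT.lf (nat_lit 0) (nat_lit 2372780359287) (nat_lit 0) (nat_lit 0) (nat_lit 0) (nat_lit 0) (nat_lit 0) (nat_lit 0) (nat_lit 1) (nat_lit 0) (nat_lit 1) (nat_lit 0) (nat_lit 230) (nat_lit 460) (nat_lit 390)) (XT.lf (nat_lit 0) (nat_lit 2371980011467) (nat_lit 0) (nat_lit 0) (nat_lit 0) (nat_lit 0) (nat_lit 0) (nat_lit 0) (nat_lit 1) (nat_lit 0) (nat_lit 1) (nat_lit 0) (nat_lit 231) (nat_lit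 460) (nat_lit 389))) (XT.nd (nat_lit 94) (nat_lit 0) (nat_lit 0) (XT.lf (nat_lit 0) (nat_lit 2371238948671) (nat_lit 0) (nat_lit 0) (nat_lit 0) (nat_lit 0) (nat_lit 0) (nat_lit 0) (nat_lit 1) (nat_lit 0) (nat_lit 1) (nat_lit 0) (nat_lit 232) (nat_lit 460) (nat_lit 388)) (XT.nd (nat_lit 94) (nat_lit 0) (nat_lit 0) (XT.lf (nat_lit 0) (nat_lit 2370552779416) (nat_lit 0) (nat_lit 0) (nat_lit 0) (nat_lit 0) (nat_lit 0) (nat_lit 0) (nat_lit 1) (nat_lit 0) (nat_lit 1) (nat_lit 0) (nat_lit 233) (nat_lit 460) (nat_lit 387)) (XT.lf (nat_lit 0) (nat_lit 2369917437513) (nat_lit 0) (nat_lit 0) (nat_lit 0) (nat_lit 0) (nat_lit 0) (nat_lit 0) (nat_lit 1) (nat_lit 0) (nat_lit 1) (nat_lit 0) (nat_lit 234) (nat_lit 460) (nat_lit 386))))))))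
noncomputable def ec489 : XT := (XT.nd (nat_lit 1786) (nat_lit 0) (nat_lit 0) (XT.nd (nat_lit 846) (nat_lit 0) (nat_lit 0) (XT.nd (nat_lit 376) (nat_lit 0) (nat_lit 0) (XT.nd (nat_lit 188) (nat_lit 0) (nat_lit 0) (XT.nd (nat_lit 94) (nat_lit 0) (nat_lit 0) (XT.lf (nat_lit 0) (nat_lit 2369329157973) (nat_lit 0) (nat_lit 0) (nat_lit 0) (nat_lit 0) (nat_lit 0) (nat_lit 0) (nat_lit 1) (nat_lit 0) (nat_lit 1) (nat_lit 0) (nat_lit 235) (nat_lit 460) (nat_lit 385)) (XT.lf (nat_lit 0) (nat_lit 2368784454695) (nat_lit 0) (nat_lit 0) (nat_lit 0) (nat_lit 0) (nat_lit 0) (nat_lit 0) (nat_lit 1) (nat_lit 0) (nat_lit 1) (nat_lit 0) (nat_lit 236) (nat_lit 460) (nat_lit 384))) (XT.nd (nat_lit 94) (nat_lit 0) (nat_lit 0) (XT.lf (nat_lit 0) (nat_lit 2368280099809) (nat_lit 0) (nat_lit 0) (nat_lit 0) (nat_lit 0) (nat_lit 0) (nat_lit 0) (nat_lit 1) (nat_lit 0) (nat_lit 1) (nat_lit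 0) (nat_lit 237) (nat_lit 460) (nat_lit 383)) (XT.lf (nat_lit 0) (nat_lit 2367813104543) (nat_lit 0) (nat_lit 0) (nat_lit 0) (nat_lit 0) (nat_lit 0) (nat_lit 0) (nat_lit 1) (nat_lit 0) (nat_lit 1) (nat_lit 0) (nat_lit 238) (nat_lit 460) (nat_lit 382)))) (XT.nd (nat_lit 188) (nat_lit 0) (nat_lit 0) (XT.nd (nat_lit 94) (nat_lit 0) (nat_lit 0) (XT.lf (nat_lit 0) (nat_lit 2367380701520) (nat_lit 0) (nat_lit 0) (nat_lit 0) (nat_lit 0) (nat_lit 0) (nat_lit 0) (nat_lit 1) (nat_lit 0) (nat_lit 1) (nat_lit 0) (nat_lit 239) (nat_lit 460) (nat_lit 381)) (XT.lf (nat_lit 0) (nat_lit 2366980328349) (nat_lit 0) (nat_lit 0) (nat_lit 0) (nat_lit 0) (nat_lit 0) (nat_lit 0) (nat_lit 1) (nat_lit 0) (nat_lit 1) (nat_lit 0) (nat_lit 240) (nat_lit 460) (nat_lit 380))) (XT.nd (nat_lit 94) (nat_lit 0) (nat_lit 0) (XT.lf (nat_lit 0) (nat_lit 2366609612451) (nat_lit 0) (nat_lit 0) (nat_lit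 0) (nat_lit 0) (nat_lit 0) (nat_lit 0) (nat_lit 1) (nat_lit 0) (nat_lit 1) (nat_lit 0) (nat_lit 241) (nat_lit 460) (nat_lit 379)) (XT.nd (nat_lit 94) (nat_lit 0) (nat_lit 0) (XT.lf (nat_lit 0) (nat_lit 2366266356990) (nat_lit 0) (nat_lit 0) (nat_lit 0) (nat_lit 0) (nat_lit 0) (nat_lit 0) (nat_lit 1) (nat_lit 0) (nat_lit 1) (nat_lit 0) (nat_lit 242) (nat_lit 460) (nat_lit 378)) (XT.lf (nat_lit 0) (nat_lit 2365948527859) (nat_lit 0) (nat_lit 0) (nat_lit 0) (nat_lit 0) (nat_lit 0) (nat_lit 0) (nat_lit 1) (nat_lit 0) (nat_lit 1) (nat_lit 0) (nat_lit 243) (nat_lit 460) (nat_lit 377)))))) (XT.nd (nat_lit 470) (nat_lit 0) (nat_lit 0) (XT.nd (nat_lit 188) (nat_lit 0) (nat_lit 0) (XT.nd (nat_lit 94) (nat_lit 0) (nat_lit 0) (XT.lf (nat_lit 0) (nat_lit 2365654241627) (nat_lit 0) (nat_lit 0) (nat_lit 0) (nat_lit 0) (nat_lit 0) (nat_lit 0) (nat_lit 1) (nat_lit 0) (nat_lit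 1) (nat_lit 0) (nat_lit 244) (nat_lit 460) (nat_lit 376)) (XT.lf (nat_lit 0) (nat_lit 2365381754375) (nat_lit 0) (nat_lit 0) (nat_lit 0) (nat_lit 0) (nat_lit 0) (nat_lit 0) (nat_lit 1) (nat_lit 0) (nat_lit 1) (nat_lit 0) (nat_lit 245) (nat_lit 460) (nat_lit 375))) (XT.nd (nat_lit 94) (nat_lit 0) (nat_lit 0) (XT.lf (nat_lit 0) (nat_lit 2365129451364) (nat_lit 0) (nat_lit 0) (nat_lit 0) (nat_lit 0) (nat_lit 0) (nat_lit 0) (nat_lit 1) (nat_lit 0) (nat_lit 1) (nat_lit 0) (nat_lit 246) (nat_lit 460) (nat_lit 374)) (XT.nd (nat_lit 94) (nat_lit 0) (nat_lit 0) (XT.lf (nat_lit 0) (nat_lit 2364895837465) (nat_lit 0) (nat_lit 0) (nat_lit 0) (nat_lit 0) (nat_lit 0) (nat_lit 0) (nat_lit 1) (nat_lit 0) (nat_lit 1) (nat_lit 0) (nat_lit 247) (nat_lit 460) (nat_lit 373)) (XT.lf (nat_lit 0) (nat_lit 2364679528299) (nat_lit 0) (nat_lit 0) (nat_lit 0) (nat_lit 0) (nat_lit 0)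 (nat_lit 0) (nat_lit 1) (nat_lit 0) (nat_lit 1) (nat_lit 0) (nat_lit 248) (nat_lit 460) (nat_lit 372))))) (XT.nd (nat_lit 188) (nat_lit 0) (nat_lit 0) (XT.nd (nat_lit 94) (nat_lit 0) (nat_lit 0) (XT.lf (nat_lit 0) (nat_lit 2364479242034) (nat_lit 0) (nat_lit 0) (nat_lit 0) (nat_lit 0) (nat_lit 0) (nat_lit 0) (nat_lit 1) (nat_lit 0) (nat_lit 1) (nat_lit 0) (nat_lit 249) (nat_lit 460) (nat_lit 371)) (XT.lf (nat_lit 0) (nat_lit 2364293791789) (nat_lit 0) (nat_lit 0) (nat_lit 0) (nat_lit 0) (nat_lit 0) (nat_lit 0) (nat_lit 1) (nat_lit 0) (nat_lit 1) (nat_lit 0) (nat_lit 250) (nat_lit 460) (nat_lit 370))) (XT.nd (nat_lit 94) (nat_lit 0) (nat_lit 0) (XT.lf (nat_lit 0) (nat_lit 2364122078599) (nat_lit 0) (nat_lit 0) (nat_lit 0) (nat_lit 0) (nat_lit 0) (nat_lit 0) (nat_lit 1) (nat_lit 0) (nat_lit 1) (nat_lit 0) (nat_lit 251) (nat_lit 460) (nat_lit 369)) (XT.nd (nat_lit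 94) (nat_lit 0) (nat_lit 0) (XT.lf (nat_lit 0) (nat_lit 2363963084904) (nat_lit 0) (nat_lit 0) (nat_lit 0) (nat_lit 0) (nat_lit 0) (nat_lit 0) (nat_lit 1) (nat_lit 0) (nat_lit 1) (nat_lit 0) (nat_lit 252) (nat_lit 460) (nat_lit 368)) (XT.lf (nat_lit 0) (nat_lit 2363815868521) (nat_lit 0) (nat_lit 0) (nat_lit 0) (nat_lit 0) (nat_lit 0) (nat_lit 0) (nat_lit 1) (nat_lit 0) (nat_lit 1) (nat_lit 0) (nat_lit 253) (nat_lit 460) (nat_lit 367))))))) (XT.nd (nat_lit 846) (nat_lit 0) (nat_lit 0) (XT.nd (nat_lit 376) (nat_lit 0) (nat_lit 0) (XT.nd (nat_lit 188) (nat_lit 0) (nat_lit 0) (XT.nd (nat_lit 94) (nat_lit 0) (nat_lit 0) (XT.lf (nat_lit 0) (nat_lit 2363679557054) (nat_lit 0) (nat_lit 0) (nat_lit 0) (nat_lit 0) (nat_lit 0) (nat_lit 0) (nat_lit 1) (nat_lit 0) (nat_lit 1) (nat_lit 0) (nat_lit 254) (nat_lit 460) (nat_lit 366)) (XT.lf (nat_lit 0) (nat_lit 2363553342734)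 (nat_lit 0) (nat_lit 0) (nat_lit 0) (nat_lit 0) (nat_lit 0) (nat_lit 0) (nat_lit 1) (nat_lit 0) (nat_lit 1) (nat_lit 0) (nat_lit 255) (nat_lit 460) (nat_lit 365))) (XT.nd (nat_lit 94) (nat_lit 0) (nat_lit 0) (XT.lf (nat_lit 0) (nat_lit 2363436477622) (nat_lit 0) (nat_lit 0) (nat_lit 0) (nat_lit 0) (nat_lit 0) (nat_lit 0) (nat_lit 1) (nat_lit 0) (nat_lit 1) (nat_lit 0) (nat_lit 256) (nat_lit 460) (nat_lit 364)) (XT.lf (nat_lit 0) (nat_lit 2363328269185) (nat_lit 0) (nat_lit 0) (nat_lit 0) (nat_lit 0) (nat_lit 0) (nat_lit 0) (nat_lit 1) (nat_lit 0) (nat_lit 1) (nat_lit 0) (nat_lit 257) (nat_lit 460) (nat_lit 363)))) (XT.nd (nat_lit 188) (nat_lit 0) (nat_lit 0) (XT.nd (nat_lit 94) (nat_lit 0) (nat_lit 0) (XT.lf (nat_lit 0) (nat_lit 2363228076188) (nat_lit 0) (nat_lit 0) (nat_lit 0) (nat_lit 0) (nat_lit 0) (nat_lit 0) (nat_lit 1) (nat_lit 0) (nat_lit 1) (nat_lit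 0) (nat_lit 258) (nat_lit 460) (nat_lit 362)) (XT.lf (nat_lit 0) (nat_lit 2363135304894) (nat_lit 0) (nat_lit 0) (nat_lit 0) (nat_lit 0) (nat_lit 0) (nat_lit 0) (nat_lit 1) (nat_lit 0) (nat_lit 1) (nat_lit 0) (nat_lit 259) (nat_lit 460) (nat_lit 361))) (XT.nd (nat_lit 94) (nat_lit 0) (nat_lit 0) (XT.lf (nat_lit 0) (nat_lit 2363049405548) (nat_lit 0) (nat_lit 0) (nat_lit 0) (nat_lit 0) (nat_lit 0) (nat_lit 0) (nat_lit 1) (nat_lit 0) (nat_lit 1) (nat_lit 0) (nat_lit 260) (nat_lit 460) (nat_lit 360)) (XT.nd (nat_lit 94) (nat_lit 0) (nat_lit 0) (XT.lf (nat_lit 0) (nat_lit 2362969869117) (nat_lit 0) (nat_lit 0) (nat_lit 0) (nat_lit 0) (nat_lit 0) (nat_lit 0) (nat_lit 1) (nat_lit 0) (nat_lit 1) (nat_lit 0) (nat_lit 261) (nat_lit 460) (nat_lit 359)) (XT.lf (nat_lit 0) (nat_lit 2362896224273) (nat_lit 0) (nat_lit 0) (nat_lit 0) (nat_lit 0) (nat_lit 0) (nat_lit 0)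 (nat_lit 1) (nat_lit 0) (nat_lit 1) (nat_lit 0) (nat_lit 262) (nat_lit 460) (nat_lit 358)))))) (XT.nd (nat_lit 470) (nat_lit 0) (nat_lit 0) (XT.nd (nat_lit 188) (nat_lit 0) (nat_lit 0) (XT.nd (nat_lit 94) (nat_lit 0) (nat_lit 0) (XT.lf (nat_lit 0) (nat_lit 2362828034603) (nat_lit 0) (nat_lit 0) (nat_lit 0) (nat_lit 0) (nat_lit 0) (nat_lit 0) (nat_lit 1) (nat_lit 0) (nat_lit 1) (nat_lit 0) (nat_lit 263) (nat_lit 460) (nat_lit 357)) (XT.lf (nat_lit 0) (nat_lit 2362764896019) (nat_lit 0) (nat_lit 0) (nat_lit 0) (nat_lit 0) (nat_lit 0) (nat_lit 0) (nat_lit 1) (nat_lit 0) (nat_lit 1) (nat_lit 0) (nat_lit 264) (nat_lit 460) (nat_lit 356))) (XT.nd (nat_lit 94) (nat_lit 0) (nat_lit 0) (XT.lf (nat_lit 0) (nat_lit 2362706434368) (nat_lit 0) (nat_lit 0) (nat_lit 0) (nat_lit 0) (nat_lit 0) (nat_lit 0) (nat_lit 1) (nat_lit 0) (nat_lit 1) (nat_lit 0) (nat_lit 265) (nat_lit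 460) (nat_lit 355)) (XT.nd (nat_lit 94) (nat_lit 0) (nat_lit 0) (XT.lf (nat_lit 0) (nat_lit 2362652303209) (nat_lit 0) (nat_lit 0) (nat_lit 0) (nat_lit 0) (nat_lit 0) (nat_lit 0) (nat_lit 1) (nat_lit 0) (nat_lit 1) (nat_lit 0) (nat_lit 266) (nat_lit 460) (nat_lit 354)) (XT.lf (nat_lit 0) (nat_lit 2362602181766) (nat_lit 0) (nat_lit 0) (nat_lit 0) (nat_lit 0) (nat_lit 0) (nat_lit 0) (nat_lit 1) (nat_lit 0) (nat_lit 1) (nat_lit 0) (nat_lit 267) (nat_lit 460) (nat_lit 353))))) (XT.nd (nat_lit 188) (nat_lit 0) (nat_lit 0) (XT.nd (nat_lit 94) (nat_lit 0) (nat_lit 0) (XT.lf (nat_lit 0) (nat_lit 2362555773022) (nat_lit 0) (nat_lit 0) (nat_lit 0) (nat_lit 0) (nat_lit 0) (nat_lit 0) (nat_lit 1) (nat_lit 0) (nat_lit 1) (nat_lit 0) (nat_lit 268) (nat_lit 460) (nat_lit 352)) (XT.lf (nat_lit 0) (nat_lit 2362512801963) (nat_lit 0) (nat_lit 0) (nat_lit 0) (nat_lit 0) (nat_lit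 0) (nat_lit 0) (nat_lit 1) (nat_lit 0) (nat_lit 1) (nat_lit 0) (nat_lit 269) (nat_lit 460) (nat_lit 351))) (XT.nd (nat_lit 94) (nat_lit 0) (nat_lit 0) (XT.lf (nat_lit 0) (nat_lit 2362473013945) (nat_lit 0) (nat_lit 0) (nat_lit 0) (nat_lit 0) (nat_lit 0) (nat_lit 0) (nat_lit 1) (nat_lit 0) (nat_lit 1) (nat_lit 0) (nat_lit 270) (nat_lit 460) (nat_lit 350)) (XT.nd (nat_lit 94) (nat_lit 0) (nat_lit 0) (XT.lf (nat_lit 0) (nat_lit 2362436173188) (nat_lit 0) (nat_lit 0) (nat_lit 0) (nat_lit 0) (nat_lit 0) (nat_lit 0) (nat_lit 1) (nat_lit 0) (nat_lit 1) (nat_lit 0) (nat_lit 271) (nat_lit 460) (nat_lit 349)) (XT.lf (nat_lit 0) (nat_lit 2362402061376) (nat_lit 0) (nat_lit 0) (nat_lit 0) (nat_lit 0) (nat_lit 0) (nat_lit 0) (nat_lit 1) (nat_lit 0) (nat_lit 1) (nat_lit 0) (nat_lit 272) (nat_lit 460) (nat_lit 348))))))))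
noncomputable def ec490 : XT := (XT.nd (nat_lit 1692) (nat_lit 0) (nat_lit 0) (XT.nd (nat_lit 846) (nat_lit 0) (nat_lit 0) (XT.nd (nat_lit 376) (nat_lit 0) (nat_lit 0) (XT.nd (nat_lit 188) (nat_lit 0) (nat_lit 0) (XT.nd (nat_lit 94) (nat_lit 0) (nat_lit 0) (XT.lf (nat_lit 0) (nat_lit 2362370476365) (nat_lit 0) (nat_lit 0) (nat_lit 0) (nat_lit 0) (nat_lit 0) (nat_lit 0) (nat_lit 1) (nat_lit 0) (nat_lit 1) (nat_lit 0) (nat_lit 273) (nat_lit 460) (nat_lit 347)) (XT.lf (nat_lit 0) (nat_lit 2362341230984) (nat_lit 0) (nat_lit 0) (nat_lit 0) (nat_lit 0) (nat_lit 0) (nat_lit 0) (nat_lit 1) (nat_lit 0) (nat_lit 1) (nat_lit 0) (nat_lit 274) (nat_lit 460) (nat_lit 346))) (XT.nd (nat_lit 94) (nat_lit 0) (nat_lit 0) (XT.lf (nat_lit 0) (nat_lit 2362314151928) (nat_lit 0) (nat_lit 0) (nat_lit 0) (nat_lit 0) (nat_lit 0) (nat_lit 0) (nat_lit 1) (nat_lit 0) (nat_lit 1) (nat_lit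 0) (nat_lit 275) (nat_lit 460) (nat_lit 345)) (XT.lf (nat_lit 0) (nat_lit 2362289078727) (nat_lit 0) (nat_lit 0) (nat_lit 0) (nat_lit 0) (nat_lit 0) (nat_lit 0) (nat_lit 1) (nat_lit 0) (nat_lit 1) (nat_lit 0) (nat_lit 276) (nat_lit 460) (nat_lit 344)))) (XT.nd (nat_lit 188) (nat_lit 0) (nat_lit 0) (XT.nd (nat_lit 94) (nat_lit 0) (nat_lit 0) (XT.lf (nat_lit 0) (nat_lit 2362265862801) (nat_lit 0) (nat_lit 0) (nat_lit 0) (nat_lit 0) (nat_lit 0) (nat_lit 0) (nat_lit 1) (nat_lit 0) (nat_lit 1) (nat_lit 0) (nat_lit 277) (nat_lit 460) (nat_lit 343)) (XT.lf (nat_lit 0) (nat_lit 2362244366573) (nat_lit 0) (nat_lit 0) (nat_lit 0) (nat_lit 0) (nat_lit 0) (nat_lit 0) (nat_lit 1) (nat_lit 0) (nat_lit 1) (nat_lit 0) (nat_lit 278) (nat_lit 460) (nat_lit 342))) (XT.nd (nat_lit 94) (nat_lit 0) (nat_lit 0) (XT.lf (nat_lit 0) (nat_lit 2362224462659) (nat_lit 0) (nat_lit 0) (nat_lit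 0) (nat_lit 0) (nat_lit 0) (nat_lit 0) (nat_lit 1) (nat_lit 0) (nat_lit 1) (nat_lit 0) (nat_lit 279) (nat_lit 460) (nat_lit 341)) (XT.nd (nat_lit 94) (nat_lit 0) (nat_lit 0) (XT.lf (nat_lit 0) (nat_lit 2362206033108) (nat_lit 0) (nat_lit 0) (nat_lit 0) (nat_lit 0) (nat_lit 0) (nat_lit 0) (nat_lit 1) (nat_lit 0) (nat_lit 1) (nat_lit 0) (nat_lit 280) (nat_lit 460) (nat_lit 340)) (XT.lf (nat_lit 0) (nat_lit 2362188968709) (nat_lit 0) (nat_lit 0) (nat_lit 0) (nat_lit 0) (nat_lit 0) (nat_lit 0) (nat_lit 1) (nat_lit 0) (nat_lit 1) (nat_lit 0) (nat_lit 281) (nat_lit 460) (nat_lit 339)))))) (XT.nd (nat_lit 376) (nat_lit 0) (nat_lit 0) (XT.nd (nat_lit 188) (nat_lit 0) (nat_lit 0) (XT.nd (nat_lit 94) (nat_lit 0) (nat_lit 0) (XT.lf (nat_lit 0) (nat_lit 2362173168340) (nat_lit 0) (nat_lit 0) (nat_lit 0) (nat_lit 0) (nat_lit 0) (nat_lit 0) (nat_lit 1) (nat_lit 0) (nat_lit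 1) (nat_lit 0) (nat_lit 282) (nat_lit 460) (nat_lit 338)) (XT.lf (nat_lit 0) (nat_lit 2362158538368) (nat_lit 0) (nat_lit 0) (nat_lit 0) (nat_lit 0) (nat_lit 0) (nat_lit 0) (nat_lit 1) (nat_lit 0) (nat_lit 1) (nat_lit 0) (nat_lit 283) (nat_lit 460) (nat_lit 337))) (XT.nd (nat_lit 94) (nat_lit 0) (nat_lit 0) (XT.lf (nat_lit 0) (nat_lit 2362144992098) (nat_lit 0) (nat_lit 0) (nat_lit 0) (nat_lit 0) (nat_lit 0) (nat_lit 0) (nat_lit 1) (nat_lit 0) (nat_lit 1) (nat_lit 0) (nat_lit 284) (nat_lit 460) (nat_lit 336)) (XT.lf (nat_lit 0) (nat_lit 2362132449256) (nat_lit 0) (nat_lit 0) (nat_lit 0) (nat_lit 0) (nat_lit 0) (nat_lit 0) (nat_lit 1) (nat_lit 0) (nat_lit 1) (nat_lit 0) (nat_lit 285) (nat_lit 460) (nat_lit 335)))) (XT.nd (nat_lit 188) (nat_lit 0) (nat_lit 0) (XT.nd (nat_lit 94) (nat_lit 0) (nat_lit 0) (XT.lf (nat_lit 0) (nat_lit 2362120835513) (nat_lit 0) (nat_lit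 0) (nat_lit 0) (nat_lit 0) (nat_lit 0) (nat_lit 0) (nat_lit 1) (nat_lit 0) (nat_lit 1) (nat_lit 0) (nat_lit 286) (nat_lit 460) (nat_lit 334)) (XT.lf (nat_lit 0) (nat_lit 2362110082047) (nat_lit 0) (nat_lit 0) (nat_lit 0) (nat_lit 0) (nat_lit 0) (nat_lit 0) (nat_lit 1) (nat_lit 0) (nat_lit 1) (nat_lit 0) (nat_lit 287) (nat_lit 460) (nat_lit 333))) (XT.nd (nat_lit 94) (nat_lit 0) (nat_lit 0) (XT.lf (nat_lit 0) (nat_lit 2362100125134) (nat_lit 0) (nat_lit 0) (nat_lit 0) (nat_lit 0) (nat_lit 0) (nat_lit 0) (nat_lit 1) (nat_lit 0) (nat_lit 1) (nat_lit 0) (nat_lit 288) (nat_lit 460) (nat_lit 332)) (XT.nd (nat_lit 94) (nat_lit 0) (nat_lit 0) (XT.lf (nat_lit 0) (nat_lit 2362090905770) (nat_lit 0) (nat_lit 0) (nat_lit 0) (nat_lit 0) (nat_lit 0) (nat_lit 0) (nat_lit 1) (nat_lit 0) (nat_lit 1) (nat_lit 0) (nat_lit 289) (nat_lit 460) (nat_lit 331)) (XT.lf (nat_lit 0)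 (nat_lit 2362082369323) (nat_lit 0) (nat_lit 0) (nat_lit 0) (nat_lit 0) (nat_lit 0) (nat_lit 0) (nat_lit 1) (nat_lit 0) (nat_lit 1) (nat_lit 0) (nat_lit 290) (nat_lit 460) (nat_lit 330))))))) (XT.nd (nat_lit 3572) (nat_lit 0) (nat_lit 0) (XT.nd (nat_lit 376) (nat_lit 0) (nat_lit 0) (XT.nd (nat_lit 188) (nat_lit 0) (nat_lit 0) (XT.nd (nat_lit 94) (nat_lit 0) (nat_lit 0) (XT.lf (nat_lit 0) (nat_lit 2362074465204) (nat_lit 0) (nat_lit 0) (nat_lit 0) (nat_lit 0) (nat_lit 0) (nat_lit 0) (nat_lit 1) (nat_lit 0) (nat_lit 1) (nat_lit 0) (nat_lit 291) (nat_lit 460) (nat_lit 329)) (XT.lf (nat_lit 0) (nat_lit 2362067146576) (nat_lit 0) (nat_lit 0) (nat_lit 0) (nat_lit 0) (nat_lit 0) (nat_lit 0) (nat_lit 1) (nat_lit 0) (nat_lit 1) (nat_lit 0) (nat_lit 292) (nat_lit 460) (nat_lit 328))) (XT.nd (nat_lit 94) (nat_lit 0) (nat_lit 0) (XT.lf (nat_lit 0) (nat_lit 2362060370069)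 (nat_lit 0) (nat_lit 0) (nat_lit 0) (nat_lit 0) (nat_lit 0) (nat_lit 0) (nat_lit 1) (nat_lit 0) (nat_lit 1) (nat_lit 0) (nat_lit 293) (nat_lit 460) (nat_lit 327)) (XT.lf (nat_lit 0) (nat_lit 2362054095525) (nat_lit 0) (nat_lit 0) (nat_lit 0) (nat_lit 0) (nat_lit 0) (nat_lit 0) (nat_lit 1) (nat_lit 0) (nat_lit 1) (nat_lit 0) (nat_lit 294) (nat_lit 460) (nat_lit 326)))) (XT.nd (nat_lit 2914) (nat_lit 0) (nat_lit 0) (XT.nd (nat_lit 2820) (nat_lit 0) (nat_lit 0) (XT.lf (nat_lit 0) (nat_lit 2362048285762) (nat_lit 0) (nat_lit 0) (nat_lit 0) (nat_lit 0) (nat_lit 0) (nat_lit 0) (nat_lit 1) (nat_lit 0) (nat_lit 1) (nat_lit 0) (nat_lit 295) (nat_lit 460) (nat_lit 325)) (XT.lf (nat_lit 0) (nat_lit 2361982880709) (nat_lit 0) (nat_lit 0) (nat_lit 0) (nat_lit 0) (nat_lit 0) (nat_lit 0) (nat_lit 1) (nat_lit 0) (nat_lit 1) (nat_lit 0) (nat_lit 325) (nat_lit 460) (nat_lit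 295))) (XT.nd (nat_lit 94) (nat_lit 0) (nat_lit 0) (XT.lf (nat_lit 0) (nat_lit 2361982346117) (nat_lit 0) (nat_lit 0) (nat_lit 0) (nat_lit 0) (nat_lit 0) (nat_lit 0) (nat_lit 1) (nat_lit 0) (nat_lit 1) (nat_lit 0) (nat_lit 326) (nat_lit 460) (nat_lit 294)) (XT.nd (nat_lit 94) (nat_lit 0) (nat_lit 0) (XT.lf (nat_lit 0) (nat_lit 2361981851125) (nat_lit 0) (nat_lit 0) (nat_lit 0) (nat_lit 0) (nat_lit 0) (nat_lit 0) (nat_lit 1) (nat_lit 0) (nat_lit 1) (nat_lit 0) (nat_lit 327) (nat_lit 460) (nat_lit 293)) (XT.lf (nat_lit 0) (nat_lit 2361981392799) (nat_lit 0) (nat_lit 0) (nat_lit 0) (nat_lit 0) (nat_lit 0) (nat_lit 0) (nat_lit 1) (nat_lit 0) (nat_lit 1) (nat_lit 0) (nat_lit 328) (nat_lit 460) (nat_lit 292)))))) (XT.nd (nat_lit 470) (nat_lit 0) (nat_lit 0) (XT.nd (nat_lit 188) (nat_lit 0) (nat_lit 0) (XT.nd (nat_lit 94) (nat_lit 0) (nat_lit 0) (XT.lf (nat_lit 0)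 (nat_lit 2361980968423) (nat_lit 0) (nat_lit 0) (nat_lit 0) (nat_lit 0) (nat_lit 0) (nat_lit 0) (nat_lit 1) (nat_lit 0) (nat_lit 1) (nat_lit 0) (nat_lit 329) (nat_lit 460) (nat_lit 291)) (XT.lf (nat_lit 0) (nat_lit 2361980575483) (nat_lit 0) (nat_lit 0) (nat_lit 0) (nat_lit 0) (nat_lit 0) (nat_lit 0) (nat_lit 1) (nat_lit 0) (nat_lit 1) (nat_lit 0) (nat_lit 330) (nat_lit 460) (nat_lit 290))) (XT.nd (nat_lit 94) (nat_lit 0) (nat_lit 0) (XT.lf (nat_lit 0) (nat_lit 2361980211649) (nat_lit 0) (nat_lit 0) (nat_lit 0) (nat_lit 0) (nat_lit 0) (nat_lit 0) (nat_lit 1) (nat_lit 0) (nat_lit 1) (nat_lit 0) (nat_lit 331) (nat_lit 460) (nat_lit 289)) (XT.nd (nat_lit 94) (nat_lit 0) (nat_lit 0) (XT.lf (nat_lit 0) (nat_lit 2361979874765) (nat_lit 0) (nat_lit 0) (nat_lit 0) (nat_lit 0) (nat_lit 0) (nat_lit 0) (nat_lit 1) (nat_lit 0) (nat_lit 1) (nat_lit 0) (nat_lit 332) (nat_lit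 460) (nat_lit 288)) (XT.lf (nat_lit 0) (nat_lit 2361979562836) (nat_lit 0) (nat_lit 0) (nat_lit 0) (nat_lit 0) (nat_lit 0) (nat_lit 0) (nat_lit 1) (nat_lit 0) (nat_lit 1) (nat_lit 0) (nat_lit 333) (nat_lit 460) (nat_lit 287))))) (XT.nd (nat_lit 188) (nat_lit 0) (nat_lit 0) (XT.nd (nat_lit 94) (nat_lit 0) (nat_lit 0) (XT.lf (nat_lit 0) (nat_lit 2361979274013) (nat_lit 0) (nat_lit 0) (nat_lit 0) (nat_lit 0) (nat_lit 0) (nat_lit 0) (nat_lit 1) (nat_lit 0) (nat_lit 1) (nat_lit 0) (nat_lit 334) (nat_lit 460) (nat_lit 286)) (XT.lf (nat_lit 0) (nat_lit 2361979006584) (nat_lit 0) (nat_lit 0) (nat_lit 0) (nat_lit 0) (nat_lit 0) (nat_lit 0) (nat_lit 1) (nat_lit 0) (nat_lit 1) (nat_lit 0) (nat_lit 335) (nat_lit 460) (nat_lit 285))) (XT.nd (nat_lit 94) (nat_lit 0) (nat_lit 0) (XT.lf (nat_lit 0) (nat_lit 2361978758965) (nat_lit 0) (nat_lit 0) (nat_lit 0) (nat_lit 0) (nat_lit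 0) (nat_lit 0) (nat_lit 1) (nat_lit 0) (nat_lit 1) (nat_lit 0) (nat_lit 336) (nat_lit 460) (nat_lit 284)) (XT.nd (nat_lit 94) (nat_lit 0) (nat_lit 0) (XT.lf (nat_lit 0) (nat_lit 2361978529688) (nat_lit 0) (nat_lit 0) (nat_lit 0) (nat_lit 0) (nat_lit 0) (nat_lit 0) (nat_lit 1) (nat_lit 0) (nat_lit 1) (nat_lit 0) (nat_lit 337) (nat_lit 460) (nat_lit 283)) (XT.lf (nat_lit 0) (nat_lit 2361978317394) (nat_lit 0) (nat_lit 0) (nat_lit 0) (nat_lit 0) (nat_lit 0) (nat_lit 0) (nat_lit 1) (nat_lit 0) (nat_lit 1) (nat_lit 0) (nat_lit 338) (nat_lit 460) (nat_lit 282))))))))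
noncomputable def ec491 : XT := (XT.nd (nat_lit 1786) (nat_lit 0) (nat_lit 0) (XT.nd (nat_lit 846) (nat_lit 0) (nat_lit 0) (XT.nd (nat_lit 376) (nat_lit 0) (nat_lit 0) (XT.nd (nat_lit 188) (nat_lit 0) (nat_lit 0) (XT.nd (nat_lit 94) (nat_lit 0) (nat_lit 0) (XT.lf (nat_lit 0) (nat_lit 2361978120826) (nat_lit 0) (nat_lit 0) (nat_lit 0) (nat_lit 0) (nat_lit 0) (nat_lit 0) (nat_lit 1) (nat_lit 0) (nat_lit 1) (nat_lit 0) (nat_lit 339) (nat_lit 460) (nat_lit 281)) (XT.lf (nat_lit 0) (nat_lit 2361977938819) (nat_lit 0) (nat_lit 0) (nat_lit 0) (nat_lit 0) (nat_lit 0) (nat_lit 0) (nat_lit 1) (nat_lit 0) (nat_lit 1) (nat_lit 0) (nat_lit 340) (nat_lit 460) (nat_lit 280))) (XT.nd (nat_lit 94) (nat_lit 0) (nat_lit 0) (XT.lf (nat_lit 0) (nat_lit 2361977770293) (nat_lit 0) (nat_lit 0) (nat_lit 0) (nat_lit 0) (nat_lit 0) (nat_lit 0) (nat_lit 1) (nat_lit 0) (nat_lit 1) (nat_lit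 0) (nat_lit 341) (nat_lit 460) (nat_lit 279)) (XT.lf (nat_lit 0) (nat_lit 2361977614251) (nat_lit 0) (nat_lit 0) (nat_lit 0) (nat_lit 0) (nat_lit 0) (nat_lit 0) (nat_lit 1) (nat_lit 0) (nat_lit 1) (nat_lit 0) (nat_lit 342) (nat_lit 460) (nat_lit 278)))) (XT.nd (nat_lit 188) (nat_lit 0) (nat_lit 0) (XT.nd (nat_lit 94) (nat_lit 0) (nat_lit 0) (XT.lf (nat_lit 0) (nat_lit 2361977469768) (nat_lit 0) (nat_lit 0) (nat_lit 0) (nat_lit 0) (nat_lit 0) (nat_lit 0) (nat_lit 1) (nat_lit 0) (nat_lit 1) (nat_lit 0) (nat_lit 343) (nat_lit 460) (nat_lit 277)) (XT.lf (nat_lit 0) (nat_lit 2361977335987) (nat_lit 0) (nat_lit 0) (nat_lit 0) (nat_lit 0) (nat_lit 0) (nat_lit 0) (nat_lit 1) (nat_lit 0) (nat_lit 1) (nat_lit 0) (nat_lit 344) (nat_lit 460) (nat_lit 276))) (XT.nd (nat_lit 94) (nat_lit 0) (nat_lit 0) (XT.lf (nat_lit 0) (nat_lit 2361977212115) (nat_lit 0) (nat_lit 0) (nat_lit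 0) (nat_lit 0) (nat_lit 0) (nat_lit 0) (nat_lit 1) (nat_lit 0) (nat_lit 1) (nat_lit 0) (nat_lit 345) (nat_lit 460) (nat_lit 275)) (XT.nd (nat_lit 94) (nat_lit 0) (nat_lit 0) (XT.lf (nat_lit 0) (nat_lit 2361977097420) (nat_lit 0) (nat_lit 0) (nat_lit 0) (nat_lit 0) (nat_lit 0) (nat_lit 0) (nat_lit 1) (nat_lit 0) (nat_lit 1) (nat_lit 0) (nat_lit 346) (nat_lit 460) (nat_lit 274)) (XT.lf (nat_lit 0) (nat_lit 2361976991220) (nat_lit 0) (nat_lit 0) (nat_lit 0) (nat_lit 0) (nat_lit 0) (nat_lit 0) (nat_lit 1) (nat_lit 0) (nat_lit 1) (nat_lit 0) (nat_lit 347) (nat_lit 460) (nat_lit 273)))))) (XT.nd (nat_lit 470) (nat_lit 0) (nat_lit 0) (XT.nd (nat_lit 188) (nat_lit 0) (nat_lit 0) (XT.nd (nat_lit 94) (nat_lit 0) (nat_lit 0) (XT.lf (nat_lit 0) (nat_lit 2361976892887) (nat_lit 0) (nat_lit 0) (nat_lit 0) (nat_lit 0) (nat_lit 0) (nat_lit 0) (nat_lit 1) (nat_lit 0) (nat_lit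 1) (nat_lit 0) (nat_lit 348) (nat_lit 460) (nat_lit 272)) (XT.lf (nat_lit 0) (nat_lit 2361976801838) (nat_lit 0) (nat_lit 0) (nat_lit 0) (nat_lit 0) (nat_lit 0) (nat_lit 0) (nat_lit 1) (nat_lit 0) (nat_lit 1) (nat_lit 0) (nat_lit 349) (nat_lit 460) (nat_lit 271))) (XT.nd (nat_lit 94) (nat_lit 0) (nat_lit 0) (XT.lf (nat_lit 0) (nat_lit 2361976717533) (nat_lit 0) (nat_lit 0) (nat_lit 0) (nat_lit 0) (nat_lit 0) (nat_lit 0) (nat_lit 1) (nat_lit 0) (nat_lit 1) (nat_lit 0) (nat_lit 350) (nat_lit 460) (nat_lit 270)) (XT.nd (nat_lit 94) (nat_lit 0) (nat_lit 0) (XT.lf (nat_lit 0) (nat_lit 2361976639473) (nat_lit 0) (nat_lit 0) (nat_lit 0) (nat_lit 0) (nat_lit 0) (nat_lit 0) (nat_lit 1) (nat_lit 0) (nat_lit 1) (nat_lit 0) (nat_lit 351) (nat_lit 460) (nat_lit 269)) (XT.lf (nat_lit 0) (nat_lit 2361976567196) (nat_lit 0) (nat_lit 0) (nat_lit 0) (nat_lit 0) (nat_lit 0)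 (nat_lit 0) (nat_lit 1) (nat_lit 0) (nat_lit 1) (nat_lit 0) (nat_lit 352) (nat_lit 460) (nat_lit 268))))) (XT.nd (nat_lit 188) (nat_lit 0) (nat_lit 0) (XT.nd (nat_lit 94) (nat_lit 0) (nat_lit 0) (XT.lf (nat_lit 0) (nat_lit 2361976500272) (nat_lit 0) (nat_lit 0) (nat_lit 0) (nat_lit 0) (nat_lit 0) (nat_lit 0) (nat_lit 1) (nat_lit 0) (nat_lit 1) (nat_lit 0) (nat_lit 353) (nat_lit 460) (nat_lit 267)) (XT.lf (nat_lit 0) (nat_lit 2361976438305) (nat_lit 0) (nat_lit 0) (nat_lit 0) (nat_lit 0) (nat_lit 0) (nat_lit 0) (nat_lit 1) (nat_lit 0) (nat_lit 1) (nat_lit 0) (nat_lit 354) (nat_lit 460) (nat_lit 266))) (XT.nd (nat_lit 94) (nat_lit 0) (nat_lit 0) (XT.lf (nat_lit 0) (nat_lit 2361976380929) (nat_lit 0) (nat_lit 0) (nat_lit 0) (nat_lit 0) (nat_lit 0) (nat_lit 0) (nat_lit 1) (nat_lit 0) (nat_lit 1) (nat_lit 0) (nat_lit 355) (nat_lit 460) (nat_lit 265)) (XT.nd (nat_lit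 94) (nat_lit 0) (nat_lit 0) (XT.lf (nat_lit 0) (nat_lit 2361976327803) (nat_lit 0) (nat_lit 0) (nat_lit 0) (nat_lit 0) (nat_lit 0) (nat_lit 0) (nat_lit 1) (nat_lit 0) (nat_lit 1) (nat_lit 0) (nat_lit 356) (nat_lit 460) (nat_lit 264)) (XT.lf (nat_lit 0) (nat_lit 2361976278612) (nat_lit 0) (nat_lit 0) (nat_lit 0) (nat_lit 0) (nat_lit 0) (nat_lit 0) (nat_lit 1) (nat_lit 0) (nat_lit 1) (nat_lit 0) (nat_lit 357) (nat_lit 460) (nat_lit 263))))))) (XT.nd (nat_lit 846) (nat_lit 0) (nat_lit 0) (XT.nd (nat_lit 376) (nat_lit 0) (nat_lit 0) (XT.nd (nat_lit 188) (nat_lit 0) (nat_lit 0) (XT.nd (nat_lit 94) (nat_lit 0) (nat_lit 0) (XT.lf (nat_lit 0) (nat_lit 2361976233064) (nat_lit 0) (nat_lit 0) (nat_lit 0) (nat_lit 0) (nat_lit 0) (nat_lit 0) (nat_lit 1) (nat_lit 0) (nat_lit 1) (nat_lit 0) (nat_lit 358) (nat_lit 460) (nat_lit 262)) (XT.lf (nat_lit 0) (nat_lit 2361976190891)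 (nat_lit 0) (nat_lit 0) (nat_lit 0) (nat_lit 0) (nat_lit 0) (nat_lit 0) (nat_lit 1) (nat_lit 0) (nat_lit 1) (nat_lit 0) (nat_lit 359) (nat_lit 460) (nat_lit 261))) (XT.nd (nat_lit 94) (nat_lit 0) (nat_lit 0) (XT.lf (nat_lit 0) (nat_lit 2361976151842) (nat_lit 0) (nat_lit 0) (nat_lit 0) (nat_lit 0) (nat_lit 0) (nat_lit 0) (nat_lit 1) (nat_lit 0) (nat_lit 1) (nat_lit 0) (nat_lit 360) (nat_lit 460) (nat_lit 260)) (XT.lf (nat_lit 0) (nat_lit 2361976115685) (nat_lit 0) (nat_lit 0) (nat_lit 0) (nat_lit 0) (nat_lit 0) (nat_lit 0) (nat_lit 1) (nat_lit 0) (nat_lit 1) (nat_lit 0) (nat_lit 361) (nat_lit 460) (nat_lit 259)))) (XT.nd (nat_lit 188) (nat_lit 0) (nat_lit 0) (XT.nd (nat_lit 94) (nat_lit 0) (nat_lit 0) (XT.lf (nat_lit 0) (nat_lit 2361976082206) (nat_lit 0) (nat_lit 0) (nat_lit 0) (nat_lit 0) (nat_lit 0) (nat_lit 0) (nat_lit 1) (nat_lit 0) (nat_lit 1) (nat_lit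 0) (nat_lit 362) (nat_lit 460) (nat_lit 258)) (XT.lf (nat_lit 0) (nat_lit 2361976051208) (nat_lit 0) (nat_lit 0) (nat_lit 0) (nat_lit 0) (nat_lit 0) (nat_lit 0) (nat_lit 1) (nat_lit 0) (nat_lit 1) (nat_lit 0) (nat_lit 363) (nat_lit 460) (nat_lit 257))) (XT.nd (nat_lit 94) (nat_lit 0) (nat_lit 0) (XT.lf (nat_lit 0) (nat_lit 2361976022505) (nat_lit 0) (nat_lit 0) (nat_lit 0) (nat_lit 0) (nat_lit 0) (nat_lit 0) (nat_lit 1) (nat_lit 0) (nat_lit 1) (nat_lit 0) (nat_lit 364) (nat_lit 460) (nat_lit 256)) (XT.nd (nat_lit 94) (nat_lit 0) (nat_lit 0) (XT.lf (nat_lit 0) (nat_lit 2361975995929) (nat_lit 0) (nat_lit 0) (nat_lit 0) (nat_lit 0) (nat_lit 0) (nat_lit 0) (nat_lit 1) (nat_lit 0) (nat_lit 1) (nat_lit 0) (nat_lit 365) (nat_lit 460) (nat_lit 255)) (XT.lf (nat_lit 0) (nat_lit 2361975971321) (nat_lit 0) (nat_lit 0) (nat_lit 0) (nat_lit 0) (nat_lit 0) (nat_lit 0)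 (nat_lit 1) (nat_lit 0) (nat_lit 1) (nat_lit 0) (nat_lit 366) (nat_lit 460) (nat_lit 254)))))) (XT.nd (nat_lit 470) (nat_lit 0) (nat_lit 0) (XT.nd (nat_lit 188) (nat_lit 0) (nat_lit 0) (XT.nd (nat_lit 94) (nat_lit 0) (nat_lit 0) (XT.lf (nat_lit 0) (nat_lit 2361975948536) (nat_lit 0) (nat_lit 0) (nat_lit 0) (nat_lit 0) (nat_lit 0) (nat_lit 0) (nat_lit 1) (nat_lit 0) (nat_lit 1) (nat_lit 0) (nat_lit 367) (nat_lit 460) (nat_lit 253)) (XT.lf (nat_lit 0) (nat_lit 2361975927439) (nat_lit 0) (nat_lit 0) (nat_lit 0) (nat_lit 0) (nat_lit 0) (nat_lit 0) (nat_lit 1) (nat_lit 0) (nat_lit 1) (nat_lit 0) (nat_lit 368) (nat_lit 460) (nat_lit 252))) (XT.nd (nat_lit 94) (nat_lit 0) (nat_lit 0) (XT.lf (nat_lit 0) (nat_lit 2361975907905) (nat_lit 0) (nat_lit 0) (nat_lit 0) (nat_lit 0) (nat_lit 0) (nat_lit 0) (nat_lit 1) (nat_lit 0) (nat_lit 1) (nat_lit 0) (nat_lit 369) (nat_lit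 460) (nat_lit 251)) (XT.nd (nat_lit 94) (nat_lit 0) (nat_lit 0) (XT.lf (nat_lit 0) (nat_lit 2361975889817) (nat_lit 0) (nat_lit 0) (nat_lit 0) (nat_lit 0) (nat_lit 0) (nat_lit 0) (nat_lit 1) (nat_lit 0) (nat_lit 1) (nat_lit 0) (nat_lit 370) (nat_lit 460) (nat_lit 250)) (XT.lf (nat_lit 0) (nat_lit 2361975873070) (nat_lit 0) (nat_lit 0) (nat_lit 0) (nat_lit 0) (nat_lit 0) (nat_lit 0) (nat_lit 1) (nat_lit 0) (nat_lit 1) (nat_lit 0) (nat_lit 371) (nat_lit 460) (nat_lit 249))))) (XT.nd (nat_lit 188) (nat_lit 0) (nat_lit 0) (XT.nd (nat_lit 94) (nat_lit 0) (nat_lit 0) (XT.lf (nat_lit 0) (nat_lit 2361975857562) (nat_lit 0) (nat_lit 0) (nat_lit 0) (nat_lit 0) (nat_lit 0) (nat_lit 0) (nat_lit 1) (nat_lit 0) (nat_lit 1) (nat_lit 0) (nat_lit 372) (nat_lit 460) (nat_lit 248)) (XT.lf (nat_lit 0) (nat_lit 2361975843204) (nat_lit 0) (nat_lit 0) (nat_lit 0) (nat_lit 0) (nat_lit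 0) (nat_lit 0) (nat_lit 1) (nat_lit 0) (nat_lit 1) (nat_lit 0) (nat_lit 373) (nat_lit 460) (nat_lit 247))) (XT.nd (nat_lit 94) (nat_lit 0) (nat_lit 0) (XT.lf (nat_lit 0) (nat_lit 2361975829909) (nat_lit 0) (nat_lit 0) (nat_lit 0) (nat_lit 0) (nat_lit 0) (nat_lit 0) (nat_lit 1) (nat_lit 0) (nat_lit 1) (nat_lit 0) (nat_lit 374) (nat_lit 460) (nat_lit 246)) (XT.nd (nat_lit 94) (nat_lit 0) (nat_lit 0) (XT.lf (nat_lit 0) (nat_lit 2361975817599) (nat_lit 0) (nat_lit 0) (nat_lit 0) (nat_lit 0) (nat_lit 0) (nat_lit 0) (nat_lit 1) (nat_lit 0) (nat_lit 1) (nat_lit 0) (nat_lit 375) (nat_lit 460) (nat_lit 245)) (XT.lf (nat_lit 0) (nat_lit 2361975806201) (nat_lit 0) (nat_lit 0) (nat_lit 0) (nat_lit 0) (nat_lit 0) (nat_lit 0) (nat_lit 1) (nat_lit 0) (nat_lit 1) (nat_lit 0) (nat_lit 376) (nat_lit 460) (nat_lit 244))))))))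
noncomputable def ec492 : XT := (XT.nd (nat_lit 1692) (nat_lit 0) (nat_lit 0) (XT.nd (nat_lit 846) (nat_lit 0) (nat_lit 0) (XT.nd (nat_lit 376) (nat_lit 0) (nat_lit 0) (XT.nd (nat_lit 188) (nat_lit 0) (nat_lit 0) (XT.nd (nat_lit 94) (nat_lit 0) (nat_lit 0) (XT.lf (nat_lit 0) (nat_lit 2361975795647) (nat_lit 0) (nat_lit 0) (nat_lit 0) (nat_lit 0) (nat_lit 0) (nat_lit 0) (nat_lit 1) (nat_lit 0) (nat_lit 1) (nat_lit 0) (nat_lit 377) (nat_lit 460) (nat_lit 243)) (XT.lf (nat_lit 0) (nat_lit 2361975785875) (nat_lit 0) (nat_lit 0) (nat_lit 0) (nat_lit 0) (nat_lit 0) (nat_lit 0) (nat_lit 1) (nat_lit 0) (nat_lit 1) (nat_lit 0) (nat_lit 378) (nat_lit 460) (nat_lit 242))) (XT.nd (nat_lit 94) (nat_lit 0) (nat_lit 0) (XT.lf (nat_lit 0) (nat_lit 2361975776827) (nat_lit 0) (nat_lit 0) (nat_lit 0) (nat_lit 0) (nat_lit 0) (nat_lit 0) (nat_lit 1) (nat_lit 0) (nat_lit 1) (nat_lit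 0) (nat_lit 379) (nat_lit 460) (nat_lit 241)) (XT.lf (nat_lit 0) (nat_lit 2361975768449) (nat_lit 0) (nat_lit 0) (nat_lit 0) (nat_lit 0) (nat_lit 0) (nat_lit 0) (nat_lit 1) (nat_lit 0) (nat_lit 1) (nat_lit 0) (nat_lit 380) (nat_lit 460) (nat_lit 240)))) (XT.nd (nat_lit 188) (nat_lit 0) (nat_lit 0) (XT.nd (nat_lit 94) (nat_lit 0) (nat_lit 0) (XT.lf (nat_lit 0) (nat_lit 2361975760692) (nat_lit 0) (nat_lit 0) (nat_lit 0) (nat_lit 0) (nat_lit 0) (nat_lit 0) (nat_lit 1) (nat_lit 0) (nat_lit 1) (nat_lit 0) (nat_lit 381) (nat_lit 460) (nat_lit 239)) (XT.lf (nat_lit 0) (nat_lit 2361975753509) (nat_lit 0) (nat_lit 0) (nat_lit 0) (nat_lit 0) (nat_lit 0) (nat_lit 0) (nat_lit 1) (nat_lit 0) (nat_lit 1) (nat_lit 0) (nat_lit 382) (nat_lit 460) (nat_lit 238))) (XT.nd (nat_lit 94) (nat_lit 0) (nat_lit 0) (XT.lf (nat_lit 0) (nat_lit 2361975746858) (nat_lit 0) (nat_lit 0) (nat_lit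 0) (nat_lit 0) (nat_lit 0) (nat_lit 0) (nat_lit 1) (nat_lit 0) (nat_lit 1) (nat_lit 0) (nat_lit 383) (nat_lit 460) (nat_lit 237)) (XT.nd (nat_lit 94) (nat_lit 0) (nat_lit 0) (XT.lf (nat_lit 0) (nat_lit 2361975740700) (nat_lit 0) (nat_lit 0) (nat_lit 0) (nat_lit 0) (nat_lit 0) (nat_lit 0) (nat_lit 1) (nat_lit 0) (nat_lit 1) (nat_lit 0) (nat_lit 384) (nat_lit 460) (nat_lit 236)) (XT.lf (nat_lit 0) (nat_lit 2361975734998) (nat_lit 0) (nat_lit 0) (nat_lit 0) (nat_lit 0) (nat_lit 0) (nat_lit 0) (nat_lit 1) (nat_lit 0) (nat_lit 1) (nat_lit 0) (nat_lit 385) (nat_lit 460) (nat_lit 235)))))) (XT.nd (nat_lit 376) (nat_lit 0) (nat_lit 0) (XT.nd (nat_lit 188) (nat_lit 0) (nat_lit 0) (XT.nd (nat_lit 94) (nat_lit 0) (nat_lit 0) (XT.lf (nat_lit 0) (nat_lit 2361975729719) (nat_lit 0) (nat_lit 0) (nat_lit 0) (nat_lit 0) (nat_lit 0) (nat_lit 0) (nat_lit 1) (nat_lit 0) (nat_lit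 1) (nat_lit 0) (nat_lit 386) (nat_lit 460) (nat_lit 234)) (XT.lf (nat_lit 0) (nat_lit 2361975724830) (nat_lit 0) (nat_lit 0) (nat_lit 0) (nat_lit 0) (nat_lit 0) (nat_lit 0) (nat_lit 1) (nat_lit 0) (nat_lit 1) (nat_lit 0) (nat_lit 387) (nat_lit 460) (nat_lit 233))) (XT.nd (nat_lit 94) (nat_lit 0) (nat_lit 0) (XT.lf (nat_lit 0) (nat_lit 2361975720304) (nat_lit 0) (nat_lit 0) (nat_lit 0) (nat_lit 0) (nat_lit 0) (nat_lit 0) (nat_lit 1) (nat_lit 0) (nat_lit 1) (nat_lit 0) (nat_lit 388) (nat_lit 460) (nat_lit 232)) (XT.lf (nat_lit 0) (nat_lit 2361975716113) (nat_lit 0) (nat_lit 0) (nat_lit 0) (nat_lit 0) (nat_lit 0) (nat_lit 0) (nat_lit 1) (nat_lit 0) (nat_lit 1) (nat_lit 0) (nat_lit 389) (nat_lit 460) (nat_lit 231)))) (XT.nd (nat_lit 188) (nat_lit 0) (nat_lit 0) (XT.nd (nat_lit 94) (nat_lit 0) (nat_lit 0) (XT.lf (nat_lit 0) (nat_lit 2361975712232) (nat_lit 0) (nat_lit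 0) (nat_lit 0) (nat_lit 0) (nat_lit 0) (nat_lit 0) (nat_lit 1) (nat_lit 0) (nat_lit 1) (nat_lit 0) (nat_lit 390) (nat_lit 460) (nat_lit 230)) (XT.lf (nat_lit 0) (nat_lit 2361975708639) (nat_lit 0) (nat_lit 0) (nat_lit 0) (nat_lit 0) (nat_lit 0) (nat_lit 0) (nat_lit 1) (nat_lit 0) (nat_lit 1) (nat_lit 0) (nat_lit 391) (nat_lit 460) (nat_lit 229))) (XT.nd (nat_lit 94) (nat_lit 0) (nat_lit 0) (XT.lf (nat_lit 0) (nat_lit 2361975705312) (nat_lit 0) (nat_lit 0) (nat_lit 0) (nat_lit 0) (nat_lit 0) (nat_lit 0) (nat_lit 1) (nat_lit 0) (nat_lit 1) (nat_lit 0) (nat_lit 392) (nat_lit 460) (nat_lit 228)) (XT.nd (nat_lit 94) (nat_lit 0) (nat_lit 0) (XT.lf (nat_lit 0) (nat_lit 2361975702231) (nat_lit 0) (nat_lit 0) (nat_lit 0) (nat_lit 0) (nat_lit 0) (nat_lit 0) (nat_lit 1) (nat_lit 0) (nat_lit 1) (nat_lit 0) (nat_lit 393) (nat_lit 460) (nat_lit 227)) (XT.lf (nat_lit 0)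 (nat_lit 2361975699379) (nat_lit 0) (nat_lit 0) (nat_lit 0) (nat_lit 0) (nat_lit 0) (nat_lit 0) (nat_lit 1) (nat_lit 0) (nat_lit 1) (nat_lit 0) (nat_lit 394) (nat_lit 460) (nat_lit 226))))))) (XT.nd (nat_lit 45496) (nat_lit 0) (nat_lit 0) (XT.nd (nat_lit 5922) (nat_lit 0) (nat_lit 0) (XT.nd (nat_lit 188) (nat_lit 0) (nat_lit 0) (XT.nd (nat_lit 94) (nat_lit 0) (nat_lit 0) (XT.lf (nat_lit 0) (nat_lit 2361975696738) (nat_lit 0) (nat_lit 0) (nat_lit 0) (nat_lit 0) (nat_lit 0) (nat_lit 0) (nat_lit 1) (nat_lit 0) (nat_lit 1) (nat_lit 0) (nat_lit 395) (nat_lit 460) (nat_lit 225)) (XT.lf (nat_lit 0) (nat_lit 2361975694292) (nat_lit 0) (nat_lit 0) (nat_lit 0) (nat_lit 0) (nat_lit 0) (nat_lit 0) (nat_lit 1) (nat_lit 0) (nat_lit 1) (nat_lit 0) (nat_lit 396) (nat_lit 460) (nat_lit 224))) (XT.nd (nat_lit 5640) (nat_lit 0) (nat_lit 0) (XT.lf (nat_lit 0) (nat_lit 2361975692028)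 (nat_lit 0) (nat_lit 0) (nat_lit 0) (nat_lit 0) (nat_lit 0) (nat_lit 0) (nat_lit 1) (nat_lit 0) (nat_lit 1) (nat_lit 0) (nat_lit 397) (nat_lit 460) (nat_lit 223)) (XT.lf (nat_lit 0) (nat_lit 2361975664004) (nat_lit 0) (nat_lit 0) (nat_lit 0) (nat_lit 0) (nat_lit 0) (nat_lit 0) (nat_lit 1) (nat_lit 0) (nat_lit 1) (nat_lit 0) (nat_lit 457) (nat_lit 460) (nat_lit 163)))) (XT.nd (nat_lit 188) (nat_lit 0) (nat_lit 0) (XT.nd (nat_lit 94) (nat_lit 0) (nat_lit 0) (XT.lf (nat_lit 0) (nat_lit 2361975663983) (nat_lit 0) (nat_lit 0) (nat_lit 0) (nat_lit 0) (nat_lit 0) (nat_lit 0) (nat_lit 1) (nat_lit 0) (nat_lit 1) (nat_lit 0) (nat_lit 458) (nat_lit 460) (nat_lit 162)) (XT.lf (nat_lit 0) (nat_lit 2361975663964) (nat_lit 0) (nat_lit 0) (nat_lit 0) (nat_lit 0) (nat_lit 0) (nat_lit 0) (nat_lit 1) (nat_lit 0) (nat_lit 1) (nat_lit 0) (nat_lit 459) (nat_lit 460) (nat_lit 161)))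 (XT.nd (nat_lit 94) (nat_lit 0) (nat_lit 0) (XT.lf (nat_lit 0) (nat_lit 2361975663946) (nat_lit 0) (nat_lit 0) (nat_lit 0) (nat_lit 0) (nat_lit 0) (nat_lit 0) (nat_lit 1) (nat_lit 0) (nat_lit 1) (nat_lit 0) (nat_lit 460) (nat_lit 460) (nat_lit 160)) (XT.nd (nat_lit 94) (nat_lit 0) (nat_lit 0) (XT.lf (nat_lit 0) (nat_lit 2361975663930) (nat_lit 0) (nat_lit 0) (nat_lit 0) (nat_lit 0) (nat_lit 0) (nat_lit 0) (nat_lit 1) (nat_lit 0) (nat_lit 1) (nat_lit 0) (nat_lit 461) (nat_lit 460) (nat_lit 159)) (XT.lf (nat_lit 0) (nat_lit 2361975663915) (nat_lit 0) (nat_lit 0) (nat_lit 0) (nat_lit 0) (nat_lit 0) (nat_lit 0) (nat_lit 1) (nat_lit 0) (nat_lit 1) (nat_lit 0) (nat_lit 462) (nat_lit 460) (nat_lit 158)))))) (XT.nd (nat_lit 6580) (nat_lit 0) (nat_lit 0) (XT.nd (nat_lit 188) (nat_lit 10752) (nat_lit 0) (XT.nd (nat_lit 94) (nat_lit 0) (nat_lit 84) (XT.lf (nat_lit 924)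 (nat_lit 1276582783754) (nat_lit 0) (nat_lit 2266569798213) (nat_lit 924) (nat_lit 1276582783754) (nat_lit 139) (nat_lit 1) (nat_lit 128) (nat_lit 0) (nat_lit 139) (nat_lit 0) (nat_lit 158) (nat_lit 461) (nat_lit 461)) (XT.lf (nat_lit 924) (nat_lit 476204549181) (nat_lit 0) (nat_lit 4449963457413) (nat_lit 840) (nat_lit 4352049394348) (nat_lit 140) (nat_lit 1) (nat_lit 129) (nat_lit 1) (nat_lit 139) (nat_lit 1) (nat_lit 159) (nat_lit 461) (nat_lit 460))) (XT.nd (nat_lit 94) (nat_lit 10836) (nat_lit 0) (XT.lf (nat_lit 924) (nat_lit 4373663914988) (nat_lit 84) (nat_lit 2980142027413) (nat_lit 0) (nat_lit 1580531388880) (nat_lit 140) (nat_lit 1) (nat_lit 130) (nat_lit 1) (nat_lit 129) (nat_lit 1) (nat_lit 160) (nat_lit 461) (nat_lit 459)) (XT.nd (nat_lit 6204) (nat_lit 10920) (nat_lit 0) (XT.lf (nat_lit 924) (nat_lit 3779203918256) (nat_lit 84) (nat_lit 1248956867297)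 (nat_lit 0) (nat_lit 3579505106978) (nat_lit 141) (nat_lit 1) (nat_lit 131) (nat_lit 1) (nat_lit 130) (nat_lit 1) (nat_lit 161) (nat_lit 461) (nat_lit 458)) (XT.lf (nat_lit 0) (nat_lit 2563536313726) (nat_lit 0) (nat_lit 0) (nat_lit 0) (nat_lit 0) (nat_lit 0) (nat_lit 0) (nat_lit 1) (nat_lit 0) (nat_lit 1) (nat_lit 0) (nat_lit 227) (nat_lit 461) (nat_lit 392))))) (XT.nd (nat_lit 188) (nat_lit 0) (nat_lit 0) (XT.nd (nat_lit 94) (nat_lit 0) (nat_lit 0) (XT.lf (nat_lit 0) (nat_lit 2562602788030) (nat_lit 0) (nat_lit 0) (nat_lit 0) (nat_lit 0) (nat_lit 0) (nat_lit 0) (nat_lit 1) (nat_lit 0) (nat_lit 1) (nat_lit 0) (nat_lit 228) (nat_lit 461) (nat_lit 391)) (XT.lf (nat_lit 0) (nat_lit 2561738412385) (nat_lit 0) (nat_lit 0) (nat_lit 0) (nat_lit 0) (nat_lit 0) (nat_lit 0) (nat_lit 1) (nat_lit 0) (nat_lit 1) (nat_lit 0) (nat_lit 229) (nat_lit 461) (nat_lit 390)))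 (XT.nd (nat_lit 94) (nat_lit 0) (nat_lit 0) (XT.lf (nat_lit 0) (nat_lit 2560938064565) (nat_lit 0) (nat_lit 0) (nat_lit 0) (nat_lit 0) (nat_lit 0) (nat_lit 0) (nat_lit 1) (nat_lit 0) (nat_lit 1) (nat_lit 0) (nat_lit 230) (nat_lit 461) (nat_lit 389)) (XT.nd (nat_lit 94) (nat_lit 0) (nat_lit 0) (XT.lf (nat_lit 0) (nat_lit 2560197001769) (nat_lit 0) (nat_lit 0) (nat_lit 0) (nat_lit 0) (nat_lit 0) (nat_lit 0) (nat_lit 1) (nat_lit 0) (nat_lit 1) (nat_lit 0) (nat_lit 231) (nat_lit 461) (nat_lit 388)) (XT.lf (nat_lit 0) (nat_lit 2559510832514) (nat_lit 0) (nat_lit 0) (nat_lit 0) (nat_lit 0) (nat_lit 0) (nat_lit 0) (nat_lit 1) (nat_lit 0) (nat_lit 1) (nat_lit 0) (nat_lit 232) (nat_lit 461) (nat_lit 387))))))))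
noncomputable def ec493 : XT := (XT.nd (nat_lit 1786) (nat_lit 0) (nat_lit 0) (XT.nd (nat_lit 846) (nat_lit 0) (nat_lit 0) (XT.nd (nat_lit 376) (nat_lit 0) (nat_lit 0) (XT.nd (nat_lit 188) (nat_lit 0) (nat_lit 0) (XT.nd (nat_lit 94) (nat_lit 0) (nat_lit 0) (XT.lf (nat_lit 0) (nat_lit 2558875490611) (nat_lit 0) (nat_lit 0) (nat_lit 0) (nat_lit 0) (nat_lit 0) (nat_lit 0) (nat_lit 1) (nat_lit 0) (nat_lit 1) (nat_lit 0) (nat_lit 233) (nat_lit 461) (nat_lit 386)) (XT.lf (nat_lit 0) (nat_lit 2558287211071) (nat_lit 0) (nat_lit 0) (nat_lit 0) (nat_lit 0) (nat_lit 0) (nat_lit 0) (nat_lit 1) (nat_lit 0) (nat_lit 1) (nat_lit 0) (nat_lit 234) (nat_lit 461) (nat_lit 385))) (XT.nd (nat_lit 94) (nat_lit 0) (nat_lit 0) (XT.lf (nat_lit 0) (nat_lit 2557742507793) (nat_lit 0) (nat_lit 0) (nat_lit 0) (nat_lit 0) (nat_lit 0) (nat_lit 0) (nat_lit 1) (nat_lit 0) (nat_lit 1) (nat_lit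 0) (nat_lit 235) (nat_lit 461) (nat_lit 384)) (XT.lf (nat_lit 0) (nat_lit 2557238152907) (nat_lit 0) (nat_lit 0) (nat_lit 0) (nat_lit 0) (nat_lit 0) (nat_lit 0) (nat_lit 1) (nat_lit 0) (nat_lit 1) (nat_lit 0) (nat_lit 236) (nat_lit 461) (nat_lit 383)))) (XT.nd (nat_lit 188) (nat_lit 0) (nat_lit 0) (XT.nd (nat_lit 94) (nat_lit 0) (nat_lit 0) (XT.lf (nat_lit 0) (nat_lit 2556771157641) (nat_lit 0) (nat_lit 0) (nat_lit 0) (nat_lit 0) (nat_lit 0) (nat_lit 0) (nat_lit 1) (nat_lit 0) (nat_lit 1) (nat_lit 0) (nat_lit 237) (nat_lit 461) (nat_lit 382)) (XT.lf (nat_lit 0) (nat_lit 2556338754617) (nat_lit 0) (nat_lit 0) (nat_lit 0) (nat_lit 0) (nat_lit 0) (nat_lit 0) (nat_lit 1) (nat_lit 0) (nat_lit 1) (nat_lit 0) (nat_lit 238) (nat_lit 461) (nat_lit 381))) (XT.nd (nat_lit 94) (nat_lit 0) (nat_lit 0) (XT.lf (nat_lit 0) (nat_lit 2555938381447) (nat_lit 0) (nat_lit 0) (nat_lit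 0) (nat_lit 0) (nat_lit 0) (nat_lit 0) (nat_lit 1) (nat_lit 0) (nat_lit 1) (nat_lit 0) (nat_lit 239) (nat_lit 461) (nat_lit 380)) (XT.nd (nat_lit 94) (nat_lit 0) (nat_lit 0) (XT.lf (nat_lit 0) (nat_lit 2555567665549) (nat_lit 0) (nat_lit 0) (nat_lit 0) (nat_lit 0) (nat_lit 0) (nat_lit 0) (nat_lit 1) (nat_lit 0) (nat_lit 1) (nat_lit 0) (nat_lit 240) (nat_lit 461) (nat_lit 379)) (XT.lf (nat_lit 0) (nat_lit 2555224410088) (nat_lit 0) (nat_lit 0) (nat_lit 0) (nat_lit 0) (nat_lit 0) (nat_lit 0) (nat_lit 1) (nat_lit 0) (nat_lit 1) (nat_lit 0) (nat_lit 241) (nat_lit 461) (nat_lit 378)))))) (XT.nd (nat_lit 470) (nat_lit 0) (nat_lit 0) (XT.nd (nat_lit 188) (nat_lit 0) (nat_lit 0) (XT.nd (nat_lit 94) (nat_lit 0) (nat_lit 0) (XT.lf (nat_lit 0) (nat_lit 2554906580957) (nat_lit 0) (nat_lit 0) (nat_lit 0) (nat_lit 0) (nat_lit 0) (nat_lit 0) (nat_lit 1) (nat_lit 0) (nat_lit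 1) (nat_lit 0) (nat_lit 242) (nat_lit 461) (nat_lit 377)) (XT.lf (nat_lit 0) (nat_lit 2554612294725) (nat_lit 0) (nat_lit 0) (nat_lit 0) (nat_lit 0) (nat_lit 0) (nat_lit 0) (nat_lit 1) (nat_lit 0) (nat_lit 1) (nat_lit 0) (nat_lit 243) (nat_lit 461) (nat_lit 376))) (XT.nd (nat_lit 94) (nat_lit 0) (nat_lit 0) (XT.lf (nat_lit 0) (nat_lit 2554339807473) (nat_lit 0) (nat_lit 0) (nat_lit 0) (nat_lit 0) (nat_lit 0) (nat_lit 0) (nat_lit 1) (nat_lit 0) (nat_lit 1) (nat_lit 0) (nat_lit 244) (nat_lit 461) (nat_lit 375)) (XT.nd (nat_lit 94) (nat_lit 0) (nat_lit 0) (XT.lf (nat_lit 0) (nat_lit 2554087504462) (nat_lit 0) (nat_lit 0) (nat_lit 0) (nat_lit 0) (nat_lit 0) (nat_lit 0) (nat_lit 1) (nat_lit 0) (nat_lit 1) (nat_lit 0) (nat_lit 245) (nat_lit 461) (nat_lit 374)) (XT.lf (nat_lit 0) (nat_lit 2553853890563) (nat_lit 0) (nat_lit 0) (nat_lit 0) (nat_lit 0) (nat_lit 0)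 (nat_lit 0) (nat_lit 1) (nat_lit 0) (nat_lit 1) (nat_lit 0) (nat_lit 246) (nat_lit 461) (nat_lit 373))))) (XT.nd (nat_lit 188) (nat_lit 0) (nat_lit 0) (XT.nd (nat_lit 94) (nat_lit 0) (nat_lit 0) (XT.lf (nat_lit 0) (nat_lit 2553637581397) (nat_lit 0) (nat_lit 0) (nat_lit 0) (nat_lit 0) (nat_lit 0) (nat_lit 0) (nat_lit 1) (nat_lit 0) (nat_lit 1) (nat_lit 0) (nat_lit 247) (nat_lit 461) (nat_lit 372)) (XT.lf (nat_lit 0) (nat_lit 2553437295132) (nat_lit 0) (nat_lit 0) (nat_lit 0) (nat_lit 0) (nat_lit 0) (nat_lit 0) (nat_lit 1) (nat_lit 0) (nat_lit 1) (nat_lit 0) (nat_lit 248) (nat_lit 461) (nat_lit 371))) (XT.nd (nat_lit 94) (nat_lit 0) (nat_lit 0) (XT.lf (nat_lit 0) (nat_lit 2553251844887) (nat_lit 0) (nat_lit 0) (nat_lit 0) (nat_lit 0) (nat_lit 0) (nat_lit 0) (nat_lit 1) (nat_lit 0) (nat_lit 1) (nat_lit 0) (nat_lit 249) (nat_lit 461) (nat_lit 370)) (XT.nd (nat_lit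 94) (nat_lit 0) (nat_lit 0) (XT.lf (nat_lit 0) (nat_lit 2553080131697) (nat_lit 0) (nat_lit 0) (nat_lit 0) (nat_lit 0) (nat_lit 0) (nat_lit 0) (nat_lit 1) (nat_lit 0) (nat_lit 1) (nat_lit 0) (nat_lit 250) (nat_lit 461) (nat_lit 369)) (XT.lf (nat_lit 0) (nat_lit 2552921138002) (nat_lit 0) (nat_lit 0) (nat_lit 0) (nat_lit 0) (nat_lit 0) (nat_lit 0) (nat_lit 1) (nat_lit 0) (nat_lit 1) (nat_lit 0) (nat_lit 251) (nat_lit 461) (nat_lit 368))))))) (XT.nd (nat_lit 846) (nat_lit 0) (nat_lit 0) (XT.nd (nat_lit 376) (nat_lit 0) (nat_lit 0) (XT.nd (nat_lit 188) (nat_lit 0) (nat_lit 0) (XT.nd (nat_lit 94) (nat_lit 0) (nat_lit 0) (XT.lf (nat_lit 0) (nat_lit 2552773921619) (nat_lit 0) (nat_lit 0) (nat_lit 0) (nat_lit 0) (nat_lit 0) (nat_lit 0) (nat_lit 1) (nat_lit 0) (nat_lit 1) (nat_lit 0) (nat_lit 252) (nat_lit 461) (nat_lit 367)) (XT.lf (nat_lit 0) (nat_lit 2552637610152)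 (nat_lit 0) (nat_lit 0) (nat_lit 0) (nat_lit 0) (nat_lit 0) (nat_lit 0) (nat_lit 1) (nat_lit 0) (nat_lit 1) (nat_lit 0) (nat_lit 253) (nat_lit 461) (nat_lit 366))) (XT.nd (nat_lit 94) (nat_lit 0) (nat_lit 0) (XT.lf (nat_lit 0) (nat_lit 2552511395832) (nat_lit 0) (nat_lit 0) (nat_lit 0) (nat_lit 0) (nat_lit 0) (nat_lit 0) (nat_lit 1) (nat_lit 0) (nat_lit 1) (nat_lit 0) (nat_lit 254) (nat_lit 461) (nat_lit 365)) (XT.lf (nat_lit 0) (nat_lit 2552394530720) (nat_lit 0) (nat_lit 0) (nat_lit 0) (nat_lit 0) (nat_lit 0) (nat_lit 0) (nat_lit 1) (nat_lit 0) (nat_lit 1) (nat_lit 0) (nat_lit 255) (nat_lit 461) (nat_lit 364)))) (XT.nd (nat_lit 188) (nat_lit 0) (nat_lit 0) (XT.nd (nat_lit 94) (nat_lit 0) (nat_lit 0) (XT.lf (nat_lit 0) (nat_lit 2552286322283) (nat_lit 0) (nat_lit 0) (nat_lit 0) (nat_lit 0) (nat_lit 0) (nat_lit 0) (nat_lit 1) (nat_lit 0) (nat_lit 1) (nat_lit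 0) (nat_lit 256) (nat_lit 461) (nat_lit 363)) (XT.lf (nat_lit 0) (nat_lit 2552186129286) (nat_lit 0) (nat_lit 0) (nat_lit 0) (nat_lit 0) (nat_lit 0) (nat_lit 0) (nat_lit 1) (nat_lit 0) (nat_lit 1) (nat_lit 0) (nat_lit 257) (nat_lit 461) (nat_lit 362))) (XT.nd (nat_lit 94) (nat_lit 0) (nat_lit 0) (XT.lf (nat_lit 0) (nat_lit 2552093357992) (nat_lit 0) (nat_lit 0) (nat_lit 0) (nat_lit 0) (nat_lit 0) (nat_lit 0) (nat_lit 1) (nat_lit 0) (nat_lit 1) (nat_lit 0) (nat_lit 258) (nat_lit 461) (nat_lit 361)) (XT.nd (nat_lit 94) (nat_lit 0) (nat_lit 0) (XT.lf (nat_lit 0) (nat_lit 2552007458646) (nat_lit 0) (nat_lit 0) (nat_lit 0) (nat_lit 0) (nat_lit 0) (nat_lit 0) (nat_lit 1) (nat_lit 0) (nat_lit 1) (nat_lit 0) (nat_lit 259) (nat_lit 461) (nat_lit 360)) (XT.lf (nat_lit 0) (nat_lit 2551927922215) (nat_lit 0) (nat_lit 0) (nat_lit 0) (nat_lit 0) (nat_lit 0) (nat_lit 0)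 (nat_lit 1) (nat_lit 0) (nat_lit 1) (nat_lit 0) (nat_lit 260) (nat_lit 461) (nat_lit 359)))))) (XT.nd (nat_lit 470) (nat_lit 0) (nat_lit 0) (XT.nd (nat_lit 188) (nat_lit 0) (nat_lit 0) (XT.nd (nat_lit 94) (nat_lit 0) (nat_lit 0) (XT.lf (nat_lit 0) (nat_lit 2551854277371) (nat_lit 0) (nat_lit 0) (nat_lit 0) (nat_lit 0) (nat_lit 0) (nat_lit 0) (nat_lit 1) (nat_lit 0) (nat_lit 1) (nat_lit 0) (nat_lit 261) (nat_lit 461) (nat_lit 358)) (XT.lf (nat_lit 0) (nat_lit 2551786087701) (nat_lit 0) (nat_lit 0) (nat_lit 0) (nat_lit 0) (nat_lit 0) (nat_lit 0) (nat_lit 1) (nat_lit 0) (nat_lit 1) (nat_lit 0) (nat_lit 262) (nat_lit 461) (nat_lit 357))) (XT.nd (nat_lit 94) (nat_lit 0) (nat_lit 0) (XT.lf (nat_lit 0) (nat_lit 2551722949117) (nat_lit 0) (nat_lit 0) (nat_lit 0) (nat_lit 0) (nat_lit 0) (nat_lit 0) (nat_lit 1) (nat_lit 0) (nat_lit 1) (nat_lit 0) (nat_lit 263) (nat_lit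 461) (nat_lit 356)) (XT.nd (nat_lit 94) (nat_lit 0) (nat_lit 0) (XT.lf (nat_lit 0) (nat_lit 2551664487466) (nat_lit 0) (nat_lit 0) (nat_lit 0) (nat_lit 0) (nat_lit 0) (nat_lit 0) (nat_lit 1) (nat_lit 0) (nat_lit 1) (nat_lit 0) (nat_lit 264) (nat_lit 461) (nat_lit 355)) (XT.lf (nat_lit 0) (nat_lit 2551610356307) (nat_lit 0) (nat_lit 0) (nat_lit 0) (nat_lit 0) (nat_lit 0) (nat_lit 0) (nat_lit 1) (nat_lit 0) (nat_lit 1) (nat_lit 0) (nat_lit 265) (nat_lit 461) (nat_lit 354))))) (XT.nd (nat_lit 188) (nat_lit 0) (nat_lit 0) (XT.nd (nat_lit 94) (nat_lit 0) (nat_lit 0) (XT.lf (nat_lit 0) (nat_lit 2551560234864) (nat_lit 0) (nat_lit 0) (nat_lit 0) (nat_lit 0) (nat_lit 0) (nat_lit 0) (nat_lit 1) (nat_lit 0) (nat_lit 1) (nat_lit 0) (nat_lit 266) (nat_lit 461) (nat_lit 353)) (XT.lf (nat_lit 0) (nat_lit 2551513826120) (nat_lit 0) (nat_lit 0) (nat_lit 0) (nat_lit 0) (nat_lit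 0) (nat_lit 0) (nat_lit 1) (nat_lit 0) (nat_lit 1) (nat_lit 0) (nat_lit 267) (nat_lit 461) (nat_lit 352))) (XT.nd (nat_lit 94) (nat_lit 0) (nat_lit 0) (XT.lf (nat_lit 0) (nat_lit 2551470855061) (nat_lit 0) (nat_lit 0) (nat_lit 0) (nat_lit 0) (nat_lit 0) (nat_lit 0) (nat_lit 1) (nat_lit 0) (nat_lit 1) (nat_lit 0) (nat_lit 268) (nat_lit 461) (nat_lit 351)) (XT.nd (nat_lit 94) (nat_lit 0) (nat_lit 0) (XT.lf (nat_lit 0) (nat_lit 2551431067043) (nat_lit 0) (nat_lit 0) (nat_lit 0) (nat_lit 0) (nat_lit 0) (nat_lit 0) (nat_lit 1) (nat_lit 0) (nat_lit 1) (nat_lit 0) (nat_lit 269) (nat_lit 461) (nat_lit 350)) (XT.lf (nat_lit 0) (nat_lit 2551394226286) (nat_lit 0) (nat_lit 0) (nat_lit 0) (nat_lit 0) (nat_lit 0) (nat_lit 0) (nat_lit 1) (nat_lit 0) (nat_lit 1) (nat_lit 0) (nat_lit 270) (nat_lit 461) (nat_lit 349))))))))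
noncomputable def ec494 : XT := (XT.nd (nat_lit 1692) (nat_lit 0) (nat_lit 0) (XT.nd (nat_lit 846) (nat_lit 0) (nat_lit 0) (XT.nd (nat_lit 376) (nat_lit 0) (nat_lit 0) (XT.nd (nat_lit 188) (nat_lit 0) (nat_lit 0) (XT.nd (nat_lit 94) (nat_lit 0) (nat_lit 0) (XT.lf (nat_lit 0) (nat_lit 2551360114474) (nat_lit 0) (nat_lit 0) (nat_lit 0) (nat_lit 0) (nat_lit 0) (nat_lit 0) (nat_lit 1) (nat_lit 0) (nat_lit 1) (nat_lit 0) (nat_lit 271) (nat_lit 461) (nat_lit 348)) (XT.lf (nat_lit 0) (nat_lit 2551328529463) (nat_lit 0) (nat_lit 0) (nat_lit 0) (nat_lit 0) (nat_lit 0) (nat_lit 0) (nat_lit 1) (nat_lit 0) (nat_lit 1) (nat_lit 0) (nat_lit 272) (nat_lit 461) (nat_lit 347))) (XT.nd (nat_lit 94) (nat_lit 0) (nat_lit 0) (XT.lf (nat_lit 0) (nat_lit 2551299284082) (nat_lit 0) (nat_lit 0) (nat_lit 0) (nat_lit 0) (nat_lit 0) (nat_lit 0) (nat_lit 1) (nat_lit 0) (nat_lit 1) (nat_lit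 0) (nat_lit 273) (nat_lit 461) (nat_lit 346)) (XT.lf (nat_lit 0) (nat_lit 2551272205026) (nat_lit 0) (nat_lit 0) (nat_lit 0) (nat_lit 0) (nat_lit 0) (nat_lit 0) (nat_lit 1) (nat_lit 0) (nat_lit 1) (nat_lit 0) (nat_lit 274) (nat_lit 461) (nat_lit 345)))) (XT.nd (nat_lit 188) (nat_lit 0) (nat_lit 0) (XT.nd (nat_lit 94) (nat_lit 0) (nat_lit 0) (XT.lf (nat_lit 0) (nat_lit 2551247131825) (nat_lit 0) (nat_lit 0) (nat_lit 0) (nat_lit 0) (nat_lit 0) (nat_lit 0) (nat_lit 1) (nat_lit 0) (nat_lit 1) (nat_lit 0) (nat_lit 275) (nat_lit 461) (nat_lit 344)) (XT.lf (nat_lit 0) (nat_lit 2551223915899) (nat_lit 0) (nat_lit 0) (nat_lit 0) (nat_lit 0) (nat_lit 0) (nat_lit 0) (nat_lit 1) (nat_lit 0) (nat_lit 1) (nat_lit 0) (nat_lit 276) (nat_lit 461) (nat_lit 343))) (XT.nd (nat_lit 94) (nat_lit 0) (nat_lit 0) (XT.lf (nat_lit 0) (nat_lit 2551202419671) (nat_lit 0) (nat_lit 0) (nat_lit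 0) (nat_lit 0) (nat_lit 0) (nat_lit 0) (nat_lit 1) (nat_lit 0) (nat_lit 1) (nat_lit 0) (nat_lit 277) (nat_lit 461) (nat_lit 342)) (XT.nd (nat_lit 94) (nat_lit 0) (nat_lit 0) (XT.lf (nat_lit 0) (nat_lit 2551182515757) (nat_lit 0) (nat_lit 0) (nat_lit 0) (nat_lit 0) (nat_lit 0) (nat_lit 0) (nat_lit 1) (nat_lit 0) (nat_lit 1) (nat_lit 0) (nat_lit 278) (nat_lit 461) (nat_lit 341)) (XT.lf (nat_lit 0) (nat_lit 2551164086206) (nat_lit 0) (nat_lit 0) (nat_lit 0) (nat_lit 0) (nat_lit 0) (nat_lit 0) (nat_lit 1) (nat_lit 0) (nat_lit 1) (nat_lit 0) (nat_lit 279) (nat_lit 461) (nat_lit 340)))))) (XT.nd (nat_lit 376) (nat_lit 0) (nat_lit 0) (XT.nd (nat_lit 188) (nat_lit 0) (nat_lit 0) (XT.nd (nat_lit 94) (nat_lit 0) (nat_lit 0) (XT.lf (nat_lit 0) (nat_lit 2551147021807) (nat_lit 0) (nat_lit 0) (nat_lit 0) (nat_lit 0) (nat_lit 0) (nat_lit 0) (nat_lit 1) (nat_lit 0) (nat_lit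 1) (nat_lit 0) (nat_lit 280) (nat_lit 461) (nat_lit 339)) (XT.lf (nat_lit 0) (nat_lit 2551131221438) (nat_lit 0) (nat_lit 0) (nat_lit 0) (nat_lit 0) (nat_lit 0) (nat_lit 0) (nat_lit 1) (nat_lit 0) (nat_lit 1) (nat_lit 0) (nat_lit 281) (nat_lit 461) (nat_lit 338))) (XT.nd (nat_lit 94) (nat_lit 0) (nat_lit 0) (XT.lf (nat_lit 0) (nat_lit 2551116591466) (nat_lit 0) (nat_lit 0) (nat_lit 0) (nat_lit 0) (nat_lit 0) (nat_lit 0) (nat_lit 1) (nat_lit 0) (nat_lit 1) (nat_lit 0) (nat_lit 282) (nat_lit 461) (nat_lit 337)) (XT.lf (nat_lit 0) (nat_lit 2551103045196) (nat_lit 0) (nat_lit 0) (nat_lit 0) (nat_lit 0) (nat_lit 0) (nat_lit 0) (nat_lit 1) (nat_lit 0) (nat_lit 1) (nat_lit 0) (nat_lit 283) (nat_lit 461) (nat_lit 336)))) (XT.nd (nat_lit 188) (nat_lit 0) (nat_lit 0) (XT.nd (nat_lit 94) (nat_lit 0) (nat_lit 0) (XT.lf (nat_lit 0) (nat_lit 2551090502354) (nat_lit 0) (nat_lit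 0) (nat_lit 0) (nat_lit 0) (nat_lit 0) (nat_lit 0) (nat_lit 1) (nat_lit 0) (nat_lit 1) (nat_lit 0) (nat_lit 284) (nat_lit 461) (nat_lit 335)) (XT.lf (nat_lit 0) (nat_lit 2551078888611) (nat_lit 0) (nat_lit 0) (nat_lit 0) (nat_lit 0) (nat_lit 0) (nat_lit 0) (nat_lit 1) (nat_lit 0) (nat_lit 1) (nat_lit 0) (nat_lit 285) (nat_lit 461) (nat_lit 334))) (XT.nd (nat_lit 94) (nat_lit 0) (nat_lit 0) (XT.lf (nat_lit 0) (nat_lit 2551068135145) (nat_lit 0) (nat_lit 0) (nat_lit 0) (nat_lit 0) (nat_lit 0) (nat_lit 0) (nat_lit 1) (nat_lit 0) (nat_lit 1) (nat_lit 0) (nat_lit 286) (nat_lit 461) (nat_lit 333)) (XT.nd (nat_lit 94) (nat_lit 0) (nat_lit 0) (XT.lf (nat_lit 0) (nat_lit 2551058178232) (nat_lit 0) (nat_lit 0) (nat_lit 0) (nat_lit 0) (nat_lit 0) (nat_lit 0) (nat_lit 1) (nat_lit 0) (nat_lit 1) (nat_lit 0) (nat_lit 287) (nat_lit 461) (nat_lit 332)) (XT.lf (nat_lit 0)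 (nat_lit 2551048958868) (nat_lit 0) (nat_lit 0) (nat_lit 0) (nat_lit 0) (nat_lit 0) (nat_lit 0) (nat_lit 1) (nat_lit 0) (nat_lit 1) (nat_lit 0) (nat_lit 288) (nat_lit 461) (nat_lit 331))))))) (XT.nd (nat_lit 3854) (nat_lit 0) (nat_lit 0) (XT.nd (nat_lit 376) (nat_lit 0) (nat_lit 0) (XT.nd (nat_lit 188) (nat_lit 0) (nat_lit 0) (XT.nd (nat_lit 94) (nat_lit 0) (nat_lit 0) (XT.lf (nat_lit 0) (nat_lit 2551040422421) (nat_lit 0) (nat_lit 0) (nat_lit 0) (nat_lit 0) (nat_lit 0) (nat_lit 0) (nat_lit 1) (nat_lit 0) (nat_lit 1) (nat_lit 0) (nat_lit 289) (nat_lit 461) (nat_lit 330)) (XT.lf (nat_lit 0) (nat_lit 2551032518302) (nat_lit 0) (nat_lit 0) (nat_lit 0) (nat_lit 0) (nat_lit 0) (nat_lit 0) (nat_lit 1) (nat_lit 0) (nat_lit 1) (nat_lit 0) (nat_lit 290) (nat_lit 461) (nat_lit 329))) (XT.nd (nat_lit 94) (nat_lit 0) (nat_lit 0) (XT.lf (nat_lit 0) (nat_lit 2551025199674)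 (nat_lit 0) (nat_lit 0) (nat_lit 0) (nat_lit 0) (nat_lit 0) (nat_lit 0) (nat_lit 1) (nat_lit 0) (nat_lit 1) (nat_lit 0) (nat_lit 291) (nat_lit 461) (nat_lit 328)) (XT.lf (nat_lit 0) (nat_lit 2551018423167) (nat_lit 0) (nat_lit 0) (nat_lit 0) (nat_lit 0) (nat_lit 0) (nat_lit 0) (nat_lit 1) (nat_lit 0) (nat_lit 1) (nat_lit 0) (nat_lit 292) (nat_lit 461) (nat_lit 327)))) (XT.nd (nat_lit 3196) (nat_lit 0) (nat_lit 0) (XT.nd (nat_lit 3102) (nat_lit 0) (nat_lit 0) (XT.lf (nat_lit 0) (nat_lit 2551012148623) (nat_lit 0) (nat_lit 0) (nat_lit 0) (nat_lit 0) (nat_lit 0) (nat_lit 0) (nat_lit 1) (nat_lit 0) (nat_lit 1) (nat_lit 0) (nat_lit 293) (nat_lit 461) (nat_lit 326)) (XT.lf (nat_lit 0) (nat_lit 2550939904223) (nat_lit 0) (nat_lit 0) (nat_lit 0) (nat_lit 0) (nat_lit 0) (nat_lit 0) (nat_lit 1) (nat_lit 0) (nat_lit 1) (nat_lit 0) (nat_lit 326) (nat_lit 461) (nat_lit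 293))) (XT.nd (nat_lit 94) (nat_lit 0) (nat_lit 0) (XT.lf (nat_lit 0) (nat_lit 2550939445897) (nat_lit 0) (nat_lit 0) (nat_lit 0) (nat_lit 0) (nat_lit 0) (nat_lit 0) (nat_lit 1) (nat_lit 0) (nat_lit 1) (nat_lit 0) (nat_lit 327) (nat_lit 461) (nat_lit 292)) (XT.nd (nat_lit 94) (nat_lit 0) (nat_lit 0) (XT.lf (nat_lit 0) (nat_lit 2550939021521) (nat_lit 0) (nat_lit 0) (nat_lit 0) (nat_lit 0) (nat_lit 0) (nat_lit 0) (nat_lit 1) (nat_lit 0) (nat_lit 1) (nat_lit 0) (nat_lit 328) (nat_lit 461) (nat_lit 291)) (XT.lf (nat_lit 0) (nat_lit 2550938628581) (nat_lit 0) (nat_lit 0) (nat_lit 0) (nat_lit 0) (nat_lit 0) (nat_lit 0) (nat_lit 1) (nat_lit 0) (nat_lit 1) (nat_lit 0) (nat_lit 329) (nat_lit 461) (nat_lit 290)))))) (XT.nd (nat_lit 470) (nat_lit 0) (nat_lit 0) (XT.nd (nat_lit 188) (nat_lit 0) (nat_lit 0) (XT.nd (nat_lit 94) (nat_lit 0) (nat_lit 0) (XT.lf (nat_lit 0)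 (nat_lit 2550938264747) (nat_lit 0) (nat_lit 0) (nat_lit 0) (nat_lit 0) (nat_lit 0) (nat_lit 0) (nat_lit 1) (nat_lit 0) (nat_lit 1) (nat_lit 0) (nat_lit 330) (nat_lit 461) (nat_lit 289)) (XT.lf (nat_lit 0) (nat_lit 2550937927863) (nat_lit 0) (nat_lit 0) (nat_lit 0) (nat_lit 0) (nat_lit 0) (nat_lit 0) (nat_lit 1) (nat_lit 0) (nat_lit 1) (nat_lit 0) (nat_lit 331) (nat_lit 461) (nat_lit 288))) (XT.nd (nat_lit 94) (nat_lit 0) (nat_lit 0) (XT.lf (nat_lit 0) (nat_lit 2550937615934) (nat_lit 0) (nat_lit 0) (nat_lit 0) (nat_lit 0) (nat_lit 0) (nat_lit 0) (nat_lit 1) (nat_lit 0) (nat_lit 1) (nat_lit 0) (nat_lit 332) (nat_lit 461) (nat_lit 287)) (XT.nd (nat_lit 94) (nat_lit 0) (nat_lit 0) (XT.lf (nat_lit 0) (nat_lit 2550937327111) (nat_lit 0) (nat_lit 0) (nat_lit 0) (nat_lit 0) (nat_lit 0) (nat_lit 0) (nat_lit 1) (nat_lit 0) (nat_lit 1) (nat_lit 0) (nat_lit 333) (nat_lit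 461) (nat_lit 286)) (XT.lf (nat_lit 0) (nat_lit 2550937059682) (nat_lit 0) (nat_lit 0) (nat_lit 0) (nat_lit 0) (nat_lit 0) (nat_lit 0) (nat_lit 1) (nat_lit 0) (nat_lit 1) (nat_lit 0) (nat_lit 334) (nat_lit 461) (nat_lit 285))))) (XT.nd (nat_lit 188) (nat_lit 0) (nat_lit 0) (XT.nd (nat_lit 94) (nat_lit 0) (nat_lit 0) (XT.lf (nat_lit 0) (nat_lit 2550936812063) (nat_lit 0) (nat_lit 0) (nat_lit 0) (nat_lit 0) (nat_lit 0) (nat_lit 0) (nat_lit 1) (nat_lit 0) (nat_lit 1) (nat_lit 0) (nat_lit 335) (nat_lit 461) (nat_lit 284)) (XT.lf (nat_lit 0) (nat_lit 2550936582786) (nat_lit 0) (nat_lit 0) (nat_lit 0) (nat_lit 0) (nat_lit 0) (nat_lit 0) (nat_lit 1) (nat_lit 0) (nat_lit 1) (nat_lit 0) (nat_lit 336) (nat_lit 461) (nat_lit 283))) (XT.nd (nat_lit 94) (nat_lit 0) (nat_lit 0) (XT.lf (nat_lit 0) (nat_lit 2550936370492) (nat_lit 0) (nat_lit 0) (nat_lit 0) (nat_lit 0) (nat_lit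 0) (nat_lit 0) (nat_lit 1) (nat_lit 0) (nat_lit 1) (nat_lit 0) (nat_lit 337) (nat_lit 461) (nat_lit 282)) (XT.nd (nat_lit 94) (nat_lit 0) (nat_lit 0) (XT.lf (nat_lit 0) (nat_lit 2550936173924) (nat_lit 0) (nat_lit 0) (nat_lit 0) (nat_lit 0) (nat_lit 0) (nat_lit 0) (nat_lit 1) (nat_lit 0) (nat_lit 1) (nat_lit 0) (nat_lit 338) (nat_lit 461) (nat_lit 281)) (XT.lf (nat_lit 0) (nat_lit 2550935991917) (nat_lit 0) (nat_lit 0) (nat_lit 0) (nat_lit 0) (nat_lit 0) (nat_lit 0) (nat_lit 1) (nat_lit 0) (nat_lit 1) (nat_lit 0) (nat_lit 339) (nat_lit 461) (nat_lit 280))))))))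
noncomputable def ec495 : XT := (XT.nd (nat_lit 1786) (nat_lit 0) (nat_lit 0) (XT.nd (nat_lit 846) (nat_lit 0) (nat_lit 0) (XT.nd (nat_lit 376) (nat_lit 0) (nat_lit 0) (XT.nd (nat_lit 188) (nat_lit 0) (nat_lit 0) (XT.nd (nat_lit 94) (nat_lit 0) (nat_lit 0) (XT.lf (nat_lit 0) (nat_lit 2550935823391) (nat_lit 0) (nat_lit 0) (nat_lit 0) (nat_lit 0) (nat_lit 0) (nat_lit 0) (nat_lit 1) (nat_lit 0) (nat_lit 1) (nat_lit 0) (nat_lit 340) (nat_lit 461) (nat_lit 279)) (XT.lf (nat_lit 0) (nat_lit 2550935667349) (nat_lit 0) (nat_lit 0) (nat_lit 0) (nat_lit 0) (nat_lit 0) (nat_lit 0) (nat_lit 1) (nat_lit 0) (nat_lit 1) (nat_lit 0) (nat_lit 341) (nat_lit 461) (nat_lit 278))) (XT.nd (nat_lit 94) (nat_lit 0) (nat_lit 0) (XT.lf (nat_lit 0) (nat_lit 2550935522866) (nat_lit 0) (nat_lit 0) (nat_lit 0) (nat_lit 0) (nat_lit 0) (nat_lit 0) (nat_lit 1) (nat_lit 0) (nat_lit 1) (nat_lit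 0) (nat_lit 342) (nat_lit 461) (nat_lit 277)) (XT.lf (nat_lit 0) (nat_lit 2550935389085) (nat_lit 0) (nat_lit 0) (nat_lit 0) (nat_lit 0) (nat_lit 0) (nat_lit 0) (nat_lit 1) (nat_lit 0) (nat_lit 1) (nat_lit 0) (nat_lit 343) (nat_lit 461) (nat_lit 276)))) (XT.nd (nat_lit 188) (nat_lit 0) (nat_lit 0) (XT.nd (nat_lit 94) (nat_lit 0) (nat_lit 0) (XT.lf (nat_lit 0) (nat_lit 2550935265213) (nat_lit 0) (nat_lit 0) (nat_lit 0) (nat_lit 0) (nat_lit 0) (nat_lit 0) (nat_lit 1) (nat_lit 0) (nat_lit 1) (nat_lit 0) (nat_lit 344) (nat_lit 461) (nat_lit 275)) (XT.lf (nat_lit 0) (nat_lit 2550935150518) (nat_lit 0) (nat_lit 0) (nat_lit 0) (nat_lit 0) (nat_lit 0) (nat_lit 0) (nat_lit 1) (nat_lit 0) (nat_lit 1) (nat_lit 0) (nat_lit 345) (nat_lit 461) (nat_lit 274))) (XT.nd (nat_lit 94) (nat_lit 0) (nat_lit 0) (XT.lf (nat_lit 0) (nat_lit 2550935044318) (nat_lit 0) (nat_lit 0) (nat_lit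 0) (nat_lit 0) (nat_lit 0) (nat_lit 0) (nat_lit 1) (nat_lit 0) (nat_lit 1) (nat_lit 0) (nat_lit 346) (nat_lit 461) (nat_lit 273)) (XT.nd (nat_lit 94) (nat_lit 0) (nat_lit 0) (XT.lf (nat_lit 0) (nat_lit 2550934945985) (nat_lit 0) (nat_lit 0) (nat_lit 0) (nat_lit 0) (nat_lit 0) (nat_lit 0) (nat_lit 1) (nat_lit 0) (nat_lit 1) (nat_lit 0) (nat_lit 347) (nat_lit 461) (nat_lit 272)) (XT.lf (nat_lit 0) (nat_lit 2550934854936) (nat_lit 0) (nat_lit 0) (nat_lit 0) (nat_lit 0) (nat_lit 0) (nat_lit 0) (nat_lit 1) (nat_lit 0) (nat_lit 1) (nat_lit 0) (nat_lit 348) (nat_lit 461) (nat_lit 271)))))) (XT.nd (nat_lit 470) (nat_lit 0) (nat_lit 0) (XT.nd (nat_lit 188) (nat_lit 0) (nat_lit 0) (XT.nd (nat_lit 94) (nat_lit 0) (nat_lit 0) (XT.lf (nat_lit 0) (nat_lit 2550934770631) (nat_lit 0) (nat_lit 0) (nat_lit 0) (nat_lit 0) (nat_lit 0) (nat_lit 0) (nat_lit 1) (nat_lit 0) (nat_lit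 1) (nat_lit 0) (nat_lit 349) (nat_lit 461) (nat_lit 270)) (XT.lf (nat_lit 0) (nat_lit 2550934692571) (nat_lit 0) (nat_lit 0) (nat_lit 0) (nat_lit 0) (nat_lit 0) (nat_lit 0) (nat_lit 1) (nat_lit 0) (nat_lit 1) (nat_lit 0) (nat_lit 350) (nat_lit 461) (nat_lit 269))) (XT.nd (nat_lit 94) (nat_lit 0) (nat_lit 0) (XT.lf (nat_lit 0) (nat_lit 2550934620294) (nat_lit 0) (nat_lit 0) (nat_lit 0) (nat_lit 0) (nat_lit 0) (nat_lit 0) (nat_lit 1) (nat_lit 0) (nat_lit 1) (nat_lit 0) (nat_lit 351) (nat_lit 461) (nat_lit 268)) (XT.nd (nat_lit 94) (nat_lit 0) (nat_lit 0) (XT.lf (nat_lit 0) (nat_lit 2550934553370) (nat_lit 0) (nat_lit 0) (nat_lit 0) (nat_lit 0) (nat_lit 0) (nat_lit 0) (nat_lit 1) (nat_lit 0) (nat_lit 1) (nat_lit 0) (nat_lit 352) (nat_lit 461) (nat_lit 267)) (XT.lf (nat_lit 0) (nat_lit 2550934491403) (nat_lit 0) (nat_lit 0) (nat_lit 0) (nat_lit 0) (nat_lit 0)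 (nat_lit 0) (nat_lit 1) (nat_lit 0) (nat_lit 1) (nat_lit 0) (nat_lit 353) (nat_lit 461) (nat_lit 266))))) (XT.nd (nat_lit 188) (nat_lit 0) (nat_lit 0) (XT.nd (nat_lit 94) (nat_lit 0) (nat_lit 0) (XT.lf (nat_lit 0) (nat_lit 2550934434027) (nat_lit 0) (nat_lit 0) (nat_lit 0) (nat_lit 0) (nat_lit 0) (nat_lit 0) (nat_lit 1) (nat_lit 0) (nat_lit 1) (nat_lit 0) (nat_lit 354) (nat_lit 461) (nat_lit 265)) (XT.lf (nat_lit 0) (nat_lit 2550934380901) (nat_lit 0) (nat_lit 0) (nat_lit 0) (nat_lit 0) (nat_lit 0) (nat_lit 0) (nat_lit 1) (nat_lit 0) (nat_lit 1) (nat_lit 0) (nat_lit 355) (nat_lit 461) (nat_lit 264))) (XT.nd (nat_lit 94) (nat_lit 0) (nat_lit 0) (XT.lf (nat_lit 0) (nat_lit 2550934331710) (nat_lit 0) (nat_lit 0) (nat_lit 0) (nat_lit 0) (nat_lit 0) (nat_lit 0) (nat_lit 1) (nat_lit 0) (nat_lit 1) (nat_lit 0) (nat_lit 356) (nat_lit 461) (nat_lit 263)) (XT.nd (nat_lit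 94) (nat_lit 0) (nat_lit 0) (XT.lf (nat_lit 0) (nat_lit 2550934286162) (nat_lit 0) (nat_lit 0) (nat_lit 0) (nat_lit 0) (nat_lit 0) (nat_lit 0) (nat_lit 1) (nat_lit 0) (nat_lit 1) (nat_lit 0) (nat_lit 357) (nat_lit 461) (nat_lit 262)) (XT.lf (nat_lit 0) (nat_lit 2550934243989) (nat_lit 0) (nat_lit 0) (nat_lit 0) (nat_lit 0) (nat_lit 0) (nat_lit 0) (nat_lit 1) (nat_lit 0) (nat_lit 1) (nat_lit 0) (nat_lit 358) (nat_lit 461) (nat_lit 261))))))) (XT.nd (nat_lit 846) (nat_lit 0) (nat_lit 0) (XT.nd (nat_lit 376) (nat_lit 0) (nat_lit 0) (XT.nd (nat_lit 188) (nat_lit 0) (nat_lit 0) (XT.nd (nat_lit 94) (nat_lit 0) (nat_lit 0) (XT.lf (nat_lit 0) (nat_lit 2550934204940) (nat_lit 0) (nat_lit 0) (nat_lit 0) (nat_lit 0) (nat_lit 0) (nat_lit 0) (nat_lit 1) (nat_lit 0) (nat_lit 1) (nat_lit 0) (nat_lit 359) (nat_lit 461) (nat_lit 260)) (XT.lf (nat_lit 0) (nat_lit 2550934168783)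 (nat_lit 0) (nat_lit 0) (nat_lit 0) (nat_lit 0) (nat_lit 0) (nat_lit 0) (nat_lit 1) (nat_lit 0) (nat_lit 1) (nat_lit 0) (nat_lit 360) (nat_lit 461) (nat_lit 259))) (XT.nd (nat_lit 94) (nat_lit 0) (nat_lit 0) (XT.lf (nat_lit 0) (nat_lit 2550934135304) (nat_lit 0) (nat_lit 0) (nat_lit 0) (nat_lit 0) (nat_lit 0) (nat_lit 0) (nat_lit 1) (nat_lit 0) (nat_lit 1) (nat_lit 0) (nat_lit 361) (nat_lit 461) (nat_lit 258)) (XT.lf (nat_lit 0) (nat_lit 2550934104306) (nat_lit 0) (nat_lit 0) (nat_lit 0) (nat_lit 0) (nat_lit 0) (nat_lit 0) (nat_lit 1) (nat_lit 0) (nat_lit 1) (nat_lit 0) (nat_lit 362) (nat_lit 461) (nat_lit 257)))) (XT.nd (nat_lit 188) (nat_lit 0) (nat_lit 0) (XT.nd (nat_lit 94) (nat_lit 0) (nat_lit 0) (XT.lf (nat_lit 0) (nat_lit 2550934075603) (nat_lit 0) (nat_lit 0) (nat_lit 0) (nat_lit 0) (nat_lit 0) (nat_lit 0) (nat_lit 1) (nat_lit 0) (nat_lit 1) (nat_lit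 0) (nat_lit 363) (nat_lit 461) (nat_lit 256)) (XT.lf (nat_lit 0) (nat_lit 2550934049027) (nat_lit 0) (nat_lit 0) (nat_lit 0) (nat_lit 0) (nat_lit 0) (nat_lit 0) (nat_lit 1) (nat_lit 0) (nat_lit 1) (nat_lit 0) (nat_lit 364) (nat_lit 461) (nat_lit 255))) (XT.nd (nat_lit 94) (nat_lit 0) (nat_lit 0) (XT.lf (nat_lit 0) (nat_lit 2550934024419) (nat_lit 0) (nat_lit 0) (nat_lit 0) (nat_lit 0) (nat_lit 0) (nat_lit 0) (nat_lit 1) (nat_lit 0) (nat_lit 1) (nat_lit 0) (nat_lit 365) (nat_lit 461) (nat_lit 254)) (XT.nd (nat_lit 94) (nat_lit 0) (nat_lit 0) (XT.lf (nat_lit 0) (nat_lit 2550934001634) (nat_lit 0) (nat_lit 0) (nat_lit 0) (nat_lit 0) (nat_lit 0) (nat_lit 0) (nat_lit 1) (nat_lit 0) (nat_lit 1) (nat_lit 0) (nat_lit 366) (nat_lit 461) (nat_lit 253)) (XT.lf (nat_lit 0) (nat_lit 2550933980537) (nat_lit 0) (nat_lit 0) (nat_lit 0) (nat_lit 0) (nat_lit 0) (nat_lit 0)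 (nat_lit 1) (nat_lit 0) (nat_lit 1) (nat_lit 0) (nat_lit 367) (nat_lit 461) (nat_lit 252)))))) (XT.nd (nat_lit 470) (nat_lit 0) (nat_lit 0) (XT.nd (nat_lit 188) (nat_lit 0) (nat_lit 0) (XT.nd (nat_lit 94) (nat_lit 0) (nat_lit 0) (XT.lf (nat_lit 0) (nat_lit 2550933961003) (nat_lit 0) (nat_lit 0) (nat_lit 0) (nat_lit 0) (nat_lit 0) (nat_lit 0) (nat_lit 1) (nat_lit 0) (nat_lit 1) (nat_lit 0) (nat_lit 368) (nat_lit 461) (nat_lit 251)) (XT.lf (nat_lit 0) (nat_lit 2550933942915) (nat_lit 0) (nat_lit 0) (nat_lit 0) (nat_lit 0) (nat_lit 0) (nat_lit 0) (nat_lit 1) (nat_lit 0) (nat_lit 1) (nat_lit 0) (nat_lit 369) (nat_lit 461) (nat_lit 250))) (XT.nd (nat_lit 94) (nat_lit 0) (nat_lit 0) (XT.lf (nat_lit 0) (nat_lit 2550933926168) (nat_lit 0) (nat_lit 0) (nat_lit 0) (nat_lit 0) (nat_lit 0) (nat_lit 0) (nat_lit 1) (nat_lit 0) (nat_lit 1) (nat_lit 0) (nat_lit 370) (nat_lit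 461) (nat_lit 249)) (XT.nd (nat_lit 94) (nat_lit 0) (nat_lit 0) (XT.lf (nat_lit 0) (nat_lit 2550933910660) (nat_lit 0) (nat_lit 0) (nat_lit 0) (nat_lit 0) (nat_lit 0) (nat_lit 0) (nat_lit 1) (nat_lit 0) (nat_lit 1) (nat_lit 0) (nat_lit 371) (nat_lit 461) (nat_lit 248)) (XT.lf (nat_lit 0) (nat_lit 2550933896302) (nat_lit 0) (nat_lit 0) (nat_lit 0) (nat_lit 0) (nat_lit 0) (nat_lit 0) (nat_lit 1) (nat_lit 0) (nat_lit 1) (nat_lit 0) (nat_lit 372) (nat_lit 461) (nat_lit 247))))) (XT.nd (nat_lit 188) (nat_lit 0) (nat_lit 0) (XT.nd (nat_lit 94) (nat_lit 0) (nat_lit 0) (XT.lf (nat_lit 0) (nat_lit 2550933883007) (nat_lit 0) (nat_lit 0) (nat_lit 0) (nat_lit 0) (nat_lit 0) (nat_lit 0) (nat_lit 1) (nat_lit 0) (nat_lit 1) (nat_lit 0) (nat_lit 373) (nat_lit 461) (nat_lit 246)) (XT.lf (nat_lit 0) (nat_lit 2550933870697) (nat_lit 0) (nat_lit 0) (nat_lit 0) (nat_lit 0) (nat_lit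 0) (nat_lit 0) (nat_lit 1) (nat_lit 0) (nat_lit 1) (nat_lit 0) (nat_lit 374) (nat_lit 461) (nat_lit 245))) (XT.nd (nat_lit 94) (nat_lit 0) (nat_lit 0) (XT.lf (nat_lit 0) (nat_lit 2550933859299) (nat_lit 0) (nat_lit 0) (nat_lit 0) (nat_lit 0) (nat_lit 0) (nat_lit 0) (nat_lit 1) (nat_lit 0) (nat_lit 1) (nat_lit 0) (nat_lit 375) (nat_lit 461) (nat_lit 244)) (XT.nd (nat_lit 94) (nat_lit 0) (nat_lit 0) (XT.lf (nat_lit 0) (nat_lit 2550933848745) (nat_lit 0) (nat_lit 0) (nat_lit 0) (nat_lit 0) (nat_lit 0) (nat_lit 0) (nat_lit 1) (nat_lit 0) (nat_lit 1) (nat_lit 0) (nat_lit 376) (nat_lit 461) (nat_lit 243)) (XT.lf (nat_lit 0) (nat_lit 2550933838973) (nat_lit 0) (nat_lit 0) (nat_lit 0) (nat_lit 0) (nat_lit 0) (nat_lit 0) (nat_lit 1) (nat_lit 0) (nat_lit 1) (nat_lit 0) (nat_lit 377) (nat_lit 461) (nat_lit 242))))))))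
noncomputable def ec496 : XT := (XT.nd (nat_lit 7802) (nat_lit 0) (nat_lit 0) (XT.nd (nat_lit 846) (nat_lit 0) (nat_lit 0) (XT.nd (nat_lit 376) (nat_lit 0) (nat_lit 0) (XT.nd (nat_lit 188) (nat_lit 0) (nat_lit 0) (XT.nd (nat_lit 94) (nat_lit 0) (nat_lit 0) (XT.lf (nat_lit 0) (nat_lit 2550933829925) (nat_lit 0) (nat_lit 0) (nat_lit 0) (nat_lit 0) (nat_lit 0) (nat_lit 0) (nat_lit 1) (nat_lit 0) (nat_lit 1) (nat_lit 0) (nat_lit 378) (nat_lit 461) (nat_lit 241)) (XT.lf (nat_lit 0) (nat_lit 2550933821547) (nat_lit 0) (nat_lit 0) (nat_lit 0) (nat_lit 0) (nat_lit 0) (nat_lit 0) (nat_lit 1) (nat_lit 0) (nat_lit 1) (nat_lit 0) (nat_lit 379) (nat_lit 461) (nat_lit 240))) (XT.nd (nat_lit 94) (nat_lit 0) (nat_lit 0) (XT.lf (nat_lit 0) (nat_lit 2550933813790) (nat_lit 0) (nat_lit 0) (nat_lit 0) (nat_lit 0) (nat_lit 0) (nat_lit 0) (nat_lit 1) (nat_lit 0) (nat_lit 1) (nat_lit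 0) (nat_lit 380) (nat_lit 461) (nat_lit 239)) (XT.lf (nat_lit 0) (nat_lit 2550933806607) (nat_lit 0) (nat_lit 0) (nat_lit 0) (nat_lit 0) (nat_lit 0) (nat_lit 0) (nat_lit 1) (nat_lit 0) (nat_lit 1) (nat_lit 0) (nat_lit 381) (nat_lit 461) (nat_lit 238)))) (XT.nd (nat_lit 188) (nat_lit 0) (nat_lit 0) (XT.nd (nat_lit 94) (nat_lit 0) (nat_lit 0) (XT.lf (nat_lit 0) (nat_lit 2550933799956) (nat_lit 0) (nat_lit 0) (nat_lit 0) (nat_lit 0) (nat_lit 0) (nat_lit 0) (nat_lit 1) (nat_lit 0) (nat_lit 1) (nat_lit 0) (nat_lit 382) (nat_lit 461) (nat_lit 237)) (XT.lf (nat_lit 0) (nat_lit 2550933793798) (nat_lit 0) (nat_lit 0) (nat_lit 0) (nat_lit 0) (nat_lit 0) (nat_lit 0) (nat_lit 1) (nat_lit 0) (nat_lit 1) (nat_lit 0) (nat_lit 383) (nat_lit 461) (nat_lit 236))) (XT.nd (nat_lit 94) (nat_lit 0) (nat_lit 0) (XT.lf (nat_lit 0) (nat_lit 2550933788096) (nat_lit 0) (nat_lit 0) (nat_lit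 0) (nat_lit 0) (nat_lit 0) (nat_lit 0) (nat_lit 1) (nat_lit 0) (nat_lit 1) (nat_lit 0) (nat_lit 384) (nat_lit 461) (nat_lit 235)) (XT.nd (nat_lit 94) (nat_lit 0) (nat_lit 0) (XT.lf (nat_lit 0) (nat_lit 2550933782817) (nat_lit 0) (nat_lit 0) (nat_lit 0) (nat_lit 0) (nat_lit 0) (nat_lit 0) (nat_lit 1) (nat_lit 0) (nat_lit 1) (nat_lit 0) (nat_lit 385) (nat_lit 461) (nat_lit 234)) (XT.lf (nat_lit 0) (nat_lit 2550933777928) (nat_lit 0) (nat_lit 0) (nat_lit 0) (nat_lit 0) (nat_lit 0) (nat_lit 0) (nat_lit 1) (nat_lit 0) (nat_lit 1) (nat_lit 0) (nat_lit 386) (nat_lit 461) (nat_lit 233)))))) (XT.nd (nat_lit 376) (nat_lit 0) (nat_lit 0) (XT.nd (nat_lit 188) (nat_lit 0) (nat_lit 0) (XT.nd (nat_lit 94) (nat_lit 0) (nat_lit 0) (XT.lf (nat_lit 0) (nat_lit 2550933773402) (nat_lit 0) (nat_lit 0) (nat_lit 0) (nat_lit 0) (nat_lit 0) (nat_lit 0) (nat_lit 1) (nat_lit 0) (nat_lit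 1) (nat_lit 0) (nat_lit 387) (nat_lit 461) (nat_lit 232)) (XT.lf (nat_lit 0) (nat_lit 2550933769211) (nat_lit 0) (nat_lit 0) (nat_lit 0) (nat_lit 0) (nat_lit 0) (nat_lit 0) (nat_lit 1) (nat_lit 0) (nat_lit 1) (nat_lit 0) (nat_lit 388) (nat_lit 461) (nat_lit 231))) (XT.nd (nat_lit 94) (nat_lit 0) (nat_lit 0) (XT.lf (nat_lit 0) (nat_lit 2550933765330) (nat_lit 0) (nat_lit 0) (nat_lit 0) (nat_lit 0) (nat_lit 0) (nat_lit 0) (nat_lit 1) (nat_lit 0) (nat_lit 1) (nat_lit 0) (nat_lit 389) (nat_lit 461) (nat_lit 230)) (XT.lf (nat_lit 0) (nat_lit 2550933761737) (nat_lit 0) (nat_lit 0) (nat_lit 0) (nat_lit 0) (nat_lit 0) (nat_lit 0) (nat_lit 1) (nat_lit 0) (nat_lit 1) (nat_lit 0) (nat_lit 390) (nat_lit 461) (nat_lit 229)))) (XT.nd (nat_lit 6298) (nat_lit 0) (nat_lit 0) (XT.nd (nat_lit 94) (nat_lit 0) (nat_lit 0) (XT.lf (nat_lit 0) (nat_lit 2550933758410) (nat_lit 0)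 (nat_lit 0) (nat_lit 0) (nat_lit 0) (nat_lit 0) (nat_lit 0) (nat_lit 1) (nat_lit 0) (nat_lit 1) (nat_lit 0) (nat_lit 391) (nat_lit 461) (nat_lit 228)) (XT.lf (nat_lit 0) (nat_lit 2550933755329) (nat_lit 0) (nat_lit 0) (nat_lit 0) (nat_lit 0) (nat_lit 0) (nat_lit 0) (nat_lit 1) (nat_lit 0) (nat_lit 1) (nat_lit 0) (nat_lit 392) (nat_lit 461) (nat_lit 227))) (XT.nd (nat_lit 94) (nat_lit 0) (nat_lit 0) (XT.lf (nat_lit 0) (nat_lit 2550933717062) (nat_lit 0) (nat_lit 0) (nat_lit 0) (nat_lit 0) (nat_lit 0) (nat_lit 0) (nat_lit 1) (nat_lit 0) (nat_lit 1) (nat_lit 0) (nat_lit 458) (nat_lit 461) (nat_lit 161)) (XT.nd (nat_lit 94) (nat_lit 0) (nat_lit 0) (XT.lf (nat_lit 0) (nat_lit 2550933717044) (nat_lit 0) (nat_lit 0) (nat_lit 0) (nat_lit 0) (nat_lit 0) (nat_lit 0) (nat_lit 1) (nat_lit 0) (nat_lit 1) (nat_lit 0) (nat_lit 459) (nat_lit 461) (nat_lit 160)) (XT.lf (nat_lit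 0) (nat_lit 2550933717028) (nat_lit 0) (nat_lit 0) (nat_lit 0) (nat_lit 0) (nat_lit 0) (nat_lit 0) (nat_lit 1) (nat_lit 0) (nat_lit 1) (nat_lit 0) (nat_lit 460) (nat_lit 461) (nat_lit 159))))))) (XT.nd (nat_lit 46248) (nat_lit 0) (nat_lit 0) (XT.nd (nat_lit 39198) (nat_lit 0) (nat_lit 0) (XT.nd (nat_lit 188) (nat_lit 0) (nat_lit 0) (XT.nd (nat_lit 94) (nat_lit 0) (nat_lit 0) (XT.lf (nat_lit 0) (nat_lit 2550933717013) (nat_lit 0) (nat_lit 0) (nat_lit 0) (nat_lit 0) (nat_lit 0) (nat_lit 0) (nat_lit 1) (nat_lit 0) (nat_lit 1) (nat_lit 0) (nat_lit 461) (nat_lit 461) (nat_lit 158)) (XT.lf (nat_lit 0) (nat_lit 2550933716998) (nat_lit 0) (nat_lit 0) (nat_lit 0) (nat_lit 0) (nat_lit 0) (nat_lit 0) (nat_lit 1) (nat_lit 0) (nat_lit 1) (nat_lit 0) (nat_lit 462) (nat_lit 461) (nat_lit 157))) (XT.nd (nat_lit 38916) (nat_lit 0) (nat_lit 10752) (XT.lf (nat_lit 0) (nat_lit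 2550933716985) (nat_lit 0) (nat_lit 0) (nat_lit 0) (nat_lit 0) (nat_lit 0) (nat_lit 0) (nat_lit 1) (nat_lit 0) (nat_lit 1) (nat_lit 0) (nat_lit 463) (nat_lit 461) (nat_lit 156)) (XT.lf (nat_lit 924) (nat_lit 1378709406455) (nat_lit 0) (nat_lit 2447895382070) (nat_lit 924) (nat_lit 1378709406455) (nat_lit 139) (nat_lit 1) (nat_lit 128) (nat_lit 0) (nat_lit 139) (nat_lit 0) (nat_lit 156) (nat_lit 462) (nat_lit 462)))) (XT.nd (nat_lit 188) (nat_lit 10836) (nat_lit 0) (XT.nd (nat_lit 94) (nat_lit 0) (nat_lit 0) (XT.lf (nat_lit 924) (nat_lit 514300913115) (nat_lit 0) (nat_lit 4805960534006) (nat_lit 840) (nat_lit 4700213345896) (nat_lit 140) (nat_lit 1) (nat_lit 129) (nat_lit 1) (nat_lit 139) (nat_lit 1) (nat_lit 157) (nat_lit 462) (nat_lit 461)) (XT.lf (nat_lit 924) (nat_lit 4723557028187) (nat_lit 84) (nat_lit 3218553389606) (nat_lit 0) (nat_lit 1706973899990)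 (nat_lit 140) (nat_lit 1) (nat_lit 130) (nat_lit 1) (nat_lit 129) (nat_lit 1) (nat_lit 158) (nat_lit 462) (nat_lit 460))) (XT.nd (nat_lit 6674) (nat_lit 10920) (nat_lit 0) (XT.lf (nat_lit 924) (nat_lit 4081540231717) (nat_lit 84) (nat_lit 1348873416681) (nat_lit 0) (nat_lit 3865865515537) (nat_lit 141) (nat_lit 1) (nat_lit 131) (nat_lit 1) (nat_lit 130) (nat_lit 1) (nat_lit 159) (nat_lit 462) (nat_lit 459)) (XT.nd (nat_lit 94) (nat_lit 0) (nat_lit 0) (XT.lf (nat_lit 0) (nat_lit 2764271699115) (nat_lit 0) (nat_lit 0) (nat_lit 0) (nat_lit 0) (nat_lit 0) (nat_lit 0) (nat_lit 1) (nat_lit 0) (nat_lit 1) (nat_lit 0) (nat_lit 230) (nat_lit 462) (nat_lit 388)) (XT.lf (nat_lit 0) (nat_lit 2763585529860) (nat_lit 0) (nat_lit 0) (nat_lit 0) (nat_lit 0) (nat_lit 0) (nat_lit 0) (nat_lit 1) (nat_lit 0) (nat_lit 1) (nat_lit 0) (nat_lit 231) (nat_lit 462) (nat_lit 387))))))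 (XT.nd (nat_lit 470) (nat_lit 0) (nat_lit 0) (XT.nd (nat_lit 188) (nat_lit 0) (nat_lit 0) (XT.nd (nat_lit 94) (nat_lit 0) (nat_lit 0) (XT.lf (nat_lit 0) (nat_lit 2762950187957) (nat_lit 0) (nat_lit 0) (nat_lit 0) (nat_lit 0) (nat_lit 0) (nat_lit 0) (nat_lit 1) (nat_lit 0) (nat_lit 1) (nat_lit 0) (nat_lit 232) (nat_lit 462) (nat_lit 386)) (XT.lf (nat_lit 0) (nat_lit 2762361908417) (nat_lit 0) (nat_lit 0) (nat_lit 0) (nat_lit 0) (nat_lit 0) (nat_lit 0) (nat_lit 1) (nat_lit 0) (nat_lit 1) (nat_lit 0) (nat_lit 233) (nat_lit 462) (nat_lit 385))) (XT.nd (nat_lit 94) (nat_lit 0) (nat_lit 0) (XT.lf (nat_lit 0) (nat_lit 2761817205139) (nat_lit 0) (nat_lit 0) (nat_lit 0) (nat_lit 0) (nat_lit 0) (nat_lit 0) (nat_lit 1) (nat_lit 0) (nat_lit 1) (nat_lit 0) (nat_lit 234) (nat_lit 462) (nat_lit 384)) (XT.nd (nat_lit 94) (nat_lit 0) (nat_lit 0) (XT.lf (nat_lit 0) (nat_lit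 2761312850252) (nat_lit 0) (nat_lit 0) (nat_lit 0) (nat_lit 0) (nat_lit 0) (nat_lit 0) (nat_lit 1) (nat_lit 0) (nat_lit 1) (nat_lit 0) (nat_lit 235) (nat_lit 462) (nat_lit 383)) (XT.lf (nat_lit 0) (nat_lit 2760845854987) (nat_lit 0) (nat_lit 0) (nat_lit 0) (nat_lit 0) (nat_lit 0) (nat_lit 0) (nat_lit 1) (nat_lit 0) (nat_lit 1) (nat_lit 0) (nat_lit 236) (nat_lit 462) (nat_lit 382))))) (XT.nd (nat_lit 188) (nat_lit 0) (nat_lit 0) (XT.nd (nat_lit 94) (nat_lit 0) (nat_lit 0) (XT.lf (nat_lit 0) (nat_lit 2760413451963) (nat_lit 0) (nat_lit 0) (nat_lit 0) (nat_lit 0) (nat_lit 0) (nat_lit 0) (nat_lit 1) (nat_lit 0) (nat_lit 1) (nat_lit 0) (nat_lit 237) (nat_lit 462) (nat_lit 381)) (XT.lf (nat_lit 0) (nat_lit 2760013078793) (nat_lit 0) (nat_lit 0) (nat_lit 0) (nat_lit 0) (nat_lit 0) (nat_lit 0) (nat_lit 1) (nat_lit 0) (nat_lit 1) (nat_lit 0) (nat_lit 238) (nat_lit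 462) (nat_lit 380))) (XT.nd (nat_lit 94) (nat_lit 0) (nat_lit 0) (XT.lf (nat_lit 0) (nat_lit 2759642362895) (nat_lit 0) (nat_lit 0) (nat_lit 0) (nat_lit 0) (nat_lit 0) (nat_lit 0) (nat_lit 1) (nat_lit 0) (nat_lit 1) (nat_lit 0) (nat_lit 239) (nat_lit 462) (nat_lit 379)) (XT.nd (nat_lit 94) (nat_lit 0) (nat_lit 0) (XT.lf (nat_lit 0) (nat_lit 2759299107434) (nat_lit 0) (nat_lit 0) (nat_lit 0) (nat_lit 0) (nat_lit 0) (nat_lit 0) (nat_lit 1) (nat_lit 0) (nat_lit 1) (nat_lit 0) (nat_lit 240) (nat_lit 462) (nat_lit 378)) (XT.lf (nat_lit 0) (nat_lit 2758981278303) (nat_lit 0) (nat_lit 0) (nat_lit 0) (nat_lit 0) (nat_lit 0) (nat_lit 0) (nat_lit 1) (nat_lit 0) (nat_lit 1) (nat_lit 0) (nat_lit 241) (nat_lit 462) (nat_lit 377))))))))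
noncomputable def ec497 : XT := (XT.nd (nat_lit 1786) (nat_lit 0) (nat_lit 0) (XT.nd (nat_lit 846) (nat_lit 0) (nat_lit 0) (XT.nd (nat_lit 376) (nat_lit 0) (nat_lit 0) (XT.nd (nat_lit 188) (nat_lit 0) (nat_lit 0) (XT.nd (nat_lit 94) (nat_lit 0) (nat_lit 0) (XT.lf (nat_lit 0) (nat_lit 2758686992071) (nat_lit 0) (nat_lit 0) (nat_lit 0) (nat_lit 0) (nat_lit 0) (nat_lit 0) (nat_lit 1) (nat_lit 0) (nat_lit 1) (nat_lit 0) (nat_lit 242) (nat_lit 462) (nat_lit 376)) (XT.lf (nat_lit 0) (nat_lit 2758414504819) (nat_lit 0) (nat_lit 0) (nat_lit 0) (nat_lit 0) (nat_lit 0) (nat_lit 0) (nat_lit 1) (nat_lit 0) (nat_lit 1) (nat_lit 0) (nat_lit 243) (nat_lit 462) (nat_lit 375))) (XT.nd (nat_lit 94) (nat_lit 0) (nat_lit 0) (XT.lf (nat_lit 0) (nat_lit 2758162201808) (nat_lit 0) (nat_lit 0) (nat_lit 0) (nat_lit 0) (nat_lit 0) (nat_lit 0) (nat_lit 1) (nat_lit 0) (nat_lit 1) (nat_lit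 0) (nat_lit 244) (nat_lit 462) (nat_lit 374)) (XT.lf (nat_lit 0) (nat_lit 2757928587908) (nat_lit 0) (nat_lit 0) (nat_lit 0) (nat_lit 0) (nat_lit 0) (nat_lit 0) (nat_lit 1) (nat_lit 0) (nat_lit 1) (nat_lit 0) (nat_lit 245) (nat_lit 462) (nat_lit 373)))) (XT.nd (nat_lit 188) (nat_lit 0) (nat_lit 0) (XT.nd (nat_lit 94) (nat_lit 0) (nat_lit 0) (XT.lf (nat_lit 0) (nat_lit 2757712278742) (nat_lit 0) (nat_lit 0) (nat_lit 0) (nat_lit 0) (nat_lit 0) (nat_lit 0) (nat_lit 1) (nat_lit 0) (nat_lit 1) (nat_lit 0) (nat_lit 246) (nat_lit 462) (nat_lit 372)) (XT.lf (nat_lit 0) (nat_lit 2757511992478) (nat_lit 0) (nat_lit 0) (nat_lit 0) (nat_lit 0) (nat_lit 0) (nat_lit 0) (nat_lit 1) (nat_lit 0) (nat_lit 1) (nat_lit 0) (nat_lit 247) (nat_lit 462) (nat_lit 371))) (XT.nd (nat_lit 94) (nat_lit 0) (nat_lit 0) (XT.lf (nat_lit 0) (nat_lit 2757326542233) (nat_lit 0) (nat_lit 0) (nat_lit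 0) (nat_lit 0) (nat_lit 0) (nat_lit 0) (nat_lit 1) (nat_lit 0) (nat_lit 1) (nat_lit 0) (nat_lit 248) (nat_lit 462) (nat_lit 370)) (XT.nd (nat_lit 94) (nat_lit 0) (nat_lit 0) (XT.lf (nat_lit 0) (nat_lit 2757154829043) (nat_lit 0) (nat_lit 0) (nat_lit 0) (nat_lit 0) (nat_lit 0) (nat_lit 0) (nat_lit 1) (nat_lit 0) (nat_lit 1) (nat_lit 0) (nat_lit 249) (nat_lit 462) (nat_lit 369)) (XT.lf (nat_lit 0) (nat_lit 2756995835348) (nat_lit 0) (nat_lit 0) (nat_lit 0) (nat_lit 0) (nat_lit 0) (nat_lit 0) (nat_lit 1) (nat_lit 0) (nat_lit 1) (nat_lit 0) (nat_lit 250) (nat_lit 462) (nat_lit 368)))))) (XT.nd (nat_lit 470) (nat_lit 0) (nat_lit 0) (XT.nd (nat_lit 188) (nat_lit 0) (nat_lit 0) (XT.nd (nat_lit 94) (nat_lit 0) (nat_lit 0) (XT.lf (nat_lit 0) (nat_lit 2756848618964) (nat_lit 0) (nat_lit 0) (nat_lit 0) (nat_lit 0) (nat_lit 0) (nat_lit 0) (nat_lit 1) (nat_lit 0) (nat_lit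 1) (nat_lit 0) (nat_lit 251) (nat_lit 462) (nat_lit 367)) (XT.lf (nat_lit 0) (nat_lit 2756712307498) (nat_lit 0) (nat_lit 0) (nat_lit 0) (nat_lit 0) (nat_lit 0) (nat_lit 0) (nat_lit 1) (nat_lit 0) (nat_lit 1) (nat_lit 0) (nat_lit 252) (nat_lit 462) (nat_lit 366))) (XT.nd (nat_lit 94) (nat_lit 0) (nat_lit 0) (XT.lf (nat_lit 0) (nat_lit 2756586093177) (nat_lit 0) (nat_lit 0) (nat_lit 0) (nat_lit 0) (nat_lit 0) (nat_lit 0) (nat_lit 1) (nat_lit 0) (nat_lit 1) (nat_lit 0) (nat_lit 253) (nat_lit 462) (nat_lit 365)) (XT.nd (nat_lit 94) (nat_lit 0) (nat_lit 0) (XT.lf (nat_lit 0) (nat_lit 2756469228066) (nat_lit 0) (nat_lit 0) (nat_lit 0) (nat_lit 0) (nat_lit 0) (nat_lit 0) (nat_lit 1) (nat_lit 0) (nat_lit 1) (nat_lit 0) (nat_lit 254) (nat_lit 462) (nat_lit 364)) (XT.lf (nat_lit 0) (nat_lit 2756361019629) (nat_lit 0) (nat_lit 0) (nat_lit 0) (nat_lit 0) (nat_lit 0)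 (nat_lit 0) (nat_lit 1) (nat_lit 0) (nat_lit 1) (nat_lit 0) (nat_lit 255) (nat_lit 462) (nat_lit 363))))) (XT.nd (nat_lit 188) (nat_lit 0) (nat_lit 0) (XT.nd (nat_lit 94) (nat_lit 0) (nat_lit 0) (XT.lf (nat_lit 0) (nat_lit 2756260826632) (nat_lit 0) (nat_lit 0) (nat_lit 0) (nat_lit 0) (nat_lit 0) (nat_lit 0) (nat_lit 1) (nat_lit 0) (nat_lit 1) (nat_lit 0) (nat_lit 256) (nat_lit 462) (nat_lit 362)) (XT.lf (nat_lit 0) (nat_lit 2756168055338) (nat_lit 0) (nat_lit 0) (nat_lit 0) (nat_lit 0) (nat_lit 0) (nat_lit 0) (nat_lit 1) (nat_lit 0) (nat_lit 1) (nat_lit 0) (nat_lit 257) (nat_lit 462) (nat_lit 361))) (XT.nd (nat_lit 94) (nat_lit 0) (nat_lit 0) (XT.lf (nat_lit 0) (nat_lit 2756082155992) (nat_lit 0) (nat_lit 0) (nat_lit 0) (nat_lit 0) (nat_lit 0) (nat_lit 0) (nat_lit 1) (nat_lit 0) (nat_lit 1) (nat_lit 0) (nat_lit 258) (nat_lit 462) (nat_lit 360)) (XT.nd (nat_lit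 94) (nat_lit 0) (nat_lit 0) (XT.lf (nat_lit 0) (nat_lit 2756002619561) (nat_lit 0) (nat_lit 0) (nat_lit 0) (nat_lit 0) (nat_lit 0) (nat_lit 0) (nat_lit 1) (nat_lit 0) (nat_lit 1) (nat_lit 0) (nat_lit 259) (nat_lit 462) (nat_lit 359)) (XT.lf (nat_lit 0) (nat_lit 2755928974717) (nat_lit 0) (nat_lit 0) (nat_lit 0) (nat_lit 0) (nat_lit 0) (nat_lit 0) (nat_lit 1) (nat_lit 0) (nat_lit 1) (nat_lit 0) (nat_lit 260) (nat_lit 462) (nat_lit 358))))))) (XT.nd (nat_lit 846) (nat_lit 0) (nat_lit 0) (XT.nd (nat_lit 376) (nat_lit 0) (nat_lit 0) (XT.nd (nat_lit 188) (nat_lit 0) (nat_lit 0) (XT.nd (nat_lit 94) (nat_lit 0) (nat_lit 0) (XT.lf (nat_lit 0) (nat_lit 2755860785047) (nat_lit 0) (nat_lit 0) (nat_lit 0) (nat_lit 0) (nat_lit 0) (nat_lit 0) (nat_lit 1) (nat_lit 0) (nat_lit 1) (nat_lit 0) (nat_lit 261) (nat_lit 462) (nat_lit 357)) (XT.lf (nat_lit 0) (nat_lit 2755797646463)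 (nat_lit 0) (nat_lit 0) (nat_lit 0) (nat_lit 0) (nat_lit 0) (nat_lit 0) (nat_lit 1) (nat_lit 0) (nat_lit 1) (nat_lit 0) (nat_lit 262) (nat_lit 462) (nat_lit 356))) (XT.nd (nat_lit 94) (nat_lit 0) (nat_lit 0) (XT.lf (nat_lit 0) (nat_lit 2755739184811) (nat_lit 0) (nat_lit 0) (nat_lit 0) (nat_lit 0) (nat_lit 0) (nat_lit 0) (nat_lit 1) (nat_lit 0) (nat_lit 1) (nat_lit 0) (nat_lit 263) (nat_lit 462) (nat_lit 355)) (XT.lf (nat_lit 0) (nat_lit 2755685053653) (nat_lit 0) (nat_lit 0) (nat_lit 0) (nat_lit 0) (nat_lit 0) (nat_lit 0) (nat_lit 1) (nat_lit 0) (nat_lit 1) (nat_lit 0) (nat_lit 264) (nat_lit 462) (nat_lit 354)))) (XT.nd (nat_lit 188) (nat_lit 0) (nat_lit 0) (XT.nd (nat_lit 94) (nat_lit 0) (nat_lit 0) (XT.lf (nat_lit 0) (nat_lit 2755634932209) (nat_lit 0) (nat_lit 0) (nat_lit 0) (nat_lit 0) (nat_lit 0) (nat_lit 0) (nat_lit 1) (nat_lit 0) (nat_lit 1) (nat_lit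 0) (nat_lit 265) (nat_lit 462) (nat_lit 353)) (XT.lf (nat_lit 0) (nat_lit 2755588523466) (nat_lit 0) (nat_lit 0) (nat_lit 0) (nat_lit 0) (nat_lit 0) (nat_lit 0) (nat_lit 1) (nat_lit 0) (nat_lit 1) (nat_lit 0) (nat_lit 266) (nat_lit 462) (nat_lit 352))) (XT.nd (nat_lit 94) (nat_lit 0) (nat_lit 0) (XT.lf (nat_lit 0) (nat_lit 2755545552407) (nat_lit 0) (nat_lit 0) (nat_lit 0) (nat_lit 0) (nat_lit 0) (nat_lit 0) (nat_lit 1) (nat_lit 0) (nat_lit 1) (nat_lit 0) (nat_lit 267) (nat_lit 462) (nat_lit 351)) (XT.nd (nat_lit 94) (nat_lit 0) (nat_lit 0) (XT.lf (nat_lit 0) (nat_lit 2755505764389) (nat_lit 0) (nat_lit 0) (nat_lit 0) (nat_lit 0) (nat_lit 0) (nat_lit 0) (nat_lit 1) (nat_lit 0) (nat_lit 1) (nat_lit 0) (nat_lit 268) (nat_lit 462) (nat_lit 350)) (XT.lf (nat_lit 0) (nat_lit 2755468923632) (nat_lit 0) (nat_lit 0) (nat_lit 0) (nat_lit 0) (nat_lit 0) (nat_lit 0)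 (nat_lit 1) (nat_lit 0) (nat_lit 1) (nat_lit 0) (nat_lit 269) (nat_lit 462) (nat_lit 349)))))) (XT.nd (nat_lit 470) (nat_lit 0) (nat_lit 0) (XT.nd (nat_lit 188) (nat_lit 0) (nat_lit 0) (XT.nd (nat_lit 94) (nat_lit 0) (nat_lit 0) (XT.lf (nat_lit 0) (nat_lit 2755434811820) (nat_lit 0) (nat_lit 0) (nat_lit 0) (nat_lit 0) (nat_lit 0) (nat_lit 0) (nat_lit 1) (nat_lit 0) (nat_lit 1) (nat_lit 0) (nat_lit 270) (nat_lit 462) (nat_lit 348)) (XT.lf (nat_lit 0) (nat_lit 2755403226808) (nat_lit 0) (nat_lit 0) (nat_lit 0) (nat_lit 0) (nat_lit 0) (nat_lit 0) (nat_lit 1) (nat_lit 0) (nat_lit 1) (nat_lit 0) (nat_lit 271) (nat_lit 462) (nat_lit 347))) (XT.nd (nat_lit 94) (nat_lit 0) (nat_lit 0) (XT.lf (nat_lit 0) (nat_lit 2755373981428) (nat_lit 0) (nat_lit 0) (nat_lit 0) (nat_lit 0) (nat_lit 0) (nat_lit 0) (nat_lit 1) (nat_lit 0) (nat_lit 1) (nat_lit 0) (nat_lit 272) (nat_lit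 462) (nat_lit 346)) (XT.nd (nat_lit 94) (nat_lit 0) (nat_lit 0) (XT.lf (nat_lit 0) (nat_lit 2755346902371) (nat_lit 0) (nat_lit 0) (nat_lit 0) (nat_lit 0) (nat_lit 0) (nat_lit 0) (nat_lit 1) (nat_lit 0) (nat_lit 1) (nat_lit 0) (nat_lit 273) (nat_lit 462) (nat_lit 345)) (XT.lf (nat_lit 0) (nat_lit 2755321829171) (nat_lit 0) (nat_lit 0) (nat_lit 0) (nat_lit 0) (nat_lit 0) (nat_lit 0) (nat_lit 1) (nat_lit 0) (nat_lit 1) (nat_lit 0) (nat_lit 274) (nat_lit 462) (nat_lit 344))))) (XT.nd (nat_lit 188) (nat_lit 0) (nat_lit 0) (XT.nd (nat_lit 94) (nat_lit 0) (nat_lit 0) (XT.lf (nat_lit 0) (nat_lit 2755298613245) (nat_lit 0) (nat_lit 0) (nat_lit 0) (nat_lit 0) (nat_lit 0) (nat_lit 0) (nat_lit 1) (nat_lit 0) (nat_lit 1) (nat_lit 0) (nat_lit 275) (nat_lit 462) (nat_lit 343)) (XT.lf (nat_lit 0) (nat_lit 2755277117017) (nat_lit 0) (nat_lit 0) (nat_lit 0) (nat_lit 0) (nat_lit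 0) (nat_lit 0) (nat_lit 1) (nat_lit 0) (nat_lit 1) (nat_lit 0) (nat_lit 276) (nat_lit 462) (nat_lit 342))) (XT.nd (nat_lit 94) (nat_lit 0) (nat_lit 0) (XT.lf (nat_lit 0) (nat_lit 2755257213102) (nat_lit 0) (nat_lit 0) (nat_lit 0) (nat_lit 0) (nat_lit 0) (nat_lit 0) (nat_lit 1) (nat_lit 0) (nat_lit 1) (nat_lit 0) (nat_lit 277) (nat_lit 462) (nat_lit 341)) (XT.nd (nat_lit 94) (nat_lit 0) (nat_lit 0) (XT.lf (nat_lit 0) (nat_lit 2755238783552) (nat_lit 0) (nat_lit 0) (nat_lit 0) (nat_lit 0) (nat_lit 0) (nat_lit 0) (nat_lit 1) (nat_lit 0) (nat_lit 1) (nat_lit 0) (nat_lit 278) (nat_lit 462) (nat_lit 340)) (XT.lf (nat_lit 0) (nat_lit 2755221719153) (nat_lit 0) (nat_lit 0) (nat_lit 0) (nat_lit 0) (nat_lit 0) (nat_lit 0) (nat_lit 1) (nat_lit 0) (nat_lit 1) (nat_lit 0) (nat_lit 279) (nat_lit 462) (nat_lit 339))))))))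
noncomputable def ec498 : XT := (XT.nd (nat_lit 5170) (nat_lit 0) (nat_lit 0) (XT.nd (nat_lit 846) (nat_lit 0) (nat_lit 0) (XT.nd (nat_lit 376) (nat_lit 0) (nat_lit 0) (XT.nd (nat_lit 188) (nat_lit 0) (nat_lit 0) (XT.nd (nat_lit 94) (nat_lit 0) (nat_lit 0) (XT.lf (nat_lit 0) (nat_lit 2755205918784) (nat_lit 0) (nat_lit 0) (nat_lit 0) (nat_lit 0) (nat_lit 0) (nat_lit 0) (nat_lit 1) (nat_lit 0) (nat_lit 1) (nat_lit 0) (nat_lit 280) (nat_lit 462) (nat_lit 338)) (XT.lf (nat_lit 0) (nat_lit 2755191288812) (nat_lit 0) (nat_lit 0) (nat_lit 0) (nat_lit 0) (nat_lit 0) (nat_lit 0) (nat_lit 1) (nat_lit 0) (nat_lit 1) (nat_lit 0) (nat_lit 281) (nat_lit 462) (nat_lit 337))) (XT.nd (nat_lit 94) (nat_lit 0) (nat_lit 0) (XT.lf (nat_lit 0) (nat_lit 2755177742542) (nat_lit 0) (nat_lit 0) (nat_lit 0) (nat_lit 0) (nat_lit 0) (nat_lit 0) (nat_lit 1) (nat_lit 0) (nat_lit 1) (nat_lit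 0) (nat_lit 282) (nat_lit 462) (nat_lit 336)) (XT.lf (nat_lit 0) (nat_lit 2755165199700) (nat_lit 0) (nat_lit 0) (nat_lit 0) (nat_lit 0) (nat_lit 0) (nat_lit 0) (nat_lit 1) (nat_lit 0) (nat_lit 1) (nat_lit 0) (nat_lit 283) (nat_lit 462) (nat_lit 335)))) (XT.nd (nat_lit 188) (nat_lit 0) (nat_lit 0) (XT.nd (nat_lit 94) (nat_lit 0) (nat_lit 0) (XT.lf (nat_lit 0) (nat_lit 2755153585957) (nat_lit 0) (nat_lit 0) (nat_lit 0) (nat_lit 0) (nat_lit 0) (nat_lit 0) (nat_lit 1) (nat_lit 0) (nat_lit 1) (nat_lit 0) (nat_lit 284) (nat_lit 462) (nat_lit 334)) (XT.lf (nat_lit 0) (nat_lit 2755142832491) (nat_lit 0) (nat_lit 0) (nat_lit 0) (nat_lit 0) (nat_lit 0) (nat_lit 0) (nat_lit 1) (nat_lit 0) (nat_lit 1) (nat_lit 0) (nat_lit 285) (nat_lit 462) (nat_lit 333))) (XT.nd (nat_lit 94) (nat_lit 0) (nat_lit 0) (XT.lf (nat_lit 0) (nat_lit 2755132875578) (nat_lit 0) (nat_lit 0) (nat_lit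 0) (nat_lit 0) (nat_lit 0) (nat_lit 0) (nat_lit 1) (nat_lit 0) (nat_lit 1) (nat_lit 0) (nat_lit 286) (nat_lit 462) (nat_lit 332)) (XT.nd (nat_lit 94) (nat_lit 0) (nat_lit 0) (XT.lf (nat_lit 0) (nat_lit 2755123656214) (nat_lit 0) (nat_lit 0) (nat_lit 0) (nat_lit 0) (nat_lit 0) (nat_lit 0) (nat_lit 1) (nat_lit 0) (nat_lit 1) (nat_lit 0) (nat_lit 287) (nat_lit 462) (nat_lit 331)) (XT.lf (nat_lit 0) (nat_lit 2755115119766) (nat_lit 0) (nat_lit 0) (nat_lit 0) (nat_lit 0) (nat_lit 0) (nat_lit 0) (nat_lit 1) (nat_lit 0) (nat_lit 1) (nat_lit 0) (nat_lit 288) (nat_lit 462) (nat_lit 330)))))) (XT.nd (nat_lit 3854) (nat_lit 0) (nat_lit 0) (XT.nd (nat_lit 3666) (nat_lit 0) (nat_lit 0) (XT.nd (nat_lit 94) (nat_lit 0) (nat_lit 0) (XT.lf (nat_lit 0) (nat_lit 2755107215648) (nat_lit 0) (nat_lit 0) (nat_lit 0) (nat_lit 0) (nat_lit 0) (nat_lit 0) (nat_lit 1) (nat_lit 0) (nat_lit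 1) (nat_lit 0) (nat_lit 289) (nat_lit 462) (nat_lit 329)) (XT.lf (nat_lit 0) (nat_lit 2755099897020) (nat_lit 0) (nat_lit 0) (nat_lit 0) (nat_lit 0) (nat_lit 0) (nat_lit 0) (nat_lit 1) (nat_lit 0) (nat_lit 1) (nat_lit 0) (nat_lit 290) (nat_lit 462) (nat_lit 328))) (XT.nd (nat_lit 94) (nat_lit 0) (nat_lit 0) (XT.lf (nat_lit 0) (nat_lit 2755013325926) (nat_lit 0) (nat_lit 0) (nat_lit 0) (nat_lit 0) (nat_lit 0) (nat_lit 0) (nat_lit 1) (nat_lit 0) (nat_lit 1) (nat_lit 0) (nat_lit 328) (nat_lit 462) (nat_lit 290)) (XT.lf (nat_lit 0) (nat_lit 2755012962092) (nat_lit 0) (nat_lit 0) (nat_lit 0) (nat_lit 0) (nat_lit 0) (nat_lit 0) (nat_lit 1) (nat_lit 0) (nat_lit 1) (nat_lit 0) (nat_lit 329) (nat_lit 462) (nat_lit 289)))) (XT.nd (nat_lit 188) (nat_lit 0) (nat_lit 0) (XT.nd (nat_lit 94) (nat_lit 0) (nat_lit 0) (XT.lf (nat_lit 0) (nat_lit 2755012625209) (nat_lit 0) (nat_lit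 0) (nat_lit 0) (nat_lit 0) (nat_lit 0) (nat_lit 0) (nat_lit 1) (nat_lit 0) (nat_lit 1) (nat_lit 0) (nat_lit 330) (nat_lit 462) (nat_lit 288)) (XT.lf (nat_lit 0) (nat_lit 2755012313280) (nat_lit 0) (nat_lit 0) (nat_lit 0) (nat_lit 0) (nat_lit 0) (nat_lit 0) (nat_lit 1) (nat_lit 0) (nat_lit 1) (nat_lit 0) (nat_lit 331) (nat_lit 462) (nat_lit 287))) (XT.nd (nat_lit 94) (nat_lit 0) (nat_lit 0) (XT.lf (nat_lit 0) (nat_lit 2755012024457) (nat_lit 0) (nat_lit 0) (nat_lit 0) (nat_lit 0) (nat_lit 0) (nat_lit 0) (nat_lit 1) (nat_lit 0) (nat_lit 1) (nat_lit 0) (nat_lit 332) (nat_lit 462) (nat_lit 286)) (XT.nd (nat_lit 94) (nat_lit 0) (nat_lit 0) (XT.lf (nat_lit 0) (nat_lit 2755011757028) (nat_lit 0) (nat_lit 0) (nat_lit 0) (nat_lit 0) (nat_lit 0) (nat_lit 0) (nat_lit 1) (nat_lit 0) (nat_lit 1) (nat_lit 0) (nat_lit 333) (nat_lit 462) (nat_lit 285)) (XT.lf (nat_lit 0)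 (nat_lit 2755011509409) (nat_lit 0) (nat_lit 0) (nat_lit 0) (nat_lit 0) (nat_lit 0) (nat_lit 0) (nat_lit 1) (nat_lit 0) (nat_lit 1) (nat_lit 0) (nat_lit 334) (nat_lit 462) (nat_lit 284))))))) (XT.nd (nat_lit 846) (nat_lit 0) (nat_lit 0) (XT.nd (nat_lit 376) (nat_lit 0) (nat_lit 0) (XT.nd (nat_lit 188) (nat_lit 0) (nat_lit 0) (XT.nd (nat_lit 94) (nat_lit 0) (nat_lit 0) (XT.lf (nat_lit 0) (nat_lit 2755011280132) (nat_lit 0) (nat_lit 0) (nat_lit 0) (nat_lit 0) (nat_lit 0) (nat_lit 0) (nat_lit 1) (nat_lit 0) (nat_lit 1) (nat_lit 0) (nat_lit 335) (nat_lit 462) (nat_lit 283)) (XT.lf (nat_lit 0) (nat_lit 2755011067838) (nat_lit 0) (nat_lit 0) (nat_lit 0) (nat_lit 0) (nat_lit 0) (nat_lit 0) (nat_lit 1) (nat_lit 0) (nat_lit 1) (nat_lit 0) (nat_lit 336) (nat_lit 462) (nat_lit 282))) (XT.nd (nat_lit 94) (nat_lit 0) (nat_lit 0) (XT.lf (nat_lit 0) (nat_lit 2755010871270)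 (nat_lit 0) (nat_lit 0) (nat_lit 0) (nat_lit 0) (nat_lit 0) (nat_lit 0) (nat_lit 1) (nat_lit 0) (nat_lit 1) (nat_lit 0) (nat_lit 337) (nat_lit 462) (nat_lit 281)) (XT.lf (nat_lit 0) (nat_lit 2755010689263) (nat_lit 0) (nat_lit 0) (nat_lit 0) (nat_lit 0) (nat_lit 0) (nat_lit 0) (nat_lit 1) (nat_lit 0) (nat_lit 1) (nat_lit 0) (nat_lit 338) (nat_lit 462) (nat_lit 280)))) (XT.nd (nat_lit 188) (nat_lit 0) (nat_lit 0) (XT.nd (nat_lit 94) (nat_lit 0) (nat_lit 0) (XT.lf (nat_lit 0) (nat_lit 2755010520737) (nat_lit 0) (nat_lit 0) (nat_lit 0) (nat_lit 0) (nat_lit 0) (nat_lit 0) (nat_lit 1) (nat_lit 0) (nat_lit 1) (nat_lit 0) (nat_lit 339) (nat_lit 462) (nat_lit 279)) (XT.lf (nat_lit 0) (nat_lit 2755010364695) (nat_lit 0) (nat_lit 0) (nat_lit 0) (nat_lit 0) (nat_lit 0) (nat_lit 0) (nat_lit 1) (nat_lit 0) (nat_lit 1) (nat_lit 0) (nat_lit 340) (nat_lit 462) (nat_lit 278)))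 (XT.nd (nat_lit 94) (nat_lit 0) (nat_lit 0) (XT.lf (nat_lit 0) (nat_lit 2755010220211) (nat_lit 0) (nat_lit 0) (nat_lit 0) (nat_lit 0) (nat_lit 0) (nat_lit 0) (nat_lit 1) (nat_lit 0) (nat_lit 1) (nat_lit 0) (nat_lit 341) (nat_lit 462) (nat_lit 277)) (XT.nd (nat_lit 94) (nat_lit 0) (nat_lit 0) (XT.lf (nat_lit 0) (nat_lit 2755010086430) (nat_lit 0) (nat_lit 0) (nat_lit 0) (nat_lit 0) (nat_lit 0) (nat_lit 0) (nat_lit 1) (nat_lit 0) (nat_lit 1) (nat_lit 0) (nat_lit 342) (nat_lit 462) (nat_lit 276)) (XT.lf (nat_lit 0) (nat_lit 2755009962559) (nat_lit 0) (nat_lit 0) (nat_lit 0) (nat_lit 0) (nat_lit 0) (nat_lit 0) (nat_lit 1) (nat_lit 0) (nat_lit 1) (nat_lit 0) (nat_lit 343) (nat_lit 462) (nat_lit 275)))))) (XT.nd (nat_lit 470) (nat_lit 0) (nat_lit 0) (XT.nd (nat_lit 188) (nat_lit 0) (nat_lit 0) (XT.nd (nat_lit 94) (nat_lit 0) (nat_lit 0) (XT.lf (nat_lit 0) (nat_lit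 2755009847864) (nat_lit 0) (nat_lit 0) (nat_lit 0) (nat_lit 0) (nat_lit 0) (nat_lit 0) (nat_lit 1) (nat_lit 0) (nat_lit 1) (nat_lit 0) (nat_lit 344) (nat_lit 462) (nat_lit 274)) (XT.lf (nat_lit 0) (nat_lit 2755009741664) (nat_lit 0) (nat_lit 0) (nat_lit 0) (nat_lit 0) (nat_lit 0) (nat_lit 0) (nat_lit 1) (nat_lit 0) (nat_lit 1) (nat_lit 0) (nat_lit 345) (nat_lit 462) (nat_lit 273))) (XT.nd (nat_lit 94) (nat_lit 0) (nat_lit 0) (XT.lf (nat_lit 0) (nat_lit 2755009643331) (nat_lit 0) (nat_lit 0) (nat_lit 0) (nat_lit 0) (nat_lit 0) (nat_lit 0) (nat_lit 1) (nat_lit 0) (nat_lit 1) (nat_lit 0) (nat_lit 346) (nat_lit 462) (nat_lit 272)) (XT.nd (nat_lit 94) (nat_lit 0) (nat_lit 0) (XT.lf (nat_lit 0) (nat_lit 2755009552282) (nat_lit 0) (nat_lit 0) (nat_lit 0) (nat_lit 0) (nat_lit 0) (nat_lit 0) (nat_lit 1) (nat_lit 0) (nat_lit 1) (nat_lit 0) (nat_lit 347) (nat_lit 462)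 (nat_lit 271)) (XT.lf (nat_lit 0) (nat_lit 2755009467977) (nat_lit 0) (nat_lit 0) (nat_lit 0) (nat_lit 0) (nat_lit 0) (nat_lit 0) (nat_lit 1) (nat_lit 0) (nat_lit 1) (nat_lit 0) (nat_lit 348) (nat_lit 462) (nat_lit 270))))) (XT.nd (nat_lit 188) (nat_lit 0) (nat_lit 0) (XT.nd (nat_lit 94) (nat_lit 0) (nat_lit 0) (XT.lf (nat_lit 0) (nat_lit 2755009389917) (nat_lit 0) (nat_lit 0) (nat_lit 0) (nat_lit 0) (nat_lit 0) (nat_lit 0) (nat_lit 1) (nat_lit 0) (nat_lit 1) (nat_lit 0) (nat_lit 349) (nat_lit 462) (nat_lit 269)) (XT.lf (nat_lit 0) (nat_lit 2755009317639) (nat_lit 0) (nat_lit 0) (nat_lit 0) (nat_lit 0) (nat_lit 0) (nat_lit 0) (nat_lit 1) (nat_lit 0) (nat_lit 1) (nat_lit 0) (nat_lit 350) (nat_lit 462) (nat_lit 268))) (XT.nd (nat_lit 94) (nat_lit 0) (nat_lit 0) (XT.lf (nat_lit 0) (nat_lit 2755009250716) (nat_lit 0) (nat_lit 0) (nat_lit 0) (nat_lit 0) (nat_lit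 0) (nat_lit 0) (nat_lit 1) (nat_lit 0) (nat_lit 1) (nat_lit 0) (nat_lit 351) (nat_lit 462) (nat_lit 267)) (XT.nd (nat_lit 94) (nat_lit 0) (nat_lit 0) (XT.lf (nat_lit 0) (nat_lit 2755009188749) (nat_lit 0) (nat_lit 0) (nat_lit 0) (nat_lit 0) (nat_lit 0) (nat_lit 0) (nat_lit 1) (nat_lit 0) (nat_lit 1) (nat_lit 0) (nat_lit 352) (nat_lit 462) (nat_lit 266)) (XT.lf (nat_lit 0) (nat_lit 2755009131373) (nat_lit 0) (nat_lit 0) (nat_lit 0) (nat_lit 0) (nat_lit 0) (nat_lit 0) (nat_lit 1) (nat_lit 0) (nat_lit 1) (nat_lit 0) (nat_lit 353) (nat_lit 462) (nat_lit 265))))))))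
noncomputable def ec499 : XT := (XT.nd (nat_lit 1786) (nat_lit 0) (nat_lit 0) (XT.nd (nat_lit 846) (nat_lit 0) (nat_lit 0) (XT.nd (nat_lit 376) (nat_lit 0) (nat_lit 0) (XT.nd (nat_lit 188) (nat_lit 0) (nat_lit 0) (XT.nd (nat_lit 94) (nat_lit 0) (nat_lit 0) (XT.lf (nat_lit 0) (nat_lit 2755009078247) (nat_lit 0) (nat_lit 0) (nat_lit 0) (nat_lit 0) (nat_lit 0) (nat_lit 0) (nat_lit 1) (nat_lit 0) (nat_lit 1) (nat_lit 0) (nat_lit 354) (nat_lit 462) (nat_lit 264)) (XT.lf (nat_lit 0) (nat_lit 2755009029056) (nat_lit 0) (nat_lit 0) (nat_lit 0) (nat_lit 0) (nat_lit 0) (nat_lit 0) (nat_lit 1) (nat_lit 0) (nat_lit 1) (nat_lit 0) (nat_lit 355) (nat_lit 462) (nat_lit 263))) (XT.nd (nat_lit 94) (nat_lit 0) (nat_lit 0) (XT.lf (nat_lit 0) (nat_lit 2755008983508) (nat_lit 0) (nat_lit 0) (nat_lit 0) (nat_lit 0) (nat_lit 0) (nat_lit 0) (nat_lit 1) (nat_lit 0) (nat_lit 1) (nat_lit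 0) (nat_lit 356) (nat_lit 462) (nat_lit 262)) (XT.lf (nat_lit 0) (nat_lit 2755008941335) (nat_lit 0) (nat_lit 0) (nat_lit 0) (nat_lit 0) (nat_lit 0) (nat_lit 0) (nat_lit 1) (nat_lit 0) (nat_lit 1) (nat_lit 0) (nat_lit 357) (nat_lit 462) (nat_lit 261)))) (XT.nd (nat_lit 188) (nat_lit 0) (nat_lit 0) (XT.nd (nat_lit 94) (nat_lit 0) (nat_lit 0) (XT.lf (nat_lit 0) (nat_lit 2755008902286) (nat_lit 0) (nat_lit 0) (nat_lit 0) (nat_lit 0) (nat_lit 0) (nat_lit 0) (nat_lit 1) (nat_lit 0) (nat_lit 1) (nat_lit 0) (nat_lit 358) (nat_lit 462) (nat_lit 260)) (XT.lf (nat_lit 0) (nat_lit 2755008866129) (nat_lit 0) (nat_lit 0) (nat_lit 0) (nat_lit 0) (nat_lit 0) (nat_lit 0) (nat_lit 1) (nat_lit 0) (nat_lit 1) (nat_lit 0) (nat_lit 359) (nat_lit 462) (nat_lit 259))) (XT.nd (nat_lit 94) (nat_lit 0) (nat_lit 0) (XT.lf (nat_lit 0) (nat_lit 2755008832650) (nat_lit 0) (nat_lit 0) (nat_lit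 0) (nat_lit 0) (nat_lit 0) (nat_lit 0) (nat_lit 1) (nat_lit 0) (nat_lit 1) (nat_lit 0) (nat_lit 360) (nat_lit 462) (nat_lit 258)) (XT.nd (nat_lit 94) (nat_lit 0) (nat_lit 0) (XT.lf (nat_lit 0) (nat_lit 2755008801651) (nat_lit 0) (nat_lit 0) (nat_lit 0) (nat_lit 0) (nat_lit 0) (nat_lit 0) (nat_lit 1) (nat_lit 0) (nat_lit 1) (nat_lit 0) (nat_lit 361) (nat_lit 462) (nat_lit 257)) (XT.lf (nat_lit 0) (nat_lit 2755008772949) (nat_lit 0) (nat_lit 0) (nat_lit 0) (nat_lit 0) (nat_lit 0) (nat_lit 0) (nat_lit 1) (nat_lit 0) (nat_lit 1) (nat_lit 0) (nat_lit 362) (nat_lit 462) (nat_lit 256)))))) (XT.nd (nat_lit 470) (nat_lit 0) (nat_lit 0) (XT.nd (nat_lit 188) (nat_lit 0) (nat_lit 0) (XT.nd (nat_lit 94) (nat_lit 0) (nat_lit 0) (XT.lf (nat_lit 0) (nat_lit 2755008746373) (nat_lit 0) (nat_lit 0) (nat_lit 0) (nat_lit 0) (nat_lit 0) (nat_lit 0) (nat_lit 1) (nat_lit 0) (nat_lit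 1) (nat_lit 0) (nat_lit 363) (nat_lit 462) (nat_lit 255)) (XT.lf (nat_lit 0) (nat_lit 2755008721765) (nat_lit 0) (nat_lit 0) (nat_lit 0) (nat_lit 0) (nat_lit 0) (nat_lit 0) (nat_lit 1) (nat_lit 0) (nat_lit 1) (nat_lit 0) (nat_lit 364) (nat_lit 462) (nat_lit 254))) (XT.nd (nat_lit 94) (nat_lit 0) (nat_lit 0) (XT.lf (nat_lit 0) (nat_lit 2755008698980) (nat_lit 0) (nat_lit 0) (nat_lit 0) (nat_lit 0) (nat_lit 0) (nat_lit 0) (nat_lit 1) (nat_lit 0) (nat_lit 1) (nat_lit 0) (nat_lit 365) (nat_lit 462) (nat_lit 253)) (XT.nd (nat_lit 94) (nat_lit 0) (nat_lit 0) (XT.lf (nat_lit 0) (nat_lit 2755008677883) (nat_lit 0) (nat_lit 0) (nat_lit 0) (nat_lit 0) (nat_lit 0) (nat_lit 0) (nat_lit 1) (nat_lit 0) (nat_lit 1) (nat_lit 0) (nat_lit 366) (nat_lit 462) (nat_lit 252)) (XT.lf (nat_lit 0) (nat_lit 2755008658348) (nat_lit 0) (nat_lit 0) (nat_lit 0) (nat_lit 0) (nat_lit 0)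 (nat_lit 0) (nat_lit 1) (nat_lit 0) (nat_lit 1) (nat_lit 0) (nat_lit 367) (nat_lit 462) (nat_lit 251))))) (XT.nd (nat_lit 188) (nat_lit 0) (nat_lit 0) (XT.nd (nat_lit 94) (nat_lit 0) (nat_lit 0) (XT.lf (nat_lit 0) (nat_lit 2755008640261) (nat_lit 0) (nat_lit 0) (nat_lit 0) (nat_lit 0) (nat_lit 0) (nat_lit 0) (nat_lit 1) (nat_lit 0) (nat_lit 1) (nat_lit 0) (nat_lit 368) (nat_lit 462) (nat_lit 250)) (XT.lf (nat_lit 0) (nat_lit 2755008623513) (nat_lit 0) (nat_lit 0) (nat_lit 0) (nat_lit 0) (nat_lit 0) (nat_lit 0) (nat_lit 1) (nat_lit 0) (nat_lit 1) (nat_lit 0) (nat_lit 369) (nat_lit 462) (nat_lit 249))) (XT.nd (nat_lit 94) (nat_lit 0) (nat_lit 0) (XT.lf (nat_lit 0) (nat_lit 2755008608006) (nat_lit 0) (nat_lit 0) (nat_lit 0) (nat_lit 0) (nat_lit 0) (nat_lit 0) (nat_lit 1) (nat_lit 0) (nat_lit 1) (nat_lit 0) (nat_lit 370) (nat_lit 462) (nat_lit 248)) (XT.nd (nat_lit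 94) (nat_lit 0) (nat_lit 0) (XT.lf (nat_lit 0) (nat_lit 2755008593648) (nat_lit 0) (nat_lit 0) (nat_lit 0) (nat_lit 0) (nat_lit 0) (nat_lit 0) (nat_lit 1) (nat_lit 0) (nat_lit 1) (nat_lit 0) (nat_lit 371) (nat_lit 462) (nat_lit 247)) (XT.lf (nat_lit 0) (nat_lit 2755008580353) (nat_lit 0) (nat_lit 0) (nat_lit 0) (nat_lit 0) (nat_lit 0) (nat_lit 0) (nat_lit 1) (nat_lit 0) (nat_lit 1) (nat_lit 0) (nat_lit 372) (nat_lit 462) (nat_lit 246))))))) (XT.nd (nat_lit 846) (nat_lit 0) (nat_lit 0) (XT.nd (nat_lit 376) (nat_lit 0) (nat_lit 0) (XT.nd (nat_lit 188) (nat_lit 0) (nat_lit 0) (XT.nd (nat_lit 94) (nat_lit 0) (nat_lit 0) (XT.lf (nat_lit 0) (nat_lit 2755008568043) (nat_lit 0) (nat_lit 0) (nat_lit 0) (nat_lit 0) (nat_lit 0) (nat_lit 0) (nat_lit 1) (nat_lit 0) (nat_lit 1) (nat_lit 0) (nat_lit 373) (nat_lit 462) (nat_lit 245)) (XT.lf (nat_lit 0) (nat_lit 2755008556645)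 (nat_lit 0) (nat_lit 0) (nat_lit 0) (nat_lit 0) (nat_lit 0) (nat_lit 0) (nat_lit 1) (nat_lit 0) (nat_lit 1) (nat_lit 0) (nat_lit 374) (nat_lit 462) (nat_lit 244))) (XT.nd (nat_lit 94) (nat_lit 0) (nat_lit 0) (XT.lf (nat_lit 0) (nat_lit 2755008546091) (nat_lit 0) (nat_lit 0) (nat_lit 0) (nat_lit 0) (nat_lit 0) (nat_lit 0) (nat_lit 1) (nat_lit 0) (nat_lit 1) (nat_lit 0) (nat_lit 375) (nat_lit 462) (nat_lit 243)) (XT.lf (nat_lit 0) (nat_lit 2755008536319) (nat_lit 0) (nat_lit 0) (nat_lit 0) (nat_lit 0) (nat_lit 0) (nat_lit 0) (nat_lit 1) (nat_lit 0) (nat_lit 1) (nat_lit 0) (nat_lit 376) (nat_lit 462) (nat_lit 242)))) (XT.nd (nat_lit 188) (nat_lit 0) (nat_lit 0) (XT.nd (nat_lit 94) (nat_lit 0) (nat_lit 0) (XT.lf (nat_lit 0) (nat_lit 2755008527271) (nat_lit 0) (nat_lit 0) (nat_lit 0) (nat_lit 0) (nat_lit 0) (nat_lit 0) (nat_lit 1) (nat_lit 0) (nat_lit 1) (nat_lit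 0) (nat_lit 377) (nat_lit 462) (nat_lit 241)) (XT.lf (nat_lit 0) (nat_lit 2755008518893) (nat_lit 0) (nat_lit 0) (nat_lit 0) (nat_lit 0) (nat_lit 0) (nat_lit 0) (nat_lit 1) (nat_lit 0) (nat_lit 1) (nat_lit 0) (nat_lit 378) (nat_lit 462) (nat_lit 240))) (XT.nd (nat_lit 94) (nat_lit 0) (nat_lit 0) (XT.lf (nat_lit 0) (nat_lit 2755008511135) (nat_lit 0) (nat_lit 0) (nat_lit 0) (nat_lit 0) (nat_lit 0) (nat_lit 0) (nat_lit 1) (nat_lit 0) (nat_lit 1) (nat_lit 0) (nat_lit 379) (nat_lit 462) (nat_lit 239)) (XT.nd (nat_lit 94) (nat_lit 0) (nat_lit 0) (XT.lf (nat_lit 0) (nat_lit 2755008503953) (nat_lit 0) (nat_lit 0) (nat_lit 0) (nat_lit 0) (nat_lit 0) (nat_lit 0) (nat_lit 1) (nat_lit 0) (nat_lit 1) (nat_lit 0) (nat_lit 380) (nat_lit 462) (nat_lit 238)) (XT.lf (nat_lit 0) (nat_lit 2755008497302) (nat_lit 0) (nat_lit 0) (nat_lit 0) (nat_lit 0) (nat_lit 0) (nat_lit 0)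 (nat_lit 1) (nat_lit 0) (nat_lit 1) (nat_lit 0) (nat_lit 381) (nat_lit 462) (nat_lit 237)))))) (XT.nd (nat_lit 470) (nat_lit 0) (nat_lit 0) (XT.nd (nat_lit 188) (nat_lit 0) (nat_lit 0) (XT.nd (nat_lit 94) (nat_lit 0) (nat_lit 0) (XT.lf (nat_lit 0) (nat_lit 2755008491144) (nat_lit 0) (nat_lit 0) (nat_lit 0) (nat_lit 0) (nat_lit 0) (nat_lit 0) (nat_lit 1) (nat_lit 0) (nat_lit 1) (nat_lit 0) (nat_lit 382) (nat_lit 462) (nat_lit 236)) (XT.lf (nat_lit 0) (nat_lit 2755008485442) (nat_lit 0) (nat_lit 0) (nat_lit 0) (nat_lit 0) (nat_lit 0) (nat_lit 0) (nat_lit 1) (nat_lit 0) (nat_lit 1) (nat_lit 0) (nat_lit 383) (nat_lit 462) (nat_lit 235))) (XT.nd (nat_lit 94) (nat_lit 0) (nat_lit 0) (XT.lf (nat_lit 0) (nat_lit 2755008480162) (nat_lit 0) (nat_lit 0) (nat_lit 0) (nat_lit 0) (nat_lit 0) (nat_lit 0) (nat_lit 1) (nat_lit 0) (nat_lit 1) (nat_lit 0) (nat_lit 384) (nat_lit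 462) (nat_lit 234)) (XT.nd (nat_lit 94) (nat_lit 0) (nat_lit 0) (XT.lf (nat_lit 0) (nat_lit 2755008475274) (nat_lit 0) (nat_lit 0) (nat_lit 0) (nat_lit 0) (nat_lit 0) (nat_lit 0) (nat_lit 1) (nat_lit 0) (nat_lit 1) (nat_lit 0) (nat_lit 385) (nat_lit 462) (nat_lit 233)) (XT.lf (nat_lit 0) (nat_lit 2755008470748) (nat_lit 0) (nat_lit 0) (nat_lit 0) (nat_lit 0) (nat_lit 0) (nat_lit 0) (nat_lit 1) (nat_lit 0) (nat_lit 1) (nat_lit 0) (nat_lit 386) (nat_lit 462) (nat_lit 232))))) (XT.nd (nat_lit 6768) (nat_lit 0) (nat_lit 0) (XT.nd (nat_lit 94) (nat_lit 0) (nat_lit 0) (XT.lf (nat_lit 0) (nat_lit 2755008466557) (nat_lit 0) (nat_lit 0) (nat_lit 0) (nat_lit 0) (nat_lit 0) (nat_lit 0) (nat_lit 1) (nat_lit 0) (nat_lit 1) (nat_lit 0) (nat_lit 387) (nat_lit 462) (nat_lit 231)) (XT.lf (nat_lit 0) (nat_lit 2755008462676) (nat_lit 0) (nat_lit 0) (nat_lit 0) (nat_lit 0) (nat_lit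 0) (nat_lit 0) (nat_lit 1) (nat_lit 0) (nat_lit 1) (nat_lit 0) (nat_lit 388) (nat_lit 462) (nat_lit 230))) (XT.nd (nat_lit 94) (nat_lit 0) (nat_lit 0) (XT.lf (nat_lit 0) (nat_lit 2755008414374) (nat_lit 0) (nat_lit 0) (nat_lit 0) (nat_lit 0) (nat_lit 0) (nat_lit 0) (nat_lit 1) (nat_lit 0) (nat_lit 1) (nat_lit 0) (nat_lit 459) (nat_lit 462) (nat_lit 159)) (XT.nd (nat_lit 94) (nat_lit 0) (nat_lit 0) (XT.lf (nat_lit 0) (nat_lit 2755008414358) (nat_lit 0) (nat_lit 0) (nat_lit 0) (nat_lit 0) (nat_lit 0) (nat_lit 0) (nat_lit 1) (nat_lit 0) (nat_lit 1) (nat_lit 0) (nat_lit 460) (nat_lit 462) (nat_lit 158)) (XT.lf (nat_lit 0) (nat_lit 2755008414344) (nat_lit 0) (nat_lit 0) (nat_lit 0) (nat_lit 0) (nat_lit 0) (nat_lit 0) (nat_lit 1) (nat_lit 0) (nat_lit 1) (nat_lit 0) (nat_lit 461) (nat_lit 462) (nat_lit 157))))))))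
noncomputable def ec500 : XT := (XT.nd (nat_lit 47188) (nat_lit 0) (nat_lit 0) (XT.nd (nat_lit 46342) (nat_lit 0) (nat_lit 0) (XT.nd (nat_lit 38916) (nat_lit 0) (nat_lit 0) (XT.nd (nat_lit 188) (nat_lit 0) (nat_lit 0) (XT.nd (nat_lit 94) (nat_lit 0) (nat_lit 0) (XT.lf (nat_lit 0) (nat_lit 2755008414331) (nat_lit 0) (nat_lit 0) (nat_lit 0) (nat_lit 0) (nat_lit 0) (nat_lit 0) (nat_lit 1) (nat_lit 0) (nat_lit 1) (nat_lit 0) (nat_lit 462) (nat_lit 462) (nat_lit 156)) (XT.lf (nat_lit 0) (nat_lit 2755008414319) (nat_lit 0) (nat_lit 0) (nat_lit 0) (nat_lit 0) (nat_lit 0) (nat_lit 0) (nat_lit 1) (nat_lit 0) (nat_lit 1) (nat_lit 0) (nat_lit 463) (nat_lit 462) (nat_lit 155))) (XT.nd (nat_lit 38634) (nat_lit 0) (nat_lit 10752) (XT.lf (nat_lit 0) (nat_lit 2755008414308) (nat_lit 0) (nat_lit 0) (nat_lit 0) (nat_lit 0) (nat_lit 0) (nat_lit 0) (nat_lit 1) (nat_lit 0) (nat_lit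 1) (nat_lit 0) (nat_lit 464) (nat_lit 462) (nat_lit 154)) (XT.lf (nat_lit 924) (nat_lit 1489006158971) (nat_lit 0) (nat_lit 2643727012636) (nat_lit 924) (nat_lit 1489006158971) (nat_lit 139) (nat_lit 1) (nat_lit 128) (nat_lit 0) (nat_lit 139) (nat_lit 0) (nat_lit 154) (nat_lit 463) (nat_lit 463)))) (XT.nd (nat_lit 188) (nat_lit 10836) (nat_lit 0) (XT.nd (nat_lit 94) (nat_lit 0) (nat_lit 0) (XT.lf (nat_lit 924) (nat_lit 555444986164) (nat_lit 0) (nat_lit 5190437376726) (nat_lit 840) (nat_lit 5076230413567) (nat_lit 140) (nat_lit 1) (nat_lit 129) (nat_lit 1) (nat_lit 139) (nat_lit 1) (nat_lit 155) (nat_lit 463) (nat_lit 462)) (XT.lf (nat_lit 924) (nat_lit 5101441590442) (nat_lit 84) (nat_lit 3476037660774) (nat_lit 0) (nat_lit 1843531811990) (nat_lit 140) (nat_lit 1) (nat_lit 130) (nat_lit 1) (nat_lit 129) (nat_lit 1) (nat_lit 156) (nat_lit 463) (nat_lit 461)))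 (XT.nd (nat_lit 7050) (nat_lit 10920) (nat_lit 0) (XT.lf (nat_lit 924) (nat_lit 4408063450254) (nat_lit 84) (nat_lit 1456783290015) (nat_lit 0) (nat_lit 4175134756780) (nat_lit 141) (nat_lit 1) (nat_lit 131) (nat_lit 1) (nat_lit 130) (nat_lit 1) (nat_lit 157) (nat_lit 463) (nat_lit 460)) (XT.nd (nat_lit 94) (nat_lit 0) (nat_lit 0) (XT.lf (nat_lit 0) (nat_lit 2982762581550) (nat_lit 0) (nat_lit 0) (nat_lit 0) (nat_lit 0) (nat_lit 0) (nat_lit 0) (nat_lit 1) (nat_lit 0) (nat_lit 1) (nat_lit 0) (nat_lit 232) (nat_lit 463) (nat_lit 385)) (XT.lf (nat_lit 0) (nat_lit 2982217878273) (nat_lit 0) (nat_lit 0) (nat_lit 0) (nat_lit 0) (nat_lit 0) (nat_lit 0) (nat_lit 1) (nat_lit 0) (nat_lit 1) (nat_lit 0) (nat_lit 233) (nat_lit 463) (nat_lit 384)))))) (XT.nd (nat_lit 376) (nat_lit 0) (nat_lit 0) (XT.nd (nat_lit 188) (nat_lit 0) (nat_lit 0) (XT.nd (nat_lit 94) (nat_lit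 0) (nat_lit 0) (XT.lf (nat_lit 0) (nat_lit 2981713523386) (nat_lit 0) (nat_lit 0) (nat_lit 0) (nat_lit 0) (nat_lit 0) (nat_lit 0) (nat_lit 1) (nat_lit 0) (nat_lit 1) (nat_lit 0) (nat_lit 234) (nat_lit 463) (nat_lit 383)) (XT.lf (nat_lit 0) (nat_lit 2981246528120) (nat_lit 0) (nat_lit 0) (nat_lit 0) (nat_lit 0) (nat_lit 0) (nat_lit 0) (nat_lit 1) (nat_lit 0) (nat_lit 1) (nat_lit 0) (nat_lit 235) (nat_lit 463) (nat_lit 382))) (XT.nd (nat_lit 94) (nat_lit 0) (nat_lit 0) (XT.lf (nat_lit 0) (nat_lit 2980814125097) (nat_lit 0) (nat_lit 0) (nat_lit 0) (nat_lit 0) (nat_lit 0) (nat_lit 0) (nat_lit 1) (nat_lit 0) (nat_lit 1) (nat_lit 0) (nat_lit 236) (nat_lit 463) (nat_lit 381)) (XT.lf (nat_lit 0) (nat_lit 2980413751927) (nat_lit 0) (nat_lit 0) (nat_lit 0) (nat_lit 0) (nat_lit 0) (nat_lit 0) (nat_lit 1) (nat_lit 0) (nat_lit 1) (nat_lit 0) (nat_lit 237) (nat_lit 463)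 (nat_lit 380)))) (XT.nd (nat_lit 188) (nat_lit 0) (nat_lit 0) (XT.nd (nat_lit 94) (nat_lit 0) (nat_lit 0) (XT.lf (nat_lit 0) (nat_lit 2980043036029) (nat_lit 0) (nat_lit 0) (nat_lit 0) (nat_lit 0) (nat_lit 0) (nat_lit 0) (nat_lit 1) (nat_lit 0) (nat_lit 1) (nat_lit 0) (nat_lit 238) (nat_lit 463) (nat_lit 379)) (XT.lf (nat_lit 0) (nat_lit 2979699780567) (nat_lit 0) (nat_lit 0) (nat_lit 0) (nat_lit 0) (nat_lit 0) (nat_lit 0) (nat_lit 1) (nat_lit 0) (nat_lit 1) (nat_lit 0) (nat_lit 239) (nat_lit 463) (nat_lit 378))) (XT.nd (nat_lit 94) (nat_lit 0) (nat_lit 0) (XT.lf (nat_lit 0) (nat_lit 2979381951437) (nat_lit 0) (nat_lit 0) (nat_lit 0) (nat_lit 0) (nat_lit 0) (nat_lit 0) (nat_lit 1) (nat_lit 0) (nat_lit 1) (nat_lit 0) (nat_lit 240) (nat_lit 463) (nat_lit 377)) (XT.nd (nat_lit 94) (nat_lit 0) (nat_lit 0) (XT.lf (nat_lit 0) (nat_lit 2979087665204) (nat_lit 0)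 (nat_lit 0) (nat_lit 0) (nat_lit 0) (nat_lit 0) (nat_lit 0) (nat_lit 1) (nat_lit 0) (nat_lit 1) (nat_lit 0) (nat_lit 241) (nat_lit 463) (nat_lit 376)) (XT.lf (nat_lit 0) (nat_lit 2978815177952) (nat_lit 0) (nat_lit 0) (nat_lit 0) (nat_lit 0) (nat_lit 0) (nat_lit 0) (nat_lit 1) (nat_lit 0) (nat_lit 1) (nat_lit 0) (nat_lit 242) (nat_lit 463) (nat_lit 375))))))) (XT.nd (nat_lit 846) (nat_lit 0) (nat_lit 0) (XT.nd (nat_lit 376) (nat_lit 0) (nat_lit 0) (XT.nd (nat_lit 188) (nat_lit 0) (nat_lit 0) (XT.nd (nat_lit 94) (nat_lit 0) (nat_lit 0) (XT.lf (nat_lit 0) (nat_lit 2978562874941) (nat_lit 0) (nat_lit 0) (nat_lit 0) (nat_lit 0) (nat_lit 0) (nat_lit 0) (nat_lit 1) (nat_lit 0) (nat_lit 1) (nat_lit 0) (nat_lit 243) (nat_lit 463) (nat_lit 374)) (XT.lf (nat_lit 0) (nat_lit 2978329261042) (nat_lit 0) (nat_lit 0) (nat_lit 0) (nat_lit 0) (nat_lit 0) (nat_lit 0) (nat_lit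 1) (nat_lit 0) (nat_lit 1) (nat_lit 0) (nat_lit 244) (nat_lit 463) (nat_lit 373))) (XT.nd (nat_lit 94) (nat_lit 0) (nat_lit 0) (XT.lf (nat_lit 0) (nat_lit 2978112951876) (nat_lit 0) (nat_lit 0) (nat_lit 0) (nat_lit 0) (nat_lit 0) (nat_lit 0) (nat_lit 1) (nat_lit 0) (nat_lit 1) (nat_lit 0) (nat_lit 245) (nat_lit 463) (nat_lit 372)) (XT.lf (nat_lit 0) (nat_lit 2977912665611) (nat_lit 0) (nat_lit 0) (nat_lit 0) (nat_lit 0) (nat_lit 0) (nat_lit 0) (nat_lit 1) (nat_lit 0) (nat_lit 1) (nat_lit 0) (nat_lit 246) (nat_lit 463) (nat_lit 371)))) (XT.nd (nat_lit 188) (nat_lit 0) (nat_lit 0) (XT.nd (nat_lit 94) (nat_lit 0) (nat_lit 0) (XT.lf (nat_lit 0) (nat_lit 2977727215366) (nat_lit 0) (nat_lit 0) (nat_lit 0) (nat_lit 0) (nat_lit 0) (nat_lit 0) (nat_lit 1) (nat_lit 0) (nat_lit 1) (nat_lit 0) (nat_lit 247) (nat_lit 463) (nat_lit 370)) (XT.lf (nat_lit 0) (nat_lit 2977555502176)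 (nat_lit 0) (nat_lit 0) (nat_lit 0) (nat_lit 0) (nat_lit 0) (nat_lit 0) (nat_lit 1) (nat_lit 0) (nat_lit 1) (nat_lit 0) (nat_lit 248) (nat_lit 463) (nat_lit 369))) (XT.nd (nat_lit 94) (nat_lit 0) (nat_lit 0) (XT.lf (nat_lit 0) (nat_lit 2977396508482) (nat_lit 0) (nat_lit 0) (nat_lit 0) (nat_lit 0) (nat_lit 0) (nat_lit 0) (nat_lit 1) (nat_lit 0) (nat_lit 1) (nat_lit 0) (nat_lit 249) (nat_lit 463) (nat_lit 368)) (XT.nd (nat_lit 94) (nat_lit 0) (nat_lit 0) (XT.lf (nat_lit 0) (nat_lit 2977249292098) (nat_lit 0) (nat_lit 0) (nat_lit 0) (nat_lit 0) (nat_lit 0) (nat_lit 0) (nat_lit 1) (nat_lit 0) (nat_lit 1) (nat_lit 0) (nat_lit 250) (nat_lit 463) (nat_lit 367)) (XT.lf (nat_lit 0) (nat_lit 2977112980632) (nat_lit 0) (nat_lit 0) (nat_lit 0) (nat_lit 0) (nat_lit 0) (nat_lit 0) (nat_lit 1) (nat_lit 0) (nat_lit 1) (nat_lit 0) (nat_lit 251) (nat_lit 463) (nat_lit 366))))))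 (XT.nd (nat_lit 470) (nat_lit 0) (nat_lit 0) (XT.nd (nat_lit 188) (nat_lit 0) (nat_lit 0) (XT.nd (nat_lit 94) (nat_lit 0) (nat_lit 0) (XT.lf (nat_lit 0) (nat_lit 2976986766311) (nat_lit 0) (nat_lit 0) (nat_lit 0) (nat_lit 0) (nat_lit 0) (nat_lit 0) (nat_lit 1) (nat_lit 0) (nat_lit 1) (nat_lit 0) (nat_lit 252) (nat_lit 463) (nat_lit 365)) (XT.lf (nat_lit 0) (nat_lit 2976869901199) (nat_lit 0) (nat_lit 0) (nat_lit 0) (nat_lit 0) (nat_lit 0) (nat_lit 0) (nat_lit 1) (nat_lit 0) (nat_lit 1) (nat_lit 0) (nat_lit 253) (nat_lit 463) (nat_lit 364))) (XT.nd (nat_lit 94) (nat_lit 0) (nat_lit 0) (XT.lf (nat_lit 0) (nat_lit 2976761692762) (nat_lit 0) (nat_lit 0) (nat_lit 0) (nat_lit 0) (nat_lit 0) (nat_lit 0) (nat_lit 1) (nat_lit 0) (nat_lit 1) (nat_lit 0) (nat_lit 254) (nat_lit 463) (nat_lit 363)) (XT.nd (nat_lit 94) (nat_lit 0) (nat_lit 0) (XT.lf (nat_lit 0) (nat_lit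 2976661499765) (nat_lit 0) (nat_lit 0) (nat_lit 0) (nat_lit 0) (nat_lit 0) (nat_lit 0) (nat_lit 1) (nat_lit 0) (nat_lit 1) (nat_lit 0) (nat_lit 255) (nat_lit 463) (nat_lit 362)) (XT.lf (nat_lit 0) (nat_lit 2976568728472) (nat_lit 0) (nat_lit 0) (nat_lit 0) (nat_lit 0) (nat_lit 0) (nat_lit 0) (nat_lit 1) (nat_lit 0) (nat_lit 1) (nat_lit 0) (nat_lit 256) (nat_lit 463) (nat_lit 361))))) (XT.nd (nat_lit 188) (nat_lit 0) (nat_lit 0) (XT.nd (nat_lit 94) (nat_lit 0) (nat_lit 0) (XT.lf (nat_lit 0) (nat_lit 2976482829126) (nat_lit 0) (nat_lit 0) (nat_lit 0) (nat_lit 0) (nat_lit 0) (nat_lit 0) (nat_lit 1) (nat_lit 0) (nat_lit 1) (nat_lit 0) (nat_lit 257) (nat_lit 463) (nat_lit 360)) (XT.lf (nat_lit 0) (nat_lit 2976403292694) (nat_lit 0) (nat_lit 0) (nat_lit 0) (nat_lit 0) (nat_lit 0) (nat_lit 0) (nat_lit 1) (nat_lit 0) (nat_lit 1) (nat_lit 0) (nat_lit 258) (nat_lit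 463) (nat_lit 359))) (XT.nd (nat_lit 94) (nat_lit 0) (nat_lit 0) (XT.lf (nat_lit 0) (nat_lit 2976329647850) (nat_lit 0) (nat_lit 0) (nat_lit 0) (nat_lit 0) (nat_lit 0) (nat_lit 0) (nat_lit 1) (nat_lit 0) (nat_lit 1) (nat_lit 0) (nat_lit 259) (nat_lit 463) (nat_lit 358)) (XT.nd (nat_lit 94) (nat_lit 0) (nat_lit 0) (XT.lf (nat_lit 0) (nat_lit 2976261458180) (nat_lit 0) (nat_lit 0) (nat_lit 0) (nat_lit 0) (nat_lit 0) (nat_lit 0) (nat_lit 1) (nat_lit 0) (nat_lit 1) (nat_lit 0) (nat_lit 260) (nat_lit 463) (nat_lit 357)) (XT.lf (nat_lit 0) (nat_lit 2976198319596) (nat_lit 0) (nat_lit 0) (nat_lit 0) (nat_lit 0) (nat_lit 0) (nat_lit 0) (nat_lit 1) (nat_lit 0) (nat_lit 1) (nat_lit 0) (nat_lit 261) (nat_lit 463) (nat_lit 356))))))))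
noncomputable def ec501 : XT := (XT.nd (nat_lit 1786) (nat_lit 0) (nat_lit 0) (XT.nd (nat_lit 846) (nat_lit 0) (nat_lit 0) (XT.nd (nat_lit 376) (nat_lit 0) (nat_lit 0) (XT.nd (nat_lit 188) (nat_lit 0) (nat_lit 0) (XT.nd (nat_lit 94) (nat_lit 0) (nat_lit 0) (XT.lf (nat_lit 0) (nat_lit 2976139857945) (nat_lit 0) (nat_lit 0) (nat_lit 0) (nat_lit 0) (nat_lit 0) (nat_lit 0) (nat_lit 1) (nat_lit 0) (nat_lit 1) (nat_lit 0) (nat_lit 262) (nat_lit 463) (nat_lit 355)) (XT.lf (nat_lit 0) (nat_lit 2976085726786) (nat_lit 0) (nat_lit 0) (nat_lit 0) (nat_lit 0) (nat_lit 0) (nat_lit 0) (nat_lit 1) (nat_lit 0) (nat_lit 1) (nat_lit 0) (nat_lit 263) (nat_lit 463) (nat_lit 354))) (XT.nd (nat_lit 94) (nat_lit 0) (nat_lit 0) (XT.lf (nat_lit 0) (nat_lit 2976035605343) (nat_lit 0) (nat_lit 0) (nat_lit 0) (nat_lit 0) (nat_lit 0) (nat_lit 0) (nat_lit 1) (nat_lit 0) (nat_lit 1) (nat_lit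 0) (nat_lit 264) (nat_lit 463) (nat_lit 353)) (XT.lf (nat_lit 0) (nat_lit 2975989196599) (nat_lit 0) (nat_lit 0) (nat_lit 0) (nat_lit 0) (nat_lit 0) (nat_lit 0) (nat_lit 1) (nat_lit 0) (nat_lit 1) (nat_lit 0) (nat_lit 265) (nat_lit 463) (nat_lit 352)))) (XT.nd (nat_lit 188) (nat_lit 0) (nat_lit 0) (XT.nd (nat_lit 94) (nat_lit 0) (nat_lit 0) (XT.lf (nat_lit 0) (nat_lit 2975946225540) (nat_lit 0) (nat_lit 0) (nat_lit 0) (nat_lit 0) (nat_lit 0) (nat_lit 0) (nat_lit 1) (nat_lit 0) (nat_lit 1) (nat_lit 0) (nat_lit 266) (nat_lit 463) (nat_lit 351)) (XT.lf (nat_lit 0) (nat_lit 2975906437522) (nat_lit 0) (nat_lit 0) (nat_lit 0) (nat_lit 0) (nat_lit 0) (nat_lit 0) (nat_lit 1) (nat_lit 0) (nat_lit 1) (nat_lit 0) (nat_lit 267) (nat_lit 463) (nat_lit 350))) (XT.nd (nat_lit 94) (nat_lit 0) (nat_lit 0) (XT.lf (nat_lit 0) (nat_lit 2975869596765) (nat_lit 0) (nat_lit 0) (nat_lit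 0) (nat_lit 0) (nat_lit 0) (nat_lit 0) (nat_lit 1) (nat_lit 0) (nat_lit 1) (nat_lit 0) (nat_lit 268) (nat_lit 463) (nat_lit 349)) (XT.nd (nat_lit 94) (nat_lit 0) (nat_lit 0) (XT.lf (nat_lit 0) (nat_lit 2975835484953) (nat_lit 0) (nat_lit 0) (nat_lit 0) (nat_lit 0) (nat_lit 0) (nat_lit 0) (nat_lit 1) (nat_lit 0) (nat_lit 1) (nat_lit 0) (nat_lit 269) (nat_lit 463) (nat_lit 348)) (XT.lf (nat_lit 0) (nat_lit 2975803899942) (nat_lit 0) (nat_lit 0) (nat_lit 0) (nat_lit 0) (nat_lit 0) (nat_lit 0) (nat_lit 1) (nat_lit 0) (nat_lit 1) (nat_lit 0) (nat_lit 270) (nat_lit 463) (nat_lit 347)))))) (XT.nd (nat_lit 470) (nat_lit 0) (nat_lit 0) (XT.nd (nat_lit 188) (nat_lit 0) (nat_lit 0) (XT.nd (nat_lit 94) (nat_lit 0) (nat_lit 0) (XT.lf (nat_lit 0) (nat_lit 2975774654561) (nat_lit 0) (nat_lit 0) (nat_lit 0) (nat_lit 0) (nat_lit 0) (nat_lit 0) (nat_lit 1) (nat_lit 0) (nat_lit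 1) (nat_lit 0) (nat_lit 271) (nat_lit 463) (nat_lit 346)) (XT.lf (nat_lit 0) (nat_lit 2975747575505) (nat_lit 0) (nat_lit 0) (nat_lit 0) (nat_lit 0) (nat_lit 0) (nat_lit 0) (nat_lit 1) (nat_lit 0) (nat_lit 1) (nat_lit 0) (nat_lit 272) (nat_lit 463) (nat_lit 345))) (XT.nd (nat_lit 94) (nat_lit 0) (nat_lit 0) (XT.lf (nat_lit 0) (nat_lit 2975722502305) (nat_lit 0) (nat_lit 0) (nat_lit 0) (nat_lit 0) (nat_lit 0) (nat_lit 0) (nat_lit 1) (nat_lit 0) (nat_lit 1) (nat_lit 0) (nat_lit 273) (nat_lit 463) (nat_lit 344)) (XT.nd (nat_lit 94) (nat_lit 0) (nat_lit 0) (XT.lf (nat_lit 0) (nat_lit 2975699286379) (nat_lit 0) (nat_lit 0) (nat_lit 0) (nat_lit 0) (nat_lit 0) (nat_lit 0) (nat_lit 1) (nat_lit 0) (nat_lit 1) (nat_lit 0) (nat_lit 274) (nat_lit 463) (nat_lit 343)) (XT.lf (nat_lit 0) (nat_lit 2975677790151) (nat_lit 0) (nat_lit 0) (nat_lit 0) (nat_lit 0) (nat_lit 0)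 (nat_lit 0) (nat_lit 1) (nat_lit 0) (nat_lit 1) (nat_lit 0) (nat_lit 275) (nat_lit 463) (nat_lit 342))))) (XT.nd (nat_lit 188) (nat_lit 0) (nat_lit 0) (XT.nd (nat_lit 94) (nat_lit 0) (nat_lit 0) (XT.lf (nat_lit 0) (nat_lit 2975657886236) (nat_lit 0) (nat_lit 0) (nat_lit 0) (nat_lit 0) (nat_lit 0) (nat_lit 0) (nat_lit 1) (nat_lit 0) (nat_lit 1) (nat_lit 0) (nat_lit 276) (nat_lit 463) (nat_lit 341)) (XT.lf (nat_lit 0) (nat_lit 2975639456685) (nat_lit 0) (nat_lit 0) (nat_lit 0) (nat_lit 0) (nat_lit 0) (nat_lit 0) (nat_lit 1) (nat_lit 0) (nat_lit 1) (nat_lit 0) (nat_lit 277) (nat_lit 463) (nat_lit 340))) (XT.nd (nat_lit 94) (nat_lit 0) (nat_lit 0) (XT.lf (nat_lit 0) (nat_lit 2975622392286) (nat_lit 0) (nat_lit 0) (nat_lit 0) (nat_lit 0) (nat_lit 0) (nat_lit 0) (nat_lit 1) (nat_lit 0) (nat_lit 1) (nat_lit 0) (nat_lit 278) (nat_lit 463) (nat_lit 339)) (XT.nd (nat_lit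 94) (nat_lit 0) (nat_lit 0) (XT.lf (nat_lit 0) (nat_lit 2975606591917) (nat_lit 0) (nat_lit 0) (nat_lit 0) (nat_lit 0) (nat_lit 0) (nat_lit 0) (nat_lit 1) (nat_lit 0) (nat_lit 1) (nat_lit 0) (nat_lit 279) (nat_lit 463) (nat_lit 338)) (XT.lf (nat_lit 0) (nat_lit 2975591961946) (nat_lit 0) (nat_lit 0) (nat_lit 0) (nat_lit 0) (nat_lit 0) (nat_lit 0) (nat_lit 1) (nat_lit 0) (nat_lit 1) (nat_lit 0) (nat_lit 280) (nat_lit 463) (nat_lit 337))))))) (XT.nd (nat_lit 4606) (nat_lit 0) (nat_lit 0) (XT.nd (nat_lit 376) (nat_lit 0) (nat_lit 0) (XT.nd (nat_lit 188) (nat_lit 0) (nat_lit 0) (XT.nd (nat_lit 94) (nat_lit 0) (nat_lit 0) (XT.lf (nat_lit 0) (nat_lit 2975578415676) (nat_lit 0) (nat_lit 0) (nat_lit 0) (nat_lit 0) (nat_lit 0) (nat_lit 0) (nat_lit 1) (nat_lit 0) (nat_lit 1) (nat_lit 0) (nat_lit 281) (nat_lit 463) (nat_lit 336)) (XT.lf (nat_lit 0) (nat_lit 2975565872833)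 (nat_lit 0) (nat_lit 0) (nat_lit 0) (nat_lit 0) (nat_lit 0) (nat_lit 0) (nat_lit 1) (nat_lit 0) (nat_lit 1) (nat_lit 0) (nat_lit 282) (nat_lit 463) (nat_lit 335))) (XT.nd (nat_lit 94) (nat_lit 0) (nat_lit 0) (XT.lf (nat_lit 0) (nat_lit 2975554259090) (nat_lit 0) (nat_lit 0) (nat_lit 0) (nat_lit 0) (nat_lit 0) (nat_lit 0) (nat_lit 1) (nat_lit 0) (nat_lit 1) (nat_lit 0) (nat_lit 283) (nat_lit 463) (nat_lit 334)) (XT.lf (nat_lit 0) (nat_lit 2975543505624) (nat_lit 0) (nat_lit 0) (nat_lit 0) (nat_lit 0) (nat_lit 0) (nat_lit 0) (nat_lit 1) (nat_lit 0) (nat_lit 1) (nat_lit 0) (nat_lit 284) (nat_lit 463) (nat_lit 333)))) (XT.nd (nat_lit 188) (nat_lit 0) (nat_lit 0) (XT.nd (nat_lit 94) (nat_lit 0) (nat_lit 0) (XT.lf (nat_lit 0) (nat_lit 2975533548711) (nat_lit 0) (nat_lit 0) (nat_lit 0) (nat_lit 0) (nat_lit 0) (nat_lit 0) (nat_lit 1) (nat_lit 0) (nat_lit 1) (nat_lit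 0) (nat_lit 285) (nat_lit 463) (nat_lit 332)) (XT.lf (nat_lit 0) (nat_lit 2975524329348) (nat_lit 0) (nat_lit 0) (nat_lit 0) (nat_lit 0) (nat_lit 0) (nat_lit 0) (nat_lit 1) (nat_lit 0) (nat_lit 1) (nat_lit 0) (nat_lit 286) (nat_lit 463) (nat_lit 331))) (XT.nd (nat_lit 94) (nat_lit 0) (nat_lit 0) (XT.lf (nat_lit 0) (nat_lit 2975515792900) (nat_lit 0) (nat_lit 0) (nat_lit 0) (nat_lit 0) (nat_lit 0) (nat_lit 0) (nat_lit 1) (nat_lit 0) (nat_lit 1) (nat_lit 0) (nat_lit 287) (nat_lit 463) (nat_lit 330)) (XT.nd (nat_lit 3854) (nat_lit 0) (nat_lit 0) (XT.lf (nat_lit 0) (nat_lit 2975507888782) (nat_lit 0) (nat_lit 0) (nat_lit 0) (nat_lit 0) (nat_lit 0) (nat_lit 0) (nat_lit 1) (nat_lit 0) (nat_lit 1) (nat_lit 0) (nat_lit 288) (nat_lit 463) (nat_lit 329)) (XT.lf (nat_lit 0) (nat_lit 2975413298343) (nat_lit 0) (nat_lit 0) (nat_lit 0) (nat_lit 0) (nat_lit 0) (nat_lit 0)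 (nat_lit 1) (nat_lit 0) (nat_lit 1) (nat_lit 0) (nat_lit 329) (nat_lit 463) (nat_lit 288)))))) (XT.nd (nat_lit 470) (nat_lit 0) (nat_lit 0) (XT.nd (nat_lit 188) (nat_lit 0) (nat_lit 0) (XT.nd (nat_lit 94) (nat_lit 0) (nat_lit 0) (XT.lf (nat_lit 0) (nat_lit 2975412986414) (nat_lit 0) (nat_lit 0) (nat_lit 0) (nat_lit 0) (nat_lit 0) (nat_lit 0) (nat_lit 1) (nat_lit 0) (nat_lit 1) (nat_lit 0) (nat_lit 330) (nat_lit 463) (nat_lit 287)) (XT.lf (nat_lit 0) (nat_lit 2975412697591) (nat_lit 0) (nat_lit 0) (nat_lit 0) (nat_lit 0) (nat_lit 0) (nat_lit 0) (nat_lit 1) (nat_lit 0) (nat_lit 1) (nat_lit 0) (nat_lit 331) (nat_lit 463) (nat_lit 286))) (XT.nd (nat_lit 94) (nat_lit 0) (nat_lit 0) (XT.lf (nat_lit 0) (nat_lit 2975412430162) (nat_lit 0) (nat_lit 0) (nat_lit 0) (nat_lit 0) (nat_lit 0) (nat_lit 0) (nat_lit 1) (nat_lit 0) (nat_lit 1) (nat_lit 0) (nat_lit 332) (nat_lit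 463) (nat_lit 285)) (XT.nd (nat_lit 94) (nat_lit 0) (nat_lit 0) (XT.lf (nat_lit 0) (nat_lit 2975412182543) (nat_lit 0) (nat_lit 0) (nat_lit 0) (nat_lit 0) (nat_lit 0) (nat_lit 0) (nat_lit 1) (nat_lit 0) (nat_lit 1) (nat_lit 0) (nat_lit 333) (nat_lit 463) (nat_lit 284)) (XT.lf (nat_lit 0) (nat_lit 2975411953265) (nat_lit 0) (nat_lit 0) (nat_lit 0) (nat_lit 0) (nat_lit 0) (nat_lit 0) (nat_lit 1) (nat_lit 0) (nat_lit 1) (nat_lit 0) (nat_lit 334) (nat_lit 463) (nat_lit 283))))) (XT.nd (nat_lit 188) (nat_lit 0) (nat_lit 0) (XT.nd (nat_lit 94) (nat_lit 0) (nat_lit 0) (XT.lf (nat_lit 0) (nat_lit 2975411740972) (nat_lit 0) (nat_lit 0) (nat_lit 0) (nat_lit 0) (nat_lit 0) (nat_lit 0) (nat_lit 1) (nat_lit 0) (nat_lit 1) (nat_lit 0) (nat_lit 335) (nat_lit 463) (nat_lit 282)) (XT.lf (nat_lit 0) (nat_lit 2975411544404) (nat_lit 0) (nat_lit 0) (nat_lit 0) (nat_lit 0) (nat_lit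 0) (nat_lit 0) (nat_lit 1) (nat_lit 0) (nat_lit 1) (nat_lit 0) (nat_lit 336) (nat_lit 463) (nat_lit 281))) (XT.nd (nat_lit 94) (nat_lit 0) (nat_lit 0) (XT.lf (nat_lit 0) (nat_lit 2975411362396) (nat_lit 0) (nat_lit 0) (nat_lit 0) (nat_lit 0) (nat_lit 0) (nat_lit 0) (nat_lit 1) (nat_lit 0) (nat_lit 1) (nat_lit 0) (nat_lit 337) (nat_lit 463) (nat_lit 280)) (XT.nd (nat_lit 94) (nat_lit 0) (nat_lit 0) (XT.lf (nat_lit 0) (nat_lit 2975411193871) (nat_lit 0) (nat_lit 0) (nat_lit 0) (nat_lit 0) (nat_lit 0) (nat_lit 0) (nat_lit 1) (nat_lit 0) (nat_lit 1) (nat_lit 0) (nat_lit 338) (nat_lit 463) (nat_lit 279)) (XT.lf (nat_lit 0) (nat_lit 2975411037828) (nat_lit 0) (nat_lit 0) (nat_lit 0) (nat_lit 0) (nat_lit 0) (nat_lit 0) (nat_lit 1) (nat_lit 0) (nat_lit 1) (nat_lit 0) (nat_lit 339) (nat_lit 463) (nat_lit 278))))))))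
noncomputable def ec502 : XT := (XT.nd (nat_lit 1692) (nat_lit 0) (nat_lit 0) (XT.nd (nat_lit 846) (nat_lit 0) (nat_lit 0) (XT.nd (nat_lit 376) (nat_lit 0) (nat_lit 0) (XT.nd (nat_lit 188) (nat_lit 0) (nat_lit 0) (XT.nd (nat_lit 94) (nat_lit 0) (nat_lit 0) (XT.lf (nat_lit 0) (nat_lit 2975410893345) (nat_lit 0) (nat_lit 0) (nat_lit 0) (nat_lit 0) (nat_lit 0) (nat_lit 0) (nat_lit 1) (nat_lit 0) (nat_lit 1) (nat_lit 0) (nat_lit 340) (nat_lit 463) (nat_lit 277)) (XT.lf (nat_lit 0) (nat_lit 2975410759564) (nat_lit 0) (nat_lit 0) (nat_lit 0) (nat_lit 0) (nat_lit 0) (nat_lit 0) (nat_lit 1) (nat_lit 0) (nat_lit 1) (nat_lit 0) (nat_lit 341) (nat_lit 463) (nat_lit 276))) (XT.nd (nat_lit 94) (nat_lit 0) (nat_lit 0) (XT.lf (nat_lit 0) (nat_lit 2975410635693) (nat_lit 0) (nat_lit 0) (nat_lit 0) (nat_lit 0) (nat_lit 0) (nat_lit 0) (nat_lit 1) (nat_lit 0) (nat_lit 1) (nat_lit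 0) (nat_lit 342) (nat_lit 463) (nat_lit 275)) (XT.lf (nat_lit 0) (nat_lit 2975410520997) (nat_lit 0) (nat_lit 0) (nat_lit 0) (nat_lit 0) (nat_lit 0) (nat_lit 0) (nat_lit 1) (nat_lit 0) (nat_lit 1) (nat_lit 0) (nat_lit 343) (nat_lit 463) (nat_lit 274)))) (XT.nd (nat_lit 188) (nat_lit 0) (nat_lit 0) (XT.nd (nat_lit 94) (nat_lit 0) (nat_lit 0) (XT.lf (nat_lit 0) (nat_lit 2975410414797) (nat_lit 0) (nat_lit 0) (nat_lit 0) (nat_lit 0) (nat_lit 0) (nat_lit 0) (nat_lit 1) (nat_lit 0) (nat_lit 1) (nat_lit 0) (nat_lit 344) (nat_lit 463) (nat_lit 273)) (XT.lf (nat_lit 0) (nat_lit 2975410316464) (nat_lit 0) (nat_lit 0) (nat_lit 0) (nat_lit 0) (nat_lit 0) (nat_lit 0) (nat_lit 1) (nat_lit 0) (nat_lit 1) (nat_lit 0) (nat_lit 345) (nat_lit 463) (nat_lit 272))) (XT.nd (nat_lit 94) (nat_lit 0) (nat_lit 0) (XT.lf (nat_lit 0) (nat_lit 2975410225415) (nat_lit 0) (nat_lit 0) (nat_lit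 0) (nat_lit 0) (nat_lit 0) (nat_lit 0) (nat_lit 1) (nat_lit 0) (nat_lit 1) (nat_lit 0) (nat_lit 346) (nat_lit 463) (nat_lit 271)) (XT.nd (nat_lit 94) (nat_lit 0) (nat_lit 0) (XT.lf (nat_lit 0) (nat_lit 2975410141111) (nat_lit 0) (nat_lit 0) (nat_lit 0) (nat_lit 0) (nat_lit 0) (nat_lit 0) (nat_lit 1) (nat_lit 0) (nat_lit 1) (nat_lit 0) (nat_lit 347) (nat_lit 463) (nat_lit 270)) (XT.lf (nat_lit 0) (nat_lit 2975410063051) (nat_lit 0) (nat_lit 0) (nat_lit 0) (nat_lit 0) (nat_lit 0) (nat_lit 0) (nat_lit 1) (nat_lit 0) (nat_lit 1) (nat_lit 0) (nat_lit 348) (nat_lit 463) (nat_lit 269)))))) (XT.nd (nat_lit 376) (nat_lit 0) (nat_lit 0) (XT.nd (nat_lit 188) (nat_lit 0) (nat_lit 0) (XT.nd (nat_lit 94) (nat_lit 0) (nat_lit 0) (XT.lf (nat_lit 0) (nat_lit 2975409990773) (nat_lit 0) (nat_lit 0) (nat_lit 0) (nat_lit 0) (nat_lit 0) (nat_lit 0) (nat_lit 1) (nat_lit 0) (nat_lit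 1) (nat_lit 0) (nat_lit 349) (nat_lit 463) (nat_lit 268)) (XT.lf (nat_lit 0) (nat_lit 2975409923849) (nat_lit 0) (nat_lit 0) (nat_lit 0) (nat_lit 0) (nat_lit 0) (nat_lit 0) (nat_lit 1) (nat_lit 0) (nat_lit 1) (nat_lit 0) (nat_lit 350) (nat_lit 463) (nat_lit 267))) (XT.nd (nat_lit 94) (nat_lit 0) (nat_lit 0) (XT.lf (nat_lit 0) (nat_lit 2975409861883) (nat_lit 0) (nat_lit 0) (nat_lit 0) (nat_lit 0) (nat_lit 0) (nat_lit 0) (nat_lit 1) (nat_lit 0) (nat_lit 1) (nat_lit 0) (nat_lit 351) (nat_lit 463) (nat_lit 266)) (XT.lf (nat_lit 0) (nat_lit 2975409804506) (nat_lit 0) (nat_lit 0) (nat_lit 0) (nat_lit 0) (nat_lit 0) (nat_lit 0) (nat_lit 1) (nat_lit 0) (nat_lit 1) (nat_lit 0) (nat_lit 352) (nat_lit 463) (nat_lit 265)))) (XT.nd (nat_lit 188) (nat_lit 0) (nat_lit 0) (XT.nd (nat_lit 94) (nat_lit 0) (nat_lit 0) (XT.lf (nat_lit 0) (nat_lit 2975409751380) (nat_lit 0) (nat_lit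 0) (nat_lit 0) (nat_lit 0) (nat_lit 0) (nat_lit 0) (nat_lit 1) (nat_lit 0) (nat_lit 1) (nat_lit 0) (nat_lit 353) (nat_lit 463) (nat_lit 264)) (XT.lf (nat_lit 0) (nat_lit 2975409702189) (nat_lit 0) (nat_lit 0) (nat_lit 0) (nat_lit 0) (nat_lit 0) (nat_lit 0) (nat_lit 1) (nat_lit 0) (nat_lit 1) (nat_lit 0) (nat_lit 354) (nat_lit 463) (nat_lit 263))) (XT.nd (nat_lit 94) (nat_lit 0) (nat_lit 0) (XT.lf (nat_lit 0) (nat_lit 2975409656642) (nat_lit 0) (nat_lit 0) (nat_lit 0) (nat_lit 0) (nat_lit 0) (nat_lit 0) (nat_lit 1) (nat_lit 0) (nat_lit 1) (nat_lit 0) (nat_lit 355) (nat_lit 463) (nat_lit 262)) (XT.nd (nat_lit 94) (nat_lit 0) (nat_lit 0) (XT.lf (nat_lit 0) (nat_lit 2975409614468) (nat_lit 0) (nat_lit 0) (nat_lit 0) (nat_lit 0) (nat_lit 0) (nat_lit 0) (nat_lit 1) (nat_lit 0) (nat_lit 1) (nat_lit 0) (nat_lit 356) (nat_lit 463) (nat_lit 261)) (XT.lf (nat_lit 0)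 (nat_lit 2975409575419) (nat_lit 0) (nat_lit 0) (nat_lit 0) (nat_lit 0) (nat_lit 0) (nat_lit 0) (nat_lit 1) (nat_lit 0) (nat_lit 1) (nat_lit 0) (nat_lit 357) (nat_lit 463) (nat_lit 260))))))) (XT.nd (nat_lit 846) (nat_lit 0) (nat_lit 0) (XT.nd (nat_lit 376) (nat_lit 0) (nat_lit 0) (XT.nd (nat_lit 188) (nat_lit 0) (nat_lit 0) (XT.nd (nat_lit 94) (nat_lit 0) (nat_lit 0) (XT.lf (nat_lit 0) (nat_lit 2975409539262) (nat_lit 0) (nat_lit 0) (nat_lit 0) (nat_lit 0) (nat_lit 0) (nat_lit 0) (nat_lit 1) (nat_lit 0) (nat_lit 1) (nat_lit 0) (nat_lit 358) (nat_lit 463) (nat_lit 259)) (XT.lf (nat_lit 0) (nat_lit 2975409505784) (nat_lit 0) (nat_lit 0) (nat_lit 0) (nat_lit 0) (nat_lit 0) (nat_lit 0) (nat_lit 1) (nat_lit 0) (nat_lit 1) (nat_lit 0) (nat_lit 359) (nat_lit 463) (nat_lit 258))) (XT.nd (nat_lit 94) (nat_lit 0) (nat_lit 0) (XT.lf (nat_lit 0) (nat_lit 2975409474785)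 (nat_lit 0) (nat_lit 0) (nat_lit 0) (nat_lit 0) (nat_lit 0) (nat_lit 0) (nat_lit 1) (nat_lit 0) (nat_lit 1) (nat_lit 0) (nat_lit 360) (nat_lit 463) (nat_lit 257)) (XT.lf (nat_lit 0) (nat_lit 2975409446083) (nat_lit 0) (nat_lit 0) (nat_lit 0) (nat_lit 0) (nat_lit 0) (nat_lit 0) (nat_lit 1) (nat_lit 0) (nat_lit 1) (nat_lit 0) (nat_lit 361) (nat_lit 463) (nat_lit 256)))) (XT.nd (nat_lit 188) (nat_lit 0) (nat_lit 0) (XT.nd (nat_lit 94) (nat_lit 0) (nat_lit 0) (XT.lf (nat_lit 0) (nat_lit 2975409419506) (nat_lit 0) (nat_lit 0) (nat_lit 0) (nat_lit 0) (nat_lit 0) (nat_lit 0) (nat_lit 1) (nat_lit 0) (nat_lit 1) (nat_lit 0) (nat_lit 362) (nat_lit 463) (nat_lit 255)) (XT.lf (nat_lit 0) (nat_lit 2975409394898) (nat_lit 0) (nat_lit 0) (nat_lit 0) (nat_lit 0) (nat_lit 0) (nat_lit 0) (nat_lit 1) (nat_lit 0) (nat_lit 1) (nat_lit 0) (nat_lit 363) (nat_lit 463) (nat_lit 254)))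 (XT.nd (nat_lit 94) (nat_lit 0) (nat_lit 0) (XT.lf (nat_lit 0) (nat_lit 2975409372113) (nat_lit 0) (nat_lit 0) (nat_lit 0) (nat_lit 0) (nat_lit 0) (nat_lit 0) (nat_lit 1) (nat_lit 0) (nat_lit 1) (nat_lit 0) (nat_lit 364) (nat_lit 463) (nat_lit 253)) (XT.nd (nat_lit 94) (nat_lit 0) (nat_lit 0) (XT.lf (nat_lit 0) (nat_lit 2975409351016) (nat_lit 0) (nat_lit 0) (nat_lit 0) (nat_lit 0) (nat_lit 0) (nat_lit 0) (nat_lit 1) (nat_lit 0) (nat_lit 1) (nat_lit 0) (nat_lit 365) (nat_lit 463) (nat_lit 252)) (XT.lf (nat_lit 0) (nat_lit 2975409331482) (nat_lit 0) (nat_lit 0) (nat_lit 0) (nat_lit 0) (nat_lit 0) (nat_lit 0) (nat_lit 1) (nat_lit 0) (nat_lit 1) (nat_lit 0) (nat_lit 366) (nat_lit 463) (nat_lit 251)))))) (XT.nd (nat_lit 470) (nat_lit 0) (nat_lit 0) (XT.nd (nat_lit 188) (nat_lit 0) (nat_lit 0) (XT.nd (nat_lit 94) (nat_lit 0) (nat_lit 0) (XT.lf (nat_lit 0) (nat_lit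 2975409313394) (nat_lit 0) (nat_lit 0) (nat_lit 0) (nat_lit 0) (nat_lit 0) (nat_lit 0) (nat_lit 1) (nat_lit 0) (nat_lit 1) (nat_lit 0) (nat_lit 367) (nat_lit 463) (nat_lit 250)) (XT.lf (nat_lit 0) (nat_lit 2975409296647) (nat_lit 0) (nat_lit 0) (nat_lit 0) (nat_lit 0) (nat_lit 0) (nat_lit 0) (nat_lit 1) (nat_lit 0) (nat_lit 1) (nat_lit 0) (nat_lit 368) (nat_lit 463) (nat_lit 249))) (XT.nd (nat_lit 94) (nat_lit 0) (nat_lit 0) (XT.lf (nat_lit 0) (nat_lit 2975409281140) (nat_lit 0) (nat_lit 0) (nat_lit 0) (nat_lit 0) (nat_lit 0) (nat_lit 0) (nat_lit 1) (nat_lit 0) (nat_lit 1) (nat_lit 0) (nat_lit 369) (nat_lit 463) (nat_lit 248)) (XT.nd (nat_lit 94) (nat_lit 0) (nat_lit 0) (XT.lf (nat_lit 0) (nat_lit 2975409266781) (nat_lit 0) (nat_lit 0) (nat_lit 0) (nat_lit 0) (nat_lit 0) (nat_lit 0) (nat_lit 1) (nat_lit 0) (nat_lit 1) (nat_lit 0) (nat_lit 370) (nat_lit 463)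 (nat_lit 247)) (XT.lf (nat_lit 0) (nat_lit 2975409253487) (nat_lit 0) (nat_lit 0) (nat_lit 0) (nat_lit 0) (nat_lit 0) (nat_lit 0) (nat_lit 1) (nat_lit 0) (nat_lit 1) (nat_lit 0) (nat_lit 371) (nat_lit 463) (nat_lit 246))))) (XT.nd (nat_lit 188) (nat_lit 0) (nat_lit 0) (XT.nd (nat_lit 94) (nat_lit 0) (nat_lit 0) (XT.lf (nat_lit 0) (nat_lit 2975409241177) (nat_lit 0) (nat_lit 0) (nat_lit 0) (nat_lit 0) (nat_lit 0) (nat_lit 0) (nat_lit 1) (nat_lit 0) (nat_lit 1) (nat_lit 0) (nat_lit 372) (nat_lit 463) (nat_lit 245)) (XT.lf (nat_lit 0) (nat_lit 2975409229778) (nat_lit 0) (nat_lit 0) (nat_lit 0) (nat_lit 0) (nat_lit 0) (nat_lit 0) (nat_lit 1) (nat_lit 0) (nat_lit 1) (nat_lit 0) (nat_lit 373) (nat_lit 463) (nat_lit 244))) (XT.nd (nat_lit 94) (nat_lit 0) (nat_lit 0) (XT.lf (nat_lit 0) (nat_lit 2975409219225) (nat_lit 0) (nat_lit 0) (nat_lit 0) (nat_lit 0) (nat_lit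 0) (nat_lit 0) (nat_lit 1) (nat_lit 0) (nat_lit 1) (nat_lit 0) (nat_lit 374) (nat_lit 463) (nat_lit 243)) (XT.nd (nat_lit 94) (nat_lit 0) (nat_lit 0) (XT.lf (nat_lit 0) (nat_lit 2975409209453) (nat_lit 0) (nat_lit 0) (nat_lit 0) (nat_lit 0) (nat_lit 0) (nat_lit 0) (nat_lit 1) (nat_lit 0) (nat_lit 1) (nat_lit 0) (nat_lit 375) (nat_lit 463) (nat_lit 242)) (XT.lf (nat_lit 0) (nat_lit 2975409200404) (nat_lit 0) (nat_lit 0) (nat_lit 0) (nat_lit 0) (nat_lit 0) (nat_lit 0) (nat_lit 1) (nat_lit 0) (nat_lit 1) (nat_lit 0) (nat_lit 376) (nat_lit 463) (nat_lit 241))))))))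
noncomputable def ec503 : XT := (XT.nd (nat_lit 54614) (nat_lit 0) (nat_lit 0) (XT.nd (nat_lit 7896) (nat_lit 0) (nat_lit 0) (XT.nd (nat_lit 376) (nat_lit 0) (nat_lit 0) (XT.nd (nat_lit 188) (nat_lit 0) (nat_lit 0) (XT.nd (nat_lit 94) (nat_lit 0) (nat_lit 0) (XT.lf (nat_lit 0) (nat_lit 2975409192026) (nat_lit 0) (nat_lit 0) (nat_lit 0) (nat_lit 0) (nat_lit 0) (nat_lit 0) (nat_lit 1) (nat_lit 0) (nat_lit 1) (nat_lit 0) (nat_lit 377) (nat_lit 463) (nat_lit 240)) (XT.lf (nat_lit 0) (nat_lit 2975409184269) (nat_lit 0) (nat_lit 0) (nat_lit 0) (nat_lit 0) (nat_lit 0) (nat_lit 0) (nat_lit 1) (nat_lit 0) (nat_lit 1) (nat_lit 0) (nat_lit 378) (nat_lit 463) (nat_lit 239))) (XT.nd (nat_lit 94) (nat_lit 0) (nat_lit 0) (XT.lf (nat_lit 0) (nat_lit 2975409177086) (nat_lit 0) (nat_lit 0) (nat_lit 0) (nat_lit 0) (nat_lit 0) (nat_lit 0) (nat_lit 1) (nat_lit 0) (nat_lit 1) (nat_lit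 0) (nat_lit 379) (nat_lit 463) (nat_lit 238)) (XT.lf (nat_lit 0) (nat_lit 2975409170435) (nat_lit 0) (nat_lit 0) (nat_lit 0) (nat_lit 0) (nat_lit 0) (nat_lit 0) (nat_lit 1) (nat_lit 0) (nat_lit 1) (nat_lit 0) (nat_lit 380) (nat_lit 463) (nat_lit 237)))) (XT.nd (nat_lit 188) (nat_lit 0) (nat_lit 0) (XT.nd (nat_lit 94) (nat_lit 0) (nat_lit 0) (XT.lf (nat_lit 0) (nat_lit 2975409164277) (nat_lit 0) (nat_lit 0) (nat_lit 0) (nat_lit 0) (nat_lit 0) (nat_lit 0) (nat_lit 1) (nat_lit 0) (nat_lit 1) (nat_lit 0) (nat_lit 381) (nat_lit 463) (nat_lit 236)) (XT.lf (nat_lit 0) (nat_lit 2975409158576) (nat_lit 0) (nat_lit 0) (nat_lit 0) (nat_lit 0) (nat_lit 0) (nat_lit 0) (nat_lit 1) (nat_lit 0) (nat_lit 1) (nat_lit 0) (nat_lit 382) (nat_lit 463) (nat_lit 235))) (XT.nd (nat_lit 94) (nat_lit 0) (nat_lit 0) (XT.lf (nat_lit 0) (nat_lit 2975409153296) (nat_lit 0) (nat_lit 0) (nat_lit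 0) (nat_lit 0) (nat_lit 0) (nat_lit 0) (nat_lit 1) (nat_lit 0) (nat_lit 1) (nat_lit 0) (nat_lit 383) (nat_lit 463) (nat_lit 234)) (XT.nd (nat_lit 94) (nat_lit 0) (nat_lit 0) (XT.lf (nat_lit 0) (nat_lit 2975409148407) (nat_lit 0) (nat_lit 0) (nat_lit 0) (nat_lit 0) (nat_lit 0) (nat_lit 0) (nat_lit 1) (nat_lit 0) (nat_lit 1) (nat_lit 0) (nat_lit 384) (nat_lit 463) (nat_lit 233)) (XT.lf (nat_lit 0) (nat_lit 2975409143881) (nat_lit 0) (nat_lit 0) (nat_lit 0) (nat_lit 0) (nat_lit 0) (nat_lit 0) (nat_lit 1) (nat_lit 0) (nat_lit 1) (nat_lit 0) (nat_lit 385) (nat_lit 463) (nat_lit 232)))))) (XT.nd (nat_lit 38728) (nat_lit 0) (nat_lit 0) (XT.nd (nat_lit 188) (nat_lit 0) (nat_lit 0) (XT.nd (nat_lit 94) (nat_lit 0) (nat_lit 0) (XT.lf (nat_lit 0) (nat_lit 2975409087465) (nat_lit 0) (nat_lit 0) (nat_lit 0) (nat_lit 0) (nat_lit 0) (nat_lit 0) (nat_lit 1) (nat_lit 0) (nat_lit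 1) (nat_lit 0) (nat_lit 461) (nat_lit 463) (nat_lit 156)) (XT.lf (nat_lit 0) (nat_lit 2975409087453) (nat_lit 0) (nat_lit 0) (nat_lit 0) (nat_lit 0) (nat_lit 0) (nat_lit 0) (nat_lit 1) (nat_lit 0) (nat_lit 1) (nat_lit 0) (nat_lit 462) (nat_lit 463) (nat_lit 155))) (XT.nd (nat_lit 94) (nat_lit 0) (nat_lit 0) (XT.lf (nat_lit 0) (nat_lit 2975409087441) (nat_lit 0) (nat_lit 0) (nat_lit 0) (nat_lit 0) (nat_lit 0) (nat_lit 0) (nat_lit 1) (nat_lit 0) (nat_lit 1) (nat_lit 0) (nat_lit 463) (nat_lit 463) (nat_lit 154)) (XT.nd (nat_lit 94) (nat_lit 0) (nat_lit 0) (XT.lf (nat_lit 0) (nat_lit 2975409087431) (nat_lit 0) (nat_lit 0) (nat_lit 0) (nat_lit 0) (nat_lit 0) (nat_lit 0) (nat_lit 1) (nat_lit 0) (nat_lit 1) (nat_lit 0) (nat_lit 464) (nat_lit 463) (nat_lit 153)) (XT.lf (nat_lit 0) (nat_lit 2975409087422) (nat_lit 0) (nat_lit 0) (nat_lit 0) (nat_lit 0) (nat_lit 0)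 (nat_lit 0) (nat_lit 1) (nat_lit 0) (nat_lit 1) (nat_lit 0) (nat_lit 465) (nat_lit 463) (nat_lit 152))))) (XT.nd (nat_lit 188) (nat_lit 10752) (nat_lit 0) (XT.nd (nat_lit 94) (nat_lit 0) (nat_lit 84) (XT.lf (nat_lit 924) (nat_lit 1608126651689) (nat_lit 0) (nat_lit 2855225173647) (nat_lit 924) (nat_lit 1608126651689) (nat_lit 139) (nat_lit 1) (nat_lit 128) (nat_lit 0) (nat_lit 139) (nat_lit 0) (nat_lit 152) (nat_lit 464) (nat_lit 464)) (XT.lf (nat_lit 924) (nat_lit 599880585057) (nat_lit 0) (nat_lit 5605672366864) (nat_lit 840) (nat_lit 5482328846653) (nat_lit 140) (nat_lit 1) (nat_lit 129) (nat_lit 1) (nat_lit 139) (nat_lit 1) (nat_lit 153) (nat_lit 464) (nat_lit 463))) (XT.nd (nat_lit 94) (nat_lit 10836) (nat_lit 0) (XT.lf (nat_lit 924) (nat_lit 5509556917677) (nat_lit 84) (nat_lit 3754120673636) (nat_lit 0) (nat_lit 1991014356949) (nat_lit 140) (nat_lit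 1) (nat_lit 130) (nat_lit 1) (nat_lit 129) (nat_lit 1) (nat_lit 154) (nat_lit 464) (nat_lit 462)) (XT.nd (nat_lit 7614) (nat_lit 10920) (nat_lit 0) (XT.lf (nat_lit 924) (nat_lit 4760708526275) (nat_lit 84) (nat_lit 1573325953217) (nat_lit 0) (nat_lit 4509145537322) (nat_lit 141) (nat_lit 1) (nat_lit 131) (nat_lit 1) (nat_lit 130) (nat_lit 1) (nat_lit 155) (nat_lit 464) (nat_lit 461)) (XT.lf (nat_lit 0) (nat_lit 3218446478911) (nat_lit 0) (nat_lit 0) (nat_lit 0) (nat_lit 0) (nat_lit 0) (nat_lit 0) (nat_lit 1) (nat_lit 0) (nat_lit 1) (nat_lit 0) (nat_lit 236) (nat_lit 464) (nat_lit 380))))))) (XT.nd (nat_lit 846) (nat_lit 0) (nat_lit 0) (XT.nd (nat_lit 376) (nat_lit 0) (nat_lit 0) (XT.nd (nat_lit 188) (nat_lit 0) (nat_lit 0) (XT.nd (nat_lit 94) (nat_lit 0) (nat_lit 0) (XT.lf (nat_lit 0) (nat_lit 3218075763013) (nat_lit 0) (nat_lit 0) (nat_lit 0) (nat_lit 0)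 (nat_lit 0) (nat_lit 0) (nat_lit 1) (nat_lit 0) (nat_lit 1) (nat_lit 0) (nat_lit 237) (nat_lit 464) (nat_lit 379)) (XT.lf (nat_lit 0) (nat_lit 3217732507552) (nat_lit 0) (nat_lit 0) (nat_lit 0) (nat_lit 0) (nat_lit 0) (nat_lit 0) (nat_lit 1) (nat_lit 0) (nat_lit 1) (nat_lit 0) (nat_lit 238) (nat_lit 464) (nat_lit 378))) (XT.nd (nat_lit 94) (nat_lit 0) (nat_lit 0) (XT.lf (nat_lit 0) (nat_lit 3217414678421) (nat_lit 0) (nat_lit 0) (nat_lit 0) (nat_lit 0) (nat_lit 0) (nat_lit 0) (nat_lit 1) (nat_lit 0) (nat_lit 1) (nat_lit 0) (nat_lit 239) (nat_lit 464) (nat_lit 377)) (XT.lf (nat_lit 0) (nat_lit 3217120392189) (nat_lit 0) (nat_lit 0) (nat_lit 0) (nat_lit 0) (nat_lit 0) (nat_lit 0) (nat_lit 1) (nat_lit 0) (nat_lit 1) (nat_lit 0) (nat_lit 240) (nat_lit 464) (nat_lit 376)))) (XT.nd (nat_lit 188) (nat_lit 0) (nat_lit 0) (XT.nd (nat_lit 94) (nat_lit 0) (nat_lit 0)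 (XT.lf (nat_lit 0) (nat_lit 3216847904936) (nat_lit 0) (nat_lit 0) (nat_lit 0) (nat_lit 0) (nat_lit 0) (nat_lit 0) (nat_lit 1) (nat_lit 0) (nat_lit 1) (nat_lit 0) (nat_lit 241) (nat_lit 464) (nat_lit 375)) (XT.lf (nat_lit 0) (nat_lit 3216595601925) (nat_lit 0) (nat_lit 0) (nat_lit 0) (nat_lit 0) (nat_lit 0) (nat_lit 0) (nat_lit 1) (nat_lit 0) (nat_lit 1) (nat_lit 0) (nat_lit 242) (nat_lit 464) (nat_lit 374))) (XT.nd (nat_lit 94) (nat_lit 0) (nat_lit 0) (XT.lf (nat_lit 0) (nat_lit 3216361988026) (nat_lit 0) (nat_lit 0) (nat_lit 0) (nat_lit 0) (nat_lit 0) (nat_lit 0) (nat_lit 1) (nat_lit 0) (nat_lit 1) (nat_lit 0) (nat_lit 243) (nat_lit 464) (nat_lit 373)) (XT.nd (nat_lit 94) (nat_lit 0) (nat_lit 0) (XT.lf (nat_lit 0) (nat_lit 3216145678860) (nat_lit 0) (nat_lit 0) (nat_lit 0) (nat_lit 0) (nat_lit 0) (nat_lit 0) (nat_lit 1) (nat_lit 0) (nat_lit 1) (nat_lit 0)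 (nat_lit 244) (nat_lit 464) (nat_lit 372)) (XT.lf (nat_lit 0) (nat_lit 3215945392595) (nat_lit 0) (nat_lit 0) (nat_lit 0) (nat_lit 0) (nat_lit 0) (nat_lit 0) (nat_lit 1) (nat_lit 0) (nat_lit 1) (nat_lit 0) (nat_lit 245) (nat_lit 464) (nat_lit 371)))))) (XT.nd (nat_lit 470) (nat_lit 0) (nat_lit 0) (XT.nd (nat_lit 188) (nat_lit 0) (nat_lit 0) (XT.nd (nat_lit 94) (nat_lit 0) (nat_lit 0) (XT.lf (nat_lit 0) (nat_lit 3215759942350) (nat_lit 0) (nat_lit 0) (nat_lit 0) (nat_lit 0) (nat_lit 0) (nat_lit 0) (nat_lit 1) (nat_lit 0) (nat_lit 1) (nat_lit 0) (nat_lit 246) (nat_lit 464) (nat_lit 370)) (XT.lf (nat_lit 0) (nat_lit 3215588229160) (nat_lit 0) (nat_lit 0) (nat_lit 0) (nat_lit 0) (nat_lit 0) (nat_lit 0) (nat_lit 1) (nat_lit 0) (nat_lit 1) (nat_lit 0) (nat_lit 247) (nat_lit 464) (nat_lit 369))) (XT.nd (nat_lit 94) (nat_lit 0) (nat_lit 0) (XT.lf (nat_lit 0) (nat_lit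 3215429235466) (nat_lit 0) (nat_lit 0) (nat_lit 0) (nat_lit 0) (nat_lit 0) (nat_lit 0) (nat_lit 1) (nat_lit 0) (nat_lit 1) (nat_lit 0) (nat_lit 248) (nat_lit 464) (nat_lit 368)) (XT.nd (nat_lit 94) (nat_lit 0) (nat_lit 0) (XT.lf (nat_lit 0) (nat_lit 3215282019082) (nat_lit 0) (nat_lit 0) (nat_lit 0) (nat_lit 0) (nat_lit 0) (nat_lit 0) (nat_lit 1) (nat_lit 0) (nat_lit 1) (nat_lit 0) (nat_lit 249) (nat_lit 464) (nat_lit 367)) (XT.lf (nat_lit 0) (nat_lit 3215145707616) (nat_lit 0) (nat_lit 0) (nat_lit 0) (nat_lit 0) (nat_lit 0) (nat_lit 0) (nat_lit 1) (nat_lit 0) (nat_lit 1) (nat_lit 0) (nat_lit 250) (nat_lit 464) (nat_lit 366))))) (XT.nd (nat_lit 188) (nat_lit 0) (nat_lit 0) (XT.nd (nat_lit 94) (nat_lit 0) (nat_lit 0) (XT.lf (nat_lit 0) (nat_lit 3215019493295) (nat_lit 0) (nat_lit 0) (nat_lit 0) (nat_lit 0) (nat_lit 0) (nat_lit 0) (nat_lit 1) (nat_lit 0) (nat_lit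 1) (nat_lit 0) (nat_lit 251) (nat_lit 464) (nat_lit 365)) (XT.lf (nat_lit 0) (nat_lit 3214902628183) (nat_lit 0) (nat_lit 0) (nat_lit 0) (nat_lit 0) (nat_lit 0) (nat_lit 0) (nat_lit 1) (nat_lit 0) (nat_lit 1) (nat_lit 0) (nat_lit 252) (nat_lit 464) (nat_lit 364))) (XT.nd (nat_lit 94) (nat_lit 0) (nat_lit 0) (XT.lf (nat_lit 0) (nat_lit 3214794419746) (nat_lit 0) (nat_lit 0) (nat_lit 0) (nat_lit 0) (nat_lit 0) (nat_lit 0) (nat_lit 1) (nat_lit 0) (nat_lit 1) (nat_lit 0) (nat_lit 253) (nat_lit 464) (nat_lit 363)) (XT.nd (nat_lit 94) (nat_lit 0) (nat_lit 0) (XT.lf (nat_lit 0) (nat_lit 3214694226749) (nat_lit 0) (nat_lit 0) (nat_lit 0) (nat_lit 0) (nat_lit 0) (nat_lit 0) (nat_lit 1) (nat_lit 0) (nat_lit 1) (nat_lit 0) (nat_lit 254) (nat_lit 464) (nat_lit 362)) (XT.lf (nat_lit 0) (nat_lit 3214601455456) (nat_lit 0) (nat_lit 0) (nat_lit 0) (nat_lit 0) (nat_lit 0)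 (nat_lit 0) (nat_lit 1) (nat_lit 0) (nat_lit 1) (nat_lit 0) (nat_lit 255) (nat_lit 464) (nat_lit 361))))))))
noncomputable def ec504 : XT := (XT.nd (nat_lit 1692) (nat_lit 0) (nat_lit 0) (XT.nd (nat_lit 846) (nat_lit 0) (nat_lit 0) (XT.nd (nat_lit 376) (nat_lit 0) (nat_lit 0) (XT.nd (nat_lit 188) (nat_lit 0) (nat_lit 0) (XT.nd (nat_lit 94) (nat_lit 0) (nat_lit 0) (XT.lf (nat_lit 0) (nat_lit 3214515556110) (nat_lit 0) (nat_lit 0) (nat_lit 0) (nat_lit 0) (nat_lit 0) (nat_lit 0) (nat_lit 1) (nat_lit 0) (nat_lit 1) (nat_lit 0) (nat_lit 256) (nat_lit 464) (nat_lit 360)) (XT.lf (nat_lit 0) (nat_lit 3214436019678) (nat_lit 0) (nat_lit 0) (nat_lit 0) (nat_lit 0) (nat_lit 0) (nat_lit 0) (nat_lit 1) (nat_lit 0) (nat_lit 1) (nat_lit 0) (nat_lit 257) (nat_lit 464) (nat_lit 359))) (XT.nd (nat_lit 94) (nat_lit 0) (nat_lit 0) (XT.lf (nat_lit 0) (nat_lit 3214362374834) (nat_lit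 0) (nat_lit 0) (nat_lit 0) (nat_lit 0) (nat_lit 0) (nat_lit 0) (nat_lit 1) (nat_lit 0) (nat_lit 1) (nat_lit 0) (nat_lit 258) (nat_lit 464) (nat_lit 358)) (XT.lf (nat_lit 0) (nat_lit 3214294185164) (nat_lit 0) (nat_lit 0) (nat_lit 0) (nat_lit 0) (nat_lit 0) (nat_lit 0) (nat_lit 1) (nat_lit 0) (nat_lit 1) (nat_lit 0) (nat_lit 259) (nat_lit 464) (nat_lit 357)))) (XT.nd (nat_lit 188) (nat_lit 0) (nat_lit 0) (XT.nd (nat_lit 94) (nat_lit 0) (nat_lit 0) (XT.lf (nat_lit 0) (nat_lit 3214231046581) (nat_lit 0) (nat_lit 0) (nat_lit 0) (nat_lit 0) (nat_lit 0) (nat_lit 0) (nat_lit 1) (nat_lit 0) (nat_lit 1) (nat_lit 0) (nat_lit 260) (nat_lit 464) (nat_lit 356)) (XT.lf (nat_lit 0) (nat_lit 3214172584929) (nat_lit 0) (nat_lit 0) (nat_lit 0) (nat_lit 0) (nat_lit 0) (nat_lit 0) (nat_lit 1) (nat_lit 0) (nat_lit 1) (nat_lit 0) (nat_lit 261) (nat_lit 464) (nat_lit 355))) (XT.nd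 (nat_lit 94) (nat_lit 0) (nat_lit 0) (XT.lf (nat_lit 0) (nat_lit 3214118453770) (nat_lit 0) (nat_lit 0) (nat_lit 0) (nat_lit 0) (nat_lit 0) (nat_lit 0) (nat_lit 1) (nat_lit 0) (nat_lit 1) (nat_lit 0) (nat_lit 262) (nat_lit 464) (nat_lit 354)) (XT.nd (nat_lit 94) (nat_lit 0) (nat_lit 0) (XT.lf (nat_lit 0) (nat_lit 3214068332327) (nat_lit 0) (nat_lit 0) (nat_lit 0) (nat_lit 0) (nat_lit 0) (nat_lit 0) (nat_lit 1) (nat_lit 0) (nat_lit 1) (nat_lit 0) (nat_lit 263) (nat_lit 464) (nat_lit 353)) (XT.lf (nat_lit 0) (nat_lit 3214021923583) (nat_lit 0) (nat_lit 0) (nat_lit 0) (nat_lit 0) (nat_lit 0) (nat_lit 0) (nat_lit 1) (nat_lit 0) (nat_lit 1) (nat_lit 0) (nat_lit 264) (nat_lit 464) (nat_lit 352)))))) (XT.nd (nat_lit 376) (nat_lit 0) (nat_lit 0) (XT.nd (nat_lit 188) (nat_lit 0) (nat_lit 0) (XT.nd (nat_lit 94) (nat_lit 0) (nat_lit 0) (XT.lf (nat_lit 0) (nat_lit 3213978952524)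 (nat_lit 0) (nat_lit 0) (nat_lit 0) (nat_lit 0) (nat_lit 0) (nat_lit 0) (nat_lit 1) (nat_lit 0) (nat_lit 1) (nat_lit 0) (nat_lit 265) (nat_lit 464) (nat_lit 351)) (XT.lf (nat_lit 0) (nat_lit 3213939164507) (nat_lit 0) (nat_lit 0) (nat_lit 0) (nat_lit 0) (nat_lit 0) (nat_lit 0) (nat_lit 1) (nat_lit 0) (nat_lit 1) (nat_lit 0) (nat_lit 266) (nat_lit 464) (nat_lit 350))) (XT.nd (nat_lit 94) (nat_lit 0) (nat_lit 0) (XT.lf (nat_lit 0) (nat_lit 3213902323749) (nat_lit 0) (nat_lit 0) (nat_lit 0) (nat_lit 0) (nat_lit 0) (nat_lit 0) (nat_lit 1) (nat_lit 0) (nat_lit 1) (nat_lit 0) (nat_lit 267) (nat_lit 464) (nat_lit 349)) (XT.lf (nat_lit 0) (nat_lit 3213868211937) (nat_lit 0) (nat_lit 0) (nat_lit 0) (nat_lit 0) (nat_lit 0) (nat_lit 0) (nat_lit 1) (nat_lit 0) (nat_lit 1) (nat_lit 0) (nat_lit 268) (nat_lit 464) (nat_lit 348)))) (XT.nd (nat_lit 188) (nat_lit 0) (nat_lit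 0) (XT.nd (nat_lit 94) (nat_lit 0) (nat_lit 0) (XT.lf (nat_lit 0) (nat_lit 3213836626926) (nat_lit 0) (nat_lit 0) (nat_lit 0) (nat_lit 0) (nat_lit 0) (nat_lit 0) (nat_lit 1) (nat_lit 0) (nat_lit 1) (nat_lit 0) (nat_lit 269) (nat_lit 464) (nat_lit 347)) (XT.lf (nat_lit 0) (nat_lit 3213807381545) (nat_lit 0) (nat_lit 0) (nat_lit 0) (nat_lit 0) (nat_lit 0) (nat_lit 0) (nat_lit 1) (nat_lit 0) (nat_lit 1) (nat_lit 0) (nat_lit 270) (nat_lit 464) (nat_lit 346))) (XT.nd (nat_lit 94) (nat_lit 0) (nat_lit 0) (XT.lf (nat_lit 0) (nat_lit 3213780302489) (nat_lit 0) (nat_lit 0) (nat_lit 0) (nat_lit 0) (nat_lit 0) (nat_lit 0) (nat_lit 1) (nat_lit 0) (nat_lit 1) (nat_lit 0) (nat_lit 271) (nat_lit 464) (nat_lit 345)) (XT.nd (nat_lit 94) (nat_lit 0) (nat_lit 0) (XT.lf (nat_lit 0) (nat_lit 3213755229289) (nat_lit 0) (nat_lit 0) (nat_lit 0) (nat_lit 0) (nat_lit 0) (nat_lit 0)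 (nat_lit 1) (nat_lit 0) (nat_lit 1) (nat_lit 0) (nat_lit 272) (nat_lit 464) (nat_lit 344)) (XT.lf (nat_lit 0) (nat_lit 3213732013363) (nat_lit 0) (nat_lit 0) (nat_lit 0) (nat_lit 0) (nat_lit 0) (nat_lit 0) (nat_lit 1) (nat_lit 0) (nat_lit 1) (nat_lit 0) (nat_lit 273) (nat_lit 464) (nat_lit 343))))))) (XT.nd (nat_lit 846) (nat_lit 0) (nat_lit 0) (XT.nd (nat_lit 376) (nat_lit 0) (nat_lit 0) (XT.nd (nat_lit 188) (nat_lit 0) (nat_lit 0) (XT.nd (nat_lit 94) (nat_lit 0) (nat_lit 0) (XT.lf (nat_lit 0) (nat_lit 3213710517135) (nat_lit 0) (nat_lit 0) (nat_lit 0) (nat_lit 0) (nat_lit 0) (nat_lit 0) (nat_lit 1) (nat_lit 0) (nat_lit 1) (nat_lit 0) (nat_lit 274) (nat_lit 464) (nat_lit 342)) (XT.lf (nat_lit 0) (nat_lit 3213690613220) (nat_lit 0) (nat_lit 0) (nat_lit 0) (nat_lit 0) (nat_lit 0) (nat_lit 0) (nat_lit 1) (nat_lit 0) (nat_lit 1) (nat_lit 0) (nat_lit 275) (nat_lit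 464) (nat_lit 341))) (XT.nd (nat_lit 94) (nat_lit 0) (nat_lit 0) (XT.lf (nat_lit 0) (nat_lit 3213672183669) (nat_lit 0) (nat_lit 0) (nat_lit 0) (nat_lit 0) (nat_lit 0) (nat_lit 0) (nat_lit 1) (nat_lit 0) (nat_lit 1) (nat_lit 0) (nat_lit 276) (nat_lit 464) (nat_lit 340)) (XT.lf (nat_lit 0) (nat_lit 3213655119271) (nat_lit 0) (nat_lit 0) (nat_lit 0) (nat_lit 0) (nat_lit 0) (nat_lit 0) (nat_lit 1) (nat_lit 0) (nat_lit 1) (nat_lit 0) (nat_lit 277) (nat_lit 464) (nat_lit 339)))) (XT.nd (nat_lit 188) (nat_lit 0) (nat_lit 0) (XT.nd (nat_lit 94) (nat_lit 0) (nat_lit 0) (XT.lf (nat_lit 0) (nat_lit 3213639318901) (nat_lit 0) (nat_lit 0) (nat_lit 0) (nat_lit 0) (nat_lit 0) (nat_lit 0) (nat_lit 1) (nat_lit 0) (nat_lit 1) (nat_lit 0) (nat_lit 278) (nat_lit 464) (nat_lit 338)) (XT.lf (nat_lit 0) (nat_lit 3213624688930) (nat_lit 0) (nat_lit 0) (nat_lit 0) (nat_lit 0) (nat_lit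 0) (nat_lit 0) (nat_lit 1) (nat_lit 0) (nat_lit 1) (nat_lit 0) (nat_lit 279) (nat_lit 464) (nat_lit 337))) (XT.nd (nat_lit 94) (nat_lit 0) (nat_lit 0) (XT.lf (nat_lit 0) (nat_lit 3213611142660) (nat_lit 0) (nat_lit 0) (nat_lit 0) (nat_lit 0) (nat_lit 0) (nat_lit 0) (nat_lit 1) (nat_lit 0) (nat_lit 1) (nat_lit 0) (nat_lit 280) (nat_lit 464) (nat_lit 336)) (XT.nd (nat_lit 94) (nat_lit 0) (nat_lit 0) (XT.lf (nat_lit 0) (nat_lit 3213598599817) (nat_lit 0) (nat_lit 0) (nat_lit 0) (nat_lit 0) (nat_lit 0) (nat_lit 0) (nat_lit 1) (nat_lit 0) (nat_lit 1) (nat_lit 0) (nat_lit 281) (nat_lit 464) (nat_lit 335)) (XT.lf (nat_lit 0) (nat_lit 3213586986074) (nat_lit 0) (nat_lit 0) (nat_lit 0) (nat_lit 0) (nat_lit 0) (nat_lit 0) (nat_lit 1) (nat_lit 0) (nat_lit 1) (nat_lit 0) (nat_lit 282) (nat_lit 464) (nat_lit 334)))))) (XT.nd (nat_lit 4512) (nat_lit 0) (nat_lit 0) (XT.nd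 (nat_lit 188) (nat_lit 0) (nat_lit 0) (XT.nd (nat_lit 94) (nat_lit 0) (nat_lit 0) (XT.lf (nat_lit 0) (nat_lit 3213576232608) (nat_lit 0) (nat_lit 0) (nat_lit 0) (nat_lit 0) (nat_lit 0) (nat_lit 0) (nat_lit 1) (nat_lit 0) (nat_lit 1) (nat_lit 0) (nat_lit 283) (nat_lit 464) (nat_lit 333)) (XT.lf (nat_lit 0) (nat_lit 3213566275696) (nat_lit 0) (nat_lit 0) (nat_lit 0) (nat_lit 0) (nat_lit 0) (nat_lit 0) (nat_lit 1) (nat_lit 0) (nat_lit 1) (nat_lit 0) (nat_lit 284) (nat_lit 464) (nat_lit 332))) (XT.nd (nat_lit 94) (nat_lit 0) (nat_lit 0) (XT.lf (nat_lit 0) (nat_lit 3213557056332) (nat_lit 0) (nat_lit 0) (nat_lit 0) (nat_lit 0) (nat_lit 0) (nat_lit 0) (nat_lit 1) (nat_lit 0) (nat_lit 1) (nat_lit 0) (nat_lit 285) (nat_lit 464) (nat_lit 331)) (XT.nd (nat_lit 4136) (nat_lit 0) (nat_lit 0) (XT.lf (nat_lit 0) (nat_lit 3213548519884) (nat_lit 0) (nat_lit 0) (nat_lit 0)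 (nat_lit 0) (nat_lit 0) (nat_lit 0) (nat_lit 1) (nat_lit 0) (nat_lit 1) (nat_lit 0) (nat_lit 286) (nat_lit 464) (nat_lit 330)) (XT.lf (nat_lit 0) (nat_lit 3213445424575) (nat_lit 0) (nat_lit 0) (nat_lit 0) (nat_lit 0) (nat_lit 0) (nat_lit 0) (nat_lit 1) (nat_lit 0) (nat_lit 1) (nat_lit 0) (nat_lit 330) (nat_lit 464) (nat_lit 286))))) (XT.nd (nat_lit 188) (nat_lit 0) (nat_lit 0) (XT.nd (nat_lit 94) (nat_lit 0) (nat_lit 0) (XT.lf (nat_lit 0) (nat_lit 3213445157146) (nat_lit 0) (nat_lit 0) (nat_lit 0) (nat_lit 0) (nat_lit 0) (nat_lit 0) (nat_lit 1) (nat_lit 0) (nat_lit 1) (nat_lit 0) (nat_lit 331) (nat_lit 464) (nat_lit 285)) (XT.lf (nat_lit 0) (nat_lit 3213444909527) (nat_lit 0) (nat_lit 0) (nat_lit 0) (nat_lit 0) (nat_lit 0) (nat_lit 0) (nat_lit 1) (nat_lit 0) (nat_lit 1) (nat_lit 0) (nat_lit 332) (nat_lit 464) (nat_lit 284))) (XT.nd (nat_lit 94) (nat_lit 0)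 (nat_lit 0) (XT.lf (nat_lit 0) (nat_lit 3213444680250) (nat_lit 0) (nat_lit 0) (nat_lit 0) (nat_lit 0) (nat_lit 0) (nat_lit 0) (nat_lit 1) (nat_lit 0) (nat_lit 1) (nat_lit 0) (nat_lit 333) (nat_lit 464) (nat_lit 283)) (XT.nd (nat_lit 94) (nat_lit 0) (nat_lit 0) (XT.lf (nat_lit 0) (nat_lit 3213444467956) (nat_lit 0) (nat_lit 0) (nat_lit 0) (nat_lit 0) (nat_lit 0) (nat_lit 0) (nat_lit 1) (nat_lit 0) (nat_lit 1) (nat_lit 0) (nat_lit 334) (nat_lit 464) (nat_lit 282)) (XT.lf (nat_lit 0) (nat_lit 3213444271388) (nat_lit 0) (nat_lit 0) (nat_lit 0) (nat_lit 0) (nat_lit 0) (nat_lit 0) (nat_lit 1) (nat_lit 0) (nat_lit 1) (nat_lit 0) (nat_lit 335) (nat_lit 464) (nat_lit 281))))))))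
noncomputable def ec505 : XT := (XT.nd (nat_lit 1786) (nat_lit 0) (nat_lit 0) (XT.nd (nat_lit 846) (nat_lit 0) (nat_lit 0) (XT.nd (nat_lit 376) (nat_lit 0) (nat_lit 0) (XT.nd (nat_lit 188) (nat_lit 0) (nat_lit 0) (XT.nd (nat_lit 94) (nat_lit 0) (nat_lit 0) (XT.lf (nat_lit 0) (nat_lit 3213444089380) (nat_lit 0) (nat_lit 0) (nat_lit 0) (nat_lit 0) (nat_lit 0) (nat_lit 0) (nat_lit 1) (nat_lit 0) (nat_lit 1) (nat_lit 0) (nat_lit 336) (nat_lit 464) (nat_lit 280)) (XT.lf (nat_lit 0) (nat_lit 3213443920855) (nat_lit 0) (nat_lit 0) (nat_lit 0) (nat_lit 0) (nat_lit 0) (nat_lit 0) (nat_lit 1) (nat_lit 0) (nat_lit 1) (nat_lit 0) (nat_lit 337) (nat_lit 464) (nat_lit 279))) (XT.nd (nat_lit 94) (nat_lit 0) (nat_lit 0) (XT.lf (nat_lit 0) (nat_lit 3213443764813) (nat_lit 0) (nat_lit 0) (nat_lit 0) (nat_lit 0) (nat_lit 0) (nat_lit 0) (nat_lit 1) (nat_lit 0) (nat_lit 1) (nat_lit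 0) (nat_lit 338) (nat_lit 464) (nat_lit 278)) (XT.lf (nat_lit 0) (nat_lit 3213443620329) (nat_lit 0) (nat_lit 0) (nat_lit 0) (nat_lit 0) (nat_lit 0) (nat_lit 0) (nat_lit 1) (nat_lit 0) (nat_lit 1) (nat_lit 0) (nat_lit 339) (nat_lit 464) (nat_lit 277)))) (XT.nd (nat_lit 188) (nat_lit 0) (nat_lit 0) (XT.nd (nat_lit 94) (nat_lit 0) (nat_lit 0) (XT.lf (nat_lit 0) (nat_lit 3213443486548) (nat_lit 0) (nat_lit 0) (nat_lit 0) (nat_lit 0) (nat_lit 0) (nat_lit 0) (nat_lit 1) (nat_lit 0) (nat_lit 1) (nat_lit 0) (nat_lit 340) (nat_lit 464) (nat_lit 276)) (XT.lf (nat_lit 0) (nat_lit 3213443362677) (nat_lit 0) (nat_lit 0) (nat_lit 0) (nat_lit 0) (nat_lit 0) (nat_lit 0) (nat_lit 1) (nat_lit 0) (nat_lit 1) (nat_lit 0) (nat_lit 341) (nat_lit 464) (nat_lit 275))) (XT.nd (nat_lit 94) (nat_lit 0) (nat_lit 0) (XT.lf (nat_lit 0) (nat_lit 3213443247981) (nat_lit 0) (nat_lit 0) (nat_lit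 0) (nat_lit 0) (nat_lit 0) (nat_lit 0) (nat_lit 1) (nat_lit 0) (nat_lit 1) (nat_lit 0) (nat_lit 342) (nat_lit 464) (nat_lit 274)) (XT.nd (nat_lit 94) (nat_lit 0) (nat_lit 0) (XT.lf (nat_lit 0) (nat_lit 3213443141782) (nat_lit 0) (nat_lit 0) (nat_lit 0) (nat_lit 0) (nat_lit 0) (nat_lit 0) (nat_lit 1) (nat_lit 0) (nat_lit 1) (nat_lit 0) (nat_lit 343) (nat_lit 464) (nat_lit 273)) (XT.lf (nat_lit 0) (nat_lit 3213443043449) (nat_lit 0) (nat_lit 0) (nat_lit 0) (nat_lit 0) (nat_lit 0) (nat_lit 0) (nat_lit 1) (nat_lit 0) (nat_lit 1) (nat_lit 0) (nat_lit 344) (nat_lit 464) (nat_lit 272)))))) (XT.nd (nat_lit 470) (nat_lit 0) (nat_lit 0) (XT.nd (nat_lit 188) (nat_lit 0) (nat_lit 0) (XT.nd (nat_lit 94) (nat_lit 0) (nat_lit 0) (XT.lf (nat_lit 0) (nat_lit 3213442952399) (nat_lit 0) (nat_lit 0) (nat_lit 0) (nat_lit 0) (nat_lit 0) (nat_lit 0) (nat_lit 1) (nat_lit 0) (nat_lit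 1) (nat_lit 0) (nat_lit 345) (nat_lit 464) (nat_lit 271)) (XT.lf (nat_lit 0) (nat_lit 3213442868095) (nat_lit 0) (nat_lit 0) (nat_lit 0) (nat_lit 0) (nat_lit 0) (nat_lit 0) (nat_lit 1) (nat_lit 0) (nat_lit 1) (nat_lit 0) (nat_lit 346) (nat_lit 464) (nat_lit 270))) (XT.nd (nat_lit 94) (nat_lit 0) (nat_lit 0) (XT.lf (nat_lit 0) (nat_lit 3213442790035) (nat_lit 0) (nat_lit 0) (nat_lit 0) (nat_lit 0) (nat_lit 0) (nat_lit 0) (nat_lit 1) (nat_lit 0) (nat_lit 1) (nat_lit 0) (nat_lit 347) (nat_lit 464) (nat_lit 269)) (XT.nd (nat_lit 94) (nat_lit 0) (nat_lit 0) (XT.lf (nat_lit 0) (nat_lit 3213442717757) (nat_lit 0) (nat_lit 0) (nat_lit 0) (nat_lit 0) (nat_lit 0) (nat_lit 0) (nat_lit 1) (nat_lit 0) (nat_lit 1) (nat_lit 0) (nat_lit 348) (nat_lit 464) (nat_lit 268)) (XT.lf (nat_lit 0) (nat_lit 3213442650833) (nat_lit 0) (nat_lit 0) (nat_lit 0) (nat_lit 0) (nat_lit 0)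 (nat_lit 0) (nat_lit 1) (nat_lit 0) (nat_lit 1) (nat_lit 0) (nat_lit 349) (nat_lit 464) (nat_lit 267))))) (XT.nd (nat_lit 188) (nat_lit 0) (nat_lit 0) (XT.nd (nat_lit 94) (nat_lit 0) (nat_lit 0) (XT.lf (nat_lit 0) (nat_lit 3213442588867) (nat_lit 0) (nat_lit 0) (nat_lit 0) (nat_lit 0) (nat_lit 0) (nat_lit 0) (nat_lit 1) (nat_lit 0) (nat_lit 1) (nat_lit 0) (nat_lit 350) (nat_lit 464) (nat_lit 266)) (XT.lf (nat_lit 0) (nat_lit 3213442531490) (nat_lit 0) (nat_lit 0) (nat_lit 0) (nat_lit 0) (nat_lit 0) (nat_lit 0) (nat_lit 1) (nat_lit 0) (nat_lit 1) (nat_lit 0) (nat_lit 351) (nat_lit 464) (nat_lit 265))) (XT.nd (nat_lit 94) (nat_lit 0) (nat_lit 0) (XT.lf (nat_lit 0) (nat_lit 3213442478364) (nat_lit 0) (nat_lit 0) (nat_lit 0) (nat_lit 0) (nat_lit 0) (nat_lit 0) (nat_lit 1) (nat_lit 0) (nat_lit 1) (nat_lit 0) (nat_lit 352) (nat_lit 464) (nat_lit 264)) (XT.nd (nat_lit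 94) (nat_lit 0) (nat_lit 0) (XT.lf (nat_lit 0) (nat_lit 3213442429173) (nat_lit 0) (nat_lit 0) (nat_lit 0) (nat_lit 0) (nat_lit 0) (nat_lit 0) (nat_lit 1) (nat_lit 0) (nat_lit 1) (nat_lit 0) (nat_lit 353) (nat_lit 464) (nat_lit 263)) (XT.lf (nat_lit 0) (nat_lit 3213442383626) (nat_lit 0) (nat_lit 0) (nat_lit 0) (nat_lit 0) (nat_lit 0) (nat_lit 0) (nat_lit 1) (nat_lit 0) (nat_lit 1) (nat_lit 0) (nat_lit 354) (nat_lit 464) (nat_lit 262))))))) (XT.nd (nat_lit 846) (nat_lit 0) (nat_lit 0) (XT.nd (nat_lit 376) (nat_lit 0) (nat_lit 0) (XT.nd (nat_lit 188) (nat_lit 0) (nat_lit 0) (XT.nd (nat_lit 94) (nat_lit 0) (nat_lit 0) (XT.lf (nat_lit 0) (nat_lit 3213442341453) (nat_lit 0) (nat_lit 0) (nat_lit 0) (nat_lit 0) (nat_lit 0) (nat_lit 0) (nat_lit 1) (nat_lit 0) (nat_lit 1) (nat_lit 0) (nat_lit 355) (nat_lit 464) (nat_lit 261)) (XT.lf (nat_lit 0) (nat_lit 3213442302403)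 (nat_lit 0) (nat_lit 0) (nat_lit 0) (nat_lit 0) (nat_lit 0) (nat_lit 0) (nat_lit 1) (nat_lit 0) (nat_lit 1) (nat_lit 0) (nat_lit 356) (nat_lit 464) (nat_lit 260))) (XT.nd (nat_lit 94) (nat_lit 0) (nat_lit 0) (XT.lf (nat_lit 0) (nat_lit 3213442266246) (nat_lit 0) (nat_lit 0) (nat_lit 0) (nat_lit 0) (nat_lit 0) (nat_lit 0) (nat_lit 1) (nat_lit 0) (nat_lit 1) (nat_lit 0) (nat_lit 357) (nat_lit 464) (nat_lit 259)) (XT.lf (nat_lit 0) (nat_lit 3213442232768) (nat_lit 0) (nat_lit 0) (nat_lit 0) (nat_lit 0) (nat_lit 0) (nat_lit 0) (nat_lit 1) (nat_lit 0) (nat_lit 1) (nat_lit 0) (nat_lit 358) (nat_lit 464) (nat_lit 258)))) (XT.nd (nat_lit 188) (nat_lit 0) (nat_lit 0) (XT.nd (nat_lit 94) (nat_lit 0) (nat_lit 0) (XT.lf (nat_lit 0) (nat_lit 3213442201769) (nat_lit 0) (nat_lit 0) (nat_lit 0) (nat_lit 0) (nat_lit 0) (nat_lit 0) (nat_lit 1) (nat_lit 0) (nat_lit 1) (nat_lit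 0) (nat_lit 359) (nat_lit 464) (nat_lit 257)) (XT.lf (nat_lit 0) (nat_lit 3213442173067) (nat_lit 0) (nat_lit 0) (nat_lit 0) (nat_lit 0) (nat_lit 0) (nat_lit 0) (nat_lit 1) (nat_lit 0) (nat_lit 1) (nat_lit 0) (nat_lit 360) (nat_lit 464) (nat_lit 256))) (XT.nd (nat_lit 94) (nat_lit 0) (nat_lit 0) (XT.lf (nat_lit 0) (nat_lit 3213442146490) (nat_lit 0) (nat_lit 0) (nat_lit 0) (nat_lit 0) (nat_lit 0) (nat_lit 0) (nat_lit 1) (nat_lit 0) (nat_lit 1) (nat_lit 0) (nat_lit 361) (nat_lit 464) (nat_lit 255)) (XT.nd (nat_lit 94) (nat_lit 0) (nat_lit 0) (XT.lf (nat_lit 0) (nat_lit 3213442121883) (nat_lit 0) (nat_lit 0) (nat_lit 0) (nat_lit 0) (nat_lit 0) (nat_lit 0) (nat_lit 1) (nat_lit 0) (nat_lit 1) (nat_lit 0) (nat_lit 362) (nat_lit 464) (nat_lit 254)) (XT.lf (nat_lit 0) (nat_lit 3213442099098) (nat_lit 0) (nat_lit 0) (nat_lit 0) (nat_lit 0) (nat_lit 0) (nat_lit 0)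 (nat_lit 1) (nat_lit 0) (nat_lit 1) (nat_lit 0) (nat_lit 363) (nat_lit 464) (nat_lit 253)))))) (XT.nd (nat_lit 470) (nat_lit 0) (nat_lit 0) (XT.nd (nat_lit 188) (nat_lit 0) (nat_lit 0) (XT.nd (nat_lit 94) (nat_lit 0) (nat_lit 0) (XT.lf (nat_lit 0) (nat_lit 3213442078000) (nat_lit 0) (nat_lit 0) (nat_lit 0) (nat_lit 0) (nat_lit 0) (nat_lit 0) (nat_lit 1) (nat_lit 0) (nat_lit 1) (nat_lit 0) (nat_lit 364) (nat_lit 464) (nat_lit 252)) (XT.lf (nat_lit 0) (nat_lit 3213442058466) (nat_lit 0) (nat_lit 0) (nat_lit 0) (nat_lit 0) (nat_lit 0) (nat_lit 0) (nat_lit 1) (nat_lit 0) (nat_lit 1) (nat_lit 0) (nat_lit 365) (nat_lit 464) (nat_lit 251))) (XT.nd (nat_lit 94) (nat_lit 0) (nat_lit 0) (XT.lf (nat_lit 0) (nat_lit 3213442040379) (nat_lit 0) (nat_lit 0) (nat_lit 0) (nat_lit 0) (nat_lit 0) (nat_lit 0) (nat_lit 1) (nat_lit 0) (nat_lit 1) (nat_lit 0) (nat_lit 366) (nat_lit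 464) (nat_lit 250)) (XT.nd (nat_lit 94) (nat_lit 0) (nat_lit 0) (XT.lf (nat_lit 0) (nat_lit 3213442023631) (nat_lit 0) (nat_lit 0) (nat_lit 0) (nat_lit 0) (nat_lit 0) (nat_lit 0) (nat_lit 1) (nat_lit 0) (nat_lit 1) (nat_lit 0) (nat_lit 367) (nat_lit 464) (nat_lit 249)) (XT.lf (nat_lit 0) (nat_lit 3213442008124) (nat_lit 0) (nat_lit 0) (nat_lit 0) (nat_lit 0) (nat_lit 0) (nat_lit 0) (nat_lit 1) (nat_lit 0) (nat_lit 1) (nat_lit 0) (nat_lit 368) (nat_lit 464) (nat_lit 248))))) (XT.nd (nat_lit 188) (nat_lit 0) (nat_lit 0) (XT.nd (nat_lit 94) (nat_lit 0) (nat_lit 0) (XT.lf (nat_lit 0) (nat_lit 3213441993766) (nat_lit 0) (nat_lit 0) (nat_lit 0) (nat_lit 0) (nat_lit 0) (nat_lit 0) (nat_lit 1) (nat_lit 0) (nat_lit 1) (nat_lit 0) (nat_lit 369) (nat_lit 464) (nat_lit 247)) (XT.lf (nat_lit 0) (nat_lit 3213441980471) (nat_lit 0) (nat_lit 0) (nat_lit 0) (nat_lit 0) (nat_lit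 0) (nat_lit 0) (nat_lit 1) (nat_lit 0) (nat_lit 1) (nat_lit 0) (nat_lit 370) (nat_lit 464) (nat_lit 246))) (XT.nd (nat_lit 94) (nat_lit 0) (nat_lit 0) (XT.lf (nat_lit 0) (nat_lit 3213441968161) (nat_lit 0) (nat_lit 0) (nat_lit 0) (nat_lit 0) (nat_lit 0) (nat_lit 0) (nat_lit 1) (nat_lit 0) (nat_lit 1) (nat_lit 0) (nat_lit 371) (nat_lit 464) (nat_lit 245)) (XT.nd (nat_lit 94) (nat_lit 0) (nat_lit 0) (XT.lf (nat_lit 0) (nat_lit 3213441956763) (nat_lit 0) (nat_lit 0) (nat_lit 0) (nat_lit 0) (nat_lit 0) (nat_lit 0) (nat_lit 1) (nat_lit 0) (nat_lit 1) (nat_lit 0) (nat_lit 372) (nat_lit 464) (nat_lit 244)) (XT.lf (nat_lit 0) (nat_lit 3213441946209) (nat_lit 0) (nat_lit 0) (nat_lit 0) (nat_lit 0) (nat_lit 0) (nat_lit 0) (nat_lit 1) (nat_lit 0) (nat_lit 1) (nat_lit 0) (nat_lit 373) (nat_lit 464) (nat_lit 243))))))))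
noncomputable def ec506 : XT := (XT.nd (nat_lit 55742) (nat_lit 0) (nat_lit 0) (XT.nd (nat_lit 8460) (nat_lit 0) (nat_lit 0) (XT.nd (nat_lit 376) (nat_lit 0) (nat_lit 0) (XT.nd (nat_lit 188) (nat_lit 0) (nat_lit 0) (XT.nd (nat_lit 94) (nat_lit 0) (nat_lit 0) (XT.lf (nat_lit 0) (nat_lit 3213441936437) (nat_lit 0) (nat_lit 0) (nat_lit 0) (nat_lit 0) (nat_lit 0) (nat_lit 0) (nat_lit 1) (nat_lit 0) (nat_lit 1) (nat_lit 0) (nat_lit 374) (nat_lit 464) (nat_lit 242)) (XT.lf (nat_lit 0) (nat_lit 3213441927388) (nat_lit 0) (nat_lit 0) (nat_lit 0) (nat_lit 0) (nat_lit 0) (nat_lit 0) (nat_lit 1) (nat_lit 0) (nat_lit 1) (nat_lit 0) (nat_lit 375) (nat_lit 464) (nat_lit 241))) (XT.nd (nat_lit 94) (nat_lit 0) (nat_lit 0) (XT.lf (nat_lit 0) (nat_lit 3213441919011) (nat_lit 0) (nat_lit 0) (nat_lit 0) (nat_lit 0) (nat_lit 0) (nat_lit 0) (nat_lit 1) (nat_lit 0) (nat_lit 1) (nat_lit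 0) (nat_lit 376) (nat_lit 464) (nat_lit 240)) (XT.lf (nat_lit 0) (nat_lit 3213441911253) (nat_lit 0) (nat_lit 0) (nat_lit 0) (nat_lit 0) (nat_lit 0) (nat_lit 0) (nat_lit 1) (nat_lit 0) (nat_lit 1) (nat_lit 0) (nat_lit 377) (nat_lit 464) (nat_lit 239)))) (XT.nd (nat_lit 188) (nat_lit 0) (nat_lit 0) (XT.nd (nat_lit 94) (nat_lit 0) (nat_lit 0) (XT.lf (nat_lit 0) (nat_lit 3213441904070) (nat_lit 0) (nat_lit 0) (nat_lit 0) (nat_lit 0) (nat_lit 0) (nat_lit 0) (nat_lit 1) (nat_lit 0) (nat_lit 1) (nat_lit 0) (nat_lit 378) (nat_lit 464) (nat_lit 238)) (XT.lf (nat_lit 0) (nat_lit 3213441897420) (nat_lit 0) (nat_lit 0) (nat_lit 0) (nat_lit 0) (nat_lit 0) (nat_lit 0) (nat_lit 1) (nat_lit 0) (nat_lit 1) (nat_lit 0) (nat_lit 379) (nat_lit 464) (nat_lit 237))) (XT.nd (nat_lit 7708) (nat_lit 0) (nat_lit 0) (XT.lf (nat_lit 0) (nat_lit 3213441891262) (nat_lit 0) (nat_lit 0)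 (nat_lit 0) (nat_lit 0) (nat_lit 0) (nat_lit 0) (nat_lit 1) (nat_lit 0) (nat_lit 1) (nat_lit 0) (nat_lit 380) (nat_lit 464) (nat_lit 236)) (XT.nd (nat_lit 94) (nat_lit 0) (nat_lit 0) (XT.lf (nat_lit 0) (nat_lit 3213441814426) (nat_lit 0) (nat_lit 0) (nat_lit 0) (nat_lit 0) (nat_lit 0) (nat_lit 0) (nat_lit 1) (nat_lit 0) (nat_lit 1) (nat_lit 0) (nat_lit 462) (nat_lit 464) (nat_lit 154)) (XT.lf (nat_lit 0) (nat_lit 3213441814415) (nat_lit 0) (nat_lit 0) (nat_lit 0) (nat_lit 0) (nat_lit 0) (nat_lit 0) (nat_lit 1) (nat_lit 0) (nat_lit 1) (nat_lit 0) (nat_lit 463) (nat_lit 464) (nat_lit 153)))))) (XT.nd (nat_lit 38352) (nat_lit 0) (nat_lit 0) (XT.nd (nat_lit 188) (nat_lit 0) (nat_lit 0) (XT.nd (nat_lit 94) (nat_lit 0) (nat_lit 0) (XT.lf (nat_lit 0) (nat_lit 3213441814406) (nat_lit 0) (nat_lit 0) (nat_lit 0) (nat_lit 0) (nat_lit 0) (nat_lit 0) (nat_lit 1) (nat_lit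 0) (nat_lit 1) (nat_lit 0) (nat_lit 464) (nat_lit 464) (nat_lit 152)) (XT.lf (nat_lit 0) (nat_lit 3213441814397) (nat_lit 0) (nat_lit 0) (nat_lit 0) (nat_lit 0) (nat_lit 0) (nat_lit 0) (nat_lit 1) (nat_lit 0) (nat_lit 1) (nat_lit 0) (nat_lit 465) (nat_lit 464) (nat_lit 151))) (XT.nd (nat_lit 38070) (nat_lit 0) (nat_lit 10752) (XT.lf (nat_lit 0) (nat_lit 3213441814389) (nat_lit 0) (nat_lit 0) (nat_lit 0) (nat_lit 0) (nat_lit 0) (nat_lit 0) (nat_lit 1) (nat_lit 0) (nat_lit 1) (nat_lit 0) (nat_lit 466) (nat_lit 464) (nat_lit 150)) (XT.lf (nat_lit 924) (nat_lit 1736776783824) (nat_lit 0) (nat_lit 3083643187538) (nat_lit 924) (nat_lit 1736776783824) (nat_lit 139) (nat_lit 1) (nat_lit 128) (nat_lit 0) (nat_lit 139) (nat_lit 0) (nat_lit 150) (nat_lit 465) (nat_lit 465)))) (XT.nd (nat_lit 8648) (nat_lit 10836) (nat_lit 0) (XT.nd (nat_lit 94) (nat_lit 0) (nat_lit 0)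 (XT.lf (nat_lit 924) (nat_lit 647871031862) (nat_lit 0) (nat_lit 6054126156214) (nat_lit 840) (nat_lit 5920915154385) (nat_lit 140) (nat_lit 1) (nat_lit 129) (nat_lit 1) (nat_lit 139) (nat_lit 1) (nat_lit 151) (nat_lit 465) (nat_lit 464)) (XT.lf (nat_lit 924) (nat_lit 5950321471091) (nat_lit 84) (nat_lit 4054450327527) (nat_lit 0) (nat_lit 2150295505505) (nat_lit 140) (nat_lit 1) (nat_lit 130) (nat_lit 1) (nat_lit 129) (nat_lit 1) (nat_lit 152) (nat_lit 465) (nat_lit 463))) (XT.nd (nat_lit 94) (nat_lit 0) (nat_lit 0) (XT.lf (nat_lit 0) (nat_lit 3473221024003) (nat_lit 0) (nat_lit 0) (nat_lit 0) (nat_lit 0) (nat_lit 0) (nat_lit 0) (nat_lit 1) (nat_lit 0) (nat_lit 1) (nat_lit 0) (nat_lit 243) (nat_lit 465) (nat_lit 372)) (XT.nd (nat_lit 94) (nat_lit 0) (nat_lit 0) (XT.lf (nat_lit 0) (nat_lit 3473020737738) (nat_lit 0) (nat_lit 0) (nat_lit 0) (nat_lit 0) (nat_lit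 0) (nat_lit 0) (nat_lit 1) (nat_lit 0) (nat_lit 1) (nat_lit 0) (nat_lit 244) (nat_lit 465) (nat_lit 371)) (XT.lf (nat_lit 0) (nat_lit 3472835287493) (nat_lit 0) (nat_lit 0) (nat_lit 0) (nat_lit 0) (nat_lit 0) (nat_lit 0) (nat_lit 1) (nat_lit 0) (nat_lit 1) (nat_lit 0) (nat_lit 245) (nat_lit 465) (nat_lit 370))))))) (XT.nd (nat_lit 846) (nat_lit 0) (nat_lit 0) (XT.nd (nat_lit 376) (nat_lit 0) (nat_lit 0) (XT.nd (nat_lit 188) (nat_lit 0) (nat_lit 0) (XT.nd (nat_lit 94) (nat_lit 0) (nat_lit 0) (XT.lf (nat_lit 0) (nat_lit 3472663574303) (nat_lit 0) (nat_lit 0) (nat_lit 0) (nat_lit 0) (nat_lit 0) (nat_lit 0) (nat_lit 1) (nat_lit 0) (nat_lit 1) (nat_lit 0) (nat_lit 246) (nat_lit 465) (nat_lit 369)) (XT.lf (nat_lit 0) (nat_lit 3472504580609) (nat_lit 0) (nat_lit 0) (nat_lit 0) (nat_lit 0) (nat_lit 0) (nat_lit 0) (nat_lit 1) (nat_lit 0) (nat_lit 1) (nat_lit 0) (nat_lit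 247) (nat_lit 465) (nat_lit 368))) (XT.nd (nat_lit 94) (nat_lit 0) (nat_lit 0) (XT.lf (nat_lit 0) (nat_lit 3472357364225) (nat_lit 0) (nat_lit 0) (nat_lit 0) (nat_lit 0) (nat_lit 0) (nat_lit 0) (nat_lit 1) (nat_lit 0) (nat_lit 1) (nat_lit 0) (nat_lit 248) (nat_lit 465) (nat_lit 367)) (XT.lf (nat_lit 0) (nat_lit 3472221052759) (nat_lit 0) (nat_lit 0) (nat_lit 0) (nat_lit 0) (nat_lit 0) (nat_lit 0) (nat_lit 1) (nat_lit 0) (nat_lit 1) (nat_lit 0) (nat_lit 249) (nat_lit 465) (nat_lit 366)))) (XT.nd (nat_lit 188) (nat_lit 0) (nat_lit 0) (XT.nd (nat_lit 94) (nat_lit 0) (nat_lit 0) (XT.lf (nat_lit 0) (nat_lit 3472094838438) (nat_lit 0) (nat_lit 0) (nat_lit 0) (nat_lit 0) (nat_lit 0) (nat_lit 0) (nat_lit 1) (nat_lit 0) (nat_lit 1) (nat_lit 0) (nat_lit 250) (nat_lit 465) (nat_lit 365)) (XT.lf (nat_lit 0) (nat_lit 3471977973326) (nat_lit 0) (nat_lit 0) (nat_lit 0) (nat_lit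 0) (nat_lit 0) (nat_lit 0) (nat_lit 1) (nat_lit 0) (nat_lit 1) (nat_lit 0) (nat_lit 251) (nat_lit 465) (nat_lit 364))) (XT.nd (nat_lit 94) (nat_lit 0) (nat_lit 0) (XT.lf (nat_lit 0) (nat_lit 3471869764889) (nat_lit 0) (nat_lit 0) (nat_lit 0) (nat_lit 0) (nat_lit 0) (nat_lit 0) (nat_lit 1) (nat_lit 0) (nat_lit 1) (nat_lit 0) (nat_lit 252) (nat_lit 465) (nat_lit 363)) (XT.nd (nat_lit 94) (nat_lit 0) (nat_lit 0) (XT.lf (nat_lit 0) (nat_lit 3471769571892) (nat_lit 0) (nat_lit 0) (nat_lit 0) (nat_lit 0) (nat_lit 0) (nat_lit 0) (nat_lit 1) (nat_lit 0) (nat_lit 1) (nat_lit 0) (nat_lit 253) (nat_lit 465) (nat_lit 362)) (XT.lf (nat_lit 0) (nat_lit 3471676800599) (nat_lit 0) (nat_lit 0) (nat_lit 0) (nat_lit 0) (nat_lit 0) (nat_lit 0) (nat_lit 1) (nat_lit 0) (nat_lit 1) (nat_lit 0) (nat_lit 254) (nat_lit 465) (nat_lit 361)))))) (XT.nd (nat_lit 470) (nat_lit 0) (nat_lit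 0) (XT.nd (nat_lit 188) (nat_lit 0) (nat_lit 0) (XT.nd (nat_lit 94) (nat_lit 0) (nat_lit 0) (XT.lf (nat_lit 0) (nat_lit 3471590901253) (nat_lit 0) (nat_lit 0) (nat_lit 0) (nat_lit 0) (nat_lit 0) (nat_lit 0) (nat_lit 1) (nat_lit 0) (nat_lit 1) (nat_lit 0) (nat_lit 255) (nat_lit 465) (nat_lit 360)) (XT.lf (nat_lit 0) (nat_lit 3471511364821) (nat_lit 0) (nat_lit 0) (nat_lit 0) (nat_lit 0) (nat_lit 0) (nat_lit 0) (nat_lit 1) (nat_lit 0) (nat_lit 1) (nat_lit 0) (nat_lit 256) (nat_lit 465) (nat_lit 359))) (XT.nd (nat_lit 94) (nat_lit 0) (nat_lit 0) (XT.lf (nat_lit 0) (nat_lit 3471437719977) (nat_lit 0) (nat_lit 0) (nat_lit 0) (nat_lit 0) (nat_lit 0) (nat_lit 0) (nat_lit 1) (nat_lit 0) (nat_lit 1) (nat_lit 0) (nat_lit 257) (nat_lit 465) (nat_lit 358)) (XT.nd (nat_lit 94) (nat_lit 0) (nat_lit 0) (XT.lf (nat_lit 0) (nat_lit 3471369530307) (nat_lit 0) (nat_lit 0) (nat_lit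 0) (nat_lit 0) (nat_lit 0) (nat_lit 0) (nat_lit 1) (nat_lit 0) (nat_lit 1) (nat_lit 0) (nat_lit 258) (nat_lit 465) (nat_lit 357)) (XT.lf (nat_lit 0) (nat_lit 3471306391724) (nat_lit 0) (nat_lit 0) (nat_lit 0) (nat_lit 0) (nat_lit 0) (nat_lit 0) (nat_lit 1) (nat_lit 0) (nat_lit 1) (nat_lit 0) (nat_lit 259) (nat_lit 465) (nat_lit 356))))) (XT.nd (nat_lit 188) (nat_lit 0) (nat_lit 0) (XT.nd (nat_lit 94) (nat_lit 0) (nat_lit 0) (XT.lf (nat_lit 0) (nat_lit 3471247930072) (nat_lit 0) (nat_lit 0) (nat_lit 0) (nat_lit 0) (nat_lit 0) (nat_lit 0) (nat_lit 1) (nat_lit 0) (nat_lit 1) (nat_lit 0) (nat_lit 260) (nat_lit 465) (nat_lit 355)) (XT.lf (nat_lit 0) (nat_lit 3471193798913) (nat_lit 0) (nat_lit 0) (nat_lit 0) (nat_lit 0) (nat_lit 0) (nat_lit 0) (nat_lit 1) (nat_lit 0) (nat_lit 1) (nat_lit 0) (nat_lit 261) (nat_lit 465) (nat_lit 354))) (XT.nd (nat_lit 94) (nat_lit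 0) (nat_lit 0) (XT.lf (nat_lit 0) (nat_lit 3471143677470) (nat_lit 0) (nat_lit 0) (nat_lit 0) (nat_lit 0) (nat_lit 0) (nat_lit 0) (nat_lit 1) (nat_lit 0) (nat_lit 1) (nat_lit 0) (nat_lit 262) (nat_lit 465) (nat_lit 353)) (XT.nd (nat_lit 94) (nat_lit 0) (nat_lit 0) (XT.lf (nat_lit 0) (nat_lit 3471097268726) (nat_lit 0) (nat_lit 0) (nat_lit 0) (nat_lit 0) (nat_lit 0) (nat_lit 0) (nat_lit 1) (nat_lit 0) (nat_lit 1) (nat_lit 0) (nat_lit 263) (nat_lit 465) (nat_lit 352)) (XT.lf (nat_lit 0) (nat_lit 3471054297667) (nat_lit 0) (nat_lit 0) (nat_lit 0) (nat_lit 0) (nat_lit 0) (nat_lit 0) (nat_lit 1) (nat_lit 0) (nat_lit 1) (nat_lit 0) (nat_lit 264) (nat_lit 465) (nat_lit 351))))))))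
noncomputable def ec507 : XT := (XT.nd (nat_lit 6298) (nat_lit 0) (nat_lit 0) (XT.nd (nat_lit 846) (nat_lit 0) (nat_lit 0) (XT.nd (nat_lit 376) (nat_lit 0) (nat_lit 0) (XT.nd (nat_lit 188) (nat_lit 0) (nat_lit 0) (XT.nd (nat_lit 94) (nat_lit 0) (nat_lit 0) (XT.lf (nat_lit 0) (nat_lit 3471014509649) (nat_lit 0) (nat_lit 0) (nat_lit 0) (nat_lit 0) (nat_lit 0) (nat_lit 0) (nat_lit 1) (nat_lit 0) (nat_lit 1) (nat_lit 0) (nat_lit 265) (nat_lit 465) (nat_lit 350)) (XT.lf (nat_lit 0) (nat_lit 3470977668892) (nat_lit 0) (nat_lit 0) (nat_lit 0) (nat_lit 0) (nat_lit 0) (nat_lit 0) (nat_lit 1) (nat_lit 0) (nat_lit 1) (nat_lit 0) (nat_lit 266) (nat_lit 465) (nat_lit 349))) (XT.nd (nat_lit 94) (nat_lit 0) (nat_lit 0) (XT.lf (nat_lit 0) (nat_lit 3470943557080) (nat_lit 0) (nat_lit 0) (nat_lit 0) (nat_lit 0) (nat_lit 0) (nat_lit 0) (nat_lit 1) (nat_lit 0) (nat_lit 1) (nat_lit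 0) (nat_lit 267) (nat_lit 465) (nat_lit 348)) (XT.lf (nat_lit 0) (nat_lit 3470911972069) (nat_lit 0) (nat_lit 0) (nat_lit 0) (nat_lit 0) (nat_lit 0) (nat_lit 0) (nat_lit 1) (nat_lit 0) (nat_lit 1) (nat_lit 0) (nat_lit 268) (nat_lit 465) (nat_lit 347)))) (XT.nd (nat_lit 188) (nat_lit 0) (nat_lit 0) (XT.nd (nat_lit 94) (nat_lit 0) (nat_lit 0) (XT.lf (nat_lit 0) (nat_lit 3470882726688) (nat_lit 0) (nat_lit 0) (nat_lit 0) (nat_lit 0) (nat_lit 0) (nat_lit 0) (nat_lit 1) (nat_lit 0) (nat_lit 1) (nat_lit 0) (nat_lit 269) (nat_lit 465) (nat_lit 346)) (XT.lf (nat_lit 0) (nat_lit 3470855647632) (nat_lit 0) (nat_lit 0) (nat_lit 0) (nat_lit 0) (nat_lit 0) (nat_lit 0) (nat_lit 1) (nat_lit 0) (nat_lit 1) (nat_lit 0) (nat_lit 270) (nat_lit 465) (nat_lit 345))) (XT.nd (nat_lit 94) (nat_lit 0) (nat_lit 0) (XT.lf (nat_lit 0) (nat_lit 3470830574432) (nat_lit 0) (nat_lit 0) (nat_lit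 0) (nat_lit 0) (nat_lit 0) (nat_lit 0) (nat_lit 1) (nat_lit 0) (nat_lit 1) (nat_lit 0) (nat_lit 271) (nat_lit 465) (nat_lit 344)) (XT.nd (nat_lit 94) (nat_lit 0) (nat_lit 0) (XT.lf (nat_lit 0) (nat_lit 3470807358506) (nat_lit 0) (nat_lit 0) (nat_lit 0) (nat_lit 0) (nat_lit 0) (nat_lit 0) (nat_lit 1) (nat_lit 0) (nat_lit 1) (nat_lit 0) (nat_lit 272) (nat_lit 465) (nat_lit 343)) (XT.lf (nat_lit 0) (nat_lit 3470785862278) (nat_lit 0) (nat_lit 0) (nat_lit 0) (nat_lit 0) (nat_lit 0) (nat_lit 0) (nat_lit 1) (nat_lit 0) (nat_lit 1) (nat_lit 0) (nat_lit 273) (nat_lit 465) (nat_lit 342)))))) (XT.nd (nat_lit 470) (nat_lit 0) (nat_lit 0) (XT.nd (nat_lit 188) (nat_lit 0) (nat_lit 0) (XT.nd (nat_lit 94) (nat_lit 0) (nat_lit 0) (XT.lf (nat_lit 0) (nat_lit 3470765958363) (nat_lit 0) (nat_lit 0) (nat_lit 0) (nat_lit 0) (nat_lit 0) (nat_lit 0) (nat_lit 1) (nat_lit 0) (nat_lit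 1) (nat_lit 0) (nat_lit 274) (nat_lit 465) (nat_lit 341)) (XT.lf (nat_lit 0) (nat_lit 3470747528812) (nat_lit 0) (nat_lit 0) (nat_lit 0) (nat_lit 0) (nat_lit 0) (nat_lit 0) (nat_lit 1) (nat_lit 0) (nat_lit 1) (nat_lit 0) (nat_lit 275) (nat_lit 465) (nat_lit 340))) (XT.nd (nat_lit 94) (nat_lit 0) (nat_lit 0) (XT.lf (nat_lit 0) (nat_lit 3470730464413) (nat_lit 0) (nat_lit 0) (nat_lit 0) (nat_lit 0) (nat_lit 0) (nat_lit 0) (nat_lit 1) (nat_lit 0) (nat_lit 1) (nat_lit 0) (nat_lit 276) (nat_lit 465) (nat_lit 339)) (XT.nd (nat_lit 94) (nat_lit 0) (nat_lit 0) (XT.lf (nat_lit 0) (nat_lit 3470714664044) (nat_lit 0) (nat_lit 0) (nat_lit 0) (nat_lit 0) (nat_lit 0) (nat_lit 0) (nat_lit 1) (nat_lit 0) (nat_lit 1) (nat_lit 0) (nat_lit 277) (nat_lit 465) (nat_lit 338)) (XT.lf (nat_lit 0) (nat_lit 3470700034073) (nat_lit 0) (nat_lit 0) (nat_lit 0) (nat_lit 0) (nat_lit 0)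 (nat_lit 0) (nat_lit 1) (nat_lit 0) (nat_lit 1) (nat_lit 0) (nat_lit 278) (nat_lit 465) (nat_lit 337))))) (XT.nd (nat_lit 188) (nat_lit 0) (nat_lit 0) (XT.nd (nat_lit 94) (nat_lit 0) (nat_lit 0) (XT.lf (nat_lit 0) (nat_lit 3470686487803) (nat_lit 0) (nat_lit 0) (nat_lit 0) (nat_lit 0) (nat_lit 0) (nat_lit 0) (nat_lit 1) (nat_lit 0) (nat_lit 1) (nat_lit 0) (nat_lit 279) (nat_lit 465) (nat_lit 336)) (XT.lf (nat_lit 0) (nat_lit 3470673944960) (nat_lit 0) (nat_lit 0) (nat_lit 0) (nat_lit 0) (nat_lit 0) (nat_lit 0) (nat_lit 1) (nat_lit 0) (nat_lit 1) (nat_lit 0) (nat_lit 280) (nat_lit 465) (nat_lit 335))) (XT.nd (nat_lit 94) (nat_lit 0) (nat_lit 0) (XT.lf (nat_lit 0) (nat_lit 3470662331217) (nat_lit 0) (nat_lit 0) (nat_lit 0) (nat_lit 0) (nat_lit 0) (nat_lit 0) (nat_lit 1) (nat_lit 0) (nat_lit 1) (nat_lit 0) (nat_lit 281) (nat_lit 465) (nat_lit 334)) (XT.nd (nat_lit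 94) (nat_lit 0) (nat_lit 0) (XT.lf (nat_lit 0) (nat_lit 3470651577751) (nat_lit 0) (nat_lit 0) (nat_lit 0) (nat_lit 0) (nat_lit 0) (nat_lit 0) (nat_lit 1) (nat_lit 0) (nat_lit 1) (nat_lit 0) (nat_lit 282) (nat_lit 465) (nat_lit 333)) (XT.lf (nat_lit 0) (nat_lit 3470641620839) (nat_lit 0) (nat_lit 0) (nat_lit 0) (nat_lit 0) (nat_lit 0) (nat_lit 0) (nat_lit 1) (nat_lit 0) (nat_lit 1) (nat_lit 0) (nat_lit 283) (nat_lit 465) (nat_lit 332))))))) (XT.nd (nat_lit 846) (nat_lit 0) (nat_lit 0) (XT.nd (nat_lit 376) (nat_lit 0) (nat_lit 0) (XT.nd (nat_lit 188) (nat_lit 0) (nat_lit 0) (XT.nd (nat_lit 94) (nat_lit 0) (nat_lit 0) (XT.lf (nat_lit 0) (nat_lit 3470520025392) (nat_lit 0) (nat_lit 0) (nat_lit 0) (nat_lit 0) (nat_lit 0) (nat_lit 0) (nat_lit 1) (nat_lit 0) (nat_lit 1) (nat_lit 0) (nat_lit 332) (nat_lit 465) (nat_lit 283)) (XT.lf (nat_lit 0) (nat_lit 3470519813099)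 (nat_lit 0) (nat_lit 0) (nat_lit 0) (nat_lit 0) (nat_lit 0) (nat_lit 0) (nat_lit 1) (nat_lit 0) (nat_lit 1) (nat_lit 0) (nat_lit 333) (nat_lit 465) (nat_lit 282))) (XT.nd (nat_lit 94) (nat_lit 0) (nat_lit 0) (XT.lf (nat_lit 0) (nat_lit 3470519616531) (nat_lit 0) (nat_lit 0) (nat_lit 0) (nat_lit 0) (nat_lit 0) (nat_lit 0) (nat_lit 1) (nat_lit 0) (nat_lit 1) (nat_lit 0) (nat_lit 334) (nat_lit 465) (nat_lit 281)) (XT.lf (nat_lit 0) (nat_lit 3470519434523) (nat_lit 0) (nat_lit 0) (nat_lit 0) (nat_lit 0) (nat_lit 0) (nat_lit 0) (nat_lit 1) (nat_lit 0) (nat_lit 1) (nat_lit 0) (nat_lit 335) (nat_lit 465) (nat_lit 280)))) (XT.nd (nat_lit 188) (nat_lit 0) (nat_lit 0) (XT.nd (nat_lit 94) (nat_lit 0) (nat_lit 0) (XT.lf (nat_lit 0) (nat_lit 3470519265998) (nat_lit 0) (nat_lit 0) (nat_lit 0) (nat_lit 0) (nat_lit 0) (nat_lit 0) (nat_lit 1) (nat_lit 0) (nat_lit 1) (nat_lit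 0) (nat_lit 336) (nat_lit 465) (nat_lit 279)) (XT.lf (nat_lit 0) (nat_lit 3470519109955) (nat_lit 0) (nat_lit 0) (nat_lit 0) (nat_lit 0) (nat_lit 0) (nat_lit 0) (nat_lit 1) (nat_lit 0) (nat_lit 1) (nat_lit 0) (nat_lit 337) (nat_lit 465) (nat_lit 278))) (XT.nd (nat_lit 94) (nat_lit 0) (nat_lit 0) (XT.lf (nat_lit 0) (nat_lit 3470518965472) (nat_lit 0) (nat_lit 0) (nat_lit 0) (nat_lit 0) (nat_lit 0) (nat_lit 0) (nat_lit 1) (nat_lit 0) (nat_lit 1) (nat_lit 0) (nat_lit 338) (nat_lit 465) (nat_lit 277)) (XT.nd (nat_lit 94) (nat_lit 0) (nat_lit 0) (XT.lf (nat_lit 0) (nat_lit 3470518831691) (nat_lit 0) (nat_lit 0) (nat_lit 0) (nat_lit 0) (nat_lit 0) (nat_lit 0) (nat_lit 1) (nat_lit 0) (nat_lit 1) (nat_lit 0) (nat_lit 339) (nat_lit 465) (nat_lit 276)) (XT.lf (nat_lit 0) (nat_lit 3470518707820) (nat_lit 0) (nat_lit 0) (nat_lit 0) (nat_lit 0) (nat_lit 0) (nat_lit 0)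 (nat_lit 1) (nat_lit 0) (nat_lit 1) (nat_lit 0) (nat_lit 340) (nat_lit 465) (nat_lit 275)))))) (XT.nd (nat_lit 470) (nat_lit 0) (nat_lit 0) (XT.nd (nat_lit 188) (nat_lit 0) (nat_lit 0) (XT.nd (nat_lit 94) (nat_lit 0) (nat_lit 0) (XT.lf (nat_lit 0) (nat_lit 3470518593124) (nat_lit 0) (nat_lit 0) (nat_lit 0) (nat_lit 0) (nat_lit 0) (nat_lit 0) (nat_lit 1) (nat_lit 0) (nat_lit 1) (nat_lit 0) (nat_lit 341) (nat_lit 465) (nat_lit 274)) (XT.lf (nat_lit 0) (nat_lit 3470518486924) (nat_lit 0) (nat_lit 0) (nat_lit 0) (nat_lit 0) (nat_lit 0) (nat_lit 0) (nat_lit 1) (nat_lit 0) (nat_lit 1) (nat_lit 0) (nat_lit 342) (nat_lit 465) (nat_lit 273))) (XT.nd (nat_lit 94) (nat_lit 0) (nat_lit 0) (XT.lf (nat_lit 0) (nat_lit 3470518388591) (nat_lit 0) (nat_lit 0) (nat_lit 0) (nat_lit 0) (nat_lit 0) (nat_lit 0) (nat_lit 1) (nat_lit 0) (nat_lit 1) (nat_lit 0) (nat_lit 343) (nat_lit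 465) (nat_lit 272)) (XT.nd (nat_lit 94) (nat_lit 0) (nat_lit 0) (XT.lf (nat_lit 0) (nat_lit 3470518297542) (nat_lit 0) (nat_lit 0) (nat_lit 0) (nat_lit 0) (nat_lit 0) (nat_lit 0) (nat_lit 1) (nat_lit 0) (nat_lit 1) (nat_lit 0) (nat_lit 344) (nat_lit 465) (nat_lit 271)) (XT.lf (nat_lit 0) (nat_lit 3470518213238) (nat_lit 0) (nat_lit 0) (nat_lit 0) (nat_lit 0) (nat_lit 0) (nat_lit 0) (nat_lit 1) (nat_lit 0) (nat_lit 1) (nat_lit 0) (nat_lit 345) (nat_lit 465) (nat_lit 270))))) (XT.nd (nat_lit 188) (nat_lit 0) (nat_lit 0) (XT.nd (nat_lit 94) (nat_lit 0) (nat_lit 0) (XT.lf (nat_lit 0) (nat_lit 3470518135178) (nat_lit 0) (nat_lit 0) (nat_lit 0) (nat_lit 0) (nat_lit 0) (nat_lit 0) (nat_lit 1) (nat_lit 0) (nat_lit 1) (nat_lit 0) (nat_lit 346) (nat_lit 465) (nat_lit 269)) (XT.lf (nat_lit 0) (nat_lit 3470518062900) (nat_lit 0) (nat_lit 0) (nat_lit 0) (nat_lit 0) (nat_lit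 0) (nat_lit 0) (nat_lit 1) (nat_lit 0) (nat_lit 1) (nat_lit 0) (nat_lit 347) (nat_lit 465) (nat_lit 268))) (XT.nd (nat_lit 94) (nat_lit 0) (nat_lit 0) (XT.lf (nat_lit 0) (nat_lit 3470517995976) (nat_lit 0) (nat_lit 0) (nat_lit 0) (nat_lit 0) (nat_lit 0) (nat_lit 0) (nat_lit 1) (nat_lit 0) (nat_lit 1) (nat_lit 0) (nat_lit 348) (nat_lit 465) (nat_lit 267)) (XT.nd (nat_lit 94) (nat_lit 0) (nat_lit 0) (XT.lf (nat_lit 0) (nat_lit 3470517934010) (nat_lit 0) (nat_lit 0) (nat_lit 0) (nat_lit 0) (nat_lit 0) (nat_lit 0) (nat_lit 1) (nat_lit 0) (nat_lit 1) (nat_lit 0) (nat_lit 349) (nat_lit 465) (nat_lit 266)) (XT.lf (nat_lit 0) (nat_lit 3470517876633) (nat_lit 0) (nat_lit 0) (nat_lit 0) (nat_lit 0) (nat_lit 0) (nat_lit 0) (nat_lit 1) (nat_lit 0) (nat_lit 1) (nat_lit 0) (nat_lit 350) (nat_lit 465) (nat_lit 265))))))))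
noncomputable def ec508 : XT := (XT.nd (nat_lit 1692) (nat_lit 0) (nat_lit 0) (XT.nd (nat_lit 846) (nat_lit 0) (nat_lit 0) (XT.nd (nat_lit 376) (nat_lit 0) (nat_lit 0) (XT.nd (nat_lit 188) (nat_lit 0) (nat_lit 0) (XT.nd (nat_lit 94) (nat_lit 0) (nat_lit 0) (XT.lf (nat_lit 0) (nat_lit 3470517823507) (nat_lit 0) (nat_lit 0) (nat_lit 0) (nat_lit 0) (nat_lit 0) (nat_lit 0) (nat_lit 1) (nat_lit 0) (nat_lit 1) (nat_lit 0) (nat_lit 351) (nat_lit 465) (nat_lit 264)) (XT.lf (nat_lit 0) (nat_lit 3470517774316) (nat_lit 0) (nat_lit 0) (nat_lit 0) (nat_lit 0) (nat_lit 0) (nat_lit 0) (nat_lit 1) (nat_lit 0) (nat_lit 1) (nat_lit 0) (nat_lit 352) (nat_lit 465) (nat_lit 263))) (XT.nd (nat_lit 94) (nat_lit 0) (nat_lit 0) (XT.lf (nat_lit 0) (nat_lit 3470517728769) (nat_lit 0) (nat_lit 0) (nat_lit 0) (nat_lit 0) (nat_lit 0) (nat_lit 0) (nat_lit 1) (nat_lit 0) (nat_lit 1) (nat_lit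 0) (nat_lit 353) (nat_lit 465) (nat_lit 262)) (XT.lf (nat_lit 0) (nat_lit 3470517686596) (nat_lit 0) (nat_lit 0) (nat_lit 0) (nat_lit 0) (nat_lit 0) (nat_lit 0) (nat_lit 1) (nat_lit 0) (nat_lit 1) (nat_lit 0) (nat_lit 354) (nat_lit 465) (nat_lit 261)))) (XT.nd (nat_lit 188) (nat_lit 0) (nat_lit 0) (XT.nd (nat_lit 94) (nat_lit 0) (nat_lit 0) (XT.lf (nat_lit 0) (nat_lit 3470517647546) (nat_lit 0) (nat_lit 0) (nat_lit 0) (nat_lit 0) (nat_lit 0) (nat_lit 0) (nat_lit 1) (nat_lit 0) (nat_lit 1) (nat_lit 0) (nat_lit 355) (nat_lit 465) (nat_lit 260)) (XT.lf (nat_lit 0) (nat_lit 3470517611389) (nat_lit 0) (nat_lit 0) (nat_lit 0) (nat_lit 0) (nat_lit 0) (nat_lit 0) (nat_lit 1) (nat_lit 0) (nat_lit 1) (nat_lit 0) (nat_lit 356) (nat_lit 465) (nat_lit 259))) (XT.nd (nat_lit 94) (nat_lit 0) (nat_lit 0) (XT.lf (nat_lit 0) (nat_lit 3470517577911) (nat_lit 0) (nat_lit 0) (nat_lit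 0) (nat_lit 0) (nat_lit 0) (nat_lit 0) (nat_lit 1) (nat_lit 0) (nat_lit 1) (nat_lit 0) (nat_lit 357) (nat_lit 465) (nat_lit 258)) (XT.nd (nat_lit 94) (nat_lit 0) (nat_lit 0) (XT.lf (nat_lit 0) (nat_lit 3470517546912) (nat_lit 0) (nat_lit 0) (nat_lit 0) (nat_lit 0) (nat_lit 0) (nat_lit 0) (nat_lit 1) (nat_lit 0) (nat_lit 1) (nat_lit 0) (nat_lit 358) (nat_lit 465) (nat_lit 257)) (XT.lf (nat_lit 0) (nat_lit 3470517518210) (nat_lit 0) (nat_lit 0) (nat_lit 0) (nat_lit 0) (nat_lit 0) (nat_lit 0) (nat_lit 1) (nat_lit 0) (nat_lit 1) (nat_lit 0) (nat_lit 359) (nat_lit 465) (nat_lit 256)))))) (XT.nd (nat_lit 376) (nat_lit 0) (nat_lit 0) (XT.nd (nat_lit 188) (nat_lit 0) (nat_lit 0) (XT.nd (nat_lit 94) (nat_lit 0) (nat_lit 0) (XT.lf (nat_lit 0) (nat_lit 3470517491633) (nat_lit 0) (nat_lit 0) (nat_lit 0) (nat_lit 0) (nat_lit 0) (nat_lit 0) (nat_lit 1) (nat_lit 0) (nat_lit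 1) (nat_lit 0) (nat_lit 360) (nat_lit 465) (nat_lit 255)) (XT.lf (nat_lit 0) (nat_lit 3470517467025) (nat_lit 0) (nat_lit 0) (nat_lit 0) (nat_lit 0) (nat_lit 0) (nat_lit 0) (nat_lit 1) (nat_lit 0) (nat_lit 1) (nat_lit 0) (nat_lit 361) (nat_lit 465) (nat_lit 254))) (XT.nd (nat_lit 94) (nat_lit 0) (nat_lit 0) (XT.lf (nat_lit 0) (nat_lit 3470517444241) (nat_lit 0) (nat_lit 0) (nat_lit 0) (nat_lit 0) (nat_lit 0) (nat_lit 0) (nat_lit 1) (nat_lit 0) (nat_lit 1) (nat_lit 0) (nat_lit 362) (nat_lit 465) (nat_lit 253)) (XT.lf (nat_lit 0) (nat_lit 3470517423143) (nat_lit 0) (nat_lit 0) (nat_lit 0) (nat_lit 0) (nat_lit 0) (nat_lit 0) (nat_lit 1) (nat_lit 0) (nat_lit 1) (nat_lit 0) (nat_lit 363) (nat_lit 465) (nat_lit 252)))) (XT.nd (nat_lit 188) (nat_lit 0) (nat_lit 0) (XT.nd (nat_lit 94) (nat_lit 0) (nat_lit 0) (XT.lf (nat_lit 0) (nat_lit 3470517403609) (nat_lit 0) (nat_lit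 0) (nat_lit 0) (nat_lit 0) (nat_lit 0) (nat_lit 0) (nat_lit 1) (nat_lit 0) (nat_lit 1) (nat_lit 0) (nat_lit 364) (nat_lit 465) (nat_lit 251)) (XT.lf (nat_lit 0) (nat_lit 3470517385522) (nat_lit 0) (nat_lit 0) (nat_lit 0) (nat_lit 0) (nat_lit 0) (nat_lit 0) (nat_lit 1) (nat_lit 0) (nat_lit 1) (nat_lit 0) (nat_lit 365) (nat_lit 465) (nat_lit 250))) (XT.nd (nat_lit 94) (nat_lit 0) (nat_lit 0) (XT.lf (nat_lit 0) (nat_lit 3470517368774) (nat_lit 0) (nat_lit 0) (nat_lit 0) (nat_lit 0) (nat_lit 0) (nat_lit 0) (nat_lit 1) (nat_lit 0) (nat_lit 1) (nat_lit 0) (nat_lit 366) (nat_lit 465) (nat_lit 249)) (XT.nd (nat_lit 94) (nat_lit 0) (nat_lit 0) (XT.lf (nat_lit 0) (nat_lit 3470517353267) (nat_lit 0) (nat_lit 0) (nat_lit 0) (nat_lit 0) (nat_lit 0) (nat_lit 0) (nat_lit 1) (nat_lit 0) (nat_lit 1) (nat_lit 0) (nat_lit 367) (nat_lit 465) (nat_lit 248)) (XT.lf (nat_lit 0)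 (nat_lit 3470517338908) (nat_lit 0) (nat_lit 0) (nat_lit 0) (nat_lit 0) (nat_lit 0) (nat_lit 0) (nat_lit 1) (nat_lit 0) (nat_lit 1) (nat_lit 0) (nat_lit 368) (nat_lit 465) (nat_lit 247))))))) (XT.nd (nat_lit 47000) (nat_lit 0) (nat_lit 0) (XT.nd (nat_lit 8836) (nat_lit 0) (nat_lit 0) (XT.nd (nat_lit 188) (nat_lit 0) (nat_lit 0) (XT.nd (nat_lit 94) (nat_lit 0) (nat_lit 0) (XT.lf (nat_lit 0) (nat_lit 3470517325614) (nat_lit 0) (nat_lit 0) (nat_lit 0) (nat_lit 0) (nat_lit 0) (nat_lit 0) (nat_lit 1) (nat_lit 0) (nat_lit 1) (nat_lit 0) (nat_lit 369) (nat_lit 465) (nat_lit 246)) (XT.lf (nat_lit 0) (nat_lit 3470517313304) (nat_lit 0) (nat_lit 0) (nat_lit 0) (nat_lit 0) (nat_lit 0) (nat_lit 0) (nat_lit 1) (nat_lit 0) (nat_lit 1) (nat_lit 0) (nat_lit 370) (nat_lit 465) (nat_lit 245))) (XT.nd (nat_lit 94) (nat_lit 0) (nat_lit 0) (XT.lf (nat_lit 0) (nat_lit 3470517301906)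 (nat_lit 0) (nat_lit 0) (nat_lit 0) (nat_lit 0) (nat_lit 0) (nat_lit 0) (nat_lit 1) (nat_lit 0) (nat_lit 1) (nat_lit 0) (nat_lit 371) (nat_lit 465) (nat_lit 244)) (XT.lf (nat_lit 0) (nat_lit 3470517291352) (nat_lit 0) (nat_lit 0) (nat_lit 0) (nat_lit 0) (nat_lit 0) (nat_lit 0) (nat_lit 1) (nat_lit 0) (nat_lit 1) (nat_lit 0) (nat_lit 372) (nat_lit 465) (nat_lit 243)))) (XT.nd (nat_lit 188) (nat_lit 0) (nat_lit 0) (XT.nd (nat_lit 94) (nat_lit 0) (nat_lit 0) (XT.lf (nat_lit 0) (nat_lit 3470517159549) (nat_lit 0) (nat_lit 0) (nat_lit 0) (nat_lit 0) (nat_lit 0) (nat_lit 0) (nat_lit 1) (nat_lit 0) (nat_lit 1) (nat_lit 0) (nat_lit 463) (nat_lit 465) (nat_lit 152)) (XT.lf (nat_lit 0) (nat_lit 3470517159540) (nat_lit 0) (nat_lit 0) (nat_lit 0) (nat_lit 0) (nat_lit 0) (nat_lit 0) (nat_lit 1) (nat_lit 0) (nat_lit 1) (nat_lit 0) (nat_lit 464) (nat_lit 465) (nat_lit 151)))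 (XT.nd (nat_lit 94) (nat_lit 0) (nat_lit 0) (XT.lf (nat_lit 0) (nat_lit 3470517159531) (nat_lit 0) (nat_lit 0) (nat_lit 0) (nat_lit 0) (nat_lit 0) (nat_lit 0) (nat_lit 1) (nat_lit 0) (nat_lit 1) (nat_lit 0) (nat_lit 465) (nat_lit 465) (nat_lit 150)) (XT.nd (nat_lit 94) (nat_lit 0) (nat_lit 0) (XT.lf (nat_lit 0) (nat_lit 3470517159524) (nat_lit 0) (nat_lit 0) (nat_lit 0) (nat_lit 0) (nat_lit 0) (nat_lit 0) (nat_lit 1) (nat_lit 0) (nat_lit 1) (nat_lit 0) (nat_lit 466) (nat_lit 465) (nat_lit 149)) (XT.lf (nat_lit 0) (nat_lit 3470517159517) (nat_lit 0) (nat_lit 0) (nat_lit 0) (nat_lit 0) (nat_lit 0) (nat_lit 0) (nat_lit 1) (nat_lit 0) (nat_lit 1) (nat_lit 0) (nat_lit 467) (nat_lit 465) (nat_lit 148)))))) (XT.nd (nat_lit 9494) (nat_lit 0) (nat_lit 0) (XT.nd (nat_lit 188) (nat_lit 10752) (nat_lit 0) (XT.nd (nat_lit 94) (nat_lit 0) (nat_lit 84) (XT.lf (nat_lit 924)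 (nat_lit 1875718926530) (nat_lit 0) (nat_lit 3330334642542) (nat_lit 924) (nat_lit 1875718926530) (nat_lit 139) (nat_lit 1) (nat_lit 128) (nat_lit 0) (nat_lit 139) (nat_lit 0) (nat_lit 148) (nat_lit 466) (nat_lit 466)) (XT.lf (nat_lit 924) (nat_lit 699700714411) (nat_lit 0) (nat_lit 6538456248711) (nat_lit 840) (nat_lit 6394588366736) (nat_lit 140) (nat_lit 1) (nat_lit 129) (nat_lit 1) (nat_lit 139) (nat_lit 1) (nat_lit 149) (nat_lit 466) (nat_lit 465))) (XT.nd (nat_lit 9118) (nat_lit 10836) (nat_lit 0) (XT.lf (nat_lit 924) (nat_lit 6426347188778) (nat_lit 84) (nat_lit 4378806353729) (nat_lit 0) (nat_lit 2322319145945) (nat_lit 140) (nat_lit 1) (nat_lit 130) (nat_lit 1) (nat_lit 129) (nat_lit 1) (nat_lit 150) (nat_lit 466) (nat_lit 464)) (XT.nd (nat_lit 94) (nat_lit 0) (nat_lit 0) (XT.lf (nat_lit 0) (nat_lit 3749998736979) (nat_lit 0) (nat_lit 0) (nat_lit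 0) (nat_lit 0) (nat_lit 0) (nat_lit 0) (nat_lit 1) (nat_lit 0) (nat_lit 1) (nat_lit 0) (nat_lit 247) (nat_lit 466) (nat_lit 367)) (XT.lf (nat_lit 0) (nat_lit 3749862425513) (nat_lit 0) (nat_lit 0) (nat_lit 0) (nat_lit 0) (nat_lit 0) (nat_lit 0) (nat_lit 1) (nat_lit 0) (nat_lit 1) (nat_lit 0) (nat_lit 248) (nat_lit 466) (nat_lit 366))))) (XT.nd (nat_lit 188) (nat_lit 0) (nat_lit 0) (XT.nd (nat_lit 94) (nat_lit 0) (nat_lit 0) (XT.lf (nat_lit 0) (nat_lit 3749736211192) (nat_lit 0) (nat_lit 0) (nat_lit 0) (nat_lit 0) (nat_lit 0) (nat_lit 0) (nat_lit 1) (nat_lit 0) (nat_lit 1) (nat_lit 0) (nat_lit 249) (nat_lit 466) (nat_lit 365)) (XT.lf (nat_lit 0) (nat_lit 3749619346080) (nat_lit 0) (nat_lit 0) (nat_lit 0) (nat_lit 0) (nat_lit 0) (nat_lit 0) (nat_lit 1) (nat_lit 0) (nat_lit 1) (nat_lit 0) (nat_lit 250) (nat_lit 466) (nat_lit 364))) (XT.nd (nat_lit 94) (nat_lit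 0) (nat_lit 0) (XT.lf (nat_lit 0) (nat_lit 3749511137644) (nat_lit 0) (nat_lit 0) (nat_lit 0) (nat_lit 0) (nat_lit 0) (nat_lit 0) (nat_lit 1) (nat_lit 0) (nat_lit 1) (nat_lit 0) (nat_lit 251) (nat_lit 466) (nat_lit 363)) (XT.nd (nat_lit 94) (nat_lit 0) (nat_lit 0) (XT.lf (nat_lit 0) (nat_lit 3749410944647) (nat_lit 0) (nat_lit 0) (nat_lit 0) (nat_lit 0) (nat_lit 0) (nat_lit 0) (nat_lit 1) (nat_lit 0) (nat_lit 1) (nat_lit 0) (nat_lit 252) (nat_lit 466) (nat_lit 362)) (XT.lf (nat_lit 0) (nat_lit 3749318173353) (nat_lit 0) (nat_lit 0) (nat_lit 0) (nat_lit 0) (nat_lit 0) (nat_lit 0) (nat_lit 1) (nat_lit 0) (nat_lit 1) (nat_lit 0) (nat_lit 253) (nat_lit 466) (nat_lit 361))))))))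
noncomputable def ec509 : XT := (XT.nd (nat_lit 1786) (nat_lit 0) (nat_lit 0) (XT.nd (nat_lit 846) (nat_lit 0) (nat_lit 0) (XT.nd (nat_lit 376) (nat_lit 0) (nat_lit 0) (XT.nd (nat_lit 188) (nat_lit 0) (nat_lit 0) (XT.nd (nat_lit 94) (nat_lit 0) (nat_lit 0) (XT.lf (nat_lit 0) (nat_lit 3749232274007) (nat_lit 0) (nat_lit 0) (nat_lit 0) (nat_lit 0) (nat_lit 0) (nat_lit 0) (nat_lit 1) (nat_lit 0) (nat_lit 1) (nat_lit 0) (nat_lit 254) (nat_lit 466) (nat_lit 360)) (XT.lf (nat_lit 0) (nat_lit 3749152737576) (nat_lit 0) (nat_lit 0) (nat_lit 0) (nat_lit 0) (nat_lit 0) (nat_lit 0) (nat_lit 1) (nat_lit 0) (nat_lit 1) (nat_lit 0) (nat_lit 255) (nat_lit 466) (nat_lit 359))) (XT.nd (nat_lit 94) (nat_lit 0) (nat_lit 0) (XT.lf (nat_lit 0) (nat_lit 3749079092732) (nat_lit 0) (nat_lit 0) (nat_lit 0) (nat_lit 0) (nat_lit 0) (nat_lit 0) (nat_lit 1) (nat_lit 0) (nat_lit 1) (nat_lit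 0) (nat_lit 256) (nat_lit 466) (nat_lit 358)) (XT.lf (nat_lit 0) (nat_lit 3749010903061) (nat_lit 0) (nat_lit 0) (nat_lit 0) (nat_lit 0) (nat_lit 0) (nat_lit 0) (nat_lit 1) (nat_lit 0) (nat_lit 1) (nat_lit 0) (nat_lit 257) (nat_lit 466) (nat_lit 357)))) (XT.nd (nat_lit 188) (nat_lit 0) (nat_lit 0) (XT.nd (nat_lit 94) (nat_lit 0) (nat_lit 0) (XT.lf (nat_lit 0) (nat_lit 3748947764478) (nat_lit 0) (nat_lit 0) (nat_lit 0) (nat_lit 0) (nat_lit 0) (nat_lit 0) (nat_lit 1) (nat_lit 0) (nat_lit 1) (nat_lit 0) (nat_lit 258) (nat_lit 466) (nat_lit 356)) (XT.lf (nat_lit 0) (nat_lit 3748889302826) (nat_lit 0) (nat_lit 0) (nat_lit 0) (nat_lit 0) (nat_lit 0) (nat_lit 0) (nat_lit 1) (nat_lit 0) (nat_lit 1) (nat_lit 0) (nat_lit 259) (nat_lit 466) (nat_lit 355))) (XT.nd (nat_lit 94) (nat_lit 0) (nat_lit 0) (XT.lf (nat_lit 0) (nat_lit 3748835171668) (nat_lit 0) (nat_lit 0) (nat_lit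 0) (nat_lit 0) (nat_lit 0) (nat_lit 0) (nat_lit 1) (nat_lit 0) (nat_lit 1) (nat_lit 0) (nat_lit 260) (nat_lit 466) (nat_lit 354)) (XT.nd (nat_lit 94) (nat_lit 0) (nat_lit 0) (XT.lf (nat_lit 0) (nat_lit 3748785050224) (nat_lit 0) (nat_lit 0) (nat_lit 0) (nat_lit 0) (nat_lit 0) (nat_lit 0) (nat_lit 1) (nat_lit 0) (nat_lit 1) (nat_lit 0) (nat_lit 261) (nat_lit 466) (nat_lit 353)) (XT.lf (nat_lit 0) (nat_lit 3748738641481) (nat_lit 0) (nat_lit 0) (nat_lit 0) (nat_lit 0) (nat_lit 0) (nat_lit 0) (nat_lit 1) (nat_lit 0) (nat_lit 1) (nat_lit 0) (nat_lit 262) (nat_lit 466) (nat_lit 352)))))) (XT.nd (nat_lit 470) (nat_lit 0) (nat_lit 0) (XT.nd (nat_lit 188) (nat_lit 0) (nat_lit 0) (XT.nd (nat_lit 94) (nat_lit 0) (nat_lit 0) (XT.lf (nat_lit 0) (nat_lit 3748695670421) (nat_lit 0) (nat_lit 0) (nat_lit 0) (nat_lit 0) (nat_lit 0) (nat_lit 0) (nat_lit 1) (nat_lit 0) (nat_lit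 1) (nat_lit 0) (nat_lit 263) (nat_lit 466) (nat_lit 351)) (XT.lf (nat_lit 0) (nat_lit 3748655882404) (nat_lit 0) (nat_lit 0) (nat_lit 0) (nat_lit 0) (nat_lit 0) (nat_lit 0) (nat_lit 1) (nat_lit 0) (nat_lit 1) (nat_lit 0) (nat_lit 264) (nat_lit 466) (nat_lit 350))) (XT.nd (nat_lit 94) (nat_lit 0) (nat_lit 0) (XT.lf (nat_lit 0) (nat_lit 3748619041647) (nat_lit 0) (nat_lit 0) (nat_lit 0) (nat_lit 0) (nat_lit 0) (nat_lit 0) (nat_lit 1) (nat_lit 0) (nat_lit 1) (nat_lit 0) (nat_lit 265) (nat_lit 466) (nat_lit 349)) (XT.nd (nat_lit 94) (nat_lit 0) (nat_lit 0) (XT.lf (nat_lit 0) (nat_lit 3748584929835) (nat_lit 0) (nat_lit 0) (nat_lit 0) (nat_lit 0) (nat_lit 0) (nat_lit 0) (nat_lit 1) (nat_lit 0) (nat_lit 1) (nat_lit 0) (nat_lit 266) (nat_lit 466) (nat_lit 348)) (XT.lf (nat_lit 0) (nat_lit 3748553344823) (nat_lit 0) (nat_lit 0) (nat_lit 0) (nat_lit 0) (nat_lit 0)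 (nat_lit 0) (nat_lit 1) (nat_lit 0) (nat_lit 1) (nat_lit 0) (nat_lit 267) (nat_lit 466) (nat_lit 347))))) (XT.nd (nat_lit 188) (nat_lit 0) (nat_lit 0) (XT.nd (nat_lit 94) (nat_lit 0) (nat_lit 0) (XT.lf (nat_lit 0) (nat_lit 3748524099443) (nat_lit 0) (nat_lit 0) (nat_lit 0) (nat_lit 0) (nat_lit 0) (nat_lit 0) (nat_lit 1) (nat_lit 0) (nat_lit 1) (nat_lit 0) (nat_lit 268) (nat_lit 466) (nat_lit 346)) (XT.lf (nat_lit 0) (nat_lit 3748497020386) (nat_lit 0) (nat_lit 0) (nat_lit 0) (nat_lit 0) (nat_lit 0) (nat_lit 0) (nat_lit 1) (nat_lit 0) (nat_lit 1) (nat_lit 0) (nat_lit 269) (nat_lit 466) (nat_lit 345))) (XT.nd (nat_lit 94) (nat_lit 0) (nat_lit 0) (XT.lf (nat_lit 0) (nat_lit 3748471947186) (nat_lit 0) (nat_lit 0) (nat_lit 0) (nat_lit 0) (nat_lit 0) (nat_lit 0) (nat_lit 1) (nat_lit 0) (nat_lit 1) (nat_lit 0) (nat_lit 270) (nat_lit 466) (nat_lit 344)) (XT.nd (nat_lit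 94) (nat_lit 0) (nat_lit 0) (XT.lf (nat_lit 0) (nat_lit 3748448731260) (nat_lit 0) (nat_lit 0) (nat_lit 0) (nat_lit 0) (nat_lit 0) (nat_lit 0) (nat_lit 1) (nat_lit 0) (nat_lit 1) (nat_lit 0) (nat_lit 271) (nat_lit 466) (nat_lit 343)) (XT.lf (nat_lit 0) (nat_lit 3748427235032) (nat_lit 0) (nat_lit 0) (nat_lit 0) (nat_lit 0) (nat_lit 0) (nat_lit 0) (nat_lit 1) (nat_lit 0) (nat_lit 1) (nat_lit 0) (nat_lit 272) (nat_lit 466) (nat_lit 342))))))) (XT.nd (nat_lit 6016) (nat_lit 0) (nat_lit 0) (XT.nd (nat_lit 376) (nat_lit 0) (nat_lit 0) (XT.nd (nat_lit 188) (nat_lit 0) (nat_lit 0) (XT.nd (nat_lit 94) (nat_lit 0) (nat_lit 0) (XT.lf (nat_lit 0) (nat_lit 3748407331117) (nat_lit 0) (nat_lit 0) (nat_lit 0) (nat_lit 0) (nat_lit 0) (nat_lit 0) (nat_lit 1) (nat_lit 0) (nat_lit 1) (nat_lit 0) (nat_lit 273) (nat_lit 466) (nat_lit 341)) (XT.lf (nat_lit 0) (nat_lit 3748388901567)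 (nat_lit 0) (nat_lit 0) (nat_lit 0) (nat_lit 0) (nat_lit 0) (nat_lit 0) (nat_lit 1) (nat_lit 0) (nat_lit 1) (nat_lit 0) (nat_lit 274) (nat_lit 466) (nat_lit 340))) (XT.nd (nat_lit 94) (nat_lit 0) (nat_lit 0) (XT.lf (nat_lit 0) (nat_lit 3748371837168) (nat_lit 0) (nat_lit 0) (nat_lit 0) (nat_lit 0) (nat_lit 0) (nat_lit 0) (nat_lit 1) (nat_lit 0) (nat_lit 1) (nat_lit 0) (nat_lit 275) (nat_lit 466) (nat_lit 339)) (XT.lf (nat_lit 0) (nat_lit 3748356036799) (nat_lit 0) (nat_lit 0) (nat_lit 0) (nat_lit 0) (nat_lit 0) (nat_lit 0) (nat_lit 1) (nat_lit 0) (nat_lit 1) (nat_lit 0) (nat_lit 276) (nat_lit 466) (nat_lit 338)))) (XT.nd (nat_lit 282) (nat_lit 0) (nat_lit 0) (XT.nd (nat_lit 94) (nat_lit 0) (nat_lit 0) (XT.lf (nat_lit 0) (nat_lit 3748341406827) (nat_lit 0) (nat_lit 0) (nat_lit 0) (nat_lit 0) (nat_lit 0) (nat_lit 0) (nat_lit 1) (nat_lit 0) (nat_lit 1) (nat_lit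 0) (nat_lit 277) (nat_lit 466) (nat_lit 337)) (XT.lf (nat_lit 0) (nat_lit 3748327860557) (nat_lit 0) (nat_lit 0) (nat_lit 0) (nat_lit 0) (nat_lit 0) (nat_lit 0) (nat_lit 1) (nat_lit 0) (nat_lit 1) (nat_lit 0) (nat_lit 278) (nat_lit 466) (nat_lit 336))) (XT.nd (nat_lit 5076) (nat_lit 0) (nat_lit 0) (XT.lf (nat_lit 0) (nat_lit 3748303703972) (nat_lit 0) (nat_lit 0) (nat_lit 0) (nat_lit 0) (nat_lit 0) (nat_lit 0) (nat_lit 1) (nat_lit 0) (nat_lit 1) (nat_lit 0) (nat_lit 280) (nat_lit 466) (nat_lit 334)) (XT.nd (nat_lit 188) (nat_lit 0) (nat_lit 0) (XT.lf (nat_lit 0) (nat_lit 3748160807277) (nat_lit 0) (nat_lit 0) (nat_lit 0) (nat_lit 0) (nat_lit 0) (nat_lit 0) (nat_lit 1) (nat_lit 0) (nat_lit 1) (nat_lit 0) (nat_lit 334) (nat_lit 466) (nat_lit 280)) (XT.lf (nat_lit 0) (nat_lit 3748160482710) (nat_lit 0) (nat_lit 0) (nat_lit 0) (nat_lit 0) (nat_lit 0) (nat_lit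 0) (nat_lit 1) (nat_lit 0) (nat_lit 1) (nat_lit 0) (nat_lit 336) (nat_lit 466) (nat_lit 278)))))) (XT.nd (nat_lit 470) (nat_lit 0) (nat_lit 0) (XT.nd (nat_lit 188) (nat_lit 0) (nat_lit 0) (XT.nd (nat_lit 94) (nat_lit 0) (nat_lit 0) (XT.lf (nat_lit 0) (nat_lit 3748160338226) (nat_lit 0) (nat_lit 0) (nat_lit 0) (nat_lit 0) (nat_lit 0) (nat_lit 0) (nat_lit 1) (nat_lit 0) (nat_lit 1) (nat_lit 0) (nat_lit 337) (nat_lit 466) (nat_lit 277)) (XT.lf (nat_lit 0) (nat_lit 3748160204445) (nat_lit 0) (nat_lit 0) (nat_lit 0) (nat_lit 0) (nat_lit 0) (nat_lit 0) (nat_lit 1) (nat_lit 0) (nat_lit 1) (nat_lit 0) (nat_lit 338) (nat_lit 466) (nat_lit 276))) (XT.nd (nat_lit 94) (nat_lit 0) (nat_lit 0) (XT.lf (nat_lit 0) (nat_lit 3748160080574) (nat_lit 0) (nat_lit 0) (nat_lit 0) (nat_lit 0) (nat_lit 0) (nat_lit 0) (nat_lit 1) (nat_lit 0) (nat_lit 1) (nat_lit 0) (nat_lit 339) (nat_lit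 466) (nat_lit 275)) (XT.nd (nat_lit 94) (nat_lit 0) (nat_lit 0) (XT.lf (nat_lit 0) (nat_lit 3748159965878) (nat_lit 0) (nat_lit 0) (nat_lit 0) (nat_lit 0) (nat_lit 0) (nat_lit 0) (nat_lit 1) (nat_lit 0) (nat_lit 1) (nat_lit 0) (nat_lit 340) (nat_lit 466) (nat_lit 274)) (XT.lf (nat_lit 0) (nat_lit 3748159859679) (nat_lit 0) (nat_lit 0) (nat_lit 0) (nat_lit 0) (nat_lit 0) (nat_lit 0) (nat_lit 1) (nat_lit 0) (nat_lit 1) (nat_lit 0) (nat_lit 341) (nat_lit 466) (nat_lit 273))))) (XT.nd (nat_lit 188) (nat_lit 0) (nat_lit 0) (XT.nd (nat_lit 94) (nat_lit 0) (nat_lit 0) (XT.lf (nat_lit 0) (nat_lit 3748159761346) (nat_lit 0) (nat_lit 0) (nat_lit 0) (nat_lit 0) (nat_lit 0) (nat_lit 0) (nat_lit 1) (nat_lit 0) (nat_lit 1) (nat_lit 0) (nat_lit 342) (nat_lit 466) (nat_lit 272)) (XT.lf (nat_lit 0) (nat_lit 3748159670297) (nat_lit 0) (nat_lit 0) (nat_lit 0) (nat_lit 0) (nat_lit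 0) (nat_lit 0) (nat_lit 1) (nat_lit 0) (nat_lit 1) (nat_lit 0) (nat_lit 343) (nat_lit 466) (nat_lit 271))) (XT.nd (nat_lit 94) (nat_lit 0) (nat_lit 0) (XT.lf (nat_lit 0) (nat_lit 3748159585992) (nat_lit 0) (nat_lit 0) (nat_lit 0) (nat_lit 0) (nat_lit 0) (nat_lit 0) (nat_lit 1) (nat_lit 0) (nat_lit 1) (nat_lit 0) (nat_lit 344) (nat_lit 466) (nat_lit 270)) (XT.nd (nat_lit 94) (nat_lit 0) (nat_lit 0) (XT.lf (nat_lit 0) (nat_lit 3748159507932) (nat_lit 0) (nat_lit 0) (nat_lit 0) (nat_lit 0) (nat_lit 0) (nat_lit 0) (nat_lit 1) (nat_lit 0) (nat_lit 1) (nat_lit 0) (nat_lit 345) (nat_lit 466) (nat_lit 269)) (XT.lf (nat_lit 0) (nat_lit 3748159435654) (nat_lit 0) (nat_lit 0) (nat_lit 0) (nat_lit 0) (nat_lit 0) (nat_lit 0) (nat_lit 1) (nat_lit 0) (nat_lit 1) (nat_lit 0) (nat_lit 346) (nat_lit 466) (nat_lit 268))))))))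
noncomputable def ec510 : XT := (XT.nd (nat_lit 1786) (nat_lit 0) (nat_lit 0) (XT.nd (nat_lit 846) (nat_lit 0) (nat_lit 0) (XT.nd (nat_lit 376) (nat_lit 0) (nat_lit 0) (XT.nd (nat_lit 188) (nat_lit 0) (nat_lit 0) (XT.nd (nat_lit 94) (nat_lit 0) (nat_lit 0) (XT.lf (nat_lit 0) (nat_lit 3748159368731) (nat_lit 0) (nat_lit 0) (nat_lit 0) (nat_lit 0) (nat_lit 0) (nat_lit 0) (nat_lit 1) (nat_lit 0) (nat_lit 1) (nat_lit 0) (nat_lit 347) (nat_lit 466) (nat_lit 267)) (XT.lf (nat_lit 0) (nat_lit 3748159306764) (nat_lit 0) (nat_lit 0) (nat_lit 0) (nat_lit 0) (nat_lit 0) (nat_lit 0) (nat_lit 1) (nat_lit 0) (nat_lit 1) (nat_lit 0) (nat_lit 348) (nat_lit 466) (nat_lit 266))) (XT.nd (nat_lit 94) (nat_lit 0) (nat_lit 0) (XT.lf (nat_lit 0) (nat_lit 3748159249388) (nat_lit 0) (nat_lit 0) (nat_lit 0) (nat_lit 0) (nat_lit 0) (nat_lit 0) (nat_lit 1) (nat_lit 0) (nat_lit 1) (nat_lit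 0) (nat_lit 349) (nat_lit 466) (nat_lit 265)) (XT.lf (nat_lit 0) (nat_lit 3748159196261) (nat_lit 0) (nat_lit 0) (nat_lit 0) (nat_lit 0) (nat_lit 0) (nat_lit 0) (nat_lit 1) (nat_lit 0) (nat_lit 1) (nat_lit 0) (nat_lit 350) (nat_lit 466) (nat_lit 264)))) (XT.nd (nat_lit 188) (nat_lit 0) (nat_lit 0) (XT.nd (nat_lit 94) (nat_lit 0) (nat_lit 0) (XT.lf (nat_lit 0) (nat_lit 3748159147070) (nat_lit 0) (nat_lit 0) (nat_lit 0) (nat_lit 0) (nat_lit 0) (nat_lit 0) (nat_lit 1) (nat_lit 0) (nat_lit 1) (nat_lit 0) (nat_lit 351) (nat_lit 466) (nat_lit 263)) (XT.lf (nat_lit 0) (nat_lit 3748159101523) (nat_lit 0) (nat_lit 0) (nat_lit 0) (nat_lit 0) (nat_lit 0) (nat_lit 0) (nat_lit 1) (nat_lit 0) (nat_lit 1) (nat_lit 0) (nat_lit 352) (nat_lit 466) (nat_lit 262))) (XT.nd (nat_lit 94) (nat_lit 0) (nat_lit 0) (XT.lf (nat_lit 0) (nat_lit 3748159059350) (nat_lit 0) (nat_lit 0) (nat_lit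 0) (nat_lit 0) (nat_lit 0) (nat_lit 0) (nat_lit 1) (nat_lit 0) (nat_lit 1) (nat_lit 0) (nat_lit 353) (nat_lit 466) (nat_lit 261)) (XT.nd (nat_lit 94) (nat_lit 0) (nat_lit 0) (XT.lf (nat_lit 0) (nat_lit 3748159020300) (nat_lit 0) (nat_lit 0) (nat_lit 0) (nat_lit 0) (nat_lit 0) (nat_lit 0) (nat_lit 1) (nat_lit 0) (nat_lit 1) (nat_lit 0) (nat_lit 354) (nat_lit 466) (nat_lit 260)) (XT.lf (nat_lit 0) (nat_lit 3748158984144) (nat_lit 0) (nat_lit 0) (nat_lit 0) (nat_lit 0) (nat_lit 0) (nat_lit 0) (nat_lit 1) (nat_lit 0) (nat_lit 1) (nat_lit 0) (nat_lit 355) (nat_lit 466) (nat_lit 259)))))) (XT.nd (nat_lit 470) (nat_lit 0) (nat_lit 0) (XT.nd (nat_lit 188) (nat_lit 0) (nat_lit 0) (XT.nd (nat_lit 94) (nat_lit 0) (nat_lit 0) (XT.lf (nat_lit 0) (nat_lit 3748158950665) (nat_lit 0) (nat_lit 0) (nat_lit 0) (nat_lit 0) (nat_lit 0) (nat_lit 0) (nat_lit 1) (nat_lit 0) (nat_lit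 1) (nat_lit 0) (nat_lit 356) (nat_lit 466) (nat_lit 258)) (XT.lf (nat_lit 0) (nat_lit 3748158919666) (nat_lit 0) (nat_lit 0) (nat_lit 0) (nat_lit 0) (nat_lit 0) (nat_lit 0) (nat_lit 1) (nat_lit 0) (nat_lit 1) (nat_lit 0) (nat_lit 357) (nat_lit 466) (nat_lit 257))) (XT.nd (nat_lit 94) (nat_lit 0) (nat_lit 0) (XT.lf (nat_lit 0) (nat_lit 3748158890964) (nat_lit 0) (nat_lit 0) (nat_lit 0) (nat_lit 0) (nat_lit 0) (nat_lit 0) (nat_lit 1) (nat_lit 0) (nat_lit 1) (nat_lit 0) (nat_lit 358) (nat_lit 466) (nat_lit 256)) (XT.nd (nat_lit 94) (nat_lit 0) (nat_lit 0) (XT.lf (nat_lit 0) (nat_lit 3748158864388) (nat_lit 0) (nat_lit 0) (nat_lit 0) (nat_lit 0) (nat_lit 0) (nat_lit 0) (nat_lit 1) (nat_lit 0) (nat_lit 1) (nat_lit 0) (nat_lit 359) (nat_lit 466) (nat_lit 255)) (XT.lf (nat_lit 0) (nat_lit 3748158839780) (nat_lit 0) (nat_lit 0) (nat_lit 0) (nat_lit 0) (nat_lit 0)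 (nat_lit 0) (nat_lit 1) (nat_lit 0) (nat_lit 1) (nat_lit 0) (nat_lit 360) (nat_lit 466) (nat_lit 254))))) (XT.nd (nat_lit 188) (nat_lit 0) (nat_lit 0) (XT.nd (nat_lit 94) (nat_lit 0) (nat_lit 0) (XT.lf (nat_lit 0) (nat_lit 3748158816995) (nat_lit 0) (nat_lit 0) (nat_lit 0) (nat_lit 0) (nat_lit 0) (nat_lit 0) (nat_lit 1) (nat_lit 0) (nat_lit 1) (nat_lit 0) (nat_lit 361) (nat_lit 466) (nat_lit 253)) (XT.lf (nat_lit 0) (nat_lit 3748158795898) (nat_lit 0) (nat_lit 0) (nat_lit 0) (nat_lit 0) (nat_lit 0) (nat_lit 0) (nat_lit 1) (nat_lit 0) (nat_lit 1) (nat_lit 0) (nat_lit 362) (nat_lit 466) (nat_lit 252))) (XT.nd (nat_lit 94) (nat_lit 0) (nat_lit 0) (XT.lf (nat_lit 0) (nat_lit 3748158776363) (nat_lit 0) (nat_lit 0) (nat_lit 0) (nat_lit 0) (nat_lit 0) (nat_lit 0) (nat_lit 1) (nat_lit 0) (nat_lit 1) (nat_lit 0) (nat_lit 363) (nat_lit 466) (nat_lit 251)) (XT.nd (nat_lit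 94) (nat_lit 0) (nat_lit 0) (XT.lf (nat_lit 0) (nat_lit 3748158758276) (nat_lit 0) (nat_lit 0) (nat_lit 0) (nat_lit 0) (nat_lit 0) (nat_lit 0) (nat_lit 1) (nat_lit 0) (nat_lit 1) (nat_lit 0) (nat_lit 364) (nat_lit 466) (nat_lit 250)) (XT.lf (nat_lit 0) (nat_lit 3748158741528) (nat_lit 0) (nat_lit 0) (nat_lit 0) (nat_lit 0) (nat_lit 0) (nat_lit 0) (nat_lit 1) (nat_lit 0) (nat_lit 1) (nat_lit 0) (nat_lit 365) (nat_lit 466) (nat_lit 249))))))) (XT.nd (nat_lit 47282) (nat_lit 0) (nat_lit 0) (XT.nd (nat_lit 9400) (nat_lit 0) (nat_lit 0) (XT.nd (nat_lit 9212) (nat_lit 0) (nat_lit 0) (XT.nd (nat_lit 94) (nat_lit 0) (nat_lit 0) (XT.lf (nat_lit 0) (nat_lit 3748158726021) (nat_lit 0) (nat_lit 0) (nat_lit 0) (nat_lit 0) (nat_lit 0) (nat_lit 0) (nat_lit 1) (nat_lit 0) (nat_lit 1) (nat_lit 0) (nat_lit 366) (nat_lit 466) (nat_lit 248)) (XT.lf (nat_lit 0) (nat_lit 3748158711663)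 (nat_lit 0) (nat_lit 0) (nat_lit 0) (nat_lit 0) (nat_lit 0) (nat_lit 0) (nat_lit 1) (nat_lit 0) (nat_lit 1) (nat_lit 0) (nat_lit 367) (nat_lit 466) (nat_lit 247))) (XT.nd (nat_lit 94) (nat_lit 0) (nat_lit 0) (XT.lf (nat_lit 0) (nat_lit 3748158532286) (nat_lit 0) (nat_lit 0) (nat_lit 0) (nat_lit 0) (nat_lit 0) (nat_lit 0) (nat_lit 1) (nat_lit 0) (nat_lit 1) (nat_lit 0) (nat_lit 464) (nat_lit 466) (nat_lit 150)) (XT.lf (nat_lit 0) (nat_lit 3748158532278) (nat_lit 0) (nat_lit 0) (nat_lit 0) (nat_lit 0) (nat_lit 0) (nat_lit 0) (nat_lit 1) (nat_lit 0) (nat_lit 1) (nat_lit 0) (nat_lit 465) (nat_lit 466) (nat_lit 149)))) (XT.nd (nat_lit 188) (nat_lit 0) (nat_lit 0) (XT.nd (nat_lit 94) (nat_lit 0) (nat_lit 0) (XT.lf (nat_lit 0) (nat_lit 3748158532271) (nat_lit 0) (nat_lit 0) (nat_lit 0) (nat_lit 0) (nat_lit 0) (nat_lit 0) (nat_lit 1) (nat_lit 0) (nat_lit 1) (nat_lit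 0) (nat_lit 466) (nat_lit 466) (nat_lit 148)) (XT.lf (nat_lit 0) (nat_lit 3748158532265) (nat_lit 0) (nat_lit 0) (nat_lit 0) (nat_lit 0) (nat_lit 0) (nat_lit 0) (nat_lit 1) (nat_lit 0) (nat_lit 1) (nat_lit 0) (nat_lit 467) (nat_lit 466) (nat_lit 147))) (XT.nd (nat_lit 37506) (nat_lit 0) (nat_lit 10752) (XT.lf (nat_lit 0) (nat_lit 3748158532259) (nat_lit 0) (nat_lit 0) (nat_lit 0) (nat_lit 0) (nat_lit 0) (nat_lit 0) (nat_lit 1) (nat_lit 0) (nat_lit 1) (nat_lit 0) (nat_lit 468) (nat_lit 466) (nat_lit 146)) (XT.nd (nat_lit 94) (nat_lit 0) (nat_lit 84) (XT.lf (nat_lit 924) (nat_lit 2025776440652) (nat_lit 0) (nat_lit 3596761413945) (nat_lit 924) (nat_lit 2025776440652) (nat_lit 139) (nat_lit 1) (nat_lit 128) (nat_lit 0) (nat_lit 139) (nat_lit 0) (nat_lit 146) (nat_lit 467) (nat_lit 467)) (XT.lf (nat_lit 924) (nat_lit 755676771564) (nat_lit 0) (nat_lit 7061532748608)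 (nat_lit 840) (nat_lit 6906155436075) (nat_lit 140) (nat_lit 1) (nat_lit 129) (nat_lit 1) (nat_lit 139) (nat_lit 1) (nat_lit 147) (nat_lit 467) (nat_lit 466)))))) (XT.nd (nat_lit 29892) (nat_lit 0) (nat_lit 0) (XT.nd (nat_lit 10246) (nat_lit 0) (nat_lit 0) (XT.nd (nat_lit 9964) (nat_lit 10836) (nat_lit 0) (XT.lf (nat_lit 924) (nat_lit 6940454963881) (nat_lit 84) (nat_lit 4729110862028) (nat_lit 0) (nat_lit 2508104677621) (nat_lit 140) (nat_lit 1) (nat_lit 130) (nat_lit 1) (nat_lit 129) (nat_lit 1) (nat_lit 148) (nat_lit 467) (nat_lit 465)) (XT.lf (nat_lit 0) (nat_lit 4049005420150) (nat_lit 0) (nat_lit 0) (nat_lit 0) (nat_lit 0) (nat_lit 0) (nat_lit 0) (nat_lit 1) (nat_lit 0) (nat_lit 1) (nat_lit 0) (nat_lit 254) (nat_lit 467) (nat_lit 359))) (XT.nd (nat_lit 94) (nat_lit 0) (nat_lit 0) (XT.lf (nat_lit 0) (nat_lit 4048800447053) (nat_lit 0) (nat_lit 0) (nat_lit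 0) (nat_lit 0) (nat_lit 0) (nat_lit 0) (nat_lit 1) (nat_lit 0) (nat_lit 1) (nat_lit 0) (nat_lit 257) (nat_lit 467) (nat_lit 356)) (XT.nd (nat_lit 19458) (nat_lit 0) (nat_lit 0) (XT.lf (nat_lit 0) (nat_lit 4048741985401) (nat_lit 0) (nat_lit 0) (nat_lit 0) (nat_lit 0) (nat_lit 0) (nat_lit 0) (nat_lit 1) (nat_lit 0) (nat_lit 1) (nat_lit 0) (nat_lit 258) (nat_lit 467) (nat_lit 355)) (XT.lf (nat_lit 0) (nat_lit 4048011214846) (nat_lit 0) (nat_lit 0) (nat_lit 0) (nat_lit 0) (nat_lit 0) (nat_lit 0) (nat_lit 1) (nat_lit 0) (nat_lit 1) (nat_lit 0) (nat_lit 465) (nat_lit 467) (nat_lit 148))))) (XT.nd (nat_lit 188) (nat_lit 0) (nat_lit 0) (XT.nd (nat_lit 94) (nat_lit 0) (nat_lit 0) (XT.lf (nat_lit 0) (nat_lit 4048011214839) (nat_lit 0) (nat_lit 0) (nat_lit 0) (nat_lit 0) (nat_lit 0) (nat_lit 0) (nat_lit 1) (nat_lit 0) (nat_lit 1) (nat_lit 0) (nat_lit 466) (nat_lit 467)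 (nat_lit 147)) (XT.lf (nat_lit 0) (nat_lit 4048011214833) (nat_lit 0) (nat_lit 0) (nat_lit 0) (nat_lit 0) (nat_lit 0) (nat_lit 0) (nat_lit 1) (nat_lit 0) (nat_lit 1) (nat_lit 0) (nat_lit 467) (nat_lit 467) (nat_lit 146))) (XT.nd (nat_lit 94) (nat_lit 0) (nat_lit 0) (XT.lf (nat_lit 0) (nat_lit 4048011214828) (nat_lit 0) (nat_lit 0) (nat_lit 0) (nat_lit 0) (nat_lit 0) (nat_lit 0) (nat_lit 1) (nat_lit 0) (nat_lit 1) (nat_lit 0) (nat_lit 468) (nat_lit 467) (nat_lit 145)) (XT.nd (nat_lit 37224) (nat_lit 0) (nat_lit 10752) (XT.lf (nat_lit 0) (nat_lit 4048011214822) (nat_lit 0) (nat_lit 0) (nat_lit 0) (nat_lit 0) (nat_lit 0) (nat_lit 0) (nat_lit 1) (nat_lit 0) (nat_lit 1) (nat_lit 0) (nat_lit 469) (nat_lit 467) (nat_lit 144)) (XT.lf (nat_lit 924) (nat_lit 2187838555905) (nat_lit 0) (nat_lit 3884502327061) (nat_lit 924) (nat_lit 2187838555905) (nat_lit 139) (nat_lit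 1) (nat_lit 128) (nat_lit 0) (nat_lit 139) (nat_lit 0) (nat_lit 144) (nat_lit 468) (nat_lit 468))))))))
noncomputable def ec511 : XT := (XT.nd (nat_lit 166192) (nat_lit 0) (nat_lit 0) (XT.nd (nat_lit 98042) (nat_lit 0) (nat_lit 0) (XT.nd (nat_lit 30362) (nat_lit 0) (nat_lit 0) (XT.nd (nat_lit 30174) (nat_lit 10836) (nat_lit 0) (XT.nd (nat_lit 94) (nat_lit 0) (nat_lit 0) (XT.lf (nat_lit 924) (nat_lit 816130913289) (nat_lit 0) (nat_lit 7626455368496) (nat_lit 840) (nat_lit 7458647870961) (nat_lit 140) (nat_lit 1) (nat_lit 129) (nat_lit 1) (nat_lit 139) (nat_lit 1) (nat_lit 145) (nat_lit 468) (nat_lit 467)) (XT.lf (nat_lit 924) (nat_lit 7495691360991) (nat_lit 84) (nat_lit 5107439730990) (nat_lit 0) (nat_lit 2708753051831) (nat_lit 140) (nat_lit 1) (nat_lit 130) (nat_lit 1) (nat_lit 129) (nat_lit 1) (nat_lit 146) (nat_lit 468) (nat_lit 466))) (XT.nd (nat_lit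 94) (nat_lit 0) (nat_lit 0) (XT.lf (nat_lit 0) (nat_lit 4371852112014) (nat_lit 0) (nat_lit 0) (nat_lit 0) (nat_lit 0) (nat_lit 0) (nat_lit 0) (nat_lit 1) (nat_lit 0) (nat_lit 1) (nat_lit 0) (nat_lit 466) (nat_lit 468) (nat_lit 146)) (XT.lf (nat_lit 0) (nat_lit 4371852112008) (nat_lit 0) (nat_lit 0) (nat_lit 0) (nat_lit 0) (nat_lit 0) (nat_lit 0) (nat_lit 1) (nat_lit 0) (nat_lit 1) (nat_lit 0) (nat_lit 467) (nat_lit 468) (nat_lit 145)))) (XT.nd (nat_lit 37130) (nat_lit 0) (nat_lit 10752) (XT.nd (nat_lit 94) (nat_lit 0) (nat_lit 0) (XT.lf (nat_lit 0) (nat_lit 4371852112003) (nat_lit 0) (nat_lit 0) (nat_lit 0) (nat_lit 0) (nat_lit 0) (nat_lit 0) (nat_lit 1) (nat_lit 0) (nat_lit 1) (nat_lit 0) (nat_lit 468) (nat_lit 468) (nat_lit 144)) (XT.lf (nat_lit 0) (nat_lit 4371852111998) (nat_lit 0) (nat_lit 0) (nat_lit 0) (nat_lit 0) (nat_lit 0) (nat_lit 0) (nat_lit 1)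 (nat_lit 0) (nat_lit 1) (nat_lit 0) (nat_lit 469) (nat_lit 468) (nat_lit 143))) (XT.nd (nat_lit 94) (nat_lit 0) (nat_lit 84) (XT.lf (nat_lit 924) (nat_lit 2362865640377) (nat_lit 0) (nat_lit 4195262513226) (nat_lit 924) (nat_lit 2362865640377) (nat_lit 139) (nat_lit 1) (nat_lit 128) (nat_lit 0) (nat_lit 139) (nat_lit 0) (nat_lit 142) (nat_lit 469) (nat_lit 469)) (XT.nd (nat_lit 94) (nat_lit 0) (nat_lit 0) (XT.lf (nat_lit 924) (nat_lit 881421386352) (nat_lit 0) (nat_lit 8236571797976) (nat_lit 840) (nat_lit 8055339700638) (nat_lit 140) (nat_lit 1) (nat_lit 129) (nat_lit 1) (nat_lit 139) (nat_lit 1) (nat_lit 143) (nat_lit 469) (nat_lit 468)) (XT.lf (nat_lit 924) (nat_lit 8095346669871) (nat_lit 84) (nat_lit 5516034909469) (nat_lit 0) (nat_lit 2925453295977) (nat_lit 140) (nat_lit 1) (nat_lit 130) (nat_lit 1) (nat_lit 129) (nat_lit 1) (nat_lit 144) (nat_lit 469)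 (nat_lit 467)))))) (XT.nd (nat_lit 37130) (nat_lit 0) (nat_lit 0) (XT.nd (nat_lit 188) (nat_lit 0) (nat_lit 0) (XT.nd (nat_lit 94) (nat_lit 0) (nat_lit 0) (XT.lf (nat_lit 0) (nat_lit 4721600280958) (nat_lit 0) (nat_lit 0) (nat_lit 0) (nat_lit 0) (nat_lit 0) (nat_lit 0) (nat_lit 1) (nat_lit 0) (nat_lit 1) (nat_lit 0) (nat_lit 467) (nat_lit 469) (nat_lit 144)) (XT.lf (nat_lit 0) (nat_lit 4721600280953) (nat_lit 0) (nat_lit 0) (nat_lit 0) (nat_lit 0) (nat_lit 0) (nat_lit 0) (nat_lit 1) (nat_lit 0) (nat_lit 1) (nat_lit 0) (nat_lit 468) (nat_lit 469) (nat_lit 143))) (XT.nd (nat_lit 94) (nat_lit 0) (nat_lit 0) (XT.lf (nat_lit 0) (nat_lit 4721600280949) (nat_lit 0) (nat_lit 0) (nat_lit 0) (nat_lit 0) (nat_lit 0) (nat_lit 0) (nat_lit 1) (nat_lit 0) (nat_lit 1) (nat_lit 0) (nat_lit 469) (nat_lit 469) (nat_lit 142)) (XT.nd (nat_lit 36754) (nat_lit 0) (nat_lit 10752)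 (XT.lf (nat_lit 0) (nat_lit 4721600280945) (nat_lit 0) (nat_lit 0) (nat_lit 0) (nat_lit 0) (nat_lit 0) (nat_lit 0) (nat_lit 1) (nat_lit 0) (nat_lit 1) (nat_lit 0) (nat_lit 470) (nat_lit 469) (nat_lit 141)) (XT.lf (nat_lit 924) (nat_lit 2551894891607) (nat_lit 0) (nat_lit 4530883514284) (nat_lit 924) (nat_lit 2551894891607) (nat_lit 139) (nat_lit 1) (nat_lit 128) (nat_lit 0) (nat_lit 139) (nat_lit 0) (nat_lit 140) (nat_lit 470) (nat_lit 470))))) (XT.nd (nat_lit 30738) (nat_lit 10836) (nat_lit 0) (XT.nd (nat_lit 94) (nat_lit 0) (nat_lit 0) (XT.lf (nat_lit 924) (nat_lit 951935097260) (nat_lit 0) (nat_lit 8895497541814) (nat_lit 840) (nat_lit 8699766876689) (nat_lit 140) (nat_lit 1) (nat_lit 129) (nat_lit 1) (nat_lit 139) (nat_lit 1) (nat_lit 141) (nat_lit 470) (nat_lit 469)) (XT.lf (nat_lit 924) (nat_lit 8742974403460) (nat_lit 84) (nat_lit 5957317702226) (nat_lit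 0) (nat_lit 3159489559655) (nat_lit 140) (nat_lit 1) (nat_lit 130) (nat_lit 1) (nat_lit 129) (nat_lit 1) (nat_lit 142) (nat_lit 470) (nat_lit 468))) (XT.nd (nat_lit 94) (nat_lit 0) (nat_lit 0) (XT.lf (nat_lit 0) (nat_lit 5099328303421) (nat_lit 0) (nat_lit 0) (nat_lit 0) (nat_lit 0) (nat_lit 0) (nat_lit 0) (nat_lit 1) (nat_lit 0) (nat_lit 1) (nat_lit 0) (nat_lit 468) (nat_lit 470) (nat_lit 142)) (XT.nd (nat_lit 94) (nat_lit 0) (nat_lit 0) (XT.lf (nat_lit 0) (nat_lit 5099328303416) (nat_lit 0) (nat_lit 0) (nat_lit 0) (nat_lit 0) (nat_lit 0) (nat_lit 0) (nat_lit 1) (nat_lit 0) (nat_lit 1) (nat_lit 0) (nat_lit 469) (nat_lit 470) (nat_lit 141)) (XT.lf (nat_lit 0) (nat_lit 5099328303413) (nat_lit 0) (nat_lit 0) (nat_lit 0) (nat_lit 0) (nat_lit 0) (nat_lit 0) (nat_lit 1) (nat_lit 0) (nat_lit 1) (nat_lit 0) (nat_lit 470) (nat_lit 470) (nat_lit 140))))))) (XT.nd (nat_lit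 104246) (nat_lit 0) (nat_lit 0) (XT.nd (nat_lit 67680) (nat_lit 0) (nat_lit 0) (XT.nd (nat_lit 36566) (nat_lit 0) (nat_lit 10836) (XT.nd (nat_lit 36472) (nat_lit 0) (nat_lit 10752) (XT.lf (nat_lit 0) (nat_lit 5099328303409) (nat_lit 0) (nat_lit 0) (nat_lit 0) (nat_lit 0) (nat_lit 0) (nat_lit 0) (nat_lit 1) (nat_lit 0) (nat_lit 1) (nat_lit 0) (nat_lit 471) (nat_lit 470) (nat_lit 139)) (XT.lf (nat_lit 924) (nat_lit 2756046482936) (nat_lit 0) (nat_lit 4893354195426) (nat_lit 924) (nat_lit 2756046482936) (nat_lit 139) (nat_lit 1) (nat_lit 128) (nat_lit 0) (nat_lit 139) (nat_lit 0) (nat_lit 138) (nat_lit 471) (nat_lit 471))) (XT.nd (nat_lit 94) (nat_lit 0) (nat_lit 0) (XT.lf (nat_lit 924) (nat_lit 1028089905041) (nat_lit 0) (nat_lit 9607137345159) (nat_lit 840) (nat_lit 9395748226824) (nat_lit 140) (nat_lit 1) (nat_lit 129) (nat_lit 1) (nat_lit 139) (nat_lit 1)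 (nat_lit 139) (nat_lit 471) (nat_lit 470)) (XT.lf (nat_lit 924) (nat_lit 9442412355737) (nat_lit 84) (nat_lit 6433903118405) (nat_lit 0) (nat_lit 3412248724428) (nat_lit 140) (nat_lit 1) (nat_lit 130) (nat_lit 1) (nat_lit 129) (nat_lit 1) (nat_lit 140) (nat_lit 471) (nat_lit 469)))) (XT.nd (nat_lit 188) (nat_lit 0) (nat_lit 0) (XT.nd (nat_lit 94) (nat_lit 0) (nat_lit 0) (XT.lf (nat_lit 0) (nat_lit 5507274567678) (nat_lit 0) (nat_lit 0) (nat_lit 0) (nat_lit 0) (nat_lit 0) (nat_lit 0) (nat_lit 1) (nat_lit 0) (nat_lit 1) (nat_lit 0) (nat_lit 470) (nat_lit 471) (nat_lit 139)) (XT.lf (nat_lit 0) (nat_lit 5507274567675) (nat_lit 0) (nat_lit 0) (nat_lit 0) (nat_lit 0) (nat_lit 0) (nat_lit 0) (nat_lit 1) (nat_lit 0) (nat_lit 1) (nat_lit 0) (nat_lit 471) (nat_lit 471) (nat_lit 138))) (XT.nd (nat_lit 36190) (nat_lit 0) (nat_lit 10752) (XT.lf (nat_lit 0) (nat_lit 5507274567672)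 (nat_lit 0) (nat_lit 0) (nat_lit 0) (nat_lit 0) (nat_lit 0) (nat_lit 0) (nat_lit 1) (nat_lit 0) (nat_lit 1) (nat_lit 0) (nat_lit 472) (nat_lit 471) (nat_lit 137)) (XT.nd (nat_lit 94) (nat_lit 0) (nat_lit 84) (XT.lf (nat_lit 924) (nat_lit 2976530201571) (nat_lit 0) (nat_lit 5284822531060) (nat_lit 924) (nat_lit 2976530201571) (nat_lit 139) (nat_lit 1) (nat_lit 128) (nat_lit 0) (nat_lit 139) (nat_lit 0) (nat_lit 136) (nat_lit 472) (nat_lit 472)) (XT.lf (nat_lit 924) (nat_lit 1110337097445) (nat_lit 0) (nat_lit 10375708332772) (nat_lit 840) (nat_lit 10147408084970) (nat_lit 140) (nat_lit 1) (nat_lit 129) (nat_lit 1) (nat_lit 139) (nat_lit 1) (nat_lit 137) (nat_lit 472) (nat_lit 471)))))) (XT.nd (nat_lit 67492) (nat_lit 0) (nat_lit 0) (XT.nd (nat_lit 31396) (nat_lit 0) (nat_lit 0) (XT.nd (nat_lit 31302) (nat_lit 10836) (nat_lit 0) (XT.lf (nat_lit 924) (nat_lit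 10197805344196) (nat_lit 84) (nat_lit 6948615367877) (nat_lit 0) (nat_lit 3685228622382) (nat_lit 140) (nat_lit 1) (nat_lit 130) (nat_lit 1) (nat_lit 129) (nat_lit 1) (nat_lit 138) (nat_lit 472) (nat_lit 470)) (XT.lf (nat_lit 0) (nat_lit 5947856533083) (nat_lit 0) (nat_lit 0) (nat_lit 0) (nat_lit 0) (nat_lit 0) (nat_lit 0) (nat_lit 1) (nat_lit 0) (nat_lit 1) (nat_lit 0) (nat_lit 471) (nat_lit 472) (nat_lit 137))) (XT.nd (nat_lit 94) (nat_lit 0) (nat_lit 0) (XT.lf (nat_lit 0) (nat_lit 5947856533080) (nat_lit 0) (nat_lit 0) (nat_lit 0) (nat_lit 0) (nat_lit 0) (nat_lit 0) (nat_lit 1) (nat_lit 0) (nat_lit 1) (nat_lit 0) (nat_lit 472) (nat_lit 472) (nat_lit 136)) (XT.nd (nat_lit 35908) (nat_lit 0) (nat_lit 10752) (XT.lf (nat_lit 0) (nat_lit 5947856533077) (nat_lit 0) (nat_lit 0) (nat_lit 0) (nat_lit 0) (nat_lit 0) (nat_lit 0) (nat_lit 1) (nat_lit 0) (nat_lit 1)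 (nat_lit 0) (nat_lit 473) (nat_lit 472) (nat_lit 135)) (XT.lf (nat_lit 924) (nat_lit 3214652617696) (nat_lit 0) (nat_lit 5707608333545) (nat_lit 924) (nat_lit 3214652617696) (nat_lit 139) (nat_lit 1) (nat_lit 128) (nat_lit 0) (nat_lit 139) (nat_lit 0) (nat_lit 134) (nat_lit 473) (nat_lit 473))))) (XT.nd (nat_lit 31772) (nat_lit 0) (nat_lit 0) (XT.nd (nat_lit 31678) (nat_lit 10836) (nat_lit 0) (XT.lf (nat_lit 924) (nat_lit 1199164065240) (nat_lit 0) (nat_lit 11205764999394) (nat_lit 840) (nat_lit 10959200731768) (nat_lit 140) (nat_lit 1) (nat_lit 129) (nat_lit 1) (nat_lit 139) (nat_lit 1) (nat_lit 135) (nat_lit 473) (nat_lit 472)) (XT.lf (nat_lit 0) (nat_lit 6423685055721) (nat_lit 0) (nat_lit 0) (nat_lit 0) (nat_lit 0) (nat_lit 0) (nat_lit 0) (nat_lit 1) (nat_lit 0) (nat_lit 1) (nat_lit 0) (nat_lit 472) (nat_lit 473) (nat_lit 135))) (XT.nd (nat_lit 35814)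 (nat_lit 0) (nat_lit 10836) (XT.lf (nat_lit 0) (nat_lit 6423685055719) (nat_lit 0) (nat_lit 0) (nat_lit 0) (nat_lit 0) (nat_lit 0) (nat_lit 0) (nat_lit 1) (nat_lit 0) (nat_lit 1) (nat_lit 0) (nat_lit 473) (nat_lit 473) (nat_lit 134)) (XT.nd (nat_lit 67586) (nat_lit 0) (nat_lit 0) (XT.lf (nat_lit 924) (nat_lit 1295097190460) (nat_lit 0) (nat_lit 12102226199345) (nat_lit 840) (nat_lit 11835936790309) (nat_lit 140) (nat_lit 1) (nat_lit 129) (nat_lit 1) (nat_lit 139) (nat_lit 1) (nat_lit 133) (nat_lit 474) (nat_lit 473)) (XT.lf (nat_lit 924) (nat_lit 1398704965696) (nat_lit 0) (nat_lit 13070404295293) (nat_lit 840) (nat_lit 12782811733534) (nat_lit 140) (nat_lit 1) (nat_lit 129) (nat_lit 1) (nat_lit 139) (nat_lit 1) (nat_lit 131) (nat_lit 475) (nat_lit 474))))))))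

set_option maxRecDepth 10000000 in
noncomputable def Tp : PT := (PT.nd (nat_lit 6514388) (PT.nd (nat_lit 5430756) (PT.nd (nat_lit 2992678) (PT.nd (nat_lit 1502590) pc0 pc1) (PT.nd (nat_lit 1489994) pc2 pc3)) (PT.nd (nat_lit 744480) (PT.nd (nat_lit 406926) pc4 pc5) (PT.nd (nat_lit 202946) pc6 pc7))) (PT.nd (nat_lit 1154508) (PT.nd (nat_lit 407866) (PT.nd (nat_lit 136300) pc8 pc9) (PT.nd (nat_lit 339810) pc10 pc11)) (PT.nd (nat_lit 746642) (PT.nd (nat_lit 399030) pc12 pc13) (PT.nd (nat_lit 396022) pc14 pc15))))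

set_option maxRecDepth 10000000 in
noncomputable def Tx : XT := (XT.nd (nat_lit 19566382) (nat_lit 0) (nat_lit 0) XT.nil (XT.nd (nat_lit 15046392) (nat_lit 0) (nat_lit 0) (XT.nd (nat_lit 6026340) (nat_lit 0) (nat_lit 0) (XT.nd (nat_lit 4128762) (nat_lit 0) (nat_lit 0) (XT.nd (nat_lit 2845662) (nat_lit 0) (nat_lit 0) (XT.nd (nat_lit 2027768) (nat_lit 0) (nat_lit 0) (XT.nd (nat_lit 1419306) (nat_lit 0) (nat_lit 0) (XT.nd (nat_lit 947896) (nat_lit 0) (nat_lit 0) (XT.nd (nat_lit 676142) (nat_lit 0) (nat_lit 0) (XT.nd (nat_lit 473102) (nat_lit 0) (nat_lit 0) xc0 xc1) (XT.nd (nat_lit 136206) (nat_lit 0) (nat_lit 0) xc2 xc3)) (XT.nd (nat_lit 268934) (nat_lit 0) (nat_lit 0) (XT.nd (nat_lit 134796) (nat_lit 0) (nat_lit 0) xc4 xc5) (XT.nd (nat_lit 69466) (nat_lit 0) (nat_lit 0) xc6 xc7))) (XT.nd (nat_lit 274480) (nat_lit 0) (nat_lit 0) (XT.nd (nat_lit 137522) (nat_lit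 0) (nat_lit 0) (XT.nd (nat_lit 68808) (nat_lit 0) (nat_lit 0) xc8 xc9) (XT.nd (nat_lit 68526) (nat_lit 0) (nat_lit 0) xc10 xc11)) (XT.nd (nat_lit 198810) (nat_lit 0) (nat_lit 0) (XT.nd (nat_lit 130942) (nat_lit 0) (nat_lit 0) xc12 xc13) (XT.nd (nat_lit 67680) (nat_lit 0) (nat_lit 0) xc14 xc15)))) (XT.nd (nat_lit 472914) (nat_lit 0) (nat_lit 0) (XT.nd (nat_lit 206800) (nat_lit 0) (nat_lit 0) (XT.nd (nat_lit 72568) (nat_lit 0) (nat_lit 0) (XT.nd (nat_lit 5264) (nat_lit 0) (nat_lit 0) xc16 xc17) (XT.nd (nat_lit 67210) (nat_lit 0) (nat_lit 0) xc18 xc19)) (XT.nd (nat_lit 133386) (nat_lit 0) (nat_lit 0) (XT.nd (nat_lit 66740) (nat_lit 0) (nat_lit 0) xc20 xc21) (XT.nd (nat_lit 66458) (nat_lit 0) (nat_lit 0) xc22 xc23))) (XT.nd (nat_lit 203228) (nat_lit 0) (nat_lit 0) (XT.nd (nat_lit 71440) (nat_lit 0) (nat_lit 0) (XT.nd (nat_lit 5264) (nat_lit 0) (nat_lit 0) xc24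 xc25) (XT.nd (nat_lit 65988) (nat_lit 0) (nat_lit 0) xc26 xc27)) (XT.nd (nat_lit 70970) (nat_lit 0) (nat_lit 0) (XT.nd (nat_lit 5358) (nat_lit 0) (nat_lit 0) xc28 xc29) (XT.nd (nat_lit 65424) (nat_lit 0) (nat_lit 0) xc30 xc31))))) (XT.nd (nat_lit 736584) (nat_lit 0) (nat_lit 0) (XT.nd (nat_lit 400346) (nat_lit 0) (nat_lit 0) (XT.nd (nat_lit 200972) (nat_lit 0) (nat_lit 0) (XT.nd (nat_lit 130566) (nat_lit 0) (nat_lit 0) (XT.nd (nat_lit 65330) (nat_lit 0) (nat_lit 0) xc32 xc33) (XT.nd (nat_lit 65048) (nat_lit 0) (nat_lit 0) xc34 xc35)) (XT.nd (nat_lit 70124) (nat_lit 0) (nat_lit 0) (XT.nd (nat_lit 64766) (nat_lit 0) (nat_lit 0) xc36 xc37) (XT.nd (nat_lit 64672) (nat_lit 0) (nat_lit 0) xc38 xc39))) (XT.nd (nat_lit 139214) (nat_lit 0) (nat_lit 0) (XT.nd (nat_lit 69654) (nat_lit 0) (nat_lit 0) (XT.nd (nat_lit 5264) (nat_lit 0) (nat_lit 0) xc40 xc41) (XT.nd (nat_lit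 64202) (nat_lit 0) (nat_lit 0) xc42 xc43)) (XT.nd (nat_lit 69372) (nat_lit 0) (nat_lit 0) (XT.nd (nat_lit 64014) (nat_lit 0) (nat_lit 0) xc44 xc45) (XT.nd (nat_lit 63920) (nat_lit 0) (nat_lit 0) xc46 xc47)))) (XT.nd (nat_lit 274480) (nat_lit 0) (nat_lit 0) (XT.nd (nat_lit 137522) (nat_lit 0) (nat_lit 0) (XT.nd (nat_lit 68808) (nat_lit 0) (nat_lit 0) (XT.nd (nat_lit 5264) (nat_lit 0) (nat_lit 0) xc48 xc49) (XT.nd (nat_lit 5358) (nat_lit 0) (nat_lit 0) xc50 xc51)) (XT.nd (nat_lit 68526) (nat_lit 0) (nat_lit 0) (XT.nd (nat_lit 5264) (nat_lit 0) (nat_lit 0) xc52 xc53) (XT.nd (nat_lit 5358) (nat_lit 0) (nat_lit 0) xc54 xc55))) (XT.nd (nat_lit 136206) (nat_lit 0) (nat_lit 0) (XT.nd (nat_lit 68150) (nat_lit 0) (nat_lit 0) (XT.nd (nat_lit 5264) (nat_lit 0) (nat_lit 0) xc56 xc57) (XT.nd (nat_lit 62698) (nat_lit 0) (nat_lit 0) xc58 xc59)) (XT.nd (nat_lit 67962) (nat_lit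 0) (nat_lit 0) (XT.nd (nat_lit 62604) (nat_lit 0) (nat_lit 0) xc60 xc61) (XT.nd (nat_lit 62510) (nat_lit 0) (nat_lit 0) xc62 xc63)))))) (XT.nd (nat_lit 952502) (nat_lit 0) (nat_lit 0) (XT.nd (nat_lit 536364) (nat_lit 0) (nat_lit 0) (XT.nd (nat_lit 269498) (nat_lit 0) (nat_lit 0) (XT.nd (nat_lit 135078) (nat_lit 0) (nat_lit 0) (XT.nd (nat_lit 67586) (nat_lit 0) (nat_lit 0) (XT.nd (nat_lit 62228) (nat_lit 0) (nat_lit 0) xc64 xc65) (XT.nd (nat_lit 62134) (nat_lit 0) (nat_lit 0) xc66 xc67)) (XT.nd (nat_lit 67210) (nat_lit 0) (nat_lit 0) (XT.nd (nat_lit 61852) (nat_lit 0) (nat_lit 0) xc68 xc69) (XT.nd (nat_lit 5358) (nat_lit 0) (nat_lit 0) xc70 xc71))) (XT.nd (nat_lit 133762) (nat_lit 0) (nat_lit 0) (XT.nd (nat_lit 66928) (nat_lit 0) (nat_lit 0) (XT.nd (nat_lit 5264) (nat_lit 0) (nat_lit 0) xc72 xc73) (XT.nd (nat_lit 5358) (nat_lit 0) (nat_lit 0) xc74 xc75)) (XT.nd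 (nat_lit 66646) (nat_lit 0) (nat_lit 0) (XT.nd (nat_lit 5358) (nat_lit 0) (nat_lit 0) xc76 xc77) (XT.nd (nat_lit 5358) (nat_lit 0) (nat_lit 0) xc78 xc79)))) (XT.nd (nat_lit 208398) (nat_lit 0) (nat_lit 0) (XT.nd (nat_lit 76798) (nat_lit 0) (nat_lit 0) (XT.nd (nat_lit 66082) (nat_lit 0) (nat_lit 0) (XT.nd (nat_lit 5264) (nat_lit 0) (nat_lit 0) xc80 xc81) (XT.nd (nat_lit 5358) (nat_lit 0) (nat_lit 0) xc82 xc83)) (XT.nd (nat_lit 65894) (nat_lit 0) (nat_lit 0) (XT.nd (nat_lit 60536) (nat_lit 0) (nat_lit 0) xc84 xc85) (XT.nd (nat_lit 60348) (nat_lit 0) (nat_lit 0) xc86 xc87))) (XT.nd (nat_lit 131318) (nat_lit 0) (nat_lit 0) (XT.nd (nat_lit 65612) (nat_lit 0) (nat_lit 0) (XT.nd (nat_lit 5264) (nat_lit 0) (nat_lit 0) xc88 xc89) (XT.nd (nat_lit 5358) (nat_lit 0) (nat_lit 0) xc90 xc91)) (XT.nd (nat_lit 65706) (nat_lit 0) (nat_lit 0) (XT.nd (nat_lit 5358) (nat_lit 0)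 (nat_lit 0) xc92 xc93) (XT.nd (nat_lit 5358) (nat_lit 0) (nat_lit 0) xc94 xc95))))) (XT.nd (nat_lit 471222) (nat_lit 0) (nat_lit 0) (XT.nd (nat_lit 263012) (nat_lit 0) (nat_lit 0) (XT.nd (nat_lit 131506) (nat_lit 0) (nat_lit 0) (XT.nd (nat_lit 65706) (nat_lit 0) (nat_lit 0) (XT.nd (nat_lit 60348) (nat_lit 0) (nat_lit 0) xc96 xc97) (XT.nd (nat_lit 60442) (nat_lit 0) (nat_lit 0) xc98 xc99)) (XT.nd (nat_lit 65706) (nat_lit 0) (nat_lit 0) (XT.nd (nat_lit 5264) (nat_lit 0) (nat_lit 0) xc100 xc101) (XT.nd (nat_lit 5358) (nat_lit 0) (nat_lit 0) xc102 xc103))) (XT.nd (nat_lit 76422) (nat_lit 0) (nat_lit 0) (XT.nd (nat_lit 65706) (nat_lit 0) (nat_lit 0) (XT.nd (nat_lit 5264) (nat_lit 0) (nat_lit 0) xc104 xc105) (XT.nd (nat_lit 5358) (nat_lit 0) (nat_lit 0) xc106 xc107)) (XT.nd (nat_lit 65894) (nat_lit 0) (nat_lit 0) (XT.nd (nat_lit 60536) (nat_lit 0) (nat_lit 0) xc108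 xc109) (XT.nd (nat_lit 60536) (nat_lit 0) (nat_lit 0) xc110 xc111)))) (XT.nd (nat_lit 264140) (nat_lit 0) (nat_lit 0) (XT.nd (nat_lit 131882) (nat_lit 0) (nat_lit 0) (XT.nd (nat_lit 65894) (nat_lit 0) (nat_lit 0) (XT.nd (nat_lit 60536) (nat_lit 0) (nat_lit 0) xc112 xc113) (XT.nd (nat_lit 5358) (nat_lit 0) (nat_lit 0) xc114 xc115)) (XT.nd (nat_lit 66082) (nat_lit 0) (nat_lit 0) (XT.nd (nat_lit 5358) (nat_lit 0) (nat_lit 0) xc116 xc117) (XT.nd (nat_lit 5358) (nat_lit 0) (nat_lit 0) xc118 xc119))) (XT.nd (nat_lit 76892) (nat_lit 0) (nat_lit 0) (XT.nd (nat_lit 10622) (nat_lit 0) (nat_lit 0) (XT.nd (nat_lit 5264) (nat_lit 0) (nat_lit 0) xc120 xc121) (XT.nd (nat_lit 60912) (nat_lit 0) (nat_lit 0) xc122 xc123)) (XT.nd (nat_lit 66364) (nat_lit 0) (nat_lit 0) (XT.nd (nat_lit 61006) (nat_lit 0) (nat_lit 0) xc124 xc125) (XT.nd (nat_lit 61100) (nat_lit 0) (nat_lit 0)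 xc126 xc127))))))) (XT.nd (nat_lit 2234850) (nat_lit 0) (nat_lit 0) (XT.nd (nat_lit 1018302) (nat_lit 0) (nat_lit 0) (XT.nd (nat_lit 478272) (nat_lit 0) (nat_lit 0) (XT.nd (nat_lit 266584) (nat_lit 0) (nat_lit 0) (XT.nd (nat_lit 133104) (nat_lit 0) (nat_lit 0) (XT.nd (nat_lit 66458) (nat_lit 0) (nat_lit 0) (XT.nd (nat_lit 5264) (nat_lit 0) (nat_lit 0) xc128 xc129) (XT.nd (nat_lit 5358) (nat_lit 0) (nat_lit 0) xc130 xc131)) (XT.nd (nat_lit 66646) (nat_lit 0) (nat_lit 0) (XT.nd (nat_lit 5264) (nat_lit 0) (nat_lit 0) xc132 xc133) (XT.nd (nat_lit 5358) (nat_lit 0) (nat_lit 0) xc134 xc135))) (XT.nd (nat_lit 77550) (nat_lit 0) (nat_lit 0) (XT.nd (nat_lit 66834) (nat_lit 0) (nat_lit 0) (XT.nd (nat_lit 5264) (nat_lit 0) (nat_lit 0) xc136 xc137) (XT.nd (nat_lit 5358) (nat_lit 0) (nat_lit 0) xc138 xc139)) (XT.nd (nat_lit 67022) (nat_lit 0) (nat_lit 0) (XT.nd (nat_lit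 61664) (nat_lit 0) (nat_lit 0) xc140 xc141) (XT.nd (nat_lit 61758) (nat_lit 0) (nat_lit 0) xc142 xc143)))) (XT.nd (nat_lit 269216) (nat_lit 0) (nat_lit 0) (XT.nd (nat_lit 134420) (nat_lit 0) (nat_lit 0) (XT.nd (nat_lit 67116) (nat_lit 0) (nat_lit 0) (XT.nd (nat_lit 61758) (nat_lit 0) (nat_lit 0) xc144 xc145) (XT.nd (nat_lit 61946) (nat_lit 0) (nat_lit 0) xc146 xc147)) (XT.nd (nat_lit 67304) (nat_lit 0) (nat_lit 0) (XT.nd (nat_lit 61946) (nat_lit 0) (nat_lit 0) xc148 xc149) (XT.nd (nat_lit 62134) (nat_lit 0) (nat_lit 0) xc150 xc151))) (XT.nd (nat_lit 135172) (nat_lit 0) (nat_lit 0) (XT.nd (nat_lit 67492) (nat_lit 0) (nat_lit 0) (XT.nd (nat_lit 62134) (nat_lit 0) (nat_lit 0) xc152 xc153) (XT.nd (nat_lit 62322) (nat_lit 0) (nat_lit 0) xc154 xc155)) (XT.nd (nat_lit 67774) (nat_lit 0) (nat_lit 0) (XT.nd (nat_lit 62416) (nat_lit 0) (nat_lit 0) xc156 xc157) (XT.nd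 (nat_lit 62510) (nat_lit 0) (nat_lit 0) xc158 xc159))))) (XT.nd (nat_lit 604044) (nat_lit 0) (nat_lit 0) (XT.nd (nat_lit 272224) (nat_lit 0) (nat_lit 0) (XT.nd (nat_lit 135924) (nat_lit 0) (nat_lit 0) (XT.nd (nat_lit 67868) (nat_lit 0) (nat_lit 0) (XT.nd (nat_lit 62510) (nat_lit 0) (nat_lit 0) xc160 xc161) (XT.nd (nat_lit 62698) (nat_lit 0) (nat_lit 0) xc162 xc163)) (XT.nd (nat_lit 68056) (nat_lit 0) (nat_lit 0) (XT.nd (nat_lit 62698) (nat_lit 0) (nat_lit 0) xc164 xc165) (XT.nd (nat_lit 62886) (nat_lit 0) (nat_lit 0) xc166 xc167))) (XT.nd (nat_lit 136676) (nat_lit 0) (nat_lit 0) (XT.nd (nat_lit 68244) (nat_lit 0) (nat_lit 0) (XT.nd (nat_lit 62886) (nat_lit 0) (nat_lit 0) xc168 xc169) (XT.nd (nat_lit 63074) (nat_lit 0) (nat_lit 0) xc170 xc171)) (XT.nd (nat_lit 68526) (nat_lit 0) (nat_lit 0) (XT.nd (nat_lit 63168) (nat_lit 0) (nat_lit 0) xc172 xc173) (XT.nd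 (nat_lit 63262) (nat_lit 0) (nat_lit 0) xc174 xc175)))) (XT.nd (nat_lit 275984) (nat_lit 0) (nat_lit 0) (XT.nd (nat_lit 137804) (nat_lit 0) (nat_lit 0) (XT.nd (nat_lit 68808) (nat_lit 0) (nat_lit 0) (XT.nd (nat_lit 5264) (nat_lit 336) (nat_lit 0) xc176 xc177) (XT.nd (nat_lit 5358) (nat_lit 0) (nat_lit 0) xc178 xc179)) (XT.nd (nat_lit 68996) (nat_lit 0) (nat_lit 0) (XT.nd (nat_lit 5264) (nat_lit 0) (nat_lit 0) xc180 xc181) (XT.nd (nat_lit 5358) (nat_lit 0) (nat_lit 0) xc182 xc183))) (XT.nd (nat_lit 138556) (nat_lit 0) (nat_lit 0) (XT.nd (nat_lit 69184) (nat_lit 0) (nat_lit 0) (XT.nd (nat_lit 63826) (nat_lit 0) (nat_lit 0) xc184 xc185) (XT.nd (nat_lit 64014) (nat_lit 0) (nat_lit 0) xc186 xc187)) (XT.nd (nat_lit 69466) (nat_lit 0) (nat_lit 0) (XT.nd (nat_lit 64108) (nat_lit 0) (nat_lit 0) xc188 xc189) (XT.nd (nat_lit 64202) (nat_lit 0) (nat_lit 0) xc190 xc191))))))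 (XT.nd (nat_lit 1496574) (nat_lit 0) (nat_lit 0) (XT.nd (nat_lit 680936) (nat_lit 0) (nat_lit 0) (XT.nd (nat_lit 339152) (nat_lit 0) (nat_lit 0) (XT.nd (nat_lit 139590) (nat_lit 0) (nat_lit 0) (XT.nd (nat_lit 69654) (nat_lit 0) (nat_lit 0) (XT.nd (nat_lit 5264) (nat_lit 0) (nat_lit 0) xc192 xc193) (XT.nd (nat_lit 64578) (nat_lit 0) (nat_lit 0) xc194 xc195)) (XT.nd (nat_lit 69936) (nat_lit 0) (nat_lit 0) (XT.nd (nat_lit 64578) (nat_lit 0) (nat_lit 0) xc196 xc197) (XT.nd (nat_lit 64766) (nat_lit 0) (nat_lit 0) xc198 xc199))) (XT.nd (nat_lit 140624) (nat_lit 0) (nat_lit 0) (XT.nd (nat_lit 70218) (nat_lit 0) (nat_lit 0) (XT.nd (nat_lit 5264) (nat_lit 0) (nat_lit 0) xc200 xc201) (XT.nd (nat_lit 65048) (nat_lit 0) (nat_lit 0) xc202 xc203)) (XT.nd (nat_lit 130378) (nat_lit 0) (nat_lit 0) (XT.nd (nat_lit 65142) (nat_lit 0) (nat_lit 0) xc204 xc205) (XT.nd (nat_lit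 5358) (nat_lit 0) (nat_lit 0) xc206 xc207)))) (XT.nd (nat_lit 405610) (nat_lit 0) (nat_lit 0) (XT.nd (nat_lit 202194) (nat_lit 0) (nat_lit 0) (XT.nd (nat_lit 70782) (nat_lit 0) (nat_lit 0) (XT.nd (nat_lit 65424) (nat_lit 0) (nat_lit 0) xc208 xc209) (XT.nd (nat_lit 65612) (nat_lit 0) (nat_lit 0) xc210 xc211)) (XT.nd (nat_lit 71158) (nat_lit 0) (nat_lit 0) (XT.nd (nat_lit 65800) (nat_lit 0) (nat_lit 0) xc212 xc213) (XT.nd (nat_lit 66082) (nat_lit 0) (nat_lit 0) xc214 xc215))) (XT.nd (nat_lit 204450) (nat_lit 0) (nat_lit 0) (XT.nd (nat_lit 71534) (nat_lit 0) (nat_lit 0) (XT.nd (nat_lit 66176) (nat_lit 0) (nat_lit 0) xc216 xc217) (XT.nd (nat_lit 66364) (nat_lit 0) (nat_lit 0) xc218 xc219)) (XT.nd (nat_lit 133386) (nat_lit 0) (nat_lit 0) (XT.nd (nat_lit 66646) (nat_lit 0) (nat_lit 0) xc220 xc221) (XT.nd (nat_lit 5358) (nat_lit 0) (nat_lit 0) xc222 xc223))))) (XT.nd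 (nat_lit 1149338) (nat_lit 0) (nat_lit 1848) (XT.nd (nat_lit 538902) (nat_lit 0) (nat_lit 252) (XT.nd (nat_lit 268558) (nat_lit 0) (nat_lit 0) (XT.nd (nat_lit 134044) (nat_lit 0) (nat_lit 0) (XT.nd (nat_lit 66928) (nat_lit 0) (nat_lit 0) xc224 xc225) (XT.nd (nat_lit 67210) (nat_lit 0) (nat_lit 0) xc226 xc227)) (XT.nd (nat_lit 134890) (nat_lit 0) (nat_lit 0) (XT.nd (nat_lit 67304) (nat_lit 0) (nat_lit 0) xc228 xc229) (XT.nd (nat_lit 67680) (nat_lit 0) (nat_lit 0) xc230 xc231))) (XT.nd (nat_lit 272318) (nat_lit 0) (nat_lit 588) (XT.nd (nat_lit 135924) (nat_lit 0) (nat_lit 336) (XT.nd (nat_lit 67774) (nat_lit 0) (nat_lit 336) xc232 xc233) (XT.nd (nat_lit 68150) (nat_lit 0) (nat_lit 168) xc234 xc235)) (XT.nd (nat_lit 136958) (nat_lit 0) (nat_lit 504) (XT.nd (nat_lit 68338) (nat_lit 0) (nat_lit 420) xc236 xc237) (XT.nd (nat_lit 68714) (nat_lit 0) (nat_lit 168)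 xc238 xc239)))) (XT.nd (nat_lit 815732) (nat_lit 0) (nat_lit 2604) (XT.nd (nat_lit 341126) (nat_lit 0) (nat_lit 840) (XT.nd (nat_lit 138180) (nat_lit 0) (nat_lit 252) (XT.nd (nat_lit 68996) (nat_lit 0) (nat_lit 168) xc240 xc241) (XT.nd (nat_lit 133386) (nat_lit 0) (nat_lit 504) xc242 xc243)) (XT.nd (nat_lit 268934) (nat_lit 0) (nat_lit 1008) (XT.nd (nat_lit 134138) (nat_lit 0) (nat_lit 672) xc244 xc245) (XT.nd (nat_lit 70218) (nat_lit 0) (nat_lit 168) xc246 xc247))) (XT.nd (nat_lit 744950) (nat_lit 0) (nat_lit 3360) (XT.nd (nat_lit 337930) (nat_lit 0) (nat_lit 1260) (XT.nd (nat_lit 135830) (nat_lit 0) (nat_lit 336) xc248 xc249) (XT.nd (nat_lit 203040) (nat_lit 0) (nat_lit 840) xc250 xc251)) (XT.nd (nat_lit 678680) (nat_lit 0) (nat_lit 2940) (XT.nd (nat_lit 271754) (nat_lit 0) (nat_lit 756) xc252 xc253) (XT.nd (nat_lit 746172) (nat_lit 0) (nat_lit 0) xc254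 xc255)))))))) XT.nil))

set_option maxRecDepth 10000000 in
noncomputable def Te : XT := (XT.nd (nat_lit 22472580) (nat_lit 0) (nat_lit 0) XT.nil (XT.nd (nat_lit 9732478) (nat_lit 0) (nat_lit 0) (XT.nd (nat_lit 6097498) (nat_lit 0) (nat_lit 0) (XT.nd (nat_lit 4267412) (nat_lit 0) (nat_lit 0) (XT.nd (nat_lit 2982244) (nat_lit 0) (nat_lit 0) (XT.nd (nat_lit 2099302) (nat_lit 0) (nat_lit 0) (XT.nd (nat_lit 1487926) (nat_lit 1008) (nat_lit 0) (XT.nd (nat_lit 1015576) (nat_lit 2268) (nat_lit 0) (XT.nd (nat_lit 677646) (nat_lit 2268) (nat_lit 0) (XT.nd (nat_lit 473666) (nat_lit 1932) (nat_lit 0) (XT.nd (nat_lit 271284) (nat_lit 1428) (nat_lit 0) ec0 ec1) (XT.nd (nat_lit 134984) (nat_lit 420) (nat_lit 0) ec2 ec3)) (XT.nd (nat_lit 202006) (nat_lit 756) (nat_lit 0) (XT.nd (nat_lit 133668) (nat_lit 420) (nat_lit 0) ec4 ec5) (XT.nd (nat_lit 68056) (nat_lit 420) (nat_lit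 0) ec6 ec7))) (XT.nd (nat_lit 269216) (nat_lit 840) (nat_lit 0) (XT.nd (nat_lit 135078) (nat_lit 756) (nat_lit 0) (XT.nd (nat_lit 67586) (nat_lit 336) (nat_lit 0) ec8 ec9) (XT.nd (nat_lit 67116) (nat_lit 252) (nat_lit 0) ec10 ec11)) (XT.nd (nat_lit 70312) (nat_lit 588) (nat_lit 0) (XT.nd (nat_lit 3478) (nat_lit 168) (nat_lit 0) ec12 ec13) (XT.nd (nat_lit 66458) (nat_lit 252) (nat_lit 0) ec14 ec15)))) (XT.nd (nat_lit 338682) (nat_lit 0) (nat_lit 0) (XT.nd (nat_lit 138932) (nat_lit 336) (nat_lit 0) (XT.nd (nat_lit 69560) (nat_lit 252) (nat_lit 0) (XT.nd (nat_lit 3478) (nat_lit 672) (nat_lit 0) ec16 ec17) (XT.nd (nat_lit 65800) (nat_lit 0) (nat_lit 504) ec18 ec19)) (XT.nd (nat_lit 131036) (nat_lit 0) (nat_lit 0) (XT.nd (nat_lit 65612) (nat_lit 0) (nat_lit 0) ec20 ec21) (XT.nd (nat_lit 3478) (nat_lit 1764) (nat_lit 0) ec22 ec23))) (XT.nd (nat_lit 136770) (nat_lit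 0) (nat_lit 0) (XT.nd (nat_lit 68526) (nat_lit 0) (nat_lit 0) (XT.nd (nat_lit 3478) (nat_lit 252) (nat_lit 0) ec24 ec25) (XT.nd (nat_lit 3478) (nat_lit 0) (nat_lit 0) ec26 ec27)) (XT.nd (nat_lit 68056) (nat_lit 0) (nat_lit 0) (XT.nd (nat_lit 64484) (nat_lit 0) (nat_lit 2100) ec28 ec29) (XT.nd (nat_lit 64296) (nat_lit 0) (nat_lit 1764) ec30 ec31))))) (XT.nd (nat_lit 475734) (nat_lit 0) (nat_lit 0) (XT.nd (nat_lit 269122) (nat_lit 0) (nat_lit 0) (XT.nd (nat_lit 134984) (nat_lit 0) (nat_lit 0) (XT.nd (nat_lit 67586) (nat_lit 0) (nat_lit 0) (XT.nd (nat_lit 64014) (nat_lit 0) (nat_lit 1764) ec32 ec33) (XT.nd (nat_lit 63826) (nat_lit 0) (nat_lit 2016) ec34 ec35)) (XT.nd (nat_lit 67210) (nat_lit 0) (nat_lit 0) (XT.nd (nat_lit 63638) (nat_lit 0) (nat_lit 2604) ec36 ec37) (XT.nd (nat_lit 3478) (nat_lit 0) (nat_lit 0) ec38 ec39))) (XT.nd (nat_lit 133292) (nat_lit 0)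 (nat_lit 0) (XT.nd (nat_lit 66740) (nat_lit 0) (nat_lit 0) (XT.nd (nat_lit 3478) (nat_lit 0) (nat_lit 0) ec40 ec41) (XT.nd (nat_lit 3478) (nat_lit 0) (nat_lit 0) ec42 ec43)) (XT.nd (nat_lit 7050) (nat_lit 0) (nat_lit 0) (XT.nd (nat_lit 3478) (nat_lit 1260) (nat_lit 0) ec44 ec45) (XT.nd (nat_lit 62698) (nat_lit 0) (nat_lit 0) ec46 ec47)))) (XT.nd (nat_lit 204544) (nat_lit 0) (nat_lit 0) (XT.nd (nat_lit 131882) (nat_lit 0) (nat_lit 0) (XT.nd (nat_lit 66082) (nat_lit 0) (nat_lit 0) (XT.nd (nat_lit 62510) (nat_lit 0) (nat_lit 252) ec48 ec49) (XT.nd (nat_lit 62228) (nat_lit 0) (nat_lit 2688) ec50 ec51)) (XT.nd (nat_lit 65612) (nat_lit 0) (nat_lit 0) (XT.nd (nat_lit 3478) (nat_lit 0) (nat_lit 0) ec52 ec53) (XT.nd (nat_lit 3478) (nat_lit 588) (nat_lit 0) ec54 ec55))) (XT.nd (nat_lit 130660) (nat_lit 0) (nat_lit 0) (XT.nd (nat_lit 65424) (nat_lit 0) (nat_lit 0) (XT.nd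 (nat_lit 61852) (nat_lit 0) (nat_lit 0) ec56 ec57) (XT.nd (nat_lit 61664) (nat_lit 0) (nat_lit 1848) ec58 ec59)) (XT.nd (nat_lit 64954) (nat_lit 0) (nat_lit 0) (XT.nd (nat_lit 3478) (nat_lit 0) (nat_lit 0) ec60 ec61) (XT.nd (nat_lit 3478) (nat_lit 756) (nat_lit 0) ec62 ec63)))))) (XT.nd (nat_lit 735550) (nat_lit 0) (nat_lit 0) (XT.nd (nat_lit 399312) (nat_lit 0) (nat_lit 0) (XT.nd (nat_lit 200690) (nat_lit 0) (nat_lit 0) (XT.nd (nat_lit 129344) (nat_lit 0) (nat_lit 0) (XT.nd (nat_lit 64766) (nat_lit 0) (nat_lit 0) (XT.nd (nat_lit 61194) (nat_lit 0) (nat_lit 0) ec64 ec65) (XT.nd (nat_lit 3478) (nat_lit 0) (nat_lit 0) ec66 ec67)) (XT.nd (nat_lit 7050) (nat_lit 0) (nat_lit 0) (XT.nd (nat_lit 3478) (nat_lit 0) (nat_lit 0) ec68 ec69) (XT.nd (nat_lit 60724) (nat_lit 0) (nat_lit 0) ec70 ec71))) (XT.nd (nat_lit 71158) (nat_lit 0) (nat_lit 0) (XT.nd (nat_lit 64108)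 (nat_lit 0) (nat_lit 0) (XT.nd (nat_lit 3478) (nat_lit 0) (nat_lit 0) ec72 ec73) (XT.nd (nat_lit 3478) (nat_lit 0) (nat_lit 0) ec74 ec75)) (XT.nd (nat_lit 63826) (nat_lit 0) (nat_lit 0) (XT.nd (nat_lit 60254) (nat_lit 0) (nat_lit 0) ec76 ec77) (XT.nd (nat_lit 3478) (nat_lit 0) (nat_lit 0) ec78 ec79)))) (XT.nd (nat_lit 140812) (nat_lit 0) (nat_lit 0) (XT.nd (nat_lit 70500) (nat_lit 0) (nat_lit 0) (XT.nd (nat_lit 7050) (nat_lit 0) (nat_lit 0) (XT.nd (nat_lit 3478) (nat_lit 0) (nat_lit 0) ec80 ec81) (XT.nd (nat_lit 59878) (nat_lit 0) (nat_lit 336) ec82 ec83)) (XT.nd (nat_lit 63262) (nat_lit 0) (nat_lit 0) (XT.nd (nat_lit 3478) (nat_lit 0) (nat_lit 0) ec84 ec85) (XT.nd (nat_lit 3478) (nat_lit 1512) (nat_lit 0) ec86 ec87))) (XT.nd (nat_lit 70030) (nat_lit 0) (nat_lit 0) (XT.nd (nat_lit 62980) (nat_lit 0) (nat_lit 0) (XT.nd (nat_lit 3478) (nat_lit 0) (nat_lit 0)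 ec88 ec89) (XT.nd (nat_lit 3478) (nat_lit 0) (nat_lit 0) ec90 ec91)) (XT.nd (nat_lit 62792) (nat_lit 0) (nat_lit 0) (XT.nd (nat_lit 59220) (nat_lit 0) (nat_lit 0) ec92 ec93) (XT.nd (nat_lit 3478) (nat_lit 0) (nat_lit 0) ec94 ec95))))) (XT.nd (nat_lit 276454) (nat_lit 0) (nat_lit 0) (XT.nd (nat_lit 138650) (nat_lit 0) (nat_lit 0) (XT.nd (nat_lit 69466) (nat_lit 0) (nat_lit 0) (XT.nd (nat_lit 7050) (nat_lit 0) (nat_lit 0) (XT.nd (nat_lit 3478) (nat_lit 1848) (nat_lit 0) ec96 ec97) (XT.nd (nat_lit 3478) (nat_lit 0) (nat_lit 0) ec98 ec99)) (XT.nd (nat_lit 7050) (nat_lit 0) (nat_lit 0) (XT.nd (nat_lit 3478) (nat_lit 0) (nat_lit 0) ec100 ec101) (XT.nd (nat_lit 58562) (nat_lit 0) (nat_lit 1848) ec102 ec103))) (XT.nd (nat_lit 68996) (nat_lit 0) (nat_lit 0) (XT.nd (nat_lit 7050) (nat_lit 0) (nat_lit 0) (XT.nd (nat_lit 3478) (nat_lit 0) (nat_lit 0) ec104 ec105) (XT.nd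 (nat_lit 58374) (nat_lit 0) (nat_lit 0) ec106 ec107)) (XT.nd (nat_lit 7050) (nat_lit 0) (nat_lit 0) (XT.nd (nat_lit 3478) (nat_lit 0) (nat_lit 0) ec108 ec109) (XT.nd (nat_lit 58186) (nat_lit 0) (nat_lit 0) ec110 ec111)))) (XT.nd (nat_lit 136958) (nat_lit 0) (nat_lit 0) (XT.nd (nat_lit 68620) (nat_lit 0) (nat_lit 0) (XT.nd (nat_lit 61570) (nat_lit 0) (nat_lit 0) (XT.nd (nat_lit 3478) (nat_lit 0) (nat_lit 0) ec112 ec113) (XT.nd (nat_lit 3478) (nat_lit 1764) (nat_lit 0) ec114 ec115)) (XT.nd (nat_lit 61288) (nat_lit 0) (nat_lit 0) (XT.nd (nat_lit 3478) (nat_lit 0) (nat_lit 0) ec116 ec117) (XT.nd (nat_lit 3478) (nat_lit 756) (nat_lit 0) ec118 ec119))) (XT.nd (nat_lit 68244) (nat_lit 0) (nat_lit 0) (XT.nd (nat_lit 61194) (nat_lit 0) (nat_lit 0) (XT.nd (nat_lit 3478) (nat_lit 0) (nat_lit 0) ec120 ec121) (XT.nd (nat_lit 3478) (nat_lit 0) (nat_lit 0) ec122 ec123))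 (XT.nd (nat_lit 60912) (nat_lit 0) (nat_lit 0) (XT.nd (nat_lit 3478) (nat_lit 0) (nat_lit 0) ec124 ec125) (XT.nd (nat_lit 3478) (nat_lit 0) (nat_lit 0) ec126 ec127))))))) (XT.nd (nat_lit 1009560) (nat_lit 0) (nat_lit 0) (XT.nd (nat_lit 536552) (nat_lit 0) (nat_lit 0) (XT.nd (nat_lit 269968) (nat_lit 0) (nat_lit 0) (XT.nd (nat_lit 135360) (nat_lit 0) (nat_lit 0) (XT.nd (nat_lit 67774) (nat_lit 0) (nat_lit 0) (XT.nd (nat_lit 60724) (nat_lit 0) (nat_lit 0) (XT.nd (nat_lit 3478) (nat_lit 0) (nat_lit 0) ec128 ec129) (XT.nd (nat_lit 3478) (nat_lit 0) (nat_lit 0) ec130 ec131)) (XT.nd (nat_lit 60536) (nat_lit 0) (nat_lit 0) (XT.nd (nat_lit 3478) (nat_lit 0) (nat_lit 0) ec132 ec133) (XT.nd (nat_lit 3478) (nat_lit 0) (nat_lit 0) ec134 ec135))) (XT.nd (nat_lit 67398) (nat_lit 0) (nat_lit 0) (XT.nd (nat_lit 60348) (nat_lit 0) (nat_lit 0) (XT.nd (nat_lit 3478) (nat_lit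 0) (nat_lit 0) ec136 ec137) (XT.nd (nat_lit 3478) (nat_lit 0) (nat_lit 0) ec138 ec139)) (XT.nd (nat_lit 60160) (nat_lit 0) (nat_lit 0) (XT.nd (nat_lit 3478) (nat_lit 0) (nat_lit 0) ec140 ec141) (XT.nd (nat_lit 3478) (nat_lit 0) (nat_lit 0) ec142 ec143)))) (XT.nd (nat_lit 133668) (nat_lit 0) (nat_lit 0) (XT.nd (nat_lit 66928) (nat_lit 0) (nat_lit 0) (XT.nd (nat_lit 59878) (nat_lit 0) (nat_lit 0) (XT.nd (nat_lit 3478) (nat_lit 0) (nat_lit 0) ec144 ec145) (XT.nd (nat_lit 3478) (nat_lit 756) (nat_lit 0) ec146 ec147)) (XT.nd (nat_lit 59690) (nat_lit 0) (nat_lit 0) (XT.nd (nat_lit 3478) (nat_lit 0) (nat_lit 0) ec148 ec149) (XT.nd (nat_lit 3478) (nat_lit 1848) (nat_lit 0) ec150 ec151))) (XT.nd (nat_lit 66552) (nat_lit 0) (nat_lit 0) (XT.nd (nat_lit 7050) (nat_lit 0) (nat_lit 0) (XT.nd (nat_lit 3478) (nat_lit 0) (nat_lit 0) ec152 ec153) (XT.nd (nat_lit 55930) (nat_lit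 0) (nat_lit 0) ec154 ec155)) (XT.nd (nat_lit 7050) (nat_lit 0) (nat_lit 0) (XT.nd (nat_lit 3478) (nat_lit 0) (nat_lit 0) ec156 ec157) (XT.nd (nat_lit 55742) (nat_lit 0) (nat_lit 0) ec158 ec159))))) (XT.nd (nat_lit 212064) (nat_lit 0) (nat_lit 0) (XT.nd (nat_lit 132164) (nat_lit 0) (nat_lit 0) (XT.nd (nat_lit 66176) (nat_lit 0) (nat_lit 0) (XT.nd (nat_lit 7050) (nat_lit 0) (nat_lit 0) (XT.nd (nat_lit 3478) (nat_lit 0) (nat_lit 0) ec160 ec161) (XT.nd (nat_lit 55554) (nat_lit 0) (nat_lit 2016) ec162 ec163)) (XT.nd (nat_lit 7050) (nat_lit 0) (nat_lit 0) (XT.nd (nat_lit 3478) (nat_lit 0) (nat_lit 0) ec164 ec165) (XT.nd (nat_lit 3478) (nat_lit 0) (nat_lit 0) ec166 ec167))) (XT.nd (nat_lit 65800) (nat_lit 0) (nat_lit 0) (XT.nd (nat_lit 7050) (nat_lit 0) (nat_lit 0) (XT.nd (nat_lit 3478) (nat_lit 0) (nat_lit 0) ec168 ec169) (XT.nd (nat_lit 3478) (nat_lit 0) (nat_lit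 0) ec170 ec171)) (XT.nd (nat_lit 7050) (nat_lit 0) (nat_lit 0) (XT.nd (nat_lit 3478) (nat_lit 1848) (nat_lit 0) ec172 ec173) (XT.nd (nat_lit 3478) (nat_lit 0) (nat_lit 0) ec174 ec175)))) (XT.nd (nat_lit 130848) (nat_lit 0) (nat_lit 0) (XT.nd (nat_lit 65518) (nat_lit 0) (nat_lit 0) (XT.nd (nat_lit 58468) (nat_lit 0) (nat_lit 0) (XT.nd (nat_lit 54896) (nat_lit 0) (nat_lit 0) ec176 ec177) (XT.nd (nat_lit 3478) (nat_lit 0) (nat_lit 0) ec178 ec179)) (XT.nd (nat_lit 58280) (nat_lit 0) (nat_lit 0) (XT.nd (nat_lit 3478) (nat_lit 0) (nat_lit 0) ec180 ec181) (XT.nd (nat_lit 3478) (nat_lit 0) (nat_lit 0) ec182 ec183))) (XT.nd (nat_lit 65142) (nat_lit 0) (nat_lit 0) (XT.nd (nat_lit 58092) (nat_lit 0) (nat_lit 0) (XT.nd (nat_lit 3478) (nat_lit 0) (nat_lit 0) ec184 ec185) (XT.nd (nat_lit 3478) (nat_lit 1512) (nat_lit 0) ec186 ec187)) (XT.nd (nat_lit 7050) (nat_lit 0) (nat_lit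 0) (XT.nd (nat_lit 3478) (nat_lit 0) (nat_lit 0) ec188 ec189) (XT.nd (nat_lit 54332) (nat_lit 0) (nat_lit 252) ec190 ec191)))))) (XT.nd (nat_lit 413788) (nat_lit 0) (nat_lit 0) (XT.nd (nat_lit 207834) (nat_lit 0) (nat_lit 0) (XT.nd (nat_lit 78866) (nat_lit 0) (nat_lit 0) (XT.nd (nat_lit 64766) (nat_lit 0) (nat_lit 0) (XT.nd (nat_lit 7050) (nat_lit 0) (nat_lit 0) (XT.nd (nat_lit 3478) (nat_lit 0) (nat_lit 0) ec192 ec193) (XT.nd (nat_lit 3478) (nat_lit 0) (nat_lit 0) ec194 ec195)) (XT.nd (nat_lit 7050) (nat_lit 0) (nat_lit 0) (XT.nd (nat_lit 3478) (nat_lit 0) (nat_lit 0) ec196 ec197) (XT.nd (nat_lit 3478) (nat_lit 0) (nat_lit 0) ec198 ec199))) (XT.nd (nat_lit 64578) (nat_lit 0) (nat_lit 0) (XT.nd (nat_lit 57528) (nat_lit 0) (nat_lit 0) (XT.nd (nat_lit 53956) (nat_lit 0) (nat_lit 0) ec200 ec201) (XT.nd (nat_lit 3478) (nat_lit 0) (nat_lit 0) ec202 ec203)) (XT.nd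 (nat_lit 57340) (nat_lit 0) (nat_lit 0) (XT.nd (nat_lit 3478) (nat_lit 0) (nat_lit 0) ec204 ec205) (XT.nd (nat_lit 3478) (nat_lit 0) (nat_lit 0) ec206 ec207)))) (XT.nd (nat_lit 128122) (nat_lit 0) (nat_lit 0) (XT.nd (nat_lit 64202) (nat_lit 0) (nat_lit 0) (XT.nd (nat_lit 57152) (nat_lit 0) (nat_lit 0) (XT.nd (nat_lit 3478) (nat_lit 0) (nat_lit 0) ec208 ec209) (XT.nd (nat_lit 3478) (nat_lit 2940) (nat_lit 0) ec210 ec211)) (XT.nd (nat_lit 7050) (nat_lit 0) (nat_lit 0) (XT.nd (nat_lit 3478) (nat_lit 0) (nat_lit 0) ec212 ec213) (XT.nd (nat_lit 3478) (nat_lit 0) (nat_lit 0) ec214 ec215))) (XT.nd (nat_lit 14100) (nat_lit 0) (nat_lit 0) (XT.nd (nat_lit 7050) (nat_lit 0) (nat_lit 0) (XT.nd (nat_lit 3478) (nat_lit 0) (nat_lit 0) ec216 ec217) (XT.nd (nat_lit 3478) (nat_lit 0) (nat_lit 0) ec218 ec219)) (XT.nd (nat_lit 56682) (nat_lit 0) (nat_lit 0) (XT.nd (nat_lit 53110)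 (nat_lit 0) (nat_lit 0) ec220 ec221) (XT.nd (nat_lit 3478) (nat_lit 0) (nat_lit 0) ec222 ec223))))) (XT.nd (nat_lit 204168) (nat_lit 0) (nat_lit 0) (XT.nd (nat_lit 126900) (nat_lit 0) (nat_lit 0) (XT.nd (nat_lit 63544) (nat_lit 0) (nat_lit 0) (XT.nd (nat_lit 56494) (nat_lit 0) (nat_lit 0) (XT.nd (nat_lit 3478) (nat_lit 0) (nat_lit 0) ec224 ec225) (XT.nd (nat_lit 3478) (nat_lit 0) (nat_lit 0) ec226 ec227)) (XT.nd (nat_lit 7050) (nat_lit 0) (nat_lit 0) (XT.nd (nat_lit 3478) (nat_lit 0) (nat_lit 0) ec228 ec229) (XT.nd (nat_lit 52734) (nat_lit 0) (nat_lit 252) ec230 ec231))) (XT.nd (nat_lit 63168) (nat_lit 0) (nat_lit 0) (XT.nd (nat_lit 7050) (nat_lit 0) (nat_lit 0) (XT.nd (nat_lit 3478) (nat_lit 0) (nat_lit 0) ec232 ec233) (XT.nd (nat_lit 3478) (nat_lit 0) (nat_lit 0) ec234 ec235)) (XT.nd (nat_lit 7050) (nat_lit 0) (nat_lit 0) (XT.nd (nat_lit 3478) (nat_lit 1512)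 (nat_lit 0) ec236 ec237) (XT.nd (nat_lit 3478) (nat_lit 0) (nat_lit 0) ec238 ec239)))) (XT.nd (nat_lit 125772) (nat_lit 0) (nat_lit 0) (XT.nd (nat_lit 62980) (nat_lit 0) (nat_lit 0) (XT.nd (nat_lit 55930) (nat_lit 0) (nat_lit 0) (XT.nd (nat_lit 3478) (nat_lit 0) (nat_lit 0) ec240 ec241) (XT.nd (nat_lit 3478) (nat_lit 0) (nat_lit 0) ec242 ec243)) (XT.nd (nat_lit 7050) (nat_lit 0) (nat_lit 0) (XT.nd (nat_lit 3478) (nat_lit 0) (nat_lit 0) ec244 ec245) (XT.nd (nat_lit 52170) (nat_lit 0) (nat_lit 0) ec246 ec247))) (XT.nd (nat_lit 62604) (nat_lit 0) (nat_lit 0) (XT.nd (nat_lit 7050) (nat_lit 0) (nat_lit 0) (XT.nd (nat_lit 3478) (nat_lit 0) (nat_lit 0) ec248 ec249) (XT.nd (nat_lit 3478) (nat_lit 0) (nat_lit 0) ec250 ec251)) (XT.nd (nat_lit 7050) (nat_lit 0) (nat_lit 0) (XT.nd (nat_lit 3478) (nat_lit 1848) (nat_lit 0) ec252 ec253) (XT.nd (nat_lit 3572) (nat_lit 0)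 (nat_lit 0) ec254 ec255)))))))) (XT.nd (nat_lit 1421186) (nat_lit 0) (nat_lit 0) (XT.nd (nat_lit 745232) (nat_lit 0) (nat_lit 0) (XT.nd (nat_lit 399312) (nat_lit 0) (nat_lit 0) (XT.nd (nat_lit 200502) (nat_lit 0) (nat_lit 0) (XT.nd (nat_lit 124456) (nat_lit 0) (nat_lit 0) (XT.nd (nat_lit 62322) (nat_lit 0) (nat_lit 0) (XT.nd (nat_lit 55272) (nat_lit 0) (nat_lit 0) (XT.nd (nat_lit 3478) (nat_lit 0) (nat_lit 0) ec256 ec257) (XT.nd (nat_lit 3478) (nat_lit 0) (nat_lit 0) ec258 ec259)) (XT.nd (nat_lit 7050) (nat_lit 0) (nat_lit 0) (XT.nd (nat_lit 3478) (nat_lit 0) (nat_lit 0) ec260 ec261) (XT.nd (nat_lit 51512) (nat_lit 0) (nat_lit 1848) ec262 ec263))) (XT.nd (nat_lit 14100) (nat_lit 0) (nat_lit 0) (XT.nd (nat_lit 7050) (nat_lit 0) (nat_lit 0) (XT.nd (nat_lit 3478) (nat_lit 0) (nat_lit 0) ec264 ec265) (XT.nd (nat_lit 3478) (nat_lit 0) (nat_lit 0) ec266 ec267))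 (XT.nd (nat_lit 54896) (nat_lit 0) (nat_lit 0) (XT.nd (nat_lit 51324) (nat_lit 0) (nat_lit 0) ec268 ec269) (XT.nd (nat_lit 3478) (nat_lit 0) (nat_lit 0) ec270 ec271)))) (XT.nd (nat_lit 123328) (nat_lit 0) (nat_lit 0) (XT.nd (nat_lit 61758) (nat_lit 0) (nat_lit 0) (XT.nd (nat_lit 7050) (nat_lit 0) (nat_lit 0) (XT.nd (nat_lit 3478) (nat_lit 0) (nat_lit 0) ec272 ec273) (XT.nd (nat_lit 51136) (nat_lit 0) (nat_lit 0) ec274 ec275)) (XT.nd (nat_lit 7050) (nat_lit 0) (nat_lit 0) (XT.nd (nat_lit 3478) (nat_lit 0) (nat_lit 0) ec276 ec277) (XT.nd (nat_lit 3478) (nat_lit 0) (nat_lit 0) ec278 ec279))) (XT.nd (nat_lit 14100) (nat_lit 0) (nat_lit 0) (XT.nd (nat_lit 7050) (nat_lit 0) (nat_lit 0) (XT.nd (nat_lit 3478) (nat_lit 1764) (nat_lit 0) ec280 ec281) (XT.nd (nat_lit 3478) (nat_lit 0) (nat_lit 0) ec282 ec283)) (XT.nd (nat_lit 54332) (nat_lit 0) (nat_lit 0) (XT.nd (nat_lit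 3478) (nat_lit 0) (nat_lit 0) ec284 ec285) (XT.nd (nat_lit 3478) (nat_lit 588) (nat_lit 0) ec286 ec287))))) (XT.nd (nat_lit 196836) (nat_lit 0) (nat_lit 0) (XT.nd (nat_lit 75200) (nat_lit 0) (nat_lit 0) (XT.nd (nat_lit 61100) (nat_lit 0) (nat_lit 0) (XT.nd (nat_lit 7050) (nat_lit 0) (nat_lit 0) (XT.nd (nat_lit 3478) (nat_lit 0) (nat_lit 0) ec288 ec289) (XT.nd (nat_lit 3478) (nat_lit 0) (nat_lit 0) ec290 ec291)) (XT.nd (nat_lit 7050) (nat_lit 0) (nat_lit 0) (XT.nd (nat_lit 3478) (nat_lit 0) (nat_lit 0) ec292 ec293) (XT.nd (nat_lit 3478) (nat_lit 0) (nat_lit 0) ec294 ec295))) (XT.nd (nat_lit 60912) (nat_lit 0) (nat_lit 0) (XT.nd (nat_lit 53862) (nat_lit 0) (nat_lit 0) (XT.nd (nat_lit 3478) (nat_lit 0) (nat_lit 0) ec296 ec297) (XT.nd (nat_lit 3478) (nat_lit 0) (nat_lit 0) ec298 ec299)) (XT.nd (nat_lit 7050) (nat_lit 0) (nat_lit 0) (XT.nd (nat_lit 3478) (nat_lit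 0) (nat_lit 0) ec300 ec301) (XT.nd (nat_lit 3478) (nat_lit 0) (nat_lit 0) ec302 ec303)))) (XT.nd (nat_lit 74636) (nat_lit 0) (nat_lit 0) (XT.nd (nat_lit 14100) (nat_lit 0) (nat_lit 0) (XT.nd (nat_lit 7050) (nat_lit 0) (nat_lit 0) (XT.nd (nat_lit 3478) (nat_lit 0) (nat_lit 0) ec304 ec305) (XT.nd (nat_lit 3478) (nat_lit 0) (nat_lit 0) ec306 ec307)) (XT.nd (nat_lit 53486) (nat_lit 0) (nat_lit 0) (XT.nd (nat_lit 3478) (nat_lit 0) (nat_lit 0) ec308 ec309) (XT.nd (nat_lit 3478) (nat_lit 0) (nat_lit 0) ec310 ec311))) (XT.nd (nat_lit 60348) (nat_lit 0) (nat_lit 0) (XT.nd (nat_lit 7050) (nat_lit 0) (nat_lit 0) (XT.nd (nat_lit 3478) (nat_lit 0) (nat_lit 0) ec312 ec313) (XT.nd (nat_lit 3478) (nat_lit 0) (nat_lit 0) ec314 ec315)) (XT.nd (nat_lit 7050) (nat_lit 0) (nat_lit 0) (XT.nd (nat_lit 3478) (nat_lit 0) (nat_lit 0) ec316 ec317) (XT.nd (nat_lit 3478) (nat_lit 0) (nat_lit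 0) ec318 ec319)))))) (XT.nd (nat_lit 340656) (nat_lit 0) (nat_lit 0) (XT.nd (nat_lit 193828) (nat_lit 0) (nat_lit 0) (XT.nd (nat_lit 120038) (nat_lit 0) (nat_lit 0) (XT.nd (nat_lit 60160) (nat_lit 0) (nat_lit 0) (XT.nd (nat_lit 53110) (nat_lit 0) (nat_lit 0) (XT.nd (nat_lit 3478) (nat_lit 0) (nat_lit 0) ec320 ec321) (XT.nd (nat_lit 3478) (nat_lit 0) (nat_lit 0) ec322 ec323)) (XT.nd (nat_lit 7050) (nat_lit 0) (nat_lit 0) (XT.nd (nat_lit 3478) (nat_lit 0) (nat_lit 0) ec324 ec325) (XT.nd (nat_lit 3478) (nat_lit 0) (nat_lit 0) ec326 ec327))) (XT.nd (nat_lit 14100) (nat_lit 0) (nat_lit 0) (XT.nd (nat_lit 7050) (nat_lit 0) (nat_lit 0) (XT.nd (nat_lit 3478) (nat_lit 756) (nat_lit 0) ec328 ec329) (XT.nd (nat_lit 3478) (nat_lit 0) (nat_lit 0) ec330 ec331)) (XT.nd (nat_lit 52640) (nat_lit 0) (nat_lit 0) (XT.nd (nat_lit 3478) (nat_lit 0) (nat_lit 0) ec332 ec333) (XT.nd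 (nat_lit 3478) (nat_lit 1848) (nat_lit 0) ec334 ec335)))) (XT.nd (nat_lit 73508) (nat_lit 0) (nat_lit 0) (XT.nd (nat_lit 14100) (nat_lit 0) (nat_lit 0) (XT.nd (nat_lit 7050) (nat_lit 0) (nat_lit 0) (XT.nd (nat_lit 3478) (nat_lit 0) (nat_lit 0) ec336 ec337) (XT.nd (nat_lit 3478) (nat_lit 0) (nat_lit 0) ec338 ec339)) (XT.nd (nat_lit 52358) (nat_lit 0) (nat_lit 0) (XT.nd (nat_lit 48786) (nat_lit 0) (nat_lit 0) ec340 ec341) (XT.nd (nat_lit 3478) (nat_lit 0) (nat_lit 0) ec342 ec343))) (XT.nd (nat_lit 59220) (nat_lit 0) (nat_lit 0) (XT.nd (nat_lit 7050) (nat_lit 0) (nat_lit 0) (XT.nd (nat_lit 3478) (nat_lit 0) (nat_lit 0) ec344 ec345) (XT.nd (nat_lit 48598) (nat_lit 0) (nat_lit 336) ec346 ec347)) (XT.nd (nat_lit 7050) (nat_lit 0) (nat_lit 0) (XT.nd (nat_lit 3478) (nat_lit 0) (nat_lit 0) ec348 ec349) (XT.nd (nat_lit 3478) (nat_lit 0) (nat_lit 0) ec350 ec351)))))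 (XT.nd (nat_lit 190444) (nat_lit 0) (nat_lit 0) (XT.nd (nat_lit 117782) (nat_lit 0) (nat_lit 0) (XT.nd (nat_lit 59032) (nat_lit 0) (nat_lit 0) (XT.nd (nat_lit 51982) (nat_lit 0) (nat_lit 0) (XT.nd (nat_lit 48410) (nat_lit 0) (nat_lit 2352) ec352 ec353) (XT.nd (nat_lit 3478) (nat_lit 0) (nat_lit 0) ec354 ec355)) (XT.nd (nat_lit 7050) (nat_lit 0) (nat_lit 0) (XT.nd (nat_lit 3478) (nat_lit 0) (nat_lit 0) ec356 ec357) (XT.nd (nat_lit 3478) (nat_lit 0) (nat_lit 0) ec358 ec359))) (XT.nd (nat_lit 14100) (nat_lit 0) (nat_lit 0) (XT.nd (nat_lit 7050) (nat_lit 0) (nat_lit 0) (XT.nd (nat_lit 3478) (nat_lit 0) (nat_lit 0) ec360 ec361) (XT.nd (nat_lit 3478) (nat_lit 0) (nat_lit 0) ec362 ec363)) (XT.nd (nat_lit 51512) (nat_lit 0) (nat_lit 0) (XT.nd (nat_lit 3478) (nat_lit 0) (nat_lit 0) ec364 ec365) (XT.nd (nat_lit 3478) (nat_lit 2940) (nat_lit 0) ec366 ec367)))) (XT.nd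 (nat_lit 72474) (nat_lit 0) (nat_lit 0) (XT.nd (nat_lit 14100) (nat_lit 0) (nat_lit 0) (XT.nd (nat_lit 7050) (nat_lit 0) (nat_lit 0) (XT.nd (nat_lit 3478) (nat_lit 0) (nat_lit 0) ec368 ec369) (XT.nd (nat_lit 3478) (nat_lit 0) (nat_lit 0) ec370 ec371)) (XT.nd (nat_lit 51324) (nat_lit 0) (nat_lit 0) (XT.nd (nat_lit 47752) (nat_lit 0) (nat_lit 840) ec372 ec373) (XT.nd (nat_lit 3478) (nat_lit 0) (nat_lit 0) ec374 ec375))) (XT.nd (nat_lit 58186) (nat_lit 0) (nat_lit 0) (XT.nd (nat_lit 7050) (nat_lit 0) (nat_lit 0) (XT.nd (nat_lit 3478) (nat_lit 0) (nat_lit 0) ec376 ec377) (XT.nd (nat_lit 3478) (nat_lit 0) (nat_lit 0) ec378 ec379)) (XT.nd (nat_lit 7050) (nat_lit 0) (nat_lit 0) (XT.nd (nat_lit 3478) (nat_lit 0) (nat_lit 0) ec380 ec381) (XT.nd (nat_lit 3572) (nat_lit 0) (nat_lit 0) ec382 ec383))))))) (XT.nd (nat_lit 663546) (nat_lit 0) (nat_lit 0) (XT.nd (nat_lit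 329564) (nat_lit 0) (nat_lit 0) (XT.nd (nat_lit 187154) (nat_lit 0) (nat_lit 0) (XT.nd (nat_lit 72004) (nat_lit 0) (nat_lit 0) (XT.nd (nat_lit 57904) (nat_lit 0) (nat_lit 0) (XT.nd (nat_lit 50854) (nat_lit 0) (nat_lit 0) (XT.nd (nat_lit 3478) (nat_lit 0) (nat_lit 0) ec384 ec385) (XT.nd (nat_lit 3478) (nat_lit 2940) (nat_lit 0) ec386 ec387)) (XT.nd (nat_lit 7050) (nat_lit 0) (nat_lit 0) (XT.nd (nat_lit 3478) (nat_lit 0) (nat_lit 0) ec388 ec389) (XT.nd (nat_lit 3478) (nat_lit 0) (nat_lit 0) ec390 ec391))) (XT.nd (nat_lit 57716) (nat_lit 0) (nat_lit 0) (XT.nd (nat_lit 50666) (nat_lit 0) (nat_lit 0) (XT.nd (nat_lit 47094) (nat_lit 0) (nat_lit 1764) ec392 ec393) (XT.nd (nat_lit 3478) (nat_lit 0) (nat_lit 0) ec394 ec395)) (XT.nd (nat_lit 7050) (nat_lit 0) (nat_lit 0) (XT.nd (nat_lit 3478) (nat_lit 0) (nat_lit 0) ec396 ec397) (XT.nd (nat_lit 3478) (nat_lit 0) (nat_lit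 0) ec398 ec399)))) (XT.nd (nat_lit 71346) (nat_lit 0) (nat_lit 0) (XT.nd (nat_lit 14100) (nat_lit 0) (nat_lit 0) (XT.nd (nat_lit 7050) (nat_lit 0) (nat_lit 0) (XT.nd (nat_lit 3478) (nat_lit 1260) (nat_lit 0) ec400 ec401) (XT.nd (nat_lit 3478) (nat_lit 0) (nat_lit 0) ec402 ec403)) (XT.nd (nat_lit 7050) (nat_lit 0) (nat_lit 0) (XT.nd (nat_lit 3478) (nat_lit 0) (nat_lit 0) ec404 ec405) (XT.nd (nat_lit 46624) (nat_lit 0) (nat_lit 840) ec406 ec407))) (XT.nd (nat_lit 14100) (nat_lit 0) (nat_lit 0) (XT.nd (nat_lit 7050) (nat_lit 0) (nat_lit 0) (XT.nd (nat_lit 3478) (nat_lit 0) (nat_lit 0) ec408 ec409) (XT.nd (nat_lit 3478) (nat_lit 0) (nat_lit 0) ec410 ec411)) (XT.nd (nat_lit 49914) (nat_lit 0) (nat_lit 0) (XT.nd (nat_lit 3478) (nat_lit 0) (nat_lit 0) ec412 ec413) (XT.nd (nat_lit 3478) (nat_lit 1008) (nat_lit 0) ec414 ec415))))) (XT.nd (nat_lit 141376) (nat_lit 0)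 (nat_lit 0) (XT.nd (nat_lit 70782) (nat_lit 0) (nat_lit 0) (XT.nd (nat_lit 14100) (nat_lit 0) (nat_lit 0) (XT.nd (nat_lit 7050) (nat_lit 0) (nat_lit 0) (XT.nd (nat_lit 3478) (nat_lit 0) (nat_lit 0) ec416 ec417) (XT.nd (nat_lit 3478) (nat_lit 0) (nat_lit 0) ec418 ec419)) (XT.nd (nat_lit 49632) (nat_lit 0) (nat_lit 0) (XT.nd (nat_lit 46060) (nat_lit 0) (nat_lit 1344) ec420 ec421) (XT.nd (nat_lit 3478) (nat_lit 0) (nat_lit 0) ec422 ec423))) (XT.nd (nat_lit 56494) (nat_lit 0) (nat_lit 0) (XT.nd (nat_lit 7050) (nat_lit 0) (nat_lit 0) (XT.nd (nat_lit 3478) (nat_lit 0) (nat_lit 0) ec424 ec425) (XT.nd (nat_lit 3478) (nat_lit 0) (nat_lit 0) ec426 ec427)) (XT.nd (nat_lit 7050) (nat_lit 0) (nat_lit 0) (XT.nd (nat_lit 3478) (nat_lit 2100) (nat_lit 0) ec428 ec429) (XT.nd (nat_lit 3478) (nat_lit 0) (nat_lit 0) ec430 ec431)))) (XT.nd (nat_lit 72474) (nat_lit 0) (nat_lit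 0) (XT.nd (nat_lit 58374) (nat_lit 0) (nat_lit 0) (XT.nd (nat_lit 7050) (nat_lit 0) (nat_lit 0) (XT.nd (nat_lit 3478) (nat_lit 0) (nat_lit 0) ec432 ec433) (XT.nd (nat_lit 46530) (nat_lit 0) (nat_lit 252) ec434 ec435)) (XT.nd (nat_lit 7050) (nat_lit 0) (nat_lit 0) (XT.nd (nat_lit 3478) (nat_lit 0) (nat_lit 0) ec436 ec437) (XT.nd (nat_lit 3478) (nat_lit 0) (nat_lit 0) ec438 ec439))) (XT.nd (nat_lit 59690) (nat_lit 0) (nat_lit 0) (XT.nd (nat_lit 52640) (nat_lit 0) (nat_lit 0) (XT.nd (nat_lit 3478) (nat_lit 0) (nat_lit 0) ec440 ec441) (XT.nd (nat_lit 3478) (nat_lit 0) (nat_lit 0) ec442 ec443)) (XT.nd (nat_lit 7050) (nat_lit 0) (nat_lit 0) (XT.nd (nat_lit 3478) (nat_lit 0) (nat_lit 0) ec444 ec445) (XT.nd (nat_lit 3478) (nat_lit 0) (nat_lit 0) ec446 ec447)))))) (XT.nd (nat_lit 407208) (nat_lit 0) (nat_lit 0) (XT.nd (nat_lit 152280) (nat_lit 0) (nat_lit 0) (XT.nd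 (nat_lit 75200) (nat_lit 0) (nat_lit 0) (XT.nd (nat_lit 14194) (nat_lit 0) (nat_lit 0) (XT.nd (nat_lit 7050) (nat_lit 0) (nat_lit 0) (XT.nd (nat_lit 3478) (nat_lit 0) (nat_lit 0) ec448 ec449) (XT.nd (nat_lit 3572) (nat_lit 0) (nat_lit 0) ec450 ec451)) (XT.nd (nat_lit 53956) (nat_lit 0) (nat_lit 0) (XT.nd (nat_lit 3478) (nat_lit 0) (nat_lit 0) ec452 ec453) (XT.nd (nat_lit 3478) (nat_lit 0) (nat_lit 0) ec454 ec455))) (XT.nd (nat_lit 62134) (nat_lit 0) (nat_lit 0) (XT.nd (nat_lit 7614) (nat_lit 0) (nat_lit 0) (XT.nd (nat_lit 4042) (nat_lit 0) (nat_lit 0) ec456 ec457) (XT.nd (nat_lit 6580) (nat_lit 0) (nat_lit 0) ec458 ec459)) (XT.nd (nat_lit 7896) (nat_lit 0) (nat_lit 0) (XT.nd (nat_lit 3478) (nat_lit 0) (nat_lit 0) ec460 ec461) (XT.nd (nat_lit 3478) (nat_lit 0) (nat_lit 0) ec462 ec463)))) (XT.nd (nat_lit 125584) (nat_lit 0) (nat_lit 0) (XT.nd (nat_lit 63168)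 (nat_lit 0) (nat_lit 0) (XT.nd (nat_lit 54990) (nat_lit 0) (nat_lit 0) (XT.nd (nat_lit 51418) (nat_lit 0) (nat_lit 0) ec464 ec465) (XT.nd (nat_lit 3478) (nat_lit 0) (nat_lit 0) ec466 ec467)) (XT.nd (nat_lit 55366) (nat_lit 0) (nat_lit 0) (XT.nd (nat_lit 3478) (nat_lit 0) (nat_lit 0) ec468 ec469) (XT.nd (nat_lit 3478) (nat_lit 0) (nat_lit 0) ec470 ec471))) (XT.nd (nat_lit 64202) (nat_lit 0) (nat_lit 0) (XT.nd (nat_lit 8460) (nat_lit 0) (nat_lit 0) (XT.nd (nat_lit 4888) (nat_lit 0) (nat_lit 0) ec472 ec473) (XT.nd (nat_lit 52170) (nat_lit 0) (nat_lit 0) ec474 ec475)) (XT.nd (nat_lit 8930) (nat_lit 0) (nat_lit 0) (XT.nd (nat_lit 3478) (nat_lit 0) (nat_lit 0) ec476 ec477) (XT.nd (nat_lit 3478) (nat_lit 0) (nat_lit 0) ec478 ec479))))) (XT.nd (nat_lit 217328) (nat_lit 0) (nat_lit 0) (XT.nd (nat_lit 82438) (nat_lit 0) (nat_lit 0) (XT.nd (nat_lit 16262) (nat_lit 0)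 (nat_lit 0) (XT.nd (nat_lit 9212) (nat_lit 0) (nat_lit 0) (XT.nd (nat_lit 3478) (nat_lit 0) (nat_lit 0) ec480 ec481) (XT.nd (nat_lit 3478) (nat_lit 0) (nat_lit 0) ec482 ec483)) (XT.nd (nat_lit 56682) (nat_lit 0) (nat_lit 0) (XT.nd (nat_lit 53110) (nat_lit 0) (nat_lit 0) ec484 ec485) (XT.nd (nat_lit 5922) (nat_lit 0) (nat_lit 0) ec486 ec487))) (XT.nd (nat_lit 67022) (nat_lit 0) (nat_lit 0) (XT.nd (nat_lit 57246) (nat_lit 0) (nat_lit 0) (XT.nd (nat_lit 53674) (nat_lit 0) (nat_lit 0) ec488 ec489) (XT.nd (nat_lit 6204) (nat_lit 0) (nat_lit 0) ec490 ec491)) (XT.nd (nat_lit 57810) (nat_lit 0) (nat_lit 0) (XT.nd (nat_lit 54238) (nat_lit 0) (nat_lit 0) ec492 ec493) (XT.nd (nat_lit 6486) (nat_lit 0) (nat_lit 0) ec494 ec495)))) (XT.nd (nat_lit 191854) (nat_lit 0) (nat_lit 0) (XT.nd (nat_lit 75670) (nat_lit 0) (nat_lit 0) (XT.nd (nat_lit 58562) (nat_lit 0) (nat_lit 0)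 (XT.nd (nat_lit 54990) (nat_lit 0) (nat_lit 0) ec496 ec497) (XT.nd (nat_lit 6956) (nat_lit 0) (nat_lit 0) ec498 ec499)) (XT.nd (nat_lit 56306) (nat_lit 0) (nat_lit 0) (XT.nd (nat_lit 48974) (nat_lit 0) (nat_lit 0) ec500 ec501) (XT.nd (nat_lit 3478) (nat_lit 0) (nat_lit 0) ec502 ec503))) (XT.nd (nat_lit 76704) (nat_lit 0) (nat_lit 0) (XT.nd (nat_lit 11092) (nat_lit 0) (nat_lit 0) (XT.nd (nat_lit 7520) (nat_lit 0) (nat_lit 0) ec504 ec505) (XT.nd (nat_lit 57528) (nat_lit 0) (nat_lit 0) ec506 ec507)) (XT.nd (nat_lit 67398) (nat_lit 0) (nat_lit 0) (XT.nd (nat_lit 58656) (nat_lit 0) (nat_lit 0) ec508 ec509) (XT.nd (nat_lit 116560) (nat_lit 0) (nat_lit 0) ec510 ec511))))))))) XT.nil))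

set_option maxRecDepth 10000000 in
noncomputable def Tz : ZL := (ZL.cons (nat_lit 84) (nat_lit 6) (nat_lit 2362328357577648078396) (ZL.cons (nat_lit 168) (nat_lit 3) (nat_lit 1177674825540702343040) (ZL.cons (nat_lit 252) (nat_lit 6) (nat_lit 2268118716566303064478) (ZL.cons (nat_lit 336) (nat_lit 6) (nat_lit 2187349779060536142790) (ZL.cons (nat_lit 420) (nat_lit 3) (nat_lit 1090444006893118352731) (ZL.cons (nat_lit 504) (nat_lit 6) (nat_lit 2100119326554307867370) (ZL.cons (nat_lit 588) (nat_lit 6) (nat_lit 2025334025612845860794) (ZL.cons (nat_lit 672) (nat_lit 3) (nat_lit 1009675454809062079780) (ZL.cons (nat_lit 756) (nat_lit 6) (nat_lit 1944565900596066893688) (ZL.cons (nat_lit 840) (nat_lit 6) (nat_lit 1875321129064301656326) (ZL.cons (nat_lit 924) (nat_lit 3) (nat_lit 934890603423483373890) (ZL.cons (nat_lit 1008) (nat_lit 6) (nat_lit 1800536775809995199974)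 (ZL.cons (nat_lit 1092) (nat_lit 6) (nat_lit 1736422270116044270734) (ZL.cons (nat_lit 1176) (nat_lit 3) (nat_lit 865646356253700418447) (ZL.cons (nat_lit 1260) (nat_lit 6) (nat_lit 1667178603966577267152) (ZL.cons (nat_lit 1344) (nat_lit 6) (nat_lit 1607814514729504795524) (ZL.cons (nat_lit 1428) (nat_lit 3) (nat_lit 801532462175565622836) (ZL.cons (nat_lit 1512) (nat_lit 6) (nat_lit 1543701298353466526168) (ZL.cons (nat_lit 1596) (nat_lit 6) (nat_lit 1488735941523226576966) (ZL.cons (nat_lit 1680) (nat_lit 3) (nat_lit 742169086327181089477) (ZL.cons (nat_lit 1764) (nat_lit 6) (nat_lit 1429373356146567431826) (ZL.cons (nat_lit 1848) (nat_lit 6) (nat_lit 1378481131398924982580) (ZL.cons (nat_lit 1932) (nat_lit 3) (nat_lit 687204561593506751470) (ZL.cons (nat_lit 2016) (nat_lit 6) (nat_lit 1323517528671471137396) (ZL.cons (nat_lit 2100) (nat_lit 6) (nat_lit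 1276396992780588973024) (ZL.cons (nat_lit 2184) (nat_lit 3) (nat_lit 636313307403298431123) (ZL.cons (nat_lit 2268) (nat_lit 6) (nat_lit 1225506814018436235504) (ZL.cons (nat_lit 2352) (nat_lit 6) (nat_lit 1181878897857874231228) (ZL.cons (nat_lit 2436) (nat_lit 3) (nat_lit 589193903570607434699) (ZL.cons (nat_lit 2520) (nat_lit 6) (nat_lit 1134760748404467266614) (ZL.cons (nat_lit 2604) (nat_lit 6) (nat_lit 1094367107089753441354) (ZL.cons (nat_lit 2688) (nat_lit 3) (nat_lit 545567307842719608718) (ZL.cons (nat_lit 2772) (nat_lit 6) (nat_lit 1050741974469862510074) (ZL.cons (nat_lit 2856) (nat_lit 6) (nat_lit 1013343460957941134412) (ZL.cons (nat_lit 2940) (nat_lit 3) (nat_lit 505175206680676945021) (ZL.cons (nat_lit 3024) (nat_lit 6) (nat_lit 972953066365066048694) (ZL.cons (nat_lit 3108) (nat_lit 6) (nat_lit 938328319572872835860) (ZL.cons (nat_lit 3192)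 (nat_lit 3) (nat_lit 467778489602831212204) (ZL.cons (nat_lit 3276) (nat_lit 6) (nat_lit 900933593037304165998) (ZL.cons (nat_lit 3360) (nat_lit 6) (nat_lit 868877732238252854156) (ZL.cons (nat_lit 3444) (nat_lit 3) (nat_lit 433155838171343829184) (ZL.cons (nat_lit 3528) (nat_lit 6) (nat_lit 834257402575277437368) (ZL.cons (nat_lit 3612) (nat_lit 6) (nat_lit 804580820483118479468) (ZL.cons (nat_lit 3696) (nat_lit 3) (nat_lit 401102421401019797239) (ZL.cons (nat_lit 3780) (nat_lit 6) (nat_lit 772530111823586804934) (ZL.cons (nat_lit 3864) (nat_lit 6) (nat_lit 745057359382268978134) (ZL.cons (nat_lit 3948) (nat_lit 3) (nat_lit 371428690023968338609) (ZL.cons (nat_lit 4032) (nat_lit 6) (nat_lit 715386786745645725190) (ZL.cons (nat_lit 4116) (nat_lit 6) (nat_lit 689955543215663335804) (ZL.cons (nat_lit 4200) (nat_lit 3) (nat_lit 343959262656751898958) (ZL.cons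 (nat_lit 4284) (nat_lit 6) (nat_lit 662489800203282355264) (ZL.cons (nat_lit 4368) (nat_lit 6) (nat_lit 638949922673587492386) (ZL.cons (nat_lit 4452) (nat_lit 3) (nat_lit 318531897493201367543) (ZL.cons (nat_lit 4536) (nat_lit 6) (nat_lit 613526854941517040480) (ZL.cons (nat_lit 4620) (nat_lit 6) (nat_lit 591739501905396319184) (ZL.cons (nat_lit 4704) (nat_lit 3) (nat_lit 294996543690112623804) (ZL.cons (nat_lit 4788) (nat_lit 6) (nat_lit 568209160626385940182) (ZL.cons (nat_lit 4872) (nat_lit 6) (nat_lit 548045984743680070456) (ZL.cons (nat_lit 4956) (nat_lit 3) (nat_lit 273214467128705279869) (ZL.cons (nat_lit 5040) (nat_lit 6) (nat_lit 526269754790357731152) (ZL.cons (nat_lit 5124) (nat_lit 6) (nat_lit 507612160420978252476) (ZL.cons (nat_lit 5208) (nat_lit 3) (nat_lit 253057445726105093499) (ZL.cons (nat_lit 5292) (nat_lit 6) (nat_lit 487461958502048415508)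 (ZL.cons (nat_lit 5376) (nat_lit 6) (nat_lit 470200420040908495074) (ZL.cons (nat_lit 5460) (nat_lit 3) (nat_lit 234407029942320883888) (ZL.cons (nat_lit 5544) (nat_lit 6) (nat_lit 451557958502877381006) (ZL.cons (nat_lit 5628) (nat_lit 6) (nat_lit 435591395978196651420) (ZL.cons (nat_lit 5712) (nat_lit 3) (nat_lit 217153864583419285295) (ZL.cons (nat_lit 5796) (nat_lit 6) (nat_lit 418347508451541463466) (ZL.cons (nat_lit 5880) (nat_lit 6) (nat_lit 403582717271265780480) (ZL.cons (nat_lit 5964) (nat_lit 3) (nat_lit 201197068445189334301) (ZL.cons (nat_lit 6048) (nat_lit 6) (nat_lit 387636742796568042856) (ZL.cons (nat_lit 6132) (nat_lit 6) (nat_lit 373987874945849967708) (ZL.cons (nat_lit 6216) (nat_lit 3) (nat_lit 186443668778069839465) (ZL.cons (nat_lit 6300) (nat_lit 6) (nat_lit 359247097667074446546) (ZL.cons (nat_lit 6384) (nat_lit 6) (nat_lit 346635192078177885070)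 (ZL.cons (nat_lit 6468) (nat_lit 3) (nat_lit 172808087988297142175) (ZL.cons (nat_lit 6552) (nat_lit 6) (nat_lit 333014334042169598676) (ZL.cons (nat_lit 6636) (nat_lit 6) (nat_lit 321366894281966761752) (ZL.cons (nat_lit 6720) (nat_lit 3) (nat_lit 160211680427287269433) (ZL.cons (nat_lit 6804) (nat_lit 6) (nat_lit 308787659340947697878) (ZL.cons (nat_lit 6888) (nat_lit 6) (nat_lit 298038277196023138880) (ZL.cons (nat_lit 6972) (nat_lit 3) (nat_lit 148582317566811466250) (ZL.cons (nat_lit 7056) (nat_lit 6) (nat_lit 286428944479504615158) (ZL.cons (nat_lit 7140) (nat_lit 6) (nat_lit 276516968471012785456) (ZL.cons (nat_lit 7224) (nat_lit 3) (nat_lit 137854020317728519404) (ZL.cons (nat_lit 7308) (nat_lit 6) (nat_lit 265812034381841609378) (ZL.cons (nat_lit 7392) (nat_lit 6) (nat_lit 256682282718636902094) (ZL.cons (nat_lit 7476) (nat_lit 3) (nat_lit 127966637731746346119)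 (ZL.cons (nat_lit 7560) (nat_lit 6) (nat_lit 246822150922375818230) (ZL.cons (nat_lit 7644) (nat_lit 6) (nat_lit 238424668909358442916) (ZL.cons (nat_lit 7728) (nat_lit 3) (nat_lit 118865571836556902079) (ZL.cons (nat_lit 7812) (nat_lit 6) (nat_lit 229355388335299677578) (ZL.cons (nat_lit 7896) (nat_lit 6) (nat_lit 221645250803227873292) (ZL.cons (nat_lit 7980) (nat_lit 3) (nat_lit 110501548903352529814) (ZL.cons (nat_lit 8064) (nat_lit 6) (nat_lit 213318302268590324664) (ZL.cons (nat_lit 8148) (nat_lit 6) (nat_lit 206255462191840718698) (ZL.cons (nat_lit 8232) (nat_lit 3) (nat_lit 102830438041974612283) (ZL.cons (nat_lit 8316) (nat_lit 6) (nat_lit 198627594908951144256) (ZL.cons (nat_lit 8400) (nat_lit 6) (nat_lit 192176780040336835856) (ZL.cons (nat_lit 8484) (nat_lit 3) (nat_lit 95813118673922355828) (ZL.cons (nat_lit 8568) (nat_lit 6) (nat_lit 185209899982233382782)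 (ZL.cons (nat_lit 8652) (nat_lit 6) (nat_lit 179340560072172794198) (ZL.cons (nat_lit 8736) (nat_lit 3) (nat_lit 89415399159932635897) (ZL.cons (nat_lit 8820) (nat_lit 6) (nat_lit 173983436344121846124) (ZL.cons (nat_lit 8904) (nat_lit 6) (nat_lit 173001672969307358530) (ZL.cons (nat_lit 8988) (nat_lit 6) (nat_lit 167687980965519299798) (ZL.cons (nat_lit 9072) (nat_lit 3) (nat_lit 83607989671506167304) (ZL.cons (nat_lit 9156) (nat_lit 6) (nat_lit 162858233763293462662) (ZL.cons (nat_lit 9240) (nat_lit 6) (nat_lit 161949193601428196370) (ZL.cons (nat_lit 9324) (nat_lit 6) (nat_lit 157170105162382593364) (ZL.cons (nat_lit 9408) (nat_lit 3) (nat_lit 78366533311512146131) (ZL.cons (nat_lit 9492) (nat_lit 6) (nat_lit 152850393501792292390) (ZL.cons (nat_lit 9576) (nat_lit 6) (nat_lit 152008689648213342118) (ZL.cons (nat_lit 9660) (nat_lit 6) (nat_lit 148964460328335276846)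 (ZL.cons (nat_lit 9744) (nat_lit 6) (nat_lit 147748066368996466234) (ZL.cons (nat_lit 9828) (nat_lit 3) (nat_lit 73671700527387908532) (ZL.cons (nat_lit 9912) (nat_lit 6) (nat_lit 143925948647422749786) (ZL.cons (nat_lit 9996) (nat_lit 6) (nat_lit 143146593227442240276) (ZL.cons (nat_lit 10080) (nat_lit 6) (nat_lit 140519686896993978162) (ZL.cons (nat_lit 10164) (nat_lit 6) (nat_lit 139393396193902486856) (ZL.cons (nat_lit 10248) (nat_lit 3) (nat_lit 69509353044071313258) (ZL.cons (nat_lit 10332) (nat_lit 6) (nat_lit 136061568786550395298) (ZL.cons (nat_lit 10416) (nat_lit 6) (nat_lit 135339943397679553162) (ZL.cons (nat_lit 10500) (nat_lit 6) (nat_lit 133131366842972027286) (ZL.cons (nat_lit 10584) (nat_lit 6) (nat_lit 132088505080850276076) (ZL.cons (nat_lit 10668) (nat_lit 3) (nat_lit 65870784898869647140) (ZL.cons (nat_lit 10752) (nat_lit 6) (nat_lit 130585426203501733230)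 (ZL.cons (nat_lit 10836) (nat_lit 6) (nat_lit 129245123355036547696) (ZL.cons (nat_lit 10920) (nat_lit 6) (nat_lit 128576951698674656826) (ZL.cons (nat_lit 11004) (nat_lit 6) (nat_lit 128408659812498207684) (ZL.cons (nat_lit 11088) (nat_lit 6) (nat_lit 126792948550752064442) (ZL.cons (nat_lit 11172) (nat_lit 6) (nat_lit 125827335808046739248) (ZL.cons (nat_lit 11256) (nat_lit 3) (nat_lit 62753049717397915087) (ZL.cons (nat_lit 11340) (nat_lit 6) (nat_lit 124717449261749214560) (ZL.cons (nat_lit 11424) (nat_lit 6) (nat_lit 123476428105762931658) (ZL.cons (nat_lit 11508) (nat_lit 6) (nat_lit 122857750646168588260) (ZL.cons (nat_lit 11592) (nat_lit 6) (nat_lit 123006326232982055240) (ZL.cons (nat_lit 11676) (nat_lit 6) (nat_lit 121510297286920811494) (ZL.cons (nat_lit 11760) (nat_lit 6) (nat_lit 120616211414045510388) (ZL.cons (nat_lit 11844) (nat_lit 3) (nat_lit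 60159385163851038032) (ZL.cons (nat_lit 11928) (nat_lit 6) (nat_lit 119634010884238370162) (ZL.cons (nat_lit 12012) (nat_lit 6) (nat_lit 119968263065199922384) (ZL.cons (nat_lit 12096) (nat_lit 6) (nat_lit 120638748180787984178) (ZL.cons (nat_lit 12180) (nat_lit 6) (nat_lit 121649439476131966276) (ZL.cons (nat_lit 12264) (nat_lit 6) (nat_lit 119917292205927240270) (ZL.cons (nat_lit 12348) (nat_lit 6) (nat_lit 118768198542976978320) (ZL.cons (nat_lit 12432) (nat_lit 6) (nat_lit 118195349043352586288) (ZL.cons (nat_lit 12516) (nat_lit 3) (nat_lit 58559904887605864442) (ZL.cons (nat_lit 12600) (nat_lit 6) (nat_lit 117293363792249457920) (ZL.cons (nat_lit 12684) (nat_lit 6) (nat_lit 117815054311611757506) (ZL.cons (nat_lit 12768) (nat_lit 6) (nat_lit 118687972832672626450) (ZL.cons (nat_lit 12852) (nat_lit 6) (nat_lit 117302760845578882240) (ZL.cons (nat_lit 12936)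 (nat_lit 6) (nat_lit 116474903555879529364) (ZL.cons (nat_lit 13020) (nat_lit 3) (nat_lit 58099747571299285828) (ZL.cons (nat_lit 13104) (nat_lit 6) (nat_lit 115126097966333798438) (ZL.cons (nat_lit 13188) (nat_lit 6) (nat_lit 115487090321772274838) (ZL.cons (nat_lit 13272) (nat_lit 6) (nat_lit 116211214246607381574) (ZL.cons (nat_lit 13356) (nat_lit 6) (nat_lit 115147238632764546438) (ZL.cons (nat_lit 13440) (nat_lit 6) (nat_lit 114616822429408627886) (ZL.cons (nat_lit 13524) (nat_lit 3) (nat_lit 56726811265353388533) (ZL.cons (nat_lit 13608) (nat_lit 6) (nat_lit 113641060869107524430) (ZL.cons (nat_lit 13692) (nat_lit 6) (nat_lit 114204486630018807980) (ZL.cons (nat_lit 13776) (nat_lit 6) (nat_lit 113437952102519407168) (ZL.cons (nat_lit 13860) (nat_lit 3) (nat_lit 56591472156222223162) (ZL.cons (nat_lit 13944) (nat_lit 6) (nat_lit 112266026519823937382)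 (ZL.cons (nat_lit 14028) (nat_lit 6) (nat_lit 112655898263697491896) (ZL.cons (nat_lit 14112) (nat_lit 6) (nat_lit 112164772149479048792) (ZL.cons (nat_lit 14196) (nat_lit 3) (nat_lit 55676919461111027703) (ZL.cons (nat_lit 14280) (nat_lit 6) (nat_lit 111556272327694862556) (ZL.cons (nat_lit 14364) (nat_lit 3) (nat_lit 55660077001775690148) (ZL.cons (nat_lit 14448) (nat_lit 6) (nat_lit 110899092520167941424) (ZL.cons (nat_lit 14532) (nat_lit 1) (nat_lit 18446744073709551617) ZL.nil)))))))))))))))))))))))))))))))))))))))))))))))))))))))))))))))))))))))))))))))))))))))))))))))))))))))))))))))))))))))))))))))))))))))))))))))))))))))))))))))))))))))))))))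

noncomputable def vl : XL := ⟨(nat_lit 0), (nat_lit 0), (nat_lit 536870912), (nat_lit 0), (nat_lit 0), (nat_lit 0), (nat_lit 0), (nat_lit 0), (nat_lit 0), (nat_lit 1), (nat_lit 0), (nat_lit 1), (nat_lit 0), (nat_lit 0), (nat_lit 0), (nat_lit 0)⟩

noncomputable def cp0 : Nat := (nat_lit 353507806998819031927136537662524346455058360193854947428625713166885940501335061809061103902362011524697411824976343624939362695785266140119530930019404191693394300651837234506148768804572035696881903259665981939696241614388801306090429831175985218902275512344871341132775976023667819160150737245510240576346407253330802820064476121031057394387476909632413586211476440842905336780075288888089510838418135755784035192869644499974514595233120566363890831936313077231180981154942086482264026410972214712439632244838573570893071882063252990780201631281166764332313187580202456061864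7601469885833460958368424176495431131801033055057047427643188668266604731964672763590125235658780857201349474609755145034555105547490329605865871340108024391789618077853680554071653296857316746438062487677643378348052711918210840720728080244099826087376155847414460641316878079315678209251489489938880030568782440800812353902857838488822969815064696557656266977415208592292039232237535643346666510208170591836710897064532467666084106180804557491102260454444215515674400877637836486084648335722850210907198327279786741376631234706015444462145926899567040651925391969825446555969875448102782086730027089777637084587486626737492170699367114407843035897039909473308800995810482594481744259140870547106386870377088685421957122640023849310503693611535047465296971910098891911391007045490395262752055884496264650325048801414285068347455898535042895028832650596392244362658366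5230706525009402774214419356784379685871361970084320006233872124205931603488147278281196950448559216502702485492404107686084792773851793949554636277817610257409635062032311735574713151410015182724536742667616574596783561400081722261284730750478162597324806021597193209740636208673144831463806077143816506264184583892652226475070189407337986698265512235697402420192670821290828547974708594965005257181191312481577687934664632935457815631206092931039834114598894355398342958151931677537301982987603366739251234355931960467966220378487049371420539908655141848352860263428306641409674188287541575093945125513004635566353595825951099569577890801649584670236269155728116700927928687213787120155928699236101320110235448049828816694701296110422529490969587460214098748474368731777120481202862742909025823574196954997337742879983917842020596344811790570009204948921766924489097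1796067211923826941084561455134336485652697894602714347515564642446113362518241659793795381057565029582509645535167089344921048622842831041945367170426868729597118740508606500923120604099126848552210092042483982220183436748232712563054977648955010074448114868812679716045182641590222928864960024603392532716252995770102694449016027643233141292334269226532719561822867905887382113079203616699087341881947184226886786713674021274485551816432295918396501395142045098496499195916852125815695027462347798398786829496939152715501737510325477773122456958872173289881904081835928091771706266803793373660977908949640641431383052864090114482644520502549489782303168302970166683540635065701656124988043548807317057927070061119218515430049408228211461527825210345120768120844846341708346095902064456602505546620512546578847206242162371467610561227743254968561541430186890155845879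73197454796095868569364743958040812729056725671168452360310116435357513415117413239880605798156799625784364400557237358498160193964022119903870945291009171534445799754640831353883004143602897485964311911460248069706041877136313244995888414761065223689851830478549269146504451626619382799201209469528036693930278602714503020655411377550612486160369571299062944679160496661560204941381417037539045174111342565283866169099301802269291743607204251186911439130426641435136869922271432965511990890079195678102555920935341580063675514120296377525766501621522175386554770115702395800127555410136453265904665238436995521221588070992032021298104763756869588055957868543604970335607209024436001112337327562023075356027397541089678278257010118227119989445311697772470151740432271883827750122579833844014765357497726398190949981609419178458021709635422410518220146109248153385893377020843993060334041113140035503168830102309238260075956354261485124337961120889611671177602041908716690462440281790860447347002197461465056109574522504755365542744913218010225234480405460823236440445601354343872433838800149578407021058269209421692955836645553147761058426124125732074849822356128219752872896123967009296377552516271368952246201)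

noncomputable def cp1 : Nat := (nat_lit 4031699862956699629476950572014993882954120998831908142724514675998264794749366747376290869478285492079398099642527414765806799439017580006511411952800008814232225686619433514776025551271928633888039767666744993984439324464044351127940370204513005257461320229517026247350130643729631269699819581688797545877578761306316123995373610501093248185633200187180232781031848093072886618950810905969962761781654395277368690968908257223366984202814807973260952383657934573878969550396571711906450656567586626226952025765756030481037337985009368293159082144330026742097638590017268660629169982115842300547690019571941731173030289547900003892226661893312910589228316510848255802195113939191647188224528665637461499753413577647072551838702910251011191030572365299641574661975002537306773277593626311007514962349478357054042657744038848524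3112793743943633599346540102027960542468037528173043118121775200987738439964801534713093510484826344489407104018618274449987599252611905652927479054446250855372156736645048381159574707195684181550310702527905755056219605670032846005245150588978619263052763021046380297626524518701415601591933169382796230485096461515132286067431553516014666855489379206253092354974773319227462574220045924059975713904109847075459029976714793923520612517443314233299348917875799495239540628342130407591547391712848284428016406052435308280318766444859464302992981720668465501400427643824766206982057756595300005978391784422853967100337393009632701461465209666941346726116133031346504173403068738280629993772539764601158044350827482111576144734929939924373735958489146745327666416059065310333227073911744402422418949377521053323723631694937279079603086476826089916995296745467567557993627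2381618265966495593274280054499686587938006235035391429738354495845162389355545712506230522963346769338977563014125257869652002927084303610278488304062387234269197440470579049967291210382310473243757752915886194649725969722220755300173517725957088031494540235485399862446597166747606669600156883738552493480489557065738138060190786587271790676902557108502026504001665238050486134998673416123498338658131792098945778043595607893220748760942663836138046089885638129683753964579647803876527880839768968044319572153374914252741373305377739110751970778647885982734755028888262478674748623760111024459987190356318344761365955368389174915241372006690133495160082936799679452182619417286796899410044583437743012382491693781218152998649367577747485900591015720982629478832243282656191770114954553969252818017756843135556815633857419016452368351016019311176605757415631316701687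5513196639467615057998958175079408997303587892591290776088205232595798487840582881149668828426781170531469098813179427470081580243855605782752137345418282341613006757937036872094116589218212919658673970334217283072474639549441969942595861342161366076751579073721252881478731379852390109544142045899415402299494397018449810140181773766009925287834825599038249483881145874505581557973826712388872610823394980767815829678817151915706069919566581632664656743187545773927769112913856365393469148902058389291821268187582761748555256745872200391131528829885821806820451030907998942821703925948890626432819562708980761113915148344143832186762082783701891930852383212849355614221087096075498741846071894765760839448895762813780776625876288395154385612984596968445814167298387458143986714966473131813168226659545497822117430105025440352382134460097860793622951185416946460630951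4369433253837471284997741867464449921699557351128511278309335886089967950292157102556622459735087034098208973236026381896203942915516040634169935696947930744735569449267177939509989985982931795972875778848023639273570807481776782144725549421981228451613228397956844781834163256573483462867374596408031904539878338586417966902876655089526205972564442960928882477427293417834445457428058409421663701484423499685809816092888675286594472029264313036533898228236374693486701204169608922781676042962636369824828007155003200673632572953302970362855517529743945332587013684952423974132295473279440772300146268255076743130694090912209174486385431429236172132952951142503171894964272892757532632154763654679493570754894997316057821269144219920300419057893379150300272815790462357841186581700388703787656897523380662739484240174042906776276716615104678281149983697832429239898426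9320361611325453205024540452164271363781142905084779359376974604948404084567895873138408141076438345193174366237100087386976749705918968587760920173669557542825053499866008530808567785136033025362086458691274156017066262602284046748995691495644358801005586674770206491936255463633323013030959836768747657483692798976676109672491041019675260446375725760814537060205410808718240951106681768535334088308178874892703856866785471448859956260961491139183372274486609164760708304722)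

noncomputable def rc0 : Nat := (nat_lit 4031699862956699629476950572014993882954120998831908142724514675998264794749366747376290869478285492079398099642527414765806799439017580006511411952800008814232225686619433514776025551271928633888039767666744993984439324464044351127940370204513005257461320229517026247350130643729631269699819581688797545877578761306316123995373610501093248185633200187180232781031848093072886618950810905969962761781654395277368690968908257223366984202814807973260952383657934573878969550396571711906450656567586626226952025765756030481037337985009368293159082144330026742097638590017268660629169982115842300547690019571941731173030289547900003892226661893312910589228316510848255802195113939191647188224528665637461499753413577647072551838702910251011191030572365299641574661975002537306773277593626311007514962349478357054042657744038848524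3112793743943633599346540102027960542468037528173043118121775200987738439964801534713093510484826344489407104018618274449987599252611905652927479054446250855372156736645048381159574707195684181550310702527905755056219605670032846005245150588978619263052763021046380297626524518701415601591933169382796230485096461515132286067431553516014666855489379206253092354974773319227462574220045924059975713904109847075459029976714793923520612517443314233299348917875799495239540628342130407591547391712848284428016406052435308280318766444859464302992981720668465501400427643824766206982057756595300005978391784422853967100337393009632701461465209666941346726116133031346504173403068738280629993772539764601158044350827482111576144734929939924373735958489146745327666416059065310333227073911744402422418949377521053323723631694937279079603086476826089916995296745467567557993627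2381618265966495593274280054499686587938006235035391429738354495845162389355545712506230522963346769338977563014125257869652002927084303610278488304062387234269197440470579049967291210382310473243757752915886194649725969722220755300173517725957088031494540235485399862446597166747606669600156883738552493480489557065738138060190786587271790676902557108502026504001665238050486134998673416123498338658131792098945778043595607893220748760942663836138046089885638129683753964579647803876527880839768968044319572153374914252741373305377739110751970778647885982734755028888262478674748623760111024459987190356318344761365955368389174915241372006690133495160082936799679452182619417286796899410044583437743012382491693781218152998649367577747485900591015720982629478832243282656191770114954553969252818017756843135556815633857419016452368351016019311176605757415631316701687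5513196639467615057998958175079408997303587892591290776088205232595798487840582881149668828426781170531469098813179427470081580243855605782752137345418282341613006757937036872094116589218212919658673970334217283072474639549441969942595861342161366076751579073721252881478731379852390109544142045899415402299494397018449810140181773766009925287834825599038249483881145874505581557973826712388872610823394980767815829678817151915706069919566581632664656743187545773927769112913856365393469148902058389291821268187582761748555256745872200391131528829885821806820451030907998942821703925948890626432819562708980761113915148344143832186762082783701891930852383212849355614221087096075498741846071894765760839448895762813780776625876288395154385612984596968445814167298387458143986714966473131813168226659545497822117430105025440352382134460097860793622951185416946460630951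4369433253837471284997741867464449921699557351128511278309335886089967950292157102556622459735087034098208973236026381896203942915516040634169935696947930744735569449267177939509989985982931795972875778848023639273570807481776782144725549421981228451613228397956844781834163256573483462867374596408031904539878338586417966902876655089526205972564442960928882477427293417834445457428058409421663701484423499685809816092888675286594472029264313036533898228236374693486701204169608922781676042962636369824828007155003200673632572953302970362855517529743945332587013684952423974132295473279440772300146268255076743130694090912209174486385431429236172132952951142503171894964272892757532632154763654679493570754894997316057821269144219920300419057893379150300272815790462357841186581700388703787656897523380662739484240174042906776276716615104678281149983697832429239898426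9320361611325453205024540452164271363781142905084779359376974604948404084567895873138408141076438345193174366237100087386976749705918968587760920173669557542825053499866008530808567785136033025362086458691274156017066262602284046748995691495644358801005586674770206491936255463633323013030959836768747657483692798976676109672491041019675260446375725760814537060205410808718240951106681768535334088308178874892703856866785471448859956260961491139183372274486609164760708304722)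

end Vale.Agent.Lib.P154.Chain.D4.S1
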